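import Vale.Agent.Lib.P154.PChain.BJ.R3_0

set_option linter.all false

namespace Vale.Agent.Lib.P154.PChain.BJ.S4

open Vale.Agent.Lib.P154.Chain

noncomputable def pc0 : PT := (PT.nd (nat_lit 5310318) (PT.nd (nat_lit 5076084) (PT.nd (nat_lit 4935606) (PT.nd (nat_lit 4888728) (PT.nd (nat_lit 4841928) (PT.nd (nat_lit 4795128) PT.nil (PT.lf (nat_lit 76) (nat_lit 3) (nat_lit 1) (nat_lit 1) (nat_lit 174) (nat_lit 102) (nat_lit 174))) (PT.nd (nat_lit 78) (PT.lf (nat_lit 152) (nat_lit 6) (nat_lit 2) (nat_lit 3) (nat_lit 173) (nat_lit 103) (nat_lit 174)) (PT.lf (nat_lit 152) (nat_lit 6) (nat_lit 2) (nat_lit 1) (nat_lit 174) (nat_lit 103) (nat_lit 173)))) (PT.nd (nat_lit 78) (PT.lf (nat_lit 228) (nat_lit 6) (nat_lit 3) (nat_lit 3) (nat_lit 172) (nat_lit 104) (nat_lit 174)) (PT.nd (nat_lit 78) (PT.lf (nat_lit 304) (nat_lit 3) (nat_lit 4) (nat_lit 1) (nat_lit 173) (nat_lit 104) (nat_lit 173)) (PT.lf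 (nat_lit 228) (nat_lit 6) (nat_lit 3) (nat_lit 1) (nat_lit 174) (nat_lit 104) (nat_lit 172))))) (PT.nd (nat_lit 46878) (PT.nd (nat_lit 78) (PT.lf (nat_lit 380) (nat_lit 6) (nat_lit 5) (nat_lit 3) (nat_lit 172) (nat_lit 105) (nat_lit 173)) (PT.nd (nat_lit 46722) (PT.lf (nat_lit 380) (nat_lit 6) (nat_lit 5) (nat_lit 1) (nat_lit 173) (nat_lit 105) (nat_lit 172)) (PT.lf (nat_lit 456) (nat_lit 6) (nat_lit 6) (nat_lit 3) (nat_lit 171) (nat_lit 106) (nat_lit 173)))) (PT.nd (nat_lit 46800) (PT.nd (nat_lit 78) (PT.lf (nat_lit 532) (nat_lit 3) (nat_lit 7) (nat_lit 1) (nat_lit 172) (nat_lit 106) (nat_lit 172)) (PT.lf (nat_lit 456) (nat_lit 6) (nat_lit 6) (nat_lit 1) (nat_lit 173) (nat_lit 106) (nat_lit 171))) (PT.nd (nat_lit 78) (PT.lf (nat_lit 608) (nat_lit 6) (nat_lit 8) (nat_lit 3) (nat_lit 171) (nat_lit 107) (nat_lit 172)) (PT.lf (nat_lit 608) (nat_lit 6) (nat_lit 8) (nat_lit 1) (nat_lit 172)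 (nat_lit 107) (nat_lit 171)))))) (PT.nd (nat_lit 93756) (PT.nd (nat_lit 46878) (PT.nd (nat_lit 78) (PT.lf (nat_lit 684) (nat_lit 6) (nat_lit 9) (nat_lit 3) (nat_lit 170) (nat_lit 108) (nat_lit 172)) (PT.nd (nat_lit 78) (PT.lf (nat_lit 760) (nat_lit 3) (nat_lit 10) (nat_lit 1) (nat_lit 171) (nat_lit 108) (nat_lit 171)) (PT.lf (nat_lit 684) (nat_lit 6) (nat_lit 9) (nat_lit 1) (nat_lit 172) (nat_lit 108) (nat_lit 170)))) (PT.nd (nat_lit 78) (PT.lf (nat_lit 836) (nat_lit 6) (nat_lit 11) (nat_lit 3) (nat_lit 170) (nat_lit 109) (nat_lit 171)) (PT.nd (nat_lit 46722) (PT.lf (nat_lit 836) (nat_lit 6) (nat_lit 11) (nat_lit 1) (nat_lit 171) (nat_lit 109) (nat_lit 170)) (PT.lf (nat_lit 912) (nat_lit 6) (nat_lit 12) (nat_lit 3) (nat_lit 169) (nat_lit 110) (nat_lit 171))))) (PT.nd (nat_lit 46878) (PT.nd (nat_lit 78) (PT.lf (nat_lit 988) (nat_lit 3) (nat_lit 13) (nat_lit 1) (nat_lit 170) (nat_lit 110)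 (nat_lit 170)) (PT.nd (nat_lit 46722) (PT.lf (nat_lit 912) (nat_lit 6) (nat_lit 12) (nat_lit 1) (nat_lit 171) (nat_lit 110) (nat_lit 169)) (PT.lf (nat_lit 1064) (nat_lit 6) (nat_lit 14) (nat_lit 3) (nat_lit 169) (nat_lit 111) (nat_lit 170)))) (PT.nd (nat_lit 46800) (PT.nd (nat_lit 46722) (PT.lf (nat_lit 1064) (nat_lit 6) (nat_lit 14) (nat_lit 1) (nat_lit 170) (nat_lit 111) (nat_lit 169)) (PT.lf (nat_lit 1140) (nat_lit 6) (nat_lit 15) (nat_lit 3) (nat_lit 168) (nat_lit 112) (nat_lit 170))) (PT.nd (nat_lit 78) (PT.lf (nat_lit 1216) (nat_lit 3) (nat_lit 16) (nat_lit 1) (nat_lit 169) (nat_lit 112) (nat_lit 169)) (PT.lf (nat_lit 1140) (nat_lit 6) (nat_lit 15) (nat_lit 1) (nat_lit 170) (nat_lit 112) (nat_lit 168))))))) (PT.nd (nat_lit 187512) (PT.nd (nat_lit 93756) (PT.nd (nat_lit 46878) (PT.nd (nat_lit 78) (PT.lf (nat_lit 1292) (nat_lit 6) (nat_lit 17) (nat_lit 3) (nat_lit 168) (nat_lit 113)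 (nat_lit 169)) (PT.nd (nat_lit 46722) (PT.lf (nat_lit 1292) (nat_lit 6) (nat_lit 17) (nat_lit 1) (nat_lit 169) (nat_lit 113) (nat_lit 168)) (PT.lf (nat_lit 1368) (nat_lit 6) (nat_lit 18) (nat_lit 3) (nat_lit 167) (nat_lit 114) (nat_lit 169)))) (PT.nd (nat_lit 78) (PT.lf (nat_lit 1444) (nat_lit 3) (nat_lit 19) (nat_lit 1) (nat_lit 168) (nat_lit 114) (nat_lit 168)) (PT.nd (nat_lit 46722) (PT.lf (nat_lit 1368) (nat_lit 6) (nat_lit 18) (nat_lit 1) (nat_lit 169) (nat_lit 114) (nat_lit 167)) (PT.lf (nat_lit 1520) (nat_lit 6) (nat_lit 20) (nat_lit 3) (nat_lit 167) (nat_lit 115) (nat_lit 168))))) (PT.nd (nat_lit 46878) (PT.nd (nat_lit 46722) (PT.lf (nat_lit 1520) (nat_lit 6) (nat_lit 20) (nat_lit 1) (nat_lit 168) (nat_lit 115) (nat_lit 167)) (PT.nd (nat_lit 78) (PT.lf (nat_lit 1596) (nat_lit 6) (nat_lit 21) (nat_lit 3) (nat_lit 166) (nat_lit 116) (nat_lit 168)) (PT.lf (nat_lit 1672) (nat_lit 3)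 (nat_lit 22) (nat_lit 1) (nat_lit 167) (nat_lit 116) (nat_lit 167)))) (PT.nd (nat_lit 46722) (PT.nd (nat_lit 46644) (PT.lf (nat_lit 1596) (nat_lit 6) (nat_lit 21) (nat_lit 1) (nat_lit 168) (nat_lit 116) (nat_lit 166)) (PT.lf (nat_lit 1748) (nat_lit 6) (nat_lit 23) (nat_lit 3) (nat_lit 165) (nat_lit 117) (nat_lit 168))) (PT.nd (nat_lit 78) (PT.lf (nat_lit 1824) (nat_lit 6) (nat_lit 24) (nat_lit 3) (nat_lit 166) (nat_lit 117) (nat_lit 167)) (PT.lf (nat_lit 1824) (nat_lit 6) (nat_lit 24) (nat_lit 1) (nat_lit 167) (nat_lit 117) (nat_lit 166)))))) (PT.nd (nat_lit 93600) (PT.nd (nat_lit 46800) (PT.nd (nat_lit 46644) (PT.lf (nat_lit 1748) (nat_lit 6) (nat_lit 23) (nat_lit 1) (nat_lit 168) (nat_lit 117) (nat_lit 165)) (PT.nd (nat_lit 78) (PT.lf (nat_lit 1900) (nat_lit 6) (nat_lit 25) (nat_lit 3) (nat_lit 165) (nat_lit 118) (nat_lit 167)) (PT.lf (nat_lit 1976) (nat_lit 3) (nat_lit 26) (nat_lit 1)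 (nat_lit 166) (nat_lit 118) (nat_lit 166)))) (PT.nd (nat_lit 46644) (PT.lf (nat_lit 1900) (nat_lit 6) (nat_lit 25) (nat_lit 1) (nat_lit 167) (nat_lit 118) (nat_lit 165)) (PT.nd (nat_lit 78) (PT.lf (nat_lit 2052) (nat_lit 6) (nat_lit 27) (nat_lit 3) (nat_lit 164) (nat_lit 119) (nat_lit 167)) (PT.lf (nat_lit 2128) (nat_lit 6) (nat_lit 28) (nat_lit 3) (nat_lit 165) (nat_lit 119) (nat_lit 166))))) (PT.nd (nat_lit 46800) (PT.nd (nat_lit 78) (PT.lf (nat_lit 2128) (nat_lit 6) (nat_lit 28) (nat_lit 1) (nat_lit 166) (nat_lit 119) (nat_lit 165)) (PT.nd (nat_lit 46644) (PT.lf (nat_lit 2052) (nat_lit 6) (nat_lit 27) (nat_lit 1) (nat_lit 167) (nat_lit 119) (nat_lit 164)) (PT.lf (nat_lit 2204) (nat_lit 6) (nat_lit 29) (nat_lit 3) (nat_lit 164) (nat_lit 120) (nat_lit 166)))) (PT.nd (nat_lit 46722) (PT.nd (nat_lit 78) (PT.lf (nat_lit 2280) (nat_lit 3) (nat_lit 30) (nat_lit 1) (nat_lit 165) (nat_lit 120)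 (nat_lit 165)) (PT.lf (nat_lit 2204) (nat_lit 6) (nat_lit 29) (nat_lit 1) (nat_lit 166) (nat_lit 120) (nat_lit 164))) (PT.nd (nat_lit 78) (PT.lf (nat_lit 2356) (nat_lit 6) (nat_lit 31) (nat_lit 3) (nat_lit 163) (nat_lit 121) (nat_lit 166)) (PT.lf (nat_lit 2432) (nat_lit 6) (nat_lit 32) (nat_lit 3) (nat_lit 164) (nat_lit 121) (nat_lit 165))))))))
noncomputable def pc1 : PT := (PT.nd (nat_lit 281034) (PT.nd (nat_lit 140634) (PT.nd (nat_lit 93600) (PT.nd (nat_lit 46800) (PT.nd (nat_lit 78) (PT.lf (nat_lit 2432) (nat_lit 6) (nat_lit 32) (nat_lit 1) (nat_lit 165) (nat_lit 121) (nat_lit 164)) (PT.nd (nat_lit 46644) (PT.lf (nat_lit 2356) (nat_lit 6) (nat_lit 31) (nat_lit 1) (nat_lit 166) (nat_lit 121) (nat_lit 163)) (PT.lf (nat_lit 2508) (nat_lit 6) (nat_lit 33) (nat_lit 3) (nat_lit 163) (nat_lit 122) (nat_lit 165)))) (PT.nd (nat_lit 78) (PT.lf (nat_lit 2584) (nat_lit 3) (nat_lit 34) (nat_lit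 1) (nat_lit 164) (nat_lit 122) (nat_lit 164)) (PT.nd (nat_lit 46644) (PT.lf (nat_lit 2508) (nat_lit 6) (nat_lit 33) (nat_lit 1) (nat_lit 165) (nat_lit 122) (nat_lit 163)) (PT.lf (nat_lit 2660) (nat_lit 6) (nat_lit 35) (nat_lit 3) (nat_lit 162) (nat_lit 123) (nat_lit 165))))) (PT.nd (nat_lit 46722) (PT.nd (nat_lit 78) (PT.lf (nat_lit 2736) (nat_lit 6) (nat_lit 36) (nat_lit 3) (nat_lit 163) (nat_lit 123) (nat_lit 164)) (PT.nd (nat_lit 78) (PT.lf (nat_lit 2736) (nat_lit 6) (nat_lit 36) (nat_lit 1) (nat_lit 164) (nat_lit 123) (nat_lit 163)) (PT.lf (nat_lit 2660) (nat_lit 6) (nat_lit 35) (nat_lit 1) (nat_lit 165) (nat_lit 123) (nat_lit 162)))) (PT.nd (nat_lit 156) (PT.nd (nat_lit 78) (PT.lf (nat_lit 2812) (nat_lit 6) (nat_lit 37) (nat_lit 3) (nat_lit 161) (nat_lit 124) (nat_lit 165)) (PT.lf (nat_lit 2888) (nat_lit 6) (nat_lit 38) (nat_lit 3) (nat_lit 162) (nat_lit 124) (nat_lit 164))) (PT.nd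 (nat_lit 78) (PT.lf (nat_lit 2964) (nat_lit 3) (nat_lit 39) (nat_lit 1) (nat_lit 163) (nat_lit 124) (nat_lit 163)) (PT.lf (nat_lit 2888) (nat_lit 6) (nat_lit 38) (nat_lit 1) (nat_lit 164) (nat_lit 124) (nat_lit 162)))))) (PT.nd (nat_lit 93444) (PT.nd (nat_lit 46722) (PT.nd (nat_lit 46566) (PT.lf (nat_lit 2812) (nat_lit 6) (nat_lit 37) (nat_lit 1) (nat_lit 165) (nat_lit 124) (nat_lit 161)) (PT.nd (nat_lit 78) (PT.lf (nat_lit 3040) (nat_lit 6) (nat_lit 40) (nat_lit 3) (nat_lit 161) (nat_lit 125) (nat_lit 164)) (PT.lf (nat_lit 3116) (nat_lit 6) (nat_lit 41) (nat_lit 3) (nat_lit 162) (nat_lit 125) (nat_lit 163)))) (PT.nd (nat_lit 78) (PT.lf (nat_lit 3116) (nat_lit 6) (nat_lit 41) (nat_lit 1) (nat_lit 163) (nat_lit 125) (nat_lit 162)) (PT.nd (nat_lit 46566) (PT.lf (nat_lit 3040) (nat_lit 6) (nat_lit 40) (nat_lit 1) (nat_lit 164) (nat_lit 125) (nat_lit 161)) (PT.lf (nat_lit 3192) (nat_lit 6)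 (nat_lit 42) (nat_lit 3) (nat_lit 160) (nat_lit 126) (nat_lit 164))))) (PT.nd (nat_lit 234) (PT.nd (nat_lit 78) (PT.lf (nat_lit 3268) (nat_lit 6) (nat_lit 43) (nat_lit 3) (nat_lit 161) (nat_lit 126) (nat_lit 163)) (PT.nd (nat_lit 78) (PT.lf (nat_lit 3344) (nat_lit 3) (nat_lit 44) (nat_lit 1) (nat_lit 162) (nat_lit 126) (nat_lit 162)) (PT.lf (nat_lit 3268) (nat_lit 6) (nat_lit 43) (nat_lit 1) (nat_lit 163) (nat_lit 126) (nat_lit 161)))) (PT.nd (nat_lit 46566) (PT.nd (nat_lit 46488) (PT.lf (nat_lit 3192) (nat_lit 6) (nat_lit 42) (nat_lit 1) (nat_lit 164) (nat_lit 126) (nat_lit 160)) (PT.lf (nat_lit 3420) (nat_lit 6) (nat_lit 45) (nat_lit 3) (nat_lit 159) (nat_lit 127) (nat_lit 164))) (PT.nd (nat_lit 78) (PT.lf (nat_lit 3496) (nat_lit 6) (nat_lit 46) (nat_lit 3) (nat_lit 160) (nat_lit 127) (nat_lit 163)) (PT.lf (nat_lit 3572) (nat_lit 6) (nat_lit 47) (nat_lit 3) (nat_lit 161) (nat_lit 127)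 (nat_lit 162))))))) (PT.nd (nat_lit 93834) (PT.nd (nat_lit 46878) (PT.nd (nat_lit 46644) (PT.nd (nat_lit 78) (PT.lf (nat_lit 3572) (nat_lit 6) (nat_lit 47) (nat_lit 1) (nat_lit 162) (nat_lit 127) (nat_lit 161)) (PT.nd (nat_lit 78) (PT.lf (nat_lit 3496) (nat_lit 6) (nat_lit 46) (nat_lit 1) (nat_lit 163) (nat_lit 127) (nat_lit 160)) (PT.lf (nat_lit 3420) (nat_lit 6) (nat_lit 45) (nat_lit 1) (nat_lit 164) (nat_lit 127) (nat_lit 159)))) (PT.nd (nat_lit 78) (PT.lf (nat_lit 3648) (nat_lit 6) (nat_lit 48) (nat_lit 3) (nat_lit 159) (nat_lit 128) (nat_lit 163)) (PT.nd (nat_lit 78) (PT.lf (nat_lit 3724) (nat_lit 6) (nat_lit 49) (nat_lit 3) (nat_lit 160) (nat_lit 128) (nat_lit 162)) (PT.lf (nat_lit 3800) (nat_lit 3) (nat_lit 50) (nat_lit 1) (nat_lit 161) (nat_lit 128) (nat_lit 161))))) (PT.nd (nat_lit 46644) (PT.nd (nat_lit 78) (PT.lf (nat_lit 3724) (nat_lit 6) (nat_lit 49) (nat_lit 1) (nat_lit 162)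 (nat_lit 128) (nat_lit 160)) (PT.nd (nat_lit 46488) (PT.lf (nat_lit 3648) (nat_lit 6) (nat_lit 48) (nat_lit 1) (nat_lit 163) (nat_lit 128) (nat_lit 159)) (PT.lf (nat_lit 3876) (nat_lit 6) (nat_lit 51) (nat_lit 3) (nat_lit 158) (nat_lit 129) (nat_lit 163)))) (PT.nd (nat_lit 156) (PT.nd (nat_lit 78) (PT.lf (nat_lit 3952) (nat_lit 6) (nat_lit 52) (nat_lit 3) (nat_lit 159) (nat_lit 129) (nat_lit 162)) (PT.lf (nat_lit 4028) (nat_lit 6) (nat_lit 53) (nat_lit 3) (nat_lit 160) (nat_lit 129) (nat_lit 161))) (PT.nd (nat_lit 78) (PT.lf (nat_lit 4028) (nat_lit 6) (nat_lit 53) (nat_lit 1) (nat_lit 161) (nat_lit 129) (nat_lit 160)) (PT.lf (nat_lit 3952) (nat_lit 6) (nat_lit 52) (nat_lit 1) (nat_lit 162) (nat_lit 129) (nat_lit 159)))))) (PT.nd (nat_lit 93366) (PT.nd (nat_lit 46644) (PT.nd (nat_lit 46488) (PT.lf (nat_lit 3876) (nat_lit 6) (nat_lit 51) (nat_lit 1) (nat_lit 163) (nat_lit 129) (nat_lit 158))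 (PT.nd (nat_lit 78) (PT.lf (nat_lit 4104) (nat_lit 6) (nat_lit 54) (nat_lit 3) (nat_lit 158) (nat_lit 130) (nat_lit 162)) (PT.lf (nat_lit 4180) (nat_lit 6) (nat_lit 55) (nat_lit 3) (nat_lit 159) (nat_lit 130) (nat_lit 161)))) (PT.nd (nat_lit 156) (PT.nd (nat_lit 78) (PT.lf (nat_lit 4256) (nat_lit 3) (nat_lit 56) (nat_lit 1) (nat_lit 160) (nat_lit 130) (nat_lit 160)) (PT.lf (nat_lit 4180) (nat_lit 6) (nat_lit 55) (nat_lit 1) (nat_lit 161) (nat_lit 130) (nat_lit 159))) (PT.nd (nat_lit 46488) (PT.lf (nat_lit 4104) (nat_lit 6) (nat_lit 54) (nat_lit 1) (nat_lit 162) (nat_lit 130) (nat_lit 158)) (PT.lf (nat_lit 4332) (nat_lit 6) (nat_lit 57) (nat_lit 3) (nat_lit 157) (nat_lit 131) (nat_lit 162))))) (PT.nd (nat_lit 234) (PT.nd (nat_lit 78) (PT.lf (nat_lit 4408) (nat_lit 6) (nat_lit 58) (nat_lit 3) (nat_lit 158) (nat_lit 131) (nat_lit 161)) (PT.nd (nat_lit 78) (PT.lf (nat_lit 4484) (nat_lit 6)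 (nat_lit 59) (nat_lit 3) (nat_lit 159) (nat_lit 131) (nat_lit 160)) (PT.lf (nat_lit 4484) (nat_lit 6) (nat_lit 59) (nat_lit 1) (nat_lit 160) (nat_lit 131) (nat_lit 159)))) (PT.nd (nat_lit 46488) (PT.nd (nat_lit 78) (PT.lf (nat_lit 4408) (nat_lit 6) (nat_lit 58) (nat_lit 1) (nat_lit 161) (nat_lit 131) (nat_lit 158)) (PT.lf (nat_lit 4332) (nat_lit 6) (nat_lit 57) (nat_lit 1) (nat_lit 162) (nat_lit 131) (nat_lit 157))) (PT.nd (nat_lit 78) (PT.lf (nat_lit 4560) (nat_lit 6) (nat_lit 60) (nat_lit 3) (nat_lit 156) (nat_lit 132) (nat_lit 162)) (PT.lf (nat_lit 4636) (nat_lit 6) (nat_lit 61) (nat_lit 3) (nat_lit 157) (nat_lit 132) (nat_lit 161))))))))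
noncomputable def pc2 : PT := (PT.nd (nat_lit 140790) (PT.nd (nat_lit 93522) (PT.nd (nat_lit 46722) (PT.nd (nat_lit 234) (PT.nd (nat_lit 78) (PT.lf (nat_lit 4712) (nat_lit 6) (nat_lit 62) (nat_lit 3) (nat_lit 158) (nat_lit 132) (nat_lit 160)) (PT.nd (nat_lit 78) (PT.lf (nat_lit 4788) (nat_lit 3) (nat_lit 63) (nat_lit 1) (nat_lit 159) (nat_lit 132) (nat_lit 159)) (PT.lf (nat_lit 4712) (nat_lit 6) (nat_lit 62) (nat_lit 1) (nat_lit 160) (nat_lit 132) (nat_lit 158)))) (PT.nd (nat_lit 78) (PT.lf (nat_lit 4636) (nat_lit 6) (nat_lit 61) (nat_lit 1) (nat_lit 161) (nat_lit 132) (nat_lit 157)) (PT.nd (nat_lit 46332) (PT.lf (nat_lit 4560) (nat_lit 6) (nat_lit 60) (nat_lit 1) (nat_lit 162) (nat_lit 132) (nat_lit 156)) (PT.lf (nat_lit 4864) (nat_lit 6) (nat_lit 64) (nat_lit 3) (nat_lit 155) (nat_lit 133) (nat_lit 162))))) (PT.nd (nat_lit 234) (PT.nd (nat_lit 78) (PT.lf (nat_lit 4940) (nat_lit 6) (nat_lit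 65) (nat_lit 3) (nat_lit 156) (nat_lit 133) (nat_lit 161)) (PT.nd (nat_lit 78) (PT.lf (nat_lit 5016) (nat_lit 6) (nat_lit 66) (nat_lit 3) (nat_lit 157) (nat_lit 133) (nat_lit 160)) (PT.lf (nat_lit 5092) (nat_lit 6) (nat_lit 67) (nat_lit 3) (nat_lit 158) (nat_lit 133) (nat_lit 159)))) (PT.nd (nat_lit 156) (PT.nd (nat_lit 78) (PT.lf (nat_lit 5092) (nat_lit 6) (nat_lit 67) (nat_lit 1) (nat_lit 159) (nat_lit 133) (nat_lit 158)) (PT.lf (nat_lit 5016) (nat_lit 6) (nat_lit 66) (nat_lit 1) (nat_lit 160) (nat_lit 133) (nat_lit 157))) (PT.nd (nat_lit 78) (PT.lf (nat_lit 4940) (nat_lit 6) (nat_lit 65) (nat_lit 1) (nat_lit 161) (nat_lit 133) (nat_lit 156)) (PT.lf (nat_lit 4864) (nat_lit 6) (nat_lit 64) (nat_lit 1) (nat_lit 162) (nat_lit 133) (nat_lit 155)))))) (PT.nd (nat_lit 468) (PT.nd (nat_lit 234) (PT.nd (nat_lit 78) (PT.lf (nat_lit 5168) (nat_lit 6) (nat_lit 68) (nat_lit 3) (nat_lit 155) (nat_lit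 134) (nat_lit 161)) (PT.nd (nat_lit 78) (PT.lf (nat_lit 5244) (nat_lit 6) (nat_lit 69) (nat_lit 3) (nat_lit 156) (nat_lit 134) (nat_lit 160)) (PT.lf (nat_lit 5320) (nat_lit 6) (nat_lit 70) (nat_lit 3) (nat_lit 157) (nat_lit 134) (nat_lit 159)))) (PT.nd (nat_lit 78) (PT.lf (nat_lit 5396) (nat_lit 3) (nat_lit 71) (nat_lit 1) (nat_lit 158) (nat_lit 134) (nat_lit 158)) (PT.nd (nat_lit 78) (PT.lf (nat_lit 5320) (nat_lit 6) (nat_lit 70) (nat_lit 1) (nat_lit 159) (nat_lit 134) (nat_lit 157)) (PT.lf (nat_lit 5244) (nat_lit 6) (nat_lit 69) (nat_lit 1) (nat_lit 160) (nat_lit 134) (nat_lit 156))))) (PT.nd (nat_lit 46488) (PT.nd (nat_lit 46332) (PT.lf (nat_lit 5168) (nat_lit 6) (nat_lit 68) (nat_lit 1) (nat_lit 161) (nat_lit 134) (nat_lit 155)) (PT.nd (nat_lit 78) (PT.lf (nat_lit 5472) (nat_lit 6) (nat_lit 72) (nat_lit 3) (nat_lit 154) (nat_lit 135) (nat_lit 161)) (PT.lf (nat_lit 5548) (nat_lit 6)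 (nat_lit 73) (nat_lit 3) (nat_lit 155) (nat_lit 135) (nat_lit 160)))) (PT.nd (nat_lit 156) (PT.nd (nat_lit 78) (PT.lf (nat_lit 5624) (nat_lit 6) (nat_lit 74) (nat_lit 3) (nat_lit 156) (nat_lit 135) (nat_lit 159)) (PT.lf (nat_lit 5700) (nat_lit 6) (nat_lit 75) (nat_lit 3) (nat_lit 157) (nat_lit 135) (nat_lit 158))) (PT.nd (nat_lit 78) (PT.lf (nat_lit 5700) (nat_lit 6) (nat_lit 75) (nat_lit 1) (nat_lit 158) (nat_lit 135) (nat_lit 157)) (PT.lf (nat_lit 5624) (nat_lit 6) (nat_lit 74) (nat_lit 1) (nat_lit 159) (nat_lit 135) (nat_lit 156))))))) (PT.nd (nat_lit 93288) (PT.nd (nat_lit 46644) (PT.nd (nat_lit 46410) (PT.nd (nat_lit 78) (PT.lf (nat_lit 5548) (nat_lit 6) (nat_lit 73) (nat_lit 1) (nat_lit 160) (nat_lit 135) (nat_lit 155)) (PT.nd (nat_lit 46254) (PT.lf (nat_lit 5472) (nat_lit 6) (nat_lit 72) (nat_lit 1) (nat_lit 161) (nat_lit 135) (nat_lit 154)) (PT.lf (nat_lit 5776) (nat_lit 6) (nat_lit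 76) (nat_lit 3) (nat_lit 153) (nat_lit 136) (nat_lit 161)))) (PT.nd (nat_lit 78) (PT.lf (nat_lit 5852) (nat_lit 6) (nat_lit 77) (nat_lit 3) (nat_lit 154) (nat_lit 136) (nat_lit 160)) (PT.nd (nat_lit 78) (PT.lf (nat_lit 5928) (nat_lit 6) (nat_lit 78) (nat_lit 3) (nat_lit 155) (nat_lit 136) (nat_lit 159)) (PT.lf (nat_lit 6004) (nat_lit 6) (nat_lit 79) (nat_lit 3) (nat_lit 156) (nat_lit 136) (nat_lit 158))))) (PT.nd (nat_lit 234) (PT.nd (nat_lit 78) (PT.lf (nat_lit 6080) (nat_lit 3) (nat_lit 80) (nat_lit 1) (nat_lit 157) (nat_lit 136) (nat_lit 157)) (PT.nd (nat_lit 78) (PT.lf (nat_lit 6004) (nat_lit 6) (nat_lit 79) (nat_lit 1) (nat_lit 158) (nat_lit 136) (nat_lit 156)) (PT.lf (nat_lit 5928) (nat_lit 6) (nat_lit 78) (nat_lit 1) (nat_lit 159) (nat_lit 136) (nat_lit 155)))) (PT.nd (nat_lit 46254) (PT.nd (nat_lit 78) (PT.lf (nat_lit 5852) (nat_lit 6) (nat_lit 77) (nat_lit 1) (nat_lit 160) (nat_lit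 136) (nat_lit 154)) (PT.lf (nat_lit 5776) (nat_lit 6) (nat_lit 76) (nat_lit 1) (nat_lit 161) (nat_lit 136) (nat_lit 153))) (PT.nd (nat_lit 78) (PT.lf (nat_lit 6156) (nat_lit 6) (nat_lit 81) (nat_lit 3) (nat_lit 152) (nat_lit 137) (nat_lit 161)) (PT.lf (nat_lit 6232) (nat_lit 6) (nat_lit 82) (nat_lit 3) (nat_lit 153) (nat_lit 137) (nat_lit 160)))))) (PT.nd (nat_lit 546) (PT.nd (nat_lit 234) (PT.nd (nat_lit 78) (PT.lf (nat_lit 6308) (nat_lit 6) (nat_lit 83) (nat_lit 3) (nat_lit 154) (nat_lit 137) (nat_lit 159)) (PT.nd (nat_lit 78) (PT.lf (nat_lit 6384) (nat_lit 6) (nat_lit 84) (nat_lit 3) (nat_lit 155) (nat_lit 137) (nat_lit 158)) (PT.lf (nat_lit 6460) (nat_lit 6) (nat_lit 85) (nat_lit 3) (nat_lit 156) (nat_lit 137) (nat_lit 157)))) (PT.nd (nat_lit 156) (PT.nd (nat_lit 78) (PT.lf (nat_lit 6460) (nat_lit 6) (nat_lit 85) (nat_lit 1) (nat_lit 157) (nat_lit 137) (nat_lit 156)) (PT.lf (nat_lit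 6384) (nat_lit 6) (nat_lit 84) (nat_lit 1) (nat_lit 158) (nat_lit 137) (nat_lit 155))) (PT.nd (nat_lit 78) (PT.lf (nat_lit 6308) (nat_lit 6) (nat_lit 83) (nat_lit 1) (nat_lit 159) (nat_lit 137) (nat_lit 154)) (PT.lf (nat_lit 6232) (nat_lit 6) (nat_lit 82) (nat_lit 1) (nat_lit 160) (nat_lit 137) (nat_lit 153))))) (PT.nd (nat_lit 46332) (PT.nd (nat_lit 46176) (PT.lf (nat_lit 6156) (nat_lit 6) (nat_lit 81) (nat_lit 1) (nat_lit 161) (nat_lit 137) (nat_lit 152)) (PT.nd (nat_lit 78) (PT.lf (nat_lit 6536) (nat_lit 6) (nat_lit 86) (nat_lit 3) (nat_lit 152) (nat_lit 138) (nat_lit 160)) (PT.lf (nat_lit 6612) (nat_lit 6) (nat_lit 87) (nat_lit 3) (nat_lit 153) (nat_lit 138) (nat_lit 159)))) (PT.nd (nat_lit 156) (PT.nd (nat_lit 78) (PT.lf (nat_lit 6688) (nat_lit 6) (nat_lit 88) (nat_lit 3) (nat_lit 154) (nat_lit 138) (nat_lit 158)) (PT.lf (nat_lit 6764) (nat_lit 6) (nat_lit 89) (nat_lit 3) (nat_lit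 155) (nat_lit 138) (nat_lit 157))) (PT.nd (nat_lit 78) (PT.lf (nat_lit 6840) (nat_lit 3) (nat_lit 90) (nat_lit 1) (nat_lit 156) (nat_lit 138) (nat_lit 156)) (PT.lf (nat_lit 6764) (nat_lit 6) (nat_lit 89) (nat_lit 1) (nat_lit 157) (nat_lit 138) (nat_lit 155))))))))
noncomputable def pc3 : PT := (PT.nd (nat_lit 140088) (PT.nd (nat_lit 93132) (PT.nd (nat_lit 46566) (PT.nd (nat_lit 46332) (PT.nd (nat_lit 78) (PT.lf (nat_lit 6688) (nat_lit 6) (nat_lit 88) (nat_lit 1) (nat_lit 158) (nat_lit 138) (nat_lit 154)) (PT.nd (nat_lit 78) (PT.lf (nat_lit 6612) (nat_lit 6) (nat_lit 87) (nat_lit 1) (nat_lit 159) (nat_lit 138) (nat_lit 153)) (PT.lf (nat_lit 6536) (nat_lit 6) (nat_lit 86) (nat_lit 1) (nat_lit 160) (nat_lit 138) (nat_lit 152)))) (PT.nd (nat_lit 78) (PT.lf (nat_lit 6916) (nat_lit 6) (nat_lit 91) (nat_lit 3) (nat_lit 151) (nat_lit 139) (nat_lit 160)) (PT.nd (nat_lit 78) (PT.lf (nat_lit 6992)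 (nat_lit 6) (nat_lit 92) (nat_lit 3) (nat_lit 152) (nat_lit 139) (nat_lit 159)) (PT.lf (nat_lit 7068) (nat_lit 6) (nat_lit 93) (nat_lit 3) (nat_lit 153) (nat_lit 139) (nat_lit 158))))) (PT.nd (nat_lit 234) (PT.nd (nat_lit 78) (PT.lf (nat_lit 7144) (nat_lit 6) (nat_lit 94) (nat_lit 3) (nat_lit 154) (nat_lit 139) (nat_lit 157)) (PT.nd (nat_lit 78) (PT.lf (nat_lit 7220) (nat_lit 6) (nat_lit 95) (nat_lit 3) (nat_lit 155) (nat_lit 139) (nat_lit 156)) (PT.lf (nat_lit 7220) (nat_lit 6) (nat_lit 95) (nat_lit 1) (nat_lit 156) (nat_lit 139) (nat_lit 155)))) (PT.nd (nat_lit 156) (PT.nd (nat_lit 78) (PT.lf (nat_lit 7144) (nat_lit 6) (nat_lit 94) (nat_lit 1) (nat_lit 157) (nat_lit 139) (nat_lit 154)) (PT.lf (nat_lit 7068) (nat_lit 6) (nat_lit 93) (nat_lit 1) (nat_lit 158) (nat_lit 139) (nat_lit 153))) (PT.nd (nat_lit 78) (PT.lf (nat_lit 6992) (nat_lit 6) (nat_lit 92) (nat_lit 1) (nat_lit 159) (nat_lit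 139) (nat_lit 152)) (PT.lf (nat_lit 6916) (nat_lit 6) (nat_lit 91) (nat_lit 1) (nat_lit 160) (nat_lit 139) (nat_lit 151)))))) (PT.nd (nat_lit 468) (PT.nd (nat_lit 234) (PT.nd (nat_lit 78) (PT.lf (nat_lit 7676) (nat_lit 6) (nat_lit 101) (nat_lit 3) (nat_lit 150) (nat_lit 140) (nat_lit 160)) (PT.nd (nat_lit 78) (PT.lf (nat_lit 7752) (nat_lit 6) (nat_lit 102) (nat_lit 3) (nat_lit 151) (nat_lit 140) (nat_lit 159)) (PT.lf (nat_lit 7828) (nat_lit 6) (nat_lit 103) (nat_lit 3) (nat_lit 152) (nat_lit 140) (nat_lit 158)))) (PT.nd (nat_lit 78) (PT.lf (nat_lit 7904) (nat_lit 6) (nat_lit 104) (nat_lit 3) (nat_lit 153) (nat_lit 140) (nat_lit 157)) (PT.nd (nat_lit 78) (PT.lf (nat_lit 7980) (nat_lit 6) (nat_lit 105) (nat_lit 3) (nat_lit 154) (nat_lit 140) (nat_lit 156)) (PT.lf (nat_lit 8056) (nat_lit 3) (nat_lit 106) (nat_lit 1) (nat_lit 155) (nat_lit 140) (nat_lit 155))))) (PT.nd (nat_lit 234) (PT.nd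 (nat_lit 78) (PT.lf (nat_lit 7980) (nat_lit 6) (nat_lit 105) (nat_lit 1) (nat_lit 156) (nat_lit 140) (nat_lit 154)) (PT.nd (nat_lit 78) (PT.lf (nat_lit 7904) (nat_lit 6) (nat_lit 104) (nat_lit 1) (nat_lit 157) (nat_lit 140) (nat_lit 153)) (PT.lf (nat_lit 7828) (nat_lit 6) (nat_lit 103) (nat_lit 1) (nat_lit 158) (nat_lit 140) (nat_lit 152)))) (PT.nd (nat_lit 46098) (PT.nd (nat_lit 78) (PT.lf (nat_lit 7752) (nat_lit 6) (nat_lit 102) (nat_lit 1) (nat_lit 159) (nat_lit 140) (nat_lit 151)) (PT.lf (nat_lit 7676) (nat_lit 6) (nat_lit 101) (nat_lit 1) (nat_lit 160) (nat_lit 140) (nat_lit 150))) (PT.nd (nat_lit 78) (PT.lf (nat_lit 7600) (nat_lit 6) (nat_lit 100) (nat_lit 3) (nat_lit 149) (nat_lit 141) (nat_lit 160)) (PT.lf (nat_lit 8436) (nat_lit 6) (nat_lit 111) (nat_lit 3) (nat_lit 150) (nat_lit 141) (nat_lit 159))))))) (PT.nd (nat_lit 46878) (PT.nd (nat_lit 468) (PT.nd (nat_lit 234) (PT.nd (nat_lit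 78) (PT.lf (nat_lit 8512) (nat_lit 6) (nat_lit 112) (nat_lit 3) (nat_lit 151) (nat_lit 141) (nat_lit 158)) (PT.nd (nat_lit 78) (PT.lf (nat_lit 8588) (nat_lit 6) (nat_lit 113) (nat_lit 3) (nat_lit 152) (nat_lit 141) (nat_lit 157)) (PT.lf (nat_lit 8664) (nat_lit 6) (nat_lit 114) (nat_lit 3) (nat_lit 153) (nat_lit 141) (nat_lit 156)))) (PT.nd (nat_lit 78) (PT.lf (nat_lit 8740) (nat_lit 6) (nat_lit 115) (nat_lit 3) (nat_lit 154) (nat_lit 141) (nat_lit 155)) (PT.nd (nat_lit 78) (PT.lf (nat_lit 8740) (nat_lit 6) (nat_lit 115) (nat_lit 1) (nat_lit 155) (nat_lit 141) (nat_lit 154)) (PT.lf (nat_lit 8664) (nat_lit 6) (nat_lit 114) (nat_lit 1) (nat_lit 156) (nat_lit 141) (nat_lit 153))))) (PT.nd (nat_lit 234) (PT.nd (nat_lit 78) (PT.lf (nat_lit 8588) (nat_lit 6) (nat_lit 113) (nat_lit 1) (nat_lit 157) (nat_lit 141) (nat_lit 152)) (PT.nd (nat_lit 78) (PT.lf (nat_lit 8512) (nat_lit 6) (nat_lit 112)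 (nat_lit 1) (nat_lit 158) (nat_lit 141) (nat_lit 151)) (PT.lf (nat_lit 8436) (nat_lit 6) (nat_lit 111) (nat_lit 1) (nat_lit 159) (nat_lit 141) (nat_lit 150)))) (PT.nd (nat_lit 46020) (PT.nd (nat_lit 45942) (PT.lf (nat_lit 7600) (nat_lit 6) (nat_lit 100) (nat_lit 1) (nat_lit 160) (nat_lit 141) (nat_lit 149)) (PT.lf (nat_lit 7524) (nat_lit 6) (nat_lit 99) (nat_lit 3) (nat_lit 148) (nat_lit 142) (nat_lit 160))) (PT.nd (nat_lit 78) (PT.lf (nat_lit 8360) (nat_lit 6) (nat_lit 110) (nat_lit 3) (nat_lit 149) (nat_lit 142) (nat_lit 159)) (PT.lf (nat_lit 9120) (nat_lit 6) (nat_lit 120) (nat_lit 3) (nat_lit 150) (nat_lit 142) (nat_lit 158)))))) (PT.nd (nat_lit 546) (PT.nd (nat_lit 234) (PT.nd (nat_lit 78) (PT.lf (nat_lit 9196) (nat_lit 6) (nat_lit 121) (nat_lit 3) (nat_lit 151) (nat_lit 142) (nat_lit 157)) (PT.nd (nat_lit 78) (PT.lf (nat_lit 9272) (nat_lit 6) (nat_lit 122) (nat_lit 3) (nat_lit 152)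 (nat_lit 142) (nat_lit 156)) (PT.lf (nat_lit 9348) (nat_lit 6) (nat_lit 123) (nat_lit 3) (nat_lit 153) (nat_lit 142) (nat_lit 155)))) (PT.nd (nat_lit 156) (PT.nd (nat_lit 78) (PT.lf (nat_lit 9424) (nat_lit 3) (nat_lit 124) (nat_lit 1) (nat_lit 154) (nat_lit 142) (nat_lit 154)) (PT.lf (nat_lit 9348) (nat_lit 6) (nat_lit 123) (nat_lit 1) (nat_lit 155) (nat_lit 142) (nat_lit 153))) (PT.nd (nat_lit 78) (PT.lf (nat_lit 9272) (nat_lit 6) (nat_lit 122) (nat_lit 1) (nat_lit 156) (nat_lit 142) (nat_lit 152)) (PT.lf (nat_lit 9196) (nat_lit 6) (nat_lit 121) (nat_lit 1) (nat_lit 157) (nat_lit 142) (nat_lit 151))))) (PT.nd (nat_lit 46020) (PT.nd (nat_lit 78) (PT.lf (nat_lit 9120) (nat_lit 6) (nat_lit 120) (nat_lit 1) (nat_lit 158) (nat_lit 142) (nat_lit 150)) (PT.nd (nat_lit 78) (PT.lf (nat_lit 8360) (nat_lit 6) (nat_lit 110) (nat_lit 1) (nat_lit 159) (nat_lit 142) (nat_lit 149)) (PT.lf (nat_lit 7524)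 (nat_lit 6) (nat_lit 99) (nat_lit 1) (nat_lit 160) (nat_lit 142) (nat_lit 148)))) (PT.nd (nat_lit 156) (PT.nd (nat_lit 78) (PT.lf (nat_lit 7448) (nat_lit 6) (nat_lit 98) (nat_lit 3) (nat_lit 147) (nat_lit 143) (nat_lit 160)) (PT.lf (nat_lit 8284) (nat_lit 6) (nat_lit 109) (nat_lit 3) (nat_lit 148) (nat_lit 143) (nat_lit 159))) (PT.nd (nat_lit 78) (PT.lf (nat_lit 9044) (nat_lit 6) (nat_lit 119) (nat_lit 3) (nat_lit 149) (nat_lit 143) (nat_lit 158)) (PT.lf (nat_lit 9728) (nat_lit 6) (nat_lit 128) (nat_lit 3) (nat_lit 150) (nat_lit 143) (nat_lit 157))))))))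
noncomputable def pc4 : PT := (PT.nd (nat_lit 93366) (PT.nd (nat_lit 46722) (PT.nd (nat_lit 468) (PT.nd (nat_lit 234) (PT.nd (nat_lit 78) (PT.lf (nat_lit 9804) (nat_lit 6) (nat_lit 129) (nat_lit 3) (nat_lit 151) (nat_lit 143) (nat_lit 156)) (PT.nd (nat_lit 78) (PT.lf (nat_lit 9880) (nat_lit 6) (nat_lit 130) (nat_lit 3) (nat_lit 152) (nat_lit 143) (nat_lit 155)) (PT.lf (nat_lit 9956) (nat_lit 6) (nat_lit 131) (nat_lit 3) (nat_lit 153) (nat_lit 143) (nat_lit 154)))) (PT.nd (nat_lit 78) (PT.lf (nat_lit 9956) (nat_lit 6) (nat_lit 131) (nat_lit 1) (nat_lit 154) (nat_lit 143) (nat_lit 153)) (PT.nd (nat_lit 78) (PT.lf (nat_lit 9880) (nat_lit 6) (nat_lit 130) (nat_lit 1) (nat_lit 155) (nat_lit 143) (nat_lit 152)) (PT.lf (nat_lit 9804) (nat_lit 6) (nat_lit 129) (nat_lit 1) (nat_lit 156) (nat_lit 143) (nat_lit 151))))) (PT.nd (nat_lit 234) (PT.nd (nat_lit 78) (PT.lf (nat_lit 9728) (nat_lit 6) (nat_lit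 128) (nat_lit 1) (nat_lit 157) (nat_lit 143) (nat_lit 150)) (PT.nd (nat_lit 78) (PT.lf (nat_lit 9044) (nat_lit 6) (nat_lit 119) (nat_lit 1) (nat_lit 158) (nat_lit 143) (nat_lit 149)) (PT.lf (nat_lit 8284) (nat_lit 6) (nat_lit 109) (nat_lit 1) (nat_lit 159) (nat_lit 143) (nat_lit 148)))) (PT.nd (nat_lit 45864) (PT.nd (nat_lit 45786) (PT.lf (nat_lit 7448) (nat_lit 6) (nat_lit 98) (nat_lit 1) (nat_lit 160) (nat_lit 143) (nat_lit 147)) (PT.lf (nat_lit 7372) (nat_lit 6) (nat_lit 97) (nat_lit 3) (nat_lit 146) (nat_lit 144) (nat_lit 160))) (PT.nd (nat_lit 78) (PT.lf (nat_lit 8208) (nat_lit 6) (nat_lit 108) (nat_lit 3) (nat_lit 147) (nat_lit 144) (nat_lit 159)) (PT.lf (nat_lit 8968) (nat_lit 6) (nat_lit 118) (nat_lit 3) (nat_lit 148) (nat_lit 144) (nat_lit 158)))))) (PT.nd (nat_lit 468) (PT.nd (nat_lit 234) (PT.nd (nat_lit 78) (PT.lf (nat_lit 9652) (nat_lit 6) (nat_lit 127) (nat_lit 3) (nat_lit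 149) (nat_lit 144) (nat_lit 157)) (PT.nd (nat_lit 78) (PT.lf (nat_lit 10260) (nat_lit 6) (nat_lit 135) (nat_lit 3) (nat_lit 150) (nat_lit 144) (nat_lit 156)) (PT.lf (nat_lit 10336) (nat_lit 6) (nat_lit 136) (nat_lit 3) (nat_lit 151) (nat_lit 144) (nat_lit 155)))) (PT.nd (nat_lit 78) (PT.lf (nat_lit 10412) (nat_lit 6) (nat_lit 137) (nat_lit 3) (nat_lit 152) (nat_lit 144) (nat_lit 154)) (PT.nd (nat_lit 78) (PT.lf (nat_lit 10488) (nat_lit 3) (nat_lit 138) (nat_lit 1) (nat_lit 153) (nat_lit 144) (nat_lit 153)) (PT.lf (nat_lit 10412) (nat_lit 6) (nat_lit 137) (nat_lit 1) (nat_lit 154) (nat_lit 144) (nat_lit 152))))) (PT.nd (nat_lit 234) (PT.nd (nat_lit 78) (PT.lf (nat_lit 10336) (nat_lit 6) (nat_lit 136) (nat_lit 1) (nat_lit 155) (nat_lit 144) (nat_lit 151)) (PT.nd (nat_lit 78) (PT.lf (nat_lit 10260) (nat_lit 6) (nat_lit 135) (nat_lit 1) (nat_lit 156) (nat_lit 144) (nat_lit 150)) (PT.lf (nat_lit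 9652) (nat_lit 6) (nat_lit 127) (nat_lit 1) (nat_lit 157) (nat_lit 144) (nat_lit 149)))) (PT.nd (nat_lit 156) (PT.nd (nat_lit 78) (PT.lf (nat_lit 8968) (nat_lit 6) (nat_lit 118) (nat_lit 1) (nat_lit 158) (nat_lit 144) (nat_lit 148)) (PT.lf (nat_lit 8208) (nat_lit 6) (nat_lit 108) (nat_lit 1) (nat_lit 159) (nat_lit 144) (nat_lit 147))) (PT.nd (nat_lit 45708) (PT.lf (nat_lit 7372) (nat_lit 6) (nat_lit 97) (nat_lit 1) (nat_lit 160) (nat_lit 144) (nat_lit 146)) (PT.lf (nat_lit 7296) (nat_lit 3) (nat_lit 96) (nat_lit 3) (nat_lit 145) (nat_lit 145) (nat_lit 160))))))) (PT.nd (nat_lit 1014) (PT.nd (nat_lit 468) (PT.nd (nat_lit 234) (PT.nd (nat_lit 78) (PT.lf (nat_lit 8132) (nat_lit 6) (nat_lit 107) (nat_lit 3) (nat_lit 146) (nat_lit 145) (nat_lit 159)) (PT.nd (nat_lit 78) (PT.lf (nat_lit 8892) (nat_lit 6) (nat_lit 117) (nat_lit 3) (nat_lit 147) (nat_lit 145) (nat_lit 158)) (PT.lf (nat_lit 9576)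 (nat_lit 6) (nat_lit 126) (nat_lit 3) (nat_lit 148) (nat_lit 145) (nat_lit 157)))) (PT.nd (nat_lit 78) (PT.lf (nat_lit 10184) (nat_lit 6) (nat_lit 134) (nat_lit 3) (nat_lit 149) (nat_lit 145) (nat_lit 156)) (PT.nd (nat_lit 78) (PT.lf (nat_lit 10716) (nat_lit 6) (nat_lit 141) (nat_lit 3) (nat_lit 150) (nat_lit 145) (nat_lit 155)) (PT.lf (nat_lit 10792) (nat_lit 6) (nat_lit 142) (nat_lit 3) (nat_lit 151) (nat_lit 145) (nat_lit 154))))) (PT.nd (nat_lit 234) (PT.nd (nat_lit 78) (PT.lf (nat_lit 10868) (nat_lit 6) (nat_lit 143) (nat_lit 3) (nat_lit 152) (nat_lit 145) (nat_lit 153)) (PT.nd (nat_lit 78) (PT.lf (nat_lit 10868) (nat_lit 6) (nat_lit 143) (nat_lit 1) (nat_lit 153) (nat_lit 145) (nat_lit 152)) (PT.lf (nat_lit 10792) (nat_lit 6) (nat_lit 142) (nat_lit 1) (nat_lit 154) (nat_lit 145) (nat_lit 151)))) (PT.nd (nat_lit 156) (PT.nd (nat_lit 78) (PT.lf (nat_lit 10716) (nat_lit 6) (nat_lit 141)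 (nat_lit 1) (nat_lit 155) (nat_lit 145) (nat_lit 150)) (PT.lf (nat_lit 10184) (nat_lit 6) (nat_lit 134) (nat_lit 1) (nat_lit 156) (nat_lit 145) (nat_lit 149))) (PT.nd (nat_lit 78) (PT.lf (nat_lit 9576) (nat_lit 6) (nat_lit 126) (nat_lit 1) (nat_lit 157) (nat_lit 145) (nat_lit 148)) (PT.lf (nat_lit 8892) (nat_lit 6) (nat_lit 117) (nat_lit 1) (nat_lit 158) (nat_lit 145) (nat_lit 147)))))) (PT.nd (nat_lit 46020) (PT.nd (nat_lit 45786) (PT.nd (nat_lit 78) (PT.lf (nat_lit 8132) (nat_lit 6) (nat_lit 107) (nat_lit 1) (nat_lit 159) (nat_lit 145) (nat_lit 146)) (PT.nd (nat_lit 45630) (PT.lf (nat_lit 7296) (nat_lit 3) (nat_lit 96) (nat_lit 0) (nat_lit 160) (nat_lit 145) (nat_lit 145)) (PT.lf (nat_lit 7372) (nat_lit 6) (nat_lit 97) (nat_lit 5) (nat_lit 144) (nat_lit 146) (nat_lit 160)))) (PT.nd (nat_lit 78) (PT.lf (nat_lit 8132) (nat_lit 6) (nat_lit 107) (nat_lit 5) (nat_lit 145) (nat_lit 146) (nat_lit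 159)) (PT.nd (nat_lit 78) (PT.lf (nat_lit 8816) (nat_lit 3) (nat_lit 116) (nat_lit 3) (nat_lit 146) (nat_lit 146) (nat_lit 158)) (PT.lf (nat_lit 9500) (nat_lit 6) (nat_lit 125) (nat_lit 3) (nat_lit 147) (nat_lit 146) (nat_lit 157))))) (PT.nd (nat_lit 234) (PT.nd (nat_lit 78) (PT.lf (nat_lit 10108) (nat_lit 6) (nat_lit 133) (nat_lit 3) (nat_lit 148) (nat_lit 146) (nat_lit 156)) (PT.nd (nat_lit 78) (PT.lf (nat_lit 10640) (nat_lit 6) (nat_lit 140) (nat_lit 3) (nat_lit 149) (nat_lit 146) (nat_lit 155)) (PT.lf (nat_lit 11096) (nat_lit 6) (nat_lit 146) (nat_lit 3) (nat_lit 150) (nat_lit 146) (nat_lit 154)))) (PT.nd (nat_lit 156) (PT.nd (nat_lit 78) (PT.lf (nat_lit 11172) (nat_lit 6) (nat_lit 147) (nat_lit 3) (nat_lit 151) (nat_lit 146) (nat_lit 153)) (PT.lf (nat_lit 11248) (nat_lit 3) (nat_lit 148) (nat_lit 1) (nat_lit 152) (nat_lit 146) (nat_lit 152))) (PT.nd (nat_lit 78) (PT.lf (nat_lit 11172)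 (nat_lit 6) (nat_lit 147) (nat_lit 1) (nat_lit 153) (nat_lit 146) (nat_lit 151)) (PT.lf (nat_lit 11096) (nat_lit 6) (nat_lit 146) (nat_lit 1) (nat_lit 154) (nat_lit 146) (nat_lit 150))))))))
noncomputable def pc5 : PT := (PT.nd (nat_lit 92898) (PT.nd (nat_lit 46488) (PT.nd (nat_lit 45942) (PT.nd (nat_lit 234) (PT.nd (nat_lit 78) (PT.lf (nat_lit 10640) (nat_lit 6) (nat_lit 140) (nat_lit 1) (nat_lit 155) (nat_lit 146) (nat_lit 149)) (PT.nd (nat_lit 78) (PT.lf (nat_lit 10108) (nat_lit 6) (nat_lit 133) (nat_lit 1) (nat_lit 156) (nat_lit 146) (nat_lit 148)) (PT.lf (nat_lit 9500) (nat_lit 6) (nat_lit 125) (nat_lit 1) (nat_lit 157) (nat_lit 146) (nat_lit 147)))) (PT.nd (nat_lit 78) (PT.lf (nat_lit 8816) (nat_lit 3) (nat_lit 116) (nat_lit 0) (nat_lit 158) (nat_lit 146) (nat_lit 146)) (PT.nd (nat_lit 78) (PT.lf (nat_lit 8132) (nat_lit 6) (nat_lit 107) (nat_lit 0) (nat_lit 159) (nat_lit 146) (nat_lit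 145)) (PT.lf (nat_lit 7372) (nat_lit 6) (nat_lit 97) (nat_lit 0) (nat_lit 160) (nat_lit 146) (nat_lit 144))))) (PT.nd (nat_lit 234) (PT.nd (nat_lit 78) (PT.lf (nat_lit 7448) (nat_lit 6) (nat_lit 98) (nat_lit 5) (nat_lit 143) (nat_lit 147) (nat_lit 160)) (PT.nd (nat_lit 78) (PT.lf (nat_lit 8208) (nat_lit 6) (nat_lit 108) (nat_lit 5) (nat_lit 144) (nat_lit 147) (nat_lit 159)) (PT.lf (nat_lit 8892) (nat_lit 6) (nat_lit 117) (nat_lit 5) (nat_lit 145) (nat_lit 147) (nat_lit 158)))) (PT.nd (nat_lit 156) (PT.nd (nat_lit 78) (PT.lf (nat_lit 9500) (nat_lit 6) (nat_lit 125) (nat_lit 5) (nat_lit 146) (nat_lit 147) (nat_lit 157)) (PT.lf (nat_lit 10032) (nat_lit 3) (nat_lit 132) (nat_lit 3) (nat_lit 147) (nat_lit 147) (nat_lit 156))) (PT.nd (nat_lit 78) (PT.lf (nat_lit 10564) (nat_lit 6) (nat_lit 139) (nat_lit 3) (nat_lit 148) (nat_lit 147) (nat_lit 155)) (PT.lf (nat_lit 11020) (nat_lit 6) (nat_lit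 145) (nat_lit 3) (nat_lit 149) (nat_lit 147) (nat_lit 154)))))) (PT.nd (nat_lit 468) (PT.nd (nat_lit 234) (PT.nd (nat_lit 78) (PT.lf (nat_lit 11400) (nat_lit 6) (nat_lit 150) (nat_lit 3) (nat_lit 150) (nat_lit 147) (nat_lit 153)) (PT.nd (nat_lit 78) (PT.lf (nat_lit 11476) (nat_lit 6) (nat_lit 151) (nat_lit 3) (nat_lit 151) (nat_lit 147) (nat_lit 152)) (PT.lf (nat_lit 11476) (nat_lit 6) (nat_lit 151) (nat_lit 1) (nat_lit 152) (nat_lit 147) (nat_lit 151)))) (PT.nd (nat_lit 78) (PT.lf (nat_lit 11400) (nat_lit 6) (nat_lit 150) (nat_lit 1) (nat_lit 153) (nat_lit 147) (nat_lit 150)) (PT.nd (nat_lit 78) (PT.lf (nat_lit 11020) (nat_lit 6) (nat_lit 145) (nat_lit 1) (nat_lit 154) (nat_lit 147) (nat_lit 149)) (PT.lf (nat_lit 10564) (nat_lit 6) (nat_lit 139) (nat_lit 1) (nat_lit 155) (nat_lit 147) (nat_lit 148))))) (PT.nd (nat_lit 234) (PT.nd (nat_lit 78) (PT.lf (nat_lit 10032) (nat_lit 3) (nat_lit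 132) (nat_lit 0) (nat_lit 156) (nat_lit 147) (nat_lit 147)) (PT.nd (nat_lit 78) (PT.lf (nat_lit 9500) (nat_lit 6) (nat_lit 125) (nat_lit 0) (nat_lit 157) (nat_lit 147) (nat_lit 146)) (PT.lf (nat_lit 8892) (nat_lit 6) (nat_lit 117) (nat_lit 0) (nat_lit 158) (nat_lit 147) (nat_lit 145)))) (PT.nd (nat_lit 45552) (PT.nd (nat_lit 78) (PT.lf (nat_lit 8208) (nat_lit 6) (nat_lit 108) (nat_lit 0) (nat_lit 159) (nat_lit 147) (nat_lit 144)) (PT.lf (nat_lit 7448) (nat_lit 6) (nat_lit 98) (nat_lit 0) (nat_lit 160) (nat_lit 147) (nat_lit 143))) (PT.nd (nat_lit 78) (PT.lf (nat_lit 7524) (nat_lit 6) (nat_lit 99) (nat_lit 5) (nat_lit 142) (nat_lit 148) (nat_lit 160)) (PT.lf (nat_lit 8284) (nat_lit 6) (nat_lit 109) (nat_lit 5) (nat_lit 143) (nat_lit 148) (nat_lit 159))))))) (PT.nd (nat_lit 1014) (PT.nd (nat_lit 468) (PT.nd (nat_lit 234) (PT.nd (nat_lit 78) (PT.lf (nat_lit 8968) (nat_lit 6) (nat_lit 118)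 (nat_lit 5) (nat_lit 144) (nat_lit 148) (nat_lit 158)) (PT.nd (nat_lit 78) (PT.lf (nat_lit 9576) (nat_lit 6) (nat_lit 126) (nat_lit 5) (nat_lit 145) (nat_lit 148) (nat_lit 157)) (PT.lf (nat_lit 10108) (nat_lit 6) (nat_lit 133) (nat_lit 5) (nat_lit 146) (nat_lit 148) (nat_lit 156)))) (PT.nd (nat_lit 78) (PT.lf (nat_lit 10564) (nat_lit 6) (nat_lit 139) (nat_lit 5) (nat_lit 147) (nat_lit 148) (nat_lit 155)) (PT.nd (nat_lit 78) (PT.lf (nat_lit 10944) (nat_lit 3) (nat_lit 144) (nat_lit 3) (nat_lit 148) (nat_lit 148) (nat_lit 154)) (PT.lf (nat_lit 11324) (nat_lit 6) (nat_lit 149) (nat_lit 3) (nat_lit 149) (nat_lit 148) (nat_lit 153))))) (PT.nd (nat_lit 234) (PT.nd (nat_lit 78) (PT.lf (nat_lit 11628) (nat_lit 6) (nat_lit 153) (nat_lit 3) (nat_lit 150) (nat_lit 148) (nat_lit 152)) (PT.nd (nat_lit 78) (PT.lf (nat_lit 11704) (nat_lit 3) (nat_lit 154) (nat_lit 1) (nat_lit 151) (nat_lit 148) (nat_lit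 151)) (PT.lf (nat_lit 11628) (nat_lit 6) (nat_lit 153) (nat_lit 1) (nat_lit 152) (nat_lit 148) (nat_lit 150)))) (PT.nd (nat_lit 156) (PT.nd (nat_lit 78) (PT.lf (nat_lit 11324) (nat_lit 6) (nat_lit 149) (nat_lit 1) (nat_lit 153) (nat_lit 148) (nat_lit 149)) (PT.lf (nat_lit 10944) (nat_lit 3) (nat_lit 144) (nat_lit 0) (nat_lit 154) (nat_lit 148) (nat_lit 148))) (PT.nd (nat_lit 78) (PT.lf (nat_lit 10564) (nat_lit 6) (nat_lit 139) (nat_lit 0) (nat_lit 155) (nat_lit 148) (nat_lit 147)) (PT.lf (nat_lit 10108) (nat_lit 6) (nat_lit 133) (nat_lit 0) (nat_lit 156) (nat_lit 148) (nat_lit 146)))))) (PT.nd (nat_lit 45864) (PT.nd (nat_lit 234) (PT.nd (nat_lit 78) (PT.lf (nat_lit 9576) (nat_lit 6) (nat_lit 126) (nat_lit 0) (nat_lit 157) (nat_lit 148) (nat_lit 145)) (PT.nd (nat_lit 78) (PT.lf (nat_lit 8968) (nat_lit 6) (nat_lit 118) (nat_lit 0) (nat_lit 158) (nat_lit 148) (nat_lit 144)) (PT.lf (nat_lit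 8284) (nat_lit 6) (nat_lit 109) (nat_lit 0) (nat_lit 159) (nat_lit 148) (nat_lit 143)))) (PT.nd (nat_lit 45474) (PT.nd (nat_lit 45396) (PT.lf (nat_lit 7524) (nat_lit 6) (nat_lit 99) (nat_lit 0) (nat_lit 160) (nat_lit 148) (nat_lit 142)) (PT.lf (nat_lit 7600) (nat_lit 6) (nat_lit 100) (nat_lit 5) (nat_lit 141) (nat_lit 149) (nat_lit 160))) (PT.nd (nat_lit 78) (PT.lf (nat_lit 8360) (nat_lit 6) (nat_lit 110) (nat_lit 5) (nat_lit 142) (nat_lit 149) (nat_lit 159)) (PT.lf (nat_lit 9044) (nat_lit 6) (nat_lit 119) (nat_lit 5) (nat_lit 143) (nat_lit 149) (nat_lit 158))))) (PT.nd (nat_lit 234) (PT.nd (nat_lit 78) (PT.lf (nat_lit 9652) (nat_lit 6) (nat_lit 127) (nat_lit 5) (nat_lit 144) (nat_lit 149) (nat_lit 157)) (PT.nd (nat_lit 78) (PT.lf (nat_lit 10184) (nat_lit 6) (nat_lit 134) (nat_lit 5) (nat_lit 145) (nat_lit 149) (nat_lit 156)) (PT.lf (nat_lit 10640) (nat_lit 6) (nat_lit 140) (nat_lit 5)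 (nat_lit 146) (nat_lit 149) (nat_lit 155)))) (PT.nd (nat_lit 156) (PT.nd (nat_lit 78) (PT.lf (nat_lit 11020) (nat_lit 6) (nat_lit 145) (nat_lit 5) (nat_lit 147) (nat_lit 149) (nat_lit 154)) (PT.lf (nat_lit 11324) (nat_lit 6) (nat_lit 149) (nat_lit 5) (nat_lit 148) (nat_lit 149) (nat_lit 153))) (PT.nd (nat_lit 78) (PT.lf (nat_lit 11552) (nat_lit 3) (nat_lit 152) (nat_lit 3) (nat_lit 149) (nat_lit 149) (nat_lit 152)) (PT.lf (nat_lit 11780) (nat_lit 6) (nat_lit 155) (nat_lit 3) (nat_lit 150) (nat_lit 149) (nat_lit 151))))))))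
noncomputable def pc6 : PT := (PT.nd (nat_lit 47268) (PT.nd (nat_lit 46254) (PT.nd (nat_lit 468) (PT.nd (nat_lit 234) (PT.nd (nat_lit 78) (PT.lf (nat_lit 11780) (nat_lit 6) (nat_lit 155) (nat_lit 1) (nat_lit 151) (nat_lit 149) (nat_lit 150)) (PT.nd (nat_lit 78) (PT.lf (nat_lit 11552) (nat_lit 3) (nat_lit 152) (nat_lit 0) (nat_lit 152) (nat_lit 149) (nat_lit 149)) (PT.lf (nat_lit 11324) (nat_lit 6) (nat_lit 149) (nat_lit 0) (nat_lit 153) (nat_lit 149) (nat_lit 148)))) (PT.nd (nat_lit 78) (PT.lf (nat_lit 11020) (nat_lit 6) (nat_lit 145) (nat_lit 0) (nat_lit 154) (nat_lit 149) (nat_lit 147)) (PT.nd (nat_lit 78) (PT.lf (nat_lit 10640) (nat_lit 6) (nat_lit 140) (nat_lit 0) (nat_lit 155) (nat_lit 149) (nat_lit 146)) (PT.lf (nat_lit 10184) (nat_lit 6) (nat_lit 134) (nat_lit 0) (nat_lit 156) (nat_lit 149) (nat_lit 145))))) (PT.nd (nat_lit 234) (PT.nd (nat_lit 78) (PT.lf (nat_lit 9652) (nat_lit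 6) (nat_lit 127) (nat_lit 0) (nat_lit 157) (nat_lit 149) (nat_lit 144)) (PT.nd (nat_lit 78) (PT.lf (nat_lit 9044) (nat_lit 6) (nat_lit 119) (nat_lit 0) (nat_lit 158) (nat_lit 149) (nat_lit 143)) (PT.lf (nat_lit 8360) (nat_lit 6) (nat_lit 110) (nat_lit 0) (nat_lit 159) (nat_lit 149) (nat_lit 142)))) (PT.nd (nat_lit 45396) (PT.nd (nat_lit 45318) (PT.lf (nat_lit 7600) (nat_lit 6) (nat_lit 100) (nat_lit 0) (nat_lit 160) (nat_lit 149) (nat_lit 141)) (PT.lf (nat_lit 7676) (nat_lit 6) (nat_lit 101) (nat_lit 5) (nat_lit 140) (nat_lit 150) (nat_lit 160))) (PT.nd (nat_lit 78) (PT.lf (nat_lit 8436) (nat_lit 6) (nat_lit 111) (nat_lit 5) (nat_lit 141) (nat_lit 150) (nat_lit 159)) (PT.lf (nat_lit 9120) (nat_lit 6) (nat_lit 120) (nat_lit 5) (nat_lit 142) (nat_lit 150) (nat_lit 158)))))) (PT.nd (nat_lit 468) (PT.nd (nat_lit 234) (PT.nd (nat_lit 78) (PT.lf (nat_lit 9728) (nat_lit 6) (nat_lit 128) (nat_lit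 5) (nat_lit 143) (nat_lit 150) (nat_lit 157)) (PT.nd (nat_lit 78) (PT.lf (nat_lit 10260) (nat_lit 6) (nat_lit 135) (nat_lit 5) (nat_lit 144) (nat_lit 150) (nat_lit 156)) (PT.lf (nat_lit 10716) (nat_lit 6) (nat_lit 141) (nat_lit 5) (nat_lit 145) (nat_lit 150) (nat_lit 155)))) (PT.nd (nat_lit 78) (PT.lf (nat_lit 11096) (nat_lit 6) (nat_lit 146) (nat_lit 5) (nat_lit 146) (nat_lit 150) (nat_lit 154)) (PT.nd (nat_lit 78) (PT.lf (nat_lit 11400) (nat_lit 6) (nat_lit 150) (nat_lit 5) (nat_lit 147) (nat_lit 150) (nat_lit 153)) (PT.lf (nat_lit 11628) (nat_lit 6) (nat_lit 153) (nat_lit 5) (nat_lit 148) (nat_lit 150) (nat_lit 152))))) (PT.nd (nat_lit 234) (PT.nd (nat_lit 78) (PT.lf (nat_lit 11780) (nat_lit 6) (nat_lit 155) (nat_lit 5) (nat_lit 149) (nat_lit 150) (nat_lit 151)) (PT.nd (nat_lit 78) (PT.lf (nat_lit 11856) (nat_lit 1) (nat_lit 156) (nat_lit 0) (nat_lit 150) (nat_lit 150) (nat_lit 150))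 (PT.lf (nat_lit 11780) (nat_lit 6) (nat_lit 155) (nat_lit 0) (nat_lit 151) (nat_lit 150) (nat_lit 149)))) (PT.nd (nat_lit 156) (PT.nd (nat_lit 78) (PT.lf (nat_lit 11628) (nat_lit 6) (nat_lit 153) (nat_lit 0) (nat_lit 152) (nat_lit 150) (nat_lit 148)) (PT.lf (nat_lit 11400) (nat_lit 6) (nat_lit 150) (nat_lit 0) (nat_lit 153) (nat_lit 150) (nat_lit 147))) (PT.nd (nat_lit 78) (PT.lf (nat_lit 11096) (nat_lit 6) (nat_lit 146) (nat_lit 0) (nat_lit 154) (nat_lit 150) (nat_lit 146)) (PT.lf (nat_lit 10716) (nat_lit 6) (nat_lit 141) (nat_lit 0) (nat_lit 155) (nat_lit 150) (nat_lit 145))))))) (PT.nd (nat_lit 46176) (PT.nd (nat_lit 45630) (PT.nd (nat_lit 234) (PT.nd (nat_lit 78) (PT.lf (nat_lit 10260) (nat_lit 6) (nat_lit 135) (nat_lit 0) (nat_lit 156) (nat_lit 150) (nat_lit 144)) (PT.nd (nat_lit 78) (PT.lf (nat_lit 9728) (nat_lit 6) (nat_lit 128) (nat_lit 0) (nat_lit 157) (nat_lit 150) (nat_lit 143))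 (PT.lf (nat_lit 9120) (nat_lit 6) (nat_lit 120) (nat_lit 0) (nat_lit 158) (nat_lit 150) (nat_lit 142)))) (PT.nd (nat_lit 78) (PT.lf (nat_lit 8436) (nat_lit 6) (nat_lit 111) (nat_lit 0) (nat_lit 159) (nat_lit 150) (nat_lit 141)) (PT.nd (nat_lit 45240) (PT.lf (nat_lit 7676) (nat_lit 6) (nat_lit 101) (nat_lit 0) (nat_lit 160) (nat_lit 150) (nat_lit 140)) (PT.lf (nat_lit 6916) (nat_lit 6) (nat_lit 91) (nat_lit 5) (nat_lit 139) (nat_lit 151) (nat_lit 160))))) (PT.nd (nat_lit 234) (PT.nd (nat_lit 78) (PT.lf (nat_lit 7752) (nat_lit 6) (nat_lit 102) (nat_lit 5) (nat_lit 140) (nat_lit 151) (nat_lit 159)) (PT.nd (nat_lit 78) (PT.lf (nat_lit 8512) (nat_lit 6) (nat_lit 112) (nat_lit 5) (nat_lit 141) (nat_lit 151) (nat_lit 158)) (PT.lf (nat_lit 9196) (nat_lit 6) (nat_lit 121) (nat_lit 5) (nat_lit 142) (nat_lit 151) (nat_lit 157)))) (PT.nd (nat_lit 156) (PT.nd (nat_lit 78) (PT.lf (nat_lit 9804) (nat_lit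 6) (nat_lit 129) (nat_lit 5) (nat_lit 143) (nat_lit 151) (nat_lit 156)) (PT.lf (nat_lit 10336) (nat_lit 6) (nat_lit 136) (nat_lit 5) (nat_lit 144) (nat_lit 151) (nat_lit 155))) (PT.nd (nat_lit 78) (PT.lf (nat_lit 10792) (nat_lit 6) (nat_lit 142) (nat_lit 5) (nat_lit 145) (nat_lit 151) (nat_lit 154)) (PT.lf (nat_lit 11172) (nat_lit 6) (nat_lit 147) (nat_lit 5) (nat_lit 146) (nat_lit 151) (nat_lit 153)))))) (PT.nd (nat_lit 546) (PT.nd (nat_lit 234) (PT.nd (nat_lit 78) (PT.lf (nat_lit 11476) (nat_lit 6) (nat_lit 151) (nat_lit 5) (nat_lit 147) (nat_lit 151) (nat_lit 152)) (PT.nd (nat_lit 78) (PT.lf (nat_lit 11704) (nat_lit 3) (nat_lit 154) (nat_lit 4) (nat_lit 148) (nat_lit 151) (nat_lit 151)) (PT.lf (nat_lit 11780) (nat_lit 6) (nat_lit 155) (nat_lit 4) (nat_lit 149) (nat_lit 151) (nat_lit 150)))) (PT.nd (nat_lit 156) (PT.nd (nat_lit 78) (PT.lf (nat_lit 11780) (nat_lit 6) (nat_lit 155) (nat_lit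 2) (nat_lit 150) (nat_lit 151) (nat_lit 149)) (PT.lf (nat_lit 11704) (nat_lit 3) (nat_lit 154) (nat_lit 0) (nat_lit 151) (nat_lit 151) (nat_lit 148))) (PT.nd (nat_lit 78) (PT.lf (nat_lit 11476) (nat_lit 6) (nat_lit 151) (nat_lit 0) (nat_lit 152) (nat_lit 151) (nat_lit 147)) (PT.lf (nat_lit 11172) (nat_lit 6) (nat_lit 147) (nat_lit 0) (nat_lit 153) (nat_lit 151) (nat_lit 146))))) (PT.nd (nat_lit 234) (PT.nd (nat_lit 78) (PT.lf (nat_lit 10792) (nat_lit 6) (nat_lit 142) (nat_lit 0) (nat_lit 154) (nat_lit 151) (nat_lit 145)) (PT.nd (nat_lit 78) (PT.lf (nat_lit 10336) (nat_lit 6) (nat_lit 136) (nat_lit 0) (nat_lit 155) (nat_lit 151) (nat_lit 144)) (PT.lf (nat_lit 9804) (nat_lit 6) (nat_lit 129) (nat_lit 0) (nat_lit 156) (nat_lit 151) (nat_lit 143)))) (PT.nd (nat_lit 156) (PT.nd (nat_lit 78) (PT.lf (nat_lit 9196) (nat_lit 6) (nat_lit 121) (nat_lit 0) (nat_lit 157) (nat_lit 151) (nat_lit 142))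 (PT.lf (nat_lit 8512) (nat_lit 6) (nat_lit 112) (nat_lit 0) (nat_lit 158) (nat_lit 151) (nat_lit 141))) (PT.nd (nat_lit 78) (PT.lf (nat_lit 7752) (nat_lit 6) (nat_lit 102) (nat_lit 0) (nat_lit 159) (nat_lit 151) (nat_lit 140)) (PT.lf (nat_lit 6916) (nat_lit 6) (nat_lit 91) (nat_lit 0) (nat_lit 160) (nat_lit 151) (nat_lit 139))))))))
noncomputable def pc7 : PT := (PT.nd (nat_lit 46878) (PT.nd (nat_lit 1014) (PT.nd (nat_lit 468) (PT.nd (nat_lit 234) (PT.nd (nat_lit 78) (PT.lf (nat_lit 6156) (nat_lit 6) (nat_lit 81) (nat_lit 5) (nat_lit 137) (nat_lit 152) (nat_lit 161)) (PT.nd (nat_lit 78) (PT.lf (nat_lit 6536) (nat_lit 6) (nat_lit 86) (nat_lit 5) (nat_lit 138) (nat_lit 152) (nat_lit 160)) (PT.lf (nat_lit 6992) (nat_lit 6) (nat_lit 92) (nat_lit 5) (nat_lit 139) (nat_lit 152) (nat_lit 159)))) (PT.nd (nat_lit 78) (PT.lf (nat_lit 7828) (nat_lit 6) (nat_lit 103) (nat_lit 5) (nat_lit 140) (nat_lit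 152) (nat_lit 158)) (PT.nd (nat_lit 78) (PT.lf (nat_lit 8588) (nat_lit 6) (nat_lit 113) (nat_lit 5) (nat_lit 141) (nat_lit 152) (nat_lit 157)) (PT.lf (nat_lit 9272) (nat_lit 6) (nat_lit 122) (nat_lit 5) (nat_lit 142) (nat_lit 152) (nat_lit 156))))) (PT.nd (nat_lit 234) (PT.nd (nat_lit 78) (PT.lf (nat_lit 9880) (nat_lit 6) (nat_lit 130) (nat_lit 5) (nat_lit 143) (nat_lit 152) (nat_lit 155)) (PT.nd (nat_lit 78) (PT.lf (nat_lit 10412) (nat_lit 6) (nat_lit 137) (nat_lit 5) (nat_lit 144) (nat_lit 152) (nat_lit 154)) (PT.lf (nat_lit 10868) (nat_lit 6) (nat_lit 143) (nat_lit 5) (nat_lit 145) (nat_lit 152) (nat_lit 153)))) (PT.nd (nat_lit 156) (PT.nd (nat_lit 78) (PT.lf (nat_lit 11248) (nat_lit 3) (nat_lit 148) (nat_lit 4) (nat_lit 146) (nat_lit 152) (nat_lit 152)) (PT.lf (nat_lit 11476) (nat_lit 6) (nat_lit 151) (nat_lit 4) (nat_lit 147) (nat_lit 152) (nat_lit 151))) (PT.nd (nat_lit 78) (PT.lf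 (nat_lit 11628) (nat_lit 6) (nat_lit 153) (nat_lit 4) (nat_lit 148) (nat_lit 152) (nat_lit 150)) (PT.lf (nat_lit 11552) (nat_lit 3) (nat_lit 152) (nat_lit 2) (nat_lit 149) (nat_lit 152) (nat_lit 149)))))) (PT.nd (nat_lit 468) (PT.nd (nat_lit 234) (PT.nd (nat_lit 78) (PT.lf (nat_lit 11628) (nat_lit 6) (nat_lit 153) (nat_lit 2) (nat_lit 150) (nat_lit 152) (nat_lit 148)) (PT.nd (nat_lit 78) (PT.lf (nat_lit 11476) (nat_lit 6) (nat_lit 151) (nat_lit 2) (nat_lit 151) (nat_lit 152) (nat_lit 147)) (PT.lf (nat_lit 11248) (nat_lit 3) (nat_lit 148) (nat_lit 0) (nat_lit 152) (nat_lit 152) (nat_lit 146)))) (PT.nd (nat_lit 78) (PT.lf (nat_lit 10868) (nat_lit 6) (nat_lit 143) (nat_lit 0) (nat_lit 153) (nat_lit 152) (nat_lit 145)) (PT.nd (nat_lit 78) (PT.lf (nat_lit 10412) (nat_lit 6) (nat_lit 137) (nat_lit 0) (nat_lit 154) (nat_lit 152) (nat_lit 144)) (PT.lf (nat_lit 9880) (nat_lit 6) (nat_lit 130) (nat_lit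 0) (nat_lit 155) (nat_lit 152) (nat_lit 143))))) (PT.nd (nat_lit 234) (PT.nd (nat_lit 78) (PT.lf (nat_lit 9272) (nat_lit 6) (nat_lit 122) (nat_lit 0) (nat_lit 156) (nat_lit 152) (nat_lit 142)) (PT.nd (nat_lit 78) (PT.lf (nat_lit 8588) (nat_lit 6) (nat_lit 113) (nat_lit 0) (nat_lit 157) (nat_lit 152) (nat_lit 141)) (PT.lf (nat_lit 7828) (nat_lit 6) (nat_lit 103) (nat_lit 0) (nat_lit 158) (nat_lit 152) (nat_lit 140)))) (PT.nd (nat_lit 156) (PT.nd (nat_lit 78) (PT.lf (nat_lit 6992) (nat_lit 6) (nat_lit 92) (nat_lit 0) (nat_lit 159) (nat_lit 152) (nat_lit 139)) (PT.lf (nat_lit 6536) (nat_lit 6) (nat_lit 86) (nat_lit 0) (nat_lit 160) (nat_lit 152) (nat_lit 138))) (PT.nd (nat_lit 44928) (PT.lf (nat_lit 6156) (nat_lit 6) (nat_lit 81) (nat_lit 0) (nat_lit 161) (nat_lit 152) (nat_lit 137)) (PT.lf (nat_lit 5776) (nat_lit 6) (nat_lit 76) (nat_lit 5) (nat_lit 136) (nat_lit 153) (nat_lit 161)))))))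 (PT.nd (nat_lit 1014) (PT.nd (nat_lit 468) (PT.nd (nat_lit 234) (PT.nd (nat_lit 78) (PT.lf (nat_lit 6232) (nat_lit 6) (nat_lit 82) (nat_lit 5) (nat_lit 137) (nat_lit 153) (nat_lit 160)) (PT.nd (nat_lit 78) (PT.lf (nat_lit 6612) (nat_lit 6) (nat_lit 87) (nat_lit 5) (nat_lit 138) (nat_lit 153) (nat_lit 159)) (PT.lf (nat_lit 7068) (nat_lit 6) (nat_lit 93) (nat_lit 5) (nat_lit 139) (nat_lit 153) (nat_lit 158)))) (PT.nd (nat_lit 78) (PT.lf (nat_lit 7904) (nat_lit 6) (nat_lit 104) (nat_lit 5) (nat_lit 140) (nat_lit 153) (nat_lit 157)) (PT.nd (nat_lit 78) (PT.lf (nat_lit 8664) (nat_lit 6) (nat_lit 114) (nat_lit 5) (nat_lit 141) (nat_lit 153) (nat_lit 156)) (PT.lf (nat_lit 9348) (nat_lit 6) (nat_lit 123) (nat_lit 5) (nat_lit 142) (nat_lit 153) (nat_lit 155))))) (PT.nd (nat_lit 234) (PT.nd (nat_lit 78) (PT.lf (nat_lit 9956) (nat_lit 6) (nat_lit 131) (nat_lit 5) (nat_lit 143) (nat_lit 153) (nat_lit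 154)) (PT.nd (nat_lit 78) (PT.lf (nat_lit 10488) (nat_lit 3) (nat_lit 138) (nat_lit 4) (nat_lit 144) (nat_lit 153) (nat_lit 153)) (PT.lf (nat_lit 10868) (nat_lit 6) (nat_lit 143) (nat_lit 4) (nat_lit 145) (nat_lit 153) (nat_lit 152)))) (PT.nd (nat_lit 156) (PT.nd (nat_lit 78) (PT.lf (nat_lit 11172) (nat_lit 6) (nat_lit 147) (nat_lit 4) (nat_lit 146) (nat_lit 153) (nat_lit 151)) (PT.lf (nat_lit 11400) (nat_lit 6) (nat_lit 150) (nat_lit 4) (nat_lit 147) (nat_lit 153) (nat_lit 150))) (PT.nd (nat_lit 78) (PT.lf (nat_lit 11324) (nat_lit 6) (nat_lit 149) (nat_lit 4) (nat_lit 148) (nat_lit 153) (nat_lit 149)) (PT.lf (nat_lit 11324) (nat_lit 6) (nat_lit 149) (nat_lit 2) (nat_lit 149) (nat_lit 153) (nat_lit 148)))))) (PT.nd (nat_lit 546) (PT.nd (nat_lit 234) (PT.nd (nat_lit 78) (PT.lf (nat_lit 11400) (nat_lit 6) (nat_lit 150) (nat_lit 2) (nat_lit 150) (nat_lit 153) (nat_lit 147)) (PT.nd (nat_lit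 78) (PT.lf (nat_lit 11172) (nat_lit 6) (nat_lit 147) (nat_lit 2) (nat_lit 151) (nat_lit 153) (nat_lit 146)) (PT.lf (nat_lit 10868) (nat_lit 6) (nat_lit 143) (nat_lit 2) (nat_lit 152) (nat_lit 153) (nat_lit 145)))) (PT.nd (nat_lit 156) (PT.nd (nat_lit 78) (PT.lf (nat_lit 10488) (nat_lit 3) (nat_lit 138) (nat_lit 0) (nat_lit 153) (nat_lit 153) (nat_lit 144)) (PT.lf (nat_lit 9956) (nat_lit 6) (nat_lit 131) (nat_lit 0) (nat_lit 154) (nat_lit 153) (nat_lit 143))) (PT.nd (nat_lit 78) (PT.lf (nat_lit 9348) (nat_lit 6) (nat_lit 123) (nat_lit 0) (nat_lit 155) (nat_lit 153) (nat_lit 142)) (PT.lf (nat_lit 8664) (nat_lit 6) (nat_lit 114) (nat_lit 0) (nat_lit 156) (nat_lit 153) (nat_lit 141))))) (PT.nd (nat_lit 234) (PT.nd (nat_lit 78) (PT.lf (nat_lit 7904) (nat_lit 6) (nat_lit 104) (nat_lit 0) (nat_lit 157) (nat_lit 153) (nat_lit 140)) (PT.nd (nat_lit 78) (PT.lf (nat_lit 7068) (nat_lit 6) (nat_lit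 93) (nat_lit 0) (nat_lit 158) (nat_lit 153) (nat_lit 139)) (PT.lf (nat_lit 6612) (nat_lit 6) (nat_lit 87) (nat_lit 0) (nat_lit 159) (nat_lit 153) (nat_lit 138)))) (PT.nd (nat_lit 44928) (PT.nd (nat_lit 78) (PT.lf (nat_lit 6232) (nat_lit 6) (nat_lit 82) (nat_lit 0) (nat_lit 160) (nat_lit 153) (nat_lit 137)) (PT.lf (nat_lit 5776) (nat_lit 6) (nat_lit 76) (nat_lit 0) (nat_lit 161) (nat_lit 153) (nat_lit 136))) (PT.nd (nat_lit 78) (PT.lf (nat_lit 5472) (nat_lit 6) (nat_lit 72) (nat_lit 5) (nat_lit 135) (nat_lit 154) (nat_lit 161)) (PT.lf (nat_lit 5852) (nat_lit 6) (nat_lit 77) (nat_lit 5) (nat_lit 136) (nat_lit 154) (nat_lit 160))))))))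
noncomputable def pc8 : PT := (PT.nd (nat_lit 46644) (PT.nd (nat_lit 1014) (PT.nd (nat_lit 468) (PT.nd (nat_lit 234) (PT.nd (nat_lit 78) (PT.lf (nat_lit 6308) (nat_lit 6) (nat_lit 83) (nat_lit 5) (nat_lit 137) (nat_lit 154) (nat_lit 159)) (PT.nd (nat_lit 78) (PT.lf (nat_lit 6688) (nat_lit 6) (nat_lit 88) (nat_lit 5) (nat_lit 138) (nat_lit 154) (nat_lit 158)) (PT.lf (nat_lit 7144) (nat_lit 6) (nat_lit 94) (nat_lit 5) (nat_lit 139) (nat_lit 154) (nat_lit 157)))) (PT.nd (nat_lit 78) (PT.lf (nat_lit 7980) (nat_lit 6) (nat_lit 105) (nat_lit 5) (nat_lit 140) (nat_lit 154) (nat_lit 156)) (PT.nd (nat_lit 78) (PT.lf (nat_lit 8740) (nat_lit 6) (nat_lit 115) (nat_lit 5) (nat_lit 141) (nat_lit 154) (nat_lit 155)) (PT.lf (nat_lit 9424) (nat_lit 3) (nat_lit 124) (nat_lit 4) (nat_lit 142) (nat_lit 154) (nat_lit 154))))) (PT.nd (nat_lit 234) (PT.nd (nat_lit 78) (PT.lf (nat_lit 9956) (nat_lit 6) (nat_lit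 131) (nat_lit 4) (nat_lit 143) (nat_lit 154) (nat_lit 153)) (PT.nd (nat_lit 78) (PT.lf (nat_lit 10412) (nat_lit 6) (nat_lit 137) (nat_lit 4) (nat_lit 144) (nat_lit 154) (nat_lit 152)) (PT.lf (nat_lit 10792) (nat_lit 6) (nat_lit 142) (nat_lit 4) (nat_lit 145) (nat_lit 154) (nat_lit 151)))) (PT.nd (nat_lit 156) (PT.nd (nat_lit 78) (PT.lf (nat_lit 11096) (nat_lit 6) (nat_lit 146) (nat_lit 4) (nat_lit 146) (nat_lit 154) (nat_lit 150)) (PT.lf (nat_lit 11020) (nat_lit 6) (nat_lit 145) (nat_lit 4) (nat_lit 147) (nat_lit 154) (nat_lit 149))) (PT.nd (nat_lit 78) (PT.lf (nat_lit 10944) (nat_lit 3) (nat_lit 144) (nat_lit 2) (nat_lit 148) (nat_lit 154) (nat_lit 148)) (PT.lf (nat_lit 11020) (nat_lit 6) (nat_lit 145) (nat_lit 2) (nat_lit 149) (nat_lit 154) (nat_lit 147)))))) (PT.nd (nat_lit 468) (PT.nd (nat_lit 234) (PT.nd (nat_lit 78) (PT.lf (nat_lit 11096) (nat_lit 6) (nat_lit 146) (nat_lit 2) (nat_lit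 150) (nat_lit 154) (nat_lit 146)) (PT.nd (nat_lit 78) (PT.lf (nat_lit 10792) (nat_lit 6) (nat_lit 142) (nat_lit 2) (nat_lit 151) (nat_lit 154) (nat_lit 145)) (PT.lf (nat_lit 10412) (nat_lit 6) (nat_lit 137) (nat_lit 2) (nat_lit 152) (nat_lit 154) (nat_lit 144)))) (PT.nd (nat_lit 78) (PT.lf (nat_lit 9956) (nat_lit 6) (nat_lit 131) (nat_lit 2) (nat_lit 153) (nat_lit 154) (nat_lit 143)) (PT.nd (nat_lit 78) (PT.lf (nat_lit 9424) (nat_lit 3) (nat_lit 124) (nat_lit 0) (nat_lit 154) (nat_lit 154) (nat_lit 142)) (PT.lf (nat_lit 8740) (nat_lit 6) (nat_lit 115) (nat_lit 0) (nat_lit 155) (nat_lit 154) (nat_lit 141))))) (PT.nd (nat_lit 234) (PT.nd (nat_lit 78) (PT.lf (nat_lit 7980) (nat_lit 6) (nat_lit 105) (nat_lit 0) (nat_lit 156) (nat_lit 154) (nat_lit 140)) (PT.nd (nat_lit 78) (PT.lf (nat_lit 7144) (nat_lit 6) (nat_lit 94) (nat_lit 0) (nat_lit 157) (nat_lit 154) (nat_lit 139)) (PT.lf (nat_lit 6688)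 (nat_lit 6) (nat_lit 88) (nat_lit 0) (nat_lit 158) (nat_lit 154) (nat_lit 138)))) (PT.nd (nat_lit 156) (PT.nd (nat_lit 78) (PT.lf (nat_lit 6308) (nat_lit 6) (nat_lit 83) (nat_lit 0) (nat_lit 159) (nat_lit 154) (nat_lit 137)) (PT.lf (nat_lit 5852) (nat_lit 6) (nat_lit 77) (nat_lit 0) (nat_lit 160) (nat_lit 154) (nat_lit 136))) (PT.nd (nat_lit 44694) (PT.lf (nat_lit 5472) (nat_lit 6) (nat_lit 72) (nat_lit 0) (nat_lit 161) (nat_lit 154) (nat_lit 135)) (PT.lf (nat_lit 4864) (nat_lit 6) (nat_lit 64) (nat_lit 5) (nat_lit 133) (nat_lit 155) (nat_lit 162))))))) (PT.nd (nat_lit 1014) (PT.nd (nat_lit 468) (PT.nd (nat_lit 234) (PT.nd (nat_lit 78) (PT.lf (nat_lit 5168) (nat_lit 6) (nat_lit 68) (nat_lit 5) (nat_lit 134) (nat_lit 155) (nat_lit 161)) (PT.nd (nat_lit 78) (PT.lf (nat_lit 5548) (nat_lit 6) (nat_lit 73) (nat_lit 5) (nat_lit 135) (nat_lit 155) (nat_lit 160)) (PT.lf (nat_lit 5928) (nat_lit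 6) (nat_lit 78) (nat_lit 5) (nat_lit 136) (nat_lit 155) (nat_lit 159)))) (PT.nd (nat_lit 78) (PT.lf (nat_lit 6384) (nat_lit 6) (nat_lit 84) (nat_lit 5) (nat_lit 137) (nat_lit 155) (nat_lit 158)) (PT.nd (nat_lit 78) (PT.lf (nat_lit 6764) (nat_lit 6) (nat_lit 89) (nat_lit 5) (nat_lit 138) (nat_lit 155) (nat_lit 157)) (PT.lf (nat_lit 7220) (nat_lit 6) (nat_lit 95) (nat_lit 5) (nat_lit 139) (nat_lit 155) (nat_lit 156))))) (PT.nd (nat_lit 234) (PT.nd (nat_lit 78) (PT.lf (nat_lit 8056) (nat_lit 3) (nat_lit 106) (nat_lit 4) (nat_lit 140) (nat_lit 155) (nat_lit 155)) (PT.nd (nat_lit 78) (PT.lf (nat_lit 8740) (nat_lit 6) (nat_lit 115) (nat_lit 4) (nat_lit 141) (nat_lit 155) (nat_lit 154)) (PT.lf (nat_lit 9348) (nat_lit 6) (nat_lit 123) (nat_lit 4) (nat_lit 142) (nat_lit 155) (nat_lit 153)))) (PT.nd (nat_lit 156) (PT.nd (nat_lit 78) (PT.lf (nat_lit 9880) (nat_lit 6) (nat_lit 130) (nat_lit 4) (nat_lit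 143) (nat_lit 155) (nat_lit 152)) (PT.lf (nat_lit 10336) (nat_lit 6) (nat_lit 136) (nat_lit 4) (nat_lit 144) (nat_lit 155) (nat_lit 151))) (PT.nd (nat_lit 78) (PT.lf (nat_lit 10716) (nat_lit 6) (nat_lit 141) (nat_lit 4) (nat_lit 145) (nat_lit 155) (nat_lit 150)) (PT.lf (nat_lit 10640) (nat_lit 6) (nat_lit 140) (nat_lit 4) (nat_lit 146) (nat_lit 155) (nat_lit 149)))))) (PT.nd (nat_lit 468) (PT.nd (nat_lit 234) (PT.nd (nat_lit 78) (PT.lf (nat_lit 10564) (nat_lit 6) (nat_lit 139) (nat_lit 4) (nat_lit 147) (nat_lit 155) (nat_lit 148)) (PT.nd (nat_lit 78) (PT.lf (nat_lit 10564) (nat_lit 6) (nat_lit 139) (nat_lit 2) (nat_lit 148) (nat_lit 155) (nat_lit 147)) (PT.lf (nat_lit 10640) (nat_lit 6) (nat_lit 140) (nat_lit 2) (nat_lit 149) (nat_lit 155) (nat_lit 146)))) (PT.nd (nat_lit 78) (PT.lf (nat_lit 10716) (nat_lit 6) (nat_lit 141) (nat_lit 2) (nat_lit 150) (nat_lit 155) (nat_lit 145)) (PT.nd (nat_lit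 78) (PT.lf (nat_lit 10336) (nat_lit 6) (nat_lit 136) (nat_lit 2) (nat_lit 151) (nat_lit 155) (nat_lit 144)) (PT.lf (nat_lit 9880) (nat_lit 6) (nat_lit 130) (nat_lit 2) (nat_lit 152) (nat_lit 155) (nat_lit 143))))) (PT.nd (nat_lit 234) (PT.nd (nat_lit 78) (PT.lf (nat_lit 9348) (nat_lit 6) (nat_lit 123) (nat_lit 2) (nat_lit 153) (nat_lit 155) (nat_lit 142)) (PT.nd (nat_lit 78) (PT.lf (nat_lit 8740) (nat_lit 6) (nat_lit 115) (nat_lit 2) (nat_lit 154) (nat_lit 155) (nat_lit 141)) (PT.lf (nat_lit 8056) (nat_lit 3) (nat_lit 106) (nat_lit 0) (nat_lit 155) (nat_lit 155) (nat_lit 140)))) (PT.nd (nat_lit 156) (PT.nd (nat_lit 78) (PT.lf (nat_lit 7220) (nat_lit 6) (nat_lit 95) (nat_lit 0) (nat_lit 156) (nat_lit 155) (nat_lit 139)) (PT.lf (nat_lit 6764) (nat_lit 6) (nat_lit 89) (nat_lit 0) (nat_lit 157) (nat_lit 155) (nat_lit 138))) (PT.nd (nat_lit 78) (PT.lf (nat_lit 6384) (nat_lit 6) (nat_lit 84)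 (nat_lit 0) (nat_lit 158) (nat_lit 155) (nat_lit 137)) (PT.lf (nat_lit 5928) (nat_lit 6) (nat_lit 78) (nat_lit 0) (nat_lit 159) (nat_lit 155) (nat_lit 136))))))))
noncomputable def pc9 : PT := (PT.nd (nat_lit 46488) (PT.nd (nat_lit 45474) (PT.nd (nat_lit 44928) (PT.nd (nat_lit 44694) (PT.nd (nat_lit 78) (PT.lf (nat_lit 5548) (nat_lit 6) (nat_lit 73) (nat_lit 0) (nat_lit 160) (nat_lit 155) (nat_lit 135)) (PT.nd (nat_lit 78) (PT.lf (nat_lit 5168) (nat_lit 6) (nat_lit 68) (nat_lit 0) (nat_lit 161) (nat_lit 155) (nat_lit 134)) (PT.lf (nat_lit 4864) (nat_lit 6) (nat_lit 64) (nat_lit 0) (nat_lit 162) (nat_lit 155) (nat_lit 133)))) (PT.nd (nat_lit 78) (PT.lf (nat_lit 4560) (nat_lit 6) (nat_lit 60) (nat_lit 5) (nat_lit 132) (nat_lit 156) (nat_lit 162)) (PT.nd (nat_lit 78) (PT.lf (nat_lit 4940) (nat_lit 6) (nat_lit 65) (nat_lit 5) (nat_lit 133) (nat_lit 156) (nat_lit 161)) (PT.lf (nat_lit 5244)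 (nat_lit 6) (nat_lit 69) (nat_lit 5) (nat_lit 134) (nat_lit 156) (nat_lit 160))))) (PT.nd (nat_lit 234) (PT.nd (nat_lit 78) (PT.lf (nat_lit 5624) (nat_lit 6) (nat_lit 74) (nat_lit 5) (nat_lit 135) (nat_lit 156) (nat_lit 159)) (PT.nd (nat_lit 78) (PT.lf (nat_lit 6004) (nat_lit 6) (nat_lit 79) (nat_lit 5) (nat_lit 136) (nat_lit 156) (nat_lit 158)) (PT.lf (nat_lit 6460) (nat_lit 6) (nat_lit 85) (nat_lit 5) (nat_lit 137) (nat_lit 156) (nat_lit 157)))) (PT.nd (nat_lit 156) (PT.nd (nat_lit 78) (PT.lf (nat_lit 6840) (nat_lit 3) (nat_lit 90) (nat_lit 4) (nat_lit 138) (nat_lit 156) (nat_lit 156)) (PT.lf (nat_lit 7220) (nat_lit 6) (nat_lit 95) (nat_lit 4) (nat_lit 139) (nat_lit 156) (nat_lit 155))) (PT.nd (nat_lit 78) (PT.lf (nat_lit 7980) (nat_lit 6) (nat_lit 105) (nat_lit 4) (nat_lit 140) (nat_lit 156) (nat_lit 154)) (PT.lf (nat_lit 8664) (nat_lit 6) (nat_lit 114) (nat_lit 4) (nat_lit 141) (nat_lit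 156) (nat_lit 153)))))) (PT.nd (nat_lit 468) (PT.nd (nat_lit 234) (PT.nd (nat_lit 78) (PT.lf (nat_lit 9272) (nat_lit 6) (nat_lit 122) (nat_lit 4) (nat_lit 142) (nat_lit 156) (nat_lit 152)) (PT.nd (nat_lit 78) (PT.lf (nat_lit 9804) (nat_lit 6) (nat_lit 129) (nat_lit 4) (nat_lit 143) (nat_lit 156) (nat_lit 151)) (PT.lf (nat_lit 10260) (nat_lit 6) (nat_lit 135) (nat_lit 4) (nat_lit 144) (nat_lit 156) (nat_lit 150)))) (PT.nd (nat_lit 78) (PT.lf (nat_lit 10184) (nat_lit 6) (nat_lit 134) (nat_lit 4) (nat_lit 145) (nat_lit 156) (nat_lit 149)) (PT.nd (nat_lit 78) (PT.lf (nat_lit 10108) (nat_lit 6) (nat_lit 133) (nat_lit 4) (nat_lit 146) (nat_lit 156) (nat_lit 148)) (PT.lf (nat_lit 10032) (nat_lit 3) (nat_lit 132) (nat_lit 2) (nat_lit 147) (nat_lit 156) (nat_lit 147))))) (PT.nd (nat_lit 234) (PT.nd (nat_lit 78) (PT.lf (nat_lit 10108) (nat_lit 6) (nat_lit 133) (nat_lit 2) (nat_lit 148) (nat_lit 156)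 (nat_lit 146)) (PT.nd (nat_lit 78) (PT.lf (nat_lit 10184) (nat_lit 6) (nat_lit 134) (nat_lit 2) (nat_lit 149) (nat_lit 156) (nat_lit 145)) (PT.lf (nat_lit 10260) (nat_lit 6) (nat_lit 135) (nat_lit 2) (nat_lit 150) (nat_lit 156) (nat_lit 144)))) (PT.nd (nat_lit 156) (PT.nd (nat_lit 78) (PT.lf (nat_lit 9804) (nat_lit 6) (nat_lit 129) (nat_lit 2) (nat_lit 151) (nat_lit 156) (nat_lit 143)) (PT.lf (nat_lit 9272) (nat_lit 6) (nat_lit 122) (nat_lit 2) (nat_lit 152) (nat_lit 156) (nat_lit 142))) (PT.nd (nat_lit 78) (PT.lf (nat_lit 8664) (nat_lit 6) (nat_lit 114) (nat_lit 2) (nat_lit 153) (nat_lit 156) (nat_lit 141)) (PT.lf (nat_lit 7980) (nat_lit 6) (nat_lit 105) (nat_lit 2) (nat_lit 154) (nat_lit 156) (nat_lit 140))))))) (PT.nd (nat_lit 45396) (PT.nd (nat_lit 468) (PT.nd (nat_lit 234) (PT.nd (nat_lit 78) (PT.lf (nat_lit 7220) (nat_lit 6) (nat_lit 95) (nat_lit 2) (nat_lit 155) (nat_lit 156) (nat_lit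 139)) (PT.nd (nat_lit 78) (PT.lf (nat_lit 6840) (nat_lit 3) (nat_lit 90) (nat_lit 0) (nat_lit 156) (nat_lit 156) (nat_lit 138)) (PT.lf (nat_lit 6460) (nat_lit 6) (nat_lit 85) (nat_lit 0) (nat_lit 157) (nat_lit 156) (nat_lit 137)))) (PT.nd (nat_lit 78) (PT.lf (nat_lit 6004) (nat_lit 6) (nat_lit 79) (nat_lit 0) (nat_lit 158) (nat_lit 156) (nat_lit 136)) (PT.nd (nat_lit 78) (PT.lf (nat_lit 5624) (nat_lit 6) (nat_lit 74) (nat_lit 0) (nat_lit 159) (nat_lit 156) (nat_lit 135)) (PT.lf (nat_lit 5244) (nat_lit 6) (nat_lit 69) (nat_lit 0) (nat_lit 160) (nat_lit 156) (nat_lit 134))))) (PT.nd (nat_lit 44616) (PT.nd (nat_lit 78) (PT.lf (nat_lit 4940) (nat_lit 6) (nat_lit 65) (nat_lit 0) (nat_lit 161) (nat_lit 156) (nat_lit 133)) (PT.nd (nat_lit 44460) (PT.lf (nat_lit 4560) (nat_lit 6) (nat_lit 60) (nat_lit 0) (nat_lit 162) (nat_lit 156) (nat_lit 132)) (PT.lf (nat_lit 4332) (nat_lit 6) (nat_lit 57) (nat_lit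 5) (nat_lit 131) (nat_lit 157) (nat_lit 162)))) (PT.nd (nat_lit 156) (PT.nd (nat_lit 78) (PT.lf (nat_lit 4636) (nat_lit 6) (nat_lit 61) (nat_lit 5) (nat_lit 132) (nat_lit 157) (nat_lit 161)) (PT.lf (nat_lit 5016) (nat_lit 6) (nat_lit 66) (nat_lit 5) (nat_lit 133) (nat_lit 157) (nat_lit 160))) (PT.nd (nat_lit 78) (PT.lf (nat_lit 5320) (nat_lit 6) (nat_lit 70) (nat_lit 5) (nat_lit 134) (nat_lit 157) (nat_lit 159)) (PT.lf (nat_lit 5700) (nat_lit 6) (nat_lit 75) (nat_lit 5) (nat_lit 135) (nat_lit 157) (nat_lit 158)))))) (PT.nd (nat_lit 546) (PT.nd (nat_lit 234) (PT.nd (nat_lit 78) (PT.lf (nat_lit 6080) (nat_lit 3) (nat_lit 80) (nat_lit 4) (nat_lit 136) (nat_lit 157) (nat_lit 157)) (PT.nd (nat_lit 78) (PT.lf (nat_lit 6460) (nat_lit 6) (nat_lit 85) (nat_lit 4) (nat_lit 137) (nat_lit 157) (nat_lit 156)) (PT.lf (nat_lit 6764) (nat_lit 6) (nat_lit 89) (nat_lit 4) (nat_lit 138) (nat_lit 157) (nat_lit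 155)))) (PT.nd (nat_lit 156) (PT.nd (nat_lit 78) (PT.lf (nat_lit 7144) (nat_lit 6) (nat_lit 94) (nat_lit 4) (nat_lit 139) (nat_lit 157) (nat_lit 154)) (PT.lf (nat_lit 7904) (nat_lit 6) (nat_lit 104) (nat_lit 4) (nat_lit 140) (nat_lit 157) (nat_lit 153))) (PT.nd (nat_lit 78) (PT.lf (nat_lit 8588) (nat_lit 6) (nat_lit 113) (nat_lit 4) (nat_lit 141) (nat_lit 157) (nat_lit 152)) (PT.lf (nat_lit 9196) (nat_lit 6) (nat_lit 121) (nat_lit 4) (nat_lit 142) (nat_lit 157) (nat_lit 151))))) (PT.nd (nat_lit 234) (PT.nd (nat_lit 78) (PT.lf (nat_lit 9728) (nat_lit 6) (nat_lit 128) (nat_lit 4) (nat_lit 143) (nat_lit 157) (nat_lit 150)) (PT.nd (nat_lit 78) (PT.lf (nat_lit 9652) (nat_lit 6) (nat_lit 127) (nat_lit 4) (nat_lit 144) (nat_lit 157) (nat_lit 149)) (PT.lf (nat_lit 9576) (nat_lit 6) (nat_lit 126) (nat_lit 4) (nat_lit 145) (nat_lit 157) (nat_lit 148)))) (PT.nd (nat_lit 156) (PT.nd (nat_lit 78) (PT.lf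 (nat_lit 9500) (nat_lit 6) (nat_lit 125) (nat_lit 4) (nat_lit 146) (nat_lit 157) (nat_lit 147)) (PT.lf (nat_lit 9500) (nat_lit 6) (nat_lit 125) (nat_lit 2) (nat_lit 147) (nat_lit 157) (nat_lit 146))) (PT.nd (nat_lit 78) (PT.lf (nat_lit 9576) (nat_lit 6) (nat_lit 126) (nat_lit 2) (nat_lit 148) (nat_lit 157) (nat_lit 145)) (PT.lf (nat_lit 9652) (nat_lit 6) (nat_lit 127) (nat_lit 2) (nat_lit 149) (nat_lit 157) (nat_lit 144))))))))
noncomputable def pc10 : PT := (PT.nd (nat_lit 46254) (PT.nd (nat_lit 45240) (PT.nd (nat_lit 468) (PT.nd (nat_lit 234) (PT.nd (nat_lit 78) (PT.lf (nat_lit 9728) (nat_lit 6) (nat_lit 128) (nat_lit 2) (nat_lit 150) (nat_lit 157) (nat_lit 143)) (PT.nd (nat_lit 78) (PT.lf (nat_lit 9196) (nat_lit 6) (nat_lit 121) (nat_lit 2) (nat_lit 151) (nat_lit 157) (nat_lit 142)) (PT.lf (nat_lit 8588) (nat_lit 6) (nat_lit 113) (nat_lit 2) (nat_lit 152) (nat_lit 157) (nat_lit 141))))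 (PT.nd (nat_lit 78) (PT.lf (nat_lit 7904) (nat_lit 6) (nat_lit 104) (nat_lit 2) (nat_lit 153) (nat_lit 157) (nat_lit 140)) (PT.nd (nat_lit 78) (PT.lf (nat_lit 7144) (nat_lit 6) (nat_lit 94) (nat_lit 2) (nat_lit 154) (nat_lit 157) (nat_lit 139)) (PT.lf (nat_lit 6764) (nat_lit 6) (nat_lit 89) (nat_lit 2) (nat_lit 155) (nat_lit 157) (nat_lit 138))))) (PT.nd (nat_lit 234) (PT.nd (nat_lit 78) (PT.lf (nat_lit 6460) (nat_lit 6) (nat_lit 85) (nat_lit 2) (nat_lit 156) (nat_lit 157) (nat_lit 137)) (PT.nd (nat_lit 78) (PT.lf (nat_lit 6080) (nat_lit 3) (nat_lit 80) (nat_lit 0) (nat_lit 157) (nat_lit 157) (nat_lit 136)) (PT.lf (nat_lit 5700) (nat_lit 6) (nat_lit 75) (nat_lit 0) (nat_lit 158) (nat_lit 157) (nat_lit 135)))) (PT.nd (nat_lit 156) (PT.nd (nat_lit 78) (PT.lf (nat_lit 5320) (nat_lit 6) (nat_lit 70) (nat_lit 0) (nat_lit 159) (nat_lit 157) (nat_lit 134)) (PT.lf (nat_lit 5016) (nat_lit 6) (nat_lit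 66) (nat_lit 0) (nat_lit 160) (nat_lit 157) (nat_lit 133))) (PT.nd (nat_lit 78) (PT.lf (nat_lit 4636) (nat_lit 6) (nat_lit 61) (nat_lit 0) (nat_lit 161) (nat_lit 157) (nat_lit 132)) (PT.lf (nat_lit 4332) (nat_lit 6) (nat_lit 57) (nat_lit 0) (nat_lit 162) (nat_lit 157) (nat_lit 131)))))) (PT.nd (nat_lit 468) (PT.nd (nat_lit 234) (PT.nd (nat_lit 78) (PT.lf (nat_lit 3876) (nat_lit 6) (nat_lit 51) (nat_lit 5) (nat_lit 129) (nat_lit 158) (nat_lit 163)) (PT.nd (nat_lit 78) (PT.lf (nat_lit 4104) (nat_lit 6) (nat_lit 54) (nat_lit 5) (nat_lit 130) (nat_lit 158) (nat_lit 162)) (PT.lf (nat_lit 4408) (nat_lit 6) (nat_lit 58) (nat_lit 5) (nat_lit 131) (nat_lit 158) (nat_lit 161)))) (PT.nd (nat_lit 78) (PT.lf (nat_lit 4712) (nat_lit 6) (nat_lit 62) (nat_lit 5) (nat_lit 132) (nat_lit 158) (nat_lit 160)) (PT.nd (nat_lit 78) (PT.lf (nat_lit 5092) (nat_lit 6) (nat_lit 67) (nat_lit 5) (nat_lit 133) (nat_lit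 158) (nat_lit 159)) (PT.lf (nat_lit 5396) (nat_lit 3) (nat_lit 71) (nat_lit 4) (nat_lit 134) (nat_lit 158) (nat_lit 158))))) (PT.nd (nat_lit 234) (PT.nd (nat_lit 78) (PT.lf (nat_lit 5700) (nat_lit 6) (nat_lit 75) (nat_lit 4) (nat_lit 135) (nat_lit 158) (nat_lit 157)) (PT.nd (nat_lit 78) (PT.lf (nat_lit 6004) (nat_lit 6) (nat_lit 79) (nat_lit 4) (nat_lit 136) (nat_lit 158) (nat_lit 156)) (PT.lf (nat_lit 6384) (nat_lit 6) (nat_lit 84) (nat_lit 4) (nat_lit 137) (nat_lit 158) (nat_lit 155)))) (PT.nd (nat_lit 156) (PT.nd (nat_lit 78) (PT.lf (nat_lit 6688) (nat_lit 6) (nat_lit 88) (nat_lit 4) (nat_lit 138) (nat_lit 158) (nat_lit 154)) (PT.lf (nat_lit 7068) (nat_lit 6) (nat_lit 93) (nat_lit 4) (nat_lit 139) (nat_lit 158) (nat_lit 153))) (PT.nd (nat_lit 78) (PT.lf (nat_lit 7828) (nat_lit 6) (nat_lit 103) (nat_lit 4) (nat_lit 140) (nat_lit 158) (nat_lit 152)) (PT.lf (nat_lit 8512) (nat_lit 6) (nat_lit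 112) (nat_lit 4) (nat_lit 141) (nat_lit 158) (nat_lit 151))))))) (PT.nd (nat_lit 1014) (PT.nd (nat_lit 468) (PT.nd (nat_lit 234) (PT.nd (nat_lit 78) (PT.lf (nat_lit 9120) (nat_lit 6) (nat_lit 120) (nat_lit 4) (nat_lit 142) (nat_lit 158) (nat_lit 150)) (PT.nd (nat_lit 78) (PT.lf (nat_lit 9044) (nat_lit 6) (nat_lit 119) (nat_lit 4) (nat_lit 143) (nat_lit 158) (nat_lit 149)) (PT.lf (nat_lit 8968) (nat_lit 6) (nat_lit 118) (nat_lit 4) (nat_lit 144) (nat_lit 158) (nat_lit 148)))) (PT.nd (nat_lit 78) (PT.lf (nat_lit 8892) (nat_lit 6) (nat_lit 117) (nat_lit 4) (nat_lit 145) (nat_lit 158) (nat_lit 147)) (PT.nd (nat_lit 78) (PT.lf (nat_lit 8816) (nat_lit 3) (nat_lit 116) (nat_lit 2) (nat_lit 146) (nat_lit 158) (nat_lit 146)) (PT.lf (nat_lit 8892) (nat_lit 6) (nat_lit 117) (nat_lit 2) (nat_lit 147) (nat_lit 158) (nat_lit 145))))) (PT.nd (nat_lit 234) (PT.nd (nat_lit 78) (PT.lf (nat_lit 8968) (nat_lit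 6) (nat_lit 118) (nat_lit 2) (nat_lit 148) (nat_lit 158) (nat_lit 144)) (PT.nd (nat_lit 78) (PT.lf (nat_lit 9044) (nat_lit 6) (nat_lit 119) (nat_lit 2) (nat_lit 149) (nat_lit 158) (nat_lit 143)) (PT.lf (nat_lit 9120) (nat_lit 6) (nat_lit 120) (nat_lit 2) (nat_lit 150) (nat_lit 158) (nat_lit 142)))) (PT.nd (nat_lit 156) (PT.nd (nat_lit 78) (PT.lf (nat_lit 8512) (nat_lit 6) (nat_lit 112) (nat_lit 2) (nat_lit 151) (nat_lit 158) (nat_lit 141)) (PT.lf (nat_lit 7828) (nat_lit 6) (nat_lit 103) (nat_lit 2) (nat_lit 152) (nat_lit 158) (nat_lit 140))) (PT.nd (nat_lit 78) (PT.lf (nat_lit 7068) (nat_lit 6) (nat_lit 93) (nat_lit 2) (nat_lit 153) (nat_lit 158) (nat_lit 139)) (PT.lf (nat_lit 6688) (nat_lit 6) (nat_lit 88) (nat_lit 2) (nat_lit 154) (nat_lit 158) (nat_lit 138)))))) (PT.nd (nat_lit 546) (PT.nd (nat_lit 234) (PT.nd (nat_lit 78) (PT.lf (nat_lit 6384) (nat_lit 6) (nat_lit 84) (nat_lit 2) (nat_lit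 155) (nat_lit 158) (nat_lit 137)) (PT.nd (nat_lit 78) (PT.lf (nat_lit 6004) (nat_lit 6) (nat_lit 79) (nat_lit 2) (nat_lit 156) (nat_lit 158) (nat_lit 136)) (PT.lf (nat_lit 5700) (nat_lit 6) (nat_lit 75) (nat_lit 2) (nat_lit 157) (nat_lit 158) (nat_lit 135)))) (PT.nd (nat_lit 156) (PT.nd (nat_lit 78) (PT.lf (nat_lit 5396) (nat_lit 3) (nat_lit 71) (nat_lit 0) (nat_lit 158) (nat_lit 158) (nat_lit 134)) (PT.lf (nat_lit 5092) (nat_lit 6) (nat_lit 67) (nat_lit 0) (nat_lit 159) (nat_lit 158) (nat_lit 133))) (PT.nd (nat_lit 78) (PT.lf (nat_lit 4712) (nat_lit 6) (nat_lit 62) (nat_lit 0) (nat_lit 160) (nat_lit 158) (nat_lit 132)) (PT.lf (nat_lit 4408) (nat_lit 6) (nat_lit 58) (nat_lit 0) (nat_lit 161) (nat_lit 158) (nat_lit 131))))) (PT.nd (nat_lit 44226) (PT.nd (nat_lit 78) (PT.lf (nat_lit 4104) (nat_lit 6) (nat_lit 54) (nat_lit 0) (nat_lit 162) (nat_lit 158) (nat_lit 130)) (PT.nd (nat_lit 44070)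 (PT.lf (nat_lit 3876) (nat_lit 6) (nat_lit 51) (nat_lit 0) (nat_lit 163) (nat_lit 158) (nat_lit 129)) (PT.lf (nat_lit 3420) (nat_lit 6) (nat_lit 45) (nat_lit 5) (nat_lit 127) (nat_lit 159) (nat_lit 164)))) (PT.nd (nat_lit 156) (PT.nd (nat_lit 78) (PT.lf (nat_lit 3648) (nat_lit 6) (nat_lit 48) (nat_lit 5) (nat_lit 128) (nat_lit 159) (nat_lit 163)) (PT.lf (nat_lit 3952) (nat_lit 6) (nat_lit 52) (nat_lit 5) (nat_lit 129) (nat_lit 159) (nat_lit 162))) (PT.nd (nat_lit 78) (PT.lf (nat_lit 4180) (nat_lit 6) (nat_lit 55) (nat_lit 5) (nat_lit 130) (nat_lit 159) (nat_lit 161)) (PT.lf (nat_lit 4484) (nat_lit 6) (nat_lit 59) (nat_lit 5) (nat_lit 131) (nat_lit 159) (nat_lit 160))))))))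
noncomputable def pc11 : PT := (PT.nd (nat_lit 2028) (PT.nd (nat_lit 1014) (PT.nd (nat_lit 468) (PT.nd (nat_lit 234) (PT.nd (nat_lit 78) (PT.lf (nat_lit 4788) (nat_lit 3) (nat_lit 63) (nat_lit 4) (nat_lit 132) (nat_lit 159) (nat_lit 159)) (PT.nd (nat_lit 78) (PT.lf (nat_lit 5092) (nat_lit 6) (nat_lit 67) (nat_lit 4) (nat_lit 133) (nat_lit 159) (nat_lit 158)) (PT.lf (nat_lit 5320) (nat_lit 6) (nat_lit 70) (nat_lit 4) (nat_lit 134) (nat_lit 159) (nat_lit 157)))) (PT.nd (nat_lit 78) (PT.lf (nat_lit 5624) (nat_lit 6) (nat_lit 74) (nat_lit 4) (nat_lit 135) (nat_lit 159) (nat_lit 156)) (PT.nd (nat_lit 78) (PT.lf (nat_lit 5928) (nat_lit 6) (nat_lit 78) (nat_lit 4) (nat_lit 136) (nat_lit 159) (nat_lit 155)) (PT.lf (nat_lit 6308) (nat_lit 6) (nat_lit 83) (nat_lit 4) (nat_lit 137) (nat_lit 159) (nat_lit 154))))) (PT.nd (nat_lit 234) (PT.nd (nat_lit 78) (PT.lf (nat_lit 6612) (nat_lit 6) (nat_lit 87)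 (nat_lit 4) (nat_lit 138) (nat_lit 159) (nat_lit 153)) (PT.nd (nat_lit 78) (PT.lf (nat_lit 6992) (nat_lit 6) (nat_lit 92) (nat_lit 4) (nat_lit 139) (nat_lit 159) (nat_lit 152)) (PT.lf (nat_lit 7752) (nat_lit 6) (nat_lit 102) (nat_lit 4) (nat_lit 140) (nat_lit 159) (nat_lit 151)))) (PT.nd (nat_lit 156) (PT.nd (nat_lit 78) (PT.lf (nat_lit 8436) (nat_lit 6) (nat_lit 111) (nat_lit 4) (nat_lit 141) (nat_lit 159) (nat_lit 150)) (PT.lf (nat_lit 8360) (nat_lit 6) (nat_lit 110) (nat_lit 4) (nat_lit 142) (nat_lit 159) (nat_lit 149))) (PT.nd (nat_lit 78) (PT.lf (nat_lit 8284) (nat_lit 6) (nat_lit 109) (nat_lit 4) (nat_lit 143) (nat_lit 159) (nat_lit 148)) (PT.lf (nat_lit 8208) (nat_lit 6) (nat_lit 108) (nat_lit 4) (nat_lit 144) (nat_lit 159) (nat_lit 147)))))) (PT.nd (nat_lit 468) (PT.nd (nat_lit 234) (PT.nd (nat_lit 78) (PT.lf (nat_lit 8132) (nat_lit 6) (nat_lit 107) (nat_lit 4) (nat_lit 145) (nat_lit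 159) (nat_lit 146)) (PT.nd (nat_lit 78) (PT.lf (nat_lit 8132) (nat_lit 6) (nat_lit 107) (nat_lit 2) (nat_lit 146) (nat_lit 159) (nat_lit 145)) (PT.lf (nat_lit 8208) (nat_lit 6) (nat_lit 108) (nat_lit 2) (nat_lit 147) (nat_lit 159) (nat_lit 144)))) (PT.nd (nat_lit 78) (PT.lf (nat_lit 8284) (nat_lit 6) (nat_lit 109) (nat_lit 2) (nat_lit 148) (nat_lit 159) (nat_lit 143)) (PT.nd (nat_lit 78) (PT.lf (nat_lit 8360) (nat_lit 6) (nat_lit 110) (nat_lit 2) (nat_lit 149) (nat_lit 159) (nat_lit 142)) (PT.lf (nat_lit 8436) (nat_lit 6) (nat_lit 111) (nat_lit 2) (nat_lit 150) (nat_lit 159) (nat_lit 141))))) (PT.nd (nat_lit 234) (PT.nd (nat_lit 78) (PT.lf (nat_lit 7752) (nat_lit 6) (nat_lit 102) (nat_lit 2) (nat_lit 151) (nat_lit 159) (nat_lit 140)) (PT.nd (nat_lit 78) (PT.lf (nat_lit 6992) (nat_lit 6) (nat_lit 92) (nat_lit 2) (nat_lit 152) (nat_lit 159) (nat_lit 139)) (PT.lf (nat_lit 6612) (nat_lit 6)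 (nat_lit 87) (nat_lit 2) (nat_lit 153) (nat_lit 159) (nat_lit 138)))) (PT.nd (nat_lit 156) (PT.nd (nat_lit 78) (PT.lf (nat_lit 6308) (nat_lit 6) (nat_lit 83) (nat_lit 2) (nat_lit 154) (nat_lit 159) (nat_lit 137)) (PT.lf (nat_lit 5928) (nat_lit 6) (nat_lit 78) (nat_lit 2) (nat_lit 155) (nat_lit 159) (nat_lit 136))) (PT.nd (nat_lit 78) (PT.lf (nat_lit 5624) (nat_lit 6) (nat_lit 74) (nat_lit 2) (nat_lit 156) (nat_lit 159) (nat_lit 135)) (PT.lf (nat_lit 5320) (nat_lit 6) (nat_lit 70) (nat_lit 2) (nat_lit 157) (nat_lit 159) (nat_lit 134))))))) (PT.nd (nat_lit 44850) (PT.nd (nat_lit 468) (PT.nd (nat_lit 234) (PT.nd (nat_lit 78) (PT.lf (nat_lit 5092) (nat_lit 6) (nat_lit 67) (nat_lit 2) (nat_lit 158) (nat_lit 159) (nat_lit 133)) (PT.nd (nat_lit 78) (PT.lf (nat_lit 4788) (nat_lit 3) (nat_lit 63) (nat_lit 0) (nat_lit 159) (nat_lit 159) (nat_lit 132)) (PT.lf (nat_lit 4484) (nat_lit 6) (nat_lit 59)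 (nat_lit 0) (nat_lit 160) (nat_lit 159) (nat_lit 131)))) (PT.nd (nat_lit 78) (PT.lf (nat_lit 4180) (nat_lit 6) (nat_lit 55) (nat_lit 0) (nat_lit 161) (nat_lit 159) (nat_lit 130)) (PT.nd (nat_lit 78) (PT.lf (nat_lit 3952) (nat_lit 6) (nat_lit 52) (nat_lit 0) (nat_lit 162) (nat_lit 159) (nat_lit 129)) (PT.lf (nat_lit 3648) (nat_lit 6) (nat_lit 48) (nat_lit 0) (nat_lit 163) (nat_lit 159) (nat_lit 128))))) (PT.nd (nat_lit 44070) (PT.nd (nat_lit 43914) (PT.lf (nat_lit 3420) (nat_lit 6) (nat_lit 45) (nat_lit 0) (nat_lit 164) (nat_lit 159) (nat_lit 127)) (PT.nd (nat_lit 78) (PT.lf (nat_lit 3192) (nat_lit 6) (nat_lit 42) (nat_lit 5) (nat_lit 126) (nat_lit 160) (nat_lit 164)) (PT.lf (nat_lit 3496) (nat_lit 6) (nat_lit 46) (nat_lit 5) (nat_lit 127) (nat_lit 160) (nat_lit 163)))) (PT.nd (nat_lit 156) (PT.nd (nat_lit 78) (PT.lf (nat_lit 3724) (nat_lit 6) (nat_lit 49) (nat_lit 5) (nat_lit 128) (nat_lit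 160) (nat_lit 162)) (PT.lf (nat_lit 4028) (nat_lit 6) (nat_lit 53) (nat_lit 5) (nat_lit 129) (nat_lit 160) (nat_lit 161))) (PT.nd (nat_lit 78) (PT.lf (nat_lit 4256) (nat_lit 3) (nat_lit 56) (nat_lit 4) (nat_lit 130) (nat_lit 160) (nat_lit 160)) (PT.lf (nat_lit 4484) (nat_lit 6) (nat_lit 59) (nat_lit 4) (nat_lit 131) (nat_lit 160) (nat_lit 159)))))) (PT.nd (nat_lit 546) (PT.nd (nat_lit 234) (PT.nd (nat_lit 78) (PT.lf (nat_lit 4712) (nat_lit 6) (nat_lit 62) (nat_lit 4) (nat_lit 132) (nat_lit 160) (nat_lit 158)) (PT.nd (nat_lit 78) (PT.lf (nat_lit 5016) (nat_lit 6) (nat_lit 66) (nat_lit 4) (nat_lit 133) (nat_lit 160) (nat_lit 157)) (PT.lf (nat_lit 5244) (nat_lit 6) (nat_lit 69) (nat_lit 4) (nat_lit 134) (nat_lit 160) (nat_lit 156)))) (PT.nd (nat_lit 156) (PT.nd (nat_lit 78) (PT.lf (nat_lit 5548) (nat_lit 6) (nat_lit 73) (nat_lit 4) (nat_lit 135) (nat_lit 160) (nat_lit 155)) (PT.lf (nat_lit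 5852) (nat_lit 6) (nat_lit 77) (nat_lit 4) (nat_lit 136) (nat_lit 160) (nat_lit 154))) (PT.nd (nat_lit 78) (PT.lf (nat_lit 6232) (nat_lit 6) (nat_lit 82) (nat_lit 4) (nat_lit 137) (nat_lit 160) (nat_lit 153)) (PT.lf (nat_lit 6536) (nat_lit 6) (nat_lit 86) (nat_lit 4) (nat_lit 138) (nat_lit 160) (nat_lit 152))))) (PT.nd (nat_lit 234) (PT.nd (nat_lit 78) (PT.lf (nat_lit 6916) (nat_lit 6) (nat_lit 91) (nat_lit 4) (nat_lit 139) (nat_lit 160) (nat_lit 151)) (PT.nd (nat_lit 78) (PT.lf (nat_lit 7676) (nat_lit 6) (nat_lit 101) (nat_lit 4) (nat_lit 140) (nat_lit 160) (nat_lit 150)) (PT.lf (nat_lit 7600) (nat_lit 6) (nat_lit 100) (nat_lit 4) (nat_lit 141) (nat_lit 160) (nat_lit 149)))) (PT.nd (nat_lit 156) (PT.nd (nat_lit 78) (PT.lf (nat_lit 7524) (nat_lit 6) (nat_lit 99) (nat_lit 4) (nat_lit 142) (nat_lit 160) (nat_lit 148)) (PT.lf (nat_lit 7448) (nat_lit 6) (nat_lit 98) (nat_lit 4) (nat_lit 143)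 (nat_lit 160) (nat_lit 147))) (PT.nd (nat_lit 78) (PT.lf (nat_lit 7372) (nat_lit 6) (nat_lit 97) (nat_lit 4) (nat_lit 144) (nat_lit 160) (nat_lit 146)) (PT.lf (nat_lit 7296) (nat_lit 3) (nat_lit 96) (nat_lit 2) (nat_lit 145) (nat_lit 160) (nat_lit 145))))))))
noncomputable def pc12 : PT := (PT.nd (nat_lit 45708) (PT.nd (nat_lit 1014) (PT.nd (nat_lit 468) (PT.nd (nat_lit 234) (PT.nd (nat_lit 78) (PT.lf (nat_lit 7372) (nat_lit 6) (nat_lit 97) (nat_lit 2) (nat_lit 146) (nat_lit 160) (nat_lit 144)) (PT.nd (nat_lit 78) (PT.lf (nat_lit 7448) (nat_lit 6) (nat_lit 98) (nat_lit 2) (nat_lit 147) (nat_lit 160) (nat_lit 143)) (PT.lf (nat_lit 7524) (nat_lit 6) (nat_lit 99) (nat_lit 2) (nat_lit 148) (nat_lit 160) (nat_lit 142)))) (PT.nd (nat_lit 78) (PT.lf (nat_lit 7600) (nat_lit 6) (nat_lit 100) (nat_lit 2) (nat_lit 149) (nat_lit 160) (nat_lit 141)) (PT.nd (nat_lit 78) (PT.lf (nat_lit 7676) (nat_lit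 6) (nat_lit 101) (nat_lit 2) (nat_lit 150) (nat_lit 160) (nat_lit 140)) (PT.lf (nat_lit 6916) (nat_lit 6) (nat_lit 91) (nat_lit 2) (nat_lit 151) (nat_lit 160) (nat_lit 139))))) (PT.nd (nat_lit 234) (PT.nd (nat_lit 78) (PT.lf (nat_lit 6536) (nat_lit 6) (nat_lit 86) (nat_lit 2) (nat_lit 152) (nat_lit 160) (nat_lit 138)) (PT.nd (nat_lit 78) (PT.lf (nat_lit 6232) (nat_lit 6) (nat_lit 82) (nat_lit 2) (nat_lit 153) (nat_lit 160) (nat_lit 137)) (PT.lf (nat_lit 5852) (nat_lit 6) (nat_lit 77) (nat_lit 2) (nat_lit 154) (nat_lit 160) (nat_lit 136)))) (PT.nd (nat_lit 156) (PT.nd (nat_lit 78) (PT.lf (nat_lit 5548) (nat_lit 6) (nat_lit 73) (nat_lit 2) (nat_lit 155) (nat_lit 160) (nat_lit 135)) (PT.lf (nat_lit 5244) (nat_lit 6) (nat_lit 69) (nat_lit 2) (nat_lit 156) (nat_lit 160) (nat_lit 134))) (PT.nd (nat_lit 78) (PT.lf (nat_lit 5016) (nat_lit 6) (nat_lit 66) (nat_lit 2) (nat_lit 157) (nat_lit 160)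 (nat_lit 133)) (PT.lf (nat_lit 4712) (nat_lit 6) (nat_lit 62) (nat_lit 2) (nat_lit 158) (nat_lit 160) (nat_lit 132)))))) (PT.nd (nat_lit 44148) (PT.nd (nat_lit 234) (PT.nd (nat_lit 78) (PT.lf (nat_lit 4484) (nat_lit 6) (nat_lit 59) (nat_lit 2) (nat_lit 159) (nat_lit 160) (nat_lit 131)) (PT.nd (nat_lit 78) (PT.lf (nat_lit 4256) (nat_lit 3) (nat_lit 56) (nat_lit 0) (nat_lit 160) (nat_lit 160) (nat_lit 130)) (PT.lf (nat_lit 4028) (nat_lit 6) (nat_lit 53) (nat_lit 0) (nat_lit 161) (nat_lit 160) (nat_lit 129)))) (PT.nd (nat_lit 78) (PT.lf (nat_lit 3724) (nat_lit 6) (nat_lit 49) (nat_lit 0) (nat_lit 162) (nat_lit 160) (nat_lit 128)) (PT.nd (nat_lit 78) (PT.lf (nat_lit 3496) (nat_lit 6) (nat_lit 46) (nat_lit 0) (nat_lit 163) (nat_lit 160) (nat_lit 127)) (PT.lf (nat_lit 3192) (nat_lit 6) (nat_lit 42) (nat_lit 0) (nat_lit 164) (nat_lit 160) (nat_lit 126))))) (PT.nd (nat_lit 234) (PT.nd (nat_lit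 78) (PT.lf (nat_lit 2812) (nat_lit 6) (nat_lit 37) (nat_lit 5) (nat_lit 124) (nat_lit 161) (nat_lit 165)) (PT.nd (nat_lit 78) (PT.lf (nat_lit 3040) (nat_lit 6) (nat_lit 40) (nat_lit 5) (nat_lit 125) (nat_lit 161) (nat_lit 164)) (PT.lf (nat_lit 3268) (nat_lit 6) (nat_lit 43) (nat_lit 5) (nat_lit 126) (nat_lit 161) (nat_lit 163)))) (PT.nd (nat_lit 156) (PT.nd (nat_lit 78) (PT.lf (nat_lit 3572) (nat_lit 6) (nat_lit 47) (nat_lit 5) (nat_lit 127) (nat_lit 161) (nat_lit 162)) (PT.lf (nat_lit 3800) (nat_lit 3) (nat_lit 50) (nat_lit 4) (nat_lit 128) (nat_lit 161) (nat_lit 161))) (PT.nd (nat_lit 78) (PT.lf (nat_lit 4028) (nat_lit 6) (nat_lit 53) (nat_lit 4) (nat_lit 129) (nat_lit 161) (nat_lit 160)) (PT.lf (nat_lit 4180) (nat_lit 6) (nat_lit 55) (nat_lit 4) (nat_lit 130) (nat_lit 161) (nat_lit 159))))))) (PT.nd (nat_lit 2106) (PT.nd (nat_lit 468) (PT.nd (nat_lit 234) (PT.nd (nat_lit 78) (PT.lf (nat_lit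 4408) (nat_lit 6) (nat_lit 58) (nat_lit 4) (nat_lit 131) (nat_lit 161) (nat_lit 158)) (PT.nd (nat_lit 78) (PT.lf (nat_lit 4636) (nat_lit 6) (nat_lit 61) (nat_lit 4) (nat_lit 132) (nat_lit 161) (nat_lit 157)) (PT.lf (nat_lit 4940) (nat_lit 6) (nat_lit 65) (nat_lit 4) (nat_lit 133) (nat_lit 161) (nat_lit 156)))) (PT.nd (nat_lit 78) (PT.lf (nat_lit 5168) (nat_lit 6) (nat_lit 68) (nat_lit 4) (nat_lit 134) (nat_lit 161) (nat_lit 155)) (PT.nd (nat_lit 78) (PT.lf (nat_lit 5472) (nat_lit 6) (nat_lit 72) (nat_lit 4) (nat_lit 135) (nat_lit 161) (nat_lit 154)) (PT.lf (nat_lit 5776) (nat_lit 6) (nat_lit 76) (nat_lit 4) (nat_lit 136) (nat_lit 161) (nat_lit 153))))) (PT.nd (nat_lit 1326) (PT.nd (nat_lit 1170) (PT.lf (nat_lit 6156) (nat_lit 6) (nat_lit 81) (nat_lit 4) (nat_lit 137) (nat_lit 161) (nat_lit 152)) (PT.nd (nat_lit 78) (PT.lf (nat_lit 6156) (nat_lit 6) (nat_lit 81) (nat_lit 2) (nat_lit 152)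 (nat_lit 161) (nat_lit 137)) (PT.lf (nat_lit 5776) (nat_lit 6) (nat_lit 76) (nat_lit 2) (nat_lit 153) (nat_lit 161) (nat_lit 136)))) (PT.nd (nat_lit 156) (PT.nd (nat_lit 78) (PT.lf (nat_lit 5472) (nat_lit 6) (nat_lit 72) (nat_lit 2) (nat_lit 154) (nat_lit 161) (nat_lit 135)) (PT.lf (nat_lit 5168) (nat_lit 6) (nat_lit 68) (nat_lit 2) (nat_lit 155) (nat_lit 161) (nat_lit 134))) (PT.nd (nat_lit 78) (PT.lf (nat_lit 4940) (nat_lit 6) (nat_lit 65) (nat_lit 2) (nat_lit 156) (nat_lit 161) (nat_lit 133)) (PT.lf (nat_lit 4636) (nat_lit 6) (nat_lit 61) (nat_lit 2) (nat_lit 157) (nat_lit 161) (nat_lit 132)))))) (PT.nd (nat_lit 468) (PT.nd (nat_lit 234) (PT.nd (nat_lit 78) (PT.lf (nat_lit 4408) (nat_lit 6) (nat_lit 58) (nat_lit 2) (nat_lit 158) (nat_lit 161) (nat_lit 131)) (PT.nd (nat_lit 78) (PT.lf (nat_lit 4180) (nat_lit 6) (nat_lit 55) (nat_lit 2) (nat_lit 159) (nat_lit 161) (nat_lit 130)) (PT.lf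 (nat_lit 4028) (nat_lit 6) (nat_lit 53) (nat_lit 2) (nat_lit 160) (nat_lit 161) (nat_lit 129)))) (PT.nd (nat_lit 78) (PT.lf (nat_lit 3800) (nat_lit 3) (nat_lit 50) (nat_lit 0) (nat_lit 161) (nat_lit 161) (nat_lit 128)) (PT.nd (nat_lit 78) (PT.lf (nat_lit 3572) (nat_lit 6) (nat_lit 47) (nat_lit 0) (nat_lit 162) (nat_lit 161) (nat_lit 127)) (PT.lf (nat_lit 3268) (nat_lit 6) (nat_lit 43) (nat_lit 0) (nat_lit 163) (nat_lit 161) (nat_lit 126))))) (PT.nd (nat_lit 43758) (PT.nd (nat_lit 78) (PT.lf (nat_lit 3040) (nat_lit 6) (nat_lit 40) (nat_lit 0) (nat_lit 164) (nat_lit 161) (nat_lit 125)) (PT.nd (nat_lit 43602) (PT.lf (nat_lit 2812) (nat_lit 6) (nat_lit 37) (nat_lit 0) (nat_lit 165) (nat_lit 161) (nat_lit 124)) (PT.lf (nat_lit 2660) (nat_lit 6) (nat_lit 35) (nat_lit 5) (nat_lit 123) (nat_lit 162) (nat_lit 165)))) (PT.nd (nat_lit 156) (PT.nd (nat_lit 78) (PT.lf (nat_lit 2888) (nat_lit 6) (nat_lit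 38) (nat_lit 5) (nat_lit 124) (nat_lit 162) (nat_lit 164)) (PT.lf (nat_lit 3116) (nat_lit 6) (nat_lit 41) (nat_lit 5) (nat_lit 125) (nat_lit 162) (nat_lit 163))) (PT.nd (nat_lit 78) (PT.lf (nat_lit 3344) (nat_lit 3) (nat_lit 44) (nat_lit 4) (nat_lit 126) (nat_lit 162) (nat_lit 162)) (PT.lf (nat_lit 3572) (nat_lit 6) (nat_lit 47) (nat_lit 4) (nat_lit 127) (nat_lit 162) (nat_lit 161))))))))
noncomputable def pc13 : PT := (PT.nd (nat_lit 49218) (PT.nd (nat_lit 2652) (PT.nd (nat_lit 2106) (PT.nd (nat_lit 234) (PT.nd (nat_lit 78) (PT.lf (nat_lit 3724) (nat_lit 6) (nat_lit 49) (nat_lit 4) (nat_lit 128) (nat_lit 162) (nat_lit 160)) (PT.nd (nat_lit 78) (PT.lf (nat_lit 3952) (nat_lit 6) (nat_lit 52) (nat_lit 4) (nat_lit 129) (nat_lit 162) (nat_lit 159)) (PT.lf (nat_lit 4104) (nat_lit 6) (nat_lit 54) (nat_lit 4) (nat_lit 130) (nat_lit 162) (nat_lit 158)))) (PT.nd (nat_lit 78) (PT.lf (nat_lit 4332)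 (nat_lit 6) (nat_lit 57) (nat_lit 4) (nat_lit 131) (nat_lit 162) (nat_lit 157)) (PT.nd (nat_lit 78) (PT.lf (nat_lit 4560) (nat_lit 6) (nat_lit 60) (nat_lit 4) (nat_lit 132) (nat_lit 162) (nat_lit 156)) (PT.lf (nat_lit 4864) (nat_lit 6) (nat_lit 64) (nat_lit 4) (nat_lit 133) (nat_lit 162) (nat_lit 155))))) (PT.nd (nat_lit 234) (PT.nd (nat_lit 78) (PT.lf (nat_lit 4864) (nat_lit 6) (nat_lit 64) (nat_lit 2) (nat_lit 155) (nat_lit 162) (nat_lit 133)) (PT.nd (nat_lit 78) (PT.lf (nat_lit 4560) (nat_lit 6) (nat_lit 60) (nat_lit 2) (nat_lit 156) (nat_lit 162) (nat_lit 132)) (PT.lf (nat_lit 4332) (nat_lit 6) (nat_lit 57) (nat_lit 2) (nat_lit 157) (nat_lit 162) (nat_lit 131)))) (PT.nd (nat_lit 156) (PT.nd (nat_lit 78) (PT.lf (nat_lit 4104) (nat_lit 6) (nat_lit 54) (nat_lit 2) (nat_lit 158) (nat_lit 162) (nat_lit 130)) (PT.lf (nat_lit 3952) (nat_lit 6) (nat_lit 52) (nat_lit 2) (nat_lit 159) (nat_lit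 162) (nat_lit 129))) (PT.nd (nat_lit 78) (PT.lf (nat_lit 3724) (nat_lit 6) (nat_lit 49) (nat_lit 2) (nat_lit 160) (nat_lit 162) (nat_lit 128)) (PT.lf (nat_lit 3572) (nat_lit 6) (nat_lit 47) (nat_lit 2) (nat_lit 161) (nat_lit 162) (nat_lit 127)))))) (PT.nd (nat_lit 43836) (PT.nd (nat_lit 234) (PT.nd (nat_lit 78) (PT.lf (nat_lit 3344) (nat_lit 3) (nat_lit 44) (nat_lit 0) (nat_lit 162) (nat_lit 162) (nat_lit 126)) (PT.nd (nat_lit 78) (PT.lf (nat_lit 3116) (nat_lit 6) (nat_lit 41) (nat_lit 0) (nat_lit 163) (nat_lit 162) (nat_lit 125)) (PT.lf (nat_lit 2888) (nat_lit 6) (nat_lit 38) (nat_lit 0) (nat_lit 164) (nat_lit 162) (nat_lit 124)))) (PT.nd (nat_lit 43446) (PT.lf (nat_lit 2660) (nat_lit 6) (nat_lit 35) (nat_lit 0) (nat_lit 165) (nat_lit 162) (nat_lit 123)) (PT.nd (nat_lit 78) (PT.lf (nat_lit 2356) (nat_lit 6) (nat_lit 31) (nat_lit 5) (nat_lit 121) (nat_lit 163) (nat_lit 166)) (PT.lf (nat_lit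 2508) (nat_lit 6) (nat_lit 33) (nat_lit 5) (nat_lit 122) (nat_lit 163) (nat_lit 165))))) (PT.nd (nat_lit 234) (PT.nd (nat_lit 78) (PT.lf (nat_lit 2736) (nat_lit 6) (nat_lit 36) (nat_lit 5) (nat_lit 123) (nat_lit 163) (nat_lit 164)) (PT.nd (nat_lit 78) (PT.lf (nat_lit 2964) (nat_lit 3) (nat_lit 39) (nat_lit 4) (nat_lit 124) (nat_lit 163) (nat_lit 163)) (PT.lf (nat_lit 3116) (nat_lit 6) (nat_lit 41) (nat_lit 4) (nat_lit 125) (nat_lit 163) (nat_lit 162)))) (PT.nd (nat_lit 156) (PT.nd (nat_lit 78) (PT.lf (nat_lit 3268) (nat_lit 6) (nat_lit 43) (nat_lit 4) (nat_lit 126) (nat_lit 163) (nat_lit 161)) (PT.lf (nat_lit 3496) (nat_lit 6) (nat_lit 46) (nat_lit 4) (nat_lit 127) (nat_lit 163) (nat_lit 160))) (PT.nd (nat_lit 78) (PT.lf (nat_lit 3648) (nat_lit 6) (nat_lit 48) (nat_lit 4) (nat_lit 128) (nat_lit 163) (nat_lit 159)) (PT.lf (nat_lit 3876) (nat_lit 6) (nat_lit 51) (nat_lit 4) (nat_lit 129)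 (nat_lit 163) (nat_lit 158))))))) (PT.nd (nat_lit 44148) (PT.nd (nat_lit 468) (PT.nd (nat_lit 234) (PT.nd (nat_lit 78) (PT.lf (nat_lit 3876) (nat_lit 6) (nat_lit 51) (nat_lit 2) (nat_lit 158) (nat_lit 163) (nat_lit 129)) (PT.nd (nat_lit 78) (PT.lf (nat_lit 3648) (nat_lit 6) (nat_lit 48) (nat_lit 2) (nat_lit 159) (nat_lit 163) (nat_lit 128)) (PT.lf (nat_lit 3496) (nat_lit 6) (nat_lit 46) (nat_lit 2) (nat_lit 160) (nat_lit 163) (nat_lit 127)))) (PT.nd (nat_lit 78) (PT.lf (nat_lit 3268) (nat_lit 6) (nat_lit 43) (nat_lit 2) (nat_lit 161) (nat_lit 163) (nat_lit 126)) (PT.nd (nat_lit 78) (PT.lf (nat_lit 3116) (nat_lit 6) (nat_lit 41) (nat_lit 2) (nat_lit 162) (nat_lit 163) (nat_lit 125)) (PT.lf (nat_lit 2964) (nat_lit 3) (nat_lit 39) (nat_lit 0) (nat_lit 163) (nat_lit 163) (nat_lit 124))))) (PT.nd (nat_lit 43368) (PT.nd (nat_lit 78) (PT.lf (nat_lit 2736) (nat_lit 6) (nat_lit 36) (nat_lit 0) (nat_lit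 164) (nat_lit 163) (nat_lit 123)) (PT.nd (nat_lit 78) (PT.lf (nat_lit 2508) (nat_lit 6) (nat_lit 33) (nat_lit 0) (nat_lit 165) (nat_lit 163) (nat_lit 122)) (PT.lf (nat_lit 2356) (nat_lit 6) (nat_lit 31) (nat_lit 0) (nat_lit 166) (nat_lit 163) (nat_lit 121)))) (PT.nd (nat_lit 156) (PT.nd (nat_lit 78) (PT.lf (nat_lit 2052) (nat_lit 6) (nat_lit 27) (nat_lit 5) (nat_lit 119) (nat_lit 164) (nat_lit 167)) (PT.lf (nat_lit 2204) (nat_lit 6) (nat_lit 29) (nat_lit 5) (nat_lit 120) (nat_lit 164) (nat_lit 166))) (PT.nd (nat_lit 78) (PT.lf (nat_lit 2432) (nat_lit 6) (nat_lit 32) (nat_lit 5) (nat_lit 121) (nat_lit 164) (nat_lit 165)) (PT.lf (nat_lit 2584) (nat_lit 3) (nat_lit 34) (nat_lit 4) (nat_lit 122) (nat_lit 164) (nat_lit 164)))))) (PT.nd (nat_lit 2964) (PT.nd (nat_lit 234) (PT.nd (nat_lit 78) (PT.lf (nat_lit 2736) (nat_lit 6) (nat_lit 36) (nat_lit 4) (nat_lit 123) (nat_lit 164) (nat_lit 163))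 (PT.nd (nat_lit 78) (PT.lf (nat_lit 2888) (nat_lit 6) (nat_lit 38) (nat_lit 4) (nat_lit 124) (nat_lit 164) (nat_lit 162)) (PT.lf (nat_lit 3040) (nat_lit 6) (nat_lit 40) (nat_lit 4) (nat_lit 125) (nat_lit 164) (nat_lit 161)))) (PT.nd (nat_lit 2574) (PT.nd (nat_lit 78) (PT.lf (nat_lit 3192) (nat_lit 6) (nat_lit 42) (nat_lit 4) (nat_lit 126) (nat_lit 164) (nat_lit 160)) (PT.lf (nat_lit 3420) (nat_lit 6) (nat_lit 45) (nat_lit 4) (nat_lit 127) (nat_lit 164) (nat_lit 159))) (PT.nd (nat_lit 78) (PT.lf (nat_lit 3420) (nat_lit 6) (nat_lit 45) (nat_lit 2) (nat_lit 159) (nat_lit 164) (nat_lit 127)) (PT.lf (nat_lit 3192) (nat_lit 6) (nat_lit 42) (nat_lit 2) (nat_lit 160) (nat_lit 164) (nat_lit 126))))) (PT.nd (nat_lit 234) (PT.nd (nat_lit 78) (PT.lf (nat_lit 3040) (nat_lit 6) (nat_lit 40) (nat_lit 2) (nat_lit 161) (nat_lit 164) (nat_lit 125)) (PT.nd (nat_lit 78) (PT.lf (nat_lit 2888) (nat_lit 6) (nat_lit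 38) (nat_lit 2) (nat_lit 162) (nat_lit 164) (nat_lit 124)) (PT.lf (nat_lit 2736) (nat_lit 6) (nat_lit 36) (nat_lit 2) (nat_lit 163) (nat_lit 164) (nat_lit 123)))) (PT.nd (nat_lit 156) (PT.nd (nat_lit 78) (PT.lf (nat_lit 2584) (nat_lit 3) (nat_lit 34) (nat_lit 0) (nat_lit 164) (nat_lit 164) (nat_lit 122)) (PT.lf (nat_lit 2432) (nat_lit 6) (nat_lit 32) (nat_lit 0) (nat_lit 165) (nat_lit 164) (nat_lit 121))) (PT.nd (nat_lit 78) (PT.lf (nat_lit 2204) (nat_lit 6) (nat_lit 29) (nat_lit 0) (nat_lit 166) (nat_lit 164) (nat_lit 120)) (PT.lf (nat_lit 2052) (nat_lit 6) (nat_lit 27) (nat_lit 0) (nat_lit 167) (nat_lit 164) (nat_lit 119))))))))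
noncomputable def pc14 : PT := (PT.nd (nat_lit 50778) (PT.nd (nat_lit 3822) (PT.nd (nat_lit 468) (PT.nd (nat_lit 234) (PT.nd (nat_lit 78) (PT.lf (nat_lit 1748) (nat_lit 6) (nat_lit 23) (nat_lit 5) (nat_lit 117) (nat_lit 165) (nat_lit 168)) (PT.nd (nat_lit 78) (PT.lf (nat_lit 1900) (nat_lit 6) (nat_lit 25) (nat_lit 5) (nat_lit 118) (nat_lit 165) (nat_lit 167)) (PT.lf (nat_lit 2128) (nat_lit 6) (nat_lit 28) (nat_lit 5) (nat_lit 119) (nat_lit 165) (nat_lit 166)))) (PT.nd (nat_lit 78) (PT.lf (nat_lit 2280) (nat_lit 3) (nat_lit 30) (nat_lit 4) (nat_lit 120) (nat_lit 165) (nat_lit 165)) (PT.nd (nat_lit 78) (PT.lf (nat_lit 2432) (nat_lit 6) (nat_lit 32) (nat_lit 4) (nat_lit 121) (nat_lit 165) (nat_lit 164)) (PT.lf (nat_lit 2508) (nat_lit 6) (nat_lit 33) (nat_lit 4) (nat_lit 122) (nat_lit 165) (nat_lit 163))))) (PT.nd (nat_lit 3042) (PT.nd (nat_lit 78) (PT.lf (nat_lit 2660) (nat_lit 6) (nat_lit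 35) (nat_lit 4) (nat_lit 123) (nat_lit 165) (nat_lit 162)) (PT.nd (nat_lit 2886) (PT.lf (nat_lit 2812) (nat_lit 6) (nat_lit 37) (nat_lit 4) (nat_lit 124) (nat_lit 165) (nat_lit 161)) (PT.lf (nat_lit 2812) (nat_lit 6) (nat_lit 37) (nat_lit 2) (nat_lit 161) (nat_lit 165) (nat_lit 124)))) (PT.nd (nat_lit 156) (PT.nd (nat_lit 78) (PT.lf (nat_lit 2660) (nat_lit 6) (nat_lit 35) (nat_lit 2) (nat_lit 162) (nat_lit 165) (nat_lit 123)) (PT.lf (nat_lit 2508) (nat_lit 6) (nat_lit 33) (nat_lit 2) (nat_lit 163) (nat_lit 165) (nat_lit 122))) (PT.nd (nat_lit 78) (PT.lf (nat_lit 2432) (nat_lit 6) (nat_lit 32) (nat_lit 2) (nat_lit 164) (nat_lit 165) (nat_lit 121)) (PT.lf (nat_lit 2280) (nat_lit 3) (nat_lit 30) (nat_lit 0) (nat_lit 165) (nat_lit 165) (nat_lit 120)))))) (PT.nd (nat_lit 43212) (PT.nd (nat_lit 42978) (PT.nd (nat_lit 78) (PT.lf (nat_lit 2128) (nat_lit 6) (nat_lit 28) (nat_lit 0) (nat_lit 166)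 (nat_lit 165) (nat_lit 119)) (PT.nd (nat_lit 78) (PT.lf (nat_lit 1900) (nat_lit 6) (nat_lit 25) (nat_lit 0) (nat_lit 167) (nat_lit 165) (nat_lit 118)) (PT.lf (nat_lit 1748) (nat_lit 6) (nat_lit 23) (nat_lit 0) (nat_lit 168) (nat_lit 165) (nat_lit 117)))) (PT.nd (nat_lit 78) (PT.lf (nat_lit 1596) (nat_lit 6) (nat_lit 21) (nat_lit 5) (nat_lit 116) (nat_lit 166) (nat_lit 168)) (PT.nd (nat_lit 78) (PT.lf (nat_lit 1824) (nat_lit 6) (nat_lit 24) (nat_lit 5) (nat_lit 117) (nat_lit 166) (nat_lit 167)) (PT.lf (nat_lit 1976) (nat_lit 3) (nat_lit 26) (nat_lit 4) (nat_lit 118) (nat_lit 166) (nat_lit 166))))) (PT.nd (nat_lit 3432) (PT.nd (nat_lit 78) (PT.lf (nat_lit 2128) (nat_lit 6) (nat_lit 28) (nat_lit 4) (nat_lit 119) (nat_lit 166) (nat_lit 165)) (PT.nd (nat_lit 78) (PT.lf (nat_lit 2204) (nat_lit 6) (nat_lit 29) (nat_lit 4) (nat_lit 120) (nat_lit 166) (nat_lit 164)) (PT.lf (nat_lit 2356) (nat_lit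 6) (nat_lit 31) (nat_lit 4) (nat_lit 121) (nat_lit 166) (nat_lit 163)))) (PT.nd (nat_lit 156) (PT.nd (nat_lit 78) (PT.lf (nat_lit 2356) (nat_lit 6) (nat_lit 31) (nat_lit 2) (nat_lit 163) (nat_lit 166) (nat_lit 121)) (PT.lf (nat_lit 2204) (nat_lit 6) (nat_lit 29) (nat_lit 2) (nat_lit 164) (nat_lit 166) (nat_lit 120))) (PT.nd (nat_lit 78) (PT.lf (nat_lit 2128) (nat_lit 6) (nat_lit 28) (nat_lit 2) (nat_lit 165) (nat_lit 166) (nat_lit 119)) (PT.lf (nat_lit 1976) (nat_lit 3) (nat_lit 26) (nat_lit 0) (nat_lit 166) (nat_lit 166) (nat_lit 118))))))) (PT.nd (nat_lit 47034) (PT.nd (nat_lit 43056) (PT.nd (nat_lit 42822) (PT.nd (nat_lit 78) (PT.lf (nat_lit 1824) (nat_lit 6) (nat_lit 24) (nat_lit 0) (nat_lit 167) (nat_lit 166) (nat_lit 117)) (PT.nd (nat_lit 42666) (PT.lf (nat_lit 1596) (nat_lit 6) (nat_lit 21) (nat_lit 0) (nat_lit 168) (nat_lit 166) (nat_lit 116)) (PT.lf (nat_lit 1368) (nat_lit 6) (nat_lit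 18) (nat_lit 5) (nat_lit 114) (nat_lit 167) (nat_lit 169)))) (PT.nd (nat_lit 78) (PT.lf (nat_lit 1520) (nat_lit 6) (nat_lit 20) (nat_lit 5) (nat_lit 115) (nat_lit 167) (nat_lit 168)) (PT.nd (nat_lit 78) (PT.lf (nat_lit 1672) (nat_lit 3) (nat_lit 22) (nat_lit 4) (nat_lit 116) (nat_lit 167) (nat_lit 167)) (PT.lf (nat_lit 1824) (nat_lit 6) (nat_lit 24) (nat_lit 4) (nat_lit 117) (nat_lit 167) (nat_lit 166))))) (PT.nd (nat_lit 3666) (PT.nd (nat_lit 78) (PT.lf (nat_lit 1900) (nat_lit 6) (nat_lit 25) (nat_lit 4) (nat_lit 118) (nat_lit 167) (nat_lit 165)) (PT.nd (nat_lit 3510) (PT.lf (nat_lit 2052) (nat_lit 6) (nat_lit 27) (nat_lit 4) (nat_lit 119) (nat_lit 167) (nat_lit 164)) (PT.lf (nat_lit 2052) (nat_lit 6) (nat_lit 27) (nat_lit 2) (nat_lit 164) (nat_lit 167) (nat_lit 119)))) (PT.nd (nat_lit 156) (PT.nd (nat_lit 78) (PT.lf (nat_lit 1900) (nat_lit 6) (nat_lit 25) (nat_lit 2) (nat_lit 165) (nat_lit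 167) (nat_lit 118)) (PT.lf (nat_lit 1824) (nat_lit 6) (nat_lit 24) (nat_lit 2) (nat_lit 166) (nat_lit 167) (nat_lit 117))) (PT.nd (nat_lit 78) (PT.lf (nat_lit 1672) (nat_lit 3) (nat_lit 22) (nat_lit 0) (nat_lit 167) (nat_lit 167) (nat_lit 116)) (PT.lf (nat_lit 1520) (nat_lit 6) (nat_lit 20) (nat_lit 0) (nat_lit 168) (nat_lit 167) (nat_lit 115)))))) (PT.nd (nat_lit 46566) (PT.nd (nat_lit 42588) (PT.nd (nat_lit 42432) (PT.lf (nat_lit 1368) (nat_lit 6) (nat_lit 18) (nat_lit 0) (nat_lit 169) (nat_lit 167) (nat_lit 114)) (PT.nd (nat_lit 78) (PT.lf (nat_lit 1140) (nat_lit 6) (nat_lit 15) (nat_lit 5) (nat_lit 112) (nat_lit 168) (nat_lit 170)) (PT.lf (nat_lit 1292) (nat_lit 6) (nat_lit 17) (nat_lit 5) (nat_lit 113) (nat_lit 168) (nat_lit 169)))) (PT.nd (nat_lit 156) (PT.nd (nat_lit 78) (PT.lf (nat_lit 1444) (nat_lit 3) (nat_lit 19) (nat_lit 4) (nat_lit 114) (nat_lit 168) (nat_lit 168)) (PT.lf (nat_lit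 1520) (nat_lit 6) (nat_lit 20) (nat_lit 4) (nat_lit 115) (nat_lit 168) (nat_lit 167))) (PT.nd (nat_lit 78) (PT.lf (nat_lit 1596) (nat_lit 6) (nat_lit 21) (nat_lit 4) (nat_lit 116) (nat_lit 168) (nat_lit 166)) (PT.lf (nat_lit 1748) (nat_lit 6) (nat_lit 23) (nat_lit 4) (nat_lit 117) (nat_lit 168) (nat_lit 165))))) (PT.nd (nat_lit 234) (PT.nd (nat_lit 78) (PT.lf (nat_lit 1748) (nat_lit 6) (nat_lit 23) (nat_lit 2) (nat_lit 165) (nat_lit 168) (nat_lit 117)) (PT.nd (nat_lit 78) (PT.lf (nat_lit 1596) (nat_lit 6) (nat_lit 21) (nat_lit 2) (nat_lit 166) (nat_lit 168) (nat_lit 116)) (PT.lf (nat_lit 1520) (nat_lit 6) (nat_lit 20) (nat_lit 2) (nat_lit 167) (nat_lit 168) (nat_lit 115)))) (PT.nd (nat_lit 156) (PT.nd (nat_lit 78) (PT.lf (nat_lit 1444) (nat_lit 3) (nat_lit 19) (nat_lit 0) (nat_lit 168) (nat_lit 168) (nat_lit 114)) (PT.lf (nat_lit 1292) (nat_lit 6) (nat_lit 17) (nat_lit 0) (nat_lit 169)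 (nat_lit 168) (nat_lit 113))) (PT.nd (nat_lit 42198) (PT.lf (nat_lit 1140) (nat_lit 6) (nat_lit 15) (nat_lit 0) (nat_lit 170) (nat_lit 168) (nat_lit 112)) (PT.lf (nat_lit 912) (nat_lit 6) (nat_lit 12) (nat_lit 5) (nat_lit 110) (nat_lit 169) (nat_lit 171))))))))
noncomputable def pc15 : PT := (PT.nd (nat_lit 98436) (PT.nd (nat_lit 46956) (PT.nd (nat_lit 4524) (PT.nd (nat_lit 234) (PT.nd (nat_lit 78) (PT.lf (nat_lit 1064) (nat_lit 6) (nat_lit 14) (nat_lit 5) (nat_lit 111) (nat_lit 169) (nat_lit 170)) (PT.nd (nat_lit 78) (PT.lf (nat_lit 1216) (nat_lit 3) (nat_lit 16) (nat_lit 4) (nat_lit 112) (nat_lit 169) (nat_lit 169)) (PT.lf (nat_lit 1292) (nat_lit 6) (nat_lit 17) (nat_lit 4) (nat_lit 113) (nat_lit 169) (nat_lit 168)))) (PT.nd (nat_lit 4134) (PT.lf (nat_lit 1368) (nat_lit 6) (nat_lit 18) (nat_lit 4) (nat_lit 114) (nat_lit 169) (nat_lit 167)) (PT.nd (nat_lit 78) (PT.lf (nat_lit 1368) (nat_lit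 6) (nat_lit 18) (nat_lit 2) (nat_lit 167) (nat_lit 169) (nat_lit 114)) (PT.lf (nat_lit 1292) (nat_lit 6) (nat_lit 17) (nat_lit 2) (nat_lit 168) (nat_lit 169) (nat_lit 113))))) (PT.nd (nat_lit 42120) (PT.nd (nat_lit 78) (PT.lf (nat_lit 1216) (nat_lit 3) (nat_lit 16) (nat_lit 0) (nat_lit 169) (nat_lit 169) (nat_lit 112)) (PT.nd (nat_lit 78) (PT.lf (nat_lit 1064) (nat_lit 6) (nat_lit 14) (nat_lit 0) (nat_lit 170) (nat_lit 169) (nat_lit 111)) (PT.lf (nat_lit 912) (nat_lit 6) (nat_lit 12) (nat_lit 0) (nat_lit 171) (nat_lit 169) (nat_lit 110)))) (PT.nd (nat_lit 156) (PT.nd (nat_lit 78) (PT.lf (nat_lit 684) (nat_lit 6) (nat_lit 9) (nat_lit 5) (nat_lit 108) (nat_lit 170) (nat_lit 172)) (PT.lf (nat_lit 836) (nat_lit 6) (nat_lit 11) (nat_lit 5) (nat_lit 109) (nat_lit 170) (nat_lit 171))) (PT.nd (nat_lit 78) (PT.lf (nat_lit 988) (nat_lit 3) (nat_lit 13) (nat_lit 4) (nat_lit 110) (nat_lit 170) (nat_lit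 170)) (PT.lf (nat_lit 1064) (nat_lit 6) (nat_lit 14) (nat_lit 4) (nat_lit 111) (nat_lit 170) (nat_lit 169)))))) (PT.nd (nat_lit 46410) (PT.nd (nat_lit 4524) (PT.nd (nat_lit 4368) (PT.lf (nat_lit 1140) (nat_lit 6) (nat_lit 15) (nat_lit 4) (nat_lit 112) (nat_lit 170) (nat_lit 168)) (PT.nd (nat_lit 78) (PT.lf (nat_lit 1140) (nat_lit 6) (nat_lit 15) (nat_lit 2) (nat_lit 168) (nat_lit 170) (nat_lit 112)) (PT.lf (nat_lit 1064) (nat_lit 6) (nat_lit 14) (nat_lit 2) (nat_lit 169) (nat_lit 170) (nat_lit 111)))) (PT.nd (nat_lit 78) (PT.lf (nat_lit 988) (nat_lit 3) (nat_lit 13) (nat_lit 0) (nat_lit 170) (nat_lit 170) (nat_lit 110)) (PT.nd (nat_lit 78) (PT.lf (nat_lit 836) (nat_lit 6) (nat_lit 11) (nat_lit 0) (nat_lit 171) (nat_lit 170) (nat_lit 109)) (PT.lf (nat_lit 684) (nat_lit 6) (nat_lit 9) (nat_lit 0) (nat_lit 172) (nat_lit 170) (nat_lit 108))))) (PT.nd (nat_lit 234) (PT.nd (nat_lit 78) (PT.lf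 (nat_lit 456) (nat_lit 6) (nat_lit 6) (nat_lit 5) (nat_lit 106) (nat_lit 171) (nat_lit 173)) (PT.nd (nat_lit 78) (PT.lf (nat_lit 608) (nat_lit 6) (nat_lit 8) (nat_lit 5) (nat_lit 107) (nat_lit 171) (nat_lit 172)) (PT.lf (nat_lit 760) (nat_lit 3) (nat_lit 10) (nat_lit 4) (nat_lit 108) (nat_lit 171) (nat_lit 171)))) (PT.nd (nat_lit 4680) (PT.nd (nat_lit 78) (PT.lf (nat_lit 836) (nat_lit 6) (nat_lit 11) (nat_lit 4) (nat_lit 109) (nat_lit 171) (nat_lit 170)) (PT.lf (nat_lit 912) (nat_lit 6) (nat_lit 12) (nat_lit 4) (nat_lit 110) (nat_lit 171) (nat_lit 169))) (PT.nd (nat_lit 78) (PT.lf (nat_lit 912) (nat_lit 6) (nat_lit 12) (nat_lit 2) (nat_lit 169) (nat_lit 171) (nat_lit 110)) (PT.lf (nat_lit 836) (nat_lit 6) (nat_lit 11) (nat_lit 2) (nat_lit 170) (nat_lit 171) (nat_lit 109))))))) (PT.nd (nat_lit 88452) (PT.nd (nat_lit 41886) (PT.nd (nat_lit 41652) (PT.nd (nat_lit 78) (PT.lf (nat_lit 760) (nat_lit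 3) (nat_lit 10) (nat_lit 0) (nat_lit 171) (nat_lit 171) (nat_lit 108)) (PT.nd (nat_lit 78) (PT.lf (nat_lit 608) (nat_lit 6) (nat_lit 8) (nat_lit 0) (nat_lit 172) (nat_lit 171) (nat_lit 107)) (PT.lf (nat_lit 456) (nat_lit 6) (nat_lit 6) (nat_lit 0) (nat_lit 173) (nat_lit 171) (nat_lit 106)))) (PT.nd (nat_lit 78) (PT.lf (nat_lit 228) (nat_lit 6) (nat_lit 3) (nat_lit 5) (nat_lit 104) (nat_lit 172) (nat_lit 174)) (PT.nd (nat_lit 78) (PT.lf (nat_lit 380) (nat_lit 6) (nat_lit 5) (nat_lit 5) (nat_lit 105) (nat_lit 172) (nat_lit 173)) (PT.lf (nat_lit 532) (nat_lit 3) (nat_lit 7) (nat_lit 4) (nat_lit 106) (nat_lit 172) (nat_lit 172))))) (PT.nd (nat_lit 4992) (PT.nd (nat_lit 78) (PT.lf (nat_lit 608) (nat_lit 6) (nat_lit 8) (nat_lit 4) (nat_lit 107) (nat_lit 172) (nat_lit 171)) (PT.nd (nat_lit 4836) (PT.lf (nat_lit 684) (nat_lit 6) (nat_lit 9) (nat_lit 4) (nat_lit 108) (nat_lit 172) (nat_lit 170))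 (PT.lf (nat_lit 684) (nat_lit 6) (nat_lit 9) (nat_lit 2) (nat_lit 170) (nat_lit 172) (nat_lit 108)))) (PT.nd (nat_lit 156) (PT.nd (nat_lit 78) (PT.lf (nat_lit 608) (nat_lit 6) (nat_lit 8) (nat_lit 2) (nat_lit 171) (nat_lit 172) (nat_lit 107)) (PT.lf (nat_lit 532) (nat_lit 3) (nat_lit 7) (nat_lit 0) (nat_lit 172) (nat_lit 172) (nat_lit 106))) (PT.nd (nat_lit 78) (PT.lf (nat_lit 380) (nat_lit 6) (nat_lit 5) (nat_lit 0) (nat_lit 173) (nat_lit 172) (nat_lit 105)) (PT.lf (nat_lit 228) (nat_lit 6) (nat_lit 3) (nat_lit 0) (nat_lit 174) (nat_lit 172) (nat_lit 104)))))) (PT.nd (nat_lit 5538) (PT.nd (nat_lit 234) (PT.nd (nat_lit 78) (PT.lf (nat_lit 152) (nat_lit 6) (nat_lit 2) (nat_lit 5) (nat_lit 103) (nat_lit 173) (nat_lit 174)) (PT.nd (nat_lit 78) (PT.lf (nat_lit 304) (nat_lit 3) (nat_lit 4) (nat_lit 4) (nat_lit 104) (nat_lit 173) (nat_lit 173)) (PT.lf (nat_lit 380) (nat_lit 6) (nat_lit 5) (nat_lit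 4) (nat_lit 105) (nat_lit 173) (nat_lit 172)))) (PT.nd (nat_lit 5148) (PT.nd (nat_lit 5070) (PT.lf (nat_lit 456) (nat_lit 6) (nat_lit 6) (nat_lit 4) (nat_lit 106) (nat_lit 173) (nat_lit 171)) (PT.lf (nat_lit 456) (nat_lit 6) (nat_lit 6) (nat_lit 2) (nat_lit 171) (nat_lit 173) (nat_lit 106))) (PT.nd (nat_lit 78) (PT.lf (nat_lit 380) (nat_lit 6) (nat_lit 5) (nat_lit 2) (nat_lit 172) (nat_lit 173) (nat_lit 105)) (PT.lf (nat_lit 304) (nat_lit 3) (nat_lit 4) (nat_lit 0) (nat_lit 173) (nat_lit 173) (nat_lit 104))))) (PT.nd (nat_lit 41418) (PT.nd (nat_lit 41262) (PT.lf (nat_lit 152) (nat_lit 6) (nat_lit 2) (nat_lit 0) (nat_lit 174) (nat_lit 173) (nat_lit 103)) (PT.nd (nat_lit 78) (PT.lf (nat_lit 76) (nat_lit 3) (nat_lit 1) (nat_lit 4) (nat_lit 102) (nat_lit 174) (nat_lit 174)) (PT.lf (nat_lit 152) (nat_lit 6) (nat_lit 2) (nat_lit 4) (nat_lit 103) (nat_lit 174) (nat_lit 173)))) (PT.nd (nat_lit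 5382) (PT.nd (nat_lit 5304) (PT.lf (nat_lit 228) (nat_lit 6) (nat_lit 3) (nat_lit 4) (nat_lit 104) (nat_lit 174) (nat_lit 172)) (PT.lf (nat_lit 228) (nat_lit 6) (nat_lit 3) (nat_lit 2) (nat_lit 172) (nat_lit 174) (nat_lit 104))) (PT.nd (nat_lit 78) (PT.lf (nat_lit 152) (nat_lit 6) (nat_lit 2) (nat_lit 2) (nat_lit 173) (nat_lit 174) (nat_lit 103)) (PT.lf (nat_lit 76) (nat_lit 3) (nat_lit 1) (nat_lit 0) (nat_lit 174) (nat_lit 174) (nat_lit 102))))))))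
noncomputable def xc0 : XT := (XT.nd (nat_lit 187044) (nat_lit 0) (nat_lit 0) (XT.nd (nat_lit 93834) (nat_lit 0) (nat_lit 0) (XT.nd (nat_lit 46956) (nat_lit 0) (nat_lit 0) (XT.nd (nat_lit 46722) (nat_lit 0) (nat_lit 0) (XT.nd (nat_lit 78) (nat_lit 0) (nat_lit 0) (XT.lf (nat_lit 0) (nat_lit 18711131250) (nat_lit 76) (nat_lit 164363006782) (nat_lit 76) (nat_lit 164363006782) (nat_lit 1) (nat_lit 4) (nat_lit 2) (nat_lit 5) (nat_lit 2) (nat_lit 4) (nat_lit 434) (nat_lit 233) (nat_lit 233)) (XT.lf (nat_lit 0) (nat_lit 41702652663) (nat_lit 76) (nat_lit 343944942638) (nat_lit 76) (nat_lit 343908727695) (nat_lit 1) (nat_lit 4) (nat_lit 2) (nat_lit 5) (nat_lit 2) (nat_lit 4) (nat_lit 435) (nat_lit 233) (nat_lit 232))) (XT.nd (nat_lit 78) (nat_lit 0) (nat_lit 0) (XT.lf (nat_lit 0) (nat_lit 14638138751) (nat_lit 76) (nat_lit 150278666140) (nat_lit 76) (nat_lit 150278666140) (nat_lit 1) (nat_lit 4)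 (nat_lit 2) (nat_lit 5) (nat_lit 2) (nat_lit 4) (nat_lit 432) (nat_lit 234) (nat_lit 234)) (XT.nd (nat_lit 78) (nat_lit 0) (nat_lit 0) (XT.lf (nat_lit 0) (nat_lit 33269832268) (nat_lit 76) (nat_lit 314306958711) (nat_lit 76) (nat_lit 314268933020) (nat_lit 1) (nat_lit 4) (nat_lit 2) (nat_lit 5) (nat_lit 2) (nat_lit 4) (nat_lit 433) (nat_lit 234) (nat_lit 233)) (XT.lf (nat_lit 0) (nat_lit 37383403192) (nat_lit 76) (nat_lit 328783060963) (nat_lit 76) (nat_lit 328708820329) (nat_lit 1) (nat_lit 4) (nat_lit 2) (nat_lit 5) (nat_lit 2) (nat_lit 4) (nat_lit 434) (nat_lit 234) (nat_lit 232))))) (XT.nd (nat_lit 46644) (nat_lit 0) (nat_lit 0) (XT.nd (nat_lit 46488) (nat_lit 0) (nat_lit 0) (XT.lf (nat_lit 0) (nat_lit 41626784492) (nat_lit 76) (nat_lit 344020105949) (nat_lit 76) (nat_lit 343911374893) (nat_lit 1) (nat_lit 4) (nat_lit 2) (nat_lit 5) (nat_lit 2) (nat_lit 4) (nat_lit 435) (nat_lit 234)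 (nat_lit 231)) (XT.nd (nat_lit 78) (nat_lit 0) (nat_lit 0) (XT.lf (nat_lit 0) (nat_lit 10827144046) (nat_lit 76) (nat_lit 137563582685) (nat_lit 76) (nat_lit 137563582685) (nat_lit 1) (nat_lit 4) (nat_lit 2) (nat_lit 5) (nat_lit 2) (nat_lit 4) (nat_lit 430) (nat_lit 235) (nat_lit 235)) (XT.lf (nat_lit 0) (nat_lit 25393230432) (nat_lit 76) (nat_lit 287541371445) (nat_lit 76) (nat_lit 287501444470) (nat_lit 1) (nat_lit 4) (nat_lit 2) (nat_lit 5) (nat_lit 2) (nat_lit 4) (nat_lit 431) (nat_lit 235) (nat_lit 234)))) (XT.nd (nat_lit 78) (nat_lit 0) (nat_lit 0) (XT.lf (nat_lit 0) (nat_lit 29235475230) (nat_lit 76) (nat_lit 300617232050) (nat_lit 76) (nat_lit 300539279385) (nat_lit 1) (nat_lit 4) (nat_lit 2) (nat_lit 5) (nat_lit 2) (nat_lit 4) (nat_lit 432) (nat_lit 235) (nat_lit 233)) (XT.nd (nat_lit 78) (nat_lit 0) (nat_lit 0) (XT.lf (nat_lit 0) (nat_lit 33190170689) (nat_lit 76) (nat_lit 314385880188)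 (nat_lit 76) (nat_lit 314271712579) (nat_lit 1) (nat_lit 4) (nat_lit 2) (nat_lit 5) (nat_lit 2) (nat_lit 4) (nat_lit 433) (nat_lit 235) (nat_lit 232)) (XT.lf (nat_lit 0) (nat_lit 37266732749) (nat_lit 76) (nat_lit 328880098353) (nat_lit 76) (nat_lit 328731440322) (nat_lit 1) (nat_lit 4) (nat_lit 2) (nat_lit 5) (nat_lit 2) (nat_lit 4) (nat_lit 434) (nat_lit 235) (nat_lit 231)))))) (XT.nd (nat_lit 46644) (nat_lit 0) (nat_lit 0) (XT.nd (nat_lit 46410) (nat_lit 0) (nat_lit 0) (XT.nd (nat_lit 46332) (nat_lit 0) (nat_lit 0) (XT.lf (nat_lit 0) (nat_lit 41474867512) (nat_lit 76) (nat_lit 344134396589) (nat_lit 76) (nat_lit 343952890537) (nat_lit 1) (nat_lit 4) (nat_lit 2) (nat_lit 5) (nat_lit 2) (nat_lit 4) (nat_lit 435) (nat_lit 235) (nat_lit 230)) (XT.lf (nat_lit 0) (nat_lit 7247955541) (nat_lit 76) (nat_lit 126093447296) (nat_lit 76) (nat_lit 126093447296) (nat_lit 1) (nat_lit 4) (nat_lit 2)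 (nat_lit 5) (nat_lit 2) (nat_lit 4) (nat_lit 428) (nat_lit 236) (nat_lit 236))) (XT.nd (nat_lit 78) (nat_lit 0) (nat_lit 0) (XT.lf (nat_lit 0) (nat_lit 18009745968) (nat_lit 76) (nat_lit 263386979517) (nat_lit 76) (nat_lit 263345056194) (nat_lit 1) (nat_lit 4) (nat_lit 2) (nat_lit 5) (nat_lit 2) (nat_lit 4) (nat_lit 429) (nat_lit 236) (nat_lit 235)) (XT.nd (nat_lit 78) (nat_lit 0) (nat_lit 0) (XT.lf (nat_lit 0) (nat_lit 21611445707) (nat_lit 76) (nat_lit 275190060128) (nat_lit 76) (nat_lit 275108209829) (nat_lit 1) (nat_lit 4) (nat_lit 2) (nat_lit 5) (nat_lit 2) (nat_lit 4) (nat_lit 430) (nat_lit 236) (nat_lit 234)) (XT.lf (nat_lit 0) (nat_lit 25309585774) (nat_lit 76) (nat_lit 287624238996) (nat_lit 76) (nat_lit 287504363007) (nat_lit 1) (nat_lit 4) (nat_lit 2) (nat_lit 5) (nat_lit 2) (nat_lit 4) (nat_lit 431) (nat_lit 236) (nat_lit 233))))) (XT.nd (nat_lit 234) (nat_lit 0) (nat_lit 0)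 (XT.nd (nat_lit 78) (nat_lit 0) (nat_lit 0) (XT.lf (nat_lit 0) (nat_lit 29112971265) (nat_lit 76) (nat_lit 300719121309) (nat_lit 76) (nat_lit 300563030377) (nat_lit 1) (nat_lit 4) (nat_lit 2) (nat_lit 5) (nat_lit 2) (nat_lit 4) (nat_lit 432) (nat_lit 236) (nat_lit 232)) (XT.nd (nat_lit 78) (nat_lit 0) (nat_lit 0) (XT.lf (nat_lit 0) (nat_lit 33030657859) (nat_lit 76) (nat_lit 314505885359) (nat_lit 76) (nat_lit 314315304005) (nat_lit 1) (nat_lit 4) (nat_lit 2) (nat_lit 5) (nat_lit 2) (nat_lit 4) (nat_lit 433) (nat_lit 236) (nat_lit 231)) (XT.lf (nat_lit 0) (nat_lit 37071973383) (nat_lit 76) (nat_lit 329017356775) (nat_lit 76) (nat_lit 328793927399) (nat_lit 1) (nat_lit 4) (nat_lit 2) (nat_lit 5) (nat_lit 2) (nat_lit 4) (nat_lit 434) (nat_lit 236) (nat_lit 230)))) (XT.nd (nat_lit 46176) (nat_lit 0) (nat_lit 0) (XT.lf (nat_lit 0) (nat_lit 41246540015) (nat_lit 76) (nat_lit 344288086678) (nat_lit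 76) (nat_lit 344033373472) (nat_lit 1) (nat_lit 4) (nat_lit 2) (nat_lit 5) (nat_lit 2) (nat_lit 4) (nat_lit 435) (nat_lit 236) (nat_lit 229)) (XT.nd (nat_lit 78) (nat_lit 0) (nat_lit 0) (XT.lf (nat_lit 0) (nat_lit 3872896894) (nat_lit 76) (nat_lit 115755657507) (nat_lit 76) (nat_lit 115755657507) (nat_lit 1) (nat_lit 4) (nat_lit 2) (nat_lit 5) (nat_lit 2) (nat_lit 4) (nat_lit 426) (nat_lit 237) (nat_lit 237)) (XT.lf (nat_lit 0) (nat_lit 11061574776) (nat_lit 76) (nat_lit 241607157972) (nat_lit 76) (nat_lit 241563138482) (nat_lit 1) (nat_lit 4) (nat_lit 2) (nat_lit 5) (nat_lit 2) (nat_lit 4) (nat_lit 427) (nat_lit 237) (nat_lit 236))))))) (XT.nd (nat_lit 46800) (nat_lit 0) (nat_lit 0) (XT.nd (nat_lit 390) (nat_lit 0) (nat_lit 0) (XT.nd (nat_lit 156) (nat_lit 0) (nat_lit 0) (XT.nd (nat_lit 78) (nat_lit 0) (nat_lit 0) (XT.lf (nat_lit 0) (nat_lit 14450926577) (nat_lit 76) (nat_lit 252252934087)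 (nat_lit 76) (nat_lit 252166991273) (nat_lit 1) (nat_lit 4) (nat_lit 2) (nat_lit 5) (nat_lit 2) (nat_lit 4) (nat_lit 428) (nat_lit 237) (nat_lit 235)) (XT.lf (nat_lit 0) (nat_lit 17921919077) (nat_lit 76) (nat_lit 263473990446) (nat_lit 76) (nat_lit 263348120657) (nat_lit 1) (nat_lit 4) (nat_lit 2) (nat_lit 5) (nat_lit 2) (nat_lit 4) (nat_lit 429) (nat_lit 237) (nat_lit 234))) (XT.nd (nat_lit 78) (nat_lit 0) (nat_lit 0) (XT.lf (nat_lit 0) (nat_lit 21482816543) (nat_lit 76) (nat_lit 275297043850) (nat_lit 76) (nat_lit 275133148371) (nat_lit 1) (nat_lit 4) (nat_lit 2) (nat_lit 5) (nat_lit 2) (nat_lit 4) (nat_lit 430) (nat_lit 237) (nat_lit 233)) (XT.nd (nat_lit 78) (nat_lit 0) (nat_lit 0) (XT.lf (nat_lit 0) (nat_lit 25142097303) (nat_lit 76) (nat_lit 287750244426) (nat_lit 76) (nat_lit 287550134004) (nat_lit 1) (nat_lit 4) (nat_lit 2) (nat_lit 5) (nat_lit 2) (nat_lit 4) (nat_lit 431) (nat_lit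 237) (nat_lit 232)) (XT.lf (nat_lit 0) (nat_lit 28908473930) (nat_lit 76) (nat_lit 300863242652) (nat_lit 76) (nat_lit 300628641808) (nat_lit 1) (nat_lit 4) (nat_lit 2) (nat_lit 5) (nat_lit 2) (nat_lit 4) (nat_lit 432) (nat_lit 237) (nat_lit 231))))) (XT.nd (nat_lit 46176) (nat_lit 0) (nat_lit 0) (XT.nd (nat_lit 78) (nat_lit 0) (nat_lit 0) (XT.lf (nat_lit 0) (nat_lit 32790913987) (nat_lit 76) (nat_lit 314667259953) (nat_lit 76) (nat_lit 314399811087) (nat_lit 1) (nat_lit 4) (nat_lit 2) (nat_lit 5) (nat_lit 2) (nat_lit 4) (nat_lit 433) (nat_lit 237) (nat_lit 230)) (XT.nd (nat_lit 78) (nat_lit 0) (nat_lit 0) (XT.lf (nat_lit 0) (nat_lit 36798661380) (nat_lit 76) (nat_lit 329195163035) (nat_lit 76) (nat_lit 328896430339) (nat_lit 1) (nat_lit 4) (nat_lit 2) (nat_lit 5) (nat_lit 2) (nat_lit 4) (nat_lit 434) (nat_lit 237) (nat_lit 229)) (XT.lf (nat_lit 0) (nat_lit 40941258364) (nat_lit 76) (nat_lit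 344481542145) (nat_lit 76) (nat_lit 344153015325) (nat_lit 1) (nat_lit 4) (nat_lit 2) (nat_lit 5) (nat_lit 2) (nat_lit 4) (nat_lit 435) (nat_lit 237) (nat_lit 228)))) (XT.nd (nat_lit 78) (nat_lit 0) (nat_lit 0) (XT.lf (nat_lit 0) (nat_lit 676558588) (nat_lit 76) (nat_lit 106448236616) (nat_lit 76) (nat_lit 106448236616) (nat_lit 1) (nat_lit 4) (nat_lit 2) (nat_lit 5) (nat_lit 2) (nat_lit 4) (nat_lit 424) (nat_lit 238) (nat_lit 238)) (XT.nd (nat_lit 78) (nat_lit 0) (nat_lit 0) (XT.lf (nat_lit 0) (nat_lit 4495688898) (nat_lit 76) (nat_lit 221987587960) (nat_lit 76) (nat_lit 221941367495) (nat_lit 1) (nat_lit 4) (nat_lit 2) (nat_lit 5) (nat_lit 2) (nat_lit 4) (nat_lit 425) (nat_lit 238) (nat_lit 237)) (XT.lf (nat_lit 0) (nat_lit 7698560058) (nat_lit 76) (nat_lit 231580656485) (nat_lit 76) (nat_lit 231490416530) (nat_lit 1) (nat_lit 4) (nat_lit 2) (nat_lit 5) (nat_lit 2) (nat_lit 4) (nat_lit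 426) (nat_lit 238) (nat_lit 236)))))) (XT.nd (nat_lit 468) (nat_lit 0) (nat_lit 0) (XT.nd (nat_lit 234) (nat_lit 0) (nat_lit 0) (XT.nd (nat_lit 78) (nat_lit 0) (nat_lit 0) (XT.lf (nat_lit 0) (nat_lit 10969356540) (nat_lit 76) (nat_lit 241698519447) (nat_lit 76) (nat_lit 241566356168) (nat_lit 1) (nat_lit 4) (nat_lit 2) (nat_lit 5) (nat_lit 2) (nat_lit 4) (nat_lit 427) (nat_lit 238) (nat_lit 235)) (XT.nd (nat_lit 78) (nat_lit 0) (nat_lit 0) (XT.lf (nat_lit 0) (nat_lit 14315865955) (nat_lit 76) (nat_lit 252365266995) (nat_lit 76) (nat_lit 252193176742) (nat_lit 1) (nat_lit 4) (nat_lit 2) (nat_lit 5) (nat_lit 2) (nat_lit 4) (nat_lit 428) (nat_lit 238) (nat_lit 234)) (XT.lf (nat_lit 0) (nat_lit 17746056182) (nat_lit 76) (nat_lit 263606296148) (nat_lit 76) (nat_lit 263396180204) (nat_lit 1) (nat_lit 4) (nat_lit 2) (nat_lit 5) (nat_lit 2) (nat_lit 4) (nat_lit 429) (nat_lit 238) (nat_lit 233))))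 (XT.nd (nat_lit 78) (nat_lit 0) (nat_lit 0) (XT.lf (nat_lit 0) (nat_lit 21268094341) (nat_lit 76) (nat_lit 275448371260) (nat_lit 76) (nat_lit 275202040373) (nat_lit 1) (nat_lit 4) (nat_lit 2) (nat_lit 5) (nat_lit 2) (nat_lit 4) (nat_lit 430) (nat_lit 238) (nat_lit 232)) (XT.nd (nat_lit 78) (nat_lit 0) (nat_lit 0) (XT.lf (nat_lit 0) (nat_lit 24890366238) (nat_lit 76) (nat_lit 287919687749) (nat_lit 76) (nat_lit 287638866440) (nat_lit 1) (nat_lit 4) (nat_lit 2) (nat_lit 5) (nat_lit 2) (nat_lit 4) (nat_lit 431) (nat_lit 238) (nat_lit 231)) (XT.lf (nat_lit 0) (nat_lit 28621496328) (nat_lit 76) (nat_lit 301049939225) (nat_lit 76) (nat_lit 300736269895) (nat_lit 1) (nat_lit 4) (nat_lit 2) (nat_lit 5) (nat_lit 2) (nat_lit 4) (nat_lit 432) (nat_lit 238) (nat_lit 230))))) (XT.nd (nat_lit 46020) (nat_lit 0) (nat_lit 0) (XT.nd (nat_lit 78) (nat_lit 0) (nat_lit 0) (XT.lf (nat_lit 0) (nat_lit 32470368255)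 (nat_lit 76) (nat_lit 314870388193) (nat_lit 76) (nat_lit 314525435032) (nat_lit 1) (nat_lit 4) (nat_lit 2) (nat_lit 5) (nat_lit 2) (nat_lit 4) (nat_lit 433) (nat_lit 238) (nat_lit 229)) (XT.nd (nat_lit 78) (nat_lit 0) (nat_lit 0) (XT.lf (nat_lit 0) (nat_lit 36446145999) (nat_lit 76) (nat_lit 329413940481) (nat_lit 76) (nat_lit 329039193198) (nat_lit 1) (nat_lit 4) (nat_lit 2) (nat_lit 5) (nat_lit 2) (nat_lit 4) (nat_lit 434) (nat_lit 238) (nat_lit 228)) (XT.lf (nat_lit 0) (nat_lit 40558295699) (nat_lit 76) (nat_lit 344715223597) (nat_lit 76) (nat_lit 344312100958) (nat_lit 1) (nat_lit 4) (nat_lit 2) (nat_lit 5) (nat_lit 2) (nat_lit 4) (nat_lit 435) (nat_lit 238) (nat_lit 227)))) (XT.nd (nat_lit 78) (nat_lit 76) (nat_lit 0) (XT.lf (nat_lit 0) (nat_lit 95751340864) (nat_lit 152) (nat_lit 2288751665) (nat_lit 0) (nat_lit 95751340864) (nat_lit 2) (nat_lit 5) (nat_lit 4) (nat_lit 4) (nat_lit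 2) (nat_lit 4) (nat_lit 422) (nat_lit 239) (nat_lit 239)) (XT.nd (nat_lit 78) (nat_lit 76) (nat_lit 0) (XT.lf (nat_lit 0) (nat_lit 202624674634) (nat_lit 152) (nat_lit 1681054178) (nat_lit 0) (nat_lit 202576143146) (nat_lit 2) (nat_lit 5) (nat_lit 4) (nat_lit 4) (nat_lit 2) (nat_lit 4) (nat_lit 423) (nat_lit 239) (nat_lit 238)) (XT.lf (nat_lit 0) (nat_lit 1303521758) (nat_lit 76) (nat_lit 212969281775) (nat_lit 76) (nat_lit 212874529823) (nat_lit 1) (nat_lit 4) (nat_lit 2) (nat_lit 5) (nat_lit 2) (nat_lit 4) (nat_lit 424) (nat_lit 239) (nat_lit 237))))))))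
noncomputable def xc1 : XT := (XT.nd (nat_lit 47346) (nat_lit 0) (nat_lit 0) (XT.nd (nat_lit 46488) (nat_lit 0) (nat_lit 0) (XT.nd (nat_lit 390) (nat_lit 0) (nat_lit 0) (XT.nd (nat_lit 156) (nat_lit 0) (nat_lit 0) (XT.nd (nat_lit 78) (nat_lit 0) (nat_lit 0) (XT.lf (nat_lit 0) (nat_lit 4398859750) (nat_lit 76) (nat_lit 222083517508) (nat_lit 76) (nat_lit 221944746066) (nat_lit 1) (nat_lit 4) (nat_lit 2) (nat_lit 5) (nat_lit 2) (nat_lit 4) (nat_lit 425) (nat_lit 239) (nat_lit 236)) (XT.lf (nat_lit 0) (nat_lit 7556746405) (nat_lit 76) (nat_lit 231698606039) (nat_lit 76) (nat_lit 231517911273) (nat_lit 1) (nat_lit 4) (nat_lit 2) (nat_lit 5) (nat_lit 2) (nat_lit 4) (nat_lit 426) (nat_lit 239) (nat_lit 235))) (XT.nd (nat_lit 78) (nat_lit 0) (nat_lit 0) (XT.lf (nat_lit 0) (nat_lit 10784700501) (nat_lit 76) (nat_lit 241837440434) (nat_lit 76) (nat_lit 241616818693) (nat_lit 1) (nat_lit 4) (nat_lit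 2) (nat_lit 5) (nat_lit 2) (nat_lit 4) (nat_lit 427) (nat_lit 239) (nat_lit 234)) (XT.nd (nat_lit 78) (nat_lit 0) (nat_lit 0) (XT.lf (nat_lit 0) (nat_lit 14090407643) (nat_lit 76) (nat_lit 252524160776) (nat_lit 76) (nat_lit 252265513344) (nat_lit 1) (nat_lit 4) (nat_lit 2) (nat_lit 5) (nat_lit 2) (nat_lit 4) (nat_lit 428) (nat_lit 239) (nat_lit 233)) (XT.lf (nat_lit 0) (nat_lit 17481738564) (nat_lit 76) (nat_lit 263784211637) (nat_lit 76) (nat_lit 263489349262) (nat_lit 1) (nat_lit 4) (nat_lit 2) (nat_lit 5) (nat_lit 2) (nat_lit 4) (nat_lit 429) (nat_lit 239) (nat_lit 232))))) (XT.nd (nat_lit 234) (nat_lit 0) (nat_lit 0) (XT.nd (nat_lit 78) (nat_lit 0) (nat_lit 0) (XT.lf (nat_lit 0) (nat_lit 20966767859) (nat_lit 76) (nat_lit 275644402662) (nat_lit 76) (nat_lit 275315049865) (nat_lit 1) (nat_lit 4) (nat_lit 2) (nat_lit 5) (nat_lit 2) (nat_lit 4) (nat_lit 430) (nat_lit 239) (nat_lit 231))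 (XT.nd (nat_lit 78) (nat_lit 0) (nat_lit 0) (XT.lf (nat_lit 0) (nat_lit 24553793218) (nat_lit 76) (nat_lit 288132972401) (nat_lit 76) (nat_lit 287770771583) (nat_lit 1) (nat_lit 4) (nat_lit 2) (nat_lit 5) (nat_lit 2) (nat_lit 4) (nat_lit 431) (nat_lit 239) (nat_lit 230)) (XT.lf (nat_lit 0) (nat_lit 28251355177) (nat_lit 76) (nat_lit 301279655544) (nat_lit 76) (nat_lit 300886170896) (nat_lit 1) (nat_lit 4) (nat_lit 2) (nat_lit 5) (nat_lit 2) (nat_lit 4) (nat_lit 432) (nat_lit 239) (nat_lit 229)))) (XT.nd (nat_lit 78) (nat_lit 0) (nat_lit 0) (XT.lf (nat_lit 0) (nat_lit 32068257456) (nat_lit 76) (nat_lit 315115753718) (nat_lit 76) (nat_lit 314692474946) (nat_lit 1) (nat_lit 4) (nat_lit 2) (nat_lit 5) (nat_lit 2) (nat_lit 4) (nat_lit 433) (nat_lit 239) (nat_lit 228)) (XT.nd (nat_lit 78) (nat_lit 0) (nat_lit 0) (XT.lf (nat_lit 0) (nat_lit 36013587917) (nat_lit 76) (nat_lit 329674210013) (nat_lit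 76) (nat_lit 329222555886) (nat_lit 1) (nat_lit 4) (nat_lit 2) (nat_lit 5) (nat_lit 2) (nat_lit 4) (nat_lit 434) (nat_lit 239) (nat_lit 227)) (XT.lf (nat_lit 0) (nat_lit 40096740204) (nat_lit 76) (nat_lit 344989687420) (nat_lit 76) (nat_lit 344511009145) (nat_lit 1) (nat_lit 4) (nat_lit 2) (nat_lit 5) (nat_lit 2) (nat_lit 4) (nat_lit 435) (nat_lit 239) (nat_lit 226)))))) (XT.nd (nat_lit 390) (nat_lit 0) (nat_lit 0) (XT.nd (nat_lit 156) (nat_lit 76) (nat_lit 0) (XT.nd (nat_lit 78) (nat_lit 0) (nat_lit 0) (XT.lf (nat_lit 0) (nat_lit 85374642170) (nat_lit 152) (nat_lit 5102873038) (nat_lit 0) (nat_lit 85374642170) (nat_lit 2) (nat_lit 5) (nat_lit 4) (nat_lit 4) (nat_lit 2) (nat_lit 4) (nat_lit 420) (nat_lit 240) (nat_lit 240)) (XT.lf (nat_lit 0) (nat_lit 180910950317) (nat_lit 152) (nat_lit 7434442845) (nat_lit 0) (nat_lit 180859992255) (nat_lit 2) (nat_lit 5) (nat_lit 4) (nat_lit 4) (nat_lit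 2) (nat_lit 4) (nat_lit 421) (nat_lit 240) (nat_lit 239))) (XT.nd (nat_lit 78) (nat_lit 76) (nat_lit 0) (XT.lf (nat_lit 0) (nat_lit 191527868551) (nat_lit 152) (nat_lit 4627911788) (nat_lit 0) (nat_lit 191428379001) (nat_lit 2) (nat_lit 5) (nat_lit 4) (nat_lit 4) (nat_lit 2) (nat_lit 4) (nat_lit 422) (nat_lit 240) (nat_lit 238)) (XT.nd (nat_lit 78) (nat_lit 76) (nat_lit 0) (XT.lf (nat_lit 0) (nat_lit 202625317418) (nat_lit 152) (nat_lit 1779470688) (nat_lit 0) (nat_lit 202479607404) (nat_lit 2) (nat_lit 5) (nat_lit 4) (nat_lit 4) (nat_lit 2) (nat_lit 4) (nat_lit 423) (nat_lit 240) (nat_lit 237)) (XT.lf (nat_lit 0) (nat_lit 1154617423) (nat_lit 76) (nat_lit 213093128807) (nat_lit 76) (nat_lit 212903399302) (nat_lit 1) (nat_lit 4) (nat_lit 2) (nat_lit 5) (nat_lit 2) (nat_lit 4) (nat_lit 424) (nat_lit 240) (nat_lit 236))))) (XT.nd (nat_lit 234) (nat_lit 0) (nat_lit 0) (XT.nd (nat_lit 78) (nat_lit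 0) (nat_lit 0) (XT.lf (nat_lit 0) (nat_lit 4204970909) (nat_lit 76) (nat_lit 222229384545) (nat_lit 76) (nat_lit 221997731717) (nat_lit 1) (nat_lit 4) (nat_lit 2) (nat_lit 5) (nat_lit 2) (nat_lit 4) (nat_lit 425) (nat_lit 240) (nat_lit 235)) (XT.nd (nat_lit 78) (nat_lit 0) (nat_lit 0) (XT.lf (nat_lit 0) (nat_lit 7320015177) (nat_lit 76) (nat_lit 231865444508) (nat_lit 76) (nat_lit 231593864705) (nat_lit 1) (nat_lit 4) (nat_lit 2) (nat_lit 5) (nat_lit 2) (nat_lit 4) (nat_lit 426) (nat_lit 240) (nat_lit 234)) (XT.lf (nat_lit 0) (nat_lit 10507167001) (nat_lit 76) (nat_lit 242024251697) (nat_lit 76) (nat_lit 241714646204) (nat_lit 1) (nat_lit 4) (nat_lit 2) (nat_lit 5) (nat_lit 2) (nat_lit 4) (nat_lit 427) (nat_lit 240) (nat_lit 233)))) (XT.nd (nat_lit 78) (nat_lit 0) (nat_lit 0) (XT.lf (nat_lit 0) (nat_lit 13774014837) (nat_lit 76) (nat_lit 252729993747) (nat_lit 76) (nat_lit 252384173311)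 (nat_lit 1) (nat_lit 4) (nat_lit 2) (nat_lit 5) (nat_lit 2) (nat_lit 4) (nat_lit 428) (nat_lit 240) (nat_lit 232)) (XT.nd (nat_lit 78) (nat_lit 0) (nat_lit 0) (XT.lf (nat_lit 0) (nat_lit 17128336893) (nat_lit 76) (nat_lit 264008160521) (nat_lit 76) (nat_lit 263627849662) (nat_lit 1) (nat_lit 4) (nat_lit 2) (nat_lit 5) (nat_lit 2) (nat_lit 4) (nat_lit 429) (nat_lit 240) (nat_lit 231)) (XT.lf (nat_lit 0) (nat_lit 20578119651) (nat_lit 76) (nat_lit 275885604796) (nat_lit 76) (nat_lit 275472445916) (nat_lit 1) (nat_lit 4) (nat_lit 2) (nat_lit 5) (nat_lit 2) (nat_lit 4) (nat_lit 430) (nat_lit 240) (nat_lit 230))))))) (XT.nd (nat_lit 46332) (nat_lit 0) (nat_lit 0) (XT.nd (nat_lit 45864) (nat_lit 0) (nat_lit 76) (XT.nd (nat_lit 156) (nat_lit 0) (nat_lit 0) (XT.nd (nat_lit 78) (nat_lit 0) (nat_lit 0) (XT.lf (nat_lit 0) (nat_lit 24131576880) (nat_lit 76) (nat_lit 288390606202) (nat_lit 76) (nat_lit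 287946163493) (nat_lit 1) (nat_lit 4) (nat_lit 2) (nat_lit 5) (nat_lit 2) (nat_lit 4) (nat_lit 431) (nat_lit 240) (nat_lit 229)) (XT.lf (nat_lit 0) (nat_lit 27797169191) (nat_lit 76) (nat_lit 301552938552) (nat_lit 76) (nat_lit 301078701719) (nat_lit 1) (nat_lit 4) (nat_lit 2) (nat_lit 5) (nat_lit 2) (nat_lit 4) (nat_lit 432) (nat_lit 240) (nat_lit 228))) (XT.nd (nat_lit 78) (nat_lit 0) (nat_lit 0) (XT.lf (nat_lit 0) (nat_lit 31583624186) (nat_lit 76) (nat_lit 315403940732) (nat_lit 76) (nat_lit 314901328543) (nat_lit 1) (nat_lit 4) (nat_lit 2) (nat_lit 5) (nat_lit 2) (nat_lit 4) (nat_lit 433) (nat_lit 240) (nat_lit 227)) (XT.nd (nat_lit 78) (nat_lit 0) (nat_lit 0) (XT.lf (nat_lit 0) (nat_lit 35499957234) (nat_lit 76) (nat_lit 329976591318) (nat_lit 76) (nat_lit 329446954981) (nat_lit 1) (nat_lit 4) (nat_lit 2) (nat_lit 5) (nat_lit 2) (nat_lit 4) (nat_lit 434) (nat_lit 240) (nat_lit 226))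 (XT.lf (nat_lit 0) (nat_lit 39555492937) (nat_lit 76) (nat_lit 345305587099) (nat_lit 76) (nat_lit 344750213477) (nat_lit 1) (nat_lit 4) (nat_lit 2) (nat_lit 5) (nat_lit 2) (nat_lit 4) (nat_lit 435) (nat_lit 240) (nat_lit 225))))) (XT.nd (nat_lit 234) (nat_lit 0) (nat_lit 0) (XT.nd (nat_lit 78) (nat_lit 0) (nat_lit 0) (XT.lf (nat_lit 0) (nat_lit 75888938235) (nat_lit 152) (nat_lit 7806709470) (nat_lit 0) (nat_lit 75888938235) (nat_lit 2) (nat_lit 5) (nat_lit 4) (nat_lit 4) (nat_lit 2) (nat_lit 4) (nat_lit 418) (nat_lit 241) (nat_lit 241)) (XT.nd (nat_lit 78) (nat_lit 0) (nat_lit 0) (XT.lf (nat_lit 0) (nat_lit 161072182142) (nat_lit 152) (nat_lit 12948419825) (nat_lit 0) (nat_lit 161018676177) (nat_lit 2) (nat_lit 5) (nat_lit 4) (nat_lit 4) (nat_lit 2) (nat_lit 4) (nat_lit 419) (nat_lit 241) (nat_lit 240)) (XT.lf (nat_lit 0) (nat_lit 170775730503) (nat_lit 152) (nat_lit 10258674956) (nat_lit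 0) (nat_lit 170671266476) (nat_lit 2) (nat_lit 5) (nat_lit 4) (nat_lit 4) (nat_lit 2) (nat_lit 4) (nat_lit 420) (nat_lit 241) (nat_lit 239)))) (XT.nd (nat_lit 78) (nat_lit 0) (nat_lit 0) (XT.lf (nat_lit 0) (nat_lit 180911625240) (nat_lit 152) (nat_lit 7537780181) (nat_lit 0) (nat_lit 180758629725) (nat_lit 2) (nat_lit 5) (nat_lit 4) (nat_lit 4) (nat_lit 2) (nat_lit 4) (nat_lit 421) (nat_lit 241) (nat_lit 238)) (XT.nd (nat_lit 78) (nat_lit 0) (nat_lit 0) (XT.lf (nat_lit 0) (nat_lit 191503999436) (nat_lit 152) (nat_lit 4779257178) (nat_lit 0) (nat_lit 191304783456) (nat_lit 2) (nat_lit 5) (nat_lit 4) (nat_lit 4) (nat_lit 2) (nat_lit 4) (nat_lit 422) (nat_lit 241) (nat_lit 237)) (XT.lf (nat_lit 0) (nat_lit 202578073028) (nat_lit 152) (nat_lit 1976538035) (nat_lit 0) (nat_lit 202334837559) (nat_lit 2) (nat_lit 5) (nat_lit 4) (nat_lit 4) (nat_lit 2) (nat_lit 4) (nat_lit 423) (nat_lit 241) (nat_lit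 236)))))) (XT.nd (nat_lit 468) (nat_lit 0) (nat_lit 0) (XT.nd (nat_lit 234) (nat_lit 0) (nat_lit 0) (XT.nd (nat_lit 78) (nat_lit 0) (nat_lit 0) (XT.lf (nat_lit 0) (nat_lit 906049634) (nat_lit 76) (nat_lit 213268309200) (nat_lit 76) (nat_lit 212983150407) (nat_lit 1) (nat_lit 4) (nat_lit 2) (nat_lit 5) (nat_lit 2) (nat_lit 4) (nat_lit 424) (nat_lit 241) (nat_lit 235)) (XT.nd (nat_lit 78) (nat_lit 0) (nat_lit 0) (XT.lf (nat_lit 0) (nat_lit 3913560734) (nat_lit 76) (nat_lit 222425536371) (nat_lit 76) (nat_lit 222100450603) (nat_lit 1) (nat_lit 4) (nat_lit 2) (nat_lit 5) (nat_lit 2) (nat_lit 4) (nat_lit 425) (nat_lit 241) (nat_lit 234)) (XT.lf (nat_lit 0) (nat_lit 6987802730) (nat_lit 76) (nat_lit 232081569129) (nat_lit 76) (nat_lit 231718457670) (nat_lit 1) (nat_lit 4) (nat_lit 2) (nat_lit 5) (nat_lit 2) (nat_lit 4) (nat_lit 426) (nat_lit 241) (nat_lit 233)))) (XT.nd (nat_lit 78) (nat_lit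 0) (nat_lit 0) (XT.lf (nat_lit 0) (nat_lit 10136095247) (nat_lit 76) (nat_lit 242259398026) (nat_lit 76) (nat_lit 241860071624) (nat_lit 1) (nat_lit 4) (nat_lit 2) (nat_lit 5) (nat_lit 2) (nat_lit 4) (nat_lit 427) (nat_lit 241) (nat_lit 232)) (XT.nd (nat_lit 78) (nat_lit 0) (nat_lit 0) (XT.lf (nat_lit 0) (nat_lit 13365934219) (nat_lit 76) (nat_lit 252983255989) (nat_lit 76) (nat_lit 252549439165) (nat_lit 1) (nat_lit 4) (nat_lit 2) (nat_lit 5) (nat_lit 2) (nat_lit 4) (nat_lit 428) (nat_lit 241) (nat_lit 231)) (XT.lf (nat_lit 0) (nat_lit 16685009738) (nat_lit 76) (nat_lit 264278676013) (nat_lit 76) (nat_lit 263812011167) (nat_lit 1) (nat_lit 4) (nat_lit 2) (nat_lit 5) (nat_lit 2) (nat_lit 4) (nat_lit 429) (nat_lit 241) (nat_lit 230))))) (XT.nd (nat_lit 234) (nat_lit 0) (nat_lit 0) (XT.nd (nat_lit 78) (nat_lit 0) (nat_lit 0) (XT.lf (nat_lit 0) (nat_lit 20101224366) (nat_lit 76) (nat_lit 276172551955)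 (nat_lit 76) (nat_lit 275674603280) (nat_lit 1) (nat_lit 4) (nat_lit 2) (nat_lit 5) (nat_lit 2) (nat_lit 4) (nat_lit 430) (nat_lit 241) (nat_lit 229)) (XT.nd (nat_lit 78) (nat_lit 0) (nat_lit 0) (XT.lf (nat_lit 0) (nat_lit 23622711946) (nat_lit 76) (nat_lit 288693202567) (nat_lit 76) (nat_lit 288165459769) (nat_lit 1) (nat_lit 4) (nat_lit 2) (nat_lit 5) (nat_lit 2) (nat_lit 4) (nat_lit 431) (nat_lit 241) (nat_lit 228)) (XT.lf (nat_lit 0) (nat_lit 27257856974) (nat_lit 76) (nat_lit 301870438923) (nat_lit 76) (nat_lit 301314320769) (nat_lit 1) (nat_lit 4) (nat_lit 2) (nat_lit 5) (nat_lit 2) (nat_lit 4) (nat_lit 432) (nat_lit 241) (nat_lit 227)))) (XT.nd (nat_lit 78) (nat_lit 0) (nat_lit 0) (XT.lf (nat_lit 0) (nat_lit 31015314556) (nat_lit 76) (nat_lit 315735635394) (nat_lit 76) (nat_lit 315152493092) (nat_lit 1) (nat_lit 4) (nat_lit 2) (nat_lit 5) (nat_lit 2) (nat_lit 4) (nat_lit 433) (nat_lit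 241) (nat_lit 226)) (XT.nd (nat_lit 78) (nat_lit 0) (nat_lit 0) (XT.lf (nat_lit 0) (nat_lit 34904031019) (nat_lit 76) (nat_lit 330321804354) (nat_lit 76) (nat_lit 329712924767) (nat_lit 1) (nat_lit 4) (nat_lit 2) (nat_lit 5) (nat_lit 2) (nat_lit 4) (nat_lit 434) (nat_lit 241) (nat_lit 225)) (XT.lf (nat_lit 0) (nat_lit 38933265213) (nat_lit 76) (nat_lit 345663674775) (nat_lit 76) (nat_lit 345030283489) (nat_lit 1) (nat_lit 4) (nat_lit 2) (nat_lit 5) (nat_lit 2) (nat_lit 4) (nat_lit 435) (nat_lit 241) (nat_lit 224))))))))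
noncomputable def xc2 : XT := (XT.nd (nat_lit 46878) (nat_lit 0) (nat_lit 0) (XT.nd (nat_lit 858) (nat_lit 0) (nat_lit 0) (XT.nd (nat_lit 390) (nat_lit 76) (nat_lit 0) (XT.nd (nat_lit 156) (nat_lit 0) (nat_lit 0) (XT.nd (nat_lit 78) (nat_lit 0) (nat_lit 0) (XT.lf (nat_lit 0) (nat_lit 67207706196) (nat_lit 152) (nat_lit 10418081478) (nat_lit 0) (nat_lit 67207706196) (nat_lit 2) (nat_lit 5) (nat_lit 4) (nat_lit 4) (nat_lit 2) (nat_lit 4) (nat_lit 416) (nat_lit 242) (nat_lit 242)) (XT.lf (nat_lit 0) (nat_lit 142926865453) (nat_lit 152) (nat_lit 18260017539) (nat_lit 0) (nat_lit 142870684189) (nat_lit 2) (nat_lit 5) (nat_lit 4) (nat_lit 4) (nat_lit 2) (nat_lit 4) (nat_lit 417) (nat_lit 242) (nat_lit 241))) (XT.nd (nat_lit 78) (nat_lit 0) (nat_lit 0) (XT.lf (nat_lit 0) (nat_lit 151805644942) (nat_lit 152) (nat_lit 15668994264) (nat_lit 0) (nat_lit 151695957713) (nat_lit 2) (nat_lit 5) (nat_lit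 4) (nat_lit 4) (nat_lit 2) (nat_lit 4) (nat_lit 418) (nat_lit 242) (nat_lit 240)) (XT.nd (nat_lit 78) (nat_lit 0) (nat_lit 0) (XT.lf (nat_lit 0) (nat_lit 161072890811) (nat_lit 152) (nat_lit 13056924028) (nat_lit 0) (nat_lit 160912245521) (nat_lit 2) (nat_lit 5) (nat_lit 4) (nat_lit 4) (nat_lit 2) (nat_lit 4) (nat_lit 419) (nat_lit 242) (nat_lit 239)) (XT.lf (nat_lit 0) (nat_lit 170750667932) (nat_lit 152) (nat_lit 10417587616) (nat_lit 0) (nat_lit 170541491154) (nat_lit 2) (nat_lit 5) (nat_lit 4) (nat_lit 4) (nat_lit 2) (nat_lit 4) (nat_lit 420) (nat_lit 242) (nat_lit 238))))) (XT.nd (nat_lit 234) (nat_lit 76) (nat_lit 0) (XT.nd (nat_lit 78) (nat_lit 0) (nat_lit 0) (XT.lf (nat_lit 0) (nat_lit 180862018631) (nat_lit 152) (nat_lit 7744700895) (nat_lit 0) (nat_lit 180606621388) (nat_lit 2) (nat_lit 5) (nat_lit 4) (nat_lit 4) (nat_lit 2) (nat_lit 4) (nat_lit 421) (nat_lit 242) (nat_lit 237))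 (XT.nd (nat_lit 78) (nat_lit 0) (nat_lit 0) (XT.lf (nat_lit 0) (nat_lit 191431017552) (nat_lit 152) (nat_lit 5031899848) (nat_lit 0) (nat_lit 191131600820) (nat_lit 2) (nat_lit 5) (nat_lit 4) (nat_lit 4) (nat_lit 2) (nat_lit 4) (nat_lit 422) (nat_lit 242) (nat_lit 236)) (XT.lf (nat_lit 0) (nat_lit 202482828979) (nat_lit 152) (nat_lit 2272725426) (nat_lit 0) (nat_lit 202141488923) (nat_lit 2) (nat_lit 5) (nat_lit 4) (nat_lit 4) (nat_lit 2) (nat_lit 4) (nat_lit 423) (nat_lit 242) (nat_lit 235)))) (XT.nd (nat_lit 78) (nat_lit 0) (nat_lit 0) (XT.lf (nat_lit 0) (nat_lit 557226565) (nat_lit 76) (nat_lit 213495240051) (nat_lit 76) (nat_lit 213113973020) (nat_lit 1) (nat_lit 4) (nat_lit 2) (nat_lit 5) (nat_lit 2) (nat_lit 4) (nat_lit 424) (nat_lit 242) (nat_lit 234)) (XT.nd (nat_lit 78) (nat_lit 0) (nat_lit 0) (XT.lf (nat_lit 0) (nat_lit 3523935392) (nat_lit 76) (nat_lit 222672440017) (nat_lit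 76) (nat_lit 222253147295) (nat_lit 1) (nat_lit 4) (nat_lit 2) (nat_lit 5) (nat_lit 2) (nat_lit 4) (nat_lit 425) (nat_lit 242) (nat_lit 233)) (XT.lf (nat_lit 0) (nat_lit 6559318082) (nat_lit 76) (nat_lit 232347494482) (nat_lit 76) (nat_lit 231891986817) (nat_lit 1) (nat_lit 4) (nat_lit 2) (nat_lit 5) (nat_lit 2) (nat_lit 4) (nat_lit 426) (nat_lit 242) (nat_lit 232)))))) (XT.nd (nat_lit 390) (nat_lit 0) (nat_lit 0) (XT.nd (nat_lit 156) (nat_lit 0) (nat_lit 0) (XT.nd (nat_lit 78) (nat_lit 0) (nat_lit 0) (XT.lf (nat_lit 0) (nat_lit 9670601734) (nat_lit 76) (nat_lit 242543439292) (nat_lit 76) (nat_lit 242053441204) (nat_lit 1) (nat_lit 4) (nat_lit 2) (nat_lit 5) (nat_lit 2) (nat_lit 4) (nat_lit 427) (nat_lit 242) (nat_lit 231)) (XT.lf (nat_lit 0) (nat_lit 12865194169) (nat_lit 76) (nat_lit 253284550505) (nat_lit 76) (nat_lit 252761704396) (nat_lit 1) (nat_lit 4) (nat_lit 2) (nat_lit 5) (nat_lit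 2) (nat_lit 4) (nat_lit 428) (nat_lit 242) (nat_lit 230))) (XT.nd (nat_lit 78) (nat_lit 0) (nat_lit 0) (XT.lf (nat_lit 0) (nat_lit 16150701558) (nat_lit 76) (nat_lit 264596402196) (nat_lit 76) (nat_lit 264042272257) (nat_lit 1) (nat_lit 4) (nat_lit 2) (nat_lit 5) (nat_lit 2) (nat_lit 4) (nat_lit 429) (nat_lit 242) (nat_lit 229)) (XT.nd (nat_lit 78) (nat_lit 0) (nat_lit 0) (XT.lf (nat_lit 0) (nat_lit 19534946537) (nat_lit 76) (nat_lit 276505927344) (nat_lit 76) (nat_lit 275922003282) (nat_lit 1) (nat_lit 4) (nat_lit 2) (nat_lit 5) (nat_lit 2) (nat_lit 4) (nat_lit 430) (nat_lit 242) (nat_lit 228)) (XT.lf (nat_lit 0) (nat_lit 23025986834) (nat_lit 76) (nat_lit 289041481963) (nat_lit 76) (nat_lit 288429182545) (nat_lit 1) (nat_lit 4) (nat_lit 2) (nat_lit 5) (nat_lit 2) (nat_lit 4) (nat_lit 431) (nat_lit 242) (nat_lit 227))))) (XT.nd (nat_lit 234) (nat_lit 0) (nat_lit 0) (XT.nd (nat_lit 78)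 (nat_lit 0) (nat_lit 0) (XT.lf (nat_lit 0) (nat_lit 26632134448) (nat_lit 76) (nat_lit 302232912610) (nat_lit 76) (nat_lit 301593589044) (nat_lit 1) (nat_lit 4) (nat_lit 2) (nat_lit 5) (nat_lit 2) (nat_lit 4) (nat_lit 432) (nat_lit 242) (nat_lit 226)) (XT.nd (nat_lit 78) (nat_lit 0) (nat_lit 0) (XT.lf (nat_lit 0) (nat_lit 30361975446) (nat_lit 76) (nat_lit 316111627455) (nat_lit 76) (nat_lit 315446566605) (nat_lit 1) (nat_lit 4) (nat_lit 2) (nat_lit 5) (nat_lit 2) (nat_lit 4) (nat_lit 433) (nat_lit 242) (nat_lit 225)) (XT.lf (nat_lit 0) (nat_lit 34224390401) (nat_lit 76) (nat_lit 330710671055) (nat_lit 76) (nat_lit 330021098506) (nat_lit 1) (nat_lit 4) (nat_lit 2) (nat_lit 5) (nat_lit 2) (nat_lit 4) (nat_lit 434) (nat_lit 242) (nat_lit 224)))) (XT.nd (nat_lit 45240) (nat_lit 0) (nat_lit 76) (XT.lf (nat_lit 0) (nat_lit 38228575539) (nat_lit 76) (nat_lit 346064803039) (nat_lit 76) (nat_lit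 345351886014) (nat_lit 1) (nat_lit 4) (nat_lit 2) (nat_lit 5) (nat_lit 2) (nat_lit 4) (nat_lit 435) (nat_lit 242) (nat_lit 223)) (XT.nd (nat_lit 78) (nat_lit 0) (nat_lit 0) (XT.lf (nat_lit 0) (nat_lit 59252282934) (nat_lit 152) (nat_lit 12953531162) (nat_lit 0) (nat_lit 59252282934) (nat_lit 2) (nat_lit 5) (nat_lit 4) (nat_lit 4) (nat_lit 2) (nat_lit 4) (nat_lit 414) (nat_lit 243) (nat_lit 243)) (XT.lf (nat_lit 0) (nat_lit 126310010724) (nat_lit 152) (nat_lit 23403564197) (nat_lit 0) (nat_lit 126251020398) (nat_lit 2) (nat_lit 5) (nat_lit 4) (nat_lit 4) (nat_lit 2) (nat_lit 4) (nat_lit 415) (nat_lit 243) (nat_lit 242))))))) (XT.nd (nat_lit 858) (nat_lit 0) (nat_lit 0) (XT.nd (nat_lit 390) (nat_lit 76) (nat_lit 0) (XT.nd (nat_lit 156) (nat_lit 0) (nat_lit 0) (XT.nd (nat_lit 78) (nat_lit 0) (nat_lit 0) (XT.lf (nat_lit 0) (nat_lit 134444569288) (nat_lit 152) (nat_lit 20894517047) (nat_lit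 0) (nat_lit 134329397698) (nat_lit 2) (nat_lit 5) (nat_lit 4) (nat_lit 4) (nat_lit 2) (nat_lit 4) (nat_lit 416) (nat_lit 243) (nat_lit 241)) (XT.lf (nat_lit 0) (nat_lit 142927609556) (nat_lit 152) (nat_lit 18373946953) (nat_lit 0) (nat_lit 142758932000) (nat_lit 2) (nat_lit 5) (nat_lit 4) (nat_lit 4) (nat_lit 2) (nat_lit 4) (nat_lit 417) (nat_lit 243) (nat_lit 240))) (XT.nd (nat_lit 78) (nat_lit 0) (nat_lit 0) (XT.lf (nat_lit 0) (nat_lit 151779329243) (nat_lit 152) (nat_lit 15835852557) (nat_lit 0) (nat_lit 151559693625) (nat_lit 2) (nat_lit 5) (nat_lit 4) (nat_lit 4) (nat_lit 2) (nat_lit 4) (nat_lit 418) (nat_lit 243) (nat_lit 239)) (XT.nd (nat_lit 78) (nat_lit 0) (nat_lit 0) (XT.lf (nat_lit 0) (nat_lit 161020803872) (nat_lit 152) (nat_lit 13274190778) (nat_lit 0) (nat_lit 160752636767) (nat_lit 2) (nat_lit 5) (nat_lit 4) (nat_lit 4) (nat_lit 2) (nat_lit 4) (nat_lit 419) (nat_lit 243)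 (nat_lit 238)) (XT.lf (nat_lit 0) (nat_lit 170674036955) (nat_lit 152) (nat_lit 10682862420) (nat_lit 0) (nat_lit 170359649386) (nat_lit 2) (nat_lit 5) (nat_lit 4) (nat_lit 4) (nat_lit 2) (nat_lit 4) (nat_lit 420) (nat_lit 243) (nat_lit 237))))) (XT.nd (nat_lit 234) (nat_lit 76) (nat_lit 0) (XT.nd (nat_lit 78) (nat_lit 0) (nat_lit 0) (XT.lf (nat_lit 0) (nat_lit 180762012379) (nat_lit 152) (nat_lit 8055697655) (nat_lit 0) (nat_lit 180403605320) (nat_lit 2) (nat_lit 5) (nat_lit 4) (nat_lit 4) (nat_lit 2) (nat_lit 4) (nat_lit 421) (nat_lit 243) (nat_lit 236)) (XT.nd (nat_lit 78) (nat_lit 0) (nat_lit 0) (XT.lf (nat_lit 0) (nat_lit 191308749134) (nat_lit 152) (nat_lit 5386441329) (nat_lit 0) (nat_lit 190908418751) (nat_lit 2) (nat_lit 5) (nat_lit 4) (nat_lit 4) (nat_lit 2) (nat_lit 4) (nat_lit 422) (nat_lit 243) (nat_lit 235)) (XT.lf (nat_lit 0) (nat_lit 202339358498) (nat_lit 152) (nat_lit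 2668738068) (nat_lit 0) (nat_lit 201899101140) (nat_lit 2) (nat_lit 5) (nat_lit 4) (nat_lit 4) (nat_lit 2) (nat_lit 4) (nat_lit 423) (nat_lit 243) (nat_lit 234)))) (XT.nd (nat_lit 78) (nat_lit 0) (nat_lit 0) (XT.lf (nat_lit 0) (nat_lit 107317684) (nat_lit 76) (nat_lit 213774461672) (nat_lit 76) (nat_lit 213296178624) (nat_lit 1) (nat_lit 4) (nat_lit 2) (nat_lit 5) (nat_lit 2) (nat_lit 4) (nat_lit 424) (nat_lit 243) (nat_lit 233)) (XT.nd (nat_lit 78) (nat_lit 0) (nat_lit 0) (XT.lf (nat_lit 0) (nat_lit 3035167204) (nat_lit 76) (nat_lit 222970683346) (nat_lit 76) (nat_lit 222456185354) (nat_lit 1) (nat_lit 4) (nat_lit 2) (nat_lit 5) (nat_lit 2) (nat_lit 4) (nat_lit 425) (nat_lit 243) (nat_lit 232)) (XT.lf (nat_lit 0) (nat_lit 6033541029) (nat_lit 76) (nat_lit 232663853724) (nat_lit 76) (nat_lit 232114865310) (nat_lit 1) (nat_lit 4) (nat_lit 2) (nat_lit 5) (nat_lit 2) (nat_lit 4) (nat_lit 426)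 (nat_lit 243) (nat_lit 231)))))) (XT.nd (nat_lit 468) (nat_lit 0) (nat_lit 0) (XT.nd (nat_lit 234) (nat_lit 0) (nat_lit 0) (XT.nd (nat_lit 78) (nat_lit 0) (nat_lit 0) (XT.lf (nat_lit 0) (nat_lit 9109578145) (nat_lit 76) (nat_lit 242877051784) (nat_lit 76) (nat_lit 242295215349) (nat_lit 1) (nat_lit 4) (nat_lit 2) (nat_lit 5) (nat_lit 2) (nat_lit 4) (nat_lit 427) (nat_lit 243) (nat_lit 230)) (XT.nd (nat_lit 78) (nat_lit 0) (nat_lit 0) (XT.lf (nat_lit 0) (nat_lit 12270602449) (nat_lit 76) (nat_lit 253634594664) (nat_lit 76) (nat_lit 253021474399) (nat_lit 1) (nat_lit 4) (nat_lit 2) (nat_lit 5) (nat_lit 2) (nat_lit 4) (nat_lit 428) (nat_lit 243) (nat_lit 229)) (XT.lf (nat_lit 0) (nat_lit 15524140190) (nat_lit 76) (nat_lit 264962095561) (nat_lit 76) (nat_lit 264319181173) (nat_lit 1) (nat_lit 4) (nat_lit 2) (nat_lit 5) (nat_lit 2) (nat_lit 4) (nat_lit 429) (nat_lit 243) (nat_lit 228)))) (XT.nd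 (nat_lit 78) (nat_lit 0) (nat_lit 0) (XT.lf (nat_lit 0) (nat_lit 18877937886) (nat_lit 76) (nat_lit 276886524716) (nat_lit 76) (nat_lit 276215234972) (nat_lit 1) (nat_lit 4) (nat_lit 2) (nat_lit 5) (nat_lit 2) (nat_lit 4) (nat_lit 430) (nat_lit 243) (nat_lit 227)) (XT.nd (nat_lit 78) (nat_lit 0) (nat_lit 0) (XT.lf (nat_lit 0) (nat_lit 22339980769) (nat_lit 76) (nat_lit 289436273626) (nat_lit 76) (nat_lit 288737959734) (nat_lit 1) (nat_lit 4) (nat_lit 2) (nat_lit 5) (nat_lit 2) (nat_lit 4) (nat_lit 431) (nat_lit 243) (nat_lit 226)) (XT.lf (nat_lit 0) (nat_lit 25918511799) (nat_lit 76) (nat_lit 302641222646) (nat_lit 76) (nat_lit 301917171470) (nat_lit 1) (nat_lit 4) (nat_lit 2) (nat_lit 5) (nat_lit 2) (nat_lit 4) (nat_lit 432) (nat_lit 243) (nat_lit 225))))) (XT.nd (nat_lit 45240) (nat_lit 0) (nat_lit 76) (XT.nd (nat_lit 78) (nat_lit 0) (nat_lit 0) (XT.lf (nat_lit 0) (nat_lit 29622051289)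 (nat_lit 76) (nat_lit 316532812132) (nat_lit 76) (nat_lit 315784249256) (nat_lit 1) (nat_lit 4) (nat_lit 2) (nat_lit 5) (nat_lit 2) (nat_lit 4) (nat_lit 433) (nat_lit 243) (nat_lit 224)) (XT.nd (nat_lit 78) (nat_lit 0) (nat_lit 0) (XT.lf (nat_lit 0) (nat_lit 33459417188) (nat_lit 76) (nat_lit 331144117295) (nat_lit 76) (nat_lit 330372209944) (nat_lit 1) (nat_lit 4) (nat_lit 2) (nat_lit 5) (nat_lit 2) (nat_lit 4) (nat_lit 434) (nat_lit 243) (nat_lit 223)) (XT.lf (nat_lit 0) (nat_lit 37439746082) (nat_lit 76) (nat_lit 346509926958) (nat_lit 76) (nat_lit 345715786773) (nat_lit 1) (nat_lit 4) (nat_lit 2) (nat_lit 5) (nat_lit 2) (nat_lit 4) (nat_lit 435) (nat_lit 243) (nat_lit 222)))) (XT.nd (nat_lit 78) (nat_lit 0) (nat_lit 0) (XT.lf (nat_lit 0) (nat_lit 51951125133) (nat_lit 152) (nat_lit 15428459974) (nat_lit 0) (nat_lit 51951125133) (nat_lit 2) (nat_lit 5) (nat_lit 4) (nat_lit 4) (nat_lit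 2) (nat_lit 4) (nat_lit 412) (nat_lit 244) (nat_lit 244)) (XT.nd (nat_lit 78) (nat_lit 0) (nat_lit 0) (XT.lf (nat_lit 0) (nat_lit 111071590171) (nat_lit 152) (nat_lit 28410972140) (nat_lit 0) (nat_lit 111009650328) (nat_lit 2) (nat_lit 5) (nat_lit 4) (nat_lit 4) (nat_lit 2) (nat_lit 4) (nat_lit 413) (nat_lit 244) (nat_lit 243)) (XT.lf (nat_lit 0) (nat_lit 118535180608) (nat_lit 152) (nat_lit 25968334119) (nat_lit 0) (nat_lit 118414250439) (nat_lit 2) (nat_lit 5) (nat_lit 4) (nat_lit 4) (nat_lit 2) (nat_lit 4) (nat_lit 414) (nat_lit 244) (nat_lit 242))))))))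
noncomputable def xc3 : XT := (XT.nd (nat_lit 46566) (nat_lit 0) (nat_lit 0) (XT.nd (nat_lit 858) (nat_lit 0) (nat_lit 0) (XT.nd (nat_lit 390) (nat_lit 76) (nat_lit 0) (XT.nd (nat_lit 156) (nat_lit 0) (nat_lit 0) (XT.nd (nat_lit 78) (nat_lit 0) (nat_lit 0) (XT.lf (nat_lit 0) (nat_lit 126310792032) (nat_lit 152) (nat_lit 23523190081) (nat_lit 0) (nat_lit 126133680599) (nat_lit 2) (nat_lit 5) (nat_lit 4) (nat_lit 4) (nat_lit 2) (nat_lit 4) (nat_lit 415) (nat_lit 244) (nat_lit 241)) (XT.lf (nat_lit 0) (nat_lit 134416937804) (nat_lit 152) (nat_lit 21069718254) (nat_lit 0) (nat_lit 134186320405) (nat_lit 2) (nat_lit 5) (nat_lit 4) (nat_lit 4) (nat_lit 2) (nat_lit 4) (nat_lit 416) (nat_lit 244) (nat_lit 240))) (XT.nd (nat_lit 78) (nat_lit 0) (nat_lit 0) (XT.lf (nat_lit 0) (nat_lit 142872918269) (nat_lit 152) (nat_lit 18602077040) (nat_lit 0) (nat_lit 142591342809) (nat_lit 2) (nat_lit 5) (nat_lit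 4) (nat_lit 4) (nat_lit 2) (nat_lit 4) (nat_lit 417) (nat_lit 244) (nat_lit 239)) (XT.nd (nat_lit 78) (nat_lit 0) (nat_lit 0) (XT.lf (nat_lit 0) (nat_lit 151698866716) (nat_lit 152) (nat_lit 16114391101) (nat_lit 0) (nat_lit 151368759769) (nat_lit 2) (nat_lit 5) (nat_lit 4) (nat_lit 4) (nat_lit 2) (nat_lit 4) (nat_lit 418) (nat_lit 244) (nat_lit 238)) (XT.lf (nat_lit 0) (nat_lit 160915797308) (nat_lit 152) (nat_lit 13600737376) (nat_lit 0) (nat_lit 160539469895) (nat_lit 2) (nat_lit 5) (nat_lit 4) (nat_lit 4) (nat_lit 2) (nat_lit 4) (nat_lit 419) (nat_lit 244) (nat_lit 237))))) (XT.nd (nat_lit 234) (nat_lit 76) (nat_lit 0) (XT.nd (nat_lit 78) (nat_lit 0) (nat_lit 0) (XT.lf (nat_lit 0) (nat_lit 170545655116) (nat_lit 152) (nat_lit 11055130975) (nat_lit 0) (nat_lit 170125308214) (nat_lit 2) (nat_lit 5) (nat_lit 4) (nat_lit 4) (nat_lit 2) (nat_lit 4) (nat_lit 420) (nat_lit 244) (nat_lit 236))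 (XT.nd (nat_lit 78) (nat_lit 0) (nat_lit 0) (XT.lf (nat_lit 0) (nat_lit 180611368374) (nat_lit 152) (nat_lit 8471510930) (nat_lit 0) (nat_lit 180149098148) (nat_lit 2) (nat_lit 5) (nat_lit 4) (nat_lit 4) (nat_lit 2) (nat_lit 4) (nat_lit 421) (nat_lit 244) (nat_lit 235)) (XT.lf (nat_lit 0) (nat_lit 191136903067) (nat_lit 152) (nat_lit 5843725765) (nat_lit 0) (nat_lit 190634705866) (nat_lit 2) (nat_lit 5) (nat_lit 4) (nat_lit 4) (nat_lit 2) (nat_lit 4) (nat_lit 422) (nat_lit 244) (nat_lit 234)))) (XT.nd (nat_lit 78) (nat_lit 76) (nat_lit 0) (XT.lf (nat_lit 0) (nat_lit 202147319990) (nat_lit 152) (nat_lit 3165518850) (nat_lit 0) (nat_lit 201607097098) (nat_lit 2) (nat_lit 5) (nat_lit 4) (nat_lit 4) (nat_lit 2) (nat_lit 4) (nat_lit 423) (nat_lit 244) (nat_lit 233)) (XT.nd (nat_lit 78) (nat_lit 76) (nat_lit 0) (XT.lf (nat_lit 0) (nat_lit 213668834422) (nat_lit 152) (nat_lit 430513500) (nat_lit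 0) (nat_lit 213092396587) (nat_lit 2) (nat_lit 5) (nat_lit 4) (nat_lit 4) (nat_lit 2) (nat_lit 4) (nat_lit 424) (nat_lit 244) (nat_lit 232)) (XT.lf (nat_lit 0) (nat_lit 2446092435) (nat_lit 76) (nat_lit 223320976463) (nat_lit 76) (nat_lit 222710048206) (nat_lit 1) (nat_lit 4) (nat_lit 2) (nat_lit 5) (nat_lit 2) (nat_lit 4) (nat_lit 425) (nat_lit 244) (nat_lit 231)))))) (XT.nd (nat_lit 390) (nat_lit 0) (nat_lit 0) (XT.nd (nat_lit 156) (nat_lit 0) (nat_lit 0) (XT.nd (nat_lit 78) (nat_lit 0) (nat_lit 0) (XT.lf (nat_lit 0) (nat_lit 5409219724) (nat_lit 76) (nat_lit 233031400091) (nat_lit 76) (nat_lit 232387623813) (nat_lit 1) (nat_lit 4) (nat_lit 2) (nat_lit 5) (nat_lit 2) (nat_lit 4) (nat_lit 426) (nat_lit 244) (nat_lit 230)) (XT.lf (nat_lit 0) (nat_lit 8451688709) (nat_lit 76) (nat_lit 243261029818) (nat_lit 76) (nat_lit 242585969710) (nat_lit 1) (nat_lit 4) (nat_lit 2) (nat_lit 5) (nat_lit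 2) (nat_lit 4) (nat_lit 427) (nat_lit 244) (nat_lit 229))) (XT.nd (nat_lit 78) (nat_lit 0) (nat_lit 0) (XT.lf (nat_lit 0) (nat_lit 11580743365) (nat_lit 76) (nat_lit 254034221904) (nat_lit 76) (nat_lit 253329367673) (nat_lit 1) (nat_lit 4) (nat_lit 2) (nat_lit 5) (nat_lit 2) (nat_lit 4) (nat_lit 428) (nat_lit 244) (nat_lit 228)) (XT.nd (nat_lit 78) (nat_lit 0) (nat_lit 0) (XT.lf (nat_lit 0) (nat_lit 14803833822) (nat_lit 76) (nat_lit 265376626808) (nat_lit 76) (nat_lit 264643397220) (nat_lit 1) (nat_lit 4) (nat_lit 2) (nat_lit 5) (nat_lit 2) (nat_lit 4) (nat_lit 429) (nat_lit 244) (nat_lit 227)) (XT.lf (nat_lit 0) (nat_lit 18128634104) (nat_lit 76) (nat_lit 277315250254) (nat_lit 76) (nat_lit 276554996518) (nat_lit 1) (nat_lit 4) (nat_lit 2) (nat_lit 5) (nat_lit 2) (nat_lit 4) (nat_lit 430) (nat_lit 244) (nat_lit 226))))) (XT.nd (nat_lit 234) (nat_lit 0) (nat_lit 0) (XT.nd (nat_lit 78)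 (nat_lit 0) (nat_lit 0) (XT.lf (nat_lit 0) (nat_lit 21563060404) (nat_lit 76) (nat_lit 289878517537) (nat_lit 76) (nat_lit 289092526518) (nat_lit 1) (nat_lit 4) (nat_lit 2) (nat_lit 5) (nat_lit 2) (nat_lit 4) (nat_lit 431) (nat_lit 244) (nat_lit 225)) (XT.nd (nat_lit 78) (nat_lit 0) (nat_lit 0) (XT.lf (nat_lit 0) (nat_lit 25115289925) (nat_lit 76) (nat_lit 303096341198) (nat_lit 76) (nat_lit 302285838480) (nat_lit 1) (nat_lit 4) (nat_lit 2) (nat_lit 5) (nat_lit 2) (nat_lit 4) (nat_lit 432) (nat_lit 244) (nat_lit 224)) (XT.lf (nat_lit 0) (nat_lit 28793780359) (nat_lit 76) (nat_lit 317000192246) (nat_lit 76) (nat_lit 316166345052) (nat_lit 1) (nat_lit 4) (nat_lit 2) (nat_lit 5) (nat_lit 2) (nat_lit 4) (nat_lit 433) (nat_lit 244) (nat_lit 223)))) (XT.nd (nat_lit 78) (nat_lit 0) (nat_lit 0) (XT.lf (nat_lit 0) (nat_lit 32607290014) (nat_lit 76) (nat_lit 331623175088) (nat_lit 76) (nat_lit 330767095061)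 (nat_lit 1) (nat_lit 4) (nat_lit 2) (nat_lit 5) (nat_lit 2) (nat_lit 4) (nat_lit 434) (nat_lit 244) (nat_lit 222)) (XT.nd (nat_lit 44928) (nat_lit 0) (nat_lit 76) (XT.lf (nat_lit 0) (nat_lit 36564898677) (nat_lit 76) (nat_lit 347000106350) (nat_lit 76) (nat_lit 346122852195) (nat_lit 1) (nat_lit 4) (nat_lit 2) (nat_lit 5) (nat_lit 2) (nat_lit 4) (nat_lit 435) (nat_lit 244) (nat_lit 221)) (XT.lf (nat_lit 0) (nat_lit 45239137673) (nat_lit 152) (nat_lit 17857254632) (nat_lit 0) (nat_lit 45239137673) (nat_lit 2) (nat_lit 5) (nat_lit 4) (nat_lit 4) (nat_lit 2) (nat_lit 4) (nat_lit 410) (nat_lit 245) (nat_lit 245))))))) (XT.nd (nat_lit 858) (nat_lit 76) (nat_lit 0) (XT.nd (nat_lit 390) (nat_lit 0) (nat_lit 0) (XT.nd (nat_lit 156) (nat_lit 0) (nat_lit 0) (XT.nd (nat_lit 78) (nat_lit 0) (nat_lit 0) (XT.lf (nat_lit 0) (nat_lit 97075127875) (nat_lit 152) (nat_lit 33312001231) (nat_lit 0) (nat_lit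 97010091040) (nat_lit 2) (nat_lit 5) (nat_lit 4) (nat_lit 4) (nat_lit 2) (nat_lit 4) (nat_lit 411) (nat_lit 245) (nat_lit 244)) (XT.lf (nat_lit 0) (nat_lit 103934395744) (nat_lit 152) (nat_lit 30921255333) (nat_lit 0) (nat_lit 103807419066) (nat_lit 2) (nat_lit 5) (nat_lit 4) (nat_lit 4) (nat_lit 2) (nat_lit 4) (nat_lit 412) (nat_lit 245) (nat_lit 243))) (XT.nd (nat_lit 78) (nat_lit 0) (nat_lit 0) (XT.lf (nat_lit 0) (nat_lit 111072410544) (nat_lit 152) (nat_lit 28536579318) (nat_lit 0) (nat_lit 110886443540) (nat_lit 2) (nat_lit 5) (nat_lit 4) (nat_lit 4) (nat_lit 2) (nat_lit 4) (nat_lit 413) (nat_lit 245) (nat_lit 242)) (XT.nd (nat_lit 78) (nat_lit 0) (nat_lit 0) (XT.lf (nat_lit 0) (nat_lit 118506167550) (nat_lit 152) (nat_lit 26152295387) (nat_lit 0) (nat_lit 118264019282) (nat_lit 2) (nat_lit 5) (nat_lit 4) (nat_lit 4) (nat_lit 2) (nat_lit 4) (nat_lit 414) (nat_lit 245) (nat_lit 241))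 (XT.lf (nat_lit 0) (nat_lit 126253366182) (nat_lit 152) (nat_lit 23762726673) (nat_lit 0) (nat_lit 125957711948) (nat_lit 2) (nat_lit 5) (nat_lit 4) (nat_lit 4) (nat_lit 2) (nat_lit 4) (nat_lit 415) (nat_lit 245) (nat_lit 240))))) (XT.nd (nat_lit 234) (nat_lit 0) (nat_lit 0) (XT.nd (nat_lit 78) (nat_lit 0) (nat_lit 0) (XT.lf (nat_lit 0) (nat_lit 134332452151) (nat_lit 152) (nat_lit 21362183726) (nat_lit 0) (nat_lit 133985839856) (nat_lit 2) (nat_lit 5) (nat_lit 4) (nat_lit 4) (nat_lit 2) (nat_lit 4) (nat_lit 416) (nat_lit 245) (nat_lit 239)) (XT.nd (nat_lit 78) (nat_lit 0) (nat_lit 0) (XT.lf (nat_lit 0) (nat_lit 142762661377) (nat_lit 152) (nat_lit 18944950968) (nat_lit 0) (nat_lit 142367517594) (nat_lit 2) (nat_lit 5) (nat_lit 4) (nat_lit 4) (nat_lit 2) (nat_lit 4) (nat_lit 417) (nat_lit 245) (nat_lit 238)) (XT.lf (nat_lit 0) (nat_lit 151564065786) (nat_lit 152) (nat_lit 16505273083) (nat_lit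 0) (nat_lit 151122701538) (nat_lit 2) (nat_lit 5) (nat_lit 4) (nat_lit 4) (nat_lit 2) (nat_lit 4) (nat_lit 418) (nat_lit 245) (nat_lit 237)))) (XT.nd (nat_lit 78) (nat_lit 0) (nat_lit 0) (XT.lf (nat_lit 0) (nat_lit 160757621103) (nat_lit 152) (nat_lit 14037341314) (nat_lit 0) (nat_lit 160272237365) (nat_lit 2) (nat_lit 5) (nat_lit 4) (nat_lit 4) (nat_lit 2) (nat_lit 4) (nat_lit 419) (nat_lit 245) (nat_lit 236)) (XT.nd (nat_lit 78) (nat_lit 0) (nat_lit 0) (XT.lf (nat_lit 0) (nat_lit 170365216745) (nat_lit 152) (nat_lit 11535279633) (nat_lit 0) (nat_lit 169837909684) (nat_lit 2) (nat_lit 5) (nat_lit 4) (nat_lit 4) (nat_lit 2) (nat_lit 4) (nat_lit 420) (nat_lit 245) (nat_lit 235)) (XT.lf (nat_lit 0) (nat_lit 180409727940) (nat_lit 152) (nat_lit 8993130751) (nat_lit 0) (nat_lit 179842493904) (nat_lit 2) (nat_lit 5) (nat_lit 4) (nat_lit 4) (nat_lit 2) (nat_lit 4) (nat_lit 421) (nat_lit 245)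 (nat_lit 234)))))) (XT.nd (nat_lit 468) (nat_lit 0) (nat_lit 0) (XT.nd (nat_lit 234) (nat_lit 76) (nat_lit 0) (XT.nd (nat_lit 78) (nat_lit 0) (nat_lit 0) (XT.lf (nat_lit 0) (nat_lit 190915070192) (nat_lit 152) (nat_lit 6404841931) (nat_lit 0) (nat_lit 190309810465) (nat_lit 2) (nat_lit 5) (nat_lit 4) (nat_lit 4) (nat_lit 2) (nat_lit 4) (nat_lit 422) (nat_lit 245) (nat_lit 233)) (XT.nd (nat_lit 78) (nat_lit 0) (nat_lit 0) (XT.lf (nat_lit 0) (nat_lit 201906256219) (nat_lit 152) (nat_lit 3764250582) (nat_lit 0) (nat_lit 201264781549) (nat_lit 2) (nat_lit 5) (nat_lit 4) (nat_lit 4) (nat_lit 2) (nat_lit 4) (nat_lit 423) (nat_lit 245) (nat_lit 232)) (XT.lf (nat_lit 0) (nat_lit 213409455512) (nat_lit 152) (nat_lit 1065069581) (nat_lit 0) (nat_lit 212733490419) (nat_lit 2) (nat_lit 5) (nat_lit 4) (nat_lit 4) (nat_lit 2) (nat_lit 4) (nat_lit 424) (nat_lit 245) (nat_lit 231)))) (XT.nd (nat_lit 78)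 (nat_lit 0) (nat_lit 0) (XT.lf (nat_lit 0) (nat_lit 1755308527) (nat_lit 76) (nat_lit 223724153398) (nat_lit 76) (nat_lit 223015340285) (nat_lit 1) (nat_lit 4) (nat_lit 2) (nat_lit 5) (nat_lit 2) (nat_lit 4) (nat_lit 425) (nat_lit 245) (nat_lit 230)) (XT.nd (nat_lit 78) (nat_lit 0) (nat_lit 0) (XT.lf (nat_lit 0) (nat_lit 4684867685) (nat_lit 76) (nat_lit 233451008693) (nat_lit 76) (nat_lit 232710911750) (nat_lit 1) (nat_lit 4) (nat_lit 2) (nat_lit 5) (nat_lit 2) (nat_lit 4) (nat_lit 426) (nat_lit 245) (nat_lit 229)) (XT.lf (nat_lit 0) (nat_lit 7695367022) (nat_lit 76) (nat_lit 243696287627) (nat_lit 76) (nat_lit 242926396560) (nat_lit 1) (nat_lit 4) (nat_lit 2) (nat_lit 5) (nat_lit 2) (nat_lit 4) (nat_lit 427) (nat_lit 245) (nat_lit 228))))) (XT.nd (nat_lit 234) (nat_lit 0) (nat_lit 0) (XT.nd (nat_lit 78) (nat_lit 0) (nat_lit 0) (XT.lf (nat_lit 0) (nat_lit 10793974394) (nat_lit 76) (nat_lit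 254484383719) (nat_lit 76) (nat_lit 253686117297) (nat_lit 1) (nat_lit 4) (nat_lit 2) (nat_lit 5) (nat_lit 2) (nat_lit 4) (nat_lit 428) (nat_lit 245) (nat_lit 227)) (XT.nd (nat_lit 78) (nat_lit 0) (nat_lit 0) (XT.lf (nat_lit 0) (nat_lit 13988067438) (nat_lit 76) (nat_lit 265840982914) (nat_lit 76) (nat_lit 265015692344) (nat_lit 1) (nat_lit 4) (nat_lit 2) (nat_lit 5) (nat_lit 2) (nat_lit 4) (nat_lit 429) (nat_lit 245) (nat_lit 226)) (XT.lf (nat_lit 0) (nat_lit 17285251136) (nat_lit 76) (nat_lit 277793124733) (nat_lit 76) (nat_lit 276942096879) (nat_lit 1) (nat_lit 4) (nat_lit 2) (nat_lit 5) (nat_lit 2) (nat_lit 4) (nat_lit 430) (nat_lit 245) (nat_lit 225)))) (XT.nd (nat_lit 78) (nat_lit 0) (nat_lit 0) (XT.lf (nat_lit 0) (nat_lit 20693375927) (nat_lit 76) (nat_lit 290369266658) (nat_lit 76) (nat_lit 289493727104) (nat_lit 1) (nat_lit 4) (nat_lit 2) (nat_lit 5) (nat_lit 2) (nat_lit 4) (nat_lit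 431) (nat_lit 245) (nat_lit 224)) (XT.nd (nat_lit 78) (nat_lit 0) (nat_lit 0) (XT.lf (nat_lit 0) (nat_lit 24220556393) (nat_lit 76) (nat_lit 303599351881) (nat_lit 76) (nat_lit 302700467852) (nat_lit 1) (nat_lit 4) (nat_lit 2) (nat_lit 5) (nat_lit 2) (nat_lit 4) (nat_lit 432) (nat_lit 245) (nat_lit 223)) (XT.lf (nat_lit 0) (nat_lit 27875190583) (nat_lit 76) (nat_lit 317514880608) (nat_lit 76) (nat_lit 316593763745) (nat_lit 1) (nat_lit 4) (nat_lit 2) (nat_lit 5) (nat_lit 2) (nat_lit 4) (nat_lit 433) (nat_lit 245) (nat_lit 222))))))))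
noncomputable def xc4 : XT := (XT.nd (nat_lit 46410) (nat_lit 0) (nat_lit 0) (XT.nd (nat_lit 45552) (nat_lit 0) (nat_lit 0) (XT.nd (nat_lit 45084) (nat_lit 0) (nat_lit 76) (XT.nd (nat_lit 44850) (nat_lit 0) (nat_lit 76) (XT.nd (nat_lit 78) (nat_lit 0) (nat_lit 0) (XT.lf (nat_lit 0) (nat_lit 31665980006) (nat_lit 76) (nat_lit 332148985049) (nat_lit 76) (nat_lit 331206694059) (nat_lit 1) (nat_lit 4) (nat_lit 2) (nat_lit 5) (nat_lit 2) (nat_lit 4) (nat_lit 434) (nat_lit 245) (nat_lit 221)) (XT.lf (nat_lit 0) (nat_lit 35601950353) (nat_lit 76) (nat_lit 347536508310) (nat_lit 76) (nat_lit 346574051484) (nat_lit 1) (nat_lit 4) (nat_lit 2) (nat_lit 5) (nat_lit 2) (nat_lit 4) (nat_lit 435) (nat_lit 245) (nat_lit 220))) (XT.nd (nat_lit 78) (nat_lit 0) (nat_lit 0) (XT.lf (nat_lit 0) (nat_lit 39057063975) (nat_lit 152) (nat_lit 20253402315) (nat_lit 0) (nat_lit 39057063975) (nat_lit 2) (nat_lit 5)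 (nat_lit 4) (nat_lit 4) (nat_lit 2) (nat_lit 4) (nat_lit 408) (nat_lit 246) (nat_lit 246)) (XT.nd (nat_lit 78) (nat_lit 0) (nat_lit 0) (XT.lf (nat_lit 0) (nat_lit 84196420047) (nat_lit 152) (nat_lit 38134499690) (nat_lit 0) (nat_lit 84128131370) (nat_lit 2) (nat_lit 5) (nat_lit 4) (nat_lit 4) (nat_lit 2) (nat_lit 4) (nat_lit 409) (nat_lit 246) (nat_lit 245)) (XT.lf (nat_lit 0) (nat_lit 90512028098) (nat_lit 152) (nat_lit 35782061417) (nat_lit 0) (nat_lit 90378702586) (nat_lit 2) (nat_lit 5) (nat_lit 4) (nat_lit 4) (nat_lit 2) (nat_lit 4) (nat_lit 410) (nat_lit 246) (nat_lit 244))))) (XT.nd (nat_lit 234) (nat_lit 0) (nat_lit 0) (XT.nd (nat_lit 78) (nat_lit 0) (nat_lit 0) (XT.lf (nat_lit 0) (nat_lit 97075989267) (nat_lit 152) (nat_lit 33443888768) (nat_lit 0) (nat_lit 96880723912) (nat_lit 2) (nat_lit 5) (nat_lit 4) (nat_lit 4) (nat_lit 2) (nat_lit 4) (nat_lit 411) (nat_lit 246) (nat_lit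 243)) (XT.nd (nat_lit 78) (nat_lit 0) (nat_lit 0) (XT.lf (nat_lit 0) (nat_lit 103903932032) (nat_lit 152) (nat_lit 31114414664) (nat_lit 0) (nat_lit 103649676351) (nat_lit 2) (nat_lit 5) (nat_lit 4) (nat_lit 4) (nat_lit 2) (nat_lit 4) (nat_lit 412) (nat_lit 246) (nat_lit 242)) (XT.lf (nat_lit 0) (nat_lit 111012113401) (nat_lit 152) (nat_lit 28788092739) (nat_lit 0) (nat_lit 110701676456) (nat_lit 2) (nat_lit 5) (nat_lit 4) (nat_lit 4) (nat_lit 2) (nat_lit 4) (nat_lit 413) (nat_lit 246) (nat_lit 241)))) (XT.nd (nat_lit 78) (nat_lit 0) (nat_lit 0) (XT.lf (nat_lit 0) (nat_lit 118417457614) (nat_lit 152) (nat_lit 26459384132) (nat_lit 0) (nat_lit 118053514704) (nat_lit 2) (nat_lit 5) (nat_lit 4) (nat_lit 4) (nat_lit 2) (nat_lit 4) (nat_lit 414) (nat_lit 246) (nat_lit 240)) (XT.nd (nat_lit 78) (nat_lit 0) (nat_lit 0) (XT.lf (nat_lit 0) (nat_lit 126137596444) (nat_lit 152) (nat_lit 24122744297)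 (nat_lit 0) (nat_lit 125722695472) (nat_lit 2) (nat_lit 5) (nat_lit 4) (nat_lit 4) (nat_lit 2) (nat_lit 4) (nat_lit 415) (nat_lit 246) (nat_lit 239)) (XT.lf (nat_lit 0) (nat_lit 134190911174) (nat_lit 152) (nat_lit 21772609807) (nat_lit 0) (nat_lit 133727478714) (nat_lit 2) (nat_lit 5) (nat_lit 4) (nat_lit 4) (nat_lit 2) (nat_lit 4) (nat_lit 416) (nat_lit 246) (nat_lit 238)))))) (XT.nd (nat_lit 390) (nat_lit 76) (nat_lit 0) (XT.nd (nat_lit 156) (nat_lit 0) (nat_lit 0) (XT.nd (nat_lit 78) (nat_lit 0) (nat_lit 0) (XT.lf (nat_lit 0) (nat_lit 142596576361) (nat_lit 152) (nat_lit 19403385103) (nat_lit 0) (nat_lit 142086923437) (nat_lit 2) (nat_lit 5) (nat_lit 4) (nat_lit 4) (nat_lit 2) (nat_lit 4) (nat_lit 417) (nat_lit 246) (nat_lit 237)) (XT.lf (nat_lit 0) (nat_lit 151374605496) (nat_lit 152) (nat_lit 17009429174) (nat_lit 0) (nat_lit 150820933082) (nat_lit 2) (nat_lit 5) (nat_lit 4) (nat_lit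 4) (nat_lit 2) (nat_lit 4) (nat_lit 418) (nat_lit 246) (nat_lit 236))) (XT.nd (nat_lit 78) (nat_lit 0) (nat_lit 0) (XT.lf (nat_lit 0) (nat_lit 160545898647) (nat_lit 152) (nat_lit 14585042126) (nat_lit 0) (nat_lit 159950302909) (nat_lit 2) (nat_lit 5) (nat_lit 4) (nat_lit 4) (nat_lit 2) (nat_lit 4) (nat_lit 419) (nat_lit 246) (nat_lit 235)) (XT.nd (nat_lit 78) (nat_lit 0) (nat_lit 0) (XT.lf (nat_lit 0) (nat_lit 170132292226) (nat_lit 152) (nat_lit 12124451607) (nat_lit 0) (nat_lit 169496769513) (nat_lit 2) (nat_lit 5) (nat_lit 4) (nat_lit 4) (nat_lit 2) (nat_lit 4) (nat_lit 420) (nat_lit 246) (nat_lit 234)) (XT.lf (nat_lit 0) (nat_lit 180156610981) (nat_lit 152) (nat_lit 9621799069) (nat_lit 0) (nat_lit 179483062577) (nat_lit 2) (nat_lit 5) (nat_lit 4) (nat_lit 4) (nat_lit 2) (nat_lit 4) (nat_lit 421) (nat_lit 246) (nat_lit 233))))) (XT.nd (nat_lit 234) (nat_lit 76) (nat_lit 0) (XT.nd (nat_lit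 78) (nat_lit 0) (nat_lit 0) (XT.lf (nat_lit 0) (nat_lit 190642722336) (nat_lit 152) (nat_lit 7071125816) (nat_lit 0) (nat_lit 189932958989) (nat_lit 2) (nat_lit 5) (nat_lit 4) (nat_lit 4) (nat_lit 2) (nat_lit 4) (nat_lit 422) (nat_lit 246) (nat_lit 232)) (XT.nd (nat_lit 78) (nat_lit 0) (nat_lit 0) (XT.lf (nat_lit 0) (nat_lit 201615593224) (nat_lit 152) (nat_lit 4466358816) (nat_lit 0) (nat_lit 200871339455) (nat_lit 2) (nat_lit 5) (nat_lit 4) (nat_lit 4) (nat_lit 2) (nat_lit 4) (nat_lit 423) (nat_lit 246) (nat_lit 231)) (XT.lf (nat_lit 0) (nat_lit 213101349527) (nat_lit 152) (nat_lit 1801296243) (nat_lit 0) (nat_lit 212324247737) (nat_lit 2) (nat_lit 5) (nat_lit 4) (nat_lit 4) (nat_lit 2) (nat_lit 4) (nat_lit 424) (nat_lit 246) (nat_lit 230)))) (XT.nd (nat_lit 78) (nat_lit 0) (nat_lit 0) (XT.lf (nat_lit 0) (nat_lit 961170756) (nat_lit 76) (nat_lit 224181174097) (nat_lit 76) (nat_lit 223372788477)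 (nat_lit 1) (nat_lit 4) (nat_lit 2) (nat_lit 5) (nat_lit 2) (nat_lit 4) (nat_lit 425) (nat_lit 246) (nat_lit 229)) (XT.nd (nat_lit 78) (nat_lit 0) (nat_lit 0) (XT.lf (nat_lit 0) (nat_lit 3858760266) (nat_lit 76) (nat_lit 233923678599) (nat_lit 76) (nat_lit 233085498856) (nat_lit 1) (nat_lit 4) (nat_lit 2) (nat_lit 5) (nat_lit 2) (nat_lit 4) (nat_lit 426) (nat_lit 246) (nat_lit 228)) (XT.lf (nat_lit 0) (nat_lit 6838812319) (nat_lit 76) (nat_lit 244183861538) (nat_lit 76) (nat_lit 243317306439) (nat_lit 1) (nat_lit 4) (nat_lit 2) (nat_lit 5) (nat_lit 2) (nat_lit 4) (nat_lit 427) (nat_lit 246) (nat_lit 227))))))) (XT.nd (nat_lit 45396) (nat_lit 0) (nat_lit 76) (XT.nd (nat_lit 390) (nat_lit 0) (nat_lit 0) (XT.nd (nat_lit 156) (nat_lit 0) (nat_lit 0) (XT.nd (nat_lit 78) (nat_lit 0) (nat_lit 0) (XT.lf (nat_lit 0) (nat_lit 9908422278) (nat_lit 76) (nat_lit 254986151923) (nat_lit 76) (nat_lit 254092572675)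 (nat_lit 1) (nat_lit 4) (nat_lit 2) (nat_lit 5) (nat_lit 2) (nat_lit 4) (nat_lit 428) (nat_lit 246) (nat_lit 226)) (XT.lf (nat_lit 0) (nat_lit 13074898738) (nat_lit 76) (nat_lit 266356269490) (nat_lit 76) (nat_lit 265436952959) (nat_lit 1) (nat_lit 4) (nat_lit 2) (nat_lit 5) (nat_lit 2) (nat_lit 4) (nat_lit 429) (nat_lit 246) (nat_lit 225))) (XT.nd (nat_lit 78) (nat_lit 0) (nat_lit 0) (XT.lf (nat_lit 0) (nat_lit 16345780928) (nat_lit 76) (nat_lit 278321285951) (nat_lit 76) (nat_lit 277377457720) (nat_lit 1) (nat_lit 4) (nat_lit 2) (nat_lit 5) (nat_lit 2) (nat_lit 4) (nat_lit 430) (nat_lit 246) (nat_lit 224)) (XT.nd (nat_lit 78) (nat_lit 0) (nat_lit 0) (XT.lf (nat_lit 0) (nat_lit 19728856662) (nat_lit 76) (nat_lit 290909689438) (nat_lit 76) (nat_lit 289942516732) (nat_lit 1) (nat_lit 4) (nat_lit 2) (nat_lit 5) (nat_lit 2) (nat_lit 4) (nat_lit 431) (nat_lit 246) (nat_lit 223)) (XT.lf (nat_lit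 0) (nat_lit 23232180885) (nat_lit 76) (nat_lit 304151452340) (nat_lit 76) (nat_lit 303162046801) (nat_lit 1) (nat_lit 4) (nat_lit 2) (nat_lit 5) (nat_lit 2) (nat_lit 4) (nat_lit 432) (nat_lit 246) (nat_lit 222))))) (XT.nd (nat_lit 44772) (nat_lit 0) (nat_lit 76) (XT.nd (nat_lit 78) (nat_lit 0) (nat_lit 0) (XT.lf (nat_lit 0) (nat_lit 26864094842) (nat_lit 76) (nat_lit 318078102666) (nat_lit 76) (nat_lit 317067522999) (nat_lit 1) (nat_lit 4) (nat_lit 2) (nat_lit 5) (nat_lit 2) (nat_lit 4) (nat_lit 433) (nat_lit 246) (nat_lit 221)) (XT.nd (nat_lit 78) (nat_lit 0) (nat_lit 0) (XT.lf (nat_lit 0) (nat_lit 30633245950) (nat_lit 76) (nat_lit 332722799106) (nat_lit 76) (nat_lit 331692053603) (nat_lit 1) (nat_lit 4) (nat_lit 2) (nat_lit 5) (nat_lit 2) (nat_lit 4) (nat_lit 434) (nat_lit 246) (nat_lit 220)) (XT.lf (nat_lit 0) (nat_lit 34548608376) (nat_lit 76) (nat_lit 348120409985) (nat_lit 76) (nat_lit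 347070458924) (nat_lit 1) (nat_lit 4) (nat_lit 2) (nat_lit 5) (nat_lit 2) (nat_lit 4) (nat_lit 435) (nat_lit 246) (nat_lit 219)))) (XT.nd (nat_lit 78) (nat_lit 0) (nat_lit 0) (XT.lf (nat_lit 0) (nat_lit 33350932519) (nat_lit 152) (nat_lit 22629596196) (nat_lit 0) (nat_lit 33350932519) (nat_lit 2) (nat_lit 5) (nat_lit 4) (nat_lit 4) (nat_lit 2) (nat_lit 4) (nat_lit 406) (nat_lit 247) (nat_lit 247)) (XT.nd (nat_lit 78) (nat_lit 0) (nat_lit 0) (XT.lf (nat_lit 0) (nat_lit 72322373274) (nat_lit 152) (nat_lit 42904624582) (nat_lit 0) (nat_lit 72250670163) (nat_lit 2) (nat_lit 5) (nat_lit 4) (nat_lit 4) (nat_lit 2) (nat_lit 4) (nat_lit 407) (nat_lit 247) (nat_lit 246)) (XT.lf (nat_lit 0) (nat_lit 78149568339) (nat_lit 152) (nat_lit 40577734391) (nat_lit 0) (nat_lit 78009576552) (nat_lit 2) (nat_lit 5) (nat_lit 4) (nat_lit 4) (nat_lit 2) (nat_lit 4) (nat_lit 408) (nat_lit 247) (nat_lit 245))))))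 (XT.nd (nat_lit 468) (nat_lit 0) (nat_lit 0) (XT.nd (nat_lit 234) (nat_lit 0) (nat_lit 0) (XT.nd (nat_lit 78) (nat_lit 0) (nat_lit 0) (XT.lf (nat_lit 0) (nat_lit 84197324508) (nat_lit 152) (nat_lit 38272981604) (nat_lit 0) (nat_lit 83992295886) (nat_lit 2) (nat_lit 5) (nat_lit 4) (nat_lit 4) (nat_lit 2) (nat_lit 4) (nat_lit 409) (nat_lit 247) (nat_lit 244)) (XT.nd (nat_lit 78) (nat_lit 0) (nat_lit 0) (XT.lf (nat_lit 0) (nat_lit 90480041201) (nat_lit 152) (nat_lit 35984878715) (nat_lit 0) (nat_lit 90213072735) (nat_lit 2) (nat_lit 5) (nat_lit 4) (nat_lit 4) (nat_lit 2) (nat_lit 4) (nat_lit 410) (nat_lit 247) (nat_lit 243)) (XT.lf (nat_lit 0) (nat_lit 97012677267) (nat_lit 152) (nat_lit 33707977860) (nat_lit 0) (nat_lit 96686718474) (nat_lit 2) (nat_lit 5) (nat_lit 4) (nat_lit 4) (nat_lit 2) (nat_lit 4) (nat_lit 411) (nat_lit 247) (nat_lit 242)))) (XT.nd (nat_lit 78) (nat_lit 0) (nat_lit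 0) (XT.lf (nat_lit 0) (nat_lit 103810786600) (nat_lit 152) (nat_lit 31436857846) (nat_lit 0) (nat_lit 103428646545) (nat_lit 2) (nat_lit 5) (nat_lit 4) (nat_lit 4) (nat_lit 2) (nat_lit 4) (nat_lit 412) (nat_lit 247) (nat_lit 241)) (XT.nd (nat_lit 78) (nat_lit 0) (nat_lit 0) (XT.lf (nat_lit 0) (nat_lit 110890555177) (nat_lit 152) (nat_lit 29166111245) (nat_lit 0) (nat_lit 110454909156) (nat_lit 2) (nat_lit 5) (nat_lit 4) (nat_lit 4) (nat_lit 2) (nat_lit 4) (nat_lit 413) (nat_lit 247) (nat_lit 240)) (XT.lf (nat_lit 0) (nat_lit 118268839588) (nat_lit 152) (nat_lit 26890331517) (nat_lit 0) (nat_lit 117782235506) (nat_lit 2) (nat_lit 5) (nat_lit 4) (nat_lit 4) (nat_lit 2) (nat_lit 4) (nat_lit 414) (nat_lit 247) (nat_lit 239))))) (XT.nd (nat_lit 234) (nat_lit 0) (nat_lit 0) (XT.nd (nat_lit 78) (nat_lit 0) (nat_lit 0) (XT.lf (nat_lit 0) (nat_lit 125963207178) (nat_lit 152) (nat_lit 24604100139)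 (nat_lit 0) (nat_lit 125428071608) (nat_lit 2) (nat_lit 5) (nat_lit 4) (nat_lit 4) (nat_lit 2) (nat_lit 4) (nat_lit 415) (nat_lit 247) (nat_lit 238)) (XT.nd (nat_lit 78) (nat_lit 0) (nat_lit 0) (XT.lf (nat_lit 0) (nat_lit 133991977869) (nat_lit 152) (nat_lit 22301973703) (nat_lit 0) (nat_lit 133410621835) (nat_lit 2) (nat_lit 5) (nat_lit 4) (nat_lit 4) (nat_lit 2) (nat_lit 4) (nat_lit 416) (nat_lit 247) (nat_lit 237)) (XT.lf (nat_lit 0) (nat_lit 142374267783) (nat_lit 152) (nat_lit 19978470955) (nat_lit 0) (nat_lit 141748892258) (nat_lit 2) (nat_lit 5) (nat_lit 4) (nat_lit 4) (nat_lit 2) (nat_lit 4) (nat_lit 417) (nat_lit 247) (nat_lit 236)))) (XT.nd (nat_lit 78) (nat_lit 0) (nat_lit 0) (XT.lf (nat_lit 0) (nat_lit 151130034751) (nat_lit 152) (nat_lit 17628059747) (nat_lit 0) (nat_lit 150462735903) (nat_lit 2) (nat_lit 5) (nat_lit 4) (nat_lit 4) (nat_lit 2) (nat_lit 4) (nat_lit 418) (nat_lit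 247) (nat_lit 235)) (XT.nd (nat_lit 78) (nat_lit 0) (nat_lit 0) (XT.lf (nat_lit 0) (nat_lit 160280125839) (nat_lit 152) (nat_lit 15245143860) (nat_lit 0) (nat_lit 159572900016) (nat_lit 2) (nat_lit 5) (nat_lit 4) (nat_lit 4) (nat_lit 2) (nat_lit 4) (nat_lit 419) (nat_lit 247) (nat_lit 234)) (XT.lf (nat_lit 0) (nat_lit 169846326978) (nat_lit 152) (nat_lit 12824049686) (nat_lit 0) (nat_lit 169101075464) (nat_lit 2) (nat_lit 5) (nat_lit 4) (nat_lit 4) (nat_lit 2) (nat_lit 4) (nat_lit 420) (nat_lit 247) (nat_lit 233))))))))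
noncomputable def xc5 : XT := (XT.nd (nat_lit 46098) (nat_lit 0) (nat_lit 0) (XT.nd (nat_lit 858) (nat_lit 0) (nat_lit 0) (XT.nd (nat_lit 390) (nat_lit 0) (nat_lit 0) (XT.nd (nat_lit 156) (nat_lit 76) (nat_lit 0) (XT.nd (nat_lit 78) (nat_lit 0) (nat_lit 0) (XT.lf (nat_lit 0) (nat_lit 179851414836) (nat_lit 152) (nat_lit 10359012715) (nat_lit 0) (nat_lit 179069948379) (nat_lit 2) (nat_lit 5) (nat_lit 4) (nat_lit 4) (nat_lit 2) (nat_lit 4) (nat_lit 421) (nat_lit 247) (nat_lit 232)) (XT.lf (nat_lit 0) (nat_lit 190319211052) (nat_lit 152) (nat_lit 7844163812) (nat_lit 0) (nat_lit 189503254172) (nat_lit 2) (nat_lit 5) (nat_lit 4) (nat_lit 4) (nat_lit 2) (nat_lit 4) (nat_lit 422) (nat_lit 247) (nat_lit 231))) (XT.nd (nat_lit 78) (nat_lit 76) (nat_lit 0) (XT.lf (nat_lit 0) (nat_lit 201274638950) (nat_lit 152) (nat_lit 5273515239) (nat_lit 0) (nat_lit 200425834049) (nat_lit 2) (nat_lit 5) (nat_lit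 4) (nat_lit 4) (nat_lit 2) (nat_lit 4) (nat_lit 423) (nat_lit 247) (nat_lit 230)) (XT.nd (nat_lit 78) (nat_lit 76) (nat_lit 0) (XT.lf (nat_lit 0) (nat_lit 212743782882) (nat_lit 152) (nat_lit 2640946407) (nat_lit 0) (nat_lit 211863694152) (nat_lit 2) (nat_lit 5) (nat_lit 4) (nat_lit 4) (nat_lit 2) (nat_lit 4) (nat_lit 424) (nat_lit 247) (nat_lit 229)) (XT.lf (nat_lit 0) (nat_lit 61788318) (nat_lit 76) (nat_lit 224693126705) (nat_lit 76) (nat_lit 223783243851) (nat_lit 1) (nat_lit 4) (nat_lit 2) (nat_lit 5) (nat_lit 2) (nat_lit 4) (nat_lit 425) (nat_lit 247) (nat_lit 228))))) (XT.nd (nat_lit 234) (nat_lit 0) (nat_lit 0) (XT.nd (nat_lit 78) (nat_lit 0) (nat_lit 0) (XT.lf (nat_lit 0) (nat_lit 2928930544) (nat_lit 76) (nat_lit 234450535213) (nat_lit 76) (nat_lit 233512277003) (nat_lit 1) (nat_lit 4) (nat_lit 2) (nat_lit 5) (nat_lit 2) (nat_lit 4) (nat_lit 426) (nat_lit 247) (nat_lit 227)) (XT.nd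 (nat_lit 78) (nat_lit 0) (nat_lit 0) (XT.lf (nat_lit 0) (nat_lit 5879985184) (nat_lit 76) (nat_lit 244724912444) (nat_lit 76) (nat_lit 243759630086) (nat_lit 1) (nat_lit 4) (nat_lit 2) (nat_lit 5) (nat_lit 2) (nat_lit 4) (nat_lit 427) (nat_lit 247) (nat_lit 226)) (XT.lf (nat_lit 0) (nat_lit 8921978559) (nat_lit 76) (nat_lit 255540721201) (nat_lit 76) (nat_lit 254549701559) (nat_lit 1) (nat_lit 4) (nat_lit 2) (nat_lit 5) (nat_lit 2) (nat_lit 4) (nat_lit 428) (nat_lit 247) (nat_lit 225)))) (XT.nd (nat_lit 78) (nat_lit 0) (nat_lit 0) (XT.lf (nat_lit 0) (nat_lit 12062153510) (nat_lit 76) (nat_lit 266923713410) (nat_lit 76) (nat_lit 265908182068) (nat_lit 1) (nat_lit 4) (nat_lit 2) (nat_lit 5) (nat_lit 2) (nat_lit 4) (nat_lit 429) (nat_lit 247) (nat_lit 224)) (XT.nd (nat_lit 78) (nat_lit 0) (nat_lit 0) (XT.lf (nat_lit 0) (nat_lit 15307986644) (nat_lit 76) (nat_lit 278900991433) (nat_lit 76)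 (nat_lit 277862115616) (nat_lit 1) (nat_lit 4) (nat_lit 2) (nat_lit 5) (nat_lit 2) (nat_lit 4) (nat_lit 430) (nat_lit 247) (nat_lit 223)) (XT.lf (nat_lit 0) (nat_lit 18667206135) (nat_lit 76) (nat_lit 291501072598) (nat_lit 76) (nat_lit 290439963948) (nat_lit 1) (nat_lit 4) (nat_lit 2) (nat_lit 5) (nat_lit 2) (nat_lit 4) (nat_lit 431) (nat_lit 247) (nat_lit 222)))))) (XT.nd (nat_lit 44772) (nat_lit 0) (nat_lit 76) (XT.nd (nat_lit 156) (nat_lit 0) (nat_lit 0) (XT.nd (nat_lit 78) (nat_lit 0) (nat_lit 0) (XT.lf (nat_lit 0) (nat_lit 22147810125) (nat_lit 76) (nat_lit 304753957100) (nat_lit 76) (nat_lit 303671674322) (nat_lit 1) (nat_lit 4) (nat_lit 2) (nat_lit 5) (nat_lit 2) (nat_lit 4) (nat_lit 432) (nat_lit 247) (nat_lit 221)) (XT.lf (nat_lit 0) (nat_lit 25758085767) (nat_lit 76) (nat_lit 318691199425) (nat_lit 76) (nat_lit 317588750811) (nat_lit 1) (nat_lit 4) (nat_lit 2) (nat_lit 5) (nat_lit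 2) (nat_lit 4) (nat_lit 433) (nat_lit 247) (nat_lit 220))) (XT.nd (nat_lit 78) (nat_lit 0) (nat_lit 0) (XT.lf (nat_lit 0) (nat_lit 29506628954) (nat_lit 76) (nat_lit 333345983482) (nat_lit 76) (nat_lit 332224329312) (nat_lit 1) (nat_lit 4) (nat_lit 2) (nat_lit 5) (nat_lit 2) (nat_lit 4) (nat_lit 434) (nat_lit 247) (nat_lit 219)) (XT.nd (nat_lit 44460) (nat_lit 0) (nat_lit 76) (XT.lf (nat_lit 0) (nat_lit 33402364789) (nat_lit 76) (nat_lit 348753201616) (nat_lit 76) (nat_lit 347613256438) (nat_lit 1) (nat_lit 4) (nat_lit 2) (nat_lit 5) (nat_lit 2) (nat_lit 4) (nat_lit 435) (nat_lit 247) (nat_lit 218)) (XT.lf (nat_lit 0) (nat_lit 28071554288) (nat_lit 152) (nat_lit 24997832255) (nat_lit 0) (nat_lit 28071554288) (nat_lit 2) (nat_lit 5) (nat_lit 4) (nat_lit 4) (nat_lit 2) (nat_lit 4) (nat_lit 404) (nat_lit 248) (nat_lit 248))))) (XT.nd (nat_lit 234) (nat_lit 0) (nat_lit 0) (XT.nd (nat_lit 78)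 (nat_lit 0) (nat_lit 0) (XT.lf (nat_lit 0) (nat_lit 61349949738) (nat_lit 152) (nat_lit 47647043936) (nat_lit 0) (nat_lit 61274661472) (nat_lit 2) (nat_lit 5) (nat_lit 4) (nat_lit 4) (nat_lit 2) (nat_lit 4) (nat_lit 405) (nat_lit 248) (nat_lit 247)) (XT.nd (nat_lit 78) (nat_lit 0) (nat_lit 0) (XT.lf (nat_lit 0) (nat_lit 66739077447) (nat_lit 152) (nat_lit 45333668641) (nat_lit 0) (nat_lit 66592086070) (nat_lit 2) (nat_lit 5) (nat_lit 4) (nat_lit 4) (nat_lit 2) (nat_lit 4) (nat_lit 406) (nat_lit 248) (nat_lit 246)) (XT.lf (nat_lit 0) (nat_lit 72323322959) (nat_lit 152) (nat_lit 43050030592) (nat_lit 0) (nat_lit 72108042905) (nat_lit 2) (nat_lit 5) (nat_lit 4) (nat_lit 4) (nat_lit 2) (nat_lit 4) (nat_lit 407) (nat_lit 248) (nat_lit 245)))) (XT.nd (nat_lit 78) (nat_lit 0) (nat_lit 0) (XT.lf (nat_lit 0) (nat_lit 78115982097) (nat_lit 152) (nat_lit 40790692554) (nat_lit 0) (nat_lit 77835665209)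 (nat_lit 2) (nat_lit 5) (nat_lit 4) (nat_lit 4) (nat_lit 2) (nat_lit 4) (nat_lit 408) (nat_lit 248) (nat_lit 244)) (XT.nd (nat_lit 78) (nat_lit 0) (nat_lit 0) (XT.lf (nat_lit 0) (nat_lit 84130846908) (nat_lit 152) (nat_lit 38550275151) (nat_lit 0) (nat_lit 83788590176) (nat_lit 2) (nat_lit 5) (nat_lit 4) (nat_lit 4) (nat_lit 2) (nat_lit 4) (nat_lit 409) (nat_lit 248) (nat_lit 243)) (XT.lf (nat_lit 0) (nat_lit 90382238497) (nat_lit 152) (nat_lit 36323444056) (nat_lit 0) (nat_lit 89980991439) (nat_lit 2) (nat_lit 5) (nat_lit 4) (nat_lit 4) (nat_lit 2) (nat_lit 4) (nat_lit 410) (nat_lit 248) (nat_lit 242))))))) (XT.nd (nat_lit 858) (nat_lit 76) (nat_lit 0) (XT.nd (nat_lit 390) (nat_lit 0) (nat_lit 0) (XT.nd (nat_lit 156) (nat_lit 0) (nat_lit 0) (XT.nd (nat_lit 78) (nat_lit 0) (nat_lit 0) (XT.lf (nat_lit 0) (nat_lit 96885041131) (nat_lit 152) (nat_lit 34104897291) (nat_lit 0) (nat_lit 96427612810)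 (nat_lit 2) (nat_lit 5) (nat_lit 4) (nat_lit 4) (nat_lit 2) (nat_lit 4) (nat_lit 411) (nat_lit 248) (nat_lit 241)) (XT.lf (nat_lit 0) (nat_lit 103654737673) (nat_lit 152) (nat_lit 31889352601) (nat_lit 0) (nat_lit 103143803386) (nat_lit 2) (nat_lit 5) (nat_lit 4) (nat_lit 4) (nat_lit 2) (nat_lit 4) (nat_lit 412) (nat_lit 248) (nat_lit 240))) (XT.nd (nat_lit 78) (nat_lit 0) (nat_lit 0) (XT.lf (nat_lit 0) (nat_lit 110707446448) (nat_lit 152) (nat_lit 29671534879) (nat_lit 0) (nat_lit 110145554099) (nat_lit 2) (nat_lit 5) (nat_lit 4) (nat_lit 4) (nat_lit 2) (nat_lit 4) (nat_lit 413) (nat_lit 248) (nat_lit 239)) (XT.nd (nat_lit 78) (nat_lit 0) (nat_lit 0) (XT.lf (nat_lit 0) (nat_lit 118059959619) (nat_lit 152) (nat_lit 27446163608) (nat_lit 0) (nat_lit 117449535782) (nat_lit 2) (nat_lit 5) (nat_lit 4) (nat_lit 4) (nat_lit 2) (nat_lit 4) (nat_lit 414) (nat_lit 248) (nat_lit 238)) (XT.lf (nat_lit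 0) (nat_lit 125729783171) (nat_lit 152) (nat_lit 25207940284) (nat_lit 0) (nat_lit 125073138870) (nat_lit 2) (nat_lit 5) (nat_lit 4) (nat_lit 4) (nat_lit 2) (nat_lit 4) (nat_lit 415) (nat_lit 248) (nat_lit 237))))) (XT.nd (nat_lit 234) (nat_lit 0) (nat_lit 0) (XT.nd (nat_lit 78) (nat_lit 0) (nat_lit 0) (XT.lf (nat_lit 0) (nat_lit 133735178588) (nat_lit 152) (nat_lit 22951535804) (nat_lit 0) (nat_lit 133034514797) (nat_lit 2) (nat_lit 5) (nat_lit 4) (nat_lit 4) (nat_lit 2) (nat_lit 4) (nat_lit 416) (nat_lit 248) (nat_lit 236)) (XT.nd (nat_lit 78) (nat_lit 0) (nat_lit 0) (XT.lf (nat_lit 0) (nat_lit 142095206335) (nat_lit 152) (nat_lit 20671577777) (nat_lit 0) (nat_lit 141352619220) (nat_lit 2) (nat_lit 5) (nat_lit 4) (nat_lit 4) (nat_lit 2) (nat_lit 4) (nat_lit 417) (nat_lit 248) (nat_lit 235)) (XT.lf (nat_lit 0) (nat_lit 150829771240) (nat_lit 152) (nat_lit 18362637730) (nat_lit 0) (nat_lit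 150047257151) (nat_lit 2) (nat_lit 5) (nat_lit 4) (nat_lit 4) (nat_lit 2) (nat_lit 4) (nat_lit 418) (nat_lit 248) (nat_lit 234)))) (XT.nd (nat_lit 78) (nat_lit 0) (nat_lit 0) (XT.lf (nat_lit 0) (nat_lit 159959669887) (nat_lit 152) (nat_lit 16019218189) (nat_lit 0) (nat_lit 159139130107) (nat_lit 2) (nat_lit 5) (nat_lit 4) (nat_lit 4) (nat_lit 2) (nat_lit 4) (nat_lit 419) (nat_lit 248) (nat_lit 233)) (XT.nd (nat_lit 78) (nat_lit 0) (nat_lit 0) (XT.lf (nat_lit 0) (nat_lit 169506640130) (nat_lit 152) (nat_lit 13635739581) (nat_lit 0) (nat_lit 168649885406) (nat_lit 2) (nat_lit 5) (nat_lit 4) (nat_lit 4) (nat_lit 2) (nat_lit 4) (nat_lit 420) (nat_lit 248) (nat_lit 232)) (XT.lf (nat_lit 0) (nat_lit 179493412849) (nat_lit 152) (nat_lit 11206526960) (nat_lit 0) (nat_lit 178602167703) (nat_lit 2) (nat_lit 5) (nat_lit 4) (nat_lit 4) (nat_lit 2) (nat_lit 4) (nat_lit 421) (nat_lit 248) (nat_lit 231))))))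 (XT.nd (nat_lit 468) (nat_lit 0) (nat_lit 0) (XT.nd (nat_lit 234) (nat_lit 76) (nat_lit 0) (XT.nd (nat_lit 78) (nat_lit 0) (nat_lit 0) (XT.lf (nat_lit 0) (nat_lit 189943766075) (nat_lit 152) (nat_lit 8725796483) (nat_lit 0) (nat_lit 189019672908) (nat_lit 2) (nat_lit 5) (nat_lit 4) (nat_lit 4) (nat_lit 2) (nat_lit 4) (nat_lit 422) (nat_lit 248) (nat_lit 230)) (XT.nd (nat_lit 78) (nat_lit 0) (nat_lit 0) (XT.lf (nat_lit 0) (nat_lit 200882581602) (nat_lit 152) (nat_lit 6187641652) (nat_lit 0) (nat_lit 199927204606) (nat_lit 2) (nat_lit 5) (nat_lit 4) (nat_lit 4) (nat_lit 2) (nat_lit 4) (nat_lit 423) (nat_lit 248) (nat_lit 229)) (XT.lf (nat_lit 0) (nat_lit 212335904229) (nat_lit 152) (nat_lit 3586019239) (nat_lit 0) (nat_lit 211350733109) (nat_lit 2) (nat_lit 5) (nat_lit 4) (nat_lit 4) (nat_lit 2) (nat_lit 4) (nat_lit 424) (nat_lit 248) (nat_lit 228)))) (XT.nd (nat_lit 78) (nat_lit 76) (nat_lit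 0) (XT.lf (nat_lit 0) (nat_lit 224331003771) (nat_lit 152) (nat_lit 914734906) (nat_lit 0) (nat_lit 223317457295) (nat_lit 2) (nat_lit 5) (nat_lit 4) (nat_lit 4) (nat_lit 2) (nat_lit 4) (nat_lit 425) (nat_lit 248) (nat_lit 227)) (XT.nd (nat_lit 78) (nat_lit 0) (nat_lit 0) (XT.lf (nat_lit 0) (nat_lit 1893164639) (nat_lit 76) (nat_lit 235032832955) (nat_lit 76) (nat_lit 233992262330) (nat_lit 1) (nat_lit 4) (nat_lit 2) (nat_lit 5) (nat_lit 2) (nat_lit 4) (nat_lit 426) (nat_lit 248) (nat_lit 226)) (XT.lf (nat_lit 0) (nat_lit 4816602695) (nat_lit 76) (nat_lit 245320728559) (nat_lit 76) (nat_lit 244254420650) (nat_lit 1) (nat_lit 4) (nat_lit 2) (nat_lit 5) (nat_lit 2) (nat_lit 4) (nat_lit 427) (nat_lit 248) (nat_lit 225))))) (XT.nd (nat_lit 234) (nat_lit 0) (nat_lit 0) (XT.nd (nat_lit 78) (nat_lit 0) (nat_lit 0) (XT.lf (nat_lit 0) (nat_lit 7832294561) (nat_lit 76) (nat_lit 256149411957) (nat_lit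 76) (nat_lit 255058592349) (nat_lit 1) (nat_lit 4) (nat_lit 2) (nat_lit 5) (nat_lit 2) (nat_lit 4) (nat_lit 428) (nat_lit 248) (nat_lit 224)) (XT.nd (nat_lit 78) (nat_lit 0) (nat_lit 0) (XT.lf (nat_lit 0) (nat_lit 10947420456) (nat_lit 76) (nat_lit 267544665728) (nat_lit 76) (nat_lit 266430501645) (nat_lit 1) (nat_lit 4) (nat_lit 2) (nat_lit 5) (nat_lit 2) (nat_lit 4) (nat_lit 429) (nat_lit 248) (nat_lit 223)) (XT.lf (nat_lit 0) (nat_lit 14169397346) (nat_lit 76) (nat_lit 279533621430) (nat_lit 76) (nat_lit 278397224514) (nat_lit 1) (nat_lit 4) (nat_lit 2) (nat_lit 5) (nat_lit 2) (nat_lit 4) (nat_lit 430) (nat_lit 248) (nat_lit 222)))) (XT.nd (nat_lit 78) (nat_lit 0) (nat_lit 0) (XT.lf (nat_lit 0) (nat_lit 17505896606) (nat_lit 76) (nat_lit 292144824195) (nat_lit 76) (nat_lit 290987253151) (nat_lit 1) (nat_lit 4) (nat_lit 2) (nat_lit 5) (nat_lit 2) (nat_lit 4) (nat_lit 431) (nat_lit 248)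 (nat_lit 221)) (XT.nd (nat_lit 78) (nat_lit 0) (nat_lit 0) (XT.lf (nat_lit 0) (nat_lit 20964862280) (nat_lit 76) (nat_lit 305408300695) (nat_lit 76) (nat_lit 304230563816) (nat_lit 1) (nat_lit 4) (nat_lit 2) (nat_lit 5) (nat_lit 2) (nat_lit 4) (nat_lit 432) (nat_lit 248) (nat_lit 220)) (XT.lf (nat_lit 0) (nat_lit 24554530001) (nat_lit 76) (nat_lit 319355630638) (nat_lit 76) (nat_lit 318158688201) (nat_lit 1) (nat_lit 4) (nat_lit 2) (nat_lit 5) (nat_lit 2) (nat_lit 4) (nat_lit 433) (nat_lit 248) (nat_lit 219))))))))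
noncomputable def xc6 : XT := (XT.nd (nat_lit 45942) (nat_lit 0) (nat_lit 0) (XT.nd (nat_lit 45084) (nat_lit 0) (nat_lit 76) (XT.nd (nat_lit 44616) (nat_lit 0) (nat_lit 76) (XT.nd (nat_lit 44382) (nat_lit 0) (nat_lit 76) (XT.nd (nat_lit 78) (nat_lit 0) (nat_lit 0) (XT.lf (nat_lit 0) (nat_lit 28283446597) (nat_lit 76) (nat_lit 334020021951) (nat_lit 76) (nat_lit 332804788507) (nat_lit 1) (nat_lit 4) (nat_lit 2) (nat_lit 5) (nat_lit 2) (nat_lit 4) (nat_lit 434) (nat_lit 248) (nat_lit 218)) (XT.lf (nat_lit 0) (nat_lit 32160490442) (nat_lit 76) (nat_lit 349436389852) (nat_lit 76) (nat_lit 348203736401) (nat_lit 1) (nat_lit 4) (nat_lit 2) (nat_lit 5) (nat_lit 2) (nat_lit 4) (nat_lit 435) (nat_lit 248) (nat_lit 217))) (XT.nd (nat_lit 78) (nat_lit 0) (nat_lit 0) (XT.lf (nat_lit 0) (nat_lit 23174066373) (nat_lit 152) (nat_lit 27369498245) (nat_lit 0) (nat_lit 23174066373) (nat_lit 2) (nat_lit 5)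 (nat_lit 4) (nat_lit 4) (nat_lit 2) (nat_lit 4) (nat_lit 402) (nat_lit 249) (nat_lit 249)) (XT.nd (nat_lit 78) (nat_lit 0) (nat_lit 0) (XT.lf (nat_lit 0) (nat_lit 51185209403) (nat_lit 152) (nat_lit 52385122322) (nat_lit 0) (nat_lit 51106156723) (nat_lit 2) (nat_lit 5) (nat_lit 4) (nat_lit 4) (nat_lit 2) (nat_lit 4) (nat_lit 403) (nat_lit 249) (nat_lit 248)) (XT.lf (nat_lit 0) (nat_lit 56182181605) (nat_lit 152) (nat_lit 50073864573) (nat_lit 0) (nat_lit 56027840659) (nat_lit 2) (nat_lit 5) (nat_lit 4) (nat_lit 4) (nat_lit 2) (nat_lit 4) (nat_lit 404) (nat_lit 249) (nat_lit 247))))) (XT.nd (nat_lit 234) (nat_lit 0) (nat_lit 0) (XT.nd (nat_lit 78) (nat_lit 0) (nat_lit 0) (XT.lf (nat_lit 0) (nat_lit 61350946907) (nat_lit 152) (nat_lit 47799720246) (nat_lit 0) (nat_lit 61124902851) (nat_lit 2) (nat_lit 5) (nat_lit 4) (nat_lit 4) (nat_lit 2) (nat_lit 4) (nat_lit 405) (nat_lit 249) (nat_lit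 246)) (XT.nd (nat_lit 78) (nat_lit 0) (nat_lit 0) (XT.lf (nat_lit 0) (nat_lit 66703811893) (nat_lit 152) (nat_lit 45557274712) (nat_lit 0) (nat_lit 66409479160) (nat_lit 2) (nat_lit 5) (nat_lit 4) (nat_lit 4) (nat_lit 2) (nat_lit 4) (nat_lit 406) (nat_lit 249) (nat_lit 245)) (XT.lf (nat_lit 0) (nat_lit 72253521478) (nat_lit 152) (nat_lit 43341188816) (nat_lit 0) (nat_lit 71894151910) (nat_lit 2) (nat_lit 5) (nat_lit 4) (nat_lit 4) (nat_lit 2) (nat_lit 4) (nat_lit 407) (nat_lit 249) (nat_lit 244)))) (XT.nd (nat_lit 78) (nat_lit 0) (nat_lit 0) (XT.lf (nat_lit 0) (nat_lit 78013289259) (nat_lit 152) (nat_lit 41146186162) (nat_lit 0) (nat_lit 77591979847) (nat_lit 2) (nat_lit 5) (nat_lit 4) (nat_lit 4) (nat_lit 2) (nat_lit 4) (nat_lit 408) (nat_lit 249) (nat_lit 243)) (XT.nd (nat_lit 78) (nat_lit 0) (nat_lit 0) (XT.lf (nat_lit 0) (nat_lit 83996828966) (nat_lit 152) (nat_lit 38967040553) (nat_lit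 0) (nat_lit 83516529228) (nat_lit 2) (nat_lit 5) (nat_lit 4) (nat_lit 4) (nat_lit 2) (nat_lit 4) (nat_lit 409) (nat_lit 249) (nat_lit 242)) (XT.lf (nat_lit 0) (nat_lit 90218387124) (nat_lit 152) (nat_lit 36798563548) (nat_lit 0) (nat_lit 89681906122) (nat_lit 2) (nat_lit 5) (nat_lit 4) (nat_lit 4) (nat_lit 2) (nat_lit 4) (nat_lit 410) (nat_lit 249) (nat_lit 241)))))) (XT.nd (nat_lit 390) (nat_lit 0) (nat_lit 0) (XT.nd (nat_lit 156) (nat_lit 0) (nat_lit 0) (XT.nd (nat_lit 78) (nat_lit 0) (nat_lit 0) (XT.lf (nat_lit 0) (nat_lit 96692776965) (nat_lit 152) (nat_lit 34635592107) (nat_lit 0) (nat_lit 96102789999) (nat_lit 2) (nat_lit 5) (nat_lit 4) (nat_lit 4) (nat_lit 2) (nat_lit 4) (nat_lit 411) (nat_lit 249) (nat_lit 240)) (XT.lf (nat_lit 0) (nat_lit 103435413705) (nat_lit 152) (nat_lit 32472976296) (nat_lit 0) (nat_lit 102794468677) (nat_lit 2) (nat_lit 5) (nat_lit 4) (nat_lit 4) (nat_lit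 2) (nat_lit 4) (nat_lit 412) (nat_lit 249) (nat_lit 239))) (XT.nd (nat_lit 78) (nat_lit 0) (nat_lit 0) (XT.lf (nat_lit 0) (nat_lit 110462351240) (nat_lit 152) (nat_lit 30305567031) (nat_lit 0) (nat_lit 109772874724) (nat_lit 2) (nat_lit 5) (nat_lit 4) (nat_lit 4) (nat_lit 2) (nat_lit 4) (nat_lit 413) (nat_lit 249) (nat_lit 238)) (XT.nd (nat_lit 78) (nat_lit 0) (nat_lit 0) (XT.lf (nat_lit 0) (nat_lit 117790320373) (nat_lit 152) (nat_lit 28128203814) (nat_lit 0) (nat_lit 117054623392) (nat_lit 2) (nat_lit 5) (nat_lit 4) (nat_lit 4) (nat_lit 2) (nat_lit 4) (nat_lit 414) (nat_lit 249) (nat_lit 237)) (XT.lf (nat_lit 0) (nat_lit 125436768650) (nat_lit 152) (nat_lit 25935702446) (nat_lit 0) (nat_lit 124657052180) (nat_lit 2) (nat_lit 5) (nat_lit 4) (nat_lit 4) (nat_lit 2) (nat_lit 4) (nat_lit 415) (nat_lit 249) (nat_lit 236))))) (XT.nd (nat_lit 234) (nat_lit 0) (nat_lit 0) (XT.nd (nat_lit 78)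 (nat_lit 0) (nat_lit 0) (XT.lf (nat_lit 0) (nat_lit 133419901901) (nat_lit 152) (nat_lit 23722842687) (nat_lit 0) (nat_lit 132598262107) (nat_lit 2) (nat_lit 5) (nat_lit 4) (nat_lit 4) (nat_lit 2) (nat_lit 4) (nat_lit 416) (nat_lit 249) (nat_lit 235)) (XT.nd (nat_lit 78) (nat_lit 0) (nat_lit 0) (XT.lf (nat_lit 0) (nat_lit 141758727585) (nat_lit 152) (nat_lit 21484355822) (nat_lit 0) (nat_lit 140897160816) (nat_lit 2) (nat_lit 5) (nat_lit 4) (nat_lit 4) (nat_lit 2) (nat_lit 4) (nat_lit 417) (nat_lit 249) (nat_lit 234)) (XT.lf (nat_lit 0) (nat_lit 150473100050) (nat_lit 152) (nat_lit 19214912120) (nat_lit 0) (nat_lit 149573507590) (nat_lit 2) (nat_lit 5) (nat_lit 4) (nat_lit 4) (nat_lit 2) (nat_lit 4) (nat_lit 418) (nat_lit 249) (nat_lit 233)))) (XT.nd (nat_lit 78) (nat_lit 0) (nat_lit 0) (XT.lf (nat_lit 0) (nat_lit 159583767801) (nat_lit 152) (nat_lit 16909108145) (nat_lit 0) (nat_lit 158647960398)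 (nat_lit 2) (nat_lit 5) (nat_lit 4) (nat_lit 4) (nat_lit 2) (nat_lit 4) (nat_lit 419) (nat_lit 249) (nat_lit 232)) (XT.nd (nat_lit 78) (nat_lit 0) (nat_lit 0) (XT.lf (nat_lit 0) (nat_lit 169112422904) (nat_lit 152) (nat_lit 14561453887) (nat_lit 0) (nat_lit 168142125079) (nat_lit 2) (nat_lit 5) (nat_lit 4) (nat_lit 4) (nat_lit 2) (nat_lit 4) (nat_lit 420) (nat_lit 249) (nat_lit 231)) (XT.lf (nat_lit 0) (nat_lit 179081752634) (nat_lit 152) (nat_lit 12166359693) (nat_lit 0) (nat_lit 178078606787) (nat_lit 2) (nat_lit 5) (nat_lit 4) (nat_lit 4) (nat_lit 2) (nat_lit 4) (nat_lit 421) (nat_lit 249) (nat_lit 230))))))) (XT.nd (nat_lit 858) (nat_lit 0) (nat_lit 0) (XT.nd (nat_lit 390) (nat_lit 0) (nat_lit 0) (XT.nd (nat_lit 156) (nat_lit 76) (nat_lit 0) (XT.nd (nat_lit 78) (nat_lit 0) (nat_lit 0) (XT.lf (nat_lit 0) (nat_lit 189515493489) (nat_lit 152) (nat_lit 9718122957) (nat_lit 0) (nat_lit 188481063813)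 (nat_lit 2) (nat_lit 5) (nat_lit 4) (nat_lit 4) (nat_lit 2) (nat_lit 4) (nat_lit 422) (nat_lit 249) (nat_lit 229)) (XT.lf (nat_lit 0) (nat_lit 200438487710) (nat_lit 152) (nat_lit 7210914545) (nat_lit 0) (nat_lit 199374263911) (nat_lit 2) (nat_lit 5) (nat_lit 4) (nat_lit 4) (nat_lit 2) (nat_lit 4) (nat_lit 423) (nat_lit 249) (nat_lit 228))) (XT.nd (nat_lit 78) (nat_lit 76) (nat_lit 0) (XT.lf (nat_lit 0) (nat_lit 211876742426) (nat_lit 152) (nat_lit 4638764913) (nat_lit 0) (nat_lit 210784143271) (nat_lit 2) (nat_lit 5) (nat_lit 4) (nat_lit 4) (nat_lit 2) (nat_lit 4) (nat_lit 424) (nat_lit 249) (nat_lit 227)) (XT.nd (nat_lit 78) (nat_lit 76) (nat_lit 0) (XT.lf (nat_lit 0) (nat_lit 223857491577) (nat_lit 152) (nat_lit 1995549895) (nat_lit 0) (nat_lit 222737868274) (nat_lit 2) (nat_lit 5) (nat_lit 4) (nat_lit 4) (nat_lit 2) (nat_lit 4) (nat_lit 425) (nat_lit 249) (nat_lit 226)) (XT.lf (nat_lit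 0) (nat_lit 748996441) (nat_lit 76) (nat_lit 235671958248) (nat_lit 76) (nat_lit 234526597661) (nat_lit 1) (nat_lit 4) (nat_lit 2) (nat_lit 5) (nat_lit 2) (nat_lit 4) (nat_lit 426) (nat_lit 249) (nat_lit 225))))) (XT.nd (nat_lit 234) (nat_lit 0) (nat_lit 0) (XT.nd (nat_lit 78) (nat_lit 0) (nat_lit 0) (XT.lf (nat_lit 0) (nat_lit 3646132988) (nat_lit 76) (nat_lit 245972728493) (nat_lit 76) (nat_lit 244802856206) (nat_lit 1) (nat_lit 4) (nat_lit 2) (nat_lit 5) (nat_lit 2) (nat_lit 4) (nat_lit 427) (nat_lit 249) (nat_lit 224)) (XT.nd (nat_lit 78) (nat_lit 0) (nat_lit 0) (XT.lf (nat_lit 0) (nat_lit 6636775799) (nat_lit 76) (nat_lit 256813673454) (nat_lit 76) (nat_lit 255620456692) (nat_lit 1) (nat_lit 4) (nat_lit 2) (nat_lit 5) (nat_lit 2) (nat_lit 4) (nat_lit 428) (nat_lit 249) (nat_lit 223)) (XT.lf (nat_lit 0) (nat_lit 9728045450) (nat_lit 76) (nat_lit 268220604904) (nat_lit 76) (nat_lit 267005155308)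 (nat_lit 1) (nat_lit 4) (nat_lit 2) (nat_lit 5) (nat_lit 2) (nat_lit 4) (nat_lit 429) (nat_lit 249) (nat_lit 222)))) (XT.nd (nat_lit 78) (nat_lit 0) (nat_lit 0) (XT.lf (nat_lit 0) (nat_lit 12927302109) (nat_lit 76) (nat_lit 280220682205) (nat_lit 76) (nat_lit 278984058482) (nat_lit 1) (nat_lit 4) (nat_lit 2) (nat_lit 5) (nat_lit 2) (nat_lit 4) (nat_lit 430) (nat_lit 249) (nat_lit 221)) (XT.nd (nat_lit 78) (nat_lit 0) (nat_lit 0) (XT.lf (nat_lit 0) (nat_lit 16242163052) (nat_lit 76) (nat_lit 292842476969) (nat_lit 76) (nat_lit 291585687410) (nat_lit 1) (nat_lit 4) (nat_lit 2) (nat_lit 5) (nat_lit 2) (nat_lit 4) (nat_lit 431) (nat_lit 249) (nat_lit 220)) (XT.lf (nat_lit 0) (nat_lit 19680520805) (nat_lit 76) (nat_lit 306116041087) (nat_lit 76) (nat_lit 304840045971) (nat_lit 1) (nat_lit 4) (nat_lit 2) (nat_lit 5) (nat_lit 2) (nat_lit 4) (nat_lit 432) (nat_lit 249) (nat_lit 219)))))) (XT.nd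 (nat_lit 44538) (nat_lit 0) (nat_lit 76) (XT.nd (nat_lit 44304) (nat_lit 0) (nat_lit 76) (XT.nd (nat_lit 78) (nat_lit 0) (nat_lit 0) (XT.lf (nat_lit 0) (nat_lit 23250561936) (nat_lit 76) (nat_lit 320072978285) (nat_lit 76) (nat_lit 318778692161) (nat_lit 1) (nat_lit 4) (nat_lit 2) (nat_lit 5) (nat_lit 2) (nat_lit 4) (nat_lit 433) (nat_lit 249) (nat_lit 218)) (XT.nd (nat_lit 78) (nat_lit 0) (nat_lit 0) (XT.lf (nat_lit 0) (nat_lit 26960786541) (nat_lit 76) (nat_lit 334746519365) (nat_lit 76) (nat_lit 333434813235) (nat_lit 1) (nat_lit 4) (nat_lit 2) (nat_lit 5) (nat_lit 2) (nat_lit 4) (nat_lit 434) (nat_lit 249) (nat_lit 217)) (XT.lf (nat_lit 0) (nat_lit 30820028489) (nat_lit 76) (nat_lit 350171601330) (nat_lit 76) (nat_lit 348843304716) (nat_lit 1) (nat_lit 4) (nat_lit 2) (nat_lit 5) (nat_lit 2) (nat_lit 4) (nat_lit 435) (nat_lit 249) (nat_lit 216)))) (XT.nd (nat_lit 78) (nat_lit 0) (nat_lit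 0) (XT.lf (nat_lit 0) (nat_lit 18617517420) (nat_lit 152) (nat_lit 29755455584) (nat_lit 0) (nat_lit 18617517420) (nat_lit 2) (nat_lit 5) (nat_lit 4) (nat_lit 4) (nat_lit 2) (nat_lit 4) (nat_lit 400) (nat_lit 250) (nat_lit 250)) (XT.nd (nat_lit 78) (nat_lit 0) (nat_lit 0) (XT.lf (nat_lit 0) (nat_lit 41742440102) (nat_lit 152) (nat_lit 57141091536) (nat_lit 0) (nat_lit 41659434788) (nat_lit 2) (nat_lit 5) (nat_lit 4) (nat_lit 4) (nat_lit 2) (nat_lit 4) (nat_lit 401) (nat_lit 250) (nat_lit 249)) (XT.lf (nat_lit 0) (nat_lit 46389159426) (nat_lit 152) (nat_lit 54821106554) (nat_lit 0) (nat_lit 46227101433) (nat_lit 2) (nat_lit 5) (nat_lit 4) (nat_lit 4) (nat_lit 2) (nat_lit 4) (nat_lit 402) (nat_lit 250) (nat_lit 248))))) (XT.nd (nat_lit 234) (nat_lit 0) (nat_lit 0) (XT.nd (nat_lit 78) (nat_lit 0) (nat_lit 0) (XT.lf (nat_lit 0) (nat_lit 51186256430) (nat_lit 152) (nat_lit 52545432448) (nat_lit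 0) (nat_lit 50948910171) (nat_lit 2) (nat_lit 5) (nat_lit 4) (nat_lit 4) (nat_lit 2) (nat_lit 4) (nat_lit 403) (nat_lit 250) (nat_lit 247)) (XT.nd (nat_lit 78) (nat_lit 0) (nat_lit 0) (XT.lf (nat_lit 0) (nat_lit 56145152774) (nat_lit 152) (nat_lit 50308650947) (nat_lit 0) (nat_lit 55836103404) (nat_lit 2) (nat_lit 5) (nat_lit 4) (nat_lit 4) (nat_lit 2) (nat_lit 4) (nat_lit 404) (nat_lit 250) (nat_lit 246)) (XT.lf (nat_lit 0) (nat_lit 61277655353) (nat_lit 152) (nat_lit 48105436381) (nat_lit 0) (nat_lit 60900317306) (nat_lit 2) (nat_lit 5) (nat_lit 4) (nat_lit 4) (nat_lit 2) (nat_lit 4) (nat_lit 405) (nat_lit 250) (nat_lit 245)))) (XT.nd (nat_lit 78) (nat_lit 0) (nat_lit 0) (XT.lf (nat_lit 0) (nat_lit 66595984412) (nat_lit 152) (nat_lit 45930543001) (nat_lit 0) (nat_lit 66153609530) (nat_lit 2) (nat_lit 5) (nat_lit 4) (nat_lit 4) (nat_lit 2) (nat_lit 4) (nat_lit 406) (nat_lit 250) (nat_lit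 244)) (XT.nd (nat_lit 78) (nat_lit 0) (nat_lit 0) (XT.lf (nat_lit 0) (nat_lit 72112802639) (nat_lit 152) (nat_lit 43778792488) (nat_lit 0) (nat_lit 71608487915) (nat_lit 2) (nat_lit 5) (nat_lit 4) (nat_lit 4) (nat_lit 2) (nat_lit 4) (nat_lit 407) (nat_lit 250) (nat_lit 243)) (XT.lf (nat_lit 0) (nat_lit 77841245316) (nat_lit 152) (nat_lit 41645061629) (nat_lit 0) (nat_lit 77277940265) (nat_lit 2) (nat_lit 5) (nat_lit 4) (nat_lit 4) (nat_lit 2) (nat_lit 4) (nat_lit 408) (nat_lit 250) (nat_lit 242))))))))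
noncomputable def xc7 : XT := (XT.nd (nat_lit 1716) (nat_lit 0) (nat_lit 0) (XT.nd (nat_lit 858) (nat_lit 76) (nat_lit 0) (XT.nd (nat_lit 390) (nat_lit 0) (nat_lit 0) (XT.nd (nat_lit 156) (nat_lit 0) (nat_lit 0) (XT.nd (nat_lit 78) (nat_lit 0) (nat_lit 0) (XT.lf (nat_lit 0) (nat_lit 83794951592) (nat_lit 152) (nat_lit 39524270110) (nat_lit 0) (nat_lit 83175465277) (nat_lit 2) (nat_lit 5) (nat_lit 4) (nat_lit 4) (nat_lit 2) (nat_lit 4) (nat_lit 409) (nat_lit 250) (nat_lit 241)) (XT.lf (nat_lit 0) (nat_lit 89988096957) (nat_lit 152) (nat_lit 37411368429) (nat_lit 0) (nat_lit 89315104677) (nat_lit 2) (nat_lit 5) (nat_lit 4) (nat_lit 4) (nat_lit 2) (nat_lit 4) (nat_lit 410) (nat_lit 250) (nat_lit 240))) (XT.nd (nat_lit 78) (nat_lit 0) (nat_lit 0) (XT.lf (nat_lit 0) (nat_lit 96435426997) (nat_lit 152) (nat_lit 35301325866) (nat_lit 0) (nat_lit 95711476655) (nat_lit 2) (nat_lit 5) (nat_lit 4)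 (nat_lit 4) (nat_lit 2) (nat_lit 4) (nat_lit 411) (nat_lit 250) (nat_lit 239)) (XT.nd (nat_lit 78) (nat_lit 0) (nat_lit 0) (XT.lf (nat_lit 0) (nat_lit 103152292497) (nat_lit 152) (nat_lit 33189118513) (nat_lit 0) (nat_lit 102379810667) (nat_lit 2) (nat_lit 5) (nat_lit 4) (nat_lit 4) (nat_lit 2) (nat_lit 4) (nat_lit 412) (nat_lit 250) (nat_lit 238)) (XT.lf (nat_lit 0) (nat_lit 110154685993) (nat_lit 152) (nat_lit 31069717302) (nat_lit 0) (nat_lit 109335983699) (nat_lit 2) (nat_lit 5) (nat_lit 4) (nat_lit 4) (nat_lit 2) (nat_lit 4) (nat_lit 413) (nat_lit 250) (nat_lit 237))))) (XT.nd (nat_lit 234) (nat_lit 0) (nat_lit 0) (XT.nd (nat_lit 78) (nat_lit 0) (nat_lit 0) (XT.lf (nat_lit 0) (nat_lit 117459279852) (nat_lit 152) (nat_lit 28938076041) (nat_lit 0) (nat_lit 116596558068) (nat_lit 2) (nat_lit 5) (nat_lit 4) (nat_lit 4) (nat_lit 2) (nat_lit 4) (nat_lit 414) (nat_lit 250) (nat_lit 236))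 (XT.nd (nat_lit 78) (nat_lit 0) (nat_lit 0) (XT.lf (nat_lit 0) (nat_lit 125083465963) (nat_lit 152) (nat_lit 26789119393) (nat_lit 0) (nat_lit 124178820856) (nat_lit 2) (nat_lit 5) (nat_lit 4) (nat_lit 4) (nat_lit 2) (nat_lit 4) (nat_lit 415) (nat_lit 250) (nat_lit 235)) (XT.lf (nat_lit 0) (nat_lit 133045397151) (nat_lit 152) (nat_lit 24617730796) (nat_lit 0) (nat_lit 132100825068) (nat_lit 2) (nat_lit 5) (nat_lit 4) (nat_lit 4) (nat_lit 2) (nat_lit 4) (nat_lit 416) (nat_lit 250) (nat_lit 234)))) (XT.nd (nat_lit 78) (nat_lit 0) (nat_lit 0) (XT.lf (nat_lit 0) (nat_lit 141364030395) (nat_lit 152) (nat_lit 22418740276) (nat_lit 0) (nat_lit 140381432621) (nat_lit 2) (nat_lit 5) (nat_lit 4) (nat_lit 4) (nat_lit 2) (nat_lit 4) (nat_lit 417) (nat_lit 250) (nat_lit 233)) (XT.nd (nat_lit 78) (nat_lit 0) (nat_lit 0) (XT.lf (nat_lit 0) (nat_lit 150059171963) (nat_lit 152) (nat_lit 20186912141) (nat_lit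 0) (nat_lit 149040359246) (nat_lit 2) (nat_lit 5) (nat_lit 4) (nat_lit 4) (nat_lit 2) (nat_lit 4) (nat_lit 418) (nat_lit 250) (nat_lit 232)) (XT.lf (nat_lit 0) (nat_lit 159151524575) (nat_lit 152) (nat_lit 17916932515) (nat_lit 0) (nat_lit 158098221436) (nat_lit 2) (nat_lit 5) (nat_lit 4) (nat_lit 4) (nat_lit 2) (nat_lit 4) (nat_lit 419) (nat_lit 250) (nat_lit 231)))))) (XT.nd (nat_lit 390) (nat_lit 76) (nat_lit 0) (XT.nd (nat_lit 156) (nat_lit 0) (nat_lit 0) (XT.nd (nat_lit 78) (nat_lit 0) (nat_lit 0) (XT.lf (nat_lit 0) (nat_lit 168662736688) (nat_lit 152) (nat_lit 15603396684) (nat_lit 0) (nat_lit 167576585528) (nat_lit 2) (nat_lit 5) (nat_lit 4) (nat_lit 4) (nat_lit 2) (nat_lit 4) (nat_lit 420) (nat_lit 250) (nat_lit 230)) (XT.lf (nat_lit 0) (nat_lit 178615454047) (nat_lit 152) (nat_lit 13240796231) (nat_lit 0) (nat_lit 177498019057) (nat_lit 2) (nat_lit 5) (nat_lit 4) (nat_lit 4) (nat_lit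 2) (nat_lit 4) (nat_lit 421) (nat_lit 250) (nat_lit 229))) (XT.nd (nat_lit 78) (nat_lit 0) (nat_lit 0) (XT.lf (nat_lit 0) (nat_lit 189033373597) (nat_lit 152) (nat_lit 10823505915) (nat_lit 0) (nat_lit 187886144483) (nat_lit 2) (nat_lit 5) (nat_lit 4) (nat_lit 4) (nat_lit 2) (nat_lit 4) (nat_lit 422) (nat_lit 250) (nat_lit 228)) (XT.nd (nat_lit 78) (nat_lit 0) (nat_lit 0) (XT.lf (nat_lit 0) (nat_lit 199941299907) (nat_lit 152) (nat_lit 8345770284) (nat_lit 0) (nat_lit 198765695439) (nat_lit 2) (nat_lit 5) (nat_lit 4) (nat_lit 4) (nat_lit 2) (nat_lit 4) (nat_lit 423) (nat_lit 250) (nat_lit 227)) (XT.lf (nat_lit 0) (nat_lit 211365204233) (nat_lit 152) (nat_lit 5801689967) (nat_lit 0) (nat_lit 210162575616) (nat_lit 2) (nat_lit 5) (nat_lit 4) (nat_lit 4) (nat_lit 2) (nat_lit 4) (nat_lit 424) (nat_lit 250) (nat_lit 226))))) (XT.nd (nat_lit 234) (nat_lit 0) (nat_lit 0) (XT.nd (nat_lit 78) (nat_lit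 76) (nat_lit 0) (XT.lf (nat_lit 0) (nat_lit 223332286345) (nat_lit 152) (nat_lit 3185207629) (nat_lit 0) (nat_lit 222103920444) (nat_lit 2) (nat_lit 5) (nat_lit 4) (nat_lit 4) (nat_lit 2) (nat_lit 4) (nat_lit 425) (nat_lit 250) (nat_lit 225)) (XT.nd (nat_lit 78) (nat_lit 76) (nat_lit 0) (XT.lf (nat_lit 0) (nat_lit 235871039296) (nat_lit 152) (nat_lit 490093552) (nat_lit 0) (nat_lit 234618161696) (nat_lit 2) (nat_lit 5) (nat_lit 4) (nat_lit 4) (nat_lit 2) (nat_lit 4) (nat_lit 426) (nat_lit 250) (nat_lit 224)) (XT.lf (nat_lit 0) (nat_lit 2365789232) (nat_lit 76) (nat_lit 246682464628) (nat_lit 76) (nat_lit 245406242552) (nat_lit 1) (nat_lit 4) (nat_lit 2) (nat_lit 5) (nat_lit 2) (nat_lit 4) (nat_lit 427) (nat_lit 250) (nat_lit 223)))) (XT.nd (nat_lit 78) (nat_lit 0) (nat_lit 0) (XT.lf (nat_lit 0) (nat_lit 5332575799) (nat_lit 76) (nat_lit 257535087268) (nat_lit 76) (nat_lit 256236632358)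 (nat_lit 1) (nat_lit 4) (nat_lit 2) (nat_lit 5) (nat_lit 2) (nat_lit 4) (nat_lit 428) (nat_lit 250) (nat_lit 222)) (XT.nd (nat_lit 78) (nat_lit 0) (nat_lit 0) (XT.lf (nat_lit 0) (nat_lit 8401125218) (nat_lit 76) (nat_lit 268953140317) (nat_lit 76) (nat_lit 267633511280) (nat_lit 1) (nat_lit 4) (nat_lit 2) (nat_lit 5) (nat_lit 2) (nat_lit 4) (nat_lit 429) (nat_lit 250) (nat_lit 221)) (XT.lf (nat_lit 0) (nat_lit 11578743561) (nat_lit 76) (nat_lit 280963809617) (nat_lit 76) (nat_lit 279624014745) (nat_lit 1) (nat_lit 4) (nat_lit 2) (nat_lit 5) (nat_lit 2) (nat_lit 4) (nat_lit 430) (nat_lit 250) (nat_lit 220))))))) (XT.nd (nat_lit 44772) (nat_lit 0) (nat_lit 76) (XT.nd (nat_lit 44304) (nat_lit 0) (nat_lit 76) (XT.nd (nat_lit 156) (nat_lit 0) (nat_lit 0) (XT.nd (nat_lit 78) (nat_lit 0) (nat_lit 0) (XT.lf (nat_lit 0) (nat_lit 14872996583) (nat_lit 76) (nat_lit 293595691998) (nat_lit 76) (nat_lit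 292236691568) (nat_lit 1) (nat_lit 4) (nat_lit 2) (nat_lit 5) (nat_lit 2) (nat_lit 4) (nat_lit 431) (nat_lit 250) (nat_lit 219)) (XT.lf (nat_lit 0) (nat_lit 18291727746) (nat_lit 76) (nat_lit 306878863372) (nat_lit 76) (nat_lit 305501571935) (nat_lit 1) (nat_lit 4) (nat_lit 2) (nat_lit 5) (nat_lit 2) (nat_lit 4) (nat_lit 432) (nat_lit 250) (nat_lit 218))) (XT.nd (nat_lit 78) (nat_lit 0) (nat_lit 0) (XT.lf (nat_lit 0) (nat_lit 21843076886) (nat_lit 76) (nat_lit 320844950337) (nat_lit 76) (nat_lit 319450238893) (nat_lit 1) (nat_lit 4) (nat_lit 2) (nat_lit 5) (nat_lit 2) (nat_lit 4) (nat_lit 433) (nat_lit 250) (nat_lit 217)) (XT.nd (nat_lit 78) (nat_lit 0) (nat_lit 0) (XT.lf (nat_lit 0) (nat_lit 25535499595) (nat_lit 76) (nat_lit 335527205481) (nat_lit 76) (nat_lit 334115903554) (nat_lit 1) (nat_lit 4) (nat_lit 2) (nat_lit 5) (nat_lit 2) (nat_lit 4) (nat_lit 434) (nat_lit 250) (nat_lit 216))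 (XT.lf (nat_lit 0) (nat_lit 29377787356) (nat_lit 76) (nat_lit 350960586554) (nat_lit 76) (nat_lit 349533484167) (nat_lit 1) (nat_lit 4) (nat_lit 2) (nat_lit 5) (nat_lit 2) (nat_lit 4) (nat_lit 435) (nat_lit 250) (nat_lit 215))))) (XT.nd (nat_lit 234) (nat_lit 0) (nat_lit 0) (XT.nd (nat_lit 78) (nat_lit 0) (nat_lit 0) (XT.lf (nat_lit 0) (nat_lit 14364491003) (nat_lit 152) (nat_lit 32166114919) (nat_lit 0) (nat_lit 14364491003) (nat_lit 2) (nat_lit 5) (nat_lit 4) (nat_lit 4) (nat_lit 2) (nat_lit 4) (nat_lit 398) (nat_lit 251) (nat_lit 251)) (XT.nd (nat_lit 78) (nat_lit 0) (nat_lit 0) (XT.lf (nat_lit 0) (nat_lit 32943367303) (nat_lit 152) (nat_lit 61936207880) (nat_lit 0) (nat_lit 32856211724) (nat_lit 2) (nat_lit 5) (nat_lit 4) (nat_lit 4) (nat_lit 2) (nat_lit 4) (nat_lit 399) (nat_lit 251) (nat_lit 250)) (XT.lf (nat_lit 0) (nat_lit 37278112853) (nat_lit 152) (nat_lit 59597126736) (nat_lit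 0) (nat_lit 37107951961) (nat_lit 2) (nat_lit 5) (nat_lit 4) (nat_lit 4) (nat_lit 2) (nat_lit 4) (nat_lit 400) (nat_lit 251) (nat_lit 249)))) (XT.nd (nat_lit 78) (nat_lit 0) (nat_lit 0) (XT.lf (nat_lit 0) (nat_lit 41743539480) (nat_lit 152) (nat_lit 57309417168) (nat_lit 0) (nat_lit 41494325908) (nat_lit 2) (nat_lit 5) (nat_lit 4) (nat_lit 4) (nat_lit 2) (nat_lit 4) (nat_lit 401) (nat_lit 251) (nat_lit 248)) (XT.nd (nat_lit 78) (nat_lit 0) (nat_lit 0) (XT.lf (nat_lit 0) (nat_lit 46350279153) (nat_lit 152) (nat_lit 55067632247) (nat_lit 0) (nat_lit 46025777314) (nat_lit 2) (nat_lit 5) (nat_lit 4) (nat_lit 4) (nat_lit 2) (nat_lit 4) (nat_lit 402) (nat_lit 251) (nat_lit 247)) (XT.lf (nat_lit 0) (nat_lit 51109300298) (nat_lit 152) (nat_lit 52866434390) (nat_lit 0) (nat_lit 50713095349) (nat_lit 2) (nat_lit 5) (nat_lit 4) (nat_lit 4) (nat_lit 2) (nat_lit 4) (nat_lit 403) (nat_lit 251) (nat_lit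 246)))))) (XT.nd (nat_lit 468) (nat_lit 0) (nat_lit 0) (XT.nd (nat_lit 234) (nat_lit 0) (nat_lit 0) (XT.nd (nat_lit 78) (nat_lit 0) (nat_lit 0) (XT.lf (nat_lit 0) (nat_lit 56031933919) (nat_lit 152) (nat_lit 50700582650) (nat_lit 0) (nat_lit 55567440293) (nat_lit 2) (nat_lit 5) (nat_lit 4) (nat_lit 4) (nat_lit 2) (nat_lit 4) (nat_lit 404) (nat_lit 251) (nat_lit 245)) (XT.nd (nat_lit 78) (nat_lit 0) (nat_lit 0) (XT.lf (nat_lit 0) (nat_lit 61129900572) (nat_lit 152) (nat_lit 48564920237) (nat_lit 0) (nat_lit 60600370111) (nat_lit 2) (nat_lit 5) (nat_lit 4) (nat_lit 4) (nat_lit 2) (nat_lit 4) (nat_lit 405) (nat_lit 251) (nat_lit 244)) (XT.lf (nat_lit 0) (nat_lit 66415338273) (nat_lit 152) (nat_lit 46454362241) (nat_lit 0) (nat_lit 65823867969) (nat_lit 2) (nat_lit 5) (nat_lit 4) (nat_lit 4) (nat_lit 2) (nat_lit 4) (nat_lit 406) (nat_lit 251) (nat_lit 243)))) (XT.nd (nat_lit 78) (nat_lit 0)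 (nat_lit 0) (XT.lf (nat_lit 0) (nat_lit 71900831396) (nat_lit 152) (nat_lit 44363883523) (nat_lit 0) (nat_lit 71250370766) (nat_lit 2) (nat_lit 5) (nat_lit 4) (nat_lit 4) (nat_lit 2) (nat_lit 4) (nat_lit 407) (nat_lit 251) (nat_lit 242)) (XT.nd (nat_lit 78) (nat_lit 0) (nat_lit 0) (XT.lf (nat_lit 0) (nat_lit 77599440642) (nat_lit 152) (nat_lit 42288506753) (nat_lit 0) (nat_lit 76892798748) (nat_lit 2) (nat_lit 5) (nat_lit 4) (nat_lit 4) (nat_lit 2) (nat_lit 4) (nat_lit 408) (nat_lit 251) (nat_lit 241)) (XT.lf (nat_lit 0) (nat_lit 83524734125) (nat_lit 152) (nat_lit 40223290558) (nat_lit 0) (nat_lit 82764586266) (nat_lit 2) (nat_lit 5) (nat_lit 4) (nat_lit 4) (nat_lit 2) (nat_lit 4) (nat_lit 409) (nat_lit 251) (nat_lit 240))))) (XT.nd (nat_lit 234) (nat_lit 0) (nat_lit 0) (XT.nd (nat_lit 78) (nat_lit 0) (nat_lit 0) (XT.lf (nat_lit 0) (nat_lit 89690819689) (nat_lit 152) (nat_lit 38163317756)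 (nat_lit 0) (nat_lit 88879713767) (nat_lit 2) (nat_lit 5) (nat_lit 4) (nat_lit 4) (nat_lit 2) (nat_lit 4) (nat_lit 410) (nat_lit 251) (nat_lit 239)) (XT.nd (nat_lit 78) (nat_lit 0) (nat_lit 0) (XT.lf (nat_lit 0) (nat_lit 96112378488) (nat_lit 152) (nat_lit 36103683651) (nat_lit 0) (nat_lit 95252741080) (nat_lit 2) (nat_lit 5) (nat_lit 4) (nat_lit 4) (nat_lit 2) (nat_lit 4) (nat_lit 411) (nat_lit 251) (nat_lit 238)) (XT.lf (nat_lit 0) (nat_lit 102804699950) (nat_lit 152) (nat_lit 34039484351) (nat_lit 0) (nat_lit 101898842077) (nat_lit 2) (nat_lit 5) (nat_lit 4) (nat_lit 4) (nat_lit 2) (nat_lit 4) (nat_lit 412) (nat_lit 251) (nat_lit 237)))) (XT.nd (nat_lit 78) (nat_lit 0) (nat_lit 0) (XT.lf (nat_lit 0) (nat_lit 109783718172) (nat_lit 152) (nat_lit 31965805096) (nat_lit 0) (nat_lit 108833840809) (nat_lit 2) (nat_lit 5) (nat_lit 4) (nat_lit 4) (nat_lit 2) (nat_lit 4) (nat_lit 413) (nat_lit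 251) (nat_lit 236)) (XT.nd (nat_lit 78) (nat_lit 0) (nat_lit 0) (XT.lf (nat_lit 0) (nat_lit 117066049865) (nat_lit 152) (nat_lit 29877708556) (nat_lit 0) (nat_lit 116074249178) (nat_lit 2) (nat_lit 5) (nat_lit 4) (nat_lit 4) (nat_lit 2) (nat_lit 4) (nat_lit 414) (nat_lit 251) (nat_lit 235)) (XT.lf (nat_lit 0) (nat_lit 124669033913) (nat_lit 152) (nat_lit 27770223070) (nat_lit 0) (nat_lit 123637306251) (nat_lit 2) (nat_lit 5) (nat_lit 4) (nat_lit 4) (nat_lit 2) (nat_lit 4) (nat_lit 415) (nat_lit 251) (nat_lit 234))))))))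
noncomputable def xc8 : XT := (XT.nd (nat_lit 45474) (nat_lit 0) (nat_lit 76) (XT.nd (nat_lit 858) (nat_lit 76) (nat_lit 0) (XT.nd (nat_lit 390) (nat_lit 0) (nat_lit 0) (XT.nd (nat_lit 156) (nat_lit 0) (nat_lit 0) (XT.nd (nat_lit 78) (nat_lit 0) (nat_lit 0) (XT.lf (nat_lit 0) (nat_lit 132610772660) (nat_lit 152) (nat_lit 25638330818) (nat_lit 0) (nat_lit 131541019308) (nat_lit 2) (nat_lit 5) (nat_lit 4) (nat_lit 4) (nat_lit 2) (nat_lit 4) (nat_lit 416) (nat_lit 251) (nat_lit 233)) (XT.lf (nat_lit 0) (nat_lit 140910175007) (nat_lit 152) (nat_lit 23476955864) (nat_lit 0) (nat_lit 139804206711) (nat_lit 2) (nat_lit 5) (nat_lit 4) (nat_lit 4) (nat_lit 2) (nat_lit 4) (nat_lit 417) (nat_lit 251) (nat_lit 232))) (XT.nd (nat_lit 78) (nat_lit 0) (nat_lit 0) (XT.lf (nat_lit 0) (nat_lit 149587001437) (nat_lit 152) (nat_lit 21280952078) (nat_lit 0) (nat_lit 148446542719) (nat_lit 2) (nat_lit 5) (nat_lit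 4) (nat_lit 4) (nat_lit 2) (nat_lit 4) (nat_lit 418) (nat_lit 251) (nat_lit 231)) (XT.nd (nat_lit 78) (nat_lit 0) (nat_lit 0) (XT.lf (nat_lit 0) (nat_lit 158661911059) (nat_lit 152) (nat_lit 19045090880) (nat_lit 0) (nat_lit 157488604320) (nat_lit 2) (nat_lit 5) (nat_lit 4) (nat_lit 4) (nat_lit 2) (nat_lit 4) (nat_lit 419) (nat_lit 251) (nat_lit 230)) (XT.lf (nat_lit 0) (nat_lit 168156510801) (nat_lit 152) (nat_lit 16764048790) (nat_lit 0) (nat_lit 166951920232) (nat_lit 2) (nat_lit 5) (nat_lit 4) (nat_lit 4) (nat_lit 2) (nat_lit 4) (nat_lit 420) (nat_lit 251) (nat_lit 229))))) (XT.nd (nat_lit 234) (nat_lit 0) (nat_lit 0) (XT.nd (nat_lit 78) (nat_lit 0) (nat_lit 0) (XT.lf (nat_lit 0) (nat_lit 178093406854) (nat_lit 152) (nat_lit 14432394756) (nat_lit 0) (nat_lit 176859022162) (nat_lit 2) (nat_lit 5) (nat_lit 4) (nat_lit 4) (nat_lit 2) (nat_lit 4) (nat_lit 421) (nat_lit 251) (nat_lit 228))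 (XT.nd (nat_lit 78) (nat_lit 0) (nat_lit 0) (XT.lf (nat_lit 0) (nat_lit 188496258493) (nat_lit 152) (nat_lit 12044577221) (nat_lit 0) (nat_lit 187233498445) (nat_lit 2) (nat_lit 5) (nat_lit 4) (nat_lit 4) (nat_lit 2) (nat_lit 4) (nat_lit 422) (nat_lit 251) (nat_lit 227)) (XT.lf (nat_lit 0) (nat_lit 199389834413) (nat_lit 152) (nat_lit 9594910905) (nat_lit 0) (nat_lit 198100050217) (nat_lit 2) (nat_lit 5) (nat_lit 4) (nat_lit 4) (nat_lit 2) (nat_lit 4) (nat_lit 423) (nat_lit 251) (nat_lit 226)))) (XT.nd (nat_lit 78) (nat_lit 0) (nat_lit 0) (XT.lf (nat_lit 0) (nat_lit 210800071700) (nat_lit 152) (nat_lit 7077563269) (nat_lit 0) (nat_lit 209484550220) (nat_lit 2) (nat_lit 5) (nat_lit 4) (nat_lit 4) (nat_lit 2) (nat_lit 4) (nat_lit 424) (nat_lit 251) (nat_lit 225)) (XT.nd (nat_lit 78) (nat_lit 0) (nat_lit 0) (XT.lf (nat_lit 0) (nat_lit 222754137585) (nat_lit 152) (nat_lit 4486540627) (nat_lit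 0) (nat_lit 221414104405) (nat_lit 2) (nat_lit 5) (nat_lit 4) (nat_lit 4) (nat_lit 2) (nat_lit 4) (nat_lit 425) (nat_lit 251) (nat_lit 224)) (XT.lf (nat_lit 0) (nat_lit 235280494129) (nat_lit 152) (nat_lit 1815673880) (nat_lit 0) (nat_lit 233917116474) (nat_lit 2) (nat_lit 5) (nat_lit 4) (nat_lit 4) (nat_lit 2) (nat_lit 4) (nat_lit 426) (nat_lit 251) (nat_lit 223)))))) (XT.nd (nat_lit 390) (nat_lit 0) (nat_lit 0) (XT.nd (nat_lit 156) (nat_lit 0) (nat_lit 0) (XT.nd (nat_lit 78) (nat_lit 0) (nat_lit 0) (XT.lf (nat_lit 0) (nat_lit 972522989) (nat_lit 76) (nat_lit 247451626812) (nat_lit 76) (nat_lit 246066016323) (nat_lit 1) (nat_lit 4) (nat_lit 2) (nat_lit 5) (nat_lit 2) (nat_lit 4) (nat_lit 427) (nat_lit 251) (nat_lit 222)) (XT.lf (nat_lit 0) (nat_lit 3916589324) (nat_lit 76) (nat_lit 258315371050) (nat_lit 76) (nat_lit 256908586434) (nat_lit 1) (nat_lit 4) (nat_lit 2) (nat_lit 5) (nat_lit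 2) (nat_lit 4) (nat_lit 428) (nat_lit 251) (nat_lit 221))) (XT.nd (nat_lit 78) (nat_lit 0) (nat_lit 0) (XT.lf (nat_lit 0) (nat_lit 6963500427) (nat_lit 76) (nat_lit 269744016098) (nat_lit 76) (nat_lit 268317065647) (nat_lit 1) (nat_lit 4) (nat_lit 2) (nat_lit 5) (nat_lit 2) (nat_lit 4) (nat_lit 429) (nat_lit 251) (nat_lit 220)) (XT.nd (nat_lit 78) (nat_lit 0) (nat_lit 0) (XT.lf (nat_lit 0) (nat_lit 10120510849) (nat_lit 76) (nat_lit 281764773016) (nat_lit 76) (nat_lit 280318617007) (nat_lit 1) (nat_lit 4) (nat_lit 2) (nat_lit 5) (nat_lit 2) (nat_lit 4) (nat_lit 430) (nat_lit 251) (nat_lit 219)) (XT.lf (nat_lit 0) (nat_lit 13395137281) (nat_lit 76) (nat_lit 294406262653) (nat_lit 76) (nat_lit 292941815636) (nat_lit 1) (nat_lit 4) (nat_lit 2) (nat_lit 5) (nat_lit 2) (nat_lit 4) (nat_lit 431) (nat_lit 251) (nat_lit 218))))) (XT.nd (nat_lit 234) (nat_lit 0) (nat_lit 0) (XT.nd (nat_lit 78) (nat_lit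 0) (nat_lit 0) (XT.lf (nat_lit 0) (nat_lit 16795176453) (nat_lit 76) (nat_lit 307698583794) (nat_lit 76) (nat_lit 306216716770) (nat_lit 1) (nat_lit 4) (nat_lit 2) (nat_lit 5) (nat_lit 2) (nat_lit 4) (nat_lit 432) (nat_lit 251) (nat_lit 217)) (XT.nd (nat_lit 78) (nat_lit 0) (nat_lit 0) (XT.lf (nat_lit 0) (nat_lit 20328723696) (nat_lit 76) (nat_lit 321673384822) (nat_lit 76) (nat_lit 320174927316) (nat_lit 1) (nat_lit 4) (nat_lit 2) (nat_lit 5) (nat_lit 2) (nat_lit 4) (nat_lit 433) (nat_lit 251) (nat_lit 216)) (XT.lf (nat_lit 0) (nat_lit 24004192218) (nat_lit 76) (nat_lit 336363939074) (nat_lit 76) (nat_lit 334849681108) (nat_lit 1) (nat_lit 4) (nat_lit 2) (nat_lit 5) (nat_lit 2) (nat_lit 4) (nat_lit 434) (nat_lit 251) (nat_lit 215)))) (XT.nd (nat_lit 43836) (nat_lit 0) (nat_lit 76) (XT.lf (nat_lit 0) (nat_lit 27830333134) (nat_lit 76) (nat_lit 351805224060) (nat_lit 76) (nat_lit 350275918037)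 (nat_lit 1) (nat_lit 4) (nat_lit 2) (nat_lit 5) (nat_lit 2) (nat_lit 4) (nat_lit 435) (nat_lit 251) (nat_lit 214)) (XT.nd (nat_lit 78) (nat_lit 0) (nat_lit 0) (XT.lf (nat_lit 0) (nat_lit 10380763365) (nat_lit 152) (nat_lit 34611505976) (nat_lit 0) (nat_lit 10380763365) (nat_lit 2) (nat_lit 5) (nat_lit 4) (nat_lit 4) (nat_lit 2) (nat_lit 4) (nat_lit 396) (nat_lit 252) (nat_lit 252)) (XT.lf (nat_lit 0) (nat_lit 24716436073) (nat_lit 152) (nat_lit 66790897427) (nat_lit 0) (nat_lit 24624922715) (nat_lit 2) (nat_lit 5) (nat_lit 4) (nat_lit 4) (nat_lit 2) (nat_lit 4) (nat_lit 397) (nat_lit 252) (nat_lit 251))))))) (XT.nd (nat_lit 858) (nat_lit 0) (nat_lit 0) (XT.nd (nat_lit 390) (nat_lit 0) (nat_lit 0) (XT.nd (nat_lit 156) (nat_lit 0) (nat_lit 0) (XT.nd (nat_lit 78) (nat_lit 0) (nat_lit 0) (XT.lf (nat_lit 0) (nat_lit 28774213921) (nat_lit 152) (nat_lit 64422756184) (nat_lit 0) (nat_lit 28595544984)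 (nat_lit 2) (nat_lit 5) (nat_lit 4) (nat_lit 4) (nat_lit 2) (nat_lit 4) (nat_lit 398) (nat_lit 252) (nat_lit 250)) (XT.lf (nat_lit 0) (nat_lit 32944521651) (nat_lit 152) (nat_lit 62112949793) (nat_lit 0) (nat_lit 32682847400) (nat_lit 2) (nat_lit 5) (nat_lit 4) (nat_lit 4) (nat_lit 2) (nat_lit 4) (nat_lit 399) (nat_lit 252) (nat_lit 249))) (XT.nd (nat_lit 78) (nat_lit 0) (nat_lit 0) (XT.lf (nat_lit 0) (nat_lit 37237288566) (nat_lit 152) (nat_lit 59855978714) (nat_lit 0) (nat_lit 36896561636) (nat_lit 2) (nat_lit 5) (nat_lit 4) (nat_lit 4) (nat_lit 2) (nat_lit 4) (nat_lit 400) (nat_lit 252) (nat_lit 248)) (XT.nd (nat_lit 78) (nat_lit 0) (nat_lit 0) (XT.lf (nat_lit 0) (nat_lit 41662735542) (nat_lit 152) (nat_lit 57646469207) (nat_lit 0) (nat_lit 41246720345) (nat_lit 2) (nat_lit 5) (nat_lit 4) (nat_lit 4) (nat_lit 2) (nat_lit 4) (nat_lit 401) (nat_lit 252) (nat_lit 247)) (XT.lf (nat_lit 0)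 (nat_lit 46231399355) (nat_lit 152) (nat_lit 55479160535) (nat_lit 0) (nat_lit 45743681048) (nat_lit 2) (nat_lit 5) (nat_lit 4) (nat_lit 4) (nat_lit 2) (nat_lit 4) (nat_lit 402) (nat_lit 252) (nat_lit 246))))) (XT.nd (nat_lit 234) (nat_lit 0) (nat_lit 0) (XT.nd (nat_lit 78) (nat_lit 0) (nat_lit 0) (XT.lf (nat_lit 0) (nat_lit 50954157778) (nat_lit 152) (nat_lit 53348892439) (nat_lit 0) (nat_lit 50398150794) (nat_lit 2) (nat_lit 5) (nat_lit 4) (nat_lit 4) (nat_lit 2) (nat_lit 4) (nat_lit 403) (nat_lit 252) (nat_lit 245)) (XT.nd (nat_lit 78) (nat_lit 0) (nat_lit 0) (XT.lf (nat_lit 0) (nat_lit 55842255472) (nat_lit 152) (nat_lit 51250592852) (nat_lit 0) (nat_lit 55221211653) (nat_lit 2) (nat_lit 5) (nat_lit 4) (nat_lit 4) (nat_lit 2) (nat_lit 4) (nat_lit 404) (nat_lit 252) (nat_lit 244)) (XT.lf (nat_lit 0) (nat_lit 60907330767) (nat_lit 152) (nat_lit 49179265823) (nat_lit 0) (nat_lit 60224347105)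 (nat_lit 2) (nat_lit 5) (nat_lit 4) (nat_lit 4) (nat_lit 2) (nat_lit 4) (nat_lit 405) (nat_lit 252) (nat_lit 243)))) (XT.nd (nat_lit 78) (nat_lit 0) (nat_lit 0) (XT.lf (nat_lit 0) (nat_lit 66161443364) (nat_lit 152) (nat_lit 47129979621) (nat_lit 0) (nat_lit 65419469376) (nat_lit 2) (nat_lit 5) (nat_lit 4) (nat_lit 4) (nat_lit 2) (nat_lit 4) (nat_lit 406) (nat_lit 252) (nat_lit 242)) (XT.nd (nat_lit 78) (nat_lit 0) (nat_lit 0) (XT.lf (nat_lit 0) (nat_lit 71617103056) (nat_lit 152) (nat_lit 45097854993) (nat_lit 0) (nat_lit 70818947804) (nat_lit 2) (nat_lit 5) (nat_lit 4) (nat_lit 4) (nat_lit 2) (nat_lit 4) (nat_lit 407) (nat_lit 252) (nat_lit 241)) (XT.lf (nat_lit 0) (nat_lit 77287299509) (nat_lit 152) (nat_lit 43078053546) (nat_lit 0) (nat_lit 76435638292) (nat_lit 2) (nat_lit 5) (nat_lit 4) (nat_lit 4) (nat_lit 2) (nat_lit 4) (nat_lit 408) (nat_lit 252) (nat_lit 240)))))) (XT.nd (nat_lit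 468) (nat_lit 0) (nat_lit 0) (XT.nd (nat_lit 234) (nat_lit 0) (nat_lit 0) (XT.nd (nat_lit 78) (nat_lit 0) (nat_lit 0) (XT.lf (nat_lit 0) (nat_lit 83185533191) (nat_lit 152) (nat_lit 41065766231) (nat_lit 0) (nat_lit 82282913912) (nat_lit 2) (nat_lit 5) (nat_lit 4) (nat_lit 4) (nat_lit 2) (nat_lit 4) (nat_lit 409) (nat_lit 252) (nat_lit 239)) (XT.nd (nat_lit 78) (nat_lit 0) (nat_lit 0) (XT.lf (nat_lit 0) (nat_lit 89325847514) (nat_lit 152) (nat_lit 39056201886) (nat_lit 0) (nat_lit 88374696747) (nat_lit 2) (nat_lit 5) (nat_lit 4) (nat_lit 4) (nat_lit 2) (nat_lit 4) (nat_lit 410) (nat_lit 252) (nat_lit 238)) (XT.lf (nat_lit 0) (nat_lit 95722862276) (nat_lit 152) (nat_lit 37044575835) (nat_lit 0) (nat_lit 94725491045) (nat_lit 2) (nat_lit 5) (nat_lit 4) (nat_lit 4) (nat_lit 2) (nat_lit 4) (nat_lit 411) (nat_lit 252) (nat_lit 237)))) (XT.nd (nat_lit 78) (nat_lit 0) (nat_lit 0) (XT.lf (nat_lit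 0) (nat_lit 102391808463) (nat_lit 152) (nat_lit 35026098491) (nat_lit 0) (nat_lit 101350417742) (nat_lit 2) (nat_lit 5) (nat_lit 4) (nat_lit 4) (nat_lit 2) (nat_lit 4) (nat_lit 412) (nat_lit 252) (nat_lit 236)) (XT.nd (nat_lit 78) (nat_lit 0) (nat_lit 0) (XT.lf (nat_lit 0) (nat_lit 109348564519) (nat_lit 152) (nat_lit 32995963957) (nat_lit 0) (nat_lit 108265250474) (nat_lit 2) (nat_lit 5) (nat_lit 4) (nat_lit 4) (nat_lit 2) (nat_lit 4) (nat_lit 413) (nat_lit 252) (nat_lit 235)) (XT.lf (nat_lit 0) (nat_lit 116609694149) (nat_lit 152) (nat_lit 30949338578) (nat_lit 0) (nat_lit 115486453129) (nat_lit 2) (nat_lit 5) (nat_lit 4) (nat_lit 4) (nat_lit 2) (nat_lit 4) (nat_lit 414) (nat_lit 252) (nat_lit 234))))) (XT.nd (nat_lit 234) (nat_lit 0) (nat_lit 0) (XT.nd (nat_lit 78) (nat_lit 0) (nat_lit 0) (XT.lf (nat_lit 0) (nat_lit 124192485756) (nat_lit 152) (nat_lit 28881349438) (nat_lit 0) (nat_lit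 123031219046) (nat_lit 2) (nat_lit 5) (nat_lit 4) (nat_lit 4) (nat_lit 2) (nat_lit 4) (nat_lit 415) (nat_lit 252) (nat_lit 233)) (XT.nd (nat_lit 78) (nat_lit 0) (nat_lit 0) (XT.lf (nat_lit 0) (nat_lit 132114993607) (nat_lit 152) (nat_lit 26787072752) (nat_lit 0) (nat_lit 130917511953) (nat_lit 2) (nat_lit 5) (nat_lit 4) (nat_lit 4) (nat_lit 2) (nat_lit 4) (nat_lit 416) (nat_lit 252) (nat_lit 232)) (XT.lf (nat_lit 0) (nat_lit 140396080815) (nat_lit 152) (nat_lit 24661522147) (nat_lit 0) (nat_lit 139164108739) (nat_lit 2) (nat_lit 5) (nat_lit 4) (nat_lit 4) (nat_lit 2) (nat_lit 4) (nat_lit 417) (nat_lit 252) (nat_lit 231)))) (XT.nd (nat_lit 78) (nat_lit 0) (nat_lit 0) (XT.lf (nat_lit 0) (nat_lit 149055464255) (nat_lit 152) (nat_lit 22499636789) (nat_lit 0) (nat_lit 147790644158) (nat_lit 2) (nat_lit 5) (nat_lit 4) (nat_lit 4) (nat_lit 2) (nat_lit 4) (nat_lit 418) (nat_lit 252) (nat_lit 230))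 (XT.nd (nat_lit 78) (nat_lit 0) (nat_lit 0) (XT.lf (nat_lit 0) (nat_lit 158113761506) (nat_lit 152) (nat_lit 20296269332) (nat_lit 0) (nat_lit 156817657579) (nat_lit 2) (nat_lit 5) (nat_lit 4) (nat_lit 4) (nat_lit 2) (nat_lit 4) (nat_lit 419) (nat_lit 252) (nat_lit 229)) (XT.lf (nat_lit 0) (nat_lit 167592539943) (nat_lit 152) (nat_lit 18046173662) (nat_lit 0) (nat_lit 166266641892) (nat_lit 2) (nat_lit 5) (nat_lit 4) (nat_lit 4) (nat_lit 2) (nat_lit 4) (nat_lit 420) (nat_lit 252) (nat_lit 228))))))))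
noncomputable def xc9 : XT := (XT.nd (nat_lit 45318) (nat_lit 0) (nat_lit 76) (XT.nd (nat_lit 858) (nat_lit 0) (nat_lit 0) (XT.nd (nat_lit 390) (nat_lit 76) (nat_lit 0) (XT.nd (nat_lit 156) (nat_lit 0) (nat_lit 0) (XT.nd (nat_lit 78) (nat_lit 0) (nat_lit 0) (XT.lf (nat_lit 0) (nat_lit 177514368085) (nat_lit 152) (nat_lit 15743992409) (nat_lit 0) (nat_lit 176160094679) (nat_lit 2) (nat_lit 5) (nat_lit 4) (nat_lit 4) (nat_lit 2) (nat_lit 4) (nat_lit 421) (nat_lit 252) (nat_lit 227)) (XT.lf (nat_lit 0) (nat_lit 187902869334) (nat_lit 152) (nat_lit 13384244188) (nat_lit 0) (nat_lit 186521571779) (nat_lit 2) (nat_lit 5) (nat_lit 4) (nat_lit 4) (nat_lit 2) (nat_lit 4) (nat_lit 422) (nat_lit 252) (nat_lit 226))) (XT.nd (nat_lit 78) (nat_lit 0) (nat_lit 0) (XT.lf (nat_lit 0) (nat_lit 198782778215) (nat_lit 152) (nat_lit 10961310553) (nat_lit 0) (nat_lit 197375743377) (nat_lit 2) (nat_lit 5) (nat_lit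 4) (nat_lit 4) (nat_lit 2) (nat_lit 4) (nat_lit 423) (nat_lit 252) (nat_lit 225)) (XT.nd (nat_lit 78) (nat_lit 0) (nat_lit 0) (XT.lf (nat_lit 0) (nat_lit 210179999274) (nat_lit 152) (nat_lit 8469422613) (nat_lit 0) (nat_lit 208748452737) (nat_lit 2) (nat_lit 5) (nat_lit 4) (nat_lit 4) (nat_lit 2) (nat_lit 4) (nat_lit 424) (nat_lit 252) (nat_lit 224)) (XT.lf (nat_lit 0) (nat_lit 222121668752) (nat_lit 152) (nat_lit 5902647301) (nat_lit 0) (nat_lit 220666777739) (nat_lit 2) (nat_lit 5) (nat_lit 4) (nat_lit 4) (nat_lit 2) (nat_lit 4) (nat_lit 425) (nat_lit 252) (nat_lit 223))))) (XT.nd (nat_lit 234) (nat_lit 0) (nat_lit 0) (XT.nd (nat_lit 78) (nat_lit 76) (nat_lit 0) (XT.lf (nat_lit 0) (nat_lit 234636219194) (nat_lit 152) (nat_lit 3254873248) (nat_lit 0) (nat_lit 233159095348) (nat_lit 2) (nat_lit 5) (nat_lit 4) (nat_lit 4) (nat_lit 2) (nat_lit 4) (nat_lit 426) (nat_lit 252) (nat_lit 222))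 (XT.nd (nat_lit 78) (nat_lit 76) (nat_lit 0) (XT.lf (nat_lit 0) (nat_lit 247753447150) (nat_lit 152) (nat_lit 519796231) (nat_lit 0) (nat_lit 246255149176) (nat_lit 2) (nat_lit 5) (nat_lit 4) (nat_lit 4) (nat_lit 2) (nat_lit 4) (nat_lit 427) (nat_lit 252) (nat_lit 221)) (XT.lf (nat_lit 0) (nat_lit 2385444976) (nat_lit 76) (nat_lit 259156382619) (nat_lit 76) (nat_lit 257637918810) (nat_lit 1) (nat_lit 4) (nat_lit 2) (nat_lit 5) (nat_lit 2) (nat_lit 4) (nat_lit 428) (nat_lit 252) (nat_lit 220)))) (XT.nd (nat_lit 78) (nat_lit 0) (nat_lit 0) (XT.lf (nat_lit 0) (nat_lit 5411748159) (nat_lit 76) (nat_lit 270595115286) (nat_lit 76) (nat_lit 269057445918) (nat_lit 1) (nat_lit 4) (nat_lit 2) (nat_lit 5) (nat_lit 2) (nat_lit 4) (nat_lit 429) (nat_lit 252) (nat_lit 219)) (XT.nd (nat_lit 78) (nat_lit 0) (nat_lit 0) (XT.lf (nat_lit 0) (nat_lit 8549131990) (nat_lit 76) (nat_lit 282625479459) (nat_lit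 76) (nat_lit 281069519084) (nat_lit 1) (nat_lit 4) (nat_lit 2) (nat_lit 5) (nat_lit 2) (nat_lit 4) (nat_lit 430) (nat_lit 252) (nat_lit 218)) (XT.lf (nat_lit 0) (nat_lit 11805066431) (nat_lit 76) (nat_lit 295276118862) (nat_lit 76) (nat_lit 293702738481) (nat_lit 1) (nat_lit 4) (nat_lit 2) (nat_lit 5) (nat_lit 2) (nat_lit 4) (nat_lit 431) (nat_lit 252) (nat_lit 217)))))) (XT.nd (nat_lit 43992) (nat_lit 0) (nat_lit 76) (XT.nd (nat_lit 156) (nat_lit 0) (nat_lit 0) (XT.nd (nat_lit 78) (nat_lit 0) (nat_lit 0) (XT.lf (nat_lit 0) (nat_lit 15187303707) (nat_lit 76) (nat_lit 308577154067) (nat_lit 76) (nat_lit 306987183203) (nat_lit 1) (nat_lit 4) (nat_lit 2) (nat_lit 5) (nat_lit 2) (nat_lit 4) (nat_lit 432) (nat_lit 252) (nat_lit 216)) (XT.lf (nat_lit 0) (nat_lit 18703896763) (nat_lit 76) (nat_lit 322560254204) (nat_lit 76) (nat_lit 320954482880) (nat_lit 1) (nat_lit 4) (nat_lit 2) (nat_lit 5)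 (nat_lit 2) (nat_lit 4) (nat_lit 433) (nat_lit 252) (nat_lit 215))) (XT.nd (nat_lit 78) (nat_lit 0) (nat_lit 0) (XT.lf (nat_lit 0) (nat_lit 22363218440) (nat_lit 76) (nat_lit 337258712369) (nat_lit 76) (nat_lit 335637892987) (nat_lit 1) (nat_lit 4) (nat_lit 2) (nat_lit 5) (nat_lit 2) (nat_lit 4) (nat_lit 434) (nat_lit 252) (nat_lit 214)) (XT.nd (nat_lit 43680) (nat_lit 0) (nat_lit 76) (XT.lf (nat_lit 0) (nat_lit 26173981409) (nat_lit 76) (nat_lit 352707524890) (nat_lit 76) (nat_lit 351072374026) (nat_lit 1) (nat_lit 4) (nat_lit 2) (nat_lit 5) (nat_lit 2) (nat_lit 4) (nat_lit 435) (nat_lit 252) (nat_lit 213)) (XT.lf (nat_lit 0) (nat_lit 6634992293) (nat_lit 152) (nat_lit 37101342328) (nat_lit 0) (nat_lit 6634992293) (nat_lit 2) (nat_lit 5) (nat_lit 4) (nat_lit 4) (nat_lit 2) (nat_lit 4) (nat_lit 394) (nat_lit 253) (nat_lit 253))))) (XT.nd (nat_lit 234) (nat_lit 0) (nat_lit 0) (XT.nd (nat_lit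 78) (nat_lit 0) (nat_lit 0) (XT.lf (nat_lit 0) (nat_lit 16996158471) (nat_lit 152) (nat_lit 71724890510) (nat_lit 0) (nat_lit 16900069444) (nat_lit 2) (nat_lit 5) (nat_lit 4) (nat_lit 4) (nat_lit 2) (nat_lit 4) (nat_lit 395) (nat_lit 253) (nat_lit 252)) (XT.nd (nat_lit 78) (nat_lit 0) (nat_lit 0) (XT.lf (nat_lit 0) (nat_lit 20809020240) (nat_lit 152) (nat_lit 69318064616) (nat_lit 0) (nat_lit 20621417856) (nat_lit 2) (nat_lit 5) (nat_lit 4) (nat_lit 4) (nat_lit 2) (nat_lit 4) (nat_lit 396) (nat_lit 253) (nat_lit 251)) (XT.lf (nat_lit 0) (nat_lit 24717648138) (nat_lit 152) (nat_lit 66976476436) (nat_lit 0) (nat_lit 24442890175) (nat_lit 2) (nat_lit 5) (nat_lit 4) (nat_lit 4) (nat_lit 2) (nat_lit 4) (nat_lit 397) (nat_lit 253) (nat_lit 250)))) (XT.nd (nat_lit 78) (nat_lit 0) (nat_lit 0) (XT.lf (nat_lit 0) (nat_lit 28731348420) (nat_lit 152) (nat_lit 64694550761) (nat_lit 0) (nat_lit 28373585143)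 (nat_lit 2) (nat_lit 5) (nat_lit 4) (nat_lit 4) (nat_lit 2) (nat_lit 4) (nat_lit 398) (nat_lit 253) (nat_lit 249)) (XT.nd (nat_lit 78) (nat_lit 0) (nat_lit 0) (XT.lf (nat_lit 0) (nat_lit 32859677515) (nat_lit 152) (nat_lit 62466854434) (nat_lit 0) (nat_lit 32422861559) (nat_lit 2) (nat_lit 5) (nat_lit 4) (nat_lit 4) (nat_lit 2) (nat_lit 4) (nat_lit 399) (nat_lit 253) (nat_lit 248)) (XT.lf (nat_lit 0) (nat_lit 37112464779) (nat_lit 152) (nat_lit 60288083417) (nat_lit 0) (nat_lit 36600360557) (nat_lit 2) (nat_lit 5) (nat_lit 4) (nat_lit 4) (nat_lit 2) (nat_lit 4) (nat_lit 400) (nat_lit 253) (nat_lit 247))))))) (XT.nd (nat_lit 858) (nat_lit 0) (nat_lit 0) (XT.nd (nat_lit 390) (nat_lit 0) (nat_lit 0) (XT.nd (nat_lit 156) (nat_lit 0) (nat_lit 0) (XT.nd (nat_lit 78) (nat_lit 0) (nat_lit 0) (XT.lf (nat_lit 0) (nat_lit 41499835896) (nat_lit 152) (nat_lit 58153050159) (nat_lit 0) (nat_lit 40916028562)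 (nat_lit 2) (nat_lit 5) (nat_lit 4) (nat_lit 4) (nat_lit 2) (nat_lit 4) (nat_lit 401) (nat_lit 253) (nat_lit 246)) (XT.lf (nat_lit 0) (nat_lit 46032236986) (nat_lit 152) (nat_lit 56056671248) (nat_lit 0) (nat_lit 45380140976) (nat_lit 2) (nat_lit 5) (nat_lit 4) (nat_lit 4) (nat_lit 2) (nat_lit 4) (nat_lit 402) (nat_lit 253) (nat_lit 245))) (XT.nd (nat_lit 78) (nat_lit 0) (nat_lit 0) (XT.lf (nat_lit 0) (nat_lit 50720459482) (nat_lit 152) (nat_lit 53993955305) (nat_lit 0) (nat_lit 50003326637) (nat_lit 2) (nat_lit 5) (nat_lit 4) (nat_lit 4) (nat_lit 2) (nat_lit 4) (nat_lit 403) (nat_lit 253) (nat_lit 244)) (XT.nd (nat_lit 78) (nat_lit 0) (nat_lit 0) (XT.lf (nat_lit 0) (nat_lit 55575665819) (nat_lit 152) (nat_lit 51959991102) (nat_lit 0) (nat_lit 54796593131) (nat_lit 2) (nat_lit 5) (nat_lit 4) (nat_lit 4) (nat_lit 2) (nat_lit 4) (nat_lit 404) (nat_lit 253) (nat_lit 243)) (XT.lf (nat_lit 0)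 (nat_lit 60609416010) (nat_lit 152) (nat_lit 49949935867) (nat_lit 0) (nat_lit 59771352995) (nat_lit 2) (nat_lit 5) (nat_lit 4) (nat_lit 4) (nat_lit 2) (nat_lit 4) (nat_lit 405) (nat_lit 253) (nat_lit 242))))) (XT.nd (nat_lit 234) (nat_lit 0) (nat_lit 0) (XT.nd (nat_lit 78) (nat_lit 0) (nat_lit 0) (XT.lf (nat_lit 0) (nat_lit 65833695175) (nat_lit 152) (nat_lit 47959003755) (nat_lit 0) (nat_lit 64939450897) (nat_lit 2) (nat_lit 5) (nat_lit 4) (nat_lit 4) (nat_lit 2) (nat_lit 4) (nat_lit 406) (nat_lit 253) (nat_lit 241)) (XT.nd (nat_lit 78) (nat_lit 0) (nat_lit 0) (XT.lf (nat_lit 0) (nat_lit 71260942075) (nat_lit 152) (nat_lit 45982454450) (nat_lit 0) (nat_lit 70313191832) (nat_lit 2) (nat_lit 5) (nat_lit 4) (nat_lit 4) (nat_lit 2) (nat_lit 4) (nat_lit 407) (nat_lit 253) (nat_lit 240)) (XT.lf (nat_lit 0) (nat_lit 76904078726) (nat_lit 152) (nat_lit 44015581883) (nat_lit 0) (nat_lit 75905370421)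 (nat_lit 2) (nat_lit 5) (nat_lit 4) (nat_lit 4) (nat_lit 2) (nat_lit 4) (nat_lit 408) (nat_lit 253) (nat_lit 239)))) (XT.nd (nat_lit 78) (nat_lit 0) (nat_lit 0) (XT.lf (nat_lit 0) (nat_lit 82776541168) (nat_lit 152) (nat_lit 42053703024) (nat_lit 0) (nat_lit 81729301375) (nat_lit 2) (nat_lit 5) (nat_lit 4) (nat_lit 4) (nat_lit 2) (nat_lit 4) (nat_lit 409) (nat_lit 253) (nat_lit 238)) (XT.nd (nat_lit 78) (nat_lit 0) (nat_lit 0) (XT.lf (nat_lit 0) (nat_lit 88892311453) (nat_lit 152) (nat_lit 40092146734) (nat_lit 0) (nat_lit 87798851196) (nat_lit 2) (nat_lit 5) (nat_lit 4) (nat_lit 4) (nat_lit 2) (nat_lit 4) (nat_lit 410) (nat_lit 253) (nat_lit 237)) (XT.lf (nat_lit 0) (nat_lit 95265950940) (nat_lit 152) (nat_lit 38126242639) (nat_lit 0) (nat_lit 94128471193) (nat_lit 2) (nat_lit 5) (nat_lit 4) (nat_lit 4) (nat_lit 2) (nat_lit 4) (nat_lit 411) (nat_lit 253) (nat_lit 236)))))) (XT.nd (nat_lit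 468) (nat_lit 0) (nat_lit 0) (XT.nd (nat_lit 234) (nat_lit 0) (nat_lit 0) (XT.nd (nat_lit 78) (nat_lit 0) (nat_lit 0) (XT.lf (nat_lit 0) (nat_lit 101912634962) (nat_lit 152) (nat_lit 36151310015) (nat_lit 0) (nat_lit 100733231890) (nat_lit 2) (nat_lit 5) (nat_lit 4) (nat_lit 4) (nat_lit 2) (nat_lit 4) (nat_lit 412) (nat_lit 253) (nat_lit 235)) (XT.nd (nat_lit 78) (nat_lit 0) (nat_lit 0) (XT.lf (nat_lit 0) (nat_lit 108848188955) (nat_lit 152) (nat_lit 34162646643) (nat_lit 0) (nat_lit 107628858909) (nat_lit 2) (nat_lit 5) (nat_lit 4) (nat_lit 4) (nat_lit 2) (nat_lit 4) (nat_lit 413) (nat_lit 253) (nat_lit 234)) (XT.lf (nat_lit 0) (nat_lit 116089126144) (nat_lit 152) (nat_lit 32155517609) (nat_lit 0) (nat_lit 114831770407) (nat_lit 2) (nat_lit 5) (nat_lit 4) (nat_lit 4) (nat_lit 2) (nat_lit 4) (nat_lit 414) (nat_lit 253) (nat_lit 233)))) (XT.nd (nat_lit 78) (nat_lit 0) (nat_lit 0) (XT.lf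 (nat_lit 0) (nat_lit 123652686855) (nat_lit 152) (nat_lit 30125144036) (nat_lit 0) (nat_lit 122359116175) (nat_lit 2) (nat_lit 5) (nat_lit 4) (nat_lit 4) (nat_lit 2) (nat_lit 4) (nat_lit 415) (nat_lit 253) (nat_lit 232)) (XT.nd (nat_lit 78) (nat_lit 0) (nat_lit 0) (XT.lf (nat_lit 0) (nat_lit 131556879567) (nat_lit 152) (nat_lit 28066691699) (nat_lit 0) (nat_lit 130228818464) (nat_lit 2) (nat_lit 5) (nat_lit 4) (nat_lit 4) (nat_lit 2) (nat_lit 4) (nat_lit 416) (nat_lit 253) (nat_lit 231)) (XT.lf (nat_lit 0) (nat_lit 139820523785) (nat_lit 152) (nat_lit 25975259522) (nat_lit 0) (nat_lit 138459614662) (nat_lit 2) (nat_lit 5) (nat_lit 4) (nat_lit 4) (nat_lit 2) (nat_lit 4) (nat_lit 417) (nat_lit 253) (nat_lit 230))))) (XT.nd (nat_lit 234) (nat_lit 0) (nat_lit 0) (XT.nd (nat_lit 78) (nat_lit 0) (nat_lit 0) (XT.lf (nat_lit 0) (nat_lit 148463294854) (nat_lit 152) (nat_lit 23845867904) (nat_lit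 0) (nat_lit 147071101901) (nat_lit 2) (nat_lit 5) (nat_lit 4) (nat_lit 4) (nat_lit 2) (nat_lit 4) (nat_lit 418) (nat_lit 253) (nat_lit 229)) (XT.nd (nat_lit 78) (nat_lit 0) (nat_lit 0) (XT.lf (nat_lit 0) (nat_lit 157505770799) (nat_lit 152) (nat_lit 21673446867) (nat_lit 0) (nat_lit 156083783723) (nat_lit 2) (nat_lit 5) (nat_lit 4) (nat_lit 4) (nat_lit 2) (nat_lit 4) (nat_lit 419) (nat_lit 253) (nat_lit 228)) (XT.lf (nat_lit 0) (nat_lit 166969481325) (nat_lit 152) (nat_lit 19452823977) (nat_lit 0) (nat_lit 165519118893) (nat_lit 2) (nat_lit 5) (nat_lit 4) (nat_lit 4) (nat_lit 2) (nat_lit 4) (nat_lit 420) (nat_lit 253) (nat_lit 227)))) (XT.nd (nat_lit 78) (nat_lit 0) (nat_lit 0) (XT.lf (nat_lit 0) (nat_lit 176876959077) (nat_lit 152) (nat_lit 17178712039) (nat_lit 0) (nat_lit 175399572497) (nat_lit 2) (nat_lit 5) (nat_lit 4) (nat_lit 4) (nat_lit 2) (nat_lit 4) (nat_lit 421) (nat_lit 253)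 (nat_lit 226)) (XT.nd (nat_lit 78) (nat_lit 0) (nat_lit 0) (XT.lf (nat_lit 0) (nat_lit 187251793287) (nat_lit 152) (nat_lit 14845696500) (nat_lit 0) (nat_lit 185748669422) (nat_lit 2) (nat_lit 5) (nat_lit 4) (nat_lit 4) (nat_lit 2) (nat_lit 4) (nat_lit 422) (nat_lit 253) (nat_lit 225)) (XT.lf (nat_lit 0) (nat_lit 198118685941) (nat_lit 152) (nat_lit 12448222560) (nat_lit 0) (nat_lit 196591050377) (nat_lit 2) (nat_lit 5) (nat_lit 4) (nat_lit 4) (nat_lit 2) (nat_lit 4) (nat_lit 423) (nat_lit 253) (nat_lit 224))))))))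
noncomputable def xc10 : XT := (XT.nd (nat_lit 45162) (nat_lit 0) (nat_lit 76) (XT.nd (nat_lit 858) (nat_lit 0) (nat_lit 0) (XT.nd (nat_lit 390) (nat_lit 0) (nat_lit 0) (XT.nd (nat_lit 156) (nat_lit 76) (nat_lit 0) (XT.nd (nat_lit 78) (nat_lit 0) (nat_lit 0) (XT.lf (nat_lit 0) (nat_lit 209503510593) (nat_lit 152) (nat_lit 9980581950) (nat_lit 0) (nat_lit 207952530554) (nat_lit 2) (nat_lit 5) (nat_lit 4) (nat_lit 4) (nat_lit 2) (nat_lit 4) (nat_lit 424) (nat_lit 253) (nat_lit 223)) (XT.lf (nat_lit 0) (nat_lit 221433373968) (nat_lit 152) (nat_lit 7436899333) (nat_lit 0) (nat_lit 219860161096) (nat_lit 2) (nat_lit 5) (nat_lit 4) (nat_lit 4) (nat_lit 2) (nat_lit 4) (nat_lit 425) (nat_lit 253) (nat_lit 222))) (XT.nd (nat_lit 78) (nat_lit 76) (nat_lit 0) (XT.lf (nat_lit 0) (nat_lit 233936680504) (nat_lit 152) (nat_lit 4811118323) (nat_lit 0) (nat_lit 232342293504) (nat_lit 2) (nat_lit 5) (nat_lit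 4) (nat_lit 4) (nat_lit 2) (nat_lit 4) (nat_lit 426) (nat_lit 253) (nat_lit 221)) (XT.nd (nat_lit 78) (nat_lit 76) (nat_lit 0) (XT.lf (nat_lit 0) (nat_lit 247043199977) (nat_lit 152) (nat_lit 2096987060) (nat_lit 0) (nat_lit 245428647142) (nat_lit 2) (nat_lit 5) (nat_lit 4) (nat_lit 4) (nat_lit 2) (nat_lit 4) (nat_lit 427) (nat_lit 253) (nat_lit 220)) (XT.lf (nat_lit 0) (nat_lit 735497175) (nat_lit 76) (nat_lit 260060124384) (nat_lit 76) (nat_lit 258426365991) (nat_lit 1) (nat_lit 4) (nat_lit 2) (nat_lit 5) (nat_lit 2) (nat_lit 4) (nat_lit 428) (nat_lit 253) (nat_lit 219))))) (XT.nd (nat_lit 234) (nat_lit 0) (nat_lit 0) (XT.nd (nat_lit 78) (nat_lit 0) (nat_lit 0) (XT.lf (nat_lit 0) (nat_lit 3742173767) (nat_lit 76) (nat_lit 271508464306) (nat_lit 76) (nat_lit 269856414905) (nat_lit 1) (nat_lit 4) (nat_lit 2) (nat_lit 5) (nat_lit 2) (nat_lit 4) (nat_lit 429) (nat_lit 253) (nat_lit 218))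 (XT.nd (nat_lit 78) (nat_lit 0) (nat_lit 0) (XT.lf (nat_lit 0) (nat_lit 6860865607) (nat_lit 76) (nat_lit 283547978245) (nat_lit 76) (nat_lit 281878508838) (nat_lit 1) (nat_lit 4) (nat_lit 2) (nat_lit 5) (nat_lit 2) (nat_lit 4) (nat_lit 430) (nat_lit 253) (nat_lit 217)) (XT.lf (nat_lit 0) (nat_lit 10098998152) (nat_lit 76) (nat_lit 296207331713) (nat_lit 76) (nat_lit 294521271823) (nat_lit 1) (nat_lit 4) (nat_lit 2) (nat_lit 5) (nat_lit 2) (nat_lit 4) (nat_lit 431) (nat_lit 253) (nat_lit 216)))) (XT.nd (nat_lit 78) (nat_lit 0) (nat_lit 0) (XT.lf (nat_lit 0) (nat_lit 13464281241) (nat_lit 76) (nat_lit 309516666026) (nat_lit 76) (nat_lit 307814805676) (nat_lit 1) (nat_lit 4) (nat_lit 2) (nat_lit 5) (nat_lit 2) (nat_lit 4) (nat_lit 432) (nat_lit 253) (nat_lit 215)) (XT.nd (nat_lit 78) (nat_lit 0) (nat_lit 0) (XT.lf (nat_lit 0) (nat_lit 16964727452) (nat_lit 76) (nat_lit 323507670075) (nat_lit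 76) (nat_lit 321790761668) (nat_lit 1) (nat_lit 4) (nat_lit 2) (nat_lit 5) (nat_lit 2) (nat_lit 4) (nat_lit 433) (nat_lit 253) (nat_lit 214)) (XT.lf (nat_lit 0) (nat_lit 20608671182) (nat_lit 76) (nat_lit 338213655776) (nat_lit 76) (nat_lit 336482415886) (nat_lit 1) (nat_lit 4) (nat_lit 2) (nat_lit 5) (nat_lit 2) (nat_lit 4) (nat_lit 434) (nat_lit 253) (nat_lit 213)))))) (XT.nd (nat_lit 43836) (nat_lit 0) (nat_lit 76) (XT.nd (nat_lit 43602) (nat_lit 0) (nat_lit 76) (XT.nd (nat_lit 43524) (nat_lit 0) (nat_lit 76) (XT.lf (nat_lit 0) (nat_lit 24404788487) (nat_lit 76) (nat_lit 353669637379) (nat_lit 76) (nat_lit 351924748458) (nat_lit 1) (nat_lit 4) (nat_lit 2) (nat_lit 5) (nat_lit 2) (nat_lit 4) (nat_lit 435) (nat_lit 253) (nat_lit 212)) (XT.lf (nat_lit 0) (nat_lit 3098434206) (nat_lit 152) (nat_lit 39645081601) (nat_lit 0) (nat_lit 3098434206) (nat_lit 2) (nat_lit 5) (nat_lit 4) (nat_lit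 4) (nat_lit 2) (nat_lit 4) (nat_lit 392) (nat_lit 254) (nat_lit 254))) (XT.nd (nat_lit 78) (nat_lit 0) (nat_lit 0) (XT.lf (nat_lit 0) (nat_lit 9722520221) (nat_lit 152) (nat_lit 76757346565) (nat_lit 0) (nat_lit 9621626743) (nat_lit 2) (nat_lit 5) (nat_lit 4) (nat_lit 4) (nat_lit 2) (nat_lit 4) (nat_lit 393) (nat_lit 254) (nat_lit 253)) (XT.nd (nat_lit 78) (nat_lit 0) (nat_lit 0) (XT.lf (nat_lit 0) (nat_lit 13319852771) (nat_lit 152) (nat_lit 74302489953) (nat_lit 0) (nat_lit 13122870267) (nat_lit 2) (nat_lit 5) (nat_lit 4) (nat_lit 4) (nat_lit 2) (nat_lit 4) (nat_lit 394) (nat_lit 254) (nat_lit 252)) (XT.lf (nat_lit 0) (nat_lit 16997431139) (nat_lit 152) (nat_lit 71919748470) (nat_lit 0) (nat_lit 16708935277) (nat_lit 2) (nat_lit 5) (nat_lit 4) (nat_lit 4) (nat_lit 2) (nat_lit 4) (nat_lit 395) (nat_lit 254) (nat_lit 251))))) (XT.nd (nat_lit 234) (nat_lit 0) (nat_lit 0) (XT.nd (nat_lit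 78) (nat_lit 0) (nat_lit 0) (XT.lf (nat_lit 0) (nat_lit 20764011464) (nat_lit 152) (nat_lit 69603448921) (nat_lit 0) (nat_lit 20388360024) (nat_lit 2) (nat_lit 5) (nat_lit 4) (nat_lit 4) (nat_lit 2) (nat_lit 4) (nat_lit 396) (nat_lit 254) (nat_lit 250)) (XT.nd (nat_lit 78) (nat_lit 0) (nat_lit 0) (XT.lf (nat_lit 0) (nat_lit 24628561796) (nat_lit 152) (nat_lit 67348076309) (nat_lit 0) (nat_lit 24169905042) (nat_lit 2) (nat_lit 5) (nat_lit 4) (nat_lit 4) (nat_lit 2) (nat_lit 4) (nat_lit 397) (nat_lit 254) (nat_lit 249)) (XT.lf (nat_lit 0) (nat_lit 28600283443) (nat_lit 152) (nat_lit 65148260699) (nat_lit 0) (nat_lit 28062574009) (nat_lit 2) (nat_lit 5) (nat_lit 4) (nat_lit 4) (nat_lit 2) (nat_lit 4) (nat_lit 398) (nat_lit 254) (nat_lit 248)))) (XT.nd (nat_lit 78) (nat_lit 0) (nat_lit 0) (XT.lf (nat_lit 0) (nat_lit 32688632887) (nat_lit 152) (nat_lit 62998764433) (nat_lit 0) (nat_lit 32075635187)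 (nat_lit 2) (nat_lit 5) (nat_lit 4) (nat_lit 4) (nat_lit 2) (nat_lit 4) (nat_lit 399) (nat_lit 254) (nat_lit 247)) (XT.nd (nat_lit 78) (nat_lit 0) (nat_lit 0) (XT.lf (nat_lit 0) (nat_lit 36903344292) (nat_lit 152) (nat_lit 60894469665) (nat_lit 0) (nat_lit 36218643481) (nat_lit 2) (nat_lit 5) (nat_lit 4) (nat_lit 4) (nat_lit 2) (nat_lit 4) (nat_lit 400) (nat_lit 254) (nat_lit 246)) (XT.lf (nat_lit 0) (nat_lit 41254452685) (nat_lit 152) (nat_lit 58830366168) (nat_lit 0) (nat_lit 40501463198) (nat_lit 2) (nat_lit 5) (nat_lit 4) (nat_lit 4) (nat_lit 2) (nat_lit 4) (nat_lit 401) (nat_lit 254) (nat_lit 245))))))) (XT.nd (nat_lit 858) (nat_lit 0) (nat_lit 0) (XT.nd (nat_lit 390) (nat_lit 0) (nat_lit 0) (XT.nd (nat_lit 156) (nat_lit 0) (nat_lit 0) (XT.nd (nat_lit 78) (nat_lit 0) (nat_lit 0) (XT.lf (nat_lit 0) (nat_lit 45752317850) (nat_lit 152) (nat_lit 56801539409) (nat_lit 0) (nat_lit 44934291527)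 (nat_lit 2) (nat_lit 5) (nat_lit 4) (nat_lit 4) (nat_lit 2) (nat_lit 4) (nat_lit 402) (nat_lit 254) (nat_lit 244)) (XT.lf (nat_lit 0) (nat_lit 50407648988) (nat_lit 152) (nat_lit 54803158851) (nat_lit 0) (nat_lit 49527682822) (nat_lit 2) (nat_lit 5) (nat_lit 4) (nat_lit 4) (nat_lit 2) (nat_lit 4) (nat_lit 403) (nat_lit 254) (nat_lit 243))) (XT.nd (nat_lit 78) (nat_lit 0) (nat_lit 0) (XT.lf (nat_lit 0) (nat_lit 55231530220) (nat_lit 152) (nat_lit 52830466442) (nat_lit 0) (nat_lit 54292573728) (nat_lit 2) (nat_lit 5) (nat_lit 4) (nat_lit 4) (nat_lit 2) (nat_lit 4) (nat_lit 404) (nat_lit 254) (nat_lit 242)) (XT.nd (nat_lit 78) (nat_lit 0) (nat_lit 0) (XT.lf (nat_lit 0) (nat_lit 60235446980) (nat_lit 152) (nat_lit 50878765297) (nat_lit 0) (nat_lit 59240309224) (nat_lit 2) (nat_lit 5) (nat_lit 4) (nat_lit 4) (nat_lit 2) (nat_lit 4) (nat_lit 405) (nat_lit 254) (nat_lit 241)) (XT.lf (nat_lit 0)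 (nat_lit 65431313353) (nat_lit 152) (nat_lit 48943408508) (nat_lit 0) (nat_lit 64382669633) (nat_lit 2) (nat_lit 5) (nat_lit 4) (nat_lit 4) (nat_lit 2) (nat_lit 4) (nat_lit 406) (nat_lit 254) (nat_lit 240))))) (XT.nd (nat_lit 234) (nat_lit 0) (nat_lit 0) (XT.nd (nat_lit 78) (nat_lit 0) (nat_lit 0) (XT.lf (nat_lit 0) (nat_lit 70831500451) (nat_lit 152) (nat_lit 47019788083) (nat_lit 0) (nat_lit 69731898669) (nat_lit 2) (nat_lit 5) (nat_lit 4) (nat_lit 4) (nat_lit 2) (nat_lit 4) (nat_lit 407) (nat_lit 254) (nat_lit 239)) (XT.nd (nat_lit 78) (nat_lit 0) (nat_lit 0) (XT.lf (nat_lit 0) (nat_lit 76448865862) (nat_lit 152) (nat_lit 45103323973) (nat_lit 0) (nat_lit 75300732592) (nat_lit 2) (nat_lit 5) (nat_lit 4) (nat_lit 4) (nat_lit 2) (nat_lit 4) (nat_lit 408) (nat_lit 254) (nat_lit 238)) (XT.lf (nat_lit 0) (nat_lit 82296784266) (nat_lit 152) (nat_lit 43189453168) (nat_lit 0) (nat_lit 81102430531)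 (nat_lit 2) (nat_lit 5) (nat_lit 4) (nat_lit 4) (nat_lit 2) (nat_lit 4) (nat_lit 409) (nat_lit 254) (nat_lit 237)))) (XT.nd (nat_lit 78) (nat_lit 0) (nat_lit 0) (XT.lf (nat_lit 0) (nat_lit 88389179277) (nat_lit 152) (nat_lit 41273618834) (nat_lit 0) (nat_lit 87150806052) (nat_lit 2) (nat_lit 5) (nat_lit 4) (nat_lit 4) (nat_lit 2) (nat_lit 4) (nat_lit 410) (nat_lit 254) (nat_lit 236)) (XT.nd (nat_lit 78) (nat_lit 0) (nat_lit 0) (XT.lf (nat_lit 0) (nat_lit 94740556598) (nat_lit 152) (nat_lit 39351259459) (nat_lit 0) (nat_lit 93460260049) (nat_lit 2) (nat_lit 5) (nat_lit 4) (nat_lit 4) (nat_lit 2) (nat_lit 4) (nat_lit 411) (nat_lit 254) (nat_lit 235)) (XT.lf (nat_lit 0) (nat_lit 101366038556) (nat_lit 152) (nat_lit 37417797998) (nat_lit 0) (nat_lit 100045815032) (nat_lit 2) (nat_lit 5) (nat_lit 4) (nat_lit 4) (nat_lit 2) (nat_lit 4) (nat_lit 412) (nat_lit 254) (nat_lit 234)))))) (XT.nd (nat_lit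 468) (nat_lit 0) (nat_lit 0) (XT.nd (nat_lit 234) (nat_lit 0) (nat_lit 0) (XT.nd (nat_lit 78) (nat_lit 0) (nat_lit 0) (XT.lf (nat_lit 0) (nat_lit 108281400108) (nat_lit 152) (nat_lit 35468630971) (nat_lit 0) (nat_lit 106923150894) (nat_lit 2) (nat_lit 5) (nat_lit 4) (nat_lit 4) (nat_lit 2) (nat_lit 4) (nat_lit 413) (nat_lit 254) (nat_lit 233)) (XT.nd (nat_lit 78) (nat_lit 0) (nat_lit 0) (XT.lf (nat_lit 0) (nat_lit 115503106401) (nat_lit 152) (nat_lit 33499117503) (nat_lit 0) (nat_lit 114108642244) (nat_lit 2) (nat_lit 5) (nat_lit 4) (nat_lit 4) (nat_lit 2) (nat_lit 4) (nat_lit 414) (nat_lit 254) (nat_lit 232)) (XT.lf (nat_lit 0) (nat_lit 123048351973) (nat_lit 152) (nat_lit 31504568279) (nat_lit 0) (nat_lit 121619397394) (nat_lit 2) (nat_lit 5) (nat_lit 4) (nat_lit 4) (nat_lit 2) (nat_lit 4) (nat_lit 415) (nat_lit 254) (nat_lit 231)))) (XT.nd (nat_lit 78) (nat_lit 0) (nat_lit 0) (XT.lf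 (nat_lit 0) (nat_lit 130935101695) (nat_lit 152) (nat_lit 29480234369) (nat_lit 0) (nat_lit 129473299095) (nat_lit 2) (nat_lit 5) (nat_lit 4) (nat_lit 4) (nat_lit 2) (nat_lit 4) (nat_lit 416) (nat_lit 254) (nat_lit 230)) (XT.nd (nat_lit 78) (nat_lit 0) (nat_lit 0) (XT.lf (nat_lit 0) (nat_lit 139182133543) (nat_lit 152) (nat_lit 27421295933) (nat_lit 0) (nat_lit 137689047112) (nat_lit 2) (nat_lit 5) (nat_lit 4) (nat_lit 4) (nat_lit 2) (nat_lit 4) (nat_lit 417) (nat_lit 254) (nat_lit 229)) (XT.lf (nat_lit 0) (nat_lit 147809083305) (nat_lit 152) (nat_lit 25322850736) (nat_lit 0) (nat_lit 146286202752) (nat_lit 2) (nat_lit 5) (nat_lit 4) (nat_lit 4) (nat_lit 2) (nat_lit 4) (nat_lit 418) (nat_lit 254) (nat_lit 228))))) (XT.nd (nat_lit 234) (nat_lit 0) (nat_lit 0) (XT.nd (nat_lit 78) (nat_lit 0) (nat_lit 0) (XT.lf (nat_lit 0) (nat_lit 156836491340) (nat_lit 152) (nat_lit 23179902478) (nat_lit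 0) (nat_lit 155285235431) (nat_lit 2) (nat_lit 5) (nat_lit 4) (nat_lit 4) (nat_lit 2) (nat_lit 4) (nat_lit 419) (nat_lit 254) (nat_lit 227)) (XT.nd (nat_lit 78) (nat_lit 0) (nat_lit 0) (XT.lf (nat_lit 0) (nat_lit 166285851476) (nat_lit 152) (nat_lit 20987348904) (nat_lit 0) (nat_lit 164707571418) (nat_lit 2) (nat_lit 5) (nat_lit 4) (nat_lit 4) (nat_lit 2) (nat_lit 4) (nat_lit 420) (nat_lit 254) (nat_lit 226)) (XT.lf (nat_lit 0) (nat_lit 176179662189) (nat_lit 152) (nat_lit 18739969647) (nat_lit 0) (nat_lit 174575644847) (nat_lit 2) (nat_lit 5) (nat_lit 4) (nat_lit 4) (nat_lit 2) (nat_lit 4) (nat_lit 421) (nat_lit 254) (nat_lit 225)))) (XT.nd (nat_lit 78) (nat_lit 0) (nat_lit 0) (XT.lf (nat_lit 0) (nat_lit 186541480171) (nat_lit 152) (nat_lit 16432413803) (nat_lit 0) (nat_lit 184912951130) (nat_lit 2) (nat_lit 5) (nat_lit 4) (nat_lit 4) (nat_lit 2) (nat_lit 4) (nat_lit 422) (nat_lit 254)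 (nat_lit 224)) (XT.nd (nat_lit 78) (nat_lit 0) (nat_lit 0) (XT.lf (nat_lit 0) (nat_lit 197395976418) (nat_lit 152) (nat_lit 14059187194) (nat_lit 0) (nat_lit 195744102902) (nat_lit 2) (nat_lit 5) (nat_lit 4) (nat_lit 4) (nat_lit 2) (nat_lit 4) (nat_lit 423) (nat_lit 254) (nat_lit 223)) (XT.lf (nat_lit 0) (nat_lit 208768994968) (nat_lit 152) (nat_lit 11614639278) (nat_lit 0) (nat_lit 207094888618) (nat_lit 2) (nat_lit 5) (nat_lit 4) (nat_lit 4) (nat_lit 2) (nat_lit 4) (nat_lit 424) (nat_lit 254) (nat_lit 222))))))))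
noncomputable def xc11 : XT := (XT.nd (nat_lit 45006) (nat_lit 0) (nat_lit 76) (XT.nd (nat_lit 44148) (nat_lit 0) (nat_lit 76) (XT.nd (nat_lit 390) (nat_lit 0) (nat_lit 0) (XT.nd (nat_lit 156) (nat_lit 76) (nat_lit 0) (XT.nd (nat_lit 78) (nat_lit 0) (nat_lit 0) (XT.lf (nat_lit 0) (nat_lit 220687614437) (nat_lit 152) (nat_lit 9092949704) (nat_lit 0) (nat_lit 218992333960) (nat_lit 2) (nat_lit 5) (nat_lit 4) (nat_lit 4) (nat_lit 2) (nat_lit 4) (nat_lit 425) (nat_lit 254) (nat_lit 221)) (XT.lf (nat_lit 0) (nat_lit 233180212490) (nat_lit 152) (nat_lit 6488114449) (nat_lit 0) (nat_lit 231464766177) (nat_lit 2) (nat_lit 5) (nat_lit 4) (nat_lit 4) (nat_lit 2) (nat_lit 4) (nat_lit 426) (nat_lit 254) (nat_lit 220))) (XT.nd (nat_lit 78) (nat_lit 76) (nat_lit 0) (XT.lf (nat_lit 0) (nat_lit 246276533409) (nat_lit 152) (nat_lit 3793931524) (nat_lit 0) (nat_lit 244541881538) (nat_lit 2) (nat_lit 5) (nat_lit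 4) (nat_lit 4) (nat_lit 2) (nat_lit 4) (nat_lit 427) (nat_lit 254) (nat_lit 219)) (XT.nd (nat_lit 78) (nat_lit 76) (nat_lit 0) (XT.lf (nat_lit 0) (nat_lit 260007758909) (nat_lit 152) (nat_lit 1003986208) (nat_lit 0) (nat_lit 258254816031) (nat_lit 2) (nat_lit 5) (nat_lit 4) (nat_lit 4) (nat_lit 2) (nat_lit 4) (nat_lit 428) (nat_lit 254) (nat_lit 218)) (XT.lf (nat_lit 0) (nat_lit 1950802074) (nat_lit 76) (nat_lit 272486237799) (nat_lit 76) (nat_lit 270715874914) (nat_lit 1) (nat_lit 4) (nat_lit 2) (nat_lit 5) (nat_lit 2) (nat_lit 4) (nat_lit 429) (nat_lit 254) (nat_lit 217))))) (XT.nd (nat_lit 234) (nat_lit 0) (nat_lit 0) (XT.nd (nat_lit 78) (nat_lit 0) (nat_lit 0) (XT.lf (nat_lit 0) (nat_lit 5051692018) (nat_lit 76) (nat_lit 284534465802) (nat_lit 76) (nat_lit 282747512435) (nat_lit 1) (nat_lit 4) (nat_lit 2) (nat_lit 5) (nat_lit 2) (nat_lit 4) (nat_lit 430) (nat_lit 254) (nat_lit 216))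 (XT.nd (nat_lit 78) (nat_lit 0) (nat_lit 0) (XT.lf (nat_lit 0) (nat_lit 8272870375) (nat_lit 76) (nat_lit 297202118378) (nat_lit 76) (nat_lit 295399364551) (nat_lit 1) (nat_lit 4) (nat_lit 2) (nat_lit 5) (nat_lit 2) (nat_lit 4) (nat_lit 431) (nat_lit 254) (nat_lit 215)) (XT.lf (nat_lit 0) (nat_lit 11622006619) (nat_lit 76) (nat_lit 310519356604) (nat_lit 76) (nat_lit 308701554719) (nat_lit 1) (nat_lit 4) (nat_lit 2) (nat_lit 5) (nat_lit 2) (nat_lit 4) (nat_lit 432) (nat_lit 254) (nat_lit 214)))) (XT.nd (nat_lit 78) (nat_lit 0) (nat_lit 0) (XT.lf (nat_lit 0) (nat_lit 15107074883) (nat_lit 76) (nat_lit 324517888189) (nat_lit 76) (nat_lit 322685754822) (nat_lit 1) (nat_lit 4) (nat_lit 2) (nat_lit 5) (nat_lit 2) (nat_lit 4) (nat_lit 433) (nat_lit 254) (nat_lit 213)) (XT.nd (nat_lit 78) (nat_lit 0) (nat_lit 0) (XT.lf (nat_lit 0) (nat_lit 18736372949) (nat_lit 76) (nat_lit 339231042972) (nat_lit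 76) (nat_lit 337385260573) (nat_lit 1) (nat_lit 4) (nat_lit 2) (nat_lit 5) (nat_lit 2) (nat_lit 4) (nat_lit 434) (nat_lit 254) (nat_lit 212)) (XT.lf (nat_lit 0) (nat_lit 22518542002) (nat_lit 76) (nat_lit 354693852272) (nat_lit 76) (nat_lit 352835070796) (nat_lit 1) (nat_lit 4) (nat_lit 2) (nat_lit 5) (nat_lit 2) (nat_lit 4) (nat_lit 435) (nat_lit 254) (nat_lit 211)))))) (XT.nd (nat_lit 390) (nat_lit 0) (nat_lit 0) (XT.nd (nat_lit 156) (nat_lit 0) (nat_lit 0) (XT.nd (nat_lit 78) (nat_lit 152) (nat_lit 0) (XT.lf (nat_lit 0) (nat_lit 41238160754) (nat_lit 76) (nat_lit 251195245) (nat_lit 76) (nat_lit 251195245) (nat_lit 4) (nat_lit 4) (nat_lit 5) (nat_lit 5) (nat_lit 5) (nat_lit 4) (nat_lit 390) (nat_lit 255) (nat_lit 255)) (XT.lf (nat_lit 0) (nat_lit 2840441086) (nat_lit 152) (nat_lit 81906970383) (nat_lit 0) (nat_lit 2734502935) (nat_lit 2) (nat_lit 5) (nat_lit 4) (nat_lit 4) (nat_lit 2)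 (nat_lit 4) (nat_lit 391) (nat_lit 255) (nat_lit 254))) (XT.nd (nat_lit 78) (nat_lit 0) (nat_lit 0) (XT.lf (nat_lit 0) (nat_lit 6249230006) (nat_lit 152) (nat_lit 79394958765) (nat_lit 0) (nat_lit 6042398377) (nat_lit 2) (nat_lit 5) (nat_lit 4) (nat_lit 4) (nat_lit 2) (nat_lit 4) (nat_lit 392) (nat_lit 255) (nat_lit 253)) (XT.nd (nat_lit 78) (nat_lit 0) (nat_lit 0) (XT.lf (nat_lit 0) (nat_lit 9723856522) (nat_lit 152) (nat_lit 76961947423) (nat_lit 0) (nat_lit 9420935868) (nat_lit 2) (nat_lit 5) (nat_lit 4) (nat_lit 4) (nat_lit 2) (nat_lit 4) (nat_lit 393) (nat_lit 255) (nat_lit 252)) (XT.lf (nat_lit 0) (nat_lit 13272593556) (nat_lit 152) (nat_lit 74602143474) (nat_lit 0) (nat_lit 12878159543) (nat_lit 2) (nat_lit 5) (nat_lit 4) (nat_lit 4) (nat_lit 2) (nat_lit 4) (nat_lit 394) (nat_lit 255) (nat_lit 251))))) (XT.nd (nat_lit 234) (nat_lit 0) (nat_lit 0) (XT.nd (nat_lit 78) (nat_lit 0) (nat_lit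 0) (XT.lf (nat_lit 0) (nat_lit 16903890479) (nat_lit 152) (nat_lit 72309928336) (nat_lit 0) (nat_lit 16422300888) (nat_lit 2) (nat_lit 5) (nat_lit 4) (nat_lit 4) (nat_lit 2) (nat_lit 4) (nat_lit 395) (nat_lit 255) (nat_lit 250)) (XT.nd (nat_lit 78) (nat_lit 0) (nat_lit 0) (XT.lf (nat_lit 0) (nat_lit 20626393239) (nat_lit 152) (nat_lit 70079844356) (nat_lit 0) (nat_lit 20061798333) (nat_lit 2) (nat_lit 5) (nat_lit 4) (nat_lit 4) (nat_lit 2) (nat_lit 4) (nat_lit 396) (nat_lit 255) (nat_lit 249)) (XT.lf (nat_lit 0) (nat_lit 24448964936) (nat_lit 152) (nat_lit 67906581808) (nat_lit 0) (nat_lit 23805317351) (nat_lit 2) (nat_lit 5) (nat_lit 4) (nat_lit 4) (nat_lit 2) (nat_lit 4) (nat_lit 397) (nat_lit 255) (nat_lit 248)))) (XT.nd (nat_lit 78) (nat_lit 0) (nat_lit 0) (XT.lf (nat_lit 0) (nat_lit 28380706931) (nat_lit 152) (nat_lit 65784966259) (nat_lit 0) (nat_lit 27661771080) (nat_lit 2) (nat_lit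 5) (nat_lit 4) (nat_lit 4) (nat_lit 2) (nat_lit 4) (nat_lit 398) (nat_lit 255) (nat_lit 247)) (XT.nd (nat_lit 78) (nat_lit 0) (nat_lit 0) (XT.lf (nat_lit 0) (nat_lit 32430980516) (nat_lit 152) (nat_lit 63709946242) (nat_lit 0) (nat_lit 31640341554) (nat_lit 2) (nat_lit 5) (nat_lit 4) (nat_lit 4) (nat_lit 2) (nat_lit 4) (nat_lit 399) (nat_lit 255) (nat_lit 246)) (XT.lf (nat_lit 0) (nat_lit 36609429198) (nat_lit 152) (nat_lit 61676581235) (nat_lit 0) (nat_lit 35750501560) (nat_lit 2) (nat_lit 5) (nat_lit 4) (nat_lit 4) (nat_lit 2) (nat_lit 4) (nat_lit 400) (nat_lit 255) (nat_lit 245))))))) (XT.nd (nat_lit 858) (nat_lit 0) (nat_lit 0) (XT.nd (nat_lit 390) (nat_lit 0) (nat_lit 0) (XT.nd (nat_lit 156) (nat_lit 0) (nat_lit 0) (XT.nd (nat_lit 78) (nat_lit 0) (nat_lit 0) (XT.lf (nat_lit 0) (nat_lit 40926001666) (nat_lit 152) (nat_lit 59680029891) (nat_lit 0) (nat_lit 40002037192) (nat_lit 2) (nat_lit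 5) (nat_lit 4) (nat_lit 4) (nat_lit 2) (nat_lit 4) (nat_lit 401) (nat_lit 255) (nat_lit 244)) (XT.lf (nat_lit 0) (nat_lit 45390975472) (nat_lit 152) (nat_lit 57715538517) (nat_lit 0) (nat_lit 44405071155) (nat_lit 2) (nat_lit 5) (nat_lit 4) (nat_lit 4) (nat_lit 2) (nat_lit 4) (nat_lit 402) (nat_lit 255) (nat_lit 243))) (XT.nd (nat_lit 78) (nat_lit 0) (nat_lit 0) (XT.lf (nat_lit 0) (nat_lit 50014981506) (nat_lit 152) (nat_lit 55778429752) (nat_lit 0) (nat_lit 48970086863) (nat_lit 2) (nat_lit 5) (nat_lit 4) (nat_lit 4) (nat_lit 2) (nat_lit 4) (nat_lit 403) (nat_lit 255) (nat_lit 242)) (XT.nd (nat_lit 78) (nat_lit 0) (nat_lit 0) (XT.lf (nat_lit 0) (nat_lit 54809029307) (nat_lit 152) (nat_lit 53864091433) (nat_lit 0) (nat_lit 53707953401) (nat_lit 2) (nat_lit 5) (nat_lit 4) (nat_lit 4) (nat_lit 2) (nat_lit 4) (nat_lit 404) (nat_lit 255) (nat_lit 241)) (XT.lf (nat_lit 0) (nat_lit 59784533274)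 (nat_lit 152) (nat_lit 51967965612) (nat_lit 0) (nat_lit 58629951403) (nat_lit 2) (nat_lit 5) (nat_lit 4) (nat_lit 4) (nat_lit 2) (nat_lit 4) (nat_lit 405) (nat_lit 255) (nat_lit 240))))) (XT.nd (nat_lit 234) (nat_lit 0) (nat_lit 0) (XT.nd (nat_lit 78) (nat_lit 0) (nat_lit 0) (XT.lf (nat_lit 0) (nat_lit 64953339846) (nat_lit 152) (nat_lit 50085537702) (nat_lit 0) (nat_lit 63747799912) (nat_lit 2) (nat_lit 5) (nat_lit 4) (nat_lit 4) (nat_lit 2) (nat_lit 4) (nat_lit 406) (nat_lit 255) (nat_lit 239)) (XT.nd (nat_lit 78) (nat_lit 0) (nat_lit 0) (XT.lf (nat_lit 0) (nat_lit 70327755704) (nat_lit 152) (nat_lit 48212325734) (nat_lit 0) (nat_lit 69073684283) (nat_lit 2) (nat_lit 5) (nat_lit 4) (nat_lit 4) (nat_lit 2) (nat_lit 4) (nat_lit 407) (nat_lit 255) (nat_lit 238)) (XT.lf (nat_lit 0) (nat_lit 75920577077) (nat_lit 152) (nat_lit 46343869678) (nat_lit 0) (nat_lit 74620285191) (nat_lit 2) (nat_lit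 5) (nat_lit 4) (nat_lit 4) (nat_lit 2) (nat_lit 4) (nat_lit 408) (nat_lit 255) (nat_lit 237)))) (XT.nd (nat_lit 78) (nat_lit 0) (nat_lit 0) (XT.lf (nat_lit 0) (nat_lit 81745120206) (nat_lit 152) (nat_lit 44475720830) (nat_lit 0) (nat_lit 80400808830) (nat_lit 2) (nat_lit 5) (nat_lit 4) (nat_lit 4) (nat_lit 2) (nat_lit 4) (nat_lit 409) (nat_lit 255) (nat_lit 236)) (XT.nd (nat_lit 78) (nat_lit 0) (nat_lit 0) (XT.lf (nat_lit 0) (nat_lit 87815253051) (nat_lit 152) (nat_lit 42603431215) (nat_lit 0) (nat_lit 86429018351) (nat_lit 2) (nat_lit 5) (nat_lit 4) (nat_lit 4) (nat_lit 2) (nat_lit 4) (nat_lit 410) (nat_lit 255) (nat_lit 235)) (XT.lf (nat_lit 0) (nat_lit 94145428309) (nat_lit 152) (nat_lit 40722543003) (nat_lit 0) (nat_lit 92719266634) (nat_lit 2) (nat_lit 5) (nat_lit 4) (nat_lit 4) (nat_lit 2) (nat_lit 4) (nat_lit 411) (nat_lit 255) (nat_lit 234)))))) (XT.nd (nat_lit 468) (nat_lit 0)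 (nat_lit 0) (XT.nd (nat_lit 234) (nat_lit 0) (nat_lit 0) (XT.nd (nat_lit 78) (nat_lit 0) (nat_lit 0) (XT.lf (nat_lit 0) (nat_lit 100750717826) (nat_lit 152) (nat_lit 38828577886) (nat_lit 0) (nat_lit 99286530461) (nat_lit 2) (nat_lit 5) (nat_lit 4) (nat_lit 4) (nat_lit 2) (nat_lit 4) (nat_lit 412) (nat_lit 255) (nat_lit 233)) (XT.nd (nat_lit 78) (nat_lit 0) (nat_lit 0) (XT.lf (nat_lit 0) (nat_lit 107646848482) (nat_lit 152) (nat_lit 36917026426) (nat_lit 0) (nat_lit 106146446174) (nat_lit 2) (nat_lit 5) (nat_lit 4) (nat_lit 4) (nat_lit 2) (nat_lit 4) (nat_lit 413) (nat_lit 255) (nat_lit 232)) (XT.lf (nat_lit 0) (nat_lit 114850239636) (nat_lit 152) (nat_lit 34983337308) (nat_lit 0) (nat_lit 113315346905) (nat_lit 2) (nat_lit 5) (nat_lit 4) (nat_lit 4) (nat_lit 2) (nat_lit 4) (nat_lit 414) (nat_lit 255) (nat_lit 231)))) (XT.nd (nat_lit 78) (nat_lit 0) (nat_lit 0) (XT.lf (nat_lit 0) (nat_lit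 122378042218) (nat_lit 152) (nat_lit 33022906511) (nat_lit 0) (nat_lit 120810301467) (nat_lit 2) (nat_lit 5) (nat_lit 4) (nat_lit 4) (nat_lit 2) (nat_lit 4) (nat_lit 415) (nat_lit 255) (nat_lit 230)) (XT.nd (nat_lit 78) (nat_lit 0) (nat_lit 0) (XT.lf (nat_lit 0) (nat_lit 130248179569) (nat_lit 152) (nat_lit 31031066342) (nat_lit 0) (nat_lit 128649154988) (nat_lit 2) (nat_lit 5) (nat_lit 4) (nat_lit 4) (nat_lit 2) (nat_lit 4) (nat_lit 416) (nat_lit 255) (nat_lit 229)) (XT.lf (nat_lit 0) (nat_lit 138479390111) (nat_lit 152) (nat_lit 29003074326) (nat_lit 0) (nat_lit 136850571406) (nat_lit 2) (nat_lit 5) (nat_lit 4) (nat_lit 4) (nat_lit 2) (nat_lit 4) (nat_lit 417) (nat_lit 255) (nat_lit 228))))) (XT.nd (nat_lit 234) (nat_lit 0) (nat_lit 0) (XT.nd (nat_lit 78) (nat_lit 0) (nat_lit 0) (XT.lf (nat_lit 0) (nat_lit 147091271964) (nat_lit 152) (nat_lit 26934101909) (nat_lit 0) (nat_lit 145434077903)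 (nat_lit 2) (nat_lit 5) (nat_lit 4) (nat_lit 4) (nat_lit 2) (nat_lit 4) (nat_lit 418) (nat_lit 255) (nat_lit 227)) (XT.nd (nat_lit 78) (nat_lit 0) (nat_lit 0) (XT.lf (nat_lit 0) (nat_lit 156104329608) (nat_lit 152) (nat_lit 24819222967) (nat_lit 0) (nat_lit 154420111399) (nat_lit 2) (nat_lit 5) (nat_lit 4) (nat_lit 4) (nat_lit 2) (nat_lit 4) (nat_lit 419) (nat_lit 255) (nat_lit 226)) (XT.lf (nat_lit 0) (nat_lit 165540022705) (nat_lit 152) (nat_lit 22653402073) (nat_lit 0) (nat_lit 163830067212) (nat_lit 2) (nat_lit 5) (nat_lit 4) (nat_lit 4) (nat_lit 2) (nat_lit 4) (nat_lit 420) (nat_lit 255) (nat_lit 225)))) (XT.nd (nat_lit 78) (nat_lit 0) (nat_lit 0) (XT.lf (nat_lit 0) (nat_lit 175420817190) (nat_lit 152) (nat_lit 20431482512) (nat_lit 0) (nat_lit 173686349998) (nat_lit 2) (nat_lit 5) (nat_lit 4) (nat_lit 4) (nat_lit 2) (nat_lit 4) (nat_lit 421) (nat_lit 255) (nat_lit 224)) (XT.nd (nat_lit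 78) (nat_lit 0) (nat_lit 0) (XT.lf (nat_lit 0) (nat_lit 185770238765) (nat_lit 152) (nat_lit 18148173998) (nat_lit 0) (nat_lit 184012427098) (nat_lit 2) (nat_lit 5) (nat_lit 4) (nat_lit 4) (nat_lit 2) (nat_lit 4) (nat_lit 422) (nat_lit 255) (nat_lit 223)) (XT.lf (nat_lit 0) (nat_lit 196612928910) (nat_lit 152) (nat_lit 15798040083) (nat_lit 0) (nat_lit 194832884409) (nat_lit 2) (nat_lit 5) (nat_lit 4) (nat_lit 4) (nat_lit 2) (nat_lit 4) (nat_lit 423) (nat_lit 255) (nat_lit 222))))))))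
noncomputable def xc12 : XT := (XT.nd (nat_lit 44850) (nat_lit 0) (nat_lit 76) (XT.nd (nat_lit 858) (nat_lit 0) (nat_lit 0) (XT.nd (nat_lit 390) (nat_lit 76) (nat_lit 0) (XT.nd (nat_lit 156) (nat_lit 0) (nat_lit 0) (XT.nd (nat_lit 78) (nat_lit 0) (nat_lit 0) (XT.lf (nat_lit 0) (nat_lit 207974703553) (nat_lit 152) (nat_lit 13375485210) (nat_lit 0) (nat_lit 206173484925) (nat_lit 2) (nat_lit 5) (nat_lit 4) (nat_lit 4) (nat_lit 2) (nat_lit 4) (nat_lit 424) (nat_lit 255) (nat_lit 221)) (XT.lf (nat_lit 0) (nat_lit 219882614540) (nat_lit 152) (nat_lit 10874741391) (nat_lit 0) (nat_lit 218061230076) (nat_lit 2) (nat_lit 5) (nat_lit 4) (nat_lit 4) (nat_lit 2) (nat_lit 4) (nat_lit 425) (nat_lit 255) (nat_lit 220))) (XT.nd (nat_lit 78) (nat_lit 0) (nat_lit 0) (XT.lf (nat_lit 0) (nat_lit 232365014038) (nat_lit 152) (nat_lit 8289854474) (nat_lit 0) (nat_lit 230524424017) (nat_lit 2) (nat_lit 5) (nat_lit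 4) (nat_lit 4) (nat_lit 2) (nat_lit 4) (nat_lit 426) (nat_lit 255) (nat_lit 219)) (XT.nd (nat_lit 78) (nat_lit 0) (nat_lit 0) (XT.lf (nat_lit 0) (nat_lit 245451622048) (nat_lit 152) (nat_lit 5614669966) (nat_lit 0) (nat_lit 243592741018) (nat_lit 2) (nat_lit 5) (nat_lit 4) (nat_lit 4) (nat_lit 2) (nat_lit 4) (nat_lit 427) (nat_lit 255) (nat_lit 218)) (XT.lf (nat_lit 0) (nat_lit 259173597158) (nat_lit 152) (nat_lit 2842818381) (nat_lit 0) (nat_lit 257297296122) (nat_lit 2) (nat_lit 5) (nat_lit 4) (nat_lit 4) (nat_lit 2) (nat_lit 4) (nat_lit 428) (nat_lit 255) (nat_lit 217))))) (XT.nd (nat_lit 234) (nat_lit 0) (nat_lit 0) (XT.nd (nat_lit 78) (nat_lit 0) (nat_lit 0) (XT.lf (nat_lit 0) (nat_lit 33367908) (nat_lit 76) (nat_lit 273530763797) (nat_lit 76) (nat_lit 271637872278) (nat_lit 1) (nat_lit 4) (nat_lit 2) (nat_lit 5) (nat_lit 2) (nat_lit 4) (nat_lit 429) (nat_lit 255) (nat_lit 216)) (XT.nd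 (nat_lit 78) (nat_lit 0) (nat_lit 0) (XT.lf (nat_lit 0) (nat_lit 3117303665) (nat_lit 76) (nat_lit 285587290909) (nat_lit 76) (nat_lit 283678598930) (nat_lit 1) (nat_lit 4) (nat_lit 2) (nat_lit 5) (nat_lit 2) (nat_lit 4) (nat_lit 430) (nat_lit 255) (nat_lit 215)) (XT.lf (nat_lit 0) (nat_lit 6322335178) (nat_lit 76) (nat_lit 298262847397) (nat_lit 76) (nat_lit 296339107362) (nat_lit 1) (nat_lit 4) (nat_lit 2) (nat_lit 5) (nat_lit 2) (nat_lit 4) (nat_lit 431) (nat_lit 255) (nat_lit 214)))) (XT.nd (nat_lit 78) (nat_lit 0) (nat_lit 0) (XT.lf (nat_lit 0) (nat_lit 9656093475) (nat_lit 76) (nat_lit 311587613159) (nat_lit 76) (nat_lit 309649541640) (nat_lit 1) (nat_lit 4) (nat_lit 2) (nat_lit 5) (nat_lit 2) (nat_lit 4) (nat_lit 432) (nat_lit 255) (nat_lit 213)) (XT.nd (nat_lit 78) (nat_lit 0) (nat_lit 0) (XT.lf (nat_lit 0) (nat_lit 13126516075) (nat_lit 76) (nat_lit 325593313826) (nat_lit 76) (nat_lit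 323641593276) (nat_lit 1) (nat_lit 4) (nat_lit 2) (nat_lit 5) (nat_lit 2) (nat_lit 4) (nat_lit 433) (nat_lit 255) (nat_lit 212)) (XT.lf (nat_lit 0) (nat_lit 16741865889) (nat_lit 76) (nat_lit 340313296306) (nat_lit 76) (nat_lit 338348576678) (nat_lit 1) (nat_lit 4) (nat_lit 2) (nat_lit 5) (nat_lit 2) (nat_lit 4) (nat_lit 434) (nat_lit 255) (nat_lit 211)))))) (XT.nd (nat_lit 43524) (nat_lit 0) (nat_lit 76) (XT.nd (nat_lit 43290) (nat_lit 0) (nat_lit 76) (XT.nd (nat_lit 43212) (nat_lit 0) (nat_lit 228) (XT.lf (nat_lit 0) (nat_lit 20510750893) (nat_lit 76) (nat_lit 355782608174) (nat_lit 76) (nat_lit 353805508474) (nat_lit 1) (nat_lit 4) (nat_lit 2) (nat_lit 5) (nat_lit 2) (nat_lit 4) (nat_lit 435) (nat_lit 255) (nat_lit 210)) (XT.lf (nat_lit 0) (nat_lit 31229414415) (nat_lit 76) (nat_lit 3394891225) (nat_lit 76) (nat_lit 3394891225) (nat_lit 4) (nat_lit 4) (nat_lit 5) (nat_lit 5) (nat_lit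 5) (nat_lit 4) (nat_lit 388) (nat_lit 256) (nat_lit 256))) (XT.nd (nat_lit 78) (nat_lit 152) (nat_lit 0) (XT.lf (nat_lit 0) (nat_lit 72276129423) (nat_lit 76) (nat_lit 3754146038) (nat_lit 76) (nat_lit 3637349226) (nat_lit 4) (nat_lit 4) (nat_lit 5) (nat_lit 5) (nat_lit 5) (nat_lit 4) (nat_lit 389) (nat_lit 256) (nat_lit 255)) (XT.nd (nat_lit 78) (nat_lit 152) (nat_lit 0) (XT.lf (nat_lit 0) (nat_lit 82373489572) (nat_lit 76) (nat_lit 669148730) (nat_lit 76) (nat_lit 441116859) (nat_lit 4) (nat_lit 4) (nat_lit 5) (nat_lit 5) (nat_lit 5) (nat_lit 4) (nat_lit 390) (nat_lit 256) (nat_lit 254)) (XT.lf (nat_lit 0) (nat_lit 2841844203) (nat_lit 152) (nat_lit 82121801284) (nat_lit 0) (nat_lit 2523777515) (nat_lit 2) (nat_lit 5) (nat_lit 4) (nat_lit 4) (nat_lit 2) (nat_lit 4) (nat_lit 391) (nat_lit 256) (nat_lit 253))))) (XT.nd (nat_lit 234) (nat_lit 0) (nat_lit 0) (XT.nd (nat_lit 78) (nat_lit 0)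 (nat_lit 0) (XT.lf (nat_lit 0) (nat_lit 6199607830) (nat_lit 152) (nat_lit 79709594962) (nat_lit 0) (nat_lit 5785452117) (nat_lit 2) (nat_lit 5) (nat_lit 4) (nat_lit 4) (nat_lit 2) (nat_lit 4) (nat_lit 392) (nat_lit 256) (nat_lit 252)) (XT.nd (nat_lit 78) (nat_lit 0) (nat_lit 0) (XT.lf (nat_lit 0) (nat_lit 9625638830) (nat_lit 152) (nat_lit 77371636283) (nat_lit 0) (nat_lit 9119969759) (nat_lit 2) (nat_lit 5) (nat_lit 4) (nat_lit 4) (nat_lit 2) (nat_lit 4) (nat_lit 393) (nat_lit 256) (nat_lit 251)) (XT.lf (nat_lit 0) (nat_lit 13128094419) (nat_lit 152) (nat_lit 75102358680) (nat_lit 0) (nat_lit 12535269768) (nat_lit 2) (nat_lit 5) (nat_lit 4) (nat_lit 4) (nat_lit 2) (nat_lit 4) (nat_lit 394) (nat_lit 256) (nat_lit 250)))) (XT.nd (nat_lit 78) (nat_lit 0) (nat_lit 0) (XT.lf (nat_lit 0) (nat_lit 16715313776) (nat_lit 152) (nat_lit 72896359110) (nat_lit 0) (nat_lit 16039483812) (nat_lit 2)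 (nat_lit 5) (nat_lit 4) (nat_lit 4) (nat_lit 2) (nat_lit 4) (nat_lit 395) (nat_lit 256) (nat_lit 249)) (XT.nd (nat_lit 78) (nat_lit 0) (nat_lit 0) (XT.lf (nat_lit 0) (nat_lit 20395837902) (nat_lit 152) (nat_lit 70748385194) (nat_lit 0) (nat_lit 19640955258) (nat_lit 2) (nat_lit 5) (nat_lit 4) (nat_lit 4) (nat_lit 2) (nat_lit 4) (nat_lit 396) (nat_lit 256) (nat_lit 248)) (XT.lf (nat_lit 0) (nat_lit 24178429947) (nat_lit 152) (nat_lit 68653322708) (nat_lit 0) (nat_lit 23348259037) (nat_lit 2) (nat_lit 5) (nat_lit 4) (nat_lit 4) (nat_lit 2) (nat_lit 4) (nat_lit 397) (nat_lit 256) (nat_lit 247))))))) (XT.nd (nat_lit 858) (nat_lit 0) (nat_lit 0) (XT.nd (nat_lit 390) (nat_lit 0) (nat_lit 0) (XT.nd (nat_lit 156) (nat_lit 0) (nat_lit 0) (XT.nd (nat_lit 78) (nat_lit 0) (nat_lit 0) (XT.lf (nat_lit 0) (nat_lit 28072096083) (nat_lit 152) (nat_lit 66606183407) (nat_lit 0) (nat_lit 27170222063) (nat_lit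 2) (nat_lit 5) (nat_lit 4) (nat_lit 4) (nat_lit 2) (nat_lit 4) (nat_lit 398) (nat_lit 256) (nat_lit 246)) (XT.lf (nat_lit 0) (nat_lit 32086106945) (nat_lit 152) (nat_lit 64602093152) (nat_lit 0) (nat_lit 31115944248) (nat_lit 2) (nat_lit 5) (nat_lit 4) (nat_lit 4) (nat_lit 2) (nat_lit 4) (nat_lit 399) (nat_lit 256) (nat_lit 245))) (XT.nd (nat_lit 78) (nat_lit 0) (nat_lit 0) (XT.lf (nat_lit 0) (nat_lit 36230019701) (nat_lit 152) (nat_lit 62636280297) (nat_lit 0) (nat_lit 35194820169) (nat_lit 2) (nat_lit 5) (nat_lit 4) (nat_lit 4) (nat_lit 2) (nat_lit 4) (nat_lit 400) (nat_lit 256) (nat_lit 244)) (XT.nd (nat_lit 78) (nat_lit 0) (nat_lit 0) (XT.lf (nat_lit 0) (nat_lit 40513700810) (nat_lit 152) (nat_lit 60704064337) (nat_lit 0) (nat_lit 39416561435) (nat_lit 2) (nat_lit 5) (nat_lit 4) (nat_lit 4) (nat_lit 2) (nat_lit 4) (nat_lit 401) (nat_lit 256) (nat_lit 243)) (XT.lf (nat_lit 0) (nat_lit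 44947349513) (nat_lit 152) (nat_lit 58800844757) (nat_lit 0) (nat_lit 43791219811) (nat_lit 2) (nat_lit 5) (nat_lit 4) (nat_lit 4) (nat_lit 2) (nat_lit 4) (nat_lit 402) (nat_lit 256) (nat_lit 242))))) (XT.nd (nat_lit 234) (nat_lit 0) (nat_lit 0) (XT.nd (nat_lit 78) (nat_lit 0) (nat_lit 0) (XT.lf (nat_lit 0) (nat_lit 49541522116) (nat_lit 152) (nat_lit 56922090082) (nat_lit 0) (nat_lit 48329211150) (nat_lit 2) (nat_lit 5) (nat_lit 4) (nat_lit 4) (nat_lit 2) (nat_lit 4) (nat_lit 403) (nat_lit 256) (nat_lit 241)) (XT.nd (nat_lit 78) (nat_lit 0) (nat_lit 0) (XT.lf (nat_lit 0) (nat_lit 54307157124) (nat_lit 152) (nat_lit 55063327087) (nat_lit 0) (nat_lit 53041340194) (nat_lit 2) (nat_lit 5) (nat_lit 4) (nat_lit 4) (nat_lit 2) (nat_lit 4) (nat_lit 404) (nat_lit 256) (nat_lit 240)) (XT.lf (nat_lit 0) (nat_lit 59255601290) (nat_lit 152) (nat_lit 53220130145) (nat_lit 0) (nat_lit 57938826297) (nat_lit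 2) (nat_lit 5) (nat_lit 4) (nat_lit 4) (nat_lit 2) (nat_lit 4) (nat_lit 405) (nat_lit 256) (nat_lit 239)))) (XT.nd (nat_lit 78) (nat_lit 0) (nat_lit 0) (XT.lf (nat_lit 0) (nat_lit 64398636621) (nat_lit 152) (nat_lit 51388110693) (nat_lit 0) (nat_lit 63033330141) (nat_lit 2) (nat_lit 5) (nat_lit 4) (nat_lit 4) (nat_lit 2) (nat_lit 4) (nat_lit 406) (nat_lit 256) (nat_lit 238)) (XT.nd (nat_lit 78) (nat_lit 0) (nat_lit 0) (XT.lf (nat_lit 0) (nat_lit 69748508441) (nat_lit 152) (nat_lit 49562906779) (nat_lit 0) (nat_lit 68336981497) (nat_lit 2) (nat_lit 5) (nat_lit 4) (nat_lit 4) (nat_lit 2) (nat_lit 4) (nat_lit 407) (nat_lit 256) (nat_lit 237)) (XT.lf (nat_lit 0) (nat_lit 75317954540) (nat_lit 152) (nat_lit 47740172679) (nat_lit 0) (nat_lit 73862408105) (nat_lit 2) (nat_lit 5) (nat_lit 4) (nat_lit 4) (nat_lit 2) (nat_lit 4) (nat_lit 408) (nat_lit 256) (nat_lit 236)))))) (XT.nd (nat_lit 468)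 (nat_lit 0) (nat_lit 0) (XT.nd (nat_lit 234) (nat_lit 0) (nat_lit 0) (XT.nd (nat_lit 78) (nat_lit 0) (nat_lit 0) (XT.lf (nat_lit 0) (nat_lit 81120235502) (nat_lit 152) (nat_lit 45915568551) (nat_lit 0) (nat_lit 79622765744) (nat_lit 2) (nat_lit 5) (nat_lit 4) (nat_lit 4) (nat_lit 2) (nat_lit 4) (nat_lit 409) (nat_lit 256) (nat_lit 235)) (XT.nd (nat_lit 78) (nat_lit 0) (nat_lit 0) (XT.lf (nat_lit 0) (nat_lit 87169166284) (nat_lit 152) (nat_lit 44084750099) (nat_lit 0) (nat_lit 85631769551) (nat_lit 2) (nat_lit 5) (nat_lit 4) (nat_lit 4) (nat_lit 2) (nat_lit 4) (nat_lit 410) (nat_lit 256) (nat_lit 234)) (XT.lf (nat_lit 0) (nat_lit 93479149102) (nat_lit 152) (nat_lit 42243358231) (nat_lit 0) (nat_lit 91903726678) (nat_lit 2) (nat_lit 5) (nat_lit 4) (nat_lit 4) (nat_lit 2) (nat_lit 4) (nat_lit 411) (nat_lit 256) (nat_lit 233)))) (XT.nd (nat_lit 78) (nat_lit 0) (nat_lit 0) (XT.lf (nat_lit 0)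 (nat_lit 100065207723) (nat_lit 152) (nat_lit 40387008681) (nat_lit 0) (nat_lit 98453570356) (nat_lit 2) (nat_lit 5) (nat_lit 4) (nat_lit 4) (nat_lit 2) (nat_lit 4) (nat_lit 412) (nat_lit 256) (nat_lit 232)) (XT.nd (nat_lit 78) (nat_lit 0) (nat_lit 0) (XT.lf (nat_lit 0) (nat_lit 106943023240) (nat_lit 152) (nat_lit 38511281570) (nat_lit 0) (nat_lit 105296895450) (nat_lit 2) (nat_lit 5) (nat_lit 4) (nat_lit 4) (nat_lit 2) (nat_lit 4) (nat_lit 413) (nat_lit 256) (nat_lit 231)) (XT.lf (nat_lit 0) (nat_lit 114128971404) (nat_lit 152) (nat_lit 36611710879) (nat_lit 0) (nat_lit 112449995593) (nat_lit 2) (nat_lit 5) (nat_lit 4) (nat_lit 4) (nat_lit 2) (nat_lit 4) (nat_lit 414) (nat_lit 256) (nat_lit 230))))) (XT.nd (nat_lit 234) (nat_lit 0) (nat_lit 0) (XT.nd (nat_lit 78) (nat_lit 0) (nat_lit 0) (XT.lf (nat_lit 0) (nat_lit 121640161615) (nat_lit 152) (nat_lit 34683773823) (nat_lit 0) (nat_lit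 119929901975) (nat_lit 2) (nat_lit 5) (nat_lit 4) (nat_lit 4) (nat_lit 2) (nat_lit 4) (nat_lit 415) (nat_lit 256) (nat_lit 229)) (XT.nd (nat_lit 78) (nat_lit 0) (nat_lit 0) (XT.lf (nat_lit 0) (nat_lit 129494477661) (nat_lit 152) (nat_lit 32722880074) (nat_lit 0) (nat_lit 127754423897) (nat_lit 2) (nat_lit 5) (nat_lit 4) (nat_lit 4) (nat_lit 2) (nat_lit 4) (nat_lit 416) (nat_lit 256) (nat_lit 228)) (XT.lf (nat_lit 0) (nat_lit 137710620292) (nat_lit 152) (nat_lit 30724360838) (nat_lit 0) (nat_lit 135942191172) (nat_lit 2) (nat_lit 5) (nat_lit 4) (nat_lit 4) (nat_lit 2) (nat_lit 4) (nat_lit 417) (nat_lit 256) (nat_lit 227)))) (XT.nd (nat_lit 78) (nat_lit 0) (nat_lit 0) (XT.lf (nat_lit 0) (nat_lit 146308151754) (nat_lit 152) (nat_lit 28683457736) (nat_lit 0) (nat_lit 144512698486) (nat_lit 2) (nat_lit 5) (nat_lit 4) (nat_lit 4) (nat_lit 2) (nat_lit 4) (nat_lit 418) (nat_lit 256) (nat_lit 226))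 (XT.nd (nat_lit 78) (nat_lit 0) (nat_lit 0) (XT.lf (nat_lit 0) (nat_lit 155307542359) (nat_lit 152) (nat_lit 26595311475) (nat_lit 0) (nat_lit 153486351807) (nat_lit 2) (nat_lit 5) (nat_lit 4) (nat_lit 4) (nat_lit 2) (nat_lit 4) (nat_lit 419) (nat_lit 256) (nat_lit 225)) (XT.lf (nat_lit 0) (nat_lit 164730219228) (nat_lit 152) (nat_lit 24454950277) (nat_lit 0) (nat_lit 162884516977) (nat_lit 2) (nat_lit 5) (nat_lit 4) (nat_lit 4) (nat_lit 2) (nat_lit 4) (nat_lit 420) (nat_lit 256) (nat_lit 224))))))))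
noncomputable def xc13 : XT := (XT.nd (nat_lit 44694) (nat_lit 0) (nat_lit 76) (XT.nd (nat_lit 858) (nat_lit 0) (nat_lit 0) (XT.nd (nat_lit 390) (nat_lit 76) (nat_lit 0) (XT.nd (nat_lit 156) (nat_lit 0) (nat_lit 0) (XT.nd (nat_lit 78) (nat_lit 0) (nat_lit 0) (XT.lf (nat_lit 0) (nat_lit 174598617307) (nat_lit 152) (nat_lit 22257278046) (nat_lit 0) (nat_lit 172729570580) (nat_lit 2) (nat_lit 5) (nat_lit 4) (nat_lit 4) (nat_lit 2) (nat_lit 4) (nat_lit 421) (nat_lit 256) (nat_lit 223)) (XT.lf (nat_lit 0) (nat_lit 184936232780) (nat_lit 152) (nat_lit 19997062227) (nat_lit 0) (nat_lit 183044953220) (nat_lit 2) (nat_lit 5) (nat_lit 4) (nat_lit 4) (nat_lit 2) (nat_lit 4) (nat_lit 422) (nat_lit 256) (nat_lit 222))) (XT.nd (nat_lit 78) (nat_lit 0) (nat_lit 0) (XT.lf (nat_lit 0) (nat_lit 195767679018) (nat_lit 152) (nat_lit 17668921355) (nat_lit 0) (nat_lit 193855225331) (nat_lit 2) (nat_lit 5) (nat_lit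 4) (nat_lit 4) (nat_lit 2) (nat_lit 4) (nat_lit 423) (nat_lit 256) (nat_lit 221)) (XT.nd (nat_lit 78) (nat_lit 0) (nat_lit 0) (XT.lf (nat_lit 0) (nat_lit 207118745179) (nat_lit 152) (nat_lit 15267312236) (nat_lit 0) (nat_lit 205186125656) (nat_lit 2) (nat_lit 5) (nat_lit 4) (nat_lit 4) (nat_lit 2) (nat_lit 4) (nat_lit 424) (nat_lit 256) (nat_lit 220)) (XT.lf (nat_lit 0) (nat_lit 219016457611) (nat_lit 152) (nat_lit 12786516756) (nat_lit 0) (nat_lit 217064632530) (nat_lit 2) (nat_lit 5) (nat_lit 4) (nat_lit 4) (nat_lit 2) (nat_lit 4) (nat_lit 425) (nat_lit 256) (nat_lit 219))))) (XT.nd (nat_lit 234) (nat_lit 76) (nat_lit 0) (XT.nd (nat_lit 78) (nat_lit 0) (nat_lit 0) (XT.lf (nat_lit 0) (nat_lit 231489144200) (nat_lit 152) (nat_lit 10220628256) (nat_lit 0) (nat_lit 229519028112) (nat_lit 2) (nat_lit 5) (nat_lit 4) (nat_lit 4) (nat_lit 2) (nat_lit 4) (nat_lit 426) (nat_lit 256) (nat_lit 218))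 (XT.nd (nat_lit 78) (nat_lit 0) (nat_lit 0) (XT.lf (nat_lit 0) (nat_lit 244566501819) (nat_lit 152) (nat_lit 7563537479) (nat_lit 0) (nat_lit 242578965724) (nat_lit 2) (nat_lit 5) (nat_lit 4) (nat_lit 4) (nat_lit 2) (nat_lit 4) (nat_lit 427) (nat_lit 256) (nat_lit 217)) (XT.lf (nat_lit 0) (nat_lit 258279667035) (nat_lit 152) (nat_lit 4808918018) (nat_lit 0) (nat_lit 256275540457) (nat_lit 2) (nat_lit 5) (nat_lit 4) (nat_lit 4) (nat_lit 2) (nat_lit 4) (nat_lit 428) (nat_lit 256) (nat_lit 216)))) (XT.nd (nat_lit 78) (nat_lit 76) (nat_lit 0) (XT.lf (nat_lit 0) (nat_lit 272661290239) (nat_lit 152) (nat_lit 1950211256) (nat_lit 0) (nat_lit 270641363202) (nat_lit 2) (nat_lit 5) (nat_lit 4) (nat_lit 4) (nat_lit 2) (nat_lit 4) (nat_lit 429) (nat_lit 256) (nat_lit 215)) (XT.nd (nat_lit 78) (nat_lit 0) (nat_lit 0) (XT.lf (nat_lit 0) (nat_lit 1053094863) (nat_lit 76) (nat_lit 286708960292) (nat_lit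 76) (nat_lit 284673985198) (nat_lit 1) (nat_lit 4) (nat_lit 2) (nat_lit 5) (nat_lit 2) (nat_lit 4) (nat_lit 430) (nat_lit 256) (nat_lit 214)) (XT.lf (nat_lit 0) (nat_lit 4242748429) (nat_lit 76) (nat_lit 299392044316) (nat_lit 76) (nat_lit 297342737739) (nat_lit 1) (nat_lit 4) (nat_lit 2) (nat_lit 5) (nat_lit 2) (nat_lit 4) (nat_lit 431) (nat_lit 256) (nat_lit 213)))))) (XT.nd (nat_lit 43368) (nat_lit 0) (nat_lit 76) (XT.nd (nat_lit 156) (nat_lit 0) (nat_lit 0) (XT.nd (nat_lit 78) (nat_lit 0) (nat_lit 0) (XT.lf (nat_lit 0) (nat_lit 7561861062) (nat_lit 76) (nat_lit 312723979160) (nat_lit 76) (nat_lit 310661023551) (nat_lit 1) (nat_lit 4) (nat_lit 2) (nat_lit 5) (nat_lit 2) (nat_lit 4) (nat_lit 432) (nat_lit 256) (nat_lit 212)) (XT.lf (nat_lit 0) (nat_lit 11018335410) (nat_lit 76) (nat_lit 326736507524) (nat_lit 76) (nat_lit 324660552838) (nat_lit 1) (nat_lit 4) (nat_lit 2) (nat_lit 5) (nat_lit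 2) (nat_lit 4) (nat_lit 433) (nat_lit 256) (nat_lit 211))) (XT.nd (nat_lit 78) (nat_lit 0) (nat_lit 0) (XT.lf (nat_lit 0) (nat_lit 14620401175) (nat_lit 76) (nat_lit 341462992572) (nat_lit 76) (nat_lit 339374657812) (nat_lit 1) (nat_lit 4) (nat_lit 2) (nat_lit 5) (nat_lit 2) (nat_lit 4) (nat_lit 434) (nat_lit 256) (nat_lit 210)) (XT.nd (nat_lit 43056) (nat_lit 0) (nat_lit 228) (XT.lf (nat_lit 0) (nat_lit 18376634704) (nat_lit 76) (nat_lit 356938497363) (nat_lit 76) (nat_lit 354838372057) (nat_lit 1) (nat_lit 4) (nat_lit 2) (nat_lit 5) (nat_lit 2) (nat_lit 4) (nat_lit 435) (nat_lit 256) (nat_lit 209)) (XT.lf (nat_lit 0) (nat_lit 21842445792) (nat_lit 76) (nat_lit 6404668637) (nat_lit 76) (nat_lit 6404668637) (nat_lit 4) (nat_lit 4) (nat_lit 5) (nat_lit 5) (nat_lit 5) (nat_lit 4) (nat_lit 386) (nat_lit 257) (nat_lit 257))))) (XT.nd (nat_lit 234) (nat_lit 152) (nat_lit 0) (XT.nd (nat_lit 78)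 (nat_lit 0) (nat_lit 0) (XT.lf (nat_lit 0) (nat_lit 52898213271) (nat_lit 76) (nat_lit 9905922325) (nat_lit 76) (nat_lit 9783285673) (nat_lit 4) (nat_lit 4) (nat_lit 5) (nat_lit 5) (nat_lit 5) (nat_lit 4) (nat_lit 387) (nat_lit 257) (nat_lit 256)) (XT.nd (nat_lit 78) (nat_lit 0) (nat_lit 0) (XT.lf (nat_lit 0) (nat_lit 62350855296) (nat_lit 76) (nat_lit 6964878601) (nat_lit 76) (nat_lit 6725445137) (nat_lit 4) (nat_lit 4) (nat_lit 5) (nat_lit 5) (nat_lit 5) (nat_lit 4) (nat_lit 388) (nat_lit 257) (nat_lit 255)) (XT.lf (nat_lit 0) (nat_lit 72065323950) (nat_lit 76) (nat_lit 3979203615) (nat_lit 76) (nat_lit 3628535092) (nat_lit 4) (nat_lit 4) (nat_lit 5) (nat_lit 5) (nat_lit 5) (nat_lit 4) (nat_lit 389) (nat_lit 257) (nat_lit 254)))) (XT.nd (nat_lit 78) (nat_lit 152) (nat_lit 0) (XT.lf (nat_lit 0) (nat_lit 82064748920) (nat_lit 76) (nat_lit 941788618) (nat_lit 76) (nat_lit 485181944) (nat_lit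 4) (nat_lit 4) (nat_lit 5) (nat_lit 5) (nat_lit 5) (nat_lit 4) (nat_lit 390) (nat_lit 257) (nat_lit 253)) (XT.nd (nat_lit 78) (nat_lit 0) (nat_lit 0) (XT.lf (nat_lit 0) (nat_lit 2738715626) (nat_lit 152) (nat_lit 82551974587) (nat_lit 0) (nat_lit 2207763101) (nat_lit 2) (nat_lit 5) (nat_lit 4) (nat_lit 4) (nat_lit 2) (nat_lit 4) (nat_lit 391) (nat_lit 257) (nat_lit 252)) (XT.lf (nat_lit 0) (nat_lit 6047883737) (nat_lit 152) (nat_lit 80234820928) (nat_lit 0) (nat_lit 5425417853) (nat_lit 2) (nat_lit 5) (nat_lit 4) (nat_lit 4) (nat_lit 2) (nat_lit 4) (nat_lit 392) (nat_lit 257) (nat_lit 251))))))) (XT.nd (nat_lit 858) (nat_lit 0) (nat_lit 0) (XT.nd (nat_lit 390) (nat_lit 0) (nat_lit 0) (XT.nd (nat_lit 156) (nat_lit 0) (nat_lit 0) (XT.nd (nat_lit 78) (nat_lit 0) (nat_lit 0) (XT.lf (nat_lit 0) (nat_lit 9427633292) (nat_lit 152) (nat_lit 77987388596) (nat_lit 0) (nat_lit 8718011830) (nat_lit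 2) (nat_lit 5) (nat_lit 4) (nat_lit 4) (nat_lit 2) (nat_lit 4) (nat_lit 393) (nat_lit 257) (nat_lit 250)) (XT.lf (nat_lit 0) (nat_lit 12886011315) (nat_lit 152) (nat_lit 75804326560) (nat_lit 0) (nat_lit 12093384539) (nat_lit 2) (nat_lit 5) (nat_lit 4) (nat_lit 4) (nat_lit 2) (nat_lit 4) (nat_lit 394) (nat_lit 257) (nat_lit 249))) (XT.nd (nat_lit 78) (nat_lit 0) (nat_lit 0) (XT.lf (nat_lit 0) (nat_lit 16431252038) (nat_lit 152) (nat_lit 73680437055) (nat_lit 0) (nat_lit 15559572583) (nat_lit 2) (nat_lit 5) (nat_lit 4) (nat_lit 4) (nat_lit 2) (nat_lit 4) (nat_lit 395) (nat_lit 257) (nat_lit 248)) (XT.nd (nat_lit 78) (nat_lit 0) (nat_lit 0) (XT.lf (nat_lit 0) (nat_lit 20071796511) (nat_lit 152) (nat_lit 71610663200) (nat_lit 0) (nat_lit 19124828790) (nat_lit 2) (nat_lit 5) (nat_lit 4) (nat_lit 4) (nat_lit 2) (nat_lit 4) (nat_lit 396) (nat_lit 257) (nat_lit 247)) (XT.lf (nat_lit 0) (nat_lit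 23816312697) (nat_lit 152) (nat_lit 69590076963) (nat_lit 0) (nat_lit 22797641865) (nat_lit 2) (nat_lit 5) (nat_lit 4) (nat_lit 4) (nat_lit 2) (nat_lit 4) (nat_lit 397) (nat_lit 257) (nat_lit 246))))) (XT.nd (nat_lit 234) (nat_lit 0) (nat_lit 0) (XT.nd (nat_lit 78) (nat_lit 0) (nat_lit 0) (XT.lf (nat_lit 0) (nat_lit 27673716111) (nat_lit 152) (nat_lit 67613867423) (nat_lit 0) (nat_lit 26586756603) (nat_lit 2) (nat_lit 5) (nat_lit 4) (nat_lit 4) (nat_lit 2) (nat_lit 4) (nat_lit 398) (nat_lit 257) (nat_lit 245)) (XT.nd (nat_lit 78) (nat_lit 0) (nat_lit 0) (XT.lf (nat_lit 0) (nat_lit 31653191047) (nat_lit 152) (nat_lit 65677329320) (nat_lit 0) (nat_lit 30501194703) (nat_lit 2) (nat_lit 5) (nat_lit 4) (nat_lit 4) (nat_lit 2) (nat_lit 4) (nat_lit 399) (nat_lit 257) (nat_lit 244)) (XT.lf (nat_lit 0) (nat_lit 35764212445) (nat_lit 152) (nat_lit 63775851850) (nat_lit 0) (nat_lit 34550276258) (nat_lit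 2) (nat_lit 5) (nat_lit 4) (nat_lit 4) (nat_lit 2) (nat_lit 4) (nat_lit 400) (nat_lit 257) (nat_lit 243)))) (XT.nd (nat_lit 78) (nat_lit 0) (nat_lit 0) (XT.lf (nat_lit 0) (nat_lit 40016568450) (nat_lit 152) (nat_lit 61904907684) (nat_lit 0) (nat_lit 38743641937) (nat_lit 2) (nat_lit 5) (nat_lit 4) (nat_lit 4) (nat_lit 2) (nat_lit 4) (nat_lit 401) (nat_lit 257) (nat_lit 242)) (XT.nd (nat_lit 78) (nat_lit 0) (nat_lit 0) (XT.lf (nat_lit 0) (nat_lit 44420383721) (nat_lit 152) (nat_lit 60060042194) (nat_lit 0) (nat_lit 43091275944) (nat_lit 2) (nat_lit 5) (nat_lit 4) (nat_lit 4) (nat_lit 2) (nat_lit 4) (nat_lit 402) (nat_lit 257) (nat_lit 241)) (XT.lf (nat_lit 0) (nat_lit 48986143532) (nat_lit 152) (nat_lit 58236862843) (nat_lit 0) (nat_lit 47603529789) (nat_lit 2) (nat_lit 5) (nat_lit 4) (nat_lit 4) (nat_lit 2) (nat_lit 4) (nat_lit 403) (nat_lit 257) (nat_lit 240)))))) (XT.nd (nat_lit 468)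 (nat_lit 0) (nat_lit 0) (XT.nd (nat_lit 234) (nat_lit 0) (nat_lit 0) (XT.nd (nat_lit 78) (nat_lit 0) (nat_lit 0) (XT.lf (nat_lit 0) (nat_lit 53724718738) (nat_lit 152) (nat_lit 56431028727) (nat_lit 0) (nat_lit 52291146934) (nat_lit 2) (nat_lit 5) (nat_lit 4) (nat_lit 4) (nat_lit 2) (nat_lit 4) (nat_lit 404) (nat_lit 257) (nat_lit 239)) (XT.nd (nat_lit 78) (nat_lit 0) (nat_lit 0) (XT.lf (nat_lit 0) (nat_lit 58647391664) (nat_lit 152) (nat_lit 54638240242) (nat_lit 0) (nat_lit 57165288372) (nat_lit 2) (nat_lit 5) (nat_lit 4) (nat_lit 4) (nat_lit 2) (nat_lit 4) (nat_lit 405) (nat_lit 257) (nat_lit 238)) (XT.lf (nat_lit 0) (nat_lit 63765882957) (nat_lit 152) (nat_lit 52854228844) (nat_lit 0) (nat_lit 62237559201) (nat_lit 2) (nat_lit 5) (nat_lit 4) (nat_lit 4) (nat_lit 2) (nat_lit 4) (nat_lit 406) (nat_lit 257) (nat_lit 237)))) (XT.nd (nat_lit 78) (nat_lit 0) (nat_lit 0) (XT.lf (nat_lit 0)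 (nat_lit 69092379503) (nat_lit 152) (nat_lit 51074746886) (nat_lit 0) (nat_lit 67520036256) (nat_lit 2) (nat_lit 5) (nat_lit 4) (nat_lit 4) (nat_lit 2) (nat_lit 4) (nat_lit 407) (nat_lit 257) (nat_lit 236)) (XT.nd (nat_lit 78) (nat_lit 0) (nat_lit 0) (XT.lf (nat_lit 0) (nat_lit 74639563435) (nat_lit 152) (nat_lit 49295557506) (nat_lit 0) (nat_lit 73025296865) (nat_lit 2) (nat_lit 5) (nat_lit 4) (nat_lit 4) (nat_lit 2) (nat_lit 4) (nat_lit 408) (nat_lit 257) (nat_lit 235)) (XT.lf (nat_lit 0) (nat_lit 80420642335) (nat_lit 152) (nat_lit 47512424540) (nat_lit 0) (nat_lit 78766448790) (nat_lit 2) (nat_lit 5) (nat_lit 4) (nat_lit 4) (nat_lit 2) (nat_lit 4) (nat_lit 409) (nat_lit 257) (nat_lit 234))))) (XT.nd (nat_lit 234) (nat_lit 0) (nat_lit 0) (XT.nd (nat_lit 78) (nat_lit 0) (nat_lit 0) (XT.lf (nat_lit 0) (nat_lit 86449380676) (nat_lit 152) (nat_lit 45721102433) (nat_lit 0) (nat_lit 84757161441)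 (nat_lit 2) (nat_lit 5) (nat_lit 4) (nat_lit 4) (nat_lit 2) (nat_lit 4) (nat_lit 410) (nat_lit 257) (nat_lit 233)) (XT.nd (nat_lit 78) (nat_lit 0) (nat_lit 0) (XT.lf (nat_lit 0) (nat_lit 92740132597) (nat_lit 152) (nat_lit 43917326132) (nat_lit 0) (nat_lit 91011698418) (nat_lit 2) (nat_lit 5) (nat_lit 4) (nat_lit 4) (nat_lit 2) (nat_lit 4) (nat_lit 411) (nat_lit 257) (nat_lit 232)) (XT.lf (nat_lit 0) (nat_lit 99307876079) (nat_lit 152) (nat_lit 42096800931) (nat_lit 0) (nat_lit 97544951478) (nat_lit 2) (nat_lit 5) (nat_lit 4) (nat_lit 4) (nat_lit 2) (nat_lit 4) (nat_lit 412) (nat_lit 257) (nat_lit 231)))) (XT.nd (nat_lit 78) (nat_lit 0) (nat_lit 0) (XT.lf (nat_lit 0) (nat_lit 106168248607) (nat_lit 152) (nat_lit 40255192247) (nat_lit 0) (nat_lit 104372475984) (nat_lit 2) (nat_lit 5) (nat_lit 4) (nat_lit 4) (nat_lit 2) (nat_lit 4) (nat_lit 413) (nat_lit 257) (nat_lit 230)) (XT.nd (nat_lit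 78) (nat_lit 0) (nat_lit 0) (XT.lf (nat_lit 0) (nat_lit 113337584399) (nat_lit 152) (nat_lit 38388115298) (nat_lit 0) (nat_lit 111510527948) (nat_lit 2) (nat_lit 5) (nat_lit 4) (nat_lit 4) (nat_lit 2) (nat_lit 4) (nat_lit 414) (nat_lit 257) (nat_lit 229)) (XT.lf (nat_lit 0) (nat_lit 120832953305) (nat_lit 152) (nat_lit 36491124661) (nat_lit 0) (nat_lit 118976102730) (nat_lit 2) (nat_lit 5) (nat_lit 4) (nat_lit 4) (nat_lit 2) (nat_lit 4) (nat_lit 415) (nat_lit 257) (nat_lit 228))))))))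
noncomputable def xc14 : XT := (XT.nd (nat_lit 44616) (nat_lit 0) (nat_lit 76) (XT.nd (nat_lit 858) (nat_lit 76) (nat_lit 0) (XT.nd (nat_lit 390) (nat_lit 0) (nat_lit 0) (XT.nd (nat_lit 156) (nat_lit 0) (nat_lit 0) (XT.nd (nat_lit 78) (nat_lit 0) (nat_lit 0) (XT.lf (nat_lit 0) (nat_lit 128672201440) (nat_lit 152) (nat_lit 34559703693) (nat_lit 0) (nat_lit 126786975509) (nat_lit 2) (nat_lit 5) (nat_lit 4) (nat_lit 4) (nat_lit 2) (nat_lit 4) (nat_lit 416) (nat_lit 257) (nat_lit 227)) (XT.lf (nat_lit 0) (nat_lit 136873993681) (nat_lit 152) (nat_lit 32589253772) (nat_lit 0) (nat_lit 134961743601) (nat_lit 2) (nat_lit 5) (nat_lit 4) (nat_lit 4) (nat_lit 2) (nat_lit 4) (nat_lit 417) (nat_lit 257) (nat_lit 226))) (XT.nd (nat_lit 78) (nat_lit 0) (nat_lit 0) (XT.lf (nat_lit 0) (nat_lit 145457858104) (nat_lit 152) (nat_lit 30575083351) (nat_lit 0) (nat_lit 143519870740) (nat_lit 2) (nat_lit 5) (nat_lit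 4) (nat_lit 4) (nat_lit 2) (nat_lit 4) (nat_lit 418) (nat_lit 257) (nat_lit 225)) (XT.nd (nat_lit 78) (nat_lit 0) (nat_lit 0) (XT.lf (nat_lit 0) (nat_lit 154444232482) (nat_lit 152) (nat_lit 28512396785) (nat_lit 0) (nat_lit 152481733419) (nat_lit 2) (nat_lit 5) (nat_lit 4) (nat_lit 4) (nat_lit 2) (nat_lit 4) (nat_lit 419) (nat_lit 257) (nat_lit 224)) (XT.lf (nat_lit 0) (nat_lit 163854512944) (nat_lit 152) (nat_lit 26396282918) (nat_lit 0) (nat_lit 161868669406) (nat_lit 2) (nat_lit 5) (nat_lit 4) (nat_lit 4) (nat_lit 2) (nat_lit 4) (nat_lit 420) (nat_lit 257) (nat_lit 223))))) (XT.nd (nat_lit 234) (nat_lit 0) (nat_lit 0) (XT.nd (nat_lit 78) (nat_lit 0) (nat_lit 0) (XT.lf (nat_lit 0) (nat_lit 173711104920) (nat_lit 152) (nat_lit 24221703381) (nat_lit 0) (nat_lit 171703028548) (nat_lit 2) (nat_lit 5) (nat_lit 4) (nat_lit 4) (nat_lit 2) (nat_lit 4) (nat_lit 421) (nat_lit 257) (nat_lit 222))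 (XT.nd (nat_lit 78) (nat_lit 0) (nat_lit 0) (XT.lf (nat_lit 0) (nat_lit 184037476487) (nat_lit 152) (nat_lit 21983480605) (nat_lit 0) (nat_lit 182008225988) (nat_lit 2) (nat_lit 5) (nat_lit 4) (nat_lit 4) (nat_lit 2) (nat_lit 4) (nat_lit 422) (nat_lit 257) (nat_lit 221)) (XT.lf (nat_lit 0) (nat_lit 194858214242) (nat_lit 152) (nat_lit 19676285487) (nat_lit 0) (nat_lit 192808797908) (nat_lit 2) (nat_lit 5) (nat_lit 4) (nat_lit 4) (nat_lit 2) (nat_lit 4) (nat_lit 423) (nat_lit 257) (nat_lit 220)))) (XT.nd (nat_lit 78) (nat_lit 0) (nat_lit 0) (XT.lf (nat_lit 0) (nat_lit 206199081848) (nat_lit 152) (nat_lit 17294624707) (nat_lit 0) (nat_lit 204130459956) (nat_lit 2) (nat_lit 5) (nat_lit 4) (nat_lit 4) (nat_lit 2) (nat_lit 4) (nat_lit 424) (nat_lit 257) (nat_lit 219)) (XT.nd (nat_lit 78) (nat_lit 0) (nat_lit 0) (XT.lf (nat_lit 0) (nat_lit 218087081371) (nat_lit 152) (nat_lit 14832827644) (nat_lit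 0) (nat_lit 216000168471) (nat_lit 2) (nat_lit 5) (nat_lit 4) (nat_lit 4) (nat_lit 2) (nat_lit 4) (nat_lit 425) (nat_lit 257) (nat_lit 218)) (XT.lf (nat_lit 0) (nat_lit 230550517570) (nat_lit 152) (nat_lit 12285032874) (nat_lit 0) (nat_lit 228446184664) (nat_lit 2) (nat_lit 5) (nat_lit 4) (nat_lit 4) (nat_lit 2) (nat_lit 4) (nat_lit 426) (nat_lit 257) (nat_lit 217)))))) (XT.nd (nat_lit 390) (nat_lit 0) (nat_lit 0) (XT.nd (nat_lit 156) (nat_lit 76) (nat_lit 0) (XT.nd (nat_lit 78) (nat_lit 0) (nat_lit 0) (XT.lf (nat_lit 0) (nat_lit 243619065294) (nat_lit 152) (nat_lit 9645174222) (nat_lit 0) (nat_lit 241498141905) (nat_lit 2) (nat_lit 5) (nat_lit 4) (nat_lit 4) (nat_lit 2) (nat_lit 4) (nat_lit 427) (nat_lit 257) (nat_lit 216)) (XT.lf (nat_lit 0) (nat_lit 257323840134) (nat_lit 152) (nat_lit 6906966309) (nat_lit 0) (nat_lit 255187116284) (nat_lit 2) (nat_lit 5) (nat_lit 4) (nat_lit 4) (nat_lit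 2) (nat_lit 4) (nat_lit 428) (nat_lit 257) (nat_lit 215))) (XT.nd (nat_lit 78) (nat_lit 76) (nat_lit 0) (XT.lf (nat_lit 0) (nat_lit 271697472504) (nat_lit 152) (nat_lit 4063889591) (nat_lit 0) (nat_lit 269545700598) (nat_lit 2) (nat_lit 5) (nat_lit 4) (nat_lit 4) (nat_lit 2) (nat_lit 4) (nat_lit 429) (nat_lit 257) (nat_lit 214)) (XT.nd (nat_lit 78) (nat_lit 76) (nat_lit 0) (XT.lf (nat_lit 0) (nat_lit 286774185340) (nat_lit 152) (nat_lit 1109174840) (nat_lit 0) (nat_lit 284608081951) (nat_lit 2) (nat_lit 5) (nat_lit 4) (nat_lit 4) (nat_lit 2) (nat_lit 4) (nat_lit 430) (nat_lit 257) (nat_lit 213)) (XT.lf (nat_lit 0) (nat_lit 2029158731) (nat_lit 76) (nat_lit 300592397699) (nat_lit 76) (nat_lit 298412645279) (nat_lit 1) (nat_lit 4) (nat_lit 2) (nat_lit 5) (nat_lit 2) (nat_lit 4) (nat_lit 431) (nat_lit 257) (nat_lit 212))))) (XT.nd (nat_lit 43134) (nat_lit 0) (nat_lit 228) (XT.nd (nat_lit 78)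 (nat_lit 0) (nat_lit 0) (XT.lf (nat_lit 0) (nat_lit 5334323112) (nat_lit 76) (nat_lit 313931160239) (nat_lit 76) (nat_lit 311738408742) (nat_lit 1) (nat_lit 4) (nat_lit 2) (nat_lit 5) (nat_lit 2) (nat_lit 4) (nat_lit 432) (nat_lit 257) (nat_lit 211)) (XT.nd (nat_lit 78) (nat_lit 0) (nat_lit 0) (XT.lf (nat_lit 0) (nat_lit 8777513411) (nat_lit 76) (nat_lit 327950191172) (nat_lit 76) (nat_lit 325745059601) (nat_lit 1) (nat_lit 4) (nat_lit 2) (nat_lit 5) (nat_lit 2) (nat_lit 4) (nat_lit 433) (nat_lit 257) (nat_lit 210)) (XT.lf (nat_lit 0) (nat_lit 12366927701) (nat_lit 76) (nat_lit 342682869142) (nat_lit 76) (nat_lit 340465947025) (nat_lit 1) (nat_lit 4) (nat_lit 2) (nat_lit 5) (nat_lit 2) (nat_lit 4) (nat_lit 434) (nat_lit 257) (nat_lit 209)))) (XT.nd (nat_lit 78) (nat_lit 0) (nat_lit 0) (XT.lf (nat_lit 0) (nat_lit 13004010853) (nat_lit 76) (nat_lit 9300895583) (nat_lit 76) (nat_lit 9300895583)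 (nat_lit 4) (nat_lit 4) (nat_lit 5) (nat_lit 5) (nat_lit 5) (nat_lit 4) (nat_lit 384) (nat_lit 258) (nat_lit 258)) (XT.nd (nat_lit 78) (nat_lit 0) (nat_lit 0) (XT.lf (nat_lit 0) (nat_lit 34688953755) (nat_lit 76) (nat_lit 15810804823) (nat_lit 76) (nat_lit 15682036338) (nat_lit 4) (nat_lit 4) (nat_lit 5) (nat_lit 5) (nat_lit 5) (nat_lit 4) (nat_lit 385) (nat_lit 258) (nat_lit 257)) (XT.lf (nat_lit 0) (nat_lit 43571519373) (nat_lit 76) (nat_lit 12993188232) (nat_lit 76) (nat_lit 12741783094) (nat_lit 4) (nat_lit 4) (nat_lit 5) (nat_lit 5) (nat_lit 5) (nat_lit 4) (nat_lit 386) (nat_lit 258) (nat_lit 256))))))) (XT.nd (nat_lit 858) (nat_lit 0) (nat_lit 0) (XT.nd (nat_lit 390) (nat_lit 0) (nat_lit 0) (XT.nd (nat_lit 156) (nat_lit 152) (nat_lit 0) (XT.nd (nat_lit 78) (nat_lit 0) (nat_lit 0) (XT.lf (nat_lit 0) (nat_lit 52676867525) (nat_lit 76) (nat_lit 10142232781) (nat_lit 76) (nat_lit 9774030833)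 (nat_lit 4) (nat_lit 4) (nat_lit 5) (nat_lit 5) (nat_lit 5) (nat_lit 4) (nat_lit 387) (nat_lit 258) (nat_lit 255)) (XT.lf (nat_lit 0) (nat_lit 62026677612) (nat_lit 76) (nat_lit 7251150484) (nat_lit 76) (nat_lit 6771713476) (nat_lit 4) (nat_lit 4) (nat_lit 5) (nat_lit 5) (nat_lit 5) (nat_lit 4) (nat_lit 388) (nat_lit 258) (nat_lit 254))) (XT.nd (nat_lit 78) (nat_lit 152) (nat_lit 0) (XT.lf (nat_lit 0) (nat_lit 71643211088) (nat_lit 76) (nat_lit 4313057809) (nat_lit 76) (nat_lit 3727682650) (nat_lit 4) (nat_lit 4) (nat_lit 5) (nat_lit 5) (nat_lit 5) (nat_lit 4) (nat_lit 389) (nat_lit 258) (nat_lit 253)) (XT.nd (nat_lit 78) (nat_lit 152) (nat_lit 0) (XT.lf (nat_lit 0) (nat_lit 81549364459) (nat_lit 76) (nat_lit 1320959299) (nat_lit 76) (nat_lit 634690663) (nat_lit 4) (nat_lit 4) (nat_lit 5) (nat_lit 5) (nat_lit 5) (nat_lit 4) (nat_lit 390) (nat_lit 258) (nat_lit 252)) (XT.lf (nat_lit 0) (nat_lit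 2530809811) (nat_lit 152) (nat_lit 83198514515) (nat_lit 0) (nat_lit 1785707275) (nat_lit 2) (nat_lit 5) (nat_lit 4) (nat_lit 4) (nat_lit 2) (nat_lit 4) (nat_lit 391) (nat_lit 258) (nat_lit 251))))) (XT.nd (nat_lit 234) (nat_lit 0) (nat_lit 0) (XT.nd (nat_lit 78) (nat_lit 0) (nat_lit 0) (XT.lf (nat_lit 0) (nat_lit 5793696477) (nat_lit 152) (nat_lit 80971887202) (nat_lit 0) (nat_lit 4961438363) (nat_lit 2) (nat_lit 5) (nat_lit 4) (nat_lit 4) (nat_lit 2) (nat_lit 4) (nat_lit 392) (nat_lit 258) (nat_lit 250)) (XT.nd (nat_lit 78) (nat_lit 0) (nat_lit 0) (XT.lf (nat_lit 0) (nat_lit 9129368466) (nat_lit 152) (nat_lit 78810670438) (nat_lit 0) (nat_lit 8214105038) (nat_lit 2) (nat_lit 5) (nat_lit 4) (nat_lit 4) (nat_lit 2) (nat_lit 4) (nat_lit 393) (nat_lit 258) (nat_lit 249)) (XT.lf (nat_lit 0) (nat_lit 12545767855) (nat_lit 152) (nat_lit 76709718466) (nat_lit 0) (nat_lit 11551451747) (nat_lit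 2) (nat_lit 5) (nat_lit 4) (nat_lit 4) (nat_lit 2) (nat_lit 4) (nat_lit 394) (nat_lit 258) (nat_lit 248)))) (XT.nd (nat_lit 78) (nat_lit 0) (nat_lit 0) (XT.lf (nat_lit 0) (nat_lit 16051028926) (nat_lit 152) (nat_lit 74664029022) (nat_lit 0) (nat_lit 14981424553) (nat_lit 2) (nat_lit 5) (nat_lit 4) (nat_lit 4) (nat_lit 2) (nat_lit 4) (nat_lit 395) (nat_lit 258) (nat_lit 247)) (XT.nd (nat_lit 78) (nat_lit 0) (nat_lit 0) (XT.lf (nat_lit 0) (nat_lit 19653497541) (nat_lit 152) (nat_lit 72668731416) (nat_lit 0) (nat_lit 18512190056) (nat_lit 2) (nat_lit 5) (nat_lit 4) (nat_lit 4) (nat_lit 2) (nat_lit 4) (nat_lit 396) (nat_lit 258) (nat_lit 246)) (XT.lf (nat_lit 0) (nat_lit 23361751004) (nat_lit 152) (nat_lit 70719074940) (nat_lit 0) (nat_lit 22152154843) (nat_lit 2) (nat_lit 5) (nat_lit 4) (nat_lit 4) (nat_lit 2) (nat_lit 4) (nat_lit 397) (nat_lit 258) (nat_lit 245)))))) (XT.nd (nat_lit 468)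 (nat_lit 0) (nat_lit 0) (XT.nd (nat_lit 234) (nat_lit 0) (nat_lit 0) (XT.nd (nat_lit 78) (nat_lit 0) (nat_lit 0) (XT.lf (nat_lit 0) (nat_lit 27184618492) (nat_lit 152) (nat_lit 68810417553) (nat_lit 0) (nat_lit 25909985496) (nat_lit 2) (nat_lit 5) (nat_lit 4) (nat_lit 4) (nat_lit 2) (nat_lit 4) (nat_lit 398) (nat_lit 258) (nat_lit 244)) (XT.nd (nat_lit 78) (nat_lit 0) (nat_lit 0) (XT.lf (nat_lit 0) (nat_lit 31131202069) (nat_lit 152) (nat_lit 66938214835) (nat_lit 0) (nat_lit 29794629230) (nat_lit 2) (nat_lit 5) (nat_lit 4) (nat_lit 4) (nat_lit 2) (nat_lit 4) (nat_lit 399) (nat_lit 258) (nat_lit 243)) (XT.lf (nat_lit 0) (nat_lit 35210898363) (nat_lit 152) (nat_lit 65098009159) (nat_lit 0) (nat_lit 33815335197) (nat_lit 2) (nat_lit 5) (nat_lit 4) (nat_lit 4) (nat_lit 2) (nat_lit 4) (nat_lit 400) (nat_lit 258) (nat_lit 242)))) (XT.nd (nat_lit 78) (nat_lit 0) (nat_lit 0) (XT.lf (nat_lit 0)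 (nat_lit 39433420937) (nat_lit 152) (nat_lit 63285419082) (nat_lit 0) (nat_lit 37981676508) (nat_lit 2) (nat_lit 5) (nat_lit 4) (nat_lit 4) (nat_lit 2) (nat_lit 4) (nat_lit 401) (nat_lit 258) (nat_lit 241)) (XT.nd (nat_lit 78) (nat_lit 0) (nat_lit 0) (XT.lf (nat_lit 0) (nat_lit 43808823416) (nat_lit 152) (nat_lit 61496128916) (nat_lit 0) (nat_lit 42303573021) (nat_lit 2) (nat_lit 5) (nat_lit 4) (nat_lit 4) (nat_lit 2) (nat_lit 4) (nat_lit 402) (nat_lit 258) (nat_lit 240)) (XT.lf (nat_lit 0) (nat_lit 48347523424) (nat_lit 152) (nat_lit 59725878444) (nat_lit 0) (nat_lit 46791314968) (nat_lit 2) (nat_lit 5) (nat_lit 4) (nat_lit 4) (nat_lit 2) (nat_lit 4) (nat_lit 403) (nat_lit 258) (nat_lit 239))))) (XT.nd (nat_lit 234) (nat_lit 0) (nat_lit 0) (XT.nd (nat_lit 78) (nat_lit 0) (nat_lit 0) (XT.lf (nat_lit 0) (nat_lit 53060327391) (nat_lit 152) (nat_lit 57970452785) (nat_lit 0) (nat_lit 51455587447)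 (nat_lit 2) (nat_lit 5) (nat_lit 4) (nat_lit 4) (nat_lit 2) (nat_lit 4) (nat_lit 404) (nat_lit 258) (nat_lit 238)) (XT.nd (nat_lit 78) (nat_lit 0) (nat_lit 0) (XT.lf (nat_lit 0) (nat_lit 57958456278) (nat_lit 152) (nat_lit 56225672354) (nat_lit 0) (nat_lit 56307495870) (nat_lit 2) (nat_lit 5) (nat_lit 4) (nat_lit 4) (nat_lit 2) (nat_lit 4) (nat_lit 405) (nat_lit 258) (nat_lit 237)) (XT.lf (nat_lit 0) (nat_lit 63053572297) (nat_lit 152) (nat_lit 54487382912) (nat_lit 0) (nat_lit 61358592399) (nat_lit 2) (nat_lit 5) (nat_lit 4) (nat_lit 4) (nat_lit 2) (nat_lit 4) (nat_lit 406) (nat_lit 258) (nat_lit 236)))) (XT.nd (nat_lit 78) (nat_lit 0) (nat_lit 0) (XT.lf (nat_lit 0) (nat_lit 68357806677) (nat_lit 152) (nat_lit 52751445674) (nat_lit 0) (nat_lit 66620903455) (nat_lit 2) (nat_lit 5) (nat_lit 4) (nat_lit 4) (nat_lit 2) (nat_lit 4) (nat_lit 407) (nat_lit 258) (nat_lit 235)) (XT.nd (nat_lit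 78) (nat_lit 0) (nat_lit 0) (XT.lf (nat_lit 0) (nat_lit 73883788546) (nat_lit 152) (nat_lit 51013727457) (nat_lit 0) (nat_lit 72106958349) (nat_lit 2) (nat_lit 5) (nat_lit 4) (nat_lit 4) (nat_lit 2) (nat_lit 4) (nat_lit 408) (nat_lit 258) (nat_lit 234)) (XT.lf (nat_lit 0) (nat_lit 79644675005) (nat_lit 152) (nat_lit 49270090836) (nat_lit 0) (nat_lit 77829819117) (nat_lit 2) (nat_lit 5) (nat_lit 4) (nat_lit 4) (nat_lit 2) (nat_lit 4) (nat_lit 409) (nat_lit 258) (nat_lit 233))))))))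
noncomputable def xc15 : XT := (XT.nd (nat_lit 1716) (nat_lit 76) (nat_lit 0) (XT.nd (nat_lit 858) (nat_lit 0) (nat_lit 0) (XT.nd (nat_lit 390) (nat_lit 0) (nat_lit 0) (XT.nd (nat_lit 156) (nat_lit 0) (nat_lit 0) (XT.nd (nat_lit 78) (nat_lit 0) (nat_lit 0) (XT.lf (nat_lit 0) (nat_lit 85654182450) (nat_lit 152) (nat_lit 47516384295) (nat_lit 0) (nat_lit 83803111619) (nat_lit 2) (nat_lit 5) (nat_lit 4) (nat_lit 4) (nat_lit 2) (nat_lit 4) (nat_lit 410) (nat_lit 258) (nat_lit 232)) (XT.lf (nat_lit 0) (nat_lit 91926619232) (nat_lit 152) (nat_lit 45748432343) (nat_lit 0) (nat_lit 90041057979) (nat_lit 2) (nat_lit 5) (nat_lit 4) (nat_lit 4) (nat_lit 2) (nat_lit 4) (nat_lit 411) (nat_lit 258) (nat_lit 231))) (XT.nd (nat_lit 78) (nat_lit 0) (nat_lit 0) (XT.lf (nat_lit 0) (nat_lit 98476919725) (nat_lit 152) (nat_lit 43962025570) (nat_lit 0) (nat_lit 96558510450) (nat_lit 2) (nat_lit 5) (nat_lit 4)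 (nat_lit 4) (nat_lit 2) (nat_lit 4) (nat_lit 412) (nat_lit 258) (nat_lit 230)) (XT.nd (nat_lit 78) (nat_lit 0) (nat_lit 0) (XT.lf (nat_lit 0) (nat_lit 105320679881) (nat_lit 152) (nat_lit 42152910627) (nat_lit 0) (nat_lit 103370986777) (nat_lit 2) (nat_lit 5) (nat_lit 4) (nat_lit 4) (nat_lit 2) (nat_lit 4) (nat_lit 413) (nat_lit 258) (nat_lit 229)) (XT.lf (nat_lit 0) (nat_lit 112474194368) (nat_lit 152) (nat_lit 40316780097) (nat_lit 0) (nat_lit 110494707140) (nat_lit 2) (nat_lit 5) (nat_lit 4) (nat_lit 4) (nat_lit 2) (nat_lit 4) (nat_lit 414) (nat_lit 258) (nat_lit 228))))) (XT.nd (nat_lit 234) (nat_lit 0) (nat_lit 0) (XT.nd (nat_lit 78) (nat_lit 0) (nat_lit 0) (XT.lf (nat_lit 0) (nat_lit 119954495363) (nat_lit 152) (nat_lit 38449262241) (nat_lit 0) (nat_lit 117946632780) (nat_lit 2) (nat_lit 5) (nat_lit 4) (nat_lit 4) (nat_lit 2) (nat_lit 4) (nat_lit 415) (nat_lit 258) (nat_lit 227))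 (XT.nd (nat_lit 78) (nat_lit 0) (nat_lit 0) (XT.lf (nat_lit 0) (nat_lit 127779393108) (nat_lit 152) (nat_lit 36545910588) (nat_lit 0) (nat_lit 125744506376) (nat_lit 2) (nat_lit 5) (nat_lit 4) (nat_lit 4) (nat_lit 2) (nat_lit 4) (nat_lit 416) (nat_lit 258) (nat_lit 226)) (XT.lf (nat_lit 0) (nat_lit 135967518309) (nat_lit 152) (nat_lit 34602193348) (nat_lit 0) (nat_lit 133906894293) (nat_lit 2) (nat_lit 5) (nat_lit 4) (nat_lit 4) (nat_lit 2) (nat_lit 4) (nat_lit 417) (nat_lit 258) (nat_lit 225)))) (XT.nd (nat_lit 78) (nat_lit 0) (nat_lit 0) (XT.lf (nat_lit 0) (nat_lit 144538366505) (nat_lit 152) (nat_lit 32613482623) (nat_lit 0) (nat_lit 142453230790) (nat_lit 2) (nat_lit 5) (nat_lit 4) (nat_lit 4) (nat_lit 2) (nat_lit 4) (nat_lit 418) (nat_lit 258) (nat_lit 224)) (XT.nd (nat_lit 78) (nat_lit 0) (nat_lit 0) (XT.lf (nat_lit 0) (nat_lit 153512344476) (nat_lit 152) (nat_lit 30575043387) (nat_lit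 0) (nat_lit 151403864285) (nat_lit 2) (nat_lit 5) (nat_lit 4) (nat_lit 4) (nat_lit 2) (nat_lit 4) (nat_lit 419) (nat_lit 258) (nat_lit 223)) (XT.lf (nat_lit 0) (nat_lit 162910818836) (nat_lit 152) (nat_lit 28482022214) (nat_lit 0) (nat_lit 160780105812) (nat_lit 2) (nat_lit 5) (nat_lit 4) (nat_lit 4) (nat_lit 2) (nat_lit 4) (nat_lit 420) (nat_lit 258) (nat_lit 222)))))) (XT.nd (nat_lit 390) (nat_lit 0) (nat_lit 0) (XT.nd (nat_lit 156) (nat_lit 0) (nat_lit 0) (XT.nd (nat_lit 78) (nat_lit 0) (nat_lit 0) (XT.lf (nat_lit 0) (nat_lit 172756166906) (nat_lit 152) (nat_lit 26329435720) (nat_lit 0) (nat_lit 170604279754) (nat_lit 2) (nat_lit 5) (nat_lit 4) (nat_lit 4) (nat_lit 2) (nat_lit 4) (nat_lit 421) (nat_lit 258) (nat_lit 221)) (XT.lf (nat_lit 0) (nat_lit 183071829990) (nat_lit 152) (nat_lit 24112158699) (nat_lit 0) (nat_lit 180899777003) (nat_lit 2) (nat_lit 5) (nat_lit 4) (nat_lit 4) (nat_lit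 2) (nat_lit 4) (nat_lit 422) (nat_lit 258) (nat_lit 220))) (XT.nd (nat_lit 78) (nat_lit 0) (nat_lit 0) (XT.lf (nat_lit 0) (nat_lit 193882369190) (nat_lit 152) (nat_lit 21824911920) (nat_lit 0) (nat_lit 191691110646) (nat_lit 2) (nat_lit 5) (nat_lit 4) (nat_lit 4) (nat_lit 2) (nat_lit 4) (nat_lit 423) (nat_lit 258) (nat_lit 219)) (XT.nd (nat_lit 78) (nat_lit 0) (nat_lit 0) (XT.lf (nat_lit 0) (nat_lit 205213523887) (nat_lit 152) (nat_lit 19462249557) (nat_lit 0) (nat_lit 203003974335) (nat_lit 2) (nat_lit 5) (nat_lit 4) (nat_lit 4) (nat_lit 2) (nat_lit 4) (nat_lit 424) (nat_lit 258) (nat_lit 218)) (XT.lf (nat_lit 0) (nat_lit 217092273020) (nat_lit 152) (nat_lit 17018546224) (nat_lit 0) (nat_lit 214865303461) (nat_lit 2) (nat_lit 5) (nat_lit 4) (nat_lit 4) (nat_lit 2) (nat_lit 4) (nat_lit 425) (nat_lit 258) (nat_lit 217))))) (XT.nd (nat_lit 234) (nat_lit 0) (nat_lit 0) (XT.nd (nat_lit 78)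 (nat_lit 0) (nat_lit 0) (XT.lf (nat_lit 0) (nat_lit 229546899324) (nat_lit 152) (nat_lit 14487983579) (nat_lit 0) (nat_lit 227303339282) (nat_lit 2) (nat_lit 5) (nat_lit 4) (nat_lit 4) (nat_lit 2) (nat_lit 4) (nat_lit 426) (nat_lit 258) (nat_lit 216)) (XT.nd (nat_lit 78) (nat_lit 0) (nat_lit 0) (XT.lf (nat_lit 0) (nat_lit 242607056672) (nat_lit 152) (nat_lit 11864536474) (nat_lit 0) (nat_lit 240347696171) (nat_lit 2) (nat_lit 5) (nat_lit 4) (nat_lit 4) (nat_lit 2) (nat_lit 4) (nat_lit 427) (nat_lit 258) (nat_lit 215)) (XT.lf (nat_lit 0) (nat_lit 256303840677) (nat_lit 152) (nat_lit 9141958605) (nat_lit 0) (nat_lit 254029432118) (nat_lit 2) (nat_lit 5) (nat_lit 4) (nat_lit 4) (nat_lit 2) (nat_lit 4) (nat_lit 428) (nat_lit 258) (nat_lit 214)))) (XT.nd (nat_lit 78) (nat_lit 0) (nat_lit 0) (XT.lf (nat_lit 0) (nat_lit 270669862728) (nat_lit 152) (nat_lit 6313767645) (nat_lit 0) (nat_lit 268381122687)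 (nat_lit 2) (nat_lit 5) (nat_lit 4) (nat_lit 4) (nat_lit 2) (nat_lit 4) (nat_lit 429) (nat_lit 258) (nat_lit 213)) (XT.nd (nat_lit 78) (nat_lit 0) (nat_lit 0) (XT.lf (nat_lit 0) (nat_lit 285739327642) (nat_lit 152) (nat_lit 3373229805) (nat_lit 0) (nat_lit 283436938569) (nat_lit 2) (nat_lit 5) (nat_lit 4) (nat_lit 4) (nat_lit 2) (nat_lit 4) (nat_lit 430) (nat_lit 258) (nat_lit 212)) (XT.lf (nat_lit 0) (nat_lit 301548115095) (nat_lit 152) (nat_lit 313343805) (nat_lit 0) (nat_lit 299232726945) (nat_lit 2) (nat_lit 5) (nat_lit 4) (nat_lit 4) (nat_lit 2) (nat_lit 4) (nat_lit 431) (nat_lit 258) (nat_lit 211))))))) (XT.nd (nat_lit 43602) (nat_lit 0) (nat_lit 76) (XT.nd (nat_lit 43134) (nat_lit 0) (nat_lit 228) (XT.nd (nat_lit 156) (nat_lit 0) (nat_lit 0) (XT.nd (nat_lit 78) (nat_lit 0) (nat_lit 0) (XT.lf (nat_lit 0) (nat_lit 2968175964) (nat_lit 76) (nat_lit 315212030638) (nat_lit 76) (nat_lit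 312884262415) (nat_lit 1) (nat_lit 4) (nat_lit 2) (nat_lit 5) (nat_lit 2) (nat_lit 4) (nat_lit 432) (nat_lit 258) (nat_lit 210)) (XT.lf (nat_lit 0) (nat_lit 6398714788) (nat_lit 76) (nat_lit 329237254493) (nat_lit 76) (nat_lit 326897695724) (nat_lit 1) (nat_lit 4) (nat_lit 2) (nat_lit 5) (nat_lit 2) (nat_lit 4) (nat_lit 433) (nat_lit 258) (nat_lit 209))) (XT.nd (nat_lit 42822) (nat_lit 0) (nat_lit 228) (XT.lf (nat_lit 0) (nat_lit 9976080054) (nat_lit 76) (nat_lit 343975830485) (nat_lit 76) (nat_lit 341625042623) (nat_lit 1) (nat_lit 4) (nat_lit 2) (nat_lit 5) (nat_lit 2) (nat_lit 4) (nat_lit 434) (nat_lit 258) (nat_lit 208)) (XT.nd (nat_lit 78) (nat_lit 0) (nat_lit 0) (XT.lf (nat_lit 0) (nat_lit 4646903252) (nat_lit 76) (nat_lit 12102442417) (nat_lit 76) (nat_lit 12102442417) (nat_lit 4) (nat_lit 4) (nat_lit 5) (nat_lit 5) (nat_lit 5) (nat_lit 4) (nat_lit 382) (nat_lit 259) (nat_lit 259))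 (XT.lf (nat_lit 0) (nat_lit 17508054341) (nat_lit 76) (nat_lit 21507999379) (nat_lit 76) (nat_lit 21372792469) (nat_lit 4) (nat_lit 4) (nat_lit 5) (nat_lit 5) (nat_lit 5) (nat_lit 4) (nat_lit 383) (nat_lit 259) (nat_lit 258))))) (XT.nd (nat_lit 234) (nat_lit 0) (nat_lit 0) (XT.nd (nat_lit 78) (nat_lit 0) (nat_lit 0) (XT.lf (nat_lit 0) (nat_lit 25888980885) (nat_lit 76) (nat_lit 18794834673) (nat_lit 76) (nat_lit 18530859279) (nat_lit 4) (nat_lit 4) (nat_lit 5) (nat_lit 5) (nat_lit 5) (nat_lit 4) (nat_lit 384) (nat_lit 259) (nat_lit 257)) (XT.nd (nat_lit 78) (nat_lit 0) (nat_lit 0) (XT.lf (nat_lit 0) (nat_lit 34456540722) (nat_lit 76) (nat_lit 16058930802) (nat_lit 76) (nat_lit 15672318756) (nat_lit 4) (nat_lit 4) (nat_lit 5) (nat_lit 5) (nat_lit 5) (nat_lit 4) (nat_lit 385) (nat_lit 259) (nat_lit 256)) (XT.lf (nat_lit 0) (nat_lit 43231132805) (nat_lit 76) (nat_lit 13293773708) (nat_lit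 76) (nat_lit 12790364850) (nat_lit 4) (nat_lit 4) (nat_lit 5) (nat_lit 5) (nat_lit 5) (nat_lit 4) (nat_lit 386) (nat_lit 259) (nat_lit 255)))) (XT.nd (nat_lit 78) (nat_lit 0) (nat_lit 0) (XT.lf (nat_lit 0) (nat_lit 52233649019) (nat_lit 76) (nat_lit 10492779685) (nat_lit 76) (nat_lit 9878135768) (nat_lit 4) (nat_lit 4) (nat_lit 5) (nat_lit 5) (nat_lit 5) (nat_lit 4) (nat_lit 387) (nat_lit 259) (nat_lit 254)) (XT.nd (nat_lit 78) (nat_lit 0) (nat_lit 0) (XT.lf (nat_lit 0) (nat_lit 61485523928) (nat_lit 76) (nat_lit 7649279699) (nat_lit 76) (nat_lit 6928697631) (nat_lit 4) (nat_lit 4) (nat_lit 5) (nat_lit 5) (nat_lit 5) (nat_lit 4) (nat_lit 388) (nat_lit 259) (nat_lit 253)) (XT.lf (nat_lit 0) (nat_lit 71008785804) (nat_lit 76) (nat_lit 4756503511) (nat_lit 76) (nat_lit 3935027966) (nat_lit 4) (nat_lit 4) (nat_lit 5) (nat_lit 5) (nat_lit 5) (nat_lit 4) (nat_lit 389) (nat_lit 259) (nat_lit 252))))))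 (XT.nd (nat_lit 468) (nat_lit 0) (nat_lit 0) (XT.nd (nat_lit 234) (nat_lit 0) (nat_lit 0) (XT.nd (nat_lit 78) (nat_lit 152) (nat_lit 0) (XT.lf (nat_lit 0) (nat_lit 80826109081) (nat_lit 76) (nat_lit 1807563559) (nat_lit 76) (nat_lit 889998988) (nat_lit 4) (nat_lit 4) (nat_lit 5) (nat_lit 5) (nat_lit 5) (nat_lit 4) (nat_lit 390) (nat_lit 259) (nat_lit 251)) (XT.nd (nat_lit 78) (nat_lit 0) (nat_lit 0) (XT.lf (nat_lit 0) (nat_lit 2217631744) (nat_lit 152) (nat_lit 84062960449) (nat_lit 0) (nat_lit 1256605145) (nat_lit 2) (nat_lit 5) (nat_lit 4) (nat_lit 4) (nat_lit 2) (nat_lit 4) (nat_lit 391) (nat_lit 259) (nat_lit 250)) (XT.lf (nat_lit 0) (nat_lit 5436440844) (nat_lit 152) (nat_lit 81922548704) (nat_lit 0) (nat_lit 4392408931) (nat_lit 2) (nat_lit 5) (nat_lit 4) (nat_lit 4) (nat_lit 2) (nat_lit 4) (nat_lit 392) (nat_lit 259) (nat_lit 249)))) (XT.nd (nat_lit 78) (nat_lit 0) (nat_lit 0) (XT.lf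 (nat_lit 0) (nat_lit 8730134199) (nat_lit 152) (nat_lit 79843442003) (nat_lit 0) (nat_lit 7607049607) (nat_lit 2) (nat_lit 5) (nat_lit 4) (nat_lit 4) (nat_lit 2) (nat_lit 4) (nat_lit 393) (nat_lit 259) (nat_lit 248)) (XT.nd (nat_lit 78) (nat_lit 0) (nat_lit 0) (XT.lf (nat_lit 0) (nat_lit 12106553936) (nat_lit 152) (nat_lit 77820690094) (nat_lit 0) (nat_lit 10908181077) (nat_lit 2) (nat_lit 5) (nat_lit 4) (nat_lit 4) (nat_lit 2) (nat_lit 4) (nat_lit 394) (nat_lit 259) (nat_lit 247)) (XT.lf (nat_lit 0) (nat_lit 15573739148) (nat_lit 152) (nat_lit 75849476898) (nat_lit 0) (nat_lit 14303663179) (nat_lit 2) (nat_lit 5) (nat_lit 4) (nat_lit 4) (nat_lit 2) (nat_lit 4) (nat_lit 395) (nat_lit 259) (nat_lit 246))))) (XT.nd (nat_lit 234) (nat_lit 0) (nat_lit 0) (XT.nd (nat_lit 78) (nat_lit 0) (nat_lit 0) (XT.lf (nat_lit 0) (nat_lit 19139945040) (nat_lit 152) (nat_lit 73925109053) (nat_lit 0) (nat_lit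 17801580394) (nat_lit 2) (nat_lit 5) (nat_lit 4) (nat_lit 4) (nat_lit 2) (nat_lit 4) (nat_lit 396) (nat_lit 259) (nat_lit 245)) (XT.nd (nat_lit 78) (nat_lit 0) (nat_lit 0) (XT.lf (nat_lit 0) (nat_lit 22813662577) (nat_lit 152) (nat_lit 72043004730) (nat_lit 0) (nat_lit 21410261096) (nat_lit 2) (nat_lit 5) (nat_lit 4) (nat_lit 4) (nat_lit 2) (nat_lit 4) (nat_lit 397) (nat_lit 259) (nat_lit 244)) (XT.lf (nat_lit 0) (nat_lit 26603638706) (nat_lit 152) (nat_lit 70198682727) (nat_lit 0) (nat_lit 25138297382) (nat_lit 2) (nat_lit 5) (nat_lit 4) (nat_lit 4) (nat_lit 2) (nat_lit 4) (nat_lit 398) (nat_lit 259) (nat_lit 243)))) (XT.nd (nat_lit 78) (nat_lit 0) (nat_lit 0) (XT.lf (nat_lit 0) (nat_lit 30518897180) (nat_lit 152) (nat_lit 68387751803) (nat_lit 0) (nat_lit 28994565529) (nat_lit 2) (nat_lit 5) (nat_lit 4) (nat_lit 4) (nat_lit 2) (nat_lit 4) (nat_lit 399) (nat_lit 259) (nat_lit 242)) (XT.nd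 (nat_lit 78) (nat_lit 0) (nat_lit 0) (XT.lf (nat_lit 0) (nat_lit 34568760043) (nat_lit 152) (nat_lit 66605900217) (nat_lit 0) (nat_lit 32988247129) (nat_lit 2) (nat_lit 5) (nat_lit 4) (nat_lit 4) (nat_lit 2) (nat_lit 4) (nat_lit 400) (nat_lit 259) (nat_lit 241)) (XT.lf (nat_lit 0) (nat_lit 38762869824) (nat_lit 152) (nat_lit 64848885464) (nat_lit 0) (nat_lit 37128850945) (nat_lit 2) (nat_lit 5) (nat_lit 4) (nat_lit 4) (nat_lit 2) (nat_lit 4) (nat_lit 401) (nat_lit 259) (nat_lit 240))))))))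
noncomputable def xc16 : XT := (XT.nd (nat_lit 1716) (nat_lit 76) (nat_lit 0) (XT.nd (nat_lit 858) (nat_lit 0) (nat_lit 0) (XT.nd (nat_lit 390) (nat_lit 0) (nat_lit 0) (XT.nd (nat_lit 156) (nat_lit 0) (nat_lit 0) (XT.nd (nat_lit 78) (nat_lit 0) (nat_lit 0) (XT.lf (nat_lit 0) (nat_lit 43111212501) (nat_lit 152) (nat_lit 63112524177) (nat_lit 0) (nat_lit 41426235560) (nat_lit 2) (nat_lit 5) (nat_lit 4) (nat_lit 4) (nat_lit 2) (nat_lit 4) (nat_lit 402) (nat_lit 259) (nat_lit 239)) (XT.lf (nat_lit 0) (nat_lit 47624141270) (nat_lit 152) (nat_lit 61392682162) (nat_lit 0) (nat_lit 45890632841) (nat_lit 2) (nat_lit 5) (nat_lit 4) (nat_lit 4) (nat_lit 2) (nat_lit 4) (nat_lit 403) (nat_lit 259) (nat_lit 238))) (XT.nd (nat_lit 78) (nat_lit 0) (nat_lit 0) (XT.lf (nat_lit 0) (nat_lit 52312401198) (nat_lit 152) (nat_lit 59685264557) (nat_lit 0) (nat_lit 50532672305) (nat_lit 2) (nat_lit 5) (nat_lit 4)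 (nat_lit 4) (nat_lit 2) (nat_lit 4) (nat_lit 404) (nat_lit 259) (nat_lit 237)) (XT.nd (nat_lit 78) (nat_lit 0) (nat_lit 0) (XT.lf (nat_lit 0) (nat_lit 57187154811) (nat_lit 152) (nat_lit 57986206083) (nat_lit 0) (nat_lit 55363406428) (nat_lit 2) (nat_lit 5) (nat_lit 4) (nat_lit 4) (nat_lit 2) (nat_lit 4) (nat_lit 405) (nat_lit 259) (nat_lit 236)) (XT.lf (nat_lit 0) (nat_lit 62260008664) (nat_lit 152) (nat_lit 56291461361) (nat_lit 0) (nat_lit 60394336957) (nat_lit 2) (nat_lit 5) (nat_lit 4) (nat_lit 4) (nat_lit 2) (nat_lit 4) (nat_lit 406) (nat_lit 259) (nat_lit 235))))) (XT.nd (nat_lit 234) (nat_lit 0) (nat_lit 0) (XT.nd (nat_lit 78) (nat_lit 0) (nat_lit 0) (XT.lf (nat_lit 0) (nat_lit 67543040981) (nat_lit 152) (nat_lit 54596995285) (nat_lit 0) (nat_lit 65637442298) (nat_lit 2) (nat_lit 5) (nat_lit 4) (nat_lit 4) (nat_lit 2) (nat_lit 4) (nat_lit 407) (nat_lit 259) (nat_lit 234)) (XT.nd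 (nat_lit 78) (nat_lit 0) (nat_lit 0) (XT.lf (nat_lit 0) (nat_lit 73048830409) (nat_lit 152) (nat_lit 52898773413) (nat_lit 0) (nat_lit 71105206036) (nat_lit 2) (nat_lit 5) (nat_lit 4) (nat_lit 4) (nat_lit 2) (nat_lit 4) (nat_lit 408) (nat_lit 259) (nat_lit 233)) (XT.lf (nat_lit 0) (nat_lit 78790485972) (nat_lit 152) (nat_lit 51192752358) (nat_lit 0) (nat_lit 76810646656) (nat_lit 2) (nat_lit 5) (nat_lit 4) (nat_lit 4) (nat_lit 2) (nat_lit 4) (nat_lit 409) (nat_lit 259) (nat_lit 232)))) (XT.nd (nat_lit 78) (nat_lit 0) (nat_lit 0) (XT.lf (nat_lit 0) (nat_lit 84781678278) (nat_lit 152) (nat_lit 49474870167) (nat_lit 0) (nat_lit 82767348540) (nat_lit 2) (nat_lit 5) (nat_lit 4) (nat_lit 4) (nat_lit 2) (nat_lit 4) (nat_lit 410) (nat_lit 259) (nat_lit 231)) (XT.nd (nat_lit 78) (nat_lit 0) (nat_lit 0) (XT.lf (nat_lit 0) (nat_lit 91036672070) (nat_lit 152) (nat_lit 47741036642) (nat_lit 0) (nat_lit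 88989494311) (nat_lit 2) (nat_lit 5) (nat_lit 4) (nat_lit 4) (nat_lit 2) (nat_lit 4) (nat_lit 411) (nat_lit 259) (nat_lit 230)) (XT.lf (nat_lit 0) (nat_lit 97570360192) (nat_lit 152) (nat_lit 45987123610) (nat_lit 0) (nat_lit 95491898603) (nat_lit 2) (nat_lit 5) (nat_lit 4) (nat_lit 4) (nat_lit 2) (nat_lit 4) (nat_lit 412) (nat_lit 259) (nat_lit 229)))))) (XT.nd (nat_lit 390) (nat_lit 0) (nat_lit 0) (XT.nd (nat_lit 156) (nat_lit 0) (nat_lit 0) (XT.nd (nat_lit 78) (nat_lit 0) (nat_lit 0) (XT.lf (nat_lit 0) (nat_lit 104398299042) (nat_lit 152) (nat_lit 44208955087) (nat_lit 0) (nat_lit 102290043329) (nat_lit 2) (nat_lit 5) (nat_lit 4) (nat_lit 4) (nat_lit 2) (nat_lit 4) (nat_lit 413) (nat_lit 259) (nat_lit 228)) (XT.lf (nat_lit 0) (nat_lit 111536745619) (nat_lit 152) (nat_lit 42402297337) (nat_lit 0) (nat_lit 109400114551) (nat_lit 2) (nat_lit 5) (nat_lit 4) (nat_lit 4) (nat_lit 2) (nat_lit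 4) (nat_lit 414) (nat_lit 259) (nat_lit 227))) (XT.nd (nat_lit 78) (nat_lit 0) (nat_lit 0) (XT.lf (nat_lit 0) (nat_lit 119002696223) (nat_lit 152) (nat_lit 40562848796) (nat_lit 0) (nat_lit 116839041007) (nat_lit 2) (nat_lit 5) (nat_lit 4) (nat_lit 4) (nat_lit 2) (nat_lit 4) (nat_lit 415) (nat_lit 259) (nat_lit 226)) (XT.nd (nat_lit 78) (nat_lit 0) (nat_lit 0) (XT.lf (nat_lit 0) (nat_lit 126813926929) (nat_lit 152) (nat_lit 38686229824) (nat_lit 0) (nat_lit 124624534428) (nat_lit 2) (nat_lit 5) (nat_lit 4) (nat_lit 4) (nat_lit 2) (nat_lit 4) (nat_lit 416) (nat_lit 259) (nat_lit 225)) (XT.lf (nat_lit 0) (nat_lit 134989035903) (nat_lit 152) (nat_lit 36767972280) (nat_lit 0) (nat_lit 132775131703) (nat_lit 2) (nat_lit 5) (nat_lit 4) (nat_lit 4) (nat_lit 2) (nat_lit 4) (nat_lit 417) (nat_lit 259) (nat_lit 224))))) (XT.nd (nat_lit 234) (nat_lit 0) (nat_lit 0) (XT.nd (nat_lit 78) (nat_lit 0)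 (nat_lit 0) (XT.lf (nat_lit 0) (nat_lit 143547487692) (nat_lit 152) (nat_lit 34803508885) (nat_lit 0) (nat_lit 141310239016) (nat_lit 2) (nat_lit 5) (nat_lit 4) (nat_lit 4) (nat_lit 2) (nat_lit 4) (nat_lit 418) (nat_lit 259) (nat_lit 223)) (XT.nd (nat_lit 78) (nat_lit 0) (nat_lit 0) (XT.lf (nat_lit 0) (nat_lit 152509659560) (nat_lit 152) (nat_lit 32788162344) (nat_lit 0) (nat_lit 150250178052) (nat_lit 2) (nat_lit 5) (nat_lit 4) (nat_lit 4) (nat_lit 2) (nat_lit 4) (nat_lit 419) (nat_lit 259) (nat_lit 222)) (XT.lf (nat_lit 0) (nat_lit 161896890014) (nat_lit 152) (nat_lit 30717134213) (nat_lit 0) (nat_lit 159616234378) (nat_lit 2) (nat_lit 5) (nat_lit 4) (nat_lit 4) (nat_lit 2) (nat_lit 4) (nat_lit 420) (nat_lit 259) (nat_lit 221)))) (XT.nd (nat_lit 78) (nat_lit 0) (nat_lit 0) (XT.lf (nat_lit 0) (nat_lit 171731529601) (nat_lit 152) (nat_lit 28585493474) (nat_lit 0) (nat_lit 169430708129)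 (nat_lit 2) (nat_lit 5) (nat_lit 4) (nat_lit 4) (nat_lit 2) (nat_lit 4) (nat_lit 421) (nat_lit 259) (nat_lit 220)) (XT.nd (nat_lit 78) (nat_lit 0) (nat_lit 0) (XT.lf (nat_lit 0) (nat_lit 182036994130) (nat_lit 152) (nat_lit 26388164791) (nat_lit 0) (nat_lit 179716967101) (nat_lit 2) (nat_lit 5) (nat_lit 4) (nat_lit 4) (nat_lit 2) (nat_lit 4) (nat_lit 422) (nat_lit 259) (nat_lit 219)) (XT.lf (nat_lit 0) (nat_lit 192837820422) (nat_lit 152) (nat_lit 24119916429) (nat_lit 0) (nat_lit 190499502385) (nat_lit 2) (nat_lit 5) (nat_lit 4) (nat_lit 4) (nat_lit 2) (nat_lit 4) (nat_lit 423) (nat_lit 259) (nat_lit 218))))))) (XT.nd (nat_lit 43446) (nat_lit 0) (nat_lit 76) (XT.nd (nat_lit 390) (nat_lit 76) (nat_lit 0) (XT.nd (nat_lit 156) (nat_lit 0) (nat_lit 0) (XT.nd (nat_lit 78) (nat_lit 0) (nat_lit 0) (XT.lf (nat_lit 0) (nat_lit 204159724729) (nat_lit 152) (nat_lit 21775347797) (nat_lit 0) (nat_lit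 201803986685) (nat_lit 2) (nat_lit 5) (nat_lit 4) (nat_lit 4) (nat_lit 2) (nat_lit 4) (nat_lit 424) (nat_lit 259) (nat_lit 217)) (XT.lf (nat_lit 0) (nat_lit 216029663966) (nat_lit 152) (nat_lit 19348876588) (nat_lit 0) (nat_lit 213657335440) (nat_lit 2) (nat_lit 5) (nat_lit 4) (nat_lit 4) (nat_lit 2) (nat_lit 4) (nat_lit 425) (nat_lit 259) (nat_lit 216))) (XT.nd (nat_lit 78) (nat_lit 0) (nat_lit 0) (XT.lf (nat_lit 0) (nat_lit 228475899894) (nat_lit 152) (nat_lit 16834725491) (nat_lit 0) (nat_lit 226087770908) (nat_lit 2) (nat_lit 5) (nat_lit 4) (nat_lit 4) (nat_lit 2) (nat_lit 4) (nat_lit 426) (nat_lit 259) (nat_lit 215)) (XT.nd (nat_lit 78) (nat_lit 0) (nat_lit 0) (XT.lf (nat_lit 0) (nat_lit 241528066408) (nat_lit 152) (nat_lit 14226908430) (nat_lit 0) (nat_lit 239124889365) (nat_lit 2) (nat_lit 5) (nat_lit 4) (nat_lit 4) (nat_lit 2) (nat_lit 4) (nat_lit 427) (nat_lit 259) (nat_lit 214))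 (XT.lf (nat_lit 0) (nat_lit 255217240094) (nat_lit 152) (nat_lit 11519216319) (nat_lit 0) (nat_lit 252799731568) (nat_lit 2) (nat_lit 5) (nat_lit 4) (nat_lit 4) (nat_lit 2) (nat_lit 4) (nat_lit 428) (nat_lit 259) (nat_lit 213))))) (XT.nd (nat_lit 234) (nat_lit 76) (nat_lit 0) (XT.nd (nat_lit 78) (nat_lit 0) (nat_lit 0) (XT.lf (nat_lit 0) (nat_lit 269576014223) (nat_lit 152) (nat_lit 8705202270) (nat_lit 0) (nat_lit 267144856666) (nat_lit 2) (nat_lit 5) (nat_lit 4) (nat_lit 4) (nat_lit 2) (nat_lit 4) (nat_lit 429) (nat_lit 259) (nat_lit 212)) (XT.nd (nat_lit 78) (nat_lit 0) (nat_lit 0) (XT.lf (nat_lit 0) (nat_lit 284638576353) (nat_lit 152) (nat_lit 5778166250) (nat_lit 0) (nat_lit 282194419718) (nat_lit 2) (nat_lit 5) (nat_lit 4) (nat_lit 4) (nat_lit 2) (nat_lit 4) (nat_lit 430) (nat_lit 259) (nat_lit 211)) (XT.lf (nat_lit 0) (nat_lit 300440789727) (nat_lit 152) (nat_lit 2731139127) (nat_lit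 0) (nat_lit 297984253018) (nat_lit 2) (nat_lit 5) (nat_lit 4) (nat_lit 4) (nat_lit 2) (nat_lit 4) (nat_lit 431) (nat_lit 259) (nat_lit 210)))) (XT.nd (nat_lit 78) (nat_lit 0) (nat_lit 0) (XT.lf (nat_lit 0) (nat_lit 457785935) (nat_lit 76) (nat_lit 316569640048) (nat_lit 76) (nat_lit 314101312793) (nat_lit 1) (nat_lit 4) (nat_lit 2) (nat_lit 5) (nat_lit 2) (nat_lit 4) (nat_lit 432) (nat_lit 259) (nat_lit 209)) (XT.nd (nat_lit 78) (nat_lit 0) (nat_lit 0) (XT.lf (nat_lit 0) (nat_lit 3876275734) (nat_lit 76) (nat_lit 330600761925) (nat_lit 76) (nat_lit 328121205578) (nat_lit 1) (nat_lit 4) (nat_lit 2) (nat_lit 5) (nat_lit 2) (nat_lit 4) (nat_lit 433) (nat_lit 259) (nat_lit 208)) (XT.lf (nat_lit 0) (nat_lit 7442165739) (nat_lit 76) (nat_lit 345344955080) (nat_lit 76) (nat_lit 342854704360) (nat_lit 1) (nat_lit 4) (nat_lit 2) (nat_lit 5) (nat_lit 2) (nat_lit 4) (nat_lit 434) (nat_lit 259) (nat_lit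 207)))))) (XT.nd (nat_lit 468) (nat_lit 152) (nat_lit 0) (XT.nd (nat_lit 234) (nat_lit 0) (nat_lit 0) (XT.nd (nat_lit 78) (nat_lit 76) (nat_lit 0) (XT.lf (nat_lit 0) (nat_lit 11587571385) (nat_lit 152) (nat_lit 3185324382) (nat_lit 0) (nat_lit 11587571385) (nat_lit 5) (nat_lit 5) (nat_lit 7) (nat_lit 4) (nat_lit 5) (nat_lit 4) (nat_lit 380) (nat_lit 260) (nat_lit 260)) (XT.nd (nat_lit 78) (nat_lit 0) (nat_lit 0) (XT.lf (nat_lit 0) (nat_lit 1226679642) (nat_lit 76) (nat_lit 27033879451) (nat_lit 76) (nat_lit 26891912197) (nat_lit 4) (nat_lit 4) (nat_lit 5) (nat_lit 5) (nat_lit 5) (nat_lit 4) (nat_lit 381) (nat_lit 260) (nat_lit 259)) (XT.lf (nat_lit 0) (nat_lit 9168813642) (nat_lit 76) (nat_lit 24407580516) (nat_lit 76) (nat_lit 24130406352) (nat_lit 4) (nat_lit 4) (nat_lit 5) (nat_lit 5) (nat_lit 5) (nat_lit 4) (nat_lit 382) (nat_lit 260) (nat_lit 258)))) (XT.nd (nat_lit 78) (nat_lit 0)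 (nat_lit 0) (XT.lf (nat_lit 0) (nat_lit 17264020656) (nat_lit 76) (nat_lit 21768531656) (nat_lit 76) (nat_lit 21362589008) (nat_lit 4) (nat_lit 4) (nat_lit 5) (nat_lit 5) (nat_lit 5) (nat_lit 4) (nat_lit 383) (nat_lit 260) (nat_lit 257)) (XT.nd (nat_lit 78) (nat_lit 0) (nat_lit 0) (XT.lf (nat_lit 0) (nat_lit 25531574988) (nat_lit 76) (nat_lit 19110449424) (nat_lit 76) (nat_lit 18581870123) (nat_lit 4) (nat_lit 4) (nat_lit 5) (nat_lit 5) (nat_lit 5) (nat_lit 4) (nat_lit 384) (nat_lit 260) (nat_lit 256)) (XT.lf (nat_lit 0) (nat_lit 33991161291) (nat_lit 76) (nat_lit 16427005051) (nat_lit 76) (nat_lit 15781628938) (nat_lit 4) (nat_lit 4) (nat_lit 5) (nat_lit 5) (nat_lit 5) (nat_lit 4) (nat_lit 385) (nat_lit 260) (nat_lit 255))))) (XT.nd (nat_lit 234) (nat_lit 152) (nat_lit 0) (XT.nd (nat_lit 78) (nat_lit 0) (nat_lit 0) (XT.lf (nat_lit 0) (nat_lit 42662921436) (nat_lit 76) (nat_lit 13711809384)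 (nat_lit 76) (nat_lit 12955198213) (nat_lit 4) (nat_lit 4) (nat_lit 5) (nat_lit 5) (nat_lit 5) (nat_lit 4) (nat_lit 386) (nat_lit 260) (nat_lit 254)) (XT.nd (nat_lit 78) (nat_lit 0) (nat_lit 0) (XT.lf (nat_lit 0) (nat_lit 51567502471) (nat_lit 76) (nat_lit 10958397672) (nat_lit 76) (nat_lit 10095848349) (nat_lit 4) (nat_lit 4) (nat_lit 5) (nat_lit 5) (nat_lit 5) (nat_lit 4) (nat_lit 387) (nat_lit 260) (nat_lit 253)) (XT.lf (nat_lit 0) (nat_lit 60726105781) (nat_lit 76) (nat_lit 8160214172) (nat_lit 76) (nat_lit 7196771372) (nat_lit 4) (nat_lit 4) (nat_lit 5) (nat_lit 5) (nat_lit 5) (nat_lit 4) (nat_lit 388) (nat_lit 260) (nat_lit 252)))) (XT.nd (nat_lit 78) (nat_lit 152) (nat_lit 0) (XT.lf (nat_lit 0) (nat_lit 70160537563) (nat_lit 76) (nat_lit 5310596543) (nat_lit 76) (nat_lit 4251064718) (nat_lit 4) (nat_lit 4) (nat_lit 5) (nat_lit 5) (nat_lit 5) (nat_lit 4) (nat_lit 389) (nat_lit 260)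 (nat_lit 251)) (XT.nd (nat_lit 78) (nat_lit 152) (nat_lit 0) (XT.lf (nat_lit 0) (nat_lit 79893260750) (nat_lit 76) (nat_lit 2402759982) (nat_lit 76) (nat_lit 1251714798) (nat_lit 4) (nat_lit 4) (nat_lit 5) (nat_lit 5) (nat_lit 5) (nat_lit 4) (nat_lit 390) (nat_lit 260) (nat_lit 250)) (XT.lf (nat_lit 0) (nat_lit 1798435763) (nat_lit 152) (nat_lit 85147370593) (nat_lit 0) (nat_lit 619196941) (nat_lit 2) (nat_lit 5) (nat_lit 4) (nat_lit 4) (nat_lit 2) (nat_lit 4) (nat_lit 391) (nat_lit 260) (nat_lit 249))))))))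
noncomputable def xc17 : XT := (XT.nd (nat_lit 1716) (nat_lit 76) (nat_lit 0) (XT.nd (nat_lit 858) (nat_lit 0) (nat_lit 0) (XT.nd (nat_lit 390) (nat_lit 0) (nat_lit 0) (XT.nd (nat_lit 156) (nat_lit 0) (nat_lit 0) (XT.nd (nat_lit 78) (nat_lit 0) (nat_lit 0) (XT.lf (nat_lit 0) (nat_lit 4975266229) (nat_lit 152) (nat_lit 83089068912) (nat_lit 0) (nat_lit 3716974728) (nat_lit 2) (nat_lit 5) (nat_lit 4) (nat_lit 4) (nat_lit 2) (nat_lit 4) (nat_lit 392) (nat_lit 260) (nat_lit 248)) (XT.lf (nat_lit 0) (nat_lit 8228979932) (nat_lit 152) (nat_lit 81088162273) (nat_lit 0) (nat_lit 6895400165) (nat_lit 2) (nat_lit 5) (nat_lit 4) (nat_lit 4) (nat_lit 2) (nat_lit 4) (nat_lit 393) (nat_lit 260) (nat_lit 247))) (XT.nd (nat_lit 78) (nat_lit 0) (nat_lit 0) (XT.lf (nat_lit 0) (nat_lit 11567323810) (nat_lit 152) (nat_lit 79139886612) (nat_lit 0) (nat_lit 10162040932) (nat_lit 2) (nat_lit 5) (nat_lit 4) (nat_lit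 4) (nat_lit 2) (nat_lit 4) (nat_lit 394) (nat_lit 260) (nat_lit 246)) (XT.nd (nat_lit 78) (nat_lit 0) (nat_lit 0) (XT.lf (nat_lit 0) (nat_lit 14998246300) (nat_lit 152) (nat_lit 77239603178) (nat_lit 0) (nat_lit 13524674745) (nat_lit 2) (nat_lit 5) (nat_lit 4) (nat_lit 4) (nat_lit 2) (nat_lit 4) (nat_lit 395) (nat_lit 260) (nat_lit 245)) (XT.lf (nat_lit 0) (nat_lit 18529916265) (nat_lit 152) (nat_lit 75382787486) (nat_lit 0) (nat_lit 16991307875) (nat_lit 2) (nat_lit 5) (nat_lit 4) (nat_lit 4) (nat_lit 2) (nat_lit 4) (nat_lit 396) (nat_lit 260) (nat_lit 244))))) (XT.nd (nat_lit 234) (nat_lit 0) (nat_lit 0) (XT.nd (nat_lit 78) (nat_lit 0) (nat_lit 0) (XT.lf (nat_lit 0) (nat_lit 22170742444) (nat_lit 152) (nat_lit 73565018547) (nat_lit 0) (nat_lit 20570194211) (nat_lit 2) (nat_lit 5) (nat_lit 4) (nat_lit 4) (nat_lit 2) (nat_lit 4) (nat_lit 397) (nat_lit 260) (nat_lit 243)) (XT.nd (nat_lit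 78) (nat_lit 0) (nat_lit 0) (XT.lf (nat_lit 0) (nat_lit 25929393470) (nat_lit 152) (nat_lit 71781968338) (nat_lit 0) (nat_lit 24269854910) (nat_lit 2) (nat_lit 5) (nat_lit 4) (nat_lit 4) (nat_lit 2) (nat_lit 4) (nat_lit 398) (nat_lit 260) (nat_lit 242)) (XT.lf (nat_lit 0) (nat_lit 29814818512) (nat_lit 152) (nat_lit 70029391504) (nat_lit 0) (nat_lit 28099098689) (nat_lit 2) (nat_lit 5) (nat_lit 4) (nat_lit 4) (nat_lit 2) (nat_lit 4) (nat_lit 399) (nat_lit 260) (nat_lit 241)))) (XT.nd (nat_lit 78) (nat_lit 0) (nat_lit 0) (XT.lf (nat_lit 0) (nat_lit 33836268582) (nat_lit 152) (nat_lit 68303115241) (nat_lit 0) (nat_lit 32067042794) (nat_lit 2) (nat_lit 5) (nat_lit 4) (nat_lit 4) (nat_lit 2) (nat_lit 4) (nat_lit 400) (nat_lit 260) (nat_lit 240)) (XT.nd (nat_lit 78) (nat_lit 0) (nat_lit 0) (XT.lf (nat_lit 0) (nat_lit 38003318562) (nat_lit 152) (nat_lit 66599029368) (nat_lit 0) (nat_lit 36183134712)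 (nat_lit 2) (nat_lit 5) (nat_lit 4) (nat_lit 4) (nat_lit 2) (nat_lit 4) (nat_lit 401) (nat_lit 260) (nat_lit 239)) (XT.lf (nat_lit 0) (nat_lit 42325889999) (nat_lit 152) (nat_lit 64913076538) (nat_lit 0) (nat_lit 40457174661) (nat_lit 2) (nat_lit 5) (nat_lit 4) (nat_lit 4) (nat_lit 2) (nat_lit 4) (nat_lit 402) (nat_lit 260) (nat_lit 238)))))) (XT.nd (nat_lit 390) (nat_lit 0) (nat_lit 0) (XT.nd (nat_lit 156) (nat_lit 0) (nat_lit 0) (XT.nd (nat_lit 78) (nat_lit 0) (nat_lit 0) (XT.lf (nat_lit 0) (nat_lit 46814274729) (nat_lit 152) (nat_lit 63241242577) (nat_lit 0) (nat_lit 44899338926) (nat_lit 2) (nat_lit 5) (nat_lit 4) (nat_lit 4) (nat_lit 2) (nat_lit 4) (nat_lit 403) (nat_lit 260) (nat_lit 237)) (XT.lf (nat_lit 0) (nat_lit 51479159383) (nat_lit 152) (nat_lit 61579546928) (nat_lit 0) (nat_lit 49520204091) (nat_lit 2) (nat_lit 5) (nat_lit 4) (nat_lit 4) (nat_lit 2) (nat_lit 4) (nat_lit 404)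 (nat_lit 260) (nat_lit 236))) (XT.nd (nat_lit 78) (nat_lit 0) (nat_lit 0) (XT.lf (nat_lit 0) (nat_lit 56331650830) (nat_lit 152) (nat_lit 59924033174) (nat_lit 0) (nat_lit 54330772214) (nat_lit 2) (nat_lit 5) (nat_lit 4) (nat_lit 4) (nat_lit 2) (nat_lit 4) (nat_lit 405) (nat_lit 260) (nat_lit 235)) (XT.nd (nat_lit 78) (nat_lit 0) (nat_lit 0) (XT.lf (nat_lit 0) (nat_lit 61383302620) (nat_lit 152) (nat_lit 58270759614) (nat_lit 0) (nat_lit 59342497029) (nat_lit 2) (nat_lit 5) (nat_lit 4) (nat_lit 4) (nat_lit 2) (nat_lit 4) (nat_lit 406) (nat_lit 260) (nat_lit 234)) (XT.lf (nat_lit 0) (nat_lit 66646142496) (nat_lit 152) (nat_lit 56615789883) (nat_lit 0) (nat_lit 64567311214) (nat_lit 2) (nat_lit 5) (nat_lit 4) (nat_lit 4) (nat_lit 2) (nat_lit 4) (nat_lit 407) (nat_lit 260) (nat_lit 233))))) (XT.nd (nat_lit 234) (nat_lit 0) (nat_lit 0) (XT.nd (nat_lit 78) (nat_lit 0) (nat_lit 0) (XT.lf (nat_lit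 0) (nat_lit 72132701028) (nat_lit 152) (nat_lit 54955183578) (nat_lit 0) (nat_lit 70017654803) (nat_lit 2) (nat_lit 5) (nat_lit 4) (nat_lit 4) (nat_lit 2) (nat_lit 4) (nat_lit 408) (nat_lit 260) (nat_lit 232)) (XT.nd (nat_lit 78) (nat_lit 0) (nat_lit 0) (XT.lf (nat_lit 0) (nat_lit 77856041452) (nat_lit 152) (nat_lit 53284986872) (nat_lit 0) (nat_lit 75706504805) (nat_lit 2) (nat_lit 5) (nat_lit 4) (nat_lit 4) (nat_lit 2) (nat_lit 4) (nat_lit 409) (nat_lit 260) (nat_lit 231)) (XT.lf (nat_lit 0) (nat_lit 83829790768) (nat_lit 152) (nat_lit 51601223108) (nat_lit 0) (nat_lit 81647406100) (nat_lit 2) (nat_lit 5) (nat_lit 4) (nat_lit 4) (nat_lit 2) (nat_lit 4) (nat_lit 410) (nat_lit 260) (nat_lit 230)))) (XT.nd (nat_lit 78) (nat_lit 0) (nat_lit 0) (XT.lf (nat_lit 0) (nat_lit 90068172189) (nat_lit 152) (nat_lit 49899883325) (nat_lit 0) (nat_lit 87854503691) (nat_lit 2) (nat_lit 5) (nat_lit 4)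 (nat_lit 4) (nat_lit 2) (nat_lit 4) (nat_lit 411) (nat_lit 260) (nat_lit 229)) (XT.nd (nat_lit 78) (nat_lit 0) (nat_lit 0) (XT.lf (nat_lit 0) (nat_lit 96586039005) (nat_lit 152) (nat_lit 48176916712) (nat_lit 0) (nat_lit 94342576383) (nat_lit 2) (nat_lit 5) (nat_lit 4) (nat_lit 4) (nat_lit 2) (nat_lit 4) (nat_lit 412) (nat_lit 260) (nat_lit 228)) (XT.lf (nat_lit 0) (nat_lit 103398909945) (nat_lit 152) (nat_lit 46428220969) (nat_lit 0) (nat_lit 101127071968) (nat_lit 2) (nat_lit 5) (nat_lit 4) (nat_lit 4) (nat_lit 2) (nat_lit 4) (nat_lit 413) (nat_lit 260) (nat_lit 227))))))) (XT.nd (nat_lit 858) (nat_lit 76) (nat_lit 0) (XT.nd (nat_lit 390) (nat_lit 0) (nat_lit 0) (XT.nd (nat_lit 156) (nat_lit 0) (nat_lit 0) (XT.nd (nat_lit 78) (nat_lit 0) (nat_lit 0) (XT.lf (nat_lit 0) (nat_lit 110523006131) (nat_lit 152) (nat_lit 44649632535) (nat_lit 0) (nat_lit 108224144005) (nat_lit 2) (nat_lit 5)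 (nat_lit 4) (nat_lit 4) (nat_lit 2) (nat_lit 4) (nat_lit 414) (nat_lit 260) (nat_lit 226)) (XT.lf (nat_lit 0) (nat_lit 117975289697) (nat_lit 152) (nat_lit 42836916675) (nat_lit 0) (nat_lit 115650690287) (nat_lit 2) (nat_lit 5) (nat_lit 4) (nat_lit 4) (nat_lit 2) (nat_lit 4) (nat_lit 415) (nat_lit 260) (nat_lit 225))) (XT.nd (nat_lit 78) (nat_lit 0) (nat_lit 0) (XT.lf (nat_lit 0) (nat_lit 125773504175) (nat_lit 152) (nat_lit 40985757399) (nat_lit 0) (nat_lit 123424393066) (nat_lit 2) (nat_lit 5) (nat_lit 4) (nat_lit 4) (nat_lit 2) (nat_lit 4) (nat_lit 416) (nat_lit 260) (nat_lit 224)) (XT.nd (nat_lit 78) (nat_lit 0) (nat_lit 0) (XT.lf (nat_lit 0) (nat_lit 133936216742) (nat_lit 152) (nat_lit 39091747184) (nat_lit 0) (nat_lit 131563761158) (nat_lit 2) (nat_lit 5) (nat_lit 4) (nat_lit 4) (nat_lit 2) (nat_lit 4) (nat_lit 417) (nat_lit 260) (nat_lit 223)) (XT.lf (nat_lit 0) (nat_lit 142482862429)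 (nat_lit 152) (nat_lit 37150376484) (nat_lit 0) (nat_lit 140088174011) (nat_lit 2) (nat_lit 5) (nat_lit 4) (nat_lit 4) (nat_lit 2) (nat_lit 4) (nat_lit 418) (nat_lit 260) (nat_lit 222))))) (XT.nd (nat_lit 234) (nat_lit 0) (nat_lit 0) (XT.nd (nat_lit 78) (nat_lit 0) (nat_lit 0) (XT.lf (nat_lit 0) (nat_lit 151433790391) (nat_lit 152) (nat_lit 35157022985) (nat_lit 0) (nat_lit 149017927845) (nat_lit 2) (nat_lit 5) (nat_lit 4) (nat_lit 4) (nat_lit 2) (nat_lit 4) (nat_lit 419) (nat_lit 260) (nat_lit 221)) (XT.nd (nat_lit 78) (nat_lit 0) (nat_lit 0) (XT.lf (nat_lit 0) (nat_lit 160810312362) (nat_lit 152) (nat_lit 33106940610) (nat_lit 0) (nat_lit 158374283981) (nat_lit 2) (nat_lit 5) (nat_lit 4) (nat_lit 4) (nat_lit 2) (nat_lit 4) (nat_lit 420) (nat_lit 260) (nat_lit 220)) (XT.lf (nat_lit 0) (nat_lit 170634753394) (nat_lit 152) (nat_lit 30995248209) (nat_lit 0) (nat_lit 168179519456) (nat_lit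 2) (nat_lit 5) (nat_lit 4) (nat_lit 4) (nat_lit 2) (nat_lit 4) (nat_lit 421) (nat_lit 260) (nat_lit 219)))) (XT.nd (nat_lit 78) (nat_lit 0) (nat_lit 0) (XT.lf (nat_lit 0) (nat_lit 180930505014) (nat_lit 152) (nat_lit 28816917943) (nat_lit 0) (nat_lit 178456980068) (nat_lit 2) (nat_lit 5) (nat_lit 4) (nat_lit 4) (nat_lit 2) (nat_lit 4) (nat_lit 422) (nat_lit 260) (nat_lit 218)) (XT.nd (nat_lit 78) (nat_lit 0) (nat_lit 0) (XT.lf (nat_lit 0) (nat_lit 191722080916) (nat_lit 152) (nat_lit 26566763312) (nat_lit 0) (nat_lit 189231135963) (nat_lit 2) (nat_lit 5) (nat_lit 4) (nat_lit 4) (nat_lit 2) (nat_lit 4) (nat_lit 423) (nat_lit 260) (nat_lit 217)) (XT.lf (nat_lit 0) (nat_lit 203035175328) (nat_lit 152) (nat_lit 24239426804) (nat_lit 0) (nat_lit 200527639892) (nat_lit 2) (nat_lit 5) (nat_lit 4) (nat_lit 4) (nat_lit 2) (nat_lit 4) (nat_lit 424) (nat_lit 260) (nat_lit 216)))))) (XT.nd (nat_lit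 468) (nat_lit 76) (nat_lit 0) (XT.nd (nat_lit 234) (nat_lit 0) (nat_lit 0) (XT.nd (nat_lit 78) (nat_lit 0) (nat_lit 0) (XT.lf (nat_lit 0) (nat_lit 214896724189) (nat_lit 152) (nat_lit 21829367143) (nat_lit 0) (nat_lit 212373388293) (nat_lit 2) (nat_lit 5) (nat_lit 4) (nat_lit 4) (nat_lit 2) (nat_lit 4) (nat_lit 425) (nat_lit 260) (nat_lit 215)) (XT.nd (nat_lit 78) (nat_lit 0) (nat_lit 0) (XT.lf (nat_lit 0) (nat_lit 227334969282) (nat_lit 152) (nat_lit 19330846090) (nat_lit 0) (nat_lit 224796585330) (nat_lit 2) (nat_lit 5) (nat_lit 4) (nat_lit 4) (nat_lit 2) (nat_lit 4) (nat_lit 426) (nat_lit 260) (nat_lit 214)) (XT.lf (nat_lit 0) (nat_lit 240379525477) (nat_lit 152) (nat_lit 16737914786) (nat_lit 0) (nat_lit 237826810042) (nat_lit 2) (nat_lit 5) (nat_lit 4) (nat_lit 4) (nat_lit 2) (nat_lit 4) (nat_lit 427) (nat_lit 260) (nat_lit 213)))) (XT.nd (nat_lit 78) (nat_lit 0) (nat_lit 0) (XT.lf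 (nat_lit 0) (nat_lit 254061451241) (nat_lit 152) (nat_lit 14044399586) (nat_lit 0) (nat_lit 251495086774) (nat_lit 2) (nat_lit 5) (nat_lit 4) (nat_lit 4) (nat_lit 2) (nat_lit 4) (nat_lit 428) (nat_lit 260) (nat_lit 212)) (XT.nd (nat_lit 78) (nat_lit 0) (nat_lit 0) (XT.lf (nat_lit 0) (nat_lit 268413322587) (nat_lit 152) (nat_lit 11243887358) (nat_lit 0) (nat_lit 265833959043) (nat_lit 2) (nat_lit 5) (nat_lit 4) (nat_lit 4) (nat_lit 2) (nat_lit 4) (nat_lit 429) (nat_lit 260) (nat_lit 211)) (XT.lf (nat_lit 0) (nat_lit 283469310637) (nat_lit 152) (nat_lit 8329710215) (nat_lit 0) (nat_lit 280877567020) (nat_lit 2) (nat_lit 5) (nat_lit 4) (nat_lit 4) (nat_lit 2) (nat_lit 4) (nat_lit 430) (nat_lit 260) (nat_lit 210))))) (XT.nd (nat_lit 234) (nat_lit 0) (nat_lit 0) (XT.nd (nat_lit 78) (nat_lit 76) (nat_lit 0) (XT.lf (nat_lit 0) (nat_lit 299265262983) (nat_lit 152) (nat_lit 5294929641) (nat_lit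 0) (nat_lit 296661728819) (nat_lit 2) (nat_lit 5) (nat_lit 4) (nat_lit 4) (nat_lit 2) (nat_lit 4) (nat_lit 431) (nat_lit 260) (nat_lit 209)) (XT.nd (nat_lit 78) (nat_lit 76) (nat_lit 0) (XT.lf (nat_lit 0) (nat_lit 315838789034) (nat_lit 152) (nat_lit 2132319967) (nat_lit 0) (nat_lit 313224025779) (nat_lit 2) (nat_lit 5) (nat_lit 4) (nat_lit 4) (nat_lit 2) (nat_lit 4) (nat_lit 432) (nat_lit 260) (nat_lit 208)) (XT.lf (nat_lit 0) (nat_lit 1204190443) (nat_lit 76) (nat_lit 332043959912) (nat_lit 76) (nat_lit 329418502283) (nat_lit 1) (nat_lit 4) (nat_lit 2) (nat_lit 5) (nat_lit 2) (nat_lit 4) (nat_lit 433) (nat_lit 260) (nat_lit 207)))) (XT.nd (nat_lit 42510) (nat_lit 0) (nat_lit 304) (XT.lf (nat_lit 0) (nat_lit 4759151627) (nat_lit 76) (nat_lit 346793502746) (nat_lit 76) (nat_lit 344157860000) (nat_lit 1) (nat_lit 4) (nat_lit 2) (nat_lit 5) (nat_lit 2) (nat_lit 4) (nat_lit 434) (nat_lit 260)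 (nat_lit 206)) (XT.nd (nat_lit 78) (nat_lit 0) (nat_lit 0) (XT.lf (nat_lit 0) (nat_lit 6794557368) (nat_lit 152) (nat_lit 10517748314) (nat_lit 0) (nat_lit 6794557368) (nat_lit 5) (nat_lit 5) (nat_lit 7) (nat_lit 4) (nat_lit 5) (nat_lit 4) (nat_lit 378) (nat_lit 261) (nat_lit 261)) (XT.lf (nat_lit 0) (nat_lit 18371453115) (nat_lit 152) (nat_lit 13816842050) (nat_lit 0) (nat_lit 18222387498) (nat_lit 5) (nat_lit 5) (nat_lit 7) (nat_lit 4) (nat_lit 5) (nat_lit 4) (nat_lit 379) (nat_lit 261) (nat_lit 260))))))))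
noncomputable def xc18 : XT := (XT.nd (nat_lit 1716) (nat_lit 0) (nat_lit 0) (XT.nd (nat_lit 858) (nat_lit 152) (nat_lit 0) (XT.nd (nat_lit 390) (nat_lit 0) (nat_lit 0) (XT.nd (nat_lit 156) (nat_lit 0) (nat_lit 0) (XT.nd (nat_lit 78) (nat_lit 76) (nat_lit 0) (XT.lf (nat_lit 0) (nat_lit 23258779793) (nat_lit 152) (nat_lit 6497690692) (nat_lit 0) (nat_lit 22967746921) (nat_lit 5) (nat_lit 5) (nat_lit 7) (nat_lit 4) (nat_lit 5) (nat_lit 4) (nat_lit 380) (nat_lit 261) (nat_lit 259)) (XT.lf (nat_lit 0) (nat_lit 970444273) (nat_lit 76) (nat_lit 27307438343) (nat_lit 76) (nat_lit 26881198562) (nat_lit 4) (nat_lit 4) (nat_lit 5) (nat_lit 5) (nat_lit 5) (nat_lit 4) (nat_lit 381) (nat_lit 261) (nat_lit 258))) (XT.nd (nat_lit 78) (nat_lit 0) (nat_lit 0) (XT.lf (nat_lit 0) (nat_lit 8793537451) (nat_lit 76) (nat_lit 24738976004) (nat_lit 76) (nat_lit 24183967738) (nat_lit 4) (nat_lit 4) (nat_lit 5)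 (nat_lit 5) (nat_lit 5) (nat_lit 4) (nat_lit 382) (nat_lit 261) (nat_lit 257)) (XT.nd (nat_lit 78) (nat_lit 0) (nat_lit 0) (XT.lf (nat_lit 0) (nat_lit 16775372254) (nat_lit 76) (nat_lit 22155009618) (nat_lit 76) (nat_lit 21477364700) (nat_lit 4) (nat_lit 4) (nat_lit 5) (nat_lit 5) (nat_lit 5) (nat_lit 4) (nat_lit 383) (nat_lit 261) (nat_lit 256)) (XT.lf (nat_lit 0) (nat_lit 24934953051) (nat_lit 76) (nat_lit 19549386883) (nat_lit 76) (nat_lit 18754945153) (nat_lit 4) (nat_lit 4) (nat_lit 5) (nat_lit 5) (nat_lit 5) (nat_lit 4) (nat_lit 384) (nat_lit 261) (nat_lit 255))))) (XT.nd (nat_lit 234) (nat_lit 0) (nat_lit 0) (XT.nd (nat_lit 78) (nat_lit 0) (nat_lit 0) (XT.lf (nat_lit 0) (nat_lit 33291707415) (nat_lit 76) (nat_lit 16915903937) (nat_lit 76) (nat_lit 16010227148) (nat_lit 4) (nat_lit 4) (nat_lit 5) (nat_lit 5) (nat_lit 5) (nat_lit 4) (nat_lit 385) (nat_lit 261) (nat_lit 254)) (XT.nd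 (nat_lit 78) (nat_lit 0) (nat_lit 0) (XT.lf (nat_lit 0) (nat_lit 41865532382) (nat_lit 76) (nat_lit 14248290582) (nat_lit 76) (nat_lit 13236675642) (nat_lit 4) (nat_lit 4) (nat_lit 5) (nat_lit 5) (nat_lit 5) (nat_lit 4) (nat_lit 386) (nat_lit 261) (nat_lit 253)) (XT.lf (nat_lit 0) (nat_lit 50676841818) (nat_lit 76) (nat_lit 11540195356) (nat_lit 76) (nat_lit 10427686939) (nat_lit 4) (nat_lit 4) (nat_lit 5) (nat_lit 5) (nat_lit 5) (nat_lit 4) (nat_lit 387) (nat_lit 261) (nat_lit 252)))) (XT.nd (nat_lit 78) (nat_lit 0) (nat_lit 0) (XT.lf (nat_lit 0) (nat_lit 59746615034) (nat_lit 76) (nat_lit 8785170416) (nat_lit 76) (nat_lit 7576572972) (nat_lit 4) (nat_lit 4) (nat_lit 5) (nat_lit 5) (nat_lit 5) (nat_lit 4) (nat_lit 388) (nat_lit 261) (nat_lit 251)) (XT.nd (nat_lit 78) (nat_lit 0) (nat_lit 0) (XT.lf (nat_lit 0) (nat_lit 69096446726) (nat_lit 76) (nat_lit 5976656176) (nat_lit 76) (nat_lit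 4676545375) (nat_lit 4) (nat_lit 4) (nat_lit 5) (nat_lit 5) (nat_lit 5) (nat_lit 4) (nat_lit 389) (nat_lit 261) (nat_lit 250)) (XT.lf (nat_lit 0) (nat_lit 78748598399) (nat_lit 76) (nat_lit 3107965699) (nat_lit 76) (nat_lit 1720699319) (nat_lit 4) (nat_lit 4) (nat_lit 5) (nat_lit 5) (nat_lit 5) (nat_lit 4) (nat_lit 390) (nat_lit 261) (nat_lit 249)))))) (XT.nd (nat_lit 390) (nat_lit 0) (nat_lit 0) (XT.nd (nat_lit 156) (nat_lit 0) (nat_lit 0) (XT.nd (nat_lit 78) (nat_lit 0) (nat_lit 0) (XT.lf (nat_lit 0) (nat_lit 1142020477) (nat_lit 76) (nat_lit 132268386) (nat_lit 152) (nat_lit 86324123570) (nat_lit 2) (nat_lit 5) (nat_lit 3) (nat_lit 5) (nat_lit 4) (nat_lit 4) (nat_lit 391) (nat_lit 261) (nat_lit 248)) (XT.lf (nat_lit 0) (nat_lit 4409074597) (nat_lit 152) (nat_lit 84474225257) (nat_lit 0) (nat_lit 2933527575) (nat_lit 2) (nat_lit 5) (nat_lit 4) (nat_lit 4) (nat_lit 2) (nat_lit 4) (nat_lit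 392) (nat_lit 261) (nat_lit 247))) (XT.nd (nat_lit 78) (nat_lit 0) (nat_lit 0) (XT.lf (nat_lit 0) (nat_lit 7624712442) (nat_lit 152) (nat_lit 82547794867) (nat_lit 0) (nat_lit 6077462309) (nat_lit 2) (nat_lit 5) (nat_lit 4) (nat_lit 4) (nat_lit 2) (nat_lit 4) (nat_lit 393) (nat_lit 261) (nat_lit 246)) (XT.nd (nat_lit 78) (nat_lit 0) (nat_lit 0) (XT.lf (nat_lit 0) (nat_lit 10926793597) (nat_lit 152) (nat_lit 80670448967) (nat_lit 0) (nat_lit 9311254787) (nat_lit 2) (nat_lit 5) (nat_lit 4) (nat_lit 4) (nat_lit 2) (nat_lit 4) (nat_lit 394) (nat_lit 261) (nat_lit 245)) (XT.lf (nat_lit 0) (nat_lit 14323180160) (nat_lit 152) (nat_lit 78837717686) (nat_lit 0) (nat_lit 12642604515) (nat_lit 2) (nat_lit 5) (nat_lit 4) (nat_lit 4) (nat_lit 2) (nat_lit 4) (nat_lit 395) (nat_lit 261) (nat_lit 244))))) (XT.nd (nat_lit 234) (nat_lit 0) (nat_lit 0) (XT.nd (nat_lit 78) (nat_lit 0) (nat_lit 0) (XT.lf (nat_lit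 0) (nat_lit 17821958767) (nat_lit 152) (nat_lit 77045237378) (nat_lit 0) (nat_lit 16079443279) (nat_lit 2) (nat_lit 5) (nat_lit 4) (nat_lit 4) (nat_lit 2) (nat_lit 4) (nat_lit 396) (nat_lit 261) (nat_lit 243)) (XT.nd (nat_lit 78) (nat_lit 0) (nat_lit 0) (XT.lf (nat_lit 0) (nat_lit 21431459842) (nat_lit 152) (nat_lit 75288740232) (nat_lit 0) (nat_lit 19629954028) (nat_lit 2) (nat_lit 5) (nat_lit 4) (nat_lit 4) (nat_lit 2) (nat_lit 4) (nat_lit 397) (nat_lit 261) (nat_lit 242)) (XT.lf (nat_lit 0) (nat_lit 25160277436) (nat_lit 152) (nat_lit 73564044114) (nat_lit 0) (nat_lit 23302590359) (nat_lit 2) (nat_lit 5) (nat_lit 4) (nat_lit 4) (nat_lit 2) (nat_lit 4) (nat_lit 398) (nat_lit 261) (nat_lit 241)))) (XT.nd (nat_lit 78) (nat_lit 0) (nat_lit 0) (XT.lf (nat_lit 0) (nat_lit 29017289686) (nat_lit 152) (nat_lit 71867042603) (nat_lit 0) (nat_lit 27106096643) (nat_lit 2) (nat_lit 5) (nat_lit 4)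 (nat_lit 4) (nat_lit 2) (nat_lit 4) (nat_lit 399) (nat_lit 261) (nat_lit 240)) (XT.nd (nat_lit 78) (nat_lit 0) (nat_lit 0) (XT.lf (nat_lit 0) (nat_lit 33011679955) (nat_lit 152) (nat_lit 70193695220) (nat_lit 0) (nat_lit 31049528850) (nat_lit 2) (nat_lit 5) (nat_lit 4) (nat_lit 4) (nat_lit 2) (nat_lit 4) (nat_lit 400) (nat_lit 261) (nat_lit 239)) (XT.lf (nat_lit 0) (nat_lit 37152958694) (nat_lit 152) (nat_lit 68540017803) (nat_lit 0) (nat_lit 35142276102) (nat_lit 2) (nat_lit 5) (nat_lit 4) (nat_lit 4) (nat_lit 2) (nat_lit 4) (nat_lit 401) (nat_lit 261) (nat_lit 238))))))) (XT.nd (nat_lit 858) (nat_lit 0) (nat_lit 0) (XT.nd (nat_lit 390) (nat_lit 0) (nat_lit 0) (XT.nd (nat_lit 156) (nat_lit 0) (nat_lit 0) (XT.nd (nat_lit 78) (nat_lit 0) (nat_lit 0) (XT.lf (nat_lit 0) (nat_lit 41450986093) (nat_lit 152) (nat_lit 66902073027) (nat_lit 0) (nat_lit 39394083036) (nat_lit 2) (nat_lit 5) (nat_lit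 4) (nat_lit 4) (nat_lit 2) (nat_lit 4) (nat_lit 402) (nat_lit 261) (nat_lit 237)) (XT.lf (nat_lit 0) (nat_lit 45915995549) (nat_lit 152) (nat_lit 65275961023) (nat_lit 0) (nat_lit 43815073002) (nat_lit 2) (nat_lit 5) (nat_lit 4) (nat_lit 4) (nat_lit 2) (nat_lit 4) (nat_lit 403) (nat_lit 261) (nat_lit 236))) (XT.nd (nat_lit 78) (nat_lit 0) (nat_lit 0) (XT.lf (nat_lit 0) (nat_lit 50558618037) (nat_lit 152) (nat_lit 63657810095) (nat_lit 0) (nat_lit 48415772166) (nat_lit 2) (nat_lit 5) (nat_lit 4) (nat_lit 4) (nat_lit 2) (nat_lit 4) (nat_lit 404) (nat_lit 261) (nat_lit 235)) (XT.nd (nat_lit 78) (nat_lit 0) (nat_lit 0) (XT.lf (nat_lit 0) (nat_lit 55389907421) (nat_lit 152) (nat_lit 62043767502) (nat_lit 0) (nat_lit 53207134575) (nat_lit 2) (nat_lit 5) (nat_lit 4) (nat_lit 4) (nat_lit 2) (nat_lit 4) (nat_lit 405) (nat_lit 261) (nat_lit 234)) (XT.lf (nat_lit 0) (nat_lit 60421366770) (nat_lit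 152) (nat_lit 60429990287) (nat_lit 0) (nat_lit 58200568234) (nat_lit 2) (nat_lit 5) (nat_lit 4) (nat_lit 4) (nat_lit 2) (nat_lit 4) (nat_lit 406) (nat_lit 261) (nat_lit 233))))) (XT.nd (nat_lit 234) (nat_lit 0) (nat_lit 0) (XT.nd (nat_lit 78) (nat_lit 0) (nat_lit 0) (XT.lf (nat_lit 0) (nat_lit 65664975750) (nat_lit 152) (nat_lit 58812636123) (nat_lit 0) (nat_lit 63407962270) (nat_lit 2) (nat_lit 5) (nat_lit 4) (nat_lit 4) (nat_lit 2) (nat_lit 4) (nat_lit 407) (nat_lit 261) (nat_lit 232)) (XT.nd (nat_lit 78) (nat_lit 0) (nat_lit 0) (XT.lf (nat_lit 0) (nat_lit 71133219143) (nat_lit 152) (nat_lit 57187854166) (nat_lit 0) (nat_lit 68841715241) (nat_lit 2) (nat_lit 5) (nat_lit 4) (nat_lit 4) (nat_lit 2) (nat_lit 4) (nat_lit 408) (nat_lit 261) (nat_lit 231)) (XT.lf (nat_lit 0) (nat_lit 76839116577) (nat_lit 152) (nat_lit 55551775889) (nat_lit 0) (nat_lit 74514764654) (nat_lit 2) (nat_lit 5)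 (nat_lit 4) (nat_lit 4) (nat_lit 2) (nat_lit 4) (nat_lit 409) (nat_lit 261) (nat_lit 230)))) (XT.nd (nat_lit 78) (nat_lit 0) (nat_lit 0) (XT.lf (nat_lit 0) (nat_lit 82796253522) (nat_lit 152) (nat_lit 53900505865) (nat_lit 0) (nat_lit 80440617769) (nat_lit 2) (nat_lit 5) (nat_lit 4) (nat_lit 4) (nat_lit 2) (nat_lit 4) (nat_lit 410) (nat_lit 261) (nat_lit 229)) (XT.nd (nat_lit 78) (nat_lit 0) (nat_lit 0) (XT.lf (nat_lit 0) (nat_lit 89018813638) (nat_lit 152) (nat_lit 52230112501) (nat_lit 0) (nat_lit 86633383761) (nat_lit 2) (nat_lit 5) (nat_lit 4) (nat_lit 4) (nat_lit 2) (nat_lit 4) (nat_lit 411) (nat_lit 261) (nat_lit 228)) (XT.lf (nat_lit 0) (nat_lit 95521612543) (nat_lit 152) (nat_lit 50536618670) (nat_lit 0) (nat_lit 93107807311) (nat_lit 2) (nat_lit 5) (nat_lit 4) (nat_lit 4) (nat_lit 2) (nat_lit 4) (nat_lit 412) (nat_lit 261) (nat_lit 227)))))) (XT.nd (nat_lit 468) (nat_lit 0) (nat_lit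 0) (XT.nd (nat_lit 234) (nat_lit 0) (nat_lit 0) (XT.nd (nat_lit 78) (nat_lit 0) (nat_lit 0) (XT.lf (nat_lit 0) (nat_lit 102320133092) (nat_lit 152) (nat_lit 48815992242) (nat_lit 0) (nat_lit 99879303712) (nat_lit 2) (nat_lit 5) (nat_lit 4) (nat_lit 4) (nat_lit 2) (nat_lit 4) (nat_lit 413) (nat_lit 261) (nat_lit 226)) (XT.nd (nat_lit 78) (nat_lit 0) (nat_lit 0) (XT.lf (nat_lit 0) (nat_lit 109430562240) (nat_lit 152) (nat_lit 47064136488) (nat_lit 0) (nat_lit 106963995575) (nat_lit 2) (nat_lit 5) (nat_lit 4) (nat_lit 4) (nat_lit 2) (nat_lit 4) (nat_lit 414) (nat_lit 261) (nat_lit 225)) (XT.lf (nat_lit 0) (nat_lit 116869829578) (nat_lit 152) (nat_lit 45276880324) (nat_lit 0) (nat_lit 114378751214) (nat_lit 2) (nat_lit 5) (nat_lit 4) (nat_lit 4) (nat_lit 2) (nat_lit 4) (nat_lit 415) (nat_lit 261) (nat_lit 224)))) (XT.nd (nat_lit 78) (nat_lit 0) (nat_lit 0) (XT.lf (nat_lit 0) (nat_lit 124655647649)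 (nat_lit 152) (nat_lit 43449968378) (nat_lit 0) (nat_lit 122141224810) (nat_lit 2) (nat_lit 5) (nat_lit 4) (nat_lit 4) (nat_lit 2) (nat_lit 4) (nat_lit 416) (nat_lit 261) (nat_lit 223)) (XT.nd (nat_lit 78) (nat_lit 0) (nat_lit 0) (XT.lf (nat_lit 0) (nat_lit 132806554114) (nat_lit 152) (nat_lit 41579050858) (nat_lit 0) (nat_lit 130269898441) (nat_lit 2) (nat_lit 5) (nat_lit 4) (nat_lit 4) (nat_lit 2) (nat_lit 4) (nat_lit 417) (nat_lit 261) (nat_lit 222)) (XT.lf (nat_lit 0) (nat_lit 141341955894) (nat_lit 152) (nat_lit 39659673200) (nat_lit 0) (nat_lit 138784126094) (nat_lit 2) (nat_lit 5) (nat_lit 4) (nat_lit 4) (nat_lit 2) (nat_lit 4) (nat_lit 418) (nat_lit 261) (nat_lit 221))))) (XT.nd (nat_lit 234) (nat_lit 0) (nat_lit 0) (XT.nd (nat_lit 78) (nat_lit 0) (nat_lit 0) (XT.lf (nat_lit 0) (nat_lit 150282175373) (nat_lit 152) (nat_lit 37687265457) (nat_lit 0) (nat_lit 147704179738) (nat_lit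 2) (nat_lit 5) (nat_lit 4) (nat_lit 4) (nat_lit 2) (nat_lit 4) (nat_lit 419) (nat_lit 261) (nat_lit 220)) (XT.nd (nat_lit 78) (nat_lit 0) (nat_lit 0) (XT.lf (nat_lit 0) (nat_lit 159648498790) (nat_lit 152) (nat_lit 35657131420) (nat_lit 0) (nat_lit 157051297597) (nat_lit 2) (nat_lit 5) (nat_lit 4) (nat_lit 4) (nat_lit 2) (nat_lit 4) (nat_lit 420) (nat_lit 261) (nat_lit 219)) (XT.lf (nat_lit 0) (nat_lit 169463226913) (nat_lit 152) (nat_lit 33564437436) (nat_lit 0) (nat_lit 166847734712) (nat_lit 2) (nat_lit 5) (nat_lit 4) (nat_lit 4) (nat_lit 2) (nat_lit 4) (nat_lit 421) (nat_lit 261) (nat_lit 218)))) (XT.nd (nat_lit 78) (nat_lit 0) (nat_lit 0) (XT.lf (nat_lit 0) (nat_lit 179749728143) (nat_lit 152) (nat_lit 31404200901) (nat_lit 0) (nat_lit 177116815936) (nat_lit 2) (nat_lit 5) (nat_lit 4) (nat_lit 4) (nat_lit 2) (nat_lit 4) (nat_lit 422) (nat_lit 261) (nat_lit 217)) (XT.nd (nat_lit 78)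 (nat_lit 0) (nat_lit 0) (XT.lf (nat_lit 0) (nat_lit 190532494149) (nat_lit 152) (nat_lit 29171278394) (nat_lit 0) (nat_lit 187882991459) (nat_lit 2) (nat_lit 5) (nat_lit 4) (nat_lit 4) (nat_lit 2) (nat_lit 4) (nat_lit 423) (nat_lit 261) (nat_lit 216)) (XT.lf (nat_lit 0) (nat_lit 201837198185) (nat_lit 152) (nat_lit 26860353433) (nat_lit 0) (nat_lit 199171895035) (nat_lit 2) (nat_lit 5) (nat_lit 4) (nat_lit 4) (nat_lit 2) (nat_lit 4) (nat_lit 424) (nat_lit 261) (nat_lit 215))))))))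
noncomputable def xc19 : XT := (XT.nd (nat_lit 43992) (nat_lit 0) (nat_lit 76) (XT.nd (nat_lit 43134) (nat_lit 0) (nat_lit 228) (XT.nd (nat_lit 390) (nat_lit 76) (nat_lit 0) (XT.nd (nat_lit 156) (nat_lit 0) (nat_lit 0) (XT.nd (nat_lit 78) (nat_lit 0) (nat_lit 0) (XT.lf (nat_lit 0) (nat_lit 213690756212) (nat_lit 152) (nat_lit 24465923816) (nat_lit 0) (nat_lit 211010405005) (nat_lit 2) (nat_lit 5) (nat_lit 4) (nat_lit 4) (nat_lit 2) (nat_lit 4) (nat_lit 425) (nat_lit 261) (nat_lit 214)) (XT.lf (nat_lit 0) (nat_lit 226121390986) (nat_lit 152) (nat_lit 21982288521) (nat_lit 0) (nat_lit 223426708297) (nat_lit 2) (nat_lit 5) (nat_lit 4) (nat_lit 4) (nat_lit 2) (nat_lit 4) (nat_lit 426) (nat_lit 261) (nat_lit 213))) (XT.nd (nat_lit 78) (nat_lit 0) (nat_lit 0) (XT.lf (nat_lit 0) (nat_lit 239158699259) (nat_lit 152) (nat_lit 19403534129) (nat_lit 0) (nat_lit 236450367538) (nat_lit 2) (nat_lit 5)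 (nat_lit 4) (nat_lit 4) (nat_lit 2) (nat_lit 4) (nat_lit 427) (nat_lit 261) (nat_lit 212)) (XT.nd (nat_lit 78) (nat_lit 0) (nat_lit 0) (XT.lf (nat_lit 0) (nat_lit 252833722239) (nat_lit 152) (nat_lit 16723520749) (nat_lit 0) (nat_lit 250112391441) (nat_lit 2) (nat_lit 5) (nat_lit 4) (nat_lit 4) (nat_lit 2) (nat_lit 4) (nat_lit 428) (nat_lit 261) (nat_lit 211)) (XT.lf (nat_lit 0) (nat_lit 267179019506) (nat_lit 152) (nat_lit 13935867397) (nat_lit 0) (nat_lit 264445308634) (nat_lit 2) (nat_lit 5) (nat_lit 4) (nat_lit 4) (nat_lit 2) (nat_lit 4) (nat_lit 429) (nat_lit 261) (nat_lit 210))))) (XT.nd (nat_lit 234) (nat_lit 76) (nat_lit 0) (XT.nd (nat_lit 78) (nat_lit 0) (nat_lit 0) (XT.lf (nat_lit 0) (nat_lit 282228746528) (nat_lit 152) (nat_lit 11033936803) (nat_lit 0) (nat_lit 279483245110) (nat_lit 2) (nat_lit 5) (nat_lit 4) (nat_lit 4) (nat_lit 2) (nat_lit 4) (nat_lit 430) (nat_lit 261) (nat_lit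 209)) (XT.nd (nat_lit 78) (nat_lit 0) (nat_lit 0) (XT.lf (nat_lit 0) (nat_lit 298018735990) (nat_lit 152) (nat_lit 8010819609) (nat_lit 0) (nat_lit 295262005480) (nat_lit 2) (nat_lit 5) (nat_lit 4) (nat_lit 4) (nat_lit 2) (nat_lit 4) (nat_lit 431) (nat_lit 261) (nat_lit 208)) (XT.lf (nat_lit 0) (nat_lit 314586583105) (nat_lit 152) (nat_lit 4859317917) (nat_lit 0) (nat_lit 311819158221) (nat_lit 2) (nat_lit 5) (nat_lit 4) (nat_lit 4) (nat_lit 2) (nat_lit 4) (nat_lit 432) (nat_lit 261) (nat_lit 207)))) (XT.nd (nat_lit 78) (nat_lit 76) (nat_lit 0) (XT.lf (nat_lit 0) (nat_lit 331971735127) (nat_lit 152) (nat_lit 1571928150) (nat_lit 0) (nat_lit 329194125126) (nat_lit 2) (nat_lit 5) (nat_lit 4) (nat_lit 4) (nat_lit 2) (nat_lit 4) (nat_lit 433) (nat_lit 261) (nat_lit 206)) (XT.nd (nat_lit 42354) (nat_lit 0) (nat_lit 304) (XT.lf (nat_lit 0) (nat_lit 1920649590) (nat_lit 76) (nat_lit 348324922408)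 (nat_lit 76) (nat_lit 345537612295) (nat_lit 1) (nat_lit 4) (nat_lit 2) (nat_lit 5) (nat_lit 2) (nat_lit 4) (nat_lit 434) (nat_lit 261) (nat_lit 205)) (XT.lf (nat_lit 0) (nat_lit 2261366791) (nat_lit 152) (nat_lit 17549901228) (nat_lit 0) (nat_lit 2261366791) (nat_lit 5) (nat_lit 5) (nat_lit 7) (nat_lit 4) (nat_lit 5) (nat_lit 4) (nat_lit 376) (nat_lit 262) (nat_lit 262)))))) (XT.nd (nat_lit 390) (nat_lit 0) (nat_lit 0) (XT.nd (nat_lit 156) (nat_lit 76) (nat_lit 0) (XT.nd (nat_lit 78) (nat_lit 0) (nat_lit 0) (XT.lf (nat_lit 0) (nat_lit 9056897035) (nat_lit 152) (nat_lit 28170841699) (nat_lit 0) (nat_lit 8900378137) (nat_lit 5) (nat_lit 5) (nat_lit 7) (nat_lit 4) (nat_lit 5) (nat_lit 4) (nat_lit 377) (nat_lit 262) (nat_lit 261)) (XT.lf (nat_lit 0) (nat_lit 13676933610) (nat_lit 152) (nat_lit 21168890651) (nat_lit 0) (nat_lit 13371349094) (nat_lit 5) (nat_lit 5) (nat_lit 7) (nat_lit 4) (nat_lit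 5) (nat_lit 4) (nat_lit 378) (nat_lit 262) (nat_lit 260))) (XT.nd (nat_lit 78) (nat_lit 76) (nat_lit 0) (XT.lf (nat_lit 0) (nat_lit 18393843393) (nat_lit 152) (nat_lit 14077277999) (nat_lit 0) (nat_lit 17946291623) (nat_lit 5) (nat_lit 5) (nat_lit 7) (nat_lit 4) (nat_lit 5) (nat_lit 4) (nat_lit 379) (nat_lit 262) (nat_lit 259)) (XT.nd (nat_lit 78) (nat_lit 76) (nat_lit 0) (XT.lf (nat_lit 0) (nat_lit 23218857123) (nat_lit 152) (nat_lit 6879118952) (nat_lit 0) (nat_lit 22636098444) (nat_lit 5) (nat_lit 5) (nat_lit 7) (nat_lit 4) (nat_lit 5) (nat_lit 4) (nat_lit 380) (nat_lit 262) (nat_lit 258)) (XT.lf (nat_lit 0) (nat_lit 457363450) (nat_lit 76) (nat_lit 27713240202) (nat_lit 76) (nat_lit 27001713038) (nat_lit 4) (nat_lit 4) (nat_lit 5) (nat_lit 5) (nat_lit 5) (nat_lit 4) (nat_lit 381) (nat_lit 262) (nat_lit 257))))) (XT.nd (nat_lit 234) (nat_lit 0) (nat_lit 0) (XT.nd (nat_lit 78) (nat_lit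 0) (nat_lit 0) (XT.lf (nat_lit 0) (nat_lit 8167084416) (nat_lit 76) (nat_lit 25199860336) (nat_lit 76) (nat_lit 24365696520) (nat_lit 4) (nat_lit 4) (nat_lit 5) (nat_lit 5) (nat_lit 5) (nat_lit 4) (nat_lit 382) (nat_lit 262) (nat_lit 256)) (XT.nd (nat_lit 78) (nat_lit 0) (nat_lit 0) (XT.lf (nat_lit 0) (nat_lit 16040945685) (nat_lit 76) (nat_lit 22668353448) (nat_lit 76) (nat_lit 21717392820) (nat_lit 4) (nat_lit 4) (nat_lit 5) (nat_lit 5) (nat_lit 5) (nat_lit 4) (nat_lit 383) (nat_lit 262) (nat_lit 255)) (XT.lf (nat_lit 0) (nat_lit 24097694544) (nat_lit 76) (nat_lit 20112692141) (nat_lit 76) (nat_lit 19050496454) (nat_lit 4) (nat_lit 4) (nat_lit 5) (nat_lit 5) (nat_lit 5) (nat_lit 4) (nat_lit 384) (nat_lit 262) (nat_lit 254)))) (XT.nd (nat_lit 78) (nat_lit 0) (nat_lit 0) (XT.lf (nat_lit 0) (nat_lit 32356513730) (nat_lit 76) (nat_lit 17526791506) (nat_lit 76) (nat_lit 16358657668) (nat_lit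 4) (nat_lit 4) (nat_lit 5) (nat_lit 5) (nat_lit 5) (nat_lit 4) (nat_lit 385) (nat_lit 262) (nat_lit 253)) (XT.nd (nat_lit 78) (nat_lit 0) (nat_lit 0) (XT.lf (nat_lit 0) (nat_lit 40837067097) (nat_lit 76) (nat_lit 14904494637) (nat_lit 76) (nat_lit 13635467322) (nat_lit 4) (nat_lit 4) (nat_lit 5) (nat_lit 5) (nat_lit 5) (nat_lit 4) (nat_lit 386) (nat_lit 262) (nat_lit 252)) (XT.lf (nat_lit 0) (nat_lit 49559546440) (nat_lit 76) (nat_lit 12239557971) (nat_lit 76) (nat_lit 10874441629) (nat_lit 4) (nat_lit 4) (nat_lit 5) (nat_lit 5) (nat_lit 5) (nat_lit 4) (nat_lit 387) (nat_lit 262) (nat_lit 251))))))) (XT.nd (nat_lit 858) (nat_lit 0) (nat_lit 0) (XT.nd (nat_lit 390) (nat_lit 0) (nat_lit 0) (XT.nd (nat_lit 156) (nat_lit 152) (nat_lit 0) (XT.nd (nat_lit 78) (nat_lit 0) (nat_lit 0) (XT.lf (nat_lit 0) (nat_lit 58544719565) (nat_lit 76) (nat_lit 9525636419) (nat_lit 76) (nat_lit 8069006720) (nat_lit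 4) (nat_lit 4) (nat_lit 5) (nat_lit 5) (nat_lit 5) (nat_lit 4) (nat_lit 388) (nat_lit 262) (nat_lit 250)) (XT.lf (nat_lit 0) (nat_lit 67813979744) (nat_lit 76) (nat_lit 6756268265) (nat_lit 76) (nat_lit 5212482986) (nat_lit 4) (nat_lit 4) (nat_lit 5) (nat_lit 5) (nat_lit 5) (nat_lit 4) (nat_lit 389) (nat_lit 262) (nat_lit 249))) (XT.nd (nat_lit 78) (nat_lit 152) (nat_lit 0) (XT.lf (nat_lit 0) (nat_lit 77389396642) (nat_lit 76) (nat_lit 3924859774) (nat_lit 76) (nat_lit 2298069182) (nat_lit 4) (nat_lit 4) (nat_lit 5) (nat_lit 5) (nat_lit 5) (nat_lit 4) (nat_lit 390) (nat_lit 262) (nat_lit 248)) (XT.nd (nat_lit 78) (nat_lit 76) (nat_lit 0) (XT.lf (nat_lit 0) (nat_lit 659371958) (nat_lit 152) (nat_lit 354130756) (nat_lit 76) (nat_lit 86623230130) (nat_lit 3) (nat_lit 5) (nat_lit 5) (nat_lit 5) (nat_lit 4) (nat_lit 4) (nat_lit 391) (nat_lit 262) (nat_lit 247)) (XT.lf (nat_lit 0) (nat_lit 3736517873)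 (nat_lit 152) (nat_lit 86081315729) (nat_lit 0) (nat_lit 2040202123) (nat_lit 2) (nat_lit 5) (nat_lit 4) (nat_lit 4) (nat_lit 2) (nat_lit 4) (nat_lit 392) (nat_lit 262) (nat_lit 246))))) (XT.nd (nat_lit 234) (nat_lit 0) (nat_lit 0) (XT.nd (nat_lit 78) (nat_lit 0) (nat_lit 0) (XT.lf (nat_lit 0) (nat_lit 6915892995) (nat_lit 152) (nat_lit 84225815100) (nat_lit 0) (nat_lit 5151288568) (nat_lit 2) (nat_lit 5) (nat_lit 4) (nat_lit 4) (nat_lit 2) (nat_lit 4) (nat_lit 393) (nat_lit 262) (nat_lit 245)) (XT.nd (nat_lit 78) (nat_lit 0) (nat_lit 0) (XT.lf (nat_lit 0) (nat_lit 10183438223) (nat_lit 152) (nat_lit 82416021353) (nat_lit 0) (nat_lit 8353796961) (nat_lit 2) (nat_lit 5) (nat_lit 4) (nat_lit 4) (nat_lit 2) (nat_lit 4) (nat_lit 394) (nat_lit 262) (nat_lit 244)) (XT.lf (nat_lit 0) (nat_lit 13546933428) (nat_lit 152) (nat_lit 80647625456) (nat_lit 0) (nat_lit 11655352323) (nat_lit 2) (nat_lit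 5) (nat_lit 4) (nat_lit 4) (nat_lit 2) (nat_lit 4) (nat_lit 395) (nat_lit 262) (nat_lit 243)))) (XT.nd (nat_lit 78) (nat_lit 0) (nat_lit 0) (XT.lf (nat_lit 0) (nat_lit 17014386932) (nat_lit 152) (nat_lit 78916416942) (nat_lit 0) (nat_lit 15063815500) (nat_lit 2) (nat_lit 5) (nat_lit 4) (nat_lit 4) (nat_lit 2) (nat_lit 4) (nat_lit 396) (nat_lit 262) (nat_lit 242)) (XT.nd (nat_lit 78) (nat_lit 0) (nat_lit 0) (XT.lf (nat_lit 0) (nat_lit 20594054575) (nat_lit 152) (nat_lit 77218273886) (nat_lit 0) (nat_lit 18587301880) (nat_lit 2) (nat_lit 5) (nat_lit 4) (nat_lit 4) (nat_lit 2) (nat_lit 4) (nat_lit 397) (nat_lit 262) (nat_lit 241)) (XT.lf (nat_lit 0) (nat_lit 24294459377) (nat_lit 152) (nat_lit 75549153092) (nat_lit 0) (nat_lit 22234200717) (nat_lit 2) (nat_lit 5) (nat_lit 4) (nat_lit 4) (nat_lit 2) (nat_lit 4) (nat_lit 398) (nat_lit 262) (nat_lit 240)))))) (XT.nd (nat_lit 468) (nat_lit 0)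 (nat_lit 0) (XT.nd (nat_lit 234) (nat_lit 0) (nat_lit 0) (XT.nd (nat_lit 78) (nat_lit 0) (nat_lit 0) (XT.lf (nat_lit 0) (nat_lit 28124411825) (nat_lit 152) (nat_lit 73905080460) (nat_lit 0) (nat_lit 26013195103) (nat_lit 2) (nat_lit 5) (nat_lit 4) (nat_lit 4) (nat_lit 2) (nat_lit 4) (nat_lit 399) (nat_lit 262) (nat_lit 239)) (XT.nd (nat_lit 78) (nat_lit 0) (nat_lit 0) (XT.lf (nat_lit 0) (nat_lit 32093030854) (nat_lit 152) (nat_lit 72282141534) (nat_lit 0) (nat_lit 29933282644) (nat_lit 2) (nat_lit 5) (nat_lit 4) (nat_lit 4) (nat_lit 2) (nat_lit 4) (nat_lit 400) (nat_lit 262) (nat_lit 238)) (XT.lf (nat_lit 0) (nat_lit 36209765555) (nat_lit 152) (nat_lit 70676472172) (nat_lit 0) (nat_lit 34003796881) (nat_lit 2) (nat_lit 5) (nat_lit 4) (nat_lit 4) (nat_lit 2) (nat_lit 4) (nat_lit 401) (nat_lit 262) (nat_lit 237)))) (XT.nd (nat_lit 78) (nat_lit 0) (nat_lit 0) (XT.lf (nat_lit 0) (nat_lit 40484417680)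 (nat_lit 152) (nat_lit 69084249352) (nat_lit 0) (nat_lit 38234429515) (nat_lit 2) (nat_lit 5) (nat_lit 4) (nat_lit 4) (nat_lit 2) (nat_lit 4) (nat_lit 402) (nat_lit 262) (nat_lit 236)) (XT.nd (nat_lit 78) (nat_lit 0) (nat_lit 0) (XT.lf (nat_lit 0) (nat_lit 44927164969) (nat_lit 152) (nat_lit 67501682067) (nat_lit 0) (nat_lit 42635253481) (nat_lit 2) (nat_lit 5) (nat_lit 4) (nat_lit 4) (nat_lit 2) (nat_lit 4) (nat_lit 403) (nat_lit 262) (nat_lit 235)) (XT.lf (nat_lit 0) (nat_lit 49548585395) (nat_lit 152) (nat_lit 65925002301) (nat_lit 0) (nat_lit 47216746932) (nat_lit 2) (nat_lit 5) (nat_lit 4) (nat_lit 4) (nat_lit 2) (nat_lit 4) (nat_lit 404) (nat_lit 262) (nat_lit 234))))) (XT.nd (nat_lit 234) (nat_lit 0) (nat_lit 0) (XT.nd (nat_lit 78) (nat_lit 0) (nat_lit 0) (XT.lf (nat_lit 0) (nat_lit 54359682338) (nat_lit 152) (nat_lit 64350456054) (nat_lit 0) (nat_lit 51989818184) (nat_lit 2) (nat_lit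 5) (nat_lit 4) (nat_lit 4) (nat_lit 2) (nat_lit 4) (nat_lit 405) (nat_lit 262) (nat_lit 233)) (XT.nd (nat_lit 78) (nat_lit 0) (nat_lit 0) (XT.lf (nat_lit 0) (nat_lit 59371910791) (nat_lit 152) (nat_lit 62774294406) (nat_lit 0) (nat_lit 56965831694) (nat_lit 2) (nat_lit 5) (nat_lit 4) (nat_lit 4) (nat_lit 2) (nat_lit 4) (nat_lit 406) (nat_lit 262) (nat_lit 232)) (XT.lf (nat_lit 0) (nat_lit 64597204631) (nat_lit 152) (nat_lit 61192764590) (nat_lit 0) (nat_lit 62156635112) (nat_lit 2) (nat_lit 5) (nat_lit 4) (nat_lit 4) (nat_lit 2) (nat_lit 4) (nat_lit 407) (nat_lit 262) (nat_lit 231)))) (XT.nd (nat_lit 78) (nat_lit 0) (nat_lit 0) (XT.lf (nat_lit 0) (nat_lit 70048005035) (nat_lit 152) (nat_lit 59602101061) (nat_lit 0) (nat_lit 67574587494) (nat_lit 2) (nat_lit 5) (nat_lit 4) (nat_lit 4) (nat_lit 2) (nat_lit 4) (nat_lit 408) (nat_lit 262) (nat_lit 230)) (XT.nd (nat_lit 78) (nat_lit 0) (nat_lit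 0) (XT.lf (nat_lit 0) (nat_lit 75737290098) (nat_lit 152) (nat_lit 57998516524) (nat_lit 0) (nat_lit 73232588728) (nat_lit 2) (nat_lit 5) (nat_lit 4) (nat_lit 4) (nat_lit 2) (nat_lit 4) (nat_lit 409) (nat_lit 262) (nat_lit 229)) (XT.lf (nat_lit 0) (nat_lit 81678605737) (nat_lit 152) (nat_lit 56378192921) (nat_lit 0) (nat_lit 79144110243) (nat_lit 2) (nat_lit 5) (nat_lit 4) (nat_lit 4) (nat_lit 2) (nat_lit 4) (nat_lit 410) (nat_lit 262) (nat_lit 228))))))))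
noncomputable def xc20 : XT := (XT.nd (nat_lit 1716) (nat_lit 0) (nat_lit 0) (XT.nd (nat_lit 858) (nat_lit 0) (nat_lit 0) (XT.nd (nat_lit 390) (nat_lit 0) (nat_lit 0) (XT.nd (nat_lit 156) (nat_lit 0) (nat_lit 0) (XT.nd (nat_lit 78) (nat_lit 0) (nat_lit 0) (XT.lf (nat_lit 0) (nat_lit 87886097942) (nat_lit 152) (nat_lit 54737272338) (nat_lit 0) (nat_lit 85323227093) (nat_lit 2) (nat_lit 5) (nat_lit 4) (nat_lit 4) (nat_lit 2) (nat_lit 4) (nat_lit 411) (nat_lit 262) (nat_lit 227)) (XT.lf (nat_lit 0) (nat_lit 94374546457) (nat_lit 152) (nat_lit 53071847821) (nat_lit 0) (nat_lit 91784651459) (nat_lit 2) (nat_lit 5) (nat_lit 4) (nat_lit 4) (nat_lit 2) (nat_lit 4) (nat_lit 412) (nat_lit 262) (nat_lit 226))) (XT.nd (nat_lit 78) (nat_lit 0) (nat_lit 0) (XT.lf (nat_lit 0) (nat_lit 101159399967) (nat_lit 152) (nat_lit 51377954074) (nat_lit 0) (nat_lit 98543767686) (nat_lit 2) (nat_lit 5) (nat_lit 4)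 (nat_lit 4) (nat_lit 2) (nat_lit 4) (nat_lit 413) (nat_lit 262) (nat_lit 225)) (XT.nd (nat_lit 78) (nat_lit 0) (nat_lit 0) (XT.lf (nat_lit 0) (nat_lit 108256812887) (nat_lit 152) (nat_lit 49651558016) (nat_lit 0) (nat_lit 105616668906) (nat_lit 2) (nat_lit 5) (nat_lit 4) (nat_lit 4) (nat_lit 2) (nat_lit 4) (nat_lit 414) (nat_lit 262) (nat_lit 224)) (XT.lf (nat_lit 0) (nat_lit 115683683818) (nat_lit 152) (nat_lit 47888549182) (nat_lit 0) (nat_lit 113020195362) (nat_lit 2) (nat_lit 5) (nat_lit 4) (nat_lit 4) (nat_lit 2) (nat_lit 4) (nat_lit 415) (nat_lit 262) (nat_lit 223))))) (XT.nd (nat_lit 234) (nat_lit 0) (nat_lit 0) (XT.nd (nat_lit 78) (nat_lit 0) (nat_lit 0) (XT.lf (nat_lit 0) (nat_lit 123457695787) (nat_lit 152) (nat_lit 46084729930) (nat_lit 0) (nat_lit 120771974497) (nat_lit 2) (nat_lit 5) (nat_lit 4) (nat_lit 4) (nat_lit 2) (nat_lit 4) (nat_lit 416) (nat_lit 262) (nat_lit 222))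 (XT.nd (nat_lit 78) (nat_lit 0) (nat_lit 0) (XT.lf (nat_lit 0) (nat_lit 131597358346) (nat_lit 152) (nat_lit 44235805453) (nat_lit 0) (nat_lit 128890462929) (nat_lit 2) (nat_lit 5) (nat_lit 4) (nat_lit 4) (nat_lit 2) (nat_lit 4) (nat_lit 417) (nat_lit 262) (nat_lit 221)) (XT.lf (nat_lit 0) (nat_lit 140122051643) (nat_lit 152) (nat_lit 42337373550) (nat_lit 0) (nat_lit 137394990390) (nat_lit 2) (nat_lit 5) (nat_lit 4) (nat_lit 4) (nat_lit 2) (nat_lit 4) (nat_lit 418) (nat_lit 262) (nat_lit 220)))) (XT.nd (nat_lit 78) (nat_lit 0) (nat_lit 0) (XT.lf (nat_lit 0) (nat_lit 149052072568) (nat_lit 152) (nat_lit 40384914145) (nat_lit 0) (nat_lit 146305805758) (nat_lit 2) (nat_lit 5) (nat_lit 4) (nat_lit 4) (nat_lit 2) (nat_lit 4) (nat_lit 419) (nat_lit 262) (nat_lit 219)) (XT.nd (nat_lit 78) (nat_lit 0) (nat_lit 0) (XT.lf (nat_lit 0) (nat_lit 158408683075) (nat_lit 152) (nat_lit 38373778525) (nat_lit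 0) (nat_lit 155644125257) (nat_lit 2) (nat_lit 5) (nat_lit 4) (nat_lit 4) (nat_lit 2) (nat_lit 4) (nat_lit 420) (nat_lit 262) (nat_lit 218)) (XT.lf (nat_lit 0) (nat_lit 168214160808) (nat_lit 152) (nat_lit 36299178272) (nat_lit 0) (nat_lit 165432182983) (nat_lit 2) (nat_lit 5) (nat_lit 4) (nat_lit 4) (nat_lit 2) (nat_lit 4) (nat_lit 421) (nat_lit 262) (nat_lit 217)))))) (XT.nd (nat_lit 390) (nat_lit 0) (nat_lit 0) (XT.nd (nat_lit 156) (nat_lit 0) (nat_lit 0) (XT.nd (nat_lit 78) (nat_lit 0) (nat_lit 0) (XT.lf (nat_lit 0) (nat_lit 178491852143) (nat_lit 152) (nat_lit 34156173861) (nat_lit 0) (nat_lit 175693283836) (nat_lit 2) (nat_lit 5) (nat_lit 4) (nat_lit 4) (nat_lit 2) (nat_lit 4) (nat_lit 422) (nat_lit 262) (nat_lit 216)) (XT.lf (nat_lit 0) (nat_lit 189266227773) (nat_lit 152) (nat_lit 31939662901) (nat_lit 0) (nat_lit 186451859006) (nat_lit 2) (nat_lit 5) (nat_lit 4) (nat_lit 4) (nat_lit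 2) (nat_lit 4) (nat_lit 423) (nat_lit 262) (nat_lit 215))) (XT.nd (nat_lit 78) (nat_lit 0) (nat_lit 0) (XT.lf (nat_lit 0) (nat_lit 200562940975) (nat_lit 152) (nat_lit 29644367986) (nat_lit 0) (nat_lit 197733524150) (nat_lit 2) (nat_lit 5) (nat_lit 4) (nat_lit 4) (nat_lit 2) (nat_lit 4) (nat_lit 424) (nat_lit 262) (nat_lit 214)) (XT.nd (nat_lit 78) (nat_lit 0) (nat_lit 0) (XT.lf (nat_lit 0) (nat_lit 212408888683) (nat_lit 152) (nat_lit 27264824126) (nat_lit 0) (nat_lit 209565140375) (nat_lit 2) (nat_lit 5) (nat_lit 4) (nat_lit 4) (nat_lit 2) (nat_lit 4) (nat_lit 425) (nat_lit 262) (nat_lit 213)) (XT.lf (nat_lit 0) (nat_lit 224832275535) (nat_lit 152) (nat_lit 24795365742) (nat_lit 0) (nat_lit 221974878196) (nat_lit 2) (nat_lit 5) (nat_lit 4) (nat_lit 4) (nat_lit 2) (nat_lit 4) (nat_lit 426) (nat_lit 262) (nat_lit 212))))) (XT.nd (nat_lit 234) (nat_lit 0) (nat_lit 0) (XT.nd (nat_lit 78)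 (nat_lit 0) (nat_lit 0) (XT.lf (nat_lit 0) (nat_lit 237862681024) (nat_lit 152) (nat_lit 22230113170) (nat_lit 0) (nat_lit 234992284608) (nat_lit 2) (nat_lit 5) (nat_lit 4) (nat_lit 4) (nat_lit 2) (nat_lit 4) (nat_lit 427) (nat_lit 262) (nat_lit 211)) (XT.nd (nat_lit 78) (nat_lit 0) (nat_lit 0) (XT.lf (nat_lit 0) (nat_lit 251531129925) (nat_lit 152) (nat_lit 19562958667) (nat_lit 0) (nat_lit 248648353435) (nat_lit 2) (nat_lit 5) (nat_lit 4) (nat_lit 4) (nat_lit 2) (nat_lit 4) (nat_lit 428) (nat_lit 262) (nat_lit 210)) (XT.lf (nat_lit 0) (nat_lit 265870166163) (nat_lit 152) (nat_lit 16787551864) (nat_lit 0) (nat_lit 262975599128) (nat_lit 2) (nat_lit 5) (nat_lit 4) (nat_lit 4) (nat_lit 2) (nat_lit 4) (nat_lit 429) (nat_lit 262) (nat_lit 209)))) (XT.nd (nat_lit 78) (nat_lit 0) (nat_lit 0) (XT.lf (nat_lit 0) (nat_lit 280913930302) (nat_lit 152) (nat_lit 13897284651) (nat_lit 0) (nat_lit 278008134175)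 (nat_lit 2) (nat_lit 5) (nat_lit 4) (nat_lit 4) (nat_lit 2) (nat_lit 4) (nat_lit 430) (nat_lit 262) (nat_lit 208)) (XT.nd (nat_lit 78) (nat_lit 0) (nat_lit 0) (XT.lf (nat_lit 0) (nat_lit 296698240827) (nat_lit 152) (nat_lit 10885275437) (nat_lit 0) (nat_lit 293781750327) (nat_lit 2) (nat_lit 5) (nat_lit 4) (nat_lit 4) (nat_lit 2) (nat_lit 4) (nat_lit 431) (nat_lit 262) (nat_lit 207)) (XT.lf (nat_lit 0) (nat_lit 313260679431) (nat_lit 152) (nat_lit 7744352774) (nat_lit 0) (nat_lit 310334003813) (nat_lit 2) (nat_lit 5) (nat_lit 4) (nat_lit 4) (nat_lit 2) (nat_lit 4) (nat_lit 432) (nat_lit 262) (nat_lit 206))))))) (XT.nd (nat_lit 42978) (nat_lit 0) (nat_lit 0) (XT.nd (nat_lit 42510) (nat_lit 0) (nat_lit 152) (XT.nd (nat_lit 42276) (nat_lit 0) (nat_lit 228) (XT.nd (nat_lit 78) (nat_lit 0) (nat_lit 0) (XT.lf (nat_lit 0) (nat_lit 330640680489) (nat_lit 152) (nat_lit 4467038274) (nat_lit 0) (nat_lit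 327704304760) (nat_lit 2) (nat_lit 5) (nat_lit 4) (nat_lit 4) (nat_lit 2) (nat_lit 4) (nat_lit 433) (nat_lit 262) (nat_lit 205)) (XT.lf (nat_lit 0) (nat_lit 348879624959) (nat_lit 152) (nat_lit 1045528807) (nat_lit 0) (nat_lit 345934011027) (nat_lit 2) (nat_lit 5) (nat_lit 4) (nat_lit 4) (nat_lit 2) (nat_lit 4) (nat_lit 434) (nat_lit 262) (nat_lit 204))) (XT.nd (nat_lit 78) (nat_lit 152) (nat_lit 0) (XT.lf (nat_lit 0) (nat_lit 16206529713) (nat_lit 76) (nat_lit 2012454488) (nat_lit 76) (nat_lit 2012454488) (nat_lit 7) (nat_lit 4) (nat_lit 8) (nat_lit 5) (nat_lit 8) (nat_lit 4) (nat_lit 374) (nat_lit 263) (nat_lit 263)) (XT.nd (nat_lit 78) (nat_lit 0) (nat_lit 0) (XT.lf (nat_lit 0) (nat_lit 227992467) (nat_lit 152) (nat_lit 41972270448) (nat_lit 0) (nat_lit 63647624) (nat_lit 5) (nat_lit 5) (nat_lit 7) (nat_lit 4) (nat_lit 5) (nat_lit 4) (nat_lit 375) (nat_lit 263) (nat_lit 262)) (XT.lf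 (nat_lit 0) (nat_lit 4614943399) (nat_lit 152) (nat_lit 35239866180) (nat_lit 0) (nat_lit 4294079658) (nat_lit 5) (nat_lit 5) (nat_lit 7) (nat_lit 4) (nat_lit 5) (nat_lit 4) (nat_lit 376) (nat_lit 263) (nat_lit 261))))) (XT.nd (nat_lit 234) (nat_lit 76) (nat_lit 0) (XT.nd (nat_lit 78) (nat_lit 0) (nat_lit 0) (XT.lf (nat_lit 0) (nat_lit 9080406827) (nat_lit 152) (nat_lit 28444299446) (nat_lit 0) (nat_lit 8610477469) (nat_lit 5) (nat_lit 5) (nat_lit 7) (nat_lit 4) (nat_lit 5) (nat_lit 4) (nat_lit 377) (nat_lit 263) (nat_lit 260)) (XT.nd (nat_lit 78) (nat_lit 0) (nat_lit 0) (XT.lf (nat_lit 0) (nat_lit 13635014807) (nat_lit 152) (nat_lit 21569390324) (nat_lit 0) (nat_lit 13023118194) (nat_lit 5) (nat_lit 5) (nat_lit 7) (nat_lit 4) (nat_lit 5) (nat_lit 4) (nat_lit 378) (nat_lit 263) (nat_lit 259)) (XT.lf (nat_lit 0) (nat_lit 18289611643) (nat_lit 152) (nat_lit 14598769983) (nat_lit 0) (nat_lit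 17542508120) (nat_lit 5) (nat_lit 5) (nat_lit 7) (nat_lit 4) (nat_lit 5) (nat_lit 4) (nat_lit 379) (nat_lit 263) (nat_lit 258)))) (XT.nd (nat_lit 78) (nat_lit 76) (nat_lit 0) (XT.lf (nat_lit 0) (nat_lit 23055279708) (nat_lit 152) (nat_lit 7515841708) (nat_lit 0) (nat_lit 22179407701) (nat_lit 5) (nat_lit 5) (nat_lit 7) (nat_lit 4) (nat_lit 5) (nat_lit 4) (nat_lit 380) (nat_lit 263) (nat_lit 257)) (XT.nd (nat_lit 78) (nat_lit 76) (nat_lit 0) (XT.lf (nat_lit 0) (nat_lit 27943365832) (nat_lit 152) (nat_lit 303741384) (nat_lit 0) (nat_lit 26944857173) (nat_lit 5) (nat_lit 5) (nat_lit 7) (nat_lit 4) (nat_lit 5) (nat_lit 4) (nat_lit 381) (nat_lit 263) (nat_lit 256)) (XT.lf (nat_lit 0) (nat_lit 7287962984) (nat_lit 76) (nat_lit 25791330856) (nat_lit 76) (nat_lit 24676025385) (nat_lit 4) (nat_lit 4) (nat_lit 5) (nat_lit 5) (nat_lit 5) (nat_lit 4) (nat_lit 382) (nat_lit 263) (nat_lit 255)))))) (XT.nd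 (nat_lit 468) (nat_lit 152) (nat_lit 0) (XT.nd (nat_lit 234) (nat_lit 0) (nat_lit 0) (XT.nd (nat_lit 78) (nat_lit 0) (nat_lit 0) (XT.lf (nat_lit 0) (nat_lit 15058992315) (nat_lit 76) (nat_lit 23309785395) (nat_lit 76) (nat_lit 22083244865) (nat_lit 4) (nat_lit 4) (nat_lit 5) (nat_lit 5) (nat_lit 5) (nat_lit 4) (nat_lit 383) (nat_lit 263) (nat_lit 254)) (XT.nd (nat_lit 78) (nat_lit 0) (nat_lit 0) (XT.lf (nat_lit 0) (nat_lit 23017805995) (nat_lit 76) (nat_lit 20801706399) (nat_lit 76) (nat_lit 19469227718) (nat_lit 4) (nat_lit 4) (nat_lit 5) (nat_lit 5) (nat_lit 5) (nat_lit 4) (nat_lit 384) (nat_lit 263) (nat_lit 253)) (XT.lf (nat_lit 0) (nat_lit 31183353582) (nat_lit 76) (nat_lit 18261122251) (nat_lit 76) (nat_lit 16827750092) (nat_lit 4) (nat_lit 4) (nat_lit 5) (nat_lit 5) (nat_lit 5) (nat_lit 4) (nat_lit 385) (nat_lit 263) (nat_lit 252)))) (XT.nd (nat_lit 78) (nat_lit 0) (nat_lit 0) (XT.lf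 (nat_lit 0) (nat_lit 39575076855) (nat_lit 76) (nat_lit 15681983941) (nat_lit 76) (nat_lit 14152522756) (nat_lit 4) (nat_lit 4) (nat_lit 5) (nat_lit 5) (nat_lit 5) (nat_lit 4) (nat_lit 386) (nat_lit 263) (nat_lit 251)) (XT.nd (nat_lit 78) (nat_lit 0) (nat_lit 0) (XT.lf (nat_lit 0) (nat_lit 48212956108) (nat_lit 76) (nat_lit 13058150664) (nat_lit 76) (nat_lit 11437176121) (nat_lit 4) (nat_lit 4) (nat_lit 5) (nat_lit 5) (nat_lit 5) (nat_lit 4) (nat_lit 387) (nat_lit 263) (nat_lit 250)) (XT.lf (nat_lit 0) (nat_lit 57117557720) (nat_lit 76) (nat_lit 10383375198) (nat_lit 76) (nat_lit 8675245076) (nat_lit 4) (nat_lit 4) (nat_lit 5) (nat_lit 5) (nat_lit 5) (nat_lit 4) (nat_lit 388) (nat_lit 263) (nat_lit 249))))) (XT.nd (nat_lit 234) (nat_lit 152) (nat_lit 0) (XT.nd (nat_lit 78) (nat_lit 0) (nat_lit 0) (XT.lf (nat_lit 0) (nat_lit 66310083123) (nat_lit 76) (nat_lit 7651289030) (nat_lit 76) (nat_lit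 5860153594) (nat_lit 4) (nat_lit 4) (nat_lit 5) (nat_lit 5) (nat_lit 5) (nat_lit 4) (nat_lit 389) (nat_lit 263) (nat_lit 248)) (XT.nd (nat_lit 78) (nat_lit 0) (nat_lit 0) (XT.lf (nat_lit 0) (nat_lit 75812419283) (nat_lit 76) (nat_lit 4855387192) (nat_lit 76) (nat_lit 2985199077) (nat_lit 4) (nat_lit 4) (nat_lit 5) (nat_lit 5) (nat_lit 5) (nat_lit 4) (nat_lit 390) (nat_lit 263) (nat_lit 247)) (XT.lf (nat_lit 0) (nat_lit 85647190809) (nat_lit 76) (nat_lit 1989012776) (nat_lit 76) (nat_lit 43536395) (nat_lit 4) (nat_lit 4) (nat_lit 5) (nat_lit 5) (nat_lit 5) (nat_lit 4) (nat_lit 391) (nat_lit 263) (nat_lit 246)))) (XT.nd (nat_lit 78) (nat_lit 0) (nat_lit 0) (XT.lf (nat_lit 0) (nat_lit 2955994731) (nat_lit 152) (nat_lit 87914166734) (nat_lit 0) (nat_lit 1034871406) (nat_lit 2) (nat_lit 5) (nat_lit 4) (nat_lit 4) (nat_lit 2) (nat_lit 4) (nat_lit 392) (nat_lit 263) (nat_lit 245)) (XT.nd (nat_lit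 78) (nat_lit 0) (nat_lit 0) (XT.lf (nat_lit 0) (nat_lit 6100833926) (nat_lit 152) (nat_lit 86126218258) (nat_lit 0) (nat_lit 4114673766) (nat_lit 2) (nat_lit 5) (nat_lit 4) (nat_lit 4) (nat_lit 2) (nat_lit 4) (nat_lit 393) (nat_lit 263) (nat_lit 244)) (XT.lf (nat_lit 0) (nat_lit 9335487796) (nat_lit 152) (nat_lit 84380759895) (nat_lit 0) (nat_lit 7287387793) (nat_lit 2) (nat_lit 5) (nat_lit 4) (nat_lit 4) (nat_lit 2) (nat_lit 4) (nat_lit 394) (nat_lit 263) (nat_lit 243))))))))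
noncomputable def xc21 : XT := (XT.nd (nat_lit 1716) (nat_lit 0) (nat_lit 0) (XT.nd (nat_lit 858) (nat_lit 0) (nat_lit 0) (XT.nd (nat_lit 390) (nat_lit 0) (nat_lit 0) (XT.nd (nat_lit 156) (nat_lit 0) (nat_lit 0) (XT.nd (nat_lit 78) (nat_lit 0) (nat_lit 0) (XT.lf (nat_lit 0) (nat_lit 12667657898) (nat_lit 152) (nat_lit 82673635792) (nat_lit 0) (nat_lit 10560567568) (nat_lit 2) (nat_lit 5) (nat_lit 4) (nat_lit 4) (nat_lit 2) (nat_lit 4) (nat_lit 395) (nat_lit 263) (nat_lit 242)) (XT.lf (nat_lit 0) (nat_lit 16105277970) (nat_lit 152) (nat_lit 81000781368) (nat_lit 0) (nat_lit 13942006377) (nat_lit 2) (nat_lit 5) (nat_lit 4) (nat_lit 4) (nat_lit 2) (nat_lit 4) (nat_lit 396) (nat_lit 263) (nat_lit 241))) (XT.nd (nat_lit 78) (nat_lit 0) (nat_lit 0) (XT.lf (nat_lit 0) (nat_lit 19656532821) (nat_lit 152) (nat_lit 79358213637) (nat_lit 0) (nat_lit 17439755263) (nat_lit 2) (nat_lit 5) (nat_lit 4)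 (nat_lit 4) (nat_lit 2) (nat_lit 4) (nat_lit 397) (nat_lit 263) (nat_lit 240)) (XT.nd (nat_lit 78) (nat_lit 0) (nat_lit 0) (XT.lf (nat_lit 0) (nat_lit 23329877821) (nat_lit 152) (nat_lit 77742021721) (nat_lit 0) (nat_lit 21062142201) (nat_lit 2) (nat_lit 5) (nat_lit 4) (nat_lit 4) (nat_lit 2) (nat_lit 4) (nat_lit 398) (nat_lit 263) (nat_lit 239)) (XT.lf (nat_lit 0) (nat_lit 27134059029) (nat_lit 152) (nat_lit 76148357547) (nat_lit 0) (nat_lit 24817791921) (nat_lit 2) (nat_lit 5) (nat_lit 4) (nat_lit 4) (nat_lit 2) (nat_lit 4) (nat_lit 399) (nat_lit 263) (nat_lit 238))))) (XT.nd (nat_lit 234) (nat_lit 0) (nat_lit 0) (XT.nd (nat_lit 78) (nat_lit 0) (nat_lit 0) (XT.lf (nat_lit 0) (nat_lit 31078134020) (nat_lit 152) (nat_lit 74573426674) (nat_lit 0) (nat_lit 28715646447) (nat_lit 2) (nat_lit 5) (nat_lit 4) (nat_lit 4) (nat_lit 2) (nat_lit 4) (nat_lit 400) (nat_lit 263) (nat_lit 237)) (XT.nd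 (nat_lit 78) (nat_lit 0) (nat_lit 0) (XT.lf (nat_lit 0) (nat_lit 35171493447) (nat_lit 152) (nat_lit 73013479268) (nat_lit 0) (nat_lit 32764986384) (nat_lit 2) (nat_lit 5) (nat_lit 4) (nat_lit 4) (nat_lit 2) (nat_lit 4) (nat_lit 401) (nat_lit 263) (nat_lit 236)) (XT.lf (nat_lit 0) (nat_lit 39423883405) (nat_lit 152) (nat_lit 71464801169) (nat_lit 0) (nat_lit 36975453019) (nat_lit 2) (nat_lit 5) (nat_lit 4) (nat_lit 4) (nat_lit 2) (nat_lit 4) (nat_lit 402) (nat_lit 263) (nat_lit 235)))) (XT.nd (nat_lit 78) (nat_lit 0) (nat_lit 0) (XT.lf (nat_lit 0) (nat_lit 43845428632) (nat_lit 152) (nat_lit 69923705047) (nat_lit 0) (nat_lit 41357071271) (nat_lit 2) (nat_lit 5) (nat_lit 4) (nat_lit 4) (nat_lit 2) (nat_lit 4) (nat_lit 403) (nat_lit 263) (nat_lit 234)) (XT.nd (nat_lit 78) (nat_lit 0) (nat_lit 0) (XT.lf (nat_lit 0) (nat_lit 48446656616) (nat_lit 152) (nat_lit 68386521625) (nat_lit 0) (nat_lit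 45920273565) (nat_lit 2) (nat_lit 5) (nat_lit 4) (nat_lit 4) (nat_lit 2) (nat_lit 4) (nat_lit 404) (nat_lit 263) (nat_lit 233)) (XT.lf (nat_lit 0) (nat_lit 53238522663) (nat_lit 152) (nat_lit 66849590945) (nat_lit 0) (nat_lit 50675924668) (nat_lit 2) (nat_lit 5) (nat_lit 4) (nat_lit 4) (nat_lit 2) (nat_lit 4) (nat_lit 405) (nat_lit 263) (nat_lit 232)))))) (XT.nd (nat_lit 390) (nat_lit 0) (nat_lit 0) (XT.nd (nat_lit 156) (nat_lit 0) (nat_lit 0) (XT.nd (nat_lit 78) (nat_lit 0) (nat_lit 0) (XT.lf (nat_lit 0) (nat_lit 58232435977) (nat_lit 152) (nat_lit 65309253645) (nat_lit 0) (nat_lit 55635347560) (nat_lit 2) (nat_lit 5) (nat_lit 4) (nat_lit 4) (nat_lit 2) (nat_lit 4) (nat_lit 406) (nat_lit 263) (nat_lit 231)) (XT.lf (nat_lit 0) (nat_lit 63440286828) (nat_lit 152) (nat_lit 63761842258) (nat_lit 0) (nat_lit 60810350389) (nat_lit 2) (nat_lit 5) (nat_lit 4) (nat_lit 4) (nat_lit 2) (nat_lit 4)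 (nat_lit 407) (nat_lit 263) (nat_lit 230))) (XT.nd (nat_lit 78) (nat_lit 0) (nat_lit 0) (XT.lf (nat_lit 0) (nat_lit 68874474860) (nat_lit 152) (nat_lit 62203672470) (nat_lit 0) (nat_lit 66213254592) (nat_lit 2) (nat_lit 5) (nat_lit 4) (nat_lit 4) (nat_lit 2) (nat_lit 4) (nat_lit 408) (nat_lit 263) (nat_lit 229)) (XT.nd (nat_lit 78) (nat_lit 0) (nat_lit 0) (XT.lf (nat_lit 0) (nat_lit 74547938618) (nat_lit 152) (nat_lit 60631034352) (nat_lit 0) (nat_lit 71856924226) (nat_lit 2) (nat_lit 5) (nat_lit 4) (nat_lit 4) (nat_lit 2) (nat_lit 4) (nat_lit 409) (nat_lit 263) (nat_lit 228)) (XT.lf (nat_lit 0) (nat_lit 80474186347) (nat_lit 152) (nat_lit 59040183529) (nat_lit 0) (nat_lit 77754796599) (nat_lit 2) (nat_lit 5) (nat_lit 4) (nat_lit 4) (nat_lit 2) (nat_lit 4) (nat_lit 410) (nat_lit 263) (nat_lit 227))))) (XT.nd (nat_lit 234) (nat_lit 0) (nat_lit 0) (XT.nd (nat_lit 78) (nat_lit 0) (nat_lit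 0) (XT.lf (nat_lit 0) (nat_lit 86667328161) (nat_lit 152) (nat_lit 57427332261) (nat_lit 0) (nat_lit 83920914265) (nat_lit 2) (nat_lit 5) (nat_lit 4) (nat_lit 4) (nat_lit 2) (nat_lit 4) (nat_lit 411) (nat_lit 263) (nat_lit 226)) (XT.nd (nat_lit 78) (nat_lit 0) (nat_lit 0) (XT.lf (nat_lit 0) (nat_lit 93142109637) (nat_lit 152) (nat_lit 55788640425) (nat_lit 0) (nat_lit 90369958457) (nat_lit 2) (nat_lit 5) (nat_lit 4) (nat_lit 4) (nat_lit 2) (nat_lit 4) (nat_lit 412) (nat_lit 263) (nat_lit 225)) (XT.lf (nat_lit 0) (nat_lit 99913946920) (nat_lit 152) (nat_lit 54120206374) (nat_lit 0) (nat_lit 97117284041) (nat_lit 2) (nat_lit 5) (nat_lit 4) (nat_lit 4) (nat_lit 2) (nat_lit 4) (nat_lit 413) (nat_lit 263) (nat_lit 224)))) (XT.nd (nat_lit 78) (nat_lit 0) (nat_lit 0) (XT.lf (nat_lit 0) (nat_lit 106998963432) (nat_lit 152) (nat_lit 52418057646) (nat_lit 0) (nat_lit 104178956078) (nat_lit 2) (nat_lit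 5) (nat_lit 4) (nat_lit 4) (nat_lit 2) (nat_lit 4) (nat_lit 414) (nat_lit 263) (nat_lit 223)) (XT.nd (nat_lit 78) (nat_lit 0) (nat_lit 0) (XT.lf (nat_lit 0) (nat_lit 114414028262) (nat_lit 152) (nat_lit 50678141507) (nat_lit 0) (nat_lit 111571788074) (nat_lit 2) (nat_lit 5) (nat_lit 4) (nat_lit 4) (nat_lit 2) (nat_lit 4) (nat_lit 415) (nat_lit 263) (nat_lit 222)) (XT.lf (nat_lit 0) (nat_lit 122176796324) (nat_lit 152) (nat_lit 48896315298) (nat_lit 0) (nat_lit 119313382009) (nat_lit 2) (nat_lit 5) (nat_lit 4) (nat_lit 4) (nat_lit 2) (nat_lit 4) (nat_lit 416) (nat_lit 263) (nat_lit 221))))))) (XT.nd (nat_lit 858) (nat_lit 0) (nat_lit 0) (XT.nd (nat_lit 390) (nat_lit 0) (nat_lit 0) (XT.nd (nat_lit 156) (nat_lit 0) (nat_lit 0) (XT.nd (nat_lit 78) (nat_lit 0) (nat_lit 0) (XT.lf (nat_lit 0) (nat_lit 130305750400) (nat_lit 152) (nat_lit 47068336576) (nat_lit 0) (nat_lit 127422170249) (nat_lit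 2) (nat_lit 5) (nat_lit 4) (nat_lit 4) (nat_lit 2) (nat_lit 4) (nat_lit 417) (nat_lit 263) (nat_lit 220)) (XT.lf (nat_lit 0) (nat_lit 138820245142) (nat_lit 152) (nat_lit 45189853011) (nat_lit 0) (nat_lit 135917459434) (nat_lit 2) (nat_lit 5) (nat_lit 4) (nat_lit 4) (nat_lit 2) (nat_lit 4) (nat_lit 418) (nat_lit 263) (nat_lit 219))) (XT.nd (nat_lit 78) (nat_lit 0) (nat_lit 0) (XT.lf (nat_lit 0) (nat_lit 147740553158) (nat_lit 152) (nat_lit 43256392023) (nat_lit 0) (nat_lit 144819476442) (nat_lit 2) (nat_lit 5) (nat_lit 4) (nat_lit 4) (nat_lit 2) (nat_lit 4) (nat_lit 419) (nat_lit 263) (nat_lit 218)) (XT.nd (nat_lit 78) (nat_lit 0) (nat_lit 0) (XT.lf (nat_lit 0) (nat_lit 157087913275) (nat_lit 152) (nat_lit 41263350134) (nat_lit 0) (nat_lit 154149416552) (nat_lit 2) (nat_lit 5) (nat_lit 4) (nat_lit 4) (nat_lit 2) (nat_lit 4) (nat_lit 420) (nat_lit 263) (nat_lit 217)) (XT.lf (nat_lit 0) (nat_lit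 166884581113) (nat_lit 152) (nat_lit 39205982005) (nat_lit 0) (nat_lit 163929493908) (nat_lit 2) (nat_lit 5) (nat_lit 4) (nat_lit 4) (nat_lit 2) (nat_lit 4) (nat_lit 421) (nat_lit 263) (nat_lit 216))))) (XT.nd (nat_lit 234) (nat_lit 0) (nat_lit 0) (XT.nd (nat_lit 78) (nat_lit 0) (nat_lit 0) (XT.lf (nat_lit 0) (nat_lit 177153882072) (nat_lit 152) (nat_lit 37079389141) (nat_lit 0) (nat_lit 174182994407) (nat_lit 2) (nat_lit 5) (nat_lit 4) (nat_lit 4) (nat_lit 2) (nat_lit 4) (nat_lit 422) (nat_lit 263) (nat_lit 215)) (XT.nd (nat_lit 78) (nat_lit 0) (nat_lit 0) (XT.lf (nat_lit 0) (nat_lit 187920266868) (nat_lit 152) (nat_lit 34878508226) (nat_lit 0) (nat_lit 184934331145) (nat_lit 2) (nat_lit 5) (nat_lit 4) (nat_lit 4) (nat_lit 2) (nat_lit 4) (nat_lit 423) (nat_lit 263) (nat_lit 214)) (XT.lf (nat_lit 0) (nat_lit 199209369750) (nat_lit 152) (nat_lit 32598099068) (nat_lit 0) (nat_lit 196209102545)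 (nat_lit 2) (nat_lit 5) (nat_lit 4) (nat_lit 4) (nat_lit 2) (nat_lit 4) (nat_lit 424) (nat_lit 263) (nat_lit 213)))) (XT.nd (nat_lit 78) (nat_lit 0) (nat_lit 0) (XT.lf (nat_lit 0) (nat_lit 211048069536) (nat_lit 152) (nat_lit 30232732119) (nat_lit 0) (nat_lit 208034153299) (nat_lit 2) (nat_lit 5) (nat_lit 4) (nat_lit 4) (nat_lit 2) (nat_lit 4) (nat_lit 425) (nat_lit 263) (nat_lit 212)) (XT.nd (nat_lit 78) (nat_lit 0) (nat_lit 0) (XT.lf (nat_lit 0) (nat_lit 223464553605) (nat_lit 152) (nat_lit 27776775555) (nat_lit 0) (nat_lit 220437638291) (nat_lit 2) (nat_lit 5) (nat_lit 4) (nat_lit 4) (nat_lit 2) (nat_lit 4) (nat_lit 426) (nat_lit 263) (nat_lit 211)) (XT.lf (nat_lit 0) (nat_lit 236488385015) (nat_lit 152) (nat_lit 25224381860) (nat_lit 0) (nat_lit 233449089627) (nat_lit 2) (nat_lit 5) (nat_lit 4) (nat_lit 4) (nat_lit 2) (nat_lit 4) (nat_lit 427) (nat_lit 263) (nat_lit 210)))))) (XT.nd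 (nat_lit 468) (nat_lit 0) (nat_lit 0) (XT.nd (nat_lit 234) (nat_lit 0) (nat_lit 0) (XT.nd (nat_lit 78) (nat_lit 0) (nat_lit 0) (XT.lf (nat_lit 0) (nat_lit 250150572888) (nat_lit 152) (nat_lit 22569473906) (nat_lit 0) (nat_lit 247099486954) (nat_lit 2) (nat_lit 5) (nat_lit 4) (nat_lit 4) (nat_lit 2) (nat_lit 4) (nat_lit 428) (nat_lit 263) (nat_lit 209)) (XT.nd (nat_lit 78) (nat_lit 0) (nat_lit 0) (XT.lf (nat_lit 0) (nat_lit 264483646242) (nat_lit 152) (nat_lit 19805730484) (nat_lit 0) (nat_lit 261421331217) (nat_lit 2) (nat_lit 5) (nat_lit 4) (nat_lit 4) (nat_lit 2) (nat_lit 4) (nat_lit 429) (nat_lit 263) (nat_lit 208)) (XT.lf (nat_lit 0) (nat_lit 279521731444) (nat_lit 152) (nat_lit 16926571251) (nat_lit 0) (nat_lit 276448722045) (nat_lit 2) (nat_lit 5) (nat_lit 4) (nat_lit 4) (nat_lit 2) (nat_lit 4) (nat_lit 430) (nat_lit 263) (nat_lit 207)))) (XT.nd (nat_lit 78) (nat_lit 0) (nat_lit 0)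 (XT.lf (nat_lit 0) (nat_lit 295300633458) (nat_lit 152) (nat_lit 13925141068) (nat_lit 0) (nat_lit 292217438942) (nat_lit 2) (nat_lit 5) (nat_lit 4) (nat_lit 4) (nat_lit 2) (nat_lit 4) (nat_lit 431) (nat_lit 263) (nat_lit 206)) (XT.nd (nat_lit 78) (nat_lit 0) (nat_lit 0) (XT.lf (nat_lit 0) (nat_lit 311857921098) (nat_lit 152) (nat_lit 10794293671) (nat_lit 0) (nat_lit 308765026470) (nat_lit 2) (nat_lit 5) (nat_lit 4) (nat_lit 4) (nat_lit 2) (nat_lit 4) (nat_lit 432) (nat_lit 263) (nat_lit 205)) (XT.lf (nat_lit 0) (nat_lit 329233016478) (nat_lit 152) (nat_lit 7526574662) (nat_lit 0) (nat_lit 326130883648) (nat_lit 2) (nat_lit 5) (nat_lit 4) (nat_lit 4) (nat_lit 2) (nat_lit 4) (nat_lit 433) (nat_lit 263) (nat_lit 204))))) (XT.nd (nat_lit 42198) (nat_lit 0) (nat_lit 228) (XT.nd (nat_lit 42042) (nat_lit 0) (nat_lit 380) (XT.lf (nat_lit 0) (nat_lit 347467288871) (nat_lit 152) (nat_lit 4114203758)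 (nat_lit 0) (nat_lit 344356357755) (nat_lit 2) (nat_lit 5) (nat_lit 4) (nat_lit 4) (nat_lit 2) (nat_lit 4) (nat_lit 434) (nat_lit 263) (nat_lit 203)) (XT.nd (nat_lit 78) (nat_lit 0) (nat_lit 0) (XT.lf (nat_lit 0) (nat_lit 6450425796) (nat_lit 76) (nat_lit 6057378598) (nat_lit 76) (nat_lit 6057378598) (nat_lit 7) (nat_lit 4) (nat_lit 8) (nat_lit 5) (nat_lit 8) (nat_lit 4) (nat_lit 372) (nat_lit 264) (nat_lit 264)) (XT.lf (nat_lit 0) (nat_lit 22489367398) (nat_lit 76) (nat_lit 8222986490) (nat_lit 76) (nat_lit 8041796301) (nat_lit 7) (nat_lit 4) (nat_lit 8) (nat_lit 5) (nat_lit 8) (nat_lit 4) (nat_lit 373) (nat_lit 264) (nat_lit 263)))) (XT.nd (nat_lit 78) (nat_lit 152) (nat_lit 0) (XT.lf (nat_lit 0) (nat_lit 32275678885) (nat_lit 76) (nat_lit 4272262896) (nat_lit 76) (nat_lit 3918510621) (nat_lit 7) (nat_lit 4) (nat_lit 8) (nat_lit 5) (nat_lit 8) (nat_lit 4) (nat_lit 374) (nat_lit 264) (nat_lit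 262)) (XT.nd (nat_lit 78) (nat_lit 0) (nat_lit 0) (XT.lf (nat_lit 0) (nat_lit 7852486) (nat_lit 76) (nat_lit 248708296) (nat_lit 152) (nat_lit 42014575819) (nat_lit 5) (nat_lit 5) (nat_lit 6) (nat_lit 5) (nat_lit 7) (nat_lit 4) (nat_lit 375) (nat_lit 264) (nat_lit 261)) (XT.lf (nat_lit 0) (nat_lit 4570928656) (nat_lit 152) (nat_lit 35660390837) (nat_lit 0) (nat_lit 3928437212) (nat_lit 5) (nat_lit 5) (nat_lit 7) (nat_lit 4) (nat_lit 5) (nat_lit 4) (nat_lit 376) (nat_lit 264) (nat_lit 260))))))))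
noncomputable def xc22 : XT := (XT.nd (nat_lit 1716) (nat_lit 0) (nat_lit 0) (XT.nd (nat_lit 858) (nat_lit 152) (nat_lit 0) (XT.nd (nat_lit 390) (nat_lit 76) (nat_lit 0) (XT.nd (nat_lit 156) (nat_lit 0) (nat_lit 0) (XT.nd (nat_lit 78) (nat_lit 0) (nat_lit 0) (XT.lf (nat_lit 0) (nat_lit 8970963489) (nat_lit 152) (nat_lit 28991866029) (nat_lit 0) (nat_lit 8186504791) (nat_lit 5) (nat_lit 5) (nat_lit 7) (nat_lit 4) (nat_lit 5) (nat_lit 4) (nat_lit 377) (nat_lit 264) (nat_lit 259)) (XT.lf (nat_lit 0) (nat_lit 13463258521) (nat_lit 152) (nat_lit 22237949218) (nat_lit 0) (nat_lit 12543592914) (nat_lit 5) (nat_lit 5) (nat_lit 7) (nat_lit 4) (nat_lit 5) (nat_lit 4) (nat_lit 378) (nat_lit 264) (nat_lit 258))) (XT.nd (nat_lit 78) (nat_lit 0) (nat_lit 0) (XT.lf (nat_lit 0) (nat_lit 18058509692) (nat_lit 152) (nat_lit 15382559649) (nat_lit 0) (nat_lit 17010075600) (nat_lit 5) (nat_lit 5) (nat_lit 7)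 (nat_lit 4) (nat_lit 5) (nat_lit 4) (nat_lit 379) (nat_lit 264) (nat_lit 257)) (XT.nd (nat_lit 78) (nat_lit 0) (nat_lit 0) (XT.lf (nat_lit 0) (nat_lit 22767658077) (nat_lit 152) (nat_lit 8409374967) (nat_lit 0) (nat_lit 21596587333) (nat_lit 5) (nat_lit 5) (nat_lit 7) (nat_lit 4) (nat_lit 5) (nat_lit 4) (nat_lit 380) (nat_lit 264) (nat_lit 256)) (XT.lf (nat_lit 0) (nat_lit 27601915934) (nat_lit 152) (nat_lit 1301792351) (nat_lit 0) (nat_lit 26314048378) (nat_lit 5) (nat_lit 5) (nat_lit 7) (nat_lit 4) (nat_lit 5) (nat_lit 4) (nat_lit 381) (nat_lit 264) (nat_lit 255))))) (XT.nd (nat_lit 234) (nat_lit 0) (nat_lit 0) (XT.nd (nat_lit 78) (nat_lit 0) (nat_lit 0) (XT.lf (nat_lit 0) (nat_lit 6154080008) (nat_lit 76) (nat_lit 26514795828) (nat_lit 76) (nat_lit 25115693212) (nat_lit 4) (nat_lit 4) (nat_lit 5) (nat_lit 5) (nat_lit 5) (nat_lit 4) (nat_lit 382) (nat_lit 264) (nat_lit 254)) (XT.nd (nat_lit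 78) (nat_lit 0) (nat_lit 0) (XT.lf (nat_lit 0) (nat_lit 13827174160) (nat_lit 76) (nat_lit 24080832677) (nat_lit 76) (nat_lit 22575791911) (nat_lit 4) (nat_lit 4) (nat_lit 5) (nat_lit 5) (nat_lit 5) (nat_lit 4) (nat_lit 383) (nat_lit 264) (nat_lit 253)) (XT.lf (nat_lit 0) (nat_lit 21692716241) (nat_lit 76) (nat_lit 21618070168) (nat_lit 76) (nat_lit 20012135924) (nat_lit 4) (nat_lit 4) (nat_lit 5) (nat_lit 5) (nat_lit 5) (nat_lit 4) (nat_lit 384) (nat_lit 264) (nat_lit 252)))) (XT.nd (nat_lit 78) (nat_lit 0) (nat_lit 0) (XT.lf (nat_lit 0) (nat_lit 29769433734) (nat_lit 76) (nat_lit 19120644579) (nat_lit 76) (nat_lit 17418621309) (nat_lit 4) (nat_lit 4) (nat_lit 5) (nat_lit 5) (nat_lit 5) (nat_lit 4) (nat_lit 385) (nat_lit 264) (nat_lit 251)) (XT.nd (nat_lit 78) (nat_lit 0) (nat_lit 0) (XT.lf (nat_lit 0) (nat_lit 38076556917) (nat_lit 76) (nat_lit 16582609658) (nat_lit 76) (nat_lit 14789073031)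 (nat_lit 4) (nat_lit 4) (nat_lit 5) (nat_lit 5) (nat_lit 5) (nat_lit 4) (nat_lit 386) (nat_lit 264) (nat_lit 250)) (XT.lf (nat_lit 0) (nat_lit 46633864656) (nat_lit 76) (nat_lit 13997922467) (nat_lit 76) (nat_lit 12117230260) (nat_lit 4) (nat_lit 4) (nat_lit 5) (nat_lit 5) (nat_lit 5) (nat_lit 4) (nat_lit 387) (nat_lit 264) (nat_lit 249)))))) (XT.nd (nat_lit 390) (nat_lit 0) (nat_lit 0) (XT.nd (nat_lit 156) (nat_lit 152) (nat_lit 0) (XT.nd (nat_lit 78) (nat_lit 0) (nat_lit 0) (XT.lf (nat_lit 0) (nat_lit 55461731493) (nat_lit 76) (nat_lit 11360428986) (nat_lit 76) (nat_lit 9396731466) (nat_lit 4) (nat_lit 4) (nat_lit 5) (nat_lit 5) (nat_lit 5) (nat_lit 4) (nat_lit 388) (nat_lit 264) (nat_lit 248)) (XT.lf (nat_lit 0) (nat_lit 64581176158) (nat_lit 76) (nat_lit 8663849471) (nat_lit 76) (nat_lit 6621099271) (nat_lit 4) (nat_lit 4) (nat_lit 5) (nat_lit 5) (nat_lit 5) (nat_lit 4) (nat_lit 389)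 (nat_lit 264) (nat_lit 247))) (XT.nd (nat_lit 78) (nat_lit 152) (nat_lit 0) (XT.lf (nat_lit 0) (nat_lit 74013911614) (nat_lit 76) (nat_lit 5901763494) (nat_lit 76) (nat_lit 3783725028) (nat_lit 4) (nat_lit 4) (nat_lit 5) (nat_lit 5) (nat_lit 5) (nat_lit 4) (nat_lit 390) (nat_lit 264) (nat_lit 246)) (XT.nd (nat_lit 78) (nat_lit 152) (nat_lit 0) (XT.lf (nat_lit 0) (nat_lit 83782396756) (nat_lit 76) (nat_lit 3067594659) (nat_lit 76) (nat_lit 877853082) (nat_lit 4) (nat_lit 4) (nat_lit 5) (nat_lit 5) (nat_lit 5) (nat_lit 4) (nat_lit 391) (nat_lit 264) (nat_lit 245)) (XT.lf (nat_lit 0) (nat_lit 1979351448) (nat_lit 76) (nat_lit 87664015) (nat_lit 152) (nat_lit 89890846869) (nat_lit 2) (nat_lit 5) (nat_lit 3) (nat_lit 5) (nat_lit 4) (nat_lit 4) (nat_lit 392) (nat_lit 264) (nat_lit 244))))) (XT.nd (nat_lit 234) (nat_lit 0) (nat_lit 0) (XT.nd (nat_lit 78) (nat_lit 0) (nat_lit 0) (XT.lf (nat_lit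 0) (nat_lit 5177594620) (nat_lit 152) (nat_lit 88253529112) (nat_lit 0) (nat_lit 2965149773) (nat_lit 2) (nat_lit 5) (nat_lit 4) (nat_lit 4) (nat_lit 2) (nat_lit 4) (nat_lit 393) (nat_lit 264) (nat_lit 243)) (XT.nd (nat_lit 78) (nat_lit 0) (nat_lit 0) (XT.lf (nat_lit 0) (nat_lit 8380923386) (nat_lit 152) (nat_lit 86569342543) (nat_lit 0) (nat_lit 6109488213) (nat_lit 2) (nat_lit 5) (nat_lit 4) (nat_lit 4) (nat_lit 2) (nat_lit 4) (nat_lit 394) (nat_lit 264) (nat_lit 242)) (XT.lf (nat_lit 0) (nat_lit 11683260056) (nat_lit 152) (nat_lit 84920572530) (nat_lit 0) (nat_lit 9355643620) (nat_lit 2) (nat_lit 5) (nat_lit 4) (nat_lit 4) (nat_lit 2) (nat_lit 4) (nat_lit 395) (nat_lit 264) (nat_lit 241)))) (XT.nd (nat_lit 78) (nat_lit 0) (nat_lit 0) (XT.lf (nat_lit 0) (nat_lit 15092467336) (nat_lit 152) (nat_lit 83303293430) (nat_lit 0) (nat_lit 12711344935) (nat_lit 2) (nat_lit 5) (nat_lit 4) (nat_lit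 4) (nat_lit 2) (nat_lit 4) (nat_lit 396) (nat_lit 264) (nat_lit 240)) (XT.nd (nat_lit 78) (nat_lit 0) (nat_lit 0) (XT.lf (nat_lit 0) (nat_lit 18616662386) (nat_lit 152) (nat_lit 81713654577) (nat_lit 0) (nat_lit 16184581922) (nat_lit 2) (nat_lit 5) (nat_lit 4) (nat_lit 4) (nat_lit 2) (nat_lit 4) (nat_lit 397) (nat_lit 264) (nat_lit 239)) (XT.lf (nat_lit 0) (nat_lit 22264236146) (nat_lit 152) (nat_lit 80147871119) (nat_lit 0) (nat_lit 19783624194) (nat_lit 2) (nat_lit 5) (nat_lit 4) (nat_lit 4) (nat_lit 2) (nat_lit 4) (nat_lit 398) (nat_lit 264) (nat_lit 238))))))) (XT.nd (nat_lit 858) (nat_lit 0) (nat_lit 0) (XT.nd (nat_lit 390) (nat_lit 0) (nat_lit 0) (XT.nd (nat_lit 156) (nat_lit 0) (nat_lit 0) (XT.nd (nat_lit 78) (nat_lit 0) (nat_lit 0) (XT.lf (nat_lit 0) (nat_lit 26043873315) (nat_lit 152) (nat_lit 78602214998) (nat_lit 0) (nat_lit 23517040900) (nat_lit 2) (nat_lit 5) (nat_lit 4) (nat_lit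 4) (nat_lit 2) (nat_lit 4) (nat_lit 399) (nat_lit 264) (nat_lit 237)) (XT.lf (nat_lit 0) (nat_lit 29964573031) (nat_lit 152) (nat_lit 77073006082) (nat_lit 0) (nat_lit 27393721126) (nat_lit 2) (nat_lit 5) (nat_lit 4) (nat_lit 4) (nat_lit 2) (nat_lit 4) (nat_lit 400) (nat_lit 264) (nat_lit 236))) (XT.nd (nat_lit 78) (nat_lit 0) (nat_lit 0) (XT.lf (nat_lit 0) (nat_lit 34035670292) (nat_lit 152) (nat_lit 75556603397) (nat_lit 0) (nat_lit 31422895063) (nat_lit 2) (nat_lit 5) (nat_lit 4) (nat_lit 4) (nat_lit 2) (nat_lit 4) (nat_lit 401) (nat_lit 264) (nat_lit 235)) (XT.nd (nat_lit 78) (nat_lit 0) (nat_lit 0) (XT.lf (nat_lit 0) (nat_lit 38266858188) (nat_lit 152) (nat_lit 74049396459) (nat_lit 0) (nat_lit 35614155983) (nat_lit 2) (nat_lit 5) (nat_lit 4) (nat_lit 4) (nat_lit 2) (nat_lit 4) (nat_lit 402) (nat_lit 264) (nat_lit 234)) (XT.lf (nat_lit 0) (nat_lit 42668210974) (nat_lit 152) (nat_lit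 72547796682) (nat_lit 0) (nat_lit 39977483079) (nat_lit 2) (nat_lit 5) (nat_lit 4) (nat_lit 4) (nat_lit 2) (nat_lit 4) (nat_lit 403) (nat_lit 264) (nat_lit 233))))) (XT.nd (nat_lit 234) (nat_lit 0) (nat_lit 0) (XT.nd (nat_lit 78) (nat_lit 0) (nat_lit 0) (XT.lf (nat_lit 0) (nat_lit 47250208062) (nat_lit 152) (nat_lit 71048228827) (nat_lit 0) (nat_lit 44523265224) (nat_lit 2) (nat_lit 5) (nat_lit 4) (nat_lit 4) (nat_lit 2) (nat_lit 4) (nat_lit 404) (nat_lit 264) (nat_lit 232)) (XT.nd (nat_lit 78) (nat_lit 0) (nat_lit 0) (XT.lf (nat_lit 0) (nat_lit 52023758970) (nat_lit 152) (nat_lit 69547122495) (nat_lit 0) (nat_lit 49262325709) (nat_lit 2) (nat_lit 5) (nat_lit 4) (nat_lit 4) (nat_lit 2) (nat_lit 4) (nat_lit 405) (nat_lit 264) (nat_lit 231)) (XT.lf (nat_lit 0) (nat_lit 57000229294) (nat_lit 152) (nat_lit 68040903624) (nat_lit 0) (nat_lit 54205948012) (nat_lit 2) (nat_lit 5) (nat_lit 4) (nat_lit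 4) (nat_lit 2) (nat_lit 4) (nat_lit 406) (nat_lit 264) (nat_lit 230)))) (XT.nd (nat_lit 78) (nat_lit 0) (nat_lit 0) (XT.lf (nat_lit 0) (nat_lit 62191467773) (nat_lit 152) (nat_lit 66525985977) (nat_lit 0) (nat_lit 59365902662) (nat_lit 2) (nat_lit 5) (nat_lit 4) (nat_lit 4) (nat_lit 2) (nat_lit 4) (nat_lit 407) (nat_lit 264) (nat_lit 229)) (XT.nd (nat_lit 78) (nat_lit 0) (nat_lit 0) (XT.lf (nat_lit 0) (nat_lit 67609834500) (nat_lit 152) (nat_lit 64998762609) (nat_lit 0) (nat_lit 64754475265) (nat_lit 2) (nat_lit 5) (nat_lit 4) (nat_lit 4) (nat_lit 2) (nat_lit 4) (nat_lit 408) (nat_lit 264) (nat_lit 228)) (XT.lf (nat_lit 0) (nat_lit 73268230347) (nat_lit 152) (nat_lit 63455597272) (nat_lit 0) (nat_lit 70384495757) (nat_lit 2) (nat_lit 5) (nat_lit 4) (nat_lit 4) (nat_lit 2) (nat_lit 4) (nat_lit 409) (nat_lit 264) (nat_lit 227)))))) (XT.nd (nat_lit 468) (nat_lit 0) (nat_lit 0) (XT.nd (nat_lit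 234) (nat_lit 0) (nat_lit 0) (XT.nd (nat_lit 78) (nat_lit 0) (nat_lit 0) (XT.lf (nat_lit 0) (nat_lit 79180127685) (nat_lit 152) (nat_lit 61892815764) (nat_lit 0) (nat_lit 76269368947) (nat_lit 2) (nat_lit 5) (nat_lit 4) (nat_lit 4) (nat_lit 2) (nat_lit 4) (nat_lit 410) (nat_lit 264) (nat_lit 226)) (XT.nd (nat_lit 78) (nat_lit 0) (nat_lit 0) (XT.lf (nat_lit 0) (nat_lit 85359602461) (nat_lit 152) (nat_lit 60306697176) (nat_lit 0) (nat_lit 82423106438) (nat_lit 2) (nat_lit 5) (nat_lit 4) (nat_lit 4) (nat_lit 2) (nat_lit 4) (nat_lit 411) (nat_lit 264) (nat_lit 225)) (XT.lf (nat_lit 0) (nat_lit 91821367709) (nat_lit 152) (nat_lit 58693465037) (nat_lit 0) (nat_lit 88860359987) (nat_lit 2) (nat_lit 5) (nat_lit 4) (nat_lit 4) (nat_lit 2) (nat_lit 4) (nat_lit 412) (nat_lit 264) (nat_lit 224)))) (XT.nd (nat_lit 78) (nat_lit 0) (nat_lit 0) (XT.lf (nat_lit 0) (nat_lit 98580808585) (nat_lit 152) (nat_lit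 57049278315) (nat_lit 0) (nat_lit 95596456388) (nat_lit 2) (nat_lit 5) (nat_lit 4) (nat_lit 4) (nat_lit 2) (nat_lit 4) (nat_lit 413) (nat_lit 264) (nat_lit 223)) (XT.nd (nat_lit 78) (nat_lit 0) (nat_lit 0) (XT.lf (nat_lit 0) (nat_lit 105654018996) (nat_lit 152) (nat_lit 55370222282) (nat_lit 0) (nat_lit 102647433965) (nat_lit 2) (nat_lit 5) (nat_lit 4) (nat_lit 4) (nat_lit 2) (nat_lit 4) (nat_lit 414) (nat_lit 264) (nat_lit 222)) (XT.lf (nat_lit 0) (nat_lit 113057839919) (nat_lit 152) (nat_lit 53652299185) (nat_lit 0) (nat_lit 110030080760) (nat_lit 2) (nat_lit 5) (nat_lit 4) (nat_lit 4) (nat_lit 2) (nat_lit 4) (nat_lit 415) (nat_lit 264) (nat_lit 221))))) (XT.nd (nat_lit 234) (nat_lit 0) (nat_lit 0) (XT.nd (nat_lit 78) (nat_lit 0) (nat_lit 0) (XT.lf (nat_lit 0) (nat_lit 120809899498) (nat_lit 152) (nat_lit 51891418731) (nat_lit 0) (nat_lit 117761974504) (nat_lit 2) (nat_lit 5) (nat_lit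 4) (nat_lit 4) (nat_lit 2) (nat_lit 4) (nat_lit 416) (nat_lit 264) (nat_lit 220)) (XT.nd (nat_lit 78) (nat_lit 0) (nat_lit 0) (XT.lf (nat_lit 0) (nat_lit 128928655020) (nat_lit 152) (nat_lit 50083388348) (nat_lit 0) (nat_lit 125861524468) (nat_lit 2) (nat_lit 5) (nat_lit 4) (nat_lit 4) (nat_lit 2) (nat_lit 4) (nat_lit 417) (nat_lit 264) (nat_lit 219)) (XT.lf (nat_lit 0) (nat_lit 137433436853) (nat_lit 152) (nat_lit 48223903200) (nat_lit 0) (nat_lit 134348015294) (nat_lit 2) (nat_lit 5) (nat_lit 4) (nat_lit 4) (nat_lit 2) (nat_lit 4) (nat_lit 418) (nat_lit 264) (nat_lit 218)))) (XT.nd (nat_lit 78) (nat_lit 0) (nat_lit 0) (XT.lf (nat_lit 0) (nat_lit 146344494478) (nat_lit 152) (nat_lit 46308535943) (nat_lit 0) (nat_lit 143241652913) (nat_lit 2) (nat_lit 5) (nat_lit 4) (nat_lit 4) (nat_lit 2) (nat_lit 4) (nat_lit 419) (nat_lit 264) (nat_lit 217)) (XT.nd (nat_lit 78) (nat_lit 0) (nat_lit 0)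 (XT.lf (nat_lit 0) (nat_lit 155683044701) (nat_lit 152) (nat_lit 44332726178) (nat_lit 0) (nat_lit 152563612652) (nat_lit 2) (nat_lit 5) (nat_lit 4) (nat_lit 4) (nat_lit 2) (nat_lit 4) (nat_lit 420) (nat_lit 264) (nat_lit 216)) (XT.lf (nat_lit 0) (nat_lit 165471322162) (nat_lit 152) (nat_lit 42291769596) (nat_lit 0) (nat_lit 162336089654) (nat_lit 2) (nat_lit 5) (nat_lit 4) (nat_lit 4) (nat_lit 2) (nat_lit 4) (nat_lit 421) (nat_lit 264) (nat_lit 215))))))))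
noncomputable def xc23 : XT := (XT.nd (nat_lit 43524) (nat_lit 0) (nat_lit 0) (XT.nd (nat_lit 858) (nat_lit 0) (nat_lit 0) (XT.nd (nat_lit 390) (nat_lit 0) (nat_lit 0) (XT.nd (nat_lit 156) (nat_lit 0) (nat_lit 0) (XT.nd (nat_lit 78) (nat_lit 0) (nat_lit 0) (XT.lf (nat_lit 0) (nat_lit 175732632287) (nat_lit 152) (nat_lit 40180806777) (nat_lit 0) (nat_lit 172582351721) (nat_lit 2) (nat_lit 5) (nat_lit 4) (nat_lit 4) (nat_lit 2) (nat_lit 4) (nat_lit 422) (nat_lit 264) (nat_lit 214)) (XT.lf (nat_lit 0) (nat_lit 186491406764) (nat_lit 152) (nat_lit 37994811619) (nat_lit 0) (nat_lit 183326794715) (nat_lit 2) (nat_lit 5) (nat_lit 4) (nat_lit 4) (nat_lit 2) (nat_lit 4) (nat_lit 423) (nat_lit 264) (nat_lit 213))) (XT.nd (nat_lit 78) (nat_lit 0) (nat_lit 0) (XT.lf (nat_lit 0) (nat_lit 197773261724) (nat_lit 152) (nat_lit 35728579372) (nat_lit 0) (nat_lit 194595000644) (nat_lit 2) (nat_lit 5) (nat_lit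 4) (nat_lit 4) (nat_lit 2) (nat_lit 4) (nat_lit 424) (nat_lit 264) (nat_lit 212)) (XT.nd (nat_lit 78) (nat_lit 0) (nat_lit 0) (XT.lf (nat_lit 0) (nat_lit 209605058726) (nat_lit 152) (nat_lit 33376714244) (nat_lit 0) (nat_lit 206413798569) (nat_lit 2) (nat_lit 5) (nat_lit 4) (nat_lit 4) (nat_lit 2) (nat_lit 4) (nat_lit 425) (nat_lit 264) (nat_lit 211)) (XT.lf (nat_lit 0) (nat_lit 222014968716) (nat_lit 152) (nat_lit 30933616557) (nat_lit 0) (nat_lit 218811328485) (nat_lit 2) (nat_lit 5) (nat_lit 4) (nat_lit 4) (nat_lit 2) (nat_lit 4) (nat_lit 426) (nat_lit 264) (nat_lit 210))))) (XT.nd (nat_lit 234) (nat_lit 0) (nat_lit 0) (XT.nd (nat_lit 78) (nat_lit 0) (nat_lit 0) (XT.lf (nat_lit 0) (nat_lit 235032539097) (nat_lit 152) (nat_lit 28393469411) (nat_lit 0) (nat_lit 231817108320) (nat_lit 2) (nat_lit 5) (nat_lit 4) (nat_lit 4) (nat_lit 2) (nat_lit 4) (nat_lit 427) (nat_lit 264) (nat_lit 209))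 (XT.nd (nat_lit 78) (nat_lit 0) (nat_lit 0) (XT.lf (nat_lit 0) (nat_lit 248688764087) (nat_lit 152) (nat_lit 25750224837) (nat_lit 0) (nat_lit 245462104218) (nat_lit 2) (nat_lit 5) (nat_lit 4) (nat_lit 4) (nat_lit 2) (nat_lit 4) (nat_lit 428) (nat_lit 264) (nat_lit 208)) (XT.lf (nat_lit 0) (nat_lit 263016158505) (nat_lit 152) (nat_lit 22997589395) (nat_lit 0) (nat_lit 259778804263) (nat_lit 2) (nat_lit 5) (nat_lit 4) (nat_lit 4) (nat_lit 2) (nat_lit 4) (nat_lit 429) (nat_lit 264) (nat_lit 207)))) (XT.nd (nat_lit 78) (nat_lit 0) (nat_lit 0) (XT.lf (nat_lit 0) (nat_lit 278048835195) (nat_lit 152) (nat_lit 20129009192) (nat_lit 0) (nat_lit 274801295836) (nat_lit 2) (nat_lit 5) (nat_lit 4) (nat_lit 4) (nat_lit 2) (nat_lit 4) (nat_lit 430) (nat_lit 264) (nat_lit 206)) (XT.nd (nat_lit 78) (nat_lit 0) (nat_lit 0) (XT.lf (nat_lit 0) (nat_lit 293822586246) (nat_lit 152) (nat_lit 17137654275) (nat_lit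 0) (nat_lit 290565346775) (nat_lit 2) (nat_lit 5) (nat_lit 4) (nat_lit 4) (nat_lit 2) (nat_lit 4) (nat_lit 431) (nat_lit 264) (nat_lit 205)) (XT.lf (nat_lit 0) (nat_lit 310374968206) (nat_lit 152) (nat_lit 14016402370) (nat_lit 0) (nat_lit 307108490534) (nat_lit 2) (nat_lit 5) (nat_lit 4) (nat_lit 4) (nat_lit 2) (nat_lit 4) (nat_lit 432) (nat_lit 264) (nat_lit 204)))))) (XT.nd (nat_lit 42198) (nat_lit 0) (nat_lit 228) (XT.nd (nat_lit 41964) (nat_lit 0) (nat_lit 380) (XT.nd (nat_lit 78) (nat_lit 0) (nat_lit 0) (XT.lf (nat_lit 0) (nat_lit 327745391511) (nat_lit 152) (nat_lit 10757821925) (nat_lit 0) (nat_lit 324470115551) (nat_lit 2) (nat_lit 5) (nat_lit 4) (nat_lit 4) (nat_lit 2) (nat_lit 4) (nat_lit 433) (nat_lit 264) (nat_lit 203)) (XT.lf (nat_lit 0) (nat_lit 345975214309) (nat_lit 152) (nat_lit 7354154415) (nat_lit 0) (nat_lit 342691559028) (nat_lit 2) (nat_lit 5) (nat_lit 4) (nat_lit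 4) (nat_lit 2) (nat_lit 4) (nat_lit 434) (nat_lit 264) (nat_lit 202))) (XT.nd (nat_lit 78) (nat_lit 76) (nat_lit 0) (XT.lf (nat_lit 0) (nat_lit 7170617798) (nat_lit 152) (nat_lit 2721143477) (nat_lit 0) (nat_lit 7170617798) (nat_lit 8) (nat_lit 5) (nat_lit 10) (nat_lit 4) (nat_lit 8) (nat_lit 4) (nat_lit 370) (nat_lit 265) (nat_lit 265)) (XT.nd (nat_lit 78) (nat_lit 0) (nat_lit 0) (XT.lf (nat_lit 0) (nat_lit 3487301669) (nat_lit 76) (nat_lit 16147090836) (nat_lit 76) (nat_lit 15956841137) (nat_lit 7) (nat_lit 4) (nat_lit 8) (nat_lit 5) (nat_lit 8) (nat_lit 4) (nat_lit 371) (nat_lit 265) (nat_lit 264)) (XT.lf (nat_lit 0) (nat_lit 12756602025) (nat_lit 76) (nat_lit 12374478813) (nat_lit 76) (nat_lit 12003038925) (nat_lit 7) (nat_lit 4) (nat_lit 8) (nat_lit 5) (nat_lit 8) (nat_lit 4) (nat_lit 372) (nat_lit 265) (nat_lit 263))))) (XT.nd (nat_lit 234) (nat_lit 76) (nat_lit 0) (XT.nd (nat_lit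 78) (nat_lit 76) (nat_lit 0) (XT.lf (nat_lit 0) (nat_lit 22207737289) (nat_lit 76) (nat_lit 8548871837) (nat_lit 76) (nat_lit 8004869864) (nat_lit 7) (nat_lit 4) (nat_lit 8) (nat_lit 5) (nat_lit 8) (nat_lit 4) (nat_lit 373) (nat_lit 265) (nat_lit 262)) (XT.nd (nat_lit 78) (nat_lit 76) (nat_lit 0) (XT.lf (nat_lit 0) (nat_lit 31863210165) (nat_lit 76) (nat_lit 4661161320) (nat_lit 76) (nat_lit 3952814503) (nat_lit 7) (nat_lit 4) (nat_lit 8) (nat_lit 5) (nat_lit 8) (nat_lit 4) (nat_lit 374) (nat_lit 265) (nat_lit 261)) (XT.lf (nat_lit 0) (nat_lit 157565093) (nat_lit 152) (nat_lit 541857273) (nat_lit 76) (nat_lit 41585776339) (nat_lit 6) (nat_lit 5) (nat_lit 8) (nat_lit 5) (nat_lit 7) (nat_lit 4) (nat_lit 375) (nat_lit 265) (nat_lit 260)))) (XT.nd (nat_lit 78) (nat_lit 0) (nat_lit 0) (XT.lf (nat_lit 0) (nat_lit 4390584556) (nat_lit 152) (nat_lit 36362377675) (nat_lit 0) (nat_lit 3424935668)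 (nat_lit 5) (nat_lit 5) (nat_lit 7) (nat_lit 4) (nat_lit 5) (nat_lit 4) (nat_lit 376) (nat_lit 265) (nat_lit 259)) (XT.nd (nat_lit 78) (nat_lit 0) (nat_lit 0) (XT.lf (nat_lit 0) (nat_lit 8728306441) (nat_lit 152) (nat_lit 29814845178) (nat_lit 0) (nat_lit 7627450644) (nat_lit 5) (nat_lit 5) (nat_lit 7) (nat_lit 4) (nat_lit 5) (nat_lit 4) (nat_lit 377) (nat_lit 265) (nat_lit 258)) (XT.lf (nat_lit 0) (nat_lit 13161255809) (nat_lit 152) (nat_lit 23176159139) (nat_lit 0) (nat_lit 11931631527) (nat_lit 5) (nat_lit 5) (nat_lit 7) (nat_lit 4) (nat_lit 5) (nat_lit 4) (nat_lit 378) (nat_lit 265) (nat_lit 257))))))) (XT.nd (nat_lit 858) (nat_lit 152) (nat_lit 0) (XT.nd (nat_lit 390) (nat_lit 0) (nat_lit 0) (XT.nd (nat_lit 156) (nat_lit 76) (nat_lit 0) (XT.nd (nat_lit 78) (nat_lit 0) (nat_lit 0) (XT.lf (nat_lit 0) (nat_lit 17699987300) (nat_lit 152) (nat_lit 16430513163) (nat_lit 0) (nat_lit 16347726365)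 (nat_lit 5) (nat_lit 5) (nat_lit 7) (nat_lit 4) (nat_lit 5) (nat_lit 4) (nat_lit 379) (nat_lit 265) (nat_lit 256)) (XT.lf (nat_lit 0) (nat_lit 22355307418) (nat_lit 152) (nat_lit 9561846189) (nat_lit 0) (nat_lit 20886249672) (nat_lit 5) (nat_lit 5) (nat_lit 7) (nat_lit 4) (nat_lit 5) (nat_lit 4) (nat_lit 380) (nat_lit 265) (nat_lit 255))) (XT.nd (nat_lit 78) (nat_lit 76) (nat_lit 0) (XT.lf (nat_lit 0) (nat_lit 27138300258) (nat_lit 152) (nat_lit 2553804246) (nat_lit 0) (nat_lit 25558007453) (nat_lit 5) (nat_lit 5) (nat_lit 7) (nat_lit 4) (nat_lit 5) (nat_lit 4) (nat_lit 381) (nat_lit 265) (nat_lit 254)) (XT.nd (nat_lit 78) (nat_lit 0) (nat_lit 0) (XT.lf (nat_lit 0) (nat_lit 4762735766) (nat_lit 76) (nat_lit 27371977785) (nat_lit 76) (nat_lit 25685746829) (nat_lit 4) (nat_lit 4) (nat_lit 5) (nat_lit 5) (nat_lit 5) (nat_lit 4) (nat_lit 382) (nat_lit 265) (nat_lit 253)) (XT.lf (nat_lit 0)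 (nat_lit 12342558319) (nat_lit 76) (nat_lit 24983331122) (nat_lit 76) (nat_lit 23196206689) (nat_lit 4) (nat_lit 4) (nat_lit 5) (nat_lit 5) (nat_lit 5) (nat_lit 4) (nat_lit 383) (nat_lit 265) (nat_lit 252))))) (XT.nd (nat_lit 234) (nat_lit 0) (nat_lit 0) (XT.nd (nat_lit 78) (nat_lit 0) (nat_lit 0) (XT.lf (nat_lit 0) (nat_lit 20119270307) (nat_lit 76) (nat_lit 22563727171) (nat_lit 76) (nat_lit 20680513712) (nat_lit 4) (nat_lit 4) (nat_lit 5) (nat_lit 5) (nat_lit 5) (nat_lit 4) (nat_lit 384) (nat_lit 265) (nat_lit 251)) (XT.nd (nat_lit 78) (nat_lit 0) (nat_lit 0) (XT.lf (nat_lit 0) (nat_lit 28111387710) (nat_lit 76) (nat_lit 20107404971) (nat_lit 76) (nat_lit 18132678154) (nat_lit 4) (nat_lit 4) (nat_lit 5) (nat_lit 5) (nat_lit 5) (nat_lit 4) (nat_lit 385) (nat_lit 265) (nat_lit 250)) (XT.lf (nat_lit 0) (nat_lit 36337939379) (nat_lit 76) (nat_lit 17608516136) (nat_lit 76) (nat_lit 15546633740)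 (nat_lit 4) (nat_lit 4) (nat_lit 5) (nat_lit 5) (nat_lit 5) (nat_lit 4) (nat_lit 386) (nat_lit 265) (nat_lit 249)))) (XT.nd (nat_lit 78) (nat_lit 0) (nat_lit 0) (XT.lf (nat_lit 0) (nat_lit 44818512343) (nat_lit 76) (nat_lit 15061110931) (nat_lit 76) (nat_lit 12916223221) (nat_lit 4) (nat_lit 4) (nat_lit 5) (nat_lit 5) (nat_lit 5) (nat_lit 4) (nat_lit 387) (nat_lit 265) (nat_lit 248)) (XT.nd (nat_lit 78) (nat_lit 0) (nat_lit 0) (XT.lf (nat_lit 0) (nat_lit 53573298441) (nat_lit 76) (nat_lit 12459124104) (nat_lit 76) (nat_lit 10235183714) (nat_lit 4) (nat_lit 4) (nat_lit 5) (nat_lit 5) (nat_lit 5) (nat_lit 4) (nat_lit 388) (nat_lit 265) (nat_lit 247)) (XT.lf (nat_lit 0) (nat_lit 62623142402) (nat_lit 76) (nat_lit 9796360449) (nat_lit 76) (nat_lit 7497131793) (nat_lit 4) (nat_lit 4) (nat_lit 5) (nat_lit 5) (nat_lit 5) (nat_lit 4) (nat_lit 389) (nat_lit 265) (nat_lit 246)))))) (XT.nd (nat_lit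 468) (nat_lit 0) (nat_lit 0) (XT.nd (nat_lit 234) (nat_lit 76) (nat_lit 0) (XT.nd (nat_lit 78) (nat_lit 76) (nat_lit 0) (XT.lf (nat_lit 0) (nat_lit 71989591475) (nat_lit 76) (nat_lit 7066480053) (nat_lit 76) (nat_lit 4695548286) (nat_lit 4) (nat_lit 4) (nat_lit 5) (nat_lit 5) (nat_lit 5) (nat_lit 4) (nat_lit 390) (nat_lit 265) (nat_lit 245)) (XT.nd (nat_lit 78) (nat_lit 76) (nat_lit 0) (XT.lf (nat_lit 0) (nat_lit 81694946728) (nat_lit 76) (nat_lit 4262983200) (nat_lit 76) (nat_lit 1823762757) (nat_lit 4) (nat_lit 4) (nat_lit 5) (nat_lit 5) (nat_lit 5) (nat_lit 4) (nat_lit 391) (nat_lit 265) (nat_lit 244)) (XT.lf (nat_lit 0) (nat_lit 1089053357) (nat_lit 152) (nat_lit 271697895) (nat_lit 76) (nat_lit 90654819146) (nat_lit 3) (nat_lit 5) (nat_lit 5) (nat_lit 5) (nat_lit 4) (nat_lit 4) (nat_lit 392) (nat_lit 265) (nat_lit 243)))) (XT.nd (nat_lit 78) (nat_lit 0) (nat_lit 0) (XT.lf (nat_lit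 0) (nat_lit 4143976886) (nat_lit 152) (nat_lit 90612812686) (nat_lit 0) (nat_lit 1699979628) (nat_lit 2) (nat_lit 5) (nat_lit 4) (nat_lit 4) (nat_lit 2) (nat_lit 4) (nat_lit 393) (nat_lit 265) (nat_lit 242)) (XT.nd (nat_lit 78) (nat_lit 0) (nat_lit 0) (XT.lf (nat_lit 0) (nat_lit 7317472221) (nat_lit 152) (nat_lit 88986980207) (nat_lit 0) (nat_lit 4817293699) (nat_lit 2) (nat_lit 5) (nat_lit 4) (nat_lit 4) (nat_lit 2) (nat_lit 4) (nat_lit 394) (nat_lit 265) (nat_lit 241)) (XT.lf (nat_lit 0) (nat_lit 10591396099) (nat_lit 152) (nat_lit 87393785518) (nat_lit 0) (nat_lit 8037711612) (nat_lit 2) (nat_lit 5) (nat_lit 4) (nat_lit 4) (nat_lit 2) (nat_lit 4) (nat_lit 395) (nat_lit 265) (nat_lit 240))))) (XT.nd (nat_lit 234) (nat_lit 0) (nat_lit 0) (XT.nd (nat_lit 78) (nat_lit 0) (nat_lit 0) (XT.lf (nat_lit 0) (nat_lit 13973543577) (nat_lit 152) (nat_lit 85829435297) (nat_lit 0) (nat_lit 11368901028)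 (nat_lit 2) (nat_lit 5) (nat_lit 4) (nat_lit 4) (nat_lit 2) (nat_lit 4) (nat_lit 396) (nat_lit 265) (nat_lit 239)) (XT.nd (nat_lit 78) (nat_lit 0) (nat_lit 0) (XT.lf (nat_lit 0) (nat_lit 17471967386) (nat_lit 152) (nat_lit 84290204902) (nat_lit 0) (nat_lit 14818793349) (nat_lit 2) (nat_lit 5) (nat_lit 4) (nat_lit 4) (nat_lit 2) (nat_lit 4) (nat_lit 397) (nat_lit 265) (nat_lit 238)) (XT.lf (nat_lit 0) (nat_lit 21094997108) (nat_lit 152) (nat_lit 82772429497) (nat_lit 0) (nat_lit 18395602607) (nat_lit 2) (nat_lit 5) (nat_lit 4) (nat_lit 4) (nat_lit 2) (nat_lit 4) (nat_lit 398) (nat_lit 265) (nat_lit 237)))) (XT.nd (nat_lit 78) (nat_lit 0) (nat_lit 0) (XT.lf (nat_lit 0) (nat_lit 24851259003) (nat_lit 152) (nat_lit 81272495333) (nat_lit 0) (nat_lit 22107845012) (nat_lit 2) (nat_lit 5) (nat_lit 4) (nat_lit 4) (nat_lit 2) (nat_lit 4) (nat_lit 399) (nat_lit 265) (nat_lit 236)) (XT.nd (nat_lit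 78) (nat_lit 0) (nat_lit 0) (XT.lf (nat_lit 0) (nat_lit 28749696553) (nat_lit 152) (nat_lit 79786831137) (nat_lit 0) (nat_lit 25964359238) (nat_lit 2) (nat_lit 5) (nat_lit 4) (nat_lit 4) (nat_lit 2) (nat_lit 4) (nat_lit 400) (nat_lit 265) (nat_lit 235)) (XT.lf (nat_lit 0) (nat_lit 32799591751) (nat_lit 152) (nat_lit 78311899614) (nat_lit 0) (nat_lit 29974327461) (nat_lit 2) (nat_lit 5) (nat_lit 4) (nat_lit 4) (nat_lit 2) (nat_lit 4) (nat_lit 401) (nat_lit 265) (nat_lit 234))))))))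
noncomputable def xc24 : XT := (XT.nd (nat_lit 1716) (nat_lit 0) (nat_lit 0) (XT.nd (nat_lit 858) (nat_lit 0) (nat_lit 0) (XT.nd (nat_lit 390) (nat_lit 0) (nat_lit 0) (XT.nd (nat_lit 156) (nat_lit 0) (nat_lit 0) (XT.nd (nat_lit 78) (nat_lit 0) (nat_lit 0) (XT.lf (nat_lit 0) (nat_lit 37010587205) (nat_lit 152) (nat_lit 76844189021) (nat_lit 0) (nat_lit 34147297225) (nat_lit 2) (nat_lit 5) (nat_lit 4) (nat_lit 4) (nat_lit 2) (nat_lit 4) (nat_lit 402) (nat_lit 265) (nat_lit 233)) (XT.lf (nat_lit 0) (nat_lit 41392709095) (nat_lit 152) (nat_lit 75380204810) (nat_lit 0) (nat_lit 38493204172) (nat_lit 2) (nat_lit 5) (nat_lit 4) (nat_lit 4) (nat_lit 2) (nat_lit 4) (nat_lit 403) (nat_lit 265) (nat_lit 232))) (XT.nd (nat_lit 78) (nat_lit 0) (nat_lit 0) (XT.lf (nat_lit 0) (nat_lit 45956391045) (nat_lit 152) (nat_lit 73916461305) (nat_lit 0) (nat_lit 43022395699) (nat_lit 2) (nat_lit 5) (nat_lit 4)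 (nat_lit 4) (nat_lit 2) (nat_lit 4) (nat_lit 404) (nat_lit 265) (nat_lit 231)) (XT.nd (nat_lit 78) (nat_lit 0) (nat_lit 0) (XT.lf (nat_lit 0) (nat_lit 50712498963) (nat_lit 152) (nat_lit 72449473401) (nat_lit 0) (nat_lit 47745655596) (nat_lit 2) (nat_lit 5) (nat_lit 4) (nat_lit 4) (nat_lit 2) (nat_lit 4) (nat_lit 405) (nat_lit 265) (nat_lit 230)) (XT.lf (nat_lit 0) (nat_lit 55672356916) (nat_lit 152) (nat_lit 70975748270) (nat_lit 0) (nat_lit 52674229719) (nat_lit 2) (nat_lit 5) (nat_lit 4) (nat_lit 4) (nat_lit 2) (nat_lit 4) (nat_lit 406) (nat_lit 265) (nat_lit 229))))) (XT.nd (nat_lit 234) (nat_lit 0) (nat_lit 0) (XT.nd (nat_lit 78) (nat_lit 0) (nat_lit 0) (XT.lf (nat_lit 0) (nat_lit 60847774090) (nat_lit 152) (nat_lit 69491777043) (nat_lit 0) (nat_lit 57819852770) (nat_lit 2) (nat_lit 5) (nat_lit 4) (nat_lit 4) (nat_lit 2) (nat_lit 4) (nat_lit 407) (nat_lit 265) (nat_lit 228)) (XT.nd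 (nat_lit 78) (nat_lit 0) (nat_lit 0) (XT.lf (nat_lit 0) (nat_lit 66251072906) (nat_lit 152) (nat_lit 67994026455) (nat_lit 0) (nat_lit 63194776230) (nat_lit 2) (nat_lit 5) (nat_lit 4) (nat_lit 4) (nat_lit 2) (nat_lit 4) (nat_lit 408) (nat_lit 265) (nat_lit 227)) (XT.lf (nat_lit 0) (nat_lit 71895118362) (nat_lit 152) (nat_lit 66478930433) (nat_lit 0) (nat_lit 68811797538) (nat_lit 2) (nat_lit 5) (nat_lit 4) (nat_lit 4) (nat_lit 2) (nat_lit 4) (nat_lit 409) (nat_lit 265) (nat_lit 226)))) (XT.nd (nat_lit 78) (nat_lit 0) (nat_lit 0) (XT.lf (nat_lit 0) (nat_lit 77793348662) (nat_lit 152) (nat_lit 64942881606) (nat_lit 0) (nat_lit 74684290554) (nat_lit 2) (nat_lit 5) (nat_lit 4) (nat_lit 4) (nat_lit 2) (nat_lit 4) (nat_lit 410) (nat_lit 265) (nat_lit 225)) (XT.nd (nat_lit 78) (nat_lit 0) (nat_lit 0) (XT.lf (nat_lit 0) (nat_lit 83959807210) (nat_lit 152) (nat_lit 63382222715) (nat_lit 0) (nat_lit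 80826237403) (nat_lit 2) (nat_lit 5) (nat_lit 4) (nat_lit 4) (nat_lit 2) (nat_lit 4) (nat_lit 411) (nat_lit 265) (nat_lit 224)) (XT.lf (nat_lit 0) (nat_lit 90409176051) (nat_lit 152) (nat_lit 61793237904) (nat_lit 0) (nat_lit 87252261768) (nat_lit 2) (nat_lit 5) (nat_lit 4) (nat_lit 4) (nat_lit 2) (nat_lit 4) (nat_lit 412) (nat_lit 265) (nat_lit 223)))))) (XT.nd (nat_lit 390) (nat_lit 0) (nat_lit 0) (XT.nd (nat_lit 156) (nat_lit 0) (nat_lit 0) (XT.nd (nat_lit 78) (nat_lit 0) (nat_lit 0) (XT.lf (nat_lit 0) (nat_lit 97156810825) (nat_lit 152) (nat_lit 60172143878) (nat_lit 0) (nat_lit 93977663709) (nat_lit 2) (nat_lit 5) (nat_lit 4) (nat_lit 4) (nat_lit 2) (nat_lit 4) (nat_lit 413) (nat_lit 265) (nat_lit 222)) (XT.lf (nat_lit 0) (nat_lit 104218777329) (nat_lit 152) (nat_lit 58515080888) (nat_lit 0) (nat_lit 101018456085) (nat_lit 2) (nat_lit 5) (nat_lit 4) (nat_lit 4) (nat_lit 2) (nat_lit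 4) (nat_lit 414) (nat_lit 265) (nat_lit 221))) (XT.nd (nat_lit 78) (nat_lit 0) (nat_lit 0) (XT.lf (nat_lit 0) (nat_lit 111611889769) (nat_lit 152) (nat_lit 56818103546) (nat_lit 0) (nat_lit 108391402690) (nat_lit 2) (nat_lit 5) (nat_lit 4) (nat_lit 4) (nat_lit 2) (nat_lit 4) (nat_lit 415) (nat_lit 265) (nat_lit 220)) (XT.nd (nat_lit 78) (nat_lit 0) (nat_lit 0) (XT.lf (nat_lit 0) (nat_lit 119353750794) (nat_lit 152) (nat_lit 55077171430) (nat_lit 0) (nat_lit 116114058157) (nat_lit 2) (nat_lit 5) (nat_lit 4) (nat_lit 4) (nat_lit 2) (nat_lit 4) (nat_lit 416) (nat_lit 265) (nat_lit 219)) (XT.lf (nat_lit 0) (nat_lit 127462793406) (nat_lit 152) (nat_lit 53288139463) (nat_lit 0) (nat_lit 124204809762) (nat_lit 2) (nat_lit 5) (nat_lit 4) (nat_lit 4) (nat_lit 2) (nat_lit 4) (nat_lit 417) (nat_lit 265) (nat_lit 218))))) (XT.nd (nat_lit 234) (nat_lit 0) (nat_lit 0) (XT.nd (nat_lit 78) (nat_lit 0)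 (nat_lit 0) (XT.lf (nat_lit 0) (nat_lit 135958324849) (nat_lit 152) (nat_lit 51446748046) (nat_lit 0) (nat_lit 132682921198) (nat_lit 2) (nat_lit 5) (nat_lit 4) (nat_lit 4) (nat_lit 2) (nat_lit 4) (nat_lit 418) (nat_lit 265) (nat_lit 217)) (XT.nd (nat_lit 78) (nat_lit 0) (nat_lit 0) (XT.lf (nat_lit 0) (nat_lit 144860572580) (nat_lit 152) (nat_lit 49548612913) (nat_lit 0) (nat_lit 141568578446) (nat_lit 2) (nat_lit 5) (nat_lit 4) (nat_lit 4) (nat_lit 2) (nat_lit 4) (nat_lit 419) (nat_lit 265) (nat_lit 216)) (XT.lf (nat_lit 0) (nat_lit 154190732426) (nat_lit 152) (nat_lit 47589214695) (nat_lit 0) (nat_lit 150882937832) (nat_lit 2) (nat_lit 5) (nat_lit 4) (nat_lit 4) (nat_lit 2) (nat_lit 4) (nat_lit 420) (nat_lit 265) (nat_lit 215)))) (XT.nd (nat_lit 78) (nat_lit 0) (nat_lit 0) (XT.lf (nat_lit 0) (nat_lit 163971019053) (nat_lit 152) (nat_lit 45563888159) (nat_lit 0) (nat_lit 160648176402)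 (nat_lit 2) (nat_lit 5) (nat_lit 4) (nat_lit 4) (nat_lit 2) (nat_lit 4) (nat_lit 421) (nat_lit 265) (nat_lit 214)) (XT.nd (nat_lit 78) (nat_lit 0) (nat_lit 0) (XT.lf (nat_lit 0) (nat_lit 174224718859) (nat_lit 152) (nat_lit 43467811097) (nat_lit 0) (nat_lit 170887544725) (nat_lit 2) (nat_lit 5) (nat_lit 4) (nat_lit 4) (nat_lit 2) (nat_lit 4) (nat_lit 422) (nat_lit 265) (nat_lit 213)) (XT.lf (nat_lit 0) (nat_lit 184976245414) (nat_lit 152) (nat_lit 41295992850) (nat_lit 0) (nat_lit 181625422249) (nat_lit 2) (nat_lit 5) (nat_lit 4) (nat_lit 4) (nat_lit 2) (nat_lit 4) (nat_lit 423) (nat_lit 265) (nat_lit 212))))))) (XT.nd (nat_lit 42510) (nat_lit 0) (nat_lit 228) (XT.nd (nat_lit 390) (nat_lit 0) (nat_lit 0) (XT.nd (nat_lit 156) (nat_lit 0) (nat_lit 0) (XT.nd (nat_lit 78) (nat_lit 0) (nat_lit 0) (XT.lf (nat_lit 0) (nat_lit 196251197590) (nat_lit 152) (nat_lit 39043262423) (nat_lit 0) (nat_lit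 192887375348) (nat_lit 2) (nat_lit 5) (nat_lit 4) (nat_lit 4) (nat_lit 2) (nat_lit 4) (nat_lit 424) (nat_lit 265) (nat_lit 211)) (XT.lf (nat_lit 0) (nat_lit 208076420513) (nat_lit 152) (nat_lit 36704256172) (nat_lit 0) (nat_lit 204700218197) (nat_lit 2) (nat_lit 5) (nat_lit 4) (nat_lit 4) (nat_lit 2) (nat_lit 4) (nat_lit 425) (nat_lit 265) (nat_lit 210))) (XT.nd (nat_lit 78) (nat_lit 0) (nat_lit 0) (XT.lf (nat_lit 0) (nat_lit 220480069475) (nat_lit 152) (nat_lit 34273405034) (nat_lit 0) (nat_lit 217092076612) (nat_lit 2) (nat_lit 5) (nat_lit 4) (nat_lit 4) (nat_lit 2) (nat_lit 4) (nat_lit 426) (nat_lit 265) (nat_lit 209)) (XT.nd (nat_lit 78) (nat_lit 0) (nat_lit 0) (XT.lf (nat_lit 0) (nat_lit 233491676973) (nat_lit 152) (nat_lit 31744921268) (nat_lit 0) (nat_lit 230092455019) (nat_lit 2) (nat_lit 5) (nat_lit 4) (nat_lit 4) (nat_lit 2) (nat_lit 4) (nat_lit 427) (nat_lit 265) (nat_lit 208))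 (XT.lf (nat_lit 0) (nat_lit 247142223025) (nat_lit 152) (nat_lit 29112784675) (nat_lit 0) (nat_lit 243732306698) (nat_lit 2) (nat_lit 5) (nat_lit 4) (nat_lit 4) (nat_lit 2) (nat_lit 4) (nat_lit 428) (nat_lit 265) (nat_lit 207))))) (XT.nd (nat_lit 234) (nat_lit 0) (nat_lit 0) (XT.nd (nat_lit 78) (nat_lit 0) (nat_lit 0) (XT.lf (nat_lit 0) (nat_lit 261464208932) (nat_lit 152) (nat_lit 26370728263) (nat_lit 0) (nat_lit 258044107487) (nat_lit 2) (nat_lit 5) (nat_lit 4) (nat_lit 4) (nat_lit 2) (nat_lit 4) (nat_lit 429) (nat_lit 265) (nat_lit 206)) (XT.nd (nat_lit 78) (nat_lit 0) (nat_lit 0) (XT.lf (nat_lit 0) (nat_lit 276491734659) (nat_lit 152) (nat_lit 23512223327) (nat_lit 0) (nat_lit 273061933103) (nat_lit 2) (nat_lit 5) (nat_lit 4) (nat_lit 4) (nat_lit 2) (nat_lit 4) (nat_lit 430) (nat_lit 265) (nat_lit 205)) (XT.lf (nat_lit 0) (nat_lit 292260580030) (nat_lit 152) (nat_lit 20530463901) (nat_lit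 0) (nat_lit 288821540273) (nat_lit 2) (nat_lit 5) (nat_lit 4) (nat_lit 4) (nat_lit 2) (nat_lit 4) (nat_lit 431) (nat_lit 265) (nat_lit 204)))) (XT.nd (nat_lit 78) (nat_lit 0) (nat_lit 0) (XT.lf (nat_lit 0) (nat_lit 308808289916) (nat_lit 152) (nat_lit 17418350560) (nat_lit 0) (nat_lit 305360451871) (nat_lit 2) (nat_lit 5) (nat_lit 4) (nat_lit 4) (nat_lit 2) (nat_lit 4) (nat_lit 432) (nat_lit 265) (nat_lit 203)) (XT.nd (nat_lit 78) (nat_lit 0) (nat_lit 0) (XT.lf (nat_lit 0) (nat_lit 326174263624) (nat_lit 152) (nat_lit 14168473508) (nat_lit 0) (nat_lit 322718046258) (nat_lit 2) (nat_lit 5) (nat_lit 4) (nat_lit 4) (nat_lit 2) (nat_lit 4) (nat_lit 433) (nat_lit 265) (nat_lit 202)) (XT.lf (nat_lit 0) (nat_lit 344399848712) (nat_lit 152) (nat_lit 10773094945) (nat_lit 0) (nat_lit 340935651040) (nat_lit 2) (nat_lit 5) (nat_lit 4) (nat_lit 4) (nat_lit 2) (nat_lit 4) (nat_lit 434) (nat_lit 265)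 (nat_lit 201)))))) (XT.nd (nat_lit 468) (nat_lit 152) (nat_lit 0) (XT.nd (nat_lit 234) (nat_lit 76) (nat_lit 0) (XT.nd (nat_lit 78) (nat_lit 0) (nat_lit 0) (XT.lf (nat_lit 0) (nat_lit 2216829294) (nat_lit 152) (nat_lit 11271997894) (nat_lit 0) (nat_lit 2216829294) (nat_lit 8) (nat_lit 5) (nat_lit 10) (nat_lit 4) (nat_lit 8) (nat_lit 4) (nat_lit 368) (nat_lit 266) (nat_lit 266)) (XT.nd (nat_lit 78) (nat_lit 0) (nat_lit 0) (XT.lf (nat_lit 0) (nat_lit 9403072524) (nat_lit 152) (nat_lit 14126603659) (nat_lit 0) (nat_lit 9203310340) (nat_lit 8) (nat_lit 5) (nat_lit 10) (nat_lit 4) (nat_lit 8) (nat_lit 4) (nat_lit 369) (nat_lit 266) (nat_lit 265)) (XT.lf (nat_lit 0) (nat_lit 14464845994) (nat_lit 152) (nat_lit 5588901271) (nat_lit 0) (nat_lit 14074834111) (nat_lit 8) (nat_lit 5) (nat_lit 10) (nat_lit 4) (nat_lit 8) (nat_lit 4) (nat_lit 370) (nat_lit 266) (nat_lit 264)))) (XT.nd (nat_lit 78) (nat_lit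 0) (nat_lit 0) (XT.lf (nat_lit 0) (nat_lit 3191590054) (nat_lit 76) (nat_lit 16489270450) (nat_lit 76) (nat_lit 15918068378) (nat_lit 7) (nat_lit 4) (nat_lit 8) (nat_lit 5) (nat_lit 8) (nat_lit 4) (nat_lit 371) (nat_lit 266) (nat_lit 263)) (XT.nd (nat_lit 78) (nat_lit 0) (nat_lit 0) (XT.lf (nat_lit 0) (nat_lit 12323509869) (nat_lit 76) (nat_lit 12782822158) (nat_lit 76) (nat_lit 12039058001) (nat_lit 7) (nat_lit 4) (nat_lit 8) (nat_lit 5) (nat_lit 8) (nat_lit 4) (nat_lit 372) (nat_lit 266) (nat_lit 262)) (XT.lf (nat_lit 0) (nat_lit 21643806523) (nat_lit 76) (nat_lit 9020228259) (nat_lit 76) (nat_lit 8112119258) (nat_lit 7) (nat_lit 4) (nat_lit 8) (nat_lit 5) (nat_lit 8) (nat_lit 4) (nat_lit 373) (nat_lit 266) (nat_lit 261))))) (XT.nd (nat_lit 234) (nat_lit 0) (nat_lit 0) (XT.nd (nat_lit 78) (nat_lit 152) (nat_lit 0) (XT.lf (nat_lit 0) (nat_lit 31174671198) (nat_lit 76) (nat_lit 5192530196)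 (nat_lit 76) (nat_lit 4127902297) (nat_lit 7) (nat_lit 4) (nat_lit 8) (nat_lit 5) (nat_lit 8) (nat_lit 4) (nat_lit 374) (nat_lit 266) (nat_lit 260)) (XT.nd (nat_lit 78) (nat_lit 152) (nat_lit 0) (XT.lf (nat_lit 0) (nat_lit 40938796430) (nat_lit 76) (nat_lit 1290614402) (nat_lit 76) (nat_lit 76920885) (nat_lit 7) (nat_lit 4) (nat_lit 8) (nat_lit 5) (nat_lit 8) (nat_lit 4) (nat_lit 375) (nat_lit 266) (nat_lit 259)) (XT.lf (nat_lit 0) (nat_lit 4073481708) (nat_lit 152) (nat_lit 37347498093) (nat_lit 0) (nat_lit 2782376212) (nat_lit 5) (nat_lit 5) (nat_lit 7) (nat_lit 4) (nat_lit 5) (nat_lit 4) (nat_lit 376) (nat_lit 266) (nat_lit 258)))) (XT.nd (nat_lit 78) (nat_lit 0) (nat_lit 0) (XT.lf (nat_lit 0) (nat_lit 8351857929) (nat_lit 152) (nat_lit 30915196368) (nat_lit 0) (nat_lit 6931983948) (nat_lit 5) (nat_lit 5) (nat_lit 7) (nat_lit 4) (nat_lit 5) (nat_lit 4) (nat_lit 377) (nat_lit 266) (nat_lit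 257)) (XT.nd (nat_lit 78) (nat_lit 0) (nat_lit 0) (XT.lf (nat_lit 0) (nat_lit 12728287616) (nat_lit 152) (nat_lit 24386253922) (nat_lit 0) (nat_lit 11185776983) (nat_lit 5) (nat_lit 5) (nat_lit 7) (nat_lit 4) (nat_lit 5) (nat_lit 4) (nat_lit 378) (nat_lit 266) (nat_lit 256)) (XT.lf (nat_lit 0) (nat_lit 17213190840) (nat_lit 152) (nat_lit 17745125653) (nat_lit 0) (nat_lit 15553883395) (nat_lit 5) (nat_lit 5) (nat_lit 7) (nat_lit 4) (nat_lit 5) (nat_lit 4) (nat_lit 379) (nat_lit 266) (nat_lit 255))))))))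
noncomputable def xc25 : XT := (XT.nd (nat_lit 1716) (nat_lit 0) (nat_lit 0) (XT.nd (nat_lit 858) (nat_lit 152) (nat_lit 0) (XT.nd (nat_lit 390) (nat_lit 0) (nat_lit 0) (XT.nd (nat_lit 156) (nat_lit 76) (nat_lit 0) (XT.nd (nat_lit 78) (nat_lit 0) (nat_lit 0) (XT.lf (nat_lit 0) (nat_lit 21817245941) (nat_lit 152) (nat_lit 10975999352) (nat_lit 0) (nat_lit 20046703438) (nat_lit 5) (nat_lit 5) (nat_lit 7) (nat_lit 4) (nat_lit 5) (nat_lit 4) (nat_lit 380) (nat_lit 266) (nat_lit 254)) (XT.lf (nat_lit 0) (nat_lit 26551414957) (nat_lit 152) (nat_lit 4062758051) (nat_lit 0) (nat_lit 24674934302) (nat_lit 5) (nat_lit 5) (nat_lit 7) (nat_lit 4) (nat_lit 5) (nat_lit 4) (nat_lit 381) (nat_lit 266) (nat_lit 253))) (XT.nd (nat_lit 78) (nat_lit 0) (nat_lit 0) (XT.lf (nat_lit 0) (nat_lit 3110617535) (nat_lit 76) (nat_lit 28364917639) (nat_lit 76) (nat_lit 26387543507) (nat_lit 4) (nat_lit 4) (nat_lit 5)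 (nat_lit 5) (nat_lit 5) (nat_lit 4) (nat_lit 382) (nat_lit 266) (nat_lit 252)) (XT.nd (nat_lit 78) (nat_lit 0) (nat_lit 0) (XT.lf (nat_lit 0) (nat_lit 10601609994) (nat_lit 76) (nat_lit 26019429534) (nat_lit 76) (nat_lit 23945966376) (nat_lit 4) (nat_lit 4) (nat_lit 5) (nat_lit 5) (nat_lit 5) (nat_lit 4) (nat_lit 383) (nat_lit 266) (nat_lit 251)) (XT.lf (nat_lit 0) (nat_lit 18293721891) (nat_lit 76) (nat_lit 23640928973) (nat_lit 76) (nat_lit 21475952457) (nat_lit 4) (nat_lit 4) (nat_lit 5) (nat_lit 5) (nat_lit 5) (nat_lit 4) (nat_lit 384) (nat_lit 266) (nat_lit 250))))) (XT.nd (nat_lit 234) (nat_lit 0) (nat_lit 0) (XT.nd (nat_lit 78) (nat_lit 0) (nat_lit 0) (XT.lf (nat_lit 0) (nat_lit 26205267780) (nat_lit 76) (nat_lit 21223752859) (nat_lit 76) (nat_lit 18971620763) (nat_lit 4) (nat_lit 4) (nat_lit 5) (nat_lit 5) (nat_lit 5) (nat_lit 4) (nat_lit 385) (nat_lit 266) (nat_lit 249)) (XT.nd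 (nat_lit 78) (nat_lit 0) (nat_lit 0) (XT.lf (nat_lit 0) (nat_lit 34355084674) (nat_lit 76) (nat_lit 18762146009) (nat_lit 76) (nat_lit 16427008600) (nat_lit 4) (nat_lit 4) (nat_lit 5) (nat_lit 5) (nat_lit 5) (nat_lit 4) (nat_lit 386) (nat_lit 266) (nat_lit 248)) (XT.lf (nat_lit 0) (nat_lit 42762576900) (nat_lit 76) (nat_lit 16250247457) (nat_lit 76) (nat_lit 13836057368) (nat_lit 4) (nat_lit 4) (nat_lit 5) (nat_lit 5) (nat_lit 5) (nat_lit 4) (nat_lit 387) (nat_lit 266) (nat_lit 247)))) (XT.nd (nat_lit 78) (nat_lit 0) (nat_lit 0) (XT.lf (nat_lit 0) (nat_lit 51447762295) (nat_lit 76) (nat_lit 13682076490) (nat_lit 76) (nat_lit 11192598135) (nat_lit 4) (nat_lit 4) (nat_lit 5) (nat_lit 5) (nat_lit 5) (nat_lit 4) (nat_lit 388) (nat_lit 266) (nat_lit 246)) (XT.nd (nat_lit 78) (nat_lit 0) (nat_lit 0) (XT.lf (nat_lit 0) (nat_lit 60431319872) (nat_lit 76) (nat_lit 11051518416) (nat_lit 76) (nat_lit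 8490336951) (nat_lit 4) (nat_lit 4) (nat_lit 5) (nat_lit 5) (nat_lit 5) (nat_lit 4) (nat_lit 389) (nat_lit 266) (nat_lit 245)) (XT.lf (nat_lit 0) (nat_lit 69734639055) (nat_lit 76) (nat_lit 8352310002) (nat_lit 76) (nat_lit 5722839860) (nat_lit 4) (nat_lit 4) (nat_lit 5) (nat_lit 5) (nat_lit 5) (nat_lit 4) (nat_lit 390) (nat_lit 266) (nat_lit 244)))))) (XT.nd (nat_lit 390) (nat_lit 0) (nat_lit 0) (XT.nd (nat_lit 156) (nat_lit 76) (nat_lit 0) (XT.nd (nat_lit 78) (nat_lit 76) (nat_lit 0) (XT.lf (nat_lit 0) (nat_lit 79379870604) (nat_lit 76) (nat_lit 5578024561) (nat_lit 76) (nat_lit 2883517584) (nat_lit 4) (nat_lit 4) (nat_lit 5) (nat_lit 5) (nat_lit 5) (nat_lit 4) (nat_lit 391) (nat_lit 266) (nat_lit 243)) (XT.lf (nat_lit 0) (nat_lit 33289468) (nat_lit 152) (nat_lit 2688203409) (nat_lit 76) (nat_lit 89356126113) (nat_lit 3) (nat_lit 5) (nat_lit 5) (nat_lit 5) (nat_lit 4) (nat_lit 4) (nat_lit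 392) (nat_lit 266) (nat_lit 242))) (XT.nd (nat_lit 78) (nat_lit 0) (nat_lit 0) (XT.lf (nat_lit 0) (nat_lit 2997519730) (nat_lit 152) (nat_lit 93209686324) (nat_lit 0) (nat_lit 316151019) (nat_lit 2) (nat_lit 5) (nat_lit 4) (nat_lit 4) (nat_lit 2) (nat_lit 4) (nat_lit 393) (nat_lit 266) (nat_lit 241)) (XT.nd (nat_lit 78) (nat_lit 0) (nat_lit 0) (XT.lf (nat_lit 0) (nat_lit 6142602273) (nat_lit 152) (nat_lit 91639429168) (nat_lit 0) (nat_lit 3407727597) (nat_lit 2) (nat_lit 5) (nat_lit 4) (nat_lit 4) (nat_lit 2) (nat_lit 4) (nat_lit 394) (nat_lit 266) (nat_lit 240)) (XT.lf (nat_lit 0) (nat_lit 9389466349) (nat_lit 152) (nat_lit 90099163358) (nat_lit 0) (nat_lit 6603633611) (nat_lit 2) (nat_lit 5) (nat_lit 4) (nat_lit 4) (nat_lit 2) (nat_lit 4) (nat_lit 395) (nat_lit 266) (nat_lit 239))))) (XT.nd (nat_lit 234) (nat_lit 0) (nat_lit 0) (XT.nd (nat_lit 78) (nat_lit 0) (nat_lit 0) (XT.lf (nat_lit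 0) (nat_lit 12745842587) (nat_lit 152) (nat_lit 88585221594) (nat_lit 0) (nat_lit 9911478361) (nat_lit 2) (nat_lit 5) (nat_lit 4) (nat_lit 4) (nat_lit 2) (nat_lit 4) (nat_lit 396) (nat_lit 266) (nat_lit 238)) (XT.nd (nat_lit 78) (nat_lit 0) (nat_lit 0) (XT.lf (nat_lit 0) (nat_lit 16219722358) (nat_lit 152) (nat_lit 87093999253) (nat_lit 0) (nat_lit 13339137668) (nat_lit 2) (nat_lit 5) (nat_lit 4) (nat_lit 4) (nat_lit 2) (nat_lit 4) (nat_lit 397) (nat_lit 266) (nat_lit 237)) (XT.lf (nat_lit 0) (nat_lit 19819376806) (nat_lit 152) (nat_lit 85621945805) (nat_lit 0) (nat_lit 16894772625) (nat_lit 2) (nat_lit 5) (nat_lit 4) (nat_lit 4) (nat_lit 2) (nat_lit 4) (nat_lit 398) (nat_lit 266) (nat_lit 236)))) (XT.nd (nat_lit 78) (nat_lit 0) (nat_lit 0) (XT.lf (nat_lit 0) (nat_lit 23553376535) (nat_lit 152) (nat_lit 84165556361) (nat_lit 0) (nat_lit 20586849031) (nat_lit 2) (nat_lit 5) (nat_lit 4) (nat_lit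 4) (nat_lit 2) (nat_lit 4) (nat_lit 399) (nat_lit 266) (nat_lit 235)) (XT.nd (nat_lit 78) (nat_lit 0) (nat_lit 0) (XT.lf (nat_lit 0) (nat_lit 27430612022) (nat_lit 152) (nat_lit 82721363327) (nat_lit 0) (nat_lit 24424157543) (nat_lit 2) (nat_lit 5) (nat_lit 4) (nat_lit 4) (nat_lit 2) (nat_lit 4) (nat_lit 400) (nat_lit 266) (nat_lit 234)) (XT.lf (nat_lit 0) (nat_lit 31460314779) (nat_lit 152) (nat_lit 81285928148) (nat_lit 0) (nat_lit 28415834609) (nat_lit 2) (nat_lit 5) (nat_lit 4) (nat_lit 4) (nat_lit 2) (nat_lit 4) (nat_lit 401) (nat_lit 266) (nat_lit 233))))))) (XT.nd (nat_lit 858) (nat_lit 0) (nat_lit 0) (XT.nd (nat_lit 390) (nat_lit 0) (nat_lit 0) (XT.nd (nat_lit 156) (nat_lit 0) (nat_lit 0) (XT.nd (nat_lit 78) (nat_lit 0) (nat_lit 0) (XT.lf (nat_lit 0) (nat_lit 35652079337) (nat_lit 152) (nat_lit 79855833122) (nat_lit 0) (nat_lit 32571384224) (nat_lit 2) (nat_lit 5) (nat_lit 4) (nat_lit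 4) (nat_lit 2) (nat_lit 4) (nat_lit 402) (nat_lit 266) (nat_lit 232)) (XT.lf (nat_lit 0) (nat_lit 40015886088) (nat_lit 152) (nat_lit 78427673261) (nat_lit 0) (nat_lit 36900700553) (nat_lit 2) (nat_lit 5) (nat_lit 4) (nat_lit 4) (nat_lit 2) (nat_lit 4) (nat_lit 403) (nat_lit 266) (nat_lit 231))) (XT.nd (nat_lit 78) (nat_lit 0) (nat_lit 0) (XT.lf (nat_lit 0) (nat_lit 44562125048) (nat_lit 152) (nat_lit 76998048183) (nat_lit 0) (nat_lit 41414091491) (nat_lit 2) (nat_lit 5) (nat_lit 4) (nat_lit 4) (nat_lit 2) (nat_lit 4) (nat_lit 404) (nat_lit 266) (nat_lit 230)) (XT.nd (nat_lit 78) (nat_lit 0) (nat_lit 0) (XT.lf (nat_lit 0) (nat_lit 49301620595) (nat_lit 152) (nat_lit 75563554020) (nat_lit 0) (nat_lit 46122303209) (nat_lit 2) (nat_lit 5) (nat_lit 4) (nat_lit 4) (nat_lit 2) (nat_lit 4) (nat_lit 405) (nat_lit 266) (nat_lit 229)) (XT.lf (nat_lit 0) (nat_lit 54245657242) (nat_lit 152) (nat_lit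 74120775308) (nat_lit 0) (nat_lit 51036545732) (nat_lit 2) (nat_lit 5) (nat_lit 4) (nat_lit 4) (nat_lit 2) (nat_lit 4) (nat_lit 406) (nat_lit 266) (nat_lit 228))))) (XT.nd (nat_lit 234) (nat_lit 0) (nat_lit 0) (XT.nd (nat_lit 78) (nat_lit 0) (nat_lit 0) (XT.lf (nat_lit 0) (nat_lit 59406006506) (nat_lit 152) (nat_lit 72666276862) (nat_lit 0) (nat_lit 56168519640) (nat_lit 2) (nat_lit 5) (nat_lit 4) (nat_lit 4) (nat_lit 2) (nat_lit 4) (nat_lit 407) (nat_lit 266) (nat_lit 227)) (XT.nd (nat_lit 78) (nat_lit 0) (nat_lit 0) (XT.lf (nat_lit 0) (nat_lit 64794954931) (nat_lit 152) (nat_lit 71196595589) (nat_lit 0) (nat_lit 61530443918) (nat_lit 2) (nat_lit 5) (nat_lit 4) (nat_lit 4) (nat_lit 2) (nat_lit 4) (nat_lit 408) (nat_lit 266) (nat_lit 226)) (XT.lf (nat_lit 0) (nat_lit 70425333349) (nat_lit 152) (nat_lit 69708232248) (nat_lit 0) (nat_lit 67135085051) (nat_lit 2) (nat_lit 5) (nat_lit 4) (nat_lit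 4) (nat_lit 2) (nat_lit 4) (nat_lit 409) (nat_lit 266) (nat_lit 225)))) (XT.nd (nat_lit 78) (nat_lit 0) (nat_lit 0) (XT.lf (nat_lit 0) (nat_lit 76310547421) (nat_lit 152) (nat_lit 68197643117) (nat_lit 0) (nat_lit 72995787424) (nat_lit 2) (nat_lit 5) (nat_lit 4) (nat_lit 4) (nat_lit 2) (nat_lit 4) (nat_lit 410) (nat_lit 266) (nat_lit 224)) (XT.nd (nat_lit 78) (nat_lit 0) (nat_lit 0) (XT.lf (nat_lit 0) (nat_lit 82464609562) (nat_lit 152) (nat_lit 66661231555) (nat_lit 0) (nat_lit 79126505089) (nat_lit 2) (nat_lit 5) (nat_lit 4) (nat_lit 4) (nat_lit 2) (nat_lit 4) (nat_lit 411) (nat_lit 266) (nat_lit 223)) (XT.lf (nat_lit 0) (nat_lit 88902172301) (nat_lit 152) (nat_lit 65095339440) (nat_lit 0) (nat_lit 85541834995) (nat_lit 2) (nat_lit 5) (nat_lit 4) (nat_lit 4) (nat_lit 2) (nat_lit 4) (nat_lit 412) (nat_lit 266) (nat_lit 222)))))) (XT.nd (nat_lit 468) (nat_lit 0) (nat_lit 0) (XT.nd (nat_lit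 234) (nat_lit 0) (nat_lit 0) (XT.nd (nat_lit 78) (nat_lit 0) (nat_lit 0) (XT.lf (nat_lit 0) (nat_lit 95638563168) (nat_lit 152) (nat_lit 63496238456) (nat_lit 0) (nat_lit 92257051735) (nat_lit 2) (nat_lit 5) (nat_lit 4) (nat_lit 4) (nat_lit 2) (nat_lit 4) (nat_lit 413) (nat_lit 266) (nat_lit 221)) (XT.nd (nat_lit 78) (nat_lit 0) (nat_lit 0) (XT.lf (nat_lit 0) (nat_lit 102689821190) (nat_lit 152) (nat_lit 61860121221) (nat_lit 0) (nat_lit 99288143921) (nat_lit 2) (nat_lit 5) (nat_lit 4) (nat_lit 4) (nat_lit 2) (nat_lit 4) (nat_lit 414) (nat_lit 266) (nat_lit 220)) (XT.lf (nat_lit 0) (nat_lit 110072735075) (nat_lit 152) (nat_lit 60183092217) (nat_lit 0) (nat_lit 106651852249) (nat_lit 2) (nat_lit 5) (nat_lit 4) (nat_lit 4) (nat_lit 2) (nat_lit 4) (nat_lit 415) (nat_lit 266) (nat_lit 219)))) (XT.nd (nat_lit 78) (nat_lit 0) (nat_lit 0) (XT.lf (nat_lit 0) (nat_lit 117804883191) (nat_lit 152)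 (nat_lit 58461158518) (nat_lit 0) (nat_lit 114365709357) (nat_lit 2) (nat_lit 5) (nat_lit 4) (nat_lit 4) (nat_lit 2) (nat_lit 4) (nat_lit 416) (nat_lit 266) (nat_lit 218)) (XT.nd (nat_lit 78) (nat_lit 0) (nat_lit 0) (XT.lf (nat_lit 0) (nat_lit 125904675413) (nat_lit 152) (nat_lit 56690220282) (nat_lit 0) (nat_lit 122448081572) (nat_lit 2) (nat_lit 5) (nat_lit 4) (nat_lit 4) (nat_lit 2) (nat_lit 4) (nat_lit 417) (nat_lit 266) (nat_lit 217)) (XT.lf (nat_lit 0) (nat_lit 134391396961) (nat_lit 152) (nat_lit 54866060990) (nat_lit 0) (nat_lit 130918212638) (nat_lit 2) (nat_lit 5) (nat_lit 4) (nat_lit 4) (nat_lit 2) (nat_lit 4) (nat_lit 418) (nat_lit 266) (nat_lit 216))))) (XT.nd (nat_lit 234) (nat_lit 0) (nat_lit 0) (XT.nd (nat_lit 78) (nat_lit 0) (nat_lit 0) (XT.lf (nat_lit 0) (nat_lit 143285254315) (nat_lit 152) (nat_lit 52984337404) (nat_lit 0) (nat_lit 139796269532) (nat_lit 2) (nat_lit 5)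 (nat_lit 4) (nat_lit 4) (nat_lit 2) (nat_lit 4) (nat_lit 419) (nat_lit 266) (nat_lit 215)) (XT.nd (nat_lit 78) (nat_lit 0) (nat_lit 0) (XT.lf (nat_lit 0) (nat_lit 152607423327) (nat_lit 152) (nat_lit 51040569231) (nat_lit 0) (nat_lit 149103390486) (nat_lit 2) (nat_lit 5) (nat_lit 4) (nat_lit 4) (nat_lit 2) (nat_lit 4) (nat_lit 420) (nat_lit 266) (nat_lit 214)) (XT.lf (nat_lit 0) (nat_lit 162380099635) (nat_lit 152) (nat_lit 49030128451) (nat_lit 0) (nat_lit 158861735312) (nat_lit 2) (nat_lit 5) (nat_lit 4) (nat_lit 4) (nat_lit 2) (nat_lit 4) (nat_lit 421) (nat_lit 266) (nat_lit 213)))) (XT.nd (nat_lit 78) (nat_lit 0) (nat_lit 0) (XT.lf (nat_lit 0) (nat_lit 172626551518) (nat_lit 152) (nat_lit 46948228301) (nat_lit 0) (nat_lit 169094538164) (nat_lit 2) (nat_lit 5) (nat_lit 4) (nat_lit 4) (nat_lit 2) (nat_lit 4) (nat_lit 422) (nat_lit 266) (nat_lit 212)) (XT.nd (nat_lit 78) (nat_lit 0) (nat_lit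 0) (XT.lf (nat_lit 0) (nat_lit 183371175290) (nat_lit 152) (nat_lit 44789911875) (nat_lit 0) (nat_lit 179826162858) (nat_lit 2) (nat_lit 5) (nat_lit 4) (nat_lit 4) (nat_lit 2) (nat_lit 4) (nat_lit 423) (nat_lit 266) (nat_lit 211)) (XT.lf (nat_lit 0) (nat_lit 194639553387) (nat_lit 152) (nat_lit 42550040325) (nat_lit 0) (nat_lit 191082160882) (nat_lit 2) (nat_lit 5) (nat_lit 4) (nat_lit 4) (nat_lit 2) (nat_lit 4) (nat_lit 424) (nat_lit 266) (nat_lit 210))))))))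
noncomputable def xc26 : XT := (XT.nd (nat_lit 43212) (nat_lit 0) (nat_lit 0) (XT.nd (nat_lit 42354) (nat_lit 0) (nat_lit 228) (XT.nd (nat_lit 390) (nat_lit 0) (nat_lit 0) (XT.nd (nat_lit 156) (nat_lit 0) (nat_lit 0) (XT.nd (nat_lit 78) (nat_lit 0) (nat_lit 0) (XT.lf (nat_lit 0) (nat_lit 206458515282) (nat_lit 152) (nat_lit 40223280622) (nat_lit 0) (nat_lit 202889332230) (nat_lit 2) (nat_lit 5) (nat_lit 4) (nat_lit 4) (nat_lit 2) (nat_lit 4) (nat_lit 425) (nat_lit 266) (nat_lit 209)) (XT.lf (nat_lit 0) (nat_lit 218856201360) (nat_lit 152) (nat_lit 37804092864) (nat_lit 0) (nat_lit 215275789216) (nat_lit 2) (nat_lit 5) (nat_lit 4) (nat_lit 4) (nat_lit 2) (nat_lit 4) (nat_lit 426) (nat_lit 266) (nat_lit 208))) (XT.nd (nat_lit 78) (nat_lit 0) (nat_lit 0) (XT.lf (nat_lit 0) (nat_lit 231862129921) (nat_lit 152) (nat_lit 35286717080) (nat_lit 0) (nat_lit 228271023404) (nat_lit 2) (nat_lit 5)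 (nat_lit 4) (nat_lit 4) (nat_lit 2) (nat_lit 4) (nat_lit 427) (nat_lit 266) (nat_lit 207)) (XT.nd (nat_lit 78) (nat_lit 0) (nat_lit 0) (XT.lf (nat_lit 0) (nat_lit 245507267462) (nat_lit 152) (nat_lit 32665159516) (nat_lit 0) (nat_lit 241905975828) (nat_lit 2) (nat_lit 5) (nat_lit 4) (nat_lit 4) (nat_lit 2) (nat_lit 4) (nat_lit 428) (nat_lit 266) (nat_lit 206)) (XT.lf (nat_lit 0) (nat_lit 259824102405) (nat_lit 152) (nat_lit 29933178371) (nat_lit 0) (nat_lit 256213110660) (nat_lit 2) (nat_lit 5) (nat_lit 4) (nat_lit 4) (nat_lit 2) (nat_lit 4) (nat_lit 429) (nat_lit 266) (nat_lit 205))))) (XT.nd (nat_lit 234) (nat_lit 0) (nat_lit 0) (XT.nd (nat_lit 78) (nat_lit 0) (nat_lit 0) (XT.lf (nat_lit 0) (nat_lit 274846722454) (nat_lit 152) (nat_lit 27084268926) (nat_lit 0) (nat_lit 271226492506) (nat_lit 2) (nat_lit 5) (nat_lit 4) (nat_lit 4) (nat_lit 2) (nat_lit 4) (nat_lit 430) (nat_lit 266) (nat_lit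 204)) (XT.nd (nat_lit 78) (nat_lit 0) (nat_lit 0) (XT.lf (nat_lit 0) (nat_lit 290610895750) (nat_lit 152) (nat_lit 24111648064) (nat_lit 0) (nat_lit 286981867515) (nat_lit 2) (nat_lit 5) (nat_lit 4) (nat_lit 4) (nat_lit 2) (nat_lit 4) (nat_lit 431) (nat_lit 266) (nat_lit 203)) (XT.lf (nat_lit 0) (nat_lit 307154156039) (nat_lit 152) (nat_lit 21008238116) (nat_lit 0) (nat_lit 303516748483) (nat_lit 2) (nat_lit 5) (nat_lit 4) (nat_lit 4) (nat_lit 2) (nat_lit 4) (nat_lit 432) (nat_lit 266) (nat_lit 202)))) (XT.nd (nat_lit 78) (nat_lit 0) (nat_lit 0) (XT.lf (nat_lit 0) (nat_lit 324515892037) (nat_lit 152) (nat_lit 17766650011) (nat_lit 0) (nat_lit 320870504176) (nat_lit 2) (nat_lit 5) (nat_lit 4) (nat_lit 4) (nat_lit 2) (nat_lit 4) (nat_lit 433) (nat_lit 266) (nat_lit 201)) (XT.nd (nat_lit 41574) (nat_lit 0) (nat_lit 608) (XT.lf (nat_lit 0) (nat_lit 342737441211) (nat_lit 152) (nat_lit 14379165682)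 (nat_lit 0) (nat_lit 339084453058) (nat_lit 2) (nat_lit 5) (nat_lit 4) (nat_lit 4) (nat_lit 2) (nat_lit 4) (nat_lit 434) (nat_lit 266) (nat_lit 200)) (XT.lf (nat_lit 0) (nat_lit 9577532501) (nat_lit 76) (nat_lit 2450585988) (nat_lit 76) (nat_lit 2450585988) (nat_lit 10) (nat_lit 4) (nat_lit 11) (nat_lit 5) (nat_lit 11) (nat_lit 4) (nat_lit 366) (nat_lit 267) (nat_lit 267)))))) (XT.nd (nat_lit 390) (nat_lit 152) (nat_lit 0) (XT.nd (nat_lit 156) (nat_lit 76) (nat_lit 0) (XT.nd (nat_lit 78) (nat_lit 152) (nat_lit 0) (XT.lf (nat_lit 0) (nat_lit 29469907092) (nat_lit 76) (nat_lit 454820657) (nat_lit 76) (nat_lit 234582850) (nat_lit 10) (nat_lit 4) (nat_lit 11) (nat_lit 5) (nat_lit 11) (nat_lit 4) (nat_lit 367) (nat_lit 267) (nat_lit 266)) (XT.lf (nat_lit 0) (nat_lit 4563449507) (nat_lit 152) (nat_lit 22697940819) (nat_lit 0) (nat_lit 4153937029) (nat_lit 8) (nat_lit 5) (nat_lit 10) (nat_lit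 4) (nat_lit 8) (nat_lit 4) (nat_lit 368) (nat_lit 267) (nat_lit 265))) (XT.nd (nat_lit 78) (nat_lit 76) (nat_lit 0) (XT.lf (nat_lit 0) (nat_lit 9456711655) (nat_lit 152) (nat_lit 14427163006) (nat_lit 0) (nat_lit 8856949479) (nat_lit 8) (nat_lit 5) (nat_lit 10) (nat_lit 4) (nat_lit 8) (nat_lit 4) (nat_lit 369) (nat_lit 267) (nat_lit 264)) (XT.nd (nat_lit 78) (nat_lit 76) (nat_lit 0) (XT.lf (nat_lit 0) (nat_lit 14445959614) (nat_lit 152) (nat_lit 6029093298) (nat_lit 0) (nat_lit 13665007249) (nat_lit 8) (nat_lit 5) (nat_lit 10) (nat_lit 4) (nat_lit 8) (nat_lit 4) (nat_lit 370) (nat_lit 267) (nat_lit 263)) (XT.lf (nat_lit 0) (nat_lit 2599462749) (nat_lit 76) (nat_lit 16984194693) (nat_lit 76) (nat_lit 16030680243) (nat_lit 7) (nat_lit 4) (nat_lit 8) (nat_lit 5) (nat_lit 8) (nat_lit 4) (nat_lit 371) (nat_lit 267) (nat_lit 262))))) (XT.nd (nat_lit 234) (nat_lit 152) (nat_lit 0) (XT.nd (nat_lit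 78) (nat_lit 0) (nat_lit 0) (XT.lf (nat_lit 0) (nat_lit 11600543954) (nat_lit 76) (nat_lit 13340759478) (nat_lit 76) (nat_lit 12222900184) (nat_lit 7) (nat_lit 4) (nat_lit 8) (nat_lit 5) (nat_lit 8) (nat_lit 4) (nat_lit 372) (nat_lit 267) (nat_lit 261)) (XT.nd (nat_lit 78) (nat_lit 0) (nat_lit 0) (XT.lf (nat_lit 0) (nat_lit 20796232407) (nat_lit 76) (nat_lit 9638178033) (nat_lit 76) (nat_lit 8363799841) (nat_lit 7) (nat_lit 4) (nat_lit 8) (nat_lit 5) (nat_lit 8) (nat_lit 4) (nat_lit 373) (nat_lit 267) (nat_lit 260)) (XT.lf (nat_lit 0) (nat_lit 30208422605) (nat_lit 76) (nat_lit 5867634688) (nat_lit 76) (nat_lit 4444190878) (nat_lit 7) (nat_lit 4) (nat_lit 8) (nat_lit 5) (nat_lit 8) (nat_lit 4) (nat_lit 374) (nat_lit 267) (nat_lit 259)))) (XT.nd (nat_lit 78) (nat_lit 152) (nat_lit 0) (XT.lf (nat_lit 0) (nat_lit 39859524526) (nat_lit 76) (nat_lit 2020151959) (nat_lit 76) (nat_lit 454740895)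 (nat_lit 7) (nat_lit 4) (nat_lit 8) (nat_lit 5) (nat_lit 8) (nat_lit 4) (nat_lit 375) (nat_lit 267) (nat_lit 258)) (XT.nd (nat_lit 78) (nat_lit 0) (nat_lit 0) (XT.lf (nat_lit 0) (nat_lit 3618865106) (nat_lit 152) (nat_lit 38618097615) (nat_lit 0) (nat_lit 1999228941) (nat_lit 5) (nat_lit 5) (nat_lit 7) (nat_lit 4) (nat_lit 5) (nat_lit 4) (nat_lit 376) (nat_lit 267) (nat_lit 257)) (XT.lf (nat_lit 0) (nat_lit 7840721646) (nat_lit 152) (nat_lit 32295539483) (nat_lit 0) (nat_lit 6098448829) (nat_lit 5) (nat_lit 5) (nat_lit 7) (nat_lit 4) (nat_lit 5) (nat_lit 4) (nat_lit 377) (nat_lit 267) (nat_lit 256))))))) (XT.nd (nat_lit 858) (nat_lit 152) (nat_lit 0) (XT.nd (nat_lit 390) (nat_lit 0) (nat_lit 0) (XT.nd (nat_lit 156) (nat_lit 76) (nat_lit 0) (XT.nd (nat_lit 78) (nat_lit 0) (nat_lit 0) (XT.lf (nat_lit 0) (nat_lit 12163323066) (nat_lit 152) (nat_lit 25871114744) (nat_lit 0) (nat_lit 10304253437)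 (nat_lit 5) (nat_lit 5) (nat_lit 7) (nat_lit 4) (nat_lit 5) (nat_lit 4) (nat_lit 378) (nat_lit 267) (nat_lit 255)) (XT.lf (nat_lit 0) (nat_lit 16596961273) (nat_lit 152) (nat_lit 19329527149) (nat_lit 0) (nat_lit 14626656586) (nat_lit 5) (nat_lit 5) (nat_lit 7) (nat_lit 4) (nat_lit 5) (nat_lit 4) (nat_lit 379) (nat_lit 267) (nat_lit 254))) (XT.nd (nat_lit 78) (nat_lit 76) (nat_lit 0) (XT.lf (nat_lit 0) (nat_lit 21152192550) (nat_lit 152) (nat_lit 12655201489) (nat_lit 0) (nat_lit 19075949711) (nat_lit 5) (nat_lit 5) (nat_lit 7) (nat_lit 4) (nat_lit 5) (nat_lit 4) (nat_lit 380) (nat_lit 267) (nat_lit 253)) (XT.nd (nat_lit 78) (nat_lit 76) (nat_lit 0) (XT.lf (nat_lit 0) (nat_lit 25839862684) (nat_lit 152) (nat_lit 5832246513) (nat_lit 0) (nat_lit 23662726368) (nat_lit 5) (nat_lit 5) (nat_lit 7) (nat_lit 4) (nat_lit 5) (nat_lit 4) (nat_lit 381) (nat_lit 267) (nat_lit 252)) (XT.lf (nat_lit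 0) (nat_lit 1193791699) (nat_lit 76) (nat_lit 29495979531) (nat_lit 76) (nat_lit 27222754189) (nat_lit 4) (nat_lit 4) (nat_lit 5) (nat_lit 5) (nat_lit 5) (nat_lit 4) (nat_lit 382) (nat_lit 267) (nat_lit 251))))) (XT.nd (nat_lit 234) (nat_lit 0) (nat_lit 0) (XT.nd (nat_lit 78) (nat_lit 0) (nat_lit 0) (XT.lf (nat_lit 0) (nat_lit 8600184068) (nat_lit 76) (nat_lit 27191594816) (nat_lit 76) (nat_lit 24826856116) (nat_lit 4) (nat_lit 4) (nat_lit 5) (nat_lit 5) (nat_lit 5) (nat_lit 4) (nat_lit 383) (nat_lit 267) (nat_lit 250)) (XT.nd (nat_lit 78) (nat_lit 0) (nat_lit 0) (XT.lf (nat_lit 0) (nat_lit 16211724452) (nat_lit 76) (nat_lit 24852240340) (nat_lit 76) (nat_lit 22400346060) (nat_lit 4) (nat_lit 4) (nat_lit 5) (nat_lit 5) (nat_lit 5) (nat_lit 4) (nat_lit 384) (nat_lit 267) (nat_lit 249)) (XT.lf (nat_lit 0) (nat_lit 24046535565) (nat_lit 76) (nat_lit 22472346211) (nat_lit 76) (nat_lit 19937446618)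 (nat_lit 4) (nat_lit 4) (nat_lit 5) (nat_lit 5) (nat_lit 5) (nat_lit 4) (nat_lit 385) (nat_lit 267) (nat_lit 248)))) (XT.nd (nat_lit 78) (nat_lit 0) (nat_lit 0) (XT.lf (nat_lit 0) (nat_lit 32123271721) (nat_lit 76) (nat_lit 20046246015) (nat_lit 76) (nat_lit 17432293743) (nat_lit 4) (nat_lit 4) (nat_lit 5) (nat_lit 5) (nat_lit 5) (nat_lit 4) (nat_lit 386) (nat_lit 267) (nat_lit 247)) (XT.nd (nat_lit 78) (nat_lit 0) (nat_lit 0) (XT.lf (nat_lit 0) (nat_lit 40461163243) (nat_lit 76) (nat_lit 17568163323) (nat_lit 76) (nat_lit 14878922784) (nat_lit 4) (nat_lit 4) (nat_lit 5) (nat_lit 5) (nat_lit 5) (nat_lit 4) (nat_lit 387) (nat_lit 267) (nat_lit 246)) (XT.lf (nat_lit 0) (nat_lit 49080062254) (nat_lit 76) (nat_lit 15032197937) (nat_lit 76) (nat_lit 12271254288) (nat_lit 4) (nat_lit 4) (nat_lit 5) (nat_lit 5) (nat_lit 5) (nat_lit 4) (nat_lit 388) (nat_lit 267) (nat_lit 245)))))) (XT.nd (nat_lit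 468) (nat_lit 0) (nat_lit 0) (XT.nd (nat_lit 234) (nat_lit 152) (nat_lit 0) (XT.nd (nat_lit 78) (nat_lit 0) (nat_lit 0) (XT.lf (nat_lit 0) (nat_lit 58000489942) (nat_lit 76) (nat_lit 12432311846) (nat_lit 76) (nat_lit 9603079520) (nat_lit 4) (nat_lit 4) (nat_lit 5) (nat_lit 5) (nat_lit 5) (nat_lit 4) (nat_lit 389) (nat_lit 267) (nat_lit 244)) (XT.nd (nat_lit 78) (nat_lit 0) (nat_lit 0) (XT.lf (nat_lit 0) (nat_lit 67243685421) (nat_lit 76) (nat_lit 9762314843) (nat_lit 76) (nat_lit 6868045682) (nat_lit 4) (nat_lit 4) (nat_lit 5) (nat_lit 5) (nat_lit 5) (nat_lit 4) (nat_lit 390) (nat_lit 267) (nat_lit 243)) (XT.lf (nat_lit 0) (nat_lit 76831656299) (nat_lit 76) (nat_lit 7015849794) (nat_lit 76) (nat_lit 4059640789) (nat_lit 4) (nat_lit 4) (nat_lit 5) (nat_lit 5) (nat_lit 5) (nat_lit 4) (nat_lit 391) (nat_lit 267) (nat_lit 242)))) (XT.nd (nat_lit 78) (nat_lit 152) (nat_lit 0) (XT.lf (nat_lit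 0) (nat_lit 86787231077) (nat_lit 76) (nat_lit 4186377495) (nat_lit 76) (nat_lit 1171178164) (nat_lit 4) (nat_lit 4) (nat_lit 5) (nat_lit 5) (nat_lit 5) (nat_lit 4) (nat_lit 392) (nat_lit 267) (nat_lit 241)) (XT.nd (nat_lit 78) (nat_lit 0) (nat_lit 0) (XT.lf (nat_lit 0) (nat_lit 525715637) (nat_lit 76) (nat_lit 1228965450) (nat_lit 152) (nat_lit 94840555200) (nat_lit 2) (nat_lit 5) (nat_lit 3) (nat_lit 5) (nat_lit 4) (nat_lit 4) (nat_lit 393) (nat_lit 267) (nat_lit 240)) (XT.lf (nat_lit 0) (nat_lit 4853516234) (nat_lit 152) (nat_lit 94533004780) (nat_lit 0) (nat_lit 1877433797) (nat_lit 2) (nat_lit 5) (nat_lit 4) (nat_lit 4) (nat_lit 2) (nat_lit 4) (nat_lit 394) (nat_lit 267) (nat_lit 239))))) (XT.nd (nat_lit 234) (nat_lit 0) (nat_lit 0) (XT.nd (nat_lit 78) (nat_lit 0) (nat_lit 0) (XT.lf (nat_lit 0) (nat_lit 8074609070) (nat_lit 152) (nat_lit 93043147427) (nat_lit 0) (nat_lit 5049995145)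 (nat_lit 2) (nat_lit 5) (nat_lit 4) (nat_lit 4) (nat_lit 2) (nat_lit 4) (nat_lit 395) (nat_lit 267) (nat_lit 238)) (XT.nd (nat_lit 78) (nat_lit 0) (nat_lit 0) (XT.lf (nat_lit 0) (nat_lit 11406441270) (nat_lit 152) (nat_lit 91577213717) (nat_lit 0) (nat_lit 8335606880) (nat_lit 2) (nat_lit 5) (nat_lit 4) (nat_lit 4) (nat_lit 2) (nat_lit 4) (nat_lit 396) (nat_lit 267) (nat_lit 237)) (XT.lf (nat_lit 0) (nat_lit 14856945767) (nat_lit 152) (nat_lit 90131713332) (nat_lit 0) (nat_lit 11742091887) (nat_lit 2) (nat_lit 5) (nat_lit 4) (nat_lit 4) (nat_lit 2) (nat_lit 4) (nat_lit 397) (nat_lit 267) (nat_lit 236)))) (XT.nd (nat_lit 78) (nat_lit 0) (nat_lit 0) (XT.lf (nat_lit 0) (nat_lit 18434338048) (nat_lit 152) (nat_lit 88703204604) (nat_lit 0) (nat_lit 15277560845) (nat_lit 2) (nat_lit 5) (nat_lit 4) (nat_lit 4) (nat_lit 2) (nat_lit 4) (nat_lit 398) (nat_lit 267) (nat_lit 235)) (XT.nd (nat_lit 78)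 (nat_lit 0) (nat_lit 0) (XT.lf (nat_lit 0) (nat_lit 22147135714) (nat_lit 152) (nat_lit 87288286322) (nat_lit 0) (nat_lit 18950431536) (nat_lit 2) (nat_lit 5) (nat_lit 4) (nat_lit 4) (nat_lit 2) (nat_lit 4) (nat_lit 399) (nat_lit 267) (nat_lit 234)) (XT.lf (nat_lit 0) (nat_lit 26004178760) (nat_lit 152) (nat_lit 85883589633) (nat_lit 0) (nat_lit 22769448892) (nat_lit 2) (nat_lit 5) (nat_lit 4) (nat_lit 4) (nat_lit 2) (nat_lit 4) (nat_lit 400) (nat_lit 267) (nat_lit 233))))))))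
noncomputable def xc27 : XT := (XT.nd (nat_lit 1716) (nat_lit 0) (nat_lit 0) (XT.nd (nat_lit 858) (nat_lit 0) (nat_lit 0) (XT.nd (nat_lit 390) (nat_lit 0) (nat_lit 0) (XT.nd (nat_lit 156) (nat_lit 0) (nat_lit 0) (XT.nd (nat_lit 78) (nat_lit 0) (nat_lit 0) (XT.lf (nat_lit 0) (nat_lit 30014650621) (nat_lit 152) (nat_lit 84485770021) (nat_lit 0) (nat_lit 26743705809) (nat_lit 2) (nat_lit 5) (nat_lit 4) (nat_lit 4) (nat_lit 2) (nat_lit 4) (nat_lit 401) (nat_lit 267) (nat_lit 232)) (XT.lf (nat_lit 0) (nat_lit 34188100041) (nat_lit 152) (nat_lit 83091499345) (nat_lit 0) (nat_lit 30882664806) (nat_lit 2) (nat_lit 5) (nat_lit 4) (nat_lit 4) (nat_lit 2) (nat_lit 4) (nat_lit 402) (nat_lit 267) (nat_lit 231))) (XT.nd (nat_lit 78) (nat_lit 0) (nat_lit 0) (XT.lf (nat_lit 0) (nat_lit 38534463802) (nat_lit 152) (nat_lit 81697457911) (nat_lit 0) (nat_lit 35196180546) (nat_lit 2) (nat_lit 5) (nat_lit 4)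 (nat_lit 4) (nat_lit 2) (nat_lit 4) (nat_lit 403) (nat_lit 267) (nat_lit 230)) (XT.nd (nat_lit 78) (nat_lit 0) (nat_lit 0) (XT.lf (nat_lit 0) (nat_lit 43064090390) (nat_lit 152) (nat_lit 80300326573) (nat_lit 0) (nat_lit 39694523305) (nat_lit 2) (nat_lit 5) (nat_lit 4) (nat_lit 4) (nat_lit 2) (nat_lit 4) (nat_lit 404) (nat_lit 267) (nat_lit 229)) (XT.lf (nat_lit 0) (nat_lit 47787764631) (nat_lit 152) (nat_lit 78896778830) (nat_lit 0) (nat_lit 44388403423) (nat_lit 2) (nat_lit 5) (nat_lit 4) (nat_lit 4) (nat_lit 2) (nat_lit 4) (nat_lit 405) (nat_lit 267) (nat_lit 228))))) (XT.nd (nat_lit 234) (nat_lit 0) (nat_lit 0) (XT.nd (nat_lit 78) (nat_lit 0) (nat_lit 0) (XT.lf (nat_lit 0) (nat_lit 52716733368) (nat_lit 152) (nat_lit 77483472899) (nat_lit 0) (nat_lit 49288996804) (nat_lit 2) (nat_lit 5) (nat_lit 4) (nat_lit 4) (nat_lit 2) (nat_lit 4) (nat_lit 406) (nat_lit 267) (nat_lit 227)) (XT.nd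 (nat_lit 78) (nat_lit 0) (nat_lit 0) (XT.lf (nat_lit 0) (nat_lit 57862732241) (nat_lit 152) (nat_lit 76057043768) (nat_lit 0) (nat_lit 54407971529) (nat_lit 2) (nat_lit 5) (nat_lit 4) (nat_lit 4) (nat_lit 2) (nat_lit 4) (nat_lit 407) (nat_lit 267) (nat_lit 226)) (XT.lf (nat_lit 0) (nat_lit 63238013628) (nat_lit 152) (nat_lit 74614095176) (nat_lit 0) (nat_lit 59757515631) (nat_lit 2) (nat_lit 5) (nat_lit 4) (nat_lit 4) (nat_lit 2) (nat_lit 4) (nat_lit 408) (nat_lit 267) (nat_lit 225)))) (XT.nd (nat_lit 78) (nat_lit 0) (nat_lit 0) (XT.lf (nat_lit 0) (nat_lit 68855375818) (nat_lit 152) (nat_lit 73151191531) (nat_lit 0) (nat_lit 65350366122) (nat_lit 2) (nat_lit 5) (nat_lit 4) (nat_lit 4) (nat_lit 2) (nat_lit 4) (nat_lit 409) (nat_lit 267) (nat_lit 224)) (XT.nd (nat_lit 78) (nat_lit 0) (nat_lit 0) (XT.lf (nat_lit 0) (nat_lit 74728193483) (nat_lit 152) (nat_lit 71664849730) (nat_lit 0) (nat_lit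 71199839312) (nat_lit 2) (nat_lit 5) (nat_lit 4) (nat_lit 4) (nat_lit 2) (nat_lit 4) (nat_lit 410) (nat_lit 267) (nat_lit 223)) (XT.lf (nat_lit 0) (nat_lit 80870449522) (nat_lit 152) (nat_lit 70151530863) (nat_lit 0) (nat_lit 77319862517) (nat_lit 2) (nat_lit 5) (nat_lit 4) (nat_lit 4) (nat_lit 2) (nat_lit 4) (nat_lit 411) (nat_lit 267) (nat_lit 222)))))) (XT.nd (nat_lit 390) (nat_lit 0) (nat_lit 0) (XT.nd (nat_lit 156) (nat_lit 0) (nat_lit 0) (XT.nd (nat_lit 78) (nat_lit 0) (nat_lit 0) (XT.lf (nat_lit 0) (nat_lit 87296768354) (nat_lit 152) (nat_lit 68607631790) (nat_lit 0) (nat_lit 83725007222) (nat_lit 2) (nat_lit 5) (nat_lit 4) (nat_lit 4) (nat_lit 2) (nat_lit 4) (nat_lit 412) (nat_lit 267) (nat_lit 221)) (XT.lf (nat_lit 0) (nat_lit 94022450739) (nat_lit 152) (nat_lit 67029476561) (nat_lit 0) (nat_lit 90430523772) (nat_lit 2) (nat_lit 5) (nat_lit 4) (nat_lit 4) (nat_lit 2) (nat_lit 4)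 (nat_lit 413) (nat_lit 267) (nat_lit 220))) (XT.nd (nat_lit 78) (nat_lit 0) (nat_lit 0) (XT.lf (nat_lit 0) (nat_lit 101063510206) (nat_lit 152) (nat_lit 65413307664) (nat_lit 0) (nat_lit 97452377681) (nat_lit 2) (nat_lit 5) (nat_lit 4) (nat_lit 4) (nat_lit 2) (nat_lit 4) (nat_lit 414) (nat_lit 267) (nat_lit 219)) (XT.nd (nat_lit 78) (nat_lit 0) (nat_lit 0) (XT.lf (nat_lit 0) (nat_lit 108436711182) (nat_lit 152) (nat_lit 63755277077) (nat_lit 0) (nat_lit 104807287649) (nat_lit 2) (nat_lit 5) (nat_lit 4) (nat_lit 4) (nat_lit 2) (nat_lit 4) (nat_lit 415) (nat_lit 267) (nat_lit 218)) (XT.lf (nat_lit 0) (nat_lit 116159608908) (nat_lit 152) (nat_lit 62051437109) (nat_lit 0) (nat_lit 112512765368) (nat_lit 2) (nat_lit 5) (nat_lit 4) (nat_lit 4) (nat_lit 2) (nat_lit 4) (nat_lit 416) (nat_lit 267) (nat_lit 217))))) (XT.nd (nat_lit 234) (nat_lit 0) (nat_lit 0) (XT.nd (nat_lit 78) (nat_lit 0) (nat_lit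 0) (XT.lf (nat_lit 0) (nat_lit 124250591235) (nat_lit 152) (nat_lit 60297730998) (nat_lit 0) (nat_lit 120587157212) (nat_lit 2) (nat_lit 5) (nat_lit 4) (nat_lit 4) (nat_lit 2) (nat_lit 4) (nat_lit 417) (nat_lit 267) (nat_lit 216)) (XT.nd (nat_lit 78) (nat_lit 0) (nat_lit 0) (XT.lf (nat_lit 0) (nat_lit 132728922407) (nat_lit 152) (nat_lit 58489983252) (nat_lit 0) (nat_lit 129049687925) (nat_lit 2) (nat_lit 5) (nat_lit 4) (nat_lit 4) (nat_lit 2) (nat_lit 4) (nat_lit 418) (nat_lit 267) (nat_lit 215)) (XT.lf (nat_lit 0) (nat_lit 141614788927) (nat_lit 152) (nat_lit 56623889711) (nat_lit 0) (nat_lit 137920506387) (nat_lit 2) (nat_lit 5) (nat_lit 4) (nat_lit 4) (nat_lit 2) (nat_lit 4) (nat_lit 419) (nat_lit 267) (nat_lit 214)))) (XT.nd (nat_lit 78) (nat_lit 0) (nat_lit 0) (XT.lf (nat_lit 0) (nat_lit 150929347619) (nat_lit 152) (nat_lit 54695007295) (nat_lit 0) (nat_lit 147220733597) (nat_lit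 2) (nat_lit 5) (nat_lit 4) (nat_lit 4) (nat_lit 2) (nat_lit 4) (nat_lit 420) (nat_lit 267) (nat_lit 213)) (XT.nd (nat_lit 78) (nat_lit 0) (nat_lit 0) (XT.lf (nat_lit 0) (nat_lit 160694776006) (nat_lit 152) (nat_lit 52698743427) (nat_lit 0) (nat_lit 156972512952) (nat_lit 2) (nat_lit 5) (nat_lit 4) (nat_lit 4) (nat_lit 2) (nat_lit 4) (nat_lit 421) (nat_lit 267) (nat_lit 212)) (XT.lf (nat_lit 0) (nat_lit 170934325105) (nat_lit 152) (nat_lit 50630345097) (nat_lit 0) (nat_lit 167199062975) (nat_lit 2) (nat_lit 5) (nat_lit 4) (nat_lit 4) (nat_lit 2) (nat_lit 4) (nat_lit 422) (nat_lit 267) (nat_lit 211))))))) (XT.nd (nat_lit 858) (nat_lit 0) (nat_lit 0) (XT.nd (nat_lit 390) (nat_lit 0) (nat_lit 0) (XT.nd (nat_lit 156) (nat_lit 0) (nat_lit 0) (XT.nd (nat_lit 78) (nat_lit 0) (nat_lit 0) (XT.lf (nat_lit 0) (nat_lit 181672374797) (nat_lit 152) (nat_lit 48484887548) (nat_lit 0) (nat_lit 177924732593)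 (nat_lit 2) (nat_lit 5) (nat_lit 4) (nat_lit 4) (nat_lit 2) (nat_lit 4) (nat_lit 423) (nat_lit 267) (nat_lit 210)) (XT.lf (nat_lit 0) (nat_lit 192934491867) (nat_lit 152) (nat_lit 46257262546) (nat_lit 0) (nat_lit 189175059116) (nat_lit 2) (nat_lit 5) (nat_lit 4) (nat_lit 4) (nat_lit 2) (nat_lit 4) (nat_lit 424) (nat_lit 267) (nat_lit 209))) (XT.nd (nat_lit 78) (nat_lit 0) (nat_lit 0) (XT.lf (nat_lit 0) (nat_lit 204747490878) (nat_lit 152) (nat_lit 43942166224) (nat_lit 0) (nat_lit 200976829035) (nat_lit 2) (nat_lit 5) (nat_lit 4) (nat_lit 4) (nat_lit 2) (nat_lit 4) (nat_lit 425) (nat_lit 267) (nat_lit 208)) (XT.nd (nat_lit 78) (nat_lit 0) (nat_lit 0) (XT.lf (nat_lit 0) (nat_lit 217139498019) (nat_lit 152) (nat_lit 41534086447) (nat_lit 0) (nat_lit 213358141803) (nat_lit 2) (nat_lit 5) (nat_lit 4) (nat_lit 4) (nat_lit 2) (nat_lit 4) (nat_lit 426) (nat_lit 267) (nat_lit 207)) (XT.lf (nat_lit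 0) (nat_lit 230140018069) (nat_lit 152) (nat_lit 39027289692) (nat_lit 0) (nat_lit 226348476736) (nat_lit 2) (nat_lit 5) (nat_lit 4) (nat_lit 4) (nat_lit 2) (nat_lit 4) (nat_lit 427) (nat_lit 267) (nat_lit 206))))) (XT.nd (nat_lit 234) (nat_lit 0) (nat_lit 0) (XT.nd (nat_lit 78) (nat_lit 0) (nat_lit 0) (XT.lf (nat_lit 0) (nat_lit 243780004646) (nat_lit 152) (nat_lit 36415807395) (nat_lit 0) (nat_lit 239978763202) (nat_lit 2) (nat_lit 5) (nat_lit 4) (nat_lit 4) (nat_lit 2) (nat_lit 4) (nat_lit 428) (nat_lit 267) (nat_lit 205)) (XT.nd (nat_lit 78) (nat_lit 0) (nat_lit 0) (XT.lf (nat_lit 0) (nat_lit 258091933911) (nat_lit 152) (nat_lit 33693421741) (nat_lit 0) (nat_lit 254281454264) (nat_lit 2) (nat_lit 5) (nat_lit 4) (nat_lit 4) (nat_lit 2) (nat_lit 4) (nat_lit 429) (nat_lit 267) (nat_lit 204)) (XT.lf (nat_lit 0) (nat_lit 273109881883) (nat_lit 152) (nat_lit 30853650860) (nat_lit 0) (nat_lit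 269290603950) (nat_lit 2) (nat_lit 5) (nat_lit 4) (nat_lit 4) (nat_lit 2) (nat_lit 4) (nat_lit 430) (nat_lit 267) (nat_lit 203)))) (XT.nd (nat_lit 78) (nat_lit 0) (nat_lit 0) (XT.lf (nat_lit 0) (nat_lit 288869605584) (nat_lit 152) (nat_lit 27889733392) (nat_lit 0) (nat_lit 285041948329) (nat_lit 2) (nat_lit 5) (nat_lit 4) (nat_lit 4) (nat_lit 2) (nat_lit 4) (nat_lit 431) (nat_lit 267) (nat_lit 202)) (XT.nd (nat_lit 78) (nat_lit 0) (nat_lit 0) (XT.lf (nat_lit 0) (nat_lit 305408628163) (nat_lit 152) (nat_lit 24794612390) (nat_lit 0) (nat_lit 301572990602) (nat_lit 2) (nat_lit 5) (nat_lit 4) (nat_lit 4) (nat_lit 2) (nat_lit 4) (nat_lit 432) (nat_lit 267) (nat_lit 201)) (XT.lf (nat_lit 0) (nat_lit 322766328247) (nat_lit 152) (nat_lit 21560918520) (nat_lit 0) (nat_lit 318923090395) (nat_lit 2) (nat_lit 5) (nat_lit 4) (nat_lit 4) (nat_lit 2) (nat_lit 4) (nat_lit 433) (nat_lit 267) (nat_lit 200))))))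 (XT.nd (nat_lit 41808) (nat_lit 0) (nat_lit 380) (XT.nd (nat_lit 41574) (nat_lit 0) (nat_lit 456) (XT.nd (nat_lit 41418) (nat_lit 0) (nat_lit 608) (XT.lf (nat_lit 0) (nat_lit 340984033692) (nat_lit 152) (nat_lit 18180952510) (nat_lit 0) (nat_lit 337133557467) (nat_lit 2) (nat_lit 5) (nat_lit 4) (nat_lit 4) (nat_lit 2) (nat_lit 4) (nat_lit 434) (nat_lit 267) (nat_lit 199)) (XT.nd (nat_lit 78) (nat_lit 76) (nat_lit 0) (XT.lf (nat_lit 0) (nat_lit 6503612625) (nat_lit 152) (nat_lit 363316766) (nat_lit 0) (nat_lit 6503612625) (nat_lit 11) (nat_lit 5) (nat_lit 13) (nat_lit 4) (nat_lit 11) (nat_lit 4) (nat_lit 364) (nat_lit 268) (nat_lit 268)) (XT.lf (nat_lit 0) (nat_lit 9036750997) (nat_lit 76) (nat_lit 9507492493) (nat_lit 76) (nat_lit 9276242795) (nat_lit 10) (nat_lit 4) (nat_lit 11) (nat_lit 5) (nat_lit 11) (nat_lit 4) (nat_lit 365) (nat_lit 268) (nat_lit 267)))) (XT.nd (nat_lit 78) (nat_lit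 152) (nat_lit 0) (XT.lf (nat_lit 0) (nat_lit 19004144214) (nat_lit 76) (nat_lit 5204359743) (nat_lit 76) (nat_lit 4752872237) (nat_lit 10) (nat_lit 4) (nat_lit 11) (nat_lit 5) (nat_lit 11) (nat_lit 4) (nat_lit 366) (nat_lit 268) (nat_lit 266)) (XT.nd (nat_lit 78) (nat_lit 152) (nat_lit 0) (XT.lf (nat_lit 0) (nat_lit 29175252221) (nat_lit 76) (nat_lit 826520869) (nat_lit 76) (nat_lit 165283070) (nat_lit 10) (nat_lit 4) (nat_lit 11) (nat_lit 5) (nat_lit 11) (nat_lit 4) (nat_lit 367) (nat_lit 268) (nat_lit 265)) (XT.lf (nat_lit 0) (nat_lit 4543618807) (nat_lit 152) (nat_lit 23160142448) (nat_lit 0) (nat_lit 3723618824) (nat_lit 8) (nat_lit 5) (nat_lit 10) (nat_lit 4) (nat_lit 8) (nat_lit 4) (nat_lit 368) (nat_lit 268) (nat_lit 264))))) (XT.nd (nat_lit 234) (nat_lit 0) (nat_lit 0) (XT.nd (nat_lit 78) (nat_lit 76) (nat_lit 0) (XT.lf (nat_lit 0) (nat_lit 9364355445) (nat_lit 152) (nat_lit 15028997315)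 (nat_lit 0) (nat_lit 8363165272) (nat_lit 8) (nat_lit 5) (nat_lit 10) (nat_lit 4) (nat_lit 8) (nat_lit 4) (nat_lit 369) (nat_lit 268) (nat_lit 263)) (XT.nd (nat_lit 78) (nat_lit 76) (nat_lit 0) (XT.lf (nat_lit 0) (nat_lit 14284531489) (nat_lit 152) (nat_lit 6763911113) (nat_lit 0) (nat_lit 13110779230) (nat_lit 8) (nat_lit 5) (nat_lit 10) (nat_lit 4) (nat_lit 8) (nat_lit 4) (nat_lit 370) (nat_lit 268) (nat_lit 262)) (XT.lf (nat_lit 0) (nat_lit 1709509928) (nat_lit 76) (nat_lit 17633041956) (nat_lit 76) (nat_lit 16294944854) (nat_lit 7) (nat_lit 4) (nat_lit 8) (nat_lit 5) (nat_lit 8) (nat_lit 4) (nat_lit 371) (nat_lit 268) (nat_lit 261)))) (XT.nd (nat_lit 78) (nat_lit 0) (nat_lit 0) (XT.lf (nat_lit 0) (nat_lit 10585982931) (nat_lit 76) (nat_lit 14049619195) (nat_lit 76) (nat_lit 12555003195) (nat_lit 7) (nat_lit 4) (nat_lit 8) (nat_lit 5) (nat_lit 8) (nat_lit 4) (nat_lit 372) (nat_lit 268)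 (nat_lit 260)) (XT.nd (nat_lit 78) (nat_lit 0) (nat_lit 0) (XT.lf (nat_lit 0) (nat_lit 19662996908) (nat_lit 76) (nat_lit 10404192468) (nat_lit 76) (nat_lit 8760510851) (nat_lit 7) (nat_lit 4) (nat_lit 8) (nat_lit 5) (nat_lit 8) (nat_lit 4) (nat_lit 373) (nat_lit 268) (nat_lit 259)) (XT.lf (nat_lit 0) (nat_lit 28962163795) (nat_lit 76) (nat_lit 6688082188) (nat_lit 76) (nat_lit 4902433316) (nat_lit 7) (nat_lit 4) (nat_lit 8) (nat_lit 5) (nat_lit 8) (nat_lit 4) (nat_lit 374) (nat_lit 268) (nat_lit 258))))))))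
noncomputable def xc28 : XT := (XT.nd (nat_lit 1716) (nat_lit 0) (nat_lit 0) (XT.nd (nat_lit 858) (nat_lit 152) (nat_lit 0) (XT.nd (nat_lit 390) (nat_lit 76) (nat_lit 0) (XT.nd (nat_lit 156) (nat_lit 0) (nat_lit 0) (XT.nd (nat_lit 78) (nat_lit 152) (nat_lit 0) (XT.lf (nat_lit 0) (nat_lit 38505624467) (nat_lit 76) (nat_lit 2892440473) (nat_lit 76) (nat_lit 971584692) (nat_lit 7) (nat_lit 4) (nat_lit 8) (nat_lit 5) (nat_lit 8) (nat_lit 4) (nat_lit 375) (nat_lit 268) (nat_lit 257)) (XT.lf (nat_lit 0) (nat_lit 3025652328) (nat_lit 152) (nat_lit 40177201478) (nat_lit 0) (nat_lit 1073629218) (nat_lit 5) (nat_lit 5) (nat_lit 7) (nat_lit 4) (nat_lit 5) (nat_lit 4) (nat_lit 376) (nat_lit 268) (nat_lit 256))) (XT.nd (nat_lit 78) (nat_lit 0) (nat_lit 0) (XT.lf (nat_lit 0) (nat_lit 7193680601) (nat_lit 152) (nat_lit 33959161053) (nat_lit 0) (nat_lit 5124860679) (nat_lit 5) (nat_lit 5) (nat_lit 7) (nat_lit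 4) (nat_lit 5) (nat_lit 4) (nat_lit 377) (nat_lit 268) (nat_lit 255)) (XT.nd (nat_lit 78) (nat_lit 0) (nat_lit 0) (XT.lf (nat_lit 0) (nat_lit 11465017005) (nat_lit 152) (nat_lit 27634276988) (nat_lit 0) (nat_lit 9284962024) (nat_lit 5) (nat_lit 5) (nat_lit 7) (nat_lit 4) (nat_lit 5) (nat_lit 4) (nat_lit 378) (nat_lit 268) (nat_lit 254)) (XT.lf (nat_lit 0) (nat_lit 15849831387) (nat_lit 152) (nat_lit 21187490034) (nat_lit 0) (nat_lit 13563838256) (nat_lit 5) (nat_lit 5) (nat_lit 7) (nat_lit 4) (nat_lit 5) (nat_lit 4) (nat_lit 379) (nat_lit 268) (nat_lit 253))))) (XT.nd (nat_lit 234) (nat_lit 76) (nat_lit 0) (XT.nd (nat_lit 78) (nat_lit 0) (nat_lit 0) (XT.lf (nat_lit 0) (nat_lit 20358563783) (nat_lit 152) (nat_lit 14603450700) (nat_lit 0) (nat_lit 17971677174) (nat_lit 5) (nat_lit 5) (nat_lit 7) (nat_lit 4) (nat_lit 5) (nat_lit 4) (nat_lit 380) (nat_lit 268) (nat_lit 252)) (XT.nd (nat_lit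 78) (nat_lit 0) (nat_lit 0) (XT.lf (nat_lit 0) (nat_lit 25001949269) (nat_lit 152) (nat_lit 7866482700) (nat_lit 0) (nat_lit 22518973634) (nat_lit 5) (nat_lit 5) (nat_lit 7) (nat_lit 4) (nat_lit 5) (nat_lit 4) (nat_lit 381) (nat_lit 268) (nat_lit 251)) (XT.lf (nat_lit 0) (nat_lit 29791043525) (nat_lit 152) (nat_lit 960545635) (nat_lit 0) (nat_lit 27216554531) (nat_lit 5) (nat_lit 5) (nat_lit 7) (nat_lit 4) (nat_lit 5) (nat_lit 4) (nat_lit 382) (nat_lit 268) (nat_lit 250)))) (XT.nd (nat_lit 78) (nat_lit 0) (nat_lit 0) (XT.lf (nat_lit 0) (nat_lit 6333515242) (nat_lit 76) (nat_lit 28502617836) (nat_lit 76) (nat_lit 25840973263) (nat_lit 4) (nat_lit 4) (nat_lit 5) (nat_lit 5) (nat_lit 5) (nat_lit 4) (nat_lit 383) (nat_lit 268) (nat_lit 249)) (XT.nd (nat_lit 78) (nat_lit 0) (nat_lit 0) (XT.lf (nat_lit 0) (nat_lit 13868320851) (nat_lit 76) (nat_lit 26200545346) (nat_lit 76) (nat_lit 23455895460)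 (nat_lit 4) (nat_lit 4) (nat_lit 5) (nat_lit 5) (nat_lit 5) (nat_lit 4) (nat_lit 384) (nat_lit 268) (nat_lit 248)) (XT.lf (nat_lit 0) (nat_lit 21630051226) (nat_lit 76) (nat_lit 23856157870) (nat_lit 76) (nat_lit 21032455305) (nat_lit 4) (nat_lit 4) (nat_lit 5) (nat_lit 5) (nat_lit 5) (nat_lit 4) (nat_lit 385) (nat_lit 268) (nat_lit 247)))))) (XT.nd (nat_lit 390) (nat_lit 152) (nat_lit 0) (XT.nd (nat_lit 156) (nat_lit 0) (nat_lit 0) (XT.nd (nat_lit 78) (nat_lit 0) (nat_lit 0) (XT.lf (nat_lit 0) (nat_lit 29637186678) (nat_lit 76) (nat_lit 21463873535) (nat_lit 76) (nat_lit 18564882703) (nat_lit 4) (nat_lit 4) (nat_lit 5) (nat_lit 5) (nat_lit 5) (nat_lit 4) (nat_lit 386) (nat_lit 268) (nat_lit 246)) (XT.lf (nat_lit 0) (nat_lit 37908791817) (nat_lit 76) (nat_lit 19017996423) (nat_lit 76) (nat_lit 16047302481) (nat_lit 4) (nat_lit 4) (nat_lit 5) (nat_lit 5) (nat_lit 5) (nat_lit 4) (nat_lit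 387) (nat_lit 268) (nat_lit 245))) (XT.nd (nat_lit 78) (nat_lit 0) (nat_lit 0) (XT.lf (nat_lit 0) (nat_lit 46464560938) (nat_lit 76) (nat_lit 16512703020) (nat_lit 76) (nat_lit 13473720401) (nat_lit 4) (nat_lit 4) (nat_lit 5) (nat_lit 5) (nat_lit 5) (nat_lit 4) (nat_lit 388) (nat_lit 268) (nat_lit 244)) (XT.nd (nat_lit 78) (nat_lit 0) (nat_lit 0) (XT.lf (nat_lit 0) (nat_lit 55324864922) (nat_lit 76) (nat_lit 13942028340) (nat_lit 76) (nat_lit 10838008886) (nat_lit 4) (nat_lit 4) (nat_lit 5) (nat_lit 5) (nat_lit 5) (nat_lit 4) (nat_lit 389) (nat_lit 268) (nat_lit 243)) (XT.lf (nat_lit 0) (nat_lit 64510799730) (nat_lit 76) (nat_lit 11299851729) (nat_lit 76) (nat_lit 8133892432) (nat_lit 4) (nat_lit 4) (nat_lit 5) (nat_lit 5) (nat_lit 5) (nat_lit 4) (nat_lit 390) (nat_lit 268) (nat_lit 242))))) (XT.nd (nat_lit 234) (nat_lit 76) (nat_lit 0) (XT.nd (nat_lit 78) (nat_lit 76) (nat_lit 0) (XT.lf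 (nat_lit 0) (nat_lit 74044236635) (nat_lit 76) (nat_lit 8579882291) (nat_lit 76) (nat_lit 5354932667) (nat_lit 4) (nat_lit 4) (nat_lit 5) (nat_lit 5) (nat_lit 5) (nat_lit 4) (nat_lit 391) (nat_lit 268) (nat_lit 241)) (XT.nd (nat_lit 78) (nat_lit 76) (nat_lit 0) (XT.lf (nat_lit 0) (nat_lit 83947874298) (nat_lit 76) (nat_lit 5775643908) (nat_lit 76) (nat_lit 2494513021) (nat_lit 4) (nat_lit 4) (nat_lit 5) (nat_lit 5) (nat_lit 5) (nat_lit 4) (nat_lit 392) (nat_lit 268) (nat_lit 240)) (XT.lf (nat_lit 0) (nat_lit 439640528) (nat_lit 152) (nat_lit 2433373768) (nat_lit 76) (nat_lit 93798206753) (nat_lit 3) (nat_lit 5) (nat_lit 5) (nat_lit 5) (nat_lit 4) (nat_lit 4) (nat_lit 393) (nat_lit 268) (nat_lit 239)))) (XT.nd (nat_lit 78) (nat_lit 0) (nat_lit 0) (XT.lf (nat_lit 0) (nat_lit 3447144851) (nat_lit 152) (nat_lit 97674596509) (nat_lit 0) (nat_lit 222768742) (nat_lit 2) (nat_lit 5) (nat_lit 4)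 (nat_lit 4) (nat_lit 2) (nat_lit 4) (nat_lit 394) (nat_lit 268) (nat_lit 238)) (XT.nd (nat_lit 78) (nat_lit 0) (nat_lit 0) (XT.lf (nat_lit 0) (nat_lit 6643693649) (nat_lit 152) (nat_lit 96232747210) (nat_lit 0) (nat_lit 3373097075) (nat_lit 2) (nat_lit 5) (nat_lit 4) (nat_lit 4) (nat_lit 2) (nat_lit 4) (nat_lit 395) (nat_lit 268) (nat_lit 237)) (XT.lf (nat_lit 0) (nat_lit 9952150574) (nat_lit 152) (nat_lit 94812535457) (nat_lit 0) (nat_lit 6637534511) (nat_lit 2) (nat_lit 5) (nat_lit 4) (nat_lit 4) (nat_lit 2) (nat_lit 4) (nat_lit 396) (nat_lit 268) (nat_lit 236))))))) (XT.nd (nat_lit 858) (nat_lit 0) (nat_lit 0) (XT.nd (nat_lit 390) (nat_lit 0) (nat_lit 0) (XT.nd (nat_lit 156) (nat_lit 0) (nat_lit 0) (XT.nd (nat_lit 78) (nat_lit 0) (nat_lit 0) (XT.lf (nat_lit 0) (nat_lit 13380392905) (nat_lit 152) (nat_lit 93410579792) (nat_lit 0) (nat_lit 10023853518) (nat_lit 2) (nat_lit 5) (nat_lit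 4) (nat_lit 4) (nat_lit 2) (nat_lit 4) (nat_lit 397) (nat_lit 268) (nat_lit 235)) (XT.lf (nat_lit 0) (nat_lit 16936583123) (nat_lit 152) (nat_lit 92023542226) (nat_lit 0) (nat_lit 13540116761) (nat_lit 2) (nat_lit 5) (nat_lit 4) (nat_lit 4) (nat_lit 2) (nat_lit 4) (nat_lit 398) (nat_lit 268) (nat_lit 234))) (XT.nd (nat_lit 78) (nat_lit 0) (nat_lit 0) (XT.lf (nat_lit 0) (nat_lit 20629188349) (nat_lit 152) (nat_lit 90648120289) (nat_lit 0) (nat_lit 17194696296) (nat_lit 2) (nat_lit 5) (nat_lit 4) (nat_lit 4) (nat_lit 2) (nat_lit 4) (nat_lit 399) (nat_lit 268) (nat_lit 233)) (XT.nd (nat_lit 78) (nat_lit 0) (nat_lit 0) (XT.lf (nat_lit 0) (nat_lit 24467000499) (nat_lit 152) (nat_lit 89281039167) (nat_lit 0) (nat_lit 20996293503) (nat_lit 2) (nat_lit 5) (nat_lit 4) (nat_lit 4) (nat_lit 2) (nat_lit 4) (nat_lit 400) (nat_lit 268) (nat_lit 232)) (XT.lf (nat_lit 0) (nat_lit 28459157221) (nat_lit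 152) (nat_lit 87919043904) (nat_lit 0) (nat_lit 24953959803) (nat_lit 2) (nat_lit 5) (nat_lit 4) (nat_lit 4) (nat_lit 2) (nat_lit 4) (nat_lit 401) (nat_lit 268) (nat_lit 231))))) (XT.nd (nat_lit 234) (nat_lit 0) (nat_lit 0) (XT.nd (nat_lit 78) (nat_lit 0) (nat_lit 0) (XT.lf (nat_lit 0) (nat_lit 32615163650) (nat_lit 152) (nat_lit 86558891655) (nat_lit 0) (nat_lit 29077118211) (nat_lit 2) (nat_lit 5) (nat_lit 4) (nat_lit 4) (nat_lit 2) (nat_lit 4) (nat_lit 402) (nat_lit 268) (nat_lit 230)) (XT.nd (nat_lit 78) (nat_lit 0) (nat_lit 0) (XT.lf (nat_lit 0) (nat_lit 36944915040) (nat_lit 152) (nat_lit 85197343961) (nat_lit 0) (nat_lit 33375585771) (nat_lit 2) (nat_lit 5) (nat_lit 4) (nat_lit 4) (nat_lit 2) (nat_lit 4) (nat_lit 403) (nat_lit 268) (nat_lit 229)) (XT.lf (nat_lit 0) (nat_lit 41458720323) (nat_lit 152) (nat_lit 83831159044) (nat_lit 0) (nat_lit 37859596930) (nat_lit 2) (nat_lit 5)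 (nat_lit 4) (nat_lit 4) (nat_lit 2) (nat_lit 4) (nat_lit 404) (nat_lit 268) (nat_lit 228)))) (XT.nd (nat_lit 78) (nat_lit 0) (nat_lit 0) (XT.lf (nat_lit 0) (nat_lit 46167326654) (nat_lit 152) (nat_lit 82457084081) (nat_lit 0) (nat_lit 42539827905) (nat_lit 2) (nat_lit 5) (nat_lit 4) (nat_lit 4) (nat_lit 2) (nat_lit 4) (nat_lit 405) (nat_lit 268) (nat_lit 227)) (XT.nd (nat_lit 78) (nat_lit 0) (nat_lit 0) (XT.lf (nat_lit 0) (nat_lit 51081945000) (nat_lit 152) (nat_lit 81071847465) (nat_lit 0) (nat_lit 47427422103) (nat_lit 2) (nat_lit 5) (nat_lit 4) (nat_lit 4) (nat_lit 2) (nat_lit 4) (nat_lit 406) (nat_lit 268) (nat_lit 226)) (XT.lf (nat_lit 0) (nat_lit 56214276834) (nat_lit 152) (nat_lit 79672151015) (nat_lit 0) (nat_lit 52534016653) (nat_lit 2) (nat_lit 5) (nat_lit 4) (nat_lit 4) (nat_lit 2) (nat_lit 4) (nat_lit 407) (nat_lit 268) (nat_lit 225)))))) (XT.nd (nat_lit 468) (nat_lit 0) (nat_lit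 0) (XT.nd (nat_lit 234) (nat_lit 0) (nat_lit 0) (XT.nd (nat_lit 78) (nat_lit 0) (nat_lit 0) (XT.lf (nat_lit 0) (nat_lit 61576541993) (nat_lit 152) (nat_lit 78254662119) (nat_lit 0) (nat_lit 57871770114) (nat_lit 2) (nat_lit 5) (nat_lit 4) (nat_lit 4) (nat_lit 2) (nat_lit 4) (nat_lit 408) (nat_lit 268) (nat_lit 224)) (XT.nd (nat_lit 78) (nat_lit 0) (nat_lit 0) (XT.lf (nat_lit 0) (nat_lit 67181507776) (nat_lit 152) (nat_lit 76816005804) (nat_lit 0) (nat_lit 63453391421) (nat_lit 2) (nat_lit 5) (nat_lit 4) (nat_lit 4) (nat_lit 2) (nat_lit 4) (nat_lit 409) (nat_lit 268) (nat_lit 223)) (XT.lf (nat_lit 0) (nat_lit 73042519339) (nat_lit 152) (nat_lit 75352756697) (nat_lit 0) (nat_lit 69292170150) (nat_lit 2) (nat_lit 5) (nat_lit 4) (nat_lit 4) (nat_lit 2) (nat_lit 4) (nat_lit 410) (nat_lit 268) (nat_lit 222)))) (XT.nd (nat_lit 78) (nat_lit 0) (nat_lit 0) (XT.lf (nat_lit 0) (nat_lit 79173531472)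 (nat_lit 152) (nat_lit 73861430873) (nat_lit 0) (nat_lit 75402008156) (nat_lit 2) (nat_lit 5) (nat_lit 4) (nat_lit 4) (nat_lit 2) (nat_lit 4) (nat_lit 411) (nat_lit 268) (nat_lit 221)) (XT.nd (nat_lit 78) (nat_lit 0) (nat_lit 0) (XT.lf (nat_lit 0) (nat_lit 85589141822) (nat_lit 152) (nat_lit 72338477555) (nat_lit 0) (nat_lit 81797452670) (nat_lit 2) (nat_lit 5) (nat_lit 4) (nat_lit 4) (nat_lit 2) (nat_lit 4) (nat_lit 412) (nat_lit 268) (nat_lit 220)) (XT.lf (nat_lit 0) (nat_lit 92304625652) (nat_lit 152) (nat_lit 70780270664) (nat_lit 0) (nat_lit 88493730942) (nat_lit 2) (nat_lit 5) (nat_lit 4) (nat_lit 4) (nat_lit 2) (nat_lit 4) (nat_lit 413) (nat_lit 268) (nat_lit 219))))) (XT.nd (nat_lit 234) (nat_lit 0) (nat_lit 0) (XT.nd (nat_lit 78) (nat_lit 0) (nat_lit 0) (XT.lf (nat_lit 0) (nat_lit 99335972209) (nat_lit 152) (nat_lit 69183100184) (nat_lit 0) (nat_lit 95506786492) (nat_lit 2) (nat_lit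 5) (nat_lit 4) (nat_lit 4) (nat_lit 2) (nat_lit 4) (nat_lit 414) (nat_lit 268) (nat_lit 218)) (XT.nd (nat_lit 78) (nat_lit 0) (nat_lit 0) (XT.lf (nat_lit 0) (nat_lit 106699922795) (nat_lit 152) (nat_lit 67543163328) (nat_lit 0) (nat_lit 102853317072) (nat_lit 2) (nat_lit 5) (nat_lit 4) (nat_lit 4) (nat_lit 2) (nat_lit 4) (nat_lit 415) (nat_lit 268) (nat_lit 217)) (XT.lf (nat_lit 0) (nat_lit 114414010626) (nat_lit 152) (nat_lit 65856555485) (nat_lit 0) (nat_lit 110550814419) (nat_lit 2) (nat_lit 5) (nat_lit 4) (nat_lit 4) (nat_lit 2) (nat_lit 4) (nat_lit 416) (nat_lit 268) (nat_lit 216)))) (XT.nd (nat_lit 78) (nat_lit 0) (nat_lit 0) (XT.lf (nat_lit 0) (nat_lit 122496602577) (nat_lit 152) (nat_lit 64119260920) (nat_lit 0) (nat_lit 118617605910) (nat_lit 2) (nat_lit 5) (nat_lit 4) (nat_lit 4) (nat_lit 2) (nat_lit 4) (nat_lit 417) (nat_lit 268) (nat_lit 215)) (XT.nd (nat_lit 78) (nat_lit 0)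 (nat_lit 0) (XT.lf (nat_lit 0) (nat_lit 130966942914) (nat_lit 152) (nat_lit 62327143220) (nat_lit 0) (nat_lit 127072898191) (nat_lit 2) (nat_lit 5) (nat_lit 4) (nat_lit 4) (nat_lit 2) (nat_lit 4) (nat_lit 418) (nat_lit 268) (nat_lit 214)) (XT.lf (nat_lit 0) (nat_lit 139845199115) (nat_lit 152) (nat_lit 60475935436) (nat_lit 0) (nat_lit 135936822909) (nat_lit 2) (nat_lit 5) (nat_lit 4) (nat_lit 4) (nat_lit 2) (nat_lit 4) (nat_lit 419) (nat_lit 268) (nat_lit 213))))))))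
noncomputable def xc29 : XT := (XT.nd (nat_lit 42900) (nat_lit 0) (nat_lit 152) (XT.nd (nat_lit 858) (nat_lit 0) (nat_lit 0) (XT.nd (nat_lit 390) (nat_lit 0) (nat_lit 0) (XT.nd (nat_lit 156) (nat_lit 0) (nat_lit 0) (XT.nd (nat_lit 78) (nat_lit 0) (nat_lit 0) (XT.lf (nat_lit 0) (nat_lit 149152509886) (nat_lit 152) (nat_lit 58561229931) (nat_lit 0) (nat_lit 145230484648) (nat_lit 2) (nat_lit 5) (nat_lit 4) (nat_lit 4) (nat_lit 2) (nat_lit 4) (nat_lit 420) (nat_lit 268) (nat_lit 212)) (XT.lf (nat_lit 0) (nat_lit 158911035488) (nat_lit 152) (nat_lit 56578467883) (nat_lit 0) (nat_lit 154976011174) (nat_lit 2) (nat_lit 5) (nat_lit 4) (nat_lit 4) (nat_lit 2) (nat_lit 4) (nat_lit 421) (nat_lit 268) (nat_lit 211))) (XT.nd (nat_lit 78) (nat_lit 0) (nat_lit 0) (XT.lf (nat_lit 0) (nat_lit 169144010509) (nat_lit 152) (nat_lit 54522928430) (nat_lit 0) (nat_lit 165196606121) (nat_lit 2) (nat_lit 5) (nat_lit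 4) (nat_lit 4) (nat_lit 2) (nat_lit 4) (nat_lit 422) (nat_lit 268) (nat_lit 210)) (XT.nd (nat_lit 78) (nat_lit 0) (nat_lit 0) (XT.lf (nat_lit 0) (nat_lit 179875799173) (nat_lit 152) (nat_lit 52389717430) (nat_lit 0) (nat_lit 175916604238) (nat_lit 2) (nat_lit 5) (nat_lit 4) (nat_lit 4) (nat_lit 2) (nat_lit 4) (nat_lit 423) (nat_lit 268) (nat_lit 209)) (XT.lf (nat_lit 0) (nat_lit 191131953359) (nat_lit 152) (nat_lit 50173755809) (nat_lit 0) (nat_lit 187161529332) (nat_lit 2) (nat_lit 5) (nat_lit 4) (nat_lit 4) (nat_lit 2) (nat_lit 4) (nat_lit 424) (nat_lit 268) (nat_lit 208))))) (XT.nd (nat_lit 234) (nat_lit 0) (nat_lit 0) (XT.nd (nat_lit 78) (nat_lit 0) (nat_lit 0) (XT.lf (nat_lit 0) (nat_lit 202939273433) (nat_lit 152) (nat_lit 47869767468) (nat_lit 0) (nat_lit 198958155033) (nat_lit 2) (nat_lit 5) (nat_lit 4) (nat_lit 4) (nat_lit 2) (nat_lit 4) (nat_lit 425) (nat_lit 268) (nat_lit 207))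 (XT.nd (nat_lit 78) (nat_lit 0) (nat_lit 0) (XT.lf (nat_lit 0) (nat_lit 215325872062) (nat_lit 152) (nat_lit 45472266720) (nat_lit 0) (nat_lit 211334568545) (nat_lit 2) (nat_lit 5) (nat_lit 4) (nat_lit 4) (nat_lit 2) (nat_lit 4) (nat_lit 426) (nat_lit 268) (nat_lit 206)) (XT.lf (nat_lit 0) (nat_lit 228321241149) (nat_lit 152) (nat_lit 42975545231) (nat_lit 0) (nat_lit 224320237520) (nat_lit 2) (nat_lit 5) (nat_lit 4) (nat_lit 4) (nat_lit 2) (nat_lit 4) (nat_lit 427) (nat_lit 268) (nat_lit 205)))) (XT.nd (nat_lit 78) (nat_lit 0) (nat_lit 0) (XT.lf (nat_lit 0) (nat_lit 241956322048) (nat_lit 152) (nat_lit 40373658426) (nat_lit 0) (nat_lit 237946080217) (nat_lit 2) (nat_lit 5) (nat_lit 4) (nat_lit 4) (nat_lit 2) (nat_lit 4) (nat_lit 428) (nat_lit 268) (nat_lit 204)) (XT.nd (nat_lit 78) (nat_lit 0) (nat_lit 0) (XT.lf (nat_lit 0) (nat_lit 256263579236) (nat_lit 152) (nat_lit 37660411335) (nat_lit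 0) (nat_lit 252244539119) (nat_lit 2) (nat_lit 5) (nat_lit 4) (nat_lit 4) (nat_lit 2) (nat_lit 4) (nat_lit 429) (nat_lit 268) (nat_lit 203)) (XT.lf (nat_lit 0) (nat_lit 271277077613) (nat_lit 152) (nat_lit 34829343848) (nat_lit 0) (nat_lit 267249658175) (nat_lit 2) (nat_lit 5) (nat_lit 4) (nat_lit 4) (nat_lit 2) (nat_lit 4) (nat_lit 430) (nat_lit 268) (nat_lit 202)))))) (XT.nd (nat_lit 41574) (nat_lit 0) (nat_lit 456) (XT.nd (nat_lit 156) (nat_lit 0) (nat_lit 0) (XT.nd (nat_lit 78) (nat_lit 0) (nat_lit 0) (XT.lf (nat_lit 0) (nat_lit 287032563603) (nat_lit 152) (nat_lit 31873715326) (nat_lit 0) (nat_lit 282997163859) (nat_lit 2) (nat_lit 5) (nat_lit 4) (nat_lit 4) (nat_lit 2) (nat_lit 4) (nat_lit 431) (nat_lit 268) (nat_lit 201)) (XT.lf (nat_lit 0) (nat_lit 303567550268) (nat_lit 152) (nat_lit 28786488560) (nat_lit 0) (nat_lit 299524550232) (nat_lit 2) (nat_lit 5) (nat_lit 4) (nat_lit 4)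 (nat_lit 2) (nat_lit 4) (nat_lit 432) (nat_lit 268) (nat_lit 200))) (XT.nd (nat_lit 78) (nat_lit 0) (nat_lit 0) (XT.lf (nat_lit 0) (nat_lit 320921406624) (nat_lit 152) (nat_lit 25560313008) (nat_lit 0) (nat_lit 316871168215) (nat_lit 2) (nat_lit 5) (nat_lit 4) (nat_lit 4) (nat_lit 2) (nat_lit 4) (nat_lit 433) (nat_lit 268) (nat_lit 199)) (XT.nd (nat_lit 41262) (nat_lit 0) (nat_lit 684) (XT.lf (nat_lit 0) (nat_lit 339135451376) (nat_lit 152) (nat_lit 22187507302) (nat_lit 0) (nat_lit 335078319279) (nat_lit 2) (nat_lit 5) (nat_lit 4) (nat_lit 4) (nat_lit 2) (nat_lit 4) (nat_lit 434) (nat_lit 268) (nat_lit 198)) (XT.lf (nat_lit 0) (nat_lit 1414822227) (nat_lit 152) (nat_lit 9540537477) (nat_lit 0) (nat_lit 1414822227) (nat_lit 11) (nat_lit 5) (nat_lit 13) (nat_lit 4) (nat_lit 11) (nat_lit 4) (nat_lit 362) (nat_lit 269) (nat_lit 269))))) (XT.nd (nat_lit 234) (nat_lit 152) (nat_lit 0) (XT.nd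 (nat_lit 78) (nat_lit 76) (nat_lit 0) (XT.lf (nat_lit 0) (nat_lit 7953973045) (nat_lit 152) (nat_lit 10049120776) (nat_lit 0) (nat_lit 7711160862) (nat_lit 11) (nat_lit 5) (nat_lit 13) (nat_lit 4) (nat_lit 11) (nat_lit 4) (nat_lit 363) (nat_lit 269) (nat_lit 268)) (XT.nd (nat_lit 78) (nat_lit 76) (nat_lit 0) (XT.lf (nat_lit 0) (nat_lit 13169579689) (nat_lit 152) (nat_lit 880028431) (nat_lit 0) (nat_lit 12695517808) (nat_lit 11) (nat_lit 5) (nat_lit 13) (nat_lit 4) (nat_lit 11) (nat_lit 4) (nat_lit 364) (nat_lit 269) (nat_lit 267)) (XT.lf (nat_lit 0) (nat_lit 8727363382) (nat_lit 76) (nat_lit 9897777716) (nat_lit 76) (nat_lit 9203478027) (nat_lit 10) (nat_lit 4) (nat_lit 11) (nat_lit 5) (nat_lit 11) (nat_lit 4) (nat_lit 365) (nat_lit 269) (nat_lit 266)))) (XT.nd (nat_lit 78) (nat_lit 152) (nat_lit 0) (XT.lf (nat_lit 0) (nat_lit 18551022516) (nat_lit 76) (nat_lit 5663157411) (nat_lit 76)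 (nat_lit 4759107429) (nat_lit 10) (nat_lit 4) (nat_lit 11) (nat_lit 5) (nat_lit 11) (nat_lit 4) (nat_lit 366) (nat_lit 269) (nat_lit 265)) (XT.nd (nat_lit 78) (nat_lit 152) (nat_lit 0) (XT.lf (nat_lit 0) (nat_lit 28585240919) (nat_lit 76) (nat_lit 1350568486) (nat_lit 76) (nat_lit 246756320) (nat_lit 10) (nat_lit 4) (nat_lit 11) (nat_lit 5) (nat_lit 11) (nat_lit 4) (nat_lit 367) (nat_lit 269) (nat_lit 264)) (XT.lf (nat_lit 0) (nat_lit 4374119276) (nat_lit 152) (nat_lit 23931701154) (nat_lit 0) (nat_lit 3141679405) (nat_lit 8) (nat_lit 5) (nat_lit 10) (nat_lit 4) (nat_lit 8) (nat_lit 4) (nat_lit 368) (nat_lit 269) (nat_lit 263))))))) (XT.nd (nat_lit 858) (nat_lit 76) (nat_lit 0) (XT.nd (nat_lit 390) (nat_lit 152) (nat_lit 0) (XT.nd (nat_lit 156) (nat_lit 76) (nat_lit 0) (XT.nd (nat_lit 78) (nat_lit 0) (nat_lit 0) (XT.lf (nat_lit 0) (nat_lit 9125783999) (nat_lit 152) (nat_lit 15933539527)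 (nat_lit 0) (nat_lit 7720782042) (nat_lit 8) (nat_lit 5) (nat_lit 10) (nat_lit 4) (nat_lit 8) (nat_lit 4) (nat_lit 369) (nat_lit 269) (nat_lit 262)) (XT.lf (nat_lit 0) (nat_lit 13980177266) (nat_lit 152) (nat_lit 7795104283) (nat_lit 0) (nat_lit 12410830466) (nat_lit 8) (nat_lit 5) (nat_lit 10) (nat_lit 4) (nat_lit 8) (nat_lit 4) (nat_lit 370) (nat_lit 269) (nat_lit 261))) (XT.nd (nat_lit 78) (nat_lit 0) (nat_lit 0) (XT.lf (nat_lit 0) (nat_lit 519612654) (nat_lit 76) (nat_lit 18437357112) (nat_lit 76) (nat_lit 16711491414) (nat_lit 7) (nat_lit 4) (nat_lit 8) (nat_lit 5) (nat_lit 8) (nat_lit 4) (nat_lit 371) (nat_lit 269) (nat_lit 260)) (XT.nd (nat_lit 78) (nat_lit 0) (nat_lit 0) (XT.lf (nat_lit 0) (nat_lit 9277411181) (nat_lit 76) (nat_lit 14911089070) (nat_lit 76) (nat_lit 13036157754) (nat_lit 7) (nat_lit 4) (nat_lit 8) (nat_lit 5) (nat_lit 8) (nat_lit 4) (nat_lit 372) (nat_lit 269) (nat_lit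 259)) (XT.lf (nat_lit 0) (nat_lit 18241401846) (nat_lit 76) (nat_lit 11320095408) (nat_lit 76) (nat_lit 9303196838) (nat_lit 7) (nat_lit 4) (nat_lit 8) (nat_lit 5) (nat_lit 8) (nat_lit 4) (nat_lit 373) (nat_lit 269) (nat_lit 258))))) (XT.nd (nat_lit 234) (nat_lit 0) (nat_lit 0) (XT.nd (nat_lit 78) (nat_lit 152) (nat_lit 0) (XT.lf (nat_lit 0) (nat_lit 27432927485) (nat_lit 76) (nat_lit 7655826142) (nat_lit 76) (nat_lit 5503720663) (nat_lit 7) (nat_lit 4) (nat_lit 8) (nat_lit 5) (nat_lit 8) (nat_lit 4) (nat_lit 374) (nat_lit 269) (nat_lit 257)) (XT.nd (nat_lit 78) (nat_lit 152) (nat_lit 0) (XT.lf (nat_lit 0) (nat_lit 36873872682) (nat_lit 76) (nat_lit 3909556822) (nat_lit 76) (nat_lit 1628682858) (nat_lit 7) (nat_lit 4) (nat_lit 8) (nat_lit 5) (nat_lit 8) (nat_lit 4) (nat_lit 375) (nat_lit 269) (nat_lit 256)) (XT.lf (nat_lit 0) (nat_lit 2292430964) (nat_lit 152) (nat_lit 42028521834) (nat_lit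 0) (nat_lit 3373234) (nat_lit 5) (nat_lit 5) (nat_lit 7) (nat_lit 4) (nat_lit 5) (nat_lit 4) (nat_lit 376) (nat_lit 269) (nat_lit 255)))) (XT.nd (nat_lit 78) (nat_lit 0) (nat_lit 0) (XT.lf (nat_lit 0) (nat_lit 6409194221) (nat_lit 152) (nat_lit 35910022083) (nat_lit 0) (nat_lit 4008901433) (nat_lit 5) (nat_lit 5) (nat_lit 7) (nat_lit 4) (nat_lit 5) (nat_lit 4) (nat_lit 377) (nat_lit 269) (nat_lit 254)) (XT.nd (nat_lit 78) (nat_lit 0) (nat_lit 0) (XT.lf (nat_lit 0) (nat_lit 10631706800) (nat_lit 152) (nat_lit 29679938659) (nat_lit 0) (nat_lit 8125475860) (nat_lit 5) (nat_lit 5) (nat_lit 7) (nat_lit 4) (nat_lit 5) (nat_lit 4) (nat_lit 378) (nat_lit 269) (nat_lit 253)) (XT.lf (nat_lit 0) (nat_lit 14970022301) (nat_lit 152) (nat_lit 23323438030) (nat_lit 0) (nat_lit 12362897884) (nat_lit 5) (nat_lit 5) (nat_lit 7) (nat_lit 4) (nat_lit 5) (nat_lit 4) (nat_lit 379) (nat_lit 269) (nat_lit 252))))))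 (XT.nd (nat_lit 468) (nat_lit 0) (nat_lit 0) (XT.nd (nat_lit 234) (nat_lit 76) (nat_lit 0) (XT.nd (nat_lit 78) (nat_lit 0) (nat_lit 0) (XT.lf (nat_lit 0) (nat_lit 19434470048) (nat_lit 152) (nat_lit 16825385672) (nat_lit 0) (nat_lit 16731256605) (nat_lit 5) (nat_lit 5) (nat_lit 7) (nat_lit 4) (nat_lit 5) (nat_lit 4) (nat_lit 380) (nat_lit 269) (nat_lit 251)) (XT.nd (nat_lit 78) (nat_lit 0) (nat_lit 0) (XT.lf (nat_lit 0) (nat_lit 24035679678) (nat_lit 152) (nat_lit 10170310031) (nat_lit 0) (nat_lit 21240952877) (nat_lit 5) (nat_lit 5) (nat_lit 7) (nat_lit 4) (nat_lit 5) (nat_lit 4) (nat_lit 381) (nat_lit 269) (nat_lit 250)) (XT.lf (nat_lit 0) (nat_lit 28784606452) (nat_lit 152) (nat_lit 3342365689) (nat_lit 0) (nat_lit 25902724072) (nat_lit 5) (nat_lit 5) (nat_lit 7) (nat_lit 4) (nat_lit 5) (nat_lit 4) (nat_lit 382) (nat_lit 269) (nat_lit 249)))) (XT.nd (nat_lit 78) (nat_lit 0) (nat_lit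 0) (XT.lf (nat_lit 0) (nat_lit 3796206686) (nat_lit 76) (nat_lit 29955620078) (nat_lit 76) (nat_lit 26990732384) (nat_lit 4) (nat_lit 4) (nat_lit 5) (nat_lit 5) (nat_lit 5) (nat_lit 4) (nat_lit 383) (nat_lit 269) (nat_lit 248)) (XT.nd (nat_lit 78) (nat_lit 0) (nat_lit 0) (XT.lf (nat_lit 0) (nat_lit 11257931556) (nat_lit 76) (nat_lit 27689054241) (nat_lit 76) (nat_lit 24645113868) (nat_lit 4) (nat_lit 4) (nat_lit 5) (nat_lit 5) (nat_lit 5) (nat_lit 4) (nat_lit 384) (nat_lit 269) (nat_lit 247)) (XT.lf (nat_lit 0) (nat_lit 18950061228) (nat_lit 76) (nat_lit 25378482626) (nat_lit 76) (nat_lit 22259253987) (nat_lit 4) (nat_lit 4) (nat_lit 5) (nat_lit 5) (nat_lit 5) (nat_lit 4) (nat_lit 385) (nat_lit 269) (nat_lit 246))))) (XT.nd (nat_lit 234) (nat_lit 0) (nat_lit 0) (XT.nd (nat_lit 78) (nat_lit 0) (nat_lit 0) (XT.lf (nat_lit 0) (nat_lit 26890910297) (nat_lit 76) (nat_lit 23018403872) (nat_lit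 76) (nat_lit 19827472121) (nat_lit 4) (nat_lit 4) (nat_lit 5) (nat_lit 5) (nat_lit 5) (nat_lit 4) (nat_lit 386) (nat_lit 269) (nat_lit 245)) (XT.nd (nat_lit 78) (nat_lit 0) (nat_lit 0) (XT.lf (nat_lit 0) (nat_lit 35099385545) (nat_lit 76) (nat_lit 20603198742) (nat_lit 76) (nat_lit 17343978315) (nat_lit 4) (nat_lit 4) (nat_lit 5) (nat_lit 5) (nat_lit 5) (nat_lit 4) (nat_lit 387) (nat_lit 269) (nat_lit 244)) (XT.lf (nat_lit 0) (nat_lit 43595030962) (nat_lit 76) (nat_lit 18127116750) (nat_lit 76) (nat_lit 14802859488) (nat_lit 4) (nat_lit 4) (nat_lit 5) (nat_lit 5) (nat_lit 5) (nat_lit 4) (nat_lit 388) (nat_lit 269) (nat_lit 243)))) (XT.nd (nat_lit 78) (nat_lit 0) (nat_lit 0) (XT.lf (nat_lit 0) (nat_lit 52398074276) (nat_lit 76) (nat_lit 15584262462) (nat_lit 76) (nat_lit 12198065357) (nat_lit 4) (nat_lit 4) (nat_lit 5) (nat_lit 5) (nat_lit 5) (nat_lit 4) (nat_lit 389) (nat_lit 269) (nat_lit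 242)) (XT.nd (nat_lit 78) (nat_lit 0) (nat_lit 0) (XT.lf (nat_lit 0) (nat_lit 61529475111) (nat_lit 76) (nat_lit 12968581463) (nat_lit 76) (nat_lit 9523394031) (nat_lit 4) (nat_lit 4) (nat_lit 5) (nat_lit 5) (nat_lit 5) (nat_lit 4) (nat_lit 390) (nat_lit 269) (nat_lit 241)) (XT.lf (nat_lit 0) (nat_lit 71010974901) (nat_lit 76) (nat_lit 10273845940) (nat_lit 76) (nat_lit 6772477245) (nat_lit 4) (nat_lit 4) (nat_lit 5) (nat_lit 5) (nat_lit 5) (nat_lit 4) (nat_lit 391) (nat_lit 269) (nat_lit 240))))))))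
noncomputable def xc30 : XT := (XT.nd (nat_lit 1716) (nat_lit 0) (nat_lit 0) (XT.nd (nat_lit 858) (nat_lit 0) (nat_lit 0) (XT.nd (nat_lit 390) (nat_lit 0) (nat_lit 0) (XT.nd (nat_lit 156) (nat_lit 152) (nat_lit 0) (XT.nd (nat_lit 78) (nat_lit 0) (nat_lit 0) (XT.lf (nat_lit 0) (nat_lit 80865148643) (nat_lit 76) (nat_lit 7493639858) (nat_lit 76) (nat_lit 3938765197) (nat_lit 4) (nat_lit 4) (nat_lit 5) (nat_lit 5) (nat_lit 5) (nat_lit 4) (nat_lit 392) (nat_lit 269) (nat_lit 239)) (XT.lf (nat_lit 0) (nat_lit 91115458656) (nat_lit 76) (nat_lit 4621343677) (nat_lit 76) (nat_lit 1015510954) (nat_lit 4) (nat_lit 4) (nat_lit 5) (nat_lit 5) (nat_lit 5) (nat_lit 4) (nat_lit 393) (nat_lit 269) (nat_lit 238))) (XT.nd (nat_lit 78) (nat_lit 0) (nat_lit 0) (XT.lf (nat_lit 0) (nat_lit 333509511) (nat_lit 76) (nat_lit 1611794742) (nat_lit 152) (nat_lit 99485054226) (nat_lit 2) (nat_lit 5) (nat_lit 3) (nat_lit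 5) (nat_lit 4) (nat_lit 4) (nat_lit 394) (nat_lit 269) (nat_lit 237)) (XT.nd (nat_lit 78) (nat_lit 0) (nat_lit 0) (XT.lf (nat_lit 0) (nat_lit 5093313144) (nat_lit 152) (nat_lit 99675556993) (nat_lit 0) (nat_lit 1568946788) (nat_lit 2) (nat_lit 5) (nat_lit 4) (nat_lit 4) (nat_lit 2) (nat_lit 4) (nat_lit 395) (nat_lit 269) (nat_lit 236)) (XT.lf (nat_lit 0) (nat_lit 8379507903) (nat_lit 152) (nat_lit 98298889960) (nat_lit 0) (nat_lit 4813218223) (nat_lit 2) (nat_lit 5) (nat_lit 4) (nat_lit 4) (nat_lit 2) (nat_lit 4) (nat_lit 396) (nat_lit 269) (nat_lit 235))))) (XT.nd (nat_lit 234) (nat_lit 0) (nat_lit 0) (XT.nd (nat_lit 78) (nat_lit 0) (nat_lit 0) (XT.lf (nat_lit 0) (nat_lit 11786548171) (nat_lit 152) (nat_lit 96938405457) (nat_lit 0) (nat_lit 8180331516) (nat_lit 2) (nat_lit 5) (nat_lit 4) (nat_lit 4) (nat_lit 2) (nat_lit 4) (nat_lit 397) (nat_lit 269) (nat_lit 234)) (XT.nd (nat_lit 78)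 (nat_lit 0) (nat_lit 0) (XT.lf (nat_lit 0) (nat_lit 15322545949) (nat_lit 152) (nat_lit 95590864236) (nat_lit 0) (nat_lit 11678303603) (nat_lit 2) (nat_lit 5) (nat_lit 4) (nat_lit 4) (nat_lit 2) (nat_lit 4) (nat_lit 398) (nat_lit 269) (nat_lit 233)) (XT.lf (nat_lit 0) (nat_lit 18995920278) (nat_lit 152) (nat_lit 94253057866) (nat_lit 0) (nat_lit 15315462989) (nat_lit 2) (nat_lit 5) (nat_lit 4) (nat_lit 4) (nat_lit 2) (nat_lit 4) (nat_lit 399) (nat_lit 269) (nat_lit 232)))) (XT.nd (nat_lit 78) (nat_lit 0) (nat_lit 0) (XT.lf (nat_lit 0) (nat_lit 22815417289) (nat_lit 152) (nat_lit 92921801092) (nat_lit 0) (nat_lit 19100469577) (nat_lit 2) (nat_lit 5) (nat_lit 4) (nat_lit 4) (nat_lit 2) (nat_lit 4) (nat_lit 400) (nat_lit 269) (nat_lit 231)) (XT.nd (nat_lit 78) (nat_lit 0) (nat_lit 0) (XT.lf (nat_lit 0) (nat_lit 26790131021) (nat_lit 152) (nat_lit 91593924257) (nat_lit 0) (nat_lit 23042335289)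 (nat_lit 2) (nat_lit 5) (nat_lit 4) (nat_lit 4) (nat_lit 2) (nat_lit 4) (nat_lit 401) (nat_lit 269) (nat_lit 230)) (XT.lf (nat_lit 0) (nat_lit 30929525079) (nat_lit 152) (nat_lit 90266265749) (nat_lit 0) (nat_lit 27150445517) (nat_lit 2) (nat_lit 5) (nat_lit 4) (nat_lit 4) (nat_lit 2) (nat_lit 4) (nat_lit 402) (nat_lit 269) (nat_lit 229)))))) (XT.nd (nat_lit 390) (nat_lit 0) (nat_lit 0) (XT.nd (nat_lit 156) (nat_lit 0) (nat_lit 0) (XT.nd (nat_lit 78) (nat_lit 0) (nat_lit 0) (XT.lf (nat_lit 0) (nat_lit 35243455164) (nat_lit 152) (nat_lit 88935664475) (nat_lit 0) (nat_lit 31434581478) (nat_lit 2) (nat_lit 5) (nat_lit 4) (nat_lit 4) (nat_lit 2) (nat_lit 4) (nat_lit 403) (nat_lit 269) (nat_lit 228)) (XT.lf (nat_lit 0) (nat_lit 39742192536) (nat_lit 152) (nat_lit 87598952338) (nat_lit 0) (nat_lit 35904943495) (nat_lit 2) (nat_lit 5) (nat_lit 4) (nat_lit 4) (nat_lit 2) (nat_lit 4) (nat_lit 404)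 (nat_lit 269) (nat_lit 227))) (XT.nd (nat_lit 78) (nat_lit 0) (nat_lit 0) (XT.lf (nat_lit 0) (nat_lit 44436448476) (nat_lit 152) (nat_lit 86252946690) (nat_lit 0) (nat_lit 40572175286) (nat_lit 2) (nat_lit 5) (nat_lit 4) (nat_lit 4) (nat_lit 2) (nat_lit 4) (nat_lit 405) (nat_lit 269) (nat_lit 226)) (XT.nd (nat_lit 78) (nat_lit 0) (nat_lit 0) (XT.lf (nat_lit 0) (nat_lit 49337399784) (nat_lit 152) (nat_lit 84894442756) (nat_lit 0) (nat_lit 45447389310) (nat_lit 2) (nat_lit 5) (nat_lit 4) (nat_lit 4) (nat_lit 2) (nat_lit 4) (nat_lit 406) (nat_lit 269) (nat_lit 225)) (XT.lf (nat_lit 0) (nat_lit 54456715390) (nat_lit 152) (nat_lit 83520206001) (nat_lit 0) (nat_lit 50542193217) (nat_lit 2) (nat_lit 5) (nat_lit 4) (nat_lit 4) (nat_lit 2) (nat_lit 4) (nat_lit 407) (nat_lit 269) (nat_lit 224))))) (XT.nd (nat_lit 234) (nat_lit 0) (nat_lit 0) (XT.nd (nat_lit 78) (nat_lit 0) (nat_lit 0) (XT.lf (nat_lit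 0) (nat_lit 59806584142) (nat_lit 152) (nat_lit 82126964435) (nat_lit 0) (nat_lit 55868717494) (nat_lit 2) (nat_lit 5) (nat_lit 4) (nat_lit 4) (nat_lit 2) (nat_lit 4) (nat_lit 408) (nat_lit 269) (nat_lit 223)) (XT.nd (nat_lit 78) (nat_lit 0) (nat_lit 0) (XT.lf (nat_lit 0) (nat_lit 65399743823) (nat_lit 152) (nat_lit 80711400814) (nat_lit 0) (nat_lit 61439644341) (nat_lit 2) (nat_lit 5) (nat_lit 4) (nat_lit 4) (nat_lit 2) (nat_lit 4) (nat_lit 409) (nat_lit 269) (nat_lit 222)) (XT.lf (nat_lit 0) (nat_lit 71249511480) (nat_lit 152) (nat_lit 79270144751) (nat_lit 0) (nat_lit 67268237870) (nat_lit 2) (nat_lit 5) (nat_lit 4) (nat_lit 4) (nat_lit 2) (nat_lit 4) (nat_lit 410) (nat_lit 269) (nat_lit 221)))) (XT.nd (nat_lit 78) (nat_lit 0) (nat_lit 0) (XT.lf (nat_lit 0) (nat_lit 77369815130) (nat_lit 152) (nat_lit 77799764681) (nat_lit 0) (nat_lit 73368375685) (nat_lit 2) (nat_lit 5) (nat_lit 4)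 (nat_lit 4) (nat_lit 2) (nat_lit 4) (nat_lit 411) (nat_lit 269) (nat_lit 220)) (XT.nd (nat_lit 78) (nat_lit 0) (nat_lit 0) (XT.lf (nat_lit 0) (nat_lit 83775226925) (nat_lit 152) (nat_lit 76296759702) (nat_lit 0) (nat_lit 79754581922) (nat_lit 2) (nat_lit 5) (nat_lit 4) (nat_lit 4) (nat_lit 2) (nat_lit 4) (nat_lit 412) (nat_lit 269) (nat_lit 219)) (XT.lf (nat_lit 0) (nat_lit 90480997845) (nat_lit 152) (nat_lit 74757551228) (nat_lit 0) (nat_lit 86442061836) (nat_lit 2) (nat_lit 5) (nat_lit 4) (nat_lit 4) (nat_lit 2) (nat_lit 4) (nat_lit 413) (nat_lit 269) (nat_lit 218))))))) (XT.nd (nat_lit 858) (nat_lit 0) (nat_lit 0) (XT.nd (nat_lit 390) (nat_lit 0) (nat_lit 0) (XT.nd (nat_lit 156) (nat_lit 0) (nat_lit 0) (XT.nd (nat_lit 78) (nat_lit 0) (nat_lit 0) (XT.lf (nat_lit 0) (nat_lit 97503094013) (nat_lit 152) (nat_lit 73178474479) (nat_lit 0) (nat_lit 93446737996) (nat_lit 2) (nat_lit 5) (nat_lit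 4) (nat_lit 4) (nat_lit 2) (nat_lit 4) (nat_lit 414) (nat_lit 269) (nat_lit 217)) (XT.lf (nat_lit 0) (nat_lit 104858234704) (nat_lit 152) (nat_lit 71555769747) (nat_lit 0) (nat_lit 100785288205) (nat_lit 2) (nat_lit 5) (nat_lit 4) (nat_lit 4) (nat_lit 2) (nat_lit 4) (nat_lit 415) (nat_lit 269) (nat_lit 216))) (XT.nd (nat_lit 78) (nat_lit 0) (nat_lit 0) (XT.lf (nat_lit 0) (nat_lit 112563932158) (nat_lit 152) (nat_lit 69885573451) (nat_lit 0) (nat_lit 108475185199) (nat_lit 2) (nat_lit 5) (nat_lit 4) (nat_lit 4) (nat_lit 2) (nat_lit 4) (nat_lit 416) (nat_lit 269) (nat_lit 215)) (XT.nd (nat_lit 78) (nat_lit 0) (nat_lit 0) (XT.lf (nat_lit 0) (nat_lit 120638533275) (nat_lit 152) (nat_lit 68163908931) (nat_lit 0) (nat_lit 116534738258) (nat_lit 2) (nat_lit 5) (nat_lit 4) (nat_lit 4) (nat_lit 2) (nat_lit 4) (nat_lit 417) (nat_lit 269) (nat_lit 214)) (XT.lf (nat_lit 0) (nat_lit 129101263294) (nat_lit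 152) (nat_lit 66386676987) (nat_lit 0) (nat_lit 124983136794) (nat_lit 2) (nat_lit 5) (nat_lit 4) (nat_lit 4) (nat_lit 2) (nat_lit 4) (nat_lit 418) (nat_lit 269) (nat_lit 213))))) (XT.nd (nat_lit 234) (nat_lit 0) (nat_lit 0) (XT.nd (nat_lit 78) (nat_lit 0) (nat_lit 0) (XT.lf (nat_lit 0) (nat_lit 137972271572) (nat_lit 152) (nat_lit 64549646115) (nat_lit 0) (nat_lit 133840496042) (nat_lit 2) (nat_lit 5) (nat_lit 4) (nat_lit 4) (nat_lit 2) (nat_lit 4) (nat_lit 419) (nat_lit 269) (nat_lit 212)) (XT.nd (nat_lit 78) (nat_lit 0) (nat_lit 0) (XT.lf (nat_lit 0) (nat_lit 147272679559) (nat_lit 152) (nat_lit 62648442431) (nat_lit 0) (nat_lit 143127904951) (nat_lit 2) (nat_lit 5) (nat_lit 4) (nat_lit 4) (nat_lit 2) (nat_lit 4) (nat_lit 420) (nat_lit 269) (nat_lit 211)) (XT.lf (nat_lit 0) (nat_lit 157024631083) (nat_lit 152) (nat_lit 60678539260) (nat_lit 0) (nat_lit 152867476401) (nat_lit 2) (nat_lit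 5) (nat_lit 4) (nat_lit 4) (nat_lit 2) (nat_lit 4) (nat_lit 421) (nat_lit 269) (nat_lit 210)))) (XT.nd (nat_lit 78) (nat_lit 0) (nat_lit 0) (XT.lf (nat_lit 0) (nat_lit 167251345075) (nat_lit 152) (nat_lit 58635246355) (nat_lit 0) (nat_lit 163082399847) (nat_lit 2) (nat_lit 5) (nat_lit 4) (nat_lit 4) (nat_lit 2) (nat_lit 4) (nat_lit 422) (nat_lit 269) (nat_lit 209)) (XT.nd (nat_lit 78) (nat_lit 0) (nat_lit 0) (XT.lf (nat_lit 0) (nat_lit 177977170856) (nat_lit 152) (nat_lit 56513698735) (nat_lit 0) (nat_lit 173796996536) (nat_lit 2) (nat_lit 5) (nat_lit 4) (nat_lit 4) (nat_lit 2) (nat_lit 4) (nat_lit 423) (nat_lit 269) (nat_lit 208)) (XT.lf (nat_lit 0) (nat_lit 189227646104) (nat_lit 152) (nat_lit 54308845095) (nat_lit 0) (nat_lit 185036777412) (nat_lit 2) (nat_lit 5) (nat_lit 4) (nat_lit 4) (nat_lit 2) (nat_lit 4) (nat_lit 424) (nat_lit 269) (nat_lit 207)))))) (XT.nd (nat_lit 468) (nat_lit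 0) (nat_lit 0) (XT.nd (nat_lit 234) (nat_lit 0) (nat_lit 0) (XT.nd (nat_lit 78) (nat_lit 0) (nat_lit 0) (XT.lf (nat_lit 0) (nat_lit 201029557667) (nat_lit 152) (nat_lit 52015435784) (nat_lit 0) (nat_lit 196828503857) (nat_lit 2) (nat_lit 5) (nat_lit 4) (nat_lit 4) (nat_lit 2) (nat_lit 4) (nat_lit 425) (nat_lit 269) (nat_lit 206)) (XT.nd (nat_lit 78) (nat_lit 0) (nat_lit 0) (XT.lf (nat_lit 0) (nat_lit 213411005334) (nat_lit 152) (nat_lit 49628010302) (nat_lit 0) (nat_lit 209200251412) (nat_lit 2) (nat_lit 5) (nat_lit 4) (nat_lit 4) (nat_lit 2) (nat_lit 4) (nat_lit 426) (nat_lit 269) (nat_lit 205)) (XT.lf (nat_lit 0) (nat_lit 226401468741) (nat_lit 152) (nat_lit 47140884305) (nat_lit 0) (nat_lit 222181476618) (nat_lit 2) (nat_lit 5) (nat_lit 4) (nat_lit 4) (nat_lit 2) (nat_lit 4) (nat_lit 427) (nat_lit 269) (nat_lit 204)))) (XT.nd (nat_lit 78) (nat_lit 0) (nat_lit 0) (XT.lf (nat_lit 0) (nat_lit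 240031877564) (nat_lit 152) (nat_lit 44548136063) (nat_lit 0) (nat_lit 235803087153) (nat_lit 2) (nat_lit 5) (nat_lit 4) (nat_lit 4) (nat_lit 2) (nat_lit 4) (nat_lit 428) (nat_lit 269) (nat_lit 203)) (XT.nd (nat_lit 78) (nat_lit 0) (nat_lit 0) (XT.lf (nat_lit 0) (nat_lit 254334685157) (nat_lit 152) (nat_lit 41843592367) (nat_lit 0) (nat_lit 250097515425) (nat_lit 2) (nat_lit 5) (nat_lit 4) (nat_lit 4) (nat_lit 2) (nat_lit 4) (nat_lit 429) (nat_lit 269) (nat_lit 202)) (XT.lf (nat_lit 0) (nat_lit 269343945824) (nat_lit 152) (nat_lit 39020813826) (nat_lit 0) (nat_lit 265098795786) (nat_lit 2) (nat_lit 5) (nat_lit 4) (nat_lit 4) (nat_lit 2) (nat_lit 4) (nat_lit 430) (nat_lit 269) (nat_lit 201))))) (XT.nd (nat_lit 234) (nat_lit 0) (nat_lit 0) (XT.nd (nat_lit 78) (nat_lit 0) (nat_lit 0) (XT.lf (nat_lit 0) (nat_lit 285095395900) (nat_lit 152) (nat_lit 36073079539) (nat_lit 0) (nat_lit 280842645571)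 (nat_lit 2) (nat_lit 5) (nat_lit 4) (nat_lit 4) (nat_lit 2) (nat_lit 4) (nat_lit 431) (nat_lit 269) (nat_lit 200)) (XT.nd (nat_lit 78) (nat_lit 0) (nat_lit 0) (XT.lf (nat_lit 0) (nat_lit 301626538837) (nat_lit 152) (nat_lit 32993371091) (nat_lit 0) (nat_lit 297366550135) (nat_lit 2) (nat_lit 5) (nat_lit 4) (nat_lit 4) (nat_lit 2) (nat_lit 4) (nat_lit 432) (nat_lit 269) (nat_lit 199)) (XT.lf (nat_lit 0) (nat_lit 318976734499) (nat_lit 152) (nat_lit 29774355843) (nat_lit 0) (nat_lit 314709852109) (nat_lit 2) (nat_lit 5) (nat_lit 4) (nat_lit 4) (nat_lit 2) (nat_lit 4) (nat_lit 433) (nat_lit 269) (nat_lit 198)))) (XT.nd (nat_lit 41106) (nat_lit 0) (nat_lit 836) (XT.lf (nat_lit 0) (nat_lit 337187292876) (nat_lit 152) (nat_lit 26408369474) (nat_lit 0) (nat_lit 332913845069) (nat_lit 2) (nat_lit 5) (nat_lit 4) (nat_lit 4) (nat_lit 2) (nat_lit 4) (nat_lit 434) (nat_lit 269) (nat_lit 197)) (XT.nd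 (nat_lit 78) (nat_lit 0) (nat_lit 0) (XT.lf (nat_lit 0) (nat_lit 4724525716) (nat_lit 76) (nat_lit 3369824947) (nat_lit 76) (nat_lit 3369824947) (nat_lit 13) (nat_lit 4) (nat_lit 14) (nat_lit 5) (nat_lit 14) (nat_lit 4) (nat_lit 360) (nat_lit 270) (nat_lit 270)) (XT.lf (nat_lit 0) (nat_lit 19705657272) (nat_lit 76) (nat_lit 2188301159) (nat_lit 76) (nat_lit 1920600727) (nat_lit 13) (nat_lit 4) (nat_lit 14) (nat_lit 5) (nat_lit 14) (nat_lit 4) (nat_lit 361) (nat_lit 270) (nat_lit 269))))))))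
noncomputable def xc31 : XT := (XT.nd (nat_lit 1794) (nat_lit 152) (nat_lit 0) (XT.nd (nat_lit 858) (nat_lit 228) (nat_lit 0) (XT.nd (nat_lit 390) (nat_lit 228) (nat_lit 0) (XT.nd (nat_lit 156) (nat_lit 76) (nat_lit 0) (XT.nd (nat_lit 78) (nat_lit 0) (nat_lit 0) (XT.lf (nat_lit 0) (nat_lit 3000116616) (nat_lit 152) (nat_lit 19242139598) (nat_lit 0) (nat_lit 2502351641) (nat_lit 11) (nat_lit 5) (nat_lit 13) (nat_lit 4) (nat_lit 11) (nat_lit 4) (nat_lit 362) (nat_lit 270) (nat_lit 268)) (XT.lf (nat_lit 0) (nat_lit 8043987462) (nat_lit 152) (nat_lit 10363580319) (nat_lit 0) (nat_lit 7314972788) (nat_lit 11) (nat_lit 5) (nat_lit 13) (nat_lit 4) (nat_lit 11) (nat_lit 4) (nat_lit 363) (nat_lit 270) (nat_lit 267))) (XT.nd (nat_lit 78) (nat_lit 76) (nat_lit 0) (XT.lf (nat_lit 0) (nat_lit 13182967682) (nat_lit 152) (nat_lit 1340578354) (nat_lit 0) (nat_lit 12233715201) (nat_lit 11) (nat_lit 5) (nat_lit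 13) (nat_lit 4) (nat_lit 11) (nat_lit 4) (nat_lit 364) (nat_lit 270) (nat_lit 266)) (XT.nd (nat_lit 78) (nat_lit 0) (nat_lit 0) (XT.lf (nat_lit 0) (nat_lit 8107851515) (nat_lit 76) (nat_lit 10448027713) (nat_lit 76) (nat_lit 9289024939) (nat_lit 10) (nat_lit 4) (nat_lit 11) (nat_lit 5) (nat_lit 11) (nat_lit 4) (nat_lit 365) (nat_lit 270) (nat_lit 265)) (XT.lf (nat_lit 0) (nat_lit 17794621046) (nat_lit 76) (nat_lit 6278657357) (nat_lit 76) (nat_lit 4919892399) (nat_lit 10) (nat_lit 4) (nat_lit 11) (nat_lit 5) (nat_lit 11) (nat_lit 4) (nat_lit 366) (nat_lit 270) (nat_lit 264))))) (XT.nd (nat_lit 234) (nat_lit 76) (nat_lit 0) (XT.nd (nat_lit 78) (nat_lit 152) (nat_lit 0) (XT.lf (nat_lit 0) (nat_lit 27698468398) (nat_lit 76) (nat_lit 2028211240) (nat_lit 76) (nat_lit 479196583) (nat_lit 10) (nat_lit 4) (nat_lit 11) (nat_lit 5) (nat_lit 11) (nat_lit 4) (nat_lit 367) (nat_lit 270) (nat_lit 263))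 (XT.nd (nat_lit 78) (nat_lit 0) (nat_lit 0) (XT.lf (nat_lit 0) (nat_lit 4054547342) (nat_lit 152) (nat_lit 25014453982) (nat_lit 0) (nat_lit 2406733202) (nat_lit 8) (nat_lit 5) (nat_lit 10) (nat_lit 4) (nat_lit 8) (nat_lit 4) (nat_lit 368) (nat_lit 270) (nat_lit 262)) (XT.lf (nat_lit 0) (nat_lit 8740429288) (nat_lit 152) (nat_lit 17142943314) (nat_lit 0) (nat_lit 6928270305) (nat_lit 8) (nat_lit 5) (nat_lit 10) (nat_lit 4) (nat_lit 8) (nat_lit 4) (nat_lit 369) (nat_lit 270) (nat_lit 261)))) (XT.nd (nat_lit 78) (nat_lit 76) (nat_lit 0) (XT.lf (nat_lit 0) (nat_lit 13532172292) (nat_lit 152) (nat_lit 9125128030) (nat_lit 0) (nat_lit 11563494411) (nat_lit 8) (nat_lit 5) (nat_lit 10) (nat_lit 4) (nat_lit 8) (nat_lit 4) (nat_lit 370) (nat_lit 270) (nat_lit 260)) (XT.nd (nat_lit 78) (nat_lit 76) (nat_lit 0) (XT.lf (nat_lit 0) (nat_lit 18441185266) (nat_lit 152) (nat_lit 941918094) (nat_lit 0)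 (nat_lit 16323441768) (nat_lit 8) (nat_lit 5) (nat_lit 10) (nat_lit 4) (nat_lit 8) (nat_lit 4) (nat_lit 371) (nat_lit 270) (nat_lit 259)) (XT.lf (nat_lit 0) (nat_lit 7671713055) (nat_lit 76) (nat_lit 15927220221) (nat_lit 76) (nat_lit 13667509468) (nat_lit 7) (nat_lit 4) (nat_lit 8) (nat_lit 5) (nat_lit 8) (nat_lit 4) (nat_lit 372) (nat_lit 270) (nat_lit 258)))))) (XT.nd (nat_lit 468) (nat_lit 76) (nat_lit 0) (XT.nd (nat_lit 234) (nat_lit 152) (nat_lit 0) (XT.nd (nat_lit 78) (nat_lit 0) (nat_lit 0) (XT.lf (nat_lit 0) (nat_lit 16528062472) (nat_lit 76) (nat_lit 12388067574) (nat_lit 76) (nat_lit 9993149912) (nat_lit 7) (nat_lit 4) (nat_lit 8) (nat_lit 5) (nat_lit 8) (nat_lit 4) (nat_lit 373) (nat_lit 270) (nat_lit 257)) (XT.nd (nat_lit 78) (nat_lit 0) (nat_lit 0) (XT.lf (nat_lit 0) (nat_lit 25617072635) (nat_lit 76) (nat_lit 8773170702) (nat_lit 76) (nat_lit 6249484555) (nat_lit 7) (nat_lit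 4) (nat_lit 8) (nat_lit 5) (nat_lit 8) (nat_lit 4) (nat_lit 374) (nat_lit 270) (nat_lit 256)) (XT.lf (nat_lit 0) (nat_lit 34960384047) (nat_lit 76) (nat_lit 5073922710) (nat_lit 76) (nat_lit 2427599911) (nat_lit 7) (nat_lit 4) (nat_lit 8) (nat_lit 5) (nat_lit 8) (nat_lit 4) (nat_lit 375) (nat_lit 270) (nat_lit 255)))) (XT.nd (nat_lit 78) (nat_lit 0) (nat_lit 0) (XT.lf (nat_lit 0) (nat_lit 182806856) (nat_lit 76) (nat_lit 1254230444) (nat_lit 152) (nat_lit 42941818196) (nat_lit 5) (nat_lit 5) (nat_lit 6) (nat_lit 5) (nat_lit 7) (nat_lit 4) (nat_lit 376) (nat_lit 270) (nat_lit 254)) (XT.nd (nat_lit 78) (nat_lit 0) (nat_lit 0) (XT.lf (nat_lit 0) (nat_lit 5485394680) (nat_lit 152) (nat_lit 38152767479) (nat_lit 0) (nat_lit 2747914043) (nat_lit 5) (nat_lit 5) (nat_lit 7) (nat_lit 4) (nat_lit 5) (nat_lit 4) (nat_lit 377) (nat_lit 270) (nat_lit 253)) (XT.lf (nat_lit 0) (nat_lit 9661408378) (nat_lit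 152) (nat_lit 32012970380) (nat_lit 0) (nat_lit 6823034263) (nat_lit 5) (nat_lit 5) (nat_lit 7) (nat_lit 4) (nat_lit 5) (nat_lit 4) (nat_lit 378) (nat_lit 270) (nat_lit 252))))) (XT.nd (nat_lit 234) (nat_lit 76) (nat_lit 0) (XT.nd (nat_lit 78) (nat_lit 0) (nat_lit 0) (XT.lf (nat_lit 0) (nat_lit 13955439231) (nat_lit 152) (nat_lit 25742456728) (nat_lit 0) (nat_lit 11020976090) (nat_lit 5) (nat_lit 5) (nat_lit 7) (nat_lit 4) (nat_lit 5) (nat_lit 4) (nat_lit 379) (nat_lit 270) (nat_lit 251)) (XT.nd (nat_lit 78) (nat_lit 0) (nat_lit 0) (XT.lf (nat_lit 0) (nat_lit 18377711122) (nat_lit 152) (nat_lit 19326296728) (nat_lit 0) (nat_lit 15351734623) (nat_lit 5) (nat_lit 5) (nat_lit 7) (nat_lit 4) (nat_lit 5) (nat_lit 4) (nat_lit 380) (nat_lit 270) (nat_lit 250)) (XT.lf (nat_lit 0) (nat_lit 22938753271) (nat_lit 152) (nat_lit 12749213810) (nat_lit 0) (nat_lit 19825621192) (nat_lit 5) (nat_lit 5)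 (nat_lit 7) (nat_lit 4) (nat_lit 5) (nat_lit 4) (nat_lit 381) (nat_lit 270) (nat_lit 249)))) (XT.nd (nat_lit 78) (nat_lit 76) (nat_lit 0) (XT.lf (nat_lit 0) (nat_lit 27649425300) (nat_lit 152) (nat_lit 5995548251) (nat_lit 0) (nat_lit 24453287909) (nat_lit 5) (nat_lit 5) (nat_lit 7) (nat_lit 4) (nat_lit 5) (nat_lit 4) (nat_lit 382) (nat_lit 270) (nat_lit 248)) (XT.nd (nat_lit 78) (nat_lit 0) (nat_lit 0) (XT.lf (nat_lit 0) (nat_lit 982217188) (nat_lit 76) (nat_lit 31554061072) (nat_lit 76) (nat_lit 28278871000) (nat_lit 4) (nat_lit 4) (nat_lit 5) (nat_lit 5) (nat_lit 5) (nat_lit 4) (nat_lit 383) (nat_lit 270) (nat_lit 247)) (XT.lf (nat_lit 0) (nat_lit 8374341355) (nat_lit 76) (nat_lit 29321311095) (nat_lit 76) (nat_lit 25970832758) (nat_lit 4) (nat_lit 4) (nat_lit 5) (nat_lit 5) (nat_lit 5) (nat_lit 4) (nat_lit 384) (nat_lit 270) (nat_lit 246))))))) (XT.nd (nat_lit 858) (nat_lit 0) (nat_lit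 0) (XT.nd (nat_lit 390) (nat_lit 152) (nat_lit 0) (XT.nd (nat_lit 156) (nat_lit 0) (nat_lit 0) (XT.nd (nat_lit 78) (nat_lit 0) (nat_lit 0) (XT.lf (nat_lit 0) (nat_lit 16000184643) (nat_lit 76) (nat_lit 27042945061) (nat_lit 76) (nat_lit 23620763613) (nat_lit 4) (nat_lit 4) (nat_lit 5) (nat_lit 5) (nat_lit 5) (nat_lit 4) (nat_lit 385) (nat_lit 270) (nat_lit 245)) (XT.lf (nat_lit 0) (nat_lit 23877903822) (nat_lit 76) (nat_lit 24713538288) (nat_lit 76) (nat_lit 21223068163) (nat_lit 4) (nat_lit 4) (nat_lit 5) (nat_lit 5) (nat_lit 5) (nat_lit 4) (nat_lit 386) (nat_lit 270) (nat_lit 244))) (XT.nd (nat_lit 78) (nat_lit 0) (nat_lit 0) (XT.lf (nat_lit 0) (nat_lit 32026255367) (nat_lit 76) (nat_lit 22327544571) (nat_lit 76) (nat_lit 18772037611) (nat_lit 4) (nat_lit 4) (nat_lit 5) (nat_lit 5) (nat_lit 5) (nat_lit 4) (nat_lit 387) (nat_lit 270) (nat_lit 243)) (XT.nd (nat_lit 78) (nat_lit 0) (nat_lit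 0) (XT.lf (nat_lit 0) (nat_lit 40464640113) (nat_lit 76) (nat_lit 19879282971) (nat_lit 76) (nat_lit 16261836168) (nat_lit 4) (nat_lit 4) (nat_lit 5) (nat_lit 5) (nat_lit 5) (nat_lit 4) (nat_lit 388) (nat_lit 270) (nat_lit 242)) (XT.lf (nat_lit 0) (nat_lit 49213149454) (nat_lit 76) (nat_lit 17362924294) (nat_lit 76) (nat_lit 13686487164) (nat_lit 4) (nat_lit 4) (nat_lit 5) (nat_lit 5) (nat_lit 5) (nat_lit 4) (nat_lit 389) (nat_lit 270) (nat_lit 241))))) (XT.nd (nat_lit 234) (nat_lit 152) (nat_lit 0) (XT.nd (nat_lit 78) (nat_lit 0) (nat_lit 0) (XT.lf (nat_lit 0) (nat_lit 58292613174) (nat_lit 76) (nat_lit 14772477210) (nat_lit 76) (nat_lit 11039858817) (nat_lit 4) (nat_lit 4) (nat_lit 5) (nat_lit 5) (nat_lit 5) (nat_lit 4) (nat_lit 390) (nat_lit 270) (nat_lit 240)) (XT.nd (nat_lit 78) (nat_lit 0) (nat_lit 0) (XT.lf (nat_lit 0) (nat_lit 67724649042) (nat_lit 76) (nat_lit 12101773988) (nat_lit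 76) (nat_lit 8315649630) (nat_lit 4) (nat_lit 4) (nat_lit 5) (nat_lit 5) (nat_lit 5) (nat_lit 4) (nat_lit 391) (nat_lit 270) (nat_lit 239)) (XT.lf (nat_lit 0) (nat_lit 77531714289) (nat_lit 76) (nat_lit 9344455811) (nat_lit 76) (nat_lit 5507373390) (nat_lit 4) (nat_lit 4) (nat_lit 5) (nat_lit 5) (nat_lit 5) (nat_lit 4) (nat_lit 392) (nat_lit 270) (nat_lit 238)))) (XT.nd (nat_lit 78) (nat_lit 152) (nat_lit 0) (XT.lf (nat_lit 0) (nat_lit 87737159068) (nat_lit 76) (nat_lit 6493957635) (nat_lit 76) (nat_lit 2608343727) (nat_lit 4) (nat_lit 4) (nat_lit 5) (nat_lit 5) (nat_lit 5) (nat_lit 4) (nat_lit 393) (nat_lit 270) (nat_lit 237)) (XT.nd (nat_lit 78) (nat_lit 76) (nat_lit 0) (XT.lf (nat_lit 0) (nat_lit 375912449) (nat_lit 152) (nat_lit 3161213851) (nat_lit 76) (nat_lit 97983003350) (nat_lit 3) (nat_lit 5) (nat_lit 5) (nat_lit 5) (nat_lit 4) (nat_lit 4) (nat_lit 394) (nat_lit 270) (nat_lit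 236)) (XT.lf (nat_lit 0) (nat_lit 3046813749) (nat_lit 76) (nat_lit 378877768) (nat_lit 152) (nat_lit 103006811516) (nat_lit 2) (nat_lit 5) (nat_lit 3) (nat_lit 5) (nat_lit 4) (nat_lit 4) (nat_lit 395) (nat_lit 270) (nat_lit 235)))))) (XT.nd (nat_lit 468) (nat_lit 0) (nat_lit 0) (XT.nd (nat_lit 234) (nat_lit 0) (nat_lit 0) (XT.nd (nat_lit 78) (nat_lit 0) (nat_lit 0) (XT.lf (nat_lit 0) (nat_lit 6684768870) (nat_lit 152) (nat_lit 102044578070) (nat_lit 0) (nat_lit 2858314407) (nat_lit 2) (nat_lit 5) (nat_lit 4) (nat_lit 4) (nat_lit 2) (nat_lit 4) (nat_lit 396) (nat_lit 270) (nat_lit 234)) (XT.nd (nat_lit 78) (nat_lit 0) (nat_lit 0) (XT.lf (nat_lit 0) (nat_lit 10071616697) (nat_lit 152) (nat_lit 100723589912) (nat_lit 0) (nat_lit 6207136543) (nat_lit 2) (nat_lit 5) (nat_lit 4) (nat_lit 4) (nat_lit 2) (nat_lit 4) (nat_lit 397) (nat_lit 270) (nat_lit 233)) (XT.lf (nat_lit 0) (nat_lit 13588383578)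 (nat_lit 152) (nat_lit 99413664258) (nat_lit 0) (nat_lit 9687688481) (nat_lit 2) (nat_lit 5) (nat_lit 4) (nat_lit 4) (nat_lit 2) (nat_lit 4) (nat_lit 398) (nat_lit 270) (nat_lit 232)))) (XT.nd (nat_lit 78) (nat_lit 0) (nat_lit 0) (XT.lf (nat_lit 0) (nat_lit 17243442768) (nat_lit 152) (nat_lit 98111682237) (nat_lit 0) (nat_lit 13308257249) (nat_lit 2) (nat_lit 5) (nat_lit 4) (nat_lit 4) (nat_lit 2) (nat_lit 4) (nat_lit 399) (nat_lit 270) (nat_lit 231)) (XT.nd (nat_lit 78) (nat_lit 0) (nat_lit 0) (XT.lf (nat_lit 0) (nat_lit 21045496789) (nat_lit 152) (nat_lit 96814543891) (nat_lit 0) (nat_lit 17077463249) (nat_lit 2) (nat_lit 5) (nat_lit 4) (nat_lit 4) (nat_lit 2) (nat_lit 4) (nat_lit 400) (nat_lit 270) (nat_lit 230)) (XT.lf (nat_lit 0) (nat_lit 25003598151) (nat_lit 152) (nat_lit 95519160797) (nat_lit 0) (nat_lit 21004280781) (nat_lit 2) (nat_lit 5) (nat_lit 4) (nat_lit 4) (nat_lit 2) (nat_lit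 4) (nat_lit 401) (nat_lit 270) (nat_lit 229))))) (XT.nd (nat_lit 234) (nat_lit 0) (nat_lit 0) (XT.nd (nat_lit 78) (nat_lit 0) (nat_lit 0) (XT.lf (nat_lit 0) (nat_lit 29127170903) (nat_lit 152) (nat_lit 94222448708) (nat_lit 0) (nat_lit 25098059410) (nat_lit 2) (nat_lit 5) (nat_lit 4) (nat_lit 4) (nat_lit 2) (nat_lit 4) (nat_lit 402) (nat_lit 270) (nat_lit 228)) (XT.nd (nat_lit 78) (nat_lit 0) (nat_lit 0) (XT.lf (nat_lit 0) (nat_lit 33426033077) (nat_lit 152) (nat_lit 92921320215) (nat_lit 0) (nat_lit 29368546228) (nat_lit 2) (nat_lit 5) (nat_lit 4) (nat_lit 4) (nat_lit 2) (nat_lit 4) (nat_lit 403) (nat_lit 270) (nat_lit 227)) (XT.lf (nat_lit 0) (nat_lit 37910420059) (nat_lit 152) (nat_lit 91612677393) (nat_lit 0) (nat_lit 33825909062) (nat_lit 2) (nat_lit 5) (nat_lit 4) (nat_lit 4) (nat_lit 2) (nat_lit 4) (nat_lit 404) (nat_lit 270) (nat_lit 226)))) (XT.nd (nat_lit 78) (nat_lit 0) (nat_lit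 0) (XT.lf (nat_lit 0) (nat_lit 42591008960) (nat_lit 152) (nat_lit 90293404426) (nat_lit 0) (nat_lit 38480760679) (nat_lit 2) (nat_lit 5) (nat_lit 4) (nat_lit 4) (nat_lit 2) (nat_lit 4) (nat_lit 405) (nat_lit 270) (nat_lit 225)) (XT.nd (nat_lit 78) (nat_lit 0) (nat_lit 0) (XT.lf (nat_lit 0) (nat_lit 47478944040) (nat_lit 152) (nat_lit 88960360187) (nat_lit 0) (nat_lit 43344184059) (nat_lit 2) (nat_lit 5) (nat_lit 4) (nat_lit 4) (nat_lit 2) (nat_lit 4) (nat_lit 406) (nat_lit 270) (nat_lit 224)) (XT.lf (nat_lit 0) (nat_lit 52585863240) (nat_lit 152) (nat_lit 87610370762) (nat_lit 0) (nat_lit 48427758784) (nat_lit 2) (nat_lit 5) (nat_lit 4) (nat_lit 4) (nat_lit 2) (nat_lit 4) (nat_lit 407) (nat_lit 270) (nat_lit 223))))))))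
noncomputable def xc32 : XT := (XT.nd (nat_lit 1716) (nat_lit 0) (nat_lit 0) (XT.nd (nat_lit 858) (nat_lit 0) (nat_lit 0) (XT.nd (nat_lit 390) (nat_lit 0) (nat_lit 0) (XT.nd (nat_lit 156) (nat_lit 0) (nat_lit 0) (XT.nd (nat_lit 78) (nat_lit 0) (nat_lit 0) (XT.lf (nat_lit 0) (nat_lit 57923925890) (nat_lit 152) (nat_lit 86240221891) (nat_lit 0) (nat_lit 53743588600) (nat_lit 2) (nat_lit 5) (nat_lit 4) (nat_lit 4) (nat_lit 2) (nat_lit 4) (nat_lit 408) (nat_lit 270) (nat_lit 222)) (XT.lf (nat_lit 0) (nat_lit 63505841664) (nat_lit 152) (nat_lit 84846651313) (nat_lit 0) (nat_lit 59304330247) (nat_lit 2) (nat_lit 5) (nat_lit 4) (nat_lit 4) (nat_lit 2) (nat_lit 4) (nat_lit 409) (nat_lit 270) (nat_lit 221))) (XT.nd (nat_lit 78) (nat_lit 0) (nat_lit 0) (XT.lf (nat_lit 0) (nat_lit 69344900838) (nat_lit 152) (nat_lit 83426341004) (nat_lit 0) (nat_lit 65123223585) (nat_lit 2) (nat_lit 5) (nat_lit 4)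 (nat_lit 4) (nat_lit 2) (nat_lit 4) (nat_lit 410) (nat_lit 270) (nat_lit 220)) (XT.nd (nat_lit 78) (nat_lit 0) (nat_lit 0) (XT.lf (nat_lit 0) (nat_lit 75455005933) (nat_lit 152) (nat_lit 81975909273) (nat_lit 0) (nat_lit 71214123123) (nat_lit 2) (nat_lit 5) (nat_lit 4) (nat_lit 4) (nat_lit 2) (nat_lit 4) (nat_lit 411) (nat_lit 270) (nat_lit 219)) (XT.lf (nat_lit 0) (nat_lit 81850704819) (nat_lit 152) (nat_lit 80491902711) (nat_lit 0) (nat_lit 77591531001) (nat_lit 2) (nat_lit 5) (nat_lit 4) (nat_lit 4) (nat_lit 2) (nat_lit 4) (nat_lit 412) (nat_lit 270) (nat_lit 218))))) (XT.nd (nat_lit 234) (nat_lit 0) (nat_lit 0) (XT.nd (nat_lit 78) (nat_lit 0) (nat_lit 0) (XT.lf (nat_lit 0) (nat_lit 88547225350) (nat_lit 152) (nat_lit 78970787968) (nat_lit 0) (nat_lit 84270631525) (nat_lit 2) (nat_lit 5) (nat_lit 4) (nat_lit 4) (nat_lit 2) (nat_lit 4) (nat_lit 413) (nat_lit 270) (nat_lit 217)) (XT.nd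 (nat_lit 78) (nat_lit 0) (nat_lit 0) (XT.lf (nat_lit 0) (nat_lit 95560511622) (nat_lit 152) (nat_lit 77408943343) (nat_lit 0) (nat_lit 91267327315) (nat_lit 2) (nat_lit 5) (nat_lit 4) (nat_lit 4) (nat_lit 2) (nat_lit 4) (nat_lit 414) (nat_lit 270) (nat_lit 216)) (XT.lf (nat_lit 0) (nat_lit 102907261937) (nat_lit 152) (nat_lit 75802650158) (nat_lit 0) (nat_lit 98598277170) (nat_lit 2) (nat_lit 5) (nat_lit 4) (nat_lit 4) (nat_lit 2) (nat_lit 4) (nat_lit 415) (nat_lit 270) (nat_lit 215)))) (XT.nd (nat_lit 78) (nat_lit 0) (nat_lit 0) (XT.lf (nat_lit 0) (nat_lit 110604968557) (nat_lit 152) (nat_lit 74148083907) (nat_lit 0) (nat_lit 106280935733) (nat_lit 2) (nat_lit 5) (nat_lit 4) (nat_lit 4) (nat_lit 2) (nat_lit 4) (nat_lit 416) (nat_lit 270) (nat_lit 214)) (XT.nd (nat_lit 78) (nat_lit 0) (nat_lit 0) (XT.lf (nat_lit 0) (nat_lit 118671959355) (nat_lit 152) (nat_lit 72441305144) (nat_lit 0) (nat_lit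 114333595048) (nat_lit 2) (nat_lit 5) (nat_lit 4) (nat_lit 4) (nat_lit 2) (nat_lit 4) (nat_lit 417) (nat_lit 270) (nat_lit 213)) (XT.lf (nat_lit 0) (nat_lit 127127441451) (nat_lit 152) (nat_lit 70678250112) (nat_lit 0) (nat_lit 122775428113) (nat_lit 2) (nat_lit 5) (nat_lit 4) (nat_lit 4) (nat_lit 2) (nat_lit 4) (nat_lit 418) (nat_lit 270) (nat_lit 212)))))) (XT.nd (nat_lit 390) (nat_lit 0) (nat_lit 0) (XT.nd (nat_lit 156) (nat_lit 0) (nat_lit 0) (XT.nd (nat_lit 78) (nat_lit 0) (nat_lit 0) (XT.lf (nat_lit 0) (nat_lit 135991546946) (nat_lit 152) (nat_lit 68854721060) (nat_lit 0) (nat_lit 131626534531) (nat_lit 2) (nat_lit 5) (nat_lit 4) (nat_lit 4) (nat_lit 2) (nat_lit 4) (nat_lit 419) (nat_lit 270) (nat_lit 211)) (XT.lf (nat_lit 0) (nat_lit 145285380854) (nat_lit 152) (nat_lit 66966376252) (nat_lit 0) (nat_lit 140907988365) (nat_lit 2) (nat_lit 5) (nat_lit 4) (nat_lit 4) (nat_lit 2) (nat_lit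 4) (nat_lit 420) (nat_lit 270) (nat_lit 210))) (XT.nd (nat_lit 78) (nat_lit 0) (nat_lit 0) (XT.lf (nat_lit 0) (nat_lit 155031071350) (nat_lit 152) (nat_lit 65008719630) (nat_lit 0) (nat_lit 150641888314) (nat_lit 2) (nat_lit 5) (nat_lit 4) (nat_lit 4) (nat_lit 2) (nat_lit 4) (nat_lit 421) (nat_lit 270) (nat_lit 209)) (XT.nd (nat_lit 78) (nat_lit 0) (nat_lit 0) (XT.lf (nat_lit 0) (nat_lit 165251822458) (nat_lit 152) (nat_lit 62977090106) (nat_lit 0) (nat_lit 160851410331) (nat_lit 2) (nat_lit 5) (nat_lit 4) (nat_lit 4) (nat_lit 2) (nat_lit 4) (nat_lit 422) (nat_lit 270) (nat_lit 208)) (XT.lf (nat_lit 0) (nat_lit 175971969302) (nat_lit 152) (nat_lit 60866650467) (nat_lit 0) (nat_lit 171560862801) (nat_lit 2) (nat_lit 5) (nat_lit 4) (nat_lit 4) (nat_lit 2) (nat_lit 4) (nat_lit 423) (nat_lit 270) (nat_lit 207))))) (XT.nd (nat_lit 234) (nat_lit 0) (nat_lit 0) (XT.nd (nat_lit 78) (nat_lit 0)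 (nat_lit 0) (XT.lf (nat_lit 0) (nat_lit 187217036039) (nat_lit 152) (nat_lit 58672375856) (nat_lit 0) (nat_lit 182795744421) (nat_lit 2) (nat_lit 5) (nat_lit 4) (nat_lit 4) (nat_lit 2) (nat_lit 4) (nat_lit 424) (nat_lit 270) (nat_lit 206)) (XT.nd (nat_lit 78) (nat_lit 0) (nat_lit 0) (XT.lf (nat_lit 0) (nat_lit 199013796639) (nat_lit 152) (nat_lit 56389041811) (nat_lit 0) (nat_lit 194582804909) (nat_lit 2) (nat_lit 5) (nat_lit 4) (nat_lit 4) (nat_lit 2) (nat_lit 4) (nat_lit 425) (nat_lit 270) (nat_lit 205)) (XT.lf (nat_lit 0) (nat_lit 211390338626) (nat_lit 152) (nat_lit 54011211822) (nat_lit 0) (nat_lit 206950108695) (nat_lit 2) (nat_lit 5) (nat_lit 4) (nat_lit 4) (nat_lit 2) (nat_lit 4) (nat_lit 426) (nat_lit 270) (nat_lit 204)))) (XT.nd (nat_lit 78) (nat_lit 0) (nat_lit 0) (XT.lf (nat_lit 0) (nat_lit 224376129958) (nat_lit 152) (nat_lit 51533224388) (nat_lit 0) (nat_lit 219927101739)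 (nat_lit 2) (nat_lit 5) (nat_lit 4) (nat_lit 4) (nat_lit 2) (nat_lit 4) (nat_lit 427) (nat_lit 270) (nat_lit 203)) (XT.nd (nat_lit 78) (nat_lit 0) (nat_lit 0) (XT.lf (nat_lit 0) (nat_lit 238002089185) (nat_lit 152) (nat_lit 48949179540) (nat_lit 0) (nat_lit 233544681646) (nat_lit 2) (nat_lit 5) (nat_lit 4) (nat_lit 4) (nat_lit 2) (nat_lit 4) (nat_lit 428) (nat_lit 270) (nat_lit 202)) (XT.lf (nat_lit 0) (nat_lit 252300659068) (nat_lit 152) (nat_lit 46252924790) (nat_lit 0) (nat_lit 247835271223) (nat_lit 2) (nat_lit 5) (nat_lit 4) (nat_lit 4) (nat_lit 2) (nat_lit 4) (nat_lit 429) (nat_lit 270) (nat_lit 201))))))) (XT.nd (nat_lit 41730) (nat_lit 0) (nat_lit 380) (XT.nd (nat_lit 41262) (nat_lit 0) (nat_lit 684) (XT.nd (nat_lit 156) (nat_lit 0) (nat_lit 0) (XT.nd (nat_lit 78) (nat_lit 0) (nat_lit 0) (XT.lf (nat_lit 0) (nat_lit 267305883821) (nat_lit 152) (nat_lit 43438040484) (nat_lit 0) (nat_lit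 262832895684) (nat_lit 2) (nat_lit 5) (nat_lit 4) (nat_lit 4) (nat_lit 2) (nat_lit 4) (nat_lit 430) (nat_lit 270) (nat_lit 200)) (XT.lf (nat_lit 0) (nat_lit 283053490168) (nat_lit 152) (nat_lit 40497824516) (nat_lit 0) (nat_lit 278573263659) (nat_lit 2) (nat_lit 5) (nat_lit 4) (nat_lit 4) (nat_lit 2) (nat_lit 4) (nat_lit 431) (nat_lit 270) (nat_lit 199))) (XT.nd (nat_lit 78) (nat_lit 0) (nat_lit 0) (XT.lf (nat_lit 0) (nat_lit 299580972412) (nat_lit 152) (nat_lit 37425276371) (nat_lit 0) (nat_lit 295093852214) (nat_lit 2) (nat_lit 5) (nat_lit 4) (nat_lit 4) (nat_lit 2) (nat_lit 4) (nat_lit 432) (nat_lit 270) (nat_lit 198)) (XT.nd (nat_lit 78) (nat_lit 0) (nat_lit 0) (XT.lf (nat_lit 0) (nat_lit 316927681699) (nat_lit 152) (nat_lit 34213080461) (nat_lit 0) (nat_lit 312433996084) (nat_lit 2) (nat_lit 5) (nat_lit 4) (nat_lit 4) (nat_lit 2) (nat_lit 4) (nat_lit 433) (nat_lit 270) (nat_lit 197))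 (XT.lf (nat_lit 0) (nat_lit 335134919720) (nat_lit 152) (nat_lit 30853588697) (nat_lit 0) (nat_lit 330634981326) (nat_lit 2) (nat_lit 5) (nat_lit 4) (nat_lit 4) (nat_lit 2) (nat_lit 4) (nat_lit 434) (nat_lit 270) (nat_lit 196))))) (XT.nd (nat_lit 234) (nat_lit 152) (nat_lit 0) (XT.nd (nat_lit 78) (nat_lit 76) (nat_lit 0) (XT.lf (nat_lit 0) (nat_lit 2810839812) (nat_lit 152) (nat_lit 5024629102) (nat_lit 0) (nat_lit 2810839812) (nat_lit 14) (nat_lit 5) (nat_lit 16) (nat_lit 4) (nat_lit 14) (nat_lit 4) (nat_lit 358) (nat_lit 271) (nat_lit 271)) (XT.nd (nat_lit 78) (nat_lit 76) (nat_lit 0) (XT.lf (nat_lit 0) (nat_lit 10882980788) (nat_lit 152) (nat_lit 607171894) (nat_lit 0) (nat_lit 10601895334) (nat_lit 14) (nat_lit 5) (nat_lit 16) (nat_lit 4) (nat_lit 14) (nat_lit 4) (nat_lit 359) (nat_lit 271) (nat_lit 270)) (XT.lf (nat_lit 0) (nat_lit 9291242510) (nat_lit 76) (nat_lit 7095045764) (nat_lit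 76) (nat_lit 6546259879) (nat_lit 13) (nat_lit 4) (nat_lit 14) (nat_lit 5) (nat_lit 14) (nat_lit 4) (nat_lit 360) (nat_lit 271) (nat_lit 269)))) (XT.nd (nat_lit 78) (nat_lit 152) (nat_lit 0) (XT.lf (nat_lit 0) (nat_lit 19397554135) (nat_lit 76) (nat_lit 2614468853) (nat_lit 76) (nat_lit 1810730175) (nat_lit 13) (nat_lit 4) (nat_lit 14) (nat_lit 5) (nat_lit 14) (nat_lit 4) (nat_lit 361) (nat_lit 271) (nat_lit 268)) (XT.nd (nat_lit 78) (nat_lit 0) (nat_lit 0) (XT.lf (nat_lit 0) (nat_lit 3014174009) (nat_lit 152) (nat_lit 19725717017) (nat_lit 0) (nat_lit 2017458903) (nat_lit 11) (nat_lit 5) (nat_lit 13) (nat_lit 4) (nat_lit 11) (nat_lit 4) (nat_lit 362) (nat_lit 271) (nat_lit 267)) (XT.lf (nat_lit 0) (nat_lit 7981418431) (nat_lit 152) (nat_lit 10993248118) (nat_lit 0) (nat_lit 6764465518) (nat_lit 11) (nat_lit 5) (nat_lit 13) (nat_lit 4) (nat_lit 11) (nat_lit 4) (nat_lit 363) (nat_lit 271)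 (nat_lit 266)))))) (XT.nd (nat_lit 468) (nat_lit 76) (nat_lit 0) (XT.nd (nat_lit 234) (nat_lit 152) (nat_lit 0) (XT.nd (nat_lit 78) (nat_lit 76) (nat_lit 0) (XT.lf (nat_lit 0) (nat_lit 13047421106) (nat_lit 152) (nat_lit 2109379849) (nat_lit 0) (nat_lit 11620717900) (nat_lit 11) (nat_lit 5) (nat_lit 13) (nat_lit 4) (nat_lit 11) (nat_lit 4) (nat_lit 364) (nat_lit 271) (nat_lit 265)) (XT.nd (nat_lit 78) (nat_lit 0) (nat_lit 0) (XT.lf (nat_lit 0) (nat_lit 7176740368) (nat_lit 76) (nat_lit 11159552605) (nat_lit 76) (nat_lit 9533087215) (nat_lit 10) (nat_lit 4) (nat_lit 11) (nat_lit 5) (nat_lit 11) (nat_lit 4) (nat_lit 365) (nat_lit 271) (nat_lit 264)) (XT.lf (nat_lit 0) (nat_lit 16733138847) (nat_lit 76) (nat_lit 7052325057) (nat_lit 76) (nat_lit 5235609968) (nat_lit 10) (nat_lit 4) (nat_lit 11) (nat_lit 5) (nat_lit 11) (nat_lit 4) (nat_lit 366) (nat_lit 271) (nat_lit 263)))) (XT.nd (nat_lit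 78) (nat_lit 152) (nat_lit 0) (XT.lf (nat_lit 0) (nat_lit 26512823294) (nat_lit 76) (nat_lit 2861062566) (nat_lit 76) (nat_lit 863157288) (nat_lit 10) (nat_lit 4) (nat_lit 11) (nat_lit 5) (nat_lit 11) (nat_lit 4) (nat_lit 367) (nat_lit 271) (nat_lit 262)) (XT.nd (nat_lit 78) (nat_lit 0) (nat_lit 0) (XT.lf (nat_lit 0) (nat_lit 3584142120) (nat_lit 152) (nat_lit 26410978916) (nat_lit 0) (nat_lit 1517030345) (nat_lit 8) (nat_lit 5) (nat_lit 10) (nat_lit 4) (nat_lit 8) (nat_lit 4) (nat_lit 368) (nat_lit 271) (nat_lit 261)) (XT.lf (nat_lit 0) (nat_lit 8207373803) (nat_lit 152) (nat_lit 18660088208) (nat_lit 0) (nat_lit 5983743130) (nat_lit 8) (nat_lit 5) (nat_lit 10) (nat_lit 4) (nat_lit 8) (nat_lit 4) (nat_lit 369) (nat_lit 271) (nat_lit 260))))) (XT.nd (nat_lit 234) (nat_lit 0) (nat_lit 0) (XT.nd (nat_lit 78) (nat_lit 76) (nat_lit 0) (XT.lf (nat_lit 0) (nat_lit 12939449890) (nat_lit 152) (nat_lit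 10757149076) (nat_lit 0) (nat_lit 10566753599) (nat_lit 8) (nat_lit 5) (nat_lit 10) (nat_lit 4) (nat_lit 8) (nat_lit 4) (nat_lit 370) (nat_lit 271) (nat_lit 259)) (XT.nd (nat_lit 78) (nat_lit 76) (nat_lit 0) (XT.lf (nat_lit 0) (nat_lit 17791637228) (nat_lit 152) (nat_lit 2683344999) (nat_lit 0) (nat_lit 15276973683) (nat_lit 8) (nat_lit 5) (nat_lit 10) (nat_lit 4) (nat_lit 8) (nat_lit 4) (nat_lit 371) (nat_lit 271) (nat_lit 258)) (XT.lf (nat_lit 0) (nat_lit 5765065463) (nat_lit 76) (nat_lit 17100432010) (nat_lit 76) (nat_lit 14450561556) (nat_lit 7) (nat_lit 4) (nat_lit 8) (nat_lit 5) (nat_lit 8) (nat_lit 4) (nat_lit 372) (nat_lit 271) (nat_lit 257)))) (XT.nd (nat_lit 78) (nat_lit 0) (nat_lit 0) (XT.lf (nat_lit 0) (nat_lit 14518899404) (nat_lit 76) (nat_lit 13610651757) (nat_lit 76) (nat_lit 10832012818) (nat_lit 7) (nat_lit 4) (nat_lit 8) (nat_lit 5) (nat_lit 8) (nat_lit 4) (nat_lit 373)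 (nat_lit 271) (nat_lit 256)) (XT.nd (nat_lit 78) (nat_lit 0) (nat_lit 0) (XT.lf (nat_lit 0) (nat_lit 23510275783) (nat_lit 76) (nat_lit 10042776214) (nat_lit 76) (nat_lit 7141500622) (nat_lit 7) (nat_lit 4) (nat_lit 8) (nat_lit 5) (nat_lit 8) (nat_lit 4) (nat_lit 374) (nat_lit 271) (nat_lit 255)) (XT.lf (nat_lit 0) (nat_lit 32760602636) (nat_lit 76) (nat_lit 6388310439) (nat_lit 76) (nat_lit 3370238036) (nat_lit 7) (nat_lit 4) (nat_lit 8) (nat_lit 5) (nat_lit 8) (nat_lit 4) (nat_lit 375) (nat_lit 271) (nat_lit 254))))))))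
noncomputable def xc33 : XT := (XT.nd (nat_lit 1716) (nat_lit 0) (nat_lit 0) (XT.nd (nat_lit 858) (nat_lit 152) (nat_lit 0) (XT.nd (nat_lit 390) (nat_lit 76) (nat_lit 0) (XT.nd (nat_lit 156) (nat_lit 0) (nat_lit 0) (XT.nd (nat_lit 78) (nat_lit 76) (nat_lit 0) (XT.lf (nat_lit 0) (nat_lit 475046940) (nat_lit 152) (nat_lit 2155461232) (nat_lit 76) (nat_lit 41808812462) (nat_lit 6) (nat_lit 5) (nat_lit 8) (nat_lit 5) (nat_lit 7) (nat_lit 4) (nat_lit 376) (nat_lit 271) (nat_lit 253)) (XT.lf (nat_lit 0) (nat_lit 4420082457) (nat_lit 152) (nat_lit 40692737111) (nat_lit 0) (nat_lit 1338896159) (nat_lit 5) (nat_lit 5) (nat_lit 7) (nat_lit 4) (nat_lit 5) (nat_lit 4) (nat_lit 377) (nat_lit 271) (nat_lit 252))) (XT.nd (nat_lit 78) (nat_lit 0) (nat_lit 0) (XT.lf (nat_lit 0) (nat_lit 8551811506) (nat_lit 152) (nat_lit 34638926989) (nat_lit 0) (nat_lit 5374536182) (nat_lit 5) (nat_lit 5) (nat_lit 7) (nat_lit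 4) (nat_lit 5) (nat_lit 4) (nat_lit 378) (nat_lit 271) (nat_lit 251)) (XT.nd (nat_lit 78) (nat_lit 0) (nat_lit 0) (XT.lf (nat_lit 0) (nat_lit 12803666503) (nat_lit 152) (nat_lit 28450305696) (nat_lit 0) (nat_lit 9534877821) (nat_lit 5) (nat_lit 5) (nat_lit 7) (nat_lit 4) (nat_lit 5) (nat_lit 4) (nat_lit 379) (nat_lit 271) (nat_lit 250)) (XT.lf (nat_lit 0) (nat_lit 17185770913) (nat_lit 152) (nat_lit 22112138418) (nat_lit 0) (nat_lit 13829826651) (nat_lit 5) (nat_lit 5) (nat_lit 7) (nat_lit 4) (nat_lit 5) (nat_lit 4) (nat_lit 380) (nat_lit 271) (nat_lit 249))))) (XT.nd (nat_lit 234) (nat_lit 76) (nat_lit 0) (XT.nd (nat_lit 78) (nat_lit 0) (nat_lit 0) (XT.lf (nat_lit 0) (nat_lit 21708558317) (nat_lit 152) (nat_lit 15609334283) (nat_lit 0) (nat_lit 18269608742) (nat_lit 5) (nat_lit 5) (nat_lit 7) (nat_lit 4) (nat_lit 5) (nat_lit 4) (nat_lit 381) (nat_lit 271) (nat_lit 248)) (XT.nd (nat_lit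 78) (nat_lit 0) (nat_lit 0) (XT.lf (nat_lit 0) (nat_lit 26382797256) (nat_lit 152) (nat_lit 8926410422) (nat_lit 0) (nat_lit 22864795002) (nat_lit 5) (nat_lit 5) (nat_lit 7) (nat_lit 4) (nat_lit 5) (nat_lit 4) (nat_lit 382) (nat_lit 271) (nat_lit 247)) (XT.lf (nat_lit 0) (nat_lit 31219616872) (nat_lit 152) (nat_lit 2047455113) (nat_lit 0) (nat_lit 27626326352) (nat_lit 5) (nat_lit 5) (nat_lit 7) (nat_lit 4) (nat_lit 5) (nat_lit 4) (nat_lit 383) (nat_lit 271) (nat_lit 246)))) (XT.nd (nat_lit 78) (nat_lit 0) (nat_lit 0) (XT.lf (nat_lit 0) (nat_lit 5210684557) (nat_lit 76) (nat_lit 31101202233) (nat_lit 76) (nat_lit 27436208602) (nat_lit 4) (nat_lit 4) (nat_lit 5) (nat_lit 5) (nat_lit 5) (nat_lit 4) (nat_lit 384) (nat_lit 271) (nat_lit 245)) (XT.nd (nat_lit 78) (nat_lit 0) (nat_lit 0) (XT.lf (nat_lit 0) (nat_lit 12773397955) (nat_lit 76) (nat_lit 28853508181) (nat_lit 76) (nat_lit 25120225873)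 (nat_lit 4) (nat_lit 4) (nat_lit 5) (nat_lit 5) (nat_lit 5) (nat_lit 4) (nat_lit 385) (nat_lit 271) (nat_lit 244)) (XT.lf (nat_lit 0) (nat_lit 20590993430) (nat_lit 76) (nat_lit 26553312820) (nat_lit 76) (nat_lit 22754993677) (nat_lit 4) (nat_lit 4) (nat_lit 5) (nat_lit 5) (nat_lit 5) (nat_lit 4) (nat_lit 386) (nat_lit 271) (nat_lit 243)))))) (XT.nd (nat_lit 390) (nat_lit 152) (nat_lit 0) (XT.nd (nat_lit 156) (nat_lit 0) (nat_lit 0) (XT.nd (nat_lit 78) (nat_lit 0) (nat_lit 0) (XT.lf (nat_lit 0) (nat_lit 28682084304) (nat_lit 76) (nat_lit 24195139494) (nat_lit 76) (nat_lit 20334880508) (nat_lit 4) (nat_lit 4) (nat_lit 5) (nat_lit 5) (nat_lit 5) (nat_lit 4) (nat_lit 387) (nat_lit 271) (nat_lit 242)) (XT.lf (nat_lit 0) (nat_lit 37065935078) (nat_lit 76) (nat_lit 21773373505) (nat_lit 76) (nat_lit 17854124193) (nat_lit 4) (nat_lit 4) (nat_lit 5) (nat_lit 5) (nat_lit 5) (nat_lit 4) (nat_lit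 388) (nat_lit 271) (nat_lit 241))) (XT.nd (nat_lit 78) (nat_lit 0) (nat_lit 0) (XT.lf (nat_lit 0) (nat_lit 45762507303) (nat_lit 76) (nat_lit 19282248744) (nat_lit 76) (nat_lit 15306818168) (nat_lit 4) (nat_lit 4) (nat_lit 5) (nat_lit 5) (nat_lit 5) (nat_lit 4) (nat_lit 389) (nat_lit 271) (nat_lit 240)) (XT.nd (nat_lit 78) (nat_lit 0) (nat_lit 0) (XT.lf (nat_lit 0) (nat_lit 54792507102) (nat_lit 76) (nat_lit 16715833961) (nat_lit 76) (nat_lit 12686897419) (nat_lit 4) (nat_lit 4) (nat_lit 5) (nat_lit 5) (nat_lit 5) (nat_lit 4) (nat_lit 390) (nat_lit 271) (nat_lit 239)) (XT.lf (nat_lit 0) (nat_lit 64177434475) (nat_lit 76) (nat_lit 14068018644) (nat_lit 76) (nat_lit 9988124040) (nat_lit 4) (nat_lit 4) (nat_lit 5) (nat_lit 5) (nat_lit 5) (nat_lit 4) (nat_lit 391) (nat_lit 271) (nat_lit 238))))) (XT.nd (nat_lit 234) (nat_lit 152) (nat_lit 0) (XT.nd (nat_lit 78) (nat_lit 0) (nat_lit 0) (XT.lf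 (nat_lit 0) (nat_lit 73939634488) (nat_lit 76) (nat_lit 11332498472) (nat_lit 76) (nat_lit 7204072380) (nat_lit 4) (nat_lit 4) (nat_lit 5) (nat_lit 5) (nat_lit 5) (nat_lit 4) (nat_lit 392) (nat_lit 271) (nat_lit 237)) (XT.nd (nat_lit 78) (nat_lit 0) (nat_lit 0) (XT.lf (nat_lit 0) (nat_lit 84102350473) (nat_lit 76) (nat_lit 8502760300) (nat_lit 76) (nat_lit 4328113745) (nat_lit 4) (nat_lit 4) (nat_lit 5) (nat_lit 5) (nat_lit 5) (nat_lit 4) (nat_lit 393) (nat_lit 271) (nat_lit 236)) (XT.lf (nat_lit 0) (nat_lit 94689779374) (nat_lit 76) (nat_lit 5572066659) (nat_lit 76) (nat_lit 1353400613) (nat_lit 4) (nat_lit 4) (nat_lit 5) (nat_lit 5) (nat_lit 5) (nat_lit 4) (nat_lit 394) (nat_lit 271) (nat_lit 235)))) (XT.nd (nat_lit 78) (nat_lit 76) (nat_lit 0) (XT.lf (nat_lit 0) (nat_lit 1671870089) (nat_lit 152) (nat_lit 833255686) (nat_lit 76) (nat_lit 104026945336) (nat_lit 3) (nat_lit 5) (nat_lit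 5) (nat_lit 5) (nat_lit 4) (nat_lit 4) (nat_lit 395) (nat_lit 271) (nat_lit 234)) (XT.nd (nat_lit 78) (nat_lit 0) (nat_lit 0) (XT.lf (nat_lit 0) (nat_lit 4863898381) (nat_lit 152) (nat_lit 106058518093) (nat_lit 0) (nat_lit 768168529) (nat_lit 2) (nat_lit 5) (nat_lit 4) (nat_lit 4) (nat_lit 2) (nat_lit 4) (nat_lit 396) (nat_lit 271) (nat_lit 233)) (XT.lf (nat_lit 0) (nat_lit 8231515312) (nat_lit 152) (nat_lit 104775145502) (nat_lit 0) (nat_lit 4099570517) (nat_lit 2) (nat_lit 5) (nat_lit 4) (nat_lit 4) (nat_lit 2) (nat_lit 4) (nat_lit 397) (nat_lit 271) (nat_lit 232))))))) (XT.nd (nat_lit 858) (nat_lit 0) (nat_lit 0) (XT.nd (nat_lit 390) (nat_lit 0) (nat_lit 0) (XT.nd (nat_lit 156) (nat_lit 0) (nat_lit 0) (XT.nd (nat_lit 78) (nat_lit 0) (nat_lit 0) (XT.lf (nat_lit 0) (nat_lit 11729967054) (nat_lit 152) (nat_lit 103501044196) (nat_lit 0) (nat_lit 7563531837) (nat_lit 2) (nat_lit 5) (nat_lit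 4) (nat_lit 4) (nat_lit 2) (nat_lit 4) (nat_lit 398) (nat_lit 271) (nat_lit 231)) (XT.lf (nat_lit 0) (nat_lit 15367583255) (nat_lit 152) (nat_lit 102233180603) (nat_lit 0) (nat_lit 11168300016) (nat_lit 2) (nat_lit 5) (nat_lit 4) (nat_lit 4) (nat_lit 2) (nat_lit 4) (nat_lit 399) (nat_lit 271) (nat_lit 230))) (XT.nd (nat_lit 78) (nat_lit 0) (nat_lit 0) (XT.lf (nat_lit 0) (nat_lit 19153024905) (nat_lit 152) (nat_lit 100968535998) (nat_lit 0) (nat_lit 14922457836) (nat_lit 2) (nat_lit 5) (nat_lit 4) (nat_lit 4) (nat_lit 2) (nat_lit 4) (nat_lit 400) (nat_lit 271) (nat_lit 229)) (XT.nd (nat_lit 78) (nat_lit 0) (nat_lit 0) (XT.lf (nat_lit 0) (nat_lit 23095304960) (nat_lit 152) (nat_lit 99704099323) (nat_lit 0) (nat_lit 18834943768) (nat_lit 2) (nat_lit 5) (nat_lit 4) (nat_lit 4) (nat_lit 2) (nat_lit 4) (nat_lit 401) (nat_lit 271) (nat_lit 228)) (XT.lf (nat_lit 0) (nat_lit 27203809802) (nat_lit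 152) (nat_lit 98436860015) (nat_lit 0) (nat_lit 22915073255) (nat_lit 2) (nat_lit 5) (nat_lit 4) (nat_lit 4) (nat_lit 2) (nat_lit 4) (nat_lit 402) (nat_lit 271) (nat_lit 227))))) (XT.nd (nat_lit 234) (nat_lit 0) (nat_lit 0) (XT.nd (nat_lit 78) (nat_lit 0) (nat_lit 0) (XT.lf (nat_lit 0) (nat_lit 31488321586) (nat_lit 152) (nat_lit 97163800837) (nat_lit 0) (nat_lit 27172560890) (nat_lit 2) (nat_lit 5) (nat_lit 4) (nat_lit 4) (nat_lit 2) (nat_lit 4) (nat_lit 403) (nat_lit 271) (nat_lit 226)) (XT.nd (nat_lit 78) (nat_lit 0) (nat_lit 0) (XT.lf (nat_lit 0) (nat_lit 35959041528) (nat_lit 152) (nat_lit 95881890696) (nat_lit 0) (nat_lit 31617543549) (nat_lit 2) (nat_lit 5) (nat_lit 4) (nat_lit 4) (nat_lit 2) (nat_lit 4) (nat_lit 404) (nat_lit 271) (nat_lit 225)) (XT.lf (nat_lit 0) (nat_lit 40626614202) (nat_lit 152) (nat_lit 94588077425) (nat_lit 0) (nat_lit 36260604523) (nat_lit 2) (nat_lit 5)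 (nat_lit 4) (nat_lit 4) (nat_lit 2) (nat_lit 4) (nat_lit 405) (nat_lit 271) (nat_lit 224)))) (XT.nd (nat_lit 78) (nat_lit 0) (nat_lit 0) (XT.lf (nat_lit 0) (nat_lit 45502152875) (nat_lit 152) (nat_lit 93279280516) (nat_lit 0) (nat_lit 41112798721) (nat_lit 2) (nat_lit 5) (nat_lit 4) (nat_lit 4) (nat_lit 2) (nat_lit 4) (nat_lit 406) (nat_lit 271) (nat_lit 223)) (XT.nd (nat_lit 78) (nat_lit 0) (nat_lit 0) (XT.lf (nat_lit 0) (nat_lit 50597265972) (nat_lit 152) (nat_lit 91952383786) (nat_lit 0) (nat_lit 46185678985) (nat_lit 2) (nat_lit 5) (nat_lit 4) (nat_lit 4) (nat_lit 2) (nat_lit 4) (nat_lit 407) (nat_lit 271) (nat_lit 222)) (XT.lf (nat_lit 0) (nat_lit 55924084716) (nat_lit 152) (nat_lit 90604227957) (nat_lit 0) (nat_lit 51491323601) (nat_lit 2) (nat_lit 5) (nat_lit 4) (nat_lit 4) (nat_lit 2) (nat_lit 4) (nat_lit 408) (nat_lit 271) (nat_lit 221)))))) (XT.nd (nat_lit 468) (nat_lit 0) (nat_lit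 0) (XT.nd (nat_lit 234) (nat_lit 0) (nat_lit 0) (XT.nd (nat_lit 78) (nat_lit 0) (nat_lit 0) (XT.lf (nat_lit 0) (nat_lit 61495292008) (nat_lit 152) (nat_lit 89231603135) (nat_lit 0) (nat_lit 57042365057) (nat_lit 2) (nat_lit 5) (nat_lit 4) (nat_lit 4) (nat_lit 2) (nat_lit 4) (nat_lit 409) (nat_lit 271) (nat_lit 220)) (XT.nd (nat_lit 78) (nat_lit 0) (nat_lit 0) (XT.lf (nat_lit 0) (nat_lit 67324152627) (nat_lit 152) (nat_lit 87831241164) (nat_lit 0) (nat_lit 62852020118) (nat_lit 2) (nat_lit 5) (nat_lit 4) (nat_lit 4) (nat_lit 2) (nat_lit 4) (nat_lit 410) (nat_lit 271) (nat_lit 219)) (XT.lf (nat_lit 0) (nat_lit 73424544813) (nat_lit 152) (nat_lit 86399807850) (nat_lit 0) (nat_lit 68934121297) (nat_lit 2) (nat_lit 5) (nat_lit 4) (nat_lit 4) (nat_lit 2) (nat_lit 4) (nat_lit 411) (nat_lit 271) (nat_lit 218)))) (XT.nd (nat_lit 78) (nat_lit 0) (nat_lit 0) (XT.lf (nat_lit 0) (nat_lit 79810993309)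 (nat_lit 152) (nat_lit 84933895018) (nat_lit 0) (nat_lit 75303149786) (nat_lit 2) (nat_lit 5) (nat_lit 4) (nat_lit 4) (nat_lit 2) (nat_lit 4) (nat_lit 412) (nat_lit 271) (nat_lit 217)) (XT.nd (nat_lit 78) (nat_lit 0) (nat_lit 0) (XT.lf (nat_lit 0) (nat_lit 86498703944) (nat_lit 152) (nat_lit 83430012400) (nat_lit 0) (nat_lit 81974269939) (nat_lit 2) (nat_lit 5) (nat_lit 4) (nat_lit 4) (nat_lit 2) (nat_lit 4) (nat_lit 413) (nat_lit 271) (nat_lit 216)) (XT.lf (nat_lit 0) (nat_lit 93503599841) (nat_lit 152) (nat_lit 81884579322) (nat_lit 0) (nat_lit 88963365376) (nat_lit 2) (nat_lit 5) (nat_lit 4) (nat_lit 4) (nat_lit 2) (nat_lit 4) (nat_lit 414) (nat_lit 271) (nat_lit 215))))) (XT.nd (nat_lit 234) (nat_lit 0) (nat_lit 0) (XT.nd (nat_lit 78) (nat_lit 0) (nat_lit 0) (XT.lf (nat_lit 0) (nat_lit 100842359321) (nat_lit 152) (nat_lit 80293916182) (nat_lit 0) (nat_lit 96287076799) (nat_lit 2) (nat_lit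 5) (nat_lit 4) (nat_lit 4) (nat_lit 2) (nat_lit 4) (nat_lit 415) (nat_lit 271) (nat_lit 214)) (XT.nd (nat_lit 78) (nat_lit 0) (nat_lit 0) (XT.lf (nat_lit 0) (nat_lit 108532455622) (nat_lit 152) (nat_lit 78654235687) (nat_lit 0) (nat_lit 103962841617) (nat_lit 2) (nat_lit 5) (nat_lit 4) (nat_lit 4) (nat_lit 2) (nat_lit 4) (nat_lit 416) (nat_lit 271) (nat_lit 213)) (XT.lf (nat_lit 0) (nat_lit 116592198497) (nat_lit 152) (nat_lit 76961633836) (nat_lit 0) (nat_lit 112008935461) (nat_lit 2) (nat_lit 5) (nat_lit 4) (nat_lit 4) (nat_lit 2) (nat_lit 4) (nat_lit 417) (nat_lit 271) (nat_lit 212)))) (XT.nd (nat_lit 78) (nat_lit 0) (nat_lit 0) (XT.lf (nat_lit 0) (nat_lit 125040777810) (nat_lit 152) (nat_lit 75212080625) (nat_lit 0) (nat_lit 120444515697) (nat_lit 2) (nat_lit 5) (nat_lit 4) (nat_lit 4) (nat_lit 2) (nat_lit 4) (nat_lit 418) (nat_lit 271) (nat_lit 211)) (XT.nd (nat_lit 78) (nat_lit 0)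 (nat_lit 0) (XT.lf (nat_lit 0) (nat_lit 133898309227) (nat_lit 152) (nat_lit 73401410449) (nat_lit 0) (nat_lit 129289667039) (nat_lit 2) (nat_lit 5) (nat_lit 4) (nat_lit 4) (nat_lit 2) (nat_lit 4) (nat_lit 419) (nat_lit 271) (nat_lit 210)) (XT.lf (nat_lit 0) (nat_lit 143185882106) (nat_lit 152) (nat_lit 71525312191) (nat_lit 0) (nat_lit 138565449372) (nat_lit 2) (nat_lit 5) (nat_lit 4) (nat_lit 4) (nat_lit 2) (nat_lit 4) (nat_lit 420) (nat_lit 271) (nat_lit 209))))))))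
noncomputable def xc34 : XT := (XT.nd (nat_lit 42432) (nat_lit 0) (nat_lit 152) (XT.nd (nat_lit 858) (nat_lit 0) (nat_lit 0) (XT.nd (nat_lit 390) (nat_lit 0) (nat_lit 0) (XT.nd (nat_lit 156) (nat_lit 0) (nat_lit 0) (XT.nd (nat_lit 78) (nat_lit 0) (nat_lit 0) (XT.lf (nat_lit 0) (nat_lit 152925609718) (nat_lit 152) (nat_lit 69579318949) (nat_lit 0) (nat_lit 148293947892) (nat_lit 2) (nat_lit 5) (nat_lit 4) (nat_lit 4) (nat_lit 2) (nat_lit 4) (nat_lit 421) (nat_lit 271) (nat_lit 208)) (XT.lf (nat_lit 0) (nat_lit 163140681890) (nat_lit 152) (nat_lit 67558797406) (nat_lit 0) (nat_lit 158498325691) (nat_lit 2) (nat_lit 5) (nat_lit 4) (nat_lit 4) (nat_lit 2) (nat_lit 4) (nat_lit 422) (nat_lit 271) (nat_lit 207))) (XT.nd (nat_lit 78) (nat_lit 0) (nat_lit 0) (XT.lf (nat_lit 0) (nat_lit 173855420222) (nat_lit 152) (nat_lit 65458936796) (nat_lit 0) (nat_lit 169202878906) (nat_lit 2) (nat_lit 5) (nat_lit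 4) (nat_lit 4) (nat_lit 2) (nat_lit 4) (nat_lit 423) (nat_lit 271) (nat_lit 206)) (XT.nd (nat_lit 78) (nat_lit 0) (nat_lit 0) (XT.lf (nat_lit 0) (nat_lit 185095335996) (nat_lit 152) (nat_lit 63274737452) (nat_lit 0) (nat_lit 180433094568) (nat_lit 2) (nat_lit 5) (nat_lit 4) (nat_lit 4) (nat_lit 2) (nat_lit 4) (nat_lit 424) (nat_lit 271) (nat_lit 205)) (XT.lf (nat_lit 0) (nat_lit 196887190916) (nat_lit 152) (nat_lit 61000998898) (nat_lit 0) (nat_lit 192215711287) (nat_lit 2) (nat_lit 5) (nat_lit 4) (nat_lit 4) (nat_lit 2) (nat_lit 4) (nat_lit 425) (nat_lit 271) (nat_lit 204))))) (XT.nd (nat_lit 234) (nat_lit 0) (nat_lit 0) (XT.nd (nat_lit 78) (nat_lit 0) (nat_lit 0) (XT.lf (nat_lit 0) (nat_lit 209259060828) (nat_lit 152) (nat_lit 58632307472) (nat_lit 0) (nat_lit 204578782912) (nat_lit 2) (nat_lit 5) (nat_lit 4) (nat_lit 4) (nat_lit 2) (nat_lit 4) (nat_lit 426) (nat_lit 271) (nat_lit 203))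 (XT.nd (nat_lit 78) (nat_lit 0) (nat_lit 0) (XT.lf (nat_lit 0) (nat_lit 222240402564) (nat_lit 152) (nat_lit 56163023433) (nat_lit 0) (nat_lit 217551745327) (nat_lit 2) (nat_lit 5) (nat_lit 4) (nat_lit 4) (nat_lit 2) (nat_lit 4) (nat_lit 427) (nat_lit 271) (nat_lit 202)) (XT.lf (nat_lit 0) (nat_lit 235862124082) (nat_lit 152) (nat_lit 53587267531) (nat_lit 0) (nat_lit 231165486538) (nat_lit 2) (nat_lit 5) (nat_lit 4) (nat_lit 4) (nat_lit 2) (nat_lit 4) (nat_lit 428) (nat_lit 271) (nat_lit 201)))) (XT.nd (nat_lit 78) (nat_lit 0) (nat_lit 0) (XT.lf (nat_lit 0) (nat_lit 250156658050) (nat_lit 152) (nat_lit 50898907016) (nat_lit 0) (nat_lit 245452420215) (nat_lit 2) (nat_lit 5) (nat_lit 4) (nat_lit 4) (nat_lit 2) (nat_lit 4) (nat_lit 429) (nat_lit 271) (nat_lit 200)) (XT.nd (nat_lit 78) (nat_lit 0) (nat_lit 0) (XT.lf (nat_lit 0) (nat_lit 265158039075) (nat_lit 152) (nat_lit 48091541028) (nat_lit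 0) (nat_lit 260446562867) (nat_lit 2) (nat_lit 5) (nat_lit 4) (nat_lit 4) (nat_lit 2) (nat_lit 4) (nat_lit 430) (nat_lit 271) (nat_lit 199)) (XT.lf (nat_lit 0) (nat_lit 280901984729) (nat_lit 152) (nat_lit 45158485364) (nat_lit 0) (nat_lit 276183614833) (nat_lit 2) (nat_lit 5) (nat_lit 4) (nat_lit 4) (nat_lit 2) (nat_lit 4) (nat_lit 431) (nat_lit 271) (nat_lit 198)))))) (XT.nd (nat_lit 41106) (nat_lit 0) (nat_lit 684) (XT.nd (nat_lit 156) (nat_lit 0) (nat_lit 0) (XT.nd (nat_lit 78) (nat_lit 0) (nat_lit 0) (XT.lf (nat_lit 0) (nat_lit 297425980598) (nat_lit 152) (nat_lit 42092756556) (nat_lit 0) (nat_lit 292701045284) (nat_lit 2) (nat_lit 5) (nat_lit 4) (nat_lit 4) (nat_lit 2) (nat_lit 4) (nat_lit 432) (nat_lit 271) (nat_lit 197)) (XT.lf (nat_lit 0) (nat_lit 314769369529) (nat_lit 152) (nat_lit 38887055252) (nat_lit 0) (nat_lit 310038181437) (nat_lit 2) (nat_lit 5) (nat_lit 4) (nat_lit 4)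 (nat_lit 2) (nat_lit 4) (nat_lit 433) (nat_lit 271) (nat_lit 196))) (XT.nd (nat_lit 40794) (nat_lit 0) (nat_lit 912) (XT.lf (nat_lit 0) (nat_lit 332973445305) (nat_lit 152) (nat_lit 35533748828) (nat_lit 0) (nat_lit 328236302186) (nat_lit 2) (nat_lit 5) (nat_lit 4) (nat_lit 4) (nat_lit 2) (nat_lit 4) (nat_lit 434) (nat_lit 271) (nat_lit 195)) (XT.nd (nat_lit 78) (nat_lit 152) (nat_lit 0) (XT.lf (nat_lit 0) (nat_lit 5700076217) (nat_lit 76) (nat_lit 2103278489) (nat_lit 76) (nat_lit 2103278489) (nat_lit 16) (nat_lit 4) (nat_lit 17) (nat_lit 5) (nat_lit 17) (nat_lit 4) (nat_lit 356) (nat_lit 272) (nat_lit 272)) (XT.lf (nat_lit 0) (nat_lit 739935266) (nat_lit 152) (nat_lit 19354875367) (nat_lit 0) (nat_lit 444795540) (nat_lit 14) (nat_lit 5) (nat_lit 16) (nat_lit 4) (nat_lit 14) (nat_lit 4) (nat_lit 357) (nat_lit 272) (nat_lit 271))))) (XT.nd (nat_lit 234) (nat_lit 152) (nat_lit 0) (XT.nd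 (nat_lit 78) (nat_lit 76) (nat_lit 0) (XT.lf (nat_lit 0) (nat_lit 5831732948) (nat_lit 152) (nat_lit 10209654161) (nat_lit 0) (nat_lit 5255507769) (nat_lit 14) (nat_lit 5) (nat_lit 16) (nat_lit 4) (nat_lit 14) (nat_lit 4) (nat_lit 358) (nat_lit 272) (nat_lit 270)) (XT.nd (nat_lit 78) (nat_lit 76) (nat_lit 0) (XT.lf (nat_lit 0) (nat_lit 11011999444) (nat_lit 152) (nat_lit 920325902) (nat_lit 0) (nat_lit 10168073832) (nat_lit 14) (nat_lit 5) (nat_lit 16) (nat_lit 4) (nat_lit 14) (nat_lit 4) (nat_lit 359) (nat_lit 272) (nat_lit 269)) (XT.lf (nat_lit 0) (nat_lit 8817440003) (nat_lit 76) (nat_lit 7613293667) (nat_lit 76) (nat_lit 6514415263) (nat_lit 13) (nat_lit 4) (nat_lit 14) (nat_lit 5) (nat_lit 14) (nat_lit 4) (nat_lit 360) (nat_lit 272) (nat_lit 268)))) (XT.nd (nat_lit 78) (nat_lit 152) (nat_lit 0) (XT.lf (nat_lit 0) (nat_lit 18780614283) (nat_lit 76) (nat_lit 3200118493) (nat_lit 76)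 (nat_lit 1858427907) (nat_lit 13) (nat_lit 4) (nat_lit 14) (nat_lit 5) (nat_lit 14) (nat_lit 4) (nat_lit 361) (nat_lit 272) (nat_lit 267)) (XT.nd (nat_lit 78) (nat_lit 0) (nat_lit 0) (XT.lf (nat_lit 0) (nat_lit 2871850103) (nat_lit 152) (nat_lit 20532958586) (nat_lit 0) (nat_lit 1373811737) (nat_lit 11) (nat_lit 5) (nat_lit 13) (nat_lit 4) (nat_lit 11) (nat_lit 4) (nat_lit 362) (nat_lit 272) (nat_lit 266)) (XT.lf (nat_lit 0) (nat_lit 7766116980) (nat_lit 152) (nat_lit 11939623382) (nat_lit 0) (nat_lit 6058328320) (nat_lit 11) (nat_lit 5) (nat_lit 13) (nat_lit 4) (nat_lit 11) (nat_lit 4) (nat_lit 363) (nat_lit 272) (nat_lit 265))))))) (XT.nd (nat_lit 858) (nat_lit 228) (nat_lit 0) (XT.nd (nat_lit 390) (nat_lit 76) (nat_lit 0) (XT.nd (nat_lit 156) (nat_lit 152) (nat_lit 0) (XT.nd (nat_lit 78) (nat_lit 76) (nat_lit 0) (XT.lf (nat_lit 0) (nat_lit 12762617230) (nat_lit 152) (nat_lit 3188263394)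 (nat_lit 0) (nat_lit 10855066386) (nat_lit 11) (nat_lit 5) (nat_lit 13) (nat_lit 4) (nat_lit 11) (nat_lit 4) (nat_lit 364) (nat_lit 272) (nat_lit 264)) (XT.lf (nat_lit 0) (nat_lit 5931813009) (nat_lit 76) (nat_lit 12034046497) (nat_lit 76) (nat_lit 9936245955) (nat_lit 10) (nat_lit 4) (nat_lit 11) (nat_lit 5) (nat_lit 11) (nat_lit 4) (nat_lit 365) (nat_lit 272) (nat_lit 263))) (XT.nd (nat_lit 78) (nat_lit 152) (nat_lit 0) (XT.lf (nat_lit 0) (nat_lit 15364048583) (nat_lit 76) (nat_lit 7986002576) (nat_lit 76) (nat_lit 5707011844) (nat_lit 10) (nat_lit 4) (nat_lit 11) (nat_lit 5) (nat_lit 11) (nat_lit 4) (nat_lit 366) (nat_lit 272) (nat_lit 262)) (XT.nd (nat_lit 78) (nat_lit 152) (nat_lit 0) (XT.lf (nat_lit 0) (nat_lit 25025482644) (nat_lit 76) (nat_lit 3851105444) (nat_lit 76) (nat_lit 1399552627) (nat_lit 10) (nat_lit 4) (nat_lit 11) (nat_lit 5) (nat_lit 11) (nat_lit 4) (nat_lit 367) (nat_lit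 272) (nat_lit 261)) (XT.lf (nat_lit 0) (nat_lit 2961783597) (nat_lit 152) (nat_lit 28124601015) (nat_lit 0) (nat_lit 470452492) (nat_lit 8) (nat_lit 5) (nat_lit 10) (nat_lit 4) (nat_lit 8) (nat_lit 4) (nat_lit 368) (nat_lit 272) (nat_lit 260))))) (XT.nd (nat_lit 234) (nat_lit 76) (nat_lit 0) (XT.nd (nat_lit 78) (nat_lit 0) (nat_lit 0) (XT.lf (nat_lit 0) (nat_lit 7525348363) (nat_lit 152) (nat_lit 20488586458) (nat_lit 0) (nat_lit 4884951640) (nat_lit 8) (nat_lit 5) (nat_lit 10) (nat_lit 4) (nat_lit 8) (nat_lit 4) (nat_lit 369) (nat_lit 272) (nat_lit 259)) (XT.nd (nat_lit 78) (nat_lit 0) (nat_lit 0) (XT.lf (nat_lit 0) (nat_lit 12200598814) (nat_lit 152) (nat_lit 12695053186) (nat_lit 0) (nat_lit 9418234837) (nat_lit 8) (nat_lit 5) (nat_lit 10) (nat_lit 4) (nat_lit 8) (nat_lit 4) (nat_lit 370) (nat_lit 272) (nat_lit 258)) (XT.lf (nat_lit 0) (nat_lit 16998666499) (nat_lit 152) (nat_lit 4725445166)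 (nat_lit 0) (nat_lit 14081095613) (nat_lit 8) (nat_lit 5) (nat_lit 10) (nat_lit 4) (nat_lit 8) (nat_lit 4) (nat_lit 371) (nat_lit 272) (nat_lit 257)))) (XT.nd (nat_lit 78) (nat_lit 0) (nat_lit 0) (XT.lf (nat_lit 0) (nat_lit 3552928767) (nat_lit 76) (nat_lit 18433517797) (nat_lit 76) (nat_lit 15387178426) (nat_lit 7) (nat_lit 4) (nat_lit 8) (nat_lit 5) (nat_lit 8) (nat_lit 4) (nat_lit 372) (nat_lit 272) (nat_lit 256)) (XT.nd (nat_lit 78) (nat_lit 0) (nat_lit 0) (XT.lf (nat_lit 0) (nat_lit 12209128923) (nat_lit 76) (nat_lit 14990758872) (nat_lit 76) (nat_lit 11821782848) (nat_lit 7) (nat_lit 4) (nat_lit 8) (nat_lit 5) (nat_lit 8) (nat_lit 4) (nat_lit 373) (nat_lit 272) (nat_lit 255)) (XT.lf (nat_lit 0) (nat_lit 21107520744) (nat_lit 76) (nat_lit 11467665546) (nat_lit 76) (nat_lit 8181892711) (nat_lit 7) (nat_lit 4) (nat_lit 8) (nat_lit 5) (nat_lit 8) (nat_lit 4) (nat_lit 374) (nat_lit 272)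 (nat_lit 254)))))) (XT.nd (nat_lit 468) (nat_lit 76) (nat_lit 0) (XT.nd (nat_lit 234) (nat_lit 0) (nat_lit 0) (XT.nd (nat_lit 78) (nat_lit 152) (nat_lit 0) (XT.lf (nat_lit 0) (nat_lit 30269290876) (nat_lit 76) (nat_lit 7855849502) (nat_lit 76) (nat_lit 4458841608) (nat_lit 7) (nat_lit 4) (nat_lit 8) (nat_lit 5) (nat_lit 8) (nat_lit 4) (nat_lit 375) (nat_lit 272) (nat_lit 253)) (XT.nd (nat_lit 78) (nat_lit 152) (nat_lit 0) (XT.lf (nat_lit 0) (nat_lit 39716253057) (nat_lit 76) (nat_lit 4146711177) (nat_lit 76) (nat_lit 643765132) (nat_lit 7) (nat_lit 4) (nat_lit 8) (nat_lit 5) (nat_lit 8) (nat_lit 4) (nat_lit 376) (nat_lit 272) (nat_lit 252)) (XT.lf (nat_lit 0) (nat_lit 2985462740) (nat_lit 76) (nat_lit 228831045) (nat_lit 152) (nat_lit 43310720175) (nat_lit 5) (nat_lit 5) (nat_lit 6) (nat_lit 5) (nat_lit 7) (nat_lit 4) (nat_lit 377) (nat_lit 272) (nat_lit 251)))) (XT.nd (nat_lit 78) (nat_lit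 0) (nat_lit 0) (XT.lf (nat_lit 0) (nat_lit 7300274286) (nat_lit 152) (nat_lit 37564060763) (nat_lit 0) (nat_lit 3776532811) (nat_lit 5) (nat_lit 5) (nat_lit 7) (nat_lit 4) (nat_lit 5) (nat_lit 4) (nat_lit 378) (nat_lit 272) (nat_lit 250)) (XT.nd (nat_lit 78) (nat_lit 0) (nat_lit 0) (XT.lf (nat_lit 0) (nat_lit 11511961801) (nat_lit 152) (nat_lit 31453432192) (nat_lit 0) (nat_lit 7901064748) (nat_lit 5) (nat_lit 5) (nat_lit 7) (nat_lit 4) (nat_lit 5) (nat_lit 4) (nat_lit 379) (nat_lit 272) (nat_lit 249)) (XT.lf (nat_lit 0) (nat_lit 15855811466) (nat_lit 152) (nat_lit 25189543698) (nat_lit 0) (nat_lit 12161909099) (nat_lit 5) (nat_lit 5) (nat_lit 7) (nat_lit 4) (nat_lit 5) (nat_lit 4) (nat_lit 380) (nat_lit 272) (nat_lit 248))))) (XT.nd (nat_lit 234) (nat_lit 76) (nat_lit 0) (XT.nd (nat_lit 78) (nat_lit 0) (nat_lit 0) (XT.lf (nat_lit 0) (nat_lit 20342165780) (nat_lit 152) (nat_lit 18757481261)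 (nat_lit 0) (nat_lit 16569210734) (nat_lit 5) (nat_lit 5) (nat_lit 7) (nat_lit 4) (nat_lit 5) (nat_lit 4) (nat_lit 381) (nat_lit 272) (nat_lit 247)) (XT.nd (nat_lit 78) (nat_lit 0) (nat_lit 0) (XT.lf (nat_lit 0) (nat_lit 24981706539) (nat_lit 152) (nat_lit 12141930446) (nat_lit 0) (nat_lit 21133463226) (nat_lit 5) (nat_lit 5) (nat_lit 7) (nat_lit 4) (nat_lit 5) (nat_lit 4) (nat_lit 382) (nat_lit 272) (nat_lit 246)) (XT.lf (nat_lit 0) (nat_lit 29785480268) (nat_lit 152) (nat_lit 5327139943) (nat_lit 0) (nat_lit 25865533845) (nat_lit 5) (nat_lit 5) (nat_lit 7) (nat_lit 4) (nat_lit 5) (nat_lit 4) (nat_lit 383) (nat_lit 272) (nat_lit 245)))) (XT.nd (nat_lit 78) (nat_lit 0) (nat_lit 0) (XT.lf (nat_lit 0) (nat_lit 1759428645) (nat_lit 76) (nat_lit 33032965491) (nat_lit 76) (nat_lit 29044730390) (nat_lit 4) (nat_lit 4) (nat_lit 5) (nat_lit 5) (nat_lit 5) (nat_lit 4) (nat_lit 384) (nat_lit 272)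 (nat_lit 244)) (XT.nd (nat_lit 78) (nat_lit 0) (nat_lit 0) (XT.lf (nat_lit 0) (nat_lit 9262018340) (nat_lit 76) (nat_lit 30814482850) (nat_lit 76) (nat_lit 26761210915) (nat_lit 4) (nat_lit 4) (nat_lit 5) (nat_lit 5) (nat_lit 5) (nat_lit 4) (nat_lit 385) (nat_lit 272) (nat_lit 243)) (XT.lf (nat_lit 0) (nat_lit 17022353144) (nat_lit 76) (nat_lit 28542107881) (nat_lit 76) (nat_lit 24426896103) (nat_lit 4) (nat_lit 4) (nat_lit 5) (nat_lit 5) (nat_lit 5) (nat_lit 4) (nat_lit 386) (nat_lit 272) (nat_lit 242))))))))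
noncomputable def xc35 : XT := (XT.nd (nat_lit 1716) (nat_lit 0) (nat_lit 0) (XT.nd (nat_lit 858) (nat_lit 0) (nat_lit 0) (XT.nd (nat_lit 390) (nat_lit 152) (nat_lit 0) (XT.nd (nat_lit 156) (nat_lit 0) (nat_lit 0) (XT.nd (nat_lit 78) (nat_lit 0) (nat_lit 0) (XT.lf (nat_lit 0) (nat_lit 25058910045) (nat_lit 76) (nat_lit 26210430167) (nat_lit 76) (nat_lit 22036228062) (nat_lit 4) (nat_lit 4) (nat_lit 5) (nat_lit 5) (nat_lit 5) (nat_lit 4) (nat_lit 387) (nat_lit 272) (nat_lit 241)) (XT.lf (nat_lit 0) (nat_lit 33390823703) (nat_lit 76) (nat_lit 23813898094) (nat_lit 76) (nat_lit 19583514725) (nat_lit 4) (nat_lit 4) (nat_lit 5) (nat_lit 5) (nat_lit 5) (nat_lit 4) (nat_lit 388) (nat_lit 272) (nat_lit 240))) (XT.nd (nat_lit 78) (nat_lit 0) (nat_lit 0) (XT.lf (nat_lit 0) (nat_lit 42037932008) (nat_lit 76) (nat_lit 21346805633) (nat_lit 76) (nat_lit 17062916299) (nat_lit 4) (nat_lit 4) (nat_lit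 5) (nat_lit 5) (nat_lit 5) (nat_lit 4) (nat_lit 389) (nat_lit 272) (nat_lit 239)) (XT.nd (nat_lit 78) (nat_lit 0) (nat_lit 0) (XT.lf (nat_lit 0) (nat_lit 51020823311) (nat_lit 76) (nat_lit 18803278755) (nat_lit 76) (nat_lit 14468431359) (nat_lit 4) (nat_lit 4) (nat_lit 5) (nat_lit 5) (nat_lit 5) (nat_lit 4) (nat_lit 390) (nat_lit 272) (nat_lit 238)) (XT.lf (nat_lit 0) (nat_lit 60360885451) (nat_lit 76) (nat_lit 16177261443) (nat_lit 76) (nat_lit 11793882559) (nat_lit 4) (nat_lit 4) (nat_lit 5) (nat_lit 5) (nat_lit 5) (nat_lit 4) (nat_lit 391) (nat_lit 272) (nat_lit 237))))) (XT.nd (nat_lit 234) (nat_lit 152) (nat_lit 0) (XT.nd (nat_lit 78) (nat_lit 0) (nat_lit 0) (XT.lf (nat_lit 0) (nat_lit 70080356669) (nat_lit 76) (nat_lit 13462501275) (nat_lit 76) (nat_lit 9032901927) (nat_lit 4) (nat_lit 4) (nat_lit 5) (nat_lit 5) (nat_lit 5) (nat_lit 4) (nat_lit 392) (nat_lit 272) (nat_lit 236)) (XT.nd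 (nat_lit 78) (nat_lit 0) (nat_lit 0) (XT.lf (nat_lit 0) (nat_lit 80202378565) (nat_lit 76) (nat_lit 10652534537) (nat_lit 76) (nat_lit 6178915699) (nat_lit 4) (nat_lit 4) (nat_lit 5) (nat_lit 5) (nat_lit 5) (nat_lit 4) (nat_lit 393) (nat_lit 272) (nat_lit 235)) (XT.lf (nat_lit 0) (nat_lit 90751051190) (nat_lit 76) (nat_lit 7740670832) (nat_lit 76) (nat_lit 3225128670) (nat_lit 4) (nat_lit 4) (nat_lit 5) (nat_lit 5) (nat_lit 5) (nat_lit 4) (nat_lit 394) (nat_lit 272) (nat_lit 234)))) (XT.nd (nat_lit 78) (nat_lit 152) (nat_lit 0) (XT.lf (nat_lit 0) (nat_lit 101751490431) (nat_lit 76) (nat_lit 4719977150) (nat_lit 76) (nat_lit 164508013) (nat_lit 4) (nat_lit 4) (nat_lit 5) (nat_lit 5) (nat_lit 5) (nat_lit 4) (nat_lit 395) (nat_lit 272) (nat_lit 233)) (XT.nd (nat_lit 78) (nat_lit 0) (nat_lit 0) (XT.lf (nat_lit 0) (nat_lit 1425602087) (nat_lit 76) (nat_lit 1510542748) (nat_lit 152) (nat_lit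 108863308085) (nat_lit 2) (nat_lit 5) (nat_lit 3) (nat_lit 5) (nat_lit 4) (nat_lit 4) (nat_lit 396) (nat_lit 272) (nat_lit 232)) (XT.lf (nat_lit 0) (nat_lit 6261862822) (nat_lit 152) (nat_lit 109102718786) (nat_lit 0) (nat_lit 1852615422) (nat_lit 2) (nat_lit 5) (nat_lit 4) (nat_lit 4) (nat_lit 2) (nat_lit 4) (nat_lit 397) (nat_lit 272) (nat_lit 231)))))) (XT.nd (nat_lit 390) (nat_lit 0) (nat_lit 0) (XT.nd (nat_lit 156) (nat_lit 0) (nat_lit 0) (XT.nd (nat_lit 78) (nat_lit 0) (nat_lit 0) (XT.lf (nat_lit 0) (nat_lit 9742871575) (nat_lit 152) (nat_lit 107862735909) (nat_lit 0) (nat_lit 5300776153) (nat_lit 2) (nat_lit 5) (nat_lit 4) (nat_lit 4) (nat_lit 2) (nat_lit 4) (nat_lit 398) (nat_lit 272) (nat_lit 230)) (XT.lf (nat_lit 0) (nat_lit 13363875404) (nat_lit 152) (nat_lit 106627366056) (nat_lit 0) (nat_lit 8890496153) (nat_lit 2) (nat_lit 5) (nat_lit 4) (nat_lit 4) (nat_lit 2) (nat_lit 4)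 (nat_lit 399) (nat_lit 272) (nat_lit 229))) (XT.nd (nat_lit 78) (nat_lit 0) (nat_lit 0) (XT.lf (nat_lit 0) (nat_lit 17133495748) (nat_lit 152) (nat_lit 105393667871) (nat_lit 0) (nat_lit 12630322374) (nat_lit 2) (nat_lit 5) (nat_lit 4) (nat_lit 4) (nat_lit 2) (nat_lit 4) (nat_lit 400) (nat_lit 272) (nat_lit 228)) (XT.nd (nat_lit 78) (nat_lit 0) (nat_lit 0) (XT.lf (nat_lit 0) (nat_lit 21060707894) (nat_lit 152) (nat_lit 104158703977) (nat_lit 0) (nat_lit 16529159163) (nat_lit 2) (nat_lit 5) (nat_lit 4) (nat_lit 4) (nat_lit 2) (nat_lit 4) (nat_lit 401) (nat_lit 272) (nat_lit 227)) (XT.lf (nat_lit 0) (nat_lit 25154862345) (nat_lit 152) (nat_lit 102919533984) (nat_lit 0) (nat_lit 20596289466) (nat_lit 2) (nat_lit 5) (nat_lit 4) (nat_lit 4) (nat_lit 2) (nat_lit 4) (nat_lit 402) (nat_lit 272) (nat_lit 226))))) (XT.nd (nat_lit 234) (nat_lit 0) (nat_lit 0) (XT.nd (nat_lit 78) (nat_lit 0) (nat_lit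 0) (XT.lf (nat_lit 0) (nat_lit 29425707090) (nat_lit 152) (nat_lit 101673207487) (nat_lit 0) (nat_lit 24841396927) (nat_lit 2) (nat_lit 5) (nat_lit 4) (nat_lit 4) (nat_lit 2) (nat_lit 4) (nat_lit 403) (nat_lit 272) (nat_lit 225)) (XT.nd (nat_lit 78) (nat_lit 0) (nat_lit 0) (XT.lf (nat_lit 0) (nat_lit 33883410805) (nat_lit 152) (nat_lit 100416757042) (nat_lit 0) (nat_lit 29274588943) (nat_lit 2) (nat_lit 5) (nat_lit 4) (nat_lit 4) (nat_lit 2) (nat_lit 4) (nat_lit 404) (nat_lit 272) (nat_lit 224)) (XT.lf (nat_lit 0) (nat_lit 38538587072) (nat_lit 152) (nat_lit 99147191100) (nat_lit 0) (nat_lit 33906420734) (nat_lit 2) (nat_lit 5) (nat_lit 4) (nat_lit 4) (nat_lit 2) (nat_lit 4) (nat_lit 405) (nat_lit 272) (nat_lit 223)))) (XT.nd (nat_lit 78) (nat_lit 0) (nat_lit 0) (XT.lf (nat_lit 0) (nat_lit 43402319643) (nat_lit 152) (nat_lit 97861486886) (nat_lit 0) (nat_lit 38747920472) (nat_lit 2) (nat_lit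 5) (nat_lit 4) (nat_lit 4) (nat_lit 2) (nat_lit 4) (nat_lit 406) (nat_lit 272) (nat_lit 222)) (XT.nd (nat_lit 78) (nat_lit 0) (nat_lit 0) (XT.lf (nat_lit 0) (nat_lit 48486188833) (nat_lit 152) (nat_lit 96556583199) (nat_lit 0) (nat_lit 43810615535) (nat_lit 2) (nat_lit 5) (nat_lit 4) (nat_lit 4) (nat_lit 2) (nat_lit 4) (nat_lit 407) (nat_lit 272) (nat_lit 221)) (XT.lf (nat_lit 0) (nat_lit 53802299095) (nat_lit 152) (nat_lit 95229373125) (nat_lit 0) (nat_lit 49106559961) (nat_lit 2) (nat_lit 5) (nat_lit 4) (nat_lit 4) (nat_lit 2) (nat_lit 4) (nat_lit 408) (nat_lit 272) (nat_lit 220))))))) (XT.nd (nat_lit 858) (nat_lit 0) (nat_lit 0) (XT.nd (nat_lit 390) (nat_lit 0) (nat_lit 0) (XT.nd (nat_lit 156) (nat_lit 0) (nat_lit 0) (XT.nd (nat_lit 78) (nat_lit 0) (nat_lit 0) (XT.lf (nat_lit 0) (nat_lit 59363307831) (nat_lit 152) (nat_lit 93876696640) (nat_lit 0) (nat_lit 54648363140) (nat_lit 2) (nat_lit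 5) (nat_lit 4) (nat_lit 4) (nat_lit 2) (nat_lit 4) (nat_lit 409) (nat_lit 272) (nat_lit 219)) (XT.lf (nat_lit 0) (nat_lit 65182455541) (nat_lit 152) (nat_lit 92495333087) (nat_lit 0) (nat_lit 60449219842) (nat_lit 2) (nat_lit 5) (nat_lit 4) (nat_lit 4) (nat_lit 2) (nat_lit 4) (nat_lit 410) (nat_lit 272) (nat_lit 218))) (XT.nd (nat_lit 78) (nat_lit 0) (nat_lit 0) (XT.lf (nat_lit 0) (nat_lit 71273597337) (nat_lit 152) (nat_lit 91081993503) (nat_lit 0) (nat_lit 66522941631) (nat_lit 2) (nat_lit 5) (nat_lit 4) (nat_lit 4) (nat_lit 2) (nat_lit 4) (nat_lit 411) (nat_lit 272) (nat_lit 217)) (XT.nd (nat_lit 78) (nat_lit 0) (nat_lit 0) (XT.lf (nat_lit 0) (nat_lit 77651235938) (nat_lit 152) (nat_lit 89633312796) (nat_lit 0) (nat_lit 72883989749) (nat_lit 2) (nat_lit 5) (nat_lit 4) (nat_lit 4) (nat_lit 2) (nat_lit 4) (nat_lit 412) (nat_lit 272) (nat_lit 216)) (XT.lf (nat_lit 0) (nat_lit 84330556198)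 (nat_lit 152) (nat_lit 88145841725) (nat_lit 0) (nat_lit 79547509549) (nat_lit 2) (nat_lit 5) (nat_lit 4) (nat_lit 4) (nat_lit 2) (nat_lit 4) (nat_lit 413) (nat_lit 272) (nat_lit 215))))) (XT.nd (nat_lit 234) (nat_lit 0) (nat_lit 0) (XT.nd (nat_lit 78) (nat_lit 0) (nat_lit 0) (XT.lf (nat_lit 0) (nat_lit 91327461259) (nat_lit 152) (nat_lit 86616038692) (nat_lit 0) (nat_lit 86529366554) (nat_lit 2) (nat_lit 5) (nat_lit 4) (nat_lit 4) (nat_lit 2) (nat_lit 4) (nat_lit 414) (nat_lit 272) (nat_lit 214)) (XT.nd (nat_lit 78) (nat_lit 0) (nat_lit 0) (XT.lf (nat_lit 0) (nat_lit 98658610421) (nat_lit 152) (nat_lit 85040261309) (nat_lit 0) (nat_lit 93846184233) (nat_lit 2) (nat_lit 5) (nat_lit 4) (nat_lit 4) (nat_lit 2) (nat_lit 4) (nat_lit 415) (nat_lit 272) (nat_lit 213)) (XT.lf (nat_lit 0) (nat_lit 106341458800) (nat_lit 152) (nat_lit 83414757726) (nat_lit 0) (nat_lit 101515383580) (nat_lit 2) (nat_lit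 5) (nat_lit 4) (nat_lit 4) (nat_lit 2) (nat_lit 4) (nat_lit 416) (nat_lit 272) (nat_lit 212)))) (XT.nd (nat_lit 78) (nat_lit 0) (nat_lit 0) (XT.lf (nat_lit 0) (nat_lit 114394298892) (nat_lit 152) (nat_lit 81735657695) (nat_lit 0) (nat_lit 109555224595) (nat_lit 2) (nat_lit 5) (nat_lit 4) (nat_lit 4) (nat_lit 2) (nat_lit 4) (nat_lit 417) (nat_lit 272) (nat_lit 211)) (XT.nd (nat_lit 78) (nat_lit 0) (nat_lit 0) (XT.lf (nat_lit 0) (nat_lit 122836304125) (nat_lit 152) (nat_lit 79998963360) (nat_lit 0) (nat_lit 117984849755) (nat_lit 2) (nat_lit 5) (nat_lit 4) (nat_lit 4) (nat_lit 2) (nat_lit 4) (nat_lit 418) (nat_lit 272) (nat_lit 210)) (XT.lf (nat_lit 0) (nat_lit 131687574513) (nat_lit 152) (nat_lit 78200539734) (nat_lit 0) (nat_lit 126824329597) (nat_lit 2) (nat_lit 5) (nat_lit 4) (nat_lit 4) (nat_lit 2) (nat_lit 4) (nat_lit 419) (nat_lit 272) (nat_lit 209)))))) (XT.nd (nat_lit 468) (nat_lit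 0) (nat_lit 0) (XT.nd (nat_lit 234) (nat_lit 0) (nat_lit 0) (XT.nd (nat_lit 78) (nat_lit 0) (nat_lit 0) (XT.lf (nat_lit 0) (nat_lit 140969184509) (nat_lit 152) (nat_lit 76336104855) (nat_lit 0) (nat_lit 136094710501) (nat_lit 2) (nat_lit 5) (nat_lit 4) (nat_lit 4) (nat_lit 2) (nat_lit 4) (nat_lit 420) (nat_lit 272) (nat_lit 208)) (XT.nd (nat_lit 78) (nat_lit 0) (nat_lit 0) (XT.lf (nat_lit 0) (nat_lit 150703233184) (nat_lit 152) (nat_lit 74401219594) (nat_lit 0) (nat_lit 145818064802) (nat_lit 2) (nat_lit 5) (nat_lit 4) (nat_lit 4) (nat_lit 2) (nat_lit 4) (nat_lit 421) (nat_lit 272) (nat_lit 207)) (XT.lf (nat_lit 0) (nat_lit 160912896845) (nat_lit 152) (nat_lit 72391277081) (nat_lit 0) (nat_lit 156017543345) (nat_lit 2) (nat_lit 5) (nat_lit 4) (nat_lit 4) (nat_lit 2) (nat_lit 4) (nat_lit 422) (nat_lit 272) (nat_lit 206)))) (XT.nd (nat_lit 78) (nat_lit 0) (nat_lit 0) (XT.lf (nat_lit 0) (nat_lit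 171622484213) (nat_lit 152) (nat_lit 70301491737) (nat_lit 0) (nat_lit 166717430603) (nat_lit 2) (nat_lit 5) (nat_lit 4) (nat_lit 4) (nat_lit 2) (nat_lit 4) (nat_lit 423) (nat_lit 272) (nat_lit 205)) (XT.nd (nat_lit 78) (nat_lit 0) (nat_lit 0) (XT.lf (nat_lit 0) (nat_lit 182857494308) (nat_lit 152) (nat_lit 68126887885) (nat_lit 0) (nat_lit 177943202496) (nat_lit 2) (nat_lit 5) (nat_lit 4) (nat_lit 4) (nat_lit 2) (nat_lit 4) (nat_lit 424) (nat_lit 272) (nat_lit 204)) (XT.lf (nat_lit 0) (nat_lit 194644677153) (nat_lit 152) (nat_lit 65862287895) (nat_lit 0) (nat_lit 189721587054) (nat_lit 2) (nat_lit 5) (nat_lit 4) (nat_lit 4) (nat_lit 2) (nat_lit 4) (nat_lit 425) (nat_lit 272) (nat_lit 203))))) (XT.nd (nat_lit 234) (nat_lit 0) (nat_lit 0) (XT.nd (nat_lit 78) (nat_lit 0) (nat_lit 0) (XT.lf (nat_lit 0) (nat_lit 207012097469) (nat_lit 152) (nat_lit 63502299863) (nat_lit 0) (nat_lit 202080628049)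 (nat_lit 2) (nat_lit 5) (nat_lit 4) (nat_lit 4) (nat_lit 2) (nat_lit 4) (nat_lit 426) (nat_lit 272) (nat_lit 202)) (XT.nd (nat_lit 78) (nat_lit 0) (nat_lit 0) (XT.lf (nat_lit 0) (nat_lit 219989201496) (nat_lit 152) (nat_lit 61041304769) (nat_lit 0) (nat_lit 215049751769) (nat_lit 2) (nat_lit 5) (nat_lit 4) (nat_lit 4) (nat_lit 2) (nat_lit 4) (nat_lit 427) (nat_lit 272) (nat_lit 201)) (XT.lf (nat_lit 0) (nat_lit 233606887098) (nat_lit 152) (nat_lit 58473443103) (nat_lit 0) (nat_lit 228659837080) (nat_lit 2) (nat_lit 5) (nat_lit 4) (nat_lit 4) (nat_lit 2) (nat_lit 4) (nat_lit 428) (nat_lit 272) (nat_lit 200)))) (XT.nd (nat_lit 78) (nat_lit 0) (nat_lit 0) (XT.lf (nat_lit 0) (nat_lit 247897577339) (nat_lit 152) (nat_lit 55792600906) (nat_lit 0) (nat_lit 242943288948) (nat_lit 2) (nat_lit 5) (nat_lit 4) (nat_lit 4) (nat_lit 2) (nat_lit 4) (nat_lit 429) (nat_lit 272) (nat_lit 199)) (XT.nd (nat_lit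 78) (nat_lit 0) (nat_lit 0) (XT.lf (nat_lit 0) (nat_lit 262895297670) (nat_lit 152) (nat_lit 52992395222) (nat_lit 0) (nat_lit 257934115591) (nat_lit 2) (nat_lit 5) (nat_lit 4) (nat_lit 4) (nat_lit 2) (nat_lit 4) (nat_lit 430) (nat_lit 272) (nat_lit 198)) (XT.lf (nat_lit 0) (nat_lit 278635756949) (nat_lit 152) (nat_lit 50066158895) (nat_lit 0) (nat_lit 273668009453) (nat_lit 2) (nat_lit 5) (nat_lit 4) (nat_lit 4) (nat_lit 2) (nat_lit 4) (nat_lit 431) (nat_lit 272) (nat_lit 197))))))))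
noncomputable def xc36 : XT := (XT.nd (nat_lit 42276) (nat_lit 0) (nat_lit 152) (XT.nd (nat_lit 41418) (nat_lit 0) (nat_lit 380) (XT.nd (nat_lit 40950) (nat_lit 0) (nat_lit 836) (XT.nd (nat_lit 156) (nat_lit 0) (nat_lit 0) (XT.nd (nat_lit 78) (nat_lit 0) (nat_lit 0) (XT.lf (nat_lit 0) (nat_lit 295156432461) (nat_lit 152) (nat_lit 47006924694) (nat_lit 0) (nat_lit 290182432186) (nat_lit 2) (nat_lit 5) (nat_lit 4) (nat_lit 4) (nat_lit 2) (nat_lit 4) (nat_lit 432) (nat_lit 272) (nat_lit 196)) (XT.lf (nat_lit 0) (nat_lit 312496659148) (nat_lit 152) (nat_lit 43807408729) (nat_lit 0) (nat_lit 307516703846) (nat_lit 2) (nat_lit 5) (nat_lit 4) (nat_lit 4) (nat_lit 2) (nat_lit 4) (nat_lit 433) (nat_lit 272) (nat_lit 195))) (XT.nd (nat_lit 40638) (nat_lit 0) (nat_lit 1064) (XT.lf (nat_lit 0) (nat_lit 330697723262) (nat_lit 152) (nat_lit 40459993105) (nat_lit 0) (nat_lit 325712096506) (nat_lit 2)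 (nat_lit 5) (nat_lit 4) (nat_lit 4) (nat_lit 2) (nat_lit 4) (nat_lit 434) (nat_lit 272) (nat_lit 194)) (XT.nd (nat_lit 78) (nat_lit 76) (nat_lit 0) (XT.lf (nat_lit 0) (nat_lit 2556324020) (nat_lit 152) (nat_lit 4123827996) (nat_lit 0) (nat_lit 2556324020) (nat_lit 17) (nat_lit 5) (nat_lit 19) (nat_lit 4) (nat_lit 17) (nat_lit 4) (nat_lit 354) (nat_lit 273) (nat_lit 273)) (XT.lf (nat_lit 0) (nat_lit 1277401626) (nat_lit 76) (nat_lit 9087996208) (nat_lit 76) (nat_lit 8762604660) (nat_lit 16) (nat_lit 4) (nat_lit 17) (nat_lit 5) (nat_lit 17) (nat_lit 4) (nat_lit 355) (nat_lit 273) (nat_lit 272))))) (XT.nd (nat_lit 234) (nat_lit 76) (nat_lit 0) (XT.nd (nat_lit 78) (nat_lit 152) (nat_lit 0) (XT.lf (nat_lit 0) (nat_lit 11243105116) (nat_lit 76) (nat_lit 4604841365) (nat_lit 76) (nat_lit 3969553105) (nat_lit 16) (nat_lit 4) (nat_lit 17) (nat_lit 5) (nat_lit 17) (nat_lit 4) (nat_lit 356) (nat_lit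 273) (nat_lit 271)) (XT.nd (nat_lit 78) (nat_lit 0) (nat_lit 0) (XT.lf (nat_lit 0) (nat_lit 864506321) (nat_lit 76) (nat_lit 11071389) (nat_lit 152) (nat_lit 19672788541) (nat_lit 14) (nat_lit 5) (nat_lit 15) (nat_lit 5) (nat_lit 16) (nat_lit 4) (nat_lit 357) (nat_lit 273) (nat_lit 270)) (XT.lf (nat_lit 0) (nat_lit 5886167869) (nat_lit 152) (nat_lit 10691223921) (nat_lit 0) (nat_lit 4732345545) (nat_lit 14) (nat_lit 5) (nat_lit 16) (nat_lit 4) (nat_lit 14) (nat_lit 4) (nat_lit 358) (nat_lit 273) (nat_lit 269)))) (XT.nd (nat_lit 78) (nat_lit 76) (nat_lit 0) (XT.lf (nat_lit 0) (nat_lit 10989258490) (nat_lit 152) (nat_lit 1547379522) (nat_lit 0) (nat_lit 9580483374) (nat_lit 14) (nat_lit 5) (nat_lit 16) (nat_lit 4) (nat_lit 14) (nat_lit 4) (nat_lit 359) (nat_lit 273) (nat_lit 268)) (XT.nd (nat_lit 78) (nat_lit 0) (nat_lit 0) (XT.lf (nat_lit 0) (nat_lit 8026515813) (nat_lit 76) (nat_lit 8295627527)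 (nat_lit 76) (nat_lit 6644040228) (nat_lit 13) (nat_lit 4) (nat_lit 14) (nat_lit 5) (nat_lit 14) (nat_lit 4) (nat_lit 360) (nat_lit 273) (nat_lit 267)) (XT.lf (nat_lit 0) (nat_lit 17853368811) (nat_lit 76) (nat_lit 3946644485) (nat_lit 76) (nat_lit 2063807487) (nat_lit 13) (nat_lit 4) (nat_lit 14) (nat_lit 5) (nat_lit 14) (nat_lit 4) (nat_lit 361) (nat_lit 273) (nat_lit 266)))))) (XT.nd (nat_lit 390) (nat_lit 228) (nat_lit 0) (XT.nd (nat_lit 156) (nat_lit 76) (nat_lit 0) (XT.nd (nat_lit 78) (nat_lit 0) (nat_lit 0) (XT.lf (nat_lit 0) (nat_lit 2572806033) (nat_lit 152) (nat_lit 21665786309) (nat_lit 0) (nat_lit 569877648) (nat_lit 11) (nat_lit 5) (nat_lit 13) (nat_lit 4) (nat_lit 11) (nat_lit 4) (nat_lit 362) (nat_lit 273) (nat_lit 265)) (XT.lf (nat_lit 0) (nat_lit 7397570485) (nat_lit 152) (nat_lit 13204959386) (nat_lit 0) (nat_lit 5194879916) (nat_lit 11) (nat_lit 5) (nat_lit 13) (nat_lit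 4) (nat_lit 11) (nat_lit 4) (nat_lit 363) (nat_lit 273) (nat_lit 264))) (XT.nd (nat_lit 78) (nat_lit 76) (nat_lit 0) (XT.lf (nat_lit 0) (nat_lit 12327877950) (nat_lit 152) (nat_lit 4579797761) (nat_lit 0) (nat_lit 9934937681) (nat_lit 11) (nat_lit 5) (nat_lit 13) (nat_lit 4) (nat_lit 11) (nat_lit 4) (nat_lit 364) (nat_lit 273) (nat_lit 263)) (XT.nd (nat_lit 78) (nat_lit 0) (nat_lit 0) (XT.lf (nat_lit 0) (nat_lit 4370105326) (nat_lit 76) (nat_lit 13073591519) (nat_lit 76) (nat_lit 10499461061) (nat_lit 10) (nat_lit 4) (nat_lit 11) (nat_lit 5) (nat_lit 11) (nat_lit 4) (nat_lit 365) (nat_lit 273) (nat_lit 262)) (XT.lf (nat_lit 0) (nat_lit 13684090513) (nat_lit 76) (nat_lit 9081912957) (nat_lit 76) (nat_lit 6335220413) (nat_lit 10) (nat_lit 4) (nat_lit 11) (nat_lit 5) (nat_lit 11) (nat_lit 4) (nat_lit 366) (nat_lit 273) (nat_lit 261))))) (XT.nd (nat_lit 234) (nat_lit 76) (nat_lit 0) (XT.nd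 (nat_lit 78) (nat_lit 152) (nat_lit 0) (XT.lf (nat_lit 0) (nat_lit 23232905159) (nat_lit 76) (nat_lit 5000697119) (nat_lit 76) (nat_lit 2089659732) (nat_lit 10) (nat_lit 4) (nat_lit 11) (nat_lit 5) (nat_lit 11) (nat_lit 4) (nat_lit 367) (nat_lit 273) (nat_lit 260)) (XT.nd (nat_lit 78) (nat_lit 0) (nat_lit 0) (XT.lf (nat_lit 0) (nat_lit 1438041843) (nat_lit 76) (nat_lit 759810901) (nat_lit 152) (nat_lit 29411452206) (nat_lit 8) (nat_lit 5) (nat_lit 9) (nat_lit 5) (nat_lit 10) (nat_lit 4) (nat_lit 368) (nat_lit 273) (nat_lit 259)) (XT.lf (nat_lit 0) (nat_lit 6692729098) (nat_lit 152) (nat_lit 22632791633) (nat_lit 0) (nat_lit 3629279667) (nat_lit 8) (nat_lit 5) (nat_lit 10) (nat_lit 4) (nat_lit 8) (nat_lit 4) (nat_lit 369) (nat_lit 273) (nat_lit 258)))) (XT.nd (nat_lit 78) (nat_lit 76) (nat_lit 0) (XT.lf (nat_lit 0) (nat_lit 11313859896) (nat_lit 152) (nat_lit 14943454417) (nat_lit 0) (nat_lit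 8115203556) (nat_lit 8) (nat_lit 5) (nat_lit 10) (nat_lit 4) (nat_lit 8) (nat_lit 4) (nat_lit 370) (nat_lit 273) (nat_lit 257)) (XT.nd (nat_lit 78) (nat_lit 76) (nat_lit 0) (XT.lf (nat_lit 0) (nat_lit 16060385055) (nat_lit 152) (nat_lit 7073080737) (nat_lit 0) (nat_lit 12732960230) (nat_lit 8) (nat_lit 5) (nat_lit 10) (nat_lit 4) (nat_lit 8) (nat_lit 4) (nat_lit 371) (nat_lit 273) (nat_lit 256)) (XT.lf (nat_lit 0) (nat_lit 1030035977) (nat_lit 76) (nat_lit 19929651596) (nat_lit 76) (nat_lit 16479590119) (nat_lit 7) (nat_lit 4) (nat_lit 8) (nat_lit 5) (nat_lit 8) (nat_lit 4) (nat_lit 372) (nat_lit 273) (nat_lit 255))))))) (XT.nd (nat_lit 858) (nat_lit 76) (nat_lit 0) (XT.nd (nat_lit 390) (nat_lit 76) (nat_lit 0) (XT.nd (nat_lit 156) (nat_lit 76) (nat_lit 0) (XT.nd (nat_lit 78) (nat_lit 0) (nat_lit 0) (XT.lf (nat_lit 0) (nat_lit 9593251575) (nat_lit 76) (nat_lit 16531674888) (nat_lit 76)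 (nat_lit 12964816600) (nat_lit 7) (nat_lit 4) (nat_lit 8) (nat_lit 5) (nat_lit 8) (nat_lit 4) (nat_lit 373) (nat_lit 273) (nat_lit 254)) (XT.lf (nat_lit 0) (nat_lit 18403086673) (nat_lit 76) (nat_lit 13051231293) (nat_lit 76) (nat_lit 9373137946) (nat_lit 7) (nat_lit 4) (nat_lit 8) (nat_lit 5) (nat_lit 8) (nat_lit 4) (nat_lit 374) (nat_lit 273) (nat_lit 253))) (XT.nd (nat_lit 78) (nat_lit 76) (nat_lit 0) (XT.lf (nat_lit 0) (nat_lit 27480517070) (nat_lit 76) (nat_lit 9480034040) (nat_lit 76) (nat_lit 5696002541) (nat_lit 7) (nat_lit 4) (nat_lit 8) (nat_lit 5) (nat_lit 8) (nat_lit 4) (nat_lit 375) (nat_lit 273) (nat_lit 252)) (XT.nd (nat_lit 78) (nat_lit 76) (nat_lit 0) (XT.lf (nat_lit 0) (nat_lit 36847155695) (nat_lit 76) (nat_lit 5809580278) (nat_lit 76) (nat_lit 1924655303) (nat_lit 7) (nat_lit 4) (nat_lit 8) (nat_lit 5) (nat_lit 8) (nat_lit 4) (nat_lit 376) (nat_lit 273) (nat_lit 251))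 (XT.lf (nat_lit 0) (nat_lit 1887474729) (nat_lit 152) (nat_lit 111690805) (nat_lit 76) (nat_lit 44605864040) (nat_lit 6) (nat_lit 5) (nat_lit 8) (nat_lit 5) (nat_lit 7) (nat_lit 4) (nat_lit 377) (nat_lit 273) (nat_lit 250))))) (XT.nd (nat_lit 234) (nat_lit 0) (nat_lit 0) (XT.nd (nat_lit 78) (nat_lit 0) (nat_lit 0) (XT.lf (nat_lit 0) (nat_lit 5903816867) (nat_lit 152) (nat_lit 40795336307) (nat_lit 0) (nat_lit 2025219382) (nat_lit 5) (nat_lit 5) (nat_lit 7) (nat_lit 4) (nat_lit 5) (nat_lit 4) (nat_lit 378) (nat_lit 273) (nat_lit 249)) (XT.nd (nat_lit 78) (nat_lit 0) (nat_lit 0) (XT.lf (nat_lit 0) (nat_lit 10077249638) (nat_lit 152) (nat_lit 34758986520) (nat_lit 0) (nat_lit 6115646839) (nat_lit 5) (nat_lit 5) (nat_lit 7) (nat_lit 4) (nat_lit 5) (nat_lit 4) (nat_lit 379) (nat_lit 273) (nat_lit 248)) (XT.lf (nat_lit 0) (nat_lit 14384666213) (nat_lit 152) (nat_lit 28565839724) (nat_lit 0) (nat_lit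 10344010735) (nat_lit 5) (nat_lit 5) (nat_lit 7) (nat_lit 4) (nat_lit 5) (nat_lit 4) (nat_lit 380) (nat_lit 273) (nat_lit 247)))) (XT.nd (nat_lit 78) (nat_lit 0) (nat_lit 0) (XT.lf (nat_lit 0) (nat_lit 18836322347) (nat_lit 152) (nat_lit 22201150333) (nat_lit 0) (nat_lit 14720378602) (nat_lit 5) (nat_lit 5) (nat_lit 7) (nat_lit 4) (nat_lit 5) (nat_lit 4) (nat_lit 381) (nat_lit 273) (nat_lit 246)) (XT.nd (nat_lit 78) (nat_lit 0) (nat_lit 0) (XT.lf (nat_lit 0) (nat_lit 23442817219) (nat_lit 152) (nat_lit 15649764324) (nat_lit 0) (nat_lit 19255170363) (nat_lit 5) (nat_lit 5) (nat_lit 7) (nat_lit 4) (nat_lit 5) (nat_lit 4) (nat_lit 382) (nat_lit 273) (nat_lit 245)) (XT.lf (nat_lit 0) (nat_lit 28215118675) (nat_lit 152) (nat_lit 8896083159) (nat_lit 0) (nat_lit 23959183143) (nat_lit 5) (nat_lit 5) (nat_lit 7) (nat_lit 4) (nat_lit 5) (nat_lit 4) (nat_lit 383) (nat_lit 273) (nat_lit 244))))))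 (XT.nd (nat_lit 468) (nat_lit 0) (nat_lit 0) (XT.nd (nat_lit 234) (nat_lit 0) (nat_lit 0) (XT.nd (nat_lit 78) (nat_lit 76) (nat_lit 0) (XT.lf (nat_lit 0) (nat_lit 33164589338) (nat_lit 152) (nat_lit 1924026645) (nat_lit 0) (nat_lit 28843616971) (nat_lit 5) (nat_lit 5) (nat_lit 7) (nat_lit 4) (nat_lit 5) (nat_lit 4) (nat_lit 384) (nat_lit 273) (nat_lit 243)) (XT.nd (nat_lit 78) (nat_lit 0) (nat_lit 0) (XT.lf (nat_lit 0) (nat_lit 5457685368) (nat_lit 76) (nat_lit 32930538057) (nat_lit 76) (nat_lit 28547625846) (nat_lit 4) (nat_lit 4) (nat_lit 5) (nat_lit 5) (nat_lit 5) (nat_lit 4) (nat_lit 385) (nat_lit 273) (nat_lit 242)) (XT.lf (nat_lit 0) (nat_lit 13163486200) (nat_lit 76) (nat_lit 30684658699) (nat_lit 76) (nat_lit 26242756162) (nat_lit 4) (nat_lit 4) (nat_lit 5) (nat_lit 5) (nat_lit 5) (nat_lit 4) (nat_lit 386) (nat_lit 273) (nat_lit 241)))) (XT.nd (nat_lit 78) (nat_lit 0) (nat_lit 0)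 (XT.lf (nat_lit 0) (nat_lit 21148105985) (nat_lit 76) (nat_lit 28378214900) (nat_lit 76) (nat_lit 23880131100) (nat_lit 4) (nat_lit 4) (nat_lit 5) (nat_lit 5) (nat_lit 5) (nat_lit 4) (nat_lit 387) (nat_lit 273) (nat_lit 240)) (XT.nd (nat_lit 78) (nat_lit 0) (nat_lit 0) (XT.lf (nat_lit 0) (nat_lit 29430555723) (nat_lit 76) (nat_lit 26005715127) (nat_lit 76) (nat_lit 21454125362) (nat_lit 4) (nat_lit 4) (nat_lit 5) (nat_lit 5) (nat_lit 5) (nat_lit 4) (nat_lit 388) (nat_lit 273) (nat_lit 239)) (XT.lf (nat_lit 0) (nat_lit 38030555532) (nat_lit 76) (nat_lit 23561510572) (nat_lit 76) (nat_lit 18958962744) (nat_lit 4) (nat_lit 4) (nat_lit 5) (nat_lit 5) (nat_lit 5) (nat_lit 4) (nat_lit 389) (nat_lit 273) (nat_lit 238))))) (XT.nd (nat_lit 234) (nat_lit 0) (nat_lit 0) (XT.nd (nat_lit 78) (nat_lit 0) (nat_lit 0) (XT.lf (nat_lit 0) (nat_lit 46968581602) (nat_lit 76) (nat_lit 21039781698) (nat_lit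 76) (nat_lit 16388702383) (nat_lit 4) (nat_lit 4) (nat_lit 5) (nat_lit 5) (nat_lit 5) (nat_lit 4) (nat_lit 390) (nat_lit 273) (nat_lit 237)) (XT.nd (nat_lit 78) (nat_lit 0) (nat_lit 0) (XT.lf (nat_lit 0) (nat_lit 56265914947) (nat_lit 76) (nat_lit 18434524392) (nat_lit 76) (nat_lit 13737224612) (nat_lit 4) (nat_lit 4) (nat_lit 5) (nat_lit 5) (nat_lit 5) (nat_lit 4) (nat_lit 391) (nat_lit 273) (nat_lit 236)) (XT.lf (nat_lit 0) (nat_lit 65944692076) (nat_lit 76) (nat_lit 15739535657) (nat_lit 76) (nat_lit 10998216387) (nat_lit 4) (nat_lit 4) (nat_lit 5) (nat_lit 5) (nat_lit 5) (nat_lit 4) (nat_lit 392) (nat_lit 273) (nat_lit 235)))) (XT.nd (nat_lit 78) (nat_lit 0) (nat_lit 0) (XT.lf (nat_lit 0) (nat_lit 76027957696) (nat_lit 76) (nat_lit 12948398855) (nat_lit 76) (nat_lit 8165156262) (nat_lit 4) (nat_lit 4) (nat_lit 5) (nat_lit 5) (nat_lit 5) (nat_lit 4) (nat_lit 393) (nat_lit 273) (nat_lit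 234)) (XT.nd (nat_lit 78) (nat_lit 0) (nat_lit 0) (XT.lf (nat_lit 0) (nat_lit 86539719582) (nat_lit 76) (nat_lit 10054468422) (nat_lit 76) (nat_lit 5231298854) (nat_lit 4) (nat_lit 4) (nat_lit 5) (nat_lit 5) (nat_lit 5) (nat_lit 4) (nat_lit 394) (nat_lit 273) (nat_lit 233)) (XT.lf (nat_lit 0) (nat_lit 97505005738) (nat_lit 76) (nat_lit 7050854048) (nat_lit 76) (nat_lit 2189658789) (nat_lit 4) (nat_lit 4) (nat_lit 5) (nat_lit 5) (nat_lit 5) (nat_lit 4) (nat_lit 395) (nat_lit 273) (nat_lit 232))))))))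
noncomputable def xc37 : XT := (XT.nd (nat_lit 1716) (nat_lit 0) (nat_lit 0) (XT.nd (nat_lit 858) (nat_lit 0) (nat_lit 0) (XT.nd (nat_lit 390) (nat_lit 0) (nat_lit 0) (XT.nd (nat_lit 156) (nat_lit 0) (nat_lit 0) (XT.nd (nat_lit 78) (nat_lit 76) (nat_lit 0) (XT.lf (nat_lit 0) (nat_lit 936055703) (nat_lit 152) (nat_lit 2978496009) (nat_lit 76) (nat_lit 107998015730) (nat_lit 3) (nat_lit 5) (nat_lit 5) (nat_lit 5) (nat_lit 4) (nat_lit 4) (nat_lit 396) (nat_lit 273) (nat_lit 231)) (XT.lf (nat_lit 0) (nat_lit 3609761388) (nat_lit 76) (nat_lit 556903008) (nat_lit 152) (nat_lit 113168405321) (nat_lit 2) (nat_lit 5) (nat_lit 3) (nat_lit 5) (nat_lit 4) (nat_lit 4) (nat_lit 397) (nat_lit 273) (nat_lit 230))) (XT.nd (nat_lit 78) (nat_lit 0) (nat_lit 0) (XT.lf (nat_lit 0) (nat_lit 7622365961) (nat_lit 152) (nat_lit 112509124375) (nat_lit 0) (nat_lit 2894033918) (nat_lit 2) (nat_lit 5) (nat_lit 4) (nat_lit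 4) (nat_lit 2) (nat_lit 4) (nat_lit 398) (nat_lit 273) (nat_lit 229)) (XT.nd (nat_lit 78) (nat_lit 0) (nat_lit 0) (XT.lf (nat_lit 0) (nat_lit 11227548485) (nat_lit 152) (nat_lit 111304700942) (nat_lit 0) (nat_lit 6469422318) (nat_lit 2) (nat_lit 5) (nat_lit 4) (nat_lit 4) (nat_lit 2) (nat_lit 4) (nat_lit 399) (nat_lit 273) (nat_lit 228)) (XT.lf (nat_lit 0) (nat_lit 14982100918) (nat_lit 152) (nat_lit 110100475538) (nat_lit 0) (nat_lit 10195599396) (nat_lit 2) (nat_lit 5) (nat_lit 4) (nat_lit 4) (nat_lit 2) (nat_lit 4) (nat_lit 400) (nat_lit 273) (nat_lit 227))))) (XT.nd (nat_lit 234) (nat_lit 0) (nat_lit 0) (XT.nd (nat_lit 78) (nat_lit 0) (nat_lit 0) (XT.lf (nat_lit 0) (nat_lit 18894962673) (nat_lit 152) (nat_lit 108893580958) (nat_lit 0) (nat_lit 14081437002) (nat_lit 2) (nat_lit 5) (nat_lit 4) (nat_lit 4) (nat_lit 2) (nat_lit 4) (nat_lit 401) (nat_lit 273) (nat_lit 226)) (XT.nd (nat_lit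 78) (nat_lit 0) (nat_lit 0) (XT.lf (nat_lit 0) (nat_lit 22975450086) (nat_lit 152) (nat_lit 107681143646) (nat_lit 0) (nat_lit 18136187131) (nat_lit 2) (nat_lit 5) (nat_lit 4) (nat_lit 4) (nat_lit 2) (nat_lit 4) (nat_lit 402) (nat_lit 273) (nat_lit 225)) (XT.lf (nat_lit 0) (nat_lit 27233278603) (nat_lit 152) (nat_lit 106460276845) (nat_lit 0) (nat_lit 22369503948) (nat_lit 2) (nat_lit 5) (nat_lit 4) (nat_lit 4) (nat_lit 2) (nat_lit 4) (nat_lit 403) (nat_lit 273) (nat_lit 224)))) (XT.nd (nat_lit 78) (nat_lit 0) (nat_lit 0) (XT.lf (nat_lit 0) (nat_lit 31678585911) (nat_lit 152) (nat_lit 105228073730) (nat_lit 0) (nat_lit 26791466781) (nat_lit 2) (nat_lit 5) (nat_lit 4) (nat_lit 4) (nat_lit 2) (nat_lit 4) (nat_lit 404) (nat_lit 273) (nat_lit 223)) (XT.nd (nat_lit 78) (nat_lit 0) (nat_lit 0) (XT.lf (nat_lit 0) (nat_lit 36321956076) (nat_lit 152) (nat_lit 103981600483) (nat_lit 0) (nat_lit 31412604112)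 (nat_lit 2) (nat_lit 5) (nat_lit 4) (nat_lit 4) (nat_lit 2) (nat_lit 4) (nat_lit 405) (nat_lit 273) (nat_lit 222)) (XT.lf (nat_lit 0) (nat_lit 41174444740) (nat_lit 152) (nat_lit 102717889312) (nat_lit 0) (nat_lit 36243918649) (nat_lit 2) (nat_lit 5) (nat_lit 4) (nat_lit 4) (nat_lit 2) (nat_lit 4) (nat_lit 406) (nat_lit 273) (nat_lit 221)))))) (XT.nd (nat_lit 390) (nat_lit 0) (nat_lit 0) (XT.nd (nat_lit 156) (nat_lit 0) (nat_lit 0) (XT.nd (nat_lit 78) (nat_lit 0) (nat_lit 0) (XT.lf (nat_lit 0) (nat_lit 46247605448) (nat_lit 152) (nat_lit 101433931379) (nat_lit 0) (nat_lit 41296913522) (nat_lit 2) (nat_lit 5) (nat_lit 4) (nat_lit 4) (nat_lit 2) (nat_lit 4) (nat_lit 407) (nat_lit 273) (nat_lit 220)) (XT.lf (nat_lit 0) (nat_lit 51553517155) (nat_lit 152) (nat_lit 100126669644) (nat_lit 0) (nat_lit 46583619671) (nat_lit 2) (nat_lit 5) (nat_lit 4) (nat_lit 4) (nat_lit 2) (nat_lit 4) (nat_lit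 408) (nat_lit 273) (nat_lit 219))) (XT.nd (nat_lit 78) (nat_lit 0) (nat_lit 0) (XT.lf (nat_lit 0) (nat_lit 57104812982) (nat_lit 152) (nat_lit 98792991576) (nat_lit 0) (nat_lit 52116624491) (nat_lit 2) (nat_lit 5) (nat_lit 4) (nat_lit 4) (nat_lit 2) (nat_lit 4) (nat_lit 409) (nat_lit 273) (nat_lit 218)) (XT.nd (nat_lit 78) (nat_lit 0) (nat_lit 0) (XT.lf (nat_lit 0) (nat_lit 62914710302) (nat_lit 152) (nat_lit 97429721753) (nat_lit 0) (nat_lit 57909101804) (nat_lit 2) (nat_lit 5) (nat_lit 4) (nat_lit 4) (nat_lit 2) (nat_lit 4) (nat_lit 410) (nat_lit 273) (nat_lit 217)) (XT.lf (nat_lit 0) (nat_lit 68997042203) (nat_lit 152) (nat_lit 96033614294) (nat_lit 0) (nat_lit 63974843222) (nat_lit 2) (nat_lit 5) (nat_lit 4) (nat_lit 4) (nat_lit 2) (nat_lit 4) (nat_lit 411) (nat_lit 273) (nat_lit 216))))) (XT.nd (nat_lit 234) (nat_lit 0) (nat_lit 0) (XT.nd (nat_lit 78) (nat_lit 0) (nat_lit 0) (XT.lf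 (nat_lit 0) (nat_lit 75366290427) (nat_lit 152) (nat_lit 94601345134) (nat_lit 0) (nat_lit 70328290987) (nat_lit 2) (nat_lit 5) (nat_lit 4) (nat_lit 4) (nat_lit 2) (nat_lit 4) (nat_lit 412) (nat_lit 273) (nat_lit 215)) (XT.nd (nat_lit 78) (nat_lit 0) (nat_lit 0) (XT.lf (nat_lit 0) (nat_lit 82037619852) (nat_lit 152) (nat_lit 93129504108) (nat_lit 0) (nat_lit 76984572355) (nat_lit 2) (nat_lit 5) (nat_lit 4) (nat_lit 4) (nat_lit 2) (nat_lit 4) (nat_lit 413) (nat_lit 273) (nat_lit 214)) (XT.lf (nat_lit 0) (nat_lit 89026914596) (nat_lit 152) (nat_lit 91614586832) (nat_lit 0) (nat_lit 83959535615) (nat_lit 2) (nat_lit 5) (nat_lit 4) (nat_lit 4) (nat_lit 2) (nat_lit 4) (nat_lit 414) (nat_lit 273) (nat_lit 213)))) (XT.nd (nat_lit 78) (nat_lit 0) (nat_lit 0) (XT.lf (nat_lit 0) (nat_lit 96350815835) (nat_lit 152) (nat_lit 90052986361) (nat_lit 0) (nat_lit 91269787823) (nat_lit 2) (nat_lit 5) (nat_lit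 4) (nat_lit 4) (nat_lit 2) (nat_lit 4) (nat_lit 415) (nat_lit 273) (nat_lit 212)) (XT.nd (nat_lit 78) (nat_lit 0) (nat_lit 0) (XT.lf (nat_lit 0) (nat_lit 104026761430) (nat_lit 152) (nat_lit 88440984598) (nat_lit 0) (nat_lit 98932734341) (nat_lit 2) (nat_lit 5) (nat_lit 4) (nat_lit 4) (nat_lit 2) (nat_lit 4) (nat_lit 416) (nat_lit 273) (nat_lit 211)) (XT.lf (nat_lit 0) (nat_lit 112073027443) (nat_lit 152) (nat_lit 86774743444) (nat_lit 0) (nat_lit 106966620280) (nat_lit 2) (nat_lit 5) (nat_lit 4) (nat_lit 4) (nat_lit 2) (nat_lit 4) (nat_lit 417) (nat_lit 273) (nat_lit 210))))))) (XT.nd (nat_lit 858) (nat_lit 0) (nat_lit 0) (XT.nd (nat_lit 390) (nat_lit 0) (nat_lit 0) (XT.nd (nat_lit 156) (nat_lit 0) (nat_lit 0) (XT.nd (nat_lit 78) (nat_lit 0) (nat_lit 0) (XT.lf (nat_lit 0) (nat_lit 120508771648) (nat_lit 152) (nat_lit 85050295658) (nat_lit 0) (nat_lit 115390573939) (nat_lit 2) (nat_lit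 5) (nat_lit 4) (nat_lit 4) (nat_lit 2) (nat_lit 4) (nat_lit 418) (nat_lit 273) (nat_lit 209)) (XT.lf (nat_lit 0) (nat_lit 129354079153) (nat_lit 152) (nat_lit 83263535411) (nat_lit 0) (nat_lit 124224652352) (nat_lit 2) (nat_lit 5) (nat_lit 4) (nat_lit 4) (nat_lit 2) (nat_lit 4) (nat_lit 419) (nat_lit 273) (nat_lit 208))) (XT.nd (nat_lit 78) (nat_lit 0) (nat_lit 0) (XT.lf (nat_lit 0) (nat_lit 138630010212) (nat_lit 152) (nat_lit 81410208514) (nat_lit 0) (nat_lit 133489889038) (nat_lit 2) (nat_lit 5) (nat_lit 4) (nat_lit 4) (nat_lit 2) (nat_lit 4) (nat_lit 420) (nat_lit 273) (nat_lit 207)) (XT.nd (nat_lit 78) (nat_lit 0) (nat_lit 0) (XT.lf (nat_lit 0) (nat_lit 148358650375) (nat_lit 152) (nat_lit 79485902283) (nat_lit 0) (nat_lit 143208344084) (nat_lit 2) (nat_lit 5) (nat_lit 4) (nat_lit 4) (nat_lit 2) (nat_lit 4) (nat_lit 421) (nat_lit 273) (nat_lit 206)) (XT.lf (nat_lit 0) (nat_lit 158563163073)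 (nat_lit 152) (nat_lit 77486035035) (nat_lit 0) (nat_lit 153403156670) (nat_lit 2) (nat_lit 5) (nat_lit 4) (nat_lit 4) (nat_lit 2) (nat_lit 4) (nat_lit 422) (nat_lit 273) (nat_lit 205))))) (XT.nd (nat_lit 234) (nat_lit 0) (nat_lit 0) (XT.nd (nat_lit 78) (nat_lit 0) (nat_lit 0) (XT.lf (nat_lit 0) (nat_lit 169267844762) (nat_lit 152) (nat_lit 75405845184) (nat_lit 0) (nat_lit 164098600158) (nat_lit 2) (nat_lit 5) (nat_lit 4) (nat_lit 4) (nat_lit 2) (nat_lit 4) (nat_lit 423) (nat_lit 273) (nat_lit 204)) (XT.nd (nat_lit 78) (nat_lit 0) (nat_lit 0) (XT.lf (nat_lit 0) (nat_lit 180498182782) (nat_lit 152) (nat_lit 73240379895) (nat_lit 0) (nat_lit 175320139890) (nat_lit 2) (nat_lit 5) (nat_lit 4) (nat_lit 4) (nat_lit 2) (nat_lit 4) (nat_lit 424) (nat_lit 273) (nat_lit 203)) (XT.lf (nat_lit 0) (nat_lit 192280916031) (nat_lit 152) (nat_lit 70984483299) (nat_lit 0) (nat_lit 187094493818) (nat_lit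 2) (nat_lit 5) (nat_lit 4) (nat_lit 4) (nat_lit 2) (nat_lit 4) (nat_lit 425) (nat_lit 273) (nat_lit 202)))) (XT.nd (nat_lit 78) (nat_lit 0) (nat_lit 0) (XT.lf (nat_lit 0) (nat_lit 204644098637) (nat_lit 152) (nat_lit 68632784213) (nat_lit 0) (nat_lit 199449696118) (nat_lit 2) (nat_lit 5) (nat_lit 4) (nat_lit 4) (nat_lit 2) (nat_lit 4) (nat_lit 426) (nat_lit 273) (nat_lit 201)) (XT.nd (nat_lit 78) (nat_lit 0) (nat_lit 0) (XT.lf (nat_lit 0) (nat_lit 217617166749) (nat_lit 152) (nat_lit 66179683354) (nat_lit 0) (nat_lit 212415163938) (nat_lit 2) (nat_lit 5) (nat_lit 4) (nat_lit 4) (nat_lit 2) (nat_lit 4) (nat_lit 427) (nat_lit 273) (nat_lit 200)) (XT.lf (nat_lit 0) (nat_lit 231231008623) (nat_lit 152) (nat_lit 63619340007) (nat_lit 0) (nat_lit 226021767440) (nat_lit 2) (nat_lit 5) (nat_lit 4) (nat_lit 4) (nat_lit 2) (nat_lit 4) (nat_lit 428) (nat_lit 273) (nat_lit 199)))))) (XT.nd (nat_lit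 40872) (nat_lit 0) (nat_lit 912) (XT.nd (nat_lit 234) (nat_lit 0) (nat_lit 0) (XT.nd (nat_lit 78) (nat_lit 0) (nat_lit 0) (XT.lf (nat_lit 0) (nat_lit 245518038170) (nat_lit 152) (nat_lit 60945658114) (nat_lit 0) (nat_lit 240301903299) (nat_lit 2) (nat_lit 5) (nat_lit 4) (nat_lit 4) (nat_lit 2) (nat_lit 4) (nat_lit 429) (nat_lit 273) (nat_lit 198)) (XT.nd (nat_lit 78) (nat_lit 0) (nat_lit 0) (XT.lf (nat_lit 0) (nat_lit 260512272127) (nat_lit 152) (nat_lit 58152271766) (nat_lit 0) (nat_lit 255289571838) (nat_lit 2) (nat_lit 5) (nat_lit 4) (nat_lit 4) (nat_lit 2) (nat_lit 4) (nat_lit 430) (nat_lit 273) (nat_lit 197)) (XT.lf (nat_lit 0) (nat_lit 276249411049) (nat_lit 152) (nat_lit 55232530045) (nat_lit 0) (nat_lit 271020457982) (nat_lit 2) (nat_lit 5) (nat_lit 4) (nat_lit 4) (nat_lit 2) (nat_lit 4) (nat_lit 431) (nat_lit 273) (nat_lit 196)))) (XT.nd (nat_lit 78) (nat_lit 0) (nat_lit 0) (XT.lf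 (nat_lit 0) (nat_lit 292766924317) (nat_lit 152) (nat_lit 52179481184) (nat_lit 0) (nat_lit 287532016223) (nat_lit 2) (nat_lit 5) (nat_lit 4) (nat_lit 4) (nat_lit 2) (nat_lit 4) (nat_lit 432) (nat_lit 273) (nat_lit 195)) (XT.nd (nat_lit 78) (nat_lit 0) (nat_lit 0) (XT.lf (nat_lit 0) (nat_lit 310104139342) (nat_lit 152) (nat_lit 48985856019) (nat_lit 0) (nat_lit 304863559793) (nat_lit 2) (nat_lit 5) (nat_lit 4) (nat_lit 4) (nat_lit 2) (nat_lit 4) (nat_lit 433) (nat_lit 273) (nat_lit 194)) (XT.lf (nat_lit 0) (nat_lit 328302335207) (nat_lit 152) (nat_lit 45644050680) (nat_lit 0) (nat_lit 323056354274) (nat_lit 2) (nat_lit 5) (nat_lit 4) (nat_lit 4) (nat_lit 2) (nat_lit 4) (nat_lit 434) (nat_lit 273) (nat_lit 193))))) (XT.nd (nat_lit 234) (nat_lit 228) (nat_lit 0) (XT.nd (nat_lit 78) (nat_lit 152) (nat_lit 0) (XT.lf (nat_lit 0) (nat_lit 4016749867) (nat_lit 76) (nat_lit 2306398760) (nat_lit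 76) (nat_lit 2306398760) (nat_lit 19) (nat_lit 4) (nat_lit 20) (nat_lit 5) (nat_lit 20) (nat_lit 4) (nat_lit 352) (nat_lit 274) (nat_lit 274)) (XT.nd (nat_lit 78) (nat_lit 0) (nat_lit 0) (XT.lf (nat_lit 0) (nat_lit 264075901) (nat_lit 76) (nat_lit 39738773) (nat_lit 152) (nat_lit 17552725854) (nat_lit 17) (nat_lit 5) (nat_lit 18) (nat_lit 5) (nat_lit 19) (nat_lit 4) (nat_lit 353) (nat_lit 274) (nat_lit 273)) (XT.lf (nat_lit 0) (nat_lit 5368521509) (nat_lit 152) (nat_lit 8407277857) (nat_lit 0) (nat_lit 4701468835) (nat_lit 17) (nat_lit 5) (nat_lit 19) (nat_lit 4) (nat_lit 17) (nat_lit 4) (nat_lit 354) (nat_lit 274) (nat_lit 272)))) (XT.nd (nat_lit 78) (nat_lit 152) (nat_lit 0) (XT.lf (nat_lit 0) (nat_lit 955454623) (nat_lit 76) (nat_lit 9579087654) (nat_lit 76) (nat_lit 8602138268) (nat_lit 16) (nat_lit 4) (nat_lit 17) (nat_lit 5) (nat_lit 17) (nat_lit 4) (nat_lit 355) (nat_lit 274) (nat_lit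 271)) (XT.nd (nat_lit 78) (nat_lit 152) (nat_lit 0) (XT.lf (nat_lit 0) (nat_lit 10771589239) (nat_lit 76) (nat_lit 5165354563) (nat_lit 76) (nat_lit 3893265451) (nat_lit 16) (nat_lit 4) (nat_lit 17) (nat_lit 5) (nat_lit 17) (nat_lit 4) (nat_lit 356) (nat_lit 274) (nat_lit 270)) (XT.lf (nat_lit 0) (nat_lit 213209652) (nat_lit 76) (nat_lit 648441185) (nat_lit 152) (nat_lit 19703776175) (nat_lit 14) (nat_lit 5) (nat_lit 15) (nat_lit 5) (nat_lit 16) (nat_lit 4) (nat_lit 357) (nat_lit 274) (nat_lit 269))))))))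
noncomputable def xc38 : XT := (XT.nd (nat_lit 1716) (nat_lit 228) (nat_lit 0) (XT.nd (nat_lit 858) (nat_lit 304) (nat_lit 0) (XT.nd (nat_lit 390) (nat_lit 152) (nat_lit 0) (XT.nd (nat_lit 156) (nat_lit 228) (nat_lit 0) (XT.nd (nat_lit 78) (nat_lit 0) (nat_lit 0) (XT.lf (nat_lit 0) (nat_lit 5785113992) (nat_lit 152) (nat_lit 11495114082) (nat_lit 0) (nat_lit 4050947328) (nat_lit 14) (nat_lit 5) (nat_lit 16) (nat_lit 4) (nat_lit 14) (nat_lit 4) (nat_lit 358) (nat_lit 274) (nat_lit 268)) (XT.lf (nat_lit 0) (nat_lit 10814703780) (nat_lit 152) (nat_lit 2489825739) (nat_lit 0) (nat_lit 8837724933) (nat_lit 14) (nat_lit 5) (nat_lit 16) (nat_lit 4) (nat_lit 14) (nat_lit 4) (nat_lit 359) (nat_lit 274) (nat_lit 267))) (XT.nd (nat_lit 78) (nat_lit 152) (nat_lit 0) (XT.lf (nat_lit 0) (nat_lit 6916586785) (nat_lit 76) (nat_lit 9143671949) (nat_lit 76) (nat_lit 6935443404) (nat_lit 13) (nat_lit 4) (nat_lit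 14) (nat_lit 5) (nat_lit 14) (nat_lit 4) (nat_lit 360) (nat_lit 274) (nat_lit 266)) (XT.nd (nat_lit 78) (nat_lit 152) (nat_lit 0) (XT.lf (nat_lit 0) (nat_lit 16613609991) (nat_lit 76) (nat_lit 4855824270) (nat_lit 76) (nat_lit 2427357917) (nat_lit 13) (nat_lit 4) (nat_lit 14) (nat_lit 5) (nat_lit 14) (nat_lit 4) (nat_lit 361) (nat_lit 274) (nat_lit 265)) (XT.lf (nat_lit 0) (nat_lit 1713361485) (nat_lit 76) (nat_lit 409359554) (nat_lit 152) (nat_lit 22723929090) (nat_lit 11) (nat_lit 5) (nat_lit 12) (nat_lit 5) (nat_lit 13) (nat_lit 4) (nat_lit 362) (nat_lit 274) (nat_lit 264))))) (XT.nd (nat_lit 234) (nat_lit 76) (nat_lit 0) (XT.nd (nat_lit 78) (nat_lit 76) (nat_lit 0) (XT.lf (nat_lit 0) (nat_lit 6874901456) (nat_lit 152) (nat_lit 14792268835) (nat_lit 0) (nat_lit 4172064475) (nat_lit 11) (nat_lit 5) (nat_lit 13) (nat_lit 4) (nat_lit 11) (nat_lit 4) (nat_lit 363) (nat_lit 274) (nat_lit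 263)) (XT.nd (nat_lit 78) (nat_lit 76) (nat_lit 0) (XT.lf (nat_lit 0) (nat_lit 11742168173) (nat_lit 152) (nat_lit 6287296127) (nat_lit 0) (nat_lit 8858141002) (nat_lit 11) (nat_lit 5) (nat_lit 13) (nat_lit 4) (nat_lit 11) (nat_lit 4) (nat_lit 364) (nat_lit 274) (nat_lit 262)) (XT.lf (nat_lit 0) (nat_lit 2487898967) (nat_lit 76) (nat_lit 14280662777) (nat_lit 76) (nat_lit 11224073521) (nat_lit 10) (nat_lit 4) (nat_lit 11) (nat_lit 5) (nat_lit 11) (nat_lit 4) (nat_lit 365) (nat_lit 274) (nat_lit 261)))) (XT.nd (nat_lit 78) (nat_lit 76) (nat_lit 0) (XT.lf (nat_lit 0) (nat_lit 11689264739) (nat_lit 76) (nat_lit 10342665509) (nat_lit 76) (nat_lit 7121731410) (nat_lit 10) (nat_lit 4) (nat_lit 11) (nat_lit 5) (nat_lit 11) (nat_lit 4) (nat_lit 366) (nat_lit 274) (nat_lit 260)) (XT.nd (nat_lit 78) (nat_lit 76) (nat_lit 0) (XT.lf (nat_lit 0) (nat_lit 21130822798) (nat_lit 76) (nat_lit 6312574713)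 (nat_lit 76) (nat_lit 2935121715) (nat_lit 10) (nat_lit 4) (nat_lit 11) (nat_lit 5) (nat_lit 11) (nat_lit 4) (nat_lit 367) (nat_lit 274) (nat_lit 259)) (XT.lf (nat_lit 0) (nat_lit 1302652117) (nat_lit 152) (nat_lit 856081773) (nat_lit 76) (nat_lit 29510339883) (nat_lit 9) (nat_lit 5) (nat_lit 11) (nat_lit 5) (nat_lit 10) (nat_lit 4) (nat_lit 368) (nat_lit 274) (nat_lit 258)))))) (XT.nd (nat_lit 390) (nat_lit 152) (nat_lit 0) (XT.nd (nat_lit 156) (nat_lit 76) (nat_lit 0) (XT.nd (nat_lit 78) (nat_lit 0) (nat_lit 0) (XT.lf (nat_lit 0) (nat_lit 5707533581) (nat_lit 152) (nat_lit 25097808983) (nat_lit 0) (nat_lit 2213737515) (nat_lit 8) (nat_lit 5) (nat_lit 10) (nat_lit 4) (nat_lit 8) (nat_lit 4) (nat_lit 369) (nat_lit 274) (nat_lit 257)) (XT.lf (nat_lit 0) (nat_lit 10277121853) (nat_lit 152) (nat_lit 17507706106) (nat_lit 0) (nat_lit 6654557302) (nat_lit 8) (nat_lit 5) (nat_lit 10) (nat_lit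 4) (nat_lit 8) (nat_lit 4) (nat_lit 370) (nat_lit 274) (nat_lit 256))) (XT.nd (nat_lit 78) (nat_lit 76) (nat_lit 0) (XT.lf (nat_lit 0) (nat_lit 14974558891) (nat_lit 152) (nat_lit 9731841321) (nat_lit 0) (nat_lit 11229357688) (nat_lit 8) (nat_lit 5) (nat_lit 10) (nat_lit 4) (nat_lit 8) (nat_lit 4) (nat_lit 371) (nat_lit 274) (nat_lit 255)) (XT.nd (nat_lit 78) (nat_lit 76) (nat_lit 0) (XT.lf (nat_lit 0) (nat_lit 19811029070) (nat_lit 152) (nat_lit 1751700661) (nat_lit 0) (nat_lit 15949031055) (nat_lit 8) (nat_lit 5) (nat_lit 10) (nat_lit 4) (nat_lit 8) (nat_lit 4) (nat_lit 372) (nat_lit 274) (nat_lit 254)) (XT.lf (nat_lit 0) (nat_lit 6665039079) (nat_lit 76) (nat_lit 18237068653) (nat_lit 76) (nat_lit 14263835580) (nat_lit 7) (nat_lit 4) (nat_lit 8) (nat_lit 5) (nat_lit 8) (nat_lit 4) (nat_lit 373) (nat_lit 274) (nat_lit 253))))) (XT.nd (nat_lit 234) (nat_lit 152) (nat_lit 0) (XT.nd (nat_lit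 78) (nat_lit 0) (nat_lit 0) (XT.lf (nat_lit 0) (nat_lit 15390534443) (nat_lit 76) (nat_lit 14797243849) (nat_lit 76) (nat_lit 10718072624) (nat_lit 7) (nat_lit 4) (nat_lit 8) (nat_lit 5) (nat_lit 8) (nat_lit 4) (nat_lit 374) (nat_lit 274) (nat_lit 252)) (XT.nd (nat_lit 78) (nat_lit 0) (nat_lit 0) (XT.lf (nat_lit 0) (nat_lit 24387641283) (nat_lit 76) (nat_lit 11264731159) (nat_lit 76) (nat_lit 7084666457) (nat_lit 7) (nat_lit 4) (nat_lit 8) (nat_lit 5) (nat_lit 8) (nat_lit 4) (nat_lit 375) (nat_lit 274) (nat_lit 251)) (XT.lf (nat_lit 0) (nat_lit 33677781281) (nat_lit 76) (nat_lit 7631119839) (nat_lit 76) (nat_lit 3354966111) (nat_lit 7) (nat_lit 4) (nat_lit 8) (nat_lit 5) (nat_lit 8) (nat_lit 4) (nat_lit 376) (nat_lit 274) (nat_lit 250)))) (XT.nd (nat_lit 78) (nat_lit 76) (nat_lit 0) (XT.lf (nat_lit 0) (nat_lit 464548579) (nat_lit 152) (nat_lit 3415342498) (nat_lit 76) (nat_lit 42810657886)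 (nat_lit 6) (nat_lit 5) (nat_lit 8) (nat_lit 5) (nat_lit 7) (nat_lit 4) (nat_lit 377) (nat_lit 274) (nat_lit 249)) (XT.nd (nat_lit 78) (nat_lit 0) (nat_lit 0) (XT.lf (nat_lit 0) (nat_lit 4359114352) (nat_lit 152) (nat_lit 44340447134) (nat_lit 0) (nat_lit 116426099) (nat_lit 5) (nat_lit 5) (nat_lit 7) (nat_lit 4) (nat_lit 5) (nat_lit 4) (nat_lit 378) (nat_lit 274) (nat_lit 248)) (XT.lf (nat_lit 0) (nat_lit 8496114033) (nat_lit 152) (nat_lit 38374839045) (nat_lit 0) (nat_lit 4174373101) (nat_lit 5) (nat_lit 5) (nat_lit 7) (nat_lit 4) (nat_lit 5) (nat_lit 4) (nat_lit 379) (nat_lit 274) (nat_lit 247))))))) (XT.nd (nat_lit 858) (nat_lit 152) (nat_lit 0) (XT.nd (nat_lit 390) (nat_lit 76) (nat_lit 0) (XT.nd (nat_lit 156) (nat_lit 0) (nat_lit 0) (XT.nd (nat_lit 78) (nat_lit 0) (nat_lit 0) (XT.lf (nat_lit 0) (nat_lit 12768832427) (nat_lit 152) (nat_lit 32249065295) (nat_lit 0) (nat_lit 8371803229)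 (nat_lit 5) (nat_lit 5) (nat_lit 7) (nat_lit 4) (nat_lit 5) (nat_lit 4) (nat_lit 380) (nat_lit 274) (nat_lit 246)) (XT.lf (nat_lit 0) (nat_lit 17187442673) (nat_lit 152) (nat_lit 25948540710) (nat_lit 0) (nat_lit 12718710365) (nat_lit 5) (nat_lit 5) (nat_lit 7) (nat_lit 4) (nat_lit 5) (nat_lit 4) (nat_lit 381) (nat_lit 274) (nat_lit 245))) (XT.nd (nat_lit 78) (nat_lit 0) (nat_lit 0) (XT.lf (nat_lit 0) (nat_lit 21762465273) (nat_lit 152) (nat_lit 19458264039) (nat_lit 0) (nat_lit 17225444287) (nat_lit 5) (nat_lit 5) (nat_lit 7) (nat_lit 4) (nat_lit 5) (nat_lit 4) (nat_lit 382) (nat_lit 274) (nat_lit 244)) (XT.nd (nat_lit 78) (nat_lit 0) (nat_lit 0) (XT.lf (nat_lit 0) (nat_lit 26504793136) (nat_lit 152) (nat_lit 12762782245) (nat_lit 0) (nat_lit 21902735315) (nat_lit 5) (nat_lit 5) (nat_lit 7) (nat_lit 4) (nat_lit 5) (nat_lit 4) (nat_lit 383) (nat_lit 274) (nat_lit 243)) (XT.lf (nat_lit 0)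 (nat_lit 31425717519) (nat_lit 152) (nat_lit 5846153702) (nat_lit 0) (nat_lit 26761719856) (nat_lit 5) (nat_lit 5) (nat_lit 7) (nat_lit 4) (nat_lit 5) (nat_lit 4) (nat_lit 384) (nat_lit 274) (nat_lit 242))))) (XT.nd (nat_lit 234) (nat_lit 0) (nat_lit 0) (XT.nd (nat_lit 78) (nat_lit 0) (nat_lit 0) (XT.lf (nat_lit 0) (nat_lit 1351341105) (nat_lit 76) (nat_lit 35206712026) (nat_lit 76) (nat_lit 30483724036) (nat_lit 4) (nat_lit 4) (nat_lit 5) (nat_lit 5) (nat_lit 5) (nat_lit 4) (nat_lit 385) (nat_lit 274) (nat_lit 241)) (XT.nd (nat_lit 78) (nat_lit 0) (nat_lit 0) (XT.lf (nat_lit 0) (nat_lit 9005204821) (nat_lit 76) (nat_lit 32986066584) (nat_lit 76) (nat_lit 28206897330) (nat_lit 4) (nat_lit 4) (nat_lit 5) (nat_lit 5) (nat_lit 5) (nat_lit 4) (nat_lit 386) (nat_lit 274) (nat_lit 240)) (XT.lf (nat_lit 0) (nat_lit 16940360685) (nat_lit 76) (nat_lit 30703655086) (nat_lit 76) (nat_lit 25870979867)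 (nat_lit 4) (nat_lit 4) (nat_lit 5) (nat_lit 5) (nat_lit 5) (nat_lit 4) (nat_lit 387) (nat_lit 274) (nat_lit 239)))) (XT.nd (nat_lit 78) (nat_lit 0) (nat_lit 0) (XT.lf (nat_lit 0) (nat_lit 25175701928) (nat_lit 76) (nat_lit 28354043218) (nat_lit 76) (nat_lit 23470409937) (nat_lit 4) (nat_lit 4) (nat_lit 5) (nat_lit 5) (nat_lit 5) (nat_lit 4) (nat_lit 388) (nat_lit 274) (nat_lit 238)) (XT.nd (nat_lit 78) (nat_lit 0) (nat_lit 0) (XT.lf (nat_lit 0) (nat_lit 33730836503) (nat_lit 76) (nat_lit 25931636668) (nat_lit 76) (nat_lit 20999471899) (nat_lit 4) (nat_lit 4) (nat_lit 5) (nat_lit 5) (nat_lit 5) (nat_lit 4) (nat_lit 389) (nat_lit 274) (nat_lit 237)) (XT.lf (nat_lit 0) (nat_lit 42626133778) (nat_lit 76) (nat_lit 23430667799) (nat_lit 76) (nat_lit 18452282566) (nat_lit 4) (nat_lit 4) (nat_lit 5) (nat_lit 5) (nat_lit 5) (nat_lit 4) (nat_lit 390) (nat_lit 274) (nat_lit 236)))))) (XT.nd (nat_lit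 468) (nat_lit 152) (nat_lit 0) (XT.nd (nat_lit 234) (nat_lit 0) (nat_lit 0) (XT.nd (nat_lit 78) (nat_lit 0) (nat_lit 0) (XT.lf (nat_lit 0) (nat_lit 51882773034) (nat_lit 76) (nat_lit 20845181926) (nat_lit 76) (nat_lit 15822777203) (nat_lit 4) (nat_lit 4) (nat_lit 5) (nat_lit 5) (nat_lit 5) (nat_lit 4) (nat_lit 391) (nat_lit 274) (nat_lit 235)) (XT.nd (nat_lit 78) (nat_lit 0) (nat_lit 0) (XT.lf (nat_lit 0) (nat_lit 61522793887) (nat_lit 76) (nat_lit 18169023127) (nat_lit 76) (nat_lit 13104695081) (nat_lit 4) (nat_lit 4) (nat_lit 5) (nat_lit 5) (nat_lit 5) (nat_lit 4) (nat_lit 392) (nat_lit 274) (nat_lit 234)) (XT.lf (nat_lit 0) (nat_lit 71569148768) (nat_lit 76) (nat_lit 15395819598) (nat_lit 76) (nat_lit 10291564577) (nat_lit 4) (nat_lit 4) (nat_lit 5) (nat_lit 5) (nat_lit 5) (nat_lit 4) (nat_lit 393) (nat_lit 274) (nat_lit 233)))) (XT.nd (nat_lit 78) (nat_lit 0) (nat_lit 0) (XT.lf (nat_lit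 0) (nat_lit 82045757569) (nat_lit 76) (nat_lit 12518968473) (nat_lit 76) (nat_lit 7376687760) (nat_lit 4) (nat_lit 4) (nat_lit 5) (nat_lit 5) (nat_lit 5) (nat_lit 4) (nat_lit 394) (nat_lit 274) (nat_lit 232)) (XT.nd (nat_lit 78) (nat_lit 0) (nat_lit 0) (XT.lf (nat_lit 0) (nat_lit 92977564598) (nat_lit 76) (nat_lit 9531620105) (nat_lit 76) (nat_lit 4353124450) (nat_lit 4) (nat_lit 4) (nat_lit 5) (nat_lit 5) (nat_lit 5) (nat_lit 4) (nat_lit 395) (nat_lit 274) (nat_lit 231)) (XT.lf (nat_lit 0) (nat_lit 104390597965) (nat_lit 76) (nat_lit 6426661761) (nat_lit 76) (nat_lit 1213675684) (nat_lit 4) (nat_lit 4) (nat_lit 5) (nat_lit 5) (nat_lit 5) (nat_lit 4) (nat_lit 396) (nat_lit 274) (nat_lit 230))))) (XT.nd (nat_lit 234) (nat_lit 0) (nat_lit 0) (XT.nd (nat_lit 78) (nat_lit 76) (nat_lit 0) (XT.lf (nat_lit 0) (nat_lit 1983548348) (nat_lit 152) (nat_lit 1179559984) (nat_lit 76) (nat_lit 114294890861)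 (nat_lit 3) (nat_lit 5) (nat_lit 5) (nat_lit 5) (nat_lit 4) (nat_lit 4) (nat_lit 397) (nat_lit 274) (nat_lit 229)) (XT.nd (nat_lit 78) (nat_lit 0) (nat_lit 0) (XT.lf (nat_lit 0) (nat_lit 5363401389) (nat_lit 152) (nat_lit 117451272425) (nat_lit 0) (nat_lit 337574791) (nat_lit 2) (nat_lit 5) (nat_lit 4) (nat_lit 4) (nat_lit 2) (nat_lit 4) (nat_lit 398) (nat_lit 274) (nat_lit 228)) (XT.lf (nat_lit 0) (nat_lit 8953516003) (nat_lit 152) (nat_lit 116276321773) (nat_lit 0) (nat_lit 3899314048) (nat_lit 2) (nat_lit 5) (nat_lit 4) (nat_lit 4) (nat_lit 2) (nat_lit 4) (nat_lit 399) (nat_lit 274) (nat_lit 227)))) (XT.nd (nat_lit 78) (nat_lit 0) (nat_lit 0) (XT.lf (nat_lit 0) (nat_lit 12693718046) (nat_lit 152) (nat_lit 115100165683) (nat_lit 0) (nat_lit 7612491943) (nat_lit 2) (nat_lit 5) (nat_lit 4) (nat_lit 4) (nat_lit 2) (nat_lit 4) (nat_lit 400) (nat_lit 274) (nat_lit 226)) (XT.nd (nat_lit 78)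 (nat_lit 0) (nat_lit 0) (XT.lf (nat_lit 0) (nat_lit 16592912762) (nat_lit 152) (nat_lit 113920003785) (nat_lit 0) (nat_lit 11485949375) (nat_lit 2) (nat_lit 5) (nat_lit 4) (nat_lit 4) (nat_lit 2) (nat_lit 4) (nat_lit 401) (nat_lit 274) (nat_lit 225)) (XT.lf (nat_lit 0) (nat_lit 20660383947) (nat_lit 152) (nat_lit 112733026169) (nat_lit 0) (nat_lit 15528908861) (nat_lit 2) (nat_lit 5) (nat_lit 4) (nat_lit 4) (nat_lit 2) (nat_lit 4) (nat_lit 402) (nat_lit 274) (nat_lit 224))))))))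
noncomputable def xc39 : XT := (XT.nd (nat_lit 1716) (nat_lit 0) (nat_lit 0) (XT.nd (nat_lit 858) (nat_lit 0) (nat_lit 0) (XT.nd (nat_lit 390) (nat_lit 0) (nat_lit 0) (XT.nd (nat_lit 156) (nat_lit 0) (nat_lit 0) (XT.nd (nat_lit 78) (nat_lit 0) (nat_lit 0) (XT.lf (nat_lit 0) (nat_lit 24905816057) (nat_lit 152) (nat_lit 111536406697) (nat_lit 0) (nat_lit 19750996495) (nat_lit 2) (nat_lit 5) (nat_lit 4) (nat_lit 4) (nat_lit 2) (nat_lit 4) (nat_lit 403) (nat_lit 274) (nat_lit 223)) (XT.lf (nat_lit 0) (nat_lit 29339317263) (nat_lit 152) (nat_lit 110327296277) (nat_lit 0) (nat_lit 24162264868) (nat_lit 2) (nat_lit 5) (nat_lit 4) (nat_lit 4) (nat_lit 2) (nat_lit 4) (nat_lit 404) (nat_lit 274) (nat_lit 222))) (XT.nd (nat_lit 78) (nat_lit 0) (nat_lit 0) (XT.lf (nat_lit 0) (nat_lit 33971443521) (nat_lit 152) (nat_lit 109102816073) (nat_lit 0) (nat_lit 28773216999) (nat_lit 2) (nat_lit 5) (nat_lit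 4) (nat_lit 4) (nat_lit 2) (nat_lit 4) (nat_lit 405) (nat_lit 274) (nat_lit 221)) (XT.nd (nat_lit 78) (nat_lit 0) (nat_lit 0) (XT.lf (nat_lit 0) (nat_lit 38813223703) (nat_lit 152) (nat_lit 107860050657) (nat_lit 0) (nat_lit 33594831345) (nat_lit 2) (nat_lit 5) (nat_lit 4) (nat_lit 4) (nat_lit 2) (nat_lit 4) (nat_lit 406) (nat_lit 274) (nat_lit 220)) (XT.lf (nat_lit 0) (nat_lit 43876185856) (nat_lit 152) (nat_lit 106596041062) (nat_lit 0) (nat_lit 38638587941) (nat_lit 2) (nat_lit 5) (nat_lit 4) (nat_lit 4) (nat_lit 2) (nat_lit 4) (nat_lit 407) (nat_lit 274) (nat_lit 219))))) (XT.nd (nat_lit 234) (nat_lit 0) (nat_lit 0) (XT.nd (nat_lit 78) (nat_lit 0) (nat_lit 0) (XT.lf (nat_lit 0) (nat_lit 49172384653) (nat_lit 152) (nat_lit 105307777744) (nat_lit 0) (nat_lit 43916495731) (nat_lit 2) (nat_lit 5) (nat_lit 4) (nat_lit 4) (nat_lit 2) (nat_lit 4) (nat_lit 408) (nat_lit 274) (nat_lit 218))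 (XT.nd (nat_lit 78) (nat_lit 0) (nat_lit 0) (XT.lf (nat_lit 0) (nat_lit 54714430091) (nat_lit 152) (nat_lit 103992193407) (nat_lit 0) (nat_lit 49441121161) (nat_lit 2) (nat_lit 5) (nat_lit 4) (nat_lit 4) (nat_lit 2) (nat_lit 4) (nat_lit 409) (nat_lit 274) (nat_lit 217)) (XT.lf (nat_lit 0) (nat_lit 60515517516) (nat_lit 152) (nat_lit 102646155709) (nat_lit 0) (nat_lit 55225618103) (nat_lit 2) (nat_lit 5) (nat_lit 4) (nat_lit 4) (nat_lit 2) (nat_lit 4) (nat_lit 410) (nat_lit 274) (nat_lit 216)))) (XT.nd (nat_lit 78) (nat_lit 0) (nat_lit 0) (XT.lf (nat_lit 0) (nat_lit 66589459041) (nat_lit 152) (nat_lit 101266459797) (nat_lit 0) (nat_lit 61283759168) (nat_lit 2) (nat_lit 5) (nat_lit 4) (nat_lit 4) (nat_lit 2) (nat_lit 4) (nat_lit 411) (nat_lit 274) (nat_lit 215)) (XT.nd (nat_lit 78) (nat_lit 0) (nat_lit 0) (XT.lf (nat_lit 0) (nat_lit 72950716431) (nat_lit 152) (nat_lit 99849820681) (nat_lit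 0) (nat_lit 67629968501) (nat_lit 2) (nat_lit 5) (nat_lit 4) (nat_lit 4) (nat_lit 2) (nat_lit 4) (nat_lit 412) (nat_lit 274) (nat_lit 214)) (XT.lf (nat_lit 0) (nat_lit 79614435537) (nat_lit 152) (nat_lit 98392865412) (nat_lit 0) (nat_lit 74279356125) (nat_lit 2) (nat_lit 5) (nat_lit 4) (nat_lit 4) (nat_lit 2) (nat_lit 4) (nat_lit 413) (nat_lit 274) (nat_lit 213)))))) (XT.nd (nat_lit 390) (nat_lit 0) (nat_lit 0) (XT.nd (nat_lit 156) (nat_lit 0) (nat_lit 0) (XT.nd (nat_lit 78) (nat_lit 0) (nat_lit 0) (XT.lf (nat_lit 0) (nat_lit 86596482358) (nat_lit 152) (nat_lit 96892125047) (nat_lit 0) (nat_lit 81247753914) (nat_lit 2) (nat_lit 5) (nat_lit 4) (nat_lit 4) (nat_lit 2) (nat_lit 4) (nat_lit 414) (nat_lit 274) (nat_lit 212)) (XT.lf (nat_lit 0) (nat_lit 93913480814) (nat_lit 152) (nat_lit 95344026397) (nat_lit 0) (nat_lit 88551753293) (nat_lit 2) (nat_lit 5) (nat_lit 4) (nat_lit 4) (nat_lit 2)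 (nat_lit 4) (nat_lit 415) (nat_lit 274) (nat_lit 211))) (XT.nd (nat_lit 78) (nat_lit 0) (nat_lit 0) (XT.lf (nat_lit 0) (nat_lit 101582852330) (nat_lit 152) (nat_lit 93744883510) (nat_lit 0) (nat_lit 96208744735) (nat_lit 2) (nat_lit 5) (nat_lit 4) (nat_lit 4) (nat_lit 2) (nat_lit 4) (nat_lit 416) (nat_lit 274) (nat_lit 210)) (XT.nd (nat_lit 78) (nat_lit 0) (nat_lit 0) (XT.lf (nat_lit 0) (nat_lit 109622857314) (nat_lit 152) (nat_lit 92090888905) (nat_lit 0) (nat_lit 104236959173) (nat_lit 2) (nat_lit 5) (nat_lit 4) (nat_lit 4) (nat_lit 2) (nat_lit 4) (nat_lit 417) (nat_lit 274) (nat_lit 209)) (XT.lf (nat_lit 0) (nat_lit 118052638636) (nat_lit 152) (nat_lit 90378104499) (nat_lit 0) (nat_lit 112655511403) (nat_lit 2) (nat_lit 5) (nat_lit 4) (nat_lit 4) (nat_lit 2) (nat_lit 4) (nat_lit 418) (nat_lit 274) (nat_lit 208))))) (XT.nd (nat_lit 234) (nat_lit 0) (nat_lit 0) (XT.nd (nat_lit 78) (nat_lit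 0) (nat_lit 0) (XT.lf (nat_lit 0) (nat_lit 126892267204) (nat_lit 152) (nat_lit 88602452234) (nat_lit 0) (nat_lit 121484445598) (nat_lit 2) (nat_lit 5) (nat_lit 4) (nat_lit 4) (nat_lit 2) (nat_lit 4) (nat_lit 419) (nat_lit 274) (nat_lit 207)) (XT.nd (nat_lit 78) (nat_lit 0) (nat_lit 0) (XT.lf (nat_lit 0) (nat_lit 136162789751) (nat_lit 152) (nat_lit 86759704367) (nat_lit 0) (nat_lit 130744783028) (nat_lit 2) (nat_lit 5) (nat_lit 4) (nat_lit 4) (nat_lit 2) (nat_lit 4) (nat_lit 420) (nat_lit 274) (nat_lit 206)) (XT.lf (nat_lit 0) (nat_lit 145886278952) (nat_lit 152) (nat_lit 84845473401) (nat_lit 0) (nat_lit 140458572117) (nat_lit 2) (nat_lit 5) (nat_lit 4) (nat_lit 4) (nat_lit 2) (nat_lit 4) (nat_lit 421) (nat_lit 274) (nat_lit 205)))) (XT.nd (nat_lit 78) (nat_lit 0) (nat_lit 0) (XT.lf (nat_lit 0) (nat_lit 156085885970) (nat_lit 152) (nat_lit 82855201646) (nat_lit 0) (nat_lit 150648940933)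 (nat_lit 2) (nat_lit 5) (nat_lit 4) (nat_lit 4) (nat_lit 2) (nat_lit 4) (nat_lit 422) (nat_lit 274) (nat_lit 204)) (XT.nd (nat_lit 78) (nat_lit 0) (nat_lit 0) (XT.lf (nat_lit 0) (nat_lit 166785895584) (nat_lit 152) (nat_lit 80784150358) (nat_lit 0) (nat_lit 161340152260) (nat_lit 2) (nat_lit 5) (nat_lit 4) (nat_lit 4) (nat_lit 2) (nat_lit 4) (nat_lit 423) (nat_lit 274) (nat_lit 203)) (XT.lf (nat_lit 0) (nat_lit 178011784008) (nat_lit 152) (nat_lit 78627388463) (nat_lit 0) (nat_lit 172557661363) (nat_lit 2) (nat_lit 5) (nat_lit 4) (nat_lit 4) (nat_lit 2) (nat_lit 4) (nat_lit 424) (nat_lit 274) (nat_lit 202))))))) (XT.nd (nat_lit 41106) (nat_lit 0) (nat_lit 760) (XT.nd (nat_lit 390) (nat_lit 0) (nat_lit 0) (XT.nd (nat_lit 156) (nat_lit 0) (nat_lit 0) (XT.nd (nat_lit 78) (nat_lit 0) (nat_lit 0) (XT.lf (nat_lit 0) (nat_lit 189790279547) (nat_lit 152) (nat_lit 76379780813) (nat_lit 0) (nat_lit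 184328176596) (nat_lit 2) (nat_lit 5) (nat_lit 4) (nat_lit 4) (nat_lit 2) (nat_lit 4) (nat_lit 425) (nat_lit 274) (nat_lit 201)) (XT.lf (nat_lit 0) (nat_lit 202149426238) (nat_lit 152) (nat_lit 74035975962) (nat_lit 0) (nat_lit 196679722996) (nat_lit 2) (nat_lit 5) (nat_lit 4) (nat_lit 4) (nat_lit 2) (nat_lit 4) (nat_lit 426) (nat_lit 274) (nat_lit 200))) (XT.nd (nat_lit 78) (nat_lit 0) (nat_lit 0) (XT.lf (nat_lit 0) (nat_lit 215118650622) (nat_lit 152) (nat_lit 71590393422) (nat_lit 0) (nat_lit 209641709007) (nat_lit 2) (nat_lit 5) (nat_lit 4) (nat_lit 4) (nat_lit 2) (nat_lit 4) (nat_lit 427) (nat_lit 274) (nat_lit 199)) (XT.nd (nat_lit 78) (nat_lit 0) (nat_lit 0) (XT.lf (nat_lit 0) (nat_lit 228728831803) (nat_lit 152) (nat_lit 69037210378) (nat_lit 0) (nat_lit 223244996500) (nat_lit 2) (nat_lit 5) (nat_lit 4) (nat_lit 4) (nat_lit 2) (nat_lit 4) (nat_lit 428) (nat_lit 274) (nat_lit 198))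 (XT.lf (nat_lit 0) (nat_lit 243012374976) (nat_lit 152) (nat_lit 66370347822) (nat_lit 0) (nat_lit 237521974255) (nat_lit 2) (nat_lit 5) (nat_lit 4) (nat_lit 4) (nat_lit 2) (nat_lit 4) (nat_lit 429) (nat_lit 274) (nat_lit 197))))) (XT.nd (nat_lit 234) (nat_lit 0) (nat_lit 0) (XT.nd (nat_lit 78) (nat_lit 0) (nat_lit 0) (XT.lf (nat_lit 0) (nat_lit 258003288575) (nat_lit 152) (nat_lit 63583456081) (nat_lit 0) (nat_lit 252506635076) (nat_lit 2) (nat_lit 5) (nat_lit 4) (nat_lit 4) (nat_lit 2) (nat_lit 4) (nat_lit 430) (nat_lit 274) (nat_lit 196)) (XT.nd (nat_lit 78) (nat_lit 0) (nat_lit 0) (XT.lf (nat_lit 0) (nat_lit 273737265253) (nat_lit 152) (nat_lit 60669899700) (nat_lit 0) (nat_lit 268234656727) (nat_lit 2) (nat_lit 5) (nat_lit 4) (nat_lit 4) (nat_lit 2) (nat_lit 4) (nat_lit 431) (nat_lit 274) (nat_lit 195)) (XT.lf (nat_lit 0) (nat_lit 290251766859) (nat_lit 152) (nat_lit 57622741638) (nat_lit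 0) (nat_lit 284743486879) (nat_lit 2) (nat_lit 5) (nat_lit 4) (nat_lit 4) (nat_lit 2) (nat_lit 4) (nat_lit 432) (nat_lit 274) (nat_lit 194)))) (XT.nd (nat_lit 78) (nat_lit 0) (nat_lit 0) (XT.lf (nat_lit 0) (nat_lit 307586113635) (nat_lit 152) (nat_lit 54434726758) (nat_lit 0) (nat_lit 302072432269) (nat_lit 2) (nat_lit 5) (nat_lit 4) (nat_lit 4) (nat_lit 2) (nat_lit 4) (nat_lit 433) (nat_lit 274) (nat_lit 193)) (XT.nd (nat_lit 40326) (nat_lit 0) (nat_lit 1368) (XT.lf (nat_lit 0) (nat_lit 325781577835) (nat_lit 152) (nat_lit 51098264548) (nat_lit 0) (nat_lit 320262752293) (nat_lit 2) (nat_lit 5) (nat_lit 4) (nat_lit 4) (nat_lit 2) (nat_lit 4) (nat_lit 434) (nat_lit 274) (nat_lit 192)) (XT.lf (nat_lit 0) (nat_lit 1264476059) (nat_lit 152) (nat_lit 5550539880) (nat_lit 0) (nat_lit 1264476059) (nat_lit 20) (nat_lit 5) (nat_lit 22) (nat_lit 4) (nat_lit 20) (nat_lit 4) (nat_lit 350) (nat_lit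 275) (nat_lit 275)))))) (XT.nd (nat_lit 468) (nat_lit 304) (nat_lit 0) (XT.nd (nat_lit 234) (nat_lit 152) (nat_lit 0) (XT.nd (nat_lit 78) (nat_lit 152) (nat_lit 0) (XT.lf (nat_lit 0) (nat_lit 7629049938) (nat_lit 152) (nat_lit 1815136789) (nat_lit 0) (nat_lit 7252368547) (nat_lit 20) (nat_lit 5) (nat_lit 22) (nat_lit 4) (nat_lit 20) (nat_lit 4) (nat_lit 351) (nat_lit 275) (nat_lit 274)) (XT.nd (nat_lit 78) (nat_lit 76) (nat_lit 0) (XT.lf (nat_lit 0) (nat_lit 7877334070) (nat_lit 76) (nat_lit 5060730729) (nat_lit 76) (nat_lit 4325305157) (nat_lit 19) (nat_lit 4) (nat_lit 20) (nat_lit 5) (nat_lit 20) (nat_lit 4) (nat_lit 352) (nat_lit 275) (nat_lit 273)) (XT.lf (nat_lit 0) (nat_lit 495759264) (nat_lit 152) (nat_lit 60780205) (nat_lit 76) (nat_lit 17308395868) (nat_lit 18) (nat_lit 5) (nat_lit 20) (nat_lit 5) (nat_lit 19) (nat_lit 4) (nat_lit 353) (nat_lit 275) (nat_lit 272)))) (XT.nd (nat_lit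 78) (nat_lit 76) (nat_lit 0) (XT.lf (nat_lit 0) (nat_lit 5469698465) (nat_lit 152) (nat_lit 8886523502) (nat_lit 0) (nat_lit 4134004897) (nat_lit 17) (nat_lit 5) (nat_lit 19) (nat_lit 4) (nat_lit 17) (nat_lit 4) (nat_lit 354) (nat_lit 275) (nat_lit 271)) (XT.nd (nat_lit 78) (nat_lit 0) (nat_lit 0) (XT.lf (nat_lit 0) (nat_lit 310794079) (nat_lit 76) (nat_lit 10237048264) (nat_lit 76) (nat_lit 8606214970) (nat_lit 16) (nat_lit 4) (nat_lit 17) (nat_lit 5) (nat_lit 17) (nat_lit 4) (nat_lit 355) (nat_lit 275) (nat_lit 270)) (XT.lf (nat_lit 0) (nat_lit 9984482147) (nat_lit 76) (nat_lit 5889431127) (nat_lit 76) (nat_lit 3977512380) (nat_lit 16) (nat_lit 4) (nat_lit 17) (nat_lit 5) (nat_lit 17) (nat_lit 4) (nat_lit 356) (nat_lit 275) (nat_lit 269))))) (XT.nd (nat_lit 234) (nat_lit 152) (nat_lit 0) (XT.nd (nat_lit 78) (nat_lit 76) (nat_lit 0) (XT.lf (nat_lit 0) (nat_lit 702862699) (nat_lit 152)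 (nat_lit 738750644) (nat_lit 76) (nat_lit 19148978674) (nat_lit 15) (nat_lit 5) (nat_lit 17) (nat_lit 5) (nat_lit 16) (nat_lit 4) (nat_lit 357) (nat_lit 275) (nat_lit 268)) (XT.nd (nat_lit 78) (nat_lit 0) (nat_lit 0) (XT.lf (nat_lit 0) (nat_lit 5528330714) (nat_lit 152) (nat_lit 12623238667) (nat_lit 0) (nat_lit 3209690742) (nat_lit 14) (nat_lit 5) (nat_lit 16) (nat_lit 4) (nat_lit 14) (nat_lit 4) (nat_lit 358) (nat_lit 275) (nat_lit 267)) (XT.lf (nat_lit 0) (nat_lit 10487919709) (nat_lit 152) (nat_lit 3749908474) (nat_lit 0) (nat_lit 7938030038) (nat_lit 14) (nat_lit 5) (nat_lit 16) (nat_lit 4) (nat_lit 14) (nat_lit 4) (nat_lit 359) (nat_lit 275) (nat_lit 266)))) (XT.nd (nat_lit 78) (nat_lit 76) (nat_lit 0) (XT.lf (nat_lit 0) (nat_lit 5485010233) (nat_lit 76) (nat_lit 10159446086) (nat_lit 76) (nat_lit 7389318608) (nat_lit 13) (nat_lit 4) (nat_lit 14) (nat_lit 5) (nat_lit 14) (nat_lit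 4) (nat_lit 360) (nat_lit 275) (nat_lit 265)) (XT.nd (nat_lit 78) (nat_lit 76) (nat_lit 0) (XT.lf (nat_lit 0) (nat_lit 15058386018) (nat_lit 76) (nat_lit 5929822562) (nat_lit 76) (nat_lit 2949944790) (nat_lit 13) (nat_lit 4) (nat_lit 14) (nat_lit 5) (nat_lit 14) (nat_lit 4) (nat_lit 361) (nat_lit 275) (nat_lit 264)) (XT.lf (nat_lit 0) (nat_lit 1526764628) (nat_lit 152) (nat_lit 49772467) (nat_lit 76) (nat_lit 23316402596) (nat_lit 12) (nat_lit 5) (nat_lit 14) (nat_lit 5) (nat_lit 13) (nat_lit 4) (nat_lit 362) (nat_lit 275) (nat_lit 263))))))))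
noncomputable def xc40 : XT := (XT.nd (nat_lit 1716) (nat_lit 228) (nat_lit 0) (XT.nd (nat_lit 858) (nat_lit 152) (nat_lit 0) (XT.nd (nat_lit 390) (nat_lit 228) (nat_lit 0) (XT.nd (nat_lit 156) (nat_lit 76) (nat_lit 0) (XT.nd (nat_lit 78) (nat_lit 0) (nat_lit 0) (XT.lf (nat_lit 0) (nat_lit 6196865442) (nat_lit 152) (nat_lit 16705331036) (nat_lit 0) (nat_lit 2987446723) (nat_lit 11) (nat_lit 5) (nat_lit 13) (nat_lit 4) (nat_lit 11) (nat_lit 4) (nat_lit 363) (nat_lit 275) (nat_lit 262)) (XT.lf (nat_lit 0) (nat_lit 11004093351) (nat_lit 152) (nat_lit 8314823964) (nat_lit 0) (nat_lit 7622112547) (nat_lit 11) (nat_lit 5) (nat_lit 13) (nat_lit 4) (nat_lit 11) (nat_lit 4) (nat_lit 364) (nat_lit 275) (nat_lit 261))) (XT.nd (nat_lit 78) (nat_lit 0) (nat_lit 0) (XT.lf (nat_lit 0) (nat_lit 280712488) (nat_lit 76) (nat_lit 15658134251) (nat_lit 76) (nat_lit 12111808604) (nat_lit 10) (nat_lit 4) (nat_lit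 11) (nat_lit 5) (nat_lit 11) (nat_lit 4) (nat_lit 365) (nat_lit 275) (nat_lit 260)) (XT.nd (nat_lit 78) (nat_lit 0) (nat_lit 0) (XT.lf (nat_lit 0) (nat_lit 9374821674) (nat_lit 76) (nat_lit 11771262024) (nat_lit 76) (nat_lit 8068417479) (nat_lit 10) (nat_lit 4) (nat_lit 11) (nat_lit 5) (nat_lit 11) (nat_lit 4) (nat_lit 366) (nat_lit 275) (nat_lit 259)) (XT.lf (nat_lit 0) (nat_lit 18714230603) (nat_lit 76) (nat_lit 7789861744) (nat_lit 76) (nat_lit 3937951582) (nat_lit 10) (nat_lit 4) (nat_lit 11) (nat_lit 5) (nat_lit 11) (nat_lit 4) (nat_lit 367) (nat_lit 275) (nat_lit 258))))) (XT.nd (nat_lit 234) (nat_lit 76) (nat_lit 0) (XT.nd (nat_lit 78) (nat_lit 76) (nat_lit 0) (XT.lf (nat_lit 0) (nat_lit 280160169) (nat_lit 152) (nat_lit 3419549069) (nat_lit 76) (nat_lit 28036271146) (nat_lit 9) (nat_lit 5) (nat_lit 11) (nat_lit 5) (nat_lit 10) (nat_lit 4) (nat_lit 368) (nat_lit 275) (nat_lit 257))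 (XT.nd (nat_lit 78) (nat_lit 0) (nat_lit 0) (XT.lf (nat_lit 0) (nat_lit 4567416109) (nat_lit 152) (nat_lit 27889507596) (nat_lit 0) (nat_lit 634954846) (nat_lit 8) (nat_lit 5) (nat_lit 10) (nat_lit 4) (nat_lit 8) (nat_lit 4) (nat_lit 369) (nat_lit 275) (nat_lit 256)) (XT.lf (nat_lit 0) (nat_lit 9087916260) (nat_lit 152) (nat_lit 20393913614) (nat_lit 0) (nat_lit 5032818345) (nat_lit 8) (nat_lit 5) (nat_lit 10) (nat_lit 4) (nat_lit 8) (nat_lit 4) (nat_lit 370) (nat_lit 275) (nat_lit 255)))) (XT.nd (nat_lit 78) (nat_lit 76) (nat_lit 0) (XT.lf (nat_lit 0) (nat_lit 13738602707) (nat_lit 152) (nat_lit 12708057300) (nat_lit 0) (nat_lit 9566707980) (nat_lit 8) (nat_lit 5) (nat_lit 10) (nat_lit 4) (nat_lit 8) (nat_lit 4) (nat_lit 371) (nat_lit 275) (nat_lit 254)) (XT.nd (nat_lit 78) (nat_lit 76) (nat_lit 0) (XT.lf (nat_lit 0) (nat_lit 18530548514) (nat_lit 152) (nat_lit 4813638994) (nat_lit 0)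 (nat_lit 14247418728) (nat_lit 8) (nat_lit 5) (nat_lit 10) (nat_lit 4) (nat_lit 8) (nat_lit 4) (nat_lit 372) (nat_lit 275) (nat_lit 253)) (XT.lf (nat_lit 0) (nat_lit 3417519502) (nat_lit 76) (nat_lit 20111000628) (nat_lit 76) (nat_lit 15721932691) (nat_lit 7) (nat_lit 4) (nat_lit 8) (nat_lit 5) (nat_lit 8) (nat_lit 4) (nat_lit 373) (nat_lit 275) (nat_lit 252)))))) (XT.nd (nat_lit 390) (nat_lit 0) (nat_lit 0) (XT.nd (nat_lit 156) (nat_lit 152) (nat_lit 0) (XT.nd (nat_lit 78) (nat_lit 0) (nat_lit 0) (XT.lf (nat_lit 0) (nat_lit 12062691309) (nat_lit 76) (nat_lit 16709860387) (nat_lit 76) (nat_lit 12219898973) (nat_lit 7) (nat_lit 4) (nat_lit 8) (nat_lit 5) (nat_lit 8) (nat_lit 4) (nat_lit 374) (nat_lit 275) (nat_lit 251)) (XT.lf (nat_lit 0) (nat_lit 20983299523) (nat_lit 76) (nat_lit 13214190138) (nat_lit 76) (nat_lit 8628139698) (nat_lit 7) (nat_lit 4) (nat_lit 8) (nat_lit 5) (nat_lit 8)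 (nat_lit 4) (nat_lit 375) (nat_lit 275) (nat_lit 250))) (XT.nd (nat_lit 78) (nat_lit 152) (nat_lit 0) (XT.lf (nat_lit 0) (nat_lit 30200583687) (nat_lit 76) (nat_lit 9615666857) (nat_lit 76) (nat_lit 4938103058) (nat_lit 7) (nat_lit 4) (nat_lit 8) (nat_lit 5) (nat_lit 8) (nat_lit 4) (nat_lit 376) (nat_lit 275) (nat_lit 249)) (XT.nd (nat_lit 78) (nat_lit 152) (nat_lit 0) (XT.lf (nat_lit 0) (nat_lit 39736489718) (nat_lit 76) (nat_lit 5905722630) (nat_lit 76) (nat_lit 1141003253) (nat_lit 7) (nat_lit 4) (nat_lit 8) (nat_lit 5) (nat_lit 8) (nat_lit 4) (nat_lit 377) (nat_lit 275) (nat_lit 248)) (XT.lf (nat_lit 0) (nat_lit 674998523) (nat_lit 76) (nat_lit 2019012800) (nat_lit 152) (nat_lit 46220343632) (nat_lit 5) (nat_lit 5) (nat_lit 6) (nat_lit 5) (nat_lit 7) (nat_lit 4) (nat_lit 378) (nat_lit 275) (nat_lit 247))))) (XT.nd (nat_lit 234) (nat_lit 0) (nat_lit 0) (XT.nd (nat_lit 78) (nat_lit 0)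 (nat_lit 0) (XT.lf (nat_lit 0) (nat_lit 6764790376) (nat_lit 152) (nat_lit 42309598940) (nat_lit 0) (nat_lit 2072621452) (nat_lit 5) (nat_lit 5) (nat_lit 7) (nat_lit 4) (nat_lit 5) (nat_lit 4) (nat_lit 379) (nat_lit 275) (nat_lit 246)) (XT.nd (nat_lit 78) (nat_lit 0) (nat_lit 0) (XT.lf (nat_lit 0) (nat_lit 11004462884) (nat_lit 152) (nat_lit 36247989996) (nat_lit 0) (nat_lit 6240590849) (nat_lit 5) (nat_lit 5) (nat_lit 7) (nat_lit 4) (nat_lit 5) (nat_lit 4) (nat_lit 380) (nat_lit 275) (nat_lit 245)) (XT.lf (nat_lit 0) (nat_lit 15391600857) (nat_lit 152) (nat_lit 30008574750) (nat_lit 0) (nat_lit 10559440145) (nat_lit 5) (nat_lit 5) (nat_lit 7) (nat_lit 4) (nat_lit 5) (nat_lit 4) (nat_lit 381) (nat_lit 275) (nat_lit 244)))) (XT.nd (nat_lit 78) (nat_lit 0) (nat_lit 0) (XT.lf (nat_lit 0) (nat_lit 19936649863) (nat_lit 152) (nat_lit 23576497450) (nat_lit 0) (nat_lit 15039452316) (nat_lit 5)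 (nat_lit 5) (nat_lit 7) (nat_lit 4) (nat_lit 5) (nat_lit 4) (nat_lit 382) (nat_lit 275) (nat_lit 243)) (XT.nd (nat_lit 78) (nat_lit 0) (nat_lit 0) (XT.lf (nat_lit 0) (nat_lit 24650431447) (nat_lit 152) (nat_lit 16936443627) (nat_lit 0) (nat_lit 19691294057) (nat_lit 5) (nat_lit 5) (nat_lit 7) (nat_lit 4) (nat_lit 5) (nat_lit 4) (nat_lit 383) (nat_lit 275) (nat_lit 242)) (XT.lf (nat_lit 0) (nat_lit 29544168898) (nat_lit 152) (nat_lit 10072603629) (nat_lit 0) (nat_lit 24526041181) (nat_lit 5) (nat_lit 5) (nat_lit 7) (nat_lit 4) (nat_lit 5) (nat_lit 4) (nat_lit 384) (nat_lit 275) (nat_lit 241))))))) (XT.nd (nat_lit 858) (nat_lit 152) (nat_lit 0) (XT.nd (nat_lit 390) (nat_lit 0) (nat_lit 0) (XT.nd (nat_lit 156) (nat_lit 0) (nat_lit 0) (XT.nd (nat_lit 78) (nat_lit 76) (nat_lit 0) (XT.lf (nat_lit 0) (nat_lit 34629513972) (nat_lit 152) (nat_lit 2968634979) (nat_lit 0) (nat_lit 29555204992) (nat_lit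 5) (nat_lit 5) (nat_lit 7) (nat_lit 4) (nat_lit 5) (nat_lit 4) (nat_lit 385) (nat_lit 275) (nat_lit 240)) (XT.lf (nat_lit 0) (nat_lit 4537608336) (nat_lit 76) (nat_lit 35451811080) (nat_lit 76) (nat_lit 30323996135) (nat_lit 4) (nat_lit 4) (nat_lit 5) (nat_lit 5) (nat_lit 5) (nat_lit 4) (nat_lit 386) (nat_lit 275) (nat_lit 239))) (XT.nd (nat_lit 78) (nat_lit 0) (nat_lit 0) (XT.lf (nat_lit 0) (nat_lit 12425655705) (nat_lit 76) (nat_lit 33192287487) (nat_lit 76) (nat_lit 28013514480) (nat_lit 4) (nat_lit 4) (nat_lit 5) (nat_lit 5) (nat_lit 5) (nat_lit 4) (nat_lit 387) (nat_lit 275) (nat_lit 238)) (XT.nd (nat_lit 78) (nat_lit 0) (nat_lit 0) (XT.lf (nat_lit 0) (nat_lit 20616131713) (nat_lit 76) (nat_lit 30864473624) (nat_lit 76) (nat_lit 25637169130) (nat_lit 4) (nat_lit 4) (nat_lit 5) (nat_lit 5) (nat_lit 5) (nat_lit 4) (nat_lit 388) (nat_lit 275) (nat_lit 237)) (XT.lf (nat_lit 0) (nat_lit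 29128537494) (nat_lit 76) (nat_lit 28462827078) (nat_lit 76) (nat_lit 23189302119) (nat_lit 4) (nat_lit 4) (nat_lit 5) (nat_lit 5) (nat_lit 5) (nat_lit 4) (nat_lit 389) (nat_lit 275) (nat_lit 236))))) (XT.nd (nat_lit 234) (nat_lit 0) (nat_lit 0) (XT.nd (nat_lit 78) (nat_lit 0) (nat_lit 0) (XT.lf (nat_lit 0) (nat_lit 37983140680) (nat_lit 76) (nat_lit 25981629643) (nat_lit 76) (nat_lit 20664085194) (nat_lit 4) (nat_lit 4) (nat_lit 5) (nat_lit 5) (nat_lit 5) (nat_lit 4) (nat_lit 390) (nat_lit 275) (nat_lit 235)) (XT.nd (nat_lit 78) (nat_lit 0) (nat_lit 0) (XT.lf (nat_lit 0) (nat_lit 47201023660) (nat_lit 76) (nat_lit 23414973706) (nat_lit 76) (nat_lit 18055505933) (nat_lit 4) (nat_lit 4) (nat_lit 5) (nat_lit 5) (nat_lit 5) (nat_lit 4) (nat_lit 391) (nat_lit 275) (nat_lit 234)) (XT.lf (nat_lit 0) (nat_lit 56804133774) (nat_lit 76) (nat_lit 20756748180) (nat_lit 76) (nat_lit 15357353432) (nat_lit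 4) (nat_lit 4) (nat_lit 5) (nat_lit 5) (nat_lit 5) (nat_lit 4) (nat_lit 392) (nat_lit 275) (nat_lit 233)))) (XT.nd (nat_lit 78) (nat_lit 0) (nat_lit 0) (XT.lf (nat_lit 0) (nat_lit 66815335570) (nat_lit 76) (nat_lit 18000623958) (nat_lit 76) (nat_lit 12563203520) (nat_lit 4) (nat_lit 4) (nat_lit 5) (nat_lit 5) (nat_lit 5) (nat_lit 4) (nat_lit 393) (nat_lit 275) (nat_lit 232)) (XT.nd (nat_lit 78) (nat_lit 0) (nat_lit 0) (XT.lf (nat_lit 0) (nat_lit 77258465243) (nat_lit 76) (nat_lit 15140038840) (nat_lit 76) (nat_lit 9666403458) (nat_lit 4) (nat_lit 4) (nat_lit 5) (nat_lit 5) (nat_lit 5) (nat_lit 4) (nat_lit 394) (nat_lit 275) (nat_lit 231)) (XT.lf (nat_lit 0) (nat_lit 88158387388) (nat_lit 76) (nat_lit 12168181907) (nat_lit 76) (nat_lit 6660056103) (nat_lit 4) (nat_lit 4) (nat_lit 5) (nat_lit 5) (nat_lit 5) (nat_lit 4) (nat_lit 395) (nat_lit 275) (nat_lit 230)))))) (XT.nd (nat_lit 468) (nat_lit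 0) (nat_lit 0) (XT.nd (nat_lit 234) (nat_lit 0) (nat_lit 0) (XT.nd (nat_lit 78) (nat_lit 152) (nat_lit 0) (XT.lf (nat_lit 0) (nat_lit 99541054199) (nat_lit 76) (nat_lit 9077977311) (nat_lit 76) (nat_lit 3537003486) (nat_lit 4) (nat_lit 4) (nat_lit 5) (nat_lit 5) (nat_lit 5) (nat_lit 4) (nat_lit 396) (nat_lit 275) (nat_lit 229)) (XT.nd (nat_lit 78) (nat_lit 152) (nat_lit 0) (XT.lf (nat_lit 0) (nat_lit 111433567265) (nat_lit 76) (nat_lit 5862067422) (nat_lit 76) (nat_lit 289809767) (nat_lit 4) (nat_lit 4) (nat_lit 5) (nat_lit 5) (nat_lit 5) (nat_lit 4) (nat_lit 397) (nat_lit 275) (nat_lit 228)) (XT.lf (nat_lit 0) (nat_lit 545694848) (nat_lit 76) (nat_lit 2453205944) (nat_lit 152) (nat_lit 120286042553) (nat_lit 2) (nat_lit 5) (nat_lit 3) (nat_lit 5) (nat_lit 4) (nat_lit 4) (nat_lit 398) (nat_lit 275) (nat_lit 227)))) (XT.nd (nat_lit 78) (nat_lit 0) (nat_lit 0) (XT.lf (nat_lit 0) (nat_lit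 6536363596) (nat_lit 152) (nat_lit 121554065741) (nat_lit 0) (nat_lit 1174052040) (nat_lit 2) (nat_lit 5) (nat_lit 4) (nat_lit 4) (nat_lit 2) (nat_lit 4) (nat_lit 399) (nat_lit 275) (nat_lit 226)) (XT.nd (nat_lit 78) (nat_lit 0) (nat_lit 0) (XT.lf (nat_lit 0) (nat_lit 10262898600) (nat_lit 152) (nat_lit 120404642332) (nat_lit 0) (nat_lit 4874849760) (nat_lit 2) (nat_lit 5) (nat_lit 4) (nat_lit 4) (nat_lit 2) (nat_lit 4) (nat_lit 400) (nat_lit 275) (nat_lit 225)) (XT.lf (nat_lit 0) (nat_lit 14149077088) (nat_lit 152) (nat_lit 119249940130) (nat_lit 0) (nat_lit 8736516549) (nat_lit 2) (nat_lit 5) (nat_lit 4) (nat_lit 4) (nat_lit 2) (nat_lit 4) (nat_lit 401) (nat_lit 275) (nat_lit 224))))) (XT.nd (nat_lit 234) (nat_lit 0) (nat_lit 0) (XT.nd (nat_lit 78) (nat_lit 0) (nat_lit 0) (XT.lf (nat_lit 0) (nat_lit 18204151867) (nat_lit 152) (nat_lit 118087209843) (nat_lit 0) (nat_lit 12768246852) (nat_lit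 2) (nat_lit 5) (nat_lit 4) (nat_lit 4) (nat_lit 2) (nat_lit 4) (nat_lit 402) (nat_lit 275) (nat_lit 223)) (XT.nd (nat_lit 78) (nat_lit 0) (nat_lit 0) (XT.lf (nat_lit 0) (nat_lit 22437777874) (nat_lit 152) (nat_lit 116913683067) (nat_lit 0) (nat_lit 16979640026) (nat_lit 2) (nat_lit 5) (nat_lit 4) (nat_lit 4) (nat_lit 2) (nat_lit 4) (nat_lit 403) (nat_lit 275) (nat_lit 222)) (XT.lf (nat_lit 0) (nat_lit 26860035174) (nat_lit 152) (nat_lit 115726565689) (nat_lit 0) (nat_lit 21380723198) (nat_lit 2) (nat_lit 5) (nat_lit 4) (nat_lit 4) (nat_lit 2) (nat_lit 4) (nat_lit 404) (nat_lit 275) (nat_lit 221)))) (XT.nd (nat_lit 78) (nat_lit 0) (nat_lit 0) (XT.lf (nat_lit 0) (nat_lit 31481452950) (nat_lit 152) (nat_lit 114523031240) (nat_lit 0) (nat_lit 25981975138) (nat_lit 2) (nat_lit 5) (nat_lit 4) (nat_lit 4) (nat_lit 2) (nat_lit 4) (nat_lit 405) (nat_lit 275) (nat_lit 220)) (XT.nd (nat_lit 78) (nat_lit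 0) (nat_lit 0) (XT.lf (nat_lit 0) (nat_lit 36313034577) (nat_lit 152) (nat_lit 113300214162) (nat_lit 0) (nat_lit 30794351208) (nat_lit 2) (nat_lit 5) (nat_lit 4) (nat_lit 4) (nat_lit 2) (nat_lit 4) (nat_lit 406) (nat_lit 275) (nat_lit 219)) (XT.lf (nat_lit 0) (nat_lit 41366283821) (nat_lit 152) (nat_lit 112055202985) (nat_lit 0) (nat_lit 35829309444) (nat_lit 2) (nat_lit 5) (nat_lit 4) (nat_lit 4) (nat_lit 2) (nat_lit 4) (nat_lit 407) (nat_lit 275) (nat_lit 218))))))))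
noncomputable def xc41 : XT := (XT.nd (nat_lit 1716) (nat_lit 0) (nat_lit 0) (XT.nd (nat_lit 858) (nat_lit 0) (nat_lit 0) (XT.nd (nat_lit 390) (nat_lit 0) (nat_lit 0) (XT.nd (nat_lit 156) (nat_lit 0) (nat_lit 0) (XT.nd (nat_lit 78) (nat_lit 0) (nat_lit 0) (XT.lf (nat_lit 0) (nat_lit 46653232228) (nat_lit 152) (nat_lit 110785033397) (nat_lit 0) (nat_lit 41098837845) (nat_lit 2) (nat_lit 5) (nat_lit 4) (nat_lit 4) (nat_lit 2) (nat_lit 4) (nat_lit 408) (nat_lit 275) (nat_lit 217)) (XT.lf (nat_lit 0) (nat_lit 52186467771) (nat_lit 152) (nat_lit 109486681184) (nat_lit 0) (nat_lit 46615482905) (nat_lit 2) (nat_lit 5) (nat_lit 4) (nat_lit 4) (nat_lit 2) (nat_lit 4) (nat_lit 409) (nat_lit 275) (nat_lit 216))) (XT.nd (nat_lit 78) (nat_lit 0) (nat_lit 0) (XT.lf (nat_lit 0) (nat_lit 57979164819) (nat_lit 152) (nat_lit 108157055033) (nat_lit 0) (nat_lit 52392379493) (nat_lit 2) (nat_lit 5) (nat_lit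 4) (nat_lit 4) (nat_lit 2) (nat_lit 4) (nat_lit 410) (nat_lit 275) (nat_lit 215)) (XT.nd (nat_lit 78) (nat_lit 0) (nat_lit 0) (XT.lf (nat_lit 0) (nat_lit 64045115509) (nat_lit 152) (nat_lit 106792989166) (nat_lit 0) (nat_lit 58443282126) (nat_lit 2) (nat_lit 5) (nat_lit 4) (nat_lit 4) (nat_lit 2) (nat_lit 4) (nat_lit 411) (nat_lit 275) (nat_lit 214)) (XT.lf (nat_lit 0) (nat_lit 70398762581) (nat_lit 152) (nat_lit 105391235808) (nat_lit 0) (nat_lit 64782597715) (nat_lit 2) (nat_lit 5) (nat_lit 4) (nat_lit 4) (nat_lit 2) (nat_lit 4) (nat_lit 412) (nat_lit 275) (nat_lit 213))))) (XT.nd (nat_lit 234) (nat_lit 0) (nat_lit 0) (XT.nd (nat_lit 78) (nat_lit 0) (nat_lit 0) (XT.lf (nat_lit 0) (nat_lit 77055233765) (nat_lit 152) (nat_lit 103948457450) (nat_lit 0) (nat_lit 71425419868) (nat_lit 2) (nat_lit 5) (nat_lit 4) (nat_lit 4) (nat_lit 2) (nat_lit 4) (nat_lit 413) (nat_lit 275) (nat_lit 212))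 (XT.nd (nat_lit 78) (nat_lit 0) (nat_lit 0) (XT.lf (nat_lit 0) (nat_lit 84030377802) (nat_lit 152) (nat_lit 102461218906) (nat_lit 0) (nat_lit 78387564828) (nat_lit 2) (nat_lit 5) (nat_lit 4) (nat_lit 4) (nat_lit 2) (nat_lit 4) (nat_lit 414) (nat_lit 275) (nat_lit 211)) (XT.lf (nat_lit 0) (nat_lit 91340802179) (nat_lit 152) (nat_lit 100925979131) (nat_lit 0) (nat_lit 85685609131) (nat_lit 2) (nat_lit 5) (nat_lit 4) (nat_lit 4) (nat_lit 2) (nat_lit 4) (nat_lit 415) (nat_lit 275) (nat_lit 210)))) (XT.nd (nat_lit 78) (nat_lit 0) (nat_lit 0) (XT.lf (nat_lit 0) (nat_lit 99003912667) (nat_lit 152) (nat_lit 99339082794) (nat_lit 0) (nat_lit 93336929072) (nat_lit 2) (nat_lit 5) (nat_lit 4) (nat_lit 4) (nat_lit 2) (nat_lit 4) (nat_lit 416) (nat_lit 275) (nat_lit 209)) (XT.nd (nat_lit 78) (nat_lit 0) (nat_lit 0) (XT.lf (nat_lit 0) (nat_lit 107037954767) (nat_lit 152) (nat_lit 97696751569) (nat_lit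 0) (nat_lit 101359742081) (nat_lit 2) (nat_lit 5) (nat_lit 4) (nat_lit 4) (nat_lit 2) (nat_lit 4) (nat_lit 417) (nat_lit 275) (nat_lit 208)) (XT.lf (nat_lit 0) (nat_lit 115462057153) (nat_lit 152) (nat_lit 95995075144) (nat_lit 0) (nat_lit 109773150093) (nat_lit 2) (nat_lit 5) (nat_lit 4) (nat_lit 4) (nat_lit 2) (nat_lit 4) (nat_lit 418) (nat_lit 275) (nat_lit 207)))))) (XT.nd (nat_lit 390) (nat_lit 0) (nat_lit 0) (XT.nd (nat_lit 156) (nat_lit 0) (nat_lit 0) (XT.nd (nat_lit 78) (nat_lit 0) (nat_lit 0) (XT.lf (nat_lit 0) (nat_lit 124296277209) (nat_lit 152) (nat_lit 94230001909) (nat_lit 0) (nat_lit 118597185032) (nat_lit 2) (nat_lit 5) (nat_lit 4) (nat_lit 4) (nat_lit 2) (nat_lit 4) (nat_lit 419) (nat_lit 275) (nat_lit 206)) (XT.lf (nat_lit 0) (nat_lit 133561648793) (nat_lit 152) (nat_lit 92397329308) (nat_lit 0) (nat_lit 127852856505) (nat_lit 2) (nat_lit 5) (nat_lit 4) (nat_lit 4) (nat_lit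 2) (nat_lit 4) (nat_lit 420) (nat_lit 275) (nat_lit 205))) (XT.nd (nat_lit 78) (nat_lit 0) (nat_lit 0) (XT.lf (nat_lit 0) (nat_lit 143280232314) (nat_lit 152) (nat_lit 90492693834) (nat_lit 0) (nat_lit 137562201824) (nat_lit 2) (nat_lit 5) (nat_lit 4) (nat_lit 4) (nat_lit 2) (nat_lit 4) (nat_lit 421) (nat_lit 275) (nat_lit 204)) (XT.nd (nat_lit 78) (nat_lit 0) (nat_lit 0) (XT.lf (nat_lit 0) (nat_lit 153475167257) (nat_lit 152) (nat_lit 88511560642) (nat_lit 0) (nat_lit 147748338480) (nat_lit 2) (nat_lit 5) (nat_lit 4) (nat_lit 4) (nat_lit 2) (nat_lit 4) (nat_lit 422) (nat_lit 275) (nat_lit 203)) (XT.lf (nat_lit 0) (nat_lit 164170727275) (nat_lit 152) (nat_lit 86449212748) (nat_lit 0) (nat_lit 158435519177) (nat_lit 2) (nat_lit 5) (nat_lit 4) (nat_lit 4) (nat_lit 2) (nat_lit 4) (nat_lit 423) (nat_lit 275) (nat_lit 202))))) (XT.nd (nat_lit 234) (nat_lit 0) (nat_lit 0) (XT.nd (nat_lit 78)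 (nat_lit 0) (nat_lit 0) (XT.lf (nat_lit 0) (nat_lit 175392377989) (nat_lit 152) (nat_lit 84300739799) (nat_lit 0) (nat_lit 169649189585) (nat_lit 2) (nat_lit 5) (nat_lit 4) (nat_lit 4) (nat_lit 2) (nat_lit 4) (nat_lit 424) (nat_lit 275) (nat_lit 201)) (XT.nd (nat_lit 78) (nat_lit 0) (nat_lit 0) (XT.lf (nat_lit 0) (nat_lit 187166837614) (nat_lit 152) (nat_lit 82061026384) (nat_lit 0) (nat_lit 181416048918) (nat_lit 2) (nat_lit 5) (nat_lit 4) (nat_lit 4) (nat_lit 2) (nat_lit 4) (nat_lit 425) (nat_lit 275) (nat_lit 200)) (XT.lf (nat_lit 0) (nat_lit 199522140577) (nat_lit 152) (nat_lit 79724739852) (nat_lit 0) (nat_lit 193764113509) (nat_lit 2) (nat_lit 5) (nat_lit 4) (nat_lit 4) (nat_lit 2) (nat_lit 4) (nat_lit 426) (nat_lit 275) (nat_lit 199)))) (XT.nd (nat_lit 78) (nat_lit 0) (nat_lit 0) (XT.lf (nat_lit 0) (nat_lit 212487704267) (nat_lit 152) (nat_lit 77286317616) (nat_lit 0) (nat_lit 206722783511)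 (nat_lit 2) (nat_lit 5) (nat_lit 4) (nat_lit 4) (nat_lit 2) (nat_lit 4) (nat_lit 427) (nat_lit 275) (nat_lit 198)) (XT.nd (nat_lit 78) (nat_lit 0) (nat_lit 0) (XT.lf (nat_lit 0) (nat_lit 226094399074) (nat_lit 152) (nat_lit 74739953908) (nat_lit 0) (nat_lit 220322912900) (nat_lit 2) (nat_lit 5) (nat_lit 4) (nat_lit 4) (nat_lit 2) (nat_lit 4) (nat_lit 428) (nat_lit 275) (nat_lit 197)) (XT.lf (nat_lit 0) (nat_lit 240374621890) (nat_lit 152) (nat_lit 72079585959) (nat_lit 0) (nat_lit 234596882937) (nat_lit 2) (nat_lit 5) (nat_lit 4) (nat_lit 4) (nat_lit 2) (nat_lit 4) (nat_lit 429) (nat_lit 275) (nat_lit 196))))))) (XT.nd (nat_lit 40950) (nat_lit 0) (nat_lit 684) (XT.nd (nat_lit 40482) (nat_lit 0) (nat_lit 1216) (XT.nd (nat_lit 156) (nat_lit 0) (nat_lit 0) (XT.nd (nat_lit 78) (nat_lit 0) (nat_lit 0) (XT.lf (nat_lit 0) (nat_lit 255362373245) (nat_lit 152) (nat_lit 69298879558) (nat_lit 0) (nat_lit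 249578679265) (nat_lit 2) (nat_lit 5) (nat_lit 4) (nat_lit 4) (nat_lit 2) (nat_lit 4) (nat_lit 430) (nat_lit 275) (nat_lit 195)) (XT.lf (nat_lit 0) (nat_lit 271093338261) (nat_lit 152) (nat_lit 66391213975) (nat_lit 0) (nat_lit 265303972827) (nat_lit 2) (nat_lit 5) (nat_lit 4) (nat_lit 4) (nat_lit 2) (nat_lit 4) (nat_lit 431) (nat_lit 275) (nat_lit 194))) (XT.nd (nat_lit 78) (nat_lit 0) (nat_lit 0) (XT.lf (nat_lit 0) (nat_lit 287604971618) (nat_lit 152) (nat_lit 63349666199) (nat_lit 0) (nat_lit 281810204799) (nat_lit 2) (nat_lit 5) (nat_lit 4) (nat_lit 4) (nat_lit 2) (nat_lit 4) (nat_lit 432) (nat_lit 275) (nat_lit 193)) (XT.nd (nat_lit 78) (nat_lit 0) (nat_lit 0) (XT.lf (nat_lit 0) (nat_lit 304936586728) (nat_lit 152) (nat_lit 60166994448) (nat_lit 0) (nat_lit 299136675733) (nat_lit 2) (nat_lit 5) (nat_lit 4) (nat_lit 4) (nat_lit 2) (nat_lit 4) (nat_lit 433) (nat_lit 275) (nat_lit 192))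 (XT.lf (nat_lit 0) (nat_lit 323129449342) (nat_lit 152) (nat_lit 56835620932) (nat_lit 0) (nat_lit 317324639131) (nat_lit 2) (nat_lit 5) (nat_lit 4) (nat_lit 4) (nat_lit 2) (nat_lit 4) (nat_lit 434) (nat_lit 275) (nat_lit 191))))) (XT.nd (nat_lit 234) (nat_lit 152) (nat_lit 0) (XT.nd (nat_lit 78) (nat_lit 152) (nat_lit 0) (XT.lf (nat_lit 0) (nat_lit 716318921) (nat_lit 152) (nat_lit 3431449713) (nat_lit 152) (nat_lit 3431449713) (nat_lit 22) (nat_lit 4) (nat_lit 24) (nat_lit 5) (nat_lit 24) (nat_lit 4) (nat_lit 348) (nat_lit 276) (nat_lit 276)) (XT.nd (nat_lit 78) (nat_lit 152) (nat_lit 0) (XT.lf (nat_lit 0) (nat_lit 11123262236) (nat_lit 152) (nat_lit 2470156553) (nat_lit 152) (nat_lit 2054865320) (nat_lit 22) (nat_lit 4) (nat_lit 24) (nat_lit 5) (nat_lit 24) (nat_lit 4) (nat_lit 349) (nat_lit 276) (nat_lit 275)) (XT.lf (nat_lit 0) (nat_lit 2837868132) (nat_lit 152) (nat_lit 11259805518)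 (nat_lit 0) (nat_lit 2065671281) (nat_lit 20) (nat_lit 5) (nat_lit 22) (nat_lit 4) (nat_lit 20) (nat_lit 4) (nat_lit 350) (nat_lit 276) (nat_lit 274)))) (XT.nd (nat_lit 78) (nat_lit 152) (nat_lit 0) (XT.lf (nat_lit 0) (nat_lit 7855490289) (nat_lit 152) (nat_lit 2125029934) (nat_lit 0) (nat_lit 6724549256) (nat_lit 20) (nat_lit 5) (nat_lit 22) (nat_lit 4) (nat_lit 20) (nat_lit 4) (nat_lit 351) (nat_lit 276) (nat_lit 273)) (XT.nd (nat_lit 78) (nat_lit 76) (nat_lit 0) (XT.lf (nat_lit 0) (nat_lit 7408465254) (nat_lit 76) (nat_lit 5670171290) (nat_lit 76) (nat_lit 4197569132) (nat_lit 19) (nat_lit 4) (nat_lit 20) (nat_lit 5) (nat_lit 20) (nat_lit 4) (nat_lit 352) (nat_lit 276) (nat_lit 272)) (XT.lf (nat_lit 0) (nat_lit 541099074) (nat_lit 152) (nat_lit 688740603) (nat_lit 76) (nat_lit 16651772528) (nat_lit 18) (nat_lit 5) (nat_lit 20) (nat_lit 5) (nat_lit 19) (nat_lit 4) (nat_lit 353) (nat_lit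 276) (nat_lit 271)))))) (XT.nd (nat_lit 468) (nat_lit 228) (nat_lit 0) (XT.nd (nat_lit 234) (nat_lit 152) (nat_lit 0) (XT.nd (nat_lit 78) (nat_lit 76) (nat_lit 0) (XT.lf (nat_lit 0) (nat_lit 5416419805) (nat_lit 152) (nat_lit 9686533989) (nat_lit 0) (nat_lit 3408905121) (nat_lit 17) (nat_lit 5) (nat_lit 19) (nat_lit 4) (nat_lit 17) (nat_lit 4) (nat_lit 354) (nat_lit 276) (nat_lit 270)) (XT.nd (nat_lit 78) (nat_lit 76) (nat_lit 0) (XT.lf (nat_lit 0) (nat_lit 10415604714) (nat_lit 152) (nat_lit 637051127) (nat_lit 0) (nat_lit 8127004576) (nat_lit 17) (nat_lit 5) (nat_lit 19) (nat_lit 4) (nat_lit 17) (nat_lit 4) (nat_lit 355) (nat_lit 276) (nat_lit 269)) (XT.lf (nat_lit 0) (nat_lit 8879909775) (nat_lit 76) (nat_lit 6778795049) (nat_lit 76) (nat_lit 4222494479) (nat_lit 16) (nat_lit 4) (nat_lit 17) (nat_lit 5) (nat_lit 17) (nat_lit 4) (nat_lit 356) (nat_lit 276) (nat_lit 268)))) (XT.nd (nat_lit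 78) (nat_lit 76) (nat_lit 0) (XT.lf (nat_lit 0) (nat_lit 395332189) (nat_lit 152) (nat_lit 2000822374) (nat_lit 76) (nat_lit 18227941774) (nat_lit 15) (nat_lit 5) (nat_lit 17) (nat_lit 5) (nat_lit 16) (nat_lit 4) (nat_lit 357) (nat_lit 276) (nat_lit 267)) (XT.nd (nat_lit 78) (nat_lit 0) (nat_lit 0) (XT.lf (nat_lit 0) (nat_lit 5115206646) (nat_lit 152) (nat_lit 14078283688) (nat_lit 0) (nat_lit 2206572794) (nat_lit 14) (nat_lit 5) (nat_lit 16) (nat_lit 4) (nat_lit 14) (nat_lit 4) (nat_lit 358) (nat_lit 276) (nat_lit 266)) (XT.lf (nat_lit 0) (nat_lit 10008128219) (nat_lit 152) (nat_lit 5330627922) (nat_lit 0) (nat_lit 6879256559) (nat_lit 14) (nat_lit 5) (nat_lit 16) (nat_lit 4) (nat_lit 14) (nat_lit 4) (nat_lit 359) (nat_lit 276) (nat_lit 265))))) (XT.nd (nat_lit 234) (nat_lit 76) (nat_lit 0) (XT.nd (nat_lit 78) (nat_lit 76) (nat_lit 0) (XT.lf (nat_lit 0) (nat_lit 3728377640) (nat_lit 76)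 (nat_lit 11345368448) (nat_lit 76) (nat_lit 8006746495) (nat_lit 13) (nat_lit 4) (nat_lit 14) (nat_lit 5) (nat_lit 14) (nat_lit 4) (nat_lit 360) (nat_lit 276) (nat_lit 264)) (XT.nd (nat_lit 78) (nat_lit 76) (nat_lit 0) (XT.lf (nat_lit 0) (nat_lit 13183993976) (nat_lit 76) (nat_lit 7171196501) (nat_lit 76) (nat_lit 3632812363) (nat_lit 13) (nat_lit 4) (nat_lit 14) (nat_lit 5) (nat_lit 14) (nat_lit 4) (nat_lit 361) (nat_lit 276) (nat_lit 263)) (XT.lf (nat_lit 0) (nat_lit 805424313) (nat_lit 152) (nat_lit 2077513992) (nat_lit 76) (nat_lit 22063415261) (nat_lit 12) (nat_lit 5) (nat_lit 14) (nat_lit 5) (nat_lit 13) (nat_lit 4) (nat_lit 362) (nat_lit 276) (nat_lit 262)))) (XT.nd (nat_lit 78) (nat_lit 0) (nat_lit 0) (XT.lf (nat_lit 0) (nat_lit 5361848071) (nat_lit 152) (nat_lit 18948700900) (nat_lit 0) (nat_lit 1638206142) (nat_lit 11) (nat_lit 5) (nat_lit 13) (nat_lit 4) (nat_lit 11) (nat_lit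 4) (nat_lit 363) (nat_lit 276) (nat_lit 261)) (XT.nd (nat_lit 78) (nat_lit 0) (nat_lit 0) (XT.lf (nat_lit 0) (nat_lit 10111896163) (nat_lit 152) (nat_lit 10667208718) (nat_lit 0) (nat_lit 6223909391) (nat_lit 11) (nat_lit 5) (nat_lit 13) (nat_lit 4) (nat_lit 11) (nat_lit 4) (nat_lit 364) (nat_lit 276) (nat_lit 260)) (XT.lf (nat_lit 0) (nat_lit 14987809875) (nat_lit 152) (nat_lit 2184480524) (nat_lit 0) (nat_lit 10943304204) (nat_lit 11) (nat_lit 5) (nat_lit 13) (nat_lit 4) (nat_lit 11) (nat_lit 4) (nat_lit 365) (nat_lit 276) (nat_lit 259))))))))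
noncomputable def xc42 : XT := (XT.nd (nat_lit 1716) (nat_lit 152) (nat_lit 0) (XT.nd (nat_lit 858) (nat_lit 228) (nat_lit 0) (XT.nd (nat_lit 390) (nat_lit 76) (nat_lit 0) (XT.nd (nat_lit 156) (nat_lit 152) (nat_lit 0) (XT.nd (nat_lit 78) (nat_lit 0) (nat_lit 0) (XT.lf (nat_lit 0) (nat_lit 6735250739) (nat_lit 76) (nat_lit 13371103924) (nat_lit 76) (nat_lit 9177532636) (nat_lit 10) (nat_lit 4) (nat_lit 11) (nat_lit 5) (nat_lit 11) (nat_lit 4) (nat_lit 366) (nat_lit 276) (nat_lit 258)) (XT.lf (nat_lit 0) (nat_lit 15977374783) (nat_lit 76) (nat_lit 9436075564) (nat_lit 76) (nat_lit 5100537021) (nat_lit 10) (nat_lit 4) (nat_lit 11) (nat_lit 5) (nat_lit 11) (nat_lit 4) (nat_lit 367) (nat_lit 276) (nat_lit 257))) (XT.nd (nat_lit 78) (nat_lit 152) (nat_lit 0) (XT.lf (nat_lit 0) (nat_lit 25491667872) (nat_lit 76) (nat_lit 5394831439) (nat_lit 76) (nat_lit 924085988) (nat_lit 10) (nat_lit 4) (nat_lit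 11) (nat_lit 5) (nat_lit 11) (nat_lit 4) (nat_lit 368) (nat_lit 276) (nat_lit 256)) (XT.nd (nat_lit 78) (nat_lit 0) (nat_lit 0) (XT.lf (nat_lit 0) (nat_lit 2140022371) (nat_lit 76) (nat_lit 1147556315) (nat_lit 152) (nat_lit 29884894628) (nat_lit 8) (nat_lit 5) (nat_lit 9) (nat_lit 5) (nat_lit 10) (nat_lit 4) (nat_lit 369) (nat_lit 276) (nat_lit 255)) (XT.lf (nat_lit 0) (nat_lit 7743411676) (nat_lit 152) (nat_lit 23608948863) (nat_lit 0) (nat_lit 3246125401) (nat_lit 8) (nat_lit 5) (nat_lit 10) (nat_lit 4) (nat_lit 8) (nat_lit 4) (nat_lit 370) (nat_lit 276) (nat_lit 254))))) (XT.nd (nat_lit 234) (nat_lit 76) (nat_lit 0) (XT.nd (nat_lit 78) (nat_lit 0) (nat_lit 0) (XT.lf (nat_lit 0) (nat_lit 12349573751) (nat_lit 152) (nat_lit 16008814902) (nat_lit 0) (nat_lit 7741052417) (nat_lit 8) (nat_lit 5) (nat_lit 10) (nat_lit 4) (nat_lit 8) (nat_lit 4) (nat_lit 371) (nat_lit 276) (nat_lit 253)) (XT.nd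 (nat_lit 78) (nat_lit 0) (nat_lit 0) (XT.lf (nat_lit 0) (nat_lit 17099115393) (nat_lit 152) (nat_lit 8196036934) (nat_lit 0) (nat_lit 12384655908) (nat_lit 8) (nat_lit 5) (nat_lit 10) (nat_lit 4) (nat_lit 8) (nat_lit 4) (nat_lit 372) (nat_lit 276) (nat_lit 252)) (XT.lf (nat_lit 0) (nat_lit 22003345035) (nat_lit 152) (nat_lit 152013105) (nat_lit 0) (nat_lit 17187992073) (nat_lit 8) (nat_lit 5) (nat_lit 10) (nat_lit 4) (nat_lit 8) (nat_lit 4) (nat_lit 373) (nat_lit 276) (nat_lit 251)))) (XT.nd (nat_lit 78) (nat_lit 0) (nat_lit 0) (XT.lf (nat_lit 0) (nat_lit 8411633835) (nat_lit 76) (nat_lit 18793634756) (nat_lit 76) (nat_lit 13882192768) (nat_lit 7) (nat_lit 4) (nat_lit 8) (nat_lit 5) (nat_lit 8) (nat_lit 4) (nat_lit 374) (nat_lit 276) (nat_lit 250)) (XT.nd (nat_lit 78) (nat_lit 0) (nat_lit 0) (XT.lf (nat_lit 0) (nat_lit 17259386215) (nat_lit 76) (nat_lit 15333052546) (nat_lit 76) (nat_lit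 10330097200) (nat_lit 7) (nat_lit 4) (nat_lit 8) (nat_lit 5) (nat_lit 8) (nat_lit 4) (nat_lit 375) (nat_lit 276) (nat_lit 249)) (XT.lf (nat_lit 0) (nat_lit 26407283871) (nat_lit 76) (nat_lit 11767946445) (nat_lit 76) (nat_lit 6677835519) (nat_lit 7) (nat_lit 4) (nat_lit 8) (nat_lit 5) (nat_lit 8) (nat_lit 4) (nat_lit 376) (nat_lit 276) (nat_lit 248)))))) (XT.nd (nat_lit 390) (nat_lit 76) (nat_lit 0) (XT.nd (nat_lit 156) (nat_lit 76) (nat_lit 0) (XT.nd (nat_lit 78) (nat_lit 76) (nat_lit 0) (XT.lf (nat_lit 0) (nat_lit 35877107512) (nat_lit 76) (nat_lit 8089828104) (nat_lit 76) (nat_lit 2916711865) (nat_lit 7) (nat_lit 4) (nat_lit 8) (nat_lit 5) (nat_lit 8) (nat_lit 4) (nat_lit 377) (nat_lit 276) (nat_lit 247)) (XT.lf (nat_lit 0) (nat_lit 931431487) (nat_lit 152) (nat_lit 3342734369) (nat_lit 76) (nat_lit 44744198607) (nat_lit 6) (nat_lit 5) (nat_lit 8) (nat_lit 5) (nat_lit 7) (nat_lit 4)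 (nat_lit 378) (nat_lit 276) (nat_lit 246))) (XT.nd (nat_lit 78) (nat_lit 0) (nat_lit 0) (XT.lf (nat_lit 0) (nat_lit 4681248338) (nat_lit 76) (nat_lit 201047038) (nat_lit 152) (nat_lit 46374726551) (nat_lit 5) (nat_lit 5) (nat_lit 6) (nat_lit 5) (nat_lit 7) (nat_lit 4) (nat_lit 379) (nat_lit 276) (nat_lit 245)) (XT.nd (nat_lit 78) (nat_lit 0) (nat_lit 0) (XT.lf (nat_lit 0) (nat_lit 9087356704) (nat_lit 152) (nat_lit 40572135077) (nat_lit 0) (nat_lit 3945299279) (nat_lit 5) (nat_lit 5) (nat_lit 7) (nat_lit 4) (nat_lit 5) (nat_lit 4) (nat_lit 380) (nat_lit 276) (nat_lit 244)) (XT.lf (nat_lit 0) (nat_lit 13444521084) (nat_lit 152) (nat_lit 34390919201) (nat_lit 0) (nat_lit 8237426825) (nat_lit 5) (nat_lit 5) (nat_lit 7) (nat_lit 4) (nat_lit 5) (nat_lit 4) (nat_lit 381) (nat_lit 276) (nat_lit 243))))) (XT.nd (nat_lit 234) (nat_lit 76) (nat_lit 0) (XT.nd (nat_lit 78) (nat_lit 0) (nat_lit 0) (XT.lf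 (nat_lit 0) (nat_lit 17961023811) (nat_lit 152) (nat_lit 28014269873) (nat_lit 0) (nat_lit 12691989708) (nat_lit 5) (nat_lit 5) (nat_lit 7) (nat_lit 4) (nat_lit 5) (nat_lit 4) (nat_lit 382) (nat_lit 276) (nat_lit 242)) (XT.nd (nat_lit 78) (nat_lit 0) (nat_lit 0) (XT.lf (nat_lit 0) (nat_lit 22647618462) (nat_lit 152) (nat_lit 21427004594) (nat_lit 0) (nat_lit 17319594033) (nat_lit 5) (nat_lit 5) (nat_lit 7) (nat_lit 4) (nat_lit 5) (nat_lit 4) (nat_lit 383) (nat_lit 276) (nat_lit 241)) (XT.lf (nat_lit 0) (nat_lit 27515463596) (nat_lit 152) (nat_lit 14613439400) (nat_lit 0) (nat_lit 22131257903) (nat_lit 5) (nat_lit 5) (nat_lit 7) (nat_lit 4) (nat_lit 5) (nat_lit 4) (nat_lit 384) (nat_lit 276) (nat_lit 240)))) (XT.nd (nat_lit 78) (nat_lit 76) (nat_lit 0) (XT.lf (nat_lit 0) (nat_lit 32576149320) (nat_lit 152) (nat_lit 7557351517) (nat_lit 0) (nat_lit 27138437663) (nat_lit 5) (nat_lit 5) (nat_lit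 7) (nat_lit 4) (nat_lit 5) (nat_lit 4) (nat_lit 385) (nat_lit 276) (nat_lit 239)) (XT.nd (nat_lit 78) (nat_lit 76) (nat_lit 0) (XT.lf (nat_lit 0) (nat_lit 37841724887) (nat_lit 152) (nat_lit 241940735) (nat_lit 0) (nat_lit 32353055168) (nat_lit 5) (nat_lit 5) (nat_lit 7) (nat_lit 4) (nat_lit 5) (nat_lit 4) (nat_lit 386) (nat_lit 276) (nat_lit 238)) (XT.lf (nat_lit 0) (nat_lit 7593241746) (nat_lit 76) (nat_lit 35850037418) (nat_lit 76) (nat_lit 30312836211) (nat_lit 4) (nat_lit 4) (nat_lit 5) (nat_lit 5) (nat_lit 5) (nat_lit 4) (nat_lit 387) (nat_lit 276) (nat_lit 237))))))) (XT.nd (nat_lit 858) (nat_lit 76) (nat_lit 0) (XT.nd (nat_lit 390) (nat_lit 76) (nat_lit 0) (XT.nd (nat_lit 156) (nat_lit 0) (nat_lit 0) (XT.nd (nat_lit 78) (nat_lit 0) (nat_lit 0) (XT.lf (nat_lit 0) (nat_lit 15740988960) (nat_lit 76) (nat_lit 33542983560) (nat_lit 76) (nat_lit 27959561889) (nat_lit 4) (nat_lit 4) (nat_lit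 5) (nat_lit 5) (nat_lit 5) (nat_lit 4) (nat_lit 388) (nat_lit 276) (nat_lit 236)) (XT.lf (nat_lit 0) (nat_lit 24212700651) (nat_lit 76) (nat_lit 31161108448) (nat_lit 76) (nat_lit 25533667286) (nat_lit 4) (nat_lit 4) (nat_lit 5) (nat_lit 5) (nat_lit 5) (nat_lit 4) (nat_lit 389) (nat_lit 276) (nat_lit 235))) (XT.nd (nat_lit 78) (nat_lit 0) (nat_lit 0) (XT.lf (nat_lit 0) (nat_lit 33028547562) (nat_lit 76) (nat_lit 28698740949) (nat_lit 76) (nat_lit 23029376463) (nat_lit 4) (nat_lit 4) (nat_lit 5) (nat_lit 5) (nat_lit 5) (nat_lit 4) (nat_lit 390) (nat_lit 276) (nat_lit 234)) (XT.nd (nat_lit 78) (nat_lit 0) (nat_lit 0) (XT.lf (nat_lit 0) (nat_lit 42209519803) (nat_lit 76) (nat_lit 26150018284) (nat_lit 76) (nat_lit 20440726823) (nat_lit 4) (nat_lit 4) (nat_lit 5) (nat_lit 5) (nat_lit 5) (nat_lit 4) (nat_lit 391) (nat_lit 276) (nat_lit 233)) (XT.lf (nat_lit 0) (nat_lit 51777476832) (nat_lit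 76) (nat_lit 23508872066) (nat_lit 76) (nat_lit 17761554915) (nat_lit 4) (nat_lit 4) (nat_lit 5) (nat_lit 5) (nat_lit 5) (nat_lit 4) (nat_lit 392) (nat_lit 276) (nat_lit 232))))) (XT.nd (nat_lit 234) (nat_lit 76) (nat_lit 0) (XT.nd (nat_lit 78) (nat_lit 0) (nat_lit 0) (XT.lf (nat_lit 0) (nat_lit 61755199500) (nat_lit 76) (nat_lit 20769013851) (nat_lit 76) (nat_lit 14985481757) (nat_lit 4) (nat_lit 4) (nat_lit 5) (nat_lit 5) (nat_lit 5) (nat_lit 4) (nat_lit 393) (nat_lit 276) (nat_lit 231)) (XT.nd (nat_lit 78) (nat_lit 0) (nat_lit 0) (XT.lf (nat_lit 0) (nat_lit 72166444289) (nat_lit 76) (nat_lit 17923920167) (nat_lit 76) (nat_lit 12105897651) (nat_lit 4) (nat_lit 4) (nat_lit 5) (nat_lit 5) (nat_lit 5) (nat_lit 4) (nat_lit 394) (nat_lit 276) (nat_lit 230)) (XT.lf (nat_lit 0) (nat_lit 83035999877) (nat_lit 76) (nat_lit 14966816983) (nat_lit 76) (nat_lit 9115946445) (nat_lit 4) (nat_lit 4)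 (nat_lit 5) (nat_lit 5) (nat_lit 5) (nat_lit 4) (nat_lit 395) (nat_lit 276) (nat_lit 229)))) (XT.nd (nat_lit 78) (nat_lit 76) (nat_lit 0) (XT.lf (nat_lit 0) (nat_lit 94389746159) (nat_lit 76) (nat_lit 11890663575) (nat_lit 76) (nat_lit 6008509208) (nat_lit 4) (nat_lit 4) (nat_lit 5) (nat_lit 5) (nat_lit 5) (nat_lit 4) (nat_lit 396) (nat_lit 276) (nat_lit 228)) (XT.nd (nat_lit 78) (nat_lit 76) (nat_lit 0) (XT.lf (nat_lit 0) (nat_lit 106254715863) (nat_lit 76) (nat_lit 8688135770) (nat_lit 76) (nat_lit 2776187279) (nat_lit 4) (nat_lit 4) (nat_lit 5) (nat_lit 5) (nat_lit 5) (nat_lit 4) (nat_lit 397) (nat_lit 276) (nat_lit 227)) (XT.lf (nat_lit 0) (nat_lit 569872777) (nat_lit 152) (nat_lit 4772084651) (nat_lit 76) (nat_lit 118079635068) (nat_lit 3) (nat_lit 5) (nat_lit 5) (nat_lit 5) (nat_lit 4) (nat_lit 4) (nat_lit 398) (nat_lit 276) (nat_lit 226)))))) (XT.nd (nat_lit 468) (nat_lit 0) (nat_lit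 0) (XT.nd (nat_lit 234) (nat_lit 0) (nat_lit 0) (XT.nd (nat_lit 78) (nat_lit 0) (nat_lit 0) (XT.lf (nat_lit 0) (nat_lit 2228475728) (nat_lit 76) (nat_lit 1769487063) (nat_lit 152) (nat_lit 125408638492) (nat_lit 2) (nat_lit 5) (nat_lit 3) (nat_lit 5) (nat_lit 4) (nat_lit 4) (nat_lit 399) (nat_lit 276) (nat_lit 225)) (XT.nd (nat_lit 78) (nat_lit 0) (nat_lit 0) (XT.lf (nat_lit 0) (nat_lit 7683854916) (nat_lit 152) (nat_lit 126026535190) (nat_lit 0) (nat_lit 1976154650) (nat_lit 2) (nat_lit 5) (nat_lit 4) (nat_lit 4) (nat_lit 2) (nat_lit 4) (nat_lit 400) (nat_lit 276) (nat_lit 224)) (XT.lf (nat_lit 0) (nat_lit 11557636997) (nat_lit 152) (nat_lit 124896080318) (nat_lit 0) (nat_lit 5826592256) (nat_lit 2) (nat_lit 5) (nat_lit 4) (nat_lit 4) (nat_lit 2) (nat_lit 4) (nat_lit 401) (nat_lit 276) (nat_lit 223)))) (XT.nd (nat_lit 78) (nat_lit 0) (nat_lit 0) (XT.lf (nat_lit 0) (nat_lit 15600905673)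 (nat_lit 152) (nat_lit 123756442726) (nat_lit 0) (nat_lit 9847628099) (nat_lit 2) (nat_lit 5) (nat_lit 4) (nat_lit 4) (nat_lit 2) (nat_lit 4) (nat_lit 402) (nat_lit 276) (nat_lit 222)) (XT.nd (nat_lit 78) (nat_lit 0) (nat_lit 0) (XT.lf (nat_lit 0) (nat_lit 19823287774) (nat_lit 152) (nat_lit 122604908992) (nat_lit 0) (nat_lit 14048836073) (nat_lit 2) (nat_lit 5) (nat_lit 4) (nat_lit 4) (nat_lit 2) (nat_lit 4) (nat_lit 403) (nat_lit 276) (nat_lit 221)) (XT.lf (nat_lit 0) (nat_lit 24234836592) (nat_lit 152) (nat_lit 121438737369) (nat_lit 0) (nat_lit 18440219054) (nat_lit 2) (nat_lit 5) (nat_lit 4) (nat_lit 4) (nat_lit 2) (nat_lit 4) (nat_lit 404) (nat_lit 276) (nat_lit 220))))) (XT.nd (nat_lit 234) (nat_lit 0) (nat_lit 0) (XT.nd (nat_lit 78) (nat_lit 0) (nat_lit 0) (XT.lf (nat_lit 0) (nat_lit 28846055812) (nat_lit 152) (nat_lit 120255151259) (nat_lit 0) (nat_lit 23032232717) (nat_lit 2)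 (nat_lit 5) (nat_lit 4) (nat_lit 4) (nat_lit 2) (nat_lit 4) (nat_lit 405) (nat_lit 276) (nat_lit 219)) (XT.nd (nat_lit 78) (nat_lit 0) (nat_lit 0) (XT.lf (nat_lit 0) (nat_lit 33667924530) (nat_lit 152) (nat_lit 119051332597) (nat_lit 0) (nat_lit 27835810428) (nat_lit 2) (nat_lit 5) (nat_lit 4) (nat_lit 4) (nat_lit 2) (nat_lit 4) (nat_lit 406) (nat_lit 276) (nat_lit 218)) (XT.lf (nat_lit 0) (nat_lit 38711923384) (nat_lit 152) (nat_lit 117824415151) (nat_lit 0) (nat_lit 32862389275) (nat_lit 2) (nat_lit 5) (nat_lit 4) (nat_lit 4) (nat_lit 2) (nat_lit 4) (nat_lit 407) (nat_lit 276) (nat_lit 217)))) (XT.nd (nat_lit 78) (nat_lit 0) (nat_lit 0) (XT.lf (nat_lit 0) (nat_lit 43990061896) (nat_lit 152) (nat_lit 116571477687) (nat_lit 0) (nat_lit 38123937304) (nat_lit 2) (nat_lit 5) (nat_lit 4) (nat_lit 4) (nat_lit 2) (nat_lit 4) (nat_lit 408) (nat_lit 276) (nat_lit 216)) (XT.nd (nat_lit 78) (nat_lit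 0) (nat_lit 0) (XT.lf (nat_lit 0) (nat_lit 49514907063) (nat_lit 152) (nat_lit 115289537022) (nat_lit 0) (nat_lit 43632982011) (nat_lit 2) (nat_lit 5) (nat_lit 4) (nat_lit 4) (nat_lit 2) (nat_lit 4) (nat_lit 409) (nat_lit 276) (nat_lit 215)) (XT.lf (nat_lit 0) (nat_lit 55299613277) (nat_lit 152) (nat_lit 113975540916) (nat_lit 0) (nat_lit 49402640168) (nat_lit 2) (nat_lit 5) (nat_lit 4) (nat_lit 4) (nat_lit 2) (nat_lit 4) (nat_lit 410) (nat_lit 276) (nat_lit 214))))))))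
noncomputable def xc43 : XT := (XT.nd (nat_lit 1716) (nat_lit 0) (nat_lit 0) (XT.nd (nat_lit 858) (nat_lit 0) (nat_lit 0) (XT.nd (nat_lit 390) (nat_lit 0) (nat_lit 0) (XT.nd (nat_lit 156) (nat_lit 0) (nat_lit 0) (XT.nd (nat_lit 78) (nat_lit 0) (nat_lit 0) (XT.lf (nat_lit 0) (nat_lit 61357953648) (nat_lit 152) (nat_lit 112626360806) (nat_lit 0) (nat_lit 55446649057) (nat_lit 2) (nat_lit 5) (nat_lit 4) (nat_lit 4) (nat_lit 2) (nat_lit 4) (nat_lit 411) (nat_lit 276) (nat_lit 213)) (XT.lf (nat_lit 0) (nat_lit 67704352797) (nat_lit 152) (nat_lit 111238784359) (nat_lit 0) (nat_lit 61779399174) (nat_lit 2) (nat_lit 5) (nat_lit 4) (nat_lit 4) (nat_lit 2) (nat_lit 4) (nat_lit 412) (nat_lit 276) (nat_lit 212))) (XT.nd (nat_lit 78) (nat_lit 0) (nat_lit 0) (XT.lf (nat_lit 0) (nat_lit 74353921198) (nat_lit 152) (nat_lit 109809507821) (nat_lit 0) (nat_lit 68415968498) (nat_lit 2) (nat_lit 5) (nat_lit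 4) (nat_lit 4) (nat_lit 2) (nat_lit 4) (nat_lit 413) (nat_lit 276) (nat_lit 211)) (XT.nd (nat_lit 78) (nat_lit 0) (nat_lit 0) (XT.lf (nat_lit 0) (nat_lit 81322491156) (nat_lit 152) (nat_lit 108335128154) (nat_lit 0) (nat_lit 75372158382) (nat_lit 2) (nat_lit 5) (nat_lit 4) (nat_lit 4) (nat_lit 2) (nat_lit 4) (nat_lit 414) (nat_lit 276) (nat_lit 210)) (XT.lf (nat_lit 0) (nat_lit 88626654505) (nat_lit 152) (nat_lit 106812134929) (nat_lit 0) (nat_lit 82664531184) (nat_lit 2) (nat_lit 5) (nat_lit 4) (nat_lit 4) (nat_lit 2) (nat_lit 4) (nat_lit 415) (nat_lit 276) (nat_lit 209))))) (XT.nd (nat_lit 234) (nat_lit 0) (nat_lit 0) (XT.nd (nat_lit 78) (nat_lit 0) (nat_lit 0) (XT.lf (nat_lit 0) (nat_lit 96283802109) (nat_lit 152) (nat_lit 105236901972) (nat_lit 0) (nat_lit 90310449697) (nat_lit 2) (nat_lit 5) (nat_lit 4) (nat_lit 4) (nat_lit 2) (nat_lit 4) (nat_lit 416) (nat_lit 276) (nat_lit 208))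 (XT.nd (nat_lit 78) (nat_lit 0) (nat_lit 0) (XT.lf (nat_lit 0) (nat_lit 104312165273) (nat_lit 152) (nat_lit 103605678728) (nat_lit 0) (nat_lit 98328118487) (nat_lit 2) (nat_lit 5) (nat_lit 4) (nat_lit 4) (nat_lit 2) (nat_lit 4) (nat_lit 417) (nat_lit 276) (nat_lit 207)) (XT.lf (nat_lit 0) (nat_lit 112730859146) (nat_lit 152) (nat_lit 101914581332) (nat_lit 0) (nat_lit 106736627244) (nat_lit 2) (nat_lit 5) (nat_lit 4) (nat_lit 4) (nat_lit 2) (nat_lit 4) (nat_lit 418) (nat_lit 276) (nat_lit 206)))) (XT.nd (nat_lit 78) (nat_lit 0) (nat_lit 0) (XT.lf (nat_lit 0) (nat_lit 121559928239) (nat_lit 152) (nat_lit 100159583363) (nat_lit 0) (nat_lit 115555996225) (nat_lit 2) (nat_lit 5) (nat_lit 4) (nat_lit 4) (nat_lit 2) (nat_lit 4) (nat_lit 419) (nat_lit 276) (nat_lit 205)) (XT.nd (nat_lit 78) (nat_lit 0) (nat_lit 0) (XT.lf (nat_lit 0) (nat_lit 130820394144) (nat_lit 152) (nat_lit 98336506253) (nat_lit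 0) (nat_lit 124807223928) (nat_lit 2) (nat_lit 5) (nat_lit 4) (nat_lit 4) (nat_lit 2) (nat_lit 4) (nat_lit 420) (nat_lit 276) (nat_lit 204)) (XT.lf (nat_lit 0) (nat_lit 140534305590) (nat_lit 152) (nat_lit 96441009343) (nat_lit 0) (nat_lit 134512337087) (nat_lit 2) (nat_lit 5) (nat_lit 4) (nat_lit 4) (nat_lit 2) (nat_lit 4) (nat_lit 421) (nat_lit 276) (nat_lit 203)))))) (XT.nd (nat_lit 390) (nat_lit 0) (nat_lit 0) (XT.nd (nat_lit 156) (nat_lit 0) (nat_lit 0) (XT.nd (nat_lit 78) (nat_lit 0) (nat_lit 0) (XT.lf (nat_lit 0) (nat_lit 150724790937) (nat_lit 152) (nat_lit 94468579545) (nat_lit 0) (nat_lit 144694443113) (nat_lit 2) (nat_lit 5) (nat_lit 4) (nat_lit 4) (nat_lit 2) (nat_lit 4) (nat_lit 422) (nat_lit 276) (nat_lit 202)) (XT.lf (nat_lit 0) (nat_lit 161416113245) (nat_lit 152) (nat_lit 92414520598) (nat_lit 0) (nat_lit 155377785115) (nat_lit 2) (nat_lit 5) (nat_lit 4) (nat_lit 4) (nat_lit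 2) (nat_lit 4) (nat_lit 423) (nat_lit 276) (nat_lit 201))) (XT.nd (nat_lit 78) (nat_lit 0) (nat_lit 0) (XT.lf (nat_lit 0) (nat_lit 172633728045) (nat_lit 152) (nat_lit 90273941884) (nat_lit 0) (nat_lit 166587799623) (nat_lit 2) (nat_lit 5) (nat_lit 4) (nat_lit 4) (nat_lit 2) (nat_lit 4) (nat_lit 424) (nat_lit 276) (nat_lit 200)) (XT.nd (nat_lit 78) (nat_lit 0) (nat_lit 0) (XT.lf (nat_lit 0) (nat_lit 184404343941) (nat_lit 152) (nat_lit 88041746788) (nat_lit 0) (nat_lit 178351177147) (nat_lit 2) (nat_lit 5) (nat_lit 4) (nat_lit 4) (nat_lit 2) (nat_lit 4) (nat_lit 425) (nat_lit 276) (nat_lit 199)) (XT.lf (nat_lit 0) (nat_lit 196755986211) (nat_lit 152) (nat_lit 85712620559) (nat_lit 0) (nat_lit 190695925729) (nat_lit 2) (nat_lit 5) (nat_lit 4) (nat_lit 4) (nat_lit 2) (nat_lit 4) (nat_lit 426) (nat_lit 276) (nat_lit 198))))) (XT.nd (nat_lit 234) (nat_lit 0) (nat_lit 0) (XT.nd (nat_lit 78)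 (nat_lit 0) (nat_lit 0) (XT.lf (nat_lit 0) (nat_lit 209718063527) (nat_lit 152) (nat_lit 83281017660) (nat_lit 0) (nat_lit 203651437627) (nat_lit 2) (nat_lit 5) (nat_lit 4) (nat_lit 4) (nat_lit 2) (nat_lit 4) (nat_lit 427) (nat_lit 276) (nat_lit 197)) (XT.nd (nat_lit 78) (nat_lit 0) (nat_lit 0) (XT.lf (nat_lit 0) (nat_lit 223321437977) (nat_lit 152) (nat_lit 80741148559) (nat_lit 0) (nat_lit 217248559298) (nat_lit 2) (nat_lit 5) (nat_lit 4) (nat_lit 4) (nat_lit 2) (nat_lit 4) (nat_lit 428) (nat_lit 276) (nat_lit 196)) (XT.lf (nat_lit 0) (nat_lit 237598498548) (nat_lit 152) (nat_lit 78086965949) (nat_lit 0) (nat_lit 231519664842) (nat_lit 2) (nat_lit 5) (nat_lit 4) (nat_lit 4) (nat_lit 2) (nat_lit 4) (nat_lit 429) (nat_lit 276) (nat_lit 195)))) (XT.nd (nat_lit 78) (nat_lit 0) (nat_lit 0) (XT.lf (nat_lit 0) (nat_lit 252583238241) (nat_lit 152) (nat_lit 75312150347) (nat_lit 0) (nat_lit 246498733081)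 (nat_lit 2) (nat_lit 5) (nat_lit 4) (nat_lit 4) (nat_lit 2) (nat_lit 4) (nat_lit 430) (nat_lit 276) (nat_lit 194)) (XT.nd (nat_lit 78) (nat_lit 0) (nat_lit 0) (XT.lf (nat_lit 0) (nat_lit 268311335009) (nat_lit 152) (nat_lit 72410095050) (nat_lit 0) (nat_lit 262221428464) (nat_lit 2) (nat_lit 5) (nat_lit 4) (nat_lit 4) (nat_lit 2) (nat_lit 4) (nat_lit 431) (nat_lit 276) (nat_lit 193)) (XT.lf (nat_lit 0) (nat_lit 284820236700) (nat_lit 152) (nat_lit 69373890402) (nat_lit 0) (nat_lit 278725185979) (nat_lit 2) (nat_lit 5) (nat_lit 4) (nat_lit 4) (nat_lit 2) (nat_lit 4) (nat_lit 432) (nat_lit 276) (nat_lit 192))))))) (XT.nd (nat_lit 40794) (nat_lit 0) (nat_lit 608) (XT.nd (nat_lit 40326) (nat_lit 0) (nat_lit 1140) (XT.nd (nat_lit 40092) (nat_lit 0) (nat_lit 1520) (XT.nd (nat_lit 78) (nat_lit 0) (nat_lit 0) (XT.lf (nat_lit 0) (nat_lit 302149250224) (nat_lit 152) (nat_lit 66196307345) (nat_lit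 0) (nat_lit 296049300287) (nat_lit 2) (nat_lit 5) (nat_lit 4) (nat_lit 4) (nat_lit 2) (nat_lit 4) (nat_lit 433) (nat_lit 276) (nat_lit 191)) (XT.lf (nat_lit 0) (nat_lit 320339635136) (nat_lit 152) (nat_lit 62869780205) (nat_lit 0) (nat_lit 314235019279) (nat_lit 2) (nat_lit 5) (nat_lit 4) (nat_lit 4) (nat_lit 2) (nat_lit 4) (nat_lit 434) (nat_lit 276) (nat_lit 190))) (XT.nd (nat_lit 78) (nat_lit 304) (nat_lit 0) (XT.lf (nat_lit 0) (nat_lit 5884255054) (nat_lit 152) (nat_lit 620600273) (nat_lit 152) (nat_lit 620600273) (nat_lit 26) (nat_lit 4) (nat_lit 28) (nat_lit 5) (nat_lit 28) (nat_lit 4) (nat_lit 346) (nat_lit 277) (nat_lit 277)) (XT.nd (nat_lit 78) (nat_lit 152) (nat_lit 0) (XT.lf (nat_lit 0) (nat_lit 3644945984) (nat_lit 152) (nat_lit 7840198108) (nat_lit 0) (nat_lit 3208890189) (nat_lit 24) (nat_lit 5) (nat_lit 26) (nat_lit 4) (nat_lit 24) (nat_lit 4) (nat_lit 347) (nat_lit 277)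 (nat_lit 276)) (XT.lf (nat_lit 0) (nat_lit 1277492803) (nat_lit 152) (nat_lit 7368307352) (nat_lit 152) (nat_lit 6516960324) (nat_lit 22) (nat_lit 4) (nat_lit 24) (nat_lit 5) (nat_lit 24) (nat_lit 4) (nat_lit 348) (nat_lit 277) (nat_lit 275))))) (XT.nd (nat_lit 234) (nat_lit 228) (nat_lit 0) (XT.nd (nat_lit 78) (nat_lit 152) (nat_lit 0) (XT.lf (nat_lit 0) (nat_lit 10820360014) (nat_lit 152) (nat_lit 3041614125) (nat_lit 152) (nat_lit 1794751637) (nat_lit 22) (nat_lit 4) (nat_lit 24) (nat_lit 5) (nat_lit 24) (nat_lit 4) (nat_lit 349) (nat_lit 277) (nat_lit 274)) (XT.nd (nat_lit 78) (nat_lit 0) (nat_lit 0) (XT.lf (nat_lit 0) (nat_lit 2993154837) (nat_lit 152) (nat_lit 11736360709) (nat_lit 0) (nat_lit 1446922571) (nat_lit 20) (nat_lit 5) (nat_lit 22) (nat_lit 4) (nat_lit 20) (nat_lit 4) (nat_lit 350) (nat_lit 277) (nat_lit 273)) (XT.lf (nat_lit 0) (nat_lit 7932228743) (nat_lit 152) (nat_lit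 2745554066) (nat_lit 0) (nat_lit 6044335351) (nat_lit 20) (nat_lit 5) (nat_lit 22) (nat_lit 4) (nat_lit 20) (nat_lit 4) (nat_lit 351) (nat_lit 277) (nat_lit 272)))) (XT.nd (nat_lit 78) (nat_lit 152) (nat_lit 0) (XT.lf (nat_lit 0) (nat_lit 6625776931) (nat_lit 76) (nat_lit 6442570251) (nat_lit 76) (nat_lit 4229285312) (nat_lit 19) (nat_lit 4) (nat_lit 20) (nat_lit 5) (nat_lit 20) (nat_lit 4) (nat_lit 352) (nat_lit 277) (nat_lit 271)) (XT.nd (nat_lit 78) (nat_lit 76) (nat_lit 0) (XT.lf (nat_lit 0) (nat_lit 435819091) (nat_lit 152) (nat_lit 1629752514) (nat_lit 76) (nat_lit 15841245383) (nat_lit 18) (nat_lit 5) (nat_lit 20) (nat_lit 5) (nat_lit 19) (nat_lit 4) (nat_lit 353) (nat_lit 277) (nat_lit 270)) (XT.lf (nat_lit 0) (nat_lit 5208558677) (nat_lit 152) (nat_lit 10809214104) (nat_lit 0) (nat_lit 2524443078) (nat_lit 17) (nat_lit 5) (nat_lit 19) (nat_lit 4) (nat_lit 17) (nat_lit 4) (nat_lit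 354) (nat_lit 277) (nat_lit 269)))))) (XT.nd (nat_lit 468) (nat_lit 228) (nat_lit 0) (XT.nd (nat_lit 234) (nat_lit 228) (nat_lit 0) (XT.nd (nat_lit 78) (nat_lit 76) (nat_lit 0) (XT.lf (nat_lit 0) (nat_lit 10137165868) (nat_lit 152) (nat_lit 1891052545) (nat_lit 0) (nat_lit 7185349838) (nat_lit 17) (nat_lit 5) (nat_lit 19) (nat_lit 4) (nat_lit 17) (nat_lit 4) (nat_lit 355) (nat_lit 277) (nat_lit 268)) (XT.nd (nat_lit 78) (nat_lit 0) (nat_lit 0) (XT.lf (nat_lit 0) (nat_lit 7455242190) (nat_lit 76) (nat_lit 7835563862) (nat_lit 76) (nat_lit 4628795040) (nat_lit 16) (nat_lit 4) (nat_lit 17) (nat_lit 5) (nat_lit 17) (nat_lit 4) (nat_lit 356) (nat_lit 277) (nat_lit 267)) (XT.lf (nat_lit 0) (nat_lit 17082250836) (nat_lit 76) (nat_lit 3516731965) (nat_lit 76) (nat_lit 67150959) (nat_lit 16) (nat_lit 4) (nat_lit 17) (nat_lit 5) (nat_lit 17) (nat_lit 4) (nat_lit 357) (nat_lit 277) (nat_lit 266))))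 (XT.nd (nat_lit 78) (nat_lit 76) (nat_lit 0) (XT.lf (nat_lit 0) (nat_lit 4544758159) (nat_lit 152) (nat_lit 15863713537) (nat_lit 0) (nat_lit 1039205108) (nat_lit 14) (nat_lit 5) (nat_lit 16) (nat_lit 4) (nat_lit 14) (nat_lit 4) (nat_lit 358) (nat_lit 277) (nat_lit 265)) (XT.nd (nat_lit 78) (nat_lit 76) (nat_lit 0) (XT.lf (nat_lit 0) (nat_lit 9374186949) (nat_lit 152) (nat_lit 7235747703) (nat_lit 0) (nat_lit 5658883605) (nat_lit 14) (nat_lit 5) (nat_lit 16) (nat_lit 4) (nat_lit 14) (nat_lit 4) (nat_lit 359) (nat_lit 277) (nat_lit 264)) (XT.lf (nat_lit 0) (nat_lit 1642506547) (nat_lit 76) (nat_lit 12704262660) (nat_lit 76) (nat_lit 8789197132) (nat_lit 13) (nat_lit 4) (nat_lit 14) (nat_lit 5) (nat_lit 14) (nat_lit 4) (nat_lit 360) (nat_lit 277) (nat_lit 263))))) (XT.nd (nat_lit 234) (nat_lit 76) (nat_lit 0) (XT.nd (nat_lit 78) (nat_lit 152) (nat_lit 0) (XT.lf (nat_lit 0) (nat_lit 10985971028)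 (nat_lit 76) (nat_lit 8582901737) (nat_lit 76) (nat_lit 4477586510) (nat_lit 13) (nat_lit 4) (nat_lit 14) (nat_lit 5) (nat_lit 14) (nat_lit 4) (nat_lit 361) (nat_lit 277) (nat_lit 262)) (XT.nd (nat_lit 78) (nat_lit 152) (nat_lit 0) (XT.lf (nat_lit 0) (nat_lit 20577645586) (nat_lit 76) (nat_lit 4358580008) (nat_lit 76) (nat_lit 72074592) (nat_lit 13) (nat_lit 4) (nat_lit 14) (nat_lit 5) (nat_lit 14) (nat_lit 4) (nat_lit 362) (nat_lit 277) (nat_lit 261)) (XT.lf (nat_lit 0) (nat_lit 4367861208) (nat_lit 152) (nat_lit 21527719783) (nat_lit 0) (nat_lit 121130254) (nat_lit 11) (nat_lit 5) (nat_lit 13) (nat_lit 4) (nat_lit 11) (nat_lit 4) (nat_lit 363) (nat_lit 277) (nat_lit 260)))) (XT.nd (nat_lit 78) (nat_lit 76) (nat_lit 0) (XT.lf (nat_lit 0) (nat_lit 9063452331) (nat_lit 152) (nat_lit 13350051307) (nat_lit 0) (nat_lit 4660202479) (nat_lit 11) (nat_lit 5) (nat_lit 13) (nat_lit 4) (nat_lit 11)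 (nat_lit 4) (nat_lit 364) (nat_lit 277) (nat_lit 259)) (XT.nd (nat_lit 78) (nat_lit 76) (nat_lit 0) (XT.lf (nat_lit 0) (nat_lit 13887502263) (nat_lit 152) (nat_lit 4966202833) (nat_lit 0) (nat_lit 9335186794) (nat_lit 11) (nat_lit 5) (nat_lit 13) (nat_lit 4) (nat_lit 11) (nat_lit 4) (nat_lit 365) (nat_lit 277) (nat_lit 258)) (XT.lf (nat_lit 0) (nat_lit 3764267243) (nat_lit 76) (nat_lit 15146000354) (nat_lit 76) (nat_lit 10451717630) (nat_lit 10) (nat_lit 4) (nat_lit 11) (nat_lit 5) (nat_lit 11) (nat_lit 4) (nat_lit 366) (nat_lit 277) (nat_lit 257))))))))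
noncomputable def xc44 : XT := (XT.nd (nat_lit 1716) (nat_lit 152) (nat_lit 0) (XT.nd (nat_lit 858) (nat_lit 228) (nat_lit 0) (XT.nd (nat_lit 390) (nat_lit 76) (nat_lit 0) (XT.nd (nat_lit 156) (nat_lit 152) (nat_lit 0) (XT.nd (nat_lit 78) (nat_lit 0) (nat_lit 0) (XT.lf (nat_lit 0) (nat_lit 12913739015) (nat_lit 76) (nat_lit 11255135728) (nat_lit 76) (nat_lit 6425646094) (nat_lit 10) (nat_lit 4) (nat_lit 11) (nat_lit 5) (nat_lit 11) (nat_lit 4) (nat_lit 367) (nat_lit 277) (nat_lit 256)) (XT.lf (nat_lit 0) (nat_lit 22339791845) (nat_lit 76) (nat_lit 7255952302) (nat_lit 76) (nat_lit 2297694184) (nat_lit 10) (nat_lit 4) (nat_lit 11) (nat_lit 5) (nat_lit 11) (nat_lit 4) (nat_lit 368) (nat_lit 277) (nat_lit 255))) (XT.nd (nat_lit 78) (nat_lit 76) (nat_lit 0) (XT.lf (nat_lit 0) (nat_lit 1879811501) (nat_lit 152) (nat_lit 1227281193) (nat_lit 76) (nat_lit 30153221698) (nat_lit 9) (nat_lit 5) (nat_lit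 11) (nat_lit 5) (nat_lit 10) (nat_lit 4) (nat_lit 369) (nat_lit 277) (nat_lit 254)) (XT.nd (nat_lit 78) (nat_lit 0) (nat_lit 0) (XT.lf (nat_lit 0) (nat_lit 6240406900) (nat_lit 152) (nat_lit 27160466700) (nat_lit 0) (nat_lit 1290224441) (nat_lit 8) (nat_lit 5) (nat_lit 10) (nat_lit 4) (nat_lit 8) (nat_lit 4) (nat_lit 370) (nat_lit 277) (nat_lit 253)) (XT.lf (nat_lit 0) (nat_lit 10804164811) (nat_lit 152) (nat_lit 19641973076) (nat_lit 0) (nat_lit 5748044200) (nat_lit 8) (nat_lit 5) (nat_lit 10) (nat_lit 4) (nat_lit 8) (nat_lit 4) (nat_lit 371) (nat_lit 277) (nat_lit 252))))) (XT.nd (nat_lit 234) (nat_lit 0) (nat_lit 0) (XT.nd (nat_lit 78) (nat_lit 76) (nat_lit 0) (XT.lf (nat_lit 0) (nat_lit 15513321535) (nat_lit 152) (nat_lit 11906947809) (nat_lit 0) (nat_lit 10356307447) (nat_lit 8) (nat_lit 5) (nat_lit 10) (nat_lit 4) (nat_lit 8) (nat_lit 4) (nat_lit 372) (nat_lit 277) (nat_lit 251))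 (XT.nd (nat_lit 78) (nat_lit 76) (nat_lit 0) (XT.lf (nat_lit 0) (nat_lit 20379089350) (nat_lit 152) (nat_lit 3936974172) (nat_lit 0) (nat_lit 15125986236) (nat_lit 8) (nat_lit 5) (nat_lit 10) (nat_lit 4) (nat_lit 8) (nat_lit 4) (nat_lit 373) (nat_lit 277) (nat_lit 250)) (XT.lf (nat_lit 0) (nat_lit 4428669028) (nat_lit 76) (nat_lit 21053528324) (nat_lit 76) (nat_lit 15708911852) (nat_lit 7) (nat_lit 4) (nat_lit 8) (nat_lit 5) (nat_lit 8) (nat_lit 4) (nat_lit 374) (nat_lit 277) (nat_lit 249)))) (XT.nd (nat_lit 78) (nat_lit 0) (nat_lit 0) (XT.lf (nat_lit 0) (nat_lit 13207034899) (nat_lit 76) (nat_lit 17626363294) (nat_lit 76) (nat_lit 12194591243) (nat_lit 7) (nat_lit 4) (nat_lit 8) (nat_lit 5) (nat_lit 8) (nat_lit 4) (nat_lit 375) (nat_lit 277) (nat_lit 248)) (XT.nd (nat_lit 78) (nat_lit 0) (nat_lit 0) (XT.lf (nat_lit 0) (nat_lit 22288850166) (nat_lit 76) (nat_lit 14093083078) (nat_lit 76)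 (nat_lit 8578305714) (nat_lit 7) (nat_lit 4) (nat_lit 8) (nat_lit 5) (nat_lit 8) (nat_lit 4) (nat_lit 376) (nat_lit 277) (nat_lit 247)) (XT.lf (nat_lit 0) (nat_lit 31695738198) (nat_lit 76) (nat_lit 10445275105) (nat_lit 76) (nat_lit 4851445061) (nat_lit 7) (nat_lit 4) (nat_lit 8) (nat_lit 5) (nat_lit 8) (nat_lit 4) (nat_lit 377) (nat_lit 277) (nat_lit 246)))))) (XT.nd (nat_lit 390) (nat_lit 76) (nat_lit 0) (XT.nd (nat_lit 156) (nat_lit 0) (nat_lit 0) (XT.nd (nat_lit 78) (nat_lit 152) (nat_lit 0) (XT.lf (nat_lit 0) (nat_lit 41450096348) (nat_lit 76) (nat_lit 6674254117) (nat_lit 76) (nat_lit 1005135806) (nat_lit 7) (nat_lit 4) (nat_lit 8) (nat_lit 5) (nat_lit 8) (nat_lit 4) (nat_lit 378) (nat_lit 277) (nat_lit 245)) (XT.lf (nat_lit 0) (nat_lit 157409949) (nat_lit 76) (nat_lit 2719776084) (nat_lit 152) (nat_lit 48496783598) (nat_lit 5) (nat_lit 5) (nat_lit 6) (nat_lit 5) (nat_lit 7) (nat_lit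 4) (nat_lit 379) (nat_lit 277) (nat_lit 244))) (XT.nd (nat_lit 78) (nat_lit 0) (nat_lit 0) (XT.lf (nat_lit 0) (nat_lit 7012949348) (nat_lit 152) (nat_lit 45231796121) (nat_lit 0) (nat_lit 1480463541) (nat_lit 5) (nat_lit 5) (nat_lit 7) (nat_lit 4) (nat_lit 5) (nat_lit 4) (nat_lit 380) (nat_lit 277) (nat_lit 243)) (XT.nd (nat_lit 78) (nat_lit 0) (nat_lit 0) (XT.lf (nat_lit 0) (nat_lit 11341567449) (nat_lit 152) (nat_lit 39106008217) (nat_lit 0) (nat_lit 5747141799) (nat_lit 5) (nat_lit 5) (nat_lit 7) (nat_lit 4) (nat_lit 5) (nat_lit 4) (nat_lit 381) (nat_lit 277) (nat_lit 242)) (XT.lf (nat_lit 0) (nat_lit 15830883243) (nat_lit 152) (nat_lit 32782147433) (nat_lit 0) (nat_lit 10177467266) (nat_lit 5) (nat_lit 5) (nat_lit 7) (nat_lit 4) (nat_lit 5) (nat_lit 4) (nat_lit 382) (nat_lit 277) (nat_lit 241))))) (XT.nd (nat_lit 234) (nat_lit 76) (nat_lit 0) (XT.nd (nat_lit 78) (nat_lit 0) (nat_lit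 0) (XT.lf (nat_lit 0) (nat_lit 20491585578) (nat_lit 152) (nat_lit 26245156959) (nat_lit 0) (nat_lit 14781988337) (nat_lit 5) (nat_lit 5) (nat_lit 7) (nat_lit 4) (nat_lit 5) (nat_lit 4) (nat_lit 383) (nat_lit 277) (nat_lit 240)) (XT.nd (nat_lit 78) (nat_lit 0) (nat_lit 0) (XT.lf (nat_lit 0) (nat_lit 25334771362) (nat_lit 152) (nat_lit 19479472531) (nat_lit 0) (nat_lit 19571668157) (nat_lit 5) (nat_lit 5) (nat_lit 7) (nat_lit 4) (nat_lit 5) (nat_lit 4) (nat_lit 384) (nat_lit 277) (nat_lit 239)) (XT.lf (nat_lit 0) (nat_lit 30371971992) (nat_lit 152) (nat_lit 12468985377) (nat_lit 0) (nat_lit 24557910725) (nat_lit 5) (nat_lit 5) (nat_lit 7) (nat_lit 4) (nat_lit 5) (nat_lit 4) (nat_lit 385) (nat_lit 277) (nat_lit 238)))) (XT.nd (nat_lit 78) (nat_lit 76) (nat_lit 0) (XT.lf (nat_lit 0) (nat_lit 35615180802) (nat_lit 152) (nat_lit 5197003861) (nat_lit 0) (nat_lit 29752588047) (nat_lit 5) (nat_lit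 5) (nat_lit 7) (nat_lit 4) (nat_lit 5) (nat_lit 4) (nat_lit 386) (nat_lit 277) (nat_lit 237)) (XT.nd (nat_lit 78) (nat_lit 0) (nat_lit 0) (XT.lf (nat_lit 0) (nat_lit 2431613061) (nat_lit 76) (nat_lit 38683232856) (nat_lit 76) (nat_lit 32774419636) (nat_lit 4) (nat_lit 4) (nat_lit 5) (nat_lit 5) (nat_lit 5) (nat_lit 4) (nat_lit 387) (nat_lit 277) (nat_lit 236)) (XT.lf (nat_lit 0) (nat_lit 10538666186) (nat_lit 76) (nat_lit 36395950431) (nat_lit 76) (nat_lit 30443117721) (nat_lit 4) (nat_lit 4) (nat_lit 5) (nat_lit 5) (nat_lit 5) (nat_lit 4) (nat_lit 388) (nat_lit 277) (nat_lit 235))))))) (XT.nd (nat_lit 858) (nat_lit 76) (nat_lit 0) (XT.nd (nat_lit 390) (nat_lit 76) (nat_lit 0) (XT.nd (nat_lit 156) (nat_lit 0) (nat_lit 0) (XT.nd (nat_lit 78) (nat_lit 0) (nat_lit 0) (XT.lf (nat_lit 0) (nat_lit 18971621601) (nat_lit 76) (nat_lit 34032905255) (nat_lit 76) (nat_lit 28038149221) (nat_lit 4) (nat_lit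 4) (nat_lit 5) (nat_lit 5) (nat_lit 5) (nat_lit 4) (nat_lit 389) (nat_lit 277) (nat_lit 234)) (XT.lf (nat_lit 0) (nat_lit 27750557772) (nat_lit 76) (nat_lit 31588471028) (nat_lit 76) (nat_lit 25553788020) (nat_lit 4) (nat_lit 4) (nat_lit 5) (nat_lit 5) (nat_lit 5) (nat_lit 4) (nat_lit 390) (nat_lit 277) (nat_lit 233))) (XT.nd (nat_lit 78) (nat_lit 0) (nat_lit 0) (XT.lf (nat_lit 0) (nat_lit 36896376929) (nat_lit 76) (nat_lit 29056827671) (nat_lit 76) (nat_lit 22984118972) (nat_lit 4) (nat_lit 4) (nat_lit 5) (nat_lit 5) (nat_lit 5) (nat_lit 4) (nat_lit 391) (nat_lit 277) (nat_lit 232)) (XT.nd (nat_lit 78) (nat_lit 0) (nat_lit 0) (XT.lf (nat_lit 0) (nat_lit 46430854830) (nat_lit 76) (nat_lit 26431947460) (nat_lit 76) (nat_lit 20323023817) (nat_lit 4) (nat_lit 4) (nat_lit 5) (nat_lit 5) (nat_lit 5) (nat_lit 4) (nat_lit 392) (nat_lit 277) (nat_lit 231)) (XT.lf (nat_lit 0) (nat_lit 56376692614)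 (nat_lit 76) (nat_lit 23707580680) (nat_lit 76) (nat_lit 17564166616) (nat_lit 4) (nat_lit 4) (nat_lit 5) (nat_lit 5) (nat_lit 5) (nat_lit 4) (nat_lit 393) (nat_lit 277) (nat_lit 230))))) (XT.nd (nat_lit 234) (nat_lit 76) (nat_lit 0) (XT.nd (nat_lit 78) (nat_lit 0) (nat_lit 0) (XT.lf (nat_lit 0) (nat_lit 66757570846) (nat_lit 76) (nat_lit 20877240744) (nat_lit 76) (nat_lit 14700978659) (nat_lit 4) (nat_lit 4) (nat_lit 5) (nat_lit 5) (nat_lit 5) (nat_lit 4) (nat_lit 394) (nat_lit 277) (nat_lit 229)) (XT.nd (nat_lit 78) (nat_lit 0) (nat_lit 0) (XT.lf (nat_lit 0) (nat_lit 77598205905) (nat_lit 76) (nat_lit 17934188748) (nat_lit 76) (nat_lit 11726642833) (nat_lit 4) (nat_lit 4) (nat_lit 5) (nat_lit 5) (nat_lit 5) (nat_lit 4) (nat_lit 395) (nat_lit 277) (nat_lit 228)) (XT.lf (nat_lit 0) (nat_lit 88924408825) (nat_lit 76) (nat_lit 14871417425) (nat_lit 76) (nat_lit 8634077386) (nat_lit 4) (nat_lit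 4) (nat_lit 5) (nat_lit 5) (nat_lit 5) (nat_lit 4) (nat_lit 396) (nat_lit 277) (nat_lit 227)))) (XT.nd (nat_lit 78) (nat_lit 76) (nat_lit 0) (XT.lf (nat_lit 0) (nat_lit 100763146756) (nat_lit 76) (nat_lit 11681634461) (nat_lit 76) (nat_lit 5415919067) (nat_lit 4) (nat_lit 4) (nat_lit 5) (nat_lit 5) (nat_lit 5) (nat_lit 4) (nat_lit 397) (nat_lit 277) (nat_lit 226)) (XT.nd (nat_lit 78) (nat_lit 76) (nat_lit 0) (XT.lf (nat_lit 0) (nat_lit 113142607170) (nat_lit 76) (nat_lit 8357245137) (nat_lit 76) (nat_lit 2064505594) (nat_lit 4) (nat_lit 4) (nat_lit 5) (nat_lit 5) (nat_lit 5) (nat_lit 4) (nat_lit 398) (nat_lit 277) (nat_lit 225)) (XT.lf (nat_lit 0) (nat_lit 1382433106) (nat_lit 152) (nat_lit 3484488958) (nat_lit 76) (nat_lit 124686419692) (nat_lit 3) (nat_lit 5) (nat_lit 5) (nat_lit 5) (nat_lit 4) (nat_lit 4) (nat_lit 399) (nat_lit 277) (nat_lit 224)))))) (XT.nd (nat_lit 468) (nat_lit 0)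 (nat_lit 0) (XT.nd (nat_lit 234) (nat_lit 0) (nat_lit 0) (XT.nd (nat_lit 78) (nat_lit 0) (nat_lit 0) (XT.lf (nat_lit 0) (nat_lit 3841483312) (nat_lit 76) (nat_lit 1126551730) (nat_lit 152) (nat_lit 130870266616) (nat_lit 2) (nat_lit 5) (nat_lit 3) (nat_lit 5) (nat_lit 4) (nat_lit 4) (nat_lit 400) (nat_lit 277) (nat_lit 223)) (XT.nd (nat_lit 78) (nat_lit 0) (nat_lit 0) (XT.lf (nat_lit 0) (nat_lit 8812422392) (nat_lit 152) (nat_lit 130871867539) (nat_lit 0) (nat_lit 2749248105) (nat_lit 2) (nat_lit 5) (nat_lit 4) (nat_lit 4) (nat_lit 2) (nat_lit 4) (nat_lit 401) (nat_lit 277) (nat_lit 222)) (XT.lf (nat_lit 0) (nat_lit 12844447162) (nat_lit 152) (nat_lit 129754222990) (nat_lit 0) (nat_lit 6760098747) (nat_lit 2) (nat_lit 5) (nat_lit 4) (nat_lit 4) (nat_lit 2) (nat_lit 4) (nat_lit 402) (nat_lit 277) (nat_lit 221)))) (XT.nd (nat_lit 78) (nat_lit 0) (nat_lit 0) (XT.lf (nat_lit 0) (nat_lit 17056120780)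 (nat_lit 152) (nat_lit 128623635012) (nat_lit 0) (nat_lit 10951606530) (nat_lit 2) (nat_lit 5) (nat_lit 4) (nat_lit 4) (nat_lit 2) (nat_lit 4) (nat_lit 403) (nat_lit 277) (nat_lit 220)) (XT.nd (nat_lit 78) (nat_lit 0) (nat_lit 0) (XT.lf (nat_lit 0) (nat_lit 21457471043) (nat_lit 152) (nat_lit 127477411727) (nat_lit 0) (nat_lit 15333751235) (nat_lit 2) (nat_lit 5) (nat_lit 4) (nat_lit 4) (nat_lit 2) (nat_lit 4) (nat_lit 404) (nat_lit 277) (nat_lit 219)) (XT.lf (nat_lit 0) (nat_lit 26058977354) (nat_lit 152) (nat_lit 126312824033) (nat_lit 0) (nat_lit 19916966539) (nat_lit 2) (nat_lit 5) (nat_lit 4) (nat_lit 4) (nat_lit 2) (nat_lit 4) (nat_lit 405) (nat_lit 277) (nat_lit 218))))) (XT.nd (nat_lit 234) (nat_lit 0) (nat_lit 0) (XT.nd (nat_lit 78) (nat_lit 0) (nat_lit 0) (XT.lf (nat_lit 0) (nat_lit 30871595682) (nat_lit 152) (nat_lit 125127099103) (nat_lit 0) (nat_lit 24712164860) (nat_lit 2)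 (nat_lit 5) (nat_lit 4) (nat_lit 4) (nat_lit 2) (nat_lit 4) (nat_lit 406) (nat_lit 277) (nat_lit 217)) (XT.nd (nat_lit 78) (nat_lit 0) (nat_lit 0) (XT.lf (nat_lit 0) (nat_lit 35906784641) (nat_lit 152) (nat_lit 123917413781) (nat_lit 0) (nat_lit 29730763337) (nat_lit 2) (nat_lit 5) (nat_lit 4) (nat_lit 4) (nat_lit 2) (nat_lit 4) (nat_lit 407) (nat_lit 277) (nat_lit 216)) (XT.lf (nat_lit 0) (nat_lit 41176532777) (nat_lit 152) (nat_lit 122680887864) (nat_lit 0) (nat_lit 34984711013) (nat_lit 2) (nat_lit 5) (nat_lit 4) (nat_lit 4) (nat_lit 2) (nat_lit 4) (nat_lit 408) (nat_lit 277) (nat_lit 215)))) (XT.nd (nat_lit 78) (nat_lit 0) (nat_lit 0) (XT.lf (nat_lit 0) (nat_lit 46693387109) (nat_lit 152) (nat_lit 121414577244) (nat_lit 0) (nat_lit 40486517288) (nat_lit 2) (nat_lit 5) (nat_lit 4) (nat_lit 4) (nat_lit 2) (nat_lit 4) (nat_lit 409) (nat_lit 277) (nat_lit 214)) (XT.nd (nat_lit 78) (nat_lit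 0) (nat_lit 0) (XT.lf (nat_lit 0) (nat_lit 52470483004) (nat_lit 152) (nat_lit 120115466894) (nat_lit 0) (nat_lit 46249281700) (nat_lit 2) (nat_lit 5) (nat_lit 4) (nat_lit 4) (nat_lit 2) (nat_lit 4) (nat_lit 410) (nat_lit 277) (nat_lit 213)) (XT.lf (nat_lit 0) (nat_lit 58521575453) (nat_lit 152) (nat_lit 118780463696) (nat_lit 0) (nat_lit 52286725118) (nat_lit 2) (nat_lit 5) (nat_lit 4) (nat_lit 4) (nat_lit 2) (nat_lit 4) (nat_lit 411) (nat_lit 277) (nat_lit 212))))))))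
noncomputable def xc45 : XT := (XT.nd (nat_lit 1716) (nat_lit 0) (nat_lit 0) (XT.nd (nat_lit 858) (nat_lit 0) (nat_lit 0) (XT.nd (nat_lit 390) (nat_lit 0) (nat_lit 0) (XT.nd (nat_lit 156) (nat_lit 0) (nat_lit 0) (XT.nd (nat_lit 78) (nat_lit 0) (nat_lit 0) (XT.lf (nat_lit 0) (nat_lit 64861071819) (nat_lit 152) (nat_lit 117406389069) (nat_lit 0) (nat_lit 58613222406) (nat_lit 2) (nat_lit 5) (nat_lit 4) (nat_lit 4) (nat_lit 2) (nat_lit 4) (nat_lit 412) (nat_lit 277) (nat_lit 211)) (XT.lf (nat_lit 0) (nat_lit 71504066140) (nat_lit 152) (nat_lit 115989971408) (nat_lit 0) (nat_lit 65243836654) (nat_lit 2) (nat_lit 5) (nat_lit 4) (nat_lit 4) (nat_lit 2) (nat_lit 4) (nat_lit 413) (nat_lit 277) (nat_lit 210))) (XT.nd (nat_lit 78) (nat_lit 0) (nat_lit 0) (XT.lf (nat_lit 0) (nat_lit 78466375070) (nat_lit 152) (nat_lit 114527838290) (nat_lit 0) (nat_lit 72194355037) (nat_lit 2) (nat_lit 5) (nat_lit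 4) (nat_lit 4) (nat_lit 2) (nat_lit 4) (nat_lit 414) (nat_lit 277) (nat_lit 209)) (XT.nd (nat_lit 78) (nat_lit 0) (nat_lit 0) (XT.lf (nat_lit 0) (nat_lit 85764575535) (nat_lit 152) (nat_lit 113016508445) (nat_lit 0) (nat_lit 79481326410) (nat_lit 2) (nat_lit 5) (nat_lit 4) (nat_lit 4) (nat_lit 2) (nat_lit 4) (nat_lit 415) (nat_lit 277) (nat_lit 208)) (XT.lf (nat_lit 0) (nat_lit 93416044202) (nat_lit 152) (nat_lit 111452383469) (nat_lit 0) (nat_lit 87122100705) (nat_lit 2) (nat_lit 5) (nat_lit 4) (nat_lit 4) (nat_lit 2) (nat_lit 4) (nat_lit 416) (nat_lit 277) (nat_lit 207))))) (XT.nd (nat_lit 234) (nat_lit 0) (nat_lit 0) (XT.nd (nat_lit 78) (nat_lit 0) (nat_lit 0) (XT.lf (nat_lit 0) (nat_lit 101438998855) (nat_lit 152) (nat_lit 109831739255) (nat_lit 0) (nat_lit 95134870240) (nat_lit 2) (nat_lit 5) (nat_lit 4) (nat_lit 4) (nat_lit 2) (nat_lit 4) (nat_lit 417) (nat_lit 277) (nat_lit 206))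 (XT.nd (nat_lit 78) (nat_lit 0) (nat_lit 0) (XT.lf (nat_lit 0) (nat_lit 109852541766) (nat_lit 152) (nat_lit 108150717126) (nat_lit 0) (nat_lit 103538713039) (nat_lit 2) (nat_lit 5) (nat_lit 4) (nat_lit 4) (nat_lit 2) (nat_lit 4) (nat_lit 418) (nat_lit 277) (nat_lit 205)) (XT.lf (nat_lit 0) (nat_lit 118676705179) (nat_lit 152) (nat_lit 106405314648) (nat_lit 0) (nat_lit 112353638251) (nat_lit 2) (nat_lit 5) (nat_lit 4) (nat_lit 4) (nat_lit 2) (nat_lit 4) (nat_lit 419) (nat_lit 277) (nat_lit 204)))) (XT.nd (nat_lit 78) (nat_lit 0) (nat_lit 0) (XT.lf (nat_lit 0) (nat_lit 127932499009) (nat_lit 152) (nat_lit 104591376102) (nat_lit 0) (nat_lit 121600633793) (nat_lit 2) (nat_lit 5) (nat_lit 4) (nat_lit 4) (nat_lit 2) (nat_lit 4) (nat_lit 420) (nat_lit 277) (nat_lit 203)) (XT.nd (nat_lit 78) (nat_lit 0) (nat_lit 0) (XT.lf (nat_lit 0) (nat_lit 137641960859) (nat_lit 152) (nat_lit 102704582586)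 (nat_lit 0) (nat_lit 131301716322) (nat_lit 2) (nat_lit 5) (nat_lit 4) (nat_lit 4) (nat_lit 2) (nat_lit 4) (nat_lit 421) (nat_lit 277) (nat_lit 202)) (XT.lf (nat_lit 0) (nat_lit 147828208496) (nat_lit 152) (nat_lit 100740441734) (nat_lit 0) (nat_lit 141479983653) (nat_lit 2) (nat_lit 5) (nat_lit 4) (nat_lit 4) (nat_lit 2) (nat_lit 4) (nat_lit 422) (nat_lit 277) (nat_lit 201)))))) (XT.nd (nat_lit 390) (nat_lit 0) (nat_lit 0) (XT.nd (nat_lit 156) (nat_lit 0) (nat_lit 0) (XT.nd (nat_lit 78) (nat_lit 0) (nat_lit 0) (XT.lf (nat_lit 0) (nat_lit 158515494890) (nat_lit 152) (nat_lit 98694277021) (nat_lit 0) (nat_lit 152159669755) (nat_lit 2) (nat_lit 5) (nat_lit 4) (nat_lit 4) (nat_lit 2) (nat_lit 4) (nat_lit 423) (nat_lit 277) (nat_lit 200)) (XT.lf (nat_lit 0) (nat_lit 169729265961) (nat_lit 152) (nat_lit 96561216626) (nat_lit 0) (nat_lit 163366202454) (nat_lit 2) (nat_lit 5) (nat_lit 4) (nat_lit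 4) (nat_lit 2) (nat_lit 4) (nat_lit 424) (nat_lit 277) (nat_lit 199))) (XT.nd (nat_lit 78) (nat_lit 0) (nat_lit 0) (XT.lf (nat_lit 0) (nat_lit 181496221164) (nat_lit 152) (nat_lit 94336181834) (nat_lit 0) (nat_lit 175126263969) (nat_lit 2) (nat_lit 5) (nat_lit 4) (nat_lit 4) (nat_lit 2) (nat_lit 4) (nat_lit 425) (nat_lit 277) (nat_lit 198)) (XT.nd (nat_lit 78) (nat_lit 0) (nat_lit 0) (XT.lf (nat_lit 0) (nat_lit 193844377059) (nat_lit 152) (nat_lit 92013874942) (nat_lit 0) (nat_lit 187467854447) (nat_lit 2) (nat_lit 5) (nat_lit 4) (nat_lit 4) (nat_lit 2) (nat_lit 4) (nat_lit 426) (nat_lit 277) (nat_lit 197)) (XT.lf (nat_lit 0) (nat_lit 206803134018) (nat_lit 152) (nat_lit 89588766649) (nat_lit 0) (nat_lit 200420358627) (nat_lit 2) (nat_lit 5) (nat_lit 4) (nat_lit 4) (nat_lit 2) (nat_lit 4) (nat_lit 427) (nat_lit 277) (nat_lit 196))))) (XT.nd (nat_lit 234) (nat_lit 0) (nat_lit 0) (XT.nd (nat_lit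 78) (nat_lit 0) (nat_lit 0) (XT.lf (nat_lit 0) (nat_lit 220403346224) (nat_lit 152) (nat_lit 87055082888) (nat_lit 0) (nat_lit 214014615805) (nat_lit 2) (nat_lit 5) (nat_lit 4) (nat_lit 4) (nat_lit 2) (nat_lit 4) (nat_lit 428) (nat_lit 277) (nat_lit 195)) (XT.nd (nat_lit 78) (nat_lit 0) (nat_lit 0) (XT.lf (nat_lit 0) (nat_lit 234677395133) (nat_lit 152) (nat_lit 84406791077) (nat_lit 0) (nat_lit 228282993261) (nat_lit 2) (nat_lit 5) (nat_lit 4) (nat_lit 4) (nat_lit 2) (nat_lit 4) (nat_lit 429) (nat_lit 277) (nat_lit 194)) (XT.lf (nat_lit 0) (nat_lit 249659266578) (nat_lit 152) (nat_lit 81637585761) (nat_lit 0) (nat_lit 243259463320) (nat_lit 2) (nat_lit 5) (nat_lit 4) (nat_lit 4) (nat_lit 2) (nat_lit 4) (nat_lit 430) (nat_lit 277) (nat_lit 193)))) (XT.nd (nat_lit 78) (nat_lit 0) (nat_lit 0) (XT.lf (nat_lit 0) (nat_lit 265384631679) (nat_lit 152) (nat_lit 78740873592) (nat_lit 0) (nat_lit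 258979684245) (nat_lit 2) (nat_lit 5) (nat_lit 4) (nat_lit 4) (nat_lit 2) (nat_lit 4) (nat_lit 431) (nat_lit 277) (nat_lit 192)) (XT.nd (nat_lit 78) (nat_lit 0) (nat_lit 0) (XT.lf (nat_lit 0) (nat_lit 281890931784) (nat_lit 152) (nat_lit 75709757639) (nat_lit 0) (nat_lit 275481085135) (nat_lit 2) (nat_lit 5) (nat_lit 4) (nat_lit 4) (nat_lit 2) (nat_lit 4) (nat_lit 432) (nat_lit 277) (nat_lit 191)) (XT.lf (nat_lit 0) (nat_lit 299217467606) (nat_lit 152) (nat_lit 72537020957) (nat_lit 0) (nat_lit 292802955037) (nat_lit 2) (nat_lit 5) (nat_lit 4) (nat_lit 4) (nat_lit 2) (nat_lit 4) (nat_lit 433) (nat_lit 277) (nat_lit 190))))))) (XT.nd (nat_lit 40638) (nat_lit 0) (nat_lit 684) (XT.nd (nat_lit 40170) (nat_lit 0) (nat_lit 1216) (XT.nd (nat_lit 39936) (nat_lit 0) (nat_lit 1672) (XT.nd (nat_lit 39858) (nat_lit 0) (nat_lit 1976) (XT.lf (nat_lit 0) (nat_lit 317405492803) (nat_lit 152) (nat_lit 69215109412)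 (nat_lit 0) (nat_lit 310986536501) (nat_lit 2) (nat_lit 5) (nat_lit 4) (nat_lit 4) (nat_lit 2) (nat_lit 4) (nat_lit 434) (nat_lit 277) (nat_lit 189)) (XT.lf (nat_lit 0) (nat_lit 1677030024) (nat_lit 152) (nat_lit 3356718006) (nat_lit 0) (nat_lit 1677030024) (nat_lit 28) (nat_lit 5) (nat_lit 30) (nat_lit 4) (nat_lit 28) (nat_lit 4) (nat_lit 344) (nat_lit 278) (nat_lit 278))) (XT.nd (nat_lit 78) (nat_lit 152) (nat_lit 0) (XT.lf (nat_lit 0) (nat_lit 2263556339) (nat_lit 152) (nat_lit 6021975597) (nat_lit 152) (nat_lit 5541224083) (nat_lit 26) (nat_lit 4) (nat_lit 28) (nat_lit 5) (nat_lit 28) (nat_lit 4) (nat_lit 345) (nat_lit 278) (nat_lit 277)) (XT.nd (nat_lit 78) (nat_lit 152) (nat_lit 0) (XT.lf (nat_lit 0) (nat_lit 11621878165) (nat_lit 152) (nat_lit 1785907301) (nat_lit 152) (nat_lit 847297203) (nat_lit 26) (nat_lit 4) (nat_lit 28) (nat_lit 5) (nat_lit 28) (nat_lit 4) (nat_lit 346) (nat_lit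 278) (nat_lit 276)) (XT.lf (nat_lit 0) (nat_lit 3931894713) (nat_lit 152) (nat_lit 8148065940) (nat_lit 0) (nat_lit 2622689100) (nat_lit 24) (nat_lit 5) (nat_lit 26) (nat_lit 4) (nat_lit 24) (nat_lit 4) (nat_lit 347) (nat_lit 278) (nat_lit 275))))) (XT.nd (nat_lit 234) (nat_lit 152) (nat_lit 0) (XT.nd (nat_lit 78) (nat_lit 152) (nat_lit 0) (XT.lf (nat_lit 0) (nat_lit 811688289) (nat_lit 152) (nat_lit 8034387451) (nat_lit 152) (nat_lit 6329666377) (nat_lit 22) (nat_lit 4) (nat_lit 24) (nat_lit 5) (nat_lit 24) (nat_lit 4) (nat_lit 348) (nat_lit 278) (nat_lit 274)) (XT.nd (nat_lit 78) (nat_lit 152) (nat_lit 0) (XT.lf (nat_lit 0) (nat_lit 10213834375) (nat_lit 152) (nat_lit 3770598650) (nat_lit 152) (nat_lit 1689196186) (nat_lit 22) (nat_lit 4) (nat_lit 24) (nat_lit 5) (nat_lit 24) (nat_lit 4) (nat_lit 349) (nat_lit 278) (nat_lit 273)) (XT.lf (nat_lit 0) (nat_lit 2995181963) (nat_lit 152) (nat_lit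 12531879988) (nat_lit 0) (nat_lit 671232777) (nat_lit 20) (nat_lit 5) (nat_lit 22) (nat_lit 4) (nat_lit 20) (nat_lit 4) (nat_lit 350) (nat_lit 278) (nat_lit 272)))) (XT.nd (nat_lit 78) (nat_lit 152) (nat_lit 0) (XT.lf (nat_lit 0) (nat_lit 7859448012) (nat_lit 152) (nat_lit 3678186622) (nat_lit 0) (nat_lit 5210107277) (nat_lit 20) (nat_lit 5) (nat_lit 22) (nat_lit 4) (nat_lit 20) (nat_lit 4) (nat_lit 351) (nat_lit 278) (nat_lit 271)) (XT.nd (nat_lit 78) (nat_lit 76) (nat_lit 0) (XT.lf (nat_lit 0) (nat_lit 5527405557) (nat_lit 76) (nat_lit 7379766659) (nat_lit 76) (nat_lit 4420529212) (nat_lit 19) (nat_lit 4) (nat_lit 20) (nat_lit 5) (nat_lit 20) (nat_lit 4) (nat_lit 352) (nat_lit 278) (nat_lit 270)) (XT.lf (nat_lit 0) (nat_lit 179668648) (nat_lit 152) (nat_lit 2886056443) (nat_lit 76) (nat_lit 14874884606) (nat_lit 18) (nat_lit 5) (nat_lit 20) (nat_lit 5) (nat_lit 19) (nat_lit 4) (nat_lit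 353) (nat_lit 278) (nat_lit 269)))))) (XT.nd (nat_lit 468) (nat_lit 228) (nat_lit 0) (XT.nd (nat_lit 234) (nat_lit 152) (nat_lit 0) (XT.nd (nat_lit 78) (nat_lit 76) (nat_lit 0) (XT.lf (nat_lit 0) (nat_lit 4845620171) (nat_lit 152) (nat_lit 12257236896) (nat_lit 0) (nat_lit 1478512908) (nat_lit 17) (nat_lit 5) (nat_lit 19) (nat_lit 4) (nat_lit 17) (nat_lit 4) (nat_lit 354) (nat_lit 278) (nat_lit 268)) (XT.nd (nat_lit 78) (nat_lit 76) (nat_lit 0) (XT.lf (nat_lit 0) (nat_lit 9707010489) (nat_lit 152) (nat_lit 3464143245) (nat_lit 0) (nat_lit 6084950433) (nat_lit 17) (nat_lit 5) (nat_lit 19) (nat_lit 4) (nat_lit 17) (nat_lit 4) (nat_lit 355) (nat_lit 278) (nat_lit 267)) (XT.lf (nat_lit 0) (nat_lit 5707087324) (nat_lit 76) (nat_lit 9062253682) (nat_lit 76) (nat_lit 5197381443) (nat_lit 16) (nat_lit 4) (nat_lit 17) (nat_lit 5) (nat_lit 17) (nat_lit 4) (nat_lit 356) (nat_lit 278) (nat_lit 266))))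 (XT.nd (nat_lit 78) (nat_lit 152) (nat_lit 0) (XT.lf (nat_lit 0) (nat_lit 15216904844) (nat_lit 76) (nat_lit 4797815544) (nat_lit 76) (nat_lit 701693607) (nat_lit 16) (nat_lit 4) (nat_lit 17) (nat_lit 5) (nat_lit 17) (nat_lit 4) (nat_lit 357) (nat_lit 278) (nat_lit 265)) (XT.nd (nat_lit 78) (nat_lit 0) (nat_lit 0) (XT.lf (nat_lit 0) (nat_lit 3515436067) (nat_lit 76) (nat_lit 304952133) (nat_lit 152) (nat_lit 17683588261) (nat_lit 14) (nat_lit 5) (nat_lit 15) (nat_lit 5) (nat_lit 16) (nat_lit 4) (nat_lit 358) (nat_lit 278) (nat_lit 264)) (XT.lf (nat_lit 0) (nat_lit 8584586515) (nat_lit 152) (nat_lit 9469803814) (nat_lit 0) (nat_lit 4274005527) (nat_lit 14) (nat_lit 5) (nat_lit 16) (nat_lit 4) (nat_lit 14) (nat_lit 4) (nat_lit 359) (nat_lit 278) (nat_lit 263))))) (XT.nd (nat_lit 234) (nat_lit 152) (nat_lit 0) (XT.nd (nat_lit 78) (nat_lit 76) (nat_lit 0) (XT.lf (nat_lit 0) (nat_lit 13473934818)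 (nat_lit 152) (nat_lit 752682326) (nat_lit 0) (nat_lit 8973104131) (nat_lit 14) (nat_lit 5) (nat_lit 16) (nat_lit 4) (nat_lit 14) (nat_lit 4) (nat_lit 360) (nat_lit 278) (nat_lit 262)) (XT.nd (nat_lit 78) (nat_lit 0) (nat_lit 0) (XT.lf (nat_lit 0) (nat_lit 8459083786) (nat_lit 76) (nat_lit 10168299476) (nat_lit 76) (nat_lit 5486278599) (nat_lit 13) (nat_lit 4) (nat_lit 14) (nat_lit 5) (nat_lit 14) (nat_lit 4) (nat_lit 361) (nat_lit 278) (nat_lit 261)) (XT.lf (nat_lit 0) (nat_lit 17949033304) (nat_lit 76) (nat_lit 5991878903) (nat_lit 76) (nat_lit 1137295941) (nat_lit 13) (nat_lit 4) (nat_lit 14) (nat_lit 5) (nat_lit 14) (nat_lit 4) (nat_lit 362) (nat_lit 278) (nat_lit 260)))) (XT.nd (nat_lit 78) (nat_lit 0) (nat_lit 0) (XT.lf (nat_lit 0) (nat_lit 1618600630) (nat_lit 76) (nat_lit 1619218118) (nat_lit 152) (nat_lit 22854590621) (nat_lit 11) (nat_lit 5) (nat_lit 12) (nat_lit 5) (nat_lit 13)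 (nat_lit 4) (nat_lit 363) (nat_lit 278) (nat_lit 259)) (XT.nd (nat_lit 78) (nat_lit 0) (nat_lit 0) (XT.lf (nat_lit 0) (nat_lit 7856265560) (nat_lit 152) (nat_lit 16369739451) (nat_lit 0) (nat_lit 2927268700) (nat_lit 11) (nat_lit 5) (nat_lit 13) (nat_lit 4) (nat_lit 11) (nat_lit 4) (nat_lit 364) (nat_lit 278) (nat_lit 258)) (XT.lf (nat_lit 0) (nat_lit 12630921417) (nat_lit 152) (nat_lit 8080062138) (nat_lit 0) (nat_lit 7559957302) (nat_lit 11) (nat_lit 5) (nat_lit 13) (nat_lit 4) (nat_lit 11) (nat_lit 4) (nat_lit 365) (nat_lit 278) (nat_lit 257))))))))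
noncomputable def xc46 : XT := (XT.nd (nat_lit 1716) (nat_lit 228) (nat_lit 0) (XT.nd (nat_lit 858) (nat_lit 152) (nat_lit 0) (XT.nd (nat_lit 390) (nat_lit 76) (nat_lit 0) (XT.nd (nat_lit 156) (nat_lit 152) (nat_lit 0) (XT.nd (nat_lit 78) (nat_lit 0) (nat_lit 0) (XT.lf (nat_lit 0) (nat_lit 454797415) (nat_lit 76) (nat_lit 17100177260) (nat_lit 76) (nat_lit 11894006236) (nat_lit 10) (nat_lit 4) (nat_lit 11) (nat_lit 5) (nat_lit 11) (nat_lit 4) (nat_lit 366) (nat_lit 278) (nat_lit 256)) (XT.lf (nat_lit 0) (nat_lit 9516028928) (nat_lit 76) (nat_lit 13251373332) (nat_lit 76) (nat_lit 7916433823) (nat_lit 10) (nat_lit 4) (nat_lit 11) (nat_lit 5) (nat_lit 11) (nat_lit 4) (nat_lit 367) (nat_lit 278) (nat_lit 255))) (XT.nd (nat_lit 78) (nat_lit 152) (nat_lit 0) (XT.lf (nat_lit 0) (nat_lit 18858043417) (nat_lit 76) (nat_lit 9292247714) (nat_lit 76) (nat_lit 3834671553) (nat_lit 10) (nat_lit 4) (nat_lit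 11) (nat_lit 5) (nat_lit 11) (nat_lit 4) (nat_lit 368) (nat_lit 278) (nat_lit 254)) (XT.nd (nat_lit 78) (nat_lit 76) (nat_lit 0) (XT.lf (nat_lit 0) (nat_lit 349444831) (nat_lit 152) (nat_lit 4858011068) (nat_lit 76) (nat_lit 28147720923) (nat_lit 9) (nat_lit 5) (nat_lit 11) (nat_lit 5) (nat_lit 10) (nat_lit 4) (nat_lit 369) (nat_lit 278) (nat_lit 253)) (XT.lf (nat_lit 0) (nat_lit 3721563865) (nat_lit 76) (nat_lit 867300474) (nat_lit 152) (nat_lit 30203163635) (nat_lit 8) (nat_lit 5) (nat_lit 9) (nat_lit 5) (nat_lit 10) (nat_lit 4) (nat_lit 370) (nat_lit 278) (nat_lit 252))))) (XT.nd (nat_lit 234) (nat_lit 76) (nat_lit 0) (XT.nd (nat_lit 78) (nat_lit 0) (nat_lit 0) (XT.lf (nat_lit 0) (nat_lit 9098696341) (nat_lit 152) (nat_lit 23616182196) (nat_lit 0) (nat_lit 3582938071) (nat_lit 8) (nat_lit 5) (nat_lit 10) (nat_lit 4) (nat_lit 8) (nat_lit 4) (nat_lit 371) (nat_lit 278) (nat_lit 251)) (XT.nd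 (nat_lit 78) (nat_lit 0) (nat_lit 0) (XT.lf (nat_lit 0) (nat_lit 13769391238) (nat_lit 152) (nat_lit 15955207121) (nat_lit 0) (nat_lit 8157543942) (nat_lit 8) (nat_lit 5) (nat_lit 10) (nat_lit 4) (nat_lit 8) (nat_lit 4) (nat_lit 372) (nat_lit 278) (nat_lit 250)) (XT.lf (nat_lit 0) (nat_lit 18598528741) (nat_lit 152) (nat_lit 8055757477) (nat_lit 0) (nat_lit 12895168088) (nat_lit 8) (nat_lit 5) (nat_lit 10) (nat_lit 4) (nat_lit 8) (nat_lit 4) (nat_lit 373) (nat_lit 278) (nat_lit 249)))) (XT.nd (nat_lit 78) (nat_lit 0) (nat_lit 0) (XT.lf (nat_lit 0) (nat_lit 104313637) (nat_lit 76) (nat_lit 23494921789) (nat_lit 76) (nat_lit 17704405556) (nat_lit 7) (nat_lit 4) (nat_lit 8) (nat_lit 5) (nat_lit 8) (nat_lit 4) (nat_lit 374) (nat_lit 278) (nat_lit 248)) (XT.nd (nat_lit 78) (nat_lit 0) (nat_lit 0) (XT.lf (nat_lit 0) (nat_lit 8816597119) (nat_lit 76) (nat_lit 20099582644) (nat_lit 76) (nat_lit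 14226061098) (nat_lit 7) (nat_lit 4) (nat_lit 8) (nat_lit 5) (nat_lit 8) (nat_lit 4) (nat_lit 375) (nat_lit 278) (nat_lit 247)) (XT.lf (nat_lit 0) (nat_lit 17835476777) (nat_lit 76) (nat_lit 16596612796) (nat_lit 76) (nat_lit 10644038570) (nat_lit 7) (nat_lit 4) (nat_lit 8) (nat_lit 5) (nat_lit 8) (nat_lit 4) (nat_lit 376) (nat_lit 278) (nat_lit 246)))))) (XT.nd (nat_lit 390) (nat_lit 0) (nat_lit 0) (XT.nd (nat_lit 156) (nat_lit 152) (nat_lit 0) (XT.nd (nat_lit 78) (nat_lit 0) (nat_lit 0) (XT.lf (nat_lit 0) (nat_lit 27182426134) (nat_lit 76) (nat_lit 12977671839) (nat_lit 76) (nat_lit 6949809347) (nat_lit 7) (nat_lit 4) (nat_lit 8) (nat_lit 5) (nat_lit 8) (nat_lit 4) (nat_lit 377) (nat_lit 278) (nat_lit 245)) (XT.lf (nat_lit 0) (nat_lit 36879699832) (nat_lit 76) (nat_lit 9234143248) (nat_lit 76) (nat_lit 3134577645) (nat_lit 7) (nat_lit 4) (nat_lit 8) (nat_lit 5) (nat_lit 8) (nat_lit 4)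 (nat_lit 378) (nat_lit 278) (nat_lit 244))) (XT.nd (nat_lit 78) (nat_lit 76) (nat_lit 0) (XT.lf (nat_lit 0) (nat_lit 784791663) (nat_lit 152) (nat_lit 4559031368) (nat_lit 76) (nat_lit 46152304126) (nat_lit 6) (nat_lit 5) (nat_lit 8) (nat_lit 5) (nat_lit 7) (nat_lit 4) (nat_lit 379) (nat_lit 278) (nat_lit 243)) (XT.nd (nat_lit 78) (nat_lit 0) (nat_lit 0) (XT.lf (nat_lit 0) (nat_lit 3596875210) (nat_lit 76) (nat_lit 1198132753) (nat_lit 152) (nat_lit 49058641017) (nat_lit 5) (nat_lit 5) (nat_lit 6) (nat_lit 5) (nat_lit 7) (nat_lit 4) (nat_lit 380) (nat_lit 278) (nat_lit 242)) (XT.lf (nat_lit 0) (nat_lit 9077732921) (nat_lit 152) (nat_lit 44165068199) (nat_lit 0) (nat_lit 3082655819) (nat_lit 5) (nat_lit 5) (nat_lit 7) (nat_lit 4) (nat_lit 5) (nat_lit 4) (nat_lit 381) (nat_lit 278) (nat_lit 241))))) (XT.nd (nat_lit 234) (nat_lit 0) (nat_lit 0) (XT.nd (nat_lit 78) (nat_lit 0) (nat_lit 0) (XT.lf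 (nat_lit 0) (nat_lit 13541156398) (nat_lit 152) (nat_lit 37891482220) (nat_lit 0) (nat_lit 7489898033) (nat_lit 5) (nat_lit 5) (nat_lit 7) (nat_lit 4) (nat_lit 5) (nat_lit 4) (nat_lit 382) (nat_lit 278) (nat_lit 240)) (XT.nd (nat_lit 78) (nat_lit 0) (nat_lit 0) (XT.lf (nat_lit 0) (nat_lit 18177199383) (nat_lit 152) (nat_lit 31402372511) (nat_lit 0) (nat_lit 12072435052) (nat_lit 5) (nat_lit 5) (nat_lit 7) (nat_lit 4) (nat_lit 5) (nat_lit 4) (nat_lit 383) (nat_lit 278) (nat_lit 239)) (XT.lf (nat_lit 0) (nat_lit 22996900073) (nat_lit 152) (nat_lit 24682288813) (nat_lit 0) (nat_lit 16841177680) (nat_lit 5) (nat_lit 5) (nat_lit 7) (nat_lit 4) (nat_lit 5) (nat_lit 4) (nat_lit 384) (nat_lit 278) (nat_lit 238)))) (XT.nd (nat_lit 78) (nat_lit 0) (nat_lit 0) (XT.lf (nat_lit 0) (nat_lit 28011733946) (nat_lit 152) (nat_lit 17715230925) (nat_lit 0) (nat_lit 21807480066) (nat_lit 5) (nat_lit 5) (nat_lit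 7) (nat_lit 4) (nat_lit 5) (nat_lit 4) (nat_lit 385) (nat_lit 278) (nat_lit 237)) (XT.nd (nat_lit 78) (nat_lit 0) (nat_lit 0) (XT.lf (nat_lit 0) (nat_lit 33233641083) (nat_lit 152) (nat_lit 10484610615) (nat_lit 0) (nat_lit 26983166738) (nat_lit 5) (nat_lit 5) (nat_lit 7) (nat_lit 4) (nat_lit 5) (nat_lit 4) (nat_lit 386) (nat_lit 278) (nat_lit 236)) (XT.lf (nat_lit 0) (nat_lit 38675054596) (nat_lit 152) (nat_lit 2973212121) (nat_lit 0) (nat_lit 32380560761) (nat_lit 5) (nat_lit 5) (nat_lit 7) (nat_lit 4) (nat_lit 5) (nat_lit 4) (nat_lit 387) (nat_lit 278) (nat_lit 235))))))) (XT.nd (nat_lit 858) (nat_lit 152) (nat_lit 0) (XT.nd (nat_lit 390) (nat_lit 0) (nat_lit 0) (XT.nd (nat_lit 156) (nat_lit 0) (nat_lit 0) (XT.nd (nat_lit 78) (nat_lit 0) (nat_lit 0) (XT.lf (nat_lit 0) (nat_lit 4996776907) (nat_lit 76) (nat_lit 39430167015) (nat_lit 76) (nat_lit 33093749856) (nat_lit 4) (nat_lit 4) (nat_lit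 5) (nat_lit 5) (nat_lit 5) (nat_lit 4) (nat_lit 388) (nat_lit 278) (nat_lit 234)) (XT.lf (nat_lit 0) (nat_lit 13392821583) (nat_lit 76) (nat_lit 37085055111) (nat_lit 76) (nat_lit 30708710977) (nat_lit 4) (nat_lit 4) (nat_lit 5) (nat_lit 5) (nat_lit 5) (nat_lit 4) (nat_lit 389) (nat_lit 278) (nat_lit 233))) (XT.nd (nat_lit 78) (nat_lit 0) (nat_lit 0) (XT.lf (nat_lit 0) (nat_lit 22136604670) (nat_lit 76) (nat_lit 34657700192) (nat_lit 76) (nat_lit 28243330368) (nat_lit 4) (nat_lit 4) (nat_lit 5) (nat_lit 5) (nat_lit 5) (nat_lit 4) (nat_lit 390) (nat_lit 278) (nat_lit 232)) (XT.nd (nat_lit 78) (nat_lit 0) (nat_lit 0) (XT.lf (nat_lit 0) (nat_lit 31248944698) (nat_lit 76) (nat_lit 32142322841) (nat_lit 76) (nat_lit 25691738074) (nat_lit 4) (nat_lit 4) (nat_lit 5) (nat_lit 5) (nat_lit 5) (nat_lit 4) (nat_lit 391) (nat_lit 278) (nat_lit 231)) (XT.lf (nat_lit 0) (nat_lit 40751537715) (nat_lit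 76) (nat_lit 29532934065) (nat_lit 76) (nat_lit 23047858876) (nat_lit 4) (nat_lit 4) (nat_lit 5) (nat_lit 5) (nat_lit 5) (nat_lit 4) (nat_lit 392) (nat_lit 278) (nat_lit 230))))) (XT.nd (nat_lit 234) (nat_lit 0) (nat_lit 0) (XT.nd (nat_lit 78) (nat_lit 0) (nat_lit 0) (XT.lf (nat_lit 0) (nat_lit 50667008943) (nat_lit 76) (nat_lit 26823321034) (nat_lit 76) (nat_lit 20305397823) (nat_lit 4) (nat_lit 4) (nat_lit 5) (nat_lit 5) (nat_lit 5) (nat_lit 4) (nat_lit 393) (nat_lit 278) (nat_lit 229)) (XT.nd (nat_lit 78) (nat_lit 0) (nat_lit 0) (XT.lf (nat_lit 0) (nat_lit 61018966646) (nat_lit 76) (nat_lit 24007032286) (nat_lit 76) (nat_lit 17457825246) (nat_lit 4) (nat_lit 4) (nat_lit 5) (nat_lit 5) (nat_lit 5) (nat_lit 4) (nat_lit 394) (nat_lit 278) (nat_lit 228)) (XT.lf (nat_lit 0) (nat_lit 71832058343) (nat_lit 76) (nat_lit 21077362374) (nat_lit 76) (nat_lit 14498361210) (nat_lit 4) (nat_lit 4)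 (nat_lit 5) (nat_lit 5) (nat_lit 5) (nat_lit 4) (nat_lit 395) (nat_lit 278) (nat_lit 227)))) (XT.nd (nat_lit 78) (nat_lit 0) (nat_lit 0) (XT.lf (nat_lit 0) (nat_lit 83132029489) (nat_lit 76) (nat_lit 18027335893) (nat_lit 76) (nat_lit 11419959373) (nat_lit 4) (nat_lit 4) (nat_lit 5) (nat_lit 5) (nat_lit 5) (nat_lit 4) (nat_lit 396) (nat_lit 278) (nat_lit 226)) (XT.nd (nat_lit 78) (nat_lit 0) (nat_lit 0) (XT.lf (nat_lit 0) (nat_lit 94945784780) (nat_lit 76) (nat_lit 14849690874) (nat_lit 76) (nat_lit 8215290206) (nat_lit 4) (nat_lit 4) (nat_lit 5) (nat_lit 5) (nat_lit 5) (nat_lit 4) (nat_lit 397) (nat_lit 278) (nat_lit 225)) (XT.lf (nat_lit 0) (nat_lit 107301452202) (nat_lit 76) (nat_lit 11536861497) (nat_lit 76) (nat_lit 4876723545) (nat_lit 4) (nat_lit 4) (nat_lit 5) (nat_lit 5) (nat_lit 5) (nat_lit 4) (nat_lit 398) (nat_lit 278) (nat_lit 224)))))) (XT.nd (nat_lit 468) (nat_lit 0) (nat_lit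 0) (XT.nd (nat_lit 234) (nat_lit 0) (nat_lit 0) (XT.nd (nat_lit 78) (nat_lit 152) (nat_lit 0) (XT.lf (nat_lit 0) (nat_lit 120228450012) (nat_lit 76) (nat_lit 8080960072) (nat_lit 76) (nat_lit 1396310421) (nat_lit 4) (nat_lit 4) (nat_lit 5) (nat_lit 5) (nat_lit 5) (nat_lit 4) (nat_lit 399) (nat_lit 278) (nat_lit 223)) (XT.nd (nat_lit 78) (nat_lit 76) (nat_lit 0) (XT.lf (nat_lit 0) (nat_lit 2162726362) (nat_lit 152) (nat_lit 2274405083) (nat_lit 76) (nat_lit 131558203597) (nat_lit 3) (nat_lit 5) (nat_lit 5) (nat_lit 5) (nat_lit 4) (nat_lit 4) (nat_lit 400) (nat_lit 278) (nat_lit 222)) (XT.lf (nat_lit 0) (nat_lit 5395538247) (nat_lit 76) (nat_lit 519469171) (nat_lit 152) (nat_lit 136680171058) (nat_lit 2) (nat_lit 5) (nat_lit 3) (nat_lit 5) (nat_lit 4) (nat_lit 4) (nat_lit 401) (nat_lit 278) (nat_lit 221)))) (XT.nd (nat_lit 78) (nat_lit 0) (nat_lit 0) (XT.lf (nat_lit 0) (nat_lit 9928213335)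 (nat_lit 152) (nat_lit 136094831066) (nat_lit 0) (nat_lit 3498307537) (nat_lit 2) (nat_lit 5) (nat_lit 4) (nat_lit 4) (nat_lit 2) (nat_lit 4) (nat_lit 402) (nat_lit 278) (nat_lit 220)) (XT.nd (nat_lit 78) (nat_lit 0) (nat_lit 0) (XT.lf (nat_lit 0) (nat_lit 14129688399) (nat_lit 152) (nat_lit 134984191425) (nat_lit 0) (nat_lit 7680577044) (nat_lit 2) (nat_lit 5) (nat_lit 4) (nat_lit 4) (nat_lit 2) (nat_lit 4) (nat_lit 403) (nat_lit 278) (nat_lit 219)) (XT.lf (nat_lit 0) (nat_lit 18521325752) (nat_lit 152) (nat_lit 133856966557) (nat_lit 0) (nat_lit 12053923389) (nat_lit 2) (nat_lit 5) (nat_lit 4) (nat_lit 4) (nat_lit 2) (nat_lit 4) (nat_lit 404) (nat_lit 278) (nat_lit 218))))) (XT.nd (nat_lit 234) (nat_lit 0) (nat_lit 0) (XT.nd (nat_lit 78) (nat_lit 0) (nat_lit 0) (XT.lf (nat_lit 0) (nat_lit 23113581674) (nat_lit 152) (nat_lit 132710472594) (nat_lit 0) (nat_lit 16628759304) (nat_lit 2) (nat_lit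 5) (nat_lit 4) (nat_lit 4) (nat_lit 2) (nat_lit 4) (nat_lit 405) (nat_lit 278) (nat_lit 217)) (XT.nd (nat_lit 78) (nat_lit 0) (nat_lit 0) (XT.lf (nat_lit 0) (nat_lit 27917390106) (nat_lit 152) (nat_lit 131541979788) (nat_lit 0) (nat_lit 21415977254) (nat_lit 2) (nat_lit 5) (nat_lit 4) (nat_lit 4) (nat_lit 2) (nat_lit 4) (nat_lit 406) (nat_lit 278) (nat_lit 216)) (XT.lf (nat_lit 0) (nat_lit 32944188689) (nat_lit 152) (nat_lit 130348706013) (nat_lit 0) (nat_lit 26426975377) (nat_lit 2) (nat_lit 5) (nat_lit 4) (nat_lit 4) (nat_lit 2) (nat_lit 4) (nat_lit 407) (nat_lit 278) (nat_lit 215)))) (XT.nd (nat_lit 78) (nat_lit 0) (nat_lit 0) (XT.lf (nat_lit 0) (nat_lit 38205945991) (nat_lit 152) (nat_lit 129127810142) (nat_lit 0) (nat_lit 31673684621) (nat_lit 2) (nat_lit 5) (nat_lit 4) (nat_lit 4) (nat_lit 2) (nat_lit 4) (nat_lit 408) (nat_lit 278) (nat_lit 214)) (XT.nd (nat_lit 78) (nat_lit 0) (nat_lit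 0) (XT.lf (nat_lit 0) (nat_lit 43715190004) (nat_lit 152) (nat_lit 127876385279) (nat_lit 0) (nat_lit 37168597152) (nat_lit 2) (nat_lit 5) (nat_lit 4) (nat_lit 4) (nat_lit 2) (nat_lit 4) (nat_lit 409) (nat_lit 278) (nat_lit 213)) (XT.lf (nat_lit 0) (nat_lit 49485037977) (nat_lit 152) (nat_lit 126591451840) (nat_lit 0) (nat_lit 42924796093) (nat_lit 2) (nat_lit 5) (nat_lit 4) (nat_lit 4) (nat_lit 2) (nat_lit 4) (nat_lit 410) (nat_lit 278) (nat_lit 212))))))))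
noncomputable def xc47 : XT := (XT.nd (nat_lit 1794) (nat_lit 0) (nat_lit 0) (XT.nd (nat_lit 858) (nat_lit 0) (nat_lit 0) (XT.nd (nat_lit 390) (nat_lit 0) (nat_lit 0) (XT.nd (nat_lit 156) (nat_lit 0) (nat_lit 0) (XT.nd (nat_lit 78) (nat_lit 0) (nat_lit 0) (XT.lf (nat_lit 0) (nat_lit 55529227643) (nat_lit 152) (nat_lit 125269950462) (nat_lit 0) (nat_lit 48955986682) (nat_lit 2) (nat_lit 5) (nat_lit 4) (nat_lit 4) (nat_lit 2) (nat_lit 4) (nat_lit 411) (nat_lit 278) (nat_lit 211)) (XT.lf (nat_lit 0) (nat_lit 61862149929) (nat_lit 152) (nat_lit 123908734712) (nat_lit 0) (nat_lit 55276528894) (nat_lit 2) (nat_lit 5) (nat_lit 4) (nat_lit 4) (nat_lit 2) (nat_lit 4) (nat_lit 412) (nat_lit 278) (nat_lit 210))) (XT.nd (nat_lit 78) (nat_lit 0) (nat_lit 0) (XT.lf (nat_lit 0) (nat_lit 68498883222) (nat_lit 152) (nat_lit 122504563600) (nat_lit 0) (nat_lit 61901471641) (nat_lit 2) (nat_lit 5) (nat_lit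 4) (nat_lit 4) (nat_lit 2) (nat_lit 4) (nat_lit 413) (nat_lit 278) (nat_lit 209)) (XT.nd (nat_lit 78) (nat_lit 0) (nat_lit 0) (XT.lf (nat_lit 0) (nat_lit 75455229269) (nat_lit 152) (nat_lit 121054093862) (nat_lit 0) (nat_lit 68846588596) (nat_lit 2) (nat_lit 5) (nat_lit 4) (nat_lit 4) (nat_lit 2) (nat_lit 4) (nat_lit 414) (nat_lit 278) (nat_lit 208)) (XT.lf (nat_lit 0) (nat_lit 82747750796) (nat_lit 152) (nat_lit 119553871998) (nat_lit 0) (nat_lit 76128415751) (nat_lit 2) (nat_lit 5) (nat_lit 4) (nat_lit 4) (nat_lit 2) (nat_lit 4) (nat_lit 415) (nat_lit 278) (nat_lit 207))))) (XT.nd (nat_lit 234) (nat_lit 0) (nat_lit 0) (XT.nd (nat_lit 78) (nat_lit 0) (nat_lit 0) (XT.lf (nat_lit 0) (nat_lit 90393810952) (nat_lit 152) (nat_lit 118000326052) (nat_lit 0) (nat_lit 83764290789) (nat_lit 2) (nat_lit 5) (nat_lit 4) (nat_lit 4) (nat_lit 2) (nat_lit 4) (nat_lit 416) (nat_lit 278) (nat_lit 206))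 (XT.nd (nat_lit 78) (nat_lit 0) (nat_lit 0) (XT.lf (nat_lit 0) (nat_lit 98411614642) (nat_lit 152) (nat_lit 116389757104) (nat_lit 0) (nat_lit 91772394367) (nat_lit 2) (nat_lit 5) (nat_lit 4) (nat_lit 4) (nat_lit 2) (nat_lit 4) (nat_lit 417) (nat_lit 278) (nat_lit 205)) (XT.lf (nat_lit 0) (nat_lit 106820251873) (nat_lit 152) (nat_lit 114718330467) (nat_lit 0) (nat_lit 100171793397) (nat_lit 2) (nat_lit 5) (nat_lit 4) (nat_lit 4) (nat_lit 2) (nat_lit 4) (nat_lit 418) (nat_lit 278) (nat_lit 204)))) (XT.nd (nat_lit 78) (nat_lit 0) (nat_lit 0) (XT.lf (nat_lit 0) (nat_lit 115639743211) (nat_lit 152) (nat_lit 112982066553) (nat_lit 0) (nat_lit 108982486448) (nat_lit 2) (nat_lit 5) (nat_lit 4) (nat_lit 4) (nat_lit 2) (nat_lit 4) (nat_lit 419) (nat_lit 278) (nat_lit 203)) (XT.nd (nat_lit 78) (nat_lit 0) (nat_lit 0) (XT.lf (nat_lit 0) (nat_lit 124891087445) (nat_lit 152) (nat_lit 111176831400) (nat_lit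 0) (nat_lit 118225451360) (nat_lit 2) (nat_lit 5) (nat_lit 4) (nat_lit 4) (nat_lit 2) (nat_lit 4) (nat_lit 420) (nat_lit 278) (nat_lit 202)) (XT.lf (nat_lit 0) (nat_lit 134596311585) (nat_lit 152) (nat_lit 109298326830) (nat_lit 0) (nat_lit 127922695194) (nat_lit 2) (nat_lit 5) (nat_lit 4) (nat_lit 4) (nat_lit 2) (nat_lit 4) (nat_lit 421) (nat_lit 278) (nat_lit 201)))))) (XT.nd (nat_lit 468) (nat_lit 0) (nat_lit 0) (XT.nd (nat_lit 234) (nat_lit 0) (nat_lit 0) (XT.nd (nat_lit 78) (nat_lit 0) (nat_lit 0) (XT.lf (nat_lit 0) (nat_lit 144778523307) (nat_lit 152) (nat_lit 107342080214) (nat_lit 0) (nat_lit 138097306625) (nat_lit 2) (nat_lit 5) (nat_lit 4) (nat_lit 4) (nat_lit 2) (nat_lit 4) (nat_lit 422) (nat_lit 278) (nat_lit 200)) (XT.nd (nat_lit 78) (nat_lit 0) (nat_lit 0) (XT.lf (nat_lit 0) (nat_lit 155461965973) (nat_lit 152) (nat_lit 105303433819) (nat_lit 0) (nat_lit 148773510919) (nat_lit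 2) (nat_lit 5) (nat_lit 4) (nat_lit 4) (nat_lit 2) (nat_lit 4) (nat_lit 423) (nat_lit 278) (nat_lit 199)) (XT.lf (nat_lit 0) (nat_lit 166672076351) (nat_lit 152) (nat_lit 103177533728) (nat_lit 0) (nat_lit 159976727608) (nat_lit 2) (nat_lit 5) (nat_lit 4) (nat_lit 4) (nat_lit 2) (nat_lit 4) (nat_lit 424) (nat_lit 278) (nat_lit 198)))) (XT.nd (nat_lit 78) (nat_lit 0) (nat_lit 0) (XT.lf (nat_lit 0) (nat_lit 178435545180) (nat_lit 152) (nat_lit 100959318272) (nat_lit 0) (nat_lit 171733631019) (nat_lit 2) (nat_lit 5) (nat_lit 4) (nat_lit 4) (nat_lit 2) (nat_lit 4) (nat_lit 425) (nat_lit 278) (nat_lit 197)) (XT.nd (nat_lit 78) (nat_lit 0) (nat_lit 0) (XT.lf (nat_lit 0) (nat_lit 190780380718) (nat_lit 152) (nat_lit 98643505987) (nat_lit 0) (nat_lit 184072213779) (nat_lit 2) (nat_lit 5) (nat_lit 4) (nat_lit 4) (nat_lit 2) (nat_lit 4) (nat_lit 426) (nat_lit 278) (nat_lit 196)) (XT.lf (nat_lit 0)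 (nat_lit 203735975433) (nat_lit 152) (nat_lit 96224583034) (nat_lit 0) (nat_lit 197021853466) (nat_lit 2) (nat_lit 5) (nat_lit 4) (nat_lit 4) (nat_lit 2) (nat_lit 4) (nat_lit 427) (nat_lit 278) (nat_lit 195))))) (XT.nd (nat_lit 234) (nat_lit 0) (nat_lit 0) (XT.nd (nat_lit 78) (nat_lit 0) (nat_lit 0) (XT.lf (nat_lit 0) (nat_lit 217333175976) (nat_lit 152) (nat_lit 93696790072) (nat_lit 0) (nat_lit 210613382556) (nat_lit 2) (nat_lit 5) (nat_lit 4) (nat_lit 4) (nat_lit 2) (nat_lit 4) (nat_lit 428) (nat_lit 278) (nat_lit 194)) (XT.nd (nat_lit 78) (nat_lit 0) (nat_lit 0) (XT.lf (nat_lit 0) (nat_lit 231604356637) (nat_lit 152) (nat_lit 91054108546) (nat_lit 0) (nat_lit 224879161831) (nat_lit 2) (nat_lit 5) (nat_lit 4) (nat_lit 4) (nat_lit 2) (nat_lit 4) (nat_lit 429) (nat_lit 278) (nat_lit 193)) (XT.lf (nat_lit 0) (nat_lit 246583496416) (nat_lit 152) (nat_lit 88290246359) (nat_lit 0) (nat_lit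 239853157434) (nat_lit 2) (nat_lit 5) (nat_lit 4) (nat_lit 4) (nat_lit 2) (nat_lit 4) (nat_lit 430) (nat_lit 278) (nat_lit 192)))) (XT.nd (nat_lit 78) (nat_lit 0) (nat_lit 0) (XT.lf (nat_lit 0) (nat_lit 262306259931) (nat_lit 152) (nat_lit 85398622885) (nat_lit 0) (nat_lit 255571021734) (nat_lit 2) (nat_lit 5) (nat_lit 4) (nat_lit 4) (nat_lit 2) (nat_lit 4) (nat_lit 431) (nat_lit 278) (nat_lit 191)) (XT.nd (nat_lit 78) (nat_lit 0) (nat_lit 0) (XT.lf (nat_lit 0) (nat_lit 278810082335) (nat_lit 152) (nat_lit 82372353307) (nat_lit 0) (nat_lit 272070178217) (nat_lit 2) (nat_lit 5) (nat_lit 4) (nat_lit 4) (nat_lit 2) (nat_lit 4) (nat_lit 432) (nat_lit 278) (nat_lit 190)) (XT.lf (nat_lit 0) (nat_lit 296134258441) (nat_lit 152) (nat_lit 79204232220) (nat_lit 0) (nat_lit 289389910591) (nat_lit 2) (nat_lit 5) (nat_lit 4) (nat_lit 4) (nat_lit 2) (nat_lit 4) (nat_lit 433) (nat_lit 278) (nat_lit 189)))))))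 (XT.nd (nat_lit 40482) (nat_lit 0) (nat_lit 760) (XT.nd (nat_lit 40014) (nat_lit 0) (nat_lit 1368) (XT.nd (nat_lit 39780) (nat_lit 0) (nat_lit 1824) (XT.nd (nat_lit 39702) (nat_lit 0) (nat_lit 2128) (XT.lf (nat_lit 0) (nat_lit 314320036289) (nat_lit 152) (nat_lit 75886716481) (nat_lit 0) (nat_lit 307571456313) (nat_lit 2) (nat_lit 5) (nat_lit 4) (nat_lit 4) (nat_lit 2) (nat_lit 4) (nat_lit 434) (nat_lit 278) (nat_lit 188)) (XT.lf (nat_lit 0) (nat_lit 773702040) (nat_lit 152) (nat_lit 2780033828) (nat_lit 152) (nat_lit 2780033828) (nat_lit 30) (nat_lit 4) (nat_lit 32) (nat_lit 5) (nat_lit 32) (nat_lit 4) (nat_lit 342) (nat_lit 279) (nat_lit 279))) (XT.nd (nat_lit 78) (nat_lit 304) (nat_lit 0) (XT.lf (nat_lit 0) (nat_lit 10635193312) (nat_lit 152) (nat_lit 1466637351) (nat_lit 152) (nat_lit 936608807) (nat_lit 30) (nat_lit 4) (nat_lit 32) (nat_lit 5) (nat_lit 32) (nat_lit 4) (nat_lit 343)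 (nat_lit 279) (nat_lit 278)) (XT.nd (nat_lit 78) (nat_lit 152) (nat_lit 0) (XT.lf (nat_lit 0) (nat_lit 3774442405) (nat_lit 152) (nat_lit 6862471758) (nat_lit 0) (nat_lit 2788901801) (nat_lit 28) (nat_lit 5) (nat_lit 30) (nat_lit 4) (nat_lit 28) (nat_lit 4) (nat_lit 344) (nat_lit 279) (nat_lit 277)) (XT.lf (nat_lit 0) (nat_lit 1962960856) (nat_lit 152) (nat_lit 6657872932) (nat_lit 152) (nat_lit 5214473743) (nat_lit 26) (nat_lit 4) (nat_lit 28) (nat_lit 5) (nat_lit 28) (nat_lit 4) (nat_lit 345) (nat_lit 279) (nat_lit 276))))) (XT.nd (nat_lit 234) (nat_lit 152) (nat_lit 0) (XT.nd (nat_lit 78) (nat_lit 304) (nat_lit 0) (XT.lf (nat_lit 0) (nat_lit 11181633213) (nat_lit 152) (nat_lit 2482714390) (nat_lit 152) (nat_lit 603259407) (nat_lit 26) (nat_lit 4) (nat_lit 28) (nat_lit 5) (nat_lit 28) (nat_lit 4) (nat_lit 346) (nat_lit 279) (nat_lit 275)) (XT.nd (nat_lit 78) (nat_lit 152) (nat_lit 0)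 (XT.lf (nat_lit 0) (nat_lit 4070419586) (nat_lit 152) (nat_lit 8764534622) (nat_lit 0) (nat_lit 1884946999) (nat_lit 24) (nat_lit 5) (nat_lit 26) (nat_lit 4) (nat_lit 24) (nat_lit 4) (nat_lit 347) (nat_lit 279) (nat_lit 274)) (XT.lf (nat_lit 0) (nat_lit 34115243) (nat_lit 152) (nat_lit 8862725628) (nat_lit 152) (nat_lit 6300571649) (nat_lit 22) (nat_lit 4) (nat_lit 24) (nat_lit 5) (nat_lit 24) (nat_lit 4) (nat_lit 348) (nat_lit 279) (nat_lit 273)))) (XT.nd (nat_lit 78) (nat_lit 152) (nat_lit 0) (XT.lf (nat_lit 0) (nat_lit 9302241210) (nat_lit 152) (nat_lit 4658845804) (nat_lit 152) (nat_lit 1737947644) (nat_lit 22) (nat_lit 4) (nat_lit 24) (nat_lit 5) (nat_lit 24) (nat_lit 4) (nat_lit 349) (nat_lit 279) (nat_lit 272)) (XT.nd (nat_lit 78) (nat_lit 0) (nat_lit 0) (XT.lf (nat_lit 0) (nat_lit 2576251176) (nat_lit 76) (nat_lit 271949049) (nat_lit 152) (nat_lit 13380554287) (nat_lit 20) (nat_lit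 5) (nat_lit 21) (nat_lit 5) (nat_lit 22) (nat_lit 4) (nat_lit 350) (nat_lit 279) (nat_lit 271)) (XT.lf (nat_lit 0) (nat_lit 7636974807) (nat_lit 152) (nat_lit 4925148157) (nat_lit 0) (nat_lit 4219878775) (nat_lit 20) (nat_lit 5) (nat_lit 22) (nat_lit 4) (nat_lit 20) (nat_lit 4) (nat_lit 351) (nat_lit 279) (nat_lit 270)))))) (XT.nd (nat_lit 468) (nat_lit 304) (nat_lit 0) (XT.nd (nat_lit 234) (nat_lit 76) (nat_lit 0) (XT.nd (nat_lit 78) (nat_lit 152) (nat_lit 0) (XT.lf (nat_lit 0) (nat_lit 4110735964) (nat_lit 76) (nat_lit 8483991933) (nat_lit 76) (nat_lit 4771756175) (nat_lit 19) (nat_lit 4) (nat_lit 20) (nat_lit 5) (nat_lit 20) (nat_lit 4) (nat_lit 352) (nat_lit 279) (nat_lit 269)) (XT.nd (nat_lit 78) (nat_lit 152) (nat_lit 0) (XT.lf (nat_lit 0) (nat_lit 13518566552) (nat_lit 76) (nat_lit 4228820805) (nat_lit 76) (nat_lit 235499593) (nat_lit 19) (nat_lit 4) (nat_lit 20) (nat_lit 5) (nat_lit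 20) (nat_lit 4) (nat_lit 353) (nat_lit 279) (nat_lit 268)) (XT.lf (nat_lit 0) (nat_lit 4326740150) (nat_lit 152) (nat_lit 14034050038) (nat_lit 0) (nat_lit 268624299) (nat_lit 17) (nat_lit 5) (nat_lit 19) (nat_lit 4) (nat_lit 17) (nat_lit 4) (nat_lit 354) (nat_lit 279) (nat_lit 267)))) (XT.nd (nat_lit 78) (nat_lit 76) (nat_lit 0) (XT.lf (nat_lit 0) (nat_lit 9124114398) (nat_lit 152) (nat_lit 5360068679) (nat_lit 0) (nat_lit 4823186364) (nat_lit 17) (nat_lit 5) (nat_lit 19) (nat_lit 4) (nat_lit 17) (nat_lit 4) (nat_lit 355) (nat_lit 279) (nat_lit 266)) (XT.nd (nat_lit 78) (nat_lit 0) (nat_lit 0) (XT.lf (nat_lit 0) (nat_lit 3631282905) (nat_lit 76) (nat_lit 10461785199) (nat_lit 76) (nat_lit 5929607467) (nat_lit 16) (nat_lit 4) (nat_lit 17) (nat_lit 5) (nat_lit 17) (nat_lit 4) (nat_lit 356) (nat_lit 279) (nat_lit 265)) (XT.lf (nat_lit 0) (nat_lit 13029489828) (nat_lit 76) (nat_lit 6249150641)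 (nat_lit 76) (nat_lit 1496735101) (nat_lit 16) (nat_lit 4) (nat_lit 17) (nat_lit 5) (nat_lit 17) (nat_lit 4) (nat_lit 357) (nat_lit 279) (nat_lit 264))))) (XT.nd (nat_lit 234) (nat_lit 152) (nat_lit 0) (XT.nd (nat_lit 78) (nat_lit 0) (nat_lit 0) (XT.lf (nat_lit 0) (nat_lit 1095801921) (nat_lit 76) (nat_lit 1859304300) (nat_lit 152) (nat_lit 18613253215) (nat_lit 14) (nat_lit 5) (nat_lit 15) (nat_lit 5) (nat_lit 16) (nat_lit 4) (nat_lit 358) (nat_lit 279) (nat_lit 263)) (XT.nd (nat_lit 78) (nat_lit 0) (nat_lit 0) (XT.lf (nat_lit 0) (nat_lit 7637446917) (nat_lit 152) (nat_lit 12038115437) (nat_lit 0) (nat_lit 2721324996) (nat_lit 14) (nat_lit 5) (nat_lit 16) (nat_lit 4) (nat_lit 14) (nat_lit 4) (nat_lit 359) (nat_lit 279) (nat_lit 262)) (XT.lf (nat_lit 0) (nat_lit 12471947767) (nat_lit 152) (nat_lit 3424386612) (nat_lit 0) (nat_lit 7374635656) (nat_lit 14) (nat_lit 5) (nat_lit 16) (nat_lit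 4) (nat_lit 14) (nat_lit 4) (nat_lit 360) (nat_lit 279) (nat_lit 261)))) (XT.nd (nat_lit 78) (nat_lit 76) (nat_lit 0) (XT.lf (nat_lit 0) (nat_lit 5597315850) (nat_lit 76) (nat_lit 11931164472) (nat_lit 76) (nat_lit 6661290276) (nat_lit 13) (nat_lit 4) (nat_lit 14) (nat_lit 5) (nat_lit 14) (nat_lit 4) (nat_lit 361) (nat_lit 279) (nat_lit 260)) (XT.nd (nat_lit 78) (nat_lit 76) (nat_lit 0) (XT.lf (nat_lit 0) (nat_lit 14990384379) (nat_lit 76) (nat_lit 7800364048) (nat_lit 76) (nat_lit 2366145010) (nat_lit 13) (nat_lit 4) (nat_lit 14) (nat_lit 5) (nat_lit 14) (nat_lit 4) (nat_lit 362) (nat_lit 279) (nat_lit 259)) (XT.lf (nat_lit 0) (nat_lit 1973397005) (nat_lit 152) (nat_lit 1545274075) (nat_lit 76) (nat_lit 22657140296) (nat_lit 12) (nat_lit 5) (nat_lit 14) (nat_lit 5) (nat_lit 13) (nat_lit 4) (nat_lit 363) (nat_lit 279) (nat_lit 258))))))))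
noncomputable def xc48 : XT := (XT.nd (nat_lit 1716) (nat_lit 228) (nat_lit 0) (XT.nd (nat_lit 858) (nat_lit 228) (nat_lit 0) (XT.nd (nat_lit 390) (nat_lit 152) (nat_lit 0) (XT.nd (nat_lit 156) (nat_lit 76) (nat_lit 0) (XT.nd (nat_lit 78) (nat_lit 0) (nat_lit 0) (XT.lf (nat_lit 0) (nat_lit 6487461595) (nat_lit 152) (nat_lit 19733462883) (nat_lit 0) (nat_lit 1020982020) (nat_lit 11) (nat_lit 5) (nat_lit 13) (nat_lit 4) (nat_lit 11) (nat_lit 4) (nat_lit 364) (nat_lit 279) (nat_lit 257)) (XT.lf (nat_lit 0) (nat_lit 11215075475) (nat_lit 152) (nat_lit 11533472390) (nat_lit 0) (nat_lit 5613388990) (nat_lit 11) (nat_lit 5) (nat_lit 13) (nat_lit 4) (nat_lit 11) (nat_lit 4) (nat_lit 365) (nat_lit 279) (nat_lit 256))) (XT.nd (nat_lit 78) (nat_lit 76) (nat_lit 0) (XT.lf (nat_lit 0) (nat_lit 16087226189) (nat_lit 152) (nat_lit 3098585213) (nat_lit 0) (nat_lit 10356771220) (nat_lit 11) (nat_lit 5)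 (nat_lit 13) (nat_lit 4) (nat_lit 11) (nat_lit 4) (nat_lit 366) (nat_lit 279) (nat_lit 255)) (XT.nd (nat_lit 78) (nat_lit 0) (nat_lit 0) (XT.lf (nat_lit 0) (nat_lit 5776154736) (nat_lit 76) (nat_lit 15429541323) (nat_lit 76) (nat_lit 9576449701) (nat_lit 10) (nat_lit 4) (nat_lit 11) (nat_lit 5) (nat_lit 11) (nat_lit 4) (nat_lit 367) (nat_lit 279) (nat_lit 254)) (XT.lf (nat_lit 0) (nat_lit 15038132708) (nat_lit 76) (nat_lit 11508565998) (nat_lit 76) (nat_lit 5538677565) (nat_lit 10) (nat_lit 4) (nat_lit 11) (nat_lit 5) (nat_lit 11) (nat_lit 4) (nat_lit 368) (nat_lit 279) (nat_lit 253))))) (XT.nd (nat_lit 234) (nat_lit 0) (nat_lit 0) (XT.nd (nat_lit 78) (nat_lit 152) (nat_lit 0) (XT.lf (nat_lit 0) (nat_lit 24606947810) (nat_lit 76) (nat_lit 7466025814) (nat_lit 76) (nat_lit 1384902322) (nat_lit 10) (nat_lit 4) (nat_lit 11) (nat_lit 5) (nat_lit 11) (nat_lit 4) (nat_lit 369) (nat_lit 279) (nat_lit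 252)) (XT.nd (nat_lit 78) (nat_lit 76) (nat_lit 0) (XT.lf (nat_lit 0) (nat_lit 2802115379) (nat_lit 152) (nat_lit 442725114) (nat_lit 76) (nat_lit 31655812374) (nat_lit 9) (nat_lit 5) (nat_lit 11) (nat_lit 5) (nat_lit 10) (nat_lit 4) (nat_lit 370) (nat_lit 279) (nat_lit 251)) (XT.lf (nat_lit 0) (nat_lit 7229107702) (nat_lit 152) (nat_lit 27940904666) (nat_lit 0) (nat_lit 1240579016) (nat_lit 8) (nat_lit 5) (nat_lit 10) (nat_lit 4) (nat_lit 8) (nat_lit 4) (nat_lit 371) (nat_lit 279) (nat_lit 250)))) (XT.nd (nat_lit 78) (nat_lit 0) (nat_lit 0) (XT.lf (nat_lit 0) (nat_lit 11863172288) (nat_lit 152) (nat_lit 20350453584) (nat_lit 0) (nat_lit 5783130244) (nat_lit 8) (nat_lit 5) (nat_lit 10) (nat_lit 4) (nat_lit 8) (nat_lit 4) (nat_lit 372) (nat_lit 279) (nat_lit 249)) (XT.nd (nat_lit 78) (nat_lit 0) (nat_lit 0) (XT.lf (nat_lit 0) (nat_lit 16657423781) (nat_lit 152) (nat_lit 12518169646) (nat_lit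 0) (nat_lit 10490226157) (nat_lit 8) (nat_lit 5) (nat_lit 10) (nat_lit 4) (nat_lit 8) (nat_lit 4) (nat_lit 373) (nat_lit 279) (nat_lit 248)) (XT.lf (nat_lit 0) (nat_lit 21623277065) (nat_lit 152) (nat_lit 4425404559) (nat_lit 0) (nat_lit 15373074128) (nat_lit 8) (nat_lit 5) (nat_lit 10) (nat_lit 4) (nat_lit 8) (nat_lit 4) (nat_lit 374) (nat_lit 279) (nat_lit 247)))))) (XT.nd (nat_lit 390) (nat_lit 152) (nat_lit 0) (XT.nd (nat_lit 156) (nat_lit 0) (nat_lit 0) (XT.nd (nat_lit 78) (nat_lit 0) (nat_lit 0) (XT.lf (nat_lit 0) (nat_lit 4077619452) (nat_lit 76) (nat_lit 22758599216) (nat_lit 76) (nat_lit 16429343599) (nat_lit 7) (nat_lit 4) (nat_lit 8) (nat_lit 5) (nat_lit 8) (nat_lit 4) (nat_lit 375) (nat_lit 279) (nat_lit 246)) (XT.lf (nat_lit 0) (nat_lit 13036560435) (nat_lit 76) (nat_lit 19284496384) (nat_lit 76) (nat_lit 12879952501) (nat_lit 7) (nat_lit 4) (nat_lit 8) (nat_lit 5) (nat_lit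 8) (nat_lit 4) (nat_lit 376) (nat_lit 279) (nat_lit 245))) (XT.nd (nat_lit 78) (nat_lit 0) (nat_lit 0) (XT.lf (nat_lit 0) (nat_lit 22326425340) (nat_lit 76) (nat_lit 15693047824) (nat_lit 76) (nat_lit 9216800830) (nat_lit 7) (nat_lit 4) (nat_lit 8) (nat_lit 5) (nat_lit 8) (nat_lit 4) (nat_lit 377) (nat_lit 279) (nat_lit 244)) (XT.nd (nat_lit 78) (nat_lit 0) (nat_lit 0) (XT.lf (nat_lit 0) (nat_lit 31969332893) (nat_lit 76) (nat_lit 11975702467) (nat_lit 76) (nat_lit 5431166797) (nat_lit 7) (nat_lit 4) (nat_lit 8) (nat_lit 5) (nat_lit 8) (nat_lit 4) (nat_lit 378) (nat_lit 279) (nat_lit 243)) (XT.lf (nat_lit 0) (nat_lit 41988242396) (nat_lit 76) (nat_lit 8123609492) (nat_lit 76) (nat_lit 1514036987) (nat_lit 7) (nat_lit 4) (nat_lit 8) (nat_lit 5) (nat_lit 8) (nat_lit 4) (nat_lit 379) (nat_lit 279) (nat_lit 242))))) (XT.nd (nat_lit 234) (nat_lit 0) (nat_lit 0) (XT.nd (nat_lit 78) (nat_lit 76)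 (nat_lit 0) (XT.lf (nat_lit 0) (nat_lit 2462493928) (nat_lit 152) (nat_lit 1623399793) (nat_lit 76) (nat_lit 49902810943) (nat_lit 6) (nat_lit 5) (nat_lit 8) (nat_lit 5) (nat_lit 7) (nat_lit 4) (nat_lit 380) (nat_lit 279) (nat_lit 241)) (XT.nd (nat_lit 78) (nat_lit 0) (nat_lit 0) (XT.lf (nat_lit 0) (nat_lit 6647627417) (nat_lit 152) (nat_lit 49580144530) (nat_lit 0) (nat_lit 237624869) (nat_lit 5) (nat_lit 5) (nat_lit 7) (nat_lit 4) (nat_lit 5) (nat_lit 4) (nat_lit 381) (nat_lit 279) (nat_lit 240)) (XT.lf (nat_lit 0) (nat_lit 11086391545) (nat_lit 152) (nat_lit 43354439316) (nat_lit 0) (nat_lit 4622883032) (nat_lit 5) (nat_lit 5) (nat_lit 7) (nat_lit 4) (nat_lit 5) (nat_lit 4) (nat_lit 382) (nat_lit 279) (nat_lit 239)))) (XT.nd (nat_lit 78) (nat_lit 0) (nat_lit 0) (XT.lf (nat_lit 0) (nat_lit 15698949435) (nat_lit 152) (nat_lit 36910930337) (nat_lit 0) (nat_lit 9184482860) (nat_lit 5) (nat_lit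 5) (nat_lit 7) (nat_lit 4) (nat_lit 5) (nat_lit 4) (nat_lit 383) (nat_lit 279) (nat_lit 238)) (XT.nd (nat_lit 78) (nat_lit 0) (nat_lit 0) (XT.lf (nat_lit 0) (nat_lit 20496283368) (nat_lit 152) (nat_lit 30234275905) (nat_lit 0) (nat_lit 13933285306) (nat_lit 5) (nat_lit 5) (nat_lit 7) (nat_lit 4) (nat_lit 5) (nat_lit 4) (nat_lit 384) (nat_lit 279) (nat_lit 237)) (XT.lf (nat_lit 0) (nat_lit 25489815568) (nat_lit 152) (nat_lit 23308579223) (nat_lit 0) (nat_lit 18880597041) (nat_lit 5) (nat_lit 5) (nat_lit 7) (nat_lit 4) (nat_lit 5) (nat_lit 4) (nat_lit 385) (nat_lit 279) (nat_lit 236))))))) (XT.nd (nat_lit 858) (nat_lit 152) (nat_lit 0) (XT.nd (nat_lit 390) (nat_lit 0) (nat_lit 0) (XT.nd (nat_lit 156) (nat_lit 76) (nat_lit 0) (XT.nd (nat_lit 78) (nat_lit 0) (nat_lit 0) (XT.lf (nat_lit 0) (nat_lit 30691435397) (nat_lit 152) (nat_lit 16117350538) (nat_lit 0) (nat_lit 24038197381) (nat_lit 5)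 (nat_lit 5) (nat_lit 7) (nat_lit 4) (nat_lit 5) (nat_lit 4) (nat_lit 386) (nat_lit 279) (nat_lit 235)) (XT.lf (nat_lit 0) (nat_lit 36113527665) (nat_lit 152) (nat_lit 8643467876) (nat_lit 0) (nat_lit 29418366324) (nat_lit 5) (nat_lit 5) (nat_lit 7) (nat_lit 4) (nat_lit 5) (nat_lit 4) (nat_lit 387) (nat_lit 279) (nat_lit 234))) (XT.nd (nat_lit 78) (nat_lit 76) (nat_lit 0) (XT.lf (nat_lit 0) (nat_lit 41769002114) (nat_lit 152) (nat_lit 869136279) (nat_lit 0) (nat_lit 35033913798) (nat_lit 5) (nat_lit 5) (nat_lit 7) (nat_lit 4) (nat_lit 5) (nat_lit 4) (nat_lit 388) (nat_lit 279) (nat_lit 233)) (XT.nd (nat_lit 78) (nat_lit 0) (nat_lit 0) (XT.lf (nat_lit 0) (nat_lit 7463017741) (nat_lit 76) (nat_lit 40324825040) (nat_lit 76) (nat_lit 33551711034) (nat_lit 4) (nat_lit 4) (nat_lit 5) (nat_lit 5) (nat_lit 5) (nat_lit 4) (nat_lit 389) (nat_lit 279) (nat_lit 232)) (XT.lf (nat_lit 0) (nat_lit 16173321700)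 (nat_lit 76) (nat_lit 37913736128) (nat_lit 76) (nat_lit 31104407179) (nat_lit 4) (nat_lit 4) (nat_lit 5) (nat_lit 5) (nat_lit 5) (nat_lit 4) (nat_lit 390) (nat_lit 279) (nat_lit 231))))) (XT.nd (nat_lit 234) (nat_lit 0) (nat_lit 0) (XT.nd (nat_lit 78) (nat_lit 0) (nat_lit 0) (XT.lf (nat_lit 0) (nat_lit 25253776844) (nat_lit 76) (nat_lit 35413850213) (nat_lit 76) (nat_lit 28570030841) (nat_lit 4) (nat_lit 4) (nat_lit 5) (nat_lit 5) (nat_lit 5) (nat_lit 4) (nat_lit 391) (nat_lit 279) (nat_lit 230)) (XT.nd (nat_lit 78) (nat_lit 0) (nat_lit 0) (XT.lf (nat_lit 0) (nat_lit 34726003304) (nat_lit 76) (nat_lit 32819215184) (nat_lit 76) (nat_lit 25942547792) (nat_lit 4) (nat_lit 4) (nat_lit 5) (nat_lit 5) (nat_lit 5) (nat_lit 4) (nat_lit 392) (nat_lit 279) (nat_lit 229)) (XT.lf (nat_lit 0) (nat_lit 44612554002) (nat_lit 76) (nat_lit 30123653341) (nat_lit 76) (nat_lit 23215702119) (nat_lit 4) (nat_lit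 4) (nat_lit 5) (nat_lit 5) (nat_lit 5) (nat_lit 4) (nat_lit 393) (nat_lit 279) (nat_lit 228)))) (XT.nd (nat_lit 78) (nat_lit 0) (nat_lit 0) (XT.lf (nat_lit 0) (nat_lit 54936968344) (nat_lit 76) (nat_lit 27320746678) (nat_lit 76) (nat_lit 20383001332) (nat_lit 4) (nat_lit 4) (nat_lit 5) (nat_lit 5) (nat_lit 5) (nat_lit 4) (nat_lit 394) (nat_lit 279) (nat_lit 227)) (XT.nd (nat_lit 78) (nat_lit 0) (nat_lit 0) (XT.lf (nat_lit 0) (nat_lit 65723828267) (nat_lit 76) (nat_lit 24403821608) (nat_lit 76) (nat_lit 17437700906) (nat_lit 4) (nat_lit 4) (nat_lit 5) (nat_lit 5) (nat_lit 5) (nat_lit 4) (nat_lit 395) (nat_lit 279) (nat_lit 226)) (XT.lf (nat_lit 0) (nat_lit 76998816773) (nat_lit 76) (nat_lit 21365933071) (nat_lit 76) (nat_lit 14372788222) (nat_lit 4) (nat_lit 4) (nat_lit 5) (nat_lit 5) (nat_lit 5) (nat_lit 4) (nat_lit 396) (nat_lit 279) (nat_lit 225)))))) (XT.nd (nat_lit 468) (nat_lit 0)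 (nat_lit 0) (XT.nd (nat_lit 234) (nat_lit 152) (nat_lit 0) (XT.nd (nat_lit 78) (nat_lit 0) (nat_lit 0) (XT.lf (nat_lit 0) (nat_lit 88788779072) (nat_lit 76) (nat_lit 18199848000) (nat_lit 76) (nat_lit 11180965866) (nat_lit 4) (nat_lit 4) (nat_lit 5) (nat_lit 5) (nat_lit 5) (nat_lit 4) (nat_lit 397) (nat_lit 279) (nat_lit 224)) (XT.nd (nat_lit 78) (nat_lit 0) (nat_lit 0) (XT.lf (nat_lit 0) (nat_lit 101121786503) (nat_lit 76) (nat_lit 14898028097) (nat_lit 76) (nat_lit 7854634264) (nat_lit 4) (nat_lit 4) (nat_lit 5) (nat_lit 5) (nat_lit 5) (nat_lit 4) (nat_lit 398) (nat_lit 279) (nat_lit 223)) (XT.lf (nat_lit 0) (nat_lit 114027203368) (nat_lit 76) (nat_lit 11452611885) (nat_lit 76) (nat_lit 4385873577) (nat_lit 4) (nat_lit 4) (nat_lit 5) (nat_lit 5) (nat_lit 5) (nat_lit 4) (nat_lit 399) (nat_lit 279) (nat_lit 222)))) (XT.nd (nat_lit 78) (nat_lit 152) (nat_lit 0) (XT.lf (nat_lit 0) (nat_lit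 127535756852) (nat_lit 76) (nat_lit 7855395993) (nat_lit 76) (nat_lit 766424851) (nat_lit 4) (nat_lit 4) (nat_lit 5) (nat_lit 5) (nat_lit 5) (nat_lit 4) (nat_lit 400) (nat_lit 279) (nat_lit 221)) (XT.nd (nat_lit 78) (nat_lit 76) (nat_lit 0) (XT.lf (nat_lit 0) (nat_lit 2915916286) (nat_lit 152) (nat_lit 1132516882) (nat_lit 76) (nat_lit 138714311437) (nat_lit 3) (nat_lit 5) (nat_lit 5) (nat_lit 5) (nat_lit 4) (nat_lit 4) (nat_lit 401) (nat_lit 279) (nat_lit 220)) (XT.lf (nat_lit 0) (nat_lit 6845260780) (nat_lit 152) (nat_lit 142793363638) (nat_lit 0) (nat_lit 54488299) (nat_lit 2) (nat_lit 5) (nat_lit 4) (nat_lit 4) (nat_lit 2) (nat_lit 4) (nat_lit 402) (nat_lit 279) (nat_lit 219))))) (XT.nd (nat_lit 234) (nat_lit 0) (nat_lit 0) (XT.nd (nat_lit 78) (nat_lit 0) (nat_lit 0) (XT.lf (nat_lit 0) (nat_lit 11037022935) (nat_lit 152) (nat_lit 141701722414) (nat_lit 0) (nat_lit 4227959446) (nat_lit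 2) (nat_lit 5) (nat_lit 4) (nat_lit 4) (nat_lit 2) (nat_lit 4) (nat_lit 403) (nat_lit 279) (nat_lit 218)) (XT.nd (nat_lit 78) (nat_lit 0) (nat_lit 0) (XT.lf (nat_lit 0) (nat_lit 15419409898) (nat_lit 152) (nat_lit 140592591277) (nat_lit 0) (nat_lit 8592926403) (nat_lit 2) (nat_lit 5) (nat_lit 4) (nat_lit 4) (nat_lit 2) (nat_lit 4) (nat_lit 404) (nat_lit 279) (nat_lit 217)) (XT.lf (nat_lit 0) (nat_lit 20002855924) (nat_lit 152) (nat_lit 139463329439) (nat_lit 0) (nat_lit 13159781946) (nat_lit 2) (nat_lit 5) (nat_lit 4) (nat_lit 4) (nat_lit 2) (nat_lit 4) (nat_lit 405) (nat_lit 279) (nat_lit 216)))) (XT.nd (nat_lit 78) (nat_lit 0) (nat_lit 0) (XT.lf (nat_lit 0) (nat_lit 24798273981) (nat_lit 152) (nat_lit 138311248180) (nat_lit 0) (nat_lit 17939399543) (nat_lit 2) (nat_lit 5) (nat_lit 4) (nat_lit 4) (nat_lit 2) (nat_lit 4) (nat_lit 406) (nat_lit 279) (nat_lit 215)) (XT.nd (nat_lit 78) (nat_lit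 0) (nat_lit 0) (XT.lf (nat_lit 0) (nat_lit 29817081729) (nat_lit 152) (nat_lit 137133604450) (nat_lit 0) (nat_lit 22943159234) (nat_lit 2) (nat_lit 5) (nat_lit 4) (nat_lit 4) (nat_lit 2) (nat_lit 4) (nat_lit 407) (nat_lit 279) (nat_lit 214)) (XT.lf (nat_lit 0) (nat_lit 35071228712) (nat_lit 152) (nat_lit 135927594335) (nat_lit 0) (nat_lit 28182974734) (nat_lit 2) (nat_lit 5) (nat_lit 4) (nat_lit 4) (nat_lit 2) (nat_lit 4) (nat_lit 408) (nat_lit 279) (nat_lit 213))))))))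
noncomputable def xc49 : XT := (XT.nd (nat_lit 1716) (nat_lit 0) (nat_lit 0) (XT.nd (nat_lit 858) (nat_lit 0) (nat_lit 0) (XT.nd (nat_lit 390) (nat_lit 0) (nat_lit 0) (XT.nd (nat_lit 156) (nat_lit 0) (nat_lit 0) (XT.nd (nat_lit 78) (nat_lit 0) (nat_lit 0) (XT.lf (nat_lit 0) (nat_lit 40573224803) (nat_lit 152) (nat_lit 134690346383) (nat_lit 0) (nat_lit 33671321794) (nat_lit 2) (nat_lit 5) (nat_lit 4) (nat_lit 4) (nat_lit 2) (nat_lit 4) (nat_lit 409) (nat_lit 279) (nat_lit 212)) (XT.lf (nat_lit 0) (nat_lit 46336169992) (nat_lit 152) (nat_lit 133418914766) (nat_lit 0) (nat_lit 39421267906) (nat_lit 2) (nat_lit 5) (nat_lit 4) (nat_lit 4) (nat_lit 2) (nat_lit 4) (nat_lit 410) (nat_lit 279) (nat_lit 211))) (XT.nd (nat_lit 78) (nat_lit 0) (nat_lit 0) (XT.lf (nat_lit 0) (nat_lit 52373785579) (nat_lit 152) (nat_lit 132110272264) (nat_lit 0) (nat_lit 45446503419) (nat_lit 2) (nat_lit 5) (nat_lit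 4) (nat_lit 4) (nat_lit 2) (nat_lit 4) (nat_lit 411) (nat_lit 279) (nat_lit 210)) (XT.nd (nat_lit 78) (nat_lit 0) (nat_lit 0) (XT.lf (nat_lit 0) (nat_lit 58700446837) (nat_lit 152) (nat_lit 130761303063) (nat_lit 0) (nat_lit 51761374131) (nat_lit 2) (nat_lit 5) (nat_lit 4) (nat_lit 4) (nat_lit 2) (nat_lit 4) (nat_lit 412) (nat_lit 279) (nat_lit 209)) (XT.lf (nat_lit 0) (nat_lit 65331217247) (nat_lit 152) (nat_lit 129368795331) (nat_lit 0) (nat_lit 58380915448) (nat_lit 2) (nat_lit 5) (nat_lit 4) (nat_lit 4) (nat_lit 2) (nat_lit 4) (nat_lit 413) (nat_lit 279) (nat_lit 208))))) (XT.nd (nat_lit 234) (nat_lit 0) (nat_lit 0) (XT.nd (nat_lit 78) (nat_lit 0) (nat_lit 0) (XT.lf (nat_lit 0) (nat_lit 72281884356) (nat_lit 152) (nat_lit 127929433574) (nat_lit 0) (nat_lit 65320888185) (nat_lit 2) (nat_lit 5) (nat_lit 4) (nat_lit 4) (nat_lit 2) (nat_lit 4) (nat_lit 414) (nat_lit 279) (nat_lit 207))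 (XT.nd (nat_lit 78) (nat_lit 0) (nat_lit 0) (XT.lf (nat_lit 0) (nat_lit 79568997373) (nat_lit 152) (nat_lit 126439790740) (nat_lit 0) (nat_lit 72597816084) (nat_lit 2) (nat_lit 5) (nat_lit 4) (nat_lit 4) (nat_lit 2) (nat_lit 4) (nat_lit 415) (nat_lit 279) (nat_lit 206)) (XT.lf (nat_lit 0) (nat_lit 87209906565) (nat_lit 152) (nat_lit 124896320060) (nat_lit 0) (nat_lit 80229025165) (nat_lit 2) (nat_lit 5) (nat_lit 4) (nat_lit 4) (nat_lit 2) (nat_lit 4) (nat_lit 416) (nat_lit 279) (nat_lit 205)))) (XT.nd (nat_lit 78) (nat_lit 0) (nat_lit 0) (XT.lf (nat_lit 0) (nat_lit 95222804576) (nat_lit 152) (nat_lit 123295346604) (nat_lit 0) (nat_lit 88232684974) (nat_lit 2) (nat_lit 5) (nat_lit 4) (nat_lit 4) (nat_lit 2) (nat_lit 4) (nat_lit 417) (nat_lit 279) (nat_lit 204)) (XT.nd (nat_lit 78) (nat_lit 0) (nat_lit 0) (XT.lf (nat_lit 0) (nat_lit 103626769731) (nat_lit 152) (nat_lit 121633058530) (nat_lit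 0) (nat_lit 96627851842) (nat_lit 2) (nat_lit 5) (nat_lit 4) (nat_lit 4) (nat_lit 2) (nat_lit 4) (nat_lit 418) (nat_lit 279) (nat_lit 203)) (XT.lf (nat_lit 0) (nat_lit 112441811474) (nat_lit 152) (nat_lit 119905498010) (nat_lit 0) (nat_lit 105434514264) (nat_lit 2) (nat_lit 5) (nat_lit 4) (nat_lit 4) (nat_lit 2) (nat_lit 4) (nat_lit 419) (nat_lit 279) (nat_lit 202)))))) (XT.nd (nat_lit 390) (nat_lit 0) (nat_lit 0) (XT.nd (nat_lit 156) (nat_lit 0) (nat_lit 0) (XT.nd (nat_lit 78) (nat_lit 0) (nat_lit 0) (XT.lf (nat_lit 0) (nat_lit 121688917998) (nat_lit 152) (nat_lit 118108551804) (nat_lit 0) (nat_lit 114673640482) (nat_lit 2) (nat_lit 5) (nat_lit 4) (nat_lit 4) (nat_lit 2) (nat_lit 4) (nat_lit 420) (nat_lit 279) (nat_lit 201)) (XT.lf (nat_lit 0) (nat_lit 131390106223) (nat_lit 152) (nat_lit 116237941469) (nat_lit 0) (nat_lit 124367228416) (nat_lit 2) (nat_lit 5) (nat_lit 4) (nat_lit 4) (nat_lit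 2) (nat_lit 4) (nat_lit 421) (nat_lit 279) (nat_lit 200))) (XT.nd (nat_lit 78) (nat_lit 0) (nat_lit 0) (XT.lf (nat_lit 0) (nat_lit 141568474217) (nat_lit 152) (nat_lit 114289213171) (nat_lit 0) (nat_lit 134538358037) (nat_lit 2) (nat_lit 5) (nat_lit 4) (nat_lit 4) (nat_lit 2) (nat_lit 4) (nat_lit 422) (nat_lit 279) (nat_lit 199)) (XT.nd (nat_lit 78) (nat_lit 0) (nat_lit 0) (XT.lf (nat_lit 0) (nat_lit 152248256190) (nat_lit 152) (nat_lit 112257727080) (nat_lit 0) (nat_lit 145211246321) (nat_lit 2) (nat_lit 5) (nat_lit 4) (nat_lit 4) (nat_lit 2) (nat_lit 4) (nat_lit 423) (nat_lit 279) (nat_lit 198)) (XT.lf (nat_lit 0) (nat_lit 163454880193) (nat_lit 152) (nat_lit 110138646325) (nat_lit 0) (nat_lit 156411304907) (nat_lit 2) (nat_lit 5) (nat_lit 4) (nat_lit 4) (nat_lit 2) (nat_lit 4) (nat_lit 424) (nat_lit 279) (nat_lit 197))))) (XT.nd (nat_lit 234) (nat_lit 0) (nat_lit 0) (XT.nd (nat_lit 78)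 (nat_lit 0) (nat_lit 0) (XT.lf (nat_lit 0) (nat_lit 175215028665) (nat_lit 152) (nat_lit 107926925476) (nat_lit 0) (nat_lit 168165200600) (nat_lit 2) (nat_lit 5) (nat_lit 4) (nat_lit 4) (nat_lit 2) (nat_lit 4) (nat_lit 425) (nat_lit 279) (nat_lit 196)) (XT.nd (nat_lit 78) (nat_lit 0) (nat_lit 0) (XT.lf (nat_lit 0) (nat_lit 187556701959) (nat_lit 152) (nat_lit 105617298531) (nat_lit 0) (nat_lit 180500918867) (nat_lit 2) (nat_lit 5) (nat_lit 4) (nat_lit 4) (nat_lit 2) (nat_lit 4) (nat_lit 426) (nat_lit 279) (nat_lit 195)) (XT.lf (nat_lit 0) (nat_lit 200509285012) (nat_lit 152) (nat_lit 103204266377) (nat_lit 0) (nat_lit 193447830466) (nat_lit 2) (nat_lit 5) (nat_lit 4) (nat_lit 4) (nat_lit 2) (nat_lit 4) (nat_lit 427) (nat_lit 279) (nat_lit 194)))) (XT.nd (nat_lit 78) (nat_lit 0) (nat_lit 0) (XT.lf (nat_lit 0) (nat_lit 214103617307) (nat_lit 152) (nat_lit 100682083700) (nat_lit 0) (nat_lit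 207036761375) (nat_lit 2) (nat_lit 5) (nat_lit 4) (nat_lit 4) (nat_lit 2) (nat_lit 4) (nat_lit 428) (nat_lit 279) (nat_lit 193)) (XT.nd (nat_lit 78) (nat_lit 0) (nat_lit 0) (XT.lf (nat_lit 0) (nat_lit 228372066301) (nat_lit 152) (nat_lit 98044745303) (nat_lit 0) (nat_lit 221300066194) (nat_lit 2) (nat_lit 5) (nat_lit 4) (nat_lit 4) (nat_lit 2) (nat_lit 4) (nat_lit 429) (nat_lit 279) (nat_lit 192)) (XT.lf (nat_lit 0) (nat_lit 243348604494) (nat_lit 152) (nat_lit 95285971810) (nat_lit 0) (nat_lit 236271705170) (nat_lit 2) (nat_lit 5) (nat_lit 4) (nat_lit 4) (nat_lit 2) (nat_lit 4) (nat_lit 430) (nat_lit 279) (nat_lit 191))))))) (XT.nd (nat_lit 40326) (nat_lit 0) (nat_lit 988) (XT.nd (nat_lit 39858) (nat_lit 0) (nat_lit 1824) (XT.nd (nat_lit 156) (nat_lit 0) (nat_lit 0) (XT.nd (nat_lit 78) (nat_lit 0) (nat_lit 0) (XT.lf (nat_lit 0) (nat_lit 259068890308) (nat_lit 152) (nat_lit 92399194711)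 (nat_lit 0) (nat_lit 251987325065) (nat_lit 2) (nat_lit 5) (nat_lit 4) (nat_lit 4) (nat_lit 2) (nat_lit 4) (nat_lit 431) (nat_lit 279) (nat_lit 190)) (XT.lf (nat_lit 0) (nat_lit 275570352995) (nat_lit 152) (nat_lit 89377540729) (nat_lit 0) (nat_lit 268484344020) (nat_lit 2) (nat_lit 5) (nat_lit 4) (nat_lit 4) (nat_lit 2) (nat_lit 4) (nat_lit 432) (nat_lit 279) (nat_lit 189))) (XT.nd (nat_lit 78) (nat_lit 0) (nat_lit 0) (XT.lf (nat_lit 0) (nat_lit 292892281754) (nat_lit 152) (nat_lit 86213815448) (nat_lit 0) (nat_lit 285802040652) (nat_lit 2) (nat_lit 5) (nat_lit 4) (nat_lit 4) (nat_lit 2) (nat_lit 4) (nat_lit 433) (nat_lit 279) (nat_lit 188)) (XT.nd (nat_lit 39546) (nat_lit 0) (nat_lit 2432) (XT.lf (nat_lit 0) (nat_lit 311075919271) (nat_lit 152) (nat_lit 82900486189) (nat_lit 0) (nat_lit 303981647572) (nat_lit 2) (nat_lit 5) (nat_lit 4) (nat_lit 4) (nat_lit 2) (nat_lit 4) (nat_lit 434)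 (nat_lit 279) (nat_lit 187)) (XT.lf (nat_lit 0) (nat_lit 4243499708) (nat_lit 152) (nat_lit 873283991) (nat_lit 152) (nat_lit 873283991) (nat_lit 34) (nat_lit 4) (nat_lit 36) (nat_lit 5) (nat_lit 36) (nat_lit 4) (nat_lit 340) (nat_lit 280) (nat_lit 280))))) (XT.nd (nat_lit 234) (nat_lit 304) (nat_lit 0) (XT.nd (nat_lit 78) (nat_lit 152) (nat_lit 0) (XT.lf (nat_lit 0) (nat_lit 2859262562) (nat_lit 152) (nat_lit 7154801468) (nat_lit 0) (nat_lit 2302732591) (nat_lit 32) (nat_lit 5) (nat_lit 34) (nat_lit 4) (nat_lit 32) (nat_lit 4) (nat_lit 341) (nat_lit 280) (nat_lit 279)) (XT.nd (nat_lit 78) (nat_lit 0) (nat_lit 0) (XT.lf (nat_lit 0) (nat_lit 1402074741) (nat_lit 152) (nat_lit 6178128332) (nat_lit 152) (nat_lit 5091569816) (nat_lit 30) (nat_lit 4) (nat_lit 32) (nat_lit 5) (nat_lit 32) (nat_lit 4) (nat_lit 342) (nat_lit 280) (nat_lit 278)) (XT.lf (nat_lit 0) (nat_lit 10351455079) (nat_lit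 152) (nat_lit 2143298699) (nat_lit 152) (nat_lit 551951094) (nat_lit 30) (nat_lit 4) (nat_lit 32) (nat_lit 5) (nat_lit 32) (nat_lit 4) (nat_lit 343) (nat_lit 280) (nat_lit 277)))) (XT.nd (nat_lit 78) (nat_lit 152) (nat_lit 0) (XT.lf (nat_lit 0) (nat_lit 4051049778) (nat_lit 152) (nat_lit 7309933841) (nat_lit 0) (nat_lit 2077622046) (nat_lit 28) (nat_lit 5) (nat_lit 30) (nat_lit 4) (nat_lit 28) (nat_lit 4) (nat_lit 344) (nat_lit 280) (nat_lit 276)) (XT.nd (nat_lit 78) (nat_lit 0) (nat_lit 0) (XT.lf (nat_lit 0) (nat_lit 1361054186) (nat_lit 152) (nat_lit 7450430129) (nat_lit 152) (nat_lit 5040946602) (nat_lit 26) (nat_lit 4) (nat_lit 28) (nat_lit 5) (nat_lit 28) (nat_lit 4) (nat_lit 345) (nat_lit 280) (nat_lit 275)) (XT.lf (nat_lit 0) (nat_lit 10446727048) (nat_lit 152) (nat_lit 3333280877) (nat_lit 152) (nat_lit 508506116) (nat_lit 26) (nat_lit 4) (nat_lit 28) (nat_lit 5) (nat_lit 28) (nat_lit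 4) (nat_lit 346) (nat_lit 280) (nat_lit 274)))))) (XT.nd (nat_lit 468) (nat_lit 304) (nat_lit 0) (XT.nd (nat_lit 234) (nat_lit 228) (nat_lit 0) (XT.nd (nat_lit 78) (nat_lit 152) (nat_lit 0) (XT.lf (nat_lit 0) (nat_lit 4060850425) (nat_lit 152) (nat_lit 9691071938) (nat_lit 0) (nat_lit 993907357) (nat_lit 24) (nat_lit 5) (nat_lit 26) (nat_lit 4) (nat_lit 24) (nat_lit 4) (nat_lit 347) (nat_lit 280) (nat_lit 273)) (XT.nd (nat_lit 78) (nat_lit 152) (nat_lit 0) (XT.lf (nat_lit 0) (nat_lit 8814720364) (nat_lit 152) (nat_lit 1023244610) (nat_lit 0) (nat_lit 5389033114) (nat_lit 24) (nat_lit 5) (nat_lit 26) (nat_lit 4) (nat_lit 24) (nat_lit 4) (nat_lit 348) (nat_lit 280) (nat_lit 272)) (XT.lf (nat_lit 0) (nat_lit 8083410060) (nat_lit 152) (nat_lit 5708470462) (nat_lit 152) (nat_lit 1941122087) (nat_lit 22) (nat_lit 4) (nat_lit 24) (nat_lit 5) (nat_lit 24) (nat_lit 4) (nat_lit 349) (nat_lit 280)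 (nat_lit 271)))) (XT.nd (nat_lit 78) (nat_lit 76) (nat_lit 0) (XT.lf (nat_lit 0) (nat_lit 1157365398) (nat_lit 76) (nat_lit 1403661587) (nat_lit 152) (nat_lit 13706404638) (nat_lit 20) (nat_lit 5) (nat_lit 21) (nat_lit 5) (nat_lit 22) (nat_lit 4) (nat_lit 350) (nat_lit 280) (nat_lit 270)) (XT.nd (nat_lit 78) (nat_lit 76) (nat_lit 0) (XT.lf (nat_lit 0) (nat_lit 7264279432) (nat_lit 152) (nat_lit 6489407626) (nat_lit 0) (nat_lit 3071292160) (nat_lit 20) (nat_lit 5) (nat_lit 22) (nat_lit 4) (nat_lit 20) (nat_lit 4) (nat_lit 351) (nat_lit 280) (nat_lit 269)) (XT.lf (nat_lit 0) (nat_lit 2372395128) (nat_lit 76) (nat_lit 9757875181) (nat_lit 76) (nat_lit 5283802456) (nat_lit 19) (nat_lit 4) (nat_lit 20) (nat_lit 5) (nat_lit 20) (nat_lit 4) (nat_lit 352) (nat_lit 280) (nat_lit 268))))) (XT.nd (nat_lit 234) (nat_lit 152) (nat_lit 0) (XT.nd (nat_lit 78) (nat_lit 152) (nat_lit 0) (XT.lf (nat_lit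 0) (nat_lit 11663692493) (nat_lit 76) (nat_lit 5555873256) (nat_lit 76) (nat_lit 814100099) (nat_lit 19) (nat_lit 4) (nat_lit 20) (nat_lit 5) (nat_lit 20) (nat_lit 4) (nat_lit 353) (nat_lit 280) (nat_lit 267)) (XT.nd (nat_lit 78) (nat_lit 0) (nat_lit 0) (XT.lf (nat_lit 0) (nat_lit 2523813481) (nat_lit 76) (nat_lit 1144742338) (nat_lit 152) (nat_lit 15017014335) (nat_lit 17) (nat_lit 5) (nat_lit 18) (nat_lit 5) (nat_lit 19) (nat_lit 4) (nat_lit 354) (nat_lit 280) (nat_lit 266)) (XT.lf (nat_lit 0) (nat_lit 8387089746) (nat_lit 152) (nat_lit 7583342958) (nat_lit 0) (nat_lit 3397053429) (nat_lit 17) (nat_lit 5) (nat_lit 19) (nat_lit 4) (nat_lit 17) (nat_lit 4) (nat_lit 355) (nat_lit 280) (nat_lit 265)))) (XT.nd (nat_lit 78) (nat_lit 76) (nat_lit 0) (XT.lf (nat_lit 0) (nat_lit 1222886542) (nat_lit 76) (nat_lit 12037490631) (nat_lit 76) (nat_lit 6827216506) (nat_lit 16) (nat_lit 4) (nat_lit 17)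 (nat_lit 5) (nat_lit 17) (nat_lit 4) (nat_lit 356) (nat_lit 280) (nat_lit 264)) (XT.nd (nat_lit 78) (nat_lit 76) (nat_lit 0) (XT.lf (nat_lit 0) (nat_lit 10514797658) (nat_lit 76) (nat_lit 7874192816) (nat_lit 76) (nat_lit 2454168398) (nat_lit 16) (nat_lit 4) (nat_lit 17) (nat_lit 5) (nat_lit 17) (nat_lit 4) (nat_lit 357) (nat_lit 280) (nat_lit 263)) (XT.lf (nat_lit 0) (nat_lit 1956056318) (nat_lit 152) (nat_lit 1609871148) (nat_lit 76) (nat_lit 18074591343) (nat_lit 15) (nat_lit 5) (nat_lit 17) (nat_lit 5) (nat_lit 16) (nat_lit 4) (nat_lit 358) (nat_lit 280) (nat_lit 262))))))))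
noncomputable def xc50 : XT := (XT.nd (nat_lit 1716) (nat_lit 304) (nat_lit 0) (XT.nd (nat_lit 858) (nat_lit 304) (nat_lit 0) (XT.nd (nat_lit 390) (nat_lit 152) (nat_lit 0) (XT.nd (nat_lit 156) (nat_lit 152) (nat_lit 0) (XT.nd (nat_lit 78) (nat_lit 0) (nat_lit 0) (XT.lf (nat_lit 0) (nat_lit 6530513060) (nat_lit 152) (nat_lit 14946797601) (nat_lit 0) (nat_lit 997145154) (nat_lit 14) (nat_lit 5) (nat_lit 16) (nat_lit 4) (nat_lit 14) (nat_lit 4) (nat_lit 359) (nat_lit 280) (nat_lit 261)) (XT.lf (nat_lit 0) (nat_lit 11312778240) (nat_lit 152) (nat_lit 6431537978) (nat_lit 0) (nat_lit 5606848249) (nat_lit 14) (nat_lit 5) (nat_lit 16) (nat_lit 4) (nat_lit 14) (nat_lit 4) (nat_lit 360) (nat_lit 280) (nat_lit 260))) (XT.nd (nat_lit 78) (nat_lit 76) (nat_lit 0) (XT.lf (nat_lit 0) (nat_lit 2393853490) (nat_lit 76) (nat_lit 13875694024) (nat_lit 76) (nat_lit 8005419190) (nat_lit 13) (nat_lit 4) (nat_lit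 14) (nat_lit 5) (nat_lit 14) (nat_lit 4) (nat_lit 361) (nat_lit 280) (nat_lit 259)) (XT.nd (nat_lit 78) (nat_lit 76) (nat_lit 0) (XT.lf (nat_lit 0) (nat_lit 11694654409) (nat_lit 76) (nat_lit 9788341361) (nat_lit 76) (nat_lit 3761547629) (nat_lit 13) (nat_lit 4) (nat_lit 14) (nat_lit 5) (nat_lit 14) (nat_lit 4) (nat_lit 362) (nat_lit 280) (nat_lit 258)) (XT.lf (nat_lit 0) (nat_lit 575386815) (nat_lit 152) (nat_lit 4996316376) (nat_lit 76) (nat_lit 20695222582) (nat_lit 12) (nat_lit 5) (nat_lit 14) (nat_lit 5) (nat_lit 13) (nat_lit 4) (nat_lit 363) (nat_lit 280) (nat_lit 257))))) (XT.nd (nat_lit 234) (nat_lit 76) (nat_lit 0) (XT.nd (nat_lit 78) (nat_lit 0) (nat_lit 0) (XT.lf (nat_lit 0) (nat_lit 3872579298) (nat_lit 76) (nat_lit 1098350410) (nat_lit 152) (nat_lit 22368028386) (nat_lit 11) (nat_lit 5) (nat_lit 12) (nat_lit 5) (nat_lit 13) (nat_lit 4) (nat_lit 364) (nat_lit 280) (nat_lit 256))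 (XT.nd (nat_lit 78) (nat_lit 0) (nat_lit 0) (XT.lf (nat_lit 0) (nat_lit 9636593377) (nat_lit 152) (nat_lit 15334655995) (nat_lit 0) (nat_lit 3490847174) (nat_lit 11) (nat_lit 5) (nat_lit 13) (nat_lit 4) (nat_lit 11) (nat_lit 4) (nat_lit 365) (nat_lit 280) (nat_lit 255)) (XT.lf (nat_lit 0) (nat_lit 14466075631) (nat_lit 152) (nat_lit 6981117408) (nat_lit 0) (nat_lit 8197692776) (nat_lit 11) (nat_lit 5) (nat_lit 13) (nat_lit 4) (nat_lit 11) (nat_lit 4) (nat_lit 366) (nat_lit 280) (nat_lit 254)))) (XT.nd (nat_lit 78) (nat_lit 0) (nat_lit 0) (XT.lf (nat_lit 0) (nat_lit 1685211977) (nat_lit 76) (nat_lit 17794825815) (nat_lit 76) (nat_lit 11409646148) (nat_lit 10) (nat_lit 4) (nat_lit 11) (nat_lit 5) (nat_lit 11) (nat_lit 4) (nat_lit 367) (nat_lit 280) (nat_lit 253)) (XT.nd (nat_lit 78) (nat_lit 0) (nat_lit 0) (XT.lf (nat_lit 0) (nat_lit 10870964696) (nat_lit 76) (nat_lit 13910184103) (nat_lit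 76) (nat_lit 7413769378) (nat_lit 10) (nat_lit 4) (nat_lit 11) (nat_lit 5) (nat_lit 11) (nat_lit 4) (nat_lit 368) (nat_lit 280) (nat_lit 252)) (XT.lf (nat_lit 0) (nat_lit 20367184318) (nat_lit 76) (nat_lit 9902247359) (nat_lit 76) (nat_lit 3299894483) (nat_lit 10) (nat_lit 4) (nat_lit 11) (nat_lit 5) (nat_lit 11) (nat_lit 4) (nat_lit 369) (nat_lit 280) (nat_lit 251)))))) (XT.nd (nat_lit 390) (nat_lit 152) (nat_lit 0) (XT.nd (nat_lit 156) (nat_lit 0) (nat_lit 0) (XT.nd (nat_lit 78) (nat_lit 76) (nat_lit 0) (XT.lf (nat_lit 0) (nat_lit 911630843) (nat_lit 152) (nat_lit 4834403124) (nat_lit 76) (nat_lit 29269411137) (nat_lit 9) (nat_lit 5) (nat_lit 11) (nat_lit 5) (nat_lit 10) (nat_lit 4) (nat_lit 370) (nat_lit 280) (nat_lit 250)) (XT.lf (nat_lit 0) (nat_lit 3884581991) (nat_lit 76) (nat_lit 1327085019) (nat_lit 152) (nat_lit 31320071941) (nat_lit 8) (nat_lit 5) (nat_lit 9) (nat_lit 5) (nat_lit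 10) (nat_lit 4) (nat_lit 371) (nat_lit 280) (nat_lit 249))) (XT.nd (nat_lit 78) (nat_lit 0) (nat_lit 0) (XT.lf (nat_lit 0) (nat_lit 9790126068) (nat_lit 152) (nat_lit 25103152069) (nat_lit 0) (nat_lit 3227412984) (nat_lit 8) (nat_lit 5) (nat_lit 10) (nat_lit 4) (nat_lit 8) (nat_lit 4) (nat_lit 372) (nat_lit 280) (nat_lit 248)) (XT.nd (nat_lit 78) (nat_lit 0) (nat_lit 0) (XT.lf (nat_lit 0) (nat_lit 14551152789) (nat_lit 152) (nat_lit 17334835471) (nat_lit 0) (nat_lit 7905434392) (nat_lit 8) (nat_lit 5) (nat_lit 10) (nat_lit 4) (nat_lit 8) (nat_lit 4) (nat_lit 373) (nat_lit 280) (nat_lit 247)) (XT.lf (nat_lit 0) (nat_lit 19485363433) (nat_lit 152) (nat_lit 9302991661) (nat_lit 0) (nat_lit 12760592356) (nat_lit 8) (nat_lit 5) (nat_lit 10) (nat_lit 4) (nat_lit 8) (nat_lit 4) (nat_lit 374) (nat_lit 280) (nat_lit 246))))) (XT.nd (nat_lit 234) (nat_lit 76) (nat_lit 0) (XT.nd (nat_lit 78) (nat_lit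 76) (nat_lit 0) (XT.lf (nat_lit 0) (nat_lit 24604506122) (nat_lit 152) (nat_lit 988497199) (nat_lit 0) (nat_lit 17804446779) (nat_lit 8) (nat_lit 5) (nat_lit 10) (nat_lit 4) (nat_lit 8) (nat_lit 4) (nat_lit 375) (nat_lit 280) (nat_lit 245)) (XT.nd (nat_lit 78) (nat_lit 0) (nat_lit 0) (XT.lf (nat_lit 0) (nat_lit 7880675149) (nat_lit 76) (nat_lit 22163133564) (nat_lit 76) (nat_lit 15291371111) (nat_lit 7) (nat_lit 4) (nat_lit 8) (nat_lit 5) (nat_lit 8) (nat_lit 4) (nat_lit 376) (nat_lit 280) (nat_lit 244)) (XT.lf (nat_lit 0) (nat_lit 17116173909) (nat_lit 76) (nat_lit 18597868239) (nat_lit 76) (nat_lit 11657817109) (nat_lit 7) (nat_lit 4) (nat_lit 8) (nat_lit 5) (nat_lit 8) (nat_lit 4) (nat_lit 377) (nat_lit 280) (nat_lit 243)))) (XT.nd (nat_lit 78) (nat_lit 76) (nat_lit 0) (XT.lf (nat_lit 0) (nat_lit 26707304180) (nat_lit 76) (nat_lit 14905459297) (nat_lit 76) (nat_lit 7900371331) (nat_lit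 7) (nat_lit 4) (nat_lit 8) (nat_lit 5) (nat_lit 8) (nat_lit 4) (nat_lit 378) (nat_lit 280) (nat_lit 242)) (XT.nd (nat_lit 78) (nat_lit 76) (nat_lit 0) (XT.lf (nat_lit 0) (nat_lit 36676901988) (nat_lit 76) (nat_lit 11077115288) (nat_lit 76) (nat_lit 4010087479) (nat_lit 7) (nat_lit 4) (nat_lit 8) (nat_lit 5) (nat_lit 8) (nat_lit 4) (nat_lit 379) (nat_lit 280) (nat_lit 241)) (XT.lf (nat_lit 0) (nat_lit 21583383) (nat_lit 152) (nat_lit 7081772198) (nat_lit 76) (nat_lit 47026755560) (nat_lit 6) (nat_lit 5) (nat_lit 8) (nat_lit 5) (nat_lit 7) (nat_lit 4) (nat_lit 380) (nat_lit 280) (nat_lit 240))))))) (XT.nd (nat_lit 858) (nat_lit 152) (nat_lit 0) (XT.nd (nat_lit 390) (nat_lit 76) (nat_lit 0) (XT.nd (nat_lit 156) (nat_lit 0) (nat_lit 0) (XT.nd (nat_lit 78) (nat_lit 0) (nat_lit 0) (XT.lf (nat_lit 0) (nat_lit 1203410021) (nat_lit 76) (nat_lit 2887131159) (nat_lit 152) (nat_lit 52522075297) (nat_lit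 5) (nat_lit 5) (nat_lit 6) (nat_lit 5) (nat_lit 7) (nat_lit 4) (nat_lit 381) (nat_lit 280) (nat_lit 239)) (XT.lf (nat_lit 0) (nat_lit 8460744004) (nat_lit 152) (nat_lit 49184025763) (nat_lit 0) (nat_lit 1569596039) (nat_lit 5) (nat_lit 5) (nat_lit 7) (nat_lit 4) (nat_lit 5) (nat_lit 4) (nat_lit 382) (nat_lit 280) (nat_lit 238))) (XT.nd (nat_lit 78) (nat_lit 0) (nat_lit 0) (XT.lf (nat_lit 0) (nat_lit 13050935138) (nat_lit 152) (nat_lit 42783946050) (nat_lit 0) (nat_lit 6111255685) (nat_lit 5) (nat_lit 5) (nat_lit 7) (nat_lit 4) (nat_lit 5) (nat_lit 4) (nat_lit 383) (nat_lit 280) (nat_lit 237)) (XT.nd (nat_lit 78) (nat_lit 0) (nat_lit 0) (XT.lf (nat_lit 0) (nat_lit 17826967398) (nat_lit 152) (nat_lit 36148652824) (nat_lit 0) (nat_lit 10841067480) (nat_lit 5) (nat_lit 5) (nat_lit 7) (nat_lit 4) (nat_lit 5) (nat_lit 4) (nat_lit 384) (nat_lit 280) (nat_lit 236)) (XT.lf (nat_lit 0) (nat_lit 22800212290)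 (nat_lit 152) (nat_lit 29262347767) (nat_lit 0) (nat_lit 15770292883) (nat_lit 5) (nat_lit 5) (nat_lit 7) (nat_lit 4) (nat_lit 5) (nat_lit 4) (nat_lit 385) (nat_lit 280) (nat_lit 235))))) (XT.nd (nat_lit 234) (nat_lit 76) (nat_lit 0) (XT.nd (nat_lit 78) (nat_lit 0) (nat_lit 0) (XT.lf (nat_lit 0) (nat_lit 27982510874) (nat_lit 152) (nat_lit 22108634915) (nat_lit 0) (nat_lit 20910668143) (nat_lit 5) (nat_lit 5) (nat_lit 7) (nat_lit 4) (nat_lit 5) (nat_lit 4) (nat_lit 386) (nat_lit 280) (nat_lit 234)) (XT.nd (nat_lit 78) (nat_lit 0) (nat_lit 0) (XT.lf (nat_lit 0) (nat_lit 33386201955) (nat_lit 152) (nat_lit 14670481617) (nat_lit 0) (nat_lit 26274432249) (nat_lit 5) (nat_lit 5) (nat_lit 7) (nat_lit 4) (nat_lit 5) (nat_lit 4) (nat_lit 387) (nat_lit 280) (nat_lit 233)) (XT.lf (nat_lit 0) (nat_lit 39024151465) (nat_lit 152) (nat_lit 6930177986) (nat_lit 0) (nat_lit 31874356068) (nat_lit 5) (nat_lit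 5) (nat_lit 7) (nat_lit 4) (nat_lit 5) (nat_lit 4) (nat_lit 388) (nat_lit 280) (nat_lit 232)))) (XT.nd (nat_lit 78) (nat_lit 0) (nat_lit 0) (XT.lf (nat_lit 0) (nat_lit 1168091494) (nat_lit 76) (nat_lit 43759928780) (nat_lit 76) (nat_lit 36573918440) (nat_lit 4) (nat_lit 4) (nat_lit 5) (nat_lit 5) (nat_lit 5) (nat_lit 4) (nat_lit 389) (nat_lit 280) (nat_lit 231)) (XT.nd (nat_lit 78) (nat_lit 0) (nat_lit 0) (XT.lf (nat_lit 0) (nat_lit 9846510569) (nat_lit 76) (nat_lit 41364331303) (nat_lit 76) (nat_lit 34143830541) (nat_lit 4) (nat_lit 4) (nat_lit 5) (nat_lit 5) (nat_lit 5) (nat_lit 4) (nat_lit 390) (nat_lit 280) (nat_lit 230)) (XT.lf (nat_lit 0) (nat_lit 18896599156) (nat_lit 76) (nat_lit 38879199135) (nat_lit 76) (nat_lit 31625850352) (nat_lit 4) (nat_lit 4) (nat_lit 5) (nat_lit 5) (nat_lit 5) (nat_lit 4) (nat_lit 391) (nat_lit 280) (nat_lit 229)))))) (XT.nd (nat_lit 468) (nat_lit 152)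 (nat_lit 0) (XT.nd (nat_lit 234) (nat_lit 0) (nat_lit 0) (XT.nd (nat_lit 78) (nat_lit 0) (nat_lit 0) (XT.lf (nat_lit 0) (nat_lit 28339905087) (nat_lit 76) (nat_lit 36298615296) (nat_lit 76) (nat_lit 29013982682) (nat_lit 4) (nat_lit 4) (nat_lit 5) (nat_lit 5) (nat_lit 5) (nat_lit 4) (nat_lit 392) (nat_lit 280) (nat_lit 228)) (XT.nd (nat_lit 78) (nat_lit 0) (nat_lit 0) (XT.lf (nat_lit 0) (nat_lit 38198912423) (nat_lit 76) (nat_lit 33616435536) (nat_lit 76) (nat_lit 26302008800) (nat_lit 4) (nat_lit 4) (nat_lit 5) (nat_lit 5) (nat_lit 5) (nat_lit 4) (nat_lit 393) (nat_lit 280) (nat_lit 227)) (XT.lf (nat_lit 0) (nat_lit 48497094992) (nat_lit 76) (nat_lit 30826273715) (nat_lit 76) (nat_lit 23483471623) (nat_lit 4) (nat_lit 4) (nat_lit 5) (nat_lit 5) (nat_lit 5) (nat_lit 4) (nat_lit 394) (nat_lit 280) (nat_lit 226)))) (XT.nd (nat_lit 78) (nat_lit 0) (nat_lit 0) (XT.lf (nat_lit 0) (nat_lit 59258972274)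 (nat_lit 76) (nat_lit 27921486590) (nat_lit 76) (nat_lit 20551660350) (nat_lit 4) (nat_lit 4) (nat_lit 5) (nat_lit 5) (nat_lit 5) (nat_lit 4) (nat_lit 395) (nat_lit 280) (nat_lit 225)) (XT.nd (nat_lit 78) (nat_lit 0) (nat_lit 0) (XT.lf (nat_lit 0) (nat_lit 70510167789) (nat_lit 76) (nat_lit 24895158001) (nat_lit 76) (nat_lit 17499594476) (nat_lit 4) (nat_lit 4) (nat_lit 5) (nat_lit 5) (nat_lit 5) (nat_lit 4) (nat_lit 396) (nat_lit 280) (nat_lit 224)) (XT.lf (nat_lit 0) (nat_lit 82277470096) (nat_lit 76) (nat_lit 21740082404) (nat_lit 76) (nat_lit 14320007180) (nat_lit 4) (nat_lit 4) (nat_lit 5) (nat_lit 5) (nat_lit 5) (nat_lit 4) (nat_lit 397) (nat_lit 280) (nat_lit 223))))) (XT.nd (nat_lit 234) (nat_lit 152) (nat_lit 0) (XT.nd (nat_lit 78) (nat_lit 0) (nat_lit 0) (XT.lf (nat_lit 0) (nat_lit 94588896582) (nat_lit 76) (nat_lit 18448747714) (nat_lit 76) (nat_lit 11005328014) (nat_lit 4) (nat_lit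 4) (nat_lit 5) (nat_lit 5) (nat_lit 5) (nat_lit 4) (nat_lit 398) (nat_lit 280) (nat_lit 222)) (XT.nd (nat_lit 78) (nat_lit 0) (nat_lit 0) (XT.lf (nat_lit 0) (nat_lit 107473760167) (nat_lit 76) (nat_lit 15013317419) (nat_lit 76) (nat_lit 7547664886) (nat_lit 4) (nat_lit 4) (nat_lit 5) (nat_lit 5) (nat_lit 5) (nat_lit 4) (nat_lit 399) (nat_lit 280) (nat_lit 221)) (XT.lf (nat_lit 0) (nat_lit 120962739098) (nat_lit 76) (nat_lit 11425611925) (nat_lit 76) (nat_lit 3938785264) (nat_lit 4) (nat_lit 4) (nat_lit 5) (nat_lit 5) (nat_lit 5) (nat_lit 4) (nat_lit 400) (nat_lit 280) (nat_lit 220)))) (XT.nd (nat_lit 78) (nat_lit 152) (nat_lit 0) (XT.lf (nat_lit 0) (nat_lit 135087949991) (nat_lit 76) (nat_lit 7677089074) (nat_lit 76) (nat_lit 170096578) (nat_lit 4) (nat_lit 4) (nat_lit 5) (nat_lit 5) (nat_lit 5) (nat_lit 4) (nat_lit 401) (nat_lit 280) (nat_lit 219)) (XT.nd (nat_lit 78) (nat_lit 76) (nat_lit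 0) (XT.lf (nat_lit 0) (nat_lit 3646794736) (nat_lit 152) (nat_lit 50268843) (nat_lit 76) (nat_lit 146174469331) (nat_lit 3) (nat_lit 5) (nat_lit 5) (nat_lit 5) (nat_lit 4) (nat_lit 4) (nat_lit 402) (nat_lit 280) (nat_lit 218)) (XT.lf (nat_lit 0) (nat_lit 7770760898) (nat_lit 152) (nat_lit 148792222101) (nat_lit 0) (nat_lit 585533221) (nat_lit 2) (nat_lit 5) (nat_lit 4) (nat_lit 4) (nat_lit 2) (nat_lit 4) (nat_lit 403) (nat_lit 280) (nat_lit 217))))))))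
noncomputable def xc51 : XT := (XT.nd (nat_lit 1716) (nat_lit 0) (nat_lit 0) (XT.nd (nat_lit 858) (nat_lit 0) (nat_lit 0) (XT.nd (nat_lit 390) (nat_lit 0) (nat_lit 0) (XT.nd (nat_lit 156) (nat_lit 0) (nat_lit 0) (XT.nd (nat_lit 78) (nat_lit 0) (nat_lit 0) (XT.lf (nat_lit 0) (nat_lit 12144337966) (nat_lit 152) (nat_lit 147700323088) (nat_lit 0) (nat_lit 4942519806) (nat_lit 2) (nat_lit 5) (nat_lit 4) (nat_lit 4) (nat_lit 2) (nat_lit 4) (nat_lit 404) (nat_lit 280) (nat_lit 216)) (XT.lf (nat_lit 0) (nat_lit 16719393616) (nat_lit 152) (nat_lit 146587472797) (nat_lit 0) (nat_lit 9501774997) (nat_lit 2) (nat_lit 5) (nat_lit 4) (nat_lit 4) (nat_lit 2) (nat_lit 4) (nat_lit 405) (nat_lit 280) (nat_lit 215))) (XT.nd (nat_lit 78) (nat_lit 0) (nat_lit 0) (XT.lf (nat_lit 0) (nat_lit 21506820838) (nat_lit 152) (nat_lit 145451021583) (nat_lit 0) (nat_lit 14274154162) (nat_lit 2) (nat_lit 5) (nat_lit 4)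 (nat_lit 4) (nat_lit 2) (nat_lit 4) (nat_lit 406) (nat_lit 280) (nat_lit 214)) (XT.nd (nat_lit 78) (nat_lit 0) (nat_lit 0) (XT.lf (nat_lit 0) (nat_lit 26518018268) (nat_lit 152) (nat_lit 144288263610) (nat_lit 0) (nat_lit 19271020109) (nat_lit 2) (nat_lit 5) (nat_lit 4) (nat_lit 4) (nat_lit 2) (nat_lit 4) (nat_lit 407) (nat_lit 280) (nat_lit 213)) (XT.lf (nat_lit 0) (nat_lit 31764917328) (nat_lit 152) (nat_lit 143096430407) (nat_lit 0) (nat_lit 24504270138) (nat_lit 2) (nat_lit 5) (nat_lit 4) (nat_lit 4) (nat_lit 2) (nat_lit 4) (nat_lit 408) (nat_lit 280) (nat_lit 212))))) (XT.nd (nat_lit 234) (nat_lit 0) (nat_lit 0) (XT.nd (nat_lit 78) (nat_lit 0) (nat_lit 0) (XT.lf (nat_lit 0) (nat_lit 37260010636) (nat_lit 152) (nat_lit 141872684275) (nat_lit 0) (nat_lit 29986364368) (nat_lit 2) (nat_lit 5) (nat_lit 4) (nat_lit 4) (nat_lit 2) (nat_lit 4) (nat_lit 409) (nat_lit 280) (nat_lit 211)) (XT.nd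 (nat_lit 78) (nat_lit 0) (nat_lit 0) (XT.lf (nat_lit 0) (nat_lit 43016381746) (nat_lit 152) (nat_lit 140614111534) (nat_lit 0) (nat_lit 35730355404) (nat_lit 2) (nat_lit 5) (nat_lit 4) (nat_lit 4) (nat_lit 2) (nat_lit 4) (nat_lit 410) (nat_lit 280) (nat_lit 210)) (XT.lf (nat_lit 0) (nat_lit 49047736304) (nat_lit 152) (nat_lit 139317715582) (nat_lit 0) (nat_lit 41749919416) (nat_lit 2) (nat_lit 5) (nat_lit 4) (nat_lit 4) (nat_lit 2) (nat_lit 4) (nat_lit 411) (nat_lit 280) (nat_lit 209)))) (XT.nd (nat_lit 78) (nat_lit 0) (nat_lit 0) (XT.lf (nat_lit 0) (nat_lit 55368434679) (nat_lit 152) (nat_lit 137980409761) (nat_lit 0) (nat_lit 48059388699) (nat_lit 2) (nat_lit 5) (nat_lit 4) (nat_lit 4) (nat_lit 2) (nat_lit 4) (nat_lit 412) (nat_lit 280) (nat_lit 208)) (XT.nd (nat_lit 78) (nat_lit 0) (nat_lit 0) (XT.lf (nat_lit 0) (nat_lit 61993526152) (nat_lit 152) (nat_lit 136599010010) (nat_lit 0) (nat_lit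 54673785799) (nat_lit 2) (nat_lit 5) (nat_lit 4) (nat_lit 4) (nat_lit 2) (nat_lit 4) (nat_lit 413) (nat_lit 280) (nat_lit 207)) (XT.lf (nat_lit 0) (nat_lit 68938784750) (nat_lit 152) (nat_lit 135170227283) (nat_lit 0) (nat_lit 61608859279) (nat_lit 2) (nat_lit 5) (nat_lit 4) (nat_lit 4) (nat_lit 2) (nat_lit 4) (nat_lit 414) (nat_lit 280) (nat_lit 206)))))) (XT.nd (nat_lit 390) (nat_lit 0) (nat_lit 0) (XT.nd (nat_lit 156) (nat_lit 0) (nat_lit 0) (XT.nd (nat_lit 78) (nat_lit 0) (nat_lit 0) (XT.lf (nat_lit 0) (nat_lit 76220746803) (nat_lit 152) (nat_lit 133690659715) (nat_lit 0) (nat_lit 68881121221) (nat_lit 2) (nat_lit 5) (nat_lit 4) (nat_lit 4) (nat_lit 2) (nat_lit 4) (nat_lit 415) (nat_lit 280) (nat_lit 205)) (XT.lf (nat_lit 0) (nat_lit 83856750317) (nat_lit 152) (nat_lit 132156784526) (nat_lit 0) (nat_lit 76507886533) (nat_lit 2) (nat_lit 5) (nat_lit 4) (nat_lit 4) (nat_lit 2) (nat_lit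 4) (nat_lit 416) (nat_lit 280) (nat_lit 204))) (XT.nd (nat_lit 78) (nat_lit 0) (nat_lit 0) (XT.lf (nat_lit 0) (nat_lit 91864976251) (nat_lit 152) (nat_lit 130564949633) (nat_lit 0) (nat_lit 84507314180) (nat_lit 2) (nat_lit 5) (nat_lit 4) (nat_lit 4) (nat_lit 2) (nat_lit 4) (nat_lit 417) (nat_lit 280) (nat_lit 203)) (XT.nd (nat_lit 78) (nat_lit 0) (nat_lit 0) (XT.lf (nat_lit 0) (nat_lit 100264491811) (nat_lit 152) (nat_lit 128911364953) (nat_lit 0) (nat_lit 92898450419) (nat_lit 2) (nat_lit 5) (nat_lit 4) (nat_lit 4) (nat_lit 2) (nat_lit 4) (nat_lit 418) (nat_lit 280) (nat_lit 202)) (XT.lf (nat_lit 0) (nat_lit 109075295844) (nat_lit 152) (nat_lit 127192093380) (nat_lit 0) (nat_lit 101701274146) (nat_lit 2) (nat_lit 5) (nat_lit 4) (nat_lit 4) (nat_lit 2) (nat_lit 4) (nat_lit 419) (nat_lit 280) (nat_lit 201))))) (XT.nd (nat_lit 234) (nat_lit 0) (nat_lit 0) (XT.nd (nat_lit 78) (nat_lit 0)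 (nat_lit 0) (XT.lf (nat_lit 0) (nat_lit 118318366453) (nat_lit 152) (nat_lit 125403041408) (nat_lit 0) (nat_lit 110936744464) (nat_lit 2) (nat_lit 5) (nat_lit 4) (nat_lit 4) (nat_lit 2) (nat_lit 4) (nat_lit 420) (nat_lit 280) (nat_lit 200)) (XT.nd (nat_lit 78) (nat_lit 0) (nat_lit 0) (XT.lf (nat_lit 0) (nat_lit 128015710951) (nat_lit 152) (nat_lit 123539949392) (nat_lit 0) (nat_lit 120626850589) (nat_lit 2) (nat_lit 5) (nat_lit 4) (nat_lit 4) (nat_lit 2) (nat_lit 4) (nat_lit 421) (nat_lit 280) (nat_lit 199)) (XT.lf (nat_lit 0) (nat_lit 138190418252) (nat_lit 152) (nat_lit 121598381398) (nat_lit 0) (nat_lit 130794664201) (nat_lit 2) (nat_lit 5) (nat_lit 4) (nat_lit 4) (nat_lit 2) (nat_lit 4) (nat_lit 422) (nat_lit 280) (nat_lit 198)))) (XT.nd (nat_lit 78) (nat_lit 0) (nat_lit 0) (XT.lf (nat_lit 0) (nat_lit 148866713849) (nat_lit 152) (nat_lit 119573714644) (nat_lit 0) (nat_lit 141464394382)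 (nat_lit 2) (nat_lit 5) (nat_lit 4) (nat_lit 4) (nat_lit 2) (nat_lit 4) (nat_lit 423) (nat_lit 280) (nat_lit 197)) (XT.nd (nat_lit 78) (nat_lit 0) (nat_lit 0) (XT.lf (nat_lit 0) (nat_lit 160070017496) (nat_lit 152) (nat_lit 117461128496) (nat_lit 0) (nat_lit 152661445250) (nat_lit 2) (nat_lit 5) (nat_lit 4) (nat_lit 4) (nat_lit 2) (nat_lit 4) (nat_lit 424) (nat_lit 280) (nat_lit 196)) (XT.lf (nat_lit 0) (nat_lit 171827003723) (nat_lit 152) (nat_lit 115255592986) (nat_lit 0) (nat_lit 164412476450) (nat_lit 2) (nat_lit 5) (nat_lit 4) (nat_lit 4) (nat_lit 2) (nat_lit 4) (nat_lit 425) (nat_lit 280) (nat_lit 195))))))) (XT.nd (nat_lit 40248) (nat_lit 0) (nat_lit 1292) (XT.nd (nat_lit 390) (nat_lit 0) (nat_lit 0) (XT.nd (nat_lit 156) (nat_lit 0) (nat_lit 0) (XT.nd (nat_lit 78) (nat_lit 0) (nat_lit 0) (XT.lf (nat_lit 0) (nat_lit 184165665356) (nat_lit 152) (nat_lit 112951856840) (nat_lit 0) (nat_lit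 176745466628) (nat_lit 2) (nat_lit 5) (nat_lit 4) (nat_lit 4) (nat_lit 2) (nat_lit 4) (nat_lit 426) (nat_lit 280) (nat_lit 194)) (XT.lf (nat_lit 0) (nat_lit 197115380159) (nat_lit 152) (nat_lit 110544434972) (nat_lit 0) (nat_lit 189689780046) (nat_lit 2) (nat_lit 5) (nat_lit 4) (nat_lit 4) (nat_lit 2) (nat_lit 4) (nat_lit 427) (nat_lit 280) (nat_lit 193))) (XT.nd (nat_lit 78) (nat_lit 0) (nat_lit 0) (XT.lf (nat_lit 0) (nat_lit 210706980788) (nat_lit 152) (nat_lit 108027595424) (nat_lit 0) (nat_lit 203276236499) (nat_lit 2) (nat_lit 5) (nat_lit 4) (nat_lit 4) (nat_lit 2) (nat_lit 4) (nat_lit 428) (nat_lit 280) (nat_lit 192)) (XT.nd (nat_lit 78) (nat_lit 0) (nat_lit 0) (XT.lf (nat_lit 0) (nat_lit 224972828197) (nat_lit 152) (nat_lit 105395345721) (nat_lit 0) (nat_lit 217537184692) (nat_lit 2) (nat_lit 5) (nat_lit 4) (nat_lit 4) (nat_lit 2) (nat_lit 4) (nat_lit 429) (nat_lit 280) (nat_lit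 191)) (XT.lf (nat_lit 0) (nat_lit 239946888687) (nat_lit 152) (nat_lit 102641418603) (nat_lit 0) (nat_lit 232506579263) (nat_lit 2) (nat_lit 5) (nat_lit 4) (nat_lit 4) (nat_lit 2) (nat_lit 4) (nat_lit 430) (nat_lit 280) (nat_lit 190))))) (XT.nd (nat_lit 39624) (nat_lit 0) (nat_lit 2432) (XT.nd (nat_lit 78) (nat_lit 0) (nat_lit 0) (XT.lf (nat_lit 0) (nat_lit 255664814786) (nat_lit 152) (nat_lit 99759257100) (nat_lit 0) (nat_lit 248220061629) (nat_lit 2) (nat_lit 5) (nat_lit 4) (nat_lit 4) (nat_lit 2) (nat_lit 4) (nat_lit 431) (nat_lit 280) (nat_lit 189)) (XT.nd (nat_lit 78) (nat_lit 0) (nat_lit 0) (XT.lf (nat_lit 0) (nat_lit 272164030126) (nat_lit 152) (nat_lit 96741998923) (nat_lit 0) (nat_lit 264715044842) (nat_lit 2) (nat_lit 5) (nat_lit 4) (nat_lit 4) (nat_lit 2) (nat_lit 4) (nat_lit 432) (nat_lit 280) (nat_lit 188)) (XT.lf (nat_lit 0) (nat_lit 289483818553) (nat_lit 152) (nat_lit 93582460123)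 (nat_lit 0) (nat_lit 282030802672) (nat_lit 2) (nat_lit 5) (nat_lit 4) (nat_lit 4) (nat_lit 2) (nat_lit 4) (nat_lit 433) (nat_lit 280) (nat_lit 187)))) (XT.nd (nat_lit 78) (nat_lit 152) (nat_lit 0) (XT.lf (nat_lit 0) (nat_lit 720055716) (nat_lit 228) (nat_lit 4235853169) (nat_lit 0) (nat_lit 720055716) (nat_lit 36) (nat_lit 5) (nat_lit 39) (nat_lit 4) (nat_lit 36) (nat_lit 4) (nat_lit 338) (nat_lit 281) (nat_lit 281)) (XT.nd (nat_lit 78) (nat_lit 152) (nat_lit 0) (XT.lf (nat_lit 0) (nat_lit 6004685273) (nat_lit 228) (nat_lit 263761460) (nat_lit 0) (nat_lit 5391110979) (nat_lit 36) (nat_lit 5) (nat_lit 39) (nat_lit 4) (nat_lit 36) (nat_lit 4) (nat_lit 339) (nat_lit 281) (nat_lit 280)) (XT.lf (nat_lit 0) (nat_lit 8350026643) (nat_lit 152) (nat_lit 2416069897) (nat_lit 152) (nat_lit 1218139133) (nat_lit 34) (nat_lit 4) (nat_lit 36) (nat_lit 5) (nat_lit 36) (nat_lit 4) (nat_lit 340) (nat_lit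 281) (nat_lit 279)))))) (XT.nd (nat_lit 468) (nat_lit 532) (nat_lit 0) (XT.nd (nat_lit 234) (nat_lit 304) (nat_lit 0) (XT.nd (nat_lit 78) (nat_lit 152) (nat_lit 0) (XT.lf (nat_lit 0) (nat_lit 3276483279) (nat_lit 152) (nat_lit 7443191148) (nat_lit 0) (nat_lit 1605568293) (nat_lit 32) (nat_lit 5) (nat_lit 34) (nat_lit 4) (nat_lit 32) (nat_lit 4) (nat_lit 341) (nat_lit 281) (nat_lit 278)) (XT.nd (nat_lit 78) (nat_lit 0) (nat_lit 0) (XT.lf (nat_lit 0) (nat_lit 965740701) (nat_lit 152) (nat_lit 6947223419) (nat_lit 152) (nat_lit 4771519344) (nat_lit 30) (nat_lit 4) (nat_lit 32) (nat_lit 5) (nat_lit 32) (nat_lit 4) (nat_lit 342) (nat_lit 281) (nat_lit 277)) (XT.lf (nat_lit 0) (nat_lit 9783303044) (nat_lit 152) (nat_lit 2968203949) (nat_lit 152) (nat_lit 311748360) (nat_lit 30) (nat_lit 4) (nat_lit 32) (nat_lit 5) (nat_lit 32) (nat_lit 4) (nat_lit 343) (nat_lit 281) (nat_lit 276)))) (XT.nd (nat_lit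 78) (nat_lit 152) (nat_lit 0) (XT.lf (nat_lit 0) (nat_lit 4184540759) (nat_lit 152) (nat_lit 8056887648) (nat_lit 0) (nat_lit 1218527259) (nat_lit 28) (nat_lit 5) (nat_lit 30) (nat_lit 4) (nat_lit 28) (nat_lit 4) (nat_lit 344) (nat_lit 281) (nat_lit 275)) (XT.nd (nat_lit 78) (nat_lit 0) (nat_lit 0) (XT.lf (nat_lit 0) (nat_lit 456403218) (nat_lit 152) (nat_lit 8401534230) (nat_lit 152) (nat_lit 5020229498) (nat_lit 26) (nat_lit 4) (nat_lit 28) (nat_lit 5) (nat_lit 28) (nat_lit 4) (nat_lit 345) (nat_lit 281) (nat_lit 274)) (XT.lf (nat_lit 0) (nat_lit 9415409894) (nat_lit 152) (nat_lit 4339631920) (nat_lit 152) (nat_lit 562811728) (nat_lit 26) (nat_lit 4) (nat_lit 28) (nat_lit 5) (nat_lit 28) (nat_lit 4) (nat_lit 346) (nat_lit 281) (nat_lit 273))))) (XT.nd (nat_lit 234) (nat_lit 228) (nat_lit 0) (XT.nd (nat_lit 78) (nat_lit 152) (nat_lit 0) (XT.lf (nat_lit 0) (nat_lit 3849723117) (nat_lit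 76) (nat_lit 54288932) (nat_lit 152) (nat_lit 10876442597) (nat_lit 24) (nat_lit 5) (nat_lit 25) (nat_lit 5) (nat_lit 26) (nat_lit 4) (nat_lit 347) (nat_lit 281) (nat_lit 272)) (XT.nd (nat_lit 78) (nat_lit 152) (nat_lit 0) (XT.lf (nat_lit 0) (nat_lit 8588445135) (nat_lit 152) (nat_lit 2385609588) (nat_lit 0) (nat_lit 4291068216) (nat_lit 24) (nat_lit 5) (nat_lit 26) (nat_lit 4) (nat_lit 24) (nat_lit 4) (nat_lit 348) (nat_lit 281) (nat_lit 271)) (XT.lf (nat_lit 0) (nat_lit 6554438944) (nat_lit 152) (nat_lit 6921971731) (nat_lit 152) (nat_lit 2299203263) (nat_lit 22) (nat_lit 4) (nat_lit 24) (nat_lit 5) (nat_lit 24) (nat_lit 4) (nat_lit 349) (nat_lit 281) (nat_lit 270)))) (XT.nd (nat_lit 78) (nat_lit 152) (nat_lit 0) (XT.lf (nat_lit 0) (nat_lit 2131242770) (nat_lit 228) (nat_lit 563617500) (nat_lit 76) (nat_lit 13619644667) (nat_lit 21) (nat_lit 5) (nat_lit 24) (nat_lit 5) (nat_lit 22) (nat_lit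 4) (nat_lit 350) (nat_lit 281) (nat_lit 269)) (XT.nd (nat_lit 78) (nat_lit 76) (nat_lit 0) (XT.lf (nat_lit 0) (nat_lit 6740474515) (nat_lit 152) (nat_lit 8374689457) (nat_lit 0) (nat_lit 1761612699) (nat_lit 20) (nat_lit 5) (nat_lit 22) (nat_lit 4) (nat_lit 20) (nat_lit 4) (nat_lit 351) (nat_lit 281) (nat_lit 268)) (XT.lf (nat_lit 0) (nat_lit 308244142) (nat_lit 76) (nat_lit 11204449459) (nat_lit 76) (nat_lit 5957887212) (nat_lit 19) (nat_lit 4) (nat_lit 20) (nat_lit 5) (nat_lit 20) (nat_lit 4) (nat_lit 352) (nat_lit 281) (nat_lit 267))))))))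
noncomputable def xc52 : XT := (XT.nd (nat_lit 1716) (nat_lit 304) (nat_lit 0) (XT.nd (nat_lit 858) (nat_lit 380) (nat_lit 0) (XT.nd (nat_lit 390) (nat_lit 228) (nat_lit 0) (XT.nd (nat_lit 156) (nat_lit 76) (nat_lit 0) (XT.nd (nat_lit 78) (nat_lit 152) (nat_lit 0) (XT.lf (nat_lit 0) (nat_lit 9488557485) (nat_lit 76) (nat_lit 7053084870) (nat_lit 76) (nat_lit 1551569831) (nat_lit 19) (nat_lit 4) (nat_lit 20) (nat_lit 5) (nat_lit 20) (nat_lit 4) (nat_lit 353) (nat_lit 281) (nat_lit 266)) (XT.lf (nat_lit 0) (nat_lit 115928564) (nat_lit 76) (nat_lit 2742732795) (nat_lit 152) (nat_lit 15891851259) (nat_lit 17) (nat_lit 5) (nat_lit 18) (nat_lit 5) (nat_lit 19) (nat_lit 4) (nat_lit 354) (nat_lit 281) (nat_lit 265))) (XT.nd (nat_lit 78) (nat_lit 76) (nat_lit 0) (XT.lf (nat_lit 0) (nat_lit 7494181713) (nat_lit 152) (nat_lit 10139259589) (nat_lit 0) (nat_lit 1803156074) (nat_lit 17) (nat_lit 5) (nat_lit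 19) (nat_lit 4) (nat_lit 17) (nat_lit 4) (nat_lit 355) (nat_lit 281) (nat_lit 264)) (XT.nd (nat_lit 78) (nat_lit 76) (nat_lit 0) (XT.lf (nat_lit 0) (nat_lit 12293076966) (nat_lit 152) (nat_lit 1475063772) (nat_lit 0) (nat_lit 6392301034) (nat_lit 17) (nat_lit 5) (nat_lit 19) (nat_lit 4) (nat_lit 17) (nat_lit 4) (nat_lit 356) (nat_lit 281) (nat_lit 263)) (XT.lf (nat_lit 0) (nat_lit 7666840971) (nat_lit 76) (nat_lit 9676811217) (nat_lit 76) (nat_lit 3576273101) (nat_lit 16) (nat_lit 4) (nat_lit 17) (nat_lit 5) (nat_lit 17) (nat_lit 4) (nat_lit 357) (nat_lit 281) (nat_lit 262))))) (XT.nd (nat_lit 234) (nat_lit 76) (nat_lit 0) (XT.nd (nat_lit 78) (nat_lit 76) (nat_lit 0) (XT.lf (nat_lit 0) (nat_lit 817340342) (nat_lit 152) (nat_lit 4615240111) (nat_lit 76) (nat_lit 16288221908) (nat_lit 15) (nat_lit 5) (nat_lit 17) (nat_lit 5) (nat_lit 16) (nat_lit 4) (nat_lit 358) (nat_lit 281) (nat_lit 261))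 (XT.nd (nat_lit 78) (nat_lit 0) (nat_lit 0) (XT.lf (nat_lit 0) (nat_lit 4343223567) (nat_lit 76) (nat_lit 932484516) (nat_lit 152) (nat_lit 17284849918) (nat_lit 14) (nat_lit 5) (nat_lit 15) (nat_lit 5) (nat_lit 16) (nat_lit 4) (nat_lit 359) (nat_lit 281) (nat_lit 260)) (XT.lf (nat_lit 0) (nat_lit 9993666310) (nat_lit 152) (nat_lit 9781296309) (nat_lit 0) (nat_lit 3665532891) (nat_lit 14) (nat_lit 5) (nat_lit 16) (nat_lit 4) (nat_lit 14) (nat_lit 4) (nat_lit 360) (nat_lit 281) (nat_lit 259)))) (XT.nd (nat_lit 78) (nat_lit 76) (nat_lit 0) (XT.lf (nat_lit 0) (nat_lit 14865681530) (nat_lit 152) (nat_lit 1121837571) (nat_lit 0) (nat_lit 8381029213) (nat_lit 14) (nat_lit 5) (nat_lit 16) (nat_lit 4) (nat_lit 14) (nat_lit 4) (nat_lit 361) (nat_lit 281) (nat_lit 258)) (XT.nd (nat_lit 78) (nat_lit 0) (nat_lit 0) (XT.lf (nat_lit 0) (nat_lit 8053996417) (nat_lit 76) (nat_lit 11960544120) (nat_lit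 76) (nat_lit 5326826186) (nat_lit 13) (nat_lit 4) (nat_lit 14) (nat_lit 5) (nat_lit 14) (nat_lit 4) (nat_lit 362) (nat_lit 281) (nat_lit 257)) (XT.lf (nat_lit 0) (nat_lit 17556006418) (nat_lit 76) (nat_lit 7793058806) (nat_lit 76) (nat_lit 1017373617) (nat_lit 13) (nat_lit 4) (nat_lit 14) (nat_lit 5) (nat_lit 14) (nat_lit 4) (nat_lit 363) (nat_lit 281) (nat_lit 256)))))) (XT.nd (nat_lit 390) (nat_lit 152) (nat_lit 0) (XT.nd (nat_lit 156) (nat_lit 76) (nat_lit 0) (XT.nd (nat_lit 78) (nat_lit 76) (nat_lit 0) (XT.lf (nat_lit 0) (nat_lit 3307395238) (nat_lit 152) (nat_lit 130731857) (nat_lit 76) (nat_lit 24006315670) (nat_lit 12) (nat_lit 5) (nat_lit 14) (nat_lit 5) (nat_lit 13) (nat_lit 4) (nat_lit 364) (nat_lit 281) (nat_lit 255)) (XT.lf (nat_lit 0) (nat_lit 7891716831) (nat_lit 152) (nat_lit 19492663390) (nat_lit 0) (nat_lit 1187278181) (nat_lit 11) (nat_lit 5) (nat_lit 13) (nat_lit 4) (nat_lit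 11) (nat_lit 4) (nat_lit 365) (nat_lit 281) (nat_lit 254))) (XT.nd (nat_lit 78) (nat_lit 76) (nat_lit 0) (XT.lf (nat_lit 0) (nat_lit 12680562457) (nat_lit 152) (nat_lit 11216599651) (nat_lit 0) (nat_lit 5859326996) (nat_lit 11) (nat_lit 5) (nat_lit 13) (nat_lit 4) (nat_lit 11) (nat_lit 4) (nat_lit 366) (nat_lit 281) (nat_lit 253)) (XT.nd (nat_lit 78) (nat_lit 76) (nat_lit 0) (XT.lf (nat_lit 0) (nat_lit 17629512186) (nat_lit 152) (nat_lit 2677993142) (nat_lit 0) (nat_lit 10697041665) (nat_lit 11) (nat_lit 5) (nat_lit 13) (nat_lit 4) (nat_lit 11) (nat_lit 4) (nat_lit 367) (nat_lit 281) (nat_lit 252)) (XT.lf (nat_lit 0) (nat_lit 6346617549) (nat_lit 76) (nat_lit 16502820167) (nat_lit 76) (nat_lit 9464411495) (nat_lit 10) (nat_lit 4) (nat_lit 11) (nat_lit 5) (nat_lit 11) (nat_lit 4) (nat_lit 368) (nat_lit 281) (nat_lit 251))))) (XT.nd (nat_lit 234) (nat_lit 76) (nat_lit 0) (XT.nd (nat_lit 78)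 (nat_lit 76) (nat_lit 0) (XT.lf (nat_lit 0) (nat_lit 15773698620) (nat_lit 76) (nat_lit 12527839081) (nat_lit 76) (nat_lit 5388536932) (nat_lit 10) (nat_lit 4) (nat_lit 11) (nat_lit 5) (nat_lit 11) (nat_lit 4) (nat_lit 369) (nat_lit 281) (nat_lit 250)) (XT.nd (nat_lit 78) (nat_lit 76) (nat_lit 0) (XT.lf (nat_lit 0) (nat_lit 25537148952) (nat_lit 76) (nat_lit 8418450939) (nat_lit 76) (nat_lit 1183059764) (nat_lit 10) (nat_lit 4) (nat_lit 11) (nat_lit 5) (nat_lit 11) (nat_lit 4) (nat_lit 370) (nat_lit 281) (nat_lit 249)) (XT.lf (nat_lit 0) (nat_lit 3060828242) (nat_lit 152) (nat_lit 1052206634) (nat_lit 76) (nat_lit 32547550006) (nat_lit 9) (nat_lit 5) (nat_lit 11) (nat_lit 5) (nat_lit 10) (nat_lit 4) (nat_lit 371) (nat_lit 281) (nat_lit 248)))) (XT.nd (nat_lit 78) (nat_lit 0) (nat_lit 0) (XT.lf (nat_lit 0) (nat_lit 7545316755) (nat_lit 152) (nat_lit 30224618525) (nat_lit 0) (nat_lit 484307124)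 (nat_lit 8) (nat_lit 5) (nat_lit 10) (nat_lit 4) (nat_lit 8) (nat_lit 4) (nat_lit 372) (nat_lit 281) (nat_lit 247)) (XT.nd (nat_lit 78) (nat_lit 0) (nat_lit 0) (XT.lf (nat_lit 0) (nat_lit 12274700835) (nat_lit 152) (nat_lit 22517223204) (nat_lit 0) (nat_lit 5134638525) (nat_lit 8) (nat_lit 5) (nat_lit 10) (nat_lit 4) (nat_lit 8) (nat_lit 4) (nat_lit 373) (nat_lit 281) (nat_lit 246)) (XT.lf (nat_lit 0) (nat_lit 17178775632) (nat_lit 152) (nat_lit 14543399657) (nat_lit 0) (nat_lit 9963425055) (nat_lit 8) (nat_lit 5) (nat_lit 10) (nat_lit 4) (nat_lit 8) (nat_lit 4) (nat_lit 374) (nat_lit 281) (nat_lit 245))))))) (XT.nd (nat_lit 858) (nat_lit 76) (nat_lit 0) (XT.nd (nat_lit 390) (nat_lit 152) (nat_lit 0) (XT.nd (nat_lit 156) (nat_lit 0) (nat_lit 0) (XT.nd (nat_lit 78) (nat_lit 76) (nat_lit 0) (XT.lf (nat_lit 0) (nat_lit 22269217513) (nat_lit 152) (nat_lit 6284162588) (nat_lit 0) (nat_lit 14982163826)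 (nat_lit 8) (nat_lit 5) (nat_lit 10) (nat_lit 4) (nat_lit 8) (nat_lit 4) (nat_lit 375) (nat_lit 281) (nat_lit 244)) (XT.lf (nat_lit 0) (nat_lit 2355545001) (nat_lit 76) (nat_lit 25239378235) (nat_lit 76) (nat_lit 17884035871) (nat_lit 7) (nat_lit 4) (nat_lit 8) (nat_lit 5) (nat_lit 8) (nat_lit 4) (nat_lit 376) (nat_lit 281) (nat_lit 243))) (XT.nd (nat_lit 78) (nat_lit 0) (nat_lit 0) (XT.lf (nat_lit 0) (nat_lit 11539266480) (nat_lit 76) (nat_lit 21699049324) (nat_lit 76) (nat_lit 14278670125) (nat_lit 7) (nat_lit 4) (nat_lit 8) (nat_lit 5) (nat_lit 8) (nat_lit 4) (nat_lit 377) (nat_lit 281) (nat_lit 242)) (XT.nd (nat_lit 78) (nat_lit 0) (nat_lit 0) (XT.lf (nat_lit 0) (nat_lit 21081085055) (nat_lit 76) (nat_lit 18030389348) (nat_lit 76) (nat_lit 10548070306) (nat_lit 7) (nat_lit 4) (nat_lit 8) (nat_lit 5) (nat_lit 8) (nat_lit 4) (nat_lit 378) (nat_lit 281) (nat_lit 241)) (XT.lf (nat_lit 0)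 (nat_lit 31003719342) (nat_lit 76) (nat_lit 14224663402) (nat_lit 76) (nat_lit 6683354033) (nat_lit 7) (nat_lit 4) (nat_lit 8) (nat_lit 5) (nat_lit 8) (nat_lit 4) (nat_lit 379) (nat_lit 281) (nat_lit 240))))) (XT.nd (nat_lit 234) (nat_lit 0) (nat_lit 0) (XT.nd (nat_lit 78) (nat_lit 152) (nat_lit 0) (XT.lf (nat_lit 0) (nat_lit 41330794661) (nat_lit 76) (nat_lit 10272810233) (nat_lit 76) (nat_lit 2675319601) (nat_lit 7) (nat_lit 4) (nat_lit 8) (nat_lit 5) (nat_lit 8) (nat_lit 4) (nat_lit 380) (nat_lit 281) (nat_lit 239)) (XT.nd (nat_lit 78) (nat_lit 76) (nat_lit 0) (XT.lf (nat_lit 0) (nat_lit 1438028221) (nat_lit 152) (nat_lit 4703038743) (nat_lit 76) (nat_lit 50624517362) (nat_lit 6) (nat_lit 5) (nat_lit 8) (nat_lit 5) (nat_lit 7) (nat_lit 4) (nat_lit 381) (nat_lit 281) (nat_lit 238)) (XT.lf (nat_lit 0) (nat_lit 3952324812) (nat_lit 76) (nat_lit 1732689564) (nat_lit 152) (nat_lit 53688484104)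 (nat_lit 5) (nat_lit 5) (nat_lit 6) (nat_lit 5) (nat_lit 7) (nat_lit 4) (nat_lit 382) (nat_lit 281) (nat_lit 237)))) (XT.nd (nat_lit 78) (nat_lit 0) (nat_lit 0) (XT.lf (nat_lit 0) (nat_lit 10226851696) (nat_lit 152) (nat_lit 49035403021) (nat_lit 0) (nat_lit 2845436318) (nat_lit 5) (nat_lit 5) (nat_lit 7) (nat_lit 4) (nat_lit 5) (nat_lit 4) (nat_lit 383) (nat_lit 281) (nat_lit 236)) (XT.nd (nat_lit 78) (nat_lit 0) (nat_lit 0) (XT.lf (nat_lit 0) (nat_lit 14982596648) (nat_lit 152) (nat_lit 42439501419) (nat_lit 0) (nat_lit 7557161781) (nat_lit 5) (nat_lit 5) (nat_lit 7) (nat_lit 4) (nat_lit 5) (nat_lit 4) (nat_lit 384) (nat_lit 281) (nat_lit 235)) (XT.lf (nat_lit 0) (nat_lit 19936520295) (nat_lit 152) (nat_lit 35590712195) (nat_lit 0) (nat_lit 12469162104) (nat_lit 5) (nat_lit 5) (nat_lit 7) (nat_lit 4) (nat_lit 5) (nat_lit 4) (nat_lit 385) (nat_lit 281) (nat_lit 234)))))) (XT.nd (nat_lit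 468) (nat_lit 0) (nat_lit 0) (XT.nd (nat_lit 234) (nat_lit 76) (nat_lit 0) (XT.nd (nat_lit 78) (nat_lit 0) (nat_lit 0) (XT.lf (nat_lit 0) (nat_lit 25100417693) (nat_lit 152) (nat_lit 28472728707) (nat_lit 0) (nat_lit 17593132526) (nat_lit 5) (nat_lit 5) (nat_lit 7) (nat_lit 4) (nat_lit 5) (nat_lit 4) (nat_lit 386) (nat_lit 281) (nat_lit 233)) (XT.nd (nat_lit 78) (nat_lit 0) (nat_lit 0) (XT.lf (nat_lit 0) (nat_lit 30486583835) (nat_lit 152) (nat_lit 21068603377) (nat_lit 0) (nat_lit 22941272978) (nat_lit 5) (nat_lit 5) (nat_lit 7) (nat_lit 4) (nat_lit 5) (nat_lit 4) (nat_lit 387) (nat_lit 281) (nat_lit 232)) (XT.lf (nat_lit 0) (nat_lit 36107842926) (nat_lit 152) (nat_lit 13360707333) (nat_lit 0) (nat_lit 28526317126) (nat_lit 5) (nat_lit 5) (nat_lit 7) (nat_lit 4) (nat_lit 5) (nat_lit 4) (nat_lit 388) (nat_lit 281) (nat_lit 231)))) (XT.nd (nat_lit 78) (nat_lit 76) (nat_lit 0) (XT.lf (nat_lit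 0) (nat_lit 41977578918) (nat_lit 152) (nat_lit 5330688443) (nat_lit 0) (nat_lit 34361562695) (nat_lit 5) (nat_lit 5) (nat_lit 7) (nat_lit 4) (nat_lit 5) (nat_lit 4) (nat_lit 389) (nat_lit 281) (nat_lit 230)) (XT.nd (nat_lit 78) (nat_lit 0) (nat_lit 0) (XT.lf (nat_lit 0) (nat_lit 3141107440) (nat_lit 76) (nat_lit 45017701420) (nat_lit 76) (nat_lit 37368837176) (nat_lit 4) (nat_lit 4) (nat_lit 5) (nat_lit 5) (nat_lit 5) (nat_lit 4) (nat_lit 390) (nat_lit 281) (nat_lit 229)) (XT.lf (nat_lit 0) (nat_lit 12162275498) (nat_lit 76) (nat_lit 42546620441) (nat_lit 76) (nat_lit 34866472367) (nat_lit 4) (nat_lit 4) (nat_lit 5) (nat_lit 5) (nat_lit 5) (nat_lit 4) (nat_lit 391) (nat_lit 281) (nat_lit 228))))) (XT.nd (nat_lit 234) (nat_lit 0) (nat_lit 0) (XT.nd (nat_lit 78) (nat_lit 0) (nat_lit 0) (XT.lf (nat_lit 0) (nat_lit 21578038068) (nat_lit 76) (nat_lit 39979418685) (nat_lit 76) (nat_lit 32269476488)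 (nat_lit 4) (nat_lit 4) (nat_lit 5) (nat_lit 5) (nat_lit 5) (nat_lit 4) (nat_lit 392) (nat_lit 281) (nat_lit 227)) (XT.nd (nat_lit 78) (nat_lit 0) (nat_lit 0) (XT.lf (nat_lit 0) (nat_lit 31410813631) (nat_lit 76) (nat_lit 37309983768) (nat_lit 76) (nat_lit 29571666215) (nat_lit 4) (nat_lit 4) (nat_lit 5) (nat_lit 5) (nat_lit 5) (nat_lit 4) (nat_lit 393) (nat_lit 281) (nat_lit 226)) (XT.lf (nat_lit 0) (nat_lit 41684013558) (nat_lit 76) (nat_lit 34531959892) (nat_lit 76) (nat_lit 26766618191) (nat_lit 4) (nat_lit 4) (nat_lit 5) (nat_lit 5) (nat_lit 5) (nat_lit 4) (nat_lit 394) (nat_lit 281) (nat_lit 225)))) (XT.nd (nat_lit 78) (nat_lit 0) (nat_lit 0) (XT.lf (nat_lit 0) (nat_lit 52422097850) (nat_lit 76) (nat_lit 31638732714) (nat_lit 76) (nat_lit 23847653729) (nat_lit 4) (nat_lit 4) (nat_lit 5) (nat_lit 5) (nat_lit 5) (nat_lit 4) (nat_lit 395) (nat_lit 281) (nat_lit 224)) (XT.nd (nat_lit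 78) (nat_lit 0) (nat_lit 0) (XT.lf (nat_lit 0) (nat_lit 63650633372) (nat_lit 76) (nat_lit 28623413599) (nat_lit 76) (nat_lit 20807822914) (nat_lit 4) (nat_lit 4) (nat_lit 5) (nat_lit 5) (nat_lit 5) (nat_lit 4) (nat_lit 396) (nat_lit 281) (nat_lit 223)) (XT.lf (nat_lit 0) (nat_lit 75396354735) (nat_lit 76) (nat_lit 25478823214) (nat_lit 76) (nat_lit 17639888055) (nat_lit 4) (nat_lit 4) (nat_lit 5) (nat_lit 5) (nat_lit 5) (nat_lit 4) (nat_lit 397) (nat_lit 281) (nat_lit 222))))))))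
noncomputable def xc53 : XT := (XT.nd (nat_lit 1716) (nat_lit 0) (nat_lit 0) (XT.nd (nat_lit 858) (nat_lit 0) (nat_lit 0) (XT.nd (nat_lit 390) (nat_lit 76) (nat_lit 0) (XT.nd (nat_lit 156) (nat_lit 76) (nat_lit 0) (XT.nd (nat_lit 78) (nat_lit 0) (nat_lit 0) (XT.lf (nat_lit 0) (nat_lit 87687227940) (nat_lit 76) (nat_lit 22197474441) (nat_lit 76) (nat_lit 14336306448) (nat_lit 4) (nat_lit 4) (nat_lit 5) (nat_lit 5) (nat_lit 5) (nat_lit 4) (nat_lit 398) (nat_lit 281) (nat_lit 221)) (XT.lf (nat_lit 0) (nat_lit 100552516972) (nat_lit 76) (nat_lit 18771554544) (nat_lit 76) (nat_lit 10889212424) (nat_lit 4) (nat_lit 4) (nat_lit 5) (nat_lit 5) (nat_lit 5) (nat_lit 4) (nat_lit 399) (nat_lit 281) (nat_lit 220))) (XT.nd (nat_lit 78) (nat_lit 76) (nat_lit 0) (XT.lf (nat_lit 0) (nat_lit 114022853472) (nat_lit 76) (nat_lit 15192906571) (nat_lit 76) (nat_lit 7290398615) (nat_lit 4) (nat_lit 4) (nat_lit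 5) (nat_lit 5) (nat_lit 5) (nat_lit 4) (nat_lit 400) (nat_lit 281) (nat_lit 219)) (XT.nd (nat_lit 78) (nat_lit 76) (nat_lit 0) (XT.lf (nat_lit 0) (nat_lit 128130309668) (nat_lit 76) (nat_lit 11453009931) (nat_lit 76) (nat_lit 3531296418) (nat_lit 4) (nat_lit 4) (nat_lit 5) (nat_lit 5) (nat_lit 5) (nat_lit 4) (nat_lit 401) (nat_lit 281) (nat_lit 218)) (XT.lf (nat_lit 0) (nat_lit 384336510) (nat_lit 152) (nat_lit 7152114674) (nat_lit 76) (nat_lit 142517629308) (nat_lit 3) (nat_lit 5) (nat_lit 5) (nat_lit 5) (nat_lit 4) (nat_lit 4) (nat_lit 402) (nat_lit 281) (nat_lit 217))))) (XT.nd (nat_lit 234) (nat_lit 0) (nat_lit 0) (XT.nd (nat_lit 78) (nat_lit 0) (nat_lit 0) (XT.lf (nat_lit 0) (nat_lit 1012620064) (nat_lit 76) (nat_lit 3363011444) (nat_lit 152) (nat_lit 152962067216) (nat_lit 2) (nat_lit 5) (nat_lit 3) (nat_lit 5) (nat_lit 4) (nat_lit 4) (nat_lit 403) (nat_lit 281) (nat_lit 216)) (XT.nd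 (nat_lit 78) (nat_lit 0) (nat_lit 0) (XT.lf (nat_lit 0) (nat_lit 8688312166) (nat_lit 152) (nat_lit 155197085162) (nat_lit 0) (nat_lit 1094012156) (nat_lit 2) (nat_lit 5) (nat_lit 4) (nat_lit 4) (nat_lit 2) (nat_lit 4) (nat_lit 404) (nat_lit 281) (nat_lit 215)) (XT.lf (nat_lit 0) (nat_lit 13255376982) (nat_lit 152) (nat_lit 154099864915) (nat_lit 0) (nat_lit 5646028915) (nat_lit 2) (nat_lit 5) (nat_lit 4) (nat_lit 4) (nat_lit 2) (nat_lit 4) (nat_lit 405) (nat_lit 281) (nat_lit 214)))) (XT.nd (nat_lit 78) (nat_lit 0) (nat_lit 0) (XT.lf (nat_lit 0) (nat_lit 18035193885) (nat_lit 152) (nat_lit 152978299458) (nat_lit 0) (nat_lit 10411514335) (nat_lit 2) (nat_lit 5) (nat_lit 4) (nat_lit 4) (nat_lit 2) (nat_lit 4) (nat_lit 406) (nat_lit 281) (nat_lit 213)) (XT.nd (nat_lit 78) (nat_lit 0) (nat_lit 0) (XT.lf (nat_lit 0) (nat_lit 23039143393) (nat_lit 152) (nat_lit 151829718396) (nat_lit 0) (nat_lit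 15401814811) (nat_lit 2) (nat_lit 5) (nat_lit 4) (nat_lit 4) (nat_lit 2) (nat_lit 4) (nat_lit 407) (nat_lit 281) (nat_lit 212)) (XT.lf (nat_lit 0) (nat_lit 28279139670) (nat_lit 152) (nat_lit 150651387014) (nat_lit 0) (nat_lit 20628812011) (nat_lit 2) (nat_lit 5) (nat_lit 4) (nat_lit 4) (nat_lit 2) (nat_lit 4) (nat_lit 408) (nat_lit 281) (nat_lit 211)))))) (XT.nd (nat_lit 390) (nat_lit 0) (nat_lit 0) (XT.nd (nat_lit 156) (nat_lit 0) (nat_lit 0) (XT.nd (nat_lit 78) (nat_lit 0) (nat_lit 0) (XT.lf (nat_lit 0) (nat_lit 33767658898) (nat_lit 152) (nat_lit 149440499759) (nat_lit 0) (nat_lit 26104951165) (nat_lit 2) (nat_lit 5) (nat_lit 4) (nat_lit 4) (nat_lit 2) (nat_lit 4) (nat_lit 409) (nat_lit 281) (nat_lit 210)) (XT.lf (nat_lit 0) (nat_lit 39517768980) (nat_lit 152) (nat_lit 148194173567) (nat_lit 0) (nat_lit 31843270701) (nat_lit 2) (nat_lit 5) (nat_lit 4) (nat_lit 4) (nat_lit 2) (nat_lit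 4) (nat_lit 410) (nat_lit 281) (nat_lit 209))) (XT.nd (nat_lit 78) (nat_lit 0) (nat_lit 0) (XT.lf (nat_lit 0) (nat_lit 45543160655) (nat_lit 152) (nat_lit 146909440994) (nat_lit 0) (nat_lit 37857433284) (nat_lit 2) (nat_lit 5) (nat_lit 4) (nat_lit 4) (nat_lit 2) (nat_lit 4) (nat_lit 411) (nat_lit 281) (nat_lit 208)) (XT.nd (nat_lit 78) (nat_lit 0) (nat_lit 0) (XT.lf (nat_lit 0) (nat_lit 51858180092) (nat_lit 152) (nat_lit 145583243155) (nat_lit 0) (nat_lit 44161758348) (nat_lit 2) (nat_lit 5) (nat_lit 4) (nat_lit 4) (nat_lit 2) (nat_lit 4) (nat_lit 412) (nat_lit 281) (nat_lit 207)) (XT.lf (nat_lit 0) (nat_lit 58477863054) (nat_lit 152) (nat_lit 144212422434) (nat_lit 0) (nat_lit 50771256192) (nat_lit 2) (nat_lit 5) (nat_lit 4) (nat_lit 4) (nat_lit 2) (nat_lit 4) (nat_lit 413) (nat_lit 281) (nat_lit 206))))) (XT.nd (nat_lit 234) (nat_lit 0) (nat_lit 0) (XT.nd (nat_lit 78) (nat_lit 0) (nat_lit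 0) (XT.lf (nat_lit 0) (nat_lit 65417970688) (nat_lit 152) (nat_lit 142793714972) (nat_lit 0) (nat_lit 57701663716) (nat_lit 2) (nat_lit 5) (nat_lit 4) (nat_lit 4) (nat_lit 2) (nat_lit 4) (nat_lit 414) (nat_lit 281) (nat_lit 205)) (XT.nd (nat_lit 78) (nat_lit 0) (nat_lit 0) (XT.lf (nat_lit 0) (nat_lit 72695027063) (nat_lit 152) (nat_lit 141323742896) (nat_lit 0) (nat_lit 64969481888) (nat_lit 2) (nat_lit 5) (nat_lit 4) (nat_lit 4) (nat_lit 2) (nat_lit 4) (nat_lit 415) (nat_lit 281) (nat_lit 204)) (XT.lf (nat_lit 0) (nat_lit 80326358501) (nat_lit 152) (nat_lit 139799006271) (nat_lit 0) (nat_lit 72592015039) (nat_lit 2) (nat_lit 5) (nat_lit 4) (nat_lit 4) (nat_lit 2) (nat_lit 4) (nat_lit 416) (nat_lit 281) (nat_lit 203)))) (XT.nd (nat_lit 78) (nat_lit 0) (nat_lit 0) (XT.lf (nat_lit 0) (nat_lit 88330134840) (nat_lit 152) (nat_lit 138215874772) (nat_lit 0) (nat_lit 80587412057) (nat_lit 2) (nat_lit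 5) (nat_lit 4) (nat_lit 4) (nat_lit 2) (nat_lit 4) (nat_lit 417) (nat_lit 281) (nat_lit 202)) (XT.nd (nat_lit 78) (nat_lit 0) (nat_lit 0) (XT.lf (nat_lit 0) (nat_lit 96725412690) (nat_lit 152) (nat_lit 136570579038) (nat_lit 0) (nat_lit 88974709601) (nat_lit 2) (nat_lit 5) (nat_lit 4) (nat_lit 4) (nat_lit 2) (nat_lit 4) (nat_lit 418) (nat_lit 281) (nat_lit 201)) (XT.lf (nat_lit 0) (nat_lit 105532180808) (nat_lit 152) (nat_lit 134859201700) (nat_lit 0) (nat_lit 97773877428) (nat_lit 2) (nat_lit 5) (nat_lit 4) (nat_lit 4) (nat_lit 2) (nat_lit 4) (nat_lit 419) (nat_lit 281) (nat_lit 200))))))) (XT.nd (nat_lit 858) (nat_lit 0) (nat_lit 0) (XT.nd (nat_lit 390) (nat_lit 0) (nat_lit 0) (XT.nd (nat_lit 156) (nat_lit 0) (nat_lit 0) (XT.nd (nat_lit 78) (nat_lit 0) (nat_lit 0) (XT.lf (nat_lit 0) (nat_lit 114771407689) (nat_lit 152) (nat_lit 133077668047) (nat_lit 0) (nat_lit 107005865936) (nat_lit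 2) (nat_lit 5) (nat_lit 4) (nat_lit 4) (nat_lit 2) (nat_lit 4) (nat_lit 420) (nat_lit 281) (nat_lit 199)) (XT.lf (nat_lit 0) (nat_lit 124465091493) (nat_lit 152) (nat_lit 131221736335) (nat_lit 0) (nat_lit 116692656052) (nat_lit 2) (nat_lit 5) (nat_lit 4) (nat_lit 4) (nat_lit 2) (nat_lit 4) (nat_lit 421) (nat_lit 281) (nat_lit 198))) (XT.nd (nat_lit 78) (nat_lit 0) (nat_lit 0) (XT.lf (nat_lit 0) (nat_lit 134636312419) (nat_lit 152) (nat_lit 129286987677) (nat_lit 0) (nat_lit 126857311561) (nat_lit 2) (nat_lit 5) (nat_lit 4) (nat_lit 4) (nat_lit 2) (nat_lit 4) (nat_lit 422) (nat_lit 281) (nat_lit 197)) (XT.nd (nat_lit 78) (nat_lit 0) (nat_lit 0) (XT.lf (nat_lit 0) (nat_lit 145309287660) (nat_lit 152) (nat_lit 127268815530) (nat_lit 0) (nat_lit 137524034023) (nat_lit 2) (nat_lit 5) (nat_lit 4) (nat_lit 4) (nat_lit 2) (nat_lit 4) (nat_lit 423) (nat_lit 281) (nat_lit 196)) (XT.lf (nat_lit 0)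 (nat_lit 156509429062) (nat_lit 152) (nat_lit 125162414721) (nat_lit 0) (nat_lit 148718220398) (nat_lit 2) (nat_lit 5) (nat_lit 4) (nat_lit 4) (nat_lit 2) (nat_lit 4) (nat_lit 424) (nat_lit 281) (nat_lit 195))))) (XT.nd (nat_lit 234) (nat_lit 0) (nat_lit 0) (XT.nd (nat_lit 78) (nat_lit 0) (nat_lit 0) (XT.lf (nat_lit 0) (nat_lit 168263403628) (nat_lit 152) (nat_lit 122962770011) (nat_lit 0) (nat_lit 160466523509) (nat_lit 2) (nat_lit 5) (nat_lit 4) (nat_lit 4) (nat_lit 2) (nat_lit 4) (nat_lit 425) (nat_lit 281) (nat_lit 194)) (XT.nd (nat_lit 78) (nat_lit 0) (nat_lit 0) (XT.lf (nat_lit 0) (nat_lit 180599197011) (nat_lit 152) (nat_lit 120664644150) (nat_lit 0) (nat_lit 172796915508) (nat_lit 2) (nat_lit 5) (nat_lit 4) (nat_lit 4) (nat_lit 2) (nat_lit 4) (nat_lit 426) (nat_lit 281) (nat_lit 193)) (XT.lf (nat_lit 0) (nat_lit 193546180149) (nat_lit 152) (nat_lit 118262565410) (nat_lit 0) (nat_lit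 185738754469) (nat_lit 2) (nat_lit 5) (nat_lit 4) (nat_lit 4) (nat_lit 2) (nat_lit 4) (nat_lit 427) (nat_lit 281) (nat_lit 192)))) (XT.nd (nat_lit 78) (nat_lit 0) (nat_lit 0) (XT.lf (nat_lit 0) (nat_lit 207135179192) (nat_lit 152) (nat_lit 115750814556) (nat_lit 0) (nat_lit 199322854296) (nat_lit 2) (nat_lit 5) (nat_lit 4) (nat_lit 4) (nat_lit 2) (nat_lit 4) (nat_lit 428) (nat_lit 281) (nat_lit 191)) (XT.nd (nat_lit 78) (nat_lit 0) (nat_lit 0) (XT.lf (nat_lit 0) (nat_lit 221398548899) (nat_lit 152) (nat_lit 113123411229) (nat_lit 0) (nat_lit 213581558084) (nat_lit 2) (nat_lit 5) (nat_lit 4) (nat_lit 4) (nat_lit 2) (nat_lit 4) (nat_lit 429) (nat_lit 281) (nat_lit 190)) (XT.lf (nat_lit 0) (nat_lit 236370249674) (nat_lit 152) (nat_lit 110374099707) (nat_lit 0) (nat_lit 228548815126) (nat_lit 2) (nat_lit 5) (nat_lit 4) (nat_lit 4) (nat_lit 2) (nat_lit 4) (nat_lit 430) (nat_lit 281) (nat_lit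 189)))))) (XT.nd (nat_lit 39702) (nat_lit 0) (nat_lit 1976) (XT.nd (nat_lit 39468) (nat_lit 0) (nat_lit 2584) (XT.nd (nat_lit 78) (nat_lit 0) (nat_lit 0) (XT.lf (nat_lit 0) (nat_lit 252085928425) (nat_lit 152) (nat_lit 107496334009) (nat_lit 0) (nat_lit 244260261750) (nat_lit 2) (nat_lit 5) (nat_lit 4) (nat_lit 4) (nat_lit 2) (nat_lit 4) (nat_lit 431) (nat_lit 281) (nat_lit 188)) (XT.nd (nat_lit 78) (nat_lit 0) (nat_lit 0) (XT.lf (nat_lit 0) (nat_lit 268583003433) (nat_lit 152) (nat_lit 104483262313) (nat_lit 0) (nat_lit 260753306161) (nat_lit 2) (nat_lit 5) (nat_lit 4) (nat_lit 4) (nat_lit 2) (nat_lit 4) (nat_lit 432) (nat_lit 281) (nat_lit 187)) (XT.lf (nat_lit 0) (nat_lit 285900753448) (nat_lit 152) (nat_lit 101327710638) (nat_lit 0) (nat_lit 278067217513) (nat_lit 2) (nat_lit 5) (nat_lit 4) (nat_lit 4) (nat_lit 2) (nat_lit 4) (nat_lit 433) (nat_lit 281) (nat_lit 186)))) (XT.nd (nat_lit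 78) (nat_lit 380) (nat_lit 0) (XT.lf (nat_lit 0) (nat_lit 2063671363) (nat_lit 228) (nat_lit 1260979815) (nat_lit 0) (nat_lit 2063671363) (nat_lit 41) (nat_lit 5) (nat_lit 44) (nat_lit 4) (nat_lit 41) (nat_lit 4) (nat_lit 336) (nat_lit 282) (nat_lit 282)) (XT.nd (nat_lit 78) (nat_lit 228) (nat_lit 0) (XT.lf (nat_lit 0) (nat_lit 5653623271) (nat_lit 152) (nat_lit 3040664494) (nat_lit 152) (nat_lit 2364198835) (nat_lit 39) (nat_lit 4) (nat_lit 41) (nat_lit 5) (nat_lit 41) (nat_lit 4) (nat_lit 337) (nat_lit 282) (nat_lit 281)) (XT.lf (nat_lit 0) (nat_lit 2001512485) (nat_lit 228) (nat_lit 8610924567) (nat_lit 0) (nat_lit 743685184) (nat_lit 36) (nat_lit 5) (nat_lit 39) (nat_lit 4) (nat_lit 36) (nat_lit 4) (nat_lit 338) (nat_lit 282) (nat_lit 280))))) (XT.nd (nat_lit 234) (nat_lit 304) (nat_lit 0) (XT.nd (nat_lit 78) (nat_lit 304) (nat_lit 0) (XT.lf (nat_lit 0) (nat_lit 6487179700) (nat_lit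 228) (nat_lit 535568478) (nat_lit 0) (nat_lit 4644995929) (nat_lit 36) (nat_lit 5) (nat_lit 39) (nat_lit 4) (nat_lit 36) (nat_lit 4) (nat_lit 339) (nat_lit 282) (nat_lit 279)) (XT.nd (nat_lit 78) (nat_lit 152) (nat_lit 0) (XT.lf (nat_lit 0) (nat_lit 7938782197) (nat_lit 152) (nat_lit 3228238926) (nat_lit 152) (nat_lit 829525183) (nat_lit 34) (nat_lit 4) (nat_lit 36) (nat_lit 5) (nat_lit 36) (nat_lit 4) (nat_lit 340) (nat_lit 282) (nat_lit 278)) (XT.lf (nat_lit 0) (nat_lit 3555388123) (nat_lit 152) (nat_lit 8020657150) (nat_lit 0) (nat_lit 766109754) (nat_lit 32) (nat_lit 5) (nat_lit 34) (nat_lit 4) (nat_lit 32) (nat_lit 4) (nat_lit 341) (nat_lit 282) (nat_lit 277)))) (XT.nd (nat_lit 78) (nat_lit 152) (nat_lit 0) (XT.lf (nat_lit 0) (nat_lit 237363070) (nat_lit 152) (nat_lit 7869184095) (nat_lit 152) (nat_lit 4599154212) (nat_lit 30) (nat_lit 4) (nat_lit 32) (nat_lit 5) (nat_lit 32) (nat_lit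 4) (nat_lit 342) (nat_lit 282) (nat_lit 276)) (XT.nd (nat_lit 78) (nat_lit 152) (nat_lit 0) (XT.lf (nat_lit 0) (nat_lit 8929384466) (nat_lit 152) (nat_lit 3943317162) (nat_lit 152) (nat_lit 215428695) (nat_lit 30) (nat_lit 4) (nat_lit 32) (nat_lit 5) (nat_lit 32) (nat_lit 4) (nat_lit 343) (nat_lit 282) (nat_lit 275)) (XT.lf (nat_lit 0) (nat_lit 4175233181) (nat_lit 152) (nat_lit 9105111640) (nat_lit 0) (nat_lit 209571979) (nat_lit 28) (nat_lit 5) (nat_lit 30) (nat_lit 4) (nat_lit 28) (nat_lit 4) (nat_lit 344) (nat_lit 282) (nat_lit 274))))))))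
noncomputable def xc54 : XT := (XT.nd (nat_lit 1716) (nat_lit 456) (nat_lit 0) (XT.nd (nat_lit 858) (nat_lit 456) (nat_lit 0) (XT.nd (nat_lit 390) (nat_lit 380) (nat_lit 0) (XT.nd (nat_lit 156) (nat_lit 304) (nat_lit 0) (XT.nd (nat_lit 78) (nat_lit 152) (nat_lit 0) (XT.lf (nat_lit 0) (nat_lit 8772062509) (nat_lit 152) (nat_lit 729040603) (nat_lit 0) (nat_lit 4410885846) (nat_lit 28) (nat_lit 5) (nat_lit 30) (nat_lit 4) (nat_lit 28) (nat_lit 4) (nat_lit 345) (nat_lit 282) (nat_lit 273)) (XT.lf (nat_lit 0) (nat_lit 8085226235) (nat_lit 152) (nat_lit 5504163593) (nat_lit 152) (nat_lit 766305540) (nat_lit 26) (nat_lit 4) (nat_lit 28) (nat_lit 5) (nat_lit 28) (nat_lit 4) (nat_lit 346) (nat_lit 282) (nat_lit 272))) (XT.nd (nat_lit 78) (nat_lit 152) (nat_lit 0) (XT.lf (nat_lit 0) (nat_lit 2318778963) (nat_lit 76) (nat_lit 1298480157) (nat_lit 152) (nat_lit 11205712900) (nat_lit 24) (nat_lit 5)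 (nat_lit 25) (nat_lit 5) (nat_lit 26) (nat_lit 4) (nat_lit 347) (nat_lit 282) (nat_lit 271)) (XT.nd (nat_lit 78) (nat_lit 152) (nat_lit 0) (XT.lf (nat_lit 0) (nat_lit 8216943801) (nat_lit 152) (nat_lit 4057315318) (nat_lit 0) (nat_lit 3037645362) (nat_lit 24) (nat_lit 5) (nat_lit 26) (nat_lit 4) (nat_lit 24) (nat_lit 4) (nat_lit 348) (nat_lit 282) (nat_lit 270)) (XT.lf (nat_lit 0) (nat_lit 4711687456) (nat_lit 152) (nat_lit 8302238898) (nat_lit 152) (nat_lit 2813043747) (nat_lit 22) (nat_lit 4) (nat_lit 24) (nat_lit 5) (nat_lit 24) (nat_lit 4) (nat_lit 349) (nat_lit 282) (nat_lit 269))))) (XT.nd (nat_lit 234) (nat_lit 228) (nat_lit 0) (XT.nd (nat_lit 78) (nat_lit 76) (nat_lit 0) (XT.lf (nat_lit 0) (nat_lit 1571853957) (nat_lit 228) (nat_lit 2562034265) (nat_lit 76) (nat_lit 12235496829) (nat_lit 21) (nat_lit 5) (nat_lit 24) (nat_lit 5) (nat_lit 22) (nat_lit 4) (nat_lit 350) (nat_lit 282)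 (nat_lit 268)) (XT.nd (nat_lit 78) (nat_lit 0) (nat_lit 0) (XT.lf (nat_lit 0) (nat_lit 6064312902) (nat_lit 152) (nat_lit 10585482416) (nat_lit 0) (nat_lit 287722111) (nat_lit 20) (nat_lit 5) (nat_lit 22) (nat_lit 4) (nat_lit 20) (nat_lit 4) (nat_lit 351) (nat_lit 282) (nat_lit 267)) (XT.lf (nat_lit 0) (nat_lit 10773105520) (nat_lit 152) (nat_lit 2019846393) (nat_lit 0) (nat_lit 4741561936) (nat_lit 20) (nat_lit 5) (nat_lit 22) (nat_lit 4) (nat_lit 20) (nat_lit 4) (nat_lit 352) (nat_lit 282) (nat_lit 266)))) (XT.nd (nat_lit 78) (nat_lit 152) (nat_lit 0) (XT.lf (nat_lit 0) (nat_lit 6987982636) (nat_lit 76) (nat_lit 8724020436) (nat_lit 76) (nat_lit 2449664670) (nat_lit 19) (nat_lit 4) (nat_lit 20) (nat_lit 5) (nat_lit 20) (nat_lit 4) (nat_lit 353) (nat_lit 282) (nat_lit 265)) (XT.nd (nat_lit 78) (nat_lit 76) (nat_lit 0) (XT.lf (nat_lit 0) (nat_lit 1931849256) (nat_lit 152) (nat_lit 2545314488)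 (nat_lit 76) (nat_lit 14345396716) (nat_lit 18) (nat_lit 5) (nat_lit 20) (nat_lit 5) (nat_lit 19) (nat_lit 4) (nat_lit 354) (nat_lit 282) (nat_lit 264)) (XT.lf (nat_lit 0) (nat_lit 6443264327) (nat_lit 152) (nat_lit 13033904091) (nat_lit 0) (nat_lit 37699306) (nat_lit 17) (nat_lit 5) (nat_lit 19) (nat_lit 4) (nat_lit 17) (nat_lit 4) (nat_lit 355) (nat_lit 282) (nat_lit 263)))))) (XT.nd (nat_lit 390) (nat_lit 228) (nat_lit 0) (XT.nd (nat_lit 156) (nat_lit 152) (nat_lit 0) (XT.nd (nat_lit 78) (nat_lit 76) (nat_lit 0) (XT.lf (nat_lit 0) (nat_lit 11189493401) (nat_lit 152) (nat_lit 4467702251) (nat_lit 0) (nat_lit 4584166196) (nat_lit 17) (nat_lit 5) (nat_lit 19) (nat_lit 4) (nat_lit 17) (nat_lit 4) (nat_lit 356) (nat_lit 282) (nat_lit 262)) (XT.lf (nat_lit 0) (nat_lit 4478838919) (nat_lit 76) (nat_lit 11661297792) (nat_lit 76) (nat_lit 4865720888) (nat_lit 16) (nat_lit 4) (nat_lit 17) (nat_lit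 5) (nat_lit 17) (nat_lit 4) (nat_lit 357) (nat_lit 282) (nat_lit 261))) (XT.nd (nat_lit 78) (nat_lit 152) (nat_lit 0) (XT.lf (nat_lit 0) (nat_lit 13839579938) (nat_lit 76) (nat_lit 7473528017) (nat_lit 76) (nat_lit 496760923) (nat_lit 16) (nat_lit 4) (nat_lit 17) (nat_lit 5) (nat_lit 17) (nat_lit 4) (nat_lit 358) (nat_lit 282) (nat_lit 260)) (XT.nd (nat_lit 78) (nat_lit 0) (nat_lit 0) (XT.lf (nat_lit 0) (nat_lit 793271324) (nat_lit 76) (nat_lit 3081167945) (nat_lit 152) (nat_lit 18780739899) (nat_lit 14) (nat_lit 5) (nat_lit 15) (nat_lit 5) (nat_lit 16) (nat_lit 4) (nat_lit 359) (nat_lit 282) (nat_lit 259)) (XT.lf (nat_lit 0) (nat_lit 8511471234) (nat_lit 152) (nat_lit 13481637218) (nat_lit 0) (nat_lit 1546067403) (nat_lit 14) (nat_lit 5) (nat_lit 16) (nat_lit 4) (nat_lit 14) (nat_lit 4) (nat_lit 360) (nat_lit 282) (nat_lit 258))))) (XT.nd (nat_lit 234) (nat_lit 152) (nat_lit 0) (XT.nd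 (nat_lit 78) (nat_lit 76) (nat_lit 0) (XT.lf (nat_lit 0) (nat_lit 13338363318) (nat_lit 152) (nat_lit 4907239880) (nat_lit 0) (nat_lit 6223893870) (nat_lit 14) (nat_lit 5) (nat_lit 16) (nat_lit 4) (nat_lit 14) (nat_lit 4) (nat_lit 361) (nat_lit 282) (nat_lit 257)) (XT.nd (nat_lit 78) (nat_lit 0) (nat_lit 0) (XT.lf (nat_lit 0) (nat_lit 4059742171) (nat_lit 76) (nat_lit 14322144238) (nat_lit 76) (nat_lit 7065707535) (nat_lit 13) (nat_lit 4) (nat_lit 14) (nat_lit 5) (nat_lit 14) (nat_lit 4) (nat_lit 362) (nat_lit 282) (nat_lit 256)) (XT.lf (nat_lit 0) (nat_lit 13482047942) (nat_lit 76) (nat_lit 10192190733) (nat_lit 76) (nat_lit 2800547121) (nat_lit 13) (nat_lit 4) (nat_lit 14) (nat_lit 5) (nat_lit 14) (nat_lit 4) (nat_lit 363) (nat_lit 282) (nat_lit 255)))) (XT.nd (nat_lit 78) (nat_lit 76) (nat_lit 0) (XT.lf (nat_lit 0) (nat_lit 1540461537) (nat_lit 152) (nat_lit 4362465943) (nat_lit 76)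 (nat_lit 21653305981) (nat_lit 12) (nat_lit 5) (nat_lit 14) (nat_lit 5) (nat_lit 13) (nat_lit 4) (nat_lit 364) (nat_lit 282) (nat_lit 254)) (XT.nd (nat_lit 78) (nat_lit 0) (nat_lit 0) (XT.lf (nat_lit 0) (nat_lit 4651425101) (nat_lit 76) (nat_lit 1345879215) (nat_lit 152) (nat_lit 22692528323) (nat_lit 11) (nat_lit 5) (nat_lit 12) (nat_lit 5) (nat_lit 13) (nat_lit 4) (nat_lit 365) (nat_lit 282) (nat_lit 253)) (XT.lf (nat_lit 0) (nat_lit 10726435446) (nat_lit 152) (nat_lit 15815116422) (nat_lit 0) (nat_lit 3336106341) (nat_lit 11) (nat_lit 5) (nat_lit 13) (nat_lit 4) (nat_lit 11) (nat_lit 4) (nat_lit 366) (nat_lit 282) (nat_lit 252))))))) (XT.nd (nat_lit 858) (nat_lit 152) (nat_lit 0) (XT.nd (nat_lit 390) (nat_lit 152) (nat_lit 0) (XT.nd (nat_lit 156) (nat_lit 76) (nat_lit 0) (XT.nd (nat_lit 78) (nat_lit 76) (nat_lit 0) (XT.lf (nat_lit 0) (nat_lit 15638526555) (nat_lit 152) (nat_lit 7346781884)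 (nat_lit 0) (nat_lit 8142259298) (nat_lit 11) (nat_lit 5) (nat_lit 13) (nat_lit 4) (nat_lit 11) (nat_lit 4) (nat_lit 367) (nat_lit 282) (nat_lit 251)) (XT.lf (nat_lit 0) (nat_lit 1454319015) (nat_lit 76) (nat_lit 19292647132) (nat_lit 76) (nat_lit 11695486398) (nat_lit 10) (nat_lit 4) (nat_lit 11) (nat_lit 5) (nat_lit 11) (nat_lit 4) (nat_lit 368) (nat_lit 282) (nat_lit 250))) (XT.nd (nat_lit 78) (nat_lit 76) (nat_lit 0) (XT.lf (nat_lit 0) (nat_lit 10815553845) (nat_lit 76) (nat_lit 15349052387) (nat_lit 76) (nat_lit 7655802627) (nat_lit 10) (nat_lit 4) (nat_lit 11) (nat_lit 5) (nat_lit 11) (nat_lit 4) (nat_lit 369) (nat_lit 282) (nat_lit 249)) (XT.nd (nat_lit 78) (nat_lit 76) (nat_lit 0) (XT.lf (nat_lit 0) (nat_lit 20516293473) (nat_lit 76) (nat_lit 11269555999) (nat_lit 76) (nat_lit 3484792881) (nat_lit 10) (nat_lit 4) (nat_lit 11) (nat_lit 5) (nat_lit 11) (nat_lit 4) (nat_lit 370) (nat_lit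 282) (nat_lit 248)) (XT.lf (nat_lit 0) (nat_lit 800989486) (nat_lit 152) (nat_lit 6229890249) (nat_lit 76) (nat_lit 29765080266) (nat_lit 9) (nat_lit 5) (nat_lit 11) (nat_lit 5) (nat_lit 10) (nat_lit 4) (nat_lit 371) (nat_lit 282) (nat_lit 247))))) (XT.nd (nat_lit 234) (nat_lit 76) (nat_lit 0) (XT.nd (nat_lit 78) (nat_lit 0) (nat_lit 0) (XT.lf (nat_lit 0) (nat_lit 2629143046) (nat_lit 76) (nat_lit 2533816493) (nat_lit 152) (nat_lit 33232790404) (nat_lit 8) (nat_lit 5) (nat_lit 9) (nat_lit 5) (nat_lit 10) (nat_lit 4) (nat_lit 372) (nat_lit 282) (nat_lit 246)) (XT.nd (nat_lit 78) (nat_lit 0) (nat_lit 0) (XT.lf (nat_lit 0) (nat_lit 9822647796) (nat_lit 152) (nat_lit 28077671863) (nat_lit 0) (nat_lit 2171241424) (nat_lit 8) (nat_lit 5) (nat_lit 10) (nat_lit 4) (nat_lit 8) (nat_lit 4) (nat_lit 373) (nat_lit 282) (nat_lit 245)) (XT.lf (nat_lit 0) (nat_lit 14698021785) (nat_lit 152) (nat_lit 20159105709)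 (nat_lit 0) (nat_lit 6974912303) (nat_lit 8) (nat_lit 5) (nat_lit 10) (nat_lit 4) (nat_lit 8) (nat_lit 4) (nat_lit 374) (nat_lit 282) (nat_lit 244)))) (XT.nd (nat_lit 78) (nat_lit 76) (nat_lit 0) (XT.lf (nat_lit 0) (nat_lit 19761129564) (nat_lit 152) (nat_lit 11952494729) (nat_lit 0) (nat_lit 11969731405) (nat_lit 8) (nat_lit 5) (nat_lit 10) (nat_lit 4) (nat_lit 8) (nat_lit 4) (nat_lit 375) (nat_lit 282) (nat_lit 243)) (XT.nd (nat_lit 78) (nat_lit 76) (nat_lit 0) (XT.lf (nat_lit 0) (nat_lit 25024026151) (nat_lit 152) (nat_lit 3438299375) (nat_lit 0) (nat_lit 17167591157) (nat_lit 8) (nat_lit 5) (nat_lit 10) (nat_lit 4) (nat_lit 8) (nat_lit 4) (nat_lit 376) (nat_lit 282) (nat_lit 242)) (XT.lf (nat_lit 0) (nat_lit 5582424702) (nat_lit 76) (nat_lit 25003974844) (nat_lit 76) (nat_lit 17085600007) (nat_lit 7) (nat_lit 4) (nat_lit 8) (nat_lit 5) (nat_lit 8) (nat_lit 4) (nat_lit 377) (nat_lit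 282) (nat_lit 241)))))) (XT.nd (nat_lit 468) (nat_lit 0) (nat_lit 0) (XT.nd (nat_lit 234) (nat_lit 152) (nat_lit 0) (XT.nd (nat_lit 78) (nat_lit 0) (nat_lit 0) (XT.lf (nat_lit 0) (nat_lit 15077279756) (nat_lit 76) (nat_lit 21357932931) (nat_lit 76) (nat_lit 13380567767) (nat_lit 7) (nat_lit 4) (nat_lit 8) (nat_lit 5) (nat_lit 8) (nat_lit 4) (nat_lit 378) (nat_lit 282) (nat_lit 240)) (XT.nd (nat_lit 78) (nat_lit 0) (nat_lit 0) (XT.lf (nat_lit 0) (nat_lit 24955186881) (nat_lit 76) (nat_lit 17573747997) (nat_lit 76) (nat_lit 9540201570) (nat_lit 7) (nat_lit 4) (nat_lit 8) (nat_lit 5) (nat_lit 8) (nat_lit 4) (nat_lit 379) (nat_lit 282) (nat_lit 239)) (XT.lf (nat_lit 0) (nat_lit 35239664903) (nat_lit 76) (nat_lit 13642410078) (nat_lit 76) (nat_lit 5555357686) (nat_lit 7) (nat_lit 4) (nat_lit 8) (nat_lit 5) (nat_lit 8) (nat_lit 4) (nat_lit 380) (nat_lit 282) (nat_lit 238)))) (XT.nd (nat_lit 78)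 (nat_lit 152) (nat_lit 0) (XT.lf (nat_lit 0) (nat_lit 45955200675) (nat_lit 76) (nat_lit 9554558846) (nat_lit 76) (nat_lit 1416548391) (nat_lit 7) (nat_lit 4) (nat_lit 8) (nat_lit 5) (nat_lit 8) (nat_lit 4) (nat_lit 381) (nat_lit 282) (nat_lit 237)) (XT.nd (nat_lit 78) (nat_lit 76) (nat_lit 0) (XT.lf (nat_lit 0) (nat_lit 2793708016) (nat_lit 152) (nat_lit 2459440508) (nat_lit 76) (nat_lit 54286286562) (nat_lit 6) (nat_lit 5) (nat_lit 8) (nat_lit 5) (nat_lit 7) (nat_lit 4) (nat_lit 382) (nat_lit 282) (nat_lit 236)) (XT.lf (nat_lit 0) (nat_lit 6588711383) (nat_lit 76) (nat_lit 641275830) (nat_lit 152) (nat_lit 55048921952) (nat_lit 5) (nat_lit 5) (nat_lit 6) (nat_lit 5) (nat_lit 7) (nat_lit 4) (nat_lit 383) (nat_lit 282) (nat_lit 235))))) (XT.nd (nat_lit 234) (nat_lit 0) (nat_lit 0) (XT.nd (nat_lit 78) (nat_lit 0) (nat_lit 0) (XT.lf (nat_lit 0) (nat_lit 11956398808) (nat_lit 152) (nat_lit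 49121799902) (nat_lit 0) (nat_lit 4073749383) (nat_lit 5) (nat_lit 5) (nat_lit 7) (nat_lit 4) (nat_lit 5) (nat_lit 4) (nat_lit 384) (nat_lit 282) (nat_lit 234)) (XT.nd (nat_lit 78) (nat_lit 0) (nat_lit 0) (XT.lf (nat_lit 0) (nat_lit 16891921269) (nat_lit 152) (nat_lit 42308740042) (nat_lit 0) (nat_lit 8969344869) (nat_lit 5) (nat_lit 5) (nat_lit 7) (nat_lit 4) (nat_lit 5) (nat_lit 4) (nat_lit 385) (nat_lit 282) (nat_lit 233)) (XT.lf (nat_lit 0) (nat_lit 22038293727) (nat_lit 152) (nat_lit 35224784521) (nat_lit 0) (nat_lit 14077691637) (nat_lit 5) (nat_lit 5) (nat_lit 7) (nat_lit 4) (nat_lit 5) (nat_lit 4) (nat_lit 386) (nat_lit 282) (nat_lit 232)))) (XT.nd (nat_lit 78) (nat_lit 0) (nat_lit 0) (XT.lf (nat_lit 0) (nat_lit 27407769451) (nat_lit 152) (nat_lit 27853066778) (nat_lit 0) (nat_lit 19410952417) (nat_lit 5) (nat_lit 5) (nat_lit 7) (nat_lit 4) (nat_lit 5) (nat_lit 4) (nat_lit 387)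 (nat_lit 282) (nat_lit 231)) (XT.nd (nat_lit 78) (nat_lit 0) (nat_lit 0) (XT.lf (nat_lit 0) (nat_lit 33013132906) (nat_lit 152) (nat_lit 20176035102) (nat_lit 0) (nat_lit 24981825450) (nat_lit 5) (nat_lit 5) (nat_lit 7) (nat_lit 4) (nat_lit 5) (nat_lit 4) (nat_lit 388) (nat_lit 282) (nat_lit 230)) (XT.lf (nat_lit 0) (nat_lit 38867730196) (nat_lit 152) (nat_lit 12175410849) (nat_lit 0) (nat_lit 30803574719) (nat_lit 5) (nat_lit 5) (nat_lit 7) (nat_lit 4) (nat_lit 5) (nat_lit 4) (nat_lit 389) (nat_lit 282) (nat_lit 229))))))))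
noncomputable def xc55 : XT := (XT.nd (nat_lit 1716) (nat_lit 0) (nat_lit 0) (XT.nd (nat_lit 858) (nat_lit 152) (nat_lit 0) (XT.nd (nat_lit 390) (nat_lit 0) (nat_lit 0) (XT.nd (nat_lit 156) (nat_lit 0) (nat_lit 0) (XT.nd (nat_lit 78) (nat_lit 76) (nat_lit 0) (XT.lf (nat_lit 0) (nat_lit 44985500838) (nat_lit 152) (nat_lit 3832144912) (nat_lit 0) (nat_lit 36890061531) (nat_lit 5) (nat_lit 5) (nat_lit 7) (nat_lit 4) (nat_lit 5) (nat_lit 4) (nat_lit 390) (nat_lit 282) (nat_lit 228)) (XT.lf (nat_lit 0) (nat_lit 5034771766) (nat_lit 76) (nat_lit 46424846084) (nat_lit 76) (nat_lit 38299612653) (nat_lit 4) (nat_lit 4) (nat_lit 5) (nat_lit 5) (nat_lit 5) (nat_lit 4) (nat_lit 391) (nat_lit 282) (nat_lit 227))) (XT.nd (nat_lit 78) (nat_lit 0) (nat_lit 0) (XT.lf (nat_lit 0) (nat_lit 14424302563) (nat_lit 76) (nat_lit 43870389170) (nat_lit 76) (nat_lit 35716780384) (nat_lit 4) (nat_lit 4) (nat_lit 5)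 (nat_lit 5) (nat_lit 5) (nat_lit 4) (nat_lit 392) (nat_lit 282) (nat_lit 226)) (XT.nd (nat_lit 78) (nat_lit 0) (nat_lit 0) (XT.lf (nat_lit 0) (nat_lit 24232095485) (nat_lit 76) (nat_lit 41213092198) (nat_lit 76) (nat_lit 33032459263) (nat_lit 4) (nat_lit 4) (nat_lit 5) (nat_lit 5) (nat_lit 5) (nat_lit 4) (nat_lit 393) (nat_lit 282) (nat_lit 225)) (XT.lf (nat_lit 0) (nat_lit 34481502421) (nat_lit 76) (nat_lit 38446628269) (nat_lit 76) (nat_lit 30240258051) (nat_lit 4) (nat_lit 4) (nat_lit 5) (nat_lit 5) (nat_lit 5) (nat_lit 4) (nat_lit 394) (nat_lit 282) (nat_lit 224))))) (XT.nd (nat_lit 234) (nat_lit 0) (nat_lit 0) (XT.nd (nat_lit 78) (nat_lit 0) (nat_lit 0) (XT.lf (nat_lit 0) (nat_lit 45196926720) (nat_lit 76) (nat_lit 35564410565) (nat_lit 76) (nat_lit 27333528647) (nat_lit 4) (nat_lit 4) (nat_lit 5) (nat_lit 5) (nat_lit 5) (nat_lit 4) (nat_lit 395) (nat_lit 282) (nat_lit 223)) (XT.nd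 (nat_lit 78) (nat_lit 0) (nat_lit 0) (XT.lf (nat_lit 0) (nat_lit 56403881298) (nat_lit 76) (nat_lit 32559576663) (nat_lit 76) (nat_lit 24305350270) (nat_lit 4) (nat_lit 4) (nat_lit 5) (nat_lit 5) (nat_lit 5) (nat_lit 4) (nat_lit 396) (nat_lit 282) (nat_lit 222)) (XT.lf (nat_lit 0) (nat_lit 68129049380) (nat_lit 76) (nat_lit 29424972196) (nat_lit 76) (nat_lit 21148512969) (nat_lit 4) (nat_lit 4) (nat_lit 5) (nat_lit 5) (nat_lit 5) (nat_lit 4) (nat_lit 397) (nat_lit 282) (nat_lit 221)))) (XT.nd (nat_lit 78) (nat_lit 0) (nat_lit 0) (XT.lf (nat_lit 0) (nat_lit 80400348032) (nat_lit 76) (nat_lit 26153133820) (nat_lit 76) (nat_lit 17855500466) (nat_lit 4) (nat_lit 4) (nat_lit 5) (nat_lit 5) (nat_lit 5) (nat_lit 4) (nat_lit 398) (nat_lit 282) (nat_lit 220)) (XT.nd (nat_lit 78) (nat_lit 0) (nat_lit 0) (XT.lf (nat_lit 0) (nat_lit 93246994633) (nat_lit 76) (nat_lit 22736271445) (nat_lit 76) (nat_lit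 14418472255) (nat_lit 4) (nat_lit 4) (nat_lit 5) (nat_lit 5) (nat_lit 5) (nat_lit 4) (nat_lit 399) (nat_lit 282) (nat_lit 219)) (XT.lf (nat_lit 0) (nat_lit 106699576436) (nat_lit 76) (nat_lit 19166249682) (nat_lit 76) (nat_lit 10829244935) (nat_lit 4) (nat_lit 4) (nat_lit 5) (nat_lit 5) (nat_lit 5) (nat_lit 4) (nat_lit 400) (nat_lit 282) (nat_lit 218)))))) (XT.nd (nat_lit 390) (nat_lit 0) (nat_lit 0) (XT.nd (nat_lit 156) (nat_lit 152) (nat_lit 0) (XT.nd (nat_lit 78) (nat_lit 0) (nat_lit 0) (XT.lf (nat_lit 0) (nat_lit 120790123398) (nat_lit 76) (nat_lit 15434568481) (nat_lit 76) (nat_lit 7079272727) (nat_lit 4) (nat_lit 4) (nat_lit 5) (nat_lit 5) (nat_lit 5) (nat_lit 4) (nat_lit 401) (nat_lit 282) (nat_lit 217)) (XT.lf (nat_lit 0) (nat_lit 135552184440) (nat_lit 76) (nat_lit 11532342886) (nat_lit 76) (nat_lit 3159627125) (nat_lit 4) (nat_lit 4) (nat_lit 5) (nat_lit 5) (nat_lit 5) (nat_lit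 4) (nat_lit 402) (nat_lit 282) (nat_lit 216))) (XT.nd (nat_lit 78) (nat_lit 76) (nat_lit 0) (XT.lf (nat_lit 0) (nat_lit 908969715) (nat_lit 152) (nat_lit 6525918327) (nat_lit 76) (nat_lit 150096543769) (nat_lit 3) (nat_lit 5) (nat_lit 5) (nat_lit 5) (nat_lit 4) (nat_lit 4) (nat_lit 403) (nat_lit 282) (nat_lit 215)) (XT.nd (nat_lit 78) (nat_lit 0) (nat_lit 0) (XT.lf (nat_lit 0) (nat_lit 2031185371) (nat_lit 76) (nat_lit 3059688811) (nat_lit 152) (nat_lit 160088808436) (nat_lit 2) (nat_lit 5) (nat_lit 3) (nat_lit 5) (nat_lit 4) (nat_lit 4) (nat_lit 404) (nat_lit 282) (nat_lit 214)) (XT.lf (nat_lit 0) (nat_lit 9602558363) (nat_lit 152) (nat_lit 162018392441) (nat_lit 0) (nat_lit 1583363352) (nat_lit 2) (nat_lit 5) (nat_lit 4) (nat_lit 4) (nat_lit 2) (nat_lit 4) (nat_lit 405) (nat_lit 282) (nat_lit 213))))) (XT.nd (nat_lit 234) (nat_lit 0) (nat_lit 0) (XT.nd (nat_lit 78) (nat_lit 0) (nat_lit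 0) (XT.lf (nat_lit 0) (nat_lit 14375127344) (nat_lit 152) (nat_lit 160911003895) (nat_lit 0) (nat_lit 6342283302) (nat_lit 2) (nat_lit 5) (nat_lit 4) (nat_lit 4) (nat_lit 2) (nat_lit 4) (nat_lit 406) (nat_lit 282) (nat_lit 212)) (XT.nd (nat_lit 78) (nat_lit 0) (nat_lit 0) (XT.lf (nat_lit 0) (nat_lit 19372174068) (nat_lit 152) (nat_lit 159775924654) (nat_lit 0) (nat_lit 11326330949) (nat_lit 2) (nat_lit 5) (nat_lit 4) (nat_lit 4) (nat_lit 2) (nat_lit 4) (nat_lit 407) (nat_lit 282) (nat_lit 211)) (XT.lf (nat_lit 0) (nat_lit 24605596265) (nat_lit 152) (nat_lit 158610452148) (nat_lit 0) (nat_lit 16547373072) (nat_lit 2) (nat_lit 5) (nat_lit 4) (nat_lit 4) (nat_lit 2) (nat_lit 4) (nat_lit 408) (nat_lit 282) (nat_lit 210)))) (XT.nd (nat_lit 78) (nat_lit 0) (nat_lit 0) (XT.lf (nat_lit 0) (nat_lit 30087854466) (nat_lit 152) (nat_lit 157411811442) (nat_lit 0) (nat_lit 22017840726) (nat_lit 2) (nat_lit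 5) (nat_lit 4) (nat_lit 4) (nat_lit 2) (nat_lit 4) (nat_lit 409) (nat_lit 282) (nat_lit 209)) (XT.nd (nat_lit 78) (nat_lit 0) (nat_lit 0) (XT.lf (nat_lit 0) (nat_lit 35832001664) (nat_lit 152) (nat_lit 156177148630) (nat_lit 0) (nat_lit 27750758833) (nat_lit 2) (nat_lit 5) (nat_lit 4) (nat_lit 4) (nat_lit 2) (nat_lit 4) (nat_lit 410) (nat_lit 282) (nat_lit 208)) (XT.lf (nat_lit 0) (nat_lit 41851714402) (nat_lit 152) (nat_lit 154903524039) (nat_lit 0) (nat_lit 33759777198) (nat_lit 2) (nat_lit 5) (nat_lit 4) (nat_lit 4) (nat_lit 2) (nat_lit 4) (nat_lit 411) (nat_lit 282) (nat_lit 207))))))) (XT.nd (nat_lit 858) (nat_lit 0) (nat_lit 0) (XT.nd (nat_lit 390) (nat_lit 0) (nat_lit 0) (XT.nd (nat_lit 156) (nat_lit 0) (nat_lit 0) (XT.nd (nat_lit 78) (nat_lit 0) (nat_lit 0) (XT.lf (nat_lit 0) (nat_lit 48161325328) (nat_lit 152) (nat_lit 153587905229) (nat_lit 0) (nat_lit 40059203007) (nat_lit 2)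 (nat_lit 5) (nat_lit 4) (nat_lit 4) (nat_lit 2) (nat_lit 4) (nat_lit 412) (nat_lit 282) (nat_lit 206)) (XT.lf (nat_lit 0) (nat_lit 54775857326) (nat_lit 152) (nat_lit 152227159774) (nat_lit 0) (nat_lit 46664034893) (nat_lit 2) (nat_lit 5) (nat_lit 4) (nat_lit 4) (nat_lit 2) (nat_lit 4) (nat_lit 413) (nat_lit 282) (nat_lit 205))) (XT.nd (nat_lit 78) (nat_lit 0) (nat_lit 0) (XT.lf (nat_lit 0) (nat_lit 61711059282) (nat_lit 152) (nat_lit 150818047804) (nat_lit 0) (nat_lit 53589998647) (nat_lit 2) (nat_lit 5) (nat_lit 4) (nat_lit 4) (nat_lit 2) (nat_lit 4) (nat_lit 414) (nat_lit 282) (nat_lit 204)) (XT.nd (nat_lit 78) (nat_lit 0) (nat_lit 0) (XT.lf (nat_lit 0) (nat_lit 68983443580) (nat_lit 152) (nat_lit 149357214291) (nat_lit 0) (nat_lit 60853584658) (nat_lit 2) (nat_lit 5) (nat_lit 4) (nat_lit 4) (nat_lit 2) (nat_lit 4) (nat_lit 415) (nat_lit 282) (nat_lit 203)) (XT.lf (nat_lit 0) (nat_lit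 76610325423) (nat_lit 152) (nat_lit 147841181060) (nat_lit 0) (nat_lit 68472087180) (nat_lit 2) (nat_lit 5) (nat_lit 4) (nat_lit 4) (nat_lit 2) (nat_lit 4) (nat_lit 416) (nat_lit 282) (nat_lit 202))))) (XT.nd (nat_lit 234) (nat_lit 0) (nat_lit 0) (XT.nd (nat_lit 78) (nat_lit 0) (nat_lit 0) (XT.lf (nat_lit 0) (nat_lit 84609864052) (nat_lit 152) (nat_lit 146266338508) (nat_lit 0) (nat_lit 76463645503) (nat_lit 2) (nat_lit 5) (nat_lit 4) (nat_lit 4) (nat_lit 2) (nat_lit 4) (nat_lit 417) (nat_lit 282) (nat_lit 201)) (XT.nd (nat_lit 78) (nat_lit 0) (nat_lit 0) (XT.lf (nat_lit 0) (nat_lit 93001105987) (nat_lit 152) (nat_lit 144628937009) (nat_lit 0) (nat_lit 84847287147) (nat_lit 2) (nat_lit 5) (nat_lit 4) (nat_lit 4) (nat_lit 2) (nat_lit 4) (nat_lit 418) (nat_lit 282) (nat_lit 200)) (XT.lf (nat_lit 0) (nat_lit 101804030377) (nat_lit 152) (nat_lit 142925077989) (nat_lit 0) (nat_lit 93642973164)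 (nat_lit 2) (nat_lit 5) (nat_lit 4) (nat_lit 4) (nat_lit 2) (nat_lit 4) (nat_lit 419) (nat_lit 282) (nat_lit 199)))) (XT.nd (nat_lit 78) (nat_lit 0) (nat_lit 0) (XT.lf (nat_lit 0) (nat_lit 111039596565) (nat_lit 152) (nat_lit 141150704640) (nat_lit 0) (nat_lit 102871645664) (nat_lit 2) (nat_lit 5) (nat_lit 4) (nat_lit 4) (nat_lit 2) (nat_lit 4) (nat_lit 420) (nat_lit 282) (nat_lit 198)) (XT.nd (nat_lit 78) (nat_lit 0) (nat_lit 0) (XT.lf (nat_lit 0) (nat_lit 120729793995) (nat_lit 152) (nat_lit 139301592265) (nat_lit 0) (nat_lit 112555277676) (nat_lit 2) (nat_lit 5) (nat_lit 4) (nat_lit 4) (nat_lit 2) (nat_lit 4) (nat_lit 421) (nat_lit 282) (nat_lit 197)) (XT.lf (nat_lit 0) (nat_lit 130897694564) (nat_lit 152) (nat_lit 137373338213) (nat_lit 0) (nat_lit 122716925467) (nat_lit 2) (nat_lit 5) (nat_lit 4) (nat_lit 4) (nat_lit 2) (nat_lit 4) (nat_lit 422) (nat_lit 282) (nat_lit 196)))))) (XT.nd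 (nat_lit 468) (nat_lit 0) (nat_lit 0) (XT.nd (nat_lit 234) (nat_lit 0) (nat_lit 0) (XT.nd (nat_lit 78) (nat_lit 0) (nat_lit 0) (XT.lf (nat_lit 0) (nat_lit 141567507560) (nat_lit 152) (nat_lit 135361351406) (nat_lit 0) (nat_lit 133380783436) (nat_lit 2) (nat_lit 5) (nat_lit 4) (nat_lit 4) (nat_lit 2) (nat_lit 4) (nat_lit 423) (nat_lit 282) (nat_lit 195)) (XT.nd (nat_lit 78) (nat_lit 0) (nat_lit 0) (XT.lf (nat_lit 0) (nat_lit 152764637301) (nat_lit 152) (nat_lit 133260841396) (nat_lit 0) (nat_lit 144572241722) (nat_lit 2) (nat_lit 5) (nat_lit 4) (nat_lit 4) (nat_lit 2) (nat_lit 4) (nat_lit 424) (nat_lit 282) (nat_lit 194)) (XT.lf (nat_lit 0) (nat_lit 164515743617) (nat_lit 152) (nat_lit 131066806972) (nat_lit 0) (nat_lit 156317946653) (nat_lit 2) (nat_lit 5) (nat_lit 4) (nat_lit 4) (nat_lit 2) (nat_lit 4) (nat_lit 425) (nat_lit 282) (nat_lit 193)))) (XT.nd (nat_lit 78) (nat_lit 0) (nat_lit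 0) (XT.lf (nat_lit 0) (nat_lit 176848805335) (nat_lit 152) (nat_lit 128774024240) (nat_lit 0) (nat_lit 168645864195) (nat_lit 2) (nat_lit 5) (nat_lit 4) (nat_lit 4) (nat_lit 2) (nat_lit 4) (nat_lit 426) (nat_lit 282) (nat_lit 192)) (XT.nd (nat_lit 78) (nat_lit 0) (nat_lit 0) (XT.lf (nat_lit 0) (nat_lit 189793186887) (nat_lit 152) (nat_lit 126377034194) (nat_lit 0) (nat_lit 181585346531) (nat_lit 2) (nat_lit 5) (nat_lit 4) (nat_lit 4) (nat_lit 2) (nat_lit 4) (nat_lit 427) (nat_lit 282) (nat_lit 191)) (XT.lf (nat_lit 0) (nat_lit 203379708228) (nat_lit 152) (nat_lit 123870129715) (nat_lit 0) (nat_lit 195167201953) (nat_lit 2) (nat_lit 5) (nat_lit 4) (nat_lit 4) (nat_lit 2) (nat_lit 4) (nat_lit 428) (nat_lit 282) (nat_lit 190))))) (XT.nd (nat_lit 234) (nat_lit 0) (nat_lit 0) (XT.nd (nat_lit 78) (nat_lit 0) (nat_lit 0) (XT.lf (nat_lit 0) (nat_lit 217640718219) (nat_lit 152) (nat_lit 121247341984)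 (nat_lit 0) (nat_lit 209423768211) (nat_lit 2) (nat_lit 5) (nat_lit 4) (nat_lit 4) (nat_lit 2) (nat_lit 4) (nat_lit 429) (nat_lit 282) (nat_lit 189)) (XT.nd (nat_lit 78) (nat_lit 0) (nat_lit 0) (XT.lf (nat_lit 0) (nat_lit 232610171646) (nat_lit 152) (nat_lit 118502426267) (nat_lit 0) (nat_lit 224388989511) (nat_lit 2) (nat_lit 5) (nat_lit 4) (nat_lit 4) (nat_lit 2) (nat_lit 4) (nat_lit 430) (nat_lit 282) (nat_lit 188)) (XT.lf (nat_lit 0) (nat_lit 248323710065) (nat_lit 152) (nat_lit 115628847050) (nat_lit 0) (nat_lit 240098497333) (nat_lit 2) (nat_lit 5) (nat_lit 4) (nat_lit 4) (nat_lit 2) (nat_lit 4) (nat_lit 431) (nat_lit 282) (nat_lit 187)))) (XT.nd (nat_lit 78) (nat_lit 0) (nat_lit 0) (XT.lf (nat_lit 0) (nat_lit 264818746662) (nat_lit 152) (nat_lit 112619762479) (nat_lit 0) (nat_lit 256589695267) (nat_lit 2) (nat_lit 5) (nat_lit 4) (nat_lit 4) (nat_lit 2) (nat_lit 4) (nat_lit 432) (nat_lit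 282) (nat_lit 186)) (XT.nd (nat_lit 39156) (nat_lit 0) (nat_lit 3192) (XT.lf (nat_lit 0) (nat_lit 282134555334) (nat_lit 152) (nat_lit 109468008066) (nat_lit 0) (nat_lit 273901848069) (nat_lit 2) (nat_lit 5) (nat_lit 4) (nat_lit 4) (nat_lit 2) (nat_lit 4) (nat_lit 433) (nat_lit 282) (nat_lit 185)) (XT.lf (nat_lit 0) (nat_lit 1311652898) (nat_lit 228) (nat_lit 1907117076) (nat_lit 228) (nat_lit 1907117076) (nat_lit 44) (nat_lit 4) (nat_lit 47) (nat_lit 5) (nat_lit 47) (nat_lit 4) (nat_lit 334) (nat_lit 283) (nat_lit 283))))))))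
noncomputable def xc56 : XT := (XT.nd (nat_lit 1716) (nat_lit 760) (nat_lit 0) (XT.nd (nat_lit 858) (nat_lit 836) (nat_lit 0) (XT.nd (nat_lit 390) (nat_lit 608) (nat_lit 0) (XT.nd (nat_lit 156) (nat_lit 380) (nat_lit 0) (XT.nd (nat_lit 78) (nat_lit 0) (nat_lit 0) (XT.lf (nat_lit 0) (nat_lit 115363158) (nat_lit 152) (nat_lit 304718083) (nat_lit 228) (nat_lit 10091655857) (nat_lit 41) (nat_lit 5) (nat_lit 43) (nat_lit 5) (nat_lit 44) (nat_lit 4) (nat_lit 335) (nat_lit 283) (nat_lit 282)) (XT.lf (nat_lit 0) (nat_lit 4757267185) (nat_lit 228) (nat_lit 2652939141) (nat_lit 0) (nat_lit 3370512585) (nat_lit 41) (nat_lit 5) (nat_lit 44) (nat_lit 4) (nat_lit 41) (nat_lit 4) (nat_lit 336) (nat_lit 283) (nat_lit 281))) (XT.nd (nat_lit 78) (nat_lit 228) (nat_lit 0) (XT.lf (nat_lit 0) (nat_lit 5389446050) (nat_lit 152) (nat_lit 3854104025) (nat_lit 152) (nat_lit 1823096416) (nat_lit 39) (nat_lit 4)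 (nat_lit 41) (nat_lit 5) (nat_lit 41) (nat_lit 4) (nat_lit 337) (nat_lit 283) (nat_lit 280)) (XT.nd (nat_lit 78) (nat_lit 0) (nat_lit 0) (XT.lf (nat_lit 0) (nat_lit 2338286143) (nat_lit 152) (nat_lit 92381195) (nat_lit 228) (nat_lit 8937971860) (nat_lit 36) (nat_lit 5) (nat_lit 38) (nat_lit 5) (nat_lit 39) (nat_lit 4) (nat_lit 338) (nat_lit 283) (nat_lit 279)) (XT.lf (nat_lit 0) (nat_lit 6839743058) (nat_lit 228) (nat_lit 1079829674) (nat_lit 0) (nat_lit 3764563656) (nat_lit 36) (nat_lit 5) (nat_lit 39) (nat_lit 4) (nat_lit 36) (nat_lit 4) (nat_lit 339) (nat_lit 283) (nat_lit 278))))) (XT.nd (nat_lit 234) (nat_lit 304) (nat_lit 0) (XT.nd (nat_lit 78) (nat_lit 152) (nat_lit 0) (XT.lf (nat_lit 0) (nat_lit 7252286924) (nat_lit 152) (nat_lit 4185008806) (nat_lit 152) (nat_lit 579800860) (nat_lit 34) (nat_lit 4) (nat_lit 36) (nat_lit 5) (nat_lit 36) (nat_lit 4) (nat_lit 340) (nat_lit 283) (nat_lit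 277)) (XT.nd (nat_lit 78) (nat_lit 0) (nat_lit 0) (XT.lf (nat_lit 0) (nat_lit 3475313551) (nat_lit 76) (nat_lit 224837954) (nat_lit 152) (nat_lit 8667246790) (nat_lit 32) (nat_lit 5) (nat_lit 33) (nat_lit 5) (nat_lit 34) (nat_lit 4) (nat_lit 341) (nat_lit 283) (nat_lit 276)) (XT.lf (nat_lit 0) (nat_lit 8173665930) (nat_lit 152) (nat_lit 759674126) (nat_lit 0) (nat_lit 3801524454) (nat_lit 32) (nat_lit 5) (nat_lit 34) (nat_lit 4) (nat_lit 32) (nat_lit 4) (nat_lit 342) (nat_lit 283) (nat_lit 275)))) (XT.nd (nat_lit 78) (nat_lit 152) (nat_lit 0) (XT.lf (nat_lit 0) (nat_lit 7787666205) (nat_lit 152) (nat_lit 5070960035) (nat_lit 152) (nat_lit 262762765) (nat_lit 30) (nat_lit 4) (nat_lit 32) (nat_lit 5) (nat_lit 32) (nat_lit 4) (nat_lit 343) (nat_lit 283) (nat_lit 274)) (XT.nd (nat_lit 78) (nat_lit 0) (nat_lit 0) (XT.lf (nat_lit 0) (nat_lit 3055342228) (nat_lit 76) (nat_lit 983111787) (nat_lit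 152) (nat_lit 9489338932) (nat_lit 28) (nat_lit 5) (nat_lit 29) (nat_lit 5) (nat_lit 30) (nat_lit 4) (nat_lit 344) (nat_lit 283) (nat_lit 273)) (XT.lf (nat_lit 0) (nat_lit 8553799328) (nat_lit 152) (nat_lit 2197803958) (nat_lit 0) (nat_lit 3202366981) (nat_lit 28) (nat_lit 5) (nat_lit 30) (nat_lit 4) (nat_lit 28) (nat_lit 4) (nat_lit 345) (nat_lit 283) (nat_lit 272)))))) (XT.nd (nat_lit 390) (nat_lit 304) (nat_lit 0) (XT.nd (nat_lit 156) (nat_lit 228) (nat_lit 0) (XT.nd (nat_lit 78) (nat_lit 152) (nat_lit 0) (XT.lf (nat_lit 0) (nat_lit 6453008966) (nat_lit 152) (nat_lit 6829648591) (nat_lit 152) (nat_lit 1119472062) (nat_lit 26) (nat_lit 4) (nat_lit 28) (nat_lit 5) (nat_lit 28) (nat_lit 4) (nat_lit 346) (nat_lit 283) (nat_lit 271)) (XT.lf (nat_lit 0) (nat_lit 475112520) (nat_lit 76) (nat_lit 2708765613) (nat_lit 152) (nat_lit 11690406481) (nat_lit 24) (nat_lit 5) (nat_lit 25) (nat_lit 5)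 (nat_lit 26) (nat_lit 4) (nat_lit 347) (nat_lit 283) (nat_lit 270))) (XT.nd (nat_lit 78) (nat_lit 228) (nat_lit 0) (XT.lf (nat_lit 0) (nat_lit 7699331834) (nat_lit 152) (nat_lit 6042342049) (nat_lit 0) (nat_lit 1625780212) (nat_lit 24) (nat_lit 5) (nat_lit 26) (nat_lit 4) (nat_lit 24) (nat_lit 4) (nat_lit 348) (nat_lit 283) (nat_lit 269)) (XT.nd (nat_lit 78) (nat_lit 76) (nat_lit 0) (XT.lf (nat_lit 0) (nat_lit 2550768092) (nat_lit 152) (nat_lit 9852558315) (nat_lit 152) (nat_lit 3483866968) (nat_lit 22) (nat_lit 4) (nat_lit 24) (nat_lit 5) (nat_lit 24) (nat_lit 4) (nat_lit 349) (nat_lit 283) (nat_lit 268)) (XT.lf (nat_lit 0) (nat_lit 863458950) (nat_lit 228) (nat_lit 4879685951) (nat_lit 76) (nat_lit 10689961214) (nat_lit 21) (nat_lit 5) (nat_lit 24) (nat_lit 5) (nat_lit 22) (nat_lit 4) (nat_lit 350) (nat_lit 283) (nat_lit 267))))) (XT.nd (nat_lit 234) (nat_lit 152) (nat_lit 0) (XT.nd (nat_lit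 78) (nat_lit 76) (nat_lit 0) (XT.lf (nat_lit 0) (nat_lit 3857367052) (nat_lit 76) (nat_lit 1398654549) (nat_lit 152) (nat_lit 11750232663) (nat_lit 20) (nat_lit 5) (nat_lit 21) (nat_lit 5) (nat_lit 22) (nat_lit 4) (nat_lit 351) (nat_lit 283) (nat_lit 266)) (XT.nd (nat_lit 78) (nat_lit 76) (nat_lit 0) (XT.lf (nat_lit 0) (nat_lit 9887154527) (nat_lit 152) (nat_lit 4663730311) (nat_lit 0) (nat_lit 3056268789) (nat_lit 20) (nat_lit 5) (nat_lit 22) (nat_lit 4) (nat_lit 20) (nat_lit 4) (nat_lit 352) (nat_lit 283) (nat_lit 265)) (XT.lf (nat_lit 0) (nat_lit 4156014195) (nat_lit 76) (nat_lit 10572658372) (nat_lit 76) (nat_lit 3510522936) (nat_lit 19) (nat_lit 4) (nat_lit 20) (nat_lit 5) (nat_lit 20) (nat_lit 4) (nat_lit 353) (nat_lit 283) (nat_lit 264)))) (XT.nd (nat_lit 78) (nat_lit 76) (nat_lit 0) (XT.lf (nat_lit 0) (nat_lit 851943234) (nat_lit 152) (nat_lit 5535889612) (nat_lit 76) (nat_lit 12515750857)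 (nat_lit 18) (nat_lit 5) (nat_lit 20) (nat_lit 5) (nat_lit 19) (nat_lit 4) (nat_lit 354) (nat_lit 283) (nat_lit 263)) (XT.nd (nat_lit 78) (nat_lit 0) (nat_lit 0) (XT.lf (nat_lit 0) (nat_lit 3296078022) (nat_lit 76) (nat_lit 1966459323) (nat_lit 152) (nat_lit 14338411090) (nat_lit 17) (nat_lit 5) (nat_lit 18) (nat_lit 5) (nat_lit 19) (nat_lit 4) (nat_lit 355) (nat_lit 283) (nat_lit 262)) (XT.lf (nat_lit 0) (nat_lit 9927906213) (nat_lit 152) (nat_lit 7801294231) (nat_lit 0) (nat_lit 2602300764) (nat_lit 17) (nat_lit 5) (nat_lit 19) (nat_lit 4) (nat_lit 17) (nat_lit 4) (nat_lit 356) (nat_lit 283) (nat_lit 261))))))) (XT.nd (nat_lit 858) (nat_lit 304) (nat_lit 0) (XT.nd (nat_lit 390) (nat_lit 228) (nat_lit 0) (XT.nd (nat_lit 156) (nat_lit 152) (nat_lit 0) (XT.nd (nat_lit 78) (nat_lit 0) (nat_lit 0) (XT.lf (nat_lit 0) (nat_lit 943201019) (nat_lit 76) (nat_lit 13832377510) (nat_lit 76) (nat_lit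 6325581872) (nat_lit 16) (nat_lit 4) (nat_lit 17) (nat_lit 5) (nat_lit 17) (nat_lit 4) (nat_lit 357) (nat_lit 283) (nat_lit 260)) (XT.lf (nat_lit 0) (nat_lit 10216492215) (nat_lit 76) (nat_lit 9685197196) (nat_lit 76) (nat_lit 2005839472) (nat_lit 16) (nat_lit 4) (nat_lit 17) (nat_lit 5) (nat_lit 17) (nat_lit 4) (nat_lit 358) (nat_lit 283) (nat_lit 259))) (XT.nd (nat_lit 78) (nat_lit 76) (nat_lit 0) (XT.lf (nat_lit 0) (nat_lit 2355901855) (nat_lit 152) (nat_lit 3014103761) (nat_lit 76) (nat_lit 17386912409) (nat_lit 15) (nat_lit 5) (nat_lit 17) (nat_lit 5) (nat_lit 16) (nat_lit 4) (nat_lit 359) (nat_lit 283) (nat_lit 258)) (XT.nd (nat_lit 78) (nat_lit 0) (nat_lit 0) (XT.lf (nat_lit 0) (nat_lit 6093256121) (nat_lit 76) (nat_lit 781610993) (nat_lit 152) (nat_lit 16771963187) (nat_lit 14) (nat_lit 5) (nat_lit 15) (nat_lit 5) (nat_lit 16) (nat_lit 4) (nat_lit 360) (nat_lit 283) (nat_lit 257))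 (XT.lf (nat_lit 0) (nat_lit 11646581646) (nat_lit 152) (nat_lit 9047984561) (nat_lit 0) (nat_lit 3885355854) (nat_lit 14) (nat_lit 5) (nat_lit 16) (nat_lit 4) (nat_lit 14) (nat_lit 4) (nat_lit 361) (nat_lit 283) (nat_lit 256))))) (XT.nd (nat_lit 234) (nat_lit 152) (nat_lit 0) (XT.nd (nat_lit 78) (nat_lit 76) (nat_lit 0) (XT.lf (nat_lit 0) (nat_lit 16585792771) (nat_lit 152) (nat_lit 288092809) (nat_lit 0) (nat_lit 8689360069) (nat_lit 14) (nat_lit 5) (nat_lit 16) (nat_lit 4) (nat_lit 14) (nat_lit 4) (nat_lit 362) (nat_lit 283) (nat_lit 255)) (XT.nd (nat_lit 78) (nat_lit 0) (nat_lit 0) (XT.lf (nat_lit 0) (nat_lit 9048778521) (nat_lit 76) (nat_lit 12784555646) (nat_lit 76) (nat_lit 4759354460) (nat_lit 13) (nat_lit 4) (nat_lit 14) (nat_lit 5) (nat_lit 14) (nat_lit 4) (nat_lit 363) (nat_lit 283) (nat_lit 254)) (XT.lf (nat_lit 0) (nat_lit 18714292474) (nat_lit 76) (nat_lit 8555423314) (nat_lit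 76) (nat_lit 407585475) (nat_lit 13) (nat_lit 4) (nat_lit 14) (nat_lit 5) (nat_lit 14) (nat_lit 4) (nat_lit 364) (nat_lit 283) (nat_lit 253)))) (XT.nd (nat_lit 78) (nat_lit 76) (nat_lit 0) (XT.lf (nat_lit 0) (nat_lit 3952644172) (nat_lit 152) (nat_lit 161714097) (nat_lit 76) (nat_lit 24702352414) (nat_lit 12) (nat_lit 5) (nat_lit 14) (nat_lit 5) (nat_lit 13) (nat_lit 4) (nat_lit 365) (nat_lit 283) (nat_lit 252)) (XT.nd (nat_lit 78) (nat_lit 0) (nat_lit 0) (XT.lf (nat_lit 0) (nat_lit 8599041913) (nat_lit 152) (nat_lit 20787616572) (nat_lit 0) (nat_lit 622023143) (nat_lit 11) (nat_lit 5) (nat_lit 13) (nat_lit 4) (nat_lit 11) (nat_lit 4) (nat_lit 366) (nat_lit 283) (nat_lit 251)) (XT.lf (nat_lit 0) (nat_lit 13476029575) (nat_lit 152) (nat_lit 12386207720) (nat_lit 0) (nat_lit 5398117327) (nat_lit 11) (nat_lit 5) (nat_lit 13) (nat_lit 4) (nat_lit 11) (nat_lit 4) (nat_lit 367) (nat_lit 283)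 (nat_lit 250)))))) (XT.nd (nat_lit 468) (nat_lit 76) (nat_lit 0) (XT.nd (nat_lit 234) (nat_lit 152) (nat_lit 0) (XT.nd (nat_lit 78) (nat_lit 76) (nat_lit 0) (XT.lf (nat_lit 0) (nat_lit 18528331317) (nat_lit 152) (nat_lit 3695392860) (nat_lit 0) (nat_lit 10354330044) (nat_lit 11) (nat_lit 5) (nat_lit 13) (nat_lit 4) (nat_lit 11) (nat_lit 4) (nat_lit 368) (nat_lit 283) (nat_lit 249)) (XT.nd (nat_lit 78) (nat_lit 0) (nat_lit 0) (XT.lf (nat_lit 0) (nat_lit 5480944888) (nat_lit 76) (nat_lit 18372604452) (nat_lit 76) (nat_lit 10107089820) (nat_lit 10) (nat_lit 4) (nat_lit 11) (nat_lit 5) (nat_lit 11) (nat_lit 4) (nat_lit 369) (nat_lit 283) (nat_lit 248)) (XT.lf (nat_lit 0) (nat_lit 15121960035) (nat_lit 76) (nat_lit 14321576400) (nat_lit 76) (nat_lit 5968906189) (nat_lit 10) (nat_lit 4) (nat_lit 11) (nat_lit 5) (nat_lit 11) (nat_lit 4) (nat_lit 370) (nat_lit 283) (nat_lit 247)))) (XT.nd (nat_lit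 78) (nat_lit 152) (nat_lit 0) (XT.lf (nat_lit 0) (nat_lit 25128421002) (nat_lit 76) (nat_lit 10123577983) (nat_lit 76) (nat_lit 1687902459) (nat_lit 10) (nat_lit 4) (nat_lit 11) (nat_lit 5) (nat_lit 11) (nat_lit 4) (nat_lit 371) (nat_lit 283) (nat_lit 246)) (XT.nd (nat_lit 78) (nat_lit 76) (nat_lit 0) (XT.lf (nat_lit 0) (nat_lit 2658221431) (nat_lit 152) (nat_lit 3065374270) (nat_lit 76) (nat_lit 32820912997) (nat_lit 9) (nat_lit 5) (nat_lit 11) (nat_lit 5) (nat_lit 10) (nat_lit 4) (nat_lit 372) (nat_lit 283) (nat_lit 245)) (XT.lf (nat_lit 0) (nat_lit 6180546006) (nat_lit 76) (nat_lit 1024606421) (nat_lit 152) (nat_lit 33020811168) (nat_lit 8) (nat_lit 5) (nat_lit 9) (nat_lit 5) (nat_lit 10) (nat_lit 4) (nat_lit 373) (nat_lit 283) (nat_lit 244))))) (XT.nd (nat_lit 234) (nat_lit 76) (nat_lit 0) (XT.nd (nat_lit 78) (nat_lit 0) (nat_lit 0) (XT.lf (nat_lit 0) (nat_lit 12037195336) (nat_lit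 152) (nat_lit 26163480546) (nat_lit 0) (nat_lit 3787938592) (nat_lit 8) (nat_lit 5) (nat_lit 10) (nat_lit 4) (nat_lit 8) (nat_lit 4) (nat_lit 374) (nat_lit 283) (nat_lit 243)) (XT.nd (nat_lit 78) (nat_lit 0) (nat_lit 0) (XT.lf (nat_lit 0) (nat_lit 17074270636) (nat_lit 152) (nat_lit 18006989651) (nat_lit 0) (nat_lit 8759977058) (nat_lit 8) (nat_lit 5) (nat_lit 10) (nat_lit 4) (nat_lit 8) (nat_lit 4) (nat_lit 375) (nat_lit 283) (nat_lit 242)) (XT.lf (nat_lit 0) (nat_lit 22312374387) (nat_lit 152) (nat_lit 9540527710) (nat_lit 0) (nat_lit 13936140965) (nat_lit 8) (nat_lit 5) (nat_lit 10) (nat_lit 4) (nat_lit 8) (nat_lit 4) (nat_lit 376) (nat_lit 283) (nat_lit 241)))) (XT.nd (nat_lit 78) (nat_lit 76) (nat_lit 0) (XT.lf (nat_lit 0) (nat_lit 27763978263) (nat_lit 152) (nat_lit 743936481) (nat_lit 0) (nat_lit 19328754515) (nat_lit 8) (nat_lit 5) (nat_lit 10) (nat_lit 4) (nat_lit 8) (nat_lit 4)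 (nat_lit 377) (nat_lit 283) (nat_lit 240)) (XT.nd (nat_lit 78) (nat_lit 0) (nat_lit 0) (XT.lf (nat_lit 0) (nat_lit 8681593511) (nat_lit 76) (nat_lit 24896012767) (nat_lit 76) (nat_lit 16404607756) (nat_lit 7) (nat_lit 4) (nat_lit 8) (nat_lit 5) (nat_lit 8) (nat_lit 4) (nat_lit 378) (nat_lit 283) (nat_lit 239)) (XT.lf (nat_lit 0) (nat_lit 18516903339) (nat_lit 76) (nat_lit 21132343083) (nat_lit 76) (nat_lit 12587432106) (nat_lit 7) (nat_lit 4) (nat_lit 8) (nat_lit 5) (nat_lit 8) (nat_lit 4) (nat_lit 379) (nat_lit 283) (nat_lit 238))))))))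
noncomputable def xc57 : XT := (XT.nd (nat_lit 1716) (nat_lit 152) (nat_lit 0) (XT.nd (nat_lit 858) (nat_lit 76) (nat_lit 0) (XT.nd (nat_lit 390) (nat_lit 0) (nat_lit 0) (XT.nd (nat_lit 156) (nat_lit 152) (nat_lit 0) (XT.nd (nat_lit 78) (nat_lit 0) (nat_lit 0) (XT.lf (nat_lit 0) (nat_lit 28760812506) (nat_lit 76) (nat_lit 17220543497) (nat_lit 76) (nat_lit 8624674458) (nat_lit 7) (nat_lit 4) (nat_lit 8) (nat_lit 5) (nat_lit 8) (nat_lit 4) (nat_lit 380) (nat_lit 283) (nat_lit 237)) (XT.lf (nat_lit 0) (nat_lit 39437711273) (nat_lit 76) (nat_lit 13151300201) (nat_lit 76) (nat_lit 4506899675) (nat_lit 7) (nat_lit 4) (nat_lit 8) (nat_lit 5) (nat_lit 8) (nat_lit 4) (nat_lit 381) (nat_lit 283) (nat_lit 236))) (XT.nd (nat_lit 78) (nat_lit 152) (nat_lit 0) (XT.lf (nat_lit 0) (nat_lit 50573020826) (nat_lit 76) (nat_lit 8914924521) (nat_lit 76) (nat_lit 224303530) (nat_lit 7) (nat_lit 4) (nat_lit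 8) (nat_lit 5) (nat_lit 8) (nat_lit 4) (nat_lit 382) (nat_lit 283) (nat_lit 235)) (XT.nd (nat_lit 78) (nat_lit 76) (nat_lit 0) (XT.lf (nat_lit 0) (nat_lit 4097818255) (nat_lit 152) (nat_lit 334113057) (nat_lit 76) (nat_lit 58026037019) (nat_lit 6) (nat_lit 5) (nat_lit 8) (nat_lit 5) (nat_lit 7) (nat_lit 4) (nat_lit 383) (nat_lit 283) (nat_lit 234)) (XT.lf (nat_lit 0) (nat_lit 8741168644) (nat_lit 152) (nat_lit 56211458506) (nat_lit 0) (nat_lit 382536449) (nat_lit 5) (nat_lit 5) (nat_lit 7) (nat_lit 4) (nat_lit 5) (nat_lit 4) (nat_lit 384) (nat_lit 283) (nat_lit 233))))) (XT.nd (nat_lit 234) (nat_lit 0) (nat_lit 0) (XT.nd (nat_lit 78) (nat_lit 0) (nat_lit 0) (XT.lf (nat_lit 0) (nat_lit 13659166166) (nat_lit 152) (nat_lit 49432426613) (nat_lit 0) (nat_lit 5262508280) (nat_lit 5) (nat_lit 5) (nat_lit 7) (nat_lit 4) (nat_lit 5) (nat_lit 4) (nat_lit 385) (nat_lit 283) (nat_lit 232)) (XT.nd (nat_lit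 78) (nat_lit 0) (nat_lit 0) (XT.lf (nat_lit 0) (nat_lit 18788848206) (nat_lit 152) (nat_lit 42380878679) (nat_lit 0) (nat_lit 10355975377) (nat_lit 5) (nat_lit 5) (nat_lit 7) (nat_lit 4) (nat_lit 5) (nat_lit 4) (nat_lit 386) (nat_lit 283) (nat_lit 231)) (XT.lf (nat_lit 0) (nat_lit 24142428293) (nat_lit 152) (nat_lit 35040025304) (nat_lit 0) (nat_lit 15675065042) (nat_lit 5) (nat_lit 5) (nat_lit 7) (nat_lit 4) (nat_lit 5) (nat_lit 4) (nat_lit 387) (nat_lit 283) (nat_lit 230)))) (XT.nd (nat_lit 78) (nat_lit 0) (nat_lit 0) (XT.lf (nat_lit 0) (nat_lit 29732653047) (nat_lit 152) (nat_lit 27392388266) (nat_lit 0) (nat_lit 21232441774) (nat_lit 5) (nat_lit 5) (nat_lit 7) (nat_lit 4) (nat_lit 5) (nat_lit 4) (nat_lit 388) (nat_lit 283) (nat_lit 229)) (XT.nd (nat_lit 78) (nat_lit 0) (nat_lit 0) (XT.lf (nat_lit 0) (nat_lit 35572832526) (nat_lit 152) (nat_lit 19419758905) (nat_lit 0) (nat_lit 27041337424)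 (nat_lit 5) (nat_lit 5) (nat_lit 7) (nat_lit 4) (nat_lit 5) (nat_lit 4) (nat_lit 389) (nat_lit 283) (nat_lit 228)) (XT.lf (nat_lit 0) (nat_lit 41676871919) (nat_lit 152) (nat_lit 11103154770) (nat_lit 0) (nat_lit 33115582694) (nat_lit 5) (nat_lit 5) (nat_lit 7) (nat_lit 4) (nat_lit 5) (nat_lit 4) (nat_lit 390) (nat_lit 283) (nat_lit 227)))))) (XT.nd (nat_lit 390) (nat_lit 0) (nat_lit 0) (XT.nd (nat_lit 156) (nat_lit 0) (nat_lit 0) (XT.nd (nat_lit 78) (nat_lit 76) (nat_lit 0) (XT.lf (nat_lit 0) (nat_lit 48059304655) (nat_lit 152) (nat_lit 2422774422) (nat_lit 0) (nat_lit 39469640074) (nat_lit 5) (nat_lit 5) (nat_lit 7) (nat_lit 4) (nat_lit 5) (nat_lit 4) (nat_lit 391) (nat_lit 283) (nat_lit 226)) (XT.lf (nat_lit 0) (nat_lit 6861665868) (nat_lit 76) (nat_lit 47980790966) (nat_lit 76) (nat_lit 39364102237) (nat_lit 4) (nat_lit 4) (nat_lit 5) (nat_lit 5) (nat_lit 5) (nat_lit 4) (nat_lit 392)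 (nat_lit 283) (nat_lit 225))) (XT.nd (nat_lit 78) (nat_lit 0) (nat_lit 0) (XT.lf (nat_lit 0) (nat_lit 16645665799) (nat_lit 76) (nat_lit 45335053941) (nat_lit 76) (nat_lit 36692627928) (nat_lit 4) (nat_lit 4) (nat_lit 5) (nat_lit 5) (nat_lit 5) (nat_lit 4) (nat_lit 393) (nat_lit 283) (nat_lit 224)) (XT.nd (nat_lit 78) (nat_lit 0) (nat_lit 0) (XT.lf (nat_lit 0) (nat_lit 26872412743) (nat_lit 76) (nat_lit 42579599486) (nat_lit 76) (nat_lit 33912661774) (nat_lit 4) (nat_lit 4) (nat_lit 5) (nat_lit 5) (nat_lit 5) (nat_lit 4) (nat_lit 394) (nat_lit 283) (nat_lit 223)) (XT.lf (nat_lit 0) (nat_lit 37566256098) (nat_lit 76) (nat_lit 39707866996) (nat_lit 76) (nat_lit 31017584808) (nat_lit 4) (nat_lit 4) (nat_lit 5) (nat_lit 5) (nat_lit 5) (nat_lit 4) (nat_lit 395) (nat_lit 283) (nat_lit 222))))) (XT.nd (nat_lit 234) (nat_lit 0) (nat_lit 0) (XT.nd (nat_lit 78) (nat_lit 0) (nat_lit 0) (XT.lf (nat_lit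 0) (nat_lit 48752657395) (nat_lit 76) (nat_lit 36713019011) (nat_lit 76) (nat_lit 28000503989) (nat_lit 4) (nat_lit 4) (nat_lit 5) (nat_lit 5) (nat_lit 5) (nat_lit 4) (nat_lit 396) (nat_lit 283) (nat_lit 221)) (XT.nd (nat_lit 78) (nat_lit 0) (nat_lit 0) (XT.lf (nat_lit 0) (nat_lit 60458250924) (nat_lit 76) (nat_lit 33587924941) (nat_lit 76) (nat_lit 24854235792) (nat_lit 4) (nat_lit 4) (nat_lit 5) (nat_lit 5) (nat_lit 5) (nat_lit 4) (nat_lit 397) (nat_lit 283) (nat_lit 220)) (XT.lf (nat_lit 0) (nat_lit 72710907145) (nat_lit 76) (nat_lit 30325144087) (nat_lit 76) (nat_lit 21571289102) (nat_lit 4) (nat_lit 4) (nat_lit 5) (nat_lit 5) (nat_lit 5) (nat_lit 4) (nat_lit 398) (nat_lit 283) (nat_lit 219)))) (XT.nd (nat_lit 78) (nat_lit 0) (nat_lit 0) (XT.lf (nat_lit 0) (nat_lit 85539799050) (nat_lit 76) (nat_lit 26916907922) (nat_lit 76) (nat_lit 18143847380) (nat_lit 4) (nat_lit 4) (nat_lit 5)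 (nat_lit 5) (nat_lit 5) (nat_lit 4) (nat_lit 399) (nat_lit 283) (nat_lit 218)) (XT.nd (nat_lit 78) (nat_lit 0) (nat_lit 0) (XT.lf (nat_lit 0) (nat_lit 98975471618) (nat_lit 76) (nat_lit 23355101598) (nat_lit 76) (nat_lit 14563750049) (nat_lit 4) (nat_lit 4) (nat_lit 5) (nat_lit 5) (nat_lit 5) (nat_lit 4) (nat_lit 400) (nat_lit 283) (nat_lit 217)) (XT.lf (nat_lit 0) (nat_lit 113049914547) (nat_lit 76) (nat_lit 19631244625) (nat_lit 76) (nat_lit 10822473068) (nat_lit 4) (nat_lit 4) (nat_lit 5) (nat_lit 5) (nat_lit 5) (nat_lit 4) (nat_lit 401) (nat_lit 283) (nat_lit 216))))))) (XT.nd (nat_lit 858) (nat_lit 0) (nat_lit 0) (XT.nd (nat_lit 390) (nat_lit 0) (nat_lit 0) (XT.nd (nat_lit 156) (nat_lit 152) (nat_lit 0) (XT.nd (nat_lit 78) (nat_lit 0) (nat_lit 0) (XT.lf (nat_lit 0) (nat_lit 127796638414) (nat_lit 76) (nat_lit 15736470675) (nat_lit 76) (nat_lit 6911108636) (nat_lit 4) (nat_lit 4) (nat_lit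 5) (nat_lit 5) (nat_lit 5) (nat_lit 4) (nat_lit 402) (nat_lit 283) (nat_lit 215)) (XT.lf (nat_lit 0) (nat_lit 143250754468) (nat_lit 76) (nat_lit 11661506478) (nat_lit 76) (nat_lit 2820343979) (nat_lit 4) (nat_lit 4) (nat_lit 5) (nat_lit 5) (nat_lit 5) (nat_lit 4) (nat_lit 403) (nat_lit 283) (nat_lit 214))) (XT.nd (nat_lit 78) (nat_lit 76) (nat_lit 0) (XT.lf (nat_lit 0) (nat_lit 1412845755) (nat_lit 152) (nat_lit 5959876756) (nat_lit 76) (nat_lit 158012285240) (nat_lit 3) (nat_lit 5) (nat_lit 5) (nat_lit 5) (nat_lit 4) (nat_lit 4) (nat_lit 404) (nat_lit 283) (nat_lit 213)) (XT.nd (nat_lit 78) (nat_lit 0) (nat_lit 0) (XT.lf (nat_lit 0) (nat_lit 3010689587) (nat_lit 76) (nat_lit 2785033156) (nat_lit 152) (nat_lit 167620358027) (nat_lit 2) (nat_lit 5) (nat_lit 3) (nat_lit 5) (nat_lit 4) (nat_lit 4) (nat_lit 405) (nat_lit 283) (nat_lit 212)) (XT.lf (nat_lit 0) (nat_lit 10517906769) (nat_lit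 152) (nat_lit 169268022286) (nat_lit 0) (nat_lit 2056772417) (nat_lit 2) (nat_lit 5) (nat_lit 4) (nat_lit 4) (nat_lit 2) (nat_lit 4) (nat_lit 406) (nat_lit 283) (nat_lit 211))))) (XT.nd (nat_lit 234) (nat_lit 0) (nat_lit 0) (XT.nd (nat_lit 78) (nat_lit 0) (nat_lit 0) (XT.lf (nat_lit 0) (nat_lit 15508379414) (nat_lit 152) (nat_lit 168145801921) (nat_lit 0) (nat_lit 7034864988) (nat_lit 2) (nat_lit 5) (nat_lit 4) (nat_lit 4) (nat_lit 2) (nat_lit 4) (nat_lit 407) (nat_lit 283) (nat_lit 210)) (XT.nd (nat_lit 78) (nat_lit 0) (nat_lit 0) (XT.lf (nat_lit 0) (nat_lit 20735540584) (nat_lit 152) (nat_lit 166992575964) (nat_lit 0) (nat_lit 12250235611) (nat_lit 2) (nat_lit 5) (nat_lit 4) (nat_lit 4) (nat_lit 2) (nat_lit 4) (nat_lit 408) (nat_lit 283) (nat_lit 209)) (XT.lf (nat_lit 0) (nat_lit 26211835900) (nat_lit 152) (nat_lit 165805598639) (nat_lit 0) (nat_lit 17715301836) (nat_lit 2) (nat_lit 5)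 (nat_lit 4) (nat_lit 4) (nat_lit 2) (nat_lit 4) (nat_lit 409) (nat_lit 283) (nat_lit 208)))) (XT.nd (nat_lit 78) (nat_lit 0) (nat_lit 0) (XT.lf (nat_lit 0) (nat_lit 31950304162) (nat_lit 152) (nat_lit 164582043808) (nat_lit 0) (nat_lit 23443075724) (nat_lit 2) (nat_lit 5) (nat_lit 4) (nat_lit 4) (nat_lit 2) (nat_lit 4) (nat_lit 410) (nat_lit 283) (nat_lit 207)) (XT.nd (nat_lit 78) (nat_lit 0) (nat_lit 0) (XT.lf (nat_lit 0) (nat_lit 37964608388) (nat_lit 152) (nat_lit 163318998246) (nat_lit 0) (nat_lit 29447194833) (nat_lit 2) (nat_lit 5) (nat_lit 4) (nat_lit 4) (nat_lit 2) (nat_lit 4) (nat_lit 411) (nat_lit 283) (nat_lit 206)) (XT.lf (nat_lit 0) (nat_lit 44269068351) (nat_lit 152) (nat_lit 162013454702) (nat_lit 0) (nat_lit 35741954684) (nat_lit 2) (nat_lit 5) (nat_lit 4) (nat_lit 4) (nat_lit 2) (nat_lit 4) (nat_lit 412) (nat_lit 283) (nat_lit 205)))))) (XT.nd (nat_lit 468) (nat_lit 0)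 (nat_lit 0) (XT.nd (nat_lit 234) (nat_lit 0) (nat_lit 0) (XT.nd (nat_lit 78) (nat_lit 0) (nat_lit 0) (XT.lf (nat_lit 0) (nat_lit 50878694670) (nat_lit 152) (nat_lit 160662304739) (nat_lit 0) (nat_lit 42342342802) (nat_lit 2) (nat_lit 5) (nat_lit 4) (nat_lit 4) (nat_lit 2) (nat_lit 4) (nat_lit 413) (nat_lit 283) (nat_lit 204)) (XT.nd (nat_lit 78) (nat_lit 0) (nat_lit 0) (XT.lf (nat_lit 0) (nat_lit 57809224550) (nat_lit 152) (nat_lit 159262331333) (nat_lit 0) (nat_lit 49264074395) (nat_lit 2) (nat_lit 5) (nat_lit 4) (nat_lit 4) (nat_lit 2) (nat_lit 4) (nat_lit 414) (nat_lit 283) (nat_lit 203)) (XT.lf (nat_lit 0) (nat_lit 65077159253) (nat_lit 152) (nat_lit 157810201214) (nat_lit 0) (nat_lit 56523629776) (nat_lit 2) (nat_lit 5) (nat_lit 4) (nat_lit 4) (nat_lit 2) (nat_lit 4) (nat_lit 415) (nat_lit 283) (nat_lit 202)))) (XT.nd (nat_lit 78) (nat_lit 0) (nat_lit 0) (XT.lf (nat_lit 0) (nat_lit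 72699803385) (nat_lit 152) (nat_lit 156302456929) (nat_lit 0) (nat_lit 64138293603) (nat_lit 2) (nat_lit 5) (nat_lit 4) (nat_lit 4) (nat_lit 2) (nat_lit 4) (nat_lit 416) (nat_lit 283) (nat_lit 201)) (XT.nd (nat_lit 78) (nat_lit 0) (nat_lit 0) (XT.lf (nat_lit 0) (nat_lit 80695306100) (nat_lit 152) (nat_lit 154735508612) (nat_lit 0) (nat_lit 72126196026) (nat_lit 2) (nat_lit 5) (nat_lit 4) (nat_lit 4) (nat_lit 2) (nat_lit 4) (nat_lit 417) (nat_lit 283) (nat_lit 200)) (XT.lf (nat_lit 0) (nat_lit 89082704307) (nat_lit 152) (nat_lit 153105625432) (nat_lit 0) (nat_lit 80506355861) (nat_lit 2) (nat_lit 5) (nat_lit 4) (nat_lit 4) (nat_lit 2) (nat_lit 4) (nat_lit 418) (nat_lit 283) (nat_lit 199))))) (XT.nd (nat_lit 234) (nat_lit 0) (nat_lit 0) (XT.nd (nat_lit 78) (nat_lit 0) (nat_lit 0) (XT.lf (nat_lit 0) (nat_lit 97881968004) (nat_lit 152) (nat_lit 151408926715) (nat_lit 0) (nat_lit 89298725869)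 (nat_lit 2) (nat_lit 5) (nat_lit 4) (nat_lit 4) (nat_lit 2) (nat_lit 4) (nat_lit 419) (nat_lit 283) (nat_lit 198)) (XT.nd (nat_lit 78) (nat_lit 0) (nat_lit 0) (XT.lf (nat_lit 0) (nat_lit 107114047817) (nat_lit 152) (nat_lit 149641372703) (nat_lit 0) (nat_lit 98524240265) (nat_lit 2) (nat_lit 5) (nat_lit 4) (nat_lit 4) (nat_lit 2) (nat_lit 4) (nat_lit 420) (nat_lit 283) (nat_lit 197)) (XT.lf (nat_lit 0) (nat_lit 116800924890) (nat_lit 152) (nat_lit 147798754934) (nat_lit 0) (nat_lit 108204864559) (nat_lit 2) (nat_lit 5) (nat_lit 4) (nat_lit 4) (nat_lit 2) (nat_lit 4) (nat_lit 421) (nat_lit 283) (nat_lit 196)))) (XT.nd (nat_lit 78) (nat_lit 0) (nat_lit 0) (XT.lf (nat_lit 0) (nat_lit 126965663215) (nat_lit 152) (nat_lit 145876686223) (nat_lit 0) (nat_lit 118363647857) (nat_lit 2) (nat_lit 5) (nat_lit 4) (nat_lit 4) (nat_lit 2) (nat_lit 4) (nat_lit 422) (nat_lit 283) (nat_lit 195)) (XT.nd (nat_lit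 78) (nat_lit 0) (nat_lit 0) (XT.lf (nat_lit 0) (nat_lit 137632464550) (nat_lit 152) (nat_lit 143870590214) (nat_lit 0) (nat_lit 129024777737) (nat_lit 2) (nat_lit 5) (nat_lit 4) (nat_lit 4) (nat_lit 2) (nat_lit 4) (nat_lit 423) (nat_lit 283) (nat_lit 194)) (XT.lf (nat_lit 0) (nat_lit 148826726041) (nat_lit 152) (nat_lit 141775690490) (nat_lit 0) (nat_lit 140213637843) (nat_lit 2) (nat_lit 5) (nat_lit 4) (nat_lit 4) (nat_lit 2) (nat_lit 4) (nat_lit 424) (nat_lit 283) (nat_lit 193))))))))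
noncomputable def xc58 : XT := (XT.nd (nat_lit 40638) (nat_lit 0) (nat_lit 684) (XT.nd (nat_lit 39780) (nat_lit 0) (nat_lit 1976) (XT.nd (nat_lit 390) (nat_lit 0) (nat_lit 0) (XT.nd (nat_lit 156) (nat_lit 0) (nat_lit 0) (XT.nd (nat_lit 78) (nat_lit 0) (nat_lit 0) (XT.lf (nat_lit 0) (nat_lit 160575100692) (nat_lit 152) (nat_lit 139586999194) (nat_lit 0) (nat_lit 151956868318) (nat_lit 2) (nat_lit 5) (nat_lit 4) (nat_lit 4) (nat_lit 2) (nat_lit 4) (nat_lit 425) (nat_lit 283) (nat_lit 192)) (XT.lf (nat_lit 0) (nat_lit 172905560823) (nat_lit 152) (nat_lit 137299305156) (nat_lit 0) (nat_lit 164282429234) (nat_lit 2) (nat_lit 5) (nat_lit 4) (nat_lit 4) (nat_lit 2) (nat_lit 4) (nat_lit 426) (nat_lit 283) (nat_lit 191))) (XT.nd (nat_lit 78) (nat_lit 0) (nat_lit 0) (XT.lf (nat_lit 0) (nat_lit 185847464673) (nat_lit 152) (nat_lit 134907161486) (nat_lit 0) (nat_lit 177219667164) (nat_lit 2) (nat_lit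 5) (nat_lit 4) (nat_lit 4) (nat_lit 2) (nat_lit 4) (nat_lit 427) (nat_lit 283) (nat_lit 190)) (XT.nd (nat_lit 78) (nat_lit 0) (nat_lit 0) (XT.lf (nat_lit 0) (nat_lit 199431626299) (nat_lit 152) (nat_lit 132404872603) (nat_lit 0) (nat_lit 190799385057) (nat_lit 2) (nat_lit 5) (nat_lit 4) (nat_lit 4) (nat_lit 2) (nat_lit 4) (nat_lit 428) (nat_lit 283) (nat_lit 189)) (XT.lf (nat_lit 0) (nat_lit 213690388942) (nat_lit 152) (nat_lit 129786480677) (nat_lit 0) (nat_lit 205053915574) (nat_lit 2) (nat_lit 5) (nat_lit 4) (nat_lit 4) (nat_lit 2) (nat_lit 4) (nat_lit 429) (nat_lit 283) (nat_lit 188))))) (XT.nd (nat_lit 234) (nat_lit 0) (nat_lit 0) (XT.nd (nat_lit 78) (nat_lit 0) (nat_lit 0) (XT.lf (nat_lit 0) (nat_lit 228657702038) (nat_lit 152) (nat_lit 127045751441) (nat_lit 0) (nat_lit 220017198072) (nat_lit 2) (nat_lit 5) (nat_lit 4) (nat_lit 4) (nat_lit 2) (nat_lit 4) (nat_lit 430) (nat_lit 283)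 (nat_lit 187)) (XT.nd (nat_lit 78) (nat_lit 0) (nat_lit 0) (XT.lf (nat_lit 0) (nat_lit 244369202045) (nat_lit 152) (nat_lit 124176159349) (nat_lit 0) (nat_lit 235724859417) (nat_lit 2) (nat_lit 5) (nat_lit 4) (nat_lit 4) (nat_lit 2) (nat_lit 4) (nat_lit 431) (nat_lit 283) (nat_lit 186)) (XT.lf (nat_lit 0) (nat_lit 260862297298) (nat_lit 152) (nat_lit 121170872040) (nat_lit 0) (nat_lit 252214298800) (nat_lit 2) (nat_lit 5) (nat_lit 4) (nat_lit 4) (nat_lit 2) (nat_lit 4) (nat_lit 432) (nat_lit 283) (nat_lit 185)))) (XT.nd (nat_lit 39000) (nat_lit 0) (nat_lit 3420) (XT.lf (nat_lit 0) (nat_lit 278176257071) (nat_lit 152) (nat_lit 118022734067) (nat_lit 0) (nat_lit 269524776792) (nat_lit 2) (nat_lit 5) (nat_lit 4) (nat_lit 4) (nat_lit 2) (nat_lit 4) (nat_lit 433) (nat_lit 283) (nat_lit 184)) (XT.nd (nat_lit 78) (nat_lit 228) (nat_lit 0) (XT.lf (nat_lit 0) (nat_lit 3564364620) (nat_lit 228) (nat_lit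 661040415) (nat_lit 228) (nat_lit 661040415) (nat_lit 50) (nat_lit 4) (nat_lit 53) (nat_lit 5) (nat_lit 53) (nat_lit 4) (nat_lit 332) (nat_lit 284) (nat_lit 284)) (XT.lf (nat_lit 0) (nat_lit 2854042188) (nat_lit 228) (nat_lit 5082635273) (nat_lit 0) (nat_lit 2070948630) (nat_lit 47) (nat_lit 5) (nat_lit 50) (nat_lit 4) (nat_lit 47) (nat_lit 4) (nat_lit 333) (nat_lit 284) (nat_lit 283)))))) (XT.nd (nat_lit 390) (nat_lit 608) (nat_lit 0) (XT.nd (nat_lit 156) (nat_lit 532) (nat_lit 0) (XT.nd (nat_lit 78) (nat_lit 76) (nat_lit 0) (XT.lf (nat_lit 0) (nat_lit 2496271753) (nat_lit 228) (nat_lit 4644233504) (nat_lit 228) (nat_lit 3115336557) (nat_lit 44) (nat_lit 4) (nat_lit 47) (nat_lit 5) (nat_lit 47) (nat_lit 4) (nat_lit 334) (nat_lit 284) (nat_lit 282)) (XT.lf (nat_lit 0) (nat_lit 1017188447) (nat_lit 304) (nat_lit 153949569) (nat_lit 76) (nat_lit 9348147878) (nat_lit 43) (nat_lit 5) (nat_lit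 47) (nat_lit 5) (nat_lit 44) (nat_lit 4) (nat_lit 335) (nat_lit 284) (nat_lit 281))) (XT.nd (nat_lit 78) (nat_lit 380) (nat_lit 0) (XT.lf (nat_lit 0) (nat_lit 5261785781) (nat_lit 228) (nat_lit 3046189528) (nat_lit 0) (nat_lit 2484974784) (nat_lit 41) (nat_lit 5) (nat_lit 44) (nat_lit 4) (nat_lit 41) (nat_lit 4) (nat_lit 336) (nat_lit 284) (nat_lit 280)) (XT.nd (nat_lit 78) (nat_lit 228) (nat_lit 0) (XT.lf (nat_lit 0) (nat_lit 4860462613) (nat_lit 152) (nat_lit 4806454188) (nat_lit 152) (nat_lit 1416068898) (nat_lit 39) (nat_lit 4) (nat_lit 41) (nat_lit 5) (nat_lit 41) (nat_lit 4) (nat_lit 337) (nat_lit 284) (nat_lit 279)) (XT.lf (nat_lit 0) (nat_lit 1645094441) (nat_lit 152) (nat_lit 1096289071) (nat_lit 228) (nat_lit 8647487093) (nat_lit 36) (nat_lit 5) (nat_lit 38) (nat_lit 5) (nat_lit 39) (nat_lit 4) (nat_lit 338) (nat_lit 284) (nat_lit 278))))) (XT.nd (nat_lit 234) (nat_lit 304) (nat_lit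 0) (XT.nd (nat_lit 78) (nat_lit 304) (nat_lit 0) (XT.lf (nat_lit 0) (nat_lit 7063214781) (nat_lit 228) (nat_lit 1897840909) (nat_lit 0) (nat_lit 2747717894) (nat_lit 36) (nat_lit 5) (nat_lit 39) (nat_lit 4) (nat_lit 36) (nat_lit 4) (nat_lit 339) (nat_lit 284) (nat_lit 277)) (XT.nd (nat_lit 78) (nat_lit 152) (nat_lit 0) (XT.lf (nat_lit 0) (nat_lit 6288906312) (nat_lit 152) (nat_lit 5288657562) (nat_lit 152) (nat_lit 468371585) (nat_lit 34) (nat_lit 4) (nat_lit 36) (nat_lit 5) (nat_lit 36) (nat_lit 4) (nat_lit 340) (nat_lit 284) (nat_lit 276)) (XT.lf (nat_lit 0) (nat_lit 2329720732) (nat_lit 76) (nat_lit 1392600352) (nat_lit 152) (nat_lit 8678151390) (nat_lit 32) (nat_lit 5) (nat_lit 33) (nat_lit 5) (nat_lit 34) (nat_lit 4) (nat_lit 341) (nat_lit 284) (nat_lit 275)))) (XT.nd (nat_lit 78) (nat_lit 304) (nat_lit 0) (XT.lf (nat_lit 0) (nat_lit 8110528832) (nat_lit 152) (nat_lit 2035845130) (nat_lit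 0) (nat_lit 2625865903) (nat_lit 32) (nat_lit 5) (nat_lit 34) (nat_lit 4) (nat_lit 32) (nat_lit 4) (nat_lit 342) (nat_lit 284) (nat_lit 274)) (XT.nd (nat_lit 78) (nat_lit 152) (nat_lit 0) (XT.lf (nat_lit 0) (nat_lit 6355429883) (nat_lit 152) (nat_lit 6353817433) (nat_lit 152) (nat_lit 453863270) (nat_lit 30) (nat_lit 4) (nat_lit 32) (nat_lit 5) (nat_lit 32) (nat_lit 4) (nat_lit 343) (nat_lit 284) (nat_lit 273)) (XT.lf (nat_lit 0) (nat_lit 1421494124) (nat_lit 76) (nat_lit 2342878435) (nat_lit 152) (nat_lit 9809776981) (nat_lit 28) (nat_lit 5) (nat_lit 29) (nat_lit 5) (nat_lit 30) (nat_lit 4) (nat_lit 344) (nat_lit 284) (nat_lit 272))))))) (XT.nd (nat_lit 858) (nat_lit 532) (nat_lit 0) (XT.nd (nat_lit 390) (nat_lit 304) (nat_lit 0) (XT.nd (nat_lit 156) (nat_lit 304) (nat_lit 0) (XT.nd (nat_lit 78) (nat_lit 152) (nat_lit 0) (XT.lf (nat_lit 0) (nat_lit 8195502499) (nat_lit 152) (nat_lit 3967991655)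 (nat_lit 0) (nat_lit 1841072962) (nat_lit 28) (nat_lit 5) (nat_lit 30) (nat_lit 4) (nat_lit 28) (nat_lit 4) (nat_lit 345) (nat_lit 284) (nat_lit 271)) (XT.lf (nat_lit 0) (nat_lit 4514871856) (nat_lit 152) (nat_lit 8319242830) (nat_lit 152) (nat_lit 1623152168) (nat_lit 26) (nat_lit 4) (nat_lit 28) (nat_lit 5) (nat_lit 28) (nat_lit 4) (nat_lit 346) (nat_lit 284) (nat_lit 270))) (XT.nd (nat_lit 78) (nat_lit 228) (nat_lit 0) (XT.lf (nat_lit 0) (nat_lit 2629155195) (nat_lit 228) (nat_lit 1631714060) (nat_lit 76) (nat_lit 10672329446) (nat_lit 25) (nat_lit 5) (nat_lit 28) (nat_lit 5) (nat_lit 26) (nat_lit 4) (nat_lit 347) (nat_lit 284) (nat_lit 269)) (XT.nd (nat_lit 78) (nat_lit 152) (nat_lit 0) (XT.lf (nat_lit 0) (nat_lit 7034376824) (nat_lit 152) (nat_lit 8345416038) (nat_lit 0) (nat_lit 52111183) (nat_lit 24) (nat_lit 5) (nat_lit 26) (nat_lit 4) (nat_lit 24) (nat_lit 4) (nat_lit 348) (nat_lit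 284) (nat_lit 268)) (XT.lf (nat_lit 0) (nat_lit 66535806) (nat_lit 152) (nat_lit 11576621217) (nat_lit 152) (nat_lit 4313270123) (nat_lit 22) (nat_lit 4) (nat_lit 24) (nat_lit 5) (nat_lit 24) (nat_lit 4) (nat_lit 349) (nat_lit 284) (nat_lit 267))))) (XT.nd (nat_lit 234) (nat_lit 152) (nat_lit 0) (XT.nd (nat_lit 78) (nat_lit 76) (nat_lit 0) (XT.lf (nat_lit 0) (nat_lit 4371096) (nat_lit 228) (nat_lit 7522090778) (nat_lit 76) (nat_lit 8979357974) (nat_lit 21) (nat_lit 5) (nat_lit 24) (nat_lit 5) (nat_lit 22) (nat_lit 4) (nat_lit 350) (nat_lit 284) (nat_lit 266)) (XT.nd (nat_lit 78) (nat_lit 0) (nat_lit 0) (XT.lf (nat_lit 0) (nat_lit 1027347668) (nat_lit 76) (nat_lit 3271848422) (nat_lit 152) (nat_lit 12784678748) (nat_lit 20) (nat_lit 5) (nat_lit 21) (nat_lit 5) (nat_lit 22) (nat_lit 4) (nat_lit 351) (nat_lit 284) (nat_lit 265)) (XT.lf (nat_lit 0) (nat_lit 8847918662) (nat_lit 152) (nat_lit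 7639568310) (nat_lit 0) (nat_lit 1201426756) (nat_lit 20) (nat_lit 5) (nat_lit 22) (nat_lit 4) (nat_lit 20) (nat_lit 4) (nat_lit 352) (nat_lit 284) (nat_lit 264)))) (XT.nd (nat_lit 78) (nat_lit 76) (nat_lit 0) (XT.lf (nat_lit 0) (nat_lit 985909382) (nat_lit 76) (nat_lit 12603400197) (nat_lit 76) (nat_lit 4736670483) (nat_lit 19) (nat_lit 4) (nat_lit 20) (nat_lit 5) (nat_lit 20) (nat_lit 4) (nat_lit 353) (nat_lit 284) (nat_lit 263)) (XT.nd (nat_lit 78) (nat_lit 76) (nat_lit 0) (XT.lf (nat_lit 0) (nat_lit 10120710520) (nat_lit 76) (nat_lit 8474662205) (nat_lit 76) (nat_lit 398182198) (nat_lit 19) (nat_lit 4) (nat_lit 20) (nat_lit 5) (nat_lit 20) (nat_lit 4) (nat_lit 354) (nat_lit 284) (nat_lit 262)) (XT.lf (nat_lit 0) (nat_lit 3925620978) (nat_lit 152) (nat_lit 228719184) (nat_lit 76) (nat_lit 15541882730) (nat_lit 18) (nat_lit 5) (nat_lit 20) (nat_lit 5) (nat_lit 19) (nat_lit 4) (nat_lit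 355) (nat_lit 284) (nat_lit 261)))))) (XT.nd (nat_lit 468) (nat_lit 228) (nat_lit 0) (XT.nd (nat_lit 234) (nat_lit 152) (nat_lit 0) (XT.nd (nat_lit 78) (nat_lit 76) (nat_lit 0) (XT.lf (nat_lit 0) (nat_lit 8505311622) (nat_lit 152) (nat_lit 11483776834) (nat_lit 0) (nat_lit 441986013) (nat_lit 17) (nat_lit 5) (nat_lit 19) (nat_lit 4) (nat_lit 17) (nat_lit 4) (nat_lit 356) (nat_lit 284) (nat_lit 260)) (XT.nd (nat_lit 78) (nat_lit 76) (nat_lit 0) (XT.lf (nat_lit 0) (nat_lit 13292762902) (nat_lit 152) (nat_lit 2854120789) (nat_lit 0) (nat_lit 5056875207) (nat_lit 17) (nat_lit 5) (nat_lit 19) (nat_lit 4) (nat_lit 17) (nat_lit 4) (nat_lit 357) (nat_lit 284) (nat_lit 259)) (XT.lf (nat_lit 0) (nat_lit 6241514737) (nat_lit 76) (nat_lit 12086695923) (nat_lit 76) (nat_lit 3686463385) (nat_lit 16) (nat_lit 4) (nat_lit 17) (nat_lit 5) (nat_lit 17) (nat_lit 4) (nat_lit 358) (nat_lit 284) (nat_lit 258))))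 (XT.nd (nat_lit 78) (nat_lit 76) (nat_lit 0) (XT.lf (nat_lit 0) (nat_lit 685855437) (nat_lit 152) (nat_lit 7150747788) (nat_lit 76) (nat_lit 15030944825) (nat_lit 15) (nat_lit 5) (nat_lit 17) (nat_lit 5) (nat_lit 16) (nat_lit 4) (nat_lit 359) (nat_lit 284) (nat_lit 257)) (XT.nd (nat_lit 78) (nat_lit 0) (nat_lit 0) (XT.lf (nat_lit 0) (nat_lit 1740377916) (nat_lit 76) (nat_lit 3355326946) (nat_lit 152) (nat_lit 18667222924) (nat_lit 14) (nat_lit 5) (nat_lit 15) (nat_lit 5) (nat_lit 16) (nat_lit 4) (nat_lit 360) (nat_lit 284) (nat_lit 256)) (XT.lf (nat_lit 0) (nat_lit 9786308462) (nat_lit 152) (nat_lit 13553930529) (nat_lit 0) (nat_lit 1359847216) (nat_lit 14) (nat_lit 5) (nat_lit 16) (nat_lit 4) (nat_lit 14) (nat_lit 4) (nat_lit 361) (nat_lit 284) (nat_lit 255))))) (XT.nd (nat_lit 234) (nat_lit 152) (nat_lit 0) (XT.nd (nat_lit 78) (nat_lit 76) (nat_lit 0) (XT.lf (nat_lit 0) (nat_lit 14686540525)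 (nat_lit 152) (nat_lit 4867518012) (nat_lit 0) (nat_lit 6131310795) (nat_lit 14) (nat_lit 5) (nat_lit 16) (nat_lit 4) (nat_lit 14) (nat_lit 4) (nat_lit 362) (nat_lit 284) (nat_lit 254)) (XT.nd (nat_lit 78) (nat_lit 0) (nat_lit 0) (XT.lf (nat_lit 0) (nat_lit 4245642753) (nat_lit 76) (nat_lit 15576325844) (nat_lit 76) (nat_lit 6898459461) (nat_lit 13) (nat_lit 4) (nat_lit 14) (nat_lit 5) (nat_lit 14) (nat_lit 4) (nat_lit 363) (nat_lit 284) (nat_lit 253)) (XT.lf (nat_lit 0) (nat_lit 13842305195) (nat_lit 76) (nat_lit 11379614900) (nat_lit 76) (nat_lit 2584951705) (nat_lit 13) (nat_lit 4) (nat_lit 14) (nat_lit 5) (nat_lit 14) (nat_lit 4) (nat_lit 364) (nat_lit 284) (nat_lit 252)))) (XT.nd (nat_lit 78) (nat_lit 76) (nat_lit 0) (XT.lf (nat_lit 0) (nat_lit 1809694277) (nat_lit 152) (nat_lit 5196024983) (nat_lit 76) (nat_lit 21944034055) (nat_lit 12) (nat_lit 5) (nat_lit 14) (nat_lit 5) (nat_lit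 13) (nat_lit 4) (nat_lit 365) (nat_lit 284) (nat_lit 251)) (XT.nd (nat_lit 78) (nat_lit 0) (nat_lit 0) (XT.lf (nat_lit 0) (nat_lit 3965160100) (nat_lit 76) (nat_lit 2365082097) (nat_lit 152) (nat_lit 23817782849) (nat_lit 11) (nat_lit 5) (nat_lit 12) (nat_lit 5) (nat_lit 13) (nat_lit 4) (nat_lit 366) (nat_lit 284) (nat_lit 250)) (XT.lf (nat_lit 0) (nat_lit 11136872444) (nat_lit 152) (nat_lit 17808269283) (nat_lit 0) (nat_lit 2458082081) (nat_lit 11) (nat_lit 5) (nat_lit 13) (nat_lit 4) (nat_lit 11) (nat_lit 4) (nat_lit 367) (nat_lit 284) (nat_lit 249))))))))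
noncomputable def xc59 : XT := (XT.nd (nat_lit 1716) (nat_lit 228) (nat_lit 0) (XT.nd (nat_lit 858) (nat_lit 152) (nat_lit 0) (XT.nd (nat_lit 390) (nat_lit 152) (nat_lit 0) (XT.nd (nat_lit 156) (nat_lit 152) (nat_lit 0) (XT.nd (nat_lit 78) (nat_lit 0) (nat_lit 0) (XT.lf (nat_lit 0) (nat_lit 16157334325) (nat_lit 152) (nat_lit 9178157994) (nat_lit 0) (nat_lit 7387030603) (nat_lit 11) (nat_lit 5) (nat_lit 13) (nat_lit 4) (nat_lit 11) (nat_lit 4) (nat_lit 368) (nat_lit 284) (nat_lit 248)) (XT.lf (nat_lit 0) (nat_lit 21366655761) (nat_lit 152) (nat_lit 235057634) (nat_lit 0) (nat_lit 12509196460) (nat_lit 11) (nat_lit 5) (nat_lit 13) (nat_lit 4) (nat_lit 11) (nat_lit 4) (nat_lit 369) (nat_lit 284) (nat_lit 247))) (XT.nd (nat_lit 78) (nat_lit 76) (nat_lit 0) (XT.lf (nat_lit 0) (nat_lit 9341304987) (nat_lit 76) (nat_lit 17581778860) (nat_lit 76) (nat_lit 8641314245) (nat_lit 10) (nat_lit 4) (nat_lit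 11) (nat_lit 5) (nat_lit 11) (nat_lit 4) (nat_lit 370) (nat_lit 284) (nat_lit 246)) (XT.nd (nat_lit 78) (nat_lit 76) (nat_lit 0) (XT.lf (nat_lit 0) (nat_lit 19293594089) (nat_lit 76) (nat_lit 13409602063) (nat_lit 76) (nat_lit 4390084769) (nat_lit 10) (nat_lit 4) (nat_lit 11) (nat_lit 5) (nat_lit 11) (nat_lit 4) (nat_lit 371) (nat_lit 284) (nat_lit 245)) (XT.lf (nat_lit 0) (nat_lit 15076980) (nat_lit 152) (nat_lit 9063897750) (nat_lit 76) (nat_lit 29622401214) (nat_lit 9) (nat_lit 5) (nat_lit 11) (nat_lit 5) (nat_lit 10) (nat_lit 4) (nat_lit 372) (nat_lit 284) (nat_lit 244))))) (XT.nd (nat_lit 234) (nat_lit 76) (nat_lit 0) (XT.nd (nat_lit 78) (nat_lit 76) (nat_lit 0) (XT.lf (nat_lit 0) (nat_lit 4439370571) (nat_lit 152) (nat_lit 65798999) (nat_lit 76) (nat_lit 35883798753) (nat_lit 9) (nat_lit 5) (nat_lit 11) (nat_lit 5) (nat_lit 10) (nat_lit 4) (nat_lit 373) (nat_lit 284) (nat_lit 243))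 (XT.nd (nat_lit 78) (nat_lit 0) (nat_lit 0) (XT.lf (nat_lit 0) (nat_lit 9189960984) (nat_lit 152) (nat_lit 32570820299) (nat_lit 0) (nat_lit 394915891) (nat_lit 8) (nat_lit 5) (nat_lit 10) (nat_lit 4) (nat_lit 8) (nat_lit 4) (nat_lit 374) (nat_lit 284) (nat_lit 242)) (XT.lf (nat_lit 0) (nat_lit 14202243448) (nat_lit 152) (nat_lit 24462062818) (nat_lit 0) (nat_lit 5345258512) (nat_lit 8) (nat_lit 5) (nat_lit 10) (nat_lit 4) (nat_lit 8) (nat_lit 4) (nat_lit 375) (nat_lit 284) (nat_lit 241)))) (XT.nd (nat_lit 78) (nat_lit 76) (nat_lit 0) (XT.lf (nat_lit 0) (nat_lit 19416734973) (nat_lit 152) (nat_lit 16041061272) (nat_lit 0) (nat_lit 10500759711) (nat_lit 8) (nat_lit 5) (nat_lit 10) (nat_lit 4) (nat_lit 8) (nat_lit 4) (nat_lit 376) (nat_lit 284) (nat_lit 240)) (XT.nd (nat_lit 78) (nat_lit 76) (nat_lit 0) (XT.lf (nat_lit 0) (nat_lit 24845851015) (nat_lit 152) (nat_lit 7287765656) (nat_lit 0)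 (nat_lit 15873694490) (nat_lit 8) (nat_lit 5) (nat_lit 10) (nat_lit 4) (nat_lit 8) (nat_lit 4) (nat_lit 377) (nat_lit 284) (nat_lit 239)) (XT.lf (nat_lit 0) (nat_lit 1878798493) (nat_lit 76) (nat_lit 28653052858) (nat_lit 76) (nat_lit 19627390367) (nat_lit 7) (nat_lit 4) (nat_lit 8) (nat_lit 5) (nat_lit 8) (nat_lit 4) (nat_lit 378) (nat_lit 284) (nat_lit 238)))))) (XT.nd (nat_lit 390) (nat_lit 76) (nat_lit 0) (XT.nd (nat_lit 156) (nat_lit 76) (nat_lit 0) (XT.nd (nat_lit 78) (nat_lit 0) (nat_lit 0) (XT.lf (nat_lit 0) (nat_lit 11673539467) (nat_lit 76) (nat_lit 24908921507) (nat_lit 76) (nat_lit 15832300954) (nat_lit 7) (nat_lit 4) (nat_lit 8) (nat_lit 5) (nat_lit 8) (nat_lit 4) (nat_lit 379) (nat_lit 284) (nat_lit 237)) (XT.lf (nat_lit 0) (nat_lit 21878811630) (nat_lit 76) (nat_lit 21015729857) (nat_lit 76) (nat_lit 11890577816) (nat_lit 7) (nat_lit 4) (nat_lit 8) (nat_lit 5) (nat_lit 8)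 (nat_lit 4) (nat_lit 380) (nat_lit 284) (nat_lit 236))) (XT.nd (nat_lit 78) (nat_lit 76) (nat_lit 0) (XT.lf (nat_lit 0) (nat_lit 32518913249) (nat_lit 76) (nat_lit 16964208405) (nat_lit 76) (nat_lit 7792835900) (nat_lit 7) (nat_lit 4) (nat_lit 8) (nat_lit 5) (nat_lit 8) (nat_lit 4) (nat_lit 381) (nat_lit 284) (nat_lit 235)) (XT.nd (nat_lit 78) (nat_lit 76) (nat_lit 0) (XT.lf (nat_lit 0) (nat_lit 43619177901) (nat_lit 76) (nat_lit 12744710671) (nat_lit 76) (nat_lit 3529318676) (nat_lit 7) (nat_lit 4) (nat_lit 8) (nat_lit 5) (nat_lit 8) (nat_lit 4) (nat_lit 382) (nat_lit 284) (nat_lit 234)) (XT.lf (nat_lit 0) (nat_lit 880995398) (nat_lit 152) (nat_lit 7451274750) (nat_lit 76) (nat_lit 54310119305) (nat_lit 6) (nat_lit 5) (nat_lit 8) (nat_lit 5) (nat_lit 7) (nat_lit 4) (nat_lit 383) (nat_lit 284) (nat_lit 233))))) (XT.nd (nat_lit 234) (nat_lit 0) (nat_lit 0) (XT.nd (nat_lit 78) (nat_lit 0)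 (nat_lit 0) (XT.lf (nat_lit 0) (nat_lit 1744283144) (nat_lit 76) (nat_lit 3641826825) (nat_lit 152) (nat_lit 60140389670) (nat_lit 5) (nat_lit 5) (nat_lit 6) (nat_lit 5) (nat_lit 7) (nat_lit 4) (nat_lit 384) (nat_lit 284) (nat_lit 232)) (XT.nd (nat_lit 78) (nat_lit 0) (nat_lit 0) (XT.lf (nat_lit 0) (nat_lit 10230557950) (nat_lit 152) (nat_lit 56978733066) (nat_lit 0) (nat_lit 1339826536) (nat_lit 5) (nat_lit 5) (nat_lit 7) (nat_lit 4) (nat_lit 5) (nat_lit 4) (nat_lit 385) (nat_lit 284) (nat_lit 231)) (XT.lf (nat_lit 0) (nat_lit 15344344353) (nat_lit 152) (nat_lit 49958049501) (nat_lit 0) (nat_lit 6419122517) (nat_lit 5) (nat_lit 5) (nat_lit 7) (nat_lit 4) (nat_lit 5) (nat_lit 4) (nat_lit 386) (nat_lit 284) (nat_lit 230)))) (XT.nd (nat_lit 78) (nat_lit 0) (nat_lit 0) (XT.lf (nat_lit 0) (nat_lit 20682785739) (nat_lit 152) (nat_lit 42646590763) (nat_lit 0) (nat_lit 11724715882) (nat_lit 5)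 (nat_lit 5) (nat_lit 7) (nat_lit 4) (nat_lit 5) (nat_lit 4) (nat_lit 387) (nat_lit 284) (nat_lit 229)) (XT.nd (nat_lit 78) (nat_lit 0) (nat_lit 0) (XT.lf (nat_lit 0) (nat_lit 26258592682) (nat_lit 152) (nat_lit 35026948616) (nat_lit 0) (nat_lit 17269238995) (nat_lit 5) (nat_lit 5) (nat_lit 7) (nat_lit 4) (nat_lit 5) (nat_lit 4) (nat_lit 388) (nat_lit 284) (nat_lit 228)) (XT.lf (nat_lit 0) (nat_lit 32085040913) (nat_lit 152) (nat_lit 27080981057) (nat_lit 0) (nat_lit 23065893103) (nat_lit 5) (nat_lit 5) (nat_lit 7) (nat_lit 4) (nat_lit 5) (nat_lit 4) (nat_lit 389) (nat_lit 284) (nat_lit 227))))))) (XT.nd (nat_lit 858) (nat_lit 152) (nat_lit 0) (XT.nd (nat_lit 390) (nat_lit 0) (nat_lit 0) (XT.nd (nat_lit 156) (nat_lit 76) (nat_lit 0) (XT.nd (nat_lit 78) (nat_lit 0) (nat_lit 0) (XT.lf (nat_lit 0) (nat_lit 38176002927) (nat_lit 152) (nat_lit 18789769115) (nat_lit 0) (nat_lit 29128479761) (nat_lit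 5) (nat_lit 5) (nat_lit 7) (nat_lit 4) (nat_lit 5) (nat_lit 4) (nat_lit 390) (nat_lit 284) (nat_lit 226)) (XT.lf (nat_lit 0) (nat_lit 44545981016) (nat_lit 152) (nat_lit 10133571808) (nat_lit 0) (nat_lit 35471433701) (nat_lit 5) (nat_lit 5) (nat_lit 7) (nat_lit 4) (nat_lit 5) (nat_lit 4) (nat_lit 391) (nat_lit 284) (nat_lit 225))) (XT.nd (nat_lit 78) (nat_lit 76) (nat_lit 0) (XT.lf (nat_lit 0) (nat_lit 51210141793) (nat_lit 152) (nat_lit 1091779143) (nat_lit 0) (nat_lit 42109857194) (nat_lit 5) (nat_lit 5) (nat_lit 7) (nat_lit 4) (nat_lit 5) (nat_lit 4) (nat_lit 392) (nat_lit 284) (nat_lit 224)) (XT.nd (nat_lit 78) (nat_lit 0) (nat_lit 0) (XT.lf (nat_lit 0) (nat_lit 8633461646) (nat_lit 76) (nat_lit 49685683193) (nat_lit 76) (nat_lit 40560886896) (nat_lit 4) (nat_lit 4) (nat_lit 5) (nat_lit 5) (nat_lit 5) (nat_lit 4) (nat_lit 393) (nat_lit 284) (nat_lit 223)) (XT.lf (nat_lit 0) (nat_lit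 18838627645) (nat_lit 76) (nat_lit 46940713952) (nat_lit 76) (nat_lit 37792573179) (nat_lit 4) (nat_lit 4) (nat_lit 5) (nat_lit 5) (nat_lit 5) (nat_lit 4) (nat_lit 394) (nat_lit 284) (nat_lit 222))))) (XT.nd (nat_lit 234) (nat_lit 0) (nat_lit 0) (XT.nd (nat_lit 78) (nat_lit 0) (nat_lit 0) (XT.lf (nat_lit 0) (nat_lit 29511917719) (nat_lit 76) (nat_lit 44078967378) (nat_lit 76) (nat_lit 34908593772) (nat_lit 4) (nat_lit 4) (nat_lit 5) (nat_lit 5) (nat_lit 5) (nat_lit 4) (nat_lit 395) (nat_lit 284) (nat_lit 221)) (XT.nd (nat_lit 78) (nat_lit 0) (nat_lit 0) (XT.lf (nat_lit 0) (nat_lit 40678744464) (nat_lit 76) (nat_lit 41093629791) (nat_lit 76) (nat_lit 31902082057) (nat_lit 4) (nat_lit 4) (nat_lit 5) (nat_lit 5) (nat_lit 5) (nat_lit 4) (nat_lit 396) (nat_lit 284) (nat_lit 220)) (XT.lf (nat_lit 0) (nat_lit 52365695562) (nat_lit 76) (nat_lit 37977593242) (nat_lit 76) (nat_lit 28765879673) (nat_lit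 4) (nat_lit 4) (nat_lit 5) (nat_lit 5) (nat_lit 5) (nat_lit 4) (nat_lit 397) (nat_lit 284) (nat_lit 219)))) (XT.nd (nat_lit 78) (nat_lit 0) (nat_lit 0) (XT.lf (nat_lit 0) (nat_lit 64600597086) (nat_lit 76) (nat_lit 34723438599) (nat_lit 76) (nat_lit 25492519472) (nat_lit 4) (nat_lit 4) (nat_lit 5) (nat_lit 5) (nat_lit 5) (nat_lit 4) (nat_lit 398) (nat_lit 284) (nat_lit 218)) (XT.nd (nat_lit 78) (nat_lit 0) (nat_lit 0) (XT.lf (nat_lit 0) (nat_lit 77412579756) (nat_lit 76) (nat_lit 31323417873) (nat_lit 76) (nat_lit 22074207738) (nat_lit 4) (nat_lit 4) (nat_lit 5) (nat_lit 5) (nat_lit 5) (nat_lit 4) (nat_lit 399) (nat_lit 284) (nat_lit 217)) (XT.lf (nat_lit 0) (nat_lit 90832148291) (nat_lit 76) (nat_lit 27769435776) (nat_lit 76) (nat_lit 18502805635) (nat_lit 4) (nat_lit 4) (nat_lit 5) (nat_lit 5) (nat_lit 5) (nat_lit 4) (nat_lit 400) (nat_lit 284) (nat_lit 216)))))) (XT.nd (nat_lit 468)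 (nat_lit 0) (nat_lit 0) (XT.nd (nat_lit 234) (nat_lit 152) (nat_lit 0) (XT.nd (nat_lit 78) (nat_lit 0) (nat_lit 0) (XT.lf (nat_lit 0) (nat_lit 104891254045) (nat_lit 76) (nat_lit 24053030448) (nat_lit 76) (nat_lit 14769809824) (nat_lit 4) (nat_lit 4) (nat_lit 5) (nat_lit 5) (nat_lit 5) (nat_lit 4) (nat_lit 401) (nat_lit 284) (nat_lit 215)) (XT.nd (nat_lit 78) (nat_lit 0) (nat_lit 0) (XT.lf (nat_lit 0) (nat_lit 119623371080) (nat_lit 76) (nat_lit 20165353304) (nat_lit 76) (nat_lit 10866332220) (nat_lit 4) (nat_lit 4) (nat_lit 5) (nat_lit 5) (nat_lit 5) (nat_lit 4) (nat_lit 402) (nat_lit 284) (nat_lit 214)) (XT.lf (nat_lit 0) (nat_lit 135063575864) (nat_lit 76) (nat_lit 16097147969) (nat_lit 76) (nat_lit 6783078828) (nat_lit 4) (nat_lit 4) (nat_lit 5) (nat_lit 5) (nat_lit 5) (nat_lit 4) (nat_lit 403) (nat_lit 284) (nat_lit 213)))) (XT.nd (nat_lit 78) (nat_lit 152) (nat_lit 0) (XT.lf (nat_lit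 0) (nat_lit 151248630791) (nat_lit 76) (nat_lit 11838728240) (nat_lit 76) (nat_lit 2510327616) (nat_lit 4) (nat_lit 4) (nat_lit 5) (nat_lit 5) (nat_lit 5) (nat_lit 4) (nat_lit 404) (nat_lit 284) (nat_lit 212)) (XT.nd (nat_lit 78) (nat_lit 76) (nat_lit 0) (XT.lf (nat_lit 0) (nat_lit 1899295349) (nat_lit 152) (nat_lit 5448494188) (nat_lit 76) (nat_lit 166285610869) (nat_lit 3) (nat_lit 5) (nat_lit 5) (nat_lit 5) (nat_lit 4) (nat_lit 4) (nat_lit 405) (nat_lit 284) (nat_lit 211)) (XT.lf (nat_lit 0) (nat_lit 3957546015) (nat_lit 76) (nat_lit 2536402642) (nat_lit 152) (nat_lit 175572450005) (nat_lit 2) (nat_lit 5) (nat_lit 3) (nat_lit 5) (nat_lit 4) (nat_lit 4) (nat_lit 406) (nat_lit 284) (nat_lit 210))))) (XT.nd (nat_lit 234) (nat_lit 0) (nat_lit 0) (XT.nd (nat_lit 78) (nat_lit 0) (nat_lit 0) (XT.lf (nat_lit 0) (nat_lit 11438559920) (nat_lit 152) (nat_lit 176959278478) (nat_lit 0) (nat_lit 2517199152)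 (nat_lit 2) (nat_lit 5) (nat_lit 4) (nat_lit 4) (nat_lit 2) (nat_lit 4) (nat_lit 407) (nat_lit 284) (nat_lit 209)) (XT.nd (nat_lit 78) (nat_lit 0) (nat_lit 0) (XT.lf (nat_lit 0) (nat_lit 16659758206) (nat_lit 152) (nat_lit 175817715901) (nat_lit 0) (nat_lit 7727168346) (nat_lit 2) (nat_lit 5) (nat_lit 4) (nat_lit 4) (nat_lit 2) (nat_lit 4) (nat_lit 408) (nat_lit 284) (nat_lit 208)) (XT.lf (nat_lit 0) (nat_lit 22130374585) (nat_lit 152) (nat_lit 174641846556) (nat_lit 0) (nat_lit 13187090353) (nat_lit 2) (nat_lit 5) (nat_lit 4) (nat_lit 4) (nat_lit 2) (nat_lit 4) (nat_lit 409) (nat_lit 284) (nat_lit 207)))) (XT.nd (nat_lit 78) (nat_lit 0) (nat_lit 0) (XT.lf (nat_lit 0) (nat_lit 27863434336) (nat_lit 152) (nat_lit 173428870755) (nat_lit 0) (nat_lit 18909964986) (nat_lit 2) (nat_lit 5) (nat_lit 4) (nat_lit 4) (nat_lit 2) (nat_lit 4) (nat_lit 410) (nat_lit 284) (nat_lit 206)) (XT.nd (nat_lit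 78) (nat_lit 0) (nat_lit 0) (XT.lf (nat_lit 0) (nat_lit 33872587599) (nat_lit 152) (nat_lit 172175900460) (nat_lit 0) (nat_lit 24909418137) (nat_lit 2) (nat_lit 5) (nat_lit 4) (nat_lit 4) (nat_lit 2) (nat_lit 4) (nat_lit 411) (nat_lit 284) (nat_lit 205)) (XT.lf (nat_lit 0) (nat_lit 40172141883) (nat_lit 152) (nat_lit 170879952408) (nat_lit 0) (nat_lit 31199734220) (nat_lit 2) (nat_lit 5) (nat_lit 4) (nat_lit 4) (nat_lit 2) (nat_lit 4) (nat_lit 412) (nat_lit 284) (nat_lit 204))))))))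
noncomputable def xc60 : XT := (XT.nd (nat_lit 40482) (nat_lit 0) (nat_lit 1368) (XT.nd (nat_lit 858) (nat_lit 0) (nat_lit 0) (XT.nd (nat_lit 390) (nat_lit 0) (nat_lit 0) (XT.nd (nat_lit 156) (nat_lit 0) (nat_lit 0) (XT.nd (nat_lit 78) (nat_lit 0) (nat_lit 0) (XT.lf (nat_lit 0) (nat_lit 46777096126) (nat_lit 152) (nat_lit 169537941008) (nat_lit 0) (nat_lit 37795890176) (nat_lit 2) (nat_lit 5) (nat_lit 4) (nat_lit 4) (nat_lit 2) (nat_lit 4) (nat_lit 413) (nat_lit 284) (nat_lit 203)) (XT.lf (nat_lit 0) (nat_lit 53703176411) (nat_lit 152) (nat_lit 168146670996) (nat_lit 0) (nat_lit 44713591139) (nat_lit 2) (nat_lit 5) (nat_lit 4) (nat_lit 4) (nat_lit 2) (nat_lit 4) (nat_lit 414) (nat_lit 284) (nat_lit 202))) (XT.nd (nat_lit 78) (nat_lit 0) (nat_lit 0) (XT.lf (nat_lit 0) (nat_lit 60966873403) (nat_lit 152) (nat_lit 166702829823) (nat_lit 0) (nat_lit 51969307826) (nat_lit 2) (nat_lit 5) (nat_lit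 4) (nat_lit 4) (nat_lit 2) (nat_lit 4) (nat_lit 415) (nat_lit 284) (nat_lit 201)) (XT.nd (nat_lit 78) (nat_lit 0) (nat_lit 0) (XT.lf (nat_lit 0) (nat_lit 68585481621) (nat_lit 152) (nat_lit 165202979773) (nat_lit 0) (nat_lit 59580315752) (nat_lit 2) (nat_lit 5) (nat_lit 4) (nat_lit 4) (nat_lit 2) (nat_lit 4) (nat_lit 416) (nat_lit 284) (nat_lit 200)) (XT.lf (nat_lit 0) (nat_lit 76577140608) (nat_lit 152) (nat_lit 163643549774) (nat_lit 0) (nat_lit 67564736366) (nat_lit 2) (nat_lit 5) (nat_lit 4) (nat_lit 4) (nat_lit 2) (nat_lit 4) (nat_lit 417) (nat_lit 284) (nat_lit 199))))) (XT.nd (nat_lit 234) (nat_lit 0) (nat_lit 0) (XT.nd (nat_lit 78) (nat_lit 0) (nat_lit 0) (XT.lf (nat_lit 0) (nat_lit 84960878122) (nat_lit 152) (nat_lit 162020826898) (nat_lit 0) (nat_lit 75941580192) (nat_lit 2) (nat_lit 5) (nat_lit 4) (nat_lit 4) (nat_lit 2) (nat_lit 4) (nat_lit 418) (nat_lit 284) (nat_lit 198))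 (XT.nd (nat_lit 78) (nat_lit 0) (nat_lit 0) (XT.lf (nat_lit 0) (nat_lit 93756655444) (nat_lit 152) (nat_lit 160330947518) (nat_lit 0) (nat_lit 84730792096) (nat_lit 2) (nat_lit 5) (nat_lit 4) (nat_lit 4) (nat_lit 2) (nat_lit 4) (nat_lit 419) (nat_lit 284) (nat_lit 197)) (XT.lf (nat_lit 0) (nat_lit 102985414900) (nat_lit 152) (nat_lit 158569888113) (nat_lit 0) (nat_lit 93953298775) (nat_lit 2) (nat_lit 5) (nat_lit 4) (nat_lit 4) (nat_lit 2) (nat_lit 4) (nat_lit 420) (nat_lit 284) (nat_lit 196)))) (XT.nd (nat_lit 78) (nat_lit 0) (nat_lit 0) (XT.lf (nat_lit 0) (nat_lit 112669129728) (nat_lit 152) (nat_lit 156733455683) (nat_lit 0) (nat_lit 103631058575) (nat_lit 2) (nat_lit 5) (nat_lit 4) (nat_lit 4) (nat_lit 2) (nat_lit 4) (nat_lit 421) (nat_lit 284) (nat_lit 195)) (XT.nd (nat_lit 78) (nat_lit 0) (nat_lit 0) (XT.lf (nat_lit 0) (nat_lit 122830856392) (nat_lit 152) (nat_lit 154817277771) (nat_lit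 0) (nat_lit 113787113784) (nat_lit 2) (nat_lit 5) (nat_lit 4) (nat_lit 4) (nat_lit 2) (nat_lit 4) (nat_lit 422) (nat_lit 284) (nat_lit 194)) (XT.lf (nat_lit 0) (nat_lit 133494789478) (nat_lit 152) (nat_lit 152816792048) (nat_lit 0) (nat_lit 124445645485) (nat_lit 2) (nat_lit 5) (nat_lit 4) (nat_lit 4) (nat_lit 2) (nat_lit 4) (nat_lit 423) (nat_lit 284) (nat_lit 193)))))) (XT.nd (nat_lit 390) (nat_lit 0) (nat_lit 0) (XT.nd (nat_lit 156) (nat_lit 0) (nat_lit 0) (XT.nd (nat_lit 78) (nat_lit 0) (nat_lit 0) (XT.lf (nat_lit 0) (nat_lit 144686319303) (nat_lit 152) (nat_lit 150727235453) (nat_lit 0) (nat_lit 135632031134) (nat_lit 2) (nat_lit 5) (nat_lit 4) (nat_lit 4) (nat_lit 2) (nat_lit 4) (nat_lit 424) (nat_lit 284) (nat_lit 192)) (XT.lf (nat_lit 0) (nat_lit 156432092368) (nat_lit 152) (nat_lit 148543632851) (nat_lit 0) (nat_lit 147372904983) (nat_lit 2) (nat_lit 5) (nat_lit 4) (nat_lit 4)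 (nat_lit 2) (nat_lit 4) (nat_lit 425) (nat_lit 284) (nat_lit 191))) (XT.nd (nat_lit 78) (nat_lit 0) (nat_lit 0) (XT.lf (nat_lit 0) (nat_lit 168760074798) (nat_lit 152) (nat_lit 146260785189) (nat_lit 0) (nat_lit 159696221494) (nat_lit 2) (nat_lit 5) (nat_lit 4) (nat_lit 4) (nat_lit 2) (nat_lit 4) (nat_lit 426) (nat_lit 284) (nat_lit 190)) (XT.nd (nat_lit 78) (nat_lit 0) (nat_lit 0) (XT.lf (nat_lit 0) (nat_lit 181699618932) (nat_lit 152) (nat_lit 143873257114) (nat_lit 0) (nat_lit 172631321895) (nat_lit 2) (nat_lit 5) (nat_lit 4) (nat_lit 4) (nat_lit 2) (nat_lit 4) (nat_lit 427) (nat_lit 284) (nat_lit 189)) (XT.lf (nat_lit 0) (nat_lit 195281533210) (nat_lit 152) (nat_lit 141375364036) (nat_lit 0) (nat_lit 186209004046) (nat_lit 2) (nat_lit 5) (nat_lit 4) (nat_lit 4) (nat_lit 2) (nat_lit 4) (nat_lit 428) (nat_lit 284) (nat_lit 188))))) (XT.nd (nat_lit 234) (nat_lit 0) (nat_lit 0) (XT.nd (nat_lit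 78) (nat_lit 0) (nat_lit 0) (XT.lf (nat_lit 0) (nat_lit 209538155521) (nat_lit 152) (nat_lit 138761158591) (nat_lit 0) (nat_lit 200461595761) (nat_lit 2) (nat_lit 5) (nat_lit 4) (nat_lit 4) (nat_lit 2) (nat_lit 4) (nat_lit 429) (nat_lit 284) (nat_lit 187)) (XT.nd (nat_lit 78) (nat_lit 0) (nat_lit 0) (XT.lf (nat_lit 0) (nat_lit 224503430206) (nat_lit 152) (nat_lit 136024416480) (nat_lit 0) (nat_lit 215423031782) (nat_lit 2) (nat_lit 5) (nat_lit 4) (nat_lit 4) (nat_lit 2) (nat_lit 4) (nat_lit 430) (nat_lit 284) (nat_lit 186)) (XT.lf (nat_lit 0) (nat_lit 240212988869) (nat_lit 152) (nat_lit 133158621650) (nat_lit 0) (nat_lit 231128934576) (nat_lit 2) (nat_lit 5) (nat_lit 4) (nat_lit 4) (nat_lit 2) (nat_lit 4) (nat_lit 431) (nat_lit 284) (nat_lit 185)))) (XT.nd (nat_lit 78) (nat_lit 0) (nat_lit 0) (XT.lf (nat_lit 0) (nat_lit 256704235224) (nat_lit 152) (nat_lit 130156950781) (nat_lit 0) (nat_lit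 247616699149) (nat_lit 2) (nat_lit 5) (nat_lit 4) (nat_lit 4) (nat_lit 2) (nat_lit 4) (nat_lit 432) (nat_lit 284) (nat_lit 184)) (XT.nd (nat_lit 38844) (nat_lit 0) (nat_lit 3876) (XT.lf (nat_lit 0) (nat_lit 274016434141) (nat_lit 152) (nat_lit 127012257037) (nat_lit 0) (nat_lit 264925582084) (nat_lit 2) (nat_lit 5) (nat_lit 4) (nat_lit 4) (nat_lit 2) (nat_lit 4) (nat_lit 433) (nat_lit 284) (nat_lit 183)) (XT.lf (nat_lit 0) (nat_lit 441069341) (nat_lit 228) (nat_lit 3785362202) (nat_lit 0) (nat_lit 441069341) (nat_lit 53) (nat_lit 5) (nat_lit 56) (nat_lit 4) (nat_lit 53) (nat_lit 4) (nat_lit 330) (nat_lit 285) (nat_lit 285))))))) (XT.nd (nat_lit 858) (nat_lit 912) (nat_lit 0) (XT.nd (nat_lit 390) (nat_lit 836) (nat_lit 0) (XT.nd (nat_lit 156) (nat_lit 532) (nat_lit 0) (XT.nd (nat_lit 78) (nat_lit 228) (nat_lit 0) (XT.lf (nat_lit 0) (nat_lit 4980059718) (nat_lit 228) (nat_lit 452576084) (nat_lit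 0) (nat_lit 4116699071) (nat_lit 53) (nat_lit 5) (nat_lit 56) (nat_lit 4) (nat_lit 53) (nat_lit 4) (nat_lit 331) (nat_lit 285) (nat_lit 284)) (XT.lf (nat_lit 0) (nat_lit 7009765203) (nat_lit 228) (nat_lit 2226352411) (nat_lit 228) (nat_lit 540743527) (nat_lit 50) (nat_lit 4) (nat_lit 53) (nat_lit 5) (nat_lit 53) (nat_lit 4) (nat_lit 332) (nat_lit 285) (nat_lit 283))) (XT.nd (nat_lit 78) (nat_lit 304) (nat_lit 0) (XT.lf (nat_lit 0) (nat_lit 3516093396) (nat_lit 228) (nat_lit 5334720001) (nat_lit 0) (nat_lit 1164948214) (nat_lit 47) (nat_lit 5) (nat_lit 50) (nat_lit 4) (nat_lit 47) (nat_lit 4) (nat_lit 333) (nat_lit 285) (nat_lit 282)) (XT.nd (nat_lit 78) (nat_lit 76) (nat_lit 0) (XT.lf (nat_lit 0) (nat_lit 2114867162) (nat_lit 228) (nat_lit 5607310803) (nat_lit 228) (nat_lit 2545876679) (nat_lit 44) (nat_lit 4) (nat_lit 47) (nat_lit 5) (nat_lit 47) (nat_lit 4) (nat_lit 334) (nat_lit 285)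 (nat_lit 281)) (XT.lf (nat_lit 0) (nat_lit 1494498092) (nat_lit 304) (nat_lit 674178692) (nat_lit 76) (nat_lit 8366126551) (nat_lit 43) (nat_lit 5) (nat_lit 47) (nat_lit 5) (nat_lit 44) (nat_lit 4) (nat_lit 335) (nat_lit 285) (nat_lit 280))))) (XT.nd (nat_lit 234) (nat_lit 304) (nat_lit 0) (XT.nd (nat_lit 78) (nat_lit 380) (nat_lit 0) (XT.lf (nat_lit 0) (nat_lit 5642099749) (nat_lit 228) (nat_lit 3702647101) (nat_lit 0) (nat_lit 1468620901) (nat_lit 41) (nat_lit 5) (nat_lit 44) (nat_lit 4) (nat_lit 41) (nat_lit 4) (nat_lit 336) (nat_lit 285) (nat_lit 279)) (XT.nd (nat_lit 78) (nat_lit 228) (nat_lit 0) (XT.lf (nat_lit 0) (nat_lit 4065413476) (nat_lit 152) (nat_lit 5899982486) (nat_lit 152) (nat_lit 1142147168) (nat_lit 39) (nat_lit 4) (nat_lit 41) (nat_lit 5) (nat_lit 41) (nat_lit 4) (nat_lit 337) (nat_lit 285) (nat_lit 278)) (XT.lf (nat_lit 0) (nat_lit 676566777) (nat_lit 152) (nat_lit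 2245839109) (nat_lit 228) (nat_lit 8495058490) (nat_lit 36) (nat_lit 5) (nat_lit 38) (nat_lit 5) (nat_lit 39) (nat_lit 4) (nat_lit 338) (nat_lit 285) (nat_lit 277)))) (XT.nd (nat_lit 78) (nat_lit 304) (nat_lit 0) (XT.lf (nat_lit 0) (nat_lit 7158126947) (nat_lit 228) (nat_lit 2991549827) (nat_lit 0) (nat_lit 1592037582) (nat_lit 36) (nat_lit 5) (nat_lit 39) (nat_lit 4) (nat_lit 36) (nat_lit 4) (nat_lit 339) (nat_lit 285) (nat_lit 276)) (XT.nd (nat_lit 78) (nat_lit 152) (nat_lit 0) (XT.lf (nat_lit 0) (nat_lit 5046346597) (nat_lit 152) (nat_lit 6541812927) (nat_lit 152) (nat_lit 494972048) (nat_lit 34) (nat_lit 4) (nat_lit 36) (nat_lit 5) (nat_lit 36) (nat_lit 4) (nat_lit 340) (nat_lit 285) (nat_lit 275)) (XT.lf (nat_lit 0) (nat_lit 894966259) (nat_lit 76) (nat_lit 2714626776) (nat_lit 152) (nat_lit 8832481108) (nat_lit 32) (nat_lit 5) (nat_lit 33) (nat_lit 5) (nat_lit 34) (nat_lit 4) (nat_lit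 341) (nat_lit 285) (nat_lit 274)))))) (XT.nd (nat_lit 468) (nat_lit 380) (nat_lit 0) (XT.nd (nat_lit 234) (nat_lit 304) (nat_lit 0) (XT.nd (nat_lit 78) (nat_lit 228) (nat_lit 0) (XT.lf (nat_lit 0) (nat_lit 7913279643) (nat_lit 152) (nat_lit 3601785546) (nat_lit 0) (nat_lit 1303036539) (nat_lit 32) (nat_lit 5) (nat_lit 34) (nat_lit 4) (nat_lit 32) (nat_lit 4) (nat_lit 342) (nat_lit 285) (nat_lit 273)) (XT.nd (nat_lit 78) (nat_lit 76) (nat_lit 0) (XT.lf (nat_lit 0) (nat_lit 4629265415) (nat_lit 152) (nat_lit 7794943778) (nat_lit 152) (nat_lit 789185213) (nat_lit 30) (nat_lit 4) (nat_lit 32) (nat_lit 5) (nat_lit 32) (nat_lit 4) (nat_lit 343) (nat_lit 285) (nat_lit 272)) (XT.lf (nat_lit 0) (nat_lit 3357029113) (nat_lit 228) (nat_lit 500530272) (nat_lit 76) (nat_lit 9771302922) (nat_lit 29) (nat_lit 5) (nat_lit 32) (nat_lit 5) (nat_lit 30) (nat_lit 4) (nat_lit 344) (nat_lit 285) (nat_lit 271))))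 (XT.nd (nat_lit 78) (nat_lit 228) (nat_lit 0) (XT.lf (nat_lit 0) (nat_lit 7696318934) (nat_lit 152) (nat_lit 6043818426) (nat_lit 0) (nat_lit 323762613) (nat_lit 28) (nat_lit 5) (nat_lit 30) (nat_lit 4) (nat_lit 28) (nat_lit 4) (nat_lit 345) (nat_lit 285) (nat_lit 270)) (XT.nd (nat_lit 78) (nat_lit 76) (nat_lit 0) (XT.lf (nat_lit 0) (nat_lit 2266200293) (nat_lit 152) (nat_lit 9976492963) (nat_lit 152) (nat_lit 2278545094) (nat_lit 26) (nat_lit 4) (nat_lit 28) (nat_lit 5) (nat_lit 28) (nat_lit 4) (nat_lit 346) (nat_lit 285) (nat_lit 269)) (XT.lf (nat_lit 0) (nat_lit 1937838074) (nat_lit 228) (nat_lit 4035276529) (nat_lit 76) (nat_lit 9027436523) (nat_lit 25) (nat_lit 5) (nat_lit 28) (nat_lit 5) (nat_lit 26) (nat_lit 4) (nat_lit 347) (nat_lit 285) (nat_lit 268))))) (XT.nd (nat_lit 234) (nat_lit 152) (nat_lit 0) (XT.nd (nat_lit 78) (nat_lit 152) (nat_lit 0) (XT.lf (nat_lit 0) (nat_lit 4504814990)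 (nat_lit 76) (nat_lit 1742891984) (nat_lit 152) (nat_lit 9256340237) (nat_lit 24) (nat_lit 5) (nat_lit 25) (nat_lit 5) (nat_lit 26) (nat_lit 4) (nat_lit 348) (nat_lit 285) (nat_lit 267)) (XT.nd (nat_lit 78) (nat_lit 152) (nat_lit 0) (XT.lf (nat_lit 0) (nat_lit 10774495463) (nat_lit 152) (nat_lit 2659005509) (nat_lit 0) (nat_lit 2599190929) (nat_lit 24) (nat_lit 5) (nat_lit 26) (nat_lit 4) (nat_lit 24) (nat_lit 4) (nat_lit 349) (nat_lit 285) (nat_lit 266)) (XT.lf (nat_lit 0) (nat_lit 6075097454) (nat_lit 152) (nat_lit 9471023393) (nat_lit 152) (nat_lit 1040766067) (nat_lit 22) (nat_lit 4) (nat_lit 24) (nat_lit 5) (nat_lit 24) (nat_lit 4) (nat_lit 350) (nat_lit 285) (nat_lit 265)))) (XT.nd (nat_lit 78) (nat_lit 76) (nat_lit 0) (XT.lf (nat_lit 0) (nat_lit 3220327190) (nat_lit 228) (nat_lit 2071398768) (nat_lit 76) (nat_lit 11877399556) (nat_lit 21) (nat_lit 5) (nat_lit 24) (nat_lit 5) (nat_lit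 22) (nat_lit 4) (nat_lit 351) (nat_lit 285) (nat_lit 264)) (XT.nd (nat_lit 78) (nat_lit 0) (nat_lit 0) (XT.lf (nat_lit 0) (nat_lit 6811531011) (nat_lit 76) (nat_lit 854737387) (nat_lit 152) (nat_lit 10113053176) (nat_lit 20) (nat_lit 5) (nat_lit 21) (nat_lit 5) (nat_lit 22) (nat_lit 4) (nat_lit 352) (nat_lit 285) (nat_lit 263)) (XT.lf (nat_lit 0) (nat_lit 12330699850) (nat_lit 152) (nat_lit 2448907723) (nat_lit 0) (nat_lit 3640645550) (nat_lit 20) (nat_lit 5) (nat_lit 22) (nat_lit 4) (nat_lit 20) (nat_lit 4) (nat_lit 353) (nat_lit 285) (nat_lit 262))))))))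
noncomputable def xc61 : XT := (XT.nd (nat_lit 1716) (nat_lit 304) (nat_lit 0) (XT.nd (nat_lit 858) (nat_lit 380) (nat_lit 0) (XT.nd (nat_lit 390) (nat_lit 228) (nat_lit 0) (XT.nd (nat_lit 156) (nat_lit 152) (nat_lit 0) (XT.nd (nat_lit 78) (nat_lit 76) (nat_lit 0) (XT.lf (nat_lit 0) (nat_lit 6517962579) (nat_lit 76) (nat_lit 10732018697) (nat_lit 76) (nat_lit 1842202212) (nat_lit 19) (nat_lit 4) (nat_lit 20) (nat_lit 5) (nat_lit 20) (nat_lit 4) (nat_lit 354) (nat_lit 285) (nat_lit 261)) (XT.lf (nat_lit 0) (nat_lit 2482033636) (nat_lit 152) (nat_lit 3991897228) (nat_lit 76) (nat_lit 13324351996) (nat_lit 18) (nat_lit 5) (nat_lit 20) (nat_lit 5) (nat_lit 19) (nat_lit 4) (nat_lit 355) (nat_lit 285) (nat_lit 260))) (XT.nd (nat_lit 78) (nat_lit 76) (nat_lit 0) (XT.lf (nat_lit 0) (nat_lit 4984190870) (nat_lit 76) (nat_lit 1964807784) (nat_lit 152) (nat_lit 13589786249) (nat_lit 17) (nat_lit 5)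 (nat_lit 18) (nat_lit 5) (nat_lit 19) (nat_lit 4) (nat_lit 356) (nat_lit 285) (nat_lit 259)) (XT.nd (nat_lit 78) (nat_lit 76) (nat_lit 0) (XT.lf (nat_lit 0) (nat_lit 11662445182) (nat_lit 152) (nat_lit 6974881720) (nat_lit 0) (nat_lit 2677856175) (nat_lit 17) (nat_lit 5) (nat_lit 19) (nat_lit 4) (nat_lit 17) (nat_lit 4) (nat_lit 357) (nat_lit 285) (nat_lit 258)) (XT.lf (nat_lit 0) (nat_lit 1905183272) (nat_lit 76) (nat_lit 14683742052) (nat_lit 76) (nat_lit 5542634146) (nat_lit 16) (nat_lit 4) (nat_lit 17) (nat_lit 5) (nat_lit 17) (nat_lit 4) (nat_lit 358) (nat_lit 285) (nat_lit 257))))) (XT.nd (nat_lit 234) (nat_lit 76) (nat_lit 0) (XT.nd (nat_lit 78) (nat_lit 152) (nat_lit 0) (XT.lf (nat_lit 0) (nat_lit 11316541646) (nat_lit 76) (nat_lit 10480327351) (nat_lit 76) (nat_lit 1190153828) (nat_lit 16) (nat_lit 4) (nat_lit 17) (nat_lit 5) (nat_lit 17) (nat_lit 4) (nat_lit 359) (nat_lit 285)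 (nat_lit 256)) (XT.nd (nat_lit 78) (nat_lit 76) (nat_lit 0) (XT.lf (nat_lit 0) (nat_lit 3191420341) (nat_lit 152) (nat_lit 2889729078) (nat_lit 76) (nat_lit 17805511719) (nat_lit 15) (nat_lit 5) (nat_lit 17) (nat_lit 5) (nat_lit 16) (nat_lit 4) (nat_lit 360) (nat_lit 285) (nat_lit 255)) (XT.lf (nat_lit 0) (nat_lit 6371460071) (nat_lit 76) (nat_lit 1403568103) (nat_lit 152) (nat_lit 17054151757) (nat_lit 14) (nat_lit 5) (nat_lit 15) (nat_lit 5) (nat_lit 16) (nat_lit 4) (nat_lit 361) (nat_lit 285) (nat_lit 254)))) (XT.nd (nat_lit 78) (nat_lit 76) (nat_lit 0) (XT.lf (nat_lit 0) (nat_lit 12616223691) (nat_lit 152) (nat_lit 9819373935) (nat_lit 0) (nat_lit 3381827337) (nat_lit 14) (nat_lit 5) (nat_lit 16) (nat_lit 4) (nat_lit 14) (nat_lit 4) (nat_lit 362) (nat_lit 285) (nat_lit 253)) (XT.nd (nat_lit 78) (nat_lit 76) (nat_lit 0) (XT.lf (nat_lit 0) (nat_lit 17650010224) (nat_lit 152) (nat_lit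 908748084) (nat_lit 0) (nat_lit 8298817058) (nat_lit 14) (nat_lit 5) (nat_lit 16) (nat_lit 4) (nat_lit 14) (nat_lit 4) (nat_lit 363) (nat_lit 285) (nat_lit 252)) (XT.lf (nat_lit 0) (nat_lit 8592294174) (nat_lit 76) (nat_lit 14408314965) (nat_lit 76) (nat_lit 4945886741) (nat_lit 13) (nat_lit 4) (nat_lit 14) (nat_lit 5) (nat_lit 14) (nat_lit 4) (nat_lit 364) (nat_lit 285) (nat_lit 251)))))) (XT.nd (nat_lit 390) (nat_lit 228) (nat_lit 0) (XT.nd (nat_lit 156) (nat_lit 76) (nat_lit 0) (XT.nd (nat_lit 78) (nat_lit 76) (nat_lit 0) (XT.lf (nat_lit 0) (nat_lit 18471915010) (nat_lit 76) (nat_lit 10094474530) (nat_lit 76) (nat_lit 526108154) (nat_lit 13) (nat_lit 4) (nat_lit 14) (nat_lit 5) (nat_lit 14) (nat_lit 4) (nat_lit 365) (nat_lit 285) (nat_lit 250)) (XT.lf (nat_lit 0) (nat_lit 3917377615) (nat_lit 152) (nat_lit 1638635740) (nat_lit 76) (nat_lit 24739869714) (nat_lit 12) (nat_lit 5) (nat_lit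 14) (nat_lit 5) (nat_lit 13) (nat_lit 4) (nat_lit 366) (nat_lit 285) (nat_lit 249))) (XT.nd (nat_lit 78) (nat_lit 0) (nat_lit 0) (XT.lf (nat_lit 0) (nat_lit 7919041008) (nat_lit 76) (nat_lit 707490643) (nat_lit 152) (nat_lit 22929431512) (nat_lit 11) (nat_lit 5) (nat_lit 12) (nat_lit 5) (nat_lit 13) (nat_lit 4) (nat_lit 367) (nat_lit 285) (nat_lit 248)) (XT.nd (nat_lit 78) (nat_lit 0) (nat_lit 0) (XT.lf (nat_lit 0) (nat_lit 13605623944) (nat_lit 152) (nat_lit 15053577879) (nat_lit 0) (nat_lit 4218136099) (nat_lit 11) (nat_lit 5) (nat_lit 13) (nat_lit 4) (nat_lit 11) (nat_lit 4) (nat_lit 368) (nat_lit 285) (nat_lit 247)) (XT.lf (nat_lit 0) (nat_lit 18786065686) (nat_lit 152) (nat_lit 6165537447) (nat_lit 0) (nat_lit 9315572528) (nat_lit 11) (nat_lit 5) (nat_lit 13) (nat_lit 4) (nat_lit 11) (nat_lit 4) (nat_lit 369) (nat_lit 285) (nat_lit 246))))) (XT.nd (nat_lit 234) (nat_lit 152) (nat_lit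 0) (XT.nd (nat_lit 78) (nat_lit 0) (nat_lit 0) (XT.lf (nat_lit 0) (nat_lit 3160564865) (nat_lit 76) (nat_lit 21057925764) (nat_lit 76) (nat_lit 11508379926) (nat_lit 10) (nat_lit 4) (nat_lit 11) (nat_lit 5) (nat_lit 11) (nat_lit 4) (nat_lit 370) (nat_lit 285) (nat_lit 245)) (XT.nd (nat_lit 78) (nat_lit 0) (nat_lit 0) (XT.lf (nat_lit 0) (nat_lit 13061261715) (nat_lit 76) (nat_lit 16910340986) (nat_lit 76) (nat_lit 7285506882) (nat_lit 10) (nat_lit 4) (nat_lit 11) (nat_lit 5) (nat_lit 11) (nat_lit 4) (nat_lit 371) (nat_lit 285) (nat_lit 244)) (XT.lf (nat_lit 0) (nat_lit 23356265678) (nat_lit 76) (nat_lit 12603389960) (nat_lit 76) (nat_lit 2906852745) (nat_lit 10) (nat_lit 4) (nat_lit 11) (nat_lit 5) (nat_lit 11) (nat_lit 4) (nat_lit 372) (nat_lit 285) (nat_lit 243)))) (XT.nd (nat_lit 78) (nat_lit 76) (nat_lit 0) (XT.lf (nat_lit 0) (nat_lit 1585581370) (nat_lit 152) (nat_lit 6514384081) (nat_lit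 76) (nat_lit 32457654709) (nat_lit 9) (nat_lit 5) (nat_lit 11) (nat_lit 5) (nat_lit 10) (nat_lit 4) (nat_lit 373) (nat_lit 285) (nat_lit 242)) (XT.nd (nat_lit 78) (nat_lit 0) (nat_lit 0) (XT.lf (nat_lit 0) (nat_lit 2882904430) (nat_lit 76) (nat_lit 3318445402) (nat_lit 152) (nat_lit 36129745368) (nat_lit 8) (nat_lit 5) (nat_lit 9) (nat_lit 5) (nat_lit 10) (nat_lit 4) (nat_lit 374) (nat_lit 285) (nat_lit 241)) (XT.lf (nat_lit 0) (nat_lit 11138209838) (nat_lit 152) (nat_lit 31333083452) (nat_lit 0) (nat_lit 1717445486) (nat_lit 8) (nat_lit 5) (nat_lit 10) (nat_lit 4) (nat_lit 8) (nat_lit 4) (nat_lit 375) (nat_lit 285) (nat_lit 240))))))) (XT.nd (nat_lit 858) (nat_lit 76) (nat_lit 0) (XT.nd (nat_lit 390) (nat_lit 152) (nat_lit 0) (XT.nd (nat_lit 156) (nat_lit 76) (nat_lit 0) (XT.nd (nat_lit 78) (nat_lit 0) (nat_lit 0) (XT.lf (nat_lit 0) (nat_lit 16330213530) (nat_lit 152) (nat_lit 22955377519)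 (nat_lit 0) (nat_lit 6853267914) (nat_lit 8) (nat_lit 5) (nat_lit 10) (nat_lit 4) (nat_lit 8) (nat_lit 4) (nat_lit 376) (nat_lit 285) (nat_lit 239)) (XT.lf (nat_lit 0) (nat_lit 21737912588) (nat_lit 152) (nat_lit 14243315821) (nat_lit 0) (nat_lit 12207461007) (nat_lit 8) (nat_lit 5) (nat_lit 10) (nat_lit 4) (nat_lit 8) (nat_lit 4) (nat_lit 377) (nat_lit 285) (nat_lit 238))) (XT.nd (nat_lit 78) (nat_lit 76) (nat_lit 0) (XT.lf (nat_lit 0) (nat_lit 27374182486) (nat_lit 152) (nat_lit 5176155354) (nat_lit 0) (nat_lit 17792772844) (nat_lit 8) (nat_lit 5) (nat_lit 10) (nat_lit 4) (nat_lit 8) (nat_lit 4) (nat_lit 378) (nat_lit 285) (nat_lit 237)) (XT.nd (nat_lit 78) (nat_lit 0) (nat_lit 0) (XT.lf (nat_lit 0) (nat_lit 4408801542) (nat_lit 76) (nat_lit 28912475121) (nat_lit 76) (nat_lit 19282533990) (nat_lit 7) (nat_lit 4) (nat_lit 8) (nat_lit 5) (nat_lit 8) (nat_lit 4) (nat_lit 379) (nat_lit 285)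 (nat_lit 236)) (XT.lf (nat_lit 0) (nat_lit 14577276558) (nat_lit 76) (nat_lit 25037005315) (nat_lit 76) (nat_lit 15360843720) (nat_lit 7) (nat_lit 4) (nat_lit 8) (nat_lit 5) (nat_lit 8) (nat_lit 4) (nat_lit 380) (nat_lit 285) (nat_lit 235))))) (XT.nd (nat_lit 234) (nat_lit 152) (nat_lit 0) (XT.nd (nat_lit 78) (nat_lit 0) (nat_lit 0) (XT.lf (nat_lit 0) (nat_lit 25182333276) (nat_lit 76) (nat_lit 21002361810) (nat_lit 76) (nat_lit 11282180725) (nat_lit 7) (nat_lit 4) (nat_lit 8) (nat_lit 5) (nat_lit 8) (nat_lit 4) (nat_lit 381) (nat_lit 285) (nat_lit 234)) (XT.nd (nat_lit 78) (nat_lit 0) (nat_lit 0) (XT.lf (nat_lit 0) (nat_lit 36249221831) (nat_lit 76) (nat_lit 16798938311) (nat_lit 76) (nat_lit 7036833903) (nat_lit 7) (nat_lit 4) (nat_lit 8) (nat_lit 5) (nat_lit 8) (nat_lit 4) (nat_lit 382) (nat_lit 285) (nat_lit 233)) (XT.lf (nat_lit 0) (nat_lit 47804291957) (nat_lit 76) (nat_lit 12416726668)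 (nat_lit 76) (nat_lit 2614695284) (nat_lit 7) (nat_lit 4) (nat_lit 8) (nat_lit 5) (nat_lit 8) (nat_lit 4) (nat_lit 383) (nat_lit 285) (nat_lit 232)))) (XT.nd (nat_lit 78) (nat_lit 76) (nat_lit 0) (XT.lf (nat_lit 0) (nat_lit 1930919124) (nat_lit 152) (nat_lit 5881672868) (nat_lit 76) (nat_lit 57911435553) (nat_lit 6) (nat_lit 5) (nat_lit 8) (nat_lit 5) (nat_lit 7) (nat_lit 4) (nat_lit 384) (nat_lit 285) (nat_lit 231)) (XT.nd (nat_lit 78) (nat_lit 0) (nat_lit 0) (XT.lf (nat_lit 0) (nat_lit 3742337670) (nat_lit 76) (nat_lit 2900886567) (nat_lit 152) (nat_lit 62110031199) (nat_lit 5) (nat_lit 5) (nat_lit 6) (nat_lit 5) (nat_lit 7) (nat_lit 4) (nat_lit 385) (nat_lit 285) (nat_lit 230)) (XT.lf (nat_lit 0) (nat_lit 11696580971) (nat_lit 152) (nat_lit 57974337869) (nat_lit 0) (nat_lit 2257759600) (nat_lit 5) (nat_lit 5) (nat_lit 7) (nat_lit 4) (nat_lit 5) (nat_lit 4) (nat_lit 386) (nat_lit 285)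 (nat_lit 229)))))) (XT.nd (nat_lit 468) (nat_lit 76) (nat_lit 0) (XT.nd (nat_lit 234) (nat_lit 0) (nat_lit 0) (XT.nd (nat_lit 78) (nat_lit 0) (nat_lit 0) (XT.lf (nat_lit 0) (nat_lit 17020604546) (nat_lit 152) (nat_lit 50690874023) (nat_lit 0) (nat_lit 7550499345) (nat_lit 5) (nat_lit 5) (nat_lit 7) (nat_lit 4) (nat_lit 5) (nat_lit 4) (nat_lit 387) (nat_lit 285) (nat_lit 228)) (XT.nd (nat_lit 78) (nat_lit 0) (nat_lit 0) (XT.lf (nat_lit 0) (nat_lit 22582680240) (nat_lit 152) (nat_lit 43097893679) (nat_lit 0) (nat_lit 13082780916) (nat_lit 5) (nat_lit 5) (nat_lit 7) (nat_lit 4) (nat_lit 5) (nat_lit 4) (nat_lit 388) (nat_lit 285) (nat_lit 227)) (XT.lf (nat_lit 0) (nat_lit 28396051091) (nat_lit 152) (nat_lit 35177318312) (nat_lit 0) (nat_lit 18867776411) (nat_lit 5) (nat_lit 5) (nat_lit 7) (nat_lit 4) (nat_lit 5) (nat_lit 4) (nat_lit 389) (nat_lit 285) (nat_lit 226)))) (XT.nd (nat_lit 78) (nat_lit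 0) (nat_lit 0) (XT.lf (nat_lit 0) (nat_lit 34474558458) (nat_lit 152) (nat_lit 26910289410) (nat_lit 0) (nat_lit 24919259630) (nat_lit 5) (nat_lit 5) (nat_lit 7) (nat_lit 4) (nat_lit 5) (nat_lit 4) (nat_lit 390) (nat_lit 285) (nat_lit 225)) (XT.nd (nat_lit 78) (nat_lit 0) (nat_lit 0) (XT.lf (nat_lit 0) (nat_lit 40832674978) (nat_lit 152) (nat_lit 18277123570) (nat_lit 0) (nat_lit 31251638866) (nat_lit 5) (nat_lit 5) (nat_lit 7) (nat_lit 4) (nat_lit 5) (nat_lit 4) (nat_lit 391) (nat_lit 285) (nat_lit 224)) (XT.lf (nat_lit 0) (nat_lit 47485539023) (nat_lit 152) (nat_lit 9257265636) (nat_lit 0) (nat_lit 37879991212) (nat_lit 5) (nat_lit 5) (nat_lit 7) (nat_lit 4) (nat_lit 5) (nat_lit 4) (nat_lit 392) (nat_lit 285) (nat_lit 223))))) (XT.nd (nat_lit 234) (nat_lit 0) (nat_lit 0) (XT.nd (nat_lit 78) (nat_lit 0) (nat_lit 0) (XT.lf (nat_lit 0) (nat_lit 176406348) (nat_lit 76) (nat_lit 54275338595)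 (nat_lit 76) (nat_lit 44646446308) (nat_lit 4) (nat_lit 4) (nat_lit 5) (nat_lit 5) (nat_lit 5) (nat_lit 4) (nat_lit 393) (nat_lit 285) (nat_lit 222)) (XT.nd (nat_lit 78) (nat_lit 0) (nat_lit 0) (XT.lf (nat_lit 0) (nat_lit 10361019067) (nat_lit 76) (nat_lit 51540355270) (nat_lit 76) (nat_lit 41889230150) (nat_lit 4) (nat_lit 4) (nat_lit 5) (nat_lit 5) (nat_lit 5) (nat_lit 4) (nat_lit 394) (nat_lit 285) (nat_lit 221)) (XT.lf (nat_lit 0) (nat_lit 21014734588) (nat_lit 76) (nat_lit 48688119094) (nat_lit 76) (nat_lit 39015819847) (nat_lit 4) (nat_lit 4) (nat_lit 5) (nat_lit 5) (nat_lit 5) (nat_lit 4) (nat_lit 395) (nat_lit 285) (nat_lit 220)))) (XT.nd (nat_lit 78) (nat_lit 0) (nat_lit 0) (XT.lf (nat_lit 0) (nat_lit 32162918902) (nat_lit 76) (nat_lit 45711839028) (nat_lit 76) (nat_lit 36019373945) (nat_lit 4) (nat_lit 4) (nat_lit 5) (nat_lit 5) (nat_lit 5) (nat_lit 4) (nat_lit 396) (nat_lit 285)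 (nat_lit 219)) (XT.nd (nat_lit 78) (nat_lit 0) (nat_lit 0) (XT.lf (nat_lit 0) (nat_lit 43832115303) (nat_lit 76) (nat_lit 42604428691) (nat_lit 76) (nat_lit 32892758050) (nat_lit 4) (nat_lit 4) (nat_lit 5) (nat_lit 5) (nat_lit 5) (nat_lit 4) (nat_lit 397) (nat_lit 285) (nat_lit 218)) (XT.lf (nat_lit 0) (nat_lit 56050107593) (nat_lit 76) (nat_lit 39358489486) (nat_lit 76) (nat_lit 29628527838) (nat_lit 4) (nat_lit 4) (nat_lit 5) (nat_lit 5) (nat_lit 5) (nat_lit 4) (nat_lit 398) (nat_lit 285) (nat_lit 217))))))))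
noncomputable def xc62 : XT := (XT.nd (nat_lit 1716) (nat_lit 0) (nat_lit 0) (XT.nd (nat_lit 858) (nat_lit 0) (nat_lit 0) (XT.nd (nat_lit 390) (nat_lit 152) (nat_lit 0) (XT.nd (nat_lit 156) (nat_lit 0) (nat_lit 0) (XT.nd (nat_lit 78) (nat_lit 0) (nat_lit 0) (XT.lf (nat_lit 0) (nat_lit 68845986229) (nat_lit 76) (nat_lit 35966292987) (nat_lit 76) (nat_lit 26218911332) (nat_lit 4) (nat_lit 4) (nat_lit 5) (nat_lit 5) (nat_lit 5) (nat_lit 4) (nat_lit 399) (nat_lit 285) (nat_lit 216)) (XT.lf (nat_lit 0) (nat_lit 82250217590) (nat_lit 76) (nat_lit 32419762536) (nat_lit 76) (nat_lit 22655790398) (nat_lit 4) (nat_lit 4) (nat_lit 5) (nat_lit 5) (nat_lit 5) (nat_lit 4) (nat_lit 400) (nat_lit 285) (nat_lit 215))) (XT.nd (nat_lit 78) (nat_lit 0) (nat_lit 0) (XT.lf (nat_lit 0) (nat_lit 96294716511) (nat_lit 76) (nat_lit 28710454013) (nat_lit 76) (nat_lit 18930681415) (nat_lit 4) (nat_lit 4) (nat_lit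 5) (nat_lit 5) (nat_lit 5) (nat_lit 4) (nat_lit 401) (nat_lit 285) (nat_lit 214)) (XT.nd (nat_lit 78) (nat_lit 0) (nat_lit 0) (XT.lf (nat_lit 0) (nat_lit 111012922277) (nat_lit 76) (nat_lit 24829535730) (nat_lit 76) (nat_lit 15034715075) (nat_lit 4) (nat_lit 4) (nat_lit 5) (nat_lit 5) (nat_lit 5) (nat_lit 4) (nat_lit 402) (nat_lit 285) (nat_lit 213)) (XT.lf (nat_lit 0) (nat_lit 126439878233) (nat_lit 76) (nat_lit 20767767407) (nat_lit 76) (nat_lit 10958615269) (nat_lit 4) (nat_lit 4) (nat_lit 5) (nat_lit 5) (nat_lit 5) (nat_lit 4) (nat_lit 403) (nat_lit 285) (nat_lit 212))))) (XT.nd (nat_lit 234) (nat_lit 76) (nat_lit 0) (XT.nd (nat_lit 78) (nat_lit 76) (nat_lit 0) (XT.lf (nat_lit 0) (nat_lit 142612315228) (nat_lit 76) (nat_lit 16515478165) (nat_lit 76) (nat_lit 6692676996) (nat_lit 4) (nat_lit 4) (nat_lit 5) (nat_lit 5) (nat_lit 5) (nat_lit 4) (nat_lit 404) (nat_lit 285) (nat_lit 211))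 (XT.nd (nat_lit 78) (nat_lit 76) (nat_lit 0) (XT.lf (nat_lit 0) (nat_lit 159568739065) (nat_lit 76) (nat_lit 12062543507) (nat_lit 76) (nat_lit 2226743261) (nat_lit 4) (nat_lit 4) (nat_lit 5) (nat_lit 5) (nat_lit 5) (nat_lit 4) (nat_lit 405) (nat_lit 285) (nat_lit 210)) (XT.lf (nat_lit 0) (nat_lit 2371409600) (nat_lit 152) (nat_lit 4986790638) (nat_lit 76) (nat_lit 174937951610) (nat_lit 3) (nat_lit 5) (nat_lit 5) (nat_lit 5) (nat_lit 4) (nat_lit 4) (nat_lit 406) (nat_lit 285) (nat_lit 209)))) (XT.nd (nat_lit 78) (nat_lit 0) (nat_lit 0) (XT.lf (nat_lit 0) (nat_lit 4877710796) (nat_lit 76) (nat_lit 2311402209) (nat_lit 152) (nat_lit 183962024048) (nat_lit 2) (nat_lit 5) (nat_lit 3) (nat_lit 5) (nat_lit 4) (nat_lit 4) (nat_lit 407) (nat_lit 285) (nat_lit 208)) (XT.nd (nat_lit 78) (nat_lit 0) (nat_lit 0) (XT.lf (nat_lit 0) (nat_lit 12368544889) (nat_lit 152) (nat_lit 185106884196) (nat_lit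 0) (nat_lit 2967402071) (nat_lit 2) (nat_lit 5) (nat_lit 4) (nat_lit 4) (nat_lit 2) (nat_lit 4) (nat_lit 408) (nat_lit 285) (nat_lit 207)) (XT.lf (nat_lit 0) (nat_lit 17833752757) (nat_lit 152) (nat_lit 183941593881) (nat_lit 0) (nat_lit 8422424822) (nat_lit 2) (nat_lit 5) (nat_lit 4) (nat_lit 4) (nat_lit 2) (nat_lit 4) (nat_lit 409) (nat_lit 285) (nat_lit 206)))))) (XT.nd (nat_lit 390) (nat_lit 0) (nat_lit 0) (XT.nd (nat_lit 156) (nat_lit 0) (nat_lit 0) (XT.nd (nat_lit 78) (nat_lit 0) (nat_lit 0) (XT.lf (nat_lit 0) (nat_lit 23561661544) (nat_lit 152) (nat_lit 182738693346) (nat_lit 0) (nat_lit 14140633498) (nat_lit 2) (nat_lit 5) (nat_lit 4) (nat_lit 4) (nat_lit 2) (nat_lit 4) (nat_lit 410) (nat_lit 285) (nat_lit 205)) (XT.lf (nat_lit 0) (nat_lit 29565909128) (nat_lit 152) (nat_lit 181495318542) (nat_lit 0) (nat_lit 20135642880) (nat_lit 2) (nat_lit 5) (nat_lit 4) (nat_lit 4) (nat_lit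 2) (nat_lit 4) (nat_lit 411) (nat_lit 285) (nat_lit 204))) (XT.nd (nat_lit 78) (nat_lit 0) (nat_lit 0) (XT.lf (nat_lit 0) (nat_lit 35860791336) (nat_lit 152) (nat_lit 180208509053) (nat_lit 0) (nat_lit 26421726801) (nat_lit 2) (nat_lit 5) (nat_lit 4) (nat_lit 4) (nat_lit 2) (nat_lit 4) (nat_lit 412) (nat_lit 285) (nat_lit 203)) (XT.nd (nat_lit 78) (nat_lit 0) (nat_lit 0) (XT.lf (nat_lit 0) (nat_lit 42461295984) (nat_lit 152) (nat_lit 178875201048) (nat_lit 0) (nat_lit 33013852128) (nat_lit 2) (nat_lit 5) (nat_lit 4) (nat_lit 4) (nat_lit 2) (nat_lit 4) (nat_lit 413) (nat_lit 285) (nat_lit 202)) (XT.lf (nat_lit 0) (nat_lit 49383138558) (nat_lit 152) (nat_lit 177492219982) (nat_lit 0) (nat_lit 39927714396) (nat_lit 2) (nat_lit 5) (nat_lit 4) (nat_lit 4) (nat_lit 2) (nat_lit 4) (nat_lit 414) (nat_lit 285) (nat_lit 201))))) (XT.nd (nat_lit 234) (nat_lit 0) (nat_lit 0) (XT.nd (nat_lit 78) (nat_lit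 0) (nat_lit 0) (XT.lf (nat_lit 0) (nat_lit 56642799637) (nat_lit 152) (nat_lit 176056273044) (nat_lit 0) (nat_lit 47179775183) (nat_lit 2) (nat_lit 5) (nat_lit 4) (nat_lit 4) (nat_lit 2) (nat_lit 4) (nat_lit 415) (nat_lit 285) (nat_lit 200)) (XT.nd (nat_lit 78) (nat_lit 0) (nat_lit 0) (XT.lf (nat_lit 0) (nat_lit 64257564127) (nat_lit 152) (nat_lit 174563941313) (nat_lit 0) (nat_lit 54787301300) (nat_lit 2) (nat_lit 5) (nat_lit 4) (nat_lit 4) (nat_lit 2) (nat_lit 4) (nat_lit 416) (nat_lit 285) (nat_lit 199)) (XT.lf (nat_lit 0) (nat_lit 72245562419) (nat_lit 152) (nat_lit 173011671618) (nat_lit 0) (nat_lit 62768405905) (nat_lit 2) (nat_lit 5) (nat_lit 4) (nat_lit 4) (nat_lit 2) (nat_lit 4) (nat_lit 417) (nat_lit 285) (nat_lit 198)))) (XT.nd (nat_lit 78) (nat_lit 0) (nat_lit 0) (XT.lf (nat_lit 0) (nat_lit 80625813559) (nat_lit 152) (nat_lit 171395768078) (nat_lit 0) (nat_lit 71142091627) (nat_lit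 2) (nat_lit 5) (nat_lit 4) (nat_lit 4) (nat_lit 2) (nat_lit 4) (nat_lit 418) (nat_lit 285) (nat_lit 197)) (XT.nd (nat_lit 78) (nat_lit 0) (nat_lit 0) (XT.lf (nat_lit 0) (nat_lit 89418270524) (nat_lit 152) (nat_lit 169712383305) (nat_lit 0) (nat_lit 79928295814) (nat_lit 2) (nat_lit 5) (nat_lit 4) (nat_lit 4) (nat_lit 2) (nat_lit 4) (nat_lit 419) (nat_lit 285) (nat_lit 196)) (XT.lf (nat_lit 0) (nat_lit 98643867736) (nat_lit 152) (nat_lit 167957509239) (nat_lit 0) (nat_lit 89147937999) (nat_lit 2) (nat_lit 5) (nat_lit 4) (nat_lit 4) (nat_lit 2) (nat_lit 4) (nat_lit 420) (nat_lit 285) (nat_lit 195))))))) (XT.nd (nat_lit 858) (nat_lit 0) (nat_lit 0) (XT.nd (nat_lit 390) (nat_lit 0) (nat_lit 0) (XT.nd (nat_lit 156) (nat_lit 0) (nat_lit 0) (XT.nd (nat_lit 78) (nat_lit 0) (nat_lit 0) (XT.lf (nat_lit 0) (nat_lit 108324570903) (nat_lit 152) (nat_lit 166126967609) (nat_lit 0) (nat_lit 98822969711)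 (nat_lit 2) (nat_lit 5) (nat_lit 4) (nat_lit 4) (nat_lit 2) (nat_lit 4) (nat_lit 421) (nat_lit 285) (nat_lit 194)) (XT.lf (nat_lit 0) (nat_lit 118483429317) (nat_lit 152) (nat_lit 164216399982) (nat_lit 0) (nat_lit 108976426740) (nat_lit 2) (nat_lit 5) (nat_lit 4) (nat_lit 4) (nat_lit 2) (nat_lit 4) (nat_lit 422) (nat_lit 285) (nat_lit 193))) (XT.nd (nat_lit 78) (nat_lit 0) (nat_lit 0) (XT.lf (nat_lit 0) (nat_lit 129144630737) (nat_lit 152) (nat_lit 162221257388) (nat_lit 0) (nat_lit 119632483984) (nat_lit 2) (nat_lit 5) (nat_lit 4) (nat_lit 4) (nat_lit 2) (nat_lit 4) (nat_lit 423) (nat_lit 285) (nat_lit 192)) (XT.nd (nat_lit 78) (nat_lit 0) (nat_lit 0) (XT.lf (nat_lit 0) (nat_lit 140333558976) (nat_lit 152) (nat_lit 160136789487) (nat_lit 0) (nat_lit 130816513007) (nat_lit 2) (nat_lit 5) (nat_lit 4) (nat_lit 4) (nat_lit 2) (nat_lit 4) (nat_lit 424) (nat_lit 285) (nat_lit 191)) (XT.lf (nat_lit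 0) (nat_lit 152076854339) (nat_lit 152) (nat_lit 157958033260) (nat_lit 0) (nat_lit 142555142451) (nat_lit 2) (nat_lit 5) (nat_lit 4) (nat_lit 4) (nat_lit 2) (nat_lit 4) (nat_lit 425) (nat_lit 285) (nat_lit 190))))) (XT.nd (nat_lit 234) (nat_lit 0) (nat_lit 0) (XT.nd (nat_lit 78) (nat_lit 0) (nat_lit 0) (XT.lf (nat_lit 0) (nat_lit 164402477054) (nat_lit 152) (nat_lit 155679801193) (nat_lit 0) (nat_lit 154876321432) (nat_lit 2) (nat_lit 5) (nat_lit 4) (nat_lit 4) (nat_lit 2) (nat_lit 4) (nat_lit 426) (nat_lit 285) (nat_lit 189)) (XT.nd (nat_lit 78) (nat_lit 0) (nat_lit 0) (XT.lf (nat_lit 0) (nat_lit 177339773840) (nat_lit 152) (nat_lit 153296668924) (nat_lit 0) (nat_lit 167809386092) (nat_lit 2) (nat_lit 5) (nat_lit 4) (nat_lit 4) (nat_lit 2) (nat_lit 4) (nat_lit 427) (nat_lit 285) (nat_lit 188)) (XT.lf (nat_lit 0) (nat_lit 190919547786) (nat_lit 152) (nat_lit 150802962327) (nat_lit 0) (nat_lit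 181385129441) (nat_lit 2) (nat_lit 5) (nat_lit 4) (nat_lit 4) (nat_lit 2) (nat_lit 4) (nat_lit 428) (nat_lit 285) (nat_lit 187)))) (XT.nd (nat_lit 78) (nat_lit 0) (nat_lit 0) (XT.lf (nat_lit 0) (nat_lit 205174131686) (nat_lit 152) (nat_lit 148192744007) (nat_lit 0) (nat_lit 195635874678) (nat_lit 2) (nat_lit 5) (nat_lit 4) (nat_lit 4) (nat_lit 2) (nat_lit 4) (nat_lit 429) (nat_lit 285) (nat_lit 186)) (XT.nd (nat_lit 78) (nat_lit 0) (nat_lit 0) (XT.lf (nat_lit 0) (nat_lit 220137465027) (nat_lit 152) (nat_lit 145459799158) (nat_lit 0) (nat_lit 210595552149) (nat_lit 2) (nat_lit 5) (nat_lit 4) (nat_lit 4) (nat_lit 2) (nat_lit 4) (nat_lit 430) (nat_lit 285) (nat_lit 185)) (XT.lf (nat_lit 0) (nat_lit 235845174792) (nat_lit 152) (nat_lit 142597620768) (nat_lit 0) (nat_lit 226299780132) (nat_lit 2) (nat_lit 5) (nat_lit 4) (nat_lit 4) (nat_lit 2) (nat_lit 4) (nat_lit 431) (nat_lit 285) (nat_lit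 184)))))) (XT.nd (nat_lit 39078) (nat_lit 0) (nat_lit 2812) (XT.nd (nat_lit 38844) (nat_lit 0) (nat_lit 3876) (XT.nd (nat_lit 78) (nat_lit 0) (nat_lit 0) (XT.lf (nat_lit 0) (nat_lit 252334660290) (nat_lit 152) (nat_lit 139599394128) (nat_lit 0) (nat_lit 242785949649) (nat_lit 2) (nat_lit 5) (nat_lit 4) (nat_lit 4) (nat_lit 2) (nat_lit 4) (nat_lit 432) (nat_lit 285) (nat_lit 183)) (XT.nd (nat_lit 38688) (nat_lit 0) (nat_lit 4332) (XT.lf (nat_lit 0) (nat_lit 269645182201) (nat_lit 152) (nat_lit 136457980601) (nat_lit 0) (nat_lit 260093313482) (nat_lit 2) (nat_lit 5) (nat_lit 4) (nat_lit 4) (nat_lit 2) (nat_lit 4) (nat_lit 433) (nat_lit 285) (nat_lit 182)) (XT.lf (nat_lit 0) (nat_lit 1436083887) (nat_lit 304) (nat_lit 1594788244) (nat_lit 0) (nat_lit 1436083887) (nat_lit 59) (nat_lit 5) (nat_lit 63) (nat_lit 4) (nat_lit 59) (nat_lit 4) (nat_lit 328) (nat_lit 286) (nat_lit 286)))) (XT.nd (nat_lit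 78) (nat_lit 228) (nat_lit 0) (XT.lf (nat_lit 0) (nat_lit 3770944121) (nat_lit 228) (nat_lit 3155579029) (nat_lit 228) (nat_lit 2203723914) (nat_lit 56) (nat_lit 4) (nat_lit 59) (nat_lit 5) (nat_lit 59) (nat_lit 4) (nat_lit 329) (nat_lit 286) (nat_lit 285)) (XT.nd (nat_lit 78) (nat_lit 0) (nat_lit 0) (XT.lf (nat_lit 0) (nat_lit 1646397425) (nat_lit 152) (nat_lit 63251950) (nat_lit 228) (nat_lit 7629374262) (nat_lit 53) (nat_lit 5) (nat_lit 55) (nat_lit 5) (nat_lit 56) (nat_lit 4) (nat_lit 330) (nat_lit 286) (nat_lit 284)) (XT.lf (nat_lit 0) (nat_lit 5730387128) (nat_lit 228) (nat_lit 688646795) (nat_lit 0) (nat_lit 3138249564) (nat_lit 53) (nat_lit 5) (nat_lit 56) (nat_lit 4) (nat_lit 53) (nat_lit 4) (nat_lit 331) (nat_lit 286) (nat_lit 283))))) (XT.nd (nat_lit 234) (nat_lit 380) (nat_lit 0) (XT.nd (nat_lit 78) (nat_lit 380) (nat_lit 0) (XT.lf (nat_lit 0) (nat_lit 115694443) (nat_lit 304)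 (nat_lit 3138057512) (nat_lit 76) (nat_lit 6534936061) (nat_lit 49) (nat_lit 5) (nat_lit 53) (nat_lit 5) (nat_lit 50) (nat_lit 4) (nat_lit 332) (nat_lit 286) (nat_lit 282)) (XT.nd (nat_lit 78) (nat_lit 228) (nat_lit 0) (XT.lf (nat_lit 0) (nat_lit 4058678568) (nat_lit 228) (nat_lit 5839489660) (nat_lit 0) (nat_lit 133883797) (nat_lit 47) (nat_lit 5) (nat_lit 50) (nat_lit 4) (nat_lit 47) (nat_lit 4) (nat_lit 333) (nat_lit 286) (nat_lit 281)) (XT.lf (nat_lit 0) (nat_lit 1478183917) (nat_lit 228) (nat_lit 6705759090) (nat_lit 228) (nat_lit 2104498660) (nat_lit 44) (nat_lit 4) (nat_lit 47) (nat_lit 5) (nat_lit 47) (nat_lit 4) (nat_lit 334) (nat_lit 286) (nat_lit 280)))) (XT.nd (nat_lit 78) (nat_lit 304) (nat_lit 0) (XT.lf (nat_lit 0) (nat_lit 1851345486) (nat_lit 304) (nat_lit 1450255190) (nat_lit 76) (nat_lit 7256815746) (nat_lit 43) (nat_lit 5) (nat_lit 47) (nat_lit 5) (nat_lit 44) (nat_lit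 4) (nat_lit 335) (nat_lit 286) (nat_lit 279)) (XT.nd (nat_lit 78) (nat_lit 152) (nat_lit 0) (XT.lf (nat_lit 0) (nat_lit 5899114598) (nat_lit 228) (nat_lit 4623874856) (nat_lit 0) (nat_lit 319031044) (nat_lit 41) (nat_lit 5) (nat_lit 44) (nat_lit 4) (nat_lit 41) (nat_lit 4) (nat_lit 336) (nat_lit 286) (nat_lit 278)) (XT.lf (nat_lit 0) (nat_lit 3002405666) (nat_lit 152) (nat_lit 7137292555) (nat_lit 152) (nat_lit 1000679030) (nat_lit 39) (nat_lit 4) (nat_lit 41) (nat_lit 5) (nat_lit 41) (nat_lit 4) (nat_lit 337) (nat_lit 286) (nat_lit 277))))))))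
noncomputable def xc63 : XT := (XT.nd (nat_lit 1794) (nat_lit 608) (nat_lit 0) (XT.nd (nat_lit 858) (nat_lit 684) (nat_lit 0) (XT.nd (nat_lit 390) (nat_lit 608) (nat_lit 0) (XT.nd (nat_lit 156) (nat_lit 304) (nat_lit 0) (XT.nd (nat_lit 78) (nat_lit 152) (nat_lit 0) (XT.lf (nat_lit 0) (nat_lit 2983058560) (nat_lit 228) (nat_lit 551372019) (nat_lit 76) (nat_lit 7919613353) (nat_lit 38) (nat_lit 5) (nat_lit 41) (nat_lit 5) (nat_lit 39) (nat_lit 4) (nat_lit 338) (nat_lit 286) (nat_lit 276)) (XT.lf (nat_lit 0) (nat_lit 7124705537) (nat_lit 228) (nat_lit 4363560498) (nat_lit 0) (nat_lit 294771100) (nat_lit 36) (nat_lit 5) (nat_lit 39) (nat_lit 4) (nat_lit 36) (nat_lit 4) (nat_lit 339) (nat_lit 286) (nat_lit 275))) (XT.nd (nat_lit 78) (nat_lit 152) (nat_lit 0) (XT.lf (nat_lit 0) (nat_lit 3521649305) (nat_lit 152) (nat_lit 7947458606) (nat_lit 152) (nat_lit 659665584) (nat_lit 34) (nat_lit 4) (nat_lit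 36) (nat_lit 5) (nat_lit 36) (nat_lit 4) (nat_lit 340) (nat_lit 286) (nat_lit 274)) (XT.nd (nat_lit 78) (nat_lit 76) (nat_lit 0) (XT.lf (nat_lit 0) (nat_lit 3374694524) (nat_lit 228) (nat_lit 805725041) (nat_lit 76) (nat_lit 8311233013) (nat_lit 33) (nat_lit 5) (nat_lit 36) (nat_lit 5) (nat_lit 34) (nat_lit 4) (nat_lit 341) (nat_lit 286) (nat_lit 273)) (XT.lf (nat_lit 0) (nat_lit 7408454541) (nat_lit 76) (nat_lit 175737942) (nat_lit 152) (nat_lit 5288229621) (nat_lit 32) (nat_lit 5) (nat_lit 33) (nat_lit 5) (nat_lit 34) (nat_lit 4) (nat_lit 342) (nat_lit 286) (nat_lit 272))))) (XT.nd (nat_lit 234) (nat_lit 304) (nat_lit 0) (XT.nd (nat_lit 78) (nat_lit 152) (nat_lit 0) (XT.lf (nat_lit 0) (nat_lit 2605062885) (nat_lit 152) (nat_lit 9397770322) (nat_lit 152) (nat_lit 1269526978) (nat_lit 30) (nat_lit 4) (nat_lit 32) (nat_lit 5) (nat_lit 32) (nat_lit 4) (nat_lit 343) (nat_lit 286) (nat_lit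 271)) (XT.nd (nat_lit 78) (nat_lit 76) (nat_lit 0) (XT.lf (nat_lit 0) (nat_lit 2834384719) (nat_lit 228) (nat_lit 2676498849) (nat_lit 76) (nat_lit 8180231404) (nat_lit 29) (nat_lit 5) (nat_lit 32) (nat_lit 5) (nat_lit 30) (nat_lit 4) (nat_lit 344) (nat_lit 286) (nat_lit 270)) (XT.lf (nat_lit 0) (nat_lit 5678966688) (nat_lit 76) (nat_lit 1397918842) (nat_lit 152) (nat_lit 7054133304) (nat_lit 28) (nat_lit 5) (nat_lit 29) (nat_lit 5) (nat_lit 30) (nat_lit 4) (nat_lit 345) (nat_lit 286) (nat_lit 269)))) (XT.nd (nat_lit 78) (nat_lit 304) (nat_lit 0) (XT.lf (nat_lit 0) (nat_lit 11511643352) (nat_lit 152) (nat_lit 288810329) (nat_lit 0) (nat_lit 2793509829) (nat_lit 28) (nat_lit 5) (nat_lit 30) (nat_lit 4) (nat_lit 28) (nat_lit 4) (nat_lit 346) (nat_lit 286) (nat_lit 268)) (XT.nd (nat_lit 78) (nat_lit 76) (nat_lit 0) (XT.lf (nat_lit 0) (nat_lit 1100862939) (nat_lit 228) (nat_lit 6756504222)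 (nat_lit 76) (nat_lit 7219505981) (nat_lit 25) (nat_lit 5) (nat_lit 28) (nat_lit 5) (nat_lit 26) (nat_lit 4) (nat_lit 347) (nat_lit 286) (nat_lit 267)) (XT.lf (nat_lit 0) (nat_lit 1598829842) (nat_lit 76) (nat_lit 3714920667) (nat_lit 152) (nat_lit 10271489790) (nat_lit 24) (nat_lit 5) (nat_lit 25) (nat_lit 5) (nat_lit 26) (nat_lit 4) (nat_lit 348) (nat_lit 286) (nat_lit 266)))))) (XT.nd (nat_lit 468) (nat_lit 304) (nat_lit 0) (XT.nd (nat_lit 234) (nat_lit 152) (nat_lit 0) (XT.nd (nat_lit 78) (nat_lit 228) (nat_lit 0) (XT.lf (nat_lit 0) (nat_lit 9758567750) (nat_lit 152) (nat_lit 5707591994) (nat_lit 0) (nat_lit 651844765) (nat_lit 24) (nat_lit 5) (nat_lit 26) (nat_lit 4) (nat_lit 24) (nat_lit 4) (nat_lit 349) (nat_lit 286) (nat_lit 265)) (XT.nd (nat_lit 78) (nat_lit 76) (nat_lit 0) (XT.lf (nat_lit 0) (nat_lit 2835000841) (nat_lit 152) (nat_lit 11595860206) (nat_lit 152) (nat_lit 2246325038)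 (nat_lit 22) (nat_lit 4) (nat_lit 24) (nat_lit 5) (nat_lit 24) (nat_lit 4) (nat_lit 350) (nat_lit 286) (nat_lit 264)) (XT.lf (nat_lit 0) (nat_lit 2004779374) (nat_lit 228) (nat_lit 5470987148) (nat_lit 76) (nat_lit 9787046085) (nat_lit 21) (nat_lit 5) (nat_lit 24) (nat_lit 5) (nat_lit 22) (nat_lit 4) (nat_lit 351) (nat_lit 286) (nat_lit 263)))) (XT.nd (nat_lit 78) (nat_lit 76) (nat_lit 0) (XT.lf (nat_lit 0) (nat_lit 3212941728) (nat_lit 76) (nat_lit 3135333589) (nat_lit 152) (nat_lit 11529872854) (nat_lit 20) (nat_lit 5) (nat_lit 21) (nat_lit 5) (nat_lit 22) (nat_lit 4) (nat_lit 352) (nat_lit 286) (nat_lit 262)) (XT.nd (nat_lit 78) (nat_lit 76) (nat_lit 0) (XT.lf (nat_lit 0) (nat_lit 10931174735) (nat_lit 152) (nat_lit 6194892763) (nat_lit 0) (nat_lit 1397105243) (nat_lit 20) (nat_lit 5) (nat_lit 22) (nat_lit 4) (nat_lit 20) (nat_lit 4) (nat_lit 353) (nat_lit 286) (nat_lit 261)) (XT.lf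 (nat_lit 0) (nat_lit 2565300370) (nat_lit 76) (nat_lit 13179705051) (nat_lit 76) (nat_lit 3455385860) (nat_lit 19) (nat_lit 4) (nat_lit 20) (nat_lit 5) (nat_lit 20) (nat_lit 4) (nat_lit 354) (nat_lit 286) (nat_lit 260))))) (XT.nd (nat_lit 234) (nat_lit 152) (nat_lit 0) (XT.nd (nat_lit 78) (nat_lit 76) (nat_lit 0) (XT.lf (nat_lit 0) (nat_lit 876877190) (nat_lit 152) (nat_lit 8107911140) (nat_lit 76) (nat_lit 10925156061) (nat_lit 18) (nat_lit 5) (nat_lit 20) (nat_lit 5) (nat_lit 19) (nat_lit 4) (nat_lit 355) (nat_lit 286) (nat_lit 259)) (XT.nd (nat_lit 78) (nat_lit 0) (nat_lit 0) (XT.lf (nat_lit 0) (nat_lit 653048373) (nat_lit 76) (nat_lit 4581644231) (nat_lit 152) (nat_lit 15421224819) (nat_lit 17) (nat_lit 5) (nat_lit 18) (nat_lit 5) (nat_lit 19) (nat_lit 4) (nat_lit 356) (nat_lit 286) (nat_lit 258)) (XT.lf (nat_lit 0) (nat_lit 9866017652) (nat_lit 152) (nat_lit 11459081433) (nat_lit 0)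 (nat_lit 111335452) (nat_lit 17) (nat_lit 5) (nat_lit 19) (nat_lit 4) (nat_lit 17) (nat_lit 4) (nat_lit 357) (nat_lit 286) (nat_lit 257)))) (XT.nd (nat_lit 78) (nat_lit 152) (nat_lit 0) (XT.lf (nat_lit 0) (nat_lit 14723452230) (nat_lit 152) (nat_lit 2713118817) (nat_lit 0) (nat_lit 4819704413) (nat_lit 17) (nat_lit 5) (nat_lit 19) (nat_lit 4) (nat_lit 17) (nat_lit 4) (nat_lit 358) (nat_lit 286) (nat_lit 256)) (XT.nd (nat_lit 78) (nat_lit 76) (nat_lit 0) (XT.lf (nat_lit 0) (nat_lit 6536586409) (nat_lit 76) (nat_lit 13312497376) (nat_lit 76) (nat_lit 3266782305) (nat_lit 16) (nat_lit 4) (nat_lit 17) (nat_lit 5) (nat_lit 17) (nat_lit 4) (nat_lit 359) (nat_lit 286) (nat_lit 255)) (XT.lf (nat_lit 0) (nat_lit 1143927959) (nat_lit 152) (nat_lit 7835869663) (nat_lit 76) (nat_lit 15039204913) (nat_lit 15) (nat_lit 5) (nat_lit 17) (nat_lit 5) (nat_lit 16) (nat_lit 4) (nat_lit 360) (nat_lit 286) (nat_lit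 254))))))) (XT.nd (nat_lit 858) (nat_lit 228) (nat_lit 0) (XT.nd (nat_lit 390) (nat_lit 228) (nat_lit 0) (XT.nd (nat_lit 156) (nat_lit 76) (nat_lit 0) (XT.nd (nat_lit 78) (nat_lit 0) (nat_lit 0) (XT.lf (nat_lit 0) (nat_lit 1193138894) (nat_lit 76) (nat_lit 4417997378) (nat_lit 152) (nat_lit 19356215113) (nat_lit 14) (nat_lit 5) (nat_lit 15) (nat_lit 5) (nat_lit 16) (nat_lit 4) (nat_lit 361) (nat_lit 286) (nat_lit 253)) (XT.lf (nat_lit 0) (nat_lit 10369912943) (nat_lit 152) (nat_lit 15155450711) (nat_lit 0) (nat_lit 434363307) (nat_lit 14) (nat_lit 5) (nat_lit 16) (nat_lit 4) (nat_lit 14) (nat_lit 4) (nat_lit 362) (nat_lit 286) (nat_lit 252))) (XT.nd (nat_lit 78) (nat_lit 76) (nat_lit 0) (XT.lf (nat_lit 0) (nat_lit 15370027897) (nat_lit 152) (nat_lit 6308298985) (nat_lit 0) (nat_lit 5323243203) (nat_lit 14) (nat_lit 5) (nat_lit 16) (nat_lit 4) (nat_lit 14) (nat_lit 4) (nat_lit 363) (nat_lit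 286) (nat_lit 251)) (XT.nd (nat_lit 78) (nat_lit 0) (nat_lit 0) (XT.lf (nat_lit 0) (nat_lit 2951759385) (nat_lit 76) (nat_lit 17648734702) (nat_lit 76) (nat_lit 7496011856) (nat_lit 13) (nat_lit 4) (nat_lit 14) (nat_lit 5) (nat_lit 14) (nat_lit 4) (nat_lit 364) (nat_lit 286) (nat_lit 250)) (XT.lf (nat_lit 0) (nat_lit 12771903698) (nat_lit 76) (nat_lit 13362901081) (nat_lit 76) (nat_lit 3109284758) (nat_lit 13) (nat_lit 4) (nat_lit 14) (nat_lit 5) (nat_lit 14) (nat_lit 4) (nat_lit 365) (nat_lit 286) (nat_lit 249))))) (XT.nd (nat_lit 234) (nat_lit 76) (nat_lit 0) (XT.nd (nat_lit 78) (nat_lit 76) (nat_lit 0) (XT.lf (nat_lit 0) (nat_lit 1386408668) (nat_lit 152) (nat_lit 7507567578) (nat_lit 76) (nat_lit 21557046224) (nat_lit 12) (nat_lit 5) (nat_lit 14) (nat_lit 5) (nat_lit 13) (nat_lit 4) (nat_lit 366) (nat_lit 286) (nat_lit 248)) (XT.nd (nat_lit 78) (nat_lit 0) (nat_lit 0) (XT.lf (nat_lit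 0) (nat_lit 1799326457) (nat_lit 76) (nat_lit 4171671183) (nat_lit 152) (nat_lit 25746340342) (nat_lit 11) (nat_lit 5) (nat_lit 12) (nat_lit 5) (nat_lit 13) (nat_lit 4) (nat_lit 367) (nat_lit 286) (nat_lit 247)) (XT.lf (nat_lit 0) (nat_lit 10867124673) (nat_lit 152) (nat_lit 21335641610) (nat_lit 0) (nat_lit 840101543) (nat_lit 11) (nat_lit 5) (nat_lit 13) (nat_lit 4) (nat_lit 11) (nat_lit 4) (nat_lit 368) (nat_lit 286) (nat_lit 246)))) (XT.nd (nat_lit 78) (nat_lit 76) (nat_lit 0) (XT.lf (nat_lit 0) (nat_lit 16020061946) (nat_lit 152) (nat_lit 12500039205) (nat_lit 0) (nat_lit 5913986137) (nat_lit 11) (nat_lit 5) (nat_lit 13) (nat_lit 4) (nat_lit 11) (nat_lit 4) (nat_lit 369) (nat_lit 286) (nat_lit 245)) (XT.nd (nat_lit 78) (nat_lit 76) (nat_lit 0) (XT.lf (nat_lit 0) (nat_lit 21376946880) (nat_lit 152) (nat_lit 3325035683) (nat_lit 0) (nat_lit 11195582805) (nat_lit 11) (nat_lit 5) (nat_lit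 13) (nat_lit 4) (nat_lit 11) (nat_lit 4) (nat_lit 370) (nat_lit 286) (nat_lit 244)) (XT.lf (nat_lit 0) (nat_lit 6416584992) (nat_lit 76) (nat_lit 20634129846) (nat_lit 76) (nat_lit 10381062659) (nat_lit 10) (nat_lit 4) (nat_lit 11) (nat_lit 5) (nat_lit 11) (nat_lit 4) (nat_lit 371) (nat_lit 286) (nat_lit 243)))))) (XT.nd (nat_lit 468) (nat_lit 76) (nat_lit 0) (XT.nd (nat_lit 234) (nat_lit 76) (nat_lit 0) (XT.nd (nat_lit 78) (nat_lit 76) (nat_lit 0) (XT.lf (nat_lit 0) (nat_lit 16664793261) (nat_lit 76) (nat_lit 16349484506) (nat_lit 76) (nat_lit 6028128643) (nat_lit 10) (nat_lit 4) (nat_lit 11) (nat_lit 5) (nat_lit 11) (nat_lit 4) (nat_lit 372) (nat_lit 286) (nat_lit 242)) (XT.nd (nat_lit 78) (nat_lit 76) (nat_lit 0) (XT.lf (nat_lit 0) (nat_lit 27334048924) (nat_lit 76) (nat_lit 11894156096) (nat_lit 76) (nat_lit 1507763398) (nat_lit 10) (nat_lit 4) (nat_lit 11) (nat_lit 5) (nat_lit 11)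 (nat_lit 4) (nat_lit 373) (nat_lit 286) (nat_lit 241)) (XT.lf (nat_lit 0) (nat_lit 3088670454) (nat_lit 152) (nat_lit 4116558110) (nat_lit 76) (nat_lit 35308776387) (nat_lit 9) (nat_lit 5) (nat_lit 11) (nat_lit 5) (nat_lit 10) (nat_lit 4) (nat_lit 374) (nat_lit 286) (nat_lit 240)))) (XT.nd (nat_lit 78) (nat_lit 0) (nat_lit 0) (XT.lf (nat_lit 0) (nat_lit 5706666679) (nat_lit 76) (nat_lit 2202596514) (nat_lit 152) (nat_lit 36468203315) (nat_lit 8) (nat_lit 5) (nat_lit 9) (nat_lit 5) (nat_lit 10) (nat_lit 4) (nat_lit 375) (nat_lit 286) (nat_lit 239)) (XT.nd (nat_lit 78) (nat_lit 0) (nat_lit 0) (XT.lf (nat_lit 0) (nat_lit 13045461196) (nat_lit 152) (nat_lit 30299939110) (nat_lit 0) (nat_lit 2984981071) (nat_lit 8) (nat_lit 5) (nat_lit 10) (nat_lit 4) (nat_lit 8) (nat_lit 4) (nat_lit 376) (nat_lit 286) (nat_lit 238)) (XT.lf (nat_lit 0) (nat_lit 18432763126) (nat_lit 152) (nat_lit 21627147810)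 (nat_lit 0) (nat_lit 8321324939) (nat_lit 8) (nat_lit 5) (nat_lit 10) (nat_lit 4) (nat_lit 8) (nat_lit 4) (nat_lit 377) (nat_lit 286) (nat_lit 237))))) (XT.nd (nat_lit 234) (nat_lit 0) (nat_lit 0) (XT.nd (nat_lit 78) (nat_lit 76) (nat_lit 0) (XT.lf (nat_lit 0) (nat_lit 24049607188) (nat_lit 152) (nat_lit 12597387721) (nat_lit 0) (nat_lit 13889637514) (nat_lit 8) (nat_lit 5) (nat_lit 10) (nat_lit 4) (nat_lit 8) (nat_lit 4) (nat_lit 378) (nat_lit 286) (nat_lit 236)) (XT.nd (nat_lit 78) (nat_lit 76) (nat_lit 0) (XT.lf (nat_lit 0) (nat_lit 29909366821) (nat_lit 152) (nat_lit 3189159416) (nat_lit 0) (nat_lit 19703176682) (nat_lit 8) (nat_lit 5) (nat_lit 10) (nat_lit 4) (nat_lit 8) (nat_lit 4) (nat_lit 379) (nat_lit 286) (nat_lit 235)) (XT.lf (nat_lit 0) (nat_lit 6838822684) (nat_lit 76) (nat_lit 29293944337) (nat_lit 76) (nat_lit 19043734708) (nat_lit 7) (nat_lit 4) (nat_lit 8) (nat_lit 5) (nat_lit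 8) (nat_lit 4) (nat_lit 380) (nat_lit 286) (nat_lit 234)))) (XT.nd (nat_lit 78) (nat_lit 0) (nat_lit 0) (XT.lf (nat_lit 0) (nat_lit 17410503305) (nat_lit 76) (nat_lit 25275375067) (nat_lit 76) (nat_lit 14983242114) (nat_lit 7) (nat_lit 4) (nat_lit 8) (nat_lit 5) (nat_lit 8) (nat_lit 4) (nat_lit 381) (nat_lit 286) (nat_lit 233)) (XT.nd (nat_lit 78) (nat_lit 0) (nat_lit 0) (XT.lf (nat_lit 0) (nat_lit 28445605101) (nat_lit 76) (nat_lit 21087260363) (nat_lit 76) (nat_lit 10755200435) (nat_lit 7) (nat_lit 4) (nat_lit 8) (nat_lit 5) (nat_lit 8) (nat_lit 4) (nat_lit 382) (nat_lit 286) (nat_lit 232)) (XT.lf (nat_lit 0) (nat_lit 39970402123) (nat_lit 76) (nat_lit 16719628525) (nat_lit 76) (nat_lit 6349542906) (nat_lit 7) (nat_lit 4) (nat_lit 8) (nat_lit 5) (nat_lit 8) (nat_lit 4) (nat_lit 383) (nat_lit 286) (nat_lit 231))))))))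
noncomputable def xc64 : XT := (XT.nd (nat_lit 1716) (nat_lit 152) (nat_lit 0) (XT.nd (nat_lit 858) (nat_lit 0) (nat_lit 0) (XT.nd (nat_lit 390) (nat_lit 76) (nat_lit 0) (XT.nd (nat_lit 156) (nat_lit 76) (nat_lit 0) (XT.nd (nat_lit 78) (nat_lit 76) (nat_lit 0) (XT.lf (nat_lit 0) (nat_lit 52012334366) (nat_lit 76) (nat_lit 12162080428) (nat_lit 76) (nat_lit 1755779866) (nat_lit 7) (nat_lit 4) (nat_lit 8) (nat_lit 5) (nat_lit 8) (nat_lit 4) (nat_lit 384) (nat_lit 286) (nat_lit 230)) (XT.lf (nat_lit 0) (nat_lit 2939822410) (nat_lit 152) (nat_lit 4414155042) (nat_lit 76) (nat_lit 61610463369) (nat_lit 6) (nat_lit 5) (nat_lit 8) (nat_lit 5) (nat_lit 7) (nat_lit 4) (nat_lit 385) (nat_lit 286) (nat_lit 229))) (XT.nd (nat_lit 78) (nat_lit 0) (nat_lit 0) (XT.lf (nat_lit 0) (nat_lit 5662643096) (nat_lit 76) (nat_lit 2208714026) (nat_lit 152) (nat_lit 64274600374) (nat_lit 5) (nat_lit 5) (nat_lit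 6) (nat_lit 5) (nat_lit 7) (nat_lit 4) (nat_lit 386) (nat_lit 286) (nat_lit 228)) (XT.nd (nat_lit 78) (nat_lit 0) (nat_lit 0) (XT.lf (nat_lit 0) (nat_lit 13147165233) (nat_lit 152) (nat_lit 59192028141) (nat_lit 0) (nat_lit 3142476819) (nat_lit 5) (nat_lit 5) (nat_lit 7) (nat_lit 4) (nat_lit 5) (nat_lit 4) (nat_lit 387) (nat_lit 286) (nat_lit 227)) (XT.lf (nat_lit 0) (nat_lit 18696163548) (nat_lit 152) (nat_lit 51624439989) (nat_lit 0) (nat_lit 8663099778) (nat_lit 5) (nat_lit 5) (nat_lit 7) (nat_lit 4) (nat_lit 5) (nat_lit 4) (nat_lit 388) (nat_lit 286) (nat_lit 226))))) (XT.nd (nat_lit 234) (nat_lit 76) (nat_lit 0) (XT.nd (nat_lit 78) (nat_lit 0) (nat_lit 0) (XT.lf (nat_lit 0) (nat_lit 24497079752) (nat_lit 152) (nat_lit 43728047663) (nat_lit 0) (nat_lit 14436991834) (nat_lit 5) (nat_lit 5) (nat_lit 7) (nat_lit 4) (nat_lit 5) (nat_lit 4) (nat_lit 389) (nat_lit 286) (nat_lit 225)) (XT.nd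 (nat_lit 78) (nat_lit 0) (nat_lit 0) (XT.lf (nat_lit 0) (nat_lit 30563725551) (nat_lit 152) (nat_lit 35484050228) (nat_lit 0) (nat_lit 20477900349) (nat_lit 5) (nat_lit 5) (nat_lit 7) (nat_lit 4) (nat_lit 5) (nat_lit 4) (nat_lit 390) (nat_lit 286) (nat_lit 224)) (XT.lf (nat_lit 0) (nat_lit 36910545338) (nat_lit 152) (nat_lit 26872819119) (nat_lit 0) (nat_lit 26800208437) (nat_lit 5) (nat_lit 5) (nat_lit 7) (nat_lit 4) (nat_lit 5) (nat_lit 4) (nat_lit 391) (nat_lit 286) (nat_lit 223)))) (XT.nd (nat_lit 78) (nat_lit 76) (nat_lit 0) (XT.lf (nat_lit 0) (nat_lit 43552650591) (nat_lit 152) (nat_lit 17873851404) (nat_lit 0) (nat_lit 33418969214) (nat_lit 5) (nat_lit 5) (nat_lit 7) (nat_lit 4) (nat_lit 5) (nat_lit 4) (nat_lit 392) (nat_lit 286) (nat_lit 222)) (XT.nd (nat_lit 78) (nat_lit 76) (nat_lit 0) (XT.lf (nat_lit 0) (nat_lit 50505855845) (nat_lit 152) (nat_lit 8465720971) (nat_lit 0) (nat_lit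 40349941635) (nat_lit 5) (nat_lit 5) (nat_lit 7) (nat_lit 4) (nat_lit 5) (nat_lit 4) (nat_lit 393) (nat_lit 286) (nat_lit 221)) (XT.lf (nat_lit 0) (nat_lit 1419402227) (nat_lit 76) (nat_lit 56389474970) (nat_lit 76) (nat_lit 46212386632) (nat_lit 4) (nat_lit 4) (nat_lit 5) (nat_lit 5) (nat_lit 5) (nat_lit 4) (nat_lit 394) (nat_lit 286) (nat_lit 220)))))) (XT.nd (nat_lit 390) (nat_lit 0) (nat_lit 0) (XT.nd (nat_lit 156) (nat_lit 0) (nat_lit 0) (XT.nd (nat_lit 78) (nat_lit 0) (nat_lit 0) (XT.lf (nat_lit 0) (nat_lit 12054475317) (nat_lit 76) (nat_lit 53546296315) (nat_lit 76) (nat_lit 43349042142) (nat_lit 4) (nat_lit 4) (nat_lit 5) (nat_lit 5) (nat_lit 5) (nat_lit 4) (nat_lit 395) (nat_lit 286) (nat_lit 219)) (XT.lf (nat_lit 0) (nat_lit 23184904933) (nat_lit 76) (nat_lit 50578642460) (nat_lit 76) (nat_lit 40362182729) (nat_lit 4) (nat_lit 4) (nat_lit 5) (nat_lit 5) (nat_lit 5) (nat_lit 4)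 (nat_lit 396) (nat_lit 286) (nat_lit 218))) (XT.nd (nat_lit 78) (nat_lit 0) (nat_lit 0) (XT.lf (nat_lit 0) (nat_lit 34837192100) (nat_lit 76) (nat_lit 47479447561) (nat_lit 76) (nat_lit 37244696823) (nat_lit 4) (nat_lit 4) (nat_lit 5) (nat_lit 5) (nat_lit 5) (nat_lit 4) (nat_lit 397) (nat_lit 286) (nat_lit 217)) (XT.nd (nat_lit 78) (nat_lit 0) (nat_lit 0) (XT.lf (nat_lit 0) (nat_lit 47039080356) (nat_lit 76) (nat_lit 44241332584) (nat_lit 76) (nat_lit 33989161839) (nat_lit 4) (nat_lit 4) (nat_lit 5) (nat_lit 5) (nat_lit 5) (nat_lit 4) (nat_lit 398) (nat_lit 286) (nat_lit 216)) (XT.lf (nat_lit 0) (nat_lit 59819621818) (nat_lit 76) (nat_lit 40856587730) (nat_lit 76) (nat_lit 30587826502) (nat_lit 4) (nat_lit 4) (nat_lit 5) (nat_lit 5) (nat_lit 5) (nat_lit 4) (nat_lit 399) (nat_lit 286) (nat_lit 215))))) (XT.nd (nat_lit 234) (nat_lit 0) (nat_lit 0) (XT.nd (nat_lit 78) (nat_lit 0) (nat_lit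 0) (XT.lf (nat_lit 0) (nat_lit 73209246346) (nat_lit 76) (nat_lit 37317154084) (nat_lit 76) (nat_lit 27032592397) (nat_lit 4) (nat_lit 4) (nat_lit 5) (nat_lit 5) (nat_lit 5) (nat_lit 4) (nat_lit 400) (nat_lit 286) (nat_lit 214)) (XT.nd (nat_lit 78) (nat_lit 0) (nat_lit 0) (XT.lf (nat_lit 0) (nat_lit 87239833999) (nat_lit 76) (nat_lit 33614604423) (nat_lit 76) (nat_lit 23314994678) (nat_lit 4) (nat_lit 4) (nat_lit 5) (nat_lit 5) (nat_lit 5) (nat_lit 4) (nat_lit 401) (nat_lit 286) (nat_lit 213)) (XT.lf (nat_lit 0) (nat_lit 101944790936) (nat_lit 76) (nat_lit 29740123151) (nat_lit 76) (nat_lit 19426181924) (nat_lit 4) (nat_lit 4) (nat_lit 5) (nat_lit 5) (nat_lit 5) (nat_lit 4) (nat_lit 402) (nat_lit 286) (nat_lit 212)))) (XT.nd (nat_lit 78) (nat_lit 0) (nat_lit 0) (XT.lf (nat_lit 0) (nat_lit 117359128961) (nat_lit 76) (nat_lit 25684485315) (nat_lit 76) (nat_lit 15356895056) (nat_lit 4) (nat_lit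 4) (nat_lit 5) (nat_lit 5) (nat_lit 5) (nat_lit 4) (nat_lit 403) (nat_lit 286) (nat_lit 211)) (XT.nd (nat_lit 78) (nat_lit 0) (nat_lit 0) (XT.lf (nat_lit 0) (nat_lit 133519548879) (nat_lit 76) (nat_lit 21438034632) (nat_lit 76) (nat_lit 11097445296) (nat_lit 4) (nat_lit 4) (nat_lit 5) (nat_lit 5) (nat_lit 5) (nat_lit 4) (nat_lit 404) (nat_lit 286) (nat_lit 210)) (XT.lf (nat_lit 0) (nat_lit 150464527880) (nat_lit 76) (nat_lit 16990660507) (nat_lit 76) (nat_lit 6637691097) (nat_lit 4) (nat_lit 4) (nat_lit 5) (nat_lit 5) (nat_lit 5) (nat_lit 4) (nat_lit 405) (nat_lit 286) (nat_lit 209))))))) (XT.nd (nat_lit 858) (nat_lit 0) (nat_lit 0) (XT.nd (nat_lit 390) (nat_lit 0) (nat_lit 0) (XT.nd (nat_lit 156) (nat_lit 76) (nat_lit 0) (XT.nd (nat_lit 78) (nat_lit 76) (nat_lit 0) (XT.lf (nat_lit 0) (nat_lit 168234411151) (nat_lit 76) (nat_lit 12331773953) (nat_lit 76) (nat_lit 1967013996) (nat_lit 4)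 (nat_lit 4) (nat_lit 5) (nat_lit 5) (nat_lit 5) (nat_lit 4) (nat_lit 406) (nat_lit 286) (nat_lit 208)) (XT.lf (nat_lit 0) (nat_lit 2832065780) (nat_lit 152) (nat_lit 4570254198) (nat_lit 76) (nat_lit 183991479755) (nat_lit 3) (nat_lit 5) (nat_lit 5) (nat_lit 5) (nat_lit 4) (nat_lit 4) (nat_lit 407) (nat_lit 286) (nat_lit 207))) (XT.nd (nat_lit 78) (nat_lit 0) (nat_lit 0) (XT.lf (nat_lit 0) (nat_lit 5776732373) (nat_lit 76) (nat_lit 2107860696) (nat_lit 152) (nat_lit 192807246832) (nat_lit 2) (nat_lit 5) (nat_lit 3) (nat_lit 5) (nat_lit 4) (nat_lit 4) (nat_lit 408) (nat_lit 286) (nat_lit 206)) (XT.nd (nat_lit 78) (nat_lit 0) (nat_lit 0) (XT.lf (nat_lit 0) (nat_lit 13311740362) (nat_lit 152) (nat_lit 193726982867) (nat_lit 0) (nat_lit 3409960802) (nat_lit 2) (nat_lit 5) (nat_lit 4) (nat_lit 4) (nat_lit 2) (nat_lit 4) (nat_lit 409) (nat_lit 286) (nat_lit 205)) (XT.lf (nat_lit 0) (nat_lit 19034743470)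 (nat_lit 152) (nat_lit 192533677824) (nat_lit 0) (nat_lit 9123725708) (nat_lit 2) (nat_lit 5) (nat_lit 4) (nat_lit 4) (nat_lit 2) (nat_lit 4) (nat_lit 410) (nat_lit 286) (nat_lit 204))))) (XT.nd (nat_lit 234) (nat_lit 0) (nat_lit 0) (XT.nd (nat_lit 78) (nat_lit 0) (nat_lit 0) (XT.lf (nat_lit 0) (nat_lit 25034318979) (nat_lit 152) (nat_lit 191299441584) (nat_lit 0) (nat_lit 15114502929) (nat_lit 2) (nat_lit 5) (nat_lit 4) (nat_lit 4) (nat_lit 2) (nat_lit 4) (nat_lit 411) (nat_lit 286) (nat_lit 203)) (XT.nd (nat_lit 78) (nat_lit 0) (nat_lit 0) (XT.lf (nat_lit 0) (nat_lit 31324751591) (nat_lit 152) (nat_lit 190021335489) (nat_lit 0) (nat_lit 21396556221) (nat_lit 2) (nat_lit 5) (nat_lit 4) (nat_lit 4) (nat_lit 2) (nat_lit 4) (nat_lit 412) (nat_lit 286) (nat_lit 202)) (XT.lf (nat_lit 0) (nat_lit 37921018529) (nat_lit 152) (nat_lit 188696316429) (nat_lit 0) (nat_lit 27984842853) (nat_lit 2)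 (nat_lit 5) (nat_lit 4) (nat_lit 4) (nat_lit 2) (nat_lit 4) (nat_lit 413) (nat_lit 286) (nat_lit 201)))) (XT.nd (nat_lit 78) (nat_lit 0) (nat_lit 0) (XT.lf (nat_lit 0) (nat_lit 44838825189) (nat_lit 152) (nat_lit 187321229598) (nat_lit 0) (nat_lit 34895049221) (nat_lit 2) (nat_lit 5) (nat_lit 4) (nat_lit 4) (nat_lit 2) (nat_lit 4) (nat_lit 414) (nat_lit 286) (nat_lit 200)) (XT.nd (nat_lit 78) (nat_lit 0) (nat_lit 0) (XT.lf (nat_lit 0) (nat_lit 52094642539) (nat_lit 152) (nat_lit 185892800980) (nat_lit 0) (nat_lit 42143628199) (nat_lit 2) (nat_lit 5) (nat_lit 4) (nat_lit 4) (nat_lit 2) (nat_lit 4) (nat_lit 415) (nat_lit 286) (nat_lit 199)) (XT.lf (nat_lit 0) (nat_lit 59705746336) (nat_lit 152) (nat_lit 184407629552) (nat_lit 0) (nat_lit 49747838307) (nat_lit 2) (nat_lit 5) (nat_lit 4) (nat_lit 4) (nat_lit 2) (nat_lit 4) (nat_lit 416) (nat_lit 286) (nat_lit 198)))))) (XT.nd (nat_lit 468)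 (nat_lit 0) (nat_lit 0) (XT.nd (nat_lit 234) (nat_lit 0) (nat_lit 0) (XT.nd (nat_lit 78) (nat_lit 0) (nat_lit 0) (XT.lf (nat_lit 0) (nat_lit 67690258254) (nat_lit 152) (nat_lit 182862179194) (nat_lit 0) (nat_lit 57725784808) (nat_lit 2) (nat_lit 5) (nat_lit 4) (nat_lit 4) (nat_lit 2) (nat_lit 4) (nat_lit 417) (nat_lit 286) (nat_lit 197)) (XT.nd (nat_lit 78) (nat_lit 0) (nat_lit 0) (XT.lf (nat_lit 0) (nat_lit 76067189037) (nat_lit 152) (nat_lit 181252770261) (nat_lit 0) (nat_lit 66096462812) (nat_lit 2) (nat_lit 5) (nat_lit 4) (nat_lit 4) (nat_lit 2) (nat_lit 4) (nat_lit 418) (nat_lit 286) (nat_lit 196)) (XT.lf (nat_lit 0) (nat_lit 84856483757) (nat_lit 152) (nat_lit 179575570827) (nat_lit 0) (nat_lit 74879802506) (nat_lit 2) (nat_lit 5) (nat_lit 4) (nat_lit 4) (nat_lit 2) (nat_lit 4) (nat_lit 419) (nat_lit 286) (nat_lit 195)))) (XT.nd (nat_lit 78) (nat_lit 0) (nat_lit 0) (XT.lf (nat_lit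 0) (nat_lit 94079069308) (nat_lit 152) (nat_lit 177826587560) (nat_lit 0) (nat_lit 84096716602) (nat_lit 2) (nat_lit 5) (nat_lit 4) (nat_lit 4) (nat_lit 2) (nat_lit 4) (nat_lit 420) (nat_lit 286) (nat_lit 194)) (XT.nd (nat_lit 78) (nat_lit 0) (nat_lit 0) (XT.lf (nat_lit 0) (nat_lit 103756904225) (nat_lit 152) (nat_lit 176001656216) (nat_lit 0) (nat_lit 93769150134) (nat_lit 2) (nat_lit 5) (nat_lit 4) (nat_lit 4) (nat_lit 2) (nat_lit 4) (nat_lit 421) (nat_lit 286) (nat_lit 193)) (XT.lf (nat_lit 0) (nat_lit 113913030974) (nat_lit 152) (nat_lit 174096431717) (nat_lit 0) (nat_lit 103920132706) (nat_lit 2) (nat_lit 5) (nat_lit 4) (nat_lit 4) (nat_lit 2) (nat_lit 4) (nat_lit 422) (nat_lit 286) (nat_lit 192))))) (XT.nd (nat_lit 234) (nat_lit 0) (nat_lit 0) (XT.nd (nat_lit 78) (nat_lit 0) (nat_lit 0) (XT.lf (nat_lit 0) (nat_lit 124571630808) (nat_lit 152) (nat_lit 172106377817) (nat_lit 0) (nat_lit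 114573833324) (nat_lit 2) (nat_lit 5) (nat_lit 4) (nat_lit 4) (nat_lit 2) (nat_lit 4) (nat_lit 423) (nat_lit 286) (nat_lit 191)) (XT.nd (nat_lit 78) (nat_lit 0) (nat_lit 0) (XT.lf (nat_lit 0) (nat_lit 135758081345) (nat_lit 152) (nat_lit 170026756292) (nat_lit 0) (nat_lit 125755617943) (nat_lit 2) (nat_lit 5) (nat_lit 4) (nat_lit 4) (nat_lit 2) (nat_lit 4) (nat_lit 424) (nat_lit 286) (nat_lit 190)) (XT.lf (nat_lit 0) (nat_lit 147499016993) (nat_lit 152) (nat_lit 167852615661) (nat_lit 0) (nat_lit 137492109857) (nat_lit 2) (nat_lit 5) (nat_lit 4) (nat_lit 4) (nat_lit 2) (nat_lit 4) (nat_lit 425) (nat_lit 286) (nat_lit 189)))) (XT.nd (nat_lit 78) (nat_lit 0) (nat_lit 0) (XT.lf (nat_lit 0) (nat_lit 159822392359) (nat_lit 152) (nat_lit 165578779399) (nat_lit 0) (nat_lit 149811253097) (nat_lit 2) (nat_lit 5) (nat_lit 4) (nat_lit 4) (nat_lit 2) (nat_lit 4) (nat_lit 426) (nat_lit 286) (nat_lit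 188)) (XT.nd (nat_lit 78) (nat_lit 0) (nat_lit 0) (XT.lf (nat_lit 0) (nat_lit 172757548814) (nat_lit 152) (nat_lit 163199833611) (nat_lit 0) (nat_lit 162742378955) (nat_lit 2) (nat_lit 5) (nat_lit 4) (nat_lit 4) (nat_lit 2) (nat_lit 4) (nat_lit 427) (nat_lit 286) (nat_lit 187)) (XT.lf (nat_lit 0) (nat_lit 186335284349) (nat_lit 152) (nat_lit 160710114139) (nat_lit 0) (nat_lit 176316275826) (nat_lit 2) (nat_lit 5) (nat_lit 4) (nat_lit 4) (nat_lit 2) (nat_lit 4) (nat_lit 428) (nat_lit 286) (nat_lit 186))))))))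
noncomputable def xc65 : XT := (XT.nd (nat_lit 40170) (nat_lit 0) (nat_lit 836) (XT.nd (nat_lit 39312) (nat_lit 0) (nat_lit 2280) (XT.nd (nat_lit 38844) (nat_lit 0) (nat_lit 3876) (XT.nd (nat_lit 156) (nat_lit 0) (nat_lit 0) (XT.nd (nat_lit 78) (nat_lit 0) (nat_lit 0) (XT.lf (nat_lit 0) (nat_lit 200587926905) (nat_lit 152) (nat_lit 158103693081) (nat_lit 0) (nat_lit 190565262513) (nat_lit 2) (nat_lit 5) (nat_lit 4) (nat_lit 4) (nat_lit 2) (nat_lit 4) (nat_lit 429) (nat_lit 286) (nat_lit 185)) (XT.lf (nat_lit 0) (nat_lit 215549411347) (nat_lit 152) (nat_lit 155374364672) (nat_lit 0) (nat_lit 205523265173) (nat_lit 2) (nat_lit 5) (nat_lit 4) (nat_lit 4) (nat_lit 2) (nat_lit 4) (nat_lit 430) (nat_lit 286) (nat_lit 184))) (XT.nd (nat_lit 78) (nat_lit 0) (nat_lit 0) (XT.lf (nat_lit 0) (nat_lit 231255360256) (nat_lit 152) (nat_lit 152515630511) (nat_lit 0) (nat_lit 221225898100) (nat_lit 2) (nat_lit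 5) (nat_lit 4) (nat_lit 4) (nat_lit 2) (nat_lit 4) (nat_lit 431) (nat_lit 286) (nat_lit 183)) (XT.nd (nat_lit 78) (nat_lit 0) (nat_lit 0) (XT.lf (nat_lit 0) (nat_lit 247743168748) (nat_lit 152) (nat_lit 149520684087) (nat_lit 0) (nat_lit 237710548515) (nat_lit 2) (nat_lit 5) (nat_lit 4) (nat_lit 4) (nat_lit 2) (nat_lit 4) (nat_lit 432) (nat_lit 286) (nat_lit 182)) (XT.lf (nat_lit 0) (nat_lit 265052093511) (nat_lit 152) (nat_lit 146382394577) (nat_lit 0) (nat_lit 255016465584) (nat_lit 2) (nat_lit 5) (nat_lit 4) (nat_lit 4) (nat_lit 2) (nat_lit 4) (nat_lit 433) (nat_lit 286) (nat_lit 181))))) (XT.nd (nat_lit 234) (nat_lit 456) (nat_lit 0) (XT.nd (nat_lit 78) (nat_lit 304) (nat_lit 0) (XT.lf (nat_lit 0) (nat_lit 414414958) (nat_lit 304) (nat_lit 1935338601) (nat_lit 304) (nat_lit 1935338601) (nat_lit 63) (nat_lit 4) (nat_lit 67) (nat_lit 5) (nat_lit 67) (nat_lit 4) (nat_lit 326) (nat_lit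 287) (nat_lit 287)) (XT.nd (nat_lit 78) (nat_lit 304) (nat_lit 0) (XT.lf (nat_lit 0) (nat_lit 7596782931) (nat_lit 304) (nat_lit 1101352800) (nat_lit 304) (nat_lit 51932537) (nat_lit 63) (nat_lit 4) (nat_lit 67) (nat_lit 5) (nat_lit 67) (nat_lit 4) (nat_lit 327) (nat_lit 287) (nat_lit 286)) (XT.lf (nat_lit 0) (nat_lit 3793368549) (nat_lit 304) (nat_lit 3302468516) (nat_lit 0) (nat_lit 1842065566) (nat_lit 59) (nat_lit 5) (nat_lit 63) (nat_lit 4) (nat_lit 59) (nat_lit 4) (nat_lit 328) (nat_lit 287) (nat_lit 285)))) (XT.nd (nat_lit 78) (nat_lit 228) (nat_lit 0) (XT.lf (nat_lit 0) (nat_lit 3543248186) (nat_lit 228) (nat_lit 4226399725) (nat_lit 228) (nat_lit 1368568061) (nat_lit 56) (nat_lit 4) (nat_lit 59) (nat_lit 5) (nat_lit 59) (nat_lit 4) (nat_lit 329) (nat_lit 287) (nat_lit 284)) (XT.nd (nat_lit 78) (nat_lit 0) (nat_lit 0) (XT.lf (nat_lit 0) (nat_lit 1277596957) (nat_lit 152) (nat_lit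 1160836832) (nat_lit 228) (nat_lit 6911956447) (nat_lit 53) (nat_lit 5) (nat_lit 55) (nat_lit 5) (nat_lit 56) (nat_lit 4) (nat_lit 330) (nat_lit 287) (nat_lit 283)) (XT.lf (nat_lit 0) (nat_lit 6369467794) (nat_lit 228) (nat_lit 1161350291) (nat_lit 0) (nat_lit 2042381558) (nat_lit 53) (nat_lit 5) (nat_lit 56) (nat_lit 4) (nat_lit 53) (nat_lit 4) (nat_lit 331) (nat_lit 287) (nat_lit 282)))))) (XT.nd (nat_lit 390) (nat_lit 684) (nat_lit 0) (XT.nd (nat_lit 156) (nat_lit 456) (nat_lit 0) (XT.nd (nat_lit 78) (nat_lit 152) (nat_lit 0) (XT.lf (nat_lit 0) (nat_lit 639148156) (nat_lit 304) (nat_lit 3762635903) (nat_lit 76) (nat_lit 5406380310) (nat_lit 49) (nat_lit 5) (nat_lit 53) (nat_lit 5) (nat_lit 50) (nat_lit 4) (nat_lit 332) (nat_lit 287) (nat_lit 281)) (XT.lf (nat_lit 0) (nat_lit 3441036253) (nat_lit 152) (nat_lit 1058580731) (nat_lit 228) (nat_lit 5556092762) (nat_lit 47) (nat_lit 5) (nat_lit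 49) (nat_lit 5) (nat_lit 50) (nat_lit 4) (nat_lit 333) (nat_lit 287) (nat_lit 280))) (XT.nd (nat_lit 78) (nat_lit 228) (nat_lit 0) (XT.lf (nat_lit 0) (nat_lit 584706105) (nat_lit 228) (nat_lit 7942193718) (nat_lit 228) (nat_lit 1790151600) (nat_lit 44) (nat_lit 4) (nat_lit 47) (nat_lit 5) (nat_lit 47) (nat_lit 4) (nat_lit 334) (nat_lit 287) (nat_lit 279)) (XT.nd (nat_lit 78) (nat_lit 152) (nat_lit 0) (XT.lf (nat_lit 0) (nat_lit 2088580265) (nat_lit 304) (nat_lit 2484026867) (nat_lit 76) (nat_lit 6017574248) (nat_lit 43) (nat_lit 5) (nat_lit 47) (nat_lit 5) (nat_lit 44) (nat_lit 4) (nat_lit 335) (nat_lit 287) (nat_lit 278)) (XT.lf (nat_lit 0) (nat_lit 5050541679) (nat_lit 152) (nat_lit 998489813) (nat_lit 228) (nat_lit 4829165601) (nat_lit 41) (nat_lit 5) (nat_lit 43) (nat_lit 5) (nat_lit 44) (nat_lit 4) (nat_lit 336) (nat_lit 287) (nat_lit 277))))) (XT.nd (nat_lit 234) (nat_lit 304) (nat_lit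 0) (XT.nd (nat_lit 78) (nat_lit 228) (nat_lit 0) (XT.lf (nat_lit 0) (nat_lit 1668908211) (nat_lit 152) (nat_lit 8521330373) (nat_lit 152) (nat_lit 991327656) (nat_lit 39) (nat_lit 4) (nat_lit 41) (nat_lit 5) (nat_lit 41) (nat_lit 4) (nat_lit 337) (nat_lit 287) (nat_lit 276)) (XT.nd (nat_lit 78) (nat_lit 152) (nat_lit 0) (XT.lf (nat_lit 0) (nat_lit 2929515874) (nat_lit 228) (nat_lit 2029284264) (nat_lit 76) (nat_lit 6539594739) (nat_lit 38) (nat_lit 5) (nat_lit 41) (nat_lit 5) (nat_lit 39) (nat_lit 4) (nat_lit 338) (nat_lit 287) (nat_lit 275)) (XT.lf (nat_lit 0) (nat_lit 5796272809) (nat_lit 152) (nat_lit 1185100912) (nat_lit 228) (nat_lit 4850541448) (nat_lit 36) (nat_lit 5) (nat_lit 38) (nat_lit 5) (nat_lit 39) (nat_lit 4) (nat_lit 339) (nat_lit 287) (nat_lit 274)))) (XT.nd (nat_lit 78) (nat_lit 152) (nat_lit 0) (XT.lf (nat_lit 0) (nat_lit 1711184203) (nat_lit 152) (nat_lit 9508941373)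 (nat_lit 152) (nat_lit 962844320) (nat_lit 34) (nat_lit 4) (nat_lit 36) (nat_lit 5) (nat_lit 36) (nat_lit 4) (nat_lit 340) (nat_lit 287) (nat_lit 273)) (XT.nd (nat_lit 78) (nat_lit 76) (nat_lit 0) (XT.lf (nat_lit 0) (nat_lit 3022644863) (nat_lit 228) (nat_lit 2764966317) (nat_lit 76) (nat_lit 6761435711) (nat_lit 33) (nat_lit 5) (nat_lit 36) (nat_lit 5) (nat_lit 34) (nat_lit 4) (nat_lit 341) (nat_lit 287) (nat_lit 272)) (XT.lf (nat_lit 0) (nat_lit 5286720485) (nat_lit 76) (nat_lit 1856510847) (nat_lit 152) (nat_lit 5791061621) (nat_lit 32) (nat_lit 5) (nat_lit 33) (nat_lit 5) (nat_lit 34) (nat_lit 4) (nat_lit 342) (nat_lit 287) (nat_lit 271))))))) (XT.nd (nat_lit 858) (nat_lit 532) (nat_lit 0) (XT.nd (nat_lit 390) (nat_lit 380) (nat_lit 0) (XT.nd (nat_lit 156) (nat_lit 304) (nat_lit 0) (XT.nd (nat_lit 78) (nat_lit 76) (nat_lit 0) (XT.lf (nat_lit 0) (nat_lit 278002764) (nat_lit 152) (nat_lit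 11166113321) (nat_lit 152) (nat_lit 1896032237) (nat_lit 30) (nat_lit 4) (nat_lit 32) (nat_lit 5) (nat_lit 32) (nat_lit 4) (nat_lit 343) (nat_lit 287) (nat_lit 270)) (XT.lf (nat_lit 0) (nat_lit 2173001480) (nat_lit 228) (nat_lit 5157089173) (nat_lit 76) (nat_lit 6432074779) (nat_lit 29) (nat_lit 5) (nat_lit 32) (nat_lit 5) (nat_lit 30) (nat_lit 4) (nat_lit 344) (nat_lit 287) (nat_lit 269))) (XT.nd (nat_lit 78) (nat_lit 228) (nat_lit 0) (XT.lf (nat_lit 0) (nat_lit 3022373978) (nat_lit 76) (nat_lit 3299337111) (nat_lit 152) (nat_lit 7885073237) (nat_lit 28) (nat_lit 5) (nat_lit 29) (nat_lit 5) (nat_lit 30) (nat_lit 4) (nat_lit 345) (nat_lit 287) (nat_lit 268)) (XT.nd (nat_lit 78) (nat_lit 228) (nat_lit 0) (XT.lf (nat_lit 0) (nat_lit 10674964030) (nat_lit 152) (nat_lit 3082977082) (nat_lit 0) (nat_lit 915887393) (nat_lit 28) (nat_lit 5) (nat_lit 30) (nat_lit 4) (nat_lit 28) (nat_lit 4) (nat_lit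 346) (nat_lit 287) (nat_lit 267)) (XT.lf (nat_lit 0) (nat_lit 116236993) (nat_lit 228) (nat_lit 9801876253) (nat_lit 76) (nat_lit 5244233226) (nat_lit 25) (nat_lit 5) (nat_lit 28) (nat_lit 5) (nat_lit 26) (nat_lit 4) (nat_lit 347) (nat_lit 287) (nat_lit 266))))) (XT.nd (nat_lit 234) (nat_lit 304) (nat_lit 0) (XT.nd (nat_lit 78) (nat_lit 76) (nat_lit 0) (XT.lf (nat_lit 0) (nat_lit 4255009245) (nat_lit 228) (nat_lit 1585093568) (nat_lit 76) (nat_lit 9834337537) (nat_lit 25) (nat_lit 5) (nat_lit 28) (nat_lit 5) (nat_lit 26) (nat_lit 4) (nat_lit 348) (nat_lit 287) (nat_lit 265)) (XT.nd (nat_lit 78) (nat_lit 0) (nat_lit 0) (XT.lf (nat_lit 0) (nat_lit 7099148555) (nat_lit 76) (nat_lit 1516443576) (nat_lit 152) (nat_lit 7595844105) (nat_lit 24) (nat_lit 5) (nat_lit 25) (nat_lit 5) (nat_lit 26) (nat_lit 4) (nat_lit 349) (nat_lit 287) (nat_lit 264)) (XT.lf (nat_lit 0) (nat_lit 13173523282) (nat_lit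 152) (nat_lit 720382170) (nat_lit 0) (nat_lit 2882449474) (nat_lit 24) (nat_lit 5) (nat_lit 26) (nat_lit 4) (nat_lit 24) (nat_lit 4) (nat_lit 350) (nat_lit 287) (nat_lit 263)))) (XT.nd (nat_lit 78) (nat_lit 76) (nat_lit 0) (XT.lf (nat_lit 0) (nat_lit 633618704) (nat_lit 228) (nat_lit 9212393270) (nat_lit 76) (nat_lit 7519949197) (nat_lit 21) (nat_lit 5) (nat_lit 24) (nat_lit 5) (nat_lit 22) (nat_lit 4) (nat_lit 351) (nat_lit 287) (nat_lit 262)) (XT.nd (nat_lit 78) (nat_lit 76) (nat_lit 0) (XT.lf (nat_lit 0) (nat_lit 4882893337) (nat_lit 228) (nat_lit 711130567) (nat_lit 76) (nat_lit 12392000318) (nat_lit 21) (nat_lit 5) (nat_lit 24) (nat_lit 5) (nat_lit 22) (nat_lit 4) (nat_lit 352) (nat_lit 287) (nat_lit 261)) (XT.lf (nat_lit 0) (nat_lit 8325810786) (nat_lit 76) (nat_lit 1062791593) (nat_lit 152) (nat_lit 9246321568) (nat_lit 20) (nat_lit 5) (nat_lit 21) (nat_lit 5) (nat_lit 22) (nat_lit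 4) (nat_lit 353) (nat_lit 287) (nat_lit 260)))))) (XT.nd (nat_lit 468) (nat_lit 228) (nat_lit 0) (XT.nd (nat_lit 234) (nat_lit 152) (nat_lit 0) (XT.nd (nat_lit 78) (nat_lit 152) (nat_lit 0) (XT.lf (nat_lit 0) (nat_lit 14104132569) (nat_lit 152) (nat_lit 1690782308) (nat_lit 0) (nat_lit 3522157529) (nat_lit 20) (nat_lit 5) (nat_lit 22) (nat_lit 4) (nat_lit 20) (nat_lit 4) (nat_lit 354) (nat_lit 287) (nat_lit 259)) (XT.nd (nat_lit 78) (nat_lit 76) (nat_lit 0) (XT.lf (nat_lit 0) (nat_lit 7429777658) (nat_lit 76) (nat_lit 11677756055) (nat_lit 76) (nat_lit 923218930) (nat_lit 19) (nat_lit 4) (nat_lit 20) (nat_lit 5) (nat_lit 20) (nat_lit 4) (nat_lit 355) (nat_lit 287) (nat_lit 258)) (XT.lf (nat_lit 0) (nat_lit 3414398546) (nat_lit 152) (nat_lit 3919364947) (nat_lit 76) (nat_lit 13446183084) (nat_lit 18) (nat_lit 5) (nat_lit 20) (nat_lit 5) (nat_lit 19) (nat_lit 4) (nat_lit 356) (nat_lit 287)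 (nat_lit 257)))) (XT.nd (nat_lit 78) (nat_lit 76) (nat_lit 0) (XT.lf (nat_lit 0) (nat_lit 5205546706) (nat_lit 76) (nat_lit 2736378938) (nat_lit 152) (nat_lit 13623740197) (nat_lit 17) (nat_lit 5) (nat_lit 18) (nat_lit 5) (nat_lit 19) (nat_lit 4) (nat_lit 357) (nat_lit 287) (nat_lit 256)) (XT.nd (nat_lit 78) (nat_lit 76) (nat_lit 0) (XT.lf (nat_lit 0) (nat_lit 12719208809) (nat_lit 152) (nat_lit 7641076467) (nat_lit 0) (nat_lit 2029240730) (nat_lit 17) (nat_lit 5) (nat_lit 19) (nat_lit 4) (nat_lit 17) (nat_lit 4) (nat_lit 358) (nat_lit 287) (nat_lit 255)) (XT.lf (nat_lit 0) (nat_lit 1377169000) (nat_lit 76) (nat_lit 16351471856) (nat_lit 76) (nat_lit 5526296868) (nat_lit 16) (nat_lit 4) (nat_lit 17) (nat_lit 5) (nat_lit 17) (nat_lit 4) (nat_lit 359) (nat_lit 287) (nat_lit 254))))) (XT.nd (nat_lit 234) (nat_lit 76) (nat_lit 0) (XT.nd (nat_lit 78) (nat_lit 152) (nat_lit 0) (XT.lf (nat_lit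 0) (nat_lit 10977832032) (nat_lit 76) (nat_lit 12068433557) (nat_lit 76) (nat_lit 1114490083) (nat_lit 16) (nat_lit 4) (nat_lit 17) (nat_lit 5) (nat_lit 17) (nat_lit 4) (nat_lit 360) (nat_lit 287) (nat_lit 253)) (XT.nd (nat_lit 78) (nat_lit 76) (nat_lit 0) (XT.lf (nat_lit 0) (nat_lit 3335902140) (nat_lit 152) (nat_lit 4237980737) (nat_lit 76) (nat_lit 17538725597) (nat_lit 15) (nat_lit 5) (nat_lit 17) (nat_lit 5) (nat_lit 16) (nat_lit 4) (nat_lit 361) (nat_lit 287) (nat_lit 252)) (XT.lf (nat_lit 0) (nat_lit 5178128532) (nat_lit 76) (nat_lit 2807971696) (nat_lit 152) (nat_lit 18124321894) (nat_lit 14) (nat_lit 5) (nat_lit 15) (nat_lit 5) (nat_lit 16) (nat_lit 4) (nat_lit 362) (nat_lit 287) (nat_lit 251)))) (XT.nd (nat_lit 78) (nat_lit 76) (nat_lit 0) (XT.lf (nat_lit 0) (nat_lit 12910306706) (nat_lit 152) (nat_lit 12101753106) (nat_lit 0) (nat_lit 2144009567) (nat_lit 14) (nat_lit 5) (nat_lit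 16) (nat_lit 4) (nat_lit 14) (nat_lit 4) (nat_lit 363) (nat_lit 287) (nat_lit 250)) (XT.nd (nat_lit 78) (nat_lit 76) (nat_lit 0) (XT.lf (nat_lit 0) (nat_lit 18064146545) (nat_lit 152) (nat_lit 2993742373) (nat_lit 0) (nat_lit 7196955929) (nat_lit 14) (nat_lit 5) (nat_lit 16) (nat_lit 4) (nat_lit 14) (nat_lit 4) (nat_lit 364) (nat_lit 287) (nat_lit 249)) (XT.lf (nat_lit 0) (nat_lit 6670770987) (nat_lit 76) (nat_lit 16849428929) (nat_lit 76) (nat_lit 5886149287) (nat_lit 13) (nat_lit 4) (nat_lit 14) (nat_lit 5) (nat_lit 14) (nat_lit 4) (nat_lit 365) (nat_lit 287) (nat_lit 248))))))))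
noncomputable def xc66 : XT := (XT.nd (nat_lit 1716) (nat_lit 228) (nat_lit 0) (XT.nd (nat_lit 858) (nat_lit 228) (nat_lit 0) (XT.nd (nat_lit 390) (nat_lit 228) (nat_lit 0) (XT.nd (nat_lit 156) (nat_lit 76) (nat_lit 0) (XT.nd (nat_lit 78) (nat_lit 76) (nat_lit 0) (XT.lf (nat_lit 0) (nat_lit 16811854724) (nat_lit 76) (nat_lit 12429386603) (nat_lit 76) (nat_lit 1374593603) (nat_lit 13) (nat_lit 4) (nat_lit 14) (nat_lit 5) (nat_lit 14) (nat_lit 4) (nat_lit 366) (nat_lit 287) (nat_lit 247)) (XT.lf (nat_lit 0) (nat_lit 3198261116) (nat_lit 152) (nat_lit 4585513290) (nat_lit 76) (nat_lit 24102242413) (nat_lit 12) (nat_lit 5) (nat_lit 14) (nat_lit 5) (nat_lit 13) (nat_lit 4) (nat_lit 367) (nat_lit 287) (nat_lit 246))) (XT.nd (nat_lit 78) (nat_lit 0) (nat_lit 0) (XT.lf (nat_lit 0) (nat_lit 5133541050) (nat_lit 76) (nat_lit 2846212580) (nat_lit 152) (nat_lit 25237531256) (nat_lit 11) (nat_lit 5)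 (nat_lit 12) (nat_lit 5) (nat_lit 13) (nat_lit 4) (nat_lit 368) (nat_lit 287) (nat_lit 245)) (XT.nd (nat_lit 78) (nat_lit 0) (nat_lit 0) (XT.lf (nat_lit 0) (nat_lit 13062058816) (nat_lit 152) (nat_lit 19253645054) (nat_lit 0) (nat_lit 2296338270) (nat_lit 11) (nat_lit 5) (nat_lit 13) (nat_lit 4) (nat_lit 11) (nat_lit 4) (nat_lit 369) (nat_lit 287) (nat_lit 244)) (XT.lf (nat_lit 0) (nat_lit 18393996386) (nat_lit 152) (nat_lit 10126204369) (nat_lit 0) (nat_lit 7556572729) (nat_lit 11) (nat_lit 5) (nat_lit 13) (nat_lit 4) (nat_lit 11) (nat_lit 4) (nat_lit 370) (nat_lit 287) (nat_lit 243))))) (XT.nd (nat_lit 234) (nat_lit 152) (nat_lit 0) (XT.nd (nat_lit 78) (nat_lit 76) (nat_lit 0) (XT.lf (nat_lit 0) (nat_lit 23943824074) (nat_lit 152) (nat_lit 635252423) (nat_lit 0) (nat_lit 13038111741) (nat_lit 11) (nat_lit 5) (nat_lit 13) (nat_lit 4) (nat_lit 11) (nat_lit 4) (nat_lit 371) (nat_lit 287)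 (nat_lit 242)) (XT.nd (nat_lit 78) (nat_lit 0) (nat_lit 0) (XT.lf (nat_lit 0) (nat_lit 9547384204) (nat_lit 76) (nat_lit 20326432976) (nat_lit 76) (nat_lit 9355683808) (nat_lit 10) (nat_lit 4) (nat_lit 11) (nat_lit 5) (nat_lit 11) (nat_lit 4) (nat_lit 372) (nat_lit 287) (nat_lit 241)) (XT.lf (nat_lit 0) (nat_lit 20174194794) (nat_lit 76) (nat_lit 15891336482) (nat_lit 76) (nat_lit 4858647471) (nat_lit 10) (nat_lit 4) (nat_lit 11) (nat_lit 5) (nat_lit 11) (nat_lit 4) (nat_lit 373) (nat_lit 287) (nat_lit 240)))) (XT.nd (nat_lit 78) (nat_lit 152) (nat_lit 0) (XT.lf (nat_lit 0) (nat_lit 31249476960) (nat_lit 76) (nat_lit 11273985569) (nat_lit 76) (nat_lit 182306231) (nat_lit 10) (nat_lit 4) (nat_lit 11) (nat_lit 5) (nat_lit 11) (nat_lit 4) (nat_lit 374) (nat_lit 287) (nat_lit 239)) (XT.nd (nat_lit 78) (nat_lit 76) (nat_lit 0) (XT.lf (nat_lit 0) (nat_lit 4534541631) (nat_lit 152) (nat_lit 1852050255)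 (nat_lit 76) (nat_lit 38188264135) (nat_lit 9) (nat_lit 5) (nat_lit 11) (nat_lit 5) (nat_lit 10) (nat_lit 4) (nat_lit 375) (nat_lit 287) (nat_lit 238)) (XT.lf (nat_lit 0) (nat_lit 8422491648) (nat_lit 76) (nat_lit 1150122114) (nat_lit 152) (nat_lit 36960067610) (nat_lit 8) (nat_lit 5) (nat_lit 9) (nat_lit 5) (nat_lit 10) (nat_lit 4) (nat_lit 376) (nat_lit 287) (nat_lit 237)))))) (XT.nd (nat_lit 390) (nat_lit 152) (nat_lit 0) (XT.nd (nat_lit 156) (nat_lit 76) (nat_lit 0) (XT.nd (nat_lit 78) (nat_lit 0) (nat_lit 0) (XT.lf (nat_lit 0) (nat_lit 14922533227) (nat_lit 152) (nat_lit 29456842175) (nat_lit 0) (nat_lit 4206033581) (nat_lit 8) (nat_lit 5) (nat_lit 10) (nat_lit 4) (nat_lit 8) (nat_lit 4) (nat_lit 377) (nat_lit 287) (nat_lit 236)) (XT.lf (nat_lit 0) (nat_lit 20520876493) (nat_lit 152) (nat_lit 20462701495) (nat_lit 0) (nat_lit 9758156383) (nat_lit 8) (nat_lit 5) (nat_lit 10) (nat_lit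 4) (nat_lit 8) (nat_lit 4) (nat_lit 378) (nat_lit 287) (nat_lit 235))) (XT.nd (nat_lit 78) (nat_lit 76) (nat_lit 0) (XT.lf (nat_lit 0) (nat_lit 26363016320) (nat_lit 152) (nat_lit 11088396436) (nat_lit 0) (nat_lit 15556276720) (nat_lit 8) (nat_lit 5) (nat_lit 10) (nat_lit 4) (nat_lit 8) (nat_lit 4) (nat_lit 379) (nat_lit 287) (nat_lit 234)) (XT.nd (nat_lit 78) (nat_lit 76) (nat_lit 0) (XT.lf (nat_lit 0) (nat_lit 32462862565) (nat_lit 152) (nat_lit 1311607223) (nat_lit 0) (nat_lit 21614199641) (nat_lit 8) (nat_lit 5) (nat_lit 10) (nat_lit 4) (nat_lit 8) (nat_lit 4) (nat_lit 380) (nat_lit 287) (nat_lit 233)) (XT.lf (nat_lit 0) (nat_lit 9184918979) (nat_lit 76) (nat_lit 29793422016) (nat_lit 76) (nat_lit 18904832117) (nat_lit 7) (nat_lit 4) (nat_lit 8) (nat_lit 5) (nat_lit 8) (nat_lit 4) (nat_lit 381) (nat_lit 287) (nat_lit 232))))) (XT.nd (nat_lit 234) (nat_lit 152) (nat_lit 0) (XT.nd (nat_lit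 78) (nat_lit 0) (nat_lit 0) (XT.lf (nat_lit 0) (nat_lit 20189747671) (nat_lit 76) (nat_lit 25619887118) (nat_lit 76) (nat_lit 14693271528) (nat_lit 7) (nat_lit 4) (nat_lit 8) (nat_lit 5) (nat_lit 8) (nat_lit 4) (nat_lit 382) (nat_lit 287) (nat_lit 231)) (XT.nd (nat_lit 78) (nat_lit 0) (nat_lit 0) (XT.lf (nat_lit 0) (nat_lit 31685713166) (nat_lit 76) (nat_lit 21266140808) (nat_lit 76) (nat_lit 10303310275) (nat_lit 7) (nat_lit 4) (nat_lit 8) (nat_lit 5) (nat_lit 8) (nat_lit 4) (nat_lit 383) (nat_lit 287) (nat_lit 230)) (XT.lf (nat_lit 0) (nat_lit 43700186811) (nat_lit 76) (nat_lit 16721817024) (nat_lit 76) (nat_lit 5724496068) (nat_lit 7) (nat_lit 4) (nat_lit 8) (nat_lit 5) (nat_lit 8) (nat_lit 4) (nat_lit 384) (nat_lit 287) (nat_lit 229)))) (XT.nd (nat_lit 78) (nat_lit 152) (nat_lit 0) (XT.lf (nat_lit 0) (nat_lit 56261774495) (nat_lit 76) (nat_lit 11976095947) (nat_lit 76) (nat_lit 945926971)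 (nat_lit 7) (nat_lit 4) (nat_lit 8) (nat_lit 5) (nat_lit 8) (nat_lit 4) (nat_lit 385) (nat_lit 287) (nat_lit 228)) (XT.nd (nat_lit 78) (nat_lit 76) (nat_lit 0) (XT.lf (nat_lit 0) (nat_lit 3914348523) (nat_lit 152) (nat_lit 3037038331) (nat_lit 76) (nat_lit 65419744850) (nat_lit 6) (nat_lit 5) (nat_lit 8) (nat_lit 5) (nat_lit 7) (nat_lit 4) (nat_lit 386) (nat_lit 287) (nat_lit 227)) (XT.lf (nat_lit 0) (nat_lit 7517828351) (nat_lit 76) (nat_lit 1559769346) (nat_lit 152) (nat_lit 66634876983) (nat_lit 5) (nat_lit 5) (nat_lit 6) (nat_lit 5) (nat_lit 7) (nat_lit 4) (nat_lit 387) (nat_lit 287) (nat_lit 226))))))) (XT.nd (nat_lit 858) (nat_lit 152) (nat_lit 0) (XT.nd (nat_lit 390) (nat_lit 76) (nat_lit 0) (XT.nd (nat_lit 156) (nat_lit 0) (nat_lit 0) (XT.nd (nat_lit 78) (nat_lit 0) (nat_lit 0) (XT.lf (nat_lit 0) (nat_lit 14589788995) (nat_lit 152) (nat_lit 60626888848) (nat_lit 0) (nat_lit 3999672533)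 (nat_lit 5) (nat_lit 5) (nat_lit 7) (nat_lit 4) (nat_lit 5) (nat_lit 4) (nat_lit 388) (nat_lit 287) (nat_lit 225)) (XT.lf (nat_lit 0) (nat_lit 20378843630) (nat_lit 152) (nat_lit 52753527988) (nat_lit 0) (nat_lit 9762989884) (nat_lit 5) (nat_lit 5) (nat_lit 7) (nat_lit 4) (nat_lit 5) (nat_lit 4) (nat_lit 389) (nat_lit 287) (nat_lit 224))) (XT.nd (nat_lit 78) (nat_lit 0) (nat_lit 0) (XT.lf (nat_lit 0) (nat_lit 26434192697) (nat_lit 152) (nat_lit 44531465284) (nat_lit 0) (nat_lit 15793827251) (nat_lit 5) (nat_lit 5) (nat_lit 7) (nat_lit 4) (nat_lit 5) (nat_lit 4) (nat_lit 390) (nat_lit 287) (nat_lit 223)) (XT.nd (nat_lit 78) (nat_lit 0) (nat_lit 0) (XT.lf (nat_lit 0) (nat_lit 32770253692) (nat_lit 152) (nat_lit 35941124394) (nat_lit 0) (nat_lit 22106543771) (nat_lit 5) (nat_lit 5) (nat_lit 7) (nat_lit 4) (nat_lit 5) (nat_lit 4) (nat_lit 391) (nat_lit 287) (nat_lit 222)) (XT.lf (nat_lit 0)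 (nat_lit 39402112476) (nat_lit 152) (nat_lit 26962052127) (nat_lit 0) (nat_lit 28716169721) (nat_lit 5) (nat_lit 5) (nat_lit 7) (nat_lit 4) (nat_lit 5) (nat_lit 4) (nat_lit 392) (nat_lit 287) (nat_lit 221))))) (XT.nd (nat_lit 234) (nat_lit 0) (nat_lit 0) (XT.nd (nat_lit 78) (nat_lit 76) (nat_lit 0) (XT.lf (nat_lit 0) (nat_lit 46345559187) (nat_lit 152) (nat_lit 17572869739) (nat_lit 0) (nat_lit 35638442306) (nat_lit 5) (nat_lit 5) (nat_lit 7) (nat_lit 4) (nat_lit 5) (nat_lit 4) (nat_lit 393) (nat_lit 287) (nat_lit 220)) (XT.nd (nat_lit 78) (nat_lit 76) (nat_lit 0) (XT.lf (nat_lit 0) (nat_lit 53617125844) (nat_lit 152) (nat_lit 7751222033) (nat_lit 0) (nat_lit 42889843126) (nat_lit 5) (nat_lit 5) (nat_lit 7) (nat_lit 4) (nat_lit 5) (nat_lit 4) (nat_lit 394) (nat_lit 287) (nat_lit 219)) (XT.lf (nat_lit 0) (nat_lit 2609805954) (nat_lit 76) (nat_lit 58665066129) (nat_lit 76) (nat_lit 47918577854)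 (nat_lit 4) (nat_lit 4) (nat_lit 5) (nat_lit 5) (nat_lit 5) (nat_lit 4) (nat_lit 395) (nat_lit 287) (nat_lit 218)))) (XT.nd (nat_lit 78) (nat_lit 0) (nat_lit 0) (XT.lf (nat_lit 0) (nat_lit 13723326336) (nat_lit 76) (nat_lit 55705627712) (nat_lit 76) (nat_lit 44940848430) (nat_lit 4) (nat_lit 4) (nat_lit 5) (nat_lit 5) (nat_lit 5) (nat_lit 4) (nat_lit 396) (nat_lit 287) (nat_lit 217)) (XT.nd (nat_lit 78) (nat_lit 0) (nat_lit 0) (XT.lf (nat_lit 0) (nat_lit 25359509469) (nat_lit 76) (nat_lit 52614257041) (nat_lit 76) (nat_lit 41832057752) (nat_lit 4) (nat_lit 4) (nat_lit 5) (nat_lit 5) (nat_lit 5) (nat_lit 4) (nat_lit 397) (nat_lit 287) (nat_lit 216)) (XT.lf (nat_lit 0) (nat_lit 37546060551) (nat_lit 76) (nat_lit 49383593709) (nat_lit 76) (nat_lit 38584803937) (nat_lit 4) (nat_lit 4) (nat_lit 5) (nat_lit 5) (nat_lit 5) (nat_lit 4) (nat_lit 398) (nat_lit 287) (nat_lit 215)))))) (XT.nd (nat_lit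 468) (nat_lit 152) (nat_lit 0) (XT.nd (nat_lit 234) (nat_lit 0) (nat_lit 0) (XT.nd (nat_lit 78) (nat_lit 0) (nat_lit 0) (XT.lf (nat_lit 0) (nat_lit 50311995180) (nat_lit 76) (nat_lit 46005945660) (nat_lit 76) (nat_lit 35191355429) (nat_lit 4) (nat_lit 4) (nat_lit 5) (nat_lit 5) (nat_lit 5) (nat_lit 4) (nat_lit 399) (nat_lit 287) (nat_lit 214)) (XT.nd (nat_lit 78) (nat_lit 0) (nat_lit 0) (XT.lf (nat_lit 0) (nat_lit 63687708439) (nat_lit 76) (nat_lit 42473270876) (nat_lit 76) (nat_lit 31643632588) (nat_lit 4) (nat_lit 4) (nat_lit 5) (nat_lit 5) (nat_lit 5) (nat_lit 4) (nat_lit 400) (nat_lit 287) (nat_lit 213)) (XT.lf (nat_lit 0) (nat_lit 77705047263) (nat_lit 76) (nat_lit 38777158226) (nat_lit 76) (nat_lit 27933188455) (nat_lit 4) (nat_lit 4) (nat_lit 5) (nat_lit 5) (nat_lit 5) (nat_lit 4) (nat_lit 401) (nat_lit 287) (nat_lit 212)))) (XT.nd (nat_lit 78) (nat_lit 0) (nat_lit 0) (XT.lf (nat_lit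 0) (nat_lit 92397386269) (nat_lit 76) (nat_lit 34908807442) (nat_lit 76) (nat_lit 24051188639) (nat_lit 4) (nat_lit 4) (nat_lit 5) (nat_lit 5) (nat_lit 5) (nat_lit 4) (nat_lit 402) (nat_lit 287) (nat_lit 211)) (XT.nd (nat_lit 78) (nat_lit 0) (nat_lit 0) (XT.lf (nat_lit 0) (nat_lit 107799707217) (nat_lit 76) (nat_lit 30859008164) (nat_lit 76) (nat_lit 19988390284) (nat_lit 4) (nat_lit 4) (nat_lit 5) (nat_lit 5) (nat_lit 5) (nat_lit 4) (nat_lit 403) (nat_lit 287) (nat_lit 210)) (XT.lf (nat_lit 0) (nat_lit 123948682299) (nat_lit 76) (nat_lit 26618118014) (nat_lit 76) (nat_lit 15735120060) (nat_lit 4) (nat_lit 4) (nat_lit 5) (nat_lit 5) (nat_lit 5) (nat_lit 4) (nat_lit 404) (nat_lit 287) (nat_lit 209))))) (XT.nd (nat_lit 234) (nat_lit 152) (nat_lit 0) (XT.nd (nat_lit 78) (nat_lit 0) (nat_lit 0) (XT.lf (nat_lit 0) (nat_lit 140882761456) (nat_lit 76) (nat_lit 22176039634) (nat_lit 76) (nat_lit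 11281251133) (nat_lit 4) (nat_lit 4) (nat_lit 5) (nat_lit 5) (nat_lit 5) (nat_lit 4) (nat_lit 405) (nat_lit 287) (nat_lit 208)) (XT.nd (nat_lit 78) (nat_lit 0) (nat_lit 0) (XT.lf (nat_lit 0) (nat_lit 158642263924) (nat_lit 76) (nat_lit 17522196646) (nat_lit 76) (nat_lit 6616179054) (nat_lit 4) (nat_lit 4) (nat_lit 5) (nat_lit 5) (nat_lit 5) (nat_lit 4) (nat_lit 406) (nat_lit 287) (nat_lit 207)) (XT.lf (nat_lit 0) (nat_lit 177269474233) (nat_lit 76) (nat_lit 12645508473) (nat_lit 76) (nat_lit 1728796508) (nat_lit 4) (nat_lit 4) (nat_lit 5) (nat_lit 5) (nat_lit 5) (nat_lit 4) (nat_lit 407) (nat_lit 287) (nat_lit 206)))) (XT.nd (nat_lit 78) (nat_lit 76) (nat_lit 0) (XT.lf (nat_lit 0) (nat_lit 3283950882) (nat_lit 152) (nat_lit 4194797772) (nat_lit 76) (nat_lit 193469176703) (nat_lit 3) (nat_lit 5) (nat_lit 5) (nat_lit 5) (nat_lit 4) (nat_lit 4) (nat_lit 408) (nat_lit 287) (nat_lit 205)) (XT.nd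 (nat_lit 78) (nat_lit 0) (nat_lit 0) (XT.lf (nat_lit 0) (nat_lit 6659796690) (nat_lit 76) (nat_lit 1923810082) (nat_lit 152) (nat_lit 202127538045) (nat_lit 2) (nat_lit 5) (nat_lit 3) (nat_lit 5) (nat_lit 4) (nat_lit 4) (nat_lit 409) (nat_lit 287) (nat_lit 204)) (XT.lf (nat_lit 0) (nat_lit 14271901738) (nat_lit 152) (nat_lit 202837145581) (nat_lit 0) (nat_lit 3847296599) (nat_lit 2) (nat_lit 5) (nat_lit 4) (nat_lit 4) (nat_lit 2) (nat_lit 4) (nat_lit 410) (nat_lit 287) (nat_lit 203))))))))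
noncomputable def xc67 : XT := (XT.nd (nat_lit 1716) (nat_lit 0) (nat_lit 0) (XT.nd (nat_lit 858) (nat_lit 0) (nat_lit 0) (XT.nd (nat_lit 390) (nat_lit 0) (nat_lit 0) (XT.nd (nat_lit 156) (nat_lit 0) (nat_lit 0) (XT.nd (nat_lit 78) (nat_lit 0) (nat_lit 0) (XT.lf (nat_lit 0) (nat_lit 20267027651) (nat_lit 152) (nat_lit 201611612735) (nat_lit 0) (nat_lit 9834043191) (nat_lit 2) (nat_lit 5) (nat_lit 4) (nat_lit 4) (nat_lit 2) (nat_lit 4) (nat_lit 411) (nat_lit 287) (nat_lit 202)) (XT.lf (nat_lit 0) (nat_lit 26553222553) (nat_lit 152) (nat_lit 200341795586) (nat_lit 0) (nat_lit 16112257788) (nat_lit 2) (nat_lit 5) (nat_lit 4) (nat_lit 4) (nat_lit 2) (nat_lit 4) (nat_lit 412) (nat_lit 287) (nat_lit 201))) (XT.nd (nat_lit 78) (nat_lit 0) (nat_lit 0) (XT.lf (nat_lit 0) (nat_lit 33145453577) (nat_lit 152) (nat_lit 199024670762) (nat_lit 0) (nat_lit 22696888519) (nat_lit 2) (nat_lit 5) (nat_lit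 4) (nat_lit 4) (nat_lit 2) (nat_lit 4) (nat_lit 413) (nat_lit 287) (nat_lit 200)) (XT.nd (nat_lit 78) (nat_lit 0) (nat_lit 0) (XT.lf (nat_lit 0) (nat_lit 40059416508) (nat_lit 152) (nat_lit 197657102250) (nat_lit 0) (nat_lit 29603613078) (nat_lit 2) (nat_lit 5) (nat_lit 4) (nat_lit 4) (nat_lit 2) (nat_lit 4) (nat_lit 414) (nat_lit 287) (nat_lit 199)) (XT.lf (nat_lit 0) (nat_lit 47311573165) (nat_lit 152) (nat_lit 196235833934) (nat_lit 0) (nat_lit 36848876047) (nat_lit 2) (nat_lit 5) (nat_lit 4) (nat_lit 4) (nat_lit 2) (nat_lit 4) (nat_lit 415) (nat_lit 287) (nat_lit 198))))) (XT.nd (nat_lit 234) (nat_lit 0) (nat_lit 0) (XT.nd (nat_lit 78) (nat_lit 0) (nat_lit 0) (XT.lf (nat_lit 0) (nat_lit 54919190587) (nat_lit 152) (nat_lit 194757481844) (nat_lit 0) (nat_lit 44449928052) (nat_lit 2) (nat_lit 5) (nat_lit 4) (nat_lit 4) (nat_lit 2) (nat_lit 4) (nat_lit 416) (nat_lit 287) (nat_lit 197))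 (XT.nd (nat_lit 78) (nat_lit 0) (nat_lit 0) (XT.lf (nat_lit 0) (nat_lit 62900382149) (nat_lit 152) (nat_lit 193218526092) (nat_lit 0) (nat_lit 52424866835) (nat_lit 2) (nat_lit 5) (nat_lit 4) (nat_lit 4) (nat_lit 2) (nat_lit 4) (nat_lit 417) (nat_lit 287) (nat_lit 196)) (XT.lf (nat_lit 0) (nat_lit 71274150687) (nat_lit 152) (nat_lit 191615302498) (nat_lit 0) (nat_lit 60792680346) (nat_lit 2) (nat_lit 5) (nat_lit 4) (nat_lit 4) (nat_lit 2) (nat_lit 4) (nat_lit 418) (nat_lit 287) (nat_lit 195)))) (XT.nd (nat_lit 78) (nat_lit 0) (nat_lit 0) (XT.lf (nat_lit 0) (nat_lit 80060433746) (nat_lit 152) (nat_lit 189943993864) (nat_lit 0) (nat_lit 69573291950) (nat_lit 2) (nat_lit 5) (nat_lit 4) (nat_lit 4) (nat_lit 2) (nat_lit 4) (nat_lit 419) (nat_lit 287) (nat_lit 194)) (XT.nd (nat_lit 78) (nat_lit 0) (nat_lit 0) (XT.lf (nat_lit 0) (nat_lit 89280151047) (nat_lit 152) (nat_lit 188200620883) (nat_lit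 0) (nat_lit 78787607867) (nat_lit 2) (nat_lit 5) (nat_lit 4) (nat_lit 4) (nat_lit 2) (nat_lit 4) (nat_lit 420) (nat_lit 287) (nat_lit 193)) (XT.lf (nat_lit 0) (nat_lit 98955254299) (nat_lit 152) (nat_lit 186381032667) (nat_lit 0) (nat_lit 88457566942) (nat_lit 2) (nat_lit 5) (nat_lit 4) (nat_lit 4) (nat_lit 2) (nat_lit 4) (nat_lit 421) (nat_lit 287) (nat_lit 192)))))) (XT.nd (nat_lit 390) (nat_lit 0) (nat_lit 0) (XT.nd (nat_lit 156) (nat_lit 0) (nat_lit 0) (XT.nd (nat_lit 78) (nat_lit 0) (nat_lit 0) (XT.lf (nat_lit 0) (nat_lit 109108779461) (nat_lit 152) (nat_lit 184480896863) (nat_lit 0) (nat_lit 98606192888) (nat_lit 2) (nat_lit 5) (nat_lit 4) (nat_lit 4) (nat_lit 2) (nat_lit 4) (nat_lit 422) (nat_lit 287) (nat_lit 191)) (XT.lf (nat_lit 0) (nat_lit 119764901594) (nat_lit 152) (nat_lit 182495689338) (nat_lit 0) (nat_lit 109257649101) (nat_lit 2) (nat_lit 5) (nat_lit 4) (nat_lit 4) (nat_lit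 2) (nat_lit 4) (nat_lit 423) (nat_lit 287) (nat_lit 190))) (XT.nd (nat_lit 78) (nat_lit 0) (nat_lit 0) (XT.lf (nat_lit 0) (nat_lit 130948992416) (nat_lit 152) (nat_lit 180420683408) (nat_lit 0) (nat_lit 120437296190) (nat_lit 2) (nat_lit 5) (nat_lit 4) (nat_lit 4) (nat_lit 2) (nat_lit 4) (nat_lit 424) (nat_lit 287) (nat_lit 189)) (XT.nd (nat_lit 78) (nat_lit 0) (nat_lit 0) (XT.lf (nat_lit 0) (nat_lit 142687680715) (nat_lit 152) (nat_lit 178250938582) (nat_lit 0) (nat_lit 132171752363) (nat_lit 2) (nat_lit 5) (nat_lit 4) (nat_lit 4) (nat_lit 2) (nat_lit 4) (nat_lit 425) (nat_lit 287) (nat_lit 188)) (XT.lf (nat_lit 0) (nat_lit 155008915750) (nat_lit 152) (nat_lit 175981288802) (nat_lit 0) (nat_lit 144488956801) (nat_lit 2) (nat_lit 5) (nat_lit 4) (nat_lit 4) (nat_lit 2) (nat_lit 4) (nat_lit 426) (nat_lit 287) (nat_lit 187))))) (XT.nd (nat_lit 234) (nat_lit 0) (nat_lit 0) (XT.nd (nat_lit 78)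 (nat_lit 0) (nat_lit 0) (XT.lf (nat_lit 0) (nat_lit 167942033793) (nat_lit 152) (nat_lit 173606330138) (nat_lit 0) (nat_lit 157418236181) (nat_lit 2) (nat_lit 5) (nat_lit 4) (nat_lit 4) (nat_lit 2) (nat_lit 4) (nat_lit 427) (nat_lit 287) (nat_lit 186)) (XT.nd (nat_lit 78) (nat_lit 0) (nat_lit 0) (XT.lf (nat_lit 0) (nat_lit 181517827984) (nat_lit 152) (nat_lit 171120407929) (nat_lit 0) (nat_lit 170990374502) (nat_lit 2) (nat_lit 5) (nat_lit 4) (nat_lit 4) (nat_lit 2) (nat_lit 4) (nat_lit 428) (nat_lit 287) (nat_lit 185)) (XT.lf (nat_lit 0) (nat_lit 195768621642) (nat_lit 152) (nat_lit 168517603311) (nat_lit 0) (nat_lit 185237686379) (nat_lit 2) (nat_lit 5) (nat_lit 4) (nat_lit 4) (nat_lit 2) (nat_lit 4) (nat_lit 429) (nat_lit 287) (nat_lit 184)))) (XT.nd (nat_lit 78) (nat_lit 0) (nat_lit 0) (XT.lf (nat_lit 0) (nat_lit 210728345228) (nat_lit 152) (nat_lit 165791719130) (nat_lit 0) (nat_lit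 200194093983) (nat_lit 2) (nat_lit 5) (nat_lit 4) (nat_lit 4) (nat_lit 2) (nat_lit 4) (nat_lit 430) (nat_lit 287) (nat_lit 183)) (XT.nd (nat_lit 78) (nat_lit 0) (nat_lit 0) (XT.lf (nat_lit 0) (nat_lit 226432617131) (nat_lit 152) (nat_lit 162936265186) (nat_lit 0) (nat_lit 215895207808) (nat_lit 2) (nat_lit 5) (nat_lit 4) (nat_lit 4) (nat_lit 2) (nat_lit 4) (nat_lit 431) (nat_lit 287) (nat_lit 182)) (XT.lf (nat_lit 0) (nat_lit 242918828475) (nat_lit 152) (nat_lit 159944442780) (nat_lit 0) (nat_lit 232378411458) (nat_lit 2) (nat_lit 5) (nat_lit 4) (nat_lit 4) (nat_lit 2) (nat_lit 4) (nat_lit 432) (nat_lit 287) (nat_lit 181))))))) (XT.nd (nat_lit 39156) (nat_lit 0) (nat_lit 1976) (XT.nd (nat_lit 38688) (nat_lit 0) (nat_lit 3420) (XT.nd (nat_lit 38454) (nat_lit 0) (nat_lit 4560) (XT.nd (nat_lit 38376) (nat_lit 0) (nat_lit 5244) (XT.lf (nat_lit 0) (nat_lit 260226232144) (nat_lit 152) (nat_lit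 156809128524) (nat_lit 0) (nat_lit 249682950657) (nat_lit 2) (nat_lit 5) (nat_lit 4) (nat_lit 4) (nat_lit 2) (nat_lit 4) (nat_lit 433) (nat_lit 287) (nat_lit 180)) (XT.lf (nat_lit 0) (nat_lit 2329574395) (nat_lit 304) (nat_lit 895134689) (nat_lit 304) (nat_lit 895134689) (nat_lit 71) (nat_lit 4) (nat_lit 75) (nat_lit 5) (nat_lit 75) (nat_lit 4) (nat_lit 324) (nat_lit 288) (nat_lit 288))) (XT.nd (nat_lit 78) (nat_lit 380) (nat_lit 0) (XT.lf (nat_lit 0) (nat_lit 1930966278) (nat_lit 304) (nat_lit 5642104127) (nat_lit 0) (nat_lit 829075001) (nat_lit 67) (nat_lit 5) (nat_lit 71) (nat_lit 4) (nat_lit 67) (nat_lit 4) (nat_lit 325) (nat_lit 288) (nat_lit 287)) (XT.nd (nat_lit 78) (nat_lit 76) (nat_lit 0) (XT.lf (nat_lit 0) (nat_lit 720337796) (nat_lit 304) (nat_lit 5002584075) (nat_lit 304) (nat_lit 2851272535) (nat_lit 63) (nat_lit 4) (nat_lit 67) (nat_lit 5) (nat_lit 67) (nat_lit 4) (nat_lit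 326) (nat_lit 288) (nat_lit 286)) (XT.lf (nat_lit 0) (nat_lit 860462671) (nat_lit 380) (nat_lit 1386810933) (nat_lit 76) (nat_lit 6509929957) (nat_lit 62) (nat_lit 5) (nat_lit 67) (nat_lit 5) (nat_lit 63) (nat_lit 4) (nat_lit 327) (nat_lit 288) (nat_lit 285))))) (XT.nd (nat_lit 234) (nat_lit 456) (nat_lit 0) (XT.nd (nat_lit 78) (nat_lit 456) (nat_lit 0) (XT.lf (nat_lit 0) (nat_lit 4607861227) (nat_lit 304) (nat_lit 3641413388) (nat_lit 0) (nat_lit 700609300) (nat_lit 59) (nat_lit 5) (nat_lit 63) (nat_lit 4) (nat_lit 59) (nat_lit 4) (nat_lit 328) (nat_lit 288) (nat_lit 284)) (XT.nd (nat_lit 78) (nat_lit 228) (nat_lit 0) (XT.lf (nat_lit 0) (nat_lit 3087314183) (nat_lit 228) (nat_lit 5418735577) (nat_lit 228) (nat_lit 648123002) (nat_lit 56) (nat_lit 4) (nat_lit 59) (nat_lit 5) (nat_lit 59) (nat_lit 4) (nat_lit 329) (nat_lit 288) (nat_lit 283)) (XT.lf (nat_lit 0) (nat_lit 671937313) (nat_lit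 152) (nat_lit 2384061771) (nat_lit 228) (nat_lit 6313840952) (nat_lit 53) (nat_lit 5) (nat_lit 55) (nat_lit 5) (nat_lit 56) (nat_lit 4) (nat_lit 330) (nat_lit 288) (nat_lit 282)))) (XT.nd (nat_lit 78) (nat_lit 456) (nat_lit 0) (XT.lf (nat_lit 0) (nat_lit 6898823336) (nat_lit 228) (nat_lit 1871812056) (nat_lit 0) (nat_lit 826485842) (nat_lit 53) (nat_lit 5) (nat_lit 56) (nat_lit 4) (nat_lit 53) (nat_lit 4) (nat_lit 331) (nat_lit 288) (nat_lit 281)) (XT.nd (nat_lit 78) (nat_lit 152) (nat_lit 0) (XT.lf (nat_lit 0) (nat_lit 1048171099) (nat_lit 304) (nat_lit 4633875681) (nat_lit 76) (nat_lit 4153711918) (nat_lit 49) (nat_lit 5) (nat_lit 53) (nat_lit 5) (nat_lit 50) (nat_lit 4) (nat_lit 332) (nat_lit 288) (nat_lit 280)) (XT.lf (nat_lit 0) (nat_lit 2437595328) (nat_lit 152) (nat_lit 2390057072) (nat_lit 228) (nat_lit 5259754007) (nat_lit 47) (nat_lit 5) (nat_lit 49) (nat_lit 5) (nat_lit 50) (nat_lit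 4) (nat_lit 333) (nat_lit 288) (nat_lit 279)))))) (XT.nd (nat_lit 468) (nat_lit 608) (nat_lit 0) (XT.nd (nat_lit 234) (nat_lit 380) (nat_lit 0) (XT.nd (nat_lit 78) (nat_lit 456) (nat_lit 0) (XT.lf (nat_lit 0) (nat_lit 8760728266) (nat_lit 228) (nat_lit 549523860) (nat_lit 0) (nat_lit 1043256741) (nat_lit 47) (nat_lit 5) (nat_lit 50) (nat_lit 4) (nat_lit 47) (nat_lit 4) (nat_lit 334) (nat_lit 288) (nat_lit 278)) (XT.nd (nat_lit 78) (nat_lit 152) (nat_lit 0) (XT.lf (nat_lit 0) (nat_lit 2206767275) (nat_lit 304) (nat_lit 3777955081) (nat_lit 76) (nat_lit 4645451481) (nat_lit 43) (nat_lit 5) (nat_lit 47) (nat_lit 5) (nat_lit 44) (nat_lit 4) (nat_lit 335) (nat_lit 288) (nat_lit 277)) (XT.lf (nat_lit 0) (nat_lit 3613778857) (nat_lit 152) (nat_lit 2470190325) (nat_lit 228) (nat_lit 4838426402) (nat_lit 41) (nat_lit 5) (nat_lit 43) (nat_lit 5) (nat_lit 44) (nat_lit 4) (nat_lit 336) (nat_lit 288)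 (nat_lit 276)))) (XT.nd (nat_lit 78) (nat_lit 228) (nat_lit 0) (XT.lf (nat_lit 0) (nat_lit 61746117) (nat_lit 152) (nat_lit 10055391268) (nat_lit 152) (nat_lit 1114070781) (nat_lit 39) (nat_lit 4) (nat_lit 41) (nat_lit 5) (nat_lit 41) (nat_lit 4) (nat_lit 337) (nat_lit 288) (nat_lit 275)) (XT.nd (nat_lit 78) (nat_lit 152) (nat_lit 0) (XT.lf (nat_lit 0) (nat_lit 2751087241) (nat_lit 228) (nat_lit 3782343156) (nat_lit 76) (nat_lit 5017720561) (nat_lit 38) (nat_lit 5) (nat_lit 41) (nat_lit 5) (nat_lit 39) (nat_lit 4) (nat_lit 338) (nat_lit 288) (nat_lit 274)) (XT.lf (nat_lit 0) (nat_lit 3888662042) (nat_lit 152) (nat_lit 2827724605) (nat_lit 228) (nat_lit 5172648368) (nat_lit 36) (nat_lit 5) (nat_lit 38) (nat_lit 5) (nat_lit 39) (nat_lit 4) (nat_lit 339) (nat_lit 288) (nat_lit 273))))) (XT.nd (nat_lit 234) (nat_lit 304) (nat_lit 0) (XT.nd (nat_lit 78) (nat_lit 304) (nat_lit 0) (XT.lf (nat_lit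 0) (nat_lit 10846698698) (nat_lit 228) (nat_lit 376897407) (nat_lit 0) (nat_lit 1021949763) (nat_lit 36) (nat_lit 5) (nat_lit 39) (nat_lit 4) (nat_lit 36) (nat_lit 4) (nat_lit 340) (nat_lit 288) (nat_lit 272)) (XT.nd (nat_lit 78) (nat_lit 76) (nat_lit 0) (XT.lf (nat_lit 0) (nat_lit 2538632905) (nat_lit 228) (nat_lit 5016066938) (nat_lit 76) (nat_lit 5060392539) (nat_lit 33) (nat_lit 5) (nat_lit 36) (nat_lit 5) (nat_lit 34) (nat_lit 4) (nat_lit 341) (nat_lit 288) (nat_lit 271)) (XT.lf (nat_lit 0) (nat_lit 2868129820) (nat_lit 76) (nat_lit 3700199743) (nat_lit 152) (nat_lit 6436582860) (nat_lit 32) (nat_lit 5) (nat_lit 33) (nat_lit 5) (nat_lit 34) (nat_lit 4) (nat_lit 342) (nat_lit 288) (nat_lit 270)))) (XT.nd (nat_lit 78) (nat_lit 304) (nat_lit 0) (XT.lf (nat_lit 0) (nat_lit 10783534033) (nat_lit 152) (nat_lit 2282002268) (nat_lit 0) (nat_lit 349543588) (nat_lit 32) (nat_lit 5) (nat_lit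 34) (nat_lit 4) (nat_lit 32) (nat_lit 4) (nat_lit 343) (nat_lit 288) (nat_lit 269)) (XT.nd (nat_lit 78) (nat_lit 76) (nat_lit 0) (XT.lf (nat_lit 0) (nat_lit 1371304673) (nat_lit 228) (nat_lit 7948207412) (nat_lit 76) (nat_lit 4522670769) (nat_lit 29) (nat_lit 5) (nat_lit 32) (nat_lit 5) (nat_lit 30) (nat_lit 4) (nat_lit 344) (nat_lit 288) (nat_lit 268)) (XT.lf (nat_lit 0) (nat_lit 49461273) (nat_lit 76) (nat_lit 5374314325) (nat_lit 152) (nat_lit 8867862344) (nat_lit 28) (nat_lit 5) (nat_lit 29) (nat_lit 5) (nat_lit 30) (nat_lit 4) (nat_lit 345) (nat_lit 288) (nat_lit 267))))))))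
noncomputable def xc68 : XT := (XT.nd (nat_lit 1716) (nat_lit 532) (nat_lit 0) (XT.nd (nat_lit 858) (nat_lit 456) (nat_lit 0) (XT.nd (nat_lit 390) (nat_lit 456) (nat_lit 0) (XT.nd (nat_lit 156) (nat_lit 152) (nat_lit 0) (XT.nd (nat_lit 78) (nat_lit 152) (nat_lit 0) (XT.lf (nat_lit 0) (nat_lit 8548204484) (nat_lit 76) (nat_lit 1165270108) (nat_lit 152) (nat_lit 5048408330) (nat_lit 28) (nat_lit 5) (nat_lit 29) (nat_lit 5) (nat_lit 30) (nat_lit 4) (nat_lit 346) (nat_lit 288) (nat_lit 266)) (XT.lf (nat_lit 0) (nat_lit 2061284287) (nat_lit 152) (nat_lit 12143012569) (nat_lit 152) (nat_lit 1052056488) (nat_lit 26) (nat_lit 4) (nat_lit 28) (nat_lit 5) (nat_lit 28) (nat_lit 4) (nat_lit 347) (nat_lit 288) (nat_lit 265))) (XT.nd (nat_lit 78) (nat_lit 76) (nat_lit 0) (XT.lf (nat_lit 0) (nat_lit 3073575661) (nat_lit 228) (nat_lit 5045078766) (nat_lit 76) (nat_lit 7652974655) (nat_lit 25) (nat_lit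 5) (nat_lit 28) (nat_lit 5) (nat_lit 26) (nat_lit 4) (nat_lit 348) (nat_lit 288) (nat_lit 264)) (XT.nd (nat_lit 78) (nat_lit 0) (nat_lit 0) (XT.lf (nat_lit 0) (nat_lit 3442884903) (nat_lit 76) (nat_lit 3889605808) (nat_lit 152) (nat_lit 8981236657) (nat_lit 24) (nat_lit 5) (nat_lit 25) (nat_lit 5) (nat_lit 26) (nat_lit 4) (nat_lit 349) (nat_lit 288) (nat_lit 263)) (XT.lf (nat_lit 0) (nat_lit 11809156907) (nat_lit 152) (nat_lit 4521528599) (nat_lit 0) (nat_lit 552041903) (nat_lit 24) (nat_lit 5) (nat_lit 26) (nat_lit 4) (nat_lit 24) (nat_lit 4) (nat_lit 350) (nat_lit 288) (nat_lit 262))))) (XT.nd (nat_lit 234) (nat_lit 152) (nat_lit 0) (XT.nd (nat_lit 78) (nat_lit 152) (nat_lit 0) (XT.lf (nat_lit 0) (nat_lit 4159110257) (nat_lit 152) (nat_lit 12392924460) (nat_lit 152) (nat_lit 926059163) (nat_lit 22) (nat_lit 4) (nat_lit 24) (nat_lit 5) (nat_lit 24) (nat_lit 4) (nat_lit 351) (nat_lit 288)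 (nat_lit 261)) (XT.nd (nat_lit 78) (nat_lit 76) (nat_lit 0) (XT.lf (nat_lit 0) (nat_lit 3310894872) (nat_lit 228) (nat_lit 4879292993) (nat_lit 76) (nat_lit 9910805636) (nat_lit 21) (nat_lit 5) (nat_lit 24) (nat_lit 5) (nat_lit 22) (nat_lit 4) (nat_lit 352) (nat_lit 288) (nat_lit 260)) (XT.lf (nat_lit 0) (nat_lit 3945025933) (nat_lit 76) (nat_lit 3763219487) (nat_lit 152) (nat_lit 11047080624) (nat_lit 20) (nat_lit 5) (nat_lit 21) (nat_lit 5) (nat_lit 22) (nat_lit 4) (nat_lit 353) (nat_lit 288) (nat_lit 259)))) (XT.nd (nat_lit 78) (nat_lit 152) (nat_lit 0) (XT.lf (nat_lit 0) (nat_lit 12341942159) (nat_lit 152) (nat_lit 6222522108) (nat_lit 0) (nat_lit 877116093) (nat_lit 20) (nat_lit 5) (nat_lit 22) (nat_lit 4) (nat_lit 20) (nat_lit 4) (nat_lit 354) (nat_lit 288) (nat_lit 258)) (XT.nd (nat_lit 78) (nat_lit 76) (nat_lit 0) (XT.lf (nat_lit 0) (nat_lit 2676656784) (nat_lit 76) (nat_lit 14556693930)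 (nat_lit 76) (nat_lit 2927523021) (nat_lit 19) (nat_lit 4) (nat_lit 20) (nat_lit 5) (nat_lit 20) (nat_lit 4) (nat_lit 355) (nat_lit 288) (nat_lit 257)) (XT.lf (nat_lit 0) (nat_lit 1436577281) (nat_lit 152) (nat_lit 8840706379) (nat_lit 76) (nat_lit 10636244272) (nat_lit 18) (nat_lit 5) (nat_lit 20) (nat_lit 5) (nat_lit 19) (nat_lit 4) (nat_lit 356) (nat_lit 288) (nat_lit 256)))))) (XT.nd (nat_lit 390) (nat_lit 228) (nat_lit 0) (XT.nd (nat_lit 156) (nat_lit 152) (nat_lit 0) (XT.nd (nat_lit 78) (nat_lit 0) (nat_lit 0) (XT.lf (nat_lit 0) (nat_lit 53210461) (nat_lit 76) (nat_lit 5794577775) (nat_lit 152) (nat_lit 15857286437) (nat_lit 17) (nat_lit 5) (nat_lit 18) (nat_lit 5) (nat_lit 19) (nat_lit 4) (nat_lit 357) (nat_lit 288) (nat_lit 255)) (XT.lf (nat_lit 0) (nat_lit 9565457525) (nat_lit 76) (nat_lit 991703550) (nat_lit 152) (nat_lit 11975180393) (nat_lit 17) (nat_lit 5) (nat_lit 18) (nat_lit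 5) (nat_lit 19) (nat_lit 4) (nat_lit 358) (nat_lit 288) (nat_lit 254))) (XT.nd (nat_lit 78) (nat_lit 152) (nat_lit 0) (XT.lf (nat_lit 0) (nat_lit 15495659295) (nat_lit 152) (nat_lit 4040401004) (nat_lit 0) (nat_lit 3865250163) (nat_lit 17) (nat_lit 5) (nat_lit 19) (nat_lit 4) (nat_lit 17) (nat_lit 4) (nat_lit 359) (nat_lit 288) (nat_lit 253)) (XT.nd (nat_lit 78) (nat_lit 76) (nat_lit 0) (XT.lf (nat_lit 0) (nat_lit 5364519166) (nat_lit 76) (nat_lit 15350294318) (nat_lit 76) (nat_lit 3597248533) (nat_lit 16) (nat_lit 4) (nat_lit 17) (nat_lit 5) (nat_lit 17) (nat_lit 4) (nat_lit 360) (nat_lit 288) (nat_lit 252)) (XT.lf (nat_lit 0) (nat_lit 900361285) (nat_lit 152) (nat_lit 10024101960) (nat_lit 76) (nat_lit 14343011167) (nat_lit 15) (nat_lit 5) (nat_lit 17) (nat_lit 5) (nat_lit 16) (nat_lit 4) (nat_lit 361) (nat_lit 288) (nat_lit 251))))) (XT.nd (nat_lit 234) (nat_lit 152) (nat_lit 0) (XT.nd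 (nat_lit 78) (nat_lit 76) (nat_lit 0) (XT.lf (nat_lit 0) (nat_lit 5439003627) (nat_lit 152) (nat_lit 831120218) (nat_lit 76) (nat_lit 20000750710) (nat_lit 15) (nat_lit 5) (nat_lit 17) (nat_lit 5) (nat_lit 16) (nat_lit 4) (nat_lit 362) (nat_lit 288) (nat_lit 250)) (XT.nd (nat_lit 78) (nat_lit 0) (nat_lit 0) (XT.lf (nat_lit 0) (nat_lit 8997427424) (nat_lit 76) (nat_lit 1287666834) (nat_lit 152) (nat_lit 17035341640) (nat_lit 14) (nat_lit 5) (nat_lit 15) (nat_lit 5) (nat_lit 16) (nat_lit 4) (nat_lit 363) (nat_lit 288) (nat_lit 249)) (XT.lf (nat_lit 0) (nat_lit 15389743235) (nat_lit 152) (nat_lit 9249724989) (nat_lit 0) (nat_lit 3782210584) (nat_lit 14) (nat_lit 5) (nat_lit 16) (nat_lit 4) (nat_lit 14) (nat_lit 4) (nat_lit 364) (nat_lit 288) (nat_lit 248)))) (XT.nd (nat_lit 78) (nat_lit 76) (nat_lit 0) (XT.lf (nat_lit 0) (nat_lit 153990373) (nat_lit 76) (nat_lit 20562359333) (nat_lit 76) (nat_lit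 8863313324) (nat_lit 13) (nat_lit 4) (nat_lit 14) (nat_lit 5) (nat_lit 14) (nat_lit 4) (nat_lit 365) (nat_lit 288) (nat_lit 247)) (XT.nd (nat_lit 78) (nat_lit 76) (nat_lit 0) (XT.lf (nat_lit 0) (nat_lit 10243696052) (nat_lit 76) (nat_lit 16166510346) (nat_lit 76) (nat_lit 4380308758) (nat_lit 13) (nat_lit 4) (nat_lit 14) (nat_lit 5) (nat_lit 14) (nat_lit 4) (nat_lit 366) (nat_lit 288) (nat_lit 246)) (XT.lf (nat_lit 0) (nat_lit 262426375) (nat_lit 152) (nat_lit 11331232831) (nat_lit 76) (nat_lit 20470706781) (nat_lit 12) (nat_lit 5) (nat_lit 14) (nat_lit 5) (nat_lit 13) (nat_lit 4) (nat_lit 367) (nat_lit 288) (nat_lit 245))))))) (XT.nd (nat_lit 858) (nat_lit 228) (nat_lit 0) (XT.nd (nat_lit 390) (nat_lit 152) (nat_lit 0) (XT.nd (nat_lit 156) (nat_lit 76) (nat_lit 0) (XT.nd (nat_lit 78) (nat_lit 76) (nat_lit 0) (XT.lf (nat_lit 0) (nat_lit 4938702077) (nat_lit 152) (nat_lit 1823920321) (nat_lit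 76) (nat_lit 26638278685) (nat_lit 12) (nat_lit 5) (nat_lit 14) (nat_lit 5) (nat_lit 13) (nat_lit 4) (nat_lit 368) (nat_lit 288) (nat_lit 244)) (XT.lf (nat_lit 0) (nat_lit 8332846918) (nat_lit 76) (nat_lit 1597101747) (nat_lit 152) (nat_lit 24870268496) (nat_lit 11) (nat_lit 5) (nat_lit 12) (nat_lit 5) (nat_lit 13) (nat_lit 4) (nat_lit 369) (nat_lit 288) (nat_lit 243))) (XT.nd (nat_lit 78) (nat_lit 76) (nat_lit 0) (XT.lf (nat_lit 0) (nat_lit 15213191606) (nat_lit 152) (nat_lit 17360292263) (nat_lit 0) (nat_lit 3693904980) (nat_lit 11) (nat_lit 5) (nat_lit 13) (nat_lit 4) (nat_lit 11) (nat_lit 4) (nat_lit 370) (nat_lit 288) (nat_lit 242)) (XT.nd (nat_lit 78) (nat_lit 76) (nat_lit 0) (XT.lf (nat_lit 0) (nat_lit 20740391300) (nat_lit 152) (nat_lit 7912481212) (nat_lit 0) (nat_lit 9156067838) (nat_lit 11) (nat_lit 5) (nat_lit 13) (nat_lit 4) (nat_lit 11) (nat_lit 4) (nat_lit 371) (nat_lit 288)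 (nat_lit 241)) (XT.lf (nat_lit 0) (nat_lit 1987092294) (nat_lit 76) (nat_lit 24543704296) (nat_lit 76) (nat_lit 12897440992) (nat_lit 10) (nat_lit 4) (nat_lit 11) (nat_lit 5) (nat_lit 11) (nat_lit 4) (nat_lit 372) (nat_lit 288) (nat_lit 240))))) (XT.nd (nat_lit 234) (nat_lit 76) (nat_lit 0) (XT.nd (nat_lit 78) (nat_lit 76) (nat_lit 0) (XT.lf (nat_lit 0) (nat_lit 12573479004) (nat_lit 76) (nat_lit 20127876292) (nat_lit 76) (nat_lit 8422622661) (nat_lit 10) (nat_lit 4) (nat_lit 11) (nat_lit 5) (nat_lit 11) (nat_lit 4) (nat_lit 373) (nat_lit 288) (nat_lit 239)) (XT.nd (nat_lit 78) (nat_lit 76) (nat_lit 0) (XT.lf (nat_lit 0) (nat_lit 23610262238) (nat_lit 76) (nat_lit 15528876323) (nat_lit 76) (nat_lit 3767441428) (nat_lit 10) (nat_lit 4) (nat_lit 11) (nat_lit 5) (nat_lit 11) (nat_lit 4) (nat_lit 374) (nat_lit 288) (nat_lit 238)) (XT.lf (nat_lit 0) (nat_lit 1044645765) (nat_lit 152) (nat_lit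 9673417039) (nat_lit 76) (nat_lit 34061382704) (nat_lit 9) (nat_lit 5) (nat_lit 11) (nat_lit 5) (nat_lit 10) (nat_lit 4) (nat_lit 375) (nat_lit 288) (nat_lit 237)))) (XT.nd (nat_lit 78) (nat_lit 0) (nat_lit 0) (XT.lf (nat_lit 0) (nat_lit 305802167) (nat_lit 76) (nat_lit 5631612998) (nat_lit 152) (nat_lit 40807124821) (nat_lit 8) (nat_lit 5) (nat_lit 9) (nat_lit 5) (nat_lit 10) (nat_lit 4) (nat_lit 376) (nat_lit 288) (nat_lit 236)) (XT.nd (nat_lit 78) (nat_lit 0) (nat_lit 0) (XT.lf (nat_lit 0) (nat_lit 11048143790) (nat_lit 76) (nat_lit 153111916) (nat_lit 152) (nat_lit 37600319635) (nat_lit 8) (nat_lit 5) (nat_lit 9) (nat_lit 5) (nat_lit 10) (nat_lit 4) (nat_lit 377) (nat_lit 288) (nat_lit 235)) (XT.lf (nat_lit 0) (nat_lit 16779588661) (nat_lit 152) (nat_lit 28790823612) (nat_lit 0) (nat_lit 5388492590) (nat_lit 8) (nat_lit 5) (nat_lit 10) (nat_lit 4) (nat_lit 8) (nat_lit 4) (nat_lit 378)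 (nat_lit 288) (nat_lit 234)))))) (XT.nd (nat_lit 468) (nat_lit 152) (nat_lit 0) (XT.nd (nat_lit 234) (nat_lit 0) (nat_lit 0) (XT.nd (nat_lit 78) (nat_lit 76) (nat_lit 0) (XT.lf (nat_lit 0) (nat_lit 22604947720) (nat_lit 152) (nat_lit 19448826406) (nat_lit 0) (nat_lit 11171928326) (nat_lit 8) (nat_lit 5) (nat_lit 10) (nat_lit 4) (nat_lit 8) (nat_lit 4) (nat_lit 379) (nat_lit 288) (nat_lit 233)) (XT.nd (nat_lit 78) (nat_lit 76) (nat_lit 0) (XT.lf (nat_lit 0) (nat_lit 28688812281) (nat_lit 152) (nat_lit 9702806578) (nat_lit 0) (nat_lit 17215865912) (nat_lit 8) (nat_lit 5) (nat_lit 10) (nat_lit 4) (nat_lit 8) (nat_lit 4) (nat_lit 380) (nat_lit 288) (nat_lit 232)) (XT.lf (nat_lit 0) (nat_lit 485995575) (nat_lit 76) (nat_lit 34567259914) (nat_lit 76) (nat_lit 23056287854) (nat_lit 7) (nat_lit 4) (nat_lit 8) (nat_lit 5) (nat_lit 8) (nat_lit 4) (nat_lit 381) (nat_lit 288) (nat_lit 231)))) (XT.nd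 (nat_lit 78) (nat_lit 0) (nat_lit 0) (XT.lf (nat_lit 0) (nat_lit 11461992739) (nat_lit 76) (nat_lit 30407610544) (nat_lit 76) (nat_lit 18860423541) (nat_lit 7) (nat_lit 4) (nat_lit 8) (nat_lit 5) (nat_lit 8) (nat_lit 4) (nat_lit 382) (nat_lit 288) (nat_lit 230)) (XT.nd (nat_lit 78) (nat_lit 0) (nat_lit 0) (XT.lf (nat_lit 0) (nat_lit 22930499636) (nat_lit 76) (nat_lit 26067088546) (nat_lit 76) (nat_lit 14485411121) (nat_lit 7) (nat_lit 4) (nat_lit 8) (nat_lit 5) (nat_lit 8) (nat_lit 4) (nat_lit 383) (nat_lit 288) (nat_lit 229)) (XT.lf (nat_lit 0) (nat_lit 34918822235) (nat_lit 76) (nat_lit 21535359346) (nat_lit 76) (nat_lit 9920833900) (nat_lit 7) (nat_lit 4) (nat_lit 8) (nat_lit 5) (nat_lit 8) (nat_lit 4) (nat_lit 384) (nat_lit 288) (nat_lit 228))))) (XT.nd (nat_lit 234) (nat_lit 76) (nat_lit 0) (XT.nd (nat_lit 78) (nat_lit 76) (nat_lit 0) (XT.lf (nat_lit 0) (nat_lit 47455504162) (nat_lit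 76) (nat_lit 16801633111) (nat_lit 76) (nat_lit 5155823835) (nat_lit 7) (nat_lit 4) (nat_lit 8) (nat_lit 5) (nat_lit 8) (nat_lit 4) (nat_lit 385) (nat_lit 288) (nat_lit 227)) (XT.nd (nat_lit 78) (nat_lit 76) (nat_lit 0) (XT.lf (nat_lit 0) (nat_lit 60570394658) (nat_lit 76) (nat_lit 11854639064) (nat_lit 76) (nat_lit 179035665) (nat_lit 7) (nat_lit 4) (nat_lit 8) (nat_lit 5) (nat_lit 8) (nat_lit 4) (nat_lit 386) (nat_lit 288) (nat_lit 226)) (XT.lf (nat_lit 0) (nat_lit 4860664583) (nat_lit 152) (nat_lit 1739616359) (nat_lit 76) (nat_lit 69351737364) (nat_lit 6) (nat_lit 5) (nat_lit 8) (nat_lit 5) (nat_lit 7) (nat_lit 4) (nat_lit 387) (nat_lit 288) (nat_lit 225)))) (XT.nd (nat_lit 78) (nat_lit 0) (nat_lit 0) (XT.lf (nat_lit 0) (nat_lit 9319618272) (nat_lit 76) (nat_lit 948977423) (nat_lit 152) (nat_lit 69192513431) (nat_lit 5) (nat_lit 5) (nat_lit 6) (nat_lit 5) (nat_lit 7) (nat_lit 4) (nat_lit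 388) (nat_lit 288) (nat_lit 224)) (XT.nd (nat_lit 78) (nat_lit 0) (nat_lit 0) (XT.lf (nat_lit 0) (nat_lit 16031537401) (nat_lit 152) (nat_lit 62275248528) (nat_lit 0) (nat_lit 4834641985) (nat_lit 5) (nat_lit 5) (nat_lit 7) (nat_lit 4) (nat_lit 5) (nat_lit 4) (nat_lit 389) (nat_lit 288) (nat_lit 223)) (XT.lf (nat_lit 0) (nat_lit 22076127675) (nat_lit 152) (nat_lit 54074076043) (nat_lit 0) (nat_lit 10855887783) (nat_lit 5) (nat_lit 5) (nat_lit 7) (nat_lit 4) (nat_lit 5) (nat_lit 4) (nat_lit 390) (nat_lit 288) (nat_lit 222))))))))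
noncomputable def xc69 : XT := (XT.nd (nat_lit 1716) (nat_lit 0) (nat_lit 0) (XT.nd (nat_lit 858) (nat_lit 152) (nat_lit 0) (XT.nd (nat_lit 390) (nat_lit 76) (nat_lit 0) (XT.nd (nat_lit 156) (nat_lit 0) (nat_lit 0) (XT.nd (nat_lit 78) (nat_lit 0) (nat_lit 0) (XT.lf (nat_lit 0) (nat_lit 28401942202) (nat_lit 152) (nat_lit 45503630601) (nat_lit 0) (nat_lit 17159469476) (nat_lit 5) (nat_lit 5) (nat_lit 7) (nat_lit 4) (nat_lit 5) (nat_lit 4) (nat_lit 391) (nat_lit 288) (nat_lit 221)) (XT.lf (nat_lit 0) (nat_lit 35024042443) (nat_lit 152) (nat_lit 36543506378) (nat_lit 0) (nat_lit 23760395590) (nat_lit 5) (nat_lit 5) (nat_lit 7) (nat_lit 4) (nat_lit 5) (nat_lit 4) (nat_lit 392) (nat_lit 288) (nat_lit 220))) (XT.nd (nat_lit 78) (nat_lit 0) (nat_lit 0) (XT.lf (nat_lit 0) (nat_lit 41958195306) (nat_lit 152) (nat_lit 27172369747) (nat_lit 0) (nat_lit 30674382617) (nat_lit 5) (nat_lit 5) (nat_lit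 7) (nat_lit 4) (nat_lit 5) (nat_lit 4) (nat_lit 393) (nat_lit 288) (nat_lit 219)) (XT.nd (nat_lit 78) (nat_lit 0) (nat_lit 0) (XT.lf (nat_lit 0) (nat_lit 49220910677) (nat_lit 152) (nat_lit 17367908477) (nat_lit 0) (nat_lit 37917892431) (nat_lit 5) (nat_lit 5) (nat_lit 7) (nat_lit 4) (nat_lit 5) (nat_lit 4) (nat_lit 394) (nat_lit 288) (nat_lit 218)) (XT.lf (nat_lit 0) (nat_lit 56829480736) (nat_lit 152) (nat_lit 7106778612) (nat_lit 0) (nat_lit 45508171482) (nat_lit 5) (nat_lit 5) (nat_lit 7) (nat_lit 4) (nat_lit 5) (nat_lit 4) (nat_lit 395) (nat_lit 288) (nat_lit 217))))) (XT.nd (nat_lit 234) (nat_lit 0) (nat_lit 0) (XT.nd (nat_lit 78) (nat_lit 0) (nat_lit 0) (XT.lf (nat_lit 0) (nat_lit 3755655540) (nat_lit 76) (nat_lit 61105001894) (nat_lit 76) (nat_lit 49766272633) (nat_lit 4) (nat_lit 4) (nat_lit 5) (nat_lit 5) (nat_lit 5) (nat_lit 4) (nat_lit 396) (nat_lit 288) (nat_lit 216)) (XT.nd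 (nat_lit 78) (nat_lit 0) (nat_lit 0) (XT.lf (nat_lit 0) (nat_lit 15376501499) (nat_lit 76) (nat_lit 58021082868) (nat_lit 76) (nat_lit 46665763124) (nat_lit 4) (nat_lit 4) (nat_lit 5) (nat_lit 5) (nat_lit 5) (nat_lit 4) (nat_lit 397) (nat_lit 288) (nat_lit 215)) (XT.lf (nat_lit 0) (nat_lit 27548445748) (nat_lit 76) (nat_lit 54797516341) (nat_lit 76) (nat_lit 43426396138) (nat_lit 4) (nat_lit 4) (nat_lit 5) (nat_lit 5) (nat_lit 5) (nat_lit 4) (nat_lit 398) (nat_lit 288) (nat_lit 214)))) (XT.nd (nat_lit 78) (nat_lit 0) (nat_lit 0) (XT.lf (nat_lit 0) (nat_lit 40300469108) (nat_lit 76) (nat_lit 51426627154) (nat_lit 76) (nat_lit 40040458894) (nat_lit 4) (nat_lit 4) (nat_lit 5) (nat_lit 5) (nat_lit 5) (nat_lit 4) (nat_lit 399) (nat_lit 288) (nat_lit 213)) (XT.nd (nat_lit 78) (nat_lit 0) (nat_lit 0) (XT.lf (nat_lit 0) (nat_lit 53662933539) (nat_lit 76) (nat_lit 47900389381) (nat_lit 76) (nat_lit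 36499889638) (nat_lit 4) (nat_lit 4) (nat_lit 5) (nat_lit 5) (nat_lit 5) (nat_lit 4) (nat_lit 400) (nat_lit 288) (nat_lit 212)) (XT.lf (nat_lit 0) (nat_lit 67667654432) (nat_lit 76) (nat_lit 44210407218) (nat_lit 76) (nat_lit 32796258444) (nat_lit 4) (nat_lit 4) (nat_lit 5) (nat_lit 5) (nat_lit 5) (nat_lit 4) (nat_lit 401) (nat_lit 288) (nat_lit 211)))))) (XT.nd (nat_lit 390) (nat_lit 152) (nat_lit 0) (XT.nd (nat_lit 156) (nat_lit 0) (nat_lit 0) (XT.nd (nat_lit 78) (nat_lit 0) (nat_lit 0) (XT.lf (nat_lit 0) (nat_lit 82347976360) (nat_lit 76) (nat_lit 40347894993) (nat_lit 76) (nat_lit 28920747141) (nat_lit 4) (nat_lit 4) (nat_lit 5) (nat_lit 5) (nat_lit 5) (nat_lit 4) (nat_lit 402) (nat_lit 288) (nat_lit 210)) (XT.lf (nat_lit 0) (nat_lit 97738852473) (nat_lit 76) (nat_lit 36303656247) (nat_lit 76) (nat_lit 24864128322) (nat_lit 4) (nat_lit 4) (nat_lit 5) (nat_lit 5) (nat_lit 5) (nat_lit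 4) (nat_lit 403) (nat_lit 288) (nat_lit 209))) (XT.nd (nat_lit 78) (nat_lit 0) (nat_lit 0) (XT.lf (nat_lit 0) (nat_lit 113876927711) (nat_lit 76) (nat_lit 32068061842) (nat_lit 76) (nat_lit 20616743370) (nat_lit 4) (nat_lit 4) (nat_lit 5) (nat_lit 5) (nat_lit 5) (nat_lit 4) (nat_lit 404) (nat_lit 288) (nat_lit 208)) (XT.nd (nat_lit 78) (nat_lit 0) (nat_lit 0) (XT.lf (nat_lit 0) (nat_lit 130800626065) (nat_lit 76) (nat_lit 27631027029) (nat_lit 76) (nat_lit 16168479465) (nat_lit 4) (nat_lit 4) (nat_lit 5) (nat_lit 5) (nat_lit 5) (nat_lit 4) (nat_lit 405) (nat_lit 288) (nat_lit 207)) (XT.lf (nat_lit 0) (nat_lit 148550242053) (nat_lit 76) (nat_lit 22981987438) (nat_lit 76) (nat_lit 11508745502) (nat_lit 4) (nat_lit 4) (nat_lit 5) (nat_lit 5) (nat_lit 5) (nat_lit 4) (nat_lit 406) (nat_lit 288) (nat_lit 206))))) (XT.nd (nat_lit 234) (nat_lit 76) (nat_lit 0) (XT.nd (nat_lit 78) (nat_lit 76) (nat_lit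 0) (XT.lf (nat_lit 0) (nat_lit 167168036667) (nat_lit 76) (nat_lit 18109873929) (nat_lit 76) (nat_lit 6626446875) (nat_lit 4) (nat_lit 4) (nat_lit 5) (nat_lit 5) (nat_lit 5) (nat_lit 4) (nat_lit 407) (nat_lit 288) (nat_lit 205)) (XT.nd (nat_lit 78) (nat_lit 76) (nat_lit 0) (XT.lf (nat_lit 0) (nat_lit 186698337989) (nat_lit 76) (nat_lit 13003086231) (nat_lit 76) (nat_lit 1509959065) (nat_lit 4) (nat_lit 4) (nat_lit 5) (nat_lit 5) (nat_lit 5) (nat_lit 4) (nat_lit 408) (nat_lit 288) (nat_lit 204)) (XT.lf (nat_lit 0) (nat_lit 3729583178) (nat_lit 152) (nat_lit 3856719851) (nat_lit 76) (nat_lit 203394901262) (nat_lit 3) (nat_lit 5) (nat_lit 5) (nat_lit 5) (nat_lit 4) (nat_lit 4) (nat_lit 409) (nat_lit 288) (nat_lit 203)))) (XT.nd (nat_lit 78) (nat_lit 0) (nat_lit 0) (XT.lf (nat_lit 0) (nat_lit 7531768564) (nat_lit 76) (nat_lit 1757466664) (nat_lit 152) (nat_lit 211943600999) (nat_lit 2) (nat_lit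 5) (nat_lit 3) (nat_lit 5) (nat_lit 4) (nat_lit 4) (nat_lit 410) (nat_lit 288) (nat_lit 202)) (XT.nd (nat_lit 78) (nat_lit 0) (nat_lit 0) (XT.lf (nat_lit 0) (nat_lit 15252684451) (nat_lit 152) (nat_lit 212456384783) (nat_lit 0) (nat_lit 4281691141) (nat_lit 2) (nat_lit 5) (nat_lit 4) (nat_lit 4) (nat_lit 2) (nat_lit 4) (nat_lit 411) (nat_lit 288) (nat_lit 201)) (XT.lf (nat_lit 0) (nat_lit 21534843439) (nat_lit 152) (nat_lit 211194461870) (nat_lit 0) (nat_lit 10556249838) (nat_lit 2) (nat_lit 5) (nat_lit 4) (nat_lit 4) (nat_lit 2) (nat_lit 4) (nat_lit 412) (nat_lit 288) (nat_lit 200))))))) (XT.nd (nat_lit 858) (nat_lit 0) (nat_lit 0) (XT.nd (nat_lit 390) (nat_lit 0) (nat_lit 0) (XT.nd (nat_lit 156) (nat_lit 0) (nat_lit 0) (XT.nd (nat_lit 78) (nat_lit 0) (nat_lit 0) (XT.lf (nat_lit 0) (nat_lit 28123230734) (nat_lit 152) (nat_lit 209884855364) (nat_lit 0) (nat_lit 17137398760) (nat_lit 2)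 (nat_lit 5) (nat_lit 4) (nat_lit 4) (nat_lit 2) (nat_lit 4) (nat_lit 413) (nat_lit 288) (nat_lit 199)) (XT.lf (nat_lit 0) (nat_lit 35033532973) (nat_lit 152) (nat_lit 208524447156) (nat_lit 0) (nat_lit 24040807310) (nat_lit 2) (nat_lit 5) (nat_lit 4) (nat_lit 4) (nat_lit 2) (nat_lit 4) (nat_lit 414) (nat_lit 288) (nat_lit 198))) (XT.nd (nat_lit 78) (nat_lit 0) (nat_lit 0) (XT.lf (nat_lit 0) (nat_lit 42282203255) (nat_lit 152) (nat_lit 207109998177) (nat_lit 0) (nat_lit 31282912175) (nat_lit 2) (nat_lit 5) (nat_lit 4) (nat_lit 4) (nat_lit 2) (nat_lit 4) (nat_lit 415) (nat_lit 288) (nat_lit 197)) (XT.nd (nat_lit 78) (nat_lit 0) (nat_lit 0) (XT.lf (nat_lit 0) (nat_lit 49886500320) (nat_lit 152) (nat_lit 205638140693) (nat_lit 0) (nat_lit 38880956462) (nat_lit 2) (nat_lit 5) (nat_lit 4) (nat_lit 4) (nat_lit 2) (nat_lit 4) (nat_lit 416) (nat_lit 288) (nat_lit 196)) (XT.lf (nat_lit 0) (nat_lit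 57864529637) (nat_lit 152) (nat_lit 204105370280) (nat_lit 0) (nat_lit 46853030751) (nat_lit 2) (nat_lit 5) (nat_lit 4) (nat_lit 4) (nat_lit 2) (nat_lit 4) (nat_lit 417) (nat_lit 288) (nat_lit 195))))) (XT.nd (nat_lit 234) (nat_lit 0) (nat_lit 0) (XT.nd (nat_lit 78) (nat_lit 0) (nat_lit 0) (XT.lf (nat_lit 0) (nat_lit 66235286514) (nat_lit 152) (nat_lit 202508037486) (nat_lit 0) (nat_lit 55218116174) (nat_lit 2) (nat_lit 5) (nat_lit 4) (nat_lit 4) (nat_lit 2) (nat_lit 4) (nat_lit 418) (nat_lit 288) (nat_lit 194)) (XT.nd (nat_lit 78) (nat_lit 0) (nat_lit 0) (XT.lf (nat_lit 0) (nat_lit 75018701324) (nat_lit 152) (nat_lit 200842339137) (nat_lit 0) (nat_lit 63996129598) (nat_lit 2) (nat_lit 5) (nat_lit 4) (nat_lit 4) (nat_lit 2) (nat_lit 4) (nat_lit 419) (nat_lit 288) (nat_lit 193)) (XT.lf (nat_lit 0) (nat_lit 84235686959) (nat_lit 152) (nat_lit 199104309285) (nat_lit 0) (nat_lit 73207971058)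 (nat_lit 2) (nat_lit 5) (nat_lit 4) (nat_lit 4) (nat_lit 2) (nat_lit 4) (nat_lit 420) (nat_lit 288) (nat_lit 192)))) (XT.nd (nat_lit 78) (nat_lit 0) (nat_lit 0) (XT.lf (nat_lit 0) (nat_lit 93908188624) (nat_lit 152) (nat_lit 197289809763) (nat_lit 0) (nat_lit 82875573508) (nat_lit 2) (nat_lit 5) (nat_lit 4) (nat_lit 4) (nat_lit 2) (nat_lit 4) (nat_lit 421) (nat_lit 288) (nat_lit 191)) (XT.nd (nat_lit 78) (nat_lit 0) (nat_lit 0) (XT.lf (nat_lit 0) (nat_lit 104059236085) (nat_lit 152) (nat_lit 195394520334) (nat_lit 0) (nat_lit 93021955049) (nat_lit 2) (nat_lit 5) (nat_lit 4) (nat_lit 4) (nat_lit 2) (nat_lit 4) (nat_lit 422) (nat_lit 288) (nat_lit 190)) (XT.lf (nat_lit 0) (nat_lit 114712998502) (nat_lit 152) (nat_lit 193413928405) (nat_lit 0) (nat_lit 103671273733) (nat_lit 2) (nat_lit 5) (nat_lit 4) (nat_lit 4) (nat_lit 2) (nat_lit 4) (nat_lit 423) (nat_lit 288) (nat_lit 189)))))) (XT.nd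 (nat_lit 468) (nat_lit 0) (nat_lit 0) (XT.nd (nat_lit 234) (nat_lit 0) (nat_lit 0) (XT.nd (nat_lit 78) (nat_lit 0) (nat_lit 0) (XT.lf (nat_lit 0) (nat_lit 125894841976) (nat_lit 152) (nat_lit 191343318280) (nat_lit 0) (nat_lit 114848885080) (nat_lit 2) (nat_lit 5) (nat_lit 4) (nat_lit 4) (nat_lit 2) (nat_lit 4) (nat_lit 424) (nat_lit 288) (nat_lit 188)) (XT.nd (nat_lit 78) (nat_lit 0) (nat_lit 0) (XT.lf (nat_lit 0) (nat_lit 137631389944) (nat_lit 152) (nat_lit 189177759936) (nat_lit 0) (nat_lit 126581402451) (nat_lit 2) (nat_lit 5) (nat_lit 4) (nat_lit 4) (nat_lit 2) (nat_lit 4) (nat_lit 425) (nat_lit 288) (nat_lit 187)) (XT.lf (nat_lit 0) (nat_lit 149950586567) (nat_lit 152) (nat_lit 186912097281) (nat_lit 0) (nat_lit 138896760411) (nat_lit 2) (nat_lit 5) (nat_lit 4) (nat_lit 4) (nat_lit 2) (nat_lit 4) (nat_lit 426) (nat_lit 288) (nat_lit 186)))) (XT.nd (nat_lit 78) (nat_lit 0) (nat_lit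 0) (XT.lf (nat_lit 0) (nat_lit 162881763267) (nat_lit 152) (nat_lit 184540935879) (nat_lit 0) (nat_lit 151824281241) (nat_lit 2) (nat_lit 5) (nat_lit 4) (nat_lit 4) (nat_lit 2) (nat_lit 4) (nat_lit 427) (nat_lit 288) (nat_lit 185)) (XT.nd (nat_lit 78) (nat_lit 0) (nat_lit 0) (XT.lf (nat_lit 0) (nat_lit 176455708559) (nat_lit 152) (nat_lit 182058630110) (nat_lit 0) (nat_lit 165394744752) (nat_lit 2) (nat_lit 5) (nat_lit 4) (nat_lit 4) (nat_lit 2) (nat_lit 4) (nat_lit 428) (nat_lit 288) (nat_lit 184)) (XT.lf (nat_lit 0) (nat_lit 190704741361) (nat_lit 152) (nat_lit 179459269720) (nat_lit 0) (nat_lit 179640461571) (nat_lit 2) (nat_lit 5) (nat_lit 4) (nat_lit 4) (nat_lit 2) (nat_lit 4) (nat_lit 429) (nat_lit 288) (nat_lit 183))))) (XT.nd (nat_lit 234) (nat_lit 0) (nat_lit 0) (XT.nd (nat_lit 78) (nat_lit 0) (nat_lit 0) (XT.lf (nat_lit 0) (nat_lit 205662787941) (nat_lit 152) (nat_lit 176736665757)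 (nat_lit 0) (nat_lit 194595350073) (nat_lit 2) (nat_lit 5) (nat_lit 4) (nat_lit 4) (nat_lit 2) (nat_lit 4) (nat_lit 430) (nat_lit 288) (nat_lit 182)) (XT.nd (nat_lit 78) (nat_lit 0) (nat_lit 0) (XT.lf (nat_lit 0) (nat_lit 221365462695) (nat_lit 152) (nat_lit 173884335830) (nat_lit 0) (nat_lit 210295017135) (nat_lit 2) (nat_lit 5) (nat_lit 4) (nat_lit 4) (nat_lit 2) (nat_lit 4) (nat_lit 431) (nat_lit 288) (nat_lit 181)) (XT.lf (nat_lit 0) (nat_lit 237850152946) (nat_lit 152) (nat_lit 170895488677) (nat_lit 0) (nat_lit 226776842915) (nat_lit 2) (nat_lit 5) (nat_lit 4) (nat_lit 4) (nat_lit 2) (nat_lit 4) (nat_lit 432) (nat_lit 288) (nat_lit 180)))) (XT.nd (nat_lit 38220) (nat_lit 0) (nat_lit 5548) (XT.lf (nat_lit 0) (nat_lit 255156107954) (nat_lit 152) (nat_lit 167763007997) (nat_lit 0) (nat_lit 244080069857) (nat_lit 2) (nat_lit 5) (nat_lit 4) (nat_lit 4) (nat_lit 2) (nat_lit 4) (nat_lit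 433) (nat_lit 288) (nat_lit 179)) (XT.nd (nat_lit 78) (nat_lit 0) (nat_lit 0) (XT.lf (nat_lit 0) (nat_lit 87985226) (nat_lit 380) (nat_lit 3795248696) (nat_lit 0) (nat_lit 87985226) (nat_lit 75) (nat_lit 5) (nat_lit 80) (nat_lit 4) (nat_lit 75) (nat_lit 4) (nat_lit 322) (nat_lit 289) (nat_lit 289)) (XT.lf (nat_lit 0) (nat_lit 3832039351) (nat_lit 380) (nat_lit 1637983252) (nat_lit 0) (nat_lit 2617204219) (nat_lit 75) (nat_lit 5) (nat_lit 80) (nat_lit 4) (nat_lit 75) (nat_lit 4) (nat_lit 323) (nat_lit 289) (nat_lit 288))))))))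
noncomputable def xc70 : XT := (XT.nd (nat_lit 1716) (nat_lit 1292) (nat_lit 0) (XT.nd (nat_lit 858) (nat_lit 1368) (nat_lit 0) (XT.nd (nat_lit 390) (nat_lit 912) (nat_lit 0) (XT.nd (nat_lit 156) (nat_lit 608) (nat_lit 0) (XT.nd (nat_lit 78) (nat_lit 304) (nat_lit 0) (XT.lf (nat_lit 0) (nat_lit 4558666382) (nat_lit 304) (nat_lit 3028398334) (nat_lit 304) (nat_lit 656577361) (nat_lit 71) (nat_lit 4) (nat_lit 75) (nat_lit 5) (nat_lit 75) (nat_lit 4) (nat_lit 324) (nat_lit 289) (nat_lit 287)) (XT.lf (nat_lit 0) (nat_lit 2546400582) (nat_lit 228) (nat_lit 390239823) (nat_lit 304) (nat_lit 5473247418) (nat_lit 67) (nat_lit 5) (nat_lit 70) (nat_lit 5) (nat_lit 71) (nat_lit 4) (nat_lit 325) (nat_lit 289) (nat_lit 286))) (XT.nd (nat_lit 78) (nat_lit 304) (nat_lit 0) (XT.lf (nat_lit 0) (nat_lit 394603118) (nat_lit 304) (nat_lit 6249688171) (nat_lit 304) (nat_lit 1941942921) (nat_lit 63) (nat_lit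 4) (nat_lit 67) (nat_lit 5) (nat_lit 67) (nat_lit 4) (nat_lit 326) (nat_lit 289) (nat_lit 285)) (XT.nd (nat_lit 78) (nat_lit 228) (nat_lit 0) (XT.lf (nat_lit 0) (nat_lit 1668264909) (nat_lit 380) (nat_lit 1839657300) (nat_lit 76) (nat_lit 5264306967) (nat_lit 62) (nat_lit 5) (nat_lit 67) (nat_lit 5) (nat_lit 63) (nat_lit 4) (nat_lit 327) (nat_lit 289) (nat_lit 284)) (XT.lf (nat_lit 0) (nat_lit 4753268481) (nat_lit 228) (nat_lit 573266896) (nat_lit 304) (nat_lit 3642901522) (nat_lit 59) (nat_lit 5) (nat_lit 62) (nat_lit 5) (nat_lit 63) (nat_lit 4) (nat_lit 328) (nat_lit 289) (nat_lit 283))))) (XT.nd (nat_lit 234) (nat_lit 456) (nat_lit 0) (XT.nd (nat_lit 78) (nat_lit 228) (nat_lit 0) (XT.lf (nat_lit 0) (nat_lit 2402056554) (nat_lit 228) (nat_lit 6735425480) (nat_lit 228) (nat_lit 40673393) (nat_lit 56) (nat_lit 4) (nat_lit 59) (nat_lit 5) (nat_lit 59) (nat_lit 4) (nat_lit 329) (nat_lit 289)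 (nat_lit 282)) (XT.nd (nat_lit 78) (nat_lit 152) (nat_lit 0) (XT.lf (nat_lit 0) (nat_lit 3566501424) (nat_lit 304) (nat_lit 166517725) (nat_lit 76) (nat_lit 5664265909) (nat_lit 55) (nat_lit 5) (nat_lit 59) (nat_lit 5) (nat_lit 56) (nat_lit 4) (nat_lit 330) (nat_lit 289) (nat_lit 281)) (XT.lf (nat_lit 0) (nat_lit 6798704951) (nat_lit 152) (nat_lit 529272602) (nat_lit 228) (nat_lit 2300714492) (nat_lit 53) (nat_lit 5) (nat_lit 55) (nat_lit 5) (nat_lit 56) (nat_lit 4) (nat_lit 331) (nat_lit 289) (nat_lit 280)))) (XT.nd (nat_lit 78) (nat_lit 152) (nat_lit 0) (XT.lf (nat_lit 0) (nat_lit 1343737136) (nat_lit 304) (nat_lit 5753851227) (nat_lit 76) (nat_lit 2773948343) (nat_lit 49) (nat_lit 5) (nat_lit 53) (nat_lit 5) (nat_lit 50) (nat_lit 4) (nat_lit 332) (nat_lit 289) (nat_lit 279)) (XT.nd (nat_lit 78) (nat_lit 0) (nat_lit 0) (XT.lf (nat_lit 0) (nat_lit 1182117833) (nat_lit 152) (nat_lit 3859288604)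 (nat_lit 228) (nat_lit 5085919012) (nat_lit 47) (nat_lit 5) (nat_lit 49) (nat_lit 5) (nat_lit 50) (nat_lit 4) (nat_lit 333) (nat_lit 289) (nat_lit 278)) (XT.lf (nat_lit 0) (nat_lit 8472394142) (nat_lit 152) (nat_lit 424549175) (nat_lit 228) (nat_lit 1500409573) (nat_lit 47) (nat_lit 5) (nat_lit 49) (nat_lit 5) (nat_lit 50) (nat_lit 4) (nat_lit 334) (nat_lit 289) (nat_lit 277)))))) (XT.nd (nat_lit 390) (nat_lit 532) (nat_lit 0) (XT.nd (nat_lit 156) (nat_lit 380) (nat_lit 0) (XT.nd (nat_lit 78) (nat_lit 152) (nat_lit 0) (XT.lf (nat_lit 0) (nat_lit 2206187912) (nat_lit 304) (nat_lit 5335120616) (nat_lit 76) (nat_lit 3137180487) (nat_lit 43) (nat_lit 5) (nat_lit 47) (nat_lit 5) (nat_lit 44) (nat_lit 4) (nat_lit 335) (nat_lit 289) (nat_lit 276)) (XT.lf (nat_lit 0) (nat_lit 1909839258) (nat_lit 152) (nat_lit 4089025931) (nat_lit 228) (nat_lit 4976113296) (nat_lit 41) (nat_lit 5) (nat_lit 43)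 (nat_lit 5) (nat_lit 44) (nat_lit 4) (nat_lit 336) (nat_lit 289) (nat_lit 275))) (XT.nd (nat_lit 78) (nat_lit 380) (nat_lit 0) (XT.lf (nat_lit 0) (nat_lit 9516233671) (nat_lit 152) (nat_lit 439306398) (nat_lit 228) (nat_lit 1332115182) (nat_lit 41) (nat_lit 5) (nat_lit 43) (nat_lit 5) (nat_lit 44) (nat_lit 4) (nat_lit 337) (nat_lit 289) (nat_lit 274)) (XT.nd (nat_lit 78) (nat_lit 152) (nat_lit 0) (XT.lf (nat_lit 0) (nat_lit 2447347830) (nat_lit 228) (nat_lit 5814722647) (nat_lit 76) (nat_lit 3350367311) (nat_lit 38) (nat_lit 5) (nat_lit 41) (nat_lit 5) (nat_lit 39) (nat_lit 4) (nat_lit 338) (nat_lit 289) (nat_lit 273)) (XT.lf (nat_lit 0) (nat_lit 1697094497) (nat_lit 152) (nat_lit 4627264523) (nat_lit 228) (nat_lit 5630411371) (nat_lit 36) (nat_lit 5) (nat_lit 38) (nat_lit 5) (nat_lit 39) (nat_lit 4) (nat_lit 339) (nat_lit 289) (nat_lit 272))))) (XT.nd (nat_lit 234) (nat_lit 228) (nat_lit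 0) (XT.nd (nat_lit 78) (nat_lit 304) (nat_lit 0) (XT.lf (nat_lit 0) (nat_lit 9606780121) (nat_lit 152) (nat_lit 778543219) (nat_lit 228) (nat_lit 1929457801) (nat_lit 36) (nat_lit 5) (nat_lit 38) (nat_lit 5) (nat_lit 39) (nat_lit 4) (nat_lit 340) (nat_lit 289) (nat_lit 271)) (XT.nd (nat_lit 78) (nat_lit 76) (nat_lit 0) (XT.lf (nat_lit 0) (nat_lit 1921506242) (nat_lit 228) (nat_lit 7564386668) (nat_lit 76) (nat_lit 3204053392) (nat_lit 33) (nat_lit 5) (nat_lit 36) (nat_lit 5) (nat_lit 34) (nat_lit 4) (nat_lit 341) (nat_lit 289) (nat_lit 270)) (XT.lf (nat_lit 0) (nat_lit 146923997) (nat_lit 76) (nat_lit 5711194365) (nat_lit 152) (nat_lit 7226330291) (nat_lit 32) (nat_lit 5) (nat_lit 33) (nat_lit 5) (nat_lit 34) (nat_lit 4) (nat_lit 342) (nat_lit 289) (nat_lit 269)))) (XT.nd (nat_lit 78) (nat_lit 228) (nat_lit 0) (XT.lf (nat_lit 0) (nat_lit 8333384693) (nat_lit 76) (nat_lit 1684793094) (nat_lit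 152) (nat_lit 3479222329) (nat_lit 32) (nat_lit 5) (nat_lit 33) (nat_lit 5) (nat_lit 34) (nat_lit 4) (nat_lit 343) (nat_lit 289) (nat_lit 268)) (XT.nd (nat_lit 78) (nat_lit 0) (nat_lit 0) (XT.lf (nat_lit 0) (nat_lit 427385496) (nat_lit 228) (nat_lit 11056499084) (nat_lit 76) (nat_lit 2447473175) (nat_lit 29) (nat_lit 5) (nat_lit 32) (nat_lit 5) (nat_lit 30) (nat_lit 4) (nat_lit 344) (nat_lit 289) (nat_lit 267)) (XT.lf (nat_lit 0) (nat_lit 4431633541) (nat_lit 228) (nat_lit 3142930319) (nat_lit 76) (nat_lit 6808683232) (nat_lit 29) (nat_lit 5) (nat_lit 32) (nat_lit 5) (nat_lit 30) (nat_lit 4) (nat_lit 345) (nat_lit 289) (nat_lit 266))))))) (XT.nd (nat_lit 858) (nat_lit 532) (nat_lit 0) (XT.nd (nat_lit 390) (nat_lit 380) (nat_lit 0) (XT.nd (nat_lit 156) (nat_lit 304) (nat_lit 0) (XT.nd (nat_lit 78) (nat_lit 0) (nat_lit 0) (XT.lf (nat_lit 0) (nat_lit 5170707487) (nat_lit 76) (nat_lit 3453473985)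 (nat_lit 152) (nat_lit 6234190157) (nat_lit 28) (nat_lit 5) (nat_lit 29) (nat_lit 5) (nat_lit 30) (nat_lit 4) (nat_lit 346) (nat_lit 289) (nat_lit 265)) (XT.lf (nat_lit 0) (nat_lit 13002333343) (nat_lit 152) (nat_lit 1521986949) (nat_lit 0) (nat_lit 834176234) (nat_lit 28) (nat_lit 5) (nat_lit 30) (nat_lit 4) (nat_lit 28) (nat_lit 4) (nat_lit 347) (nat_lit 289) (nat_lit 264))) (XT.nd (nat_lit 78) (nat_lit 76) (nat_lit 0) (XT.lf (nat_lit 0) (nat_lit 1741674605) (nat_lit 228) (nat_lit 8840536350) (nat_lit 76) (nat_lit 5296075051) (nat_lit 25) (nat_lit 5) (nat_lit 28) (nat_lit 5) (nat_lit 26) (nat_lit 4) (nat_lit 348) (nat_lit 289) (nat_lit 263)) (XT.nd (nat_lit 78) (nat_lit 76) (nat_lit 0) (XT.lf (nat_lit 0) (nat_lit 5904376275) (nat_lit 228) (nat_lit 538247625) (nat_lit 76) (nat_lit 9982589164) (nat_lit 25) (nat_lit 5) (nat_lit 28) (nat_lit 5) (nat_lit 26) (nat_lit 4) (nat_lit 349) (nat_lit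 289) (nat_lit 262)) (XT.lf (nat_lit 0) (nat_lit 8297354791) (nat_lit 76) (nat_lit 2024504520) (nat_lit 152) (nat_lit 6675330193) (nat_lit 24) (nat_lit 5) (nat_lit 25) (nat_lit 5) (nat_lit 26) (nat_lit 4) (nat_lit 350) (nat_lit 289) (nat_lit 261))))) (XT.nd (nat_lit 234) (nat_lit 152) (nat_lit 0) (XT.nd (nat_lit 78) (nat_lit 228) (nat_lit 0) (XT.lf (nat_lit 0) (nat_lit 14928090852) (nat_lit 152) (nat_lit 192944043) (nat_lit 0) (nat_lit 2478369813) (nat_lit 24) (nat_lit 5) (nat_lit 26) (nat_lit 4) (nat_lit 24) (nat_lit 4) (nat_lit 351) (nat_lit 289) (nat_lit 260)) (XT.nd (nat_lit 78) (nat_lit 0) (nat_lit 0) (XT.lf (nat_lit 0) (nat_lit 1578374045) (nat_lit 228) (nat_lit 9404303944) (nat_lit 76) (nat_lit 7243159908) (nat_lit 21) (nat_lit 5) (nat_lit 24) (nat_lit 5) (nat_lit 22) (nat_lit 4) (nat_lit 352) (nat_lit 289) (nat_lit 259)) (XT.lf (nat_lit 0) (nat_lit 5876072479) (nat_lit 228) (nat_lit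 775212344) (nat_lit 76) (nat_lit 12233882407) (nat_lit 21) (nat_lit 5) (nat_lit 24) (nat_lit 5) (nat_lit 22) (nat_lit 4) (nat_lit 353) (nat_lit 289) (nat_lit 258)))) (XT.nd (nat_lit 78) (nat_lit 76) (nat_lit 0) (XT.lf (nat_lit 0) (nat_lit 8420192765) (nat_lit 76) (nat_lit 2025619809) (nat_lit 152) (nat_lit 9128820313) (nat_lit 20) (nat_lit 5) (nat_lit 21) (nat_lit 5) (nat_lit 22) (nat_lit 4) (nat_lit 354) (nat_lit 289) (nat_lit 257)) (XT.nd (nat_lit 78) (nat_lit 76) (nat_lit 0) (XT.lf (nat_lit 0) (nat_lit 15227821556) (nat_lit 152) (nat_lit 2375259190) (nat_lit 0) (nat_lit 2696328359) (nat_lit 20) (nat_lit 5) (nat_lit 22) (nat_lit 4) (nat_lit 20) (nat_lit 4) (nat_lit 355) (nat_lit 289) (nat_lit 256)) (XT.lf (nat_lit 0) (nat_lit 6901807856) (nat_lit 76) (nat_lit 13417832374) (nat_lit 76) (nat_lit 737273561) (nat_lit 19) (nat_lit 4) (nat_lit 20) (nat_lit 5) (nat_lit 20) (nat_lit 4) (nat_lit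 356) (nat_lit 289) (nat_lit 255)))))) (XT.nd (nat_lit 468) (nat_lit 228) (nat_lit 0) (XT.nd (nat_lit 234) (nat_lit 152) (nat_lit 0) (XT.nd (nat_lit 78) (nat_lit 76) (nat_lit 0) (XT.lf (nat_lit 0) (nat_lit 3662538525) (nat_lit 152) (nat_lit 5314322089) (nat_lit 76) (nat_lit 12873936387) (nat_lit 18) (nat_lit 5) (nat_lit 20) (nat_lit 5) (nat_lit 19) (nat_lit 4) (nat_lit 357) (nat_lit 289) (nat_lit 254)) (XT.nd (nat_lit 78) (nat_lit 0) (nat_lit 0) (XT.lf (nat_lit 0) (nat_lit 3960283825) (nat_lit 76) (nat_lit 4292407297) (nat_lit 152) (nat_lit 14431344269) (nat_lit 17) (nat_lit 5) (nat_lit 18) (nat_lit 5) (nat_lit 19) (nat_lit 4) (nat_lit 358) (nat_lit 289) (nat_lit 253)) (XT.lf (nat_lit 0) (nat_lit 13107323641) (nat_lit 152) (nat_lit 9805895195) (nat_lit 0) (nat_lit 643988916) (nat_lit 17) (nat_lit 5) (nat_lit 19) (nat_lit 4) (nat_lit 17) (nat_lit 4) (nat_lit 359) (nat_lit 289) (nat_lit 252))))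 (XT.nd (nat_lit 78) (nat_lit 152) (nat_lit 0) (XT.lf (nat_lit 0) (nat_lit 18211929829) (nat_lit 152) (nat_lit 629968188) (nat_lit 0) (nat_lit 5631798291) (nat_lit 17) (nat_lit 5) (nat_lit 19) (nat_lit 4) (nat_lit 17) (nat_lit 4) (nat_lit 360) (nat_lit 289) (nat_lit 251)) (XT.nd (nat_lit 78) (nat_lit 76) (nat_lit 0) (XT.lf (nat_lit 0) (nat_lit 9186932623) (nat_lit 76) (nat_lit 14468148143) (nat_lit 76) (nat_lit 1776781547) (nat_lit 16) (nat_lit 4) (nat_lit 17) (nat_lit 5) (nat_lit 17) (nat_lit 4) (nat_lit 361) (nat_lit 289) (nat_lit 250)) (XT.lf (nat_lit 0) (nat_lit 2789480663) (nat_lit 152) (nat_lit 7078869387) (nat_lit 76) (nat_lit 16569770138) (nat_lit 15) (nat_lit 5) (nat_lit 17) (nat_lit 5) (nat_lit 16) (nat_lit 4) (nat_lit 362) (nat_lit 289) (nat_lit 249))))) (XT.nd (nat_lit 234) (nat_lit 152) (nat_lit 0) (XT.nd (nat_lit 78) (nat_lit 0) (nat_lit 0) (XT.lf (nat_lit 0) (nat_lit 2489319120)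 (nat_lit 76) (nat_lit 5016786901) (nat_lit 152) (nat_lit 19988056671) (nat_lit 14) (nat_lit 5) (nat_lit 15) (nat_lit 5) (nat_lit 16) (nat_lit 4) (nat_lit 363) (nat_lit 289) (nat_lit 248)) (XT.nd (nat_lit 78) (nat_lit 0) (nat_lit 0) (XT.lf (nat_lit 0) (nat_lit 12524831292) (nat_lit 152) (nat_lit 15925558393) (nat_lit 0) (nat_lit 149319624) (nat_lit 14) (nat_lit 5) (nat_lit 16) (nat_lit 4) (nat_lit 14) (nat_lit 4) (nat_lit 364) (nat_lit 289) (nat_lit 247)) (XT.lf (nat_lit 0) (nat_lit 17822650980) (nat_lit 152) (nat_lit 6576505322) (nat_lit 0) (nat_lit 5359983734) (nat_lit 14) (nat_lit 5) (nat_lit 16) (nat_lit 4) (nat_lit 14) (nat_lit 4) (nat_lit 365) (nat_lit 289) (nat_lit 246)))) (XT.nd (nat_lit 78) (nat_lit 76) (nat_lit 0) (XT.lf (nat_lit 0) (nat_lit 3246819907) (nat_lit 76) (nat_lit 20137724891) (nat_lit 76) (nat_lit 7592052331) (nat_lit 13) (nat_lit 4) (nat_lit 14) (nat_lit 5) (nat_lit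 14) (nat_lit 4) (nat_lit 366) (nat_lit 289) (nat_lit 245)) (XT.nd (nat_lit 78) (nat_lit 76) (nat_lit 0) (XT.lf (nat_lit 0) (nat_lit 13694099916) (nat_lit 76) (nat_lit 15591262140) (nat_lit 76) (nat_lit 2966536901) (nat_lit 13) (nat_lit 4) (nat_lit 14) (nat_lit 5) (nat_lit 14) (nat_lit 4) (nat_lit 367) (nat_lit 289) (nat_lit 244)) (XT.lf (nat_lit 0) (nat_lit 1780812365) (nat_lit 152) (nat_lit 9049348156) (nat_lit 76) (nat_lit 22761788932) (nat_lit 12) (nat_lit 5) (nat_lit 14) (nat_lit 5) (nat_lit 13) (nat_lit 4) (nat_lit 368) (nat_lit 289) (nat_lit 243))))))))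
noncomputable def xc71 : XT := (XT.nd (nat_lit 1716) (nat_lit 228) (nat_lit 0) (XT.nd (nat_lit 858) (nat_lit 228) (nat_lit 0) (XT.nd (nat_lit 390) (nat_lit 152) (nat_lit 0) (XT.nd (nat_lit 156) (nat_lit 76) (nat_lit 0) (XT.nd (nat_lit 78) (nat_lit 0) (nat_lit 0) (XT.lf (nat_lit 0) (nat_lit 824064901) (nat_lit 76) (nat_lit 5808023643) (nat_lit 152) (nat_lit 28366181119) (nat_lit 11) (nat_lit 5) (nat_lit 12) (nat_lit 5) (nat_lit 13) (nat_lit 4) (nat_lit 369) (nat_lit 289) (nat_lit 242)) (XT.lf (nat_lit 0) (nat_lit 11418540345) (nat_lit 76) (nat_lit 414896551) (nat_lit 152) (nat_lit 24636104531) (nat_lit 11) (nat_lit 5) (nat_lit 12) (nat_lit 5) (nat_lit 13) (nat_lit 4) (nat_lit 370) (nat_lit 289) (nat_lit 241))) (XT.nd (nat_lit 78) (nat_lit 76) (nat_lit 0) (XT.lf (nat_lit 0) (nat_lit 17332608420) (nat_lit 152) (nat_lit 15637798899) (nat_lit 0) (nat_lit 5042092108) (nat_lit 11) (nat_lit 5)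 (nat_lit 13) (nat_lit 4) (nat_lit 11) (nat_lit 4) (nat_lit 371) (nat_lit 289) (nat_lit 240)) (XT.nd (nat_lit 78) (nat_lit 76) (nat_lit 0) (XT.lf (nat_lit 0) (nat_lit 23071465373) (nat_lit 152) (nat_lit 5840954818) (nat_lit 0) (nat_lit 10721958734) (nat_lit 11) (nat_lit 5) (nat_lit 13) (nat_lit 4) (nat_lit 11) (nat_lit 4) (nat_lit 372) (nat_lit 289) (nat_lit 239)) (XT.lf (nat_lit 0) (nat_lit 4513804614) (nat_lit 76) (nat_lit 24613862528) (nat_lit 76) (nat_lit 12208174625) (nat_lit 10) (nat_lit 4) (nat_lit 11) (nat_lit 5) (nat_lit 11) (nat_lit 4) (nat_lit 373) (nat_lit 289) (nat_lit 238))))) (XT.nd (nat_lit 234) (nat_lit 76) (nat_lit 0) (XT.nd (nat_lit 78) (nat_lit 76) (nat_lit 0) (XT.lf (nat_lit 0) (nat_lit 15513922197) (nat_lit 76) (nat_lit 20032339647) (nat_lit 76) (nat_lit 7573145779) (nat_lit 10) (nat_lit 4) (nat_lit 11) (nat_lit 5) (nat_lit 11) (nat_lit 4) (nat_lit 374) (nat_lit 289)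 (nat_lit 237)) (XT.nd (nat_lit 78) (nat_lit 76) (nat_lit 0) (XT.lf (nat_lit 0) (nat_lit 26992460343) (nat_lit 76) (nat_lit 15255862557) (nat_lit 76) (nat_lit 2745710628) (nat_lit 10) (nat_lit 4) (nat_lit 11) (nat_lit 5) (nat_lit 11) (nat_lit 4) (nat_lit 375) (nat_lit 289) (nat_lit 236)) (XT.lf (nat_lit 0) (nat_lit 2212470456) (nat_lit 152) (nat_lit 8023118981) (nat_lit 76) (nat_lit 36726809189) (nat_lit 9) (nat_lit 5) (nat_lit 11) (nat_lit 5) (nat_lit 10) (nat_lit 4) (nat_lit 376) (nat_lit 289) (nat_lit 235)))) (XT.nd (nat_lit 78) (nat_lit 0) (nat_lit 0) (XT.lf (nat_lit 0) (nat_lit 2420642332) (nat_lit 76) (nat_lit 4908892406) (nat_lit 152) (nat_lit 41697241675) (nat_lit 8) (nat_lit 5) (nat_lit 9) (nat_lit 5) (nat_lit 10) (nat_lit 4) (nat_lit 377) (nat_lit 289) (nat_lit 234)) (XT.nd (nat_lit 78) (nat_lit 0) (nat_lit 0) (XT.lf (nat_lit 0) (nat_lit 12816835863) (nat_lit 152) (nat_lit 37601582934)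 (nat_lit 0) (nat_lit 770242175) (nat_lit 8) (nat_lit 5) (nat_lit 10) (nat_lit 4) (nat_lit 8) (nat_lit 4) (nat_lit 378) (nat_lit 289) (nat_lit 233)) (XT.lf (nat_lit 0) (nat_lit 18626213239) (nat_lit 152) (nat_lit 28290355113) (nat_lit 0) (nat_lit 6539692576) (nat_lit 8) (nat_lit 5) (nat_lit 10) (nat_lit 4) (nat_lit 8) (nat_lit 4) (nat_lit 379) (nat_lit 289) (nat_lit 232)))))) (XT.nd (nat_lit 390) (nat_lit 152) (nat_lit 0) (XT.nd (nat_lit 156) (nat_lit 76) (nat_lit 0) (XT.nd (nat_lit 78) (nat_lit 0) (nat_lit 0) (XT.lf (nat_lit 0) (nat_lit 24694857149) (nat_lit 152) (nat_lit 18573639460) (nat_lit 0) (nat_lit 12570310796) (nat_lit 8) (nat_lit 5) (nat_lit 10) (nat_lit 4) (nat_lit 8) (nat_lit 4) (nat_lit 380) (nat_lit 289) (nat_lit 231)) (XT.lf (nat_lit 0) (nat_lit 31037216745) (nat_lit 152) (nat_lit 8428300939) (nat_lit 0) (nat_lit 18876455449) (nat_lit 8) (nat_lit 5) (nat_lit 10) (nat_lit 4)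 (nat_lit 8) (nat_lit 4) (nat_lit 381) (nat_lit 289) (nat_lit 230))) (XT.nd (nat_lit 78) (nat_lit 0) (nat_lit 0) (XT.lf (nat_lit 0) (nat_lit 2241559935) (nat_lit 76) (nat_lit 35461829982) (nat_lit 76) (nat_lit 23266578263) (nat_lit 7) (nat_lit 4) (nat_lit 8) (nat_lit 5) (nat_lit 8) (nat_lit 4) (nat_lit 382) (nat_lit 289) (nat_lit 229)) (XT.nd (nat_lit 78) (nat_lit 0) (nat_lit 0) (XT.lf (nat_lit 0) (nat_lit 13683915787) (nat_lit 76) (nat_lit 31133902569) (nat_lit 76) (nat_lit 18905802829) (nat_lit 7) (nat_lit 4) (nat_lit 8) (nat_lit 5) (nat_lit 8) (nat_lit 4) (nat_lit 383) (nat_lit 289) (nat_lit 228)) (XT.lf (nat_lit 0) (nat_lit 25647332628) (nat_lit 76) (nat_lit 26614168210) (nat_lit 76) (nat_lit 14354784640) (nat_lit 7) (nat_lit 4) (nat_lit 8) (nat_lit 5) (nat_lit 8) (nat_lit 4) (nat_lit 384) (nat_lit 289) (nat_lit 227))))) (XT.nd (nat_lit 234) (nat_lit 76) (nat_lit 0) (XT.nd (nat_lit 78)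 (nat_lit 76) (nat_lit 0) (XT.lf (nat_lit 0) (nat_lit 38160294786) (nat_lit 76) (nat_lit 21891865633) (nat_lit 76) (nat_lit 9602687941) (nat_lit 7) (nat_lit 4) (nat_lit 8) (nat_lit 5) (nat_lit 8) (nat_lit 4) (nat_lit 385) (nat_lit 289) (nat_lit 226)) (XT.nd (nat_lit 78) (nat_lit 76) (nat_lit 0) (XT.lf (nat_lit 0) (nat_lit 51252595025) (nat_lit 76) (nat_lit 16955751262) (nat_lit 76) (nat_lit 4638198213) (nat_lit 7) (nat_lit 4) (nat_lit 8) (nat_lit 5) (nat_lit 8) (nat_lit 4) (nat_lit 386) (nat_lit 289) (nat_lit 225)) (XT.lf (nat_lit 0) (nat_lit 532885164) (nat_lit 152) (nat_lit 11252162609) (nat_lit 76) (nat_lit 64413495659) (nat_lit 6) (nat_lit 5) (nat_lit 8) (nat_lit 5) (nat_lit 7) (nat_lit 4) (nat_lit 387) (nat_lit 289) (nat_lit 224)))) (XT.nd (nat_lit 78) (nat_lit 76) (nat_lit 0) (XT.lf (nat_lit 0) (nat_lit 5784512898) (nat_lit 152) (nat_lit 512063038) (nat_lit 76) (nat_lit 73418875499)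 (nat_lit 6) (nat_lit 5) (nat_lit 8) (nat_lit 5) (nat_lit 7) (nat_lit 4) (nat_lit 388) (nat_lit 289) (nat_lit 223)) (XT.nd (nat_lit 78) (nat_lit 0) (nat_lit 0) (XT.lf (nat_lit 0) (nat_lit 11078931161) (nat_lit 76) (nat_lit 371682175) (nat_lit 152) (nat_lit 71950000869) (nat_lit 5) (nat_lit 5) (nat_lit 6) (nat_lit 5) (nat_lit 7) (nat_lit 4) (nat_lit 389) (nat_lit 289) (nat_lit 222)) (XT.lf (nat_lit 0) (nat_lit 17479154142) (nat_lit 152) (nat_lit 64134603007) (nat_lit 0) (nat_lit 5652324946) (nat_lit 5) (nat_lit 5) (nat_lit 7) (nat_lit 4) (nat_lit 5) (nat_lit 4) (nat_lit 390) (nat_lit 289) (nat_lit 221))))))) (XT.nd (nat_lit 858) (nat_lit 152) (nat_lit 0) (XT.nd (nat_lit 390) (nat_lit 76) (nat_lit 0) (XT.nd (nat_lit 156) (nat_lit 0) (nat_lit 0) (XT.nd (nat_lit 78) (nat_lit 0) (nat_lit 0) (XT.lf (nat_lit 0) (nat_lit 23795210126) (nat_lit 152) (nat_lit 55583105610) (nat_lit 0) (nat_lit 11947206803)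 (nat_lit 5) (nat_lit 5) (nat_lit 7) (nat_lit 4) (nat_lit 5) (nat_lit 4) (nat_lit 391) (nat_lit 289) (nat_lit 220)) (XT.lf (nat_lit 0) (nat_lit 30408016518) (nat_lit 152) (nat_lit 46641027144) (nat_lit 0) (nat_lit 18539847360) (nat_lit 5) (nat_lit 5) (nat_lit 7) (nat_lit 4) (nat_lit 5) (nat_lit 4) (nat_lit 392) (nat_lit 289) (nat_lit 219))) (XT.nd (nat_lit 78) (nat_lit 0) (nat_lit 0) (XT.lf (nat_lit 0) (nat_lit 37333318096) (nat_lit 152) (nat_lit 37287076949) (nat_lit 0) (nat_lit 25445943380) (nat_lit 5) (nat_lit 5) (nat_lit 7) (nat_lit 4) (nat_lit 5) (nat_lit 4) (nat_lit 393) (nat_lit 289) (nat_lit 218)) (XT.nd (nat_lit 78) (nat_lit 0) (nat_lit 0) (XT.lf (nat_lit 0) (nat_lit 44587603671) (nat_lit 152) (nat_lit 27498983712) (nat_lit 0) (nat_lit 32681937948) (nat_lit 5) (nat_lit 5) (nat_lit 7) (nat_lit 4) (nat_lit 5) (nat_lit 4) (nat_lit 394) (nat_lit 289) (nat_lit 217)) (XT.lf (nat_lit 0)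 (nat_lit 52188145354) (nat_lit 152) (nat_lit 17253442450) (nat_lit 0) (nat_lit 40265059623) (nat_lit 5) (nat_lit 5) (nat_lit 7) (nat_lit 4) (nat_lit 5) (nat_lit 4) (nat_lit 395) (nat_lit 289) (nat_lit 216))))) (XT.nd (nat_lit 234) (nat_lit 0) (nat_lit 0) (XT.nd (nat_lit 78) (nat_lit 76) (nat_lit 0) (XT.lf (nat_lit 0) (nat_lit 60153039671) (nat_lit 152) (nat_lit 6526059019) (nat_lit 0) (nat_lit 48213363457) (nat_lit 5) (nat_lit 5) (nat_lit 7) (nat_lit 4) (nat_lit 5) (nat_lit 4) (nat_lit 396) (nat_lit 289) (nat_lit 215)) (XT.nd (nat_lit 78) (nat_lit 0) (nat_lit 0) (XT.lf (nat_lit 0) (nat_lit 4864399123) (nat_lit 76) (nat_lit 63712798436) (nat_lit 76) (nat_lit 51757321763) (nat_lit 4) (nat_lit 4) (nat_lit 5) (nat_lit 5) (nat_lit 5) (nat_lit 4) (nat_lit 397) (nat_lit 289) (nat_lit 214)) (XT.lf (nat_lit 0) (nat_lit 17022432103) (nat_lit 76) (nat_lit 60495990771) (nat_lit 76) (nat_lit 48525466041)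 (nat_lit 4) (nat_lit 4) (nat_lit 5) (nat_lit 5) (nat_lit 5) (nat_lit 4) (nat_lit 398) (nat_lit 289) (nat_lit 213)))) (XT.nd (nat_lit 78) (nat_lit 0) (nat_lit 0) (XT.lf (nat_lit 0) (nat_lit 29761206635) (nat_lit 76) (nat_lit 57131538596) (nat_lit 76) (nat_lit 45146682383) (nat_lit 4) (nat_lit 4) (nat_lit 5) (nat_lit 5) (nat_lit 5) (nat_lit 4) (nat_lit 399) (nat_lit 289) (nat_lit 212)) (XT.nd (nat_lit 78) (nat_lit 0) (nat_lit 0) (XT.lf (nat_lit 0) (nat_lit 43111053134) (nat_lit 76) (nat_lit 53611431310) (nat_lit 76) (nat_lit 41612926065) (nat_lit 4) (nat_lit 4) (nat_lit 5) (nat_lit 5) (nat_lit 5) (nat_lit 4) (nat_lit 400) (nat_lit 289) (nat_lit 211)) (XT.lf (nat_lit 0) (nat_lit 57103756950) (nat_lit 76) (nat_lit 49927287705) (nat_lit 76) (nat_lit 37915783384) (nat_lit 4) (nat_lit 4) (nat_lit 5) (nat_lit 5) (nat_lit 5) (nat_lit 4) (nat_lit 401) (nat_lit 289) (nat_lit 210)))))) (XT.nd (nat_lit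 468) (nat_lit 152) (nat_lit 0) (XT.nd (nat_lit 234) (nat_lit 0) (nat_lit 0) (XT.nd (nat_lit 78) (nat_lit 0) (nat_lit 0) (XT.lf (nat_lit 0) (nat_lit 71772634043) (nat_lit 76) (nat_lit 46070336012) (nat_lit 76) (nat_lit 34046451617) (nat_lit 4) (nat_lit 4) (nat_lit 5) (nat_lit 5) (nat_lit 5) (nat_lit 4) (nat_lit 402) (nat_lit 289) (nat_lit 209)) (XT.nd (nat_lit 78) (nat_lit 0) (nat_lit 0) (XT.lf (nat_lit 0) (nat_lit 87152610312) (nat_lit 76) (nat_lit 42031393012) (nat_lit 76) (nat_lit 29995718070) (nat_lit 4) (nat_lit 4) (nat_lit 5) (nat_lit 5) (nat_lit 5) (nat_lit 4) (nat_lit 403) (nat_lit 289) (nat_lit 208)) (XT.lf (nat_lit 0) (nat_lit 103280304747) (nat_lit 76) (nat_lit 37800842174) (nat_lit 76) (nat_lit 25753938140) (nat_lit 4) (nat_lit 4) (nat_lit 5) (nat_lit 5) (nat_lit 5) (nat_lit 4) (nat_lit 404) (nat_lit 289) (nat_lit 207)))) (XT.nd (nat_lit 78) (nat_lit 0) (nat_lit 0) (XT.lf (nat_lit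 0) (nat_lit 120194116621) (nat_lit 76) (nat_lit 33368610757) (nat_lit 76) (nat_lit 21311012351) (nat_lit 4) (nat_lit 4) (nat_lit 5) (nat_lit 5) (nat_lit 5) (nat_lit 4) (nat_lit 405) (nat_lit 289) (nat_lit 206)) (XT.nd (nat_lit 78) (nat_lit 0) (nat_lit 0) (XT.lf (nat_lit 0) (nat_lit 137934316915) (nat_lit 76) (nat_lit 28724145831) (nat_lit 76) (nat_lit 16656362307) (nat_lit 4) (nat_lit 4) (nat_lit 5) (nat_lit 5) (nat_lit 5) (nat_lit 4) (nat_lit 406) (nat_lit 289) (nat_lit 205)) (XT.lf (nat_lit 0) (nat_lit 156543144201) (nat_lit 76) (nat_lit 23856389144) (nat_lit 76) (nat_lit 11778905508) (nat_lit 4) (nat_lit 4) (nat_lit 5) (nat_lit 5) (nat_lit 5) (nat_lit 4) (nat_lit 407) (nat_lit 289) (nat_lit 204))))) (XT.nd (nat_lit 234) (nat_lit 76) (nat_lit 0) (XT.nd (nat_lit 78) (nat_lit 76) (nat_lit 0) (XT.lf (nat_lit 0) (nat_lit 176064905210) (nat_lit 76) (nat_lit 18753750801) (nat_lit 76) (nat_lit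 6667028963) (nat_lit 4) (nat_lit 4) (nat_lit 5) (nat_lit 5) (nat_lit 5) (nat_lit 4) (nat_lit 408) (nat_lit 289) (nat_lit 203)) (XT.nd (nat_lit 78) (nat_lit 76) (nat_lit 0) (XT.lf (nat_lit 0) (nat_lit 196546080326) (nat_lit 76) (nat_lit 13404081661) (nat_lit 76) (nat_lit 1308561537) (nat_lit 4) (nat_lit 4) (nat_lit 5) (nat_lit 5) (nat_lit 5) (nat_lit 4) (nat_lit 409) (nat_lit 289) (nat_lit 202)) (XT.lf (nat_lit 0) (nat_lit 4171331953) (nat_lit 152) (nat_lit 3552668941) (nat_lit 76) (nat_lit 213793458773) (nat_lit 3) (nat_lit 5) (nat_lit 5) (nat_lit 5) (nat_lit 4) (nat_lit 4) (nat_lit 410) (nat_lit 289) (nat_lit 201)))) (XT.nd (nat_lit 78) (nat_lit 0) (nat_lit 0) (XT.lf (nat_lit 0) (nat_lit 8397229590) (nat_lit 76) (nat_lit 1607213991) (nat_lit 152) (nat_lit 222277457739) (nat_lit 2) (nat_lit 5) (nat_lit 3) (nat_lit 5) (nat_lit 4) (nat_lit 4) (nat_lit 411) (nat_lit 289) (nat_lit 200)) (XT.nd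 (nat_lit 78) (nat_lit 0) (nat_lit 0) (XT.lf (nat_lit 0) (nat_lit 16257665726) (nat_lit 152) (nat_lit 222605174021) (nat_lit 0) (nat_lit 4715303781) (nat_lit 2) (nat_lit 5) (nat_lit 4) (nat_lit 4) (nat_lit 2) (nat_lit 4) (nat_lit 412) (nat_lit 289) (nat_lit 199)) (XT.lf (nat_lit 0) (nat_lit 22842392328) (nat_lit 152) (nat_lit 221302727819) (nat_lit 0) (nat_lit 11293136694) (nat_lit 2) (nat_lit 5) (nat_lit 4) (nat_lit 4) (nat_lit 2) (nat_lit 4) (nat_lit 413) (nat_lit 289) (nat_lit 198))))))))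
noncomputable def xc72 : XT := (XT.nd (nat_lit 39702) (nat_lit 0) (nat_lit 2280) (XT.nd (nat_lit 858) (nat_lit 0) (nat_lit 0) (XT.nd (nat_lit 390) (nat_lit 0) (nat_lit 0) (XT.nd (nat_lit 156) (nat_lit 0) (nat_lit 0) (XT.nd (nat_lit 78) (nat_lit 0) (nat_lit 0) (XT.lf (nat_lit 0) (nat_lit 29749208192) (nat_lit 152) (nat_lit 219949138947) (nat_lit 0) (nat_lit 18193387141) (nat_lit 2) (nat_lit 5) (nat_lit 4) (nat_lit 4) (nat_lit 2) (nat_lit 4) (nat_lit 414) (nat_lit 289) (nat_lit 197)) (XT.lf (nat_lit 0) (nat_lit 36994558117) (nat_lit 152) (nat_lit 218541184575) (nat_lit 0) (nat_lit 25432484288) (nat_lit 2) (nat_lit 5) (nat_lit 4) (nat_lit 4) (nat_lit 2) (nat_lit 4) (nat_lit 415) (nat_lit 289) (nat_lit 196))) (XT.nd (nat_lit 78) (nat_lit 0) (nat_lit 0) (XT.lf (nat_lit 0) (nat_lit 44595692938) (nat_lit 152) (nat_lit 217075512431) (nat_lit 0) (nat_lit 33027664081) (nat_lit 2) (nat_lit 5) (nat_lit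 4) (nat_lit 4) (nat_lit 2) (nat_lit 4) (nat_lit 416) (nat_lit 289) (nat_lit 195)) (XT.nd (nat_lit 78) (nat_lit 0) (nat_lit 0) (XT.lf (nat_lit 0) (nat_lit 52570710593) (nat_lit 152) (nat_lit 215548632818) (nat_lit 0) (nat_lit 40997010282) (nat_lit 2) (nat_lit 5) (nat_lit 4) (nat_lit 4) (nat_lit 2) (nat_lit 4) (nat_lit 417) (nat_lit 289) (nat_lit 194)) (XT.lf (nat_lit 0) (nat_lit 60938599221) (nat_lit 152) (nat_lit 213956910309) (nat_lit 0) (nat_lit 49359497525) (nat_lit 2) (nat_lit 5) (nat_lit 4) (nat_lit 4) (nat_lit 2) (nat_lit 4) (nat_lit 418) (nat_lit 289) (nat_lit 193))))) (XT.nd (nat_lit 234) (nat_lit 0) (nat_lit 0) (XT.nd (nat_lit 78) (nat_lit 0) (nat_lit 0) (XT.lf (nat_lit 0) (nat_lit 69719282365) (nat_lit 152) (nat_lit 212296555089) (nat_lit 0) (nat_lit 58135036492) (nat_lit 2) (nat_lit 5) (nat_lit 4) (nat_lit 4) (nat_lit 2) (nat_lit 4) (nat_lit 419) (nat_lit 289) (nat_lit 192))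 (XT.nd (nat_lit 78) (nat_lit 0) (nat_lit 0) (XT.lf (nat_lit 0) (nat_lit 78933666414) (nat_lit 152) (nat_lit 210563613931) (nat_lit 0) (nat_lit 67344521326) (nat_lit 2) (nat_lit 5) (nat_lit 4) (nat_lit 4) (nat_lit 2) (nat_lit 4) (nat_lit 420) (nat_lit 289) (nat_lit 191)) (XT.lf (nat_lit 0) (nat_lit 88603690378) (nat_lit 152) (nat_lit 208753960784) (nat_lit 0) (nat_lit 77009879370) (nat_lit 2) (nat_lit 5) (nat_lit 4) (nat_lit 4) (nat_lit 2) (nat_lit 4) (nat_lit 421) (nat_lit 289) (nat_lit 190)))) (XT.nd (nat_lit 78) (nat_lit 0) (nat_lit 0) (XT.lf (nat_lit 0) (nat_lit 98752378123) (nat_lit 152) (nat_lit 206863286951) (nat_lit 0) (nat_lit 87154123383) (nat_lit 2) (nat_lit 5) (nat_lit 4) (nat_lit 4) (nat_lit 2) (nat_lit 4) (nat_lit 422) (nat_lit 289) (nat_lit 189)) (XT.nd (nat_lit 78) (nat_lit 0) (nat_lit 0) (XT.lf (nat_lit 0) (nat_lit 109403893192) (nat_lit 152) (nat_lit 204887090827) (nat_lit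 0) (nat_lit 97801406325) (nat_lit 2) (nat_lit 5) (nat_lit 4) (nat_lit 4) (nat_lit 2) (nat_lit 4) (nat_lit 423) (nat_lit 289) (nat_lit 188)) (XT.lf (nat_lit 0) (nat_lit 120583596334) (nat_lit 152) (nat_lit 202820667183) (nat_lit 0) (nat_lit 108977078870) (nat_lit 2) (nat_lit 5) (nat_lit 4) (nat_lit 4) (nat_lit 2) (nat_lit 4) (nat_lit 424) (nat_lit 289) (nat_lit 187)))))) (XT.nd (nat_lit 390) (nat_lit 0) (nat_lit 0) (XT.nd (nat_lit 156) (nat_lit 0) (nat_lit 0) (XT.nd (nat_lit 78) (nat_lit 0) (nat_lit 0) (XT.lf (nat_lit 0) (nat_lit 132318105891) (nat_lit 152) (nat_lit 200659095964) (nat_lit 0) (nat_lit 120707749763) (nat_lit 2) (nat_lit 5) (nat_lit 4) (nat_lit 4) (nat_lit 2) (nat_lit 4) (nat_lit 425) (nat_lit 289) (nat_lit 186)) (XT.lf (nat_lit 0) (nat_lit 144635361171) (nat_lit 152) (nat_lit 198397230570) (nat_lit 0) (nat_lit 133021349173) (nat_lit 2) (nat_lit 5) (nat_lit 4) (nat_lit 4) (nat_lit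 2) (nat_lit 4) (nat_lit 426) (nat_lit 289) (nat_lit 185))) (XT.nd (nat_lit 78) (nat_lit 0) (nat_lit 0) (XT.lf (nat_lit 0) (nat_lit 157564688972) (nat_lit 152) (nat_lit 196029685609) (nat_lit 0) (nat_lit 145947195193) (nat_lit 2) (nat_lit 5) (nat_lit 4) (nat_lit 4) (nat_lit 2) (nat_lit 4) (nat_lit 427) (nat_lit 289) (nat_lit 184)) (XT.nd (nat_lit 78) (nat_lit 0) (nat_lit 0) (XT.lf (nat_lit 0) (nat_lit 171136873408) (nat_lit 152) (nat_lit 193550824068) (nat_lit 0) (nat_lit 159516063647) (nat_lit 2) (nat_lit 5) (nat_lit 4) (nat_lit 4) (nat_lit 2) (nat_lit 4) (nat_lit 428) (nat_lit 289) (nat_lit 183)) (XT.lf (nat_lit 0) (nat_lit 185384229204) (nat_lit 152) (nat_lit 190954743896) (nat_lit 0) (nat_lit 173760261365) (nat_lit 2) (nat_lit 5) (nat_lit 4) (nat_lit 4) (nat_lit 2) (nat_lit 4) (nat_lit 429) (nat_lit 289) (nat_lit 182))))) (XT.nd (nat_lit 234) (nat_lit 0) (nat_lit 0) (XT.nd (nat_lit 78)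 (nat_lit 0) (nat_lit 0) (XT.lf (nat_lit 0) (nat_lit 200340678635) (nat_lit 152) (nat_lit 188235263949) (nat_lit 0) (nat_lit 188713703103) (nat_lit 2) (nat_lit 5) (nat_lit 4) (nat_lit 4) (nat_lit 2) (nat_lit 4) (nat_lit 430) (nat_lit 289) (nat_lit 181)) (XT.nd (nat_lit 78) (nat_lit 0) (nat_lit 0) (XT.lf (nat_lit 0) (nat_lit 216041832296) (nat_lit 152) (nat_lit 185385909276) (nat_lit 0) (nat_lit 204411992294) (nat_lit 2) (nat_lit 5) (nat_lit 4) (nat_lit 4) (nat_lit 2) (nat_lit 4) (nat_lit 431) (nat_lit 289) (nat_lit 180)) (XT.lf (nat_lit 0) (nat_lit 232525073886) (nat_lit 152) (nat_lit 182399895699) (nat_lit 0) (nat_lit 220892505817) (nat_lit 2) (nat_lit 5) (nat_lit 4) (nat_lit 4) (nat_lit 2) (nat_lit 4) (nat_lit 432) (nat_lit 289) (nat_lit 179)))) (XT.nd (nat_lit 38064) (nat_lit 0) (nat_lit 5928) (XT.lf (nat_lit 0) (nat_lit 249829649217) (nat_lit 152) (nat_lit 179270113662) (nat_lit 0) (nat_lit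 238194482990) (nat_lit 2) (nat_lit 5) (nat_lit 4) (nat_lit 4) (nat_lit 2) (nat_lit 4) (nat_lit 433) (nat_lit 289) (nat_lit 178)) (XT.nd (nat_lit 78) (nat_lit 380) (nat_lit 0) (XT.lf (nat_lit 0) (nat_lit 1047341993) (nat_lit 380) (nat_lit 1741292232) (nat_lit 0) (nat_lit 1047341993) (nat_lit 85) (nat_lit 5) (nat_lit 90) (nat_lit 4) (nat_lit 85) (nat_lit 4) (nat_lit 320) (nat_lit 290) (nat_lit 290)) (XT.lf (nat_lit 0) (nat_lit 2248208053) (nat_lit 380) (nat_lit 3447373883) (nat_lit 380) (nat_lit 2108018150) (nat_lit 80) (nat_lit 4) (nat_lit 85) (nat_lit 5) (nat_lit 85) (nat_lit 4) (nat_lit 321) (nat_lit 290) (nat_lit 289))))))) (XT.nd (nat_lit 858) (nat_lit 1292) (nat_lit 0) (XT.nd (nat_lit 390) (nat_lit 1368) (nat_lit 0) (XT.nd (nat_lit 156) (nat_lit 608) (nat_lit 0) (XT.nd (nat_lit 78) (nat_lit 0) (nat_lit 0) (XT.lf (nat_lit 0) (nat_lit 234942772) (nat_lit 304) (nat_lit 1155240346) (nat_lit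 380) (nat_lit 6555423246) (nat_lit 75) (nat_lit 5) (nat_lit 79) (nat_lit 5) (nat_lit 80) (nat_lit 4) (nat_lit 322) (nat_lit 290) (nat_lit 288)) (XT.lf (nat_lit 0) (nat_lit 4952595704) (nat_lit 380) (nat_lit 1837379258) (nat_lit 0) (nat_lit 1305197843) (nat_lit 75) (nat_lit 5) (nat_lit 80) (nat_lit 4) (nat_lit 75) (nat_lit 4) (nat_lit 323) (nat_lit 290) (nat_lit 287))) (XT.nd (nat_lit 78) (nat_lit 228) (nat_lit 0) (XT.lf (nat_lit 0) (nat_lit 363362575) (nat_lit 380) (nat_lit 4004395857) (nat_lit 76) (nat_lit 3887463615) (nat_lit 70) (nat_lit 5) (nat_lit 75) (nat_lit 5) (nat_lit 71) (nat_lit 4) (nat_lit 324) (nat_lit 290) (nat_lit 286)) (XT.nd (nat_lit 78) (nat_lit 0) (nat_lit 0) (XT.lf (nat_lit 0) (nat_lit 2109156577) (nat_lit 228) (nat_lit 1748339021) (nat_lit 304) (nat_lit 4567445303) (nat_lit 67) (nat_lit 5) (nat_lit 70) (nat_lit 5) (nat_lit 71) (nat_lit 4) (nat_lit 325) (nat_lit 290)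 (nat_lit 285)) (XT.lf (nat_lit 0) (nat_lit 7468137753) (nat_lit 304) (nat_lit 144375955) (nat_lit 0) (nat_lit 993702257) (nat_lit 67) (nat_lit 5) (nat_lit 71) (nat_lit 4) (nat_lit 67) (nat_lit 4) (nat_lit 326) (nat_lit 290) (nat_lit 284))))) (XT.nd (nat_lit 234) (nat_lit 456) (nat_lit 0) (XT.nd (nat_lit 78) (nat_lit 532) (nat_lit 0) (XT.lf (nat_lit 0) (nat_lit 2375059679) (nat_lit 380) (nat_lit 2512091832) (nat_lit 76) (nat_lit 3908069917) (nat_lit 62) (nat_lit 5) (nat_lit 67) (nat_lit 5) (nat_lit 63) (nat_lit 4) (nat_lit 327) (nat_lit 290) (nat_lit 283)) (XT.nd (nat_lit 78) (nat_lit 304) (nat_lit 0) (XT.lf (nat_lit 0) (nat_lit 3964078616) (nat_lit 228) (nat_lit 1991240134) (nat_lit 304) (nat_lit 3041078557) (nat_lit 59) (nat_lit 5) (nat_lit 62) (nat_lit 5) (nat_lit 63) (nat_lit 4) (nat_lit 328) (nat_lit 290) (nat_lit 282)) (XT.lf (nat_lit 0) (nat_lit 440656966) (nat_lit 304) (nat_lit 7731484703)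 (nat_lit 76) (nat_lit 1037724028) (nat_lit 55) (nat_lit 5) (nat_lit 59) (nat_lit 5) (nat_lit 56) (nat_lit 4) (nat_lit 329) (nat_lit 290) (nat_lit 281)))) (XT.nd (nat_lit 78) (nat_lit 456) (nat_lit 0) (XT.lf (nat_lit 0) (nat_lit 3982706872) (nat_lit 304) (nat_lit 1216085785) (nat_lit 76) (nat_lit 4233420459) (nat_lit 55) (nat_lit 5) (nat_lit 59) (nat_lit 5) (nat_lit 56) (nat_lit 4) (nat_lit 330) (nat_lit 290) (nat_lit 280)) (XT.nd (nat_lit 78) (nat_lit 304) (nat_lit 0) (XT.lf (nat_lit 0) (nat_lit 5622395051) (nat_lit 152) (nat_lit 2042638542) (nat_lit 228) (nat_lit 2002599584) (nat_lit 53) (nat_lit 5) (nat_lit 55) (nat_lit 5) (nat_lit 56) (nat_lit 4) (nat_lit 331) (nat_lit 290) (nat_lit 279)) (XT.lf (nat_lit 0) (nat_lit 1526549996) (nat_lit 304) (nat_lit 7125229149) (nat_lit 76) (nat_lit 1263804432) (nat_lit 49) (nat_lit 5) (nat_lit 53) (nat_lit 5) (nat_lit 50) (nat_lit 4) (nat_lit 332)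 (nat_lit 290) (nat_lit 278)))))) (XT.nd (nat_lit 468) (nat_lit 456) (nat_lit 0) (XT.nd (nat_lit 234) (nat_lit 380) (nat_lit 0) (XT.nd (nat_lit 78) (nat_lit 456) (nat_lit 0) (XT.lf (nat_lit 0) (nat_lit 5146515052) (nat_lit 304) (nat_lit 317875078) (nat_lit 76) (nat_lit 4710915435) (nat_lit 49) (nat_lit 5) (nat_lit 53) (nat_lit 5) (nat_lit 50) (nat_lit 4) (nat_lit 333) (nat_lit 290) (nat_lit 277)) (XT.nd (nat_lit 78) (nat_lit 304) (nat_lit 0) (XT.lf (nat_lit 0) (nat_lit 6872575198) (nat_lit 152) (nat_lit 2066528510) (nat_lit 228) (nat_lit 1509422453) (nat_lit 47) (nat_lit 5) (nat_lit 49) (nat_lit 5) (nat_lit 50) (nat_lit 4) (nat_lit 334) (nat_lit 290) (nat_lit 276)) (XT.lf (nat_lit 0) (nat_lit 2086840797) (nat_lit 304) (nat_lit 7159231008) (nat_lit 76) (nat_lit 1489170144) (nat_lit 43) (nat_lit 5) (nat_lit 47) (nat_lit 5) (nat_lit 44) (nat_lit 4) (nat_lit 335) (nat_lit 290) (nat_lit 275))))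 (XT.nd (nat_lit 78) (nat_lit 380) (nat_lit 0) (XT.lf (nat_lit 0) (nat_lit 5794536934) (nat_lit 304) (nat_lit 63243018) (nat_lit 76) (nat_lit 5178240041) (nat_lit 43) (nat_lit 5) (nat_lit 47) (nat_lit 5) (nat_lit 44) (nat_lit 4) (nat_lit 336) (nat_lit 290) (nat_lit 274)) (XT.nd (nat_lit 78) (nat_lit 228) (nat_lit 0) (XT.lf (nat_lit 0) (nat_lit 7454632050) (nat_lit 152) (nat_lit 2241673948) (nat_lit 228) (nat_lit 1655173684) (nat_lit 41) (nat_lit 5) (nat_lit 43) (nat_lit 5) (nat_lit 44) (nat_lit 4) (nat_lit 337) (nat_lit 290) (nat_lit 273)) (XT.lf (nat_lit 0) (nat_lit 2017574453) (nat_lit 228) (nat_lit 8131261735) (nat_lit 76) (nat_lit 1533565099) (nat_lit 38) (nat_lit 5) (nat_lit 41) (nat_lit 5) (nat_lit 39) (nat_lit 4) (nat_lit 338) (nat_lit 290) (nat_lit 272))))) (XT.nd (nat_lit 234) (nat_lit 76) (nat_lit 0) (XT.nd (nat_lit 78) (nat_lit 380) (nat_lit 0) (XT.lf (nat_lit 0) (nat_lit 5816592380)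 (nat_lit 228) (nat_lit 758566218) (nat_lit 76) (nat_lit 5453507465) (nat_lit 38) (nat_lit 5) (nat_lit 41) (nat_lit 5) (nat_lit 39) (nat_lit 4) (nat_lit 339) (nat_lit 290) (nat_lit 271)) (XT.nd (nat_lit 78) (nat_lit 228) (nat_lit 0) (XT.lf (nat_lit 0) (nat_lit 7042601581) (nat_lit 152) (nat_lit 2772372876) (nat_lit 228) (nat_lit 2576862430) (nat_lit 36) (nat_lit 5) (nat_lit 38) (nat_lit 5) (nat_lit 39) (nat_lit 4) (nat_lit 340) (nat_lit 290) (nat_lit 270)) (XT.lf (nat_lit 0) (nat_lit 1169795524) (nat_lit 228) (nat_lit 10415992935) (nat_lit 76) (nat_lit 1187998416) (nat_lit 33) (nat_lit 5) (nat_lit 36) (nat_lit 5) (nat_lit 34) (nat_lit 4) (nat_lit 341) (nat_lit 290) (nat_lit 269)))) (XT.nd (nat_lit 78) (nat_lit 76) (nat_lit 0) (XT.lf (nat_lit 0) (nat_lit 5055924332) (nat_lit 228) (nat_lit 2791090004) (nat_lit 76) (nat_lit 5323825802) (nat_lit 33) (nat_lit 5) (nat_lit 36) (nat_lit 5) (nat_lit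 34) (nat_lit 4) (nat_lit 342) (nat_lit 290) (nat_lit 268)) (XT.nd (nat_lit 78) (nat_lit 0) (nat_lit 0) (XT.lf (nat_lit 0) (nat_lit 5222697228) (nat_lit 76) (nat_lit 3901119192) (nat_lit 152) (nat_lit 4464609021) (nat_lit 32) (nat_lit 5) (nat_lit 33) (nat_lit 5) (nat_lit 34) (nat_lit 4) (nat_lit 343) (nat_lit 290) (nat_lit 267)) (XT.lf (nat_lit 0) (nat_lit 13353858426) (nat_lit 152) (nat_lit 455592882) (nat_lit 0) (nat_lit 219550667) (nat_lit 32) (nat_lit 5) (nat_lit 34) (nat_lit 4) (nat_lit 32) (nat_lit 4) (nat_lit 344) (nat_lit 290) (nat_lit 266))))))))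
noncomputable def xc73 : XT := (XT.nd (nat_lit 1716) (nat_lit 684) (nat_lit 0) (XT.nd (nat_lit 858) (nat_lit 456) (nat_lit 0) (XT.nd (nat_lit 390) (nat_lit 380) (nat_lit 0) (XT.nd (nat_lit 156) (nat_lit 228) (nat_lit 0) (XT.nd (nat_lit 78) (nat_lit 76) (nat_lit 0) (XT.lf (nat_lit 0) (nat_lit 3298053470) (nat_lit 228) (nat_lit 6654383597) (nat_lit 76) (nat_lit 4531636285) (nat_lit 29) (nat_lit 5) (nat_lit 32) (nat_lit 5) (nat_lit 30) (nat_lit 4) (nat_lit 345) (nat_lit 290) (nat_lit 265)) (XT.lf (nat_lit 0) (nat_lit 1465829768) (nat_lit 76) (nat_lit 5923888969) (nat_lit 152) (nat_lit 7574544242) (nat_lit 28) (nat_lit 5) (nat_lit 29) (nat_lit 5) (nat_lit 30) (nat_lit 4) (nat_lit 346) (nat_lit 290) (nat_lit 264))) (XT.nd (nat_lit 78) (nat_lit 228) (nat_lit 0) (XT.lf (nat_lit 0) (nat_lit 10072121002) (nat_lit 76) (nat_lit 1640155797) (nat_lit 152) (nat_lit 3754910727) (nat_lit 28) (nat_lit 5)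 (nat_lit 29) (nat_lit 5) (nat_lit 30) (nat_lit 4) (nat_lit 347) (nat_lit 290) (nat_lit 263)) (XT.nd (nat_lit 78) (nat_lit 0) (nat_lit 0) (XT.lf (nat_lit 0) (nat_lit 256134884) (nat_lit 228) (nat_lit 12980503124) (nat_lit 76) (nat_lit 2758027060) (nat_lit 25) (nat_lit 5) (nat_lit 28) (nat_lit 5) (nat_lit 26) (nat_lit 4) (nat_lit 348) (nat_lit 290) (nat_lit 262)) (XT.lf (nat_lit 0) (nat_lit 4378398174) (nat_lit 228) (nat_lit 4750101188) (nat_lit 76) (nat_lit 7415131924) (nat_lit 25) (nat_lit 5) (nat_lit 28) (nat_lit 5) (nat_lit 26) (nat_lit 4) (nat_lit 349) (nat_lit 290) (nat_lit 261))))) (XT.nd (nat_lit 234) (nat_lit 152) (nat_lit 0) (XT.nd (nat_lit 78) (nat_lit 152) (nat_lit 0) (XT.lf (nat_lit 0) (nat_lit 3875511005) (nat_lit 76) (nat_lit 4812820089) (nat_lit 152) (nat_lit 8432670557) (nat_lit 24) (nat_lit 5) (nat_lit 25) (nat_lit 5) (nat_lit 26) (nat_lit 4) (nat_lit 350) (nat_lit 290)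 (nat_lit 260)) (XT.nd (nat_lit 78) (nat_lit 152) (nat_lit 0) (XT.lf (nat_lit 0) (nat_lit 12959229916) (nat_lit 76) (nat_lit 257628541) (nat_lit 152) (nat_lit 4510259245) (nat_lit 24) (nat_lit 5) (nat_lit 25) (nat_lit 5) (nat_lit 26) (nat_lit 4) (nat_lit 351) (nat_lit 290) (nat_lit 259)) (XT.lf (nat_lit 0) (nat_lit 4058518469) (nat_lit 152) (nat_lit 13972744130) (nat_lit 152) (nat_lit 329334967) (nat_lit 22) (nat_lit 4) (nat_lit 24) (nat_lit 5) (nat_lit 24) (nat_lit 4) (nat_lit 352) (nat_lit 290) (nat_lit 258)))) (XT.nd (nat_lit 78) (nat_lit 76) (nat_lit 0) (XT.lf (nat_lit 0) (nat_lit 3942657380) (nat_lit 228) (nat_lit 5733523619) (nat_lit 76) (nat_lit 9345828845) (nat_lit 21) (nat_lit 5) (nat_lit 24) (nat_lit 5) (nat_lit 22) (nat_lit 4) (nat_lit 353) (nat_lit 290) (nat_lit 257)) (XT.nd (nat_lit 78) (nat_lit 0) (nat_lit 0) (XT.lf (nat_lit 0) (nat_lit 3233318687) (nat_lit 76) (nat_lit 5163576326)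 (nat_lit 152) (nat_lit 11320368475) (nat_lit 20) (nat_lit 5) (nat_lit 21) (nat_lit 5) (nat_lit 22) (nat_lit 4) (nat_lit 354) (nat_lit 290) (nat_lit 256)) (XT.lf (nat_lit 0) (nat_lit 12721397900) (nat_lit 76) (nat_lit 380179118) (nat_lit 152) (nat_lit 7344341290) (nat_lit 20) (nat_lit 5) (nat_lit 21) (nat_lit 5) (nat_lit 22) (nat_lit 4) (nat_lit 355) (nat_lit 290) (nat_lit 255)))))) (XT.nd (nat_lit 390) (nat_lit 228) (nat_lit 0) (XT.nd (nat_lit 156) (nat_lit 76) (nat_lit 0) (XT.nd (nat_lit 78) (nat_lit 76) (nat_lit 0) (XT.lf (nat_lit 0) (nat_lit 1320007769) (nat_lit 76) (nat_lit 16747666301) (nat_lit 76) (nat_lit 3142046675) (nat_lit 19) (nat_lit 4) (nat_lit 20) (nat_lit 5) (nat_lit 20) (nat_lit 4) (nat_lit 356) (nat_lit 290) (nat_lit 254)) (XT.lf (nat_lit 0) (nat_lit 1302194634) (nat_lit 152) (nat_lit 11071327534) (nat_lit 76) (nat_lit 9633596561) (nat_lit 18) (nat_lit 5) (nat_lit 20) (nat_lit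 5) (nat_lit 19) (nat_lit 4) (nat_lit 357) (nat_lit 290) (nat_lit 253))) (XT.nd (nat_lit 78) (nat_lit 76) (nat_lit 0) (XT.lf (nat_lit 0) (nat_lit 5799527021) (nat_lit 152) (nat_lit 1980564626) (nat_lit 76) (nat_lit 15064916563) (nat_lit 18) (nat_lit 5) (nat_lit 20) (nat_lit 5) (nat_lit 19) (nat_lit 4) (nat_lit 358) (nat_lit 290) (nat_lit 252)) (XT.nd (nat_lit 78) (nat_lit 0) (nat_lit 0) (XT.lf (nat_lit 0) (nat_lit 7699715559) (nat_lit 76) (nat_lit 2881722114) (nat_lit 152) (nat_lit 13140388590) (nat_lit 17) (nat_lit 5) (nat_lit 18) (nat_lit 5) (nat_lit 19) (nat_lit 4) (nat_lit 359) (nat_lit 290) (nat_lit 251)) (XT.lf (nat_lit 0) (nat_lit 15611725604) (nat_lit 152) (nat_lit 6855758653) (nat_lit 0) (nat_lit 2174555619) (nat_lit 17) (nat_lit 5) (nat_lit 19) (nat_lit 4) (nat_lit 17) (nat_lit 4) (nat_lit 360) (nat_lit 290) (nat_lit 250))))) (XT.nd (nat_lit 234) (nat_lit 76) (nat_lit 0) (XT.nd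 (nat_lit 78) (nat_lit 76) (nat_lit 0) (XT.lf (nat_lit 0) (nat_lit 2701602803) (nat_lit 76) (nat_lit 18224089565) (nat_lit 76) (nat_lit 4680981429) (nat_lit 16) (nat_lit 4) (nat_lit 17) (nat_lit 5) (nat_lit 17) (nat_lit 4) (nat_lit 361) (nat_lit 290) (nat_lit 249)) (XT.nd (nat_lit 78) (nat_lit 76) (nat_lit 0) (XT.lf (nat_lit 0) (nat_lit 12870032086) (nat_lit 76) (nat_lit 13695264493) (nat_lit 76) (nat_lit 51262880) (nat_lit 16) (nat_lit 4) (nat_lit 17) (nat_lit 5) (nat_lit 17) (nat_lit 4) (nat_lit 362) (nat_lit 290) (nat_lit 248)) (XT.lf (nat_lit 0) (nat_lit 4601608949) (nat_lit 152) (nat_lit 4306792292) (nat_lit 76) (nat_lit 18767517976) (nat_lit 15) (nat_lit 5) (nat_lit 17) (nat_lit 5) (nat_lit 16) (nat_lit 4) (nat_lit 363) (nat_lit 290) (nat_lit 247)))) (XT.nd (nat_lit 78) (nat_lit 0) (nat_lit 0) (XT.lf (nat_lit 0) (nat_lit 5689385954) (nat_lit 76) (nat_lit 3833048168) (nat_lit 152) (nat_lit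 19263933881) (nat_lit 14) (nat_lit 5) (nat_lit 15) (nat_lit 5) (nat_lit 16) (nat_lit 4) (nat_lit 364) (nat_lit 290) (nat_lit 246)) (XT.nd (nat_lit 78) (nat_lit 0) (nat_lit 0) (XT.lf (nat_lit 0) (nat_lit 14735282936) (nat_lit 152) (nat_lit 13735449725) (nat_lit 0) (nat_lit 1479321435) (nat_lit 14) (nat_lit 5) (nat_lit 16) (nat_lit 4) (nat_lit 14) (nat_lit 4) (nat_lit 365) (nat_lit 290) (nat_lit 245)) (XT.lf (nat_lit 0) (nat_lit 20222555033) (nat_lit 152) (nat_lit 4061152886) (nat_lit 0) (nat_lit 6887540853) (nat_lit 14) (nat_lit 5) (nat_lit 16) (nat_lit 4) (nat_lit 14) (nat_lit 4) (nat_lit 366) (nat_lit 290) (nat_lit 244))))))) (XT.nd (nat_lit 858) (nat_lit 304) (nat_lit 0) (XT.nd (nat_lit 390) (nat_lit 152) (nat_lit 0) (XT.nd (nat_lit 156) (nat_lit 152) (nat_lit 0) (XT.nd (nat_lit 78) (nat_lit 0) (nat_lit 0) (XT.lf (nat_lit 0) (nat_lit 6207464770) (nat_lit 76) (nat_lit 19826921875) (nat_lit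 76) (nat_lit 6416619428) (nat_lit 13) (nat_lit 4) (nat_lit 14) (nat_lit 5) (nat_lit 14) (nat_lit 4) (nat_lit 367) (nat_lit 290) (nat_lit 243)) (XT.lf (nat_lit 0) (nat_lit 17043856215) (nat_lit 76) (nat_lit 15115883095) (nat_lit 76) (nat_lit 1633877537) (nat_lit 13) (nat_lit 4) (nat_lit 14) (nat_lit 5) (nat_lit 14) (nat_lit 4) (nat_lit 368) (nat_lit 290) (nat_lit 242))) (XT.nd (nat_lit 78) (nat_lit 76) (nat_lit 0) (XT.lf (nat_lit 0) (nat_lit 3235172413) (nat_lit 152) (nat_lit 6918190786) (nat_lit 76) (nat_lit 25049580701) (nat_lit 12) (nat_lit 5) (nat_lit 14) (nat_lit 5) (nat_lit 13) (nat_lit 4) (nat_lit 369) (nat_lit 290) (nat_lit 241)) (XT.nd (nat_lit 78) (nat_lit 0) (nat_lit 0) (XT.lf (nat_lit 0) (nat_lit 3407221556) (nat_lit 76) (nat_lit 4896462651) (nat_lit 152) (nat_lit 28377178375) (nat_lit 11) (nat_lit 5) (nat_lit 12) (nat_lit 5) (nat_lit 13) (nat_lit 4) (nat_lit 370) (nat_lit 290)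 (nat_lit 240)) (XT.lf (nat_lit 0) (nat_lit 13712361666) (nat_lit 152) (nat_lit 23829599100) (nat_lit 0) (nat_lit 686389369) (nat_lit 11) (nat_lit 5) (nat_lit 13) (nat_lit 4) (nat_lit 11) (nat_lit 4) (nat_lit 371) (nat_lit 290) (nat_lit 239))))) (XT.nd (nat_lit 234) (nat_lit 76) (nat_lit 0) (XT.nd (nat_lit 78) (nat_lit 76) (nat_lit 0) (XT.lf (nat_lit 0) (nat_lit 19431671706) (nat_lit 152) (nat_lit 14070021745) (nat_lit 0) (nat_lit 6349518145) (nat_lit 11) (nat_lit 5) (nat_lit 13) (nat_lit 4) (nat_lit 11) (nat_lit 4) (nat_lit 372) (nat_lit 290) (nat_lit 238)) (XT.nd (nat_lit 78) (nat_lit 76) (nat_lit 0) (XT.lf (nat_lit 0) (nat_lit 25398784227) (nat_lit 152) (nat_lit 3895224370) (nat_lit 0) (nat_lit 12263124701) (nat_lit 11) (nat_lit 5) (nat_lit 13) (nat_lit 4) (nat_lit 11) (nat_lit 4) (nat_lit 373) (nat_lit 290) (nat_lit 237)) (XT.lf (nat_lit 0) (nat_lit 6941179837) (nat_lit 76) (nat_lit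 24795098073) (nat_lit 76) (nat_lit 11608480484) (nat_lit 10) (nat_lit 4) (nat_lit 11) (nat_lit 5) (nat_lit 11) (nat_lit 4) (nat_lit 374) (nat_lit 290) (nat_lit 236)))) (XT.nd (nat_lit 78) (nat_lit 76) (nat_lit 0) (XT.lf (nat_lit 0) (nat_lit 18386461157) (nat_lit 76) (nat_lit 20034473218) (nat_lit 76) (nat_lit 6799324142) (nat_lit 10) (nat_lit 4) (nat_lit 11) (nat_lit 5) (nat_lit 11) (nat_lit 4) (nat_lit 375) (nat_lit 290) (nat_lit 235)) (XT.nd (nat_lit 78) (nat_lit 76) (nat_lit 0) (XT.lf (nat_lit 0) (nat_lit 30339076551) (nat_lit 76) (nat_lit 15066766723) (nat_lit 76) (nat_lit 1785397182) (nat_lit 10) (nat_lit 4) (nat_lit 11) (nat_lit 5) (nat_lit 11) (nat_lit 4) (nat_lit 376) (nat_lit 290) (nat_lit 234)) (XT.lf (nat_lit 0) (nat_lit 3334969174) (nat_lit 152) (nat_lit 6488702222) (nat_lit 76) (nat_lit 39436036135) (nat_lit 9) (nat_lit 5) (nat_lit 11) (nat_lit 5) (nat_lit 10) (nat_lit 4) (nat_lit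 377) (nat_lit 290) (nat_lit 233)))))) (XT.nd (nat_lit 468) (nat_lit 152) (nat_lit 0) (XT.nd (nat_lit 234) (nat_lit 76) (nat_lit 0) (XT.nd (nat_lit 78) (nat_lit 0) (nat_lit 0) (XT.lf (nat_lit 0) (nat_lit 4446028242) (nat_lit 76) (nat_lit 4243406194) (nat_lit 152) (nat_lit 42738802728) (nat_lit 8) (nat_lit 5) (nat_lit 9) (nat_lit 5) (nat_lit 10) (nat_lit 4) (nat_lit 378) (nat_lit 290) (nat_lit 232)) (XT.nd (nat_lit 78) (nat_lit 0) (nat_lit 0) (XT.lf (nat_lit 0) (nat_lit 14417339699) (nat_lit 152) (nat_lit 37634033814) (nat_lit 0) (nat_lit 1648540338) (nat_lit 8) (nat_lit 5) (nat_lit 10) (nat_lit 4) (nat_lit 8) (nat_lit 4) (nat_lit 379) (nat_lit 290) (nat_lit 231)) (XT.lf (nat_lit 0) (nat_lit 20471487751) (nat_lit 152) (nat_lit 27945226900) (nat_lit 0) (nat_lit 7666473446) (nat_lit 8) (nat_lit 5) (nat_lit 10) (nat_lit 4) (nat_lit 8) (nat_lit 4) (nat_lit 380) (nat_lit 290) (nat_lit 230))))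 (XT.nd (nat_lit 78) (nat_lit 76) (nat_lit 0) (XT.lf (nat_lit 0) (nat_lit 26800041768) (nat_lit 152) (nat_lit 17826468130) (nat_lit 0) (nat_lit 13960537042) (nat_lit 8) (nat_lit 5) (nat_lit 10) (nat_lit 4) (nat_lit 8) (nat_lit 4) (nat_lit 381) (nat_lit 290) (nat_lit 229)) (XT.nd (nat_lit 78) (nat_lit 76) (nat_lit 0) (XT.lf (nat_lit 0) (nat_lit 33418069737) (nat_lit 152) (nat_lit 7253665221) (nat_lit 0) (nat_lit 20545716989) (nat_lit 8) (nat_lit 5) (nat_lit 10) (nat_lit 4) (nat_lit 8) (nat_lit 4) (nat_lit 382) (nat_lit 290) (nat_lit 228)) (XT.lf (nat_lit 0) (nat_lit 3923945942) (nat_lit 76) (nat_lit 36478646717) (nat_lit 76) (nat_lit 23575010140) (nat_lit 7) (nat_lit 4) (nat_lit 8) (nat_lit 5) (nat_lit 8) (nat_lit 4) (nat_lit 383) (nat_lit 290) (nat_lit 227))))) (XT.nd (nat_lit 234) (nat_lit 152) (nat_lit 0) (XT.nd (nat_lit 78) (nat_lit 0) (nat_lit 0) (XT.lf (nat_lit 0) (nat_lit 15863643014)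 (nat_lit 76) (nat_lit 31970336017) (nat_lit 76) (nat_lit 19036905316) (nat_lit 7) (nat_lit 4) (nat_lit 8) (nat_lit 5) (nat_lit 8) (nat_lit 4) (nat_lit 384) (nat_lit 290) (nat_lit 226)) (XT.nd (nat_lit 78) (nat_lit 0) (nat_lit 0) (XT.lf (nat_lit 0) (nat_lit 28354014915) (nat_lit 76) (nat_lit 27258913116) (nat_lit 76) (nat_lit 14297107059) (nat_lit 7) (nat_lit 4) (nat_lit 8) (nat_lit 5) (nat_lit 8) (nat_lit 4) (nat_lit 385) (nat_lit 290) (nat_lit 225)) (XT.lf (nat_lit 0) (nat_lit 41424800625) (nat_lit 76) (nat_lit 22333160339) (nat_lit 76) (nat_lit 9344330134) (nat_lit 7) (nat_lit 4) (nat_lit 8) (nat_lit 5) (nat_lit 8) (nat_lit 4) (nat_lit 386) (nat_lit 290) (nat_lit 224)))) (XT.nd (nat_lit 78) (nat_lit 152) (nat_lit 0) (XT.lf (nat_lit 0) (nat_lit 55107121063) (nat_lit 76) (nat_lit 17181349705) (nat_lit 76) (nat_lit 4166782216) (nat_lit 7) (nat_lit 4) (nat_lit 8) (nat_lit 5) (nat_lit 8) (nat_lit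 4) (nat_lit 387) (nat_lit 290) (nat_lit 223)) (XT.nd (nat_lit 78) (nat_lit 76) (nat_lit 0) (XT.lf (nat_lit 0) (nat_lit 1207924743) (nat_lit 152) (nat_lit 10562833464) (nat_lit 76) (nat_lit 68205171648) (nat_lit 6) (nat_lit 5) (nat_lit 8) (nat_lit 5) (nat_lit 7) (nat_lit 4) (nat_lit 388) (nat_lit 290) (nat_lit 222)) (XT.lf (nat_lit 0) (nat_lit 676300876) (nat_lit 76) (nat_lit 6025515972) (nat_lit 152) (nat_lit 76967888022) (nat_lit 5) (nat_lit 5) (nat_lit 6) (nat_lit 5) (nat_lit 7) (nat_lit 4) (nat_lit 389) (nat_lit 290) (nat_lit 221))))))))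
noncomputable def xc74 : XT := (XT.nd (nat_lit 1716) (nat_lit 76) (nat_lit 0) (XT.nd (nat_lit 858) (nat_lit 76) (nat_lit 0) (XT.nd (nat_lit 390) (nat_lit 76) (nat_lit 0) (XT.nd (nat_lit 156) (nat_lit 0) (nat_lit 0) (XT.nd (nat_lit 78) (nat_lit 0) (nat_lit 0) (XT.lf (nat_lit 0) (nat_lit 12632326921) (nat_lit 152) (nat_lit 74736999811) (nat_lit 0) (nat_lit 170749304) (nat_lit 5) (nat_lit 5) (nat_lit 7) (nat_lit 4) (nat_lit 5) (nat_lit 4) (nat_lit 390) (nat_lit 290) (nat_lit 220)) (XT.lf (nat_lit 0) (nat_lit 18939089055) (nat_lit 152) (nat_lit 66203548171) (nat_lit 0) (nat_lit 6457345603) (nat_lit 5) (nat_lit 5) (nat_lit 7) (nat_lit 4) (nat_lit 5) (nat_lit 4) (nat_lit 391) (nat_lit 290) (nat_lit 219))) (XT.nd (nat_lit 78) (nat_lit 0) (nat_lit 0) (XT.lf (nat_lit 0) (nat_lit 25543044163) (nat_lit 152) (nat_lit 57278656141) (nat_lit 0) (nat_lit 13042095153) (nat_lit 5) (nat_lit 5) (nat_lit 7)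 (nat_lit 4) (nat_lit 5) (nat_lit 4) (nat_lit 392) (nat_lit 290) (nat_lit 218)) (XT.nd (nat_lit 78) (nat_lit 0) (nat_lit 0) (XT.lf (nat_lit 0) (nat_lit 32459915945) (nat_lit 152) (nat_lit 47941073979) (nat_lit 0) (nat_lit 19940675927) (nat_lit 5) (nat_lit 5) (nat_lit 7) (nat_lit 4) (nat_lit 5) (nat_lit 4) (nat_lit 393) (nat_lit 290) (nat_lit 217)) (XT.lf (nat_lit 0) (nat_lit 39706173144) (nat_lit 152) (nat_lit 38168569346) (nat_lit 0) (nat_lit 27169513120) (nat_lit 5) (nat_lit 5) (nat_lit 7) (nat_lit 4) (nat_lit 5) (nat_lit 4) (nat_lit 394) (nat_lit 290) (nat_lit 216))))) (XT.nd (nat_lit 234) (nat_lit 76) (nat_lit 0) (XT.nd (nat_lit 78) (nat_lit 0) (nat_lit 0) (XT.lf (nat_lit 0) (nat_lit 47299068753) (nat_lit 152) (nat_lit 27937874373) (nat_lit 0) (nat_lit 34745818246) (nat_lit 5) (nat_lit 5) (nat_lit 7) (nat_lit 4) (nat_lit 5) (nat_lit 4) (nat_lit 395) (nat_lit 290) (nat_lit 215)) (XT.nd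 (nat_lit 78) (nat_lit 0) (nat_lit 0) (XT.lf (nat_lit 0) (nat_lit 55256681096) (nat_lit 152) (nat_lit 17224630264) (nat_lit 0) (nat_lit 42687630129) (nat_lit 5) (nat_lit 5) (nat_lit 7) (nat_lit 4) (nat_lit 5) (nat_lit 4) (nat_lit 396) (nat_lit 290) (nat_lit 214)) (XT.lf (nat_lit 0) (nat_lit 63597956868) (nat_lit 152) (nat_lit 6003329295) (nat_lit 0) (nat_lit 51013857844) (nat_lit 5) (nat_lit 5) (nat_lit 7) (nat_lit 4) (nat_lit 5) (nat_lit 4) (nat_lit 397) (nat_lit 290) (nat_lit 213)))) (XT.nd (nat_lit 78) (nat_lit 0) (nat_lit 0) (XT.lf (nat_lit 0) (nat_lit 5942957678) (nat_lit 76) (nat_lit 66492584796) (nat_lit 76) (nat_lit 53894154289) (nat_lit 4) (nat_lit 4) (nat_lit 5) (nat_lit 5) (nat_lit 5) (nat_lit 4) (nat_lit 398) (nat_lit 290) (nat_lit 212)) (XT.nd (nat_lit 78) (nat_lit 0) (nat_lit 0) (XT.lf (nat_lit 0) (nat_lit 18669114279) (nat_lit 76) (nat_lit 63134263107) (nat_lit 76) (nat_lit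 50522183570) (nat_lit 4) (nat_lit 4) (nat_lit 5) (nat_lit 5) (nat_lit 5) (nat_lit 4) (nat_lit 399) (nat_lit 290) (nat_lit 211)) (XT.lf (nat_lit 0) (nat_lit 32006943701) (nat_lit 76) (nat_lit 59619994380) (nat_lit 76) (nat_lit 46994915765) (nat_lit 4) (nat_lit 4) (nat_lit 5) (nat_lit 5) (nat_lit 5) (nat_lit 4) (nat_lit 400) (nat_lit 290) (nat_lit 210)))))) (XT.nd (nat_lit 390) (nat_lit 76) (nat_lit 0) (XT.nd (nat_lit 156) (nat_lit 0) (nat_lit 0) (XT.nd (nat_lit 78) (nat_lit 0) (nat_lit 0) (XT.lf (nat_lit 0) (nat_lit 45988202681) (nat_lit 76) (nat_lit 55941411309) (nat_lit 76) (nat_lit 43303952620) (nat_lit 4) (nat_lit 4) (nat_lit 5) (nat_lit 5) (nat_lit 5) (nat_lit 4) (nat_lit 401) (nat_lit 290) (nat_lit 209)) (XT.lf (nat_lit 0) (nat_lit 60646179930) (nat_lit 76) (nat_lit 52089755361) (nat_lit 76) (nat_lit 39440506125) (nat_lit 4) (nat_lit 4) (nat_lit 5) (nat_lit 5) (nat_lit 5) (nat_lit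 4) (nat_lit 402) (nat_lit 290) (nat_lit 208))) (XT.nd (nat_lit 78) (nat_lit 0) (nat_lit 0) (XT.lf (nat_lit 0) (nat_lit 76015775396) (nat_lit 76) (nat_lit 48055855927) (nat_lit 76) (nat_lit 35395377600) (nat_lit 4) (nat_lit 4) (nat_lit 5) (nat_lit 5) (nat_lit 5) (nat_lit 4) (nat_lit 403) (nat_lit 290) (nat_lit 207)) (XT.nd (nat_lit 78) (nat_lit 0) (nat_lit 0) (XT.lf (nat_lit 0) (nat_lit 92133583351) (nat_lit 76) (nat_lit 43830108486) (nat_lit 76) (nat_lit 31158935786) (nat_lit 4) (nat_lit 4) (nat_lit 5) (nat_lit 5) (nat_lit 5) (nat_lit 4) (nat_lit 404) (nat_lit 290) (nat_lit 206)) (XT.lf (nat_lit 0) (nat_lit 109037979531) (nat_lit 76) (nat_lit 39402451733) (nat_lit 76) (nat_lit 26721093916) (nat_lit 4) (nat_lit 4) (nat_lit 5) (nat_lit 5) (nat_lit 5) (nat_lit 4) (nat_lit 405) (nat_lit 290) (nat_lit 205))))) (XT.nd (nat_lit 234) (nat_lit 76) (nat_lit 0) (XT.nd (nat_lit 78) (nat_lit 0) (nat_lit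 0) (XT.lf (nat_lit 0) (nat_lit 126769212497) (nat_lit 76) (nat_lit 34762343629) (nat_lit 76) (nat_lit 22071285700) (nat_lit 4) (nat_lit 4) (nat_lit 5) (nat_lit 5) (nat_lit 5) (nat_lit 4) (nat_lit 406) (nat_lit 290) (nat_lit 204)) (XT.nd (nat_lit 78) (nat_lit 0) (nat_lit 0) (XT.lf (nat_lit 0) (nat_lit 145369499470) (nat_lit 76) (nat_lit 29898736297) (nat_lit 76) (nat_lit 17198440167) (nat_lit 4) (nat_lit 4) (nat_lit 5) (nat_lit 5) (nat_lit 5) (nat_lit 4) (nat_lit 407) (nat_lit 290) (nat_lit 203)) (XT.lf (nat_lit 0) (nat_lit 164883126848) (nat_lit 76) (nat_lit 24800049720) (nat_lit 76) (nat_lit 12090955303) (nat_lit 4) (nat_lit 4) (nat_lit 5) (nat_lit 5) (nat_lit 5) (nat_lit 4) (nat_lit 408) (nat_lit 290) (nat_lit 202)))) (XT.nd (nat_lit 78) (nat_lit 76) (nat_lit 0) (XT.lf (nat_lit 0) (nat_lit 185356555649) (nat_lit 76) (nat_lit 19454144168) (nat_lit 76) (nat_lit 6736670429) (nat_lit 4) (nat_lit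 4) (nat_lit 5) (nat_lit 5) (nat_lit 5) (nat_lit 4) (nat_lit 409) (nat_lit 290) (nat_lit 201)) (XT.nd (nat_lit 78) (nat_lit 76) (nat_lit 0) (XT.lf (nat_lit 0) (nat_lit 206838532131) (nat_lit 76) (nat_lit 13848291295) (nat_lit 76) (nat_lit 1122837250) (nat_lit 4) (nat_lit 4) (nat_lit 5) (nat_lit 5) (nat_lit 5) (nat_lit 4) (nat_lit 410) (nat_lit 290) (nat_lit 200)) (XT.lf (nat_lit 0) (nat_lit 4611435617) (nat_lit 152) (nat_lit 3279611319) (nat_lit 76) (nat_lit 224690671347) (nat_lit 3) (nat_lit 5) (nat_lit 5) (nat_lit 5) (nat_lit 4) (nat_lit 4) (nat_lit 411) (nat_lit 290) (nat_lit 199))))))) (XT.nd (nat_lit 858) (nat_lit 0) (nat_lit 0) (XT.nd (nat_lit 390) (nat_lit 0) (nat_lit 0) (XT.nd (nat_lit 156) (nat_lit 0) (nat_lit 0) (XT.nd (nat_lit 78) (nat_lit 0) (nat_lit 0) (XT.lf (nat_lit 0) (nat_lit 9260512927) (nat_lit 76) (nat_lit 1471587383) (nat_lit 152) (nat_lit 233152488623) (nat_lit 2) (nat_lit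 5) (nat_lit 3) (nat_lit 5) (nat_lit 4) (nat_lit 4) (nat_lit 412) (nat_lit 290) (nat_lit 198)) (XT.lf (nat_lit 0) (nat_lit 17290364934) (nat_lit 152) (nat_lit 233305473537) (nat_lit 0) (nat_lit 5150187412) (nat_lit 2) (nat_lit 5) (nat_lit 4) (nat_lit 4) (nat_lit 2) (nat_lit 4) (nat_lit 413) (nat_lit 290) (nat_lit 197))) (XT.nd (nat_lit 78) (nat_lit 0) (nat_lit 0) (XT.lf (nat_lit 0) (nat_lit 24193860441) (nat_lit 152) (nat_lit 231958379272) (nat_lit 0) (nat_lit 12047430141) (nat_lit 2) (nat_lit 5) (nat_lit 4) (nat_lit 4) (nat_lit 2) (nat_lit 4) (nat_lit 414) (nat_lit 290) (nat_lit 196)) (XT.nd (nat_lit 78) (nat_lit 0) (nat_lit 0) (XT.lf (nat_lit 0) (nat_lit 31436048122) (nat_lit 152) (nat_lit 230556610239) (nat_lit 0) (nat_lit 19283662795) (nat_lit 2) (nat_lit 5) (nat_lit 4) (nat_lit 4) (nat_lit 2) (nat_lit 4) (nat_lit 415) (nat_lit 290) (nat_lit 195)) (XT.lf (nat_lit 0) (nat_lit 39034171281)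 (nat_lit 152) (nat_lit 229096828894) (nat_lit 0) (nat_lit 26876114499) (nat_lit 2) (nat_lit 5) (nat_lit 4) (nat_lit 4) (nat_lit 2) (nat_lit 4) (nat_lit 416) (nat_lit 290) (nat_lit 194))))) (XT.nd (nat_lit 234) (nat_lit 0) (nat_lit 0) (XT.nd (nat_lit 78) (nat_lit 0) (nat_lit 0) (XT.lf (nat_lit 0) (nat_lit 47006320687) (nat_lit 152) (nat_lit 227575559567) (nat_lit 0) (nat_lit 34842862521) (nat_lit 2) (nat_lit 5) (nat_lit 4) (nat_lit 4) (nat_lit 2) (nat_lit 4) (nat_lit 417) (nat_lit 290) (nat_lit 193)) (XT.nd (nat_lit 78) (nat_lit 0) (nat_lit 0) (XT.lf (nat_lit 0) (nat_lit 55371477649) (nat_lit 152) (nat_lit 225989180187) (nat_lit 0) (nat_lit 43202875306) (nat_lit 2) (nat_lit 5) (nat_lit 4) (nat_lit 4) (nat_lit 2) (nat_lit 4) (nat_lit 418) (nat_lit 290) (nat_lit 192)) (XT.lf (nat_lit 0) (nat_lit 64149559207) (nat_lit 152) (nat_lit 224333913661) (nat_lit 0) (nat_lit 51976057648) (nat_lit 2)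 (nat_lit 5) (nat_lit 4) (nat_lit 4) (nat_lit 2) (nat_lit 4) (nat_lit 419) (nat_lit 290) (nat_lit 191)))) (XT.nd (nat_lit 78) (nat_lit 0) (nat_lit 0) (XT.lf (nat_lit 0) (nat_lit 73361465555) (nat_lit 152) (nat_lit 222605818878) (nat_lit 0) (nat_lit 61183298077) (nat_lit 2) (nat_lit 5) (nat_lit 4) (nat_lit 4) (nat_lit 2) (nat_lit 4) (nat_lit 420) (nat_lit 290) (nat_lit 190)) (XT.nd (nat_lit 78) (nat_lit 0) (nat_lit 0) (XT.lf (nat_lit 0) (nat_lit 83029129803) (nat_lit 152) (nat_lit 220800781327) (nat_lit 0) (nat_lit 70846518592) (nat_lit 2) (nat_lit 5) (nat_lit 4) (nat_lit 4) (nat_lit 2) (nat_lit 4) (nat_lit 421) (nat_lit 290) (nat_lit 189)) (XT.lf (nat_lit 0) (nat_lit 93175570200) (nat_lit 152) (nat_lit 218914503299) (nat_lit 0) (nat_lit 80988726862) (nat_lit 2) (nat_lit 5) (nat_lit 4) (nat_lit 4) (nat_lit 2) (nat_lit 4) (nat_lit 422) (nat_lit 290) (nat_lit 188)))))) (XT.nd (nat_lit 468)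 (nat_lit 0) (nat_lit 0) (XT.nd (nat_lit 234) (nat_lit 0) (nat_lit 0) (XT.nd (nat_lit 78) (nat_lit 0) (nat_lit 0) (XT.lf (nat_lit 0) (nat_lit 103824944937) (nat_lit 152) (nat_lit 216942493656) (nat_lit 0) (nat_lit 91634071003) (nat_lit 2) (nat_lit 5) (nat_lit 4) (nat_lit 4) (nat_lit 2) (nat_lit 4) (nat_lit 423) (nat_lit 290) (nat_lit 187)) (XT.nd (nat_lit 78) (nat_lit 0) (nat_lit 0) (XT.lf (nat_lit 0) (nat_lit 115002609668) (nat_lit 152) (nat_lit 214880057138) (nat_lit 0) (nat_lit 102807897070) (nat_lit 2) (nat_lit 5) (nat_lit 4) (nat_lit 4) (nat_lit 2) (nat_lit 4) (nat_lit 424) (nat_lit 290) (nat_lit 186)) (XT.lf (nat_lit 0) (nat_lit 126735177881) (nat_lit 152) (nat_lit 212722283180) (nat_lit 0) (nat_lit 114536809413) (nat_lit 2) (nat_lit 5) (nat_lit 4) (nat_lit 4) (nat_lit 2) (nat_lit 4) (nat_lit 425) (nat_lit 290) (nat_lit 185)))) (XT.nd (nat_lit 78) (nat_lit 0) (nat_lit 0) (XT.lf (nat_lit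 0) (nat_lit 139050584262) (nat_lit 152) (nat_lit 210464034226) (nat_lit 0) (nat_lit 126848734013) (nat_lit 2) (nat_lit 5) (nat_lit 4) (nat_lit 4) (nat_lit 2) (nat_lit 4) (nat_lit 426) (nat_lit 290) (nat_lit 184)) (XT.nd (nat_lit 78) (nat_lit 0) (nat_lit 0) (XT.lf (nat_lit 0) (nat_lit 151978151207) (nat_lit 152) (nat_lit 208099933493) (nat_lit 0) (nat_lit 139772984976) (nat_lit 2) (nat_lit 5) (nat_lit 4) (nat_lit 4) (nat_lit 2) (nat_lit 4) (nat_lit 427) (nat_lit 290) (nat_lit 183)) (XT.lf (nat_lit 0) (nat_lit 165548658637) (nat_lit 152) (nat_lit 205624352170) (nat_lit 0) (nat_lit 153340334328) (nat_lit 2) (nat_lit 5) (nat_lit 4) (nat_lit 4) (nat_lit 2) (nat_lit 4) (nat_lit 428) (nat_lit 290) (nat_lit 182))))) (XT.nd (nat_lit 234) (nat_lit 0) (nat_lit 0) (XT.nd (nat_lit 78) (nat_lit 0) (nat_lit 0) (XT.lf (nat_lit 0) (nat_lit 179794417284) (nat_lit 152) (nat_lit 203031396015) (nat_lit 0) (nat_lit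 167583085282) (nat_lit 2) (nat_lit 5) (nat_lit 4) (nat_lit 4) (nat_lit 2) (nat_lit 4) (nat_lit 429) (nat_lit 290) (nat_lit 181)) (XT.nd (nat_lit 78) (nat_lit 0) (nat_lit 0) (XT.lf (nat_lit 0) (nat_lit 194749345622) (nat_lit 152) (nat_lit 200314891322) (nat_lit 0) (nat_lit 182535149150) (nat_lit 2) (nat_lit 5) (nat_lit 4) (nat_lit 4) (nat_lit 2) (nat_lit 4) (nat_lit 430) (nat_lit 290) (nat_lit 180)) (XT.lf (nat_lit 0) (nat_lit 210449050622) (nat_lit 152) (nat_lit 197468370225) (nat_lit 0) (nat_lit 198232126084) (nat_lit 2) (nat_lit 5) (nat_lit 4) (nat_lit 4) (nat_lit 2) (nat_lit 4) (nat_lit 431) (nat_lit 290) (nat_lit 179)))) (XT.nd (nat_lit 78) (nat_lit 0) (nat_lit 0) (XT.lf (nat_lit 0) (nat_lit 226930912535) (nat_lit 152) (nat_lit 194485055291) (nat_lit 0) (nat_lit 214711389838) (nat_lit 2) (nat_lit 5) (nat_lit 4) (nat_lit 4) (nat_lit 2) (nat_lit 4) (nat_lit 432) (nat_lit 290) (nat_lit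 178)) (XT.nd (nat_lit 37908) (nat_lit 0) (nat_lit 6688) (XT.lf (nat_lit 0) (nat_lit 244234173889) (nat_lit 152) (nat_lit 191357843389) (nat_lit 0) (nat_lit 232012176755) (nat_lit 2) (nat_lit 5) (nat_lit 4) (nat_lit 4) (nat_lit 2) (nat_lit 4) (nat_lit 433) (nat_lit 290) (nat_lit 177)) (XT.lf (nat_lit 0) (nat_lit 265674481) (nat_lit 380) (nat_lit 1725231748) (nat_lit 380) (nat_lit 1725231748) (nat_lit 90) (nat_lit 4) (nat_lit 95) (nat_lit 5) (nat_lit 95) (nat_lit 4) (nat_lit 318) (nat_lit 291) (nat_lit 291))))))))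
noncomputable def xc75 : XT := (XT.nd (nat_lit 1716) (nat_lit 1596) (nat_lit 0) (XT.nd (nat_lit 858) (nat_lit 1444) (nat_lit 0) (XT.nd (nat_lit 390) (nat_lit 1520) (nat_lit 0) (XT.nd (nat_lit 156) (nat_lit 760) (nat_lit 0) (XT.nd (nat_lit 78) (nat_lit 380) (nat_lit 0) (XT.lf (nat_lit 0) (nat_lit 6071803018) (nat_lit 380) (nat_lit 1477625667) (nat_lit 380) (nat_lit 985971) (nat_lit 90) (nat_lit 4) (nat_lit 95) (nat_lit 5) (nat_lit 95) (nat_lit 4) (nat_lit 319) (nat_lit 291) (nat_lit 290)) (XT.lf (nat_lit 0) (nat_lit 3422501273) (nat_lit 380) (nat_lit 3576664545) (nat_lit 0) (nat_lit 676822020) (nat_lit 85) (nat_lit 5) (nat_lit 90) (nat_lit 4) (nat_lit 85) (nat_lit 4) (nat_lit 320) (nat_lit 291) (nat_lit 289))) (XT.nd (nat_lit 78) (nat_lit 380) (nat_lit 0) (XT.lf (nat_lit 0) (nat_lit 2058454599) (nat_lit 380) (nat_lit 4887214201) (nat_lit 380) (nat_lit 865958058) (nat_lit 80) (nat_lit 4)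 (nat_lit 85) (nat_lit 5) (nat_lit 85) (nat_lit 4) (nat_lit 321) (nat_lit 291) (nat_lit 288)) (XT.nd (nat_lit 78) (nat_lit 304) (nat_lit 0) (XT.lf (nat_lit 0) (nat_lit 2514951045) (nat_lit 456) (nat_lit 80441631) (nat_lit 76) (nat_lit 5361242883) (nat_lit 79) (nat_lit 5) (nat_lit 85) (nat_lit 5) (nat_lit 80) (nat_lit 4) (nat_lit 322) (nat_lit 291) (nat_lit 287)) (XT.lf (nat_lit 0) (nat_lit 5872623817) (nat_lit 304) (nat_lit 110644930) (nat_lit 380) (nat_lit 2127728569) (nat_lit 75) (nat_lit 5) (nat_lit 79) (nat_lit 5) (nat_lit 80) (nat_lit 4) (nat_lit 323) (nat_lit 291) (nat_lit 286))))) (XT.nd (nat_lit 234) (nat_lit 912) (nat_lit 0) (XT.nd (nat_lit 78) (nat_lit 228) (nat_lit 0) (XT.lf (nat_lit 0) (nat_lit 1266184900) (nat_lit 380) (nat_lit 4542386088) (nat_lit 76) (nat_lit 2465742725) (nat_lit 70) (nat_lit 5) (nat_lit 75) (nat_lit 5) (nat_lit 71) (nat_lit 4) (nat_lit 324) (nat_lit 291)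 (nat_lit 285)) (XT.nd (nat_lit 78) (nat_lit 0) (nat_lit 0) (XT.lf (nat_lit 0) (nat_lit 1461308994) (nat_lit 228) (nat_lit 3221043199) (nat_lit 304) (nat_lit 3765656898) (nat_lit 67) (nat_lit 5) (nat_lit 70) (nat_lit 5) (nat_lit 71) (nat_lit 4) (nat_lit 325) (nat_lit 291) (nat_lit 284)) (XT.lf (nat_lit 0) (nat_lit 7743136527) (nat_lit 228) (nat_lit 467841348) (nat_lit 304) (nat_lit 422481617) (nat_lit 67) (nat_lit 5) (nat_lit 70) (nat_lit 5) (nat_lit 71) (nat_lit 4) (nat_lit 326) (nat_lit 291) (nat_lit 283)))) (XT.nd (nat_lit 78) (nat_lit 532) (nat_lit 0) (XT.lf (nat_lit 0) (nat_lit 2982529828) (nat_lit 380) (nat_lit 3405715564) (nat_lit 76) (nat_lit 2437989672) (nat_lit 62) (nat_lit 5) (nat_lit 67) (nat_lit 5) (nat_lit 63) (nat_lit 4) (nat_lit 327) (nat_lit 291) (nat_lit 282)) (XT.nd (nat_lit 78) (nat_lit 304) (nat_lit 0) (XT.lf (nat_lit 0) (nat_lit 2950887066) (nat_lit 228) (nat_lit 3533521233)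 (nat_lit 304) (nat_lit 2546986041) (nat_lit 59) (nat_lit 5) (nat_lit 62) (nat_lit 5) (nat_lit 63) (nat_lit 4) (nat_lit 328) (nat_lit 291) (nat_lit 281)) (XT.lf (nat_lit 0) (nat_lit 314393663) (nat_lit 228) (nat_lit 507377498) (nat_lit 304) (nat_lit 8427622458) (nat_lit 55) (nat_lit 5) (nat_lit 58) (nat_lit 5) (nat_lit 59) (nat_lit 5) (nat_lit 329) (nat_lit 291) (nat_lit 280)))))) (XT.nd (nat_lit 390) (nat_lit 836) (nat_lit 0) (XT.nd (nat_lit 156) (nat_lit 456) (nat_lit 0) (XT.nd (nat_lit 78) (nat_lit 152) (nat_lit 0) (XT.lf (nat_lit 0) (nat_lit 4295115569) (nat_lit 304) (nat_lit 2500772030) (nat_lit 76) (nat_lit 2679344317) (nat_lit 55) (nat_lit 5) (nat_lit 59) (nat_lit 5) (nat_lit 56) (nat_lit 4) (nat_lit 330) (nat_lit 291) (nat_lit 279)) (XT.lf (nat_lit 0) (nat_lit 4207575679) (nat_lit 152) (nat_lit 3689887874) (nat_lit 228) (nat_lit 1817240315) (nat_lit 53) (nat_lit 5) (nat_lit 55) (nat_lit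 5) (nat_lit 56) (nat_lit 4) (nat_lit 331) (nat_lit 291) (nat_lit 278))) (XT.nd (nat_lit 78) (nat_lit 152) (nat_lit 0) (XT.lf (nat_lit 0) (nat_lit 1210288727) (nat_lit 228) (nat_lit 392890338) (nat_lit 304) (nat_lit 8364518414) (nat_lit 49) (nat_lit 5) (nat_lit 52) (nat_lit 5) (nat_lit 53) (nat_lit 5) (nat_lit 332) (nat_lit 291) (nat_lit 277)) (XT.nd (nat_lit 78) (nat_lit 152) (nat_lit 0) (XT.lf (nat_lit 0) (nat_lit 5160583266) (nat_lit 304) (nat_lit 2030377549) (nat_lit 76) (nat_lit 3039632440) (nat_lit 49) (nat_lit 5) (nat_lit 53) (nat_lit 5) (nat_lit 50) (nat_lit 4) (nat_lit 333) (nat_lit 291) (nat_lit 276)) (XT.lf (nat_lit 0) (nat_lit 5018387142) (nat_lit 152) (nat_lit 3852095959) (nat_lit 228) (nat_lit 1637508757) (nat_lit 47) (nat_lit 5) (nat_lit 49) (nat_lit 5) (nat_lit 50) (nat_lit 4) (nat_lit 334) (nat_lit 291) (nat_lit 275))))) (XT.nd (nat_lit 234) (nat_lit 380) (nat_lit 0) (XT.nd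 (nat_lit 78) (nat_lit 152) (nat_lit 0) (XT.lf (nat_lit 0) (nat_lit 1540815348) (nat_lit 228) (nat_lit 312505510) (nat_lit 304) (nat_lit 8947002954) (nat_lit 43) (nat_lit 5) (nat_lit 46) (nat_lit 5) (nat_lit 47) (nat_lit 5) (nat_lit 335) (nat_lit 291) (nat_lit 274)) (XT.nd (nat_lit 78) (nat_lit 152) (nat_lit 0) (XT.lf (nat_lit 0) (nat_lit 5503601529) (nat_lit 304) (nat_lit 2242303388) (nat_lit 76) (nat_lit 3358105346) (nat_lit 43) (nat_lit 5) (nat_lit 47) (nat_lit 5) (nat_lit 44) (nat_lit 4) (nat_lit 336) (nat_lit 291) (nat_lit 273)) (XT.lf (nat_lit 0) (nat_lit 5121209489) (nat_lit 152) (nat_lit 4197695192) (nat_lit 228) (nat_lit 2104924409) (nat_lit 41) (nat_lit 5) (nat_lit 43) (nat_lit 5) (nat_lit 44) (nat_lit 4) (nat_lit 337) (nat_lit 291) (nat_lit 272)))) (XT.nd (nat_lit 78) (nat_lit 152) (nat_lit 0) (XT.lf (nat_lit 0) (nat_lit 1016331040) (nat_lit 152) (nat_lit 451461377) (nat_lit 228)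 (nat_lit 10293063189) (nat_lit 38) (nat_lit 5) (nat_lit 40) (nat_lit 5) (nat_lit 41) (nat_lit 5) (nat_lit 338) (nat_lit 291) (nat_lit 271)) (XT.nd (nat_lit 78) (nat_lit 152) (nat_lit 0) (XT.lf (nat_lit 0) (nat_lit 5210717136) (nat_lit 228) (nat_lit 3445546191) (nat_lit 76) (nat_lit 3453692677) (nat_lit 38) (nat_lit 5) (nat_lit 41) (nat_lit 5) (nat_lit 39) (nat_lit 4) (nat_lit 339) (nat_lit 291) (nat_lit 270)) (XT.lf (nat_lit 0) (nat_lit 4187314868) (nat_lit 152) (nat_lit 4930496146) (nat_lit 228) (nat_lit 3359909712) (nat_lit 36) (nat_lit 5) (nat_lit 38) (nat_lit 5) (nat_lit 39) (nat_lit 4) (nat_lit 340) (nat_lit 291) (nat_lit 269))))))) (XT.nd (nat_lit 858) (nat_lit 684) (nat_lit 0) (XT.nd (nat_lit 390) (nat_lit 380) (nat_lit 0) (XT.nd (nat_lit 156) (nat_lit 304) (nat_lit 0) (XT.nd (nat_lit 78) (nat_lit 152) (nat_lit 0) (XT.lf (nat_lit 0) (nat_lit 309081186) (nat_lit 228) (nat_lit 704381225)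 (nat_lit 76) (nat_lit 11851982800) (nat_lit 35) (nat_lit 5) (nat_lit 38) (nat_lit 5) (nat_lit 36) (nat_lit 5) (nat_lit 341) (nat_lit 291) (nat_lit 268)) (XT.lf (nat_lit 0) (nat_lit 4121945090) (nat_lit 228) (nat_lit 6030586869) (nat_lit 76) (nat_lit 3113655233) (nat_lit 33) (nat_lit 5) (nat_lit 36) (nat_lit 5) (nat_lit 34) (nat_lit 4) (nat_lit 342) (nat_lit 291) (nat_lit 267))) (XT.nd (nat_lit 78) (nat_lit 228) (nat_lit 0) (XT.lf (nat_lit 0) (nat_lit 1799528515) (nat_lit 76) (nat_lit 6293154183) (nat_lit 152) (nat_lit 5595971780) (nat_lit 32) (nat_lit 5) (nat_lit 33) (nat_lit 5) (nat_lit 34) (nat_lit 4) (nat_lit 343) (nat_lit 291) (nat_lit 266)) (XT.nd (nat_lit 78) (nat_lit 228) (nat_lit 0) (XT.lf (nat_lit 0) (nat_lit 10081044815) (nat_lit 76) (nat_lit 2195372530) (nat_lit 152) (nat_lit 1855152140) (nat_lit 32) (nat_lit 5) (nat_lit 33) (nat_lit 5) (nat_lit 34) (nat_lit 4) (nat_lit 344)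 (nat_lit 291) (nat_lit 265)) (XT.lf (nat_lit 0) (nat_lit 2019564158) (nat_lit 228) (nat_lit 10494842232) (nat_lit 76) (nat_lit 2079989007) (nat_lit 29) (nat_lit 5) (nat_lit 32) (nat_lit 5) (nat_lit 30) (nat_lit 4) (nat_lit 345) (nat_lit 291) (nat_lit 264))))) (XT.nd (nat_lit 234) (nat_lit 304) (nat_lit 0) (XT.nd (nat_lit 78) (nat_lit 76) (nat_lit 0) (XT.lf (nat_lit 0) (nat_lit 6047354057) (nat_lit 228) (nat_lit 2492825732) (nat_lit 76) (nat_lit 6537618962) (nat_lit 29) (nat_lit 5) (nat_lit 32) (nat_lit 5) (nat_lit 30) (nat_lit 4) (nat_lit 346) (nat_lit 291) (nat_lit 263)) (XT.nd (nat_lit 78) (nat_lit 0) (nat_lit 0) (XT.lf (nat_lit 0) (nat_lit 5960909962) (nat_lit 76) (nat_lit 4328662572) (nat_lit 152) (nat_lit 5295186751) (nat_lit 28) (nat_lit 5) (nat_lit 29) (nat_lit 5) (nat_lit 30) (nat_lit 4) (nat_lit 347) (nat_lit 291) (nat_lit 262)) (XT.lf (nat_lit 0) (nat_lit 14709001162) (nat_lit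 152) (nat_lit 1333193795) (nat_lit 0) (nat_lit 76655037) (nat_lit 28) (nat_lit 5) (nat_lit 30) (nat_lit 4) (nat_lit 28) (nat_lit 4) (nat_lit 348) (nat_lit 291) (nat_lit 261)))) (XT.nd (nat_lit 78) (nat_lit 76) (nat_lit 0) (XT.lf (nat_lit 0) (nat_lit 2697170046) (nat_lit 228) (nat_lit 9312897824) (nat_lit 76) (nat_lit 4661883765) (nat_lit 25) (nat_lit 5) (nat_lit 28) (nat_lit 5) (nat_lit 26) (nat_lit 4) (nat_lit 349) (nat_lit 291) (nat_lit 260)) (XT.nd (nat_lit 78) (nat_lit 76) (nat_lit 0) (XT.lf (nat_lit 0) (nat_lit 6909916576) (nat_lit 228) (nat_lit 876529621) (nat_lit 76) (nat_lit 9467750760) (nat_lit 25) (nat_lit 5) (nat_lit 28) (nat_lit 5) (nat_lit 26) (nat_lit 4) (nat_lit 350) (nat_lit 291) (nat_lit 259)) (XT.lf (nat_lit 0) (nat_lit 8114055493) (nat_lit 76) (nat_lit 3274317089) (nat_lit 152) (nat_lit 6474458887) (nat_lit 24) (nat_lit 5) (nat_lit 25) (nat_lit 5) (nat_lit 26) (nat_lit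 4) (nat_lit 351) (nat_lit 291) (nat_lit 258)))))) (XT.nd (nat_lit 468) (nat_lit 304) (nat_lit 0) (XT.nd (nat_lit 234) (nat_lit 152) (nat_lit 0) (XT.nd (nat_lit 78) (nat_lit 228) (nat_lit 0) (XT.lf (nat_lit 0) (nat_lit 16057670683) (nat_lit 152) (nat_lit 1067571350) (nat_lit 0) (nat_lit 1378338787) (nat_lit 24) (nat_lit 5) (nat_lit 26) (nat_lit 4) (nat_lit 24) (nat_lit 4) (nat_lit 352) (nat_lit 291) (nat_lit 257)) (XT.nd (nat_lit 78) (nat_lit 0) (nat_lit 0) (XT.lf (nat_lit 0) (nat_lit 1841803843) (nat_lit 228) (nat_lit 11067978860) (nat_lit 76) (nat_lit 6259476643) (nat_lit 21) (nat_lit 5) (nat_lit 24) (nat_lit 5) (nat_lit 22) (nat_lit 4) (nat_lit 353) (nat_lit 291) (nat_lit 256)) (XT.lf (nat_lit 0) (nat_lit 6212683339) (nat_lit 228) (nat_lit 2264194791) (nat_lit 76) (nat_lit 11391815020) (nat_lit 21) (nat_lit 5) (nat_lit 24) (nat_lit 5) (nat_lit 22) (nat_lit 4) (nat_lit 354) (nat_lit 291)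 (nat_lit 255)))) (XT.nd (nat_lit 78) (nat_lit 76) (nat_lit 0) (XT.lf (nat_lit 0) (nat_lit 7090408904) (nat_lit 76) (nat_lit 3758210685) (nat_lit 152) (nat_lit 9752177338) (nat_lit 20) (nat_lit 5) (nat_lit 21) (nat_lit 5) (nat_lit 22) (nat_lit 4) (nat_lit 355) (nat_lit 291) (nat_lit 254)) (XT.nd (nat_lit 78) (nat_lit 76) (nat_lit 0) (XT.lf (nat_lit 0) (nat_lit 15710282870) (nat_lit 152) (nat_lit 4512341197) (nat_lit 0) (nat_lit 1147208099) (nat_lit 20) (nat_lit 5) (nat_lit 22) (nat_lit 4) (nat_lit 20) (nat_lit 4) (nat_lit 356) (nat_lit 291) (nat_lit 253)) (XT.lf (nat_lit 0) (nat_lit 4920242674) (nat_lit 76) (nat_lit 15972527208) (nat_lit 76) (nat_lit 1280683952) (nat_lit 19) (nat_lit 4) (nat_lit 20) (nat_lit 5) (nat_lit 20) (nat_lit 4) (nat_lit 357) (nat_lit 291) (nat_lit 252))))) (XT.nd (nat_lit 234) (nat_lit 152) (nat_lit 0) (XT.nd (nat_lit 78) (nat_lit 76) (nat_lit 0) (XT.lf (nat_lit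 0) (nat_lit 3228124908) (nat_lit 152) (nat_lit 8196823846) (nat_lit 76) (nat_lit 11588879586) (nat_lit 18) (nat_lit 5) (nat_lit 20) (nat_lit 5) (nat_lit 19) (nat_lit 4) (nat_lit 358) (nat_lit 291) (nat_lit 251)) (XT.nd (nat_lit 78) (nat_lit 0) (nat_lit 0) (XT.lf (nat_lit 0) (nat_lit 1224425023) (nat_lit 76) (nat_lit 6656405095) (nat_lit 152) (nat_lit 16016285690) (nat_lit 17) (nat_lit 5) (nat_lit 18) (nat_lit 5) (nat_lit 19) (nat_lit 4) (nat_lit 359) (nat_lit 291) (nat_lit 250)) (XT.lf (nat_lit 0) (nat_lit 11296871444) (nat_lit 76) (nat_lit 1551608176) (nat_lit 152) (nat_lit 11971990429) (nat_lit 17) (nat_lit 5) (nat_lit 18) (nat_lit 5) (nat_lit 19) (nat_lit 4) (nat_lit 360) (nat_lit 291) (nat_lit 249)))) (XT.nd (nat_lit 78) (nat_lit 152) (nat_lit 0) (XT.lf (nat_lit 0) (nat_lit 18069441843) (nat_lit 152) (nat_lit 4077973976) (nat_lit 0) (nat_lit 3642346672) (nat_lit 17) (nat_lit 5) (nat_lit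 19) (nat_lit 4) (nat_lit 17) (nat_lit 4) (nat_lit 361) (nat_lit 291) (nat_lit 248)) (XT.nd (nat_lit 78) (nat_lit 76) (nat_lit 0) (XT.lf (nat_lit 0) (nat_lit 5906923736) (nat_lit 76) (nat_lit 17710254941) (nat_lit 76) (nat_lit 3187070744) (nat_lit 16) (nat_lit 4) (nat_lit 17) (nat_lit 5) (nat_lit 17) (nat_lit 4) (nat_lit 362) (nat_lit 291) (nat_lit 247)) (XT.lf (nat_lit 0) (nat_lit 1540900794) (nat_lit 152) (nat_lit 11455850926) (nat_lit 76) (nat_lit 14870575846) (nat_lit 15) (nat_lit 5) (nat_lit 17) (nat_lit 5) (nat_lit 16) (nat_lit 4) (nat_lit 363) (nat_lit 291) (nat_lit 246))))))))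
noncomputable def xc76 : XT := (XT.nd (nat_lit 1716) (nat_lit 228) (nat_lit 0) (XT.nd (nat_lit 858) (nat_lit 304) (nat_lit 0) (XT.nd (nat_lit 390) (nat_lit 152) (nat_lit 0) (XT.nd (nat_lit 156) (nat_lit 76) (nat_lit 0) (XT.nd (nat_lit 78) (nat_lit 76) (nat_lit 0) (XT.lf (nat_lit 0) (nat_lit 6348836111) (nat_lit 152) (nat_lit 1686739105) (nat_lit 76) (nat_lit 20947852452) (nat_lit 15) (nat_lit 5) (nat_lit 17) (nat_lit 5) (nat_lit 16) (nat_lit 4) (nat_lit 364) (nat_lit 291) (nat_lit 245)) (XT.lf (nat_lit 0) (nat_lit 8763515911) (nat_lit 76) (nat_lit 2723495971) (nat_lit 152) (nat_lit 18663842029) (nat_lit 14) (nat_lit 5) (nat_lit 15) (nat_lit 5) (nat_lit 16) (nat_lit 4) (nat_lit 365) (nat_lit 291) (nat_lit 244))) (XT.nd (nat_lit 78) (nat_lit 76) (nat_lit 0) (XT.lf (nat_lit 0) (nat_lit 16908972325) (nat_lit 152) (nat_lit 11713481543) (nat_lit 0) (nat_lit 2752866490) (nat_lit 14) (nat_lit 5)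 (nat_lit 16) (nat_lit 4) (nat_lit 14) (nat_lit 4) (nat_lit 366) (nat_lit 291) (nat_lit 243)) (XT.nd (nat_lit 78) (nat_lit 76) (nat_lit 0) (XT.lf (nat_lit 0) (nat_lit 22602183016) (nat_lit 152) (nat_lit 1684457513) (nat_lit 0) (nat_lit 8374374070) (nat_lit 14) (nat_lit 5) (nat_lit 16) (nat_lit 4) (nat_lit 14) (nat_lit 4) (nat_lit 367) (nat_lit 291) (nat_lit 242)) (XT.lf (nat_lit 0) (nat_lit 9055982107) (nat_lit 76) (nat_lit 19623084966) (nat_lit 76) (nat_lit 5326987343) (nat_lit 13) (nat_lit 4) (nat_lit 14) (nat_lit 5) (nat_lit 14) (nat_lit 4) (nat_lit 368) (nat_lit 291) (nat_lit 241))))) (XT.nd (nat_lit 234) (nat_lit 0) (nat_lit 0) (XT.nd (nat_lit 78) (nat_lit 152) (nat_lit 0) (XT.lf (nat_lit 0) (nat_lit 20313329119) (nat_lit 76) (nat_lit 14733407723) (nat_lit 76) (nat_lit 372273265) (nat_lit 13) (nat_lit 4) (nat_lit 14) (nat_lit 5) (nat_lit 14) (nat_lit 4) (nat_lit 369) (nat_lit 291) (nat_lit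 240)) (XT.nd (nat_lit 78) (nat_lit 76) (nat_lit 0) (XT.lf (nat_lit 0) (nat_lit 4635316004) (nat_lit 152) (nat_lit 4920676491) (nat_lit 76) (nat_lit 27344873635) (nat_lit 12) (nat_lit 5) (nat_lit 14) (nat_lit 5) (nat_lit 13) (nat_lit 4) (nat_lit 370) (nat_lit 291) (nat_lit 239)) (XT.lf (nat_lit 0) (nat_lit 5883209310) (nat_lit 76) (nat_lit 4051070659) (nat_lit 152) (nat_lit 28519564006) (nat_lit 11) (nat_lit 5) (nat_lit 12) (nat_lit 5) (nat_lit 13) (nat_lit 4) (nat_lit 371) (nat_lit 291) (nat_lit 238)))) (XT.nd (nat_lit 78) (nat_lit 0) (nat_lit 0) (XT.lf (nat_lit 0) (nat_lit 15571725335) (nat_lit 152) (nat_lit 22783300865) (nat_lit 0) (nat_lit 1725776867) (nat_lit 11) (nat_lit 5) (nat_lit 13) (nat_lit 4) (nat_lit 11) (nat_lit 4) (nat_lit 372) (nat_lit 291) (nat_lit 237)) (XT.nd (nat_lit 78) (nat_lit 0) (nat_lit 0) (XT.lf (nat_lit 0) (nat_lit 21521108230) (nat_lit 152) (nat_lit 12642305509)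 (nat_lit 0) (nat_lit 7624201700) (nat_lit 11) (nat_lit 5) (nat_lit 13) (nat_lit 4) (nat_lit 11) (nat_lit 4) (nat_lit 373) (nat_lit 291) (nat_lit 236)) (XT.lf (nat_lit 0) (nat_lit 27733345285) (nat_lit 152) (nat_lit 2060254804) (nat_lit 0) (nat_lit 13787907267) (nat_lit 11) (nat_lit 5) (nat_lit 13) (nat_lit 4) (nat_lit 11) (nat_lit 4) (nat_lit 374) (nat_lit 291) (nat_lit 235)))))) (XT.nd (nat_lit 390) (nat_lit 76) (nat_lit 0) (XT.nd (nat_lit 156) (nat_lit 152) (nat_lit 0) (XT.nd (nat_lit 78) (nat_lit 0) (nat_lit 0) (XT.lf (nat_lit 0) (nat_lit 9285232020) (nat_lit 76) (nat_lit 25082964014) (nat_lit 76) (nat_lit 11091305532) (nat_lit 10) (nat_lit 4) (nat_lit 11) (nat_lit 5) (nat_lit 11) (nat_lit 4) (nat_lit 375) (nat_lit 291) (nat_lit 234)) (XT.lf (nat_lit 0) (nat_lit 21207682492) (nat_lit 76) (nat_lit 20129635962) (nat_lit 76) (nat_lit 6093957990) (nat_lit 10) (nat_lit 4) (nat_lit 11) (nat_lit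 5) (nat_lit 11) (nat_lit 4) (nat_lit 376) (nat_lit 291) (nat_lit 233))) (XT.nd (nat_lit 78) (nat_lit 152) (nat_lit 0) (XT.lf (nat_lit 0) (nat_lit 33667362071) (nat_lit 76) (nat_lit 14956713709) (nat_lit 76) (nat_lit 879112414) (nat_lit 10) (nat_lit 4) (nat_lit 11) (nat_lit 5) (nat_lit 11) (nat_lit 4) (nat_lit 377) (nat_lit 291) (nat_lit 232)) (XT.nd (nat_lit 78) (nat_lit 76) (nat_lit 0) (XT.lf (nat_lit 0) (nat_lit 4419518264) (nat_lit 152) (nat_lit 5057515829) (nat_lit 76) (nat_lit 42199571715) (nat_lit 9) (nat_lit 5) (nat_lit 11) (nat_lit 5) (nat_lit 10) (nat_lit 4) (nat_lit 378) (nat_lit 291) (nat_lit 231)) (XT.lf (nat_lit 0) (nat_lit 6395634682) (nat_lit 76) (nat_lit 3629335387) (nat_lit 152) (nat_lit 43929438074) (nat_lit 8) (nat_lit 5) (nat_lit 9) (nat_lit 5) (nat_lit 10) (nat_lit 4) (nat_lit 379) (nat_lit 291) (nat_lit 230))))) (XT.nd (nat_lit 234) (nat_lit 76) (nat_lit 0) (XT.nd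 (nat_lit 78) (nat_lit 0) (nat_lit 0) (XT.lf (nat_lit 0) (nat_lit 16008648446) (nat_lit 152) (nat_lit 37839882202) (nat_lit 0) (nat_lit 2492678061) (nat_lit 8) (nat_lit 5) (nat_lit 10) (nat_lit 4) (nat_lit 8) (nat_lit 4) (nat_lit 380) (nat_lit 291) (nat_lit 229)) (XT.nd (nat_lit 78) (nat_lit 0) (nat_lit 0) (XT.lf (nat_lit 0) (nat_lit 22324054293) (nat_lit 152) (nat_lit 27746437481) (nat_lit 0) (nat_lit 8775235887) (nat_lit 8) (nat_lit 5) (nat_lit 10) (nat_lit 4) (nat_lit 8) (nat_lit 4) (nat_lit 381) (nat_lit 291) (nat_lit 228)) (XT.lf (nat_lit 0) (nat_lit 28929560194) (nat_lit 152) (nat_lit 17197743189) (nat_lit 0) (nat_lit 15349457958) (nat_lit 8) (nat_lit 5) (nat_lit 10) (nat_lit 4) (nat_lit 8) (nat_lit 4) (nat_lit 382) (nat_lit 291) (nat_lit 227)))) (XT.nd (nat_lit 78) (nat_lit 76) (nat_lit 0) (XT.lf (nat_lit 0) (nat_lit 35840893545) (nat_lit 152) (nat_lit 6168683390) (nat_lit 0) (nat_lit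 22230997186) (nat_lit 8) (nat_lit 5) (nat_lit 10) (nat_lit 4) (nat_lit 8) (nat_lit 4) (nat_lit 383) (nat_lit 291) (nat_lit 226)) (XT.nd (nat_lit 78) (nat_lit 0) (nat_lit 0) (XT.lf (nat_lit 0) (nat_lit 5544458894) (nat_lit 76) (nat_lit 37616615549) (nat_lit 76) (nat_lit 23978343833) (nat_lit 7) (nat_lit 4) (nat_lit 8) (nat_lit 5) (nat_lit 8) (nat_lit 4) (nat_lit 384) (nat_lit 291) (nat_lit 225)) (XT.lf (nat_lit 0) (nat_lit 18013316266) (nat_lit 76) (nat_lit 32915554242) (nat_lit 76) (nat_lit 19250258379) (nat_lit 7) (nat_lit 4) (nat_lit 8) (nat_lit 5) (nat_lit 8) (nat_lit 4) (nat_lit 385) (nat_lit 291) (nat_lit 224))))))) (XT.nd (nat_lit 858) (nat_lit 76) (nat_lit 0) (XT.nd (nat_lit 390) (nat_lit 0) (nat_lit 0) (XT.nd (nat_lit 156) (nat_lit 152) (nat_lit 0) (XT.nd (nat_lit 78) (nat_lit 0) (nat_lit 0) (XT.lf (nat_lit 0) (nat_lit 31063611947) (nat_lit 76) (nat_lit 27999669652) (nat_lit 76)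 (nat_lit 14308636504) (nat_lit 7) (nat_lit 4) (nat_lit 8) (nat_lit 5) (nat_lit 8) (nat_lit 4) (nat_lit 386) (nat_lit 291) (nat_lit 223)) (XT.lf (nat_lit 0) (nat_lit 44726418072) (nat_lit 76) (nat_lit 22857257290) (nat_lit 76) (nat_lit 9141712443) (nat_lit 7) (nat_lit 4) (nat_lit 8) (nat_lit 5) (nat_lit 8) (nat_lit 4) (nat_lit 387) (nat_lit 291) (nat_lit 222))) (XT.nd (nat_lit 78) (nat_lit 152) (nat_lit 0) (XT.lf (nat_lit 0) (nat_lit 59034265131) (nat_lit 76) (nat_lit 17476073317) (nat_lit 76) (nat_lit 3737183995) (nat_lit 7) (nat_lit 4) (nat_lit 8) (nat_lit 5) (nat_lit 8) (nat_lit 4) (nat_lit 388) (nat_lit 291) (nat_lit 221)) (XT.nd (nat_lit 78) (nat_lit 76) (nat_lit 0) (XT.lf (nat_lit 0) (nat_lit 1856434650) (nat_lit 152) (nat_lit 9955431123) (nat_lit 76) (nat_lit 72133345157) (nat_lit 6) (nat_lit 5) (nat_lit 8) (nat_lit 5) (nat_lit 7) (nat_lit 4) (nat_lit 389) (nat_lit 291) (nat_lit 220))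 (XT.lf (nat_lit 0) (nat_lit 1827344708) (nat_lit 76) (nat_lit 5787114312) (nat_lit 152) (nat_lit 80209749019) (nat_lit 5) (nat_lit 5) (nat_lit 6) (nat_lit 5) (nat_lit 7) (nat_lit 4) (nat_lit 390) (nat_lit 291) (nat_lit 219))))) (XT.nd (nat_lit 234) (nat_lit 0) (nat_lit 0) (XT.nd (nat_lit 78) (nat_lit 0) (nat_lit 0) (XT.lf (nat_lit 0) (nat_lit 13822016797) (nat_lit 152) (nat_lit 77390245053) (nat_lit 0) (nat_lit 676814779) (nat_lit 5) (nat_lit 5) (nat_lit 7) (nat_lit 4) (nat_lit 5) (nat_lit 4) (nat_lit 391) (nat_lit 291) (nat_lit 218)) (XT.nd (nat_lit 78) (nat_lit 0) (nat_lit 0) (XT.lf (nat_lit 0) (nat_lit 20417542108) (nat_lit 152) (nat_lit 68481721057) (nat_lit 0) (nat_lit 7254049083) (nat_lit 5) (nat_lit 5) (nat_lit 7) (nat_lit 4) (nat_lit 5) (nat_lit 4) (nat_lit 392) (nat_lit 291) (nat_lit 217)) (XT.lf (nat_lit 0) (nat_lit 27326385514) (nat_lit 152) (nat_lit 59159727498) (nat_lit 0)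 (nat_lit 14145472482) (nat_lit 5) (nat_lit 5) (nat_lit 7) (nat_lit 4) (nat_lit 5) (nat_lit 4) (nat_lit 393) (nat_lit 291) (nat_lit 216)))) (XT.nd (nat_lit 78) (nat_lit 0) (nat_lit 0) (XT.lf (nat_lit 0) (nat_lit 34564996640) (nat_lit 152) (nat_lit 49402069154) (nat_lit 0) (nat_lit 21367493125) (nat_lit 5) (nat_lit 5) (nat_lit 7) (nat_lit 4) (nat_lit 5) (nat_lit 4) (nat_lit 394) (nat_lit 291) (nat_lit 215)) (XT.nd (nat_lit 78) (nat_lit 0) (nat_lit 0) (XT.lf (nat_lit 0) (nat_lit 42150610275) (nat_lit 152) (nat_lit 39185513505) (nat_lit 0) (nat_lit 28937306300) (nat_lit 5) (nat_lit 5) (nat_lit 7) (nat_lit 4) (nat_lit 5) (nat_lit 4) (nat_lit 395) (nat_lit 291) (nat_lit 214)) (XT.lf (nat_lit 0) (nat_lit 50101287404) (nat_lit 152) (nat_lit 28485735417) (nat_lit 0) (nat_lit 36872935373) (nat_lit 5) (nat_lit 5) (nat_lit 7) (nat_lit 4) (nat_lit 5) (nat_lit 4) (nat_lit 396) (nat_lit 291) (nat_lit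 213)))))) (XT.nd (nat_lit 468) (nat_lit 0) (nat_lit 0) (XT.nd (nat_lit 234) (nat_lit 0) (nat_lit 0) (XT.nd (nat_lit 78) (nat_lit 76) (nat_lit 0) (XT.lf (nat_lit 0) (nat_lit 58435958211) (nat_lit 152) (nat_lit 17277259230) (nat_lit 0) (nat_lit 45193274697) (nat_lit 5) (nat_lit 5) (nat_lit 7) (nat_lit 4) (nat_lit 5) (nat_lit 4) (nat_lit 397) (nat_lit 291) (nat_lit 212)) (XT.nd (nat_lit 78) (nat_lit 76) (nat_lit 0) (XT.lf (nat_lit 0) (nat_lit 67174467150) (nat_lit 152) (nat_lit 5533398095) (nat_lit 0) (nat_lit 53918134604) (nat_lit 5) (nat_lit 5) (nat_lit 7) (nat_lit 4) (nat_lit 5) (nat_lit 4) (nat_lit 398) (nat_lit 291) (nat_lit 211)) (XT.lf (nat_lit 0) (nat_lit 6997782296) (nat_lit 76) (nat_lit 69449092891) (nat_lit 76) (nat_lit 56179761267) (nat_lit 4) (nat_lit 4) (nat_lit 5) (nat_lit 5) (nat_lit 5) (nat_lit 4) (nat_lit 399) (nat_lit 291) (nat_lit 210)))) (XT.nd (nat_lit 78) (nat_lit 0)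 (nat_lit 0) (XT.lf (nat_lit 0) (nat_lit 20324166883) (nat_lit 76) (nat_lit 65940384696) (nat_lit 76) (nat_lit 52658672999) (nat_lit 4) (nat_lit 4) (nat_lit 5) (nat_lit 5) (nat_lit 5) (nat_lit 4) (nat_lit 400) (nat_lit 291) (nat_lit 209)) (XT.nd (nat_lit 78) (nat_lit 0) (nat_lit 0) (XT.lf (nat_lit 0) (nat_lit 34294526019) (nat_lit 76) (nat_lit 62267097369) (nat_lit 76) (nat_lit 48973595126) (nat_lit 4) (nat_lit 4) (nat_lit 5) (nat_lit 5) (nat_lit 5) (nat_lit 4) (nat_lit 401) (nat_lit 291) (nat_lit 208)) (XT.lf (nat_lit 0) (nat_lit 48942122465) (nat_lit 76) (nat_lit 58420484988) (nat_lit 76) (nat_lit 45115753653) (nat_lit 4) (nat_lit 4) (nat_lit 5) (nat_lit 5) (nat_lit 5) (nat_lit 4) (nat_lit 402) (nat_lit 291) (nat_lit 207))))) (XT.nd (nat_lit 234) (nat_lit 0) (nat_lit 0) (XT.nd (nat_lit 78) (nat_lit 0) (nat_lit 0) (XT.lf (nat_lit 0) (nat_lit 64301831451) (nat_lit 76) (nat_lit 54391388952)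 (nat_lit 76) (nat_lit 41075963244) (nat_lit 4) (nat_lit 4) (nat_lit 5) (nat_lit 5) (nat_lit 5) (nat_lit 4) (nat_lit 403) (nat_lit 291) (nat_lit 206)) (XT.nd (nat_lit 78) (nat_lit 0) (nat_lit 0) (XT.lf (nat_lit 0) (nat_lit 80410223712) (nat_lit 76) (nat_lit 50170216174) (nat_lit 76) (nat_lit 36844605349) (nat_lit 4) (nat_lit 4) (nat_lit 5) (nat_lit 5) (nat_lit 5) (nat_lit 4) (nat_lit 404) (nat_lit 291) (nat_lit 205)) (XT.lf (nat_lit 0) (nat_lit 97305652564) (nat_lit 76) (nat_lit 45746916244) (nat_lit 76) (nat_lit 32411605307) (nat_lit 4) (nat_lit 4) (nat_lit 5) (nat_lit 5) (nat_lit 5) (nat_lit 4) (nat_lit 405) (nat_lit 291) (nat_lit 204)))) (XT.nd (nat_lit 78) (nat_lit 0) (nat_lit 0) (XT.lf (nat_lit 0) (nat_lit 115028345217) (nat_lit 76) (nat_lit 41110957495) (nat_lit 76) (nat_lit 27766408356) (nat_lit 4) (nat_lit 4) (nat_lit 5) (nat_lit 5) (nat_lit 5) (nat_lit 4) (nat_lit 406) (nat_lit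 291) (nat_lit 203)) (XT.nd (nat_lit 78) (nat_lit 0) (nat_lit 0) (XT.lf (nat_lit 0) (nat_lit 133620498559) (nat_lit 76) (nat_lit 36251301930) (nat_lit 76) (nat_lit 22897954504) (nat_lit 4) (nat_lit 4) (nat_lit 5) (nat_lit 5) (nat_lit 5) (nat_lit 4) (nat_lit 407) (nat_lit 291) (nat_lit 202)) (XT.lf (nat_lit 0) (nat_lit 153126379622) (nat_lit 76) (nat_lit 31156378940) (nat_lit 76) (nat_lit 17794652193) (nat_lit 4) (nat_lit 4) (nat_lit 5) (nat_lit 5) (nat_lit 5) (nat_lit 4) (nat_lit 408) (nat_lit 291) (nat_lit 201))))))))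
noncomputable def xc77 : XT := (XT.nd (nat_lit 1716) (nat_lit 0) (nat_lit 0) (XT.nd (nat_lit 858) (nat_lit 0) (nat_lit 0) (XT.nd (nat_lit 390) (nat_lit 0) (nat_lit 0) (XT.nd (nat_lit 156) (nat_lit 152) (nat_lit 0) (XT.nd (nat_lit 78) (nat_lit 0) (nat_lit 0) (XT.lf (nat_lit 0) (nat_lit 173592430980) (nat_lit 76) (nat_lit 25814057757) (nat_lit 76) (nat_lit 12444350704) (nat_lit 4) (nat_lit 4) (nat_lit 5) (nat_lit 5) (nat_lit 5) (nat_lit 4) (nat_lit 409) (nat_lit 291) (nat_lit 200)) (XT.lf (nat_lit 0) (nat_lit 195067381326) (nat_lit 76) (nat_lit 20211618568) (nat_lit 76) (nat_lit 6834311223) (nat_lit 4) (nat_lit 4) (nat_lit 5) (nat_lit 5) (nat_lit 5) (nat_lit 4) (nat_lit 410) (nat_lit 291) (nat_lit 199))) (XT.nd (nat_lit 78) (nat_lit 152) (nat_lit 0) (XT.lf (nat_lit 0) (nat_lit 217602361495) (nat_lit 76) (nat_lit 14335722232) (nat_lit 76) (nat_lit 951176514) (nat_lit 4) (nat_lit 4) (nat_lit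 5) (nat_lit 5) (nat_lit 5) (nat_lit 4) (nat_lit 411) (nat_lit 291) (nat_lit 198)) (XT.nd (nat_lit 78) (nat_lit 76) (nat_lit 0) (XT.lf (nat_lit 0) (nat_lit 5052018343) (nat_lit 152) (nat_lit 3034801801) (nat_lit 76) (nat_lit 236113449482) (nat_lit 3) (nat_lit 5) (nat_lit 5) (nat_lit 5) (nat_lit 4) (nat_lit 4) (nat_lit 412) (nat_lit 291) (nat_lit 197)) (XT.lf (nat_lit 0) (nat_lit 10125735269) (nat_lit 76) (nat_lit 1349259897) (nat_lit 152) (nat_lit 244593476315) (nat_lit 2) (nat_lit 5) (nat_lit 3) (nat_lit 5) (nat_lit 4) (nat_lit 4) (nat_lit 413) (nat_lit 291) (nat_lit 196))))) (XT.nd (nat_lit 234) (nat_lit 0) (nat_lit 0) (XT.nd (nat_lit 78) (nat_lit 0) (nat_lit 0) (XT.lf (nat_lit 0) (nat_lit 18354262701) (nat_lit 152) (nat_lit 244580761559) (nat_lit 0) (nat_lit 5588303080) (nat_lit 2) (nat_lit 5) (nat_lit 4) (nat_lit 4) (nat_lit 2) (nat_lit 4) (nat_lit 414) (nat_lit 291) (nat_lit 195)) (XT.nd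 (nat_lit 78) (nat_lit 0) (nat_lit 0) (XT.lf (nat_lit 0) (nat_lit 25593438720) (nat_lit 152) (nat_lit 243184883326) (nat_lit 0) (nat_lit 12821807645) (nat_lit 2) (nat_lit 5) (nat_lit 4) (nat_lit 4) (nat_lit 2) (nat_lit 4) (nat_lit 415) (nat_lit 291) (nat_lit 194)) (XT.lf (nat_lit 0) (nat_lit 33188693630) (nat_lit 152) (nat_lit 241730712266) (nat_lit 0) (nat_lit 20411661170) (nat_lit 2) (nat_lit 5) (nat_lit 4) (nat_lit 4) (nat_lit 2) (nat_lit 4) (nat_lit 416) (nat_lit 291) (nat_lit 193)))) (XT.nd (nat_lit 78) (nat_lit 0) (nat_lit 0) (XT.lf (nat_lit 0) (nat_lit 41158111371) (nat_lit 152) (nat_lit 240214786067) (nat_lit 0) (nat_lit 28375934734) (nat_lit 2) (nat_lit 5) (nat_lit 4) (nat_lit 4) (nat_lit 2) (nat_lit 4) (nat_lit 417) (nat_lit 291) (nat_lit 192)) (XT.nd (nat_lit 78) (nat_lit 0) (nat_lit 0) (XT.lf (nat_lit 0) (nat_lit 49520666746) (nat_lit 152) (nat_lit 238633495381) (nat_lit 0) (nat_lit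 36733590894) (nat_lit 2) (nat_lit 5) (nat_lit 4) (nat_lit 4) (nat_lit 2) (nat_lit 4) (nat_lit 418) (nat_lit 291) (nat_lit 191)) (XT.lf (nat_lit 0) (nat_lit 58296270603) (nat_lit 152) (nat_lit 236983075230) (nat_lit 0) (nat_lit 45504528831) (nat_lit 2) (nat_lit 5) (nat_lit 4) (nat_lit 4) (nat_lit 2) (nat_lit 4) (nat_lit 419) (nat_lit 291) (nat_lit 190)))))) (XT.nd (nat_lit 390) (nat_lit 0) (nat_lit 0) (XT.nd (nat_lit 156) (nat_lit 0) (nat_lit 0) (XT.nd (nat_lit 78) (nat_lit 0) (nat_lit 0) (XT.lf (nat_lit 0) (nat_lit 67505817235) (nat_lit 152) (nat_lit 235259596043) (nat_lit 0) (nat_lit 54709631731) (nat_lit 2) (nat_lit 5) (nat_lit 4) (nat_lit 4) (nat_lit 2) (nat_lit 4) (nat_lit 420) (nat_lit 291) (nat_lit 189)) (XT.lf (nat_lit 0) (nat_lit 77171234135) (nat_lit 152) (nat_lit 233458954297) (nat_lit 0) (nat_lit 64370816504) (nat_lit 2) (nat_lit 5) (nat_lit 4) (nat_lit 4) (nat_lit 2) (nat_lit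 4) (nat_lit 421) (nat_lit 291) (nat_lit 188))) (XT.nd (nat_lit 78) (nat_lit 0) (nat_lit 0) (XT.lf (nat_lit 0) (nat_lit 87315534200) (nat_lit 152) (nat_lit 231576862751) (nat_lit 0) (nat_lit 74511085973) (nat_lit 2) (nat_lit 5) (nat_lit 4) (nat_lit 4) (nat_lit 2) (nat_lit 4) (nat_lit 422) (nat_lit 291) (nat_lit 187)) (XT.nd (nat_lit 78) (nat_lit 0) (nat_lit 0) (XT.lf (nat_lit 0) (nat_lit 97962870526) (nat_lit 152) (nat_lit 229608840233) (nat_lit 0) (nat_lit 85154583635) (nat_lit 2) (nat_lit 5) (nat_lit 4) (nat_lit 4) (nat_lit 2) (nat_lit 4) (nat_lit 423) (nat_lit 291) (nat_lit 186)) (XT.lf (nat_lit 0) (nat_lit 109138593914) (nat_lit 152) (nat_lit 227550200977) (nat_lit 0) (nat_lit 96326651152) (nat_lit 2) (nat_lit 5) (nat_lit 4) (nat_lit 4) (nat_lit 2) (nat_lit 4) (nat_lit 424) (nat_lit 291) (nat_lit 185))))) (XT.nd (nat_lit 234) (nat_lit 0) (nat_lit 0) (XT.nd (nat_lit 78) (nat_lit 0) (nat_lit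 0) (XT.lf (nat_lit 0) (nat_lit 120869313228) (nat_lit 152) (nat_lit 225396043459) (nat_lit 0) (nat_lit 108053888685) (nat_lit 2) (nat_lit 5) (nat_lit 4) (nat_lit 4) (nat_lit 2) (nat_lit 4) (nat_lit 425) (nat_lit 291) (nat_lit 184)) (XT.nd (nat_lit 78) (nat_lit 0) (nat_lit 0) (XT.lf (nat_lit 0) (nat_lit 133182958752) (nat_lit 152) (nat_lit 223141238734) (nat_lit 0) (nat_lit 120364218228) (nat_lit 2) (nat_lit 5) (nat_lit 4) (nat_lit 4) (nat_lit 2) (nat_lit 4) (nat_lit 426) (nat_lit 291) (nat_lit 183)) (XT.lf (nat_lit 0) (nat_lit 146108848691) (nat_lit 152) (nat_lit 220780418218) (nat_lit 0) (nat_lit 133286950089) (nat_lit 2) (nat_lit 5) (nat_lit 4) (nat_lit 4) (nat_lit 2) (nat_lit 4) (nat_lit 427) (nat_lit 291) (nat_lit 182)))) (XT.nd (nat_lit 78) (nat_lit 0) (nat_lit 0) (XT.lf (nat_lit 0) (nat_lit 159677758973) (nat_lit 152) (nat_lit 218307960912) (nat_lit 0) (nat_lit 146852852678) (nat_lit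 2) (nat_lit 5) (nat_lit 4) (nat_lit 4) (nat_lit 2) (nat_lit 4) (nat_lit 428) (nat_lit 291) (nat_lit 181)) (XT.nd (nat_lit 78) (nat_lit 0) (nat_lit 0) (XT.lf (nat_lit 0) (nat_lit 173921996527) (nat_lit 152) (nat_lit 215717980010) (nat_lit 0) (nat_lit 161094225761) (nat_lit 2) (nat_lit 5) (nat_lit 4) (nat_lit 4) (nat_lit 2) (nat_lit 4) (nat_lit 429) (nat_lit 291) (nat_lit 180)) (XT.lf (nat_lit 0) (nat_lit 188875476204) (nat_lit 152) (nat_lit 213004308893) (nat_lit 0) (nat_lit 176044977372) (nat_lit 2) (nat_lit 5) (nat_lit 4) (nat_lit 4) (nat_lit 2) (nat_lit 4) (nat_lit 430) (nat_lit 291) (nat_lit 179))))))) (XT.nd (nat_lit 38532) (nat_lit 0) (nat_lit 3344) (XT.nd (nat_lit 38064) (nat_lit 0) (nat_lit 5548) (XT.nd (nat_lit 156) (nat_lit 0) (nat_lit 0) (XT.nd (nat_lit 78) (nat_lit 0) (nat_lit 0) (XT.lf (nat_lit 0) (nat_lit 204573801527) (nat_lit 152) (nat_lit 210160486439) (nat_lit 0) (nat_lit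 191740704537) (nat_lit 2) (nat_lit 5) (nat_lit 4) (nat_lit 4) (nat_lit 2) (nat_lit 4) (nat_lit 431) (nat_lit 291) (nat_lit 178)) (XT.lf (nat_lit 0) (nat_lit 221054349462) (nat_lit 152) (nat_lit 207179741641) (nat_lit 0) (nat_lit 208218778035) (nat_lit 2) (nat_lit 5) (nat_lit 4) (nat_lit 4) (nat_lit 2) (nat_lit 4) (nat_lit 432) (nat_lit 291) (nat_lit 177))) (XT.nd (nat_lit 37752) (nat_lit 0) (nat_lit 7068) (XT.lf (nat_lit 0) (nat_lit 238356359408) (nat_lit 152) (nat_lit 204054977489) (nat_lit 0) (nat_lit 225518431374) (nat_lit 2) (nat_lit 5) (nat_lit 4) (nat_lit 4) (nat_lit 2) (nat_lit 4) (nat_lit 433) (nat_lit 291) (nat_lit 176)) (XT.nd (nat_lit 78) (nat_lit 836) (nat_lit 0) (XT.lf (nat_lit 0) (nat_lit 2307516364) (nat_lit 684) (nat_lit 651279143) (nat_lit 684) (nat_lit 651279143) (nat_lit 106) (nat_lit 4) (nat_lit 115) (nat_lit 5) (nat_lit 115) (nat_lit 4) (nat_lit 316) (nat_lit 292) (nat_lit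 292)) (XT.lf (nat_lit 0) (nat_lit 2056453012) (nat_lit 836) (nat_lit 4761470601) (nat_lit 0) (nat_lit 505981332) (nat_lit 95) (nat_lit 5) (nat_lit 106) (nat_lit 4) (nat_lit 95) (nat_lit 4) (nat_lit 317) (nat_lit 292) (nat_lit 291))))) (XT.nd (nat_lit 234) (nat_lit 760) (nat_lit 0) (XT.nd (nat_lit 78) (nat_lit 380) (nat_lit 0) (XT.lf (nat_lit 0) (nat_lit 442415307) (nat_lit 380) (nat_lit 5010530166) (nat_lit 380) (nat_lit 1983418789) (nat_lit 90) (nat_lit 4) (nat_lit 95) (nat_lit 5) (nat_lit 95) (nat_lit 4) (nat_lit 318) (nat_lit 292) (nat_lit 290)) (XT.nd (nat_lit 78) (nat_lit 304) (nat_lit 0) (XT.lf (nat_lit 0) (nat_lit 1342224472) (nat_lit 456) (nat_lit 1681874728) (nat_lit 76) (nat_lit 4533214951) (nat_lit 89) (nat_lit 5) (nat_lit 95) (nat_lit 5) (nat_lit 90) (nat_lit 4) (nat_lit 319) (nat_lit 292) (nat_lit 289)) (XT.lf (nat_lit 0) (nat_lit 3814842872) (nat_lit 304) (nat_lit 862051519)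 (nat_lit 380) (nat_lit 3010536310) (nat_lit 85) (nat_lit 5) (nat_lit 89) (nat_lit 5) (nat_lit 90) (nat_lit 4) (nat_lit 320) (nat_lit 292) (nat_lit 288)))) (XT.nd (nat_lit 78) (nat_lit 304) (nat_lit 0) (XT.lf (nat_lit 0) (nat_lit 272745479) (nat_lit 456) (nat_lit 6153602737) (nat_lit 76) (nat_lit 1401131340) (nat_lit 79) (nat_lit 5) (nat_lit 85) (nat_lit 5) (nat_lit 80) (nat_lit 4) (nat_lit 321) (nat_lit 292) (nat_lit 287)) (XT.nd (nat_lit 78) (nat_lit 304) (nat_lit 0) (XT.lf (nat_lit 0) (nat_lit 3555585784) (nat_lit 456) (nat_lit 580765953) (nat_lit 76) (nat_lit 3839068727) (nat_lit 79) (nat_lit 5) (nat_lit 85) (nat_lit 5) (nat_lit 80) (nat_lit 4) (nat_lit 322) (nat_lit 292) (nat_lit 286)) (XT.lf (nat_lit 0) (nat_lit 5270775826) (nat_lit 304) (nat_lit 1676728521) (nat_lit 380) (nat_lit 1186184088) (nat_lit 75) (nat_lit 5) (nat_lit 79) (nat_lit 5) (nat_lit 80) (nat_lit 4) (nat_lit 323) (nat_lit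 292) (nat_lit 285)))))) (XT.nd (nat_lit 468) (nat_lit 912) (nat_lit 0) (XT.nd (nat_lit 234) (nat_lit 608) (nat_lit 0) (XT.nd (nat_lit 78) (nat_lit 304) (nat_lit 0) (XT.lf (nat_lit 0) (nat_lit 2075053764) (nat_lit 380) (nat_lit 5289976306) (nat_lit 76) (nat_lit 936445011) (nat_lit 70) (nat_lit 5) (nat_lit 75) (nat_lit 5) (nat_lit 71) (nat_lit 4) (nat_lit 324) (nat_lit 292) (nat_lit 284)) (XT.nd (nat_lit 78) (nat_lit 76) (nat_lit 0) (XT.lf (nat_lit 0) (nat_lit 601315339) (nat_lit 228) (nat_lit 4811858795) (nat_lit 304) (nat_lit 3065973185) (nat_lit 67) (nat_lit 5) (nat_lit 70) (nat_lit 5) (nat_lit 71) (nat_lit 4) (nat_lit 325) (nat_lit 292) (nat_lit 283)) (XT.lf (nat_lit 0) (nat_lit 204384247) (nat_lit 304) (nat_lit 1871473933) (nat_lit 76) (nat_lit 6591788013) (nat_lit 66) (nat_lit 5) (nat_lit 70) (nat_lit 5) (nat_lit 67) (nat_lit 5) (nat_lit 326) (nat_lit 292) (nat_lit 282)))) (XT.nd (nat_lit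 78) (nat_lit 304) (nat_lit 0) (XT.lf (nat_lit 0) (nat_lit 3492121711) (nat_lit 380) (nat_lit 4522656172) (nat_lit 76) (nat_lit 850566039) (nat_lit 62) (nat_lit 5) (nat_lit 67) (nat_lit 5) (nat_lit 63) (nat_lit 4) (nat_lit 327) (nat_lit 292) (nat_lit 281)) (XT.nd (nat_lit 78) (nat_lit 76) (nat_lit 0) (XT.lf (nat_lit 0) (nat_lit 1711281471) (nat_lit 228) (nat_lit 5203782290) (nat_lit 304) (nat_lit 2159447563) (nat_lit 59) (nat_lit 5) (nat_lit 62) (nat_lit 5) (nat_lit 63) (nat_lit 4) (nat_lit 328) (nat_lit 292) (nat_lit 280)) (XT.lf (nat_lit 0) (nat_lit 1132969517) (nat_lit 304) (nat_lit 1068100689) (nat_lit 76) (nat_lit 7094390294) (nat_lit 58) (nat_lit 5) (nat_lit 62) (nat_lit 5) (nat_lit 59) (nat_lit 5) (nat_lit 329) (nat_lit 292) (nat_lit 279))))) (XT.nd (nat_lit 234) (nat_lit 456) (nat_lit 0) (XT.nd (nat_lit 78) (nat_lit 228) (nat_lit 0) (XT.lf (nat_lit 0) (nat_lit 4504471346) (nat_lit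 304) (nat_lit 4023635234) (nat_lit 76) (nat_lit 998337301) (nat_lit 55) (nat_lit 5) (nat_lit 59) (nat_lit 5) (nat_lit 56) (nat_lit 4) (nat_lit 330) (nat_lit 292) (nat_lit 278)) (XT.nd (nat_lit 78) (nat_lit 76) (nat_lit 0) (XT.lf (nat_lit 0) (nat_lit 2550878217) (nat_lit 152) (nat_lit 5474942621) (nat_lit 228) (nat_lit 1744195354) (nat_lit 53) (nat_lit 5) (nat_lit 55) (nat_lit 5) (nat_lit 56) (nat_lit 4) (nat_lit 331) (nat_lit 292) (nat_lit 277)) (XT.lf (nat_lit 0) (nat_lit 1600313767) (nat_lit 228) (nat_lit 622958097) (nat_lit 76) (nat_lit 7803405281) (nat_lit 52) (nat_lit 5) (nat_lit 55) (nat_lit 5) (nat_lit 53) (nat_lit 5) (nat_lit 332) (nat_lit 292) (nat_lit 276)))) (XT.nd (nat_lit 78) (nat_lit 228) (nat_lit 0) (XT.lf (nat_lit 0) (nat_lit 5065188404) (nat_lit 304) (nat_lit 3997302119) (nat_lit 76) (nat_lit 1231752441) (nat_lit 49) (nat_lit 5) (nat_lit 53) (nat_lit 5) (nat_lit 50) (nat_lit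 4) (nat_lit 333) (nat_lit 292) (nat_lit 275)) (XT.nd (nat_lit 78) (nat_lit 76) (nat_lit 0) (XT.lf (nat_lit 0) (nat_lit 2905415239) (nat_lit 152) (nat_lit 5785502874) (nat_lit 228) (nat_lit 1884973454) (nat_lit 47) (nat_lit 5) (nat_lit 49) (nat_lit 5) (nat_lit 50) (nat_lit 4) (nat_lit 334) (nat_lit 292) (nat_lit 274)) (XT.lf (nat_lit 0) (nat_lit 1538914928) (nat_lit 228) (nat_lit 764380055) (nat_lit 76) (nat_lit 8568902435) (nat_lit 46) (nat_lit 5) (nat_lit 49) (nat_lit 5) (nat_lit 47) (nat_lit 5) (nat_lit 335) (nat_lit 292) (nat_lit 273))))))))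
noncomputable def xc78 : XT := (XT.nd (nat_lit 1716) (nat_lit 912) (nat_lit 0) (XT.nd (nat_lit 858) (nat_lit 684) (nat_lit 0) (XT.nd (nat_lit 390) (nat_lit 532) (nat_lit 0) (XT.nd (nat_lit 156) (nat_lit 380) (nat_lit 0) (XT.nd (nat_lit 78) (nat_lit 152) (nat_lit 0) (XT.lf (nat_lit 0) (nat_lit 5095548329) (nat_lit 304) (nat_lit 4693656874) (nat_lit 76) (nat_lit 1391396872) (nat_lit 43) (nat_lit 5) (nat_lit 47) (nat_lit 5) (nat_lit 44) (nat_lit 4) (nat_lit 336) (nat_lit 292) (nat_lit 272)) (XT.lf (nat_lit 0) (nat_lit 2510410220) (nat_lit 152) (nat_lit 6312027323) (nat_lit 228) (nat_lit 2682438192) (nat_lit 41) (nat_lit 5) (nat_lit 43) (nat_lit 5) (nat_lit 44) (nat_lit 4) (nat_lit 337) (nat_lit 292) (nat_lit 271))) (XT.nd (nat_lit 78) (nat_lit 304) (nat_lit 0) (XT.lf (nat_lit 0) (nat_lit 845551795) (nat_lit 228) (nat_lit 1775283510) (nat_lit 76) (nat_lit 9224709281) (nat_lit 40) (nat_lit 5)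 (nat_lit 43) (nat_lit 5) (nat_lit 41) (nat_lit 5) (nat_lit 338) (nat_lit 292) (nat_lit 270)) (XT.nd (nat_lit 78) (nat_lit 152) (nat_lit 0) (XT.lf (nat_lit 0) (nat_lit 4478794327) (nat_lit 228) (nat_lit 6424560617) (nat_lit 76) (nat_lit 1296803638) (nat_lit 38) (nat_lit 5) (nat_lit 41) (nat_lit 5) (nat_lit 39) (nat_lit 4) (nat_lit 339) (nat_lit 292) (nat_lit 269)) (XT.lf (nat_lit 0) (nat_lit 1034121680) (nat_lit 152) (nat_lit 7258051417) (nat_lit 228) (nat_lit 4280464045) (nat_lit 36) (nat_lit 5) (nat_lit 38) (nat_lit 5) (nat_lit 39) (nat_lit 4) (nat_lit 340) (nat_lit 292) (nat_lit 268))))) (XT.nd (nat_lit 234) (nat_lit 304) (nat_lit 0) (XT.nd (nat_lit 78) (nat_lit 228) (nat_lit 0) (XT.lf (nat_lit 0) (nat_lit 8941029912) (nat_lit 152) (nat_lit 3374835555) (nat_lit 228) (nat_lit 646946761) (nat_lit 36) (nat_lit 5) (nat_lit 38) (nat_lit 5) (nat_lit 39) (nat_lit 4) (nat_lit 341) (nat_lit 292)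 (nat_lit 267)) (XT.nd (nat_lit 78) (nat_lit 0) (nat_lit 0) (XT.lf (nat_lit 0) (nat_lit 3051662979) (nat_lit 228) (nat_lit 9583982172) (nat_lit 76) (nat_lit 735186374) (nat_lit 33) (nat_lit 5) (nat_lit 36) (nat_lit 5) (nat_lit 34) (nat_lit 4) (nat_lit 342) (nat_lit 292) (nat_lit 266)) (XT.lf (nat_lit 0) (nat_lit 6952677073) (nat_lit 228) (nat_lit 1882043004) (nat_lit 76) (nat_lit 4962088014) (nat_lit 33) (nat_lit 5) (nat_lit 36) (nat_lit 5) (nat_lit 34) (nat_lit 4) (nat_lit 343) (nat_lit 292) (nat_lit 265)))) (XT.nd (nat_lit 78) (nat_lit 228) (nat_lit 0) (XT.lf (nat_lit 0) (nat_lit 6267802775) (nat_lit 76) (nat_lit 4797523680) (nat_lit 152) (nat_lit 3177972910) (nat_lit 32) (nat_lit 5) (nat_lit 33) (nat_lit 5) (nat_lit 34) (nat_lit 4) (nat_lit 344) (nat_lit 292) (nat_lit 264)) (XT.nd (nat_lit 78) (nat_lit 0) (nat_lit 0) (XT.lf (nat_lit 0) (nat_lit 31675715) (nat_lit 152) (nat_lit 570350639)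 (nat_lit 228) (nat_lit 14112004308) (nat_lit 29) (nat_lit 5) (nat_lit 31) (nat_lit 5) (nat_lit 32) (nat_lit 5) (nat_lit 345) (nat_lit 292) (nat_lit 263)) (XT.lf (nat_lit 0) (nat_lit 4581873712) (nat_lit 228) (nat_lit 6739320492) (nat_lit 76) (nat_lit 3878655946) (nat_lit 29) (nat_lit 5) (nat_lit 32) (nat_lit 5) (nat_lit 30) (nat_lit 4) (nat_lit 346) (nat_lit 292) (nat_lit 262)))))) (XT.nd (nat_lit 390) (nat_lit 304) (nat_lit 0) (XT.nd (nat_lit 156) (nat_lit 304) (nat_lit 0) (XT.nd (nat_lit 78) (nat_lit 0) (nat_lit 0) (XT.lf (nat_lit 0) (nat_lit 1507215038) (nat_lit 76) (nat_lit 7210163663) (nat_lit 152) (nat_lit 6994785759) (nat_lit 28) (nat_lit 5) (nat_lit 29) (nat_lit 5) (nat_lit 30) (nat_lit 4) (nat_lit 347) (nat_lit 292) (nat_lit 261)) (XT.lf (nat_lit 0) (nat_lit 10269648163) (nat_lit 76) (nat_lit 2829521238) (nat_lit 152) (nat_lit 3148984907) (nat_lit 28) (nat_lit 5) (nat_lit 29) (nat_lit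 5) (nat_lit 30) (nat_lit 4) (nat_lit 348) (nat_lit 292) (nat_lit 260))) (XT.nd (nat_lit 78) (nat_lit 76) (nat_lit 0) (XT.lf (nat_lit 0) (nat_lit 856688966) (nat_lit 228) (nat_lit 14237501335) (nat_lit 76) (nat_lit 1716289335) (nat_lit 25) (nat_lit 5) (nat_lit 28) (nat_lit 5) (nat_lit 26) (nat_lit 4) (nat_lit 349) (nat_lit 292) (nat_lit 259)) (XT.nd (nat_lit 78) (nat_lit 76) (nat_lit 0) (XT.lf (nat_lit 0) (nat_lit 5034503303) (nat_lit 228) (nat_lit 5863231643) (nat_lit 76) (nat_lit 6496751516) (nat_lit 25) (nat_lit 5) (nat_lit 28) (nat_lit 5) (nat_lit 26) (nat_lit 4) (nat_lit 350) (nat_lit 292) (nat_lit 258)) (XT.lf (nat_lit 0) (nat_lit 2901373661) (nat_lit 76) (nat_lit 6496932322) (nat_lit 152) (nat_lit 8610561841) (nat_lit 24) (nat_lit 5) (nat_lit 25) (nat_lit 5) (nat_lit 26) (nat_lit 4) (nat_lit 351) (nat_lit 292) (nat_lit 257))))) (XT.nd (nat_lit 234) (nat_lit 76) (nat_lit 0) (XT.nd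 (nat_lit 78) (nat_lit 228) (nat_lit 0) (XT.lf (nat_lit 0) (nat_lit 12188482929) (nat_lit 76) (nat_lit 1824296885) (nat_lit 152) (nat_lit 4639592083) (nat_lit 24) (nat_lit 5) (nat_lit 25) (nat_lit 5) (nat_lit 26) (nat_lit 4) (nat_lit 352) (nat_lit 292) (nat_lit 256)) (XT.nd (nat_lit 78) (nat_lit 76) (nat_lit 0) (XT.lf (nat_lit 0) (nat_lit 2528679685) (nat_lit 152) (nat_lit 16352481494) (nat_lit 152) (nat_lit 445757176) (nat_lit 22) (nat_lit 4) (nat_lit 24) (nat_lit 5) (nat_lit 24) (nat_lit 4) (nat_lit 353) (nat_lit 292) (nat_lit 255)) (XT.lf (nat_lit 0) (nat_lit 3908077931) (nat_lit 228) (nat_lit 8044230176) (nat_lit 76) (nat_lit 8075969268) (nat_lit 21) (nat_lit 5) (nat_lit 24) (nat_lit 5) (nat_lit 22) (nat_lit 4) (nat_lit 354) (nat_lit 292) (nat_lit 254)))) (XT.nd (nat_lit 78) (nat_lit 0) (nat_lit 0) (XT.lf (nat_lit 0) (nat_lit 1063439435) (nat_lit 76) (nat_lit 7356656478) (nat_lit 152)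 (nat_lit 12346492264) (nat_lit 20) (nat_lit 5) (nat_lit 21) (nat_lit 5) (nat_lit 22) (nat_lit 4) (nat_lit 355) (nat_lit 292) (nat_lit 253)) (XT.nd (nat_lit 78) (nat_lit 0) (nat_lit 0) (XT.lf (nat_lit 0) (nat_lit 10796788109) (nat_lit 76) (nat_lit 2437237357) (nat_lit 152) (nat_lit 8303995220) (nat_lit 20) (nat_lit 5) (nat_lit 21) (nat_lit 5) (nat_lit 22) (nat_lit 4) (nat_lit 356) (nat_lit 292) (nat_lit 252)) (XT.lf (nat_lit 0) (nat_lit 18273447302) (nat_lit 152) (nat_lit 1479751646) (nat_lit 0) (nat_lit 2595606747) (nat_lit 20) (nat_lit 5) (nat_lit 22) (nat_lit 4) (nat_lit 20) (nat_lit 4) (nat_lit 357) (nat_lit 292) (nat_lit 251))))))) (XT.nd (nat_lit 858) (nat_lit 380) (nat_lit 0) (XT.nd (nat_lit 390) (nat_lit 304) (nat_lit 0) (XT.nd (nat_lit 156) (nat_lit 76) (nat_lit 0) (XT.nd (nat_lit 78) (nat_lit 0) (nat_lit 0) (XT.lf (nat_lit 0) (nat_lit 470531268) (nat_lit 152) (nat_lit 14830048267)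 (nat_lit 76) (nat_lit 7893409755) (nat_lit 18) (nat_lit 5) (nat_lit 20) (nat_lit 5) (nat_lit 19) (nat_lit 4) (nat_lit 358) (nat_lit 292) (nat_lit 250)) (XT.lf (nat_lit 0) (nat_lit 5077350239) (nat_lit 152) (nat_lit 5497304435) (nat_lit 76) (nat_lit 13504925104) (nat_lit 18) (nat_lit 5) (nat_lit 20) (nat_lit 5) (nat_lit 19) (nat_lit 4) (nat_lit 359) (nat_lit 292) (nat_lit 249))) (XT.nd (nat_lit 78) (nat_lit 0) (nat_lit 0) (XT.lf (nat_lit 0) (nat_lit 4344855900) (nat_lit 76) (nat_lit 5585225308) (nat_lit 152) (nat_lit 15078607032) (nat_lit 17) (nat_lit 5) (nat_lit 18) (nat_lit 5) (nat_lit 19) (nat_lit 4) (nat_lit 360) (nat_lit 292) (nat_lit 248)) (XT.nd (nat_lit 78) (nat_lit 0) (nat_lit 0) (XT.lf (nat_lit 0) (nat_lit 14775247993) (nat_lit 76) (nat_lit 292045688) (nat_lit 152) (nat_lit 10914882386) (nat_lit 17) (nat_lit 5) (nat_lit 18) (nat_lit 5) (nat_lit 19) (nat_lit 4) (nat_lit 361) (nat_lit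 292) (nat_lit 247)) (XT.lf (nat_lit 0) (nat_lit 20494120248) (nat_lit 152) (nat_lit 1451421329) (nat_lit 0) (nat_lit 5057174456) (nat_lit 17) (nat_lit 5) (nat_lit 19) (nat_lit 4) (nat_lit 17) (nat_lit 4) (nat_lit 362) (nat_lit 292) (nat_lit 246))))) (XT.nd (nat_lit 234) (nat_lit 76) (nat_lit 0) (XT.nd (nat_lit 78) (nat_lit 152) (nat_lit 0) (XT.lf (nat_lit 0) (nat_lit 8987068828) (nat_lit 76) (nat_lit 17303215215) (nat_lit 76) (nat_lit 1779113844) (nat_lit 16) (nat_lit 4) (nat_lit 17) (nat_lit 5) (nat_lit 17) (nat_lit 4) (nat_lit 363) (nat_lit 292) (nat_lit 245)) (XT.nd (nat_lit 78) (nat_lit 76) (nat_lit 0) (XT.lf (nat_lit 0) (nat_lit 3062847467) (nat_lit 152) (nat_lit 9328269375) (nat_lit 76) (nat_lit 16796922331) (nat_lit 15) (nat_lit 5) (nat_lit 17) (nat_lit 5) (nat_lit 16) (nat_lit 4) (nat_lit 364) (nat_lit 292) (nat_lit 244)) (XT.lf (nat_lit 0) (nat_lit 827183842) (nat_lit 76) (nat_lit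 7228105526) (nat_lit 152) (nat_lit 22307468930) (nat_lit 14) (nat_lit 5) (nat_lit 15) (nat_lit 5) (nat_lit 16) (nat_lit 4) (nat_lit 365) (nat_lit 292) (nat_lit 243)))) (XT.nd (nat_lit 78) (nat_lit 76) (nat_lit 0) (XT.lf (nat_lit 0) (nat_lit 11731996160) (nat_lit 76) (nat_lit 1679439834) (nat_lit 152) (nat_lit 18179085335) (nat_lit 14) (nat_lit 5) (nat_lit 15) (nat_lit 5) (nat_lit 16) (nat_lit 4) (nat_lit 366) (nat_lit 292) (nat_lit 242)) (XT.nd (nat_lit 78) (nat_lit 76) (nat_lit 0) (XT.lf (nat_lit 0) (nat_lit 19057754495) (nat_lit 152) (nat_lit 9842247984) (nat_lit 0) (nat_lit 3978563314) (nat_lit 14) (nat_lit 5) (nat_lit 16) (nat_lit 4) (nat_lit 14) (nat_lit 4) (nat_lit 367) (nat_lit 292) (nat_lit 241)) (XT.lf (nat_lit 0) (nat_lit 590119143) (nat_lit 76) (nat_lit 24392656488) (nat_lit 76) (nat_lit 9248428471) (nat_lit 13) (nat_lit 4) (nat_lit 14) (nat_lit 5) (nat_lit 14) (nat_lit 4) (nat_lit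 368) (nat_lit 292) (nat_lit 240)))))) (XT.nd (nat_lit 468) (nat_lit 228) (nat_lit 0) (XT.nd (nat_lit 234) (nat_lit 76) (nat_lit 0) (XT.nd (nat_lit 78) (nat_lit 76) (nat_lit 0) (XT.lf (nat_lit 0) (nat_lit 11810952729) (nat_lit 76) (nat_lit 19520172999) (nat_lit 76) (nat_lit 4314005140) (nat_lit 13) (nat_lit 4) (nat_lit 14) (nat_lit 5) (nat_lit 14) (nat_lit 4) (nat_lit 369) (nat_lit 292) (nat_lit 239)) (XT.nd (nat_lit 78) (nat_lit 0) (nat_lit 0) (XT.lf (nat_lit 0) (nat_lit 801038151) (nat_lit 152) (nat_lit 13623029975) (nat_lit 76) (nat_lit 22706935758) (nat_lit 12) (nat_lit 5) (nat_lit 14) (nat_lit 5) (nat_lit 13) (nat_lit 4) (nat_lit 370) (nat_lit 292) (nat_lit 238)) (XT.lf (nat_lit 0) (nat_lit 5990333478) (nat_lit 152) (nat_lit 3041155817) (nat_lit 76) (nat_lit 29657980263) (nat_lit 12) (nat_lit 5) (nat_lit 14) (nat_lit 5) (nat_lit 13) (nat_lit 4) (nat_lit 371) (nat_lit 292) (nat_lit 237))))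 (XT.nd (nat_lit 78) (nat_lit 0) (nat_lit 0) (XT.lf (nat_lit 0) (nat_lit 8268641137) (nat_lit 76) (nat_lit 3264766936) (nat_lit 152) (nat_lit 28787743306) (nat_lit 11) (nat_lit 5) (nat_lit 12) (nat_lit 5) (nat_lit 13) (nat_lit 4) (nat_lit 372) (nat_lit 292) (nat_lit 236)) (XT.nd (nat_lit 78) (nat_lit 0) (nat_lit 0) (XT.lf (nat_lit 0) (nat_lit 17414933448) (nat_lit 152) (nat_lit 21892735125) (nat_lit 0) (nat_lit 2723692042) (nat_lit 11) (nat_lit 5) (nat_lit 13) (nat_lit 4) (nat_lit 11) (nat_lit 4) (nat_lit 373) (nat_lit 292) (nat_lit 235)) (XT.lf (nat_lit 0) (nat_lit 23611089209) (nat_lit 152) (nat_lit 11341343848) (nat_lit 0) (nat_lit 8873627339) (nat_lit 11) (nat_lit 5) (nat_lit 13) (nat_lit 4) (nat_lit 11) (nat_lit 4) (nat_lit 374) (nat_lit 292) (nat_lit 234))))) (XT.nd (nat_lit 234) (nat_lit 152) (nat_lit 0) (XT.nd (nat_lit 78) (nat_lit 76) (nat_lit 0) (XT.lf (nat_lit 0) (nat_lit 30085655947)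 (nat_lit 152) (nat_lit 322241890) (nat_lit 0) (nat_lit 15304174587) (nat_lit 11) (nat_lit 5) (nat_lit 13) (nat_lit 4) (nat_lit 11) (nat_lit 4) (nat_lit 375) (nat_lit 292) (nat_lit 233)) (XT.nd (nat_lit 78) (nat_lit 0) (nat_lit 0) (XT.lf (nat_lit 0) (nat_lit 11560825313) (nat_lit 76) (nat_lit 25473720865) (nat_lit 76) (nat_lit 10650316181) (nat_lit 10) (nat_lit 4) (nat_lit 11) (nat_lit 5) (nat_lit 11) (nat_lit 4) (nat_lit 376) (nat_lit 292) (nat_lit 232)) (XT.lf (nat_lit 0) (nat_lit 23993144419) (nat_lit 76) (nat_lit 20313840285) (nat_lit 76) (nat_lit 5450508626) (nat_lit 10) (nat_lit 4) (nat_lit 11) (nat_lit 5) (nat_lit 11) (nat_lit 4) (nat_lit 377) (nat_lit 292) (nat_lit 231)))) (XT.nd (nat_lit 78) (nat_lit 152) (nat_lit 0) (XT.lf (nat_lit 0) (nat_lit 36993661415) (nat_lit 76) (nat_lit 14921427990) (nat_lit 76) (nat_lit 20070640) (nat_lit 10) (nat_lit 4) (nat_lit 11) (nat_lit 5) (nat_lit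 11) (nat_lit 4) (nat_lit 378) (nat_lit 292) (nat_lit 230)) (XT.nd (nat_lit 78) (nat_lit 76) (nat_lit 0) (XT.lf (nat_lit 0) (nat_lit 5472966404) (nat_lit 152) (nat_lit 3717991163) (nat_lit 76) (nat_lit 45027676173) (nat_lit 9) (nat_lit 5) (nat_lit 11) (nat_lit 5) (nat_lit 10) (nat_lit 4) (nat_lit 379) (nat_lit 292) (nat_lit 229)) (XT.lf (nat_lit 0) (nat_lit 8282132995) (nat_lit 76) (nat_lit 3061377107) (nat_lit 152) (nat_lit 45267583638) (nat_lit 8) (nat_lit 5) (nat_lit 9) (nat_lit 5) (nat_lit 10) (nat_lit 4) (nat_lit 380) (nat_lit 292) (nat_lit 228))))))))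
noncomputable def xc79 : XT := (XT.nd (nat_lit 1794) (nat_lit 152) (nat_lit 0) (XT.nd (nat_lit 858) (nat_lit 76) (nat_lit 0) (XT.nd (nat_lit 390) (nat_lit 152) (nat_lit 0) (XT.nd (nat_lit 156) (nat_lit 76) (nat_lit 0) (XT.nd (nat_lit 78) (nat_lit 0) (nat_lit 0) (XT.lf (nat_lit 0) (nat_lit 17598597206) (nat_lit 152) (nat_lit 38211827965) (nat_lit 0) (nat_lit 3308206028) (nat_lit 8) (nat_lit 5) (nat_lit 10) (nat_lit 4) (nat_lit 8) (nat_lit 4) (nat_lit 381) (nat_lit 292) (nat_lit 227)) (XT.lf (nat_lit 0) (nat_lit 24192177329) (nat_lit 152) (nat_lit 27686094262) (nat_lit 0) (nat_lit 9871992028) (nat_lit 8) (nat_lit 5) (nat_lit 10) (nat_lit 4) (nat_lit 8) (nat_lit 4) (nat_lit 382) (nat_lit 292) (nat_lit 226))) (XT.nd (nat_lit 78) (nat_lit 76) (nat_lit 0) (XT.lf (nat_lit 0) (nat_lit 31092152796) (nat_lit 152) (nat_lit 16678901689) (nat_lit 0) (nat_lit 16743592139) (nat_lit 8) (nat_lit 5) (nat_lit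 10) (nat_lit 4) (nat_lit 8) (nat_lit 4) (nat_lit 383) (nat_lit 292) (nat_lit 225)) (XT.nd (nat_lit 78) (nat_lit 76) (nat_lit 0) (XT.lf (nat_lit 0) (nat_lit 38314952120) (nat_lit 152) (nat_lit 5164042645) (nat_lit 0) (nat_lit 23939367315) (nat_lit 8) (nat_lit 5) (nat_lit 10) (nat_lit 4) (nat_lit 8) (nat_lit 4) (nat_lit 384) (nat_lit 292) (nat_lit 224)) (XT.lf (nat_lit 0) (nat_lit 7113578125) (nat_lit 76) (nat_lit 38875257206) (nat_lit 76) (nat_lit 24473935117) (nat_lit 7) (nat_lit 4) (nat_lit 8) (nat_lit 5) (nat_lit 8) (nat_lit 4) (nat_lit 385) (nat_lit 292) (nat_lit 223))))) (XT.nd (nat_lit 234) (nat_lit 152) (nat_lit 0) (XT.nd (nat_lit 78) (nat_lit 0) (nat_lit 0) (XT.lf (nat_lit 0) (nat_lit 20144359494) (nat_lit 76) (nat_lit 33968770888) (nat_lit 76) (nat_lit 19542937099) (nat_lit 7) (nat_lit 4) (nat_lit 8) (nat_lit 5) (nat_lit 8) (nat_lit 4) (nat_lit 386) (nat_lit 292) (nat_lit 222))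 (XT.nd (nat_lit 78) (nat_lit 0) (nat_lit 0) (XT.lf (nat_lit 0) (nat_lit 33788580560) (nat_lit 76) (nat_lit 28835309261) (nat_lit 76) (nat_lit 14386130998) (nat_lit 7) (nat_lit 4) (nat_lit 8) (nat_lit 5) (nat_lit 8) (nat_lit 4) (nat_lit 387) (nat_lit 292) (nat_lit 221)) (XT.lf (nat_lit 0) (nat_lit 48078727561) (nat_lit 76) (nat_lit 23462649799) (nat_lit 76) (nat_lit 8991238702) (nat_lit 7) (nat_lit 4) (nat_lit 8) (nat_lit 5) (nat_lit 8) (nat_lit 4) (nat_lit 388) (nat_lit 292) (nat_lit 220)))) (XT.nd (nat_lit 78) (nat_lit 152) (nat_lit 0) (XT.lf (nat_lit 0) (nat_lit 63048824659) (nat_lit 76) (nat_lit 17838000455) (nat_lit 76) (nat_lit 3345415230) (nat_lit 7) (nat_lit 4) (nat_lit 8) (nat_lit 5) (nat_lit 8) (nat_lit 4) (nat_lit 389) (nat_lit 292) (nat_lit 219)) (XT.nd (nat_lit 78) (nat_lit 76) (nat_lit 0) (XT.lf (nat_lit 0) (nat_lit 2482692817) (nat_lit 152) (nat_lit 9423230784) (nat_lit 76)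 (nat_lit 76209776520) (nat_lit 6) (nat_lit 5) (nat_lit 8) (nat_lit 5) (nat_lit 7) (nat_lit 4) (nat_lit 390) (nat_lit 292) (nat_lit 218)) (XT.lf (nat_lit 0) (nat_lit 2932071388) (nat_lit 76) (nat_lit 5586966663) (nat_lit 152) (nat_lit 83670092792) (nat_lit 5) (nat_lit 5) (nat_lit 6) (nat_lit 5) (nat_lit 7) (nat_lit 4) (nat_lit 391) (nat_lit 292) (nat_lit 217)))))) (XT.nd (nat_lit 468) (nat_lit 76) (nat_lit 0) (XT.nd (nat_lit 234) (nat_lit 0) (nat_lit 0) (XT.nd (nat_lit 78) (nat_lit 0) (nat_lit 0) (XT.lf (nat_lit 0) (nat_lit 15019306779) (nat_lit 152) (nat_lit 80276895855) (nat_lit 0) (nat_lit 1161928089) (nat_lit 5) (nat_lit 5) (nat_lit 7) (nat_lit 4) (nat_lit 5) (nat_lit 4) (nat_lit 392) (nat_lit 292) (nat_lit 216)) (XT.nd (nat_lit 78) (nat_lit 0) (nat_lit 0) (XT.lf (nat_lit 0) (nat_lit 21920504112) (nat_lit 152) (nat_lit 70969748586) (nat_lit 0) (nat_lit 8046534938) (nat_lit 5) (nat_lit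 5) (nat_lit 7) (nat_lit 4) (nat_lit 5) (nat_lit 4) (nat_lit 393) (nat_lit 292) (nat_lit 215)) (XT.lf (nat_lit 0) (nat_lit 29151833264) (nat_lit 152) (nat_lit 61226229564) (nat_lit 0) (nat_lit 15262063630) (nat_lit 5) (nat_lit 5) (nat_lit 7) (nat_lit 4) (nat_lit 5) (nat_lit 4) (nat_lit 394) (nat_lit 292) (nat_lit 214)))) (XT.nd (nat_lit 78) (nat_lit 0) (nat_lit 0) (XT.lf (nat_lit 0) (nat_lit 36730511685) (nat_lit 152) (nat_lit 51023139937) (nat_lit 0) (nat_lit 22825693995) (nat_lit 5) (nat_lit 5) (nat_lit 7) (nat_lit 4) (nat_lit 5) (nat_lit 4) (nat_lit 395) (nat_lit 292) (nat_lit 213)) (XT.nd (nat_lit 78) (nat_lit 0) (nat_lit 0) (XT.lf (nat_lit 0) (nat_lit 44674583849) (nat_lit 152) (nat_lit 40336186632) (nat_lit 0) (nat_lit 30755434676) (nat_lit 5) (nat_lit 5) (nat_lit 7) (nat_lit 4) (nat_lit 5) (nat_lit 4) (nat_lit 396) (nat_lit 292) (nat_lit 212)) (XT.lf (nat_lit 0) (nat_lit 53002964213)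 (nat_lit 152) (nat_lit 29139924524) (nat_lit 0) (nat_lit 39070166009) (nat_lit 5) (nat_lit 5) (nat_lit 7) (nat_lit 4) (nat_lit 5) (nat_lit 4) (nat_lit 397) (nat_lit 292) (nat_lit 211))))) (XT.nd (nat_lit 234) (nat_lit 0) (nat_lit 0) (XT.nd (nat_lit 78) (nat_lit 76) (nat_lit 0) (XT.lf (nat_lit 0) (nat_lit 61735482254) (nat_lit 152) (nat_lit 17407695845) (nat_lit 0) (nat_lit 47789684972) (nat_lit 5) (nat_lit 5) (nat_lit 7) (nat_lit 4) (nat_lit 5) (nat_lit 4) (nat_lit 398) (nat_lit 292) (nat_lit 210)) (XT.nd (nat_lit 78) (nat_lit 76) (nat_lit 0) (XT.lf (nat_lit 0) (nat_lit 70892929681) (nat_lit 152) (nat_lit 5111566717) (nat_lit 0) (nat_lit 56934752326) (nat_lit 5) (nat_lit 5) (nat_lit 7) (nat_lit 4) (nat_lit 5) (nat_lit 4) (nat_lit 399) (nat_lit 292) (nat_lit 209)) (XT.lf (nat_lit 0) (nat_lit 8034906544) (nat_lit 76) (nat_lit 72587650805) (nat_lit 76) (nat_lit 58617682903) (nat_lit 4) (nat_lit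 4) (nat_lit 5) (nat_lit 5) (nat_lit 5) (nat_lit 4) (nat_lit 400) (nat_lit 292) (nat_lit 208)))) (XT.nd (nat_lit 78) (nat_lit 0) (nat_lit 0) (XT.lf (nat_lit 0) (nat_lit 21994884877) (nat_lit 76) (nat_lit 68919407045) (nat_lit 76) (nat_lit 54938210051) (nat_lit 4) (nat_lit 4) (nat_lit 5) (nat_lit 5) (nat_lit 5) (nat_lit 4) (nat_lit 401) (nat_lit 292) (nat_lit 207)) (XT.nd (nat_lit 78) (nat_lit 0) (nat_lit 0) (XT.lf (nat_lit 0) (nat_lit 36632594844) (nat_lit 76) (nat_lit 65077598061) (nat_lit 76) (nat_lit 51085706694) (nat_lit 4) (nat_lit 4) (nat_lit 5) (nat_lit 5) (nat_lit 5) (nat_lit 4) (nat_lit 402) (nat_lit 292) (nat_lit 206)) (XT.lf (nat_lit 0) (nat_lit 51982888136) (nat_lit 76) (nat_lit 61053076688) (nat_lit 76) (nat_lit 47051000204) (nat_lit 4) (nat_lit 4) (nat_lit 5) (nat_lit 5) (nat_lit 5) (nat_lit 4) (nat_lit 403) (nat_lit 292) (nat_lit 205))))))) (XT.nd (nat_lit 858) (nat_lit 0)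 (nat_lit 0) (XT.nd (nat_lit 390) (nat_lit 152) (nat_lit 0) (XT.nd (nat_lit 156) (nat_lit 0) (nat_lit 0) (XT.nd (nat_lit 78) (nat_lit 0) (nat_lit 0) (XT.lf (nat_lit 0) (nat_lit 68082313068) (nat_lit 76) (nat_lit 56836260733) (nat_lit 76) (nat_lit 42824484137) (nat_lit 4) (nat_lit 4) (nat_lit 5) (nat_lit 5) (nat_lit 5) (nat_lit 4) (nat_lit 404) (nat_lit 292) (nat_lit 204)) (XT.lf (nat_lit 0) (nat_lit 84969201607) (nat_lit 76) (nat_lit 52417110158) (nat_lit 76) (nat_lit 38396095361) (nat_lit 4) (nat_lit 4) (nat_lit 5) (nat_lit 5) (nat_lit 5) (nat_lit 4) (nat_lit 405) (nat_lit 292) (nat_lit 203))) (XT.nd (nat_lit 78) (nat_lit 0) (nat_lit 0) (XT.lf (nat_lit 0) (nat_lit 102683760629) (nat_lit 76) (nat_lit 47785103175) (nat_lit 76) (nat_lit 33755290091) (nat_lit 4) (nat_lit 4) (nat_lit 5) (nat_lit 5) (nat_lit 5) (nat_lit 4) (nat_lit 406) (nat_lit 292) (nat_lit 202)) (XT.nd (nat_lit 78) (nat_lit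 0) (nat_lit 0) (XT.lf (nat_lit 0) (nat_lit 121268167656) (nat_lit 76) (nat_lit 42929211197) (nat_lit 76) (nat_lit 28891018792) (nat_lit 4) (nat_lit 4) (nat_lit 5) (nat_lit 5) (nat_lit 5) (nat_lit 4) (nat_lit 407) (nat_lit 292) (nat_lit 201)) (XT.lf (nat_lit 0) (nat_lit 140766671276) (nat_lit 76) (nat_lit 37837872576) (nat_lit 76) (nat_lit 23791699865) (nat_lit 4) (nat_lit 4) (nat_lit 5) (nat_lit 5) (nat_lit 5) (nat_lit 4) (nat_lit 408) (nat_lit 292) (nat_lit 200))))) (XT.nd (nat_lit 234) (nat_lit 152) (nat_lit 0) (XT.nd (nat_lit 78) (nat_lit 0) (nat_lit 0) (XT.lf (nat_lit 0) (nat_lit 161225696497) (nat_lit 76) (nat_lit 32498965078) (nat_lit 76) (nat_lit 18445192075) (nat_lit 4) (nat_lit 4) (nat_lit 5) (nat_lit 5) (nat_lit 5) (nat_lit 4) (nat_lit 409) (nat_lit 292) (nat_lit 199)) (XT.nd (nat_lit 78) (nat_lit 0) (nat_lit 0) (XT.lf (nat_lit 0) (nat_lit 182693955285) (nat_lit 76) (nat_lit 26899777017)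 (nat_lit 76) (nat_lit 12838765641) (nat_lit 4) (nat_lit 4) (nat_lit 5) (nat_lit 5) (nat_lit 5) (nat_lit 4) (nat_lit 410) (nat_lit 292) (nat_lit 198)) (XT.lf (nat_lit 0) (nat_lit 205222562541) (nat_lit 76) (nat_lit 21026976993) (nat_lit 76) (nat_lit 6959071929) (nat_lit 4) (nat_lit 4) (nat_lit 5) (nat_lit 5) (nat_lit 5) (nat_lit 4) (nat_lit 411) (nat_lit 292) (nat_lit 197)))) (XT.nd (nat_lit 78) (nat_lit 152) (nat_lit 0) (XT.lf (nat_lit 0) (nat_lit 228865157806) (nat_lit 76) (nat_lit 14866582150) (nat_lit 76) (nat_lit 792111669) (nat_lit 4) (nat_lit 4) (nat_lit 5) (nat_lit 5) (nat_lit 5) (nat_lit 4) (nat_lit 412) (nat_lit 292) (nat_lit 196)) (XT.nd (nat_lit 78) (nat_lit 76) (nat_lit 0) (XT.lf (nat_lit 0) (nat_lit 5495105378) (nat_lit 152) (nat_lit 2815757234) (nat_lit 76) (nat_lit 248089865328) (nat_lit 3) (nat_lit 5) (nat_lit 5) (nat_lit 5) (nat_lit 4) (nat_lit 4) (nat_lit 413) (nat_lit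 292) (nat_lit 195)) (XT.lf (nat_lit 0) (nat_lit 10996826292) (nat_lit 76) (nat_lit 1239029599) (nat_lit 152) (nat_lit 256626654223) (nat_lit 2) (nat_lit 5) (nat_lit 3) (nat_lit 5) (nat_lit 4) (nat_lit 4) (nat_lit 414) (nat_lit 292) (nat_lit 194)))))) (XT.nd (nat_lit 468) (nat_lit 0) (nat_lit 0) (XT.nd (nat_lit 234) (nat_lit 0) (nat_lit 0) (XT.nd (nat_lit 78) (nat_lit 0) (nat_lit 0) (XT.lf (nat_lit 0) (nat_lit 19452818938) (nat_lit 152) (nat_lit 256456071151) (nat_lit 0) (nat_lit 6031533470) (nat_lit 2) (nat_lit 5) (nat_lit 4) (nat_lit 4) (nat_lit 2) (nat_lit 4) (nat_lit 415) (nat_lit 292) (nat_lit 193)) (XT.nd (nat_lit 78) (nat_lit 0) (nat_lit 0) (XT.lf (nat_lit 0) (nat_lit 27045342182) (nat_lit 152) (nat_lit 255007243220) (nat_lit 0) (nat_lit 13618912538) (nat_lit 2) (nat_lit 5) (nat_lit 4) (nat_lit 4) (nat_lit 2) (nat_lit 4) (nat_lit 416) (nat_lit 292) (nat_lit 192)) (XT.lf (nat_lit 0)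 (nat_lit 35012158336) (nat_lit 152) (nat_lit 253496405715) (nat_lit 0) (nat_lit 21580829476) (nat_lit 2) (nat_lit 5) (nat_lit 4) (nat_lit 4) (nat_lit 2) (nat_lit 4) (nat_lit 417) (nat_lit 292) (nat_lit 191)))) (XT.nd (nat_lit 78) (nat_lit 0) (nat_lit 0) (XT.lf (nat_lit 0) (nat_lit 43372236010) (nat_lit 152) (nat_lit 251919961405) (nat_lit 0) (nat_lit 29936241231) (nat_lit 2) (nat_lit 5) (nat_lit 4) (nat_lit 4) (nat_lit 2) (nat_lit 4) (nat_lit 418) (nat_lit 292) (nat_lit 190)) (XT.nd (nat_lit 78) (nat_lit 0) (nat_lit 0) (XT.lf (nat_lit 0) (nat_lit 52145480151) (nat_lit 152) (nat_lit 250274156850) (nat_lit 0) (nat_lit 38705041639) (nat_lit 2) (nat_lit 5) (nat_lit 4) (nat_lit 4) (nat_lit 2) (nat_lit 4) (nat_lit 419) (nat_lit 292) (nat_lit 189)) (XT.lf (nat_lit 0) (nat_lit 61352779435) (nat_lit 152) (nat_lit 248555073468) (nat_lit 0) (nat_lit 47908108796) (nat_lit 2) (nat_lit 5) (nat_lit 4)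 (nat_lit 4) (nat_lit 2) (nat_lit 4) (nat_lit 420) (nat_lit 292) (nat_lit 188))))) (XT.nd (nat_lit 234) (nat_lit 0) (nat_lit 0) (XT.nd (nat_lit 78) (nat_lit 0) (nat_lit 0) (XT.lf (nat_lit 0) (nat_lit 71016056004) (nat_lit 152) (nat_lit 246758618203) (nat_lit 0) (nat_lit 57567354768) (nat_lit 2) (nat_lit 5) (nat_lit 4) (nat_lit 4) (nat_lit 2) (nat_lit 4) (nat_lit 421) (nat_lit 292) (nat_lit 187)) (XT.nd (nat_lit 78) (nat_lit 0) (nat_lit 0) (XT.lf (nat_lit 0) (nat_lit 81158317658) (nat_lit 152) (nat_lit 244880513782) (nat_lit 0) (nat_lit 67705777759) (nat_lit 2) (nat_lit 5) (nat_lit 4) (nat_lit 4) (nat_lit 2) (nat_lit 4) (nat_lit 422) (nat_lit 292) (nat_lit 186)) (XT.lf (nat_lit 0) (nat_lit 91803712640) (nat_lit 152) (nat_lit 242916288526) (nat_lit 0) (nat_lit 78347516871) (nat_lit 2) (nat_lit 5) (nat_lit 4) (nat_lit 4) (nat_lit 2) (nat_lit 4) (nat_lit 423) (nat_lit 292) (nat_lit 185)))) (XT.nd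 (nat_lit 78) (nat_lit 0) (nat_lit 0) (XT.lf (nat_lit 0) (nat_lit 102977587129) (nat_lit 152) (nat_lit 240861265709) (nat_lit 0) (nat_lit 89517909578) (nat_lit 2) (nat_lit 5) (nat_lit 4) (nat_lit 4) (nat_lit 2) (nat_lit 4) (nat_lit 424) (nat_lit 292) (nat_lit 184)) (XT.nd (nat_lit 78) (nat_lit 0) (nat_lit 0) (XT.lf (nat_lit 0) (nat_lit 114706545587) (nat_lit 152) (nat_lit 238710552420) (nat_lit 0) (nat_lit 101243552054) (nat_lit 2) (nat_lit 5) (nat_lit 4) (nat_lit 4) (nat_lit 2) (nat_lit 4) (nat_lit 425) (nat_lit 292) (nat_lit 183)) (XT.lf (nat_lit 0) (nat_lit 127018514106) (nat_lit 152) (nat_lit 236459027912) (nat_lit 0) (nat_lit 113552362495) (nat_lit 2) (nat_lit 5) (nat_lit 4) (nat_lit 4) (nat_lit 2) (nat_lit 4) (nat_lit 426) (nat_lit 292) (nat_lit 182))))))))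
noncomputable def xc80 : XT := (XT.nd (nat_lit 39234) (nat_lit 0) (nat_lit 1748) (XT.nd (nat_lit 38376) (nat_lit 0) (nat_lit 4332) (XT.nd (nat_lit 390) (nat_lit 0) (nat_lit 0) (XT.nd (nat_lit 156) (nat_lit 0) (nat_lit 0) (XT.nd (nat_lit 78) (nat_lit 0) (nat_lit 0) (XT.lf (nat_lit 0) (nat_lit 139942806896) (nat_lit 152) (nat_lit 234101331414) (nat_lit 0) (nat_lit 126473647592) (nat_lit 2) (nat_lit 5) (nat_lit 4) (nat_lit 4) (nat_lit 2) (nat_lit 4) (nat_lit 427) (nat_lit 292) (nat_lit 181)) (XT.lf (nat_lit 0) (nat_lit 153510196084) (nat_lit 152) (nat_lit 231631849361) (nat_lit 0) (nat_lit 140038172311) (nat_lit 2) (nat_lit 5) (nat_lit 4) (nat_lit 4) (nat_lit 2) (nat_lit 4) (nat_lit 428) (nat_lit 292) (nat_lit 180))) (XT.nd (nat_lit 78) (nat_lit 0) (nat_lit 0) (XT.lf (nat_lit 0) (nat_lit 167752984977) (nat_lit 152) (nat_lit 229044702035) (nat_lit 0) (nat_lit 154278233137) (nat_lit 2) (nat_lit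 5) (nat_lit 4) (nat_lit 4) (nat_lit 2) (nat_lit 4) (nat_lit 429) (nat_lit 292) (nat_lit 179)) (XT.nd (nat_lit 78) (nat_lit 0) (nat_lit 0) (XT.lf (nat_lit 0) (nat_lit 182705084978) (nat_lit 152) (nat_lit 226333729561) (nat_lit 0) (nat_lit 169227734979) (nat_lit 2) (nat_lit 5) (nat_lit 4) (nat_lit 4) (nat_lit 2) (nat_lit 4) (nat_lit 430) (nat_lit 292) (nat_lit 178)) (XT.lf (nat_lit 0) (nat_lit 198402096323) (nat_lit 152) (nat_lit 223492477243) (nat_lit 0) (nat_lit 184922271887) (nat_lit 2) (nat_lit 5) (nat_lit 4) (nat_lit 4) (nat_lit 2) (nat_lit 4) (nat_lit 431) (nat_lit 292) (nat_lit 177))))) (XT.nd (nat_lit 37752) (nat_lit 0) (nat_lit 7068) (XT.nd (nat_lit 78) (nat_lit 0) (nat_lit 0) (XT.lf (nat_lit 0) (nat_lit 214881392850) (nat_lit 152) (nat_lit 220514180194) (nat_lit 0) (nat_lit 201399211808) (nat_lit 2) (nat_lit 5) (nat_lit 4) (nat_lit 4) (nat_lit 2) (nat_lit 4) (nat_lit 432) (nat_lit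 292) (nat_lit 176)) (XT.nd (nat_lit 37596) (nat_lit 0) (nat_lit 8588) (XT.lf (nat_lit 0) (nat_lit 232182210980) (nat_lit 152) (nat_lit 217391747231) (nat_lit 0) (nat_lit 218697785551) (nat_lit 2) (nat_lit 5) (nat_lit 4) (nat_lit 4) (nat_lit 2) (nat_lit 4) (nat_lit 433) (nat_lit 292) (nat_lit 175)) (XT.lf (nat_lit 0) (nat_lit 426460592) (nat_lit 684) (nat_lit 2664617510) (nat_lit 0) (nat_lit 426460592) (nat_lit 115) (nat_lit 5) (nat_lit 124) (nat_lit 4) (nat_lit 115) (nat_lit 4) (nat_lit 314) (nat_lit 293) (nat_lit 293)))) (XT.nd (nat_lit 78) (nat_lit 1520) (nat_lit 0) (XT.lf (nat_lit 0) (nat_lit 4162016483) (nat_lit 684) (nat_lit 510416223) (nat_lit 0) (nat_lit 2452621455) (nat_lit 115) (nat_lit 5) (nat_lit 124) (nat_lit 4) (nat_lit 115) (nat_lit 4) (nat_lit 315) (nat_lit 293) (nat_lit 292)) (XT.nd (nat_lit 78) (nat_lit 760) (nat_lit 0) (XT.lf (nat_lit 0) (nat_lit 313384023) (nat_lit 760)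 (nat_lit 2694953045) (nat_lit 76) (nat_lit 4215643655) (nat_lit 105) (nat_lit 5) (nat_lit 115) (nat_lit 5) (nat_lit 106) (nat_lit 4) (nat_lit 316) (nat_lit 293) (nat_lit 291)) (XT.lf (nat_lit 0) (nat_lit 2375049425) (nat_lit 760) (nat_lit 1167834183) (nat_lit 836) (nat_lit 3788348388) (nat_lit 95) (nat_lit 5) (nat_lit 105) (nat_lit 5) (nat_lit 106) (nat_lit 4) (nat_lit 317) (nat_lit 293) (nat_lit 290)))))) (XT.nd (nat_lit 390) (nat_lit 1520) (nat_lit 0) (XT.nd (nat_lit 156) (nat_lit 760) (nat_lit 0) (XT.nd (nat_lit 78) (nat_lit 76) (nat_lit 0) (XT.lf (nat_lit 0) (nat_lit 175402595) (nat_lit 380) (nat_lit 6667333244) (nat_lit 380) (nat_lit 605903082) (nat_lit 90) (nat_lit 4) (nat_lit 95) (nat_lit 5) (nat_lit 95) (nat_lit 4) (nat_lit 318) (nat_lit 293) (nat_lit 289)) (XT.lf (nat_lit 0) (nat_lit 2602402285) (nat_lit 456) (nat_lit 2065861209) (nat_lit 76) (nat_lit 2904017258) (nat_lit 89) (nat_lit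 5) (nat_lit 95) (nat_lit 5) (nat_lit 90) (nat_lit 4) (nat_lit 319) (nat_lit 293) (nat_lit 288))) (XT.nd (nat_lit 78) (nat_lit 456) (nat_lit 0) (XT.lf (nat_lit 0) (nat_lit 3336309643) (nat_lit 304) (nat_lit 2523530564) (nat_lit 380) (nat_lit 1846518550) (nat_lit 85) (nat_lit 5) (nat_lit 89) (nat_lit 5) (nat_lit 90) (nat_lit 4) (nat_lit 320) (nat_lit 293) (nat_lit 287)) (XT.nd (nat_lit 78) (nat_lit 0) (nat_lit 0) (XT.lf (nat_lit 0) (nat_lit 1081945752) (nat_lit 380) (nat_lit 216493538) (nat_lit 456) (nat_lit 6552203620) (nat_lit 79) (nat_lit 5) (nat_lit 84) (nat_lit 5) (nat_lit 85) (nat_lit 5) (nat_lit 321) (nat_lit 293) (nat_lit 286)) (XT.lf (nat_lit 0) (nat_lit 4510896921) (nat_lit 456) (nat_lit 1274741078) (nat_lit 76) (nat_lit 2216551212) (nat_lit 79) (nat_lit 5) (nat_lit 85) (nat_lit 5) (nat_lit 80) (nat_lit 4) (nat_lit 322) (nat_lit 293) (nat_lit 285))))) (XT.nd (nat_lit 234) (nat_lit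 836) (nat_lit 0) (XT.nd (nat_lit 78) (nat_lit 380) (nat_lit 0) (XT.lf (nat_lit 0) (nat_lit 4472920762) (nat_lit 304) (nat_lit 3353625965) (nat_lit 380) (nat_lit 337806044) (nat_lit 75) (nat_lit 5) (nat_lit 79) (nat_lit 5) (nat_lit 80) (nat_lit 4) (nat_lit 323) (nat_lit 293) (nat_lit 284)) (XT.nd (nat_lit 78) (nat_lit 0) (nat_lit 0) (XT.lf (nat_lit 0) (nat_lit 2075900556) (nat_lit 304) (nat_lit 727350469) (nat_lit 380) (nat_lit 5532951997) (nat_lit 70) (nat_lit 5) (nat_lit 74) (nat_lit 5) (nat_lit 75) (nat_lit 5) (nat_lit 324) (nat_lit 293) (nat_lit 283)) (XT.lf (nat_lit 0) (nat_lit 6059084331) (nat_lit 380) (nat_lit 457737134) (nat_lit 76) (nat_lit 2001239115) (nat_lit 70) (nat_lit 5) (nat_lit 75) (nat_lit 5) (nat_lit 71) (nat_lit 4) (nat_lit 325) (nat_lit 293) (nat_lit 282)))) (XT.nd (nat_lit 78) (nat_lit 532) (nat_lit 0) (XT.lf (nat_lit 0) (nat_lit 723548984) (nat_lit 304) (nat_lit 3075910210)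 (nat_lit 76) (nat_lit 4910111006) (nat_lit 66) (nat_lit 5) (nat_lit 70) (nat_lit 5) (nat_lit 67) (nat_lit 5) (nat_lit 326) (nat_lit 293) (nat_lit 281)) (XT.nd (nat_lit 78) (nat_lit 228) (nat_lit 0) (XT.lf (nat_lit 0) (nat_lit 3032537769) (nat_lit 304) (nat_lit 886349271) (nat_lit 380) (nat_lit 4993062162) (nat_lit 62) (nat_lit 5) (nat_lit 66) (nat_lit 5) (nat_lit 67) (nat_lit 5) (nat_lit 327) (nat_lit 293) (nat_lit 280)) (XT.lf (nat_lit 0) (nat_lit 242310388) (nat_lit 228) (nat_lit 7006000117) (nat_lit 304) (nat_lit 1877540411) (nat_lit 59) (nat_lit 5) (nat_lit 62) (nat_lit 5) (nat_lit 63) (nat_lit 4) (nat_lit 328) (nat_lit 293) (nat_lit 279))))))) (XT.nd (nat_lit 858) (nat_lit 988) (nat_lit 0) (XT.nd (nat_lit 390) (nat_lit 836) (nat_lit 0) (XT.nd (nat_lit 156) (nat_lit 456) (nat_lit 0) (XT.nd (nat_lit 78) (nat_lit 228) (nat_lit 0) (XT.lf (nat_lit 0) (nat_lit 1349636827) (nat_lit 304) (nat_lit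 2672487633) (nat_lit 76) (nat_lit 5327319372) (nat_lit 58) (nat_lit 5) (nat_lit 62) (nat_lit 5) (nat_lit 59) (nat_lit 5) (nat_lit 329) (nat_lit 293) (nat_lit 278)) (XT.lf (nat_lit 0) (nat_lit 3783890923) (nat_lit 228) (nat_lit 840504374) (nat_lit 304) (nat_lit 4960919518) (nat_lit 55) (nat_lit 5) (nat_lit 58) (nat_lit 5) (nat_lit 59) (nat_lit 5) (nat_lit 330) (nat_lit 293) (nat_lit 277))) (XT.nd (nat_lit 78) (nat_lit 304) (nat_lit 0) (XT.lf (nat_lit 0) (nat_lit 648358147) (nat_lit 152) (nat_lit 7402052914) (nat_lit 228) (nat_lit 1783290783) (nat_lit 53) (nat_lit 5) (nat_lit 55) (nat_lit 5) (nat_lit 56) (nat_lit 4) (nat_lit 331) (nat_lit 293) (nat_lit 276)) (XT.nd (nat_lit 78) (nat_lit 228) (nat_lit 0) (XT.lf (nat_lit 0) (nat_lit 1510396905) (nat_lit 228) (nat_lit 2666038958) (nat_lit 76) (nat_lit 5916604656) (nat_lit 52) (nat_lit 5) (nat_lit 55) (nat_lit 5) (nat_lit 53) (nat_lit 5) (nat_lit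 332) (nat_lit 293) (nat_lit 275)) (XT.lf (nat_lit 0) (nat_lit 4130931066) (nat_lit 228) (nat_lit 740737254) (nat_lit 304) (nat_lit 5494159672) (nat_lit 49) (nat_lit 5) (nat_lit 52) (nat_lit 5) (nat_lit 53) (nat_lit 5) (nat_lit 333) (nat_lit 293) (nat_lit 274))))) (XT.nd (nat_lit 234) (nat_lit 380) (nat_lit 0) (XT.nd (nat_lit 78) (nat_lit 304) (nat_lit 0) (XT.lf (nat_lit 0) (nat_lit 528628604) (nat_lit 152) (nat_lit 7871352603) (nat_lit 228) (nat_lit 2252405745) (nat_lit 47) (nat_lit 5) (nat_lit 49) (nat_lit 5) (nat_lit 50) (nat_lit 4) (nat_lit 334) (nat_lit 293) (nat_lit 273)) (XT.nd (nat_lit 78) (nat_lit 228) (nat_lit 0) (XT.lf (nat_lit 0) (nat_lit 1134856857) (nat_lit 228) (nat_lit 3287041329) (nat_lit 76) (nat_lit 6529536587) (nat_lit 46) (nat_lit 5) (nat_lit 49) (nat_lit 5) (nat_lit 47) (nat_lit 5) (nat_lit 335) (nat_lit 293) (nat_lit 272)) (XT.lf (nat_lit 0) (nat_lit 3830532977) (nat_lit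 228) (nat_lit 750591639) (nat_lit 304) (nat_lit 6684267231) (nat_lit 43) (nat_lit 5) (nat_lit 46) (nat_lit 5) (nat_lit 47) (nat_lit 5) (nat_lit 336) (nat_lit 293) (nat_lit 271)))) (XT.nd (nat_lit 78) (nat_lit 380) (nat_lit 0) (XT.lf (nat_lit 0) (nat_lit 8211717554) (nat_lit 304) (nat_lit 371692123) (nat_lit 76) (nat_lit 3011103154) (nat_lit 43) (nat_lit 5) (nat_lit 47) (nat_lit 5) (nat_lit 44) (nat_lit 4) (nat_lit 337) (nat_lit 293) (nat_lit 270)) (XT.nd (nat_lit 78) (nat_lit 152) (nat_lit 0) (XT.lf (nat_lit 0) (nat_lit 116428518) (nat_lit 228) (nat_lit 4821204761) (nat_lit 76) (nat_lit 7000683717) (nat_lit 40) (nat_lit 5) (nat_lit 43) (nat_lit 5) (nat_lit 41) (nat_lit 5) (nat_lit 338) (nat_lit 293) (nat_lit 269)) (XT.lf (nat_lit 0) (nat_lit 2579473118) (nat_lit 152) (nat_lit 1056096793) (nat_lit 228) (nat_lit 8663094222) (nat_lit 38) (nat_lit 5) (nat_lit 40) (nat_lit 5) (nat_lit 41) (nat_lit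 5) (nat_lit 339) (nat_lit 293) (nat_lit 268)))))) (XT.nd (nat_lit 468) (nat_lit 532) (nat_lit 0) (XT.nd (nat_lit 234) (nat_lit 228) (nat_lit 0) (XT.nd (nat_lit 78) (nat_lit 228) (nat_lit 0) (XT.lf (nat_lit 0) (nat_lit 7373947917) (nat_lit 228) (nat_lit 2346886905) (nat_lit 76) (nat_lit 2954084656) (nat_lit 38) (nat_lit 5) (nat_lit 41) (nat_lit 5) (nat_lit 39) (nat_lit 4) (nat_lit 340) (nat_lit 293) (nat_lit 267)) (XT.nd (nat_lit 78) (nat_lit 76) (nat_lit 0) (XT.lf (nat_lit 0) (nat_lit 5413779479) (nat_lit 152) (nat_lit 5904586941) (nat_lit 228) (nat_lit 1750717308) (nat_lit 36) (nat_lit 5) (nat_lit 38) (nat_lit 5) (nat_lit 39) (nat_lit 4) (nat_lit 341) (nat_lit 293) (nat_lit 266)) (XT.lf (nat_lit 0) (nat_lit 1871925807) (nat_lit 228) (nat_lit 5314273) (nat_lit 76) (nat_lit 11606312407) (nat_lit 35) (nat_lit 5) (nat_lit 38) (nat_lit 5) (nat_lit 36) (nat_lit 5) (nat_lit 342) (nat_lit 293)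 (nat_lit 265)))) (XT.nd (nat_lit 78) (nat_lit 76) (nat_lit 0) (XT.lf (nat_lit 0) (nat_lit 5703898251) (nat_lit 228) (nat_lit 5825016320) (nat_lit 76) (nat_lit 2384088568) (nat_lit 33) (nat_lit 5) (nat_lit 36) (nat_lit 5) (nat_lit 34) (nat_lit 4) (nat_lit 343) (nat_lit 293) (nat_lit 264)) (XT.nd (nat_lit 78) (nat_lit 0) (nat_lit 0) (XT.lf (nat_lit 0) (nat_lit 2128322022) (nat_lit 76) (nat_lit 7585839045) (nat_lit 152) (nat_lit 4650473630) (nat_lit 32) (nat_lit 5) (nat_lit 33) (nat_lit 5) (nat_lit 34) (nat_lit 4) (nat_lit 344) (nat_lit 293) (nat_lit 263)) (XT.lf (nat_lit 0) (nat_lit 10552438115) (nat_lit 76) (nat_lit 3395415092) (nat_lit 152) (nat_lit 889889733) (nat_lit 32) (nat_lit 5) (nat_lit 33) (nat_lit 5) (nat_lit 34) (nat_lit 4) (nat_lit 345) (nat_lit 293) (nat_lit 262))))) (XT.nd (nat_lit 234) (nat_lit 228) (nat_lit 0) (XT.nd (nat_lit 78) (nat_lit 76) (nat_lit 0) (XT.lf (nat_lit 0)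 (nat_lit 2966902753) (nat_lit 228) (nat_lit 11330680920) (nat_lit 76) (nat_lit 1034268387) (nat_lit 29) (nat_lit 5) (nat_lit 32) (nat_lit 5) (nat_lit 30) (nat_lit 4) (nat_lit 346) (nat_lit 293) (nat_lit 261)) (XT.nd (nat_lit 78) (nat_lit 76) (nat_lit 0) (XT.lf (nat_lit 0) (nat_lit 7043467485) (nat_lit 228) (nat_lit 3193961027) (nat_lit 76) (nat_lit 5609702111) (nat_lit 29) (nat_lit 5) (nat_lit 32) (nat_lit 5) (nat_lit 30) (nat_lit 4) (nat_lit 347) (nat_lit 293) (nat_lit 260)) (XT.lf (nat_lit 0) (nat_lit 5402283126) (nat_lit 76) (nat_lit 5936791406) (nat_lit 152) (nat_lit 5048371541) (nat_lit 28) (nat_lit 5) (nat_lit 29) (nat_lit 5) (nat_lit 30) (nat_lit 4) (nat_lit 348) (nat_lit 293) (nat_lit 259)))) (XT.nd (nat_lit 78) (nat_lit 228) (nat_lit 0) (XT.lf (nat_lit 0) (nat_lit 14420947082) (nat_lit 76) (nat_lit 1414920689) (nat_lit 152) (nat_lit 1119621289) (nat_lit 28) (nat_lit 5) (nat_lit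 29) (nat_lit 5) (nat_lit 30) (nat_lit 4) (nat_lit 349) (nat_lit 293) (nat_lit 258)) (XT.nd (nat_lit 78) (nat_lit 0) (nat_lit 0) (XT.lf (nat_lit 0) (nat_lit 2997118419) (nat_lit 228) (nat_lit 11220508714) (nat_lit 76) (nat_lit 3327602433) (nat_lit 25) (nat_lit 5) (nat_lit 28) (nat_lit 5) (nat_lit 26) (nat_lit 4) (nat_lit 350) (nat_lit 293) (nat_lit 257)) (XT.lf (nat_lit 0) (nat_lit 7283937997) (nat_lit 228) (nat_lit 2605090665) (nat_lit 76) (nat_lit 8274444930) (nat_lit 25) (nat_lit 5) (nat_lit 28) (nat_lit 5) (nat_lit 26) (nat_lit 4) (nat_lit 351) (nat_lit 293) (nat_lit 256))))))))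
noncomputable def xc81 : XT := (XT.nd (nat_lit 1716) (nat_lit 456) (nat_lit 0) (XT.nd (nat_lit 858) (nat_lit 456) (nat_lit 0) (XT.nd (nat_lit 390) (nat_lit 228) (nat_lit 0) (XT.nd (nat_lit 156) (nat_lit 304) (nat_lit 0) (XT.nd (nat_lit 78) (nat_lit 0) (nat_lit 0) (XT.lf (nat_lit 0) (nat_lit 6540465831) (nat_lit 76) (nat_lit 5284887453) (nat_lit 152) (nat_lit 6985290173) (nat_lit 24) (nat_lit 5) (nat_lit 25) (nat_lit 5) (nat_lit 26) (nat_lit 4) (nat_lit 352) (nat_lit 293) (nat_lit 255)) (XT.lf (nat_lit 0) (nat_lit 16125548491) (nat_lit 76) (nat_lit 451805554) (nat_lit 152) (nat_lit 2913667154) (nat_lit 24) (nat_lit 5) (nat_lit 25) (nat_lit 5) (nat_lit 26) (nat_lit 4) (nat_lit 353) (nat_lit 293) (nat_lit 254))) (XT.nd (nat_lit 78) (nat_lit 76) (nat_lit 0) (XT.lf (nat_lit 0) (nat_lit 1427110467) (nat_lit 228) (nat_lit 14224035845) (nat_lit 76) (nat_lit 4547773869) (nat_lit 21) (nat_lit 5)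 (nat_lit 24) (nat_lit 5) (nat_lit 22) (nat_lit 4) (nat_lit 354) (nat_lit 293) (nat_lit 253)) (XT.nd (nat_lit 78) (nat_lit 76) (nat_lit 0) (XT.lf (nat_lit 0) (nat_lit 5894124816) (nat_lit 228) (nat_lit 5201863338) (nat_lit 76) (nat_lit 9843503597) (nat_lit 21) (nat_lit 5) (nat_lit 24) (nat_lit 5) (nat_lit 22) (nat_lit 4) (nat_lit 355) (nat_lit 293) (nat_lit 252)) (XT.lf (nat_lit 0) (nat_lit 4308857845) (nat_lit 76) (nat_lit 6287457053) (nat_lit 152) (nat_lit 11120206416) (nat_lit 20) (nat_lit 5) (nat_lit 21) (nat_lit 5) (nat_lit 22) (nat_lit 4) (nat_lit 356) (nat_lit 293) (nat_lit 251))))) (XT.nd (nat_lit 234) (nat_lit 76) (nat_lit 0) (XT.nd (nat_lit 78) (nat_lit 152) (nat_lit 0) (XT.lf (nat_lit 0) (nat_lit 14376862217) (nat_lit 76) (nat_lit 1190497083) (nat_lit 152) (nat_lit 6963375494) (nat_lit 20) (nat_lit 5) (nat_lit 21) (nat_lit 5) (nat_lit 22) (nat_lit 4) (nat_lit 357) (nat_lit 293)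 (nat_lit 250)) (XT.nd (nat_lit 78) (nat_lit 76) (nat_lit 0) (XT.lf (nat_lit 0) (nat_lit 1447891793) (nat_lit 76) (nat_lit 19374214738) (nat_lit 76) (nat_lit 2561813631) (nat_lit 19) (nat_lit 4) (nat_lit 20) (nat_lit 5) (nat_lit 20) (nat_lit 4) (nat_lit 358) (nat_lit 293) (nat_lit 249)) (XT.lf (nat_lit 0) (nat_lit 2101504580) (nat_lit 152) (nat_lit 12610254868) (nat_lit 76) (nat_lit 9561034090) (nat_lit 18) (nat_lit 5) (nat_lit 20) (nat_lit 5) (nat_lit 19) (nat_lit 4) (nat_lit 359) (nat_lit 293) (nat_lit 248)))) (XT.nd (nat_lit 78) (nat_lit 76) (nat_lit 0) (XT.lf (nat_lit 0) (nat_lit 6862119416) (nat_lit 152) (nat_lit 2951887931) (nat_lit 76) (nat_lit 15392508357) (nat_lit 18) (nat_lit 5) (nat_lit 20) (nat_lit 5) (nat_lit 19) (nat_lit 4) (nat_lit 360) (nat_lit 293) (nat_lit 247)) (XT.nd (nat_lit 78) (nat_lit 0) (nat_lit 0) (XT.lf (nat_lit 0) (nat_lit 7336892006) (nat_lit 76) (nat_lit 4591017148)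 (nat_lit 152) (nat_lit 14255673036) (nat_lit 17) (nat_lit 5) (nat_lit 18) (nat_lit 5) (nat_lit 19) (nat_lit 4) (nat_lit 361) (nat_lit 293) (nat_lit 246)) (XT.lf (nat_lit 0) (nat_lit 17264638648) (nat_lit 152) (nat_lit 9066818895) (nat_lit 0) (nat_lit 877176630) (nat_lit 17) (nat_lit 5) (nat_lit 19) (nat_lit 4) (nat_lit 17) (nat_lit 4) (nat_lit 362) (nat_lit 293) (nat_lit 245)))))) (XT.nd (nat_lit 390) (nat_lit 228) (nat_lit 0) (XT.nd (nat_lit 156) (nat_lit 152) (nat_lit 0) (XT.nd (nat_lit 78) (nat_lit 0) (nat_lit 0) (XT.lf (nat_lit 0) (nat_lit 1077806966) (nat_lit 76) (nat_lit 21837625849) (nat_lit 76) (nat_lit 5367158517) (nat_lit 16) (nat_lit 4) (nat_lit 17) (nat_lit 5) (nat_lit 17) (nat_lit 4) (nat_lit 363) (nat_lit 293) (nat_lit 244)) (XT.lf (nat_lit 0) (nat_lit 11962316968) (nat_lit 76) (nat_lit 16995992780) (nat_lit 76) (nat_lit 446472769) (nat_lit 16) (nat_lit 4) (nat_lit 17) (nat_lit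 5) (nat_lit 17) (nat_lit 4) (nat_lit 364) (nat_lit 293) (nat_lit 243))) (XT.nd (nat_lit 78) (nat_lit 76) (nat_lit 0) (XT.lf (nat_lit 0) (nat_lit 4526558215) (nat_lit 152) (nat_lit 7345363935) (nat_lit 76) (nat_lit 18709618962) (nat_lit 15) (nat_lit 5) (nat_lit 17) (nat_lit 5) (nat_lit 16) (nat_lit 4) (nat_lit 365) (nat_lit 293) (nat_lit 242)) (XT.nd (nat_lit 78) (nat_lit 0) (nat_lit 0) (XT.lf (nat_lit 0) (nat_lit 3278356799) (nat_lit 76) (nat_lit 6465481340) (nat_lit 152) (nat_lit 22072414952) (nat_lit 14) (nat_lit 5) (nat_lit 15) (nat_lit 5) (nat_lit 16) (nat_lit 4) (nat_lit 366) (nat_lit 293) (nat_lit 241)) (XT.lf (nat_lit 0) (nat_lit 14613656697) (nat_lit 76) (nat_lit 692907576) (nat_lit 152) (nat_lit 17801918246) (nat_lit 14) (nat_lit 5) (nat_lit 15) (nat_lit 5) (nat_lit 16) (nat_lit 4) (nat_lit 367) (nat_lit 293) (nat_lit 240))))) (XT.nd (nat_lit 234) (nat_lit 152) (nat_lit 0) (XT.nd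 (nat_lit 78) (nat_lit 76) (nat_lit 0) (XT.lf (nat_lit 0) (nat_lit 21192804172) (nat_lit 152) (nat_lit 8105872732) (nat_lit 0) (nat_lit 5164388077) (nat_lit 14) (nat_lit 5) (nat_lit 16) (nat_lit 4) (nat_lit 14) (nat_lit 4) (nat_lit 368) (nat_lit 293) (nat_lit 239)) (XT.nd (nat_lit 78) (nat_lit 0) (nat_lit 0) (XT.lf (nat_lit 0) (nat_lit 2812169402) (nat_lit 76) (nat_lit 24579845297) (nat_lit 76) (nat_lit 8492438876) (nat_lit 13) (nat_lit 4) (nat_lit 14) (nat_lit 5) (nat_lit 14) (nat_lit 4) (nat_lit 369) (nat_lit 293) (nat_lit 238)) (XT.lf (nat_lit 0) (nat_lit 14489637797) (nat_lit 76) (nat_lit 19512901635) (nat_lit 76) (nat_lit 3369313950) (nat_lit 13) (nat_lit 4) (nat_lit 14) (nat_lit 5) (nat_lit 14) (nat_lit 4) (nat_lit 370) (nat_lit 293) (nat_lit 237)))) (XT.nd (nat_lit 78) (nat_lit 76) (nat_lit 0) (XT.lf (nat_lit 0) (nat_lit 1910853557) (nat_lit 152) (nat_lit 12279843856) (nat_lit 76)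 (nat_lit 24743104399) (nat_lit 12) (nat_lit 5) (nat_lit 14) (nat_lit 5) (nat_lit 13) (nat_lit 4) (nat_lit 371) (nat_lit 293) (nat_lit 236)) (XT.nd (nat_lit 78) (nat_lit 76) (nat_lit 0) (XT.lf (nat_lit 0) (nat_lit 7308672532) (nat_lit 152) (nat_lit 1265273020) (nat_lit 76) (nat_lit 31998804851) (nat_lit 12) (nat_lit 5) (nat_lit 14) (nat_lit 5) (nat_lit 13) (nat_lit 4) (nat_lit 372) (nat_lit 293) (nat_lit 235)) (XT.lf (nat_lit 0) (nat_lit 10578917966) (nat_lit 76) (nat_lit 2531082602) (nat_lit 152) (nat_lit 29176972738) (nat_lit 11) (nat_lit 5) (nat_lit 12) (nat_lit 5) (nat_lit 13) (nat_lit 4) (nat_lit 373) (nat_lit 293) (nat_lit 234))))))) (XT.nd (nat_lit 858) (nat_lit 228) (nat_lit 0) (XT.nd (nat_lit 390) (nat_lit 152) (nat_lit 0) (XT.nd (nat_lit 156) (nat_lit 76) (nat_lit 0) (XT.nd (nat_lit 78) (nat_lit 0) (nat_lit 0) (XT.lf (nat_lit 0) (nat_lit 19251323519) (nat_lit 152) (nat_lit 21146346226)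 (nat_lit 0) (nat_lit 3686748600) (nat_lit 11) (nat_lit 5) (nat_lit 13) (nat_lit 4) (nat_lit 11) (nat_lit 4) (nat_lit 374) (nat_lit 293) (nat_lit 233)) (XT.lf (nat_lit 0) (nat_lit 25711304049) (nat_lit 152) (nat_lit 10155053274) (nat_lit 0) (nat_lit 10104805807) (nat_lit 11) (nat_lit 5) (nat_lit 13) (nat_lit 4) (nat_lit 11) (nat_lit 4) (nat_lit 375) (nat_lit 293) (nat_lit 232))) (XT.nd (nat_lit 78) (nat_lit 0) (nat_lit 0) (XT.lf (nat_lit 0) (nat_lit 1375536306) (nat_lit 76) (nat_lit 31111745442) (nat_lit 76) (nat_lit 15465320225) (nat_lit 10) (nat_lit 4) (nat_lit 11) (nat_lit 5) (nat_lit 11) (nat_lit 4) (nat_lit 376) (nat_lit 293) (nat_lit 231)) (XT.nd (nat_lit 78) (nat_lit 0) (nat_lit 0) (XT.lf (nat_lit 0) (nat_lit 13781797819) (nat_lit 76) (nat_lit 25964285503) (nat_lit 76) (nat_lit 10279834595) (nat_lit 10) (nat_lit 4) (nat_lit 11) (nat_lit 5) (nat_lit 11) (nat_lit 4) (nat_lit 377) (nat_lit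 293) (nat_lit 230)) (XT.lf (nat_lit 0) (nat_lit 26757498059) (nat_lit 76) (nat_lit 20583702389) (nat_lit 76) (nat_lit 4863036538) (nat_lit 10) (nat_lit 4) (nat_lit 11) (nat_lit 5) (nat_lit 11) (nat_lit 4) (nat_lit 378) (nat_lit 293) (nat_lit 229))))) (XT.nd (nat_lit 234) (nat_lit 0) (nat_lit 0) (XT.nd (nat_lit 78) (nat_lit 76) (nat_lit 0) (XT.lf (nat_lit 0) (nat_lit 772431025) (nat_lit 152) (nat_lit 14171672671) (nat_lit 76) (nat_lit 39548019033) (nat_lit 9) (nat_lit 5) (nat_lit 11) (nat_lit 5) (nat_lit 10) (nat_lit 4) (nat_lit 379) (nat_lit 293) (nat_lit 228)) (XT.nd (nat_lit 78) (nat_lit 76) (nat_lit 0) (XT.lf (nat_lit 0) (nat_lit 6501691574) (nat_lit 152) (nat_lit 2459536566) (nat_lit 76) (nat_lit 47930421317) (nat_lit 9) (nat_lit 5) (nat_lit 11) (nat_lit 5) (nat_lit 10) (nat_lit 4) (nat_lit 380) (nat_lit 293) (nat_lit 227)) (XT.lf (nat_lit 0) (nat_lit 10117297766) (nat_lit 76) (nat_lit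 2534695350) (nat_lit 152) (nat_lit 46752435527) (nat_lit 8) (nat_lit 5) (nat_lit 9) (nat_lit 5) (nat_lit 10) (nat_lit 4) (nat_lit 381) (nat_lit 293) (nat_lit 226)))) (XT.nd (nat_lit 78) (nat_lit 0) (nat_lit 0) (XT.lf (nat_lit 0) (nat_lit 19194641658) (nat_lit 152) (nat_lit 38743690704) (nat_lit 0) (nat_lit 4100277613) (nat_lit 8) (nat_lit 5) (nat_lit 10) (nat_lit 4) (nat_lit 8) (nat_lit 4) (nat_lit 382) (nat_lit 293) (nat_lit 225)) (XT.nd (nat_lit 78) (nat_lit 0) (nat_lit 0) (XT.lf (nat_lit 0) (nat_lit 26083800093) (nat_lit 152) (nat_lit 27757324062) (nat_lit 0) (nat_lit 10962411899) (nat_lit 8) (nat_lit 5) (nat_lit 10) (nat_lit 4) (nat_lit 8) (nat_lit 4) (nat_lit 383) (nat_lit 293) (nat_lit 224)) (XT.lf (nat_lit 0) (nat_lit 33296297481) (nat_lit 152) (nat_lit 16262299237) (nat_lit 0) (nat_lit 18149172003) (nat_lit 8) (nat_lit 5) (nat_lit 10) (nat_lit 4) (nat_lit 8) (nat_lit 4) (nat_lit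 384) (nat_lit 293) (nat_lit 223)))))) (XT.nd (nat_lit 468) (nat_lit 152) (nat_lit 0) (XT.nd (nat_lit 234) (nat_lit 0) (nat_lit 0) (XT.nd (nat_lit 78) (nat_lit 76) (nat_lit 0) (XT.lf (nat_lit 0) (nat_lit 40849306435) (nat_lit 152) (nat_lit 4231247123) (nat_lit 0) (nat_lit 25677669258) (nat_lit 8) (nat_lit 5) (nat_lit 10) (nat_lit 4) (nat_lit 8) (nat_lit 4) (nat_lit 385) (nat_lit 293) (nat_lit 222)) (XT.nd (nat_lit 78) (nat_lit 0) (nat_lit 0) (XT.lf (nat_lit 0) (nat_lit 8641045046) (nat_lit 76) (nat_lit 40254676194) (nat_lit 76) (nat_lit 25059694541) (nat_lit 7) (nat_lit 4) (nat_lit 8) (nat_lit 5) (nat_lit 8) (nat_lit 4) (nat_lit 386) (nat_lit 293) (nat_lit 221)) (XT.lf (nat_lit 0) (nat_lit 22267566055) (nat_lit 76) (nat_lit 35129739077) (nat_lit 76) (nat_lit 19912524591) (nat_lit 7) (nat_lit 4) (nat_lit 8) (nat_lit 5) (nat_lit 8) (nat_lit 4) (nat_lit 387) (nat_lit 293) (nat_lit 220)))) (XT.nd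 (nat_lit 78) (nat_lit 0) (nat_lit 0) (XT.lf (nat_lit 0) (nat_lit 36540855859) (nat_lit 76) (nat_lit 29765198196) (nat_lit 76) (nat_lit 14526809582) (nat_lit 7) (nat_lit 4) (nat_lit 8) (nat_lit 5) (nat_lit 8) (nat_lit 4) (nat_lit 388) (nat_lit 293) (nat_lit 219)) (XT.nd (nat_lit 78) (nat_lit 0) (nat_lit 0) (XT.lf (nat_lit 0) (nat_lit 51494898484) (nat_lit 76) (nat_lit 24148280833) (nat_lit 76) (nat_lit 8889726384) (nat_lit 7) (nat_lit 4) (nat_lit 8) (nat_lit 5) (nat_lit 8) (nat_lit 4) (nat_lit 389) (nat_lit 293) (nat_lit 218)) (XT.lf (nat_lit 0) (nat_lit 67165298792) (nat_lit 76) (nat_lit 18265613376) (nat_lit 76) (nat_lit 2987853370) (nat_lit 7) (nat_lit 4) (nat_lit 8) (nat_lit 5) (nat_lit 8) (nat_lit 4) (nat_lit 390) (nat_lit 293) (nat_lit 217))))) (XT.nd (nat_lit 234) (nat_lit 0) (nat_lit 0) (XT.nd (nat_lit 78) (nat_lit 76) (nat_lit 0) (XT.lf (nat_lit 0) (nat_lit 3090670029) (nat_lit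 152) (nat_lit 8960177453) (nat_lit 76) (nat_lit 80446355238) (nat_lit 6) (nat_lit 5) (nat_lit 8) (nat_lit 5) (nat_lit 7) (nat_lit 4) (nat_lit 391) (nat_lit 293) (nat_lit 216)) (XT.nd (nat_lit 78) (nat_lit 0) (nat_lit 0) (XT.lf (nat_lit 0) (nat_lit 3997821846) (nat_lit 76) (nat_lit 5422321015) (nat_lit 152) (nat_lit 87354600898) (nat_lit 5) (nat_lit 5) (nat_lit 6) (nat_lit 5) (nat_lit 7) (nat_lit 4) (nat_lit 392) (nat_lit 293) (nat_lit 215)) (XT.lf (nat_lit 0) (nat_lit 16229400593) (nat_lit 152) (nat_lit 83399256340) (nat_lit 0) (nat_lit 1629342018) (nat_lit 5) (nat_lit 5) (nat_lit 7) (nat_lit 4) (nat_lit 5) (nat_lit 4) (nat_lit 393) (nat_lit 293) (nat_lit 214)))) (XT.nd (nat_lit 78) (nat_lit 0) (nat_lit 0) (XT.lf (nat_lit 0) (nat_lit 23453794531) (nat_lit 152) (nat_lit 73669203340) (nat_lit 0) (nat_lit 8838687899) (nat_lit 5) (nat_lit 5) (nat_lit 7) (nat_lit 4) (nat_lit 5) (nat_lit 4) (nat_lit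 394) (nat_lit 293) (nat_lit 213)) (XT.nd (nat_lit 78) (nat_lit 0) (nat_lit 0) (XT.lf (nat_lit 0) (nat_lit 31025867988) (nat_lit 152) (nat_lit 63478938495) (nat_lit 0) (nat_lit 16396429873) (nat_lit 5) (nat_lit 5) (nat_lit 7) (nat_lit 4) (nat_lit 5) (nat_lit 4) (nat_lit 395) (nat_lit 293) (nat_lit 212)) (XT.lf (nat_lit 0) (nat_lit 38963649708) (nat_lit 152) (nat_lit 52804199269) (nat_lit 0) (nat_lit 24320562563) (nat_lit 5) (nat_lit 5) (nat_lit 7) (nat_lit 4) (nat_lit 5) (nat_lit 4) (nat_lit 396) (nat_lit 293) (nat_lit 211))))))))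
noncomputable def xc82 : XT := (XT.nd (nat_lit 1716) (nat_lit 0) (nat_lit 0) (XT.nd (nat_lit 858) (nat_lit 152) (nat_lit 0) (XT.nd (nat_lit 390) (nat_lit 0) (nat_lit 0) (XT.nd (nat_lit 156) (nat_lit 76) (nat_lit 0) (XT.nd (nat_lit 78) (nat_lit 0) (nat_lit 0) (XT.lf (nat_lit 0) (nat_lit 47286039174) (nat_lit 152) (nat_lit 41619569617) (nat_lit 0) (nat_lit 32629952951) (nat_lit 5) (nat_lit 5) (nat_lit 7) (nat_lit 4) (nat_lit 5) (nat_lit 4) (nat_lit 397) (nat_lit 293) (nat_lit 210)) (XT.lf (nat_lit 0) (nat_lit 56012851597) (nat_lit 152) (nat_lit 29898419467) (nat_lit 0) (nat_lit 41344385300) (nat_lit 5) (nat_lit 5) (nat_lit 7) (nat_lit 4) (nat_lit 5) (nat_lit 4) (nat_lit 398) (nat_lit 293) (nat_lit 209))) (XT.nd (nat_lit 78) (nat_lit 76) (nat_lit 0) (XT.lf (nat_lit 0) (nat_lit 65164865103) (nat_lit 152) (nat_lit 17612841320) (nat_lit 0) (nat_lit 50484608260) (nat_lit 5) (nat_lit 5) (nat_lit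 7) (nat_lit 4) (nat_lit 5) (nat_lit 4) (nat_lit 399) (nat_lit 293) (nat_lit 208)) (XT.nd (nat_lit 78) (nat_lit 76) (nat_lit 0) (XT.lf (nat_lit 0) (nat_lit 74763870200) (nat_lit 152) (nat_lit 4733583799) (nat_lit 0) (nat_lit 60072384265) (nat_lit 5) (nat_lit 5) (nat_lit 7) (nat_lit 4) (nat_lit 5) (nat_lit 4) (nat_lit 400) (nat_lit 293) (nat_lit 207)) (XT.lf (nat_lit 0) (nat_lit 9059994396) (nat_lit 76) (nat_lit 75914179168) (nat_lit 76) (nat_lit 61211998860) (nat_lit 4) (nat_lit 4) (nat_lit 5) (nat_lit 5) (nat_lit 5) (nat_lit 4) (nat_lit 401) (nat_lit 293) (nat_lit 206))))) (XT.nd (nat_lit 234) (nat_lit 0) (nat_lit 0) (XT.nd (nat_lit 78) (nat_lit 0) (nat_lit 0) (XT.lf (nat_lit 0) (nat_lit 23688288668) (nat_lit 76) (nat_lit 72076944848) (nat_lit 76) (nat_lit 57364579422) (nat_lit 4) (nat_lit 4) (nat_lit 5) (nat_lit 5) (nat_lit 5) (nat_lit 4) (nat_lit 402) (nat_lit 293) (nat_lit 205)) (XT.nd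 (nat_lit 78) (nat_lit 0) (nat_lit 0) (XT.lf (nat_lit 0) (nat_lit 39029614631) (nat_lit 76) (nat_lit 68056780298) (nat_lit 76) (nat_lit 53334714761) (nat_lit 4) (nat_lit 4) (nat_lit 5) (nat_lit 5) (nat_lit 5) (nat_lit 4) (nat_lit 403) (nat_lit 293) (nat_lit 204)) (XT.lf (nat_lit 0) (nat_lit 55120499252) (nat_lit 76) (nat_lit 63844113698) (nat_lit 76) (nat_lit 49112809959) (nat_lit 4) (nat_lit 4) (nat_lit 5) (nat_lit 5) (nat_lit 5) (nat_lit 4) (nat_lit 404) (nat_lit 293) (nat_lit 203)))) (XT.nd (nat_lit 78) (nat_lit 0) (nat_lit 0) (XT.lf (nat_lit 0) (nat_lit 71999254159) (nat_lit 76) (nat_lit 59428914889) (nat_lit 76) (nat_lit 44688812863) (nat_lit 4) (nat_lit 4) (nat_lit 5) (nat_lit 5) (nat_lit 5) (nat_lit 4) (nat_lit 405) (nat_lit 293) (nat_lit 202)) (XT.nd (nat_lit 78) (nat_lit 0) (nat_lit 0) (XT.lf (nat_lit 0) (nat_lit 89706066866) (nat_lit 76) (nat_lit 54800671494) (nat_lit 76) (nat_lit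 40052190146) (nat_lit 4) (nat_lit 4) (nat_lit 5) (nat_lit 5) (nat_lit 5) (nat_lit 4) (nat_lit 406) (nat_lit 293) (nat_lit 201)) (XT.lf (nat_lit 0) (nat_lit 108283096450) (nat_lit 76) (nat_lit 49948363884) (nat_lit 76) (nat_lit 35191902231) (nat_lit 4) (nat_lit 4) (nat_lit 5) (nat_lit 5) (nat_lit 5) (nat_lit 4) (nat_lit 407) (nat_lit 293) (nat_lit 200)))))) (XT.nd (nat_lit 390) (nat_lit 152) (nat_lit 0) (XT.nd (nat_lit 156) (nat_lit 0) (nat_lit 0) (XT.nd (nat_lit 78) (nat_lit 0) (nat_lit 0) (XT.lf (nat_lit 0) (nat_lit 127774573933) (nat_lit 76) (nat_lit 44860438948) (nat_lit 76) (nat_lit 30096377003) (nat_lit 4) (nat_lit 4) (nat_lit 5) (nat_lit 5) (nat_lit 5) (nat_lit 4) (nat_lit 408) (nat_lit 293) (nat_lit 199)) (XT.lf (nat_lit 0) (nat_lit 148226907596) (nat_lit 76) (nat_lit 39524782577) (nat_lit 76) (nat_lit 24753482260) (nat_lit 4) (nat_lit 4) (nat_lit 5) (nat_lit 5) (nat_lit 5) (nat_lit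 4) (nat_lit 409) (nat_lit 293) (nat_lit 198))) (XT.nd (nat_lit 78) (nat_lit 0) (nat_lit 0) (XT.lf (nat_lit 0) (nat_lit 169688793471) (nat_lit 76) (nat_lit 33928690829) (nat_lit 76) (nat_lit 19150496823) (nat_lit 4) (nat_lit 4) (nat_lit 5) (nat_lit 5) (nat_lit 5) (nat_lit 4) (nat_lit 410) (nat_lit 293) (nat_lit 197)) (XT.nd (nat_lit 78) (nat_lit 0) (nat_lit 0) (XT.lf (nat_lit 0) (nat_lit 192211331287) (nat_lit 76) (nat_lit 28058839674) (nat_lit 76) (nat_lit 13274080252) (nat_lit 4) (nat_lit 4) (nat_lit 5) (nat_lit 5) (nat_lit 5) (nat_lit 4) (nat_lit 411) (nat_lit 293) (nat_lit 196)) (XT.lf (nat_lit 0) (nat_lit 215848146132) (nat_lit 76) (nat_lit 21901253278) (nat_lit 76) (nat_lit 7110241077) (nat_lit 4) (nat_lit 4) (nat_lit 5) (nat_lit 5) (nat_lit 5) (nat_lit 4) (nat_lit 412) (nat_lit 293) (nat_lit 195))))) (XT.nd (nat_lit 234) (nat_lit 0) (nat_lit 0) (XT.nd (nat_lit 78) (nat_lit 152) (nat_lit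 0) (XT.lf (nat_lit 0) (nat_lit 240655516139) (nat_lit 76) (nat_lit 15441270720) (nat_lit 76) (nat_lit 644303491) (nat_lit 4) (nat_lit 4) (nat_lit 5) (nat_lit 5) (nat_lit 5) (nat_lit 4) (nat_lit 413) (nat_lit 293) (nat_lit 194)) (XT.nd (nat_lit 78) (nat_lit 76) (nat_lit 0) (XT.lf (nat_lit 0) (nat_lit 5942637171) (nat_lit 152) (nat_lit 2620232481) (nat_lit 76) (nat_lit 260649227866) (nat_lit 3) (nat_lit 5) (nat_lit 5) (nat_lit 5) (nat_lit 4) (nat_lit 4) (nat_lit 414) (nat_lit 293) (nat_lit 193)) (XT.lf (nat_lit 0) (nat_lit 11877555824) (nat_lit 76) (nat_lit 1139808025) (nat_lit 152) (nat_lit 269279759354) (nat_lit 2) (nat_lit 5) (nat_lit 3) (nat_lit 5) (nat_lit 4) (nat_lit 4) (nat_lit 415) (nat_lit 293) (nat_lit 192)))) (XT.nd (nat_lit 78) (nat_lit 0) (nat_lit 0) (XT.lf (nat_lit 0) (nat_lit 20589489910) (nat_lit 152) (nat_lit 268958032545) (nat_lit 0) (nat_lit 6481695391) (nat_lit 2) (nat_lit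 5) (nat_lit 4) (nat_lit 4) (nat_lit 2) (nat_lit 4) (nat_lit 416) (nat_lit 293) (nat_lit 191)) (XT.nd (nat_lit 78) (nat_lit 0) (nat_lit 0) (XT.lf (nat_lit 0) (nat_lit 28553828362) (nat_lit 152) (nat_lit 267452041416) (nat_lit 0) (nat_lit 14441367924) (nat_lit 2) (nat_lit 5) (nat_lit 4) (nat_lit 4) (nat_lit 2) (nat_lit 4) (nat_lit 417) (nat_lit 293) (nat_lit 190)) (XT.lf (nat_lit 0) (nat_lit 36911546321) (nat_lit 152) (nat_lit 265880212701) (nat_lit 0) (nat_lit 22794642150) (nat_lit 2) (nat_lit 5) (nat_lit 4) (nat_lit 4) (nat_lit 2) (nat_lit 4) (nat_lit 418) (nat_lit 293) (nat_lit 189))))))) (XT.nd (nat_lit 858) (nat_lit 0) (nat_lit 0) (XT.nd (nat_lit 390) (nat_lit 0) (nat_lit 0) (XT.nd (nat_lit 156) (nat_lit 0) (nat_lit 0) (XT.nd (nat_lit 78) (nat_lit 0) (nat_lit 0) (XT.lf (nat_lit 0) (nat_lit 45682543114) (nat_lit 152) (nat_lit 264238803951) (nat_lit 0) (nat_lit 31561406816) (nat_lit 2)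 (nat_lit 5) (nat_lit 4) (nat_lit 4) (nat_lit 2) (nat_lit 4) (nat_lit 419) (nat_lit 293) (nat_lit 188)) (XT.lf (nat_lit 0) (nat_lit 54887702066) (nat_lit 152) (nat_lit 262523907050) (nat_lit 0) (nat_lit 40762535172) (nat_lit 2) (nat_lit 5) (nat_lit 4) (nat_lit 4) (nat_lit 2) (nat_lit 4) (nat_lit 420) (nat_lit 293) (nat_lit 187))) (XT.nd (nat_lit 78) (nat_lit 0) (nat_lit 0) (XT.lf (nat_lit 0) (nat_lit 64548940224) (nat_lit 152) (nat_lit 260731438911) (nat_lit 0) (nat_lit 50419934666) (nat_lit 2) (nat_lit 5) (nat_lit 4) (nat_lit 4) (nat_lit 2) (nat_lit 4) (nat_lit 421) (nat_lit 293) (nat_lit 186)) (XT.nd (nat_lit 78) (nat_lit 0) (nat_lit 0) (XT.lf (nat_lit 0) (nat_lit 74689260534) (nat_lit 152) (nat_lit 258857131751) (nat_lit 0) (nat_lit 60556599106) (nat_lit 2) (nat_lit 5) (nat_lit 4) (nat_lit 4) (nat_lit 2) (nat_lit 4) (nat_lit 422) (nat_lit 293) (nat_lit 185)) (XT.lf (nat_lit 0) (nat_lit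 85332806617) (nat_lit 152) (nat_lit 256896522935) (nat_lit 0) (nat_lit 71196663408) (nat_lit 2) (nat_lit 5) (nat_lit 4) (nat_lit 4) (nat_lit 2) (nat_lit 4) (nat_lit 423) (nat_lit 293) (nat_lit 184))))) (XT.nd (nat_lit 234) (nat_lit 0) (nat_lit 0) (XT.nd (nat_lit 78) (nat_lit 0) (nat_lit 0) (XT.lf (nat_lit 0) (nat_lit 96504920250) (nat_lit 152) (nat_lit 254844944347) (nat_lit 0) (nat_lit 82365461059) (nat_lit 2) (nat_lit 5) (nat_lit 4) (nat_lit 4) (nat_lit 2) (nat_lit 4) (nat_lit 424) (nat_lit 293) (nat_lit 183)) (XT.nd (nat_lit 78) (nat_lit 0) (nat_lit 0) (XT.lf (nat_lit 0) (nat_lit 108232201702) (nat_lit 152) (nat_lit 252697511275) (nat_lit 0) (nat_lit 94089584433) (nat_lit 2) (nat_lit 5) (nat_lit 4) (nat_lit 4) (nat_lit 2) (nat_lit 4) (nat_lit 425) (nat_lit 293) (nat_lit 182)) (XT.lf (nat_lit 0) (nat_lit 120542573072) (nat_lit 152) (nat_lit 250449110784) (nat_lit 0) (nat_lit 106396948110)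 (nat_lit 2) (nat_lit 5) (nat_lit 4) (nat_lit 4) (nat_lit 2) (nat_lit 4) (nat_lit 426) (nat_lit 293) (nat_lit 181)))) (XT.nd (nat_lit 78) (nat_lit 0) (nat_lit 0) (XT.lf (nat_lit 0) (nat_lit 133465344769) (nat_lit 152) (nat_lit 248094389540) (nat_lit 0) (nat_lit 119316855337) (nat_lit 2) (nat_lit 5) (nat_lit 4) (nat_lit 4) (nat_lit 2) (nat_lit 4) (nat_lit 427) (nat_lit 293) (nat_lit 180)) (XT.nd (nat_lit 78) (nat_lit 0) (nat_lit 0) (XT.lf (nat_lit 0) (nat_lit 147031285297) (nat_lit 152) (nat_lit 245627741062) (nat_lit 0) (nat_lit 132880067798) (nat_lit 2) (nat_lit 5) (nat_lit 4) (nat_lit 4) (nat_lit 2) (nat_lit 4) (nat_lit 428) (nat_lit 293) (nat_lit 179)) (XT.lf (nat_lit 0) (nat_lit 161272694513) (nat_lit 152) (nat_lit 243043292379) (nat_lit 0) (nat_lit 147118878855) (nat_lit 2) (nat_lit 5) (nat_lit 4) (nat_lit 4) (nat_lit 2) (nat_lit 4) (nat_lit 429) (nat_lit 293) (nat_lit 178)))))) (XT.nd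 (nat_lit 37908) (nat_lit 0) (nat_lit 6308) (XT.nd (nat_lit 37674) (nat_lit 0) (nat_lit 8588) (XT.nd (nat_lit 78) (nat_lit 0) (nat_lit 0) (XT.lf (nat_lit 0) (nat_lit 176223480535) (nat_lit 152) (nat_lit 240334890042) (nat_lit 0) (nat_lit 162067190441) (nat_lit 2) (nat_lit 5) (nat_lit 4) (nat_lit 4) (nat_lit 2) (nat_lit 4) (nat_lit 430) (nat_lit 293) (nat_lit 177)) (XT.nd (nat_lit 78) (nat_lit 0) (nat_lit 0) (XT.lf (nat_lit 0) (nat_lit 191919240473) (nat_lit 152) (nat_lit 237496085473) (nat_lit 0) (nat_lit 177760593772) (nat_lit 2) (nat_lit 5) (nat_lit 4) (nat_lit 4) (nat_lit 2) (nat_lit 4) (nat_lit 431) (nat_lit 293) (nat_lit 176)) (XT.lf (nat_lit 0) (nat_lit 208397345184) (nat_lit 152) (nat_lit 234520119613) (nat_lit 0) (nat_lit 194236454096) (nat_lit 2) (nat_lit 5) (nat_lit 4) (nat_lit 4) (nat_lit 2) (nat_lit 4) (nat_lit 432) (nat_lit 293) (nat_lit 175)))) (XT.nd (nat_lit 78) (nat_lit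 1216) (nat_lit 0) (XT.lf (nat_lit 0) (nat_lit 1526551250) (nat_lit 532) (nat_lit 384495060) (nat_lit 0) (nat_lit 1526551250) (nat_lit 131) (nat_lit 5) (nat_lit 138) (nat_lit 4) (nat_lit 131) (nat_lit 4) (nat_lit 312) (nat_lit 294) (nat_lit 294)) (XT.nd (nat_lit 78) (nat_lit 684) (nat_lit 0) (XT.lf (nat_lit 0) (nat_lit 3881961416) (nat_lit 532) (nat_lit 2477680515) (nat_lit 532) (nat_lit 593072497) (nat_lit 124) (nat_lit 4) (nat_lit 131) (nat_lit 5) (nat_lit 131) (nat_lit 4) (nat_lit 313) (nat_lit 294) (nat_lit 293)) (XT.lf (nat_lit 0) (nat_lit 1612156615) (nat_lit 608) (nat_lit 969126025) (nat_lit 684) (nat_lit 4457260423) (nat_lit 115) (nat_lit 5) (nat_lit 123) (nat_lit 5) (nat_lit 124) (nat_lit 4) (nat_lit 314) (nat_lit 294) (nat_lit 292))))) (XT.nd (nat_lit 234) (nat_lit 760) (nat_lit 0) (XT.nd (nat_lit 78) (nat_lit 1520) (nat_lit 0) (XT.lf (nat_lit 0) (nat_lit 5797500406) (nat_lit 684)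 (nat_lit 670551786) (nat_lit 0) (nat_lit 665245334) (nat_lit 115) (nat_lit 5) (nat_lit 124) (nat_lit 4) (nat_lit 115) (nat_lit 4) (nat_lit 315) (nat_lit 294) (nat_lit 291)) (XT.nd (nat_lit 78) (nat_lit 760) (nat_lit 0) (XT.lf (nat_lit 0) (nat_lit 1809316213) (nat_lit 760) (nat_lit 2973628515) (nat_lit 76) (nat_lit 2452091771) (nat_lit 105) (nat_lit 5) (nat_lit 115) (nat_lit 5) (nat_lit 106) (nat_lit 4) (nat_lit 316) (nat_lit 294) (nat_lit 290)) (XT.lf (nat_lit 0) (nat_lit 2008932941) (nat_lit 760) (nat_lit 2951213102) (nat_lit 836) (nat_lit 2386190812) (nat_lit 95) (nat_lit 5) (nat_lit 105) (nat_lit 5) (nat_lit 106) (nat_lit 4) (nat_lit 317) (nat_lit 294) (nat_lit 289)))) (XT.nd (nat_lit 78) (nat_lit 684) (nat_lit 0) (XT.lf (nat_lit 0) (nat_lit 683315066) (nat_lit 836) (nat_lit 288040297) (nat_lit 76) (nat_lit 6496244391) (nat_lit 94) (nat_lit 5) (nat_lit 105) (nat_lit 5) (nat_lit 95) (nat_lit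 5) (nat_lit 318) (nat_lit 294) (nat_lit 288)) (XT.nd (nat_lit 78) (nat_lit 304) (nat_lit 0) (XT.lf (nat_lit 0) (nat_lit 3782579449) (nat_lit 456) (nat_lit 2631469940) (nat_lit 76) (nat_lit 1181301475) (nat_lit 89) (nat_lit 5) (nat_lit 95) (nat_lit 5) (nat_lit 90) (nat_lit 4) (nat_lit 319) (nat_lit 294) (nat_lit 287)) (XT.lf (nat_lit 0) (nat_lit 2674046552) (nat_lit 304) (nat_lit 4289192226) (nat_lit 380) (nat_lit 770124121) (nat_lit 85) (nat_lit 5) (nat_lit 89) (nat_lit 5) (nat_lit 90) (nat_lit 4) (nat_lit 320) (nat_lit 294) (nat_lit 286))))))))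
noncomputable def xc83 : XT := (XT.nd (nat_lit 1716) (nat_lit 1520) (nat_lit 0) (XT.nd (nat_lit 858) (nat_lit 1520) (nat_lit 0) (XT.nd (nat_lit 390) (nat_lit 1140) (nat_lit 0) (XT.nd (nat_lit 156) (nat_lit 684) (nat_lit 0) (XT.nd (nat_lit 78) (nat_lit 0) (nat_lit 0) (XT.lf (nat_lit 0) (nat_lit 273502438) (nat_lit 380) (nat_lit 1988679736) (nat_lit 456) (nat_lit 5618620870) (nat_lit 79) (nat_lit 5) (nat_lit 84) (nat_lit 5) (nat_lit 85) (nat_lit 5) (nat_lit 321) (nat_lit 294) (nat_lit 285)) (XT.lf (nat_lit 0) (nat_lit 5383159009) (nat_lit 456) (nat_lit 2164019327) (nat_lit 76) (nat_lit 489827201) (nat_lit 79) (nat_lit 5) (nat_lit 85) (nat_lit 5) (nat_lit 80) (nat_lit 4) (nat_lit 322) (nat_lit 294) (nat_lit 284))) (XT.nd (nat_lit 78) (nat_lit 304) (nat_lit 0) (XT.lf (nat_lit 0) (nat_lit 406001275) (nat_lit 380) (nat_lit 4732452772) (nat_lit 76) (nat_lit 3064281867) (nat_lit 74) (nat_lit 5)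 (nat_lit 79) (nat_lit 5) (nat_lit 75) (nat_lit 5) (nat_lit 323) (nat_lit 294) (nat_lit 283)) (XT.nd (nat_lit 78) (nat_lit 0) (nat_lit 0) (XT.lf (nat_lit 0) (nat_lit 917048692) (nat_lit 304) (nat_lit 2541039569) (nat_lit 380) (nat_lit 4920213073) (nat_lit 70) (nat_lit 5) (nat_lit 74) (nat_lit 5) (nat_lit 75) (nat_lit 5) (nat_lit 324) (nat_lit 294) (nat_lit 282)) (XT.lf (nat_lit 0) (nat_lit 6626992541) (nat_lit 380) (nat_lit 1707357633) (nat_lit 76) (nat_lit 230222755) (nat_lit 70) (nat_lit 5) (nat_lit 75) (nat_lit 5) (nat_lit 71) (nat_lit 4) (nat_lit 325) (nat_lit 294) (nat_lit 281))))) (XT.nd (nat_lit 234) (nat_lit 532) (nat_lit 0) (XT.nd (nat_lit 78) (nat_lit 304) (nat_lit 0) (XT.lf (nat_lit 0) (nat_lit 1149770749) (nat_lit 304) (nat_lit 4499903380) (nat_lit 76) (nat_lit 3109987007) (nat_lit 66) (nat_lit 5) (nat_lit 70) (nat_lit 5) (nat_lit 67) (nat_lit 5) (nat_lit 326) (nat_lit 294) (nat_lit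 280)) (XT.nd (nat_lit 78) (nat_lit 0) (nat_lit 0) (XT.lf (nat_lit 0) (nat_lit 1484990144) (nat_lit 304) (nat_lit 2780718449) (nat_lit 380) (nat_lit 4700359941) (nat_lit 62) (nat_lit 5) (nat_lit 66) (nat_lit 5) (nat_lit 67) (nat_lit 5) (nat_lit 327) (nat_lit 294) (nat_lit 279)) (XT.lf (nat_lit 0) (nat_lit 7507729233) (nat_lit 380) (nat_lit 1412809857) (nat_lit 76) (nat_lit 263856901) (nat_lit 62) (nat_lit 5) (nat_lit 67) (nat_lit 5) (nat_lit 63) (nat_lit 4) (nat_lit 328) (nat_lit 294) (nat_lit 278)))) (XT.nd (nat_lit 78) (nat_lit 228) (nat_lit 0) (XT.lf (nat_lit 0) (nat_lit 1467380400) (nat_lit 304) (nat_lit 4512649696) (nat_lit 76) (nat_lit 3431687480) (nat_lit 58) (nat_lit 5) (nat_lit 62) (nat_lit 5) (nat_lit 59) (nat_lit 5) (nat_lit 329) (nat_lit 294) (nat_lit 277)) (XT.nd (nat_lit 78) (nat_lit 0) (nat_lit 0) (XT.lf (nat_lit 0) (nat_lit 1808227812) (nat_lit 228) (nat_lit 2852074895) (nat_lit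 304) (nat_lit 4991425691) (nat_lit 55) (nat_lit 5) (nat_lit 58) (nat_lit 5) (nat_lit 59) (nat_lit 5) (nat_lit 330) (nat_lit 294) (nat_lit 276)) (XT.lf (nat_lit 0) (nat_lit 7994782455) (nat_lit 304) (nat_lit 1456360485) (nat_lit 76) (nat_lit 453595033) (nat_lit 55) (nat_lit 5) (nat_lit 59) (nat_lit 5) (nat_lit 56) (nat_lit 4) (nat_lit 331) (nat_lit 294) (nat_lit 275)))))) (XT.nd (nat_lit 390) (nat_lit 608) (nat_lit 0) (XT.nd (nat_lit 156) (nat_lit 456) (nat_lit 0) (XT.nd (nat_lit 78) (nat_lit 228) (nat_lit 0) (XT.lf (nat_lit 0) (nat_lit 1314318394) (nat_lit 228) (nat_lit 4962555132) (nat_lit 76) (nat_lit 3891016885) (nat_lit 52) (nat_lit 5) (nat_lit 55) (nat_lit 5) (nat_lit 53) (nat_lit 5) (nat_lit 332) (nat_lit 294) (nat_lit 274)) (XT.lf (nat_lit 0) (nat_lit 1685876209) (nat_lit 228) (nat_lit 2904307940) (nat_lit 304) (nat_lit 5854803534) (nat_lit 49) (nat_lit 5) (nat_lit 52) (nat_lit 5)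 (nat_lit 53) (nat_lit 5) (nat_lit 333) (nat_lit 294) (nat_lit 273))) (XT.nd (nat_lit 78) (nat_lit 456) (nat_lit 0) (XT.lf (nat_lit 0) (nat_lit 8030041845) (nat_lit 304) (nat_lit 2049854336) (nat_lit 76) (nat_lit 656110856) (nat_lit 49) (nat_lit 5) (nat_lit 53) (nat_lit 5) (nat_lit 50) (nat_lit 4) (nat_lit 334) (nat_lit 294) (nat_lit 272)) (XT.nd (nat_lit 78) (nat_lit 228) (nat_lit 0) (XT.lf (nat_lit 0) (nat_lit 616128157) (nat_lit 228) (nat_lit 6082490523) (nat_lit 76) (nat_lit 4340808680) (nat_lit 46) (nat_lit 5) (nat_lit 49) (nat_lit 5) (nat_lit 47) (nat_lit 5) (nat_lit 335) (nat_lit 294) (nat_lit 271)) (XT.lf (nat_lit 0) (nat_lit 872268509) (nat_lit 228) (nat_lit 3100053163) (nat_lit 304) (nat_lit 7385598985) (nat_lit 43) (nat_lit 5) (nat_lit 46) (nat_lit 5) (nat_lit 47) (nat_lit 5) (nat_lit 336) (nat_lit 294) (nat_lit 270))))) (XT.nd (nat_lit 234) (nat_lit 380) (nat_lit 0) (XT.nd (nat_lit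 78) (nat_lit 228) (nat_lit 0) (XT.lf (nat_lit 0) (nat_lit 7523011122) (nat_lit 304) (nat_lit 3454632658) (nat_lit 76) (nat_lit 713423997) (nat_lit 43) (nat_lit 5) (nat_lit 47) (nat_lit 5) (nat_lit 44) (nat_lit 4) (nat_lit 337) (nat_lit 294) (nat_lit 269)) (XT.nd (nat_lit 78) (nat_lit 76) (nat_lit 0) (XT.lf (nat_lit 0) (nat_lit 3866488747) (nat_lit 152) (nat_lit 7411548129) (nat_lit 228) (nat_lit 761555736) (nat_lit 41) (nat_lit 5) (nat_lit 43) (nat_lit 5) (nat_lit 44) (nat_lit 4) (nat_lit 338) (nat_lit 294) (nat_lit 268)) (XT.lf (nat_lit 0) (nat_lit 2700790632) (nat_lit 228) (nat_lit 908968280) (nat_lit 76) (nat_lit 8794860561) (nat_lit 40) (nat_lit 5) (nat_lit 43) (nat_lit 5) (nat_lit 41) (nat_lit 5) (nat_lit 339) (nat_lit 294) (nat_lit 267)))) (XT.nd (nat_lit 78) (nat_lit 228) (nat_lit 0) (XT.lf (nat_lit 0) (nat_lit 6344048557) (nat_lit 228) (nat_lit 5998407273) (nat_lit 76) (nat_lit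 443200464) (nat_lit 38) (nat_lit 5) (nat_lit 41) (nat_lit 5) (nat_lit 39) (nat_lit 4) (nat_lit 340) (nat_lit 294) (nat_lit 266)) (XT.nd (nat_lit 78) (nat_lit 76) (nat_lit 0) (XT.lf (nat_lit 0) (nat_lit 1576148911) (nat_lit 152) (nat_lit 8613974229) (nat_lit 228) (nat_lit 2994638859) (nat_lit 36) (nat_lit 5) (nat_lit 38) (nat_lit 5) (nat_lit 39) (nat_lit 4) (nat_lit 341) (nat_lit 294) (nat_lit 265)) (XT.lf (nat_lit 0) (nat_lit 629609316) (nat_lit 228) (nat_lit 4002748727) (nat_lit 76) (nat_lit 8969776185) (nat_lit 35) (nat_lit 5) (nat_lit 38) (nat_lit 5) (nat_lit 36) (nat_lit 5) (nat_lit 342) (nat_lit 294) (nat_lit 264))))))) (XT.nd (nat_lit 858) (nat_lit 684) (nat_lit 0) (XT.nd (nat_lit 390) (nat_lit 380) (nat_lit 0) (XT.nd (nat_lit 156) (nat_lit 304) (nat_lit 0) (XT.nd (nat_lit 78) (nat_lit 0) (nat_lit 0) (XT.lf (nat_lit 0) (nat_lit 3936233054) (nat_lit 152) (nat_lit 385056013) (nat_lit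 228) (nat_lit 9717331404) (nat_lit 33) (nat_lit 5) (nat_lit 35) (nat_lit 5) (nat_lit 36) (nat_lit 5) (nat_lit 343) (nat_lit 294) (nat_lit 263)) (XT.lf (nat_lit 0) (nat_lit 8256351325) (nat_lit 228) (nat_lit 2272126582) (nat_lit 76) (nat_lit 3965554108) (nat_lit 33) (nat_lit 5) (nat_lit 36) (nat_lit 5) (nat_lit 34) (nat_lit 4) (nat_lit 344) (nat_lit 294) (nat_lit 262))) (XT.nd (nat_lit 78) (nat_lit 228) (nat_lit 0) (XT.lf (nat_lit 0) (nat_lit 6016876410) (nat_lit 76) (nat_lit 6401335976) (nat_lit 152) (nat_lit 2552538433) (nat_lit 32) (nat_lit 5) (nat_lit 33) (nat_lit 5) (nat_lit 34) (nat_lit 4) (nat_lit 345) (nat_lit 294) (nat_lit 261)) (XT.nd (nat_lit 78) (nat_lit 152) (nat_lit 0) (XT.lf (nat_lit 0) (nat_lit 1243969187) (nat_lit 152) (nat_lit 810820847) (nat_lit 76) (nat_lit 13417060077) (nat_lit 31) (nat_lit 5) (nat_lit 33) (nat_lit 5) (nat_lit 32) (nat_lit 5) (nat_lit 346) (nat_lit 294)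 (nat_lit 260)) (XT.lf (nat_lit 0) (nat_lit 5241438450) (nat_lit 228) (nat_lit 8199762119) (nat_lit 76) (nat_lit 2549899300) (nat_lit 29) (nat_lit 5) (nat_lit 32) (nat_lit 5) (nat_lit 30) (nat_lit 4) (nat_lit 347) (nat_lit 294) (nat_lit 259))))) (XT.nd (nat_lit 234) (nat_lit 76) (nat_lit 0) (XT.nd (nat_lit 78) (nat_lit 228) (nat_lit 0) (XT.lf (nat_lit 0) (nat_lit 173270316) (nat_lit 76) (nat_lit 9250019167) (nat_lit 152) (nat_lit 7113829272) (nat_lit 28) (nat_lit 5) (nat_lit 29) (nat_lit 5) (nat_lit 30) (nat_lit 4) (nat_lit 348) (nat_lit 294) (nat_lit 258)) (XT.nd (nat_lit 78) (nat_lit 228) (nat_lit 0) (XT.lf (nat_lit 0) (nat_lit 9136984436) (nat_lit 76) (nat_lit 4751653252) (nat_lit 152) (nat_lit 3218111201) (nat_lit 28) (nat_lit 5) (nat_lit 29) (nat_lit 5) (nat_lit 30) (nat_lit 4) (nat_lit 349) (nat_lit 294) (nat_lit 257)) (XT.lf (nat_lit 0) (nat_lit 744868859) (nat_lit 152) (nat_lit 48804117)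 (nat_lit 228) (nat_lit 16913074107) (nat_lit 25) (nat_lit 5) (nat_lit 27) (nat_lit 5) (nat_lit 28) (nat_lit 5) (nat_lit 350) (nat_lit 294) (nat_lit 256)))) (XT.nd (nat_lit 78) (nat_lit 76) (nat_lit 0) (XT.lf (nat_lit 0) (nat_lit 5049554844) (nat_lit 228) (nat_lit 8399341235) (nat_lit 76) (nat_lit 4877654782) (nat_lit 25) (nat_lit 5) (nat_lit 28) (nat_lit 5) (nat_lit 26) (nat_lit 4) (nat_lit 351) (nat_lit 294) (nat_lit 255)) (XT.nd (nat_lit 78) (nat_lit 0) (nat_lit 0) (XT.lf (nat_lit 0) (nat_lit 501853351) (nat_lit 76) (nat_lit 8966098314) (nat_lit 152) (nat_lit 9511932236) (nat_lit 24) (nat_lit 5) (nat_lit 25) (nat_lit 5) (nat_lit 26) (nat_lit 4) (nat_lit 352) (nat_lit 294) (nat_lit 254)) (XT.lf (nat_lit 0) (nat_lit 10036671423) (nat_lit 76) (nat_lit 4155125945) (nat_lit 152) (nat_lit 5469883697) (nat_lit 24) (nat_lit 5) (nat_lit 25) (nat_lit 5) (nat_lit 26) (nat_lit 4) (nat_lit 353) (nat_lit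 294) (nat_lit 253)))))) (XT.nd (nat_lit 468) (nat_lit 304) (nat_lit 0) (XT.nd (nat_lit 234) (nat_lit 152) (nat_lit 0) (XT.nd (nat_lit 78) (nat_lit 228) (nat_lit 0) (XT.lf (nat_lit 0) (nat_lit 19110187249) (nat_lit 152) (nat_lit 443565859) (nat_lit 0) (nat_lit 825920166) (nat_lit 24) (nat_lit 5) (nat_lit 26) (nat_lit 4) (nat_lit 24) (nat_lit 4) (nat_lit 354) (nat_lit 294) (nat_lit 252)) (XT.nd (nat_lit 78) (nat_lit 0) (nat_lit 0) (XT.lf (nat_lit 0) (nat_lit 3203840266) (nat_lit 228) (nat_lit 11845163021) (nat_lit 76) (nat_lit 6073958626) (nat_lit 21) (nat_lit 5) (nat_lit 24) (nat_lit 5) (nat_lit 22) (nat_lit 4) (nat_lit 355) (nat_lit 294) (nat_lit 251)) (XT.lf (nat_lit 0) (nat_lit 7812997034) (nat_lit 228) (nat_lit 2519028299) (nat_lit 76) (nat_lit 11572627409) (nat_lit 21) (nat_lit 5) (nat_lit 24) (nat_lit 5) (nat_lit 22) (nat_lit 4) (nat_lit 356) (nat_lit 294) (nat_lit 250)))) (XT.nd (nat_lit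 78) (nat_lit 76) (nat_lit 0) (XT.lf (nat_lit 0) (nat_lit 7419762359) (nat_lit 76) (nat_lit 5298399294) (nat_lit 152) (nat_lit 10004007701) (nat_lit 20) (nat_lit 5) (nat_lit 21) (nat_lit 5) (nat_lit 22) (nat_lit 4) (nat_lit 357) (nat_lit 294) (nat_lit 249)) (XT.nd (nat_lit 78) (nat_lit 76) (nat_lit 0) (XT.lf (nat_lit 0) (nat_lit 17853287825) (nat_lit 76) (nat_lit 8659450) (nat_lit 152) (nat_lit 5718964235) (nat_lit 20) (nat_lit 5) (nat_lit 21) (nat_lit 5) (nat_lit 22) (nat_lit 4) (nat_lit 358) (nat_lit 294) (nat_lit 248)) (XT.lf (nat_lit 0) (nat_lit 4289451605) (nat_lit 76) (nat_lit 19079471974) (nat_lit 76) (nat_lit 1108384125) (nat_lit 19) (nat_lit 4) (nat_lit 20) (nat_lit 5) (nat_lit 20) (nat_lit 4) (nat_lit 359) (nat_lit 294) (nat_lit 247))))) (XT.nd (nat_lit 234) (nat_lit 152) (nat_lit 0) (XT.nd (nat_lit 78) (nat_lit 76) (nat_lit 0) (XT.lf (nat_lit 0) (nat_lit 3664581394) (nat_lit 152)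 (nat_lit 10554785015) (nat_lit 76) (nat_lit 11193692459) (nat_lit 18) (nat_lit 5) (nat_lit 20) (nat_lit 5) (nat_lit 19) (nat_lit 4) (nat_lit 360) (nat_lit 294) (nat_lit 246)) (XT.nd (nat_lit 78) (nat_lit 76) (nat_lit 0) (XT.lf (nat_lit 0) (nat_lit 8593798326) (nat_lit 152) (nat_lit 541403664) (nat_lit 76) (nat_lit 17261759169) (nat_lit 18) (nat_lit 5) (nat_lit 20) (nat_lit 5) (nat_lit 19) (nat_lit 4) (nat_lit 361) (nat_lit 294) (nat_lit 245)) (XT.lf (nat_lit 0) (nat_lit 10220555936) (nat_lit 76) (nat_lit 3665493696) (nat_lit 152) (nat_lit 13538194241) (nat_lit 17) (nat_lit 5) (nat_lit 18) (nat_lit 5) (nat_lit 19) (nat_lit 4) (nat_lit 362) (nat_lit 294) (nat_lit 244)))) (XT.nd (nat_lit 78) (nat_lit 152) (nat_lit 0) (XT.lf (nat_lit 0) (nat_lit 19441945788) (nat_lit 152) (nat_lit 7075109546) (nat_lit 0) (nat_lit 1985897097) (nat_lit 17) (nat_lit 5) (nat_lit 19) (nat_lit 4) (nat_lit 17) (nat_lit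 4) (nat_lit 363) (nat_lit 294) (nat_lit 243)) (XT.nd (nat_lit 78) (nat_lit 76) (nat_lit 0) (XT.lf (nat_lit 0) (nat_lit 3537311313) (nat_lit 76) (nat_lit 21812951716) (nat_lit 76) (nat_lit 4281614759) (nat_lit 16) (nat_lit 4) (nat_lit 17) (nat_lit 5) (nat_lit 17) (nat_lit 4) (nat_lit 364) (nat_lit 294) (nat_lit 242)) (XT.lf (nat_lit 0) (nat_lit 794368361) (nat_lit 152) (nat_lit 15974584926) (nat_lit 76) (nat_lit 14043672394) (nat_lit 15) (nat_lit 5) (nat_lit 17) (nat_lit 5) (nat_lit 16) (nat_lit 4) (nat_lit 365) (nat_lit 294) (nat_lit 241))))))))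
noncomputable def xc84 : XT := (XT.nd (nat_lit 1716) (nat_lit 228) (nat_lit 0) (XT.nd (nat_lit 858) (nat_lit 304) (nat_lit 0) (XT.nd (nat_lit 390) (nat_lit 152) (nat_lit 0) (XT.nd (nat_lit 156) (nat_lit 76) (nat_lit 0) (XT.nd (nat_lit 78) (nat_lit 76) (nat_lit 0) (XT.lf (nat_lit 0) (nat_lit 5941610275) (nat_lit 152) (nat_lit 5491027680) (nat_lit 76) (nat_lit 20618206952) (nat_lit 15) (nat_lit 5) (nat_lit 17) (nat_lit 5) (nat_lit 16) (nat_lit 4) (nat_lit 366) (nat_lit 294) (nat_lit 240)) (XT.lf (nat_lit 0) (nat_lit 5628046762) (nat_lit 76) (nat_lit 5769227550) (nat_lit 152) (nat_lit 21951158218) (nat_lit 14) (nat_lit 5) (nat_lit 15) (nat_lit 5) (nat_lit 16) (nat_lit 4) (nat_lit 367) (nat_lit 294) (nat_lit 239))) (XT.nd (nat_lit 78) (nat_lit 76) (nat_lit 0) (XT.lf (nat_lit 0) (nat_lit 17186401873) (nat_lit 152) (nat_lit 17285838781) (nat_lit 0) (nat_lit 235634804) (nat_lit 14) (nat_lit 5)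 (nat_lit 16) (nat_lit 4) (nat_lit 14) (nat_lit 4) (nat_lit 368) (nat_lit 294) (nat_lit 238)) (XT.nd (nat_lit 78) (nat_lit 76) (nat_lit 0) (XT.lf (nat_lit 0) (nat_lit 23324700121) (nat_lit 152) (nat_lit 6489862376) (nat_lit 0) (nat_lit 6317751788) (nat_lit 14) (nat_lit 5) (nat_lit 16) (nat_lit 4) (nat_lit 14) (nat_lit 4) (nat_lit 369) (nat_lit 294) (nat_lit 237)) (XT.lf (nat_lit 0) (nat_lit 4941480188) (nat_lit 76) (nat_lit 24872380406) (nat_lit 76) (nat_lit 7811926108) (nat_lit 13) (nat_lit 4) (nat_lit 14) (nat_lit 5) (nat_lit 14) (nat_lit 4) (nat_lit 370) (nat_lit 294) (nat_lit 236))))) (XT.nd (nat_lit 234) (nat_lit 0) (nat_lit 0) (XT.nd (nat_lit 78) (nat_lit 152) (nat_lit 0) (XT.lf (nat_lit 0) (nat_lit 17108121892) (nat_lit 76) (nat_lit 19596682759) (nat_lit 76) (nat_lit 2485270399) (nat_lit 13) (nat_lit 4) (nat_lit 14) (nat_lit 5) (nat_lit 14) (nat_lit 4) (nat_lit 371) (nat_lit 294)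 (nat_lit 235)) (XT.nd (nat_lit 78) (nat_lit 76) (nat_lit 0) (XT.lf (nat_lit 0) (nat_lit 2976703263) (nat_lit 152) (nat_lit 11057702156) (nat_lit 76) (nat_lit 26797331596) (nat_lit 12) (nat_lit 5) (nat_lit 14) (nat_lit 5) (nat_lit 13) (nat_lit 4) (nat_lit 372) (nat_lit 294) (nat_lit 234)) (XT.lf (nat_lit 0) (nat_lit 434054736) (nat_lit 76) (nat_lit 8170930165) (nat_lit 152) (nat_lit 33949630955) (nat_lit 11) (nat_lit 5) (nat_lit 12) (nat_lit 5) (nat_lit 13) (nat_lit 4) (nat_lit 373) (nat_lit 294) (nat_lit 233)))) (XT.nd (nat_lit 78) (nat_lit 0) (nat_lit 0) (XT.lf (nat_lit 0) (nat_lit 12828357988) (nat_lit 76) (nat_lit 1844101421) (nat_lit 152) (nat_lit 29683297354) (nat_lit 11) (nat_lit 5) (nat_lit 12) (nat_lit 5) (nat_lit 13) (nat_lit 4) (nat_lit 374) (nat_lit 294) (nat_lit 232)) (XT.nd (nat_lit 78) (nat_lit 0) (nat_lit 0) (XT.lf (nat_lit 0) (nat_lit 21089756722) (nat_lit 152) (nat_lit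 20533798998) (nat_lit 0) (nat_lit 4621083269) (nat_lit 11) (nat_lit 5) (nat_lit 13) (nat_lit 4) (nat_lit 11) (nat_lit 4) (nat_lit 375) (nat_lit 294) (nat_lit 231)) (XT.lf (nat_lit 0) (nat_lit 27831028325) (nat_lit 152) (nat_lit 9072458757) (nat_lit 0) (nat_lit 11324329182) (nat_lit 11) (nat_lit 5) (nat_lit 13) (nat_lit 4) (nat_lit 11) (nat_lit 4) (nat_lit 376) (nat_lit 294) (nat_lit 230)))))) (XT.nd (nat_lit 390) (nat_lit 152) (nat_lit 0) (XT.nd (nat_lit 156) (nat_lit 76) (nat_lit 0) (XT.nd (nat_lit 78) (nat_lit 0) (nat_lit 0) (XT.lf (nat_lit 0) (nat_lit 3009009541) (nat_lit 76) (nat_lit 31921502805) (nat_lit 76) (nat_lit 15378588718) (nat_lit 10) (nat_lit 4) (nat_lit 11) (nat_lit 5) (nat_lit 11) (nat_lit 4) (nat_lit 377) (nat_lit 294) (nat_lit 229)) (XT.lf (nat_lit 0) (nat_lit 15961074776) (nat_lit 76) (nat_lit 26552185578) (nat_lit 76) (nat_lit 9974781069) (nat_lit 10) (nat_lit 4) (nat_lit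 11) (nat_lit 5) (nat_lit 11) (nat_lit 4) (nat_lit 378) (nat_lit 294) (nat_lit 228))) (XT.nd (nat_lit 78) (nat_lit 76) (nat_lit 0) (XT.lf (nat_lit 0) (nat_lit 29514598739) (nat_lit 76) (nat_lit 20936397795) (nat_lit 76) (nat_lit 4326145264) (nat_lit 10) (nat_lit 4) (nat_lit 11) (nat_lit 5) (nat_lit 11) (nat_lit 4) (nat_lit 379) (nat_lit 294) (nat_lit 227)) (XT.nd (nat_lit 78) (nat_lit 0) (nat_lit 0) (XT.lf (nat_lit 0) (nat_lit 1530173386) (nat_lit 152) (nat_lit 13504680918) (nat_lit 76) (nat_lit 42145764113) (nat_lit 9) (nat_lit 5) (nat_lit 11) (nat_lit 5) (nat_lit 10) (nat_lit 4) (nat_lit 380) (nat_lit 294) (nat_lit 226)) (XT.lf (nat_lit 0) (nat_lit 7511653115) (nat_lit 152) (nat_lit 1272441597) (nat_lit 76) (nat_lit 50917746315) (nat_lit 9) (nat_lit 5) (nat_lit 11) (nat_lit 5) (nat_lit 10) (nat_lit 4) (nat_lit 381) (nat_lit 294) (nat_lit 225))))) (XT.nd (nat_lit 234) (nat_lit 76) (nat_lit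 0) (XT.nd (nat_lit 78) (nat_lit 0) (nat_lit 0) (XT.lf (nat_lit 0) (nat_lit 11912104261) (nat_lit 76) (nat_lit 2044876275) (nat_lit 152) (nat_lit 48383910099) (nat_lit 8) (nat_lit 5) (nat_lit 9) (nat_lit 5) (nat_lit 10) (nat_lit 4) (nat_lit 382) (nat_lit 294) (nat_lit 224)) (XT.nd (nat_lit 78) (nat_lit 0) (nat_lit 0) (XT.lf (nat_lit 0) (nat_lit 20803910786) (nat_lit 152) (nat_lit 39430327702) (nat_lit 0) (nat_lit 4873691750) (nat_lit 8) (nat_lit 5) (nat_lit 10) (nat_lit 4) (nat_lit 8) (nat_lit 4) (nat_lit 383) (nat_lit 294) (nat_lit 223)) (XT.lf (nat_lit 0) (nat_lit 28006596807) (nat_lit 152) (nat_lit 27954192610) (nat_lit 0) (nat_lit 12051866072) (nat_lit 8) (nat_lit 5) (nat_lit 10) (nat_lit 4) (nat_lit 8) (nat_lit 4) (nat_lit 384) (nat_lit 294) (nat_lit 222)))) (XT.nd (nat_lit 78) (nat_lit 76) (nat_lit 0) (XT.lf (nat_lit 0) (nat_lit 35550261602) (nat_lit 152) (nat_lit 15941130718) (nat_lit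 0) (nat_lit 19572186391) (nat_lit 8) (nat_lit 5) (nat_lit 10) (nat_lit 4) (nat_lit 8) (nat_lit 4) (nat_lit 385) (nat_lit 294) (nat_lit 221)) (XT.nd (nat_lit 78) (nat_lit 76) (nat_lit 0) (XT.lf (nat_lit 0) (nat_lit 43452866278) (nat_lit 152) (nat_lit 3362539498) (nat_lit 0) (nat_lit 27452558234) (nat_lit 8) (nat_lit 5) (nat_lit 10) (nat_lit 4) (nat_lit 8) (nat_lit 4) (nat_lit 386) (nat_lit 294) (nat_lit 220)) (XT.lf (nat_lit 0) (nat_lit 10135943571) (nat_lit 76) (nat_lit 41755533475) (nat_lit 76) (nat_lit 25734051303) (nat_lit 7) (nat_lit 4) (nat_lit 8) (nat_lit 5) (nat_lit 8) (nat_lit 4) (nat_lit 387) (nat_lit 294) (nat_lit 219))))))) (XT.nd (nat_lit 858) (nat_lit 76) (nat_lit 0) (XT.nd (nat_lit 390) (nat_lit 76) (nat_lit 0) (XT.nd (nat_lit 156) (nat_lit 76) (nat_lit 0) (XT.nd (nat_lit 78) (nat_lit 0) (nat_lit 0) (XT.lf (nat_lit 0) (nat_lit 24393178902) (nat_lit 76) (nat_lit 36398724575)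 (nat_lit 76) (nat_lit 20357076568) (nat_lit 7) (nat_lit 4) (nat_lit 8) (nat_lit 5) (nat_lit 8) (nat_lit 4) (nat_lit 388) (nat_lit 294) (nat_lit 218)) (XT.lf (nat_lit 0) (nat_lit 39331931552) (nat_lit 76) (nat_lit 30789171005) (nat_lit 76) (nat_lit 14728317440) (nat_lit 7) (nat_lit 4) (nat_lit 8) (nat_lit 5) (nat_lit 8) (nat_lit 4) (nat_lit 389) (nat_lit 294) (nat_lit 217))) (XT.nd (nat_lit 78) (nat_lit 76) (nat_lit 0) (XT.lf (nat_lit 0) (nat_lit 54987769979) (nat_lit 76) (nat_lit 24913516683) (nat_lit 76) (nat_lit 8834372112) (nat_lit 7) (nat_lit 4) (nat_lit 8) (nat_lit 5) (nat_lit 8) (nat_lit 4) (nat_lit 390) (nat_lit 294) (nat_lit 216)) (XT.nd (nat_lit 78) (nat_lit 76) (nat_lit 0) (XT.lf (nat_lit 0) (nat_lit 71397969990) (nat_lit 76) (nat_lit 18757771958) (nat_lit 76) (nat_lit 2661207380) (nat_lit 7) (nat_lit 4) (nat_lit 8) (nat_lit 5) (nat_lit 8) (nat_lit 4) (nat_lit 391) (nat_lit 294)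 (nat_lit 215)) (XT.lf (nat_lit 0) (nat_lit 3684063006) (nat_lit 152) (nat_lit 8560825898) (nat_lit 76) (nat_lit 84855149092) (nat_lit 6) (nat_lit 5) (nat_lit 8) (nat_lit 5) (nat_lit 7) (nat_lit 4) (nat_lit 392) (nat_lit 294) (nat_lit 214))))) (XT.nd (nat_lit 234) (nat_lit 0) (nat_lit 0) (XT.nd (nat_lit 78) (nat_lit 0) (nat_lit 0) (XT.lf (nat_lit 0) (nat_lit 5031406262) (nat_lit 76) (nat_lit 5290721436) (nat_lit 152) (nat_lit 91269726378) (nat_lit 5) (nat_lit 5) (nat_lit 6) (nat_lit 5) (nat_lit 7) (nat_lit 4) (nat_lit 393) (nat_lit 294) (nat_lit 213)) (XT.nd (nat_lit 78) (nat_lit 0) (nat_lit 0) (XT.lf (nat_lit 0) (nat_lit 17457313683) (nat_lit 152) (nat_lit 86760616609) (nat_lit 0) (nat_lit 2082072180) (nat_lit 5) (nat_lit 5) (nat_lit 7) (nat_lit 4) (nat_lit 5) (nat_lit 4) (nat_lit 394) (nat_lit 294) (nat_lit 212)) (XT.lf (nat_lit 0) (nat_lit 25023096696) (nat_lit 152) (nat_lit 76582565843)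 (nat_lit 0) (nat_lit 9634206162) (nat_lit 5) (nat_lit 5) (nat_lit 7) (nat_lit 4) (nat_lit 5) (nat_lit 4) (nat_lit 395) (nat_lit 294) (nat_lit 211)))) (XT.nd (nat_lit 78) (nat_lit 0) (nat_lit 0) (XT.lf (nat_lit 0) (nat_lit 32954887519) (nat_lit 152) (nat_lit 65919459073) (nat_lit 0) (nat_lit 17552997907) (nat_lit 5) (nat_lit 5) (nat_lit 7) (nat_lit 4) (nat_lit 5) (nat_lit 4) (nat_lit 396) (nat_lit 294) (nat_lit 210)) (XT.nd (nat_lit 78) (nat_lit 0) (nat_lit 0) (XT.lf (nat_lit 0) (nat_lit 41271571367) (nat_lit 152) (nat_lit 54745907950) (nat_lit 0) (nat_lit 25857301682) (nat_lit 5) (nat_lit 5) (nat_lit 7) (nat_lit 4) (nat_lit 5) (nat_lit 4) (nat_lit 397) (nat_lit 294) (nat_lit 209)) (XT.lf (nat_lit 0) (nat_lit 49992949869) (nat_lit 152) (nat_lit 43035308781) (nat_lit 0) (nat_lit 34566889637) (nat_lit 5) (nat_lit 5) (nat_lit 7) (nat_lit 4) (nat_lit 5) (nat_lit 4) (nat_lit 398) (nat_lit 294)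 (nat_lit 208)))))) (XT.nd (nat_lit 468) (nat_lit 0) (nat_lit 0) (XT.nd (nat_lit 234) (nat_lit 76) (nat_lit 0) (XT.nd (nat_lit 78) (nat_lit 0) (nat_lit 0) (XT.lf (nat_lit 0) (nat_lit 59139788212) (nat_lit 152) (nat_lit 30759779187) (nat_lit 0) (nat_lit 43702498888) (nat_lit 5) (nat_lit 5) (nat_lit 7) (nat_lit 4) (nat_lit 5) (nat_lit 4) (nat_lit 399) (nat_lit 294) (nat_lit 207)) (XT.nd (nat_lit 78) (nat_lit 0) (nat_lit 0) (XT.lf (nat_lit 0) (nat_lit 68733864582) (nat_lit 152) (nat_lit 17890091716) (nat_lit 0) (nat_lit 53285880885) (nat_lit 5) (nat_lit 5) (nat_lit 7) (nat_lit 4) (nat_lit 5) (nat_lit 4) (nat_lit 400) (nat_lit 294) (nat_lit 206)) (XT.lf (nat_lit 0) (nat_lit 78798022018) (nat_lit 152) (nat_lit 4395604255) (nat_lit 0) (nat_lit 63339853204) (nat_lit 5) (nat_lit 5) (nat_lit 7) (nat_lit 4) (nat_lit 5) (nat_lit 4) (nat_lit 401) (nat_lit 294) (nat_lit 205)))) (XT.nd (nat_lit 78) (nat_lit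 0) (nat_lit 0) (XT.lf (nat_lit 0) (nat_lit 10078384160) (nat_lit 76) (nat_lit 79435190461) (nat_lit 76) (nat_lit 63967321535) (nat_lit 4) (nat_lit 4) (nat_lit 5) (nat_lit 5) (nat_lit 5) (nat_lit 4) (nat_lit 402) (nat_lit 294) (nat_lit 204)) (XT.nd (nat_lit 78) (nat_lit 0) (nat_lit 0) (XT.lf (nat_lit 0) (nat_lit 25411169811) (nat_lit 76) (nat_lit 75419175265) (nat_lit 76) (nat_lit 59942068138) (nat_lit 4) (nat_lit 4) (nat_lit 5) (nat_lit 5) (nat_lit 5) (nat_lit 4) (nat_lit 403) (nat_lit 294) (nat_lit 203)) (XT.lf (nat_lit 0) (nat_lit 41493920800) (nat_lit 76) (nat_lit 71210460432) (nat_lit 76) (nat_lit 55724555017) (nat_lit 4) (nat_lit 4) (nat_lit 5) (nat_lit 5) (nat_lit 5) (nat_lit 4) (nat_lit 404) (nat_lit 294) (nat_lit 202))))) (XT.nd (nat_lit 234) (nat_lit 0) (nat_lit 0) (XT.nd (nat_lit 78) (nat_lit 0) (nat_lit 0) (XT.lf (nat_lit 0) (nat_lit 58364929393) (nat_lit 76) (nat_lit 66799025210)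 (nat_lit 76) (nat_lit 51304740475) (nat_lit 4) (nat_lit 4) (nat_lit 5) (nat_lit 5) (nat_lit 5) (nat_lit 4) (nat_lit 405) (nat_lit 294) (nat_lit 201)) (XT.nd (nat_lit 78) (nat_lit 0) (nat_lit 0) (XT.lf (nat_lit 0) (nat_lit 76064364656) (nat_lit 76) (nat_lit 62174366184) (nat_lit 76) (nat_lit 46672101142) (nat_lit 4) (nat_lit 4) (nat_lit 5) (nat_lit 5) (nat_lit 5) (nat_lit 4) (nat_lit 406) (nat_lit 294) (nat_lit 200)) (XT.lf (nat_lit 0) (nat_lit 94634368104) (nat_lit 76) (nat_lit 57325472259) (nat_lit 76) (nat_lit 41815606926) (nat_lit 4) (nat_lit 4) (nat_lit 5) (nat_lit 5) (nat_lit 5) (nat_lit 4) (nat_lit 407) (nat_lit 294) (nat_lit 199)))) (XT.nd (nat_lit 78) (nat_lit 0) (nat_lit 0) (XT.lf (nat_lit 0) (nat_lit 114119154029) (nat_lit 76) (nat_lit 52240798451) (nat_lit 76) (nat_lit 36723694745) (nat_lit 4) (nat_lit 4) (nat_lit 5) (nat_lit 5) (nat_lit 5) (nat_lit 4) (nat_lit 408) (nat_lit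 294) (nat_lit 198)) (XT.nd (nat_lit 78) (nat_lit 0) (nat_lit 0) (XT.lf (nat_lit 0) (nat_lit 134565114779) (nat_lit 76) (nat_lit 46908238393) (nat_lit 76) (nat_lit 31384240999) (nat_lit 4) (nat_lit 4) (nat_lit 5) (nat_lit 5) (nat_lit 5) (nat_lit 4) (nat_lit 409) (nat_lit 294) (nat_lit 197)) (XT.lf (nat_lit 0) (nat_lit 156020931213) (nat_lit 76) (nat_lit 41315095513) (nat_lit 76) (nat_lit 25784532702) (nat_lit 4) (nat_lit 4) (nat_lit 5) (nat_lit 5) (nat_lit 5) (nat_lit 4) (nat_lit 410) (nat_lit 294) (nat_lit 196))))))))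
noncomputable def xc85 : XT := (XT.nd (nat_lit 39000) (nat_lit 0) (nat_lit 3800) (XT.nd (nat_lit 858) (nat_lit 0) (nat_lit 0) (XT.nd (nat_lit 390) (nat_lit 76) (nat_lit 0) (XT.nd (nat_lit 156) (nat_lit 76) (nat_lit 0) (XT.nd (nat_lit 78) (nat_lit 0) (nat_lit 0) (XT.lf (nat_lit 0) (nat_lit 178537688609) (nat_lit 76) (nat_lit 35448052805) (nat_lit 76) (nat_lit 19911237215) (nat_lit 4) (nat_lit 4) (nat_lit 5) (nat_lit 5) (nat_lit 5) (nat_lit 4) (nat_lit 411) (nat_lit 294) (nat_lit 195)) (XT.lf (nat_lit 0) (nat_lit 202168998293) (nat_lit 76) (nat_lit 29293141120) (nat_lit 76) (nat_lit 13750370503) (nat_lit 4) (nat_lit 4) (nat_lit 5) (nat_lit 5) (nat_lit 5) (nat_lit 4) (nat_lit 412) (nat_lit 294) (nat_lit 194))) (XT.nd (nat_lit 78) (nat_lit 76) (nat_lit 0) (XT.lf (nat_lit 0) (nat_lit 226971125288) (nat_lit 76) (nat_lit 22835705906) (nat_lit 76) (nat_lit 7287263834) (nat_lit 4) (nat_lit 4) (nat_lit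 5) (nat_lit 5) (nat_lit 5) (nat_lit 4) (nat_lit 413) (nat_lit 294) (nat_lit 193)) (XT.nd (nat_lit 78) (nat_lit 76) (nat_lit 0) (XT.lf (nat_lit 0) (nat_lit 253003122278) (nat_lit 76) (nat_lit 16060372317) (nat_lit 76) (nat_lit 506528860) (nat_lit 4) (nat_lit 4) (nat_lit 5) (nat_lit 5) (nat_lit 5) (nat_lit 4) (nat_lit 414) (nat_lit 294) (nat_lit 192)) (XT.lf (nat_lit 0) (nat_lit 6396482430) (nat_lit 152) (nat_lit 2446198650) (nat_lit 76) (nat_lit 273822160253) (nat_lit 3) (nat_lit 5) (nat_lit 5) (nat_lit 5) (nat_lit 4) (nat_lit 4) (nat_lit 415) (nat_lit 294) (nat_lit 191))))) (XT.nd (nat_lit 234) (nat_lit 0) (nat_lit 0) (XT.nd (nat_lit 78) (nat_lit 0) (nat_lit 0) (XT.lf (nat_lit 0) (nat_lit 12771558982) (nat_lit 76) (nat_lit 1050609715) (nat_lit 152) (nat_lit 282582089652) (nat_lit 2) (nat_lit 5) (nat_lit 3) (nat_lit 5) (nat_lit 4) (nat_lit 4) (nat_lit 416) (nat_lit 294) (nat_lit 190)) (XT.nd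 (nat_lit 78) (nat_lit 0) (nat_lit 0) (XT.lf (nat_lit 0) (nat_lit 21767744473) (nat_lit 152) (nat_lit 282114920872) (nat_lit 0) (nat_lit 6940551360) (nat_lit 2) (nat_lit 5) (nat_lit 4) (nat_lit 4) (nat_lit 2) (nat_lit 4) (nat_lit 417) (nat_lit 294) (nat_lit 189)) (XT.lf (nat_lit 0) (nat_lit 30123215083) (nat_lit 152) (nat_lit 280547487962) (nat_lit 0) (nat_lit 15291789844) (nat_lit 2) (nat_lit 5) (nat_lit 4) (nat_lit 4) (nat_lit 2) (nat_lit 4) (nat_lit 418) (nat_lit 294) (nat_lit 188)))) (XT.nd (nat_lit 78) (nat_lit 0) (nat_lit 0) (XT.lf (nat_lit 0) (nat_lit 38892071544) (nat_lit 152) (nat_lit 278910265694) (nat_lit 0) (nat_lit 24056615708) (nat_lit 2) (nat_lit 5) (nat_lit 4) (nat_lit 4) (nat_lit 2) (nat_lit 4) (nat_lit 419) (nat_lit 294) (nat_lit 187)) (XT.nd (nat_lit 78) (nat_lit 0) (nat_lit 0) (XT.lf (nat_lit 0) (nat_lit 48095192086) (nat_lit 152) (nat_lit 277199355918) (nat_lit 0) (nat_lit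 33255897586) (nat_lit 2) (nat_lit 5) (nat_lit 4) (nat_lit 4) (nat_lit 2) (nat_lit 4) (nat_lit 420) (nat_lit 294) (nat_lit 186)) (XT.lf (nat_lit 0) (nat_lit 57754488899) (nat_lit 152) (nat_lit 275410685040) (nat_lit 0) (nat_lit 42911538530) (nat_lit 2) (nat_lit 5) (nat_lit 4) (nat_lit 4) (nat_lit 2) (nat_lit 4) (nat_lit 421) (nat_lit 294) (nat_lit 185)))))) (XT.nd (nat_lit 390) (nat_lit 0) (nat_lit 0) (XT.nd (nat_lit 156) (nat_lit 0) (nat_lit 0) (XT.nd (nat_lit 78) (nat_lit 0) (nat_lit 0) (XT.lf (nat_lit 0) (nat_lit 67892960311) (nat_lit 152) (nat_lit 273539994320) (nat_lit 0) (nat_lit 53046528160) (nat_lit 2) (nat_lit 5) (nat_lit 4) (nat_lit 4) (nat_lit 2) (nat_lit 4) (nat_lit 422) (nat_lit 294) (nat_lit 184)) (XT.lf (nat_lit 0) (nat_lit 78534745538) (nat_lit 152) (nat_lit 271582829733) (nat_lit 0) (nat_lit 63684997406) (nat_lit 2) (nat_lit 5) (nat_lit 4) (nat_lit 4) (nat_lit 2) (nat_lit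 4) (nat_lit 423) (nat_lit 294) (nat_lit 183))) (XT.nd (nat_lit 78) (nat_lit 0) (nat_lit 0) (XT.lf (nat_lit 0) (nat_lit 89705182165) (nat_lit 152) (nat_lit 269534531362) (nat_lit 0) (nat_lit 74852275954) (nat_lit 2) (nat_lit 5) (nat_lit 4) (nat_lit 4) (nat_lit 2) (nat_lit 4) (nat_lit 424) (nat_lit 294) (nat_lit 182)) (XT.nd (nat_lit 78) (nat_lit 0) (nat_lit 0) (XT.lf (nat_lit 0) (nat_lit 101430866468) (nat_lit 152) (nat_lit 267390222308) (nat_lit 0) (nat_lit 86574952565) (nat_lit 2) (nat_lit 5) (nat_lit 4) (nat_lit 4) (nat_lit 2) (nat_lit 4) (nat_lit 425) (nat_lit 294) (nat_lit 181)) (XT.lf (nat_lit 0) (nat_lit 113739716745) (nat_lit 152) (nat_lit 265144797071) (nat_lit 0) (nat_lit 98880938371) (nat_lit 2) (nat_lit 5) (nat_lit 4) (nat_lit 4) (nat_lit 2) (nat_lit 4) (nat_lit 426) (nat_lit 294) (nat_lit 180))))) (XT.nd (nat_lit 234) (nat_lit 0) (nat_lit 0) (XT.nd (nat_lit 78) (nat_lit 0) (nat_lit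 0) (XT.lf (nat_lit 0) (nat_lit 126661039781) (nat_lit 152) (nat_lit 262792909401) (nat_lit 0) (nat_lit 111799533341) (nat_lit 2) (nat_lit 5) (nat_lit 4) (nat_lit 4) (nat_lit 2) (nat_lit 4) (nat_lit 427) (nat_lit 294) (nat_lit 179)) (XT.nd (nat_lit 78) (nat_lit 0) (nat_lit 0) (XT.lf (nat_lit 0) (nat_lit 140225600632) (nat_lit 152) (nat_lit 260328959567) (nat_lit 0) (nat_lit 125361496033) (nat_lit 2) (nat_lit 5) (nat_lit 4) (nat_lit 4) (nat_lit 2) (nat_lit 4) (nat_lit 428) (nat_lit 294) (nat_lit 178)) (XT.lf (nat_lit 0) (nat_lit 154465695870) (nat_lit 152) (nat_lit 257747081021) (nat_lit 0) (nat_lit 139599116835) (nat_lit 2) (nat_lit 5) (nat_lit 4) (nat_lit 4) (nat_lit 2) (nat_lit 4) (nat_lit 429) (nat_lit 294) (nat_lit 177)))) (XT.nd (nat_lit 78) (nat_lit 0) (nat_lit 0) (XT.lf (nat_lit 0) (nat_lit 169415230485) (nat_lit 152) (nat_lit 255041126432) (nat_lit 0) (nat_lit 154546294843) (nat_lit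 2) (nat_lit 5) (nat_lit 4) (nat_lit 4) (nat_lit 2) (nat_lit 4) (nat_lit 430) (nat_lit 294) (nat_lit 176)) (XT.nd (nat_lit 78) (nat_lit 0) (nat_lit 0) (XT.lf (nat_lit 0) (nat_lit 185109798606) (nat_lit 152) (nat_lit 252204653052) (nat_lit 0) (nat_lit 170238618577) (nat_lit 2) (nat_lit 5) (nat_lit 4) (nat_lit 4) (nat_lit 2) (nat_lit 4) (nat_lit 431) (nat_lit 294) (nat_lit 175)) (XT.lf (nat_lit 0) (nat_lit 201586768253) (nat_lit 152) (nat_lit 249230907373) (nat_lit 0) (nat_lit 186713450712) (nat_lit 2) (nat_lit 5) (nat_lit 4) (nat_lit 4) (nat_lit 2) (nat_lit 4) (nat_lit 432) (nat_lit 294) (nat_lit 174))))))) (XT.nd (nat_lit 858) (nat_lit 2432) (nat_lit 0) (XT.nd (nat_lit 390) (nat_lit 2356) (nat_lit 0) (XT.nd (nat_lit 156) (nat_lit 1216) (nat_lit 0) (XT.nd (nat_lit 78) (nat_lit 532) (nat_lit 0) (XT.lf (nat_lit 0) (nat_lit 1996038035) (nat_lit 380) (nat_lit 687342955) (nat_lit 380) (nat_lit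 687342955) (nat_lit 138) (nat_lit 4) (nat_lit 143) (nat_lit 5) (nat_lit 143) (nat_lit 4) (nat_lit 310) (nat_lit 295) (nat_lit 295)) (XT.lf (nat_lit 0) (nat_lit 1579522620) (nat_lit 456) (nat_lit 204527604) (nat_lit 532) (nat_lit 5022559708) (nat_lit 131) (nat_lit 5) (nat_lit 137) (nat_lit 5) (nat_lit 138) (nat_lit 4) (nat_lit 311) (nat_lit 295) (nat_lit 294))) (XT.nd (nat_lit 78) (nat_lit 1216) (nat_lit 0) (XT.lf (nat_lit 0) (nat_lit 4950132624) (nat_lit 532) (nat_lit 842621638) (nat_lit 0) (nat_lit 1086686186) (nat_lit 131) (nat_lit 5) (nat_lit 138) (nat_lit 4) (nat_lit 131) (nat_lit 4) (nat_lit 312) (nat_lit 295) (nat_lit 293)) (XT.nd (nat_lit 78) (nat_lit 608) (nat_lit 0) (XT.lf (nat_lit 0) (nat_lit 1176423992) (nat_lit 608) (nat_lit 3246642033) (nat_lit 76) (nat_lit 2537104096) (nat_lit 123) (nat_lit 5) (nat_lit 131) (nat_lit 5) (nat_lit 124) (nat_lit 4) (nat_lit 313) (nat_lit 295)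 (nat_lit 292)) (XT.lf (nat_lit 0) (nat_lit 1346854334) (nat_lit 608) (nat_lit 2904150826) (nat_lit 684) (nat_lit 2798704031) (nat_lit 115) (nat_lit 5) (nat_lit 123) (nat_lit 5) (nat_lit 124) (nat_lit 4) (nat_lit 314) (nat_lit 295) (nat_lit 291))))) (XT.nd (nat_lit 234) (nat_lit 836) (nat_lit 0) (XT.nd (nat_lit 78) (nat_lit 1444) (nat_lit 0) (XT.lf (nat_lit 0) (nat_lit 226084522) (nat_lit 684) (nat_lit 1014275993) (nat_lit 76) (nat_lit 5908289778) (nat_lit 114) (nat_lit 5) (nat_lit 123) (nat_lit 5) (nat_lit 115) (nat_lit 5) (nat_lit 315) (nat_lit 295) (nat_lit 290)) (XT.nd (nat_lit 78) (nat_lit 760) (nat_lit 0) (XT.lf (nat_lit 0) (nat_lit 3230490027) (nat_lit 760) (nat_lit 3421469910) (nat_lit 76) (nat_lit 602399845) (nat_lit 105) (nat_lit 5) (nat_lit 115) (nat_lit 5) (nat_lit 106) (nat_lit 4) (nat_lit 316) (nat_lit 295) (nat_lit 289)) (XT.lf (nat_lit 0) (nat_lit 1471782223) (nat_lit 760)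 (nat_lit 4831671537) (nat_lit 836) (nat_lit 1066209773) (nat_lit 95) (nat_lit 5) (nat_lit 105) (nat_lit 5) (nat_lit 106) (nat_lit 4) (nat_lit 317) (nat_lit 295) (nat_lit 288)))) (XT.nd (nat_lit 78) (nat_lit 760) (nat_lit 0) (XT.lf (nat_lit 0) (nat_lit 1892565140) (nat_lit 836) (nat_lit 942444485) (nat_lit 76) (nat_lit 4658410400) (nat_lit 94) (nat_lit 5) (nat_lit 105) (nat_lit 5) (nat_lit 95) (nat_lit 5) (nat_lit 318) (nat_lit 295) (nat_lit 287)) (XT.nd (nat_lit 78) (nat_lit 380) (nat_lit 0) (XT.lf (nat_lit 0) (nat_lit 4235709455) (nat_lit 380) (nat_lit 660163455) (nat_lit 456) (nat_lit 2730191156) (nat_lit 89) (nat_lit 5) (nat_lit 94) (nat_lit 5) (nat_lit 95) (nat_lit 5) (nat_lit 319) (nat_lit 295) (nat_lit 286)) (XT.lf (nat_lit 0) (nat_lit 214129722) (nat_lit 380) (nat_lit 5945484347) (nat_lit 76) (nat_lit 1608720668) (nat_lit 84) (nat_lit 5) (nat_lit 89) (nat_lit 5) (nat_lit 85) (nat_lit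 5) (nat_lit 320) (nat_lit 295) (nat_lit 285)))))) (XT.nd (nat_lit 468) (nat_lit 1064) (nat_lit 0) (XT.nd (nat_lit 234) (nat_lit 608) (nat_lit 0) (XT.nd (nat_lit 78) (nat_lit 760) (nat_lit 0) (XT.lf (nat_lit 0) (nat_lit 3155061732) (nat_lit 380) (nat_lit 706295820) (nat_lit 76) (nat_lit 4057234567) (nat_lit 84) (nat_lit 5) (nat_lit 89) (nat_lit 5) (nat_lit 85) (nat_lit 5) (nat_lit 321) (nat_lit 295) (nat_lit 284)) (XT.nd (nat_lit 78) (nat_lit 380) (nat_lit 0) (XT.lf (nat_lit 0) (nat_lit 4806452446) (nat_lit 380) (nat_lit 1389693422) (nat_lit 456) (nat_lit 1882721616) (nat_lit 79) (nat_lit 5) (nat_lit 84) (nat_lit 5) (nat_lit 85) (nat_lit 5) (nat_lit 322) (nat_lit 295) (nat_lit 283)) (XT.lf (nat_lit 0) (nat_lit 1052512687) (nat_lit 380) (nat_lit 5985768715) (nat_lit 76) (nat_lit 1210782089) (nat_lit 74) (nat_lit 5) (nat_lit 79) (nat_lit 5) (nat_lit 75) (nat_lit 5) (nat_lit 323) (nat_lit 295)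 (nat_lit 282)))) (XT.nd (nat_lit 78) (nat_lit 608) (nat_lit 0) (XT.lf (nat_lit 0) (nat_lit 4033076967) (nat_lit 380) (nat_lit 437491398) (nat_lit 76) (nat_lit 3957704267) (nat_lit 74) (nat_lit 5) (nat_lit 79) (nat_lit 5) (nat_lit 75) (nat_lit 5) (nat_lit 324) (nat_lit 295) (nat_lit 281)) (XT.nd (nat_lit 78) (nat_lit 304) (nat_lit 0) (XT.lf (nat_lit 0) (nat_lit 5421395075) (nat_lit 304) (nat_lit 1714231592) (nat_lit 380) (nat_lit 1482299656) (nat_lit 70) (nat_lit 5) (nat_lit 74) (nat_lit 5) (nat_lit 75) (nat_lit 5) (nat_lit 325) (nat_lit 295) (nat_lit 280)) (XT.lf (nat_lit 0) (nat_lit 1484064357) (nat_lit 304) (nat_lit 6146843904) (nat_lit 76) (nat_lit 1187130008) (nat_lit 66) (nat_lit 5) (nat_lit 70) (nat_lit 5) (nat_lit 67) (nat_lit 5) (nat_lit 326) (nat_lit 295) (nat_lit 279))))) (XT.nd (nat_lit 234) (nat_lit 456) (nat_lit 0) (XT.nd (nat_lit 78) (nat_lit 608) (nat_lit 0) (XT.lf (nat_lit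 0) (nat_lit 4524209099) (nat_lit 304) (nat_lit 279977686) (nat_lit 76) (nat_lit 4224104140) (nat_lit 66) (nat_lit 5) (nat_lit 70) (nat_lit 5) (nat_lit 67) (nat_lit 5) (nat_lit 327) (nat_lit 295) (nat_lit 278)) (XT.nd (nat_lit 78) (nat_lit 304) (nat_lit 0) (XT.lf (nat_lit 0) (nat_lit 5932468243) (nat_lit 304) (nat_lit 1773803955) (nat_lit 380) (nat_lit 1543397017) (nat_lit 62) (nat_lit 5) (nat_lit 66) (nat_lit 5) (nat_lit 67) (nat_lit 5) (nat_lit 328) (nat_lit 295) (nat_lit 277)) (XT.lf (nat_lit 0) (nat_lit 1486480577) (nat_lit 304) (nat_lit 6592968216) (nat_lit 76) (nat_lit 1402981207) (nat_lit 58) (nat_lit 5) (nat_lit 62) (nat_lit 5) (nat_lit 59) (nat_lit 5) (nat_lit 329) (nat_lit 295) (nat_lit 276)))) (XT.nd (nat_lit 78) (nat_lit 456) (nat_lit 0) (XT.lf (nat_lit 0) (nat_lit 4602608978) (nat_lit 304) (nat_lit 398791471) (nat_lit 76) (nat_lit 4724925815) (nat_lit 58) (nat_lit 5) (nat_lit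 62) (nat_lit 5) (nat_lit 59) (nat_lit 5) (nat_lit 330) (nat_lit 295) (nat_lit 275)) (XT.nd (nat_lit 78) (nat_lit 228) (nat_lit 0) (XT.lf (nat_lit 0) (nat_lit 6168138127) (nat_lit 228) (nat_lit 1707895281) (nat_lit 304) (nat_lit 2106398762) (nat_lit 55) (nat_lit 5) (nat_lit 58) (nat_lit 5) (nat_lit 59) (nat_lit 5) (nat_lit 331) (nat_lit 295) (nat_lit 274)) (XT.lf (nat_lit 0) (nat_lit 1011611381) (nat_lit 228) (nat_lit 7517974513) (nat_lit 76) (nat_lit 1721819141) (nat_lit 52) (nat_lit 5) (nat_lit 55) (nat_lit 5) (nat_lit 53) (nat_lit 5) (nat_lit 332) (nat_lit 295) (nat_lit 273))))))))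
noncomputable def xc86 : XT := (XT.nd (nat_lit 1716) (nat_lit 988) (nat_lit 0) (XT.nd (nat_lit 858) (nat_lit 836) (nat_lit 0) (XT.nd (nat_lit 390) (nat_lit 608) (nat_lit 0) (XT.nd (nat_lit 156) (nat_lit 456) (nat_lit 0) (XT.nd (nat_lit 78) (nat_lit 228) (nat_lit 0) (XT.lf (nat_lit 0) (nat_lit 4216173502) (nat_lit 228) (nat_lit 990436651) (nat_lit 76) (nat_lit 5325494971) (nat_lit 52) (nat_lit 5) (nat_lit 55) (nat_lit 5) (nat_lit 53) (nat_lit 5) (nat_lit 333) (nat_lit 295) (nat_lit 272)) (XT.lf (nat_lit 0) (nat_lit 5922347769) (nat_lit 228) (nat_lit 1663257659) (nat_lit 304) (nat_lit 3241076179) (nat_lit 49) (nat_lit 5) (nat_lit 52) (nat_lit 5) (nat_lit 53) (nat_lit 5) (nat_lit 334) (nat_lit 295) (nat_lit 271))) (XT.nd (nat_lit 78) (nat_lit 304) (nat_lit 0) (XT.lf (nat_lit 0) (nat_lit 1978687806) (nat_lit 152) (nat_lit 9138563815) (nat_lit 228) (nat_lit 19118139) (nat_lit 47) (nat_lit 5)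 (nat_lit 49) (nat_lit 5) (nat_lit 50) (nat_lit 4) (nat_lit 335) (nat_lit 295) (nat_lit 270)) (XT.nd (nat_lit 78) (nat_lit 228) (nat_lit 0) (XT.lf (nat_lit 0) (nat_lit 3282271152) (nat_lit 228) (nat_lit 2295430415) (nat_lit 76) (nat_lit 5879978183) (nat_lit 46) (nat_lit 5) (nat_lit 49) (nat_lit 5) (nat_lit 47) (nat_lit 5) (nat_lit 336) (nat_lit 295) (nat_lit 269)) (XT.lf (nat_lit 0) (nat_lit 4941079719) (nat_lit 228) (nat_lit 1802547023) (nat_lit 304) (nat_lit 5051696308) (nat_lit 43) (nat_lit 5) (nat_lit 46) (nat_lit 5) (nat_lit 47) (nat_lit 5) (nat_lit 337) (nat_lit 295) (nat_lit 268))))) (XT.nd (nat_lit 234) (nat_lit 228) (nat_lit 0) (XT.nd (nat_lit 78) (nat_lit 228) (nat_lit 0) (XT.lf (nat_lit 0) (nat_lit 319050843) (nat_lit 152) (nat_lit 10056869941) (nat_lit 228) (nat_lit 1774091770) (nat_lit 41) (nat_lit 5) (nat_lit 43) (nat_lit 5) (nat_lit 44) (nat_lit 4) (nat_lit 338) (nat_lit 295)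 (nat_lit 267)) (XT.nd (nat_lit 78) (nat_lit 152) (nat_lit 0) (XT.lf (nat_lit 0) (nat_lit 1681712779) (nat_lit 228) (nat_lit 4613753853) (nat_lit 76) (nat_lit 6222336147) (nat_lit 40) (nat_lit 5) (nat_lit 43) (nat_lit 5) (nat_lit 41) (nat_lit 5) (nat_lit 339) (nat_lit 295) (nat_lit 266)) (XT.lf (nat_lit 0) (nat_lit 2905747943) (nat_lit 152) (nat_lit 2314261503) (nat_lit 228) (nat_lit 7684102476) (nat_lit 38) (nat_lit 5) (nat_lit 40) (nat_lit 5) (nat_lit 41) (nat_lit 5) (nat_lit 340) (nat_lit 295) (nat_lit 265)))) (XT.nd (nat_lit 78) (nat_lit 228) (nat_lit 0) (XT.lf (nat_lit 0) (nat_lit 8968745963) (nat_lit 228) (nat_lit 2498390919) (nat_lit 76) (nat_lit 1840970755) (nat_lit 38) (nat_lit 5) (nat_lit 41) (nat_lit 5) (nat_lit 39) (nat_lit 4) (nat_lit 341) (nat_lit 295) (nat_lit 264)) (XT.nd (nat_lit 78) (nat_lit 76) (nat_lit 0) (XT.lf (nat_lit 0) (nat_lit 5393603773) (nat_lit 152) (nat_lit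 7562010553) (nat_lit 228) (nat_lit 774199167) (nat_lit 36) (nat_lit 5) (nat_lit 38) (nat_lit 5) (nat_lit 39) (nat_lit 4) (nat_lit 342) (nat_lit 295) (nat_lit 263)) (XT.lf (nat_lit 0) (nat_lit 2846148202) (nat_lit 228) (nat_lit 568763305) (nat_lit 76) (nat_lit 10756818139) (nat_lit 35) (nat_lit 5) (nat_lit 38) (nat_lit 5) (nat_lit 36) (nat_lit 5) (nat_lit 343) (nat_lit 295) (nat_lit 262)))))) (XT.nd (nat_lit 390) (nat_lit 380) (nat_lit 0) (XT.nd (nat_lit 156) (nat_lit 228) (nat_lit 0) (XT.nd (nat_lit 78) (nat_lit 76) (nat_lit 0) (XT.lf (nat_lit 0) (nat_lit 6690334615) (nat_lit 228) (nat_lit 6940108153) (nat_lit 76) (nat_lit 1001261222) (nat_lit 33) (nat_lit 5) (nat_lit 36) (nat_lit 5) (nat_lit 34) (nat_lit 4) (nat_lit 344) (nat_lit 295) (nat_lit 261)) (XT.lf (nat_lit 0) (nat_lit 1137420447) (nat_lit 76) (nat_lit 9605976753) (nat_lit 152) (nat_lit 4370483621) (nat_lit 32) (nat_lit 5) (nat_lit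 33) (nat_lit 5) (nat_lit 34) (nat_lit 4) (nat_lit 345) (nat_lit 295) (nat_lit 260))) (XT.nd (nat_lit 78) (nat_lit 228) (nat_lit 0) (XT.lf (nat_lit 0) (nat_lit 9748231149) (nat_lit 76) (nat_lit 5302994592) (nat_lit 152) (nat_lit 566370453) (nat_lit 32) (nat_lit 5) (nat_lit 33) (nat_lit 5) (nat_lit 34) (nat_lit 4) (nat_lit 346) (nat_lit 295) (nat_lit 259)) (XT.nd (nat_lit 78) (nat_lit 0) (nat_lit 0) (XT.lf (nat_lit 0) (nat_lit 2563250339) (nat_lit 152) (nat_lit 731641840) (nat_lit 228) (nat_lit 12850128242) (nat_lit 29) (nat_lit 5) (nat_lit 31) (nat_lit 5) (nat_lit 32) (nat_lit 5) (nat_lit 347) (nat_lit 295) (nat_lit 258)) (XT.lf (nat_lit 0) (nat_lit 7432027886) (nat_lit 228) (nat_lit 5256051497) (nat_lit 76) (nat_lit 4005210585) (nat_lit 29) (nat_lit 5) (nat_lit 32) (nat_lit 5) (nat_lit 30) (nat_lit 4) (nat_lit 348) (nat_lit 295) (nat_lit 257))))) (XT.nd (nat_lit 234) (nat_lit 76) (nat_lit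 0) (XT.nd (nat_lit 78) (nat_lit 228) (nat_lit 0) (XT.lf (nat_lit 0) (nat_lit 3481540644) (nat_lit 76) (nat_lit 8301112769) (nat_lit 152) (nat_lit 5486017005) (nat_lit 28) (nat_lit 5) (nat_lit 29) (nat_lit 5) (nat_lit 30) (nat_lit 4) (nat_lit 349) (nat_lit 295) (nat_lit 256)) (XT.nd (nat_lit 78) (nat_lit 228) (nat_lit 0) (XT.lf (nat_lit 0) (nat_lit 12736316336) (nat_lit 76) (nat_lit 3645038432) (nat_lit 152) (nat_lit 1489965588) (nat_lit 28) (nat_lit 5) (nat_lit 29) (nat_lit 5) (nat_lit 30) (nat_lit 4) (nat_lit 350) (nat_lit 295) (nat_lit 255)) (XT.lf (nat_lit 0) (nat_lit 2644537990) (nat_lit 228) (nat_lit 14588035960) (nat_lit 76) (nat_lit 1268178888) (nat_lit 25) (nat_lit 5) (nat_lit 28) (nat_lit 5) (nat_lit 26) (nat_lit 4) (nat_lit 351) (nat_lit 295) (nat_lit 254)))) (XT.nd (nat_lit 78) (nat_lit 76) (nat_lit 0) (XT.lf (nat_lit 0) (nat_lit 7027729188) (nat_lit 228) (nat_lit 5751559622)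 (nat_lit 76) (nat_lit 6376569020) (nat_lit 25) (nat_lit 5) (nat_lit 28) (nat_lit 5) (nat_lit 26) (nat_lit 4) (nat_lit 352) (nat_lit 295) (nat_lit 253)) (XT.nd (nat_lit 78) (nat_lit 0) (nat_lit 0) (XT.lf (nat_lit 0) (nat_lit 3545214876) (nat_lit 76) (nat_lit 8086778581) (nat_lit 152) (nat_lit 8211651720) (nat_lit 24) (nat_lit 5) (nat_lit 25) (nat_lit 5) (nat_lit 26) (nat_lit 4) (nat_lit 353) (nat_lit 295) (nat_lit 252)) (XT.lf (nat_lit 0) (nat_lit 13413046763) (nat_lit 76) (nat_lit 3098477814) (nat_lit 152) (nat_lit 4052066332) (nat_lit 24) (nat_lit 5) (nat_lit 25) (nat_lit 5) (nat_lit 26) (nat_lit 4) (nat_lit 354) (nat_lit 295) (nat_lit 251))))))) (XT.nd (nat_lit 858) (nat_lit 380) (nat_lit 0) (XT.nd (nat_lit 390) (nat_lit 304) (nat_lit 0) (XT.nd (nat_lit 156) (nat_lit 76) (nat_lit 0) (XT.nd (nat_lit 78) (nat_lit 0) (nat_lit 0) (XT.lf (nat_lit 0) (nat_lit 326233553) (nat_lit 228) (nat_lit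 18916313697) (nat_lit 76) (nat_lit 2075718410) (nat_lit 21) (nat_lit 5) (nat_lit 24) (nat_lit 5) (nat_lit 22) (nat_lit 4) (nat_lit 355) (nat_lit 295) (nat_lit 250)) (XT.lf (nat_lit 0) (nat_lit 4910857019) (nat_lit 228) (nat_lit 9634632405) (nat_lit 76) (nat_lit 7555702873) (nat_lit 21) (nat_lit 5) (nat_lit 24) (nat_lit 5) (nat_lit 22) (nat_lit 4) (nat_lit 356) (nat_lit 295) (nat_lit 249))) (XT.nd (nat_lit 78) (nat_lit 0) (nat_lit 0) (XT.lf (nat_lit 0) (nat_lit 25147807) (nat_lit 76) (nat_lit 9652058124) (nat_lit 152) (nat_lit 13248452471) (nat_lit 20) (nat_lit 5) (nat_lit 21) (nat_lit 5) (nat_lit 22) (nat_lit 4) (nat_lit 357) (nat_lit 295) (nat_lit 248)) (XT.nd (nat_lit 78) (nat_lit 0) (nat_lit 0) (XT.lf (nat_lit 0) (nat_lit 10417019522) (nat_lit 76) (nat_lit 4381069271) (nat_lit 152) (nat_lit 8987465197) (nat_lit 20) (nat_lit 5) (nat_lit 21) (nat_lit 5) (nat_lit 22) (nat_lit 4) (nat_lit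 358) (nat_lit 295) (nat_lit 247)) (XT.lf (nat_lit 0) (nat_lit 20147738197) (nat_lit 152) (nat_lit 3460972776) (nat_lit 0) (nat_lit 1081113453) (nat_lit 20) (nat_lit 5) (nat_lit 22) (nat_lit 4) (nat_lit 20) (nat_lit 4) (nat_lit 359) (nat_lit 295) (nat_lit 246))))) (XT.nd (nat_lit 234) (nat_lit 76) (nat_lit 0) (XT.nd (nat_lit 78) (nat_lit 76) (nat_lit 0) (XT.lf (nat_lit 0) (nat_lit 262018581) (nat_lit 152) (nat_lit 18621000010) (nat_lit 76) (nat_lit 6749182680) (nat_lit 18) (nat_lit 5) (nat_lit 20) (nat_lit 5) (nat_lit 19) (nat_lit 4) (nat_lit 360) (nat_lit 295) (nat_lit 245)) (XT.nd (nat_lit 78) (nat_lit 76) (nat_lit 0) (XT.lf (nat_lit 0) (nat_lit 5170260882) (nat_lit 152) (nat_lit 8646258872) (nat_lit 76) (nat_lit 12800639362) (nat_lit 18) (nat_lit 5) (nat_lit 20) (nat_lit 5) (nat_lit 19) (nat_lit 4) (nat_lit 361) (nat_lit 295) (nat_lit 244)) (XT.lf (nat_lit 0) (nat_lit 1809700629) (nat_lit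 76) (nat_lit 8501518699) (nat_lit 152) (nat_lit 17340793644) (nat_lit 17) (nat_lit 5) (nat_lit 18) (nat_lit 5) (nat_lit 19) (nat_lit 4) (nat_lit 362) (nat_lit 295) (nat_lit 243)))) (XT.nd (nat_lit 78) (nat_lit 76) (nat_lit 0) (XT.lf (nat_lit 0) (nat_lit 13014413057) (nat_lit 76) (nat_lit 2801081933) (nat_lit 152) (nat_lit 12917813752) (nat_lit 17) (nat_lit 5) (nat_lit 18) (nat_lit 5) (nat_lit 19) (nat_lit 4) (nat_lit 363) (nat_lit 295) (nat_lit 242)) (XT.nd (nat_lit 78) (nat_lit 76) (nat_lit 0) (XT.lf (nat_lit 0) (nat_lit 21605948028) (nat_lit 152) (nat_lit 5211132330) (nat_lit 0) (nat_lit 3051052846) (nat_lit 17) (nat_lit 5) (nat_lit 19) (nat_lit 4) (nat_lit 17) (nat_lit 4) (nat_lit 364) (nat_lit 295) (nat_lit 241)) (XT.lf (nat_lit 0) (nat_lit 5896139690) (nat_lit 76) (nat_lit 21890850618) (nat_lit 76) (nat_lit 3267666759) (nat_lit 16) (nat_lit 4) (nat_lit 17) (nat_lit 5) (nat_lit 17)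 (nat_lit 4) (nat_lit 365) (nat_lit 295) (nat_lit 240)))))) (XT.nd (nat_lit 468) (nat_lit 152) (nat_lit 0) (XT.nd (nat_lit 234) (nat_lit 76) (nat_lit 0) (XT.nd (nat_lit 78) (nat_lit 76) (nat_lit 0) (XT.lf (nat_lit 0) (nat_lit 1966205017) (nat_lit 152) (nat_lit 14657500408) (nat_lit 76) (nat_lit 15672624625) (nat_lit 15) (nat_lit 5) (nat_lit 17) (nat_lit 5) (nat_lit 16) (nat_lit 4) (nat_lit 366) (nat_lit 295) (nat_lit 239)) (XT.nd (nat_lit 78) (nat_lit 76) (nat_lit 0) (XT.lf (nat_lit 0) (nat_lit 7316898634) (nat_lit 152) (nat_lit 3750518336) (nat_lit 76) (nat_lit 22531754073) (nat_lit 15) (nat_lit 5) (nat_lit 17) (nat_lit 5) (nat_lit 16) (nat_lit 4) (nat_lit 367) (nat_lit 295) (nat_lit 238)) (XT.lf (nat_lit 0) (nat_lit 7892008848) (nat_lit 76) (nat_lit 5132947108) (nat_lit 152) (nat_lit 21937716145) (nat_lit 14) (nat_lit 5) (nat_lit 15) (nat_lit 5) (nat_lit 16) (nat_lit 4) (nat_lit 368) (nat_lit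 295) (nat_lit 237)))) (XT.nd (nat_lit 78) (nat_lit 76) (nat_lit 0) (XT.lf (nat_lit 0) (nat_lit 19066917910) (nat_lit 152) (nat_lit 16225079299) (nat_lit 0) (nat_lit 1099934932) (nat_lit 14) (nat_lit 5) (nat_lit 16) (nat_lit 4) (nat_lit 14) (nat_lit 4) (nat_lit 369) (nat_lit 295) (nat_lit 236)) (XT.nd (nat_lit 78) (nat_lit 76) (nat_lit 0) (XT.lf (nat_lit 0) (nat_lit 25463502691) (nat_lit 152) (nat_lit 4980973189) (nat_lit 0) (nat_lit 7445561651) (nat_lit 14) (nat_lit 5) (nat_lit 16) (nat_lit 4) (nat_lit 14) (nat_lit 4) (nat_lit 370) (nat_lit 295) (nat_lit 235)) (XT.lf (nat_lit 0) (nat_lit 6992365821) (nat_lit 76) (nat_lit 25266605181) (nat_lit 76) (nat_lit 7200132653) (nat_lit 13) (nat_lit 4) (nat_lit 14) (nat_lit 5) (nat_lit 14) (nat_lit 4) (nat_lit 371) (nat_lit 295) (nat_lit 234))))) (XT.nd (nat_lit 234) (nat_lit 0) (nat_lit 0) (XT.nd (nat_lit 78) (nat_lit 152) (nat_lit 0) (XT.lf (nat_lit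 0) (nat_lit 19681443818) (nat_lit 76) (nat_lit 19767569996) (nat_lit 76) (nat_lit 1654877004) (nat_lit 13) (nat_lit 4) (nat_lit 14) (nat_lit 5) (nat_lit 14) (nat_lit 4) (nat_lit 372) (nat_lit 295) (nat_lit 233)) (XT.nd (nat_lit 78) (nat_lit 76) (nat_lit 0) (XT.lf (nat_lit 0) (nat_lit 4005635505) (nat_lit 152) (nat_lit 9945159696) (nat_lit 76) (nat_lit 28878306544) (nat_lit 12) (nat_lit 5) (nat_lit 14) (nat_lit 5) (nat_lit 13) (nat_lit 4) (nat_lit 373) (nat_lit 295) (nat_lit 232)) (XT.lf (nat_lit 0) (nat_lit 2094323306) (nat_lit 76) (nat_lit 7804681138) (nat_lit 152) (nat_lit 34739946769) (nat_lit 11) (nat_lit 5) (nat_lit 12) (nat_lit 5) (nat_lit 13) (nat_lit 4) (nat_lit 374) (nat_lit 295) (nat_lit 231)))) (XT.nd (nat_lit 78) (nat_lit 0) (nat_lit 0) (XT.lf (nat_lit 0) (nat_lit 15030314776) (nat_lit 76) (nat_lit 1198405983) (nat_lit 152) (nat_lit 30303494856) (nat_lit 11) (nat_lit 5) (nat_lit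 12) (nat_lit 5) (nat_lit 13) (nat_lit 4) (nat_lit 375) (nat_lit 295) (nat_lit 230)) (XT.nd (nat_lit 78) (nat_lit 0) (nat_lit 0) (XT.lf (nat_lit 0) (nat_lit 22938681772) (nat_lit 152) (nat_lit 20045872586) (nat_lit 0) (nat_lit 5532407037) (nat_lit 11) (nat_lit 5) (nat_lit 13) (nat_lit 4) (nat_lit 11) (nat_lit 4) (nat_lit 376) (nat_lit 295) (nat_lit 229)) (XT.lf (nat_lit 0) (nat_lit 29979186611) (nat_lit 152) (nat_lit 8083589922) (nat_lit 0) (nat_lit 12538421455) (nat_lit 11) (nat_lit 5) (nat_lit 13) (nat_lit 4) (nat_lit 11) (nat_lit 4) (nat_lit 377) (nat_lit 295) (nat_lit 228))))))))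
noncomputable def xc87 : XT := (XT.nd (nat_lit 1716) (nat_lit 228) (nat_lit 0) (XT.nd (nat_lit 858) (nat_lit 152) (nat_lit 0) (XT.nd (nat_lit 390) (nat_lit 152) (nat_lit 0) (XT.nd (nat_lit 156) (nat_lit 76) (nat_lit 0) (XT.nd (nat_lit 78) (nat_lit 0) (nat_lit 0) (XT.lf (nat_lit 0) (nat_lit 4578685795) (nat_lit 76) (nat_lit 32841088231) (nat_lit 76) (nat_lit 15367475053) (nat_lit 10) (nat_lit 4) (nat_lit 11) (nat_lit 5) (nat_lit 11) (nat_lit 4) (nat_lit 378) (nat_lit 295) (nat_lit 227)) (XT.lf (nat_lit 0) (nat_lit 18110772112) (nat_lit 76) (nat_lit 27235518939) (nat_lit 76) (nat_lit 9730621931) (nat_lit 10) (nat_lit 4) (nat_lit 11) (nat_lit 5) (nat_lit 11) (nat_lit 4) (nat_lit 379) (nat_lit 295) (nat_lit 226))) (XT.nd (nat_lit 78) (nat_lit 76) (nat_lit 0) (XT.lf (nat_lit 0) (nat_lit 32277608293) (nat_lit 76) (nat_lit 21369621572) (nat_lit 76) (nat_lit 3834930441) (nat_lit 10) (nat_lit 4)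 (nat_lit 11) (nat_lit 5) (nat_lit 11) (nat_lit 4) (nat_lit 380) (nat_lit 295) (nat_lit 225)) (XT.nd (nat_lit 78) (nat_lit 0) (nat_lit 0) (XT.lf (nat_lit 0) (nat_lit 2258945828) (nat_lit 152) (nat_lit 12932227538) (nat_lit 76) (nat_lit 44815722731) (nat_lit 9) (nat_lit 5) (nat_lit 11) (nat_lit 5) (nat_lit 10) (nat_lit 4) (nat_lit 381) (nat_lit 295) (nat_lit 224)) (XT.lf (nat_lit 0) (nat_lit 8508439364) (nat_lit 152) (nat_lit 147789938) (nat_lit 76) (nat_lit 53999510213) (nat_lit 9) (nat_lit 5) (nat_lit 11) (nat_lit 5) (nat_lit 10) (nat_lit 4) (nat_lit 382) (nat_lit 295) (nat_lit 223))))) (XT.nd (nat_lit 234) (nat_lit 76) (nat_lit 0) (XT.nd (nat_lit 78) (nat_lit 0) (nat_lit 0) (XT.lf (nat_lit 0) (nat_lit 13676817507) (nat_lit 76) (nat_lit 1587887578) (nat_lit 152) (nat_lit 50162609274) (nat_lit 8) (nat_lit 5) (nat_lit 9) (nat_lit 5) (nat_lit 10) (nat_lit 4) (nat_lit 383) (nat_lit 295) (nat_lit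 222)) (XT.nd (nat_lit 78) (nat_lit 0) (nat_lit 0) (XT.lf (nat_lit 0) (nat_lit 22433255572) (nat_lit 152) (nat_lit 40267560607) (nat_lit 0) (nat_lit 5632932126) (nat_lit 8) (nat_lit 5) (nat_lit 10) (nat_lit 4) (nat_lit 8) (nat_lit 4) (nat_lit 384) (nat_lit 295) (nat_lit 221)) (XT.lf (nat_lit 0) (nat_lit 29968021168) (nat_lit 152) (nat_lit 28271632260) (nat_lit 0) (nat_lit 13145464888) (nat_lit 8) (nat_lit 5) (nat_lit 10) (nat_lit 4) (nat_lit 8) (nat_lit 4) (nat_lit 385) (nat_lit 295) (nat_lit 220)))) (XT.nd (nat_lit 78) (nat_lit 76) (nat_lit 0) (XT.lf (nat_lit 0) (nat_lit 37862150416) (nat_lit 152) (nat_lit 15709358701) (nat_lit 0) (nat_lit 21018420009) (nat_lit 8) (nat_lit 5) (nat_lit 10) (nat_lit 4) (nat_lit 8) (nat_lit 4) (nat_lit 386) (nat_lit 295) (nat_lit 219)) (XT.nd (nat_lit 78) (nat_lit 76) (nat_lit 0) (XT.lf (nat_lit 0) (nat_lit 46134438862) (nat_lit 152) (nat_lit 2550829755) (nat_lit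 0) (nat_lit 29270542620) (nat_lit 8) (nat_lit 5) (nat_lit 10) (nat_lit 4) (nat_lit 8) (nat_lit 4) (nat_lit 387) (nat_lit 295) (nat_lit 218)) (XT.lf (nat_lit 0) (nat_lit 11606773649) (nat_lit 76) (nat_lit 43379023047) (nat_lit 76) (nat_lit 26495921247) (nat_lit 7) (nat_lit 4) (nat_lit 8) (nat_lit 5) (nat_lit 8) (nat_lit 4) (nat_lit 388) (nat_lit 295) (nat_lit 217)))))) (XT.nd (nat_lit 390) (nat_lit 76) (nat_lit 0) (XT.nd (nat_lit 156) (nat_lit 76) (nat_lit 0) (XT.nd (nat_lit 78) (nat_lit 0) (nat_lit 0) (XT.lf (nat_lit 0) (nat_lit 26530964418) (nat_lit 76) (nat_lit 37776482612) (nat_lit 76) (nat_lit 20875089805) (nat_lit 7) (nat_lit 4) (nat_lit 8) (nat_lit 5) (nat_lit 8) (nat_lit 4) (nat_lit 389) (nat_lit 295) (nat_lit 216)) (XT.lf (nat_lit 0) (nat_lit 42172934388) (nat_lit 76) (nat_lit 31907507468) (nat_lit 76) (nat_lit 14988694653) (nat_lit 7) (nat_lit 4) (nat_lit 8) (nat_lit 5) (nat_lit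 8) (nat_lit 4) (nat_lit 390) (nat_lit 295) (nat_lit 215))) (XT.nd (nat_lit 78) (nat_lit 76) (nat_lit 0) (XT.lf (nat_lit 0) (nat_lit 58569926343) (nat_lit 76) (nat_lit 25758123863) (nat_lit 76) (nat_lit 8822720566) (nat_lit 7) (nat_lit 4) (nat_lit 8) (nat_lit 5) (nat_lit 8) (nat_lit 4) (nat_lit 391) (nat_lit 295) (nat_lit 214)) (XT.nd (nat_lit 78) (nat_lit 76) (nat_lit 0) (XT.lf (nat_lit 0) (nat_lit 75760980742) (nat_lit 76) (nat_lit 19313690409) (nat_lit 76) (nat_lit 2362486652) (nat_lit 7) (nat_lit 4) (nat_lit 8) (nat_lit 5) (nat_lit 8) (nat_lit 4) (nat_lit 392) (nat_lit 295) (nat_lit 213)) (XT.lf (nat_lit 0) (nat_lit 4266324637) (nat_lit 152) (nat_lit 8220286307) (nat_lit 76) (nat_lit 89448451755) (nat_lit 6) (nat_lit 5) (nat_lit 8) (nat_lit 5) (nat_lit 7) (nat_lit 4) (nat_lit 393) (nat_lit 295) (nat_lit 212))))) (XT.nd (nat_lit 234) (nat_lit 0) (nat_lit 0) (XT.nd (nat_lit 78) (nat_lit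 0) (nat_lit 0) (XT.lf (nat_lit 0) (nat_lit 6039160995) (nat_lit 76) (nat_lit 5189982561) (nat_lit 152) (nat_lit 95422687014) (nat_lit 5) (nat_lit 5) (nat_lit 6) (nat_lit 5) (nat_lit 7) (nat_lit 4) (nat_lit 394) (nat_lit 295) (nat_lit 211)) (XT.nd (nat_lit 78) (nat_lit 0) (nat_lit 0) (XT.lf (nat_lit 0) (nat_lit 18707905499) (nat_lit 152) (nat_lit 90365221093) (nat_lit 0) (nat_lit 2522922330) (nat_lit 5) (nat_lit 5) (nat_lit 7) (nat_lit 4) (nat_lit 5) (nat_lit 4) (nat_lit 395) (nat_lit 295) (nat_lit 210)) (XT.lf (nat_lit 0) (nat_lit 26633990705) (nat_lit 152) (nat_lit 79713192852) (nat_lit 0) (nat_lit 10436627461) (nat_lit 5) (nat_lit 5) (nat_lit 7) (nat_lit 4) (nat_lit 5) (nat_lit 4) (nat_lit 396) (nat_lit 295) (nat_lit 209)))) (XT.nd (nat_lit 78) (nat_lit 0) (nat_lit 0) (XT.lf (nat_lit 0) (nat_lit 34945240632) (nat_lit 152) (nat_lit 68550192710) (nat_lit 0) (nat_lit 18736086842) (nat_lit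 5) (nat_lit 5) (nat_lit 7) (nat_lit 4) (nat_lit 5) (nat_lit 4) (nat_lit 397) (nat_lit 295) (nat_lit 208)) (XT.nd (nat_lit 78) (nat_lit 0) (nat_lit 0) (XT.lf (nat_lit 0) (nat_lit 43661443971) (nat_lit 152) (nat_lit 56849642094) (nat_lit 0) (nat_lit 27441061089) (nat_lit 5) (nat_lit 5) (nat_lit 7) (nat_lit 4) (nat_lit 5) (nat_lit 4) (nat_lit 398) (nat_lit 295) (nat_lit 207)) (XT.lf (nat_lit 0) (nat_lit 52803353586) (nat_lit 152) (nat_lit 44583682549) (nat_lit 0) (nat_lit 36572276332) (nat_lit 5) (nat_lit 5) (nat_lit 7) (nat_lit 4) (nat_lit 5) (nat_lit 4) (nat_lit 399) (nat_lit 295) (nat_lit 206))))))) (XT.nd (nat_lit 858) (nat_lit 152) (nat_lit 0) (XT.nd (nat_lit 390) (nat_lit 0) (nat_lit 0) (XT.nd (nat_lit 156) (nat_lit 76) (nat_lit 0) (XT.nd (nat_lit 78) (nat_lit 0) (nat_lit 0) (XT.lf (nat_lit 0) (nat_lit 62392735931) (nat_lit 152) (nat_lit 31723109412) (nat_lit 0) (nat_lit 46151473559)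 (nat_lit 5) (nat_lit 5) (nat_lit 7) (nat_lit 4) (nat_lit 5) (nat_lit 4) (nat_lit 400) (nat_lit 295) (nat_lit 205)) (XT.lf (nat_lit 0) (nat_lit 72452422867) (nat_lit 152) (nat_lit 18237302269) (nat_lit 0) (nat_lit 56201460383) (nat_lit 5) (nat_lit 5) (nat_lit 7) (nat_lit 4) (nat_lit 5) (nat_lit 4) (nat_lit 401) (nat_lit 295) (nat_lit 204))) (XT.nd (nat_lit 78) (nat_lit 76) (nat_lit 0) (XT.lf (nat_lit 0) (nat_lit 83006366029) (nat_lit 152) (nat_lit 4094152056) (nat_lit 0) (nat_lit 66746165344) (nat_lit 5) (nat_lit 5) (nat_lit 7) (nat_lit 4) (nat_lit 5) (nat_lit 4) (nat_lit 402) (nat_lit 295) (nat_lit 203)) (XT.nd (nat_lit 78) (nat_lit 0) (nat_lit 0) (XT.lf (nat_lit 0) (nat_lit 11095128806) (nat_lit 76) (nat_lit 83157791103) (nat_lit 76) (nat_lit 66888792130) (nat_lit 4) (nat_lit 4) (nat_lit 5) (nat_lit 5) (nat_lit 5) (nat_lit 4) (nat_lit 403) (nat_lit 295) (nat_lit 202)) (XT.lf (nat_lit 0)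 (nat_lit 27170133480) (nat_lit 76) (nat_lit 78952839857) (nat_lit 76) (nat_lit 62675461563) (nat_lit 4) (nat_lit 4) (nat_lit 5) (nat_lit 5) (nat_lit 5) (nat_lit 4) (nat_lit 404) (nat_lit 295) (nat_lit 201))))) (XT.nd (nat_lit 234) (nat_lit 0) (nat_lit 0) (XT.nd (nat_lit 78) (nat_lit 0) (nat_lit 0) (XT.lf (nat_lit 0) (nat_lit 44033764629) (nat_lit 76) (nat_lit 74544989004) (nat_lit 76) (nat_lit 58259630404) (nat_lit 4) (nat_lit 4) (nat_lit 5) (nat_lit 5) (nat_lit 5) (nat_lit 4) (nat_lit 405) (nat_lit 295) (nat_lit 200)) (XT.nd (nat_lit 78) (nat_lit 0) (nat_lit 0) (XT.lf (nat_lit 0) (nat_lit 61726173757) (nat_lit 76) (nat_lit 69923743662) (nat_lit 76) (nat_lit 53630784771) (nat_lit 4) (nat_lit 4) (nat_lit 5) (nat_lit 5) (nat_lit 5) (nat_lit 4) (nat_lit 406) (nat_lit 295) (nat_lit 199)) (XT.lf (nat_lit 0) (nat_lit 80289485646) (nat_lit 76) (nat_lit 65078100865) (nat_lit 76) (nat_lit 48777903601)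 (nat_lit 4) (nat_lit 4) (nat_lit 5) (nat_lit 5) (nat_lit 5) (nat_lit 4) (nat_lit 407) (nat_lit 295) (nat_lit 198)))) (XT.nd (nat_lit 78) (nat_lit 0) (nat_lit 0) (XT.lf (nat_lit 0) (nat_lit 99767898658) (nat_lit 76) (nat_lit 59996523369) (nat_lit 76) (nat_lit 43689432417) (nat_lit 4) (nat_lit 4) (nat_lit 5) (nat_lit 5) (nat_lit 5) (nat_lit 4) (nat_lit 408) (nat_lit 295) (nat_lit 197)) (XT.nd (nat_lit 78) (nat_lit 0) (nat_lit 0) (XT.lf (nat_lit 0) (nat_lit 120207789968) (nat_lit 76) (nat_lit 54666912180) (nat_lit 76) (nat_lit 38353255811) (nat_lit 4) (nat_lit 4) (nat_lit 5) (nat_lit 5) (nat_lit 5) (nat_lit 4) (nat_lit 409) (nat_lit 295) (nat_lit 196)) (XT.lf (nat_lit 0) (nat_lit 141657825982) (nat_lit 76) (nat_lit 49076577747) (nat_lit 76) (nat_lit 32756668599) (nat_lit 4) (nat_lit 4) (nat_lit 5) (nat_lit 5) (nat_lit 5) (nat_lit 4) (nat_lit 410) (nat_lit 295) (nat_lit 195)))))) (XT.nd (nat_lit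 468) (nat_lit 76) (nat_lit 0) (XT.nd (nat_lit 234) (nat_lit 76) (nat_lit 0) (XT.nd (nat_lit 78) (nat_lit 0) (nat_lit 0) (XT.lf (nat_lit 0) (nat_lit 164169078216) (nat_lit 76) (nat_lit 43212209751) (nat_lit 76) (nat_lit 26886345576) (nat_lit 4) (nat_lit 4) (nat_lit 5) (nat_lit 5) (nat_lit 5) (nat_lit 4) (nat_lit 411) (nat_lit 295) (nat_lit 194)) (XT.nd (nat_lit 78) (nat_lit 0) (nat_lit 0) (XT.lf (nat_lit 0) (nat_lit 187795144889) (nat_lit 76) (nat_lit 37059845410) (nat_lit 76) (nat_lit 20728309780) (nat_lit 4) (nat_lit 4) (nat_lit 5) (nat_lit 5) (nat_lit 5) (nat_lit 4) (nat_lit 412) (nat_lit 295) (nat_lit 193)) (XT.lf (nat_lit 0) (nat_lit 212592278540) (nat_lit 76) (nat_lit 30604836237) (nat_lit 76) (nat_lit 14267899222) (nat_lit 4) (nat_lit 4) (nat_lit 5) (nat_lit 5) (nat_lit 5) (nat_lit 4) (nat_lit 413) (nat_lit 295) (nat_lit 192)))) (XT.nd (nat_lit 78) (nat_lit 76) (nat_lit 0) (XT.lf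 (nat_lit 0) (nat_lit 238619519965) (nat_lit 76) (nat_lit 23831813164) (nat_lit 76) (nat_lit 7489731973) (nat_lit 4) (nat_lit 4) (nat_lit 5) (nat_lit 5) (nat_lit 5) (nat_lit 4) (nat_lit 414) (nat_lit 295) (nat_lit 191)) (XT.nd (nat_lit 78) (nat_lit 76) (nat_lit 0) (XT.lf (nat_lit 0) (nat_lit 265938838785) (nat_lit 76) (nat_lit 16724649944) (nat_lit 76) (nat_lit 377669538) (nat_lit 4) (nat_lit 4) (nat_lit 5) (nat_lit 5) (nat_lit 5) (nat_lit 4) (nat_lit 415) (nat_lit 295) (nat_lit 190)) (XT.lf (nat_lit 0) (nat_lit 6858450225) (nat_lit 152) (nat_lit 2291823363) (nat_lit 76) (nat_lit 287640679599) (nat_lit 3) (nat_lit 5) (nat_lit 5) (nat_lit 5) (nat_lit 4) (nat_lit 4) (nat_lit 416) (nat_lit 295) (nat_lit 189))))) (XT.nd (nat_lit 234) (nat_lit 0) (nat_lit 0) (XT.nd (nat_lit 78) (nat_lit 0) (nat_lit 0) (XT.lf (nat_lit 0) (nat_lit 13682359486) (nat_lit 76) (nat_lit 970542730) (nat_lit 152) (nat_lit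 296564565863) (nat_lit 2) (nat_lit 5) (nat_lit 3) (nat_lit 5) (nat_lit 4) (nat_lit 4) (nat_lit 417) (nat_lit 295) (nat_lit 188)) (XT.nd (nat_lit 78) (nat_lit 0) (nat_lit 0) (XT.lf (nat_lit 0) (nat_lit 22991079604) (nat_lit 152) (nat_lit 295956709273) (nat_lit 0) (nat_lit 7409820379) (nat_lit 2) (nat_lit 5) (nat_lit 4) (nat_lit 4) (nat_lit 2) (nat_lit 4) (nat_lit 418) (nat_lit 295) (nat_lit 187)) (XT.lf (nat_lit 0) (nat_lit 31757897654) (nat_lit 152) (nat_lit 294323474130) (nat_lit 0) (nat_lit 16172799766) (nat_lit 2) (nat_lit 5) (nat_lit 4) (nat_lit 4) (nat_lit 2) (nat_lit 4) (nat_lit 419) (nat_lit 295) (nat_lit 186)))) (XT.nd (nat_lit 78) (nat_lit 0) (nat_lit 0) (XT.lf (nat_lit 0) (nat_lit 40959076851) (nat_lit 152) (nat_lit 292616361616) (nat_lit 0) (nat_lit 25370323093) (nat_lit 2) (nat_lit 5) (nat_lit 4) (nat_lit 4) (nat_lit 2) (nat_lit 4) (nat_lit 420) (nat_lit 295) (nat_lit 185))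 (XT.nd (nat_lit 78) (nat_lit 0) (nat_lit 0) (XT.lf (nat_lit 0) (nat_lit 50616524766) (nat_lit 152) (nat_lit 290831307178) (nat_lit 0) (nat_lit 35024289227) (nat_lit 2) (nat_lit 5) (nat_lit 4) (nat_lit 4) (nat_lit 2) (nat_lit 4) (nat_lit 421) (nat_lit 295) (nat_lit 184)) (XT.lf (nat_lit 0) (nat_lit 60753235322) (nat_lit 152) (nat_lit 288964060687) (nat_lit 0) (nat_lit 45157683801) (nat_lit 2) (nat_lit 5) (nat_lit 4) (nat_lit 4) (nat_lit 2) (nat_lit 4) (nat_lit 422) (nat_lit 295) (nat_lit 183))))))))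
noncomputable def xc88 : XT := (XT.nd (nat_lit 38844) (nat_lit 0) (nat_lit 2584) (XT.nd (nat_lit 37986) (nat_lit 0) (nat_lit 6612) (XT.nd (nat_lit 390) (nat_lit 0) (nat_lit 0) (XT.nd (nat_lit 156) (nat_lit 0) (nat_lit 0) (XT.nd (nat_lit 78) (nat_lit 0) (nat_lit 0) (XT.lf (nat_lit 0) (nat_lit 71393343543) (nat_lit 152) (nat_lit 287010176317) (nat_lit 0) (nat_lit 55794633944) (nat_lit 2) (nat_lit 5) (nat_lit 4) (nat_lit 4) (nat_lit 2) (nat_lit 4) (nat_lit 423) (nat_lit 295) (nat_lit 182)) (XT.lf (nat_lit 0) (nat_lit 82562183021) (nat_lit 152) (nat_lit 284965001963) (nat_lit 0) (nat_lit 66960465729) (nat_lit 2) (nat_lit 5) (nat_lit 4) (nat_lit 4) (nat_lit 2) (nat_lit 4) (nat_lit 424) (nat_lit 295) (nat_lit 181))) (XT.nd (nat_lit 78) (nat_lit 0) (nat_lit 0) (XT.lf (nat_lit 0) (nat_lit 94286346231) (nat_lit 152) (nat_lit 282823668162) (nat_lit 0) (nat_lit 78681764469) (nat_lit 2) (nat_lit 5)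 (nat_lit 4) (nat_lit 4) (nat_lit 2) (nat_lit 4) (nat_lit 425) (nat_lit 295) (nat_lit 180)) (XT.nd (nat_lit 78) (nat_lit 0) (nat_lit 0) (XT.lf (nat_lit 0) (nat_lit 106593747847) (nat_lit 152) (nat_lit 280581076501) (nat_lit 0) (nat_lit 90986438018) (nat_lit 2) (nat_lit 5) (nat_lit 4) (nat_lit 4) (nat_lit 2) (nat_lit 4) (nat_lit 426) (nat_lit 295) (nat_lit 179)) (XT.lf (nat_lit 0) (nat_lit 119513691207) (nat_lit 152) (nat_lit 278231887475) (nat_lit 0) (nat_lit 103903783219) (nat_lit 2) (nat_lit 5) (nat_lit 4) (nat_lit 4) (nat_lit 2) (nat_lit 4) (nat_lit 427) (nat_lit 295) (nat_lit 178))))) (XT.nd (nat_lit 234) (nat_lit 0) (nat_lit 0) (XT.nd (nat_lit 78) (nat_lit 0) (nat_lit 0) (XT.lf (nat_lit 0) (nat_lit 133076938079) (nat_lit 152) (nat_lit 275770507777) (nat_lit 0) (nat_lit 117464555655) (nat_lit 2) (nat_lit 5) (nat_lit 4) (nat_lit 4) (nat_lit 2) (nat_lit 4) (nat_lit 428) (nat_lit 295) (nat_lit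 177)) (XT.nd (nat_lit 78) (nat_lit 0) (nat_lit 0) (XT.lf (nat_lit 0) (nat_lit 147315781910) (nat_lit 152) (nat_lit 273191076979) (nat_lit 0) (nat_lit 131701042879) (nat_lit 2) (nat_lit 5) (nat_lit 4) (nat_lit 4) (nat_lit 2) (nat_lit 4) (nat_lit 429) (nat_lit 295) (nat_lit 176)) (XT.lf (nat_lit 0) (nat_lit 162264124708) (nat_lit 152) (nat_lit 270487453580) (nat_lit 0) (nat_lit 146647141290) (nat_lit 2) (nat_lit 5) (nat_lit 4) (nat_lit 4) (nat_lit 2) (nat_lit 4) (nat_lit 430) (nat_lit 295) (nat_lit 175)))) (XT.nd (nat_lit 78) (nat_lit 0) (nat_lit 0) (XT.lf (nat_lit 0) (nat_lit 177957557766) (nat_lit 152) (nat_lit 267653200380) (nat_lit 0) (nat_lit 162338436836) (nat_lit 2) (nat_lit 5) (nat_lit 4) (nat_lit 4) (nat_lit 2) (nat_lit 4) (nat_lit 431) (nat_lit 295) (nat_lit 174)) (XT.nd (nat_lit 37206) (nat_lit 0) (nat_lit 10716) (XT.lf (nat_lit 0) (nat_lit 194433446400) (nat_lit 152) (nat_lit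 264681569159) (nat_lit 0) (nat_lit 178812289745) (nat_lit 2) (nat_lit 5) (nat_lit 4) (nat_lit 4) (nat_lit 2) (nat_lit 4) (nat_lit 432) (nat_lit 295) (nat_lit 173)) (XT.lf (nat_lit 0) (nat_lit 577429337) (nat_lit 380) (nat_lit 2161523646) (nat_lit 0) (nat_lit 577429337) (nat_lit 143) (nat_lit 5) (nat_lit 148) (nat_lit 4) (nat_lit 143) (nat_lit 4) (nat_lit 308) (nat_lit 296) (nat_lit 296)))))) (XT.nd (nat_lit 390) (nat_lit 2584) (nat_lit 0) (XT.nd (nat_lit 156) (nat_lit 1064) (nat_lit 0) (XT.nd (nat_lit 78) (nat_lit 456) (nat_lit 0) (XT.lf (nat_lit 0) (nat_lit 4285470969) (nat_lit 380) (nat_lit 295830986) (nat_lit 0) (nat_lit 2103801612) (nat_lit 143) (nat_lit 5) (nat_lit 148) (nat_lit 4) (nat_lit 143) (nat_lit 4) (nat_lit 309) (nat_lit 296) (nat_lit 295)) (XT.lf (nat_lit 0) (nat_lit 696179879) (nat_lit 456) (nat_lit 2832280944) (nat_lit 76) (nat_lit 3216768512) (nat_lit 137) (nat_lit 5)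 (nat_lit 143) (nat_lit 5) (nat_lit 138) (nat_lit 4) (nat_lit 310) (nat_lit 296) (nat_lit 294))) (XT.nd (nat_lit 78) (nat_lit 608) (nat_lit 0) (XT.lf (nat_lit 0) (nat_lit 1402523975) (nat_lit 456) (nat_lit 2324701435) (nat_lit 532) (nat_lit 3086432341) (nat_lit 131) (nat_lit 5) (nat_lit 137) (nat_lit 5) (nat_lit 138) (nat_lit 4) (nat_lit 311) (nat_lit 296) (nat_lit 293)) (XT.nd (nat_lit 78) (nat_lit 608) (nat_lit 0) (XT.lf (nat_lit 0) (nat_lit 5812341989) (nat_lit 456) (nat_lit 985335144) (nat_lit 532) (nat_lit 93740199) (nat_lit 131) (nat_lit 5) (nat_lit 137) (nat_lit 5) (nat_lit 138) (nat_lit 4) (nat_lit 312) (nat_lit 296) (nat_lit 292)) (XT.lf (nat_lit 0) (nat_lit 2857332022) (nat_lit 608) (nat_lit 3587955938) (nat_lit 76) (nat_lit 530355441) (nat_lit 123) (nat_lit 5) (nat_lit 131) (nat_lit 5) (nat_lit 124) (nat_lit 4) (nat_lit 313) (nat_lit 296) (nat_lit 291))))) (XT.nd (nat_lit 234)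 (nat_lit 1216) (nat_lit 0) (XT.nd (nat_lit 78) (nat_lit 760) (nat_lit 0) (XT.lf (nat_lit 0) (nat_lit 923748489) (nat_lit 608) (nat_lit 4928558993) (nat_lit 684) (nat_lit 1216982720) (nat_lit 115) (nat_lit 5) (nat_lit 123) (nat_lit 5) (nat_lit 124) (nat_lit 4) (nat_lit 314) (nat_lit 296) (nat_lit 290)) (XT.nd (nat_lit 78) (nat_lit 684) (nat_lit 0) (XT.lf (nat_lit 0) (nat_lit 1685334420) (nat_lit 684) (nat_lit 1551298221) (nat_lit 76) (nat_lit 3934071824) (nat_lit 114) (nat_lit 5) (nat_lit 123) (nat_lit 5) (nat_lit 115) (nat_lit 5) (nat_lit 315) (nat_lit 296) (nat_lit 289)) (XT.lf (nat_lit 0) (nat_lit 3219796158) (nat_lit 684) (nat_lit 1382071056) (nat_lit 760) (nat_lit 2679050467) (nat_lit 105) (nat_lit 5) (nat_lit 114) (nat_lit 5) (nat_lit 115) (nat_lit 5) (nat_lit 316) (nat_lit 296) (nat_lit 288)))) (XT.nd (nat_lit 78) (nat_lit 380) (nat_lit 0) (XT.lf (nat_lit 0) (nat_lit 169144847) (nat_lit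 836) (nat_lit 6641677373) (nat_lit 76) (nat_lit 590308946) (nat_lit 94) (nat_lit 5) (nat_lit 105) (nat_lit 5) (nat_lit 95) (nat_lit 5) (nat_lit 317) (nat_lit 296) (nat_lit 287)) (XT.nd (nat_lit 78) (nat_lit 380) (nat_lit 0) (XT.lf (nat_lit 0) (nat_lit 3028572173) (nat_lit 836) (nat_lit 1772713915) (nat_lit 76) (nat_lit 2726125454) (nat_lit 94) (nat_lit 5) (nat_lit 105) (nat_lit 5) (nat_lit 95) (nat_lit 5) (nat_lit 318) (nat_lit 296) (nat_lit 286)) (XT.lf (nat_lit 0) (nat_lit 3309286962) (nat_lit 380) (nat_lit 2646012532) (nat_lit 456) (nat_lit 1708675683) (nat_lit 89) (nat_lit 5) (nat_lit 94) (nat_lit 5) (nat_lit 95) (nat_lit 5) (nat_lit 319) (nat_lit 296) (nat_lit 285))))))) (XT.nd (nat_lit 858) (nat_lit 1672) (nat_lit 0) (XT.nd (nat_lit 390) (nat_lit 1216) (nat_lit 0) (XT.nd (nat_lit 156) (nat_lit 760) (nat_lit 0) (XT.nd (nat_lit 78) (nat_lit 0) (nat_lit 0) (XT.lf (nat_lit 0) (nat_lit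 767630403) (nat_lit 304) (nat_lit 331222443) (nat_lit 380) (nat_lit 6711882589) (nat_lit 84) (nat_lit 5) (nat_lit 88) (nat_lit 5) (nat_lit 89) (nat_lit 5) (nat_lit 320) (nat_lit 296) (nat_lit 284)) (XT.lf (nat_lit 0) (nat_lit 3975132246) (nat_lit 380) (nat_lit 1868128698) (nat_lit 76) (nat_lit 2121042744) (nat_lit 84) (nat_lit 5) (nat_lit 89) (nat_lit 5) (nat_lit 85) (nat_lit 5) (nat_lit 321) (nat_lit 296) (nat_lit 283))) (XT.nd (nat_lit 78) (nat_lit 380) (nat_lit 0) (XT.lf (nat_lit 0) (nat_lit 3537939712) (nat_lit 380) (nat_lit 3401822773) (nat_lit 456) (nat_lit 1188713777) (nat_lit 79) (nat_lit 5) (nat_lit 84) (nat_lit 5) (nat_lit 85) (nat_lit 5) (nat_lit 322) (nat_lit 296) (nat_lit 282)) (XT.nd (nat_lit 78) (nat_lit 0) (nat_lit 0) (XT.lf (nat_lit 0) (nat_lit 841757871) (nat_lit 304) (nat_lit 784570887) (nat_lit 380) (nat_lit 6676768286) (nat_lit 74) (nat_lit 5) (nat_lit 78) (nat_lit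 5) (nat_lit 79) (nat_lit 5) (nat_lit 323) (nat_lit 296) (nat_lit 281)) (XT.lf (nat_lit 0) (nat_lit 4540162729) (nat_lit 380) (nat_lit 1969262852) (nat_lit 76) (nat_lit 1976281486) (nat_lit 74) (nat_lit 5) (nat_lit 79) (nat_lit 5) (nat_lit 75) (nat_lit 5) (nat_lit 324) (nat_lit 296) (nat_lit 280))))) (XT.nd (nat_lit 234) (nat_lit 608) (nat_lit 0) (XT.nd (nat_lit 78) (nat_lit 304) (nat_lit 0) (XT.lf (nat_lit 0) (nat_lit 3771630031) (nat_lit 304) (nat_lit 3793438316) (nat_lit 380) (nat_lit 1114235919) (nat_lit 70) (nat_lit 5) (nat_lit 74) (nat_lit 5) (nat_lit 75) (nat_lit 5) (nat_lit 325) (nat_lit 296) (nat_lit 279)) (XT.nd (nat_lit 78) (nat_lit 0) (nat_lit 0) (XT.lf (nat_lit 0) (nat_lit 849571552) (nat_lit 228) (nat_lit 891574162) (nat_lit 304) (nat_lit 7142998877) (nat_lit 66) (nat_lit 5) (nat_lit 69) (nat_lit 5) (nat_lit 70) (nat_lit 5) (nat_lit 326) (nat_lit 296) (nat_lit 278)) (XT.lf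 (nat_lit 0) (nat_lit 4717267395) (nat_lit 304) (nat_lit 2220928135) (nat_lit 76) (nat_lit 2159455825) (nat_lit 66) (nat_lit 5) (nat_lit 70) (nat_lit 5) (nat_lit 67) (nat_lit 5) (nat_lit 327) (nat_lit 296) (nat_lit 277)))) (XT.nd (nat_lit 78) (nat_lit 304) (nat_lit 0) (XT.lf (nat_lit 0) (nat_lit 3861282847) (nat_lit 304) (nat_lit 3957993411) (nat_lit 380) (nat_lit 1503806533) (nat_lit 62) (nat_lit 5) (nat_lit 66) (nat_lit 5) (nat_lit 67) (nat_lit 5) (nat_lit 328) (nat_lit 296) (nat_lit 276)) (XT.nd (nat_lit 78) (nat_lit 0) (nat_lit 0) (XT.lf (nat_lit 0) (nat_lit 630420697) (nat_lit 228) (nat_lit 788878746) (nat_lit 304) (nat_lit 8141834196) (nat_lit 58) (nat_lit 5) (nat_lit 61) (nat_lit 5) (nat_lit 62) (nat_lit 5) (nat_lit 329) (nat_lit 296) (nat_lit 275)) (XT.lf (nat_lit 0) (nat_lit 4476861328) (nat_lit 304) (nat_lit 2789768332) (nat_lit 76) (nat_lit 2541372134) (nat_lit 58) (nat_lit 5)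 (nat_lit 62) (nat_lit 5) (nat_lit 59) (nat_lit 5) (nat_lit 330) (nat_lit 296) (nat_lit 274)))))) (XT.nd (nat_lit 468) (nat_lit 760) (nat_lit 0) (XT.nd (nat_lit 234) (nat_lit 456) (nat_lit 0) (XT.nd (nat_lit 78) (nat_lit 228) (nat_lit 0) (XT.lf (nat_lit 0) (nat_lit 3633613267) (nat_lit 228) (nat_lit 4033053924) (nat_lit 304) (nat_lit 2401662931) (nat_lit 55) (nat_lit 5) (nat_lit 58) (nat_lit 5) (nat_lit 59) (nat_lit 5) (nat_lit 331) (nat_lit 296) (nat_lit 273)) (XT.nd (nat_lit 78) (nat_lit 152) (nat_lit 0) (XT.lf (nat_lit 0) (nat_lit 611243801) (nat_lit 304) (nat_lit 4544095) (nat_lit 76) (nat_lit 9727510905) (nat_lit 54) (nat_lit 5) (nat_lit 58) (nat_lit 5) (nat_lit 55) (nat_lit 5) (nat_lit 332) (nat_lit 296) (nat_lit 272)) (XT.lf (nat_lit 0) (nat_lit 3763276890) (nat_lit 228) (nat_lit 3874591109) (nat_lit 76) (nat_lit 2988793185) (nat_lit 52) (nat_lit 5) (nat_lit 55) (nat_lit 5) (nat_lit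 53) (nat_lit 5) (nat_lit 333) (nat_lit 296) (nat_lit 271)))) (XT.nd (nat_lit 78) (nat_lit 228) (nat_lit 0) (XT.lf (nat_lit 0) (nat_lit 2880110791) (nat_lit 228) (nat_lit 4164299835) (nat_lit 304) (nat_lit 3881276088) (nat_lit 49) (nat_lit 5) (nat_lit 52) (nat_lit 5) (nat_lit 53) (nat_lit 5) (nat_lit 334) (nat_lit 296) (nat_lit 270)) (XT.nd (nat_lit 78) (nat_lit 228) (nat_lit 0) (XT.lf (nat_lit 0) (nat_lit 9984612776) (nat_lit 228) (nat_lit 489036707) (nat_lit 304) (nat_lit 766878259) (nat_lit 49) (nat_lit 5) (nat_lit 52) (nat_lit 5) (nat_lit 53) (nat_lit 5) (nat_lit 335) (nat_lit 296) (nat_lit 269)) (XT.lf (nat_lit 0) (nat_lit 2490412816) (nat_lit 228) (nat_lit 5718886323) (nat_lit 76) (nat_lit 3356553372) (nat_lit 46) (nat_lit 5) (nat_lit 49) (nat_lit 5) (nat_lit 47) (nat_lit 5) (nat_lit 336) (nat_lit 296) (nat_lit 268))))) (XT.nd (nat_lit 234) (nat_lit 304) (nat_lit 0) (XT.nd (nat_lit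 78) (nat_lit 228) (nat_lit 0) (XT.lf (nat_lit 0) (nat_lit 1343627602) (nat_lit 228) (nat_lit 4514062869) (nat_lit 304) (nat_lit 6050537321) (nat_lit 43) (nat_lit 5) (nat_lit 46) (nat_lit 5) (nat_lit 47) (nat_lit 5) (nat_lit 337) (nat_lit 296) (nat_lit 267)) (XT.nd (nat_lit 78) (nat_lit 228) (nat_lit 0) (XT.lf (nat_lit 0) (nat_lit 8839106752) (nat_lit 228) (nat_lit 575206077) (nat_lit 304) (nat_lit 2852414797) (nat_lit 43) (nat_lit 5) (nat_lit 46) (nat_lit 5) (nat_lit 47) (nat_lit 5) (nat_lit 338) (nat_lit 296) (nat_lit 266)) (XT.lf (nat_lit 0) (nat_lit 535637172) (nat_lit 228) (nat_lit 8626263769) (nat_lit 76) (nat_lit 3478596235) (nat_lit 40) (nat_lit 5) (nat_lit 43) (nat_lit 5) (nat_lit 41) (nat_lit 5) (nat_lit 339) (nat_lit 296) (nat_lit 265)))) (XT.nd (nat_lit 78) (nat_lit 304) (nat_lit 0) (XT.lf (nat_lit 0) (nat_lit 3993238812) (nat_lit 228) (nat_lit 1256667682) (nat_lit 76) (nat_lit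 7780957680) (nat_lit 40) (nat_lit 5) (nat_lit 43) (nat_lit 5) (nat_lit 41) (nat_lit 5) (nat_lit 340) (nat_lit 296) (nat_lit 264)) (XT.nd (nat_lit 78) (nat_lit 152) (nat_lit 0) (XT.lf (nat_lit 0) (nat_lit 6580941884) (nat_lit 152) (nat_lit 1076551573) (nat_lit 228) (nat_lit 5781612529) (nat_lit 38) (nat_lit 5) (nat_lit 40) (nat_lit 5) (nat_lit 41) (nat_lit 5) (nat_lit 341) (nat_lit 296) (nat_lit 263)) (XT.lf (nat_lit 0) (nat_lit 850567630) (nat_lit 152) (nat_lit 10672861341) (nat_lit 228) (nat_lit 2343450470) (nat_lit 36) (nat_lit 5) (nat_lit 38) (nat_lit 5) (nat_lit 39) (nat_lit 4) (nat_lit 342) (nat_lit 296) (nat_lit 262))))))))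
noncomputable def xc89 : XT := (XT.nd (nat_lit 1716) (nat_lit 684) (nat_lit 0) (XT.nd (nat_lit 858) (nat_lit 608) (nat_lit 0) (XT.nd (nat_lit 390) (nat_lit 456) (nat_lit 0) (XT.nd (nat_lit 156) (nat_lit 152) (nat_lit 0) (XT.nd (nat_lit 78) (nat_lit 152) (nat_lit 0) (XT.lf (nat_lit 0) (nat_lit 1294117062) (nat_lit 228) (nat_lit 5279259028) (nat_lit 76) (nat_lit 7738313816) (nat_lit 35) (nat_lit 5) (nat_lit 38) (nat_lit 5) (nat_lit 36) (nat_lit 5) (nat_lit 343) (nat_lit 296) (nat_lit 261)) (XT.lf (nat_lit 0) (nat_lit 2788298041) (nat_lit 152) (nat_lit 2225603116) (nat_lit 228) (nat_lit 9764001312) (nat_lit 33) (nat_lit 5) (nat_lit 35) (nat_lit 5) (nat_lit 36) (nat_lit 5) (nat_lit 344) (nat_lit 296) (nat_lit 260))) (XT.nd (nat_lit 78) (nat_lit 152) (nat_lit 0) (XT.lf (nat_lit 0) (nat_lit 8983394192) (nat_lit 228) (nat_lit 3966400416) (nat_lit 76) (nat_lit 2314480410) (nat_lit 33) (nat_lit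 5) (nat_lit 36) (nat_lit 5) (nat_lit 34) (nat_lit 4) (nat_lit 345) (nat_lit 296) (nat_lit 259)) (XT.nd (nat_lit 78) (nat_lit 76) (nat_lit 0) (XT.lf (nat_lit 0) (nat_lit 4461444724) (nat_lit 76) (nat_lit 8735410654) (nat_lit 152) (nat_lit 2575869800) (nat_lit 32) (nat_lit 5) (nat_lit 33) (nat_lit 5) (nat_lit 34) (nat_lit 4) (nat_lit 346) (nat_lit 296) (nat_lit 258)) (XT.lf (nat_lit 0) (nat_lit 1280254320) (nat_lit 152) (nat_lit 2979670240) (nat_lit 76) (nat_lit 12045281187) (nat_lit 31) (nat_lit 5) (nat_lit 33) (nat_lit 5) (nat_lit 32) (nat_lit 5) (nat_lit 347) (nat_lit 296) (nat_lit 257))))) (XT.nd (nat_lit 234) (nat_lit 228) (nat_lit 0) (XT.nd (nat_lit 78) (nat_lit 76) (nat_lit 0) (XT.lf (nat_lit 0) (nat_lit 5284326007) (nat_lit 228) (nat_lit 11054865670) (nat_lit 76) (nat_lit 520951002) (nat_lit 29) (nat_lit 5) (nat_lit 32) (nat_lit 5) (nat_lit 30) (nat_lit 4) (nat_lit 348) (nat_lit 296)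 (nat_lit 256)) (XT.nd (nat_lit 78) (nat_lit 76) (nat_lit 0) (XT.lf (nat_lit 0) (nat_lit 9552851515) (nat_lit 228) (nat_lit 2476950465) (nat_lit 76) (nat_lit 5409839660) (nat_lit 29) (nat_lit 5) (nat_lit 32) (nat_lit 5) (nat_lit 30) (nat_lit 4) (nat_lit 349) (nat_lit 296) (nat_lit 255)) (XT.lf (nat_lit 0) (nat_lit 6648458323) (nat_lit 76) (nat_lit 7435980329) (nat_lit 152) (nat_lit 3961221501) (nat_lit 28) (nat_lit 5) (nat_lit 29) (nat_lit 5) (nat_lit 30) (nat_lit 4) (nat_lit 350) (nat_lit 296) (nat_lit 254)))) (XT.nd (nat_lit 78) (nat_lit 152) (nat_lit 0) (XT.lf (nat_lit 0) (nat_lit 144193541) (nat_lit 152) (nat_lit 2461428084) (nat_lit 76) (nat_lit 16076821049) (nat_lit 27) (nat_lit 5) (nat_lit 29) (nat_lit 5) (nat_lit 28) (nat_lit 5) (nat_lit 351) (nat_lit 296) (nat_lit 253)) (XT.nd (nat_lit 78) (nat_lit 0) (nat_lit 0) (XT.lf (nat_lit 0) (nat_lit 4420285463) (nat_lit 228) (nat_lit 12395772353)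 (nat_lit 76) (nat_lit 2526855926) (nat_lit 25) (nat_lit 5) (nat_lit 28) (nat_lit 5) (nat_lit 26) (nat_lit 4) (nat_lit 352) (nat_lit 296) (nat_lit 252)) (XT.lf (nat_lit 0) (nat_lit 8944373336) (nat_lit 228) (nat_lit 3256599122) (nat_lit 76) (nat_lit 7833748036) (nat_lit 25) (nat_lit 5) (nat_lit 28) (nat_lit 5) (nat_lit 26) (nat_lit 4) (nat_lit 353) (nat_lit 296) (nat_lit 251)))))) (XT.nd (nat_lit 390) (nat_lit 228) (nat_lit 0) (XT.nd (nat_lit 156) (nat_lit 304) (nat_lit 0) (XT.nd (nat_lit 78) (nat_lit 0) (nat_lit 0) (XT.lf (nat_lit 0) (nat_lit 6460134448) (nat_lit 76) (nat_lit 7286922817) (nat_lit 152) (nat_lit 7011461401) (nat_lit 24) (nat_lit 5) (nat_lit 25) (nat_lit 5) (nat_lit 26) (nat_lit 4) (nat_lit 354) (nat_lit 296) (nat_lit 250)) (XT.lf (nat_lit 0) (nat_lit 16690993223) (nat_lit 76) (nat_lit 2106549617) (nat_lit 152) (nat_lit 2720600215) (nat_lit 24) (nat_lit 5) (nat_lit 25) (nat_lit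 5) (nat_lit 26) (nat_lit 4) (nat_lit 355) (nat_lit 296) (nat_lit 249))) (XT.nd (nat_lit 78) (nat_lit 76) (nat_lit 0) (XT.lf (nat_lit 0) (nat_lit 1815711650) (nat_lit 228) (nat_lit 17192806746) (nat_lit 76) (nat_lit 3301453202) (nat_lit 21) (nat_lit 5) (nat_lit 24) (nat_lit 5) (nat_lit 22) (nat_lit 4) (nat_lit 356) (nat_lit 296) (nat_lit 248)) (XT.nd (nat_lit 78) (nat_lit 76) (nat_lit 0) (XT.lf (nat_lit 0) (nat_lit 6559415506) (nat_lit 228) (nat_lit 7574151992) (nat_lit 76) (nat_lit 9002010752) (nat_lit 21) (nat_lit 5) (nat_lit 24) (nat_lit 5) (nat_lit 22) (nat_lit 4) (nat_lit 357) (nat_lit 296) (nat_lit 247)) (XT.lf (nat_lit 0) (nat_lit 2527613811) (nat_lit 76) (nat_lit 9008708661) (nat_lit 152) (nat_lit 12466358057) (nat_lit 20) (nat_lit 5) (nat_lit 21) (nat_lit 5) (nat_lit 22) (nat_lit 4) (nat_lit 358) (nat_lit 296) (nat_lit 246))))) (XT.nd (nat_lit 234) (nat_lit 76) (nat_lit 0) (XT.nd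 (nat_lit 78) (nat_lit 152) (nat_lit 0) (XT.lf (nat_lit 0) (nat_lit 13319973939) (nat_lit 76) (nat_lit 3527787145) (nat_lit 152) (nat_lit 8061107945) (nat_lit 20) (nat_lit 5) (nat_lit 21) (nat_lit 5) (nat_lit 22) (nat_lit 4) (nat_lit 359) (nat_lit 296) (nat_lit 245)) (XT.nd (nat_lit 78) (nat_lit 152) (nat_lit 0) (XT.lf (nat_lit 0) (nat_lit 22418467979) (nat_lit 152) (nat_lit 1318474808) (nat_lit 0) (nat_lit 2123754034) (nat_lit 20) (nat_lit 5) (nat_lit 22) (nat_lit 4) (nat_lit 20) (nat_lit 4) (nat_lit 360) (nat_lit 296) (nat_lit 244)) (XT.lf (nat_lit 0) (nat_lit 1534596099) (nat_lit 152) (nat_lit 17231797255) (nat_lit 76) (nat_lit 8084034461) (nat_lit 18) (nat_lit 5) (nat_lit 20) (nat_lit 5) (nat_lit 19) (nat_lit 4) (nat_lit 361) (nat_lit 296) (nat_lit 243)))) (XT.nd (nat_lit 78) (nat_lit 76) (nat_lit 0) (XT.lf (nat_lit 0) (nat_lit 6628275439) (nat_lit 152) (nat_lit 6868807286) (nat_lit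 76) (nat_lit 14390569089) (nat_lit 18) (nat_lit 5) (nat_lit 20) (nat_lit 5) (nat_lit 19) (nat_lit 4) (nat_lit 362) (nat_lit 296) (nat_lit 242)) (XT.nd (nat_lit 78) (nat_lit 0) (nat_lit 0) (XT.lf (nat_lit 0) (nat_lit 4074308827) (nat_lit 76) (nat_lit 7928798017) (nat_lit 152) (nat_lit 16972318849) (nat_lit 17) (nat_lit 5) (nat_lit 18) (nat_lit 5) (nat_lit 19) (nat_lit 4) (nat_lit 363) (nat_lit 296) (nat_lit 241)) (XT.lf (nat_lit 0) (nat_lit 15735727201) (nat_lit 76) (nat_lit 1990853538) (nat_lit 152) (nat_lit 12387023985) (nat_lit 17) (nat_lit 5) (nat_lit 18) (nat_lit 5) (nat_lit 19) (nat_lit 4) (nat_lit 364) (nat_lit 296) (nat_lit 240))))))) (XT.nd (nat_lit 858) (nat_lit 228) (nat_lit 0) (XT.nd (nat_lit 390) (nat_lit 228) (nat_lit 0) (XT.nd (nat_lit 156) (nat_lit 152) (nat_lit 0) (XT.nd (nat_lit 78) (nat_lit 76) (nat_lit 0) (XT.lf (nat_lit 0) (nat_lit 23767338355) (nat_lit 152) (nat_lit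 3460140019) (nat_lit 0) (nat_lit 4079669791) (nat_lit 17) (nat_lit 5) (nat_lit 19) (nat_lit 4) (nat_lit 17) (nat_lit 4) (nat_lit 365) (nat_lit 296) (nat_lit 239)) (XT.lf (nat_lit 0) (nat_lit 8170051264) (nat_lit 76) (nat_lit 22066800238) (nat_lit 76) (nat_lit 2317191831) (nat_lit 16) (nat_lit 4) (nat_lit 17) (nat_lit 5) (nat_lit 17) (nat_lit 4) (nat_lit 366) (nat_lit 296) (nat_lit 238))) (XT.nd (nat_lit 78) (nat_lit 76) (nat_lit 0) (XT.lf (nat_lit 0) (nat_lit 3091379882) (nat_lit 152) (nat_lit 13471269973) (nat_lit 76) (nat_lit 17296862307) (nat_lit 15) (nat_lit 5) (nat_lit 17) (nat_lit 5) (nat_lit 16) (nat_lit 4) (nat_lit 367) (nat_lit 296) (nat_lit 237)) (XT.nd (nat_lit 78) (nat_lit 76) (nat_lit 0) (XT.lf (nat_lit 0) (nat_lit 8660709865) (nat_lit 152) (nat_lit 2110324772) (nat_lit 76) (nat_lit 24458919349) (nat_lit 15) (nat_lit 5) (nat_lit 17) (nat_lit 5) (nat_lit 16) (nat_lit 4) (nat_lit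 368) (nat_lit 296) (nat_lit 236)) (XT.lf (nat_lit 0) (nat_lit 10084849425) (nat_lit 76) (nat_lit 4550826373) (nat_lit 152) (nat_lit 22026892217) (nat_lit 14) (nat_lit 5) (nat_lit 15) (nat_lit 5) (nat_lit 16) (nat_lit 4) (nat_lit 369) (nat_lit 296) (nat_lit 235))))) (XT.nd (nat_lit 234) (nat_lit 152) (nat_lit 0) (XT.nd (nat_lit 78) (nat_lit 76) (nat_lit 0) (XT.lf (nat_lit 0) (nat_lit 20946518628) (nat_lit 152) (nat_lit 15290254877) (nat_lit 0) (nat_lit 1928190987) (nat_lit 14) (nat_lit 5) (nat_lit 16) (nat_lit 4) (nat_lit 14) (nat_lit 4) (nat_lit 370) (nat_lit 296) (nat_lit 234)) (XT.nd (nat_lit 78) (nat_lit 76) (nat_lit 0) (XT.lf (nat_lit 0) (nat_lit 27618825276) (nat_lit 152) (nat_lit 3567090051) (nat_lit 0) (nat_lit 8554277170) (nat_lit 14) (nat_lit 5) (nat_lit 16) (nat_lit 4) (nat_lit 14) (nat_lit 4) (nat_lit 371) (nat_lit 296) (nat_lit 233)) (XT.lf (nat_lit 0) (nat_lit 8978094428) (nat_lit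 76) (nat_lit 25759509820) (nat_lit 76) (nat_lit 6650942224) (nat_lit 13) (nat_lit 4) (nat_lit 14) (nat_lit 5) (nat_lit 14) (nat_lit 4) (nat_lit 372) (nat_lit 296) (nat_lit 232)))) (XT.nd (nat_lit 78) (nat_lit 152) (nat_lit 0) (XT.lf (nat_lit 0) (nat_lit 22223716310) (nat_lit 76) (nat_lit 20022209810) (nat_lit 76) (nat_lit 871718890) (nat_lit 13) (nat_lit 4) (nat_lit 14) (nat_lit 5) (nat_lit 14) (nat_lit 4) (nat_lit 373) (nat_lit 296) (nat_lit 231)) (XT.nd (nat_lit 78) (nat_lit 76) (nat_lit 0) (XT.lf (nat_lit 0) (nat_lit 5004191273) (nat_lit 152) (nat_lit 8931825783) (nat_lit 76) (nat_lit 30994429008) (nat_lit 12) (nat_lit 5) (nat_lit 14) (nat_lit 5) (nat_lit 13) (nat_lit 4) (nat_lit 374) (nat_lit 296) (nat_lit 230)) (XT.lf (nat_lit 0) (nat_lit 3685266984) (nat_lit 76) (nat_lit 7492152805) (nat_lit 152) (nat_lit 35654118044) (nat_lit 11) (nat_lit 5) (nat_lit 12) (nat_lit 5) (nat_lit 13)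 (nat_lit 4) (nat_lit 375) (nat_lit 296) (nat_lit 229)))))) (XT.nd (nat_lit 468) (nat_lit 152) (nat_lit 0) (XT.nd (nat_lit 234) (nat_lit 76) (nat_lit 0) (XT.nd (nat_lit 78) (nat_lit 0) (nat_lit 0) (XT.lf (nat_lit 0) (nat_lit 17197285289) (nat_lit 76) (nat_lit 589028768) (nat_lit 152) (nat_lit 31035025730) (nat_lit 11) (nat_lit 5) (nat_lit 12) (nat_lit 5) (nat_lit 13) (nat_lit 4) (nat_lit 376) (nat_lit 296) (nat_lit 228)) (XT.nd (nat_lit 78) (nat_lit 0) (nat_lit 0) (XT.lf (nat_lit 0) (nat_lit 24806193832) (nat_lit 152) (nat_lit 19674364527) (nat_lit 0) (nat_lit 6426051974) (nat_lit 11) (nat_lit 5) (nat_lit 13) (nat_lit 4) (nat_lit 11) (nat_lit 4) (nat_lit 377) (nat_lit 296) (nat_lit 227)) (XT.lf (nat_lit 0) (nat_lit 32164410677) (nat_lit 152) (nat_lit 7179386857) (nat_lit 0) (nat_lit 13752984989) (nat_lit 11) (nat_lit 5) (nat_lit 13) (nat_lit 4) (nat_lit 11) (nat_lit 4) (nat_lit 378) (nat_lit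 296) (nat_lit 226)))) (XT.nd (nat_lit 78) (nat_lit 0) (nat_lit 0) (XT.lf (nat_lit 0) (nat_lit 6094899701) (nat_lit 76) (nat_lit 33869546530) (nat_lit 76) (nat_lit 15428326718) (nat_lit 10) (nat_lit 4) (nat_lit 11) (nat_lit 5) (nat_lit 11) (nat_lit 4) (nat_lit 379) (nat_lit 296) (nat_lit 225)) (XT.nd (nat_lit 78) (nat_lit 0) (nat_lit 0) (XT.lf (nat_lit 0) (nat_lit 20242291305) (nat_lit 76) (nat_lit 28012917636) (nat_lit 76) (nat_lit 9543322469) (nat_lit 10) (nat_lit 4) (nat_lit 11) (nat_lit 5) (nat_lit 11) (nat_lit 4) (nat_lit 380) (nat_lit 296) (nat_lit 224)) (XT.lf (nat_lit 0) (nat_lit 35059089267) (nat_lit 76) (nat_lit 21881552889) (nat_lit 76) (nat_lit 3384933573) (nat_lit 10) (nat_lit 4) (nat_lit 11) (nat_lit 5) (nat_lit 11) (nat_lit 4) (nat_lit 381) (nat_lit 296) (nat_lit 223))))) (XT.nd (nat_lit 234) (nat_lit 0) (nat_lit 0) (XT.nd (nat_lit 78) (nat_lit 76) (nat_lit 0) (XT.lf (nat_lit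 0) (nat_lit 2963515589) (nat_lit 152) (nat_lit 12447149640) (nat_lit 76) (nat_lit 47566867517) (nat_lit 9) (nat_lit 5) (nat_lit 11) (nat_lit 5) (nat_lit 10) (nat_lit 4) (nat_lit 382) (nat_lit 296) (nat_lit 222)) (XT.nd (nat_lit 78) (nat_lit 0) (nat_lit 0) (XT.lf (nat_lit 0) (nat_lit 953125853) (nat_lit 76) (nat_lit 8559066415) (nat_lit 152) (nat_lit 56247296693) (nat_lit 8) (nat_lit 5) (nat_lit 9) (nat_lit 5) (nat_lit 10) (nat_lit 4) (nat_lit 383) (nat_lit 296) (nat_lit 221)) (XT.lf (nat_lit 0) (nat_lit 15421073832) (nat_lit 76) (nat_lit 1160041585) (nat_lit 152) (nat_lit 52089790685) (nat_lit 8) (nat_lit 5) (nat_lit 9) (nat_lit 5) (nat_lit 10) (nat_lit 4) (nat_lit 384) (nat_lit 296) (nat_lit 220)))) (XT.nd (nat_lit 78) (nat_lit 0) (nat_lit 0) (XT.lf (nat_lit 0) (nat_lit 24089294085) (nat_lit 152) (nat_lit 41252110084) (nat_lit 0) (nat_lit 6382203030) (nat_lit 8) (nat_lit 5) (nat_lit 10)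 (nat_lit 4) (nat_lit 8) (nat_lit 4) (nat_lit 385) (nat_lit 296) (nat_lit 219)) (XT.nd (nat_lit 78) (nat_lit 0) (nat_lit 0) (XT.lf (nat_lit 0) (nat_lit 31975351497) (nat_lit 152) (nat_lit 28705377155) (nat_lit 0) (nat_lit 14248094607) (nat_lit 8) (nat_lit 5) (nat_lit 10) (nat_lit 4) (nat_lit 8) (nat_lit 4) (nat_lit 386) (nat_lit 296) (nat_lit 218)) (XT.lf (nat_lit 0) (nat_lit 40239952480) (nat_lit 152) (nat_lit 15561648810) (nat_lit 0) (nat_lit 22493490032) (nat_lit 8) (nat_lit 5) (nat_lit 10) (nat_lit 4) (nat_lit 8) (nat_lit 4) (nat_lit 387) (nat_lit 296) (nat_lit 217))))))))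
noncomputable def xc90 : XT := (XT.nd (nat_lit 1716) (nat_lit 152) (nat_lit 0) (XT.nd (nat_lit 858) (nat_lit 76) (nat_lit 0) (XT.nd (nat_lit 390) (nat_lit 152) (nat_lit 0) (XT.nd (nat_lit 156) (nat_lit 0) (nat_lit 0) (XT.nd (nat_lit 78) (nat_lit 76) (nat_lit 0) (XT.lf (nat_lit 0) (nat_lit 48902774657) (nat_lit 152) (nat_lit 1789630456) (nat_lit 0) (nat_lit 31138021201) (nat_lit 8) (nat_lit 5) (nat_lit 10) (nat_lit 4) (nat_lit 8) (nat_lit 4) (nat_lit 388) (nat_lit 296) (nat_lit 216)) (XT.lf (nat_lit 0) (nat_lit 13061518589) (nat_lit 76) (nat_lit 45126852113) (nat_lit 76) (nat_lit 27344678651) (nat_lit 7) (nat_lit 4) (nat_lit 8) (nat_lit 5) (nat_lit 8) (nat_lit 4) (nat_lit 389) (nat_lit 296) (nat_lit 215))) (XT.nd (nat_lit 78) (nat_lit 0) (nat_lit 0) (XT.lf (nat_lit 0) (nat_lit 28690280504) (nat_lit 76) (nat_lit 39264238089) (nat_lit 76) (nat_lit 21465474144) (nat_lit 7) (nat_lit 4) (nat_lit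 8) (nat_lit 5) (nat_lit 8) (nat_lit 4) (nat_lit 390) (nat_lit 296) (nat_lit 214)) (XT.nd (nat_lit 78) (nat_lit 0) (nat_lit 0) (XT.lf (nat_lit 0) (nat_lit 45074693360) (nat_lit 76) (nat_lit 33120912694) (nat_lit 76) (nat_lit 15306348290) (nat_lit 7) (nat_lit 4) (nat_lit 8) (nat_lit 5) (nat_lit 8) (nat_lit 4) (nat_lit 391) (nat_lit 296) (nat_lit 213)) (XT.lf (nat_lit 0) (nat_lit 62253767663) (nat_lit 76) (nat_lit 26682248964) (nat_lit 76) (nat_lit 8852636502) (nat_lit 7) (nat_lit 4) (nat_lit 8) (nat_lit 5) (nat_lit 8) (nat_lit 4) (nat_lit 392) (nat_lit 296) (nat_lit 212))))) (XT.nd (nat_lit 234) (nat_lit 0) (nat_lit 0) (XT.nd (nat_lit 78) (nat_lit 152) (nat_lit 0) (XT.lf (nat_lit 0) (nat_lit 80268405971) (nat_lit 76) (nat_lit 19932916747) (nat_lit 76) (nat_lit 2088972802) (nat_lit 7) (nat_lit 4) (nat_lit 8) (nat_lit 5) (nat_lit 8) (nat_lit 4) (nat_lit 393) (nat_lit 296) (nat_lit 211)) (XT.nd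 (nat_lit 78) (nat_lit 76) (nat_lit 0) (XT.lf (nat_lit 0) (nat_lit 4840691645) (nat_lit 152) (nat_lit 7934175102) (nat_lit 76) (nat_lit 94238829181) (nat_lit 6) (nat_lit 5) (nat_lit 8) (nat_lit 5) (nat_lit 7) (nat_lit 4) (nat_lit 394) (nat_lit 296) (nat_lit 210)) (XT.lf (nat_lit 0) (nat_lit 7027000605) (nat_lit 76) (nat_lit 5118166545) (nat_lit 152) (nat_lit 99821462469) (nat_lit 5) (nat_lit 5) (nat_lit 6) (nat_lit 5) (nat_lit 7) (nat_lit 4) (nat_lit 395) (nat_lit 296) (nat_lit 209)))) (XT.nd (nat_lit 78) (nat_lit 0) (nat_lit 0) (XT.lf (nat_lit 0) (nat_lit 19985909511) (nat_lit 152) (nat_lit 94218242831) (nat_lit 0) (nat_lit 2954507485) (nat_lit 5) (nat_lit 5) (nat_lit 7) (nat_lit 4) (nat_lit 5) (nat_lit 4) (nat_lit 396) (nat_lit 296) (nat_lit 208)) (XT.nd (nat_lit 78) (nat_lit 0) (nat_lit 0) (XT.lf (nat_lit 0) (nat_lit 28291984275) (nat_lit 152) (nat_lit 83065291241) (nat_lit 0) (nat_lit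 11249353157) (nat_lit 5) (nat_lit 5) (nat_lit 7) (nat_lit 4) (nat_lit 5) (nat_lit 4) (nat_lit 397) (nat_lit 296) (nat_lit 207)) (XT.lf (nat_lit 0) (nat_lit 37003258887) (nat_lit 152) (nat_lit 71374310675) (nat_lit 0) (nat_lit 19949933396) (nat_lit 5) (nat_lit 5) (nat_lit 7) (nat_lit 4) (nat_lit 5) (nat_lit 4) (nat_lit 398) (nat_lit 296) (nat_lit 206)))))) (XT.nd (nat_lit 390) (nat_lit 76) (nat_lit 0) (XT.nd (nat_lit 156) (nat_lit 0) (nat_lit 0) (XT.nd (nat_lit 78) (nat_lit 0) (nat_lit 0) (XT.lf (nat_lit 0) (nat_lit 46140474477) (nat_lit 152) (nat_lit 59117465464) (nat_lit 0) (nat_lit 29076963869) (nat_lit 5) (nat_lit 5) (nat_lit 7) (nat_lit 4) (nat_lit 5) (nat_lit 4) (nat_lit 399) (nat_lit 296) (nat_lit 205)) (XT.lf (nat_lit 0) (nat_lit 55725386321) (nat_lit 152) (nat_lit 46265572645) (nat_lit 0) (nat_lit 38652175602) (nat_lit 5) (nat_lit 5) (nat_lit 7) (nat_lit 4) (nat_lit 5) (nat_lit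 4) (nat_lit 400) (nat_lit 296) (nat_lit 204))) (XT.nd (nat_lit 78) (nat_lit 0) (nat_lit 0) (XT.lf (nat_lit 0) (nat_lit 65780815637) (nat_lit 152) (nat_lit 32788032471) (nat_lit 0) (nat_lit 48698366716) (nat_lit 5) (nat_lit 5) (nat_lit 7) (nat_lit 4) (nat_lit 5) (nat_lit 4) (nat_lit 401) (nat_lit 296) (nat_lit 203)) (XT.nd (nat_lit 78) (nat_lit 0) (nat_lit 0) (XT.lf (nat_lit 0) (nat_lit 76330703924) (nat_lit 152) (nat_lit 18652755562) (nat_lit 0) (nat_lit 59239456716) (nat_lit 5) (nat_lit 5) (nat_lit 7) (nat_lit 4) (nat_lit 5) (nat_lit 4) (nat_lit 402) (nat_lit 296) (nat_lit 202)) (XT.lf (nat_lit 0) (nat_lit 87400169963) (nat_lit 152) (nat_lit 3826086496) (nat_lit 0) (nat_lit 70300543434) (nat_lit 5) (nat_lit 5) (nat_lit 7) (nat_lit 4) (nat_lit 5) (nat_lit 4) (nat_lit 403) (nat_lit 296) (nat_lit 201))))) (XT.nd (nat_lit 234) (nat_lit 0) (nat_lit 0) (XT.nd (nat_lit 78) (nat_lit 0) (nat_lit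 0) (XT.lf (nat_lit 0) (nat_lit 12115033035) (nat_lit 76) (nat_lit 87089686208) (nat_lit 76) (nat_lit 69982079373) (nat_lit 4) (nat_lit 4) (nat_lit 5) (nat_lit 5) (nat_lit 5) (nat_lit 4) (nat_lit 404) (nat_lit 296) (nat_lit 200)) (XT.nd (nat_lit 78) (nat_lit 0) (nat_lit 0) (XT.lf (nat_lit 0) (nat_lit 28971638048) (nat_lit 76) (nat_lit 82685249040) (nat_lit 76) (nat_lit 65570041913) (nat_lit 4) (nat_lit 4) (nat_lit 5) (nat_lit 5) (nat_lit 5) (nat_lit 4) (nat_lit 405) (nat_lit 296) (nat_lit 199)) (XT.lf (nat_lit 0) (nat_lit 46657355617) (nat_lit 76) (nat_lit 78067254826) (nat_lit 76) (nat_lit 60944809326) (nat_lit 4) (nat_lit 4) (nat_lit 5) (nat_lit 5) (nat_lit 5) (nat_lit 4) (nat_lit 406) (nat_lit 296) (nat_lit 198)))) (XT.nd (nat_lit 78) (nat_lit 0) (nat_lit 0) (XT.lf (nat_lit 0) (nat_lit 65214294593) (nat_lit 76) (nat_lit 73224708342) (nat_lit 76) (nat_lit 56095369154) (nat_lit 4) (nat_lit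 4) (nat_lit 5) (nat_lit 5) (nat_lit 5) (nat_lit 4) (nat_lit 407) (nat_lit 296) (nat_lit 197)) (XT.nd (nat_lit 78) (nat_lit 0) (nat_lit 0) (XT.lf (nat_lit 0) (nat_lit 84686638165) (nat_lit 76) (nat_lit 68146079715) (nat_lit 76) (nat_lit 51010175110) (nat_lit 4) (nat_lit 4) (nat_lit 5) (nat_lit 5) (nat_lit 5) (nat_lit 4) (nat_lit 408) (nat_lit 296) (nat_lit 196)) (XT.lf (nat_lit 0) (nat_lit 105120749055) (nat_lit 76) (nat_lit 62819276973) (nat_lit 76) (nat_lit 45677119589) (nat_lit 4) (nat_lit 4) (nat_lit 5) (nat_lit 5) (nat_lit 5) (nat_lit 4) (nat_lit 409) (nat_lit 296) (nat_lit 195))))))) (XT.nd (nat_lit 858) (nat_lit 0) (nat_lit 0) (XT.nd (nat_lit 390) (nat_lit 152) (nat_lit 0) (XT.nd (nat_lit 156) (nat_lit 0) (nat_lit 0) (XT.nd (nat_lit 78) (nat_lit 0) (nat_lit 0) (XT.lf (nat_lit 0) (nat_lit 126565279908) (nat_lit 76) (nat_lit 57231617251) (nat_lit 76) (nat_lit 40083504840) (nat_lit 4)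 (nat_lit 4) (nat_lit 5) (nat_lit 5) (nat_lit 5) (nat_lit 4) (nat_lit 410) (nat_lit 296) (nat_lit 194)) (XT.lf (nat_lit 0) (nat_lit 149071289131) (nat_lit 76) (nat_lit 51369796599) (nat_lit 76) (nat_lit 34216012733) (nat_lit 4) (nat_lit 4) (nat_lit 5) (nat_lit 5) (nat_lit 5) (nat_lit 4) (nat_lit 411) (nat_lit 296) (nat_lit 193))) (XT.nd (nat_lit 78) (nat_lit 0) (nat_lit 0) (XT.lf (nat_lit 0) (nat_lit 172692362460) (nat_lit 76) (nat_lit 45219858299) (nat_lit 76) (nat_lit 28060673049) (nat_lit 4) (nat_lit 4) (nat_lit 5) (nat_lit 5) (nat_lit 5) (nat_lit 4) (nat_lit 412) (nat_lit 296) (nat_lit 192)) (XT.nd (nat_lit 78) (nat_lit 0) (nat_lit 0) (XT.lf (nat_lit 0) (nat_lit 197484740545) (nat_lit 76) (nat_lit 38767159643) (nat_lit 76) (nat_lit 21602830216) (nat_lit 4) (nat_lit 4) (nat_lit 5) (nat_lit 5) (nat_lit 5) (nat_lit 4) (nat_lit 413) (nat_lit 296) (nat_lit 191)) (XT.lf (nat_lit 0) (nat_lit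 223507452860) (nat_lit 76) (nat_lit 31996337061) (nat_lit 76) (nat_lit 14827108419) (nat_lit 4) (nat_lit 4) (nat_lit 5) (nat_lit 5) (nat_lit 5) (nat_lit 4) (nat_lit 414) (nat_lit 296) (nat_lit 190))))) (XT.nd (nat_lit 234) (nat_lit 76) (nat_lit 0) (XT.nd (nat_lit 78) (nat_lit 76) (nat_lit 0) (XT.lf (nat_lit 0) (nat_lit 250822458242) (nat_lit 76) (nat_lit 24891269548) (nat_lit 76) (nat_lit 7717374986) (nat_lit 4) (nat_lit 4) (nat_lit 5) (nat_lit 5) (nat_lit 5) (nat_lit 4) (nat_lit 415) (nat_lit 296) (nat_lit 189)) (XT.nd (nat_lit 78) (nat_lit 76) (nat_lit 0) (XT.lf (nat_lit 0) (nat_lit 279494792418) (nat_lit 76) (nat_lit 17435040276) (nat_lit 76) (nat_lit 256701981) (nat_lit 4) (nat_lit 4) (nat_lit 5) (nat_lit 5) (nat_lit 5) (nat_lit 4) (nat_lit 416) (nat_lit 296) (nat_lit 188)) (XT.lf (nat_lit 0) (nat_lit 7330301239) (nat_lit 152) (nat_lit 2155452880) (nat_lit 76) (nat_lit 302138279413)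 (nat_lit 3) (nat_lit 5) (nat_lit 5) (nat_lit 5) (nat_lit 4) (nat_lit 4) (nat_lit 417) (nat_lit 296) (nat_lit 187)))) (XT.nd (nat_lit 78) (nat_lit 0) (nat_lit 0) (XT.lf (nat_lit 0) (nat_lit 14613391343) (nat_lit 76) (nat_lit 898800052) (nat_lit 152) (nat_lit 311259797991) (nat_lit 2) (nat_lit 5) (nat_lit 3) (nat_lit 5) (nat_lit 4) (nat_lit 4) (nat_lit 418) (nat_lit 296) (nat_lit 186)) (XT.nd (nat_lit 78) (nat_lit 0) (nat_lit 0) (XT.lf (nat_lit 0) (nat_lit 24263035314) (nat_lit 152) (nat_lit 310515127375) (nat_lit 0) (nat_lit 7891187998) (nat_lit 2) (nat_lit 5) (nat_lit 4) (nat_lit 4) (nat_lit 2) (nat_lit 4) (nat_lit 419) (nat_lit 296) (nat_lit 185)) (XT.lf (nat_lit 0) (nat_lit 33462365613) (nat_lit 152) (nat_lit 308811631301) (nat_lit 0) (nat_lit 17087036516) (nat_lit 2) (nat_lit 5) (nat_lit 4) (nat_lit 4) (nat_lit 2) (nat_lit 4) (nat_lit 420) (nat_lit 296) (nat_lit 184)))))) (XT.nd (nat_lit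 468) (nat_lit 0) (nat_lit 0) (XT.nd (nat_lit 234) (nat_lit 0) (nat_lit 0) (XT.nd (nat_lit 78) (nat_lit 0) (nat_lit 0) (XT.lf (nat_lit 0) (nat_lit 43118052671) (nat_lit 152) (nat_lit 307030021091) (nat_lit 0) (nat_lit 26739407592) (nat_lit 2) (nat_lit 5) (nat_lit 4) (nat_lit 4) (nat_lit 2) (nat_lit 4) (nat_lit 421) (nat_lit 296) (nat_lit 183)) (XT.nd (nat_lit 78) (nat_lit 0) (nat_lit 0) (XT.lf (nat_lit 0) (nat_lit 53253086221) (nat_lit 152) (nat_lit 305166054818) (nat_lit 0) (nat_lit 36871283064) (nat_lit 2) (nat_lit 5) (nat_lit 4) (nat_lit 4) (nat_lit 2) (nat_lit 4) (nat_lit 422) (nat_lit 296) (nat_lit 182)) (XT.lf (nat_lit 0) (nat_lit 63891597294) (nat_lit 152) (nat_lit 303215294465) (nat_lit 0) (nat_lit 47506786444) (nat_lit 2) (nat_lit 5) (nat_lit 4) (nat_lit 4) (nat_lit 2) (nat_lit 4) (nat_lit 423) (nat_lit 296) (nat_lit 181)))) (XT.nd (nat_lit 78) (nat_lit 0) (nat_lit 0) (XT.lf (nat_lit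 0) (nat_lit 75058915678) (nat_lit 152) (nat_lit 301173095365) (nat_lit 0) (nat_lit 58671240358) (nat_lit 2) (nat_lit 5) (nat_lit 4) (nat_lit 4) (nat_lit 2) (nat_lit 4) (nat_lit 424) (nat_lit 296) (nat_lit 180)) (XT.nd (nat_lit 78) (nat_lit 0) (nat_lit 0) (XT.lf (nat_lit 0) (nat_lit 86781630228) (nat_lit 152) (nat_lit 299034595139) (nat_lit 0) (nat_lit 70391226841) (nat_lit 2) (nat_lit 5) (nat_lit 4) (nat_lit 4) (nat_lit 2) (nat_lit 4) (nat_lit 425) (nat_lit 296) (nat_lit 179)) (XT.lf (nat_lit 0) (nat_lit 99087652167) (nat_lit 152) (nat_lit 296794702121) (nat_lit 0) (nat_lit 82694650622) (nat_lit 2) (nat_lit 5) (nat_lit 4) (nat_lit 4) (nat_lit 2) (nat_lit 4) (nat_lit 426) (nat_lit 296) (nat_lit 178))))) (XT.nd (nat_lit 234) (nat_lit 0) (nat_lit 0) (XT.nd (nat_lit 78) (nat_lit 0) (nat_lit 0) (XT.lf (nat_lit 0) (nat_lit 112006281548) (nat_lit 152) (nat_lit 294448083231) (nat_lit 0) (nat_lit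 95610805566) (nat_lit 2) (nat_lit 5) (nat_lit 4) (nat_lit 4) (nat_lit 2) (nat_lit 4) (nat_lit 427) (nat_lit 296) (nat_lit 177)) (XT.nd (nat_lit 78) (nat_lit 0) (nat_lit 0) (XT.lf (nat_lit 0) (nat_lit 125568277014) (nat_lit 152) (nat_lit 291989151282) (nat_lit 0) (nat_lit 109170444425) (nat_lit 2) (nat_lit 5) (nat_lit 4) (nat_lit 4) (nat_lit 2) (nat_lit 4) (nat_lit 428) (nat_lit 296) (nat_lit 176)) (XT.lf (nat_lit 0) (nat_lit 139805929028) (nat_lit 152) (nat_lit 289412051674) (nat_lit 0) (nat_lit 123405852052) (nat_lit 2) (nat_lit 5) (nat_lit 4) (nat_lit 4) (nat_lit 2) (nat_lit 4) (nat_lit 429) (nat_lit 296) (nat_lit 175)))) (XT.nd (nat_lit 78) (nat_lit 0) (nat_lit 0) (XT.lf (nat_lit 0) (nat_lit 154753136762) (nat_lit 152) (nat_lit 286710648455) (nat_lit 0) (nat_lit 138350922275) (nat_lit 2) (nat_lit 5) (nat_lit 4) (nat_lit 4) (nat_lit 2) (nat_lit 4) (nat_lit 430) (nat_lit 296) (nat_lit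 174)) (XT.nd (nat_lit 78) (nat_lit 0) (nat_lit 0) (XT.lf (nat_lit 0) (nat_lit 170445488807) (nat_lit 152) (nat_lit 283878509713) (nat_lit 0) (nat_lit 154041238594) (nat_lit 2) (nat_lit 5) (nat_lit 4) (nat_lit 4) (nat_lit 2) (nat_lit 4) (nat_lit 431) (nat_lit 296) (nat_lit 173)) (XT.lf (nat_lit 0) (nat_lit 186920347905) (nat_lit 152) (nat_lit 280908892260) (nat_lit 0) (nat_lit 170514158906) (nat_lit 2) (nat_lit 5) (nat_lit 4) (nat_lit 4) (nat_lit 2) (nat_lit 4) (nat_lit 432) (nat_lit 296) (nat_lit 172))))))))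
noncomputable def xc91 : XT := (XT.nd (nat_lit 1716) (nat_lit 2888) (nat_lit 0) (XT.nd (nat_lit 858) (nat_lit 2964) (nat_lit 0) (XT.nd (nat_lit 390) (nat_lit 2432) (nat_lit 0) (XT.nd (nat_lit 156) (nat_lit 760) (nat_lit 0) (XT.nd (nat_lit 78) (nat_lit 76) (nat_lit 0) (XT.lf (nat_lit 0) (nat_lit 527443404) (nat_lit 228) (nat_lit 1373360837) (nat_lit 228) (nat_lit 1373360837) (nat_lit 148) (nat_lit 4) (nat_lit 151) (nat_lit 5) (nat_lit 151) (nat_lit 4) (nat_lit 306) (nat_lit 297) (nat_lit 297)) (XT.lf (nat_lit 0) (nat_lit 354437858) (nat_lit 304) (nat_lit 1678692856) (nat_lit 76) (nat_lit 4555619347) (nat_lit 147) (nat_lit 5) (nat_lit 151) (nat_lit 5) (nat_lit 148) (nat_lit 4) (nat_lit 307) (nat_lit 297) (nat_lit 296))) (XT.nd (nat_lit 78) (nat_lit 456) (nat_lit 0) (XT.lf (nat_lit 0) (nat_lit 2226926120) (nat_lit 304) (nat_lit 1150132129) (nat_lit 380) (nat_lit 3259313379) (nat_lit 143) (nat_lit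 5) (nat_lit 147) (nat_lit 5) (nat_lit 148) (nat_lit 4) (nat_lit 308) (nat_lit 297) (nat_lit 295)) (XT.nd (nat_lit 78) (nat_lit 456) (nat_lit 0) (XT.lf (nat_lit 0) (nat_lit 6262024246) (nat_lit 304) (nat_lit 147603507) (nat_lit 380) (nat_lit 284155728) (nat_lit 143) (nat_lit 5) (nat_lit 147) (nat_lit 5) (nat_lit 148) (nat_lit 4) (nat_lit 309) (nat_lit 297) (nat_lit 294)) (XT.lf (nat_lit 0) (nat_lit 2658486816) (nat_lit 456) (nat_lit 3079142967) (nat_lit 76) (nat_lit 1019056021) (nat_lit 137) (nat_lit 5) (nat_lit 143) (nat_lit 5) (nat_lit 138) (nat_lit 4) (nat_lit 310) (nat_lit 297) (nat_lit 293))))) (XT.nd (nat_lit 234) (nat_lit 1368) (nat_lit 0) (XT.nd (nat_lit 78) (nat_lit 608) (nat_lit 0) (XT.lf (nat_lit 0) (nat_lit 1081617846) (nat_lit 456) (nat_lit 4525829376) (nat_lit 532) (nat_lit 1221918787) (nat_lit 131) (nat_lit 5) (nat_lit 137) (nat_lit 5) (nat_lit 138) (nat_lit 4) (nat_lit 311)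 (nat_lit 297) (nat_lit 292)) (XT.nd (nat_lit 78) (nat_lit 532) (nat_lit 0) (XT.lf (nat_lit 0) (nat_lit 1638357858) (nat_lit 532) (nat_lit 1508719084) (nat_lit 76) (nat_lit 3762587111) (nat_lit 130) (nat_lit 5) (nat_lit 137) (nat_lit 5) (nat_lit 131) (nat_lit 5) (nat_lit 312) (nat_lit 297) (nat_lit 291)) (XT.lf (nat_lit 0) (nat_lit 2886979589) (nat_lit 532) (nat_lit 1610805377) (nat_lit 608) (nat_lit 2500591665) (nat_lit 123) (nat_lit 5) (nat_lit 130) (nat_lit 5) (nat_lit 131) (nat_lit 5) (nat_lit 313) (nat_lit 297) (nat_lit 290)))) (XT.nd (nat_lit 78) (nat_lit 684) (nat_lit 0) (XT.lf (nat_lit 0) (nat_lit 282334267) (nat_lit 684) (nat_lit 6760054812) (nat_lit 76) (nat_lit 54715948) (nat_lit 114) (nat_lit 5) (nat_lit 123) (nat_lit 5) (nat_lit 115) (nat_lit 5) (nat_lit 314) (nat_lit 297) (nat_lit 289)) (XT.nd (nat_lit 78) (nat_lit 684) (nat_lit 0) (XT.lf (nat_lit 0) (nat_lit 3077275167) (nat_lit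 684) (nat_lit 2251135896) (nat_lit 76) (nat_lit 1872689551) (nat_lit 114) (nat_lit 5) (nat_lit 123) (nat_lit 5) (nat_lit 115) (nat_lit 5) (nat_lit 315) (nat_lit 297) (nat_lit 288)) (XT.lf (nat_lit 0) (nat_lit 2431564365) (nat_lit 684) (nat_lit 3484770238) (nat_lit 760) (nat_lit 1398957743) (nat_lit 105) (nat_lit 5) (nat_lit 114) (nat_lit 5) (nat_lit 115) (nat_lit 5) (nat_lit 316) (nat_lit 297) (nat_lit 287)))))) (XT.nd (nat_lit 390) (nat_lit 1368) (nat_lit 0) (XT.nd (nat_lit 156) (nat_lit 760) (nat_lit 0) (XT.nd (nat_lit 78) (nat_lit 760) (nat_lit 0) (XT.lf (nat_lit 0) (nat_lit 1322568253) (nat_lit 760) (nat_lit 162132192) (nat_lit 76) (nat_lit 5954186112) (nat_lit 104) (nat_lit 5) (nat_lit 114) (nat_lit 5) (nat_lit 105) (nat_lit 5) (nat_lit 317) (nat_lit 297) (nat_lit 286)) (XT.lf (nat_lit 0) (nat_lit 4094040942) (nat_lit 836) (nat_lit 2780825420) (nat_lit 76) (nat_lit 694788875) (nat_lit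 94) (nat_lit 5) (nat_lit 105) (nat_lit 5) (nat_lit 95) (nat_lit 5) (nat_lit 318) (nat_lit 297) (nat_lit 285))) (XT.nd (nat_lit 78) (nat_lit 380) (nat_lit 0) (XT.lf (nat_lit 0) (nat_lit 2202413589) (nat_lit 380) (nat_lit 4741914805) (nat_lit 456) (nat_lit 765798730) (nat_lit 89) (nat_lit 5) (nat_lit 94) (nat_lit 5) (nat_lit 95) (nat_lit 5) (nat_lit 319) (nat_lit 297) (nat_lit 284)) (XT.nd (nat_lit 78) (nat_lit 304) (nat_lit 0) (XT.lf (nat_lit 0) (nat_lit 1941233596) (nat_lit 456) (nat_lit 489005314) (nat_lit 76) (nat_lit 5429506578) (nat_lit 88) (nat_lit 5) (nat_lit 94) (nat_lit 5) (nat_lit 89) (nat_lit 5) (nat_lit 320) (nat_lit 297) (nat_lit 283)) (XT.lf (nat_lit 0) (nat_lit 4720076126) (nat_lit 380) (nat_lit 3223516250) (nat_lit 76) (nat_lit 74667720) (nat_lit 84) (nat_lit 5) (nat_lit 89) (nat_lit 5) (nat_lit 85) (nat_lit 5) (nat_lit 321) (nat_lit 297) (nat_lit 282))))) (XT.nd (nat_lit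 234) (nat_lit 608) (nat_lit 0) (XT.nd (nat_lit 78) (nat_lit 380) (nat_lit 0) (XT.lf (nat_lit 0) (nat_lit 2072723199) (nat_lit 380) (nat_lit 5535155737) (nat_lit 456) (nat_lit 578466072) (nat_lit 79) (nat_lit 5) (nat_lit 84) (nat_lit 5) (nat_lit 85) (nat_lit 5) (nat_lit 322) (nat_lit 297) (nat_lit 281)) (XT.nd (nat_lit 78) (nat_lit 304) (nat_lit 0) (XT.lf (nat_lit 0) (nat_lit 2150630029) (nat_lit 456) (nat_lit 781540206) (nat_lit 76) (nat_lit 5431704272) (nat_lit 78) (nat_lit 5) (nat_lit 84) (nat_lit 5) (nat_lit 79) (nat_lit 5) (nat_lit 323) (nat_lit 297) (nat_lit 280)) (XT.lf (nat_lit 0) (nat_lit 4838058663) (nat_lit 304) (nat_lit 130209466) (nat_lit 380) (nat_lit 3583087498) (nat_lit 74) (nat_lit 5) (nat_lit 78) (nat_lit 5) (nat_lit 79) (nat_lit 5) (nat_lit 324) (nat_lit 297) (nat_lit 279)))) (XT.nd (nat_lit 78) (nat_lit 304) (nat_lit 0) (XT.lf (nat_lit 0) (nat_lit 1907891086) (nat_lit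 304) (nat_lit 6004735704) (nat_lit 380) (nat_lit 836411767) (nat_lit 70) (nat_lit 5) (nat_lit 74) (nat_lit 5) (nat_lit 75) (nat_lit 5) (nat_lit 325) (nat_lit 297) (nat_lit 278)) (XT.nd (nat_lit 78) (nat_lit 228) (nat_lit 0) (XT.lf (nat_lit 0) (nat_lit 1947956178) (nat_lit 380) (nat_lit 1178184380) (nat_lit 76) (nat_lit 5830680479) (nat_lit 69) (nat_lit 5) (nat_lit 74) (nat_lit 5) (nat_lit 70) (nat_lit 5) (nat_lit 326) (nat_lit 297) (nat_lit 277)) (XT.lf (nat_lit 0) (nat_lit 4784841286) (nat_lit 228) (nat_lit 37908866) (nat_lit 304) (nat_lit 4352694467) (nat_lit 66) (nat_lit 5) (nat_lit 69) (nat_lit 5) (nat_lit 70) (nat_lit 5) (nat_lit 327) (nat_lit 297) (nat_lit 276))))))) (XT.nd (nat_lit 858) (nat_lit 1140) (nat_lit 0) (XT.nd (nat_lit 390) (nat_lit 836) (nat_lit 0) (XT.nd (nat_lit 156) (nat_lit 532) (nat_lit 0) (XT.nd (nat_lit 78) (nat_lit 76) (nat_lit 0) (XT.lf (nat_lit 0) (nat_lit 1557567096)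 (nat_lit 304) (nat_lit 6285187616) (nat_lit 380) (nat_lit 1562269590) (nat_lit 62) (nat_lit 5) (nat_lit 66) (nat_lit 5) (nat_lit 67) (nat_lit 5) (nat_lit 328) (nat_lit 297) (nat_lit 275)) (XT.lf (nat_lit 0) (nat_lit 1307879393) (nat_lit 380) (nat_lit 1835949062) (nat_lit 76) (nat_lit 6502077309) (nat_lit 61) (nat_lit 5) (nat_lit 66) (nat_lit 5) (nat_lit 62) (nat_lit 5) (nat_lit 329) (nat_lit 297) (nat_lit 274))) (XT.nd (nat_lit 78) (nat_lit 304) (nat_lit 0) (XT.lf (nat_lit 0) (nat_lit 4254528855) (nat_lit 304) (nat_lit 5428270155) (nat_lit 76) (nat_lit 215562022) (nat_lit 58) (nat_lit 5) (nat_lit 62) (nat_lit 5) (nat_lit 59) (nat_lit 5) (nat_lit 330) (nat_lit 297) (nat_lit 273)) (XT.nd (nat_lit 78) (nat_lit 76) (nat_lit 0) (XT.lf (nat_lit 0) (nat_lit 846450176) (nat_lit 228) (nat_lit 6512419085) (nat_lit 304) (nat_lit 2804132888) (nat_lit 55) (nat_lit 5) (nat_lit 58) (nat_lit 5) (nat_lit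 59) (nat_lit 5) (nat_lit 331) (nat_lit 297) (nat_lit 272)) (XT.lf (nat_lit 0) (nat_lit 180083346) (nat_lit 304) (nat_lit 2940001629) (nat_lit 76) (nat_lit 7320314483) (nat_lit 54) (nat_lit 5) (nat_lit 58) (nat_lit 5) (nat_lit 55) (nat_lit 5) (nat_lit 332) (nat_lit 297) (nat_lit 271))))) (XT.nd (nat_lit 234) (nat_lit 456) (nat_lit 0) (XT.nd (nat_lit 78) (nat_lit 228) (nat_lit 0) (XT.lf (nat_lit 0) (nat_lit 3204094738) (nat_lit 228) (nat_lit 7027412763) (nat_lit 76) (nat_lit 498689559) (nat_lit 52) (nat_lit 5) (nat_lit 55) (nat_lit 5) (nat_lit 53) (nat_lit 5) (nat_lit 333) (nat_lit 297) (nat_lit 270)) (XT.nd (nat_lit 78) (nat_lit 228) (nat_lit 0) (XT.lf (nat_lit 0) (nat_lit 6401404399) (nat_lit 228) (nat_lit 422713289) (nat_lit 76) (nat_lit 4209328614) (nat_lit 52) (nat_lit 5) (nat_lit 55) (nat_lit 5) (nat_lit 53) (nat_lit 5) (nat_lit 334) (nat_lit 297) (nat_lit 269)) (XT.lf (nat_lit 0) (nat_lit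 6610923586) (nat_lit 228) (nat_lit 3175006412) (nat_lit 304) (nat_lit 1564623959) (nat_lit 49) (nat_lit 5) (nat_lit 52) (nat_lit 5) (nat_lit 53) (nat_lit 5) (nat_lit 335) (nat_lit 297) (nat_lit 268)))) (XT.nd (nat_lit 78) (nat_lit 228) (nat_lit 0) (XT.lf (nat_lit 0) (nat_lit 1581242732) (nat_lit 228) (nat_lit 9434168339) (nat_lit 76) (nat_lit 667966353) (nat_lit 46) (nat_lit 5) (nat_lit 49) (nat_lit 5) (nat_lit 47) (nat_lit 5) (nat_lit 336) (nat_lit 297) (nat_lit 267)) (XT.nd (nat_lit 78) (nat_lit 228) (nat_lit 0) (XT.lf (nat_lit 0) (nat_lit 4891436286) (nat_lit 228) (nat_lit 2470711530) (nat_lit 76) (nat_lit 4666485840) (nat_lit 46) (nat_lit 5) (nat_lit 49) (nat_lit 5) (nat_lit 47) (nat_lit 5) (nat_lit 337) (nat_lit 297) (nat_lit 266)) (XT.lf (nat_lit 0) (nat_lit 4887926170) (nat_lit 228) (nat_lit 3485034301) (nat_lit 304) (nat_lit 4017953399) (nat_lit 43) (nat_lit 5) (nat_lit 46) (nat_lit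 5) (nat_lit 47) (nat_lit 5) (nat_lit 338) (nat_lit 297) (nat_lit 265)))))) (XT.nd (nat_lit 468) (nat_lit 532) (nat_lit 0) (XT.nd (nat_lit 234) (nat_lit 228) (nat_lit 0) (XT.nd (nat_lit 78) (nat_lit 380) (nat_lit 0) (XT.lf (nat_lit 0) (nat_lit 12010813486) (nat_lit 304) (nat_lit 189331718) (nat_lit 76) (nat_lit 572099992) (nat_lit 43) (nat_lit 5) (nat_lit 47) (nat_lit 5) (nat_lit 44) (nat_lit 4) (nat_lit 339) (nat_lit 297) (nat_lit 264)) (XT.nd (nat_lit 78) (nat_lit 152) (nat_lit 0) (XT.lf (nat_lit 0) (nat_lit 2683790835) (nat_lit 228) (nat_lit 5640649467) (nat_lit 76) (nat_lit 4840625785) (nat_lit 40) (nat_lit 5) (nat_lit 43) (nat_lit 5) (nat_lit 41) (nat_lit 5) (nat_lit 340) (nat_lit 297) (nat_lit 263)) (XT.lf (nat_lit 0) (nat_lit 1998686025) (nat_lit 152) (nat_lit 4245773918) (nat_lit 228) (nat_lit 7334048190) (nat_lit 38) (nat_lit 5) (nat_lit 40) (nat_lit 5) (nat_lit 41) (nat_lit 5)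 (nat_lit 341) (nat_lit 297) (nat_lit 262)))) (XT.nd (nat_lit 78) (nat_lit 228) (nat_lit 0) (XT.lf (nat_lit 0) (nat_lit 10016020664) (nat_lit 228) (nat_lit 3900895712) (nat_lit 76) (nat_lit 94103910) (nat_lit 38) (nat_lit 5) (nat_lit 41) (nat_lit 5) (nat_lit 39) (nat_lit 4) (nat_lit 342) (nat_lit 297) (nat_lit 261)) (XT.nd (nat_lit 78) (nat_lit 76) (nat_lit 0) (XT.lf (nat_lit 0) (nat_lit 4122680217) (nat_lit 152) (nat_lit 9925724892) (nat_lit 228) (nat_lit 413179620) (nat_lit 36) (nat_lit 5) (nat_lit 38) (nat_lit 5) (nat_lit 39) (nat_lit 4) (nat_lit 343) (nat_lit 297) (nat_lit 260)) (XT.lf (nat_lit 0) (nat_lit 3246358533) (nat_lit 228) (nat_lit 2403930016) (nat_lit 76) (nat_lit 9281522041) (nat_lit 35) (nat_lit 5) (nat_lit 38) (nat_lit 5) (nat_lit 36) (nat_lit 5) (nat_lit 344) (nat_lit 297) (nat_lit 259))))) (XT.nd (nat_lit 234) (nat_lit 304) (nat_lit 0) (XT.nd (nat_lit 78) (nat_lit 76)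 (nat_lit 0) (XT.lf (nat_lit 0) (nat_lit 6016371165) (nat_lit 152) (nat_lit 1094100631) (nat_lit 228) (nat_lit 8312996752) (nat_lit 33) (nat_lit 5) (nat_lit 35) (nat_lit 5) (nat_lit 36) (nat_lit 5) (nat_lit 345) (nat_lit 297) (nat_lit 258)) (XT.nd (nat_lit 78) (nat_lit 76) (nat_lit 0) (XT.lf (nat_lit 0) (nat_lit 11209019997) (nat_lit 228) (nat_lit 1152735726) (nat_lit 76) (nat_lit 3575924273) (nat_lit 33) (nat_lit 5) (nat_lit 36) (nat_lit 5) (nat_lit 34) (nat_lit 4) (nat_lit 346) (nat_lit 297) (nat_lit 257)) (XT.lf (nat_lit 0) (nat_lit 7647921273) (nat_lit 76) (nat_lit 7946906869) (nat_lit 152) (nat_lit 878687779) (nat_lit 32) (nat_lit 5) (nat_lit 33) (nat_lit 5) (nat_lit 34) (nat_lit 4) (nat_lit 347) (nat_lit 297) (nat_lit 256)))) (XT.nd (nat_lit 78) (nat_lit 228) (nat_lit 0) (XT.lf (nat_lit 0) (nat_lit 3027631695) (nat_lit 152) (nat_lit 249852576) (nat_lit 76) (nat_lit 13757961815) (nat_lit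 31) (nat_lit 5) (nat_lit 33) (nat_lit 5) (nat_lit 32) (nat_lit 5) (nat_lit 348) (nat_lit 297) (nat_lit 255)) (XT.nd (nat_lit 78) (nat_lit 76) (nat_lit 0) (XT.lf (nat_lit 0) (nat_lit 7214468246) (nat_lit 228) (nat_lit 8710557899) (nat_lit 76) (nat_lit 1694016214) (nat_lit 29) (nat_lit 5) (nat_lit 32) (nat_lit 5) (nat_lit 30) (nat_lit 4) (nat_lit 349) (nat_lit 297) (nat_lit 254)) (XT.lf (nat_lit 0) (nat_lit 163532309) (nat_lit 76) (nat_lit 11456111111) (nat_lit 152) (nat_lit 6611750304) (nat_lit 28) (nat_lit 5) (nat_lit 29) (nat_lit 5) (nat_lit 30) (nat_lit 4) (nat_lit 350) (nat_lit 297) (nat_lit 253))))))))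
noncomputable def xc92 : XT := (XT.nd (nat_lit 1716) (nat_lit 608) (nat_lit 0) (XT.nd (nat_lit 858) (nat_lit 380) (nat_lit 0) (XT.nd (nat_lit 390) (nat_lit 380) (nat_lit 0) (XT.nd (nat_lit 156) (nat_lit 76) (nat_lit 0) (XT.nd (nat_lit 78) (nat_lit 228) (nat_lit 0) (XT.lf (nat_lit 0) (nat_lit 9695475929) (nat_lit 76) (nat_lit 6646611021) (nat_lit 152) (nat_lit 2527449148) (nat_lit 28) (nat_lit 5) (nat_lit 29) (nat_lit 5) (nat_lit 30) (nat_lit 4) (nat_lit 351) (nat_lit 297) (nat_lit 252)) (XT.lf (nat_lit 0) (nat_lit 52932058) (nat_lit 152) (nat_lit 1603682879) (nat_lit 228) (nat_lit 17884021942) (nat_lit 25) (nat_lit 5) (nat_lit 27) (nat_lit 5) (nat_lit 28) (nat_lit 5) (nat_lit 352) (nat_lit 297) (nat_lit 251))) (XT.nd (nat_lit 78) (nat_lit 76) (nat_lit 0) (XT.lf (nat_lit 0) (nat_lit 6132021344) (nat_lit 228) (nat_lit 10365524323) (nat_lit 76) (nat_lit 3737342118) (nat_lit 25) (nat_lit 5)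 (nat_lit 28) (nat_lit 5) (nat_lit 26) (nat_lit 4) (nat_lit 353) (nat_lit 297) (nat_lit 250)) (XT.nd (nat_lit 78) (nat_lit 76) (nat_lit 0) (XT.lf (nat_lit 0) (nat_lit 10811326868) (nat_lit 228) (nat_lit 895584652) (nat_lit 76) (nat_lit 9257952958) (nat_lit 25) (nat_lit 5) (nat_lit 28) (nat_lit 5) (nat_lit 26) (nat_lit 4) (nat_lit 354) (nat_lit 297) (nat_lit 249)) (XT.lf (nat_lit 0) (nat_lit 9266278429) (nat_lit 76) (nat_lit 6559028874) (nat_lit 152) (nat_lit 5901015963) (nat_lit 24) (nat_lit 5) (nat_lit 25) (nat_lit 5) (nat_lit 26) (nat_lit 4) (nat_lit 355) (nat_lit 297) (nat_lit 248))))) (XT.nd (nat_lit 234) (nat_lit 152) (nat_lit 0) (XT.nd (nat_lit 78) (nat_lit 228) (nat_lit 0) (XT.lf (nat_lit 0) (nat_lit 19890435511) (nat_lit 76) (nat_lit 1171648446) (nat_lit 152) (nat_lit 1465184027) (nat_lit 24) (nat_lit 5) (nat_lit 25) (nat_lit 5) (nat_lit 26) (nat_lit 4) (nat_lit 356) (nat_lit 297)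 (nat_lit 247)) (XT.nd (nat_lit 78) (nat_lit 0) (nat_lit 0) (XT.lf (nat_lit 0) (nat_lit 3242702601) (nat_lit 228) (nat_lit 15631292766) (nat_lit 76) (nat_lit 4484166563) (nat_lit 21) (nat_lit 5) (nat_lit 24) (nat_lit 5) (nat_lit 22) (nat_lit 4) (nat_lit 357) (nat_lit 297) (nat_lit 246)) (XT.lf (nat_lit 0) (nat_lit 8159962823) (nat_lit 228) (nat_lit 5646998336) (nat_lit 76) (nat_lit 10421292909) (nat_lit 21) (nat_lit 5) (nat_lit 24) (nat_lit 5) (nat_lit 22) (nat_lit 4) (nat_lit 358) (nat_lit 297) (nat_lit 245)))) (XT.nd (nat_lit 78) (nat_lit 76) (nat_lit 0) (XT.lf (nat_lit 0) (nat_lit 4922664447) (nat_lit 76) (nat_lit 8437872103) (nat_lit 152) (nat_lit 11779456425) (nat_lit 20) (nat_lit 5) (nat_lit 21) (nat_lit 5) (nat_lit 22) (nat_lit 4) (nat_lit 359) (nat_lit 297) (nat_lit 244)) (XT.nd (nat_lit 78) (nat_lit 76) (nat_lit 0) (XT.lf (nat_lit 0) (nat_lit 16146610679) (nat_lit 76) (nat_lit 2731536511)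 (nat_lit 152) (nat_lit 7216335213) (nat_lit 20) (nat_lit 5) (nat_lit 21) (nat_lit 5) (nat_lit 22) (nat_lit 4) (nat_lit 360) (nat_lit 297) (nat_lit 243)) (XT.lf (nat_lit 0) (nat_lit 739540394) (nat_lit 76) (nat_lit 23957286508) (nat_lit 76) (nat_lit 2398623294) (nat_lit 19) (nat_lit 4) (nat_lit 20) (nat_lit 5) (nat_lit 20) (nat_lit 4) (nat_lit 361) (nat_lit 297) (nat_lit 242)))))) (XT.nd (nat_lit 390) (nat_lit 228) (nat_lit 0) (XT.nd (nat_lit 156) (nat_lit 76) (nat_lit 0) (XT.nd (nat_lit 78) (nat_lit 0) (nat_lit 0) (XT.lf (nat_lit 0) (nat_lit 2753708297) (nat_lit 152) (nat_lit 15988849471) (nat_lit 76) (nat_lit 9392900718) (nat_lit 18) (nat_lit 5) (nat_lit 20) (nat_lit 5) (nat_lit 19) (nat_lit 4) (nat_lit 362) (nat_lit 297) (nat_lit 241)) (XT.lf (nat_lit 0) (nat_lit 8047672443) (nat_lit 152) (nat_lit 5207926082) (nat_lit 76) (nat_lit 15971682814) (nat_lit 18) (nat_lit 5) (nat_lit 20) (nat_lit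 5) (nat_lit 19) (nat_lit 4) (nat_lit 363) (nat_lit 297) (nat_lit 240))) (XT.nd (nat_lit 78) (nat_lit 0) (nat_lit 0) (XT.lf (nat_lit 0) (nat_lit 6250018069) (nat_lit 76) (nat_lit 7420206973) (nat_lit 152) (nat_lit 16700286739) (nat_lit 17) (nat_lit 5) (nat_lit 18) (nat_lit 5) (nat_lit 19) (nat_lit 4) (nat_lit 364) (nat_lit 297) (nat_lit 239)) (XT.nd (nat_lit 78) (nat_lit 0) (nat_lit 0) (XT.lf (nat_lit 0) (nat_lit 18400602896) (nat_lit 76) (nat_lit 1228461981) (nat_lit 152) (nat_lit 11939091326) (nat_lit 17) (nat_lit 5) (nat_lit 18) (nat_lit 5) (nat_lit 19) (nat_lit 4) (nat_lit 365) (nat_lit 297) (nat_lit 238)) (XT.lf (nat_lit 0) (nat_lit 25936288425) (nat_lit 152) (nat_lit 1808612845) (nat_lit 0) (nat_lit 5078269429) (nat_lit 17) (nat_lit 5) (nat_lit 19) (nat_lit 4) (nat_lit 17) (nat_lit 4) (nat_lit 366) (nat_lit 297) (nat_lit 237))))) (XT.nd (nat_lit 234) (nat_lit 76) (nat_lit 0) (XT.nd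 (nat_lit 78) (nat_lit 76) (nat_lit 0) (XT.lf (nat_lit 0) (nat_lit 10373660032) (nat_lit 76) (nat_lit 22336949401) (nat_lit 76) (nat_lit 1422749141) (nat_lit 16) (nat_lit 4) (nat_lit 17) (nat_lit 5) (nat_lit 17) (nat_lit 4) (nat_lit 367) (nat_lit 297) (nat_lit 236)) (XT.nd (nat_lit 78) (nat_lit 0) (nat_lit 0) (XT.lf (nat_lit 0) (nat_lit 4177345352) (nat_lit 152) (nat_lit 12404148252) (nat_lit 76) (nat_lit 18924160253) (nat_lit 15) (nat_lit 5) (nat_lit 17) (nat_lit 5) (nat_lit 16) (nat_lit 4) (nat_lit 368) (nat_lit 297) (nat_lit 235)) (XT.lf (nat_lit 0) (nat_lit 9980789621) (nat_lit 152) (nat_lit 558045563) (nat_lit 76) (nat_lit 26408012775) (nat_lit 15) (nat_lit 5) (nat_lit 17) (nat_lit 5) (nat_lit 16) (nat_lit 4) (nat_lit 369) (nat_lit 297) (nat_lit 234)))) (XT.nd (nat_lit 78) (nat_lit 0) (nat_lit 0) (XT.lf (nat_lit 0) (nat_lit 12220148708) (nat_lit 76) (nat_lit 4017580307) (nat_lit 152)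 (nat_lit 22214214391) (nat_lit 14) (nat_lit 5) (nat_lit 15) (nat_lit 5) (nat_lit 16) (nat_lit 4) (nat_lit 370) (nat_lit 297) (nat_lit 233)) (XT.nd (nat_lit 78) (nat_lit 0) (nat_lit 0) (XT.lf (nat_lit 0) (nat_lit 22833984989) (nat_lit 152) (nat_lit 14471023053) (nat_lit 0) (nat_lit 2725969523) (nat_lit 14) (nat_lit 5) (nat_lit 16) (nat_lit 4) (nat_lit 14) (nat_lit 4) (nat_lit 371) (nat_lit 297) (nat_lit 232)) (XT.lf (nat_lit 0) (nat_lit 29799900282) (nat_lit 152) (nat_lit 2237116394) (nat_lit 0) (nat_lit 9649961493) (nat_lit 14) (nat_lit 5) (nat_lit 16) (nat_lit 4) (nat_lit 14) (nat_lit 4) (nat_lit 372) (nat_lit 297) (nat_lit 231))))))) (XT.nd (nat_lit 858) (nat_lit 228) (nat_lit 0) (XT.nd (nat_lit 390) (nat_lit 152) (nat_lit 0) (XT.nd (nat_lit 156) (nat_lit 152) (nat_lit 0) (XT.nd (nat_lit 78) (nat_lit 0) (nat_lit 0) (XT.lf (nat_lit 0) (nat_lit 10910999436) (nat_lit 76) (nat_lit 26348686563)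 (nat_lit 76) (nat_lit 6158820798) (nat_lit 13) (nat_lit 4) (nat_lit 14) (nat_lit 5) (nat_lit 14) (nat_lit 4) (nat_lit 373) (nat_lit 297) (nat_lit 230)) (XT.lf (nat_lit 0) (nat_lit 24748235732) (nat_lit 76) (nat_lit 20357797684) (nat_lit 76) (nat_lit 129906228) (nat_lit 13) (nat_lit 4) (nat_lit 14) (nat_lit 5) (nat_lit 14) (nat_lit 4) (nat_lit 374) (nat_lit 297) (nat_lit 229))) (XT.nd (nat_lit 78) (nat_lit 76) (nat_lit 0) (XT.lf (nat_lit 0) (nat_lit 5978458881) (nat_lit 152) (nat_lit 8008265691) (nat_lit 76) (nat_lit 33153862147) (nat_lit 12) (nat_lit 5) (nat_lit 14) (nat_lit 5) (nat_lit 13) (nat_lit 4) (nat_lit 375) (nat_lit 297) (nat_lit 228)) (XT.nd (nat_lit 78) (nat_lit 0) (nat_lit 0) (XT.lf (nat_lit 0) (nat_lit 5217582499) (nat_lit 76) (nat_lit 7229334242) (nat_lit 152) (nat_lit 36690496452) (nat_lit 11) (nat_lit 5) (nat_lit 12) (nat_lit 5) (nat_lit 13) (nat_lit 4) (nat_lit 376) (nat_lit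 297) (nat_lit 227)) (XT.lf (nat_lit 0) (nat_lit 19341008758) (nat_lit 76) (nat_lit 11407631) (nat_lit 152) (nat_lit 31875988926) (nat_lit 11) (nat_lit 5) (nat_lit 12) (nat_lit 5) (nat_lit 13) (nat_lit 4) (nat_lit 377) (nat_lit 297) (nat_lit 226))))) (XT.nd (nat_lit 234) (nat_lit 76) (nat_lit 0) (XT.nd (nat_lit 78) (nat_lit 76) (nat_lit 0) (XT.lf (nat_lit 0) (nat_lit 26700088985) (nat_lit 152) (nat_lit 19412004123) (nat_lit 0) (nat_lit 7307014059) (nat_lit 11) (nat_lit 5) (nat_lit 13) (nat_lit 4) (nat_lit 11) (nat_lit 4) (nat_lit 378) (nat_lit 297) (nat_lit 225)) (XT.nd (nat_lit 78) (nat_lit 76) (nat_lit 0) (XT.lf (nat_lit 0) (nat_lit 34395093555) (nat_lit 152) (nat_lit 6351614648) (nat_lit 0) (nat_lit 14973643274) (nat_lit 11) (nat_lit 5) (nat_lit 13) (nat_lit 4) (nat_lit 11) (nat_lit 4) (nat_lit 379) (nat_lit 297) (nat_lit 224)) (XT.lf (nat_lit 0) (nat_lit 7567245245) (nat_lit 76) (nat_lit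 35006474094) (nat_lit 76) (nat_lit 15557999665) (nat_lit 10) (nat_lit 4) (nat_lit 11) (nat_lit 5) (nat_lit 11) (nat_lit 4) (nat_lit 380) (nat_lit 297) (nat_lit 223)))) (XT.nd (nat_lit 78) (nat_lit 76) (nat_lit 0) (XT.lf (nat_lit 0) (nat_lit 22366406402) (nat_lit 76) (nat_lit 28883516126) (nat_lit 76) (nat_lit 9409304412) (nat_lit 10) (nat_lit 4) (nat_lit 11) (nat_lit 5) (nat_lit 11) (nat_lit 4) (nat_lit 381) (nat_lit 297) (nat_lit 222)) (XT.nd (nat_lit 78) (nat_lit 76) (nat_lit 0) (XT.lf (nat_lit 0) (nat_lit 37871091856) (nat_lit 76) (nat_lit 22470823493) (nat_lit 76) (nat_lit 2972100080) (nat_lit 10) (nat_lit 4) (nat_lit 11) (nat_lit 5) (nat_lit 11) (nat_lit 4) (nat_lit 382) (nat_lit 297) (nat_lit 221)) (XT.lf (nat_lit 0) (nat_lit 3648310389) (nat_lit 152) (nat_lit 12043031589) (nat_lit 76) (nat_lit 50408121233) (nat_lit 9) (nat_lit 5) (nat_lit 11) (nat_lit 5) (nat_lit 10) (nat_lit 4)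 (nat_lit 383) (nat_lit 297) (nat_lit 220)))))) (XT.nd (nat_lit 468) (nat_lit 152) (nat_lit 0) (XT.nd (nat_lit 234) (nat_lit 0) (nat_lit 0) (XT.nd (nat_lit 78) (nat_lit 0) (nat_lit 0) (XT.lf (nat_lit 0) (nat_lit 2010701622) (nat_lit 76) (nat_lit 8503933667) (nat_lit 152) (nat_lit 58506376716) (nat_lit 8) (nat_lit 5) (nat_lit 9) (nat_lit 5) (nat_lit 10) (nat_lit 4) (nat_lit 384) (nat_lit 297) (nat_lit 219)) (XT.nd (nat_lit 78) (nat_lit 0) (nat_lit 0) (XT.lf (nat_lit 0) (nat_lit 17153955596) (nat_lit 76) (nat_lit 757961693) (nat_lit 152) (nat_lit 54167342303) (nat_lit 8) (nat_lit 5) (nat_lit 9) (nat_lit 5) (nat_lit 10) (nat_lit 4) (nat_lit 385) (nat_lit 297) (nat_lit 218)) (XT.lf (nat_lit 0) (nat_lit 25778453333) (nat_lit 152) (nat_lit 42381537762) (nat_lit 0) (nat_lit 7125462205) (nat_lit 8) (nat_lit 5) (nat_lit 10) (nat_lit 4) (nat_lit 8) (nat_lit 4) (nat_lit 386) (nat_lit 297) (nat_lit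 217)))) (XT.nd (nat_lit 78) (nat_lit 0) (nat_lit 0) (XT.lf (nat_lit 0) (nat_lit 34035732923) (nat_lit 152) (nat_lit 29251905226) (nat_lit 0) (nat_lit 15364450787) (nat_lit 8) (nat_lit 5) (nat_lit 10) (nat_lit 4) (nat_lit 8) (nat_lit 4) (nat_lit 387) (nat_lit 297) (nat_lit 216)) (XT.nd (nat_lit 78) (nat_lit 0) (nat_lit 0) (XT.lf (nat_lit 0) (nat_lit 42691582343) (nat_lit 152) (nat_lit 15493311453) (nat_lit 0) (nat_lit 24002880201) (nat_lit 8) (nat_lit 5) (nat_lit 10) (nat_lit 4) (nat_lit 8) (nat_lit 4) (nat_lit 388) (nat_lit 297) (nat_lit 215)) (XT.lf (nat_lit 0) (nat_lit 51766610760) (nat_lit 152) (nat_lit 1072997887) (nat_lit 0) (nat_lit 33061318135) (nat_lit 8) (nat_lit 5) (nat_lit 10) (nat_lit 4) (nat_lit 8) (nat_lit 4) (nat_lit 389) (nat_lit 297) (nat_lit 214))))) (XT.nd (nat_lit 234) (nat_lit 76) (nat_lit 0) (XT.nd (nat_lit 78) (nat_lit 0) (nat_lit 0) (XT.lf (nat_lit 0) (nat_lit 14507706771)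 (nat_lit 76) (nat_lit 47001224572) (nat_lit 76) (nat_lit 28280131487) (nat_lit 7) (nat_lit 4) (nat_lit 8) (nat_lit 5) (nat_lit 8) (nat_lit 4) (nat_lit 390) (nat_lit 297) (nat_lit 213)) (XT.nd (nat_lit 78) (nat_lit 0) (nat_lit 0) (XT.lf (nat_lit 0) (nat_lit 30880139531) (nat_lit 76) (nat_lit 40863668901) (nat_lit 76) (nat_lit 22127527759) (nat_lit 7) (nat_lit 4) (nat_lit 8) (nat_lit 5) (nat_lit 8) (nat_lit 4) (nat_lit 391) (nat_lit 297) (nat_lit 212)) (XT.lf (nat_lit 0) (nat_lit 48047804220) (nat_lit 76) (nat_lit 34430500146) (nat_lit 76) (nat_lit 15680027521) (nat_lit 7) (nat_lit 4) (nat_lit 8) (nat_lit 5) (nat_lit 8) (nat_lit 4) (nat_lit 392) (nat_lit 297) (nat_lit 211)))) (XT.nd (nat_lit 78) (nat_lit 76) (nat_lit 0) (XT.lf (nat_lit 0) (nat_lit 66051576229) (nat_lit 76) (nat_lit 27686401238) (nat_lit 76) (nat_lit 8922279582) (nat_lit 7) (nat_lit 4) (nat_lit 8) (nat_lit 5) (nat_lit 8) (nat_lit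 4) (nat_lit 393) (nat_lit 297) (nat_lit 210)) (XT.nd (nat_lit 78) (nat_lit 76) (nat_lit 0) (XT.lf (nat_lit 0) (nat_lit 84934321683) (nat_lit 76) (nat_lit 20615314799) (nat_lit 76) (nat_lit 1838194066) (nat_lit 7) (nat_lit 4) (nat_lit 8) (nat_lit 5) (nat_lit 8) (nat_lit 4) (nat_lit 394) (nat_lit 297) (nat_lit 209)) (XT.lf (nat_lit 0) (nat_lit 5410209924) (nat_lit 152) (nat_lit 7698570461) (nat_lit 76) (nat_lit 99239165050) (nat_lit 6) (nat_lit 5) (nat_lit 8) (nat_lit 5) (nat_lit 7) (nat_lit 4) (nat_lit 395) (nat_lit 297) (nat_lit 208))))))))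
noncomputable def xc93 : XT := (XT.nd (nat_lit 1716) (nat_lit 152) (nat_lit 0) (XT.nd (nat_lit 858) (nat_lit 0) (nat_lit 0) (XT.nd (nat_lit 390) (nat_lit 76) (nat_lit 0) (XT.nd (nat_lit 156) (nat_lit 0) (nat_lit 0) (XT.nd (nat_lit 78) (nat_lit 0) (nat_lit 0) (XT.lf (nat_lit 0) (nat_lit 8000465429) (nat_lit 76) (nat_lit 5073562269) (nat_lit 152) (nat_lit 104474795097) (nat_lit 5) (nat_lit 5) (nat_lit 6) (nat_lit 5) (nat_lit 7) (nat_lit 4) (nat_lit 396) (nat_lit 297) (nat_lit 207)) (XT.lf (nat_lit 0) (nat_lit 21295961210) (nat_lit 152) (nat_lit 98325763301) (nat_lit 0) (nat_lit 3379275072) (nat_lit 5) (nat_lit 5) (nat_lit 7) (nat_lit 4) (nat_lit 5) (nat_lit 4) (nat_lit 397) (nat_lit 297) (nat_lit 206))) (XT.nd (nat_lit 78) (nat_lit 0) (nat_lit 0) (XT.lf (nat_lit 0) (nat_lit 30002541797) (nat_lit 152) (nat_lit 86643897069) (nat_lit 0) (nat_lit 12075670541) (nat_lit 5) (nat_lit 5) (nat_lit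 7) (nat_lit 4) (nat_lit 5) (nat_lit 4) (nat_lit 398) (nat_lit 297) (nat_lit 205)) (XT.nd (nat_lit 78) (nat_lit 0) (nat_lit 0) (XT.lf (nat_lit 0) (nat_lit 39135286887) (nat_lit 152) (nat_lit 74395732176) (nat_lit 0) (nat_lit 21198715519) (nat_lit 5) (nat_lit 5) (nat_lit 7) (nat_lit 4) (nat_lit 5) (nat_lit 4) (nat_lit 399) (nat_lit 297) (nat_lit 204)) (XT.lf (nat_lit 0) (nat_lit 48715941111) (nat_lit 152) (nat_lit 61552106326) (nat_lit 0) (nat_lit 30770131542) (nat_lit 5) (nat_lit 5) (nat_lit 7) (nat_lit 4) (nat_lit 5) (nat_lit 4) (nat_lit 400) (nat_lit 297) (nat_lit 203))))) (XT.nd (nat_lit 234) (nat_lit 76) (nat_lit 0) (XT.nd (nat_lit 78) (nat_lit 0) (nat_lit 0) (XT.lf (nat_lit 0) (nat_lit 58767315552) (nat_lit 152) (nat_lit 48082439456) (nat_lit 0) (nat_lit 40812707695) (nat_lit 5) (nat_lit 5) (nat_lit 7) (nat_lit 4) (nat_lit 5) (nat_lit 4) (nat_lit 401) (nat_lit 297) (nat_lit 202)) (XT.nd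 (nat_lit 78) (nat_lit 0) (nat_lit 0) (XT.lf (nat_lit 0) (nat_lit 69313342052) (nat_lit 152) (nat_lit 33954660932) (nat_lit 0) (nat_lit 51350354875) (nat_lit 5) (nat_lit 5) (nat_lit 7) (nat_lit 4) (nat_lit 5) (nat_lit 4) (nat_lit 402) (nat_lit 297) (nat_lit 201)) (XT.lf (nat_lit 0) (nat_lit 80379130199) (nat_lit 152) (nat_lit 19135133185) (nat_lit 0) (nat_lit 62408162716) (nat_lit 5) (nat_lit 5) (nat_lit 7) (nat_lit 4) (nat_lit 5) (nat_lit 4) (nat_lit 403) (nat_lit 297) (nat_lit 200)))) (XT.nd (nat_lit 78) (nat_lit 76) (nat_lit 0) (XT.lf (nat_lit 0) (nat_lit 91991027108) (nat_lit 152) (nat_lit 3588571626) (nat_lit 0) (nat_lit 74012459333) (nat_lit 5) (nat_lit 5) (nat_lit 7) (nat_lit 4) (nat_lit 5) (nat_lit 4) (nat_lit 404) (nat_lit 297) (nat_lit 199)) (XT.nd (nat_lit 78) (nat_lit 0) (nat_lit 0) (XT.lf (nat_lit 0) (nat_lit 13142687443) (nat_lit 76) (nat_lit 91239186891) (nat_lit 76) (nat_lit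 73253380744) (nat_lit 4) (nat_lit 4) (nat_lit 5) (nat_lit 5) (nat_lit 5) (nat_lit 4) (nat_lit 405) (nat_lit 297) (nat_lit 198)) (XT.lf (nat_lit 0) (nat_lit 30822032100) (nat_lit 76) (nat_lit 86624288989) (nat_lit 76) (nat_lit 68631589154) (nat_lit 4) (nat_lit 4) (nat_lit 5) (nat_lit 5) (nat_lit 5) (nat_lit 4) (nat_lit 406) (nat_lit 297) (nat_lit 197)))))) (XT.nd (nat_lit 390) (nat_lit 0) (nat_lit 0) (XT.nd (nat_lit 156) (nat_lit 0) (nat_lit 0) (XT.nd (nat_lit 78) (nat_lit 0) (nat_lit 0) (XT.lf (nat_lit 0) (nat_lit 49372901635) (nat_lit 76) (nat_lit 81784691374) (nat_lit 76) (nat_lit 63785426121) (nat_lit 4) (nat_lit 4) (nat_lit 5) (nat_lit 5) (nat_lit 5) (nat_lit 4) (nat_lit 407) (nat_lit 297) (nat_lit 196)) (XT.lf (nat_lit 0) (nat_lit 68839464787) (nat_lit 76) (nat_lit 76708871194) (nat_lit 76) (nat_lit 58703353163) (nat_lit 4) (nat_lit 4) (nat_lit 5) (nat_lit 5) (nat_lit 5) (nat_lit 4)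 (nat_lit 408) (nat_lit 297) (nat_lit 195))) (XT.nd (nat_lit 78) (nat_lit 0) (nat_lit 0) (XT.lf (nat_lit 0) (nat_lit 89268070515) (nat_lit 76) (nat_lit 71384743163) (nat_lit 76) (nat_lit 53373270104) (nat_lit 4) (nat_lit 4) (nat_lit 5) (nat_lit 5) (nat_lit 5) (nat_lit 4) (nat_lit 409) (nat_lit 297) (nat_lit 194)) (XT.nd (nat_lit 78) (nat_lit 0) (nat_lit 0) (XT.lf (nat_lit 0) (nat_lit 110707358357) (nat_lit 76) (nat_lit 65799630785) (nat_lit 76) (nat_lit 47782486272) (nat_lit 4) (nat_lit 4) (nat_lit 5) (nat_lit 5) (nat_lit 5) (nat_lit 4) (nat_lit 410) (nat_lit 297) (nat_lit 193)) (XT.lf (nat_lit 0) (nat_lit 133208374236) (nat_lit 76) (nat_lit 59940236175) (nat_lit 76) (nat_lit 41917690276) (nat_lit 4) (nat_lit 4) (nat_lit 5) (nat_lit 5) (nat_lit 5) (nat_lit 4) (nat_lit 411) (nat_lit 297) (nat_lit 192))))) (XT.nd (nat_lit 234) (nat_lit 0) (nat_lit 0) (XT.nd (nat_lit 78) (nat_lit 0) (nat_lit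 0) (XT.lf (nat_lit 0) (nat_lit 156824691999) (nat_lit 76) (nat_lit 53792608391) (nat_lit 76) (nat_lit 35764918317) (nat_lit 4) (nat_lit 4) (nat_lit 5) (nat_lit 5) (nat_lit 5) (nat_lit 4) (nat_lit 412) (nat_lit 297) (nat_lit 191)) (XT.nd (nat_lit 78) (nat_lit 0) (nat_lit 0) (XT.lf (nat_lit 0) (nat_lit 181612540975) (nat_lit 76) (nat_lit 47342110226) (nat_lit 76) (nat_lit 29309520936) (nat_lit 4) (nat_lit 4) (nat_lit 5) (nat_lit 5) (nat_lit 5) (nat_lit 4) (nat_lit 413) (nat_lit 297) (nat_lit 190)) (XT.lf (nat_lit 0) (nat_lit 207630939851) (nat_lit 76) (nat_lit 40573383351) (nat_lit 76) (nat_lit 22536128141) (nat_lit 4) (nat_lit 4) (nat_lit 5) (nat_lit 5) (nat_lit 5) (nat_lit 4) (nat_lit 414) (nat_lit 297) (nat_lit 189)))) (XT.nd (nat_lit 78) (nat_lit 0) (nat_lit 0) (XT.lf (nat_lit 0) (nat_lit 234941837197) (nat_lit 76) (nat_lit 33470311748) (nat_lit 76) (nat_lit 15428612806) (nat_lit 4) (nat_lit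 4) (nat_lit 5) (nat_lit 5) (nat_lit 5) (nat_lit 4) (nat_lit 415) (nat_lit 297) (nat_lit 188)) (XT.nd (nat_lit 78) (nat_lit 0) (nat_lit 0) (XT.lf (nat_lit 0) (nat_lit 263610258958) (nat_lit 76) (nat_lit 26015983343) (nat_lit 76) (nat_lit 7970052274) (nat_lit 4) (nat_lit 4) (nat_lit 5) (nat_lit 5) (nat_lit 5) (nat_lit 4) (nat_lit 416) (nat_lit 297) (nat_lit 187)) (XT.lf (nat_lit 0) (nat_lit 293704463281) (nat_lit 76) (nat_lit 18192649735) (nat_lit 76) (nat_lit 142688070) (nat_lit 4) (nat_lit 4) (nat_lit 5) (nat_lit 5) (nat_lit 5) (nat_lit 4) (nat_lit 417) (nat_lit 297) (nat_lit 186))))))) (XT.nd (nat_lit 858) (nat_lit 0) (nat_lit 0) (XT.nd (nat_lit 390) (nat_lit 0) (nat_lit 0) (XT.nd (nat_lit 156) (nat_lit 0) (nat_lit 0) (XT.nd (nat_lit 78) (nat_lit 76) (nat_lit 0) (XT.lf (nat_lit 0) (nat_lit 7813758253) (nat_lit 152) (nat_lit 2035595909) (nat_lit 76) (nat_lit 317350015003) (nat_lit 3) (nat_lit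 5) (nat_lit 5) (nat_lit 5) (nat_lit 4) (nat_lit 4) (nat_lit 418) (nat_lit 297) (nat_lit 185)) (XT.lf (nat_lit 0) (nat_lit 15568019080) (nat_lit 76) (nat_lit 834651787) (nat_lit 152) (nat_lit 326702156449) (nat_lit 2) (nat_lit 5) (nat_lit 3) (nat_lit 5) (nat_lit 4) (nat_lit 4) (nat_lit 419) (nat_lit 297) (nat_lit 184))) (XT.nd (nat_lit 78) (nat_lit 0) (nat_lit 0) (XT.lf (nat_lit 0) (nat_lit 25587209057) (nat_lit 152) (nat_lit 325823725138) (nat_lit 0) (nat_lit 8386315742) (nat_lit 2) (nat_lit 5) (nat_lit 4) (nat_lit 4) (nat_lit 2) (nat_lit 4) (nat_lit 420) (nat_lit 297) (nat_lit 183)) (XT.nd (nat_lit 78) (nat_lit 0) (nat_lit 0) (XT.lf (nat_lit 0) (nat_lit 35241219110) (nat_lit 152) (nat_lit 324045395146) (nat_lit 0) (nat_lit 18037167717) (nat_lit 2) (nat_lit 5) (nat_lit 4) (nat_lit 4) (nat_lit 2) (nat_lit 4) (nat_lit 421) (nat_lit 297) (nat_lit 182)) (XT.lf (nat_lit 0) (nat_lit 45374655511)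 (nat_lit 152) (nat_lit 322184552889) (nat_lit 0) (nat_lit 28167596425) (nat_lit 2) (nat_lit 5) (nat_lit 4) (nat_lit 4) (nat_lit 2) (nat_lit 4) (nat_lit 422) (nat_lit 297) (nat_lit 181))))) (XT.nd (nat_lit 234) (nat_lit 0) (nat_lit 0) (XT.nd (nat_lit 78) (nat_lit 0) (nat_lit 0) (XT.lf (nat_lit 0) (nat_lit 56011645490) (nat_lit 152) (nat_lit 320236767790) (nat_lit 0) (nat_lit 38801721934) (nat_lit 2) (nat_lit 5) (nat_lit 4) (nat_lit 4) (nat_lit 2) (nat_lit 4) (nat_lit 423) (nat_lit 297) (nat_lit 180)) (XT.nd (nat_lit 78) (nat_lit 0) (nat_lit 0) (XT.lf (nat_lit 0) (nat_lit 67177515214) (nat_lit 152) (nat_lit 318197402266) (nat_lit 0) (nat_lit 49964863591) (nat_lit 2) (nat_lit 5) (nat_lit 4) (nat_lit 4) (nat_lit 2) (nat_lit 4) (nat_lit 424) (nat_lit 297) (nat_lit 179)) (XT.lf (nat_lit 0) (nat_lit 78898850087) (nat_lit 152) (nat_lit 316061600683) (nat_lit 0) (nat_lit 61683600305) (nat_lit 2)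 (nat_lit 5) (nat_lit 4) (nat_lit 4) (nat_lit 2) (nat_lit 4) (nat_lit 425) (nat_lit 297) (nat_lit 178)))) (XT.nd (nat_lit 78) (nat_lit 0) (nat_lit 0) (XT.lf (nat_lit 0) (nat_lit 91203558048) (nat_lit 152) (nat_lit 313824277801) (nat_lit 0) (nat_lit 73985833830) (nat_lit 2) (nat_lit 5) (nat_lit 4) (nat_lit 4) (nat_lit 2) (nat_lit 4) (nat_lit 426) (nat_lit 297) (nat_lit 177)) (XT.nd (nat_lit 78) (nat_lit 0) (nat_lit 0) (XT.lf (nat_lit 0) (nat_lit 104120936022) (nat_lit 152) (nat_lit 311480106660) (nat_lit 0) (nat_lit 86900855197) (nat_lit 2) (nat_lit 5) (nat_lit 4) (nat_lit 4) (nat_lit 2) (nat_lit 4) (nat_lit 427) (nat_lit 297) (nat_lit 176)) (XT.lf (nat_lit 0) (nat_lit 117681739670) (nat_lit 152) (nat_lit 309023505901) (nat_lit 0) (nat_lit 100459414459) (nat_lit 2) (nat_lit 5) (nat_lit 4) (nat_lit 4) (nat_lit 2) (nat_lit 4) (nat_lit 428) (nat_lit 297) (nat_lit 175)))))) (XT.nd (nat_lit 37284)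 (nat_lit 0) (nat_lit 9728) (XT.nd (nat_lit 234) (nat_lit 0) (nat_lit 0) (XT.nd (nat_lit 78) (nat_lit 0) (nat_lit 0) (XT.lf (nat_lit 0) (nat_lit 131918256621) (nat_lit 152) (nat_lit 306448626473) (nat_lit 0) (nat_lit 114693793898) (nat_lit 2) (nat_lit 5) (nat_lit 4) (nat_lit 4) (nat_lit 2) (nat_lit 4) (nat_lit 429) (nat_lit 297) (nat_lit 174)) (XT.nd (nat_lit 78) (nat_lit 0) (nat_lit 0) (XT.lf (nat_lit 0) (nat_lit 146864383342) (nat_lit 152) (nat_lit 303749337711) (nat_lit 0) (nat_lit 129637884894) (nat_lit 2) (nat_lit 5) (nat_lit 4) (nat_lit 4) (nat_lit 2) (nat_lit 4) (nat_lit 430) (nat_lit 297) (nat_lit 173)) (XT.lf (nat_lit 0) (nat_lit 162555705851) (nat_lit 152) (nat_lit 300919212738) (nat_lit 0) (nat_lit 145327268617) (nat_lit 2) (nat_lit 5) (nat_lit 4) (nat_lit 4) (nat_lit 2) (nat_lit 4) (nat_lit 431) (nat_lit 297) (nat_lit 172)))) (XT.nd (nat_lit 36894) (nat_lit 0) (nat_lit 11324)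 (XT.lf (nat_lit 0) (nat_lit 179029584438) (nat_lit 152) (nat_lit 297951513161) (nat_lit 0) (nat_lit 161799300741) (nat_lit 2) (nat_lit 5) (nat_lit 4) (nat_lit 4) (nat_lit 2) (nat_lit 4) (nat_lit 432) (nat_lit 297) (nat_lit 171)) (XT.nd (nat_lit 78) (nat_lit 0) (nat_lit 0) (XT.lf (nat_lit 0) (nat_lit 68794594) (nat_lit 228) (nat_lit 3107351370) (nat_lit 0) (nat_lit 68794594) (nat_lit 151) (nat_lit 5) (nat_lit 154) (nat_lit 4) (nat_lit 151) (nat_lit 4) (nat_lit 304) (nat_lit 298) (nat_lit 298)) (XT.lf (nat_lit 0) (nat_lit 3193714764) (nat_lit 228) (nat_lit 2654575989) (nat_lit 0) (nat_lit 668159775) (nat_lit 151) (nat_lit 5) (nat_lit 154) (nat_lit 4) (nat_lit 151) (nat_lit 4) (nat_lit 305) (nat_lit 298) (nat_lit 297))))) (XT.nd (nat_lit 234) (nat_lit 988) (nat_lit 0) (XT.nd (nat_lit 78) (nat_lit 380) (nat_lit 0) (XT.lf (nat_lit 0) (nat_lit 993460541) (nat_lit 228) (nat_lit 5245169721) (nat_lit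 228) (nat_lit 314324265) (nat_lit 148) (nat_lit 4) (nat_lit 151) (nat_lit 5) (nat_lit 151) (nat_lit 4) (nat_lit 306) (nat_lit 298) (nat_lit 296)) (XT.nd (nat_lit 78) (nat_lit 304) (nat_lit 0) (XT.lf (nat_lit 0) (nat_lit 2623101498) (nat_lit 304) (nat_lit 1844240208) (nat_lit 76) (nat_lit 2128607314) (nat_lit 147) (nat_lit 5) (nat_lit 151) (nat_lit 5) (nat_lit 148) (nat_lit 4) (nat_lit 307) (nat_lit 298) (nat_lit 295)) (XT.lf (nat_lit 0) (nat_lit 1995377110) (nat_lit 304) (nat_lit 3564937401) (nat_lit 380) (nat_lit 1087697231) (nat_lit 143) (nat_lit 5) (nat_lit 147) (nat_lit 5) (nat_lit 148) (nat_lit 4) (nat_lit 308) (nat_lit 298) (nat_lit 294)))) (XT.nd (nat_lit 78) (nat_lit 912) (nat_lit 0) (XT.lf (nat_lit 0) (nat_lit 1746803300) (nat_lit 380) (nat_lit 764870762) (nat_lit 76) (nat_lit 4196443344) (nat_lit 142) (nat_lit 5) (nat_lit 147) (nat_lit 5) (nat_lit 143) (nat_lit 5) (nat_lit 309)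 (nat_lit 298) (nat_lit 293)) (XT.nd (nat_lit 78) (nat_lit 532) (nat_lit 0) (XT.lf (nat_lit 0) (nat_lit 3286613394) (nat_lit 380) (nat_lit 1294503019) (nat_lit 456) (nat_lit 2194790759) (nat_lit 137) (nat_lit 5) (nat_lit 142) (nat_lit 5) (nat_lit 143) (nat_lit 5) (nat_lit 310) (nat_lit 298) (nat_lit 292)) (XT.lf (nat_lit 0) (nat_lit 557003231) (nat_lit 532) (nat_lit 6246715857) (nat_lit 76) (nat_lit 49603821) (nat_lit 130) (nat_lit 5) (nat_lit 137) (nat_lit 5) (nat_lit 131) (nat_lit 5) (nat_lit 311) (nat_lit 298) (nat_lit 291))))))))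
noncomputable def xc94 : XT := (XT.nd (nat_lit 1716) (nat_lit 2128) (nat_lit 0) (XT.nd (nat_lit 858) (nat_lit 2052) (nat_lit 0) (XT.nd (nat_lit 390) (nat_lit 1976) (nat_lit 0) (XT.nd (nat_lit 156) (nat_lit 1368) (nat_lit 0) (XT.nd (nat_lit 78) (nat_lit 532) (nat_lit 0) (XT.lf (nat_lit 0) (nat_lit 3306037806) (nat_lit 532) (nat_lit 2089033516) (nat_lit 76) (nat_lit 1541329848) (nat_lit 130) (nat_lit 5) (nat_lit 137) (nat_lit 5) (nat_lit 131) (nat_lit 5) (nat_lit 312) (nat_lit 298) (nat_lit 290)) (XT.lf (nat_lit 0) (nat_lit 2226212521) (nat_lit 532) (nat_lit 3860237835) (nat_lit 608) (nat_lit 942735493) (nat_lit 123) (nat_lit 5) (nat_lit 130) (nat_lit 5) (nat_lit 131) (nat_lit 5) (nat_lit 313) (nat_lit 298) (nat_lit 289))) (XT.nd (nat_lit 78) (nat_lit 1292) (nat_lit 0) (XT.lf (nat_lit 0) (nat_lit 1716632873) (nat_lit 608) (nat_lit 449429921) (nat_lit 76) (nat_lit 4964430239) (nat_lit 122)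 (nat_lit 5) (nat_lit 130) (nat_lit 5) (nat_lit 123) (nat_lit 5) (nat_lit 314) (nat_lit 298) (nat_lit 288)) (XT.nd (nat_lit 78) (nat_lit 684) (nat_lit 0) (XT.lf (nat_lit 0) (nat_lit 4119700921) (nat_lit 608) (nat_lit 290048456) (nat_lit 684) (nat_lit 2829935311) (nat_lit 114) (nat_lit 5) (nat_lit 122) (nat_lit 5) (nat_lit 123) (nat_lit 5) (nat_lit 315) (nat_lit 298) (nat_lit 287)) (XT.lf (nat_lit 0) (nat_lit 1476519686) (nat_lit 684) (nat_lit 5690786067) (nat_lit 760) (nat_lit 190745675) (nat_lit 105) (nat_lit 5) (nat_lit 114) (nat_lit 5) (nat_lit 115) (nat_lit 5) (nat_lit 316) (nat_lit 298) (nat_lit 286))))) (XT.nd (nat_lit 234) (nat_lit 684) (nat_lit 0) (XT.nd (nat_lit 78) (nat_lit 1216) (nat_lit 0) (XT.lf (nat_lit 0) (nat_lit 2431001458) (nat_lit 760) (nat_lit 1240098220) (nat_lit 76) (nat_lit 3812748781) (nat_lit 104) (nat_lit 5) (nat_lit 114) (nat_lit 5) (nat_lit 105) (nat_lit 5) (nat_lit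 317) (nat_lit 298) (nat_lit 285)) (XT.nd (nat_lit 78) (nat_lit 456) (nat_lit 0) (XT.lf (nat_lit 0) (nat_lit 3626677948) (nat_lit 760) (nat_lit 1488063167) (nat_lit 836) (nat_lit 2504348933) (nat_lit 94) (nat_lit 5) (nat_lit 104) (nat_lit 5) (nat_lit 105) (nat_lit 5) (nat_lit 318) (nat_lit 298) (nat_lit 284)) (XT.lf (nat_lit 0) (nat_lit 97462110) (nat_lit 456) (nat_lit 6853747839) (nat_lit 76) (nat_lit 813341246) (nat_lit 88) (nat_lit 5) (nat_lit 94) (nat_lit 5) (nat_lit 89) (nat_lit 5) (nat_lit 319) (nat_lit 298) (nat_lit 283)))) (XT.nd (nat_lit 78) (nat_lit 684) (nat_lit 0) (XT.lf (nat_lit 0) (nat_lit 2724428484) (nat_lit 456) (nat_lit 1908253481) (nat_lit 76) (nat_lit 3283742075) (nat_lit 88) (nat_lit 5) (nat_lit 94) (nat_lit 5) (nat_lit 89) (nat_lit 5) (nat_lit 320) (nat_lit 298) (nat_lit 282)) (XT.nd (nat_lit 78) (nat_lit 380) (nat_lit 0) (XT.lf (nat_lit 0) (nat_lit 3269563885) (nat_lit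 304) (nat_lit 2155760628) (nat_lit 380) (nat_lit 2653582426) (nat_lit 84) (nat_lit 5) (nat_lit 88) (nat_lit 5) (nat_lit 89) (nat_lit 5) (nat_lit 321) (nat_lit 298) (nat_lit 281)) (XT.lf (nat_lit 0) (nat_lit 407314295) (nat_lit 380) (nat_lit 7794771678) (nat_lit 456) (nat_lit 50525530) (nat_lit 79) (nat_lit 5) (nat_lit 84) (nat_lit 5) (nat_lit 85) (nat_lit 5) (nat_lit 322) (nat_lit 298) (nat_lit 280)))))) (XT.nd (nat_lit 390) (nat_lit 1064) (nat_lit 0) (XT.nd (nat_lit 156) (nat_lit 608) (nat_lit 0) (XT.nd (nat_lit 78) (nat_lit 304) (nat_lit 0) (XT.lf (nat_lit 0) (nat_lit 2610937466) (nat_lit 456) (nat_lit 2582166458) (nat_lit 76) (nat_lit 3239223036) (nat_lit 78) (nat_lit 5) (nat_lit 84) (nat_lit 5) (nat_lit 79) (nat_lit 5) (nat_lit 323) (nat_lit 298) (nat_lit 279)) (XT.lf (nat_lit 0) (nat_lit 2918166518) (nat_lit 304) (nat_lit 2432114426) (nat_lit 380) (nat_lit 3273500250) (nat_lit 74)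 (nat_lit 5) (nat_lit 78) (nat_lit 5) (nat_lit 79) (nat_lit 5) (nat_lit 324) (nat_lit 298) (nat_lit 278))) (XT.nd (nat_lit 78) (nat_lit 608) (nat_lit 0) (XT.lf (nat_lit 0) (nat_lit 8181850191) (nat_lit 380) (nat_lit 168681849) (nat_lit 76) (nat_lit 476627157) (nat_lit 74) (nat_lit 5) (nat_lit 79) (nat_lit 5) (nat_lit 75) (nat_lit 5) (nat_lit 325) (nat_lit 298) (nat_lit 277)) (XT.nd (nat_lit 78) (nat_lit 228) (nat_lit 0) (XT.lf (nat_lit 0) (nat_lit 2083646336) (nat_lit 380) (nat_lit 3401295649) (nat_lit 76) (nat_lit 3552365750) (nat_lit 69) (nat_lit 5) (nat_lit 74) (nat_lit 5) (nat_lit 70) (nat_lit 5) (nat_lit 326) (nat_lit 298) (nat_lit 276)) (XT.lf (nat_lit 0) (nat_lit 2429422648) (nat_lit 228) (nat_lit 2447927885) (nat_lit 304) (nat_lit 4382683305) (nat_lit 66) (nat_lit 5) (nat_lit 69) (nat_lit 5) (nat_lit 70) (nat_lit 5) (nat_lit 327) (nat_lit 298) (nat_lit 275))))) (XT.nd (nat_lit 234)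 (nat_lit 456) (nat_lit 0) (XT.nd (nat_lit 78) (nat_lit 608) (nat_lit 0) (XT.lf (nat_lit 0) (nat_lit 7792129022) (nat_lit 304) (nat_lit 952664649) (nat_lit 76) (nat_lit 750126898) (nat_lit 66) (nat_lit 5) (nat_lit 70) (nat_lit 5) (nat_lit 67) (nat_lit 5) (nat_lit 328) (nat_lit 298) (nat_lit 274)) (XT.nd (nat_lit 78) (nat_lit 228) (nat_lit 0) (XT.lf (nat_lit 0) (nat_lit 1113394188) (nat_lit 380) (nat_lit 4524420695) (nat_lit 76) (nat_lit 4101061379) (nat_lit 61) (nat_lit 5) (nat_lit 66) (nat_lit 5) (nat_lit 62) (nat_lit 5) (nat_lit 329) (nat_lit 298) (nat_lit 273)) (XT.lf (nat_lit 0) (nat_lit 1638798995) (nat_lit 228) (nat_lit 2332703236) (nat_lit 304) (nat_lit 6024295886) (nat_lit 58) (nat_lit 5) (nat_lit 61) (nat_lit 5) (nat_lit 62) (nat_lit 5) (nat_lit 330) (nat_lit 298) (nat_lit 272)))) (XT.nd (nat_lit 78) (nat_lit 456) (nat_lit 0) (XT.lf (nat_lit 0) (nat_lit 6986254734) (nat_lit 304)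 (nat_lit 2129573917) (nat_lit 76) (nat_lit 1149127613) (nat_lit 58) (nat_lit 5) (nat_lit 62) (nat_lit 5) (nat_lit 59) (nat_lit 5) (nat_lit 331) (nat_lit 298) (nat_lit 271)) (XT.nd (nat_lit 78) (nat_lit 228) (nat_lit 0) (XT.lf (nat_lit 0) (nat_lit 4401300016) (nat_lit 228) (nat_lit 5779400186) (nat_lit 304) (nat_lit 365497825) (nat_lit 55) (nat_lit 5) (nat_lit 58) (nat_lit 5) (nat_lit 59) (nat_lit 5) (nat_lit 332) (nat_lit 298) (nat_lit 270)) (XT.lf (nat_lit 0) (nat_lit 350127031) (nat_lit 152) (nat_lit 2221858058) (nat_lit 228) (nat_lit 8269239707) (nat_lit 52) (nat_lit 5) (nat_lit 54) (nat_lit 5) (nat_lit 55) (nat_lit 5) (nat_lit 333) (nat_lit 298) (nat_lit 269))))))) (XT.nd (nat_lit 858) (nat_lit 836) (nat_lit 0) (XT.nd (nat_lit 390) (nat_lit 608) (nat_lit 0) (XT.nd (nat_lit 156) (nat_lit 456) (nat_lit 0) (XT.nd (nat_lit 78) (nat_lit 228) (nat_lit 0) (XT.lf (nat_lit 0) (nat_lit 5697598203)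 (nat_lit 228) (nat_lit 3906776378) (nat_lit 76) (nat_lit 1543715247) (nat_lit 52) (nat_lit 5) (nat_lit 55) (nat_lit 5) (nat_lit 53) (nat_lit 5) (nat_lit 334) (nat_lit 298) (nat_lit 268)) (XT.lf (nat_lit 0) (nat_lit 2957482304) (nat_lit 228) (nat_lit 6032356167) (nat_lit 304) (nat_lit 2480002765) (nat_lit 49) (nat_lit 5) (nat_lit 52) (nat_lit 5) (nat_lit 53) (nat_lit 5) (nat_lit 335) (nat_lit 298) (nat_lit 267))) (XT.nd (nat_lit 78) (nat_lit 380) (nat_lit 0) (XT.lf (nat_lit 0) (nat_lit 614132220) (nat_lit 304) (nat_lit 1623048454) (nat_lit 76) (nat_lit 9570276833) (nat_lit 48) (nat_lit 5) (nat_lit 52) (nat_lit 5) (nat_lit 49) (nat_lit 5) (nat_lit 336) (nat_lit 298) (nat_lit 266)) (XT.nd (nat_lit 78) (nat_lit 228) (nat_lit 0) (XT.lf (nat_lit 0) (nat_lit 3828402800) (nat_lit 228) (nat_lit 6540049033) (nat_lit 76) (nat_lit 1789083527) (nat_lit 46) (nat_lit 5) (nat_lit 49) (nat_lit 5) (nat_lit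 47) (nat_lit 5) (nat_lit 337) (nat_lit 298) (nat_lit 265)) (XT.lf (nat_lit 0) (nat_lit 631515546) (nat_lit 228) (nat_lit 6579207454) (nat_lit 304) (nat_lit 5314077033) (nat_lit 43) (nat_lit 5) (nat_lit 46) (nat_lit 5) (nat_lit 47) (nat_lit 5) (nat_lit 338) (nat_lit 298) (nat_lit 264))))) (XT.nd (nat_lit 234) (nat_lit 380) (nat_lit 0) (XT.nd (nat_lit 78) (nat_lit 228) (nat_lit 0) (XT.lf (nat_lit 0) (nat_lit 8286170268) (nat_lit 228) (nat_lit 2521207365) (nat_lit 304) (nat_lit 2100836749) (nat_lit 43) (nat_lit 5) (nat_lit 46) (nat_lit 5) (nat_lit 47) (nat_lit 5) (nat_lit 339) (nat_lit 298) (nat_lit 263)) (XT.nd (nat_lit 78) (nat_lit 0) (nat_lit 0) (XT.lf (nat_lit 0) (nat_lit 1243180912) (nat_lit 228) (nat_lit 10349637545) (nat_lit 76) (nat_lit 1716487077) (nat_lit 40) (nat_lit 5) (nat_lit 43) (nat_lit 5) (nat_lit 41) (nat_lit 5) (nat_lit 340) (nat_lit 298) (nat_lit 262)) (XT.lf (nat_lit 0)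 (nat_lit 4742127138) (nat_lit 228) (nat_lit 2823427982) (nat_lit 76) (nat_lit 6160298561) (nat_lit 40) (nat_lit 5) (nat_lit 43) (nat_lit 5) (nat_lit 41) (nat_lit 5) (nat_lit 341) (nat_lit 298) (nat_lit 261)))) (XT.nd (nat_lit 78) (nat_lit 228) (nat_lit 0) (XT.lf (nat_lit 0) (nat_lit 5147886318) (nat_lit 152) (nat_lit 3288924935) (nat_lit 228) (nat_lit 5725417420) (nat_lit 38) (nat_lit 5) (nat_lit 40) (nat_lit 5) (nat_lit 41) (nat_lit 5) (nat_lit 342) (nat_lit 298) (nat_lit 260)) (XT.nd (nat_lit 78) (nat_lit 228) (nat_lit 0) (XT.lf (nat_lit 0) (nat_lit 12324804391) (nat_lit 228) (nat_lit 1118590648) (nat_lit 76) (nat_lit 1176635745) (nat_lit 38) (nat_lit 5) (nat_lit 41) (nat_lit 5) (nat_lit 39) (nat_lit 4) (nat_lit 343) (nat_lit 298) (nat_lit 259)) (XT.lf (nat_lit 0) (nat_lit 1377699913) (nat_lit 228) (nat_lit 7859274432) (nat_lit 76) (nat_lit 5857110378) (nat_lit 35) (nat_lit 5) (nat_lit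 38) (nat_lit 5) (nat_lit 36) (nat_lit 5) (nat_lit 344) (nat_lit 298) (nat_lit 258)))))) (XT.nd (nat_lit 468) (nat_lit 380) (nat_lit 0) (XT.nd (nat_lit 234) (nat_lit 228) (nat_lit 0) (XT.nd (nat_lit 78) (nat_lit 76) (nat_lit 0) (XT.lf (nat_lit 0) (nat_lit 333993719) (nat_lit 152) (nat_lit 4791947766) (nat_lit 228) (nat_lit 10465610416) (nat_lit 33) (nat_lit 5) (nat_lit 35) (nat_lit 5) (nat_lit 36) (nat_lit 5) (nat_lit 345) (nat_lit 298) (nat_lit 257)) (XT.nd (nat_lit 78) (nat_lit 76) (nat_lit 0) (XT.lf (nat_lit 0) (nat_lit 9118693779) (nat_lit 152) (nat_lit 21565172) (nat_lit 228) (nat_lit 6969730829) (nat_lit 33) (nat_lit 5) (nat_lit 35) (nat_lit 5) (nat_lit 36) (nat_lit 5) (nat_lit 346) (nat_lit 298) (nat_lit 256)) (XT.lf (nat_lit 0) (nat_lit 1571896927) (nat_lit 76) (nat_lit 11833413831) (nat_lit 152) (nat_lit 3246566947) (nat_lit 32) (nat_lit 5) (nat_lit 33) (nat_lit 5) (nat_lit 34)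 (nat_lit 4) (nat_lit 347) (nat_lit 298) (nat_lit 255)))) (XT.nd (nat_lit 78) (nat_lit 152) (nat_lit 0) (XT.lf (nat_lit 0) (nat_lit 710111939) (nat_lit 152) (nat_lit 6510754258) (nat_lit 76) (nat_lit 9996074377) (nat_lit 31) (nat_lit 5) (nat_lit 33) (nat_lit 5) (nat_lit 32) (nat_lit 5) (nat_lit 348) (nat_lit 298) (nat_lit 254)) (XT.nd (nat_lit 78) (nat_lit 0) (nat_lit 0) (XT.lf (nat_lit 0) (nat_lit 2426474666) (nat_lit 152) (nat_lit 2317284052) (nat_lit 228) (nat_lit 13064449870) (nat_lit 29) (nat_lit 5) (nat_lit 31) (nat_lit 5) (nat_lit 32) (nat_lit 5) (nat_lit 349) (nat_lit 298) (nat_lit 253)) (XT.lf (nat_lit 0) (nat_lit 9086235593) (nat_lit 228) (nat_lit 6518375087) (nat_lit 76) (nat_lit 2819095857) (nat_lit 29) (nat_lit 5) (nat_lit 32) (nat_lit 5) (nat_lit 30) (nat_lit 4) (nat_lit 350) (nat_lit 298) (nat_lit 252))))) (XT.nd (nat_lit 234) (nat_lit 76) (nat_lit 0) (XT.nd (nat_lit 78) (nat_lit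 228) (nat_lit 0) (XT.lf (nat_lit 0) (nat_lit 2757037201) (nat_lit 76) (nat_lit 10923042071) (nat_lit 152) (nat_lit 5388210745) (nat_lit 28) (nat_lit 5) (nat_lit 29) (nat_lit 5) (nat_lit 30) (nat_lit 4) (nat_lit 351) (nat_lit 298) (nat_lit 251)) (XT.nd (nat_lit 78) (nat_lit 228) (nat_lit 0) (XT.lf (nat_lit 0) (nat_lit 12642467132) (nat_lit 76) (nat_lit 5925727671) (nat_lit 152) (nat_lit 1173700583) (nat_lit 28) (nat_lit 5) (nat_lit 29) (nat_lit 5) (nat_lit 30) (nat_lit 4) (nat_lit 352) (nat_lit 298) (nat_lit 250)) (XT.lf (nat_lit 0) (nat_lit 2525317230) (nat_lit 152) (nat_lit 617209811) (nat_lit 228) (nat_lit 17304382316) (nat_lit 25) (nat_lit 5) (nat_lit 27) (nat_lit 5) (nat_lit 28) (nat_lit 5) (nat_lit 353) (nat_lit 298) (nat_lit 249)))) (XT.nd (nat_lit 78) (nat_lit 76) (nat_lit 0) (XT.lf (nat_lit 0) (nat_lit 7790750854) (nat_lit 228) (nat_lit 8480139180) (nat_lit 76) (nat_lit 4907559243)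 (nat_lit 25) (nat_lit 5) (nat_lit 28) (nat_lit 5) (nat_lit 26) (nat_lit 4) (nat_lit 354) (nat_lit 298) (nat_lit 248)) (XT.nd (nat_lit 78) (nat_lit 0) (nat_lit 0) (XT.lf (nat_lit 0) (nat_lit 1393436065) (nat_lit 76) (nat_lit 11267953961) (nat_lit 152) (nat_lit 9285693810) (nat_lit 24) (nat_lit 5) (nat_lit 25) (nat_lit 5) (nat_lit 26) (nat_lit 4) (nat_lit 355) (nat_lit 298) (nat_lit 247)) (XT.lf (nat_lit 0) (nat_lit 11981871043) (nat_lit 76) (nat_lit 5896286364) (nat_lit 152) (nat_lit 4870879905) (nat_lit 24) (nat_lit 5) (nat_lit 25) (nat_lit 5) (nat_lit 26) (nat_lit 4) (nat_lit 356) (nat_lit 298) (nat_lit 246))))))))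
noncomputable def xc95 : XT := (XT.nd (nat_lit 1794) (nat_lit 456) (nat_lit 0) (XT.nd (nat_lit 858) (nat_lit 456) (nat_lit 0) (XT.nd (nat_lit 390) (nat_lit 228) (nat_lit 0) (XT.nd (nat_lit 156) (nat_lit 76) (nat_lit 0) (XT.nd (nat_lit 78) (nat_lit 228) (nat_lit 0) (XT.lf (nat_lit 0) (nat_lit 23029984613) (nat_lit 76) (nat_lit 286712817) (nat_lit 152) (nat_lit 276360509) (nat_lit 24) (nat_lit 5) (nat_lit 25) (nat_lit 5) (nat_lit 26) (nat_lit 4) (nat_lit 357) (nat_lit 298) (nat_lit 245)) (XT.lf (nat_lit 0) (nat_lit 4616815389) (nat_lit 228) (nat_lit 14216799066) (nat_lit 76) (nat_lit 5631405004) (nat_lit 21) (nat_lit 5) (nat_lit 24) (nat_lit 5) (nat_lit 22) (nat_lit 4) (nat_lit 358) (nat_lit 298) (nat_lit 244))) (XT.nd (nat_lit 78) (nat_lit 76) (nat_lit 0) (XT.lf (nat_lit 0) (nat_lit 9722225401) (nat_lit 228) (nat_lit 3837864121) (nat_lit 76) (nat_lit 11821433853) (nat_lit 21) (nat_lit 5)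 (nat_lit 24) (nat_lit 5) (nat_lit 22) (nat_lit 4) (nat_lit 359) (nat_lit 298) (nat_lit 243)) (XT.nd (nat_lit 78) (nat_lit 0) (nat_lit 0) (XT.lf (nat_lit 0) (nat_lit 7226548186) (nat_lit 76) (nat_lit 7933441908) (nat_lit 152) (nat_lit 11180021505) (nat_lit 20) (nat_lit 5) (nat_lit 21) (nat_lit 5) (nat_lit 22) (nat_lit 4) (nat_lit 360) (nat_lit 298) (nat_lit 242)) (XT.lf (nat_lit 0) (nat_lit 18913703610) (nat_lit 76) (nat_lit 1985900193) (nat_lit 152) (nat_lit 6445335077) (nat_lit 20) (nat_lit 5) (nat_lit 21) (nat_lit 5) (nat_lit 22) (nat_lit 4) (nat_lit 361) (nat_lit 298) (nat_lit 241))))) (XT.nd (nat_lit 234) (nat_lit 76) (nat_lit 0) (XT.nd (nat_lit 78) (nat_lit 76) (nat_lit 0) (XT.lf (nat_lit 0) (nat_lit 2744511438) (nat_lit 76) (nat_lit 24257238019) (nat_lit 76) (nat_lit 1394597588) (nat_lit 19) (nat_lit 4) (nat_lit 20) (nat_lit 5) (nat_lit 20) (nat_lit 4) (nat_lit 362) (nat_lit 298)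 (nat_lit 240)) (XT.nd (nat_lit 78) (nat_lit 0) (nat_lit 0) (XT.lf (nat_lit 0) (nat_lit 3927568218) (nat_lit 152) (nat_lit 14879414260) (nat_lit 76) (nat_lit 10683103153) (nat_lit 18) (nat_lit 5) (nat_lit 20) (nat_lit 5) (nat_lit 19) (nat_lit 4) (nat_lit 363) (nat_lit 298) (nat_lit 239)) (XT.lf (nat_lit 0) (nat_lit 9436888928) (nat_lit 152) (nat_lit 3650343639) (nat_lit 76) (nat_lit 17551750192) (nat_lit 18) (nat_lit 5) (nat_lit 20) (nat_lit 5) (nat_lit 19) (nat_lit 4) (nat_lit 364) (nat_lit 298) (nat_lit 238)))) (XT.nd (nat_lit 78) (nat_lit 0) (nat_lit 0) (XT.lf (nat_lit 0) (nat_lit 8351175482) (nat_lit 76) (nat_lit 6970327575) (nat_lit 152) (nat_lit 16518840258) (nat_lit 17) (nat_lit 5) (nat_lit 18) (nat_lit 5) (nat_lit 19) (nat_lit 4) (nat_lit 365) (nat_lit 298) (nat_lit 237)) (XT.nd (nat_lit 78) (nat_lit 0) (nat_lit 0) (XT.lf (nat_lit 0) (nat_lit 21024115430) (nat_lit 76) (nat_lit 508085322)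 (nat_lit 152) (nat_lit 11567987970) (nat_lit 17) (nat_lit 5) (nat_lit 18) (nat_lit 5) (nat_lit 19) (nat_lit 4) (nat_lit 366) (nat_lit 298) (nat_lit 236)) (XT.lf (nat_lit 0) (nat_lit 28122520672) (nat_lit 152) (nat_lit 244137207) (nat_lit 0) (nat_lit 6052923170) (nat_lit 17) (nat_lit 5) (nat_lit 19) (nat_lit 4) (nat_lit 17) (nat_lit 4) (nat_lit 367) (nat_lit 298) (nat_lit 235)))))) (XT.nd (nat_lit 468) (nat_lit 228) (nat_lit 0) (XT.nd (nat_lit 234) (nat_lit 0) (nat_lit 0) (XT.nd (nat_lit 78) (nat_lit 152) (nat_lit 0) (XT.lf (nat_lit 0) (nat_lit 12520557278) (nat_lit 76) (nat_lit 22698068209) (nat_lit 76) (nat_lit 577512646) (nat_lit 16) (nat_lit 4) (nat_lit 17) (nat_lit 5) (nat_lit 17) (nat_lit 4) (nat_lit 368) (nat_lit 298) (nat_lit 234)) (XT.nd (nat_lit 78) (nat_lit 76) (nat_lit 0) (XT.lf (nat_lit 0) (nat_lit 5231016679) (nat_lit 152) (nat_lit 11445502857) (nat_lit 76) (nat_lit 20561937274)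 (nat_lit 15) (nat_lit 5) (nat_lit 17) (nat_lit 5) (nat_lit 16) (nat_lit 4) (nat_lit 369) (nat_lit 298) (nat_lit 233)) (XT.lf (nat_lit 0) (nat_lit 948065516) (nat_lit 76) (nat_lit 10351140840) (nat_lit 152) (nat_lit 27453787007) (nat_lit 14) (nat_lit 5) (nat_lit 15) (nat_lit 5) (nat_lit 16) (nat_lit 4) (nat_lit 370) (nat_lit 298) (nat_lit 232)))) (XT.nd (nat_lit 78) (nat_lit 0) (nat_lit 0) (XT.lf (nat_lit 0) (nat_lit 14310572752) (nat_lit 76) (nat_lit 3528402739) (nat_lit 152) (nat_lit 22495879818) (nat_lit 14) (nat_lit 5) (nat_lit 15) (nat_lit 5) (nat_lit 16) (nat_lit 4) (nat_lit 371) (nat_lit 298) (nat_lit 231)) (XT.nd (nat_lit 78) (nat_lit 0) (nat_lit 0) (XT.lf (nat_lit 0) (nat_lit 24737716374) (nat_lit 152) (nat_lit 13758071195) (nat_lit 0) (nat_lit 3498430346) (nat_lit 14) (nat_lit 5) (nat_lit 16) (nat_lit 4) (nat_lit 14) (nat_lit 4) (nat_lit 372) (nat_lit 298) (nat_lit 230)) (XT.lf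 (nat_lit 0) (nat_lit 32015640187) (nat_lit 152) (nat_lit 980874109) (nat_lit 0) (nat_lit 10738328469) (nat_lit 14) (nat_lit 5) (nat_lit 16) (nat_lit 4) (nat_lit 14) (nat_lit 4) (nat_lit 373) (nat_lit 298) (nat_lit 229))))) (XT.nd (nat_lit 234) (nat_lit 76) (nat_lit 0) (XT.nd (nat_lit 78) (nat_lit 76) (nat_lit 0) (XT.lf (nat_lit 0) (nat_lit 12802581415) (nat_lit 76) (nat_lit 27032289827) (nat_lit 76) (nat_lit 5718763165) (nat_lit 13) (nat_lit 4) (nat_lit 14) (nat_lit 5) (nat_lit 14) (nat_lit 4) (nat_lit 374) (nat_lit 298) (nat_lit 228)) (XT.nd (nat_lit 78) (nat_lit 0) (nat_lit 0) (XT.lf (nat_lit 0) (nat_lit 557543250) (nat_lit 152) (nat_lit 20205053420) (nat_lit 76) (nat_lit 26700597248) (nat_lit 12) (nat_lit 5) (nat_lit 14) (nat_lit 5) (nat_lit 13) (nat_lit 4) (nat_lit 375) (nat_lit 298) (nat_lit 227)) (XT.lf (nat_lit 0) (nat_lit 6934123815) (nat_lit 152) (nat_lit 7165911282) (nat_lit 76)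 (nat_lit 35364581730) (nat_lit 12) (nat_lit 5) (nat_lit 14) (nat_lit 5) (nat_lit 13) (nat_lit 4) (nat_lit 376) (nat_lit 298) (nat_lit 226)))) (XT.nd (nat_lit 78) (nat_lit 0) (nat_lit 0) (XT.lf (nat_lit 0) (nat_lit 6701184676) (nat_lit 76) (nat_lit 7012636597) (nat_lit 152) (nat_lit 37848080236) (nat_lit 11) (nat_lit 5) (nat_lit 12) (nat_lit 5) (nat_lit 13) (nat_lit 4) (nat_lit 377) (nat_lit 298) (nat_lit 225)) (XT.nd (nat_lit 78) (nat_lit 0) (nat_lit 0) (XT.lf (nat_lit 0) (nat_lit 20942312544) (nat_lit 152) (nat_lit 32294837823) (nat_lit 0) (nat_lit 521414393) (nat_lit 11) (nat_lit 5) (nat_lit 13) (nat_lit 4) (nat_lit 11) (nat_lit 4) (nat_lit 378) (nat_lit 298) (nat_lit 224)) (XT.lf (nat_lit 0) (nat_lit 28627914714) (nat_lit 152) (nat_lit 19252374280) (nat_lit 0) (nat_lit 8179992415) (nat_lit 11) (nat_lit 5) (nat_lit 13) (nat_lit 4) (nat_lit 11) (nat_lit 4) (nat_lit 379) (nat_lit 298) (nat_lit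 223))))))) (XT.nd (nat_lit 858) (nat_lit 228) (nat_lit 0) (XT.nd (nat_lit 390) (nat_lit 76) (nat_lit 0) (XT.nd (nat_lit 156) (nat_lit 76) (nat_lit 0) (XT.nd (nat_lit 78) (nat_lit 76) (nat_lit 0) (XT.lf (nat_lit 0) (nat_lit 36679439928) (nat_lit 152) (nat_lit 5592785809) (nat_lit 0) (nat_lit 16205780345) (nat_lit 11) (nat_lit 5) (nat_lit 13) (nat_lit 4) (nat_lit 11) (nat_lit 4) (nat_lit 380) (nat_lit 298) (nat_lit 222)) (XT.lf (nat_lit 0) (nat_lit 9004655634) (nat_lit 76) (nat_lit 36251990759) (nat_lit 76) (nat_lit 15753819476) (nat_lit 10) (nat_lit 4) (nat_lit 11) (nat_lit 5) (nat_lit 11) (nat_lit 4) (nat_lit 381) (nat_lit 298) (nat_lit 221))) (XT.nd (nat_lit 78) (nat_lit 76) (nat_lit 0) (XT.lf (nat_lit 0) (nat_lit 24493343986) (nat_lit 76) (nat_lit 29846923322) (nat_lit 76) (nat_lit 9325407564) (nat_lit 10) (nat_lit 4) (nat_lit 11) (nat_lit 5) (nat_lit 11) (nat_lit 4) (nat_lit 382) (nat_lit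 298) (nat_lit 220)) (XT.nd (nat_lit 78) (nat_lit 76) (nat_lit 0) (XT.lf (nat_lit 0) (nat_lit 40725234319) (nat_lit 76) (nat_lit 23136489801) (nat_lit 76) (nat_lit 2592741210) (nat_lit 10) (nat_lit 4) (nat_lit 11) (nat_lit 5) (nat_lit 11) (nat_lit 4) (nat_lit 383) (nat_lit 298) (nat_lit 219)) (XT.lf (nat_lit 0) (nat_lit 4317455178) (nat_lit 152) (nat_lit 11714139602) (nat_lit 76) (nat_lit 53348400619) (nat_lit 9) (nat_lit 5) (nat_lit 11) (nat_lit 5) (nat_lit 10) (nat_lit 4) (nat_lit 384) (nat_lit 298) (nat_lit 218))))) (XT.nd (nat_lit 234) (nat_lit 0) (nat_lit 0) (XT.nd (nat_lit 78) (nat_lit 0) (nat_lit 0) (XT.lf (nat_lit 0) (nat_lit 3027263438) (nat_lit 76) (nat_lit 8490957045) (nat_lit 152) (nat_lit 60929849917) (nat_lit 8) (nat_lit 5) (nat_lit 9) (nat_lit 5) (nat_lit 10) (nat_lit 4) (nat_lit 385) (nat_lit 298) (nat_lit 217)) (XT.nd (nat_lit 78) (nat_lit 0) (nat_lit 0) (XT.lf (nat_lit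 0) (nat_lit 18884059791) (nat_lit 76) (nat_lit 378551868) (nat_lit 152) (nat_lit 56397761195) (nat_lit 8) (nat_lit 5) (nat_lit 9) (nat_lit 5) (nat_lit 10) (nat_lit 4) (nat_lit 386) (nat_lit 298) (nat_lit 216)) (XT.lf (nat_lit 0) (nat_lit 27507008238) (nat_lit 152) (nat_lit 43654194853) (nat_lit 0) (nat_lit 7866450982) (nat_lit 8) (nat_lit 5) (nat_lit 10) (nat_lit 4) (nat_lit 8) (nat_lit 4) (nat_lit 387) (nat_lit 298) (nat_lit 215)))) (XT.nd (nat_lit 78) (nat_lit 0) (nat_lit 0) (XT.lf (nat_lit 0) (nat_lit 36156216939) (nat_lit 152) (nat_lit 29908386394) (nat_lit 0) (nat_lit 16499069200) (nat_lit 8) (nat_lit 5) (nat_lit 10) (nat_lit 4) (nat_lit 8) (nat_lit 4) (nat_lit 388) (nat_lit 298) (nat_lit 214)) (XT.nd (nat_lit 78) (nat_lit 0) (nat_lit 0) (XT.lf (nat_lit 0) (nat_lit 45224920861) (nat_lit 152) (nat_lit 15500249318) (nat_lit 0) (nat_lit 25551972662) (nat_lit 8) (nat_lit 5) (nat_lit 10)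 (nat_lit 4) (nat_lit 8) (nat_lit 4) (nat_lit 389) (nat_lit 298) (nat_lit 213)) (XT.lf (nat_lit 0) (nat_lit 54734712155) (nat_lit 152) (nat_lit 395478536) (nat_lit 0) (nat_lit 35046715900) (nat_lit 8) (nat_lit 5) (nat_lit 10) (nat_lit 4) (nat_lit 8) (nat_lit 4) (nat_lit 390) (nat_lit 298) (nat_lit 212)))))) (XT.nd (nat_lit 468) (nat_lit 76) (nat_lit 0) (XT.nd (nat_lit 234) (nat_lit 76) (nat_lit 0) (XT.nd (nat_lit 78) (nat_lit 0) (nat_lit 0) (XT.lf (nat_lit 0) (nat_lit 15952468302) (nat_lit 76) (nat_lit 49004827617) (nat_lit 76) (nat_lit 29302499878) (nat_lit 7) (nat_lit 4) (nat_lit 8) (nat_lit 5) (nat_lit 8) (nat_lit 4) (nat_lit 391) (nat_lit 298) (nat_lit 211)) (XT.nd (nat_lit 78) (nat_lit 0) (nat_lit 0) (XT.lf (nat_lit 0) (nat_lit 33109266692) (nat_lit 76) (nat_lit 42576892172) (nat_lit 76) (nat_lit 22860915402) (nat_lit 7) (nat_lit 4) (nat_lit 8) (nat_lit 5) (nat_lit 8) (nat_lit 4) (nat_lit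 392) (nat_lit 298) (nat_lit 210)) (XT.lf (nat_lit 0) (nat_lit 51102689844) (nat_lit 76) (nat_lit 35837777368) (nat_lit 76) (nat_lit 16108801521) (nat_lit 7) (nat_lit 4) (nat_lit 8) (nat_lit 5) (nat_lit 8) (nat_lit 4) (nat_lit 393) (nat_lit 298) (nat_lit 209)))) (XT.nd (nat_lit 78) (nat_lit 76) (nat_lit 0) (XT.lf (nat_lit 0) (nat_lit 69975579243) (nat_lit 76) (nat_lit 28771437695) (nat_lit 76) (nat_lit 9030081774) (nat_lit 7) (nat_lit 4) (nat_lit 8) (nat_lit 5) (nat_lit 8) (nat_lit 4) (nat_lit 394) (nat_lit 298) (nat_lit 208)) (XT.nd (nat_lit 78) (nat_lit 76) (nat_lit 0) (XT.lf (nat_lit 0) (nat_lit 89772870341) (nat_lit 76) (nat_lit 21361048534) (nat_lit 76) (nat_lit 1607902067) (nat_lit 7) (nat_lit 4) (nat_lit 8) (nat_lit 5) (nat_lit 8) (nat_lit 4) (nat_lit 395) (nat_lit 298) (nat_lit 207)) (XT.lf (nat_lit 0) (nat_lit 5977757788) (nat_lit 152) (nat_lit 7509972093) (nat_lit 76) (nat_lit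 104462705535) (nat_lit 6) (nat_lit 5) (nat_lit 8) (nat_lit 5) (nat_lit 7) (nat_lit 4) (nat_lit 396) (nat_lit 298) (nat_lit 206))))) (XT.nd (nat_lit 234) (nat_lit 0) (nat_lit 0) (XT.nd (nat_lit 78) (nat_lit 0) (nat_lit 0) (XT.lf (nat_lit 0) (nat_lit 8964765158) (nat_lit 76) (nat_lit 5054666593) (nat_lit 152) (nat_lit 109392194267) (nat_lit 5) (nat_lit 5) (nat_lit 6) (nat_lit 5) (nat_lit 7) (nat_lit 4) (nat_lit 397) (nat_lit 298) (nat_lit 205)) (XT.nd (nat_lit 78) (nat_lit 0) (nat_lit 0) (XT.lf (nat_lit 0) (nat_lit 22642624326) (nat_lit 152) (nat_lit 102694757434) (nat_lit 0) (nat_lit 3799524279) (nat_lit 5) (nat_lit 5) (nat_lit 7) (nat_lit 4) (nat_lit 5) (nat_lit 4) (nat_lit 398) (nat_lit 298) (nat_lit 204)) (XT.lf (nat_lit 0) (nat_lit 31771111797) (nat_lit 152) (nat_lit 90454859511) (nat_lit 0) (nat_lit 12918773548) (nat_lit 5) (nat_lit 5) (nat_lit 7) (nat_lit 4) (nat_lit 5) (nat_lit 4)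 (nat_lit 399) (nat_lit 298) (nat_lit 203)))) (XT.nd (nat_lit 78) (nat_lit 0) (nat_lit 0) (XT.lf (nat_lit 0) (nat_lit 41347711145) (nat_lit 152) (nat_lit 77619106964) (nat_lit 0) (nat_lit 22486574609) (nat_lit 5) (nat_lit 5) (nat_lit 7) (nat_lit 4) (nat_lit 5) (nat_lit 4) (nat_lit 400) (nat_lit 298) (nat_lit 202)) (XT.nd (nat_lit 78) (nat_lit 0) (nat_lit 0) (XT.lf (nat_lit 0) (nat_lit 51395223799) (nat_lit 152) (nat_lit 64156938479) (nat_lit 0) (nat_lit 32525707942) (nat_lit 5) (nat_lit 5) (nat_lit 7) (nat_lit 4) (nat_lit 5) (nat_lit 4) (nat_lit 401) (nat_lit 298) (nat_lit 201)) (XT.lf (nat_lit 0) (nat_lit 61937572408) (nat_lit 152) (nat_lit 50036301274) (nat_lit 0) (nat_lit 43060076245) (nat_lit 5) (nat_lit 5) (nat_lit 7) (nat_lit 4) (nat_lit 5) (nat_lit 4) (nat_lit 402) (nat_lit 298) (nat_lit 200))))))))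
noncomputable def xc96 : XT := (XT.nd (nat_lit 1716) (nat_lit 0) (nat_lit 0) (XT.nd (nat_lit 858) (nat_lit 152) (nat_lit 0) (XT.nd (nat_lit 390) (nat_lit 0) (nat_lit 0) (XT.nd (nat_lit 156) (nat_lit 76) (nat_lit 0) (XT.nd (nat_lit 78) (nat_lit 0) (nat_lit 0) (XT.lf (nat_lit 0) (nat_lit 72999857801) (nat_lit 152) (nat_lit 35223574783) (nat_lit 0) (nat_lit 54114761346) (nat_lit 5) (nat_lit 5) (nat_lit 7) (nat_lit 4) (nat_lit 5) (nat_lit 4) (nat_lit 403) (nat_lit 298) (nat_lit 199)) (XT.lf (nat_lit 0) (nat_lit 84608418753) (nat_lit 152) (nat_lit 19683490611) (nat_lit 0) (nat_lit 65716083926) (nat_lit 5) (nat_lit 5) (nat_lit 7) (nat_lit 4) (nat_lit 5) (nat_lit 4) (nat_lit 404) (nat_lit 298) (nat_lit 198))) (XT.nd (nat_lit 78) (nat_lit 76) (nat_lit 0) (XT.lf (nat_lit 0) (nat_lit 96790894696) (nat_lit 152) (nat_lit 3379048556) (nat_lit 0) (nat_lit 77891666180) (nat_lit 5) (nat_lit 5) (nat_lit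 7) (nat_lit 4) (nat_lit 5) (nat_lit 4) (nat_lit 405) (nat_lit 298) (nat_lit 197)) (XT.nd (nat_lit 78) (nat_lit 0) (nat_lit 0) (XT.lf (nat_lit 0) (nat_lit 14182500053) (nat_lit 76) (nat_lit 95615220042) (nat_lit 76) (nat_lit 76709426109) (nat_lit 4) (nat_lit 4) (nat_lit 5) (nat_lit 5) (nat_lit 5) (nat_lit 4) (nat_lit 406) (nat_lit 298) (nat_lit 196)) (XT.lf (nat_lit 0) (nat_lit 32727589169) (nat_lit 76) (nat_lit 90778430874) (nat_lit 76) (nat_lit 71866384162) (nat_lit 4) (nat_lit 4) (nat_lit 5) (nat_lit 5) (nat_lit 5) (nat_lit 4) (nat_lit 407) (nat_lit 298) (nat_lit 195))))) (XT.nd (nat_lit 234) (nat_lit 0) (nat_lit 0) (XT.nd (nat_lit 78) (nat_lit 0) (nat_lit 0) (XT.lf (nat_lit 0) (nat_lit 52188647159) (nat_lit 76) (nat_lit 85705285405) (nat_lit 76) (nat_lit 66787283666) (nat_lit 4) (nat_lit 4) (nat_lit 5) (nat_lit 5) (nat_lit 5) (nat_lit 4) (nat_lit 408) (nat_lit 298) (nat_lit 194)) (XT.nd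 (nat_lit 78) (nat_lit 0) (nat_lit 0) (XT.lf (nat_lit 0) (nat_lit 72612009876) (nat_lit 76) (nat_lit 80383704718) (nat_lit 76) (nat_lit 61460031525) (nat_lit 4) (nat_lit 4) (nat_lit 5) (nat_lit 5) (nat_lit 5) (nat_lit 4) (nat_lit 409) (nat_lit 298) (nat_lit 193)) (XT.lf (nat_lit 0) (nat_lit 94046304374) (nat_lit 76) (nat_lit 74801018382) (nat_lit 76) (nat_lit 55871943804) (nat_lit 4) (nat_lit 4) (nat_lit 5) (nat_lit 5) (nat_lit 5) (nat_lit 4) (nat_lit 410) (nat_lit 298) (nat_lit 192)))) (XT.nd (nat_lit 78) (nat_lit 0) (nat_lit 0) (XT.lf (nat_lit 0) (nat_lit 116542564687) (nat_lit 76) (nat_lit 68943934287) (nat_lit 76) (nat_lit 50009715533) (nat_lit 4) (nat_lit 4) (nat_lit 5) (nat_lit 5) (nat_lit 5) (nat_lit 4) (nat_lit 411) (nat_lit 298) (nat_lit 191)) (XT.nd (nat_lit 78) (nat_lit 0) (nat_lit 0) (XT.lf (nat_lit 0) (nat_lit 140154353340) (nat_lit 76) (nat_lit 62798506995) (nat_lit 76) (nat_lit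 43859389025) (nat_lit 4) (nat_lit 4) (nat_lit 5) (nat_lit 5) (nat_lit 5) (nat_lit 4) (nat_lit 412) (nat_lit 298) (nat_lit 190)) (XT.lf (nat_lit 0) (nat_lit 164937888878) (nat_lit 76) (nat_lit 56350104537) (nat_lit 76) (nat_lit 37406320647) (nat_lit 4) (nat_lit 4) (nat_lit 5) (nat_lit 5) (nat_lit 5) (nat_lit 4) (nat_lit 413) (nat_lit 298) (nat_lit 189)))))) (XT.nd (nat_lit 390) (nat_lit 152) (nat_lit 0) (XT.nd (nat_lit 156) (nat_lit 0) (nat_lit 0) (XT.nd (nat_lit 78) (nat_lit 0) (nat_lit 0) (XT.lf (nat_lit 0) (nat_lit 190952179718) (nat_lit 76) (nat_lit 49583373572) (nat_lit 76) (nat_lit 30635145949) (nat_lit 4) (nat_lit 4) (nat_lit 5) (nat_lit 5) (nat_lit 5) (nat_lit 4) (nat_lit 414) (nat_lit 298) (nat_lit 188)) (XT.lf (nat_lit 0) (nat_lit 218259164648) (nat_lit 76) (nat_lit 42482202836) (nat_lit 76) (nat_lit 23529743087) (nat_lit 4) (nat_lit 4) (nat_lit 5) (nat_lit 5) (nat_lit 5) (nat_lit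 4) (nat_lit 415) (nat_lit 298) (nat_lit 187))) (XT.nd (nat_lit 78) (nat_lit 0) (nat_lit 0) (XT.lf (nat_lit 0) (nat_lit 246923860298) (nat_lit 76) (nat_lit 35029684781) (nat_lit 76) (nat_lit 16073194435) (nat_lit 4) (nat_lit 4) (nat_lit 5) (nat_lit 5) (nat_lit 5) (nat_lit 4) (nat_lit 416) (nat_lit 298) (nat_lit 186)) (XT.nd (nat_lit 78) (nat_lit 0) (nat_lit 0) (XT.lf (nat_lit 0) (nat_lit 277014515945) (nat_lit 76) (nat_lit 27208075316) (nat_lit 76) (nat_lit 8247746307) (nat_lit 4) (nat_lit 4) (nat_lit 5) (nat_lit 5) (nat_lit 5) (nat_lit 4) (nat_lit 417) (nat_lit 298) (nat_lit 185)) (XT.lf (nat_lit 0) (nat_lit 308602776006) (nat_lit 76) (nat_lit 18998751561) (nat_lit 76) (nat_lit 34766681) (nat_lit 4) (nat_lit 4) (nat_lit 5) (nat_lit 5) (nat_lit 5) (nat_lit 4) (nat_lit 418) (nat_lit 298) (nat_lit 184))))) (XT.nd (nat_lit 234) (nat_lit 0) (nat_lit 0) (XT.nd (nat_lit 78) (nat_lit 76) (nat_lit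 0) (XT.lf (nat_lit 0) (nat_lit 8310515964) (nat_lit 152) (nat_lit 1930908933) (nat_lit 76) (nat_lit 333312592051) (nat_lit 3) (nat_lit 5) (nat_lit 5) (nat_lit 5) (nat_lit 4) (nat_lit 4) (nat_lit 419) (nat_lit 298) (nat_lit 183)) (XT.nd (nat_lit 78) (nat_lit 0) (nat_lit 0) (XT.lf (nat_lit 0) (nat_lit 16549556696) (nat_lit 76) (nat_lit 777438102) (nat_lit 152) (nat_lit 342927847998) (nat_lit 2) (nat_lit 5) (nat_lit 3) (nat_lit 5) (nat_lit 4) (nat_lit 4) (nat_lit 420) (nat_lit 298) (nat_lit 182)) (XT.lf (nat_lit 0) (nat_lit 26967269716) (nat_lit 152) (nat_lit 341917942138) (nat_lit 0) (nat_lit 8896849982) (nat_lit 2) (nat_lit 5) (nat_lit 4) (nat_lit 4) (nat_lit 2) (nat_lit 4) (nat_lit 421) (nat_lit 298) (nat_lit 181)))) (XT.nd (nat_lit 78) (nat_lit 0) (nat_lit 0) (XT.lf (nat_lit 0) (nat_lit 37099185024) (nat_lit 152) (nat_lit 340060075135) (nat_lit 0) (nat_lit 19025900820) (nat_lit 2) (nat_lit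 5) (nat_lit 4) (nat_lit 4) (nat_lit 2) (nat_lit 4) (nat_lit 422) (nat_lit 298) (nat_lit 180)) (XT.nd (nat_lit 78) (nat_lit 0) (nat_lit 0) (XT.lf (nat_lit 0) (nat_lit 47734726342) (nat_lit 152) (nat_lit 338115123612) (nat_lit 0) (nat_lit 29658714072) (nat_lit 2) (nat_lit 5) (nat_lit 4) (nat_lit 4) (nat_lit 2) (nat_lit 4) (nat_lit 423) (nat_lit 298) (nat_lit 179)) (XT.lf (nat_lit 0) (nat_lit 58899216389) (nat_lit 152) (nat_lit 336078456730) (nat_lit 0) (nat_lit 40820605960) (nat_lit 2) (nat_lit 5) (nat_lit 4) (nat_lit 4) (nat_lit 2) (nat_lit 4) (nat_lit 424) (nat_lit 298) (nat_lit 178))))))) (XT.nd (nat_lit 37518) (nat_lit 0) (nat_lit 7752) (XT.nd (nat_lit 390) (nat_lit 0) (nat_lit 0) (XT.nd (nat_lit 156) (nat_lit 0) (nat_lit 0) (XT.nd (nat_lit 78) (nat_lit 0) (nat_lit 0) (XT.lf (nat_lit 0) (nat_lit 70619237284) (nat_lit 152) (nat_lit 333945225284) (nat_lit 0) (nat_lit 52538152418) (nat_lit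 2) (nat_lit 5) (nat_lit 4) (nat_lit 4) (nat_lit 2) (nat_lit 4) (nat_lit 425) (nat_lit 298) (nat_lit 177)) (XT.lf (nat_lit 0) (nat_lit 82922693837) (nat_lit 152) (nat_lit 331710350151) (nat_lit 0) (nat_lit 64839252365) (nat_lit 2) (nat_lit 5) (nat_lit 4) (nat_lit 4) (nat_lit 2) (nat_lit 4) (nat_lit 426) (nat_lit 298) (nat_lit 176))) (XT.nd (nat_lit 78) (nat_lit 0) (nat_lit 0) (XT.lf (nat_lit 0) (nat_lit 95838879995) (nat_lit 152) (nat_lit 329368510199) (nat_lit 0) (nat_lit 77753194135) (nat_lit 2) (nat_lit 5) (nat_lit 4) (nat_lit 4) (nat_lit 2) (nat_lit 4) (nat_lit 427) (nat_lit 298) (nat_lit 175)) (XT.nd (nat_lit 78) (nat_lit 0) (nat_lit 0) (XT.lf (nat_lit 0) (nat_lit 109398548579) (nat_lit 152) (nat_lit 326914129620) (nat_lit 0) (nat_lit 91310725209) (nat_lit 2) (nat_lit 5) (nat_lit 4) (nat_lit 4) (nat_lit 2) (nat_lit 4) (nat_lit 428) (nat_lit 298) (nat_lit 174)) (XT.lf (nat_lit 0) (nat_lit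 123633984517) (nat_lit 152) (nat_lit 324341364650) (nat_lit 0) (nat_lit 105544125421) (nat_lit 2) (nat_lit 5) (nat_lit 4) (nat_lit 4) (nat_lit 2) (nat_lit 4) (nat_lit 429) (nat_lit 298) (nat_lit 173))))) (XT.nd (nat_lit 36894) (nat_lit 0) (nat_lit 11324) (XT.nd (nat_lit 78) (nat_lit 0) (nat_lit 0) (XT.lf (nat_lit 0) (nat_lit 138579081702) (nat_lit 152) (nat_lit 321644089657) (nat_lit 0) (nat_lit 120487283820) (nat_lit 2) (nat_lit 5) (nat_lit 4) (nat_lit 4) (nat_lit 2) (nat_lit 4) (nat_lit 430) (nat_lit 298) (nat_lit 172)) (XT.nd (nat_lit 78) (nat_lit 0) (nat_lit 0) (XT.lf (nat_lit 0) (nat_lit 154269423701) (nat_lit 152) (nat_lit 318815882560) (nat_lit 0) (nat_lit 136175779356) (nat_lit 2) (nat_lit 5) (nat_lit 4) (nat_lit 4) (nat_lit 2) (nat_lit 4) (nat_lit 431) (nat_lit 298) (nat_lit 171)) (XT.lf (nat_lit 0) (nat_lit 170742368468) (nat_lit 152) (nat_lit 315850009530) (nat_lit 0) (nat_lit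 152646965588) (nat_lit 2) (nat_lit 5) (nat_lit 4) (nat_lit 4) (nat_lit 2) (nat_lit 4) (nat_lit 432) (nat_lit 298) (nat_lit 170)))) (XT.nd (nat_lit 78) (nat_lit 304) (nat_lit 0) (XT.lf (nat_lit 0) (nat_lit 1586497110) (nat_lit 76) (nat_lit 53510412) (nat_lit 0) (nat_lit 1586497110) (nat_lit 155) (nat_lit 5) (nat_lit 156) (nat_lit 0) (nat_lit 155) (nat_lit 4) (nat_lit 302) (nat_lit 299) (nat_lit 299)) (XT.nd (nat_lit 78) (nat_lit 228) (nat_lit 0) (XT.lf (nat_lit 0) (nat_lit 3268073294) (nat_lit 76) (nat_lit 2992593715) (nat_lit 76) (nat_lit 208169338) (nat_lit 154) (nat_lit 4) (nat_lit 155) (nat_lit 5) (nat_lit 155) (nat_lit 4) (nat_lit 303) (nat_lit 299) (nat_lit 298)) (XT.lf (nat_lit 0) (nat_lit 175551733) (nat_lit 152) (nat_lit 2561915997) (nat_lit 228) (nat_lit 3755218688) (nat_lit 151) (nat_lit 5) (nat_lit 153) (nat_lit 5) (nat_lit 154) (nat_lit 4) (nat_lit 304) (nat_lit 299) (nat_lit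 297)))))) (XT.nd (nat_lit 468) (nat_lit 2508) (nat_lit 0) (XT.nd (nat_lit 234) (nat_lit 760) (nat_lit 0) (XT.nd (nat_lit 78) (nat_lit 304) (nat_lit 0) (XT.lf (nat_lit 0) (nat_lit 3716903164) (nat_lit 152) (nat_lit 1980031113) (nat_lit 228) (nat_lit 827352211) (nat_lit 151) (nat_lit 5) (nat_lit 153) (nat_lit 5) (nat_lit 154) (nat_lit 4) (nat_lit 305) (nat_lit 299) (nat_lit 296)) (XT.nd (nat_lit 78) (nat_lit 0) (nat_lit 0) (XT.lf (nat_lit 0) (nat_lit 754696268) (nat_lit 228) (nat_lit 1256878156) (nat_lit 304) (nat_lit 4552676632) (nat_lit 147) (nat_lit 5) (nat_lit 150) (nat_lit 5) (nat_lit 151) (nat_lit 5) (nat_lit 306) (nat_lit 299) (nat_lit 295)) (XT.lf (nat_lit 0) (nat_lit 4467910658) (nat_lit 228) (nat_lit 375475780) (nat_lit 304) (nat_lit 1768562195) (nat_lit 147) (nat_lit 5) (nat_lit 150) (nat_lit 5) (nat_lit 151) (nat_lit 5) (nat_lit 307) (nat_lit 299) (nat_lit 294)))) (XT.nd (nat_lit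 78) (nat_lit 380) (nat_lit 0) (XT.lf (nat_lit 0) (nat_lit 989826757) (nat_lit 380) (nat_lit 5050531881) (nat_lit 76) (nat_lit 627487150) (nat_lit 142) (nat_lit 5) (nat_lit 147) (nat_lit 5) (nat_lit 143) (nat_lit 5) (nat_lit 308) (nat_lit 299) (nat_lit 293)) (XT.nd (nat_lit 78) (nat_lit 380) (nat_lit 0) (XT.lf (nat_lit 0) (nat_lit 3713088853) (nat_lit 380) (nat_lit 1237325115) (nat_lit 76) (nat_lit 1780657182) (nat_lit 142) (nat_lit 5) (nat_lit 147) (nat_lit 5) (nat_lit 143) (nat_lit 5) (nat_lit 309) (nat_lit 299) (nat_lit 292)) (XT.lf (nat_lit 0) (nat_lit 2741891097) (nat_lit 380) (nat_lit 3724220198) (nat_lit 456) (nat_lit 336954661) (nat_lit 137) (nat_lit 5) (nat_lit 142) (nat_lit 5) (nat_lit 143) (nat_lit 5) (nat_lit 310) (nat_lit 299) (nat_lit 291))))) (XT.nd (nat_lit 234) (nat_lit 1368) (nat_lit 0) (XT.nd (nat_lit 78) (nat_lit 1064) (nat_lit 0) (XT.lf (nat_lit 0) (nat_lit 2273650898)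 (nat_lit 456) (nat_lit 69320753) (nat_lit 76) (nat_lit 4540273487) (nat_lit 136) (nat_lit 5) (nat_lit 142) (nat_lit 5) (nat_lit 137) (nat_lit 5) (nat_lit 311) (nat_lit 299) (nat_lit 290)) (XT.nd (nat_lit 78) (nat_lit 608) (nat_lit 0) (XT.lf (nat_lit 0) (nat_lit 4138882533) (nat_lit 456) (nat_lit 789717756) (nat_lit 532) (nat_lit 2042548744) (nat_lit 130) (nat_lit 5) (nat_lit 136) (nat_lit 5) (nat_lit 137) (nat_lit 5) (nat_lit 312) (nat_lit 299) (nat_lit 289)) (XT.lf (nat_lit 0) (nat_lit 532381553) (nat_lit 608) (nat_lit 5664364085) (nat_lit 76) (nat_lit 871397142) (nat_lit 122) (nat_lit 5) (nat_lit 130) (nat_lit 5) (nat_lit 123) (nat_lit 5) (nat_lit 313) (nat_lit 299) (nat_lit 288)))) (XT.nd (nat_lit 78) (nat_lit 1368) (nat_lit 0) (XT.lf (nat_lit 0) (nat_lit 3097255392) (nat_lit 608) (nat_lit 1383340012) (nat_lit 76) (nat_lit 2691439525) (nat_lit 122) (nat_lit 5) (nat_lit 130) (nat_lit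 5) (nat_lit 123) (nat_lit 5) (nat_lit 314) (nat_lit 299) (nat_lit 287)) (XT.nd (nat_lit 78) (nat_lit 760) (nat_lit 0) (XT.lf (nat_lit 0) (nat_lit 3098043221) (nat_lit 608) (nat_lit 2615119542) (nat_lit 684) (nat_lit 1572024133) (nat_lit 114) (nat_lit 5) (nat_lit 122) (nat_lit 5) (nat_lit 123) (nat_lit 5) (nat_lit 315) (nat_lit 299) (nat_lit 286)) (XT.lf (nat_lit 0) (nat_lit 326995617) (nat_lit 684) (nat_lit 600485350) (nat_lit 760) (nat_lit 6480606596) (nat_lit 104) (nat_lit 5) (nat_lit 113) (nat_lit 5) (nat_lit 114) (nat_lit 5) (nat_lit 316) (nat_lit 299) (nat_lit 285))))))))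
noncomputable def xc97 : XT := (XT.nd (nat_lit 1716) (nat_lit 1976) (nat_lit 0) (XT.nd (nat_lit 858) (nat_lit 1748) (nat_lit 0) (XT.nd (nat_lit 390) (nat_lit 1140) (nat_lit 0) (XT.nd (nat_lit 156) (nat_lit 760) (nat_lit 0) (XT.nd (nat_lit 78) (nat_lit 760) (nat_lit 0) (XT.lf (nat_lit 0) (nat_lit 3475549188) (nat_lit 760) (nat_lit 2491640945) (nat_lit 76) (nat_lit 1570010509) (nat_lit 104) (nat_lit 5) (nat_lit 114) (nat_lit 5) (nat_lit 105) (nat_lit 5) (nat_lit 317) (nat_lit 299) (nat_lit 284)) (XT.lf (nat_lit 0) (nat_lit 2276315471) (nat_lit 760) (nat_lit 3806463192) (nat_lit 836) (nat_lit 1593571229) (nat_lit 94) (nat_lit 5) (nat_lit 104) (nat_lit 5) (nat_lit 105) (nat_lit 5) (nat_lit 318) (nat_lit 299) (nat_lit 283))) (XT.nd (nat_lit 78) (nat_lit 684) (nat_lit 0) (XT.lf (nat_lit 0) (nat_lit 896938559) (nat_lit 836) (nat_lit 583439376) (nat_lit 76) (nat_lit 6344904162) (nat_lit 93) (nat_lit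 5) (nat_lit 104) (nat_lit 5) (nat_lit 94) (nat_lit 5) (nat_lit 319) (nat_lit 299) (nat_lit 282)) (XT.nd (nat_lit 78) (nat_lit 304) (nat_lit 0) (XT.lf (nat_lit 0) (nat_lit 3438317399) (nat_lit 456) (nat_lit 3518062228) (nat_lit 76) (nat_lit 1025125657) (nat_lit 88) (nat_lit 5) (nat_lit 94) (nat_lit 5) (nat_lit 89) (nat_lit 5) (nat_lit 320) (nat_lit 299) (nat_lit 281)) (XT.lf (nat_lit 0) (nat_lit 1549127997) (nat_lit 304) (nat_lit 4512834028) (nat_lit 380) (nat_lit 2085956314) (nat_lit 84) (nat_lit 5) (nat_lit 88) (nat_lit 5) (nat_lit 89) (nat_lit 5) (nat_lit 321) (nat_lit 299) (nat_lit 280))))) (XT.nd (nat_lit 234) (nat_lit 380) (nat_lit 0) (XT.nd (nat_lit 78) (nat_lit 684) (nat_lit 0) (XT.lf (nat_lit 0) (nat_lit 436977687) (nat_lit 380) (nat_lit 1452108550) (nat_lit 76) (nat_lit 6435372921) (nat_lit 83) (nat_lit 5) (nat_lit 88) (nat_lit 5) (nat_lit 84) (nat_lit 5) (nat_lit 322) (nat_lit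 299) (nat_lit 279)) (XT.nd (nat_lit 78) (nat_lit 304) (nat_lit 0) (XT.lf (nat_lit 0) (nat_lit 2995204838) (nat_lit 456) (nat_lit 4591349599) (nat_lit 76) (nat_lit 922720055) (nat_lit 78) (nat_lit 5) (nat_lit 84) (nat_lit 5) (nat_lit 79) (nat_lit 5) (nat_lit 323) (nat_lit 299) (nat_lit 278)) (XT.lf (nat_lit 0) (nat_lit 785665893) (nat_lit 304) (nat_lit 4869569327) (nat_lit 380) (nat_lit 3049514765) (nat_lit 74) (nat_lit 5) (nat_lit 78) (nat_lit 5) (nat_lit 79) (nat_lit 5) (nat_lit 324) (nat_lit 299) (nat_lit 277)))) (XT.nd (nat_lit 78) (nat_lit 380) (nat_lit 0) (XT.lf (nat_lit 0) (nat_lit 6479872619) (nat_lit 304) (nat_lit 1954571057) (nat_lit 380) (nat_lit 476355306) (nat_lit 74) (nat_lit 5) (nat_lit 78) (nat_lit 5) (nat_lit 79) (nat_lit 5) (nat_lit 325) (nat_lit 299) (nat_lit 276)) (XT.nd (nat_lit 78) (nat_lit 0) (nat_lit 0) (XT.lf (nat_lit 0) (nat_lit 2135275065) (nat_lit 380) (nat_lit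 5852246971) (nat_lit 76) (nat_lit 1138937494) (nat_lit 69) (nat_lit 5) (nat_lit 74) (nat_lit 5) (nat_lit 70) (nat_lit 5) (nat_lit 326) (nat_lit 299) (nat_lit 275)) (XT.lf (nat_lit 0) (nat_lit 4848844319) (nat_lit 380) (nat_lit 153494192) (nat_lit 76) (nat_lit 4350899614) (nat_lit 69) (nat_lit 5) (nat_lit 74) (nat_lit 5) (nat_lit 70) (nat_lit 5) (nat_lit 327) (nat_lit 299) (nat_lit 274)))))) (XT.nd (nat_lit 390) (nat_lit 684) (nat_lit 0) (XT.nd (nat_lit 156) (nat_lit 456) (nat_lit 0) (XT.nd (nat_lit 78) (nat_lit 380) (nat_lit 0) (XT.lf (nat_lit 0) (nat_lit 5913633144) (nat_lit 228) (nat_lit 1794387335) (nat_lit 304) (nat_lit 1882928060) (nat_lit 66) (nat_lit 5) (nat_lit 69) (nat_lit 5) (nat_lit 70) (nat_lit 5) (nat_lit 328) (nat_lit 299) (nat_lit 273)) (XT.lf (nat_lit 0) (nat_lit 825538134) (nat_lit 380) (nat_lit 7461572724) (nat_lit 76) (nat_lit 1553647763) (nat_lit 61) (nat_lit 5) (nat_lit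 66) (nat_lit 5) (nat_lit 62) (nat_lit 5) (nat_lit 329) (nat_lit 299) (nat_lit 272))) (XT.nd (nat_lit 78) (nat_lit 456) (nat_lit 0) (XT.lf (nat_lit 0) (nat_lit 3619199730) (nat_lit 380) (nat_lit 1403885817) (nat_lit 76) (nat_lit 5077854887) (nat_lit 61) (nat_lit 5) (nat_lit 66) (nat_lit 5) (nat_lit 62) (nat_lit 5) (nat_lit 330) (nat_lit 299) (nat_lit 271)) (XT.nd (nat_lit 78) (nat_lit 228) (nat_lit 0) (XT.lf (nat_lit 0) (nat_lit 5013514924) (nat_lit 228) (nat_lit 1541434578) (nat_lit 304) (nat_lit 3819135057) (nat_lit 58) (nat_lit 5) (nat_lit 61) (nat_lit 5) (nat_lit 62) (nat_lit 5) (nat_lit 331) (nat_lit 299) (nat_lit 270)) (XT.lf (nat_lit 0) (nat_lit 1035277514) (nat_lit 228) (nat_lit 8601260284) (nat_lit 304) (nat_lit 1024465518) (nat_lit 55) (nat_lit 5) (nat_lit 58) (nat_lit 5) (nat_lit 59) (nat_lit 5) (nat_lit 332) (nat_lit 299) (nat_lit 269))))) (XT.nd (nat_lit 234) (nat_lit 456) (nat_lit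 0) (XT.nd (nat_lit 78) (nat_lit 152) (nat_lit 0) (XT.lf (nat_lit 0) (nat_lit 1892730513) (nat_lit 304) (nat_lit 3183367819) (nat_lit 76) (nat_lit 5882546029) (nat_lit 54) (nat_lit 5) (nat_lit 58) (nat_lit 5) (nat_lit 55) (nat_lit 5) (nat_lit 333) (nat_lit 299) (nat_lit 268)) (XT.nd (nat_lit 78) (nat_lit 0) (nat_lit 0) (XT.lf (nat_lit 0) (nat_lit 3577791170) (nat_lit 152) (nat_lit 1329312835) (nat_lit 228) (nat_lit 6363996858) (nat_lit 52) (nat_lit 5) (nat_lit 54) (nat_lit 5) (nat_lit 55) (nat_lit 5) (nat_lit 334) (nat_lit 299) (nat_lit 267)) (XT.lf (nat_lit 0) (nat_lit 8098848842) (nat_lit 228) (nat_lit 952902477) (nat_lit 76) (nat_lit 2546153807) (nat_lit 52) (nat_lit 5) (nat_lit 55) (nat_lit 5) (nat_lit 53) (nat_lit 5) (nat_lit 335) (nat_lit 299) (nat_lit 266)))) (XT.nd (nat_lit 78) (nat_lit 228) (nat_lit 0) (XT.lf (nat_lit 0) (nat_lit 6203775386) (nat_lit 228) (nat_lit 5299521182) (nat_lit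 304) (nat_lit 435152082) (nat_lit 49) (nat_lit 5) (nat_lit 52) (nat_lit 5) (nat_lit 53) (nat_lit 5) (nat_lit 336) (nat_lit 299) (nat_lit 265)) (XT.nd (nat_lit 78) (nat_lit 0) (nat_lit 0) (XT.lf (nat_lit 0) (nat_lit 1357772291) (nat_lit 152) (nat_lit 1307726171) (nat_lit 228) (nat_lit 9629769379) (nat_lit 46) (nat_lit 5) (nat_lit 48) (nat_lit 5) (nat_lit 49) (nat_lit 5) (nat_lit 337) (nat_lit 299) (nat_lit 264)) (XT.lf (nat_lit 0) (nat_lit 5986351677) (nat_lit 228) (nat_lit 3814146521) (nat_lit 76) (nat_lit 2865130770) (nat_lit 46) (nat_lit 5) (nat_lit 49) (nat_lit 5) (nat_lit 47) (nat_lit 5) (nat_lit 338) (nat_lit 299) (nat_lit 263))))))) (XT.nd (nat_lit 858) (nat_lit 836) (nat_lit 0) (XT.nd (nat_lit 390) (nat_lit 532) (nat_lit 0) (XT.nd (nat_lit 156) (nat_lit 380) (nat_lit 0) (XT.nd (nat_lit 78) (nat_lit 0) (nat_lit 0) (XT.lf (nat_lit 0) (nat_lit 3666755885) (nat_lit 228) (nat_lit 5824283398)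 (nat_lit 304) (nat_lit 3562624390) (nat_lit 43) (nat_lit 5) (nat_lit 46) (nat_lit 5) (nat_lit 47) (nat_lit 5) (nat_lit 339) (nat_lit 299) (nat_lit 262)) (XT.lf (nat_lit 0) (nat_lit 11561111698) (nat_lit 228) (nat_lit 1614996849) (nat_lit 304) (nat_lit 284777163) (nat_lit 43) (nat_lit 5) (nat_lit 46) (nat_lit 5) (nat_lit 47) (nat_lit 5) (nat_lit 340) (nat_lit 299) (nat_lit 261))) (XT.nd (nat_lit 78) (nat_lit 152) (nat_lit 0) (XT.lf (nat_lit 0) (nat_lit 3137860683) (nat_lit 228) (nat_lit 7915448986) (nat_lit 76) (nat_lit 2828636656) (nat_lit 40) (nat_lit 5) (nat_lit 43) (nat_lit 5) (nat_lit 41) (nat_lit 5) (nat_lit 341) (nat_lit 299) (nat_lit 260)) (XT.nd (nat_lit 78) (nat_lit 152) (nat_lit 0) (XT.lf (nat_lit 0) (nat_lit 6724491329) (nat_lit 228) (nat_lit 153484679) (nat_lit 76) (nat_lit 7445766084) (nat_lit 40) (nat_lit 5) (nat_lit 43) (nat_lit 5) (nat_lit 41) (nat_lit 5) (nat_lit 342) (nat_lit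 299) (nat_lit 259)) (XT.lf (nat_lit 0) (nat_lit 8171054776) (nat_lit 152) (nat_lit 2392928843) (nat_lit 228) (nat_lit 4220002868) (nat_lit 38) (nat_lit 5) (nat_lit 40) (nat_lit 5) (nat_lit 41) (nat_lit 5) (nat_lit 343) (nat_lit 299) (nat_lit 258))))) (XT.nd (nat_lit 234) (nat_lit 152) (nat_lit 0) (XT.nd (nat_lit 78) (nat_lit 228) (nat_lit 0) (XT.lf (nat_lit 0) (nat_lit 1576481142) (nat_lit 152) (nat_lit 13029070358) (nat_lit 228) (nat_lit 661220213) (nat_lit 36) (nat_lit 5) (nat_lit 38) (nat_lit 5) (nat_lit 39) (nat_lit 4) (nat_lit 344) (nat_lit 299) (nat_lit 257)) (XT.nd (nat_lit 78) (nat_lit 152) (nat_lit 0) (XT.lf (nat_lit 0) (nat_lit 3077109144) (nat_lit 228) (nat_lit 5540399723) (nat_lit 76) (nat_lit 7148814863) (nat_lit 35) (nat_lit 5) (nat_lit 38) (nat_lit 5) (nat_lit 36) (nat_lit 5) (nat_lit 345) (nat_lit 299) (nat_lit 256)) (XT.lf (nat_lit 0) (nat_lit 3018792506) (nat_lit 152)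 (nat_lit 3957982782) (nat_lit 228) (nat_lit 9313733070) (nat_lit 33) (nat_lit 5) (nat_lit 35) (nat_lit 5) (nat_lit 36) (nat_lit 5) (nat_lit 346) (nat_lit 299) (nat_lit 255)))) (XT.nd (nat_lit 78) (nat_lit 152) (nat_lit 0) (XT.lf (nat_lit 0) (nat_lit 11131487939) (nat_lit 228) (nat_lit 4738641634) (nat_lit 76) (nat_lit 967797178) (nat_lit 33) (nat_lit 5) (nat_lit 36) (nat_lit 5) (nat_lit 34) (nat_lit 4) (nat_lit 347) (nat_lit 299) (nat_lit 254)) (XT.nd (nat_lit 78) (nat_lit 76) (nat_lit 0) (XT.lf (nat_lit 0) (nat_lit 4210391839) (nat_lit 76) (nat_lit 11366646498) (nat_lit 152) (nat_lit 1831548994) (nat_lit 32) (nat_lit 5) (nat_lit 33) (nat_lit 5) (nat_lit 34) (nat_lit 4) (nat_lit 348) (nat_lit 299) (nat_lit 253)) (XT.lf (nat_lit 0) (nat_lit 2199771220) (nat_lit 152) (nat_lit 4349475276) (nat_lit 76) (nat_lit 11455097677) (nat_lit 31) (nat_lit 5) (nat_lit 33) (nat_lit 5) (nat_lit 32) (nat_lit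 5) (nat_lit 349) (nat_lit 299) (nat_lit 252)))))) (XT.nd (nat_lit 468) (nat_lit 380) (nat_lit 0) (XT.nd (nat_lit 234) (nat_lit 228) (nat_lit 0) (XT.nd (nat_lit 78) (nat_lit 76) (nat_lit 0) (XT.lf (nat_lit 0) (nat_lit 4994505147) (nat_lit 152) (nat_lit 1409549727) (nat_lit 228) (nat_lit 12222708023) (nat_lit 29) (nat_lit 5) (nat_lit 31) (nat_lit 5) (nat_lit 32) (nat_lit 5) (nat_lit 350) (nat_lit 299) (nat_lit 251)) (XT.nd (nat_lit 78) (nat_lit 76) (nat_lit 0) (XT.lf (nat_lit 0) (nat_lit 10911108764) (nat_lit 228) (nat_lit 4460882769) (nat_lit 76) (nat_lit 3903704918) (nat_lit 29) (nat_lit 5) (nat_lit 32) (nat_lit 5) (nat_lit 30) (nat_lit 4) (nat_lit 351) (nat_lit 299) (nat_lit 250)) (XT.lf (nat_lit 0) (nat_lit 5239858019) (nat_lit 76) (nat_lit 10466133317) (nat_lit 152) (nat_lit 4247982213) (nat_lit 28) (nat_lit 5) (nat_lit 29) (nat_lit 5) (nat_lit 30) (nat_lit 4) (nat_lit 352) (nat_lit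 299) (nat_lit 249)))) (XT.nd (nat_lit 78) (nat_lit 152) (nat_lit 0) (XT.lf (nat_lit 0) (nat_lit 106603010) (nat_lit 152) (nat_lit 5158309616) (nat_lit 76) (nat_lit 15399485875) (nat_lit 27) (nat_lit 5) (nat_lit 29) (nat_lit 5) (nat_lit 28) (nat_lit 5) (nat_lit 353) (nat_lit 299) (nat_lit 248)) (XT.nd (nat_lit 78) (nat_lit 0) (nat_lit 0) (XT.lf (nat_lit 0) (nat_lit 4577276574) (nat_lit 228) (nat_lit 16518352246) (nat_lit 76) (nat_lit 309195822) (nat_lit 25) (nat_lit 5) (nat_lit 28) (nat_lit 5) (nat_lit 26) (nat_lit 4) (nat_lit 354) (nat_lit 299) (nat_lit 247)) (XT.lf (nat_lit 0) (nat_lit 9406708753) (nat_lit 228) (nat_lit 6723954430) (nat_lit 76) (nat_lit 6044864660) (nat_lit 25) (nat_lit 5) (nat_lit 28) (nat_lit 5) (nat_lit 26) (nat_lit 4) (nat_lit 355) (nat_lit 299) (nat_lit 246))))) (XT.nd (nat_lit 234) (nat_lit 76) (nat_lit 0) (XT.nd (nat_lit 78) (nat_lit 228) (nat_lit 0) (XT.lf (nat_lit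 0) (nat_lit 3608135195) (nat_lit 76) (nat_lit 10887833608) (nat_lit 152) (nat_lit 8487895781) (nat_lit 24) (nat_lit 5) (nat_lit 25) (nat_lit 5) (nat_lit 26) (nat_lit 4) (nat_lit 356) (nat_lit 299) (nat_lit 245)) (XT.nd (nat_lit 78) (nat_lit 228) (nat_lit 0) (XT.lf (nat_lit 0) (nat_lit 14623847763) (nat_lit 76) (nat_lit 5292512061) (nat_lit 152) (nat_lit 3912440358) (nat_lit 24) (nat_lit 5) (nat_lit 25) (nat_lit 5) (nat_lit 26) (nat_lit 4) (nat_lit 357) (nat_lit 299) (nat_lit 244)) (XT.lf (nat_lit 0) (nat_lit 858980970) (nat_lit 228) (nat_lit 23283092092) (nat_lit 76) (nat_lit 573440525) (nat_lit 21) (nat_lit 5) (nat_lit 24) (nat_lit 5) (nat_lit 22) (nat_lit 4) (nat_lit 358) (nat_lit 299) (nat_lit 243)))) (XT.nd (nat_lit 78) (nat_lit 76) (nat_lit 0) (XT.lf (nat_lit 0) (nat_lit 5946955622) (nat_lit 228) (nat_lit 12935749370) (nat_lit 76) (nat_lit 6750190777) (nat_lit 21) (nat_lit 5) (nat_lit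 24) (nat_lit 5) (nat_lit 22) (nat_lit 4) (nat_lit 359) (nat_lit 299) (nat_lit 242)) (XT.nd (nat_lit 78) (nat_lit 76) (nat_lit 0) (XT.lf (nat_lit 0) (nat_lit 11255288541) (nat_lit 228) (nat_lit 2132719566) (nat_lit 76) (nat_lit 13209853663) (nat_lit 21) (nat_lit 5) (nat_lit 24) (nat_lit 5) (nat_lit 22) (nat_lit 4) (nat_lit 360) (nat_lit 299) (nat_lit 241)) (XT.lf (nat_lit 0) (nat_lit 9454315973) (nat_lit 76) (nat_lit 7489911009) (nat_lit 152) (nat_lit 10661101726) (nat_lit 20) (nat_lit 5) (nat_lit 21) (nat_lit 5) (nat_lit 22) (nat_lit 4) (nat_lit 361) (nat_lit 299) (nat_lit 240))))))))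
noncomputable def xc98 : XT := (XT.nd (nat_lit 1716) (nat_lit 380) (nat_lit 0) (XT.nd (nat_lit 858) (nat_lit 304) (nat_lit 0) (XT.nd (nat_lit 390) (nat_lit 228) (nat_lit 0) (XT.nd (nat_lit 156) (nat_lit 152) (nat_lit 0) (XT.nd (nat_lit 78) (nat_lit 76) (nat_lit 0) (XT.lf (nat_lit 0) (nat_lit 21636951055) (nat_lit 76) (nat_lit 1285001875) (nat_lit 152) (nat_lit 5741010542) (nat_lit 20) (nat_lit 5) (nat_lit 21) (nat_lit 5) (nat_lit 22) (nat_lit 4) (nat_lit 362) (nat_lit 299) (nat_lit 239)) (XT.lf (nat_lit 0) (nat_lit 4666765602) (nat_lit 76) (nat_lit 24655666529) (nat_lit 76) (nat_lit 444865453) (nat_lit 19) (nat_lit 4) (nat_lit 20) (nat_lit 5) (nat_lit 20) (nat_lit 4) (nat_lit 363) (nat_lit 299) (nat_lit 238))) (XT.nd (nat_lit 78) (nat_lit 76) (nat_lit 0) (XT.lf (nat_lit 0) (nat_lit 5063787451) (nat_lit 152) (nat_lit 13891976643) (nat_lit 76) (nat_lit 11961528061) (nat_lit 18) (nat_lit 5)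 (nat_lit 20) (nat_lit 5) (nat_lit 19) (nat_lit 4) (nat_lit 364) (nat_lit 299) (nat_lit 237)) (XT.nd (nat_lit 78) (nat_lit 76) (nat_lit 0) (XT.lf (nat_lit 0) (nat_lit 10803819872) (nat_lit 152) (nat_lit 2183900507) (nat_lit 76) (nat_lit 19138166035) (nat_lit 18) (nat_lit 5) (nat_lit 20) (nat_lit 5) (nat_lit 19) (nat_lit 4) (nat_lit 365) (nat_lit 299) (nat_lit 236)) (XT.lf (nat_lit 0) (nat_lit 10391098437) (nat_lit 76) (nat_lit 6574272756) (nat_lit 152) (nat_lit 16422822345) (nat_lit 17) (nat_lit 5) (nat_lit 18) (nat_lit 5) (nat_lit 19) (nat_lit 4) (nat_lit 366) (nat_lit 299) (nat_lit 235))))) (XT.nd (nat_lit 234) (nat_lit 76) (nat_lit 0) (XT.nd (nat_lit 78) (nat_lit 152) (nat_lit 0) (XT.lf (nat_lit 0) (nat_lit 23447546118) (nat_lit 152) (nat_lit 11095446470) (nat_lit 0) (nat_lit 170004714) (nat_lit 17) (nat_lit 5) (nat_lit 19) (nat_lit 4) (nat_lit 17) (nat_lit 4) (nat_lit 367) (nat_lit 299)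 (nat_lit 234)) (XT.nd (nat_lit 78) (nat_lit 76) (nat_lit 0) (XT.lf (nat_lit 0) (nat_lit 1285860272) (nat_lit 76) (nat_lit 29069590501) (nat_lit 76) (nat_lit 5743517610) (nat_lit 16) (nat_lit 4) (nat_lit 17) (nat_lit 5) (nat_lit 17) (nat_lit 4) (nat_lit 368) (nat_lit 299) (nat_lit 233)) (XT.lf (nat_lit 0) (nat_lit 217595228) (nat_lit 152) (nat_lit 22926223138) (nat_lit 76) (nat_lit 14402143150) (nat_lit 15) (nat_lit 5) (nat_lit 17) (nat_lit 5) (nat_lit 16) (nat_lit 4) (nat_lit 369) (nat_lit 299) (nat_lit 232)))) (XT.nd (nat_lit 78) (nat_lit 76) (nat_lit 0) (XT.lf (nat_lit 0) (nat_lit 6258829699) (nat_lit 152) (nat_lit 10585711962) (nat_lit 76) (nat_lit 22217307613) (nat_lit 15) (nat_lit 5) (nat_lit 17) (nat_lit 5) (nat_lit 16) (nat_lit 4) (nat_lit 370) (nat_lit 299) (nat_lit 231)) (XT.nd (nat_lit 78) (nat_lit 0) (nat_lit 0) (XT.lf (nat_lit 0) (nat_lit 2404436991) (nat_lit 76) (nat_lit 10211501136)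 (nat_lit 152) (nat_lit 28036909411) (nat_lit 14) (nat_lit 5) (nat_lit 15) (nat_lit 5) (nat_lit 16) (nat_lit 4) (nat_lit 371) (nat_lit 299) (nat_lit 230)) (XT.lf (nat_lit 0) (nat_lit 16367975865) (nat_lit 76) (nat_lit 3078921212) (nat_lit 152) (nat_lit 22868705288) (nat_lit 14) (nat_lit 5) (nat_lit 15) (nat_lit 5) (nat_lit 16) (nat_lit 4) (nat_lit 372) (nat_lit 299) (nat_lit 229)))))) (XT.nd (nat_lit 390) (nat_lit 152) (nat_lit 0) (XT.nd (nat_lit 156) (nat_lit 76) (nat_lit 0) (XT.nd (nat_lit 78) (nat_lit 76) (nat_lit 0) (XT.lf (nat_lit 0) (nat_lit 26665787803) (nat_lit 152) (nat_lit 13143024179) (nat_lit 0) (nat_lit 4250369864) (nat_lit 14) (nat_lit 5) (nat_lit 16) (nat_lit 4) (nat_lit 14) (nat_lit 4) (nat_lit 373) (nat_lit 299) (nat_lit 228)) (XT.lf (nat_lit 0) (nat_lit 217963695) (nat_lit 76) (nat_lit 34060133535) (nat_lit 76) (nat_lit 11610225175) (nat_lit 13) (nat_lit 4) (nat_lit 14)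 (nat_lit 5) (nat_lit 14) (nat_lit 4) (nat_lit 374) (nat_lit 299) (nat_lit 227))) (XT.nd (nat_lit 78) (nat_lit 76) (nat_lit 0) (XT.lf (nat_lit 0) (nat_lit 14663601194) (nat_lit 76) (nat_lit 27809000859) (nat_lit 76) (nat_lit 5326244477) (nat_lit 13) (nat_lit 4) (nat_lit 14) (nat_lit 5) (nat_lit 14) (nat_lit 4) (nat_lit 375) (nat_lit 299) (nat_lit 226)) (XT.nd (nat_lit 78) (nat_lit 0) (nat_lit 0) (XT.lf (nat_lit 0) (nat_lit 1210888974) (nat_lit 152) (nat_lit 20031717812) (nat_lit 76) (nat_lit 28562318991) (nat_lit 12) (nat_lit 5) (nat_lit 14) (nat_lit 5) (nat_lit 13) (nat_lit 4) (nat_lit 376) (nat_lit 299) (nat_lit 225)) (XT.lf (nat_lit 0) (nat_lit 7876514351) (nat_lit 152) (nat_lit 6396979914) (nat_lit 76) (nat_lit 37634422132) (nat_lit 12) (nat_lit 5) (nat_lit 14) (nat_lit 5) (nat_lit 13) (nat_lit 4) (nat_lit 377) (nat_lit 299) (nat_lit 224))))) (XT.nd (nat_lit 234) (nat_lit 76) (nat_lit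 0) (XT.nd (nat_lit 78) (nat_lit 0) (nat_lit 0) (XT.lf (nat_lit 0) (nat_lit 8145289763) (nat_lit 76) (nat_lit 6838856311) (nat_lit 152) (nat_lit 39126478771) (nat_lit 11) (nat_lit 5) (nat_lit 12) (nat_lit 5) (nat_lit 13) (nat_lit 4) (nat_lit 378) (nat_lit 299) (nat_lit 223)) (XT.nd (nat_lit 78) (nat_lit 0) (nat_lit 0) (XT.lf (nat_lit 0) (nat_lit 22554019866) (nat_lit 152) (nat_lit 32833170144) (nat_lit 0) (nat_lit 1030940020) (nat_lit 11) (nat_lit 5) (nat_lit 13) (nat_lit 4) (nat_lit 11) (nat_lit 4) (nat_lit 379) (nat_lit 299) (nat_lit 222)) (XT.lf (nat_lit 0) (nat_lit 30597016827) (nat_lit 152) (nat_lit 19189841022) (nat_lit 0) (nat_lit 9049425281) (nat_lit 11) (nat_lit 5) (nat_lit 13) (nat_lit 4) (nat_lit 11) (nat_lit 4) (nat_lit 380) (nat_lit 299) (nat_lit 221)))) (XT.nd (nat_lit 78) (nat_lit 76) (nat_lit 0) (XT.lf (nat_lit 0) (nat_lit 39025513235) (nat_lit 152) (nat_lit 4896089888) (nat_lit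 0) (nat_lit 17454577214) (nat_lit 11) (nat_lit 5) (nat_lit 13) (nat_lit 4) (nat_lit 11) (nat_lit 4) (nat_lit 381) (nat_lit 299) (nat_lit 220)) (XT.nd (nat_lit 78) (nat_lit 0) (nat_lit 0) (XT.lf (nat_lit 0) (nat_lit 10415476285) (nat_lit 76) (nat_lit 37606715430) (nat_lit 76) (nat_lit 16013546575) (nat_lit 10) (nat_lit 4) (nat_lit 11) (nat_lit 5) (nat_lit 11) (nat_lit 4) (nat_lit 382) (nat_lit 299) (nat_lit 219)) (XT.lf (nat_lit 0) (nat_lit 26632856775) (nat_lit 76) (nat_lit 30903198187) (nat_lit 76) (nat_lit 9288855205) (nat_lit 10) (nat_lit 4) (nat_lit 11) (nat_lit 5) (nat_lit 11) (nat_lit 4) (nat_lit 383) (nat_lit 299) (nat_lit 218))))))) (XT.nd (nat_lit 858) (nat_lit 152) (nat_lit 0) (XT.nd (nat_lit 390) (nat_lit 76) (nat_lit 0) (XT.nd (nat_lit 156) (nat_lit 76) (nat_lit 0) (XT.nd (nat_lit 78) (nat_lit 76) (nat_lit 0) (XT.lf (nat_lit 0) (nat_lit 43632777549) (nat_lit 76) (nat_lit 23878008290)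 (nat_lit 76) (nat_lit 2243499472) (nat_lit 10) (nat_lit 4) (nat_lit 11) (nat_lit 5) (nat_lit 11) (nat_lit 4) (nat_lit 384) (nat_lit 299) (nat_lit 217)) (XT.lf (nat_lit 0) (nat_lit 4974805733) (nat_lit 152) (nat_lit 11455362620) (nat_lit 76) (nat_lit 56396658132) (nat_lit 9) (nat_lit 5) (nat_lit 11) (nat_lit 5) (nat_lit 10) (nat_lit 4) (nat_lit 385) (nat_lit 299) (nat_lit 216))) (XT.nd (nat_lit 78) (nat_lit 0) (nat_lit 0) (XT.lf (nat_lit 0) (nat_lit 4009489862) (nat_lit 76) (nat_lit 8518068793) (nat_lit 152) (nat_lit 63521153629) (nat_lit 8) (nat_lit 5) (nat_lit 9) (nat_lit 5) (nat_lit 10) (nat_lit 4) (nat_lit 386) (nat_lit 299) (nat_lit 215)) (XT.nd (nat_lit 78) (nat_lit 0) (nat_lit 0) (XT.lf (nat_lit 0) (nat_lit 20619561116) (nat_lit 76) (nat_lit 18968886) (nat_lit 152) (nat_lit 58784136127) (nat_lit 8) (nat_lit 5) (nat_lit 9) (nat_lit 5) (nat_lit 10) (nat_lit 4) (nat_lit 387) (nat_lit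 299) (nat_lit 214)) (XT.lf (nat_lit 0) (nat_lit 29281118051) (nat_lit 152) (nat_lit 45069176888) (nat_lit 0) (nat_lit 8608721982) (nat_lit 8) (nat_lit 5) (nat_lit 10) (nat_lit 4) (nat_lit 8) (nat_lit 4) (nat_lit 388) (nat_lit 299) (nat_lit 213))))) (XT.nd (nat_lit 234) (nat_lit 0) (nat_lit 0) (XT.nd (nat_lit 78) (nat_lit 76) (nat_lit 0) (XT.lf (nat_lit 0) (nat_lit 38343798644) (nat_lit 152) (nat_lit 30672636469) (nat_lit 0) (nat_lit 17656354518) (nat_lit 8) (nat_lit 5) (nat_lit 10) (nat_lit 4) (nat_lit 8) (nat_lit 4) (nat_lit 389) (nat_lit 299) (nat_lit 212)) (XT.nd (nat_lit 78) (nat_lit 76) (nat_lit 0) (XT.lf (nat_lit 0) (nat_lit 47847853435) (nat_lit 152) (nat_lit 15578910123) (nat_lit 0) (nat_lit 27146077827) (nat_lit 8) (nat_lit 5) (nat_lit 10) (nat_lit 4) (nat_lit 8) (nat_lit 4) (nat_lit 390) (nat_lit 299) (nat_lit 211)) (XT.lf (nat_lit 0) (nat_lit 256137598) (nat_lit 76) (nat_lit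 57563772554) (nat_lit 76) (nat_lit 36848347914) (nat_lit 7) (nat_lit 4) (nat_lit 8) (nat_lit 5) (nat_lit 8) (nat_lit 4) (nat_lit 391) (nat_lit 299) (nat_lit 210)))) (XT.nd (nat_lit 78) (nat_lit 0) (nat_lit 0) (XT.lf (nat_lit 0) (nat_lit 17402587130) (nat_lit 76) (nat_lit 51140821213) (nat_lit 76) (nat_lit 30412397496) (nat_lit 7) (nat_lit 4) (nat_lit 8) (nat_lit 5) (nat_lit 8) (nat_lit 4) (nat_lit 392) (nat_lit 299) (nat_lit 209)) (XT.nd (nat_lit 78) (nat_lit 0) (nat_lit 0) (XT.lf (nat_lit 0) (nat_lit 35386154229) (nat_lit 76) (nat_lit 44406453175) (nat_lit 76) (nat_lit 23665649385) (nat_lit 7) (nat_lit 4) (nat_lit 8) (nat_lit 5) (nat_lit 8) (nat_lit 4) (nat_lit 393) (nat_lit 299) (nat_lit 208)) (XT.lf (nat_lit 0) (nat_lit 54249656910) (nat_lit 76) (nat_lit 37344634232) (nat_lit 76) (nat_lit 16592039895) (nat_lit 7) (nat_lit 4) (nat_lit 8) (nat_lit 5) (nat_lit 8) (nat_lit 4) (nat_lit 394)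 (nat_lit 299) (nat_lit 207)))))) (XT.nd (nat_lit 468) (nat_lit 0) (nat_lit 0) (XT.nd (nat_lit 234) (nat_lit 76) (nat_lit 0) (XT.nd (nat_lit 78) (nat_lit 76) (nat_lit 0) (XT.lf (nat_lit 0) (nat_lit 74038008276) (nat_lit 76) (nat_lit 29938550528) (nat_lit 76) (nat_lit 9174727099) (nat_lit 7) (nat_lit 4) (nat_lit 8) (nat_lit 5) (nat_lit 8) (nat_lit 4) (nat_lit 395) (nat_lit 299) (nat_lit 206)) (XT.nd (nat_lit 78) (nat_lit 76) (nat_lit 0) (XT.lf (nat_lit 0) (nat_lit 94798323449) (nat_lit 76) (nat_lit 22170568530) (nat_lit 76) (nat_lit 1396050728) (nat_lit 7) (nat_lit 4) (nat_lit 8) (nat_lit 5) (nat_lit 8) (nat_lit 4) (nat_lit 396) (nat_lit 299) (nat_lit 205)) (XT.lf (nat_lit 0) (nat_lit 6546067325) (nat_lit 152) (nat_lit 7365264901) (nat_lit 76) (nat_lit 109923103607) (nat_lit 6) (nat_lit 5) (nat_lit 8) (nat_lit 5) (nat_lit 7) (nat_lit 4) (nat_lit 397) (nat_lit 299) (nat_lit 204)))) (XT.nd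 (nat_lit 78) (nat_lit 0) (nat_lit 0) (XT.lf (nat_lit 0) (nat_lit 9924818796) (nat_lit 76) (nat_lit 5060167460) (nat_lit 152) (nat_lit 114583944039) (nat_lit 5) (nat_lit 5) (nat_lit 6) (nat_lit 5) (nat_lit 7) (nat_lit 4) (nat_lit 398) (nat_lit 299) (nat_lit 203)) (XT.nd (nat_lit 78) (nat_lit 0) (nat_lit 0) (XT.lf (nat_lit 0) (nat_lit 24030415457) (nat_lit 152) (nat_lit 107333083485) (nat_lit 0) (nat_lit 4217423806) (nat_lit 5) (nat_lit 5) (nat_lit 7) (nat_lit 4) (nat_lit 5) (nat_lit 4) (nat_lit 399) (nat_lit 299) (nat_lit 202)) (XT.lf (nat_lit 0) (nat_lit 33603153019) (nat_lit 152) (nat_lit 94504829324) (nat_lit 0) (nat_lit 13781782048) (nat_lit 5) (nat_lit 5) (nat_lit 7) (nat_lit 4) (nat_lit 5) (nat_lit 4) (nat_lit 400) (nat_lit 299) (nat_lit 201))))) (XT.nd (nat_lit 234) (nat_lit 0) (nat_lit 0) (XT.nd (nat_lit 78) (nat_lit 0) (nat_lit 0) (XT.lf (nat_lit 0) (nat_lit 43646987781) (nat_lit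 152) (nat_lit 81049802158) (nat_lit 0) (nat_lit 23817636504) (nat_lit 5) (nat_lit 5) (nat_lit 7) (nat_lit 4) (nat_lit 5) (nat_lit 4) (nat_lit 401) (nat_lit 299) (nat_lit 200)) (XT.nd (nat_lit 78) (nat_lit 0) (nat_lit 0) (XT.lf (nat_lit 0) (nat_lit 54185833636) (nat_lit 152) (nat_lit 66935966208) (nat_lit 0) (nat_lit 34348882067) (nat_lit 5) (nat_lit 5) (nat_lit 7) (nat_lit 4) (nat_lit 5) (nat_lit 4) (nat_lit 402) (nat_lit 299) (nat_lit 199)) (XT.lf (nat_lit 0) (nat_lit 65244783073) (nat_lit 152) (nat_lit 52129717104) (nat_lit 0) (nat_lit 45400593131) (nat_lit 5) (nat_lit 5) (nat_lit 7) (nat_lit 4) (nat_lit 5) (nat_lit 4) (nat_lit 403) (nat_lit 299) (nat_lit 198)))) (XT.nd (nat_lit 78) (nat_lit 0) (nat_lit 0) (XT.lf (nat_lit 0) (nat_lit 76850166924) (nat_lit 152) (nat_lit 36595801872) (nat_lit 0) (nat_lit 56999083294) (nat_lit 5) (nat_lit 5) (nat_lit 7) (nat_lit 4) (nat_lit 5) (nat_lit 4)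 (nat_lit 404) (nat_lit 299) (nat_lit 197)) (XT.nd (nat_lit 78) (nat_lit 0) (nat_lit 0) (XT.lf (nat_lit 0) (nat_lit 89029617055) (nat_lit 152) (nat_lit 20297234998) (nat_lit 0) (nat_lit 69171968008) (nat_lit 5) (nat_lit 5) (nat_lit 7) (nat_lit 4) (nat_lit 5) (nat_lit 4) (nat_lit 405) (nat_lit 299) (nat_lit 196)) (XT.lf (nat_lit 0) (nat_lit 101812132158) (nat_lit 152) (nat_lit 3195210371) (nat_lit 0) (nat_lit 81948230333) (nat_lit 5) (nat_lit 5) (nat_lit 7) (nat_lit 4) (nat_lit 5) (nat_lit 4) (nat_lit 406) (nat_lit 299) (nat_lit 195))))))))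
noncomputable def xc99 : XT := (XT.nd (nat_lit 1716) (nat_lit 0) (nat_lit 0) (XT.nd (nat_lit 858) (nat_lit 152) (nat_lit 0) (XT.nd (nat_lit 390) (nat_lit 0) (nat_lit 0) (XT.nd (nat_lit 156) (nat_lit 0) (nat_lit 0) (XT.nd (nat_lit 78) (nat_lit 0) (nat_lit 0) (XT.lf (nat_lit 0) (nat_lit 15238725497) (nat_lit 76) (nat_lit 100227340506) (nat_lit 76) (nat_lit 80357483654) (nat_lit 4) (nat_lit 4) (nat_lit 5) (nat_lit 5) (nat_lit 5) (nat_lit 4) (nat_lit 407) (nat_lit 299) (nat_lit 194)) (XT.lf (nat_lit 0) (nat_lit 34694540477) (nat_lit 76) (nat_lit 95156742382) (nat_lit 76) (nat_lit 75281214074) (nat_lit 4) (nat_lit 4) (nat_lit 5) (nat_lit 5) (nat_lit 5) (nat_lit 4) (nat_lit 408) (nat_lit 299) (nat_lit 193))) (XT.nd (nat_lit 78) (nat_lit 0) (nat_lit 0) (XT.lf (nat_lit 0) (nat_lit 55112909850) (nat_lit 76) (nat_lit 89837587736) (nat_lit 76) (nat_lit 69956658044) (nat_lit 4) (nat_lit 4) (nat_lit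 5) (nat_lit 5) (nat_lit 5) (nat_lit 4) (nat_lit 409) (nat_lit 299) (nat_lit 192)) (XT.nd (nat_lit 78) (nat_lit 0) (nat_lit 0) (XT.lf (nat_lit 0) (nat_lit 76542448782) (nat_lit 76) (nat_lit 84257211916) (nat_lit 76) (nat_lit 64371138048) (nat_lit 4) (nat_lit 4) (nat_lit 5) (nat_lit 5) (nat_lit 5) (nat_lit 4) (nat_lit 410) (nat_lit 299) (nat_lit 191)) (XT.lf (nat_lit 0) (nat_lit 99034179985) (nat_lit 76) (nat_lit 78402328313) (nat_lit 76) (nat_lit 58511355229) (nat_lit 4) (nat_lit 4) (nat_lit 5) (nat_lit 5) (nat_lit 5) (nat_lit 4) (nat_lit 411) (nat_lit 299) (nat_lit 190))))) (XT.nd (nat_lit 234) (nat_lit 0) (nat_lit 0) (XT.nd (nat_lit 78) (nat_lit 0) (nat_lit 0) (XT.lf (nat_lit 0) (nat_lit 122641655200) (nat_lit 76) (nat_lit 72258996727) (nat_lit 76) (nat_lit 52363357724) (nat_lit 4) (nat_lit 4) (nat_lit 5) (nat_lit 5) (nat_lit 5) (nat_lit 4) (nat_lit 412) (nat_lit 299) (nat_lit 189)) (XT.nd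 (nat_lit 78) (nat_lit 0) (nat_lit 0) (XT.lf (nat_lit 0) (nat_lit 147421082701) (nat_lit 76) (nat_lit 65812590179) (nat_lit 76) (nat_lit 45912507443) (nat_lit 4) (nat_lit 4) (nat_lit 5) (nat_lit 5) (nat_lit 5) (nat_lit 4) (nat_lit 413) (nat_lit 299) (nat_lit 188)) (XT.lf (nat_lit 0) (nat_lit 173431461126) (nat_lit 76) (nat_lit 59047760082) (nat_lit 76) (nat_lit 39143445218) (nat_lit 4) (nat_lit 4) (nat_lit 5) (nat_lit 5) (nat_lit 5) (nat_lit 4) (nat_lit 414) (nat_lit 299) (nat_lit 187)))) (XT.nd (nat_lit 78) (nat_lit 0) (nat_lit 0) (XT.lf (nat_lit 0) (nat_lit 200734719945) (nat_lit 76) (nat_lit 51948399696) (nat_lit 76) (nat_lit 32040054236) (nat_lit 4) (nat_lit 4) (nat_lit 5) (nat_lit 5) (nat_lit 5) (nat_lit 4) (nat_lit 415) (nat_lit 299) (nat_lit 186)) (XT.nd (nat_lit 78) (nat_lit 0) (nat_lit 0) (XT.lf (nat_lit 0) (nat_lit 229395866920) (nat_lit 76) (nat_lit 44497605784) (nat_lit 76) (nat_lit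 24585421660) (nat_lit 4) (nat_lit 4) (nat_lit 5) (nat_lit 5) (nat_lit 5) (nat_lit 4) (nat_lit 416) (nat_lit 299) (nat_lit 185)) (XT.lf (nat_lit 0) (nat_lit 259483142875) (nat_lit 76) (nat_lit 36677638359) (nat_lit 76) (nat_lit 16761798365) (nat_lit 4) (nat_lit 4) (nat_lit 5) (nat_lit 5) (nat_lit 5) (nat_lit 4) (nat_lit 417) (nat_lit 299) (nat_lit 184)))))) (XT.nd (nat_lit 390) (nat_lit 0) (nat_lit 0) (XT.nd (nat_lit 156) (nat_lit 76) (nat_lit 0) (XT.nd (nat_lit 78) (nat_lit 76) (nat_lit 0) (XT.lf (nat_lit 0) (nat_lit 291068184182) (nat_lit 76) (nat_lit 28469878452) (nat_lit 76) (nat_lit 8550556677) (nat_lit 4) (nat_lit 4) (nat_lit 5) (nat_lit 5) (nat_lit 5) (nat_lit 4) (nat_lit 418) (nat_lit 299) (nat_lit 183)) (XT.lf (nat_lit 0) (nat_lit 65682227) (nat_lit 152) (nat_lit 19787989189) (nat_lit 76) (nat_lit 324159398732) (nat_lit 3) (nat_lit 5) (nat_lit 5) (nat_lit 5) (nat_lit 4) (nat_lit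 4) (nat_lit 419) (nat_lit 299) (nat_lit 182))) (XT.nd (nat_lit 78) (nat_lit 76) (nat_lit 0) (XT.lf (nat_lit 0) (nat_lit 8822250196) (nat_lit 152) (nat_lit 1840182932) (nat_lit 76) (nat_lit 350064458659) (nat_lit 3) (nat_lit 5) (nat_lit 5) (nat_lit 5) (nat_lit 4) (nat_lit 4) (nat_lit 420) (nat_lit 299) (nat_lit 181)) (XT.nd (nat_lit 78) (nat_lit 0) (nat_lit 0) (XT.lf (nat_lit 0) (nat_lit 17561285472) (nat_lit 76) (nat_lit 726562820) (nat_lit 152) (nat_lit 359974996612) (nat_lit 2) (nat_lit 5) (nat_lit 3) (nat_lit 5) (nat_lit 4) (nat_lit 4) (nat_lit 421) (nat_lit 299) (nat_lit 180)) (XT.lf (nat_lit 0) (nat_lit 28406971257) (nat_lit 152) (nat_lit 358835182323) (nat_lit 0) (nat_lit 9424430307) (nat_lit 2) (nat_lit 5) (nat_lit 4) (nat_lit 4) (nat_lit 2) (nat_lit 4) (nat_lit 422) (nat_lit 299) (nat_lit 179))))) (XT.nd (nat_lit 234) (nat_lit 0) (nat_lit 0) (XT.nd (nat_lit 78) (nat_lit 0) (nat_lit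 0) (XT.lf (nat_lit 0) (nat_lit 39041132899) (nat_lit 152) (nat_lit 356892929442) (nat_lit 0) (nat_lit 20055993790) (nat_lit 2) (nat_lit 5) (nat_lit 4) (nat_lit 4) (nat_lit 2) (nat_lit 4) (nat_lit 423) (nat_lit 299) (nat_lit 178)) (XT.nd (nat_lit 78) (nat_lit 0) (nat_lit 0) (XT.lf (nat_lit 0) (nat_lit 50204308968) (nat_lit 152) (nat_lit 354858832697) (nat_lit 0) (nat_lit 31216695422) (nat_lit 2) (nat_lit 5) (nat_lit 4) (nat_lit 4) (nat_lit 2) (nat_lit 4) (nat_lit 424) (nat_lit 299) (nat_lit 177)) (XT.lf (nat_lit 0) (nat_lit 61923078455) (nat_lit 152) (nat_lit 352728049000) (nat_lit 0) (nat_lit 42933108303) (nat_lit 2) (nat_lit 5) (nat_lit 4) (nat_lit 4) (nat_lit 2) (nat_lit 4) (nat_lit 425) (nat_lit 299) (nat_lit 176)))) (XT.nd (nat_lit 78) (nat_lit 0) (nat_lit 0) (XT.lf (nat_lit 0) (nat_lit 74225343192) (nat_lit 152) (nat_lit 350495505056) (nat_lit 0) (nat_lit 55233128653) (nat_lit 2) (nat_lit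 5) (nat_lit 4) (nat_lit 4) (nat_lit 2) (nat_lit 4) (nat_lit 426) (nat_lit 299) (nat_lit 175)) (XT.nd (nat_lit 78) (nat_lit 0) (nat_lit 0) (XT.lf (nat_lit 0) (nat_lit 87140394286) (nat_lit 152) (nat_lit 348155885285) (nat_lit 0) (nat_lit 68146042235) (nat_lit 2) (nat_lit 5) (nat_lit 4) (nat_lit 4) (nat_lit 2) (nat_lit 4) (nat_lit 427) (nat_lit 299) (nat_lit 174)) (XT.lf (nat_lit 0) (nat_lit 100698981858) (nat_lit 152) (nat_lit 345703619163) (nat_lit 0) (nat_lit 81702594082) (nat_lit 2) (nat_lit 5) (nat_lit 4) (nat_lit 4) (nat_lit 2) (nat_lit 4) (nat_lit 428) (nat_lit 299) (nat_lit 173))))))) (XT.nd (nat_lit 37362) (nat_lit 0) (nat_lit 6992) (XT.nd (nat_lit 36894) (nat_lit 0) (nat_lit 11020) (XT.nd (nat_lit 156) (nat_lit 0) (nat_lit 0) (XT.nd (nat_lit 78) (nat_lit 0) (nat_lit 0) (XT.lf (nat_lit 0) (nat_lit 114933388259) (nat_lit 152) (nat_lit 343132867962) (nat_lit 0) (nat_lit 95935061697)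 (nat_lit 2) (nat_lit 5) (nat_lit 4) (nat_lit 4) (nat_lit 2) (nat_lit 4) (nat_lit 429) (nat_lit 299) (nat_lit 172)) (XT.lf (nat_lit 0) (nat_lit 129877504934) (nat_lit 152) (nat_lit 340437510845) (nat_lit 0) (nat_lit 110877331909) (nat_lit 2) (nat_lit 5) (nat_lit 4) (nat_lit 4) (nat_lit 2) (nat_lit 4) (nat_lit 430) (nat_lit 299) (nat_lit 171))) (XT.nd (nat_lit 78) (nat_lit 0) (nat_lit 0) (XT.lf (nat_lit 0) (nat_lit 145566913113) (nat_lit 152) (nat_lit 337611130295) (nat_lit 0) (nat_lit 126564981552) (nat_lit 2) (nat_lit 5) (nat_lit 4) (nat_lit 4) (nat_lit 2) (nat_lit 4) (nat_lit 431) (nat_lit 299) (nat_lit 170)) (XT.nd (nat_lit 36582) (nat_lit 0) (nat_lit 11704) (XT.lf (nat_lit 0) (nat_lit 162038968528) (nat_lit 152) (nat_lit 334646996835) (nat_lit 0) (nat_lit 143035362171) (nat_lit 2) (nat_lit 5) (nat_lit 4) (nat_lit 4) (nat_lit 2) (nat_lit 4) (nat_lit 432) (nat_lit 299) (nat_lit 169)) (XT.lf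 (nat_lit 0) (nat_lit 1073741823) (nat_lit 0) (nat_lit 0) (nat_lit 0) (nat_lit 0) (nat_lit 156) (nat_lit 0) (nat_lit 1) (nat_lit 0) (nat_lit 1) (nat_lit 0) (nat_lit 300) (nat_lit 300) (nat_lit 300))))) (XT.nd (nat_lit 234) (nat_lit 456) (nat_lit 0) (XT.nd (nat_lit 78) (nat_lit 152) (nat_lit 0) (XT.lf (nat_lit 0) (nat_lit 3021899258) (nat_lit 76) (nat_lit 3324934766) (nat_lit 0) (nat_lit 98253663) (nat_lit 155) (nat_lit 5) (nat_lit 156) (nat_lit 0) (nat_lit 155) (nat_lit 4) (nat_lit 301) (nat_lit 300) (nat_lit 299)) (XT.nd (nat_lit 78) (nat_lit 152) (nat_lit 0) (XT.lf (nat_lit 0) (nat_lit 6003064898) (nat_lit 76) (nat_lit 159857056) (nat_lit 0) (nat_lit 294994927) (nat_lit 155) (nat_lit 5) (nat_lit 156) (nat_lit 0) (nat_lit 155) (nat_lit 4) (nat_lit 302) (nat_lit 300) (nat_lit 298)) (XT.lf (nat_lit 0) (nat_lit 2440751559) (nat_lit 152) (nat_lit 3356362013) (nat_lit 76) (nat_lit 679419153)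 (nat_lit 153) (nat_lit 5) (nat_lit 155) (nat_lit 5) (nat_lit 154) (nat_lit 4) (nat_lit 303) (nat_lit 300) (nat_lit 297)))) (XT.nd (nat_lit 78) (nat_lit 456) (nat_lit 0) (XT.lf (nat_lit 0) (nat_lit 5289731863) (nat_lit 152) (nat_lit 41507379) (nat_lit 76) (nat_lit 1173678458) (nat_lit 153) (nat_lit 5) (nat_lit 155) (nat_lit 5) (nat_lit 154) (nat_lit 4) (nat_lit 304) (nat_lit 300) (nat_lit 296)) (XT.nd (nat_lit 78) (nat_lit 228) (nat_lit 0) (XT.lf (nat_lit 0) (nat_lit 1571719804) (nat_lit 228) (nat_lit 3119556583) (nat_lit 76) (nat_lit 1848390940) (nat_lit 150) (nat_lit 5) (nat_lit 153) (nat_lit 5) (nat_lit 151) (nat_lit 5) (nat_lit 305) (nat_lit 300) (nat_lit 295)) (XT.lf (nat_lit 0) (nat_lit 364991599) (nat_lit 228) (nat_lit 3931695823) (nat_lit 304) (nat_lit 2286843325) (nat_lit 147) (nat_lit 5) (nat_lit 150) (nat_lit 5) (nat_lit 151) (nat_lit 5) (nat_lit 306) (nat_lit 300) (nat_lit 294))))))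 (XT.nd (nat_lit 468) (nat_lit 2736) (nat_lit 0) (XT.nd (nat_lit 234) (nat_lit 912) (nat_lit 0) (XT.nd (nat_lit 78) (nat_lit 304) (nat_lit 0) (XT.lf (nat_lit 0) (nat_lit 401594736) (nat_lit 304) (nat_lit 2614878439) (nat_lit 76) (nat_lit 3618509896) (nat_lit 146) (nat_lit 5) (nat_lit 150) (nat_lit 5) (nat_lit 147) (nat_lit 5) (nat_lit 307) (nat_lit 300) (nat_lit 293)) (XT.nd (nat_lit 78) (nat_lit 0) (nat_lit 0) (XT.lf (nat_lit 0) (nat_lit 1059787082) (nat_lit 304) (nat_lit 1948637872) (nat_lit 380) (nat_lit 3685969879) (nat_lit 142) (nat_lit 5) (nat_lit 146) (nat_lit 5) (nat_lit 147) (nat_lit 5) (nat_lit 308) (nat_lit 300) (nat_lit 292)) (XT.lf (nat_lit 0) (nat_lit 4905063129) (nat_lit 304) (nat_lit 734887850) (nat_lit 380) (nat_lit 1122396525) (nat_lit 142) (nat_lit 5) (nat_lit 146) (nat_lit 5) (nat_lit 147) (nat_lit 5) (nat_lit 309) (nat_lit 300) (nat_lit 291)))) (XT.nd (nat_lit 78) (nat_lit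 456) (nat_lit 0) (XT.lf (nat_lit 0) (nat_lit 1415666196) (nat_lit 456) (nat_lit 4802544772) (nat_lit 76) (nat_lit 619696004) (nat_lit 136) (nat_lit 5) (nat_lit 142) (nat_lit 5) (nat_lit 137) (nat_lit 5) (nat_lit 310) (nat_lit 300) (nat_lit 290)) (XT.nd (nat_lit 78) (nat_lit 456) (nat_lit 0) (XT.lf (nat_lit 0) (nat_lit 3947447047) (nat_lit 456) (nat_lit 869702577) (nat_lit 76) (nat_lit 2104196868) (nat_lit 136) (nat_lit 5) (nat_lit 142) (nat_lit 5) (nat_lit 137) (nat_lit 5) (nat_lit 311) (nat_lit 300) (nat_lit 289)) (XT.lf (nat_lit 0) (nat_lit 3259152320) (nat_lit 456) (nat_lit 3264709010) (nat_lit 532) (nat_lit 489431407) (nat_lit 130) (nat_lit 5) (nat_lit 136) (nat_lit 5) (nat_lit 137) (nat_lit 5) (nat_lit 312) (nat_lit 300) (nat_lit 288))))) (XT.nd (nat_lit 234) (nat_lit 1520) (nat_lit 0) (XT.nd (nat_lit 78) (nat_lit 608) (nat_lit 0) (XT.lf (nat_lit 0) (nat_lit 386817695) (nat_lit 532)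 (nat_lit 1555177072) (nat_lit 608) (nat_lit 5171873873) (nat_lit 122) (nat_lit 5) (nat_lit 129) (nat_lit 5) (nat_lit 130) (nat_lit 5) (nat_lit 313) (nat_lit 300) (nat_lit 287)) (XT.nd (nat_lit 78) (nat_lit 608) (nat_lit 0) (XT.lf (nat_lit 0) (nat_lit 4421329741) (nat_lit 608) (nat_lit 2476794381) (nat_lit 76) (nat_lit 324013465) (nat_lit 122) (nat_lit 5) (nat_lit 130) (nat_lit 5) (nat_lit 123) (nat_lit 5) (nat_lit 314) (nat_lit 300) (nat_lit 286)) (XT.lf (nat_lit 0) (nat_lit 1914274003) (nat_lit 608) (nat_lit 5046140017) (nat_lit 684) (nat_lit 378811790) (nat_lit 114) (nat_lit 5) (nat_lit 122) (nat_lit 5) (nat_lit 123) (nat_lit 5) (nat_lit 315) (nat_lit 300) (nat_lit 285)))) (XT.nd (nat_lit 78) (nat_lit 1444) (nat_lit 0) (XT.lf (nat_lit 0) (nat_lit 2020017688) (nat_lit 684) (nat_lit 993472553) (nat_lit 76) (nat_lit 4450915295) (nat_lit 113) (nat_lit 5) (nat_lit 122) (nat_lit 5) (nat_lit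 114) (nat_lit 5) (nat_lit 316) (nat_lit 300) (nat_lit 284)) (XT.nd (nat_lit 78) (nat_lit 760) (nat_lit 0) (XT.lf (nat_lit 0) (nat_lit 3666130924) (nat_lit 684) (nat_lit 805138000) (nat_lit 760) (nat_lit 3127172691) (nat_lit 104) (nat_lit 5) (nat_lit 113) (nat_lit 5) (nat_lit 114) (nat_lit 5) (nat_lit 317) (nat_lit 300) (nat_lit 283)) (XT.lf (nat_lit 0) (nat_lit 746293824) (nat_lit 760) (nat_lit 6242958342) (nat_lit 836) (nat_lit 752879250) (nat_lit 94) (nat_lit 5) (nat_lit 104) (nat_lit 5) (nat_lit 105) (nat_lit 5) (nat_lit 318) (nat_lit 300) (nat_lit 282))))))))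
noncomputable def xc100 : XT := (XT.nd (nat_lit 1716) (nat_lit 1748) (nat_lit 0) (XT.nd (nat_lit 858) (nat_lit 1672) (nat_lit 0) (XT.nd (nat_lit 390) (nat_lit 988) (nat_lit 0) (XT.nd (nat_lit 156) (nat_lit 760) (nat_lit 0) (XT.nd (nat_lit 78) (nat_lit 380) (nat_lit 0) (XT.lf (nat_lit 0) (nat_lit 1658725979) (nat_lit 836) (nat_lit 2246256377) (nat_lit 76) (nat_lit 3988095809) (nat_lit 93) (nat_lit 5) (nat_lit 104) (nat_lit 5) (nat_lit 94) (nat_lit 5) (nat_lit 319) (nat_lit 300) (nat_lit 281)) (XT.lf (nat_lit 0) (nat_lit 2709987706) (nat_lit 380) (nat_lit 1396414310) (nat_lit 456) (nat_lit 3947652062) (nat_lit 88) (nat_lit 5) (nat_lit 93) (nat_lit 5) (nat_lit 94) (nat_lit 5) (nat_lit 320) (nat_lit 300) (nat_lit 280))) (XT.nd (nat_lit 78) (nat_lit 760) (nat_lit 0) (XT.lf (nat_lit 0) (nat_lit 6636067448) (nat_lit 456) (nat_lit 357572594) (nat_lit 76) (nat_lit 1231590420) (nat_lit 88) (nat_lit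 5) (nat_lit 94) (nat_lit 5) (nat_lit 89) (nat_lit 5) (nat_lit 321) (nat_lit 300) (nat_lit 279)) (XT.nd (nat_lit 78) (nat_lit 380) (nat_lit 0) (XT.lf (nat_lit 0) (nat_lit 864668123) (nat_lit 380) (nat_lit 3509581183) (nat_lit 76) (nat_lit 4029852661) (nat_lit 83) (nat_lit 5) (nat_lit 88) (nat_lit 5) (nat_lit 84) (nat_lit 5) (nat_lit 322) (nat_lit 300) (nat_lit 278)) (XT.lf (nat_lit 0) (nat_lit 1755228752) (nat_lit 380) (nat_lit 1573687996) (nat_lit 456) (nat_lit 5264755081) (nat_lit 78) (nat_lit 5) (nat_lit 83) (nat_lit 5) (nat_lit 84) (nat_lit 5) (nat_lit 323) (nat_lit 300) (nat_lit 277))))) (XT.nd (nat_lit 234) (nat_lit 304) (nat_lit 0) (XT.nd (nat_lit 78) (nat_lit 684) (nat_lit 0) (XT.lf (nat_lit 0) (nat_lit 5908283589) (nat_lit 456) (nat_lit 1514446165) (nat_lit 76) (nat_lit 1370503700) (nat_lit 78) (nat_lit 5) (nat_lit 84) (nat_lit 5) (nat_lit 79) (nat_lit 5) (nat_lit 324) (nat_lit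 300) (nat_lit 276)) (XT.nd (nat_lit 78) (nat_lit 380) (nat_lit 0) (XT.lf (nat_lit 0) (nat_lit 4078089926) (nat_lit 304) (nat_lit 4542429612) (nat_lit 380) (nat_lit 382161973) (nat_lit 74) (nat_lit 5) (nat_lit 78) (nat_lit 5) (nat_lit 79) (nat_lit 5) (nat_lit 325) (nat_lit 300) (nat_lit 275)) (XT.lf (nat_lit 0) (nat_lit 663645098) (nat_lit 304) (nat_lit 1462148429) (nat_lit 380) (nat_lit 7097553750) (nat_lit 69) (nat_lit 5) (nat_lit 73) (nat_lit 5) (nat_lit 74) (nat_lit 5) (nat_lit 326) (nat_lit 300) (nat_lit 274)))) (XT.nd (nat_lit 78) (nat_lit 304) (nat_lit 0) (XT.lf (nat_lit 0) (nat_lit 4776339453) (nat_lit 380) (nat_lit 2889748616) (nat_lit 76) (nat_lit 1787232536) (nat_lit 69) (nat_lit 5) (nat_lit 74) (nat_lit 5) (nat_lit 70) (nat_lit 5) (nat_lit 327) (nat_lit 300) (nat_lit 273)) (XT.nd (nat_lit 78) (nat_lit 76) (nat_lit 0) (XT.lf (nat_lit 0) (nat_lit 3036111043) (nat_lit 228) (nat_lit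 4516197345) (nat_lit 304) (nat_lit 2142924484) (nat_lit 66) (nat_lit 5) (nat_lit 69) (nat_lit 5) (nat_lit 70) (nat_lit 5) (nat_lit 328) (nat_lit 300) (nat_lit 272)) (XT.lf (nat_lit 0) (nat_lit 473386098) (nat_lit 304) (nat_lit 698905899) (nat_lit 76) (nat_lit 8778015411) (nat_lit 65) (nat_lit 5) (nat_lit 69) (nat_lit 5) (nat_lit 66) (nat_lit 5) (nat_lit 329) (nat_lit 300) (nat_lit 271)))))) (XT.nd (nat_lit 390) (nat_lit 836) (nat_lit 0) (XT.nd (nat_lit 156) (nat_lit 304) (nat_lit 0) (XT.nd (nat_lit 78) (nat_lit 228) (nat_lit 0) (XT.lf (nat_lit 0) (nat_lit 3200277739) (nat_lit 380) (nat_lit 4647264776) (nat_lit 76) (nat_lit 2366321046) (nat_lit 61) (nat_lit 5) (nat_lit 66) (nat_lit 5) (nat_lit 62) (nat_lit 5) (nat_lit 330) (nat_lit 300) (nat_lit 270)) (XT.lf (nat_lit 0) (nat_lit 1613157269) (nat_lit 228) (nat_lit 4434533779) (nat_lit 304) (nat_lit 4443767597) (nat_lit 58) (nat_lit 5) (nat_lit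 61) (nat_lit 5) (nat_lit 62) (nat_lit 5) (nat_lit 331) (nat_lit 300) (nat_lit 269))) (XT.nd (nat_lit 78) (nat_lit 304) (nat_lit 0) (XT.lf (nat_lit 0) (nat_lit 8250835549) (nat_lit 228) (nat_lit 795010778) (nat_lit 304) (nat_lit 1736735235) (nat_lit 58) (nat_lit 5) (nat_lit 61) (nat_lit 5) (nat_lit 62) (nat_lit 5) (nat_lit 332) (nat_lit 300) (nat_lit 268)) (XT.nd (nat_lit 78) (nat_lit 0) (nat_lit 0) (XT.lf (nat_lit 0) (nat_lit 1115140066) (nat_lit 304) (nat_lit 6982804886) (nat_lit 76) (nat_lit 2987269060) (nat_lit 54) (nat_lit 5) (nat_lit 58) (nat_lit 5) (nat_lit 55) (nat_lit 5) (nat_lit 333) (nat_lit 300) (nat_lit 267)) (XT.lf (nat_lit 0) (nat_lit 4041081421) (nat_lit 304) (nat_lit 383095553) (nat_lit 76) (nat_lit 6977943229) (nat_lit 54) (nat_lit 5) (nat_lit 58) (nat_lit 5) (nat_lit 55) (nat_lit 5) (nat_lit 334) (nat_lit 300) (nat_lit 266))))) (XT.nd (nat_lit 234) (nat_lit 380) (nat_lit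 0) (XT.nd (nat_lit 78) (nat_lit 304) (nat_lit 0) (XT.lf (nat_lit 0) (nat_lit 6668388471) (nat_lit 152) (nat_lit 485449111) (nat_lit 228) (nat_lit 4579063065) (nat_lit 52) (nat_lit 5) (nat_lit 54) (nat_lit 5) (nat_lit 55) (nat_lit 5) (nat_lit 335) (nat_lit 300) (nat_lit 265)) (XT.nd (nat_lit 78) (nat_lit 76) (nat_lit 0) (XT.lf (nat_lit 0) (nat_lit 1917244981) (nat_lit 228) (nat_lit 8536090507) (nat_lit 304) (nat_lit 1625381646) (nat_lit 49) (nat_lit 5) (nat_lit 52) (nat_lit 5) (nat_lit 53) (nat_lit 5) (nat_lit 336) (nat_lit 300) (nat_lit 264)) (XT.lf (nat_lit 0) (nat_lit 1461962849) (nat_lit 304) (nat_lit 3139496167) (nat_lit 76) (nat_lit 7837599596) (nat_lit 48) (nat_lit 5) (nat_lit 52) (nat_lit 5) (nat_lit 49) (nat_lit 5) (nat_lit 337) (nat_lit 300) (nat_lit 263)))) (XT.nd (nat_lit 78) (nat_lit 228) (nat_lit 0) (XT.lf (nat_lit 0) (nat_lit 4254070653) (nat_lit 152) (nat_lit 402432203) (nat_lit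 228) (nat_lit 8159254547) (nat_lit 46) (nat_lit 5) (nat_lit 48) (nat_lit 5) (nat_lit 49) (nat_lit 5) (nat_lit 338) (nat_lit 300) (nat_lit 262)) (XT.nd (nat_lit 78) (nat_lit 228) (nat_lit 0) (XT.lf (nat_lit 0) (nat_lit 8069368795) (nat_lit 228) (nat_lit 1235779049) (nat_lit 76) (nat_lit 3903256304) (nat_lit 46) (nat_lit 5) (nat_lit 49) (nat_lit 5) (nat_lit 47) (nat_lit 5) (nat_lit 339) (nat_lit 300) (nat_lit 261)) (XT.lf (nat_lit 0) (nat_lit 6574505980) (nat_lit 228) (nat_lit 5132382439) (nat_lit 304) (nat_lit 1911135206) (nat_lit 43) (nat_lit 5) (nat_lit 46) (nat_lit 5) (nat_lit 47) (nat_lit 5) (nat_lit 340) (nat_lit 300) (nat_lit 260))))))) (XT.nd (nat_lit 858) (nat_lit 684) (nat_lit 0) (XT.nd (nat_lit 390) (nat_lit 456) (nat_lit 0) (XT.nd (nat_lit 156) (nat_lit 380) (nat_lit 0) (XT.nd (nat_lit 78) (nat_lit 0) (nat_lit 0) (XT.lf (nat_lit 0) (nat_lit 683368323) (nat_lit 152) (nat_lit 724580210)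 (nat_lit 228) (nat_lit 12640203797) (nat_lit 40) (nat_lit 5) (nat_lit 42) (nat_lit 5) (nat_lit 43) (nat_lit 5) (nat_lit 341) (nat_lit 300) (nat_lit 259)) (XT.lf (nat_lit 0) (nat_lit 4956904035) (nat_lit 228) (nat_lit 5633969338) (nat_lit 76) (nat_lit 3900975722) (nat_lit 40) (nat_lit 5) (nat_lit 43) (nat_lit 5) (nat_lit 41) (nat_lit 5) (nat_lit 342) (nat_lit 300) (nat_lit 258))) (XT.nd (nat_lit 78) (nat_lit 228) (nat_lit 0) (XT.lf (nat_lit 0) (nat_lit 2467583056) (nat_lit 152) (nat_lit 6214659029) (nat_lit 228) (nat_lit 6275575537) (nat_lit 38) (nat_lit 5) (nat_lit 40) (nat_lit 5) (nat_lit 41) (nat_lit 5) (nat_lit 343) (nat_lit 300) (nat_lit 257)) (XT.nd (nat_lit 78) (nat_lit 228) (nat_lit 0) (XT.lf (nat_lit 0) (nat_lit 11088246192) (nat_lit 152) (nat_lit 1550722824) (nat_lit 228) (nat_lit 2805891517) (nat_lit 38) (nat_lit 5) (nat_lit 40) (nat_lit 5) (nat_lit 41) (nat_lit 5) (nat_lit 344)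 (nat_lit 300) (nat_lit 256)) (XT.lf (nat_lit 0) (nat_lit 880820334) (nat_lit 228) (nat_lit 11781262158) (nat_lit 76) (nat_lit 3290031477) (nat_lit 35) (nat_lit 5) (nat_lit 38) (nat_lit 5) (nat_lit 36) (nat_lit 5) (nat_lit 345) (nat_lit 300) (nat_lit 255))))) (XT.nd (nat_lit 234) (nat_lit 304) (nat_lit 0) (XT.nd (nat_lit 78) (nat_lit 152) (nat_lit 0) (XT.lf (nat_lit 0) (nat_lit 4709898148) (nat_lit 228) (nat_lit 3357702312) (nat_lit 76) (nat_lit 8412241062) (nat_lit 35) (nat_lit 5) (nat_lit 38) (nat_lit 5) (nat_lit 36) (nat_lit 5) (nat_lit 346) (nat_lit 300) (nat_lit 254)) (XT.nd (nat_lit 78) (nat_lit 0) (nat_lit 0) (XT.lf (nat_lit 0) (nat_lit 5589776667) (nat_lit 152) (nat_lit 3182129203) (nat_lit 228) (nat_lit 8260002157) (nat_lit 33) (nat_lit 5) (nat_lit 35) (nat_lit 5) (nat_lit 36) (nat_lit 5) (nat_lit 347) (nat_lit 300) (nat_lit 253)) (XT.lf (nat_lit 0) (nat_lit 13079962171) (nat_lit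 228) (nat_lit 2615604881) (nat_lit 76) (nat_lit 1913888513) (nat_lit 33) (nat_lit 5) (nat_lit 36) (nat_lit 5) (nat_lit 34) (nat_lit 4) (nat_lit 348) (nat_lit 300) (nat_lit 252)))) (XT.nd (nat_lit 78) (nat_lit 228) (nat_lit 0) (XT.lf (nat_lit 0) (nat_lit 6742816252) (nat_lit 76) (nat_lit 10974944334) (nat_lit 152) (nat_lit 492426851) (nat_lit 32) (nat_lit 5) (nat_lit 33) (nat_lit 5) (nat_lit 34) (nat_lit 4) (nat_lit 349) (nat_lit 300) (nat_lit 251)) (XT.nd (nat_lit 78) (nat_lit 152) (nat_lit 0) (XT.lf (nat_lit 0) (nat_lit 3628720039) (nat_lit 152) (nat_lit 2311332991) (nat_lit 76) (nat_lit 12897892998) (nat_lit 31) (nat_lit 5) (nat_lit 33) (nat_lit 5) (nat_lit 32) (nat_lit 5) (nat_lit 350) (nat_lit 300) (nat_lit 250)) (XT.lf (nat_lit 0) (nat_lit 7463465550) (nat_lit 152) (nat_lit 551593174) (nat_lit 228) (nat_lit 11477866699) (nat_lit 29) (nat_lit 5) (nat_lit 31) (nat_lit 5) (nat_lit 32)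 (nat_lit 5) (nat_lit 351) (nat_lit 300) (nat_lit 249)))))) (XT.nd (nat_lit 468) (nat_lit 304) (nat_lit 0) (XT.nd (nat_lit 234) (nat_lit 228) (nat_lit 0) (XT.nd (nat_lit 78) (nat_lit 152) (nat_lit 0) (XT.lf (nat_lit 0) (nat_lit 12699803787) (nat_lit 228) (nat_lit 2522102805) (nat_lit 76) (nat_lit 4954812404) (nat_lit 29) (nat_lit 5) (nat_lit 32) (nat_lit 5) (nat_lit 30) (nat_lit 4) (nat_lit 352) (nat_lit 300) (nat_lit 248)) (XT.nd (nat_lit 78) (nat_lit 76) (nat_lit 0) (XT.lf (nat_lit 0) (nat_lit 7628806892) (nat_lit 76) (nat_lit 10079634216) (nat_lit 152) (nat_lit 3181797133) (nat_lit 28) (nat_lit 5) (nat_lit 29) (nat_lit 5) (nat_lit 30) (nat_lit 4) (nat_lit 353) (nat_lit 300) (nat_lit 247)) (XT.lf (nat_lit 0) (nat_lit 1290658409) (nat_lit 152) (nat_lit 3351055884) (nat_lit 76) (nat_lit 16996444991) (nat_lit 27) (nat_lit 5) (nat_lit 29) (nat_lit 5) (nat_lit 28) (nat_lit 5) (nat_lit 354)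 (nat_lit 300) (nat_lit 246)))) (XT.nd (nat_lit 78) (nat_lit 76) (nat_lit 0) (XT.lf (nat_lit 0) (nat_lit 5974159790) (nat_lit 228) (nat_lit 15267896802) (nat_lit 76) (nat_lit 1174110332) (nat_lit 25) (nat_lit 5) (nat_lit 28) (nat_lit 5) (nat_lit 26) (nat_lit 4) (nat_lit 355) (nat_lit 300) (nat_lit 245)) (XT.nd (nat_lit 78) (nat_lit 76) (nat_lit 0) (XT.lf (nat_lit 0) (nat_lit 10989443607) (nat_lit 228) (nat_lit 5082654003) (nat_lit 76) (nat_lit 7156112388) (nat_lit 25) (nat_lit 5) (nat_lit 28) (nat_lit 5) (nat_lit 26) (nat_lit 4) (nat_lit 356) (nat_lit 300) (nat_lit 244)) (XT.lf (nat_lit 0) (nat_lit 5734144972) (nat_lit 76) (nat_lit 10576426602) (nat_lit 152) (nat_lit 7767544339) (nat_lit 24) (nat_lit 5) (nat_lit 25) (nat_lit 5) (nat_lit 26) (nat_lit 4) (nat_lit 357) (nat_lit 300) (nat_lit 243))))) (XT.nd (nat_lit 234) (nat_lit 76) (nat_lit 0) (XT.nd (nat_lit 78) (nat_lit 228) (nat_lit 0)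 (XT.lf (nat_lit 0) (nat_lit 17207995406) (nat_lit 76) (nat_lit 4742091297) (nat_lit 152) (nat_lit 3017827871) (nat_lit 24) (nat_lit 5) (nat_lit 25) (nat_lit 5) (nat_lit 26) (nat_lit 4) (nat_lit 358) (nat_lit 300) (nat_lit 242)) (XT.nd (nat_lit 78) (nat_lit 0) (nat_lit 0) (XT.lf (nat_lit 0) (nat_lit 1948881889) (nat_lit 228) (nat_lit 22550208935) (nat_lit 76) (nat_lit 1399460668) (nat_lit 21) (nat_lit 5) (nat_lit 24) (nat_lit 5) (nat_lit 22) (nat_lit 4) (nat_lit 359) (nat_lit 300) (nat_lit 241)) (XT.lf (nat_lit 0) (nat_lit 7241400422) (nat_lit 228) (nat_lit 11775834209) (nat_lit 76) (nat_lit 7847079475) (nat_lit 21) (nat_lit 5) (nat_lit 24) (nat_lit 5) (nat_lit 22) (nat_lit 4) (nat_lit 360) (nat_lit 300) (nat_lit 240)))) (XT.nd (nat_lit 78) (nat_lit 76) (nat_lit 0) (XT.lf (nat_lit 0) (nat_lit 12767669176) (nat_lit 228) (nat_lit 518686373) (nat_lit 76) (nat_lit 14593564592) (nat_lit 21) (nat_lit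 5) (nat_lit 24) (nat_lit 5) (nat_lit 22) (nat_lit 4) (nat_lit 361) (nat_lit 300) (nat_lit 239)) (XT.nd (nat_lit 78) (nat_lit 0) (nat_lit 0) (XT.lf (nat_lit 0) (nat_lit 11619948214) (nat_lit 76) (nat_lit 7102317676) (nat_lit 152) (nat_lit 10216450822) (nat_lit 20) (nat_lit 5) (nat_lit 21) (nat_lit 5) (nat_lit 22) (nat_lit 4) (nat_lit 362) (nat_lit 300) (nat_lit 238)) (XT.lf (nat_lit 0) (nat_lit 24331099981) (nat_lit 76) (nat_lit 623453032) (nat_lit 152) (nat_lit 5096912507) (nat_lit 20) (nat_lit 5) (nat_lit 21) (nat_lit 5) (nat_lit 22) (nat_lit 4) (nat_lit 363) (nat_lit 300) (nat_lit 237))))))))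
noncomputable def xc101 : XT := (XT.nd (nat_lit 1716) (nat_lit 456) (nat_lit 0) (XT.nd (nat_lit 858) (nat_lit 304) (nat_lit 0) (XT.nd (nat_lit 390) (nat_lit 228) (nat_lit 0) (XT.nd (nat_lit 156) (nat_lit 76) (nat_lit 0) (XT.nd (nat_lit 78) (nat_lit 0) (nat_lit 0) (XT.lf (nat_lit 0) (nat_lit 442928167) (nat_lit 152) (nat_lit 24699305390) (nat_lit 76) (nat_lit 6068748066) (nat_lit 18) (nat_lit 5) (nat_lit 20) (nat_lit 5) (nat_lit 19) (nat_lit 4) (nat_lit 364) (nat_lit 300) (nat_lit 236)) (XT.lf (nat_lit 0) (nat_lit 6169440154) (nat_lit 152) (nat_lit 13016137080) (nat_lit 76) (nat_lit 13234679068) (nat_lit 18) (nat_lit 5) (nat_lit 20) (nat_lit 5) (nat_lit 19) (nat_lit 4) (nat_lit 365) (nat_lit 300) (nat_lit 235))) (XT.nd (nat_lit 78) (nat_lit 76) (nat_lit 0) (XT.lf (nat_lit 0) (nat_lit 12155880704) (nat_lit 152) (nat_lit 797439918) (nat_lit 76) (nat_lit 20738002531) (nat_lit 18) (nat_lit 5)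 (nat_lit 20) (nat_lit 5) (nat_lit 19) (nat_lit 4) (nat_lit 366) (nat_lit 300) (nat_lit 234)) (XT.nd (nat_lit 78) (nat_lit 0) (nat_lit 0) (XT.lf (nat_lit 0) (nat_lit 12382185495) (nat_lit 76) (nat_lit 6227638368) (nat_lit 152) (nat_lit 16407718632) (nat_lit 17) (nat_lit 5) (nat_lit 18) (nat_lit 5) (nat_lit 19) (nat_lit 4) (nat_lit 367) (nat_lit 300) (nat_lit 233)) (XT.lf (nat_lit 0) (nat_lit 25388235982) (nat_lit 152) (nat_lit 10220648526) (nat_lit 0) (nat_lit 801107494) (nat_lit 17) (nat_lit 5) (nat_lit 19) (nat_lit 4) (nat_lit 17) (nat_lit 4) (nat_lit 368) (nat_lit 300) (nat_lit 232))))) (XT.nd (nat_lit 234) (nat_lit 76) (nat_lit 0) (XT.nd (nat_lit 78) (nat_lit 76) (nat_lit 0) (XT.lf (nat_lit 0) (nat_lit 2756665968) (nat_lit 76) (nat_lit 29870243195) (nat_lit 76) (nat_lit 5239095217) (nat_lit 16) (nat_lit 4) (nat_lit 17) (nat_lit 5) (nat_lit 17) (nat_lit 4) (nat_lit 369) (nat_lit 300)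 (nat_lit 231)) (XT.nd (nat_lit 78) (nat_lit 0) (nat_lit 0) (XT.lf (nat_lit 0) (nat_lit 958248499) (nat_lit 152) (nat_lit 22708661877) (nat_lit 76) (nat_lit 15719653618) (nat_lit 15) (nat_lit 5) (nat_lit 17) (nat_lit 5) (nat_lit 16) (nat_lit 4) (nat_lit 370) (nat_lit 300) (nat_lit 230)) (XT.lf (nat_lit 0) (nat_lit 7266793574) (nat_lit 152) (nat_lit 9816071448) (nat_lit 76) (nat_lit 23897128528) (nat_lit 15) (nat_lit 5) (nat_lit 17) (nat_lit 5) (nat_lit 16) (nat_lit 4) (nat_lit 371) (nat_lit 300) (nat_lit 229)))) (XT.nd (nat_lit 78) (nat_lit 0) (nat_lit 0) (XT.lf (nat_lit 0) (nat_lit 3802634531) (nat_lit 76) (nat_lit 10125979370) (nat_lit 152) (nat_lit 28722594386) (nat_lit 14) (nat_lit 5) (nat_lit 15) (nat_lit 5) (nat_lit 16) (nat_lit 4) (nat_lit 372) (nat_lit 300) (nat_lit 228)) (XT.nd (nat_lit 78) (nat_lit 0) (nat_lit 0) (XT.lf (nat_lit 0) (nat_lit 18403494364) (nat_lit 76) (nat_lit 2665156013)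 (nat_lit 152) (nat_lit 23330082938) (nat_lit 14) (nat_lit 5) (nat_lit 15) (nat_lit 5) (nat_lit 16) (nat_lit 4) (nat_lit 373) (nat_lit 300) (nat_lit 227)) (XT.lf (nat_lit 0) (nat_lit 28626002916) (nat_lit 152) (nat_lit 12618360807) (nat_lit 0) (nat_lit 4986260694) (nat_lit 14) (nat_lit 5) (nat_lit 16) (nat_lit 4) (nat_lit 14) (nat_lit 4) (nat_lit 374) (nat_lit 300) (nat_lit 226)))))) (XT.nd (nat_lit 390) (nat_lit 76) (nat_lit 0) (XT.nd (nat_lit 156) (nat_lit 152) (nat_lit 0) (XT.nd (nat_lit 78) (nat_lit 0) (nat_lit 0) (XT.lf (nat_lit 0) (nat_lit 1391614935) (nat_lit 76) (nat_lit 35215613108) (nat_lit 76) (nat_lit 11544587056) (nat_lit 13) (nat_lit 4) (nat_lit 14) (nat_lit 5) (nat_lit 14) (nat_lit 4) (nat_lit 375) (nat_lit 300) (nat_lit 225)) (XT.lf (nat_lit 0) (nat_lit 16504165116) (nat_lit 76) (nat_lit 28677996517) (nat_lit 76) (nat_lit 4977176342) (nat_lit 13) (nat_lit 4) (nat_lit 14)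 (nat_lit 5) (nat_lit 14) (nat_lit 4) (nat_lit 376) (nat_lit 300) (nat_lit 224))) (XT.nd (nat_lit 78) (nat_lit 76) (nat_lit 0) (XT.lf (nat_lit 0) (nat_lit 1838751847) (nat_lit 152) (nat_lit 19959754243) (nat_lit 76) (nat_lit 30468160003) (nat_lit 12) (nat_lit 5) (nat_lit 14) (nat_lit 5) (nat_lit 13) (nat_lit 4) (nat_lit 377) (nat_lit 300) (nat_lit 223)) (XT.nd (nat_lit 78) (nat_lit 76) (nat_lit 0) (XT.lf (nat_lit 0) (nat_lit 8810643329) (nat_lit 152) (nat_lit 5694400853) (nat_lit 76) (nat_lit 39971119488) (nat_lit 12) (nat_lit 5) (nat_lit 14) (nat_lit 5) (nat_lit 13) (nat_lit 4) (nat_lit 378) (nat_lit 300) (nat_lit 222)) (XT.lf (nat_lit 0) (nat_lit 9558491533) (nat_lit 76) (nat_lit 6705141879) (nat_lit 152) (nat_lit 40525881643) (nat_lit 11) (nat_lit 5) (nat_lit 12) (nat_lit 5) (nat_lit 13) (nat_lit 4) (nat_lit 379) (nat_lit 300) (nat_lit 221))))) (XT.nd (nat_lit 234) (nat_lit 76) (nat_lit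 0) (XT.nd (nat_lit 78) (nat_lit 0) (nat_lit 0) (XT.lf (nat_lit 0) (nat_lit 24193822171) (nat_lit 152) (nat_lit 33498493439) (nat_lit 0) (nat_lit 1520994873) (nat_lit 11) (nat_lit 5) (nat_lit 13) (nat_lit 4) (nat_lit 11) (nat_lit 4) (nat_lit 380) (nat_lit 300) (nat_lit 220)) (XT.nd (nat_lit 78) (nat_lit 0) (nat_lit 0) (XT.lf (nat_lit 0) (nat_lit 32614583202) (nat_lit 152) (nat_lit 19219490014) (nat_lit 0) (nat_lit 9919523071) (nat_lit 11) (nat_lit 5) (nat_lit 13) (nat_lit 4) (nat_lit 11) (nat_lit 4) (nat_lit 381) (nat_lit 300) (nat_lit 219)) (XT.lf (nat_lit 0) (nat_lit 41441279882) (nat_lit 152) (nat_lit 4255329565) (nat_lit 0) (nat_lit 18725045624) (nat_lit 11) (nat_lit 5) (nat_lit 13) (nat_lit 4) (nat_lit 11) (nat_lit 4) (nat_lit 382) (nat_lit 300) (nat_lit 218)))) (XT.nd (nat_lit 78) (nat_lit 0) (nat_lit 0) (XT.lf (nat_lit 0) (nat_lit 11807531613) (nat_lit 76) (nat_lit 39071745200) (nat_lit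 76) (nat_lit 16335345106) (nat_lit 10) (nat_lit 4) (nat_lit 11) (nat_lit 5) (nat_lit 11) (nat_lit 4) (nat_lit 383) (nat_lit 300) (nat_lit 217)) (XT.nd (nat_lit 78) (nat_lit 0) (nat_lit 0) (XT.lf (nat_lit 0) (nat_lit 28794291532) (nat_lit 76) (nat_lit 32052828571) (nat_lit 76) (nat_lit 9297222919) (nat_lit 10) (nat_lit 4) (nat_lit 11) (nat_lit 5) (nat_lit 11) (nat_lit 4) (nat_lit 384) (nat_lit 300) (nat_lit 216)) (XT.lf (nat_lit 0) (nat_lit 46604694444) (nat_lit 76) (nat_lit 24695213918) (nat_lit 76) (nat_lit 1921317259) (nat_lit 10) (nat_lit 4) (nat_lit 11) (nat_lit 5) (nat_lit 11) (nat_lit 4) (nat_lit 385) (nat_lit 300) (nat_lit 215))))))) (XT.nd (nat_lit 858) (nat_lit 228) (nat_lit 0) (XT.nd (nat_lit 390) (nat_lit 76) (nat_lit 0) (XT.nd (nat_lit 156) (nat_lit 0) (nat_lit 0) (XT.nd (nat_lit 78) (nat_lit 76) (nat_lit 0) (XT.lf (nat_lit 0) (nat_lit 5623979395) (nat_lit 152) (nat_lit 11262158905)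 (nat_lit 76) (nat_lit 59561921862) (nat_lit 9) (nat_lit 5) (nat_lit 11) (nat_lit 5) (nat_lit 10) (nat_lit 4) (nat_lit 386) (nat_lit 300) (nat_lit 214)) (XT.lf (nat_lit 0) (nat_lit 4963581817) (nat_lit 76) (nat_lit 8583485970) (nat_lit 152) (nat_lit 66284341665) (nat_lit 8) (nat_lit 5) (nat_lit 9) (nat_lit 5) (nat_lit 10) (nat_lit 4) (nat_lit 387) (nat_lit 300) (nat_lit 213))) (XT.nd (nat_lit 78) (nat_lit 0) (nat_lit 0) (XT.lf (nat_lit 0) (nat_lit 22049916395) (nat_lit 152) (nat_lit 61011780054) (nat_lit 0) (nat_lit 313052006) (nat_lit 8) (nat_lit 5) (nat_lit 10) (nat_lit 4) (nat_lit 8) (nat_lit 4) (nat_lit 388) (nat_lit 300) (nat_lit 212)) (XT.nd (nat_lit 78) (nat_lit 0) (nat_lit 0) (XT.lf (nat_lit 0) (nat_lit 31106860484) (nat_lit 152) (nat_lit 46626284071) (nat_lit 0) (nat_lit 9355664613) (nat_lit 8) (nat_lit 5) (nat_lit 10) (nat_lit 4) (nat_lit 8) (nat_lit 4) (nat_lit 389) (nat_lit 300)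 (nat_lit 211)) (XT.lf (nat_lit 0) (nat_lit 40605451939) (nat_lit 152) (nat_lit 31543076234) (nat_lit 0) (nat_lit 18840607036) (nat_lit 8) (nat_lit 5) (nat_lit 10) (nat_lit 4) (nat_lit 8) (nat_lit 4) (nat_lit 390) (nat_lit 300) (nat_lit 210))))) (XT.nd (nat_lit 234) (nat_lit 0) (nat_lit 0) (XT.nd (nat_lit 78) (nat_lit 76) (nat_lit 0) (XT.lf (nat_lit 0) (nat_lit 50568306453) (nat_lit 152) (nat_lit 15726244144) (nat_lit 0) (nat_lit 28790462472) (nat_lit 8) (nat_lit 5) (nat_lit 10) (nat_lit 4) (nat_lit 8) (nat_lit 4) (nat_lit 391) (nat_lit 300) (nat_lit 209)) (XT.nd (nat_lit 78) (nat_lit 0) (nat_lit 0) (XT.lf (nat_lit 0) (nat_lit 890368680) (nat_lit 76) (nat_lit 60142677576) (nat_lit 76) (nat_lit 38352453522) (nat_lit 7) (nat_lit 4) (nat_lit 8) (nat_lit 5) (nat_lit 8) (nat_lit 4) (nat_lit 392) (nat_lit 300) (nat_lit 208)) (XT.lf (nat_lit 0) (nat_lit 18864549061) (nat_lit 76) (nat_lit 53412830269)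 (nat_lit 76) (nat_lit 31610815668) (nat_lit 7) (nat_lit 4) (nat_lit 8) (nat_lit 5) (nat_lit 8) (nat_lit 4) (nat_lit 393) (nat_lit 300) (nat_lit 207)))) (XT.nd (nat_lit 78) (nat_lit 0) (nat_lit 0) (XT.lf (nat_lit 0) (nat_lit 37719112011) (nat_lit 76) (nat_lit 46355316782) (nat_lit 76) (nat_lit 24542073090) (nat_lit 7) (nat_lit 4) (nat_lit 8) (nat_lit 5) (nat_lit 8) (nat_lit 4) (nat_lit 394) (nat_lit 300) (nat_lit 206)) (XT.nd (nat_lit 78) (nat_lit 0) (nat_lit 0) (XT.lf (nat_lit 0) (nat_lit 57498949347) (nat_lit 76) (nat_lit 38953333513) (nat_lit 76) (nat_lit 17129395448) (nat_lit 7) (nat_lit 4) (nat_lit 8) (nat_lit 5) (nat_lit 8) (nat_lit 4) (nat_lit 395) (nat_lit 300) (nat_lit 205)) (XT.lf (nat_lit 0) (nat_lit 78251155919) (nat_lit 76) (nat_lit 31189256692) (nat_lit 76) (nat_lit 9355133509) (nat_lit 7) (nat_lit 4) (nat_lit 8) (nat_lit 5) (nat_lit 8) (nat_lit 4) (nat_lit 396) (nat_lit 300)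 (nat_lit 204)))))) (XT.nd (nat_lit 468) (nat_lit 76) (nat_lit 0) (XT.nd (nat_lit 234) (nat_lit 0) (nat_lit 0) (XT.nd (nat_lit 78) (nat_lit 152) (nat_lit 0) (XT.lf (nat_lit 0) (nat_lit 100025141744) (nat_lit 76) (nat_lit 23044600421) (nat_lit 76) (nat_lit 1200777127) (nat_lit 7) (nat_lit 4) (nat_lit 8) (nat_lit 5) (nat_lit 8) (nat_lit 4) (nat_lit 397) (nat_lit 300) (nat_lit 203)) (XT.nd (nat_lit 78) (nat_lit 76) (nat_lit 0) (XT.lf (nat_lit 0) (nat_lit 7117744069) (nat_lit 152) (nat_lit 7261686154) (nat_lit 76) (nat_lit 115634463136) (nat_lit 6) (nat_lit 5) (nat_lit 8) (nat_lit 5) (nat_lit 7) (nat_lit 4) (nat_lit 398) (nat_lit 300) (nat_lit 202)) (XT.lf (nat_lit 0) (nat_lit 10885291374) (nat_lit 76) (nat_lit 5088928702) (nat_lit 152) (nat_lit 120061114084) (nat_lit 5) (nat_lit 5) (nat_lit 6) (nat_lit 5) (nat_lit 7) (nat_lit 4) (nat_lit 399) (nat_lit 300) (nat_lit 201)))) (XT.nd (nat_lit 78)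 (nat_lit 0) (nat_lit 0) (XT.lf (nat_lit 0) (nat_lit 25463827308) (nat_lit 152) (nat_lit 112249477505) (nat_lit 0) (nat_lit 4635028161) (nat_lit 5) (nat_lit 5) (nat_lit 7) (nat_lit 4) (nat_lit 5) (nat_lit 4) (nat_lit 400) (nat_lit 300) (nat_lit 200)) (XT.nd (nat_lit 78) (nat_lit 0) (nat_lit 0) (XT.lf (nat_lit 0) (nat_lit 35504159316) (nat_lit 152) (nat_lit 98801251595) (nat_lit 0) (nat_lit 14667759878) (nat_lit 5) (nat_lit 5) (nat_lit 7) (nat_lit 4) (nat_lit 5) (nat_lit 4) (nat_lit 401) (nat_lit 300) (nat_lit 199)) (XT.lf (nat_lit 0) (nat_lit 46039669215) (nat_lit 152) (nat_lit 84693893032) (nat_lit 0) (nat_lit 25196031403) (nat_lit 5) (nat_lit 5) (nat_lit 7) (nat_lit 4) (nat_lit 5) (nat_lit 4) (nat_lit 402) (nat_lit 300) (nat_lit 198))))) (XT.nd (nat_lit 234) (nat_lit 76) (nat_lit 0) (XT.nd (nat_lit 78) (nat_lit 0) (nat_lit 0) (XT.lf (nat_lit 0) (nat_lit 57095441550) (nat_lit 152) (nat_lit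 69893812868) (nat_lit 0) (nat_lit 36244910051) (nat_lit 5) (nat_lit 5) (nat_lit 7) (nat_lit 4) (nat_lit 5) (nat_lit 4) (nat_lit 403) (nat_lit 300) (nat_lit 197)) (XT.nd (nat_lit 78) (nat_lit 0) (nat_lit 0) (XT.lf (nat_lit 0) (nat_lit 68697799590) (nat_lit 152) (nat_lit 54365772816) (nat_lit 0) (nat_lit 47840702674) (nat_lit 5) (nat_lit 5) (nat_lit 7) (nat_lit 4) (nat_lit 5) (nat_lit 4) (nat_lit 404) (nat_lit 300) (nat_lit 196)) (XT.lf (nat_lit 0) (nat_lit 80874367998) (nat_lit 152) (nat_lit 38072801352) (nat_lit 0) (nat_lit 60011018302) (nat_lit 5) (nat_lit 5) (nat_lit 7) (nat_lit 4) (nat_lit 5) (nat_lit 4) (nat_lit 405) (nat_lit 300) (nat_lit 195)))) (XT.nd (nat_lit 78) (nat_lit 76) (nat_lit 0) (XT.lf (nat_lit 0) (nat_lit 93654138601) (nat_lit 152) (nat_lit 20976105688) (nat_lit 0) (nat_lit 72784833879) (nat_lit 5) (nat_lit 5) (nat_lit 7) (nat_lit 4) (nat_lit 5) (nat_lit 4) (nat_lit 406)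 (nat_lit 300) (nat_lit 194)) (XT.nd (nat_lit 78) (nat_lit 76) (nat_lit 0) (XT.lf (nat_lit 0) (nat_lit 107067539427) (nat_lit 152) (nat_lit 3034979404) (nat_lit 0) (nat_lit 86192563250) (nat_lit 5) (nat_lit 5) (nat_lit 7) (nat_lit 4) (nat_lit 5) (nat_lit 4) (nat_lit 407) (nat_lit 300) (nat_lit 193)) (XT.lf (nat_lit 0) (nat_lit 16315492105) (nat_lit 76) (nat_lit 105085745593) (nat_lit 76) (nat_lit 84205368031) (nat_lit 4) (nat_lit 4) (nat_lit 5) (nat_lit 5) (nat_lit 5) (nat_lit 4) (nat_lit 408) (nat_lit 300) (nat_lit 192))))))))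
noncomputable def xc102 : XT := (XT.nd (nat_lit 1716) (nat_lit 0) (nat_lit 0) (XT.nd (nat_lit 858) (nat_lit 152) (nat_lit 0) (XT.nd (nat_lit 390) (nat_lit 0) (nat_lit 0) (XT.nd (nat_lit 156) (nat_lit 0) (nat_lit 0) (XT.nd (nat_lit 78) (nat_lit 0) (nat_lit 0) (XT.lf (nat_lit 0) (nat_lit 36729105913) (nat_lit 76) (nat_lit 99768901463) (nat_lit 76) (nat_lit 78883379725) (nat_lit 4) (nat_lit 4) (nat_lit 5) (nat_lit 5) (nat_lit 5) (nat_lit 4) (nat_lit 409) (nat_lit 300) (nat_lit 191)) (XT.lf (nat_lit 0) (nat_lit 58154115735) (nat_lit 76) (nat_lit 94190726135) (nat_lit 76) (nat_lit 73300305181) (nat_lit 4) (nat_lit 4) (nat_lit 5) (nat_lit 5) (nat_lit 5) (nat_lit 4) (nat_lit 410) (nat_lit 300) (nat_lit 190))) (XT.nd (nat_lit 78) (nat_lit 0) (nat_lit 0) (XT.lf (nat_lit 0) (nat_lit 80641533500) (nat_lit 76) (nat_lit 88337938238) (nat_lit 76) (nat_lit 67442851364) (nat_lit 4) (nat_lit 4) (nat_lit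 5) (nat_lit 5) (nat_lit 5) (nat_lit 4) (nat_lit 411) (nat_lit 300) (nat_lit 189)) (XT.nd (nat_lit 78) (nat_lit 0) (nat_lit 0) (XT.lf (nat_lit 0) (nat_lit 104244900678) (nat_lit 76) (nat_lit 82196602563) (nat_lit 76) (nat_lit 61297071956) (nat_lit 4) (nat_lit 4) (nat_lit 5) (nat_lit 5) (nat_lit 5) (nat_lit 4) (nat_lit 412) (nat_lit 300) (nat_lit 188)) (XT.lf (nat_lit 0) (nat_lit 129020415764) (nat_lit 76) (nat_lit 75752096882) (nat_lit 76) (nat_lit 54848334149) (nat_lit 4) (nat_lit 4) (nat_lit 5) (nat_lit 5) (nat_lit 5) (nat_lit 4) (nat_lit 413) (nat_lit 300) (nat_lit 187))))) (XT.nd (nat_lit 234) (nat_lit 0) (nat_lit 0) (XT.nd (nat_lit 78) (nat_lit 0) (nat_lit 0) (XT.lf (nat_lit 0) (nat_lit 155027068078) (nat_lit 76) (nat_lit 68989077134) (nat_lit 76) (nat_lit 48081283804) (nat_lit 4) (nat_lit 4) (nat_lit 5) (nat_lit 5) (nat_lit 5) (nat_lit 4) (nat_lit 414) (nat_lit 300) (nat_lit 186))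 (XT.nd (nat_lit 78) (nat_lit 0) (nat_lit 0) (XT.lf (nat_lit 0) (nat_lit 182326778221) (nat_lit 76) (nat_lit 61891440891) (nat_lit 76) (nat_lit 40979808898) (nat_lit 4) (nat_lit 4) (nat_lit 5) (nat_lit 5) (nat_lit 5) (nat_lit 4) (nat_lit 415) (nat_lit 300) (nat_lit 185)) (XT.lf (nat_lit 0) (nat_lit 210984545504) (nat_lit 76) (nat_lit 54442289020) (nat_lit 76) (nat_lit 33527001156) (nat_lit 4) (nat_lit 4) (nat_lit 5) (nat_lit 5) (nat_lit 5) (nat_lit 4) (nat_lit 416) (nat_lit 300) (nat_lit 184)))) (XT.nd (nat_lit 78) (nat_lit 0) (nat_lit 0) (XT.lf (nat_lit 0) (nat_lit 241068602705) (nat_lit 76) (nat_lit 46623885443) (nat_lit 76) (nat_lit 25705115799) (nat_lit 4) (nat_lit 4) (nat_lit 5) (nat_lit 5) (nat_lit 5) (nat_lit 4) (nat_lit 417) (nat_lit 300) (nat_lit 183)) (XT.nd (nat_lit 78) (nat_lit 0) (nat_lit 0) (XT.lf (nat_lit 0) (nat_lit 272650578532) (nat_lit 76) (nat_lit 38417614915) (nat_lit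 76) (nat_lit 17495529289) (nat_lit 4) (nat_lit 4) (nat_lit 5) (nat_lit 5) (nat_lit 5) (nat_lit 4) (nat_lit 418) (nat_lit 300) (nat_lit 182)) (XT.lf (nat_lit 0) (nat_lit 305805668166) (nat_lit 76) (nat_lit 29803938697) (nat_lit 76) (nat_lit 8878694992) (nat_lit 4) (nat_lit 4) (nat_lit 5) (nat_lit 5) (nat_lit 5) (nat_lit 4) (nat_lit 419) (nat_lit 300) (nat_lit 181)))))) (XT.nd (nat_lit 390) (nat_lit 0) (nat_lit 0) (XT.nd (nat_lit 156) (nat_lit 76) (nat_lit 0) (XT.nd (nat_lit 78) (nat_lit 0) (nat_lit 0) (XT.lf (nat_lit 0) (nat_lit 160593418) (nat_lit 152) (nat_lit 20599034889) (nat_lit 76) (nat_lit 340449499150) (nat_lit 3) (nat_lit 5) (nat_lit 5) (nat_lit 5) (nat_lit 4) (nat_lit 4) (nat_lit 420) (nat_lit 300) (nat_lit 180)) (XT.lf (nat_lit 0) (nat_lit 9350626591) (nat_lit 152) (nat_lit 1762331355) (nat_lit 76) (nat_lit 367645901098) (nat_lit 3) (nat_lit 5) (nat_lit 5) (nat_lit 5) (nat_lit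 4) (nat_lit 4) (nat_lit 421) (nat_lit 300) (nat_lit 179))) (XT.nd (nat_lit 78) (nat_lit 0) (nat_lit 0) (XT.lf (nat_lit 0) (nat_lit 18606470780) (nat_lit 76) (nat_lit 681487617) (nat_lit 152) (nat_lit 377883729403) (nat_lit 2) (nat_lit 5) (nat_lit 3) (nat_lit 5) (nat_lit 4) (nat_lit 4) (nat_lit 422) (nat_lit 300) (nat_lit 178)) (XT.nd (nat_lit 78) (nat_lit 0) (nat_lit 0) (XT.lf (nat_lit 0) (nat_lit 29910166129) (nat_lit 152) (nat_lit 376614894344) (nat_lit 0) (nat_lit 9970697469) (nat_lit 2) (nat_lit 5) (nat_lit 4) (nat_lit 4) (nat_lit 2) (nat_lit 4) (nat_lit 423) (nat_lit 300) (nat_lit 177)) (XT.lf (nat_lit 0) (nat_lit 41072090790) (nat_lit 152) (nat_lit 374583245348) (nat_lit 0) (nat_lit 21130265524) (nat_lit 2) (nat_lit 5) (nat_lit 4) (nat_lit 4) (nat_lit 2) (nat_lit 4) (nat_lit 424) (nat_lit 300) (nat_lit 176))))) (XT.nd (nat_lit 234) (nat_lit 0) (nat_lit 0) (XT.nd (nat_lit 78) (nat_lit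 0) (nat_lit 0) (XT.lf (nat_lit 0) (nat_lit 52789668461) (nat_lit 152) (nat_lit 372454792840) (nat_lit 0) (nat_lit 32845598807) (nat_lit 2) (nat_lit 5) (nat_lit 4) (nat_lit 4) (nat_lit 2) (nat_lit 4) (nat_lit 425) (nat_lit 300) (nat_lit 175)) (XT.nd (nat_lit 78) (nat_lit 0) (nat_lit 0) (XT.lf (nat_lit 0) (nat_lit 65090798134) (nat_lit 152) (nat_lit 370224469077) (nat_lit 0) (nat_lit 45144590969) (nat_lit 2) (nat_lit 5) (nat_lit 4) (nat_lit 4) (nat_lit 2) (nat_lit 4) (nat_lit 426) (nat_lit 300) (nat_lit 174)) (XT.lf (nat_lit 0) (nat_lit 78004768215) (nat_lit 152) (nat_lit 367886963763) (nat_lit 0) (nat_lit 58056525325) (nat_lit 2) (nat_lit 5) (nat_lit 4) (nat_lit 4) (nat_lit 2) (nat_lit 4) (nat_lit 427) (nat_lit 300) (nat_lit 173)))) (XT.nd (nat_lit 78) (nat_lit 0) (nat_lit 0) (XT.lf (nat_lit 0) (nat_lit 91562326251) (nat_lit 152) (nat_lit 365436711410) (nat_lit 0) (nat_lit 71612144575) (nat_lit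 2) (nat_lit 5) (nat_lit 4) (nat_lit 4) (nat_lit 2) (nat_lit 4) (nat_lit 428) (nat_lit 300) (nat_lit 172)) (XT.nd (nat_lit 78) (nat_lit 0) (nat_lit 0) (XT.lf (nat_lit 0) (nat_lit 105795752142) (nat_lit 152) (nat_lit 362867878084) (nat_lit 0) (nat_lit 85843724003) (nat_lit 2) (nat_lit 5) (nat_lit 4) (nat_lit 4) (nat_lit 2) (nat_lit 4) (nat_lit 429) (nat_lit 300) (nat_lit 171)) (XT.lf (nat_lit 0) (nat_lit 120738934997) (nat_lit 152) (nat_lit 360174347515) (nat_lit 0) (nat_lit 100785148322) (nat_lit 2) (nat_lit 5) (nat_lit 4) (nat_lit 4) (nat_lit 2) (nat_lit 4) (nat_lit 430) (nat_lit 300) (nat_lit 170))))))) (XT.nd (nat_lit 37440) (nat_lit 0) (nat_lit 6536) (XT.nd (nat_lit 36972) (nat_lit 0) (nat_lit 10564) (XT.nd (nat_lit 36738) (nat_lit 0) (nat_lit 11400) (XT.nd (nat_lit 78) (nat_lit 0) (nat_lit 0) (XT.lf (nat_lit 0) (nat_lit 136427453824) (nat_lit 152) (nat_lit 357349706535) (nat_lit 0)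 (nat_lit 116471992352) (nat_lit 2) (nat_lit 5) (nat_lit 4) (nat_lit 4) (nat_lit 2) (nat_lit 4) (nat_lit 431) (nat_lit 300) (nat_lit 169)) (XT.lf (nat_lit 0) (nat_lit 152898662238) (nat_lit 152) (nat_lit 354387229808) (nat_lit 0) (nat_lit 132941605722) (nat_lit 2) (nat_lit 5) (nat_lit 4) (nat_lit 4) (nat_lit 2) (nat_lit 4) (nat_lit 432) (nat_lit 300) (nat_lit 168))) (XT.nd (nat_lit 78) (nat_lit 228) (nat_lit 0) (XT.lf (nat_lit 0) (nat_lit 1486579473) (nat_lit 0) (nat_lit 1486579473) (nat_lit 76) (nat_lit 253254719) (nat_lit 155) (nat_lit 5) (nat_lit 155) (nat_lit 3) (nat_lit 156) (nat_lit 0) (nat_lit 301) (nat_lit 301) (nat_lit 298)) (XT.nd (nat_lit 78) (nat_lit 0) (nat_lit 0) (XT.lf (nat_lit 0) (nat_lit 2288304304) (nat_lit 228) (nat_lit 397944613) (nat_lit 228) (nat_lit 3782429845) (nat_lit 152) (nat_lit 3) (nat_lit 155) (nat_lit 3) (nat_lit 155) (nat_lit 5) (nat_lit 302) (nat_lit 301)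 (nat_lit 297)) (XT.lf (nat_lit 76) (nat_lit 2826018313) (nat_lit 0) (nat_lit 2245290567) (nat_lit 228) (nat_lit 1420730399) (nat_lit 153) (nat_lit 5) (nat_lit 152) (nat_lit 3) (nat_lit 155) (nat_lit 5) (nat_lit 303) (nat_lit 301) (nat_lit 296))))) (XT.nd (nat_lit 234) (nat_lit 608) (nat_lit 0) (XT.nd (nat_lit 78) (nat_lit 0) (nat_lit 0) (XT.lf (nat_lit 0) (nat_lit 1261702716) (nat_lit 228) (nat_lit 413028909) (nat_lit 304) (nat_lit 4849447054) (nat_lit 149) (nat_lit 5) (nat_lit 152) (nat_lit 3) (nat_lit 153) (nat_lit 5) (nat_lit 304) (nat_lit 301) (nat_lit 295)) (XT.nd (nat_lit 78) (nat_lit 0) (nat_lit 0) (XT.lf (nat_lit 76) (nat_lit 2980798431) (nat_lit 0) (nat_lit 929801225) (nat_lit 304) (nat_lit 2652506571) (nat_lit 150) (nat_lit 5) (nat_lit 149) (nat_lit 5) (nat_lit 153) (nat_lit 5) (nat_lit 305) (nat_lit 301) (nat_lit 294)) (XT.lf (nat_lit 76) (nat_lit 6466243712) (nat_lit 0) (nat_lit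 72725379) (nat_lit 304) (nat_lit 72993119) (nat_lit 150) (nat_lit 5) (nat_lit 149) (nat_lit 5) (nat_lit 153) (nat_lit 5) (nat_lit 306) (nat_lit 301) (nat_lit 293)))) (XT.nd (nat_lit 78) (nat_lit 380) (nat_lit 0) (XT.lf (nat_lit 0) (nat_lit 2465101166) (nat_lit 304) (nat_lit 3243862541) (nat_lit 76) (nat_lit 956844477) (nat_lit 146) (nat_lit 5) (nat_lit 150) (nat_lit 5) (nat_lit 147) (nat_lit 5) (nat_lit 307) (nat_lit 301) (nat_lit 292)) (XT.nd (nat_lit 78) (nat_lit 76) (nat_lit 0) (XT.lf (nat_lit 0) (nat_lit 359320351) (nat_lit 304) (nat_lit 4629329573) (nat_lit 380) (nat_lit 1740874599) (nat_lit 142) (nat_lit 5) (nat_lit 146) (nat_lit 5) (nat_lit 147) (nat_lit 5) (nat_lit 308) (nat_lit 301) (nat_lit 291)) (XT.lf (nat_lit 0) (nat_lit 725441997) (nat_lit 380) (nat_lit 2656469957) (nat_lit 76) (nat_lit 3418596717) (nat_lit 141) (nat_lit 5) (nat_lit 146) (nat_lit 5) (nat_lit 142) (nat_lit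 5) (nat_lit 309) (nat_lit 301) (nat_lit 290)))))) (XT.nd (nat_lit 468) (nat_lit 1900) (nat_lit 0) (XT.nd (nat_lit 234) (nat_lit 1216) (nat_lit 0) (XT.nd (nat_lit 78) (nat_lit 532) (nat_lit 0) (XT.lf (nat_lit 0) (nat_lit 1152217550) (nat_lit 380) (nat_lit 1983868290) (nat_lit 456) (nat_lit 3743802245) (nat_lit 136) (nat_lit 5) (nat_lit 141) (nat_lit 5) (nat_lit 142) (nat_lit 5) (nat_lit 310) (nat_lit 301) (nat_lit 289)) (XT.nd (nat_lit 78) (nat_lit 532) (nat_lit 0) (XT.lf (nat_lit 0) (nat_lit 5146091368) (nat_lit 380) (nat_lit 432758091) (nat_lit 456) (nat_lit 1389044601) (nat_lit 136) (nat_lit 5) (nat_lit 141) (nat_lit 5) (nat_lit 142) (nat_lit 5) (nat_lit 311) (nat_lit 301) (nat_lit 288)) (XT.lf (nat_lit 0) (nat_lit 974366423) (nat_lit 532) (nat_lit 4847705636) (nat_lit 76) (nat_lit 1241317795) (nat_lit 129) (nat_lit 5) (nat_lit 136) (nat_lit 5) (nat_lit 130) (nat_lit 5) (nat_lit 312)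 (nat_lit 301) (nat_lit 287)))) (XT.nd (nat_lit 78) (nat_lit 1216) (nat_lit 0) (XT.lf (nat_lit 0) (nat_lit 3323486659) (nat_lit 532) (nat_lit 776840608) (nat_lit 76) (nat_lit 3066688328) (nat_lit 129) (nat_lit 5) (nat_lit 136) (nat_lit 5) (nat_lit 130) (nat_lit 5) (nat_lit 313) (nat_lit 301) (nat_lit 286)) (XT.nd (nat_lit 78) (nat_lit 684) (nat_lit 0) (XT.lf (nat_lit 0) (nat_lit 3512222859) (nat_lit 532) (nat_lit 2214357951) (nat_lit 608) (nat_lit 1552610875) (nat_lit 122) (nat_lit 5) (nat_lit 129) (nat_lit 5) (nat_lit 130) (nat_lit 5) (nat_lit 314) (nat_lit 301) (nat_lit 285)) (XT.lf (nat_lit 0) (nat_lit 550270591) (nat_lit 608) (nat_lit 181012148) (nat_lit 684) (nat_lit 6669918584) (nat_lit 113) (nat_lit 5) (nat_lit 121) (nat_lit 5) (nat_lit 122) (nat_lit 5) (nat_lit 315) (nat_lit 301) (nat_lit 284))))) (XT.nd (nat_lit 234) (nat_lit 1140) (nat_lit 0) (XT.nd (nat_lit 78) (nat_lit 760) (nat_lit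 0) (XT.lf (nat_lit 0) (nat_lit 3060514094) (nat_lit 684) (nat_lit 2473553731) (nat_lit 76) (nat_lit 1994973349) (nat_lit 113) (nat_lit 5) (nat_lit 122) (nat_lit 5) (nat_lit 114) (nat_lit 5) (nat_lit 316) (nat_lit 301) (nat_lit 283)) (XT.nd (nat_lit 78) (nat_lit 76) (nat_lit 0) (XT.lf (nat_lit 0) (nat_lit 2086920339) (nat_lit 684) (nat_lit 3348143683) (nat_lit 760) (nat_lit 2231926535) (nat_lit 104) (nat_lit 5) (nat_lit 113) (nat_lit 5) (nat_lit 114) (nat_lit 5) (nat_lit 317) (nat_lit 301) (nat_lit 282)) (XT.lf (nat_lit 0) (nat_lit 50371628) (nat_lit 760) (nat_lit 952563294) (nat_lit 76) (nat_lit 6812077196) (nat_lit 103) (nat_lit 5) (nat_lit 113) (nat_lit 5) (nat_lit 104) (nat_lit 5) (nat_lit 318) (nat_lit 301) (nat_lit 281)))) (XT.nd (nat_lit 78) (nat_lit 380) (nat_lit 0) (XT.lf (nat_lit 0) (nat_lit 2357084493) (nat_lit 836) (nat_lit 4097424667) (nat_lit 76) (nat_lit 1514969342) (nat_lit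 93) (nat_lit 5) (nat_lit 104) (nat_lit 5) (nat_lit 94) (nat_lit 5) (nat_lit 319) (nat_lit 301) (nat_lit 280)) (XT.nd (nat_lit 78) (nat_lit 0) (nat_lit 0) (XT.lf (nat_lit 0) (nat_lit 747117044) (nat_lit 380) (nat_lit 3979834612) (nat_lit 456) (nat_lit 3407457572) (nat_lit 88) (nat_lit 5) (nat_lit 93) (nat_lit 5) (nat_lit 94) (nat_lit 5) (nat_lit 320) (nat_lit 301) (nat_lit 279)) (XT.lf (nat_lit 0) (nat_lit 5877554892) (nat_lit 380) (nat_lit 1313529908) (nat_lit 456) (nat_lit 1117838727) (nat_lit 88) (nat_lit 5) (nat_lit 93) (nat_lit 5) (nat_lit 94) (nat_lit 5) (nat_lit 321) (nat_lit 301) (nat_lit 278))))))))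
noncomputable def xc103 : XT := (XT.nd (nat_lit 1716) (nat_lit 1672) (nat_lit 0) (XT.nd (nat_lit 858) (nat_lit 1368) (nat_lit 0) (XT.nd (nat_lit 390) (nat_lit 1140) (nat_lit 0) (XT.nd (nat_lit 156) (nat_lit 760) (nat_lit 0) (XT.nd (nat_lit 78) (nat_lit 0) (nat_lit 0) (XT.lf (nat_lit 0) (nat_lit 1221316330) (nat_lit 380) (nat_lit 5774744531) (nat_lit 76) (nat_lit 1496401377) (nat_lit 83) (nat_lit 5) (nat_lit 88) (nat_lit 5) (nat_lit 84) (nat_lit 5) (nat_lit 322) (nat_lit 301) (nat_lit 277)) (XT.lf (nat_lit 0) (nat_lit 3615221659) (nat_lit 380) (nat_lit 614808386) (nat_lit 76) (nat_lit 4455572176) (nat_lit 83) (nat_lit 5) (nat_lit 88) (nat_lit 5) (nat_lit 84) (nat_lit 5) (nat_lit 323) (nat_lit 301) (nat_lit 276))) (XT.nd (nat_lit 78) (nat_lit 380) (nat_lit 0) (XT.lf (nat_lit 0) (nat_lit 4863721855) (nat_lit 380) (nat_lit 1257202941) (nat_lit 456) (nat_lit 2767972669) (nat_lit 78) (nat_lit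 5) (nat_lit 83) (nat_lit 5) (nat_lit 84) (nat_lit 5) (nat_lit 324) (nat_lit 301) (nat_lit 275)) (XT.nd (nat_lit 78) (nat_lit 76) (nat_lit 0) (XT.lf (nat_lit 0) (nat_lit 1455482649) (nat_lit 304) (nat_lit 7277350628) (nat_lit 380) (nat_lit 370576650) (nat_lit 74) (nat_lit 5) (nat_lit 78) (nat_lit 5) (nat_lit 79) (nat_lit 5) (nat_lit 325) (nat_lit 301) (nat_lit 274)) (XT.lf (nat_lit 0) (nat_lit 2087379340) (nat_lit 380) (nat_lit 2129253462) (nat_lit 76) (nat_lit 5109958849) (nat_lit 73) (nat_lit 5) (nat_lit 78) (nat_lit 5) (nat_lit 74) (nat_lit 5) (nat_lit 326) (nat_lit 301) (nat_lit 273))))) (XT.nd (nat_lit 234) (nat_lit 532) (nat_lit 0) (XT.nd (nat_lit 78) (nat_lit 304) (nat_lit 0) (XT.lf (nat_lit 0) (nat_lit 3683173610) (nat_lit 304) (nat_lit 953445556) (nat_lit 380) (nat_lit 4925052610) (nat_lit 69) (nat_lit 5) (nat_lit 73) (nat_lit 5) (nat_lit 74) (nat_lit 5) (nat_lit 327) (nat_lit 301)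 (nat_lit 272)) (XT.nd (nat_lit 78) (nat_lit 304) (nat_lit 0) (XT.lf (nat_lit 0) (nat_lit 7313841808) (nat_lit 380) (nat_lit 81754682) (nat_lit 76) (nat_lit 2412964383) (nat_lit 69) (nat_lit 5) (nat_lit 74) (nat_lit 5) (nat_lit 70) (nat_lit 5) (nat_lit 328) (nat_lit 301) (nat_lit 271)) (XT.lf (nat_lit 0) (nat_lit 95452112) (nat_lit 304) (nat_lit 3974655065) (nat_lit 76) (nat_lit 5995708652) (nat_lit 65) (nat_lit 5) (nat_lit 69) (nat_lit 5) (nat_lit 66) (nat_lit 5) (nat_lit 329) (nat_lit 301) (nat_lit 270)))) (XT.nd (nat_lit 78) (nat_lit 228) (nat_lit 0) (XT.lf (nat_lit 0) (nat_lit 2176075817) (nat_lit 304) (nat_lit 520198520) (nat_lit 380) (nat_lit 7639435251) (nat_lit 61) (nat_lit 5) (nat_lit 65) (nat_lit 5) (nat_lit 66) (nat_lit 5) (nat_lit 330) (nat_lit 301) (nat_lit 269)) (XT.nd (nat_lit 78) (nat_lit 228) (nat_lit 0) (XT.lf (nat_lit 0) (nat_lit 5476811079) (nat_lit 380) (nat_lit 1988574424)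 (nat_lit 76) (nat_lit 3151295506) (nat_lit 61) (nat_lit 5) (nat_lit 66) (nat_lit 5) (nat_lit 62) (nat_lit 5) (nat_lit 331) (nat_lit 301) (nat_lit 268)) (XT.lf (nat_lit 0) (nat_lit 4538238826) (nat_lit 228) (nat_lit 3871979013) (nat_lit 304) (nat_lit 2500854477) (nat_lit 58) (nat_lit 5) (nat_lit 61) (nat_lit 5) (nat_lit 62) (nat_lit 5) (nat_lit 332) (nat_lit 301) (nat_lit 267)))))) (XT.nd (nat_lit 390) (nat_lit 608) (nat_lit 0) (XT.nd (nat_lit 156) (nat_lit 456) (nat_lit 0) (XT.nd (nat_lit 78) (nat_lit 0) (nat_lit 0) (XT.lf (nat_lit 0) (nat_lit 151736806) (nat_lit 228) (nat_lit 81430429) (nat_lit 304) (nat_lit 10988277625) (nat_lit 54) (nat_lit 5) (nat_lit 57) (nat_lit 5) (nat_lit 58) (nat_lit 5) (nat_lit 333) (nat_lit 301) (nat_lit 266)) (XT.lf (nat_lit 0) (nat_lit 3126815529) (nat_lit 304) (nat_lit 4513430219) (nat_lit 76) (nat_lit 3899746703) (nat_lit 54) (nat_lit 5) (nat_lit 58) (nat_lit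 5) (nat_lit 55) (nat_lit 5) (nat_lit 334) (nat_lit 301) (nat_lit 265))) (XT.nd (nat_lit 78) (nat_lit 304) (nat_lit 0) (XT.lf (nat_lit 0) (nat_lit 2357504449) (nat_lit 152) (nat_lit 3785217780) (nat_lit 228) (nat_lit 5732918611) (nat_lit 52) (nat_lit 5) (nat_lit 54) (nat_lit 5) (nat_lit 55) (nat_lit 5) (nat_lit 335) (nat_lit 301) (nat_lit 264)) (XT.nd (nat_lit 78) (nat_lit 304) (nat_lit 0) (XT.lf (nat_lit 0) (nat_lit 9331771888) (nat_lit 228) (nat_lit 2589371250) (nat_lit 76) (nat_lit 305860861) (nat_lit 52) (nat_lit 5) (nat_lit 55) (nat_lit 5) (nat_lit 53) (nat_lit 5) (nat_lit 336) (nat_lit 301) (nat_lit 263)) (XT.lf (nat_lit 0) (nat_lit 161542821) (nat_lit 304) (nat_lit 7905017189) (nat_lit 76) (nat_lit 4525359402) (nat_lit 48) (nat_lit 5) (nat_lit 52) (nat_lit 5) (nat_lit 49) (nat_lit 5) (nat_lit 337) (nat_lit 301) (nat_lit 262))))) (XT.nd (nat_lit 234) (nat_lit 228) (nat_lit 0) (XT.nd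 (nat_lit 78) (nat_lit 380) (nat_lit 0) (XT.lf (nat_lit 0) (nat_lit 3262270581) (nat_lit 304) (nat_lit 688963383) (nat_lit 76) (nat_lit 9022095808) (nat_lit 48) (nat_lit 5) (nat_lit 52) (nat_lit 5) (nat_lit 49) (nat_lit 5) (nat_lit 338) (nat_lit 301) (nat_lit 261)) (XT.nd (nat_lit 78) (nat_lit 228) (nat_lit 0) (XT.lf (nat_lit 0) (nat_lit 6581492212) (nat_lit 228) (nat_lit 6345959746) (nat_lit 76) (nat_lit 443226732) (nat_lit 46) (nat_lit 5) (nat_lit 49) (nat_lit 5) (nat_lit 47) (nat_lit 5) (nat_lit 339) (nat_lit 301) (nat_lit 260)) (XT.lf (nat_lit 0) (nat_lit 1254206921) (nat_lit 228) (nat_lit 8856080057) (nat_lit 304) (nat_lit 3675466441) (nat_lit 43) (nat_lit 5) (nat_lit 46) (nat_lit 5) (nat_lit 47) (nat_lit 5) (nat_lit 340) (nat_lit 301) (nat_lit 259)))) (XT.nd (nat_lit 78) (nat_lit 228) (nat_lit 0) (XT.lf (nat_lit 0) (nat_lit 9374353547) (nat_lit 228) (nat_lit 4497287159) (nat_lit 304)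 (nat_lit 347172326) (nat_lit 43) (nat_lit 5) (nat_lit 46) (nat_lit 5) (nat_lit 47) (nat_lit 5) (nat_lit 341) (nat_lit 301) (nat_lit 258)) (XT.nd (nat_lit 78) (nat_lit 0) (nat_lit 0) (XT.lf (nat_lit 0) (nat_lit 3049467898) (nat_lit 228) (nat_lit 11471380942) (nat_lit 76) (nat_lit 150119743) (nat_lit 40) (nat_lit 5) (nat_lit 43) (nat_lit 5) (nat_lit 41) (nat_lit 5) (nat_lit 342) (nat_lit 301) (nat_lit 257)) (XT.lf (nat_lit 0) (nat_lit 6712368573) (nat_lit 228) (nat_lit 3487321232) (nat_lit 76) (nat_lit 4940384811) (nat_lit 40) (nat_lit 5) (nat_lit 43) (nat_lit 5) (nat_lit 41) (nat_lit 5) (nat_lit 343) (nat_lit 301) (nat_lit 256))))))) (XT.nd (nat_lit 858) (nat_lit 760) (nat_lit 0) (XT.nd (nat_lit 390) (nat_lit 380) (nat_lit 0) (XT.nd (nat_lit 156) (nat_lit 380) (nat_lit 0) (XT.nd (nat_lit 78) (nat_lit 0) (nat_lit 0) (XT.lf (nat_lit 0) (nat_lit 4980141901) (nat_lit 152) (nat_lit 5609342017)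 (nat_lit 228) (nat_lit 5041629080) (nat_lit 38) (nat_lit 5) (nat_lit 40) (nat_lit 5) (nat_lit 41) (nat_lit 5) (nat_lit 344) (nat_lit 301) (nat_lit 255)) (XT.lf (nat_lit 0) (nat_lit 13918067733) (nat_lit 152) (nat_lit 755830429) (nat_lit 228) (nat_lit 1472162061) (nat_lit 38) (nat_lit 5) (nat_lit 40) (nat_lit 5) (nat_lit 41) (nat_lit 5) (nat_lit 345) (nat_lit 301) (nat_lit 254))) (XT.nd (nat_lit 78) (nat_lit 152) (nat_lit 0) (XT.lf (nat_lit 0) (nat_lit 2333369491) (nat_lit 228) (nat_lit 10027737268) (nat_lit 76) (nat_lit 4317376343) (nat_lit 35) (nat_lit 5) (nat_lit 38) (nat_lit 5) (nat_lit 36) (nat_lit 5) (nat_lit 346) (nat_lit 301) (nat_lit 253)) (XT.nd (nat_lit 78) (nat_lit 152) (nat_lit 0) (XT.lf (nat_lit 0) (nat_lit 6286829380) (nat_lit 228) (nat_lit 1294551240) (nat_lit 76) (nat_lit 9654608632) (nat_lit 35) (nat_lit 5) (nat_lit 38) (nat_lit 5) (nat_lit 36) (nat_lit 5) (nat_lit 347)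 (nat_lit 301) (nat_lit 252)) (XT.lf (nat_lit 0) (nat_lit 8064317234) (nat_lit 152) (nat_lit 2458013243) (nat_lit 228) (nat_lit 7294845742) (nat_lit 33) (nat_lit 5) (nat_lit 35) (nat_lit 5) (nat_lit 36) (nat_lit 5) (nat_lit 348) (nat_lit 301) (nat_lit 251))))) (XT.nd (nat_lit 234) (nat_lit 228) (nat_lit 0) (XT.nd (nat_lit 78) (nat_lit 152) (nat_lit 0) (XT.lf (nat_lit 0) (nat_lit 14996454460) (nat_lit 228) (nat_lit 605823824) (nat_lit 76) (nat_lit 2823824641) (nat_lit 33) (nat_lit 5) (nat_lit 36) (nat_lit 5) (nat_lit 34) (nat_lit 4) (nat_lit 349) (nat_lit 301) (nat_lit 250)) (XT.nd (nat_lit 78) (nat_lit 0) (nat_lit 0) (XT.lf (nat_lit 0) (nat_lit 755653203) (nat_lit 152) (nat_lit 9884461412) (nat_lit 76) (nat_lit 8417542627) (nat_lit 31) (nat_lit 5) (nat_lit 33) (nat_lit 5) (nat_lit 32) (nat_lit 5) (nat_lit 350) (nat_lit 301) (nat_lit 249)) (XT.lf (nat_lit 0) (nat_lit 5006491876) (nat_lit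 152) (nat_lit 380989391) (nat_lit 76) (nat_lit 14331939971) (nat_lit 31) (nat_lit 5) (nat_lit 33) (nat_lit 5) (nat_lit 32) (nat_lit 5) (nat_lit 351) (nat_lit 301) (nat_lit 248)))) (XT.nd (nat_lit 78) (nat_lit 76) (nat_lit 0) (XT.lf (nat_lit 0) (nat_lit 9590711611) (nat_lit 228) (nat_lit 10563010259) (nat_lit 76) (nat_lit 254528352) (nat_lit 29) (nat_lit 5) (nat_lit 32) (nat_lit 5) (nat_lit 30) (nat_lit 4) (nat_lit 352) (nat_lit 301) (nat_lit 247)) (XT.nd (nat_lit 78) (nat_lit 76) (nat_lit 0) (XT.lf (nat_lit 0) (nat_lit 14462358225) (nat_lit 228) (nat_lit 687369758) (nat_lit 76) (nat_lit 5978899726) (nat_lit 29) (nat_lit 5) (nat_lit 32) (nat_lit 5) (nat_lit 30) (nat_lit 4) (nat_lit 353) (nat_lit 301) (nat_lit 246)) (XT.lf (nat_lit 0) (nat_lit 9939459002) (nat_lit 76) (nat_lit 9758395278) (nat_lit 152) (nat_lit 2181173439) (nat_lit 28) (nat_lit 5) (nat_lit 29) (nat_lit 5) (nat_lit 30) (nat_lit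 4) (nat_lit 354) (nat_lit 301) (nat_lit 245)))))) (XT.nd (nat_lit 468) (nat_lit 228) (nat_lit 0) (XT.nd (nat_lit 234) (nat_lit 304) (nat_lit 0) (XT.nd (nat_lit 78) (nat_lit 152) (nat_lit 0) (XT.lf (nat_lit 0) (nat_lit 2424329878) (nat_lit 152) (nat_lit 1645439323) (nat_lit 76) (nat_lit 18596366852) (nat_lit 27) (nat_lit 5) (nat_lit 29) (nat_lit 5) (nat_lit 28) (nat_lit 5) (nat_lit 355) (nat_lit 301) (nat_lit 244)) (XT.nd (nat_lit 78) (nat_lit 0) (nat_lit 0) (XT.lf (nat_lit 0) (nat_lit 7332295795) (nat_lit 228) (nat_lit 14147960072) (nat_lit 76) (nat_lit 2003296319) (nat_lit 25) (nat_lit 5) (nat_lit 28) (nat_lit 5) (nat_lit 26) (nat_lit 4) (nat_lit 356) (nat_lit 301) (nat_lit 243)) (XT.lf (nat_lit 0) (nat_lit 12547894850) (nat_lit 228) (nat_lit 3543137589) (nat_lit 76) (nat_lit 8247708932) (nat_lit 25) (nat_lit 5) (nat_lit 28) (nat_lit 5) (nat_lit 26) (nat_lit 4) (nat_lit 357) (nat_lit 301)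 (nat_lit 242)))) (XT.nd (nat_lit 78) (nat_lit 228) (nat_lit 0) (XT.lf (nat_lit 0) (nat_lit 7785571511) (nat_lit 76) (nat_lit 10329013297) (nat_lit 152) (nat_lit 7117602979) (nat_lit 24) (nat_lit 5) (nat_lit 25) (nat_lit 5) (nat_lit 26) (nat_lit 4) (nat_lit 358) (nat_lit 301) (nat_lit 241)) (XT.nd (nat_lit 78) (nat_lit 228) (nat_lit 0) (XT.lf (nat_lit 0) (nat_lit 19749080214) (nat_lit 76) (nat_lit 4239924780) (nat_lit 152) (nat_lit 2179844429) (nat_lit 24) (nat_lit 5) (nat_lit 25) (nat_lit 5) (nat_lit 26) (nat_lit 4) (nat_lit 359) (nat_lit 301) (nat_lit 240)) (XT.lf (nat_lit 0) (nat_lit 2995942192) (nat_lit 228) (nat_lit 21957050211) (nat_lit 76) (nat_lit 2192651948) (nat_lit 21) (nat_lit 5) (nat_lit 24) (nat_lit 5) (nat_lit 22) (nat_lit 4) (nat_lit 360) (nat_lit 301) (nat_lit 239))))) (XT.nd (nat_lit 234) (nat_lit 152) (nat_lit 0) (XT.nd (nat_lit 78) (nat_lit 76) (nat_lit 0) (XT.lf (nat_lit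 0) (nat_lit 8507866832) (nat_lit 228) (nat_lit 10725893375) (nat_lit 76) (nat_lit 8928212731) (nat_lit 21) (nat_lit 5) (nat_lit 24) (nat_lit 5) (nat_lit 22) (nat_lit 4) (nat_lit 361) (nat_lit 301) (nat_lit 238)) (XT.nd (nat_lit 78) (nat_lit 0) (nat_lit 0) (XT.lf (nat_lit 0) (nat_lit 1049673061) (nat_lit 76) (nat_lit 13234097806) (nat_lit 152) (nat_lit 14945938368) (nat_lit 20) (nat_lit 5) (nat_lit 21) (nat_lit 5) (nat_lit 22) (nat_lit 4) (nat_lit 362) (nat_lit 301) (nat_lit 237)) (XT.lf (nat_lit 0) (nat_lit 13736470743) (nat_lit 76) (nat_lit 6766196478) (nat_lit 152) (nat_lit 9840465209) (nat_lit 20) (nat_lit 5) (nat_lit 21) (nat_lit 5) (nat_lit 22) (nat_lit 4) (nat_lit 363) (nat_lit 301) (nat_lit 236)))) (XT.nd (nat_lit 78) (nat_lit 152) (nat_lit 0) (XT.lf (nat_lit 0) (nat_lit 27006422203) (nat_lit 152) (nat_lit 4503541286) (nat_lit 0) (nat_lit 3577072) (nat_lit 20) (nat_lit 5) (nat_lit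 22) (nat_lit 4) (nat_lit 20) (nat_lit 4) (nat_lit 364) (nat_lit 301) (nat_lit 235)) (XT.nd (nat_lit 78) (nat_lit 0) (nat_lit 0) (XT.lf (nat_lit 0) (nat_lit 1276944414) (nat_lit 152) (nat_lit 24438615046) (nat_lit 76) (nat_lit 7015113663) (nat_lit 18) (nat_lit 5) (nat_lit 20) (nat_lit 5) (nat_lit 19) (nat_lit 4) (nat_lit 365) (nat_lit 301) (nat_lit 234)) (XT.lf (nat_lit 0) (nat_lit 7251121532) (nat_lit 152) (nat_lit 12242510015) (nat_lit 76) (nat_lit 14508725586) (nat_lit 18) (nat_lit 5) (nat_lit 20) (nat_lit 5) (nat_lit 19) (nat_lit 4) (nat_lit 366) (nat_lit 301) (nat_lit 233))))))))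
noncomputable def xc104 : XT := (XT.nd (nat_lit 1716) (nat_lit 304) (nat_lit 0) (XT.nd (nat_lit 858) (nat_lit 380) (nat_lit 0) (XT.nd (nat_lit 390) (nat_lit 152) (nat_lit 0) (XT.nd (nat_lit 156) (nat_lit 152) (nat_lit 0) (XT.nd (nat_lit 78) (nat_lit 0) (nat_lit 0) (XT.lf (nat_lit 0) (nat_lit 536461950) (nat_lit 76) (nat_lit 12971978340) (nat_lit 152) (nat_lit 21829971206) (nat_lit 17) (nat_lit 5) (nat_lit 18) (nat_lit 5) (nat_lit 19) (nat_lit 4) (nat_lit 367) (nat_lit 301) (nat_lit 232)) (XT.lf (nat_lit 0) (nat_lit 14336017796) (nat_lit 76) (nat_lit 5926459718) (nat_lit 152) (nat_lit 16469605851) (nat_lit 17) (nat_lit 5) (nat_lit 18) (nat_lit 5) (nat_lit 19) (nat_lit 4) (nat_lit 368) (nat_lit 301) (nat_lit 231))) (XT.nd (nat_lit 78) (nat_lit 152) (nat_lit 0) (XT.lf (nat_lit 0) (nat_lit 27354529921) (nat_lit 152) (nat_lit 9435018578) (nat_lit 0) (nat_lit 1405881730) (nat_lit 17) (nat_lit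 5) (nat_lit 19) (nat_lit 4) (nat_lit 17) (nat_lit 4) (nat_lit 369) (nat_lit 301) (nat_lit 230)) (XT.nd (nat_lit 78) (nat_lit 76) (nat_lit 0) (XT.lf (nat_lit 0) (nat_lit 4170247732) (nat_lit 76) (nat_lit 30771622174) (nat_lit 76) (nat_lit 4783047008) (nat_lit 16) (nat_lit 4) (nat_lit 17) (nat_lit 5) (nat_lit 17) (nat_lit 4) (nat_lit 370) (nat_lit 301) (nat_lit 229)) (XT.lf (nat_lit 0) (nat_lit 1668087010) (nat_lit 152) (nat_lit 22607022484) (nat_lit 76) (nat_lit 17047498712) (nat_lit 15) (nat_lit 5) (nat_lit 17) (nat_lit 5) (nat_lit 16) (nat_lit 4) (nat_lit 371) (nat_lit 301) (nat_lit 228))))) (XT.nd (nat_lit 234) (nat_lit 76) (nat_lit 0) (XT.nd (nat_lit 78) (nat_lit 76) (nat_lit 0) (XT.lf (nat_lit 0) (nat_lit 8260539049) (nat_lit 152) (nat_lit 9128710747) (nat_lit 76) (nat_lit 25608044396) (nat_lit 15) (nat_lit 5) (nat_lit 17) (nat_lit 5) (nat_lit 16) (nat_lit 4) (nat_lit 372) (nat_lit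 301) (nat_lit 227)) (XT.nd (nat_lit 78) (nat_lit 0) (nat_lit 0) (XT.lf (nat_lit 0) (nat_lit 5151927882) (nat_lit 76) (nat_lit 10091600948) (nat_lit 152) (nat_lit 29509145425) (nat_lit 14) (nat_lit 5) (nat_lit 15) (nat_lit 5) (nat_lit 16) (nat_lit 4) (nat_lit 373) (nat_lit 301) (nat_lit 226)) (XT.lf (nat_lit 0) (nat_lit 20427632534) (nat_lit 76) (nat_lit 2283482966) (nat_lit 152) (nat_lit 23877940722) (nat_lit 14) (nat_lit 5) (nat_lit 15) (nat_lit 5) (nat_lit 16) (nat_lit 4) (nat_lit 374) (nat_lit 301) (nat_lit 225)))) (XT.nd (nat_lit 78) (nat_lit 76) (nat_lit 0) (XT.lf (nat_lit 0) (nat_lit 30625943174) (nat_lit 152) (nat_lit 12177338184) (nat_lit 0) (nat_lit 5710287867) (nat_lit 14) (nat_lit 5) (nat_lit 16) (nat_lit 4) (nat_lit 14) (nat_lit 4) (nat_lit 375) (nat_lit 301) (nat_lit 224)) (XT.nd (nat_lit 78) (nat_lit 0) (nat_lit 0) (XT.lf (nat_lit 0) (nat_lit 2515846980) (nat_lit 76) (nat_lit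 36479770539) (nat_lit 76) (nat_lit 11535739876) (nat_lit 13) (nat_lit 4) (nat_lit 14) (nat_lit 5) (nat_lit 14) (nat_lit 4) (nat_lit 376) (nat_lit 301) (nat_lit 223)) (XT.lf (nat_lit 0) (nat_lit 18333803179) (nat_lit 76) (nat_lit 29638921844) (nat_lit 76) (nat_lit 4667867032) (nat_lit 13) (nat_lit 4) (nat_lit 14) (nat_lit 5) (nat_lit 14) (nat_lit 4) (nat_lit 377) (nat_lit 301) (nat_lit 222)))))) (XT.nd (nat_lit 390) (nat_lit 228) (nat_lit 0) (XT.nd (nat_lit 156) (nat_lit 76) (nat_lit 0) (XT.nd (nat_lit 78) (nat_lit 0) (nat_lit 0) (XT.lf (nat_lit 0) (nat_lit 2445263973) (nat_lit 152) (nat_lit 19984000949) (nat_lit 76) (nat_lit 32424878717) (nat_lit 12) (nat_lit 5) (nat_lit 14) (nat_lit 5) (nat_lit 13) (nat_lit 4) (nat_lit 378) (nat_lit 301) (nat_lit 221)) (XT.lf (nat_lit 0) (nat_lit 9741246480) (nat_lit 152) (nat_lit 5051748509) (nat_lit 76) (nat_lit 42382352333) (nat_lit 12) (nat_lit 5)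 (nat_lit 14) (nat_lit 5) (nat_lit 13) (nat_lit 4) (nat_lit 379) (nat_lit 301) (nat_lit 220))) (XT.nd (nat_lit 78) (nat_lit 0) (nat_lit 0) (XT.lf (nat_lit 0) (nat_lit 10948830877) (nat_lit 76) (nat_lit 6608963828) (nat_lit 152) (nat_lit 42047031899) (nat_lit 11) (nat_lit 5) (nat_lit 12) (nat_lit 5) (nat_lit 13) (nat_lit 4) (nat_lit 380) (nat_lit 301) (nat_lit 219)) (XT.nd (nat_lit 78) (nat_lit 0) (nat_lit 0) (XT.lf (nat_lit 0) (nat_lit 25868004264) (nat_lit 152) (nat_lit 34287853293) (nat_lit 0) (nat_lit 1994784166) (nat_lit 11) (nat_lit 5) (nat_lit 13) (nat_lit 4) (nat_lit 11) (nat_lit 4) (nat_lit 381) (nat_lit 301) (nat_lit 218)) (XT.lf (nat_lit 0) (nat_lit 34687684729) (nat_lit 152) (nat_lit 19337069451) (nat_lit 0) (nat_lit 10794298795) (nat_lit 11) (nat_lit 5) (nat_lit 13) (nat_lit 4) (nat_lit 11) (nat_lit 4) (nat_lit 382) (nat_lit 301) (nat_lit 217))))) (XT.nd (nat_lit 234) (nat_lit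 152) (nat_lit 0) (XT.nd (nat_lit 78) (nat_lit 76) (nat_lit 0) (XT.lf (nat_lit 0) (nat_lit 43934650892) (nat_lit 152) (nat_lit 3664862648) (nat_lit 0) (nat_lit 20022059401) (nat_lit 11) (nat_lit 5) (nat_lit 13) (nat_lit 4) (nat_lit 11) (nat_lit 4) (nat_lit 383) (nat_lit 301) (nat_lit 216)) (XT.nd (nat_lit 78) (nat_lit 0) (nat_lit 0) (XT.lf (nat_lit 0) (nat_lit 13188186212) (nat_lit 76) (nat_lit 40648637674) (nat_lit 76) (nat_lit 16717755175) (nat_lit 10) (nat_lit 4) (nat_lit 11) (nat_lit 5) (nat_lit 11) (nat_lit 4) (nat_lit 384) (nat_lit 301) (nat_lit 215)) (XT.lf (nat_lit 0) (nat_lit 30986651840) (nat_lit 76) (nat_lit 33296713061) (nat_lit 76) (nat_lit 9348410555) (nat_lit 10) (nat_lit 4) (nat_lit 11) (nat_lit 5) (nat_lit 11) (nat_lit 4) (nat_lit 385) (nat_lit 301) (nat_lit 214)))) (XT.nd (nat_lit 78) (nat_lit 152) (nat_lit 0) (XT.lf (nat_lit 0) (nat_lit 49651734624) (nat_lit 76) (nat_lit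 25588301339) (nat_lit 76) (nat_lit 1623408350) (nat_lit 10) (nat_lit 4) (nat_lit 11) (nat_lit 5) (nat_lit 11) (nat_lit 4) (nat_lit 386) (nat_lit 301) (nat_lit 213)) (XT.nd (nat_lit 78) (nat_lit 76) (nat_lit 0) (XT.lf (nat_lit 0) (nat_lit 6268383240) (nat_lit 152) (nat_lit 11130507805) (nat_lit 76) (nat_lit 62853333894) (nat_lit 9) (nat_lit 5) (nat_lit 11) (nat_lit 5) (nat_lit 10) (nat_lit 4) (nat_lit 387) (nat_lit 301) (nat_lit 212)) (XT.lf (nat_lit 0) (nat_lit 5895314162) (nat_lit 76) (nat_lit 8685688602) (nat_lit 152) (nat_lit 69224073809) (nat_lit 8) (nat_lit 5) (nat_lit 9) (nat_lit 5) (nat_lit 10) (nat_lit 4) (nat_lit 388) (nat_lit 301) (nat_lit 211))))))) (XT.nd (nat_lit 858) (nat_lit 152) (nat_lit 0) (XT.nd (nat_lit 390) (nat_lit 76) (nat_lit 0) (XT.nd (nat_lit 156) (nat_lit 76) (nat_lit 0) (XT.nd (nat_lit 78) (nat_lit 0) (nat_lit 0) (XT.lf (nat_lit 0) (nat_lit 23496875577) (nat_lit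 152) (nat_lit 63399176998) (nat_lit 0) (nat_lit 630139398) (nat_lit 8) (nat_lit 5) (nat_lit 10) (nat_lit 4) (nat_lit 8) (nat_lit 4) (nat_lit 389) (nat_lit 301) (nat_lit 210)) (XT.lf (nat_lit 0) (nat_lit 32990263854) (nat_lit 152) (nat_lit 48325986790) (nat_lit 0) (nat_lit 10110528597) (nat_lit 8) (nat_lit 5) (nat_lit 10) (nat_lit 4) (nat_lit 8) (nat_lit 4) (nat_lit 390) (nat_lit 301) (nat_lit 209))) (XT.nd (nat_lit 78) (nat_lit 76) (nat_lit 0) (XT.lf (nat_lit 0) (nat_lit 42948162961) (nat_lit 152) (nat_lit 32518695298) (nat_lit 0) (nat_lit 20056047630) (nat_lit 8) (nat_lit 5) (nat_lit 10) (nat_lit 4) (nat_lit 8) (nat_lit 4) (nat_lit 391) (nat_lit 301) (nat_lit 208)) (XT.nd (nat_lit 78) (nat_lit 76) (nat_lit 0) (XT.lf (nat_lit 0) (nat_lit 53394282179) (nat_lit 152) (nat_lit 15939666116) (nat_lit 0) (nat_lit 30490376302) (nat_lit 8) (nat_lit 5) (nat_lit 10) (nat_lit 4) (nat_lit 8) (nat_lit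 4) (nat_lit 392) (nat_lit 301) (nat_lit 207)) (XT.lf (nat_lit 0) (nat_lit 1498537185) (nat_lit 76) (nat_lit 62878352403) (nat_lit 76) (nat_lit 39963217434) (nat_lit 7) (nat_lit 4) (nat_lit 8) (nat_lit 5) (nat_lit 8) (nat_lit 4) (nat_lit 393) (nat_lit 301) (nat_lit 206))))) (XT.nd (nat_lit 234) (nat_lit 76) (nat_lit 0) (XT.nd (nat_lit 78) (nat_lit 0) (nat_lit 0) (XT.lf (nat_lit 0) (nat_lit 20344586105) (nat_lit 76) (nat_lit 55824939352) (nat_lit 76) (nat_lit 32899110010) (nat_lit 7) (nat_lit 4) (nat_lit 8) (nat_lit 5) (nat_lit 8) (nat_lit 4) (nat_lit 394) (nat_lit 301) (nat_lit 205)) (XT.nd (nat_lit 78) (nat_lit 0) (nat_lit 0) (XT.lf (nat_lit 0) (nat_lit 40116314841) (nat_lit 76) (nat_lit 48426861259) (nat_lit 76) (nat_lit 25490846800) (nat_lit 7) (nat_lit 4) (nat_lit 8) (nat_lit 5) (nat_lit 8) (nat_lit 4) (nat_lit 395) (nat_lit 301) (nat_lit 204)) (XT.lf (nat_lit 0) (nat_lit 60860798937)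 (nat_lit 76) (nat_lit 40666503653) (nat_lit 76) (nat_lit 17720789082) (nat_lit 7) (nat_lit 4) (nat_lit 8) (nat_lit 5) (nat_lit 8) (nat_lit 4) (nat_lit 396) (nat_lit 301) (nat_lit 203)))) (XT.nd (nat_lit 78) (nat_lit 76) (nat_lit 0) (XT.lf (nat_lit 0) (nat_lit 82627430023) (nat_lit 76) (nat_lit 32525389493) (nat_lit 76) (nat_lit 9570436720) (nat_lit 7) (nat_lit 4) (nat_lit 8) (nat_lit 5) (nat_lit 8) (nat_lit 4) (nat_lit 397) (nat_lit 301) (nat_lit 202)) (XT.nd (nat_lit 78) (nat_lit 76) (nat_lit 0) (XT.lf (nat_lit 0) (nat_lit 105468033411) (nat_lit 76) (nat_lit 23984135172) (nat_lit 76) (nat_lit 1020384112) (nat_lit 7) (nat_lit 4) (nat_lit 8) (nat_lit 5) (nat_lit 8) (nat_lit 4) (nat_lit 398) (nat_lit 301) (nat_lit 201)) (XT.lf (nat_lit 0) (nat_lit 7695285129) (nat_lit 152) (nat_lit 7196795865) (nat_lit 76) (nat_lit 121611382982) (nat_lit 6) (nat_lit 5) (nat_lit 8) (nat_lit 5) (nat_lit 7)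 (nat_lit 4) (nat_lit 399) (nat_lit 301) (nat_lit 200)))))) (XT.nd (nat_lit 468) (nat_lit 76) (nat_lit 0) (XT.nd (nat_lit 234) (nat_lit 0) (nat_lit 0) (XT.nd (nat_lit 78) (nat_lit 0) (nat_lit 0) (XT.lf (nat_lit 0) (nat_lit 11850627723) (nat_lit 76) (nat_lit 5139976379) (nat_lit 152) (nat_lit 125835573726) (nat_lit 5) (nat_lit 5) (nat_lit 6) (nat_lit 5) (nat_lit 7) (nat_lit 4) (nat_lit 400) (nat_lit 301) (nat_lit 199)) (XT.nd (nat_lit 78) (nat_lit 0) (nat_lit 0) (XT.lf (nat_lit 0) (nat_lit 26947350718) (nat_lit 152) (nat_lit 117453552146) (nat_lit 0) (nat_lit 5054292643) (nat_lit 5) (nat_lit 5) (nat_lit 7) (nat_lit 4) (nat_lit 5) (nat_lit 4) (nat_lit 401) (nat_lit 301) (nat_lit 198)) (XT.lf (nat_lit 0) (nat_lit 37479683515) (nat_lit 152) (nat_lit 103352362524) (nat_lit 0) (nat_lit 15579731752) (nat_lit 5) (nat_lit 5) (nat_lit 7) (nat_lit 4) (nat_lit 5) (nat_lit 4) (nat_lit 402) (nat_lit 301)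 (nat_lit 197)))) (XT.nd (nat_lit 78) (nat_lit 0) (nat_lit 0) (XT.lf (nat_lit 0) (nat_lit 48532430040) (nat_lit 152) (nat_lit 88558157540) (nat_lit 0) (nat_lit 26625912859) (nat_lit 5) (nat_lit 5) (nat_lit 7) (nat_lit 4) (nat_lit 5) (nat_lit 4) (nat_lit 403) (nat_lit 301) (nat_lit 196)) (XT.nd (nat_lit 78) (nat_lit 0) (nat_lit 0) (XT.lf (nat_lit 0) (nat_lit 60131906356) (nat_lit 152) (nat_lit 73035712898) (nat_lit 0) (nat_lit 38219136397) (nat_lit 5) (nat_lit 5) (nat_lit 7) (nat_lit 4) (nat_lit 5) (nat_lit 4) (nat_lit 404) (nat_lit 301) (nat_lit 195)) (XT.lf (nat_lit 0) (nat_lit 72305730263) (nat_lit 152) (nat_lit 56748070397) (nat_lit 0) (nat_lit 50387005278) (nat_lit 5) (nat_lit 5) (nat_lit 7) (nat_lit 4) (nat_lit 5) (nat_lit 4) (nat_lit 405) (nat_lit 301) (nat_lit 194))))) (XT.nd (nat_lit 234) (nat_lit 76) (nat_lit 0) (XT.nd (nat_lit 78) (nat_lit 0) (nat_lit 0) (XT.lf (nat_lit 0) (nat_lit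 85082887058) (nat_lit 152) (nat_lit 39656449934) (nat_lit 0) (nat_lit 63158490618) (nat_lit 5) (nat_lit 5) (nat_lit 7) (nat_lit 4) (nat_lit 5) (nat_lit 4) (nat_lit 406) (nat_lit 301) (nat_lit 193)) (XT.nd (nat_lit 78) (nat_lit 0) (nat_lit 0) (XT.lf (nat_lit 0) (nat_lit 98493798541) (nat_lit 152) (nat_lit 21720157176) (nat_lit 0) (nat_lit 76564000716) (nat_lit 5) (nat_lit 5) (nat_lit 7) (nat_lit 4) (nat_lit 5) (nat_lit 4) (nat_lit 407) (nat_lit 301) (nat_lit 192)) (XT.lf (nat_lit 0) (nat_lit 112570395455) (nat_lit 152) (nat_lit 2896486664) (nat_lit 0) (nat_lit 90635453453) (nat_lit 5) (nat_lit 5) (nat_lit 7) (nat_lit 4) (nat_lit 5) (nat_lit 4) (nat_lit 408) (nat_lit 301) (nat_lit 191)))) (XT.nd (nat_lit 78) (nat_lit 0) (nat_lit 0) (XT.lf (nat_lit 0) (nat_lit 17416827103) (nat_lit 76) (nat_lit 110201291884) (nat_lit 76) (nat_lit 88261450667) (nat_lit 4) (nat_lit 4) (nat_lit 5) (nat_lit 5)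 (nat_lit 5) (nat_lit 4) (nat_lit 409) (nat_lit 301) (nat_lit 190)) (XT.nd (nat_lit 78) (nat_lit 0) (nat_lit 0) (XT.lf (nat_lit 0) (nat_lit 38837523487) (nat_lit 76) (nat_lit 104625212262) (nat_lit 76) (nat_lit 82680705125) (nat_lit 4) (nat_lit 4) (nat_lit 5) (nat_lit 5) (nat_lit 5) (nat_lit 4) (nat_lit 410) (nat_lit 301) (nat_lit 189)) (XT.lf (nat_lit 0) (nat_lit 61320833215) (nat_lit 76) (nat_lit 98774420276) (nat_lit 76) (nat_lit 76825469406) (nat_lit 4) (nat_lit 4) (nat_lit 5) (nat_lit 5) (nat_lit 5) (nat_lit 4) (nat_lit 411) (nat_lit 301) (nat_lit 188))))))))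
noncomputable def xc105 : XT := (XT.nd (nat_lit 38376) (nat_lit 0) (nat_lit 5776) (XT.nd (nat_lit 858) (nat_lit 76) (nat_lit 0) (XT.nd (nat_lit 390) (nat_lit 76) (nat_lit 0) (XT.nd (nat_lit 156) (nat_lit 0) (nat_lit 0) (XT.nd (nat_lit 78) (nat_lit 0) (nat_lit 0) (XT.lf (nat_lit 0) (nat_lit 84920287978) (nat_lit 76) (nat_lit 92634985468) (nat_lit 76) (nat_lit 70681802472) (nat_lit 4) (nat_lit 4) (nat_lit 5) (nat_lit 5) (nat_lit 5) (nat_lit 4) (nat_lit 412) (nat_lit 301) (nat_lit 187)) (XT.lf (nat_lit 0) (nat_lit 109692076954) (nat_lit 76) (nat_lit 86192290137) (nat_lit 76) (nat_lit 64235076544) (nat_lit 4) (nat_lit 4) (nat_lit 5) (nat_lit 5) (nat_lit 5) (nat_lit 4) (nat_lit 413) (nat_lit 301) (nat_lit 186))) (XT.nd (nat_lit 78) (nat_lit 0) (nat_lit 0) (XT.lf (nat_lit 0) (nat_lit 135695180592) (nat_lit 76) (nat_lit 79430994532) (nat_lit 76) (nat_lit 57469942275) (nat_lit 4) (nat_lit 4) (nat_lit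 5) (nat_lit 5) (nat_lit 5) (nat_lit 4) (nat_lit 414) (nat_lit 301) (nat_lit 185)) (XT.nd (nat_lit 78) (nat_lit 0) (nat_lit 0) (XT.lf (nat_lit 0) (nat_lit 162991511044) (nat_lit 76) (nat_lit 72335000330) (nat_lit 76) (nat_lit 50370292203) (nat_lit 4) (nat_lit 4) (nat_lit 5) (nat_lit 5) (nat_lit 5) (nat_lit 4) (nat_lit 415) (nat_lit 301) (nat_lit 184)) (XT.lf (nat_lit 0) (nat_lit 191646059572) (nat_lit 76) (nat_lit 64887412306) (nat_lit 76) (nat_lit 42919222398) (nat_lit 4) (nat_lit 4) (nat_lit 5) (nat_lit 5) (nat_lit 5) (nat_lit 4) (nat_lit 416) (nat_lit 301) (nat_lit 183))))) (XT.nd (nat_lit 234) (nat_lit 76) (nat_lit 0) (XT.nd (nat_lit 78) (nat_lit 0) (nat_lit 0) (XT.lf (nat_lit 0) (nat_lit 221727051293) (nat_lit 76) (nat_lit 57070498109) (nat_lit 76) (nat_lit 35098992219) (nat_lit 4) (nat_lit 4) (nat_lit 5) (nat_lit 5) (nat_lit 5) (nat_lit 4) (nat_lit 417) (nat_lit 301) (nat_lit 182))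 (XT.nd (nat_lit 78) (nat_lit 0) (nat_lit 0) (XT.lf (nat_lit 0) (nat_lit 253306107616) (nat_lit 76) (nat_lit 48865646038) (nat_lit 76) (nat_lit 26890982070) (nat_lit 4) (nat_lit 4) (nat_lit 5) (nat_lit 5) (nat_lit 5) (nat_lit 4) (nat_lit 418) (nat_lit 301) (nat_lit 181)) (XT.lf (nat_lit 0) (nat_lit 286458416769) (nat_lit 76) (nat_lit 40253320730) (nat_lit 76) (nat_lit 18275649069) (nat_lit 4) (nat_lit 4) (nat_lit 5) (nat_lit 5) (nat_lit 5) (nat_lit 4) (nat_lit 419) (nat_lit 301) (nat_lit 180)))) (XT.nd (nat_lit 78) (nat_lit 76) (nat_lit 0) (XT.lf (nat_lit 0) (nat_lit 321262912822) (nat_lit 76) (nat_lit 31213016650) (nat_lit 76) (nat_lit 9232480519) (nat_lit 4) (nat_lit 4) (nat_lit 5) (nat_lit 5) (nat_lit 5) (nat_lit 4) (nat_lit 420) (nat_lit 301) (nat_lit 179)) (XT.nd (nat_lit 78) (nat_lit 0) (nat_lit 0) (XT.lf (nat_lit 0) (nat_lit 251731552) (nat_lit 152) (nat_lit 21467214515) (nat_lit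 76) (nat_lit 357546468875) (nat_lit 3) (nat_lit 5) (nat_lit 5) (nat_lit 5) (nat_lit 4) (nat_lit 4) (nat_lit 421) (nat_lit 301) (nat_lit 178)) (XT.lf (nat_lit 0) (nat_lit 9897308837) (nat_lit 152) (nat_lit 1696379239) (nat_lit 76) (nat_lit 386099143551) (nat_lit 3) (nat_lit 5) (nat_lit 5) (nat_lit 5) (nat_lit 4) (nat_lit 4) (nat_lit 422) (nat_lit 301) (nat_lit 177)))))) (XT.nd (nat_lit 390) (nat_lit 0) (nat_lit 0) (XT.nd (nat_lit 156) (nat_lit 0) (nat_lit 0) (XT.nd (nat_lit 78) (nat_lit 0) (nat_lit 0) (XT.lf (nat_lit 0) (nat_lit 19688378023) (nat_lit 76) (nat_lit 641726764) (nat_lit 152) (nat_lit 396696267765) (nat_lit 2) (nat_lit 5) (nat_lit 3) (nat_lit 5) (nat_lit 4) (nat_lit 4) (nat_lit 423) (nat_lit 301) (nat_lit 176)) (XT.lf (nat_lit 0) (nat_lit 31480818480) (nat_lit 152) (nat_lit 395298657569) (nat_lit 0) (nat_lit 10537300957) (nat_lit 2) (nat_lit 5) (nat_lit 4) (nat_lit 4) (nat_lit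 2) (nat_lit 4) (nat_lit 424) (nat_lit 301) (nat_lit 175))) (XT.nd (nat_lit 78) (nat_lit 0) (nat_lit 0) (XT.lf (nat_lit 0) (nat_lit 43197261086) (nat_lit 152) (nat_lit 393172425242) (nat_lit 0) (nat_lit 22251606052) (nat_lit 2) (nat_lit 5) (nat_lit 4) (nat_lit 4) (nat_lit 2) (nat_lit 4) (nat_lit 425) (nat_lit 301) (nat_lit 174)) (XT.nd (nat_lit 78) (nat_lit 0) (nat_lit 0) (XT.lf (nat_lit 0) (nat_lit 55497309747) (nat_lit 152) (nat_lit 390944215936) (nat_lit 0) (nat_lit 34549618987) (nat_lit 2) (nat_lit 5) (nat_lit 4) (nat_lit 4) (nat_lit 2) (nat_lit 4) (nat_lit 426) (nat_lit 301) (nat_lit 173)) (XT.lf (nat_lit 0) (nat_lit 68410250292) (nat_lit 152) (nat_lit 388608724392) (nat_lit 0) (nat_lit 47460620746) (nat_lit 2) (nat_lit 5) (nat_lit 4) (nat_lit 4) (nat_lit 2) (nat_lit 4) (nat_lit 427) (nat_lit 301) (nat_lit 172))))) (XT.nd (nat_lit 234) (nat_lit 0) (nat_lit 0) (XT.nd (nat_lit 78) (nat_lit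 0) (nat_lit 0) (XT.lf (nat_lit 0) (nat_lit 81966827817) (nat_lit 152) (nat_lit 386160389914) (nat_lit 0) (nat_lit 61015351808) (nat_lit 2) (nat_lit 5) (nat_lit 4) (nat_lit 4) (nat_lit 2) (nat_lit 4) (nat_lit 428) (nat_lit 301) (nat_lit 171)) (XT.nd (nat_lit 78) (nat_lit 0) (nat_lit 0) (XT.lf (nat_lit 0) (nat_lit 96199319888) (nat_lit 152) (nat_lit 383593383136) (nat_lit 0) (nat_lit 75246085344) (nat_lit 2) (nat_lit 5) (nat_lit 4) (nat_lit 4) (nat_lit 2) (nat_lit 4) (nat_lit 429) (nat_lit 301) (nat_lit 170)) (XT.lf (nat_lit 0) (nat_lit 111141613392) (nat_lit 152) (nat_lit 380901592136) (nat_lit 0) (nat_lit 90186704051) (nat_lit 2) (nat_lit 5) (nat_lit 4) (nat_lit 4) (nat_lit 2) (nat_lit 4) (nat_lit 430) (nat_lit 301) (nat_lit 169)))) (XT.nd (nat_lit 78) (nat_lit 0) (nat_lit 0) (XT.lf (nat_lit 0) (nat_lit 126829285216) (nat_lit 152) (nat_lit 378078607889) (nat_lit 0) (nat_lit 105872780831)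 (nat_lit 2) (nat_lit 5) (nat_lit 4) (nat_lit 4) (nat_lit 2) (nat_lit 4) (nat_lit 431) (nat_lit 301) (nat_lit 168)) (XT.nd (nat_lit 36738) (nat_lit 0) (nat_lit 11400) (XT.lf (nat_lit 0) (nat_lit 143299686962) (nat_lit 152) (nat_lit 375117709002) (nat_lit 0) (nat_lit 122341663487) (nat_lit 2) (nat_lit 5) (nat_lit 4) (nat_lit 4) (nat_lit 2) (nat_lit 4) (nat_lit 432) (nat_lit 301) (nat_lit 167)) (XT.lf (nat_lit 0) (nat_lit 2489880149) (nat_lit 228) (nat_lit 377232377) (nat_lit 228) (nat_lit 377232377) (nat_lit 152) (nat_lit 3) (nat_lit 155) (nat_lit 3) (nat_lit 155) (nat_lit 5) (nat_lit 302) (nat_lit 302) (nat_lit 296))))))) (XT.nd (nat_lit 858) (nat_lit 3876) (nat_lit 0) (XT.nd (nat_lit 390) (nat_lit 1216) (nat_lit 0) (XT.nd (nat_lit 156) (nat_lit 304) (nat_lit 0) (XT.nd (nat_lit 78) (nat_lit 0) (nat_lit 0) (XT.lf (nat_lit 0) (nat_lit 1119584096) (nat_lit 228) (nat_lit 4122170104) (nat_lit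 304) (nat_lit 1274054083) (nat_lit 149) (nat_lit 5) (nat_lit 152) (nat_lit 3) (nat_lit 153) (nat_lit 5) (nat_lit 303) (nat_lit 302) (nat_lit 295)) (XT.lf (nat_lit 0) (nat_lit 3675349557) (nat_lit 228) (nat_lit 937178080) (nat_lit 304) (nat_lit 1938541525) (nat_lit 149) (nat_lit 5) (nat_lit 152) (nat_lit 3) (nat_lit 153) (nat_lit 5) (nat_lit 304) (nat_lit 302) (nat_lit 294))) (XT.nd (nat_lit 78) (nat_lit 304) (nat_lit 0) (XT.lf (nat_lit 76) (nat_lit 2394239079) (nat_lit 0) (nat_lit 3843520620) (nat_lit 304) (nat_lit 356724004) (nat_lit 150) (nat_lit 5) (nat_lit 149) (nat_lit 5) (nat_lit 153) (nat_lit 5) (nat_lit 305) (nat_lit 302) (nat_lit 293)) (XT.nd (nat_lit 78) (nat_lit 0) (nat_lit 0) (XT.lf (nat_lit 0) (nat_lit 2075961111) (nat_lit 304) (nat_lit 843942127) (nat_lit 380) (nat_lit 3725633040) (nat_lit 145) (nat_lit 5) (nat_lit 149) (nat_lit 5) (nat_lit 150) (nat_lit 5) (nat_lit 306) (nat_lit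 302) (nat_lit 292)) (XT.lf (nat_lit 76) (nat_lit 2670815282) (nat_lit 0) (nat_lit 1841409518) (nat_lit 380) (nat_lit 2192215696) (nat_lit 146) (nat_lit 5) (nat_lit 145) (nat_lit 5) (nat_lit 150) (nat_lit 5) (nat_lit 307) (nat_lit 302) (nat_lit 291))))) (XT.nd (nat_lit 234) (nat_lit 532) (nat_lit 0) (XT.nd (nat_lit 78) (nat_lit 304) (nat_lit 0) (XT.lf (nat_lit 0) (nat_lit 164116460) (nat_lit 380) (nat_lit 472550817) (nat_lit 456) (nat_lit 6136154833) (nat_lit 140) (nat_lit 5) (nat_lit 145) (nat_lit 5) (nat_lit 146) (nat_lit 5) (nat_lit 308) (nat_lit 302) (nat_lit 290)) (XT.nd (nat_lit 78) (nat_lit 380) (nat_lit 0) (XT.lf (nat_lit 0) (nat_lit 2489479436) (nat_lit 380) (nat_lit 3613087410) (nat_lit 76) (nat_lit 744263526) (nat_lit 141) (nat_lit 5) (nat_lit 146) (nat_lit 5) (nat_lit 142) (nat_lit 5) (nat_lit 309) (nat_lit 302) (nat_lit 289)) (XT.lf (nat_lit 0) (nat_lit 116421368) (nat_lit 380)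 (nat_lit 4703198928) (nat_lit 456) (nat_lit 2110730234) (nat_lit 136) (nat_lit 5) (nat_lit 141) (nat_lit 5) (nat_lit 142) (nat_lit 5) (nat_lit 310) (nat_lit 302) (nat_lit 288)))) (XT.nd (nat_lit 78) (nat_lit 456) (nat_lit 0) (XT.lf (nat_lit 0) (nat_lit 173119536) (nat_lit 456) (nat_lit 2959346822) (nat_lit 76) (nat_lit 3888959373) (nat_lit 135) (nat_lit 5) (nat_lit 141) (nat_lit 5) (nat_lit 136) (nat_lit 5) (nat_lit 311) (nat_lit 302) (nat_lit 287)) (XT.nd (nat_lit 78) (nat_lit 0) (nat_lit 0) (XT.lf (nat_lit 0) (nat_lit 992436300) (nat_lit 456) (nat_lit 1400095528) (nat_lit 532) (nat_lit 4728382238) (nat_lit 129) (nat_lit 5) (nat_lit 135) (nat_lit 5) (nat_lit 136) (nat_lit 5) (nat_lit 312) (nat_lit 302) (nat_lit 286)) (XT.lf (nat_lit 0) (nat_lit 4662076680) (nat_lit 532) (nat_lit 2083440093) (nat_lit 76) (nat_lit 483096904) (nat_lit 129) (nat_lit 5) (nat_lit 136) (nat_lit 5) (nat_lit 130)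 (nat_lit 5) (nat_lit 313) (nat_lit 302) (nat_lit 285)))))) (XT.nd (nat_lit 468) (nat_lit 1140) (nat_lit 0) (XT.nd (nat_lit 234) (nat_lit 1520) (nat_lit 0) (XT.nd (nat_lit 78) (nat_lit 684) (nat_lit 0) (XT.lf (nat_lit 0) (nat_lit 2115503665) (nat_lit 532) (nat_lit 4872892873) (nat_lit 608) (nat_lit 356322515) (nat_lit 122) (nat_lit 5) (nat_lit 129) (nat_lit 5) (nat_lit 130) (nat_lit 5) (nat_lit 314) (nat_lit 302) (nat_lit 284)) (XT.nd (nat_lit 78) (nat_lit 608) (nat_lit 0) (XT.lf (nat_lit 0) (nat_lit 1826690282) (nat_lit 608) (nat_lit 994816598) (nat_lit 76) (nat_lit 4647499698) (nat_lit 121) (nat_lit 5) (nat_lit 129) (nat_lit 5) (nat_lit 122) (nat_lit 5) (nat_lit 315) (nat_lit 302) (nat_lit 283)) (XT.lf (nat_lit 0) (nat_lit 3465492669) (nat_lit 608) (nat_lit 590062093) (nat_lit 684) (nat_lit 3546388250) (nat_lit 113) (nat_lit 5) (nat_lit 121) (nat_lit 5) (nat_lit 122) (nat_lit 5) (nat_lit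 316) (nat_lit 302) (nat_lit 282)))) (XT.nd (nat_lit 78) (nat_lit 836) (nat_lit 0) (XT.lf (nat_lit 0) (nat_lit 330756804) (nat_lit 684) (nat_lit 6013149677) (nat_lit 760) (nat_lit 1400370338) (nat_lit 104) (nat_lit 5) (nat_lit 113) (nat_lit 5) (nat_lit 114) (nat_lit 5) (nat_lit 317) (nat_lit 302) (nat_lit 281)) (XT.nd (nat_lit 78) (nat_lit 760) (nat_lit 0) (XT.lf (nat_lit 0) (nat_lit 806541119) (nat_lit 760) (nat_lit 2846201146) (nat_lit 76) (nat_lit 4241413141) (nat_lit 103) (nat_lit 5) (nat_lit 113) (nat_lit 5) (nat_lit 104) (nat_lit 5) (nat_lit 318) (nat_lit 302) (nat_lit 280)) (XT.lf (nat_lit 0) (nat_lit 1895016744) (nat_lit 760) (nat_lit 1116085335) (nat_lit 836) (nat_lit 5042691674) (nat_lit 93) (nat_lit 5) (nat_lit 103) (nat_lit 5) (nat_lit 104) (nat_lit 5) (nat_lit 319) (nat_lit 302) (nat_lit 279))))) (XT.nd (nat_lit 234) (nat_lit 380) (nat_lit 0) (XT.nd (nat_lit 78) (nat_lit 760)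 (nat_lit 0) (XT.lf (nat_lit 0) (nat_lit 5306962325) (nat_lit 836) (nat_lit 1367273206) (nat_lit 76) (nat_lit 1548250596) (nat_lit 93) (nat_lit 5) (nat_lit 104) (nat_lit 5) (nat_lit 94) (nat_lit 5) (nat_lit 320) (nat_lit 302) (nat_lit 278)) (XT.nd (nat_lit 78) (nat_lit 380) (nat_lit 0) (XT.lf (nat_lit 0) (nat_lit 3672156515) (nat_lit 380) (nat_lit 4033392897) (nat_lit 456) (nat_lit 694786699) (nat_lit 88) (nat_lit 5) (nat_lit 93) (nat_lit 5) (nat_lit 94) (nat_lit 5) (nat_lit 321) (nat_lit 302) (nat_lit 277)) (XT.lf (nat_lit 0) (nat_lit 316926846) (nat_lit 304) (nat_lit 1209731932) (nat_lit 380) (nat_lit 7062147213) (nat_lit 83) (nat_lit 5) (nat_lit 87) (nat_lit 5) (nat_lit 88) (nat_lit 5) (nat_lit 322) (nat_lit 302) (nat_lit 276)))) (XT.nd (nat_lit 78) (nat_lit 380) (nat_lit 0) (XT.lf (nat_lit 0) (nat_lit 3860782271) (nat_lit 380) (nat_lit 3139432370) (nat_lit 76) (nat_lit 1784770858) (nat_lit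 83) (nat_lit 5) (nat_lit 88) (nat_lit 5) (nat_lit 84) (nat_lit 5) (nat_lit 323) (nat_lit 302) (nat_lit 275)) (XT.nd (nat_lit 78) (nat_lit 0) (nat_lit 0) (XT.lf (nat_lit 0) (nat_lit 2209993735) (nat_lit 380) (nat_lit 4076112368) (nat_lit 456) (nat_lit 2706241637) (nat_lit 78) (nat_lit 5) (nat_lit 83) (nat_lit 5) (nat_lit 84) (nat_lit 5) (nat_lit 324) (nat_lit 302) (nat_lit 274)) (XT.lf (nat_lit 0) (nat_lit 7846800614) (nat_lit 380) (nat_lit 961632744) (nat_lit 456) (nat_lit 402951651) (nat_lit 78) (nat_lit 5) (nat_lit 83) (nat_lit 5) (nat_lit 84) (nat_lit 5) (nat_lit 325) (nat_lit 302) (nat_lit 273))))))))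
noncomputable def xc106 : XT := (XT.nd (nat_lit 1716) (nat_lit 1368) (nat_lit 0) (XT.nd (nat_lit 858) (nat_lit 1292) (nat_lit 0) (XT.nd (nat_lit 390) (nat_lit 988) (nat_lit 0) (XT.nd (nat_lit 156) (nat_lit 304) (nat_lit 0) (XT.nd (nat_lit 78) (nat_lit 304) (nat_lit 0) (XT.lf (nat_lit 0) (nat_lit 1981259050) (nat_lit 380) (nat_lit 5133484089) (nat_lit 76) (nat_lit 2323629433) (nat_lit 73) (nat_lit 5) (nat_lit 78) (nat_lit 5) (nat_lit 74) (nat_lit 5) (nat_lit 326) (nat_lit 302) (nat_lit 272)) (XT.lf (nat_lit 0) (nat_lit 534500284) (nat_lit 304) (nat_lit 3911222336) (nat_lit 380) (nat_lit 5232008407) (nat_lit 69) (nat_lit 5) (nat_lit 73) (nat_lit 5) (nat_lit 74) (nat_lit 5) (nat_lit 327) (nat_lit 302) (nat_lit 271))) (XT.nd (nat_lit 78) (nat_lit 304) (nat_lit 0) (XT.lf (nat_lit 0) (nat_lit 6576036378) (nat_lit 304) (nat_lit 473398746) (nat_lit 380) (nat_lit 2878898141) (nat_lit 69) (nat_lit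 5) (nat_lit 73) (nat_lit 5) (nat_lit 74) (nat_lit 5) (nat_lit 328) (nat_lit 302) (nat_lit 270)) (XT.nd (nat_lit 78) (nat_lit 76) (nat_lit 0) (XT.lf (nat_lit 0) (nat_lit 2677853241) (nat_lit 228) (nat_lit 7128464855) (nat_lit 304) (nat_lit 384071756) (nat_lit 66) (nat_lit 5) (nat_lit 69) (nat_lit 5) (nat_lit 70) (nat_lit 5) (nat_lit 329) (nat_lit 302) (nat_lit 269)) (XT.lf (nat_lit 0) (nat_lit 2162362139) (nat_lit 304) (nat_lit 1468360203) (nat_lit 76) (nat_lit 6833227651) (nat_lit 65) (nat_lit 5) (nat_lit 69) (nat_lit 5) (nat_lit 66) (nat_lit 5) (nat_lit 330) (nat_lit 302) (nat_lit 268))))) (XT.nd (nat_lit 234) (nat_lit 456) (nat_lit 0) (XT.nd (nat_lit 78) (nat_lit 228) (nat_lit 0) (XT.lf (nat_lit 0) (nat_lit 4838293023) (nat_lit 380) (nat_lit 5805703243) (nat_lit 76) (nat_lit 106186404) (nat_lit 61) (nat_lit 5) (nat_lit 66) (nat_lit 5) (nat_lit 62) (nat_lit 5) (nat_lit 331) (nat_lit 302)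 (nat_lit 267)) (XT.nd (nat_lit 78) (nat_lit 0) (nat_lit 0) (XT.lf (nat_lit 0) (nat_lit 551932987) (nat_lit 228) (nat_lit 7127081403) (nat_lit 304) (nat_lit 3370223343) (nat_lit 58) (nat_lit 5) (nat_lit 61) (nat_lit 5) (nat_lit 62) (nat_lit 5) (nat_lit 332) (nat_lit 302) (nat_lit 266)) (XT.lf (nat_lit 0) (nat_lit 7345126907) (nat_lit 228) (nat_lit 3354211563) (nat_lit 304) (nat_lit 662086317) (nat_lit 58) (nat_lit 5) (nat_lit 61) (nat_lit 5) (nat_lit 62) (nat_lit 5) (nat_lit 333) (nat_lit 302) (nat_lit 265)))) (XT.nd (nat_lit 78) (nat_lit 152) (nat_lit 0) (XT.lf (nat_lit 0) (nat_lit 2106270158) (nat_lit 304) (nat_lit 8937558617) (nat_lit 76) (nat_lit 644010063) (nat_lit 54) (nat_lit 5) (nat_lit 58) (nat_lit 5) (nat_lit 55) (nat_lit 5) (nat_lit 334) (nat_lit 302) (nat_lit 264)) (XT.nd (nat_lit 78) (nat_lit 152) (nat_lit 0) (XT.lf (nat_lit 0) (nat_lit 5057232006) (nat_lit 304) (nat_lit 2182625620)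 (nat_lit 76) (nat_lit 4786901103) (nat_lit 54) (nat_lit 5) (nat_lit 58) (nat_lit 5) (nat_lit 55) (nat_lit 5) (nat_lit 335) (nat_lit 302) (nat_lit 263)) (XT.lf (nat_lit 0) (nat_lit 4990622296) (nat_lit 152) (nat_lit 3188101936) (nat_lit 228) (nat_lit 4202798632) (nat_lit 52) (nat_lit 5) (nat_lit 54) (nat_lit 5) (nat_lit 55) (nat_lit 5) (nat_lit 336) (nat_lit 302) (nat_lit 262)))))) (XT.nd (nat_lit 390) (nat_lit 608) (nat_lit 0) (XT.nd (nat_lit 156) (nat_lit 380) (nat_lit 0) (XT.nd (nat_lit 78) (nat_lit 304) (nat_lit 0) (XT.lf (nat_lit 0) (nat_lit 11456592326) (nat_lit 228) (nat_lit 251349243) (nat_lit 76) (nat_lit 1046113682) (nat_lit 52) (nat_lit 5) (nat_lit 55) (nat_lit 5) (nat_lit 53) (nat_lit 5) (nat_lit 337) (nat_lit 302) (nat_lit 261)) (XT.lf (nat_lit 0) (nat_lit 1814581476) (nat_lit 304) (nat_lit 5816927485) (nat_lit 76) (nat_lit 5506499974) (nat_lit 48) (nat_lit 5) (nat_lit 52) (nat_lit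 5) (nat_lit 49) (nat_lit 5) (nat_lit 338) (nat_lit 302) (nat_lit 260))) (XT.nd (nat_lit 78) (nat_lit 228) (nat_lit 0) (XT.lf (nat_lit 0) (nat_lit 1695955878) (nat_lit 152) (nat_lit 3322536869) (nat_lit 228) (nat_lit 8522649632) (nat_lit 46) (nat_lit 5) (nat_lit 48) (nat_lit 5) (nat_lit 49) (nat_lit 5) (nat_lit 339) (nat_lit 302) (nat_lit 259)) (XT.nd (nat_lit 78) (nat_lit 228) (nat_lit 0) (XT.lf (nat_lit 0) (nat_lit 8451393545) (nat_lit 228) (nat_lit 4271226811) (nat_lit 76) (nat_lit 1238409553) (nat_lit 46) (nat_lit 5) (nat_lit 49) (nat_lit 5) (nat_lit 47) (nat_lit 5) (nat_lit 340) (nat_lit 302) (nat_lit 258)) (XT.lf (nat_lit 0) (nat_lit 3670367046) (nat_lit 228) (nat_lit 8449632248) (nat_lit 304) (nat_lit 2278744867) (nat_lit 43) (nat_lit 5) (nat_lit 46) (nat_lit 5) (nat_lit 47) (nat_lit 5) (nat_lit 341) (nat_lit 302) (nat_lit 257))))) (XT.nd (nat_lit 234) (nat_lit 380) (nat_lit 0) (XT.nd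 (nat_lit 78) (nat_lit 152) (nat_lit 0) (XT.lf (nat_lit 0) (nat_lit 1104192694) (nat_lit 304) (nat_lit 2790447536) (nat_lit 76) (nat_lit 10961559235) (nat_lit 42) (nat_lit 5) (nat_lit 46) (nat_lit 5) (nat_lit 43) (nat_lit 5) (nat_lit 342) (nat_lit 302) (nat_lit 256)) (XT.nd (nat_lit 78) (nat_lit 0) (nat_lit 0) (XT.lf (nat_lit 0) (nat_lit 4637769232) (nat_lit 228) (nat_lit 9732238967) (nat_lit 76) (nat_lit 961778399) (nat_lit 40) (nat_lit 5) (nat_lit 43) (nat_lit 5) (nat_lit 41) (nat_lit 5) (nat_lit 343) (nat_lit 302) (nat_lit 255)) (XT.lf (nat_lit 0) (nat_lit 8415442182) (nat_lit 228) (nat_lit 1459105367) (nat_lit 76) (nat_lit 5953263736) (nat_lit 40) (nat_lit 5) (nat_lit 43) (nat_lit 5) (nat_lit 41) (nat_lit 5) (nat_lit 344) (nat_lit 302) (nat_lit 254)))) (XT.nd (nat_lit 78) (nat_lit 228) (nat_lit 0) (XT.lf (nat_lit 0) (nat_lit 7396205407) (nat_lit 152) (nat_lit 5058924798) (nat_lit 228)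 (nat_lit 3889878123) (nat_lit 38) (nat_lit 5) (nat_lit 40) (nat_lit 5) (nat_lit 41) (nat_lit 5) (nat_lit 345) (nat_lit 302) (nat_lit 253)) (XT.nd (nat_lit 78) (nat_lit 228) (nat_lit 0) (XT.lf (nat_lit 0) (nat_lit 16677834368) (nat_lit 152) (nat_lit 2303550) (nat_lit 228) (nat_lit 208786915) (nat_lit 38) (nat_lit 5) (nat_lit 40) (nat_lit 5) (nat_lit 41) (nat_lit 5) (nat_lit 346) (nat_lit 302) (nat_lit 252)) (XT.lf (nat_lit 0) (nat_lit 3727596369) (nat_lit 228) (nat_lit 8404327762) (nat_lit 76) (nat_lit 5315869461) (nat_lit 35) (nat_lit 5) (nat_lit 38) (nat_lit 5) (nat_lit 36) (nat_lit 5) (nat_lit 347) (nat_lit 302) (nat_lit 251))))))) (XT.nd (nat_lit 858) (nat_lit 608) (nat_lit 0) (XT.nd (nat_lit 390) (nat_lit 304) (nat_lit 0) (XT.nd (nat_lit 156) (nat_lit 304) (nat_lit 0) (XT.nd (nat_lit 78) (nat_lit 0) (nat_lit 0) (XT.lf (nat_lit 0) (nat_lit 686302762) (nat_lit 152) (nat_lit 7142305485)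 (nat_lit 228) (nat_lit 10207107888) (nat_lit 33) (nat_lit 5) (nat_lit 35) (nat_lit 5) (nat_lit 36) (nat_lit 5) (nat_lit 348) (nat_lit 302) (nat_lit 250)) (XT.lf (nat_lit 0) (nat_lit 10458509724) (nat_lit 152) (nat_lit 1779805134) (nat_lit 228) (nat_lit 6409559437) (nat_lit 33) (nat_lit 5) (nat_lit 35) (nat_lit 5) (nat_lit 36) (nat_lit 5) (nat_lit 349) (nat_lit 302) (nat_lit 249))) (XT.nd (nat_lit 78) (nat_lit 228) (nat_lit 0) (XT.lf (nat_lit 0) (nat_lit 1348600833) (nat_lit 76) (nat_lit 15563851227) (nat_lit 152) (nat_lit 2376011704) (nat_lit 32) (nat_lit 5) (nat_lit 33) (nat_lit 5) (nat_lit 34) (nat_lit 4) (nat_lit 350) (nat_lit 302) (nat_lit 248)) (XT.nd (nat_lit 78) (nat_lit 152) (nat_lit 0) (XT.lf (nat_lit 0) (nat_lit 1932803325) (nat_lit 152) (nat_lit 8430198531) (nat_lit 76) (nat_lit 9589993400) (nat_lit 31) (nat_lit 5) (nat_lit 33) (nat_lit 5) (nat_lit 32) (nat_lit 5) (nat_lit 351)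 (nat_lit 302) (nat_lit 247)) (XT.lf (nat_lit 0) (nat_lit 1503792805) (nat_lit 152) (nat_lit 4861613952) (nat_lit 228) (nat_lit 14284007005) (nat_lit 29) (nat_lit 5) (nat_lit 31) (nat_lit 5) (nat_lit 32) (nat_lit 5) (nat_lit 352) (nat_lit 302) (nat_lit 246))))) (XT.nd (nat_lit 234) (nat_lit 228) (nat_lit 0) (XT.nd (nat_lit 78) (nat_lit 76) (nat_lit 0) (XT.lf (nat_lit 0) (nat_lit 11144117905) (nat_lit 228) (nat_lit 9223695831) (nat_lit 76) (nat_lit 1006632581) (nat_lit 29) (nat_lit 5) (nat_lit 32) (nat_lit 5) (nat_lit 30) (nat_lit 4) (nat_lit 353) (nat_lit 302) (nat_lit 245)) (XT.nd (nat_lit 78) (nat_lit 0) (nat_lit 0) (XT.lf (nat_lit 0) (nat_lit 1091742366) (nat_lit 76) (nat_lit 15133512941) (nat_lit 152) (nat_lit 5907316849) (nat_lit 28) (nat_lit 5) (nat_lit 29) (nat_lit 5) (nat_lit 30) (nat_lit 4) (nat_lit 354) (nat_lit 302) (nat_lit 244)) (XT.lf (nat_lit 0) (nat_lit 12186283893) (nat_lit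 76) (nat_lit 9497815586) (nat_lit 152) (nat_lit 1238337733) (nat_lit 28) (nat_lit 5) (nat_lit 29) (nat_lit 5) (nat_lit 30) (nat_lit 4) (nat_lit 355) (nat_lit 302) (nat_lit 243)))) (XT.nd (nat_lit 78) (nat_lit 152) (nat_lit 0) (XT.lf (nat_lit 0) (nat_lit 3515286551) (nat_lit 152) (nat_lit 28691467) (nat_lit 76) (nat_lit 20206547655) (nat_lit 27) (nat_lit 5) (nat_lit 29) (nat_lit 5) (nat_lit 28) (nat_lit 5) (nat_lit 356) (nat_lit 302) (nat_lit 242)) (XT.nd (nat_lit 78) (nat_lit 0) (nat_lit 0) (XT.lf (nat_lit 0) (nat_lit 8659843025) (nat_lit 228) (nat_lit 13147120824) (nat_lit 76) (nat_lit 2802309635) (nat_lit 25) (nat_lit 5) (nat_lit 28) (nat_lit 5) (nat_lit 26) (nat_lit 4) (nat_lit 357) (nat_lit 302) (nat_lit 241)) (XT.lf (nat_lit 0) (nat_lit 14090463345) (nat_lit 228) (nat_lit 2093401847) (nat_lit 76) (nat_lit 9325664378) (nat_lit 25) (nat_lit 5) (nat_lit 28) (nat_lit 5) (nat_lit 26) (nat_lit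 4) (nat_lit 358) (nat_lit 302) (nat_lit 240)))))) (XT.nd (nat_lit 468) (nat_lit 228) (nat_lit 0) (XT.nd (nat_lit 234) (nat_lit 76) (nat_lit 0) (XT.nd (nat_lit 78) (nat_lit 228) (nat_lit 0) (XT.lf (nat_lit 0) (nat_lit 9775502503) (nat_lit 76) (nat_lit 10141396264) (nat_lit 152) (nat_lit 6531697571) (nat_lit 24) (nat_lit 5) (nat_lit 25) (nat_lit 5) (nat_lit 26) (nat_lit 4) (nat_lit 359) (nat_lit 302) (nat_lit 239)) (XT.nd (nat_lit 78) (nat_lit 228) (nat_lit 0) (XT.lf (nat_lit 0) (nat_lit 22260965099) (nat_lit 76) (nat_lit 3781380355) (nat_lit 152) (nat_lit 1391898025) (nat_lit 24) (nat_lit 5) (nat_lit 25) (nat_lit 5) (nat_lit 26) (nat_lit 4) (nat_lit 360) (nat_lit 302) (nat_lit 238)) (XT.lf (nat_lit 0) (nat_lit 4007069196) (nat_lit 228) (nat_lit 21494205061) (nat_lit 76) (nat_lit 2958264814) (nat_lit 21) (nat_lit 5) (nat_lit 24) (nat_lit 5) (nat_lit 22) (nat_lit 4) (nat_lit 361) (nat_lit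 302) (nat_lit 237)))) (XT.nd (nat_lit 78) (nat_lit 76) (nat_lit 0) (XT.lf (nat_lit 0) (nat_lit 9753574359) (nat_lit 228) (nat_lit 9775809320) (nat_lit 76) (nat_lit 9999366481) (nat_lit 21) (nat_lit 5) (nat_lit 24) (nat_lit 5) (nat_lit 22) (nat_lit 4) (nat_lit 362) (nat_lit 302) (nat_lit 236)) (XT.nd (nat_lit 78) (nat_lit 0) (nat_lit 0) (XT.lf (nat_lit 0) (nat_lit 2564561588) (nat_lit 76) (nat_lit 13237481665) (nat_lit 152) (nat_lit 14848656091) (nat_lit 20) (nat_lit 5) (nat_lit 21) (nat_lit 5) (nat_lit 22) (nat_lit 4) (nat_lit 363) (nat_lit 302) (nat_lit 235)) (XT.lf (nat_lit 0) (nat_lit 15816060827) (nat_lit 76) (nat_lit 6477533891) (nat_lit 152) (nat_lit 9528127332) (nat_lit 20) (nat_lit 5) (nat_lit 21) (nat_lit 5) (nat_lit 22) (nat_lit 4) (nat_lit 364) (nat_lit 302) (nat_lit 234))))) (XT.nd (nat_lit 234) (nat_lit 76) (nat_lit 0) (XT.nd (nat_lit 78) (nat_lit 152) (nat_lit 0) (XT.lf (nat_lit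 0) (nat_lit 29095393725) (nat_lit 152) (nat_lit 3374866206) (nat_lit 0) (nat_lit 581761047) (nat_lit 20) (nat_lit 5) (nat_lit 22) (nat_lit 4) (nat_lit 20) (nat_lit 4) (nat_lit 365) (nat_lit 302) (nat_lit 233)) (XT.nd (nat_lit 78) (nat_lit 0) (nat_lit 0) (XT.lf (nat_lit 0) (nat_lit 2077181511) (nat_lit 152) (nat_lit 24303942066) (nat_lit 76) (nat_lit 7949024170) (nat_lit 18) (nat_lit 5) (nat_lit 20) (nat_lit 5) (nat_lit 19) (nat_lit 4) (nat_lit 366) (nat_lit 302) (nat_lit 232)) (XT.lf (nat_lit 0) (nat_lit 8315001301) (nat_lit 152) (nat_lit 11562631962) (nat_lit 76) (nat_lit 15789547413) (nat_lit 18) (nat_lit 5) (nat_lit 20) (nat_lit 5) (nat_lit 19) (nat_lit 4) (nat_lit 367) (nat_lit 302) (nat_lit 231)))) (XT.nd (nat_lit 78) (nat_lit 0) (nat_lit 0) (XT.lf (nat_lit 0) (nat_lit 1834449834) (nat_lit 76) (nat_lit 13037186240) (nat_lit 152) (nat_lit 22199090040) (nat_lit 17) (nat_lit 5) (nat_lit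 18) (nat_lit 5) (nat_lit 19) (nat_lit 4) (nat_lit 368) (nat_lit 302) (nat_lit 230)) (XT.nd (nat_lit 78) (nat_lit 0) (nat_lit 0) (XT.lf (nat_lit 0) (nat_lit 16263451816) (nat_lit 76) (nat_lit 5667172212) (nat_lit 152) (nat_lit 16605105452) (nat_lit 17) (nat_lit 5) (nat_lit 18) (nat_lit 5) (nat_lit 19) (nat_lit 4) (nat_lit 369) (nat_lit 302) (nat_lit 229)) (XT.lf (nat_lit 0) (nat_lit 29354349060) (nat_lit 152) (nat_lit 8730658510) (nat_lit 0) (nat_lit 1988392470) (nat_lit 17) (nat_lit 5) (nat_lit 19) (nat_lit 4) (nat_lit 17) (nat_lit 4) (nat_lit 370) (nat_lit 302) (nat_lit 228))))))))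
noncomputable def xc107 : XT := (XT.nd (nat_lit 1716) (nat_lit 304) (nat_lit 0) (XT.nd (nat_lit 858) (nat_lit 228) (nat_lit 0) (XT.nd (nat_lit 390) (nat_lit 228) (nat_lit 0) (XT.nd (nat_lit 156) (nat_lit 76) (nat_lit 0) (XT.nd (nat_lit 78) (nat_lit 76) (nat_lit 0) (XT.lf (nat_lit 0) (nat_lit 5535901583) (nat_lit 76) (nat_lit 31773121032) (nat_lit 76) (nat_lit 4370949499) (nat_lit 16) (nat_lit 4) (nat_lit 17) (nat_lit 5) (nat_lit 17) (nat_lit 4) (nat_lit 371) (nat_lit 302) (nat_lit 227)) (XT.lf (nat_lit 0) (nat_lit 2351877833) (nat_lit 152) (nat_lit 22615312395) (nat_lit 76) (nat_lit 18391358830) (nat_lit 15) (nat_lit 5) (nat_lit 17) (nat_lit 5) (nat_lit 16) (nat_lit 4) (nat_lit 372) (nat_lit 302) (nat_lit 226))) (XT.nd (nat_lit 78) (nat_lit 76) (nat_lit 0) (XT.lf (nat_lit 0) (nat_lit 9245362643) (nat_lit 152) (nat_lit 8516516557) (nat_lit 76) (nat_lit 27356527741) (nat_lit 15) (nat_lit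 5) (nat_lit 17) (nat_lit 5) (nat_lit 16) (nat_lit 4) (nat_lit 373) (nat_lit 302) (nat_lit 225)) (XT.nd (nat_lit 78) (nat_lit 0) (nat_lit 0) (XT.lf (nat_lit 0) (nat_lit 6460918039) (nat_lit 76) (nat_lit 10105770665) (nat_lit 152) (nat_lit 30395415684) (nat_lit 14) (nat_lit 5) (nat_lit 15) (nat_lit 5) (nat_lit 16) (nat_lit 4) (nat_lit 374) (nat_lit 302) (nat_lit 224)) (XT.lf (nat_lit 0) (nat_lit 22450341554) (nat_lit 76) (nat_lit 1930599657) (nat_lit 152) (nat_lit 24510707271) (nat_lit 14) (nat_lit 5) (nat_lit 15) (nat_lit 5) (nat_lit 16) (nat_lit 4) (nat_lit 375) (nat_lit 302) (nat_lit 223))))) (XT.nd (nat_lit 234) (nat_lit 152) (nat_lit 0) (XT.nd (nat_lit 78) (nat_lit 76) (nat_lit 0) (XT.lf (nat_lit 0) (nat_lit 32673013677) (nat_lit 152) (nat_lit 11813923312) (nat_lit 0) (nat_lit 6426381977) (nat_lit 14) (nat_lit 5) (nat_lit 16) (nat_lit 4) (nat_lit 14) (nat_lit 4) (nat_lit 376) (nat_lit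 302) (nat_lit 222)) (XT.nd (nat_lit 78) (nat_lit 0) (nat_lit 0) (XT.lf (nat_lit 0) (nat_lit 3598239145) (nat_lit 76) (nat_lit 37853307162) (nat_lit 76) (nat_lit 11580938178) (nat_lit 13) (nat_lit 4) (nat_lit 14) (nat_lit 5) (nat_lit 14) (nat_lit 4) (nat_lit 377) (nat_lit 302) (nat_lit 221)) (XT.lf (nat_lit 0) (nat_lit 20161540783) (nat_lit 76) (nat_lit 30691866123) (nat_lit 76) (nat_lit 4394985439) (nat_lit 13) (nat_lit 4) (nat_lit 14) (nat_lit 5) (nat_lit 14) (nat_lit 4) (nat_lit 378) (nat_lit 302) (nat_lit 220)))) (XT.nd (nat_lit 78) (nat_lit 76) (nat_lit 0) (XT.lf (nat_lit 0) (nat_lit 3034261443) (nat_lit 152) (nat_lit 20099989200) (nat_lit 76) (nat_lit 34439148244) (nat_lit 12) (nat_lit 5) (nat_lit 14) (nat_lit 5) (nat_lit 13) (nat_lit 4) (nat_lit 379) (nat_lit 302) (nat_lit 219)) (XT.nd (nat_lit 78) (nat_lit 76) (nat_lit 0) (XT.lf (nat_lit 0) (nat_lit 10672817634) (nat_lit 152) (nat_lit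 4463181842) (nat_lit 76) (nat_lit 44875780036) (nat_lit 12) (nat_lit 5) (nat_lit 14) (nat_lit 5) (nat_lit 13) (nat_lit 4) (nat_lit 380) (nat_lit 302) (nat_lit 218)) (XT.lf (nat_lit 0) (nat_lit 12323859512) (nat_lit 76) (nat_lit 6548087625) (nat_lit 152) (nat_lit 43691203154) (nat_lit 11) (nat_lit 5) (nat_lit 12) (nat_lit 5) (nat_lit 13) (nat_lit 4) (nat_lit 381) (nat_lit 302) (nat_lit 217)))))) (XT.nd (nat_lit 390) (nat_lit 152) (nat_lit 0) (XT.nd (nat_lit 156) (nat_lit 76) (nat_lit 0) (XT.nd (nat_lit 78) (nat_lit 0) (nat_lit 0) (XT.lf (nat_lit 0) (nat_lit 27582711493) (nat_lit 152) (nat_lit 35199012563) (nat_lit 0) (nat_lit 2455284869) (nat_lit 11) (nat_lit 5) (nat_lit 13) (nat_lit 4) (nat_lit 11) (nat_lit 4) (nat_lit 382) (nat_lit 302) (nat_lit 216)) (XT.lf (nat_lit 0) (nat_lit 36823313743) (nat_lit 152) (nat_lit 19538938738) (nat_lit 0) (nat_lit 11677596111) (nat_lit 11) (nat_lit 5)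 (nat_lit 13) (nat_lit 4) (nat_lit 11) (nat_lit 4) (nat_lit 383) (nat_lit 302) (nat_lit 215))) (XT.nd (nat_lit 78) (nat_lit 76) (nat_lit 0) (XT.lf (nat_lit 0) (nat_lit 46513521320) (nat_lit 152) (nat_lit 3119549413) (nat_lit 0) (nat_lit 21350383682) (nat_lit 11) (nat_lit 5) (nat_lit 13) (nat_lit 4) (nat_lit 11) (nat_lit 4) (nat_lit 384) (nat_lit 302) (nat_lit 214)) (XT.nd (nat_lit 78) (nat_lit 0) (nat_lit 0) (XT.lf (nat_lit 0) (nat_lit 14564400980) (nat_lit 76) (nat_lit 42339396283) (nat_lit 76) (nat_lit 17159668162) (nat_lit 10) (nat_lit 4) (nat_lit 11) (nat_lit 5) (nat_lit 11) (nat_lit 4) (nat_lit 385) (nat_lit 302) (nat_lit 213)) (XT.lf (nat_lit 0) (nat_lit 33218656297) (nat_lit 76) (nat_lit 34636145594) (nat_lit 76) (nat_lit 9440617014) (nat_lit 10) (nat_lit 4) (nat_lit 11) (nat_lit 5) (nat_lit 11) (nat_lit 4) (nat_lit 386) (nat_lit 302) (nat_lit 212))))) (XT.nd (nat_lit 234) (nat_lit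 0) (nat_lit 0) (XT.nd (nat_lit 78) (nat_lit 152) (nat_lit 0) (XT.lf (nat_lit 0) (nat_lit 52784485036) (nat_lit 76) (nat_lit 26557808674) (nat_lit 76) (nat_lit 1347232036) (nat_lit 10) (nat_lit 4) (nat_lit 11) (nat_lit 5) (nat_lit 11) (nat_lit 4) (nat_lit 387) (nat_lit 302) (nat_lit 211)) (XT.nd (nat_lit 78) (nat_lit 76) (nat_lit 0) (XT.lf (nat_lit 0) (nat_lit 6911239931) (nat_lit 152) (nat_lit 11056866261) (nat_lit 76) (nat_lit 66280187382) (nat_lit 9) (nat_lit 5) (nat_lit 11) (nat_lit 5) (nat_lit 10) (nat_lit 4) (nat_lit 388) (nat_lit 302) (nat_lit 210)) (XT.lf (nat_lit 0) (nat_lit 6810082821) (nat_lit 76) (nat_lit 8823400092) (nat_lit 152) (nat_lit 72345608621) (nat_lit 8) (nat_lit 5) (nat_lit 9) (nat_lit 5) (nat_lit 10) (nat_lit 4) (nat_lit 389) (nat_lit 302) (nat_lit 209)))) (XT.nd (nat_lit 78) (nat_lit 0) (nat_lit 0) (XT.lf (nat_lit 0) (nat_lit 24984157780) (nat_lit 152) (nat_lit 65967601100)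 (nat_lit 0) (nat_lit 935056610) (nat_lit 8) (nat_lit 5) (nat_lit 10) (nat_lit 4) (nat_lit 8) (nat_lit 4) (nat_lit 390) (nat_lit 302) (nat_lit 208)) (XT.nd (nat_lit 78) (nat_lit 0) (nat_lit 0) (XT.lf (nat_lit 0) (nat_lit 34937337451) (nat_lit 152) (nat_lit 50169395894) (nat_lit 0) (nat_lit 10876445734) (nat_lit 8) (nat_lit 5) (nat_lit 10) (nat_lit 4) (nat_lit 8) (nat_lit 4) (nat_lit 391) (nat_lit 302) (nat_lit 207)) (XT.lf (nat_lit 0) (nat_lit 45378961970) (nat_lit 152) (nat_lit 33599020315) (nat_lit 0) (nat_lit 21306841161) (nat_lit 8) (nat_lit 5) (nat_lit 10) (nat_lit 4) (nat_lit 8) (nat_lit 4) (nat_lit 392) (nat_lit 302) (nat_lit 206))))))) (XT.nd (nat_lit 858) (nat_lit 76) (nat_lit 0) (XT.nd (nat_lit 390) (nat_lit 152) (nat_lit 0) (XT.nd (nat_lit 156) (nat_lit 0) (nat_lit 0) (XT.nd (nat_lit 78) (nat_lit 76) (nat_lit 0) (XT.lf (nat_lit 0) (nat_lit 56333892347) (nat_lit 152) (nat_lit 16217021090)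 (nat_lit 0) (nat_lit 32251077164) (nat_lit 8) (nat_lit 5) (nat_lit 10) (nat_lit 4) (nat_lit 8) (nat_lit 4) (nat_lit 393) (nat_lit 302) (nat_lit 205)) (XT.lf (nat_lit 0) (nat_lit 2084711273) (nat_lit 76) (nat_lit 65776048661) (nat_lit 76) (nat_lit 41683048362) (nat_lit 7) (nat_lit 4) (nat_lit 8) (nat_lit 5) (nat_lit 8) (nat_lit 4) (nat_lit 394) (nat_lit 302) (nat_lit 204))) (XT.nd (nat_lit 78) (nat_lit 0) (nat_lit 0) (XT.lf (nat_lit 0) (nat_lit 21848717533) (nat_lit 76) (nat_lit 58381689784) (nat_lit 76) (nat_lit 34278989373) (nat_lit 7) (nat_lit 4) (nat_lit 8) (nat_lit 5) (nat_lit 8) (nat_lit 4) (nat_lit 395) (nat_lit 302) (nat_lit 203)) (XT.nd (nat_lit 78) (nat_lit 0) (nat_lit 0) (XT.lf (nat_lit 0) (nat_lit 42585846891) (nat_lit 76) (nat_lit 50624874288) (nat_lit 76) (nat_lit 26512935675) (nat_lit 7) (nat_lit 4) (nat_lit 8) (nat_lit 5) (nat_lit 8) (nat_lit 4) (nat_lit 396) (nat_lit 302)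 (nat_lit 202)) (XT.lf (nat_lit 0) (nat_lit 64345473463) (nat_lit 76) (nat_lit 42487133565) (nat_lit 76) (nat_lit 18366396665) (nat_lit 7) (nat_lit 4) (nat_lit 8) (nat_lit 5) (nat_lit 8) (nat_lit 4) (nat_lit 397) (nat_lit 302) (nat_lit 201))))) (XT.nd (nat_lit 234) (nat_lit 76) (nat_lit 0) (XT.nd (nat_lit 78) (nat_lit 76) (nat_lit 0) (XT.lf (nat_lit 0) (nat_lit 87179405885) (nat_lit 76) (nat_lit 33949092043) (nat_lit 76) (nat_lit 9819975822) (nat_lit 7) (nat_lit 4) (nat_lit 8) (nat_lit 5) (nat_lit 8) (nat_lit 4) (nat_lit 398) (nat_lit 302) (nat_lit 200)) (XT.nd (nat_lit 78) (nat_lit 76) (nat_lit 0) (XT.lf (nat_lit 0) (nat_lit 111142010663) (nat_lit 76) (nat_lit 24990421050) (nat_lit 76) (nat_lit 853324523) (nat_lit 7) (nat_lit 4) (nat_lit 8) (nat_lit 5) (nat_lit 8) (nat_lit 4) (nat_lit 399) (nat_lit 302) (nat_lit 199)) (XT.lf (nat_lit 0) (nat_lit 8281095968) (nat_lit 152) (nat_lit 7168450083)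 (nat_lit 76) (nat_lit 127869001282) (nat_lit 6) (nat_lit 5) (nat_lit 8) (nat_lit 5) (nat_lit 7) (nat_lit 4) (nat_lit 400) (nat_lit 302) (nat_lit 198)))) (XT.nd (nat_lit 78) (nat_lit 0) (nat_lit 0) (XT.lf (nat_lit 0) (nat_lit 12825083626) (nat_lit 76) (nat_lit 5212486528) (nat_lit 152) (nat_lit 131920009047) (nat_lit 5) (nat_lit 5) (nat_lit 6) (nat_lit 5) (nat_lit 7) (nat_lit 4) (nat_lit 401) (nat_lit 302) (nat_lit 197)) (XT.nd (nat_lit 78) (nat_lit 0) (nat_lit 0) (XT.lf (nat_lit 0) (nat_lit 28485495618) (nat_lit 152) (nat_lit 122955799610) (nat_lit 0) (nat_lit 5477087162) (nat_lit 5) (nat_lit 5) (nat_lit 7) (nat_lit 4) (nat_lit 5) (nat_lit 4) (nat_lit 402) (nat_lit 302) (nat_lit 196)) (XT.lf (nat_lit 0) (nat_lit 39535360418) (nat_lit 152) (nat_lit 108167190037) (nat_lit 0) (nat_lit 16520699183) (nat_lit 5) (nat_lit 5) (nat_lit 7) (nat_lit 4) (nat_lit 5) (nat_lit 4) (nat_lit 403) (nat_lit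 302) (nat_lit 195)))))) (XT.nd (nat_lit 468) (nat_lit 76) (nat_lit 0) (XT.nd (nat_lit 234) (nat_lit 0) (nat_lit 0) (XT.nd (nat_lit 78) (nat_lit 0) (nat_lit 0) (XT.lf (nat_lit 0) (nat_lit 51132092235) (nat_lit 152) (nat_lit 92650074357) (nat_lit 0) (nat_lit 28111475973) (nat_lit 5) (nat_lit 5) (nat_lit 7) (nat_lit 4) (nat_lit 5) (nat_lit 4) (nat_lit 404) (nat_lit 302) (nat_lit 194)) (XT.nd (nat_lit 78) (nat_lit 0) (nat_lit 0) (XT.lf (nat_lit 0) (nat_lit 63303302334) (nat_lit 152) (nat_lit 76367507057) (nat_lit 0) (nat_lit 40277014617) (nat_lit 5) (nat_lit 5) (nat_lit 7) (nat_lit 4) (nat_lit 5) (nat_lit 4) (nat_lit 405) (nat_lit 302) (nat_lit 193)) (XT.lf (nat_lit 0) (nat_lit 76077969786) (nat_lit 152) (nat_lit 59280720120) (nat_lit 0) (nat_lit 53046280685) (nat_lit 5) (nat_lit 5) (nat_lit 7) (nat_lit 4) (nat_lit 5) (nat_lit 4) (nat_lit 406) (nat_lit 302) (nat_lit 192)))) (XT.nd (nat_lit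 78) (nat_lit 0) (nat_lit 0) (XT.lf (nat_lit 0) (nat_lit 89486510468) (nat_lit 152) (nat_lit 41349030720) (nat_lit 0) (nat_lit 66449677190) (nat_lit 5) (nat_lit 5) (nat_lit 7) (nat_lit 4) (nat_lit 5) (nat_lit 4) (nat_lit 407) (nat_lit 302) (nat_lit 191)) (XT.nd (nat_lit 78) (nat_lit 0) (nat_lit 0) (XT.lf (nat_lit 0) (nat_lit 103560849475) (nat_lit 152) (nat_lit 22529744358) (nat_lit 0) (nat_lit 80519116981) (nat_lit 5) (nat_lit 5) (nat_lit 7) (nat_lit 4) (nat_lit 5) (nat_lit 4) (nat_lit 408) (nat_lit 302) (nat_lit 190)) (XT.lf (nat_lit 0) (nat_lit 118334497139) (nat_lit 152) (nat_lit 2778053210) (nat_lit 0) (nat_lit 95288098726) (nat_lit 5) (nat_lit 5) (nat_lit 7) (nat_lit 4) (nat_lit 5) (nat_lit 4) (nat_lit 409) (nat_lit 302) (nat_lit 189))))) (XT.nd (nat_lit 234) (nat_lit 0) (nat_lit 0) (XT.nd (nat_lit 78) (nat_lit 0) (nat_lit 0) (XT.lf (nat_lit 0) (nat_lit 18546680152) (nat_lit 76) (nat_lit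 115585514313) (nat_lit 76) (nat_lit 92534672167) (nat_lit 4) (nat_lit 4) (nat_lit 5) (nat_lit 5) (nat_lit 5) (nat_lit 4) (nat_lit 410) (nat_lit 302) (nat_lit 188)) (XT.nd (nat_lit 78) (nat_lit 0) (nat_lit 0) (XT.lf (nat_lit 0) (nat_lit 41026077465) (nat_lit 76) (nat_lit 109736623194) (nat_lit 76) (nat_lit 86681548921) (nat_lit 4) (nat_lit 4) (nat_lit 5) (nat_lit 5) (nat_lit 5) (nat_lit 4) (nat_lit 411) (nat_lit 302) (nat_lit 187)) (XT.lf (nat_lit 0) (nat_lit 64621806118) (nat_lit 76) (nat_lit 103598998736) (nat_lit 76) (nat_lit 80539893866) (nat_lit 4) (nat_lit 4) (nat_lit 5) (nat_lit 5) (nat_lit 5) (nat_lit 4) (nat_lit 412) (nat_lit 302) (nat_lit 186)))) (XT.nd (nat_lit 78) (nat_lit 0) (nat_lit 0) (XT.lf (nat_lit 0) (nat_lit 89390046417) (nat_lit 76) (nat_lit 97158027547) (nat_lit 76) (nat_lit 74095084014) (nat_lit 4) (nat_lit 4) (nat_lit 5) (nat_lit 5) (nat_lit 5) (nat_lit 4) (nat_lit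 413) (nat_lit 302) (nat_lit 185)) (XT.nd (nat_lit 78) (nat_lit 0) (nat_lit 0) (XT.lf (nat_lit 0) (nat_lit 115389770363) (nat_lit 76) (nat_lit 90398373982) (nat_lit 76) (nat_lit 67331774579) (nat_lit 4) (nat_lit 4) (nat_lit 5) (nat_lit 5) (nat_lit 5) (nat_lit 4) (nat_lit 414) (nat_lit 302) (nat_lit 184)) (XT.lf (nat_lit 0) (nat_lit 142682882061) (nat_lit 76) (nat_lit 83303943629) (nat_lit 76) (nat_lit 60233862444) (nat_lit 4) (nat_lit 4) (nat_lit 5) (nat_lit 5) (nat_lit 5) (nat_lit 4) (nat_lit 415) (nat_lit 302) (nat_lit 183))))))))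
noncomputable def xc108 : XT := (XT.nd (nat_lit 38532) (nat_lit 0) (nat_lit 4484) (XT.nd (nat_lit 858) (nat_lit 0) (nat_lit 0) (XT.nd (nat_lit 390) (nat_lit 152) (nat_lit 0) (XT.nd (nat_lit 156) (nat_lit 0) (nat_lit 0) (XT.nd (nat_lit 78) (nat_lit 0) (nat_lit 0) (XT.lf (nat_lit 0) (nat_lit 171334365110) (nat_lit 76) (nat_lit 75857844984) (nat_lit 76) (nat_lit 52784447818) (nat_lit 4) (nat_lit 4) (nat_lit 5) (nat_lit 5) (nat_lit 5) (nat_lit 4) (nat_lit 416) (nat_lit 302) (nat_lit 182)) (XT.lf (nat_lit 0) (nat_lit 201412437326) (nat_lit 76) (nat_lit 68042349244) (nat_lit 76) (nat_lit 44965793999) (nat_lit 4) (nat_lit 4) (nat_lit 5) (nat_lit 5) (nat_lit 5) (nat_lit 4) (nat_lit 417) (nat_lit 302) (nat_lit 181))) (XT.nd (nat_lit 78) (nat_lit 0) (nat_lit 0) (XT.lf (nat_lit 0) (nat_lit 232988713168) (nat_lit 76) (nat_lit 59838848083) (nat_lit 76) (nat_lit 36759285146) (nat_lit 4) (nat_lit 4) (nat_lit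 5) (nat_lit 5) (nat_lit 5) (nat_lit 4) (nat_lit 418) (nat_lit 302) (nat_lit 180)) (XT.nd (nat_lit 78) (nat_lit 0) (nat_lit 0) (XT.lf (nat_lit 0) (nat_lit 266138374244) (nat_lit 76) (nat_lit 51227809357) (nat_lit 76) (nat_lit 28145381950) (nat_lit 4) (nat_lit 4) (nat_lit 5) (nat_lit 5) (nat_lit 5) (nat_lit 4) (nat_lit 419) (nat_lit 302) (nat_lit 179)) (XT.lf (nat_lit 0) (nat_lit 300940348319) (nat_lit 76) (nat_lit 42188730593) (nat_lit 76) (nat_lit 19103575119) (nat_lit 4) (nat_lit 4) (nat_lit 5) (nat_lit 5) (nat_lit 5) (nat_lit 4) (nat_lit 420) (nat_lit 302) (nat_lit 178))))) (XT.nd (nat_lit 234) (nat_lit 76) (nat_lit 0) (XT.nd (nat_lit 78) (nat_lit 76) (nat_lit 0) (XT.lf (nat_lit 0) (nat_lit 337477497236) (nat_lit 76) (nat_lit 32700090174) (nat_lit 76) (nat_lit 9612336541) (nat_lit 4) (nat_lit 4) (nat_lit 5) (nat_lit 5) (nat_lit 5) (nat_lit 4) (nat_lit 421) (nat_lit 302) (nat_lit 177))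 (XT.nd (nat_lit 78) (nat_lit 0) (nat_lit 0) (XT.lf (nat_lit 0) (nat_lit 339699954) (nat_lit 152) (nat_lit 22393843162) (nat_lit 76) (nat_lit 375491361269) (nat_lit 3) (nat_lit 5) (nat_lit 5) (nat_lit 5) (nat_lit 4) (nat_lit 4) (nat_lit 422) (nat_lit 302) (nat_lit 176)) (XT.lf (nat_lit 0) (nat_lit 10463966493) (nat_lit 152) (nat_lit 1641453364) (nat_lit 76) (nat_lit 405468452109) (nat_lit 3) (nat_lit 5) (nat_lit 5) (nat_lit 5) (nat_lit 4) (nat_lit 4) (nat_lit 423) (nat_lit 302) (nat_lit 175)))) (XT.nd (nat_lit 78) (nat_lit 0) (nat_lit 0) (XT.lf (nat_lit 0) (nat_lit 20810287813) (nat_lit 76) (nat_lit 606842369) (nat_lit 152) (nat_lit 416457023912) (nat_lit 2) (nat_lit 5) (nat_lit 3) (nat_lit 5) (nat_lit 4) (nat_lit 4) (nat_lit 424) (nat_lit 302) (nat_lit 174)) (XT.nd (nat_lit 78) (nat_lit 0) (nat_lit 0) (XT.lf (nat_lit 0) (nat_lit 33123017267) (nat_lit 152) (nat_lit 414930273902) (nat_lit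 0) (nat_lit 11125906244) (nat_lit 2) (nat_lit 5) (nat_lit 4) (nat_lit 4) (nat_lit 2) (nat_lit 4) (nat_lit 425) (nat_lit 302) (nat_lit 173)) (XT.lf (nat_lit 0) (nat_lit 45422036392) (nat_lit 152) (nat_lit 412704078365) (nat_lit 0) (nat_lit 23422986582) (nat_lit 2) (nat_lit 5) (nat_lit 4) (nat_lit 4) (nat_lit 2) (nat_lit 4) (nat_lit 426) (nat_lit 302) (nat_lit 172)))))) (XT.nd (nat_lit 37206) (nat_lit 0) (nat_lit 10488) (XT.nd (nat_lit 156) (nat_lit 0) (nat_lit 0) (XT.nd (nat_lit 78) (nat_lit 0) (nat_lit 0) (XT.lf (nat_lit 0) (nat_lit 58333996426) (nat_lit 152) (nat_lit 410370504696) (nat_lit 0) (nat_lit 36333100154) (nat_lit 2) (nat_lit 5) (nat_lit 4) (nat_lit 4) (nat_lit 2) (nat_lit 4) (nat_lit 427) (nat_lit 302) (nat_lit 171)) (XT.lf (nat_lit 0) (nat_lit 71889640131) (nat_lit 152) (nat_lit 407923996766) (nat_lit 0) (nat_lit 49886985323) (nat_lit 2) (nat_lit 5) (nat_lit 4) (nat_lit 4) (nat_lit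 2) (nat_lit 4) (nat_lit 428) (nat_lit 302) (nat_lit 170))) (XT.nd (nat_lit 78) (nat_lit 0) (nat_lit 0) (XT.lf (nat_lit 0) (nat_lit 86121242851) (nat_lit 152) (nat_lit 405358729558) (nat_lit 0) (nat_lit 64116913246) (nat_lit 2) (nat_lit 5) (nat_lit 4) (nat_lit 4) (nat_lit 2) (nat_lit 4) (nat_lit 429) (nat_lit 302) (nat_lit 169)) (XT.nd (nat_lit 78) (nat_lit 0) (nat_lit 0) (XT.lf (nat_lit 0) (nat_lit 101062689352) (nat_lit 152) (nat_lit 402668595291) (nat_lit 0) (nat_lit 79056764704) (nat_lit 2) (nat_lit 5) (nat_lit 4) (nat_lit 4) (nat_lit 2) (nat_lit 4) (nat_lit 430) (nat_lit 302) (nat_lit 168)) (XT.lf (nat_lit 0) (nat_lit 116749554508) (nat_lit 152) (nat_lit 399847188884) (nat_lit 0) (nat_lit 94742110771) (nat_lit 2) (nat_lit 5) (nat_lit 4) (nat_lit 4) (nat_lit 2) (nat_lit 4) (nat_lit 431) (nat_lit 302) (nat_lit 167))))) (XT.nd (nat_lit 234) (nat_lit 304) (nat_lit 0) (XT.nd (nat_lit 78)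 (nat_lit 380) (nat_lit 0) (XT.lf (nat_lit 0) (nat_lit 900206843) (nat_lit 0) (nat_lit 900206843) (nat_lit 228) (nat_lit 1473020500) (nat_lit 149) (nat_lit 5) (nat_lit 149) (nat_lit 3) (nat_lit 152) (nat_lit 3) (nat_lit 303) (nat_lit 303) (nat_lit 294)) (XT.nd (nat_lit 78) (nat_lit 380) (nat_lit 0) (XT.lf (nat_lit 0) (nat_lit 4992951319) (nat_lit 0) (nat_lit 1074986602) (nat_lit 228) (nat_lit 518786729) (nat_lit 149) (nat_lit 5) (nat_lit 149) (nat_lit 3) (nat_lit 152) (nat_lit 3) (nat_lit 304) (nat_lit 303) (nat_lit 293)) (XT.lf (nat_lit 76) (nat_lit 1656356490) (nat_lit 0) (nat_lit 179401564) (nat_lit 380) (nat_lit 4797988807) (nat_lit 145) (nat_lit 5) (nat_lit 144) (nat_lit 3) (nat_lit 149) (nat_lit 5) (nat_lit 305) (nat_lit 303) (nat_lit 292)))) (XT.nd (nat_lit 78) (nat_lit 380) (nat_lit 0) (XT.lf (nat_lit 0) (nat_lit 4182143678) (nat_lit 304) (nat_lit 1667268592) (nat_lit 380) (nat_lit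 838993305) (nat_lit 145) (nat_lit 5) (nat_lit 149) (nat_lit 5) (nat_lit 150) (nat_lit 5) (nat_lit 306) (nat_lit 303) (nat_lit 291)) (XT.nd (nat_lit 78) (nat_lit 380) (nat_lit 0) (XT.lf (nat_lit 76) (nat_lit 1777553905) (nat_lit 0) (nat_lit 4758258447) (nat_lit 380) (nat_lit 215761006) (nat_lit 146) (nat_lit 5) (nat_lit 145) (nat_lit 5) (nat_lit 150) (nat_lit 5) (nat_lit 307) (nat_lit 303) (nat_lit 290)) (XT.lf (nat_lit 0) (nat_lit 2010091867) (nat_lit 380) (nat_lit 1486825152) (nat_lit 456) (nat_lit 3324977446) (nat_lit 140) (nat_lit 5) (nat_lit 145) (nat_lit 5) (nat_lit 146) (nat_lit 5) (nat_lit 308) (nat_lit 303) (nat_lit 289))))))) (XT.nd (nat_lit 858) (nat_lit 3192) (nat_lit 0) (XT.nd (nat_lit 390) (nat_lit 1976) (nat_lit 0) (XT.nd (nat_lit 156) (nat_lit 836) (nat_lit 0) (XT.nd (nat_lit 78) (nat_lit 0) (nat_lit 0) (XT.lf (nat_lit 76) (nat_lit 2156208406) (nat_lit 0) (nat_lit 2086202644)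 (nat_lit 456) (nat_lit 2658259464) (nat_lit 141) (nat_lit 5) (nat_lit 140) (nat_lit 5) (nat_lit 146) (nat_lit 5) (nat_lit 309) (nat_lit 303) (nat_lit 288)) (XT.lf (nat_lit 76) (nat_lit 5950372093) (nat_lit 0) (nat_lit 534873654) (nat_lit 456) (nat_lit 503420323) (nat_lit 141) (nat_lit 5) (nat_lit 140) (nat_lit 5) (nat_lit 146) (nat_lit 5) (nat_lit 310) (nat_lit 303) (nat_lit 287))) (XT.nd (nat_lit 78) (nat_lit 456) (nat_lit 0) (XT.lf (nat_lit 0) (nat_lit 1643520572) (nat_lit 456) (nat_lit 4269229740) (nat_lit 76) (nat_lit 1170109329) (nat_lit 135) (nat_lit 5) (nat_lit 141) (nat_lit 5) (nat_lit 136) (nat_lit 5) (nat_lit 311) (nat_lit 303) (nat_lit 286)) (XT.nd (nat_lit 78) (nat_lit 456) (nat_lit 0) (XT.lf (nat_lit 0) (nat_lit 3790206886) (nat_lit 456) (nat_lit 392272500) (nat_lit 76) (nat_lit 3003599990) (nat_lit 135) (nat_lit 5) (nat_lit 141) (nat_lit 5) (nat_lit 136) (nat_lit 5) (nat_lit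 312) (nat_lit 303) (nat_lit 285)) (XT.lf (nat_lit 0) (nat_lit 3713308783) (nat_lit 456) (nat_lit 2277156653) (nat_lit 532) (nat_lit 1306868438) (nat_lit 129) (nat_lit 5) (nat_lit 135) (nat_lit 5) (nat_lit 136) (nat_lit 5) (nat_lit 313) (nat_lit 303) (nat_lit 284))))) (XT.nd (nat_lit 234) (nat_lit 760) (nat_lit 0) (XT.nd (nat_lit 78) (nat_lit 608) (nat_lit 0) (XT.lf (nat_lit 0) (nat_lit 540816903) (nat_lit 532) (nat_lit 222943799) (nat_lit 608) (nat_lit 6654589141) (nat_lit 121) (nat_lit 5) (nat_lit 128) (nat_lit 5) (nat_lit 129) (nat_lit 5) (nat_lit 314) (nat_lit 303) (nat_lit 283)) (XT.nd (nat_lit 78) (nat_lit 608) (nat_lit 0) (XT.lf (nat_lit 0) (nat_lit 2880458794) (nat_lit 608) (nat_lit 2689550965) (nat_lit 76) (nat_lit 1975173198) (nat_lit 121) (nat_lit 5) (nat_lit 129) (nat_lit 5) (nat_lit 122) (nat_lit 5) (nat_lit 315) (nat_lit 303) (nat_lit 282)) (XT.lf (nat_lit 0) (nat_lit 1671103402)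 (nat_lit 608) (nat_lit 3361224061) (nat_lit 684) (nat_lit 2649716232) (nat_lit 113) (nat_lit 5) (nat_lit 121) (nat_lit 5) (nat_lit 122) (nat_lit 5) (nat_lit 316) (nat_lit 303) (nat_lit 281)))) (XT.nd (nat_lit 78) (nat_lit 760) (nat_lit 0) (XT.lf (nat_lit 0) (nat_lit 6258004080) (nat_lit 608) (nat_lit 982376389) (nat_lit 684) (nat_lit 588082934) (nat_lit 113) (nat_lit 5) (nat_lit 121) (nat_lit 5) (nat_lit 122) (nat_lit 5) (nat_lit 317) (nat_lit 303) (nat_lit 280)) (XT.nd (nat_lit 78) (nat_lit 0) (nat_lit 0) (XT.lf (nat_lit 0) (nat_lit 1505298118) (nat_lit 760) (nat_lit 4926683293) (nat_lit 76) (nat_lit 1550167449) (nat_lit 103) (nat_lit 5) (nat_lit 113) (nat_lit 5) (nat_lit 104) (nat_lit 5) (nat_lit 318) (nat_lit 303) (nat_lit 279)) (XT.lf (nat_lit 0) (nat_lit 3636035173) (nat_lit 760) (nat_lit 288934220) (nat_lit 76) (nat_lit 4220570312) (nat_lit 103) (nat_lit 5) (nat_lit 113) (nat_lit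 5) (nat_lit 104) (nat_lit 5) (nat_lit 319) (nat_lit 303) (nat_lit 278)))))) (XT.nd (nat_lit 468) (nat_lit 1292) (nat_lit 0) (XT.nd (nat_lit 234) (nat_lit 684) (nat_lit 0) (XT.nd (nat_lit 78) (nat_lit 456) (nat_lit 0) (XT.lf (nat_lit 0) (nat_lit 4645803000) (nat_lit 760) (nat_lit 1213671861) (nat_lit 836) (nat_lit 2458436628) (nat_lit 93) (nat_lit 5) (nat_lit 103) (nat_lit 5) (nat_lit 104) (nat_lit 5) (nat_lit 320) (nat_lit 303) (nat_lit 277)) (XT.nd (nat_lit 78) (nat_lit 76) (nat_lit 0) (XT.lf (nat_lit 0) (nat_lit 1267069370) (nat_lit 380) (nat_lit 6893752469) (nat_lit 456) (nat_lit 339857244) (nat_lit 88) (nat_lit 5) (nat_lit 93) (nat_lit 5) (nat_lit 94) (nat_lit 5) (nat_lit 321) (nat_lit 303) (nat_lit 276)) (XT.lf (nat_lit 0) (nat_lit 1825132511) (nat_lit 456) (nat_lit 2247108106) (nat_lit 76) (nat_lit 4618936495) (nat_lit 87) (nat_lit 5) (nat_lit 93) (nat_lit 5) (nat_lit 88) (nat_lit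 5) (nat_lit 322) (nat_lit 303) (nat_lit 275)))) (XT.nd (nat_lit 78) (nat_lit 380) (nat_lit 0) (XT.lf (nat_lit 0) (nat_lit 2995217091) (nat_lit 304) (nat_lit 1060113462) (nat_lit 380) (nat_lit 4837270372) (nat_lit 83) (nat_lit 5) (nat_lit 87) (nat_lit 5) (nat_lit 88) (nat_lit 5) (nat_lit 323) (nat_lit 303) (nat_lit 274)) (XT.nd (nat_lit 78) (nat_lit 380) (nat_lit 0) (XT.lf (nat_lit 0) (nat_lit 6392506304) (nat_lit 380) (nat_lit 644204998) (nat_lit 76) (nat_lit 2067705013) (nat_lit 83) (nat_lit 5) (nat_lit 88) (nat_lit 5) (nat_lit 84) (nat_lit 5) (nat_lit 324) (nat_lit 303) (nat_lit 273)) (XT.lf (nat_lit 0) (nat_lit 4929915009) (nat_lit 380) (nat_lit 3938555754) (nat_lit 456) (nat_lit 457344527) (nat_lit 78) (nat_lit 5) (nat_lit 83) (nat_lit 5) (nat_lit 84) (nat_lit 5) (nat_lit 325) (nat_lit 303) (nat_lit 272))))) (XT.nd (nat_lit 234) (nat_lit 608) (nat_lit 0) (XT.nd (nat_lit 78) (nat_lit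 304) (nat_lit 0) (XT.lf (nat_lit 0) (nat_lit 1171622075) (nat_lit 304) (nat_lit 635112440) (nat_lit 380) (nat_lit 7752243945) (nat_lit 73) (nat_lit 5) (nat_lit 77) (nat_lit 5) (nat_lit 78) (nat_lit 5) (nat_lit 326) (nat_lit 303) (nat_lit 271)) (XT.nd (nat_lit 78) (nat_lit 304) (nat_lit 0) (XT.lf (nat_lit 0) (nat_lit 4219016541) (nat_lit 380) (nat_lit 2768149653) (nat_lit 76) (nat_lit 2813817431) (nat_lit 73) (nat_lit 5) (nat_lit 78) (nat_lit 5) (nat_lit 74) (nat_lit 5) (nat_lit 327) (nat_lit 303) (nat_lit 270)) (XT.lf (nat_lit 0) (nat_lit 3140943477) (nat_lit 304) (nat_lit 3604193845) (nat_lit 380) (nat_lit 3310363971) (nat_lit 69) (nat_lit 5) (nat_lit 73) (nat_lit 5) (nat_lit 74) (nat_lit 5) (nat_lit 328) (nat_lit 303) (nat_lit 269)))) (XT.nd (nat_lit 78) (nat_lit 608) (nat_lit 0) (XT.lf (nat_lit 0) (nat_lit 9361712653) (nat_lit 304) (nat_lit 18411915) (nat_lit 380) (nat_lit 943562232)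 (nat_lit 69) (nat_lit 5) (nat_lit 73) (nat_lit 5) (nat_lit 74) (nat_lit 5) (nat_lit 329) (nat_lit 303) (nat_lit 268)) (XT.nd (nat_lit 78) (nat_lit 304) (nat_lit 0) (XT.lf (nat_lit 0) (nat_lit 1573572386) (nat_lit 304) (nat_lit 5305650407) (nat_lit 76) (nat_lit 3720852195) (nat_lit 65) (nat_lit 5) (nat_lit 69) (nat_lit 5) (nat_lit 66) (nat_lit 5) (nat_lit 330) (nat_lit 303) (nat_lit 267)) (XT.lf (nat_lit 0) (nat_lit 941908528) (nat_lit 304) (nat_lit 3213696979) (nat_lit 380) (nat_lit 6735426534) (nat_lit 61) (nat_lit 5) (nat_lit 65) (nat_lit 5) (nat_lit 66) (nat_lit 5) (nat_lit 331) (nat_lit 303) (nat_lit 266))))))))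
noncomputable def xc109 : XT := (XT.nd (nat_lit 1716) (nat_lit 1140) (nat_lit 0) (XT.nd (nat_lit 858) (nat_lit 1064) (nat_lit 0) (XT.nd (nat_lit 390) (nat_lit 684) (nat_lit 0) (XT.nd (nat_lit 156) (nat_lit 456) (nat_lit 0) (XT.nd (nat_lit 78) (nat_lit 228) (nat_lit 0) (XT.lf (nat_lit 0) (nat_lit 6908536756) (nat_lit 380) (nat_lit 3598587615) (nat_lit 76) (nat_lit 687380323) (nat_lit 61) (nat_lit 5) (nat_lit 66) (nat_lit 5) (nat_lit 62) (nat_lit 5) (nat_lit 332) (nat_lit 303) (nat_lit 265)) (XT.lf (nat_lit 0) (nat_lit 3036649769) (nat_lit 228) (nat_lit 6805943664) (nat_lit 304) (nat_lit 1668438431) (nat_lit 58) (nat_lit 5) (nat_lit 61) (nat_lit 5) (nat_lit 62) (nat_lit 5) (nat_lit 333) (nat_lit 303) (nat_lit 264))) (XT.nd (nat_lit 78) (nat_lit 380) (nat_lit 0) (XT.lf (nat_lit 0) (nat_lit 1051283546) (nat_lit 304) (nat_lit 1807604305) (nat_lit 76) (nat_lit 8983410124) (nat_lit 57) (nat_lit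 5) (nat_lit 61) (nat_lit 5) (nat_lit 58) (nat_lit 5) (nat_lit 334) (nat_lit 303) (nat_lit 263)) (XT.nd (nat_lit 78) (nat_lit 152) (nat_lit 0) (XT.lf (nat_lit 0) (nat_lit 3901179571) (nat_lit 304) (nat_lit 6949697396) (nat_lit 76) (nat_lit 1335417295) (nat_lit 54) (nat_lit 5) (nat_lit 58) (nat_lit 5) (nat_lit 55) (nat_lit 5) (nat_lit 335) (nat_lit 303) (nat_lit 262)) (XT.lf (nat_lit 0) (nat_lit 27936432) (nat_lit 152) (nat_lit 6891732298) (nat_lit 228) (nat_lit 5626561824) (nat_lit 52) (nat_lit 5) (nat_lit 54) (nat_lit 5) (nat_lit 55) (nat_lit 5) (nat_lit 336) (nat_lit 303) (nat_lit 261))))) (XT.nd (nat_lit 234) (nat_lit 380) (nat_lit 0) (XT.nd (nat_lit 78) (nat_lit 304) (nat_lit 0) (XT.lf (nat_lit 0) (nat_lit 7521552617) (nat_lit 152) (nat_lit 2634240154) (nat_lit 228) (nat_lit 2765078328) (nat_lit 52) (nat_lit 5) (nat_lit 54) (nat_lit 5) (nat_lit 55) (nat_lit 5) (nat_lit 337) (nat_lit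 303) (nat_lit 260)) (XT.nd (nat_lit 78) (nat_lit 0) (nat_lit 0) (XT.lf (nat_lit 0) (nat_lit 243570699) (nat_lit 304) (nat_lit 11278187917) (nat_lit 76) (nat_lit 1791749266) (nat_lit 48) (nat_lit 5) (nat_lit 52) (nat_lit 5) (nat_lit 49) (nat_lit 5) (nat_lit 338) (nat_lit 303) (nat_lit 259)) (XT.lf (nat_lit 0) (nat_lit 3397339134) (nat_lit 304) (nat_lit 3855310762) (nat_lit 76) (nat_lit 6466516675) (nat_lit 48) (nat_lit 5) (nat_lit 52) (nat_lit 5) (nat_lit 49) (nat_lit 5) (nat_lit 339) (nat_lit 303) (nat_lit 258)))) (XT.nd (nat_lit 78) (nat_lit 228) (nat_lit 0) (XT.lf (nat_lit 0) (nat_lit 3996886718) (nat_lit 152) (nat_lit 2728110317) (nat_lit 228) (nat_lit 7419336451) (nat_lit 46) (nat_lit 5) (nat_lit 48) (nat_lit 5) (nat_lit 49) (nat_lit 5) (nat_lit 340) (nat_lit 303) (nat_lit 257)) (XT.nd (nat_lit 78) (nat_lit 228) (nat_lit 0) (XT.lf (nat_lit 0) (nat_lit 10271538480) (nat_lit 228) (nat_lit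 2315145591) (nat_lit 76) (nat_lit 2001483304) (nat_lit 46) (nat_lit 5) (nat_lit 49) (nat_lit 5) (nat_lit 47) (nat_lit 5) (nat_lit 341) (nat_lit 303) (nat_lit 256)) (XT.lf (nat_lit 0) (nat_lit 5988533724) (nat_lit 228) (nat_lit 8101817433) (nat_lit 304) (nat_lit 959126650) (nat_lit 43) (nat_lit 5) (nat_lit 46) (nat_lit 5) (nat_lit 47) (nat_lit 5) (nat_lit 342) (nat_lit 303) (nat_lit 255)))))) (XT.nd (nat_lit 390) (nat_lit 456) (nat_lit 0) (XT.nd (nat_lit 156) (nat_lit 380) (nat_lit 0) (XT.nd (nat_lit 78) (nat_lit 152) (nat_lit 0) (XT.lf (nat_lit 0) (nat_lit 2480995408) (nat_lit 304) (nat_lit 852379370) (nat_lit 76) (nat_lit 12198660705) (nat_lit 42) (nat_lit 5) (nat_lit 46) (nat_lit 5) (nat_lit 43) (nat_lit 5) (nat_lit 343) (nat_lit 303) (nat_lit 254)) (XT.lf (nat_lit 0) (nat_lit 6171995960) (nat_lit 228) (nat_lit 8121153843) (nat_lit 76) (nat_lit 1739257495) (nat_lit 40) (nat_lit 5) (nat_lit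 43) (nat_lit 5) (nat_lit 41) (nat_lit 5) (nat_lit 344) (nat_lit 303) (nat_lit 253))) (XT.nd (nat_lit 78) (nat_lit 228) (nat_lit 0) (XT.lf (nat_lit 0) (nat_lit 481145768) (nat_lit 152) (nat_lit 9602902715) (nat_lit 228) (nat_lit 6471950499) (nat_lit 38) (nat_lit 5) (nat_lit 40) (nat_lit 5) (nat_lit 41) (nat_lit 5) (nat_lit 345) (nat_lit 303) (nat_lit 252)) (XT.nd (nat_lit 78) (nat_lit 228) (nat_lit 0) (XT.lf (nat_lit 0) (nat_lit 9731599724) (nat_lit 152) (nat_lit 4558234466) (nat_lit 228) (nat_lit 2811054650) (nat_lit 38) (nat_lit 5) (nat_lit 40) (nat_lit 5) (nat_lit 41) (nat_lit 5) (nat_lit 346) (nat_lit 303) (nat_lit 251)) (XT.lf (nat_lit 0) (nat_lit 1000841349) (nat_lit 228) (nat_lit 15935388701) (nat_lit 76) (nat_lit 735958903) (nat_lit 35) (nat_lit 5) (nat_lit 38) (nat_lit 5) (nat_lit 36) (nat_lit 5) (nat_lit 347) (nat_lit 303) (nat_lit 250))))) (XT.nd (nat_lit 234) (nat_lit 304) (nat_lit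 0) (XT.nd (nat_lit 78) (nat_lit 152) (nat_lit 0) (XT.lf (nat_lit 0) (nat_lit 5072759321) (nat_lit 228) (nat_lit 6897291208) (nat_lit 76) (nat_lit 6291526246) (nat_lit 35) (nat_lit 5) (nat_lit 38) (nat_lit 5) (nat_lit 36) (nat_lit 5) (nat_lit 348) (nat_lit 303) (nat_lit 249)) (XT.nd (nat_lit 78) (nat_lit 0) (nat_lit 0) (XT.lf (nat_lit 0) (nat_lit 2616786118) (nat_lit 152) (nat_lit 6736460025) (nat_lit 228) (nat_lit 9526959861) (nat_lit 33) (nat_lit 5) (nat_lit 35) (nat_lit 5) (nat_lit 36) (nat_lit 5) (nat_lit 349) (nat_lit 303) (nat_lit 248)) (XT.lf (nat_lit 0) (nat_lit 12787309704) (nat_lit 152) (nat_lit 1142166119) (nat_lit 228) (nat_lit 5596224627) (nat_lit 33) (nat_lit 5) (nat_lit 35) (nat_lit 5) (nat_lit 36) (nat_lit 5) (nat_lit 350) (nat_lit 303) (nat_lit 247)))) (XT.nd (nat_lit 78) (nat_lit 228) (nat_lit 0) (XT.lf (nat_lit 0) (nat_lit 3235304058) (nat_lit 76) (nat_lit 15589831645)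 (nat_lit 152) (nat_lit 1373821722) (nat_lit 32) (nat_lit 5) (nat_lit 33) (nat_lit 5) (nat_lit 34) (nat_lit 4) (nat_lit 351) (nat_lit 303) (nat_lit 246)) (XT.nd (nat_lit 78) (nat_lit 152) (nat_lit 0) (XT.lf (nat_lit 0) (nat_lit 3062883365) (nat_lit 152) (nat_lit 7084374262) (nat_lit 76) (nat_lit 10751192518) (nat_lit 31) (nat_lit 5) (nat_lit 33) (nat_lit 5) (nat_lit 32) (nat_lit 5) (nat_lit 352) (nat_lit 303) (nat_lit 245)) (XT.lf (nat_lit 0) (nat_lit 3317811251) (nat_lit 152) (nat_lit 4377242286) (nat_lit 228) (nat_lit 13935764109) (nat_lit 29) (nat_lit 5) (nat_lit 31) (nat_lit 5) (nat_lit 32) (nat_lit 5) (nat_lit 353) (nat_lit 303) (nat_lit 244))))))) (XT.nd (nat_lit 858) (nat_lit 456) (nat_lit 0) (XT.nd (nat_lit 390) (nat_lit 380) (nat_lit 0) (XT.nd (nat_lit 156) (nat_lit 228) (nat_lit 0) (XT.nd (nat_lit 78) (nat_lit 76) (nat_lit 0) (XT.lf (nat_lit 0) (nat_lit 12675356193) (nat_lit 228)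 (nat_lit 7991034872) (nat_lit 76) (nat_lit 1727601681) (nat_lit 29) (nat_lit 5) (nat_lit 32) (nat_lit 5) (nat_lit 30) (nat_lit 4) (nat_lit 354) (nat_lit 303) (nat_lit 243)) (XT.lf (nat_lit 0) (nat_lit 2812855143) (nat_lit 76) (nat_lit 15177331964) (nat_lit 152) (nat_lit 5200878522) (nat_lit 28) (nat_lit 5) (nat_lit 29) (nat_lit 5) (nat_lit 30) (nat_lit 4) (nat_lit 355) (nat_lit 303) (nat_lit 242))) (XT.nd (nat_lit 78) (nat_lit 228) (nat_lit 0) (XT.lf (nat_lit 0) (nat_lit 14382765382) (nat_lit 76) (nat_lit 9293795294) (nat_lit 152) (nat_lit 346155411) (nat_lit 28) (nat_lit 5) (nat_lit 29) (nat_lit 5) (nat_lit 30) (nat_lit 4) (nat_lit 356) (nat_lit 303) (nat_lit 241)) (XT.nd (nat_lit 78) (nat_lit 0) (nat_lit 0) (XT.lf (nat_lit 0) (nat_lit 1560893358) (nat_lit 152) (nat_lit 3034110368) (nat_lit 228) (nat_lit 20297460406) (nat_lit 25) (nat_lit 5) (nat_lit 27) (nat_lit 5) (nat_lit 28) (nat_lit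 5) (nat_lit 357) (nat_lit 303) (nat_lit 240)) (XT.lf (nat_lit 0) (nat_lit 9964429226) (nat_lit 228) (nat_lit 12255055322) (nat_lit 76) (nat_lit 3576301306) (nat_lit 25) (nat_lit 5) (nat_lit 28) (nat_lit 5) (nat_lit 26) (nat_lit 4) (nat_lit 358) (nat_lit 303) (nat_lit 239))))) (XT.nd (nat_lit 234) (nat_lit 304) (nat_lit 0) (XT.nd (nat_lit 78) (nat_lit 76) (nat_lit 0) (XT.lf (nat_lit 0) (nat_lit 15625076084) (nat_lit 228) (nat_lit 722432375) (nat_lit 76) (nat_lit 10395639206) (nat_lit 25) (nat_lit 5) (nat_lit 28) (nat_lit 5) (nat_lit 26) (nat_lit 4) (nat_lit 359) (nat_lit 303) (nat_lit 238)) (XT.nd (nat_lit 78) (nat_lit 0) (nat_lit 0) (XT.lf (nat_lit 0) (nat_lit 11716116556) (nat_lit 76) (nat_lit 10009855922) (nat_lit 152) (nat_lit 6004055187) (nat_lit 24) (nat_lit 5) (nat_lit 25) (nat_lit 5) (nat_lit 26) (nat_lit 4) (nat_lit 360) (nat_lit 303) (nat_lit 237)) (XT.lf (nat_lit 0) (nat_lit 24756717094)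 (nat_lit 76) (nat_lit 3362249224) (nat_lit 152) (nat_lit 647943152) (nat_lit 24) (nat_lit 5) (nat_lit 25) (nat_lit 5) (nat_lit 26) (nat_lit 4) (nat_lit 361) (nat_lit 303) (nat_lit 236)))) (XT.nd (nat_lit 78) (nat_lit 76) (nat_lit 0) (XT.lf (nat_lit 0) (nat_lit 4988674261) (nat_lit 228) (nat_lit 21153316529) (nat_lit 76) (nat_lit 3701171496) (nat_lit 21) (nat_lit 5) (nat_lit 24) (nat_lit 5) (nat_lit 22) (nat_lit 4) (nat_lit 362) (nat_lit 303) (nat_lit 235)) (XT.nd (nat_lit 78) (nat_lit 76) (nat_lit 0) (XT.lf (nat_lit 0) (nat_lit 10985302224) (nat_lit 228) (nat_lit 8916410466) (nat_lit 76) (nat_lit 11065995225) (nat_lit 21) (nat_lit 5) (nat_lit 24) (nat_lit 5) (nat_lit 22) (nat_lit 4) (nat_lit 363) (nat_lit 303) (nat_lit 234)) (XT.lf (nat_lit 0) (nat_lit 4019233998) (nat_lit 76) (nat_lit 13302239167) (nat_lit 152) (nat_lit 14825030670) (nat_lit 20) (nat_lit 5) (nat_lit 21) (nat_lit 5) (nat_lit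 22) (nat_lit 4) (nat_lit 364) (nat_lit 303) (nat_lit 233)))))) (XT.nd (nat_lit 468) (nat_lit 228) (nat_lit 0) (XT.nd (nat_lit 234) (nat_lit 76) (nat_lit 0) (XT.nd (nat_lit 78) (nat_lit 152) (nat_lit 0) (XT.lf (nat_lit 0) (nat_lit 17870144183) (nat_lit 76) (nat_lit 6232728128) (nat_lit 152) (nat_lit 9274954435) (nat_lit 20) (nat_lit 5) (nat_lit 21) (nat_lit 5) (nat_lit 22) (nat_lit 4) (nat_lit 365) (nat_lit 303) (nat_lit 232)) (XT.nd (nat_lit 78) (nat_lit 152) (nat_lit 0) (XT.lf (nat_lit 0) (nat_lit 31220141110) (nat_lit 152) (nat_lit 2315625711) (nat_lit 0) (nat_lit 1135116784) (nat_lit 20) (nat_lit 5) (nat_lit 22) (nat_lit 4) (nat_lit 20) (nat_lit 4) (nat_lit 366) (nat_lit 303) (nat_lit 231)) (XT.lf (nat_lit 0) (nat_lit 2848967912) (nat_lit 152) (nat_lit 24288659594) (nat_lit 76) (nat_lit 8875413995) (nat_lit 18) (nat_lit 5) (nat_lit 20) (nat_lit 5) (nat_lit 19) (nat_lit 4) (nat_lit 367)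 (nat_lit 303) (nat_lit 230)))) (XT.nd (nat_lit 78) (nat_lit 76) (nat_lit 0) (XT.lf (nat_lit 0) (nat_lit 9366872628) (nat_lit 152) (nat_lit 10968878251) (nat_lit 76) (nat_lit 17082775846) (nat_lit 18) (nat_lit 5) (nat_lit 20) (nat_lit 5) (nat_lit 19) (nat_lit 4) (nat_lit 368) (nat_lit 303) (nat_lit 229)) (XT.nd (nat_lit 78) (nat_lit 0) (nat_lit 0) (XT.lf (nat_lit 0) (nat_lit 3079156260) (nat_lit 76) (nat_lit 13159892703) (nat_lit 152) (nat_lit 22653824836) (nat_lit 17) (nat_lit 5) (nat_lit 18) (nat_lit 5) (nat_lit 19) (nat_lit 4) (nat_lit 369) (nat_lit 303) (nat_lit 228)) (XT.lf (nat_lit 0) (nat_lit 18174704344) (nat_lit 76) (nat_lit 5446575728) (nat_lit 152) (nat_lit 16811341957) (nat_lit 17) (nat_lit 5) (nat_lit 18) (nat_lit 5) (nat_lit 19) (nat_lit 4) (nat_lit 370) (nat_lit 303) (nat_lit 227))))) (XT.nd (nat_lit 234) (nat_lit 76) (nat_lit 0) (XT.nd (nat_lit 78) (nat_lit 152) (nat_lit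 0) (XT.lf (nat_lit 0) (nat_lit 31395393173) (nat_lit 152) (nat_lit 8100424091) (nat_lit 0) (nat_lit 2552407698) (nat_lit 17) (nat_lit 5) (nat_lit 19) (nat_lit 4) (nat_lit 17) (nat_lit 4) (nat_lit 371) (nat_lit 303) (nat_lit 226)) (XT.nd (nat_lit 78) (nat_lit 76) (nat_lit 0) (XT.lf (nat_lit 0) (nat_lit 6862258081) (nat_lit 76) (nat_lit 32874627651) (nat_lit 76) (nat_lit 3998794154) (nat_lit 16) (nat_lit 4) (nat_lit 17) (nat_lit 5) (nat_lit 17) (nat_lit 4) (nat_lit 372) (nat_lit 303) (nat_lit 225)) (XT.lf (nat_lit 0) (nat_lit 3014039954) (nat_lit 152) (nat_lit 22728335418) (nat_lit 76) (nat_lit 19756718319) (nat_lit 15) (nat_lit 5) (nat_lit 17) (nat_lit 5) (nat_lit 16) (nat_lit 4) (nat_lit 373) (nat_lit 303) (nat_lit 224)))) (XT.nd (nat_lit 78) (nat_lit 76) (nat_lit 0) (XT.lf (nat_lit 0) (nat_lit 10226267184) (nat_lit 152) (nat_lit 7973063721) (nat_lit 76) (nat_lit 29148917508) (nat_lit 15)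 (nat_lit 5) (nat_lit 17) (nat_lit 5) (nat_lit 16) (nat_lit 4) (nat_lit 374) (nat_lit 303) (nat_lit 223)) (XT.nd (nat_lit 78) (nat_lit 0) (nat_lit 0) (XT.lf (nat_lit 0) (nat_lit 7737609078) (nat_lit 76) (nat_lit 10166242571) (nat_lit 152) (nat_lit 31380776480) (nat_lit 14) (nat_lit 5) (nat_lit 15) (nat_lit 5) (nat_lit 16) (nat_lit 4) (nat_lit 375) (nat_lit 303) (nat_lit 222)) (XT.lf (nat_lit 0) (nat_lit 24481092096) (nat_lit 76) (nat_lit 1603494757) (nat_lit 152) (nat_lit 25227280741) (nat_lit 14) (nat_lit 5) (nat_lit 15) (nat_lit 5) (nat_lit 16) (nat_lit 4) (nat_lit 376) (nat_lit 303) (nat_lit 221))))))))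
noncomputable def xc110 : XT := (XT.nd (nat_lit 1716) (nat_lit 228) (nat_lit 0) (XT.nd (nat_lit 858) (nat_lit 228) (nat_lit 0) (XT.nd (nat_lit 390) (nat_lit 152) (nat_lit 0) (XT.nd (nat_lit 156) (nat_lit 76) (nat_lit 0) (XT.nd (nat_lit 78) (nat_lit 76) (nat_lit 0) (XT.lf (nat_lit 0) (nat_lit 34774485989) (nat_lit 152) (nat_lit 11522731242) (nat_lit 0) (nat_lit 7138249572) (nat_lit 14) (nat_lit 5) (nat_lit 16) (nat_lit 4) (nat_lit 14) (nat_lit 4) (nat_lit 377) (nat_lit 303) (nat_lit 220)) (XT.lf (nat_lit 0) (nat_lit 4645815335) (nat_lit 76) (nat_lit 39337399365) (nat_lit 76) (nat_lit 11677818473) (nat_lit 13) (nat_lit 4) (nat_lit 14) (nat_lit 5) (nat_lit 14) (nat_lit 4) (nat_lit 378) (nat_lit 303) (nat_lit 219))) (XT.nd (nat_lit 78) (nat_lit 76) (nat_lit 0) (XT.lf (nat_lit 0) (nat_lit 21995964710) (nat_lit 76) (nat_lit 31837342138) (nat_lit 76) (nat_lit 4155528412) (nat_lit 13) (nat_lit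 4) (nat_lit 14) (nat_lit 5) (nat_lit 14) (nat_lit 4) (nat_lit 379) (nat_lit 303) (nat_lit 218)) (XT.nd (nat_lit 78) (nat_lit 0) (nat_lit 0) (XT.lf (nat_lit 0) (nat_lit 3609316257) (nat_lit 152) (nat_lit 20303889524) (nat_lit 76) (nat_lit 36517591453) (nat_lit 12) (nat_lit 5) (nat_lit 14) (nat_lit 5) (nat_lit 13) (nat_lit 4) (nat_lit 380) (nat_lit 303) (nat_lit 217)) (XT.lf (nat_lit 0) (nat_lit 11609641127) (nat_lit 152) (nat_lit 3923389376) (nat_lit 76) (nat_lit 47459079321) (nat_lit 12) (nat_lit 5) (nat_lit 14) (nat_lit 5) (nat_lit 13) (nat_lit 4) (nat_lit 381) (nat_lit 303) (nat_lit 216))))) (XT.nd (nat_lit 234) (nat_lit 76) (nat_lit 0) (XT.nd (nat_lit 78) (nat_lit 0) (nat_lit 0) (XT.lf (nat_lit 0) (nat_lit 13690698375) (nat_lit 76) (nat_lit 6520549244) (nat_lit 152) (nat_lit 45460180237) (nat_lit 11) (nat_lit 5) (nat_lit 12) (nat_lit 5) (nat_lit 13) (nat_lit 4) (nat_lit 382) (nat_lit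 303) (nat_lit 215)) (XT.nd (nat_lit 78) (nat_lit 0) (nat_lit 0) (XT.lf (nat_lit 0) (nat_lit 29343984951) (nat_lit 152) (nat_lit 36230406824) (nat_lit 0) (nat_lit 2905270424) (nat_lit 11) (nat_lit 5) (nat_lit 13) (nat_lit 4) (nat_lit 11) (nat_lit 4) (nat_lit 383) (nat_lit 303) (nat_lit 214)) (XT.lf (nat_lit 0) (nat_lit 39028420271) (nat_lit 152) (nat_lit 19822022468) (nat_lit 0) (nat_lit 12573115261) (nat_lit 11) (nat_lit 5) (nat_lit 13) (nat_lit 4) (nat_lit 11) (nat_lit 4) (nat_lit 384) (nat_lit 303) (nat_lit 213)))) (XT.nd (nat_lit 78) (nat_lit 76) (nat_lit 0) (XT.lf (nat_lit 0) (nat_lit 49185807711) (nat_lit 152) (nat_lit 2614704782) (nat_lit 0) (nat_lit 22714702241) (nat_lit 11) (nat_lit 5) (nat_lit 13) (nat_lit 4) (nat_lit 11) (nat_lit 4) (nat_lit 385) (nat_lit 303) (nat_lit 212)) (XT.nd (nat_lit 78) (nat_lit 0) (nat_lit 0) (XT.lf (nat_lit 0) (nat_lit 15942784710) (nat_lit 76) (nat_lit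 44146458365) (nat_lit 76) (nat_lit 17660304838) (nat_lit 10) (nat_lit 4) (nat_lit 11) (nat_lit 5) (nat_lit 11) (nat_lit 4) (nat_lit 386) (nat_lit 303) (nat_lit 211)) (XT.lf (nat_lit 0) (nat_lit 35498792617) (nat_lit 76) (nat_lit 36072802653) (nat_lit 76) (nat_lit 9572317643) (nat_lit 10) (nat_lit 4) (nat_lit 11) (nat_lit 5) (nat_lit 11) (nat_lit 4) (nat_lit 387) (nat_lit 303) (nat_lit 210)))))) (XT.nd (nat_lit 390) (nat_lit 76) (nat_lit 0) (XT.nd (nat_lit 156) (nat_lit 76) (nat_lit 0) (XT.nd (nat_lit 78) (nat_lit 76) (nat_lit 0) (XT.lf (nat_lit 0) (nat_lit 56013426912) (nat_lit 76) (nat_lit 27604603658) (nat_lit 76) (nat_lit 1090469617) (nat_lit 10) (nat_lit 4) (nat_lit 11) (nat_lit 5) (nat_lit 11) (nat_lit 4) (nat_lit 388) (nat_lit 303) (nat_lit 209)) (XT.lf (nat_lit 0) (nat_lit 7555611477) (nat_lit 152) (nat_lit 11038129589) (nat_lit 76) (nat_lit 69851962550) (nat_lit 9) (nat_lit 5) (nat_lit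 11) (nat_lit 5) (nat_lit 10) (nat_lit 4) (nat_lit 389) (nat_lit 303) (nat_lit 208))) (XT.nd (nat_lit 78) (nat_lit 0) (nat_lit 0) (XT.lf (nat_lit 0) (nat_lit 7712947916) (nat_lit 76) (nat_lit 8995569697) (nat_lit 152) (nat_lit 75654799365) (nat_lit 8) (nat_lit 5) (nat_lit 9) (nat_lit 5) (nat_lit 10) (nat_lit 4) (nat_lit 390) (nat_lit 303) (nat_lit 207)) (XT.nd (nat_lit 78) (nat_lit 0) (nat_lit 0) (XT.lf (nat_lit 0) (nat_lit 26516756531) (nat_lit 152) (nat_lit 68720371407) (nat_lit 0) (nat_lit 1229800589) (nat_lit 8) (nat_lit 5) (nat_lit 10) (nat_lit 4) (nat_lit 8) (nat_lit 4) (nat_lit 391) (nat_lit 303) (nat_lit 206)) (XT.lf (nat_lit 0) (nat_lit 36954100382) (nat_lit 152) (nat_lit 52158237357) (nat_lit 0) (nat_lit 11656450068) (nat_lit 8) (nat_lit 5) (nat_lit 10) (nat_lit 4) (nat_lit 8) (nat_lit 4) (nat_lit 392) (nat_lit 303) (nat_lit 205))))) (XT.nd (nat_lit 234) (nat_lit 0) (nat_lit 0)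 (XT.nd (nat_lit 78) (nat_lit 76) (nat_lit 0) (XT.lf (nat_lit 0) (nat_lit 47904953933) (nat_lit 152) (nat_lit 34784087206) (nat_lit 0) (nat_lit 22597118502) (nat_lit 8) (nat_lit 5) (nat_lit 10) (nat_lit 4) (nat_lit 8) (nat_lit 4) (nat_lit 393) (nat_lit 303) (nat_lit 204)) (XT.nd (nat_lit 78) (nat_lit 76) (nat_lit 0) (XT.lf (nat_lit 0) (nat_lit 59395390645) (nat_lit 152) (nat_lit 16556553930) (nat_lit 0) (nat_lit 34077855102) (nat_lit 8) (nat_lit 5) (nat_lit 10) (nat_lit 4) (nat_lit 8) (nat_lit 4) (nat_lit 394) (nat_lit 303) (nat_lit 203)) (XT.lf (nat_lit 0) (nat_lit 2652663145) (nat_lit 76) (nat_lit 68841521060) (nat_lit 76) (nat_lit 43514747315) (nat_lit 7) (nat_lit 4) (nat_lit 8) (nat_lit 5) (nat_lit 8) (nat_lit 4) (nat_lit 395) (nat_lit 303) (nat_lit 202)))) (XT.nd (nat_lit 78) (nat_lit 0) (nat_lit 0) (XT.lf (nat_lit 0) (nat_lit 23382787989) (nat_lit 76) (nat_lit 61088079002) (nat_lit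 76) (nat_lit 35752506970) (nat_lit 7) (nat_lit 4) (nat_lit 8) (nat_lit 5) (nat_lit 8) (nat_lit 4) (nat_lit 396) (nat_lit 303) (nat_lit 201)) (XT.nd (nat_lit 78) (nat_lit 0) (nat_lit 0) (XT.lf (nat_lit 0) (nat_lit 45135743596) (nat_lit 76) (nat_lit 52953551078) (nat_lit 76) (nat_lit 27609599725) (nat_lit 7) (nat_lit 4) (nat_lit 8) (nat_lit 5) (nat_lit 8) (nat_lit 4) (nat_lit 397) (nat_lit 303) (nat_lit 200)) (XT.lf (nat_lit 0) (nat_lit 67963322718) (nat_lit 76) (nat_lit 44418569363) (nat_lit 76) (nat_lit 19066637704) (nat_lit 7) (nat_lit 4) (nat_lit 8) (nat_lit 5) (nat_lit 8) (nat_lit 4) (nat_lit 398) (nat_lit 303) (nat_lit 199))))))) (XT.nd (nat_lit 858) (nat_lit 76) (nat_lit 0) (XT.nd (nat_lit 390) (nat_lit 0) (nat_lit 0) (XT.nd (nat_lit 156) (nat_lit 152) (nat_lit 0) (XT.nd (nat_lit 78) (nat_lit 0) (nat_lit 0) (XT.lf (nat_lit 0) (nat_lit 91919876733) (nat_lit 76) (nat_lit 35462812474)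 (nat_lit 76) (nat_lit 10103280523) (nat_lit 7) (nat_lit 4) (nat_lit 8) (nat_lit 5) (nat_lit 8) (nat_lit 4) (nat_lit 399) (nat_lit 303) (nat_lit 198)) (XT.lf (nat_lit 0) (nat_lit 117062445057) (nat_lit 76) (nat_lit 26064957178) (nat_lit 76) (nat_lit 698186854) (nat_lit 7) (nat_lit 4) (nat_lit 8) (nat_lit 5) (nat_lit 8) (nat_lit 4) (nat_lit 400) (nat_lit 303) (nat_lit 197))) (XT.nd (nat_lit 78) (nat_lit 76) (nat_lit 0) (XT.lf (nat_lit 0) (nat_lit 8877505942) (nat_lit 152) (nat_lit 7174776828) (nat_lit 76) (nat_lit 134423040145) (nat_lit 6) (nat_lit 5) (nat_lit 8) (nat_lit 5) (nat_lit 7) (nat_lit 4) (nat_lit 401) (nat_lit 303) (nat_lit 196)) (XT.nd (nat_lit 78) (nat_lit 0) (nat_lit 0) (XT.lf (nat_lit 0) (nat_lit 13812754603) (nat_lit 76) (nat_lit 5305774192) (nat_lit 152) (nat_lit 138327942954) (nat_lit 5) (nat_lit 5) (nat_lit 6) (nat_lit 5) (nat_lit 7) (nat_lit 4) (nat_lit 402) (nat_lit 303)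 (nat_lit 195)) (XT.lf (nat_lit 0) (nat_lit 30082811092) (nat_lit 152) (nat_lit 128767598530) (nat_lit 0) (nat_lit 5905208990) (nat_lit 5) (nat_lit 5) (nat_lit 7) (nat_lit 4) (nat_lit 5) (nat_lit 4) (nat_lit 403) (nat_lit 303) (nat_lit 194))))) (XT.nd (nat_lit 234) (nat_lit 0) (nat_lit 0) (XT.nd (nat_lit 78) (nat_lit 0) (nat_lit 0) (XT.lf (nat_lit 0) (nat_lit 41676929100) (nat_lit 152) (nat_lit 113255558053) (nat_lit 0) (nat_lit 17493655543) (nat_lit 5) (nat_lit 5) (nat_lit 7) (nat_lit 4) (nat_lit 5) (nat_lit 4) (nat_lit 404) (nat_lit 303) (nat_lit 193)) (XT.nd (nat_lit 78) (nat_lit 0) (nat_lit 0) (XT.lf (nat_lit 0) (nat_lit 53845649856) (nat_lit 152) (nat_lit 96977824279) (nat_lit 0) (nat_lit 29656974914) (nat_lit 5) (nat_lit 5) (nat_lit 7) (nat_lit 4) (nat_lit 5) (nat_lit 4) (nat_lit 405) (nat_lit 303) (nat_lit 192)) (XT.lf (nat_lit 0) (nat_lit 66617946507) (nat_lit 152) (nat_lit 79895640700)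 (nat_lit 0) (nat_lit 42424127389) (nat_lit 5) (nat_lit 5) (nat_lit 7) (nat_lit 4) (nat_lit 5) (nat_lit 4) (nat_lit 406) (nat_lit 303) (nat_lit 191)))) (XT.nd (nat_lit 78) (nat_lit 0) (nat_lit 0) (XT.lf (nat_lit 0) (nat_lit 80024229282) (nat_lit 152) (nat_lit 61968335450) (nat_lit 0) (nat_lit 55825510948) (nat_lit 5) (nat_lit 5) (nat_lit 7) (nat_lit 4) (nat_lit 5) (nat_lit 4) (nat_lit 407) (nat_lit 303) (nat_lit 190)) (XT.nd (nat_lit 78) (nat_lit 0) (nat_lit 0) (XT.lf (nat_lit 0) (nat_lit 94096417902) (nat_lit 152) (nat_lit 43153224469) (nat_lit 0) (nat_lit 69893033649) (nat_lit 5) (nat_lit 5) (nat_lit 7) (nat_lit 4) (nat_lit 5) (nat_lit 4) (nat_lit 408) (nat_lit 303) (nat_lit 189)) (XT.lf (nat_lit 0) (nat_lit 108868017578) (nat_lit 152) (nat_lit 23405509874) (nat_lit 0) (nat_lit 84660189592) (nat_lit 5) (nat_lit 5) (nat_lit 7) (nat_lit 4) (nat_lit 5) (nat_lit 4) (nat_lit 409) (nat_lit 303)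 (nat_lit 188)))))) (XT.nd (nat_lit 468) (nat_lit 0) (nat_lit 0) (XT.nd (nat_lit 234) (nat_lit 0) (nat_lit 0) (XT.nd (nat_lit 78) (nat_lit 76) (nat_lit 0) (XT.lf (nat_lit 0) (nat_lit 124374198786) (nat_lit 152) (nat_lit 2678173297) (nat_lit 0) (nat_lit 100162138673) (nat_lit 5) (nat_lit 5) (nat_lit 7) (nat_lit 4) (nat_lit 5) (nat_lit 4) (nat_lit 410) (nat_lit 303) (nat_lit 187)) (XT.nd (nat_lit 78) (nat_lit 0) (nat_lit 0) (XT.lf (nat_lit 0) (nat_lit 19708945401) (nat_lit 76) (nat_lit 121250647474) (nat_lit 76) (nat_lit 97034556764) (nat_lit 4) (nat_lit 4) (nat_lit 5) (nat_lit 5) (nat_lit 5) (nat_lit 4) (nat_lit 411) (nat_lit 303) (nat_lit 186)) (XT.lf (nat_lit 0) (nat_lit 43301125378) (nat_lit 76) (nat_lit 115114747159) (nat_lit 76) (nat_lit 90894817786) (nat_lit 4) (nat_lit 4) (nat_lit 5) (nat_lit 5) (nat_lit 5) (nat_lit 4) (nat_lit 412) (nat_lit 303) (nat_lit 185)))) (XT.nd (nat_lit 78)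 (nat_lit 0) (nat_lit 0) (XT.lf (nat_lit 0) (nat_lit 68065985985) (nat_lit 76) (nat_lit 108675418011) (nat_lit 76) (nat_lit 84451832768) (nat_lit 4) (nat_lit 4) (nat_lit 5) (nat_lit 5) (nat_lit 5) (nat_lit 4) (nat_lit 413) (nat_lit 303) (nat_lit 184)) (XT.nd (nat_lit 78) (nat_lit 0) (nat_lit 0) (XT.lf (nat_lit 0) (nat_lit 94062491177) (nat_lit 76) (nat_lit 101917328295) (nat_lit 76) (nat_lit 77690261270) (nat_lit 4) (nat_lit 4) (nat_lit 5) (nat_lit 5) (nat_lit 5) (nat_lit 4) (nat_lit 414) (nat_lit 303) (nat_lit 183)) (XT.lf (nat_lit 0) (nat_lit 121352537395) (nat_lit 76) (nat_lit 94824387320) (nat_lit 76) (nat_lit 70594004314) (nat_lit 4) (nat_lit 4) (nat_lit 5) (nat_lit 5) (nat_lit 5) (nat_lit 4) (nat_lit 415) (nat_lit 303) (nat_lit 182))))) (XT.nd (nat_lit 234) (nat_lit 0) (nat_lit 0) (XT.nd (nat_lit 78) (nat_lit 0) (nat_lit 0) (XT.lf (nat_lit 0) (nat_lit 150001100939) (nat_lit 76) (nat_lit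 87379707132) (nat_lit 76) (nat_lit 63146166048) (nat_lit 4) (nat_lit 4) (nat_lit 5) (nat_lit 5) (nat_lit 5) (nat_lit 4) (nat_lit 416) (nat_lit 303) (nat_lit 181)) (XT.nd (nat_lit 78) (nat_lit 0) (nat_lit 0) (XT.lf (nat_lit 0) (nat_lit 180076392675) (nat_lit 76) (nat_lit 79565562302) (nat_lit 76) (nat_lit 55329013524) (nat_lit 4) (nat_lit 4) (nat_lit 5) (nat_lit 5) (nat_lit 5) (nat_lit 4) (nat_lit 417) (nat_lit 303) (nat_lit 180)) (XT.lf (nat_lit 0) (nat_lit 211650020440) (nat_lit 76) (nat_lit 71363347724) (nat_lit 76) (nat_lit 47123934476) (nat_lit 4) (nat_lit 4) (nat_lit 5) (nat_lit 5) (nat_lit 5) (nat_lit 4) (nat_lit 418) (nat_lit 303) (nat_lit 179)))) (XT.nd (nat_lit 78) (nat_lit 0) (nat_lit 0) (XT.lf (nat_lit 0) (nat_lit 244797159538) (nat_lit 76) (nat_lit 62753534314) (nat_lit 76) (nat_lit 38511393000) (nat_lit 4) (nat_lit 4) (nat_lit 5) (nat_lit 5) (nat_lit 5) (nat_lit 4) (nat_lit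 419) (nat_lit 303) (nat_lit 178)) (XT.nd (nat_lit 78) (nat_lit 0) (nat_lit 0) (XT.lf (nat_lit 0) (nat_lit 279596731729) (nat_lit 76) (nat_lit 53715622517) (nat_lit 76) (nat_lit 29470883044) (nat_lit 4) (nat_lit 4) (nat_lit 5) (nat_lit 5) (nat_lit 5) (nat_lit 4) (nat_lit 420) (nat_lit 303) (nat_lit 177)) (XT.lf (nat_lit 0) (nat_lit 316131593138) (nat_lit 76) (nat_lit 44228093496) (nat_lit 76) (nat_lit 19980879586) (nat_lit 4) (nat_lit 4) (nat_lit 5) (nat_lit 5) (nat_lit 5) (nat_lit 4) (nat_lit 421) (nat_lit 303) (nat_lit 176))))))))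
noncomputable def xc111 : XT := (XT.nd (nat_lit 38688) (nat_lit 0) (nat_lit 3496) (XT.nd (nat_lit 37752) (nat_lit 0) (nat_lit 9044) (XT.nd (nat_lit 390) (nat_lit 0) (nat_lit 0) (XT.nd (nat_lit 156) (nat_lit 76) (nat_lit 0) (XT.nd (nat_lit 78) (nat_lit 76) (nat_lit 0) (XT.lf (nat_lit 0) (nat_lit 354488731529) (nat_lit 76) (nat_lit 34268357895) (nat_lit 76) (nat_lit 10018787379) (nat_lit 4) (nat_lit 4) (nat_lit 5) (nat_lit 5) (nat_lit 5) (nat_lit 4) (nat_lit 422) (nat_lit 303) (nat_lit 175)) (XT.lf (nat_lit 0) (nat_lit 425058489) (nat_lit 152) (nat_lit 23380444998) (nat_lit 76) (nat_lit 394327216362) (nat_lit 3) (nat_lit 5) (nat_lit 5) (nat_lit 5) (nat_lit 4) (nat_lit 4) (nat_lit 423) (nat_lit 303) (nat_lit 174))) (XT.nd (nat_lit 78) (nat_lit 76) (nat_lit 0) (XT.lf (nat_lit 0) (nat_lit 11052282472) (nat_lit 152) (nat_lit 1596773345) (nat_lit 76) (nat_lit 425800243314) (nat_lit 3) (nat_lit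 5) (nat_lit 5) (nat_lit 5) (nat_lit 4) (nat_lit 4) (nat_lit 424) (nat_lit 303) (nat_lit 173)) (XT.nd (nat_lit 78) (nat_lit 0) (nat_lit 0) (XT.lf (nat_lit 0) (nat_lit 21975510493) (nat_lit 76) (nat_lit 576440059) (nat_lit 152) (nat_lit 437212703007) (nat_lit 2) (nat_lit 5) (nat_lit 3) (nat_lit 5) (nat_lit 4) (nat_lit 4) (nat_lit 425) (nat_lit 303) (nat_lit 172)) (XT.lf (nat_lit 0) (nat_lit 34840989322) (nat_lit 152) (nat_lit 435555865560) (nat_lit 0) (nat_lit 11738201773) (nat_lit 2) (nat_lit 5) (nat_lit 4) (nat_lit 4) (nat_lit 2) (nat_lit 4) (nat_lit 426) (nat_lit 303) (nat_lit 171))))) (XT.nd (nat_lit 234) (nat_lit 0) (nat_lit 0) (XT.nd (nat_lit 78) (nat_lit 0) (nat_lit 0) (XT.lf (nat_lit 0) (nat_lit 47752015536) (nat_lit 152) (nat_lit 433224118439) (nat_lit 0) (nat_lit 24647469452) (nat_lit 2) (nat_lit 5) (nat_lit 4) (nat_lit 4) (nat_lit 2) (nat_lit 4) (nat_lit 427) (nat_lit 303) (nat_lit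 170)) (XT.nd (nat_lit 78) (nat_lit 0) (nat_lit 0) (XT.lf (nat_lit 0) (nat_lit 61306769890) (nat_lit 152) (nat_lit 430779350078) (nat_lit 0) (nat_lit 38200549009) (nat_lit 2) (nat_lit 5) (nat_lit 4) (nat_lit 4) (nat_lit 2) (nat_lit 4) (nat_lit 428) (nat_lit 303) (nat_lit 169)) (XT.lf (nat_lit 0) (nat_lit 75537525607) (nat_lit 152) (nat_lit 428215739602) (nat_lit 0) (nat_lit 52429709683) (nat_lit 2) (nat_lit 5) (nat_lit 4) (nat_lit 4) (nat_lit 2) (nat_lit 4) (nat_lit 429) (nat_lit 303) (nat_lit 168)))) (XT.nd (nat_lit 78) (nat_lit 0) (nat_lit 0) (XT.lf (nat_lit 0) (nat_lit 90478165440) (nat_lit 152) (nat_lit 425527183176) (nat_lit 0) (nat_lit 67368830426) (nat_lit 2) (nat_lit 5) (nat_lit 4) (nat_lit 4) (nat_lit 2) (nat_lit 4) (nat_lit 430) (nat_lit 303) (nat_lit 167)) (XT.nd (nat_lit 36972) (nat_lit 0) (nat_lit 10792) (XT.lf (nat_lit 0) (nat_lit 106164262341) (nat_lit 152) (nat_lit 422707279475)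 (nat_lit 0) (nat_lit 83053480575) (nat_lit 2) (nat_lit 5) (nat_lit 4) (nat_lit 4) (nat_lit 2) (nat_lit 4) (nat_lit 431) (nat_lit 303) (nat_lit 166)) (XT.lf (nat_lit 0) (nat_lit 885895910) (nat_lit 380) (nat_lit 1214306613) (nat_lit 380) (nat_lit 1214306613) (nat_lit 144) (nat_lit 3) (nat_lit 149) (nat_lit 3) (nat_lit 149) (nat_lit 5) (nat_lit 304) (nat_lit 304) (nat_lit 292)))))) (XT.nd (nat_lit 468) (nat_lit 988) (nat_lit 0) (XT.nd (nat_lit 234) (nat_lit 380) (nat_lit 0) (XT.nd (nat_lit 78) (nat_lit 380) (nat_lit 0) (XT.lf (nat_lit 76) (nat_lit 746426773) (nat_lit 0) (nat_lit 3277105683) (nat_lit 380) (nat_lit 2656553537) (nat_lit 145) (nat_lit 5) (nat_lit 144) (nat_lit 3) (nat_lit 149) (nat_lit 5) (nat_lit 305) (nat_lit 304) (nat_lit 291)) (XT.nd (nat_lit 78) (nat_lit 380) (nat_lit 0) (XT.lf (nat_lit 76) (nat_lit 4088160103) (nat_lit 0) (nat_lit 2199079222) (nat_lit 380) (nat_lit 451773135)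 (nat_lit 145) (nat_lit 5) (nat_lit 144) (nat_lit 3) (nat_lit 149) (nat_lit 5) (nat_lit 306) (nat_lit 304) (nat_lit 290)) (XT.lf (nat_lit 76) (nat_lit 712269595) (nat_lit 0) (nat_lit 964995165) (nat_lit 456) (nat_lit 5128732084) (nat_lit 140) (nat_lit 5) (nat_lit 139) (nat_lit 5) (nat_lit 145) (nat_lit 5) (nat_lit 307) (nat_lit 304) (nat_lit 289)))) (XT.nd (nat_lit 78) (nat_lit 456) (nat_lit 0) (XT.lf (nat_lit 0) (nat_lit 3817126238) (nat_lit 380) (nat_lit 2635808732) (nat_lit 456) (nat_lit 427284431) (nat_lit 140) (nat_lit 5) (nat_lit 145) (nat_lit 5) (nat_lit 146) (nat_lit 5) (nat_lit 308) (nat_lit 304) (nat_lit 288)) (XT.nd (nat_lit 78) (nat_lit 456) (nat_lit 0) (XT.lf (nat_lit 76) (nat_lit 928921674) (nat_lit 0) (nat_lit 5040391487) (nat_lit 456) (nat_lit 993798991) (nat_lit 141) (nat_lit 5) (nat_lit 140) (nat_lit 5) (nat_lit 146) (nat_lit 5) (nat_lit 309) (nat_lit 304) (nat_lit 287))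 (XT.lf (nat_lit 0) (nat_lit 1064149448) (nat_lit 456) (nat_lit 2386617163) (nat_lit 532) (nat_lit 3602521107) (nat_lit 134) (nat_lit 5) (nat_lit 140) (nat_lit 5) (nat_lit 141) (nat_lit 5) (nat_lit 310) (nat_lit 304) (nat_lit 286))))) (XT.nd (nat_lit 234) (nat_lit 608) (nat_lit 0) (XT.nd (nat_lit 78) (nat_lit 380) (nat_lit 0) (XT.lf (nat_lit 76) (nat_lit 1392606729) (nat_lit 0) (nat_lit 1704116874) (nat_lit 532) (nat_lit 4055372503) (nat_lit 135) (nat_lit 5) (nat_lit 134) (nat_lit 5) (nat_lit 141) (nat_lit 5) (nat_lit 311) (nat_lit 304) (nat_lit 285)) (XT.nd (nat_lit 78) (nat_lit 456) (nat_lit 0) (XT.lf (nat_lit 0) (nat_lit 5162297909) (nat_lit 456) (nat_lit 1896937262) (nat_lit 76) (nat_lit 200226842) (nat_lit 135) (nat_lit 5) (nat_lit 141) (nat_lit 5) (nat_lit 136) (nat_lit 5) (nat_lit 312) (nat_lit 304) (nat_lit 284)) (XT.lf (nat_lit 0) (nat_lit 2118543314) (nat_lit 456) (nat_lit 5167203941)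 (nat_lit 532) (nat_lit 88895975) (nat_lit 129) (nat_lit 5) (nat_lit 135) (nat_lit 5) (nat_lit 136) (nat_lit 5) (nat_lit 313) (nat_lit 304) (nat_lit 283)))) (XT.nd (nat_lit 78) (nat_lit 532) (nat_lit 0) (XT.lf (nat_lit 0) (nat_lit 1883368455) (nat_lit 532) (nat_lit 1207774174) (nat_lit 76) (nat_lit 4406613112) (nat_lit 128) (nat_lit 5) (nat_lit 135) (nat_lit 5) (nat_lit 129) (nat_lit 5) (nat_lit 314) (nat_lit 304) (nat_lit 282)) (XT.nd (nat_lit 78) (nat_lit 0) (nat_lit 0) (XT.lf (nat_lit 0) (nat_lit 3061014427) (nat_lit 532) (nat_lit 838584203) (nat_lit 608) (nat_lit 3730088132) (nat_lit 121) (nat_lit 5) (nat_lit 128) (nat_lit 5) (nat_lit 129) (nat_lit 5) (nat_lit 315) (nat_lit 304) (nat_lit 281)) (XT.lf (nat_lit 0) (nat_lit 5965636076) (nat_lit 608) (nat_lit 288623670) (nat_lit 76) (nat_lit 1516650281) (nat_lit 121) (nat_lit 5) (nat_lit 129) (nat_lit 5) (nat_lit 122) (nat_lit 5) (nat_lit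 316) (nat_lit 304) (nat_lit 280))))))) (XT.nd (nat_lit 858) (nat_lit 1900) (nat_lit 0) (XT.nd (nat_lit 390) (nat_lit 1520) (nat_lit 0) (XT.nd (nat_lit 156) (nat_lit 760) (nat_lit 0) (XT.nd (nat_lit 78) (nat_lit 684) (nat_lit 0) (XT.lf (nat_lit 0) (nat_lit 197574515) (nat_lit 684) (nat_lit 3673899196) (nat_lit 76) (nat_lit 4048249254) (nat_lit 112) (nat_lit 5) (nat_lit 121) (nat_lit 5) (nat_lit 113) (nat_lit 5) (nat_lit 317) (nat_lit 304) (nat_lit 279)) (XT.lf (nat_lit 0) (nat_lit 858763387) (nat_lit 684) (nat_lit 1309995648) (nat_lit 760) (nat_lit 5909420319) (nat_lit 103) (nat_lit 5) (nat_lit 112) (nat_lit 5) (nat_lit 113) (nat_lit 5) (nat_lit 318) (nat_lit 304) (nat_lit 278))) (XT.nd (nat_lit 78) (nat_lit 760) (nat_lit 0) (XT.lf (nat_lit 0) (nat_lit 4236912546) (nat_lit 760) (nat_lit 2601991759) (nat_lit 76) (nat_lit 1405853454) (nat_lit 103) (nat_lit 5) (nat_lit 113) (nat_lit 5) (nat_lit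 104) (nat_lit 5) (nat_lit 319) (nat_lit 304) (nat_lit 277)) (XT.nd (nat_lit 78) (nat_lit 0) (nat_lit 0) (XT.lf (nat_lit 0) (nat_lit 2216145467) (nat_lit 760) (nat_lit 4166148393) (nat_lit 836) (nat_lit 2038794205) (nat_lit 93) (nat_lit 5) (nat_lit 103) (nat_lit 5) (nat_lit 104) (nat_lit 5) (nat_lit 320) (nat_lit 304) (nat_lit 276)) (XT.lf (nat_lit 0) (nat_lit 7287195571) (nat_lit 760) (nat_lit 1312253194) (nat_lit 836) (nat_lit 8669453) (nat_lit 93) (nat_lit 5) (nat_lit 103) (nat_lit 5) (nat_lit 104) (nat_lit 5) (nat_lit 321) (nat_lit 304) (nat_lit 275))))) (XT.nd (nat_lit 234) (nat_lit 760) (nat_lit 0) (XT.nd (nat_lit 78) (nat_lit 304) (nat_lit 0) (XT.lf (nat_lit 0) (nat_lit 2065341951) (nat_lit 456) (nat_lit 5012489698) (nat_lit 76) (nat_lit 1724593005) (nat_lit 87) (nat_lit 5) (nat_lit 93) (nat_lit 5) (nat_lit 88) (nat_lit 5) (nat_lit 322) (nat_lit 304) (nat_lit 274)) (XT.nd (nat_lit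 78) (nat_lit 0) (nat_lit 0) (XT.lf (nat_lit 0) (nat_lit 98182828) (nat_lit 304) (nat_lit 4115711241) (nat_lit 380) (nat_lit 4794082438) (nat_lit 83) (nat_lit 5) (nat_lit 87) (nat_lit 5) (nat_lit 88) (nat_lit 5) (nat_lit 323) (nat_lit 304) (nat_lit 273)) (XT.lf (nat_lit 0) (nat_lit 5559893051) (nat_lit 304) (nat_lit 922547646) (nat_lit 380) (nat_lit 2740826224) (nat_lit 83) (nat_lit 5) (nat_lit 87) (nat_lit 5) (nat_lit 88) (nat_lit 5) (nat_lit 324) (nat_lit 304) (nat_lit 272)))) (XT.nd (nat_lit 78) (nat_lit 380) (nat_lit 0) (XT.lf (nat_lit 0) (nat_lit 1786382824) (nat_lit 380) (nat_lit 7074895400) (nat_lit 456) (nat_lit 588285510) (nat_lit 78) (nat_lit 5) (nat_lit 83) (nat_lit 5) (nat_lit 84) (nat_lit 5) (nat_lit 325) (nat_lit 304) (nat_lit 271)) (XT.nd (nat_lit 78) (nat_lit 304) (nat_lit 0) (XT.lf (nat_lit 0) (nat_lit 1628490999) (nat_lit 456) (nat_lit 2169787651) (nat_lit 76) (nat_lit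 5887162779) (nat_lit 77) (nat_lit 5) (nat_lit 83) (nat_lit 5) (nat_lit 78) (nat_lit 5) (nat_lit 326) (nat_lit 304) (nat_lit 270)) (XT.lf (nat_lit 0) (nat_lit 3629284175) (nat_lit 304) (nat_lit 298893899) (nat_lit 380) (nat_lit 6004934111) (nat_lit 73) (nat_lit 5) (nat_lit 77) (nat_lit 5) (nat_lit 78) (nat_lit 5) (nat_lit 327) (nat_lit 304) (nat_lit 269)))))) (XT.nd (nat_lit 468) (nat_lit 988) (nat_lit 0) (XT.nd (nat_lit 234) (nat_lit 304) (nat_lit 0) (XT.nd (nat_lit 78) (nat_lit 608) (nat_lit 0) (XT.lf (nat_lit 0) (nat_lit 6369826360) (nat_lit 380) (nat_lit 528318006) (nat_lit 76) (nat_lit 3293743247) (nat_lit 73) (nat_lit 5) (nat_lit 78) (nat_lit 5) (nat_lit 74) (nat_lit 5) (nat_lit 328) (nat_lit 304) (nat_lit 268)) (XT.nd (nat_lit 78) (nat_lit 304) (nat_lit 0) (XT.lf (nat_lit 0) (nat_lit 5637871085) (nat_lit 304) (nat_lit 3328539948) (nat_lit 380) (nat_lit 1495614726) (nat_lit 69) (nat_lit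 5) (nat_lit 73) (nat_lit 5) (nat_lit 74) (nat_lit 5) (nat_lit 329) (nat_lit 304) (nat_lit 267)) (XT.lf (nat_lit 0) (nat_lit 894528557) (nat_lit 304) (nat_lit 9414579213) (nat_lit 76) (nat_lit 436999641) (nat_lit 65) (nat_lit 5) (nat_lit 69) (nat_lit 5) (nat_lit 66) (nat_lit 5) (nat_lit 330) (nat_lit 304) (nat_lit 266)))) (XT.nd (nat_lit 78) (nat_lit 304) (nat_lit 0) (XT.lf (nat_lit 0) (nat_lit 3433602843) (nat_lit 304) (nat_lit 3234228368) (nat_lit 76) (nat_lit 4371409278) (nat_lit 65) (nat_lit 5) (nat_lit 69) (nat_lit 5) (nat_lit 66) (nat_lit 5) (nat_lit 331) (nat_lit 304) (nat_lit 265)) (XT.nd (nat_lit 78) (nat_lit 0) (nat_lit 0) (XT.lf (nat_lit 0) (nat_lit 3288019730) (nat_lit 304) (nat_lit 2807785691) (nat_lit 380) (nat_lit 5251470900) (nat_lit 61) (nat_lit 5) (nat_lit 65) (nat_lit 5) (nat_lit 66) (nat_lit 5) (nat_lit 332) (nat_lit 304) (nat_lit 264)) (XT.lf (nat_lit 0) (nat_lit 8912311967)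 (nat_lit 380) (nat_lit 1513300858) (nat_lit 76) (nat_lit 1244093646) (nat_lit 61) (nat_lit 5) (nat_lit 66) (nat_lit 5) (nat_lit 62) (nat_lit 5) (nat_lit 333) (nat_lit 304) (nat_lit 263))))) (XT.nd (nat_lit 234) (nat_lit 456) (nat_lit 0) (XT.nd (nat_lit 78) (nat_lit 304) (nat_lit 0) (XT.lf (nat_lit 0) (nat_lit 5417162651) (nat_lit 228) (nat_lit 6531735805) (nat_lit 304) (nat_lit 55446675) (nat_lit 58) (nat_lit 5) (nat_lit 61) (nat_lit 5) (nat_lit 62) (nat_lit 5) (nat_lit 334) (nat_lit 304) (nat_lit 262)) (XT.nd (nat_lit 78) (nat_lit 0) (nat_lit 0) (XT.lf (nat_lit 0) (nat_lit 286846794) (nat_lit 228) (nat_lit 2385401168) (nat_lit 304) (nat_lit 9682357543) (nat_lit 54) (nat_lit 5) (nat_lit 57) (nat_lit 5) (nat_lit 58) (nat_lit 5) (nat_lit 335) (nat_lit 304) (nat_lit 261)) (XT.lf (nat_lit 0) (nat_lit 5628751842) (nat_lit 304) (nat_lit 5088802082) (nat_lit 76) (nat_lit 2000108095) (nat_lit 54)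 (nat_lit 5) (nat_lit 58) (nat_lit 5) (nat_lit 55) (nat_lit 5) (nat_lit 336) (nat_lit 304) (nat_lit 260)))) (XT.nd (nat_lit 78) (nat_lit 304) (nat_lit 0) (XT.lf (nat_lit 0) (nat_lit 2202094402) (nat_lit 152) (nat_lit 6557017124) (nat_lit 228) (nat_lit 4338499215) (nat_lit 52) (nat_lit 5) (nat_lit 54) (nat_lit 5) (nat_lit 55) (nat_lit 5) (nat_lit 337) (nat_lit 304) (nat_lit 259)) (XT.nd (nat_lit 78) (nat_lit 304) (nat_lit 0) (XT.lf (nat_lit 0) (nat_lit 9966926580) (nat_lit 152) (nat_lit 2118998078) (nat_lit 228) (nat_lit 1408674434) (nat_lit 52) (nat_lit 5) (nat_lit 54) (nat_lit 5) (nat_lit 55) (nat_lit 5) (nat_lit 338) (nat_lit 304) (nat_lit 258)) (XT.lf (nat_lit 0) (nat_lit 1676728838) (nat_lit 304) (nat_lit 9696894363) (nat_lit 76) (nat_lit 2533424065) (nat_lit 48) (nat_lit 5) (nat_lit 52) (nat_lit 5) (nat_lit 49) (nat_lit 5) (nat_lit 339) (nat_lit 304) (nat_lit 257))))))))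
noncomputable def xc112 : XT := (XT.nd (nat_lit 1716) (nat_lit 988) (nat_lit 0) (XT.nd (nat_lit 858) (nat_lit 684) (nat_lit 0) (XT.nd (nat_lit 390) (nat_lit 532) (nat_lit 0) (XT.nd (nat_lit 156) (nat_lit 456) (nat_lit 0) (XT.nd (nat_lit 78) (nat_lit 152) (nat_lit 0) (XT.lf (nat_lit 0) (nat_lit 4920519999) (nat_lit 304) (nat_lit 2005025873) (nat_lit 76) (nat_lit 7410878066) (nat_lit 48) (nat_lit 5) (nat_lit 52) (nat_lit 5) (nat_lit 49) (nat_lit 5) (nat_lit 340) (nat_lit 304) (nat_lit 256)) (XT.lf (nat_lit 0) (nat_lit 6206829055) (nat_lit 152) (nat_lit 2174671483) (nat_lit 228) (nat_lit 6403050971) (nat_lit 46) (nat_lit 5) (nat_lit 48) (nat_lit 5) (nat_lit 49) (nat_lit 5) (nat_lit 341) (nat_lit 304) (nat_lit 255))) (XT.nd (nat_lit 78) (nat_lit 456) (nat_lit 0) (XT.lf (nat_lit 0) (nat_lit 12052757362) (nat_lit 228) (nat_lit 462973110) (nat_lit 76) (nat_lit 2737524157) (nat_lit 46) (nat_lit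 5) (nat_lit 49) (nat_lit 5) (nat_lit 47) (nat_lit 5) (nat_lit 342) (nat_lit 304) (nat_lit 254)) (XT.nd (nat_lit 78) (nat_lit 152) (nat_lit 0) (XT.lf (nat_lit 0) (nat_lit 283810037) (nat_lit 304) (nat_lit 7519610240) (nat_lit 76) (nat_lit 7935532870) (nat_lit 42) (nat_lit 5) (nat_lit 46) (nat_lit 5) (nat_lit 43) (nat_lit 5) (nat_lit 343) (nat_lit 304) (nat_lit 253)) (XT.lf (nat_lit 0) (nat_lit 1022152800) (nat_lit 152) (nat_lit 2797574929) (nat_lit 228) (nat_lit 12427364242) (nat_lit 40) (nat_lit 5) (nat_lit 42) (nat_lit 5) (nat_lit 43) (nat_lit 5) (nat_lit 344) (nat_lit 304) (nat_lit 252))))) (XT.nd (nat_lit 234) (nat_lit 380) (nat_lit 0) (XT.nd (nat_lit 78) (nat_lit 152) (nat_lit 0) (XT.lf (nat_lit 0) (nat_lit 7661854957) (nat_lit 228) (nat_lit 6624538454) (nat_lit 76) (nat_lit 2487798761) (nat_lit 40) (nat_lit 5) (nat_lit 43) (nat_lit 5) (nat_lit 41) (nat_lit 5) (nat_lit 345) (nat_lit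 304) (nat_lit 251)) (XT.nd (nat_lit 78) (nat_lit 0) (nat_lit 0) (XT.lf (nat_lit 0) (nat_lit 2377187862) (nat_lit 152) (nat_lit 9365298735) (nat_lit 228) (nat_lit 5582864805) (nat_lit 38) (nat_lit 5) (nat_lit 40) (nat_lit 5) (nat_lit 41) (nat_lit 5) (nat_lit 346) (nat_lit 304) (nat_lit 250)) (XT.lf (nat_lit 0) (nat_lit 12001022383) (nat_lit 152) (nat_lit 4102575602) (nat_lit 228) (nat_lit 1796670984) (nat_lit 38) (nat_lit 5) (nat_lit 40) (nat_lit 5) (nat_lit 41) (nat_lit 5) (nat_lit 347) (nat_lit 304) (nat_lit 249)))) (XT.nd (nat_lit 78) (nat_lit 152) (nat_lit 0) (XT.lf (nat_lit 0) (nat_lit 2154486400) (nat_lit 228) (nat_lit 14896679143) (nat_lit 76) (nat_lit 1448817145) (nat_lit 35) (nat_lit 5) (nat_lit 38) (nat_lit 5) (nat_lit 36) (nat_lit 5) (nat_lit 348) (nat_lit 304) (nat_lit 248)) (XT.nd (nat_lit 78) (nat_lit 152) (nat_lit 0) (XT.lf (nat_lit 0) (nat_lit 6377447747) (nat_lit 228) (nat_lit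 5494080536) (nat_lit 76) (nat_lit 7249969508) (nat_lit 35) (nat_lit 5) (nat_lit 38) (nat_lit 5) (nat_lit 36) (nat_lit 5) (nat_lit 349) (nat_lit 304) (nat_lit 247)) (XT.lf (nat_lit 0) (nat_lit 4467505893) (nat_lit 152) (nat_lit 6381255149) (nat_lit 228) (nat_lit 8923486157) (nat_lit 33) (nat_lit 5) (nat_lit 35) (nat_lit 5) (nat_lit 36) (nat_lit 5) (nat_lit 350) (nat_lit 304) (nat_lit 246)))))) (XT.nd (nat_lit 390) (nat_lit 380) (nat_lit 0) (XT.nd (nat_lit 156) (nat_lit 228) (nat_lit 0) (XT.nd (nat_lit 78) (nat_lit 76) (nat_lit 0) (XT.lf (nat_lit 0) (nat_lit 15064656589) (nat_lit 152) (nat_lit 540200257) (nat_lit 228) (nat_lit 4847634242) (nat_lit 33) (nat_lit 5) (nat_lit 35) (nat_lit 5) (nat_lit 36) (nat_lit 5) (nat_lit 351) (nat_lit 304) (nat_lit 245)) (XT.lf (nat_lit 0) (nat_lit 5047203667) (nat_lit 76) (nat_lit 15687044639) (nat_lit 152) (nat_lit 425741319) (nat_lit 32) (nat_lit 5) (nat_lit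 33) (nat_lit 5) (nat_lit 34) (nat_lit 4) (nat_lit 352) (nat_lit 304) (nat_lit 244))) (XT.nd (nat_lit 78) (nat_lit 152) (nat_lit 0) (XT.lf (nat_lit 0) (nat_lit 4153387964) (nat_lit 152) (nat_lit 5835568761) (nat_lit 76) (nat_lit 11907073639) (nat_lit 31) (nat_lit 5) (nat_lit 33) (nat_lit 5) (nat_lit 32) (nat_lit 5) (nat_lit 353) (nat_lit 304) (nat_lit 243)) (XT.nd (nat_lit 78) (nat_lit 0) (nat_lit 0) (XT.lf (nat_lit 0) (nat_lit 5060870799) (nat_lit 152) (nat_lit 3936283663) (nat_lit 228) (nat_lit 13668884972) (nat_lit 29) (nat_lit 5) (nat_lit 31) (nat_lit 5) (nat_lit 32) (nat_lit 5) (nat_lit 354) (nat_lit 304) (nat_lit 242)) (XT.lf (nat_lit 0) (nat_lit 14192600096) (nat_lit 228) (nat_lit 6854218587) (nat_lit 76) (nat_lit 2422269721) (nat_lit 29) (nat_lit 5) (nat_lit 32) (nat_lit 5) (nat_lit 30) (nat_lit 4) (nat_lit 355) (nat_lit 304) (nat_lit 241))))) (XT.nd (nat_lit 234) (nat_lit 76) (nat_lit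 0) (XT.nd (nat_lit 78) (nat_lit 228) (nat_lit 0) (XT.lf (nat_lit 0) (nat_lit 4465085799) (nat_lit 76) (nat_lit 15289616590) (nat_lit 152) (nat_lit 4552256536) (nat_lit 28) (nat_lit 5) (nat_lit 29) (nat_lit 5) (nat_lit 30) (nat_lit 4) (nat_lit 356) (nat_lit 304) (nat_lit 240)) (XT.nd (nat_lit 78) (nat_lit 152) (nat_lit 0) (XT.lf (nat_lit 0) (nat_lit 485867937) (nat_lit 152) (nat_lit 8648596359) (nat_lit 76) (nat_lit 16047414827) (nat_lit 27) (nat_lit 5) (nat_lit 29) (nat_lit 5) (nat_lit 28) (nat_lit 5) (nat_lit 357) (nat_lit 304) (nat_lit 239)) (XT.lf (nat_lit 0) (nat_lit 3082943017) (nat_lit 152) (nat_lit 2562163506) (nat_lit 228) (nat_lit 20450609280) (nat_lit 25) (nat_lit 5) (nat_lit 27) (nat_lit 5) (nat_lit 28) (nat_lit 5) (nat_lit 358) (nat_lit 304) (nat_lit 238)))) (XT.nd (nat_lit 78) (nat_lit 76) (nat_lit 0) (XT.lf (nat_lit 0) (nat_lit 11253212184) (nat_lit 228) (nat_lit 11462437073)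 (nat_lit 76) (nat_lit 4330060762) (nat_lit 25) (nat_lit 5) (nat_lit 28) (nat_lit 5) (nat_lit 26) (nat_lit 4) (nat_lit 359) (nat_lit 304) (nat_lit 237)) (XT.nd (nat_lit 78) (nat_lit 0) (nat_lit 0) (XT.lf (nat_lit 0) (nat_lit 599068525) (nat_lit 76) (nat_lit 16569530212) (nat_lit 152) (nat_lit 10873271865) (nat_lit 24) (nat_lit 5) (nat_lit 25) (nat_lit 5) (nat_lit 26) (nat_lit 4) (nat_lit 360) (nat_lit 304) (nat_lit 236)) (XT.lf (nat_lit 0) (nat_lit 13618783088) (nat_lit 76) (nat_lit 9931110481) (nat_lit 152) (nat_lit 5529448638) (nat_lit 24) (nat_lit 5) (nat_lit 25) (nat_lit 5) (nat_lit 26) (nat_lit 4) (nat_lit 361) (nat_lit 304) (nat_lit 235))))))) (XT.nd (nat_lit 858) (nat_lit 456) (nat_lit 0) (XT.nd (nat_lit 390) (nat_lit 228) (nat_lit 0) (XT.nd (nat_lit 156) (nat_lit 76) (nat_lit 0) (XT.nd (nat_lit 78) (nat_lit 152) (nat_lit 0) (XT.lf (nat_lit 0) (nat_lit 55730611) (nat_lit 152) (nat_lit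 2922031786) (nat_lit 76) (nat_lit 27192031565) (nat_lit 23) (nat_lit 5) (nat_lit 25) (nat_lit 5) (nat_lit 24) (nat_lit 5) (nat_lit 362) (nat_lit 304) (nat_lit 234)) (XT.lf (nat_lit 0) (nat_lit 5946726209) (nat_lit 228) (nat_lit 20926992527) (nat_lit 76) (nat_lit 4425906662) (nat_lit 21) (nat_lit 5) (nat_lit 24) (nat_lit 5) (nat_lit 22) (nat_lit 4) (nat_lit 363) (nat_lit 304) (nat_lit 233))) (XT.nd (nat_lit 78) (nat_lit 76) (nat_lit 0) (XT.lf (nat_lit 0) (nat_lit 12209441846) (nat_lit 228) (nat_lit 8139383534) (nat_lit 76) (nat_lit 12133272692) (nat_lit 21) (nat_lit 5) (nat_lit 24) (nat_lit 5) (nat_lit 22) (nat_lit 4) (nat_lit 364) (nat_lit 304) (nat_lit 232)) (XT.nd (nat_lit 78) (nat_lit 0) (nat_lit 0) (XT.lf (nat_lit 0) (nat_lit 5423319807) (nat_lit 76) (nat_lit 13425748784) (nat_lit 152) (nat_lit 14871444810) (nat_lit 20) (nat_lit 5) (nat_lit 21) (nat_lit 5) (nat_lit 22) (nat_lit 4) (nat_lit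 365) (nat_lit 304) (nat_lit 231)) (XT.lf (nat_lit 0) (nat_lit 19909483877) (nat_lit 76) (nat_lit 6028552780) (nat_lit 152) (nat_lit 9076952259) (nat_lit 20) (nat_lit 5) (nat_lit 21) (nat_lit 5) (nat_lit 22) (nat_lit 4) (nat_lit 366) (nat_lit 304) (nat_lit 230))))) (XT.nd (nat_lit 234) (nat_lit 76) (nat_lit 0) (XT.nd (nat_lit 78) (nat_lit 152) (nat_lit 0) (XT.lf (nat_lit 0) (nat_lit 33388837688) (nat_lit 152) (nat_lit 1317589487) (nat_lit 0) (nat_lit 1667398867) (nat_lit 20) (nat_lit 5) (nat_lit 22) (nat_lit 4) (nat_lit 20) (nat_lit 4) (nat_lit 367) (nat_lit 304) (nat_lit 229)) (XT.nd (nat_lit 78) (nat_lit 0) (nat_lit 0) (XT.lf (nat_lit 0) (nat_lit 3597246082) (nat_lit 152) (nat_lit 24387011327) (nat_lit 76) (nat_lit 9798947612) (nat_lit 18) (nat_lit 5) (nat_lit 20) (nat_lit 5) (nat_lit 19) (nat_lit 4) (nat_lit 368) (nat_lit 304) (nat_lit 228)) (XT.lf (nat_lit 0) (nat_lit 10412196997) (nat_lit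 152) (nat_lit 10454387642) (nat_lit 76) (nat_lit 18393831702) (nat_lit 18) (nat_lit 5) (nat_lit 20) (nat_lit 5) (nat_lit 19) (nat_lit 4) (nat_lit 369) (nat_lit 304) (nat_lit 227)))) (XT.nd (nat_lit 78) (nat_lit 0) (nat_lit 0) (XT.lf (nat_lit 0) (nat_lit 4278904489) (nat_lit 76) (nat_lit 13337930105) (nat_lit 152) (nat_lit 23192212489) (nat_lit 17) (nat_lit 5) (nat_lit 18) (nat_lit 5) (nat_lit 19) (nat_lit 4) (nat_lit 370) (nat_lit 304) (nat_lit 226)) (XT.nd (nat_lit 78) (nat_lit 0) (nat_lit 0) (XT.lf (nat_lit 0) (nat_lit 20079430434) (nat_lit 76) (nat_lit 5261802388) (nat_lit 152) (nat_lit 17085905637) (nat_lit 17) (nat_lit 5) (nat_lit 18) (nat_lit 5) (nat_lit 19) (nat_lit 4) (nat_lit 371) (nat_lit 304) (nat_lit 225)) (XT.lf (nat_lit 0) (nat_lit 33485187014) (nat_lit 152) (nat_lit 7537855868) (nat_lit 0) (nat_lit 3101429992) (nat_lit 17) (nat_lit 5) (nat_lit 19) (nat_lit 4) (nat_lit 17)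 (nat_lit 4) (nat_lit 372) (nat_lit 304) (nat_lit 224)))))) (XT.nd (nat_lit 468) (nat_lit 228) (nat_lit 0) (XT.nd (nat_lit 234) (nat_lit 76) (nat_lit 0) (XT.nd (nat_lit 78) (nat_lit 76) (nat_lit 0) (XT.lf (nat_lit 0) (nat_lit 8157354132) (nat_lit 76) (nat_lit 34076500137) (nat_lit 76) (nat_lit 3662948991) (nat_lit 16) (nat_lit 4) (nat_lit 17) (nat_lit 5) (nat_lit 17) (nat_lit 4) (nat_lit 373) (nat_lit 304) (nat_lit 223)) (XT.nd (nat_lit 78) (nat_lit 0) (nat_lit 0) (XT.lf (nat_lit 0) (nat_lit 3658681389) (nat_lit 152) (nat_lit 22941629652) (nat_lit 76) (nat_lit 21148900311) (nat_lit 15) (nat_lit 5) (nat_lit 17) (nat_lit 5) (nat_lit 16) (nat_lit 4) (nat_lit 374) (nat_lit 304) (nat_lit 222)) (XT.lf (nat_lit 0) (nat_lit 11207999054) (nat_lit 152) (nat_lit 7492552587) (nat_lit 76) (nat_lit 30991454884) (nat_lit 15) (nat_lit 5) (nat_lit 17) (nat_lit 5) (nat_lit 16) (nat_lit 4) (nat_lit 375) (nat_lit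 304) (nat_lit 221)))) (XT.nd (nat_lit 78) (nat_lit 0) (nat_lit 0) (XT.lf (nat_lit 0) (nat_lit 8989473783) (nat_lit 76) (nat_lit 10271092907) (nat_lit 152) (nat_lit 32465089691) (nat_lit 14) (nat_lit 5) (nat_lit 15) (nat_lit 5) (nat_lit 16) (nat_lit 4) (nat_lit 376) (nat_lit 304) (nat_lit 220)) (XT.nd (nat_lit 78) (nat_lit 0) (nat_lit 0) (XT.lf (nat_lit 0) (nat_lit 26528941225) (nat_lit 76) (nat_lit 1299420168) (nat_lit 152) (nat_lit 26027001337) (nat_lit 14) (nat_lit 5) (nat_lit 15) (nat_lit 5) (nat_lit 16) (nat_lit 4) (nat_lit 377) (nat_lit 304) (nat_lit 219)) (XT.lf (nat_lit 0) (nat_lit 36937538295) (nat_lit 152) (nat_lit 11298969176) (nat_lit 0) (nat_lit 7849401049) (nat_lit 14) (nat_lit 5) (nat_lit 16) (nat_lit 4) (nat_lit 14) (nat_lit 4) (nat_lit 378) (nat_lit 304) (nat_lit 218))))) (XT.nd (nat_lit 234) (nat_lit 76) (nat_lit 0) (XT.nd (nat_lit 78) (nat_lit 76) (nat_lit 0) (XT.lf (nat_lit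 0) (nat_lit 5665103139) (nat_lit 76) (nat_lit 40933681438) (nat_lit 76) (nat_lit 11824370065) (nat_lit 13) (nat_lit 4) (nat_lit 14) (nat_lit 5) (nat_lit 14) (nat_lit 4) (nat_lit 379) (nat_lit 304) (nat_lit 217)) (XT.nd (nat_lit 78) (nat_lit 76) (nat_lit 0) (XT.lf (nat_lit 0) (nat_lit 23845283933) (nat_lit 76) (nat_lit 33076268392) (nat_lit 76) (nat_lit 3946791183) (nat_lit 13) (nat_lit 4) (nat_lit 14) (nat_lit 5) (nat_lit 14) (nat_lit 4) (nat_lit 380) (nat_lit 304) (nat_lit 216)) (XT.lf (nat_lit 0) (nat_lit 4173765510) (nat_lit 152) (nat_lit 20592463469) (nat_lit 76) (nat_lit 38666814152) (nat_lit 12) (nat_lit 5) (nat_lit 14) (nat_lit 5) (nat_lit 13) (nat_lit 4) (nat_lit 381) (nat_lit 304) (nat_lit 215)))) (XT.nd (nat_lit 78) (nat_lit 76) (nat_lit 0) (XT.lf (nat_lit 0) (nat_lit 12555821698) (nat_lit 152) (nat_lit 3427539291) (nat_lit 76) (nat_lit 50139979121) (nat_lit 12) (nat_lit 5) (nat_lit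 14) (nat_lit 5) (nat_lit 13) (nat_lit 4) (nat_lit 382) (nat_lit 304) (nat_lit 214)) (XT.nd (nat_lit 78) (nat_lit 0) (nat_lit 0) (XT.lf (nat_lit 0) (nat_lit 15056091242) (nat_lit 76) (nat_lit 6524633159) (nat_lit 152) (nat_lit 47356243149) (nat_lit 11) (nat_lit 5) (nat_lit 12) (nat_lit 5) (nat_lit 13) (nat_lit 4) (nat_lit 383) (nat_lit 304) (nat_lit 213)) (XT.lf (nat_lit 0) (nat_lit 31157794523) (nat_lit 152) (nat_lit 37381105064) (nat_lit 0) (nat_lit 3347333320) (nat_lit 11) (nat_lit 5) (nat_lit 13) (nat_lit 4) (nat_lit 11) (nat_lit 4) (nat_lit 384) (nat_lit 304) (nat_lit 212))))))))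
noncomputable def xc113 : XT := (XT.nd (nat_lit 1716) (nat_lit 228) (nat_lit 0) (XT.nd (nat_lit 858) (nat_lit 228) (nat_lit 0) (XT.nd (nat_lit 390) (nat_lit 152) (nat_lit 0) (XT.nd (nat_lit 156) (nat_lit 76) (nat_lit 0) (XT.nd (nat_lit 78) (nat_lit 0) (nat_lit 0) (XT.lf (nat_lit 0) (nat_lit 41309946355) (nat_lit 152) (nat_lit 20183769208) (nat_lit 0) (nat_lit 13484437095) (nat_lit 11) (nat_lit 5) (nat_lit 13) (nat_lit 4) (nat_lit 11) (nat_lit 4) (nat_lit 385) (nat_lit 304) (nat_lit 211)) (XT.lf (nat_lit 0) (nat_lit 51959483878) (nat_lit 152) (nat_lit 2146054895) (nat_lit 0) (nat_lit 24119643135) (nat_lit 11) (nat_lit 5) (nat_lit 13) (nat_lit 4) (nat_lit 11) (nat_lit 4) (nat_lit 386) (nat_lit 304) (nat_lit 210))) (XT.nd (nat_lit 78) (nat_lit 0) (nat_lit 0) (XT.lf (nat_lit 0) (nat_lit 17329641570) (nat_lit 76) (nat_lit 46072685834) (nat_lit 76) (nat_lit 18219196060) (nat_lit 10) (nat_lit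 4) (nat_lit 11) (nat_lit 5) (nat_lit 11) (nat_lit 4) (nat_lit 387) (nat_lit 304) (nat_lit 209)) (XT.nd (nat_lit 78) (nat_lit 0) (nat_lit 0) (XT.lf (nat_lit 0) (nat_lit 37835368081) (nat_lit 76) (nat_lit 37608732834) (nat_lit 76) (nat_lit 9742243982) (nat_lit 10) (nat_lit 4) (nat_lit 11) (nat_lit 5) (nat_lit 11) (nat_lit 4) (nat_lit 388) (nat_lit 304) (nat_lit 208)) (XT.lf (nat_lit 0) (nat_lit 59348989527) (nat_lit 76) (nat_lit 28729871983) (nat_lit 76) (nat_lit 851003057) (nat_lit 10) (nat_lit 4) (nat_lit 11) (nat_lit 5) (nat_lit 11) (nat_lit 4) (nat_lit 389) (nat_lit 304) (nat_lit 207))))) (XT.nd (nat_lit 234) (nat_lit 0) (nat_lit 0) (XT.nd (nat_lit 78) (nat_lit 76) (nat_lit 0) (XT.lf (nat_lit 0) (nat_lit 8204421121) (nat_lit 152) (nat_lit 11071596172) (nat_lit 76) (nat_lit 73578361855) (nat_lit 9) (nat_lit 5) (nat_lit 11) (nat_lit 5) (nat_lit 10) (nat_lit 4) (nat_lit 390) (nat_lit 304)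 (nat_lit 206)) (XT.nd (nat_lit 78) (nat_lit 0) (nat_lit 0) (XT.lf (nat_lit 0) (nat_lit 8608673274) (nat_lit 76) (nat_lit 9201356890) (nat_lit 152) (nat_lit 79158092906) (nat_lit 8) (nat_lit 5) (nat_lit 9) (nat_lit 5) (nat_lit 10) (nat_lit 4) (nat_lit 391) (nat_lit 304) (nat_lit 205)) (XT.lf (nat_lit 0) (nat_lit 28099638222) (nat_lit 152) (nat_lit 71661505852) (nat_lit 0) (nat_lit 1516225902) (nat_lit 8) (nat_lit 5) (nat_lit 10) (nat_lit 4) (nat_lit 8) (nat_lit 4) (nat_lit 392) (nat_lit 304) (nat_lit 204)))) (XT.nd (nat_lit 78) (nat_lit 0) (nat_lit 0) (XT.lf (nat_lit 0) (nat_lit 39046609082) (nat_lit 152) (nat_lit 54294831010) (nat_lit 0) (nat_lit 12453496650) (nat_lit 8) (nat_lit 5) (nat_lit 10) (nat_lit 4) (nat_lit 8) (nat_lit 4) (nat_lit 393) (nat_lit 304) (nat_lit 203)) (XT.nd (nat_lit 78) (nat_lit 0) (nat_lit 0) (XT.lf (nat_lit 0) (nat_lit 50533347993) (nat_lit 152) (nat_lit 36074417076)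 (nat_lit 0) (nat_lit 23930997359) (nat_lit 8) (nat_lit 5) (nat_lit 10) (nat_lit 4) (nat_lit 8) (nat_lit 4) (nat_lit 394) (nat_lit 304) (nat_lit 202)) (XT.lf (nat_lit 0) (nat_lit 62587204332) (nat_lit 152) (nat_lit 16956882112) (nat_lit 0) (nat_lit 35976055411) (nat_lit 8) (nat_lit 5) (nat_lit 10) (nat_lit 4) (nat_lit 8) (nat_lit 4) (nat_lit 395) (nat_lit 304) (nat_lit 201)))))) (XT.nd (nat_lit 390) (nat_lit 152) (nat_lit 0) (XT.nd (nat_lit 156) (nat_lit 0) (nat_lit 0) (XT.nd (nat_lit 78) (nat_lit 0) (nat_lit 0) (XT.lf (nat_lit 0) (nat_lit 3205900663) (nat_lit 76) (nat_lit 72081030189) (nat_lit 76) (nat_lit 45461501947) (nat_lit 7) (nat_lit 4) (nat_lit 8) (nat_lit 5) (nat_lit 8) (nat_lit 4) (nat_lit 396) (nat_lit 304) (nat_lit 200)) (XT.lf (nat_lit 0) (nat_lit 24952502970) (nat_lit 76) (nat_lit 63949562072) (nat_lit 76) (nat_lit 37322053524) (nat_lit 7) (nat_lit 4) (nat_lit 8) (nat_lit 5)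 (nat_lit 8) (nat_lit 4) (nat_lit 397) (nat_lit 304) (nat_lit 199))) (XT.nd (nat_lit 78) (nat_lit 0) (nat_lit 0) (XT.lf (nat_lit 0) (nat_lit 47774031330) (nat_lit 76) (nat_lit 55417494460) (nat_lit 76) (nat_lit 28782385621) (nat_lit 7) (nat_lit 4) (nat_lit 8) (nat_lit 5) (nat_lit 8) (nat_lit 4) (nat_lit 398) (nat_lit 304) (nat_lit 198)) (XT.nd (nat_lit 78) (nat_lit 0) (nat_lit 0) (XT.lf (nat_lit 0) (nat_lit 71724822715) (nat_lit 76) (nat_lit 46464512906) (nat_lit 76) (nat_lit 19822165694) (nat_lit 7) (nat_lit 4) (nat_lit 8) (nat_lit 5) (nat_lit 8) (nat_lit 4) (nat_lit 399) (nat_lit 304) (nat_lit 197)) (XT.lf (nat_lit 0) (nat_lit 96861902819) (nat_lit 76) (nat_lit 37069300787) (nat_lit 76) (nat_lit 10420059887) (nat_lit 7) (nat_lit 4) (nat_lit 8) (nat_lit 5) (nat_lit 8) (nat_lit 4) (nat_lit 400) (nat_lit 304) (nat_lit 196))))) (XT.nd (nat_lit 234) (nat_lit 0) (nat_lit 0) (XT.nd (nat_lit 78)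 (nat_lit 152) (nat_lit 0) (XT.lf (nat_lit 0) (nat_lit 123245121832) (nat_lit 76) (nat_lit 27209488551) (nat_lit 76) (nat_lit 553682233) (nat_lit 7) (nat_lit 4) (nat_lit 8) (nat_lit 5) (nat_lit 8) (nat_lit 4) (nat_lit 401) (nat_lit 304) (nat_lit 195)) (XT.nd (nat_lit 78) (nat_lit 76) (nat_lit 0) (XT.lf (nat_lit 0) (nat_lit 9486782760) (nat_lit 152) (nat_lit 7214154436) (nat_lit 76) (nat_lit 141289850927) (nat_lit 6) (nat_lit 5) (nat_lit 8) (nat_lit 5) (nat_lit 7) (nat_lit 4) (nat_lit 402) (nat_lit 304) (nat_lit 194)) (XT.lf (nat_lit 0) (nat_lit 14817602579) (nat_lit 76) (nat_lit 5419283617) (nat_lit 152) (nat_lit 145073758201) (nat_lit 5) (nat_lit 5) (nat_lit 6) (nat_lit 5) (nat_lit 7) (nat_lit 4) (nat_lit 403) (nat_lit 304) (nat_lit 193)))) (XT.nd (nat_lit 78) (nat_lit 0) (nat_lit 0) (XT.lf (nat_lit 0) (nat_lit 31743904657) (nat_lit 152) (nat_lit 134901224661) (nat_lit 0) (nat_lit 6340394582)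 (nat_lit 5) (nat_lit 5) (nat_lit 7) (nat_lit 4) (nat_lit 5) (nat_lit 4) (nat_lit 404) (nat_lit 304) (nat_lit 192)) (XT.nd (nat_lit 78) (nat_lit 0) (nat_lit 0) (XT.lf (nat_lit 0) (nat_lit 43910254612) (nat_lit 152) (nat_lit 118628094245) (nat_lit 0) (nat_lit 18501600361) (nat_lit 5) (nat_lit 5) (nat_lit 7) (nat_lit 4) (nat_lit 5) (nat_lit 4) (nat_lit 405) (nat_lit 304) (nat_lit 191)) (XT.lf (nat_lit 0) (nat_lit 56680293356) (nat_lit 152) (nat_lit 101550294816) (nat_lit 0) (nat_lit 31266739890) (nat_lit 5) (nat_lit 5) (nat_lit 7) (nat_lit 4) (nat_lit 5) (nat_lit 4) (nat_lit 406) (nat_lit 304) (nat_lit 190))))))) (XT.nd (nat_lit 858) (nat_lit 152) (nat_lit 0) (XT.nd (nat_lit 390) (nat_lit 76) (nat_lit 0) (XT.nd (nat_lit 156) (nat_lit 0) (nat_lit 0) (XT.nd (nat_lit 78) (nat_lit 0) (nat_lit 0) (XT.lf (nat_lit 0) (nat_lit 70084425744) (nat_lit 152) (nat_lit 83627164948) (nat_lit 0) (nat_lit 44666206358)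 (nat_lit 5) (nat_lit 5) (nat_lit 7) (nat_lit 4) (nat_lit 5) (nat_lit 4) (nat_lit 407) (nat_lit 304) (nat_lit 189)) (XT.lf (nat_lit 0) (nat_lit 84154566376) (nat_lit 152) (nat_lit 64816030520) (nat_lit 0) (nat_lit 58731903257) (nat_lit 5) (nat_lit 5) (nat_lit 7) (nat_lit 4) (nat_lit 5) (nat_lit 4) (nat_lit 408) (nat_lit 304) (nat_lit 188))) (XT.nd (nat_lit 78) (nat_lit 0) (nat_lit 0) (XT.lf (nat_lit 0) (nat_lit 98924215587) (nat_lit 152) (nat_lit 45072103119) (nat_lit 0) (nat_lit 73497320342) (nat_lit 5) (nat_lit 5) (nat_lit 7) (nat_lit 4) (nat_lit 5) (nat_lit 4) (nat_lit 409) (nat_lit 304) (nat_lit 187)) (XT.nd (nat_lit 78) (nat_lit 0) (nat_lit 0) (XT.lf (nat_lit 0) (nat_lit 114428539210) (nat_lit 152) (nat_lit 24348373393) (nat_lit 0) (nat_lit 88997613368) (nat_lit 5) (nat_lit 5) (nat_lit 7) (nat_lit 4) (nat_lit 5) (nat_lit 4) (nat_lit 410) (nat_lit 304) (nat_lit 186)) (XT.lf (nat_lit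 0) (nat_lit 130704452299) (nat_lit 152) (nat_lit 2595499128) (nat_lit 0) (nat_lit 105269687793) (nat_lit 5) (nat_lit 5) (nat_lit 7) (nat_lit 4) (nat_lit 5) (nat_lit 4) (nat_lit 411) (nat_lit 304) (nat_lit 185))))) (XT.nd (nat_lit 234) (nat_lit 0) (nat_lit 0) (XT.nd (nat_lit 78) (nat_lit 0) (nat_lit 0) (XT.lf (nat_lit 0) (nat_lit 20907482233) (nat_lit 76) (nat_lit 127209649187) (nat_lit 76) (nat_lit 101771228811) (nat_lit 4) (nat_lit 4) (nat_lit 5) (nat_lit 5) (nat_lit 5) (nat_lit 4) (nat_lit 412) (nat_lit 304) (nat_lit 184)) (XT.nd (nat_lit 78) (nat_lit 0) (nat_lit 0) (XT.lf (nat_lit 0) (nat_lit 45669124086) (nat_lit 76) (nat_lit 120771883887) (nat_lit 76) (nat_lit 95329981730) (nat_lit 4) (nat_lit 4) (nat_lit 5) (nat_lit 5) (nat_lit 5) (nat_lit 4) (nat_lit 413) (nat_lit 304) (nat_lit 183)) (XT.lf (nat_lit 0) (nat_lit 71662563798) (nat_lit 76) (nat_lit 114015283550) (nat_lit 76) (nat_lit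 88570065411) (nat_lit 4) (nat_lit 4) (nat_lit 5) (nat_lit 5) (nat_lit 5) (nat_lit 4) (nat_lit 414) (nat_lit 304) (nat_lit 182)))) (XT.nd (nat_lit 78) (nat_lit 0) (nat_lit 0) (XT.lf (nat_lit 0) (nat_lit 98949690511) (nat_lit 76) (nat_lit 106923761032) (nat_lit 76) (nat_lit 81475384815) (nat_lit 4) (nat_lit 4) (nat_lit 5) (nat_lit 5) (nat_lit 5) (nat_lit 4) (nat_lit 415) (nat_lit 304) (nat_lit 181)) (XT.nd (nat_lit 78) (nat_lit 0) (nat_lit 0) (XT.lf (nat_lit 0) (nat_lit 127595473575) (nat_lit 76) (nat_lit 99480431755) (nat_lit 76) (nat_lit 74029047845) (nat_lit 4) (nat_lit 4) (nat_lit 5) (nat_lit 5) (nat_lit 5) (nat_lit 4) (nat_lit 416) (nat_lit 304) (nat_lit 180)) (XT.lf (nat_lit 0) (nat_lit 157668117233) (nat_lit 76) (nat_lit 91667573507) (nat_lit 76) (nat_lit 66213325127) (nat_lit 4) (nat_lit 4) (nat_lit 5) (nat_lit 5) (nat_lit 5) (nat_lit 4) (nat_lit 417) (nat_lit 304) (nat_lit 179))))))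 (XT.nd (nat_lit 468) (nat_lit 152) (nat_lit 0) (XT.nd (nat_lit 234) (nat_lit 0) (nat_lit 0) (XT.nd (nat_lit 78) (nat_lit 0) (nat_lit 0) (XT.lf (nat_lit 0) (nat_lit 189239223020) (nat_lit 76) (nat_lit 83466584244) (nat_lit 76) (nat_lit 58009607797) (nat_lit 4) (nat_lit 4) (nat_lit 5) (nat_lit 5) (nat_lit 5) (nat_lit 4) (nat_lit 418) (nat_lit 304) (nat_lit 178)) (XT.nd (nat_lit 78) (nat_lit 0) (nat_lit 0) (XT.lf (nat_lit 0) (nat_lit 222383960235) (nat_lit 76) (nat_lit 74857937802) (nat_lit 76) (nat_lit 49398363197) (nat_lit 4) (nat_lit 4) (nat_lit 5) (nat_lit 5) (nat_lit 5) (nat_lit 4) (nat_lit 419) (nat_lit 304) (nat_lit 177)) (XT.lf (nat_lit 0) (nat_lit 257181244918) (nat_lit 76) (nat_lit 65821137403) (nat_lit 76) (nat_lit 40359088361) (nat_lit 4) (nat_lit 4) (nat_lit 5) (nat_lit 5) (nat_lit 5) (nat_lit 4) (nat_lit 420) (nat_lit 304) (nat_lit 176)))) (XT.nd (nat_lit 78) (nat_lit 0) (nat_lit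 0) (XT.lf (nat_lit 0) (nat_lit 293713927747) (nat_lit 76) (nat_lit 56334666855) (nat_lit 76) (nat_lit 30870261207) (nat_lit 4) (nat_lit 4) (nat_lit 5) (nat_lit 5) (nat_lit 5) (nat_lit 4) (nat_lit 421) (nat_lit 304) (nat_lit 175)) (XT.nd (nat_lit 78) (nat_lit 0) (nat_lit 0) (XT.lf (nat_lit 0) (nat_lit 332068991301) (nat_lit 76) (nat_lit 46375939325) (nat_lit 76) (nat_lit 20909289290) (nat_lit 4) (nat_lit 4) (nat_lit 5) (nat_lit 5) (nat_lit 5) (nat_lit 4) (nat_lit 422) (nat_lit 304) (nat_lit 174)) (XT.lf (nat_lit 0) (nat_lit 372337757159) (nat_lit 76) (nat_lit 35921243557) (nat_lit 76) (nat_lit 10452456010) (nat_lit 4) (nat_lit 4) (nat_lit 5) (nat_lit 5) (nat_lit 5) (nat_lit 4) (nat_lit 423) (nat_lit 304) (nat_lit 173))))) (XT.nd (nat_lit 234) (nat_lit 0) (nat_lit 0) (XT.nd (nat_lit 78) (nat_lit 76) (nat_lit 0) (XT.lf (nat_lit 0) (nat_lit 508328228) (nat_lit 152) (nat_lit 24428750403) (nat_lit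 76) (nat_lit 414099166323) (nat_lit 3) (nat_lit 5) (nat_lit 5) (nat_lit 5) (nat_lit 4) (nat_lit 4) (nat_lit 424) (nat_lit 304) (nat_lit 172)) (XT.nd (nat_lit 78) (nat_lit 76) (nat_lit 0) (XT.lf (nat_lit 0) (nat_lit 11663960228) (nat_lit 152) (nat_lit 1561643588) (nat_lit 76) (nat_lit 447143197520) (nat_lit 3) (nat_lit 5) (nat_lit 5) (nat_lit 5) (nat_lit 4) (nat_lit 4) (nat_lit 425) (nat_lit 304) (nat_lit 171)) (XT.lf (nat_lit 0) (nat_lit 23187400112) (nat_lit 76) (nat_lit 550165074) (nat_lit 152) (nat_lit 459012411082) (nat_lit 2) (nat_lit 5) (nat_lit 3) (nat_lit 5) (nat_lit 4) (nat_lit 4) (nat_lit 426) (nat_lit 304) (nat_lit 170)))) (XT.nd (nat_lit 78) (nat_lit 0) (nat_lit 0) (XT.lf (nat_lit 0) (nat_lit 36639112430) (nat_lit 152) (nat_lit 457223978986) (nat_lit 0) (nat_lit 12375905710) (nat_lit 2) (nat_lit 5) (nat_lit 4) (nat_lit 4) (nat_lit 2) (nat_lit 4) (nat_lit 427) (nat_lit 304) (nat_lit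 169)) (XT.nd (nat_lit 78) (nat_lit 0) (nat_lit 0) (XT.lf (nat_lit 0) (nat_lit 50193019782) (nat_lit 152) (nat_lit 454780867358) (nat_lit 0) (nat_lit 25928218017) (nat_lit 2) (nat_lit 5) (nat_lit 4) (nat_lit 4) (nat_lit 2) (nat_lit 4) (nat_lit 428) (nat_lit 304) (nat_lit 168)) (XT.lf (nat_lit 0) (nat_lit 64422968831) (nat_lit 152) (nat_lit 452218834723) (nat_lit 0) (nat_lit 40156647977) (nat_lit 2) (nat_lit 5) (nat_lit 4) (nat_lit 4) (nat_lit 2) (nat_lit 4) (nat_lit 429) (nat_lit 304) (nat_lit 167))))))))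
noncomputable def xc114 : XT := (XT.nd (nat_lit 38688) (nat_lit 0) (nat_lit 2736) (XT.nd (nat_lit 37830) (nat_lit 0) (nat_lit 6156) (XT.nd (nat_lit 37362) (nat_lit 0) (nat_lit 9500) (XT.nd (nat_lit 37128) (nat_lit 0) (nat_lit 10412) (XT.nd (nat_lit 78) (nat_lit 0) (nat_lit 0) (XT.lf (nat_lit 0) (nat_lit 79362840409) (nat_lit 152) (nat_lit 449531781002) (nat_lit 0) (nat_lit 55095072802) (nat_lit 2) (nat_lit 5) (nat_lit 4) (nat_lit 4) (nat_lit 2) (nat_lit 4) (nat_lit 430) (nat_lit 304) (nat_lit 166)) (XT.lf (nat_lit 0) (nat_lit 95048205637) (nat_lit 152) (nat_lit 446713308449) (nat_lit 0) (nat_lit 70779060172) (nat_lit 2) (nat_lit 5) (nat_lit 4) (nat_lit 4) (nat_lit 2) (nat_lit 4) (nat_lit 431) (nat_lit 304) (nat_lit 165))) (XT.nd (nat_lit 78) (nat_lit 380) (nat_lit 0) (XT.lf (nat_lit 0) (nat_lit 3091700264) (nat_lit 380) (nat_lit 138120156) (nat_lit 380) (nat_lit 138120156) (nat_lit 144)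 (nat_lit 3) (nat_lit 149) (nat_lit 3) (nat_lit 149) (nat_lit 5) (nat_lit 305) (nat_lit 305) (nat_lit 290)) (XT.nd (nat_lit 78) (nat_lit 0) (nat_lit 0) (XT.lf (nat_lit 0) (nat_lit 1527830487) (nat_lit 380) (nat_lit 3802215530) (nat_lit 456) (nat_lit 1467172398) (nat_lit 139) (nat_lit 5) (nat_lit 144) (nat_lit 3) (nat_lit 145) (nat_lit 5) (nat_lit 306) (nat_lit 305) (nat_lit 289)) (XT.lf (nat_lit 0) (nat_lit 3567424636) (nat_lit 380) (nat_lit 504963531) (nat_lit 456) (nat_lit 2795326765) (nat_lit 139) (nat_lit 5) (nat_lit 144) (nat_lit 3) (nat_lit 145) (nat_lit 5) (nat_lit 307) (nat_lit 305) (nat_lit 288))))) (XT.nd (nat_lit 234) (nat_lit 456) (nat_lit 0) (XT.nd (nat_lit 78) (nat_lit 456) (nat_lit 0) (XT.lf (nat_lit 76) (nat_lit 2982278961) (nat_lit 0) (nat_lit 2648595065) (nat_lit 456) (nat_lit 1314994156) (nat_lit 140) (nat_lit 5) (nat_lit 139) (nat_lit 5) (nat_lit 145) (nat_lit 5) (nat_lit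 308) (nat_lit 305) (nat_lit 287)) (XT.nd (nat_lit 78) (nat_lit 0) (nat_lit 76) (XT.lf (nat_lit 0) (nat_lit 631626373) (nat_lit 456) (nat_lit 451670049) (nat_lit 532) (nat_lit 5949902096) (nat_lit 133) (nat_lit 5) (nat_lit 139) (nat_lit 5) (nat_lit 140) (nat_lit 5) (nat_lit 309) (nat_lit 305) (nat_lit 286)) (XT.lf (nat_lit 0) (nat_lit 2576563447) (nat_lit 456) (nat_lit 3889617713) (nat_lit 532) (nat_lit 660572405) (nat_lit 134) (nat_lit 5) (nat_lit 140) (nat_lit 5) (nat_lit 141) (nat_lit 5) (nat_lit 310) (nat_lit 305) (nat_lit 285)))) (XT.nd (nat_lit 78) (nat_lit 532) (nat_lit 0) (XT.lf (nat_lit 0) (nat_lit 4533218088) (nat_lit 456) (nat_lit 191671352) (nat_lit 532) (nat_lit 2504559061) (nat_lit 134) (nat_lit 5) (nat_lit 140) (nat_lit 5) (nat_lit 141) (nat_lit 5) (nat_lit 311) (nat_lit 305) (nat_lit 284)) (XT.nd (nat_lit 78) (nat_lit 532) (nat_lit 0) (XT.lf (nat_lit 76) (nat_lit 3739186691)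 (nat_lit 0) (nat_lit 2801123769) (nat_lit 532) (nat_lit 799514303) (nat_lit 135) (nat_lit 5) (nat_lit 134) (nat_lit 5) (nat_lit 141) (nat_lit 5) (nat_lit 312) (nat_lit 305) (nat_lit 283)) (XT.lf (nat_lit 76) (nat_lit 335668403) (nat_lit 0) (nat_lit 723085917) (nat_lit 608) (nat_lit 6400951890) (nat_lit 128) (nat_lit 5) (nat_lit 127) (nat_lit 5) (nat_lit 135) (nat_lit 5) (nat_lit 313) (nat_lit 305) (nat_lit 282)))))) (XT.nd (nat_lit 390) (nat_lit 2204) (nat_lit 0) (XT.nd (nat_lit 156) (nat_lit 684) (nat_lit 0) (XT.nd (nat_lit 78) (nat_lit 532) (nat_lit 0) (XT.lf (nat_lit 0) (nat_lit 2968371443) (nat_lit 532) (nat_lit 3104087506) (nat_lit 76) (nat_lit 1513354992) (nat_lit 128) (nat_lit 5) (nat_lit 135) (nat_lit 5) (nat_lit 129) (nat_lit 5) (nat_lit 314) (nat_lit 305) (nat_lit 281)) (XT.lf (nat_lit 0) (nat_lit 1064340857) (nat_lit 532) (nat_lit 3842884535) (nat_lit 608) (nat_lit 2814459348)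 (nat_lit 121) (nat_lit 5) (nat_lit 128) (nat_lit 5) (nat_lit 129) (nat_lit 5) (nat_lit 315) (nat_lit 305) (nat_lit 280))) (XT.nd (nat_lit 78) (nat_lit 684) (nat_lit 0) (XT.lf (nat_lit 0) (nat_lit 5475431750) (nat_lit 532) (nat_lit 1428806578) (nat_lit 608) (nat_lit 962188487) (nat_lit 121) (nat_lit 5) (nat_lit 128) (nat_lit 5) (nat_lit 129) (nat_lit 5) (nat_lit 316) (nat_lit 305) (nat_lit 279)) (XT.nd (nat_lit 78) (nat_lit 0) (nat_lit 0) (XT.lf (nat_lit 0) (nat_lit 913238251) (nat_lit 684) (nat_lit 5972481176) (nat_lit 76) (nat_lit 1133945369) (nat_lit 112) (nat_lit 5) (nat_lit 121) (nat_lit 5) (nat_lit 113) (nat_lit 5) (nat_lit 317) (nat_lit 305) (nat_lit 278)) (XT.lf (nat_lit 0) (nat_lit 2829429403) (nat_lit 684) (nat_lit 1504623506) (nat_lit 76) (nat_lit 3846876327) (nat_lit 112) (nat_lit 5) (nat_lit 121) (nat_lit 5) (nat_lit 113) (nat_lit 5) (nat_lit 318) (nat_lit 305) (nat_lit 277)))))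 (XT.nd (nat_lit 234) (nat_lit 684) (nat_lit 0) (XT.nd (nat_lit 78) (nat_lit 836) (nat_lit 0) (XT.lf (nat_lit 0) (nat_lit 3216721066) (nat_lit 684) (nat_lit 1593740017) (nat_lit 760) (nat_lit 3541458254) (nat_lit 103) (nat_lit 5) (nat_lit 112) (nat_lit 5) (nat_lit 113) (nat_lit 5) (nat_lit 319) (nat_lit 305) (nat_lit 276)) (XT.nd (nat_lit 78) (nat_lit 836) (nat_lit 0) (XT.lf (nat_lit 0) (nat_lit 6858145494) (nat_lit 760) (nat_lit 400095248) (nat_lit 76) (nat_lit 1274946701) (nat_lit 103) (nat_lit 5) (nat_lit 113) (nat_lit 5) (nat_lit 104) (nat_lit 5) (nat_lit 320) (nat_lit 305) (nat_lit 275)) (XT.lf (nat_lit 0) (nat_lit 299541883) (nat_lit 836) (nat_lit 4105934128) (nat_lit 76) (nat_lit 4316721228) (nat_lit 92) (nat_lit 5) (nat_lit 103) (nat_lit 5) (nat_lit 93) (nat_lit 5) (nat_lit 321) (nat_lit 305) (nat_lit 274)))) (XT.nd (nat_lit 78) (nat_lit 304) (nat_lit 0) (XT.lf (nat_lit 0) (nat_lit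 904831450) (nat_lit 380) (nat_lit 1359301971) (nat_lit 456) (nat_lit 6657866351) (nat_lit 87) (nat_lit 5) (nat_lit 92) (nat_lit 5) (nat_lit 93) (nat_lit 5) (nat_lit 322) (nat_lit 305) (nat_lit 273)) (XT.nd (nat_lit 78) (nat_lit 304) (nat_lit 0) (XT.lf (nat_lit 0) (nat_lit 4355249072) (nat_lit 456) (nat_lit 2925491443) (nat_lit 76) (nat_lit 1849726501) (nat_lit 87) (nat_lit 5) (nat_lit 93) (nat_lit 5) (nat_lit 88) (nat_lit 5) (nat_lit 323) (nat_lit 305) (nat_lit 272)) (XT.lf (nat_lit 0) (nat_lit 2403011117) (nat_lit 304) (nat_lit 4140000147) (nat_lit 380) (nat_lit 2806826878) (nat_lit 83) (nat_lit 5) (nat_lit 87) (nat_lit 5) (nat_lit 88) (nat_lit 5) (nat_lit 324) (nat_lit 305) (nat_lit 271))))))) (XT.nd (nat_lit 858) (nat_lit 1444) (nat_lit 0) (XT.nd (nat_lit 390) (nat_lit 912) (nat_lit 0) (XT.nd (nat_lit 156) (nat_lit 608) (nat_lit 0) (XT.nd (nat_lit 78) (nat_lit 456) (nat_lit 0) (XT.lf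 (nat_lit 0) (nat_lit 8028286892) (nat_lit 304) (nat_lit 795821070) (nat_lit 380) (nat_lit 756953552) (nat_lit 83) (nat_lit 5) (nat_lit 87) (nat_lit 5) (nat_lit 88) (nat_lit 5) (nat_lit 325) (nat_lit 305) (nat_lit 270)) (XT.lf (nat_lit 0) (nat_lit 1395720919) (nat_lit 456) (nat_lit 5714400509) (nat_lit 76) (nat_lit 2710460314) (nat_lit 77) (nat_lit 5) (nat_lit 83) (nat_lit 5) (nat_lit 78) (nat_lit 5) (nat_lit 326) (nat_lit 305) (nat_lit 269))) (XT.nd (nat_lit 78) (nat_lit 608) (nat_lit 0) (XT.lf (nat_lit 0) (nat_lit 3608630269) (nat_lit 456) (nat_lit 66567108) (nat_lit 76) (nat_lit 6397428143) (nat_lit 77) (nat_lit 5) (nat_lit 83) (nat_lit 5) (nat_lit 78) (nat_lit 5) (nat_lit 327) (nat_lit 305) (nat_lit 268)) (XT.nd (nat_lit 78) (nat_lit 304) (nat_lit 0) (XT.lf (nat_lit 0) (nat_lit 5967171832) (nat_lit 380) (nat_lit 4349129863) (nat_lit 76) (nat_lit 19287100) (nat_lit 73) (nat_lit 5) (nat_lit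 78) (nat_lit 5) (nat_lit 74) (nat_lit 5) (nat_lit 328) (nat_lit 305) (nat_lit 267)) (XT.lf (nat_lit 0) (nat_lit 1655381641) (nat_lit 304) (nat_lit 6818290472) (nat_lit 380) (nat_lit 2136590009) (nat_lit 69) (nat_lit 5) (nat_lit 73) (nat_lit 5) (nat_lit 74) (nat_lit 5) (nat_lit 329) (nat_lit 305) (nat_lit 266))))) (XT.nd (nat_lit 234) (nat_lit 608) (nat_lit 0) (XT.nd (nat_lit 78) (nat_lit 228) (nat_lit 0) (XT.lf (nat_lit 0) (nat_lit 218539578) (nat_lit 380) (nat_lit 2859244580) (nat_lit 76) (nat_lit 7819864517) (nat_lit 68) (nat_lit 5) (nat_lit 73) (nat_lit 5) (nat_lit 69) (nat_lit 5) (nat_lit 330) (nat_lit 305) (nat_lit 265)) (XT.nd (nat_lit 78) (nat_lit 0) (nat_lit 0) (XT.lf (nat_lit 0) (nat_lit 2635780545) (nat_lit 304) (nat_lit 7659875261) (nat_lit 76) (nat_lit 901244359) (nat_lit 65) (nat_lit 5) (nat_lit 69) (nat_lit 5) (nat_lit 66) (nat_lit 5) (nat_lit 331) (nat_lit 305) (nat_lit 264))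 (XT.lf (nat_lit 0) (nat_lit 5221021614) (nat_lit 304) (nat_lit 1276479869) (nat_lit 76) (nat_lit 5011308062) (nat_lit 65) (nat_lit 5) (nat_lit 69) (nat_lit 5) (nat_lit 66) (nat_lit 5) (nat_lit 332) (nat_lit 305) (nat_lit 263)))) (XT.nd (nat_lit 78) (nat_lit 304) (nat_lit 0) (XT.lf (nat_lit 0) (nat_lit 5537695796) (nat_lit 304) (nat_lit 2434255577) (nat_lit 380) (nat_lit 3862591420) (nat_lit 61) (nat_lit 5) (nat_lit 65) (nat_lit 5) (nat_lit 66) (nat_lit 5) (nat_lit 333) (nat_lit 305) (nat_lit 262)) (XT.nd (nat_lit 78) (nat_lit 76) (nat_lit 0) (XT.lf (nat_lit 0) (nat_lit 481048464) (nat_lit 228) (nat_lit 10388560476) (nat_lit 304) (nat_lit 1306542062) (nat_lit 58) (nat_lit 5) (nat_lit 61) (nat_lit 5) (nat_lit 62) (nat_lit 5) (nat_lit 334) (nat_lit 305) (nat_lit 261)) (XT.lf (nat_lit 0) (nat_lit 1433093656) (nat_lit 304) (nat_lit 4843584616) (nat_lit 76) (nat_lit 6252135807) (nat_lit 57) (nat_lit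 5) (nat_lit 61) (nat_lit 5) (nat_lit 58) (nat_lit 5) (nat_lit 335) (nat_lit 305) (nat_lit 260)))))) (XT.nd (nat_lit 468) (nat_lit 760) (nat_lit 0) (XT.nd (nat_lit 234) (nat_lit 304) (nat_lit 0) (XT.nd (nat_lit 78) (nat_lit 152) (nat_lit 0) (XT.lf (nat_lit 0) (nat_lit 2339817031) (nat_lit 228) (nat_lit 1916395161) (nat_lit 304) (nat_lit 8642347625) (nat_lit 54) (nat_lit 5) (nat_lit 57) (nat_lit 5) (nat_lit 58) (nat_lit 5) (nat_lit 336) (nat_lit 305) (nat_lit 259)) (XT.nd (nat_lit 78) (nat_lit 152) (nat_lit 0) (XT.lf (nat_lit 0) (nat_lit 7300224166) (nat_lit 304) (nat_lit 3340176260) (nat_lit 76) (nat_lit 2642444506) (nat_lit 54) (nat_lit 5) (nat_lit 58) (nat_lit 5) (nat_lit 55) (nat_lit 5) (nat_lit 337) (nat_lit 305) (nat_lit 258)) (XT.lf (nat_lit 0) (nat_lit 4282957533) (nat_lit 152) (nat_lit 6268721233) (nat_lit 228) (nat_lit 3131940547) (nat_lit 52) (nat_lit 5) (nat_lit 54) (nat_lit 5)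 (nat_lit 55) (nat_lit 5) (nat_lit 338) (nat_lit 305) (nat_lit 257)))) (XT.nd (nat_lit 78) (nat_lit 304) (nat_lit 0) (XT.lf (nat_lit 0) (nat_lit 12342185681) (nat_lit 152) (nat_lit 1638141556) (nat_lit 228) (nat_lit 123409462) (nat_lit 52) (nat_lit 5) (nat_lit 54) (nat_lit 5) (nat_lit 55) (nat_lit 5) (nat_lit 339) (nat_lit 305) (nat_lit 256)) (XT.nd (nat_lit 78) (nat_lit 0) (nat_lit 0) (XT.lf (nat_lit 0) (nat_lit 3049435668) (nat_lit 304) (nat_lit 8235976770) (nat_lit 76) (nat_lit 3251557704) (nat_lit 48) (nat_lit 5) (nat_lit 52) (nat_lit 5) (nat_lit 49) (nat_lit 5) (nat_lit 340) (nat_lit 305) (nat_lit 255)) (XT.lf (nat_lit 0) (nat_lit 6394041607) (nat_lit 304) (nat_lit 252170203) (nat_lit 76) (nat_lit 8344719528) (nat_lit 48) (nat_lit 5) (nat_lit 52) (nat_lit 5) (nat_lit 49) (nat_lit 5) (nat_lit 341) (nat_lit 305) (nat_lit 254))))) (XT.nd (nat_lit 234) (nat_lit 304) (nat_lit 0) (XT.nd (nat_lit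 78) (nat_lit 304) (nat_lit 0) (XT.lf (nat_lit 0) (nat_lit 8340388650) (nat_lit 152) (nat_lit 1657695897) (nat_lit 228) (nat_lit 5464924787) (nat_lit 46) (nat_lit 5) (nat_lit 48) (nat_lit 5) (nat_lit 49) (nat_lit 5) (nat_lit 342) (nat_lit 305) (nat_lit 253)) (XT.nd (nat_lit 78) (nat_lit 76) (nat_lit 0) (XT.lf (nat_lit 0) (nat_lit 1341794336) (nat_lit 228) (nat_lit 12484338687) (nat_lit 304) (nat_lit 2130395731) (nat_lit 43) (nat_lit 5) (nat_lit 46) (nat_lit 5) (nat_lit 47) (nat_lit 5) (nat_lit 343) (nat_lit 305) (nat_lit 252)) (XT.lf (nat_lit 0) (nat_lit 1439642331) (nat_lit 304) (nat_lit 6100889926) (nat_lit 76) (nat_lit 8927513926) (nat_lit 42) (nat_lit 5) (nat_lit 46) (nat_lit 5) (nat_lit 43) (nat_lit 5) (nat_lit 344) (nat_lit 305) (nat_lit 251)))) (XT.nd (nat_lit 78) (nat_lit 152) (nat_lit 0) (XT.lf (nat_lit 0) (nat_lit 2839014479) (nat_lit 152) (nat_lit 2286545903) (nat_lit 228) (nat_lit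 11877408130) (nat_lit 40) (nat_lit 5) (nat_lit 42) (nat_lit 5) (nat_lit 43) (nat_lit 5) (nat_lit 345) (nat_lit 305) (nat_lit 250)) (XT.nd (nat_lit 78) (nat_lit 152) (nat_lit 0) (XT.lf (nat_lit 0) (nat_lit 9116384620) (nat_lit 228) (nat_lit 5229984804) (nat_lit 76) (nat_lit 3212259802) (nat_lit 40) (nat_lit 5) (nat_lit 43) (nat_lit 5) (nat_lit 41) (nat_lit 5) (nat_lit 346) (nat_lit 305) (nat_lit 249)) (XT.lf (nat_lit 0) (nat_lit 4193992658) (nat_lit 152) (nat_lit 9182544065) (nat_lit 228) (nat_lit 4762068618) (nat_lit 38) (nat_lit 5) (nat_lit 40) (nat_lit 5) (nat_lit 41) (nat_lit 5) (nat_lit 347) (nat_lit 305) (nat_lit 248))))))))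
noncomputable def xc115 : XT := (XT.nd (nat_lit 1716) (nat_lit 760) (nat_lit 0) (XT.nd (nat_lit 858) (nat_lit 684) (nat_lit 0) (XT.nd (nat_lit 390) (nat_lit 456) (nat_lit 0) (XT.nd (nat_lit 156) (nat_lit 152) (nat_lit 0) (XT.nd (nat_lit 78) (nat_lit 228) (nat_lit 0) (XT.lf (nat_lit 0) (nat_lit 14218164361) (nat_lit 152) (nat_lit 3687685709) (nat_lit 228) (nat_lit 838943174) (nat_lit 38) (nat_lit 5) (nat_lit 40) (nat_lit 5) (nat_lit 41) (nat_lit 5) (nat_lit 348) (nat_lit 305) (nat_lit 247)) (XT.lf (nat_lit 0) (nat_lit 3263211158) (nat_lit 228) (nat_lit 13976679546) (nat_lit 76) (nat_lit 2134464621) (nat_lit 35) (nat_lit 5) (nat_lit 38) (nat_lit 5) (nat_lit 36) (nat_lit 5) (nat_lit 349) (nat_lit 305) (nat_lit 246))) (XT.nd (nat_lit 78) (nat_lit 152) (nat_lit 0) (XT.lf (nat_lit 0) (nat_lit 7649653885) (nat_lit 228) (nat_lit 4183228798) (nat_lit 76) (nat_lit 8196474286) (nat_lit 35) (nat_lit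 5) (nat_lit 38) (nat_lit 5) (nat_lit 36) (nat_lit 5) (nat_lit 350) (nat_lit 305) (nat_lit 245)) (XT.nd (nat_lit 78) (nat_lit 0) (nat_lit 0) (XT.lf (nat_lit 0) (nat_lit 6250863473) (nat_lit 152) (nat_lit 6072628222) (nat_lit 228) (nat_lit 8390230354) (nat_lit 33) (nat_lit 5) (nat_lit 35) (nat_lit 5) (nat_lit 36) (nat_lit 5) (nat_lit 351) (nat_lit 305) (nat_lit 244)) (XT.lf (nat_lit 0) (nat_lit 17273474990) (nat_lit 228) (nat_lit 4127113529) (nat_lit 76) (nat_lit 29610376) (nat_lit 33) (nat_lit 5) (nat_lit 36) (nat_lit 5) (nat_lit 34) (nat_lit 4) (nat_lit 352) (nat_lit 305) (nat_lit 243))))) (XT.nd (nat_lit 234) (nat_lit 152) (nat_lit 0) (XT.nd (nat_lit 78) (nat_lit 152) (nat_lit 0) (XT.lf (nat_lit 0) (nat_lit 460003533) (nat_lit 152) (nat_lit 15384756163) (nat_lit 76) (nat_lit 6328490484) (nat_lit 31) (nat_lit 5) (nat_lit 33) (nat_lit 5) (nat_lit 32) (nat_lit 5) (nat_lit 353) (nat_lit 305)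 (nat_lit 242)) (XT.nd (nat_lit 78) (nat_lit 152) (nat_lit 0) (XT.lf (nat_lit 0) (nat_lit 5211270905) (nat_lit 152) (nat_lit 4673356982) (nat_lit 76) (nat_lit 13063263144) (nat_lit 31) (nat_lit 5) (nat_lit 33) (nat_lit 5) (nat_lit 32) (nat_lit 5) (nat_lit 354) (nat_lit 305) (nat_lit 241)) (XT.lf (nat_lit 0) (nat_lit 6744453101) (nat_lit 152) (nat_lit 3534620987) (nat_lit 228) (nat_lit 13478254533) (nat_lit 29) (nat_lit 5) (nat_lit 31) (nat_lit 5) (nat_lit 32) (nat_lit 5) (nat_lit 355) (nat_lit 305) (nat_lit 240)))) (XT.nd (nat_lit 78) (nat_lit 152) (nat_lit 0) (XT.lf (nat_lit 0) (nat_lit 15703568961) (nat_lit 228) (nat_lit 5803398425) (nat_lit 76) (nat_lit 3095118314) (nat_lit 29) (nat_lit 5) (nat_lit 32) (nat_lit 5) (nat_lit 30) (nat_lit 4) (nat_lit 356) (nat_lit 305) (nat_lit 239)) (XT.nd (nat_lit 78) (nat_lit 76) (nat_lit 0) (XT.lf (nat_lit 0) (nat_lit 6059394872) (nat_lit 76) (nat_lit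 15467628510) (nat_lit 152) (nat_lit 3955682593) (nat_lit 28) (nat_lit 5) (nat_lit 29) (nat_lit 5) (nat_lit 30) (nat_lit 4) (nat_lit 357) (nat_lit 305) (nat_lit 238)) (XT.lf (nat_lit 0) (nat_lit 1269978139) (nat_lit 152) (nat_lit 7749799688) (nat_lit 76) (nat_lit 17382867359) (nat_lit 27) (nat_lit 5) (nat_lit 29) (nat_lit 5) (nat_lit 28) (nat_lit 5) (nat_lit 358) (nat_lit 305) (nat_lit 237)))))) (XT.nd (nat_lit 390) (nat_lit 380) (nat_lit 0) (XT.nd (nat_lit 156) (nat_lit 152) (nat_lit 0) (XT.nd (nat_lit 78) (nat_lit 0) (nat_lit 0) (XT.lf (nat_lit 0) (nat_lit 4546845261) (nat_lit 152) (nat_lit 2124600588) (nat_lit 228) (nat_lit 20691530541) (nat_lit 25) (nat_lit 5) (nat_lit 27) (nat_lit 5) (nat_lit 28) (nat_lit 5) (nat_lit 359) (nat_lit 305) (nat_lit 236)) (XT.lf (nat_lit 0) (nat_lit 12532935376) (nat_lit 228) (nat_lit 10760845989) (nat_lit 76) (nat_lit 5068055310) (nat_lit 25) (nat_lit 5)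 (nat_lit 28) (nat_lit 5) (nat_lit 26) (nat_lit 4) (nat_lit 360) (nat_lit 305) (nat_lit 235))) (XT.nd (nat_lit 78) (nat_lit 76) (nat_lit 0) (XT.lf (nat_lit 0) (nat_lit 1883175004) (nat_lit 76) (nat_lit 16846351259) (nat_lit 152) (nat_lit 10679021831) (nat_lit 24) (nat_lit 5) (nat_lit 25) (nat_lit 5) (nat_lit 26) (nat_lit 4) (nat_lit 361) (nat_lit 305) (nat_lit 234)) (XT.nd (nat_lit 78) (nat_lit 76) (nat_lit 0) (XT.lf (nat_lit 0) (nat_lit 15494153721) (nat_lit 76) (nat_lit 9902279849) (nat_lit 152) (nat_lit 5103146187) (nat_lit 24) (nat_lit 5) (nat_lit 25) (nat_lit 5) (nat_lit 26) (nat_lit 4) (nat_lit 362) (nat_lit 305) (nat_lit 233)) (XT.lf (nat_lit 0) (nat_lit 706404473) (nat_lit 152) (nat_lit 1908905991) (nat_lit 76) (nat_lit 29030327315) (nat_lit 23) (nat_lit 5) (nat_lit 25) (nat_lit 5) (nat_lit 24) (nat_lit 5) (nat_lit 363) (nat_lit 305) (nat_lit 232))))) (XT.nd (nat_lit 234) (nat_lit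 152) (nat_lit 0) (XT.nd (nat_lit 78) (nat_lit 76) (nat_lit 0) (XT.lf (nat_lit 0) (nat_lit 6886800149) (nat_lit 228) (nat_lit 20808725529) (nat_lit 76) (nat_lit 5136704572) (nat_lit 21) (nat_lit 5) (nat_lit 24) (nat_lit 5) (nat_lit 22) (nat_lit 4) (nat_lit 364) (nat_lit 305) (nat_lit 231)) (XT.nd (nat_lit 78) (nat_lit 76) (nat_lit 0) (XT.lf (nat_lit 0) (nat_lit 13432045013) (nat_lit 228) (nat_lit 7437194022) (nat_lit 76) (nat_lit 13206129257) (nat_lit 21) (nat_lit 5) (nat_lit 24) (nat_lit 5) (nat_lit 22) (nat_lit 4) (nat_lit 365) (nat_lit 305) (nat_lit 230)) (XT.lf (nat_lit 0) (nat_lit 6785754831) (nat_lit 76) (nat_lit 13605786934) (nat_lit 152) (nat_lit 14984779052) (nat_lit 20) (nat_lit 5) (nat_lit 21) (nat_lit 5) (nat_lit 22) (nat_lit 4) (nat_lit 366) (nat_lit 305) (nat_lit 229)))) (XT.nd (nat_lit 78) (nat_lit 152) (nat_lit 0) (XT.lf (nat_lit 0) (nat_lit 21944261912) (nat_lit 76) (nat_lit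 5862123953) (nat_lit 152) (nat_lit 8930573206) (nat_lit 20) (nat_lit 5) (nat_lit 21) (nat_lit 5) (nat_lit 22) (nat_lit 4) (nat_lit 367) (nat_lit 305) (nat_lit 228)) (XT.nd (nat_lit 78) (nat_lit 152) (nat_lit 0) (XT.lf (nat_lit 0) (nat_lit 35609471882) (nat_lit 152) (nat_lit 373203647) (nat_lit 0) (nat_lit 2182085131) (nat_lit 20) (nat_lit 5) (nat_lit 22) (nat_lit 4) (nat_lit 20) (nat_lit 4) (nat_lit 368) (nat_lit 305) (nat_lit 227)) (XT.lf (nat_lit 0) (nat_lit 4326613850) (nat_lit 152) (nat_lit 24594043301) (nat_lit 76) (nat_lit 10724054101) (nat_lit 18) (nat_lit 5) (nat_lit 20) (nat_lit 5) (nat_lit 19) (nat_lit 4) (nat_lit 369) (nat_lit 305) (nat_lit 226))))))) (XT.nd (nat_lit 858) (nat_lit 380) (nat_lit 0) (XT.nd (nat_lit 390) (nat_lit 228) (nat_lit 0) (XT.nd (nat_lit 156) (nat_lit 76) (nat_lit 0) (XT.nd (nat_lit 78) (nat_lit 76) (nat_lit 0) (XT.lf (nat_lit 0) (nat_lit 11456145383) (nat_lit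 152) (nat_lit 10012994079) (nat_lit 76) (nat_lit 19727960534) (nat_lit 18) (nat_lit 5) (nat_lit 20) (nat_lit 5) (nat_lit 19) (nat_lit 4) (nat_lit 370) (nat_lit 305) (nat_lit 225)) (XT.lf (nat_lit 0) (nat_lit 5441412449) (nat_lit 76) (nat_lit 13569491251) (nat_lit 152) (nat_lit 23812772240) (nat_lit 17) (nat_lit 5) (nat_lit 18) (nat_lit 5) (nat_lit 19) (nat_lit 4) (nat_lit 371) (nat_lit 305) (nat_lit 224))) (XT.nd (nat_lit 78) (nat_lit 76) (nat_lit 0) (XT.lf (nat_lit 0) (nat_lit 21986795037) (nat_lit 76) (nat_lit 5110287403) (nat_lit 152) (nat_lit 17426819135) (nat_lit 17) (nat_lit 5) (nat_lit 18) (nat_lit 5) (nat_lit 19) (nat_lit 4) (nat_lit 372) (nat_lit 305) (nat_lit 223)) (XT.nd (nat_lit 78) (nat_lit 76) (nat_lit 0) (XT.lf (nat_lit 0) (nat_lit 35631123627) (nat_lit 152) (nat_lit 7037116527) (nat_lit 0) (nat_lit 3638725445) (nat_lit 17) (nat_lit 5) (nat_lit 19) (nat_lit 4) (nat_lit 17)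 (nat_lit 4) (nat_lit 373) (nat_lit 305) (nat_lit 222)) (XT.lf (nat_lit 0) (nat_lit 9428698616) (nat_lit 76) (nat_lit 35379546099) (nat_lit 76) (nat_lit 3360123769) (nat_lit 16) (nat_lit 4) (nat_lit 17) (nat_lit 5) (nat_lit 17) (nat_lit 4) (nat_lit 374) (nat_lit 305) (nat_lit 221))))) (XT.nd (nat_lit 234) (nat_lit 76) (nat_lit 0) (XT.nd (nat_lit 78) (nat_lit 76) (nat_lit 0) (XT.lf (nat_lit 0) (nat_lit 4289633089) (nat_lit 152) (nat_lit 23251411781) (nat_lit 76) (nat_lit 22573099137) (nat_lit 15) (nat_lit 5) (nat_lit 17) (nat_lit 5) (nat_lit 16) (nat_lit 4) (nat_lit 375) (nat_lit 305) (nat_lit 220)) (XT.nd (nat_lit 78) (nat_lit 76) (nat_lit 0) (XT.lf (nat_lit 0) (nat_lit 12195082464) (nat_lit 152) (nat_lit 7069752260) (nat_lit 76) (nat_lit 32890316971) (nat_lit 15) (nat_lit 5) (nat_lit 17) (nat_lit 5) (nat_lit 16) (nat_lit 4) (nat_lit 376) (nat_lit 305) (nat_lit 219)) (XT.lf (nat_lit 0) (nat_lit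 10223513687) (nat_lit 76) (nat_lit 10418695813) (nat_lit 152) (nat_lit 33648683756) (nat_lit 14) (nat_lit 5) (nat_lit 15) (nat_lit 5) (nat_lit 16) (nat_lit 4) (nat_lit 377) (nat_lit 305) (nat_lit 218)))) (XT.nd (nat_lit 78) (nat_lit 76) (nat_lit 0) (XT.lf (nat_lit 0) (nat_lit 28602594205) (nat_lit 76) (nat_lit 1015865710) (nat_lit 152) (nat_lit 26909627195) (nat_lit 14) (nat_lit 5) (nat_lit 15) (nat_lit 5) (nat_lit 16) (nat_lit 4) (nat_lit 378) (nat_lit 305) (nat_lit 217)) (XT.nd (nat_lit 78) (nat_lit 76) (nat_lit 0) (XT.lf (nat_lit 0) (nat_lit 39169293220) (nat_lit 152) (nat_lit 11138386001) (nat_lit 0) (nat_lit 8563176316) (nat_lit 14) (nat_lit 5) (nat_lit 16) (nat_lit 4) (nat_lit 14) (nat_lit 4) (nat_lit 379) (nat_lit 305) (nat_lit 216)) (XT.lf (nat_lit 0) (nat_lit 6662187807) (nat_lit 76) (nat_lit 42644231364) (nat_lit 76) (nat_lit 12018908901) (nat_lit 13) (nat_lit 4) (nat_lit 14)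 (nat_lit 5) (nat_lit 14) (nat_lit 4) (nat_lit 380) (nat_lit 305) (nat_lit 215)))))) (XT.nd (nat_lit 468) (nat_lit 228) (nat_lit 0) (XT.nd (nat_lit 234) (nat_lit 76) (nat_lit 0) (XT.nd (nat_lit 78) (nat_lit 76) (nat_lit 0) (XT.lf (nat_lit 0) (nat_lit 25717385760) (nat_lit 76) (nat_lit 34409954053) (nat_lit 76) (nat_lit 3766340584) (nat_lit 13) (nat_lit 4) (nat_lit 14) (nat_lit 5) (nat_lit 14) (nat_lit 4) (nat_lit 381) (nat_lit 305) (nat_lit 214)) (XT.nd (nat_lit 78) (nat_lit 0) (nat_lit 0) (XT.lf (nat_lit 0) (nat_lit 4730738085) (nat_lit 152) (nat_lit 20963020401) (nat_lit 76) (nat_lit 40893436607) (nat_lit 12) (nat_lit 5) (nat_lit 14) (nat_lit 5) (nat_lit 13) (nat_lit 4) (nat_lit 382) (nat_lit 305) (nat_lit 213)) (XT.lf (nat_lit 0) (nat_lit 13515312115) (nat_lit 152) (nat_lit 2971234121) (nat_lit 76) (nat_lit 52926294027) (nat_lit 12) (nat_lit 5) (nat_lit 14) (nat_lit 5) (nat_lit 13) (nat_lit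 4) (nat_lit 383) (nat_lit 305) (nat_lit 212)))) (XT.nd (nat_lit 78) (nat_lit 0) (nat_lit 0) (XT.lf (nat_lit 0) (nat_lit 16426454033) (nat_lit 76) (nat_lit 6558852528) (nat_lit 152) (nat_lit 49382154082) (nat_lit 11) (nat_lit 5) (nat_lit 12) (nat_lit 5) (nat_lit 13) (nat_lit 4) (nat_lit 384) (nat_lit 305) (nat_lit 211)) (XT.nd (nat_lit 78) (nat_lit 0) (nat_lit 0) (XT.lf (nat_lit 0) (nat_lit 33030070032) (nat_lit 152) (nat_lit 38650775190) (nat_lit 0) (nat_lit 3783905769) (nat_lit 11) (nat_lit 5) (nat_lit 13) (nat_lit 4) (nat_lit 11) (nat_lit 4) (nat_lit 385) (nat_lit 305) (nat_lit 210)) (XT.lf (nat_lit 0) (nat_lit 43674858704) (nat_lit 152) (nat_lit 20622114691) (nat_lit 0) (nat_lit 14415045410) (nat_lit 11) (nat_lit 5) (nat_lit 13) (nat_lit 4) (nat_lit 11) (nat_lit 4) (nat_lit 386) (nat_lit 305) (nat_lit 209))))) (XT.nd (nat_lit 234) (nat_lit 152) (nat_lit 0) (XT.nd (nat_lit 78) (nat_lit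 76) (nat_lit 0) (XT.lf (nat_lit 0) (nat_lit 54842615244) (nat_lit 152) (nat_lit 1709697661) (nat_lit 0) (nat_lit 25569802872) (nat_lit 11) (nat_lit 5) (nat_lit 13) (nat_lit 4) (nat_lit 11) (nat_lit 4) (nat_lit 387) (nat_lit 305) (nat_lit 208)) (XT.nd (nat_lit 78) (nat_lit 0) (nat_lit 0) (XT.lf (nat_lit 0) (nat_lit 18731014918) (nat_lit 76) (nat_lit 48121358267) (nat_lit 76) (nat_lit 18836165822) (nat_lit 10) (nat_lit 4) (nat_lit 11) (nat_lit 5) (nat_lit 11) (nat_lit 4) (nat_lit 388) (nat_lit 305) (nat_lit 207)) (XT.lf (nat_lit 0) (nat_lit 40236556741) (nat_lit 76) (nat_lit 39246348658) (nat_lit 76) (nat_lit 9949365666) (nat_lit 10) (nat_lit 4) (nat_lit 11) (nat_lit 5) (nat_lit 11) (nat_lit 4) (nat_lit 389) (nat_lit 305) (nat_lit 206)))) (XT.nd (nat_lit 78) (nat_lit 152) (nat_lit 0) (XT.lf (nat_lit 0) (nat_lit 62801601153) (nat_lit 76) (nat_lit 29935107660) (nat_lit 76) (nat_lit 626895577)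 (nat_lit 10) (nat_lit 4) (nat_lit 11) (nat_lit 5) (nat_lit 11) (nat_lit 4) (nat_lit 390) (nat_lit 305) (nat_lit 205)) (XT.nd (nat_lit 78) (nat_lit 76) (nat_lit 0) (XT.lf (nat_lit 0) (nat_lit 8860473533) (nat_lit 152) (nat_lit 11154935712) (nat_lit 76) (nat_lit 77469344509) (nat_lit 9) (nat_lit 5) (nat_lit 11) (nat_lit 5) (nat_lit 10) (nat_lit 4) (nat_lit 391) (nat_lit 305) (nat_lit 204)) (XT.lf (nat_lit 0) (nat_lit 9501762686) (nat_lit 76) (nat_lit 9440117440) (nat_lit 152) (nat_lit 82862531404) (nat_lit 8) (nat_lit 5) (nat_lit 9) (nat_lit 5) (nat_lit 10) (nat_lit 4) (nat_lit 392) (nat_lit 305) (nat_lit 203))))))))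
noncomputable def xc116 : XT := (XT.nd (nat_lit 1716) (nat_lit 152) (nat_lit 0) (XT.nd (nat_lit 858) (nat_lit 152) (nat_lit 0) (XT.nd (nat_lit 390) (nat_lit 76) (nat_lit 0) (XT.nd (nat_lit 156) (nat_lit 76) (nat_lit 0) (XT.nd (nat_lit 78) (nat_lit 0) (nat_lit 0) (XT.lf (nat_lit 0) (nat_lit 29737766496) (nat_lit 152) (nat_lit 74795706655) (nat_lit 0) (nat_lit 1796060129) (nat_lit 8) (nat_lit 5) (nat_lit 10) (nat_lit 4) (nat_lit 8) (nat_lit 4) (nat_lit 393) (nat_lit 305) (nat_lit 202)) (XT.lf (nat_lit 0) (nat_lit 41220983691) (nat_lit 152) (nat_lit 56582073046) (nat_lit 0) (nat_lit 13270479037) (nat_lit 8) (nat_lit 5) (nat_lit 10) (nat_lit 4) (nat_lit 8) (nat_lit 4) (nat_lit 394) (nat_lit 305) (nat_lit 201))) (XT.nd (nat_lit 78) (nat_lit 76) (nat_lit 0) (XT.lf (nat_lit 0) (nat_lit 53271486016) (nat_lit 152) (nat_lit 37470995535) (nat_lit 0) (nat_lit 25312602041) (nat_lit 8) (nat_lit 5) (nat_lit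 10) (nat_lit 4) (nat_lit 8) (nat_lit 4) (nat_lit 395) (nat_lit 305) (nat_lit 200)) (XT.nd (nat_lit 78) (nat_lit 76) (nat_lit 0) (XT.lf (nat_lit 0) (nat_lit 65917965143) (nat_lit 152) (nat_lit 17416971556) (nat_lit 0) (nat_lit 37951100861) (nat_lit 8) (nat_lit 5) (nat_lit 10) (nat_lit 4) (nat_lit 8) (nat_lit 4) (nat_lit 396) (nat_lit 305) (nat_lit 199)) (XT.lf (nat_lit 0) (nat_lit 3747696250) (nat_lit 76) (nat_lit 75501347527) (nat_lit 76) (nat_lit 47526882954) (nat_lit 7) (nat_lit 4) (nat_lit 8) (nat_lit 5) (nat_lit 8) (nat_lit 4) (nat_lit 397) (nat_lit 305) (nat_lit 198))))) (XT.nd (nat_lit 234) (nat_lit 76) (nat_lit 0) (XT.nd (nat_lit 78) (nat_lit 0) (nat_lit 0) (XT.lf (nat_lit 0) (nat_lit 26563461980) (nat_lit 76) (nat_lit 66972055251) (nat_lit 76) (nat_lit 38990352305) (nat_lit 7) (nat_lit 4) (nat_lit 8) (nat_lit 5) (nat_lit 8) (nat_lit 4) (nat_lit 398) (nat_lit 305) (nat_lit 197))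 (XT.nd (nat_lit 78) (nat_lit 0) (nat_lit 0) (XT.lf (nat_lit 0) (nat_lit 50508765145) (nat_lit 76) (nat_lit 58021716874) (nat_lit 76) (nat_lit 30033120240) (nat_lit 7) (nat_lit 4) (nat_lit 8) (nat_lit 5) (nat_lit 8) (nat_lit 4) (nat_lit 399) (nat_lit 305) (nat_lit 196)) (XT.lf (nat_lit 0) (nat_lit 75640618373) (nat_lit 76) (nat_lit 48629022066) (nat_lit 76) (nat_lit 20633860015) (nat_lit 7) (nat_lit 4) (nat_lit 8) (nat_lit 5) (nat_lit 8) (nat_lit 4) (nat_lit 400) (nat_lit 305) (nat_lit 195)))) (XT.nd (nat_lit 78) (nat_lit 76) (nat_lit 0) (XT.lf (nat_lit 0) (nat_lit 102018859410) (nat_lit 76) (nat_lit 38771607269) (nat_lit 76) (nat_lit 10770192439) (nat_lit 7) (nat_lit 4) (nat_lit 8) (nat_lit 5) (nat_lit 8) (nat_lit 4) (nat_lit 401) (nat_lit 305) (nat_lit 194)) (XT.nd (nat_lit 78) (nat_lit 76) (nat_lit 0) (XT.lf (nat_lit 0) (nat_lit 129706293591) (nat_lit 76) (nat_lit 28426002447) (nat_lit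 76) (nat_lit 418632591) (nat_lit 7) (nat_lit 4) (nat_lit 8) (nat_lit 5) (nat_lit 8) (nat_lit 4) (nat_lit 402) (nat_lit 305) (nat_lit 193)) (XT.lf (nat_lit 0) (nat_lit 10111145953) (nat_lit 152) (nat_lit 7285192106) (nat_lit 76) (nat_lit 148486460275) (nat_lit 6) (nat_lit 5) (nat_lit 8) (nat_lit 5) (nat_lit 7) (nat_lit 4) (nat_lit 403) (nat_lit 305) (nat_lit 192)))))) (XT.nd (nat_lit 390) (nat_lit 76) (nat_lit 0) (XT.nd (nat_lit 156) (nat_lit 0) (nat_lit 0) (XT.nd (nat_lit 78) (nat_lit 0) (nat_lit 0) (XT.lf (nat_lit 0) (nat_lit 15843480663) (nat_lit 76) (nat_lit 5552579512) (nat_lit 152) (nat_lit 152172723298) (nat_lit 5) (nat_lit 5) (nat_lit 6) (nat_lit 5) (nat_lit 7) (nat_lit 4) (nat_lit 404) (nat_lit 305) (nat_lit 191)) (XT.lf (nat_lit 0) (nat_lit 33473460896) (nat_lit 152) (nat_lit 141369865218) (nat_lit 0) (nat_lit 6784330541) (nat_lit 5) (nat_lit 5) (nat_lit 7) (nat_lit 4) (nat_lit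 5) (nat_lit 4) (nat_lit 405) (nat_lit 305) (nat_lit 190))) (XT.nd (nat_lit 78) (nat_lit 0) (nat_lit 0) (XT.lf (nat_lit 0) (nat_lit 46241349253) (nat_lit 152) (nat_lit 124296241170) (nat_lit 0) (nat_lit 19547552979) (nat_lit 5) (nat_lit 5) (nat_lit 7) (nat_lit 4) (nat_lit 5) (nat_lit 4) (nat_lit 406) (nat_lit 305) (nat_lit 189)) (XT.nd (nat_lit 78) (nat_lit 0) (nat_lit 0) (XT.lf (nat_lit 0) (nat_lit 59643433653) (nat_lit 152) (nat_lit 106377087855) (nat_lit 0) (nat_lit 32945193646) (nat_lit 5) (nat_lit 5) (nat_lit 7) (nat_lit 4) (nat_lit 5) (nat_lit 4) (nat_lit 407) (nat_lit 305) (nat_lit 188)) (XT.lf (nat_lit 0) (nat_lit 73711623821) (nat_lit 152) (nat_lit 87569740622) (nat_lit 0) (nat_lit 47009151687) (nat_lit 5) (nat_lit 5) (nat_lit 7) (nat_lit 4) (nat_lit 5) (nat_lit 4) (nat_lit 408) (nat_lit 305) (nat_lit 187))))) (XT.nd (nat_lit 234) (nat_lit 76) (nat_lit 0) (XT.nd (nat_lit 78) (nat_lit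 0) (nat_lit 0) (XT.lf (nat_lit 0) (nat_lit 88479415447) (nat_lit 152) (nat_lit 67829420072) (nat_lit 0) (nat_lit 61772912716) (nat_lit 5) (nat_lit 5) (nat_lit 7) (nat_lit 4) (nat_lit 5) (nat_lit 4) (nat_lit 409) (nat_lit 305) (nat_lit 186)) (XT.nd (nat_lit 78) (nat_lit 0) (nat_lit 0) (XT.lf (nat_lit 0) (nat_lit 103981969940) (nat_lit 152) (nat_lit 47109125442) (nat_lit 0) (nat_lit 77271628546) (nat_lit 5) (nat_lit 5) (nat_lit 7) (nat_lit 4) (nat_lit 5) (nat_lit 4) (nat_lit 410) (nat_lit 305) (nat_lit 185)) (XT.lf (nat_lit 0) (nat_lit 120256198145) (nat_lit 152) (nat_lit 25359522698) (nat_lit 0) (nat_lit 93542200881) (nat_lit 5) (nat_lit 5) (nat_lit 7) (nat_lit 4) (nat_lit 5) (nat_lit 4) (nat_lit 411) (nat_lit 305) (nat_lit 184)))) (XT.nd (nat_lit 78) (nat_lit 76) (nat_lit 0) (XT.lf (nat_lit 0) (nat_lit 137340848223) (nat_lit 152) (nat_lit 2528827071) (nat_lit 0) (nat_lit 110623369178) (nat_lit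 5) (nat_lit 5) (nat_lit 7) (nat_lit 4) (nat_lit 5) (nat_lit 4) (nat_lit 412) (nat_lit 305) (nat_lit 183)) (XT.nd (nat_lit 78) (nat_lit 0) (nat_lit 0) (XT.lf (nat_lit 0) (nat_lit 22146134858) (nat_lit 76) (nat_lit 133476226284) (nat_lit 76) (nat_lit 106755431257) (nat_lit 4) (nat_lit 4) (nat_lit 5) (nat_lit 5) (nat_lit 5) (nat_lit 4) (nat_lit 413) (nat_lit 305) (nat_lit 182)) (XT.lf (nat_lit 0) (nat_lit 48136655066) (nat_lit 76) (nat_lit 126721044403) (nat_lit 76) (nat_lit 99997091298) (nat_lit 4) (nat_lit 4) (nat_lit 5) (nat_lit 5) (nat_lit 5) (nat_lit 4) (nat_lit 414) (nat_lit 305) (nat_lit 181))))))) (XT.nd (nat_lit 858) (nat_lit 76) (nat_lit 0) (XT.nd (nat_lit 390) (nat_lit 76) (nat_lit 0) (XT.nd (nat_lit 156) (nat_lit 0) (nat_lit 0) (XT.nd (nat_lit 78) (nat_lit 0) (nat_lit 0) (XT.lf (nat_lit 0) (nat_lit 75421001298) (nat_lit 76) (nat_lit 119630872796) (nat_lit 76) (nat_lit 92903911997)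 (nat_lit 4) (nat_lit 4) (nat_lit 5) (nat_lit 5) (nat_lit 5) (nat_lit 4) (nat_lit 415) (nat_lit 305) (nat_lit 180)) (XT.lf (nat_lit 0) (nat_lit 104064136284) (nat_lit 76) (nat_lit 112188830101) (nat_lit 76) (nat_lit 85459004832) (nat_lit 4) (nat_lit 4) (nat_lit 5) (nat_lit 5) (nat_lit 5) (nat_lit 4) (nat_lit 416) (nat_lit 305) (nat_lit 179))) (XT.nd (nat_lit 78) (nat_lit 0) (nat_lit 0) (XT.lf (nat_lit 0) (nat_lit 134134257965) (nat_lit 76) (nat_lit 104377197169) (nat_lit 76) (nat_lit 77644643834) (nat_lit 4) (nat_lit 4) (nat_lit 5) (nat_lit 5) (nat_lit 5) (nat_lit 4) (nat_lit 417) (nat_lit 305) (nat_lit 178)) (XT.nd (nat_lit 78) (nat_lit 0) (nat_lit 0) (XT.lf (nat_lit 0) (nat_lit 165702961868) (nat_lit 76) (nat_lit 96177374874) (nat_lit 76) (nat_lit 69442223380) (nat_lit 4) (nat_lit 4) (nat_lit 5) (nat_lit 5) (nat_lit 5) (nat_lit 4) (nat_lit 418) (nat_lit 305) (nat_lit 177)) (XT.lf (nat_lit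 0) (nat_lit 198845411574) (nat_lit 76) (nat_lit 87569839829) (nat_lit 76) (nat_lit 60832213899) (nat_lit 4) (nat_lit 4) (nat_lit 5) (nat_lit 5) (nat_lit 5) (nat_lit 4) (nat_lit 419) (nat_lit 305) (nat_lit 176))))) (XT.nd (nat_lit 234) (nat_lit 76) (nat_lit 0) (XT.nd (nat_lit 78) (nat_lit 0) (nat_lit 0) (XT.lf (nat_lit 0) (nat_lit 233640517678) (nat_lit 76) (nat_lit 78534097904) (nat_lit 76) (nat_lit 51794115367) (nat_lit 4) (nat_lit 4) (nat_lit 5) (nat_lit 5) (nat_lit 5) (nat_lit 4) (nat_lit 420) (nat_lit 305) (nat_lit 175)) (XT.nd (nat_lit 78) (nat_lit 0) (nat_lit 0) (XT.lf (nat_lit 0) (nat_lit 270171125670) (nat_lit 76) (nat_lit 69048635428) (nat_lit 76) (nat_lit 42306408503) (nat_lit 4) (nat_lit 4) (nat_lit 5) (nat_lit 5) (nat_lit 5) (nat_lit 4) (nat_lit 421) (nat_lit 305) (nat_lit 174)) (XT.lf (nat_lit 0) (nat_lit 308524213188) (nat_lit 76) (nat_lit 59090867965) (nat_lit 76) (nat_lit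 32346503529) (nat_lit 4) (nat_lit 4) (nat_lit 5) (nat_lit 5) (nat_lit 5) (nat_lit 4) (nat_lit 422) (nat_lit 305) (nat_lit 173)))) (XT.nd (nat_lit 78) (nat_lit 76) (nat_lit 0) (XT.lf (nat_lit 0) (nat_lit 348791097107) (nat_lit 76) (nat_lit 48637086546) (nat_lit 76) (nat_lit 21890686385) (nat_lit 4) (nat_lit 4) (nat_lit 5) (nat_lit 5) (nat_lit 5) (nat_lit 4) (nat_lit 423) (nat_lit 305) (nat_lit 172)) (XT.nd (nat_lit 78) (nat_lit 76) (nat_lit 0) (XT.lf (nat_lit 0) (nat_lit 391067650961) (nat_lit 76) (nat_lit 37662401214) (nat_lit 76) (nat_lit 10914062267) (nat_lit 4) (nat_lit 4) (nat_lit 5) (nat_lit 5) (nat_lit 5) (nat_lit 4) (nat_lit 424) (nat_lit 305) (nat_lit 171)) (XT.lf (nat_lit 0) (nat_lit 589995718) (nat_lit 152) (nat_lit 25540694186) (nat_lit 76) (nat_lit 434854545630) (nat_lit 3) (nat_lit 5) (nat_lit 5) (nat_lit 5) (nat_lit 4) (nat_lit 4) (nat_lit 425) (nat_lit 305) (nat_lit 170))))))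 (XT.nd (nat_lit 37518) (nat_lit 0) (nat_lit 9956) (XT.nd (nat_lit 234) (nat_lit 0) (nat_lit 0) (XT.nd (nat_lit 78) (nat_lit 76) (nat_lit 0) (XT.lf (nat_lit 0) (nat_lit 12300730696) (nat_lit 152) (nat_lit 1535446018) (nat_lit 76) (nat_lit 469548377388) (nat_lit 3) (nat_lit 5) (nat_lit 5) (nat_lit 5) (nat_lit 4) (nat_lit 4) (nat_lit 426) (nat_lit 305) (nat_lit 169)) (XT.nd (nat_lit 78) (nat_lit 0) (nat_lit 0) (XT.lf (nat_lit 0) (nat_lit 24449367936) (nat_lit 76) (nat_lit 527698735) (nat_lit 152) (nat_lit 481907768982) (nat_lit 2) (nat_lit 5) (nat_lit 3) (nat_lit 5) (nat_lit 4) (nat_lit 4) (nat_lit 427) (nat_lit 305) (nat_lit 168)) (XT.lf (nat_lit 0) (nat_lit 38521928499) (nat_lit 152) (nat_lit 479985695076) (nat_lit 0) (nat_lit 13040772512) (nat_lit 2) (nat_lit 5) (nat_lit 4) (nat_lit 4) (nat_lit 2) (nat_lit 4) (nat_lit 428) (nat_lit 305) (nat_lit 167)))) (XT.nd (nat_lit 78) (nat_lit 0) (nat_lit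 0) (XT.lf (nat_lit 0) (nat_lit 52751109292) (nat_lit 152) (nat_lit 477425165146) (nat_lit 0) (nat_lit 27268506554) (nat_lit 2) (nat_lit 5) (nat_lit 4) (nat_lit 4) (nat_lit 2) (nat_lit 4) (nat_lit 429) (nat_lit 305) (nat_lit 166)) (XT.nd (nat_lit 78) (nat_lit 0) (nat_lit 0) (XT.lf (nat_lit 0) (nat_lit 67690249198) (nat_lit 152) (nat_lit 474739542573) (nat_lit 0) (nat_lit 42206268600) (nat_lit 2) (nat_lit 5) (nat_lit 4) (nat_lit 4) (nat_lit 2) (nat_lit 4) (nat_lit 430) (nat_lit 305) (nat_lit 165)) (XT.lf (nat_lit 0) (nat_lit 83374917595) (nat_lit 152) (nat_lit 471922433018) (nat_lit 0) (nat_lit 57889624751) (nat_lit 2) (nat_lit 5) (nat_lit 4) (nat_lit 4) (nat_lit 2) (nat_lit 4) (nat_lit 431) (nat_lit 305) (nat_lit 164))))) (XT.nd (nat_lit 234) (nat_lit 0) (nat_lit 0) (XT.nd (nat_lit 78) (nat_lit 456) (nat_lit 0) (XT.lf (nat_lit 0) (nat_lit 871884088) (nat_lit 0) (nat_lit 871884088) (nat_lit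 380) (nat_lit 1687924874) (nat_lit 139) (nat_lit 5) (nat_lit 139) (nat_lit 3) (nat_lit 144) (nat_lit 3) (nat_lit 306) (nat_lit 306) (nat_lit 288)) (XT.nd (nat_lit 78) (nat_lit 456) (nat_lit 0) (XT.lf (nat_lit 0) (nat_lit 5103359090) (nat_lit 0) (nat_lit 341048490) (nat_lit 380) (nat_lit 1493721274) (nat_lit 139) (nat_lit 5) (nat_lit 139) (nat_lit 3) (nat_lit 144) (nat_lit 3) (nat_lit 307) (nat_lit 306) (nat_lit 287)) (XT.lf (nat_lit 0) (nat_lit 389203663) (nat_lit 456) (nat_lit 5446668277) (nat_lit 532) (nat_lit 1184458165) (nat_lit 133) (nat_lit 5) (nat_lit 139) (nat_lit 5) (nat_lit 140) (nat_lit 5) (nat_lit 308) (nat_lit 306) (nat_lit 286)))) (XT.nd (nat_lit 78) (nat_lit 0) (nat_lit 0) (XT.lf (nat_lit 0) (nat_lit 2237057204) (nat_lit 456) (nat_lit 1989392753) (nat_lit 532) (nat_lit 2883112994) (nat_lit 133) (nat_lit 5) (nat_lit 139) (nat_lit 5) (nat_lit 140) (nat_lit 5) (nat_lit 309)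 (nat_lit 306) (nat_lit 285)) (XT.nd (nat_lit 78) (nat_lit 0) (nat_lit 0) (XT.lf (nat_lit 76) (nat_lit 1626193508) (nat_lit 0) (nat_lit 2465840424) (nat_lit 532) (nat_lit 3115672655) (nat_lit 134) (nat_lit 5) (nat_lit 133) (nat_lit 5) (nat_lit 140) (nat_lit 5) (nat_lit 310) (nat_lit 306) (nat_lit 284)) (XT.lf (nat_lit 76) (nat_lit 5426099138) (nat_lit 0) (nat_lit 540939169) (nat_lit 532) (nat_lit 1347531988) (nat_lit 134) (nat_lit 5) (nat_lit 133) (nat_lit 5) (nat_lit 140) (nat_lit 5) (nat_lit 311) (nat_lit 306) (nat_lit 283))))))))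
noncomputable def xc117 : XT := (XT.nd (nat_lit 1716) (nat_lit 2432) (nat_lit 0) (XT.nd (nat_lit 858) (nat_lit 2356) (nat_lit 0) (XT.nd (nat_lit 390) (nat_lit 2204) (nat_lit 0) (XT.nd (nat_lit 156) (nat_lit 456) (nat_lit 0) (XT.nd (nat_lit 78) (nat_lit 0) (nat_lit 0) (XT.lf (nat_lit 0) (nat_lit 444773794) (nat_lit 532) (nat_lit 5475856056) (nat_lit 608) (nat_lit 1508307881) (nat_lit 127) (nat_lit 5) (nat_lit 134) (nat_lit 5) (nat_lit 135) (nat_lit 5) (nat_lit 312) (nat_lit 306) (nat_lit 282)) (XT.lf (nat_lit 0) (nat_lit 2224049350) (nat_lit 532) (nat_lit 1597198635) (nat_lit 608) (nat_lit 3729691755) (nat_lit 127) (nat_lit 5) (nat_lit 134) (nat_lit 5) (nat_lit 135) (nat_lit 5) (nat_lit 313) (nat_lit 306) (nat_lit 281))) (XT.nd (nat_lit 78) (nat_lit 456) (nat_lit 0) (XT.lf (nat_lit 76) (nat_lit 2487810493) (nat_lit 0) (nat_lit 1549287567) (nat_lit 608) (nat_lit 3644848797) (nat_lit 128)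 (nat_lit 5) (nat_lit 127) (nat_lit 5) (nat_lit 135) (nat_lit 5) (nat_lit 314) (nat_lit 306) (nat_lit 280)) (XT.nd (nat_lit 78) (nat_lit 532) (nat_lit 0) (XT.lf (nat_lit 0) (nat_lit 5891143511) (nat_lit 532) (nat_lit 1070303133) (nat_lit 76) (nat_lit 860679022) (nat_lit 128) (nat_lit 5) (nat_lit 135) (nat_lit 5) (nat_lit 129) (nat_lit 5) (nat_lit 315) (nat_lit 306) (nat_lit 279)) (XT.lf (nat_lit 0) (nat_lit 3271240378) (nat_lit 532) (nat_lit 4557212728) (nat_lit 608) (nat_lit 141464171) (nat_lit 121) (nat_lit 5) (nat_lit 128) (nat_lit 5) (nat_lit 129) (nat_lit 5) (nat_lit 316) (nat_lit 306) (nat_lit 278))))) (XT.nd (nat_lit 234) (nat_lit 836) (nat_lit 0) (XT.nd (nat_lit 78) (nat_lit 1292) (nat_lit 0) (XT.lf (nat_lit 0) (nat_lit 1616001351) (nat_lit 608) (nat_lit 354195854) (nat_lit 76) (nat_lit 6156960392) (nat_lit 120) (nat_lit 5) (nat_lit 128) (nat_lit 5) (nat_lit 121) (nat_lit 5) (nat_lit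 317) (nat_lit 306) (nat_lit 277)) (XT.nd (nat_lit 78) (nat_lit 684) (nat_lit 0) (XT.lf (nat_lit 0) (nat_lit 3456020318) (nat_lit 684) (nat_lit 4030180807) (nat_lit 76) (nat_lit 806085124) (nat_lit 112) (nat_lit 5) (nat_lit 121) (nat_lit 5) (nat_lit 113) (nat_lit 5) (nat_lit 318) (nat_lit 306) (nat_lit 276)) (XT.lf (nat_lit 0) (nat_lit 572688673) (nat_lit 684) (nat_lit 4785363146) (nat_lit 760) (nat_lit 3109227495) (nat_lit 103) (nat_lit 5) (nat_lit 112) (nat_lit 5) (nat_lit 113) (nat_lit 5) (nat_lit 319) (nat_lit 306) (nat_lit 275)))) (XT.nd (nat_lit 78) (nat_lit 836) (nat_lit 0) (XT.lf (nat_lit 0) (nat_lit 5477348058) (nat_lit 684) (nat_lit 1871381292) (nat_lit 760) (nat_lit 1302718848) (nat_lit 103) (nat_lit 5) (nat_lit 112) (nat_lit 5) (nat_lit 113) (nat_lit 5) (nat_lit 320) (nat_lit 306) (nat_lit 274)) (XT.nd (nat_lit 78) (nat_lit 0) (nat_lit 0) (XT.lf (nat_lit 0) (nat_lit 549429502)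 (nat_lit 836) (nat_lit 7103907387) (nat_lit 76) (nat_lit 1192402140) (nat_lit 92) (nat_lit 5) (nat_lit 103) (nat_lit 5) (nat_lit 93) (nat_lit 5) (nat_lit 321) (nat_lit 306) (nat_lit 273)) (XT.lf (nat_lit 0) (nat_lit 2465774256) (nat_lit 836) (nat_lit 2156280500) (nat_lit 76) (nat_lit 4425942712) (nat_lit 92) (nat_lit 5) (nat_lit 103) (nat_lit 5) (nat_lit 93) (nat_lit 5) (nat_lit 322) (nat_lit 306) (nat_lit 272)))))) (XT.nd (nat_lit 390) (nat_lit 1216) (nat_lit 0) (XT.nd (nat_lit 156) (nat_lit 760) (nat_lit 0) (XT.nd (nat_lit 78) (nat_lit 0) (nat_lit 0) (XT.lf (nat_lit 0) (nat_lit 3070266094) (nat_lit 380) (nat_lit 1388990705) (nat_lit 456) (nat_lit 4802131060) (nat_lit 87) (nat_lit 5) (nat_lit 92) (nat_lit 5) (nat_lit 93) (nat_lit 5) (nat_lit 323) (nat_lit 306) (nat_lit 271)) (XT.lf (nat_lit 0) (nat_lit 6556358485) (nat_lit 456) (nat_lit 951473280) (nat_lit 76) (nat_lit 1977499762) (nat_lit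 87) (nat_lit 5) (nat_lit 93) (nat_lit 5) (nat_lit 88) (nat_lit 5) (nat_lit 324) (nat_lit 306) (nat_lit 270))) (XT.nd (nat_lit 78) (nat_lit 456) (nat_lit 0) (XT.lf (nat_lit 0) (nat_lit 4609256138) (nat_lit 304) (nat_lit 4182377337) (nat_lit 380) (nat_lit 927250143) (nat_lit 83) (nat_lit 5) (nat_lit 87) (nat_lit 5) (nat_lit 88) (nat_lit 5) (nat_lit 325) (nat_lit 306) (nat_lit 269)) (XT.nd (nat_lit 78) (nat_lit 0) (nat_lit 0) (XT.lf (nat_lit 0) (nat_lit 446775630) (nat_lit 380) (nat_lit 652997243) (nat_lit 456) (nat_lit 8865353150) (nat_lit 77) (nat_lit 5) (nat_lit 82) (nat_lit 5) (nat_lit 83) (nat_lit 5) (nat_lit 326) (nat_lit 306) (nat_lit 268)) (XT.lf (nat_lit 0) (nat_lit 3273806698) (nat_lit 456) (nat_lit 3893730130) (nat_lit 76) (nat_lit 3051609259) (nat_lit 77) (nat_lit 5) (nat_lit 83) (nat_lit 5) (nat_lit 78) (nat_lit 5) (nat_lit 327) (nat_lit 306) (nat_lit 267))))) (XT.nd (nat_lit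 234) (nat_lit 608) (nat_lit 0) (XT.nd (nat_lit 78) (nat_lit 304) (nat_lit 0) (XT.lf (nat_lit 0) (nat_lit 2000209842) (nat_lit 304) (nat_lit 3542271042) (nat_lit 380) (nat_lit 4944152808) (nat_lit 73) (nat_lit 5) (nat_lit 77) (nat_lit 5) (nat_lit 78) (nat_lit 5) (nat_lit 328) (nat_lit 306) (nat_lit 266)) (XT.nd (nat_lit 78) (nat_lit 304) (nat_lit 0) (XT.lf (nat_lit 0) (nat_lit 7941253556) (nat_lit 380) (nat_lit 2512173978) (nat_lit 76) (nat_lit 313295354) (nat_lit 73) (nat_lit 5) (nat_lit 78) (nat_lit 5) (nat_lit 74) (nat_lit 5) (nat_lit 329) (nat_lit 306) (nat_lit 265)) (XT.lf (nat_lit 0) (nat_lit 3759427418) (nat_lit 304) (nat_lit 6765412888) (nat_lit 380) (nat_lit 532790037) (nat_lit 69) (nat_lit 5) (nat_lit 73) (nat_lit 5) (nat_lit 74) (nat_lit 5) (nat_lit 330) (nat_lit 306) (nat_lit 264)))) (XT.nd (nat_lit 78) (nat_lit 532) (nat_lit 0) (XT.lf (nat_lit 0) (nat_lit 1806493840) (nat_lit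 380) (nat_lit 1023431703) (nat_lit 76) (nat_lit 8532148164) (nat_lit 68) (nat_lit 5) (nat_lit 73) (nat_lit 5) (nat_lit 69) (nat_lit 5) (nat_lit 331) (nat_lit 306) (nat_lit 263)) (XT.nd (nat_lit 78) (nat_lit 304) (nat_lit 0) (XT.lf (nat_lit 0) (nat_lit 4306368265) (nat_lit 304) (nat_lit 6024335769) (nat_lit 76) (nat_lit 1347571644) (nat_lit 65) (nat_lit 5) (nat_lit 69) (nat_lit 5) (nat_lit 66) (nat_lit 5) (nat_lit 332) (nat_lit 306) (nat_lit 262)) (XT.lf (nat_lit 0) (nat_lit 601355905) (nat_lit 304) (nat_lit 6355628206) (nat_lit 380) (nat_lit 5052063617) (nat_lit 61) (nat_lit 5) (nat_lit 65) (nat_lit 5) (nat_lit 66) (nat_lit 5) (nat_lit 333) (nat_lit 306) (nat_lit 261))))))) (XT.nd (nat_lit 858) (nat_lit 1064) (nat_lit 0) (XT.nd (nat_lit 390) (nat_lit 836) (nat_lit 0) (XT.nd (nat_lit 156) (nat_lit 228) (nat_lit 0) (XT.nd (nat_lit 78) (nat_lit 304) (nat_lit 0) (XT.lf (nat_lit 0) (nat_lit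 7705986555) (nat_lit 304) (nat_lit 2089828312) (nat_lit 380) (nat_lit 2557804414) (nat_lit 61) (nat_lit 5) (nat_lit 65) (nat_lit 5) (nat_lit 66) (nat_lit 5) (nat_lit 334) (nat_lit 306) (nat_lit 260)) (XT.lf (nat_lit 0) (nat_lit 90562351) (nat_lit 304) (nat_lit 10285059871) (nat_lit 76) (nat_lit 2338222737) (nat_lit 57) (nat_lit 5) (nat_lit 61) (nat_lit 5) (nat_lit 58) (nat_lit 5) (nat_lit 335) (nat_lit 306) (nat_lit 259))) (XT.nd (nat_lit 78) (nat_lit 228) (nat_lit 0) (XT.lf (nat_lit 0) (nat_lit 2855722754) (nat_lit 304) (nat_lit 3206355207) (nat_lit 76) (nat_lit 7024429651) (nat_lit 57) (nat_lit 5) (nat_lit 61) (nat_lit 5) (nat_lit 58) (nat_lit 5) (nat_lit 336) (nat_lit 306) (nat_lit 258)) (XT.nd (nat_lit 78) (nat_lit 0) (nat_lit 0) (XT.lf (nat_lit 0) (nat_lit 4305903480) (nat_lit 228) (nat_lit 1478631187) (nat_lit 304) (nat_lit 7692036167) (nat_lit 54) (nat_lit 5) (nat_lit 57) (nat_lit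 5) (nat_lit 58) (nat_lit 5) (nat_lit 337) (nat_lit 306) (nat_lit 257)) (XT.lf (nat_lit 0) (nat_lit 8926037853) (nat_lit 304) (nat_lit 1690345230) (nat_lit 76) (nat_lit 3266476942) (nat_lit 54) (nat_lit 5) (nat_lit 58) (nat_lit 5) (nat_lit 55) (nat_lit 5) (nat_lit 338) (nat_lit 306) (nat_lit 256))))) (XT.nd (nat_lit 234) (nat_lit 380) (nat_lit 0) (XT.nd (nat_lit 78) (nat_lit 304) (nat_lit 0) (XT.lf (nat_lit 0) (nat_lit 6284641384) (nat_lit 152) (nat_lit 6023294032) (nat_lit 228) (nat_lit 1997395961) (nat_lit 52) (nat_lit 5) (nat_lit 54) (nat_lit 5) (nat_lit 55) (nat_lit 5) (nat_lit 339) (nat_lit 306) (nat_lit 255)) (XT.nd (nat_lit 78) (nat_lit 228) (nat_lit 0) (XT.lf (nat_lit 0) (nat_lit 1064869353) (nat_lit 228) (nat_lit 104894476) (nat_lit 76) (nat_lit 13578806748) (nat_lit 51) (nat_lit 5) (nat_lit 54) (nat_lit 5) (nat_lit 52) (nat_lit 5) (nat_lit 340) (nat_lit 306) (nat_lit 254)) (XT.lf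 (nat_lit 0) (nat_lit 4370950888) (nat_lit 304) (nat_lit 6882911833) (nat_lit 76) (nat_lit 3950609454) (nat_lit 48) (nat_lit 5) (nat_lit 52) (nat_lit 5) (nat_lit 49) (nat_lit 5) (nat_lit 341) (nat_lit 306) (nat_lit 253)))) (XT.nd (nat_lit 78) (nat_lit 228) (nat_lit 0) (XT.lf (nat_lit 0) (nat_lit 1462864736) (nat_lit 152) (nat_lit 6387093070) (nat_lit 228) (nat_lit 7832857676) (nat_lit 46) (nat_lit 5) (nat_lit 48) (nat_lit 5) (nat_lit 49) (nat_lit 5) (nat_lit 342) (nat_lit 306) (nat_lit 252)) (XT.nd (nat_lit 78) (nat_lit 228) (nat_lit 0) (XT.lf (nat_lit 0) (nat_lit 10411120683) (nat_lit 152) (nat_lit 1173044038) (nat_lit 228) (nat_lit 4596875124) (nat_lit 46) (nat_lit 5) (nat_lit 48) (nat_lit 5) (nat_lit 49) (nat_lit 5) (nat_lit 343) (nat_lit 306) (nat_lit 251)) (XT.lf (nat_lit 0) (nat_lit 3081436873) (nat_lit 228) (nat_lit 12505008214) (nat_lit 304) (nat_lit 1113687303) (nat_lit 43) (nat_lit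 5) (nat_lit 46) (nat_lit 5) (nat_lit 47) (nat_lit 5) (nat_lit 344) (nat_lit 306) (nat_lit 250)))))) (XT.nd (nat_lit 468) (nat_lit 456) (nat_lit 0) (XT.nd (nat_lit 234) (nat_lit 380) (nat_lit 0) (XT.nd (nat_lit 78) (nat_lit 152) (nat_lit 0) (XT.lf (nat_lit 0) (nat_lit 2547127207) (nat_lit 304) (nat_lit 4778087868) (nat_lit 76) (nat_lit 9913757570) (nat_lit 42) (nat_lit 5) (nat_lit 46) (nat_lit 5) (nat_lit 43) (nat_lit 5) (nat_lit 345) (nat_lit 306) (nat_lit 249)) (XT.nd (nat_lit 78) (nat_lit 0) (nat_lit 0) (XT.lf (nat_lit 0) (nat_lit 4582556167) (nat_lit 152) (nat_lit 1810480662) (nat_lit 228) (nat_lit 11408852846) (nat_lit 40) (nat_lit 5) (nat_lit 42) (nat_lit 5) (nat_lit 43) (nat_lit 5) (nat_lit 346) (nat_lit 306) (nat_lit 248)) (XT.lf (nat_lit 0) (nat_lit 10544028717) (nat_lit 228) (nat_lit 3926150191) (nat_lit 76) (nat_lit 3917154972) (nat_lit 40) (nat_lit 5) (nat_lit 43) (nat_lit 5)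 (nat_lit 41) (nat_lit 5) (nat_lit 347) (nat_lit 306) (nat_lit 247)))) (XT.nd (nat_lit 78) (nat_lit 228) (nat_lit 0) (XT.lf (nat_lit 0) (nat_lit 5943778823) (nat_lit 152) (nat_lit 9051177294) (nat_lit 228) (nat_lit 4002494564) (nat_lit 38) (nat_lit 5) (nat_lit 40) (nat_lit 5) (nat_lit 41) (nat_lit 5) (nat_lit 348) (nat_lit 306) (nat_lit 246)) (XT.nd (nat_lit 78) (nat_lit 152) (nat_lit 0) (XT.lf (nat_lit 0) (nat_lit 67061349) (nat_lit 228) (nat_lit 3241497715) (nat_lit 76) (nat_lit 16327624592) (nat_lit 37) (nat_lit 5) (nat_lit 40) (nat_lit 5) (nat_lit 38) (nat_lit 5) (nat_lit 349) (nat_lit 306) (nat_lit 245)) (XT.lf (nat_lit 0) (nat_lit 4334308622) (nat_lit 228) (nat_lit 13165460413) (nat_lit 76) (nat_lit 2797384331) (nat_lit 35) (nat_lit 5) (nat_lit 38) (nat_lit 5) (nat_lit 36) (nat_lit 5) (nat_lit 350) (nat_lit 306) (nat_lit 244))))) (XT.nd (nat_lit 234) (nat_lit 304) (nat_lit 0) (XT.nd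 (nat_lit 78) (nat_lit 152) (nat_lit 0) (XT.lf (nat_lit 0) (nat_lit 8896838395) (nat_lit 228) (nat_lit 2954244418) (nat_lit 76) (nat_lit 9136008933) (nat_lit 35) (nat_lit 5) (nat_lit 38) (nat_lit 5) (nat_lit 36) (nat_lit 5) (nat_lit 351) (nat_lit 306) (nat_lit 243)) (XT.nd (nat_lit 78) (nat_lit 0) (nat_lit 0) (XT.lf (nat_lit 0) (nat_lit 7978356566) (nat_lit 152) (nat_lit 5806926586) (nat_lit 228) (nat_lit 7921369889) (nat_lit 33) (nat_lit 5) (nat_lit 35) (nat_lit 5) (nat_lit 36) (nat_lit 5) (nat_lit 352) (nat_lit 306) (nat_lit 242)) (XT.lf (nat_lit 0) (nat_lit 18950963745) (nat_lit 228) (nat_lit 2953644305) (nat_lit 76) (nat_lit 555958356) (nat_lit 33) (nat_lit 5) (nat_lit 36) (nat_lit 5) (nat_lit 34) (nat_lit 4) (nat_lit 353) (nat_lit 306) (nat_lit 241)))) (XT.nd (nat_lit 78) (nat_lit 152) (nat_lit 0) (XT.lf (nat_lit 0) (nat_lit 1292730893) (nat_lit 152) (nat_lit 14769241384) (nat_lit 76)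 (nat_lit 7179044364) (nat_lit 31) (nat_lit 5) (nat_lit 33) (nat_lit 5) (nat_lit 32) (nat_lit 5) (nat_lit 354) (nat_lit 306) (nat_lit 240)) (XT.nd (nat_lit 78) (nat_lit 152) (nat_lit 0) (XT.lf (nat_lit 0) (nat_lit 6243003196) (nat_lit 152) (nat_lit 3588212843) (nat_lit 76) (nat_lit 14225120926) (nat_lit 31) (nat_lit 5) (nat_lit 33) (nat_lit 5) (nat_lit 32) (nat_lit 5) (nat_lit 355) (nat_lit 306) (nat_lit 239)) (XT.lf (nat_lit 0) (nat_lit 8379216583) (nat_lit 152) (nat_lit 3168515882) (nat_lit 228) (nat_lit 13359355752) (nat_lit 29) (nat_lit 5) (nat_lit 31) (nat_lit 5) (nat_lit 32) (nat_lit 5) (nat_lit 356) (nat_lit 306) (nat_lit 238))))))))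
noncomputable def xc118 : XT := (XT.nd (nat_lit 1716) (nat_lit 532) (nat_lit 0) (XT.nd (nat_lit 858) (nat_lit 456) (nat_lit 0) (XT.nd (nat_lit 390) (nat_lit 380) (nat_lit 0) (XT.nd (nat_lit 156) (nat_lit 228) (nat_lit 0) (XT.nd (nat_lit 78) (nat_lit 76) (nat_lit 0) (XT.lf (nat_lit 0) (nat_lit 17215585378) (nat_lit 228) (nat_lit 4829594567) (nat_lit 76) (nat_lit 3750314236) (nat_lit 29) (nat_lit 5) (nat_lit 32) (nat_lit 5) (nat_lit 30) (nat_lit 4) (nat_lit 357) (nat_lit 306) (nat_lit 237)) (XT.lf (nat_lit 0) (nat_lit 7605951721) (nat_lit 76) (nat_lit 15709065347) (nat_lit 152) (nat_lit 3405905028) (nat_lit 28) (nat_lit 5) (nat_lit 29) (nat_lit 5) (nat_lit 30) (nat_lit 4) (nat_lit 358) (nat_lit 306) (nat_lit 236))) (XT.nd (nat_lit 78) (nat_lit 152) (nat_lit 0) (XT.lf (nat_lit 0) (nat_lit 2022653286) (nat_lit 152) (nat_lit 6929828005) (nat_lit 76) (nat_lit 18735531625) (nat_lit 27) (nat_lit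 5) (nat_lit 29) (nat_lit 5) (nat_lit 28) (nat_lit 5) (nat_lit 359) (nat_lit 306) (nat_lit 235)) (XT.nd (nat_lit 78) (nat_lit 0) (nat_lit 0) (XT.lf (nat_lit 0) (nat_lit 5962174004) (nat_lit 152) (nat_lit 1717750261) (nat_lit 228) (nat_lit 21017164481) (nat_lit 25) (nat_lit 5) (nat_lit 27) (nat_lit 5) (nat_lit 28) (nat_lit 5) (nat_lit 360) (nat_lit 306) (nat_lit 234)) (XT.lf (nat_lit 0) (nat_lit 13809979044) (nat_lit 228) (nat_lit 10142686076) (nat_lit 76) (nat_lit 5794466248) (nat_lit 25) (nat_lit 5) (nat_lit 28) (nat_lit 5) (nat_lit 26) (nat_lit 4) (nat_lit 361) (nat_lit 306) (nat_lit 233))))) (XT.nd (nat_lit 234) (nat_lit 228) (nat_lit 0) (XT.nd (nat_lit 78) (nat_lit 76) (nat_lit 0) (XT.lf (nat_lit 0) (nat_lit 3114887543) (nat_lit 76) (nat_lit 17188301055) (nat_lit 152) (nat_lit 10543663510) (nat_lit 24) (nat_lit 5) (nat_lit 25) (nat_lit 5) (nat_lit 26) (nat_lit 4) (nat_lit 362) (nat_lit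 306) (nat_lit 232)) (XT.nd (nat_lit 78) (nat_lit 76) (nat_lit 0) (XT.lf (nat_lit 0) (nat_lit 17352245968) (nat_lit 76) (nat_lit 9920853111) (nat_lit 152) (nat_lit 4720865960) (nat_lit 24) (nat_lit 5) (nat_lit 25) (nat_lit 5) (nat_lit 26) (nat_lit 4) (nat_lit 363) (nat_lit 306) (nat_lit 231)) (XT.lf (nat_lit 0) (nat_lit 1329377605) (nat_lit 152) (nat_lit 952897881) (nat_lit 76) (nat_lit 30916033406) (nat_lit 23) (nat_lit 5) (nat_lit 25) (nat_lit 5) (nat_lit 24) (nat_lit 5) (nat_lit 364) (nat_lit 306) (nat_lit 230)))) (XT.nd (nat_lit 78) (nat_lit 76) (nat_lit 0) (XT.lf (nat_lit 0) (nat_lit 7814122132) (nat_lit 228) (nat_lit 20792820197) (nat_lit 76) (nat_lit 5837533067) (nat_lit 21) (nat_lit 5) (nat_lit 24) (nat_lit 5) (nat_lit 22) (nat_lit 4) (nat_lit 365) (nat_lit 306) (nat_lit 229)) (XT.nd (nat_lit 78) (nat_lit 76) (nat_lit 0) (XT.lf (nat_lit 0) (nat_lit 14658868193) (nat_lit 228) (nat_lit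 6803014095) (nat_lit 76) (nat_lit 14289286450) (nat_lit 21) (nat_lit 5) (nat_lit 24) (nat_lit 5) (nat_lit 22) (nat_lit 4) (nat_lit 366) (nat_lit 306) (nat_lit 228)) (XT.lf (nat_lit 0) (nat_lit 8114855755) (nat_lit 76) (nat_lit 13840498695) (nat_lit 152) (nat_lit 15162373561) (nat_lit 20) (nat_lit 5) (nat_lit 21) (nat_lit 5) (nat_lit 22) (nat_lit 4) (nat_lit 367) (nat_lit 306) (nat_lit 227)))))) (XT.nd (nat_lit 390) (nat_lit 228) (nat_lit 0) (XT.nd (nat_lit 156) (nat_lit 152) (nat_lit 0) (XT.nd (nat_lit 78) (nat_lit 76) (nat_lit 0) (XT.lf (nat_lit 0) (nat_lit 23984154229) (nat_lit 76) (nat_lit 5730870545) (nat_lit 152) (nat_lit 8832678587) (nat_lit 20) (nat_lit 5) (nat_lit 21) (nat_lit 5) (nat_lit 22) (nat_lit 4) (nat_lit 368) (nat_lit 306) (nat_lit 226)) (XT.lf (nat_lit 0) (nat_lit 541818156) (nat_lit 76) (nat_lit 37356534293) (nat_lit 76) (nat_lit 2149047149) (nat_lit 19) (nat_lit 4) (nat_lit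 20) (nat_lit 5) (nat_lit 20) (nat_lit 4) (nat_lit 369) (nat_lit 306) (nat_lit 225))) (XT.nd (nat_lit 78) (nat_lit 76) (nat_lit 0) (XT.lf (nat_lit 0) (nat_lit 5041362196) (nat_lit 152) (nat_lit 24905542662) (nat_lit 76) (nat_lit 11654958945) (nat_lit 18) (nat_lit 5) (nat_lit 20) (nat_lit 5) (nat_lit 19) (nat_lit 4) (nat_lit 370) (nat_lit 306) (nat_lit 224)) (XT.nd (nat_lit 78) (nat_lit 76) (nat_lit 0) (XT.lf (nat_lit 0) (nat_lit 12503636133) (nat_lit 152) (nat_lit 9639164922) (nat_lit 76) (nat_lit 21090265360) (nat_lit 18) (nat_lit 5) (nat_lit 20) (nat_lit 5) (nat_lit 19) (nat_lit 4) (nat_lit 371) (nat_lit 306) (nat_lit 223)) (XT.lf (nat_lit 0) (nat_lit 6573857435) (nat_lit 76) (nat_lit 13853103810) (nat_lit 152) (nat_lit 24514475819) (nat_lit 17) (nat_lit 5) (nat_lit 18) (nat_lit 5) (nat_lit 19) (nat_lit 4) (nat_lit 372) (nat_lit 306) (nat_lit 222))))) (XT.nd (nat_lit 234) (nat_lit 152)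 (nat_lit 0) (XT.nd (nat_lit 78) (nat_lit 76) (nat_lit 0) (XT.lf (nat_lit 0) (nat_lit 23905538945) (nat_lit 76) (nat_lit 4989742722) (nat_lit 152) (nat_lit 17832507679) (nat_lit 17) (nat_lit 5) (nat_lit 18) (nat_lit 5) (nat_lit 19) (nat_lit 4) (nat_lit 373) (nat_lit 306) (nat_lit 221)) (XT.nd (nat_lit 78) (nat_lit 76) (nat_lit 0) (XT.lf (nat_lit 0) (nat_lit 37840504989) (nat_lit 152) (nat_lit 6592934136) (nat_lit 0) (nat_lit 4167350110) (nat_lit 17) (nat_lit 5) (nat_lit 19) (nat_lit 4) (nat_lit 17) (nat_lit 4) (nat_lit 374) (nat_lit 306) (nat_lit 220)) (XT.lf (nat_lit 0) (nat_lit 10683332438) (nat_lit 76) (nat_lit 36785004997) (nat_lit 76) (nat_lit 3087338418) (nat_lit 16) (nat_lit 4) (nat_lit 17) (nat_lit 5) (nat_lit 17) (nat_lit 4) (nat_lit 375) (nat_lit 306) (nat_lit 219)))) (XT.nd (nat_lit 78) (nat_lit 76) (nat_lit 0) (XT.lf (nat_lit 0) (nat_lit 4910479940) (nat_lit 152) (nat_lit 23654527174)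 (nat_lit 76) (nat_lit 24034410611) (nat_lit 15) (nat_lit 5) (nat_lit 17) (nat_lit 5) (nat_lit 16) (nat_lit 4) (nat_lit 376) (nat_lit 306) (nat_lit 218)) (XT.nd (nat_lit 78) (nat_lit 76) (nat_lit 0) (XT.lf (nat_lit 0) (nat_lit 13191851061) (nat_lit 152) (nat_lit 6699949211) (nat_lit 76) (nat_lit 34851648550) (nat_lit 15) (nat_lit 5) (nat_lit 17) (nat_lit 5) (nat_lit 16) (nat_lit 4) (nat_lit 377) (nat_lit 306) (nat_lit 217)) (XT.lf (nat_lit 0) (nat_lit 11446314055) (nat_lit 76) (nat_lit 10607701588) (nat_lit 152) (nat_lit 34932332982) (nat_lit 14) (nat_lit 5) (nat_lit 15) (nat_lit 5) (nat_lit 16) (nat_lit 4) (nat_lit 378) (nat_lit 306) (nat_lit 216))))))) (XT.nd (nat_lit 858) (nat_lit 228) (nat_lit 0) (XT.nd (nat_lit 390) (nat_lit 152) (nat_lit 0) (XT.nd (nat_lit 156) (nat_lit 152) (nat_lit 0) (XT.nd (nat_lit 78) (nat_lit 0) (nat_lit 0) (XT.lf (nat_lit 0) (nat_lit 30710461710) (nat_lit 76)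 (nat_lit 750536124) (nat_lit 152) (nat_lit 27875313353) (nat_lit 14) (nat_lit 5) (nat_lit 15) (nat_lit 5) (nat_lit 16) (nat_lit 4) (nat_lit 379) (nat_lit 306) (nat_lit 215)) (XT.lf (nat_lit 0) (nat_lit 41476853583) (nat_lit 152) (nat_lit 11037226720) (nat_lit 0) (nat_lit 9282768432) (nat_lit 14) (nat_lit 5) (nat_lit 16) (nat_lit 4) (nat_lit 14) (nat_lit 4) (nat_lit 380) (nat_lit 306) (nat_lit 214))) (XT.nd (nat_lit 78) (nat_lit 76) (nat_lit 0) (XT.lf (nat_lit 0) (nat_lit 7642761607) (nat_lit 76) (nat_lit 44471559353) (nat_lit 76) (nat_lit 12260054195) (nat_lit 13) (nat_lit 4) (nat_lit 14) (nat_lit 5) (nat_lit 14) (nat_lit 4) (nat_lit 381) (nat_lit 306) (nat_lit 213)) (XT.nd (nat_lit 78) (nat_lit 76) (nat_lit 0) (XT.lf (nat_lit 0) (nat_lit 27619887819) (nat_lit 76) (nat_lit 35840086442) (nat_lit 76) (nat_lit 3611990802) (nat_lit 13) (nat_lit 4) (nat_lit 14) (nat_lit 5) (nat_lit 14) (nat_lit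 4) (nat_lit 382) (nat_lit 306) (nat_lit 212)) (XT.lf (nat_lit 0) (nat_lit 5283179115) (nat_lit 152) (nat_lit 21413378912) (nat_lit 76) (nat_lit 43204123628) (nat_lit 12) (nat_lit 5) (nat_lit 14) (nat_lit 5) (nat_lit 13) (nat_lit 4) (nat_lit 383) (nat_lit 306) (nat_lit 211))))) (XT.nd (nat_lit 234) (nat_lit 76) (nat_lit 0) (XT.nd (nat_lit 78) (nat_lit 76) (nat_lit 0) (XT.lf (nat_lit 0) (nat_lit 14491938794) (nat_lit 152) (nat_lit 2550469628) (nat_lit 76) (nat_lit 55825956529) (nat_lit 12) (nat_lit 5) (nat_lit 14) (nat_lit 5) (nat_lit 13) (nat_lit 4) (nat_lit 384) (nat_lit 306) (nat_lit 210)) (XT.nd (nat_lit 78) (nat_lit 0) (nat_lit 0) (XT.lf (nat_lit 0) (nat_lit 17807920253) (nat_lit 76) (nat_lit 6621931401) (nat_lit 152) (nat_lit 51541147296) (nat_lit 11) (nat_lit 5) (nat_lit 12) (nat_lit 5) (nat_lit 13) (nat_lit 4) (nat_lit 385) (nat_lit 306) (nat_lit 209)) (XT.lf (nat_lit 0) (nat_lit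 34966730705) (nat_lit 152) (nat_lit 40039653972) (nat_lit 0) (nat_lit 4217278638) (nat_lit 11) (nat_lit 5) (nat_lit 13) (nat_lit 4) (nat_lit 11) (nat_lit 4) (nat_lit 386) (nat_lit 306) (nat_lit 208)))) (XT.nd (nat_lit 78) (nat_lit 76) (nat_lit 0) (XT.lf (nat_lit 0) (nat_lit 46130179898) (nat_lit 152) (nat_lit 21135449018) (nat_lit 0) (nat_lit 15368347757) (nat_lit 11) (nat_lit 5) (nat_lit 13) (nat_lit 4) (nat_lit 11) (nat_lit 4) (nat_lit 387) (nat_lit 306) (nat_lit 207)) (XT.nd (nat_lit 78) (nat_lit 76) (nat_lit 0) (XT.lf (nat_lit 0) (nat_lit 57843391967) (nat_lit 152) (nat_lit 1302066918) (nat_lit 0) (nat_lit 27069769280) (nat_lit 11) (nat_lit 5) (nat_lit 13) (nat_lit 4) (nat_lit 11) (nat_lit 4) (nat_lit 388) (nat_lit 306) (nat_lit 206)) (XT.lf (nat_lit 0) (nat_lit 20152727813) (nat_lit 76) (nat_lit 50296168259) (nat_lit 76) (nat_lit 19511316480) (nat_lit 10) (nat_lit 4) (nat_lit 11) (nat_lit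 5) (nat_lit 11) (nat_lit 4) (nat_lit 389) (nat_lit 306) (nat_lit 205)))))) (XT.nd (nat_lit 468) (nat_lit 76) (nat_lit 0) (XT.nd (nat_lit 234) (nat_lit 76) (nat_lit 0) (XT.nd (nat_lit 78) (nat_lit 76) (nat_lit 0) (XT.lf (nat_lit 0) (nat_lit 42710443768) (nat_lit 76) (nat_lit 40988420451) (nat_lit 76) (nat_lit 10192874299) (nat_lit 10) (nat_lit 4) (nat_lit 11) (nat_lit 5) (nat_lit 11) (nat_lit 4) (nat_lit 390) (nat_lit 306) (nat_lit 204)) (XT.nd (nat_lit 78) (nat_lit 76) (nat_lit 0) (XT.lf (nat_lit 0) (nat_lit 66381737581) (nat_lit 76) (nat_lit 31222105291) (nat_lit 76) (nat_lit 416374022) (nat_lit 10) (nat_lit 4) (nat_lit 11) (nat_lit 5) (nat_lit 11) (nat_lit 4) (nat_lit 391) (nat_lit 306) (nat_lit 203)) (XT.lf (nat_lit 0) (nat_lit 9526473496) (nat_lit 152) (nat_lit 11286160712) (nat_lit 76) (nat_lit 81535160542) (nat_lit 9) (nat_lit 5) (nat_lit 11) (nat_lit 5) (nat_lit 10) (nat_lit 4) (nat_lit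 392) (nat_lit 306) (nat_lit 202)))) (XT.nd (nat_lit 78) (nat_lit 0) (nat_lit 0) (XT.lf (nat_lit 0) (nat_lit 10396493222) (nat_lit 76) (nat_lit 9711391072) (nat_lit 152) (nat_lit 86775756707) (nat_lit 8) (nat_lit 5) (nat_lit 9) (nat_lit 5) (nat_lit 10) (nat_lit 4) (nat_lit 393) (nat_lit 306) (nat_lit 201)) (XT.nd (nat_lit 78) (nat_lit 0) (nat_lit 0) (XT.lf (nat_lit 0) (nat_lit 31436125445) (nat_lit 152) (nat_lit 78128349593) (nat_lit 0) (nat_lit 2070917949) (nat_lit 8) (nat_lit 5) (nat_lit 10) (nat_lit 4) (nat_lit 8) (nat_lit 4) (nat_lit 394) (nat_lit 306) (nat_lit 200)) (XT.lf (nat_lit 0) (nat_lit 43483433470) (nat_lit 152) (nat_lit 59023422037) (nat_lit 0) (nat_lit 14110245669) (nat_lit 8) (nat_lit 5) (nat_lit 10) (nat_lit 4) (nat_lit 8) (nat_lit 4) (nat_lit 395) (nat_lit 306) (nat_lit 199))))) (XT.nd (nat_lit 234) (nat_lit 0) (nat_lit 0) (XT.nd (nat_lit 78) (nat_lit 76) (nat_lit 0) (XT.lf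 (nat_lit 0) (nat_lit 56126870407) (nat_lit 152) (nat_lit 38975255158) (nat_lit 0) (nat_lit 26746082314) (nat_lit 8) (nat_lit 5) (nat_lit 10) (nat_lit 4) (nat_lit 8) (nat_lit 4) (nat_lit 396) (nat_lit 306) (nat_lit 198)) (XT.nd (nat_lit 78) (nat_lit 76) (nat_lit 0) (XT.lf (nat_lit 0) (nat_lit 69396539676) (nat_lit 152) (nat_lit 17936115226) (nat_lit 0) (nat_lit 40008513211) (nat_lit 8) (nat_lit 5) (nat_lit 10) (nat_lit 4) (nat_lit 8) (nat_lit 4) (nat_lit 397) (nat_lit 306) (nat_lit 197)) (XT.lf (nat_lit 0) (nat_lit 4281113312) (nat_lit 76) (nat_lit 79109762593) (nat_lit 76) (nat_lit 49714842440) (nat_lit 7) (nat_lit 4) (nat_lit 8) (nat_lit 5) (nat_lit 8) (nat_lit 4) (nat_lit 398) (nat_lit 306) (nat_lit 196)))) (XT.nd (nat_lit 78) (nat_lit 0) (nat_lit 0) (XT.lf (nat_lit 0) (nat_lit 28221189601) (nat_lit 76) (nat_lit 70161941528) (nat_lit 76) (nat_lit 40760455956) (nat_lit 7) (nat_lit 4) (nat_lit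 8) (nat_lit 5) (nat_lit 8) (nat_lit 4) (nat_lit 399) (nat_lit 306) (nat_lit 195)) (XT.nd (nat_lit 78) (nat_lit 0) (nat_lit 0) (XT.lf (nat_lit 0) (nat_lit 53348064852) (nat_lit 76) (nat_lit 60771644160) (nat_lit 76) (nat_lit 31363905810) (nat_lit 7) (nat_lit 4) (nat_lit 8) (nat_lit 5) (nat_lit 8) (nat_lit 4) (nat_lit 400) (nat_lit 306) (nat_lit 194)) (XT.lf (nat_lit 0) (nat_lit 79721564958) (nat_lit 76) (nat_lit 50916512638) (nat_lit 76) (nat_lit 21502819261) (nat_lit 7) (nat_lit 4) (nat_lit 8) (nat_lit 5) (nat_lit 8) (nat_lit 4) (nat_lit 401) (nat_lit 306) (nat_lit 193))))))))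
noncomputable def xc119 : XT := (XT.nd (nat_lit 1716) (nat_lit 152) (nat_lit 0) (XT.nd (nat_lit 858) (nat_lit 76) (nat_lit 0) (XT.nd (nat_lit 390) (nat_lit 0) (nat_lit 0) (XT.nd (nat_lit 156) (nat_lit 152) (nat_lit 0) (XT.nd (nat_lit 78) (nat_lit 0) (nat_lit 0) (XT.lf (nat_lit 0) (nat_lit 107404483967) (nat_lit 76) (nat_lit 40573082365) (nat_lit 76) (nat_lit 11153717534) (nat_lit 7) (nat_lit 4) (nat_lit 8) (nat_lit 5) (nat_lit 8) (nat_lit 4) (nat_lit 402) (nat_lit 306) (nat_lit 192)) (XT.lf (nat_lit 0) (nat_lit 136462733591) (nat_lit 76) (nat_lit 29716726124) (nat_lit 76) (nat_lit 291959908) (nat_lit 7) (nat_lit 4) (nat_lit 8) (nat_lit 5) (nat_lit 8) (nat_lit 4) (nat_lit 403) (nat_lit 306) (nat_lit 191))) (XT.nd (nat_lit 78) (nat_lit 76) (nat_lit 0) (XT.lf (nat_lit 0) (nat_lit 10752779491) (nat_lit 152) (nat_lit 7386712434) (nat_lit 76) (nat_lit 156030617124) (nat_lit 6) (nat_lit 5) (nat_lit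 8) (nat_lit 5) (nat_lit 7) (nat_lit 4) (nat_lit 404) (nat_lit 306) (nat_lit 190)) (XT.nd (nat_lit 78) (nat_lit 0) (nat_lit 0) (XT.lf (nat_lit 0) (nat_lit 16894156243) (nat_lit 76) (nat_lit 5705339294) (nat_lit 152) (nat_lit 159641021312) (nat_lit 5) (nat_lit 5) (nat_lit 6) (nat_lit 5) (nat_lit 7) (nat_lit 4) (nat_lit 405) (nat_lit 306) (nat_lit 189)) (XT.lf (nat_lit 0) (nat_lit 35276259570) (nat_lit 152) (nat_lit 148187636776) (nat_lit 0) (nat_lit 7238663830) (nat_lit 5) (nat_lit 5) (nat_lit 7) (nat_lit 4) (nat_lit 5) (nat_lit 4) (nat_lit 406) (nat_lit 306) (nat_lit 188))))) (XT.nd (nat_lit 234) (nat_lit 0) (nat_lit 0) (XT.nd (nat_lit 78) (nat_lit 0) (nat_lit 0) (XT.lf (nat_lit 0) (nat_lit 48676393506) (nat_lit 152) (nat_lit 130272270655) (nat_lit 0) (nat_lit 20634565639) (nat_lit 5) (nat_lit 5) (nat_lit 7) (nat_lit 4) (nat_lit 5) (nat_lit 4) (nat_lit 407) (nat_lit 306) (nat_lit 187)) (XT.nd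 (nat_lit 78) (nat_lit 0) (nat_lit 0) (XT.lf (nat_lit 0) (nat_lit 62742726088) (nat_lit 152) (nat_lit 111468530273) (nat_lit 0) (nat_lit 34696867624) (nat_lit 5) (nat_lit 5) (nat_lit 7) (nat_lit 4) (nat_lit 5) (nat_lit 4) (nat_lit 408) (nat_lit 306) (nat_lit 186)) (XT.lf (nat_lit 0) (nat_lit 77508748586) (nat_lit 152) (nat_lit 91731644820) (nat_lit 0) (nat_lit 49459051458) (nat_lit 5) (nat_lit 5) (nat_lit 7) (nat_lit 4) (nat_lit 5) (nat_lit 4) (nat_lit 409) (nat_lit 306) (nat_lit 185)))) (XT.nd (nat_lit 78) (nat_lit 0) (nat_lit 0) (XT.lf (nat_lit 0) (nat_lit 93009618194) (nat_lit 152) (nat_lit 71014621710) (nat_lit 0) (nat_lit 64956265197) (nat_lit 5) (nat_lit 5) (nat_lit 7) (nat_lit 4) (nat_lit 5) (nat_lit 4) (nat_lit 410) (nat_lit 306) (nat_lit 184)) (XT.nd (nat_lit 78) (nat_lit 0) (nat_lit 0) (XT.lf (nat_lit 0) (nat_lit 109282241747) (nat_lit 152) (nat_lit 49268134700) (nat_lit 0) (nat_lit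 81225406968) (nat_lit 5) (nat_lit 5) (nat_lit 7) (nat_lit 4) (nat_lit 5) (nat_lit 4) (nat_lit 411) (nat_lit 306) (nat_lit 183)) (XT.lf (nat_lit 0) (nat_lit 126365363585) (nat_lit 152) (nat_lit 26440406438) (nat_lit 0) (nat_lit 98305212824) (nat_lit 5) (nat_lit 5) (nat_lit 7) (nat_lit 4) (nat_lit 5) (nat_lit 4) (nat_lit 412) (nat_lit 306) (nat_lit 182)))))) (XT.nd (nat_lit 390) (nat_lit 0) (nat_lit 0) (XT.nd (nat_lit 156) (nat_lit 0) (nat_lit 0) (XT.nd (nat_lit 78) (nat_lit 76) (nat_lit 0) (XT.lf (nat_lit 0) (nat_lit 144299657809) (nat_lit 152) (nat_lit 2477085191) (nat_lit 0) (nat_lit 116236348970) (nat_lit 5) (nat_lit 5) (nat_lit 7) (nat_lit 4) (nat_lit 5) (nat_lit 4) (nat_lit 413) (nat_lit 306) (nat_lit 181)) (XT.lf (nat_lit 0) (nat_lit 23428750911) (nat_lit 76) (nat_lit 140064862667) (nat_lit 76) (nat_lit 111998546135) (nat_lit 4) (nat_lit 4) (nat_lit 5) (nat_lit 5) (nat_lit 5) (nat_lit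 4) (nat_lit 414) (nat_lit 306) (nat_lit 180))) (XT.nd (nat_lit 78) (nat_lit 0) (nat_lit 0) (XT.lf (nat_lit 0) (nat_lit 50710449066) (nat_lit 76) (nat_lit 132975977641) (nat_lit 76) (nat_lit 104906796639) (nat_lit 4) (nat_lit 4) (nat_lit 5) (nat_lit 5) (nat_lit 5) (nat_lit 4) (nat_lit 415) (nat_lit 306) (nat_lit 179)) (XT.nd (nat_lit 78) (nat_lit 0) (nat_lit 0) (XT.lf (nat_lit 0) (nat_lit 79351062075) (nat_lit 76) (nat_lit 125535160262) (nat_lit 76) (nat_lit 97463251194) (nat_lit 4) (nat_lit 4) (nat_lit 5) (nat_lit 5) (nat_lit 5) (nat_lit 4) (nat_lit 416) (nat_lit 306) (nat_lit 178)) (XT.lf (nat_lit 0) (nat_lit 109418781872) (nat_lit 76) (nat_lit 117724694298) (nat_lit 76) (nat_lit 89650187071) (nat_lit 4) (nat_lit 4) (nat_lit 5) (nat_lit 5) (nat_lit 5) (nat_lit 4) (nat_lit 417) (nat_lit 306) (nat_lit 177))))) (XT.nd (nat_lit 234) (nat_lit 0) (nat_lit 0) (XT.nd (nat_lit 78) (nat_lit 0) (nat_lit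 0) (XT.lf (nat_lit 0) (nat_lit 140985198266) (nat_lit 76) (nat_lit 109525983401) (nat_lit 76) (nat_lit 81449001737) (nat_lit 4) (nat_lit 4) (nat_lit 5) (nat_lit 5) (nat_lit 5) (nat_lit 4) (nat_lit 418) (nat_lit 306) (nat_lit 176)) (XT.nd (nat_lit 78) (nat_lit 0) (nat_lit 0) (XT.lf (nat_lit 0) (nat_lit 174125469393) (nat_lit 76) (nat_lit 100919506830) (nat_lit 76) (nat_lit 72840168560) (nat_lit 4) (nat_lit 4) (nat_lit 5) (nat_lit 5) (nat_lit 5) (nat_lit 4) (nat_lit 419) (nat_lit 306) (nat_lit 175)) (XT.lf (nat_lit 0) (nat_lit 208918500659) (nat_lit 76) (nat_lit 91884772976) (nat_lit 76) (nat_lit 63803190318) (nat_lit 4) (nat_lit 4) (nat_lit 5) (nat_lit 5) (nat_lit 5) (nat_lit 4) (nat_lit 420) (nat_lit 306) (nat_lit 174)))) (XT.nd (nat_lit 78) (nat_lit 0) (nat_lit 0) (XT.lf (nat_lit 0) (nat_lit 245447132615) (nat_lit 76) (nat_lit 82400270566) (nat_lit 76) (nat_lit 54316550397) (nat_lit 4)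 (nat_lit 4) (nat_lit 5) (nat_lit 5) (nat_lit 5) (nat_lit 4) (nat_lit 421) (nat_lit 306) (nat_lit 173)) (XT.nd (nat_lit 78) (nat_lit 0) (nat_lit 0) (XT.lf (nat_lit 0) (nat_lit 283798338194) (nat_lit 76) (nat_lit 72443417453) (nat_lit 76) (nat_lit 44357661559) (nat_lit 4) (nat_lit 4) (nat_lit 5) (nat_lit 5) (nat_lit 5) (nat_lit 4) (nat_lit 422) (nat_lit 306) (nat_lit 172)) (XT.lf (nat_lit 0) (nat_lit 324063429791) (nat_lit 76) (nat_lit 61990506843) (nat_lit 76) (nat_lit 33902812163) (nat_lit 4) (nat_lit 4) (nat_lit 5) (nat_lit 5) (nat_lit 5) (nat_lit 4) (nat_lit 423) (nat_lit 306) (nat_lit 171))))))) (XT.nd (nat_lit 37986) (nat_lit 0) (nat_lit 7600) (XT.nd (nat_lit 390) (nat_lit 0) (nat_lit 0) (XT.nd (nat_lit 156) (nat_lit 152) (nat_lit 0) (XT.nd (nat_lit 78) (nat_lit 0) (nat_lit 0) (XT.lf (nat_lit 0) (nat_lit 366338276671) (nat_lit 76) (nat_lit 51016650854) (nat_lit 76) (nat_lit 22927109711)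 (nat_lit 4) (nat_lit 4) (nat_lit 5) (nat_lit 5) (nat_lit 5) (nat_lit 4) (nat_lit 424) (nat_lit 306) (nat_lit 170)) (XT.lf (nat_lit 0) (nat_lit 410723533232) (nat_lit 76) (nat_lit 39495721257) (nat_lit 76) (nat_lit 11404421578) (nat_lit 4) (nat_lit 4) (nat_lit 5) (nat_lit 5) (nat_lit 5) (nat_lit 4) (nat_lit 425) (nat_lit 306) (nat_lit 169))) (XT.nd (nat_lit 78) (nat_lit 76) (nat_lit 0) (XT.lf (nat_lit 0) (nat_lit 670516890) (nat_lit 152) (nat_lit 26718414848) (nat_lit 76) (nat_lit 456643006236) (nat_lit 3) (nat_lit 5) (nat_lit 5) (nat_lit 5) (nat_lit 4) (nat_lit 4) (nat_lit 426) (nat_lit 306) (nat_lit 168)) (XT.nd (nat_lit 78) (nat_lit 76) (nat_lit 0) (XT.lf (nat_lit 0) (nat_lit 12964359027) (nat_lit 152) (nat_lit 1517633512) (nat_lit 76) (nat_lit 493069351805) (nat_lit 3) (nat_lit 5) (nat_lit 5) (nat_lit 5) (nat_lit 4) (nat_lit 4) (nat_lit 427) (nat_lit 306) (nat_lit 167)) (XT.lf (nat_lit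 0) (nat_lit 25764895578) (nat_lit 76) (nat_lit 508755244) (nat_lit 152) (nat_lit 505953032576) (nat_lit 2) (nat_lit 5) (nat_lit 3) (nat_lit 5) (nat_lit 4) (nat_lit 4) (nat_lit 428) (nat_lit 306) (nat_lit 166))))) (XT.nd (nat_lit 37362) (nat_lit 0) (nat_lit 9880) (XT.nd (nat_lit 78) (nat_lit 0) (nat_lit 0) (XT.lf (nat_lit 0) (nat_lit 40494156849) (nat_lit 152) (nat_lit 503894745944) (nat_lit 0) (nat_lit 13734599362) (nat_lit 2) (nat_lit 5) (nat_lit 4) (nat_lit 4) (nat_lit 2) (nat_lit 4) (nat_lit 429) (nat_lit 306) (nat_lit 165)) (XT.nd (nat_lit 78) (nat_lit 0) (nat_lit 0) (XT.lf (nat_lit 0) (nat_lit 55432599923) (nat_lit 152) (nat_lit 501210486369) (nat_lit 0) (nat_lit 28671730190) (nat_lit 2) (nat_lit 5) (nat_lit 4) (nat_lit 4) (nat_lit 2) (nat_lit 4) (nat_lit 430) (nat_lit 306) (nat_lit 164)) (XT.lf (nat_lit 0) (nat_lit 71116604673) (nat_lit 152) (nat_lit 498394674908) (nat_lit 0) (nat_lit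 44354485181) (nat_lit 2) (nat_lit 5) (nat_lit 4) (nat_lit 4) (nat_lit 2) (nat_lit 4) (nat_lit 431) (nat_lit 306) (nat_lit 163)))) (XT.nd (nat_lit 78) (nat_lit 0) (nat_lit 0) (XT.lf (nat_lit 0) (nat_lit 158267596) (nat_lit 532) (nat_lit 1674776273) (nat_lit 532) (nat_lit 1674776273) (nat_lit 132) (nat_lit 3) (nat_lit 139) (nat_lit 3) (nat_lit 139) (nat_lit 5) (nat_lit 307) (nat_lit 307) (nat_lit 286)) (XT.nd (nat_lit 78) (nat_lit 0) (nat_lit 0) (XT.lf (nat_lit 0) (nat_lit 2051055055) (nat_lit 532) (nat_lit 25159612) (nat_lit 532) (nat_lit 5025585742) (nat_lit 132) (nat_lit 3) (nat_lit 139) (nat_lit 3) (nat_lit 139) (nat_lit 5) (nat_lit 308) (nat_lit 307) (nat_lit 285)) (XT.lf (nat_lit 76) (nat_lit 3519996709) (nat_lit 0) (nat_lit 296736833) (nat_lit 532) (nat_lit 3378499038) (nat_lit 133) (nat_lit 5) (nat_lit 132) (nat_lit 3) (nat_lit 139) (nat_lit 5) (nat_lit 309) (nat_lit 307) (nat_lit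 284)))))) (XT.nd (nat_lit 468) (nat_lit 1824) (nat_lit 0) (XT.nd (nat_lit 234) (nat_lit 0) (nat_lit 76) (XT.nd (nat_lit 78) (nat_lit 532) (nat_lit 0) (XT.lf (nat_lit 0) (nat_lit 5590278448) (nat_lit 456) (nat_lit 138006474) (nat_lit 532) (nat_lit 1569249144) (nat_lit 133) (nat_lit 5) (nat_lit 139) (nat_lit 5) (nat_lit 140) (nat_lit 5) (nat_lit 310) (nat_lit 307) (nat_lit 283)) (XT.nd (nat_lit 78) (nat_lit 0) (nat_lit 0) (XT.lf (nat_lit 0) (nat_lit 6347275) (nat_lit 532) (nat_lit 3780271749) (nat_lit 608) (nat_lit 3620438912) (nat_lit 126) (nat_lit 5) (nat_lit 133) (nat_lit 5) (nat_lit 134) (nat_lit 5) (nat_lit 311) (nat_lit 307) (nat_lit 282)) (XT.lf (nat_lit 0) (nat_lit 1652374021) (nat_lit 532) (nat_lit 28194138) (nat_lit 608) (nat_lit 5845037271) (nat_lit 126) (nat_lit 5) (nat_lit 133) (nat_lit 5) (nat_lit 134) (nat_lit 5) (nat_lit 312) (nat_lit 307) (nat_lit 281)))) (XT.nd (nat_lit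 78) (nat_lit 0) (nat_lit 0) (XT.lf (nat_lit 0) (nat_lit 3359079576) (nat_lit 532) (nat_lit 3682635002) (nat_lit 608) (nat_lit 609592325) (nat_lit 127) (nat_lit 5) (nat_lit 134) (nat_lit 5) (nat_lit 135) (nat_lit 5) (nat_lit 313) (nat_lit 307) (nat_lit 280)) (XT.nd (nat_lit 78) (nat_lit 0) (nat_lit 0) (XT.lf (nat_lit 76) (nat_lit 301165226) (nat_lit 0) (nat_lit 4793138235) (nat_lit 608) (nat_lit 2691969387) (nat_lit 128) (nat_lit 5) (nat_lit 127) (nat_lit 5) (nat_lit 135) (nat_lit 5) (nat_lit 314) (nat_lit 307) (nat_lit 279)) (XT.lf (nat_lit 76) (nat_lit 4549034278) (nat_lit 0) (nat_lit 2343348186) (nat_lit 608) (nat_lit 1036931884) (nat_lit 128) (nat_lit 5) (nat_lit 127) (nat_lit 5) (nat_lit 135) (nat_lit 5) (nat_lit 315) (nat_lit 307) (nat_lit 278))))) (XT.nd (nat_lit 234) (nat_lit 760) (nat_lit 0) (XT.nd (nat_lit 78) (nat_lit 608) (nat_lit 0) (XT.lf (nat_lit 0) (nat_lit 612902567) (nat_lit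 608) (nat_lit 7202587078) (nat_lit 76) (nat_lit 266867001) (nat_lit 120) (nat_lit 5) (nat_lit 128) (nat_lit 5) (nat_lit 121) (nat_lit 5) (nat_lit 316) (nat_lit 307) (nat_lit 277)) (XT.nd (nat_lit 78) (nat_lit 608) (nat_lit 0) (XT.lf (nat_lit 0) (nat_lit 2326658096) (nat_lit 608) (nat_lit 2892648438) (nat_lit 76) (nat_lit 3022194715) (nat_lit 120) (nat_lit 5) (nat_lit 128) (nat_lit 5) (nat_lit 121) (nat_lit 5) (nat_lit 317) (nat_lit 307) (nat_lit 276)) (XT.lf (nat_lit 0) (nat_lit 1621559351) (nat_lit 608) (nat_lit 2453360440) (nat_lit 684) (nat_lit 4336350928) (nat_lit 112) (nat_lit 5) (nat_lit 120) (nat_lit 5) (nat_lit 121) (nat_lit 5) (nat_lit 318) (nat_lit 307) (nat_lit 275)))) (XT.nd (nat_lit 78) (nat_lit 760) (nat_lit 0) (XT.lf (nat_lit 0) (nat_lit 5893782926) (nat_lit 684) (nat_lit 2199105332) (nat_lit 76) (nat_lit 497584380) (nat_lit 112) (nat_lit 5) (nat_lit 121) (nat_lit 5) (nat_lit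 113) (nat_lit 5) (nat_lit 319) (nat_lit 307) (nat_lit 274)) (XT.nd (nat_lit 78) (nat_lit 76) (nat_lit 0) (XT.lf (nat_lit 0) (nat_lit 2601124000) (nat_lit 684) (nat_lit 5213159184) (nat_lit 760) (nat_lit 963915233) (nat_lit 103) (nat_lit 5) (nat_lit 112) (nat_lit 5) (nat_lit 113) (nat_lit 5) (nat_lit 320) (nat_lit 307) (nat_lit 273)) (XT.lf (nat_lit 0) (nat_lit 797005591) (nat_lit 760) (nat_lit 1333997451) (nat_lit 76) (nat_lit 6845284474) (nat_lit 102) (nat_lit 5) (nat_lit 112) (nat_lit 5) (nat_lit 103) (nat_lit 5) (nat_lit 321) (nat_lit 307) (nat_lit 272))))))))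
noncomputable def xc120 : XT := (XT.nd (nat_lit 1716) (nat_lit 1900) (nat_lit 0) (XT.nd (nat_lit 858) (nat_lit 1444) (nat_lit 0) (XT.nd (nat_lit 390) (nat_lit 1292) (nat_lit 0) (XT.nd (nat_lit 156) (nat_lit 760) (nat_lit 0) (XT.nd (nat_lit 78) (nat_lit 0) (nat_lit 0) (XT.lf (nat_lit 0) (nat_lit 2625715528) (nat_lit 836) (nat_lit 5406769105) (nat_lit 76) (nat_lit 1150484554) (nat_lit 92) (nat_lit 5) (nat_lit 103) (nat_lit 5) (nat_lit 93) (nat_lit 5) (nat_lit 322) (nat_lit 307) (nat_lit 271)) (XT.lf (nat_lit 0) (nat_lit 4540314922) (nat_lit 836) (nat_lit 309491047) (nat_lit 76) (nat_lit 4550537283) (nat_lit 92) (nat_lit 5) (nat_lit 103) (nat_lit 5) (nat_lit 93) (nat_lit 5) (nat_lit 323) (nat_lit 307) (nat_lit 270))) (XT.nd (nat_lit 78) (nat_lit 380) (nat_lit 0) (XT.lf (nat_lit 0) (nat_lit 5146857014) (nat_lit 380) (nat_lit 1423722449) (nat_lit 456) (nat_lit 3057086948) (nat_lit 87) (nat_lit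 5) (nat_lit 92) (nat_lit 5) (nat_lit 93) (nat_lit 5) (nat_lit 324) (nat_lit 307) (nat_lit 269)) (XT.nd (nat_lit 78) (nat_lit 76) (nat_lit 0) (XT.lf (nat_lit 0) (nat_lit 954676684) (nat_lit 304) (nat_lit 7743359062) (nat_lit 380) (nat_lit 1168609534) (nat_lit 83) (nat_lit 5) (nat_lit 87) (nat_lit 5) (nat_lit 88) (nat_lit 5) (nat_lit 325) (nat_lit 307) (nat_lit 268)) (XT.lf (nat_lit 0) (nat_lit 831034827) (nat_lit 380) (nat_lit 3397069652) (nat_lit 76) (nat_lit 5886759315) (nat_lit 82) (nat_lit 5) (nat_lit 87) (nat_lit 5) (nat_lit 83) (nat_lit 5) (nat_lit 326) (nat_lit 307) (nat_lit 267))))) (XT.nd (nat_lit 234) (nat_lit 608) (nat_lit 0) (XT.nd (nat_lit 78) (nat_lit 304) (nat_lit 0) (XT.lf (nat_lit 0) (nat_lit 2390455399) (nat_lit 380) (nat_lit 483337724) (nat_lit 456) (nat_lit 7501685473) (nat_lit 77) (nat_lit 5) (nat_lit 82) (nat_lit 5) (nat_lit 83) (nat_lit 5) (nat_lit 327) (nat_lit 307)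 (nat_lit 266)) (XT.nd (nat_lit 78) (nat_lit 304) (nat_lit 0) (XT.lf (nat_lit 0) (nat_lit 5077678197) (nat_lit 456) (nat_lit 2177858445) (nat_lit 76) (nat_lit 3390698502) (nat_lit 77) (nat_lit 5) (nat_lit 83) (nat_lit 5) (nat_lit 78) (nat_lit 5) (nat_lit 328) (nat_lit 307) (nat_lit 265)) (XT.lf (nat_lit 0) (nat_lit 3979963070) (nat_lit 304) (nat_lit 3431067209) (nat_lit 380) (nat_lit 3518593173) (nat_lit 73) (nat_lit 5) (nat_lit 77) (nat_lit 5) (nat_lit 78) (nat_lit 5) (nat_lit 329) (nat_lit 307) (nat_lit 264)))) (XT.nd (nat_lit 78) (nat_lit 608) (nat_lit 0) (XT.lf (nat_lit 0) (nat_lit 9858246513) (nat_lit 380) (nat_lit 774370088) (nat_lit 76) (nat_lit 594759578) (nat_lit 73) (nat_lit 5) (nat_lit 78) (nat_lit 5) (nat_lit 74) (nat_lit 5) (nat_lit 330) (nat_lit 307) (nat_lit 263)) (XT.nd (nat_lit 78) (nat_lit 228) (nat_lit 0) (XT.lf (nat_lit 0) (nat_lit 960406445) (nat_lit 380) (nat_lit 5769831088)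 (nat_lit 76) (nat_lit 4804084943) (nat_lit 68) (nat_lit 5) (nat_lit 73) (nat_lit 5) (nat_lit 69) (nat_lit 5) (nat_lit 331) (nat_lit 307) (nat_lit 262)) (XT.lf (nat_lit 0) (nat_lit 744017262) (nat_lit 228) (nat_lit 2594827698) (nat_lit 304) (nat_lit 8517774387) (nat_lit 65) (nat_lit 5) (nat_lit 68) (nat_lit 5) (nat_lit 69) (nat_lit 5) (nat_lit 332) (nat_lit 307) (nat_lit 261)))))) (XT.nd (nat_lit 390) (nat_lit 836) (nat_lit 0) (XT.nd (nat_lit 156) (nat_lit 304) (nat_lit 0) (XT.nd (nat_lit 78) (nat_lit 304) (nat_lit 0) (XT.lf (nat_lit 0) (nat_lit 5917422455) (nat_lit 304) (nat_lit 4494683392) (nat_lit 76) (nat_lit 1778909470) (nat_lit 65) (nat_lit 5) (nat_lit 69) (nat_lit 5) (nat_lit 66) (nat_lit 5) (nat_lit 333) (nat_lit 307) (nat_lit 260)) (XT.lf (nat_lit 0) (nat_lit 2432762717) (nat_lit 304) (nat_lit 6229466717) (nat_lit 380) (nat_lit 3878079582) (nat_lit 61) (nat_lit 5) (nat_lit 65) (nat_lit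 5) (nat_lit 66) (nat_lit 5) (nat_lit 334) (nat_lit 307) (nat_lit 259))) (XT.nd (nat_lit 78) (nat_lit 304) (nat_lit 0) (XT.lf (nat_lit 0) (nat_lit 9806846851) (nat_lit 304) (nat_lit 1771516966) (nat_lit 380) (nat_lit 1327040144) (nat_lit 61) (nat_lit 5) (nat_lit 65) (nat_lit 5) (nat_lit 66) (nat_lit 5) (nat_lit 335) (nat_lit 307) (nat_lit 258)) (XT.nd (nat_lit 78) (nat_lit 0) (nat_lit 0) (XT.lf (nat_lit 0) (nat_lit 1381732769) (nat_lit 304) (nat_lit 9009399874) (nat_lit 76) (nat_lit 2892931068) (nat_lit 57) (nat_lit 5) (nat_lit 61) (nat_lit 5) (nat_lit 58) (nat_lit 5) (nat_lit 336) (nat_lit 307) (nat_lit 257)) (XT.lf (nat_lit 0) (nat_lit 4223882512) (nat_lit 304) (nat_lit 1661993928) (nat_lit 76) (nat_lit 7792600842) (nat_lit 57) (nat_lit 5) (nat_lit 61) (nat_lit 5) (nat_lit 58) (nat_lit 5) (nat_lit 337) (nat_lit 307) (nat_lit 256))))) (XT.nd (nat_lit 234) (nat_lit 456) (nat_lit 0) (XT.nd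 (nat_lit 78) (nat_lit 152) (nat_lit 0) (XT.lf (nat_lit 0) (nat_lit 6198382869) (nat_lit 228) (nat_lit 1068586571) (nat_lit 304) (nat_lit 6822734266) (nat_lit 54) (nat_lit 5) (nat_lit 57) (nat_lit 5) (nat_lit 58) (nat_lit 5) (nat_lit 338) (nat_lit 307) (nat_lit 255)) (XT.nd (nat_lit 78) (nat_lit 152) (nat_lit 0) (XT.lf (nat_lit 0) (nat_lit 10515924760) (nat_lit 304) (nat_lit 126935197) (nat_lit 76) (nat_lit 3875977851) (nat_lit 54) (nat_lit 5) (nat_lit 58) (nat_lit 5) (nat_lit 55) (nat_lit 5) (nat_lit 339) (nat_lit 307) (nat_lit 254)) (XT.lf (nat_lit 0) (nat_lit 8220221275) (nat_lit 152) (nat_lit 5817553280) (nat_lit 228) (nat_lit 926162255) (nat_lit 52) (nat_lit 5) (nat_lit 54) (nat_lit 5) (nat_lit 55) (nat_lit 5) (nat_lit 340) (nat_lit 307) (nat_lit 253)))) (XT.nd (nat_lit 78) (nat_lit 152) (nat_lit 0) (XT.lf (nat_lit 0) (nat_lit 1519174096) (nat_lit 228) (nat_lit 702296221) (nat_lit 304)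 (nat_lit 13208509198) (nat_lit 48) (nat_lit 5) (nat_lit 51) (nat_lit 5) (nat_lit 52) (nat_lit 5) (nat_lit 341) (nat_lit 307) (nat_lit 252)) (XT.nd (nat_lit 78) (nat_lit 152) (nat_lit 0) (XT.lf (nat_lit 0) (nat_lit 5649855291) (nat_lit 304) (nat_lit 5626273955) (nat_lit 76) (nat_lit 4634737537) (nat_lit 48) (nat_lit 5) (nat_lit 52) (nat_lit 5) (nat_lit 49) (nat_lit 5) (nat_lit 342) (nat_lit 307) (nat_lit 251)) (XT.lf (nat_lit 0) (nat_lit 3110972354) (nat_lit 152) (nat_lit 6165936625) (nat_lit 228) (nat_lit 7137552081) (nat_lit 46) (nat_lit 5) (nat_lit 48) (nat_lit 5) (nat_lit 49) (nat_lit 5) (nat_lit 343) (nat_lit 307) (nat_lit 250))))))) (XT.nd (nat_lit 858) (nat_lit 912) (nat_lit 0) (XT.nd (nat_lit 390) (nat_lit 532) (nat_lit 0) (XT.nd (nat_lit 156) (nat_lit 228) (nat_lit 0) (XT.nd (nat_lit 78) (nat_lit 228) (nat_lit 0) (XT.lf (nat_lit 0) (nat_lit 12431642794) (nat_lit 152) (nat_lit 716923765)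 (nat_lit 228) (nat_lit 3791529853) (nat_lit 46) (nat_lit 5) (nat_lit 48) (nat_lit 5) (nat_lit 49) (nat_lit 5) (nat_lit 344) (nat_lit 307) (nat_lit 249)) (XT.lf (nat_lit 0) (nat_lit 4752563428) (nat_lit 228) (nat_lit 12582823335) (nat_lit 304) (nat_lit 150570566) (nat_lit 43) (nat_lit 5) (nat_lit 46) (nat_lit 5) (nat_lit 47) (nat_lit 5) (nat_lit 345) (nat_lit 307) (nat_lit 248))) (XT.nd (nat_lit 78) (nat_lit 152) (nat_lit 0) (XT.lf (nat_lit 0) (nat_lit 3613715095) (nat_lit 304) (nat_lit 3540487451) (nat_lit 76) (nat_lit 10899121591) (nat_lit 42) (nat_lit 5) (nat_lit 46) (nat_lit 5) (nat_lit 43) (nat_lit 5) (nat_lit 346) (nat_lit 307) (nat_lit 247)) (XT.nd (nat_lit 78) (nat_lit 0) (nat_lit 0) (XT.lf (nat_lit 0) (nat_lit 6264374192) (nat_lit 152) (nat_lit 1365501260) (nat_lit 228) (nat_lit 11015644068) (nat_lit 40) (nat_lit 5) (nat_lit 42) (nat_lit 5) (nat_lit 43) (nat_lit 5) (nat_lit 347)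 (nat_lit 307) (nat_lit 246)) (XT.lf (nat_lit 0) (nat_lit 11952703955) (nat_lit 228) (nat_lit 2702653753) (nat_lit 76) (nat_lit 4606692702) (nat_lit 40) (nat_lit 5) (nat_lit 43) (nat_lit 5) (nat_lit 41) (nat_lit 5) (nat_lit 348) (nat_lit 307) (nat_lit 245))))) (XT.nd (nat_lit 234) (nat_lit 152) (nat_lit 0) (XT.nd (nat_lit 78) (nat_lit 228) (nat_lit 0) (XT.lf (nat_lit 0) (nat_lit 7637871649) (nat_lit 152) (nat_lit 8968140717) (nat_lit 228) (nat_lit 3297696403) (nat_lit 38) (nat_lit 5) (nat_lit 40) (nat_lit 5) (nat_lit 41) (nat_lit 5) (nat_lit 349) (nat_lit 307) (nat_lit 244)) (XT.nd (nat_lit 78) (nat_lit 152) (nat_lit 0) (XT.lf (nat_lit 0) (nat_lit 904661755) (nat_lit 228) (nat_lit 2045105984) (nat_lit 76) (nat_lit 17626014752) (nat_lit 37) (nat_lit 5) (nat_lit 40) (nat_lit 5) (nat_lit 38) (nat_lit 5) (nat_lit 350) (nat_lit 307) (nat_lit 243)) (XT.lf (nat_lit 0) (nat_lit 5374549591) (nat_lit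 228) (nat_lit 12454070749) (nat_lit 76) (nat_lit 3441740150) (nat_lit 35) (nat_lit 5) (nat_lit 38) (nat_lit 5) (nat_lit 36) (nat_lit 5) (nat_lit 351) (nat_lit 307) (nat_lit 242)))) (XT.nd (nat_lit 78) (nat_lit 152) (nat_lit 0) (XT.lf (nat_lit 0) (nat_lit 10125990351) (nat_lit 228) (nat_lit 1797515987) (nat_lit 76) (nat_lit 10073272811) (nat_lit 35) (nat_lit 5) (nat_lit 38) (nat_lit 5) (nat_lit 36) (nat_lit 5) (nat_lit 352) (nat_lit 307) (nat_lit 241)) (XT.nd (nat_lit 78) (nat_lit 0) (nat_lit 0) (XT.lf (nat_lit 0) (nat_lit 9660675681) (nat_lit 152) (nat_lit 5580871058) (nat_lit 228) (nat_lit 7511658807) (nat_lit 33) (nat_lit 5) (nat_lit 35) (nat_lit 5) (nat_lit 36) (nat_lit 5) (nat_lit 353) (nat_lit 307) (nat_lit 240)) (XT.lf (nat_lit 0) (nat_lit 20636666133) (nat_lit 228) (nat_lit 1849784661) (nat_lit 76) (nat_lit 1059826534) (nat_lit 33) (nat_lit 5) (nat_lit 36) (nat_lit 5) (nat_lit 34)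 (nat_lit 4) (nat_lit 354) (nat_lit 307) (nat_lit 239)))))) (XT.nd (nat_lit 468) (nat_lit 456) (nat_lit 0) (XT.nd (nat_lit 234) (nat_lit 152) (nat_lit 0) (XT.nd (nat_lit 78) (nat_lit 152) (nat_lit 0) (XT.lf (nat_lit 0) (nat_lit 2091813863) (nat_lit 152) (nat_lit 14251692036) (nat_lit 76) (nat_lit 8022467653) (nat_lit 31) (nat_lit 5) (nat_lit 33) (nat_lit 5) (nat_lit 32) (nat_lit 5) (nat_lit 355) (nat_lit 307) (nat_lit 238)) (XT.nd (nat_lit 78) (nat_lit 152) (nat_lit 0) (XT.lf (nat_lit 0) (nat_lit 7254626141) (nat_lit 152) (nat_lit 2571422135) (nat_lit 76) (nat_lit 15397777991) (nat_lit 31) (nat_lit 5) (nat_lit 33) (nat_lit 5) (nat_lit 32) (nat_lit 5) (nat_lit 356) (nat_lit 307) (nat_lit 237)) (XT.lf (nat_lit 0) (nat_lit 9975085192) (nat_lit 152) (nat_lit 2834573283) (nat_lit 228) (nat_lit 13308220131) (nat_lit 29) (nat_lit 5) (nat_lit 31) (nat_lit 5) (nat_lit 32) (nat_lit 5) (nat_lit 357)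 (nat_lit 307) (nat_lit 236)))) (XT.nd (nat_lit 78) (nat_lit 152) (nat_lit 0) (XT.lf (nat_lit 0) (nat_lit 18735628110) (nat_lit 228) (nat_lit 3924612818) (nat_lit 76) (nat_lit 4391743786) (nat_lit 29) (nat_lit 5) (nat_lit 32) (nat_lit 5) (nat_lit 30) (nat_lit 4) (nat_lit 358) (nat_lit 307) (nat_lit 235)) (XT.nd (nat_lit 78) (nat_lit 76) (nat_lit 0) (XT.lf (nat_lit 0) (nat_lit 9114219470) (nat_lit 76) (nat_lit 16012029191) (nat_lit 152) (nat_lit 2898139784) (nat_lit 28) (nat_lit 5) (nat_lit 29) (nat_lit 5) (nat_lit 30) (nat_lit 4) (nat_lit 359) (nat_lit 307) (nat_lit 234)) (XT.lf (nat_lit 0) (nat_lit 2748889116) (nat_lit 152) (nat_lit 6181116079) (nat_lit 76) (nat_lit 20110875914) (nat_lit 27) (nat_lit 5) (nat_lit 29) (nat_lit 5) (nat_lit 28) (nat_lit 5) (nat_lit 360) (nat_lit 307) (nat_lit 233))))) (XT.nd (nat_lit 234) (nat_lit 228) (nat_lit 0) (XT.nd (nat_lit 78) (nat_lit 76) (nat_lit 0)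 (XT.lf (nat_lit 0) (nat_lit 7337821461) (nat_lit 152) (nat_lit 1338258765) (nat_lit 228) (nat_lit 21424990879) (nat_lit 25) (nat_lit 5) (nat_lit 27) (nat_lit 5) (nat_lit 28) (nat_lit 5) (nat_lit 361) (nat_lit 307) (nat_lit 232)) (XT.nd (nat_lit 78) (nat_lit 76) (nat_lit 0) (XT.lf (nat_lit 0) (nat_lit 15090407157) (nat_lit 228) (nat_lit 9601110891) (nat_lit 76) (nat_lit 6513221916) (nat_lit 25) (nat_lit 5) (nat_lit 28) (nat_lit 5) (nat_lit 26) (nat_lit 4) (nat_lit 362) (nat_lit 307) (nat_lit 231)) (XT.lf (nat_lit 0) (nat_lit 4302426740) (nat_lit 76) (nat_lit 17593867792) (nat_lit 152) (nat_lit 10463763319) (nat_lit 24) (nat_lit 5) (nat_lit 25) (nat_lit 5) (nat_lit 26) (nat_lit 4) (nat_lit 363) (nat_lit 307) (nat_lit 230)))) (XT.nd (nat_lit 78) (nat_lit 228) (nat_lit 0) (XT.lf (nat_lit 0) (nat_lit 19202520000) (nat_lit 76) (nat_lit 9984659276) (nat_lit 152) (nat_lit 4378734623) (nat_lit 24)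 (nat_lit 5) (nat_lit 25) (nat_lit 5) (nat_lit 26) (nat_lit 4) (nat_lit 364) (nat_lit 307) (nat_lit 229)) (XT.nd (nat_lit 78) (nat_lit 152) (nat_lit 0) (XT.lf (nat_lit 0) (nat_lit 1928864996) (nat_lit 152) (nat_lit 46843537) (nat_lit 76) (nat_lit 32855657957) (nat_lit 23) (nat_lit 5) (nat_lit 25) (nat_lit 5) (nat_lit 24) (nat_lit 5) (nat_lit 365) (nat_lit 307) (nat_lit 228)) (XT.lf (nat_lit 0) (nat_lit 8733610077) (nat_lit 228) (nat_lit 20874328228) (nat_lit 76) (nat_lit 6532124701) (nat_lit 21) (nat_lit 5) (nat_lit 24) (nat_lit 5) (nat_lit 22) (nat_lit 4) (nat_lit 366) (nat_lit 307) (nat_lit 227))))))))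
noncomputable def xc121 : XT := (XT.nd (nat_lit 1716) (nat_lit 456) (nat_lit 0) (XT.nd (nat_lit 858) (nat_lit 304) (nat_lit 0) (XT.nd (nat_lit 390) (nat_lit 228) (nat_lit 0) (XT.nd (nat_lit 156) (nat_lit 152) (nat_lit 0) (XT.nd (nat_lit 78) (nat_lit 76) (nat_lit 0) (XT.lf (nat_lit 0) (nat_lit 15895413353) (nat_lit 228) (nat_lit 6230657201) (nat_lit 76) (nat_lit 15387288850) (nat_lit 21) (nat_lit 5) (nat_lit 24) (nat_lit 5) (nat_lit 22) (nat_lit 4) (nat_lit 367) (nat_lit 307) (nat_lit 226)) (XT.lf (nat_lit 0) (nat_lit 9418388277) (nat_lit 76) (nat_lit 14128371623) (nat_lit 152) (nat_lit 15401993878) (nat_lit 20) (nat_lit 5) (nat_lit 21) (nat_lit 5) (nat_lit 22) (nat_lit 4) (nat_lit 368) (nat_lit 307) (nat_lit 225))) (XT.nd (nat_lit 78) (nat_lit 152) (nat_lit 0) (XT.lf (nat_lit 0) (nat_lit 26038399782) (nat_lit 76) (nat_lit 5632507400) (nat_lit 152) (nat_lit 8780504554) (nat_lit 20) (nat_lit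 5) (nat_lit 21) (nat_lit 5) (nat_lit 22) (nat_lit 4) (nat_lit 369) (nat_lit 307) (nat_lit 224)) (XT.nd (nat_lit 78) (nat_lit 76) (nat_lit 0) (XT.lf (nat_lit 0) (nat_lit 1427538338) (nat_lit 76) (nat_lit 38832604621) (nat_lit 76) (nat_lit 1766120846) (nat_lit 19) (nat_lit 4) (nat_lit 20) (nat_lit 5) (nat_lit 20) (nat_lit 4) (nat_lit 370) (nat_lit 307) (nat_lit 223)) (XT.lf (nat_lit 0) (nat_lit 5745509811) (nat_lit 152) (nat_lit 25317982784) (nat_lit 76) (nat_lit 12595713368) (nat_lit 18) (nat_lit 5) (nat_lit 20) (nat_lit 5) (nat_lit 19) (nat_lit 4) (nat_lit 371) (nat_lit 307) (nat_lit 222))))) (XT.nd (nat_lit 234) (nat_lit 152) (nat_lit 0) (XT.nd (nat_lit 78) (nat_lit 76) (nat_lit 0) (XT.lf (nat_lit 0) (nat_lit 13559369849) (nat_lit 152) (nat_lit 9327945063) (nat_lit 76) (nat_lit 22485737176) (nat_lit 18) (nat_lit 5) (nat_lit 20) (nat_lit 5) (nat_lit 19) (nat_lit 4) (nat_lit 372) (nat_lit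 307) (nat_lit 221)) (XT.nd (nat_lit 78) (nat_lit 0) (nat_lit 0) (XT.lf (nat_lit 0) (nat_lit 7682935217) (nat_lit 76) (nat_lit 14187607523) (nat_lit 152) (nat_lit 25296721121) (nat_lit 17) (nat_lit 5) (nat_lit 18) (nat_lit 5) (nat_lit 19) (nat_lit 4) (nat_lit 373) (nat_lit 307) (nat_lit 220)) (XT.lf (nat_lit 0) (nat_lit 25844039616) (nat_lit 76) (nat_lit 4898133214) (nat_lit 152) (nat_lit 18301772598) (nat_lit 17) (nat_lit 5) (nat_lit 18) (nat_lit 5) (nat_lit 19) (nat_lit 4) (nat_lit 374) (nat_lit 307) (nat_lit 219)))) (XT.nd (nat_lit 78) (nat_lit 152) (nat_lit 0) (XT.lf (nat_lit 0) (nat_lit 40120580290) (nat_lit 152) (nat_lit 6200550715) (nat_lit 0) (nat_lit 4690174208) (nat_lit 17) (nat_lit 5) (nat_lit 19) (nat_lit 4) (nat_lit 17) (nat_lit 4) (nat_lit 375) (nat_lit 307) (nat_lit 218)) (XT.nd (nat_lit 78) (nat_lit 76) (nat_lit 0) (XT.lf (nat_lit 0) (nat_lit 11927883541) (nat_lit 76) (nat_lit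 38294533335) (nat_lit 76) (nat_lit 2841894420) (nat_lit 16) (nat_lit 4) (nat_lit 17) (nat_lit 5) (nat_lit 17) (nat_lit 4) (nat_lit 376) (nat_lit 307) (nat_lit 217)) (XT.lf (nat_lit 0) (nat_lit 5524589150) (nat_lit 152) (nat_lit 24148405283) (nat_lit 76) (nat_lit 25537860408) (nat_lit 15) (nat_lit 5) (nat_lit 17) (nat_lit 5) (nat_lit 16) (nat_lit 4) (nat_lit 377) (nat_lit 307) (nat_lit 216)))))) (XT.nd (nat_lit 390) (nat_lit 152) (nat_lit 0) (XT.nd (nat_lit 156) (nat_lit 76) (nat_lit 0) (XT.nd (nat_lit 78) (nat_lit 76) (nat_lit 0) (XT.lf (nat_lit 0) (nat_lit 14202477150) (nat_lit 152) (nat_lit 6378900719) (nat_lit 76) (nat_lit 36881592184) (nat_lit 15) (nat_lit 5) (nat_lit 17) (nat_lit 5) (nat_lit 16) (nat_lit 4) (nat_lit 378) (nat_lit 307) (nat_lit 215)) (XT.lf (nat_lit 0) (nat_lit 12664094324) (nat_lit 76) (nat_lit 10837017265) (nat_lit 152) (nat_lit 36317239916) (nat_lit 14) (nat_lit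 5) (nat_lit 15) (nat_lit 5) (nat_lit 16) (nat_lit 4) (nat_lit 379) (nat_lit 307) (nat_lit 214))) (XT.nd (nat_lit 78) (nat_lit 76) (nat_lit 0) (XT.lf (nat_lit 0) (nat_lit 32860712953) (nat_lit 76) (nat_lit 501330166) (nat_lit 152) (nat_lit 28924593578) (nat_lit 14) (nat_lit 5) (nat_lit 15) (nat_lit 5) (nat_lit 16) (nat_lit 4) (nat_lit 380) (nat_lit 307) (nat_lit 213)) (XT.nd (nat_lit 78) (nat_lit 76) (nat_lit 0) (XT.lf (nat_lit 0) (nat_lit 43867336354) (nat_lit 152) (nat_lit 10992191385) (nat_lit 0) (nat_lit 10011245449) (nat_lit 14) (nat_lit 5) (nat_lit 16) (nat_lit 4) (nat_lit 14) (nat_lit 4) (nat_lit 381) (nat_lit 307) (nat_lit 212)) (XT.lf (nat_lit 0) (nat_lit 8612168993) (nat_lit 76) (nat_lit 46418598926) (nat_lit 76) (nat_lit 12546707562) (nat_lit 13) (nat_lit 4) (nat_lit 14) (nat_lit 5) (nat_lit 14) (nat_lit 4) (nat_lit 382) (nat_lit 307) (nat_lit 211))))) (XT.nd (nat_lit 234) (nat_lit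 76) (nat_lit 0) (XT.nd (nat_lit 78) (nat_lit 76) (nat_lit 0) (XT.lf (nat_lit 0) (nat_lit 29560186310) (nat_lit 76) (nat_lit 37368720866) (nat_lit 76) (nat_lit 3481781444) (nat_lit 13) (nat_lit 4) (nat_lit 14) (nat_lit 5) (nat_lit 14) (nat_lit 4) (nat_lit 383) (nat_lit 307) (nat_lit 210)) (XT.nd (nat_lit 78) (nat_lit 0) (nat_lit 0) (XT.lf (nat_lit 0) (nat_lit 5833872426) (nat_lit 152) (nat_lit 21941832430) (nat_lit 76) (nat_lit 45605613428) (nat_lit 12) (nat_lit 5) (nat_lit 14) (nat_lit 5) (nat_lit 13) (nat_lit 4) (nat_lit 384) (nat_lit 307) (nat_lit 209)) (XT.lf (nat_lit 0) (nat_lit 15489425595) (nat_lit 152) (nat_lit 2161597464) (nat_lit 76) (nat_lit 58847048278) (nat_lit 12) (nat_lit 5) (nat_lit 14) (nat_lit 5) (nat_lit 13) (nat_lit 4) (nat_lit 385) (nat_lit 307) (nat_lit 208)))) (XT.nd (nat_lit 78) (nat_lit 0) (nat_lit 0) (XT.lf (nat_lit 0) (nat_lit 19206382950) (nat_lit 76) (nat_lit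 6712788739) (nat_lit 152) (nat_lit 53836921678) (nat_lit 11) (nat_lit 5) (nat_lit 12) (nat_lit 5) (nat_lit 13) (nat_lit 4) (nat_lit 386) (nat_lit 307) (nat_lit 207)) (XT.nd (nat_lit 78) (nat_lit 0) (nat_lit 0) (XT.lf (nat_lit 0) (nat_lit 36973713201) (nat_lit 152) (nat_lit 41548521043) (nat_lit 0) (nat_lit 4649618833) (nat_lit 11) (nat_lit 5) (nat_lit 13) (nat_lit 4) (nat_lit 11) (nat_lit 4) (nat_lit 387) (nat_lit 307) (nat_lit 206)) (XT.lf (nat_lit 0) (nat_lit 48683018379) (nat_lit 152) (nat_lit 21722587538) (nat_lit 0) (nat_lit 16347694919) (nat_lit 11) (nat_lit 5) (nat_lit 13) (nat_lit 4) (nat_lit 11) (nat_lit 4) (nat_lit 388) (nat_lit 307) (nat_lit 205))))))) (XT.nd (nat_lit 858) (nat_lit 152) (nat_lit 0) (XT.nd (nat_lit 390) (nat_lit 152) (nat_lit 0) (XT.nd (nat_lit 156) (nat_lit 76) (nat_lit 0) (XT.nd (nat_lit 78) (nat_lit 76) (nat_lit 0) (XT.lf (nat_lit 0) (nat_lit 60970161077) (nat_lit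 152) (nat_lit 919899854) (nat_lit 0) (nat_lit 28624143243) (nat_lit 11) (nat_lit 5) (nat_lit 13) (nat_lit 4) (nat_lit 11) (nat_lit 4) (nat_lit 389) (nat_lit 307) (nat_lit 204)) (XT.lf (nat_lit 0) (nat_lit 21600420574) (nat_lit 76) (nat_lit 52601218920) (nat_lit 76) (nat_lit 20245015969) (nat_lit 10) (nat_lit 4) (nat_lit 11) (nat_lit 5) (nat_lit 11) (nat_lit 4) (nat_lit 390) (nat_lit 307) (nat_lit 203))) (XT.nd (nat_lit 78) (nat_lit 76) (nat_lit 0) (XT.lf (nat_lit 0) (nat_lit 45265067262) (nat_lit 76) (nat_lit 42838072186) (nat_lit 76) (nat_lit 10472169124) (nat_lit 10) (nat_lit 4) (nat_lit 11) (nat_lit 5) (nat_lit 11) (nat_lit 4) (nat_lit 391) (nat_lit 307) (nat_lit 202)) (XT.nd (nat_lit 78) (nat_lit 76) (nat_lit 0) (XT.lf (nat_lit 0) (nat_lit 70099968561) (nat_lit 76) (nat_lit 32592954092) (nat_lit 76) (nat_lit 217812828) (nat_lit 10) (nat_lit 4) (nat_lit 11) (nat_lit 5) (nat_lit 11) (nat_lit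 4) (nat_lit 392) (nat_lit 307) (nat_lit 201)) (XT.lf (nat_lit 0) (nat_lit 10205043236) (nat_lit 152) (nat_lit 11463600915) (nat_lit 76) (nat_lit 85786384607) (nat_lit 9) (nat_lit 5) (nat_lit 11) (nat_lit 5) (nat_lit 10) (nat_lit 4) (nat_lit 393) (nat_lit 307) (nat_lit 200))))) (XT.nd (nat_lit 234) (nat_lit 76) (nat_lit 0) (XT.nd (nat_lit 78) (nat_lit 0) (nat_lit 0) (XT.lf (nat_lit 0) (nat_lit 11296945912) (nat_lit 76) (nat_lit 10014890567) (nat_lit 152) (nat_lit 90906017316) (nat_lit 8) (nat_lit 5) (nat_lit 9) (nat_lit 5) (nat_lit 10) (nat_lit 4) (nat_lit 394) (nat_lit 307) (nat_lit 199)) (XT.nd (nat_lit 78) (nat_lit 0) (nat_lit 0) (XT.lf (nat_lit 0) (nat_lit 33199741807) (nat_lit 152) (nat_lit 81665476919) (nat_lit 0) (nat_lit 2342314018) (nat_lit 8) (nat_lit 5) (nat_lit 10) (nat_lit 4) (nat_lit 8) (nat_lit 4) (nat_lit 395) (nat_lit 307) (nat_lit 198)) (XT.lf (nat_lit 0) (nat_lit 45840281419)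 (nat_lit 152) (nat_lit 61622888231) (nat_lit 0) (nat_lit 14975615258) (nat_lit 8) (nat_lit 5) (nat_lit 10) (nat_lit 4) (nat_lit 8) (nat_lit 4) (nat_lit 396) (nat_lit 307) (nat_lit 197)))) (XT.nd (nat_lit 78) (nat_lit 76) (nat_lit 0) (XT.lf (nat_lit 0) (nat_lit 59107191333) (nat_lit 152) (nat_lit 40589060860) (nat_lit 0) (nat_lit 28235631483) (nat_lit 8) (nat_lit 5) (nat_lit 10) (nat_lit 4) (nat_lit 8) (nat_lit 4) (nat_lit 397) (nat_lit 307) (nat_lit 196)) (XT.nd (nat_lit 78) (nat_lit 76) (nat_lit 0) (XT.lf (nat_lit 0) (nat_lit 73032059427) (nat_lit 152) (nat_lit 18513914267) (nat_lit 0) (nat_lit 42153934160) (nat_lit 8) (nat_lit 5) (nat_lit 10) (nat_lit 4) (nat_lit 8) (nat_lit 4) (nat_lit 398) (nat_lit 307) (nat_lit 195)) (XT.lf (nat_lit 0) (nat_lit 4809030427) (nat_lit 76) (nat_lit 82914092165) (nat_lit 76) (nat_lit 52029714120) (nat_lit 7) (nat_lit 4) (nat_lit 8) (nat_lit 5) (nat_lit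 8) (nat_lit 4) (nat_lit 399) (nat_lit 307) (nat_lit 194)))))) (XT.nd (nat_lit 468) (nat_lit 76) (nat_lit 0) (XT.nd (nat_lit 234) (nat_lit 76) (nat_lit 0) (XT.nd (nat_lit 78) (nat_lit 0) (nat_lit 0) (XT.lf (nat_lit 0) (nat_lit 29931164748) (nat_lit 76) (nat_lit 73526078073) (nat_lit 76) (nat_lit 42635745000) (nat_lit 7) (nat_lit 4) (nat_lit 8) (nat_lit 5) (nat_lit 8) (nat_lit 4) (nat_lit 400) (nat_lit 307) (nat_lit 193)) (XT.nd (nat_lit 78) (nat_lit 0) (nat_lit 0) (XT.lf (nat_lit 0) (nat_lit 56300149682) (nat_lit 76) (nat_lit 63673121100) (nat_lit 76) (nat_lit 32777116573) (nat_lit 7) (nat_lit 4) (nat_lit 8) (nat_lit 5) (nat_lit 8) (nat_lit 4) (nat_lit 401) (nat_lit 307) (nat_lit 192)) (XT.lf (nat_lit 0) (nat_lit 83978768528) (nat_lit 76) (nat_lit 53331761825) (nat_lit 76) (nat_lit 22430355912) (nat_lit 7) (nat_lit 4) (nat_lit 8) (nat_lit 5) (nat_lit 8) (nat_lit 4) (nat_lit 402) (nat_lit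 307) (nat_lit 191)))) (XT.nd (nat_lit 78) (nat_lit 76) (nat_lit 0) (XT.lf (nat_lit 0) (nat_lit 113032922758) (nat_lit 76) (nat_lit 42477377964) (nat_lit 76) (nat_lit 11570827875) (nat_lit 7) (nat_lit 4) (nat_lit 8) (nat_lit 5) (nat_lit 8) (nat_lit 4) (nat_lit 403) (nat_lit 307) (nat_lit 190)) (XT.nd (nat_lit 78) (nat_lit 76) (nat_lit 0) (XT.lf (nat_lit 0) (nat_lit 143531788930) (nat_lit 76) (nat_lit 31084125745) (nat_lit 76) (nat_lit 172676441) (nat_lit 7) (nat_lit 4) (nat_lit 8) (nat_lit 5) (nat_lit 8) (nat_lit 4) (nat_lit 404) (nat_lit 307) (nat_lit 189)) (XT.lf (nat_lit 0) (nat_lit 11413843627) (nat_lit 152) (nat_lit 7517735787) (nat_lit 76) (nat_lit 163940840800) (nat_lit 6) (nat_lit 5) (nat_lit 8) (nat_lit 5) (nat_lit 7) (nat_lit 4) (nat_lit 405) (nat_lit 307) (nat_lit 188))))) (XT.nd (nat_lit 234) (nat_lit 0) (nat_lit 0) (XT.nd (nat_lit 78) (nat_lit 0) (nat_lit 0) (XT.lf (nat_lit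 0) (nat_lit 17973332578) (nat_lit 76) (nat_lit 5877346219) (nat_lit 152) (nat_lit 167495781537) (nat_lit 5) (nat_lit 5) (nat_lit 6) (nat_lit 5) (nat_lit 7) (nat_lit 4) (nat_lit 406) (nat_lit 307) (nat_lit 187)) (XT.nd (nat_lit 78) (nat_lit 0) (nat_lit 0) (XT.lf (nat_lit 0) (nat_lit 37157193301) (nat_lit 152) (nat_lit 155369606640) (nat_lit 0) (nat_lit 7705011317) (nat_lit 5) (nat_lit 5) (nat_lit 7) (nat_lit 4) (nat_lit 5) (nat_lit 4) (nat_lit 407) (nat_lit 307) (nat_lit 186)) (XT.lf (nat_lit 0) (nat_lit 51221756755) (nat_lit 152) (nat_lit 136569301355) (nat_lit 0) (nat_lit 21765736107) (nat_lit 5) (nat_lit 5) (nat_lit 7) (nat_lit 4) (nat_lit 5) (nat_lit 4) (nat_lit 408) (nat_lit 307) (nat_lit 185)))) (XT.nd (nat_lit 78) (nat_lit 0) (nat_lit 0) (XT.lf (nat_lit 0) (nat_lit 65986094368) (nat_lit 152) (nat_lit 116835687422) (nat_lit 0) (nat_lit 36526417850) (nat_lit 5) (nat_lit 5) (nat_lit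 7) (nat_lit 4) (nat_lit 5) (nat_lit 4) (nat_lit 409) (nat_lit 307) (nat_lit 184)) (XT.nd (nat_lit 78) (nat_lit 0) (nat_lit 0) (XT.lf (nat_lit 0) (nat_lit 81485359325) (nat_lit 152) (nat_lit 96121780046) (nat_lit 0) (nat_lit 52022201026) (nat_lit 5) (nat_lit 5) (nat_lit 7) (nat_lit 4) (nat_lit 5) (nat_lit 4) (nat_lit 410) (nat_lit 307) (nat_lit 183)) (XT.lf (nat_lit 0) (nat_lit 97756454637) (nat_lit 152) (nat_lit 74378260402) (nat_lit 0) (nat_lit 68289980356) (nat_lit 5) (nat_lit 5) (nat_lit 7) (nat_lit 4) (nat_lit 5) (nat_lit 4) (nat_lit 411) (nat_lit 307) (nat_lit 182))))))))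
noncomputable def xc122 : XT := (XT.nd (nat_lit 38922) (nat_lit 0) (nat_lit 5016) (XT.nd (nat_lit 858) (nat_lit 152) (nat_lit 0) (XT.nd (nat_lit 390) (nat_lit 0) (nat_lit 0) (XT.nd (nat_lit 156) (nat_lit 76) (nat_lit 0) (XT.nd (nat_lit 78) (nat_lit 0) (nat_lit 0) (XT.lf (nat_lit 0) (nat_lit 114838121009) (nat_lit 152) (nat_lit 51553358202) (nat_lit 0) (nat_lit 85368488650) (nat_lit 5) (nat_lit 5) (nat_lit 7) (nat_lit 4) (nat_lit 5) (nat_lit 4) (nat_lit 412) (nat_lit 307) (nat_lit 181)) (XT.lf (nat_lit 0) (nat_lit 132771029073) (nat_lit 152) (nat_lit 27592728443) (nat_lit 0) (nat_lit 103298389021) (nat_lit 5) (nat_lit 5) (nat_lit 7) (nat_lit 4) (nat_lit 5) (nat_lit 4) (nat_lit 413) (nat_lit 307) (nat_lit 180))) (XT.nd (nat_lit 78) (nat_lit 76) (nat_lit 0) (XT.lf (nat_lit 0) (nat_lit 151597876231) (nat_lit 152) (nat_lit 2439322006) (nat_lit 0) (nat_lit 122122371709) (nat_lit 5) (nat_lit 5)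 (nat_lit 7) (nat_lit 4) (nat_lit 5) (nat_lit 4) (nat_lit 414) (nat_lit 307) (nat_lit 179)) (XT.nd (nat_lit 78) (nat_lit 0) (nat_lit 0) (XT.lf (nat_lit 0) (nat_lit 24759199168) (nat_lit 76) (nat_lit 146990849627) (nat_lit 76) (nat_lit 117512617038) (nat_lit 4) (nat_lit 4) (nat_lit 5) (nat_lit 5) (nat_lit 5) (nat_lit 4) (nat_lit 415) (nat_lit 307) (nat_lit 178)) (XT.lf (nat_lit 0) (nat_lit 53397410293) (nat_lit 76) (nat_lit 139551199215) (nat_lit 76) (nat_lit 110070368468) (nat_lit 4) (nat_lit 4) (nat_lit 5) (nat_lit 5) (nat_lit 5) (nat_lit 4) (nat_lit 416) (nat_lit 307) (nat_lit 177))))) (XT.nd (nat_lit 234) (nat_lit 0) (nat_lit 0) (XT.nd (nat_lit 78) (nat_lit 0) (nat_lit 0) (XT.lf (nat_lit 0) (nat_lit 83462842581) (nat_lit 76) (nat_lit 131741844649) (nat_lit 76) (nat_lit 102258539465) (nat_lit 4) (nat_lit 4) (nat_lit 5) (nat_lit 5) (nat_lit 5) (nat_lit 4) (nat_lit 417) (nat_lit 307) (nat_lit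 176)) (XT.nd (nat_lit 78) (nat_lit 0) (nat_lit 0) (XT.lf (nat_lit 0) (nat_lit 115027080397) (nat_lit 76) (nat_lit 123544192225) (nat_lit 76) (nat_lit 94058530435) (nat_lit 4) (nat_lit 4) (nat_lit 5) (nat_lit 5) (nat_lit 5) (nat_lit 4) (nat_lit 418) (nat_lit 307) (nat_lit 175)) (XT.lf (nat_lit 0) (nat_lit 148165276686) (nat_lit 76) (nat_lit 114938723725) (nat_lit 76) (nat_lit 85450817548) (nat_lit 4) (nat_lit 4) (nat_lit 5) (nat_lit 5) (nat_lit 5) (nat_lit 4) (nat_lit 419) (nat_lit 307) (nat_lit 174)))) (XT.nd (nat_lit 78) (nat_lit 0) (nat_lit 0) (XT.lf (nat_lit 0) (nat_lit 182956331916) (nat_lit 76) (nat_lit 105904949938) (nat_lit 76) (nat_lit 76414906249) (nat_lit 4) (nat_lit 4) (nat_lit 5) (nat_lit 5) (nat_lit 5) (nat_lit 4) (nat_lit 420) (nat_lit 307) (nat_lit 173)) (XT.nd (nat_lit 78) (nat_lit 0) (nat_lit 0) (XT.lf (nat_lit 0) (nat_lit 219483081933) (nat_lit 76) (nat_lit 96421361878)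 (nat_lit 76) (nat_lit 66929282464) (nat_lit 4) (nat_lit 4) (nat_lit 5) (nat_lit 5) (nat_lit 5) (nat_lit 4) (nat_lit 421) (nat_lit 307) (nat_lit 172)) (XT.lf (nat_lit 0) (nat_lit 257832495190) (nat_lit 76) (nat_lit 86465379574) (nat_lit 76) (nat_lit 56971361374) (nat_lit 4) (nat_lit 4) (nat_lit 5) (nat_lit 5) (nat_lit 5) (nat_lit 4) (nat_lit 422) (nat_lit 307) (nat_lit 171)))))) (XT.nd (nat_lit 390) (nat_lit 76) (nat_lit 0) (XT.nd (nat_lit 156) (nat_lit 76) (nat_lit 0) (XT.nd (nat_lit 78) (nat_lit 0) (nat_lit 0) (XT.lf (nat_lit 0) (nat_lit 298095879813) (nat_lit 76) (nat_lit 76013298306) (nat_lit 76) (nat_lit 46517433643) (nat_lit 4) (nat_lit 4) (nat_lit 5) (nat_lit 5) (nat_lit 5) (nat_lit 4) (nat_lit 423) (nat_lit 307) (nat_lit 170)) (XT.lf (nat_lit 0) (nat_lit 340369101003) (nat_lit 76) (nat_lit 65040232167) (nat_lit 76) (nat_lit 35542608968) (nat_lit 4) (nat_lit 4) (nat_lit 5) (nat_lit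 5) (nat_lit 5) (nat_lit 4) (nat_lit 424) (nat_lit 307) (nat_lit 169))) (XT.nd (nat_lit 78) (nat_lit 76) (nat_lit 0) (XT.lf (nat_lit 0) (nat_lit 384752809288) (nat_lit 76) (nat_lit 53520054808) (nat_lit 76) (nat_lit 24020756812) (nat_lit 4) (nat_lit 4) (nat_lit 5) (nat_lit 5) (nat_lit 5) (nat_lit 4) (nat_lit 425) (nat_lit 307) (nat_lit 168)) (XT.nd (nat_lit 78) (nat_lit 76) (nat_lit 0) (XT.lf (nat_lit 0) (nat_lit 431352680163) (nat_lit 76) (nat_lit 41425337235) (nat_lit 76) (nat_lit 11924444196) (nat_lit 4) (nat_lit 4) (nat_lit 5) (nat_lit 5) (nat_lit 5) (nat_lit 4) (nat_lit 426) (nat_lit 307) (nat_lit 167)) (XT.lf (nat_lit 0) (nat_lit 750320636) (nat_lit 152) (nat_lit 27964254822) (nat_lit 76) (nat_lit 479516638022) (nat_lit 3) (nat_lit 5) (nat_lit 5) (nat_lit 5) (nat_lit 4) (nat_lit 4) (nat_lit 427) (nat_lit 307) (nat_lit 166))))) (XT.nd (nat_lit 234) (nat_lit 0) (nat_lit 0) (XT.nd (nat_lit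 78) (nat_lit 76) (nat_lit 0) (XT.lf (nat_lit 0) (nat_lit 13656651170) (nat_lit 152) (nat_lit 1507723980) (nat_lit 76) (nat_lit 517762325561) (nat_lit 3) (nat_lit 5) (nat_lit 5) (nat_lit 5) (nat_lit 4) (nat_lit 4) (nat_lit 428) (nat_lit 307) (nat_lit 165)) (XT.nd (nat_lit 78) (nat_lit 0) (nat_lit 0) (XT.lf (nat_lit 0) (nat_lit 27137547836) (nat_lit 76) (nat_lit 493078786) (nat_lit 152) (nat_lit 531205219483) (nat_lit 2) (nat_lit 5) (nat_lit 3) (nat_lit 5) (nat_lit 4) (nat_lit 4) (nat_lit 429) (nat_lit 307) (nat_lit 164)) (XT.lf (nat_lit 0) (nat_lit 42560707707) (nat_lit 152) (nat_lit 529007638446) (nat_lit 0) (nat_lit 14459232482) (nat_lit 2) (nat_lit 5) (nat_lit 4) (nat_lit 4) (nat_lit 2) (nat_lit 4) (nat_lit 430) (nat_lit 307) (nat_lit 163)))) (XT.nd (nat_lit 37284) (nat_lit 0) (nat_lit 9880) (XT.lf (nat_lit 0) (nat_lit 58244080411) (nat_lit 152) (nat_lit 526193063264) (nat_lit 0) (nat_lit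 30141414939) (nat_lit 2) (nat_lit 5) (nat_lit 4) (nat_lit 4) (nat_lit 2) (nat_lit 4) (nat_lit 431) (nat_lit 307) (nat_lit 162)) (XT.nd (nat_lit 78) (nat_lit 0) (nat_lit 0) (XT.lf (nat_lit 0) (nat_lit 1865830292) (nat_lit 532) (nat_lit 864771559) (nat_lit 532) (nat_lit 864771559) (nat_lit 132) (nat_lit 3) (nat_lit 139) (nat_lit 3) (nat_lit 139) (nat_lit 5) (nat_lit 308) (nat_lit 308) (nat_lit 284)) (XT.lf (nat_lit 76) (nat_lit 1731365539) (nat_lit 0) (nat_lit 3686701004) (nat_lit 532) (nat_lit 1870162335) (nat_lit 133) (nat_lit 5) (nat_lit 132) (nat_lit 3) (nat_lit 139) (nat_lit 5) (nat_lit 309) (nat_lit 308) (nat_lit 283))))))) (XT.nd (nat_lit 858) (nat_lit 3344) (nat_lit 0) (XT.nd (nat_lit 390) (nat_lit 1064) (nat_lit 0) (XT.nd (nat_lit 156) (nat_lit 0) (nat_lit 0) (XT.nd (nat_lit 78) (nat_lit 456) (nat_lit 0) (XT.lf (nat_lit 76) (nat_lit 5370907609) (nat_lit 0) (nat_lit 1746076731) (nat_lit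 532) (nat_lit 277359531) (nat_lit 133) (nat_lit 5) (nat_lit 132) (nat_lit 3) (nat_lit 139) (nat_lit 5) (nat_lit 310) (nat_lit 308) (nat_lit 282)) (XT.lf (nat_lit 0) (nat_lit 1284377760) (nat_lit 532) (nat_lit 5851589701) (nat_lit 608) (nat_lit 372163560) (nat_lit 126) (nat_lit 5) (nat_lit 133) (nat_lit 5) (nat_lit 134) (nat_lit 5) (nat_lit 311) (nat_lit 308) (nat_lit 281))) (XT.nd (nat_lit 78) (nat_lit 0) (nat_lit 0) (XT.lf (nat_lit 0) (nat_lit 2884756732) (nat_lit 532) (nat_lit 2128704490) (nat_lit 608) (nat_lit 2615570646) (nat_lit 126) (nat_lit 5) (nat_lit 133) (nat_lit 5) (nat_lit 134) (nat_lit 5) (nat_lit 312) (nat_lit 308) (nat_lit 280)) (XT.nd (nat_lit 78) (nat_lit 0) (nat_lit 0) (XT.lf (nat_lit 76) (nat_lit 1780311376) (nat_lit 0) (nat_lit 2723517083) (nat_lit 608) (nat_lit 3255354158) (nat_lit 127) (nat_lit 5) (nat_lit 126) (nat_lit 5) (nat_lit 134) (nat_lit 5) (nat_lit 313) (nat_lit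 308) (nat_lit 279)) (XT.lf (nat_lit 76) (nat_lit 5902606433) (nat_lit 0) (nat_lit 251544542) (nat_lit 608) (nat_lit 1744307025) (nat_lit 127) (nat_lit 5) (nat_lit 126) (nat_lit 5) (nat_lit 134) (nat_lit 5) (nat_lit 314) (nat_lit 308) (nat_lit 278))))) (XT.nd (nat_lit 234) (nat_lit 532) (nat_lit 0) (XT.nd (nat_lit 78) (nat_lit 608) (nat_lit 0) (XT.lf (nat_lit 76) (nat_lit 2160826592) (nat_lit 0) (nat_lit 5715267756) (nat_lit 608) (nat_lit 169273234) (nat_lit 128) (nat_lit 5) (nat_lit 127) (nat_lit 5) (nat_lit 135) (nat_lit 5) (nat_lit 315) (nat_lit 308) (nat_lit 277)) (XT.nd (nat_lit 78) (nat_lit 0) (nat_lit 0) (XT.lf (nat_lit 0) (nat_lit 1395825993) (nat_lit 608) (nat_lit 1691024527) (nat_lit 684) (nat_lit 5113785872) (nat_lit 119) (nat_lit 5) (nat_lit 127) (nat_lit 5) (nat_lit 128) (nat_lit 5) (nat_lit 316) (nat_lit 308) (nat_lit 276)) (XT.lf (nat_lit 76) (nat_lit 2740076295) (nat_lit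 0) (nat_lit 260337284) (nat_lit 684) (nat_lit 5364878769) (nat_lit 120) (nat_lit 5) (nat_lit 119) (nat_lit 5) (nat_lit 128) (nat_lit 5) (nat_lit 317) (nat_lit 308) (nat_lit 275)))) (XT.nd (nat_lit 78) (nat_lit 608) (nat_lit 0) (XT.lf (nat_lit 0) (nat_lit 4683754132) (nat_lit 608) (nat_lit 1188171362) (nat_lit 76) (nat_lit 2666432815) (nat_lit 120) (nat_lit 5) (nat_lit 128) (nat_lit 5) (nat_lit 121) (nat_lit 5) (nat_lit 318) (nat_lit 308) (nat_lit 274)) (XT.nd (nat_lit 78) (nat_lit 0) (nat_lit 0) (XT.lf (nat_lit 0) (nat_lit 3521922471) (nat_lit 608) (nat_lit 2919207576) (nat_lit 684) (nat_lit 2279552573) (nat_lit 112) (nat_lit 5) (nat_lit 120) (nat_lit 5) (nat_lit 121) (nat_lit 5) (nat_lit 319) (nat_lit 308) (nat_lit 273)) (XT.lf (nat_lit 0) (nat_lit 8242859003) (nat_lit 684) (nat_lit 465446526) (nat_lit 76) (nat_lit 206087181) (nat_lit 112) (nat_lit 5) (nat_lit 121) (nat_lit 5) (nat_lit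 113) (nat_lit 5) (nat_lit 320) (nat_lit 308) (nat_lit 272)))))) (XT.nd (nat_lit 468) (nat_lit 1064) (nat_lit 0) (XT.nd (nat_lit 234) (nat_lit 760) (nat_lit 0) (XT.nd (nat_lit 78) (nat_lit 760) (nat_lit 0) (XT.lf (nat_lit 0) (nat_lit 1040359531) (nat_lit 760) (nat_lit 4586838964) (nat_lit 76) (nat_lit 3487080039) (nat_lit 102) (nat_lit 5) (nat_lit 112) (nat_lit 5) (nat_lit 103) (nat_lit 5) (nat_lit 321) (nat_lit 308) (nat_lit 271)) (XT.nd (nat_lit 78) (nat_lit 0) (nat_lit 0) (XT.lf (nat_lit 0) (nat_lit 405900980) (nat_lit 760) (nat_lit 2361174670) (nat_lit 836) (nat_lit 6559023761) (nat_lit 92) (nat_lit 5) (nat_lit 102) (nat_lit 5) (nat_lit 103) (nat_lit 5) (nat_lit 322) (nat_lit 308) (nat_lit 270)) (XT.lf (nat_lit 0) (nat_lit 4615336499) (nat_lit 836) (nat_lit 3815580438) (nat_lit 76) (nat_lit 1115911101) (nat_lit 92) (nat_lit 5) (nat_lit 103) (nat_lit 5) (nat_lit 93) (nat_lit 5) (nat_lit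 323) (nat_lit 308) (nat_lit 269)))) (XT.nd (nat_lit 78) (nat_lit 380) (nat_lit 0) (XT.lf (nat_lit 0) (nat_lit 1495792060) (nat_lit 380) (nat_lit 5064735155) (nat_lit 456) (nat_lit 3217913516) (nat_lit 87) (nat_lit 5) (nat_lit 92) (nat_lit 5) (nat_lit 93) (nat_lit 5) (nat_lit 324) (nat_lit 308) (nat_lit 268)) (XT.nd (nat_lit 78) (nat_lit 380) (nat_lit 0) (XT.lf (nat_lit 0) (nat_lit 7148487952) (nat_lit 380) (nat_lit 1463418512) (nat_lit 456) (nat_lit 1409351123) (nat_lit 87) (nat_lit 5) (nat_lit 92) (nat_lit 5) (nat_lit 93) (nat_lit 5) (nat_lit 325) (nat_lit 308) (nat_lit 267)) (XT.lf (nat_lit 0) (nat_lit 501267020) (nat_lit 380) (nat_lit 7478563416) (nat_lit 76) (nat_lit 2294701131) (nat_lit 82) (nat_lit 5) (nat_lit 87) (nat_lit 5) (nat_lit 83) (nat_lit 5) (nat_lit 326) (nat_lit 308) (nat_lit 266))))) (XT.nd (nat_lit 234) (nat_lit 684) (nat_lit 0) (XT.nd (nat_lit 78) (nat_lit 380) (nat_lit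 0) (XT.lf (nat_lit 0) (nat_lit 2481190462) (nat_lit 380) (nat_lit 1795641157) (nat_lit 76) (nat_lit 6261485982) (nat_lit 82) (nat_lit 5) (nat_lit 87) (nat_lit 5) (nat_lit 83) (nat_lit 5) (nat_lit 327) (nat_lit 308) (nat_lit 265)) (XT.nd (nat_lit 78) (nat_lit 0) (nat_lit 0) (XT.lf (nat_lit 0) (nat_lit 4252691083) (nat_lit 380) (nat_lit 324004037) (nat_lit 456) (nat_lit 6237826132) (nat_lit 77) (nat_lit 5) (nat_lit 82) (nat_lit 5) (nat_lit 83) (nat_lit 5) (nat_lit 328) (nat_lit 308) (nat_lit 264)) (XT.lf (nat_lit 0) (nat_lit 6819254772) (nat_lit 456) (nat_lit 553818768) (nat_lit 76) (nat_lit 3729402388) (nat_lit 77) (nat_lit 5) (nat_lit 83) (nat_lit 5) (nat_lit 78) (nat_lit 5) (nat_lit 329) (nat_lit 308) (nat_lit 263)))) (XT.nd (nat_lit 78) (nat_lit 380) (nat_lit 0) (XT.lf (nat_lit 0) (nat_lit 5883943297) (nat_lit 304) (nat_lit 3341108202) (nat_lit 380) (nat_lit 2177273603) (nat_lit 73) (nat_lit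 5) (nat_lit 77) (nat_lit 5) (nat_lit 78) (nat_lit 5) (nat_lit 330) (nat_lit 308) (nat_lit 262)) (XT.nd (nat_lit 78) (nat_lit 0) (nat_lit 0) (XT.lf (nat_lit 0) (nat_lit 25506496) (nat_lit 380) (nat_lit 10811906590) (nat_lit 76) (nat_lit 880143370) (nat_lit 68) (nat_lit 5) (nat_lit 73) (nat_lit 5) (nat_lit 69) (nat_lit 5) (nat_lit 331) (nat_lit 308) (nat_lit 261)) (XT.lf (nat_lit 0) (nat_lit 2370722228) (nat_lit 380) (nat_lit 4348982307) (nat_lit 76) (nat_lit 5321831936) (nat_lit 68) (nat_lit 5) (nat_lit 73) (nat_lit 5) (nat_lit 69) (nat_lit 5) (nat_lit 332) (nat_lit 308) (nat_lit 260))))))))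
noncomputable def xc123 : XT := (XT.nd (nat_lit 1716) (nat_lit 1292) (nat_lit 0) (XT.nd (nat_lit 858) (nat_lit 1140) (nat_lit 0) (XT.nd (nat_lit 390) (nat_lit 684) (nat_lit 0) (XT.nd (nat_lit 156) (nat_lit 608) (nat_lit 0) (XT.nd (nat_lit 78) (nat_lit 0) (nat_lit 0) (XT.lf (nat_lit 0) (nat_lit 2462988455) (nat_lit 228) (nat_lit 2366480149) (nat_lit 304) (nat_lit 7552476349) (nat_lit 65) (nat_lit 5) (nat_lit 68) (nat_lit 5) (nat_lit 69) (nat_lit 5) (nat_lit 333) (nat_lit 308) (nat_lit 259)) (XT.lf (nat_lit 0) (nat_lit 7479267071) (nat_lit 304) (nat_lit 3058765258) (nat_lit 76) (nat_lit 2197976707) (nat_lit 65) (nat_lit 5) (nat_lit 69) (nat_lit 5) (nat_lit 66) (nat_lit 5) (nat_lit 334) (nat_lit 308) (nat_lit 258))) (XT.nd (nat_lit 78) (nat_lit 304) (nat_lit 0) (XT.lf (nat_lit 0) (nat_lit 4188268443) (nat_lit 304) (nat_lit 6138270756) (nat_lit 380) (nat_lit 2778026903) (nat_lit 61) (nat_lit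 5) (nat_lit 65) (nat_lit 5) (nat_lit 66) (nat_lit 5) (nat_lit 335) (nat_lit 308) (nat_lit 257)) (XT.nd (nat_lit 78) (nat_lit 304) (nat_lit 0) (XT.lf (nat_lit 0) (nat_lit 11853253565) (nat_lit 304) (nat_lit 1476598247) (nat_lit 380) (nat_lit 161052477) (nat_lit 61) (nat_lit 5) (nat_lit 65) (nat_lit 5) (nat_lit 66) (nat_lit 5) (nat_lit 336) (nat_lit 308) (nat_lit 256)) (XT.lf (nat_lit 0) (nat_lit 2617841903) (nat_lit 304) (nat_lit 7836366021) (nat_lit 76) (nat_lit 3434672582) (nat_lit 57) (nat_lit 5) (nat_lit 61) (nat_lit 5) (nat_lit 58) (nat_lit 5) (nat_lit 337) (nat_lit 308) (nat_lit 255))))) (XT.nd (nat_lit 234) (nat_lit 304) (nat_lit 0) (XT.nd (nat_lit 78) (nat_lit 380) (nat_lit 0) (XT.lf (nat_lit 0) (nat_lit 5546526632) (nat_lit 304) (nat_lit 198899485) (nat_lit 76) (nat_lit 8560416561) (nat_lit 57) (nat_lit 5) (nat_lit 61) (nat_lit 5) (nat_lit 58) (nat_lit 5) (nat_lit 338) (nat_lit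 308) (nat_lit 254)) (XT.nd (nat_lit 78) (nat_lit 152) (nat_lit 0) (XT.lf (nat_lit 0) (nat_lit 8029557537) (nat_lit 228) (nat_lit 683035243) (nat_lit 304) (nat_lit 6026543352) (nat_lit 54) (nat_lit 5) (nat_lit 57) (nat_lit 5) (nat_lit 58) (nat_lit 5) (nat_lit 339) (nat_lit 308) (nat_lit 253)) (XT.lf (nat_lit 0) (nat_lit 1406451922) (nat_lit 152) (nat_lit 10694493051) (nat_lit 228) (nat_lit 3089979225) (nat_lit 52) (nat_lit 5) (nat_lit 54) (nat_lit 5) (nat_lit 55) (nat_lit 5) (nat_lit 340) (nat_lit 308) (nat_lit 252)))) (XT.nd (nat_lit 78) (nat_lit 228) (nat_lit 0) (XT.lf (nat_lit 0) (nat_lit 86882310) (nat_lit 228) (nat_lit 5560299050) (nat_lit 76) (nat_lit 10013488904) (nat_lit 51) (nat_lit 5) (nat_lit 54) (nat_lit 5) (nat_lit 52) (nat_lit 5) (nat_lit 341) (nat_lit 308) (nat_lit 251)) (XT.nd (nat_lit 78) (nat_lit 0) (nat_lit 0) (XT.lf (nat_lit 0) (nat_lit 3076271119) (nat_lit 228) (nat_lit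 258661771) (nat_lit 304) (nat_lit 12815653616) (nat_lit 48) (nat_lit 5) (nat_lit 51) (nat_lit 5) (nat_lit 52) (nat_lit 5) (nat_lit 342) (nat_lit 308) (nat_lit 250)) (XT.lf (nat_lit 0) (nat_lit 6894122984) (nat_lit 304) (nat_lit 4455629858) (nat_lit 76) (nat_lit 5307832790) (nat_lit 48) (nat_lit 5) (nat_lit 52) (nat_lit 5) (nat_lit 49) (nat_lit 5) (nat_lit 343) (nat_lit 308) (nat_lit 249)))))) (XT.nd (nat_lit 390) (nat_lit 532) (nat_lit 0) (XT.nd (nat_lit 156) (nat_lit 456) (nat_lit 0) (XT.nd (nat_lit 78) (nat_lit 0) (nat_lit 0) (XT.lf (nat_lit 0) (nat_lit 4695060094) (nat_lit 152) (nat_lit 5983973956) (nat_lit 228) (nat_lit 6508535374) (nat_lit 46) (nat_lit 5) (nat_lit 48) (nat_lit 5) (nat_lit 49) (nat_lit 5) (nat_lit 344) (nat_lit 308) (nat_lit 248)) (XT.lf (nat_lit 0) (nat_lit 14413738383) (nat_lit 152) (nat_lit 285856144) (nat_lit 228) (nat_lit 3042159383) (nat_lit 46) (nat_lit 5) (nat_lit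 48) (nat_lit 5) (nat_lit 49) (nat_lit 5) (nat_lit 345) (nat_lit 308) (nat_lit 247))) (XT.nd (nat_lit 78) (nat_lit 152) (nat_lit 0) (XT.lf (nat_lit 0) (nat_lit 741467280) (nat_lit 304) (nat_lit 11961400169) (nat_lit 76) (nat_lit 5612180556) (nat_lit 42) (nat_lit 5) (nat_lit 46) (nat_lit 5) (nat_lit 43) (nat_lit 5) (nat_lit 346) (nat_lit 308) (nat_lit 246)) (XT.nd (nat_lit 78) (nat_lit 152) (nat_lit 0) (XT.lf (nat_lit 0) (nat_lit 4646311532) (nat_lit 304) (nat_lit 2378278435) (nat_lit 76) (nat_lit 11888228367) (nat_lit 42) (nat_lit 5) (nat_lit 46) (nat_lit 5) (nat_lit 43) (nat_lit 5) (nat_lit 347) (nat_lit 308) (nat_lit 245)) (XT.lf (nat_lit 0) (nat_lit 7895225752) (nat_lit 152) (nat_lit 948058922) (nat_lit 228) (nat_lit 10692366026) (nat_lit 40) (nat_lit 5) (nat_lit 42) (nat_lit 5) (nat_lit 43) (nat_lit 5) (nat_lit 348) (nat_lit 308) (nat_lit 244))))) (XT.nd (nat_lit 234) (nat_lit 304) (nat_lit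 0) (XT.nd (nat_lit 78) (nat_lit 228) (nat_lit 0) (XT.lf (nat_lit 0) (nat_lit 13349861875) (nat_lit 228) (nat_lit 1549982406) (nat_lit 76) (nat_lit 5284809633) (nat_lit 40) (nat_lit 5) (nat_lit 43) (nat_lit 5) (nat_lit 41) (nat_lit 5) (nat_lit 349) (nat_lit 308) (nat_lit 243)) (XT.nd (nat_lit 78) (nat_lit 76) (nat_lit 0) (XT.lf (nat_lit 0) (nat_lit 9286798233) (nat_lit 152) (nat_lit 8930746899) (nat_lit 228) (nat_lit 2641789487) (nat_lit 38) (nat_lit 5) (nat_lit 40) (nat_lit 5) (nat_lit 41) (nat_lit 5) (nat_lit 350) (nat_lit 308) (nat_lit 242)) (XT.lf (nat_lit 0) (nat_lit 1706581771) (nat_lit 228) (nat_lit 915192016) (nat_lit 76) (nat_lit 18944511799) (nat_lit 37) (nat_lit 5) (nat_lit 40) (nat_lit 5) (nat_lit 38) (nat_lit 5) (nat_lit 351) (nat_lit 308) (nat_lit 241)))) (XT.nd (nat_lit 78) (nat_lit 152) (nat_lit 0) (XT.lf (nat_lit 0) (nat_lit 6390239010) (nat_lit 228) (nat_lit 11834449856)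 (nat_lit 76) (nat_lit 4071411378) (nat_lit 35) (nat_lit 5) (nat_lit 38) (nat_lit 5) (nat_lit 36) (nat_lit 5) (nat_lit 352) (nat_lit 308) (nat_lit 240)) (XT.nd (nat_lit 78) (nat_lit 152) (nat_lit 0) (XT.lf (nat_lit 0) (nat_lit 11343682191) (nat_lit 228) (nat_lit 704225662) (nat_lit 76) (nat_lit 11012730947) (nat_lit 35) (nat_lit 5) (nat_lit 38) (nat_lit 5) (nat_lit 36) (nat_lit 5) (nat_lit 353) (nat_lit 308) (nat_lit 239)) (XT.lf (nat_lit 0) (nat_lit 11307792265) (nat_lit 152) (nat_lit 5391522905) (nat_lit 228) (nat_lit 7156375919) (nat_lit 33) (nat_lit 5) (nat_lit 35) (nat_lit 5) (nat_lit 36) (nat_lit 5) (nat_lit 354) (nat_lit 308) (nat_lit 238))))))) (XT.nd (nat_lit 858) (nat_lit 608) (nat_lit 0) (XT.nd (nat_lit 390) (nat_lit 380) (nat_lit 0) (XT.nd (nat_lit 156) (nat_lit 152) (nat_lit 0) (XT.nd (nat_lit 78) (nat_lit 152) (nat_lit 0) (XT.lf (nat_lit 0) (nat_lit 22338027059) (nat_lit 228)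 (nat_lit 807088533) (nat_lit 76) (nat_lit 1544627619) (nat_lit 33) (nat_lit 5) (nat_lit 36) (nat_lit 5) (nat_lit 34) (nat_lit 4) (nat_lit 355) (nat_lit 308) (nat_lit 237)) (XT.lf (nat_lit 0) (nat_lit 2862569113) (nat_lit 152) (nat_lit 13825037257) (nat_lit 76) (nat_lit 8863020578) (nat_lit 31) (nat_lit 5) (nat_lit 33) (nat_lit 5) (nat_lit 32) (nat_lit 5) (nat_lit 356) (nat_lit 308) (nat_lit 236))) (XT.nd (nat_lit 78) (nat_lit 152) (nat_lit 0) (XT.lf (nat_lit 0) (nat_lit 8251799884) (nat_lit 152) (nat_lit 1615003355) (nat_lit 76) (nat_lit 16586171217) (nat_lit 31) (nat_lit 5) (nat_lit 33) (nat_lit 5) (nat_lit 32) (nat_lit 5) (nat_lit 357) (nat_lit 308) (nat_lit 235)) (XT.nd (nat_lit 78) (nat_lit 0) (nat_lit 0) (XT.lf (nat_lit 0) (nat_lit 11541329501) (nat_lit 152) (nat_lit 2529709300) (nat_lit 228) (nat_lit 13321383148) (nat_lit 29) (nat_lit 5) (nat_lit 31) (nat_lit 5) (nat_lit 32) (nat_lit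 5) (nat_lit 358) (nat_lit 308) (nat_lit 234)) (XT.lf (nat_lit 0) (nat_lit 20270380911) (nat_lit 228) (nat_lit 3080969103) (nat_lit 76) (nat_lit 5023044207) (nat_lit 29) (nat_lit 5) (nat_lit 32) (nat_lit 5) (nat_lit 30) (nat_lit 4) (nat_lit 359) (nat_lit 308) (nat_lit 233))))) (XT.nd (nat_lit 234) (nat_lit 76) (nat_lit 0) (XT.nd (nat_lit 78) (nat_lit 228) (nat_lit 0) (XT.lf (nat_lit 0) (nat_lit 10593032633) (nat_lit 76) (nat_lit 16374998521) (nat_lit 152) (nat_lit 2428025917) (nat_lit 28) (nat_lit 5) (nat_lit 29) (nat_lit 5) (nat_lit 30) (nat_lit 4) (nat_lit 360) (nat_lit 308) (nat_lit 232)) (XT.nd (nat_lit 78) (nat_lit 152) (nat_lit 0) (XT.lf (nat_lit 0) (nat_lit 3453320571) (nat_lit 152) (nat_lit 5496790181) (nat_lit 76) (nat_lit 21514213549) (nat_lit 27) (nat_lit 5) (nat_lit 29) (nat_lit 5) (nat_lit 28) (nat_lit 5) (nat_lit 361) (nat_lit 308) (nat_lit 231)) (XT.lf (nat_lit 0) (nat_lit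 8682071950) (nat_lit 152) (nat_lit 983059224) (nat_lit 228) (nat_lit 21912991602) (nat_lit 25) (nat_lit 5) (nat_lit 27) (nat_lit 5) (nat_lit 28) (nat_lit 5) (nat_lit 362) (nat_lit 308) (nat_lit 230)))) (XT.nd (nat_lit 78) (nat_lit 76) (nat_lit 0) (XT.lf (nat_lit 0) (nat_lit 16380010654) (nat_lit 228) (nat_lit 9129956015) (nat_lit 76) (nat_lit 7228028006) (nat_lit 25) (nat_lit 5) (nat_lit 28) (nat_lit 5) (nat_lit 26) (nat_lit 4) (nat_lit 363) (nat_lit 308) (nat_lit 229)) (XT.nd (nat_lit 78) (nat_lit 0) (nat_lit 0) (XT.lf (nat_lit 0) (nat_lit 5453416394) (nat_lit 76) (nat_lit 18061907381) (nat_lit 152) (nat_lit 10436308975) (nat_lit 24) (nat_lit 5) (nat_lit 25) (nat_lit 5) (nat_lit 26) (nat_lit 4) (nat_lit 364) (nat_lit 308) (nat_lit 228)) (XT.lf (nat_lit 0) (nat_lit 21053949159) (nat_lit 76) (nat_lit 10091841001) (nat_lit 152) (nat_lit 4073249916) (nat_lit 24) (nat_lit 5) (nat_lit 25) (nat_lit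 5) (nat_lit 26) (nat_lit 4) (nat_lit 365) (nat_lit 308) (nat_lit 227)))))) (XT.nd (nat_lit 468) (nat_lit 228) (nat_lit 0) (XT.nd (nat_lit 234) (nat_lit 152) (nat_lit 0) (XT.nd (nat_lit 78) (nat_lit 0) (nat_lit 0) (XT.lf (nat_lit 0) (nat_lit 842823214) (nat_lit 152) (nat_lit 1679107365) (nat_lit 228) (nat_lit 34025985434) (nat_lit 21) (nat_lit 5) (nat_lit 23) (nat_lit 5) (nat_lit 24) (nat_lit 5) (nat_lit 366) (nat_lit 308) (nat_lit 226)) (XT.nd (nat_lit 78) (nat_lit 0) (nat_lit 0) (XT.lf (nat_lit 0) (nat_lit 9649911295) (nat_lit 228) (nat_lit 21048989783) (nat_lit 76) (nat_lit 7224005296) (nat_lit 21) (nat_lit 5) (nat_lit 24) (nat_lit 5) (nat_lit 22) (nat_lit 4) (nat_lit 367) (nat_lit 308) (nat_lit 225)) (XT.lf (nat_lit 0) (nat_lit 17146965654) (nat_lit 228) (nat_lit 5714518770) (nat_lit 76) (nat_lit 16504533634) (nat_lit 21) (nat_lit 5) (nat_lit 24) (nat_lit 5) (nat_lit 22) (nat_lit 4)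 (nat_lit 368) (nat_lit 308) (nat_lit 224)))) (XT.nd (nat_lit 78) (nat_lit 76) (nat_lit 0) (XT.lf (nat_lit 0) (nat_lit 10703629445) (nat_lit 76) (nat_lit 14468212421) (nat_lit 152) (nat_lit 15701800274) (nat_lit 20) (nat_lit 5) (nat_lit 21) (nat_lit 5) (nat_lit 22) (nat_lit 4) (nat_lit 369) (nat_lit 308) (nat_lit 223)) (XT.nd (nat_lit 78) (nat_lit 76) (nat_lit 0) (XT.lf (nat_lit 0) (nat_lit 28115864299) (nat_lit 76) (nat_lit 5565011072) (nat_lit 152) (nat_lit 8771631402) (nat_lit 20) (nat_lit 5) (nat_lit 21) (nat_lit 5) (nat_lit 22) (nat_lit 4) (nat_lit 370) (nat_lit 308) (nat_lit 222)) (XT.lf (nat_lit 0) (nat_lit 2277717317) (nat_lit 76) (nat_lit 40418900261) (nat_lit 76) (nat_lit 1409638989) (nat_lit 19) (nat_lit 4) (nat_lit 20) (nat_lit 5) (nat_lit 20) (nat_lit 4) (nat_lit 371) (nat_lit 308) (nat_lit 221))))) (XT.nd (nat_lit 234) (nat_lit 76) (nat_lit 0) (XT.nd (nat_lit 78) (nat_lit 76)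 (nat_lit 0) (XT.lf (nat_lit 0) (nat_lit 6442834739) (nat_lit 152) (nat_lit 25828474204) (nat_lit 76) (nat_lit 13550221463) (nat_lit 18) (nat_lit 5) (nat_lit 20) (nat_lit 5) (nat_lit 19) (nat_lit 4) (nat_lit 372) (nat_lit 308) (nat_lit 220)) (XT.nd (nat_lit 78) (nat_lit 76) (nat_lit 0) (XT.lf (nat_lit 0) (nat_lit 14627861615) (nat_lit 152) (nat_lit 9074906393) (nat_lit 76) (nat_lit 23919283489) (nat_lit 18) (nat_lit 5) (nat_lit 20) (nat_lit 5) (nat_lit 19) (nat_lit 4) (nat_lit 373) (nat_lit 308) (nat_lit 219)) (XT.lf (nat_lit 0) (nat_lit 8774914096) (nat_lit 76) (nat_lit 14572133952) (nat_lit 152) (nat_lit 26159309116) (nat_lit 17) (nat_lit 5) (nat_lit 18) (nat_lit 5) (nat_lit 19) (nat_lit 4) (nat_lit 374) (nat_lit 308) (nat_lit 218)))) (XT.nd (nat_lit 78) (nat_lit 76) (nat_lit 0) (XT.lf (nat_lit 0) (nat_lit 27810367424) (nat_lit 76) (nat_lit 4833655162) (nat_lit 152) (nat_lit 18833767836)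 (nat_lit 17) (nat_lit 5) (nat_lit 18) (nat_lit 5) (nat_lit 19) (nat_lit 4) (nat_lit 375) (nat_lit 308) (nat_lit 217)) (XT.nd (nat_lit 78) (nat_lit 76) (nat_lit 0) (XT.lf (nat_lit 0) (nat_lit 42478582140) (nat_lit 152) (nat_lit 5855675639) (nat_lit 0) (nat_lit 5209904318) (nat_lit 17) (nat_lit 5) (nat_lit 19) (nat_lit 4) (nat_lit 17) (nat_lit 4) (nat_lit 376) (nat_lit 308) (nat_lit 216)) (XT.lf (nat_lit 0) (nat_lit 13168617384) (nat_lit 76) (nat_lit 39910192508) (nat_lit 76) (nat_lit 2621348850) (nat_lit 16) (nat_lit 4) (nat_lit 17) (nat_lit 5) (nat_lit 17) (nat_lit 4) (nat_lit 377) (nat_lit 308) (nat_lit 215))))))))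
noncomputable def xc124 : XT := (XT.nd (nat_lit 1716) (nat_lit 304) (nat_lit 0) (XT.nd (nat_lit 858) (nat_lit 228) (nat_lit 0) (XT.nd (nat_lit 390) (nat_lit 228) (nat_lit 0) (XT.nd (nat_lit 156) (nat_lit 76) (nat_lit 0) (XT.nd (nat_lit 78) (nat_lit 0) (nat_lit 0) (XT.lf (nat_lit 0) (nat_lit 6135136261) (nat_lit 152) (nat_lit 24731019878) (nat_lit 76) (nat_lit 27088430769) (nat_lit 15) (nat_lit 5) (nat_lit 17) (nat_lit 5) (nat_lit 16) (nat_lit 4) (nat_lit 378) (nat_lit 308) (nat_lit 214)) (XT.lf (nat_lit 0) (nat_lit 15230998773) (nat_lit 152) (nat_lit 6102792737) (nat_lit 76) (nat_lit 38986316879) (nat_lit 15) (nat_lit 5) (nat_lit 17) (nat_lit 5) (nat_lit 16) (nat_lit 4) (nat_lit 379) (nat_lit 308) (nat_lit 213))) (XT.nd (nat_lit 78) (nat_lit 0) (nat_lit 0) (XT.lf (nat_lit 0) (nat_lit 13882754429) (nat_lit 76) (nat_lit 11105789306) (nat_lit 152) (nat_lit 37805020537) (nat_lit 14) (nat_lit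 5) (nat_lit 15) (nat_lit 5) (nat_lit 16) (nat_lit 4) (nat_lit 380) (nat_lit 308) (nat_lit 212)) (XT.nd (nat_lit 78) (nat_lit 0) (nat_lit 0) (XT.lf (nat_lit 0) (nat_lit 35061325162) (nat_lit 76) (nat_lit 266321605) (nat_lit 152) (nat_lit 30058364805) (nat_lit 14) (nat_lit 5) (nat_lit 15) (nat_lit 5) (nat_lit 16) (nat_lit 4) (nat_lit 381) (nat_lit 308) (nat_lit 211)) (XT.lf (nat_lit 0) (nat_lit 46347905069) (nat_lit 152) (nat_lit 11000398078) (nat_lit 0) (nat_lit 10751570619) (nat_lit 14) (nat_lit 5) (nat_lit 16) (nat_lit 4) (nat_lit 14) (nat_lit 4) (nat_lit 382) (nat_lit 308) (nat_lit 210))))) (XT.nd (nat_lit 234) (nat_lit 76) (nat_lit 0) (XT.nd (nat_lit 78) (nat_lit 76) (nat_lit 0) (XT.lf (nat_lit 0) (nat_lit 9575448015) (nat_lit 76) (nat_lit 48488700398) (nat_lit 76) (nat_lit 12878034465) (nat_lit 13) (nat_lit 4) (nat_lit 14) (nat_lit 5) (nat_lit 14) (nat_lit 4) (nat_lit 383) (nat_lit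 308) (nat_lit 209)) (XT.nd (nat_lit 78) (nat_lit 76) (nat_lit 0) (XT.lf (nat_lit 0) (nat_lit 31545500933) (nat_lit 76) (nat_lit 38998272647) (nat_lit 76) (nat_lit 3373957683) (nat_lit 13) (nat_lit 4) (nat_lit 14) (nat_lit 5) (nat_lit 14) (nat_lit 4) (nat_lit 384) (nat_lit 308) (nat_lit 208)) (XT.lf (nat_lit 0) (nat_lit 6385461154) (nat_lit 152) (nat_lit 22547118674) (nat_lit 76) (nat_lit 48104745455) (nat_lit 12) (nat_lit 5) (nat_lit 14) (nat_lit 5) (nat_lit 13) (nat_lit 4) (nat_lit 385) (nat_lit 308) (nat_lit 207)))) (XT.nd (nat_lit 78) (nat_lit 76) (nat_lit 0) (XT.lf (nat_lit 0) (nat_lit 16511416024) (nat_lit 152) (nat_lit 1801291264) (nat_lit 76) (nat_lit 61997830554) (nat_lit 12) (nat_lit 5) (nat_lit 14) (nat_lit 5) (nat_lit 13) (nat_lit 4) (nat_lit 386) (nat_lit 308) (nat_lit 206)) (XT.nd (nat_lit 78) (nat_lit 0) (nat_lit 0) (XT.lf (nat_lit 0) (nat_lit 20627533556) (nat_lit 76) (nat_lit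 6830524110) (nat_lit 152) (nat_lit 56273635804) (nat_lit 11) (nat_lit 5) (nat_lit 12) (nat_lit 5) (nat_lit 13) (nat_lit 4) (nat_lit 387) (nat_lit 308) (nat_lit 205)) (XT.lf (nat_lit 0) (nat_lit 39056998372) (nat_lit 152) (nat_lit 43178676686) (nat_lit 0) (nat_lit 5082985274) (nat_lit 11) (nat_lit 5) (nat_lit 13) (nat_lit 4) (nat_lit 11) (nat_lit 4) (nat_lit 388) (nat_lit 308) (nat_lit 204)))))) (XT.nd (nat_lit 390) (nat_lit 152) (nat_lit 0) (XT.nd (nat_lit 156) (nat_lit 76) (nat_lit 0) (XT.nd (nat_lit 78) (nat_lit 0) (nat_lit 0) (XT.lf (nat_lit 0) (nat_lit 51340597404) (nat_lit 152) (nat_lit 22382745096) (nat_lit 0) (nat_lit 17356399189) (nat_lit 11) (nat_lit 5) (nat_lit 13) (nat_lit 4) (nat_lit 11) (nat_lit 4) (nat_lit 389) (nat_lit 308) (nat_lit 203)) (XT.lf (nat_lit 0) (nat_lit 64231457802) (nat_lit 152) (nat_lit 560207400) (nat_lit 0) (nat_lit 30237559475) (nat_lit 11) (nat_lit 5) (nat_lit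 13) (nat_lit 4) (nat_lit 11) (nat_lit 4) (nat_lit 390) (nat_lit 308) (nat_lit 202))) (XT.nd (nat_lit 78) (nat_lit 0) (nat_lit 0) (XT.lf (nat_lit 0) (nat_lit 23079585704) (nat_lit 76) (nat_lit 55041023402) (nat_lit 76) (nat_lit 21037886873) (nat_lit 10) (nat_lit 4) (nat_lit 11) (nat_lit 5) (nat_lit 11) (nat_lit 4) (nat_lit 391) (nat_lit 308) (nat_lit 201)) (XT.nd (nat_lit 78) (nat_lit 0) (nat_lit 0) (XT.lf (nat_lit 0) (nat_lit 47908457863) (nat_lit 76) (nat_lit 44798779163) (nat_lit 76) (nat_lit 10786844347) (nat_lit 10) (nat_lit 4) (nat_lit 11) (nat_lit 5) (nat_lit 11) (nat_lit 4) (nat_lit 392) (nat_lit 308) (nat_lit 200)) (XT.lf (nat_lit 0) (nat_lit 73967002454) (nat_lit 76) (nat_lit 34050033575) (nat_lit 76) (nat_lit 29719437) (nat_lit 10) (nat_lit 4) (nat_lit 11) (nat_lit 5) (nat_lit 11) (nat_lit 4) (nat_lit 393) (nat_lit 308) (nat_lit 199))))) (XT.nd (nat_lit 234) (nat_lit 0) (nat_lit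 0) (XT.nd (nat_lit 78) (nat_lit 76) (nat_lit 0) (XT.lf (nat_lit 0) (nat_lit 10898738541) (nat_lit 152) (nat_lit 11685880433) (nat_lit 76) (nat_lit 90233949678) (nat_lit 9) (nat_lit 5) (nat_lit 11) (nat_lit 5) (nat_lit 10) (nat_lit 4) (nat_lit 394) (nat_lit 308) (nat_lit 198)) (XT.nd (nat_lit 78) (nat_lit 0) (nat_lit 0) (XT.lf (nat_lit 0) (nat_lit 12207034051) (nat_lit 76) (nat_lit 10350492185) (nat_lit 152) (nat_lit 95262177840) (nat_lit 8) (nat_lit 5) (nat_lit 9) (nat_lit 5) (nat_lit 10) (nat_lit 4) (nat_lit 395) (nat_lit 308) (nat_lit 197)) (XT.lf (nat_lit 0) (nat_lit 35033706303) (nat_lit 152) (nat_lit 85413793709) (nat_lit 0) (nat_lit 2611674772) (nat_lit 8) (nat_lit 5) (nat_lit 10) (nat_lit 4) (nat_lit 8) (nat_lit 4) (nat_lit 396) (nat_lit 308) (nat_lit 196)))) (XT.nd (nat_lit 78) (nat_lit 0) (nat_lit 0) (XT.lf (nat_lit 0) (nat_lit 48297988258) (nat_lit 152) (nat_lit 64385025923) (nat_lit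 0) (nat_lit 15869391310) (nat_lit 8) (nat_lit 5) (nat_lit 10) (nat_lit 4) (nat_lit 8) (nat_lit 4) (nat_lit 397) (nat_lit 308) (nat_lit 195)) (XT.nd (nat_lit 78) (nat_lit 0) (nat_lit 0) (XT.lf (nat_lit 0) (nat_lit 62220353535) (nat_lit 152) (nat_lit 42314697980) (nat_lit 0) (nat_lit 29785503808) (nat_lit 8) (nat_lit 5) (nat_lit 10) (nat_lit 4) (nat_lit 8) (nat_lit 4) (nat_lit 398) (nat_lit 308) (nat_lit 194)) (XT.lf (nat_lit 0) (nat_lit 76833950623) (nat_lit 152) (nat_lit 19150261482) (nat_lit 0) (nat_lit 44393145869) (nat_lit 8) (nat_lit 5) (nat_lit 10) (nat_lit 4) (nat_lit 8) (nat_lit 4) (nat_lit 399) (nat_lit 308) (nat_lit 193))))))) (XT.nd (nat_lit 858) (nat_lit 76) (nat_lit 0) (XT.nd (nat_lit 390) (nat_lit 152) (nat_lit 0) (XT.nd (nat_lit 156) (nat_lit 0) (nat_lit 0) (XT.nd (nat_lit 78) (nat_lit 0) (nat_lit 0) (XT.lf (nat_lit 0) (nat_lit 5334163536) (nat_lit 76) (nat_lit 86922691506)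 (nat_lit 76) (nat_lit 54476215298) (nat_lit 7) (nat_lit 4) (nat_lit 8) (nat_lit 5) (nat_lit 8) (nat_lit 4) (nat_lit 400) (nat_lit 308) (nat_lit 192)) (XT.lf (nat_lit 0) (nat_lit 31698848306) (nat_lit 76) (nat_lit 77071805531) (nat_lit 76) (nat_lit 44619927938) (nat_lit 7) (nat_lit 4) (nat_lit 8) (nat_lit 5) (nat_lit 8) (nat_lit 4) (nat_lit 401) (nat_lit 308) (nat_lit 191))) (XT.nd (nat_lit 78) (nat_lit 0) (nat_lit 0) (XT.lf (nat_lit 0) (nat_lit 59373371758) (nat_lit 76) (nat_lit 66732418635) (nat_lit 76) (nat_lit 34275396866) (nat_lit 7) (nat_lit 4) (nat_lit 8) (nat_lit 5) (nat_lit 8) (nat_lit 4) (nat_lit 402) (nat_lit 308) (nat_lit 190)) (XT.nd (nat_lit 78) (nat_lit 0) (nat_lit 0) (XT.lf (nat_lit 0) (nat_lit 88423625613) (nat_lit 76) (nat_lit 55879913231) (nat_lit 76) (nat_lit 23417992246) (nat_lit 7) (nat_lit 4) (nat_lit 8) (nat_lit 5) (nat_lit 8) (nat_lit 4) (nat_lit 403) (nat_lit 308)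 (nat_lit 189)) (XT.lf (nat_lit 0) (nat_lit 118918777142) (nat_lit 76) (nat_lit 44488450019) (nat_lit 76) (nat_lit 12021863114) (nat_lit 7) (nat_lit 4) (nat_lit 8) (nat_lit 5) (nat_lit 8) (nat_lit 4) (nat_lit 404) (nat_lit 308) (nat_lit 188))))) (XT.nd (nat_lit 234) (nat_lit 0) (nat_lit 0) (XT.nd (nat_lit 78) (nat_lit 152) (nat_lit 0) (XT.lf (nat_lit 0) (nat_lit 150931433849) (nat_lit 76) (nat_lit 32530906468) (nat_lit 76) (nat_lit 59875830) (nat_lit 7) (nat_lit 4) (nat_lit 8) (nat_lit 5) (nat_lit 8) (nat_lit 4) (nat_lit 405) (nat_lit 308) (nat_lit 187)) (XT.nd (nat_lit 78) (nat_lit 76) (nat_lit 0) (XT.lf (nat_lit 0) (nat_lit 12096486068) (nat_lit 152) (nat_lit 7677466323) (nat_lit 76) (nat_lit 172236470432) (nat_lit 6) (nat_lit 5) (nat_lit 8) (nat_lit 5) (nat_lit 7) (nat_lit 4) (nat_lit 406) (nat_lit 308) (nat_lit 186)) (XT.lf (nat_lit 0) (nat_lit 19084669069) (nat_lit 76) (nat_lit 6068483335)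 (nat_lit 152) (nat_lit 175755114069) (nat_lit 5) (nat_lit 5) (nat_lit 6) (nat_lit 5) (nat_lit 7) (nat_lit 4) (nat_lit 407) (nat_lit 308) (nat_lit 185)))) (XT.nd (nat_lit 78) (nat_lit 0) (nat_lit 0) (XT.lf (nat_lit 0) (nat_lit 39121284942) (nat_lit 152) (nat_lit 162931817608) (nat_lit 0) (nat_lit 8184968728) (nat_lit 5) (nat_lit 5) (nat_lit 7) (nat_lit 4) (nat_lit 5) (nat_lit 4) (nat_lit 408) (nat_lit 308) (nat_lit 184)) (XT.nd (nat_lit 78) (nat_lit 0) (nat_lit 0) (XT.lf (nat_lit 0) (nat_lit 53884017902) (nat_lit 152) (nat_lit 143201319408) (nat_lit 0) (nat_lit 22944219908) (nat_lit 5) (nat_lit 5) (nat_lit 7) (nat_lit 4) (nat_lit 5) (nat_lit 4) (nat_lit 409) (nat_lit 308) (nat_lit 183)) (XT.lf (nat_lit 0) (nat_lit 69381754619) (nat_lit 152) (nat_lit 122490379399) (nat_lit 0) (nat_lit 38438640642) (nat_lit 5) (nat_lit 5) (nat_lit 7) (nat_lit 4) (nat_lit 5) (nat_lit 4) (nat_lit 410) (nat_lit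 308) (nat_lit 182)))))) (XT.nd (nat_lit 468) (nat_lit 0) (nat_lit 0) (XT.nd (nat_lit 234) (nat_lit 76) (nat_lit 0) (XT.nd (nat_lit 78) (nat_lit 0) (nat_lit 0) (XT.lf (nat_lit 0) (nat_lit 85651394465) (nat_lit 152) (nat_lit 100749685816) (nat_lit 0) (nat_lit 54705122410) (nat_lit 5) (nat_lit 5) (nat_lit 7) (nat_lit 4) (nat_lit 5) (nat_lit 4) (nat_lit 411) (nat_lit 308) (nat_lit 181)) (XT.nd (nat_lit 78) (nat_lit 0) (nat_lit 0) (XT.lf (nat_lit 0) (nat_lit 102731674678) (nat_lit 152) (nat_lit 77927475105) (nat_lit 0) (nat_lit 71782394930) (nat_lit 5) (nat_lit 5) (nat_lit 7) (nat_lit 4) (nat_lit 5) (nat_lit 4) (nat_lit 412) (nat_lit 308) (nat_lit 180)) (XT.lf (nat_lit 0) (nat_lit 120663262591) (nat_lit 152) (nat_lit 53969408668) (nat_lit 0) (nat_lit 89711118373) (nat_lit 5) (nat_lit 5) (nat_lit 7) (nat_lit 4) (nat_lit 5) (nat_lit 4) (nat_lit 413) (nat_lit 308) (nat_lit 179)))) (XT.nd (nat_lit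 78) (nat_lit 76) (nat_lit 0) (XT.lf (nat_lit 0) (nat_lit 139488852462) (nat_lit 152) (nat_lit 28818443490) (nat_lit 0) (nat_lit 108533980178) (nat_lit 5) (nat_lit 5) (nat_lit 7) (nat_lit 4) (nat_lit 5) (nat_lit 4) (nat_lit 414) (nat_lit 308) (nat_lit 178)) (XT.nd (nat_lit 78) (nat_lit 76) (nat_lit 0) (XT.lf (nat_lit 0) (nat_lit 159253267124) (nat_lit 152) (nat_lit 2414696320) (nat_lit 0) (nat_lit 128295796681) (nat_lit 5) (nat_lit 5) (nat_lit 7) (nat_lit 4) (nat_lit 5) (nat_lit 4) (nat_lit 415) (nat_lit 308) (nat_lit 177)) (XT.lf (nat_lit 0) (nat_lit 26141386530) (nat_lit 76) (nat_lit 154270318482) (nat_lit 76) (nat_lit 123310373602) (nat_lit 4) (nat_lit 4) (nat_lit 5) (nat_lit 5) (nat_lit 5) (nat_lit 4) (nat_lit 416) (nat_lit 308) (nat_lit 176))))) (XT.nd (nat_lit 234) (nat_lit 0) (nat_lit 0) (XT.nd (nat_lit 78) (nat_lit 0) (nat_lit 0) (XT.lf (nat_lit 0) (nat_lit 56204640239) (nat_lit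 76) (nat_lit 146462022389) (nat_lit 76) (nat_lit 115499720903) (nat_lit 4) (nat_lit 4) (nat_lit 5) (nat_lit 5) (nat_lit 5) (nat_lit 4) (nat_lit 417) (nat_lit 308) (nat_lit 175)) (XT.nd (nat_lit 78) (nat_lit 0) (nat_lit 0) (XT.lf (nat_lit 0) (nat_lit 87766803217) (nat_lit 76) (nat_lit 138265378036) (nat_lit 76) (nat_lit 107300832163) (nat_lit 4) (nat_lit 4) (nat_lit 5) (nat_lit 5) (nat_lit 5) (nat_lit 4) (nat_lit 418) (nat_lit 308) (nat_lit 174)) (XT.lf (nat_lit 0) (nat_lit 120903023470) (nat_lit 76) (nat_lit 129660869603) (nat_lit 76) (nat_lit 98694186218) (nat_lit 4) (nat_lit 4) (nat_lit 5) (nat_lit 5) (nat_lit 5) (nat_lit 4) (nat_lit 419) (nat_lit 308) (nat_lit 173)))) (XT.nd (nat_lit 78) (nat_lit 0) (nat_lit 0) (XT.lf (nat_lit 0) (nat_lit 155692196761) (nat_lit 76) (nat_lit 120628010166) (nat_lit 76) (nat_lit 89659291055) (nat_lit 4) (nat_lit 4) (nat_lit 5) (nat_lit 5) (nat_lit 5) (nat_lit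 4) (nat_lit 420) (nat_lit 308) (nat_lit 172)) (XT.nd (nat_lit 78) (nat_lit 0) (nat_lit 0) (XT.lf (nat_lit 0) (nat_lit 192217154456) (nat_lit 76) (nat_lit 111145292915) (nat_lit 76) (nat_lit 80174635019) (nat_lit 4) (nat_lit 4) (nat_lit 5) (nat_lit 5) (nat_lit 5) (nat_lit 4) (nat_lit 421) (nat_lit 308) (nat_lit 171)) (XT.lf (nat_lit 0) (nat_lit 230564860739) (nat_lit 76) (nat_lit 101190139953) (nat_lit 76) (nat_lit 70217635594) (nat_lit 4) (nat_lit 4) (nat_lit 5) (nat_lit 5) (nat_lit 5) (nat_lit 4) (nat_lit 422) (nat_lit 308) (nat_lit 170))))))))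
noncomputable def xc125 : XT := (XT.nd (nat_lit 39000) (nat_lit 0) (nat_lit 3496) (XT.nd (nat_lit 38142) (nat_lit 0) (nat_lit 7600) (XT.nd (nat_lit 390) (nat_lit 152) (nat_lit 0) (XT.nd (nat_lit 156) (nat_lit 0) (nat_lit 0) (XT.nd (nat_lit 78) (nat_lit 0) (nat_lit 0) (XT.lf (nat_lit 0) (nat_lit 270826619672) (nat_lit 76) (nat_lit 90738848535) (nat_lit 76) (nat_lit 59764585640) (nat_lit 4) (nat_lit 4) (nat_lit 5) (nat_lit 5) (nat_lit 5) (nat_lit 4) (nat_lit 423) (nat_lit 308) (nat_lit 169)) (XT.lf (nat_lit 0) (nat_lit 313098292587) (nat_lit 76) (nat_lit 79766534633) (nat_lit 76) (nat_lit 48790596942) (nat_lit 4) (nat_lit 4) (nat_lit 5) (nat_lit 5) (nat_lit 5) (nat_lit 4) (nat_lit 424) (nat_lit 308) (nat_lit 168))) (XT.nd (nat_lit 78) (nat_lit 0) (nat_lit 0) (XT.lf (nat_lit 0) (nat_lit 357480526323) (nat_lit 76) (nat_lit 68247073691) (nat_lit 76) (nat_lit 37269540955) (nat_lit 4) (nat_lit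 4) (nat_lit 5) (nat_lit 5) (nat_lit 5) (nat_lit 4) (nat_lit 425) (nat_lit 308) (nat_lit 167)) (XT.nd (nat_lit 78) (nat_lit 0) (nat_lit 0) (XT.lf (nat_lit 0) (nat_lit 404078992867) (nat_lit 76) (nat_lit 56153038420) (nat_lit 76) (nat_lit 25173986595) (nat_lit 4) (nat_lit 4) (nat_lit 5) (nat_lit 5) (nat_lit 5) (nat_lit 4) (nat_lit 426) (nat_lit 308) (nat_lit 166)) (XT.lf (nat_lit 0) (nat_lit 453004640947) (nat_lit 76) (nat_lit 43455633498) (nat_lit 76) (nat_lit 12475134922) (nat_lit 4) (nat_lit 4) (nat_lit 5) (nat_lit 5) (nat_lit 5) (nat_lit 4) (nat_lit 427) (nat_lit 308) (nat_lit 165))))) (XT.nd (nat_lit 234) (nat_lit 0) (nat_lit 0) (XT.nd (nat_lit 78) (nat_lit 76) (nat_lit 0) (XT.lf (nat_lit 0) (nat_lit 829812089) (nat_lit 152) (nat_lit 29280761651) (nat_lit 76) (nat_lit 503530094843) (nat_lit 3) (nat_lit 5) (nat_lit 5) (nat_lit 5) (nat_lit 4) (nat_lit 4) (nat_lit 428) (nat_lit 308) (nat_lit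 164)) (XT.nd (nat_lit 78) (nat_lit 76) (nat_lit 0) (XT.lf (nat_lit 0) (nat_lit 14379460320) (nat_lit 152) (nat_lit 1505295024) (nat_lit 76) (nat_lit 543686275096) (nat_lit 3) (nat_lit 5) (nat_lit 5) (nat_lit 5) (nat_lit 4) (nat_lit 4) (nat_lit 429) (nat_lit 308) (nat_lit 163)) (XT.lf (nat_lit 0) (nat_lit 28570985299) (nat_lit 76) (nat_lit 480440915) (nat_lit 152) (nat_lit 557724242614) (nat_lit 2) (nat_lit 5) (nat_lit 3) (nat_lit 5) (nat_lit 4) (nat_lit 4) (nat_lit 430) (nat_lit 308) (nat_lit 162)))) (XT.nd (nat_lit 37362) (nat_lit 0) (nat_lit 9348) (XT.lf (nat_lit 0) (nat_lit 44726695941) (nat_lit 152) (nat_lit 555383784727) (nat_lit 0) (nat_lit 15216573381) (nat_lit 2) (nat_lit 5) (nat_lit 4) (nat_lit 4) (nat_lit 2) (nat_lit 4) (nat_lit 431) (nat_lit 308) (nat_lit 161)) (XT.nd (nat_lit 78) (nat_lit 532) (nat_lit 0) (XT.lf (nat_lit 0) (nat_lit 3500753839) (nat_lit 532) (nat_lit 97358412)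 (nat_lit 532) (nat_lit 97358412) (nat_lit 132) (nat_lit 3) (nat_lit 139) (nat_lit 3) (nat_lit 139) (nat_lit 5) (nat_lit 309) (nat_lit 309) (nat_lit 282)) (XT.lf (nat_lit 0) (nat_lit 1113847813) (nat_lit 532) (nat_lit 4104518077) (nat_lit 608) (nat_lit 2280375846) (nat_lit 125) (nat_lit 5) (nat_lit 132) (nat_lit 3) (nat_lit 133) (nat_lit 5) (nat_lit 310) (nat_lit 309) (nat_lit 281)))))) (XT.nd (nat_lit 390) (nat_lit 1216) (nat_lit 0) (XT.nd (nat_lit 156) (nat_lit 532) (nat_lit 0) (XT.nd (nat_lit 78) (nat_lit 0) (nat_lit 0) (XT.lf (nat_lit 0) (nat_lit 2589206493) (nat_lit 532) (nat_lit 501461168) (nat_lit 608) (nat_lit 4525590741) (nat_lit 125) (nat_lit 5) (nat_lit 132) (nat_lit 3) (nat_lit 133) (nat_lit 5) (nat_lit 311) (nat_lit 309) (nat_lit 280)) (XT.lf (nat_lit 76) (nat_lit 3338479872) (nat_lit 0) (nat_lit 763070533) (nat_lit 608) (nat_lit 3640078182) (nat_lit 126) (nat_lit 5) (nat_lit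 125) (nat_lit 5) (nat_lit 133) (nat_lit 5) (nat_lit 312) (nat_lit 309) (nat_lit 279))) (XT.nd (nat_lit 78) (nat_lit 608) (nat_lit 0) (XT.lf (nat_lit 0) (nat_lit 5639508939) (nat_lit 532) (nat_lit 565678629) (nat_lit 608) (nat_lit 1670711797) (nat_lit 126) (nat_lit 5) (nat_lit 133) (nat_lit 5) (nat_lit 134) (nat_lit 5) (nat_lit 313) (nat_lit 309) (nat_lit 278)) (XT.nd (nat_lit 78) (nat_lit 608) (nat_lit 0) (XT.lf (nat_lit 76) (nat_lit 3511861239) (nat_lit 0) (nat_lit 3729007369) (nat_lit 608) (nat_lit 776815583) (nat_lit 127) (nat_lit 5) (nat_lit 126) (nat_lit 5) (nat_lit 134) (nat_lit 5) (nat_lit 314) (nat_lit 309) (nat_lit 277)) (XT.lf (nat_lit 0) (nat_lit 662114908) (nat_lit 608) (nat_lit 418712131) (nat_lit 684) (nat_lit 7088726985) (nat_lit 118) (nat_lit 5) (nat_lit 126) (nat_lit 5) (nat_lit 127) (nat_lit 5) (nat_lit 315) (nat_lit 309) (nat_lit 276))))) (XT.nd (nat_lit 234) (nat_lit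 1292) (nat_lit 0) (XT.nd (nat_lit 78) (nat_lit 0) (nat_lit 0) (XT.lf (nat_lit 0) (nat_lit 2161053471) (nat_lit 608) (nat_lit 4422401962) (nat_lit 684) (nat_lit 1744325357) (nat_lit 119) (nat_lit 5) (nat_lit 127) (nat_lit 5) (nat_lit 128) (nat_lit 5) (nat_lit 316) (nat_lit 309) (nat_lit 275)) (XT.nd (nat_lit 78) (nat_lit 0) (nat_lit 0) (XT.lf (nat_lit 0) (nat_lit 3687618890) (nat_lit 608) (nat_lit 105488984) (nat_lit 684) (nat_lit 4703280413) (nat_lit 119) (nat_lit 5) (nat_lit 127) (nat_lit 5) (nat_lit 128) (nat_lit 5) (nat_lit 317) (nat_lit 309) (nat_lit 274)) (XT.lf (nat_lit 76) (nat_lit 4520229995) (nat_lit 0) (nat_lit 772050434) (nat_lit 684) (nat_lit 3381155803) (nat_lit 120) (nat_lit 5) (nat_lit 119) (nat_lit 5) (nat_lit 128) (nat_lit 5) (nat_lit 318) (nat_lit 309) (nat_lit 273)))) (XT.nd (nat_lit 78) (nat_lit 760) (nat_lit 0) (XT.lf (nat_lit 0) (nat_lit 443821967) (nat_lit 608) (nat_lit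 6513487390) (nat_lit 684) (nat_lit 1903114278) (nat_lit 112) (nat_lit 5) (nat_lit 120) (nat_lit 5) (nat_lit 121) (nat_lit 5) (nat_lit 319) (nat_lit 309) (nat_lit 272)) (XT.nd (nat_lit 78) (nat_lit 760) (nat_lit 0) (XT.lf (nat_lit 0) (nat_lit 5348163856) (nat_lit 608) (nat_lit 3376441527) (nat_lit 684) (nat_lit 331293555) (nat_lit 112) (nat_lit 5) (nat_lit 120) (nat_lit 5) (nat_lit 121) (nat_lit 5) (nat_lit 320) (nat_lit 309) (nat_lit 271)) (XT.lf (nat_lit 0) (nat_lit 1201203090) (nat_lit 684) (nat_lit 32634715) (nat_lit 760) (nat_lit 8028514472) (nat_lit 102) (nat_lit 5) (nat_lit 111) (nat_lit 5) (nat_lit 112) (nat_lit 5) (nat_lit 321) (nat_lit 309) (nat_lit 270))))))) (XT.nd (nat_lit 858) (nat_lit 1520) (nat_lit 0) (XT.nd (nat_lit 390) (nat_lit 1368) (nat_lit 0) (XT.nd (nat_lit 156) (nat_lit 456) (nat_lit 0) (XT.nd (nat_lit 78) (nat_lit 760) (nat_lit 0) (XT.lf (nat_lit 0) (nat_lit 2924646582)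 (nat_lit 760) (nat_lit 3107983828) (nat_lit 76) (nat_lit 3443375747) (nat_lit 102) (nat_lit 5) (nat_lit 112) (nat_lit 5) (nat_lit 103) (nat_lit 5) (nat_lit 322) (nat_lit 309) (nat_lit 269)) (XT.lf (nat_lit 0) (nat_lit 2106841547) (nat_lit 760) (nat_lit 2569845638) (nat_lit 836) (nat_lit 5024894453) (nat_lit 92) (nat_lit 5) (nat_lit 102) (nat_lit 5) (nat_lit 103) (nat_lit 5) (nat_lit 323) (nat_lit 309) (nat_lit 268))) (XT.nd (nat_lit 78) (nat_lit 456) (nat_lit 0) (XT.lf (nat_lit 0) (nat_lit 6531668125) (nat_lit 836) (nat_lit 2317899485) (nat_lit 76) (nat_lit 1088171345) (nat_lit 92) (nat_lit 5) (nat_lit 103) (nat_lit 5) (nat_lit 93) (nat_lit 5) (nat_lit 324) (nat_lit 309) (nat_lit 267)) (XT.nd (nat_lit 78) (nat_lit 76) (nat_lit 0) (XT.lf (nat_lit 0) (nat_lit 3231808413) (nat_lit 380) (nat_lit 5287981380) (nat_lit 456) (nat_lit 1663961408) (nat_lit 87) (nat_lit 5) (nat_lit 92) (nat_lit 5)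 (nat_lit 93) (nat_lit 5) (nat_lit 325) (nat_lit 309) (nat_lit 266)) (XT.lf (nat_lit 0) (nat_lit 148460897) (nat_lit 456) (nat_lit 1357051870) (nat_lit 76) (nat_lit 8937057908) (nat_lit 86) (nat_lit 5) (nat_lit 92) (nat_lit 5) (nat_lit 87) (nat_lit 5) (nat_lit 326) (nat_lit 309) (nat_lit 265))))) (XT.nd (nat_lit 234) (nat_lit 684) (nat_lit 0) (XT.nd (nat_lit 78) (nat_lit 380) (nat_lit 0) (XT.lf (nat_lit 0) (nat_lit 2058334079) (nat_lit 380) (nat_lit 6165556370) (nat_lit 76) (nat_lit 2485996855) (nat_lit 82) (nat_lit 5) (nat_lit 87) (nat_lit 5) (nat_lit 83) (nat_lit 5) (nat_lit 327) (nat_lit 309) (nat_lit 264)) (XT.nd (nat_lit 78) (nat_lit 380) (nat_lit 0) (XT.lf (nat_lit 0) (nat_lit 4064301135) (nat_lit 380) (nat_lit 278818246) (nat_lit 76) (nat_lit 6647475202) (nat_lit 82) (nat_lit 5) (nat_lit 87) (nat_lit 5) (nat_lit 83) (nat_lit 5) (nat_lit 328) (nat_lit 309) (nat_lit 263)) (XT.lf (nat_lit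 0) (nat_lit 6046017622) (nat_lit 380) (nat_lit 173763809) (nat_lit 456) (nat_lit 5063147267) (nat_lit 77) (nat_lit 5) (nat_lit 82) (nat_lit 5) (nat_lit 83) (nat_lit 5) (nat_lit 329) (nat_lit 309) (nat_lit 262)))) (XT.nd (nat_lit 78) (nat_lit 380) (nat_lit 0) (XT.lf (nat_lit 0) (nat_lit 1023055406) (nat_lit 304) (nat_lit 7502515969) (nat_lit 380) (nat_lit 3062231097) (nat_lit 73) (nat_lit 5) (nat_lit 77) (nat_lit 5) (nat_lit 78) (nat_lit 5) (nat_lit 330) (nat_lit 309) (nat_lit 261)) (XT.nd (nat_lit 78) (nat_lit 380) (nat_lit 0) (XT.lf (nat_lit 0) (nat_lit 7724609463) (nat_lit 304) (nat_lit 3270964186) (nat_lit 380) (nat_lit 909947506) (nat_lit 73) (nat_lit 5) (nat_lit 77) (nat_lit 5) (nat_lit 78) (nat_lit 5) (nat_lit 331) (nat_lit 309) (nat_lit 260)) (XT.lf (nat_lit 0) (nat_lit 1324206070) (nat_lit 380) (nat_lit 9724558743) (nat_lit 76) (nat_lit 1188476963) (nat_lit 68) (nat_lit 5) (nat_lit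 73) (nat_lit 5) (nat_lit 69) (nat_lit 5) (nat_lit 332) (nat_lit 309) (nat_lit 259)))))) (XT.nd (nat_lit 468) (nat_lit 684) (nat_lit 0) (XT.nd (nat_lit 234) (nat_lit 608) (nat_lit 0) (XT.nd (nat_lit 78) (nat_lit 228) (nat_lit 0) (XT.lf (nat_lit 0) (nat_lit 3724900480) (nat_lit 380) (nat_lit 3016009349) (nat_lit 76) (nat_lit 5839662985) (nat_lit 68) (nat_lit 5) (nat_lit 73) (nat_lit 5) (nat_lit 69) (nat_lit 5) (nat_lit 333) (nat_lit 309) (nat_lit 258)) (XT.nd (nat_lit 78) (nat_lit 0) (nat_lit 0) (XT.lf (nat_lit 0) (nat_lit 4111553143) (nat_lit 228) (nat_lit 2160006938) (nat_lit 304) (nat_lit 6668252768) (nat_lit 65) (nat_lit 5) (nat_lit 68) (nat_lit 5) (nat_lit 69) (nat_lit 5) (nat_lit 334) (nat_lit 309) (nat_lit 257)) (XT.lf (nat_lit 0) (nat_lit 9001505702) (nat_lit 304) (nat_lit 1705442927) (nat_lit 76) (nat_lit 2607305714) (nat_lit 65) (nat_lit 5) (nat_lit 69) (nat_lit 5) (nat_lit 66)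 (nat_lit 5) (nat_lit 335) (nat_lit 309) (nat_lit 256)))) (XT.nd (nat_lit 78) (nat_lit 304) (nat_lit 0) (XT.lf (nat_lit 0) (nat_lit 5879647933) (nat_lit 304) (nat_lit 6079951372) (nat_lit 380) (nat_lit 1743271416) (nat_lit 61) (nat_lit 5) (nat_lit 65) (nat_lit 5) (nat_lit 66) (nat_lit 5) (nat_lit 336) (nat_lit 309) (nat_lit 255)) (XT.nd (nat_lit 78) (nat_lit 228) (nat_lit 0) (XT.lf (nat_lit 0) (nat_lit 918300160) (nat_lit 380) (nat_lit 268735263) (nat_lit 76) (nat_lit 12923460480) (nat_lit 60) (nat_lit 5) (nat_lit 65) (nat_lit 5) (nat_lit 61) (nat_lit 5) (nat_lit 337) (nat_lit 309) (nat_lit 254)) (XT.lf (nat_lit 0) (nat_lit 3807257803) (nat_lit 304) (nat_lit 6755618475) (nat_lit 76) (nat_lit 3966583046) (nat_lit 57) (nat_lit 5) (nat_lit 61) (nat_lit 5) (nat_lit 58) (nat_lit 5) (nat_lit 338) (nat_lit 309) (nat_lit 253))))) (XT.nd (nat_lit 234) (nat_lit 304) (nat_lit 0) (XT.nd (nat_lit 78)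 (nat_lit 152) (nat_lit 0) (XT.lf (nat_lit 0) (nat_lit 1233064984) (nat_lit 228) (nat_lit 5618157489) (nat_lit 304) (nat_lit 8117649562) (nat_lit 54) (nat_lit 5) (nat_lit 57) (nat_lit 5) (nat_lit 58) (nat_lit 5) (nat_lit 339) (nat_lit 309) (nat_lit 252)) (XT.nd (nat_lit 78) (nat_lit 152) (nat_lit 0) (XT.lf (nat_lit 0) (nat_lit 9810859019) (nat_lit 228) (nat_lit 319018608) (nat_lit 304) (nat_lit 5296280835) (nat_lit 54) (nat_lit 5) (nat_lit 57) (nat_lit 5) (nat_lit 58) (nat_lit 5) (nat_lit 340) (nat_lit 309) (nat_lit 251)) (XT.lf (nat_lit 0) (nat_lit 2877355727) (nat_lit 152) (nat_lit 10791333714) (nat_lit 228) (nat_lit 2232834947) (nat_lit 52) (nat_lit 5) (nat_lit 54) (nat_lit 5) (nat_lit 55) (nat_lit 5) (nat_lit 341) (nat_lit 309) (nat_lit 250)))) (XT.nd (nat_lit 78) (nat_lit 228) (nat_lit 0) (XT.lf (nat_lit 0) (nat_lit 1023859127) (nat_lit 228) (nat_lit 4472854343) (nat_lit 76) (nat_lit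 10899622928) (nat_lit 51) (nat_lit 5) (nat_lit 54) (nat_lit 5) (nat_lit 52) (nat_lit 5) (nat_lit 342) (nat_lit 309) (nat_lit 249)) (XT.nd (nat_lit 78) (nat_lit 0) (nat_lit 0) (XT.lf (nat_lit 0) (nat_lit 4413415300) (nat_lit 304) (nat_lit 12340973852) (nat_lit 76) (nat_lit 157439182) (nat_lit 48) (nat_lit 5) (nat_lit 52) (nat_lit 5) (nat_lit 49) (nat_lit 5) (nat_lit 343) (nat_lit 309) (nat_lit 248)) (XT.lf (nat_lit 0) (nat_lit 8111187345) (nat_lit 304) (nat_lit 3361442829) (nat_lit 76) (nat_lit 5973549487) (nat_lit 48) (nat_lit 5) (nat_lit 52) (nat_lit 5) (nat_lit 49) (nat_lit 5) (nat_lit 344) (nat_lit 309) (nat_lit 247))))))))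
noncomputable def xc126 : XT := (XT.nd (nat_lit 1716) (nat_lit 988) (nat_lit 0) (XT.nd (nat_lit 858) (nat_lit 684) (nat_lit 0) (XT.nd (nat_lit 390) (nat_lit 532) (nat_lit 0) (XT.nd (nat_lit 156) (nat_lit 456) (nat_lit 0) (XT.nd (nat_lit 78) (nat_lit 0) (nat_lit 0) (XT.lf (nat_lit 0) (nat_lit 6225540192) (nat_lit 152) (nat_lit 5838492836) (nat_lit 228) (nat_lit 5939726939) (nat_lit 46) (nat_lit 5) (nat_lit 48) (nat_lit 5) (nat_lit 49) (nat_lit 5) (nat_lit 345) (nat_lit 309) (nat_lit 246)) (XT.lf (nat_lit 0) (nat_lit 16247021396) (nat_lit 228) (nat_lit 2221185068) (nat_lit 76) (nat_lit 119407486) (nat_lit 46) (nat_lit 5) (nat_lit 49) (nat_lit 5) (nat_lit 47) (nat_lit 5) (nat_lit 346) (nat_lit 309) (nat_lit 245))) (XT.nd (nat_lit 78) (nat_lit 152) (nat_lit 0) (XT.lf (nat_lit 0) (nat_lit 1589884151) (nat_lit 304) (nat_lit 11284009807) (nat_lit 76) (nat_lit 6315790247) (nat_lit 42) (nat_lit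 5) (nat_lit 46) (nat_lit 5) (nat_lit 43) (nat_lit 5) (nat_lit 347) (nat_lit 309) (nat_lit 244)) (XT.nd (nat_lit 78) (nat_lit 152) (nat_lit 0) (XT.lf (nat_lit 0) (nat_lit 5651335211) (nat_lit 304) (nat_lit 1282468195) (nat_lit 76) (nat_lit 12885497561) (nat_lit 42) (nat_lit 5) (nat_lit 46) (nat_lit 5) (nat_lit 43) (nat_lit 5) (nat_lit 348) (nat_lit 309) (nat_lit 243)) (XT.lf (nat_lit 0) (nat_lit 9485118876) (nat_lit 152) (nat_lit 554901867) (nat_lit 228) (nat_lit 10434185919) (nat_lit 40) (nat_lit 5) (nat_lit 42) (nat_lit 5) (nat_lit 43) (nat_lit 5) (nat_lit 349) (nat_lit 309) (nat_lit 242))))) (XT.nd (nat_lit 234) (nat_lit 152) (nat_lit 0) (XT.nd (nat_lit 78) (nat_lit 380) (nat_lit 0) (XT.lf (nat_lit 0) (nat_lit 14742545647) (nat_lit 228) (nat_lit 459405304) (nat_lit 76) (nat_lit 5955201857) (nat_lit 40) (nat_lit 5) (nat_lit 43) (nat_lit 5) (nat_lit 41) (nat_lit 5) (nat_lit 350) (nat_lit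 309) (nat_lit 241)) (XT.nd (nat_lit 78) (nat_lit 228) (nat_lit 0) (XT.lf (nat_lit 0) (nat_lit 10900374427) (nat_lit 152) (nat_lit 8936648549) (nat_lit 228) (nat_lit 2029396661) (nat_lit 38) (nat_lit 5) (nat_lit 40) (nat_lit 5) (nat_lit 41) (nat_lit 5) (nat_lit 351) (nat_lit 309) (nat_lit 240)) (XT.lf (nat_lit 0) (nat_lit 161842191) (nat_lit 152) (nat_lit 2318932828) (nat_lit 228) (nat_lit 20128971949) (nat_lit 35) (nat_lit 5) (nat_lit 37) (nat_lit 5) (nat_lit 38) (nat_lit 5) (nat_lit 352) (nat_lit 309) (nat_lit 239)))) (XT.nd (nat_lit 78) (nat_lit 152) (nat_lit 0) (XT.lf (nat_lit 0) (nat_lit 7387267459) (nat_lit 228) (nat_lit 11299347468) (nat_lit 76) (nat_lit 4690024323) (nat_lit 35) (nat_lit 5) (nat_lit 38) (nat_lit 5) (nat_lit 36) (nat_lit 5) (nat_lit 353) (nat_lit 309) (nat_lit 238)) (XT.nd (nat_lit 78) (nat_lit 0) (nat_lit 0) (XT.lf (nat_lit 0) (nat_lit 344764215) (nat_lit 152) (nat_lit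 12216738629) (nat_lit 228) (nat_lit 11619264468) (nat_lit 33) (nat_lit 5) (nat_lit 35) (nat_lit 5) (nat_lit 36) (nat_lit 5) (nat_lit 354) (nat_lit 309) (nat_lit 237)) (XT.lf (nat_lit 0) (nat_lit 12929039293) (nat_lit 152) (nat_lit 5236253964) (nat_lit 228) (nat_lit 6851277864) (nat_lit 33) (nat_lit 5) (nat_lit 35) (nat_lit 5) (nat_lit 36) (nat_lit 5) (nat_lit 355) (nat_lit 309) (nat_lit 236)))))) (XT.nd (nat_lit 390) (nat_lit 380) (nat_lit 0) (XT.nd (nat_lit 156) (nat_lit 152) (nat_lit 0) (XT.nd (nat_lit 78) (nat_lit 76) (nat_lit 0) (XT.lf (nat_lit 0) (nat_lit 188228099) (nat_lit 76) (nat_lit 23876920368) (nat_lit 152) (nat_lit 1828233850) (nat_lit 32) (nat_lit 5) (nat_lit 33) (nat_lit 5) (nat_lit 34) (nat_lit 4) (nat_lit 356) (nat_lit 309) (nat_lit 235)) (XT.lf (nat_lit 0) (nat_lit 3609928460) (nat_lit 152) (nat_lit 13482965418) (nat_lit 76) (nat_lit 9704747156) (nat_lit 31) (nat_lit 5)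 (nat_lit 33) (nat_lit 5) (nat_lit 32) (nat_lit 5) (nat_lit 357) (nat_lit 309) (nat_lit 234))) (XT.nd (nat_lit 78) (nat_lit 152) (nat_lit 0) (XT.lf (nat_lit 0) (nat_lit 9239847869) (nat_lit 152) (nat_lit 711635712) (nat_lit 76) (nat_lit 17795075539) (nat_lit 31) (nat_lit 5) (nat_lit 33) (nat_lit 5) (nat_lit 32) (nat_lit 5) (nat_lit 358) (nat_lit 309) (nat_lit 233)) (XT.nd (nat_lit 78) (nat_lit 0) (nat_lit 0) (XT.lf (nat_lit 0) (nat_lit 13086640919) (nat_lit 152) (nat_lit 2251122069) (nat_lit 228) (nat_lit 13395844152) (nat_lit 29) (nat_lit 5) (nat_lit 31) (nat_lit 5) (nat_lit 32) (nat_lit 5) (nat_lit 359) (nat_lit 309) (nat_lit 232)) (XT.lf (nat_lit 0) (nat_lit 21826277640) (nat_lit 228) (nat_lit 2291820863) (nat_lit 76) (nat_lit 5647632456) (nat_lit 29) (nat_lit 5) (nat_lit 32) (nat_lit 5) (nat_lit 30) (nat_lit 4) (nat_lit 360) (nat_lit 309) (nat_lit 231))))) (XT.nd (nat_lit 234) (nat_lit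 76) (nat_lit 0) (XT.nd (nat_lit 78) (nat_lit 228) (nat_lit 0) (XT.lf (nat_lit 0) (nat_lit 12050668110) (nat_lit 76) (nat_lit 16796803205) (nat_lit 152) (nat_lit 1991585166) (nat_lit 28) (nat_lit 5) (nat_lit 29) (nat_lit 5) (nat_lit 30) (nat_lit 4) (nat_lit 361) (nat_lit 309) (nat_lit 230)) (XT.nd (nat_lit 78) (nat_lit 152) (nat_lit 0) (XT.lf (nat_lit 0) (nat_lit 4140260521) (nat_lit 152) (nat_lit 4870603203) (nat_lit 76) (nat_lit 22950734966) (nat_lit 27) (nat_lit 5) (nat_lit 29) (nat_lit 5) (nat_lit 28) (nat_lit 5) (nat_lit 362) (nat_lit 309) (nat_lit 229)) (XT.lf (nat_lit 0) (nat_lit 10002669350) (nat_lit 152) (nat_lit 649343724) (nat_lit 228) (nat_lit 22479617308) (nat_lit 25) (nat_lit 5) (nat_lit 27) (nat_lit 5) (nat_lit 28) (nat_lit 5) (nat_lit 363) (nat_lit 309) (nat_lit 228)))) (XT.nd (nat_lit 78) (nat_lit 76) (nat_lit 0) (XT.lf (nat_lit 0) (nat_lit 17684347368) (nat_lit 228) (nat_lit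 8723677923) (nat_lit 76) (nat_lit 7942395388) (nat_lit 25) (nat_lit 5) (nat_lit 28) (nat_lit 5) (nat_lit 26) (nat_lit 4) (nat_lit 364) (nat_lit 309) (nat_lit 227)) (XT.nd (nat_lit 78) (nat_lit 0) (nat_lit 0) (XT.lf (nat_lit 0) (nat_lit 6574947366) (nat_lit 76) (nat_lit 18591620618) (nat_lit 152) (nat_lit 10458675435) (nat_lit 24) (nat_lit 5) (nat_lit 25) (nat_lit 5) (nat_lit 26) (nat_lit 4) (nat_lit 365) (nat_lit 309) (nat_lit 226)) (XT.lf (nat_lit 0) (nat_lit 22915084857) (nat_lit 76) (nat_lit 10240831021) (nat_lit 152) (nat_lit 3801246708) (nat_lit 24) (nat_lit 5) (nat_lit 25) (nat_lit 5) (nat_lit 26) (nat_lit 4) (nat_lit 366) (nat_lit 309) (nat_lit 225))))))) (XT.nd (nat_lit 858) (nat_lit 456) (nat_lit 0) (XT.nd (nat_lit 390) (nat_lit 228) (nat_lit 0) (XT.nd (nat_lit 156) (nat_lit 76) (nat_lit 0) (XT.nd (nat_lit 78) (nat_lit 0) (nat_lit 0) (XT.lf (nat_lit 0) (nat_lit 1695517872) (nat_lit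 152) (nat_lit 1403679896) (nat_lit 228) (nat_lit 35253385278) (nat_lit 21) (nat_lit 5) (nat_lit 23) (nat_lit 5) (nat_lit 24) (nat_lit 5) (nat_lit 367) (nat_lit 309) (nat_lit 224)) (XT.lf (nat_lit 0) (nat_lit 10567436986) (nat_lit 228) (nat_lit 21313180900) (nat_lit 76) (nat_lit 7916520172) (nat_lit 21) (nat_lit 5) (nat_lit 24) (nat_lit 5) (nat_lit 22) (nat_lit 4) (nat_lit 368) (nat_lit 309) (nat_lit 223))) (XT.nd (nat_lit 78) (nat_lit 76) (nat_lit 0) (XT.lf (nat_lit 0) (nat_lit 18418628343) (nat_lit 228) (nat_lit 5249522448) (nat_lit 76) (nat_lit 17645298041) (nat_lit 21) (nat_lit 5) (nat_lit 24) (nat_lit 5) (nat_lit 22) (nat_lit 4) (nat_lit 369) (nat_lit 309) (nat_lit 222)) (XT.nd (nat_lit 78) (nat_lit 0) (nat_lit 0) (XT.lf (nat_lit 0) (nat_lit 11977424754) (nat_lit 76) (nat_lit 14859126187) (nat_lit 152) (nat_lit 16060320402) (nat_lit 20) (nat_lit 5) (nat_lit 21) (nat_lit 5) (nat_lit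 22) (nat_lit 4) (nat_lit 370) (nat_lit 309) (nat_lit 221)) (XT.lf (nat_lit 0) (nat_lit 30225099263) (nat_lit 76) (nat_lit 5526597953) (nat_lit 152) (nat_lit 8803955939) (nat_lit 20) (nat_lit 5) (nat_lit 21) (nat_lit 5) (nat_lit 22) (nat_lit 4) (nat_lit 371) (nat_lit 309) (nat_lit 220))))) (XT.nd (nat_lit 234) (nat_lit 76) (nat_lit 0) (XT.nd (nat_lit 78) (nat_lit 76) (nat_lit 0) (XT.lf (nat_lit 0) (nat_lit 3097999612) (nat_lit 76) (nat_lit 42117546326) (nat_lit 76) (nat_lit 1076685201) (nat_lit 19) (nat_lit 4) (nat_lit 20) (nat_lit 5) (nat_lit 20) (nat_lit 4) (nat_lit 372) (nat_lit 309) (nat_lit 219)) (XT.nd (nat_lit 78) (nat_lit 0) (nat_lit 0) (XT.lf (nat_lit 0) (nat_lit 7136903404) (nat_lit 152) (nat_lit 26434720845) (nat_lit 76) (nat_lit 14522265349) (nat_lit 18) (nat_lit 5) (nat_lit 20) (nat_lit 5) (nat_lit 19) (nat_lit 4) (nat_lit 373) (nat_lit 309) (nat_lit 218)) (XT.lf (nat_lit 0)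 (nat_lit 15713470817) (nat_lit 152) (nat_lit 8876102122) (nat_lit 76) (nat_lit 25395755104) (nat_lit 18) (nat_lit 5) (nat_lit 20) (nat_lit 5) (nat_lit 19) (nat_lit 4) (nat_lit 374) (nat_lit 309) (nat_lit 217)))) (XT.nd (nat_lit 78) (nat_lit 0) (nat_lit 0) (XT.lf (nat_lit 0) (nat_lit 9855684398) (nat_lit 76) (nat_lit 15006088543) (nat_lit 152) (nat_lit 27102423722) (nat_lit 17) (nat_lit 5) (nat_lit 18) (nat_lit 5) (nat_lit 19) (nat_lit 4) (nat_lit 375) (nat_lit 309) (nat_lit 216)) (XT.nd (nat_lit 78) (nat_lit 0) (nat_lit 0) (XT.lf (nat_lit 0) (nat_lit 29812337792) (nat_lit 76) (nat_lit 4794716867) (nat_lit 152) (nat_lit 19427979228) (nat_lit 17) (nat_lit 5) (nat_lit 18) (nat_lit 5) (nat_lit 19) (nat_lit 4) (nat_lit 376) (nat_lit 309) (nat_lit 215)) (XT.lf (nat_lit 0) (nat_lit 44921760984) (nat_lit 152) (nat_lit 5554443448) (nat_lit 0) (nat_lit 5729103751) (nat_lit 17) (nat_lit 5) (nat_lit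 19) (nat_lit 4) (nat_lit 17) (nat_lit 4) (nat_lit 377) (nat_lit 309) (nat_lit 214)))))) (XT.nd (nat_lit 468) (nat_lit 228) (nat_lit 0) (XT.nd (nat_lit 234) (nat_lit 76) (nat_lit 0) (XT.nd (nat_lit 78) (nat_lit 76) (nat_lit 0) (XT.lf (nat_lit 0) (nat_lit 14411483324) (nat_lit 76) (nat_lit 41634439101) (nat_lit 76) (nat_lit 2423490860) (nat_lit 16) (nat_lit 4) (nat_lit 17) (nat_lit 5) (nat_lit 17) (nat_lit 4) (nat_lit 378) (nat_lit 309) (nat_lit 213)) (XT.nd (nat_lit 78) (nat_lit 0) (nat_lit 0) (XT.lf (nat_lit 0) (nat_lit 6745129041) (nat_lit 152) (nat_lit 25400853712) (nat_lit 76) (nat_lit 28691085722) (nat_lit 15) (nat_lit 5) (nat_lit 17) (nat_lit 5) (nat_lit 16) (nat_lit 4) (nat_lit 379) (nat_lit 309) (nat_lit 212)) (XT.lf (nat_lit 0) (nat_lit 16281344870) (nat_lit 152) (nat_lit 5868201745) (nat_lit 76) (nat_lit 41172045499) (nat_lit 15) (nat_lit 5) (nat_lit 17) (nat_lit 5) (nat_lit 16)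 (nat_lit 4) (nat_lit 380) (nat_lit 309) (nat_lit 211)))) (XT.nd (nat_lit 78) (nat_lit 0) (nat_lit 0) (XT.lf (nat_lit 0) (nat_lit 15107917446) (nat_lit 76) (nat_lit 11413388229) (nat_lit 152) (nat_lit 39397692086) (nat_lit 14) (nat_lit 5) (nat_lit 15) (nat_lit 5) (nat_lit 16) (nat_lit 4) (nat_lit 381) (nat_lit 309) (nat_lit 210)) (XT.nd (nat_lit 78) (nat_lit 0) (nat_lit 0) (XT.lf (nat_lit 0) (nat_lit 37320129797) (nat_lit 76) (nat_lit 43741931) (nat_lit 152) (nat_lit 31277874018) (nat_lit 14) (nat_lit 5) (nat_lit 15) (nat_lit 5) (nat_lit 16) (nat_lit 4) (nat_lit 382) (nat_lit 309) (nat_lit 209)) (XT.lf (nat_lit 0) (nat_lit 48925800910) (nat_lit 152) (nat_lit 11059349613) (nat_lit 0) (nat_lit 11506621166) (nat_lit 14) (nat_lit 5) (nat_lit 16) (nat_lit 4) (nat_lit 14) (nat_lit 4) (nat_lit 383) (nat_lit 309) (nat_lit 208))))) (XT.nd (nat_lit 234) (nat_lit 76) (nat_lit 0) (XT.nd (nat_lit 78)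 (nat_lit 76) (nat_lit 0) (XT.lf (nat_lit 0) (nat_lit 10537368327) (nat_lit 76) (nat_lit 50685626597) (nat_lit 76) (nat_lit 13253447776) (nat_lit 13) (nat_lit 4) (nat_lit 14) (nat_lit 5) (nat_lit 14) (nat_lit 4) (nat_lit 384) (nat_lit 309) (nat_lit 207)) (XT.nd (nat_lit 78) (nat_lit 76) (nat_lit 0) (XT.lf (nat_lit 0) (nat_lit 33582916847) (nat_lit 76) (nat_lit 40731511212) (nat_lit 76) (nat_lit 3286952318) (nat_lit 13) (nat_lit 4) (nat_lit 14) (nat_lit 5) (nat_lit 14) (nat_lit 4) (nat_lit 385) (nat_lit 309) (nat_lit 206)) (XT.lf (nat_lit 0) (nat_lit 6940466734) (nat_lit 152) (nat_lit 23228392634) (nat_lit 76) (nat_lit 50708487359) (nat_lit 12) (nat_lit 5) (nat_lit 14) (nat_lit 5) (nat_lit 13) (nat_lit 4) (nat_lit 386) (nat_lit 309) (nat_lit 205)))) (XT.nd (nat_lit 78) (nat_lit 76) (nat_lit 0) (XT.lf (nat_lit 0) (nat_lit 17561493990) (nat_lit 152) (nat_lit 1466515851) (nat_lit 76) (nat_lit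 65286774111) (nat_lit 12) (nat_lit 5) (nat_lit 14) (nat_lit 5) (nat_lit 13) (nat_lit 4) (nat_lit 387) (nat_lit 309) (nat_lit 204)) (XT.nd (nat_lit 78) (nat_lit 0) (nat_lit 0) (XT.lf (nat_lit 0) (nat_lit 22076897952) (nat_lit 76) (nat_lit 6974404905) (nat_lit 152) (nat_lit 58855905387) (nat_lit 11) (nat_lit 5) (nat_lit 12) (nat_lit 5) (nat_lit 13) (nat_lit 4) (nat_lit 388) (nat_lit 309) (nat_lit 203)) (XT.lf (nat_lit 0) (nat_lit 41222636963) (nat_lit 152) (nat_lit 44931923073) (nat_lit 0) (nat_lit 5519343608) (nat_lit 11) (nat_lit 5) (nat_lit 13) (nat_lit 4) (nat_lit 11) (nat_lit 4) (nat_lit 389) (nat_lit 309) (nat_lit 202))))))))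
noncomputable def xc127 : XT := (XT.nd (nat_lit 1794) (nat_lit 152) (nat_lit 0) (XT.nd (nat_lit 858) (nat_lit 228) (nat_lit 0) (XT.nd (nat_lit 390) (nat_lit 76) (nat_lit 0) (XT.nd (nat_lit 156) (nat_lit 152) (nat_lit 0) (XT.nd (nat_lit 78) (nat_lit 0) (nat_lit 0) (XT.lf (nat_lit 0) (nat_lit 54110283153) (nat_lit 152) (nat_lit 23115513355) (nat_lit 0) (nat_lit 18397751596) (nat_lit 11) (nat_lit 5) (nat_lit 13) (nat_lit 4) (nat_lit 11) (nat_lit 4) (nat_lit 390) (nat_lit 309) (nat_lit 201)) (XT.lf (nat_lit 0) (nat_lit 67636036291) (nat_lit 152) (nat_lit 220247297) (nat_lit 0) (nat_lit 31914706447) (nat_lit 11) (nat_lit 5) (nat_lit 13) (nat_lit 4) (nat_lit 11) (nat_lit 4) (nat_lit 391) (nat_lit 309) (nat_lit 200))) (XT.nd (nat_lit 78) (nat_lit 76) (nat_lit 0) (XT.lf (nat_lit 0) (nat_lit 24595600454) (nat_lit 76) (nat_lit 57620506350) (nat_lit 76) (nat_lit 21890797185) (nat_lit 10) (nat_lit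 4) (nat_lit 11) (nat_lit 5) (nat_lit 11) (nat_lit 4) (nat_lit 392) (nat_lit 309) (nat_lit 199)) (XT.nd (nat_lit 78) (nat_lit 76) (nat_lit 0) (XT.lf (nat_lit 0) (nat_lit 50648676438) (nat_lit 76) (nat_lit 46874367434) (nat_lit 76) (nat_lit 11136677963) (nat_lit 10) (nat_lit 4) (nat_lit 11) (nat_lit 5) (nat_lit 11) (nat_lit 4) (nat_lit 393) (nat_lit 309) (nat_lit 198)) (XT.lf (nat_lit 0) (nat_lit 144501113) (nat_lit 152) (nat_lit 35449062480) (nat_lit 76) (nat_lit 77846781107) (nat_lit 9) (nat_lit 5) (nat_lit 11) (nat_lit 5) (nat_lit 10) (nat_lit 4) (nat_lit 394) (nat_lit 309) (nat_lit 197))))) (XT.nd (nat_lit 234) (nat_lit 0) (nat_lit 0) (XT.nd (nat_lit 78) (nat_lit 76) (nat_lit 0) (XT.lf (nat_lit 0) (nat_lit 11610063806) (nat_lit 152) (nat_lit 11951897331) (nat_lit 76) (nat_lit 94889180804) (nat_lit 9) (nat_lit 5) (nat_lit 11) (nat_lit 5) (nat_lit 10) (nat_lit 4) (nat_lit 395) (nat_lit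 309) (nat_lit 196)) (XT.nd (nat_lit 78) (nat_lit 0) (nat_lit 0) (XT.lf (nat_lit 0) (nat_lit 13130529375) (nat_lit 76) (nat_lit 10718227307) (nat_lit 152) (nat_lit 99853730867) (nat_lit 8) (nat_lit 5) (nat_lit 9) (nat_lit 5) (nat_lit 10) (nat_lit 4) (nat_lit 396) (nat_lit 309) (nat_lit 195)) (XT.lf (nat_lit 0) (nat_lit 36943194253) (nat_lit 152) (nat_lit 89380667471) (nat_lit 0) (nat_lit 2880349262) (nat_lit 8) (nat_lit 5) (nat_lit 10) (nat_lit 4) (nat_lit 8) (nat_lit 4) (nat_lit 397) (nat_lit 309) (nat_lit 194)))) (XT.nd (nat_lit 78) (nat_lit 0) (nat_lit 0) (XT.lf (nat_lit 0) (nat_lit 50863175895) (nat_lit 152) (nat_lit 67314928720) (nat_lit 0) (nat_lit 16794375876) (nat_lit 8) (nat_lit 5) (nat_lit 10) (nat_lit 4) (nat_lit 8) (nat_lit 4) (nat_lit 398) (nat_lit 309) (nat_lit 193)) (XT.nd (nat_lit 78) (nat_lit 0) (nat_lit 0) (XT.lf (nat_lit 0) (nat_lit 65474502854) (nat_lit 152) (nat_lit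 44154862881) (nat_lit 0) (nat_lit 31400031381) (nat_lit 8) (nat_lit 5) (nat_lit 10) (nat_lit 4) (nat_lit 8) (nat_lit 4) (nat_lit 399) (nat_lit 309) (nat_lit 192)) (XT.lf (nat_lit 0) (nat_lit 80811964003) (nat_lit 152) (nat_lit 19845326939) (nat_lit 0) (nat_lit 46732091146) (nat_lit 8) (nat_lit 5) (nat_lit 10) (nat_lit 4) (nat_lit 8) (nat_lit 4) (nat_lit 400) (nat_lit 309) (nat_lit 191)))))) (XT.nd (nat_lit 468) (nat_lit 76) (nat_lit 0) (XT.nd (nat_lit 234) (nat_lit 76) (nat_lit 0) (XT.nd (nat_lit 78) (nat_lit 0) (nat_lit 0) (XT.lf (nat_lit 0) (nat_lit 5859086304) (nat_lit 76) (nat_lit 91144467562) (nat_lit 76) (nat_lit 57059450527) (nat_lit 7) (nat_lit 4) (nat_lit 8) (nat_lit 5) (nat_lit 8) (nat_lit 4) (nat_lit 401) (nat_lit 309) (nat_lit 190)) (XT.nd (nat_lit 78) (nat_lit 0) (nat_lit 0) (XT.lf (nat_lit 0) (nat_lit 33529709380) (nat_lit 76) (nat_lit 80806959122) (nat_lit 76) (nat_lit 46717042873)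 (nat_lit 7) (nat_lit 4) (nat_lit 8) (nat_lit 5) (nat_lit 8) (nat_lit 4) (nat_lit 402) (nat_lit 309) (nat_lit 189)) (XT.lf (nat_lit 0) (nat_lit 62576248592) (nat_lit 76) (nat_lit 69956242724) (nat_lit 76) (nat_lit 35861660555) (nat_lit 7) (nat_lit 4) (nat_lit 8) (nat_lit 5) (nat_lit 8) (nat_lit 4) (nat_lit 403) (nat_lit 309) (nat_lit 188)))) (XT.nd (nat_lit 78) (nat_lit 76) (nat_lit 0) (XT.lf (nat_lit 0) (nat_lit 93067862366) (nat_lit 76) (nat_lit 58566483327) (nat_lit 76) (nat_lit 24467457425) (nat_lit 7) (nat_lit 4) (nat_lit 8) (nat_lit 5) (nat_lit 8) (nat_lit 4) (nat_lit 404) (nat_lit 309) (nat_lit 187)) (XT.nd (nat_lit 78) (nat_lit 76) (nat_lit 0) (XT.lf (nat_lit 0) (nat_lit 125077149782) (nat_lit 76) (nat_lit 46610562458) (nat_lit 76) (nat_lit 12507304429) (nat_lit 7) (nat_lit 4) (nat_lit 8) (nat_lit 5) (nat_lit 8) (nat_lit 4) (nat_lit 405) (nat_lit 309) (nat_lit 186)) (XT.lf (nat_lit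 0) (nat_lit 45761893) (nat_lit 152) (nat_lit 34013476744) (nat_lit 76) (nat_lit 158633786538) (nat_lit 6) (nat_lit 5) (nat_lit 8) (nat_lit 5) (nat_lit 7) (nat_lit 4) (nat_lit 406) (nat_lit 309) (nat_lit 185))))) (XT.nd (nat_lit 234) (nat_lit 0) (nat_lit 0) (XT.nd (nat_lit 78) (nat_lit 76) (nat_lit 0) (XT.lf (nat_lit 0) (nat_lit 12802852557) (nat_lit 152) (nat_lit 7865279545) (nat_lit 76) (nat_lit 180937715806) (nat_lit 6) (nat_lit 5) (nat_lit 8) (nat_lit 5) (nat_lit 7) (nat_lit 4) (nat_lit 407) (nat_lit 309) (nat_lit 184)) (XT.nd (nat_lit 78) (nat_lit 0) (nat_lit 0) (XT.lf (nat_lit 0) (nat_lit 20231800356) (nat_lit 76) (nat_lit 6278728187) (nat_lit 152) (nat_lit 184438147283) (nat_lit 5) (nat_lit 5) (nat_lit 6) (nat_lit 5) (nat_lit 7) (nat_lit 4) (nat_lit 408) (nat_lit 309) (nat_lit 183)) (XT.lf (nat_lit 0) (nat_lit 41173704722) (nat_lit 152) (nat_lit 170891316094) (nat_lit 0) (nat_lit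 8680119064) (nat_lit 5) (nat_lit 5) (nat_lit 7) (nat_lit 4) (nat_lit 5) (nat_lit 4) (nat_lit 409) (nat_lit 309) (nat_lit 182)))) (XT.nd (nat_lit 78) (nat_lit 0) (nat_lit 0) (XT.lf (nat_lit 0) (nat_lit 56669985972) (nat_lit 152) (nat_lit 150183202146) (nat_lit 0) (nat_lit 24173242236) (nat_lit 5) (nat_lit 5) (nat_lit 7) (nat_lit 4) (nat_lit 5) (nat_lit 4) (nat_lit 410) (nat_lit 309) (nat_lit 181)) (XT.nd (nat_lit 78) (nat_lit 0) (nat_lit 0) (XT.lf (nat_lit 0) (nat_lit 72938239659) (nat_lit 152) (nat_lit 128445200052) (nat_lit 0) (nat_lit 40438488230) (nat_lit 5) (nat_lit 5) (nat_lit 7) (nat_lit 4) (nat_lit 5) (nat_lit 4) (nat_lit 411) (nat_lit 309) (nat_lit 180)) (XT.lf (nat_lit 0) (nat_lit 90017199720) (nat_lit 152) (nat_lit 105625552662) (nat_lit 0) (nat_lit 57514583822) (nat_lit 5) (nat_lit 5) (nat_lit 7) (nat_lit 4) (nat_lit 5) (nat_lit 4) (nat_lit 412) (nat_lit 309) (nat_lit 179)))))))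 (XT.nd (nat_lit 858) (nat_lit 76) (nat_lit 0) (XT.nd (nat_lit 390) (nat_lit 0) (nat_lit 0) (XT.nd (nat_lit 156) (nat_lit 76) (nat_lit 0) (XT.nd (nat_lit 78) (nat_lit 0) (nat_lit 0) (XT.lf (nat_lit 0) (nat_lit 107947530347) (nat_lit 152) (nat_lit 81669927484) (nat_lit 0) (nat_lit 75442186382) (nat_lit 5) (nat_lit 5) (nat_lit 7) (nat_lit 4) (nat_lit 5) (nat_lit 4) (nat_lit 413) (nat_lit 309) (nat_lit 178)) (XT.lf (nat_lit 0) (nat_lit 126771922802) (nat_lit 152) (nat_lit 56521287315) (nat_lit 0) (nat_lit 94263980678) (nat_lit 5) (nat_lit 5) (nat_lit 7) (nat_lit 4) (nat_lit 5) (nat_lit 4) (nat_lit 414) (nat_lit 309) (nat_lit 177))) (XT.nd (nat_lit 78) (nat_lit 76) (nat_lit 0) (XT.lf (nat_lit 0) (nat_lit 146535197068) (nat_lit 152) (nat_lit 30119754439) (nat_lit 0) (nat_lit 114024780507) (nat_lit 5) (nat_lit 5) (nat_lit 7) (nat_lit 4) (nat_lit 5) (nat_lit 4) (nat_lit 415) (nat_lit 309) (nat_lit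 176)) (XT.nd (nat_lit 78) (nat_lit 76) (nat_lit 0) (XT.lf (nat_lit 0) (nat_lit 167284408559) (nat_lit 152) (nat_lit 2402468064) (nat_lit 0) (nat_lit 134771635392) (nat_lit 5) (nat_lit 5) (nat_lit 7) (nat_lit 4) (nat_lit 5) (nat_lit 4) (nat_lit 416) (nat_lit 309) (nat_lit 175)) (XT.lf (nat_lit 0) (nat_lit 27579274362) (nat_lit 76) (nat_lit 161920275561) (nat_lit 76) (nat_lit 129405258006) (nat_lit 4) (nat_lit 4) (nat_lit 5) (nat_lit 5) (nat_lit 5) (nat_lit 4) (nat_lit 417) (nat_lit 309) (nat_lit 174))))) (XT.nd (nat_lit 234) (nat_lit 0) (nat_lit 0) (XT.nd (nat_lit 78) (nat_lit 0) (nat_lit 0) (XT.lf (nat_lit 0) (nat_lit 59139461304) (nat_lit 76) (nat_lit 153724591275) (nat_lit 76) (nat_lit 121207436209) (nat_lit 4) (nat_lit 4) (nat_lit 5) (nat_lit 5) (nat_lit 5) (nat_lit 4) (nat_lit 418) (nat_lit 309) (nat_lit 173)) (XT.nd (nat_lit 78) (nat_lit 0) (nat_lit 0) (XT.lf (nat_lit 0) (nat_lit 92273799619)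 (nat_lit 76) (nat_lit 145120997192) (nat_lit 76) (nat_lit 112601806401) (nat_lit 4) (nat_lit 4) (nat_lit 5) (nat_lit 5) (nat_lit 5) (nat_lit 4) (nat_lit 419) (nat_lit 309) (nat_lit 172)) (XT.lf (nat_lit 0) (nat_lit 127061180588) (nat_lit 76) (nat_lit 136089008563) (nat_lit 76) (nat_lit 103567878986) (nat_lit 4) (nat_lit 4) (nat_lit 5) (nat_lit 5) (nat_lit 5) (nat_lit 4) (nat_lit 420) (nat_lit 309) (nat_lit 171)))) (XT.nd (nat_lit 78) (nat_lit 0) (nat_lit 0) (XT.lf (nat_lit 0) (nat_lit 163584431308) (nat_lit 76) (nat_lit 126607120655) (nat_lit 76) (nat_lit 94084144615) (nat_lit 4) (nat_lit 4) (nat_lit 5) (nat_lit 5) (nat_lit 5) (nat_lit 4) (nat_lit 421) (nat_lit 309) (nat_lit 170)) (XT.nd (nat_lit 78) (nat_lit 0) (nat_lit 0) (XT.lf (nat_lit 0) (nat_lit 201930511901) (nat_lit 76) (nat_lit 116652757542) (nat_lit 76) (nat_lit 84128022967) (nat_lit 4) (nat_lit 4) (nat_lit 5) (nat_lit 5) (nat_lit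 5) (nat_lit 4) (nat_lit 422) (nat_lit 309) (nat_lit 169)) (XT.lf (nat_lit 0) (nat_lit 242190722559) (nat_lit 76) (nat_lit 106202218362) (nat_lit 76) (nat_lit 73675808990) (nat_lit 4) (nat_lit 4) (nat_lit 5) (nat_lit 5) (nat_lit 5) (nat_lit 4) (nat_lit 423) (nat_lit 309) (nat_lit 168)))))) (XT.nd (nat_lit 468) (nat_lit 0) (nat_lit 0) (XT.nd (nat_lit 234) (nat_lit 76) (nat_lit 0) (XT.nd (nat_lit 78) (nat_lit 0) (nat_lit 0) (XT.lf (nat_lit 0) (nat_lit 284460920926) (nat_lit 76) (nat_lit 95230620877) (nat_lit 76) (nat_lit 62702616461) (nat_lit 4) (nat_lit 4) (nat_lit 5) (nat_lit 5) (nat_lit 5) (nat_lit 4) (nat_lit 424) (nat_lit 309) (nat_lit 167)) (XT.nd (nat_lit 78) (nat_lit 0) (nat_lit 0) (XT.lf (nat_lit 0) (nat_lit 328841750330) (nat_lit 76) (nat_lit 83711842236) (nat_lit 76) (nat_lit 51182318731) (nat_lit 4) (nat_lit 4) (nat_lit 5) (nat_lit 5) (nat_lit 5) (nat_lit 4) (nat_lit 425) (nat_lit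 309) (nat_lit 166)) (XT.lf (nat_lit 0) (nat_lit 375438879415) (nat_lit 76) (nat_lit 71618456777) (nat_lit 76) (nat_lit 39087486519) (nat_lit 4) (nat_lit 4) (nat_lit 5) (nat_lit 5) (nat_lit 5) (nat_lit 4) (nat_lit 426) (nat_lit 309) (nat_lit 165)))) (XT.nd (nat_lit 78) (nat_lit 76) (nat_lit 0) (XT.lf (nat_lit 0) (nat_lit 424363253725) (nat_lit 76) (nat_lit 58921670723) (nat_lit 76) (nat_lit 26389322607) (nat_lit 4) (nat_lit 4) (nat_lit 5) (nat_lit 5) (nat_lit 5) (nat_lit 4) (nat_lit 427) (nat_lit 309) (nat_lit 164)) (XT.nd (nat_lit 78) (nat_lit 76) (nat_lit 0) (XT.lf (nat_lit 0) (nat_lit 475731359865) (nat_lit 76) (nat_lit 45591253633) (nat_lit 76) (nat_lit 13057593270) (nat_lit 4) (nat_lit 4) (nat_lit 5) (nat_lit 5) (nat_lit 5) (nat_lit 4) (nat_lit 428) (nat_lit 309) (nat_lit 163)) (XT.lf (nat_lit 0) (nat_lit 909375638) (nat_lit 152) (nat_lit 30670690063) (nat_lit 76) (nat_lit 528740726496)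 (nat_lit 3) (nat_lit 5) (nat_lit 5) (nat_lit 5) (nat_lit 4) (nat_lit 4) (nat_lit 429) (nat_lit 309) (nat_lit 162))))) (XT.nd (nat_lit 37674) (nat_lit 0) (nat_lit 8740) (XT.nd (nat_lit 37518) (nat_lit 0) (nat_lit 9272) (XT.lf (nat_lit 0) (nat_lit 15134693283) (nat_lit 152) (nat_lit 1509979136) (nat_lit 76) (nat_lit 570903090671) (nat_lit 3) (nat_lit 5) (nat_lit 5) (nat_lit 5) (nat_lit 4) (nat_lit 4) (nat_lit 430) (nat_lit 309) (nat_lit 161)) (XT.nd (nat_lit 78) (nat_lit 0) (nat_lit 0) (XT.lf (nat_lit 0) (nat_lit 622848054) (nat_lit 0) (nat_lit 622848054) (nat_lit 532) (nat_lit 2560290260) (nat_lit 125) (nat_lit 5) (nat_lit 125) (nat_lit 3) (nat_lit 132) (nat_lit 3) (nat_lit 310) (nat_lit 310) (nat_lit 280)) (XT.lf (nat_lit 0) (nat_lit 3903933444) (nat_lit 532) (nat_lit 2768220143) (nat_lit 608) (nat_lit 1060544277) (nat_lit 125) (nat_lit 5) (nat_lit 132) (nat_lit 3) (nat_lit 133) (nat_lit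 5) (nat_lit 311) (nat_lit 310) (nat_lit 279)))) (XT.nd (nat_lit 78) (nat_lit 532) (nat_lit 0) (XT.lf (nat_lit 76) (nat_lit 972716723) (nat_lit 0) (nat_lit 4365320967) (nat_lit 608) (nat_lit 2524006711) (nat_lit 126) (nat_lit 5) (nat_lit 125) (nat_lit 5) (nat_lit 133) (nat_lit 5) (nat_lit 312) (nat_lit 310) (nat_lit 278)) (XT.nd (nat_lit 78) (nat_lit 532) (nat_lit 0) (XT.lf (nat_lit 76) (nat_lit 4949842485) (nat_lit 0) (nat_lit 1859512451) (nat_lit 608) (nat_lit 1190353609) (nat_lit 126) (nat_lit 5) (nat_lit 125) (nat_lit 5) (nat_lit 133) (nat_lit 5) (nat_lit 313) (nat_lit 310) (nat_lit 277)) (XT.lf (nat_lit 0) (nat_lit 152227473) (nat_lit 608) (nat_lit 7198618977) (nat_lit 684) (nat_lit 795911209) (nat_lit 118) (nat_lit 5) (nat_lit 126) (nat_lit 5) (nat_lit 127) (nat_lit 5) (nat_lit 314) (nat_lit 310) (nat_lit 276))))))))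
noncomputable def xc128 : XT := (XT.nd (nat_lit 1716) (nat_lit 2736) (nat_lit 0) (XT.nd (nat_lit 858) (nat_lit 2052) (nat_lit 0) (XT.nd (nat_lit 390) (nat_lit 1976) (nat_lit 0) (XT.nd (nat_lit 156) (nat_lit 0) (nat_lit 76) (XT.nd (nat_lit 78) (nat_lit 0) (nat_lit 0) (XT.lf (nat_lit 0) (nat_lit 1529513668) (nat_lit 608) (nat_lit 3148534831) (nat_lit 684) (nat_lit 3621864602) (nat_lit 118) (nat_lit 5) (nat_lit 126) (nat_lit 5) (nat_lit 127) (nat_lit 5) (nat_lit 315) (nat_lit 310) (nat_lit 275)) (XT.lf (nat_lit 76) (nat_lit 1090340036) (nat_lit 0) (nat_lit 1830536198) (nat_lit 684) (nat_lit 5542692867) (nat_lit 119) (nat_lit 5) (nat_lit 118) (nat_lit 5) (nat_lit 127) (nat_lit 5) (nat_lit 316) (nat_lit 310) (nat_lit 274))) (XT.nd (nat_lit 78) (nat_lit 0) (nat_lit 0) (XT.lf (nat_lit 0) (nat_lit 4385298142) (nat_lit 608) (nat_lit 3052963232) (nat_lit 684) (nat_lit 1197070432) (nat_lit 119) (nat_lit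 5) (nat_lit 127) (nat_lit 5) (nat_lit 128) (nat_lit 5) (nat_lit 317) (nat_lit 310) (nat_lit 273)) (XT.nd (nat_lit 78) (nat_lit 0) (nat_lit 0) (XT.lf (nat_lit 76) (nat_lit 1450478880) (nat_lit 0) (nat_lit 4459587944) (nat_lit 684) (nat_lit 2906353314) (nat_lit 120) (nat_lit 5) (nat_lit 119) (nat_lit 5) (nat_lit 128) (nat_lit 5) (nat_lit 318) (nat_lit 310) (nat_lit 272)) (XT.lf (nat_lit 76) (nat_lit 6236626879) (nat_lit 0) (nat_lit 1262985188) (nat_lit 684) (nat_lit 1507613226) (nat_lit 120) (nat_lit 5) (nat_lit 119) (nat_lit 5) (nat_lit 128) (nat_lit 5) (nat_lit 319) (nat_lit 310) (nat_lit 271))))) (XT.nd (nat_lit 234) (nat_lit 760) (nat_lit 0) (XT.nd (nat_lit 78) (nat_lit 760) (nat_lit 0) (XT.lf (nat_lit 0) (nat_lit 2037579982) (nat_lit 608) (nat_lit 7135612781) (nat_lit 684) (nat_lit 34235091) (nat_lit 112) (nat_lit 5) (nat_lit 120) (nat_lit 5) (nat_lit 121) (nat_lit 5) (nat_lit 320) (nat_lit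 310) (nat_lit 270)) (XT.nd (nat_lit 78) (nat_lit 684) (nat_lit 0) (XT.lf (nat_lit 0) (nat_lit 1473916848) (nat_lit 684) (nat_lit 2328719566) (nat_lit 76) (nat_lit 5613424102) (nat_lit 111) (nat_lit 5) (nat_lit 120) (nat_lit 5) (nat_lit 112) (nat_lit 5) (nat_lit 321) (nat_lit 310) (nat_lit 269)) (XT.lf (nat_lit 0) (nat_lit 2795089776) (nat_lit 684) (nat_lit 248807675) (nat_lit 760) (nat_lit 6591894196) (nat_lit 102) (nat_lit 5) (nat_lit 111) (nat_lit 5) (nat_lit 112) (nat_lit 5) (nat_lit 322) (nat_lit 310) (nat_lit 268)))) (XT.nd (nat_lit 78) (nat_lit 760) (nat_lit 0) (XT.lf (nat_lit 0) (nat_lit 4732800974) (nat_lit 760) (nat_lit 1713997909) (nat_lit 76) (nat_lit 3417759235) (nat_lit 102) (nat_lit 5) (nat_lit 112) (nat_lit 5) (nat_lit 103) (nat_lit 5) (nat_lit 323) (nat_lit 310) (nat_lit 267)) (XT.nd (nat_lit 78) (nat_lit 0) (nat_lit 0) (XT.lf (nat_lit 0) (nat_lit 3736578653) (nat_lit 760)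 (nat_lit 2780525887) (nat_lit 836) (nat_lit 3587177274) (nat_lit 92) (nat_lit 5) (nat_lit 102) (nat_lit 5) (nat_lit 103) (nat_lit 5) (nat_lit 324) (nat_lit 310) (nat_lit 266)) (XT.lf (nat_lit 0) (nat_lit 8387108494) (nat_lit 836) (nat_lit 902311489) (nat_lit 76) (nat_lit 1066810923) (nat_lit 92) (nat_lit 5) (nat_lit 103) (nat_lit 5) (nat_lit 93) (nat_lit 5) (nat_lit 325) (nat_lit 310) (nat_lit 265)))))) (XT.nd (nat_lit 390) (nat_lit 912) (nat_lit 0) (XT.nd (nat_lit 156) (nat_lit 380) (nat_lit 0) (XT.nd (nat_lit 78) (nat_lit 380) (nat_lit 0) (XT.lf (nat_lit 0) (nat_lit 4900180465) (nat_lit 380) (nat_lit 5525178151) (nat_lit 456) (nat_lit 191741988) (nat_lit 87) (nat_lit 5) (nat_lit 92) (nat_lit 5) (nat_lit 93) (nat_lit 5) (nat_lit 326) (nat_lit 310) (nat_lit 264)) (XT.lf (nat_lit 0) (nat_lit 61182680) (nat_lit 304) (nat_lit 1529594035) (nat_lit 380) (nat_lit 9300491516) (nat_lit 82) (nat_lit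 5) (nat_lit 86) (nat_lit 5) (nat_lit 87) (nat_lit 5) (nat_lit 327) (nat_lit 310) (nat_lit 263))) (XT.nd (nat_lit 78) (nat_lit 380) (nat_lit 0) (XT.lf (nat_lit 0) (nat_lit 3550823307) (nat_lit 380) (nat_lit 4943734219) (nat_lit 76) (nat_lit 2679739480) (nat_lit 82) (nat_lit 5) (nat_lit 87) (nat_lit 5) (nat_lit 83) (nat_lit 5) (nat_lit 328) (nat_lit 310) (nat_lit 262)) (XT.nd (nat_lit 78) (nat_lit 0) (nat_lit 0) (XT.lf (nat_lit 0) (nat_lit 1202981839) (nat_lit 380) (nat_lit 4406718674) (nat_lit 456) (nat_lit 5861785023) (nat_lit 77) (nat_lit 5) (nat_lit 82) (nat_lit 5) (nat_lit 83) (nat_lit 5) (nat_lit 329) (nat_lit 310) (nat_lit 261)) (XT.lf (nat_lit 0) (nat_lit 7782052730) (nat_lit 380) (nat_lit 31485624) (nat_lit 456) (nat_lit 3967941663) (nat_lit 77) (nat_lit 5) (nat_lit 82) (nat_lit 5) (nat_lit 83) (nat_lit 5) (nat_lit 330) (nat_lit 310) (nat_lit 260))))) (XT.nd (nat_lit 234) (nat_lit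 228) (nat_lit 0) (XT.nd (nat_lit 78) (nat_lit 380) (nat_lit 0) (XT.lf (nat_lit 0) (nat_lit 2547035796) (nat_lit 304) (nat_lit 7651737552) (nat_lit 380) (nat_lit 1904685722) (nat_lit 73) (nat_lit 5) (nat_lit 77) (nat_lit 5) (nat_lit 78) (nat_lit 5) (nat_lit 331) (nat_lit 310) (nat_lit 259)) (XT.nd (nat_lit 78) (nat_lit 304) (nat_lit 0) (XT.lf (nat_lit 0) (nat_lit 283428391) (nat_lit 380) (nat_lit 2931137135) (nat_lit 76) (nat_lit 9225304519) (nat_lit 72) (nat_lit 5) (nat_lit 77) (nat_lit 5) (nat_lit 73) (nat_lit 5) (nat_lit 332) (nat_lit 310) (nat_lit 258)) (XT.lf (nat_lit 0) (nat_lit 2567218412) (nat_lit 380) (nat_lit 8734194229) (nat_lit 76) (nat_lit 1487652671) (nat_lit 68) (nat_lit 5) (nat_lit 73) (nat_lit 5) (nat_lit 69) (nat_lit 5) (nat_lit 333) (nat_lit 310) (nat_lit 257)))) (XT.nd (nat_lit 78) (nat_lit 228) (nat_lit 0) (XT.lf (nat_lit 0) (nat_lit 5031909351) (nat_lit 380) (nat_lit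 1760531293) (nat_lit 76) (nat_lit 6359981238) (nat_lit 68) (nat_lit 5) (nat_lit 73) (nat_lit 5) (nat_lit 69) (nat_lit 5) (nat_lit 334) (nat_lit 310) (nat_lit 256)) (XT.nd (nat_lit 78) (nat_lit 0) (nat_lit 0) (XT.lf (nat_lit 0) (nat_lit 5700727413) (nat_lit 228) (nat_lit 1973406633) (nat_lit 304) (nat_lit 5857132618) (nat_lit 65) (nat_lit 5) (nat_lit 68) (nat_lit 5) (nat_lit 69) (nat_lit 5) (nat_lit 335) (nat_lit 310) (nat_lit 255)) (XT.lf (nat_lit 0) (nat_lit 10493100514) (nat_lit 304) (nat_lit 424492313) (nat_lit 76) (nat_lit 3009262991) (nat_lit 65) (nat_lit 5) (nat_lit 69) (nat_lit 5) (nat_lit 66) (nat_lit 5) (nat_lit 336) (nat_lit 310) (nat_lit 254))))))) (XT.nd (nat_lit 858) (nat_lit 1292) (nat_lit 0) (XT.nd (nat_lit 390) (nat_lit 608) (nat_lit 0) (XT.nd (nat_lit 156) (nat_lit 228) (nat_lit 0) (XT.nd (nat_lit 78) (nat_lit 304) (nat_lit 0) (XT.lf (nat_lit 0) (nat_lit 7517817239) (nat_lit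 304) (nat_lit 6052671915) (nat_lit 380) (nat_lit 765893642) (nat_lit 61) (nat_lit 5) (nat_lit 65) (nat_lit 5) (nat_lit 66) (nat_lit 5) (nat_lit 337) (nat_lit 310) (nat_lit 253)) (XT.lf (nat_lit 0) (nat_lit 1065450861) (nat_lit 228) (nat_lit 896798384) (nat_lit 304) (nat_lit 12802975448) (nat_lit 57) (nat_lit 5) (nat_lit 60) (nat_lit 5) (nat_lit 61) (nat_lit 5) (nat_lit 338) (nat_lit 310) (nat_lit 252))) (XT.nd (nat_lit 78) (nat_lit 228) (nat_lit 0) (XT.lf (nat_lit 0) (nat_lit 4957732988) (nat_lit 304) (nat_lit 5757738766) (nat_lit 76) (nat_lit 4491603205) (nat_lit 57) (nat_lit 5) (nat_lit 61) (nat_lit 5) (nat_lit 58) (nat_lit 5) (nat_lit 339) (nat_lit 310) (nat_lit 251)) (XT.nd (nat_lit 78) (nat_lit 0) (nat_lit 0) (XT.lf (nat_lit 0) (nat_lit 2608835952) (nat_lit 228) (nat_lit 5519857367) (nat_lit 304) (nat_lit 7541065674) (nat_lit 54) (nat_lit 5) (nat_lit 57) (nat_lit 5) (nat_lit 58) (nat_lit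 5) (nat_lit 340) (nat_lit 310) (nat_lit 250)) (XT.lf (nat_lit 0) (nat_lit 11527170478) (nat_lit 304) (nat_lit 4599640446) (nat_lit 76) (nat_lit 25342980) (nat_lit 54) (nat_lit 5) (nat_lit 58) (nat_lit 5) (nat_lit 55) (nat_lit 5) (nat_lit 341) (nat_lit 310) (nat_lit 249))))) (XT.nd (nat_lit 234) (nat_lit 152) (nat_lit 0) (XT.nd (nat_lit 78) (nat_lit 304) (nat_lit 0) (XT.lf (nat_lit 0) (nat_lit 4291591957) (nat_lit 152) (nat_lit 10933726713) (nat_lit 228) (nat_lit 1426886456) (nat_lit 52) (nat_lit 5) (nat_lit 54) (nat_lit 5) (nat_lit 55) (nat_lit 5) (nat_lit 342) (nat_lit 310) (nat_lit 248)) (XT.nd (nat_lit 78) (nat_lit 228) (nat_lit 0) (XT.lf (nat_lit 0) (nat_lit 1920977437) (nat_lit 228) (nat_lit 3457984898) (nat_lit 76) (nat_lit 11794227274) (nat_lit 51) (nat_lit 5) (nat_lit 54) (nat_lit 5) (nat_lit 52) (nat_lit 5) (nat_lit 343) (nat_lit 310) (nat_lit 247)) (XT.lf (nat_lit 0) (nat_lit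 5464903410) (nat_lit 304) (nat_lit 11703766809) (nat_lit 76) (nat_lit 546573101) (nat_lit 48) (nat_lit 5) (nat_lit 52) (nat_lit 5) (nat_lit 49) (nat_lit 5) (nat_lit 344) (nat_lit 310) (nat_lit 246)))) (XT.nd (nat_lit 78) (nat_lit 152) (nat_lit 0) (XT.lf (nat_lit 0) (nat_lit 9308001326) (nat_lit 304) (nat_lit 2334985698) (nat_lit 76) (nat_lit 6635333590) (nat_lit 48) (nat_lit 5) (nat_lit 52) (nat_lit 5) (nat_lit 49) (nat_lit 5) (nat_lit 345) (nat_lit 310) (nat_lit 245)) (XT.nd (nat_lit 78) (nat_lit 0) (nat_lit 0) (XT.lf (nat_lit 0) (nat_lit 7712079872) (nat_lit 152) (nat_lit 5727079774) (nat_lit 228) (nat_lit 5425615596) (nat_lit 46) (nat_lit 5) (nat_lit 48) (nat_lit 5) (nat_lit 49) (nat_lit 5) (nat_lit 346) (nat_lit 310) (nat_lit 244)) (XT.lf (nat_lit 0) (nat_lit 17800536464) (nat_lit 228) (nat_lit 1181636548) (nat_lit 76) (nat_lit 497214411) (nat_lit 46) (nat_lit 5) (nat_lit 49) (nat_lit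 5) (nat_lit 47) (nat_lit 5) (nat_lit 347) (nat_lit 310) (nat_lit 243)))))) (XT.nd (nat_lit 468) (nat_lit 456) (nat_lit 0) (XT.nd (nat_lit 234) (nat_lit 380) (nat_lit 0) (XT.nd (nat_lit 78) (nat_lit 152) (nat_lit 0) (XT.lf (nat_lit 0) (nat_lit 2405290837) (nat_lit 304) (nat_lit 10691330144) (nat_lit 76) (nat_lit 7015253830) (nat_lit 42) (nat_lit 5) (nat_lit 46) (nat_lit 5) (nat_lit 43) (nat_lit 5) (nat_lit 348) (nat_lit 310) (nat_lit 242)) (XT.nd (nat_lit 78) (nat_lit 152) (nat_lit 0) (XT.lf (nat_lit 0) (nat_lit 6634770999) (nat_lit 304) (nat_lit 244800982) (nat_lit 76) (nat_lit 13895176316) (nat_lit 42) (nat_lit 5) (nat_lit 46) (nat_lit 5) (nat_lit 43) (nat_lit 5) (nat_lit 349) (nat_lit 310) (nat_lit 241)) (XT.lf (nat_lit 0) (nat_lit 11043394626) (nat_lit 152) (nat_lit 183046053) (nat_lit 228) (nat_lit 10236803689) (nat_lit 40) (nat_lit 5) (nat_lit 42) (nat_lit 5) (nat_lit 43) (nat_lit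 5) (nat_lit 350) (nat_lit 310) (nat_lit 240)))) (XT.nd (nat_lit 78) (nat_lit 228) (nat_lit 0) (XT.lf (nat_lit 0) (nat_lit 596185660) (nat_lit 152) (nat_lit 15550564720) (nat_lit 228) (nat_lit 6034476022) (nat_lit 38) (nat_lit 5) (nat_lit 40) (nat_lit 5) (nat_lit 41) (nat_lit 5) (nat_lit 351) (nat_lit 310) (nat_lit 239)) (XT.nd (nat_lit 78) (nat_lit 228) (nat_lit 0) (XT.lf (nat_lit 0) (nat_lit 12487784335) (nat_lit 152) (nat_lit 8983811412) (nat_lit 228) (nat_lit 1455599102) (nat_lit 38) (nat_lit 5) (nat_lit 40) (nat_lit 5) (nat_lit 41) (nat_lit 5) (nat_lit 352) (nat_lit 310) (nat_lit 238)) (XT.lf (nat_lit 0) (nat_lit 1217160794) (nat_lit 152) (nat_lit 2026531325) (nat_lit 228) (nat_lit 20464226679) (nat_lit 35) (nat_lit 5) (nat_lit 37) (nat_lit 5) (nat_lit 38) (nat_lit 5) (nat_lit 353) (nat_lit 310) (nat_lit 237))))) (XT.nd (nat_lit 234) (nat_lit 304) (nat_lit 0) (XT.nd (nat_lit 78) (nat_lit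 152) (nat_lit 0) (XT.lf (nat_lit 0) (nat_lit 8371158268) (nat_lit 228) (nat_lit 10842251458) (nat_lit 76) (nat_lit 5300981209) (nat_lit 35) (nat_lit 5) (nat_lit 38) (nat_lit 5) (nat_lit 36) (nat_lit 5) (nat_lit 354) (nat_lit 310) (nat_lit 236)) (XT.nd (nat_lit 78) (nat_lit 0) (nat_lit 0) (XT.lf (nat_lit 0) (nat_lit 1367580916) (nat_lit 152) (nat_lit 12422961193) (nat_lit 228) (nat_lit 11568878310) (nat_lit 33) (nat_lit 5) (nat_lit 35) (nat_lit 5) (nat_lit 36) (nat_lit 5) (nat_lit 355) (nat_lit 310) (nat_lit 235)) (XT.lf (nat_lit 0) (nat_lit 14533185059) (nat_lit 152) (nat_lit 5112719646) (nat_lit 228) (nat_lit 6592556631) (nat_lit 33) (nat_lit 5) (nat_lit 35) (nat_lit 5) (nat_lit 36) (nat_lit 5) (nat_lit 356) (nat_lit 310) (nat_lit 234)))) (XT.nd (nat_lit 78) (nat_lit 228) (nat_lit 0) (XT.lf (nat_lit 0) (nat_lit 1162438916) (nat_lit 76) (nat_lit 24671852226) (nat_lit 152) (nat_lit 1325160311)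 (nat_lit 32) (nat_lit 5) (nat_lit 33) (nat_lit 5) (nat_lit 34) (nat_lit 4) (nat_lit 357) (nat_lit 310) (nat_lit 233)) (XT.nd (nat_lit 78) (nat_lit 152) (nat_lit 0) (XT.lf (nat_lit 0) (nat_lit 4338480113) (nat_lit 152) (nat_lit 13219858631) (nat_lit 76) (nat_lit 10551504285) (nat_lit 31) (nat_lit 5) (nat_lit 33) (nat_lit 5) (nat_lit 32) (nat_lit 5) (nat_lit 358) (nat_lit 310) (nat_lit 232)) (XT.lf (nat_lit 0) (nat_lit 150214157) (nat_lit 152) (nat_lit 10075928731) (nat_lit 228) (nat_lit 18881264967) (nat_lit 29) (nat_lit 5) (nat_lit 31) (nat_lit 5) (nat_lit 32) (nat_lit 5) (nat_lit 359) (nat_lit 310) (nat_lit 231))))))))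
noncomputable def xc129 : XT := (XT.nd (nat_lit 1716) (nat_lit 608) (nat_lit 0) (XT.nd (nat_lit 858) (nat_lit 456) (nat_lit 0) (XT.nd (nat_lit 390) (nat_lit 304) (nat_lit 0) (XT.nd (nat_lit 156) (nat_lit 304) (nat_lit 0) (XT.nd (nat_lit 78) (nat_lit 0) (nat_lit 0) (XT.lf (nat_lit 0) (nat_lit 14619199671) (nat_lit 152) (nat_lit 1996265296) (nat_lit 228) (nat_lit 13529030324) (nat_lit 29) (nat_lit 5) (nat_lit 31) (nat_lit 5) (nat_lit 32) (nat_lit 5) (nat_lit 360) (nat_lit 310) (nat_lit 230)) (XT.lf (nat_lit 0) (nat_lit 23409544069) (nat_lit 228) (nat_lit 1550904700) (nat_lit 76) (nat_lit 6268731573) (nat_lit 29) (nat_lit 5) (nat_lit 32) (nat_lit 5) (nat_lit 30) (nat_lit 4) (nat_lit 361) (nat_lit 310) (nat_lit 229))) (XT.nd (nat_lit 78) (nat_lit 228) (nat_lit 0) (XT.lf (nat_lit 0) (nat_lit 13494910218) (nat_lit 76) (nat_lit 17276602330) (nat_lit 152) (nat_lit 1585185243) (nat_lit 28) (nat_lit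 5) (nat_lit 29) (nat_lit 5) (nat_lit 30) (nat_lit 4) (nat_lit 362) (nat_lit 310) (nat_lit 228)) (XT.nd (nat_lit 78) (nat_lit 152) (nat_lit 0) (XT.lf (nat_lit 0) (nat_lit 4813735154) (nat_lit 152) (nat_lit 4296875778) (nat_lit 76) (nat_lit 24425537690) (nat_lit 27) (nat_lit 5) (nat_lit 29) (nat_lit 5) (nat_lit 28) (nat_lit 5) (nat_lit 363) (nat_lit 310) (nat_lit 227)) (XT.lf (nat_lit 0) (nat_lit 11306878828) (nat_lit 152) (nat_lit 334537928) (nat_lit 228) (nat_lit 23123757924) (nat_lit 25) (nat_lit 5) (nat_lit 27) (nat_lit 5) (nat_lit 28) (nat_lit 5) (nat_lit 364) (nat_lit 310) (nat_lit 226))))) (XT.nd (nat_lit 234) (nat_lit 228) (nat_lit 0) (XT.nd (nat_lit 78) (nat_lit 76) (nat_lit 0) (XT.lf (nat_lit 0) (nat_lit 19008778959) (nat_lit 228) (nat_lit 8377298652) (nat_lit 76) (nat_lit 8659665707) (nat_lit 25) (nat_lit 5) (nat_lit 28) (nat_lit 5) (nat_lit 26) (nat_lit 4) (nat_lit 365) (nat_lit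 310) (nat_lit 225)) (XT.nd (nat_lit 78) (nat_lit 0) (nat_lit 0) (XT.lf (nat_lit 0) (nat_lit 7673635915) (nat_lit 76) (nat_lit 19182533049) (nat_lit 152) (nat_lit 10528594251) (nat_lit 24) (nat_lit 5) (nat_lit 25) (nat_lit 5) (nat_lit 26) (nat_lit 4) (nat_lit 366) (nat_lit 310) (nat_lit 224)) (XT.lf (nat_lit 0) (nat_lit 24794116415) (nat_lit 76) (nat_lit 10430331047) (nat_lit 152) (nat_lit 3559866229) (nat_lit 24) (nat_lit 5) (nat_lit 25) (nat_lit 5) (nat_lit 26) (nat_lit 4) (nat_lit 367) (nat_lit 310) (nat_lit 223)))) (XT.nd (nat_lit 78) (nat_lit 0) (nat_lit 0) (XT.lf (nat_lit 0) (nat_lit 2515489681) (nat_lit 152) (nat_lit 1147893063) (nat_lit 228) (nat_lit 36586213792) (nat_lit 21) (nat_lit 5) (nat_lit 23) (nat_lit 5) (nat_lit 24) (nat_lit 5) (nat_lit 368) (nat_lit 310) (nat_lit 222)) (XT.nd (nat_lit 78) (nat_lit 0) (nat_lit 0) (XT.lf (nat_lit 0) (nat_lit 11490393985) (nat_lit 228) (nat_lit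 21663866364) (nat_lit 76) (nat_lit 8612858300) (nat_lit 21) (nat_lit 5) (nat_lit 24) (nat_lit 5) (nat_lit 22) (nat_lit 4) (nat_lit 369) (nat_lit 310) (nat_lit 221)) (XT.lf (nat_lit 0) (nat_lit 19715355140) (nat_lit 228) (nat_lit 4831071351) (nat_lit 76) (nat_lit 18813764962) (nat_lit 21) (nat_lit 5) (nat_lit 24) (nat_lit 5) (nat_lit 22) (nat_lit 4) (nat_lit 370) (nat_lit 310) (nat_lit 220)))))) (XT.nd (nat_lit 390) (nat_lit 228) (nat_lit 0) (XT.nd (nat_lit 156) (nat_lit 152) (nat_lit 0) (XT.nd (nat_lit 78) (nat_lit 0) (nat_lit 0) (XT.lf (nat_lit 0) (nat_lit 13246240514) (nat_lit 76) (nat_lit 15300498047) (nat_lit 152) (nat_lit 16476424962) (nat_lit 20) (nat_lit 5) (nat_lit 21) (nat_lit 5) (nat_lit 22) (nat_lit 4) (nat_lit 371) (nat_lit 310) (nat_lit 219)) (XT.lf (nat_lit 0) (nat_lit 32374396629) (nat_lit 76) (nat_lit 5515704566) (nat_lit 152) (nat_lit 8875666631) (nat_lit 20) (nat_lit 5)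 (nat_lit 21) (nat_lit 5) (nat_lit 22) (nat_lit 4) (nat_lit 372) (nat_lit 310) (nat_lit 218))) (XT.nd (nat_lit 78) (nat_lit 76) (nat_lit 0) (XT.lf (nat_lit 0) (nat_lit 3893621976) (nat_lit 76) (nat_lit 43931088994) (nat_lit 76) (nat_lit 764591355) (nat_lit 19) (nat_lit 4) (nat_lit 20) (nat_lit 5) (nat_lit 20) (nat_lit 4) (nat_lit 373) (nat_lit 310) (nat_lit 217)) (XT.nd (nat_lit 78) (nat_lit 0) (nat_lit 0) (XT.lf (nat_lit 0) (nat_lit 7831097261) (nat_lit 152) (nat_lit 27134981086) (nat_lit 76) (nat_lit 15515528561) (nat_lit 18) (nat_lit 5) (nat_lit 20) (nat_lit 5) (nat_lit 19) (nat_lit 4) (nat_lit 374) (nat_lit 310) (nat_lit 216)) (XT.lf (nat_lit 0) (nat_lit 16820428822) (nat_lit 152) (nat_lit 8728025514) (nat_lit 76) (nat_lit 26919971378) (nat_lit 18) (nat_lit 5) (nat_lit 20) (nat_lit 5) (nat_lit 19) (nat_lit 4) (nat_lit 375) (nat_lit 310) (nat_lit 215))))) (XT.nd (nat_lit 234) (nat_lit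 152) (nat_lit 0) (XT.nd (nat_lit 78) (nat_lit 0) (nat_lit 0) (XT.lf (nat_lit 0) (nat_lit 10930803853) (nat_lit 76) (nat_lit 15489134824) (nat_lit 152) (nat_lit 28126614432) (nat_lit 17) (nat_lit 5) (nat_lit 18) (nat_lit 5) (nat_lit 19) (nat_lit 4) (nat_lit 376) (nat_lit 310) (nat_lit 214)) (XT.nd (nat_lit 78) (nat_lit 0) (nat_lit 0) (XT.lf (nat_lit 0) (nat_lit 31857559668) (nat_lit 76) (nat_lit 4779921142) (nat_lit 152) (nat_lit 20084206308) (nat_lit 17) (nat_lit 5) (nat_lit 18) (nat_lit 5) (nat_lit 19) (nat_lit 4) (nat_lit 377) (nat_lit 310) (nat_lit 213)) (XT.lf (nat_lit 0) (nat_lit 47457417956) (nat_lit 152) (nat_lit 5293375621) (nat_lit 0) (nat_lit 6250211289) (nat_lit 17) (nat_lit 5) (nat_lit 19) (nat_lit 4) (nat_lit 17) (nat_lit 4) (nat_lit 378) (nat_lit 310) (nat_lit 212)))) (XT.nd (nat_lit 78) (nat_lit 76) (nat_lit 0) (XT.lf (nat_lit 0) (nat_lit 15662157328) (nat_lit 76) (nat_lit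 43470117489) (nat_lit 76) (nat_lit 2246320339) (nat_lit 16) (nat_lit 4) (nat_lit 17) (nat_lit 5) (nat_lit 17) (nat_lit 4) (nat_lit 379) (nat_lit 310) (nat_lit 211)) (XT.nd (nat_lit 78) (nat_lit 0) (nat_lit 0) (XT.lf (nat_lit 0) (nat_lit 7357429454) (nat_lit 152) (nat_lit 26156867228) (nat_lit 76) (nat_lit 30350795033) (nat_lit 15) (nat_lit 5) (nat_lit 17) (nat_lit 5) (nat_lit 16) (nat_lit 4) (nat_lit 380) (nat_lit 310) (nat_lit 210)) (XT.lf (nat_lit 0) (nat_lit 17357358743) (nat_lit 152) (nat_lit 5672060242) (nat_lit 76) (nat_lit 43445081131) (nat_lit 15) (nat_lit 5) (nat_lit 17) (nat_lit 5) (nat_lit 16) (nat_lit 4) (nat_lit 381) (nat_lit 310) (nat_lit 209))))))) (XT.nd (nat_lit 858) (nat_lit 228) (nat_lit 0) (XT.nd (nat_lit 390) (nat_lit 228) (nat_lit 0) (XT.nd (nat_lit 156) (nat_lit 76) (nat_lit 0) (XT.nd (nat_lit 78) (nat_lit 0) (nat_lit 0) (XT.lf (nat_lit 0) (nat_lit 16344968916) (nat_lit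 76) (nat_lit 11759395018) (nat_lit 152) (nat_lit 41097663332) (nat_lit 14) (nat_lit 5) (nat_lit 15) (nat_lit 5) (nat_lit 16) (nat_lit 4) (nat_lit 382) (nat_lit 310) (nat_lit 208)) (XT.lf (nat_lit 0) (nat_lit 39479444032) (nat_lit 152) (nat_lit 32419295506) (nat_lit 0) (nat_lit 162657193) (nat_lit 14) (nat_lit 5) (nat_lit 16) (nat_lit 4) (nat_lit 14) (nat_lit 4) (nat_lit 383) (nat_lit 310) (nat_lit 207))) (XT.nd (nat_lit 78) (nat_lit 76) (nat_lit 0) (XT.lf (nat_lit 0) (nat_lit 51608372667) (nat_lit 152) (nat_lit 11166903607) (nat_lit 0) (nat_lit 12279205754) (nat_lit 14) (nat_lit 5) (nat_lit 16) (nat_lit 4) (nat_lit 14) (nat_lit 4) (nat_lit 384) (nat_lit 310) (nat_lit 206)) (XT.nd (nat_lit 78) (nat_lit 0) (nat_lit 0) (XT.lf (nat_lit 0) (nat_lit 11502466141) (nat_lit 76) (nat_lit 53013550719) (nat_lit 76) (nat_lit 13672593260) (nat_lit 13) (nat_lit 4) (nat_lit 14) (nat_lit 5) (nat_lit 14)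 (nat_lit 4) (nat_lit 385) (nat_lit 310) (nat_lit 205)) (XT.lf (nat_lit 0) (nat_lit 35679424021) (nat_lit 76) (nat_lit 42571556099) (nat_lit 76) (nat_lit 3219369548) (nat_lit 13) (nat_lit 4) (nat_lit 14) (nat_lit 5) (nat_lit 14) (nat_lit 4) (nat_lit 386) (nat_lit 310) (nat_lit 204))))) (XT.nd (nat_lit 234) (nat_lit 76) (nat_lit 0) (XT.nd (nat_lit 78) (nat_lit 76) (nat_lit 0) (XT.lf (nat_lit 0) (nat_lit 7501306418) (nat_lit 152) (nat_lit 23985202765) (nat_lit 76) (nat_lit 53423961278) (nat_lit 12) (nat_lit 5) (nat_lit 14) (nat_lit 5) (nat_lit 13) (nat_lit 4) (nat_lit 387) (nat_lit 310) (nat_lit 203)) (XT.nd (nat_lit 78) (nat_lit 76) (nat_lit 0) (XT.lf (nat_lit 0) (nat_lit 18643203306) (nat_lit 152) (nat_lit 1154499263) (nat_lit 76) (nat_lit 68722588580) (nat_lit 12) (nat_lit 5) (nat_lit 14) (nat_lit 5) (nat_lit 13) (nat_lit 4) (nat_lit 388) (nat_lit 310) (nat_lit 202)) (XT.lf (nat_lit 0)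 (nat_lit 23559870032) (nat_lit 76) (nat_lit 7143854936) (nat_lit 152) (nat_lit 61588802964) (nat_lit 11) (nat_lit 5) (nat_lit 12) (nat_lit 5) (nat_lit 13) (nat_lit 4) (nat_lit 389) (nat_lit 310) (nat_lit 201)))) (XT.nd (nat_lit 78) (nat_lit 76) (nat_lit 0) (XT.lf (nat_lit 0) (nat_lit 43476774410) (nat_lit 152) (nat_lit 46810548754) (nat_lit 0) (nat_lit 5960579786) (nat_lit 11) (nat_lit 5) (nat_lit 13) (nat_lit 4) (nat_lit 11) (nat_lit 4) (nat_lit 390) (nat_lit 310) (nat_lit 200)) (XT.nd (nat_lit 78) (nat_lit 76) (nat_lit 0) (XT.lf (nat_lit 0) (nat_lit 56999612166) (nat_lit 152) (nat_lit 23920840953) (nat_lit 0) (nat_lit 19475038221) (nat_lit 11) (nat_lit 5) (nat_lit 13) (nat_lit 4) (nat_lit 11) (nat_lit 4) (nat_lit 391) (nat_lit 310) (nat_lit 199)) (XT.lf (nat_lit 0) (nat_lit 105889530) (nat_lit 76) (nat_lit 71088663575) (nat_lit 76) (nat_lit 33556109324) (nat_lit 10) (nat_lit 4) (nat_lit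 11) (nat_lit 5) (nat_lit 11) (nat_lit 4) (nat_lit 392) (nat_lit 310) (nat_lit 198)))))) (XT.nd (nat_lit 468) (nat_lit 76) (nat_lit 0) (XT.nd (nat_lit 234) (nat_lit 76) (nat_lit 0) (XT.nd (nat_lit 78) (nat_lit 76) (nat_lit 0) (XT.lf (nat_lit 0) (nat_lit 26153757316) (nat_lit 76) (nat_lit 60345007204) (nat_lit 76) (nat_lit 22804852662) (nat_lit 10) (nat_lit 4) (nat_lit 11) (nat_lit 5) (nat_lit 11) (nat_lit 4) (nat_lit 393) (nat_lit 310) (nat_lit 197)) (XT.nd (nat_lit 78) (nat_lit 76) (nat_lit 0) (XT.lf (nat_lit 0) (nat_lit 53493850107) (nat_lit 76) (nat_lit 49069014887) (nat_lit 76) (nat_lit 11521621973) (nat_lit 10) (nat_lit 4) (nat_lit 11) (nat_lit 5) (nat_lit 11) (nat_lit 4) (nat_lit 394) (nat_lit 310) (nat_lit 196)) (XT.lf (nat_lit 0) (nat_lit 310191252) (nat_lit 152) (nat_lit 36918394534) (nat_lit 76) (nat_lit 81875818869) (nat_lit 9) (nat_lit 5) (nat_lit 11) (nat_lit 5) (nat_lit 10)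 (nat_lit 4) (nat_lit 395) (nat_lit 310) (nat_lit 195)))) (XT.nd (nat_lit 78) (nat_lit 76) (nat_lit 0) (XT.lf (nat_lit 0) (nat_lit 12341486124) (nat_lit 152) (nat_lit 12260805464) (nat_lit 76) (nat_lit 99763829088) (nat_lit 9) (nat_lit 5) (nat_lit 11) (nat_lit 5) (nat_lit 10) (nat_lit 4) (nat_lit 396) (nat_lit 310) (nat_lit 194)) (XT.nd (nat_lit 78) (nat_lit 0) (nat_lit 0) (XT.lf (nat_lit 0) (nat_lit 14071086339) (nat_lit 76) (nat_lit 11118275191) (nat_lit 152) (nat_lit 104690811183) (nat_lit 8) (nat_lit 5) (nat_lit 9) (nat_lit 5) (nat_lit 10) (nat_lit 4) (nat_lit 397) (nat_lit 310) (nat_lit 193)) (XT.lf (nat_lit 0) (nat_lit 38933485608) (nat_lit 152) (nat_lit 93574130846) (nat_lit 0) (nat_lit 3149619107) (nat_lit 8) (nat_lit 5) (nat_lit 10) (nat_lit 4) (nat_lit 8) (nat_lit 4) (nat_lit 398) (nat_lit 310) (nat_lit 192))))) (XT.nd (nat_lit 234) (nat_lit 76) (nat_lit 0) (XT.nd (nat_lit 78)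 (nat_lit 0) (nat_lit 0) (XT.lf (nat_lit 0) (nat_lit 53542650539) (nat_lit 152) (nat_lit 70418227538) (nat_lit 0) (nat_lit 17753382653) (nat_lit 8) (nat_lit 5) (nat_lit 10) (nat_lit 4) (nat_lit 8) (nat_lit 4) (nat_lit 399) (nat_lit 310) (nat_lit 191)) (XT.nd (nat_lit 78) (nat_lit 0) (nat_lit 0) (XT.lf (nat_lit 0) (nat_lit 68878052615) (nat_lit 152) (nat_lit 46112655912) (nat_lit 0) (nat_lit 33083640553) (nat_lit 8) (nat_lit 5) (nat_lit 10) (nat_lit 4) (nat_lit 8) (nat_lit 4) (nat_lit 400) (nat_lit 310) (nat_lit 190)) (XT.lf (nat_lit 0) (nat_lit 84976204698) (nat_lit 152) (nat_lit 20599545560) (nat_lit 0) (nat_lit 49176893420) (nat_lit 8) (nat_lit 5) (nat_lit 10) (nat_lit 4) (nat_lit 8) (nat_lit 4) (nat_lit 401) (nat_lit 310) (nat_lit 189)))) (XT.nd (nat_lit 78) (nat_lit 0) (nat_lit 0) (XT.lf (nat_lit 0) (nat_lit 6386248866) (nat_lit 76) (nat_lit 95588894097) (nat_lit 76) (nat_lit 59784916899)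 (nat_lit 7) (nat_lit 4) (nat_lit 8) (nat_lit 5) (nat_lit 8) (nat_lit 4) (nat_lit 402) (nat_lit 310) (nat_lit 188)) (XT.nd (nat_lit 78) (nat_lit 0) (nat_lit 0) (XT.lf (nat_lit 0) (nat_lit 35429250322) (nat_lit 76) (nat_lit 84739881514) (nat_lit 76) (nat_lit 48931460583) (nat_lit 7) (nat_lit 4) (nat_lit 8) (nat_lit 5) (nat_lit 8) (nat_lit 4) (nat_lit 403) (nat_lit 310) (nat_lit 187)) (XT.lf (nat_lit 0) (nat_lit 65917494805) (nat_lit 76) (nat_lit 73351744799) (nat_lit 76) (nat_lit 37539091742) (nat_lit 7) (nat_lit 4) (nat_lit 8) (nat_lit 5) (nat_lit 8) (nat_lit 4) (nat_lit 404) (nat_lit 310) (nat_lit 186))))))))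
noncomputable def xc130 : XT := (XT.nd (nat_lit 1716) (nat_lit 76) (nat_lit 0) (XT.nd (nat_lit 858) (nat_lit 76) (nat_lit 0) (XT.nd (nat_lit 390) (nat_lit 0) (nat_lit 0) (XT.nd (nat_lit 156) (nat_lit 152) (nat_lit 0) (XT.nd (nat_lit 78) (nat_lit 0) (nat_lit 0) (XT.lf (nat_lit 0) (nat_lit 97923573373) (nat_lit 76) (nat_lit 61397369340) (nat_lit 76) (nat_lit 25580685686) (nat_lit 7) (nat_lit 4) (nat_lit 8) (nat_lit 5) (nat_lit 8) (nat_lit 4) (nat_lit 405) (nat_lit 310) (nat_lit 185)) (XT.lf (nat_lit 0) (nat_lit 131523690976) (nat_lit 76) (nat_lit 48848292339) (nat_lit 76) (nat_lit 13027770022) (nat_lit 7) (nat_lit 4) (nat_lit 8) (nat_lit 5) (nat_lit 8) (nat_lit 4) (nat_lit 406) (nat_lit 310) (nat_lit 184))) (XT.nd (nat_lit 78) (nat_lit 76) (nat_lit 0) (XT.lf (nat_lit 0) (nat_lit 144756831) (nat_lit 152) (nat_lit 35527426683) (nat_lit 76) (nat_lit 166650639533) (nat_lit 6) (nat_lit 5) (nat_lit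 8) (nat_lit 5) (nat_lit 7) (nat_lit 4) (nat_lit 407) (nat_lit 310) (nat_lit 183)) (XT.nd (nat_lit 78) (nat_lit 76) (nat_lit 0) (XT.lf (nat_lit 0) (nat_lit 13535096941) (nat_lit 152) (nat_lit 8080711238) (nat_lit 76) (nat_lit 190065709852) (nat_lit 6) (nat_lit 5) (nat_lit 8) (nat_lit 5) (nat_lit 7) (nat_lit 4) (nat_lit 408) (nat_lit 310) (nat_lit 182)) (XT.lf (nat_lit 0) (nat_lit 21418354396) (nat_lit 76) (nat_lit 6508148211) (nat_lit 152) (nat_lit 193565068262) (nat_lit 5) (nat_lit 5) (nat_lit 6) (nat_lit 5) (nat_lit 7) (nat_lit 4) (nat_lit 409) (nat_lit 310) (nat_lit 181))))) (XT.nd (nat_lit 234) (nat_lit 0) (nat_lit 0) (XT.nd (nat_lit 78) (nat_lit 0) (nat_lit 0) (XT.lf (nat_lit 0) (nat_lit 43319787266) (nat_lit 152) (nat_lit 179266183581) (nat_lit 0) (nat_lit 9192040573) (nat_lit 5) (nat_lit 5) (nat_lit 7) (nat_lit 4) (nat_lit 5) (nat_lit 4) (nat_lit 410) (nat_lit 310) (nat_lit 180))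 (XT.nd (nat_lit 78) (nat_lit 0) (nat_lit 0) (XT.lf (nat_lit 0) (nat_lit 59586720802) (nat_lit 152) (nat_lit 157530744809) (nat_lit 0) (nat_lit 25456109639) (nat_lit 5) (nat_lit 5) (nat_lit 7) (nat_lit 4) (nat_lit 5) (nat_lit 4) (nat_lit 411) (nat_lit 310) (nat_lit 179)) (XT.lf (nat_lit 0) (nat_lit 76664423577) (nat_lit 152) (nat_lit 134713538678) (nat_lit 0) (nat_lit 42531084347) (nat_lit 5) (nat_lit 5) (nat_lit 7) (nat_lit 4) (nat_lit 5) (nat_lit 4) (nat_lit 412) (nat_lit 310) (nat_lit 178)))) (XT.nd (nat_lit 78) (nat_lit 0) (nat_lit 0) (XT.lf (nat_lit 0) (nat_lit 94593556788) (nat_lit 152) (nat_lit 110760238509) (nat_lit 0) (nat_lit 60457619399) (nat_lit 5) (nat_lit 5) (nat_lit 7) (nat_lit 4) (nat_lit 5) (nat_lit 4) (nat_lit 413) (nat_lit 310) (nat_lit 177)) (XT.nd (nat_lit 78) (nat_lit 0) (nat_lit 0) (XT.lf (nat_lit 0) (nat_lit 113416808847) (nat_lit 152) (nat_lit 85613812633) (nat_lit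 0) (nat_lit 79278397021) (nat_lit 5) (nat_lit 5) (nat_lit 7) (nat_lit 4) (nat_lit 5) (nat_lit 4) (nat_lit 414) (nat_lit 310) (nat_lit 176)) (XT.lf (nat_lit 0) (nat_lit 133178997020) (nat_lit 152) (nat_lit 59214388609) (nat_lit 0) (nat_lit 99038228589) (nat_lit 5) (nat_lit 5) (nat_lit 7) (nat_lit 4) (nat_lit 5) (nat_lit 4) (nat_lit 415) (nat_lit 310) (nat_lit 175)))))) (XT.nd (nat_lit 390) (nat_lit 0) (nat_lit 0) (XT.nd (nat_lit 156) (nat_lit 76) (nat_lit 0) (XT.nd (nat_lit 78) (nat_lit 0) (nat_lit 0) (XT.lf (nat_lit 0) (nat_lit 153927174138) (nat_lit 152) (nat_lit 31499110664) (nat_lit 0) (nat_lit 119784161319) (nat_lit 5) (nat_lit 5) (nat_lit 7) (nat_lit 4) (nat_lit 5) (nat_lit 4) (nat_lit 416) (nat_lit 310) (nat_lit 174)) (XT.lf (nat_lit 0) (nat_lit 175710740622) (nat_lit 152) (nat_lit 2401990042) (nat_lit 0) (nat_lit 141565590292) (nat_lit 5) (nat_lit 5) (nat_lit 7) (nat_lit 4) (nat_lit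 5) (nat_lit 4) (nat_lit 417) (nat_lit 310) (nat_lit 173))) (XT.nd (nat_lit 78) (nat_lit 0) (nat_lit 0) (XT.lf (nat_lit 0) (nat_lit 29076894322) (nat_lit 76) (nat_lit 169958639592) (nat_lit 76) (nat_lit 135811453537) (nat_lit 4) (nat_lit 4) (nat_lit 5) (nat_lit 5) (nat_lit 5) (nat_lit 4) (nat_lit 418) (nat_lit 310) (nat_lit 172)) (XT.nd (nat_lit 78) (nat_lit 0) (nat_lit 0) (XT.lf (nat_lit 0) (nat_lit 62209440313) (nat_lit 76) (nat_lit 161355916318) (nat_lit 76) (nat_lit 127206791477) (nat_lit 4) (nat_lit 4) (nat_lit 5) (nat_lit 5) (nat_lit 5) (nat_lit 4) (nat_lit 419) (nat_lit 310) (nat_lit 171)) (XT.lf (nat_lit 0) (nat_lit 96995114308) (nat_lit 76) (nat_lit 152324757032) (nat_lit 76) (nat_lit 118173785728) (nat_lit 4) (nat_lit 4) (nat_lit 5) (nat_lit 5) (nat_lit 5) (nat_lit 4) (nat_lit 420) (nat_lit 310) (nat_lit 170))))) (XT.nd (nat_lit 234) (nat_lit 0) (nat_lit 0) (XT.nd (nat_lit 78)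 (nat_lit 0) (nat_lit 0) (XT.lf (nat_lit 0) (nat_lit 133516739339) (nat_lit 76) (nat_lit 142843658973) (nat_lit 76) (nat_lit 108690929133) (nat_lit 4) (nat_lit 4) (nat_lit 5) (nat_lit 5) (nat_lit 5) (nat_lit 4) (nat_lit 421) (nat_lit 310) (nat_lit 169)) (XT.nd (nat_lit 78) (nat_lit 0) (nat_lit 0) (XT.lf (nat_lit 0) (nat_lit 171861271657) (nat_lit 76) (nat_lit 132890048099) (nat_lit 76) (nat_lit 98735643462) (nat_lit 4) (nat_lit 4) (nat_lit 5) (nat_lit 5) (nat_lit 5) (nat_lit 4) (nat_lit 422) (nat_lit 310) (nat_lit 168)) (XT.lf (nat_lit 0) (nat_lit 212120007766) (nat_lit 76) (nat_lit 122440225335) (nat_lit 76) (nat_lit 88284225654) (nat_lit 4) (nat_lit 4) (nat_lit 5) (nat_lit 5) (nat_lit 5) (nat_lit 4) (nat_lit 423) (nat_lit 310) (nat_lit 167)))) (XT.nd (nat_lit 78) (nat_lit 0) (nat_lit 0) (XT.lf (nat_lit 0) (nat_lit 254388801801) (nat_lit 76) (nat_lit 111469310152) (nat_lit 76) (nat_lit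 77311791381) (nat_lit 4) (nat_lit 4) (nat_lit 5) (nat_lit 5) (nat_lit 5) (nat_lit 4) (nat_lit 424) (nat_lit 310) (nat_lit 166)) (XT.nd (nat_lit 78) (nat_lit 0) (nat_lit 0) (XT.lf (nat_lit 0) (nat_lit 298768293747) (nat_lit 76) (nat_lit 99951181322) (nat_lit 76) (nat_lit 65792215800) (nat_lit 4) (nat_lit 4) (nat_lit 5) (nat_lit 5) (nat_lit 5) (nat_lit 4) (nat_lit 425) (nat_lit 310) (nat_lit 165)) (XT.lf (nat_lit 0) (nat_lit 345364149062) (nat_lit 76) (nat_lit 87858414731) (nat_lit 76) (nat_lit 53698071350) (nat_lit 4) (nat_lit 4) (nat_lit 5) (nat_lit 5) (nat_lit 5) (nat_lit 4) (nat_lit 426) (nat_lit 310) (nat_lit 164))))))) (XT.nd (nat_lit 38376) (nat_lit 0) (nat_lit 6004) (XT.nd (nat_lit 37908) (nat_lit 0) (nat_lit 8664) (XT.nd (nat_lit 156) (nat_lit 76) (nat_lit 0) (XT.nd (nat_lit 78) (nat_lit 0) (nat_lit 0) (XT.lf (nat_lit 0) (nat_lit 394287310257) (nat_lit 76) (nat_lit 75162218075) (nat_lit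 76) (nat_lit 41000562447) (nat_lit 4) (nat_lit 4) (nat_lit 5) (nat_lit 5) (nat_lit 5) (nat_lit 4) (nat_lit 427) (nat_lit 310) (nat_lit 163)) (XT.lf (nat_lit 0) (nat_lit 445654261050) (nat_lit 76) (nat_lit 61832362316) (nat_lit 76) (nat_lit 27669456930) (nat_lit 4) (nat_lit 4) (nat_lit 5) (nat_lit 5) (nat_lit 5) (nat_lit 4) (nat_lit 428) (nat_lit 310) (nat_lit 162))) (XT.nd (nat_lit 78) (nat_lit 76) (nat_lit 0) (XT.lf (nat_lit 0) (nat_lit 499587303705) (nat_lit 76) (nat_lit 47837109702) (nat_lit 76) (nat_lit 13673014069) (nat_lit 4) (nat_lit 4) (nat_lit 5) (nat_lit 5) (nat_lit 5) (nat_lit 4) (nat_lit 429) (nat_lit 310) (nat_lit 161)) (XT.nd (nat_lit 37596) (nat_lit 0) (nat_lit 9272) (XT.lf (nat_lit 0) (nat_lit 989377702) (nat_lit 152) (nat_lit 32137004910) (nat_lit 76) (nat_lit 555208716936) (nat_lit 3) (nat_lit 5) (nat_lit 5) (nat_lit 5) (nat_lit 4) (nat_lit 4) (nat_lit 430) (nat_lit 310)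 (nat_lit 160)) (XT.lf (nat_lit 0) (nat_lit 1310158780) (nat_lit 0) (nat_lit 1310158780) (nat_lit 532) (nat_lit 1308322107) (nat_lit 125) (nat_lit 5) (nat_lit 125) (nat_lit 3) (nat_lit 132) (nat_lit 3) (nat_lit 311) (nat_lit 311) (nat_lit 278))))) (XT.nd (nat_lit 234) (nat_lit 0) (nat_lit 76) (XT.nd (nat_lit 78) (nat_lit 608) (nat_lit 0) (XT.lf (nat_lit 0) (nat_lit 6481404904) (nat_lit 0) (nat_lit 99453230) (nat_lit 532) (nat_lit 1410523101) (nat_lit 125) (nat_lit 5) (nat_lit 125) (nat_lit 3) (nat_lit 132) (nat_lit 3) (nat_lit 312) (nat_lit 311) (nat_lit 277)) (XT.nd (nat_lit 78) (nat_lit 608) (nat_lit 0) (XT.lf (nat_lit 76) (nat_lit 2397008387) (nat_lit 0) (nat_lit 5591480720) (nat_lit 608) (nat_lit 143798969) (nat_lit 126) (nat_lit 5) (nat_lit 125) (nat_lit 5) (nat_lit 133) (nat_lit 5) (nat_lit 313) (nat_lit 311) (nat_lit 276)) (XT.lf (nat_lit 0) (nat_lit 1100787031) (nat_lit 608) (nat_lit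 1792957448) (nat_lit 684) (nat_lit 5388053625) (nat_lit 117) (nat_lit 5) (nat_lit 125) (nat_lit 5) (nat_lit 126) (nat_lit 5) (nat_lit 314) (nat_lit 311) (nat_lit 275)))) (XT.nd (nat_lit 78) (nat_lit 0) (nat_lit 0) (XT.lf (nat_lit 0) (nat_lit 2368471165) (nat_lit 608) (nat_lit 6063459842) (nat_lit 684) (nat_lit 8553075) (nat_lit 118) (nat_lit 5) (nat_lit 126) (nat_lit 5) (nat_lit 127) (nat_lit 5) (nat_lit 315) (nat_lit 311) (nat_lit 274)) (XT.nd (nat_lit 78) (nat_lit 0) (nat_lit 0) (XT.lf (nat_lit 0) (nat_lit 3709448702) (nat_lit 608) (nat_lit 1882066254) (nat_lit 684) (nat_lit 3015192409) (nat_lit 118) (nat_lit 5) (nat_lit 126) (nat_lit 5) (nat_lit 127) (nat_lit 5) (nat_lit 316) (nat_lit 311) (nat_lit 273)) (XT.lf (nat_lit 76) (nat_lit 2545786302) (nat_lit 0) (nat_lit 2546300795) (nat_lit 684) (nat_lit 3690517893) (nat_lit 119) (nat_lit 5) (nat_lit 118) (nat_lit 5) (nat_lit 127) (nat_lit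 5) (nat_lit 317) (nat_lit 311) (nat_lit 272)))))) (XT.nd (nat_lit 468) (nat_lit 1520) (nat_lit 0) (XT.nd (nat_lit 234) (nat_lit 608) (nat_lit 0) (XT.nd (nat_lit 78) (nat_lit 684) (nat_lit 0) (XT.lf (nat_lit 0) (nat_lit 6524011573) (nat_lit 608) (nat_lit 1762927649) (nat_lit 684) (nat_lit 681439878) (nat_lit 119) (nat_lit 5) (nat_lit 127) (nat_lit 5) (nat_lit 128) (nat_lit 5) (nat_lit 318) (nat_lit 311) (nat_lit 271)) (XT.nd (nat_lit 78) (nat_lit 684) (nat_lit 0) (XT.lf (nat_lit 76) (nat_lit 2942417475) (nat_lit 0) (nat_lit 5113359944) (nat_lit 684) (nat_lit 1106337297) (nat_lit 120) (nat_lit 5) (nat_lit 119) (nat_lit 5) (nat_lit 128) (nat_lit 5) (nat_lit 319) (nat_lit 311) (nat_lit 270)) (XT.lf (nat_lit 0) (nat_lit 261072617) (nat_lit 684) (nat_lit 1470919107) (nat_lit 760) (nat_lit 7634787692) (nat_lit 110) (nat_lit 5) (nat_lit 119) (nat_lit 5) (nat_lit 120) (nat_lit 5) (nat_lit 320) (nat_lit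 311) (nat_lit 269)))) (XT.nd (nat_lit 78) (nat_lit 684) (nat_lit 0) (XT.lf (nat_lit 0) (nat_lit 1689624102) (nat_lit 684) (nat_lit 6043044532) (nat_lit 76) (nat_lit 1846677798) (nat_lit 111) (nat_lit 5) (nat_lit 120) (nat_lit 5) (nat_lit 112) (nat_lit 5) (nat_lit 321) (nat_lit 311) (nat_lit 268)) (XT.nd (nat_lit 78) (nat_lit 684) (nat_lit 0) (XT.lf (nat_lit 0) (nat_lit 3189917857) (nat_lit 684) (nat_lit 1031122684) (nat_lit 76) (nat_lit 5581555499) (nat_lit 111) (nat_lit 5) (nat_lit 120) (nat_lit 5) (nat_lit 112) (nat_lit 5) (nat_lit 322) (nat_lit 311) (nat_lit 267)) (XT.lf (nat_lit 0) (nat_lit 4326070144) (nat_lit 684) (nat_lit 455843273) (nat_lit 760) (nat_lit 5254327001) (nat_lit 102) (nat_lit 5) (nat_lit 111) (nat_lit 5) (nat_lit 112) (nat_lit 5) (nat_lit 323) (nat_lit 311) (nat_lit 266))))) (XT.nd (nat_lit 234) (nat_lit 380) (nat_lit 0) (XT.nd (nat_lit 78) (nat_lit 1140) (nat_lit 0)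 (XT.lf (nat_lit 0) (nat_lit 6476853324) (nat_lit 760) (nat_lit 394359835) (nat_lit 76) (nat_lit 3409250099) (nat_lit 102) (nat_lit 5) (nat_lit 112) (nat_lit 5) (nat_lit 103) (nat_lit 5) (nat_lit 324) (nat_lit 311) (nat_lit 265)) (XT.nd (nat_lit 78) (nat_lit 380) (nat_lit 0) (XT.lf (nat_lit 0) (nat_lit 5306078813) (nat_lit 760) (nat_lit 2994099091) (nat_lit 836) (nat_lit 2234597904) (nat_lit 92) (nat_lit 5) (nat_lit 102) (nat_lit 5) (nat_lit 103) (nat_lit 5) (nat_lit 325) (nat_lit 311) (nat_lit 264)) (XT.lf (nat_lit 0) (nat_lit 456276844) (nat_lit 380) (nat_lit 9744029169) (nat_lit 456) (nat_lit 602273678) (nat_lit 87) (nat_lit 5) (nat_lit 92) (nat_lit 5) (nat_lit 93) (nat_lit 5) (nat_lit 326) (nat_lit 311) (nat_lit 263)))) (XT.nd (nat_lit 78) (nat_lit 304) (nat_lit 0) (XT.lf (nat_lit 0) (nat_lit 1170769500) (nat_lit 456) (nat_lit 4586166724) (nat_lit 76) (nat_lit 5321287798) (nat_lit 86)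 (nat_lit 5) (nat_lit 92) (nat_lit 5) (nat_lit 87) (nat_lit 5) (nat_lit 327) (nat_lit 311) (nat_lit 262)) (XT.nd (nat_lit 78) (nat_lit 0) (nat_lit 0) (XT.lf (nat_lit 0) (nat_lit 1454900245) (nat_lit 304) (nat_lit 1537751000) (nat_lit 380) (nat_lit 8375534053) (nat_lit 82) (nat_lit 5) (nat_lit 86) (nat_lit 5) (nat_lit 87) (nat_lit 5) (nat_lit 328) (nat_lit 311) (nat_lit 261)) (XT.lf (nat_lit 0) (nat_lit 4988747714) (nat_lit 380) (nat_lit 3803075152) (nat_lit 76) (nat_lit 2876713104) (nat_lit 82) (nat_lit 5) (nat_lit 87) (nat_lit 5) (nat_lit 83) (nat_lit 5) (nat_lit 329) (nat_lit 311) (nat_lit 260))))))))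
noncomputable def xc131 : XT := (XT.nd (nat_lit 1716) (nat_lit 1596) (nat_lit 0) (XT.nd (nat_lit 858) (nat_lit 1292) (nat_lit 0) (XT.nd (nat_lit 390) (nat_lit 836) (nat_lit 0) (XT.nd (nat_lit 156) (nat_lit 684) (nat_lit 0) (XT.nd (nat_lit 78) (nat_lit 0) (nat_lit 0) (XT.lf (nat_lit 0) (nat_lit 2628592100) (nat_lit 380) (nat_lit 4483277107) (nat_lit 456) (nat_lit 4870719067) (nat_lit 77) (nat_lit 5) (nat_lit 82) (nat_lit 5) (nat_lit 83) (nat_lit 5) (nat_lit 330) (nat_lit 311) (nat_lit 259)) (XT.lf (nat_lit 0) (nat_lit 9369345246) (nat_lit 456) (nat_lit 2841084458) (nat_lit 76) (nat_lit 100546525) (nat_lit 77) (nat_lit 5) (nat_lit 83) (nat_lit 5) (nat_lit 78) (nat_lit 5) (nat_lit 331) (nat_lit 311) (nat_lit 258))) (XT.nd (nat_lit 78) (nat_lit 380) (nat_lit 0) (XT.lf (nat_lit 0) (nat_lit 4010285654) (nat_lit 304) (nat_lit 7829422646) (nat_lit 380) (nat_lit 811115536) (nat_lit 73) (nat_lit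 5) (nat_lit 77) (nat_lit 5) (nat_lit 78) (nat_lit 5) (nat_lit 332) (nat_lit 311) (nat_lit 257)) (XT.nd (nat_lit 78) (nat_lit 304) (nat_lit 0) (XT.lf (nat_lit 0) (nat_lit 1393557243) (nat_lit 380) (nat_lit 1768031434) (nat_lit 76) (nat_lit 9844335617) (nat_lit 72) (nat_lit 5) (nat_lit 77) (nat_lit 5) (nat_lit 73) (nat_lit 5) (nat_lit 333) (nat_lit 311) (nat_lit 256)) (XT.lf (nat_lit 0) (nat_lit 3762973473) (nat_lit 380) (nat_lit 7831591060) (nat_lit 76) (nat_lit 1779497308) (nat_lit 68) (nat_lit 5) (nat_lit 73) (nat_lit 5) (nat_lit 69) (nat_lit 5) (nat_lit 334) (nat_lit 311) (nat_lit 255))))) (XT.nd (nat_lit 234) (nat_lit 304) (nat_lit 0) (XT.nd (nat_lit 78) (nat_lit 532) (nat_lit 0) (XT.lf (nat_lit 0) (nat_lit 6300070667) (nat_lit 380) (nat_lit 573021781) (nat_lit 76) (nat_lit 6885086970) (nat_lit 68) (nat_lit 5) (nat_lit 73) (nat_lit 5) (nat_lit 69) (nat_lit 5) (nat_lit 335) (nat_lit 311)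 (nat_lit 254)) (XT.nd (nat_lit 78) (nat_lit 304) (nat_lit 0) (XT.lf (nat_lit 0) (nat_lit 7240726698) (nat_lit 228) (nat_lit 1804865488) (nat_lit 304) (nat_lit 5111864271) (nat_lit 65) (nat_lit 5) (nat_lit 68) (nat_lit 5) (nat_lit 69) (nat_lit 5) (nat_lit 336) (nat_lit 311) (nat_lit 253)) (XT.lf (nat_lit 0) (nat_lit 819723665) (nat_lit 304) (nat_lit 11155518970) (nat_lit 380) (nat_lit 2599142602) (nat_lit 61) (nat_lit 5) (nat_lit 65) (nat_lit 5) (nat_lit 66) (nat_lit 5) (nat_lit 337) (nat_lit 311) (nat_lit 252)))) (XT.nd (nat_lit 78) (nat_lit 228) (nat_lit 0) (XT.lf (nat_lit 0) (nat_lit 156216822) (nat_lit 380) (nat_lit 5895965051) (nat_lit 76) (nat_lit 8954062822) (nat_lit 60) (nat_lit 5) (nat_lit 65) (nat_lit 5) (nat_lit 61) (nat_lit 5) (nat_lit 338) (nat_lit 311) (nat_lit 251)) (XT.nd (nat_lit 78) (nat_lit 0) (nat_lit 0) (XT.lf (nat_lit 0) (nat_lit 2349519568) (nat_lit 228) (nat_lit 620216506)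 (nat_lit 304) (nat_lit 12487469977) (nat_lit 57) (nat_lit 5) (nat_lit 60) (nat_lit 5) (nat_lit 61) (nat_lit 5) (nat_lit 339) (nat_lit 311) (nat_lit 250)) (XT.lf (nat_lit 0) (nat_lit 6076469791) (nat_lit 304) (nat_lit 4834142138) (nat_lit 76) (nat_lit 5012501739) (nat_lit 57) (nat_lit 5) (nat_lit 61) (nat_lit 5) (nat_lit 58) (nat_lit 5) (nat_lit 340) (nat_lit 311) (nat_lit 249)))))) (XT.nd (nat_lit 390) (nat_lit 608) (nat_lit 0) (XT.nd (nat_lit 156) (nat_lit 456) (nat_lit 0) (XT.nd (nat_lit 78) (nat_lit 0) (nat_lit 0) (XT.lf (nat_lit 0) (nat_lit 3931221259) (nat_lit 228) (nat_lit 5451897403) (nat_lit 304) (nat_lit 7026993002) (nat_lit 54) (nat_lit 5) (nat_lit 57) (nat_lit 5) (nat_lit 58) (nat_lit 5) (nat_lit 341) (nat_lit 311) (nat_lit 248)) (XT.lf (nat_lit 0) (nat_lit 12916253521) (nat_lit 304) (nat_lit 3658471307) (nat_lit 76) (nat_lit 343699837) (nat_lit 54) (nat_lit 5) (nat_lit 58) (nat_lit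 5) (nat_lit 55) (nat_lit 5) (nat_lit 342) (nat_lit 311) (nat_lit 247))) (XT.nd (nat_lit 78) (nat_lit 304) (nat_lit 0) (XT.lf (nat_lit 0) (nat_lit 5658433182) (nat_lit 152) (nat_lit 11120164807) (nat_lit 228) (nat_lit 665949383) (nat_lit 52) (nat_lit 5) (nat_lit 54) (nat_lit 5) (nat_lit 55) (nat_lit 5) (nat_lit 343) (nat_lit 311) (nat_lit 246)) (XT.nd (nat_lit 78) (nat_lit 228) (nat_lit 0) (XT.lf (nat_lit 0) (nat_lit 2784305541) (nat_lit 228) (nat_lit 2507517102) (nat_lit 76) (nat_lit 12701057186) (nat_lit 51) (nat_lit 5) (nat_lit 54) (nat_lit 5) (nat_lit 52) (nat_lit 5) (nat_lit 344) (nat_lit 311) (nat_lit 245)) (XT.lf (nat_lit 0) (nat_lit 6491724403) (nat_lit 304) (nat_lit 11151308224) (nat_lit 76) (nat_lit 919717592) (nat_lit 48) (nat_lit 5) (nat_lit 52) (nat_lit 5) (nat_lit 49) (nat_lit 5) (nat_lit 345) (nat_lit 311) (nat_lit 244))))) (XT.nd (nat_lit 234) (nat_lit 456) (nat_lit 0) (XT.nd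 (nat_lit 78) (nat_lit 152) (nat_lit 0) (XT.lf (nat_lit 0) (nat_lit 10491092652) (nat_lit 304) (nat_lit 1368261721) (nat_lit 76) (nat_lit 7296448685) (nat_lit 48) (nat_lit 5) (nat_lit 52) (nat_lit 5) (nat_lit 49) (nat_lit 5) (nat_lit 346) (nat_lit 311) (nat_lit 243)) (XT.nd (nat_lit 78) (nat_lit 0) (nat_lit 0) (XT.lf (nat_lit 0) (nat_lit 9163681753) (nat_lit 152) (nat_lit 5647594575) (nat_lit 228) (nat_lit 4961206862) (nat_lit 46) (nat_lit 5) (nat_lit 48) (nat_lit 5) (nat_lit 49) (nat_lit 5) (nat_lit 347) (nat_lit 311) (nat_lit 242)) (XT.lf (nat_lit 0) (nat_lit 19362820883) (nat_lit 228) (nat_lit 197083207) (nat_lit 76) (nat_lit 859341844) (nat_lit 46) (nat_lit 5) (nat_lit 49) (nat_lit 5) (nat_lit 47) (nat_lit 5) (nat_lit 348) (nat_lit 311) (nat_lit 241)))) (XT.nd (nat_lit 78) (nat_lit 152) (nat_lit 0) (XT.lf (nat_lit 0) (nat_lit 3193049690) (nat_lit 304) (nat_lit 10176572248) (nat_lit 76)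 (nat_lit 7714020214) (nat_lit 42) (nat_lit 5) (nat_lit 46) (nat_lit 5) (nat_lit 43) (nat_lit 5) (nat_lit 349) (nat_lit 311) (nat_lit 240)) (XT.nd (nat_lit 78) (nat_lit 0) (nat_lit 0) (XT.lf (nat_lit 0) (nat_lit 766859846) (nat_lit 152) (nat_lit 6847331401) (nat_lit 228) (nat_lit 14166480205) (nat_lit 40) (nat_lit 5) (nat_lit 42) (nat_lit 5) (nat_lit 43) (nat_lit 5) (nat_lit 350) (nat_lit 311) (nat_lit 239)) (XT.lf (nat_lit 0) (nat_lit 12411208932) (nat_lit 228) (nat_lit 9928813316) (nat_lit 76) (nat_lit 164802337) (nat_lit 40) (nat_lit 5) (nat_lit 43) (nat_lit 5) (nat_lit 41) (nat_lit 5) (nat_lit 351) (nat_lit 311) (nat_lit 238))))))) (XT.nd (nat_lit 858) (nat_lit 760) (nat_lit 0) (XT.nd (nat_lit 390) (nat_lit 304) (nat_lit 0) (XT.nd (nat_lit 156) (nat_lit 380) (nat_lit 0) (XT.nd (nat_lit 78) (nat_lit 0) (nat_lit 0) (XT.lf (nat_lit 0) (nat_lit 1618748454) (nat_lit 152) (nat_lit 15947455275)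 (nat_lit 228) (nat_lit 5693088020) (nat_lit 38) (nat_lit 5) (nat_lit 40) (nat_lit 5) (nat_lit 41) (nat_lit 5) (nat_lit 352) (nat_lit 311) (nat_lit 237)) (XT.lf (nat_lit 0) (nat_lit 14057653086) (nat_lit 152) (nat_lit 9070489906) (nat_lit 228) (nat_lit 915891626) (nat_lit 38) (nat_lit 5) (nat_lit 40) (nat_lit 5) (nat_lit 41) (nat_lit 5) (nat_lit 353) (nat_lit 311) (nat_lit 236))) (XT.nd (nat_lit 78) (nat_lit 152) (nat_lit 0) (XT.lf (nat_lit 0) (nat_lit 2227884134) (nat_lit 152) (nat_lit 1757474087) (nat_lit 228) (nat_lit 20878645390) (nat_lit 35) (nat_lit 5) (nat_lit 37) (nat_lit 5) (nat_lit 38) (nat_lit 5) (nat_lit 354) (nat_lit 311) (nat_lit 235)) (XT.nd (nat_lit 78) (nat_lit 152) (nat_lit 0) (XT.lf (nat_lit 0) (nat_lit 9347110681) (nat_lit 228) (nat_lit 10457322413) (nat_lit 76) (nat_lit 5907486660) (nat_lit 35) (nat_lit 5) (nat_lit 38) (nat_lit 5) (nat_lit 36) (nat_lit 5) (nat_lit 355)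 (nat_lit 311) (nat_lit 234)) (XT.lf (nat_lit 0) (nat_lit 2348049295) (nat_lit 152) (nat_lit 12677112094) (nat_lit 228) (nat_lit 11574669724) (nat_lit 33) (nat_lit 5) (nat_lit 35) (nat_lit 5) (nat_lit 36) (nat_lit 5) (nat_lit 356) (nat_lit 311) (nat_lit 233))))) (XT.nd (nat_lit 234) (nat_lit 152) (nat_lit 0) (XT.nd (nat_lit 78) (nat_lit 152) (nat_lit 0) (XT.lf (nat_lit 0) (nat_lit 16128500820) (nat_lit 152) (nat_lit 5018834525) (nat_lit 228) (nat_lit 6376801128) (nat_lit 33) (nat_lit 5) (nat_lit 35) (nat_lit 5) (nat_lit 36) (nat_lit 5) (nat_lit 357) (nat_lit 311) (nat_lit 232)) (XT.nd (nat_lit 78) (nat_lit 76) (nat_lit 0) (XT.lf (nat_lit 0) (nat_lit 2095662369) (nat_lit 76) (nat_lit 25543617935) (nat_lit 152) (nat_lit 852202697) (nat_lit 32) (nat_lit 5) (nat_lit 33) (nat_lit 5) (nat_lit 34) (nat_lit 4) (nat_lit 358) (nat_lit 311) (nat_lit 231)) (XT.lf (nat_lit 0) (nat_lit 5052506368) (nat_lit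 152) (nat_lit 13030733597) (nat_lit 76) (nat_lit 11406988590) (nat_lit 31) (nat_lit 5) (nat_lit 33) (nat_lit 5) (nat_lit 32) (nat_lit 5) (nat_lit 359) (nat_lit 311) (nat_lit 230)))) (XT.nd (nat_lit 78) (nat_lit 0) (nat_lit 0) (XT.lf (nat_lit 0) (nat_lit 994131251) (nat_lit 152) (nat_lit 10229808143) (nat_lit 228) (nat_lit 19314274848) (nat_lit 29) (nat_lit 5) (nat_lit 31) (nat_lit 5) (nat_lit 32) (nat_lit 5) (nat_lit 360) (nat_lit 311) (nat_lit 229)) (XT.nd (nat_lit 78) (nat_lit 0) (nat_lit 0) (XT.lf (nat_lit 0) (nat_lit 16146737165) (nat_lit 152) (nat_lit 1762824252) (nat_lit 228) (nat_lit 13718764348) (nat_lit 29) (nat_lit 5) (nat_lit 31) (nat_lit 5) (nat_lit 32) (nat_lit 5) (nat_lit 361) (nat_lit 311) (nat_lit 228)) (XT.lf (nat_lit 0) (nat_lit 25026236734) (nat_lit 228) (nat_lit 852479680) (nat_lit 76) (nat_lit 6889394905) (nat_lit 29) (nat_lit 5) (nat_lit 32) (nat_lit 5) (nat_lit 30)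 (nat_lit 4) (nat_lit 362) (nat_lit 311) (nat_lit 227)))))) (XT.nd (nat_lit 468) (nat_lit 380) (nat_lit 0) (XT.nd (nat_lit 234) (nat_lit 76) (nat_lit 0) (XT.nd (nat_lit 78) (nat_lit 228) (nat_lit 0) (XT.lf (nat_lit 0) (nat_lit 14933110335) (nat_lit 76) (nat_lit 17813864613) (nat_lit 152) (nat_lit 1205506473) (nat_lit 28) (nat_lit 5) (nat_lit 29) (nat_lit 5) (nat_lit 30) (nat_lit 4) (nat_lit 363) (nat_lit 311) (nat_lit 226)) (XT.nd (nat_lit 78) (nat_lit 152) (nat_lit 0) (XT.lf (nat_lit 0) (nat_lit 5477516340) (nat_lit 152) (nat_lit 3770442846) (nat_lit 76) (nat_lit 25943654462) (nat_lit 27) (nat_lit 5) (nat_lit 29) (nat_lit 5) (nat_lit 28) (nat_lit 5) (nat_lit 364) (nat_lit 311) (nat_lit 225)) (XT.lf (nat_lit 0) (nat_lit 12601543414) (nat_lit 152) (nat_lit 36277994) (nat_lit 228) (nat_lit 23844716570) (nat_lit 25) (nat_lit 5) (nat_lit 27) (nat_lit 5) (nat_lit 28) (nat_lit 5) (nat_lit 365)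 (nat_lit 311) (nat_lit 224)))) (XT.nd (nat_lit 78) (nat_lit 76) (nat_lit 0) (XT.lf (nat_lit 0) (nat_lit 20358505183) (nat_lit 228) (nat_lit 8086355723) (nat_lit 76) (nat_lit 9383034979) (nat_lit 25) (nat_lit 5) (nat_lit 28) (nat_lit 5) (nat_lit 26) (nat_lit 4) (nat_lit 366) (nat_lit 311) (nat_lit 223)) (XT.nd (nat_lit 78) (nat_lit 0) (nat_lit 0) (XT.lf (nat_lit 0) (nat_lit 8755677058) (nat_lit 76) (nat_lit 19834477297) (nat_lit 152) (nat_lit 10644126044) (nat_lit 24) (nat_lit 5) (nat_lit 25) (nat_lit 5) (nat_lit 26) (nat_lit 4) (nat_lit 367) (nat_lit 311) (nat_lit 222)) (XT.lf (nat_lit 0) (nat_lit 26698926376) (nat_lit 76) (nat_lit 10659292929) (nat_lit 152) (nat_lit 3346528189) (nat_lit 24) (nat_lit 5) (nat_lit 25) (nat_lit 5) (nat_lit 26) (nat_lit 4) (nat_lit 368) (nat_lit 311) (nat_lit 221))))) (XT.nd (nat_lit 234) (nat_lit 152) (nat_lit 0) (XT.nd (nat_lit 78) (nat_lit 0) (nat_lit 0)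 (XT.lf (nat_lit 0) (nat_lit 3308108533) (nat_lit 152) (nat_lit 909622567) (nat_lit 228) (nat_lit 38025646250) (nat_lit 21) (nat_lit 5) (nat_lit 23) (nat_lit 5) (nat_lit 24) (nat_lit 5) (nat_lit 369) (nat_lit 311) (nat_lit 220)) (XT.nd (nat_lit 78) (nat_lit 0) (nat_lit 0) (XT.lf (nat_lit 0) (nat_lit 12422814046) (nat_lit 228) (nat_lit 22098557568) (nat_lit 76) (nat_lit 9316074566) (nat_lit 21) (nat_lit 5) (nat_lit 24) (nat_lit 5) (nat_lit 22) (nat_lit 4) (nat_lit 370) (nat_lit 311) (nat_lit 219)) (XT.lf (nat_lit 0) (nat_lit 21041980384) (nat_lit 228) (nat_lit 4455003857) (nat_lit 76) (nat_lit 20014046878) (nat_lit 21) (nat_lit 5) (nat_lit 24) (nat_lit 5) (nat_lit 22) (nat_lit 4) (nat_lit 371) (nat_lit 311) (nat_lit 218)))) (XT.nd (nat_lit 78) (nat_lit 76) (nat_lit 0) (XT.lf (nat_lit 0) (nat_lit 14516211971) (nat_lit 76) (nat_lit 15791976964) (nat_lit 152) (nat_lit 16949306110) (nat_lit 20)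 (nat_lit 5) (nat_lit 21) (nat_lit 5) (nat_lit 22) (nat_lit 4) (nat_lit 372) (nat_lit 311) (nat_lit 217)) (XT.nd (nat_lit 78) (nat_lit 76) (nat_lit 0) (XT.lf (nat_lit 0) (nat_lit 34571839728) (nat_lit 76) (nat_lit 5530969808) (nat_lit 152) (nat_lit 8985221296) (nat_lit 20) (nat_lit 5) (nat_lit 21) (nat_lit 5) (nat_lit 22) (nat_lit 4) (nat_lit 373) (nat_lit 311) (nat_lit 216)) (XT.lf (nat_lit 0) (nat_lit 4669457165) (nat_lit 76) (nat_lit 45862487301) (nat_lit 76) (nat_lit 470913344) (nat_lit 19) (nat_lit 4) (nat_lit 20) (nat_lit 5) (nat_lit 20) (nat_lit 4) (nat_lit 374) (nat_lit 311) (nat_lit 215))))))))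
noncomputable def xc132 : XT := (XT.nd (nat_lit 1716) (nat_lit 380) (nat_lit 0) (XT.nd (nat_lit 858) (nat_lit 380) (nat_lit 0) (XT.nd (nat_lit 390) (nat_lit 228) (nat_lit 0) (XT.nd (nat_lit 156) (nat_lit 76) (nat_lit 0) (XT.nd (nat_lit 78) (nat_lit 0) (nat_lit 0) (XT.lf (nat_lit 0) (nat_lit 8528637328) (nat_lit 152) (nat_lit 27928033270) (nat_lit 76) (nat_lit 16533617863) (nat_lit 18) (nat_lit 5) (nat_lit 20) (nat_lit 5) (nat_lit 19) (nat_lit 4) (nat_lit 375) (nat_lit 311) (nat_lit 214)) (XT.lf (nat_lit 0) (nat_lit 17952864743) (nat_lit 152) (nat_lit 8627572627) (nat_lit 76) (nat_lit 28496744113) (nat_lit 18) (nat_lit 5) (nat_lit 20) (nat_lit 5) (nat_lit 19) (nat_lit 4) (nat_lit 376) (nat_lit 311) (nat_lit 213))) (XT.nd (nat_lit 78) (nat_lit 0) (nat_lit 0) (XT.lf (nat_lit 0) (nat_lit 12005539270) (nat_lit 76) (nat_lit 16021180548) (nat_lit 152) (nat_lit 29232781457) (nat_lit 17) (nat_lit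 5) (nat_lit 18) (nat_lit 5) (nat_lit 19) (nat_lit 4) (nat_lit 377) (nat_lit 311) (nat_lit 212)) (XT.nd (nat_lit 78) (nat_lit 0) (nat_lit 0) (XT.lf (nat_lit 0) (nat_lit 33953480722) (nat_lit 76) (nat_lit 4788049563) (nat_lit 152) (nat_lit 20802546436) (nat_lit 17) (nat_lit 5) (nat_lit 18) (nat_lit 5) (nat_lit 19) (nat_lit 4) (nat_lit 378) (nat_lit 311) (nat_lit 211)) (XT.lf (nat_lit 0) (nat_lit 50092936403) (nat_lit 152) (nat_lit 5069345990) (nat_lit 0) (nat_lit 6775558453) (nat_lit 17) (nat_lit 5) (nat_lit 19) (nat_lit 4) (nat_lit 17) (nat_lit 4) (nat_lit 379) (nat_lit 311) (nat_lit 210))))) (XT.nd (nat_lit 234) (nat_lit 76) (nat_lit 0) (XT.nd (nat_lit 78) (nat_lit 76) (nat_lit 0) (XT.lf (nat_lit 0) (nat_lit 16926081373) (nat_lit 76) (nat_lit 45420454595) (nat_lit 76) (nat_lit 2088028588) (nat_lit 16) (nat_lit 4) (nat_lit 17) (nat_lit 5) (nat_lit 17) (nat_lit 4) (nat_lit 380) (nat_lit 311)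 (nat_lit 209)) (XT.nd (nat_lit 78) (nat_lit 0) (nat_lit 0) (XT.lf (nat_lit 0) (nat_lit 7974773907) (nat_lit 152) (nat_lit 26998470979) (nat_lit 76) (nat_lit 32072557029) (nat_lit 15) (nat_lit 5) (nat_lit 17) (nat_lit 5) (nat_lit 16) (nat_lit 4) (nat_lit 381) (nat_lit 311) (nat_lit 208)) (XT.lf (nat_lit 0) (nat_lit 18462819995) (nat_lit 152) (nat_lit 5511625530) (nat_lit 76) (nat_lit 45811832563) (nat_lit 15) (nat_lit 5) (nat_lit 17) (nat_lit 5) (nat_lit 16) (nat_lit 4) (nat_lit 382) (nat_lit 311) (nat_lit 207)))) (XT.nd (nat_lit 78) (nat_lit 0) (nat_lit 0) (XT.lf (nat_lit 0) (nat_lit 17599093187) (nat_lit 76) (nat_lit 12143589147) (nat_lit 152) (nat_lit 42907727125) (nat_lit 14) (nat_lit 5) (nat_lit 15) (nat_lit 5) (nat_lit 16) (nat_lit 4) (nat_lit 383) (nat_lit 311) (nat_lit 206)) (XT.nd (nat_lit 78) (nat_lit 0) (nat_lit 0) (XT.lf (nat_lit 0) (nat_lit 41678446435) (nat_lit 152) (nat_lit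 33616056961) (nat_lit 0) (nat_lit 358650557) (nat_lit 14) (nat_lit 5) (nat_lit 16) (nat_lit 4) (nat_lit 14) (nat_lit 4) (nat_lit 384) (nat_lit 311) (nat_lit 205)) (XT.lf (nat_lit 0) (nat_lit 54403105778) (nat_lit 152) (nat_lit 11321245625) (nat_lit 0) (nat_lit 13072080808) (nat_lit 14) (nat_lit 5) (nat_lit 16) (nat_lit 4) (nat_lit 14) (nat_lit 4) (nat_lit 385) (nat_lit 311) (nat_lit 204)))))) (XT.nd (nat_lit 390) (nat_lit 152) (nat_lit 0) (XT.nd (nat_lit 156) (nat_lit 152) (nat_lit 0) (XT.nd (nat_lit 78) (nat_lit 0) (nat_lit 0) (XT.lf (nat_lit 0) (nat_lit 12475076431) (nat_lit 76) (nat_lit 55477056185) (nat_lit 76) (nat_lit 14135336842) (nat_lit 13) (nat_lit 4) (nat_lit 14) (nat_lit 5) (nat_lit 14) (nat_lit 4) (nat_lit 386) (nat_lit 311) (nat_lit 203)) (XT.lf (nat_lit 0) (nat_lit 37841954253) (nat_lit 76) (nat_lit 44521874790) (nat_lit 76) (nat_lit 3169970329) (nat_lit 13) (nat_lit 4) (nat_lit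 14) (nat_lit 5) (nat_lit 14) (nat_lit 4) (nat_lit 387) (nat_lit 311) (nat_lit 202))) (XT.nd (nat_lit 78) (nat_lit 76) (nat_lit 0) (XT.lf (nat_lit 0) (nat_lit 8070309469) (nat_lit 152) (nat_lit 24817470159) (nat_lit 76) (nat_lit 56258469593) (nat_lit 12) (nat_lit 5) (nat_lit 14) (nat_lit 5) (nat_lit 13) (nat_lit 4) (nat_lit 388) (nat_lit 311) (nat_lit 201)) (XT.nd (nat_lit 78) (nat_lit 76) (nat_lit 0) (XT.lf (nat_lit 0) (nat_lit 19760066071) (nat_lit 152) (nat_lit 862707326) (nat_lit 76) (nat_lit 72314251582) (nat_lit 12) (nat_lit 5) (nat_lit 14) (nat_lit 5) (nat_lit 13) (nat_lit 4) (nat_lit 389) (nat_lit 311) (nat_lit 200)) (XT.lf (nat_lit 0) (nat_lit 25081743063) (nat_lit 76) (nat_lit 7338444314) (nat_lit 152) (nat_lit 64477859717) (nat_lit 11) (nat_lit 5) (nat_lit 12) (nat_lit 5) (nat_lit 13) (nat_lit 4) (nat_lit 390) (nat_lit 311) (nat_lit 199))))) (XT.nd (nat_lit 234) (nat_lit 76) (nat_lit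 0) (XT.nd (nat_lit 78) (nat_lit 76) (nat_lit 0) (XT.lf (nat_lit 0) (nat_lit 45825674897) (nat_lit 152) (nat_lit 48817316126) (nat_lit 0) (nat_lit 6408512628) (nat_lit 11) (nat_lit 5) (nat_lit 13) (nat_lit 4) (nat_lit 11) (nat_lit 4) (nat_lit 391) (nat_lit 311) (nat_lit 198)) (XT.nd (nat_lit 78) (nat_lit 76) (nat_lit 0) (XT.lf (nat_lit 0) (nat_lit 60016318267) (nat_lit 152) (nat_lit 24799016271) (nat_lit 0) (nat_lit 20591555706) (nat_lit 11) (nat_lit 5) (nat_lit 13) (nat_lit 4) (nat_lit 11) (nat_lit 4) (nat_lit 392) (nat_lit 311) (nat_lit 197)) (XT.lf (nat_lit 0) (nat_lit 423923853) (nat_lit 76) (nat_lit 74494025835) (nat_lit 76) (nat_lit 35062024902) (nat_lit 10) (nat_lit 4) (nat_lit 11) (nat_lit 5) (nat_lit 11) (nat_lit 4) (nat_lit 393) (nat_lit 311) (nat_lit 196)))) (XT.nd (nat_lit 78) (nat_lit 76) (nat_lit 0) (XT.lf (nat_lit 0) (nat_lit 27759292655) (nat_lit 76) (nat_lit 63220285261)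 (nat_lit 76) (nat_lit 23781390639) (nat_lit 10) (nat_lit 4) (nat_lit 11) (nat_lit 5) (nat_lit 11) (nat_lit 4) (nat_lit 394) (nat_lit 311) (nat_lit 195)) (XT.nd (nat_lit 78) (nat_lit 76) (nat_lit 0) (XT.lf (nat_lit 0) (nat_lit 56452206873) (nat_lit 76) (nat_lit 51387253915) (nat_lit 76) (nat_lit 11941793876) (nat_lit 10) (nat_lit 4) (nat_lit 11) (nat_lit 5) (nat_lit 11) (nat_lit 4) (nat_lit 395) (nat_lit 311) (nat_lit 194)) (XT.lf (nat_lit 0) (nat_lit 469433318) (nat_lit 152) (nat_lit 38489374514) (nat_lit 76) (nat_lit 86093599569) (nat_lit 9) (nat_lit 5) (nat_lit 11) (nat_lit 5) (nat_lit 10) (nat_lit 4) (nat_lit 396) (nat_lit 311) (nat_lit 193))))))) (XT.nd (nat_lit 858) (nat_lit 228) (nat_lit 0) (XT.nd (nat_lit 390) (nat_lit 76) (nat_lit 0) (XT.nd (nat_lit 156) (nat_lit 0) (nat_lit 0) (XT.nd (nat_lit 78) (nat_lit 76) (nat_lit 0) (XT.lf (nat_lit 0) (nat_lit 13095448528) (nat_lit 152) (nat_lit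 12611998360) (nat_lit 76) (nat_lit 104870106025) (nat_lit 9) (nat_lit 5) (nat_lit 11) (nat_lit 5) (nat_lit 10) (nat_lit 4) (nat_lit 397) (nat_lit 311) (nat_lit 192)) (XT.lf (nat_lit 0) (nat_lit 15032264688) (nat_lit 76) (nat_lit 11550956768) (nat_lit 152) (nat_lit 109784212307) (nat_lit 8) (nat_lit 5) (nat_lit 9) (nat_lit 5) (nat_lit 10) (nat_lit 4) (nat_lit 398) (nat_lit 311) (nat_lit 191))) (XT.nd (nat_lit 78) (nat_lit 0) (nat_lit 0) (XT.lf (nat_lit 0) (nat_lit 41009984507) (nat_lit 152) (nat_lit 98002887277) (nat_lit 0) (nat_lit 3420707665) (nat_lit 8) (nat_lit 5) (nat_lit 10) (nat_lit 4) (nat_lit 8) (nat_lit 4) (nat_lit 399) (nat_lit 311) (nat_lit 190)) (XT.nd (nat_lit 78) (nat_lit 0) (nat_lit 0) (XT.lf (nat_lit 0) (nat_lit 56343425560) (nat_lit 152) (nat_lit 73701091190) (nat_lit 0) (nat_lit 18749249503) (nat_lit 8) (nat_lit 5) (nat_lit 10) (nat_lit 4) (nat_lit 8) (nat_lit 4) (nat_lit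 400) (nat_lit 311) (nat_lit 189)) (XT.lf (nat_lit 0) (nat_lit 72439710002) (nat_lit 152) (nat_lit 48191576588) (nat_lit 0) (nat_lit 34840868025) (nat_lit 8) (nat_lit 5) (nat_lit 10) (nat_lit 4) (nat_lit 8) (nat_lit 4) (nat_lit 401) (nat_lit 311) (nat_lit 188))))) (XT.nd (nat_lit 234) (nat_lit 0) (nat_lit 0) (XT.nd (nat_lit 78) (nat_lit 76) (nat_lit 0) (XT.lf (nat_lit 0) (nat_lit 89337162319) (nat_lit 152) (nat_lit 21413606533) (nat_lit 0) (nat_lit 51733876610) (nat_lit 8) (nat_lit 5) (nat_lit 10) (nat_lit 4) (nat_lit 8) (nat_lit 4) (nat_lit 402) (nat_lit 311) (nat_lit 187)) (XT.nd (nat_lit 78) (nat_lit 0) (nat_lit 0) (XT.lf (nat_lit 0) (nat_lit 6917995093) (nat_lit 76) (nat_lit 100266028740) (nat_lit 76) (nat_lit 62658510903) (nat_lit 7) (nat_lit 4) (nat_lit 8) (nat_lit 5) (nat_lit 8) (nat_lit 4) (nat_lit 403) (nat_lit 311) (nat_lit 186)) (XT.lf (nat_lit 0) (nat_lit 37403030727) (nat_lit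 76) (nat_lit 88879437435) (nat_lit 76) (nat_lit 51267889002) (nat_lit 7) (nat_lit 4) (nat_lit 8) (nat_lit 5) (nat_lit 8) (nat_lit 4) (nat_lit 404) (nat_lit 311) (nat_lit 185)))) (XT.nd (nat_lit 78) (nat_lit 0) (nat_lit 0) (XT.lf (nat_lit 0) (nat_lit 69406053250) (nat_lit 76) (nat_lit 76926533797) (nat_lit 76) (nat_lit 39311146700) (nat_lit 7) (nat_lit 4) (nat_lit 8) (nat_lit 5) (nat_lit 8) (nat_lit 4) (nat_lit 405) (nat_lit 311) (nat_lit 184)) (XT.nd (nat_lit 78) (nat_lit 0) (nat_lit 0) (XT.lf (nat_lit 0) (nat_lit 103003260332) (nat_lit 76) (nat_lit 64378858529) (nat_lit 76) (nat_lit 26759815562) (nat_lit 7) (nat_lit 4) (nat_lit 8) (nat_lit 5) (nat_lit 8) (nat_lit 4) (nat_lit 406) (nat_lit 311) (nat_lit 183)) (XT.lf (nat_lit 0) (nat_lit 138274645324) (nat_lit 76) (nat_lit 51206536215) (nat_lit 76) (nat_lit 13584011467) (nat_lit 7) (nat_lit 4) (nat_lit 8) (nat_lit 5) (nat_lit 8) (nat_lit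 4) (nat_lit 407) (nat_lit 311) (nat_lit 182)))))) (XT.nd (nat_lit 468) (nat_lit 76) (nat_lit 0) (XT.nd (nat_lit 234) (nat_lit 0) (nat_lit 0) (XT.nd (nat_lit 78) (nat_lit 76) (nat_lit 0) (XT.lf (nat_lit 0) (nat_lit 239710630) (nat_lit 152) (nat_lit 37134433936) (nat_lit 76) (nat_lit 175060417468) (nat_lit 6) (nat_lit 5) (nat_lit 8) (nat_lit 5) (nat_lit 7) (nat_lit 4) (nat_lit 408) (nat_lit 311) (nat_lit 181)) (XT.nd (nat_lit 78) (nat_lit 76) (nat_lit 0) (XT.lf (nat_lit 0) (nat_lit 14295390795) (nat_lit 152) (nat_lit 8323447675) (nat_lit 76) (nat_lit 199642562924) (nat_lit 6) (nat_lit 5) (nat_lit 8) (nat_lit 5) (nat_lit 7) (nat_lit 4) (nat_lit 409) (nat_lit 311) (nat_lit 180)) (XT.lf (nat_lit 0) (nat_lit 22647969641) (nat_lit 76) (nat_lit 6756896769) (nat_lit 152) (nat_lit 203157166224) (nat_lit 5) (nat_lit 5) (nat_lit 6) (nat_lit 5) (nat_lit 7) (nat_lit 4) (nat_lit 410) (nat_lit 311) (nat_lit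 179)))) (XT.nd (nat_lit 78) (nat_lit 0) (nat_lit 0) (XT.lf (nat_lit 0) (nat_lit 45565048565) (nat_lit 152) (nat_lit 188075571385) (nat_lit 0) (nat_lit 9722314307) (nat_lit 5) (nat_lit 5) (nat_lit 7) (nat_lit 4) (nat_lit 5) (nat_lit 4) (nat_lit 411) (nat_lit 311) (nat_lit 178)) (XT.nd (nat_lit 78) (nat_lit 0) (nat_lit 0) (XT.lf (nat_lit 0) (nat_lit 62641553924) (nat_lit 152) (nat_lit 165260690263) (nat_lit 0) (nat_lit 26796221507) (nat_lit 5) (nat_lit 5) (nat_lit 7) (nat_lit 4) (nat_lit 5) (nat_lit 4) (nat_lit 412) (nat_lit 311) (nat_lit 177)) (XT.lf (nat_lit 0) (nat_lit 80569546738) (nat_lit 152) (nat_lit 141309604387) (nat_lit 0) (nat_lit 44721739885) (nat_lit 5) (nat_lit 5) (nat_lit 7) (nat_lit 4) (nat_lit 5) (nat_lit 4) (nat_lit 413) (nat_lit 311) (nat_lit 176))))) (XT.nd (nat_lit 234) (nat_lit 76) (nat_lit 0) (XT.nd (nat_lit 78) (nat_lit 0) (nat_lit 0) (XT.lf (nat_lit 0) (nat_lit 99391712705)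 (nat_lit 152) (nat_lit 116165287362) (nat_lit 0) (nat_lit 63541549245) (nat_lit 5) (nat_lit 5) (nat_lit 7) (nat_lit 4) (nat_lit 5) (nat_lit 4) (nat_lit 414) (nat_lit 311) (nat_lit 175)) (XT.nd (nat_lit 78) (nat_lit 0) (nat_lit 0) (XT.lf (nat_lit 0) (nat_lit 119152866506) (nat_lit 152) (nat_lit 89767871768) (nat_lit 0) (nat_lit 83300458659) (nat_lit 5) (nat_lit 5) (nat_lit 7) (nat_lit 4) (nat_lit 5) (nat_lit 4) (nat_lit 415) (nat_lit 311) (nat_lit 174)) (XT.lf (nat_lit 0) (nat_lit 139900058507) (nat_lit 152) (nat_lit 62054506613) (nat_lit 0) (nat_lit 104045513149) (nat_lit 5) (nat_lit 5) (nat_lit 7) (nat_lit 4) (nat_lit 5) (nat_lit 4) (nat_lit 416) (nat_lit 311) (nat_lit 173)))) (XT.nd (nat_lit 78) (nat_lit 76) (nat_lit 0) (XT.lf (nat_lit 0) (nat_lit 161682686784) (nat_lit 152) (nat_lit 32959207697) (nat_lit 0) (nat_lit 125826105700) (nat_lit 5) (nat_lit 5) (nat_lit 7) (nat_lit 4) (nat_lit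 5) (nat_lit 4) (nat_lit 417) (nat_lit 311) (nat_lit 172)) (XT.nd (nat_lit 78) (nat_lit 76) (nat_lit 0) (XT.lf (nat_lit 0) (nat_lit 184552614738) (nat_lit 152) (nat_lit 2412700496) (nat_lit 0) (nat_lit 148694094868) (nat_lit 5) (nat_lit 5) (nat_lit 7) (nat_lit 4) (nat_lit 5) (nat_lit 4) (nat_lit 418) (nat_lit 311) (nat_lit 171)) (XT.lf (nat_lit 0) (nat_lit 30638363746) (nat_lit 76) (nat_lit 178404281553) (nat_lit 76) (nat_lit 142543915220) (nat_lit 4) (nat_lit 4) (nat_lit 5) (nat_lit 5) (nat_lit 5) (nat_lit 4) (nat_lit 419) (nat_lit 311) (nat_lit 170))))))))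
noncomputable def xc133 : XT := (XT.nd (nat_lit 39312) (nat_lit 0) (nat_lit 3572) (XT.nd (nat_lit 38454) (nat_lit 0) (nat_lit 8056) (XT.nd (nat_lit 390) (nat_lit 0) (nat_lit 0) (XT.nd (nat_lit 156) (nat_lit 0) (nat_lit 0) (XT.nd (nat_lit 78) (nat_lit 0) (nat_lit 0) (XT.lf (nat_lit 0) (nat_lit 65422412052) (nat_lit 76) (nat_lit 169373912116) (nat_lit 76) (nat_lit 133511787247) (nat_lit 4) (nat_lit 4) (nat_lit 5) (nat_lit 5) (nat_lit 5) (nat_lit 4) (nat_lit 420) (nat_lit 311) (nat_lit 169)) (XT.lf (nat_lit 0) (nat_lit 101942488807) (nat_lit 76) (nat_lit 159893566295) (nat_lit 76) (nat_lit 124029766630) (nat_lit 4) (nat_lit 4) (nat_lit 5) (nat_lit 5) (nat_lit 5) (nat_lit 4) (nat_lit 421) (nat_lit 311) (nat_lit 168))) (XT.nd (nat_lit 78) (nat_lit 0) (nat_lit 0) (XT.lf (nat_lit 0) (nat_lit 140285546576) (nat_lit 76) (nat_lit 149940671837) (nat_lit 76) (nat_lit 114075277128) (nat_lit 4) (nat_lit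 4) (nat_lit 5) (nat_lit 5) (nat_lit 5) (nat_lit 4) (nat_lit 422) (nat_lit 311) (nat_lit 167)) (XT.nd (nat_lit 78) (nat_lit 0) (nat_lit 0) (XT.lf (nat_lit 0) (nat_lit 180542878354) (nat_lit 76) (nat_lit 139491531375) (nat_lit 76) (nat_lit 103624617577) (nat_lit 4) (nat_lit 4) (nat_lit 5) (nat_lit 5) (nat_lit 5) (nat_lit 4) (nat_lit 423) (nat_lit 311) (nat_lit 166)) (XT.lf (nat_lit 0) (nat_lit 222810334930) (nat_lit 76) (nat_lit 128521266003) (nat_lit 76) (nat_lit 92652905453) (nat_lit 4) (nat_lit 4) (nat_lit 5) (nat_lit 5) (nat_lit 5) (nat_lit 4) (nat_lit 424) (nat_lit 311) (nat_lit 165))))) (XT.nd (nat_lit 234) (nat_lit 0) (nat_lit 0) (XT.nd (nat_lit 78) (nat_lit 0) (nat_lit 0) (XT.lf (nat_lit 0) (nat_lit 267188553106) (nat_lit 76) (nat_lit 117003756042) (nat_lit 76) (nat_lit 81134017633) (nat_lit 4) (nat_lit 4) (nat_lit 5) (nat_lit 5) (nat_lit 5) (nat_lit 4) (nat_lit 425) (nat_lit 311)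 (nat_lit 164)) (XT.nd (nat_lit 78) (nat_lit 0) (nat_lit 0) (XT.lf (nat_lit 0) (nat_lit 313783195306) (nat_lit 76) (nat_lit 104911578848) (nat_lit 76) (nat_lit 69040528192) (nat_lit 4) (nat_lit 4) (nat_lit 5) (nat_lit 5) (nat_lit 5) (nat_lit 4) (nat_lit 426) (nat_lit 311) (nat_lit 163)) (XT.lf (nat_lit 0) (nat_lit 362705201154) (nat_lit 76) (nat_lit 92215943524) (nat_lit 76) (nat_lit 56343643109) (nat_lit 4) (nat_lit 4) (nat_lit 5) (nat_lit 5) (nat_lit 5) (nat_lit 4) (nat_lit 427) (nat_lit 311) (nat_lit 162)))) (XT.nd (nat_lit 78) (nat_lit 0) (nat_lit 0) (XT.lf (nat_lit 0) (nat_lit 414071051617) (nat_lit 76) (nat_lit 78886622366) (nat_lit 76) (nat_lit 43013131705) (nat_lit 4) (nat_lit 4) (nat_lit 5) (nat_lit 5) (nat_lit 5) (nat_lit 4) (nat_lit 428) (nat_lit 311) (nat_lit 161)) (XT.nd (nat_lit 78) (nat_lit 0) (nat_lit 0) (XT.lf (nat_lit 0) (nat_lit 468003046338) (nat_lit 76) (nat_lit 64891878896)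 (nat_lit 76) (nat_lit 29017254667) (nat_lit 4) (nat_lit 4) (nat_lit 5) (nat_lit 5) (nat_lit 5) (nat_lit 4) (nat_lit 429) (nat_lit 311) (nat_lit 160)) (XT.lf (nat_lit 0) (nat_lit 524629594829) (nat_lit 76) (nat_lit 50198392296) (nat_lit 76) (nat_lit 14322688478) (nat_lit 4) (nat_lit 4) (nat_lit 5) (nat_lit 5) (nat_lit 5) (nat_lit 4) (nat_lit 430) (nat_lit 311) (nat_lit 159)))))) (XT.nd (nat_lit 390) (nat_lit 456) (nat_lit 0) (XT.nd (nat_lit 156) (nat_lit 0) (nat_lit 76) (XT.nd (nat_lit 78) (nat_lit 684) (nat_lit 0) (XT.lf (nat_lit 0) (nat_lit 1970830730) (nat_lit 0) (nat_lit 1970830730) (nat_lit 532) (nat_lit 122053253) (nat_lit 125) (nat_lit 5) (nat_lit 125) (nat_lit 3) (nat_lit 132) (nat_lit 3) (nat_lit 312) (nat_lit 312) (nat_lit 276)) (XT.lf (nat_lit 0) (nat_lit 874207326) (nat_lit 684) (nat_lit 349059177) (nat_lit 684) (nat_lit 7050108435) (nat_lit 116) (nat_lit 3) (nat_lit 125) (nat_lit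 3) (nat_lit 125) (nat_lit 5) (nat_lit 313) (nat_lit 312) (nat_lit 275))) (XT.nd (nat_lit 78) (nat_lit 0) (nat_lit 0) (XT.lf (nat_lit 0) (nat_lit 2054467131) (nat_lit 608) (nat_lit 4695983531) (nat_lit 684) (nat_lit 1675358667) (nat_lit 117) (nat_lit 5) (nat_lit 125) (nat_lit 5) (nat_lit 126) (nat_lit 5) (nat_lit 314) (nat_lit 312) (nat_lit 274)) (XT.nd (nat_lit 78) (nat_lit 0) (nat_lit 0) (XT.lf (nat_lit 0) (nat_lit 3251658250) (nat_lit 608) (nat_lit 621936004) (nat_lit 684) (nat_lit 4714473737) (nat_lit 117) (nat_lit 5) (nat_lit 125) (nat_lit 5) (nat_lit 126) (nat_lit 5) (nat_lit 315) (nat_lit 312) (nat_lit 273)) (XT.lf (nat_lit 76) (nat_lit 3736363486) (nat_lit 0) (nat_lit 765781857) (nat_lit 684) (nat_lit 4256716199) (nat_lit 118) (nat_lit 5) (nat_lit 117) (nat_lit 5) (nat_lit 126) (nat_lit 5) (nat_lit 316) (nat_lit 312) (nat_lit 272))))) (XT.nd (nat_lit 234) (nat_lit 608) (nat_lit 0)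 (XT.nd (nat_lit 78) (nat_lit 0) (nat_lit 0) (XT.lf (nat_lit 0) (nat_lit 5802820774) (nat_lit 608) (nat_lit 684654540) (nat_lit 684) (nat_lit 2451425568) (nat_lit 118) (nat_lit 5) (nat_lit 126) (nat_lit 5) (nat_lit 127) (nat_lit 5) (nat_lit 317) (nat_lit 312) (nat_lit 271)) (XT.nd (nat_lit 78) (nat_lit 0) (nat_lit 76) (XT.lf (nat_lit 76) (nat_lit 3943759757) (nat_lit 0) (nat_lit 3239817909) (nat_lit 684) (nat_lit 1943697196) (nat_lit 119) (nat_lit 5) (nat_lit 118) (nat_lit 5) (nat_lit 127) (nat_lit 5) (nat_lit 318) (nat_lit 312) (nat_lit 270)) (XT.lf (nat_lit 0) (nat_lit 8591208545) (nat_lit 608) (nat_lit 542517348) (nat_lit 684) (nat_lit 193530851) (nat_lit 119) (nat_lit 5) (nat_lit 127) (nat_lit 5) (nat_lit 128) (nat_lit 5) (nat_lit 319) (nat_lit 312) (nat_lit 269)))) (XT.nd (nat_lit 78) (nat_lit 0) (nat_lit 0) (XT.lf (nat_lit 0) (nat_lit 583526801) (nat_lit 684) (nat_lit 5166360420) (nat_lit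 760) (nat_lit 3783580170) (nat_lit 110) (nat_lit 5) (nat_lit 119) (nat_lit 5) (nat_lit 120) (nat_lit 5) (nat_lit 320) (nat_lit 312) (nat_lit 268)) (XT.nd (nat_lit 78) (nat_lit 0) (nat_lit 76) (XT.lf (nat_lit 0) (nat_lit 1900793654) (nat_lit 684) (nat_lit 262384104) (nat_lit 760) (nat_lit 7588455015) (nat_lit 110) (nat_lit 5) (nat_lit 119) (nat_lit 5) (nat_lit 120) (nat_lit 5) (nat_lit 321) (nat_lit 312) (nat_lit 267)) (XT.lf (nat_lit 0) (nat_lit 3338205466) (nat_lit 684) (nat_lit 4998498796) (nat_lit 76) (nat_lit 1641354727) (nat_lit 111) (nat_lit 5) (nat_lit 120) (nat_lit 5) (nat_lit 112) (nat_lit 5) (nat_lit 322) (nat_lit 312) (nat_lit 266))))))) (XT.nd (nat_lit 858) (nat_lit 1596) (nat_lit 0) (XT.nd (nat_lit 390) (nat_lit 1064) (nat_lit 0) (XT.nd (nat_lit 156) (nat_lit 1216) (nat_lit 0) (XT.nd (nat_lit 78) (nat_lit 0) (nat_lit 0) (XT.lf (nat_lit 0) (nat_lit 206499958) (nat_lit 684) (nat_lit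 4635757034) (nat_lit 760) (nat_lit 5373874539) (nat_lit 102) (nat_lit 5) (nat_lit 111) (nat_lit 5) (nat_lit 112) (nat_lit 5) (nat_lit 323) (nat_lit 312) (nat_lit 265)) (XT.lf (nat_lit 0) (nat_lit 5804256535) (nat_lit 684) (nat_lit 655139033) (nat_lit 760) (nat_lit 4004878358) (nat_lit 102) (nat_lit 5) (nat_lit 111) (nat_lit 5) (nat_lit 112) (nat_lit 5) (nat_lit 324) (nat_lit 312) (nat_lit 264))) (XT.nd (nat_lit 78) (nat_lit 456) (nat_lit 0) (XT.lf (nat_lit 0) (nat_lit 889060629) (nat_lit 760) (nat_lit 7292783483) (nat_lit 836) (nat_lit 2541814247) (nat_lit 92) (nat_lit 5) (nat_lit 102) (nat_lit 5) (nat_lit 103) (nat_lit 5) (nat_lit 325) (nat_lit 312) (nat_lit 263)) (XT.nd (nat_lit 78) (nat_lit 456) (nat_lit 0) (XT.lf (nat_lit 0) (nat_lit 6825506315) (nat_lit 760) (nat_lit 3211420290) (nat_lit 836) (nat_lit 956814663) (nat_lit 92) (nat_lit 5) (nat_lit 102) (nat_lit 5) (nat_lit 103) (nat_lit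 5) (nat_lit 326) (nat_lit 312) (nat_lit 262)) (XT.lf (nat_lit 0) (nat_lit 688476601) (nat_lit 456) (nat_lit 9507595973) (nat_lit 76) (nat_lit 1080569026) (nat_lit 86) (nat_lit 5) (nat_lit 92) (nat_lit 5) (nat_lit 87) (nat_lit 5) (nat_lit 327) (nat_lit 312) (nat_lit 261))))) (XT.nd (nat_lit 234) (nat_lit 760) (nat_lit 0) (XT.nd (nat_lit 78) (nat_lit 304) (nat_lit 0) (XT.lf (nat_lit 0) (nat_lit 2467997136) (nat_lit 456) (nat_lit 3533428701) (nat_lit 76) (nat_lit 5567318204) (nat_lit 86) (nat_lit 5) (nat_lit 92) (nat_lit 5) (nat_lit 87) (nat_lit 5) (nat_lit 328) (nat_lit 312) (nat_lit 260)) (XT.nd (nat_lit 78) (nat_lit 0) (nat_lit 0) (XT.lf (nat_lit 0) (nat_lit 2789013449) (nat_lit 304) (nat_lit 1552667813) (nat_lit 380) (nat_lit 7533556072) (nat_lit 82) (nat_lit 5) (nat_lit 86) (nat_lit 5) (nat_lit 87) (nat_lit 5) (nat_lit 329) (nat_lit 312) (nat_lit 259)) (XT.lf (nat_lit 0) (nat_lit 6381389854)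 (nat_lit 380) (nat_lit 2734411877) (nat_lit 76) (nat_lit 3077679508) (nat_lit 82) (nat_lit 5) (nat_lit 87) (nat_lit 5) (nat_lit 83) (nat_lit 5) (nat_lit 330) (nat_lit 312) (nat_lit 258)))) (XT.nd (nat_lit 78) (nat_lit 380) (nat_lit 0) (XT.lf (nat_lit 0) (nat_lit 3998535236) (nat_lit 380) (nat_lit 4577030531) (nat_lit 456) (nat_lit 3949488392) (nat_lit 77) (nat_lit 5) (nat_lit 82) (nat_lit 5) (nat_lit 83) (nat_lit 5) (nat_lit 331) (nat_lit 312) (nat_lit 257)) (XT.nd (nat_lit 78) (nat_lit 380) (nat_lit 0) (XT.lf (nat_lit 0) (nat_lit 10895087910) (nat_lit 456) (nat_lit 1751575836) (nat_lit 76) (nat_lit 225799073) (nat_lit 77) (nat_lit 5) (nat_lit 83) (nat_lit 5) (nat_lit 78) (nat_lit 5) (nat_lit 332) (nat_lit 312) (nat_lit 256)) (XT.lf (nat_lit 0) (nat_lit 219356471) (nat_lit 380) (nat_lit 7811970442) (nat_lit 76) (nat_lit 5199427485) (nat_lit 72) (nat_lit 5) (nat_lit 77) (nat_lit 5) (nat_lit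 73) (nat_lit 5) (nat_lit 333) (nat_lit 312) (nat_lit 255)))))) (XT.nd (nat_lit 468) (nat_lit 684) (nat_lit 0) (XT.nd (nat_lit 234) (nat_lit 380) (nat_lit 0) (XT.nd (nat_lit 78) (nat_lit 532) (nat_lit 0) (XT.lf (nat_lit 0) (nat_lit 2457300804) (nat_lit 380) (nat_lit 668530460) (nat_lit 76) (nat_lit 10479650694) (nat_lit 72) (nat_lit 5) (nat_lit 77) (nat_lit 5) (nat_lit 73) (nat_lit 5) (nat_lit 334) (nat_lit 312) (nat_lit 254)) (XT.nd (nat_lit 78) (nat_lit 228) (nat_lit 0) (XT.lf (nat_lit 0) (nat_lit 4919280096) (nat_lit 380) (nat_lit 7008374350) (nat_lit 76) (nat_lit 2065716621) (nat_lit 68) (nat_lit 5) (nat_lit 73) (nat_lit 5) (nat_lit 69) (nat_lit 5) (nat_lit 335) (nat_lit 312) (nat_lit 253)) (XT.lf (nat_lit 0) (nat_lit 573635882) (nat_lit 228) (nat_lit 6972449572) (nat_lit 304) (nat_lit 6852513355) (nat_lit 65) (nat_lit 5) (nat_lit 68) (nat_lit 5) (nat_lit 69) (nat_lit 5) (nat_lit 336)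 (nat_lit 312) (nat_lit 252)))) (XT.nd (nat_lit 78) (nat_lit 380) (nat_lit 0) (XT.lf (nat_lit 0) (nat_lit 8741051390) (nat_lit 228) (nat_lit 1652740077) (nat_lit 304) (nat_lit 4425847527) (nat_lit 65) (nat_lit 5) (nat_lit 68) (nat_lit 5) (nat_lit 69) (nat_lit 5) (nat_lit 337) (nat_lit 312) (nat_lit 251)) (XT.nd (nat_lit 78) (nat_lit 76) (nat_lit 0) (XT.lf (nat_lit 0) (nat_lit 2021869040) (nat_lit 304) (nat_lit 11427125368) (nat_lit 380) (nat_lit 1809508893) (nat_lit 61) (nat_lit 5) (nat_lit 65) (nat_lit 5) (nat_lit 66) (nat_lit 5) (nat_lit 338) (nat_lit 312) (nat_lit 250)) (XT.lf (nat_lit 0) (nat_lit 1011797367) (nat_lit 380) (nat_lit 5056093780) (nat_lit 76) (nat_lit 9645504766) (nat_lit 60) (nat_lit 5) (nat_lit 65) (nat_lit 5) (nat_lit 61) (nat_lit 5) (nat_lit 339) (nat_lit 312) (nat_lit 249))))) (XT.nd (nat_lit 234) (nat_lit 228) (nat_lit 0) (XT.nd (nat_lit 78) (nat_lit 228) (nat_lit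 0) (XT.lf (nat_lit 0) (nat_lit 3583363948) (nat_lit 228) (nat_lit 359688286) (nat_lit 304) (nat_lit 12245036907) (nat_lit 57) (nat_lit 5) (nat_lit 60) (nat_lit 5) (nat_lit 61) (nat_lit 5) (nat_lit 340) (nat_lit 312) (nat_lit 248)) (XT.nd (nat_lit 78) (nat_lit 228) (nat_lit 0) (XT.lf (nat_lit 0) (nat_lit 7170180041) (nat_lit 304) (nat_lit 3976997937) (nat_lit 76) (nat_lit 5531896326) (nat_lit 57) (nat_lit 5) (nat_lit 61) (nat_lit 5) (nat_lit 58) (nat_lit 5) (nat_lit 341) (nat_lit 312) (nat_lit 247)) (XT.lf (nat_lit 0) (nat_lit 5208910221) (nat_lit 228) (nat_lit 5412516916) (nat_lit 304) (nat_lit 6570065141) (nat_lit 54) (nat_lit 5) (nat_lit 57) (nat_lit 5) (nat_lit 58) (nat_lit 5) (nat_lit 342) (nat_lit 312) (nat_lit 246)))) (XT.nd (nat_lit 78) (nat_lit 228) (nat_lit 0) (XT.lf (nat_lit 0) (nat_lit 14299231294) (nat_lit 304) (nat_lit 2779126245) (nat_lit 76) (nat_lit 648494541) (nat_lit 54)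 (nat_lit 5) (nat_lit 58) (nat_lit 5) (nat_lit 55) (nat_lit 5) (nat_lit 343) (nat_lit 312) (nat_lit 245)) (XT.nd (nat_lit 78) (nat_lit 0) (nat_lit 0) (XT.lf (nat_lit 0) (nat_lit 53875539) (nat_lit 228) (nat_lit 11294629324) (nat_lit 76) (nat_lit 6931702156) (nat_lit 51) (nat_lit 5) (nat_lit 54) (nat_lit 5) (nat_lit 52) (nat_lit 5) (nat_lit 344) (nat_lit 312) (nat_lit 244)) (XT.lf (nat_lit 0) (nat_lit 3619465700) (nat_lit 228) (nat_lit 1613965936) (nat_lit 76) (nat_lit 13623745917) (nat_lit 51) (nat_lit 5) (nat_lit 54) (nat_lit 5) (nat_lit 52) (nat_lit 5) (nat_lit 345) (nat_lit 312) (nat_lit 243))))))))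
noncomputable def xc134 : XT := (XT.nd (nat_lit 1716) (nat_lit 988) (nat_lit 0) (XT.nd (nat_lit 858) (nat_lit 760) (nat_lit 0) (XT.nd (nat_lit 390) (nat_lit 532) (nat_lit 0) (XT.nd (nat_lit 156) (nat_lit 456) (nat_lit 0) (XT.nd (nat_lit 78) (nat_lit 0) (nat_lit 0) (XT.lf (nat_lit 0) (nat_lit 7499826108) (nat_lit 304) (nat_lit 10676994338) (nat_lit 76) (nat_lit 1279368630) (nat_lit 48) (nat_lit 5) (nat_lit 52) (nat_lit 5) (nat_lit 49) (nat_lit 5) (nat_lit 346) (nat_lit 312) (nat_lit 242)) (XT.lf (nat_lit 0) (nat_lit 11666614414) (nat_lit 304) (nat_lit 453932619) (nat_lit 76) (nat_lit 7959999841) (nat_lit 48) (nat_lit 5) (nat_lit 52) (nat_lit 5) (nat_lit 49) (nat_lit 5) (nat_lit 347) (nat_lit 312) (nat_lit 241))) (XT.nd (nat_lit 78) (nat_lit 304) (nat_lit 0) (XT.lf (nat_lit 0) (nat_lit 10588757348) (nat_lit 152) (nat_lit 5598147377) (nat_lit 228) (nat_lit 4541975128) (nat_lit 46) (nat_lit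 5) (nat_lit 48) (nat_lit 5) (nat_lit 49) (nat_lit 5) (nat_lit 348) (nat_lit 312) (nat_lit 240)) (XT.nd (nat_lit 78) (nat_lit 76) (nat_lit 0) (XT.lf (nat_lit 0) (nat_lit 764127341) (nat_lit 228) (nat_lit 20188522210) (nat_lit 304) (nat_lit 456022615) (nat_lit 43) (nat_lit 5) (nat_lit 46) (nat_lit 5) (nat_lit 47) (nat_lit 5) (nat_lit 349) (nat_lit 312) (nat_lit 239)) (XT.lf (nat_lit 0) (nat_lit 3958139192) (nat_lit 304) (nat_lit 9733632695) (nat_lit 76) (nat_lit 8415370833) (nat_lit 42) (nat_lit 5) (nat_lit 46) (nat_lit 5) (nat_lit 43) (nat_lit 5) (nat_lit 350) (nat_lit 312) (nat_lit 238))))) (XT.nd (nat_lit 234) (nat_lit 228) (nat_lit 0) (XT.nd (nat_lit 78) (nat_lit 152) (nat_lit 0) (XT.lf (nat_lit 0) (nat_lit 1741619905) (nat_lit 152) (nat_lit 6844507683) (nat_lit 228) (nat_lit 14253625917) (nat_lit 40) (nat_lit 5) (nat_lit 42) (nat_lit 5) (nat_lit 43) (nat_lit 5) (nat_lit 351) (nat_lit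 312) (nat_lit 237)) (XT.nd (nat_lit 78) (nat_lit 152) (nat_lit 0) (XT.lf (nat_lit 0) (nat_lit 13599975251) (nat_lit 228) (nat_lit 9510035697) (nat_lit 76) (nat_lit 491272972) (nat_lit 40) (nat_lit 5) (nat_lit 43) (nat_lit 5) (nat_lit 41) (nat_lit 5) (nat_lit 352) (nat_lit 312) (nat_lit 236)) (XT.lf (nat_lit 0) (nat_lit 2600142576) (nat_lit 152) (nat_lit 16399578442) (nat_lit 228) (nat_lit 5394421059) (nat_lit 38) (nat_lit 5) (nat_lit 40) (nat_lit 5) (nat_lit 41) (nat_lit 5) (nat_lit 353) (nat_lit 312) (nat_lit 235)))) (XT.nd (nat_lit 78) (nat_lit 228) (nat_lit 0) (XT.lf (nat_lit 0) (nat_lit 15618113548) (nat_lit 152) (nat_lit 9195205261) (nat_lit 228) (nat_lit 406142053) (nat_lit 38) (nat_lit 5) (nat_lit 40) (nat_lit 5) (nat_lit 41) (nat_lit 5) (nat_lit 354) (nat_lit 312) (nat_lit 234)) (XT.nd (nat_lit 78) (nat_lit 0) (nat_lit 0) (XT.lf (nat_lit 0) (nat_lit 3200834168) (nat_lit 152) (nat_lit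 1509398762) (nat_lit 228) (nat_lit 21370384804) (nat_lit 35) (nat_lit 5) (nat_lit 37) (nat_lit 5) (nat_lit 38) (nat_lit 5) (nat_lit 355) (nat_lit 312) (nat_lit 233)) (XT.lf (nat_lit 0) (nat_lit 10320039457) (nat_lit 228) (nat_lit 10139334459) (nat_lit 76) (nat_lit 6512572005) (nat_lit 35) (nat_lit 5) (nat_lit 38) (nat_lit 5) (nat_lit 36) (nat_lit 5) (nat_lit 356) (nat_lit 312) (nat_lit 232)))))) (XT.nd (nat_lit 390) (nat_lit 304) (nat_lit 0) (XT.nd (nat_lit 156) (nat_lit 304) (nat_lit 0) (XT.nd (nat_lit 78) (nat_lit 0) (nat_lit 0) (XT.lf (nat_lit 0) (nat_lit 3292743673) (nat_lit 152) (nat_lit 12978090458) (nat_lit 228) (nat_lit 11633990511) (nat_lit 33) (nat_lit 5) (nat_lit 35) (nat_lit 5) (nat_lit 36) (nat_lit 5) (nat_lit 357) (nat_lit 312) (nat_lit 231)) (XT.lf (nat_lit 0) (nat_lit 17722822920) (nat_lit 152) (nat_lit 4952750307) (nat_lit 228) (nat_lit 6200962424) (nat_lit 33) (nat_lit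 5) (nat_lit 35) (nat_lit 5) (nat_lit 36) (nat_lit 5) (nat_lit 358) (nat_lit 312) (nat_lit 230))) (XT.nd (nat_lit 78) (nat_lit 228) (nat_lit 0) (XT.lf (nat_lit 0) (nat_lit 2994188351) (nat_lit 76) (nat_lit 26492611166) (nat_lit 152) (nat_lit 405728360) (nat_lit 32) (nat_lit 5) (nat_lit 33) (nat_lit 5) (nat_lit 34) (nat_lit 4) (nat_lit 359) (nat_lit 312) (nat_lit 229)) (XT.nd (nat_lit 78) (nat_lit 152) (nat_lit 0) (XT.lf (nat_lit 0) (nat_lit 5756018081) (nat_lit 152) (nat_lit 12911188221) (nat_lit 76) (nat_lit 12274761231) (nat_lit 31) (nat_lit 5) (nat_lit 33) (nat_lit 5) (nat_lit 32) (nat_lit 5) (nat_lit 360) (nat_lit 312) (nat_lit 228)) (XT.lf (nat_lit 0) (nat_lit 1802483062) (nat_lit 152) (nat_lit 10423913494) (nat_lit 228) (nat_lit 19816448122) (nat_lit 29) (nat_lit 5) (nat_lit 31) (nat_lit 5) (nat_lit 32) (nat_lit 5) (nat_lit 361) (nat_lit 312) (nat_lit 227))))) (XT.nd (nat_lit 234)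 (nat_lit 228) (nat_lit 0) (XT.nd (nat_lit 78) (nat_lit 76) (nat_lit 0) (XT.lf (nat_lit 0) (nat_lit 17676593307) (nat_lit 152) (nat_lit 1548693982) (nat_lit 228) (nat_lit 13963235452) (nat_lit 29) (nat_lit 5) (nat_lit 31) (nat_lit 5) (nat_lit 32) (nat_lit 5) (nat_lit 362) (nat_lit 312) (nat_lit 226)) (XT.nd (nat_lit 78) (nat_lit 76) (nat_lit 0) (XT.lf (nat_lit 0) (nat_lit 26682279149) (nat_lit 228) (nat_lit 191275768) (nat_lit 76) (nat_lit 7512528371) (nat_lit 29) (nat_lit 5) (nat_lit 32) (nat_lit 5) (nat_lit 30) (nat_lit 4) (nat_lit 363) (nat_lit 312) (nat_lit 225)) (XT.lf (nat_lit 0) (nat_lit 16372241685) (nat_lit 76) (nat_lit 18408351192) (nat_lit 152) (nat_lit 849511472) (nat_lit 28) (nat_lit 5) (nat_lit 29) (nat_lit 5) (nat_lit 30) (nat_lit 4) (nat_lit 364) (nat_lit 312) (nat_lit 224)))) (XT.nd (nat_lit 78) (nat_lit 152) (nat_lit 0) (XT.lf (nat_lit 0) (nat_lit 6135151275) (nat_lit 152)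 (nat_lit 3286605151) (nat_lit 76) (nat_lit 27510079714) (nat_lit 27) (nat_lit 5) (nat_lit 29) (nat_lit 5) (nat_lit 28) (nat_lit 5) (nat_lit 365) (nat_lit 312) (nat_lit 223)) (XT.nd (nat_lit 78) (nat_lit 0) (nat_lit 0) (XT.lf (nat_lit 0) (nat_lit 13649391354) (nat_lit 228) (nat_lit 24398442084) (nat_lit 76) (nat_lit 239685366) (nat_lit 25) (nat_lit 5) (nat_lit 28) (nat_lit 5) (nat_lit 26) (nat_lit 4) (nat_lit 366) (nat_lit 312) (nat_lit 222)) (XT.lf (nat_lit 0) (nat_lit 21738595773) (nat_lit 228) (nat_lit 7846856855) (nat_lit 76) (nat_lit 10115575377) (nat_lit 25) (nat_lit 5) (nat_lit 28) (nat_lit 5) (nat_lit 26) (nat_lit 4) (nat_lit 367) (nat_lit 312) (nat_lit 221))))))) (XT.nd (nat_lit 858) (nat_lit 380) (nat_lit 0) (XT.nd (nat_lit 390) (nat_lit 304) (nat_lit 0) (XT.nd (nat_lit 156) (nat_lit 228) (nat_lit 0) (XT.nd (nat_lit 78) (nat_lit 0) (nat_lit 0) (XT.lf (nat_lit 0) (nat_lit 9826893426)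 (nat_lit 76) (nat_lit 20547577667) (nat_lit 152) (nat_lit 10803635821) (nat_lit 24) (nat_lit 5) (nat_lit 25) (nat_lit 5) (nat_lit 26) (nat_lit 4) (nat_lit 368) (nat_lit 312) (nat_lit 220)) (XT.lf (nat_lit 0) (nat_lit 28637141757) (nat_lit 76) (nat_lit 10926901866) (nat_lit 152) (nat_lit 3158905527) (nat_lit 24) (nat_lit 5) (nat_lit 25) (nat_lit 5) (nat_lit 26) (nat_lit 4) (nat_lit 369) (nat_lit 312) (nat_lit 219))) (XT.nd (nat_lit 78) (nat_lit 0) (nat_lit 0) (XT.lf (nat_lit 0) (nat_lit 4078361459) (nat_lit 152) (nat_lit 686926689) (nat_lit 228) (nat_lit 39573297513) (nat_lit 21) (nat_lit 5) (nat_lit 23) (nat_lit 5) (nat_lit 24) (nat_lit 5) (nat_lit 370) (nat_lit 312) (nat_lit 218)) (XT.nd (nat_lit 78) (nat_lit 0) (nat_lit 0) (XT.lf (nat_lit 0) (nat_lit 13368580926) (nat_lit 228) (nat_lit 22615274912) (nat_lit 76) (nat_lit 10029110359) (nat_lit 21) (nat_lit 5) (nat_lit 24) (nat_lit 5) (nat_lit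 22) (nat_lit 4) (nat_lit 371) (nat_lit 312) (nat_lit 217)) (XT.lf (nat_lit 0) (nat_lit 22403247193) (nat_lit 228) (nat_lit 4117553541) (nat_lit 76) (nat_lit 21250208330) (nat_lit 21) (nat_lit 5) (nat_lit 24) (nat_lit 5) (nat_lit 22) (nat_lit 4) (nat_lit 372) (nat_lit 312) (nat_lit 216))))) (XT.nd (nat_lit 234) (nat_lit 152) (nat_lit 0) (XT.nd (nat_lit 78) (nat_lit 76) (nat_lit 0) (XT.lf (nat_lit 0) (nat_lit 15793187586) (nat_lit 76) (nat_lit 16333461539) (nat_lit 152) (nat_lit 17478458400) (nat_lit 20) (nat_lit 5) (nat_lit 21) (nat_lit 5) (nat_lit 22) (nat_lit 4) (nat_lit 373) (nat_lit 312) (nat_lit 215)) (XT.nd (nat_lit 78) (nat_lit 76) (nat_lit 0) (XT.lf (nat_lit 0) (nat_lit 36825350778) (nat_lit 76) (nat_lit 5571218990) (nat_lit 152) (nat_lit 9131327107) (nat_lit 20) (nat_lit 5) (nat_lit 21) (nat_lit 5) (nat_lit 22) (nat_lit 4) (nat_lit 374) (nat_lit 312) (nat_lit 214)) (XT.lf (nat_lit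 0) (nat_lit 5430053914) (nat_lit 76) (nat_lit 47915107229) (nat_lit 76) (nat_lit 193409053) (nat_lit 19) (nat_lit 4) (nat_lit 20) (nat_lit 5) (nat_lit 20) (nat_lit 4) (nat_lit 375) (nat_lit 312) (nat_lit 213)))) (XT.nd (nat_lit 78) (nat_lit 76) (nat_lit 0) (XT.lf (nat_lit 0) (nat_lit 9232606794) (nat_lit 152) (nat_lit 28813145254) (nat_lit 76) (nat_lit 17580083677) (nat_lit 18) (nat_lit 5) (nat_lit 20) (nat_lit 5) (nat_lit 19) (nat_lit 4) (nat_lit 376) (nat_lit 312) (nat_lit 212)) (XT.nd (nat_lit 78) (nat_lit 76) (nat_lit 0) (XT.lf (nat_lit 0) (nat_lit 19114829503) (nat_lit 152) (nat_lit 8572008707) (nat_lit 76) (nat_lit 30130900290) (nat_lit 18) (nat_lit 5) (nat_lit 20) (nat_lit 5) (nat_lit 19) (nat_lit 4) (nat_lit 377) (nat_lit 312) (nat_lit 211)) (XT.lf (nat_lit 0) (nat_lit 13084904873) (nat_lit 76) (nat_lit 16602365636) (nat_lit 152) (nat_lit 30422163209) (nat_lit 17) (nat_lit 5) (nat_lit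 18) (nat_lit 5) (nat_lit 19) (nat_lit 4) (nat_lit 378) (nat_lit 312) (nat_lit 210)))))) (XT.nd (nat_lit 468) (nat_lit 152) (nat_lit 0) (XT.nd (nat_lit 234) (nat_lit 152) (nat_lit 0) (XT.nd (nat_lit 78) (nat_lit 76) (nat_lit 0) (XT.lf (nat_lit 0) (nat_lit 36107429653) (nat_lit 76) (nat_lit 4818048290) (nat_lit 152) (nat_lit 21583381071) (nat_lit 17) (nat_lit 5) (nat_lit 18) (nat_lit 5) (nat_lit 19) (nat_lit 4) (nat_lit 379) (nat_lit 312) (nat_lit 209)) (XT.nd (nat_lit 78) (nat_lit 76) (nat_lit 0) (XT.lf (nat_lit 0) (nat_lit 52835812293) (nat_lit 152) (nat_lit 4879549425) (nat_lit 0) (nat_lit 7307385445) (nat_lit 17) (nat_lit 5) (nat_lit 19) (nat_lit 4) (nat_lit 17) (nat_lit 4) (nat_lit 380) (nat_lit 312) (nat_lit 208)) (XT.lf (nat_lit 0) (nat_lit 18208499890) (nat_lit 76) (nat_lit 47489056673) (nat_lit 76) (nat_lit 1946980795) (nat_lit 16) (nat_lit 4) (nat_lit 17) (nat_lit 5) (nat_lit 17)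 (nat_lit 4) (nat_lit 381) (nat_lit 312) (nat_lit 207)))) (XT.nd (nat_lit 78) (nat_lit 76) (nat_lit 0) (XT.lf (nat_lit 0) (nat_lit 8599791950) (nat_lit 152) (nat_lit 27925501458) (nat_lit 76) (nat_lit 33861420477) (nat_lit 15) (nat_lit 5) (nat_lit 17) (nat_lit 5) (nat_lit 16) (nat_lit 4) (nat_lit 382) (nat_lit 312) (nat_lit 206)) (XT.nd (nat_lit 78) (nat_lit 76) (nat_lit 0) (XT.lf (nat_lit 0) (nat_lit 19601465135) (nat_lit 152) (nat_lit 5384451502) (nat_lit 76) (nat_lit 48278839045) (nat_lit 15) (nat_lit 5) (nat_lit 17) (nat_lit 5) (nat_lit 16) (nat_lit 4) (nat_lit 383) (nat_lit 312) (nat_lit 205)) (XT.lf (nat_lit 0) (nat_lit 18875307098) (nat_lit 76) (nat_lit 12565938108) (nat_lit 152) (nat_lit 44831055093) (nat_lit 14) (nat_lit 5) (nat_lit 15) (nat_lit 5) (nat_lit 16) (nat_lit 4) (nat_lit 384) (nat_lit 312) (nat_lit 204))))) (XT.nd (nat_lit 234) (nat_lit 76) (nat_lit 0) (XT.nd (nat_lit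 78) (nat_lit 76) (nat_lit 0) (XT.lf (nat_lit 0) (nat_lit 43966477783) (nat_lit 152) (nat_lit 34912094893) (nat_lit 0) (nat_lit 546978100) (nat_lit 14) (nat_lit 5) (nat_lit 16) (nat_lit 4) (nat_lit 14) (nat_lit 4) (nat_lit 385) (nat_lit 312) (nat_lit 203)) (XT.nd (nat_lit 78) (nat_lit 76) (nat_lit 0) (XT.lf (nat_lit 0) (nat_lit 57317650616) (nat_lit 152) (nat_lit 11520865129) (nat_lit 0) (nat_lit 13887965815) (nat_lit 14) (nat_lit 5) (nat_lit 16) (nat_lit 4) (nat_lit 14) (nat_lit 4) (nat_lit 386) (nat_lit 312) (nat_lit 202)) (XT.lf (nat_lit 0) (nat_lit 13459362662) (nat_lit 76) (nat_lit 58081138410) (nat_lit 76) (nat_lit 14641753497) (nat_lit 13) (nat_lit 4) (nat_lit 14) (nat_lit 5) (nat_lit 14) (nat_lit 4) (nat_lit 387) (nat_lit 312) (nat_lit 201)))) (XT.nd (nat_lit 78) (nat_lit 76) (nat_lit 0) (XT.lf (nat_lit 0) (nat_lit 40077416165) (nat_lit 76) (nat_lit 46586282258) (nat_lit 76) (nat_lit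 3137659144) (nat_lit 13) (nat_lit 4) (nat_lit 14) (nat_lit 5) (nat_lit 14) (nat_lit 4) (nat_lit 388) (nat_lit 312) (nat_lit 200)) (XT.nd (nat_lit 78) (nat_lit 0) (nat_lit 0) (XT.lf (nat_lit 0) (nat_lit 8649732181) (nat_lit 152) (nat_lit 25725470429) (nat_lit 76) (nat_lit 59219520285) (nat_lit 12) (nat_lit 5) (nat_lit 14) (nat_lit 5) (nat_lit 13) (nat_lit 4) (nat_lit 389) (nat_lit 312) (nat_lit 199)) (XT.lf (nat_lit 0) (nat_lit 20915600078) (nat_lit 152) (nat_lit 588820562) (nat_lit 76) (nat_lit 76071037696) (nat_lit 12) (nat_lit 5) (nat_lit 14) (nat_lit 5) (nat_lit 13) (nat_lit 4) (nat_lit 390) (nat_lit 312) (nat_lit 198))))))))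
noncomputable def xc135 : XT := (XT.nd (nat_lit 1716) (nat_lit 76) (nat_lit 0) (XT.nd (nat_lit 858) (nat_lit 228) (nat_lit 0) (XT.nd (nat_lit 390) (nat_lit 152) (nat_lit 0) (XT.nd (nat_lit 156) (nat_lit 76) (nat_lit 0) (XT.nd (nat_lit 78) (nat_lit 0) (nat_lit 0) (XT.lf (nat_lit 0) (nat_lit 26647739087) (nat_lit 76) (nat_lit 7557880481) (nat_lit 152) (nat_lit 67529069351) (nat_lit 11) (nat_lit 5) (nat_lit 12) (nat_lit 5) (nat_lit 13) (nat_lit 4) (nat_lit 391) (nat_lit 312) (nat_lit 197)) (XT.lf (nat_lit 0) (nat_lit 48275744826) (nat_lit 152) (nat_lit 50955451713) (nat_lit 0) (nat_lit 6864905473) (nat_lit 11) (nat_lit 5) (nat_lit 13) (nat_lit 4) (nat_lit 11) (nat_lit 4) (nat_lit 392) (nat_lit 312) (nat_lit 196))) (XT.nd (nat_lit 78) (nat_lit 76) (nat_lit 0) (XT.lf (nat_lit 0) (nat_lit 63168359116) (nat_lit 152) (nat_lit 25750652590) (nat_lit 0) (nat_lit 21750626076) (nat_lit 11) (nat_lit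 5) (nat_lit 13) (nat_lit 4) (nat_lit 11) (nat_lit 4) (nat_lit 393) (nat_lit 312) (nat_lit 195)) (XT.nd (nat_lit 78) (nat_lit 0) (nat_lit 0) (XT.lf (nat_lit 0) (nat_lit 728784306) (nat_lit 76) (nat_lit 78083515410) (nat_lit 76) (nat_lit 36659216952) (nat_lit 10) (nat_lit 4) (nat_lit 11) (nat_lit 5) (nat_lit 11) (nat_lit 4) (nat_lit 394) (nat_lit 312) (nat_lit 194)) (XT.lf (nat_lit 0) (nat_lit 29417413727) (nat_lit 76) (nat_lit 66252526460) (nat_lit 76) (nat_lit 24821975223) (nat_lit 10) (nat_lit 4) (nat_lit 11) (nat_lit 5) (nat_lit 11) (nat_lit 4) (nat_lit 395) (nat_lit 312) (nat_lit 193))))) (XT.nd (nat_lit 234) (nat_lit 76) (nat_lit 0) (XT.nd (nat_lit 78) (nat_lit 76) (nat_lit 0) (XT.lf (nat_lit 0) (nat_lit 59532109062) (nat_lit 76) (nat_lit 53833975597) (nat_lit 76) (nat_lit 12397469334) (nat_lit 10) (nat_lit 4) (nat_lit 11) (nat_lit 5) (nat_lit 11) (nat_lit 4) (nat_lit 396) (nat_lit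 312) (nat_lit 192)) (XT.nd (nat_lit 78) (nat_lit 0) (nat_lit 0) (XT.lf (nat_lit 0) (nat_lit 623274600) (nat_lit 152) (nat_lit 40164464786) (nat_lit 76) (nat_lit 90510741911) (nat_lit 9) (nat_lit 5) (nat_lit 11) (nat_lit 5) (nat_lit 10) (nat_lit 4) (nat_lit 397) (nat_lit 312) (nat_lit 191)) (XT.lf (nat_lit 0) (nat_lit 13874382494) (nat_lit 152) (nat_lit 13005094988) (nat_lit 76) (nat_lit 110220718339) (nat_lit 9) (nat_lit 5) (nat_lit 11) (nat_lit 5) (nat_lit 10) (nat_lit 4) (nat_lit 398) (nat_lit 312) (nat_lit 190)))) (XT.nd (nat_lit 78) (nat_lit 0) (nat_lit 0) (XT.lf (nat_lit 0) (nat_lit 16017550514) (nat_lit 76) (nat_lit 12016729384) (nat_lit 152) (nat_lit 115145405294) (nat_lit 8) (nat_lit 5) (nat_lit 9) (nat_lit 5) (nat_lit 10) (nat_lit 4) (nat_lit 399) (nat_lit 312) (nat_lit 189)) (XT.nd (nat_lit 78) (nat_lit 0) (nat_lit 0) (XT.lf (nat_lit 0) (nat_lit 43178238489) (nat_lit 152) (nat_lit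 102676319521) (nat_lit 0) (nat_lit 3694788493) (nat_lit 8) (nat_lit 5) (nat_lit 10) (nat_lit 4) (nat_lit 8) (nat_lit 4) (nat_lit 400) (nat_lit 312) (nat_lit 188)) (XT.lf (nat_lit 0) (nat_lit 59272744225) (nat_lit 152) (nat_lit 77170229444) (nat_lit 0) (nat_lit 19784850497) (nat_lit 8) (nat_lit 5) (nat_lit 10) (nat_lit 4) (nat_lit 8) (nat_lit 4) (nat_lit 401) (nat_lit 312) (nat_lit 187)))))) (XT.nd (nat_lit 390) (nat_lit 152) (nat_lit 0) (XT.nd (nat_lit 156) (nat_lit 76) (nat_lit 0) (XT.nd (nat_lit 78) (nat_lit 0) (nat_lit 0) (XT.lf (nat_lit 0) (nat_lit 76168502537) (nat_lit 152) (nat_lit 50395520842) (nat_lit 0) (nat_lit 36676376682) (nat_lit 8) (nat_lit 5) (nat_lit 10) (nat_lit 4) (nat_lit 8) (nat_lit 4) (nat_lit 402) (nat_lit 312) (nat_lit 186)) (XT.lf (nat_lit 0) (nat_lit 93905741421) (nat_lit 152) (nat_lit 22288444407) (nat_lit 0) (nat_lit 54409584970) (nat_lit 8) (nat_lit 5) (nat_lit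 10) (nat_lit 4) (nat_lit 8) (nat_lit 4) (nat_lit 403) (nat_lit 312) (nat_lit 185))) (XT.nd (nat_lit 78) (nat_lit 0) (nat_lit 0) (XT.lf (nat_lit 0) (nat_lit 7456578551) (nat_lit 76) (nat_lit 105186531935) (nat_lit 76) (nat_lit 65686536820) (nat_lit 7) (nat_lit 4) (nat_lit 8) (nat_lit 5) (nat_lit 8) (nat_lit 4) (nat_lit 404) (nat_lit 312) (nat_lit 184)) (XT.nd (nat_lit 78) (nat_lit 0) (nat_lit 0) (XT.lf (nat_lit 0) (nat_lit 39456690553) (nat_lit 76) (nat_lit 93235030029) (nat_lit 76) (nat_lit 53731379044) (nat_lit 7) (nat_lit 4) (nat_lit 8) (nat_lit 5) (nat_lit 8) (nat_lit 4) (nat_lit 405) (nat_lit 312) (nat_lit 183)) (XT.lf (nat_lit 0) (nat_lit 73051125711) (nat_lit 76) (nat_lit 80688689745) (nat_lit 76) (nat_lit 41181556979) (nat_lit 7) (nat_lit 4) (nat_lit 8) (nat_lit 5) (nat_lit 8) (nat_lit 4) (nat_lit 406) (nat_lit 312) (nat_lit 182))))) (XT.nd (nat_lit 234) (nat_lit 76) (nat_lit 0)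 (XT.nd (nat_lit 78) (nat_lit 76) (nat_lit 0) (XT.lf (nat_lit 0) (nat_lit 108319870776) (nat_lit 76) (nat_lit 67517638845) (nat_lit 76) (nat_lit 28007190097) (nat_lit 7) (nat_lit 4) (nat_lit 8) (nat_lit 5) (nat_lit 8) (nat_lit 4) (nat_lit 407) (nat_lit 312) (nat_lit 181)) (XT.nd (nat_lit 78) (nat_lit 76) (nat_lit 0) (XT.lf (nat_lit 0) (nat_lit 145346898950) (nat_lit 76) (nat_lit 53690517682) (nat_lit 76) (nat_lit 14176910856) (nat_lit 7) (nat_lit 4) (nat_lit 8) (nat_lit 5) (nat_lit 8) (nat_lit 4) (nat_lit 408) (nat_lit 312) (nat_lit 180)) (XT.lf (nat_lit 0) (nat_lit 331257121) (nat_lit 152) (nat_lit 38837537419) (nat_lit 76) (nat_lit 183883502703) (nat_lit 6) (nat_lit 5) (nat_lit 8) (nat_lit 5) (nat_lit 7) (nat_lit 4) (nat_lit 409) (nat_lit 312) (nat_lit 179)))) (XT.nd (nat_lit 78) (nat_lit 76) (nat_lit 0) (XT.lf (nat_lit 0) (nat_lit 15085932678) (nat_lit 152) (nat_lit 8593316999) (nat_lit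 76) (nat_lit 209691419033) (nat_lit 6) (nat_lit 5) (nat_lit 8) (nat_lit 5) (nat_lit 7) (nat_lit 4) (nat_lit 410) (nat_lit 312) (nat_lit 178)) (XT.nd (nat_lit 78) (nat_lit 0) (nat_lit 0) (XT.lf (nat_lit 0) (nat_lit 23924311457) (nat_lit 76) (nat_lit 7025209768) (nat_lit 152) (nat_lit 213236879001) (nat_lit 5) (nat_lit 5) (nat_lit 6) (nat_lit 5) (nat_lit 7) (nat_lit 4) (nat_lit 411) (nat_lit 312) (nat_lit 177)) (XT.lf (nat_lit 0) (nat_lit 47915202976) (nat_lit 152) (nat_lit 197339738729) (nat_lit 0) (nat_lit 10272531343) (nat_lit 5) (nat_lit 5) (nat_lit 7) (nat_lit 4) (nat_lit 5) (nat_lit 4) (nat_lit 412) (nat_lit 312) (nat_lit 176))))))) (XT.nd (nat_lit 858) (nat_lit 0) (nat_lit 0) (XT.nd (nat_lit 390) (nat_lit 76) (nat_lit 0) (XT.nd (nat_lit 156) (nat_lit 0) (nat_lit 0) (XT.nd (nat_lit 78) (nat_lit 0) (nat_lit 0) (XT.lf (nat_lit 0) (nat_lit 65842109698) (nat_lit 152) (nat_lit 173390761704)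 (nat_lit 0) (nat_lit 28197081459) (nat_lit 5) (nat_lit 5) (nat_lit 7) (nat_lit 4) (nat_lit 5) (nat_lit 4) (nat_lit 413) (nat_lit 312) (nat_lit 175)) (XT.lf (nat_lit 0) (nat_lit 84663241292) (nat_lit 152) (nat_lit 148248453109) (nat_lit 0) (nat_lit 47015968666) (nat_lit 5) (nat_lit 5) (nat_lit 7) (nat_lit 4) (nat_lit 5) (nat_lit 4) (nat_lit 414) (nat_lit 312) (nat_lit 174))) (XT.nd (nat_lit 78) (nat_lit 0) (nat_lit 0) (XT.lf (nat_lit 0) (nat_lit 104423409976) (nat_lit 152) (nat_lit 121852950305) (nat_lit 0) (nat_lit 66773999838) (nat_lit 5) (nat_lit 5) (nat_lit 7) (nat_lit 4) (nat_lit 5) (nat_lit 4) (nat_lit 415) (nat_lit 312) (nat_lit 173)) (XT.nd (nat_lit 78) (nat_lit 0) (nat_lit 0) (XT.lf (nat_lit 0) (nat_lit 125169663770) (nat_lit 152) (nat_lit 94141406856) (nat_lit 0) (nat_lit 87518217907) (nat_lit 5) (nat_lit 5) (nat_lit 7) (nat_lit 4) (nat_lit 5) (nat_lit 4) (nat_lit 416) (nat_lit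 312) (nat_lit 172)) (XT.lf (nat_lit 0) (nat_lit 146951398517) (nat_lit 152) (nat_lit 65047842896) (nat_lit 0) (nat_lit 109298013868) (nat_lit 5) (nat_lit 5) (nat_lit 7) (nat_lit 4) (nat_lit 5) (nat_lit 4) (nat_lit 417) (nat_lit 312) (nat_lit 171))))) (XT.nd (nat_lit 234) (nat_lit 0) (nat_lit 0) (XT.nd (nat_lit 78) (nat_lit 76) (nat_lit 0) (XT.lf (nat_lit 0) (nat_lit 169820475489) (nat_lit 152) (nat_lit 34502988036) (nat_lit 0) (nat_lit 132165244377) (nat_lit 5) (nat_lit 5) (nat_lit 7) (nat_lit 4) (nat_lit 5) (nat_lit 4) (nat_lit 418) (nat_lit 312) (nat_lit 170)) (XT.nd (nat_lit 78) (nat_lit 76) (nat_lit 0) (XT.lf (nat_lit 0) (nat_lit 193831344871) (nat_lit 152) (nat_lit 2434116430) (nat_lit 0) (nat_lit 156174355223) (nat_lit 5) (nat_lit 5) (nat_lit 7) (nat_lit 4) (nat_lit 5) (nat_lit 4) (nat_lit 419) (nat_lit 312) (nat_lit 169)) (XT.lf (nat_lit 0) (nat_lit 32267900717) (nat_lit 76) (nat_lit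 187277067042) (nat_lit 76) (nat_lit 149618402597) (nat_lit 4) (nat_lit 4) (nat_lit 5) (nat_lit 5) (nat_lit 5) (nat_lit 4) (nat_lit 420) (nat_lit 312) (nat_lit 168)))) (XT.nd (nat_lit 78) (nat_lit 0) (nat_lit 0) (XT.lf (nat_lit 0) (nat_lit 68786502924) (nat_lit 76) (nat_lit 177797437637) (nat_lit 76) (nat_lit 140137178149) (nat_lit 4) (nat_lit 4) (nat_lit 5) (nat_lit 5) (nat_lit 5) (nat_lit 4) (nat_lit 421) (nat_lit 312) (nat_lit 167)) (XT.nd (nat_lit 78) (nat_lit 0) (nat_lit 0) (XT.lf (nat_lit 0) (nat_lit 107128156362) (nat_lit 76) (nat_lit 167845225481) (nat_lit 76) (nat_lit 130183446904) (nat_lit 4) (nat_lit 4) (nat_lit 5) (nat_lit 5) (nat_lit 5) (nat_lit 4) (nat_lit 422) (nat_lit 312) (nat_lit 166)) (XT.lf (nat_lit 0) (nat_lit 147384150681) (nat_lit 76) (nat_lit 157396734831) (nat_lit 76) (nat_lit 119733509501) (nat_lit 4) (nat_lit 4) (nat_lit 5) (nat_lit 5) (nat_lit 5) (nat_lit 4) (nat_lit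 423) (nat_lit 312) (nat_lit 165)))))) (XT.nd (nat_lit 468) (nat_lit 0) (nat_lit 0) (XT.nd (nat_lit 234) (nat_lit 0) (nat_lit 0) (XT.nd (nat_lit 78) (nat_lit 0) (nat_lit 0) (XT.lf (nat_lit 0) (nat_lit 189650333486) (nat_lit 76) (nat_lit 146427088327) (nat_lit 76) (nat_lit 108762485138) (nat_lit 4) (nat_lit 4) (nat_lit 5) (nat_lit 5) (nat_lit 5) (nat_lit 4) (nat_lit 424) (nat_lit 312) (nat_lit 164)) (XT.nd (nat_lit 78) (nat_lit 0) (nat_lit 0) (XT.lf (nat_lit 0) (nat_lit 234027338548) (nat_lit 76) (nat_lit 134910167763) (nat_lit 76) (nat_lit 97244252328) (nat_lit 4) (nat_lit 4) (nat_lit 5) (nat_lit 5) (nat_lit 5) (nat_lit 4) (nat_lit 425) (nat_lit 312) (nat_lit 163)) (XT.lf (nat_lit 0) (nat_lit 280620825400) (nat_lit 76) (nat_lit 122818551901) (nat_lit 76) (nat_lit 85151386707) (nat_lit 4) (nat_lit 4) (nat_lit 5) (nat_lit 5) (nat_lit 5) (nat_lit 4) (nat_lit 426) (nat_lit 312) (nat_lit 162))))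 (XT.nd (nat_lit 78) (nat_lit 0) (nat_lit 0) (XT.lf (nat_lit 0) (nat_lit 329541730918) (nat_lit 76) (nat_lit 110123451178) (nat_lit 76) (nat_lit 72455095738) (nat_lit 4) (nat_lit 4) (nat_lit 5) (nat_lit 5) (nat_lit 5) (nat_lit 4) (nat_lit 427) (nat_lit 312) (nat_lit 161)) (XT.nd (nat_lit 78) (nat_lit 0) (nat_lit 0) (XT.lf (nat_lit 0) (nat_lit 380906533447) (nat_lit 76) (nat_lit 96794639164) (nat_lit 76) (nat_lit 59125150156) (nat_lit 4) (nat_lit 4) (nat_lit 5) (nat_lit 5) (nat_lit 5) (nat_lit 4) (nat_lit 428) (nat_lit 312) (nat_lit 160)) (XT.lf (nat_lit 0) (nat_lit 434837530136) (nat_lit 76) (nat_lit 82800380594) (nat_lit 76) (nat_lit 45129811997) (nat_lit 4) (nat_lit 4) (nat_lit 5) (nat_lit 5) (nat_lit 5) (nat_lit 4) (nat_lit 429) (nat_lit 312) (nat_lit 159))))) (XT.nd (nat_lit 37908) (nat_lit 0) (nat_lit 8588) (XT.nd (nat_lit 37752) (nat_lit 0) (nat_lit 8512) (XT.lf (nat_lit 0) (nat_lit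 491463128120) (nat_lit 76) (nat_lit 68107355802) (nat_lit 76) (nat_lit 30435759025) (nat_lit 4) (nat_lit 4) (nat_lit 5) (nat_lit 5) (nat_lit 5) (nat_lit 4) (nat_lit 430) (nat_lit 312) (nat_lit 158)) (XT.nd (nat_lit 78) (nat_lit 0) (nat_lit 0) (XT.lf (nat_lit 0) (nat_lit 974923852) (nat_lit 684) (nat_lit 1617768910) (nat_lit 684) (nat_lit 1617768910) (nat_lit 116) (nat_lit 3) (nat_lit 125) (nat_lit 3) (nat_lit 125) (nat_lit 5) (nat_lit 313) (nat_lit 313) (nat_lit 274)) (XT.lf (nat_lit 76) (nat_lit 758248751) (nat_lit 0) (nat_lit 2264798720) (nat_lit 684) (nat_lit 5555711302) (nat_lit 117) (nat_lit 5) (nat_lit 116) (nat_lit 3) (nat_lit 125) (nat_lit 5) (nat_lit 314) (nat_lit 313) (nat_lit 273)))) (XT.nd (nat_lit 78) (nat_lit 0) (nat_lit 0) (XT.lf (nat_lit 0) (nat_lit 4153220839) (nat_lit 608) (nat_lit 3730145263) (nat_lit 684) (nat_lit 861047964) (nat_lit 117) (nat_lit 5) (nat_lit 125) (nat_lit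 5) (nat_lit 126) (nat_lit 5) (nat_lit 315) (nat_lit 313) (nat_lit 272)) (XT.nd (nat_lit 78) (nat_lit 0) (nat_lit 0) (XT.lf (nat_lit 76) (nat_lit 506647306) (nat_lit 0) (nat_lit 4816485327) (nat_lit 684) (nat_lit 3596147315) (nat_lit 118) (nat_lit 5) (nat_lit 117) (nat_lit 5) (nat_lit 126) (nat_lit 5) (nat_lit 316) (nat_lit 313) (nat_lit 271)) (XT.lf (nat_lit 76) (nat_lit 5048202922) (nat_lit 0) (nat_lit 1507072791) (nat_lit 684) (nat_lit 2547511685) (nat_lit 118) (nat_lit 5) (nat_lit 117) (nat_lit 5) (nat_lit 126) (nat_lit 5) (nat_lit 317) (nat_lit 313) (nat_lit 270))))))))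
noncomputable def xc136 : XT := (XT.nd (nat_lit 1716) (nat_lit 2432) (nat_lit 0) (XT.nd (nat_lit 858) (nat_lit 1900) (nat_lit 0) (XT.nd (nat_lit 390) (nat_lit 1748) (nat_lit 0) (XT.nd (nat_lit 156) (nat_lit 684) (nat_lit 0) (XT.nd (nat_lit 78) (nat_lit 0) (nat_lit 0) (XT.lf (nat_lit 76) (nat_lit 467518444) (nat_lit 0) (nat_lit 7363263854) (nat_lit 684) (nat_lit 1465681111) (nat_lit 119) (nat_lit 5) (nat_lit 118) (nat_lit 5) (nat_lit 127) (nat_lit 5) (nat_lit 318) (nat_lit 313) (nat_lit 269)) (XT.lf (nat_lit 76) (nat_lit 5293495718) (nat_lit 0) (nat_lit 3915370777) (nat_lit 684) (nat_lit 289093765) (nat_lit 119) (nat_lit 5) (nat_lit 118) (nat_lit 5) (nat_lit 127) (nat_lit 5) (nat_lit 319) (nat_lit 313) (nat_lit 268))) (XT.nd (nat_lit 78) (nat_lit 0) (nat_lit 76) (XT.lf (nat_lit 76) (nat_lit 618774291) (nat_lit 0) (nat_lit 254412225) (nat_lit 760) (nat_lit 8837819085) (nat_lit 110) (nat_lit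 5) (nat_lit 109) (nat_lit 5) (nat_lit 119) (nat_lit 5) (nat_lit 320) (nat_lit 313) (nat_lit 267)) (XT.nd (nat_lit 78) (nat_lit 0) (nat_lit 0) (XT.lf (nat_lit 0) (nat_lit 2161910195) (nat_lit 684) (nat_lit 4203648956) (nat_lit 760) (nat_lit 3565071500) (nat_lit 110) (nat_lit 5) (nat_lit 119) (nat_lit 5) (nat_lit 120) (nat_lit 5) (nat_lit 321) (nat_lit 313) (nat_lit 266)) (XT.lf (nat_lit 76) (nat_lit 916722767) (nat_lit 0) (nat_lit 2568858470) (nat_lit 760) (nat_lit 6677193630) (nat_lit 111) (nat_lit 5) (nat_lit 110) (nat_lit 5) (nat_lit 120) (nat_lit 5) (nat_lit 322) (nat_lit 313) (nat_lit 265))))) (XT.nd (nat_lit 234) (nat_lit 1216) (nat_lit 0) (XT.nd (nat_lit 78) (nat_lit 684) (nat_lit 0) (XT.lf (nat_lit 0) (nat_lit 4923800690) (nat_lit 684) (nat_lit 4026928984) (nat_lit 76) (nat_lit 1453438826) (nat_lit 111) (nat_lit 5) (nat_lit 120) (nat_lit 5) (nat_lit 112) (nat_lit 5) (nat_lit 323)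 (nat_lit 313) (nat_lit 264)) (XT.nd (nat_lit 78) (nat_lit 0) (nat_lit 0) (XT.lf (nat_lit 0) (nat_lit 1418618178) (nat_lit 684) (nat_lit 5035643548) (nat_lit 760) (nat_lit 4202411130) (nat_lit 102) (nat_lit 5) (nat_lit 111) (nat_lit 5) (nat_lit 112) (nat_lit 5) (nat_lit 324) (nat_lit 313) (nat_lit 263)) (XT.lf (nat_lit 0) (nat_lit 7239034336) (nat_lit 684) (nat_lit 847989949) (nat_lit 760) (nat_lit 2833544051) (nat_lit 102) (nat_lit 5) (nat_lit 111) (nat_lit 5) (nat_lit 112) (nat_lit 5) (nat_lit 325) (nat_lit 313) (nat_lit 262)))) (XT.nd (nat_lit 78) (nat_lit 456) (nat_lit 0) (XT.lf (nat_lit 0) (nat_lit 2127917053) (nat_lit 760) (nat_lit 7721819081) (nat_lit 836) (nat_lit 1345559116) (nat_lit 92) (nat_lit 5) (nat_lit 102) (nat_lit 5) (nat_lit 103) (nat_lit 5) (nat_lit 326) (nat_lit 313) (nat_lit 261)) (XT.nd (nat_lit 78) (nat_lit 380) (nat_lit 0) (XT.lf (nat_lit 0) (nat_lit 247490814) (nat_lit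 836) (nat_lit 3181639040) (nat_lit 76) (nat_lit 8052626481) (nat_lit 91) (nat_lit 5) (nat_lit 102) (nat_lit 5) (nat_lit 92) (nat_lit 5) (nat_lit 327) (nat_lit 313) (nat_lit 260)) (XT.lf (nat_lit 0) (nat_lit 1902604394) (nat_lit 456) (nat_lit 8761979240) (nat_lit 76) (nat_lit 1115517493) (nat_lit 86) (nat_lit 5) (nat_lit 92) (nat_lit 5) (nat_lit 87) (nat_lit 5) (nat_lit 328) (nat_lit 313) (nat_lit 259)))))) (XT.nd (nat_lit 390) (nat_lit 1216) (nat_lit 0) (XT.nd (nat_lit 156) (nat_lit 380) (nat_lit 0) (XT.nd (nat_lit 78) (nat_lit 304) (nat_lit 0) (XT.lf (nat_lit 0) (nat_lit 3714924577) (nat_lit 456) (nat_lit 2547246296) (nat_lit 76) (nat_lit 5827512701) (nat_lit 86) (nat_lit 5) (nat_lit 92) (nat_lit 5) (nat_lit 87) (nat_lit 5) (nat_lit 329) (nat_lit 313) (nat_lit 258)) (XT.lf (nat_lit 0) (nat_lit 4072562255) (nat_lit 304) (nat_lit 1574091919) (nat_lit 380) (nat_lit 6766692212) (nat_lit 82)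 (nat_lit 5) (nat_lit 86) (nat_lit 5) (nat_lit 87) (nat_lit 5) (nat_lit 330) (nat_lit 313) (nat_lit 257))) (XT.nd (nat_lit 78) (nat_lit 380) (nat_lit 0) (XT.lf (nat_lit 0) (nat_lit 7737379759) (nat_lit 380) (nat_lit 1729348315) (nat_lit 76) (nat_lit 3283382756) (nat_lit 82) (nat_lit 5) (nat_lit 87) (nat_lit 5) (nat_lit 83) (nat_lit 5) (nat_lit 331) (nat_lit 313) (nat_lit 256)) (XT.nd (nat_lit 78) (nat_lit 0) (nat_lit 0) (XT.lf (nat_lit 0) (nat_lit 5321830281) (nat_lit 380) (nat_lit 4687595952) (nat_lit 456) (nat_lit 3090485145) (nat_lit 77) (nat_lit 5) (nat_lit 82) (nat_lit 5) (nat_lit 83) (nat_lit 5) (nat_lit 332) (nat_lit 313) (nat_lit 255)) (XT.lf (nat_lit 0) (nat_lit 12398822263) (nat_lit 456) (nat_lit 722090824) (nat_lit 76) (nat_lit 346136847) (nat_lit 77) (nat_lit 5) (nat_lit 83) (nat_lit 5) (nat_lit 78) (nat_lit 5) (nat_lit 333) (nat_lit 313) (nat_lit 254))))) (XT.nd (nat_lit 234)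 (nat_lit 532) (nat_lit 0) (XT.nd (nat_lit 78) (nat_lit 304) (nat_lit 0) (XT.lf (nat_lit 0) (nat_lit 1177053532) (nat_lit 380) (nat_lit 7071233205) (nat_lit 76) (nat_lit 5595682951) (nat_lit 72) (nat_lit 5) (nat_lit 77) (nat_lit 5) (nat_lit 73) (nat_lit 5) (nat_lit 334) (nat_lit 313) (nat_lit 253)) (XT.nd (nat_lit 78) (nat_lit 0) (nat_lit 0) (XT.lf (nat_lit 0) (nat_lit 387921556) (nat_lit 304) (nat_lit 3099947723) (nat_lit 380) (nat_lit 10751562589) (nat_lit 68) (nat_lit 5) (nat_lit 72) (nat_lit 5) (nat_lit 73) (nat_lit 5) (nat_lit 335) (nat_lit 313) (nat_lit 252)) (XT.lf (nat_lit 0) (nat_lit 6043391902) (nat_lit 380) (nat_lit 6256937047) (nat_lit 76) (nat_lit 2347908981) (nat_lit 68) (nat_lit 5) (nat_lit 73) (nat_lit 5) (nat_lit 69) (nat_lit 5) (nat_lit 336) (nat_lit 313) (nat_lit 251)))) (XT.nd (nat_lit 78) (nat_lit 304) (nat_lit 0) (XT.lf (nat_lit 0) (nat_lit 1686401826) (nat_lit 228)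 (nat_lit 7090244731) (nat_lit 304) (nat_lit 6298367635) (nat_lit 65) (nat_lit 5) (nat_lit 68) (nat_lit 5) (nat_lit 69) (nat_lit 5) (nat_lit 337) (nat_lit 313) (nat_lit 250)) (XT.nd (nat_lit 78) (nat_lit 304) (nat_lit 0) (XT.lf (nat_lit 0) (nat_lit 10210565054) (nat_lit 228) (nat_lit 1515541539) (nat_lit 304) (nat_lit 3793071915) (nat_lit 65) (nat_lit 5) (nat_lit 68) (nat_lit 5) (nat_lit 69) (nat_lit 5) (nat_lit 338) (nat_lit 313) (nat_lit 249)) (XT.lf (nat_lit 0) (nat_lit 3176168108) (nat_lit 304) (nat_lit 11738917418) (nat_lit 380) (nat_lit 1065888339) (nat_lit 61) (nat_lit 5) (nat_lit 65) (nat_lit 5) (nat_lit 66) (nat_lit 5) (nat_lit 339) (nat_lit 313) (nat_lit 248))))))) (XT.nd (nat_lit 858) (nat_lit 988) (nat_lit 0) (XT.nd (nat_lit 390) (nat_lit 912) (nat_lit 0) (XT.nd (nat_lit 156) (nat_lit 228) (nat_lit 0) (XT.nd (nat_lit 78) (nat_lit 228) (nat_lit 0) (XT.lf (nat_lit 0) (nat_lit 1831339348)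 (nat_lit 380) (nat_lit 4279719763) (nat_lit 76) (nat_lit 10348858283) (nat_lit 60) (nat_lit 5) (nat_lit 65) (nat_lit 5) (nat_lit 61) (nat_lit 5) (nat_lit 340) (nat_lit 313) (nat_lit 247)) (XT.lf (nat_lit 0) (nat_lit 4775111196) (nat_lit 228) (nat_lit 113238193) (nat_lit 304) (nat_lit 12071069641) (nat_lit 57) (nat_lit 5) (nat_lit 60) (nat_lit 5) (nat_lit 61) (nat_lit 5) (nat_lit 341) (nat_lit 313) (nat_lit 246))) (XT.nd (nat_lit 78) (nat_lit 228) (nat_lit 0) (XT.lf (nat_lit 0) (nat_lit 8245139620) (nat_lit 304) (nat_lit 3179157306) (nat_lit 76) (nat_lit 6052273001) (nat_lit 57) (nat_lit 5) (nat_lit 61) (nat_lit 5) (nat_lit 58) (nat_lit 5) (nat_lit 342) (nat_lit 313) (nat_lit 245)) (XT.nd (nat_lit 78) (nat_lit 0) (nat_lit 0) (XT.lf (nat_lit 0) (nat_lit 6449970607) (nat_lit 228) (nat_lit 5400171916) (nat_lit 304) (nat_lit 6165436869) (nat_lit 54) (nat_lit 5) (nat_lit 57) (nat_lit 5) (nat_lit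 58) (nat_lit 5) (nat_lit 343) (nat_lit 313) (nat_lit 244)) (XT.lf (nat_lit 0) (nat_lit 15682823332) (nat_lit 304) (nat_lit 1954573598) (nat_lit 76) (nat_lit 941789755) (nat_lit 54) (nat_lit 5) (nat_lit 58) (nat_lit 5) (nat_lit 55) (nat_lit 5) (nat_lit 344) (nat_lit 313) (nat_lit 243))))) (XT.nd (nat_lit 234) (nat_lit 456) (nat_lit 0) (XT.nd (nat_lit 78) (nat_lit 228) (nat_lit 0) (XT.lf (nat_lit 0) (nat_lit 719373965) (nat_lit 228) (nat_lit 10888954103) (nat_lit 76) (nat_lit 7552226189) (nat_lit 51) (nat_lit 5) (nat_lit 54) (nat_lit 5) (nat_lit 52) (nat_lit 5) (nat_lit 345) (nat_lit 313) (nat_lit 242)) (XT.nd (nat_lit 78) (nat_lit 228) (nat_lit 0) (XT.lf (nat_lit 0) (nat_lit 4431681508) (nat_lit 228) (nat_lit 770467388) (nat_lit 76) (nat_lit 14565827428) (nat_lit 51) (nat_lit 5) (nat_lit 54) (nat_lit 5) (nat_lit 52) (nat_lit 5) (nat_lit 346) (nat_lit 313) (nat_lit 241)) (XT.lf (nat_lit 0)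 (nat_lit 8494786108) (nat_lit 304) (nat_lit 10274899114) (nat_lit 76) (nat_lit 1627840606) (nat_lit 48) (nat_lit 5) (nat_lit 52) (nat_lit 5) (nat_lit 49) (nat_lit 5) (nat_lit 347) (nat_lit 313) (nat_lit 240)))) (XT.nd (nat_lit 78) (nat_lit 304) (nat_lit 0) (XT.lf (nat_lit 0) (nat_lit 428460288) (nat_lit 152) (nat_lit 12418620687) (nat_lit 228) (nat_lit 8207184768) (nat_lit 46) (nat_lit 5) (nat_lit 48) (nat_lit 5) (nat_lit 49) (nat_lit 5) (nat_lit 348) (nat_lit 313) (nat_lit 239)) (XT.nd (nat_lit 78) (nat_lit 304) (nat_lit 0) (XT.lf (nat_lit 0) (nat_lit 11995194316) (nat_lit 152) (nat_lit 5577077941) (nat_lit 228) (nat_lit 4163820300) (nat_lit 46) (nat_lit 5) (nat_lit 48) (nat_lit 5) (nat_lit 49) (nat_lit 5) (nat_lit 349) (nat_lit 313) (nat_lit 238)) (XT.lf (nat_lit 0) (nat_lit 113108287) (nat_lit 304) (nat_lit 20762850414) (nat_lit 76) (nat_lit 1574300348) (nat_lit 42) (nat_lit 5) (nat_lit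 46) (nat_lit 5) (nat_lit 43) (nat_lit 5) (nat_lit 350) (nat_lit 313) (nat_lit 237)))))) (XT.nd (nat_lit 468) (nat_lit 456) (nat_lit 0) (XT.nd (nat_lit 234) (nat_lit 380) (nat_lit 0) (XT.nd (nat_lit 78) (nat_lit 152) (nat_lit 0) (XT.lf (nat_lit 0) (nat_lit 4705195373) (nat_lit 304) (nat_lit 9357032546) (nat_lit 76) (nat_lit 9122442874) (nat_lit 42) (nat_lit 5) (nat_lit 46) (nat_lit 5) (nat_lit 43) (nat_lit 5) (nat_lit 351) (nat_lit 313) (nat_lit 236)) (XT.nd (nat_lit 78) (nat_lit 0) (nat_lit 0) (XT.lf (nat_lit 0) (nat_lit 2678058783) (nat_lit 152) (nat_lit 6873635300) (nat_lit 228) (nat_lit 14402880186) (nat_lit 40) (nat_lit 5) (nat_lit 42) (nat_lit 5) (nat_lit 43) (nat_lit 5) (nat_lit 352) (nat_lit 313) (nat_lit 235)) (XT.lf (nat_lit 0) (nat_lit 14795353489) (nat_lit 228) (nat_lit 9155407519) (nat_lit 76) (nat_lit 804481081) (nat_lit 40) (nat_lit 5) (nat_lit 43) (nat_lit 5) (nat_lit 41)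 (nat_lit 5) (nat_lit 353) (nat_lit 313) (nat_lit 234)))) (XT.nd (nat_lit 78) (nat_lit 228) (nat_lit 0) (XT.lf (nat_lit 0) (nat_lit 3546890475) (nat_lit 152) (nat_lit 16906405802) (nat_lit 228) (nat_lit 5135052440) (nat_lit 38) (nat_lit 5) (nat_lit 40) (nat_lit 5) (nat_lit 41) (nat_lit 5) (nat_lit 354) (nat_lit 313) (nat_lit 233)) (XT.nd (nat_lit 78) (nat_lit 152) (nat_lit 0) (XT.lf (nat_lit 0) (nat_lit 74967021) (nat_lit 228) (nat_lit 9280489318) (nat_lit 76) (nat_lit 17100630954) (nat_lit 37) (nat_lit 5) (nat_lit 40) (nat_lit 5) (nat_lit 38) (nat_lit 5) (nat_lit 355) (nat_lit 313) (nat_lit 232)) (XT.lf (nat_lit 0) (nat_lit 4142332410) (nat_lit 152) (nat_lit 1280153027) (nat_lit 228) (nat_lit 21938048846) (nat_lit 35) (nat_lit 5) (nat_lit 37) (nat_lit 5) (nat_lit 38) (nat_lit 5) (nat_lit 356) (nat_lit 313) (nat_lit 231))))) (XT.nd (nat_lit 234) (nat_lit 304) (nat_lit 0) (XT.nd (nat_lit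 78) (nat_lit 152) (nat_lit 0) (XT.lf (nat_lit 0) (nat_lit 11294611265) (nat_lit 228) (nat_lit 9883621748) (nat_lit 76) (nat_lit 7119117622) (nat_lit 35) (nat_lit 5) (nat_lit 38) (nat_lit 5) (nat_lit 36) (nat_lit 5) (nat_lit 357) (nat_lit 313) (nat_lit 230)) (XT.nd (nat_lit 78) (nat_lit 0) (nat_lit 0) (XT.lf (nat_lit 0) (nat_lit 4207759009) (nat_lit 152) (nat_lit 13325065510) (nat_lit 228) (nat_lit 11744567407) (nat_lit 33) (nat_lit 5) (nat_lit 35) (nat_lit 5) (nat_lit 36) (nat_lit 5) (nat_lit 358) (nat_lit 313) (nat_lit 229)) (XT.lf (nat_lit 0) (nat_lit 19323609926) (nat_lit 152) (nat_lit 4912835946) (nat_lit 228) (nat_lit 6062322326) (nat_lit 33) (nat_lit 5) (nat_lit 35) (nat_lit 5) (nat_lit 36) (nat_lit 5) (nat_lit 359) (nat_lit 313) (nat_lit 228)))) (XT.nd (nat_lit 78) (nat_lit 152) (nat_lit 0) (XT.lf (nat_lit 0) (nat_lit 17035968) (nat_lit 152) (nat_lit 27502241355) (nat_lit 76) (nat_lit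 3846521464) (nat_lit 31) (nat_lit 5) (nat_lit 33) (nat_lit 5) (nat_lit 32) (nat_lit 5) (nat_lit 360) (nat_lit 313) (nat_lit 227)) (XT.nd (nat_lit 78) (nat_lit 152) (nat_lit 0) (XT.lf (nat_lit 0) (nat_lit 6452786236) (nat_lit 152) (nat_lit 12857353477) (nat_lit 76) (nat_lit 13158270912) (nat_lit 31) (nat_lit 5) (nat_lit 33) (nat_lit 5) (nat_lit 32) (nat_lit 5) (nat_lit 361) (nat_lit 313) (nat_lit 226)) (XT.lf (nat_lit 0) (nat_lit 2580720819) (nat_lit 152) (nat_lit 10657231566) (nat_lit 228) (nat_lit 20386825658) (nat_lit 29) (nat_lit 5) (nat_lit 31) (nat_lit 5) (nat_lit 32) (nat_lit 5) (nat_lit 362) (nat_lit 313) (nat_lit 225))))))))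
noncomputable def xc137 : XT := (XT.nd (nat_lit 1716) (nat_lit 608) (nat_lit 0) (XT.nd (nat_lit 858) (nat_lit 456) (nat_lit 0) (XT.nd (nat_lit 390) (nat_lit 304) (nat_lit 0) (XT.nd (nat_lit 156) (nat_lit 228) (nat_lit 0) (XT.nd (nat_lit 78) (nat_lit 76) (nat_lit 0) (XT.lf (nat_lit 0) (nat_lit 19215769262) (nat_lit 152) (nat_lit 1351959536) (nat_lit 228) (nat_lit 14260973540) (nat_lit 29) (nat_lit 5) (nat_lit 31) (nat_lit 5) (nat_lit 32) (nat_lit 5) (nat_lit 363) (nat_lit 313) (nat_lit 224)) (XT.lf (nat_lit 0) (nat_lit 452020573) (nat_lit 76) (nat_lit 27938532405) (nat_lit 152) (nat_lit 7695947734) (nat_lit 28) (nat_lit 5) (nat_lit 29) (nat_lit 5) (nat_lit 30) (nat_lit 4) (nat_lit 364) (nat_lit 313) (nat_lit 223))) (XT.nd (nat_lit 78) (nat_lit 228) (nat_lit 0) (XT.lf (nat_lit 0) (nat_lit 17818949762) (nat_lit 76) (nat_lit 19060100587) (nat_lit 152) (nat_lit 514417590) (nat_lit 28) (nat_lit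 5) (nat_lit 29) (nat_lit 5) (nat_lit 30) (nat_lit 4) (nat_lit 365) (nat_lit 313) (nat_lit 222)) (XT.nd (nat_lit 78) (nat_lit 152) (nat_lit 0) (XT.lf (nat_lit 0) (nat_lit 6789989672) (nat_lit 152) (nat_lit 2841085216) (nat_lit 76) (nat_lit 29129794610) (nat_lit 27) (nat_lit 5) (nat_lit 29) (nat_lit 5) (nat_lit 28) (nat_lit 5) (nat_lit 366) (nat_lit 313) (nat_lit 221)) (XT.lf (nat_lit 0) (nat_lit 14676780285) (nat_lit 228) (nat_lit 25005205470) (nat_lit 76) (nat_lit 502515967) (nat_lit 25) (nat_lit 5) (nat_lit 28) (nat_lit 5) (nat_lit 26) (nat_lit 4) (nat_lit 367) (nat_lit 313) (nat_lit 220))))) (XT.nd (nat_lit 234) (nat_lit 228) (nat_lit 0) (XT.nd (nat_lit 78) (nat_lit 76) (nat_lit 0) (XT.lf (nat_lit 0) (nat_lit 23154020193) (nat_lit 228) (nat_lit 7655239014) (nat_lit 76) (nat_lit 10860255415) (nat_lit 25) (nat_lit 5) (nat_lit 28) (nat_lit 5) (nat_lit 26) (nat_lit 4) (nat_lit 368) (nat_lit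 313) (nat_lit 219)) (XT.nd (nat_lit 78) (nat_lit 0) (nat_lit 0) (XT.lf (nat_lit 0) (nat_lit 10892780061) (nat_lit 76) (nat_lit 21322236826) (nat_lit 152) (nat_lit 11005770878) (nat_lit 24) (nat_lit 5) (nat_lit 25) (nat_lit 5) (nat_lit 26) (nat_lit 4) (nat_lit 369) (nat_lit 313) (nat_lit 218)) (XT.lf (nat_lit 0) (nat_lit 30616181667) (nat_lit 76) (nat_lit 11232561507) (nat_lit 152) (nat_lit 2994901532) (nat_lit 24) (nat_lit 5) (nat_lit 25) (nat_lit 5) (nat_lit 26) (nat_lit 4) (nat_lit 370) (nat_lit 313) (nat_lit 217)))) (XT.nd (nat_lit 78) (nat_lit 0) (nat_lit 0) (XT.lf (nat_lit 0) (nat_lit 4830894044) (nat_lit 152) (nat_lit 478028573) (nat_lit 228) (nat_lit 41231208603) (nat_lit 21) (nat_lit 5) (nat_lit 23) (nat_lit 5) (nat_lit 24) (nat_lit 5) (nat_lit 371) (nat_lit 313) (nat_lit 216)) (XT.nd (nat_lit 78) (nat_lit 0) (nat_lit 0) (XT.lf (nat_lit 0) (nat_lit 14331455486) (nat_lit 228) (nat_lit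 23212514363) (nat_lit 76) (nat_lit 10754812647) (nat_lit 21) (nat_lit 5) (nat_lit 24) (nat_lit 5) (nat_lit 22) (nat_lit 4) (nat_lit 372) (nat_lit 313) (nat_lit 215)) (XT.lf (nat_lit 0) (nat_lit 23803833851) (nat_lit 228) (nat_lit 3815312843) (nat_lit 76) (nat_lit 22526287100) (nat_lit 21) (nat_lit 5) (nat_lit 24) (nat_lit 5) (nat_lit 22) (nat_lit 4) (nat_lit 373) (nat_lit 313) (nat_lit 214)))))) (XT.nd (nat_lit 390) (nat_lit 228) (nat_lit 0) (XT.nd (nat_lit 156) (nat_lit 152) (nat_lit 0) (XT.nd (nat_lit 78) (nat_lit 0) (nat_lit 0) (XT.lf (nat_lit 0) (nat_lit 17082769883) (nat_lit 76) (nat_lit 16925087656) (nat_lit 152) (nat_lit 18063662031) (nat_lit 20) (nat_lit 5) (nat_lit 21) (nat_lit 5) (nat_lit 22) (nat_lit 4) (nat_lit 374) (nat_lit 313) (nat_lit 213)) (XT.lf (nat_lit 0) (nat_lit 39142735382) (nat_lit 76) (nat_lit 5635449502) (nat_lit 152) (nat_lit 9312922712) (nat_lit 20) (nat_lit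 5) (nat_lit 21) (nat_lit 5) (nat_lit 22) (nat_lit 4) (nat_lit 375) (nat_lit 313) (nat_lit 212))) (XT.nd (nat_lit 78) (nat_lit 0) (nat_lit 0) (XT.lf (nat_lit 0) (nat_lit 67741830) (nat_lit 152) (nat_lit 50023828904) (nat_lit 76) (nat_lit 6110784448) (nat_lit 18) (nat_lit 5) (nat_lit 20) (nat_lit 5) (nat_lit 19) (nat_lit 4) (nat_lit 376) (nat_lit 313) (nat_lit 211)) (XT.nd (nat_lit 78) (nat_lit 0) (nat_lit 0) (XT.lf (nat_lit 0) (nat_lit 9945971918) (nat_lit 152) (nat_lit 29790047706) (nat_lit 76) (nat_lit 18658439262) (nat_lit 18) (nat_lit 5) (nat_lit 20) (nat_lit 5) (nat_lit 19) (nat_lit 4) (nat_lit 377) (nat_lit 313) (nat_lit 210)) (XT.lf (nat_lit 0) (nat_lit 20310318392) (nat_lit 152) (nat_lit 8558937894) (nat_lit 76) (nat_lit 31827303782) (nat_lit 18) (nat_lit 5) (nat_lit 20) (nat_lit 5) (nat_lit 19) (nat_lit 4) (nat_lit 378) (nat_lit 313) (nat_lit 209))))) (XT.nd (nat_lit 234) (nat_lit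 152) (nat_lit 0) (XT.nd (nat_lit 78) (nat_lit 0) (nat_lit 0) (XT.lf (nat_lit 0) (nat_lit 14173697635) (nat_lit 76) (nat_lit 17233051774) (nat_lit 152) (nat_lit 31696325953) (nat_lit 17) (nat_lit 5) (nat_lit 18) (nat_lit 5) (nat_lit 19) (nat_lit 4) (nat_lit 379) (nat_lit 313) (nat_lit 208)) (XT.nd (nat_lit 78) (nat_lit 0) (nat_lit 0) (XT.lf (nat_lit 0) (nat_lit 38326655915) (nat_lit 76) (nat_lit 4869015330) (nat_lit 152) (nat_lit 22427364013) (nat_lit 17) (nat_lit 5) (nat_lit 18) (nat_lit 5) (nat_lit 19) (nat_lit 4) (nat_lit 380) (nat_lit 313) (nat_lit 207)) (XT.lf (nat_lit 0) (nat_lit 55693683696) (nat_lit 152) (nat_lit 4721473503) (nat_lit 0) (nat_lit 7847855915) (nat_lit 17) (nat_lit 5) (nat_lit 19) (nat_lit 4) (nat_lit 17) (nat_lit 4) (nat_lit 381) (nat_lit 313) (nat_lit 206)))) (XT.nd (nat_lit 78) (nat_lit 76) (nat_lit 0) (XT.lf (nat_lit 0) (nat_lit 19514493545) (nat_lit 76) (nat_lit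 49679908009) (nat_lit 76) (nat_lit 1821700154) (nat_lit 16) (nat_lit 4) (nat_lit 17) (nat_lit 5) (nat_lit 17) (nat_lit 4) (nat_lit 382) (nat_lit 313) (nat_lit 205)) (XT.nd (nat_lit 78) (nat_lit 0) (nat_lit 0) (XT.lf (nat_lit 0) (nat_lit 9235023585) (nat_lit 152) (nat_lit 28938200050) (nat_lit 76) (nat_lit 35722505647) (nat_lit 15) (nat_lit 5) (nat_lit 17) (nat_lit 5) (nat_lit 16) (nat_lit 4) (nat_lit 383) (nat_lit 313) (nat_lit 204)) (XT.lf (nat_lit 0) (nat_lit 20777007000) (nat_lit 152) (nat_lit 5288363142) (nat_lit 76) (nat_lit 50852794470) (nat_lit 15) (nat_lit 5) (nat_lit 17) (nat_lit 5) (nat_lit 16) (nat_lit 4) (nat_lit 384) (nat_lit 313) (nat_lit 203))))))) (XT.nd (nat_lit 858) (nat_lit 228) (nat_lit 0) (XT.nd (nat_lit 390) (nat_lit 228) (nat_lit 0) (XT.nd (nat_lit 156) (nat_lit 76) (nat_lit 0) (XT.nd (nat_lit 78) (nat_lit 0) (nat_lit 0) (XT.lf (nat_lit 0) (nat_lit 20178491276) (nat_lit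 76) (nat_lit 13026588305) (nat_lit 152) (nat_lit 46871194344) (nat_lit 14) (nat_lit 5) (nat_lit 15) (nat_lit 5) (nat_lit 16) (nat_lit 4) (nat_lit 385) (nat_lit 313) (nat_lit 202)) (XT.lf (nat_lit 0) (nat_lit 46349934576) (nat_lit 152) (nat_lit 36308706516) (nat_lit 0) (nat_lit 728880306) (nat_lit 14) (nat_lit 5) (nat_lit 16) (nat_lit 4) (nat_lit 14) (nat_lit 4) (nat_lit 386) (nat_lit 313) (nat_lit 201))) (XT.nd (nat_lit 78) (nat_lit 76) (nat_lit 0) (XT.lf (nat_lit 0) (nat_lit 60359850198) (nat_lit 152) (nat_lit 11764533984) (nat_lit 0) (nat_lit 14729557726) (nat_lit 14) (nat_lit 5) (nat_lit 16) (nat_lit 4) (nat_lit 14) (nat_lit 4) (nat_lit 387) (nat_lit 313) (nat_lit 200)) (XT.nd (nat_lit 78) (nat_lit 0) (nat_lit 0) (XT.lf (nat_lit 0) (nat_lit 14459344320) (nat_lit 76) (nat_lit 60831208405) (nat_lit 76) (nat_lit 15192117646) (nat_lit 13) (nat_lit 4) (nat_lit 14) (nat_lit 5) (nat_lit 14)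 (nat_lit 4) (nat_lit 388) (nat_lit 313) (nat_lit 199)) (XT.lf (nat_lit 0) (nat_lit 42392728425) (nat_lit 76) (nat_lit 48768942156) (nat_lit 76) (nat_lit 3121472076) (nat_lit 13) (nat_lit 4) (nat_lit 14) (nat_lit 5) (nat_lit 14) (nat_lit 4) (nat_lit 389) (nat_lit 313) (nat_lit 198))))) (XT.nd (nat_lit 234) (nat_lit 76) (nat_lit 0) (XT.nd (nat_lit 78) (nat_lit 76) (nat_lit 0) (XT.lf (nat_lit 0) (nat_lit 9241771840) (nat_lit 152) (nat_lit 26709818112) (nat_lit 76) (nat_lit 62314852046) (nat_lit 12) (nat_lit 5) (nat_lit 14) (nat_lit 5) (nat_lit 13) (nat_lit 4) (nat_lit 390) (nat_lit 313) (nat_lit 197)) (XT.nd (nat_lit 78) (nat_lit 76) (nat_lit 0) (XT.lf (nat_lit 0) (nat_lit 22113335368) (nat_lit 152) (nat_lit 330713172) (nat_lit 76) (nat_lit 80002547436) (nat_lit 12) (nat_lit 5) (nat_lit 14) (nat_lit 5) (nat_lit 13) (nat_lit 4) (nat_lit 391) (nat_lit 313) (nat_lit 196)) (XT.lf (nat_lit 0) (nat_lit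 28263036582) (nat_lit 76) (nat_lit 7802000311) (nat_lit 152) (nat_lit 70748893928) (nat_lit 11) (nat_lit 5) (nat_lit 12) (nat_lit 5) (nat_lit 13) (nat_lit 4) (nat_lit 392) (nat_lit 313) (nat_lit 195)))) (XT.nd (nat_lit 78) (nat_lit 76) (nat_lit 0) (XT.lf (nat_lit 0) (nat_lit 50833555816) (nat_lit 152) (nat_lit 53228639066) (nat_lit 0) (nat_lit 7331477018) (nat_lit 11) (nat_lit 5) (nat_lit 13) (nat_lit 4) (nat_lit 11) (nat_lit 4) (nat_lit 393) (nat_lit 313) (nat_lit 194)) (XT.nd (nat_lit 78) (nat_lit 76) (nat_lit 0) (XT.lf (nat_lit 0) (nat_lit 66463942548) (nat_lit 152) (nat_lit 26776675474) (nat_lit 0) (nat_lit 22955610971) (nat_lit 11) (nat_lit 5) (nat_lit 13) (nat_lit 4) (nat_lit 11) (nat_lit 4) (nat_lit 394) (nat_lit 313) (nat_lit 193)) (XT.lf (nat_lit 0) (nat_lit 1022515368) (nat_lit 76) (nat_lit 81865050167) (nat_lit 76) (nat_lit 38350763563) (nat_lit 10) (nat_lit 4) (nat_lit 11) (nat_lit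 5) (nat_lit 11) (nat_lit 4) (nat_lit 395) (nat_lit 313) (nat_lit 192)))))) (XT.nd (nat_lit 468) (nat_lit 76) (nat_lit 0) (XT.nd (nat_lit 234) (nat_lit 76) (nat_lit 0) (XT.nd (nat_lit 78) (nat_lit 76) (nat_lit 0) (XT.lf (nat_lit 0) (nat_lit 31133324266) (nat_lit 76) (nat_lit 69448351818) (nat_lit 76) (nat_lit 25928393759) (nat_lit 10) (nat_lit 4) (nat_lit 11) (nat_lit 5) (nat_lit 11) (nat_lit 4) (nat_lit 396) (nat_lit 313) (nat_lit 191)) (XT.nd (nat_lit 78) (nat_lit 76) (nat_lit 0) (XT.lf (nat_lit 0) (nat_lit 62742085804) (nat_lit 76) (nat_lit 56414435363) (nat_lit 76) (nat_lit 12889075919) (nat_lit 10) (nat_lit 4) (nat_lit 11) (nat_lit 5) (nat_lit 11) (nat_lit 4) (nat_lit 397) (nat_lit 313) (nat_lit 190)) (XT.lf (nat_lit 0) (nat_lit 772687416) (nat_lit 152) (nat_lit 41946494416) (nat_lit 76) (nat_lit 95138285686) (nat_lit 9) (nat_lit 5) (nat_lit 11) (nat_lit 5) (nat_lit 10) (nat_lit 4)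 (nat_lit 398) (nat_lit 313) (nat_lit 189)))) (XT.nd (nat_lit 78) (nat_lit 76) (nat_lit 0) (XT.lf (nat_lit 0) (nat_lit 14680719796) (nat_lit 152) (nat_lit 13439927253) (nat_lit 76) (nat_lit 115828903475) (nat_lit 9) (nat_lit 5) (nat_lit 11) (nat_lit 5) (nat_lit 10) (nat_lit 4) (nat_lit 399) (nat_lit 313) (nat_lit 188)) (XT.nd (nat_lit 78) (nat_lit 0) (nat_lit 0) (XT.lf (nat_lit 0) (nat_lit 17030375969) (nat_lit 76) (nat_lit 12516182432) (nat_lit 152) (nat_lit 120786559797) (nat_lit 8) (nat_lit 5) (nat_lit 9) (nat_lit 5) (nat_lit 10) (nat_lit 4) (nat_lit 400) (nat_lit 313) (nat_lit 187)) (XT.lf (nat_lit 0) (nat_lit 45443957448) (nat_lit 152) (nat_lit 107604500921) (nat_lit 0) (nat_lit 3972993174) (nat_lit 8) (nat_lit 5) (nat_lit 10) (nat_lit 4) (nat_lit 8) (nat_lit 4) (nat_lit 401) (nat_lit 313) (nat_lit 186))))) (XT.nd (nat_lit 234) (nat_lit 76) (nat_lit 0) (XT.nd (nat_lit 78) (nat_lit 0)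 (nat_lit 0) (XT.lf (nat_lit 0) (nat_lit 62338102422) (nat_lit 152) (nat_lit 80832898464) (nat_lit 0) (nat_lit 20863107551) (nat_lit 8) (nat_lit 5) (nat_lit 10) (nat_lit 4) (nat_lit 8) (nat_lit 4) (nat_lit 402) (nat_lit 313) (nat_lit 185)) (XT.nd (nat_lit 78) (nat_lit 0) (nat_lit 0) (XT.lf (nat_lit 0) (nat_lit 80073804793) (nat_lit 152) (nat_lit 52728780262) (nat_lit 0) (nat_lit 38594971259) (nat_lit 8) (nat_lit 5) (nat_lit 10) (nat_lit 4) (nat_lit 8) (nat_lit 4) (nat_lit 403) (nat_lit 313) (nat_lit 184)) (XT.lf (nat_lit 0) (nat_lit 98693292425) (nat_lit 152) (nat_lit 23225231749) (nat_lit 0) (nat_lit 57210803020) (nat_lit 8) (nat_lit 5) (nat_lit 10) (nat_lit 4) (nat_lit 8) (nat_lit 4) (nat_lit 404) (nat_lit 313) (nat_lit 183)))) (XT.nd (nat_lit 78) (nat_lit 0) (nat_lit 0) (XT.lf (nat_lit 0) (nat_lit 8004177278) (nat_lit 76) (nat_lit 110361687791) (nat_lit 76) (nat_lit 68875716605) (nat_lit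 7) (nat_lit 4) (nat_lit 8) (nat_lit 5) (nat_lit 8) (nat_lit 4) (nat_lit 405) (nat_lit 313) (nat_lit 182)) (XT.nd (nat_lit 78) (nat_lit 0) (nat_lit 0) (XT.lf (nat_lit 0) (nat_lit 41595972509) (nat_lit 76) (nat_lit 97816618920) (nat_lit 76) (nat_lit 56327331753) (nat_lit 7) (nat_lit 4) (nat_lit 8) (nat_lit 5) (nat_lit 8) (nat_lit 4) (nat_lit 406) (nat_lit 313) (nat_lit 181)) (XT.lf (nat_lit 0) (nat_lit 76862203357) (nat_lit 76) (nat_lit 84646778889) (nat_lit 76) (nat_lit 43154333644) (nat_lit 7) (nat_lit 4) (nat_lit 8) (nat_lit 5) (nat_lit 8) (nat_lit 4) (nat_lit 407) (nat_lit 313) (nat_lit 180))))))))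
noncomputable def xc138 : XT := (XT.nd (nat_lit 1716) (nat_lit 0) (nat_lit 0) (XT.nd (nat_lit 858) (nat_lit 76) (nat_lit 0) (XT.nd (nat_lit 390) (nat_lit 0) (nat_lit 0) (XT.nd (nat_lit 156) (nat_lit 152) (nat_lit 0) (XT.nd (nat_lit 78) (nat_lit 0) (nat_lit 0) (XT.lf (nat_lit 0) (nat_lit 113886837039) (nat_lit 76) (nat_lit 70820810936) (nat_lit 76) (nat_lit 29325357997) (nat_lit 7) (nat_lit 4) (nat_lit 8) (nat_lit 5) (nat_lit 8) (nat_lit 4) (nat_lit 408) (nat_lit 313) (nat_lit 179)) (XT.lf (nat_lit 0) (nat_lit 152758027444) (nat_lit 76) (nat_lit 56305796089) (nat_lit 76) (nat_lit 14807478681) (nat_lit 7) (nat_lit 4) (nat_lit 8) (nat_lit 5) (nat_lit 8) (nat_lit 4) (nat_lit 409) (nat_lit 313) (nat_lit 178))) (XT.nd (nat_lit 78) (nat_lit 76) (nat_lit 0) (XT.lf (nat_lit 0) (nat_lit 419984113) (nat_lit 152) (nat_lit 40640078042) (nat_lit 76) (nat_lit 193141228279) (nat_lit 6) (nat_lit 5) (nat_lit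 8) (nat_lit 5) (nat_lit 7) (nat_lit 4) (nat_lit 410) (nat_lit 313) (nat_lit 177)) (XT.nd (nat_lit 78) (nat_lit 76) (nat_lit 0) (XT.lf (nat_lit 0) (nat_lit 15908957060) (nat_lit 152) (nat_lit 8890281660) (nat_lit 76) (nat_lit 220236514214) (nat_lit 6) (nat_lit 5) (nat_lit 8) (nat_lit 5) (nat_lit 7) (nat_lit 4) (nat_lit 411) (nat_lit 313) (nat_lit 176)) (XT.lf (nat_lit 0) (nat_lit 25251087877) (nat_lit 76) (nat_lit 7313402828) (nat_lit 152) (nat_lit 223827842648) (nat_lit 5) (nat_lit 5) (nat_lit 6) (nat_lit 5) (nat_lit 7) (nat_lit 4) (nat_lit 412) (nat_lit 313) (nat_lit 175))))) (XT.nd (nat_lit 234) (nat_lit 0) (nat_lit 0) (XT.nd (nat_lit 78) (nat_lit 0) (nat_lit 0) (XT.lf (nat_lit 0) (nat_lit 50376180342) (nat_lit 152) (nat_lit 207080094168) (nat_lit 0) (nat_lit 10844299697) (nat_lit 5) (nat_lit 5) (nat_lit 7) (nat_lit 4) (nat_lit 5) (nat_lit 4) (nat_lit 413) (nat_lit 313) (nat_lit 174))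 (XT.nd (nat_lit 78) (nat_lit 0) (nat_lit 0) (XT.lf (nat_lit 0) (nat_lit 69196326819) (nat_lit 152) (nat_lit 181939698364) (nat_lit 0) (nat_lit 29662308662) (nat_lit 5) (nat_lit 5) (nat_lit 7) (nat_lit 4) (nat_lit 5) (nat_lit 4) (nat_lit 414) (nat_lit 313) (nat_lit 173)) (XT.lf (nat_lit 0) (nat_lit 88955557296) (nat_lit 152) (nat_lit 155546017264) (nat_lit 0) (nat_lit 49419503414) (nat_lit 5) (nat_lit 5) (nat_lit 7) (nat_lit 4) (nat_lit 5) (nat_lit 4) (nat_lit 415) (nat_lit 313) (nat_lit 172)))) (XT.nd (nat_lit 78) (nat_lit 0) (nat_lit 0) (XT.lf (nat_lit 0) (nat_lit 109700917560) (nat_lit 152) (nat_lit 127836208772) (nat_lit 0) (nat_lit 70162924892) (nat_lit 5) (nat_lit 5) (nat_lit 7) (nat_lit 4) (nat_lit 5) (nat_lit 4) (nat_lit 416) (nat_lit 313) (nat_lit 171)) (XT.nd (nat_lit 78) (nat_lit 0) (nat_lit 0) (XT.lf (nat_lit 0) (nat_lit 131481801325) (nat_lit 152) (nat_lit 98744297153) (nat_lit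 0) (nat_lit 91941962195) (nat_lit 5) (nat_lit 5) (nat_lit 7) (nat_lit 4) (nat_lit 5) (nat_lit 4) (nat_lit 417) (nat_lit 313) (nat_lit 170)) (XT.lf (nat_lit 0) (nat_lit 154350067839) (nat_lit 152) (nat_lit 68201015949) (nat_lit 0) (nat_lit 114808470173) (nat_lit 5) (nat_lit 5) (nat_lit 7) (nat_lit 4) (nat_lit 5) (nat_lit 4) (nat_lit 418) (nat_lit 313) (nat_lit 169)))))) (XT.nd (nat_lit 390) (nat_lit 0) (nat_lit 0) (XT.nd (nat_lit 156) (nat_lit 76) (nat_lit 0) (XT.nd (nat_lit 78) (nat_lit 0) (nat_lit 0) (XT.lf (nat_lit 0) (nat_lit 178360165356) (nat_lit 152) (nat_lit 36133643065) (nat_lit 0) (nat_lit 138816892893) (nat_lit 5) (nat_lit 5) (nat_lit 7) (nat_lit 4) (nat_lit 5) (nat_lit 4) (nat_lit 419) (nat_lit 313) (nat_lit 168)) (XT.lf (nat_lit 0) (nat_lit 203569260773) (nat_lit 152) (nat_lit 2465827610) (nat_lit 0) (nat_lit 164024393267) (nat_lit 5) (nat_lit 5) (nat_lit 7) (nat_lit 4) (nat_lit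 5) (nat_lit 4) (nat_lit 420) (nat_lit 313) (nat_lit 167))) (XT.nd (nat_lit 78) (nat_lit 0) (nat_lit 0) (XT.lf (nat_lit 0) (nat_lit 33969838867) (nat_lit 76) (nat_lit 196597901266) (nat_lit 76) (nat_lit 157051514669) (nat_lit 4) (nat_lit 4) (nat_lit 5) (nat_lit 5) (nat_lit 5) (nat_lit 4) (nat_lit 421) (nat_lit 313) (nat_lit 166)) (XT.nd (nat_lit 78) (nat_lit 0) (nat_lit 0) (XT.lf (nat_lit 0) (nat_lit 72310154846) (nat_lit 76) (nat_lit 186646338921) (nat_lit 76) (nat_lit 147098505573) (nat_lit 4) (nat_lit 4) (nat_lit 5) (nat_lit 5) (nat_lit 5) (nat_lit 4) (nat_lit 422) (nat_lit 313) (nat_lit 165)) (XT.lf (nat_lit 0) (nat_lit 112564875394) (nat_lit 76) (nat_lit 176198467138) (nat_lit 76) (nat_lit 136649255931) (nat_lit 4) (nat_lit 4) (nat_lit 5) (nat_lit 5) (nat_lit 5) (nat_lit 4) (nat_lit 423) (nat_lit 313) (nat_lit 164))))) (XT.nd (nat_lit 234) (nat_lit 0) (nat_lit 0) (XT.nd (nat_lit 78)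 (nat_lit 0) (nat_lit 0) (XT.lf (nat_lit 0) (nat_lit 154829845086) (nat_lit 76) (nat_lit 165229410032) (nat_lit 76) (nat_lit 125678886578) (nat_lit 4) (nat_lit 4) (nat_lit 5) (nat_lit 5) (nat_lit 5) (nat_lit 4) (nat_lit 424) (nat_lit 313) (nat_lit 163)) (XT.nd (nat_lit 78) (nat_lit 0) (nat_lit 0) (XT.lf (nat_lit 0) (nat_lit 199205694800) (nat_lit 76) (nat_lit 153713050800) (nat_lit 76) (nat_lit 114161277587) (nat_lit 4) (nat_lit 4) (nat_lit 5) (nat_lit 5) (nat_lit 5) (nat_lit 4) (nat_lit 425) (nat_lit 313) (nat_lit 162)) (XT.lf (nat_lit 0) (nat_lit 245798081322) (nat_lit 76) (nat_lit 141621969539) (nat_lit 76) (nat_lit 102069006080) (nat_lit 4) (nat_lit 4) (nat_lit 5) (nat_lit 5) (nat_lit 5) (nat_lit 4) (nat_lit 426) (nat_lit 313) (nat_lit 161)))) (XT.nd (nat_lit 78) (nat_lit 0) (nat_lit 0) (XT.lf (nat_lit 0) (nat_lit 294717938905) (nat_lit 76) (nat_lit 128927377960) (nat_lit 76) (nat_lit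 89373280933) (nat_lit 4) (nat_lit 4) (nat_lit 5) (nat_lit 5) (nat_lit 5) (nat_lit 4) (nat_lit 427) (nat_lit 313) (nat_lit 160)) (XT.nd (nat_lit 78) (nat_lit 0) (nat_lit 0) (XT.lf (nat_lit 0) (nat_lit 346081743402) (nat_lit 76) (nat_lit 115599050846) (nat_lit 76) (nat_lit 76043874230) (nat_lit 4) (nat_lit 4) (nat_lit 5) (nat_lit 5) (nat_lit 5) (nat_lit 4) (nat_lit 428) (nat_lit 313) (nat_lit 159)) (XT.lf (nat_lit 0) (nat_lit 400011789584) (nat_lit 76) (nat_lit 101605254083) (nat_lit 76) (nat_lit 62049049288) (nat_lit 4) (nat_lit 4) (nat_lit 5) (nat_lit 5) (nat_lit 5) (nat_lit 4) (nat_lit 429) (nat_lit 313) (nat_lit 158))))))) (XT.nd (nat_lit 38610) (nat_lit 0) (nat_lit 5168) (XT.nd (nat_lit 38142) (nat_lit 0) (nat_lit 7980) (XT.nd (nat_lit 37908) (nat_lit 0) (nat_lit 8512) (XT.nd (nat_lit 37830) (nat_lit 0) (nat_lit 8512) (XT.lf (nat_lit 0) (nat_lit 456636482323) (nat_lit 76) (nat_lit 86912669110)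 (nat_lit 76) (nat_lit 47355485096) (nat_lit 4) (nat_lit 4) (nat_lit 5) (nat_lit 5) (nat_lit 5) (nat_lit 4) (nat_lit 430) (nat_lit 313) (nat_lit 157)) (XT.lf (nat_lit 0) (nat_lit 2020475469) (nat_lit 684) (nat_lit 1174613455) (nat_lit 684) (nat_lit 1174613455) (nat_lit 116) (nat_lit 3) (nat_lit 125) (nat_lit 3) (nat_lit 125) (nat_lit 5) (nat_lit 314) (nat_lit 314) (nat_lit 272))) (XT.nd (nat_lit 78) (nat_lit 0) (nat_lit 76) (XT.lf (nat_lit 76) (nat_lit 1827344348) (nat_lit 0) (nat_lit 3261632153) (nat_lit 684) (nat_lit 3820234507) (nat_lit 117) (nat_lit 5) (nat_lit 116) (nat_lit 3) (nat_lit 125) (nat_lit 5) (nat_lit 315) (nat_lit 314) (nat_lit 271)) (XT.nd (nat_lit 78) (nat_lit 0) (nat_lit 0) (XT.lf (nat_lit 0) (nat_lit 6171340248) (nat_lit 608) (nat_lit 2827638971) (nat_lit 684) (nat_lit 89516565) (nat_lit 117) (nat_lit 5) (nat_lit 125) (nat_lit 5) (nat_lit 126) (nat_lit 5) (nat_lit 316)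 (nat_lit 314) (nat_lit 270)) (XT.lf (nat_lit 76) (nat_lit 1603428492) (nat_lit 0) (nat_lit 5726835156) (nat_lit 684) (nat_lit 1945440086) (nat_lit 118) (nat_lit 5) (nat_lit 117) (nat_lit 5) (nat_lit 126) (nat_lit 5) (nat_lit 317) (nat_lit 314) (nat_lit 269))))) (XT.nd (nat_lit 234) (nat_lit 0) (nat_lit 0) (XT.nd (nat_lit 78) (nat_lit 608) (nat_lit 0) (XT.lf (nat_lit 76) (nat_lit 6321040516) (nat_lit 0) (nat_lit 2220069824) (nat_lit 684) (nat_lit 931540036) (nat_lit 118) (nat_lit 5) (nat_lit 117) (nat_lit 5) (nat_lit 126) (nat_lit 5) (nat_lit 318) (nat_lit 314) (nat_lit 268)) (XT.nd (nat_lit 78) (nat_lit 0) (nat_lit 0) (XT.lf (nat_lit 0) (nat_lit 125262877) (nat_lit 684) (nat_lit 8093149422) (nat_lit 760) (nat_lit 1461174837) (nat_lit 109) (nat_lit 5) (nat_lit 118) (nat_lit 5) (nat_lit 119) (nat_lit 5) (nat_lit 319) (nat_lit 314) (nat_lit 267)) (XT.lf (nat_lit 0) (nat_lit 1244235134) (nat_lit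 684) (nat_lit 3311648305) (nat_lit 760) (nat_lit 5338258632) (nat_lit 109) (nat_lit 5) (nat_lit 118) (nat_lit 5) (nat_lit 119) (nat_lit 5) (nat_lit 320) (nat_lit 314) (nat_lit 266)))) (XT.nd (nat_lit 78) (nat_lit 0) (nat_lit 76) (XT.lf (nat_lit 76) (nat_lit 1730298708) (nat_lit 0) (nat_lit 668244906) (nat_lit 760) (nat_lit 7721975229) (nat_lit 110) (nat_lit 5) (nat_lit 109) (nat_lit 5) (nat_lit 119) (nat_lit 5) (nat_lit 321) (nat_lit 314) (nat_lit 265)) (XT.nd (nat_lit 78) (nat_lit 0) (nat_lit 0) (XT.lf (nat_lit 0) (nat_lit 3675182170) (nat_lit 684) (nat_lit 3306321667) (nat_lit 760) (nat_lit 3373540333) (nat_lit 110) (nat_lit 5) (nat_lit 119) (nat_lit 5) (nat_lit 120) (nat_lit 5) (nat_lit 322) (nat_lit 314) (nat_lit 264)) (XT.lf (nat_lit 76) (nat_lit 2052205582) (nat_lit 0) (nat_lit 2962930456) (nat_lit 760) (nat_lit 5586243129) (nat_lit 111) (nat_lit 5) (nat_lit 110) (nat_lit 5) (nat_lit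 120) (nat_lit 5) (nat_lit 323) (nat_lit 314) (nat_lit 263)))))) (XT.nd (nat_lit 468) (nat_lit 1064) (nat_lit 0) (XT.nd (nat_lit 234) (nat_lit 1216) (nat_lit 0) (XT.nd (nat_lit 78) (nat_lit 684) (nat_lit 0) (XT.lf (nat_lit 0) (nat_lit 6456779796) (nat_lit 684) (nat_lit 3120343687) (nat_lit 76) (nat_lit 1281227649) (nat_lit 111) (nat_lit 5) (nat_lit 120) (nat_lit 5) (nat_lit 112) (nat_lit 5) (nat_lit 324) (nat_lit 314) (nat_lit 262)) (XT.nd (nat_lit 78) (nat_lit 0) (nat_lit 0) (XT.lf (nat_lit 0) (nat_lit 2579610967) (nat_lit 684) (nat_lit 5439896168) (nat_lit 760) (nat_lit 3106266710) (nat_lit 102) (nat_lit 5) (nat_lit 111) (nat_lit 5) (nat_lit 112) (nat_lit 5) (nat_lit 325) (nat_lit 314) (nat_lit 261)) (XT.lf (nat_lit 0) (nat_lit 8639140224) (nat_lit 684) (nat_lit 1035599391) (nat_lit 760) (nat_lit 1731159371) (nat_lit 102) (nat_lit 5) (nat_lit 111) (nat_lit 5) (nat_lit 112) (nat_lit 5)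 (nat_lit 326) (nat_lit 314) (nat_lit 260)))) (XT.nd (nat_lit 78) (nat_lit 456) (nat_lit 0) (XT.lf (nat_lit 0) (nat_lit 3317671992) (nat_lit 760) (nat_lit 8166319489) (nat_lit 836) (nat_lit 212523381) (nat_lit 92) (nat_lit 5) (nat_lit 102) (nat_lit 5) (nat_lit 103) (nat_lit 5) (nat_lit 327) (nat_lit 314) (nat_lit 259)) (XT.nd (nat_lit 78) (nat_lit 380) (nat_lit 0) (XT.lf (nat_lit 0) (nat_lit 1366433123) (nat_lit 836) (nat_lit 2271041015) (nat_lit 76) (nat_lit 8361720334) (nat_lit 91) (nat_lit 5) (nat_lit 102) (nat_lit 5) (nat_lit 92) (nat_lit 5) (nat_lit 328) (nat_lit 314) (nat_lit 258)) (XT.lf (nat_lit 0) (nat_lit 3067760884) (nat_lit 456) (nat_lit 8092598354) (nat_lit 76) (nat_lit 1153987259) (nat_lit 86) (nat_lit 5) (nat_lit 92) (nat_lit 5) (nat_lit 87) (nat_lit 5) (nat_lit 329) (nat_lit 314) (nat_lit 257))))) (XT.nd (nat_lit 234) (nat_lit 760) (nat_lit 0) (XT.nd (nat_lit 78) (nat_lit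 304) (nat_lit 0) (XT.lf (nat_lit 0) (nat_lit 4919743444) (nat_lit 456) (nat_lit 1619865898) (nat_lit 76) (nat_lit 6102406328) (nat_lit 86) (nat_lit 5) (nat_lit 92) (nat_lit 5) (nat_lit 87) (nat_lit 5) (nat_lit 330) (nat_lit 314) (nat_lit 256)) (XT.nd (nat_lit 78) (nat_lit 0) (nat_lit 0) (XT.lf (nat_lit 0) (nat_lit 5313921101) (nat_lit 304) (nat_lit 1601813037) (nat_lit 380) (nat_lit 6067800824) (nat_lit 82) (nat_lit 5) (nat_lit 86) (nat_lit 5) (nat_lit 87) (nat_lit 5) (nat_lit 331) (nat_lit 314) (nat_lit 255)) (XT.lf (nat_lit 0) (nat_lit 9064766128) (nat_lit 380) (nat_lit 780183843) (nat_lit 76) (nat_lit 3494553502) (nat_lit 82) (nat_lit 5) (nat_lit 87) (nat_lit 5) (nat_lit 83) (nat_lit 5) (nat_lit 332) (nat_lit 314) (nat_lit 254)))) (XT.nd (nat_lit 78) (nat_lit 380) (nat_lit 0) (XT.lf (nat_lit 0) (nat_lit 6606849942) (nat_lit 380) (nat_lit 4814686765) (nat_lit 456) (nat_lit 2286753015)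 (nat_lit 77) (nat_lit 5) (nat_lit 82) (nat_lit 5) (nat_lit 83) (nat_lit 5) (nat_lit 333) (nat_lit 314) (nat_lit 253)) (XT.nd (nat_lit 78) (nat_lit 76) (nat_lit 0) (XT.lf (nat_lit 0) (nat_lit 263446363) (nat_lit 304) (nat_lit 13629253238) (nat_lit 380) (nat_lit 203020050) (nat_lit 73) (nat_lit 5) (nat_lit 77) (nat_lit 5) (nat_lit 78) (nat_lit 5) (nat_lit 334) (nat_lit 314) (nat_lit 252)) (XT.lf (nat_lit 0) (nat_lit 2094617534) (nat_lit 380) (nat_lit 6398639983) (nat_lit 76) (nat_lit 5999080787) (nat_lit 72) (nat_lit 5) (nat_lit 77) (nat_lit 5) (nat_lit 73) (nat_lit 5) (nat_lit 335) (nat_lit 314) (nat_lit 251))))))))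
noncomputable def xc139 : XT := (XT.nd (nat_lit 1716) (nat_lit 1368) (nat_lit 0) (XT.nd (nat_lit 858) (nat_lit 1216) (nat_lit 0) (XT.nd (nat_lit 390) (nat_lit 760) (nat_lit 0) (XT.nd (nat_lit 156) (nat_lit 532) (nat_lit 0) (XT.nd (nat_lit 78) (nat_lit 0) (nat_lit 0) (XT.lf (nat_lit 0) (nat_lit 1416921632) (nat_lit 304) (nat_lit 3078924170) (nat_lit 380) (nat_lit 10413026791) (nat_lit 68) (nat_lit 5) (nat_lit 72) (nat_lit 5) (nat_lit 73) (nat_lit 5) (nat_lit 336) (nat_lit 314) (nat_lit 250)) (XT.lf (nat_lit 0) (nat_lit 7142067438) (nat_lit 380) (nat_lit 5570368007) (nat_lit 76) (nat_lit 2627577925) (nat_lit 68) (nat_lit 5) (nat_lit 73) (nat_lit 5) (nat_lit 69) (nat_lit 5) (nat_lit 337) (nat_lit 314) (nat_lit 249))) (XT.nd (nat_lit 78) (nat_lit 304) (nat_lit 0) (XT.lf (nat_lit 0) (nat_lit 2754018198) (nat_lit 228) (nat_lit 7235389784) (nat_lit 304) (nat_lit 5799887932) (nat_lit 65) (nat_lit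 5) (nat_lit 68) (nat_lit 5) (nat_lit 69) (nat_lit 5) (nat_lit 338) (nat_lit 314) (nat_lit 248)) (XT.nd (nat_lit 78) (nat_lit 304) (nat_lit 0) (XT.lf (nat_lit 0) (nat_lit 11657565956) (nat_lit 228) (nat_lit 1391921298) (nat_lit 304) (nat_lit 3208060669) (nat_lit 65) (nat_lit 5) (nat_lit 68) (nat_lit 5) (nat_lit 69) (nat_lit 5) (nat_lit 339) (nat_lit 314) (nat_lit 247)) (XT.lf (nat_lit 0) (nat_lit 4290265054) (nat_lit 304) (nat_lit 12090430891) (nat_lit 380) (nat_lit 362633097) (nat_lit 61) (nat_lit 5) (nat_lit 65) (nat_lit 5) (nat_lit 66) (nat_lit 5) (nat_lit 340) (nat_lit 314) (nat_lit 246))))) (XT.nd (nat_lit 234) (nat_lit 456) (nat_lit 0) (XT.nd (nat_lit 78) (nat_lit 228) (nat_lit 0) (XT.lf (nat_lit 0) (nat_lit 2620368549) (nat_lit 380) (nat_lit 3560210326) (nat_lit 76) (nat_lit 11066825714) (nat_lit 60) (nat_lit 5) (nat_lit 65) (nat_lit 5) (nat_lit 61) (nat_lit 5) (nat_lit 341) (nat_lit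 314) (nat_lit 245)) (XT.nd (nat_lit 78) (nat_lit 0) (nat_lit 0) (XT.lf (nat_lit 0) (nat_lit 5813244377) (nat_lit 304) (nat_lit 11842437788) (nat_lit 76) (nat_lit 117078641) (nat_lit 57) (nat_lit 5) (nat_lit 61) (nat_lit 5) (nat_lit 58) (nat_lit 5) (nat_lit 342) (nat_lit 314) (nat_lit 244)) (XT.lf (nat_lit 0) (nat_lit 9307238394) (nat_lit 304) (nat_lit 2434087481) (nat_lit 76) (nat_lit 6576003984) (nat_lit 57) (nat_lit 5) (nat_lit 61) (nat_lit 5) (nat_lit 58) (nat_lit 5) (nat_lit 343) (nat_lit 314) (nat_lit 243)))) (XT.nd (nat_lit 78) (nat_lit 228) (nat_lit 0) (XT.lf (nat_lit 0) (nat_lit 7661915736) (nat_lit 228) (nat_lit 5413517613) (nat_lit 304) (nat_lit 5808736804) (nat_lit 54) (nat_lit 5) (nat_lit 57) (nat_lit 5) (nat_lit 58) (nat_lit 5) (nat_lit 344) (nat_lit 314) (nat_lit 242)) (XT.nd (nat_lit 78) (nat_lit 228) (nat_lit 0) (XT.lf (nat_lit 0) (nat_lit 17073432048) (nat_lit 304) (nat_lit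 1178371249) (nat_lit 76) (nat_lit 1225496465) (nat_lit 54) (nat_lit 5) (nat_lit 58) (nat_lit 5) (nat_lit 55) (nat_lit 5) (nat_lit 345) (nat_lit 314) (nat_lit 241)) (XT.lf (nat_lit 0) (nat_lit 1356526019) (nat_lit 228) (nat_lit 10553214337) (nat_lit 76) (nat_lit 8178308179) (nat_lit 51) (nat_lit 5) (nat_lit 54) (nat_lit 5) (nat_lit 52) (nat_lit 5) (nat_lit 346) (nat_lit 314) (nat_lit 240)))))) (XT.nd (nat_lit 390) (nat_lit 532) (nat_lit 0) (XT.nd (nat_lit 156) (nat_lit 456) (nat_lit 0) (XT.nd (nat_lit 78) (nat_lit 0) (nat_lit 0) (XT.lf (nat_lit 0) (nat_lit 30251253) (nat_lit 228) (nat_lit 5196042213) (nat_lit 304) (nat_lit 15500978596) (nat_lit 48) (nat_lit 5) (nat_lit 51) (nat_lit 5) (nat_lit 52) (nat_lit 5) (nat_lit 347) (nat_lit 314) (nat_lit 239)) (XT.lf (nat_lit 0) (nat_lit 9481855295) (nat_lit 304) (nat_lit 9939714418) (nat_lit 76) (nat_lit 1967285738) (nat_lit 48) (nat_lit 5) (nat_lit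 52) (nat_lit 5) (nat_lit 49) (nat_lit 5) (nat_lit 348) (nat_lit 314) (nat_lit 238))) (XT.nd (nat_lit 78) (nat_lit 304) (nat_lit 0) (XT.lf (nat_lit 0) (nat_lit 1285120540) (nat_lit 152) (nat_lit 12752907146) (nat_lit 228) (nat_lit 8041112021) (nat_lit 46) (nat_lit 5) (nat_lit 48) (nat_lit 5) (nat_lit 49) (nat_lit 5) (nat_lit 349) (nat_lit 314) (nat_lit 237)) (XT.nd (nat_lit 78) (nat_lit 304) (nat_lit 0) (XT.lf (nat_lit 0) (nat_lit 13390418067) (nat_lit 152) (nat_lit 5582937004) (nat_lit 228) (nat_lit 3823028472) (nat_lit 46) (nat_lit 5) (nat_lit 48) (nat_lit 5) (nat_lit 49) (nat_lit 5) (nat_lit 350) (nat_lit 314) (nat_lit 236)) (XT.lf (nat_lit 0) (nat_lit 641762960) (nat_lit 304) (nat_lit 20978819808) (nat_lit 76) (nat_lit 1925685365) (nat_lit 42) (nat_lit 5) (nat_lit 46) (nat_lit 5) (nat_lit 43) (nat_lit 5) (nat_lit 351) (nat_lit 314) (nat_lit 235))))) (XT.nd (nat_lit 234) (nat_lit 380)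 (nat_lit 0) (XT.nd (nat_lit 78) (nat_lit 152) (nat_lit 0) (XT.lf (nat_lit 0) (nat_lit 5438549674) (nat_lit 304) (nat_lit 9041862148) (nat_lit 76) (nat_lit 9838250731) (nat_lit 42) (nat_lit 5) (nat_lit 46) (nat_lit 5) (nat_lit 43) (nat_lit 5) (nat_lit 352) (nat_lit 314) (nat_lit 234)) (XT.nd (nat_lit 78) (nat_lit 0) (nat_lit 0) (XT.lf (nat_lit 0) (nat_lit 3582354360) (nat_lit 152) (nat_lit 6933328160) (nat_lit 228) (nat_lit 14611979273) (nat_lit 40) (nat_lit 5) (nat_lit 42) (nat_lit 5) (nat_lit 43) (nat_lit 5) (nat_lit 353) (nat_lit 314) (nat_lit 233)) (XT.lf (nat_lit 0) (nat_lit 16002585540) (nat_lit 228) (nat_lit 8860225548) (nat_lit 76) (nat_lit 1106514170) (nat_lit 40) (nat_lit 5) (nat_lit 43) (nat_lit 5) (nat_lit 41) (nat_lit 5) (nat_lit 354) (nat_lit 314) (nat_lit 232)))) (XT.nd (nat_lit 78) (nat_lit 228) (nat_lit 0) (XT.lf (nat_lit 0) (nat_lit 4465042953) (nat_lit 152) (nat_lit 17467688394)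 (nat_lit 228) (nat_lit 4911905133) (nat_lit 38) (nat_lit 5) (nat_lit 40) (nat_lit 5) (nat_lit 41) (nat_lit 5) (nat_lit 355) (nat_lit 314) (nat_lit 231)) (XT.nd (nat_lit 78) (nat_lit 152) (nat_lit 0) (XT.lf (nat_lit 0) (nat_lit 521134547) (nat_lit 228) (nat_lit 9024089932) (nat_lit 76) (nat_lit 18211282129) (nat_lit 37) (nat_lit 5) (nat_lit 40) (nat_lit 5) (nat_lit 38) (nat_lit 5) (nat_lit 356) (nat_lit 314) (nat_lit 230)) (XT.lf (nat_lit 0) (nat_lit 5058253142) (nat_lit 152) (nat_lit 1067774581) (nat_lit 228) (nat_lit 22580660859) (nat_lit 35) (nat_lit 5) (nat_lit 37) (nat_lit 5) (nat_lit 38) (nat_lit 5) (nat_lit 357) (nat_lit 314) (nat_lit 229))))))) (XT.nd (nat_lit 858) (nat_lit 608) (nat_lit 0) (XT.nd (nat_lit 390) (nat_lit 456) (nat_lit 0) (XT.nd (nat_lit 156) (nat_lit 152) (nat_lit 0) (XT.nd (nat_lit 78) (nat_lit 152) (nat_lit 0) (XT.lf (nat_lit 0) (nat_lit 12275278186) (nat_lit 228)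 (nat_lit 9686030107) (nat_lit 76) (nat_lit 7729873519) (nat_lit 35) (nat_lit 5) (nat_lit 38) (nat_lit 5) (nat_lit 36) (nat_lit 5) (nat_lit 358) (nat_lit 314) (nat_lit 228)) (XT.lf (nat_lit 0) (nat_lit 5098762063) (nat_lit 152) (nat_lit 13717459855) (nat_lit 228) (nat_lit 11904473664) (nat_lit 33) (nat_lit 5) (nat_lit 35) (nat_lit 5) (nat_lit 36) (nat_lit 5) (nat_lit 359) (nat_lit 314) (nat_lit 227))) (XT.nd (nat_lit 78) (nat_lit 152) (nat_lit 0) (XT.lf (nat_lit 0) (nat_lit 20937995283) (nat_lit 152) (nat_lit 4897659714) (nat_lit 228) (nat_lit 5958465001) (nat_lit 33) (nat_lit 5) (nat_lit 35) (nat_lit 5) (nat_lit 36) (nat_lit 5) (nat_lit 360) (nat_lit 314) (nat_lit 226)) (XT.nd (nat_lit 78) (nat_lit 0) (nat_lit 0) (XT.lf (nat_lit 0) (nat_lit 407380386) (nat_lit 152) (nat_lit 28211263752) (nat_lit 76) (nat_lit 4295772890) (nat_lit 31) (nat_lit 5) (nat_lit 33) (nat_lit 5) (nat_lit 32) (nat_lit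 5) (nat_lit 361) (nat_lit 314) (nat_lit 225)) (XT.lf (nat_lit 0) (nat_lit 7146370900) (nat_lit 152) (nat_lit 12865850035) (nat_lit 76) (nat_lit 14060875270) (nat_lit 31) (nat_lit 5) (nat_lit 33) (nat_lit 5) (nat_lit 32) (nat_lit 5) (nat_lit 362) (nat_lit 314) (nat_lit 224))))) (XT.nd (nat_lit 234) (nat_lit 228) (nat_lit 0) (XT.nd (nat_lit 78) (nat_lit 76) (nat_lit 0) (XT.lf (nat_lit 0) (nat_lit 3333896184) (nat_lit 152) (nat_lit 10928979673) (nat_lit 228) (nat_lit 21024811050) (nat_lit 29) (nat_lit 5) (nat_lit 31) (nat_lit 5) (nat_lit 32) (nat_lit 5) (nat_lit 363) (nat_lit 314) (nat_lit 223)) (XT.nd (nat_lit 78) (nat_lit 76) (nat_lit 0) (XT.lf (nat_lit 0) (nat_lit 20770976129) (nat_lit 152) (nat_lit 1170878017) (nat_lit 228) (nat_lit 14610826130) (nat_lit 29) (nat_lit 5) (nat_lit 31) (nat_lit 5) (nat_lit 32) (nat_lit 5) (nat_lit 364) (nat_lit 314) (nat_lit 222)) (XT.lf (nat_lit 0) (nat_lit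 1072808262) (nat_lit 76) (nat_lit 29079584583) (nat_lit 152) (nat_lit 7721155163) (nat_lit 28) (nat_lit 5) (nat_lit 29) (nat_lit 5) (nat_lit 30) (nat_lit 4) (nat_lit 365) (nat_lit 314) (nat_lit 221)))) (XT.nd (nat_lit 78) (nat_lit 228) (nat_lit 0) (XT.lf (nat_lit 0) (nat_lit 19279598832) (nat_lit 76) (nat_lit 19769415672) (nat_lit 152) (nat_lit 197671844) (nat_lit 28) (nat_lit 5) (nat_lit 29) (nat_lit 5) (nat_lit 30) (nat_lit 4) (nat_lit 366) (nat_lit 314) (nat_lit 220)) (XT.nd (nat_lit 78) (nat_lit 152) (nat_lit 0) (XT.lf (nat_lit 0) (nat_lit 7445208732) (nat_lit 152) (nat_lit 2429987374) (nat_lit 76) (nat_lit 30807790835) (nat_lit 27) (nat_lit 5) (nat_lit 29) (nat_lit 5) (nat_lit 28) (nat_lit 5) (nat_lit 367) (nat_lit 314) (nat_lit 219)) (XT.lf (nat_lit 0) (nat_lit 15723471328) (nat_lit 228) (nat_lit 25699312710) (nat_lit 76) (nat_lit 755166784) (nat_lit 25) (nat_lit 5) (nat_lit 28) (nat_lit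 5) (nat_lit 26) (nat_lit 4) (nat_lit 368) (nat_lit 314) (nat_lit 218)))))) (XT.nd (nat_lit 468) (nat_lit 304) (nat_lit 0) (XT.nd (nat_lit 234) (nat_lit 228) (nat_lit 0) (XT.nd (nat_lit 78) (nat_lit 76) (nat_lit 0) (XT.lf (nat_lit 0) (nat_lit 24609675516) (nat_lit 228) (nat_lit 7508331409) (nat_lit 76) (nat_lit 11619958680) (nat_lit 25) (nat_lit 5) (nat_lit 28) (nat_lit 5) (nat_lit 26) (nat_lit 4) (nat_lit 369) (nat_lit 314) (nat_lit 217)) (XT.nd (nat_lit 78) (nat_lit 0) (nat_lit 0) (XT.lf (nat_lit 0) (nat_lit 11958545562) (nat_lit 76) (nat_lit 22159124428) (nat_lit 152) (nat_lit 11249441068) (nat_lit 24) (nat_lit 5) (nat_lit 25) (nat_lit 5) (nat_lit 26) (nat_lit 4) (nat_lit 370) (nat_lit 314) (nat_lit 216)) (XT.lf (nat_lit 0) (nat_lit 32643301701) (nat_lit 76) (nat_lit 11575880783) (nat_lit 152) (nat_lit 2852629129) (nat_lit 24) (nat_lit 5) (nat_lit 25) (nat_lit 5) (nat_lit 26) (nat_lit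 4) (nat_lit 371) (nat_lit 314) (nat_lit 215)))) (XT.nd (nat_lit 78) (nat_lit 0) (nat_lit 0) (XT.lf (nat_lit 0) (nat_lit 5570048281) (nat_lit 152) (nat_lit 281300115) (nat_lit 228) (nat_lit 43001835894) (nat_lit 21) (nat_lit 5) (nat_lit 23) (nat_lit 5) (nat_lit 24) (nat_lit 5) (nat_lit 372) (nat_lit 314) (nat_lit 214)) (XT.nd (nat_lit 78) (nat_lit 0) (nat_lit 0) (XT.lf (nat_lit 0) (nat_lit 15315099021) (nat_lit 228) (nat_lit 23889217819) (nat_lit 76) (nat_lit 11495951711) (nat_lit 21) (nat_lit 5) (nat_lit 24) (nat_lit 5) (nat_lit 22) (nat_lit 4) (nat_lit 373) (nat_lit 314) (nat_lit 213)) (XT.lf (nat_lit 0) (nat_lit 25248378649) (nat_lit 228) (nat_lit 3545200140) (nat_lit 76) (nat_lit 23846314246) (nat_lit 21) (nat_lit 5) (nat_lit 24) (nat_lit 5) (nat_lit 22) (nat_lit 4) (nat_lit 374) (nat_lit 314) (nat_lit 212))))) (XT.nd (nat_lit 234) (nat_lit 76) (nat_lit 0) (XT.nd (nat_lit 78) (nat_lit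 152) (nat_lit 0) (XT.lf (nat_lit 0) (nat_lit 18390353201) (nat_lit 76) (nat_lit 17567217813) (nat_lit 152) (nat_lit 18704968227) (nat_lit 20) (nat_lit 5) (nat_lit 21) (nat_lit 5) (nat_lit 22) (nat_lit 4) (nat_lit 375) (nat_lit 314) (nat_lit 211)) (XT.nd (nat_lit 78) (nat_lit 152) (nat_lit 0) (XT.lf (nat_lit 0) (nat_lit 41531724363) (nat_lit 76) (nat_lit 5722817952) (nat_lit 152) (nat_lit 9529162270) (nat_lit 20) (nat_lit 5) (nat_lit 21) (nat_lit 5) (nat_lit 22) (nat_lit 4) (nat_lit 376) (nat_lit 314) (nat_lit 210)) (XT.lf (nat_lit 0) (nat_lit 310876335) (nat_lit 152) (nat_lit 52083349101) (nat_lit 76) (nat_lit 6606182148) (nat_lit 18) (nat_lit 5) (nat_lit 20) (nat_lit 5) (nat_lit 19) (nat_lit 4) (nat_lit 377) (nat_lit 314) (nat_lit 209)))) (XT.nd (nat_lit 78) (nat_lit 76) (nat_lit 0) (XT.lf (nat_lit 0) (nat_lit 10671601384) (nat_lit 152) (nat_lit 30858910808) (nat_lit 76) (nat_lit 19772178823)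 (nat_lit 18) (nat_lit 5) (nat_lit 20) (nat_lit 5) (nat_lit 19) (nat_lit 4) (nat_lit 378) (nat_lit 314) (nat_lit 208)) (XT.nd (nat_lit 78) (nat_lit 76) (nat_lit 0) (XT.lf (nat_lit 0) (nat_lit 21543292283) (nat_lit 152) (nat_lit 8586275946) (nat_lit 76) (nat_lit 33590876207) (nat_lit 18) (nat_lit 5) (nat_lit 20) (nat_lit 5) (nat_lit 19) (nat_lit 4) (nat_lit 379) (nat_lit 314) (nat_lit 207)) (XT.lf (nat_lit 0) (nat_lit 15276529926) (nat_lit 76) (nat_lit 17913813530) (nat_lit 152) (nat_lit 33057155478) (nat_lit 17) (nat_lit 5) (nat_lit 18) (nat_lit 5) (nat_lit 19) (nat_lit 4) (nat_lit 380) (nat_lit 314) (nat_lit 206))))))))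
noncomputable def xc140 : XT := (XT.nd (nat_lit 1716) (nat_lit 304) (nat_lit 0) (XT.nd (nat_lit 858) (nat_lit 304) (nat_lit 0) (XT.nd (nat_lit 390) (nat_lit 228) (nat_lit 0) (XT.nd (nat_lit 156) (nat_lit 152) (nat_lit 0) (XT.nd (nat_lit 78) (nat_lit 0) (nat_lit 0) (XT.lf (nat_lit 0) (nat_lit 40618367196) (nat_lit 76) (nat_lit 4940189112) (nat_lit 152) (nat_lit 23335411479) (nat_lit 17) (nat_lit 5) (nat_lit 18) (nat_lit 5) (nat_lit 19) (nat_lit 4) (nat_lit 381) (nat_lit 314) (nat_lit 205)) (XT.lf (nat_lit 0) (nat_lit 58674359526) (nat_lit 152) (nat_lit 4592872899) (nat_lit 0) (nat_lit 8399070658) (nat_lit 17) (nat_lit 5) (nat_lit 19) (nat_lit 4) (nat_lit 17) (nat_lit 4) (nat_lit 382) (nat_lit 314) (nat_lit 204))) (XT.nd (nat_lit 78) (nat_lit 76) (nat_lit 0) (XT.lf (nat_lit 0) (nat_lit 20849010659) (nat_lit 76) (nat_lit 51997371438) (nat_lit 76) (nat_lit 1710853479) (nat_lit 16) (nat_lit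 4) (nat_lit 17) (nat_lit 5) (nat_lit 17) (nat_lit 4) (nat_lit 383) (nat_lit 314) (nat_lit 203)) (XT.nd (nat_lit 78) (nat_lit 0) (nat_lit 0) (XT.lf (nat_lit 0) (nat_lit 9882935344) (nat_lit 152) (nat_lit 30037194877) (nat_lit 76) (nat_lit 37661024713) (nat_lit 15) (nat_lit 5) (nat_lit 17) (nat_lit 5) (nat_lit 16) (nat_lit 4) (nat_lit 384) (nat_lit 314) (nat_lit 202)) (XT.lf (nat_lit 0) (nat_lit 21993153139) (nat_lit 152) (nat_lit 5221433513) (nat_lit 76) (nat_lit 53540571130) (nat_lit 15) (nat_lit 5) (nat_lit 17) (nat_lit 5) (nat_lit 16) (nat_lit 4) (nat_lit 385) (nat_lit 314) (nat_lit 201))))) (XT.nd (nat_lit 234) (nat_lit 152) (nat_lit 0) (XT.nd (nat_lit 78) (nat_lit 0) (nat_lit 0) (XT.lf (nat_lit 0) (nat_lit 21513419307) (nat_lit 76) (nat_lit 13525857214) (nat_lit 152) (nat_lit 49032066076) (nat_lit 14) (nat_lit 5) (nat_lit 15) (nat_lit 5) (nat_lit 16) (nat_lit 4) (nat_lit 386) (nat_lit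 314) (nat_lit 200)) (XT.nd (nat_lit 78) (nat_lit 0) (nat_lit 0) (XT.lf (nat_lit 0) (nat_lit 48835352306) (nat_lit 152) (nat_lit 37807594793) (nat_lit 0) (nat_lit 905508722) (nat_lit 14) (nat_lit 5) (nat_lit 16) (nat_lit 4) (nat_lit 14) (nat_lit 4) (nat_lit 387) (nat_lit 314) (nat_lit 199)) (XT.lf (nat_lit 0) (nat_lit 63537767471) (nat_lit 152) (nat_lit 12051287303) (nat_lit 0) (nat_lit 15599544566) (nat_lit 14) (nat_lit 5) (nat_lit 16) (nat_lit 4) (nat_lit 14) (nat_lit 4) (nat_lit 388) (nat_lit 314) (nat_lit 198)))) (XT.nd (nat_lit 78) (nat_lit 76) (nat_lit 0) (XT.lf (nat_lit 0) (nat_lit 15478922442) (nat_lit 76) (nat_lit 63733098145) (nat_lit 76) (nat_lit 15786894934) (nat_lit 13) (nat_lit 4) (nat_lit 14) (nat_lit 5) (nat_lit 14) (nat_lit 4) (nat_lit 389) (nat_lit 314) (nat_lit 197)) (XT.nd (nat_lit 78) (nat_lit 76) (nat_lit 0) (XT.lf (nat_lit 0) (nat_lit 44794851424) (nat_lit 76) (nat_lit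 51074369568) (nat_lit 76) (nat_lit 3120566066) (nat_lit 13) (nat_lit 4) (nat_lit 14) (nat_lit 5) (nat_lit 14) (nat_lit 4) (nat_lit 390) (nat_lit 314) (nat_lit 196)) (XT.lf (nat_lit 0) (nat_lit 9848579753) (nat_lit 152) (nat_lit 27771453381) (nat_lit 76) (nat_lit 65552459272) (nat_lit 12) (nat_lit 5) (nat_lit 14) (nat_lit 5) (nat_lit 13) (nat_lit 4) (nat_lit 391) (nat_lit 314) (nat_lit 195)))))) (XT.nd (nat_lit 390) (nat_lit 152) (nat_lit 0) (XT.nd (nat_lit 156) (nat_lit 76) (nat_lit 0) (XT.nd (nat_lit 78) (nat_lit 76) (nat_lit 0) (XT.lf (nat_lit 0) (nat_lit 23356830060) (nat_lit 152) (nat_lit 86433939) (nat_lit 76) (nat_lit 84118736354) (nat_lit 12) (nat_lit 5) (nat_lit 14) (nat_lit 5) (nat_lit 13) (nat_lit 4) (nat_lit 392) (nat_lit 314) (nat_lit 194)) (XT.lf (nat_lit 0) (nat_lit 29932796611) (nat_lit 76) (nat_lit 8070763189) (nat_lit 152) (nat_lit 74144271604) (nat_lit 11) (nat_lit 5)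 (nat_lit 12) (nat_lit 5) (nat_lit 13) (nat_lit 4) (nat_lit 393) (nat_lit 314) (nat_lit 193))) (XT.nd (nat_lit 78) (nat_lit 76) (nat_lit 0) (XT.lf (nat_lit 0) (nat_lit 53505867393) (nat_lit 152) (nat_lit 55641014119) (nat_lit 0) (nat_lit 7809911432) (nat_lit 11) (nat_lit 5) (nat_lit 13) (nat_lit 4) (nat_lit 11) (nat_lit 4) (nat_lit 394) (nat_lit 314) (nat_lit 192)) (XT.nd (nat_lit 78) (nat_lit 76) (nat_lit 0) (XT.lf (nat_lit 0) (nat_lit 69911552805) (nat_lit 152) (nat_lit 27878312200) (nat_lit 0) (nat_lit 24209925389) (nat_lit 11) (nat_lit 5) (nat_lit 13) (nat_lit 4) (nat_lit 11) (nat_lit 4) (nat_lit 395) (nat_lit 314) (nat_lit 191)) (XT.lf (nat_lit 0) (nat_lit 1307012425) (nat_lit 76) (nat_lit 85847063661) (nat_lit 76) (nat_lit 40140034860) (nat_lit 10) (nat_lit 4) (nat_lit 11) (nat_lit 5) (nat_lit 11) (nat_lit 4) (nat_lit 396) (nat_lit 314) (nat_lit 190))))) (XT.nd (nat_lit 234) (nat_lit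 76) (nat_lit 0) (XT.nd (nat_lit 78) (nat_lit 76) (nat_lit 0) (XT.lf (nat_lit 0) (nat_lit 32912248850) (nat_lit 76) (nat_lit 72814827490) (nat_lit 76) (nat_lit 27102654513) (nat_lit 10) (nat_lit 4) (nat_lit 11) (nat_lit 5) (nat_lit 11) (nat_lit 4) (nat_lit 397) (nat_lit 314) (nat_lit 189)) (XT.nd (nat_lit 78) (nat_lit 76) (nat_lit 0) (XT.lf (nat_lit 0) (nat_lit 66090864733) (nat_lit 76) (nat_lit 59134260066) (nat_lit 76) (nat_lit 13417187873) (nat_lit 10) (nat_lit 4) (nat_lit 11) (nat_lit 5) (nat_lit 11) (nat_lit 4) (nat_lit 398) (nat_lit 314) (nat_lit 188)) (XT.lf (nat_lit 0) (nat_lit 918577193) (nat_lit 152) (nat_lit 43838654865) (nat_lit 76) (nat_lit 99987723036) (nat_lit 9) (nat_lit 5) (nat_lit 11) (nat_lit 5) (nat_lit 10) (nat_lit 4) (nat_lit 399) (nat_lit 314) (nat_lit 187)))) (XT.nd (nat_lit 78) (nat_lit 76) (nat_lit 0) (XT.lf (nat_lit 0) (nat_lit 15516903792) (nat_lit 152) (nat_lit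 13916529071) (nat_lit 76) (nat_lit 121708465854) (nat_lit 9) (nat_lit 5) (nat_lit 11) (nat_lit 5) (nat_lit 10) (nat_lit 4) (nat_lit 400) (nat_lit 314) (nat_lit 186)) (XT.nd (nat_lit 78) (nat_lit 0) (nat_lit 0) (XT.lf (nat_lit 0) (nat_lit 18074137787) (nat_lit 76) (nat_lit 13050033802) (nat_lit 152) (nat_lit 126720567367) (nat_lit 8) (nat_lit 5) (nat_lit 9) (nat_lit 5) (nat_lit 10) (nat_lit 4) (nat_lit 401) (nat_lit 314) (nat_lit 185)) (XT.lf (nat_lit 0) (nat_lit 47813032450) (nat_lit 152) (nat_lit 112798209345) (nat_lit 0) (nat_lit 4256418575) (nat_lit 8) (nat_lit 5) (nat_lit 10) (nat_lit 4) (nat_lit 8) (nat_lit 4) (nat_lit 402) (nat_lit 314) (nat_lit 184))))))) (XT.nd (nat_lit 858) (nat_lit 76) (nat_lit 0) (XT.nd (nat_lit 390) (nat_lit 152) (nat_lit 0) (XT.nd (nat_lit 156) (nat_lit 76) (nat_lit 0) (XT.nd (nat_lit 78) (nat_lit 0) (nat_lit 0) (XT.lf (nat_lit 0) (nat_lit 65547271476) (nat_lit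 152) (nat_lit 84696908509) (nat_lit 0) (nat_lit 21987001731) (nat_lit 8) (nat_lit 5) (nat_lit 10) (nat_lit 4) (nat_lit 8) (nat_lit 4) (nat_lit 403) (nat_lit 314) (nat_lit 183)) (XT.lf (nat_lit 0) (nat_lit 84165365445) (nat_lit 152) (nat_lit 55196043201) (nat_lit 0) (nat_lit 40601613919) (nat_lit 8) (nat_lit 5) (nat_lit 10) (nat_lit 4) (nat_lit 8) (nat_lit 4) (nat_lit 404) (nat_lit 314) (nat_lit 182))) (XT.nd (nat_lit 78) (nat_lit 76) (nat_lit 0) (XT.lf (nat_lit 0) (nat_lit 103711643153) (nat_lit 152) (nat_lit 24225373266) (nat_lit 0) (nat_lit 60144575645) (nat_lit 8) (nat_lit 5) (nat_lit 10) (nat_lit 4) (nat_lit 8) (nat_lit 4) (nat_lit 405) (nat_lit 314) (nat_lit 181)) (XT.nd (nat_lit 78) (nat_lit 0) (nat_lit 0) (XT.lf (nat_lit 0) (nat_lit 8562907502) (nat_lit 76) (nat_lit 115803426837) (nat_lit 76) (nat_lit 72233201251) (nat_lit 7) (nat_lit 4) (nat_lit 8) (nat_lit 5) (nat_lit 8) (nat_lit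 4) (nat_lit 406) (nat_lit 314) (nat_lit 180)) (XT.lf (nat_lit 0) (nat_lit 43826743858) (nat_lit 76) (nat_lit 102634740015) (nat_lit 76) (nat_lit 59061506736) (nat_lit 7) (nat_lit 4) (nat_lit 8) (nat_lit 5) (nat_lit 8) (nat_lit 4) (nat_lit 407) (nat_lit 314) (nat_lit 179))))) (XT.nd (nat_lit 234) (nat_lit 152) (nat_lit 0) (XT.nd (nat_lit 78) (nat_lit 0) (nat_lit 0) (XT.lf (nat_lit 0) (nat_lit 80849097072) (nat_lit 76) (nat_lit 88809870357) (nat_lit 76) (nat_lit 45233772608) (nat_lit 7) (nat_lit 4) (nat_lit 8) (nat_lit 5) (nat_lit 8) (nat_lit 4) (nat_lit 408) (nat_lit 314) (nat_lit 178)) (XT.nd (nat_lit 78) (nat_lit 0) (nat_lit 0) (XT.lf (nat_lit 0) (nat_lit 119718115602) (nat_lit 76) (nat_lit 74295901505) (nat_lit 76) (nat_lit 30717075689) (nat_lit 7) (nat_lit 4) (nat_lit 8) (nat_lit 5) (nat_lit 8) (nat_lit 4) (nat_lit 409) (nat_lit 314) (nat_lit 177)) (XT.lf (nat_lit 0) (nat_lit 160526344732)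 (nat_lit 76) (nat_lit 59058276391) (nat_lit 76) (nat_lit 15476852417) (nat_lit 7) (nat_lit 4) (nat_lit 8) (nat_lit 5) (nat_lit 8) (nat_lit 4) (nat_lit 410) (nat_lit 314) (nat_lit 176)))) (XT.nd (nat_lit 78) (nat_lit 76) (nat_lit 0) (XT.lf (nat_lit 0) (nat_lit 506438317) (nat_lit 152) (nat_lit 42545699860) (nat_lit 76) (nat_lit 202855931816) (nat_lit 6) (nat_lit 5) (nat_lit 8) (nat_lit 5) (nat_lit 7) (nat_lit 4) (nat_lit 411) (nat_lit 314) (nat_lit 175)) (XT.nd (nat_lit 78) (nat_lit 76) (nat_lit 0) (XT.lf (nat_lit 0) (nat_lit 16766743006) (nat_lit 152) (nat_lit 9214431853) (nat_lit 76) (nat_lit 231303237185) (nat_lit 6) (nat_lit 5) (nat_lit 8) (nat_lit 5) (nat_lit 7) (nat_lit 4) (nat_lit 412) (nat_lit 314) (nat_lit 174)) (XT.lf (nat_lit 0) (nat_lit 26632064808) (nat_lit 76) (nat_lit 7621868954) (nat_lit 152) (nat_lit 234954944256) (nat_lit 5) (nat_lit 5) (nat_lit 6) (nat_lit 5) (nat_lit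 7) (nat_lit 4) (nat_lit 413) (nat_lit 314) (nat_lit 173)))))) (XT.nd (nat_lit 468) (nat_lit 76) (nat_lit 0) (XT.nd (nat_lit 234) (nat_lit 0) (nat_lit 0) (XT.nd (nat_lit 78) (nat_lit 0) (nat_lit 0) (XT.lf (nat_lit 0) (nat_lit 52954143298) (nat_lit 152) (nat_lit 217319240376) (nat_lit 0) (nat_lit 11439250996) (nat_lit 5) (nat_lit 5) (nat_lit 7) (nat_lit 4) (nat_lit 5) (nat_lit 4) (nat_lit 414) (nat_lit 314) (nat_lit 172)) (XT.nd (nat_lit 78) (nat_lit 0) (nat_lit 0) (XT.lf (nat_lit 0) (nat_lit 72712480244) (nat_lit 152) (nat_lit 190927294234) (nat_lit 0) (nat_lit 31195649157) (nat_lit 5) (nat_lit 5) (nat_lit 7) (nat_lit 4) (nat_lit 5) (nat_lit 4) (nat_lit 415) (nat_lit 314) (nat_lit 171)) (XT.lf (nat_lit 0) (nat_lit 93456989527) (nat_lit 152) (nat_lit 163219138082) (nat_lit 0) (nat_lit 51938311977) (nat_lit 5) (nat_lit 5) (nat_lit 7) (nat_lit 4) (nat_lit 5) (nat_lit 4) (nat_lit 416) (nat_lit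 314) (nat_lit 170)))) (XT.nd (nat_lit 78) (nat_lit 0) (nat_lit 0) (XT.lf (nat_lit 0) (nat_lit 115237062834) (nat_lit 152) (nat_lit 134128800119) (nat_lit 0) (nat_lit 73716626748) (nat_lit 5) (nat_lit 5) (nat_lit 7) (nat_lit 4) (nat_lit 5) (nat_lit 4) (nat_lit 417) (nat_lit 314) (nat_lit 169)) (XT.nd (nat_lit 78) (nat_lit 0) (nat_lit 0) (XT.lf (nat_lit 0) (nat_lit 138104557483) (nat_lit 152) (nat_lit 103587017638) (nat_lit 0) (nat_lit 96582446601) (nat_lit 5) (nat_lit 5) (nat_lit 7) (nat_lit 4) (nat_lit 5) (nat_lit 4) (nat_lit 418) (nat_lit 314) (nat_lit 168)) (XT.lf (nat_lit 0) (nat_lit 162113919890) (nat_lit 152) (nat_lit 71521072106) (nat_lit 0) (nat_lit 120590213964) (nat_lit 5) (nat_lit 5) (nat_lit 7) (nat_lit 4) (nat_lit 5) (nat_lit 4) (nat_lit 419) (nat_lit 314) (nat_lit 167))))) (XT.nd (nat_lit 234) (nat_lit 0) (nat_lit 0) (XT.nd (nat_lit 78) (nat_lit 76) (nat_lit 0) (XT.lf (nat_lit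 0) (nat_lit 187322315203) (nat_lit 152) (nat_lit 37854616036) (nat_lit 0) (nat_lit 145797090188) (nat_lit 5) (nat_lit 5) (nat_lit 7) (nat_lit 4) (nat_lit 5) (nat_lit 4) (nat_lit 420) (nat_lit 314) (nat_lit 166)) (XT.nd (nat_lit 78) (nat_lit 76) (nat_lit 0) (XT.lf (nat_lit 0) (nat_lit 213789763412) (nat_lit 152) (nat_lit 2507491199) (nat_lit 0) (nat_lit 172263091644) (nat_lit 5) (nat_lit 5) (nat_lit 7) (nat_lit 4) (nat_lit 5) (nat_lit 4) (nat_lit 421) (nat_lit 314) (nat_lit 165)) (XT.lf (nat_lit 0) (nat_lit 35748642025) (nat_lit 76) (nat_lit 206388776711) (nat_lit 76) (nat_lit 164860727085) (nat_lit 4) (nat_lit 4) (nat_lit 5) (nat_lit 5) (nat_lit 5) (nat_lit 4) (nat_lit 422) (nat_lit 314) (nat_lit 164)))) (XT.nd (nat_lit 78) (nat_lit 0) (nat_lit 0) (XT.lf (nat_lit 0) (nat_lit 76002149459) (nat_lit 76) (nat_lit 195941494327) (nat_lit 76) (nat_lit 154412132453) (nat_lit 4) (nat_lit 4) (nat_lit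 5) (nat_lit 5) (nat_lit 5) (nat_lit 4) (nat_lit 423) (nat_lit 314) (nat_lit 163)) (XT.nd (nat_lit 78) (nat_lit 0) (nat_lit 0) (XT.lf (nat_lit 0) (nat_lit 118265963803) (nat_lit 76) (nat_lit 184972998552) (nat_lit 76) (nat_lit 143442386920) (nat_lit 4) (nat_lit 4) (nat_lit 5) (nat_lit 5) (nat_lit 5) (nat_lit 4) (nat_lit 424) (nat_lit 314) (nat_lit 162)) (XT.lf (nat_lit 0) (nat_lit 162640713187) (nat_lit 76) (nat_lit 173457173921) (nat_lit 76) (nat_lit 131925372043) (nat_lit 4) (nat_lit 4) (nat_lit 5) (nat_lit 5) (nat_lit 5) (nat_lit 4) (nat_lit 425) (nat_lit 314) (nat_lit 161))))))))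
noncomputable def xc141 : XT := (XT.nd (nat_lit 39546) (nat_lit 0) (nat_lit 2736) (XT.nd (nat_lit 38688) (nat_lit 0) (nat_lit 6232) (XT.nd (nat_lit 38220) (nat_lit 0) (nat_lit 7904) (XT.nd (nat_lit 156) (nat_lit 0) (nat_lit 0) (XT.nd (nat_lit 78) (nat_lit 0) (nat_lit 0) (XT.lf (nat_lit 0) (nat_lit 209232051775) (nat_lit 76) (nat_lit 161366601804) (nat_lit 76) (nat_lit 119833666358) (nat_lit 4) (nat_lit 4) (nat_lit 5) (nat_lit 5) (nat_lit 5) (nat_lit 4) (nat_lit 426) (nat_lit 314) (nat_lit 160)) (XT.lf (nat_lit 0) (nat_lit 258150911326) (nat_lit 76) (nat_lit 148672495124) (nat_lit 76) (nat_lit 107138480090) (nat_lit 4) (nat_lit 4) (nat_lit 5) (nat_lit 5) (nat_lit 5) (nat_lit 4) (nat_lit 427) (nat_lit 314) (nat_lit 159))) (XT.nd (nat_lit 78) (nat_lit 0) (nat_lit 0) (XT.lf (nat_lit 0) (nat_lit 309513765316) (nat_lit 76) (nat_lit 135344629819) (nat_lit 76) (nat_lit 93809586604) (nat_lit 4)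 (nat_lit 4) (nat_lit 5) (nat_lit 5) (nat_lit 5) (nat_lit 4) (nat_lit 428) (nat_lit 314) (nat_lit 158)) (XT.nd (nat_lit 78) (nat_lit 0) (nat_lit 0) (XT.lf (nat_lit 0) (nat_lit 363442906253) (nat_lit 76) (nat_lit 121351272874) (nat_lit 76) (nat_lit 79815250441) (nat_lit 4) (nat_lit 4) (nat_lit 5) (nat_lit 5) (nat_lit 5) (nat_lit 4) (nat_lit 429) (nat_lit 314) (nat_lit 157)) (XT.lf (nat_lit 0) (nat_lit 420066736854) (nat_lit 76) (nat_lit 106659106775) (nat_lit 76) (nat_lit 65122151752) (nat_lit 4) (nat_lit 4) (nat_lit 5) (nat_lit 5) (nat_lit 5) (nat_lit 4) (nat_lit 430) (nat_lit 314) (nat_lit 156))))) (XT.nd (nat_lit 234) (nat_lit 608) (nat_lit 0) (XT.nd (nat_lit 78) (nat_lit 0) (nat_lit 0) (XT.lf (nat_lit 0) (nat_lit 3025631146) (nat_lit 684) (nat_lit 758020861) (nat_lit 684) (nat_lit 758020861) (nat_lit 116) (nat_lit 3) (nat_lit 125) (nat_lit 3) (nat_lit 125) (nat_lit 5) (nat_lit 315) (nat_lit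 315) (nat_lit 270)) (XT.nd (nat_lit 78) (nat_lit 0) (nat_lit 0) (XT.lf (nat_lit 76) (nat_lit 2854025089) (nat_lit 0) (nat_lit 4226159110) (nat_lit 684) (nat_lit 2185157925) (nat_lit 117) (nat_lit 5) (nat_lit 116) (nat_lit 3) (nat_lit 125) (nat_lit 5) (nat_lit 316) (nat_lit 315) (nat_lit 269)) (XT.lf (nat_lit 76) (nat_lit 7466266246) (nat_lit 0) (nat_lit 666181077) (nat_lit 684) (nat_lit 1325473398) (nat_lit 117) (nat_lit 5) (nat_lit 116) (nat_lit 3) (nat_lit 125) (nat_lit 5) (nat_lit 317) (nat_lit 315) (nat_lit 268)))) (XT.nd (nat_lit 78) (nat_lit 684) (nat_lit 0) (XT.lf (nat_lit 76) (nat_lit 2655435582) (nat_lit 0) (nat_lit 6620456336) (nat_lit 684) (nat_lit 382381392) (nat_lit 118) (nat_lit 5) (nat_lit 117) (nat_lit 5) (nat_lit 126) (nat_lit 5) (nat_lit 318) (nat_lit 315) (nat_lit 267)) (XT.nd (nat_lit 78) (nat_lit 0) (nat_lit 76) (XT.lf (nat_lit 0) (nat_lit 583845716) (nat_lit 684) (nat_lit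 2315701243) (nat_lit 760) (nat_lit 6968916891) (nat_lit 108) (nat_lit 5) (nat_lit 117) (nat_lit 5) (nat_lit 118) (nat_lit 5) (nat_lit 319) (nat_lit 315) (nat_lit 266)) (XT.lf (nat_lit 0) (nat_lit 1596352823) (nat_lit 684) (nat_lit 7451806682) (nat_lit 760) (nat_lit 1040213500) (nat_lit 109) (nat_lit 5) (nat_lit 118) (nat_lit 5) (nat_lit 119) (nat_lit 5) (nat_lit 320) (nat_lit 315) (nat_lit 265)))))) (XT.nd (nat_lit 390) (nat_lit 1748) (nat_lit 0) (XT.nd (nat_lit 156) (nat_lit 0) (nat_lit 76) (XT.nd (nat_lit 78) (nat_lit 0) (nat_lit 0) (XT.lf (nat_lit 0) (nat_lit 2701520035) (nat_lit 684) (nat_lit 2481040043) (nat_lit 760) (nat_lit 5134676250) (nat_lit 109) (nat_lit 5) (nat_lit 118) (nat_lit 5) (nat_lit 119) (nat_lit 5) (nat_lit 321) (nat_lit 315) (nat_lit 264)) (XT.lf (nat_lit 76) (nat_lit 2796936730) (nat_lit 0) (nat_lit 1065477623) (nat_lit 760) (nat_lit 6695162598) (nat_lit 110) (nat_lit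 5) (nat_lit 109) (nat_lit 5) (nat_lit 119) (nat_lit 5) (nat_lit 322) (nat_lit 315) (nat_lit 263))) (XT.nd (nat_lit 78) (nat_lit 0) (nat_lit 0) (XT.lf (nat_lit 0) (nat_lit 5133477756) (nat_lit 684) (nat_lit 2467093772) (nat_lit 760) (nat_lit 3206811689) (nat_lit 110) (nat_lit 5) (nat_lit 119) (nat_lit 5) (nat_lit 120) (nat_lit 5) (nat_lit 323) (nat_lit 315) (nat_lit 262)) (XT.nd (nat_lit 78) (nat_lit 0) (nat_lit 76) (XT.lf (nat_lit 76) (nat_lit 3143157518) (nat_lit 0) (nat_lit 3352010369) (nat_lit 760) (nat_lit 4573210449) (nat_lit 111) (nat_lit 5) (nat_lit 110) (nat_lit 5) (nat_lit 120) (nat_lit 5) (nat_lit 324) (nat_lit 315) (nat_lit 261)) (XT.lf (nat_lit 0) (nat_lit 7946774406) (nat_lit 684) (nat_lit 2271434117) (nat_lit 76) (nat_lit 1123172825) (nat_lit 111) (nat_lit 5) (nat_lit 120) (nat_lit 5) (nat_lit 112) (nat_lit 5) (nat_lit 325) (nat_lit 315) (nat_lit 260))))) (XT.nd (nat_lit 234)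 (nat_lit 380) (nat_lit 0) (XT.nd (nat_lit 78) (nat_lit 836) (nat_lit 0) (XT.lf (nat_lit 0) (nat_lit 3697309774) (nat_lit 684) (nat_lit 5850186162) (nat_lit 760) (nat_lit 2076759206) (nat_lit 102) (nat_lit 5) (nat_lit 111) (nat_lit 5) (nat_lit 112) (nat_lit 5) (nat_lit 326) (nat_lit 315) (nat_lit 259)) (XT.nd (nat_lit 78) (nat_lit 836) (nat_lit 0) (XT.lf (nat_lit 0) (nat_lit 10012733672) (nat_lit 684) (nat_lit 1219089062) (nat_lit 760) (nat_lit 689316540) (nat_lit 102) (nat_lit 5) (nat_lit 111) (nat_lit 5) (nat_lit 112) (nat_lit 5) (nat_lit 327) (nat_lit 315) (nat_lit 258)) (XT.lf (nat_lit 0) (nat_lit 837866694) (nat_lit 836) (nat_lit 7775558188) (nat_lit 76) (nat_lit 3614137846) (nat_lit 91) (nat_lit 5) (nat_lit 102) (nat_lit 5) (nat_lit 92) (nat_lit 5) (nat_lit 328) (nat_lit 315) (nat_lit 257)))) (XT.nd (nat_lit 78) (nat_lit 380) (nat_lit 0) (XT.lf (nat_lit 0) (nat_lit 2438444365) (nat_lit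 836) (nat_lit 1414361794) (nat_lit 76) (nat_lit 8694965108) (nat_lit 91) (nat_lit 5) (nat_lit 102) (nat_lit 5) (nat_lit 92) (nat_lit 5) (nat_lit 329) (nat_lit 315) (nat_lit 256)) (XT.nd (nat_lit 78) (nat_lit 0) (nat_lit 0) (XT.lf (nat_lit 0) (nat_lit 4191694299) (nat_lit 456) (nat_lit 7492711403) (nat_lit 76) (nat_lit 1195989472) (nat_lit 86) (nat_lit 5) (nat_lit 92) (nat_lit 5) (nat_lit 87) (nat_lit 5) (nat_lit 330) (nat_lit 315) (nat_lit 255)) (XT.lf (nat_lit 0) (nat_lit 6090059540) (nat_lit 456) (nat_lit 744176461) (nat_lit 76) (nat_lit 6392576977) (nat_lit 86) (nat_lit 5) (nat_lit 92) (nat_lit 5) (nat_lit 87) (nat_lit 5) (nat_lit 331) (nat_lit 315) (nat_lit 254))))))) (XT.nd (nat_lit 858) (nat_lit 1520) (nat_lit 0) (XT.nd (nat_lit 390) (nat_lit 912) (nat_lit 0) (XT.nd (nat_lit 156) (nat_lit 380) (nat_lit 0) (XT.nd (nat_lit 78) (nat_lit 380) (nat_lit 0) (XT.lf (nat_lit 0) (nat_lit 6520869522)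 (nat_lit 304) (nat_lit 1635660171) (nat_lit 380) (nat_lit 5430396308) (nat_lit 82) (nat_lit 5) (nat_lit 86) (nat_lit 5) (nat_lit 87) (nat_lit 5) (nat_lit 332) (nat_lit 315) (nat_lit 253)) (XT.lf (nat_lit 0) (nat_lit 124128502) (nat_lit 380) (nat_lit 10248890916) (nat_lit 456) (nat_lit 3589722513) (nat_lit 77) (nat_lit 5) (nat_lit 82) (nat_lit 5) (nat_lit 83) (nat_lit 5) (nat_lit 333) (nat_lit 315) (nat_lit 252))) (XT.nd (nat_lit 78) (nat_lit 380) (nat_lit 0) (XT.lf (nat_lit 0) (nat_lit 7861390306) (nat_lit 380) (nat_lit 4958106831) (nat_lit 456) (nat_lit 1531923875) (nat_lit 77) (nat_lit 5) (nat_lit 82) (nat_lit 5) (nat_lit 83) (nat_lit 5) (nat_lit 334) (nat_lit 315) (nat_lit 251)) (XT.nd (nat_lit 78) (nat_lit 0) (nat_lit 0) (XT.lf (nat_lit 0) (nat_lit 611472062) (nat_lit 380) (nat_lit 13543268391) (nat_lit 76) (nat_lit 604188859) (nat_lit 72) (nat_lit 5) (nat_lit 77) (nat_lit 5) (nat_lit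 73) (nat_lit 5) (nat_lit 335) (nat_lit 315) (nat_lit 250)) (XT.lf (nat_lit 0) (nat_lit 2978224897) (nat_lit 380) (nat_lit 5787819253) (nat_lit 76) (nat_lit 6411156086) (nat_lit 72) (nat_lit 5) (nat_lit 77) (nat_lit 5) (nat_lit 73) (nat_lit 5) (nat_lit 336) (nat_lit 315) (nat_lit 249))))) (XT.nd (nat_lit 234) (nat_lit 380) (nat_lit 0) (XT.nd (nat_lit 78) (nat_lit 228) (nat_lit 0) (XT.lf (nat_lit 0) (nat_lit 2403508301) (nat_lit 304) (nat_lit 3073214198) (nat_lit 380) (nat_lit 10139016971) (nat_lit 68) (nat_lit 5) (nat_lit 72) (nat_lit 5) (nat_lit 73) (nat_lit 5) (nat_lit 337) (nat_lit 315) (nat_lit 248)) (XT.nd (nat_lit 78) (nat_lit 228) (nat_lit 0) (XT.lf (nat_lit 0) (nat_lit 8221625179) (nat_lit 380) (nat_lit 4942386732) (nat_lit 76) (nat_lit 2906143665) (nat_lit 68) (nat_lit 5) (nat_lit 73) (nat_lit 5) (nat_lit 69) (nat_lit 5) (nat_lit 338) (nat_lit 315) (nat_lit 247)) (XT.lf (nat_lit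 0) (nat_lit 3783597821) (nat_lit 228) (nat_lit 7407257067) (nat_lit 304) (nat_lit 5352106289) (nat_lit 65) (nat_lit 5) (nat_lit 68) (nat_lit 5) (nat_lit 69) (nat_lit 5) (nat_lit 339) (nat_lit 315) (nat_lit 246)))) (XT.nd (nat_lit 78) (nat_lit 380) (nat_lit 0) (XT.lf (nat_lit 0) (nat_lit 13089852551) (nat_lit 228) (nat_lit 1280658119) (nat_lit 304) (nat_lit 2665819854) (nat_lit 65) (nat_lit 5) (nat_lit 68) (nat_lit 5) (nat_lit 69) (nat_lit 5) (nat_lit 340) (nat_lit 315) (nat_lit 245)) (XT.nd (nat_lit 78) (nat_lit 0) (nat_lit 0) (XT.lf (nat_lit 0) (nat_lit 295671844) (nat_lit 380) (nat_lit 12180729120) (nat_lit 76) (nat_lit 5070573984) (nat_lit 60) (nat_lit 5) (nat_lit 65) (nat_lit 5) (nat_lit 61) (nat_lit 5) (nat_lit 341) (nat_lit 315) (nat_lit 244)) (XT.lf (nat_lit 0) (nat_lit 3384005783) (nat_lit 380) (nat_lit 2891512974) (nat_lit 76) (nat_lit 11802048647) (nat_lit 60) (nat_lit 5) (nat_lit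 65) (nat_lit 5) (nat_lit 61) (nat_lit 5) (nat_lit 342) (nat_lit 315) (nat_lit 243)))))) (XT.nd (nat_lit 468) (nat_lit 608) (nat_lit 0) (XT.nd (nat_lit 234) (nat_lit 456) (nat_lit 0) (XT.nd (nat_lit 78) (nat_lit 228) (nat_lit 0) (XT.lf (nat_lit 0) (nat_lit 6722803542) (nat_lit 304) (nat_lit 11573580925) (nat_lit 76) (nat_lit 333520509) (nat_lit 57) (nat_lit 5) (nat_lit 61) (nat_lit 5) (nat_lit 58) (nat_lit 5) (nat_lit 343) (nat_lit 315) (nat_lit 242)) (XT.nd (nat_lit 78) (nat_lit 228) (nat_lit 0) (XT.lf (nat_lit 0) (nat_lit 10362025977) (nat_lit 304) (nat_lit 1735812090) (nat_lit 76) (nat_lit 7105364122) (nat_lit 57) (nat_lit 5) (nat_lit 61) (nat_lit 5) (nat_lit 58) (nat_lit 5) (nat_lit 344) (nat_lit 315) (nat_lit 241)) (XT.lf (nat_lit 0) (nat_lit 8851765807) (nat_lit 228) (nat_lit 5451392679) (nat_lit 304) (nat_lit 5496024521) (nat_lit 54) (nat_lit 5) (nat_lit 57) (nat_lit 5) (nat_lit 58)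 (nat_lit 5) (nat_lit 345) (nat_lit 315) (nat_lit 240)))) (XT.nd (nat_lit 78) (nat_lit 456) (nat_lit 0) (XT.lf (nat_lit 0) (nat_lit 18477187596) (nat_lit 304) (nat_lit 444608606) (nat_lit 76) (nat_lit 1501390084) (nat_lit 54) (nat_lit 5) (nat_lit 58) (nat_lit 5) (nat_lit 55) (nat_lit 5) (nat_lit 346) (nat_lit 315) (nat_lit 239)) (XT.nd (nat_lit 78) (nat_lit 228) (nat_lit 0) (XT.lf (nat_lit 0) (nat_lit 1969643345) (nat_lit 228) (nat_lit 10282519071) (nat_lit 76) (nat_lit 8812593820) (nat_lit 51) (nat_lit 5) (nat_lit 54) (nat_lit 5) (nat_lit 52) (nat_lit 5) (nat_lit 347) (nat_lit 315) (nat_lit 238)) (XT.lf (nat_lit 0) (nat_lit 817243089) (nat_lit 228) (nat_lit 5201953369) (nat_lit 304) (nat_lit 15717450101) (nat_lit 48) (nat_lit 5) (nat_lit 51) (nat_lit 5) (nat_lit 52) (nat_lit 5) (nat_lit 348) (nat_lit 315) (nat_lit 237))))) (XT.nd (nat_lit 234) (nat_lit 456) (nat_lit 0) (XT.nd (nat_lit 78)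 (nat_lit 152) (nat_lit 0) (XT.lf (nat_lit 0) (nat_lit 10465997839) (nat_lit 304) (nat_lit 9666695920) (nat_lit 76) (nat_lit 2299711795) (nat_lit 48) (nat_lit 5) (nat_lit 52) (nat_lit 5) (nat_lit 49) (nat_lit 5) (nat_lit 349) (nat_lit 315) (nat_lit 236)) (XT.nd (nat_lit 78) (nat_lit 0) (nat_lit 0) (XT.lf (nat_lit 0) (nat_lit 2106961363) (nat_lit 152) (nat_lit 13130557423) (nat_lit 228) (nat_lit 7920326819) (nat_lit 46) (nat_lit 5) (nat_lit 48) (nat_lit 5) (nat_lit 49) (nat_lit 5) (nat_lit 350) (nat_lit 315) (nat_lit 235)) (XT.lf (nat_lit 0) (nat_lit 14781448301) (nat_lit 152) (nat_lit 5614469492) (nat_lit 228) (nat_lit 3516236274) (nat_lit 46) (nat_lit 5) (nat_lit 48) (nat_lit 5) (nat_lit 49) (nat_lit 5) (nat_lit 351) (nat_lit 315) (nat_lit 234)))) (XT.nd (nat_lit 78) (nat_lit 152) (nat_lit 0) (XT.lf (nat_lit 0) (nat_lit 1148226853) (nat_lit 304) (nat_lit 21282025536) (nat_lit 76) (nat_lit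 2269289360) (nat_lit 42) (nat_lit 5) (nat_lit 46) (nat_lit 5) (nat_lit 43) (nat_lit 5) (nat_lit 352) (nat_lit 315) (nat_lit 233)) (XT.nd (nat_lit 78) (nat_lit 152) (nat_lit 0) (XT.lf (nat_lit 0) (nat_lit 6162263582) (nat_lit 304) (nat_lit 8783731196) (nat_lit 76) (nat_lit 10565705865) (nat_lit 42) (nat_lit 5) (nat_lit 46) (nat_lit 5) (nat_lit 43) (nat_lit 5) (nat_lit 353) (nat_lit 315) (nat_lit 232)) (XT.lf (nat_lit 0) (nat_lit 4460240911) (nat_lit 152) (nat_lit 7022408260) (nat_lit 228) (nat_lit 14879045427) (nat_lit 40) (nat_lit 5) (nat_lit 42) (nat_lit 5) (nat_lit 43) (nat_lit 5) (nat_lit 354) (nat_lit 315) (nat_lit 231))))))))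
noncomputable def xc142 : XT := (XT.nd (nat_lit 1716) (nat_lit 760) (nat_lit 0) (XT.nd (nat_lit 858) (nat_lit 684) (nat_lit 0) (XT.nd (nat_lit 390) (nat_lit 456) (nat_lit 0) (XT.nd (nat_lit 156) (nat_lit 228) (nat_lit 0) (XT.nd (nat_lit 78) (nat_lit 152) (nat_lit 0) (XT.lf (nat_lit 0) (nat_lit 17226718787) (nat_lit 228) (nat_lit 8620286850) (nat_lit 76) (nat_lit 1399308390) (nat_lit 40) (nat_lit 5) (nat_lit 43) (nat_lit 5) (nat_lit 41) (nat_lit 5) (nat_lit 355) (nat_lit 315) (nat_lit 230)) (XT.lf (nat_lit 0) (nat_lit 5360229754) (nat_lit 152) (nat_lit 18083442249) (nat_lit 228) (nat_lit 4722217008) (nat_lit 38) (nat_lit 5) (nat_lit 40) (nat_lit 5) (nat_lit 41) (nat_lit 5) (nat_lit 356) (nat_lit 315) (nat_lit 229))) (XT.nd (nat_lit 78) (nat_lit 152) (nat_lit 0) (XT.lf (nat_lit 0) (nat_lit 948478508) (nat_lit 228) (nat_lit 8821848759) (nat_lit 76) (nat_lit 19353700773) (nat_lit 37) (nat_lit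 5) (nat_lit 40) (nat_lit 5) (nat_lit 38) (nat_lit 5) (nat_lit 357) (nat_lit 315) (nat_lit 228)) (XT.nd (nat_lit 78) (nat_lit 0) (nat_lit 0) (XT.lf (nat_lit 0) (nat_lit 5954072023) (nat_lit 152) (nat_lit 870472972) (nat_lit 228) (nat_lit 23297639091) (nat_lit 35) (nat_lit 5) (nat_lit 37) (nat_lit 5) (nat_lit 38) (nat_lit 5) (nat_lit 358) (nat_lit 315) (nat_lit 227)) (XT.lf (nat_lit 0) (nat_lit 13266308632) (nat_lit 228) (nat_lit 9542873355) (nat_lit 76) (nat_lit 8347478320) (nat_lit 35) (nat_lit 5) (nat_lit 38) (nat_lit 5) (nat_lit 36) (nat_lit 5) (nat_lit 359) (nat_lit 315) (nat_lit 226))))) (XT.nd (nat_lit 234) (nat_lit 152) (nat_lit 0) (XT.nd (nat_lit 78) (nat_lit 152) (nat_lit 0) (XT.lf (nat_lit 0) (nat_lit 5971038129) (nat_lit 152) (nat_lit 14154934726) (nat_lit 228) (nat_lit 12112103594) (nat_lit 33) (nat_lit 5) (nat_lit 35) (nat_lit 5) (nat_lit 36) (nat_lit 5) (nat_lit 360) (nat_lit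 315) (nat_lit 225)) (XT.nd (nat_lit 78) (nat_lit 152) (nat_lit 0) (XT.lf (nat_lit 0) (nat_lit 22572835964) (nat_lit 152) (nat_lit 4905973059) (nat_lit 228) (nat_lit 5887251343) (nat_lit 33) (nat_lit 5) (nat_lit 35) (nat_lit 5) (nat_lit 36) (nat_lit 5) (nat_lit 361) (nat_lit 315) (nat_lit 224)) (XT.lf (nat_lit 0) (nat_lit 781030693) (nat_lit 152) (nat_lit 29017663972) (nat_lit 76) (nat_lit 4743600402) (nat_lit 31) (nat_lit 5) (nat_lit 33) (nat_lit 5) (nat_lit 32) (nat_lit 5) (nat_lit 362) (nat_lit 315) (nat_lit 223)))) (XT.nd (nat_lit 78) (nat_lit 152) (nat_lit 0) (XT.lf (nat_lit 0) (nat_lit 7840147814) (nat_lit 152) (nat_lit 12933749235) (nat_lit 76) (nat_lit 14985860813) (nat_lit 31) (nat_lit 5) (nat_lit 33) (nat_lit 5) (nat_lit 32) (nat_lit 5) (nat_lit 363) (nat_lit 315) (nat_lit 222)) (XT.nd (nat_lit 78) (nat_lit 0) (nat_lit 0) (XT.lf (nat_lit 0) (nat_lit 4066703758) (nat_lit 152) (nat_lit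 11238591041) (nat_lit 228) (nat_lit 21730150568) (nat_lit 29) (nat_lit 5) (nat_lit 31) (nat_lit 5) (nat_lit 32) (nat_lit 5) (nat_lit 364) (nat_lit 315) (nat_lit 221)) (XT.lf (nat_lit 0) (nat_lit 22348679949) (nat_lit 152) (nat_lit 1003862283) (nat_lit 228) (nat_lit 15011937880) (nat_lit 29) (nat_lit 5) (nat_lit 31) (nat_lit 5) (nat_lit 32) (nat_lit 5) (nat_lit 365) (nat_lit 315) (nat_lit 220)))))) (XT.nd (nat_lit 390) (nat_lit 380) (nat_lit 0) (XT.nd (nat_lit 156) (nat_lit 152) (nat_lit 0) (XT.nd (nat_lit 78) (nat_lit 76) (nat_lit 0) (XT.lf (nat_lit 0) (nat_lit 1669021610) (nat_lit 76) (nat_lit 30301478150) (nat_lit 152) (nat_lit 7781054230) (nat_lit 28) (nat_lit 5) (nat_lit 29) (nat_lit 5) (nat_lit 30) (nat_lit 4) (nat_lit 366) (nat_lit 315) (nat_lit 219)) (XT.lf (nat_lit 0) (nat_lit 99772944) (nat_lit 152) (nat_lit 20435389844) (nat_lit 76) (nat_lit 20658852254) (nat_lit 27) (nat_lit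 5) (nat_lit 29) (nat_lit 5) (nat_lit 28) (nat_lit 5) (nat_lit 367) (nat_lit 315) (nat_lit 218))) (XT.nd (nat_lit 78) (nat_lit 152) (nat_lit 0) (XT.lf (nat_lit 0) (nat_lit 8103836132) (nat_lit 152) (nat_lit 2049761480) (nat_lit 76) (nat_lit 32549093297) (nat_lit 27) (nat_lit 5) (nat_lit 29) (nat_lit 5) (nat_lit 28) (nat_lit 5) (nat_lit 368) (nat_lit 315) (nat_lit 217)) (XT.nd (nat_lit 78) (nat_lit 0) (nat_lit 0) (XT.lf (nat_lit 0) (nat_lit 16793410908) (nat_lit 228) (nat_lit 26479831151) (nat_lit 76) (nat_lit 999297022) (nat_lit 25) (nat_lit 5) (nat_lit 28) (nat_lit 5) (nat_lit 26) (nat_lit 4) (nat_lit 369) (nat_lit 315) (nat_lit 216)) (XT.lf (nat_lit 0) (nat_lit 26110412638) (nat_lit 228) (nat_lit 7403322080) (nat_lit 76) (nat_lit 12397501280) (nat_lit 25) (nat_lit 5) (nat_lit 28) (nat_lit 5) (nat_lit 26) (nat_lit 4) (nat_lit 370) (nat_lit 315) (nat_lit 215))))) (XT.nd (nat_lit 234) (nat_lit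 76) (nat_lit 0) (XT.nd (nat_lit 78) (nat_lit 228) (nat_lit 0) (XT.lf (nat_lit 0) (nat_lit 13029149935) (nat_lit 76) (nat_lit 23059167507) (nat_lit 152) (nat_lit 11533801236) (nat_lit 24) (nat_lit 5) (nat_lit 25) (nat_lit 5) (nat_lit 26) (nat_lit 4) (nat_lit 371) (nat_lit 315) (nat_lit 214)) (XT.nd (nat_lit 78) (nat_lit 228) (nat_lit 0) (XT.lf (nat_lit 0) (nat_lit 34725635448) (nat_lit 76) (nat_lit 11956662306) (nat_lit 152) (nat_lit 2730392123) (nat_lit 24) (nat_lit 5) (nat_lit 25) (nat_lit 5) (nat_lit 26) (nat_lit 4) (nat_lit 372) (nat_lit 315) (nat_lit 213)) (XT.lf (nat_lit 0) (nat_lit 6299897212) (nat_lit 152) (nat_lit 95247309) (nat_lit 228) (nat_lit 44888042755) (nat_lit 21) (nat_lit 5) (nat_lit 23) (nat_lit 5) (nat_lit 24) (nat_lit 5) (nat_lit 373) (nat_lit 315) (nat_lit 212)))) (XT.nd (nat_lit 78) (nat_lit 76) (nat_lit 0) (XT.lf (nat_lit 0) (nat_lit 16323095024) (nat_lit 228) (nat_lit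 24644746953) (nat_lit 76) (nat_lit 12255237669) (nat_lit 21) (nat_lit 5) (nat_lit 24) (nat_lit 5) (nat_lit 22) (nat_lit 4) (nat_lit 374) (nat_lit 315) (nat_lit 211)) (XT.nd (nat_lit 78) (nat_lit 76) (nat_lit 0) (XT.lf (nat_lit 0) (nat_lit 26741503345) (nat_lit 228) (nat_lit 3304429902) (nat_lit 76) (nat_lit 25214333171) (nat_lit 21) (nat_lit 5) (nat_lit 24) (nat_lit 5) (nat_lit 22) (nat_lit 4) (nat_lit 375) (nat_lit 315) (nat_lit 210)) (XT.lf (nat_lit 0) (nat_lit 19721158682) (nat_lit 76) (nat_lit 18260432013) (nat_lit 152) (nat_lit 19402686565) (nat_lit 20) (nat_lit 5) (nat_lit 21) (nat_lit 5) (nat_lit 22) (nat_lit 4) (nat_lit 376) (nat_lit 315) (nat_lit 209))))))) (XT.nd (nat_lit 858) (nat_lit 304) (nat_lit 0) (XT.nd (nat_lit 390) (nat_lit 228) (nat_lit 0) (XT.nd (nat_lit 156) (nat_lit 76) (nat_lit 0) (XT.nd (nat_lit 78) (nat_lit 152) (nat_lit 0) (XT.lf (nat_lit 0) (nat_lit 44000013269)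 (nat_lit 76) (nat_lit 5832628669) (nat_lit 152) (nat_lit 9779401266) (nat_lit 20) (nat_lit 5) (nat_lit 21) (nat_lit 5) (nat_lit 22) (nat_lit 4) (nat_lit 377) (nat_lit 315) (nat_lit 208)) (XT.lf (nat_lit 0) (nat_lit 543878123) (nat_lit 152) (nat_lit 54286907714) (nat_lit 76) (nat_lit 7108698491) (nat_lit 18) (nat_lit 5) (nat_lit 20) (nat_lit 5) (nat_lit 19) (nat_lit 4) (nat_lit 378) (nat_lit 315) (nat_lit 207))) (XT.nd (nat_lit 78) (nat_lit 76) (nat_lit 0) (XT.lf (nat_lit 0) (nat_lit 11412284283) (nat_lit 152) (nat_lit 32020324117) (nat_lit 76) (nat_lit 20924794656) (nat_lit 18) (nat_lit 5) (nat_lit 20) (nat_lit 5) (nat_lit 19) (nat_lit 4) (nat_lit 379) (nat_lit 315) (nat_lit 206)) (XT.nd (nat_lit 78) (nat_lit 76) (nat_lit 0) (XT.lf (nat_lit 0) (nat_lit 22817697688) (nat_lit 152) (nat_lit 8652225714) (nat_lit 76) (nat_lit 35426617057) (nat_lit 18) (nat_lit 5) (nat_lit 20) (nat_lit 5) (nat_lit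 19) (nat_lit 4) (nat_lit 380) (nat_lit 315) (nat_lit 205)) (XT.lf (nat_lit 0) (nat_lit 16397859742) (nat_lit 76) (nat_lit 18645430888) (nat_lit 152) (nat_lit 34506850647) (nat_lit 17) (nat_lit 5) (nat_lit 18) (nat_lit 5) (nat_lit 19) (nat_lit 4) (nat_lit 381) (nat_lit 315) (nat_lit 204))))) (XT.nd (nat_lit 234) (nat_lit 152) (nat_lit 0) (XT.nd (nat_lit 78) (nat_lit 76) (nat_lit 0) (XT.lf (nat_lit 0) (nat_lit 42989764907) (nat_lit 76) (nat_lit 5030938265) (nat_lit 152) (nat_lit 24308693857) (nat_lit 17) (nat_lit 5) (nat_lit 18) (nat_lit 5) (nat_lit 19) (nat_lit 4) (nat_lit 382) (nat_lit 315) (nat_lit 203)) (XT.nd (nat_lit 78) (nat_lit 76) (nat_lit 0) (XT.lf (nat_lit 0) (nat_lit 61785847701) (nat_lit 152) (nat_lit 4491746223) (nat_lit 0) (nat_lit 8963080379) (nat_lit 17) (nat_lit 5) (nat_lit 19) (nat_lit 4) (nat_lit 17) (nat_lit 4) (nat_lit 383) (nat_lit 315) (nat_lit 202)) (XT.lf (nat_lit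 0) (nat_lit 22216896507) (nat_lit 76) (nat_lit 54446190603) (nat_lit 76) (nat_lit 1613238164) (nat_lit 16) (nat_lit 4) (nat_lit 17) (nat_lit 5) (nat_lit 17) (nat_lit 4) (nat_lit 384) (nat_lit 315) (nat_lit 201)))) (XT.nd (nat_lit 78) (nat_lit 76) (nat_lit 0) (XT.lf (nat_lit 0) (nat_lit 10545935244) (nat_lit 152) (nat_lit 31223485300) (nat_lit 76) (nat_lit 39682301602) (nat_lit 15) (nat_lit 5) (nat_lit 17) (nat_lit 5) (nat_lit 16) (nat_lit 4) (nat_lit 385) (nat_lit 315) (nat_lit 200)) (XT.nd (nat_lit 78) (nat_lit 76) (nat_lit 0) (XT.lf (nat_lit 0) (nat_lit 23253623304) (nat_lit 152) (nat_lit 5181962979) (nat_lit 76) (nat_lit 56349243166) (nat_lit 15) (nat_lit 5) (nat_lit 17) (nat_lit 5) (nat_lit 16) (nat_lit 4) (nat_lit 386) (nat_lit 315) (nat_lit 199)) (XT.lf (nat_lit 0) (nat_lit 22884785027) (nat_lit 76) (nat_lit 14064226713) (nat_lit 152) (nat_lit 51317965991) (nat_lit 14) (nat_lit 5)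 (nat_lit 15) (nat_lit 5) (nat_lit 16) (nat_lit 4) (nat_lit 387) (nat_lit 315) (nat_lit 198)))))) (XT.nd (nat_lit 468) (nat_lit 76) (nat_lit 0) (XT.nd (nat_lit 234) (nat_lit 152) (nat_lit 0) (XT.nd (nat_lit 78) (nat_lit 76) (nat_lit 0) (XT.lf (nat_lit 0) (nat_lit 51429429220) (nat_lit 152) (nat_lit 39410857028) (nat_lit 0) (nat_lit 1077935542) (nat_lit 14) (nat_lit 5) (nat_lit 16) (nat_lit 4) (nat_lit 14) (nat_lit 4) (nat_lit 388) (nat_lit 315) (nat_lit 197)) (XT.nd (nat_lit 78) (nat_lit 76) (nat_lit 0) (XT.lf (nat_lit 0) (nat_lit 66859712319) (nat_lit 152) (nat_lit 12380406426) (nat_lit 0) (nat_lit 16500618350) (nat_lit 14) (nat_lit 5) (nat_lit 16) (nat_lit 4) (nat_lit 14) (nat_lit 4) (nat_lit 389) (nat_lit 315) (nat_lit 196)) (XT.lf (nat_lit 0) (nat_lit 16521903399) (nat_lit 76) (nat_lit 66793067627) (nat_lit 76) (nat_lit 16426735286) (nat_lit 13) (nat_lit 4) (nat_lit 14) (nat_lit 5) (nat_lit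 14) (nat_lit 4) (nat_lit 390) (nat_lit 315) (nat_lit 195)))) (XT.nd (nat_lit 78) (nat_lit 152) (nat_lit 0) (XT.lf (nat_lit 0) (nat_lit 47290817648) (nat_lit 76) (nat_lit 53507435262) (nat_lit 76) (nat_lit 3134209232) (nat_lit 13) (nat_lit 4) (nat_lit 14) (nat_lit 5) (nat_lit 14) (nat_lit 4) (nat_lit 391) (nat_lit 315) (nat_lit 194)) (XT.nd (nat_lit 78) (nat_lit 76) (nat_lit 0) (XT.lf (nat_lit 0) (nat_lit 10472273430) (nat_lit 152) (nat_lit 28911630915) (nat_lit 76) (nat_lit 68940617042) (nat_lit 12) (nat_lit 5) (nat_lit 14) (nat_lit 5) (nat_lit 13) (nat_lit 4) (nat_lit 392) (nat_lit 315) (nat_lit 193)) (XT.lf (nat_lit 0) (nat_lit 150632334) (nat_lit 76) (nat_lit 24501405012) (nat_lit 152) (nat_lit 88281663874) (nat_lit 11) (nat_lit 5) (nat_lit 12) (nat_lit 5) (nat_lit 13) (nat_lit 4) (nat_lit 393) (nat_lit 315) (nat_lit 192))))) (XT.nd (nat_lit 234) (nat_lit 76) (nat_lit 0) (XT.nd (nat_lit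 78) (nat_lit 0) (nat_lit 0) (XT.lf (nat_lit 0) (nat_lit 31662187643) (nat_lit 76) (nat_lit 8364244988) (nat_lit 152) (nat_lit 77722626209) (nat_lit 11) (nat_lit 5) (nat_lit 12) (nat_lit 5) (nat_lit 13) (nat_lit 4) (nat_lit 394) (nat_lit 315) (nat_lit 191)) (XT.nd (nat_lit 78) (nat_lit 0) (nat_lit 0) (XT.lf (nat_lit 0) (nat_lit 56299649457) (nat_lit 152) (nat_lit 58197162875) (nat_lit 0) (nat_lit 8301867831) (nat_lit 11) (nat_lit 5) (nat_lit 13) (nat_lit 4) (nat_lit 11) (nat_lit 4) (nat_lit 395) (nat_lit 315) (nat_lit 190)) (XT.lf (nat_lit 0) (nat_lit 73519976821) (nat_lit 152) (nat_lit 29057083096) (nat_lit 0) (nat_lit 25517051019) (nat_lit 11) (nat_lit 5) (nat_lit 13) (nat_lit 4) (nat_lit 11) (nat_lit 4) (nat_lit 396) (nat_lit 315) (nat_lit 189)))) (XT.nd (nat_lit 78) (nat_lit 0) (nat_lit 0) (XT.lf (nat_lit 0) (nat_lit 1584037685) (nat_lit 76) (nat_lit 90038519779) (nat_lit 76) (nat_lit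 42030694761) (nat_lit 10) (nat_lit 4) (nat_lit 11) (nat_lit 5) (nat_lit 11) (nat_lit 4) (nat_lit 397) (nat_lit 315) (nat_lit 188)) (XT.nd (nat_lit 78) (nat_lit 0) (nat_lit 0) (XT.lf (nat_lit 0) (nat_lit 34759456187) (nat_lit 76) (nat_lit 76359476422) (nat_lit 76) (nat_lit 28346985484) (nat_lit 10) (nat_lit 4) (nat_lit 11) (nat_lit 5) (nat_lit 11) (nat_lit 4) (nat_lit 398) (nat_lit 315) (nat_lit 187)) (XT.lf (nat_lit 0) (nat_lit 69587403107) (nat_lit 76) (nat_lit 61999456457) (nat_lit 76) (nat_lit 13982521786) (nat_lit 10) (nat_lit 4) (nat_lit 11) (nat_lit 5) (nat_lit 11) (nat_lit 4) (nat_lit 399) (nat_lit 315) (nat_lit 186))))))))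
noncomputable def xc143 : XT := (XT.nd (nat_lit 1794) (nat_lit 76) (nat_lit 0) (XT.nd (nat_lit 858) (nat_lit 152) (nat_lit 0) (XT.nd (nat_lit 390) (nat_lit 76) (nat_lit 0) (XT.nd (nat_lit 156) (nat_lit 76) (nat_lit 0) (XT.nd (nat_lit 78) (nat_lit 0) (nat_lit 0) (XT.lf (nat_lit 0) (nat_lit 1061789868) (nat_lit 152) (nat_lit 45844497566) (nat_lit 76) (nat_lit 105071030335) (nat_lit 9) (nat_lit 5) (nat_lit 11) (nat_lit 5) (nat_lit 10) (nat_lit 4) (nat_lit 400) (nat_lit 315) (nat_lit 185)) (XT.lf (nat_lit 0) (nat_lit 16385400234) (nat_lit 152) (nat_lit 14435126913) (nat_lit 76) (nat_lit 127873814049) (nat_lit 9) (nat_lit 5) (nat_lit 11) (nat_lit 5) (nat_lit 10) (nat_lit 4) (nat_lit 401) (nat_lit 315) (nat_lit 184))) (XT.nd (nat_lit 78) (nat_lit 0) (nat_lit 0) (XT.lf (nat_lit 0) (nat_lit 19152214762) (nat_lit 76) (nat_lit 13619127100) (nat_lit 152) (nat_lit 132961067010) (nat_lit 8) (nat_lit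 5) (nat_lit 9) (nat_lit 5) (nat_lit 10) (nat_lit 4) (nat_lit 402) (nat_lit 315) (nat_lit 183)) (XT.nd (nat_lit 78) (nat_lit 0) (nat_lit 0) (XT.lf (nat_lit 0) (nat_lit 50291554485) (nat_lit 152) (nat_lit 118268943738) (nat_lit 0) (nat_lit 4546133602) (nat_lit 8) (nat_lit 5) (nat_lit 10) (nat_lit 4) (nat_lit 8) (nat_lit 4) (nat_lit 403) (nat_lit 315) (nat_lit 182)) (XT.lf (nat_lit 0) (nat_lit 68908321156) (nat_lit 152) (nat_lit 88770633863) (nat_lit 0) (nat_lit 23159584291) (nat_lit 8) (nat_lit 5) (nat_lit 10) (nat_lit 4) (nat_lit 8) (nat_lit 4) (nat_lit 404) (nat_lit 315) (nat_lit 181))))) (XT.nd (nat_lit 234) (nat_lit 0) (nat_lit 0) (XT.nd (nat_lit 78) (nat_lit 76) (nat_lit 0) (XT.lf (nat_lit 0) (nat_lit 88453334772) (nat_lit 152) (nat_lit 57802397674) (nat_lit 0) (nat_lit 42701439828) (nat_lit 8) (nat_lit 5) (nat_lit 10) (nat_lit 4) (nat_lit 8) (nat_lit 4) (nat_lit 405) (nat_lit 315) (nat_lit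 180)) (XT.nd (nat_lit 78) (nat_lit 76) (nat_lit 0) (XT.lf (nat_lit 0) (nat_lit 108973131077) (nat_lit 152) (nat_lit 25290501275) (nat_lit 0) (nat_lit 63218228440) (nat_lit 8) (nat_lit 5) (nat_lit 10) (nat_lit 4) (nat_lit 8) (nat_lit 4) (nat_lit 406) (nat_lit 315) (nat_lit 179)) (XT.lf (nat_lit 0) (nat_lit 9134836424) (nat_lit 76) (nat_lit 121524350702) (nat_lit 76) (nat_lit 75766583595) (nat_lit 7) (nat_lit 4) (nat_lit 8) (nat_lit 5) (nat_lit 8) (nat_lit 4) (nat_lit 407) (nat_lit 315) (nat_lit 178)))) (XT.nd (nat_lit 78) (nat_lit 0) (nat_lit 0) (XT.lf (nat_lit 0) (nat_lit 46155017762) (nat_lit 76) (nat_lit 107700527038) (nat_lit 76) (nat_lit 61940031865) (nat_lit 7) (nat_lit 4) (nat_lit 8) (nat_lit 5) (nat_lit 8) (nat_lit 4) (nat_lit 408) (nat_lit 315) (nat_lit 177)) (XT.nd (nat_lit 78) (nat_lit 0) (nat_lit 0) (XT.lf (nat_lit 0) (nat_lit 85021967840) (nat_lit 76) (nat_lit 93187554372) (nat_lit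 76) (nat_lit 47424461040) (nat_lit 7) (nat_lit 4) (nat_lit 8) (nat_lit 5) (nat_lit 8) (nat_lit 4) (nat_lit 409) (nat_lit 315) (nat_lit 176)) (XT.lf (nat_lit 0) (nat_lit 125828227016) (nat_lit 76) (nat_lit 77950878006) (nat_lit 76) (nat_lit 32185310238) (nat_lit 7) (nat_lit 4) (nat_lit 8) (nat_lit 5) (nat_lit 8) (nat_lit 4) (nat_lit 410) (nat_lit 315) (nat_lit 175)))))) (XT.nd (nat_lit 468) (nat_lit 0) (nat_lit 0) (XT.nd (nat_lit 234) (nat_lit 76) (nat_lit 0) (XT.nd (nat_lit 78) (nat_lit 76) (nat_lit 0) (XT.lf (nat_lit 0) (nat_lit 168670953048) (nat_lit 76) (nat_lit 61954220140) (nat_lit 76) (nat_lit 16186295765) (nat_lit 7) (nat_lit 4) (nat_lit 8) (nat_lit 5) (nat_lit 8) (nat_lit 4) (nat_lit 411) (nat_lit 315) (nat_lit 174)) (XT.nd (nat_lit 78) (nat_lit 0) (nat_lit 0) (XT.lf (nat_lit 0) (nat_lit 591129846) (nat_lit 152) (nat_lit 44558352577) (nat_lit 76) (nat_lit 213051011511) (nat_lit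 6) (nat_lit 5) (nat_lit 8) (nat_lit 5) (nat_lit 7) (nat_lit 4) (nat_lit 412) (nat_lit 315) (nat_lit 173)) (XT.lf (nat_lit 0) (nat_lit 17661622645) (nat_lit 152) (nat_lit 9565979849) (nat_lit 76) (nat_lit 242918192478) (nat_lit 6) (nat_lit 5) (nat_lit 8) (nat_lit 5) (nat_lit 7) (nat_lit 4) (nat_lit 413) (nat_lit 315) (nat_lit 172)))) (XT.nd (nat_lit 78) (nat_lit 0) (nat_lit 0) (XT.lf (nat_lit 0) (nat_lit 28071080780) (nat_lit 76) (nat_lit 7951076672) (nat_lit 152) (nat_lit 246644378068) (nat_lit 5) (nat_lit 5) (nat_lit 6) (nat_lit 5) (nat_lit 7) (nat_lit 4) (nat_lit 414) (nat_lit 315) (nat_lit 171)) (XT.nd (nat_lit 78) (nat_lit 0) (nat_lit 0) (XT.lf (nat_lit 0) (nat_lit 55655504829) (nat_lit 152) (nat_lit 228081022349) (nat_lit 0) (nat_lit 12059046938) (nat_lit 5) (nat_lit 5) (nat_lit 7) (nat_lit 4) (nat_lit 5) (nat_lit 4) (nat_lit 415) (nat_lit 315) (nat_lit 170)) (XT.lf (nat_lit 0) (nat_lit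 76399203653) (nat_lit 152) (nat_lit 200374439854) (nat_lit 0) (nat_lit 32800987227) (nat_lit 5) (nat_lit 5) (nat_lit 7) (nat_lit 4) (nat_lit 5) (nat_lit 4) (nat_lit 416) (nat_lit 315) (nat_lit 169))))) (XT.nd (nat_lit 234) (nat_lit 0) (nat_lit 0) (XT.nd (nat_lit 78) (nat_lit 0) (nat_lit 0) (XT.lf (nat_lit 0) (nat_lit 98178505095) (nat_lit 152) (nat_lit 171285600613) (nat_lit 0) (nat_lit 54578613873) (nat_lit 5) (nat_lit 5) (nat_lit 7) (nat_lit 4) (nat_lit 5) (nat_lit 4) (nat_lit 417) (nat_lit 315) (nat_lit 168)) (XT.nd (nat_lit 78) (nat_lit 0) (nat_lit 0) (XT.lf (nat_lit 0) (nat_lit 121045264634) (nat_lit 152) (nat_lit 140745245485) (nat_lit 0) (nat_lit 77443778368) (nat_lit 5) (nat_lit 5) (nat_lit 7) (nat_lit 4) (nat_lit 5) (nat_lit 4) (nat_lit 418) (nat_lit 315) (nat_lit 167)) (XT.lf (nat_lit 0) (nat_lit 145053926937) (nat_lit 152) (nat_lit 108680659338) (nat_lit 0) (nat_lit 101450921581)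 (nat_lit 5) (nat_lit 5) (nat_lit 7) (nat_lit 4) (nat_lit 5) (nat_lit 4) (nat_lit 419) (nat_lit 315) (nat_lit 166)))) (XT.nd (nat_lit 78) (nat_lit 0) (nat_lit 0) (XT.lf (nat_lit 0) (nat_lit 170261655484) (nat_lit 152) (nat_lit 75015497920) (nat_lit 0) (nat_lit 126657203377) (nat_lit 5) (nat_lit 5) (nat_lit 7) (nat_lit 4) (nat_lit 5) (nat_lit 4) (nat_lit 420) (nat_lit 315) (nat_lit 165)) (XT.nd (nat_lit 78) (nat_lit 0) (nat_lit 0) (XT.lf (nat_lit 0) (nat_lit 196728468678) (nat_lit 152) (nat_lit 39669606084) (nat_lit 0) (nat_lit 153122638711) (nat_lit 5) (nat_lit 5) (nat_lit 7) (nat_lit 4) (nat_lit 5) (nat_lit 4) (nat_lit 421) (nat_lit 315) (nat_lit 164)) (XT.lf (nat_lit 0) (nat_lit 224517382739) (nat_lit 152) (nat_lit 2558826945) (nat_lit 0) (nat_lit 180910240525) (nat_lit 5) (nat_lit 5) (nat_lit 7) (nat_lit 4) (nat_lit 5) (nat_lit 4) (nat_lit 422) (nat_lit 315) (nat_lit 163))))))) (XT.nd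 (nat_lit 38766) (nat_lit 0) (nat_lit 6612) (XT.nd (nat_lit 390) (nat_lit 0) (nat_lit 0) (XT.nd (nat_lit 156) (nat_lit 0) (nat_lit 0) (XT.nd (nat_lit 78) (nat_lit 0) (nat_lit 0) (XT.lf (nat_lit 0) (nat_lit 37608918766) (nat_lit 76) (nat_lit 216672823604) (nat_lit 76) (nat_lit 173064431632) (nat_lit 4) (nat_lit 4) (nat_lit 5) (nat_lit 5) (nat_lit 5) (nat_lit 4) (nat_lit 423) (nat_lit 315) (nat_lit 162)) (XT.lf (nat_lit 0) (nat_lit 79871632779) (nat_lit 76) (nat_lit 205704862430) (nat_lit 76) (nat_lit 162095280212) (nat_lit 4) (nat_lit 4) (nat_lit 5) (nat_lit 5) (nat_lit 5) (nat_lit 4) (nat_lit 424) (nat_lit 315) (nat_lit 161))) (XT.nd (nat_lit 78) (nat_lit 0) (nat_lit 0) (XT.lf (nat_lit 0) (nat_lit 124245334229) (nat_lit 76) (nat_lit 194189546944) (nat_lit 76) (nat_lit 150578831157) (nat_lit 4) (nat_lit 4) (nat_lit 5) (nat_lit 5) (nat_lit 5) (nat_lit 4) (nat_lit 425) (nat_lit 315) (nat_lit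 160)) (XT.nd (nat_lit 78) (nat_lit 0) (nat_lit 0) (XT.lf (nat_lit 0) (nat_lit 170835674784) (nat_lit 76) (nat_lit 182099459726) (nat_lit 76) (nat_lit 138487664351) (nat_lit 4) (nat_lit 4) (nat_lit 5) (nat_lit 5) (nat_lit 5) (nat_lit 4) (nat_lit 426) (nat_lit 315) (nat_lit 159)) (XT.lf (nat_lit 0) (nat_lit 219753583829) (nat_lit 76) (nat_lit 169405814855) (nat_lit 76) (nat_lit 125792991300) (nat_lit 4) (nat_lit 4) (nat_lit 5) (nat_lit 5) (nat_lit 5) (nat_lit 4) (nat_lit 427) (nat_lit 315) (nat_lit 158))))) (XT.nd (nat_lit 38142) (nat_lit 0) (nat_lit 7828) (XT.nd (nat_lit 78) (nat_lit 0) (nat_lit 0) (XT.lf (nat_lit 0) (nat_lit 271115532573) (nat_lit 76) (nat_lit 156078389367) (nat_lit 76) (nat_lit 112464586594) (nat_lit 4) (nat_lit 4) (nat_lit 5) (nat_lit 5) (nat_lit 5) (nat_lit 4) (nat_lit 428) (nat_lit 315) (nat_lit 157)) (XT.nd (nat_lit 78) (nat_lit 0) (nat_lit 0) (XT.lf (nat_lit 0) (nat_lit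 325043811373) (nat_lit 76) (nat_lit 142085451297) (nat_lit 76) (nat_lit 98470715934) (nat_lit 4) (nat_lit 4) (nat_lit 5) (nat_lit 5) (nat_lit 5) (nat_lit 4) (nat_lit 429) (nat_lit 315) (nat_lit 156)) (XT.lf (nat_lit 0) (nat_lit 381666820891) (nat_lit 76) (nat_lit 127393684125) (nat_lit 76) (nat_lit 83778060582) (nat_lit 4) (nat_lit 4) (nat_lit 5) (nat_lit 5) (nat_lit 5) (nat_lit 4) (nat_lit 430) (nat_lit 315) (nat_lit 155)))) (XT.nd (nat_lit 78) (nat_lit 684) (nat_lit 0) (XT.lf (nat_lit 0) (nat_lit 3996986993) (nat_lit 684) (nat_lit 364789690) (nat_lit 684) (nat_lit 364789690) (nat_lit 116) (nat_lit 3) (nat_lit 125) (nat_lit 3) (nat_lit 125) (nat_lit 5) (nat_lit 316) (nat_lit 316) (nat_lit 268)) (XT.nd (nat_lit 78) (nat_lit 684) (nat_lit 0) (XT.lf (nat_lit 76) (nat_lit 3845083281) (nat_lit 0) (nat_lit 5164401622) (nat_lit 684) (nat_lit 638099895) (nat_lit 117) (nat_lit 5) (nat_lit 116)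 (nat_lit 3) (nat_lit 125) (nat_lit 5) (nat_lit 317) (nat_lit 316) (nat_lit 267)) (XT.lf (nat_lit 0) (nat_lit 179753216) (nat_lit 684) (nat_lit 1209011332) (nat_lit 760) (nat_lit 8464741122) (nat_lit 107) (nat_lit 5) (nat_lit 116) (nat_lit 3) (nat_lit 117) (nat_lit 5) (nat_lit 318) (nat_lit 316) (nat_lit 266)))))) (XT.nd (nat_lit 468) (nat_lit 1292) (nat_lit 0) (XT.nd (nat_lit 234) (nat_lit 0) (nat_lit 76) (XT.nd (nat_lit 78) (nat_lit 0) (nat_lit 0) (XT.lf (nat_lit 0) (nat_lit 1069118537) (nat_lit 684) (nat_lit 6415074913) (nat_lit 760) (nat_lit 2582466380) (nat_lit 108) (nat_lit 5) (nat_lit 117) (nat_lit 5) (nat_lit 118) (nat_lit 5) (nat_lit 319) (nat_lit 316) (nat_lit 265)) (XT.nd (nat_lit 78) (nat_lit 0) (nat_lit 76) (XT.lf (nat_lit 0) (nat_lit 2001388933) (nat_lit 684) (nat_lit 1544213776) (nat_lit 760) (nat_lit 6745007597) (nat_lit 108) (nat_lit 5) (nat_lit 117) (nat_lit 5) (nat_lit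 118) (nat_lit 5) (nat_lit 320) (nat_lit 316) (nat_lit 264)) (XT.lf (nat_lit 0) (nat_lit 3004811554) (nat_lit 684) (nat_lit 6875643989) (nat_lit 760) (nat_lit 644133400) (nat_lit 109) (nat_lit 5) (nat_lit 118) (nat_lit 5) (nat_lit 119) (nat_lit 5) (nat_lit 321) (nat_lit 316) (nat_lit 263)))) (XT.nd (nat_lit 78) (nat_lit 0) (nat_lit 0) (XT.lf (nat_lit 0) (nat_lit 4101968503) (nat_lit 684) (nat_lit 1701517734) (nat_lit 760) (nat_lit 4964656944) (nat_lit 109) (nat_lit 5) (nat_lit 118) (nat_lit 5) (nat_lit 119) (nat_lit 5) (nat_lit 322) (nat_lit 316) (nat_lit 262)) (XT.nd (nat_lit 78) (nat_lit 0) (nat_lit 76) (XT.lf (nat_lit 76) (nat_lit 3825784098) (nat_lit 0) (nat_lit 1448747398) (nat_lit 760) (nat_lit 5748368444) (nat_lit 110) (nat_lit 5) (nat_lit 109) (nat_lit 5) (nat_lit 119) (nat_lit 5) (nat_lit 323) (nat_lit 316) (nat_lit 261)) (XT.lf (nat_lit 0) (nat_lit 6546193799) (nat_lit 684) (nat_lit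 1679297459) (nat_lit 760) (nat_lit 3062929451) (nat_lit 110) (nat_lit 5) (nat_lit 119) (nat_lit 5) (nat_lit 120) (nat_lit 5) (nat_lit 324) (nat_lit 316) (nat_lit 260))))) (XT.nd (nat_lit 234) (nat_lit 836) (nat_lit 0) (XT.nd (nat_lit 78) (nat_lit 608) (nat_lit 0) (XT.lf (nat_lit 76) (nat_lit 4196770411) (nat_lit 0) (nat_lit 3738144575) (nat_lit 760) (nat_lit 3629676107) (nat_lit 111) (nat_lit 5) (nat_lit 110) (nat_lit 5) (nat_lit 120) (nat_lit 5) (nat_lit 325) (nat_lit 316) (nat_lit 259)) (XT.nd (nat_lit 78) (nat_lit 684) (nat_lit 0) (XT.lf (nat_lit 0) (nat_lit 9402757680) (nat_lit 684) (nat_lit 1473507633) (nat_lit 76) (nat_lit 977865519) (nat_lit 111) (nat_lit 5) (nat_lit 120) (nat_lit 5) (nat_lit 112) (nat_lit 5) (nat_lit 326) (nat_lit 316) (nat_lit 258)) (XT.lf (nat_lit 0) (nat_lit 4778971869) (nat_lit 684) (nat_lit 6268133281) (nat_lit 760) (nat_lit 1105929737) (nat_lit 102) (nat_lit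 5) (nat_lit 111) (nat_lit 5) (nat_lit 112) (nat_lit 5) (nat_lit 327) (nat_lit 316) (nat_lit 257)))) (XT.nd (nat_lit 78) (nat_lit 760) (nat_lit 0) (XT.lf (nat_lit 0) (nat_lit 290117816) (nat_lit 760) (nat_lit 1104476994) (nat_lit 76) (nat_lit 11072431259) (nat_lit 101) (nat_lit 5) (nat_lit 111) (nat_lit 5) (nat_lit 102) (nat_lit 5) (nat_lit 328) (nat_lit 316) (nat_lit 256)) (XT.nd (nat_lit 78) (nat_lit 0) (nat_lit 0) (XT.lf (nat_lit 0) (nat_lit 1835654872) (nat_lit 836) (nat_lit 7240306315) (nat_lit 76) (nat_lit 3714043555) (nat_lit 91) (nat_lit 5) (nat_lit 102) (nat_lit 5) (nat_lit 92) (nat_lit 5) (nat_lit 329) (nat_lit 316) (nat_lit 255)) (XT.lf (nat_lit 0) (nat_lit 3470742624) (nat_lit 836) (nat_lit 605051519) (nat_lit 76) (nat_lit 9052759854) (nat_lit 91) (nat_lit 5) (nat_lit 102) (nat_lit 5) (nat_lit 92) (nat_lit 5) (nat_lit 330) (nat_lit 316) (nat_lit 254))))))))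
noncomputable def xc144 : XT := (XT.nd (nat_lit 1716) (nat_lit 1900) (nat_lit 0) (XT.nd (nat_lit 858) (nat_lit 1444) (nat_lit 0) (XT.nd (nat_lit 390) (nat_lit 912) (nat_lit 0) (XT.nd (nat_lit 156) (nat_lit 380) (nat_lit 0) (XT.nd (nat_lit 78) (nat_lit 304) (nat_lit 0) (XT.lf (nat_lit 0) (nat_lit 5281592274) (nat_lit 456) (nat_lit 6956220561) (nat_lit 76) (nat_lit 1241551167) (nat_lit 86) (nat_lit 5) (nat_lit 92) (nat_lit 5) (nat_lit 87) (nat_lit 5) (nat_lit 331) (nat_lit 316) (nat_lit 253)) (XT.lf (nat_lit 0) (nat_lit 89209413) (nat_lit 304) (nat_lit 7145139494) (nat_lit 380) (nat_lit 6610829432) (nat_lit 82) (nat_lit 5) (nat_lit 86) (nat_lit 5) (nat_lit 87) (nat_lit 5) (nat_lit 332) (nat_lit 316) (nat_lit 252))) (XT.nd (nat_lit 78) (nat_lit 380) (nat_lit 0) (XT.lf (nat_lit 0) (nat_lit 7700656640) (nat_lit 304) (nat_lit 1675498946) (nat_lit 380) (nat_lit 4848587728) (nat_lit 82) (nat_lit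 5) (nat_lit 86) (nat_lit 5) (nat_lit 87) (nat_lit 5) (nat_lit 333) (nat_lit 316) (nat_lit 251)) (XT.nd (nat_lit 78) (nat_lit 0) (nat_lit 0) (XT.lf (nat_lit 0) (nat_lit 1010523371) (nat_lit 380) (nat_lit 10668655202) (nat_lit 456) (nat_lit 2941430742) (nat_lit 77) (nat_lit 5) (nat_lit 82) (nat_lit 5) (nat_lit 83) (nat_lit 5) (nat_lit 334) (nat_lit 316) (nat_lit 250)) (XT.lf (nat_lit 0) (nat_lit 9092734530) (nat_lit 380) (nat_lit 5117745259) (nat_lit 456) (nat_lit 820160167) (nat_lit 77) (nat_lit 5) (nat_lit 82) (nat_lit 5) (nat_lit 83) (nat_lit 5) (nat_lit 335) (nat_lit 316) (nat_lit 249))))) (XT.nd (nat_lit 234) (nat_lit 228) (nat_lit 0) (XT.nd (nat_lit 78) (nat_lit 304) (nat_lit 0) (XT.lf (nat_lit 0) (nat_lit 1383832795) (nat_lit 380) (nat_lit 13334000640) (nat_lit 76) (nat_lit 741180454) (nat_lit 72) (nat_lit 5) (nat_lit 77) (nat_lit 5) (nat_lit 73) (nat_lit 5) (nat_lit 336) (nat_lit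 316) (nat_lit 248)) (XT.nd (nat_lit 78) (nat_lit 304) (nat_lit 0) (XT.lf (nat_lit 0) (nat_lit 3833600075) (nat_lit 380) (nat_lit 5232990054) (nat_lit 76) (nat_lit 6833411178) (nat_lit 72) (nat_lit 5) (nat_lit 77) (nat_lit 5) (nat_lit 73) (nat_lit 5) (nat_lit 337) (nat_lit 316) (nat_lit 247)) (XT.lf (nat_lit 0) (nat_lit 3354287423) (nat_lit 304) (nat_lit 3082062045) (nat_lit 380) (nat_lit 9925186724) (nat_lit 68) (nat_lit 5) (nat_lit 72) (nat_lit 5) (nat_lit 73) (nat_lit 5) (nat_lit 338) (nat_lit 316) (nat_lit 246)))) (XT.nd (nat_lit 78) (nat_lit 228) (nat_lit 0) (XT.lf (nat_lit 0) (nat_lit 9287993847) (nat_lit 380) (nat_lit 4367284141) (nat_lit 76) (nat_lit 3184953655) (nat_lit 68) (nat_lit 5) (nat_lit 73) (nat_lit 5) (nat_lit 69) (nat_lit 5) (nat_lit 339) (nat_lit 316) (nat_lit 245)) (XT.nd (nat_lit 78) (nat_lit 0) (nat_lit 0) (XT.lf (nat_lit 0) (nat_lit 4781737996) (nat_lit 228) (nat_lit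 7605373020) (nat_lit 304) (nat_lit 4950526986) (nat_lit 65) (nat_lit 5) (nat_lit 68) (nat_lit 5) (nat_lit 69) (nat_lit 5) (nat_lit 340) (nat_lit 316) (nat_lit 244)) (XT.lf (nat_lit 0) (nat_lit 14514783545) (nat_lit 228) (nat_lit 1180646358) (nat_lit 304) (nat_lit 2161792164) (nat_lit 65) (nat_lit 5) (nat_lit 68) (nat_lit 5) (nat_lit 69) (nat_lit 5) (nat_lit 341) (nat_lit 316) (nat_lit 243)))))) (XT.nd (nat_lit 390) (nat_lit 608) (nat_lit 0) (XT.nd (nat_lit 156) (nat_lit 456) (nat_lit 0) (XT.nd (nat_lit 78) (nat_lit 0) (nat_lit 0) (XT.lf (nat_lit 0) (nat_lit 912949537) (nat_lit 380) (nat_lit 11983377130) (nat_lit 76) (nat_lit 5497323299) (nat_lit 60) (nat_lit 5) (nat_lit 65) (nat_lit 5) (nat_lit 61) (nat_lit 5) (nat_lit 342) (nat_lit 316) (nat_lit 242)) (XT.lf (nat_lit 0) (nat_lit 4127009977) (nat_lit 380) (nat_lit 2268099626) (nat_lit 76) (nat_lit 12557123095) (nat_lit 60) (nat_lit 5) (nat_lit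 65) (nat_lit 5) (nat_lit 61) (nat_lit 5) (nat_lit 343) (nat_lit 316) (nat_lit 241))) (XT.nd (nat_lit 78) (nat_lit 228) (nat_lit 0) (XT.lf (nat_lit 0) (nat_lit 7620301493) (nat_lit 304) (nat_lit 11371326862) (nat_lit 76) (nat_lit 541206000) (nat_lit 57) (nat_lit 5) (nat_lit 61) (nat_lit 5) (nat_lit 58) (nat_lit 5) (nat_lit 344) (nat_lit 316) (nat_lit 240)) (XT.nd (nat_lit 78) (nat_lit 228) (nat_lit 0) (XT.lf (nat_lit 0) (nat_lit 11414753727) (nat_lit 304) (nat_lit 1078856877) (nat_lit 76) (nat_lit 7642546105) (nat_lit 57) (nat_lit 5) (nat_lit 61) (nat_lit 5) (nat_lit 58) (nat_lit 5) (nat_lit 345) (nat_lit 316) (nat_lit 239)) (XT.lf (nat_lit 0) (nat_lit 10026104015) (nat_lit 228) (nat_lit 5512805111) (nat_lit 304) (nat_lit 5223751712) (nat_lit 54) (nat_lit 5) (nat_lit 57) (nat_lit 5) (nat_lit 58) (nat_lit 5) (nat_lit 346) (nat_lit 316) (nat_lit 238))))) (XT.nd (nat_lit 234) (nat_lit 152)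 (nat_lit 0) (XT.nd (nat_lit 78) (nat_lit 304) (nat_lit 0) (XT.lf (nat_lit 0) (nat_lit 260483274) (nat_lit 152) (nat_lit 19643572929) (nat_lit 228) (nat_lit 1514708762) (nat_lit 52) (nat_lit 5) (nat_lit 54) (nat_lit 5) (nat_lit 55) (nat_lit 5) (nat_lit 347) (nat_lit 316) (nat_lit 237)) (XT.nd (nat_lit 78) (nat_lit 228) (nat_lit 0) (XT.lf (nat_lit 0) (nat_lit 2562720546) (nat_lit 228) (nat_lit 10072512614) (nat_lit 76) (nat_lit 9457640955) (nat_lit 51) (nat_lit 5) (nat_lit 54) (nat_lit 5) (nat_lit 52) (nat_lit 5) (nat_lit 348) (nat_lit 316) (nat_lit 236)) (XT.lf (nat_lit 0) (nat_lit 1570558099) (nat_lit 228) (nat_lit 5231764457) (nat_lit 304) (nat_lit 15996676416) (nat_lit 48) (nat_lit 5) (nat_lit 51) (nat_lit 5) (nat_lit 52) (nat_lit 5) (nat_lit 349) (nat_lit 316) (nat_lit 235)))) (XT.nd (nat_lit 78) (nat_lit 152) (nat_lit 0) (XT.lf (nat_lit 0) (nat_lit 11451927916) (nat_lit 304) (nat_lit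 9451614191) (nat_lit 76) (nat_lit 2626998310) (nat_lit 48) (nat_lit 5) (nat_lit 52) (nat_lit 5) (nat_lit 49) (nat_lit 5) (nat_lit 350) (nat_lit 316) (nat_lit 234)) (XT.nd (nat_lit 78) (nat_lit 0) (nat_lit 0) (XT.lf (nat_lit 0) (nat_lit 2899461174) (nat_lit 152) (nat_lit 13551262092) (nat_lit 228) (nat_lit 7842111139) (nat_lit 46) (nat_lit 5) (nat_lit 48) (nat_lit 5) (nat_lit 49) (nat_lit 5) (nat_lit 351) (nat_lit 316) (nat_lit 233)) (XT.lf (nat_lit 0) (nat_lit 16174950947) (nat_lit 152) (nat_lit 5670599441) (nat_lit 228) (nat_lit 3240398544) (nat_lit 46) (nat_lit 5) (nat_lit 48) (nat_lit 5) (nat_lit 49) (nat_lit 5) (nat_lit 352) (nat_lit 316) (nat_lit 232))))))) (XT.nd (nat_lit 858) (nat_lit 760) (nat_lit 0) (XT.nd (nat_lit 390) (nat_lit 532) (nat_lit 0) (XT.nd (nat_lit 156) (nat_lit 304) (nat_lit 0) (XT.nd (nat_lit 78) (nat_lit 0) (nat_lit 0) (XT.lf (nat_lit 0) (nat_lit 1635910980) (nat_lit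 304) (nat_lit 21669722947) (nat_lit 76) (nat_lit 2607080111) (nat_lit 42) (nat_lit 5) (nat_lit 46) (nat_lit 5) (nat_lit 43) (nat_lit 5) (nat_lit 353) (nat_lit 316) (nat_lit 231)) (XT.lf (nat_lit 0) (nat_lit 6880160365) (nat_lit 304) (nat_lit 8578723598) (nat_lit 76) (nat_lit 11307635237) (nat_lit 42) (nat_lit 5) (nat_lit 46) (nat_lit 5) (nat_lit 43) (nat_lit 5) (nat_lit 354) (nat_lit 316) (nat_lit 230))) (XT.nd (nat_lit 78) (nat_lit 152) (nat_lit 0) (XT.lf (nat_lit 0) (nat_lit 5317056886) (nat_lit 152) (nat_lit 7139890298) (nat_lit 228) (nat_lit 15202559775) (nat_lit 40) (nat_lit 5) (nat_lit 42) (nat_lit 5) (nat_lit 43) (nat_lit 5) (nat_lit 355) (nat_lit 316) (nat_lit 229)) (XT.nd (nat_lit 78) (nat_lit 152) (nat_lit 0) (XT.lf (nat_lit 0) (nat_lit 18472638826) (nat_lit 228) (nat_lit 8431845433) (nat_lit 76) (nat_lit 1684664751) (nat_lit 40) (nat_lit 5) (nat_lit 43) (nat_lit 5) (nat_lit 41)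 (nat_lit 5) (nat_lit 356) (nat_lit 316) (nat_lit 228)) (XT.lf (nat_lit 0) (nat_lit 6237705779) (nat_lit 152) (nat_lit 18753935845) (nat_lit 228) (nat_lit 4563512999) (nat_lit 38) (nat_lit 5) (nat_lit 40) (nat_lit 5) (nat_lit 41) (nat_lit 5) (nat_lit 357) (nat_lit 316) (nat_lit 227))))) (XT.nd (nat_lit 234) (nat_lit 304) (nat_lit 0) (XT.nd (nat_lit 78) (nat_lit 152) (nat_lit 0) (XT.lf (nat_lit 0) (nat_lit 1359881784) (nat_lit 228) (nat_lit 8670246711) (nat_lit 76) (nat_lit 20531684712) (nat_lit 37) (nat_lit 5) (nat_lit 40) (nat_lit 5) (nat_lit 38) (nat_lit 5) (nat_lit 358) (nat_lit 316) (nat_lit 226)) (XT.nd (nat_lit 78) (nat_lit 0) (nat_lit 0) (XT.lf (nat_lit 0) (nat_lit 6834910521) (nat_lit 152) (nat_lit 686613094) (nat_lit 228) (nat_lit 24088775186) (nat_lit 35) (nat_lit 5) (nat_lit 37) (nat_lit 5) (nat_lit 38) (nat_lit 5) (nat_lit 359) (nat_lit 316) (nat_lit 225)) (XT.lf (nat_lit 0)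 (nat_lit 14271815935) (nat_lit 228) (nat_lit 9450893887) (nat_lit 76) (nat_lit 8974476840) (nat_lit 35) (nat_lit 5) (nat_lit 38) (nat_lit 5) (nat_lit 36) (nat_lit 5) (nat_lit 360) (nat_lit 316) (nat_lit 224)))) (XT.nd (nat_lit 78) (nat_lit 152) (nat_lit 0) (XT.lf (nat_lit 0) (nat_lit 6829533766) (nat_lit 152) (nat_lit 14637377042) (nat_lit 228) (nat_lit 12366149814) (nat_lit 33) (nat_lit 5) (nat_lit 35) (nat_lit 5) (nat_lit 36) (nat_lit 5) (nat_lit 361) (nat_lit 316) (nat_lit 223)) (XT.nd (nat_lit 78) (nat_lit 152) (nat_lit 0) (XT.lf (nat_lit 0) (nat_lit 24234757505) (nat_lit 152) (nat_lit 4936696075) (nat_lit 228) (nat_lit 5846795853) (nat_lit 33) (nat_lit 5) (nat_lit 35) (nat_lit 5) (nat_lit 36) (nat_lit 5) (nat_lit 362) (nat_lit 316) (nat_lit 222)) (XT.lf (nat_lit 0) (nat_lit 1140518770) (nat_lit 152) (nat_lit 29920553550) (nat_lit 76) (nat_lit 5192153546) (nat_lit 31) (nat_lit 5) (nat_lit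 33) (nat_lit 5) (nat_lit 32) (nat_lit 5) (nat_lit 363) (nat_lit 316) (nat_lit 221)))))) (XT.nd (nat_lit 468) (nat_lit 456) (nat_lit 0) (XT.nd (nat_lit 234) (nat_lit 152) (nat_lit 0) (XT.nd (nat_lit 78) (nat_lit 152) (nat_lit 0) (XT.lf (nat_lit 0) (nat_lit 8537332864) (nat_lit 152) (nat_lit 13058538010) (nat_lit 76) (nat_lit 15936461590) (nat_lit 31) (nat_lit 5) (nat_lit 33) (nat_lit 5) (nat_lit 32) (nat_lit 5) (nat_lit 364) (nat_lit 316) (nat_lit 220)) (XT.nd (nat_lit 78) (nat_lit 0) (nat_lit 0) (XT.lf (nat_lit 0) (nat_lit 4783519912) (nat_lit 152) (nat_lit 11585701894) (nat_lit 228) (nat_lit 22502915661) (nat_lit 29) (nat_lit 5) (nat_lit 31) (nat_lit 5) (nat_lit 32) (nat_lit 5) (nat_lit 365) (nat_lit 316) (nat_lit 219)) (XT.lf (nat_lit 0) (nat_lit 23955143438) (nat_lit 152) (nat_lit 849466160) (nat_lit 228) (nat_lit 15463732454) (nat_lit 29) (nat_lit 5) (nat_lit 31) (nat_lit 5) (nat_lit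 32) (nat_lit 5) (nat_lit 366) (nat_lit 316) (nat_lit 218)))) (XT.nd (nat_lit 78) (nat_lit 76) (nat_lit 0) (XT.lf (nat_lit 0) (nat_lit 2244602337) (nat_lit 76) (nat_lit 31606043521) (nat_lit 152) (nat_lit 7874271393) (nat_lit 28) (nat_lit 5) (nat_lit 29) (nat_lit 5) (nat_lit 30) (nat_lit 4) (nat_lit 367) (nat_lit 316) (nat_lit 217)) (XT.nd (nat_lit 78) (nat_lit 0) (nat_lit 0) (XT.lf (nat_lit 0) (nat_lit 377492032) (nat_lit 152) (nat_lit 20979325752) (nat_lit 76) (nat_lit 21883140505) (nat_lit 27) (nat_lit 5) (nat_lit 29) (nat_lit 5) (nat_lit 28) (nat_lit 5) (nat_lit 368) (nat_lit 316) (nat_lit 216)) (XT.lf (nat_lit 0) (nat_lit 8768771215) (nat_lit 152) (nat_lit 1697169951) (nat_lit 76) (nat_lit 34358781903) (nat_lit 27) (nat_lit 5) (nat_lit 29) (nat_lit 5) (nat_lit 28) (nat_lit 5) (nat_lit 369) (nat_lit 316) (nat_lit 215))))) (XT.nd (nat_lit 234) (nat_lit 228) (nat_lit 0) (XT.nd (nat_lit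 78) (nat_lit 76) (nat_lit 0) (XT.lf (nat_lit 0) (nat_lit 17890465592) (nat_lit 228) (nat_lit 27346274232) (nat_lit 76) (nat_lit 1236447269) (nat_lit 25) (nat_lit 5) (nat_lit 28) (nat_lit 5) (nat_lit 26) (nat_lit 4) (nat_lit 370) (nat_lit 316) (nat_lit 214)) (XT.nd (nat_lit 78) (nat_lit 76) (nat_lit 0) (XT.lf (nat_lit 0) (nat_lit 27661061021) (nat_lit 228) (nat_lit 7337727730) (nat_lit 76) (nat_lit 13195648149) (nat_lit 25) (nat_lit 5) (nat_lit 28) (nat_lit 5) (nat_lit 26) (nat_lit 4) (nat_lit 371) (nat_lit 316) (nat_lit 213)) (XT.lf (nat_lit 0) (nat_lit 14109339491) (nat_lit 76) (nat_lit 24023542533) (nat_lit 152) (nat_lit 11858235619) (nat_lit 24) (nat_lit 5) (nat_lit 25) (nat_lit 5) (nat_lit 26) (nat_lit 4) (nat_lit 372) (nat_lit 316) (nat_lit 212)))) (XT.nd (nat_lit 78) (nat_lit 228) (nat_lit 0) (XT.lf (nat_lit 0) (nat_lit 36870233467) (nat_lit 76) (nat_lit 12374892232) (nat_lit 152)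 (nat_lit 2626668226) (nat_lit 24) (nat_lit 5) (nat_lit 25) (nat_lit 5) (nat_lit 26) (nat_lit 4) (nat_lit 373) (nat_lit 316) (nat_lit 211)) (XT.nd (nat_lit 78) (nat_lit 0) (nat_lit 0) (XT.lf (nat_lit 0) (nat_lit 6944046080) (nat_lit 228) (nat_lit 46812862891) (nat_lit 76) (nat_lit 78894471) (nat_lit 21) (nat_lit 5) (nat_lit 24) (nat_lit 5) (nat_lit 22) (nat_lit 4) (nat_lit 374) (nat_lit 316) (nat_lit 210)) (XT.lf (nat_lit 0) (nat_lit 17358969551) (nat_lit 228) (nat_lit 25478860258) (nat_lit 76) (nat_lit 13035335946) (nat_lit 21) (nat_lit 5) (nat_lit 24) (nat_lit 5) (nat_lit 22) (nat_lit 4) (nat_lit 375) (nat_lit 316) (nat_lit 209))))))))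
noncomputable def xc145 : XT := (XT.nd (nat_lit 1716) (nat_lit 456) (nat_lit 0) (XT.nd (nat_lit 858) (nat_lit 304) (nat_lit 0) (XT.nd (nat_lit 390) (nat_lit 228) (nat_lit 0) (XT.nd (nat_lit 156) (nat_lit 152) (nat_lit 0) (XT.nd (nat_lit 78) (nat_lit 76) (nat_lit 0) (XT.lf (nat_lit 0) (nat_lit 28287835442) (nat_lit 228) (nat_lit 3090485642) (nat_lit 76) (nat_lit 26634417823) (nat_lit 21) (nat_lit 5) (nat_lit 24) (nat_lit 5) (nat_lit 22) (nat_lit 4) (nat_lit 376) (nat_lit 316) (nat_lit 208)) (XT.lf (nat_lit 0) (nat_lit 21080266795) (nat_lit 76) (nat_lit 19005520107) (nat_lit 152) (nat_lit 20157374115) (nat_lit 20) (nat_lit 5) (nat_lit 21) (nat_lit 5) (nat_lit 22) (nat_lit 4) (nat_lit 377) (nat_lit 316) (nat_lit 207))) (XT.nd (nat_lit 78) (nat_lit 152) (nat_lit 0) (XT.lf (nat_lit 0) (nat_lit 46555299816) (nat_lit 76) (nat_lit 5964323429) (nat_lit 152) (nat_lit 10063183921) (nat_lit 20) (nat_lit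 5) (nat_lit 21) (nat_lit 5) (nat_lit 22) (nat_lit 4) (nat_lit 378) (nat_lit 316) (nat_lit 206)) (XT.nd (nat_lit 78) (nat_lit 0) (nat_lit 0) (XT.lf (nat_lit 0) (nat_lit 768312820) (nat_lit 152) (nat_lit 56637889071) (nat_lit 76) (nat_lit 7620330455) (nat_lit 18) (nat_lit 5) (nat_lit 20) (nat_lit 5) (nat_lit 19) (nat_lit 4) (nat_lit 379) (nat_lit 316) (nat_lit 205)) (XT.lf (nat_lit 0) (nat_lit 12170746869) (nat_lit 152) (nat_lit 33275279343) (nat_lit 76) (nat_lit 22119793473) (nat_lit 18) (nat_lit 5) (nat_lit 20) (nat_lit 5) (nat_lit 19) (nat_lit 4) (nat_lit 380) (nat_lit 316) (nat_lit 204))))) (XT.nd (nat_lit 234) (nat_lit 152) (nat_lit 0) (XT.nd (nat_lit 78) (nat_lit 76) (nat_lit 0) (XT.lf (nat_lit 0) (nat_lit 24137485784) (nat_lit 152) (nat_lit 8755255114) (nat_lit 76) (nat_lit 37339623229) (nat_lit 18) (nat_lit 5) (nat_lit 20) (nat_lit 5) (nat_lit 19) (nat_lit 4) (nat_lit 381) (nat_lit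 316) (nat_lit 203)) (XT.nd (nat_lit 78) (nat_lit 0) (nat_lit 0) (XT.lf (nat_lit 0) (nat_lit 17542018778) (nat_lit 76) (nat_lit 19428883096) (nat_lit 152) (nat_lit 36047918708) (nat_lit 17) (nat_lit 5) (nat_lit 18) (nat_lit 5) (nat_lit 19) (nat_lit 4) (nat_lit 382) (nat_lit 316) (nat_lit 202)) (XT.lf (nat_lit 0) (nat_lit 45448077961) (nat_lit 76) (nat_lit 5140752477) (nat_lit 152) (nat_lit 25348629053) (nat_lit 17) (nat_lit 5) (nat_lit 18) (nat_lit 5) (nat_lit 19) (nat_lit 4) (nat_lit 383) (nat_lit 316) (nat_lit 201)))) (XT.nd (nat_lit 78) (nat_lit 152) (nat_lit 0) (XT.lf (nat_lit 0) (nat_lit 65036382898) (nat_lit 152) (nat_lit 4416315102) (nat_lit 0) (nat_lit 9541897607) (nat_lit 17) (nat_lit 5) (nat_lit 19) (nat_lit 4) (nat_lit 17) (nat_lit 4) (nat_lit 384) (nat_lit 316) (nat_lit 200)) (XT.nd (nat_lit 78) (nat_lit 76) (nat_lit 0) (XT.lf (nat_lit 0) (nat_lit 23622920758) (nat_lit 76) (nat_lit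 57031493869) (nat_lit 76) (nat_lit 1527770377) (nat_lit 16) (nat_lit 4) (nat_lit 17) (nat_lit 5) (nat_lit 17) (nat_lit 4) (nat_lit 385) (nat_lit 316) (nat_lit 199)) (XT.lf (nat_lit 0) (nat_lit 11226386775) (nat_lit 152) (nat_lit 32498428889) (nat_lit 76) (nat_lit 41791791425) (nat_lit 15) (nat_lit 5) (nat_lit 17) (nat_lit 5) (nat_lit 16) (nat_lit 4) (nat_lit 386) (nat_lit 316) (nat_lit 198)))))) (XT.nd (nat_lit 390) (nat_lit 152) (nat_lit 0) (XT.nd (nat_lit 156) (nat_lit 76) (nat_lit 0) (XT.nd (nat_lit 78) (nat_lit 76) (nat_lit 0) (XT.lf (nat_lit 0) (nat_lit 24562166153) (nat_lit 152) (nat_lit 5168460484) (nat_lit 76) (nat_lit 59286109841) (nat_lit 15) (nat_lit 5) (nat_lit 17) (nat_lit 5) (nat_lit 16) (nat_lit 4) (nat_lit 387) (nat_lit 316) (nat_lit 197)) (XT.lf (nat_lit 0) (nat_lit 24297228137) (nat_lit 76) (nat_lit 14642337493) (nat_lit 152) (nat_lit 53733566433) (nat_lit 14) (nat_lit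 5) (nat_lit 15) (nat_lit 5) (nat_lit 16) (nat_lit 4) (nat_lit 388) (nat_lit 316) (nat_lit 196))) (XT.nd (nat_lit 78) (nat_lit 76) (nat_lit 0) (XT.lf (nat_lit 0) (nat_lit 54139049704) (nat_lit 152) (nat_lit 41120975838) (nat_lit 0) (nat_lit 1247162373) (nat_lit 14) (nat_lit 5) (nat_lit 16) (nat_lit 4) (nat_lit 14) (nat_lit 4) (nat_lit 389) (nat_lit 316) (nat_lit 195)) (XT.nd (nat_lit 78) (nat_lit 76) (nat_lit 0) (XT.lf (nat_lit 0) (nat_lit 70334268433) (nat_lit 152) (nat_lit 12751403852) (nat_lit 0) (nat_lit 17435487414) (nat_lit 14) (nat_lit 5) (nat_lit 16) (nat_lit 4) (nat_lit 14) (nat_lit 4) (nat_lit 390) (nat_lit 316) (nat_lit 194)) (XT.lf (nat_lit 0) (nat_lit 17592021096) (nat_lit 76) (nat_lit 70017813594) (nat_lit 76) (nat_lit 17112467157) (nat_lit 13) (nat_lit 4) (nat_lit 14) (nat_lit 5) (nat_lit 14) (nat_lit 4) (nat_lit 391) (nat_lit 316) (nat_lit 193))))) (XT.nd (nat_lit 234) (nat_lit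 0) (nat_lit 0) (XT.nd (nat_lit 78) (nat_lit 152) (nat_lit 0) (XT.lf (nat_lit 0) (nat_lit 49887760936) (nat_lit 76) (nat_lit 56073371392) (nat_lit 76) (nat_lit 3161772176) (nat_lit 13) (nat_lit 4) (nat_lit 14) (nat_lit 5) (nat_lit 14) (nat_lit 4) (nat_lit 392) (nat_lit 316) (nat_lit 192)) (XT.nd (nat_lit 78) (nat_lit 76) (nat_lit 0) (XT.lf (nat_lit 0) (nat_lit 11114948044) (nat_lit 152) (nat_lit 30131910751) (nat_lit 76) (nat_lit 72487906222) (nat_lit 12) (nat_lit 5) (nat_lit 14) (nat_lit 5) (nat_lit 13) (nat_lit 4) (nat_lit 393) (nat_lit 316) (nat_lit 191)) (XT.lf (nat_lit 0) (nat_lit 379831762) (nat_lit 76) (nat_lit 25621659681) (nat_lit 152) (nat_lit 92573024234) (nat_lit 11) (nat_lit 5) (nat_lit 12) (nat_lit 5) (nat_lit 13) (nat_lit 4) (nat_lit 394) (nat_lit 316) (nat_lit 190)))) (XT.nd (nat_lit 78) (nat_lit 0) (nat_lit 0) (XT.lf (nat_lit 0) (nat_lit 33456409226) (nat_lit 76) (nat_lit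 8682632875) (nat_lit 152) (nat_lit 81491878630) (nat_lit 11) (nat_lit 5) (nat_lit 12) (nat_lit 5) (nat_lit 13) (nat_lit 4) (nat_lit 395) (nat_lit 316) (nat_lit 189)) (XT.nd (nat_lit 78) (nat_lit 0) (nat_lit 0) (XT.lf (nat_lit 0) (nat_lit 59222104669) (nat_lit 152) (nat_lit 60902121291) (nat_lit 0) (nat_lit 8808989185) (nat_lit 11) (nat_lit 5) (nat_lit 13) (nat_lit 4) (nat_lit 11) (nat_lit 4) (nat_lit 396) (nat_lit 316) (nat_lit 188)) (XT.lf (nat_lit 0) (nat_lit 77298330651) (nat_lit 152) (nat_lit 30314794652) (nat_lit 0) (nat_lit 26880549248) (nat_lit 11) (nat_lit 5) (nat_lit 13) (nat_lit 4) (nat_lit 11) (nat_lit 4) (nat_lit 397) (nat_lit 316) (nat_lit 187))))))) (XT.nd (nat_lit 858) (nat_lit 152) (nat_lit 0) (XT.nd (nat_lit 390) (nat_lit 152) (nat_lit 0) (XT.nd (nat_lit 156) (nat_lit 76) (nat_lit 0) (XT.nd (nat_lit 78) (nat_lit 0) (nat_lit 0) (XT.lf (nat_lit 0) (nat_lit 1855234706) (nat_lit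 76) (nat_lit 94448929156) (nat_lit 76) (nat_lit 44026704019) (nat_lit 10) (nat_lit 4) (nat_lit 11) (nat_lit 5) (nat_lit 11) (nat_lit 4) (nat_lit 398) (nat_lit 316) (nat_lit 186)) (XT.lf (nat_lit 0) (nat_lit 36680281507) (nat_lit 76) (nat_lit 80090291564) (nat_lit 76) (nat_lit 29663834301) (nat_lit 10) (nat_lit 4) (nat_lit 11) (nat_lit 5) (nat_lit 11) (nat_lit 4) (nat_lit 399) (nat_lit 316) (nat_lit 185))) (XT.nd (nat_lit 78) (nat_lit 76) (nat_lit 0) (XT.lf (nat_lit 0) (nat_lit 73240918511) (nat_lit 76) (nat_lit 65016421014) (nat_lit 76) (nat_lit 14585933154) (nat_lit 10) (nat_lit 4) (nat_lit 11) (nat_lit 5) (nat_lit 11) (nat_lit 4) (nat_lit 400) (nat_lit 316) (nat_lit 184)) (XT.nd (nat_lit 78) (nat_lit 0) (nat_lit 0) (XT.lf (nat_lit 0) (nat_lit 1203118650) (nat_lit 152) (nat_lit 47967933290) (nat_lit 76) (nat_lit 110400700807) (nat_lit 9) (nat_lit 5) (nat_lit 11) (nat_lit 5) (nat_lit 10)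 (nat_lit 4) (nat_lit 401) (nat_lit 316) (nat_lit 183)) (XT.lf (nat_lit 0) (nat_lit 17288707663) (nat_lit 152) (nat_lit 14996131683) (nat_lit 76) (nat_lit 134339998994) (nat_lit 9) (nat_lit 5) (nat_lit 11) (nat_lit 5) (nat_lit 10) (nat_lit 4) (nat_lit 402) (nat_lit 316) (nat_lit 182))))) (XT.nd (nat_lit 234) (nat_lit 76) (nat_lit 0) (XT.nd (nat_lit 78) (nat_lit 0) (nat_lit 0) (XT.lf (nat_lit 0) (nat_lit 20267984308) (nat_lit 76) (nat_lit 14224429585) (nat_lit 152) (nat_lit 139522472991) (nat_lit 8) (nat_lit 5) (nat_lit 9) (nat_lit 5) (nat_lit 10) (nat_lit 4) (nat_lit 403) (nat_lit 316) (nat_lit 181)) (XT.nd (nat_lit 78) (nat_lit 0) (nat_lit 0) (XT.lf (nat_lit 0) (nat_lit 52885833263) (nat_lit 152) (nat_lit 124028943238) (nat_lit 0) (nat_lit 4843185495) (nat_lit 8) (nat_lit 5) (nat_lit 10) (nat_lit 4) (nat_lit 8) (nat_lit 4) (nat_lit 404) (nat_lit 316) (nat_lit 180)) (XT.lf (nat_lit 0) (nat_lit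 72429642980) (nat_lit 152) (nat_lit 93063024902) (nat_lit 0) (nat_lit 24383987518) (nat_lit 8) (nat_lit 5) (nat_lit 10) (nat_lit 4) (nat_lit 8) (nat_lit 4) (nat_lit 405) (nat_lit 316) (nat_lit 179)))) (XT.nd (nat_lit 78) (nat_lit 76) (nat_lit 0) (XT.lf (nat_lit 0) (nat_lit 92948292716) (nat_lit 152) (nat_lit 60553335983) (nat_lit 0) (nat_lit 44899772784) (nat_lit 8) (nat_lit 5) (nat_lit 10) (nat_lit 4) (nat_lit 8) (nat_lit 4) (nat_lit 406) (nat_lit 316) (nat_lit 178)) (XT.nd (nat_lit 78) (nat_lit 76) (nat_lit 0) (XT.lf (nat_lit 0) (nat_lit 114490636397) (nat_lit 152) (nat_lit 26422472458) (nat_lit 0) (nat_lit 66439388399) (nat_lit 8) (nat_lit 5) (nat_lit 10) (nat_lit 4) (nat_lit 8) (nat_lit 4) (nat_lit 407) (nat_lit 316) (nat_lit 177)) (XT.lf (nat_lit 0) (nat_lit 9721994161) (nat_lit 76) (nat_lit 127537758734) (nat_lit 76) (nat_lit 79483912577) (nat_lit 7) (nat_lit 4) (nat_lit 8) (nat_lit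 5) (nat_lit 8) (nat_lit 4) (nat_lit 408) (nat_lit 316) (nat_lit 176)))))) (XT.nd (nat_lit 468) (nat_lit 76) (nat_lit 0) (XT.nd (nat_lit 234) (nat_lit 76) (nat_lit 0) (XT.nd (nat_lit 78) (nat_lit 0) (nat_lit 0) (XT.lf (nat_lit 0) (nat_lit 48586974284) (nat_lit 76) (nat_lit 113025734816) (nat_lit 76) (nat_lit 64969414222) (nat_lit 7) (nat_lit 4) (nat_lit 8) (nat_lit 5) (nat_lit 8) (nat_lit 4) (nat_lit 409) (nat_lit 316) (nat_lit 175)) (XT.nd (nat_lit 78) (nat_lit 0) (nat_lit 0) (XT.lf (nat_lit 0) (nat_lit 89391357312) (nat_lit 76) (nat_lit 97789962020) (nat_lit 76) (nat_lit 49731284820) (nat_lit 7) (nat_lit 4) (nat_lit 8) (nat_lit 5) (nat_lit 8) (nat_lit 4) (nat_lit 410) (nat_lit 316) (nat_lit 174)) (XT.lf (nat_lit 0) (nat_lit 132232296537) (nat_lit 76) (nat_lit 81794164696) (nat_lit 76) (nat_lit 33733243109) (nat_lit 7) (nat_lit 4) (nat_lit 8) (nat_lit 5) (nat_lit 8) (nat_lit 4) (nat_lit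 411) (nat_lit 316) (nat_lit 173)))) (XT.nd (nat_lit 78) (nat_lit 76) (nat_lit 0) (XT.lf (nat_lit 0) (nat_lit 177211794196) (nat_lit 76) (nat_lit 65000257614) (nat_lit 76) (nat_lit 16937198515) (nat_lit 7) (nat_lit 4) (nat_lit 8) (nat_lit 5) (nat_lit 8) (nat_lit 4) (nat_lit 412) (nat_lit 316) (nat_lit 172)) (XT.nd (nat_lit 78) (nat_lit 0) (nat_lit 0) (XT.lf (nat_lit 0) (nat_lit 674536327) (nat_lit 152) (nat_lit 46682295352) (nat_lit 76) (nat_lit 223750984405) (nat_lit 6) (nat_lit 5) (nat_lit 8) (nat_lit 5) (nat_lit 7) (nat_lit 4) (nat_lit 413) (nat_lit 316) (nat_lit 171)) (XT.lf (nat_lit 0) (nat_lit 18595989481) (nat_lit 152) (nat_lit 9945255172) (nat_lit 76) (nat_lit 255109266213) (nat_lit 6) (nat_lit 5) (nat_lit 8) (nat_lit 5) (nat_lit 7) (nat_lit 4) (nat_lit 414) (nat_lit 316) (nat_lit 170))))) (XT.nd (nat_lit 234) (nat_lit 0) (nat_lit 0) (XT.nd (nat_lit 78) (nat_lit 0) (nat_lit 0) (XT.lf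 (nat_lit 0) (nat_lit 29572061333) (nat_lit 76) (nat_lit 8301568620) (nat_lit 152) (nat_lit 258923704998) (nat_lit 5) (nat_lit 5) (nat_lit 6) (nat_lit 5) (nat_lit 7) (nat_lit 4) (nat_lit 415) (nat_lit 316) (nat_lit 169)) (XT.nd (nat_lit 78) (nat_lit 0) (nat_lit 0) (XT.lf (nat_lit 0) (nat_lit 58486946162) (nat_lit 152) (nat_lit 239390579094) (nat_lit 0) (nat_lit 12705385582) (nat_lit 5) (nat_lit 5) (nat_lit 7) (nat_lit 4) (nat_lit 5) (nat_lit 4) (nat_lit 416) (nat_lit 316) (nat_lit 168)) (XT.lf (nat_lit 0) (nat_lit 80265512494) (nat_lit 152) (nat_lit 210303167206) (nat_lit 0) (nat_lit 34482356871) (nat_lit 5) (nat_lit 5) (nat_lit 7) (nat_lit 4) (nat_lit 5) (nat_lit 4) (nat_lit 417) (nat_lit 316) (nat_lit 167)))) (XT.nd (nat_lit 78) (nat_lit 0) (nat_lit 0) (XT.lf (nat_lit 0) (nat_lit 103131571929) (nat_lit 152) (nat_lit 179764171462) (nat_lit 0) (nat_lit 57346897216) (nat_lit 5) (nat_lit 5)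 (nat_lit 7) (nat_lit 4) (nat_lit 5) (nat_lit 4) (nat_lit 418) (nat_lit 316) (nat_lit 166)) (XT.nd (nat_lit 78) (nat_lit 0) (nat_lit 0) (XT.lf (nat_lit 0) (nat_lit 127139567466) (nat_lit 152) (nat_lit 147700879967) (nat_lit 0) (nat_lit 81353446001) (nat_lit 5) (nat_lit 5) (nat_lit 7) (nat_lit 4) (nat_lit 5) (nat_lit 4) (nat_lit 419) (nat_lit 316) (nat_lit 165)) (XT.lf (nat_lit 0) (nat_lit 152346660998) (nat_lit 152) (nat_lit 114036951551) (nat_lit 0) (nat_lit 106559161674) (nat_lit 5) (nat_lit 5) (nat_lit 7) (nat_lit 4) (nat_lit 5) (nat_lit 4) (nat_lit 420) (nat_lit 316) (nat_lit 164))))))))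
noncomputable def xc146 : XT := (XT.nd (nat_lit 39702) (nat_lit 0) (nat_lit 3344) (XT.nd (nat_lit 38844) (nat_lit 0) (nat_lit 7448) (XT.nd (nat_lit 390) (nat_lit 0) (nat_lit 0) (XT.nd (nat_lit 156) (nat_lit 76) (nat_lit 0) (XT.nd (nat_lit 78) (nat_lit 0) (nat_lit 0) (XT.lf (nat_lit 0) (nat_lit 178812869415) (nat_lit 152) (nat_lit 78692234002) (nat_lit 0) (nat_lit 133024057844) (nat_lit 5) (nat_lit 5) (nat_lit 7) (nat_lit 4) (nat_lit 5) (nat_lit 4) (nat_lit 421) (nat_lit 316) (nat_lit 163)) (XT.lf (nat_lit 0) (nat_lit 206601207498) (nat_lit 152) (nat_lit 41582573232) (nat_lit 0) (nat_lit 160811146169) (nat_lit 5) (nat_lit 5) (nat_lit 7) (nat_lit 4) (nat_lit 5) (nat_lit 4) (nat_lit 422) (nat_lit 316) (nat_lit 162))) (XT.nd (nat_lit 78) (nat_lit 76) (nat_lit 0) (XT.lf (nat_lit 0) (nat_lit 235777837959) (nat_lit 152) (nat_lit 2619612906) (nat_lit 0) (nat_lit 189986586383) (nat_lit 5) (nat_lit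 5) (nat_lit 7) (nat_lit 4) (nat_lit 5) (nat_lit 4) (nat_lit 423) (nat_lit 316) (nat_lit 161)) (XT.nd (nat_lit 78) (nat_lit 0) (nat_lit 0) (XT.lf (nat_lit 0) (nat_lit 39555436939) (nat_lit 76) (nat_lit 227474363248) (nat_lit 76) (nat_lit 181681978104) (nat_lit 4) (nat_lit 4) (nat_lit 5) (nat_lit 5) (nat_lit 5) (nat_lit 4) (nat_lit 424) (nat_lit 316) (nat_lit 160)) (XT.lf (nat_lit 0) (nat_lit 83928140356) (nat_lit 76) (nat_lit 215959532661) (nat_lit 76) (nat_lit 170166067928) (nat_lit 4) (nat_lit 4) (nat_lit 5) (nat_lit 5) (nat_lit 5) (nat_lit 4) (nat_lit 425) (nat_lit 316) (nat_lit 159))))) (XT.nd (nat_lit 234) (nat_lit 0) (nat_lit 0) (XT.nd (nat_lit 78) (nat_lit 0) (nat_lit 0) (XT.lf (nat_lit 0) (nat_lit 130517530405) (nat_lit 76) (nat_lit 203869907252) (nat_lit 76) (nat_lit 158075414340) (nat_lit 4) (nat_lit 4) (nat_lit 5) (nat_lit 5) (nat_lit 5) (nat_lit 4) (nat_lit 426) (nat_lit 316)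 (nat_lit 158)) (XT.nd (nat_lit 78) (nat_lit 0) (nat_lit 0) (XT.lf (nat_lit 0) (nat_lit 179434534204) (nat_lit 76) (nat_lit 191176702199) (nat_lit 76) (nat_lit 145381230068) (nat_lit 4) (nat_lit 4) (nat_lit 5) (nat_lit 5) (nat_lit 5) (nat_lit 4) (nat_lit 427) (nat_lit 316) (nat_lit 157)) (XT.lf (nat_lit 0) (nat_lit 230795620811) (nat_lit 76) (nat_lit 177849695585) (nat_lit 76) (nat_lit 132053290865) (nat_lit 4) (nat_lit 4) (nat_lit 5) (nat_lit 5) (nat_lit 5) (nat_lit 4) (nat_lit 428) (nat_lit 316) (nat_lit 156)))) (XT.nd (nat_lit 78) (nat_lit 0) (nat_lit 0) (XT.lf (nat_lit 0) (nat_lit 284723078527) (nat_lit 76) (nat_lit 163857156442) (nat_lit 76) (nat_lit 118059863542) (nat_lit 4) (nat_lit 4) (nat_lit 5) (nat_lit 5) (nat_lit 5) (nat_lit 4) (nat_lit 429) (nat_lit 316) (nat_lit 155)) (XT.nd (nat_lit 38064) (nat_lit 0) (nat_lit 7828) (XT.lf (nat_lit 0) (nat_lit 341345306061) (nat_lit 76) (nat_lit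 149165769201) (nat_lit 76) (nat_lit 103367630415) (nat_lit 4) (nat_lit 4) (nat_lit 5) (nat_lit 5) (nat_lit 5) (nat_lit 4) (nat_lit 430) (nat_lit 316) (nat_lit 154)) (XT.lf (nat_lit 0) (nat_lit 7891089) (nat_lit 0) (nat_lit 7891089) (nat_lit 684) (nat_lit 4908819557) (nat_lit 107) (nat_lit 5) (nat_lit 107) (nat_lit 3) (nat_lit 116) (nat_lit 3) (nat_lit 317) (nat_lit 317) (nat_lit 266)))))) (XT.nd (nat_lit 390) (nat_lit 380) (nat_lit 0) (XT.nd (nat_lit 156) (nat_lit 0) (nat_lit 76) (XT.nd (nat_lit 78) (nat_lit 0) (nat_lit 0) (XT.lf (nat_lit 0) (nat_lit 805682962) (nat_lit 684) (nat_lit 5262645182) (nat_lit 760) (nat_lit 3987494603) (nat_lit 107) (nat_lit 5) (nat_lit 116) (nat_lit 3) (nat_lit 117) (nat_lit 5) (nat_lit 318) (nat_lit 317) (nat_lit 265)) (XT.lf (nat_lit 0) (nat_lit 1573734698) (nat_lit 684) (nat_lit 488965939) (nat_lit 760) (nat_lit 8212371436) (nat_lit 107) (nat_lit 5) (nat_lit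 116) (nat_lit 3) (nat_lit 117) (nat_lit 5) (nat_lit 319) (nat_lit 317) (nat_lit 264))) (XT.nd (nat_lit 78) (nat_lit 0) (nat_lit 0) (XT.lf (nat_lit 0) (nat_lit 2444813446) (nat_lit 684) (nat_lit 5890807204) (nat_lit 760) (nat_lit 2166489567) (nat_lit 108) (nat_lit 5) (nat_lit 117) (nat_lit 5) (nat_lit 118) (nat_lit 5) (nat_lit 320) (nat_lit 317) (nat_lit 263)) (XT.nd (nat_lit 78) (nat_lit 0) (nat_lit 76) (XT.lf (nat_lit 0) (nat_lit 3360733601) (nat_lit 684) (nat_lit 816642127) (nat_lit 760) (nat_lit 6563114994) (nat_lit 108) (nat_lit 5) (nat_lit 117) (nat_lit 5) (nat_lit 118) (nat_lit 5) (nat_lit 321) (nat_lit 317) (nat_lit 262)) (XT.lf (nat_lit 0) (nat_lit 4360168766) (nat_lit 684) (nat_lit 6358879226) (nat_lit 760) (nat_lit 269908529) (nat_lit 109) (nat_lit 5) (nat_lit 118) (nat_lit 5) (nat_lit 119) (nat_lit 5) (nat_lit 322) (nat_lit 317) (nat_lit 261))))) (XT.nd (nat_lit 234) (nat_lit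 532) (nat_lit 0) (XT.nd (nat_lit 78) (nat_lit 0) (nat_lit 0) (XT.lf (nat_lit 0) (nat_lit 5454797056) (nat_lit 684) (nat_lit 967025085) (nat_lit 760) (nat_lit 4825812133) (nat_lit 109) (nat_lit 5) (nat_lit 118) (nat_lit 5) (nat_lit 119) (nat_lit 5) (nat_lit 323) (nat_lit 317) (nat_lit 260)) (XT.nd (nat_lit 78) (nat_lit 0) (nat_lit 76) (XT.lf (nat_lit 76) (nat_lit 4823422991) (nat_lit 0) (nat_lit 1820500770) (nat_lit 760) (nat_lit 4873381167) (nat_lit 110) (nat_lit 5) (nat_lit 109) (nat_lit 5) (nat_lit 119) (nat_lit 5) (nat_lit 324) (nat_lit 317) (nat_lit 259)) (XT.lf (nat_lit 0) (nat_lit 7922067803) (nat_lit 684) (nat_lit 936821515) (nat_lit 760) (nat_lit 2940136855) (nat_lit 110) (nat_lit 5) (nat_lit 119) (nat_lit 5) (nat_lit 120) (nat_lit 5) (nat_lit 325) (nat_lit 317) (nat_lit 258)))) (XT.nd (nat_lit 78) (nat_lit 608) (nat_lit 0) (XT.lf (nat_lit 76) (nat_lit 5219720058) (nat_lit 0) (nat_lit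 4123268300) (nat_lit 760) (nat_lit 2747944617) (nat_lit 111) (nat_lit 5) (nat_lit 110) (nat_lit 5) (nat_lit 120) (nat_lit 5) (nat_lit 326) (nat_lit 317) (nat_lit 257)) (XT.nd (nat_lit 78) (nat_lit 684) (nat_lit 0) (XT.lf (nat_lit 0) (nat_lit 10833117382) (nat_lit 684) (nat_lit 720427287) (nat_lit 76) (nat_lit 844023242) (nat_lit 111) (nat_lit 5) (nat_lit 120) (nat_lit 5) (nat_lit 112) (nat_lit 5) (nat_lit 327) (nat_lit 317) (nat_lit 256)) (XT.lf (nat_lit 0) (nat_lit 5831341421) (nat_lit 684) (nat_lit 6695315736) (nat_lit 760) (nat_lit 186471187) (nat_lit 102) (nat_lit 5) (nat_lit 111) (nat_lit 5) (nat_lit 112) (nat_lit 5) (nat_lit 328) (nat_lit 317) (nat_lit 255))))))) (XT.nd (nat_lit 858) (nat_lit 1520) (nat_lit 0) (XT.nd (nat_lit 390) (nat_lit 1064) (nat_lit 0) (XT.nd (nat_lit 156) (nat_lit 684) (nat_lit 0) (XT.nd (nat_lit 78) (nat_lit 760) (nat_lit 0) (XT.lf (nat_lit 0) (nat_lit 1203249220)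 (nat_lit 760) (nat_lit 354214570) (nat_lit 76) (nat_lit 11486895278) (nat_lit 101) (nat_lit 5) (nat_lit 111) (nat_lit 5) (nat_lit 102) (nat_lit 5) (nat_lit 329) (nat_lit 317) (nat_lit 254)) (XT.lf (nat_lit 0) (nat_lit 2794462417) (nat_lit 836) (nat_lit 6764199378) (nat_lit 76) (nat_lit 3826456677) (nat_lit 91) (nat_lit 5) (nat_lit 102) (nat_lit 5) (nat_lit 92) (nat_lit 5) (nat_lit 330) (nat_lit 317) (nat_lit 253))) (XT.nd (nat_lit 78) (nat_lit 304) (nat_lit 0) (XT.lf (nat_lit 0) (nat_lit 168294033) (nat_lit 380) (nat_lit 4304351170) (nat_lit 456) (nat_lit 9269932255) (nat_lit 86) (nat_lit 5) (nat_lit 91) (nat_lit 5) (nat_lit 92) (nat_lit 5) (nat_lit 331) (nat_lit 317) (nat_lit 252)) (XT.nd (nat_lit 78) (nat_lit 304) (nat_lit 0) (XT.lf (nat_lit 0) (nat_lit 6344141966) (nat_lit 456) (nat_lit 6477613075) (nat_lit 76) (nat_lit 1290714641) (nat_lit 86) (nat_lit 5) (nat_lit 92) (nat_lit 5) (nat_lit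 87) (nat_lit 5) (nat_lit 332) (nat_lit 317) (nat_lit 251)) (XT.lf (nat_lit 0) (nat_lit 906759067) (nat_lit 304) (nat_lit 7462449580) (nat_lit 380) (nat_lit 6128677194) (nat_lit 82) (nat_lit 5) (nat_lit 86) (nat_lit 5) (nat_lit 87) (nat_lit 5) (nat_lit 333) (nat_lit 317) (nat_lit 250))))) (XT.nd (nat_lit 234) (nat_lit 684) (nat_lit 0) (XT.nd (nat_lit 78) (nat_lit 380) (nat_lit 0) (XT.lf (nat_lit 0) (nat_lit 8860060123) (nat_lit 304) (nat_lit 1721229237) (nat_lit 380) (nat_lit 4317023104) (nat_lit 82) (nat_lit 5) (nat_lit 86) (nat_lit 5) (nat_lit 87) (nat_lit 5) (nat_lit 334) (nat_lit 317) (nat_lit 249)) (XT.nd (nat_lit 78) (nat_lit 0) (nat_lit 0) (XT.lf (nat_lit 0) (nat_lit 1859406405) (nat_lit 380) (nat_lit 11118024236) (nat_lit 456) (nat_lit 2337683326) (nat_lit 77) (nat_lit 5) (nat_lit 82) (nat_lit 5) (nat_lit 83) (nat_lit 5) (nat_lit 335) (nat_lit 317) (nat_lit 248)) (XT.lf (nat_lit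 0) (nat_lit 10307711128) (nat_lit 380) (nat_lit 5293571830) (nat_lit 456) (nat_lit 146102506) (nat_lit 77) (nat_lit 5) (nat_lit 82) (nat_lit 5) (nat_lit 83) (nat_lit 5) (nat_lit 336) (nat_lit 317) (nat_lit 247)))) (XT.nd (nat_lit 78) (nat_lit 304) (nat_lit 0) (XT.lf (nat_lit 0) (nat_lit 2125847228) (nat_lit 380) (nat_lit 13196681471) (nat_lit 76) (nat_lit 875094037) (nat_lit 72) (nat_lit 5) (nat_lit 77) (nat_lit 5) (nat_lit 73) (nat_lit 5) (nat_lit 337) (nat_lit 317) (nat_lit 246)) (XT.nd (nat_lit 78) (nat_lit 304) (nat_lit 0) (XT.lf (nat_lit 0) (nat_lit 4666063692) (nat_lit 380) (nat_lit 4728906984) (nat_lit 76) (nat_lit 7267324175) (nat_lit 72) (nat_lit 5) (nat_lit 77) (nat_lit 5) (nat_lit 73) (nat_lit 5) (nat_lit 338) (nat_lit 317) (nat_lit 245)) (XT.lf (nat_lit 0) (nat_lit 4275383842) (nat_lit 304) (nat_lit 3104815612) (nat_lit 380) (nat_lit 9767676358) (nat_lit 68) (nat_lit 5) (nat_lit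 72) (nat_lit 5) (nat_lit 73) (nat_lit 5) (nat_lit 339) (nat_lit 317) (nat_lit 244)))))) (XT.nd (nat_lit 468) (nat_lit 684) (nat_lit 0) (XT.nd (nat_lit 234) (nat_lit 608) (nat_lit 0) (XT.nd (nat_lit 78) (nat_lit 228) (nat_lit 0) (XT.lf (nat_lit 0) (nat_lit 10346758537) (nat_lit 380) (nat_lit 3839868821) (nat_lit 76) (nat_lit 3465292318) (nat_lit 68) (nat_lit 5) (nat_lit 73) (nat_lit 5) (nat_lit 69) (nat_lit 5) (nat_lit 340) (nat_lit 317) (nat_lit 243)) (XT.nd (nat_lit 78) (nat_lit 0) (nat_lit 0) (XT.lf (nat_lit 0) (nat_lit 5754575720) (nat_lit 228) (nat_lit 7829408656) (nat_lit 304) (nat_lit 4591083161) (nat_lit 65) (nat_lit 5) (nat_lit 68) (nat_lit 5) (nat_lit 69) (nat_lit 5) (nat_lit 341) (nat_lit 317) (nat_lit 242)) (XT.lf (nat_lit 0) (nat_lit 15939333031) (nat_lit 228) (nat_lit 1090885328) (nat_lit 304) (nat_lit 1691814940) (nat_lit 65) (nat_lit 5) (nat_lit 68) (nat_lit 5) (nat_lit 69)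 (nat_lit 5) (nat_lit 342) (nat_lit 317) (nat_lit 241)))) (XT.nd (nat_lit 78) (nat_lit 228) (nat_lit 0) (XT.lf (nat_lit 0) (nat_lit 1505076924) (nat_lit 380) (nat_lit 11851127895) (nat_lit 76) (nat_lit 5929305670) (nat_lit 60) (nat_lit 5) (nat_lit 65) (nat_lit 5) (nat_lit 61) (nat_lit 5) (nat_lit 343) (nat_lit 317) (nat_lit 240)) (XT.nd (nat_lit 78) (nat_lit 228) (nat_lit 0) (XT.lf (nat_lit 0) (nat_lit 4853817533) (nat_lit 380) (nat_lit 1684915948) (nat_lit 76) (nat_lit 13334613731) (nat_lit 60) (nat_lit 5) (nat_lit 65) (nat_lit 5) (nat_lit 61) (nat_lit 5) (nat_lit 344) (nat_lit 317) (nat_lit 239)) (XT.lf (nat_lit 0) (nat_lit 8510484617) (nat_lit 304) (nat_lit 11231563854) (nat_lit 76) (nat_lit 741517517) (nat_lit 57) (nat_lit 5) (nat_lit 61) (nat_lit 5) (nat_lit 58) (nat_lit 5) (nat_lit 345) (nat_lit 317) (nat_lit 238))))) (XT.nd (nat_lit 234) (nat_lit 304) (nat_lit 0) (XT.nd (nat_lit 78)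 (nat_lit 380) (nat_lit 0) (XT.lf (nat_lit 0) (nat_lit 12470413364) (nat_lit 304) (nat_lit 458200339) (nat_lit 76) (nat_lit 8189674568) (nat_lit 57) (nat_lit 5) (nat_lit 61) (nat_lit 5) (nat_lit 58) (nat_lit 5) (nat_lit 346) (nat_lit 317) (nat_lit 237)) (XT.nd (nat_lit 78) (nat_lit 152) (nat_lit 0) (XT.lf (nat_lit 0) (nat_lit 11191127962) (nat_lit 228) (nat_lit 5596919560) (nat_lit 304) (nat_lit 4988727021) (nat_lit 54) (nat_lit 5) (nat_lit 57) (nat_lit 5) (nat_lit 58) (nat_lit 5) (nat_lit 347) (nat_lit 317) (nat_lit 236)) (XT.lf (nat_lit 0) (nat_lit 947210947) (nat_lit 152) (nat_lit 20415121889) (nat_lit 228) (nat_lit 1103826505) (nat_lit 52) (nat_lit 5) (nat_lit 54) (nat_lit 5) (nat_lit 55) (nat_lit 5) (nat_lit 348) (nat_lit 317) (nat_lit 235)))) (XT.nd (nat_lit 78) (nat_lit 228) (nat_lit 0) (XT.lf (nat_lit 0) (nat_lit 3139468850) (nat_lit 228) (nat_lit 9919328802) (nat_lit 76) (nat_lit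 10115935650) (nat_lit 51) (nat_lit 5) (nat_lit 54) (nat_lit 5) (nat_lit 52) (nat_lit 5) (nat_lit 349) (nat_lit 317) (nat_lit 234)) (XT.nd (nat_lit 78) (nat_lit 0) (nat_lit 0) (XT.lf (nat_lit 0) (nat_lit 2295301746) (nat_lit 228) (nat_lit 5284475963) (nat_lit 304) (nat_lit 16336967208) (nat_lit 48) (nat_lit 5) (nat_lit 51) (nat_lit 5) (nat_lit 52) (nat_lit 5) (nat_lit 350) (nat_lit 317) (nat_lit 233)) (XT.lf (nat_lit 0) (nat_lit 12444143527) (nat_lit 304) (nat_lit 9290710524) (nat_lit 76) (nat_lit 2950911423) (nat_lit 48) (nat_lit 5) (nat_lit 52) (nat_lit 5) (nat_lit 49) (nat_lit 5) (nat_lit 351) (nat_lit 317) (nat_lit 232))))))))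
noncomputable def xc147 : XT := (XT.nd (nat_lit 1716) (nat_lit 988) (nat_lit 0) (XT.nd (nat_lit 858) (nat_lit 684) (nat_lit 0) (XT.nd (nat_lit 390) (nat_lit 532) (nat_lit 0) (XT.nd (nat_lit 156) (nat_lit 456) (nat_lit 0) (XT.nd (nat_lit 78) (nat_lit 0) (nat_lit 0) (XT.lf (nat_lit 0) (nat_lit 3667701120) (nat_lit 152) (nat_lit 14014926601) (nat_lit 228) (nat_lit 7804074274) (nat_lit 46) (nat_lit 5) (nat_lit 48) (nat_lit 5) (nat_lit 49) (nat_lit 5) (nat_lit 352) (nat_lit 317) (nat_lit 231)) (XT.lf (nat_lit 0) (nat_lit 17577286005) (nat_lit 152) (nat_lit 5750416465) (nat_lit 228) (nat_lit 2992759021) (nat_lit 46) (nat_lit 5) (nat_lit 48) (nat_lit 5) (nat_lit 49) (nat_lit 5) (nat_lit 353) (nat_lit 317) (nat_lit 230))) (XT.nd (nat_lit 78) (nat_lit 152) (nat_lit 0) (XT.lf (nat_lit 0) (nat_lit 2107976629) (nat_lit 304) (nat_lit 22139690848) (nat_lit 76) (nat_lit 2940904668) (nat_lit 42) (nat_lit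 5) (nat_lit 46) (nat_lit 5) (nat_lit 43) (nat_lit 5) (nat_lit 354) (nat_lit 317) (nat_lit 229)) (XT.nd (nat_lit 78) (nat_lit 152) (nat_lit 0) (XT.lf (nat_lit 0) (nat_lit 7595854193) (nat_lit 304) (nat_lit 8423356686) (nat_lit 76) (nat_lit 12066798477) (nat_lit 42) (nat_lit 5) (nat_lit 46) (nat_lit 5) (nat_lit 43) (nat_lit 5) (nat_lit 355) (nat_lit 317) (nat_lit 228)) (XT.lf (nat_lit 0) (nat_lit 6157788579) (nat_lit 152) (nat_lit 7284967919) (nat_lit 228) (nat_lit 15581338175) (nat_lit 40) (nat_lit 5) (nat_lit 42) (nat_lit 5) (nat_lit 43) (nat_lit 5) (nat_lit 356) (nat_lit 317) (nat_lit 227))))) (XT.nd (nat_lit 234) (nat_lit 304) (nat_lit 0) (XT.nd (nat_lit 78) (nat_lit 228) (nat_lit 0) (XT.lf (nat_lit 0) (nat_lit 19745099883) (nat_lit 228) (nat_lit 8291573070) (nat_lit 76) (nat_lit 1964263921) (nat_lit 40) (nat_lit 5) (nat_lit 43) (nat_lit 5) (nat_lit 41) (nat_lit 5) (nat_lit 357) (nat_lit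 317) (nat_lit 226)) (XT.nd (nat_lit 78) (nat_lit 76) (nat_lit 0) (XT.lf (nat_lit 0) (nat_lit 7102393370) (nat_lit 152) (nat_lit 19479679333) (nat_lit 228) (nat_lit 4433579934) (nat_lit 38) (nat_lit 5) (nat_lit 40) (nat_lit 5) (nat_lit 41) (nat_lit 5) (nat_lit 358) (nat_lit 317) (nat_lit 225)) (XT.lf (nat_lit 0) (nat_lit 1758015873) (nat_lit 228) (nat_lit 8566167677) (nat_lit 76) (nat_lit 21749016249) (nat_lit 37) (nat_lit 5) (nat_lit 40) (nat_lit 5) (nat_lit 38) (nat_lit 5) (nat_lit 359) (nat_lit 317) (nat_lit 224)))) (XT.nd (nat_lit 78) (nat_lit 152) (nat_lit 0) (XT.lf (nat_lit 0) (nat_lit 7705576588) (nat_lit 152) (nat_lit 514700188) (nat_lit 228) (nat_lit 24954215433) (nat_lit 35) (nat_lit 5) (nat_lit 37) (nat_lit 5) (nat_lit 38) (nat_lit 5) (nat_lit 360) (nat_lit 317) (nat_lit 223)) (XT.nd (nat_lit 78) (nat_lit 152) (nat_lit 0) (XT.lf (nat_lit 0) (nat_lit 15295784846) (nat_lit 228)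 (nat_lit 9407227121) (nat_lit 76) (nat_lit 9613336377) (nat_lit 35) (nat_lit 5) (nat_lit 38) (nat_lit 5) (nat_lit 36) (nat_lit 5) (nat_lit 361) (nat_lit 317) (nat_lit 222)) (XT.lf (nat_lit 0) (nat_lit 7678895924) (nat_lit 152) (nat_lit 15164888144) (nat_lit 228) (nat_lit 12665582964) (nat_lit 33) (nat_lit 5) (nat_lit 35) (nat_lit 5) (nat_lit 36) (nat_lit 5) (nat_lit 362) (nat_lit 317) (nat_lit 221)))))) (XT.nd (nat_lit 390) (nat_lit 380) (nat_lit 0) (XT.nd (nat_lit 156) (nat_lit 152) (nat_lit 0) (XT.nd (nat_lit 78) (nat_lit 152) (nat_lit 0) (XT.lf (nat_lit 0) (nat_lit 25930195828) (nat_lit 152) (nat_lit 4988904450) (nat_lit 228) (nat_lit 5835445798) (nat_lit 33) (nat_lit 5) (nat_lit 35) (nat_lit 5) (nat_lit 36) (nat_lit 5) (nat_lit 363) (nat_lit 317) (nat_lit 220)) (XT.lf (nat_lit 0) (nat_lit 1488190098) (nat_lit 152) (nat_lit 30919534859) (nat_lit 76) (nat_lit 5643482877) (nat_lit 31)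 (nat_lit 5) (nat_lit 33) (nat_lit 5) (nat_lit 32) (nat_lit 5) (nat_lit 364) (nat_lit 317) (nat_lit 219))) (XT.nd (nat_lit 78) (nat_lit 152) (nat_lit 0) (XT.lf (nat_lit 0) (nat_lit 9241004641) (nat_lit 152) (nat_lit 13238087417) (nat_lit 76) (nat_lit 16915876721) (nat_lit 31) (nat_lit 5) (nat_lit 33) (nat_lit 5) (nat_lit 32) (nat_lit 5) (nat_lit 365) (nat_lit 317) (nat_lit 218)) (XT.nd (nat_lit 78) (nat_lit 0) (nat_lit 0) (XT.lf (nat_lit 0) (nat_lit 5488438280) (nat_lit 152) (nat_lit 11970140096) (nat_lit 228) (nat_lit 23343487807) (nat_lit 29) (nat_lit 5) (nat_lit 31) (nat_lit 5) (nat_lit 32) (nat_lit 5) (nat_lit 366) (nat_lit 317) (nat_lit 217)) (XT.lf (nat_lit 0) (nat_lit 25596464774) (nat_lit 152) (nat_lit 706370999) (nat_lit 228) (nat_lit 15965896565) (nat_lit 29) (nat_lit 5) (nat_lit 31) (nat_lit 5) (nat_lit 32) (nat_lit 5) (nat_lit 367) (nat_lit 317) (nat_lit 216))))) (XT.nd (nat_lit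 234) (nat_lit 228) (nat_lit 0) (XT.nd (nat_lit 78) (nat_lit 76) (nat_lit 0) (XT.lf (nat_lit 0) (nat_lit 2803208550) (nat_lit 76) (nat_lit 32995408248) (nat_lit 152) (nat_lit 7999653400) (nat_lit 28) (nat_lit 5) (nat_lit 29) (nat_lit 5) (nat_lit 30) (nat_lit 4) (nat_lit 368) (nat_lit 317) (nat_lit 215)) (XT.nd (nat_lit 78) (nat_lit 0) (nat_lit 0) (XT.lf (nat_lit 0) (nat_lit 643741183) (nat_lit 152) (nat_lit 21594882894) (nat_lit 76) (nat_lit 23150853665) (nat_lit 27) (nat_lit 5) (nat_lit 29) (nat_lit 5) (nat_lit 28) (nat_lit 5) (nat_lit 369) (nat_lit 317) (nat_lit 214)) (XT.lf (nat_lit 0) (nat_lit 9442804585) (nat_lit 152) (nat_lit 1369257833) (nat_lit 76) (nat_lit 36242012555) (nat_lit 27) (nat_lit 5) (nat_lit 29) (nat_lit 5) (nat_lit 28) (nat_lit 5) (nat_lit 370) (nat_lit 317) (nat_lit 213)))) (XT.nd (nat_lit 78) (nat_lit 76) (nat_lit 0) (XT.lf (nat_lit 0) (nat_lit 19018443873) (nat_lit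 228) (nat_lit 28298577988) (nat_lit 76) (nat_lit 1468052305) (nat_lit 25) (nat_lit 5) (nat_lit 28) (nat_lit 5) (nat_lit 26) (nat_lit 4) (nat_lit 371) (nat_lit 317) (nat_lit 212)) (XT.nd (nat_lit 78) (nat_lit 76) (nat_lit 0) (XT.lf (nat_lit 0) (nat_lit 29266452168) (nat_lit 228) (nat_lit 7309366540) (nat_lit 76) (nat_lit 14017128340) (nat_lit 25) (nat_lit 5) (nat_lit 28) (nat_lit 5) (nat_lit 26) (nat_lit 4) (nat_lit 372) (nat_lit 317) (nat_lit 211)) (XT.lf (nat_lit 0) (nat_lit 15203679082) (nat_lit 76) (nat_lit 25053669003) (nat_lit 152) (nat_lit 12222344064) (nat_lit 24) (nat_lit 5) (nat_lit 25) (nat_lit 5) (nat_lit 26) (nat_lit 4) (nat_lit 373) (nat_lit 317) (nat_lit 210))))))) (XT.nd (nat_lit 858) (nat_lit 456) (nat_lit 0) (XT.nd (nat_lit 390) (nat_lit 228) (nat_lit 0) (XT.nd (nat_lit 156) (nat_lit 76) (nat_lit 0) (XT.nd (nat_lit 78) (nat_lit 228) (nat_lit 0) (XT.lf (nat_lit 0) (nat_lit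 39084100013) (nat_lit 76) (nat_lit 12830731456) (nat_lit 152) (nat_lit 2540093698) (nat_lit 24) (nat_lit 5) (nat_lit 25) (nat_lit 5) (nat_lit 26) (nat_lit 4) (nat_lit 374) (nat_lit 317) (nat_lit 209)) (XT.lf (nat_lit 0) (nat_lit 7500505313) (nat_lit 228) (nat_lit 48774340281) (nat_lit 76) (nat_lit 242207188) (nat_lit 21) (nat_lit 5) (nat_lit 24) (nat_lit 5) (nat_lit 22) (nat_lit 4) (nat_lit 375) (nat_lit 317) (nat_lit 208))) (XT.nd (nat_lit 78) (nat_lit 76) (nat_lit 0) (XT.lf (nat_lit 0) (nat_lit 18426210342) (nat_lit 228) (nat_lit 26391693028) (nat_lit 76) (nat_lit 13838881784) (nat_lit 21) (nat_lit 5) (nat_lit 24) (nat_lit 5) (nat_lit 22) (nat_lit 4) (nat_lit 376) (nat_lit 317) (nat_lit 207)) (XT.nd (nat_lit 78) (nat_lit 76) (nat_lit 0) (XT.lf (nat_lit 0) (nat_lit 29892029417) (nat_lit 228) (nat_lit 2901095408) (nat_lit 76) (nat_lit 28110690181) (nat_lit 21) (nat_lit 5) (nat_lit 24) (nat_lit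 5) (nat_lit 22) (nat_lit 4) (nat_lit 377) (nat_lit 317) (nat_lit 206)) (XT.lf (nat_lit 0) (nat_lit 22472647643) (nat_lit 76) (nat_lit 19803475472) (nat_lit 152) (nat_lit 20969826241) (nat_lit 20) (nat_lit 5) (nat_lit 21) (nat_lit 5) (nat_lit 22) (nat_lit 4) (nat_lit 378) (nat_lit 317) (nat_lit 205))))) (XT.nd (nat_lit 234) (nat_lit 76) (nat_lit 0) (XT.nd (nat_lit 78) (nat_lit 152) (nat_lit 0) (XT.lf (nat_lit 0) (nat_lit 49205319577) (nat_lit 76) (nat_lit 6117472324) (nat_lit 152) (nat_lit 10380232090) (nat_lit 20) (nat_lit 5) (nat_lit 21) (nat_lit 5) (nat_lit 22) (nat_lit 4) (nat_lit 379) (nat_lit 317) (nat_lit 204)) (XT.nd (nat_lit 78) (nat_lit 0) (nat_lit 0) (XT.lf (nat_lit 0) (nat_lit 985631672) (nat_lit 152) (nat_lit 59140201639) (nat_lit 76) (nat_lit 8143022297) (nat_lit 18) (nat_lit 5) (nat_lit 20) (nat_lit 5) (nat_lit 19) (nat_lit 4) (nat_lit 380) (nat_lit 317) (nat_lit 203)) (XT.lf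 (nat_lit 0) (nat_lit 12949668223) (nat_lit 152) (nat_lit 34625155800) (nat_lit 76) (nat_lit 23360712023) (nat_lit 18) (nat_lit 5) (nat_lit 20) (nat_lit 5) (nat_lit 19) (nat_lit 4) (nat_lit 381) (nat_lit 317) (nat_lit 202)))) (XT.nd (nat_lit 78) (nat_lit 76) (nat_lit 0) (XT.lf (nat_lit 0) (nat_lit 25506630560) (nat_lit 152) (nat_lit 8894077384) (nat_lit 76) (nat_lit 39335108081) (nat_lit 18) (nat_lit 5) (nat_lit 20) (nat_lit 5) (nat_lit 19) (nat_lit 4) (nat_lit 382) (nat_lit 317) (nat_lit 201)) (XT.nd (nat_lit 78) (nat_lit 0) (nat_lit 0) (XT.lf (nat_lit 0) (nat_lit 18713238582) (nat_lit 76) (nat_lit 20265343726) (nat_lit 152) (nat_lit 37683172265) (nat_lit 17) (nat_lit 5) (nat_lit 18) (nat_lit 5) (nat_lit 19) (nat_lit 4) (nat_lit 383) (nat_lit 317) (nat_lit 200)) (XT.lf (nat_lit 0) (nat_lit 48000595064) (nat_lit 76) (nat_lit 5269234362) (nat_lit 152) (nat_lit 26456877289) (nat_lit 17) (nat_lit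 5) (nat_lit 18) (nat_lit 5) (nat_lit 19) (nat_lit 4) (nat_lit 384) (nat_lit 317) (nat_lit 199)))))) (XT.nd (nat_lit 468) (nat_lit 228) (nat_lit 0) (XT.nd (nat_lit 234) (nat_lit 76) (nat_lit 0) (XT.nd (nat_lit 78) (nat_lit 152) (nat_lit 0) (XT.lf (nat_lit 0) (nat_lit 68434454026) (nat_lit 152) (nat_lit 4365005296) (nat_lit 0) (nat_lit 10137507870) (nat_lit 17) (nat_lit 5) (nat_lit 19) (nat_lit 4) (nat_lit 17) (nat_lit 4) (nat_lit 385) (nat_lit 317) (nat_lit 198)) (XT.nd (nat_lit 78) (nat_lit 76) (nat_lit 0) (XT.lf (nat_lit 0) (nat_lit 25071803236) (nat_lit 76) (nat_lit 59758799842) (nat_lit 76) (nat_lit 1453474365) (nat_lit 16) (nat_lit 4) (nat_lit 17) (nat_lit 5) (nat_lit 17) (nat_lit 4) (nat_lit 386) (nat_lit 317) (nat_lit 197)) (XT.lf (nat_lit 0) (nat_lit 11926622004) (nat_lit 152) (nat_lit 33863730673) (nat_lit 76) (nat_lit 43995099584) (nat_lit 15) (nat_lit 5) (nat_lit 17) (nat_lit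 5) (nat_lit 16) (nat_lit 4) (nat_lit 387) (nat_lit 317) (nat_lit 196)))) (XT.nd (nat_lit 78) (nat_lit 76) (nat_lit 0) (XT.lf (nat_lit 0) (nat_lit 25922575309) (nat_lit 152) (nat_lit 5179626689) (nat_lit 76) (nat_lit 62358718750) (nat_lit 15) (nat_lit 5) (nat_lit 17) (nat_lit 5) (nat_lit 16) (nat_lit 4) (nat_lit 388) (nat_lit 317) (nat_lit 195)) (XT.nd (nat_lit 78) (nat_lit 0) (nat_lit 0) (XT.lf (nat_lit 0) (nat_lit 25755358351) (nat_lit 76) (nat_lit 15260984477) (nat_lit 152) (nat_lit 56283920167) (nat_lit 14) (nat_lit 5) (nat_lit 15) (nat_lit 5) (nat_lit 16) (nat_lit 4) (nat_lit 389) (nat_lit 317) (nat_lit 194)) (XT.lf (nat_lit 0) (nat_lit 56971307426) (nat_lit 152) (nat_lit 42940812349) (nat_lit 0) (nat_lit 1414128249) (nat_lit 14) (nat_lit 5) (nat_lit 16) (nat_lit 4) (nat_lit 14) (nat_lit 4) (nat_lit 390) (nat_lit 317) (nat_lit 193))))) (XT.nd (nat_lit 234) (nat_lit 152) (nat_lit 0)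 (XT.nd (nat_lit 78) (nat_lit 76) (nat_lit 0) (XT.lf (nat_lit 0) (nat_lit 73970320175) (nat_lit 152) (nat_lit 13164009966) (nat_lit 0) (nat_lit 18406888221) (nat_lit 14) (nat_lit 5) (nat_lit 16) (nat_lit 4) (nat_lit 14) (nat_lit 4) (nat_lit 391) (nat_lit 317) (nat_lit 192)) (XT.nd (nat_lit 78) (nat_lit 0) (nat_lit 0) (XT.lf (nat_lit 0) (nat_lit 18692957776) (nat_lit 76) (nat_lit 73414479862) (nat_lit 76) (nat_lit 17845092880) (nat_lit 13) (nat_lit 4) (nat_lit 14) (nat_lit 5) (nat_lit 14) (nat_lit 4) (nat_lit 392) (nat_lit 317) (nat_lit 191)) (XT.lf (nat_lit 0) (nat_lit 52592944816) (nat_lit 76) (nat_lit 58777778616) (nat_lit 76) (nat_lit 3202720180) (nat_lit 13) (nat_lit 4) (nat_lit 14) (nat_lit 5) (nat_lit 14) (nat_lit 4) (nat_lit 393) (nat_lit 317) (nat_lit 190)))) (XT.nd (nat_lit 78) (nat_lit 76) (nat_lit 0) (XT.lf (nat_lit 0) (nat_lit 11778687231) (nat_lit 152) (nat_lit 31434150997)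 (nat_lit 76) (nat_lit 76203238791) (nat_lit 12) (nat_lit 5) (nat_lit 14) (nat_lit 5) (nat_lit 13) (nat_lit 4) (nat_lit 394) (nat_lit 317) (nat_lit 189)) (XT.nd (nat_lit 78) (nat_lit 0) (nat_lit 0) (XT.lf (nat_lit 0) (nat_lit 599882589) (nat_lit 76) (nat_lit 26807671843) (nat_lit 152) (nat_lit 97090362217) (nat_lit 11) (nat_lit 5) (nat_lit 12) (nat_lit 5) (nat_lit 13) (nat_lit 4) (nat_lit 395) (nat_lit 317) (nat_lit 188)) (XT.lf (nat_lit 0) (nat_lit 35320714677) (nat_lit 76) (nat_lit 9026220878) (nat_lit 152) (nat_lit 85460459963) (nat_lit 11) (nat_lit 5) (nat_lit 12) (nat_lit 5) (nat_lit 13) (nat_lit 4) (nat_lit 396) (nat_lit 317) (nat_lit 187))))))))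
noncomputable def xc148 : XT := (XT.nd (nat_lit 1716) (nat_lit 76) (nat_lit 0) (XT.nd (nat_lit 858) (nat_lit 228) (nat_lit 0) (XT.nd (nat_lit 390) (nat_lit 152) (nat_lit 0) (XT.nd (nat_lit 156) (nat_lit 76) (nat_lit 0) (XT.nd (nat_lit 78) (nat_lit 0) (nat_lit 0) (XT.lf (nat_lit 0) (nat_lit 62280690845) (nat_lit 152) (nat_lit 63761377262) (nat_lit 0) (nat_lit 9332910719) (nat_lit 11) (nat_lit 5) (nat_lit 13) (nat_lit 4) (nat_lit 11) (nat_lit 4) (nat_lit 397) (nat_lit 317) (nat_lit 186)) (XT.lf (nat_lit 0) (nat_lit 81256086177) (nat_lit 152) (nat_lit 31653534296) (nat_lit 0) (nat_lit 28304073924) (nat_lit 11) (nat_lit 5) (nat_lit 13) (nat_lit 4) (nat_lit 11) (nat_lit 4) (nat_lit 398) (nat_lit 317) (nat_lit 185))) (XT.nd (nat_lit 78) (nat_lit 0) (nat_lit 0) (XT.lf (nat_lit 0) (nat_lit 2122141691) (nat_lit 76) (nat_lit 99088367348) (nat_lit 76) (nat_lit 46132324498) (nat_lit 10) (nat_lit 4)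 (nat_lit 11) (nat_lit 5) (nat_lit 11) (nat_lit 4) (nat_lit 399) (nat_lit 317) (nat_lit 184)) (XT.nd (nat_lit 78) (nat_lit 0) (nat_lit 0) (XT.lf (nat_lit 0) (nat_lit 38680148201) (nat_lit 76) (nat_lit 84015750652) (nat_lit 76) (nat_lit 31055869138) (nat_lit 10) (nat_lit 4) (nat_lit 11) (nat_lit 5) (nat_lit 11) (nat_lit 4) (nat_lit 400) (nat_lit 317) (nat_lit 183)) (XT.lf (nat_lit 0) (nat_lit 77060919311) (nat_lit 76) (nat_lit 68191951121) (nat_lit 76) (nat_lit 15228413738) (nat_lit 10) (nat_lit 4) (nat_lit 11) (nat_lit 5) (nat_lit 11) (nat_lit 4) (nat_lit 401) (nat_lit 317) (nat_lit 182))))) (XT.nd (nat_lit 234) (nat_lit 0) (nat_lit 0) (XT.nd (nat_lit 78) (nat_lit 76) (nat_lit 0) (XT.lf (nat_lit 0) (nat_lit 1343310218) (nat_lit 152) (nat_lit 50213233217) (nat_lit 76) (nat_lit 115989777983) (nat_lit 9) (nat_lit 5) (nat_lit 11) (nat_lit 5) (nat_lit 10) (nat_lit 4) (nat_lit 402) (nat_lit 317)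 (nat_lit 181)) (XT.nd (nat_lit 78) (nat_lit 76) (nat_lit 0) (XT.lf (nat_lit 0) (nat_lit 18229367461) (nat_lit 152) (nat_lit 15600131850) (nat_lit 76) (nat_lit 141122753359) (nat_lit 9) (nat_lit 5) (nat_lit 11) (nat_lit 5) (nat_lit 10) (nat_lit 4) (nat_lit 403) (nat_lit 317) (nat_lit 180)) (XT.lf (nat_lit 0) (nat_lit 21424838225) (nat_lit 76) (nat_lit 14867030774) (nat_lit 152) (nat_lit 146420004922) (nat_lit 8) (nat_lit 5) (nat_lit 9) (nat_lit 5) (nat_lit 10) (nat_lit 4) (nat_lit 404) (nat_lit 317) (nat_lit 179)))) (XT.nd (nat_lit 78) (nat_lit 0) (nat_lit 0) (XT.lf (nat_lit 0) (nat_lit 55602416132) (nat_lit 152) (nat_lit 130091208825) (nat_lit 0) (nat_lit 5148605734) (nat_lit 8) (nat_lit 5) (nat_lit 10) (nat_lit 4) (nat_lit 8) (nat_lit 4) (nat_lit 405) (nat_lit 317) (nat_lit 178)) (XT.nd (nat_lit 78) (nat_lit 0) (nat_lit 0) (XT.lf (nat_lit 0) (nat_lit 76119973896) (nat_lit 152) (nat_lit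 97583622267) (nat_lit 0) (nat_lit 25663435432) (nat_lit 8) (nat_lit 5) (nat_lit 10) (nat_lit 4) (nat_lit 8) (nat_lit 4) (nat_lit 406) (nat_lit 317) (nat_lit 177)) (XT.lf (nat_lit 0) (nat_lit 97661277606) (nat_lit 152) (nat_lit 63454760990) (nat_lit 0) (nat_lit 47202140983) (nat_lit 8) (nat_lit 5) (nat_lit 10) (nat_lit 4) (nat_lit 8) (nat_lit 4) (nat_lit 407) (nat_lit 317) (nat_lit 176)))))) (XT.nd (nat_lit 390) (nat_lit 152) (nat_lit 0) (XT.nd (nat_lit 156) (nat_lit 0) (nat_lit 0) (XT.nd (nat_lit 78) (nat_lit 76) (nat_lit 0) (XT.lf (nat_lit 0) (nat_lit 120277616079) (nat_lit 152) (nat_lit 27623365803) (nat_lit 0) (nat_lit 69816005019) (nat_lit 8) (nat_lit 5) (nat_lit 10) (nat_lit 4) (nat_lit 8) (nat_lit 4) (nat_lit 408) (nat_lit 317) (nat_lit 175)) (XT.lf (nat_lit 0) (nat_lit 10326384948) (nat_lit 76) (nat_lit 133857676600) (nat_lit 76) (nat_lit 83393708934) (nat_lit 7) (nat_lit 4) (nat_lit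 8) (nat_lit 5) (nat_lit 8) (nat_lit 4) (nat_lit 409) (nat_lit 317) (nat_lit 174))) (XT.nd (nat_lit 78) (nat_lit 0) (nat_lit 0) (XT.lf (nat_lit 0) (nat_lit 51128981169) (nat_lit 76) (nat_lit 118622764347) (nat_lit 76) (nat_lit 68156552293) (nat_lit 7) (nat_lit 4) (nat_lit 8) (nat_lit 5) (nat_lit 8) (nat_lit 4) (nat_lit 410) (nat_lit 317) (nat_lit 173)) (XT.nd (nat_lit 78) (nat_lit 0) (nat_lit 0) (XT.lf (nat_lit 0) (nat_lit 93968218674) (nat_lit 76) (nat_lit 102627786587) (nat_lit 76) (nat_lit 52159437022) (nat_lit 7) (nat_lit 4) (nat_lit 8) (nat_lit 5) (nat_lit 8) (nat_lit 4) (nat_lit 411) (nat_lit 317) (nat_lit 172)) (XT.lf (nat_lit 0) (nat_lit 138946095646) (nat_lit 76) (nat_lit 85834660042) (nat_lit 76) (nat_lit 35364274752) (nat_lit 7) (nat_lit 4) (nat_lit 8) (nat_lit 5) (nat_lit 8) (nat_lit 4) (nat_lit 412) (nat_lit 317) (nat_lit 171))))) (XT.nd (nat_lit 234) (nat_lit 76) (nat_lit 0)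 (XT.nd (nat_lit 78) (nat_lit 76) (nat_lit 0) (XT.lf (nat_lit 0) (nat_lit 186169702270) (nat_lit 76) (nat_lit 68203401076) (nat_lit 76) (nat_lit 17731077000) (nat_lit 7) (nat_lit 4) (nat_lit 8) (nat_lit 5) (nat_lit 8) (nat_lit 4) (nat_lit 413) (nat_lit 317) (nat_lit 170)) (XT.nd (nat_lit 78) (nat_lit 0) (nat_lit 0) (XT.lf (nat_lit 0) (nat_lit 757106671) (nat_lit 152) (nat_lit 48922101862) (nat_lit 76) (nat_lit 234981547065) (nat_lit 6) (nat_lit 5) (nat_lit 8) (nat_lit 5) (nat_lit 7) (nat_lit 4) (nat_lit 414) (nat_lit 317) (nat_lit 169)) (XT.lf (nat_lit 0) (nat_lit 19572306601) (nat_lit 152) (nat_lit 10352700542) (nat_lit 76) (nat_lit 267905694705) (nat_lit 6) (nat_lit 5) (nat_lit 8) (nat_lit 5) (nat_lit 7) (nat_lit 4) (nat_lit 415) (nat_lit 317) (nat_lit 168)))) (XT.nd (nat_lit 78) (nat_lit 0) (nat_lit 0) (XT.lf (nat_lit 0) (nat_lit 31139033120) (nat_lit 76) (nat_lit 8673960533) (nat_lit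 152) (nat_lit 271821915669) (nat_lit 5) (nat_lit 5) (nat_lit 6) (nat_lit 5) (nat_lit 7) (nat_lit 4) (nat_lit 416) (nat_lit 317) (nat_lit 167)) (XT.nd (nat_lit 78) (nat_lit 0) (nat_lit 0) (XT.lf (nat_lit 0) (nat_lit 61455435050) (nat_lit 152) (nat_lit 251274398867) (nat_lit 0) (nat_lit 13380007511) (nat_lit 5) (nat_lit 5) (nat_lit 7) (nat_lit 4) (nat_lit 5) (nat_lit 4) (nat_lit 417) (nat_lit 317) (nat_lit 166)) (XT.lf (nat_lit 0) (nat_lit 84320827719) (nat_lit 152) (nat_lit 220736697775) (nat_lit 0) (nat_lit 36243953429) (nat_lit 5) (nat_lit 5) (nat_lit 7) (nat_lit 4) (nat_lit 5) (nat_lit 4) (nat_lit 418) (nat_lit 317) (nat_lit 165))))))) (XT.nd (nat_lit 39000) (nat_lit 0) (nat_lit 7372) (XT.nd (nat_lit 390) (nat_lit 76) (nat_lit 0) (XT.nd (nat_lit 156) (nat_lit 0) (nat_lit 0) (XT.nd (nat_lit 78) (nat_lit 0) (nat_lit 0) (XT.lf (nat_lit 0) (nat_lit 108328188240) (nat_lit 152) (nat_lit 188674639281)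 (nat_lit 0) (nat_lit 60249936091) (nat_lit 5) (nat_lit 5) (nat_lit 7) (nat_lit 4) (nat_lit 5) (nat_lit 4) (nat_lit 419) (nat_lit 317) (nat_lit 164)) (XT.lf (nat_lit 0) (nat_lit 133534676996) (nat_lit 152) (nat_lit 155011885152) (nat_lit 0) (nat_lit 85455112600) (nat_lit 5) (nat_lit 5) (nat_lit 7) (nat_lit 4) (nat_lit 5) (nat_lit 4) (nat_lit 420) (nat_lit 317) (nat_lit 163))) (XT.nd (nat_lit 78) (nat_lit 0) (nat_lit 0) (XT.lf (nat_lit 0) (nat_lit 160000309435) (nat_lit 152) (nat_lit 119668285972) (nat_lit 0) (nat_lit 111919495280) (nat_lit 5) (nat_lit 5) (nat_lit 7) (nat_lit 4) (nat_lit 5) (nat_lit 4) (nat_lit 421) (nat_lit 317) (nat_lit 162)) (XT.nd (nat_lit 78) (nat_lit 0) (nat_lit 0) (XT.lf (nat_lit 0) (nat_lit 187788098968) (nat_lit 152) (nat_lit 82559690316) (nat_lit 0) (nat_lit 139706094567) (nat_lit 5) (nat_lit 5) (nat_lit 7) (nat_lit 4) (nat_lit 5) (nat_lit 4) (nat_lit 422) (nat_lit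 317) (nat_lit 161)) (XT.lf (nat_lit 0) (nat_lit 216964207000) (nat_lit 152) (nat_lit 43597744383) (nat_lit 0) (nat_lit 168881069031) (nat_lit 5) (nat_lit 5) (nat_lit 7) (nat_lit 4) (nat_lit 5) (nat_lit 4) (nat_lit 423) (nat_lit 317) (nat_lit 160))))) (XT.nd (nat_lit 234) (nat_lit 0) (nat_lit 0) (XT.nd (nat_lit 78) (nat_lit 76) (nat_lit 0) (XT.lf (nat_lit 0) (nat_lit 247598100453) (nat_lit 152) (nat_lit 2689681637) (nat_lit 0) (nat_lit 199513882896) (nat_lit 5) (nat_lit 5) (nat_lit 7) (nat_lit 4) (nat_lit 5) (nat_lit 4) (nat_lit 424) (nat_lit 317) (nat_lit 159)) (XT.nd (nat_lit 78) (nat_lit 0) (nat_lit 0) (XT.lf (nat_lit 0) (nat_lit 41593138251) (nat_lit 76) (nat_lit 238818964371) (nat_lit 76) (nat_lit 190733718634) (nat_lit 4) (nat_lit 4) (nat_lit 5) (nat_lit 5) (nat_lit 5) (nat_lit 4) (nat_lit 425) (nat_lit 317) (nat_lit 158)) (XT.lf (nat_lit 0) (nat_lit 88181623055) (nat_lit 76) (nat_lit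 226729778780) (nat_lit 76) (nat_lit 178643553824) (nat_lit 4) (nat_lit 4) (nat_lit 5) (nat_lit 5) (nat_lit 5) (nat_lit 4) (nat_lit 426) (nat_lit 317) (nat_lit 157)))) (XT.nd (nat_lit 78) (nat_lit 0) (nat_lit 0) (XT.lf (nat_lit 0) (nat_lit 137097764717) (nat_lit 76) (nat_lit 214036992601) (nat_lit 76) (nat_lit 165949835056) (nat_lit 4) (nat_lit 4) (nat_lit 5) (nat_lit 5) (nat_lit 5) (nat_lit 4) (nat_lit 427) (nat_lit 317) (nat_lit 156)) (XT.nd (nat_lit 78) (nat_lit 0) (nat_lit 0) (XT.lf (nat_lit 0) (nat_lit 188458030240) (nat_lit 76) (nat_lit 200710384915) (nat_lit 76) (nat_lit 152622339190) (nat_lit 4) (nat_lit 4) (nat_lit 5) (nat_lit 5) (nat_lit 5) (nat_lit 4) (nat_lit 428) (nat_lit 317) (nat_lit 155)) (XT.lf (nat_lit 0) (nat_lit 242384705971) (nat_lit 76) (nat_lit 186718225704) (nat_lit 76) (nat_lit 138629334093) (nat_lit 4) (nat_lit 4) (nat_lit 5) (nat_lit 5) (nat_lit 5) (nat_lit 4)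 (nat_lit 429) (nat_lit 317) (nat_lit 154)))))) (XT.nd (nat_lit 468) (nat_lit 456) (nat_lit 0) (XT.nd (nat_lit 234) (nat_lit 0) (nat_lit 76) (XT.nd (nat_lit 78) (nat_lit 0) (nat_lit 0) (XT.lf (nat_lit 0) (nat_lit 357258320) (nat_lit 0) (nat_lit 357258320) (nat_lit 684) (nat_lit 4420488320) (nat_lit 107) (nat_lit 5) (nat_lit 107) (nat_lit 3) (nat_lit 116) (nat_lit 3) (nat_lit 318) (nat_lit 318) (nat_lit 264)) (XT.nd (nat_lit 78) (nat_lit 0) (nat_lit 0) (XT.lf (nat_lit 0) (nat_lit 2165008844) (nat_lit 684) (nat_lit 4782447956) (nat_lit 760) (nat_lit 3543434341) (nat_lit 107) (nat_lit 5) (nat_lit 116) (nat_lit 3) (nat_lit 117) (nat_lit 5) (nat_lit 319) (nat_lit 318) (nat_lit 263)) (XT.lf (nat_lit 76) (nat_lit 200950270) (nat_lit 0) (nat_lit 2710838783) (nat_lit 760) (nat_lit 7812381903) (nat_lit 108) (nat_lit 5) (nat_lit 107) (nat_lit 5) (nat_lit 117) (nat_lit 5) (nat_lit 320) (nat_lit 318)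 (nat_lit 262)))) (XT.nd (nat_lit 78) (nat_lit 0) (nat_lit 0) (XT.lf (nat_lit 0) (nat_lit 3766363852) (nat_lit 684) (nat_lit 5418888194) (nat_lit 760) (nat_lit 1780392156) (nat_lit 108) (nat_lit 5) (nat_lit 117) (nat_lit 5) (nat_lit 118) (nat_lit 5) (nat_lit 321) (nat_lit 318) (nat_lit 261)) (XT.nd (nat_lit 78) (nat_lit 0) (nat_lit 0) (XT.lf (nat_lit 0) (nat_lit 4670970028) (nat_lit 684) (nat_lit 127512928) (nat_lit 760) (nat_lit 6420392754) (nat_lit 108) (nat_lit 5) (nat_lit 117) (nat_lit 5) (nat_lit 118) (nat_lit 5) (nat_lit 322) (nat_lit 318) (nat_lit 260)) (XT.lf (nat_lit 76) (nat_lit 5584568479) (nat_lit 0) (nat_lit 88059900) (nat_lit 760) (nat_lit 5809596686) (nat_lit 109) (nat_lit 5) (nat_lit 108) (nat_lit 5) (nat_lit 118) (nat_lit 5) (nat_lit 323) (nat_lit 318) (nat_lit 259))))) (XT.nd (nat_lit 234) (nat_lit 608) (nat_lit 0) (XT.nd (nat_lit 78) (nat_lit 0) (nat_lit 0) (XT.lf (nat_lit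 0) (nat_lit 6768561969) (nat_lit 684) (nat_lit 272003518) (nat_lit 760) (nat_lit 4716011892) (nat_lit 109) (nat_lit 5) (nat_lit 118) (nat_lit 5) (nat_lit 119) (nat_lit 5) (nat_lit 324) (nat_lit 318) (nat_lit 258)) (XT.nd (nat_lit 78) (nat_lit 0) (nat_lit 76) (XT.lf (nat_lit 76) (nat_lit 5795977078) (nat_lit 0) (nat_lit 2183014246) (nat_lit 760) (nat_lit 4062713990) (nat_lit 110) (nat_lit 5) (nat_lit 109) (nat_lit 5) (nat_lit 119) (nat_lit 5) (nat_lit 325) (nat_lit 318) (nat_lit 257)) (XT.lf (nat_lit 0) (nat_lit 9269249936) (nat_lit 684) (nat_lit 234056407) (nat_lit 760) (nat_lit 2836858829) (nat_lit 110) (nat_lit 5) (nat_lit 119) (nat_lit 5) (nat_lit 120) (nat_lit 5) (nat_lit 326) (nat_lit 318) (nat_lit 256)))) (XT.nd (nat_lit 78) (nat_lit 684) (nat_lit 0) (XT.lf (nat_lit 76) (nat_lit 6218221823) (nat_lit 0) (nat_lit 4509219921) (nat_lit 760) (nat_lit 1920974233) (nat_lit 111) (nat_lit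 5) (nat_lit 110) (nat_lit 5) (nat_lit 120) (nat_lit 5) (nat_lit 327) (nat_lit 318) (nat_lit 255)) (XT.nd (nat_lit 78) (nat_lit 760) (nat_lit 0) (XT.lf (nat_lit 0) (nat_lit 12245722745) (nat_lit 684) (nat_lit 6556834) (nat_lit 76) (nat_lit 720477871) (nat_lit 111) (nat_lit 5) (nat_lit 120) (nat_lit 5) (nat_lit 112) (nat_lit 5) (nat_lit 328) (nat_lit 318) (nat_lit 254)) (XT.lf (nat_lit 0) (nat_lit 666305729) (nat_lit 760) (nat_lit 6455689580) (nat_lit 76) (nat_lit 6183115339) (nat_lit 101) (nat_lit 5) (nat_lit 111) (nat_lit 5) (nat_lit 102) (nat_lit 5) (nat_lit 329) (nat_lit 318) (nat_lit 253))))))))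
noncomputable def xc149 : XT := (XT.nd (nat_lit 1716) (nat_lit 1824) (nat_lit 0) (XT.nd (nat_lit 858) (nat_lit 1520) (nat_lit 0) (XT.nd (nat_lit 390) (nat_lit 1064) (nat_lit 0) (XT.nd (nat_lit 156) (nat_lit 684) (nat_lit 0) (XT.nd (nat_lit 78) (nat_lit 0) (nat_lit 0) (XT.lf (nat_lit 0) (nat_lit 370533895) (nat_lit 760) (nat_lit 1713742688) (nat_lit 836) (nat_lit 11570271225) (nat_lit 91) (nat_lit 5) (nat_lit 101) (nat_lit 5) (nat_lit 102) (nat_lit 5) (nat_lit 330) (nat_lit 318) (nat_lit 252)) (XT.lf (nat_lit 0) (nat_lit 3720602591) (nat_lit 836) (nat_lit 6342207758) (nat_lit 76) (nat_lit 3951304176) (nat_lit 91) (nat_lit 5) (nat_lit 102) (nat_lit 5) (nat_lit 92) (nat_lit 5) (nat_lit 331) (nat_lit 318) (nat_lit 251))) (XT.nd (nat_lit 78) (nat_lit 304) (nat_lit 0) (XT.lf (nat_lit 0) (nat_lit 924649008) (nat_lit 380) (nat_lit 4532274521) (nat_lit 456) (nat_lit 8933856196) (nat_lit 86) (nat_lit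 5) (nat_lit 91) (nat_lit 5) (nat_lit 92) (nat_lit 5) (nat_lit 332) (nat_lit 318) (nat_lit 250)) (XT.nd (nat_lit 78) (nat_lit 304) (nat_lit 0) (XT.lf (nat_lit 0) (nat_lit 7385584962) (nat_lit 456) (nat_lit 6051907775) (nat_lit 76) (nat_lit 1343536917) (nat_lit 86) (nat_lit 5) (nat_lit 92) (nat_lit 5) (nat_lit 87) (nat_lit 5) (nat_lit 333) (nat_lit 318) (nat_lit 249)) (XT.lf (nat_lit 0) (nat_lit 1689592878) (nat_lit 304) (nat_lit 7799339052) (nat_lit 380) (nat_lit 5697973901) (nat_lit 82) (nat_lit 5) (nat_lit 86) (nat_lit 5) (nat_lit 87) (nat_lit 5) (nat_lit 334) (nat_lit 318) (nat_lit 248))))) (XT.nd (nat_lit 234) (nat_lit 608) (nat_lit 0) (XT.nd (nat_lit 78) (nat_lit 456) (nat_lit 0) (XT.lf (nat_lit 0) (nat_lit 10005440136) (nat_lit 304) (nat_lit 1772783074) (nat_lit 380) (nat_lit 3830838876) (nat_lit 82) (nat_lit 5) (nat_lit 86) (nat_lit 5) (nat_lit 87) (nat_lit 5) (nat_lit 335) (nat_lit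 318) (nat_lit 247)) (XT.nd (nat_lit 78) (nat_lit 76) (nat_lit 0) (XT.lf (nat_lit 0) (nat_lit 2676509936) (nat_lit 380) (nat_lit 11597677169) (nat_lit 456) (nat_lit 1773552568) (nat_lit 77) (nat_lit 5) (nat_lit 82) (nat_lit 5) (nat_lit 83) (nat_lit 5) (nat_lit 336) (nat_lit 318) (nat_lit 246)) (XT.lf (nat_lit 0) (nat_lit 479329221) (nat_lit 456) (nat_lit 4998186120) (nat_lit 76) (nat_lit 11025300468) (nat_lit 76) (nat_lit 5) (nat_lit 82) (nat_lit 5) (nat_lit 77) (nat_lit 5) (nat_lit 337) (nat_lit 318) (nat_lit 245)))) (XT.nd (nat_lit 78) (nat_lit 304) (nat_lit 0) (XT.lf (nat_lit 0) (nat_lit 2842409697) (nat_lit 380) (nat_lit 13127246427) (nat_lit 76) (nat_lit 1006698679) (nat_lit 72) (nat_lit 5) (nat_lit 77) (nat_lit 5) (nat_lit 73) (nat_lit 5) (nat_lit 338) (nat_lit 318) (nat_lit 244)) (XT.nd (nat_lit 78) (nat_lit 304) (nat_lit 0) (XT.lf (nat_lit 0) (nat_lit 5480576503) (nat_lit 380) (nat_lit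 4270810317) (nat_lit 76) (nat_lit 7714356994) (nat_lit 72) (nat_lit 5) (nat_lit 77) (nat_lit 5) (nat_lit 73) (nat_lit 5) (nat_lit 339) (nat_lit 318) (nat_lit 243)) (XT.lf (nat_lit 0) (nat_lit 5172492760) (nat_lit 304) (nat_lit 3140918492) (nat_lit 380) (nat_lit 9663071784) (nat_lit 68) (nat_lit 5) (nat_lit 72) (nat_lit 5) (nat_lit 73) (nat_lit 5) (nat_lit 340) (nat_lit 318) (nat_lit 242)))))) (XT.nd (nat_lit 390) (nat_lit 912) (nat_lit 0) (XT.nd (nat_lit 156) (nat_lit 380) (nat_lit 0) (XT.nd (nat_lit 78) (nat_lit 228) (nat_lit 0) (XT.lf (nat_lit 0) (nat_lit 11403203037) (nat_lit 380) (nat_lit 3355418248) (nat_lit 76) (nat_lit 3748390023) (nat_lit 68) (nat_lit 5) (nat_lit 73) (nat_lit 5) (nat_lit 69) (nat_lit 5) (nat_lit 341) (nat_lit 318) (nat_lit 241)) (XT.lf (nat_lit 0) (nat_lit 6707838133) (nat_lit 228) (nat_lit 8079171138) (nat_lit 304) (nat_lit 4270097479) (nat_lit 65) (nat_lit 5)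 (nat_lit 68) (nat_lit 5) (nat_lit 69) (nat_lit 5) (nat_lit 342) (nat_lit 318) (nat_lit 240))) (XT.nd (nat_lit 78) (nat_lit 380) (nat_lit 0) (XT.lf (nat_lit 0) (nat_lit 17370141232) (nat_lit 228) (nat_lit 1010469641) (nat_lit 304) (nat_lit 1252082029) (nat_lit 65) (nat_lit 5) (nat_lit 68) (nat_lit 5) (nat_lit 69) (nat_lit 5) (nat_lit 343) (nat_lit 318) (nat_lit 239)) (XT.nd (nat_lit 78) (nat_lit 0) (nat_lit 0) (XT.lf (nat_lit 0) (nat_lit 2076004158) (nat_lit 380) (nat_lit 11780266519) (nat_lit 76) (nat_lit 6368279983) (nat_lit 60) (nat_lit 5) (nat_lit 65) (nat_lit 5) (nat_lit 61) (nat_lit 5) (nat_lit 344) (nat_lit 318) (nat_lit 238)) (XT.lf (nat_lit 0) (nat_lit 5568578303) (nat_lit 380) (nat_lit 1137335298) (nat_lit 76) (nat_lit 14137067304) (nat_lit 60) (nat_lit 5) (nat_lit 65) (nat_lit 5) (nat_lit 61) (nat_lit 5) (nat_lit 345) (nat_lit 318) (nat_lit 237))))) (XT.nd (nat_lit 234) (nat_lit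 456) (nat_lit 0) (XT.nd (nat_lit 78) (nat_lit 228) (nat_lit 0) (XT.lf (nat_lit 0) (nat_lit 9397839277) (nat_lit 304) (nat_lit 11150666446) (nat_lit 76) (nat_lit 935737352) (nat_lit 57) (nat_lit 5) (nat_lit 61) (nat_lit 5) (nat_lit 58) (nat_lit 5) (nat_lit 346) (nat_lit 318) (nat_lit 236)) (XT.nd (nat_lit 78) (nat_lit 0) (nat_lit 0) (XT.lf (nat_lit 0) (nat_lit 135095053) (nat_lit 228) (nat_lit 13400786696) (nat_lit 304) (nat_lit 8615833370) (nat_lit 54) (nat_lit 5) (nat_lit 57) (nat_lit 5) (nat_lit 58) (nat_lit 5) (nat_lit 347) (nat_lit 318) (nat_lit 235)) (XT.lf (nat_lit 0) (nat_lit 12352696829) (nat_lit 228) (nat_lit 5703045985) (nat_lit 304) (nat_lit 4788084209) (nat_lit 54) (nat_lit 5) (nat_lit 57) (nat_lit 5) (nat_lit 58) (nat_lit 5) (nat_lit 348) (nat_lit 318) (nat_lit 234)))) (XT.nd (nat_lit 78) (nat_lit 304) (nat_lit 0) (XT.lf (nat_lit 0) (nat_lit 1605640436) (nat_lit 152) (nat_lit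 21244830649) (nat_lit 228) (nat_lit 717641236) (nat_lit 52) (nat_lit 5) (nat_lit 54) (nat_lit 5) (nat_lit 55) (nat_lit 5) (nat_lit 349) (nat_lit 318) (nat_lit 233)) (XT.nd (nat_lit 78) (nat_lit 228) (nat_lit 0) (XT.lf (nat_lit 0) (nat_lit 3703346851) (nat_lit 228) (nat_lit 9819549716) (nat_lit 76) (nat_lit 10789907170) (nat_lit 51) (nat_lit 5) (nat_lit 54) (nat_lit 5) (nat_lit 52) (nat_lit 5) (nat_lit 350) (nat_lit 318) (nat_lit 232)) (XT.lf (nat_lit 0) (nat_lit 2996203561) (nat_lit 228) (nat_lit 5359242422) (nat_lit 304) (nat_lit 16736996494) (nat_lit 48) (nat_lit 5) (nat_lit 51) (nat_lit 5) (nat_lit 52) (nat_lit 5) (nat_lit 351) (nat_lit 318) (nat_lit 231))))))) (XT.nd (nat_lit 858) (nat_lit 836) (nat_lit 0) (XT.nd (nat_lit 390) (nat_lit 532) (nat_lit 0) (XT.nd (nat_lit 156) (nat_lit 304) (nat_lit 0) (XT.nd (nat_lit 78) (nat_lit 152) (nat_lit 0) (XT.lf (nat_lit 0) (nat_lit 13446957701)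 (nat_lit 304) (nat_lit 9180657046) (nat_lit 76) (nat_lit 3273117491) (nat_lit 48) (nat_lit 5) (nat_lit 52) (nat_lit 5) (nat_lit 49) (nat_lit 5) (nat_lit 352) (nat_lit 318) (nat_lit 230)) (XT.lf (nat_lit 0) (nat_lit 4416407615) (nat_lit 152) (nat_lit 14521660599) (nat_lit 228) (nat_lit 7804126130) (nat_lit 46) (nat_lit 5) (nat_lit 48) (nat_lit 5) (nat_lit 49) (nat_lit 5) (nat_lit 353) (nat_lit 318) (nat_lit 229))) (XT.nd (nat_lit 78) (nat_lit 304) (nat_lit 0) (XT.lf (nat_lit 0) (nat_lit 18994551676) (nat_lit 152) (nat_lit 5853163638) (nat_lit 228) (nat_lit 2770823775) (nat_lit 46) (nat_lit 5) (nat_lit 48) (nat_lit 5) (nat_lit 49) (nat_lit 5) (nat_lit 354) (nat_lit 318) (nat_lit 228)) (XT.nd (nat_lit 78) (nat_lit 0) (nat_lit 0) (XT.lf (nat_lit 0) (nat_lit 2567361945) (nat_lit 304) (nat_lit 22690196256) (nat_lit 76) (nat_lit 3272503690) (nat_lit 42) (nat_lit 5) (nat_lit 46) (nat_lit 5) (nat_lit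 43) (nat_lit 5) (nat_lit 355) (nat_lit 318) (nat_lit 227)) (XT.lf (nat_lit 0) (nat_lit 8312776888) (nat_lit 304) (nat_lit 8314544393) (nat_lit 76) (nat_lit 12845903914) (nat_lit 42) (nat_lit 5) (nat_lit 46) (nat_lit 5) (nat_lit 43) (nat_lit 5) (nat_lit 356) (nat_lit 318) (nat_lit 226))))) (XT.nd (nat_lit 234) (nat_lit 228) (nat_lit 0) (XT.nd (nat_lit 78) (nat_lit 152) (nat_lit 0) (XT.lf (nat_lit 0) (nat_lit 6987110069) (nat_lit 152) (nat_lit 7457001446) (nat_lit 228) (nat_lit 16014509764) (nat_lit 40) (nat_lit 5) (nat_lit 42) (nat_lit 5) (nat_lit 43) (nat_lit 5) (nat_lit 357) (nat_lit 318) (nat_lit 225)) (XT.nd (nat_lit 78) (nat_lit 152) (nat_lit 0) (XT.lf (nat_lit 0) (nat_lit 21048753168) (nat_lit 228) (nat_lit 8196523937) (nat_lit 76) (nat_lit 2239679777) (nat_lit 40) (nat_lit 5) (nat_lit 43) (nat_lit 5) (nat_lit 41) (nat_lit 5) (nat_lit 358) (nat_lit 318) (nat_lit 224)) (XT.lf (nat_lit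 0) (nat_lit 7958921022) (nat_lit 152) (nat_lit 20261415406) (nat_lit 228) (nat_lit 4330443769) (nat_lit 38) (nat_lit 5) (nat_lit 40) (nat_lit 5) (nat_lit 41) (nat_lit 5) (nat_lit 359) (nat_lit 318) (nat_lit 223)))) (XT.nd (nat_lit 78) (nat_lit 152) (nat_lit 0) (XT.lf (nat_lit 0) (nat_lit 2145363379) (nat_lit 228) (nat_lit 8506864841) (nat_lit 76) (nat_lit 23009480487) (nat_lit 37) (nat_lit 5) (nat_lit 40) (nat_lit 5) (nat_lit 38) (nat_lit 5) (nat_lit 360) (nat_lit 318) (nat_lit 222)) (XT.nd (nat_lit 78) (nat_lit 0) (nat_lit 0) (XT.lf (nat_lit 0) (nat_lit 8570601941) (nat_lit 152) (nat_lit 353366207) (nat_lit 228) (nat_lit 25894444560) (nat_lit 35) (nat_lit 5) (nat_lit 37) (nat_lit 5) (nat_lit 38) (nat_lit 5) (nat_lit 361) (nat_lit 318) (nat_lit 221)) (XT.lf (nat_lit 0) (nat_lit 16342096187) (nat_lit 228) (nat_lit 9409369465) (nat_lit 76) (nat_lit 10266461875) (nat_lit 35) (nat_lit 5) (nat_lit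 38) (nat_lit 5) (nat_lit 36) (nat_lit 5) (nat_lit 362) (nat_lit 318) (nat_lit 220)))))) (XT.nd (nat_lit 468) (nat_lit 380) (nat_lit 0) (XT.nd (nat_lit 234) (nat_lit 152) (nat_lit 0) (XT.nd (nat_lit 78) (nat_lit 152) (nat_lit 0) (XT.lf (nat_lit 0) (nat_lit 8523507813) (nat_lit 152) (nat_lit 15737774048) (nat_lit 228) (nat_lit 13009633686) (nat_lit 33) (nat_lit 5) (nat_lit 35) (nat_lit 5) (nat_lit 36) (nat_lit 5) (nat_lit 363) (nat_lit 318) (nat_lit 219)) (XT.nd (nat_lit 78) (nat_lit 152) (nat_lit 0) (XT.lf (nat_lit 0) (nat_lit 27665436184) (nat_lit 152) (nat_lit 5061817764) (nat_lit 228) (nat_lit 5851762444) (nat_lit 33) (nat_lit 5) (nat_lit 35) (nat_lit 5) (nat_lit 36) (nat_lit 5) (nat_lit 364) (nat_lit 318) (nat_lit 218)) (XT.lf (nat_lit 0) (nat_lit 1826223540) (nat_lit 152) (nat_lit 32014675894) (nat_lit 76) (nat_lit 6099554213) (nat_lit 31) (nat_lit 5) (nat_lit 33) (nat_lit 5) (nat_lit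 32) (nat_lit 5) (nat_lit 365) (nat_lit 318) (nat_lit 217)))) (XT.nd (nat_lit 78) (nat_lit 152) (nat_lit 0) (XT.lf (nat_lit 0) (nat_lit 9954125288) (nat_lit 152) (nat_lit 13470624447) (nat_lit 76) (nat_lit 17927286930) (nat_lit 31) (nat_lit 5) (nat_lit 33) (nat_lit 5) (nat_lit 32) (nat_lit 5) (nat_lit 366) (nat_lit 318) (nat_lit 216)) (XT.nd (nat_lit 78) (nat_lit 0) (nat_lit 0) (XT.lf (nat_lit 0) (nat_lit 6185302255) (nat_lit 152) (nat_lit 12391915225) (nat_lit 228) (nat_lit 24252545520) (nat_lit 29) (nat_lit 5) (nat_lit 31) (nat_lit 5) (nat_lit 32) (nat_lit 5) (nat_lit 367) (nat_lit 318) (nat_lit 215)) (XT.lf (nat_lit 0) (nat_lit 27278613786) (nat_lit 152) (nat_lit 573373477) (nat_lit 228) (nat_lit 16518365986) (nat_lit 29) (nat_lit 5) (nat_lit 31) (nat_lit 5) (nat_lit 32) (nat_lit 5) (nat_lit 368) (nat_lit 318) (nat_lit 214))))) (XT.nd (nat_lit 234) (nat_lit 228) (nat_lit 0) (XT.nd (nat_lit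 78) (nat_lit 76) (nat_lit 0) (XT.lf (nat_lit 0) (nat_lit 3348245255) (nat_lit 76) (nat_lit 34471992766) (nat_lit 152) (nat_lit 8156251433) (nat_lit 28) (nat_lit 5) (nat_lit 29) (nat_lit 5) (nat_lit 30) (nat_lit 4) (nat_lit 369) (nat_lit 318) (nat_lit 213)) (XT.nd (nat_lit 78) (nat_lit 0) (nat_lit 0) (XT.lf (nat_lit 0) (nat_lit 900304251) (nat_lit 152) (nat_lit 22281512167) (nat_lit 76) (nat_lit 24465816879) (nat_lit 27) (nat_lit 5) (nat_lit 29) (nat_lit 5) (nat_lit 28) (nat_lit 5) (nat_lit 370) (nat_lit 318) (nat_lit 212)) (XT.lf (nat_lit 0) (nat_lit 10128636251) (nat_lit 152) (nat_lit 1063325609) (nat_lit 76) (nat_lit 38204037497) (nat_lit 27) (nat_lit 5) (nat_lit 29) (nat_lit 5) (nat_lit 28) (nat_lit 5) (nat_lit 371) (nat_lit 318) (nat_lit 211)))) (XT.nd (nat_lit 78) (nat_lit 76) (nat_lit 0) (XT.lf (nat_lit 0) (nat_lit 20181116634) (nat_lit 228) (nat_lit 29337080623) (nat_lit 76) (nat_lit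 1695452809) (nat_lit 25) (nat_lit 5) (nat_lit 28) (nat_lit 5) (nat_lit 26) (nat_lit 4) (nat_lit 372) (nat_lit 318) (nat_lit 210)) (XT.nd (nat_lit 78) (nat_lit 76) (nat_lit 0) (XT.lf (nat_lit 0) (nat_lit 30931441984) (nat_lit 228) (nat_lit 7316333663) (nat_lit 76) (nat_lit 14864649412) (nat_lit 25) (nat_lit 5) (nat_lit 28) (nat_lit 5) (nat_lit 26) (nat_lit 4) (nat_lit 373) (nat_lit 318) (nat_lit 209)) (XT.lf (nat_lit 0) (nat_lit 16316581962) (nat_lit 76) (nat_lit 26151204465) (nat_lit 152) (nat_lit 12625929897) (nat_lit 24) (nat_lit 5) (nat_lit 25) (nat_lit 5) (nat_lit 26) (nat_lit 4) (nat_lit 374) (nat_lit 318) (nat_lit 208))))))))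
noncomputable def xc150 : XT := (XT.nd (nat_lit 1716) (nat_lit 456) (nat_lit 0) (XT.nd (nat_lit 858) (nat_lit 456) (nat_lit 0) (XT.nd (nat_lit 390) (nat_lit 228) (nat_lit 0) (XT.nd (nat_lit 156) (nat_lit 76) (nat_lit 0) (XT.nd (nat_lit 78) (nat_lit 228) (nat_lit 0) (XT.lf (nat_lit 0) (nat_lit 41374227801) (nat_lit 76) (nat_lit 13324508040) (nat_lit 152) (nat_lit 2469449458) (nat_lit 24) (nat_lit 5) (nat_lit 25) (nat_lit 5) (nat_lit 26) (nat_lit 4) (nat_lit 375) (nat_lit 318) (nat_lit 207)) (XT.lf (nat_lit 0) (nat_lit 8065332782) (nat_lit 228) (nat_lit 50869142778) (nat_lit 76) (nat_lit 398869015) (nat_lit 21) (nat_lit 5) (nat_lit 24) (nat_lit 5) (nat_lit 22) (nat_lit 4) (nat_lit 376) (nat_lit 318) (nat_lit 206))) (XT.nd (nat_lit 78) (nat_lit 76) (nat_lit 0) (XT.lf (nat_lit 0) (nat_lit 19528284862) (nat_lit 228) (nat_lit 27383740044) (nat_lit 76) (nat_lit 14668493938) (nat_lit 21) (nat_lit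 5) (nat_lit 24) (nat_lit 5) (nat_lit 22) (nat_lit 4) (nat_lit 377) (nat_lit 318) (nat_lit 205)) (XT.nd (nat_lit 78) (nat_lit 76) (nat_lit 0) (XT.lf (nat_lit 0) (nat_lit 31558787081) (nat_lit 228) (nat_lit 2734209573) (nat_lit 76) (nat_lit 29647337133) (nat_lit 21) (nat_lit 5) (nat_lit 24) (nat_lit 5) (nat_lit 22) (nat_lit 4) (nat_lit 378) (nat_lit 318) (nat_lit 204)) (XT.lf (nat_lit 0) (nat_lit 23903189331) (nat_lit 76) (nat_lit 20655489935) (nat_lit 152) (nat_lit 21841068955) (nat_lit 20) (nat_lit 5) (nat_lit 21) (nat_lit 5) (nat_lit 22) (nat_lit 4) (nat_lit 379) (nat_lit 318) (nat_lit 203))))) (XT.nd (nat_lit 234) (nat_lit 76) (nat_lit 0) (XT.nd (nat_lit 78) (nat_lit 152) (nat_lit 0) (XT.lf (nat_lit 0) (nat_lit 51957880133) (nat_lit 76) (nat_lit 6291765644) (nat_lit 152) (nat_lit 10730435506) (nat_lit 20) (nat_lit 5) (nat_lit 21) (nat_lit 5) (nat_lit 22) (nat_lit 4) (nat_lit 380) (nat_lit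 318) (nat_lit 202)) (XT.nd (nat_lit 78) (nat_lit 0) (nat_lit 0) (XT.lf (nat_lit 0) (nat_lit 1197183742) (nat_lit 152) (nat_lit 61798271235) (nat_lit 76) (nat_lit 8678677102) (nat_lit 18) (nat_lit 5) (nat_lit 20) (nat_lit 5) (nat_lit 19) (nat_lit 4) (nat_lit 381) (nat_lit 318) (nat_lit 201)) (XT.lf (nat_lit 0) (nat_lit 13751694955) (nat_lit 152) (nat_lit 36071708365) (nat_lit 76) (nat_lit 24651132091) (nat_lit 18) (nat_lit 5) (nat_lit 20) (nat_lit 5) (nat_lit 19) (nat_lit 4) (nat_lit 382) (nat_lit 318) (nat_lit 200)))) (XT.nd (nat_lit 78) (nat_lit 76) (nat_lit 0) (XT.lf (nat_lit 0) (nat_lit 26929146202) (nat_lit 152) (nat_lit 9067633420) (nat_lit 76) (nat_lit 41418420121) (nat_lit 18) (nat_lit 5) (nat_lit 20) (nat_lit 5) (nat_lit 19) (nat_lit 4) (nat_lit 383) (nat_lit 318) (nat_lit 199)) (XT.nd (nat_lit 78) (nat_lit 0) (nat_lit 0) (XT.lf (nat_lit 0) (nat_lit 19915674992) (nat_lit 76) (nat_lit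 21156176876) (nat_lit 152) (nat_lit 39415727815) (nat_lit 17) (nat_lit 5) (nat_lit 18) (nat_lit 5) (nat_lit 19) (nat_lit 4) (nat_lit 384) (nat_lit 318) (nat_lit 198)) (XT.lf (nat_lit 0) (nat_lit 50654695751) (nat_lit 76) (nat_lit 5416092237) (nat_lit 152) (nat_lit 27635337283) (nat_lit 17) (nat_lit 5) (nat_lit 18) (nat_lit 5) (nat_lit 19) (nat_lit 4) (nat_lit 385) (nat_lit 318) (nat_lit 197)))))) (XT.nd (nat_lit 390) (nat_lit 228) (nat_lit 0) (XT.nd (nat_lit 156) (nat_lit 152) (nat_lit 0) (XT.nd (nat_lit 78) (nat_lit 76) (nat_lit 0) (XT.lf (nat_lit 0) (nat_lit 71988831587) (nat_lit 152) (nat_lit 4336429654) (nat_lit 0) (nat_lit 10751880209) (nat_lit 17) (nat_lit 5) (nat_lit 19) (nat_lit 4) (nat_lit 17) (nat_lit 4) (nat_lit 386) (nat_lit 318) (nat_lit 196)) (XT.lf (nat_lit 0) (nat_lit 26568238241) (nat_lit 76) (nat_lit 62634024441) (nat_lit 76) (nat_lit 1389472772) (nat_lit 16) (nat_lit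 4) (nat_lit 17) (nat_lit 5) (nat_lit 17) (nat_lit 4) (nat_lit 387) (nat_lit 318) (nat_lit 195))) (XT.nd (nat_lit 78) (nat_lit 76) (nat_lit 0) (XT.lf (nat_lit 0) (nat_lit 12648953912) (nat_lit 152) (nat_lit 35321434521) (nat_lit 76) (nat_lit 46298000674) (nat_lit 15) (nat_lit 5) (nat_lit 17) (nat_lit 5) (nat_lit 16) (nat_lit 4) (nat_lit 388) (nat_lit 318) (nat_lit 194)) (XT.nd (nat_lit 78) (nat_lit 76) (nat_lit 0) (XT.lf (nat_lit 0) (nat_lit 27338704844) (nat_lit 152) (nat_lit 5214338799) (nat_lit 76) (nat_lit 65574889079) (nat_lit 15) (nat_lit 5) (nat_lit 17) (nat_lit 5) (nat_lit 16) (nat_lit 4) (nat_lit 389) (nat_lit 318) (nat_lit 193)) (XT.lf (nat_lit 0) (nat_lit 27263778247) (nat_lit 76) (nat_lit 15921113164) (nat_lit 152) (nat_lit 58974465756) (nat_lit 14) (nat_lit 5) (nat_lit 15) (nat_lit 5) (nat_lit 16) (nat_lit 4) (nat_lit 390) (nat_lit 318) (nat_lit 192))))) (XT.nd (nat_lit 234)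 (nat_lit 152) (nat_lit 0) (XT.nd (nat_lit 78) (nat_lit 76) (nat_lit 0) (XT.lf (nat_lit 0) (nat_lit 59933528340) (nat_lit 152) (nat_lit 44873601464) (nat_lit 0) (nat_lit 1579716982) (nat_lit 14) (nat_lit 5) (nat_lit 16) (nat_lit 4) (nat_lit 14) (nat_lit 4) (nat_lit 391) (nat_lit 318) (nat_lit 191)) (XT.nd (nat_lit 78) (nat_lit 76) (nat_lit 0) (XT.lf (nat_lit 0) (nat_lit 77777079559) (nat_lit 152) (nat_lit 13618161415) (nat_lit 0) (nat_lit 19417596746) (nat_lit 14) (nat_lit 5) (nat_lit 16) (nat_lit 4) (nat_lit 14) (nat_lit 4) (nat_lit 392) (nat_lit 318) (nat_lit 190)) (XT.lf (nat_lit 0) (nat_lit 19828363601) (nat_lit 76) (nat_lit 76990669241) (nat_lit 76) (nat_lit 18625785043) (nat_lit 13) (nat_lit 4) (nat_lit 14) (nat_lit 5) (nat_lit 14) (nat_lit 4) (nat_lit 393) (nat_lit 318) (nat_lit 189)))) (XT.nd (nat_lit 78) (nat_lit 152) (nat_lit 0) (XT.lf (nat_lit 0) (nat_lit 55413790092) (nat_lit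 76) (nat_lit 61626634581) (nat_lit 76) (nat_lit 3256606207) (nat_lit 13) (nat_lit 4) (nat_lit 14) (nat_lit 5) (nat_lit 14) (nat_lit 4) (nat_lit 394) (nat_lit 318) (nat_lit 188)) (XT.nd (nat_lit 78) (nat_lit 76) (nat_lit 0) (XT.lf (nat_lit 0) (nat_lit 12465573325) (nat_lit 152) (nat_lit 32820502272) (nat_lit 76) (nat_lit 80095883505) (nat_lit 12) (nat_lit 5) (nat_lit 14) (nat_lit 5) (nat_lit 13) (nat_lit 4) (nat_lit 395) (nat_lit 318) (nat_lit 187)) (XT.lf (nat_lit 0) (nat_lit 812243375) (nat_lit 76) (nat_lit 28061823397) (nat_lit 152) (nat_lit 101843915949) (nat_lit 11) (nat_lit 5) (nat_lit 12) (nat_lit 5) (nat_lit 13) (nat_lit 4) (nat_lit 396) (nat_lit 318) (nat_lit 186))))))) (XT.nd (nat_lit 858) (nat_lit 228) (nat_lit 0) (XT.nd (nat_lit 390) (nat_lit 152) (nat_lit 0) (XT.nd (nat_lit 156) (nat_lit 76) (nat_lit 0) (XT.nd (nat_lit 78) (nat_lit 0) (nat_lit 0) (XT.lf (nat_lit 0) (nat_lit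 37260432942) (nat_lit 76) (nat_lit 9395406172) (nat_lit 152) (nat_lit 89637326410) (nat_lit 11) (nat_lit 5) (nat_lit 12) (nat_lit 5) (nat_lit 13) (nat_lit 4) (nat_lit 397) (nat_lit 318) (nat_lit 185)) (XT.lf (nat_lit 0) (nat_lit 65483143476) (nat_lit 152) (nat_lit 66780874611) (nat_lit 0) (nat_lit 9875267887) (nat_lit 11) (nat_lit 5) (nat_lit 13) (nat_lit 4) (nat_lit 11) (nat_lit 4) (nat_lit 398) (nat_lit 318) (nat_lit 184))) (XT.nd (nat_lit 78) (nat_lit 76) (nat_lit 0) (XT.lf (nat_lit 0) (nat_lit 85403098189) (nat_lit 152) (nat_lit 33075666712) (nat_lit 0) (nat_lit 29791383936) (nat_lit 11) (nat_lit 5) (nat_lit 13) (nat_lit 4) (nat_lit 11) (nat_lit 4) (nat_lit 399) (nat_lit 318) (nat_lit 183)) (XT.nd (nat_lit 78) (nat_lit 0) (nat_lit 0) (XT.lf (nat_lit 0) (nat_lit 2386203650) (nat_lit 76) (nat_lit 103967494772) (nat_lit 76) (nat_lit 48352124649) (nat_lit 10) (nat_lit 4) (nat_lit 11) (nat_lit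 5) (nat_lit 11) (nat_lit 4) (nat_lit 400) (nat_lit 318) (nat_lit 182)) (XT.lf (nat_lit 0) (nat_lit 40764588825) (nat_lit 76) (nat_lit 88144832524) (nat_lit 76) (nat_lit 32525980620) (nat_lit 10) (nat_lit 4) (nat_lit 11) (nat_lit 5) (nat_lit 11) (nat_lit 4) (nat_lit 401) (nat_lit 318) (nat_lit 181))))) (XT.nd (nat_lit 234) (nat_lit 76) (nat_lit 0) (XT.nd (nat_lit 78) (nat_lit 76) (nat_lit 0) (XT.lf (nat_lit 0) (nat_lit 81057235004) (nat_lit 76) (nat_lit 71533257572) (nat_lit 76) (nat_lit 15911089687) (nat_lit 10) (nat_lit 4) (nat_lit 11) (nat_lit 5) (nat_lit 11) (nat_lit 4) (nat_lit 402) (nat_lit 318) (nat_lit 180)) (XT.nd (nat_lit 78) (nat_lit 0) (nat_lit 0) (XT.lf (nat_lit 0) (nat_lit 1483070410) (nat_lit 152) (nat_lit 52585031623) (nat_lit 76) (nat_lit 121851890135) (nat_lit 9) (nat_lit 5) (nat_lit 11) (nat_lit 5) (nat_lit 10) (nat_lit 4) (nat_lit 403) (nat_lit 318) (nat_lit 179)) (XT.lf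 (nat_lit 0) (nat_lit 19209973625) (nat_lit 152) (nat_lit 16247887724) (nat_lit 76) (nat_lit 148238532220) (nat_lit 9) (nat_lit 5) (nat_lit 11) (nat_lit 5) (nat_lit 10) (nat_lit 4) (nat_lit 404) (nat_lit 318) (nat_lit 178)))) (XT.nd (nat_lit 78) (nat_lit 0) (nat_lit 0) (XT.lf (nat_lit 0) (nat_lit 22626197778) (nat_lit 76) (nat_lit 15548141687) (nat_lit 152) (nat_lit 153669720162) (nat_lit 8) (nat_lit 5) (nat_lit 9) (nat_lit 5) (nat_lit 10) (nat_lit 4) (nat_lit 405) (nat_lit 318) (nat_lit 177)) (XT.nd (nat_lit 78) (nat_lit 0) (nat_lit 0) (XT.lf (nat_lit 0) (nat_lit 58448107193) (nat_lit 152) (nat_lit 136469527475) (nat_lit 0) (nat_lit 5463415580) (nat_lit 8) (nat_lit 5) (nat_lit 10) (nat_lit 4) (nat_lit 8) (nat_lit 4) (nat_lit 406) (nat_lit 318) (nat_lit 176)) (XT.lf (nat_lit 0) (nat_lit 79988420452) (nat_lit 152) (nat_lit 102342573102) (nat_lit 0) (nat_lit 27001254403) (nat_lit 8) (nat_lit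 5) (nat_lit 10) (nat_lit 4) (nat_lit 8) (nat_lit 4) (nat_lit 407) (nat_lit 318) (nat_lit 175)))))) (XT.nd (nat_lit 468) (nat_lit 152) (nat_lit 0) (XT.nd (nat_lit 234) (nat_lit 0) (nat_lit 0) (XT.nd (nat_lit 78) (nat_lit 76) (nat_lit 0) (XT.lf (nat_lit 0) (nat_lit 102603815640) (nat_lit 152) (nat_lit 66512994014) (nat_lit 0) (nat_lit 49614292984) (nat_lit 8) (nat_lit 5) (nat_lit 10) (nat_lit 4) (nat_lit 8) (nat_lit 4) (nat_lit 408) (nat_lit 318) (nat_lit 174)) (XT.nd (nat_lit 78) (nat_lit 76) (nat_lit 0) (XT.lf (nat_lit 0) (nat_lit 126348138934) (nat_lit 152) (nat_lit 28895481687) (nat_lit 0) (nat_lit 73356371891) (nat_lit 8) (nat_lit 5) (nat_lit 10) (nat_lit 4) (nat_lit 8) (nat_lit 4) (nat_lit 409) (nat_lit 318) (nat_lit 173)) (XT.lf (nat_lit 0) (nat_lit 10949997692) (nat_lit 76) (nat_lit 140498886897) (nat_lit 76) (nat_lit 87504982342) (nat_lit 7) (nat_lit 4) (nat_lit 8) (nat_lit 5) (nat_lit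 8) (nat_lit 4) (nat_lit 410) (nat_lit 318) (nat_lit 172)))) (XT.nd (nat_lit 78) (nat_lit 0) (nat_lit 0) (XT.lf (nat_lit 0) (nat_lit 53787614510) (nat_lit 76) (nat_lit 124504689675) (nat_lit 76) (nat_lit 71508749395) (nat_lit 7) (nat_lit 4) (nat_lit 8) (nat_lit 5) (nat_lit 8) (nat_lit 4) (nat_lit 411) (nat_lit 318) (nat_lit 171)) (XT.nd (nat_lit 78) (nat_lit 0) (nat_lit 0) (XT.lf (nat_lit 0) (nat_lit 98763947971) (nat_lit 76) (nat_lit 107712306499) (nat_lit 76) (nat_lit 54714427433) (nat_lit 7) (nat_lit 4) (nat_lit 8) (nat_lit 5) (nat_lit 8) (nat_lit 4) (nat_lit 412) (nat_lit 318) (nat_lit 170)) (XT.lf (nat_lit 0) (nat_lit 145986084585) (nat_lit 76) (nat_lit 90081755503) (nat_lit 76) (nat_lit 37082029974) (nat_lit 7) (nat_lit 4) (nat_lit 8) (nat_lit 5) (nat_lit 8) (nat_lit 4) (nat_lit 413) (nat_lit 318) (nat_lit 169))))) (XT.nd (nat_lit 234) (nat_lit 76) (nat_lit 0) (XT.nd (nat_lit 78) (nat_lit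 76) (nat_lit 0) (XT.lf (nat_lit 0) (nat_lit 195566458009) (nat_lit 76) (nat_lit 71571059186) (nat_lit 76) (nat_lit 18569575121) (nat_lit 7) (nat_lit 4) (nat_lit 8) (nat_lit 5) (nat_lit 8) (nat_lit 4) (nat_lit 414) (nat_lit 318) (nat_lit 168)) (XT.nd (nat_lit 78) (nat_lit 0) (nat_lit 0) (XT.lf (nat_lit 0) (nat_lit 839264524) (nat_lit 152) (nat_lit 51282666586) (nat_lit 76) (nat_lit 246769638876) (nat_lit 6) (nat_lit 5) (nat_lit 8) (nat_lit 5) (nat_lit 7) (nat_lit 4) (nat_lit 415) (nat_lit 318) (nat_lit 167)) (XT.lf (nat_lit 0) (nat_lit 20593114806) (nat_lit 152) (nat_lit 10788868551) (nat_lit 76) (nat_lit 281338136067) (nat_lit 6) (nat_lit 5) (nat_lit 8) (nat_lit 5) (nat_lit 7) (nat_lit 4) (nat_lit 416) (nat_lit 318) (nat_lit 166)))) (XT.nd (nat_lit 78) (nat_lit 0) (nat_lit 0) (XT.lf (nat_lit 0) (nat_lit 32776137811) (nat_lit 76) (nat_lit 9068940630) (nat_lit 152) (nat_lit 285369497095)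 (nat_lit 5) (nat_lit 5) (nat_lit 6) (nat_lit 5) (nat_lit 7) (nat_lit 4) (nat_lit 417) (nat_lit 318) (nat_lit 165)) (XT.nd (nat_lit 78) (nat_lit 0) (nat_lit 0) (XT.lf (nat_lit 0) (nat_lit 64568244516) (nat_lit 152) (nat_lit 263760378056) (nat_lit 0) (nat_lit 14084701901) (nat_lit 5) (nat_lit 5) (nat_lit 7) (nat_lit 4) (nat_lit 5) (nat_lit 4) (nat_lit 418) (nat_lit 318) (nat_lit 164)) (XT.lf (nat_lit 0) (nat_lit 88575000261) (nat_lit 152) (nat_lit 231699493850) (nat_lit 0) (nat_lit 38090145399) (nat_lit 5) (nat_lit 5) (nat_lit 7) (nat_lit 4) (nat_lit 5) (nat_lit 4) (nat_lit 419) (nat_lit 318) (nat_lit 163))))))))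
noncomputable def xc151 : XT := (XT.nd (nat_lit 39936) (nat_lit 0) (nat_lit 3344) (XT.nd (nat_lit 39078) (nat_lit 0) (nat_lit 7372) (XT.nd (nat_lit 390) (nat_lit 76) (nat_lit 0) (XT.nd (nat_lit 156) (nat_lit 0) (nat_lit 0) (XT.nd (nat_lit 78) (nat_lit 0) (nat_lit 0) (XT.lf (nat_lit 0) (nat_lit 113780913039) (nat_lit 152) (nat_lit 198037858089) (nat_lit 0) (nat_lit 63294808418) (nat_lit 5) (nat_lit 5) (nat_lit 7) (nat_lit 4) (nat_lit 5) (nat_lit 4) (nat_lit 420) (nat_lit 318) (nat_lit 162)) (XT.lf (nat_lit 0) (nat_lit 140245996928) (nat_lit 152) (nat_lit 162695324023) (nat_lit 0) (nat_lit 89758702061) (nat_lit 5) (nat_lit 5) (nat_lit 7) (nat_lit 4) (nat_lit 5) (nat_lit 4) (nat_lit 421) (nat_lit 318) (nat_lit 161))) (XT.nd (nat_lit 78) (nat_lit 0) (nat_lit 0) (XT.lf (nat_lit 0) (nat_lit 168033264033) (nat_lit 152) (nat_lit 125587742760) (nat_lit 0) (nat_lit 117544835598) (nat_lit 5) (nat_lit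 5) (nat_lit 7) (nat_lit 4) (nat_lit 5) (nat_lit 4) (nat_lit 422) (nat_lit 318) (nat_lit 160)) (XT.nd (nat_lit 78) (nat_lit 0) (nat_lit 0) (XT.lf (nat_lit 0) (nat_lit 197208874514) (nat_lit 152) (nat_lit 86626762917) (nat_lit 0) (nat_lit 146719366489) (nat_lit 5) (nat_lit 5) (nat_lit 7) (nat_lit 4) (nat_lit 5) (nat_lit 4) (nat_lit 423) (nat_lit 318) (nat_lit 159)) (XT.lf (nat_lit 0) (nat_lit 227842294109) (nat_lit 152) (nat_lit 45719620255) (nat_lit 0) (nat_lit 177351757905) (nat_lit 5) (nat_lit 5) (nat_lit 7) (nat_lit 4) (nat_lit 5) (nat_lit 4) (nat_lit 424) (nat_lit 318) (nat_lit 158))))) (XT.nd (nat_lit 234) (nat_lit 0) (nat_lit 0) (XT.nd (nat_lit 78) (nat_lit 76) (nat_lit 0) (XT.lf (nat_lit 0) (nat_lit 260006459532) (nat_lit 152) (nat_lit 2768916816) (nat_lit 0) (nat_lit 209514944110) (nat_lit 5) (nat_lit 5) (nat_lit 7) (nat_lit 4) (nat_lit 5) (nat_lit 4) (nat_lit 425) (nat_lit 318)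 (nat_lit 157)) (XT.nd (nat_lit 78) (nat_lit 0) (nat_lit 0) (XT.lf (nat_lit 0) (nat_lit 43727152955) (nat_lit 76) (nat_lit 250733502577) (nat_lit 76) (nat_lit 200241054566) (nat_lit 4) (nat_lit 4) (nat_lit 5) (nat_lit 5) (nat_lit 5) (nat_lit 4) (nat_lit 426) (nat_lit 318) (nat_lit 156)) (XT.lf (nat_lit 0) (nat_lit 92642473533) (nat_lit 76) (nat_lit 238041115326) (nat_lit 76) (nat_lit 187547779134) (nat_lit 4) (nat_lit 4) (nat_lit 5) (nat_lit 5) (nat_lit 5) (nat_lit 4) (nat_lit 427) (nat_lit 318) (nat_lit 155)))) (XT.nd (nat_lit 78) (nat_lit 0) (nat_lit 0) (XT.lf (nat_lit 0) (nat_lit 144001957072) (nat_lit 76) (nat_lit 224714887571) (nat_lit 76) (nat_lit 174220705493) (nat_lit 4) (nat_lit 4) (nat_lit 5) (nat_lit 5) (nat_lit 5) (nat_lit 4) (nat_lit 428) (nat_lit 318) (nat_lit 154)) (XT.nd (nat_lit 38298) (nat_lit 0) (nat_lit 7828) (XT.lf (nat_lit 0) (nat_lit 197927888056) (nat_lit 76) (nat_lit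 210723090199) (nat_lit 76) (nat_lit 160228102516) (nat_lit 4) (nat_lit 4) (nat_lit 5) (nat_lit 5) (nat_lit 5) (nat_lit 4) (nat_lit 429) (nat_lit 318) (nat_lit 153)) (XT.lf (nat_lit 0) (nat_lit 691649740) (nat_lit 0) (nat_lit 691649740) (nat_lit 684) (nat_lit 3975959707) (nat_lit 107) (nat_lit 5) (nat_lit 107) (nat_lit 3) (nat_lit 116) (nat_lit 3) (nat_lit 319) (nat_lit 319) (nat_lit 262)))))) (XT.nd (nat_lit 390) (nat_lit 456) (nat_lit 0) (XT.nd (nat_lit 156) (nat_lit 0) (nat_lit 76) (XT.nd (nat_lit 78) (nat_lit 0) (nat_lit 0) (XT.lf (nat_lit 0) (nat_lit 3469669023) (nat_lit 684) (nat_lit 4347348598) (nat_lit 760) (nat_lit 3136991552) (nat_lit 107) (nat_lit 5) (nat_lit 116) (nat_lit 3) (nat_lit 117) (nat_lit 5) (nat_lit 320) (nat_lit 319) (nat_lit 261)) (XT.lf (nat_lit 76) (nat_lit 874344994) (nat_lit 0) (nat_lit 3332828065) (nat_lit 760) (nat_lit 6994187158) (nat_lit 108) (nat_lit 5) (nat_lit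 107) (nat_lit 5) (nat_lit 117) (nat_lit 5) (nat_lit 321) (nat_lit 319) (nat_lit 260))) (XT.nd (nat_lit 78) (nat_lit 0) (nat_lit 0) (XT.lf (nat_lit 0) (nat_lit 5042491328) (nat_lit 684) (nat_lit 4994631361) (nat_lit 760) (nat_lit 1420956536) (nat_lit 108) (nat_lit 5) (nat_lit 117) (nat_lit 5) (nat_lit 118) (nat_lit 5) (nat_lit 322) (nat_lit 319) (nat_lit 259)) (XT.nd (nat_lit 78) (nat_lit 0) (nat_lit 0) (XT.lf (nat_lit 76) (nat_lit 545672783) (nat_lit 0) (nat_lit 5403374068) (nat_lit 760) (nat_lit 5777158873) (nat_lit 109) (nat_lit 5) (nat_lit 108) (nat_lit 5) (nat_lit 118) (nat_lit 5) (nat_lit 323) (nat_lit 319) (nat_lit 258)) (XT.lf (nat_lit 76) (nat_lit 6515214350) (nat_lit 0) (nat_lit 437890986) (nat_lit 760) (nat_lit 5052067414) (nat_lit 109) (nat_lit 5) (nat_lit 108) (nat_lit 5) (nat_lit 118) (nat_lit 5) (nat_lit 324) (nat_lit 319) (nat_lit 257))))) (XT.nd (nat_lit 234) (nat_lit 608)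 (nat_lit 0) (XT.nd (nat_lit 78) (nat_lit 0) (nat_lit 0) (XT.lf (nat_lit 76) (nat_lit 401508136) (nat_lit 0) (nat_lit 7655991015) (nat_lit 760) (nat_lit 4238123270) (nat_lit 110) (nat_lit 5) (nat_lit 109) (nat_lit 5) (nat_lit 119) (nat_lit 5) (nat_lit 325) (nat_lit 319) (nat_lit 256)) (XT.nd (nat_lit 78) (nat_lit 0) (nat_lit 76) (XT.lf (nat_lit 76) (nat_lit 6749161816) (nat_lit 0) (nat_lit 2538412975) (nat_lit 760) (nat_lit 3309535644) (nat_lit 110) (nat_lit 5) (nat_lit 109) (nat_lit 5) (nat_lit 119) (nat_lit 5) (nat_lit 326) (nat_lit 319) (nat_lit 255)) (XT.lf (nat_lit 76) (nat_lit 448510825) (nat_lit 0) (nat_lit 10153860575) (nat_lit 760) (nat_lit 2310177703) (nat_lit 111) (nat_lit 5) (nat_lit 110) (nat_lit 5) (nat_lit 120) (nat_lit 5) (nat_lit 327) (nat_lit 319) (nat_lit 254)))) (XT.nd (nat_lit 78) (nat_lit 684) (nat_lit 0) (XT.lf (nat_lit 76) (nat_lit 7198081450) (nat_lit 0) (nat_lit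 4897754119) (nat_lit 760) (nat_lit 1142313090) (nat_lit 111) (nat_lit 5) (nat_lit 110) (nat_lit 5) (nat_lit 120) (nat_lit 5) (nat_lit 328) (nat_lit 319) (nat_lit 253)) (XT.nd (nat_lit 78) (nat_lit 0) (nat_lit 0) (XT.lf (nat_lit 0) (nat_lit 76013658) (nat_lit 760) (nat_lit 12885992974) (nat_lit 76) (nat_lit 618250305) (nat_lit 101) (nat_lit 5) (nat_lit 111) (nat_lit 5) (nat_lit 102) (nat_lit 5) (nat_lit 329) (nat_lit 319) (nat_lit 252)) (XT.lf (nat_lit 0) (nat_lit 1475887521) (nat_lit 760) (nat_lit 6082664731) (nat_lit 76) (nat_lit 6372061588) (nat_lit 101) (nat_lit 5) (nat_lit 111) (nat_lit 5) (nat_lit 102) (nat_lit 5) (nat_lit 330) (nat_lit 319) (nat_lit 251))))))) (XT.nd (nat_lit 858) (nat_lit 1520) (nat_lit 0) (XT.nd (nat_lit 390) (nat_lit 1064) (nat_lit 0) (XT.nd (nat_lit 156) (nat_lit 684) (nat_lit 0) (XT.nd (nat_lit 78) (nat_lit 0) (nat_lit 0) (XT.lf (nat_lit 0) (nat_lit 1073647187)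 (nat_lit 760) (nat_lit 1864832974) (nat_lit 836) (nat_lit 11360401248) (nat_lit 91) (nat_lit 5) (nat_lit 101) (nat_lit 5) (nat_lit 102) (nat_lit 5) (nat_lit 331) (nat_lit 319) (nat_lit 250)) (XT.lf (nat_lit 0) (nat_lit 4619936170) (nat_lit 836) (nat_lit 5969792895) (nat_lit 76) (nat_lit 4088574298) (nat_lit 91) (nat_lit 5) (nat_lit 102) (nat_lit 5) (nat_lit 92) (nat_lit 5) (nat_lit 332) (nat_lit 319) (nat_lit 249))) (XT.nd (nat_lit 78) (nat_lit 304) (nat_lit 0) (XT.lf (nat_lit 0) (nat_lit 1649285334) (nat_lit 380) (nat_lit 4770412776) (nat_lit 456) (nat_lit 8655313023) (nat_lit 86) (nat_lit 5) (nat_lit 91) (nat_lit 5) (nat_lit 92) (nat_lit 5) (nat_lit 333) (nat_lit 319) (nat_lit 248)) (XT.nd (nat_lit 78) (nat_lit 304) (nat_lit 0) (XT.lf (nat_lit 0) (nat_lit 8411767519) (nat_lit 456) (nat_lit 5674606607) (nat_lit 76) (nat_lit 1400089314) (nat_lit 86) (nat_lit 5) (nat_lit 92) (nat_lit 5)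 (nat_lit 87) (nat_lit 5) (nat_lit 334) (nat_lit 319) (nat_lit 247)) (XT.lf (nat_lit 0) (nat_lit 2443003005) (nat_lit 304) (nat_lit 8156441600) (nat_lit 380) (nat_lit 5314267469) (nat_lit 82) (nat_lit 5) (nat_lit 86) (nat_lit 5) (nat_lit 87) (nat_lit 5) (nat_lit 335) (nat_lit 319) (nat_lit 246))))) (XT.nd (nat_lit 234) (nat_lit 608) (nat_lit 0) (XT.nd (nat_lit 78) (nat_lit 456) (nat_lit 0) (XT.lf (nat_lit 0) (nat_lit 11142788794) (nat_lit 304) (nat_lit 1830122794) (nat_lit 380) (nat_lit 3385614032) (nat_lit 82) (nat_lit 5) (nat_lit 86) (nat_lit 5) (nat_lit 87) (nat_lit 5) (nat_lit 336) (nat_lit 319) (nat_lit 245)) (XT.nd (nat_lit 78) (nat_lit 76) (nat_lit 0) (XT.lf (nat_lit 0) (nat_lit 3467145602) (nat_lit 380) (nat_lit 12108401591) (nat_lit 456) (nat_lit 1244529586) (nat_lit 77) (nat_lit 5) (nat_lit 82) (nat_lit 5) (nat_lit 83) (nat_lit 5) (nat_lit 337) (nat_lit 319) (nat_lit 244)) (XT.lf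 (nat_lit 0) (nat_lit 1072753143) (nat_lit 456) (nat_lit 4603127797) (nat_lit 76) (nat_lit 11622997487) (nat_lit 76) (nat_lit 5) (nat_lit 82) (nat_lit 5) (nat_lit 77) (nat_lit 5) (nat_lit 338) (nat_lit 319) (nat_lit 243)))) (XT.nd (nat_lit 78) (nat_lit 304) (nat_lit 0) (XT.lf (nat_lit 0) (nat_lit 3538063159) (nat_lit 380) (nat_lit 13122140161) (nat_lit 76) (nat_lit 1136716099) (nat_lit 72) (nat_lit 5) (nat_lit 77) (nat_lit 5) (nat_lit 73) (nat_lit 5) (nat_lit 339) (nat_lit 319) (nat_lit 242)) (XT.nd (nat_lit 78) (nat_lit 304) (nat_lit 0) (XT.lf (nat_lit 0) (nat_lit 6281779592) (nat_lit 380) (nat_lit 3854380750) (nat_lit 76) (nat_lit 8175962925) (nat_lit 72) (nat_lit 5) (nat_lit 77) (nat_lit 5) (nat_lit 73) (nat_lit 5) (nat_lit 340) (nat_lit 319) (nat_lit 241)) (XT.lf (nat_lit 0) (nat_lit 6050926673) (nat_lit 304) (nat_lit 3189902829) (nat_lit 380) (nat_lit 9608367422) (nat_lit 68) (nat_lit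 5) (nat_lit 72) (nat_lit 5) (nat_lit 73) (nat_lit 5) (nat_lit 341) (nat_lit 319) (nat_lit 240)))))) (XT.nd (nat_lit 468) (nat_lit 684) (nat_lit 0) (XT.nd (nat_lit 234) (nat_lit 608) (nat_lit 0) (XT.nd (nat_lit 78) (nat_lit 228) (nat_lit 0) (XT.lf (nat_lit 0) (nat_lit 12462348743) (nat_lit 380) (nat_lit 2909634498) (nat_lit 76) (nat_lit 4035431374) (nat_lit 68) (nat_lit 5) (nat_lit 73) (nat_lit 5) (nat_lit 69) (nat_lit 5) (nat_lit 342) (nat_lit 319) (nat_lit 239)) (XT.nd (nat_lit 78) (nat_lit 0) (nat_lit 0) (XT.lf (nat_lit 0) (nat_lit 7646888659) (nat_lit 228) (nat_lit 8354596406) (nat_lit 304) (nat_lit 3984246489) (nat_lit 65) (nat_lit 5) (nat_lit 68) (nat_lit 5) (nat_lit 69) (nat_lit 5) (nat_lit 343) (nat_lit 319) (nat_lit 238)) (XT.lf (nat_lit 0) (nat_lit 18813561264) (nat_lit 228) (nat_lit 938580467) (nat_lit 304) (nat_lit 839109117) (nat_lit 65) (nat_lit 5) (nat_lit 68) (nat_lit 5)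 (nat_lit 69) (nat_lit 5) (nat_lit 344) (nat_lit 319) (nat_lit 237)))) (XT.nd (nat_lit 78) (nat_lit 228) (nat_lit 0) (XT.lf (nat_lit 0) (nat_lit 2629394740) (nat_lit 380) (nat_lit 11767540371) (nat_lit 76) (nat_lit 6815953874) (nat_lit 60) (nat_lit 5) (nat_lit 65) (nat_lit 5) (nat_lit 61) (nat_lit 5) (nat_lit 345) (nat_lit 319) (nat_lit 236)) (XT.nd (nat_lit 78) (nat_lit 228) (nat_lit 0) (XT.lf (nat_lit 0) (nat_lit 6275188527) (nat_lit 380) (nat_lit 621116849) (nat_lit 76) (nat_lit 14967025327) (nat_lit 60) (nat_lit 5) (nat_lit 65) (nat_lit 5) (nat_lit 61) (nat_lit 5) (nat_lit 346) (nat_lit 319) (nat_lit 235)) (XT.lf (nat_lit 0) (nat_lit 10286625055) (nat_lit 304) (nat_lit 11125455458) (nat_lit 76) (nat_lit 1125058424) (nat_lit 57) (nat_lit 5) (nat_lit 61) (nat_lit 5) (nat_lit 58) (nat_lit 5) (nat_lit 347) (nat_lit 319) (nat_lit 234))))) (XT.nd (nat_lit 234) (nat_lit 304) (nat_lit 0) (XT.nd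 (nat_lit 78) (nat_lit 152) (nat_lit 0) (XT.lf (nat_lit 0) (nat_lit 715195014) (nat_lit 228) (nat_lit 13905378838) (nat_lit 304) (nat_lit 8617978217) (nat_lit 54) (nat_lit 5) (nat_lit 57) (nat_lit 5) (nat_lit 58) (nat_lit 5) (nat_lit 348) (nat_lit 319) (nat_lit 233)) (XT.nd (nat_lit 78) (nat_lit 152) (nat_lit 0) (XT.lf (nat_lit 0) (nat_lit 13516374725) (nat_lit 228) (nat_lit 5830629529) (nat_lit 304) (nat_lit 4619253352) (nat_lit 54) (nat_lit 5) (nat_lit 57) (nat_lit 5) (nat_lit 58) (nat_lit 5) (nat_lit 349) (nat_lit 319) (nat_lit 232)) (XT.lf (nat_lit 0) (nat_lit 2240180002) (nat_lit 152) (nat_lit 22133786618) (nat_lit 228) (nat_lit 353181716) (nat_lit 52) (nat_lit 5) (nat_lit 54) (nat_lit 5) (nat_lit 55) (nat_lit 5) (nat_lit 350) (nat_lit 319) (nat_lit 231)))) (XT.nd (nat_lit 78) (nat_lit 228) (nat_lit 0) (XT.lf (nat_lit 0) (nat_lit 4257588623) (nat_lit 228) (nat_lit 9770168447) (nat_lit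 76) (nat_lit 11481941972) (nat_lit 51) (nat_lit 5) (nat_lit 54) (nat_lit 5) (nat_lit 52) (nat_lit 5) (nat_lit 351) (nat_lit 319) (nat_lit 230)) (XT.nd (nat_lit 78) (nat_lit 0) (nat_lit 0) (XT.lf (nat_lit 0) (nat_lit 3677657030) (nat_lit 228) (nat_lit 5455361151) (nat_lit 304) (nat_lit 17195779131) (nat_lit 48) (nat_lit 5) (nat_lit 51) (nat_lit 5) (nat_lit 52) (nat_lit 5) (nat_lit 352) (nat_lit 319) (nat_lit 229)) (XT.lf (nat_lit 0) (nat_lit 14464527353) (nat_lit 304) (nat_lit 9118520734) (nat_lit 76) (nat_lit 3595195585) (nat_lit 48) (nat_lit 5) (nat_lit 52) (nat_lit 5) (nat_lit 49) (nat_lit 5) (nat_lit 353) (nat_lit 319) (nat_lit 228))))))))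
noncomputable def xc152 : XT := (XT.nd (nat_lit 1716) (nat_lit 988) (nat_lit 0) (XT.nd (nat_lit 858) (nat_lit 684) (nat_lit 0) (XT.nd (nat_lit 390) (nat_lit 532) (nat_lit 0) (XT.nd (nat_lit 156) (nat_lit 456) (nat_lit 0) (XT.nd (nat_lit 78) (nat_lit 0) (nat_lit 0) (XT.lf (nat_lit 0) (nat_lit 5149991206) (nat_lit 152) (nat_lit 15071768725) (nat_lit 228) (nat_lit 7840453202) (nat_lit 46) (nat_lit 5) (nat_lit 48) (nat_lit 5) (nat_lit 49) (nat_lit 5) (nat_lit 354) (nat_lit 319) (nat_lit 227)) (XT.lf (nat_lit 0) (nat_lit 20432625175) (nat_lit 152) (nat_lit 5978226674) (nat_lit 228) (nat_lit 2572337121) (nat_lit 46) (nat_lit 5) (nat_lit 48) (nat_lit 5) (nat_lit 49) (nat_lit 5) (nat_lit 355) (nat_lit 319) (nat_lit 226))) (XT.nd (nat_lit 78) (nat_lit 152) (nat_lit 0) (XT.lf (nat_lit 0) (nat_lit 3016806219) (nat_lit 304) (nat_lit 23319963090) (nat_lit 76) (nat_lit 3603524601) (nat_lit 42) (nat_lit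 5) (nat_lit 46) (nat_lit 5) (nat_lit 43) (nat_lit 5) (nat_lit 356) (nat_lit 319) (nat_lit 225)) (XT.nd (nat_lit 78) (nat_lit 152) (nat_lit 0) (XT.lf (nat_lit 0) (nat_lit 9034202567) (nat_lit 304) (nat_lit 8249564013) (nat_lit 76) (nat_lit 13647623611) (nat_lit 42) (nat_lit 5) (nat_lit 46) (nat_lit 5) (nat_lit 43) (nat_lit 5) (nat_lit 357) (nat_lit 319) (nat_lit 224)) (XT.lf (nat_lit 0) (nat_lit 7809419824) (nat_lit 152) (nat_lit 7655506966) (nat_lit 228) (nat_lit 16501498001) (nat_lit 40) (nat_lit 5) (nat_lit 42) (nat_lit 5) (nat_lit 43) (nat_lit 5) (nat_lit 358) (nat_lit 319) (nat_lit 223))))) (XT.nd (nat_lit 234) (nat_lit 304) (nat_lit 0) (XT.nd (nat_lit 78) (nat_lit 228) (nat_lit 0) (XT.lf (nat_lit 0) (nat_lit 22388173403) (nat_lit 228) (nat_lit 8144102709) (nat_lit 76) (nat_lit 2512391802) (nat_lit 40) (nat_lit 5) (nat_lit 43) (nat_lit 5) (nat_lit 41) (nat_lit 5) (nat_lit 359) (nat_lit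 319) (nat_lit 222)) (XT.nd (nat_lit 78) (nat_lit 76) (nat_lit 0) (XT.lf (nat_lit 0) (nat_lit 8811658894) (nat_lit 152) (nat_lit 21100111669) (nat_lit 228) (nat_lit 4252349031) (nat_lit 38) (nat_lit 5) (nat_lit 40) (nat_lit 5) (nat_lit 41) (nat_lit 5) (nat_lit 360) (nat_lit 319) (nat_lit 221)) (XT.lf (nat_lit 0) (nat_lit 2524238544) (nat_lit 228) (nat_lit 8489930333) (nat_lit 76) (nat_lit 24316882789) (nat_lit 37) (nat_lit 5) (nat_lit 40) (nat_lit 5) (nat_lit 38) (nat_lit 5) (nat_lit 361) (nat_lit 319) (nat_lit 220)))) (XT.nd (nat_lit 78) (nat_lit 152) (nat_lit 0) (XT.lf (nat_lit 0) (nat_lit 9434276276) (nat_lit 152) (nat_lit 201357429) (nat_lit 228) (nat_lit 26910271873) (nat_lit 35) (nat_lit 5) (nat_lit 37) (nat_lit 5) (nat_lit 38) (nat_lit 5) (nat_lit 362) (nat_lit 319) (nat_lit 219)) (XT.nd (nat_lit 78) (nat_lit 152) (nat_lit 0) (XT.lf (nat_lit 0) (nat_lit 17414549839) (nat_lit 228)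 (nat_lit 9455149491) (nat_lit 76) (nat_lit 10936210076) (nat_lit 35) (nat_lit 5) (nat_lit 38) (nat_lit 5) (nat_lit 36) (nat_lit 5) (nat_lit 363) (nat_lit 319) (nat_lit 218)) (XT.lf (nat_lit 0) (nat_lit 9367521836) (nat_lit 152) (nat_lit 16356537123) (nat_lit 228) (nat_lit 13397776662) (nat_lit 33) (nat_lit 5) (nat_lit 35) (nat_lit 5) (nat_lit 36) (nat_lit 5) (nat_lit 364) (nat_lit 319) (nat_lit 217)))))) (XT.nd (nat_lit 390) (nat_lit 380) (nat_lit 0) (XT.nd (nat_lit 156) (nat_lit 152) (nat_lit 0) (XT.nd (nat_lit 78) (nat_lit 152) (nat_lit 0) (XT.lf (nat_lit 0) (nat_lit 29446649548) (nat_lit 152) (nat_lit 5154789008) (nat_lit 228) (nat_lit 5894504177) (nat_lit 33) (nat_lit 5) (nat_lit 35) (nat_lit 5) (nat_lit 36) (nat_lit 5) (nat_lit 365) (nat_lit 319) (nat_lit 216)) (XT.lf (nat_lit 0) (nat_lit 2156649398) (nat_lit 152) (nat_lit 33206488412) (nat_lit 76) (nat_lit 6562261802) (nat_lit 31)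 (nat_lit 5) (nat_lit 33) (nat_lit 5) (nat_lit 32) (nat_lit 5) (nat_lit 366) (nat_lit 319) (nat_lit 215))) (XT.nd (nat_lit 78) (nat_lit 152) (nat_lit 0) (XT.lf (nat_lit 0) (nat_lit 10679559821) (nat_lit 152) (nat_lit 13754706834) (nat_lit 76) (nat_lit 18973870209) (nat_lit 31) (nat_lit 5) (nat_lit 33) (nat_lit 5) (nat_lit 32) (nat_lit 5) (nat_lit 367) (nat_lit 319) (nat_lit 214)) (XT.nd (nat_lit 78) (nat_lit 0) (nat_lit 0) (XT.lf (nat_lit 0) (nat_lit 6877734771) (nat_lit 152) (nat_lit 12851209966) (nat_lit 228) (nat_lit 25231053360) (nat_lit 29) (nat_lit 5) (nat_lit 31) (nat_lit 5) (nat_lit 32) (nat_lit 5) (nat_lit 368) (nat_lit 319) (nat_lit 213)) (XT.lf (nat_lit 0) (nat_lit 29007465811) (nat_lit 152) (nat_lit 449374512) (nat_lit 228) (nat_lit 17121313394) (nat_lit 29) (nat_lit 5) (nat_lit 31) (nat_lit 5) (nat_lit 32) (nat_lit 5) (nat_lit 369) (nat_lit 319) (nat_lit 212))))) (XT.nd (nat_lit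 234) (nat_lit 228) (nat_lit 0) (XT.nd (nat_lit 78) (nat_lit 76) (nat_lit 0) (XT.lf (nat_lit 0) (nat_lit 3882892237) (nat_lit 76) (nat_lit 36038507693) (nat_lit 152) (nat_lit 8343306964) (nat_lit 28) (nat_lit 5) (nat_lit 29) (nat_lit 5) (nat_lit 30) (nat_lit 4) (nat_lit 370) (nat_lit 319) (nat_lit 211)) (XT.nd (nat_lit 78) (nat_lit 0) (nat_lit 0) (XT.lf (nat_lit 0) (nat_lit 1148835117) (nat_lit 152) (nat_lit 23039020998) (nat_lit 76) (nat_lit 25831892784) (nat_lit 27) (nat_lit 5) (nat_lit 29) (nat_lit 5) (nat_lit 28) (nat_lit 5) (nat_lit 371) (nat_lit 319) (nat_lit 210)) (XT.lf (nat_lit 0) (nat_lit 10828892496) (nat_lit 152) (nat_lit 776904482) (nat_lit 76) (nat_lit 40250225145) (nat_lit 27) (nat_lit 5) (nat_lit 29) (nat_lit 5) (nat_lit 28) (nat_lit 5) (nat_lit 372) (nat_lit 319) (nat_lit 209)))) (XT.nd (nat_lit 78) (nat_lit 76) (nat_lit 0) (XT.lf (nat_lit 0) (nat_lit 21382236473) (nat_lit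 228) (nat_lit 30462504937) (nat_lit 76) (nat_lit 1919906073) (nat_lit 25) (nat_lit 5) (nat_lit 28) (nat_lit 5) (nat_lit 26) (nat_lit 4) (nat_lit 373) (nat_lit 319) (nat_lit 208)) (XT.nd (nat_lit 78) (nat_lit 76) (nat_lit 0) (XT.lf (nat_lit 0) (nat_lit 32660932185) (nat_lit 228) (nat_lit 7356979186) (nat_lit 76) (nat_lit 15740911049) (nat_lit 25) (nat_lit 5) (nat_lit 28) (nat_lit 5) (nat_lit 26) (nat_lit 4) (nat_lit 374) (nat_lit 319) (nat_lit 207)) (XT.lf (nat_lit 0) (nat_lit 17452337524) (nat_lit 76) (nat_lit 27318040890) (nat_lit 152) (nat_lit 13068989320) (nat_lit 24) (nat_lit 5) (nat_lit 25) (nat_lit 5) (nat_lit 26) (nat_lit 4) (nat_lit 375) (nat_lit 319) (nat_lit 206))))))) (XT.nd (nat_lit 858) (nat_lit 456) (nat_lit 0) (XT.nd (nat_lit 390) (nat_lit 228) (nat_lit 0) (XT.nd (nat_lit 156) (nat_lit 76) (nat_lit 0) (XT.nd (nat_lit 78) (nat_lit 228) (nat_lit 0) (XT.lf (nat_lit 0) (nat_lit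 43747631061) (nat_lit 76) (nat_lit 13856710777) (nat_lit 152) (nat_lit 2413648530) (nat_lit 24) (nat_lit 5) (nat_lit 25) (nat_lit 5) (nat_lit 26) (nat_lit 4) (nat_lit 376) (nat_lit 319) (nat_lit 205)) (XT.lf (nat_lit 0) (nat_lit 8640755615) (nat_lit 228) (nat_lit 53100659312) (nat_lit 76) (nat_lit 549924908) (nat_lit 21) (nat_lit 5) (nat_lit 24) (nat_lit 5) (nat_lit 22) (nat_lit 4) (nat_lit 377) (nat_lit 319) (nat_lit 204))) (XT.nd (nat_lit 78) (nat_lit 76) (nat_lit 0) (XT.lf (nat_lit 0) (nat_lit 20668657385) (nat_lit 228) (nat_lit 28455840756) (nat_lit 76) (nat_lit 15526787627) (nat_lit 21) (nat_lit 5) (nat_lit 24) (nat_lit 5) (nat_lit 22) (nat_lit 4) (nat_lit 378) (nat_lit 319) (nat_lit 203)) (XT.nd (nat_lit 78) (nat_lit 76) (nat_lit 0) (XT.lf (nat_lit 0) (nat_lit 33292877178) (nat_lit 228) (nat_lit 2587980727) (nat_lit 76) (nat_lit 31248626839) (nat_lit 21) (nat_lit 5) (nat_lit 24) (nat_lit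 5) (nat_lit 22) (nat_lit 4) (nat_lit 379) (nat_lit 319) (nat_lit 202)) (XT.lf (nat_lit 0) (nat_lit 25376724584) (nat_lit 76) (nat_lit 21562949864) (nat_lit 152) (nat_lit 22772352700) (nat_lit 20) (nat_lit 5) (nat_lit 21) (nat_lit 5) (nat_lit 22) (nat_lit 4) (nat_lit 380) (nat_lit 319) (nat_lit 201))))) (XT.nd (nat_lit 234) (nat_lit 76) (nat_lit 0) (XT.nd (nat_lit 78) (nat_lit 152) (nat_lit 0) (XT.lf (nat_lit 0) (nat_lit 54820893936) (nat_lit 76) (nat_lit 6487006719) (nat_lit 152) (nat_lit 11113843278) (nat_lit 20) (nat_lit 5) (nat_lit 21) (nat_lit 5) (nat_lit 22) (nat_lit 4) (nat_lit 381) (nat_lit 319) (nat_lit 200)) (XT.nd (nat_lit 78) (nat_lit 0) (nat_lit 0) (XT.lf (nat_lit 0) (nat_lit 1404227044) (nat_lit 152) (nat_lit 64617036963) (nat_lit 76) (nat_lit 9229167593) (nat_lit 18) (nat_lit 5) (nat_lit 20) (nat_lit 5) (nat_lit 19) (nat_lit 4) (nat_lit 382) (nat_lit 319) (nat_lit 199)) (XT.lf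 (nat_lit 0) (nat_lit 14579455050) (nat_lit 152) (nat_lit 37617057752) (nat_lit 76) (nat_lit 25994695016) (nat_lit 18) (nat_lit 5) (nat_lit 20) (nat_lit 5) (nat_lit 19) (nat_lit 4) (nat_lit 383) (nat_lit 319) (nat_lit 198)))) (XT.nd (nat_lit 78) (nat_lit 76) (nat_lit 0) (XT.lf (nat_lit 0) (nat_lit 28409103843) (nat_lit 152) (nat_lit 9275076014) (nat_lit 76) (nat_lit 43595061432) (nat_lit 18) (nat_lit 5) (nat_lit 20) (nat_lit 5) (nat_lit 19) (nat_lit 4) (nat_lit 384) (nat_lit 319) (nat_lit 197)) (XT.nd (nat_lit 78) (nat_lit 0) (nat_lit 0) (XT.lf (nat_lit 0) (nat_lit 21153431060) (nat_lit 76) (nat_lit 22102934439) (nat_lit 152) (nat_lit 41249005757) (nat_lit 17) (nat_lit 5) (nat_lit 18) (nat_lit 5) (nat_lit 19) (nat_lit 4) (nat_lit 385) (nat_lit 319) (nat_lit 196)) (XT.lf (nat_lit 0) (nat_lit 53417880366) (nat_lit 76) (nat_lit 5581133724) (nat_lit 152) (nat_lit 28886143720) (nat_lit 17) (nat_lit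 5) (nat_lit 18) (nat_lit 5) (nat_lit 19) (nat_lit 4) (nat_lit 386) (nat_lit 319) (nat_lit 195)))))) (XT.nd (nat_lit 468) (nat_lit 228) (nat_lit 0) (XT.nd (nat_lit 234) (nat_lit 76) (nat_lit 0) (XT.nd (nat_lit 78) (nat_lit 152) (nat_lit 0) (XT.lf (nat_lit 0) (nat_lit 75708595035) (nat_lit 152) (nat_lit 4329372764) (nat_lit 0) (nat_lit 11386977118) (nat_lit 17) (nat_lit 5) (nat_lit 19) (nat_lit 4) (nat_lit 17) (nat_lit 4) (nat_lit 387) (nat_lit 319) (nat_lit 194)) (XT.nd (nat_lit 78) (nat_lit 76) (nat_lit 0) (XT.lf (nat_lit 0) (nat_lit 28116917585) (nat_lit 76) (nat_lit 65663489479) (nat_lit 76) (nat_lit 1334977874) (nat_lit 16) (nat_lit 4) (nat_lit 17) (nat_lit 5) (nat_lit 17) (nat_lit 4) (nat_lit 388) (nat_lit 319) (nat_lit 193)) (XT.lf (nat_lit 0) (nat_lit 13395688054) (nat_lit 152) (nat_lit 36873916510) (nat_lit 76) (nat_lit 48706457271) (nat_lit 15) (nat_lit 5) (nat_lit 17) (nat_lit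 5) (nat_lit 16) (nat_lit 4) (nat_lit 389) (nat_lit 319) (nat_lit 192)))) (XT.nd (nat_lit 78) (nat_lit 76) (nat_lit 0) (XT.lf (nat_lit 0) (nat_lit 28814484321) (nat_lit 152) (nat_lit 5271636942) (nat_lit 76) (nat_lit 68942735022) (nat_lit 15) (nat_lit 5) (nat_lit 17) (nat_lit 5) (nat_lit 16) (nat_lit 4) (nat_lit 390) (nat_lit 319) (nat_lit 191)) (XT.nd (nat_lit 78) (nat_lit 0) (nat_lit 0) (XT.lf (nat_lit 0) (nat_lit 28827105008) (nat_lit 76) (nat_lit 16623816862) (nat_lit 152) (nat_lit 61811034468) (nat_lit 14) (nat_lit 5) (nat_lit 15) (nat_lit 5) (nat_lit 16) (nat_lit 4) (nat_lit 391) (nat_lit 319) (nat_lit 190)) (XT.lf (nat_lit 0) (nat_lit 63033293686) (nat_lit 152) (nat_lit 46922949108) (nat_lit 0) (nat_lit 1744763893) (nat_lit 14) (nat_lit 5) (nat_lit 16) (nat_lit 4) (nat_lit 14) (nat_lit 4) (nat_lit 392) (nat_lit 319) (nat_lit 189))))) (XT.nd (nat_lit 234) (nat_lit 152) (nat_lit 0)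 (XT.nd (nat_lit 78) (nat_lit 76) (nat_lit 0) (XT.lf (nat_lit 0) (nat_lit 81764113468) (nat_lit 152) (nat_lit 14113990982) (nat_lit 0) (nat_lit 20470439499) (nat_lit 14) (nat_lit 5) (nat_lit 16) (nat_lit 4) (nat_lit 14) (nat_lit 4) (nat_lit 393) (nat_lit 319) (nat_lit 188)) (XT.nd (nat_lit 78) (nat_lit 0) (nat_lit 0) (XT.lf (nat_lit 0) (nat_lit 21001875147) (nat_lit 76) (nat_lit 80754457021) (nat_lit 76) (nat_lit 19455883836) (nat_lit 13) (nat_lit 4) (nat_lit 14) (nat_lit 5) (nat_lit 14) (nat_lit 4) (nat_lit 394) (nat_lit 319) (nat_lit 187)) (XT.lf (nat_lit 0) (nat_lit 58357901850) (nat_lit 76) (nat_lit 64626303756) (nat_lit 76) (nat_lit 3323064652) (nat_lit 13) (nat_lit 4) (nat_lit 14) (nat_lit 5) (nat_lit 14) (nat_lit 4) (nat_lit 395) (nat_lit 319) (nat_lit 186)))) (XT.nd (nat_lit 78) (nat_lit 76) (nat_lit 0) (XT.lf (nat_lit 0) (nat_lit 13177697100) (nat_lit 152) (nat_lit 34293403781)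 (nat_lit 76) (nat_lit 84175491988) (nat_lit 12) (nat_lit 5) (nat_lit 14) (nat_lit 5) (nat_lit 13) (nat_lit 4) (nat_lit 396) (nat_lit 319) (nat_lit 185)) (XT.nd (nat_lit 78) (nat_lit 0) (nat_lit 0) (XT.lf (nat_lit 0) (nat_lit 1018267478) (nat_lit 76) (nat_lit 29386699566) (nat_lit 152) (nat_lit 106844534078) (nat_lit 11) (nat_lit 5) (nat_lit 12) (nat_lit 5) (nat_lit 13) (nat_lit 4) (nat_lit 397) (nat_lit 319) (nat_lit 184)) (XT.lf (nat_lit 0) (nat_lit 39280989764) (nat_lit 76) (nat_lit 9790686003) (nat_lit 152) (nat_lit 94031975903) (nat_lit 11) (nat_lit 5) (nat_lit 12) (nat_lit 5) (nat_lit 13) (nat_lit 4) (nat_lit 398) (nat_lit 319) (nat_lit 183))))))))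
noncomputable def xc153 : XT := (XT.nd (nat_lit 1716) (nat_lit 76) (nat_lit 0) (XT.nd (nat_lit 858) (nat_lit 228) (nat_lit 0) (XT.nd (nat_lit 390) (nat_lit 152) (nat_lit 0) (XT.nd (nat_lit 156) (nat_lit 76) (nat_lit 0) (XT.nd (nat_lit 78) (nat_lit 0) (nat_lit 0) (XT.lf (nat_lit 0) (nat_lit 68837498462) (nat_lit 152) (nat_lit 69967019010) (nat_lit 0) (nat_lit 10437703963) (nat_lit 11) (nat_lit 5) (nat_lit 13) (nat_lit 4) (nat_lit 11) (nat_lit 4) (nat_lit 399) (nat_lit 319) (nat_lit 182)) (XT.lf (nat_lit 0) (nat_lit 89749631968) (nat_lit 152) (nat_lit 34583831637) (nat_lit 0) (nat_lit 31346355688) (nat_lit 11) (nat_lit 5) (nat_lit 13) (nat_lit 4) (nat_lit 11) (nat_lit 4) (nat_lit 400) (nat_lit 319) (nat_lit 181))) (XT.nd (nat_lit 78) (nat_lit 0) (nat_lit 0) (XT.lf (nat_lit 0) (nat_lit 2648783559) (nat_lit 76) (nat_lit 109097578406) (nat_lit 76) (nat_lit 50690986144) (nat_lit 10) (nat_lit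 4) (nat_lit 11) (nat_lit 5) (nat_lit 11) (nat_lit 4) (nat_lit 401) (nat_lit 319) (nat_lit 180)) (XT.nd (nat_lit 78) (nat_lit 0) (nat_lit 0) (XT.lf (nat_lit 0) (nat_lit 42939265625) (nat_lit 76) (nat_lit 92487035003) (nat_lit 76) (nat_lit 34077284662) (nat_lit 10) (nat_lit 4) (nat_lit 11) (nat_lit 5) (nat_lit 11) (nat_lit 4) (nat_lit 402) (nat_lit 319) (nat_lit 179)) (XT.lf (nat_lit 0) (nat_lit 85240046620) (nat_lit 76) (nat_lit 75047978405) (nat_lit 76) (nat_lit 16635220372) (nat_lit 10) (nat_lit 4) (nat_lit 11) (nat_lit 5) (nat_lit 11) (nat_lit 4) (nat_lit 403) (nat_lit 319) (nat_lit 178))))) (XT.nd (nat_lit 234) (nat_lit 0) (nat_lit 0) (XT.nd (nat_lit 78) (nat_lit 76) (nat_lit 0) (XT.lf (nat_lit 0) (nat_lit 1623069446) (nat_lit 152) (nat_lit 55088330138) (nat_lit 76) (nat_lit 128001285777) (nat_lit 9) (nat_lit 5) (nat_lit 11) (nat_lit 5) (nat_lit 10) (nat_lit 4) (nat_lit 404) (nat_lit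 319) (nat_lit 177)) (XT.nd (nat_lit 78) (nat_lit 76) (nat_lit 0) (XT.lf (nat_lit 0) (nat_lit 20233182321) (nat_lit 152) (nat_lit 16940326810) (nat_lit 76) (nat_lit 155704555151) (nat_lit 9) (nat_lit 5) (nat_lit 11) (nat_lit 5) (nat_lit 10) (nat_lit 4) (nat_lit 405) (nat_lit 319) (nat_lit 176)) (XT.lf (nat_lit 0) (nat_lit 23875528205) (nat_lit 76) (nat_lit 16269094689) (nat_lit 152) (nat_lit 161288548569) (nat_lit 8) (nat_lit 5) (nat_lit 9) (nat_lit 5) (nat_lit 10) (nat_lit 4) (nat_lit 406) (nat_lit 319) (nat_lit 175)))) (XT.nd (nat_lit 78) (nat_lit 0) (nat_lit 0) (XT.lf (nat_lit 0) (nat_lit 61429986706) (nat_lit 152) (nat_lit 143178498822) (nat_lit 0) (nat_lit 5788631311) (nat_lit 8) (nat_lit 5) (nat_lit 10) (nat_lit 4) (nat_lit 8) (nat_lit 4) (nat_lit 407) (nat_lit 319) (nat_lit 174)) (XT.nd (nat_lit 78) (nat_lit 0) (nat_lit 0) (XT.lf (nat_lit 0) (nat_lit 84044483526) (nat_lit 152) (nat_lit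 107350649351) (nat_lit 0) (nat_lit 28400883744) (nat_lit 8) (nat_lit 5) (nat_lit 10) (nat_lit 4) (nat_lit 8) (nat_lit 4) (nat_lit 408) (nat_lit 319) (nat_lit 173)) (XT.lf (nat_lit 0) (nat_lit 107787951232) (nat_lit 152) (nat_lit 69734784280) (nat_lit 0) (nat_lit 52142213938) (nat_lit 8) (nat_lit 5) (nat_lit 10) (nat_lit 4) (nat_lit 8) (nat_lit 4) (nat_lit 409) (nat_lit 319) (nat_lit 172)))))) (XT.nd (nat_lit 390) (nat_lit 152) (nat_lit 0) (XT.nd (nat_lit 156) (nat_lit 0) (nat_lit 0) (XT.nd (nat_lit 78) (nat_lit 76) (nat_lit 0) (XT.lf (nat_lit 0) (nat_lit 132716921891) (nat_lit 152) (nat_lit 30241342025) (nat_lit 0) (nat_lit 77069148871) (nat_lit 8) (nat_lit 5) (nat_lit 10) (nat_lit 4) (nat_lit 8) (nat_lit 4) (nat_lit 410) (nat_lit 319) (nat_lit 171)) (XT.lf (nat_lit 0) (nat_lit 11594815940) (nat_lit 76) (nat_lit 147476961823) (nat_lit 76) (nat_lit 91827250018) (nat_lit 7) (nat_lit 4) (nat_lit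 8) (nat_lit 5) (nat_lit 8) (nat_lit 4) (nat_lit 411) (nat_lit 319) (nat_lit 170))) (XT.nd (nat_lit 78) (nat_lit 0) (nat_lit 0) (XT.lf (nat_lit 0) (nat_lit 56569679392) (nat_lit 76) (nat_lit 130685286618) (nat_lit 76) (nat_lit 75033728350) (nat_lit 7) (nat_lit 4) (nat_lit 8) (nat_lit 5) (nat_lit 8) (nat_lit 4) (nat_lit 412) (nat_lit 319) (nat_lit 169)) (XT.nd (nat_lit 78) (nat_lit 0) (nat_lit 0) (XT.lf (nat_lit 0) (nat_lit 103790415995) (nat_lit 76) (nat_lit 113055409880) (nat_lit 76) (nat_lit 57402093076) (nat_lit 7) (nat_lit 4) (nat_lit 8) (nat_lit 5) (nat_lit 8) (nat_lit 4) (nat_lit 413) (nat_lit 319) (nat_lit 168)) (XT.lf (nat_lit 0) (nat_lit 153369456076) (nat_lit 76) (nat_lit 94545355713) (nat_lit 76) (nat_lit 38890364113) (nat_lit 7) (nat_lit 4) (nat_lit 8) (nat_lit 5) (nat_lit 8) (nat_lit 4) (nat_lit 414) (nat_lit 319) (nat_lit 167))))) (XT.nd (nat_lit 234) (nat_lit 76) (nat_lit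 0) (XT.nd (nat_lit 78) (nat_lit 76) (nat_lit 0) (XT.lf (nat_lit 0) (nat_lit 205424844968) (nat_lit 76) (nat_lit 75111052559) (nat_lit 76) (nat_lit 19454465915) (nat_lit 7) (nat_lit 4) (nat_lit 8) (nat_lit 5) (nat_lit 8) (nat_lit 4) (nat_lit 415) (nat_lit 319) (nat_lit 166)) (XT.nd (nat_lit 78) (nat_lit 0) (nat_lit 0) (XT.lf (nat_lit 0) (nat_lit 921411441) (nat_lit 152) (nat_lit 53769212279) (nat_lit 76) (nat_lit 259143508083) (nat_lit 6) (nat_lit 5) (nat_lit 8) (nat_lit 5) (nat_lit 7) (nat_lit 4) (nat_lit 416) (nat_lit 319) (nat_lit 165)) (XT.lf (nat_lit 0) (nat_lit 21661040728) (nat_lit 152) (nat_lit 11254418991) (nat_lit 76) (nat_lit 295438745026) (nat_lit 6) (nat_lit 5) (nat_lit 8) (nat_lit 5) (nat_lit 7) (nat_lit 4) (nat_lit 417) (nat_lit 319) (nat_lit 164)))) (XT.nd (nat_lit 78) (nat_lit 0) (nat_lit 0) (XT.lf (nat_lit 0) (nat_lit 34487645866) (nat_lit 76) (nat_lit 9487269358) (nat_lit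 152) (nat_lit 299598503145) (nat_lit 5) (nat_lit 5) (nat_lit 6) (nat_lit 5) (nat_lit 7) (nat_lit 4) (nat_lit 418) (nat_lit 319) (nat_lit 163)) (XT.nd (nat_lit 78) (nat_lit 0) (nat_lit 0) (XT.lf (nat_lit 0) (nat_lit 67832972129) (nat_lit 152) (nat_lit 276877883803) (nat_lit 0) (nat_lit 14821312518) (nat_lit 5) (nat_lit 5) (nat_lit 7) (nat_lit 4) (nat_lit 5) (nat_lit 4) (nat_lit 419) (nat_lit 319) (nat_lit 162)) (XT.lf (nat_lit 0) (nat_lit 93038336357) (nat_lit 152) (nat_lit 243217313156) (nat_lit 0) (nat_lit 40025486500) (nat_lit 5) (nat_lit 5) (nat_lit 7) (nat_lit 4) (nat_lit 5) (nat_lit 4) (nat_lit 420) (nat_lit 319) (nat_lit 161))))))) (XT.nd (nat_lit 39156) (nat_lit 0) (nat_lit 6612) (XT.nd (nat_lit 390) (nat_lit 76) (nat_lit 0) (XT.nd (nat_lit 156) (nat_lit 0) (nat_lit 0) (XT.nd (nat_lit 78) (nat_lit 0) (nat_lit 0) (XT.lf (nat_lit 0) (nat_lit 119502897818) (nat_lit 152) (nat_lit 207875793483)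 (nat_lit 0) (nat_lit 66488914392) (nat_lit 5) (nat_lit 5) (nat_lit 7) (nat_lit 4) (nat_lit 5) (nat_lit 4) (nat_lit 421) (nat_lit 319) (nat_lit 160)) (XT.lf (nat_lit 0) (nat_lit 147289667371) (nat_lit 152) (nat_lit 170769178309) (nat_lit 0) (nat_lit 94274604357) (nat_lit 5) (nat_lit 5) (nat_lit 7) (nat_lit 4) (nat_lit 5) (nat_lit 4) (nat_lit 422) (nat_lit 319) (nat_lit 159))) (XT.nd (nat_lit 78) (nat_lit 0) (nat_lit 0) (XT.lf (nat_lit 0) (nat_lit 176464803994) (nat_lit 152) (nat_lit 131809118550) (nat_lit 0) (nat_lit 123448712800) (nat_lit 5) (nat_lit 5) (nat_lit 7) (nat_lit 4) (nat_lit 5) (nat_lit 4) (nat_lit 423) (nat_lit 319) (nat_lit 158)) (XT.nd (nat_lit 78) (nat_lit 0) (nat_lit 0) (XT.lf (nat_lit 0) (nat_lit 207097772295) (nat_lit 152) (nat_lit 90902852160) (nat_lit 0) (nat_lit 154080701883) (nat_lit 5) (nat_lit 5) (nat_lit 7) (nat_lit 4) (nat_lit 5) (nat_lit 4) (nat_lit 424) (nat_lit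 319) (nat_lit 157)) (XT.lf (nat_lit 0) (nat_lit 239261507915) (nat_lit 152) (nat_lit 47952983265) (nat_lit 0) (nat_lit 186243504914) (nat_lit 5) (nat_lit 5) (nat_lit 7) (nat_lit 4) (nat_lit 5) (nat_lit 4) (nat_lit 425) (nat_lit 319) (nat_lit 156))))) (XT.nd (nat_lit 234) (nat_lit 0) (nat_lit 0) (XT.nd (nat_lit 78) (nat_lit 76) (nat_lit 0) (XT.lf (nat_lit 0) (nat_lit 273032591176) (nat_lit 152) (nat_lit 2857250273) (nat_lit 0) (nat_lit 220013699995) (nat_lit 5) (nat_lit 5) (nat_lit 7) (nat_lit 4) (nat_lit 5) (nat_lit 4) (nat_lit 426) (nat_lit 319) (nat_lit 155)) (XT.nd (nat_lit 78) (nat_lit 0) (nat_lit 0) (XT.lf (nat_lit 0) (nat_lit 45962814722) (nat_lit 76) (nat_lit 263246223046) (nat_lit 76) (nat_lit 210226485978) (nat_lit 4) (nat_lit 4) (nat_lit 5) (nat_lit 5) (nat_lit 5) (nat_lit 4) (nat_lit 427) (nat_lit 319) (nat_lit 154)) (XT.lf (nat_lit 0) (nat_lit 97321553513) (nat_lit 76) (nat_lit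 249920357130) (nat_lit 76) (nat_lit 196899814457) (nat_lit 4) (nat_lit 4) (nat_lit 5) (nat_lit 5) (nat_lit 5) (nat_lit 4) (nat_lit 428) (nat_lit 319) (nat_lit 153)))) (XT.nd (nat_lit 38376) (nat_lit 0) (nat_lit 7828) (XT.lf (nat_lit 0) (nat_lit 151246775215) (nat_lit 76) (nat_lit 235928904367) (nat_lit 76) (nat_lit 182907594450) (nat_lit 4) (nat_lit 4) (nat_lit 5) (nat_lit 5) (nat_lit 5) (nat_lit 4) (nat_lit 429) (nat_lit 319) (nat_lit 152)) (XT.nd (nat_lit 78) (nat_lit 0) (nat_lit 0) (XT.lf (nat_lit 0) (nat_lit 1013332912) (nat_lit 0) (nat_lit 1013332912) (nat_lit 684) (nat_lit 3571081476) (nat_lit 107) (nat_lit 5) (nat_lit 107) (nat_lit 3) (nat_lit 116) (nat_lit 3) (nat_lit 320) (nat_lit 320) (nat_lit 260)) (XT.lf (nat_lit 0) (nat_lit 4728331373) (nat_lit 684) (nat_lit 3953177021) (nat_lit 760) (nat_lit 2764485569) (nat_lit 107) (nat_lit 5) (nat_lit 116) (nat_lit 3) (nat_lit 117) (nat_lit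 5) (nat_lit 321) (nat_lit 320) (nat_lit 259)))))) (XT.nd (nat_lit 468) (nat_lit 1216) (nat_lit 0) (XT.nd (nat_lit 234) (nat_lit 0) (nat_lit 76) (XT.nd (nat_lit 78) (nat_lit 0) (nat_lit 76) (XT.lf (nat_lit 76) (nat_lit 1519737719) (nat_lit 0) (nat_lit 3940691547) (nat_lit 760) (nat_lit 6247466728) (nat_lit 108) (nat_lit 5) (nat_lit 107) (nat_lit 5) (nat_lit 117) (nat_lit 5) (nat_lit 322) (nat_lit 320) (nat_lit 258)) (XT.nd (nat_lit 78) (nat_lit 0) (nat_lit 0) (XT.lf (nat_lit 0) (nat_lit 6281290980) (nat_lit 684) (nat_lit 4613794908) (nat_lit 760) (nat_lit 1085242252) (nat_lit 108) (nat_lit 5) (nat_lit 117) (nat_lit 5) (nat_lit 118) (nat_lit 5) (nat_lit 323) (nat_lit 320) (nat_lit 257)) (XT.lf (nat_lit 76) (nat_lit 1193353990) (nat_lit 0) (nat_lit 6002521906) (nat_lit 760) (nat_lit 5067912906) (nat_lit 109) (nat_lit 5) (nat_lit 108) (nat_lit 5) (nat_lit 118) (nat_lit 5) (nat_lit 324) (nat_lit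 320) (nat_lit 256)))) (XT.nd (nat_lit 78) (nat_lit 0) (nat_lit 76) (XT.lf (nat_lit 76) (nat_lit 7431829894) (nat_lit 0) (nat_lit 773098997) (nat_lit 760) (nat_lit 4354095632) (nat_lit 109) (nat_lit 5) (nat_lit 108) (nat_lit 5) (nat_lit 118) (nat_lit 5) (nat_lit 325) (nat_lit 320) (nat_lit 255)) (XT.nd (nat_lit 78) (nat_lit 0) (nat_lit 0) (XT.lf (nat_lit 76) (nat_lit 1053379623) (nat_lit 0) (nat_lit 8273312486) (nat_lit 760) (nat_lit 3539254152) (nat_lit 110) (nat_lit 5) (nat_lit 109) (nat_lit 5) (nat_lit 119) (nat_lit 5) (nat_lit 326) (nat_lit 320) (nat_lit 254)) (XT.lf (nat_lit 76) (nat_lit 7688330460) (nat_lit 0) (nat_lit 2888687833) (nat_lit 760) (nat_lit 2607607396) (nat_lit 110) (nat_lit 5) (nat_lit 109) (nat_lit 5) (nat_lit 119) (nat_lit 5) (nat_lit 327) (nat_lit 320) (nat_lit 253))))) (XT.nd (nat_lit 234) (nat_lit 760) (nat_lit 0) (XT.nd (nat_lit 78) (nat_lit 684) (nat_lit 0) (XT.lf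 (nat_lit 76) (nat_lit 1108030210) (nat_lit 0) (nat_lit 10816861415) (nat_lit 760) (nat_lit 1592629583) (nat_lit 111) (nat_lit 5) (nat_lit 110) (nat_lit 5) (nat_lit 120) (nat_lit 5) (nat_lit 328) (nat_lit 320) (nat_lit 252)) (XT.nd (nat_lit 78) (nat_lit 684) (nat_lit 0) (XT.lf (nat_lit 76) (nat_lit 8164741565) (nat_lit 0) (nat_lit 5290554026) (nat_lit 760) (nat_lit 406041121) (nat_lit 111) (nat_lit 5) (nat_lit 110) (nat_lit 5) (nat_lit 120) (nat_lit 5) (nat_lit 329) (nat_lit 320) (nat_lit 251)) (XT.lf (nat_lit 0) (nat_lit 819115774) (nat_lit 760) (nat_lit 12867617072) (nat_lit 76) (nat_lit 534677564) (nat_lit 101) (nat_lit 5) (nat_lit 111) (nat_lit 5) (nat_lit 102) (nat_lit 5) (nat_lit 330) (nat_lit 320) (nat_lit 250)))) (XT.nd (nat_lit 78) (nat_lit 760) (nat_lit 0) (XT.lf (nat_lit 0) (nat_lit 2253778500) (nat_lit 760) (nat_lit 5755678395) (nat_lit 76) (nat_lit 6581631090) (nat_lit 101)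 (nat_lit 5) (nat_lit 111) (nat_lit 5) (nat_lit 102) (nat_lit 5) (nat_lit 331) (nat_lit 320) (nat_lit 249)) (XT.nd (nat_lit 78) (nat_lit 0) (nat_lit 0) (XT.lf (nat_lit 0) (nat_lit 1748269771) (nat_lit 760) (nat_lit 2017397209) (nat_lit 836) (nat_lit 11213334201) (nat_lit 91) (nat_lit 5) (nat_lit 101) (nat_lit 5) (nat_lit 102) (nat_lit 5) (nat_lit 332) (nat_lit 320) (nat_lit 248)) (XT.lf (nat_lit 0) (nat_lit 5497920235) (nat_lit 836) (nat_lit 5642862811) (nat_lit 76) (nat_lit 4238313591) (nat_lit 91) (nat_lit 5) (nat_lit 102) (nat_lit 5) (nat_lit 92) (nat_lit 5) (nat_lit 333) (nat_lit 320) (nat_lit 247))))))))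
noncomputable def xc154 : XT := (XT.nd (nat_lit 1716) (nat_lit 1900) (nat_lit 0) (XT.nd (nat_lit 858) (nat_lit 1444) (nat_lit 0) (XT.nd (nat_lit 390) (nat_lit 912) (nat_lit 0) (XT.nd (nat_lit 156) (nat_lit 684) (nat_lit 0) (XT.nd (nat_lit 78) (nat_lit 0) (nat_lit 0) (XT.lf (nat_lit 0) (nat_lit 2347081915) (nat_lit 380) (nat_lit 5019386502) (nat_lit 456) (nat_lit 8430268258) (nat_lit 86) (nat_lit 5) (nat_lit 91) (nat_lit 5) (nat_lit 92) (nat_lit 5) (nat_lit 334) (nat_lit 320) (nat_lit 246)) (XT.lf (nat_lit 0) (nat_lit 9428186561) (nat_lit 456) (nat_lit 5341650718) (nat_lit 76) (nat_lit 1460457091) (nat_lit 86) (nat_lit 5) (nat_lit 92) (nat_lit 5) (nat_lit 87) (nat_lit 5) (nat_lit 335) (nat_lit 320) (nat_lit 245))) (XT.nd (nat_lit 78) (nat_lit 380) (nat_lit 0) (XT.lf (nat_lit 0) (nat_lit 3171892822) (nat_lit 304) (nat_lit 8534454696) (nat_lit 380) (nat_lit 4973536283) (nat_lit 82) (nat_lit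 5) (nat_lit 86) (nat_lit 5) (nat_lit 87) (nat_lit 5) (nat_lit 336) (nat_lit 320) (nat_lit 244)) (XT.nd (nat_lit 78) (nat_lit 380) (nat_lit 0) (XT.lf (nat_lit 0) (nat_lit 12277775536) (nat_lit 304) (nat_lit 1893239426) (nat_lit 380) (nat_lit 2977328487) (nat_lit 82) (nat_lit 5) (nat_lit 86) (nat_lit 5) (nat_lit 87) (nat_lit 5) (nat_lit 337) (nat_lit 320) (nat_lit 243)) (XT.lf (nat_lit 0) (nat_lit 4236249067) (nat_lit 380) (nat_lit 12651092024) (nat_lit 456) (nat_lit 746483402) (nat_lit 77) (nat_lit 5) (nat_lit 82) (nat_lit 5) (nat_lit 83) (nat_lit 5) (nat_lit 338) (nat_lit 320) (nat_lit 242))))) (XT.nd (nat_lit 234) (nat_lit 532) (nat_lit 0) (XT.nd (nat_lit 78) (nat_lit 304) (nat_lit 0) (XT.lf (nat_lit 0) (nat_lit 1642905504) (nat_lit 456) (nat_lit 4248279536) (nat_lit 76) (nat_lit 12246262550) (nat_lit 76) (nat_lit 5) (nat_lit 82) (nat_lit 5) (nat_lit 77) (nat_lit 5) (nat_lit 339) (nat_lit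 320) (nat_lit 241)) (XT.nd (nat_lit 78) (nat_lit 0) (nat_lit 0) (XT.lf (nat_lit 0) (nat_lit 4217037045) (nat_lit 380) (nat_lit 13178275662) (nat_lit 76) (nat_lit 1265826268) (nat_lit 72) (nat_lit 5) (nat_lit 77) (nat_lit 5) (nat_lit 73) (nat_lit 5) (nat_lit 340) (nat_lit 320) (nat_lit 240)) (XT.lf (nat_lit 0) (nat_lit 7074031169) (nat_lit 380) (nat_lit 3475698351) (nat_lit 76) (nat_lit 8653593799) (nat_lit 72) (nat_lit 5) (nat_lit 77) (nat_lit 5) (nat_lit 73) (nat_lit 5) (nat_lit 341) (nat_lit 320) (nat_lit 239)))) (XT.nd (nat_lit 78) (nat_lit 228) (nat_lit 0) (XT.lf (nat_lit 0) (nat_lit 6915658291) (nat_lit 304) (nat_lit 3251382925) (nat_lit 380) (nat_lit 9600932776) (nat_lit 68) (nat_lit 5) (nat_lit 72) (nat_lit 5) (nat_lit 73) (nat_lit 5) (nat_lit 342) (nat_lit 320) (nat_lit 238)) (XT.nd (nat_lit 78) (nat_lit 228) (nat_lit 0) (XT.lf (nat_lit 0) (nat_lit 13528990492) (nat_lit 380) (nat_lit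 2498604058) (nat_lit 76) (nat_lit 4327562897) (nat_lit 68) (nat_lit 5) (nat_lit 73) (nat_lit 5) (nat_lit 69) (nat_lit 5) (nat_lit 343) (nat_lit 320) (nat_lit 237)) (XT.lf (nat_lit 0) (nat_lit 8576769254) (nat_lit 228) (nat_lit 8655742744) (nat_lit 304) (nat_lit 3730528324) (nat_lit 65) (nat_lit 5) (nat_lit 68) (nat_lit 5) (nat_lit 69) (nat_lit 5) (nat_lit 344) (nat_lit 320) (nat_lit 236)))))) (XT.nd (nat_lit 390) (nat_lit 608) (nat_lit 0) (XT.nd (nat_lit 156) (nat_lit 456) (nat_lit 0) (XT.nd (nat_lit 78) (nat_lit 380) (nat_lit 0) (XT.lf (nat_lit 0) (nat_lit 20275702340) (nat_lit 228) (nat_lit 874477603) (nat_lit 304) (nat_lit 449702202) (nat_lit 65) (nat_lit 5) (nat_lit 68) (nat_lit 5) (nat_lit 69) (nat_lit 5) (nat_lit 345) (nat_lit 320) (nat_lit 235)) (XT.lf (nat_lit 0) (nat_lit 3168656200) (nat_lit 380) (nat_lit 11810121948) (nat_lit 76) (nat_lit 7273994099) (nat_lit 60) (nat_lit 5) (nat_lit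 65) (nat_lit 5) (nat_lit 61) (nat_lit 5) (nat_lit 346) (nat_lit 320) (nat_lit 234))) (XT.nd (nat_lit 78) (nat_lit 456) (nat_lit 0) (XT.lf (nat_lit 0) (nat_lit 6977321023) (nat_lit 380) (nat_lit 132367509) (nat_lit 76) (nat_lit 15827036147) (nat_lit 60) (nat_lit 5) (nat_lit 65) (nat_lit 5) (nat_lit 61) (nat_lit 5) (nat_lit 347) (nat_lit 320) (nat_lit 233)) (XT.nd (nat_lit 78) (nat_lit 228) (nat_lit 0) (XT.lf (nat_lit 0) (nat_lit 11180905345) (nat_lit 304) (nat_lit 11153161964) (nat_lit 76) (nat_lit 1310594070) (nat_lit 57) (nat_lit 5) (nat_lit 61) (nat_lit 5) (nat_lit 58) (nat_lit 5) (nat_lit 348) (nat_lit 320) (nat_lit 232)) (XT.lf (nat_lit 0) (nat_lit 1270995770) (nat_lit 228) (nat_lit 14450582298) (nat_lit 304) (nat_lit 8660081825) (nat_lit 54) (nat_lit 5) (nat_lit 57) (nat_lit 5) (nat_lit 58) (nat_lit 5) (nat_lit 349) (nat_lit 320) (nat_lit 231))))) (XT.nd (nat_lit 234) (nat_lit 380)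 (nat_lit 0) (XT.nd (nat_lit 78) (nat_lit 228) (nat_lit 0) (XT.lf (nat_lit 0) (nat_lit 14687470609) (nat_lit 228) (nat_lit 5979241500) (nat_lit 304) (nat_lit 4479934779) (nat_lit 54) (nat_lit 5) (nat_lit 57) (nat_lit 5) (nat_lit 58) (nat_lit 5) (nat_lit 350) (nat_lit 320) (nat_lit 230)) (XT.nd (nat_lit 78) (nat_lit 76) (nat_lit 0) (XT.lf (nat_lit 0) (nat_lit 2854916933) (nat_lit 152) (nat_lit 23083300834) (nat_lit 228) (nat_lit 7719186) (nat_lit 52) (nat_lit 5) (nat_lit 54) (nat_lit 5) (nat_lit 55) (nat_lit 5) (nat_lit 351) (nat_lit 320) (nat_lit 229)) (XT.lf (nat_lit 0) (nat_lit 4805229442) (nat_lit 228) (nat_lit 9768555551) (nat_lit 76) (nat_lit 12194396843) (nat_lit 51) (nat_lit 5) (nat_lit 54) (nat_lit 5) (nat_lit 52) (nat_lit 5) (nat_lit 352) (nat_lit 320) (nat_lit 228)))) (XT.nd (nat_lit 78) (nat_lit 152) (nat_lit 0) (XT.lf (nat_lit 0) (nat_lit 4343756018) (nat_lit 228) (nat_lit 5572262186)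 (nat_lit 304) (nat_lit 17712650003) (nat_lit 48) (nat_lit 5) (nat_lit 51) (nat_lit 5) (nat_lit 52) (nat_lit 5) (nat_lit 353) (nat_lit 320) (nat_lit 227)) (XT.nd (nat_lit 78) (nat_lit 152) (nat_lit 0) (XT.lf (nat_lit 0) (nat_lit 15500880040) (nat_lit 304) (nat_lit 9101730975) (nat_lit 76) (nat_lit 3918648987) (nat_lit 48) (nat_lit 5) (nat_lit 52) (nat_lit 5) (nat_lit 49) (nat_lit 5) (nat_lit 354) (nat_lit 320) (nat_lit 226)) (XT.lf (nat_lit 0) (nat_lit 5872582113) (nat_lit 152) (nat_lit 15665742736) (nat_lit 228) (nat_lit 7911496963) (nat_lit 46) (nat_lit 5) (nat_lit 48) (nat_lit 5) (nat_lit 49) (nat_lit 5) (nat_lit 355) (nat_lit 320) (nat_lit 225))))))) (XT.nd (nat_lit 858) (nat_lit 912) (nat_lit 0) (XT.nd (nat_lit 390) (nat_lit 532) (nat_lit 0) (XT.nd (nat_lit 156) (nat_lit 152) (nat_lit 0) (XT.nd (nat_lit 78) (nat_lit 304) (nat_lit 0) (XT.lf (nat_lit 0) (nat_lit 21897200573) (nat_lit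 152) (nat_lit 6125124269) (nat_lit 228) (nat_lit 2395259788) (nat_lit 46) (nat_lit 5) (nat_lit 48) (nat_lit 5) (nat_lit 49) (nat_lit 5) (nat_lit 356) (nat_lit 320) (nat_lit 224)) (XT.lf (nat_lit 0) (nat_lit 3458872087) (nat_lit 304) (nat_lit 24028144483) (nat_lit 76) (nat_lit 3935533689) (nat_lit 42) (nat_lit 5) (nat_lit 46) (nat_lit 5) (nat_lit 43) (nat_lit 5) (nat_lit 357) (nat_lit 320) (nat_lit 223))) (XT.nd (nat_lit 78) (nat_lit 152) (nat_lit 0) (XT.lf (nat_lit 0) (nat_lit 9763270369) (nat_lit 304) (nat_lit 8226026251) (nat_lit 76) (nat_lit 14474607513) (nat_lit 42) (nat_lit 5) (nat_lit 46) (nat_lit 5) (nat_lit 43) (nat_lit 5) (nat_lit 358) (nat_lit 320) (nat_lit 222)) (XT.nd (nat_lit 78) (nat_lit 0) (nat_lit 0) (XT.lf (nat_lit 0) (nat_lit 8628874262) (nat_lit 152) (nat_lit 7880146666) (nat_lit 228) (nat_lit 17042003966) (nat_lit 40) (nat_lit 5) (nat_lit 42) (nat_lit 5) (nat_lit 43)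 (nat_lit 5) (nat_lit 359) (nat_lit 320) (nat_lit 221)) (XT.lf (nat_lit 0) (nat_lit 23767883730) (nat_lit 228) (nat_lit 8132035803) (nat_lit 76) (nat_lit 2783796459) (nat_lit 40) (nat_lit 5) (nat_lit 43) (nat_lit 5) (nat_lit 41) (nat_lit 5) (nat_lit 360) (nat_lit 320) (nat_lit 220))))) (XT.nd (nat_lit 234) (nat_lit 152) (nat_lit 0) (XT.nd (nat_lit 78) (nat_lit 228) (nat_lit 0) (XT.lf (nat_lit 0) (nat_lit 9664751428) (nat_lit 152) (nat_lit 21996954434) (nat_lit 228) (nat_lit 4197740245) (nat_lit 38) (nat_lit 5) (nat_lit 40) (nat_lit 5) (nat_lit 41) (nat_lit 5) (nat_lit 361) (nat_lit 320) (nat_lit 219)) (XT.nd (nat_lit 78) (nat_lit 152) (nat_lit 0) (XT.lf (nat_lit 0) (nat_lit 2896806022) (nat_lit 228) (nat_lit 8513267892) (nat_lit 76) (nat_lit 25675065502) (nat_lit 37) (nat_lit 5) (nat_lit 40) (nat_lit 5) (nat_lit 38) (nat_lit 5) (nat_lit 362) (nat_lit 320) (nat_lit 218)) (XT.lf (nat_lit 0)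 (nat_lit 10300678741) (nat_lit 152) (nat_lit 57523179) (nat_lit 228) (nat_lit 28002819557) (nat_lit 35) (nat_lit 5) (nat_lit 37) (nat_lit 5) (nat_lit 38) (nat_lit 5) (nat_lit 363) (nat_lit 320) (nat_lit 217)))) (XT.nd (nat_lit 78) (nat_lit 152) (nat_lit 0) (XT.lf (nat_lit 0) (nat_lit 18516886259) (nat_lit 228) (nat_lit 9542702026) (nat_lit 76) (nat_lit 11624902763) (nat_lit 35) (nat_lit 5) (nat_lit 38) (nat_lit 5) (nat_lit 36) (nat_lit 5) (nat_lit 364) (nat_lit 320) (nat_lit 216)) (XT.nd (nat_lit 78) (nat_lit 0) (nat_lit 0) (XT.lf (nat_lit 0) (nat_lit 10214889885) (nat_lit 152) (nat_lit 17021869080) (nat_lit 228) (nat_lit 13829716553) (nat_lit 33) (nat_lit 5) (nat_lit 35) (nat_lit 5) (nat_lit 36) (nat_lit 5) (nat_lit 365) (nat_lit 320) (nat_lit 215)) (XT.lf (nat_lit 0) (nat_lit 31279926747) (nat_lit 152) (nat_lit 5267295220) (nat_lit 228) (nat_lit 5962611346) (nat_lit 33) (nat_lit 5) (nat_lit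 35) (nat_lit 5) (nat_lit 36) (nat_lit 5) (nat_lit 366) (nat_lit 320) (nat_lit 214)))))) (XT.nd (nat_lit 468) (nat_lit 456) (nat_lit 0) (XT.nd (nat_lit 234) (nat_lit 152) (nat_lit 0) (XT.nd (nat_lit 78) (nat_lit 152) (nat_lit 0) (XT.lf (nat_lit 0) (nat_lit 2481365933) (nat_lit 152) (nat_lit 34495909179) (nat_lit 76) (nat_lit 7033440542) (nat_lit 31) (nat_lit 5) (nat_lit 33) (nat_lit 5) (nat_lit 32) (nat_lit 5) (nat_lit 367) (nat_lit 320) (nat_lit 213)) (XT.nd (nat_lit 78) (nat_lit 152) (nat_lit 0) (XT.lf (nat_lit 0) (nat_lit 11420094064) (nat_lit 152) (nat_lit 14089200601) (nat_lit 76) (nat_lit 20058816719) (nat_lit 31) (nat_lit 5) (nat_lit 33) (nat_lit 5) (nat_lit 32) (nat_lit 5) (nat_lit 368) (nat_lit 320) (nat_lit 212)) (XT.lf (nat_lit 0) (nat_lit 7569165639) (nat_lit 152) (nat_lit 13348372713) (nat_lit 228) (nat_lit 26280252798) (nat_lit 29) (nat_lit 5) (nat_lit 31) (nat_lit 5) (nat_lit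 32) (nat_lit 5) (nat_lit 369) (nat_lit 320) (nat_lit 211)))) (XT.nd (nat_lit 78) (nat_lit 152) (nat_lit 0) (XT.lf (nat_lit 0) (nat_lit 30788833511) (nat_lit 152) (nat_lit 333369189) (nat_lit 228) (nat_lit 17775137893) (nat_lit 29) (nat_lit 5) (nat_lit 31) (nat_lit 5) (nat_lit 32) (nat_lit 5) (nat_lit 370) (nat_lit 320) (nat_lit 210)) (XT.nd (nat_lit 78) (nat_lit 76) (nat_lit 0) (XT.lf (nat_lit 0) (nat_lit 4410129565) (nat_lit 76) (nat_lit 37697952614) (nat_lit 152) (nat_lit 8560239169) (nat_lit 28) (nat_lit 5) (nat_lit 29) (nat_lit 5) (nat_lit 30) (nat_lit 4) (nat_lit 371) (nat_lit 320) (nat_lit 209)) (XT.lf (nat_lit 0) (nat_lit 1390871571) (nat_lit 152) (nat_lit 23867555470) (nat_lit 76) (nat_lit 27252997683) (nat_lit 27) (nat_lit 5) (nat_lit 29) (nat_lit 5) (nat_lit 28) (nat_lit 5) (nat_lit 372) (nat_lit 320) (nat_lit 208))))) (XT.nd (nat_lit 234) (nat_lit 304) (nat_lit 0) (XT.nd (nat_lit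 78) (nat_lit 152) (nat_lit 0) (XT.lf (nat_lit 0) (nat_lit 11546141595) (nat_lit 152) (nat_lit 507733918) (nat_lit 76) (nat_lit 42386079506) (nat_lit 27) (nat_lit 5) (nat_lit 29) (nat_lit 5) (nat_lit 28) (nat_lit 5) (nat_lit 373) (nat_lit 320) (nat_lit 207)) (XT.nd (nat_lit 78) (nat_lit 0) (nat_lit 0) (XT.lf (nat_lit 0) (nat_lit 22625556013) (nat_lit 228) (nat_lit 31675943365) (nat_lit 76) (nat_lit 2142595821) (nat_lit 25) (nat_lit 5) (nat_lit 28) (nat_lit 5) (nat_lit 26) (nat_lit 4) (nat_lit 374) (nat_lit 320) (nat_lit 206)) (XT.lf (nat_lit 0) (nat_lit 34459890906) (nat_lit 228) (nat_lit 7429888318) (nat_lit 76) (nat_lit 16648617977) (nat_lit 25) (nat_lit 5) (nat_lit 28) (nat_lit 5) (nat_lit 26) (nat_lit 4) (nat_lit 375) (nat_lit 320) (nat_lit 205)))) (XT.nd (nat_lit 78) (nat_lit 228) (nat_lit 0) (XT.lf (nat_lit 0) (nat_lit 18615137133) (nat_lit 76) (nat_lit 28556302300) (nat_lit 152) (nat_lit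 13551702214) (nat_lit 24) (nat_lit 5) (nat_lit 25) (nat_lit 5) (nat_lit 26) (nat_lit 4) (nat_lit 376) (nat_lit 320) (nat_lit 204)) (XT.nd (nat_lit 78) (nat_lit 228) (nat_lit 0) (XT.lf (nat_lit 0) (nat_lit 46211377122) (nat_lit 76) (nat_lit 14427983807) (nat_lit 152) (nat_lit 2371724697) (nat_lit 24) (nat_lit 5) (nat_lit 25) (nat_lit 5) (nat_lit 26) (nat_lit 4) (nat_lit 377) (nat_lit 320) (nat_lit 203)) (XT.lf (nat_lit 0) (nat_lit 9228944138) (nat_lit 228) (nat_lit 55472752953) (nat_lit 76) (nat_lit 696344003) (nat_lit 21) (nat_lit 5) (nat_lit 24) (nat_lit 5) (nat_lit 22) (nat_lit 4) (nat_lit 378) (nat_lit 320) (nat_lit 202))))))))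
noncomputable def xc155 : XT := (XT.nd (nat_lit 1716) (nat_lit 456) (nat_lit 0) (XT.nd (nat_lit 858) (nat_lit 380) (nat_lit 0) (XT.nd (nat_lit 390) (nat_lit 152) (nat_lit 0) (XT.nd (nat_lit 156) (nat_lit 228) (nat_lit 0) (XT.nd (nat_lit 78) (nat_lit 0) (nat_lit 0) (XT.lf (nat_lit 0) (nat_lit 21850805247) (nat_lit 228) (nat_lit 29609166771) (nat_lit 76) (nat_lit 16416386866) (nat_lit 21) (nat_lit 5) (nat_lit 24) (nat_lit 5) (nat_lit 22) (nat_lit 4) (nat_lit 379) (nat_lit 320) (nat_lit 201)) (XT.lf (nat_lit 0) (nat_lit 35099154363) (nat_lit 228) (nat_lit 2460745456) (nat_lit 76) (nat_lit 32918924712) (nat_lit 21) (nat_lit 5) (nat_lit 24) (nat_lit 5) (nat_lit 22) (nat_lit 4) (nat_lit 380) (nat_lit 320) (nat_lit 200))) (XT.nd (nat_lit 78) (nat_lit 152) (nat_lit 0) (XT.lf (nat_lit 0) (nat_lit 26898055858) (nat_lit 76) (nat_lit 22527433350) (nat_lit 152) (nat_lit 23765147475) (nat_lit 20) (nat_lit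 5) (nat_lit 21) (nat_lit 5) (nat_lit 22) (nat_lit 4) (nat_lit 381) (nat_lit 320) (nat_lit 199)) (XT.nd (nat_lit 78) (nat_lit 152) (nat_lit 0) (XT.lf (nat_lit 0) (nat_lit 57802410104) (nat_lit 76) (nat_lit 6703105619) (nat_lit 152) (nat_lit 11530656527) (nat_lit 20) (nat_lit 5) (nat_lit 21) (nat_lit 5) (nat_lit 22) (nat_lit 4) (nat_lit 382) (nat_lit 320) (nat_lit 198)) (XT.lf (nat_lit 0) (nat_lit 1607938727) (nat_lit 152) (nat_lit 67601949734) (nat_lit 76) (nat_lit 9796346277) (nat_lit 18) (nat_lit 5) (nat_lit 20) (nat_lit 5) (nat_lit 19) (nat_lit 4) (nat_lit 383) (nat_lit 320) (nat_lit 197))))) (XT.nd (nat_lit 234) (nat_lit 76) (nat_lit 0) (XT.nd (nat_lit 78) (nat_lit 76) (nat_lit 0) (XT.lf (nat_lit 0) (nat_lit 15435570975) (nat_lit 152) (nat_lit 39263682947) (nat_lit 76) (nat_lit 27395115771) (nat_lit 18) (nat_lit 5) (nat_lit 20) (nat_lit 5) (nat_lit 19) (nat_lit 4) (nat_lit 384) (nat_lit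 320) (nat_lit 196)) (XT.nd (nat_lit 78) (nat_lit 76) (nat_lit 0) (XT.lf (nat_lit 0) (nat_lit 29950647771) (nat_lit 152) (nat_lit 9515755821) (nat_lit 76) (nat_lit 45870705936) (nat_lit 18) (nat_lit 5) (nat_lit 20) (nat_lit 5) (nat_lit 19) (nat_lit 4) (nat_lit 385) (nat_lit 320) (nat_lit 195)) (XT.lf (nat_lit 0) (nat_lit 22430578639) (nat_lit 76) (nat_lit 23107354377) (nat_lit 152) (nat_lit 43186731829) (nat_lit 17) (nat_lit 5) (nat_lit 18) (nat_lit 5) (nat_lit 19) (nat_lit 4) (nat_lit 386) (nat_lit 320) (nat_lit 194)))) (XT.nd (nat_lit 78) (nat_lit 76) (nat_lit 0) (XT.lf (nat_lit 0) (nat_lit 56297799171) (nat_lit 76) (nat_lit 5764260140) (nat_lit 152) (nat_lit 30211665939) (nat_lit 17) (nat_lit 5) (nat_lit 18) (nat_lit 5) (nat_lit 19) (nat_lit 4) (nat_lit 387) (nat_lit 320) (nat_lit 193)) (XT.nd (nat_lit 78) (nat_lit 76) (nat_lit 0) (XT.lf (nat_lit 0) (nat_lit 79603160268) (nat_lit 152)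 (nat_lit 4342777118) (nat_lit 0) (nat_lit 12044763977) (nat_lit 17) (nat_lit 5) (nat_lit 19) (nat_lit 4) (nat_lit 17) (nat_lit 4) (nat_lit 388) (nat_lit 320) (nat_lit 192)) (XT.lf (nat_lit 0) (nat_lit 29722552517) (nat_lit 76) (nat_lit 68853932720) (nat_lit 76) (nat_lit 1289283651) (nat_lit 16) (nat_lit 4) (nat_lit 17) (nat_lit 5) (nat_lit 17) (nat_lit 4) (nat_lit 389) (nat_lit 320) (nat_lit 191)))))) (XT.nd (nat_lit 390) (nat_lit 228) (nat_lit 0) (XT.nd (nat_lit 156) (nat_lit 76) (nat_lit 0) (XT.nd (nat_lit 78) (nat_lit 0) (nat_lit 0) (XT.lf (nat_lit 0) (nat_lit 14169133633) (nat_lit 152) (nat_lit 38523880147) (nat_lit 76) (nat_lit 51226638696) (nat_lit 15) (nat_lit 5) (nat_lit 17) (nat_lit 5) (nat_lit 16) (nat_lit 4) (nat_lit 390) (nat_lit 320) (nat_lit 190)) (XT.lf (nat_lit 0) (nat_lit 30353933467) (nat_lit 152) (nat_lit 5350711943) (nat_lit 76) (nat_lit 72470689450) (nat_lit 15) (nat_lit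 5) (nat_lit 17) (nat_lit 5) (nat_lit 16) (nat_lit 4) (nat_lit 391) (nat_lit 320) (nat_lit 189))) (XT.nd (nat_lit 78) (nat_lit 0) (nat_lit 0) (XT.lf (nat_lit 0) (nat_lit 30449991188) (nat_lit 76) (nat_lit 17370334726) (nat_lit 152) (nat_lit 64799858685) (nat_lit 14) (nat_lit 5) (nat_lit 15) (nat_lit 5) (nat_lit 16) (nat_lit 4) (nat_lit 392) (nat_lit 320) (nat_lit 188)) (XT.nd (nat_lit 78) (nat_lit 0) (nat_lit 0) (XT.lf (nat_lit 0) (nat_lit 66278463067) (nat_lit 152) (nat_lit 49092831322) (nat_lit 0) (nat_lit 1910062007) (nat_lit 14) (nat_lit 5) (nat_lit 16) (nat_lit 4) (nat_lit 14) (nat_lit 4) (nat_lit 393) (nat_lit 320) (nat_lit 187)) (XT.lf (nat_lit 0) (nat_lit 85941371234) (nat_lit 152) (nat_lit 14651818872) (nat_lit 0) (nat_lit 21568304255) (nat_lit 14) (nat_lit 5) (nat_lit 16) (nat_lit 4) (nat_lit 14) (nat_lit 4) (nat_lit 394) (nat_lit 320) (nat_lit 186))))) (XT.nd (nat_lit 234) (nat_lit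 76) (nat_lit 0) (XT.nd (nat_lit 78) (nat_lit 76) (nat_lit 0) (XT.lf (nat_lit 0) (nat_lit 22217132956) (nat_lit 76) (nat_lit 84714406011) (nat_lit 76) (nat_lit 20336895299) (nat_lit 13) (nat_lit 4) (nat_lit 14) (nat_lit 5) (nat_lit 14) (nat_lit 4) (nat_lit 395) (nat_lit 320) (nat_lit 185)) (XT.nd (nat_lit 78) (nat_lit 76) (nat_lit 0) (XT.lf (nat_lit 0) (nat_lit 61433096039) (nat_lit 76) (nat_lit 67783548600) (nat_lit 76) (nat_lit 3401805762) (nat_lit 13) (nat_lit 4) (nat_lit 14) (nat_lit 5) (nat_lit 14) (nat_lit 4) (nat_lit 396) (nat_lit 320) (nat_lit 184)) (XT.lf (nat_lit 0) (nat_lit 13917167087) (nat_lit 152) (nat_lit 35855580905) (nat_lit 76) (nat_lit 88452125370) (nat_lit 12) (nat_lit 5) (nat_lit 14) (nat_lit 5) (nat_lit 13) (nat_lit 4) (nat_lit 397) (nat_lit 320) (nat_lit 183)))) (XT.nd (nat_lit 78) (nat_lit 0) (nat_lit 0) (XT.lf (nat_lit 0) (nat_lit 1219214351) (nat_lit 76) (nat_lit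 30785091233) (nat_lit 152) (nat_lit 112103697137) (nat_lit 11) (nat_lit 5) (nat_lit 12) (nat_lit 5) (nat_lit 13) (nat_lit 4) (nat_lit 398) (nat_lit 320) (nat_lit 182)) (XT.nd (nat_lit 78) (nat_lit 0) (nat_lit 0) (XT.lf (nat_lit 0) (nat_lit 41387928299) (nat_lit 76) (nat_lit 10212655245) (nat_lit 152) (nat_lit 98654466465) (nat_lit 11) (nat_lit 5) (nat_lit 12) (nat_lit 5) (nat_lit 13) (nat_lit 4) (nat_lit 399) (nat_lit 320) (nat_lit 181)) (XT.lf (nat_lit 0) (nat_lit 72352115165) (nat_lit 152) (nat_lit 73326685759) (nat_lit 0) (nat_lit 11021877308) (nat_lit 11) (nat_lit 5) (nat_lit 13) (nat_lit 4) (nat_lit 11) (nat_lit 4) (nat_lit 400) (nat_lit 320) (nat_lit 180))))))) (XT.nd (nat_lit 858) (nat_lit 228) (nat_lit 0) (XT.nd (nat_lit 390) (nat_lit 76) (nat_lit 0) (XT.nd (nat_lit 156) (nat_lit 76) (nat_lit 0) (XT.nd (nat_lit 78) (nat_lit 76) (nat_lit 0) (XT.lf (nat_lit 0) (nat_lit 94306391452)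 (nat_lit 152) (nat_lit 36180943027) (nat_lit 0) (nat_lit 32972995517) (nat_lit 11) (nat_lit 5) (nat_lit 13) (nat_lit 4) (nat_lit 11) (nat_lit 4) (nat_lit 401) (nat_lit 320) (nat_lit 179)) (XT.lf (nat_lit 0) (nat_lit 2911172603) (nat_lit 76) (nat_lit 114490515280) (nat_lit 76) (nat_lit 53154111652) (nat_lit 10) (nat_lit 4) (nat_lit 11) (nat_lit 5) (nat_lit 11) (nat_lit 4) (nat_lit 402) (nat_lit 320) (nat_lit 178))) (XT.nd (nat_lit 78) (nat_lit 76) (nat_lit 0) (XT.lf (nat_lit 0) (nat_lit 45209990684) (nat_lit 76) (nat_lit 97052394328) (nat_lit 76) (nat_lit 35713126230) (nat_lit 10) (nat_lit 4) (nat_lit 11) (nat_lit 5) (nat_lit 11) (nat_lit 4) (nat_lit 403) (nat_lit 320) (nat_lit 177)) (XT.nd (nat_lit 78) (nat_lit 76) (nat_lit 0) (XT.lf (nat_lit 0) (nat_lit 89619917311) (nat_lit 76) (nat_lit 78744194064) (nat_lit 76) (nat_lit 17402197900) (nat_lit 10) (nat_lit 4) (nat_lit 11) (nat_lit 5) (nat_lit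 11) (nat_lit 4) (nat_lit 404) (nat_lit 320) (nat_lit 176)) (XT.lf (nat_lit 0) (nat_lit 1763946741) (nat_lit 152) (nat_lit 57728503502) (nat_lit 76) (nat_lit 134452870371) (nat_lit 9) (nat_lit 5) (nat_lit 11) (nat_lit 5) (nat_lit 10) (nat_lit 4) (nat_lit 405) (nat_lit 320) (nat_lit 175))))) (XT.nd (nat_lit 234) (nat_lit 0) (nat_lit 0) (XT.nd (nat_lit 78) (nat_lit 76) (nat_lit 0) (XT.lf (nat_lit 0) (nat_lit 21301721269) (nat_lit 152) (nat_lit 17678540157) (nat_lit 76) (nat_lit 163538849865) (nat_lit 9) (nat_lit 5) (nat_lit 11) (nat_lit 5) (nat_lit 10) (nat_lit 4) (nat_lit 406) (nat_lit 320) (nat_lit 174)) (XT.nd (nat_lit 78) (nat_lit 0) (nat_lit 0) (XT.lf (nat_lit 0) (nat_lit 25176352722) (nat_lit 76) (nat_lit 17031343906) (nat_lit 152) (nat_lit 169294329647) (nat_lit 8) (nat_lit 5) (nat_lit 9) (nat_lit 5) (nat_lit 10) (nat_lit 4) (nat_lit 407) (nat_lit 320) (nat_lit 173)) (XT.lf (nat_lit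 0) (nat_lit 64555430852) (nat_lit 152) (nat_lit 150233564329) (nat_lit 0) (nat_lit 6125269182) (nat_lit 8) (nat_lit 5) (nat_lit 10) (nat_lit 4) (nat_lit 8) (nat_lit 4) (nat_lit 408) (nat_lit 320) (nat_lit 172)))) (XT.nd (nat_lit 78) (nat_lit 0) (nat_lit 0) (XT.lf (nat_lit 0) (nat_lit 88298083713) (nat_lit 152) (nat_lit 112619268072) (nat_lit 0) (nat_lit 29865886317) (nat_lit 8) (nat_lit 5) (nat_lit 10) (nat_lit 4) (nat_lit 8) (nat_lit 4) (nat_lit 409) (nat_lit 320) (nat_lit 171)) (XT.nd (nat_lit 78) (nat_lit 0) (nat_lit 0) (XT.lf (nat_lit 0) (nat_lit 113226278327) (nat_lit 152) (nat_lit 73127319926) (nat_lit 0) (nat_lit 54792142146) (nat_lit 8) (nat_lit 5) (nat_lit 10) (nat_lit 4) (nat_lit 8) (nat_lit 4) (nat_lit 410) (nat_lit 320) (nat_lit 170)) (XT.lf (nat_lit 0) (nat_lit 139399367541) (nat_lit 152) (nat_lit 31663691442) (nat_lit 0) (nat_lit 80963384896) (nat_lit 8) (nat_lit 5) (nat_lit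 10) (nat_lit 4) (nat_lit 8) (nat_lit 4) (nat_lit 411) (nat_lit 320) (nat_lit 169)))))) (XT.nd (nat_lit 468) (nat_lit 76) (nat_lit 0) (XT.nd (nat_lit 234) (nat_lit 76) (nat_lit 0) (XT.nd (nat_lit 78) (nat_lit 0) (nat_lit 0) (XT.lf (nat_lit 0) (nat_lit 12262827362) (nat_lit 76) (nat_lit 154808297971) (nat_lit 76) (nat_lit 96370556790) (nat_lit 7) (nat_lit 4) (nat_lit 8) (nat_lit 5) (nat_lit 8) (nat_lit 4) (nat_lit 412) (nat_lit 320) (nat_lit 168)) (XT.nd (nat_lit 78) (nat_lit 0) (nat_lit 0) (XT.lf (nat_lit 0) (nat_lit 59482230623) (nat_lit 76) (nat_lit 137179063383) (nat_lit 76) (nat_lit 78739647406) (nat_lit 7) (nat_lit 4) (nat_lit 8) (nat_lit 5) (nat_lit 8) (nat_lit 4) (nat_lit 413) (nat_lit 320) (nat_lit 167)) (XT.lf (nat_lit 0) (nat_lit 109060000854) (nat_lit 76) (nat_lit 118669620788) (nat_lit 76) (nat_lit 60228609767) (nat_lit 7) (nat_lit 4) (nat_lit 8) (nat_lit 5) (nat_lit 8) (nat_lit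 4) (nat_lit 414) (nat_lit 320) (nat_lit 166)))) (XT.nd (nat_lit 78) (nat_lit 76) (nat_lit 0) (XT.lf (nat_lit 0) (nat_lit 161114180364) (nat_lit 76) (nat_lit 99235900083) (nat_lit 76) (nat_lit 40793369973) (nat_lit 7) (nat_lit 4) (nat_lit 8) (nat_lit 5) (nat_lit 8) (nat_lit 4) (nat_lit 415) (nat_lit 320) (nat_lit 165)) (XT.nd (nat_lit 78) (nat_lit 76) (nat_lit 0) (XT.lf (nat_lit 0) (nat_lit 215768707678) (nat_lit 76) (nat_lit 78831630506) (nat_lit 76) (nat_lit 20387653644) (nat_lit 7) (nat_lit 4) (nat_lit 8) (nat_lit 5) (nat_lit 8) (nat_lit 4) (nat_lit 416) (nat_lit 320) (nat_lit 164)) (XT.lf (nat_lit 0) (nat_lit 1003929805) (nat_lit 152) (nat_lit 56387298619) (nat_lit 76) (nat_lit 272132780778) (nat_lit 6) (nat_lit 5) (nat_lit 8) (nat_lit 5) (nat_lit 7) (nat_lit 4) (nat_lit 417) (nat_lit 320) (nat_lit 163))))) (XT.nd (nat_lit 234) (nat_lit 0) (nat_lit 0) (XT.nd (nat_lit 78) (nat_lit 76)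 (nat_lit 0) (XT.lf (nat_lit 0) (nat_lit 22778804948) (nat_lit 152) (nat_lit 11750116823) (nat_lit 76) (nat_lit 310241251126) (nat_lit 6) (nat_lit 5) (nat_lit 8) (nat_lit 5) (nat_lit 7) (nat_lit 4) (nat_lit 418) (nat_lit 320) (nat_lit 162)) (XT.nd (nat_lit 78) (nat_lit 0) (nat_lit 0) (XT.lf (nat_lit 0) (nat_lit 36277970259) (nat_lit 76) (nat_lit 9929779489) (nat_lit 152) (nat_lit 314542628933) (nat_lit 5) (nat_lit 5) (nat_lit 6) (nat_lit 5) (nat_lit 7) (nat_lit 4) (nat_lit 419) (nat_lit 320) (nat_lit 161)) (XT.lf (nat_lit 0) (nat_lit 71257559862) (nat_lit 152) (nat_lit 290657820482) (nat_lit 0) (nat_lit 15591743698) (nat_lit 5) (nat_lit 5) (nat_lit 7) (nat_lit 4) (nat_lit 5) (nat_lit 4) (nat_lit 420) (nat_lit 320) (nat_lit 160)))) (XT.nd (nat_lit 78) (nat_lit 0) (nat_lit 0) (XT.lf (nat_lit 0) (nat_lit 97721623772) (nat_lit 152) (nat_lit 255317266899) (nat_lit 0) (nat_lit 42054728018) (nat_lit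 5) (nat_lit 5) (nat_lit 7) (nat_lit 4) (nat_lit 5) (nat_lit 4) (nat_lit 421) (nat_lit 320) (nat_lit 159)) (XT.nd (nat_lit 78) (nat_lit 0) (nat_lit 0) (XT.lf (nat_lit 0) (nat_lit 125507919467) (nat_lit 152) (nat_lit 218211571809) (nat_lit 0) (nat_lit 69839995534) (nat_lit 5) (nat_lit 5) (nat_lit 7) (nat_lit 4) (nat_lit 5) (nat_lit 4) (nat_lit 422) (nat_lit 320) (nat_lit 158)) (XT.lf (nat_lit 0) (nat_lit 154682604796) (nat_lit 152) (nat_lit 179252388322) (nat_lit 0) (nat_lit 99013701645) (nat_lit 5) (nat_lit 5) (nat_lit 7) (nat_lit 4) (nat_lit 5) (nat_lit 4) (nat_lit 423) (nat_lit 320) (nat_lit 157))))))))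
noncomputable def xc156 : XT := (XT.nd (nat_lit 40092) (nat_lit 0) (nat_lit 2888) (XT.nd (nat_lit 39234) (nat_lit 0) (nat_lit 6232) (XT.nd (nat_lit 390) (nat_lit 0) (nat_lit 0) (XT.nd (nat_lit 156) (nat_lit 76) (nat_lit 0) (XT.nd (nat_lit 78) (nat_lit 0) (nat_lit 0) (XT.lf (nat_lit 0) (nat_lit 185315143294) (nat_lit 152) (nat_lit 138346956475) (nat_lit 0) (nat_lit 129645307554) (nat_lit 5) (nat_lit 5) (nat_lit 7) (nat_lit 4) (nat_lit 5) (nat_lit 4) (nat_lit 424) (nat_lit 320) (nat_lit 156)) (XT.lf (nat_lit 0) (nat_lit 217478469577) (nat_lit 152) (nat_lit 95397882384) (nat_lit 0) (nat_lit 161807745657) (nat_lit 5) (nat_lit 5) (nat_lit 7) (nat_lit 4) (nat_lit 5) (nat_lit 4) (nat_lit 425) (nat_lit 320) (nat_lit 155))) (XT.nd (nat_lit 78) (nat_lit 76) (nat_lit 0) (XT.lf (nat_lit 0) (nat_lit 251249162994) (nat_lit 152) (nat_lit 50302906349) (nat_lit 0) (nat_lit 195577593188) (nat_lit 5) (nat_lit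 5) (nat_lit 7) (nat_lit 4) (nat_lit 5) (nat_lit 4) (nat_lit 426) (nat_lit 320) (nat_lit 154)) (XT.nd (nat_lit 78) (nat_lit 76) (nat_lit 0) (XT.lf (nat_lit 0) (nat_lit 286707629957) (nat_lit 152) (nat_lit 2954659378) (nat_lit 0) (nat_lit 231035254545) (nat_lit 5) (nat_lit 5) (nat_lit 7) (nat_lit 4) (nat_lit 5) (nat_lit 4) (nat_lit 427) (nat_lit 320) (nat_lit 153)) (XT.lf (nat_lit 0) (nat_lit 48305675747) (nat_lit 76) (nat_lit 276386806615) (nat_lit 76) (nat_lit 220713663959) (nat_lit 4) (nat_lit 4) (nat_lit 5) (nat_lit 5) (nat_lit 5) (nat_lit 4) (nat_lit 428) (nat_lit 320) (nat_lit 152))))) (XT.nd (nat_lit 38610) (nat_lit 0) (nat_lit 7828) (XT.nd (nat_lit 38454) (nat_lit 0) (nat_lit 7828) (XT.lf (nat_lit 0) (nat_lit 102230221941) (nat_lit 76) (nat_lit 262395682050) (nat_lit 76) (nat_lit 206721808687) (nat_lit 4) (nat_lit 4) (nat_lit 5) (nat_lit 5) (nat_lit 5) (nat_lit 4) (nat_lit 429) (nat_lit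 320) (nat_lit 151)) (XT.nd (nat_lit 78) (nat_lit 0) (nat_lit 0) (XT.lf (nat_lit 0) (nat_lit 1324408341) (nat_lit 0) (nat_lit 1324408341) (nat_lit 684) (nat_lit 3202083426) (nat_lit 107) (nat_lit 5) (nat_lit 107) (nat_lit 3) (nat_lit 116) (nat_lit 3) (nat_lit 321) (nat_lit 321) (nat_lit 258)) (XT.lf (nat_lit 0) (nat_lit 5949037193) (nat_lit 684) (nat_lit 3596151965) (nat_lit 760) (nat_lit 2422568750) (nat_lit 107) (nat_lit 5) (nat_lit 116) (nat_lit 3) (nat_lit 117) (nat_lit 5) (nat_lit 322) (nat_lit 321) (nat_lit 257)))) (XT.nd (nat_lit 78) (nat_lit 0) (nat_lit 76) (XT.lf (nat_lit 76) (nat_lit 2141461997) (nat_lit 0) (nat_lit 4537927557) (nat_lit 760) (nat_lit 5565345927) (nat_lit 108) (nat_lit 5) (nat_lit 107) (nat_lit 5) (nat_lit 117) (nat_lit 5) (nat_lit 323) (nat_lit 321) (nat_lit 256)) (XT.nd (nat_lit 78) (nat_lit 0) (nat_lit 0) (XT.lf (nat_lit 0) (nat_lit 7490298919) (nat_lit 684)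 (nat_lit 4272540871) (nat_lit 760) (nat_lit 770559138) (nat_lit 108) (nat_lit 5) (nat_lit 117) (nat_lit 5) (nat_lit 118) (nat_lit 5) (nat_lit 324) (nat_lit 321) (nat_lit 255)) (XT.lf (nat_lit 76) (nat_lit 1815740573) (nat_lit 0) (nat_lit 6601041775) (nat_lit 760) (nat_lit 4415998881) (nat_lit 109) (nat_lit 5) (nat_lit 108) (nat_lit 5) (nat_lit 118) (nat_lit 5) (nat_lit 325) (nat_lit 321) (nat_lit 254)))))) (XT.nd (nat_lit 390) (nat_lit 1064) (nat_lit 0) (XT.nd (nat_lit 156) (nat_lit 608) (nat_lit 0) (XT.nd (nat_lit 78) (nat_lit 0) (nat_lit 76) (XT.lf (nat_lit 76) (nat_lit 8339344135) (nat_lit 0) (nat_lit 1095938493) (nat_lit 760) (nat_lit 3709600728) (nat_lit 109) (nat_lit 5) (nat_lit 108) (nat_lit 5) (nat_lit 118) (nat_lit 5) (nat_lit 326) (nat_lit 321) (nat_lit 253)) (XT.lf (nat_lit 76) (nat_lit 1679106273) (nat_lit 0) (nat_lit 8899696405) (nat_lit 760) (nat_lit 2890116831) (nat_lit 110)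 (nat_lit 5) (nat_lit 109) (nat_lit 5) (nat_lit 119) (nat_lit 5) (nat_lit 327) (nat_lit 321) (nat_lit 252))) (XT.nd (nat_lit 78) (nat_lit 684) (nat_lit 0) (XT.lf (nat_lit 76) (nat_lit 8618516192) (nat_lit 0) (nat_lit 3235711077) (nat_lit 760) (nat_lit 1951225834) (nat_lit 110) (nat_lit 5) (nat_lit 109) (nat_lit 5) (nat_lit 119) (nat_lit 5) (nat_lit 328) (nat_lit 321) (nat_lit 251)) (XT.nd (nat_lit 78) (nat_lit 760) (nat_lit 0) (XT.lf (nat_lit 76) (nat_lit 1741294618) (nat_lit 0) (nat_lit 11498573249) (nat_lit 760) (nat_lit 916653802) (nat_lit 111) (nat_lit 5) (nat_lit 110) (nat_lit 5) (nat_lit 120) (nat_lit 5) (nat_lit 329) (nat_lit 321) (nat_lit 250)) (XT.lf (nat_lit 0) (nat_lit 283895904) (nat_lit 760) (nat_lit 5400538636) (nat_lit 836) (nat_lit 8834620440) (nat_lit 100) (nat_lit 5) (nat_lit 110) (nat_lit 5) (nat_lit 111) (nat_lit 5) (nat_lit 330) (nat_lit 321) (nat_lit 249))))) (XT.nd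 (nat_lit 234) (nat_lit 380) (nat_lit 0) (XT.nd (nat_lit 78) (nat_lit 760) (nat_lit 0) (XT.lf (nat_lit 0) (nat_lit 1530639757) (nat_lit 760) (nat_lit 12909931666) (nat_lit 76) (nat_lit 457569940) (nat_lit 101) (nat_lit 5) (nat_lit 111) (nat_lit 5) (nat_lit 102) (nat_lit 5) (nat_lit 331) (nat_lit 321) (nat_lit 248)) (XT.nd (nat_lit 78) (nat_lit 760) (nat_lit 0) (XT.lf (nat_lit 0) (nat_lit 3005103800) (nat_lit 760) (nat_lit 5471018258) (nat_lit 76) (nat_lit 6811815976) (nat_lit 101) (nat_lit 5) (nat_lit 111) (nat_lit 5) (nat_lit 102) (nat_lit 5) (nat_lit 332) (nat_lit 321) (nat_lit 247)) (XT.lf (nat_lit 0) (nat_lit 2398894348) (nat_lit 760) (nat_lit 2172074404) (nat_lit 836) (nat_lit 11125395823) (nat_lit 91) (nat_lit 5) (nat_lit 101) (nat_lit 5) (nat_lit 102) (nat_lit 5) (nat_lit 333) (nat_lit 321) (nat_lit 246)))) (XT.nd (nat_lit 78) (nat_lit 380) (nat_lit 0) (XT.lf (nat_lit 0) (nat_lit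 6359652760) (nat_lit 836) (nat_lit 5357731821) (nat_lit 76) (nat_lit 4400624353) (nat_lit 91) (nat_lit 5) (nat_lit 102) (nat_lit 5) (nat_lit 92) (nat_lit 5) (nat_lit 334) (nat_lit 321) (nat_lit 245)) (XT.nd (nat_lit 78) (nat_lit 0) (nat_lit 0) (XT.lf (nat_lit 0) (nat_lit 3022560558) (nat_lit 380) (nat_lit 5279837085) (nat_lit 456) (nat_lit 8255128233) (nat_lit 86) (nat_lit 5) (nat_lit 91) (nat_lit 5) (nat_lit 92) (nat_lit 5) (nat_lit 335) (nat_lit 321) (nat_lit 244)) (XT.lf (nat_lit 0) (nat_lit 10440031867) (nat_lit 456) (nat_lit 5049380674) (nat_lit 76) (nat_lit 1524739185) (nat_lit 86) (nat_lit 5) (nat_lit 92) (nat_lit 5) (nat_lit 87) (nat_lit 5) (nat_lit 336) (nat_lit 321) (nat_lit 243))))))) (XT.nd (nat_lit 858) (nat_lit 1368) (nat_lit 0) (XT.nd (nat_lit 390) (nat_lit 912) (nat_lit 0) (XT.nd (nat_lit 156) (nat_lit 760) (nat_lit 0) (XT.nd (nat_lit 78) (nat_lit 0) (nat_lit 0) (XT.lf (nat_lit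 0) (nat_lit 3880818228) (nat_lit 304) (nat_lit 8934139804) (nat_lit 380) (nat_lit 4672150005) (nat_lit 82) (nat_lit 5) (nat_lit 86) (nat_lit 5) (nat_lit 87) (nat_lit 5) (nat_lit 337) (nat_lit 321) (nat_lit 242)) (XT.lf (nat_lit 0) (nat_lit 13415788850) (nat_lit 304) (nat_lit 1962151276) (nat_lit 380) (nat_lit 2602325299) (nat_lit 82) (nat_lit 5) (nat_lit 86) (nat_lit 5) (nat_lit 87) (nat_lit 5) (nat_lit 338) (nat_lit 321) (nat_lit 241))) (XT.nd (nat_lit 78) (nat_lit 380) (nat_lit 0) (XT.lf (nat_lit 0) (nat_lit 4988420871) (nat_lit 380) (nat_lit 13226748986) (nat_lit 456) (nat_lit 275623750) (nat_lit 77) (nat_lit 5) (nat_lit 82) (nat_lit 5) (nat_lit 83) (nat_lit 5) (nat_lit 339) (nat_lit 321) (nat_lit 240)) (XT.nd (nat_lit 78) (nat_lit 304) (nat_lit 0) (XT.lf (nat_lit 0) (nat_lit 2193544842) (nat_lit 456) (nat_lit 3930077049) (nat_lit 76) (nat_lit 12896775395) (nat_lit 76) (nat_lit 5) (nat_lit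 82) (nat_lit 5) (nat_lit 77) (nat_lit 5) (nat_lit 340) (nat_lit 321) (nat_lit 239)) (XT.lf (nat_lit 0) (nat_lit 4883281847) (nat_lit 380) (nat_lit 13292997601) (nat_lit 76) (nat_lit 1394672560) (nat_lit 72) (nat_lit 5) (nat_lit 77) (nat_lit 5) (nat_lit 73) (nat_lit 5) (nat_lit 341) (nat_lit 321) (nat_lit 238))))) (XT.nd (nat_lit 234) (nat_lit 608) (nat_lit 0) (XT.nd (nat_lit 78) (nat_lit 304) (nat_lit 0) (XT.lf (nat_lit 0) (nat_lit 7861440300) (nat_lit 380) (nat_lit 3131205323) (nat_lit 76) (nat_lit 9148706801) (nat_lit 72) (nat_lit 5) (nat_lit 77) (nat_lit 5) (nat_lit 73) (nat_lit 5) (nat_lit 342) (nat_lit 321) (nat_lit 237)) (XT.nd (nat_lit 78) (nat_lit 0) (nat_lit 0) (XT.lf (nat_lit 0) (nat_lit 7771359830) (nat_lit 304) (nat_lit 3325049536) (nat_lit 380) (nat_lit 9638482346) (nat_lit 68) (nat_lit 5) (nat_lit 72) (nat_lit 5) (nat_lit 73) (nat_lit 5) (nat_lit 343) (nat_lit 321) (nat_lit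 236)) (XT.lf (nat_lit 0) (nat_lit 14607729642) (nat_lit 380) (nat_lit 2118761322) (nat_lit 76) (nat_lit 4625900184) (nat_lit 68) (nat_lit 5) (nat_lit 73) (nat_lit 5) (nat_lit 69) (nat_lit 5) (nat_lit 344) (nat_lit 321) (nat_lit 235)))) (XT.nd (nat_lit 78) (nat_lit 380) (nat_lit 0) (XT.lf (nat_lit 0) (nat_lit 9502239157) (nat_lit 228) (nat_lit 8982785227) (nat_lit 304) (nat_lit 3506233435) (nat_lit 65) (nat_lit 5) (nat_lit 68) (nat_lit 5) (nat_lit 69) (nat_lit 5) (nat_lit 345) (nat_lit 321) (nat_lit 234)) (XT.nd (nat_lit 78) (nat_lit 380) (nat_lit 0) (XT.lf (nat_lit 0) (nat_lit 21762469780) (nat_lit 228) (nat_lit 817492289) (nat_lit 304) (nat_lit 80928926) (nat_lit 65) (nat_lit 5) (nat_lit 68) (nat_lit 5) (nat_lit 69) (nat_lit 5) (nat_lit 346) (nat_lit 321) (nat_lit 233)) (XT.lf (nat_lit 0) (nat_lit 3696968123) (nat_lit 380) (nat_lit 11905575490) (nat_lit 76) (nat_lit 7744036236) (nat_lit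 60) (nat_lit 5) (nat_lit 65) (nat_lit 5) (nat_lit 61) (nat_lit 5) (nat_lit 347) (nat_lit 321) (nat_lit 232)))))) (XT.nd (nat_lit 468) (nat_lit 684) (nat_lit 0) (XT.nd (nat_lit 234) (nat_lit 228) (nat_lit 0) (XT.nd (nat_lit 78) (nat_lit 228) (nat_lit 0) (XT.lf (nat_lit 0) (nat_lit 343486450) (nat_lit 228) (nat_lit 7340329233) (nat_lit 304) (nat_lit 16381542798) (nat_lit 57) (nat_lit 5) (nat_lit 60) (nat_lit 5) (nat_lit 61) (nat_lit 5) (nat_lit 348) (nat_lit 321) (nat_lit 231)) (XT.nd (nat_lit 78) (nat_lit 228) (nat_lit 0) (XT.lf (nat_lit 0) (nat_lit 12084575590) (nat_lit 304) (nat_lit 11231394877) (nat_lit 76) (nat_lit 1493387016) (nat_lit 57) (nat_lit 5) (nat_lit 61) (nat_lit 5) (nat_lit 58) (nat_lit 5) (nat_lit 349) (nat_lit 321) (nat_lit 230)) (XT.lf (nat_lit 0) (nat_lit 1806238079) (nat_lit 228) (nat_lit 15036997598) (nat_lit 304) (nat_lit 8740437115) (nat_lit 54) (nat_lit 5) (nat_lit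 57) (nat_lit 5) (nat_lit 58) (nat_lit 5) (nat_lit 350) (nat_lit 321) (nat_lit 229)))) (XT.nd (nat_lit 78) (nat_lit 228) (nat_lit 0) (XT.lf (nat_lit 0) (nat_lit 15871075112) (nat_lit 228) (nat_lit 6148571370) (nat_lit 304) (nat_lit 4368075517) (nat_lit 54) (nat_lit 5) (nat_lit 57) (nat_lit 5) (nat_lit 58) (nat_lit 5) (nat_lit 351) (nat_lit 321) (nat_lit 228)) (XT.nd (nat_lit 78) (nat_lit 0) (nat_lit 0) (XT.lf (nat_lit 0) (nat_lit 310974638) (nat_lit 228) (nat_lit 23778662269) (nat_lit 76) (nat_lit 3137410688) (nat_lit 51) (nat_lit 5) (nat_lit 54) (nat_lit 5) (nat_lit 52) (nat_lit 5) (nat_lit 352) (nat_lit 321) (nat_lit 227)) (XT.lf (nat_lit 0) (nat_lit 5349129360) (nat_lit 228) (nat_lit 9812428844) (nat_lit 76) (nat_lit 12929611264) (nat_lit 51) (nat_lit 5) (nat_lit 54) (nat_lit 5) (nat_lit 52) (nat_lit 5) (nat_lit 353) (nat_lit 321) (nat_lit 226))))) (XT.nd (nat_lit 234) (nat_lit 304) (nat_lit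 0) (XT.nd (nat_lit 78) (nat_lit 152) (nat_lit 0) (XT.lf (nat_lit 0) (nat_lit 4998328069) (nat_lit 228) (nat_lit 5709499312) (nat_lit 304) (nat_lit 18287245692) (nat_lit 48) (nat_lit 5) (nat_lit 51) (nat_lit 5) (nat_lit 52) (nat_lit 5) (nat_lit 354) (nat_lit 321) (nat_lit 225)) (XT.nd (nat_lit 78) (nat_lit 152) (nat_lit 0) (XT.lf (nat_lit 0) (nat_lit 16559938845) (nat_lit 304) (nat_lit 9128050363) (nat_lit 76) (nat_lit 4244915788) (nat_lit 48) (nat_lit 5) (nat_lit 52) (nat_lit 5) (nat_lit 49) (nat_lit 5) (nat_lit 355) (nat_lit 321) (nat_lit 224)) (XT.lf (nat_lit 0) (nat_lit 6588062781) (nat_lit 152) (nat_lit 16304254884) (nat_lit 228) (nat_lit 8015934489) (nat_lit 46) (nat_lit 5) (nat_lit 48) (nat_lit 5) (nat_lit 49) (nat_lit 5) (nat_lit 356) (nat_lit 321) (nat_lit 223)))) (XT.nd (nat_lit 78) (nat_lit 304) (nat_lit 0) (XT.lf (nat_lit 0) (nat_lit 23393823994) (nat_lit 152) (nat_lit 6293499540)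 (nat_lit 228) (nat_lit 2237749136) (nat_lit 46) (nat_lit 5) (nat_lit 48) (nat_lit 5) (nat_lit 49) (nat_lit 5) (nat_lit 357) (nat_lit 321) (nat_lit 222)) (XT.nd (nat_lit 78) (nat_lit 0) (nat_lit 0) (XT.lf (nat_lit 0) (nat_lit 3895965856) (nat_lit 304) (nat_lit 24814298409) (nat_lit 76) (nat_lit 4270027252) (nat_lit 42) (nat_lit 5) (nat_lit 46) (nat_lit 5) (nat_lit 43) (nat_lit 5) (nat_lit 358) (nat_lit 321) (nat_lit 221)) (XT.lf (nat_lit 0) (nat_lit 10503005473) (nat_lit 304) (nat_lit 8241848232) (nat_lit 76) (nat_lit 15329496821) (nat_lit 42) (nat_lit 5) (nat_lit 46) (nat_lit 5) (nat_lit 43) (nat_lit 5) (nat_lit 359) (nat_lit 321) (nat_lit 220))))))))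
noncomputable def xc157 : XT := (XT.nd (nat_lit 1716) (nat_lit 836) (nat_lit 0) (XT.nd (nat_lit 858) (nat_lit 608) (nat_lit 0) (XT.nd (nat_lit 390) (nat_lit 456) (nat_lit 0) (XT.nd (nat_lit 156) (nat_lit 380) (nat_lit 0) (XT.nd (nat_lit 78) (nat_lit 0) (nat_lit 0) (XT.lf (nat_lit 0) (nat_lit 9449418608) (nat_lit 152) (nat_lit 8130720304) (nat_lit 228) (nat_lit 17635991751) (nat_lit 40) (nat_lit 5) (nat_lit 42) (nat_lit 5) (nat_lit 43) (nat_lit 5) (nat_lit 360) (nat_lit 321) (nat_lit 219)) (XT.lf (nat_lit 0) (nat_lit 25192379193) (nat_lit 228) (nat_lit 8158345492) (nat_lit 76) (nat_lit 3055217635) (nat_lit 40) (nat_lit 5) (nat_lit 43) (nat_lit 5) (nat_lit 41) (nat_lit 5) (nat_lit 361) (nat_lit 321) (nat_lit 218))) (XT.nd (nat_lit 78) (nat_lit 228) (nat_lit 0) (XT.lf (nat_lit 0) (nat_lit 10522147357) (nat_lit 152) (nat_lit 22953343817) (nat_lit 228) (nat_lit 4165245182) (nat_lit 38) (nat_lit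 5) (nat_lit 40) (nat_lit 5) (nat_lit 41) (nat_lit 5) (nat_lit 362) (nat_lit 321) (nat_lit 217)) (XT.nd (nat_lit 78) (nat_lit 152) (nat_lit 0) (XT.lf (nat_lit 0) (nat_lit 3265098071) (nat_lit 228) (nat_lit 8575068287) (nat_lit 76) (nat_lit 27087924059) (nat_lit 37) (nat_lit 5) (nat_lit 40) (nat_lit 5) (nat_lit 38) (nat_lit 5) (nat_lit 363) (nat_lit 321) (nat_lit 216)) (XT.lf (nat_lit 0) (nat_lit 11095748945) (nat_lit 228) (nat_lit 29095555023) (nat_lit 76) (nat_lit 76659705) (nat_lit 35) (nat_lit 5) (nat_lit 38) (nat_lit 5) (nat_lit 36) (nat_lit 5) (nat_lit 364) (nat_lit 321) (nat_lit 215))))) (XT.nd (nat_lit 234) (nat_lit 304) (nat_lit 0) (XT.nd (nat_lit 78) (nat_lit 152) (nat_lit 0) (XT.lf (nat_lit 0) (nat_lit 19652806697) (nat_lit 228) (nat_lit 9670444891) (nat_lit 76) (nat_lit 12334839223) (nat_lit 35) (nat_lit 5) (nat_lit 38) (nat_lit 5) (nat_lit 36) (nat_lit 5) (nat_lit 365) (nat_lit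 321) (nat_lit 214)) (XT.nd (nat_lit 78) (nat_lit 0) (nat_lit 0) (XT.lf (nat_lit 0) (nat_lit 11069391257) (nat_lit 152) (nat_lit 17734645165) (nat_lit 228) (nat_lit 14305375675) (nat_lit 33) (nat_lit 5) (nat_lit 35) (nat_lit 5) (nat_lit 36) (nat_lit 5) (nat_lit 366) (nat_lit 321) (nat_lit 213)) (XT.lf (nat_lit 0) (nat_lit 33171310586) (nat_lit 152) (nat_lit 5398929153) (nat_lit 228) (nat_lit 6055192670) (nat_lit 33) (nat_lit 5) (nat_lit 35) (nat_lit 5) (nat_lit 36) (nat_lit 5) (nat_lit 367) (nat_lit 321) (nat_lit 212)))) (XT.nd (nat_lit 78) (nat_lit 152) (nat_lit 0) (XT.lf (nat_lit 0) (nat_lit 2802154470) (nat_lit 152) (nat_lit 35884284092) (nat_lit 76) (nat_lit 7514877331) (nat_lit 31) (nat_lit 5) (nat_lit 33) (nat_lit 5) (nat_lit 32) (nat_lit 5) (nat_lit 368) (nat_lit 321) (nat_lit 211)) (XT.nd (nat_lit 78) (nat_lit 152) (nat_lit 0) (XT.lf (nat_lit 0) (nat_lit 12178451377) (nat_lit 152)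 (nat_lit 14473260111) (nat_lit 76) (nat_lit 21185343043) (nat_lit 31) (nat_lit 5) (nat_lit 33) (nat_lit 5) (nat_lit 32) (nat_lit 5) (nat_lit 369) (nat_lit 321) (nat_lit 210)) (XT.lf (nat_lit 0) (nat_lit 8262856691) (nat_lit 152) (nat_lit 13883911302) (nat_lit 228) (nat_lit 27401654799) (nat_lit 29) (nat_lit 5) (nat_lit 31) (nat_lit 5) (nat_lit 32) (nat_lit 5) (nat_lit 370) (nat_lit 321) (nat_lit 209)))))) (XT.nd (nat_lit 390) (nat_lit 304) (nat_lit 0) (XT.nd (nat_lit 156) (nat_lit 228) (nat_lit 0) (XT.nd (nat_lit 78) (nat_lit 76) (nat_lit 0) (XT.lf (nat_lit 0) (nat_lit 32628496872) (nat_lit 152) (nat_lit 224437604) (nat_lit 228) (nat_lit 18480456084) (nat_lit 29) (nat_lit 5) (nat_lit 31) (nat_lit 5) (nat_lit 32) (nat_lit 5) (nat_lit 371) (nat_lit 321) (nat_lit 208)) (XT.lf (nat_lit 0) (nat_lit 4932760955) (nat_lit 76) (nat_lit 39453616264) (nat_lit 152) (nat_lit 8806633764) (nat_lit 28)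 (nat_lit 5) (nat_lit 29) (nat_lit 5) (nat_lit 30) (nat_lit 4) (nat_lit 372) (nat_lit 321) (nat_lit 207))) (XT.nd (nat_lit 78) (nat_lit 152) (nat_lit 0) (XT.lf (nat_lit 0) (nat_lit 1627847982) (nat_lit 152) (nat_lit 24767584873) (nat_lit 76) (nat_lit 28733117190) (nat_lit 27) (nat_lit 5) (nat_lit 29) (nat_lit 5) (nat_lit 28) (nat_lit 5) (nat_lit 373) (nat_lit 321) (nat_lit 206)) (XT.nd (nat_lit 78) (nat_lit 152) (nat_lit 0) (XT.lf (nat_lit 0) (nat_lit 12282908514) (nat_lit 152) (nat_lit 253741214) (nat_lit 76) (nat_lit 44617259313) (nat_lit 27) (nat_lit 5) (nat_lit 29) (nat_lit 5) (nat_lit 28) (nat_lit 5) (nat_lit 374) (nat_lit 321) (nat_lit 205)) (XT.lf (nat_lit 0) (nat_lit 23914845348) (nat_lit 228) (nat_lit 32978845459) (nat_lit 76) (nat_lit 2364641207) (nat_lit 25) (nat_lit 5) (nat_lit 28) (nat_lit 5) (nat_lit 26) (nat_lit 4) (nat_lit 375) (nat_lit 321) (nat_lit 204))))) (XT.nd (nat_lit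 234) (nat_lit 228) (nat_lit 0) (XT.nd (nat_lit 78) (nat_lit 76) (nat_lit 0) (XT.lf (nat_lit 0) (nat_lit 36333372626) (nat_lit 228) (nat_lit 7533863616) (nat_lit 76) (nat_lit 17590492300) (nat_lit 25) (nat_lit 5) (nat_lit 28) (nat_lit 5) (nat_lit 26) (nat_lit 4) (nat_lit 376) (nat_lit 321) (nat_lit 203)) (XT.nd (nat_lit 78) (nat_lit 0) (nat_lit 0) (XT.lf (nat_lit 0) (nat_lit 19809098284) (nat_lit 76) (nat_lit 29868343598) (nat_lit 152) (nat_lit 14074424220) (nat_lit 24) (nat_lit 5) (nat_lit 25) (nat_lit 5) (nat_lit 26) (nat_lit 4) (nat_lit 377) (nat_lit 321) (nat_lit 202)) (XT.lf (nat_lit 0) (nat_lit 48772616734) (nat_lit 76) (nat_lit 15039122219) (nat_lit 152) (nat_lit 2342822261) (nat_lit 24) (nat_lit 5) (nat_lit 25) (nat_lit 5) (nat_lit 26) (nat_lit 4) (nat_lit 378) (nat_lit 321) (nat_lit 201)))) (XT.nd (nat_lit 78) (nat_lit 0) (nat_lit 0) (XT.lf (nat_lit 0) (nat_lit 9832024671) (nat_lit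 228) (nat_lit 57989756293) (nat_lit 76) (nat_lit 839027734) (nat_lit 21) (nat_lit 5) (nat_lit 24) (nat_lit 5) (nat_lit 22) (nat_lit 4) (nat_lit 379) (nat_lit 321) (nat_lit 200)) (XT.nd (nat_lit 78) (nat_lit 0) (nat_lit 0) (XT.lf (nat_lit 0) (nat_lit 23078234392) (nat_lit 228) (nat_lit 30845211483) (nat_lit 76) (nat_lit 17339936238) (nat_lit 21) (nat_lit 5) (nat_lit 24) (nat_lit 5) (nat_lit 22) (nat_lit 4) (nat_lit 380) (nat_lit 321) (nat_lit 199)) (XT.lf (nat_lit 0) (nat_lit 36982577683) (nat_lit 228) (nat_lit 2351007846) (nat_lit 76) (nat_lit 34662709071) (nat_lit 21) (nat_lit 5) (nat_lit 24) (nat_lit 5) (nat_lit 22) (nat_lit 4) (nat_lit 381) (nat_lit 321) (nat_lit 198))))))) (XT.nd (nat_lit 858) (nat_lit 380) (nat_lit 0) (XT.nd (nat_lit 390) (nat_lit 228) (nat_lit 0) (XT.nd (nat_lit 156) (nat_lit 152) (nat_lit 0) (XT.nd (nat_lit 78) (nat_lit 0) (nat_lit 0) (XT.lf (nat_lit 0) (nat_lit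 28471979100) (nat_lit 76) (nat_lit 23550708412) (nat_lit 152) (nat_lit 24821139216) (nat_lit 20) (nat_lit 5) (nat_lit 21) (nat_lit 5) (nat_lit 22) (nat_lit 4) (nat_lit 382) (nat_lit 321) (nat_lit 197)) (XT.lf (nat_lit 0) (nat_lit 60910645322) (nat_lit 76) (nat_lit 6940073657) (nat_lit 152) (nat_lit 11981222084) (nat_lit 20) (nat_lit 5) (nat_lit 21) (nat_lit 5) (nat_lit 22) (nat_lit 4) (nat_lit 383) (nat_lit 321) (nat_lit 196))) (XT.nd (nat_lit 78) (nat_lit 0) (nat_lit 0) (XT.lf (nat_lit 0) (nat_lit 1809424399) (nat_lit 152) (nat_lit 70758973227) (nat_lit 76) (nat_lit 10382055024) (nat_lit 18) (nat_lit 5) (nat_lit 20) (nat_lit 5) (nat_lit 19) (nat_lit 4) (nat_lit 384) (nat_lit 321) (nat_lit 195)) (XT.nd (nat_lit 78) (nat_lit 0) (nat_lit 0) (XT.lf (nat_lit 0) (nat_lit 16322672129) (nat_lit 152) (nat_lit 41014415672) (nat_lit 76) (nat_lit 28856196733) (nat_lit 18) (nat_lit 5) (nat_lit 20)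 (nat_lit 5) (nat_lit 19) (nat_lit 4) (nat_lit 385) (nat_lit 321) (nat_lit 194)) (XT.lf (nat_lit 0) (nat_lit 31558011212) (nat_lit 152) (nat_lit 9789208924) (nat_lit 76) (nat_lit 48251217589) (nat_lit 18) (nat_lit 5) (nat_lit 20) (nat_lit 5) (nat_lit 19) (nat_lit 4) (nat_lit 386) (nat_lit 321) (nat_lit 193))))) (XT.nd (nat_lit 234) (nat_lit 152) (nat_lit 0) (XT.nd (nat_lit 78) (nat_lit 0) (nat_lit 0) (XT.lf (nat_lit 0) (nat_lit 23751178796) (nat_lit 76) (nat_lit 24171359933) (nat_lit 152) (nat_lit 45232939880) (nat_lit 17) (nat_lit 5) (nat_lit 18) (nat_lit 5) (nat_lit 19) (nat_lit 4) (nat_lit 387) (nat_lit 321) (nat_lit 192)) (XT.nd (nat_lit 78) (nat_lit 0) (nat_lit 0) (XT.lf (nat_lit 0) (nat_lit 59302280772) (nat_lit 76) (nat_lit 5965461563) (nat_lit 152) (nat_lit 31614507769) (nat_lit 17) (nat_lit 5) (nat_lit 18) (nat_lit 5) (nat_lit 19) (nat_lit 4) (nat_lit 388) (nat_lit 321) (nat_lit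 191)) (XT.lf (nat_lit 0) (nat_lit 83682307380) (nat_lit 152) (nat_lit 4375730682) (nat_lit 0) (nat_lit 12727218052) (nat_lit 17) (nat_lit 5) (nat_lit 19) (nat_lit 4) (nat_lit 17) (nat_lit 4) (nat_lit 389) (nat_lit 321) (nat_lit 190)))) (XT.nd (nat_lit 78) (nat_lit 76) (nat_lit 0) (XT.lf (nat_lit 0) (nat_lit 31389894704) (nat_lit 76) (nat_lit 72212519394) (nat_lit 76) (nat_lit 1251758611) (nat_lit 16) (nat_lit 4) (nat_lit 17) (nat_lit 5) (nat_lit 17) (nat_lit 4) (nat_lit 390) (nat_lit 321) (nat_lit 189)) (XT.nd (nat_lit 78) (nat_lit 0) (nat_lit 0) (XT.lf (nat_lit 0) (nat_lit 14971614057) (nat_lit 152) (nat_lit 40274353349) (nat_lit 76) (nat_lit 53864939847) (nat_lit 15) (nat_lit 5) (nat_lit 17) (nat_lit 5) (nat_lit 16) (nat_lit 4) (nat_lit 391) (nat_lit 321) (nat_lit 188)) (XT.lf (nat_lit 0) (nat_lit 31961176561) (nat_lit 152) (nat_lit 5450894392) (nat_lit 76) (nat_lit 76167527938) (nat_lit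 15) (nat_lit 5) (nat_lit 17) (nat_lit 5) (nat_lit 16) (nat_lit 4) (nat_lit 392) (nat_lit 321) (nat_lit 187)))))) (XT.nd (nat_lit 468) (nat_lit 152) (nat_lit 0) (XT.nd (nat_lit 234) (nat_lit 152) (nat_lit 0) (XT.nd (nat_lit 78) (nat_lit 0) (nat_lit 0) (XT.lf (nat_lit 0) (nat_lit 32137144651) (nat_lit 76) (nat_lit 18162050573) (nat_lit 152) (nat_lit 67947581773) (nat_lit 14) (nat_lit 5) (nat_lit 15) (nat_lit 5) (nat_lit 16) (nat_lit 4) (nat_lit 393) (nat_lit 321) (nat_lit 186)) (XT.nd (nat_lit 78) (nat_lit 0) (nat_lit 0) (XT.lf (nat_lit 0) (nat_lit 69677197736) (nat_lit 152) (nat_lit 51387595118) (nat_lit 0) (nat_lit 2076367756) (nat_lit 14) (nat_lit 5) (nat_lit 16) (nat_lit 4) (nat_lit 14) (nat_lit 4) (nat_lit 394) (nat_lit 321) (nat_lit 185)) (XT.lf (nat_lit 0) (nat_lit 90319212668) (nat_lit 152) (nat_lit 15232145273) (nat_lit 0) (nat_lit 22714150561) (nat_lit 14) (nat_lit 5) (nat_lit 16)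 (nat_lit 4) (nat_lit 14) (nat_lit 4) (nat_lit 395) (nat_lit 321) (nat_lit 184)))) (XT.nd (nat_lit 78) (nat_lit 76) (nat_lit 0) (XT.lf (nat_lit 0) (nat_lit 23477798267) (nat_lit 76) (nat_lit 88879583127) (nat_lit 76) (nat_lit 21270490423) (nat_lit 13) (nat_lit 4) (nat_lit 14) (nat_lit 5) (nat_lit 14) (nat_lit 4) (nat_lit 396) (nat_lit 321) (nat_lit 183)) (XT.nd (nat_lit 78) (nat_lit 76) (nat_lit 0) (XT.lf (nat_lit 0) (nat_lit 64647425759) (nat_lit 76) (nat_lit 71105542045) (nat_lit 76) (nat_lit 3492610677) (nat_lit 13) (nat_lit 4) (nat_lit 14) (nat_lit 5) (nat_lit 14) (nat_lit 4) (nat_lit 397) (nat_lit 321) (nat_lit 182)) (XT.lf (nat_lit 0) (nat_lit 14686118532) (nat_lit 152) (nat_lit 37510044245) (nat_lit 76) (nat_lit 92936281554) (nat_lit 12) (nat_lit 5) (nat_lit 14) (nat_lit 5) (nat_lit 13) (nat_lit 4) (nat_lit 398) (nat_lit 321) (nat_lit 181))))) (XT.nd (nat_lit 234) (nat_lit 76) (nat_lit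 0) (XT.nd (nat_lit 78) (nat_lit 0) (nat_lit 0) (XT.lf (nat_lit 0) (nat_lit 1416259876) (nat_lit 76) (nat_lit 32259998120) (nat_lit 152) (nat_lit 117633540820) (nat_lit 11) (nat_lit 5) (nat_lit 12) (nat_lit 5) (nat_lit 13) (nat_lit 4) (nat_lit 399) (nat_lit 321) (nat_lit 180)) (XT.nd (nat_lit 78) (nat_lit 0) (nat_lit 0) (XT.lf (nat_lit 0) (nat_lit 43586929293) (nat_lit 76) (nat_lit 10662004508) (nat_lit 152) (nat_lit 103515436289) (nat_lit 11) (nat_lit 5) (nat_lit 12) (nat_lit 5) (nat_lit 13) (nat_lit 4) (nat_lit 400) (nat_lit 321) (nat_lit 179)) (XT.lf (nat_lit 0) (nat_lit 76035699863) (nat_lit 152) (nat_lit 76867229389) (nat_lit 0) (nat_lit 11629468359) (nat_lit 11) (nat_lit 5) (nat_lit 13) (nat_lit 4) (nat_lit 11) (nat_lit 4) (nat_lit 401) (nat_lit 321) (nat_lit 178)))) (XT.nd (nat_lit 78) (nat_lit 76) (nat_lit 0) (XT.lf (nat_lit 0) (nat_lit 99084548109) (nat_lit 152) (nat_lit 37870189551)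 (nat_lit 0) (nat_lit 34675452136) (nat_lit 11) (nat_lit 5) (nat_lit 13) (nat_lit 4) (nat_lit 11) (nat_lit 4) (nat_lit 402) (nat_lit 321) (nat_lit 177)) (XT.nd (nat_lit 78) (nat_lit 0) (nat_lit 0) (XT.lf (nat_lit 0) (nat_lit 3174599593) (nat_lit 76) (nat_lit 120158857783) (nat_lit 76) (nat_lit 55747033744) (nat_lit 10) (nat_lit 4) (nat_lit 11) (nat_lit 5) (nat_lit 11) (nat_lit 4) (nat_lit 403) (nat_lit 321) (nat_lit 176)) (XT.lf (nat_lit 0) (nat_lit 47582745798) (nat_lit 76) (nat_lit 101851506177) (nat_lit 76) (nat_lit 37437083979) (nat_lit 10) (nat_lit 4) (nat_lit 11) (nat_lit 5) (nat_lit 11) (nat_lit 4) (nat_lit 404) (nat_lit 321) (nat_lit 175))))))))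
noncomputable def xc158 : XT := (XT.nd (nat_lit 1716) (nat_lit 76) (nat_lit 0) (XT.nd (nat_lit 858) (nat_lit 152) (nat_lit 0) (XT.nd (nat_lit 390) (nat_lit 76) (nat_lit 0) (XT.nd (nat_lit 156) (nat_lit 76) (nat_lit 0) (XT.nd (nat_lit 78) (nat_lit 76) (nat_lit 0) (XT.lf (nat_lit 0) (nat_lit 94207823253) (nat_lit 76) (nat_lit 82630443894) (nat_lit 76) (nat_lit 18213547258) (nat_lit 10) (nat_lit 4) (nat_lit 11) (nat_lit 5) (nat_lit 11) (nat_lit 4) (nat_lit 405) (nat_lit 321) (nat_lit 174)) (XT.lf (nat_lit 0) (nat_lit 1906315347) (nat_lit 152) (nat_lit 60511306779) (nat_lit 76) (nat_lit 141222244325) (nat_lit 9) (nat_lit 5) (nat_lit 11) (nat_lit 5) (nat_lit 10) (nat_lit 4) (nat_lit 406) (nat_lit 321) (nat_lit 173))) (XT.nd (nat_lit 78) (nat_lit 76) (nat_lit 0) (XT.lf (nat_lit 0) (nat_lit 22418399017) (nat_lit 152) (nat_lit 18463779642) (nat_lit 76) (nat_lit 171760297535) (nat_lit 9) (nat_lit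 5) (nat_lit 11) (nat_lit 5) (nat_lit 10) (nat_lit 4) (nat_lit 407) (nat_lit 321) (nat_lit 172)) (XT.nd (nat_lit 78) (nat_lit 0) (nat_lit 0) (XT.lf (nat_lit 0) (nat_lit 26532266146) (nat_lit 76) (nat_lit 17836466188) (nat_lit 152) (nat_lit 177705852161) (nat_lit 8) (nat_lit 5) (nat_lit 9) (nat_lit 5) (nat_lit 10) (nat_lit 4) (nat_lit 408) (nat_lit 321) (nat_lit 171)) (XT.lf (nat_lit 0) (nat_lit 67832131928) (nat_lit 152) (nat_lit 157651038977) (nat_lit 0) (nat_lit 6474350151) (nat_lit 8) (nat_lit 5) (nat_lit 10) (nat_lit 4) (nat_lit 8) (nat_lit 4) (nat_lit 409) (nat_lit 321) (nat_lit 170))))) (XT.nd (nat_lit 234) (nat_lit 76) (nat_lit 0) (XT.nd (nat_lit 78) (nat_lit 0) (nat_lit 0) (XT.lf (nat_lit 0) (nat_lit 92759587454) (nat_lit 152) (nat_lit 118160513792) (nat_lit 0) (nat_lit 31399959215) (nat_lit 8) (nat_lit 5) (nat_lit 10) (nat_lit 4) (nat_lit 8) (nat_lit 4) (nat_lit 410) (nat_lit 321)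 (nat_lit 169)) (XT.nd (nat_lit 78) (nat_lit 0) (nat_lit 0) (XT.lf (nat_lit 0) (nat_lit 118931972773) (nat_lit 152) (nat_lit 76698240508) (nat_lit 0) (nat_lit 57570585998) (nat_lit 8) (nat_lit 5) (nat_lit 10) (nat_lit 4) (nat_lit 8) (nat_lit 4) (nat_lit 411) (nat_lit 321) (nat_lit 168)) (XT.lf (nat_lit 0) (nat_lit 146411603089) (nat_lit 152) (nat_lit 33165499429) (nat_lit 0) (nat_lit 85048541517) (nat_lit 8) (nat_lit 5) (nat_lit 10) (nat_lit 4) (nat_lit 8) (nat_lit 4) (nat_lit 412) (nat_lit 321) (nat_lit 167)))) (XT.nd (nat_lit 78) (nat_lit 0) (nat_lit 0) (XT.lf (nat_lit 0) (nat_lit 12956032789) (nat_lit 76) (nat_lit 162510153283) (nat_lit 76) (nat_lit 101145496667) (nat_lit 7) (nat_lit 4) (nat_lit 8) (nat_lit 5) (nat_lit 8) (nat_lit 4) (nat_lit 413) (nat_lit 321) (nat_lit 166)) (XT.nd (nat_lit 78) (nat_lit 0) (nat_lit 0) (XT.lf (nat_lit 0) (nat_lit 62532593639) (nat_lit 76) (nat_lit 144001293137)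 (nat_lit 76) (nat_lit 82635117432) (nat_lit 7) (nat_lit 4) (nat_lit 8) (nat_lit 5) (nat_lit 8) (nat_lit 4) (nat_lit 414) (nat_lit 321) (nat_lit 165)) (XT.lf (nat_lit 0) (nat_lit 114585621358) (nat_lit 76) (nat_lit 124568127146) (nat_lit 76) (nat_lit 63200504688) (nat_lit 7) (nat_lit 4) (nat_lit 8) (nat_lit 5) (nat_lit 8) (nat_lit 4) (nat_lit 415) (nat_lit 321) (nat_lit 164)))))) (XT.nd (nat_lit 390) (nat_lit 0) (nat_lit 0) (XT.nd (nat_lit 156) (nat_lit 152) (nat_lit 0) (XT.nd (nat_lit 78) (nat_lit 0) (nat_lit 0) (XT.lf (nat_lit 0) (nat_lit 169239051727) (nat_lit 76) (nat_lit 104164385867) (nat_lit 76) (nat_lit 42795385551) (nat_lit 7) (nat_lit 4) (nat_lit 8) (nat_lit 5) (nat_lit 8) (nat_lit 4) (nat_lit 416) (nat_lit 321) (nat_lit 163)) (XT.lf (nat_lit 0) (nat_lit 226623011961) (nat_lit 76) (nat_lit 82741488964) (nat_lit 76) (nat_lit 21371176401) (nat_lit 7) (nat_lit 4) (nat_lit 8) (nat_lit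 5) (nat_lit 8) (nat_lit 4) (nat_lit 417) (nat_lit 321) (nat_lit 162))) (XT.nd (nat_lit 78) (nat_lit 76) (nat_lit 0) (XT.lf (nat_lit 0) (nat_lit 1087185517) (nat_lit 152) (nat_lit 59142832009) (nat_lit 76) (nat_lit 285768533006) (nat_lit 6) (nat_lit 5) (nat_lit 8) (nat_lit 5) (nat_lit 7) (nat_lit 4) (nat_lit 418) (nat_lit 321) (nat_lit 161)) (XT.nd (nat_lit 78) (nat_lit 76) (nat_lit 0) (XT.lf (nat_lit 0) (nat_lit 23949230169) (nat_lit 152) (nat_lit 12276830721) (nat_lit 76) (nat_lit 325781040529) (nat_lit 6) (nat_lit 5) (nat_lit 8) (nat_lit 5) (nat_lit 7) (nat_lit 4) (nat_lit 419) (nat_lit 321) (nat_lit 160)) (XT.lf (nat_lit 0) (nat_lit 38151680201) (nat_lit 76) (nat_lit 10397376548) (nat_lit 152) (nat_lit 330237289296) (nat_lit 5) (nat_lit 5) (nat_lit 6) (nat_lit 5) (nat_lit 7) (nat_lit 4) (nat_lit 420) (nat_lit 321) (nat_lit 159))))) (XT.nd (nat_lit 234) (nat_lit 0) (nat_lit 0) (XT.nd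 (nat_lit 78) (nat_lit 0) (nat_lit 0) (XT.lf (nat_lit 0) (nat_lit 74850314614) (nat_lit 152) (nat_lit 305132700159) (nat_lit 0) (nat_lit 16397966305) (nat_lit 5) (nat_lit 5) (nat_lit 7) (nat_lit 4) (nat_lit 5) (nat_lit 4) (nat_lit 421) (nat_lit 321) (nat_lit 158)) (XT.nd (nat_lit 78) (nat_lit 0) (nat_lit 0) (XT.lf (nat_lit 0) (nat_lit 102636159016) (nat_lit 152) (nat_lit 268027881341) (nat_lit 0) (nat_lit 44182831489) (nat_lit 5) (nat_lit 5) (nat_lit 7) (nat_lit 4) (nat_lit 5) (nat_lit 4) (nat_lit 422) (nat_lit 321) (nat_lit 157)) (XT.lf (nat_lit 0) (nat_lit 131810414541) (nat_lit 152) (nat_lit 229069532397) (nat_lit 0) (nat_lit 73356154425) (nat_lit 5) (nat_lit 5) (nat_lit 7) (nat_lit 4) (nat_lit 5) (nat_lit 4) (nat_lit 423) (nat_lit 321) (nat_lit 156)))) (XT.nd (nat_lit 78) (nat_lit 0) (nat_lit 0) (XT.lf (nat_lit 0) (nat_lit 162442543703) (nat_lit 152) (nat_lit 188164895355) (nat_lit 0)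 (nat_lit 103987395406) (nat_lit 5) (nat_lit 5) (nat_lit 7) (nat_lit 4) (nat_lit 5) (nat_lit 4) (nat_lit 424) (nat_lit 321) (nat_lit 155)) (XT.nd (nat_lit 78) (nat_lit 0) (nat_lit 0) (XT.lf (nat_lit 0) (nat_lit 194605480142) (nat_lit 152) (nat_lit 145216578220) (nat_lit 0) (nat_lit 136149485959) (nat_lit 5) (nat_lit 5) (nat_lit 7) (nat_lit 4) (nat_lit 5) (nat_lit 4) (nat_lit 425) (nat_lit 321) (nat_lit 154)) (XT.lf (nat_lit 0) (nat_lit 228375802279) (nat_lit 152) (nat_lit 100122323095) (nat_lit 0) (nat_lit 169919002490) (nat_lit 5) (nat_lit 5) (nat_lit 7) (nat_lit 4) (nat_lit 5) (nat_lit 4) (nat_lit 426) (nat_lit 321) (nat_lit 153))))))) (XT.nd (nat_lit 39312) (nat_lit 0) (nat_lit 5472) (XT.nd (nat_lit 38844) (nat_lit 0) (nat_lit 7828) (XT.nd (nat_lit 156) (nat_lit 76) (nat_lit 0) (XT.nd (nat_lit 78) (nat_lit 0) (nat_lit 0) (XT.lf (nat_lit 0) (nat_lit 263833915641) (nat_lit 152) (nat_lit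 52774762705) (nat_lit 0) (nat_lit 205376348609) (nat_lit 5) (nat_lit 5) (nat_lit 7) (nat_lit 4) (nat_lit 5) (nat_lit 4) (nat_lit 427) (nat_lit 321) (nat_lit 152)) (XT.lf (nat_lit 0) (nat_lit 301064244310) (nat_lit 152) (nat_lit 3061164765) (nat_lit 0) (nat_lit 242605946570) (nat_lit 5) (nat_lit 5) (nat_lit 7) (nat_lit 4) (nat_lit 5) (nat_lit 4) (nat_lit 428) (nat_lit 321) (nat_lit 151))) (XT.nd (nat_lit 38532) (nat_lit 0) (nat_lit 7828) (XT.lf (nat_lit 0) (nat_lit 50761522155) (nat_lit 76) (nat_lit 290186439387) (nat_lit 76) (nat_lit 231727445735) (nat_lit 4) (nat_lit 4) (nat_lit 5) (nat_lit 5) (nat_lit 5) (nat_lit 4) (nat_lit 429) (nat_lit 321) (nat_lit 150)) (XT.nd (nat_lit 78) (nat_lit 0) (nat_lit 0) (XT.lf (nat_lit 0) (nat_lit 1626827201) (nat_lit 0) (nat_lit 1626827201) (nat_lit 684) (nat_lit 2865541680) (nat_lit 107) (nat_lit 5) (nat_lit 107) (nat_lit 3) (nat_lit 116) (nat_lit 3)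 (nat_lit 322) (nat_lit 322) (nat_lit 256)) (XT.lf (nat_lit 0) (nat_lit 7139268419) (nat_lit 684) (nat_lit 3272844909) (nat_lit 760) (nat_lit 2108195057) (nat_lit 107) (nat_lit 5) (nat_lit 116) (nat_lit 3) (nat_lit 117) (nat_lit 5) (nat_lit 323) (nat_lit 322) (nat_lit 255))))) (XT.nd (nat_lit 234) (nat_lit 0) (nat_lit 76) (XT.nd (nat_lit 78) (nat_lit 0) (nat_lit 76) (XT.lf (nat_lit 76) (nat_lit 2743534999) (nat_lit 0) (nat_lit 5127818431) (nat_lit 760) (nat_lit 4941577723) (nat_lit 108) (nat_lit 5) (nat_lit 107) (nat_lit 5) (nat_lit 117) (nat_lit 5) (nat_lit 324) (nat_lit 322) (nat_lit 254)) (XT.nd (nat_lit 78) (nat_lit 0) (nat_lit 0) (XT.lf (nat_lit 0) (nat_lit 8676553900) (nat_lit 684) (nat_lit 3967398043) (nat_lit 760) (nat_lit 474442900) (nat_lit 108) (nat_lit 5) (nat_lit 117) (nat_lit 5) (nat_lit 118) (nat_lit 5) (nat_lit 325) (nat_lit 322) (nat_lit 253)) (XT.lf (nat_lit 76) (nat_lit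 2416930217) (nat_lit 0) (nat_lit 7201745812) (nat_lit 760) (nat_lit 3815656268) (nat_lit 109) (nat_lit 5) (nat_lit 108) (nat_lit 5) (nat_lit 118) (nat_lit 5) (nat_lit 326) (nat_lit 322) (nat_lit 252)))) (XT.nd (nat_lit 78) (nat_lit 0) (nat_lit 76) (XT.lf (nat_lit 76) (nat_lit 9242409070) (nat_lit 0) (nat_lit 1408499177) (nat_lit 760) (nat_lit 3113040233) (nat_lit 109) (nat_lit 5) (nat_lit 108) (nat_lit 5) (nat_lit 118) (nat_lit 5) (nat_lit 327) (nat_lit 322) (nat_lit 251)) (XT.nd (nat_lit 78) (nat_lit 0) (nat_lit 0) (XT.lf (nat_lit 76) (nat_lit 2282841786) (nat_lit 0) (nat_lit 9537622989) (nat_lit 760) (nat_lit 2285325595) (nat_lit 110) (nat_lit 5) (nat_lit 109) (nat_lit 5) (nat_lit 119) (nat_lit 5) (nat_lit 328) (nat_lit 322) (nat_lit 250)) (XT.lf (nat_lit 76) (nat_lit 9544470762) (nat_lit 0) (nat_lit 3581250692) (nat_lit 760) (nat_lit 1335170861) (nat_lit 110) (nat_lit 5) (nat_lit 109)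 (nat_lit 5) (nat_lit 119) (nat_lit 5) (nat_lit 329) (nat_lit 322) (nat_lit 249)))))) (XT.nd (nat_lit 468) (nat_lit 1140) (nat_lit 0) (XT.nd (nat_lit 234) (nat_lit 684) (nat_lit 0) (XT.nd (nat_lit 78) (nat_lit 760) (nat_lit 0) (XT.lf (nat_lit 76) (nat_lit 2352498031) (nat_lit 0) (nat_lit 12201274032) (nat_lit 760) (nat_lit 277128432) (nat_lit 111) (nat_lit 5) (nat_lit 110) (nat_lit 5) (nat_lit 120) (nat_lit 5) (nat_lit 330) (nat_lit 322) (nat_lit 248)) (XT.nd (nat_lit 78) (nat_lit 0) (nat_lit 76) (XT.lf (nat_lit 0) (nat_lit 929921481) (nat_lit 760) (nat_lit 5149722159) (nat_lit 836) (nat_lit 9133000017) (nat_lit 100) (nat_lit 5) (nat_lit 110) (nat_lit 5) (nat_lit 111) (nat_lit 5) (nat_lit 331) (nat_lit 322) (nat_lit 247)) (XT.lf (nat_lit 0) (nat_lit 2215396864) (nat_lit 760) (nat_lit 13010243433) (nat_lit 76) (nat_lit 386261134) (nat_lit 101) (nat_lit 5) (nat_lit 111) (nat_lit 5) (nat_lit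 102) (nat_lit 5) (nat_lit 332) (nat_lit 322) (nat_lit 246)))) (XT.nd (nat_lit 78) (nat_lit 760) (nat_lit 0) (XT.lf (nat_lit 0) (nat_lit 3734621008) (nat_lit 760) (nat_lit 5225345537) (nat_lit 76) (nat_lit 7062704581) (nat_lit 101) (nat_lit 5) (nat_lit 111) (nat_lit 5) (nat_lit 102) (nat_lit 5) (nat_lit 333) (nat_lit 322) (nat_lit 245)) (XT.nd (nat_lit 78) (nat_lit 0) (nat_lit 0) (XT.lf (nat_lit 0) (nat_lit 3029688124) (nat_lit 760) (nat_lit 2329482962) (nat_lit 836) (nat_lit 11093361680) (nat_lit 91) (nat_lit 5) (nat_lit 101) (nat_lit 5) (nat_lit 102) (nat_lit 5) (nat_lit 334) (nat_lit 322) (nat_lit 244)) (XT.lf (nat_lit 0) (nat_lit 7209913415) (nat_lit 836) (nat_lit 5111084054) (nat_lit 76) (nat_lit 4575662448) (nat_lit 91) (nat_lit 5) (nat_lit 102) (nat_lit 5) (nat_lit 92) (nat_lit 5) (nat_lit 335) (nat_lit 322) (nat_lit 243))))) (XT.nd (nat_lit 234) (nat_lit 456) (nat_lit 0) (XT.nd (nat_lit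 78) (nat_lit 304) (nat_lit 0) (XT.lf (nat_lit 0) (nat_lit 3679924003) (nat_lit 380) (nat_lit 5552428720) (nat_lit 456) (nat_lit 8126702388) (nat_lit 86) (nat_lit 5) (nat_lit 91) (nat_lit 5) (nat_lit 92) (nat_lit 5) (nat_lit 336) (nat_lit 322) (nat_lit 242)) (XT.nd (nat_lit 78) (nat_lit 304) (nat_lit 0) (XT.lf (nat_lit 0) (nat_lit 11452224823) (nat_lit 456) (nat_lit 4794500429) (nat_lit 76) (nat_lit 1593048016) (nat_lit 86) (nat_lit 5) (nat_lit 92) (nat_lit 5) (nat_lit 87) (nat_lit 5) (nat_lit 337) (nat_lit 322) (nat_lit 241)) (XT.lf (nat_lit 0) (nat_lit 4574025365) (nat_lit 304) (nat_lit 9356322870) (nat_lit 380) (nat_lit 4406834065) (nat_lit 82) (nat_lit 5) (nat_lit 86) (nat_lit 5) (nat_lit 87) (nat_lit 5) (nat_lit 338) (nat_lit 322) (nat_lit 240)))) (XT.nd (nat_lit 78) (nat_lit 456) (nat_lit 0) (XT.lf (nat_lit 0) (nat_lit 14561974698) (nat_lit 304) (nat_lit 2036902721) (nat_lit 380) (nat_lit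 2257276383) (nat_lit 82) (nat_lit 5) (nat_lit 86) (nat_lit 5) (nat_lit 87) (nat_lit 5) (nat_lit 339) (nat_lit 322) (nat_lit 239)) (XT.nd (nat_lit 78) (nat_lit 0) (nat_lit 0) (XT.lf (nat_lit 0) (nat_lit 166042648) (nat_lit 456) (nat_lit 13667623938) (nat_lit 76) (nat_lit 5559109115) (nat_lit 76) (nat_lit 5) (nat_lit 82) (nat_lit 5) (nat_lit 77) (nat_lit 5) (nat_lit 340) (nat_lit 322) (nat_lit 238)) (XT.lf (nat_lit 0) (nat_lit 2728160009) (nat_lit 456) (nat_lit 3645296127) (nat_lit 76) (nat_lit 13576262434) (nat_lit 76) (nat_lit 5) (nat_lit 82) (nat_lit 5) (nat_lit 77) (nat_lit 5) (nat_lit 341) (nat_lit 322) (nat_lit 237))))))))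
noncomputable def xc159 : XT := (XT.nd (nat_lit 1794) (nat_lit 1444) (nat_lit 0) (XT.nd (nat_lit 858) (nat_lit 1292) (nat_lit 0) (XT.nd (nat_lit 390) (nat_lit 836) (nat_lit 0) (XT.nd (nat_lit 156) (nat_lit 532) (nat_lit 0) (XT.nd (nat_lit 78) (nat_lit 0) (nat_lit 0) (XT.lf (nat_lit 0) (nat_lit 5540500770) (nat_lit 380) (nat_lit 13464049437) (nat_lit 76) (nat_lit 1523866485) (nat_lit 72) (nat_lit 5) (nat_lit 77) (nat_lit 5) (nat_lit 73) (nat_lit 5) (nat_lit 342) (nat_lit 322) (nat_lit 236)) (XT.lf (nat_lit 0) (nat_lit 8647897867) (nat_lit 380) (nat_lit 2817672214) (nat_lit 76) (nat_lit 9662770997) (nat_lit 72) (nat_lit 5) (nat_lit 77) (nat_lit 5) (nat_lit 73) (nat_lit 5) (nat_lit 343) (nat_lit 322) (nat_lit 235))) (XT.nd (nat_lit 78) (nat_lit 228) (nat_lit 0) (XT.lf (nat_lit 0) (nat_lit 8622439045) (nat_lit 304) (nat_lit 3410664792) (nat_lit 380) (nat_lit 9719048579) (nat_lit 68) (nat_lit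 5) (nat_lit 72) (nat_lit 5) (nat_lit 73) (nat_lit 5) (nat_lit 344) (nat_lit 322) (nat_lit 234)) (XT.nd (nat_lit 78) (nat_lit 228) (nat_lit 0) (XT.lf (nat_lit 0) (nat_lit 15703004673) (nat_lit 380) (nat_lit 1766855453) (nat_lit 76) (nat_lit 4931534551) (nat_lit 68) (nat_lit 5) (nat_lit 73) (nat_lit 5) (nat_lit 69) (nat_lit 5) (nat_lit 345) (nat_lit 322) (nat_lit 233)) (XT.lf (nat_lit 0) (nat_lit 10427810471) (nat_lit 228) (nat_lit 9336010969) (nat_lit 304) (nat_lit 3308918072) (nat_lit 65) (nat_lit 5) (nat_lit 68) (nat_lit 5) (nat_lit 69) (nat_lit 5) (nat_lit 346) (nat_lit 322) (nat_lit 232))))) (XT.nd (nat_lit 234) (nat_lit 228) (nat_lit 0) (XT.nd (nat_lit 78) (nat_lit 532) (nat_lit 0) (XT.lf (nat_lit 0) (nat_lit 261268790) (nat_lit 304) (nat_lit 501327191) (nat_lit 76) (nat_lit 23013908676) (nat_lit 64) (nat_lit 5) (nat_lit 68) (nat_lit 5) (nat_lit 65) (nat_lit 5) (nat_lit 347) (nat_lit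 322) (nat_lit 231)) (XT.nd (nat_lit 78) (nat_lit 228) (nat_lit 0) (XT.lf (nat_lit 0) (nat_lit 4217307789) (nat_lit 380) (nat_lit 12051827004) (nat_lit 76) (nat_lit 8227693769) (nat_lit 60) (nat_lit 5) (nat_lit 65) (nat_lit 5) (nat_lit 61) (nat_lit 5) (nat_lit 348) (nat_lit 322) (nat_lit 230)) (XT.lf (nat_lit 0) (nat_lit 802445657) (nat_lit 228) (nat_lit 7591973795) (nat_lit 304) (nat_lit 16857595144) (nat_lit 57) (nat_lit 5) (nat_lit 60) (nat_lit 5) (nat_lit 61) (nat_lit 5) (nat_lit 349) (nat_lit 322) (nat_lit 229)))) (XT.nd (nat_lit 78) (nat_lit 228) (nat_lit 0) (XT.lf (nat_lit 0) (nat_lit 13001389383) (nat_lit 304) (nat_lit 11358111844) (nat_lit 76) (nat_lit 1674417585) (nat_lit 57) (nat_lit 5) (nat_lit 61) (nat_lit 5) (nat_lit 58) (nat_lit 5) (nat_lit 350) (nat_lit 322) (nat_lit 228)) (XT.nd (nat_lit 78) (nat_lit 0) (nat_lit 0) (XT.lf (nat_lit 0) (nat_lit 2324389005) (nat_lit 228) (nat_lit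 15665388236) (nat_lit 304) (nat_lit 8857596113) (nat_lit 54) (nat_lit 5) (nat_lit 57) (nat_lit 5) (nat_lit 58) (nat_lit 5) (nat_lit 351) (nat_lit 322) (nat_lit 227)) (XT.lf (nat_lit 0) (nat_lit 17072094603) (nat_lit 228) (nat_lit 6338419707) (nat_lit 304) (nat_lit 4281848000) (nat_lit 54) (nat_lit 5) (nat_lit 57) (nat_lit 5) (nat_lit 58) (nat_lit 5) (nat_lit 352) (nat_lit 322) (nat_lit 226)))))) (XT.nd (nat_lit 468) (nat_lit 684) (nat_lit 0) (XT.nd (nat_lit 234) (nat_lit 152) (nat_lit 0) (XT.nd (nat_lit 78) (nat_lit 228) (nat_lit 0) (XT.lf (nat_lit 0) (nat_lit 615702843) (nat_lit 228) (nat_lit 24544210159) (nat_lit 76) (nat_lit 3413799869) (nat_lit 51) (nat_lit 5) (nat_lit 54) (nat_lit 5) (nat_lit 52) (nat_lit 5) (nat_lit 353) (nat_lit 322) (nat_lit 225)) (XT.nd (nat_lit 78) (nat_lit 228) (nat_lit 0) (XT.lf (nat_lit 0) (nat_lit 5891994850) (nat_lit 228) (nat_lit 9899826264) (nat_lit 76)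 (nat_lit 13689919109) (nat_lit 51) (nat_lit 5) (nat_lit 54) (nat_lit 5) (nat_lit 52) (nat_lit 5) (nat_lit 354) (nat_lit 322) (nat_lit 224)) (XT.lf (nat_lit 0) (nat_lit 5644964881) (nat_lit 228) (nat_lit 5866742092) (nat_lit 304) (nat_lit 18919488421) (nat_lit 48) (nat_lit 5) (nat_lit 51) (nat_lit 5) (nat_lit 52) (nat_lit 5) (nat_lit 355) (nat_lit 322) (nat_lit 223)))) (XT.nd (nat_lit 78) (nat_lit 152) (nat_lit 0) (XT.lf (nat_lit 0) (nat_lit 17645545585) (nat_lit 304) (nat_lit 9195548426) (nat_lit 76) (nat_lit 4575378677) (nat_lit 48) (nat_lit 5) (nat_lit 52) (nat_lit 5) (nat_lit 49) (nat_lit 5) (nat_lit 356) (nat_lit 322) (nat_lit 222)) (XT.nd (nat_lit 78) (nat_lit 0) (nat_lit 0) (XT.lf (nat_lit 0) (nat_lit 7300097722) (nat_lit 152) (nat_lit 16988152445) (nat_lit 228) (nat_lit 8152661079) (nat_lit 46) (nat_lit 5) (nat_lit 48) (nat_lit 5) (nat_lit 49) (nat_lit 5) (nat_lit 357) (nat_lit 322)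 (nat_lit 221)) (XT.lf (nat_lit 0) (nat_lit 24927926434) (nat_lit 152) (nat_lit 6483112438) (nat_lit 228) (nat_lit 2098141228) (nat_lit 46) (nat_lit 5) (nat_lit 48) (nat_lit 5) (nat_lit 49) (nat_lit 5) (nat_lit 358) (nat_lit 322) (nat_lit 220))))) (XT.nd (nat_lit 234) (nat_lit 228) (nat_lit 0) (XT.nd (nat_lit 78) (nat_lit 152) (nat_lit 0) (XT.lf (nat_lit 0) (nat_lit 4330356136) (nat_lit 304) (nat_lit 25678366347) (nat_lit 76) (nat_lit 4608441883) (nat_lit 42) (nat_lit 5) (nat_lit 46) (nat_lit 5) (nat_lit 43) (nat_lit 5) (nat_lit 359) (nat_lit 322) (nat_lit 219)) (XT.nd (nat_lit 78) (nat_lit 152) (nat_lit 0) (XT.lf (nat_lit 0) (nat_lit 11256338591) (nat_lit 304) (nat_lit 8295229232) (nat_lit 76) (nat_lit 16214936679) (nat_lit 42) (nat_lit 5) (nat_lit 46) (nat_lit 5) (nat_lit 43) (nat_lit 5) (nat_lit 360) (nat_lit 322) (nat_lit 218)) (XT.lf (nat_lit 0) (nat_lit 10274815282) (nat_lit 152) (nat_lit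 8407157730) (nat_lit 228) (nat_lit 18283675771) (nat_lit 40) (nat_lit 5) (nat_lit 42) (nat_lit 5) (nat_lit 43) (nat_lit 5) (nat_lit 361) (nat_lit 322) (nat_lit 217)))) (XT.nd (nat_lit 78) (nat_lit 228) (nat_lit 0) (XT.lf (nat_lit 0) (nat_lit 26666148970) (nat_lit 228) (nat_lit 8221326621) (nat_lit 76) (nat_lit 3327916252) (nat_lit 40) (nat_lit 5) (nat_lit 43) (nat_lit 5) (nat_lit 41) (nat_lit 5) (nat_lit 362) (nat_lit 322) (nat_lit 216)) (XT.nd (nat_lit 78) (nat_lit 76) (nat_lit 0) (XT.lf (nat_lit 0) (nat_lit 11387627384) (nat_lit 152) (nat_lit 23970890066) (nat_lit 228) (nat_lit 4153659755) (nat_lit 38) (nat_lit 5) (nat_lit 40) (nat_lit 5) (nat_lit 41) (nat_lit 5) (nat_lit 363) (nat_lit 322) (nat_lit 215)) (XT.lf (nat_lit 0) (nat_lit 3631030296) (nat_lit 228) (nat_lit 8673787234) (nat_lit 76) (nat_lit 28559422558) (nat_lit 37) (nat_lit 5) (nat_lit 40) (nat_lit 5) (nat_lit 38) (nat_lit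 5) (nat_lit 364) (nat_lit 322) (nat_lit 214))))))) (XT.nd (nat_lit 858) (nat_lit 684) (nat_lit 0) (XT.nd (nat_lit 390) (nat_lit 304) (nat_lit 0) (XT.nd (nat_lit 156) (nat_lit 304) (nat_lit 0) (XT.nd (nat_lit 78) (nat_lit 0) (nat_lit 0) (XT.lf (nat_lit 0) (nat_lit 11850608892) (nat_lit 228) (nat_lit 30217578264) (nat_lit 76) (nat_lit 203055855) (nat_lit 35) (nat_lit 5) (nat_lit 38) (nat_lit 5) (nat_lit 36) (nat_lit 5) (nat_lit 365) (nat_lit 322) (nat_lit 213)) (XT.lf (nat_lit 0) (nat_lit 20825992269) (nat_lit 228) (nat_lit 9837058078) (nat_lit 76) (nat_lit 13068308007) (nat_lit 35) (nat_lit 5) (nat_lit 38) (nat_lit 5) (nat_lit 36) (nat_lit 5) (nat_lit 366) (nat_lit 322) (nat_lit 212))) (XT.nd (nat_lit 78) (nat_lit 152) (nat_lit 0) (XT.lf (nat_lit 0) (nat_lit 11934658441) (nat_lit 152) (nat_lit 18495919492) (nat_lit 228) (nat_lit 14824883275) (nat_lit 33) (nat_lit 5) (nat_lit 35) (nat_lit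 5) (nat_lit 36) (nat_lit 5) (nat_lit 367) (nat_lit 322) (nat_lit 211)) (XT.nd (nat_lit 78) (nat_lit 152) (nat_lit 0) (XT.lf (nat_lit 0) (nat_lit 35126826231) (nat_lit 152) (nat_lit 5549391867) (nat_lit 228) (nat_lit 6171513081) (nat_lit 33) (nat_lit 5) (nat_lit 35) (nat_lit 5) (nat_lit 36) (nat_lit 5) (nat_lit 368) (nat_lit 322) (nat_lit 210)) (XT.lf (nat_lit 0) (nat_lit 3120693250) (nat_lit 152) (nat_lit 37373354943) (nat_lit 76) (nat_lit 8008321662) (nat_lit 31) (nat_lit 5) (nat_lit 33) (nat_lit 5) (nat_lit 32) (nat_lit 5) (nat_lit 369) (nat_lit 322) (nat_lit 209))))) (XT.nd (nat_lit 234) (nat_lit 152) (nat_lit 0) (XT.nd (nat_lit 78) (nat_lit 152) (nat_lit 0) (XT.lf (nat_lit 0) (nat_lit 12957308286) (nat_lit 152) (nat_lit 14906310399) (nat_lit 76) (nat_lit 22356705875) (nat_lit 31) (nat_lit 5) (nat_lit 33) (nat_lit 5) (nat_lit 32) (nat_lit 5) (nat_lit 370) (nat_lit 322) (nat_lit 208))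 (XT.nd (nat_lit 78) (nat_lit 0) (nat_lit 0) (XT.lf (nat_lit 0) (nat_lit 8961924941) (nat_lit 152) (nat_lit 14458487777) (nat_lit 228) (nat_lit 28597034012) (nat_lit 29) (nat_lit 5) (nat_lit 31) (nat_lit 5) (nat_lit 32) (nat_lit 5) (nat_lit 371) (nat_lit 322) (nat_lit 207)) (XT.lf (nat_lit 0) (nat_lit 34532231635) (nat_lit 152) (nat_lit 121736542) (nat_lit 228) (nat_lit 19238094576) (nat_lit 29) (nat_lit 5) (nat_lit 31) (nat_lit 5) (nat_lit 32) (nat_lit 5) (nat_lit 372) (nat_lit 322) (nat_lit 206)))) (XT.nd (nat_lit 78) (nat_lit 76) (nat_lit 0) (XT.lf (nat_lit 0) (nat_lit 5453435204) (nat_lit 76) (nat_lit 41309078047) (nat_lit 152) (nat_lit 9082233149) (nat_lit 28) (nat_lit 5) (nat_lit 29) (nat_lit 5) (nat_lit 30) (nat_lit 4) (nat_lit 373) (nat_lit 322) (nat_lit 205)) (XT.nd (nat_lit 78) (nat_lit 0) (nat_lit 0) (XT.lf (nat_lit 0) (nat_lit 1861106895) (nat_lit 152) (nat_lit 25739888498) (nat_lit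 76) (nat_lit 30276321461) (nat_lit 27) (nat_lit 5) (nat_lit 29) (nat_lit 5) (nat_lit 28) (nat_lit 5) (nat_lit 374) (nat_lit 322) (nat_lit 204)) (XT.lf (nat_lit 0) (nat_lit 13041688716) (nat_lit 152) (nat_lit 13022923) (nat_lit 76) (nat_lit 46949596956) (nat_lit 27) (nat_lit 5) (nat_lit 29) (nat_lit 5) (nat_lit 28) (nat_lit 5) (nat_lit 375) (nat_lit 322) (nat_lit 203)))))) (XT.nd (nat_lit 468) (nat_lit 228) (nat_lit 0) (XT.nd (nat_lit 234) (nat_lit 228) (nat_lit 0) (XT.nd (nat_lit 78) (nat_lit 76) (nat_lit 0) (XT.lf (nat_lit 0) (nat_lit 25253908735) (nat_lit 228) (nat_lit 34373007620) (nat_lit 76) (nat_lit 2587105100) (nat_lit 25) (nat_lit 5) (nat_lit 28) (nat_lit 5) (nat_lit 26) (nat_lit 4) (nat_lit 376) (nat_lit 322) (nat_lit 202)) (XT.nd (nat_lit 78) (nat_lit 76) (nat_lit 0) (XT.lf (nat_lit 0) (nat_lit 38286537562) (nat_lit 228) (nat_lit 7667909071) (nat_lit 76) (nat_lit 18569285327)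 (nat_lit 25) (nat_lit 5) (nat_lit 28) (nat_lit 5) (nat_lit 26) (nat_lit 4) (nat_lit 377) (nat_lit 322) (nat_lit 201)) (XT.lf (nat_lit 0) (nat_lit 21038287251) (nat_lit 76) (nat_lit 31256750513) (nat_lit 152) (nat_lit 14637680031) (nat_lit 24) (nat_lit 5) (nat_lit 25) (nat_lit 5) (nat_lit 26) (nat_lit 4) (nat_lit 378) (nat_lit 322) (nat_lit 200)))) (XT.nd (nat_lit 78) (nat_lit 228) (nat_lit 0) (XT.lf (nat_lit 0) (nat_lit 51438613335) (nat_lit 76) (nat_lit 15691068554) (nat_lit 152) (nat_lit 2326186802) (nat_lit 24) (nat_lit 5) (nat_lit 25) (nat_lit 5) (nat_lit 26) (nat_lit 4) (nat_lit 379) (nat_lit 322) (nat_lit 199)) (XT.nd (nat_lit 78) (nat_lit 0) (nat_lit 0) (XT.lf (nat_lit 0) (nat_lit 10452091507) (nat_lit 228) (nat_lit 60656469225) (nat_lit 76) (nat_lit 978817244) (nat_lit 21) (nat_lit 5) (nat_lit 24) (nat_lit 5) (nat_lit 22) (nat_lit 4) (nat_lit 380) (nat_lit 322) (nat_lit 198)) (XT.lf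 (nat_lit 0) (nat_lit 24354494304) (nat_lit 228) (nat_lit 32165781693) (nat_lit 76) (nat_lit 18300112215) (nat_lit 21) (nat_lit 5) (nat_lit 24) (nat_lit 5) (nat_lit 22) (nat_lit 4) (nat_lit 381) (nat_lit 322) (nat_lit 197))))) (XT.nd (nat_lit 234) (nat_lit 152) (nat_lit 0) (XT.nd (nat_lit 78) (nat_lit 76) (nat_lit 0) (XT.lf (nat_lit 0) (nat_lit 38948228656) (nat_lit 228) (nat_lit 2257424559) (nat_lit 76) (nat_lit 36484586586) (nat_lit 21) (nat_lit 5) (nat_lit 24) (nat_lit 5) (nat_lit 22) (nat_lit 4) (nat_lit 382) (nat_lit 322) (nat_lit 196)) (XT.nd (nat_lit 78) (nat_lit 0) (nat_lit 0) (XT.lf (nat_lit 0) (nat_lit 30103306353) (nat_lit 76) (nat_lit 24634732173) (nat_lit 152) (nat_lit 25942227348) (nat_lit 20) (nat_lit 5) (nat_lit 21) (nat_lit 5) (nat_lit 22) (nat_lit 4) (nat_lit 383) (nat_lit 322) (nat_lit 195)) (XT.lf (nat_lit 0) (nat_lit 64154014063) (nat_lit 76) (nat_lit 7198018616) (nat_lit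 152) (nat_lit 12466027162) (nat_lit 20) (nat_lit 5) (nat_lit 21) (nat_lit 5) (nat_lit 22) (nat_lit 4) (nat_lit 384) (nat_lit 322) (nat_lit 194)))) (XT.nd (nat_lit 78) (nat_lit 0) (nat_lit 0) (XT.lf (nat_lit 0) (nat_lit 2009726671) (nat_lit 152) (nat_lit 74094587201) (nat_lit 76) (nat_lit 10988134131) (nat_lit 18) (nat_lit 5) (nat_lit 20) (nat_lit 5) (nat_lit 19) (nat_lit 4) (nat_lit 385) (nat_lit 322) (nat_lit 193)) (XT.nd (nat_lit 78) (nat_lit 0) (nat_lit 0) (XT.lf (nat_lit 0) (nat_lit 17243406738) (nat_lit 152) (nat_lit 42872436753) (nat_lit 76) (nat_lit 30381841195) (nat_lit 18) (nat_lit 5) (nat_lit 20) (nat_lit 5) (nat_lit 19) (nat_lit 4) (nat_lit 386) (nat_lit 322) (nat_lit 192)) (XT.lf (nat_lit 0) (nat_lit 33235531775) (nat_lit 152) (nat_lit 10095145844) (nat_lit 76) (nat_lit 50742668587) (nat_lit 18) (nat_lit 5) (nat_lit 20) (nat_lit 5) (nat_lit 19) (nat_lit 4) (nat_lit 387) (nat_lit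 322) (nat_lit 191))))))))
noncomputable def xc160 : XT := (XT.nd (nat_lit 1716) (nat_lit 228) (nat_lit 0) (XT.nd (nat_lit 858) (nat_lit 380) (nat_lit 0) (XT.nd (nat_lit 390) (nat_lit 152) (nat_lit 0) (XT.nd (nat_lit 156) (nat_lit 152) (nat_lit 0) (XT.nd (nat_lit 78) (nat_lit 0) (nat_lit 0) (XT.lf (nat_lit 0) (nat_lit 25119301205) (nat_lit 76) (nat_lit 25297059754) (nat_lit 152) (nat_lit 47391975953) (nat_lit 17) (nat_lit 5) (nat_lit 18) (nat_lit 5) (nat_lit 19) (nat_lit 4) (nat_lit 388) (nat_lit 322) (nat_lit 190)) (XT.lf (nat_lit 0) (nat_lit 62439360020) (nat_lit 76) (nat_lit 6184812570) (nat_lit 152) (nat_lit 33097508471) (nat_lit 17) (nat_lit 5) (nat_lit 18) (nat_lit 5) (nat_lit 19) (nat_lit 4) (nat_lit 389) (nat_lit 322) (nat_lit 189))) (XT.nd (nat_lit 78) (nat_lit 152) (nat_lit 0) (XT.lf (nat_lit 0) (nat_lit 87956208780) (nat_lit 152) (nat_lit 4427455727) (nat_lit 0) (nat_lit 13436337119)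 (nat_lit 17) (nat_lit 5) (nat_lit 19) (nat_lit 4) (nat_lit 17) (nat_lit 4) (nat_lit 390) (nat_lit 322) (nat_lit 188)) (XT.nd (nat_lit 78) (nat_lit 76) (nat_lit 0) (XT.lf (nat_lit 0) (nat_lit 33123756389) (nat_lit 76) (nat_lit 75746855149) (nat_lit 76) (nat_lit 1221839312) (nat_lit 16) (nat_lit 4) (nat_lit 17) (nat_lit 5) (nat_lit 17) (nat_lit 4) (nat_lit 391) (nat_lit 322) (nat_lit 187)) (XT.lf (nat_lit 0) (nat_lit 15805477066) (nat_lit 152) (nat_lit 42128687066) (nat_lit 76) (nat_lit 56628000187) (nat_lit 15) (nat_lit 5) (nat_lit 17) (nat_lit 5) (nat_lit 16) (nat_lit 4) (nat_lit 392) (nat_lit 322) (nat_lit 186))))) (XT.nd (nat_lit 234) (nat_lit 76) (nat_lit 0) (XT.nd (nat_lit 78) (nat_lit 76) (nat_lit 0) (XT.lf (nat_lit 0) (nat_lit 33640456633) (nat_lit 152) (nat_lit 5571644873) (nat_lit 76) (nat_lit 80042393238) (nat_lit 15) (nat_lit 5) (nat_lit 17) (nat_lit 5) (nat_lit 16) (nat_lit 4)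 (nat_lit 393) (nat_lit 322) (nat_lit 185)) (XT.nd (nat_lit 78) (nat_lit 0) (nat_lit 0) (XT.lf (nat_lit 0) (nat_lit 33893347828) (nat_lit 76) (nat_lit 19000492432) (nat_lit 152) (nat_lit 71261269390) (nat_lit 14) (nat_lit 5) (nat_lit 15) (nat_lit 5) (nat_lit 16) (nat_lit 4) (nat_lit 394) (nat_lit 322) (nat_lit 184)) (XT.lf (nat_lit 0) (nat_lit 73237984169) (nat_lit 152) (nat_lit 53811961024) (nat_lit 0) (nat_lit 2244406233) (nat_lit 14) (nat_lit 5) (nat_lit 16) (nat_lit 4) (nat_lit 14) (nat_lit 4) (nat_lit 395) (nat_lit 322) (nat_lit 183)))) (XT.nd (nat_lit 78) (nat_lit 76) (nat_lit 0) (XT.lf (nat_lit 0) (nat_lit 94908436678) (nat_lit 152) (nat_lit 15855644108) (nat_lit 0) (nat_lit 23911020079) (nat_lit 14) (nat_lit 5) (nat_lit 16) (nat_lit 4) (nat_lit 14) (nat_lit 4) (nat_lit 396) (nat_lit 322) (nat_lit 182)) (XT.nd (nat_lit 78) (nat_lit 0) (nat_lit 0) (XT.lf (nat_lit 0) (nat_lit 24787569054)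 (nat_lit 76) (nat_lit 93259577535) (nat_lit 76) (nat_lit 22258505066) (nat_lit 13) (nat_lit 4) (nat_lit 14) (nat_lit 5) (nat_lit 14) (nat_lit 4) (nat_lit 397) (nat_lit 322) (nat_lit 181)) (XT.lf (nat_lit 0) (nat_lit 68009207402) (nat_lit 76) (nat_lit 74599881292) (nat_lit 76) (nat_lit 3595327041) (nat_lit 13) (nat_lit 4) (nat_lit 14) (nat_lit 5) (nat_lit 14) (nat_lit 4) (nat_lit 398) (nat_lit 322) (nat_lit 180)))))) (XT.nd (nat_lit 390) (nat_lit 228) (nat_lit 0) (XT.nd (nat_lit 156) (nat_lit 0) (nat_lit 0) (XT.nd (nat_lit 78) (nat_lit 76) (nat_lit 0) (XT.lf (nat_lit 0) (nat_lit 15486722047) (nat_lit 152) (nat_lit 39260090034) (nat_lit 76) (nat_lit 97638923220) (nat_lit 12) (nat_lit 5) (nat_lit 14) (nat_lit 5) (nat_lit 13) (nat_lit 4) (nat_lit 399) (nat_lit 322) (nat_lit 179)) (XT.lf (nat_lit 0) (nat_lit 1610505802) (nat_lit 76) (nat_lit 33814632789) (nat_lit 152) (nat_lit 123446881195)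 (nat_lit 11) (nat_lit 5) (nat_lit 12) (nat_lit 5) (nat_lit 13) (nat_lit 4) (nat_lit 400) (nat_lit 322) (nat_lit 178))) (XT.nd (nat_lit 78) (nat_lit 0) (nat_lit 0) (XT.lf (nat_lit 0) (nat_lit 45883830930) (nat_lit 76) (nat_lit 11139518793) (nat_lit 152) (nat_lit 108626125565) (nat_lit 11) (nat_lit 5) (nat_lit 12) (nat_lit 5) (nat_lit 13) (nat_lit 4) (nat_lit 401) (nat_lit 322) (nat_lit 177)) (XT.nd (nat_lit 78) (nat_lit 0) (nat_lit 0) (XT.lf (nat_lit 0) (nat_lit 79897329698) (nat_lit 152) (nat_lit 80596495022) (nat_lit 0) (nat_lit 12262186390) (nat_lit 11) (nat_lit 5) (nat_lit 13) (nat_lit 4) (nat_lit 11) (nat_lit 4) (nat_lit 402) (nat_lit 322) (nat_lit 176)) (XT.lf (nat_lit 0) (nat_lit 104095770603) (nat_lit 152) (nat_lit 39655036328) (nat_lit 0) (nat_lit 36458029136) (nat_lit 11) (nat_lit 5) (nat_lit 13) (nat_lit 4) (nat_lit 11) (nat_lit 4) (nat_lit 403) (nat_lit 322) (nat_lit 175)))))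 (XT.nd (nat_lit 234) (nat_lit 152) (nat_lit 0) (XT.nd (nat_lit 78) (nat_lit 0) (nat_lit 0) (XT.lf (nat_lit 0) (nat_lit 3440239649) (nat_lit 76) (nat_lit 126115840798) (nat_lit 76) (nat_lit 58475624895) (nat_lit 10) (nat_lit 4) (nat_lit 11) (nat_lit 5) (nat_lit 11) (nat_lit 4) (nat_lit 404) (nat_lit 322) (nat_lit 174)) (XT.nd (nat_lit 78) (nat_lit 0) (nat_lit 0) (XT.lf (nat_lit 0) (nat_lit 50063702208) (nat_lit 76) (nat_lit 106895548272) (nat_lit 76) (nat_lit 39252975762) (nat_lit 10) (nat_lit 4) (nat_lit 11) (nat_lit 5) (nat_lit 11) (nat_lit 4) (nat_lit 405) (nat_lit 322) (nat_lit 173)) (XT.lf (nat_lit 0) (nat_lit 99015185006) (nat_lit 76) (nat_lit 86715743980) (nat_lit 76) (nat_lit 19070927083) (nat_lit 10) (nat_lit 4) (nat_lit 11) (nat_lit 5) (nat_lit 11) (nat_lit 4) (nat_lit 406) (nat_lit 322) (nat_lit 172)))) (XT.nd (nat_lit 78) (nat_lit 76) (nat_lit 0) (XT.lf (nat_lit 0) (nat_lit 2050766052)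 (nat_lit 152) (nat_lit 63442884001) (nat_lit 76) (nat_lit 148325742423) (nat_lit 9) (nat_lit 5) (nat_lit 11) (nat_lit 5) (nat_lit 10) (nat_lit 4) (nat_lit 407) (nat_lit 322) (nat_lit 171)) (XT.nd (nat_lit 78) (nat_lit 76) (nat_lit 0) (XT.lf (nat_lit 0) (nat_lit 23586114147) (nat_lit 152) (nat_lit 19297456132) (nat_lit 76) (nat_lit 180388679919) (nat_lit 9) (nat_lit 5) (nat_lit 11) (nat_lit 5) (nat_lit 10) (nat_lit 4) (nat_lit 408) (nat_lit 322) (nat_lit 170)) (XT.lf (nat_lit 0) (nat_lit 27946948196) (nat_lit 76) (nat_lit 18686162592) (nat_lit 152) (nat_lit 186542896271) (nat_lit 8) (nat_lit 5) (nat_lit 9) (nat_lit 5) (nat_lit 10) (nat_lit 4) (nat_lit 409) (nat_lit 322) (nat_lit 169))))))) (XT.nd (nat_lit 858) (nat_lit 76) (nat_lit 0) (XT.nd (nat_lit 390) (nat_lit 76) (nat_lit 0) (XT.nd (nat_lit 156) (nat_lit 76) (nat_lit 0) (XT.nd (nat_lit 78) (nat_lit 0) (nat_lit 0) (XT.lf (nat_lit 0)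 (nat_lit 71268119054) (nat_lit 152) (nat_lit 165448145512) (nat_lit 0) (nat_lit 6836904403) (nat_lit 8) (nat_lit 5) (nat_lit 10) (nat_lit 4) (nat_lit 8) (nat_lit 4) (nat_lit 410) (nat_lit 322) (nat_lit 168)) (XT.lf (nat_lit 0) (nat_lit 97439833997) (nat_lit 152) (nat_lit 123987162897) (nat_lit 0) (nat_lit 33006944551) (nat_lit 8) (nat_lit 5) (nat_lit 10) (nat_lit 4) (nat_lit 8) (nat_lit 4) (nat_lit 411) (nat_lit 322) (nat_lit 167))) (XT.nd (nat_lit 78) (nat_lit 76) (nat_lit 0) (XT.lf (nat_lit 0) (nat_lit 124918825860) (nat_lit 152) (nat_lit 80455651025) (nat_lit 0) (nat_lit 60484341370) (nat_lit 8) (nat_lit 5) (nat_lit 10) (nat_lit 4) (nat_lit 8) (nat_lit 4) (nat_lit 412) (nat_lit 322) (nat_lit 166)) (XT.nd (nat_lit 78) (nat_lit 76) (nat_lit 0) (XT.lf (nat_lit 0) (nat_lit 153770520813) (nat_lit 152) (nat_lit 34749963440) (nat_lit 0) (nat_lit 89334517233) (nat_lit 8) (nat_lit 5) (nat_lit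 10) (nat_lit 4) (nat_lit 8) (nat_lit 4) (nat_lit 413) (nat_lit 322) (nat_lit 165)) (XT.lf (nat_lit 0) (nat_lit 13676454890) (nat_lit 76) (nat_lit 170600686266) (nat_lit 76) (nat_lit 106163235934) (nat_lit 7) (nat_lit 4) (nat_lit 8) (nat_lit 5) (nat_lit 8) (nat_lit 4) (nat_lit 414) (nat_lit 322) (nat_lit 164))))) (XT.nd (nat_lit 234) (nat_lit 76) (nat_lit 0) (XT.nd (nat_lit 78) (nat_lit 0) (nat_lit 0) (XT.lf (nat_lit 0) (nat_lit 65728385665) (nat_lit 76) (nat_lit 151168048573) (nat_lit 76) (nat_lit 86729220382) (nat_lit 7) (nat_lit 4) (nat_lit 8) (nat_lit 5) (nat_lit 8) (nat_lit 4) (nat_lit 415) (nat_lit 322) (nat_lit 163)) (XT.nd (nat_lit 78) (nat_lit 0) (nat_lit 0) (XT.lf (nat_lit 0) (nat_lit 120380771325) (nat_lit 76) (nat_lit 130764810436) (nat_lit 76) (nat_lit 66324669998) (nat_lit 7) (nat_lit 4) (nat_lit 8) (nat_lit 5) (nat_lit 8) (nat_lit 4) (nat_lit 416) (nat_lit 322) (nat_lit 162))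 (XT.lf (nat_lit 0) (nat_lit 177763736598) (nat_lit 76) (nat_lit 109342392715) (nat_lit 76) (nat_lit 44901002519) (nat_lit 7) (nat_lit 4) (nat_lit 8) (nat_lit 5) (nat_lit 8) (nat_lit 4) (nat_lit 417) (nat_lit 322) (nat_lit 161)))) (XT.nd (nat_lit 78) (nat_lit 76) (nat_lit 0) (XT.lf (nat_lit 0) (nat_lit 238013907593) (nat_lit 76) (nat_lit 86849789655) (nat_lit 76) (nat_lit 22407209213) (nat_lit 7) (nat_lit 4) (nat_lit 8) (nat_lit 5) (nat_lit 8) (nat_lit 4) (nat_lit 418) (nat_lit 322) (nat_lit 160)) (XT.nd (nat_lit 78) (nat_lit 0) (nat_lit 0) (XT.lf (nat_lit 0) (nat_lit 1171530482) (nat_lit 152) (nat_lit 62042076521) (nat_lit 76) (nat_lit 300083366178) (nat_lit 6) (nat_lit 5) (nat_lit 8) (nat_lit 5) (nat_lit 7) (nat_lit 4) (nat_lit 419) (nat_lit 322) (nat_lit 159)) (XT.lf (nat_lit 0) (nat_lit 25175249476) (nat_lit 152) (nat_lit 12835532172) (nat_lit 76) (nat_lit 342095241623) (nat_lit 6) (nat_lit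 5) (nat_lit 8) (nat_lit 5) (nat_lit 7) (nat_lit 4) (nat_lit 420) (nat_lit 322) (nat_lit 158)))))) (XT.nd (nat_lit 468) (nat_lit 0) (nat_lit 0) (XT.nd (nat_lit 234) (nat_lit 0) (nat_lit 0) (XT.nd (nat_lit 78) (nat_lit 0) (nat_lit 0) (XT.lf (nat_lit 0) (nat_lit 40113514939) (nat_lit 76) (nat_lit 10891039556) (nat_lit 152) (nat_lit 346719701531) (nat_lit 5) (nat_lit 5) (nat_lit 6) (nat_lit 5) (nat_lit 7) (nat_lit 4) (nat_lit 421) (nat_lit 322) (nat_lit 157)) (XT.nd (nat_lit 78) (nat_lit 0) (nat_lit 0) (XT.lf (nat_lit 0) (nat_lit 78619929446) (nat_lit 152) (nat_lit 320336717164) (nat_lit 0) (nat_lit 17242023734) (nat_lit 5) (nat_lit 5) (nat_lit 7) (nat_lit 4) (nat_lit 5) (nat_lit 4) (nat_lit 422) (nat_lit 322) (nat_lit 156)) (XT.lf (nat_lit 0) (nat_lit 107793775634) (nat_lit 152) (nat_lit 281379163025) (nat_lit 0) (nat_lit 46414981742) (nat_lit 5) (nat_lit 5) (nat_lit 7) (nat_lit 4) (nat_lit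 5) (nat_lit 4) (nat_lit 423) (nat_lit 322) (nat_lit 155)))) (XT.nd (nat_lit 78) (nat_lit 0) (nat_lit 0) (XT.lf (nat_lit 0) (nat_lit 138425514952) (nat_lit 152) (nat_lit 240475282938) (nat_lit 0) (nat_lit 77045875174) (nat_lit 5) (nat_lit 5) (nat_lit 7) (nat_lit 4) (nat_lit 5) (nat_lit 4) (nat_lit 424) (nat_lit 322) (nat_lit 154)) (XT.nd (nat_lit 78) (nat_lit 0) (nat_lit 0) (XT.lf (nat_lit 0) (nat_lit 170588080111) (nat_lit 152) (nat_lit 197527686714) (nat_lit 0) (nat_lit 109207634727) (nat_lit 5) (nat_lit 5) (nat_lit 7) (nat_lit 4) (nat_lit 5) (nat_lit 4) (nat_lit 425) (nat_lit 322) (nat_lit 153)) (XT.lf (nat_lit 0) (nat_lit 204358048647) (nat_lit 152) (nat_lit 152434118170) (nat_lit 0) (nat_lit 142976836020) (nat_lit 5) (nat_lit 5) (nat_lit 7) (nat_lit 4) (nat_lit 5) (nat_lit 4) (nat_lit 426) (nat_lit 322) (nat_lit 152))))) (XT.nd (nat_lit 38766) (nat_lit 0) (nat_lit 7752) (XT.nd (nat_lit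 78) (nat_lit 0) (nat_lit 0) (XT.lf (nat_lit 0) (nat_lit 239815825247) (nat_lit 152) (nat_lit 105087211668) (nat_lit 0) (nat_lit 178433881912) (nat_lit 5) (nat_lit 5) (nat_lit 7) (nat_lit 4) (nat_lit 5) (nat_lit 4) (nat_lit 427) (nat_lit 322) (nat_lit 151)) (XT.nd (nat_lit 78) (nat_lit 0) (nat_lit 0) (XT.lf (nat_lit 0) (nat_lit 277045833190) (nat_lit 152) (nat_lit 55374236477) (nat_lit 0) (nat_lit 215663193942) (nat_lit 5) (nat_lit 5) (nat_lit 7) (nat_lit 4) (nat_lit 5) (nat_lit 4) (nat_lit 428) (nat_lit 322) (nat_lit 150)) (XT.lf (nat_lit 0) (nat_lit 316136715350) (nat_lit 152) (nat_lit 3176828371) (nat_lit 0) (nat_lit 254753413329) (nat_lit 5) (nat_lit 5) (nat_lit 7) (nat_lit 4) (nat_lit 5) (nat_lit 4) (nat_lit 429) (nat_lit 322) (nat_lit 149)))) (XT.nd (nat_lit 78) (nat_lit 0) (nat_lit 0) (XT.lf (nat_lit 0) (nat_lit 1922407513) (nat_lit 0) (nat_lit 1922407513) (nat_lit 684) (nat_lit 2558346276)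 (nat_lit 107) (nat_lit 5) (nat_lit 107) (nat_lit 3) (nat_lit 116) (nat_lit 3) (nat_lit 323) (nat_lit 323) (nat_lit 254)) (XT.nd (nat_lit 78) (nat_lit 0) (nat_lit 0) (XT.lf (nat_lit 0) (nat_lit 8306009042) (nat_lit 684) (nat_lit 2980147331) (nat_lit 760) (nat_lit 1818591541) (nat_lit 107) (nat_lit 5) (nat_lit 116) (nat_lit 3) (nat_lit 117) (nat_lit 5) (nat_lit 324) (nat_lit 323) (nat_lit 253)) (XT.lf (nat_lit 76) (nat_lit 3329691252) (nat_lit 0) (nat_lit 5713456061) (nat_lit 760) (nat_lit 4370483821) (nat_lit 108) (nat_lit 5) (nat_lit 107) (nat_lit 5) (nat_lit 117) (nat_lit 5) (nat_lit 325) (nat_lit 323) (nat_lit 252))))))))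
noncomputable def xc161 : XT := (XT.nd (nat_lit 1716) (nat_lit 2584) (nat_lit 0) (XT.nd (nat_lit 858) (nat_lit 1976) (nat_lit 0) (XT.nd (nat_lit 390) (nat_lit 1292) (nat_lit 0) (XT.nd (nat_lit 156) (nat_lit 0) (nat_lit 0) (XT.nd (nat_lit 78) (nat_lit 0) (nat_lit 0) (XT.lf (nat_lit 0) (nat_lit 9846653736) (nat_lit 684) (nat_lit 3695228380) (nat_lit 760) (nat_lit 194632894) (nat_lit 108) (nat_lit 5) (nat_lit 117) (nat_lit 5) (nat_lit 118) (nat_lit 5) (nat_lit 326) (nat_lit 323) (nat_lit 251)) (XT.lf (nat_lit 76) (nat_lit 3000726945) (nat_lit 0) (nat_lit 7807322398) (nat_lit 760) (nat_lit 3261638575) (nat_lit 109) (nat_lit 5) (nat_lit 108) (nat_lit 5) (nat_lit 118) (nat_lit 5) (nat_lit 327) (nat_lit 323) (nat_lit 250))) (XT.nd (nat_lit 78) (nat_lit 0) (nat_lit 76) (XT.lf (nat_lit 76) (nat_lit 10145434493) (nat_lit 0) (nat_lit 1712723465) (nat_lit 760) (nat_lit 2559358429) (nat_lit 109) (nat_lit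 5) (nat_lit 108) (nat_lit 5) (nat_lit 118) (nat_lit 5) (nat_lit 328) (nat_lit 323) (nat_lit 249)) (XT.nd (nat_lit 78) (nat_lit 0) (nat_lit 0) (XT.lf (nat_lit 76) (nat_lit 2868439838) (nat_lit 0) (nat_lit 10189508007) (nat_lit 760) (nat_lit 1719957337) (nat_lit 110) (nat_lit 5) (nat_lit 109) (nat_lit 5) (nat_lit 119) (nat_lit 5) (nat_lit 329) (nat_lit 323) (nat_lit 248)) (XT.lf (nat_lit 76) (nat_lit 10470699979) (nat_lit 0) (nat_lit 3926983577) (nat_lit 760) (nat_lit 754658416) (nat_lit 110) (nat_lit 5) (nat_lit 109) (nat_lit 5) (nat_lit 119) (nat_lit 5) (nat_lit 330) (nat_lit 323) (nat_lit 247))))) (XT.nd (nat_lit 234) (nat_lit 684) (nat_lit 0) (XT.nd (nat_lit 78) (nat_lit 0) (nat_lit 0) (XT.lf (nat_lit 0) (nat_lit 320072080) (nat_lit 760) (nat_lit 12601738158) (nat_lit 836) (nat_lit 2620039512) (nat_lit 100) (nat_lit 5) (nat_lit 110) (nat_lit 5) (nat_lit 111) (nat_lit 5) (nat_lit 331)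 (nat_lit 323) (nat_lit 246)) (XT.nd (nat_lit 78) (nat_lit 0) (nat_lit 76) (XT.lf (nat_lit 0) (nat_lit 1549506700) (nat_lit 760) (nat_lit 4934787942) (nat_lit 836) (nat_lit 9459626032) (nat_lit 100) (nat_lit 5) (nat_lit 110) (nat_lit 5) (nat_lit 111) (nat_lit 5) (nat_lit 332) (nat_lit 323) (nat_lit 245)) (XT.lf (nat_lit 0) (nat_lit 2877844819) (nat_lit 760) (nat_lit 13166256906) (nat_lit 76) (nat_lit 320143530) (nat_lit 101) (nat_lit 5) (nat_lit 111) (nat_lit 5) (nat_lit 102) (nat_lit 5) (nat_lit 333) (nat_lit 323) (nat_lit 244)))) (XT.nd (nat_lit 78) (nat_lit 760) (nat_lit 0) (XT.lf (nat_lit 0) (nat_lit 4446759784) (nat_lit 760) (nat_lit 5015661671) (nat_lit 76) (nat_lit 7334477276) (nat_lit 101) (nat_lit 5) (nat_lit 111) (nat_lit 5) (nat_lit 102) (nat_lit 5) (nat_lit 334) (nat_lit 323) (nat_lit 243)) (XT.nd (nat_lit 78) (nat_lit 0) (nat_lit 0) (XT.lf (nat_lit 0) (nat_lit 3644527687) (nat_lit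 760) (nat_lit 2490224537) (nat_lit 836) (nat_lit 11114420753) (nat_lit 91) (nat_lit 5) (nat_lit 101) (nat_lit 5) (nat_lit 102) (nat_lit 5) (nat_lit 335) (nat_lit 323) (nat_lit 242)) (XT.lf (nat_lit 0) (nat_lit 8053200938) (nat_lit 836) (nat_lit 4899940426) (nat_lit 76) (nat_lit 4763635482) (nat_lit 91) (nat_lit 5) (nat_lit 102) (nat_lit 5) (nat_lit 92) (nat_lit 5) (nat_lit 336) (nat_lit 323) (nat_lit 241)))))) (XT.nd (nat_lit 390) (nat_lit 836) (nat_lit 0) (XT.nd (nat_lit 156) (nat_lit 760) (nat_lit 0) (XT.nd (nat_lit 78) (nat_lit 0) (nat_lit 0) (XT.lf (nat_lit 0) (nat_lit 4323090650) (nat_lit 380) (nat_lit 5837850411) (nat_lit 456) (nat_lit 8042169248) (nat_lit 86) (nat_lit 5) (nat_lit 91) (nat_lit 5) (nat_lit 92) (nat_lit 5) (nat_lit 337) (nat_lit 323) (nat_lit 240)) (XT.lf (nat_lit 0) (nat_lit 12469454081) (nat_lit 456) (nat_lit 4574044699) (nat_lit 76) (nat_lit 1665509372) (nat_lit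 86) (nat_lit 5) (nat_lit 92) (nat_lit 5) (nat_lit 87) (nat_lit 5) (nat_lit 338) (nat_lit 323) (nat_lit 239))) (XT.nd (nat_lit 78) (nat_lit 456) (nat_lit 0) (XT.lf (nat_lit 0) (nat_lit 5255485115) (nat_lit 304) (nat_lit 9801895091) (nat_lit 380) (nat_lit 4174637501) (nat_lit 82) (nat_lit 5) (nat_lit 86) (nat_lit 5) (nat_lit 87) (nat_lit 5) (nat_lit 339) (nat_lit 323) (nat_lit 238)) (XT.nd (nat_lit 78) (nat_lit 456) (nat_lit 0) (XT.lf (nat_lit 0) (nat_lit 15721271987) (nat_lit 304) (nat_lit 2117563169) (nat_lit 380) (nat_lit 1939151376) (nat_lit 82) (nat_lit 5) (nat_lit 86) (nat_lit 5) (nat_lit 87) (nat_lit 5) (nat_lit 340) (nat_lit 323) (nat_lit 237)) (XT.lf (nat_lit 0) (nat_lit 579047566) (nat_lit 456) (nat_lit 13892638683) (nat_lit 76) (nat_lit 5870062923) (nat_lit 76) (nat_lit 5) (nat_lit 82) (nat_lit 5) (nat_lit 77) (nat_lit 5) (nat_lit 341) (nat_lit 323) (nat_lit 236))))) (XT.nd (nat_lit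 234) (nat_lit 532) (nat_lit 0) (XT.nd (nat_lit 78) (nat_lit 304) (nat_lit 0) (XT.lf (nat_lit 0) (nat_lit 3249999234) (nat_lit 456) (nat_lit 3391021455) (nat_lit 76) (nat_lit 14286502558) (nat_lit 76) (nat_lit 5) (nat_lit 82) (nat_lit 5) (nat_lit 77) (nat_lit 5) (nat_lit 342) (nat_lit 323) (nat_lit 235)) (XT.nd (nat_lit 78) (nat_lit 0) (nat_lit 0) (XT.lf (nat_lit 0) (nat_lit 6192178716) (nat_lit 380) (nat_lit 13689543933) (nat_lit 76) (nat_lit 1653992053) (nat_lit 72) (nat_lit 5) (nat_lit 77) (nat_lit 5) (nat_lit 73) (nat_lit 5) (nat_lit 343) (nat_lit 323) (nat_lit 234)) (XT.lf (nat_lit 0) (nat_lit 9437105053) (nat_lit 380) (nat_lit 2532167275) (nat_lit 76) (nat_lit 10197273587) (nat_lit 72) (nat_lit 5) (nat_lit 77) (nat_lit 5) (nat_lit 73) (nat_lit 5) (nat_lit 344) (nat_lit 323) (nat_lit 233)))) (XT.nd (nat_lit 78) (nat_lit 228) (nat_lit 0) (XT.lf (nat_lit 0) (nat_lit 9473072312) (nat_lit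 304) (nat_lit 3508057696) (nat_lit 380) (nat_lit 9840957575) (nat_lit 68) (nat_lit 5) (nat_lit 72) (nat_lit 5) (nat_lit 73) (nat_lit 5) (nat_lit 345) (nat_lit 323) (nat_lit 232)) (XT.nd (nat_lit 78) (nat_lit 228) (nat_lit 0) (XT.lf (nat_lit 0) (nat_lit 16819119577) (nat_lit 380) (nat_lit 1439920279) (nat_lit 76) (nat_lit 5245539268) (nat_lit 68) (nat_lit 5) (nat_lit 73) (nat_lit 5) (nat_lit 69) (nat_lit 5) (nat_lit 346) (nat_lit 323) (nat_lit 231)) (XT.lf (nat_lit 0) (nat_lit 11357780909) (nat_lit 228) (nat_lit 9715815129) (nat_lit 304) (nat_lit 3136380271) (nat_lit 65) (nat_lit 5) (nat_lit 68) (nat_lit 5) (nat_lit 69) (nat_lit 5) (nat_lit 347) (nat_lit 323) (nat_lit 230))))))) (XT.nd (nat_lit 858) (nat_lit 1140) (nat_lit 0) (XT.nd (nat_lit 390) (nat_lit 608) (nat_lit 0) (XT.nd (nat_lit 156) (nat_lit 456) (nat_lit 0) (XT.nd (nat_lit 78) (nat_lit 304) (nat_lit 0) (XT.lf (nat_lit 0) (nat_lit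 585919006) (nat_lit 304) (nat_lit 126676197) (nat_lit 76) (nat_lit 24236864188) (nat_lit 64) (nat_lit 5) (nat_lit 68) (nat_lit 5) (nat_lit 65) (nat_lit 5) (nat_lit 348) (nat_lit 323) (nat_lit 229)) (XT.lf (nat_lit 0) (nat_lit 4732473641) (nat_lit 380) (nat_lit 12247137393) (nat_lit 76) (nat_lit 8726566640) (nat_lit 60) (nat_lit 5) (nat_lit 65) (nat_lit 5) (nat_lit 61) (nat_lit 5) (nat_lit 349) (nat_lit 323) (nat_lit 228))) (XT.nd (nat_lit 78) (nat_lit 228) (nat_lit 0) (XT.lf (nat_lit 0) (nat_lit 1243279855) (nat_lit 228) (nat_lit 7866926770) (nat_lit 304) (nat_lit 17389341301) (nat_lit 57) (nat_lit 5) (nat_lit 60) (nat_lit 5) (nat_lit 61) (nat_lit 5) (nat_lit 350) (nat_lit 323) (nat_lit 227)) (XT.nd (nat_lit 78) (nat_lit 228) (nat_lit 0) (XT.lf (nat_lit 0) (nat_lit 13934982674) (nat_lit 304) (nat_lit 11531593150) (nat_lit 76) (nat_lit 1854611224) (nat_lit 57) (nat_lit 5) (nat_lit 61) (nat_lit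 5) (nat_lit 58) (nat_lit 5) (nat_lit 351) (nat_lit 323) (nat_lit 226)) (XT.lf (nat_lit 0) (nat_lit 2828671060) (nat_lit 228) (nat_lit 16336676475) (nat_lit 304) (nat_lit 9010350878) (nat_lit 54) (nat_lit 5) (nat_lit 57) (nat_lit 5) (nat_lit 58) (nat_lit 5) (nat_lit 352) (nat_lit 323) (nat_lit 225))))) (XT.nd (nat_lit 234) (nat_lit 380) (nat_lit 0) (XT.nd (nat_lit 78) (nat_lit 228) (nat_lit 0) (XT.lf (nat_lit 0) (nat_lit 18295282766) (nat_lit 228) (nat_lit 6548691957) (nat_lit 304) (nat_lit 4219630837) (nat_lit 54) (nat_lit 5) (nat_lit 57) (nat_lit 5) (nat_lit 58) (nat_lit 5) (nat_lit 353) (nat_lit 323) (nat_lit 224)) (XT.nd (nat_lit 78) (nat_lit 0) (nat_lit 0) (XT.lf (nat_lit 0) (nat_lit 908782292) (nat_lit 228) (nat_lit 25387397789) (nat_lit 76) (nat_lit 3692896797) (nat_lit 51) (nat_lit 5) (nat_lit 54) (nat_lit 5) (nat_lit 52) (nat_lit 5) (nat_lit 354) (nat_lit 323) (nat_lit 223)) (XT.lf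 (nat_lit 0) (nat_lit 6436398694) (nat_lit 228) (nat_lit 10029081503) (nat_lit 76) (nat_lit 14477659764) (nat_lit 51) (nat_lit 5) (nat_lit 54) (nat_lit 5) (nat_lit 52) (nat_lit 5) (nat_lit 355) (nat_lit 323) (nat_lit 222)))) (XT.nd (nat_lit 78) (nat_lit 152) (nat_lit 0) (XT.lf (nat_lit 0) (nat_lit 6287050231) (nat_lit 228) (nat_lit 6043768825) (nat_lit 304) (nat_lit 19609572087) (nat_lit 48) (nat_lit 5) (nat_lit 51) (nat_lit 5) (nat_lit 52) (nat_lit 5) (nat_lit 356) (nat_lit 323) (nat_lit 221)) (XT.nd (nat_lit 78) (nat_lit 152) (nat_lit 0) (XT.lf (nat_lit 0) (nat_lit 18761482544) (nat_lit 304) (nat_lit 9302578043) (nat_lit 76) (nat_lit 4911374005) (nat_lit 48) (nat_lit 5) (nat_lit 52) (nat_lit 5) (nat_lit 49) (nat_lit 5) (nat_lit 357) (nat_lit 323) (nat_lit 220)) (XT.lf (nat_lit 0) (nat_lit 8012160933) (nat_lit 152) (nat_lit 17718453325) (nat_lit 228) (nat_lit 8320774737) (nat_lit 46) (nat_lit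 5) (nat_lit 48) (nat_lit 5) (nat_lit 49) (nat_lit 5) (nat_lit 358) (nat_lit 323) (nat_lit 219)))))) (XT.nd (nat_lit 468) (nat_lit 532) (nat_lit 0) (XT.nd (nat_lit 234) (nat_lit 304) (nat_lit 0) (XT.nd (nat_lit 78) (nat_lit 304) (nat_lit 0) (XT.lf (nat_lit 0) (nat_lit 26504854493) (nat_lit 152) (nat_lit 6693833068) (nat_lit 228) (nat_lit 1974934579) (nat_lit 46) (nat_lit 5) (nat_lit 48) (nat_lit 5) (nat_lit 49) (nat_lit 5) (nat_lit 359) (nat_lit 323) (nat_lit 218)) (XT.nd (nat_lit 78) (nat_lit 0) (nat_lit 0) (XT.lf (nat_lit 0) (nat_lit 4764190937) (nat_lit 304) (nat_lit 26620654749) (nat_lit 76) (nat_lit 4952163994) (nat_lit 42) (nat_lit 5) (nat_lit 46) (nat_lit 5) (nat_lit 43) (nat_lit 5) (nat_lit 360) (nat_lit 323) (nat_lit 217)) (XT.lf (nat_lit 0) (nat_lit 12026124087) (nat_lit 304) (nat_lit 8384628868) (nat_lit 76) (nat_lit 17133588291) (nat_lit 42) (nat_lit 5) (nat_lit 46) (nat_lit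 5) (nat_lit 43) (nat_lit 5) (nat_lit 361) (nat_lit 323) (nat_lit 216)))) (XT.nd (nat_lit 78) (nat_lit 152) (nat_lit 0) (XT.lf (nat_lit 0) (nat_lit 11108670100) (nat_lit 152) (nat_lit 8709512361) (nat_lit 228) (nat_lit 18985509839) (nat_lit 40) (nat_lit 5) (nat_lit 42) (nat_lit 5) (nat_lit 43) (nat_lit 5) (nat_lit 362) (nat_lit 323) (nat_lit 215)) (XT.nd (nat_lit 78) (nat_lit 152) (nat_lit 0) (XT.lf (nat_lit 0) (nat_lit 28193697522) (nat_lit 228) (nat_lit 8319525700) (nat_lit 76) (nat_lit 3603099126) (nat_lit 40) (nat_lit 5) (nat_lit 43) (nat_lit 5) (nat_lit 41) (nat_lit 5) (nat_lit 363) (nat_lit 323) (nat_lit 214)) (XT.lf (nat_lit 0) (nat_lit 12264829760) (nat_lit 152) (nat_lit 25051411039) (nat_lit 228) (nat_lit 4161934410) (nat_lit 38) (nat_lit 5) (nat_lit 40) (nat_lit 5) (nat_lit 41) (nat_lit 5) (nat_lit 364) (nat_lit 323) (nat_lit 213))))) (XT.nd (nat_lit 234) (nat_lit 304) (nat_lit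 0) (XT.nd (nat_lit 78) (nat_lit 152) (nat_lit 0) (XT.lf (nat_lit 0) (nat_lit 3996416116) (nat_lit 228) (nat_lit 8808125606) (nat_lit 76) (nat_lit 30093608921) (nat_lit 37) (nat_lit 5) (nat_lit 40) (nat_lit 5) (nat_lit 38) (nat_lit 5) (nat_lit 365) (nat_lit 323) (nat_lit 212)) (XT.nd (nat_lit 78) (nat_lit 0) (nat_lit 0) (XT.lf (nat_lit 0) (nat_lit 12624610992) (nat_lit 228) (nat_lit 31426639027) (nat_lit 76) (nat_lit 324377050) (nat_lit 35) (nat_lit 5) (nat_lit 38) (nat_lit 5) (nat_lit 36) (nat_lit 5) (nat_lit 366) (nat_lit 323) (nat_lit 211)) (XT.lf (nat_lit 0) (nat_lit 22040122031) (nat_lit 228) (nat_lit 10041465125) (nat_lit 76) (nat_lit 13827598077) (nat_lit 35) (nat_lit 5) (nat_lit 38) (nat_lit 5) (nat_lit 36) (nat_lit 5) (nat_lit 367) (nat_lit 323) (nat_lit 210)))) (XT.nd (nat_lit 78) (nat_lit 152) (nat_lit 0) (XT.lf (nat_lit 0) (nat_lit 12814200997) (nat_lit 152) (nat_lit 19306921424)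 (nat_lit 228) (nat_lit 15388566275) (nat_lit 33) (nat_lit 5) (nat_lit 35) (nat_lit 5) (nat_lit 36) (nat_lit 5) (nat_lit 368) (nat_lit 323) (nat_lit 209)) (XT.nd (nat_lit 78) (nat_lit 152) (nat_lit 0) (XT.lf (nat_lit 0) (nat_lit 37152510051) (nat_lit 152) (nat_lit 5718486182) (nat_lit 228) (nat_lit 6310982865) (nat_lit 33) (nat_lit 5) (nat_lit 35) (nat_lit 5) (nat_lit 36) (nat_lit 5) (nat_lit 369) (nat_lit 323) (nat_lit 208)) (XT.lf (nat_lit 0) (nat_lit 3438570141) (nat_lit 152) (nat_lit 38965248674) (nat_lit 76) (nat_lit 8515495536) (nat_lit 31) (nat_lit 5) (nat_lit 33) (nat_lit 5) (nat_lit 32) (nat_lit 5) (nat_lit 370) (nat_lit 323) (nat_lit 207))))))))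
noncomputable def xc162 : XT := (XT.nd (nat_lit 1716) (nat_lit 684) (nat_lit 0) (XT.nd (nat_lit 858) (nat_lit 380) (nat_lit 0) (XT.nd (nat_lit 390) (nat_lit 456) (nat_lit 0) (XT.nd (nat_lit 156) (nat_lit 152) (nat_lit 0) (XT.nd (nat_lit 78) (nat_lit 152) (nat_lit 0) (XT.lf (nat_lit 0) (nat_lit 13759309156) (nat_lit 152) (nat_lit 15388031618) (nat_lit 76) (nat_lit 23576215255) (nat_lit 31) (nat_lit 5) (nat_lit 33) (nat_lit 5) (nat_lit 32) (nat_lit 5) (nat_lit 371) (nat_lit 323) (nat_lit 206)) (XT.lf (nat_lit 0) (nat_lit 9669363968) (nat_lit 152) (nat_lit 15072914125) (nat_lit 228) (nat_lit 29868424463) (nat_lit 29) (nat_lit 5) (nat_lit 31) (nat_lit 5) (nat_lit 32) (nat_lit 5) (nat_lit 372) (nat_lit 323) (nat_lit 205))) (XT.nd (nat_lit 78) (nat_lit 152) (nat_lit 0) (XT.lf (nat_lit 0) (nat_lit 36505836341) (nat_lit 152) (nat_lit 24491902) (nat_lit 228) (nat_lit 20049083829) (nat_lit 29) (nat_lit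 5) (nat_lit 31) (nat_lit 5) (nat_lit 32) (nat_lit 5) (nat_lit 373) (nat_lit 323) (nat_lit 204)) (XT.nd (nat_lit 78) (nat_lit 76) (nat_lit 0) (XT.lf (nat_lit 0) (nat_lit 5974665877) (nat_lit 76) (nat_lit 43268210834) (nat_lit 152) (nat_lit 9386927752) (nat_lit 28) (nat_lit 5) (nat_lit 29) (nat_lit 5) (nat_lit 30) (nat_lit 4) (nat_lit 374) (nat_lit 323) (nat_lit 203)) (XT.lf (nat_lit 0) (nat_lit 2091909645) (nat_lit 152) (nat_lit 26785544493) (nat_lit 76) (nat_lit 31886780084) (nat_lit 27) (nat_lit 5) (nat_lit 29) (nat_lit 5) (nat_lit 28) (nat_lit 5) (nat_lit 375) (nat_lit 323) (nat_lit 202))))) (XT.nd (nat_lit 234) (nat_lit 304) (nat_lit 0) (XT.nd (nat_lit 78) (nat_lit 0) (nat_lit 0) (XT.lf (nat_lit 0) (nat_lit 223319678) (nat_lit 152) (nat_lit 13605128125) (nat_lit 228) (nat_lit 49169284296) (nat_lit 25) (nat_lit 5) (nat_lit 27) (nat_lit 5) (nat_lit 28) (nat_lit 5) (nat_lit 376) (nat_lit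 323) (nat_lit 201)) (XT.nd (nat_lit 78) (nat_lit 0) (nat_lit 0) (XT.lf (nat_lit 0) (nat_lit 26646600652) (nat_lit 228) (nat_lit 35860564929) (nat_lit 76) (nat_lit 2811001700) (nat_lit 25) (nat_lit 5) (nat_lit 28) (nat_lit 5) (nat_lit 26) (nat_lit 4) (nat_lit 377) (nat_lit 323) (nat_lit 200)) (XT.lf (nat_lit 0) (nat_lit 40324670611) (nat_lit 228) (nat_lit 7831215885) (nat_lit 76) (nat_lit 19587788969) (nat_lit 25) (nat_lit 5) (nat_lit 28) (nat_lit 5) (nat_lit 26) (nat_lit 4) (nat_lit 378) (nat_lit 323) (nat_lit 199)))) (XT.nd (nat_lit 78) (nat_lit 228) (nat_lit 0) (XT.lf (nat_lit 0) (nat_lit 22306740437) (nat_lit 76) (nat_lit 32724340632) (nat_lit 152) (nat_lit 15242157773) (nat_lit 24) (nat_lit 5) (nat_lit 25) (nat_lit 5) (nat_lit 26) (nat_lit 4) (nat_lit 379) (nat_lit 323) (nat_lit 198)) (XT.nd (nat_lit 78) (nat_lit 228) (nat_lit 0) (XT.lf (nat_lit 0) (nat_lit 54216771453) (nat_lit 76)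 (nat_lit 16384910166) (nat_lit 152) (nat_lit 2321156848) (nat_lit 24) (nat_lit 5) (nat_lit 25) (nat_lit 5) (nat_lit 26) (nat_lit 4) (nat_lit 380) (nat_lit 323) (nat_lit 197)) (XT.lf (nat_lit 0) (nat_lit 11091218170) (nat_lit 228) (nat_lit 63478159006) (nat_lit 76) (nat_lit 1116500168) (nat_lit 21) (nat_lit 5) (nat_lit 24) (nat_lit 5) (nat_lit 22) (nat_lit 4) (nat_lit 381) (nat_lit 323) (nat_lit 196)))))) (XT.nd (nat_lit 390) (nat_lit 152) (nat_lit 0) (XT.nd (nat_lit 156) (nat_lit 228) (nat_lit 0) (XT.nd (nat_lit 78) (nat_lit 0) (nat_lit 0) (XT.lf (nat_lit 0) (nat_lit 25683192436) (nat_lit 228) (nat_lit 33572991082) (nat_lit 76) (nat_lit 19299634075) (nat_lit 21) (nat_lit 5) (nat_lit 24) (nat_lit 5) (nat_lit 22) (nat_lit 4) (nat_lit 382) (nat_lit 323) (nat_lit 195)) (XT.lf (nat_lit 0) (nat_lit 41001329057) (nat_lit 228) (nat_lit 2178791315) (nat_lit 76) (nat_lit 38389307582) (nat_lit 21)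 (nat_lit 5) (nat_lit 24) (nat_lit 5) (nat_lit 22) (nat_lit 4) (nat_lit 383) (nat_lit 323) (nat_lit 194))) (XT.nd (nat_lit 78) (nat_lit 152) (nat_lit 0) (XT.lf (nat_lit 0) (nat_lit 31796887360) (nat_lit 76) (nat_lit 25781650949) (nat_lit 152) (nat_lit 27130523452) (nat_lit 20) (nat_lit 5) (nat_lit 21) (nat_lit 5) (nat_lit 22) (nat_lit 4) (nat_lit 384) (nat_lit 323) (nat_lit 193)) (XT.nd (nat_lit 78) (nat_lit 152) (nat_lit 0) (XT.lf (nat_lit 0) (nat_lit 67541158280) (nat_lit 76) (nat_lit 7477140660) (nat_lit 152) (nat_lit 12985694936) (nat_lit 20) (nat_lit 5) (nat_lit 21) (nat_lit 5) (nat_lit 22) (nat_lit 4) (nat_lit 385) (nat_lit 323) (nat_lit 192)) (XT.lf (nat_lit 0) (nat_lit 2209833007) (nat_lit 152) (nat_lit 77615793035) (nat_lit 76) (nat_lit 11616430957) (nat_lit 18) (nat_lit 5) (nat_lit 20) (nat_lit 5) (nat_lit 19) (nat_lit 4) (nat_lit 386) (nat_lit 323) (nat_lit 191))))) (XT.nd (nat_lit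 234) (nat_lit 76) (nat_lit 0) (XT.nd (nat_lit 78) (nat_lit 76) (nat_lit 0) (XT.lf (nat_lit 0) (nat_lit 18200453267) (nat_lit 152) (nat_lit 44841274280) (nat_lit 76) (nat_lit 31976066701) (nat_lit 18) (nat_lit 5) (nat_lit 20) (nat_lit 5) (nat_lit 19) (nat_lit 4) (nat_lit 387) (nat_lit 323) (nat_lit 190)) (XT.nd (nat_lit 78) (nat_lit 76) (nat_lit 0) (XT.lf (nat_lit 0) (nat_lit 34987666643) (nat_lit 152) (nat_lit 10433441888) (nat_lit 76) (nat_lit 53351357680) (nat_lit 18) (nat_lit 5) (nat_lit 20) (nat_lit 5) (nat_lit 19) (nat_lit 4) (nat_lit 388) (nat_lit 323) (nat_lit 189)) (XT.lf (nat_lit 0) (nat_lit 26539042655) (nat_lit 76) (nat_lit 26486748864) (nat_lit 152) (nat_lit 49668503621) (nat_lit 17) (nat_lit 5) (nat_lit 18) (nat_lit 5) (nat_lit 19) (nat_lit 4) (nat_lit 389) (nat_lit 323) (nat_lit 188)))) (XT.nd (nat_lit 78) (nat_lit 76) (nat_lit 0) (XT.lf (nat_lit 0) (nat_lit 65717305535) (nat_lit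 76) (nat_lit 6422468553) (nat_lit 152) (nat_lit 34663744722) (nat_lit 17) (nat_lit 5) (nat_lit 18) (nat_lit 5) (nat_lit 19) (nat_lit 4) (nat_lit 390) (nat_lit 323) (nat_lit 187)) (XT.nd (nat_lit 78) (nat_lit 76) (nat_lit 0) (XT.lf (nat_lit 0) (nat_lit 92435457796) (nat_lit 152) (nat_lit 4497298818) (nat_lit 0) (nat_lit 14174147774) (nat_lit 17) (nat_lit 5) (nat_lit 19) (nat_lit 4) (nat_lit 17) (nat_lit 4) (nat_lit 391) (nat_lit 323) (nat_lit 186)) (XT.lf (nat_lit 0) (nat_lit 34929029876) (nat_lit 76) (nat_lit 79465000433) (nat_lit 76) (nat_lit 1199024492) (nat_lit 16) (nat_lit 4) (nat_lit 17) (nat_lit 5) (nat_lit 17) (nat_lit 4) (nat_lit 392) (nat_lit 323) (nat_lit 185))))))) (XT.nd (nat_lit 858) (nat_lit 304) (nat_lit 0) (XT.nd (nat_lit 390) (nat_lit 228) (nat_lit 0) (XT.nd (nat_lit 156) (nat_lit 76) (nat_lit 0) (XT.nd (nat_lit 78) (nat_lit 0) (nat_lit 0) (XT.lf (nat_lit 0) (nat_lit 16673104485)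 (nat_lit 152) (nat_lit 44090555478) (nat_lit 76) (nat_lit 59522722961) (nat_lit 15) (nat_lit 5) (nat_lit 17) (nat_lit 5) (nat_lit 16) (nat_lit 4) (nat_lit 393) (nat_lit 323) (nat_lit 184)) (XT.lf (nat_lit 0) (nat_lit 35396149528) (nat_lit 152) (nat_lit 5712545267) (nat_lit 76) (nat_lit 84104820295) (nat_lit 15) (nat_lit 5) (nat_lit 17) (nat_lit 5) (nat_lit 16) (nat_lit 4) (nat_lit 394) (nat_lit 323) (nat_lit 183))) (XT.nd (nat_lit 78) (nat_lit 0) (nat_lit 0) (XT.lf (nat_lit 0) (nat_lit 35723476394) (nat_lit 76) (nat_lit 19887332772) (nat_lit 152) (nat_lit 74748422228) (nat_lit 14) (nat_lit 5) (nat_lit 15) (nat_lit 5) (nat_lit 16) (nat_lit 4) (nat_lit 395) (nat_lit 323) (nat_lit 182)) (XT.nd (nat_lit 78) (nat_lit 0) (nat_lit 0) (XT.lf (nat_lit 0) (nat_lit 76969658021) (nat_lit 152) (nat_lit 56371027238) (nat_lit 0) (nat_lit 2414876059) (nat_lit 14) (nat_lit 5) (nat_lit 16) (nat_lit 4) (nat_lit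 14) (nat_lit 4) (nat_lit 396) (nat_lit 323) (nat_lit 181)) (XT.lf (nat_lit 0) (nat_lit 99720310555) (nat_lit 152) (nat_lit 16523157897) (nat_lit 0) (nat_lit 25162046811) (nat_lit 14) (nat_lit 5) (nat_lit 16) (nat_lit 4) (nat_lit 14) (nat_lit 4) (nat_lit 397) (nat_lit 323) (nat_lit 180))))) (XT.nd (nat_lit 234) (nat_lit 76) (nat_lit 0) (XT.nd (nat_lit 78) (nat_lit 76) (nat_lit 0) (XT.lf (nat_lit 0) (nat_lit 26150195464) (nat_lit 76) (nat_lit 97864520359) (nat_lit 76) (nat_lit 23302940633) (nat_lit 13) (nat_lit 4) (nat_lit 14) (nat_lit 5) (nat_lit 14) (nat_lit 4) (nat_lit 398) (nat_lit 323) (nat_lit 179)) (XT.nd (nat_lit 78) (nat_lit 76) (nat_lit 0) (XT.lf (nat_lit 0) (nat_lit 71527046780) (nat_lit 76) (nat_lit 78274602925) (nat_lit 76) (nat_lit 3709865121) (nat_lit 13) (nat_lit 4) (nat_lit 14) (nat_lit 5) (nat_lit 14) (nat_lit 4) (nat_lit 399) (nat_lit 323) (nat_lit 178)) (XT.lf (nat_lit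 0) (nat_lit 16321192016) (nat_lit 152) (nat_lit 41109301863) (nat_lit 76) (nat_lit 102571506650) (nat_lit 12) (nat_lit 5) (nat_lit 14) (nat_lit 5) (nat_lit 13) (nat_lit 4) (nat_lit 400) (nat_lit 323) (nat_lit 177)))) (XT.nd (nat_lit 78) (nat_lit 0) (nat_lit 0) (XT.lf (nat_lit 0) (nat_lit 1802988399) (nat_lit 76) (nat_lit 35452425437) (nat_lit 152) (nat_lit 129557241884) (nat_lit 11) (nat_lit 5) (nat_lit 12) (nat_lit 5) (nat_lit 13) (nat_lit 4) (nat_lit 401) (nat_lit 323) (nat_lit 176)) (XT.nd (nat_lit 78) (nat_lit 0) (nat_lit 0) (XT.lf (nat_lit 0) (nat_lit 48284648484) (nat_lit 76) (nat_lit 11646076646) (nat_lit 152) (nat_lit 113998400062) (nat_lit 11) (nat_lit 5) (nat_lit 12) (nat_lit 5) (nat_lit 13) (nat_lit 4) (nat_lit 402) (nat_lit 323) (nat_lit 175)) (XT.lf (nat_lit 0) (nat_lit 83946477220) (nat_lit 152) (nat_lit 84522831487) (nat_lit 0) (nat_lit 12921776084) (nat_lit 11) (nat_lit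 5) (nat_lit 13) (nat_lit 4) (nat_lit 11) (nat_lit 4) (nat_lit 403) (nat_lit 323) (nat_lit 174)))))) (XT.nd (nat_lit 468) (nat_lit 152) (nat_lit 0) (XT.nd (nat_lit 234) (nat_lit 76) (nat_lit 0) (XT.nd (nat_lit 78) (nat_lit 76) (nat_lit 0) (XT.lf (nat_lit 0) (nat_lit 109352255358) (nat_lit 152) (nat_lit 41539227871) (nat_lit 0) (nat_lit 38325197616) (nat_lit 11) (nat_lit 5) (nat_lit 13) (nat_lit 4) (nat_lit 11) (nat_lit 4) (nat_lit 404) (nat_lit 323) (nat_lit 173)) (XT.nd (nat_lit 78) (nat_lit 0) (nat_lit 0) (XT.lf (nat_lit 0) (nat_lit 3709222222) (nat_lit 76) (nat_lit 132375410730) (nat_lit 76) (nat_lit 61346108601) (nat_lit 10) (nat_lit 4) (nat_lit 11) (nat_lit 5) (nat_lit 11) (nat_lit 4) (nat_lit 405) (nat_lit 323) (nat_lit 172)) (XT.lf (nat_lit 0) (nat_lit 52659240263) (nat_lit 76) (nat_lit 112196304631) (nat_lit 76) (nat_lit 41164864990) (nat_lit 10) (nat_lit 4) (nat_lit 11) (nat_lit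 5) (nat_lit 11) (nat_lit 4) (nat_lit 406) (nat_lit 323) (nat_lit 171)))) (XT.nd (nat_lit 78) (nat_lit 76) (nat_lit 0) (XT.lf (nat_lit 0) (nat_lit 104053899441) (nat_lit 76) (nat_lit 91009606365) (nat_lit 76) (nat_lit 19976130999) (nat_lit 10) (nat_lit 4) (nat_lit 11) (nat_lit 5) (nat_lit 11) (nat_lit 4) (nat_lit 407) (nat_lit 323) (nat_lit 170)) (XT.nd (nat_lit 78) (nat_lit 0) (nat_lit 0) (XT.lf (nat_lit 0) (nat_lit 2197871191) (nat_lit 152) (nat_lit 66529778208) (nat_lit 76) (nat_lit 155780474789) (nat_lit 9) (nat_lit 5) (nat_lit 11) (nat_lit 5) (nat_lit 10) (nat_lit 4) (nat_lit 408) (nat_lit 323) (nat_lit 169)) (XT.lf (nat_lit 0) (nat_lit 24807864460) (nat_lit 152) (nat_lit 20181138470) (nat_lit 76) (nat_lit 189444728433) (nat_lit 9) (nat_lit 5) (nat_lit 11) (nat_lit 5) (nat_lit 10) (nat_lit 4) (nat_lit 409) (nat_lit 323) (nat_lit 168))))) (XT.nd (nat_lit 234) (nat_lit 76) (nat_lit 0)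 (XT.nd (nat_lit 78) (nat_lit 0) (nat_lit 0) (XT.lf (nat_lit 0) (nat_lit 29424176551) (nat_lit 76) (nat_lit 19582260376) (nat_lit 152) (nat_lit 195826278275) (nat_lit 8) (nat_lit 5) (nat_lit 9) (nat_lit 5) (nat_lit 10) (nat_lit 4) (nat_lit 410) (nat_lit 323) (nat_lit 167)) (XT.nd (nat_lit 78) (nat_lit 0) (nat_lit 0) (XT.lf (nat_lit 0) (nat_lit 74871779455) (nat_lit 152) (nat_lit 173643051279) (nat_lit 0) (nat_lit 7213975696) (nat_lit 8) (nat_lit 5) (nat_lit 10) (nat_lit 4) (nat_lit 8) (nat_lit 4) (nat_lit 411) (nat_lit 323) (nat_lit 166)) (XT.lf (nat_lit 0) (nat_lit 102350163267) (nat_lit 152) (nat_lit 130112710081) (nat_lit 0) (nat_lit 34690840419) (nat_lit 8) (nat_lit 5) (nat_lit 10) (nat_lit 4) (nat_lit 8) (nat_lit 4) (nat_lit 412) (nat_lit 323) (nat_lit 165)))) (XT.nd (nat_lit 78) (nat_lit 76) (nat_lit 0) (XT.lf (nat_lit 0) (nat_lit 131201279124) (nat_lit 152) (nat_lit 84408137423) (nat_lit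 0) (nat_lit 63540509524) (nat_lit 8) (nat_lit 5) (nat_lit 10) (nat_lit 4) (nat_lit 8) (nat_lit 4) (nat_lit 413) (nat_lit 323) (nat_lit 164)) (XT.nd (nat_lit 78) (nat_lit 76) (nat_lit 0) (XT.lf (nat_lit 0) (nat_lit 161493820159) (nat_lit 152) (nat_lit 36420512895) (nat_lit 0) (nat_lit 93831672700) (nat_lit 8) (nat_lit 5) (nat_lit 10) (nat_lit 4) (nat_lit 8) (nat_lit 4) (nat_lit 414) (nat_lit 323) (nat_lit 163)) (XT.lf (nat_lit 0) (nat_lit 14426146534) (nat_lit 76) (nat_lit 179098997512) (nat_lit 76) (nat_lit 111435537806) (nat_lit 7) (nat_lit 4) (nat_lit 8) (nat_lit 5) (nat_lit 8) (nat_lit 4) (nat_lit 415) (nat_lit 323) (nat_lit 162))))))))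
noncomputable def xc163 : XT := (XT.nd (nat_lit 40326) (nat_lit 0) (nat_lit 3724) (XT.nd (nat_lit 858) (nat_lit 0) (nat_lit 0) (XT.nd (nat_lit 390) (nat_lit 76) (nat_lit 0) (XT.nd (nat_lit 156) (nat_lit 76) (nat_lit 0) (XT.nd (nat_lit 78) (nat_lit 0) (nat_lit 0) (XT.lf (nat_lit 0) (nat_lit 69077537233) (nat_lit 76) (nat_lit 158696238557) (nat_lit 76) (nat_lit 91031529092) (nat_lit 7) (nat_lit 4) (nat_lit 8) (nat_lit 5) (nat_lit 8) (nat_lit 4) (nat_lit 416) (nat_lit 323) (nat_lit 161)) (XT.lf (nat_lit 0) (nat_lit 126459554925) (nat_lit 76) (nat_lit 137274277201) (nat_lit 76) (nat_lit 69608377490) (nat_lit 7) (nat_lit 4) (nat_lit 8) (nat_lit 5) (nat_lit 8) (nat_lit 4) (nat_lit 417) (nat_lit 323) (nat_lit 160))) (XT.nd (nat_lit 78) (nat_lit 76) (nat_lit 0) (XT.lf (nat_lit 0) (nat_lit 186708823460) (nat_lit 76) (nat_lit 114782108773) (nat_lit 76) (nat_lit 47115075494) (nat_lit 7) (nat_lit 4)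 (nat_lit 8) (nat_lit 5) (nat_lit 8) (nat_lit 4) (nat_lit 418) (nat_lit 323) (nat_lit 159)) (XT.nd (nat_lit 78) (nat_lit 76) (nat_lit 0) (XT.lf (nat_lit 0) (nat_lit 249968793479) (nat_lit 76) (nat_lit 91166180492) (nat_lit 76) (nat_lit 23498067625) (nat_lit 7) (nat_lit 4) (nat_lit 8) (nat_lit 5) (nat_lit 8) (nat_lit 4) (nat_lit 419) (nat_lit 323) (nat_lit 158)) (XT.lf (nat_lit 0) (nat_lit 1257304910) (nat_lit 152) (nat_lit 65091665980) (nat_lit 76) (nat_lit 315111485979) (nat_lit 6) (nat_lit 5) (nat_lit 8) (nat_lit 5) (nat_lit 7) (nat_lit 4) (nat_lit 420) (nat_lit 323) (nat_lit 157))))) (XT.nd (nat_lit 234) (nat_lit 0) (nat_lit 0) (XT.nd (nat_lit 78) (nat_lit 76) (nat_lit 0) (XT.lf (nat_lit 0) (nat_lit 26459914715) (nat_lit 152) (nat_lit 13427295098) (nat_lit 76) (nat_lit 359222814649) (nat_lit 6) (nat_lit 5) (nat_lit 8) (nat_lit 5) (nat_lit 7) (nat_lit 4) (nat_lit 421) (nat_lit 323) (nat_lit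 156)) (XT.nd (nat_lit 78) (nat_lit 0) (nat_lit 0) (XT.lf (nat_lit 0) (nat_lit 42168397697) (nat_lit 76) (nat_lit 11411822084) (nat_lit 152) (nat_lit 364028972566) (nat_lit 5) (nat_lit 5) (nat_lit 6) (nat_lit 5) (nat_lit 7) (nat_lit 4) (nat_lit 422) (nat_lit 323) (nat_lit 155)) (XT.lf (nat_lit 0) (nat_lit 82575505601) (nat_lit 152) (nat_lit 336305826943) (nat_lit 0) (nat_lit 18126037949) (nat_lit 5) (nat_lit 5) (nat_lit 7) (nat_lit 4) (nat_lit 5) (nat_lit 4) (nat_lit 423) (nat_lit 323) (nat_lit 154)))) (XT.nd (nat_lit 78) (nat_lit 0) (nat_lit 0) (XT.lf (nat_lit 0) (nat_lit 113206873638) (nat_lit 152) (nat_lit 295402667767) (nat_lit 0) (nat_lit 48756600380) (nat_lit 5) (nat_lit 5) (nat_lit 7) (nat_lit 4) (nat_lit 5) (nat_lit 4) (nat_lit 424) (nat_lit 323) (nat_lit 153)) (XT.nd (nat_lit 78) (nat_lit 0) (nat_lit 0) (XT.lf (nat_lit 0) (nat_lit 145369085197) (nat_lit 152) (nat_lit 252455758124)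 (nat_lit 0) (nat_lit 80918044695) (nat_lit 5) (nat_lit 5) (nat_lit 7) (nat_lit 4) (nat_lit 5) (nat_lit 4) (nat_lit 425) (nat_lit 323) (nat_lit 152)) (XT.lf (nat_lit 0) (nat_lit 179138716971) (nat_lit 152) (nat_lit 207362843467) (nat_lit 0) (nat_lit 114686945761) (nat_lit 5) (nat_lit 5) (nat_lit 7) (nat_lit 4) (nat_lit 5) (nat_lit 4) (nat_lit 426) (nat_lit 323) (nat_lit 151)))))) (XT.nd (nat_lit 39000) (nat_lit 0) (nat_lit 7752) (XT.nd (nat_lit 156) (nat_lit 0) (nat_lit 0) (XT.nd (nat_lit 78) (nat_lit 0) (nat_lit 0) (XT.lf (nat_lit 0) (nat_lit 214596172845) (nat_lit 152) (nat_lit 160016559715) (nat_lit 0) (nat_lit 150143705723) (nat_lit 5) (nat_lit 5) (nat_lit 7) (nat_lit 4) (nat_lit 5) (nat_lit 4) (nat_lit 427) (nat_lit 323) (nat_lit 150)) (XT.lf (nat_lit 0) (nat_lit 251825875335) (nat_lit 152) (nat_lit 110304177619) (nat_lit 0) (nat_lit 187372745439) (nat_lit 5) (nat_lit 5) (nat_lit 7)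 (nat_lit 4) (nat_lit 5) (nat_lit 4) (nat_lit 428) (nat_lit 323) (nat_lit 149))) (XT.nd (nat_lit 38688) (nat_lit 0) (nat_lit 7752) (XT.lf (nat_lit 0) (nat_lit 290916466587) (nat_lit 152) (nat_lit 58107334366) (nat_lit 0) (nat_lit 226462705478) (nat_lit 5) (nat_lit 5) (nat_lit 7) (nat_lit 4) (nat_lit 5) (nat_lit 4) (nat_lit 429) (nat_lit 323) (nat_lit 148)) (XT.nd (nat_lit 78) (nat_lit 0) (nat_lit 0) (XT.lf (nat_lit 0) (nat_lit 2212848932) (nat_lit 0) (nat_lit 2212848932) (nat_lit 684) (nat_lit 2277671765) (nat_lit 107) (nat_lit 5) (nat_lit 107) (nat_lit 3) (nat_lit 116) (nat_lit 3) (nat_lit 324) (nat_lit 324) (nat_lit 252)) (XT.lf (nat_lit 0) (nat_lit 9455801288) (nat_lit 684) (nat_lit 2715241027) (nat_lit 760) (nat_lit 1551232438) (nat_lit 107) (nat_lit 5) (nat_lit 116) (nat_lit 3) (nat_lit 117) (nat_lit 5) (nat_lit 325) (nat_lit 324) (nat_lit 251))))) (XT.nd (nat_lit 234) (nat_lit 0) (nat_lit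 76) (XT.nd (nat_lit 78) (nat_lit 0) (nat_lit 0) (XT.lf (nat_lit 76) (nat_lit 3903413459) (nat_lit 0) (nat_lit 6297765335) (nat_lit 760) (nat_lit 3846901174) (nat_lit 108) (nat_lit 5) (nat_lit 107) (nat_lit 5) (nat_lit 117) (nat_lit 5) (nat_lit 326) (nat_lit 324) (nat_lit 250)) (XT.nd (nat_lit 78) (nat_lit 0) (nat_lit 76) (XT.lf (nat_lit 76) (nat_lit 10934657350) (nat_lit 0) (nat_lit 73293932) (nat_lit 760) (nat_lit 3381046934) (nat_lit 108) (nat_lit 5) (nat_lit 107) (nat_lit 5) (nat_lit 117) (nat_lit 5) (nat_lit 327) (nat_lit 324) (nat_lit 249)) (XT.lf (nat_lit 76) (nat_lit 3570672787) (nat_lit 0) (nat_lit 8420354545) (nat_lit 760) (nat_lit 2749164490) (nat_lit 109) (nat_lit 5) (nat_lit 108) (nat_lit 5) (nat_lit 118) (nat_lit 5) (nat_lit 328) (nat_lit 324) (nat_lit 248)))) (XT.nd (nat_lit 78) (nat_lit 0) (nat_lit 76) (XT.lf (nat_lit 76) (nat_lit 11052620022) (nat_lit 0) (nat_lit 2010422522)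 (nat_lit 760) (nat_lit 2043939671) (nat_lit 109) (nat_lit 5) (nat_lit 108) (nat_lit 5) (nat_lit 118) (nat_lit 5) (nat_lit 329) (nat_lit 324) (nat_lit 247)) (XT.nd (nat_lit 78) (nat_lit 0) (nat_lit 0) (XT.lf (nat_lit 76) (nat_lit 3439486286) (nat_lit 0) (nat_lit 10857717074) (nat_lit 760) (nat_lit 1189506643) (nat_lit 110) (nat_lit 5) (nat_lit 109) (nat_lit 5) (nat_lit 119) (nat_lit 5) (nat_lit 330) (nat_lit 324) (nat_lit 246)) (XT.lf (nat_lit 76) (nat_lit 11401496364) (nat_lit 0) (nat_lit 4274507676) (nat_lit 760) (nat_lit 205297470) (nat_lit 110) (nat_lit 5) (nat_lit 109) (nat_lit 5) (nat_lit 119) (nat_lit 5) (nat_lit 331) (nat_lit 324) (nat_lit 245))))))) (XT.nd (nat_lit 858) (nat_lit 1672) (nat_lit 0) (XT.nd (nat_lit 390) (nat_lit 1140) (nat_lit 0) (XT.nd (nat_lit 156) (nat_lit 684) (nat_lit 0) (XT.nd (nat_lit 78) (nat_lit 0) (nat_lit 0) (XT.lf (nat_lit 0) (nat_lit 881874869) (nat_lit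 760) (nat_lit 12781900947) (nat_lit 836) (nat_lit 2627209120) (nat_lit 100) (nat_lit 5) (nat_lit 110) (nat_lit 5) (nat_lit 111) (nat_lit 5) (nat_lit 332) (nat_lit 324) (nat_lit 244)) (XT.lf (nat_lit 0) (nat_lit 2146790784) (nat_lit 760) (nat_lit 4753028179) (nat_lit 836) (nat_lit 9814671745) (nat_lit 100) (nat_lit 5) (nat_lit 110) (nat_lit 5) (nat_lit 111) (nat_lit 5) (nat_lit 333) (nat_lit 324) (nat_lit 243))) (XT.nd (nat_lit 78) (nat_lit 760) (nat_lit 0) (XT.lf (nat_lit 0) (nat_lit 3522125371) (nat_lit 760) (nat_lit 13376044854) (nat_lit 76) (nat_lit 258662579) (nat_lit 101) (nat_lit 5) (nat_lit 111) (nat_lit 5) (nat_lit 102) (nat_lit 5) (nat_lit 334) (nat_lit 324) (nat_lit 242)) (XT.nd (nat_lit 78) (nat_lit 760) (nat_lit 0) (XT.lf (nat_lit 0) (nat_lit 5145658069) (nat_lit 760) (nat_lit 4839278186) (nat_lit 76) (nat_lit 7627402923) (nat_lit 101) (nat_lit 5) (nat_lit 111) (nat_lit 5) (nat_lit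 102) (nat_lit 5) (nat_lit 335) (nat_lit 324) (nat_lit 241)) (XT.lf (nat_lit 0) (nat_lit 4247030856) (nat_lit 760) (nat_lit 2654887626) (nat_lit 836) (nat_lit 11186142687) (nat_lit 91) (nat_lit 5) (nat_lit 101) (nat_lit 5) (nat_lit 102) (nat_lit 5) (nat_lit 336) (nat_lit 324) (nat_lit 240))))) (XT.nd (nat_lit 234) (nat_lit 760) (nat_lit 0) (XT.nd (nat_lit 78) (nat_lit 380) (nat_lit 0) (XT.lf (nat_lit 0) (nat_lit 8893767426) (nat_lit 836) (nat_lit 4721628757) (nat_lit 76) (nat_lit 4964801302) (nat_lit 91) (nat_lit 5) (nat_lit 102) (nat_lit 5) (nat_lit 92) (nat_lit 5) (nat_lit 337) (nat_lit 324) (nat_lit 239)) (XT.nd (nat_lit 78) (nat_lit 0) (nat_lit 0) (XT.lf (nat_lit 0) (nat_lit 4955726313) (nat_lit 380) (nat_lit 6136817993) (nat_lit 456) (nat_lit 7999045728) (nat_lit 86) (nat_lit 5) (nat_lit 91) (nat_lit 5) (nat_lit 92) (nat_lit 5) (nat_lit 338) (nat_lit 324) (nat_lit 238)) (XT.lf (nat_lit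 0) (nat_lit 13496208433) (nat_lit 456) (nat_lit 4385349427) (nat_lit 76) (nat_lit 1742262350) (nat_lit 86) (nat_lit 5) (nat_lit 92) (nat_lit 5) (nat_lit 87) (nat_lit 5) (nat_lit 339) (nat_lit 324) (nat_lit 237)))) (XT.nd (nat_lit 78) (nat_lit 456) (nat_lit 0) (XT.lf (nat_lit 0) (nat_lit 5928924660) (nat_lit 304) (nat_lit 10271813951) (nat_lit 380) (nat_lit 3972903827) (nat_lit 82) (nat_lit 5) (nat_lit 86) (nat_lit 5) (nat_lit 87) (nat_lit 5) (nat_lit 340) (nat_lit 324) (nat_lit 236)) (XT.nd (nat_lit 78) (nat_lit 456) (nat_lit 0) (XT.lf (nat_lit 0) (nat_lit 16898445385) (nat_lit 304) (nat_lit 2204226191) (nat_lit 380) (nat_lit 1645189375) (nat_lit 82) (nat_lit 5) (nat_lit 86) (nat_lit 5) (nat_lit 87) (nat_lit 5) (nat_lit 341) (nat_lit 324) (nat_lit 235)) (XT.lf (nat_lit 0) (nat_lit 975077301) (nat_lit 456) (nat_lit 14171518733) (nat_lit 76) (nat_lit 6193496547) (nat_lit 76) (nat_lit 5) (nat_lit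 82) (nat_lit 5) (nat_lit 77) (nat_lit 5) (nat_lit 342) (nat_lit 324) (nat_lit 234)))))) (XT.nd (nat_lit 468) (nat_lit 836) (nat_lit 0) (XT.nd (nat_lit 234) (nat_lit 532) (nat_lit 0) (XT.nd (nat_lit 78) (nat_lit 304) (nat_lit 0) (XT.lf (nat_lit 0) (nat_lit 3762096679) (nat_lit 456) (nat_lit 3164618352) (nat_lit 76) (nat_lit 15029332904) (nat_lit 76) (nat_lit 5) (nat_lit 82) (nat_lit 5) (nat_lit 77) (nat_lit 5) (nat_lit 343) (nat_lit 324) (nat_lit 233)) (XT.nd (nat_lit 78) (nat_lit 0) (nat_lit 0) (XT.lf (nat_lit 0) (nat_lit 6841608883) (nat_lit 380) (nat_lit 13967936797) (nat_lit 76) (nat_lit 1785609790) (nat_lit 72) (nat_lit 5) (nat_lit 77) (nat_lit 5) (nat_lit 73) (nat_lit 5) (nat_lit 344) (nat_lit 324) (nat_lit 232)) (XT.lf (nat_lit 0) (nat_lit 10232599573) (nat_lit 380) (nat_lit 2272028656) (nat_lit 76) (nat_lit 10753725966) (nat_lit 72) (nat_lit 5) (nat_lit 77) (nat_lit 5) (nat_lit 73)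 (nat_lit 5) (nat_lit 345) (nat_lit 324) (nat_lit 231)))) (XT.nd (nat_lit 78) (nat_lit 228) (nat_lit 0) (XT.lf (nat_lit 0) (nat_lit 10327235056) (nat_lit 304) (nat_lit 3617120140) (nat_lit 380) (nat_lit 10002807329) (nat_lit 68) (nat_lit 5) (nat_lit 72) (nat_lit 5) (nat_lit 73) (nat_lit 5) (nat_lit 346) (nat_lit 324) (nat_lit 230)) (XT.nd (nat_lit 78) (nat_lit 228) (nat_lit 0) (XT.lf (nat_lit 0) (nat_lit 17960270268) (nat_lit 380) (nat_lit 1135246955) (nat_lit 76) (nat_lit 5568975405) (nat_lit 68) (nat_lit 5) (nat_lit 73) (nat_lit 5) (nat_lit 69) (nat_lit 5) (nat_lit 347) (nat_lit 324) (nat_lit 229)) (XT.lf (nat_lit 0) (nat_lit 12296263981) (nat_lit 228) (nat_lit 10122697596) (nat_lit 304) (nat_lit 2986638101) (nat_lit 65) (nat_lit 5) (nat_lit 68) (nat_lit 5) (nat_lit 69) (nat_lit 5) (nat_lit 348) (nat_lit 324) (nat_lit 228))))) (XT.nd (nat_lit 234) (nat_lit 228) (nat_lit 0) (XT.nd (nat_lit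 78) (nat_lit 228) (nat_lit 0) (XT.lf (nat_lit 0) (nat_lit 237135222) (nat_lit 304) (nat_lit 664400470) (nat_lit 380) (nat_lit 25280816542) (nat_lit 60) (nat_lit 5) (nat_lit 64) (nat_lit 5) (nat_lit 65) (nat_lit 5) (nat_lit 349) (nat_lit 324) (nat_lit 227)) (XT.nd (nat_lit 78) (nat_lit 228) (nat_lit 0) (XT.lf (nat_lit 0) (nat_lit 5245106813) (nat_lit 380) (nat_lit 12490078424) (nat_lit 76) (nat_lit 9242249332) (nat_lit 60) (nat_lit 5) (nat_lit 65) (nat_lit 5) (nat_lit 61) (nat_lit 5) (nat_lit 350) (nat_lit 324) (nat_lit 226)) (XT.lf (nat_lit 0) (nat_lit 1668901366) (nat_lit 228) (nat_lit 8165356361) (nat_lit 304) (nat_lit 17976601019) (nat_lit 57) (nat_lit 5) (nat_lit 60) (nat_lit 5) (nat_lit 61) (nat_lit 5) (nat_lit 351) (nat_lit 324) (nat_lit 225)))) (XT.nd (nat_lit 78) (nat_lit 228) (nat_lit 0) (XT.lf (nat_lit 0) (nat_lit 14888896272) (nat_lit 304) (nat_lit 11750418352) (nat_lit 76) (nat_lit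 2034845422) (nat_lit 57) (nat_lit 5) (nat_lit 61) (nat_lit 5) (nat_lit 58) (nat_lit 5) (nat_lit 352) (nat_lit 324) (nat_lit 224)) (XT.nd (nat_lit 78) (nat_lit 0) (nat_lit 0) (XT.lf (nat_lit 0) (nat_lit 3322088835) (nat_lit 228) (nat_lit 17051940074) (nat_lit 304) (nat_lit 9197716457) (nat_lit 54) (nat_lit 5) (nat_lit 57) (nat_lit 5) (nat_lit 58) (nat_lit 5) (nat_lit 353) (nat_lit 324) (nat_lit 223)) (XT.lf (nat_lit 0) (nat_lit 19545269973) (nat_lit 228) (nat_lit 6779393007) (nat_lit 304) (nat_lit 4179991460) (nat_lit 54) (nat_lit 5) (nat_lit 57) (nat_lit 5) (nat_lit 58) (nat_lit 5) (nat_lit 354) (nat_lit 324) (nat_lit 222))))))))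
noncomputable def xc164 : XT := (XT.nd (nat_lit 1716) (nat_lit 1064) (nat_lit 0) (XT.nd (nat_lit 858) (nat_lit 836) (nat_lit 0) (XT.nd (nat_lit 390) (nat_lit 608) (nat_lit 0) (XT.nd (nat_lit 156) (nat_lit 380) (nat_lit 0) (XT.nd (nat_lit 78) (nat_lit 0) (nat_lit 0) (XT.lf (nat_lit 0) (nat_lit 1192130074) (nat_lit 228) (nat_lit 26308447608) (nat_lit 76) (nat_lit 3975869923) (nat_lit 51) (nat_lit 5) (nat_lit 54) (nat_lit 5) (nat_lit 52) (nat_lit 5) (nat_lit 355) (nat_lit 324) (nat_lit 221)) (XT.lf (nat_lit 0) (nat_lit 6984798313) (nat_lit 228) (nat_lit 10198802177) (nat_lit 76) (nat_lit 15295188739) (nat_lit 51) (nat_lit 5) (nat_lit 54) (nat_lit 5) (nat_lit 52) (nat_lit 5) (nat_lit 356) (nat_lit 324) (nat_lit 220))) (XT.nd (nat_lit 78) (nat_lit 152) (nat_lit 0) (XT.lf (nat_lit 0) (nat_lit 6927785605) (nat_lit 228) (nat_lit 6240460331) (nat_lit 304) (nat_lit 20357950235) (nat_lit 48) (nat_lit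 5) (nat_lit 51) (nat_lit 5) (nat_lit 52) (nat_lit 5) (nat_lit 357) (nat_lit 324) (nat_lit 219)) (XT.nd (nat_lit 78) (nat_lit 152) (nat_lit 0) (XT.lf (nat_lit 0) (nat_lit 19911492890) (nat_lit 304) (nat_lit 9447754288) (nat_lit 76) (nat_lit 5254200205) (nat_lit 48) (nat_lit 5) (nat_lit 52) (nat_lit 5) (nat_lit 49) (nat_lit 5) (nat_lit 358) (nat_lit 324) (nat_lit 218)) (XT.lf (nat_lit 0) (nat_lit 8727561110) (nat_lit 152) (nat_lit 18496342666) (nat_lit 228) (nat_lit 8519562321) (nat_lit 46) (nat_lit 5) (nat_lit 48) (nat_lit 5) (nat_lit 49) (nat_lit 5) (nat_lit 359) (nat_lit 324) (nat_lit 217))))) (XT.nd (nat_lit 234) (nat_lit 304) (nat_lit 0) (XT.nd (nat_lit 78) (nat_lit 304) (nat_lit 0) (XT.lf (nat_lit 0) (nat_lit 28129899247) (nat_lit 152) (nat_lit 6925635839) (nat_lit 228) (nat_lit 1866775448) (nat_lit 46) (nat_lit 5) (nat_lit 48) (nat_lit 5) (nat_lit 49) (nat_lit 5) (nat_lit 360) (nat_lit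 324) (nat_lit 216)) (XT.nd (nat_lit 78) (nat_lit 0) (nat_lit 0) (XT.lf (nat_lit 0) (nat_lit 5199513404) (nat_lit 304) (nat_lit 27641819082) (nat_lit 76) (nat_lit 5302538649) (nat_lit 42) (nat_lit 5) (nat_lit 46) (nat_lit 5) (nat_lit 43) (nat_lit 5) (nat_lit 361) (nat_lit 324) (nat_lit 215)) (XT.lf (nat_lit 0) (nat_lit 12815156882) (nat_lit 304) (nat_lit 8508747546) (nat_lit 76) (nat_lit 18088140520) (nat_lit 42) (nat_lit 5) (nat_lit 46) (nat_lit 5) (nat_lit 43) (nat_lit 5) (nat_lit 362) (nat_lit 324) (nat_lit 214)))) (XT.nd (nat_lit 78) (nat_lit 152) (nat_lit 0) (XT.lf (nat_lit 0) (nat_lit 11954456488) (nat_lit 152) (nat_lit 9037955548) (nat_lit 228) (nat_lit 19742177874) (nat_lit 40) (nat_lit 5) (nat_lit 42) (nat_lit 5) (nat_lit 43) (nat_lit 5) (nat_lit 363) (nat_lit 324) (nat_lit 213)) (XT.nd (nat_lit 78) (nat_lit 152) (nat_lit 0) (XT.lf (nat_lit 0) (nat_lit 29779564806) (nat_lit 228)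 (nat_lit 8451722164) (nat_lit 76) (nat_lit 3881927154) (nat_lit 40) (nat_lit 5) (nat_lit 43) (nat_lit 5) (nat_lit 41) (nat_lit 5) (nat_lit 364) (nat_lit 324) (nat_lit 212)) (XT.lf (nat_lit 0) (nat_lit 13157273975) (nat_lit 152) (nat_lit 26196930770) (nat_lit 228) (nat_lit 4189161894) (nat_lit 38) (nat_lit 5) (nat_lit 40) (nat_lit 5) (nat_lit 41) (nat_lit 5) (nat_lit 365) (nat_lit 324) (nat_lit 211)))))) (XT.nd (nat_lit 390) (nat_lit 456) (nat_lit 0) (XT.nd (nat_lit 156) (nat_lit 152) (nat_lit 0) (XT.nd (nat_lit 78) (nat_lit 152) (nat_lit 0) (XT.lf (nat_lit 0) (nat_lit 4362980056) (nat_lit 228) (nat_lit 8977011713) (nat_lit 76) (nat_lit 31694629716) (nat_lit 37) (nat_lit 5) (nat_lit 40) (nat_lit 5) (nat_lit 38) (nat_lit 5) (nat_lit 366) (nat_lit 324) (nat_lit 210)) (XT.lf (nat_lit 0) (nat_lit 13420441682) (nat_lit 228) (nat_lit 32724213019) (nat_lit 76) (nat_lit 441428921) (nat_lit 35) (nat_lit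 5) (nat_lit 38) (nat_lit 5) (nat_lit 36) (nat_lit 5) (nat_lit 367) (nat_lit 324) (nat_lit 209))) (XT.nd (nat_lit 78) (nat_lit 152) (nat_lit 0) (XT.lf (nat_lit 0) (nat_lit 23298890171) (nat_lit 228) (nat_lit 10282816515) (nat_lit 76) (nat_lit 14615009427) (nat_lit 35) (nat_lit 5) (nat_lit 38) (nat_lit 5) (nat_lit 36) (nat_lit 5) (nat_lit 368) (nat_lit 324) (nat_lit 208)) (XT.nd (nat_lit 78) (nat_lit 0) (nat_lit 0) (XT.lf (nat_lit 0) (nat_lit 13711427721) (nat_lit 152) (nat_lit 20169052945) (nat_lit 228) (nat_lit 15996941379) (nat_lit 33) (nat_lit 5) (nat_lit 35) (nat_lit 5) (nat_lit 36) (nat_lit 5) (nat_lit 369) (nat_lit 324) (nat_lit 207)) (XT.lf (nat_lit 0) (nat_lit 39254437148) (nat_lit 152) (nat_lit 5906110919) (nat_lit 228) (nat_lit 6473147998) (nat_lit 33) (nat_lit 5) (nat_lit 35) (nat_lit 5) (nat_lit 36) (nat_lit 5) (nat_lit 370) (nat_lit 324) (nat_lit 206))))) (XT.nd (nat_lit 234)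 (nat_lit 152) (nat_lit 0) (XT.nd (nat_lit 78) (nat_lit 152) (nat_lit 0) (XT.lf (nat_lit 0) (nat_lit 3757294321) (nat_lit 152) (nat_lit 40662468916) (nat_lit 76) (nat_lit 9038102776) (nat_lit 31) (nat_lit 5) (nat_lit 33) (nat_lit 5) (nat_lit 32) (nat_lit 5) (nat_lit 371) (nat_lit 324) (nat_lit 205)) (XT.nd (nat_lit 78) (nat_lit 152) (nat_lit 0) (XT.lf (nat_lit 0) (nat_lit 14587080016) (nat_lit 152) (nat_lit 15918345397) (nat_lit 76) (nat_lit 24847247412) (nat_lit 31) (nat_lit 5) (nat_lit 33) (nat_lit 5) (nat_lit 32) (nat_lit 5) (nat_lit 372) (nat_lit 324) (nat_lit 204)) (XT.lf (nat_lit 0) (nat_lit 10388063714) (nat_lit 152) (nat_lit 15728148910) (nat_lit 228) (nat_lit 31218116661) (nat_lit 29) (nat_lit 5) (nat_lit 31) (nat_lit 5) (nat_lit 32) (nat_lit 5) (nat_lit 373) (nat_lit 324) (nat_lit 203)))) (XT.nd (nat_lit 78) (nat_lit 152) (nat_lit 0) (XT.lf (nat_lit 0) (nat_lit 38488211812) (nat_lit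 228) (nat_lit 20847706844) (nat_lit 76) (nat_lit 65831502) (nat_lit 29) (nat_lit 5) (nat_lit 32) (nat_lit 5) (nat_lit 30) (nat_lit 4) (nat_lit 374) (nat_lit 324) (nat_lit 202)) (XT.nd (nat_lit 78) (nat_lit 76) (nat_lit 0) (XT.lf (nat_lit 0) (nat_lit 6498849433) (nat_lit 76) (nat_lit 45335184989) (nat_lit 152) (nat_lit 9720748467) (nat_lit 28) (nat_lit 5) (nat_lit 29) (nat_lit 5) (nat_lit 30) (nat_lit 4) (nat_lit 375) (nat_lit 324) (nat_lit 201)) (XT.lf (nat_lit 0) (nat_lit 2321446085) (nat_lit 152) (nat_lit 27905920647) (nat_lit 76) (nat_lit 33568776730) (nat_lit 27) (nat_lit 5) (nat_lit 29) (nat_lit 5) (nat_lit 28) (nat_lit 5) (nat_lit 376) (nat_lit 324) (nat_lit 200))))))) (XT.nd (nat_lit 858) (nat_lit 380) (nat_lit 0) (XT.nd (nat_lit 390) (nat_lit 456) (nat_lit 0) (XT.nd (nat_lit 156) (nat_lit 76) (nat_lit 0) (XT.nd (nat_lit 78) (nat_lit 0) (nat_lit 0) (XT.lf (nat_lit 0) (nat_lit 449856070)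 (nat_lit 152) (nat_lit 14192368047) (nat_lit 228) (nat_lit 51499224106) (nat_lit 25) (nat_lit 5) (nat_lit 27) (nat_lit 5) (nat_lit 28) (nat_lit 5) (nat_lit 377) (nat_lit 324) (nat_lit 199)) (XT.lf (nat_lit 0) (nat_lit 28096841324) (nat_lit 228) (nat_lit 37443984946) (nat_lit 76) (nat_lit 3037303572) (nat_lit 25) (nat_lit 5) (nat_lit 28) (nat_lit 5) (nat_lit 26) (nat_lit 4) (nat_lit 378) (nat_lit 324) (nat_lit 198))) (XT.nd (nat_lit 78) (nat_lit 76) (nat_lit 0) (XT.lf (nat_lit 0) (nat_lit 42453199989) (nat_lit 228) (nat_lit 8023149794) (nat_lit 76) (nat_lit 20648846785) (nat_lit 25) (nat_lit 5) (nat_lit 28) (nat_lit 5) (nat_lit 26) (nat_lit 4) (nat_lit 379) (nat_lit 324) (nat_lit 197)) (XT.nd (nat_lit 78) (nat_lit 0) (nat_lit 0) (XT.lf (nat_lit 0) (nat_lit 23618484555) (nat_lit 76) (nat_lit 34274165459) (nat_lit 152) (nat_lit 15888704429) (nat_lit 24) (nat_lit 5) (nat_lit 25) (nat_lit 5)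 (nat_lit 26) (nat_lit 4) (nat_lit 380) (nat_lit 324) (nat_lit 196)) (XT.lf (nat_lit 0) (nat_lit 57114664403) (nat_lit 76) (nat_lit 17121877384) (nat_lit 152) (nat_lit 2327156374) (nat_lit 24) (nat_lit 5) (nat_lit 25) (nat_lit 5) (nat_lit 26) (nat_lit 4) (nat_lit 381) (nat_lit 324) (nat_lit 195))))) (XT.nd (nat_lit 234) (nat_lit 228) (nat_lit 0) (XT.nd (nat_lit 78) (nat_lit 0) (nat_lit 0) (XT.lf (nat_lit 0) (nat_lit 11751468048) (nat_lit 228) (nat_lit 66460562485) (nat_lit 76) (nat_lit 1252816843) (nat_lit 21) (nat_lit 5) (nat_lit 24) (nat_lit 5) (nat_lit 22) (nat_lit 4) (nat_lit 382) (nat_lit 324) (nat_lit 194)) (XT.nd (nat_lit 78) (nat_lit 0) (nat_lit 0) (XT.lf (nat_lit 0) (nat_lit 27068008219) (nat_lit 228) (nat_lit 35069255425) (nat_lit 76) (nat_lit 20341274509) (nat_lit 21) (nat_lit 5) (nat_lit 24) (nat_lit 5) (nat_lit 22) (nat_lit 4) (nat_lit 383) (nat_lit 324) (nat_lit 193)) (XT.lf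 (nat_lit 0) (nat_lit 43147258520) (nat_lit 228) (nat_lit 2114030680) (nat_lit 76) (nat_lit 40381781275) (nat_lit 21) (nat_lit 5) (nat_lit 24) (nat_lit 5) (nat_lit 22) (nat_lit 4) (nat_lit 384) (nat_lit 324) (nat_lit 192)))) (XT.nd (nat_lit 78) (nat_lit 152) (nat_lit 0) (XT.lf (nat_lit 0) (nat_lit 33557630313) (nat_lit 76) (nat_lit 26993801222) (nat_lit 152) (nat_lit 28388350973) (nat_lit 20) (nat_lit 5) (nat_lit 21) (nat_lit 5) (nat_lit 22) (nat_lit 4) (nat_lit 385) (nat_lit 324) (nat_lit 191)) (XT.nd (nat_lit 78) (nat_lit 152) (nat_lit 0) (XT.lf (nat_lit 0) (nat_lit 71080976752) (nat_lit 76) (nat_lit 7777728860) (nat_lit 152) (nat_lit 13540980967) (nat_lit 20) (nat_lit 5) (nat_lit 21) (nat_lit 5) (nat_lit 22) (nat_lit 4) (nat_lit 386) (nat_lit 324) (nat_lit 190)) (XT.lf (nat_lit 0) (nat_lit 2410682937) (nat_lit 152) (nat_lit 81330121438) (nat_lit 76) (nat_lit 12268808168) (nat_lit 18)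 (nat_lit 5) (nat_lit 20) (nat_lit 5) (nat_lit 19) (nat_lit 4) (nat_lit 387) (nat_lit 324) (nat_lit 189)))))) (XT.nd (nat_lit 468) (nat_lit 228) (nat_lit 0) (XT.nd (nat_lit 234) (nat_lit 76) (nat_lit 0) (XT.nd (nat_lit 78) (nat_lit 76) (nat_lit 0) (XT.lf (nat_lit 0) (nat_lit 19196531434) (nat_lit 152) (nat_lit 46924803472) (nat_lit 76) (nat_lit 33643018287) (nat_lit 18) (nat_lit 5) (nat_lit 20) (nat_lit 5) (nat_lit 19) (nat_lit 4) (nat_lit 388) (nat_lit 324) (nat_lit 188)) (XT.nd (nat_lit 78) (nat_lit 76) (nat_lit 0) (XT.lf (nat_lit 0) (nat_lit 36819007597) (nat_lit 152) (nat_lit 10804128723) (nat_lit 76) (nat_lit 56083828660) (nat_lit 18) (nat_lit 5) (nat_lit 20) (nat_lit 5) (nat_lit 19) (nat_lit 4) (nat_lit 389) (nat_lit 324) (nat_lit 187)) (XT.lf (nat_lit 0) (nat_lit 28014544801) (nat_lit 76) (nat_lit 27742910455) (nat_lit 152) (nat_lit 52067510543) (nat_lit 17) (nat_lit 5) (nat_lit 18)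 (nat_lit 5) (nat_lit 19) (nat_lit 4) (nat_lit 390) (nat_lit 324) (nat_lit 186)))) (XT.nd (nat_lit 78) (nat_lit 76) (nat_lit 0) (XT.lf (nat_lit 0) (nat_lit 69144647015) (nat_lit 76) (nat_lit 6678662597) (nat_lit 152) (nat_lit 36316533617) (nat_lit 17) (nat_lit 5) (nat_lit 18) (nat_lit 5) (nat_lit 19) (nat_lit 4) (nat_lit 391) (nat_lit 324) (nat_lit 185)) (XT.nd (nat_lit 78) (nat_lit 76) (nat_lit 0) (XT.lf (nat_lit 0) (nat_lit 97131097876) (nat_lit 152) (nat_lit 4584721859) (nat_lit 0) (nat_lit 14942713485) (nat_lit 17) (nat_lit 5) (nat_lit 19) (nat_lit 4) (nat_lit 17) (nat_lit 4) (nat_lit 392) (nat_lit 324) (nat_lit 184)) (XT.lf (nat_lit 0) (nat_lit 36810706465) (nat_lit 76) (nat_lit 83375486306) (nat_lit 76) (nat_lit 1182869789) (nat_lit 16) (nat_lit 4) (nat_lit 17) (nat_lit 5) (nat_lit 17) (nat_lit 4) (nat_lit 393) (nat_lit 324) (nat_lit 183))))) (XT.nd (nat_lit 234) (nat_lit 76) (nat_lit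 0) (XT.nd (nat_lit 78) (nat_lit 76) (nat_lit 0) (XT.lf (nat_lit 0) (nat_lit 17576921674) (nat_lit 152) (nat_lit 46163957681) (nat_lit 76) (nat_lit 62556294723) (nat_lit 15) (nat_lit 5) (nat_lit 17) (nat_lit 5) (nat_lit 16) (nat_lit 4) (nat_lit 394) (nat_lit 324) (nat_lit 182)) (XT.nd (nat_lit 78) (nat_lit 76) (nat_lit 0) (XT.lf (nat_lit 0) (nat_lit 37232777923) (nat_lit 152) (nat_lit 5873291035) (nat_lit 76) (nat_lit 88364761895) (nat_lit 15) (nat_lit 5) (nat_lit 17) (nat_lit 5) (nat_lit 16) (nat_lit 4) (nat_lit 395) (nat_lit 324) (nat_lit 181)) (XT.lf (nat_lit 0) (nat_lit 37632517491) (nat_lit 76) (nat_lit 20824389405) (nat_lit 152) (nat_lit 78416990159) (nat_lit 14) (nat_lit 5) (nat_lit 15) (nat_lit 5) (nat_lit 16) (nat_lit 4) (nat_lit 396) (nat_lit 324) (nat_lit 180)))) (XT.nd (nat_lit 78) (nat_lit 76) (nat_lit 0) (XT.lf (nat_lit 0) (nat_lit 80881428582) (nat_lit 152) (nat_lit 59070275346)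 (nat_lit 0) (nat_lit 2588453888) (nat_lit 14) (nat_lit 5) (nat_lit 16) (nat_lit 4) (nat_lit 14) (nat_lit 4) (nat_lit 397) (nat_lit 324) (nat_lit 179)) (XT.nd (nat_lit 78) (nat_lit 76) (nat_lit 0) (XT.lf (nat_lit 0) (nat_lit 104766600044) (nat_lit 152) (nat_lit 17235693646) (nat_lit 0) (nat_lit 26470467271) (nat_lit 14) (nat_lit 5) (nat_lit 16) (nat_lit 4) (nat_lit 14) (nat_lit 4) (nat_lit 398) (nat_lit 324) (nat_lit 178)) (XT.lf (nat_lit 0) (nat_lit 27569494769) (nat_lit 76) (nat_lit 102705105967) (nat_lit 76) (nat_lit 24405965501) (nat_lit 13) (nat_lit 4) (nat_lit 14) (nat_lit 5) (nat_lit 14) (nat_lit 4) (nat_lit 399) (nat_lit 324) (nat_lit 177))))))))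
noncomputable def xc165 : XT := (XT.nd (nat_lit 1716) (nat_lit 76) (nat_lit 0) (XT.nd (nat_lit 858) (nat_lit 228) (nat_lit 0) (XT.nd (nat_lit 390) (nat_lit 152) (nat_lit 0) (XT.nd (nat_lit 156) (nat_lit 76) (nat_lit 0) (XT.nd (nat_lit 78) (nat_lit 76) (nat_lit 0) (XT.lf (nat_lit 0) (nat_lit 75209865339) (nat_lit 76) (nat_lit 82138199347) (nat_lit 76) (nat_lit 3836194412) (nat_lit 13) (nat_lit 4) (nat_lit 14) (nat_lit 5) (nat_lit 14) (nat_lit 4) (nat_lit 400) (nat_lit 324) (nat_lit 176)) (XT.lf (nat_lit 0) (nat_lit 17191794807) (nat_lit 152) (nat_lit 43061553647) (nat_lit 76) (nat_lit 107746011477) (nat_lit 12) (nat_lit 5) (nat_lit 14) (nat_lit 5) (nat_lit 13) (nat_lit 4) (nat_lit 401) (nat_lit 324) (nat_lit 175))) (XT.nd (nat_lit 78) (nat_lit 0) (nat_lit 0) (XT.lf (nat_lit 0) (nat_lit 1994686398) (nat_lit 76) (nat_lit 37177029484) (nat_lit 152) (nat_lit 135978883234) (nat_lit 11) (nat_lit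 5) (nat_lit 12) (nat_lit 5) (nat_lit 13) (nat_lit 4) (nat_lit 402) (nat_lit 324) (nat_lit 174)) (XT.nd (nat_lit 78) (nat_lit 0) (nat_lit 0) (XT.lf (nat_lit 0) (nat_lit 50795593840) (nat_lit 76) (nat_lit 12182649787) (nat_lit 152) (nat_lit 119644776499) (nat_lit 11) (nat_lit 5) (nat_lit 12) (nat_lit 5) (nat_lit 13) (nat_lit 4) (nat_lit 403) (nat_lit 324) (nat_lit 173)) (XT.lf (nat_lit 0) (nat_lit 88193035581) (nat_lit 152) (nat_lit 88655106135) (nat_lit 0) (nat_lit 13610023958) (nat_lit 11) (nat_lit 5) (nat_lit 13) (nat_lit 4) (nat_lit 11) (nat_lit 4) (nat_lit 404) (nat_lit 324) (nat_lit 172))))) (XT.nd (nat_lit 234) (nat_lit 76) (nat_lit 0) (XT.nd (nat_lit 78) (nat_lit 76) (nat_lit 0) (XT.lf (nat_lit 0) (nat_lit 114866758126) (nat_lit 152) (nat_lit 43526792192) (nat_lit 0) (nat_lit 40281608992) (nat_lit 11) (nat_lit 5) (nat_lit 13) (nat_lit 4) (nat_lit 11) (nat_lit 4) (nat_lit 405) (nat_lit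 324) (nat_lit 171)) (XT.nd (nat_lit 78) (nat_lit 0) (nat_lit 0) (XT.lf (nat_lit 0) (nat_lit 3982638518) (nat_lit 76) (nat_lit 138952256452) (nat_lit 76) (nat_lit 64365071593) (nat_lit 10) (nat_lit 4) (nat_lit 11) (nat_lit 5) (nat_lit 11) (nat_lit 4) (nat_lit 406) (nat_lit 324) (nat_lit 170)) (XT.lf (nat_lit 0) (nat_lit 55375969118) (nat_lit 76) (nat_lit 117766191467) (nat_lit 76) (nat_lit 43177067822) (nat_lit 10) (nat_lit 4) (nat_lit 11) (nat_lit 5) (nat_lit 11) (nat_lit 4) (nat_lit 407) (nat_lit 324) (nat_lit 169)))) (XT.nd (nat_lit 78) (nat_lit 76) (nat_lit 0) (XT.lf (nat_lit 0) (nat_lit 109336372358) (nat_lit 76) (nat_lit 95522059640) (nat_lit 76) (nat_lit 20931089532) (nat_lit 10) (nat_lit 4) (nat_lit 11) (nat_lit 5) (nat_lit 11) (nat_lit 4) (nat_lit 408) (nat_lit 324) (nat_lit 168)) (XT.nd (nat_lit 78) (nat_lit 0) (nat_lit 0) (XT.lf (nat_lit 0) (nat_lit 2348188185) (nat_lit 152) (nat_lit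 69778942863) (nat_lit 76) (nat_lit 163604369499) (nat_lit 9) (nat_lit 5) (nat_lit 11) (nat_lit 5) (nat_lit 10) (nat_lit 4) (nat_lit 409) (nat_lit 324) (nat_lit 167)) (XT.lf (nat_lit 0) (nat_lit 26086756192) (nat_lit 152) (nat_lit 21116553244) (nat_lit 76) (nat_lit 198950175303) (nat_lit 9) (nat_lit 5) (nat_lit 11) (nat_lit 5) (nat_lit 10) (nat_lit 4) (nat_lit 410) (nat_lit 324) (nat_lit 166)))))) (XT.nd (nat_lit 390) (nat_lit 152) (nat_lit 0) (XT.nd (nat_lit 156) (nat_lit 0) (nat_lit 0) (XT.nd (nat_lit 78) (nat_lit 0) (nat_lit 0) (XT.lf (nat_lit 0) (nat_lit 30967839751) (nat_lit 76) (nat_lit 20526715485) (nat_lit 152) (nat_lit 205577898030) (nat_lit 8) (nat_lit 5) (nat_lit 9) (nat_lit 5) (nat_lit 10) (nat_lit 4) (nat_lit 411) (nat_lit 324) (nat_lit 165)) (XT.lf (nat_lit 0) (nat_lit 78651880398) (nat_lit 152) (nat_lit 182254907690) (nat_lit 0) (nat_lit 7606625566) (nat_lit 8) (nat_lit 5)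 (nat_lit 10) (nat_lit 4) (nat_lit 8) (nat_lit 4) (nat_lit 412) (nat_lit 324) (nat_lit 164))) (XT.nd (nat_lit 78) (nat_lit 0) (nat_lit 0) (XT.lf (nat_lit 0) (nat_lit 107502444736) (nat_lit 152) (nat_lit 136551396867) (nat_lit 0) (nat_lit 36455812045) (nat_lit 8) (nat_lit 5) (nat_lit 10) (nat_lit 4) (nat_lit 8) (nat_lit 4) (nat_lit 413) (nat_lit 324) (nat_lit 163)) (XT.nd (nat_lit 78) (nat_lit 0) (nat_lit 0) (XT.lf (nat_lit 0) (nat_lit 137794460515) (nat_lit 152) (nat_lit 88564783611) (nat_lit 0) (nat_lit 66746515577) (nat_lit 8) (nat_lit 5) (nat_lit 10) (nat_lit 4) (nat_lit 8) (nat_lit 4) (nat_lit 414) (nat_lit 324) (nat_lit 162)) (XT.lf (nat_lit 0) (nat_lit 169600051581) (nat_lit 152) (nat_lit 38180814079) (nat_lit 0) (nat_lit 98550856884) (nat_lit 8) (nat_lit 5) (nat_lit 10) (nat_lit 4) (nat_lit 8) (nat_lit 4) (nat_lit 415) (nat_lit 324) (nat_lit 161))))) (XT.nd (nat_lit 234) (nat_lit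 76) (nat_lit 0) (XT.nd (nat_lit 78) (nat_lit 0) (nat_lit 0) (XT.lf (nat_lit 0) (nat_lit 15207198894) (nat_lit 76) (nat_lit 188025173631) (nat_lit 76) (nat_lit 116974788688) (nat_lit 7) (nat_lit 4) (nat_lit 8) (nat_lit 5) (nat_lit 8) (nat_lit 4) (nat_lit 416) (nat_lit 324) (nat_lit 160)) (XT.nd (nat_lit 78) (nat_lit 0) (nat_lit 0) (XT.lf (nat_lit 0) (nat_lit 72588314127) (nat_lit 76) (nat_lit 166603646907) (nat_lit 76) (nat_lit 95552128396) (nat_lit 7) (nat_lit 4) (nat_lit 8) (nat_lit 5) (nat_lit 8) (nat_lit 4) (nat_lit 417) (nat_lit 324) (nat_lit 159)) (XT.lf (nat_lit 0) (nat_lit 132836723178) (nat_lit 76) (nat_lit 144111892415) (nat_lit 76) (nat_lit 73059294315) (nat_lit 7) (nat_lit 4) (nat_lit 8) (nat_lit 5) (nat_lit 8) (nat_lit 4) (nat_lit 418) (nat_lit 324) (nat_lit 158)))) (XT.nd (nat_lit 78) (nat_lit 76) (nat_lit 0) (XT.lf (nat_lit 0) (nat_lit 196095874639) (nat_lit 76) (nat_lit 120496358359)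 (nat_lit 76) (nat_lit 49442732079) (nat_lit 7) (nat_lit 4) (nat_lit 8) (nat_lit 5) (nat_lit 8) (nat_lit 4) (nat_lit 419) (nat_lit 324) (nat_lit 157)) (XT.nd (nat_lit 78) (nat_lit 76) (nat_lit 0) (XT.lf (nat_lit 0) (nat_lit 262516385539) (nat_lit 76) (nat_lit 95700817276) (nat_lit 76) (nat_lit 24646211778) (nat_lit 7) (nat_lit 4) (nat_lit 8) (nat_lit 5) (nat_lit 8) (nat_lit 4) (nat_lit 420) (nat_lit 324) (nat_lit 156)) (XT.lf (nat_lit 0) (nat_lit 1344839456) (nat_lit 152) (nat_lit 68298617201) (nat_lit 76) (nat_lit 330888784988) (nat_lit 6) (nat_lit 5) (nat_lit 8) (nat_lit 5) (nat_lit 7) (nat_lit 4) (nat_lit 421) (nat_lit 324) (nat_lit 155))))))) (XT.nd (nat_lit 39624) (nat_lit 0) (nat_lit 6156) (XT.nd (nat_lit 390) (nat_lit 0) (nat_lit 0) (XT.nd (nat_lit 156) (nat_lit 0) (nat_lit 0) (XT.nd (nat_lit 78) (nat_lit 76) (nat_lit 0) (XT.lf (nat_lit 0) (nat_lit 27806405023) (nat_lit 152) (nat_lit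 14053295969) (nat_lit 76) (nat_lit 377204645582) (nat_lit 6) (nat_lit 5) (nat_lit 8) (nat_lit 5) (nat_lit 7) (nat_lit 4) (nat_lit 422) (nat_lit 324) (nat_lit 154)) (XT.lf (nat_lit 0) (nat_lit 44321449790) (nat_lit 76) (nat_lit 11960853596) (nat_lit 152) (nat_lit 382206190772) (nat_lit 5) (nat_lit 5) (nat_lit 6) (nat_lit 5) (nat_lit 7) (nat_lit 4) (nat_lit 423) (nat_lit 324) (nat_lit 153))) (XT.nd (nat_lit 78) (nat_lit 0) (nat_lit 0) (XT.lf (nat_lit 0) (nat_lit 86726575379) (nat_lit 152) (nat_lit 353077829329) (nat_lit 0) (nat_lit 19052215608) (nat_lit 5) (nat_lit 5) (nat_lit 7) (nat_lit 4) (nat_lit 5) (nat_lit 4) (nat_lit 424) (nat_lit 324) (nat_lit 152)) (XT.nd (nat_lit 78) (nat_lit 0) (nat_lit 0) (XT.lf (nat_lit 0) (nat_lit 118888450175) (nat_lit 152) (nat_lit 310131573574) (nat_lit 0) (nat_lit 51213359697) (nat_lit 5) (nat_lit 5) (nat_lit 7) (nat_lit 4) (nat_lit 5) (nat_lit 4) (nat_lit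 425) (nat_lit 324) (nat_lit 151)) (XT.lf (nat_lit 0) (nat_lit 152657761223) (nat_lit 152) (nat_lit 265039281667) (nat_lit 0) (nat_lit 84981974832) (nat_lit 5) (nat_lit 5) (nat_lit 7) (nat_lit 4) (nat_lit 5) (nat_lit 4) (nat_lit 426) (nat_lit 324) (nat_lit 150))))) (XT.nd (nat_lit 39000) (nat_lit 0) (nat_lit 7752) (XT.nd (nat_lit 78) (nat_lit 0) (nat_lit 0) (XT.lf (nat_lit 0) (nat_lit 188114911644) (nat_lit 152) (nat_lit 217693591009) (nat_lit 0) (nat_lit 120438462480) (nat_lit 5) (nat_lit 5) (nat_lit 7) (nat_lit 4) (nat_lit 5) (nat_lit 4) (nat_lit 427) (nat_lit 324) (nat_lit 149)) (XT.nd (nat_lit 38844) (nat_lit 0) (nat_lit 7752) (XT.lf (nat_lit 0) (nat_lit 225344323226) (nat_lit 152) (nat_lit 167981773765) (nat_lit 0) (nat_lit 157667242848) (nat_lit 5) (nat_lit 5) (nat_lit 7) (nat_lit 4) (nat_lit 5) (nat_lit 4) (nat_lit 428) (nat_lit 324) (nat_lit 148)) (XT.lf (nat_lit 0) (nat_lit 2499746294)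 (nat_lit 0) (nat_lit 2499746294) (nat_lit 684) (nat_lit 2020950523) (nat_lit 107) (nat_lit 5) (nat_lit 107) (nat_lit 3) (nat_lit 116) (nat_lit 3) (nat_lit 325) (nat_lit 325) (nat_lit 250)))) (XT.nd (nat_lit 78) (nat_lit 0) (nat_lit 0) (XT.lf (nat_lit 0) (nat_lit 10594797061) (nat_lit 684) (nat_lit 2475571176) (nat_lit 760) (nat_lit 1303815665) (nat_lit 107) (nat_lit 5) (nat_lit 116) (nat_lit 3) (nat_lit 117) (nat_lit 5) (nat_lit 326) (nat_lit 325) (nat_lit 249)) (XT.nd (nat_lit 78) (nat_lit 0) (nat_lit 0) (XT.lf (nat_lit 76) (nat_lit 4467960681) (nat_lit 0) (nat_lit 6883525684) (nat_lit 760) (nat_lit 3366133455) (nat_lit 108) (nat_lit 5) (nat_lit 107) (nat_lit 5) (nat_lit 117) (nat_lit 5) (nat_lit 327) (nat_lit 325) (nat_lit 248)) (XT.lf (nat_lit 76) (nat_lit 11833177407) (nat_lit 0) (nat_lit 334932040) (nat_lit 760) (nat_lit 2909039492) (nat_lit 108) (nat_lit 5) (nat_lit 107) (nat_lit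 5) (nat_lit 117) (nat_lit 5) (nat_lit 328) (nat_lit 325) (nat_lit 247)))))) (XT.nd (nat_lit 468) (nat_lit 988) (nat_lit 0) (XT.nd (nat_lit 234) (nat_lit 684) (nat_lit 0) (XT.nd (nat_lit 78) (nat_lit 0) (nat_lit 0) (XT.lf (nat_lit 76) (nat_lit 4130076716) (nat_lit 0) (nat_lit 9043336923) (nat_lit 760) (nat_lit 2273873495) (nat_lit 109) (nat_lit 5) (nat_lit 108) (nat_lit 5) (nat_lit 118) (nat_lit 5) (nat_lit 329) (nat_lit 325) (nat_lit 246)) (XT.nd (nat_lit 78) (nat_lit 0) (nat_lit 76) (XT.lf (nat_lit 76) (nat_lit 11967984632) (nat_lit 0) (nat_lit 2303290935) (nat_lit 760) (nat_lit 1562565969) (nat_lit 109) (nat_lit 5) (nat_lit 108) (nat_lit 5) (nat_lit 118) (nat_lit 5) (nat_lit 330) (nat_lit 325) (nat_lit 245)) (XT.lf (nat_lit 76) (nat_lit 3999328587) (nat_lit 0) (nat_lit 11544579042) (nat_lit 760) (nat_lit 689844959) (nat_lit 110) (nat_lit 5) (nat_lit 109) (nat_lit 5) (nat_lit 119) (nat_lit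 5) (nat_lit 331) (nat_lit 325) (nat_lit 244)))) (XT.nd (nat_lit 78) (nat_lit 0) (nat_lit 76) (XT.lf (nat_lit 0) (nat_lit 306804749) (nat_lit 760) (nat_lit 4313352533) (nat_lit 836) (nat_lit 12028968629) (nat_lit 99) (nat_lit 5) (nat_lit 109) (nat_lit 5) (nat_lit 110) (nat_lit 5) (nat_lit 332) (nat_lit 325) (nat_lit 243)) (XT.nd (nat_lit 78) (nat_lit 0) (nat_lit 0) (XT.lf (nat_lit 0) (nat_lit 1421024564) (nat_lit 760) (nat_lit 13012901556) (nat_lit 836) (nat_lit 2646249968) (nat_lit 100) (nat_lit 5) (nat_lit 110) (nat_lit 5) (nat_lit 111) (nat_lit 5) (nat_lit 333) (nat_lit 325) (nat_lit 242)) (XT.lf (nat_lit 0) (nat_lit 2725612181) (nat_lit 760) (nat_lit 4602018217) (nat_lit 836) (nat_lit 10198434277) (nat_lit 100) (nat_lit 5) (nat_lit 110) (nat_lit 5) (nat_lit 111) (nat_lit 5) (nat_lit 334) (nat_lit 325) (nat_lit 241))))) (XT.nd (nat_lit 234) (nat_lit 380) (nat_lit 0) (XT.nd (nat_lit 78)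 (nat_lit 760) (nat_lit 0) (XT.lf (nat_lit 0) (nat_lit 4152098588) (nat_lit 760) (nat_lit 13638021793) (nat_lit 76) (nat_lit 201311692) (nat_lit 101) (nat_lit 5) (nat_lit 111) (nat_lit 5) (nat_lit 102) (nat_lit 5) (nat_lit 335) (nat_lit 325) (nat_lit 240)) (XT.nd (nat_lit 78) (nat_lit 760) (nat_lit 0) (XT.lf (nat_lit 0) (nat_lit 5835195210) (nat_lit 760) (nat_lit 4693789425) (nat_lit 76) (nat_lit 7941835911) (nat_lit 101) (nat_lit 5) (nat_lit 111) (nat_lit 5) (nat_lit 102) (nat_lit 5) (nat_lit 336) (nat_lit 325) (nat_lit 239)) (XT.lf (nat_lit 0) (nat_lit 4840585833) (nat_lit 760) (nat_lit 2824050929) (nat_lit 836) (nat_lit 11306448368) (nat_lit 91) (nat_lit 5) (nat_lit 101) (nat_lit 5) (nat_lit 102) (nat_lit 5) (nat_lit 337) (nat_lit 325) (nat_lit 238)))) (XT.nd (nat_lit 78) (nat_lit 380) (nat_lit 0) (XT.lf (nat_lit 0) (nat_lit 9735649849) (nat_lit 836) (nat_lit 4573756734) (nat_lit 76)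 (nat_lit 5179466807) (nat_lit 91) (nat_lit 5) (nat_lit 102) (nat_lit 5) (nat_lit 92) (nat_lit 5) (nat_lit 338) (nat_lit 325) (nat_lit 237)) (XT.nd (nat_lit 78) (nat_lit 0) (nat_lit 0) (XT.lf (nat_lit 0) (nat_lit 5581273292) (nat_lit 380) (nat_lit 6450076181) (nat_lit 456) (nat_lit 7995159482) (nat_lit 86) (nat_lit 5) (nat_lit 91) (nat_lit 5) (nat_lit 92) (nat_lit 5) (nat_lit 339) (nat_lit 325) (nat_lit 236)) (XT.lf (nat_lit 0) (nat_lit 14536807197) (nat_lit 456) (nat_lit 4226025055) (nat_lit 76) (nat_lit 1823459377) (nat_lit 86) (nat_lit 5) (nat_lit 92) (nat_lit 5) (nat_lit 87) (nat_lit 5) (nat_lit 340) (nat_lit 325) (nat_lit 235))))))))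
noncomputable def xc166 : XT := (XT.nd (nat_lit 1716) (nat_lit 1596) (nat_lit 0) (XT.nd (nat_lit 858) (nat_lit 1368) (nat_lit 0) (XT.nd (nat_lit 390) (nat_lit 912) (nat_lit 0) (XT.nd (nat_lit 156) (nat_lit 760) (nat_lit 0) (XT.nd (nat_lit 78) (nat_lit 0) (nat_lit 0) (XT.lf (nat_lit 0) (nat_lit 6597856416) (nat_lit 304) (nat_lit 10767104519) (nat_lit 380) (nat_lit 3799244666) (nat_lit 82) (nat_lit 5) (nat_lit 86) (nat_lit 5) (nat_lit 87) (nat_lit 5) (nat_lit 341) (nat_lit 325) (nat_lit 234)) (XT.lf (nat_lit 0) (nat_lit 18098115772) (nat_lit 304) (nat_lit 2297008805) (nat_lit 380) (nat_lit 1372873270) (nat_lit 82) (nat_lit 5) (nat_lit 86) (nat_lit 5) (nat_lit 87) (nat_lit 5) (nat_lit 342) (nat_lit 325) (nat_lit 233))) (XT.nd (nat_lit 78) (nat_lit 304) (nat_lit 0) (XT.lf (nat_lit 0) (nat_lit 1356781150) (nat_lit 456) (nat_lit 14502995456) (nat_lit 76) (nat_lit 6530319201) (nat_lit 76) (nat_lit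 5) (nat_lit 82) (nat_lit 5) (nat_lit 77) (nat_lit 5) (nat_lit 343) (nat_lit 325) (nat_lit 232)) (XT.nd (nat_lit 78) (nat_lit 304) (nat_lit 0) (XT.lf (nat_lit 0) (nat_lit 4267296735) (nat_lit 456) (nat_lit 2963707161) (nat_lit 76) (nat_lit 15806654621) (nat_lit 76) (nat_lit 5) (nat_lit 82) (nat_lit 5) (nat_lit 77) (nat_lit 5) (nat_lit 344) (nat_lit 325) (nat_lit 231)) (XT.lf (nat_lit 0) (nat_lit 7491917201) (nat_lit 380) (nat_lit 14298003177) (nat_lit 76) (nat_lit 1919260469) (nat_lit 72) (nat_lit 5) (nat_lit 77) (nat_lit 5) (nat_lit 73) (nat_lit 5) (nat_lit 345) (nat_lit 325) (nat_lit 230))))) (XT.nd (nat_lit 234) (nat_lit 608) (nat_lit 0) (XT.nd (nat_lit 78) (nat_lit 304) (nat_lit 0) (XT.lf (nat_lit 0) (nat_lit 11037779908) (nat_lit 380) (nat_lit 2034839174) (nat_lit 76) (nat_lit 11333669588) (nat_lit 72) (nat_lit 5) (nat_lit 77) (nat_lit 5) (nat_lit 73) (nat_lit 5) (nat_lit 346) (nat_lit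 325) (nat_lit 229)) (XT.nd (nat_lit 78) (nat_lit 0) (nat_lit 0) (XT.lf (nat_lit 0) (nat_lit 11188729806) (nat_lit 304) (nat_lit 3737803411) (nat_lit 380) (nat_lit 10203448262) (nat_lit 68) (nat_lit 5) (nat_lit 72) (nat_lit 5) (nat_lit 73) (nat_lit 5) (nat_lit 347) (nat_lit 325) (nat_lit 228)) (XT.lf (nat_lit 0) (nat_lit 19130569235) (nat_lit 380) (nat_lit 850359108) (nat_lit 76) (nat_lit 5902897349) (nat_lit 68) (nat_lit 5) (nat_lit 73) (nat_lit 5) (nat_lit 69) (nat_lit 5) (nat_lit 348) (nat_lit 325) (nat_lit 227)))) (XT.nd (nat_lit 78) (nat_lit 380) (nat_lit 0) (XT.lf (nat_lit 0) (nat_lit 13247216887) (nat_lit 228) (nat_lit 10557260331) (nat_lit 304) (nat_lit 2857909976) (nat_lit 65) (nat_lit 5) (nat_lit 68) (nat_lit 5) (nat_lit 69) (nat_lit 5) (nat_lit 349) (nat_lit 325) (nat_lit 226)) (XT.nd (nat_lit 78) (nat_lit 0) (nat_lit 0) (XT.lf (nat_lit 0) (nat_lit 588713654) (nat_lit 304) (nat_lit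 619546042) (nat_lit 380) (nat_lit 26269888251) (nat_lit 60) (nat_lit 5) (nat_lit 64) (nat_lit 5) (nat_lit 65) (nat_lit 5) (nat_lit 350) (nat_lit 325) (nat_lit 225)) (XT.lf (nat_lit 0) (nat_lit 5757710897) (nat_lit 380) (nat_lit 12779511290) (nat_lit 76) (nat_lit 9776338543) (nat_lit 60) (nat_lit 5) (nat_lit 65) (nat_lit 5) (nat_lit 61) (nat_lit 5) (nat_lit 351) (nat_lit 325) (nat_lit 224)))))) (XT.nd (nat_lit 390) (nat_lit 684) (nat_lit 0) (XT.nd (nat_lit 156) (nat_lit 456) (nat_lit 0) (XT.nd (nat_lit 78) (nat_lit 0) (nat_lit 0) (XT.lf (nat_lit 0) (nat_lit 2082013118) (nat_lit 228) (nat_lit 8487531891) (nat_lit 304) (nat_lit 18619460688) (nat_lit 57) (nat_lit 5) (nat_lit 60) (nat_lit 5) (nat_lit 61) (nat_lit 5) (nat_lit 352) (nat_lit 325) (nat_lit 223)) (XT.lf (nat_lit 0) (nat_lit 15866596835) (nat_lit 304) (nat_lit 12013445433) (nat_lit 76) (nat_lit 2215956071) (nat_lit 57) (nat_lit 5)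 (nat_lit 61) (nat_lit 5) (nat_lit 58) (nat_lit 5) (nat_lit 353) (nat_lit 325) (nat_lit 222))) (XT.nd (nat_lit 78) (nat_lit 228) (nat_lit 0) (XT.lf (nat_lit 0) (nat_lit 3807453342) (nat_lit 228) (nat_lit 17812409890) (nat_lit 304) (nat_lit 9418915691) (nat_lit 54) (nat_lit 5) (nat_lit 57) (nat_lit 5) (nat_lit 58) (nat_lit 5) (nat_lit 354) (nat_lit 325) (nat_lit 221)) (XT.nd (nat_lit 78) (nat_lit 228) (nat_lit 0) (XT.lf (nat_lit 0) (nat_lit 20826590677) (nat_lit 228) (nat_lit 7030622479) (nat_lit 304) (nat_lit 4161670472) (nat_lit 54) (nat_lit 5) (nat_lit 57) (nat_lit 5) (nat_lit 58) (nat_lit 5) (nat_lit 355) (nat_lit 325) (nat_lit 220)) (XT.lf (nat_lit 0) (nat_lit 1467526753) (nat_lit 228) (nat_lit 27307933416) (nat_lit 76) (nat_lit 4263850072) (nat_lit 51) (nat_lit 5) (nat_lit 54) (nat_lit 5) (nat_lit 52) (nat_lit 5) (nat_lit 356) (nat_lit 325) (nat_lit 219))))) (XT.nd (nat_lit 234) (nat_lit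 456) (nat_lit 0) (XT.nd (nat_lit 78) (nat_lit 228) (nat_lit 0) (XT.lf (nat_lit 0) (nat_lit 7539552681) (nat_lit 228) (nat_lit 10407850313) (nat_lit 76) (nat_lit 16144887846) (nat_lit 51) (nat_lit 5) (nat_lit 54) (nat_lit 5) (nat_lit 52) (nat_lit 5) (nat_lit 357) (nat_lit 325) (nat_lit 218)) (XT.nd (nat_lit 78) (nat_lit 0) (nat_lit 0) (XT.lf (nat_lit 0) (nat_lit 7570213762) (nat_lit 228) (nat_lit 6456794517) (nat_lit 304) (nat_lit 21165325790) (nat_lit 48) (nat_lit 5) (nat_lit 51) (nat_lit 5) (nat_lit 52) (nat_lit 5) (nat_lit 358) (nat_lit 325) (nat_lit 217)) (XT.lf (nat_lit 0) (nat_lit 21099299932) (nat_lit 304) (nat_lit 9629935510) (nat_lit 76) (nat_lit 5605125635) (nat_lit 48) (nat_lit 5) (nat_lit 52) (nat_lit 5) (nat_lit 49) (nat_lit 5) (nat_lit 359) (nat_lit 325) (nat_lit 216)))) (XT.nd (nat_lit 78) (nat_lit 304) (nat_lit 0) (XT.lf (nat_lit 0) (nat_lit 9449464908) (nat_lit 152) (nat_lit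 19323170388) (nat_lit 228) (nat_lit 8748487238) (nat_lit 46) (nat_lit 5) (nat_lit 48) (nat_lit 5) (nat_lit 49) (nat_lit 5) (nat_lit 360) (nat_lit 325) (nat_lit 215)) (XT.nd (nat_lit 78) (nat_lit 304) (nat_lit 0) (XT.lf (nat_lit 0) (nat_lit 29808323488) (nat_lit 152) (nat_lit 7178594382) (nat_lit 228) (nat_lit 1772444506) (nat_lit 46) (nat_lit 5) (nat_lit 48) (nat_lit 5) (nat_lit 49) (nat_lit 5) (nat_lit 361) (nat_lit 325) (nat_lit 214)) (XT.lf (nat_lit 0) (nat_lit 5638276304) (nat_lit 304) (nat_lit 28742850258) (nat_lit 76) (nat_lit 5660877785) (nat_lit 42) (nat_lit 5) (nat_lit 46) (nat_lit 5) (nat_lit 43) (nat_lit 5) (nat_lit 362) (nat_lit 325) (nat_lit 213))))))) (XT.nd (nat_lit 858) (nat_lit 760) (nat_lit 0) (XT.nd (nat_lit 390) (nat_lit 456) (nat_lit 0) (XT.nd (nat_lit 156) (nat_lit 228) (nat_lit 0) (XT.nd (nat_lit 78) (nat_lit 152) (nat_lit 0) (XT.lf (nat_lit 0) (nat_lit 13626188278)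 (nat_lit 304) (nat_lit 8666508944) (nat_lit 76) (nat_lit 19081321074) (nat_lit 42) (nat_lit 5) (nat_lit 46) (nat_lit 5) (nat_lit 43) (nat_lit 5) (nat_lit 363) (nat_lit 325) (nat_lit 212)) (XT.lf (nat_lit 0) (nat_lit 12815537936) (nat_lit 152) (nat_lit 9392771755) (nat_lit 228) (nat_lit 20554586127) (nat_lit 40) (nat_lit 5) (nat_lit 42) (nat_lit 5) (nat_lit 43) (nat_lit 5) (nat_lit 364) (nat_lit 325) (nat_lit 211))) (XT.nd (nat_lit 78) (nat_lit 228) (nat_lit 0) (XT.lf (nat_lit 0) (nat_lit 31428345683) (nat_lit 228) (nat_lit 8616911609) (nat_lit 76) (nat_lit 4165522897) (nat_lit 40) (nat_lit 5) (nat_lit 43) (nat_lit 5) (nat_lit 41) (nat_lit 5) (nat_lit 365) (nat_lit 325) (nat_lit 210)) (XT.nd (nat_lit 78) (nat_lit 76) (nat_lit 0) (XT.lf (nat_lit 0) (nat_lit 14068382777) (nat_lit 152) (nat_lit 27409679058) (nat_lit 228) (nat_lit 4234566260) (nat_lit 38) (nat_lit 5) (nat_lit 40) (nat_lit 5)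 (nat_lit 41) (nat_lit 5) (nat_lit 366) (nat_lit 325) (nat_lit 209)) (XT.lf (nat_lit 0) (nat_lit 4732369997) (nat_lit 228) (nat_lit 9179585498) (nat_lit 76) (nat_lit 33366744739) (nat_lit 37) (nat_lit 5) (nat_lit 40) (nat_lit 5) (nat_lit 38) (nat_lit 5) (nat_lit 367) (nat_lit 325) (nat_lit 208))))) (XT.nd (nat_lit 234) (nat_lit 152) (nat_lit 0) (XT.nd (nat_lit 78) (nat_lit 152) (nat_lit 0) (XT.lf (nat_lit 0) (nat_lit 14240760946) (nat_lit 228) (nat_lit 34112117131) (nat_lit 76) (nat_lit 554958887) (nat_lit 35) (nat_lit 5) (nat_lit 38) (nat_lit 5) (nat_lit 36) (nat_lit 5) (nat_lit 368) (nat_lit 325) (nat_lit 207)) (XT.nd (nat_lit 78) (nat_lit 152) (nat_lit 0) (XT.lf (nat_lit 0) (nat_lit 24606022470) (nat_lit 228) (nat_lit 10560474923) (nat_lit 76) (nat_lit 15432863251) (nat_lit 35) (nat_lit 5) (nat_lit 38) (nat_lit 5) (nat_lit 36) (nat_lit 5) (nat_lit 369) (nat_lit 325) (nat_lit 206)) (XT.lf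 (nat_lit 0) (nat_lit 14629667293) (nat_lit 152) (nat_lit 21083886952) (nat_lit 228) (nat_lit 16650708438) (nat_lit 33) (nat_lit 5) (nat_lit 35) (nat_lit 5) (nat_lit 36) (nat_lit 5) (nat_lit 370) (nat_lit 325) (nat_lit 205)))) (XT.nd (nat_lit 78) (nat_lit 152) (nat_lit 0) (XT.lf (nat_lit 0) (nat_lit 41438747754) (nat_lit 152) (nat_lit 6112255856) (nat_lit 228) (nat_lit 6657681580) (nat_lit 33) (nat_lit 5) (nat_lit 35) (nat_lit 5) (nat_lit 36) (nat_lit 5) (nat_lit 371) (nat_lit 325) (nat_lit 204)) (XT.nd (nat_lit 78) (nat_lit 0) (nat_lit 0) (XT.lf (nat_lit 0) (nat_lit 4078307038) (nat_lit 152) (nat_lit 42467889694) (nat_lit 76) (nat_lit 9577837814) (nat_lit 31) (nat_lit 5) (nat_lit 33) (nat_lit 5) (nat_lit 32) (nat_lit 5) (nat_lit 372) (nat_lit 325) (nat_lit 203)) (XT.lf (nat_lit 0) (nat_lit 15443241637) (nat_lit 152) (nat_lit 16497402983) (nat_lit 76) (nat_lit 26173257305) (nat_lit 31) (nat_lit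 5) (nat_lit 33) (nat_lit 5) (nat_lit 32) (nat_lit 5) (nat_lit 373) (nat_lit 325) (nat_lit 202)))))) (XT.nd (nat_lit 468) (nat_lit 304) (nat_lit 0) (XT.nd (nat_lit 234) (nat_lit 228) (nat_lit 0) (XT.nd (nat_lit 78) (nat_lit 76) (nat_lit 0) (XT.lf (nat_lit 0) (nat_lit 11120828846) (nat_lit 152) (nat_lit 16425294749) (nat_lit 228) (nat_lit 32648656032) (nat_lit 29) (nat_lit 5) (nat_lit 31) (nat_lit 5) (nat_lit 32) (nat_lit 5) (nat_lit 374) (nat_lit 325) (nat_lit 201)) (XT.nd (nat_lit 78) (nat_lit 76) (nat_lit 0) (XT.lf (nat_lit 0) (nat_lit 40532140464) (nat_lit 228) (nat_lit 21682249858) (nat_lit 76) (nat_lit 151413247) (nat_lit 29) (nat_lit 5) (nat_lit 32) (nat_lit 5) (nat_lit 30) (nat_lit 4) (nat_lit 375) (nat_lit 325) (nat_lit 200)) (XT.lf (nat_lit 0) (nat_lit 7028281937) (nat_lit 76) (nat_lit 47514473593) (nat_lit 152) (nat_lit 10083860109) (nat_lit 28) (nat_lit 5) (nat_lit 29) (nat_lit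 5) (nat_lit 30) (nat_lit 4) (nat_lit 376) (nat_lit 325) (nat_lit 199)))) (XT.nd (nat_lit 78) (nat_lit 152) (nat_lit 0) (XT.lf (nat_lit 0) (nat_lit 2550843521) (nat_lit 152) (nat_lit 29102666956) (nat_lit 76) (nat_lit 35326723631) (nat_lit 27) (nat_lit 5) (nat_lit 29) (nat_lit 5) (nat_lit 28) (nat_lit 5) (nat_lit 377) (nat_lit 325) (nat_lit 198)) (XT.nd (nat_lit 78) (nat_lit 0) (nat_lit 0) (XT.lf (nat_lit 0) (nat_lit 667696182) (nat_lit 152) (nat_lit 14817617756) (nat_lit 228) (nat_lit 53957609889) (nat_lit 25) (nat_lit 5) (nat_lit 27) (nat_lit 5) (nat_lit 28) (nat_lit 5) (nat_lit 378) (nat_lit 325) (nat_lit 197)) (XT.lf (nat_lit 0) (nat_lit 29608631816) (nat_lit 228) (nat_lit 39126063351) (nat_lit 76) (nat_lit 3266948149) (nat_lit 25) (nat_lit 5) (nat_lit 28) (nat_lit 5) (nat_lit 26) (nat_lit 4) (nat_lit 379) (nat_lit 325) (nat_lit 196))))) (XT.nd (nat_lit 234) (nat_lit 228) (nat_lit 0)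 (XT.nd (nat_lit 78) (nat_lit 76) (nat_lit 0) (XT.lf (nat_lit 0) (nat_lit 44677715632) (nat_lit 228) (nat_lit 8243239815) (nat_lit 76) (nat_lit 21755364742) (nat_lit 25) (nat_lit 5) (nat_lit 28) (nat_lit 5) (nat_lit 26) (nat_lit 4) (nat_lit 380) (nat_lit 325) (nat_lit 195)) (XT.nd (nat_lit 78) (nat_lit 0) (nat_lit 0) (XT.lf (nat_lit 0) (nat_lit 24977555809) (nat_lit 76) (nat_lit 35909513455) (nat_lit 152) (nat_lit 16578322206) (nat_lit 24) (nat_lit 5) (nat_lit 25) (nat_lit 5) (nat_lit 26) (nat_lit 4) (nat_lit 381) (nat_lit 325) (nat_lit 194)) (XT.lf (nat_lit 0) (nat_lit 60140061458) (nat_lit 76) (nat_lit 17903342418) (nat_lit 152) (nat_lit 2343688054) (nat_lit 24) (nat_lit 5) (nat_lit 25) (nat_lit 5) (nat_lit 26) (nat_lit 4) (nat_lit 382) (nat_lit 325) (nat_lit 193)))) (XT.nd (nat_lit 78) (nat_lit 0) (nat_lit 0) (XT.lf (nat_lit 0) (nat_lit 12434904460) (nat_lit 228) (nat_lit 69609890408)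 (nat_lit 76) (nat_lit 1388465999) (nat_lit 21) (nat_lit 5) (nat_lit 24) (nat_lit 5) (nat_lit 22) (nat_lit 4) (nat_lit 383) (nat_lit 325) (nat_lit 192)) (XT.nd (nat_lit 78) (nat_lit 0) (nat_lit 0) (XT.lf (nat_lit 0) (nat_lit 28512706735) (nat_lit 228) (nat_lit 36657289434) (nat_lit 76) (nat_lit 21427869962) (nat_lit 21) (nat_lit 5) (nat_lit 24) (nat_lit 5) (nat_lit 22) (nat_lit 4) (nat_lit 384) (nat_lit 325) (nat_lit 191)) (XT.lf (nat_lit 0) (nat_lit 45391572023) (nat_lit 228) (nat_lit 2062181011) (nat_lit 76) (nat_lit 42467091031) (nat_lit 21) (nat_lit 5) (nat_lit 24) (nat_lit 5) (nat_lit 22) (nat_lit 4) (nat_lit 385) (nat_lit 325) (nat_lit 190))))))))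
noncomputable def xc167 : XT := (XT.nd (nat_lit 1716) (nat_lit 380) (nat_lit 0) (XT.nd (nat_lit 858) (nat_lit 380) (nat_lit 0) (XT.nd (nat_lit 390) (nat_lit 228) (nat_lit 0) (XT.nd (nat_lit 156) (nat_lit 152) (nat_lit 0) (XT.nd (nat_lit 78) (nat_lit 0) (nat_lit 0) (XT.lf (nat_lit 0) (nat_lit 35390521883) (nat_lit 76) (nat_lit 28273711443) (nat_lit 152) (nat_lit 29718245936) (nat_lit 20) (nat_lit 5) (nat_lit 21) (nat_lit 5) (nat_lit 22) (nat_lit 4) (nat_lit 386) (nat_lit 325) (nat_lit 189)) (XT.lf (nat_lit 0) (nat_lit 74782654212) (nat_lit 76) (nat_lit 8100158312) (nat_lit 152) (nat_lit 14132770409) (nat_lit 20) (nat_lit 5) (nat_lit 21) (nat_lit 5) (nat_lit 22) (nat_lit 4) (nat_lit 387) (nat_lit 325) (nat_lit 188))) (XT.nd (nat_lit 78) (nat_lit 0) (nat_lit 0) (XT.lf (nat_lit 0) (nat_lit 2613174706) (nat_lit 152) (nat_lit 85245642250) (nat_lit 76) (nat_lit 12947151673) (nat_lit 18) (nat_lit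 5) (nat_lit 20) (nat_lit 5) (nat_lit 19) (nat_lit 4) (nat_lit 388) (nat_lit 325) (nat_lit 187)) (XT.nd (nat_lit 78) (nat_lit 0) (nat_lit 0) (XT.lf (nat_lit 0) (nat_lit 20234412885) (nat_lit 152) (nat_lit 49127248160) (nat_lit 76) (nat_lit 35386981674) (nat_lit 18) (nat_lit 5) (nat_lit 20) (nat_lit 5) (nat_lit 19) (nat_lit 4) (nat_lit 389) (nat_lit 325) (nat_lit 186)) (XT.lf (nat_lit 0) (nat_lit 38734295957) (nat_lit 152) (nat_lit 11207387078) (nat_lit 76) (nat_lit 58946889115) (nat_lit 18) (nat_lit 5) (nat_lit 20) (nat_lit 5) (nat_lit 19) (nat_lit 4) (nat_lit 390) (nat_lit 325) (nat_lit 185))))) (XT.nd (nat_lit 234) (nat_lit 152) (nat_lit 0) (XT.nd (nat_lit 78) (nat_lit 0) (nat_lit 0) (XT.lf (nat_lit 0) (nat_lit 29550011282) (nat_lit 76) (nat_lit 29068218470) (nat_lit 152) (nat_lit 54594316221) (nat_lit 17) (nat_lit 5) (nat_lit 18) (nat_lit 5) (nat_lit 19) (nat_lit 4) (nat_lit 391) (nat_lit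 325) (nat_lit 184)) (XT.nd (nat_lit 78) (nat_lit 0) (nat_lit 0) (XT.lf (nat_lit 0) (nat_lit 72730202452) (nat_lit 76) (nat_lit 6953702862) (nat_lit 152) (nat_lit 38059436632) (nat_lit 17) (nat_lit 5) (nat_lit 18) (nat_lit 5) (nat_lit 19) (nat_lit 4) (nat_lit 392) (nat_lit 325) (nat_lit 183)) (XT.lf (nat_lit 0) (nat_lit 102054652488) (nat_lit 152) (nat_lit 4689294096) (nat_lit 0) (nat_lit 15744142421) (nat_lit 17) (nat_lit 5) (nat_lit 19) (nat_lit 4) (nat_lit 17) (nat_lit 4) (nat_lit 393) (nat_lit 325) (nat_lit 182)))) (XT.nd (nat_lit 78) (nat_lit 76) (nat_lit 0) (XT.lf (nat_lit 0) (nat_lit 38773894937) (nat_lit 76) (nat_lit 87487331689) (nat_lit 76) (nat_lit 1172982959) (nat_lit 16) (nat_lit 4) (nat_lit 17) (nat_lit 5) (nat_lit 17) (nat_lit 4) (nat_lit 394) (nat_lit 325) (nat_lit 181)) (XT.nd (nat_lit 78) (nat_lit 0) (nat_lit 0) (XT.lf (nat_lit 0) (nat_lit 18519406728) (nat_lit 152) (nat_lit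 48353220807) (nat_lit 76) (nat_lit 65736205255) (nat_lit 15) (nat_lit 5) (nat_lit 17) (nat_lit 5) (nat_lit 16) (nat_lit 4) (nat_lit 395) (nat_lit 325) (nat_lit 180)) (XT.lf (nat_lit 0) (nat_lit 39155025361) (nat_lit 152) (nat_lit 6053684389) (nat_lit 76) (nat_lit 92832615032) (nat_lit 15) (nat_lit 5) (nat_lit 17) (nat_lit 5) (nat_lit 16) (nat_lit 4) (nat_lit 396) (nat_lit 325) (nat_lit 179)))))) (XT.nd (nat_lit 390) (nat_lit 228) (nat_lit 0) (XT.nd (nat_lit 156) (nat_lit 76) (nat_lit 0) (XT.nd (nat_lit 78) (nat_lit 0) (nat_lit 0) (XT.lf (nat_lit 0) (nat_lit 39625587609) (nat_lit 76) (nat_lit 21813627011) (nat_lit 152) (nat_lit 82275387803) (nat_lit 14) (nat_lit 5) (nat_lit 15) (nat_lit 5) (nat_lit 16) (nat_lit 4) (nat_lit 397) (nat_lit 325) (nat_lit 178)) (XT.lf (nat_lit 0) (nat_lit 84982903784) (nat_lit 152) (nat_lit 61915577545) (nat_lit 0) (nat_lit 2765798601) (nat_lit 14) (nat_lit 5)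 (nat_lit 16) (nat_lit 4) (nat_lit 14) (nat_lit 4) (nat_lit 398) (nat_lit 325) (nat_lit 177))) (XT.nd (nat_lit 78) (nat_lit 76) (nat_lit 0) (XT.lf (nat_lit 0) (nat_lit 110059600305) (nat_lit 152) (nat_lit 17994419692) (nat_lit 0) (nat_lit 27839630653) (nat_lit 14) (nat_lit 5) (nat_lit 16) (nat_lit 4) (nat_lit 14) (nat_lit 4) (nat_lit 399) (nat_lit 325) (nat_lit 176)) (XT.nd (nat_lit 78) (nat_lit 0) (nat_lit 0) (XT.lf (nat_lit 0) (nat_lit 29049365907) (nat_lit 76) (nat_lit 107792614861) (nat_lit 76) (nat_lit 25569917143) (nat_lit 13) (nat_lit 4) (nat_lit 14) (nat_lit 5) (nat_lit 14) (nat_lit 4) (nat_lit 400) (nat_lit 325) (nat_lit 175)) (XT.lf (nat_lit 0) (nat_lit 79066926606) (nat_lit 76) (nat_lit 86199636549) (nat_lit 76) (nat_lit 3974340672) (nat_lit 13) (nat_lit 4) (nat_lit 14) (nat_lit 5) (nat_lit 14) (nat_lit 4) (nat_lit 401) (nat_lit 325) (nat_lit 174))))) (XT.nd (nat_lit 234) (nat_lit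 76) (nat_lit 0) (XT.nd (nat_lit 78) (nat_lit 76) (nat_lit 0) (XT.lf (nat_lit 0) (nat_lit 18100856828) (nat_lit 152) (nat_lit 45121013815) (nat_lit 76) (nat_lit 113174971457) (nat_lit 12) (nat_lit 5) (nat_lit 14) (nat_lit 5) (nat_lit 13) (nat_lit 4) (nat_lit 402) (nat_lit 325) (nat_lit 173)) (XT.nd (nat_lit 78) (nat_lit 0) (nat_lit 0) (XT.lf (nat_lit 0) (nat_lit 2186528272) (nat_lit 76) (nat_lit 38992327919) (nat_lit 152) (nat_lit 142726833524) (nat_lit 11) (nat_lit 5) (nat_lit 12) (nat_lit 5) (nat_lit 13) (nat_lit 4) (nat_lit 403) (nat_lit 325) (nat_lit 172)) (XT.lf (nat_lit 0) (nat_lit 53423095012) (nat_lit 76) (nat_lit 12750303192) (nat_lit 152) (nat_lit 125578449731) (nat_lit 11) (nat_lit 5) (nat_lit 12) (nat_lit 5) (nat_lit 13) (nat_lit 4) (nat_lit 404) (nat_lit 325) (nat_lit 171)))) (XT.nd (nat_lit 78) (nat_lit 76) (nat_lit 0) (XT.lf (nat_lit 0) (nat_lit 92647344503) (nat_lit 152)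 (nat_lit 93002721373) (nat_lit 0) (nat_lit 14328764675) (nat_lit 11) (nat_lit 5) (nat_lit 13) (nat_lit 4) (nat_lit 11) (nat_lit 4) (nat_lit 405) (nat_lit 325) (nat_lit 170)) (XT.nd (nat_lit 78) (nat_lit 76) (nat_lit 0) (XT.lf (nat_lit 0) (nat_lit 120652626645) (nat_lit 152) (nat_lit 45622046022) (nat_lit 0) (nat_lit 42332108031) (nat_lit 11) (nat_lit 5) (nat_lit 13) (nat_lit 4) (nat_lit 11) (nat_lit 4) (nat_lit 406) (nat_lit 325) (nat_lit 169)) (XT.lf (nat_lit 0) (nat_lit 4261548389) (nat_lit 76) (nat_lit 145861842232) (nat_lit 76) (nat_lit 67539477156) (nat_lit 10) (nat_lit 4) (nat_lit 11) (nat_lit 5) (nat_lit 11) (nat_lit 4) (nat_lit 407) (nat_lit 325) (nat_lit 168))))))) (XT.nd (nat_lit 858) (nat_lit 152) (nat_lit 0) (XT.nd (nat_lit 390) (nat_lit 76) (nat_lit 0) (XT.nd (nat_lit 156) (nat_lit 152) (nat_lit 0) (XT.nd (nat_lit 78) (nat_lit 0) (nat_lit 0) (XT.lf (nat_lit 0) (nat_lit 58220746569)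 (nat_lit 76) (nat_lit 123618284810) (nat_lit 76) (nat_lit 45294161197) (nat_lit 10) (nat_lit 4) (nat_lit 11) (nat_lit 5) (nat_lit 11) (nat_lit 4) (nat_lit 408) (nat_lit 325) (nat_lit 167)) (XT.lf (nat_lit 0) (nat_lit 114875551924) (nat_lit 76) (nat_lit 100263670973) (nat_lit 76) (nat_lit 21937872565) (nat_lit 10) (nat_lit 4) (nat_lit 11) (nat_lit 5) (nat_lit 11) (nat_lit 4) (nat_lit 409) (nat_lit 325) (nat_lit 166))) (XT.nd (nat_lit 78) (nat_lit 76) (nat_lit 0) (XT.lf (nat_lit 0) (nat_lit 2502262842) (nat_lit 152) (nat_lit 73197754626) (nat_lit 76) (nat_lit 171816216972) (nat_lit 9) (nat_lit 5) (nat_lit 11) (nat_lit 5) (nat_lit 10) (nat_lit 4) (nat_lit 410) (nat_lit 325) (nat_lit 165)) (XT.nd (nat_lit 78) (nat_lit 76) (nat_lit 0) (XT.lf (nat_lit 0) (nat_lit 27426013285) (nat_lit 152) (nat_lit 22105585307) (nat_lit 76) (nat_lit 208927806923) (nat_lit 9) (nat_lit 5) (nat_lit 11) (nat_lit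 5) (nat_lit 10) (nat_lit 4) (nat_lit 411) (nat_lit 325) (nat_lit 164)) (XT.lf (nat_lit 0) (nat_lit 32581949990) (nat_lit 76) (nat_lit 21521615514) (nat_lit 152) (nat_lit 215820789160) (nat_lit 8) (nat_lit 5) (nat_lit 9) (nat_lit 5) (nat_lit 10) (nat_lit 4) (nat_lit 412) (nat_lit 325) (nat_lit 163))))) (XT.nd (nat_lit 234) (nat_lit 76) (nat_lit 0) (XT.nd (nat_lit 78) (nat_lit 0) (nat_lit 0) (XT.lf (nat_lit 0) (nat_lit 82617591853) (nat_lit 152) (nat_lit 191303892391) (nat_lit 0) (nat_lit 8015937421) (nat_lit 8) (nat_lit 5) (nat_lit 10) (nat_lit 4) (nat_lit 8) (nat_lit 4) (nat_lit 413) (nat_lit 325) (nat_lit 162)) (XT.nd (nat_lit 78) (nat_lit 0) (nat_lit 0) (XT.lf (nat_lit 0) (nat_lit 112909107387) (nat_lit 152) (nat_lit 143318242251) (nat_lit 0) (nat_lit 38306203196) (nat_lit 8) (nat_lit 5) (nat_lit 10) (nat_lit 4) (nat_lit 8) (nat_lit 4) (nat_lit 414) (nat_lit 325) (nat_lit 161)) (XT.lf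 (nat_lit 0) (nat_lit 144714222029) (nat_lit 152) (nat_lit 92935189972) (nat_lit 0) (nat_lit 70110127593) (nat_lit 8) (nat_lit 5) (nat_lit 10) (nat_lit 4) (nat_lit 8) (nat_lit 4) (nat_lit 415) (nat_lit 325) (nat_lit 160)))) (XT.nd (nat_lit 78) (nat_lit 76) (nat_lit 0) (XT.lf (nat_lit 0) (nat_lit 178108662245) (nat_lit 152) (nat_lit 40034775908) (nat_lit 0) (nat_lit 103503434240) (nat_lit 8) (nat_lit 5) (nat_lit 10) (nat_lit 4) (nat_lit 8) (nat_lit 4) (nat_lit 416) (nat_lit 325) (nat_lit 159)) (XT.nd (nat_lit 78) (nat_lit 0) (nat_lit 0) (XT.lf (nat_lit 0) (nat_lit 16021749345) (nat_lit 76) (nat_lit 197400333666) (nat_lit 76) (nat_lit 122794026073) (nat_lit 7) (nat_lit 4) (nat_lit 8) (nat_lit 5) (nat_lit 8) (nat_lit 4) (nat_lit 417) (nat_lit 325) (nat_lit 158)) (XT.lf (nat_lit 0) (nat_lit 76269339839) (nat_lit 76) (nat_lit 174908973399) (nat_lit 76) (nat_lit 100301637626) (nat_lit 7) (nat_lit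 4) (nat_lit 8) (nat_lit 5) (nat_lit 8) (nat_lit 4) (nat_lit 418) (nat_lit 325) (nat_lit 157)))))) (XT.nd (nat_lit 468) (nat_lit 0) (nat_lit 0) (XT.nd (nat_lit 234) (nat_lit 152) (nat_lit 0) (XT.nd (nat_lit 78) (nat_lit 0) (nat_lit 0) (XT.lf (nat_lit 0) (nat_lit 139527711723) (nat_lit 76) (nat_lit 151293814795) (nat_lit 76) (nat_lit 76685499803) (nat_lit 7) (nat_lit 4) (nat_lit 8) (nat_lit 5) (nat_lit 8) (nat_lit 4) (nat_lit 419) (nat_lit 325) (nat_lit 156)) (XT.nd (nat_lit 78) (nat_lit 0) (nat_lit 0) (XT.lf (nat_lit 0) (nat_lit 205947480168) (nat_lit 76) (nat_lit 126498631285) (nat_lit 76) (nat_lit 51889383705) (nat_lit 7) (nat_lit 4) (nat_lit 8) (nat_lit 5) (nat_lit 8) (nat_lit 4) (nat_lit 420) (nat_lit 325) (nat_lit 155)) (XT.lf (nat_lit 0) (nat_lit 275686787480) (nat_lit 76) (nat_lit 100464386719) (nat_lit 76) (nat_lit 25854250959) (nat_lit 7) (nat_lit 4) (nat_lit 8) (nat_lit 5) (nat_lit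 8) (nat_lit 4) (nat_lit 421) (nat_lit 325) (nat_lit 154)))) (XT.nd (nat_lit 78) (nat_lit 76) (nat_lit 0) (XT.lf (nat_lit 0) (nat_lit 1434457212) (nat_lit 152) (nat_lit 71670344362) (nat_lit 76) (nat_lit 347452929190) (nat_lit 6) (nat_lit 5) (nat_lit 8) (nat_lit 5) (nat_lit 7) (nat_lit 4) (nat_lit 422) (nat_lit 325) (nat_lit 153)) (XT.nd (nat_lit 78) (nat_lit 76) (nat_lit 0) (XT.lf (nat_lit 0) (nat_lit 29218035543) (nat_lit 152) (nat_lit 14714814387) (nat_lit 76) (nat_lit 396083644482) (nat_lit 6) (nat_lit 5) (nat_lit 8) (nat_lit 5) (nat_lit 7) (nat_lit 4) (nat_lit 423) (nat_lit 325) (nat_lit 152)) (XT.lf (nat_lit 0) (nat_lit 46578005009) (nat_lit 76) (nat_lit 12539341090) (nat_lit 152) (nat_lit 401294522604) (nat_lit 5) (nat_lit 5) (nat_lit 6) (nat_lit 5) (nat_lit 7) (nat_lit 4) (nat_lit 424) (nat_lit 325) (nat_lit 151))))) (XT.nd (nat_lit 234) (nat_lit 0) (nat_lit 0) (XT.nd (nat_lit 78)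 (nat_lit 0) (nat_lit 0) (XT.lf (nat_lit 0) (nat_lit 91083125914) (nat_lit 152) (nat_lit 370692456432) (nat_lit 0) (nat_lit 20022854291) (nat_lit 5) (nat_lit 5) (nat_lit 7) (nat_lit 4) (nat_lit 5) (nat_lit 4) (nat_lit 425) (nat_lit 325) (nat_lit 150)) (XT.nd (nat_lit 78) (nat_lit 0) (nat_lit 0) (XT.lf (nat_lit 0) (nat_lit 124852131509) (nat_lit 152) (nat_lit 325600757620) (nat_lit 0) (nat_lit 53791197112) (nat_lit 5) (nat_lit 5) (nat_lit 7) (nat_lit 4) (nat_lit 5) (nat_lit 4) (nat_lit 426) (nat_lit 325) (nat_lit 149)) (XT.lf (nat_lit 0) (nat_lit 160308991022) (nat_lit 152) (nat_lit 278255631815) (nat_lit 0) (nat_lit 89247425413) (nat_lit 5) (nat_lit 5) (nat_lit 7) (nat_lit 4) (nat_lit 5) (nat_lit 4) (nat_lit 427) (nat_lit 325) (nat_lit 148)))) (XT.nd (nat_lit 38922) (nat_lit 0) (nat_lit 7752) (XT.lf (nat_lit 0) (nat_lit 197538125549) (nat_lit 152) (nat_lit 228544352526) (nat_lit 0) (nat_lit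 126475958784) (nat_lit 5) (nat_lit 5) (nat_lit 7) (nat_lit 4) (nat_lit 5) (nat_lit 4) (nat_lit 428) (nat_lit 325) (nat_lit 147)) (XT.nd (nat_lit 78) (nat_lit 0) (nat_lit 0) (XT.lf (nat_lit 0) (nat_lit 2784602012) (nat_lit 0) (nat_lit 2784602012) (nat_lit 684) (nat_lit 1785848543) (nat_lit 107) (nat_lit 5) (nat_lit 107) (nat_lit 3) (nat_lit 116) (nat_lit 3) (nat_lit 326) (nat_lit 326) (nat_lit 248)) (XT.lf (nat_lit 0) (nat_lit 11728805131) (nat_lit 684) (nat_lit 2258821933) (nat_lit 760) (nat_lit 1074241465) (nat_lit 107) (nat_lit 5) (nat_lit 116) (nat_lit 3) (nat_lit 117) (nat_lit 5) (nat_lit 327) (nat_lit 326) (nat_lit 247))))))))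
noncomputable def xc168 : XT := (XT.nd (nat_lit 1716) (nat_lit 2660) (nat_lit 0) (XT.nd (nat_lit 858) (nat_lit 1748) (nat_lit 0) (XT.nd (nat_lit 390) (nat_lit 1216) (nat_lit 0) (XT.nd (nat_lit 156) (nat_lit 0) (nat_lit 76) (XT.nd (nat_lit 78) (nat_lit 0) (nat_lit 0) (XT.lf (nat_lit 76) (nat_lit 5026394133) (nat_lit 0) (nat_lit 7473390931) (nat_lit 760) (nat_lit 2923906995) (nat_lit 108) (nat_lit 5) (nat_lit 107) (nat_lit 5) (nat_lit 117) (nat_lit 5) (nat_lit 328) (nat_lit 326) (nat_lit 246)) (XT.lf (nat_lit 76) (nat_lit 12743917628) (nat_lit 0) (nat_lit 585668131) (nat_lit 760) (nat_lit 2473031341) (nat_lit 108) (nat_lit 5) (nat_lit 107) (nat_lit 5) (nat_lit 117) (nat_lit 5) (nat_lit 329) (nat_lit 326) (nat_lit 245))) (XT.nd (nat_lit 78) (nat_lit 0) (nat_lit 0) (XT.lf (nat_lit 76) (nat_lit 4682041133) (nat_lit 0) (nat_lit 9678691661) (nat_lit 760) (nat_lit 1831785565) (nat_lit 109) (nat_lit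 5) (nat_lit 108) (nat_lit 5) (nat_lit 118) (nat_lit 5) (nat_lit 330) (nat_lit 326) (nat_lit 244)) (XT.nd (nat_lit 78) (nat_lit 0) (nat_lit 76) (XT.lf (nat_lit 76) (nat_lit 12895393941) (nat_lit 0) (nat_lit 2592920140) (nat_lit 760) (nat_lit 1111378453) (nat_lit 109) (nat_lit 5) (nat_lit 108) (nat_lit 5) (nat_lit 118) (nat_lit 5) (nat_lit 331) (nat_lit 326) (nat_lit 243)) (XT.lf (nat_lit 76) (nat_lit 4551102715) (nat_lit 0) (nat_lit 12252398575) (nat_lit 760) (nat_lit 217183451) (nat_lit 110) (nat_lit 5) (nat_lit 109) (nat_lit 5) (nat_lit 119) (nat_lit 5) (nat_lit 332) (nat_lit 326) (nat_lit 242))))) (XT.nd (nat_lit 234) (nat_lit 608) (nat_lit 0) (XT.nd (nat_lit 78) (nat_lit 0) (nat_lit 76) (XT.lf (nat_lit 0) (nat_lit 789689433) (nat_lit 760) (nat_lit 4177929603) (nat_lit 836) (nat_lit 12490009473) (nat_lit 99) (nat_lit 5) (nat_lit 109) (nat_lit 5) (nat_lit 110) (nat_lit 5) (nat_lit 333)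 (nat_lit 326) (nat_lit 241)) (XT.nd (nat_lit 78) (nat_lit 0) (nat_lit 0) (XT.lf (nat_lit 0) (nat_lit 1941106133) (nat_lit 760) (nat_lit 13293392948) (nat_lit 836) (nat_lit 2676685270) (nat_lit 100) (nat_lit 5) (nat_lit 110) (nat_lit 5) (nat_lit 111) (nat_lit 5) (nat_lit 334) (nat_lit 326) (nat_lit 240)) (XT.lf (nat_lit 0) (nat_lit 3289540733) (nat_lit 760) (nat_lit 4479591808) (nat_lit 836) (nat_lit 10611330090) (nat_lit 100) (nat_lit 5) (nat_lit 110) (nat_lit 5) (nat_lit 111) (nat_lit 5) (nat_lit 335) (nat_lit 326) (nat_lit 239)))) (XT.nd (nat_lit 78) (nat_lit 760) (nat_lit 0) (XT.lf (nat_lit 0) (nat_lit 4771374218) (nat_lit 760) (nat_lit 13950920339) (nat_lit 76) (nat_lit 147627602) (nat_lit 101) (nat_lit 5) (nat_lit 111) (nat_lit 5) (nat_lit 102) (nat_lit 5) (nat_lit 336) (nat_lit 326) (nat_lit 238)) (XT.nd (nat_lit 78) (nat_lit 760) (nat_lit 0) (XT.lf (nat_lit 0) (nat_lit 6519022305)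 (nat_lit 760) (nat_lit 4577047903) (nat_lit 76) (nat_lit 8278213731) (nat_lit 101) (nat_lit 5) (nat_lit 111) (nat_lit 5) (nat_lit 102) (nat_lit 5) (nat_lit 337) (nat_lit 326) (nat_lit 237)) (XT.lf (nat_lit 0) (nat_lit 5428377876) (nat_lit 760) (nat_lit 2998286511) (nat_lit 836) (nat_lit 11473583527) (nat_lit 91) (nat_lit 5) (nat_lit 101) (nat_lit 5) (nat_lit 102) (nat_lit 5) (nat_lit 338) (nat_lit 326) (nat_lit 236)))))) (XT.nd (nat_lit 390) (nat_lit 1064) (nat_lit 0) (XT.nd (nat_lit 156) (nat_lit 304) (nat_lit 0) (XT.nd (nat_lit 78) (nat_lit 380) (nat_lit 0) (XT.lf (nat_lit 0) (nat_lit 10582699055) (nat_lit 836) (nat_lit 4454187464) (nat_lit 76) (nat_lit 5407987030) (nat_lit 91) (nat_lit 5) (nat_lit 102) (nat_lit 5) (nat_lit 92) (nat_lit 5) (nat_lit 339) (nat_lit 326) (nat_lit 235)) (XT.lf (nat_lit 0) (nat_lit 6202977013) (nat_lit 380) (nat_lit 6778400660) (nat_lit 456) (nat_lit 8028624003)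 (nat_lit 86) (nat_lit 5) (nat_lit 91) (nat_lit 5) (nat_lit 92) (nat_lit 5) (nat_lit 340) (nat_lit 326) (nat_lit 234))) (XT.nd (nat_lit 78) (nat_lit 304) (nat_lit 0) (XT.lf (nat_lit 0) (nat_lit 15595428366) (nat_lit 456) (nat_lit 4093932346) (nat_lit 76) (nat_lit 1909266276) (nat_lit 86) (nat_lit 5) (nat_lit 92) (nat_lit 5) (nat_lit 87) (nat_lit 5) (nat_lit 341) (nat_lit 326) (nat_lit 233)) (XT.nd (nat_lit 78) (nat_lit 0) (nat_lit 0) (XT.lf (nat_lit 0) (nat_lit 7265604587) (nat_lit 304) (nat_lit 11288860987) (nat_lit 380) (nat_lit 3651515876) (nat_lit 82) (nat_lit 5) (nat_lit 86) (nat_lit 5) (nat_lit 87) (nat_lit 5) (nat_lit 342) (nat_lit 326) (nat_lit 232)) (XT.lf (nat_lit 0) (nat_lit 19324788560) (nat_lit 304) (nat_lit 2396050904) (nat_lit 380) (nat_lit 1119906435) (nat_lit 82) (nat_lit 5) (nat_lit 86) (nat_lit 5) (nat_lit 87) (nat_lit 5) (nat_lit 343) (nat_lit 326) (nat_lit 231))))) (XT.nd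 (nat_lit 234) (nat_lit 304) (nat_lit 0) (XT.nd (nat_lit 78) (nat_lit 304) (nat_lit 0) (XT.lf (nat_lit 0) (nat_lit 1726615657) (nat_lit 456) (nat_lit 14886105125) (nat_lit 76) (nat_lit 6881459040) (nat_lit 76) (nat_lit 5) (nat_lit 82) (nat_lit 5) (nat_lit 77) (nat_lit 5) (nat_lit 344) (nat_lit 326) (nat_lit 230)) (XT.nd (nat_lit 78) (nat_lit 304) (nat_lit 0) (XT.lf (nat_lit 0) (nat_lit 4768276286) (nat_lit 456) (nat_lit 2786140039) (nat_lit 76) (nat_lit 16620438665) (nat_lit 76) (nat_lit 5) (nat_lit 82) (nat_lit 5) (nat_lit 77) (nat_lit 5) (nat_lit 345) (nat_lit 326) (nat_lit 229)) (XT.lf (nat_lit 0) (nat_lit 8146084828) (nat_lit 380) (nat_lit 14678816750) (nat_lit 76) (nat_lit 2055468562) (nat_lit 72) (nat_lit 5) (nat_lit 77) (nat_lit 5) (nat_lit 73) (nat_lit 5) (nat_lit 346) (nat_lit 326) (nat_lit 228)))) (XT.nd (nat_lit 78) (nat_lit 304) (nat_lit 0) (XT.lf (nat_lit 0) (nat_lit 11855927730)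 (nat_lit 380) (nat_lit 1818403433) (nat_lit 76) (nat_lit 11938681705) (nat_lit 72) (nat_lit 5) (nat_lit 77) (nat_lit 5) (nat_lit 73) (nat_lit 5) (nat_lit 347) (nat_lit 326) (nat_lit 227)) (XT.nd (nat_lit 78) (nat_lit 0) (nat_lit 0) (XT.lf (nat_lit 0) (nat_lit 12061212098) (nat_lit 304) (nat_lit 3870115137) (nat_lit 380) (nat_lit 10441965861) (nat_lit 68) (nat_lit 5) (nat_lit 72) (nat_lit 5) (nat_lit 73) (nat_lit 5) (nat_lit 348) (nat_lit 326) (nat_lit 226)) (XT.lf (nat_lit 0) (nat_lit 20334068630) (nat_lit 380) (nat_lit 582990267) (nat_lit 76) (nat_lit 6248358020) (nat_lit 68) (nat_lit 5) (nat_lit 73) (nat_lit 5) (nat_lit 69) (nat_lit 5) (nat_lit 349) (nat_lit 326) (nat_lit 225))))))) (XT.nd (nat_lit 858) (nat_lit 1140) (nat_lit 0) (XT.nd (nat_lit 390) (nat_lit 684) (nat_lit 0) (XT.nd (nat_lit 156) (nat_lit 228) (nat_lit 0) (XT.nd (nat_lit 78) (nat_lit 380) (nat_lit 0) (XT.lf (nat_lit 0)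 (nat_lit 14214466355) (nat_lit 228) (nat_lit 11020205303) (nat_lit 304) (nat_lit 2748596831) (nat_lit 65) (nat_lit 5) (nat_lit 68) (nat_lit 5) (nat_lit 69) (nat_lit 5) (nat_lit 350) (nat_lit 326) (nat_lit 224)) (XT.lf (nat_lit 0) (nat_lit 926286907) (nat_lit 304) (nat_lit 579707516) (nat_lit 380) (nat_lit 27333977568) (nat_lit 60) (nat_lit 5) (nat_lit 64) (nat_lit 5) (nat_lit 65) (nat_lit 5) (nat_lit 351) (nat_lit 326) (nat_lit 223))) (XT.nd (nat_lit 78) (nat_lit 228) (nat_lit 0) (XT.lf (nat_lit 0) (nat_lit 6272670131) (nat_lit 380) (nat_lit 13114567530) (nat_lit 76) (nat_lit 10330440499) (nat_lit 60) (nat_lit 5) (nat_lit 65) (nat_lit 5) (nat_lit 61) (nat_lit 5) (nat_lit 352) (nat_lit 326) (nat_lit 222)) (XT.nd (nat_lit 78) (nat_lit 0) (nat_lit 0) (XT.lf (nat_lit 0) (nat_lit 2485131173) (nat_lit 228) (nat_lit 8833820243) (nat_lit 304) (nat_lit 19318261040) (nat_lit 57) (nat_lit 5) (nat_lit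 60) (nat_lit 5) (nat_lit 61) (nat_lit 5) (nat_lit 353) (nat_lit 326) (nat_lit 221)) (XT.lf (nat_lit 0) (nat_lit 16871496518) (nat_lit 304) (nat_lit 12319792229) (nat_lit 76) (nat_lit 2398743334) (nat_lit 57) (nat_lit 5) (nat_lit 61) (nat_lit 5) (nat_lit 58) (nat_lit 5) (nat_lit 354) (nat_lit 326) (nat_lit 220))))) (XT.nd (nat_lit 234) (nat_lit 228) (nat_lit 0) (XT.nd (nat_lit 78) (nat_lit 228) (nat_lit 0) (XT.lf (nat_lit 0) (nat_lit 4287404300) (nat_lit 228) (nat_lit 18619468309) (nat_lit 304) (nat_lit 9673365703) (nat_lit 54) (nat_lit 5) (nat_lit 57) (nat_lit 5) (nat_lit 58) (nat_lit 5) (nat_lit 355) (nat_lit 326) (nat_lit 219)) (XT.nd (nat_lit 78) (nat_lit 228) (nat_lit 0) (XT.lf (nat_lit 0) (nat_lit 22143709059) (nat_lit 228) (nat_lit 7302570674) (nat_lit 304) (nat_lit 4163567546) (nat_lit 54) (nat_lit 5) (nat_lit 57) (nat_lit 5) (nat_lit 58) (nat_lit 5) (nat_lit 356) (nat_lit 326) (nat_lit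 218)) (XT.lf (nat_lit 0) (nat_lit 1736631141) (nat_lit 228) (nat_lit 28386766302) (nat_lit 76) (nat_lit 4557937500) (nat_lit 51) (nat_lit 5) (nat_lit 54) (nat_lit 5) (nat_lit 52) (nat_lit 5) (nat_lit 357) (nat_lit 326) (nat_lit 217)))) (XT.nd (nat_lit 78) (nat_lit 228) (nat_lit 0) (XT.lf (nat_lit 0) (nat_lit 8102937982) (nat_lit 228) (nat_lit 10655324938) (nat_lit 76) (nat_lit 17029175023) (nat_lit 51) (nat_lit 5) (nat_lit 54) (nat_lit 5) (nat_lit 52) (nat_lit 5) (nat_lit 358) (nat_lit 326) (nat_lit 216)) (XT.nd (nat_lit 78) (nat_lit 0) (nat_lit 0) (XT.lf (nat_lit 0) (nat_lit 8217240439) (nat_lit 228) (nat_lit 6692841652) (nat_lit 304) (nat_lit 22032642459) (nat_lit 48) (nat_lit 5) (nat_lit 51) (nat_lit 5) (nat_lit 52) (nat_lit 5) (nat_lit 359) (nat_lit 326) (nat_lit 215)) (XT.lf (nat_lit 0) (nat_lit 22328625380) (nat_lit 304) (nat_lit 9848206443) (nat_lit 76) (nat_lit 5965395903) (nat_lit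 48) (nat_lit 5) (nat_lit 52) (nat_lit 5) (nat_lit 49) (nat_lit 5) (nat_lit 360) (nat_lit 326) (nat_lit 214)))))) (XT.nd (nat_lit 468) (nat_lit 532) (nat_lit 0) (XT.nd (nat_lit 234) (nat_lit 152) (nat_lit 0) (XT.nd (nat_lit 78) (nat_lit 304) (nat_lit 0) (XT.lf (nat_lit 0) (nat_lit 10180918418) (nat_lit 152) (nat_lit 20200449622) (nat_lit 228) (nat_lit 9007178538) (nat_lit 46) (nat_lit 5) (nat_lit 48) (nat_lit 5) (nat_lit 49) (nat_lit 5) (nat_lit 361) (nat_lit 326) (nat_lit 213)) (XT.nd (nat_lit 78) (nat_lit 304) (nat_lit 0) (XT.lf (nat_lit 0) (nat_lit 31545387534) (nat_lit 152) (nat_lit 7452877164) (nat_lit 228) (nat_lit 1690844768) (nat_lit 46) (nat_lit 5) (nat_lit 48) (nat_lit 5) (nat_lit 49) (nat_lit 5) (nat_lit 362) (nat_lit 326) (nat_lit 212)) (XT.lf (nat_lit 0) (nat_lit 6082355406) (nat_lit 304) (nat_lit 29925063268) (nat_lit 76) (nat_lit 6028467892) (nat_lit 42) (nat_lit 5) (nat_lit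 46) (nat_lit 5) (nat_lit 43) (nat_lit 5) (nat_lit 363) (nat_lit 326) (nat_lit 211)))) (XT.nd (nat_lit 78) (nat_lit 152) (nat_lit 0) (XT.lf (nat_lit 0) (nat_lit 14461940823) (nat_lit 304) (nat_lit 8857044388) (nat_lit 76) (nat_lit 20115907334) (nat_lit 42) (nat_lit 5) (nat_lit 46) (nat_lit 5) (nat_lit 43) (nat_lit 5) (nat_lit 364) (nat_lit 326) (nat_lit 210)) (XT.nd (nat_lit 78) (nat_lit 0) (nat_lit 0) (XT.lf (nat_lit 0) (nat_lit 13695188868) (nat_lit 152) (nat_lit 9774354496) (nat_lit 228) (nat_lit 21423856802) (nat_lit 40) (nat_lit 5) (nat_lit 42) (nat_lit 5) (nat_lit 43) (nat_lit 5) (nat_lit 365) (nat_lit 326) (nat_lit 209)) (XT.lf (nat_lit 0) (nat_lit 33144708669) (nat_lit 228) (nat_lit 8814290829) (nat_lit 76) (nat_lit 4454977622) (nat_lit 40) (nat_lit 5) (nat_lit 43) (nat_lit 5) (nat_lit 41) (nat_lit 5) (nat_lit 366) (nat_lit 326) (nat_lit 208))))) (XT.nd (nat_lit 234) (nat_lit 152)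 (nat_lit 0) (XT.nd (nat_lit 78) (nat_lit 228) (nat_lit 0) (XT.lf (nat_lit 0) (nat_lit 15001502691) (nat_lit 152) (nat_lit 28692092036) (nat_lit 228) (nat_lit 4297493005) (nat_lit 38) (nat_lit 5) (nat_lit 40) (nat_lit 5) (nat_lit 41) (nat_lit 5) (nat_lit 367) (nat_lit 326) (nat_lit 207)) (XT.nd (nat_lit 78) (nat_lit 152) (nat_lit 0) (XT.lf (nat_lit 0) (nat_lit 5106168486) (nat_lit 228) (nat_lit 9415184455) (nat_lit 76) (nat_lit 35114341420) (nat_lit 37) (nat_lit 5) (nat_lit 40) (nat_lit 5) (nat_lit 38) (nat_lit 5) (nat_lit 368) (nat_lit 326) (nat_lit 206)) (XT.lf (nat_lit 0) (nat_lit 15088215937) (nat_lit 228) (nat_lit 35592501637) (nat_lit 76) (nat_lit 665662406) (nat_lit 35) (nat_lit 5) (nat_lit 38) (nat_lit 5) (nat_lit 36) (nat_lit 5) (nat_lit 369) (nat_lit 326) (nat_lit 205)))) (XT.nd (nat_lit 78) (nat_lit 152) (nat_lit 0) (XT.lf (nat_lit 0) (nat_lit 25965292110) (nat_lit 228) (nat_lit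 10874002145) (nat_lit 76) (nat_lit 16283511722) (nat_lit 35) (nat_lit 5) (nat_lit 38) (nat_lit 5) (nat_lit 36) (nat_lit 5) (nat_lit 370) (nat_lit 326) (nat_lit 204)) (XT.nd (nat_lit 78) (nat_lit 0) (nat_lit 0) (XT.lf (nat_lit 0) (nat_lit 15572187560) (nat_lit 152) (nat_lit 22053166434) (nat_lit 228) (nat_lit 17350744985) (nat_lit 33) (nat_lit 5) (nat_lit 35) (nat_lit 5) (nat_lit 36) (nat_lit 5) (nat_lit 371) (nat_lit 326) (nat_lit 203)) (XT.lf (nat_lit 0) (nat_lit 43711672668) (nat_lit 152) (nat_lit 6336997348) (nat_lit 228) (nat_lit 6864376254) (nat_lit 33) (nat_lit 5) (nat_lit 35) (nat_lit 5) (nat_lit 36) (nat_lit 5) (nat_lit 372) (nat_lit 326) (nat_lit 202))))))))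
noncomputable def xc169 : XT := (XT.nd (nat_lit 1716) (nat_lit 684) (nat_lit 0) (XT.nd (nat_lit 858) (nat_lit 532) (nat_lit 0) (XT.nd (nat_lit 390) (nat_lit 304) (nat_lit 0) (XT.nd (nat_lit 156) (nat_lit 228) (nat_lit 0) (XT.nd (nat_lit 78) (nat_lit 0) (nat_lit 0) (XT.lf (nat_lit 0) (nat_lit 4402991553) (nat_lit 152) (nat_lit 44384751146) (nat_lit 76) (nat_lit 10136394012) (nat_lit 31) (nat_lit 5) (nat_lit 33) (nat_lit 5) (nat_lit 32) (nat_lit 5) (nat_lit 373) (nat_lit 326) (nat_lit 201)) (XT.lf (nat_lit 0) (nat_lit 16330421969) (nat_lit 152) (nat_lit 17125575006) (nat_lit 76) (nat_lit 27557790939) (nat_lit 31) (nat_lit 5) (nat_lit 33) (nat_lit 5) (nat_lit 32) (nat_lit 5) (nat_lit 374) (nat_lit 326) (nat_lit 200))) (XT.nd (nat_lit 78) (nat_lit 76) (nat_lit 0) (XT.lf (nat_lit 0) (nat_lit 11870395865) (nat_lit 152) (nat_lit 17165596578) (nat_lit 228) (nat_lit 34162842610) (nat_lit 29) (nat_lit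 5) (nat_lit 31) (nat_lit 5) (nat_lit 32) (nat_lit 5) (nat_lit 375) (nat_lit 326) (nat_lit 199)) (XT.nd (nat_lit 78) (nat_lit 76) (nat_lit 0) (XT.lf (nat_lit 0) (nat_lit 42667153892) (nat_lit 228) (nat_lit 22577843232) (nat_lit 76) (nat_lit 233623518) (nat_lit 29) (nat_lit 5) (nat_lit 32) (nat_lit 5) (nat_lit 30) (nat_lit 4) (nat_lit 376) (nat_lit 326) (nat_lit 198)) (XT.lf (nat_lit 0) (nat_lit 7565174522) (nat_lit 76) (nat_lit 49810858819) (nat_lit 152) (nat_lit 10476555808) (nat_lit 28) (nat_lit 5) (nat_lit 29) (nat_lit 5) (nat_lit 30) (nat_lit 4) (nat_lit 377) (nat_lit 326) (nat_lit 197))))) (XT.nd (nat_lit 234) (nat_lit 76) (nat_lit 0) (XT.nd (nat_lit 78) (nat_lit 152) (nat_lit 0) (XT.lf (nat_lit 0) (nat_lit 2781174931) (nat_lit 152) (nat_lit 30377709852) (nat_lit 76) (nat_lit 37165175972) (nat_lit 27) (nat_lit 5) (nat_lit 29) (nat_lit 5) (nat_lit 28) (nat_lit 5) (nat_lit 378) (nat_lit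 326) (nat_lit 196)) (XT.nd (nat_lit 78) (nat_lit 0) (nat_lit 0) (XT.lf (nat_lit 0) (nat_lit 878266758) (nat_lit 152) (nat_lit 15481973752) (nat_lit 228) (nat_lit 56549753038) (nat_lit 25) (nat_lit 5) (nat_lit 27) (nat_lit 5) (nat_lit 28) (nat_lit 5) (nat_lit 379) (nat_lit 326) (nat_lit 195)) (XT.lf (nat_lit 0) (nat_lit 31186068782) (nat_lit 228) (nat_lit 40909921310) (nat_lit 76) (nat_lit 3500843763) (nat_lit 25) (nat_lit 5) (nat_lit 28) (nat_lit 5) (nat_lit 26) (nat_lit 4) (nat_lit 380) (nat_lit 326) (nat_lit 194)))) (XT.nd (nat_lit 78) (nat_lit 76) (nat_lit 0) (XT.lf (nat_lit 0) (nat_lit 47003987485) (nat_lit 228) (nat_lit 8491168274) (nat_lit 76) (nat_lit 22910321748) (nat_lit 25) (nat_lit 5) (nat_lit 28) (nat_lit 5) (nat_lit 26) (nat_lit 4) (nat_lit 381) (nat_lit 326) (nat_lit 193)) (XT.nd (nat_lit 78) (nat_lit 0) (nat_lit 0) (XT.lf (nat_lit 0) (nat_lit 26388018203) (nat_lit 76) (nat_lit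 37633914047) (nat_lit 152) (nat_lit 17312165804) (nat_lit 24) (nat_lit 5) (nat_lit 25) (nat_lit 5) (nat_lit 26) (nat_lit 4) (nat_lit 382) (nat_lit 326) (nat_lit 192)) (XT.lf (nat_lit 0) (nat_lit 63300954630) (nat_lit 76) (nat_lit 18730818986) (nat_lit 152) (nat_lit 2370327208) (nat_lit 24) (nat_lit 5) (nat_lit 25) (nat_lit 5) (nat_lit 26) (nat_lit 4) (nat_lit 383) (nat_lit 326) (nat_lit 191)))))) (XT.nd (nat_lit 390) (nat_lit 228) (nat_lit 0) (XT.nd (nat_lit 156) (nat_lit 76) (nat_lit 0) (XT.nd (nat_lit 78) (nat_lit 0) (nat_lit 0) (XT.lf (nat_lit 0) (nat_lit 13143600259) (nat_lit 228) (nat_lit 72932833726) (nat_lit 76) (nat_lit 1524109991) (nat_lit 21) (nat_lit 5) (nat_lit 24) (nat_lit 5) (nat_lit 22) (nat_lit 4) (nat_lit 384) (nat_lit 326) (nat_lit 190)) (XT.lf (nat_lit 0) (nat_lit 30021152144) (nat_lit 228) (nat_lit 38340105141) (nat_lit 76) (nat_lit 22562330786) (nat_lit 21) (nat_lit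 5) (nat_lit 24) (nat_lit 5) (nat_lit 22) (nat_lit 4) (nat_lit 385) (nat_lit 326) (nat_lit 189))) (XT.nd (nat_lit 78) (nat_lit 76) (nat_lit 0) (XT.lf (nat_lit 0) (nat_lit 47740017360) (nat_lit 228) (nat_lit 2022386476) (nat_lit 76) (nat_lit 44650509703) (nat_lit 21) (nat_lit 5) (nat_lit 24) (nat_lit 5) (nat_lit 22) (nat_lit 4) (nat_lit 386) (nat_lit 326) (nat_lit 188)) (XT.nd (nat_lit 78) (nat_lit 0) (nat_lit 0) (XT.lf (nat_lit 0) (nat_lit 37300646666) (nat_lit 76) (nat_lit 29624104643) (nat_lit 152) (nat_lit 31122958607) (nat_lit 20) (nat_lit 5) (nat_lit 21) (nat_lit 5) (nat_lit 22) (nat_lit 4) (nat_lit 387) (nat_lit 326) (nat_lit 187)) (XT.lf (nat_lit 0) (nat_lit 78655690436) (nat_lit 76) (nat_lit 8444887778) (nat_lit 152) (nat_lit 14762075953) (nat_lit 20) (nat_lit 5) (nat_lit 21) (nat_lit 5) (nat_lit 22) (nat_lit 4) (nat_lit 388) (nat_lit 326) (nat_lit 186))))) (XT.nd (nat_lit 234) (nat_lit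 76) (nat_lit 0) (XT.nd (nat_lit 78) (nat_lit 0) (nat_lit 0) (XT.lf (nat_lit 0) (nat_lit 2818171421) (nat_lit 152) (nat_lit 89370976282) (nat_lit 76) (nat_lit 13653378278) (nat_lit 18) (nat_lit 5) (nat_lit 20) (nat_lit 5) (nat_lit 19) (nat_lit 4) (nat_lit 389) (nat_lit 326) (nat_lit 185)) (XT.nd (nat_lit 78) (nat_lit 0) (nat_lit 0) (XT.lf (nat_lit 0) (nat_lit 21316931605) (nat_lit 152) (nat_lit 51453183824) (nat_lit 76) (nat_lit 37212396492) (nat_lit 18) (nat_lit 5) (nat_lit 20) (nat_lit 5) (nat_lit 19) (nat_lit 4) (nat_lit 390) (nat_lit 326) (nat_lit 184)) (XT.lf (nat_lit 0) (nat_lit 40738437493) (nat_lit 152) (nat_lit 11643540486) (nat_lit 76) (nat_lit 61947629508) (nat_lit 18) (nat_lit 5) (nat_lit 20) (nat_lit 5) (nat_lit 19) (nat_lit 4) (nat_lit 391) (nat_lit 326) (nat_lit 183)))) (XT.nd (nat_lit 78) (nat_lit 0) (nat_lit 0) (XT.lf (nat_lit 0) (nat_lit 31149724309) (nat_lit 76) (nat_lit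 30465540951) (nat_lit 152) (nat_lit 57254580922) (nat_lit 17) (nat_lit 5) (nat_lit 18) (nat_lit 5) (nat_lit 19) (nat_lit 4) (nat_lit 392) (nat_lit 326) (nat_lit 182)) (XT.nd (nat_lit 78) (nat_lit 0) (nat_lit 0) (XT.lf (nat_lit 0) (nat_lit 76483105397) (nat_lit 76) (nat_lit 7247970441) (nat_lit 152) (nat_lit 39896264549) (nat_lit 17) (nat_lit 5) (nat_lit 18) (nat_lit 5) (nat_lit 19) (nat_lit 4) (nat_lit 393) (nat_lit 326) (nat_lit 181)) (XT.lf (nat_lit 0) (nat_lit 107218155832) (nat_lit 152) (nat_lit 4810685009) (nat_lit 0) (nat_lit 16580595132) (nat_lit 17) (nat_lit 5) (nat_lit 19) (nat_lit 4) (nat_lit 17) (nat_lit 4) (nat_lit 394) (nat_lit 326) (nat_lit 180))))))) (XT.nd (nat_lit 858) (nat_lit 228) (nat_lit 0) (XT.nd (nat_lit 390) (nat_lit 228) (nat_lit 0) (XT.nd (nat_lit 156) (nat_lit 76) (nat_lit 0) (XT.nd (nat_lit 78) (nat_lit 76) (nat_lit 0) (XT.lf (nat_lit 0) (nat_lit 40823839704)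 (nat_lit 76) (nat_lit 91810062053) (nat_lit 76) (nat_lit 1169019572) (nat_lit 16) (nat_lit 4) (nat_lit 17) (nat_lit 5) (nat_lit 17) (nat_lit 4) (nat_lit 395) (nat_lit 326) (nat_lit 179)) (XT.lf (nat_lit 0) (nat_lit 19503099486) (nat_lit 152) (nat_lit 50663004516) (nat_lit 76) (nat_lit 69070267939) (nat_lit 15) (nat_lit 5) (nat_lit 17) (nat_lit 5) (nat_lit 16) (nat_lit 4) (nat_lit 396) (nat_lit 326) (nat_lit 178))) (XT.nd (nat_lit 78) (nat_lit 76) (nat_lit 0) (XT.lf (nat_lit 0) (nat_lit 41167750364) (nat_lit 152) (nat_lit 6253628293) (nat_lit 76) (nat_lit 97519248091) (nat_lit 15) (nat_lit 5) (nat_lit 17) (nat_lit 5) (nat_lit 16) (nat_lit 4) (nat_lit 397) (nat_lit 326) (nat_lit 177)) (XT.nd (nat_lit 78) (nat_lit 0) (nat_lit 0) (XT.lf (nat_lit 0) (nat_lit 41707950204) (nat_lit 76) (nat_lit 22857159278) (nat_lit 152) (nat_lit 86332511511) (nat_lit 14) (nat_lit 5) (nat_lit 15) (nat_lit 5) (nat_lit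 16) (nat_lit 4) (nat_lit 398) (nat_lit 326) (nat_lit 176)) (XT.lf (nat_lit 0) (nat_lit 89284115887) (nat_lit 152) (nat_lit 64913205341) (nat_lit 0) (nat_lit 2947555216) (nat_lit 14) (nat_lit 5) (nat_lit 16) (nat_lit 4) (nat_lit 14) (nat_lit 4) (nat_lit 399) (nat_lit 326) (nat_lit 175))))) (XT.nd (nat_lit 234) (nat_lit 152) (nat_lit 0) (XT.nd (nat_lit 78) (nat_lit 76) (nat_lit 0) (XT.lf (nat_lit 0) (nat_lit 115612167858) (nat_lit 152) (nat_lit 18800663455) (nat_lit 0) (nat_lit 29273009028) (nat_lit 14) (nat_lit 5) (nat_lit 16) (nat_lit 4) (nat_lit 14) (nat_lit 4) (nat_lit 400) (nat_lit 326) (nat_lit 174)) (XT.nd (nat_lit 78) (nat_lit 0) (nat_lit 0) (XT.lf (nat_lit 0) (nat_lit 30593803726) (nat_lit 76) (nat_lit 113138938208) (nat_lit 76) (nat_lit 26797304942) (nat_lit 13) (nat_lit 4) (nat_lit 14) (nat_lit 5) (nat_lit 14) (nat_lit 4) (nat_lit 401) (nat_lit 326) (nat_lit 173)) (XT.lf (nat_lit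 0) (nat_lit 83107862959) (nat_lit 76) (nat_lit 90468373237) (nat_lit 76) (nat_lit 4124383364) (nat_lit 13) (nat_lit 4) (nat_lit 14) (nat_lit 5) (nat_lit 14) (nat_lit 4) (nat_lit 402) (nat_lit 326) (nat_lit 172)))) (XT.nd (nat_lit 78) (nat_lit 76) (nat_lit 0) (XT.lf (nat_lit 0) (nat_lit 19050772486) (nat_lit 152) (nat_lit 47292150661) (nat_lit 76) (nat_lit 118871506339) (nat_lit 12) (nat_lit 5) (nat_lit 14) (nat_lit 5) (nat_lit 13) (nat_lit 4) (nat_lit 403) (nat_lit 326) (nat_lit 171)) (XT.nd (nat_lit 78) (nat_lit 0) (nat_lit 0) (XT.lf (nat_lit 0) (nat_lit 2379398952) (nat_lit 76) (nat_lit 40902440425) (nat_lit 152) (nat_lit 149816922254) (nat_lit 11) (nat_lit 5) (nat_lit 12) (nat_lit 5) (nat_lit 13) (nat_lit 4) (nat_lit 404) (nat_lit 326) (nat_lit 170)) (XT.lf (nat_lit 0) (nat_lit 56173815731) (nat_lit 76) (nat_lit 13350195599) (nat_lit 152) (nat_lit 131813321793) (nat_lit 11) (nat_lit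 5) (nat_lit 12) (nat_lit 5) (nat_lit 13) (nat_lit 4) (nat_lit 405) (nat_lit 326) (nat_lit 169)))))) (XT.nd (nat_lit 468) (nat_lit 76) (nat_lit 0) (XT.nd (nat_lit 234) (nat_lit 76) (nat_lit 0) (XT.nd (nat_lit 78) (nat_lit 76) (nat_lit 0) (XT.lf (nat_lit 0) (nat_lit 97320217073) (nat_lit 152) (nat_lit 97575632889) (nat_lit 0) (nat_lit 15079887280) (nat_lit 11) (nat_lit 5) (nat_lit 13) (nat_lit 4) (nat_lit 11) (nat_lit 4) (nat_lit 406) (nat_lit 326) (nat_lit 168)) (XT.nd (nat_lit 78) (nat_lit 76) (nat_lit 0) (XT.lf (nat_lit 0) (nat_lit 126723834496) (nat_lit 152) (nat_lit 47829601130) (nat_lit 0) (nat_lit 44481746167) (nat_lit 11) (nat_lit 5) (nat_lit 13) (nat_lit 4) (nat_lit 11) (nat_lit 4) (nat_lit 407) (nat_lit 326) (nat_lit 167)) (XT.lf (nat_lit 0) (nat_lit 4546986756) (nat_lit 76) (nat_lit 153120442695) (nat_lit 76) (nat_lit 70876679570) (nat_lit 10) (nat_lit 4) (nat_lit 11) (nat_lit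 5) (nat_lit 11) (nat_lit 4) (nat_lit 408) (nat_lit 326) (nat_lit 166)))) (XT.nd (nat_lit 78) (nat_lit 76) (nat_lit 0) (XT.lf (nat_lit 0) (nat_lit 61200699086) (nat_lit 76) (nat_lit 129766349861) (nat_lit 76) (nat_lit 47520991692) (nat_lit 10) (nat_lit 4) (nat_lit 11) (nat_lit 5) (nat_lit 11) (nat_lit 4) (nat_lit 409) (nat_lit 326) (nat_lit 165)) (XT.nd (nat_lit 78) (nat_lit 76) (nat_lit 0) (XT.lf (nat_lit 0) (nat_lit 120684963033) (nat_lit 76) (nat_lit 105245569580) (nat_lit 76) (nat_lit 22998692321) (nat_lit 10) (nat_lit 4) (nat_lit 11) (nat_lit 5) (nat_lit 11) (nat_lit 4) (nat_lit 410) (nat_lit 326) (nat_lit 164)) (XT.lf (nat_lit 0) (nat_lit 2660632443) (nat_lit 152) (nat_lit 76794027500) (nat_lit 76) (nat_lit 180435716254) (nat_lit 9) (nat_lit 5) (nat_lit 11) (nat_lit 5) (nat_lit 10) (nat_lit 4) (nat_lit 411) (nat_lit 326) (nat_lit 163))))) (XT.nd (nat_lit 234) (nat_lit 0) (nat_lit 0)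 (XT.nd (nat_lit 78) (nat_lit 76) (nat_lit 0) (XT.lf (nat_lit 0) (nat_lit 28828986768) (nat_lit 152) (nat_lit 23150278994) (nat_lit 76) (nat_lit 219401519587) (nat_lit 9) (nat_lit 5) (nat_lit 11) (nat_lit 5) (nat_lit 10) (nat_lit 4) (nat_lit 412) (nat_lit 326) (nat_lit 162)) (XT.nd (nat_lit 78) (nat_lit 0) (nat_lit 0) (XT.lf (nat_lit 0) (nat_lit 34270655881) (nat_lit 76) (nat_lit 22569183142) (nat_lit 152) (nat_lit 226579172136) (nat_lit 8) (nat_lit 5) (nat_lit 9) (nat_lit 5) (nat_lit 10) (nat_lit 4) (nat_lit 413) (nat_lit 326) (nat_lit 161)) (XT.lf (nat_lit 0) (nat_lit 86778509934) (nat_lit 152) (nat_lit 200811254192) (nat_lit 0) (nat_lit 8443020529) (nat_lit 8) (nat_lit 5) (nat_lit 10) (nat_lit 4) (nat_lit 8) (nat_lit 4) (nat_lit 414) (nat_lit 326) (nat_lit 160)))) (XT.nd (nat_lit 78) (nat_lit 0) (nat_lit 0) (XT.lf (nat_lit 0) (nat_lit 118583170841) (nat_lit 152) (nat_lit 150429075488)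 (nat_lit 0) (nat_lit 40246547868) (nat_lit 8) (nat_lit 5) (nat_lit 10) (nat_lit 4) (nat_lit 8) (nat_lit 4) (nat_lit 415) (nat_lit 326) (nat_lit 159)) (XT.nd (nat_lit 78) (nat_lit 0) (nat_lit 0) (XT.lf (nat_lit 0) (nat_lit 151977178926) (nat_lit 152) (nat_lit 97529493399) (nat_lit 0) (nat_lit 73639476365) (nat_lit 8) (nat_lit 5) (nat_lit 10) (nat_lit 4) (nat_lit 8) (nat_lit 4) (nat_lit 416) (nat_lit 326) (nat_lit 158)) (XT.lf (nat_lit 0) (nat_lit 187040043733) (nat_lit 152) (nat_lit 41986556539) (nat_lit 0) (nat_lit 108701312992) (nat_lit 8) (nat_lit 5) (nat_lit 10) (nat_lit 4) (nat_lit 8) (nat_lit 4) (nat_lit 417) (nat_lit 326) (nat_lit 157))))))))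
noncomputable def xc170 : XT := (XT.nd (nat_lit 40638) (nat_lit 0) (nat_lit 3268) (XT.nd (nat_lit 39780) (nat_lit 0) (nat_lit 7144) (XT.nd (nat_lit 390) (nat_lit 152) (nat_lit 0) (XT.nd (nat_lit 156) (nat_lit 0) (nat_lit 0) (XT.nd (nat_lit 78) (nat_lit 0) (nat_lit 0) (XT.lf (nat_lit 0) (nat_lit 16871989200) (nat_lit 76) (nat_lit 207246678109) (nat_lit 76) (nat_lit 128906968149) (nat_lit 7) (nat_lit 4) (nat_lit 8) (nat_lit 5) (nat_lit 8) (nat_lit 4) (nat_lit 418) (nat_lit 326) (nat_lit 156)) (XT.lf (nat_lit 0) (nat_lit 80129618628) (nat_lit 76) (nat_lit 183631877078) (nat_lit 76) (nat_lit 105291234529) (nat_lit 7) (nat_lit 4) (nat_lit 8) (nat_lit 5) (nat_lit 8) (nat_lit 4) (nat_lit 419) (nat_lit 326) (nat_lit 155))) (XT.nd (nat_lit 78) (nat_lit 0) (nat_lit 0) (XT.lf (nat_lit 0) (nat_lit 146548679973) (nat_lit 76) (nat_lit 158837034114) (nat_lit 76) (nat_lit 80495503385) (nat_lit 7) (nat_lit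 4) (nat_lit 8) (nat_lit 5) (nat_lit 8) (nat_lit 4) (nat_lit 420) (nat_lit 326) (nat_lit 154)) (XT.nd (nat_lit 78) (nat_lit 0) (nat_lit 0) (XT.lf (nat_lit 0) (nat_lit 216287313857) (nat_lit 76) (nat_lit 132803113878) (nat_lit 76) (nat_lit 54460737263) (nat_lit 7) (nat_lit 4) (nat_lit 8) (nat_lit 5) (nat_lit 8) (nat_lit 4) (nat_lit 421) (nat_lit 326) (nat_lit 153)) (XT.lf (nat_lit 0) (nat_lit 289511564645) (nat_lit 76) (nat_lit 105468130844) (nat_lit 76) (nat_lit 27124948623) (nat_lit 7) (nat_lit 4) (nat_lit 8) (nat_lit 5) (nat_lit 8) (nat_lit 4) (nat_lit 422) (nat_lit 326) (nat_lit 152))))) (XT.nd (nat_lit 234) (nat_lit 0) (nat_lit 0) (XT.nd (nat_lit 78) (nat_lit 76) (nat_lit 0) (XT.lf (nat_lit 0) (nat_lit 1526475567) (nat_lit 152) (nat_lit 75214674551) (nat_lit 76) (nat_lit 364843448622) (nat_lit 6) (nat_lit 5) (nat_lit 8) (nat_lit 5) (nat_lit 7) (nat_lit 4) (nat_lit 423) (nat_lit 326)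 (nat_lit 151)) (XT.nd (nat_lit 78) (nat_lit 76) (nat_lit 0) (XT.lf (nat_lit 0) (nat_lit 30698266363) (nat_lit 152) (nat_lit 15413234127) (nat_lit 76) (nat_lit 415904848585) (nat_lit 6) (nat_lit 5) (nat_lit 8) (nat_lit 5) (nat_lit 7) (nat_lit 4) (nat_lit 424) (nat_lit 326) (nat_lit 150)) (XT.lf (nat_lit 0) (nat_lit 48943624288) (nat_lit 76) (nat_lit 13148571015) (nat_lit 152) (nat_lit 421339314305) (nat_lit 5) (nat_lit 5) (nat_lit 6) (nat_lit 5) (nat_lit 7) (nat_lit 4) (nat_lit 425) (nat_lit 326) (nat_lit 149)))) (XT.nd (nat_lit 78) (nat_lit 0) (nat_lit 0) (XT.lf (nat_lit 0) (nat_lit 95655623948) (nat_lit 152) (nat_lit 389191465319) (nat_lit 0) (nat_lit 21040348845) (nat_lit 5) (nat_lit 5) (nat_lit 7) (nat_lit 4) (nat_lit 5) (nat_lit 4) (nat_lit 426) (nat_lit 326) (nat_lit 148)) (XT.nd (nat_lit 78) (nat_lit 0) (nat_lit 0) (XT.lf (nat_lit 0) (nat_lit 131112206406) (nat_lit 152) (nat_lit 341846877468)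 (nat_lit 0) (nat_lit 56496330148) (nat_lit 5) (nat_lit 5) (nat_lit 7) (nat_lit 4) (nat_lit 5) (nat_lit 4) (nat_lit 427) (nat_lit 326) (nat_lit 147)) (XT.lf (nat_lit 0) (nat_lit 168341077071) (nat_lit 152) (nat_lit 292136110516) (nat_lit 0) (nat_lit 93724628284) (nat_lit 5) (nat_lit 5) (nat_lit 7) (nat_lit 4) (nat_lit 5) (nat_lit 4) (nat_lit 428) (nat_lit 326) (nat_lit 146)))))) (XT.nd (nat_lit 390) (nat_lit 608) (nat_lit 0) (XT.nd (nat_lit 156) (nat_lit 0) (nat_lit 0) (XT.nd (nat_lit 78) (nat_lit 0) (nat_lit 0) (XT.lf (nat_lit 0) (nat_lit 3068837468) (nat_lit 0) (nat_lit 3068837468) (nat_lit 684) (nat_lit 1570243459) (nat_lit 107) (nat_lit 5) (nat_lit 107) (nat_lit 3) (nat_lit 116) (nat_lit 3) (nat_lit 327) (nat_lit 327) (nat_lit 246)) (XT.lf (nat_lit 0) (nat_lit 12863334473) (nat_lit 684) (nat_lit 2062894275) (nat_lit 760) (nat_lit 860593009) (nat_lit 107) (nat_lit 5) (nat_lit 116) (nat_lit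 3) (nat_lit 117) (nat_lit 5) (nat_lit 328) (nat_lit 327) (nat_lit 245))) (XT.nd (nat_lit 78) (nat_lit 0) (nat_lit 0) (XT.lf (nat_lit 76) (nat_lit 5581600840) (nat_lit 0) (nat_lit 8069907610) (nat_lit 760) (nat_lit 2516330797) (nat_lit 108) (nat_lit 5) (nat_lit 107) (nat_lit 5) (nat_lit 117) (nat_lit 5) (nat_lit 329) (nat_lit 327) (nat_lit 244)) (XT.nd (nat_lit 78) (nat_lit 0) (nat_lit 76) (XT.lf (nat_lit 76) (nat_lit 13670529700) (nat_lit 0) (nat_lit 827186901) (nat_lit 760) (nat_lit 2069281433) (nat_lit 108) (nat_lit 5) (nat_lit 107) (nat_lit 5) (nat_lit 117) (nat_lit 5) (nat_lit 330) (nat_lit 327) (nat_lit 243)) (XT.lf (nat_lit 76) (nat_lit 5229486119) (nat_lit 0) (nat_lit 10328783062) (nat_lit 760) (nat_lit 1419264544) (nat_lit 109) (nat_lit 5) (nat_lit 108) (nat_lit 5) (nat_lit 118) (nat_lit 5) (nat_lit 331) (nat_lit 327) (nat_lit 242))))) (XT.nd (nat_lit 234) (nat_lit 0) (nat_lit 76)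 (XT.nd (nat_lit 78) (nat_lit 684) (nat_lit 0) (XT.lf (nat_lit 76) (nat_lit 13838585476) (nat_lit 0) (nat_lit 2880810736) (nat_lit 760) (nat_lit 686842329) (nat_lit 109) (nat_lit 5) (nat_lit 108) (nat_lit 5) (nat_lit 118) (nat_lit 5) (nat_lit 332) (nat_lit 327) (nat_lit 241)) (XT.nd (nat_lit 78) (nat_lit 0) (nat_lit 0) (XT.lf (nat_lit 0) (nat_lit 224536589) (nat_lit 760) (nat_lit 12755128785) (nat_lit 836) (nat_lit 4869418578) (nat_lit 99) (nat_lit 5) (nat_lit 109) (nat_lit 5) (nat_lit 110) (nat_lit 5) (nat_lit 333) (nat_lit 327) (nat_lit 240)) (XT.lf (nat_lit 0) (nat_lit 1253250500) (nat_lit 760) (nat_lit 4068376599) (nat_lit 836) (nat_lit 12987156126) (nat_lit 99) (nat_lit 5) (nat_lit 109) (nat_lit 5) (nat_lit 110) (nat_lit 5) (nat_lit 334) (nat_lit 327) (nat_lit 239)))) (XT.nd (nat_lit 78) (nat_lit 0) (nat_lit 0) (XT.lf (nat_lit 0) (nat_lit 2445445195) (nat_lit 760) (nat_lit 13622322290)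 (nat_lit 836) (nat_lit 2718113914) (nat_lit 100) (nat_lit 5) (nat_lit 110) (nat_lit 5) (nat_lit 111) (nat_lit 5) (nat_lit 335) (nat_lit 327) (nat_lit 238)) (XT.nd (nat_lit 78) (nat_lit 0) (nat_lit 76) (XT.lf (nat_lit 0) (nat_lit 3841907061) (nat_lit 760) (nat_lit 4383818727) (nat_lit 836) (nat_lit 11053891243) (nat_lit 100) (nat_lit 5) (nat_lit 110) (nat_lit 5) (nat_lit 111) (nat_lit 5) (nat_lit 336) (nat_lit 327) (nat_lit 237)) (XT.lf (nat_lit 0) (nat_lit 5383340391) (nat_lit 760) (nat_lit 14313770172) (nat_lit 76) (nat_lit 97186149) (nat_lit 101) (nat_lit 5) (nat_lit 111) (nat_lit 5) (nat_lit 102) (nat_lit 5) (nat_lit 337) (nat_lit 327) (nat_lit 236))))))) (XT.nd (nat_lit 858) (nat_lit 1824) (nat_lit 0) (XT.nd (nat_lit 390) (nat_lit 1064) (nat_lit 0) (XT.nd (nat_lit 156) (nat_lit 380) (nat_lit 0) (XT.nd (nat_lit 78) (nat_lit 760) (nat_lit 0) (XT.lf (nat_lit 0) (nat_lit 7200590050) (nat_lit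 760) (nat_lit 4487142028) (nat_lit 76) (nat_lit 8637055052) (nat_lit 101) (nat_lit 5) (nat_lit 111) (nat_lit 5) (nat_lit 102) (nat_lit 5) (nat_lit 338) (nat_lit 327) (nat_lit 235)) (XT.lf (nat_lit 0) (nat_lit 6013413778) (nat_lit 760) (nat_lit 3178162774) (nat_lit 836) (nat_lit 11686095120) (nat_lit 91) (nat_lit 5) (nat_lit 101) (nat_lit 5) (nat_lit 102) (nat_lit 5) (nat_lit 339) (nat_lit 327) (nat_lit 234))) (XT.nd (nat_lit 78) (nat_lit 380) (nat_lit 0) (XT.lf (nat_lit 0) (nat_lit 11438606536) (nat_lit 836) (nat_lit 4361017375) (nat_lit 76) (nat_lit 5650764508) (nat_lit 91) (nat_lit 5) (nat_lit 102) (nat_lit 5) (nat_lit 92) (nat_lit 5) (nat_lit 340) (nat_lit 327) (nat_lit 233)) (XT.nd (nat_lit 78) (nat_lit 0) (nat_lit 0) (XT.lf (nat_lit 0) (nat_lit 6823910496) (nat_lit 380) (nat_lit 7122600213) (nat_lit 456) (nat_lit 8097816243) (nat_lit 86) (nat_lit 5) (nat_lit 91) (nat_lit 5) (nat_lit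 92) (nat_lit 5) (nat_lit 341) (nat_lit 327) (nat_lit 232)) (XT.lf (nat_lit 0) (nat_lit 16676134759) (nat_lit 456) (nat_lit 3987160517) (nat_lit 76) (nat_lit 1999862408) (nat_lit 86) (nat_lit 5) (nat_lit 92) (nat_lit 5) (nat_lit 87) (nat_lit 5) (nat_lit 342) (nat_lit 327) (nat_lit 231))))) (XT.nd (nat_lit 234) (nat_lit 304) (nat_lit 0) (XT.nd (nat_lit 78) (nat_lit 456) (nat_lit 0) (XT.lf (nat_lit 0) (nat_lit 7935329578) (nat_lit 304) (nat_lit 11838248474) (nat_lit 380) (nat_lit 3527795958) (nat_lit 82) (nat_lit 5) (nat_lit 86) (nat_lit 5) (nat_lit 87) (nat_lit 5) (nat_lit 343) (nat_lit 327) (nat_lit 230)) (XT.nd (nat_lit 78) (nat_lit 456) (nat_lit 0) (XT.lf (nat_lit 0) (nat_lit 20582880143) (nat_lit 304) (nat_lit 2501514819) (nat_lit 380) (nat_lit 884191555) (nat_lit 82) (nat_lit 5) (nat_lit 86) (nat_lit 5) (nat_lit 87) (nat_lit 5) (nat_lit 344) (nat_lit 327) (nat_lit 229)) (XT.lf (nat_lit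 0) (nat_lit 2086865215) (nat_lit 456) (nat_lit 15320169924) (nat_lit 76) (nat_lit 7247866575) (nat_lit 76) (nat_lit 5) (nat_lit 82) (nat_lit 5) (nat_lit 77) (nat_lit 5) (nat_lit 345) (nat_lit 327) (nat_lit 228)))) (XT.nd (nat_lit 78) (nat_lit 304) (nat_lit 0) (XT.lf (nat_lit 0) (nat_lit 5267565124) (nat_lit 456) (nat_lit 2629979940) (nat_lit 76) (nat_lit 17472731631) (nat_lit 76) (nat_lit 5) (nat_lit 82) (nat_lit 5) (nat_lit 77) (nat_lit 5) (nat_lit 346) (nat_lit 327) (nat_lit 227)) (XT.nd (nat_lit 78) (nat_lit 0) (nat_lit 0) (XT.lf (nat_lit 0) (nat_lit 8806968905) (nat_lit 380) (nat_lit 15109731207) (nat_lit 76) (nat_lit 2194745455) (nat_lit 72) (nat_lit 5) (nat_lit 77) (nat_lit 5) (nat_lit 73) (nat_lit 5) (nat_lit 347) (nat_lit 327) (nat_lit 226)) (XT.lf (nat_lit 0) (nat_lit 12690228721) (nat_lit 380) (nat_lit 1620727051) (nat_lit 76) (nat_lit 12570380995) (nat_lit 72) (nat_lit 5) (nat_lit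 77) (nat_lit 5) (nat_lit 73) (nat_lit 5) (nat_lit 348) (nat_lit 327) (nat_lit 225)))))) (XT.nd (nat_lit 468) (nat_lit 684) (nat_lit 0) (XT.nd (nat_lit 234) (nat_lit 608) (nat_lit 0) (XT.nd (nat_lit 78) (nat_lit 228) (nat_lit 0) (XT.lf (nat_lit 0) (nat_lit 12948214473) (nat_lit 304) (nat_lit 4014116636) (nat_lit 380) (nat_lit 10717665229) (nat_lit 68) (nat_lit 5) (nat_lit 72) (nat_lit 5) (nat_lit 73) (nat_lit 5) (nat_lit 349) (nat_lit 327) (nat_lit 224)) (XT.nd (nat_lit 78) (nat_lit 228) (nat_lit 0) (XT.lf (nat_lit 0) (nat_lit 21574781978) (nat_lit 380) (nat_lit 331063320) (nat_lit 76) (nat_lit 6606413838) (nat_lit 68) (nat_lit 5) (nat_lit 73) (nat_lit 5) (nat_lit 69) (nat_lit 5) (nat_lit 350) (nat_lit 327) (nat_lit 223)) (XT.lf (nat_lit 0) (nat_lit 15201732641) (nat_lit 228) (nat_lit 11512332987) (nat_lit 304) (nat_lit 2657265997) (nat_lit 65) (nat_lit 5) (nat_lit 68) (nat_lit 5) (nat_lit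 69) (nat_lit 5) (nat_lit 351) (nat_lit 327) (nat_lit 222)))) (XT.nd (nat_lit 78) (nat_lit 228) (nat_lit 0) (XT.lf (nat_lit 0) (nat_lit 1252091112) (nat_lit 304) (nat_lit 544460847) (nat_lit 380) (nat_lit 28474458673) (nat_lit 60) (nat_lit 5) (nat_lit 64) (nat_lit 5) (nat_lit 65) (nat_lit 5) (nat_lit 352) (nat_lit 327) (nat_lit 221)) (XT.nd (nat_lit 78) (nat_lit 228) (nat_lit 0) (XT.lf (nat_lit 0) (nat_lit 6792266169) (nat_lit 380) (nat_lit 13494632120) (nat_lit 76) (nat_lit 10906177969) (nat_lit 60) (nat_lit 5) (nat_lit 65) (nat_lit 5) (nat_lit 61) (nat_lit 5) (nat_lit 353) (nat_lit 327) (nat_lit 220)) (XT.lf (nat_lit 0) (nat_lit 2880605328) (nat_lit 228) (nat_lit 9204682917) (nat_lit 304) (nat_lit 20073586624) (nat_lit 57) (nat_lit 5) (nat_lit 60) (nat_lit 5) (nat_lit 61) (nat_lit 5) (nat_lit 354) (nat_lit 327) (nat_lit 219))))) (XT.nd (nat_lit 234) (nat_lit 456) (nat_lit 0) (XT.nd (nat_lit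 78) (nat_lit 228) (nat_lit 0) (XT.lf (nat_lit 0) (nat_lit 17906971427) (nat_lit 304) (nat_lit 12668819958) (nat_lit 76) (nat_lit 2583977062) (nat_lit 57) (nat_lit 5) (nat_lit 61) (nat_lit 5) (nat_lit 58) (nat_lit 5) (nat_lit 355) (nat_lit 327) (nat_lit 218)) (XT.nd (nat_lit 78) (nat_lit 0) (nat_lit 0) (XT.lf (nat_lit 0) (nat_lit 4764430561) (nat_lit 228) (nat_lit 19474648460) (nat_lit 304) (nat_lit 9960665940) (nat_lit 54) (nat_lit 5) (nat_lit 57) (nat_lit 5) (nat_lit 58) (nat_lit 5) (nat_lit 356) (nat_lit 327) (nat_lit 217)) (XT.lf (nat_lit 0) (nat_lit 23501043127) (nat_lit 228) (nat_lit 7595515146) (nat_lit 304) (nat_lit 4184728735) (nat_lit 54) (nat_lit 5) (nat_lit 57) (nat_lit 5) (nat_lit 58) (nat_lit 5) (nat_lit 357) (nat_lit 327) (nat_lit 216)))) (XT.nd (nat_lit 78) (nat_lit 228) (nat_lit 0) (XT.lf (nat_lit 0) (nat_lit 2000993809) (nat_lit 228) (nat_lit 29546182818) (nat_lit 76) (nat_lit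 4859208456) (nat_lit 51) (nat_lit 5) (nat_lit 54) (nat_lit 5) (nat_lit 52) (nat_lit 5) (nat_lit 358) (nat_lit 327) (nat_lit 215)) (XT.nd (nat_lit 78) (nat_lit 228) (nat_lit 0) (XT.lf (nat_lit 0) (nat_lit 8677162129) (nat_lit 228) (nat_lit 10940546614) (nat_lit 76) (nat_lit 17950513851) (nat_lit 51) (nat_lit 5) (nat_lit 54) (nat_lit 5) (nat_lit 52) (nat_lit 5) (nat_lit 359) (nat_lit 327) (nat_lit 214)) (XT.lf (nat_lit 0) (nat_lit 8871654377) (nat_lit 228) (nat_lit 6948760297) (nat_lit 304) (nat_lit 22961077647) (nat_lit 48) (nat_lit 5) (nat_lit 51) (nat_lit 5) (nat_lit 52) (nat_lit 5) (nat_lit 360) (nat_lit 327) (nat_lit 213))))))))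
noncomputable def xc171 : XT := (XT.nd (nat_lit 1716) (nat_lit 1064) (nat_lit 0) (XT.nd (nat_lit 858) (nat_lit 760) (nat_lit 0) (XT.nd (nat_lit 390) (nat_lit 532) (nat_lit 0) (XT.nd (nat_lit 156) (nat_lit 304) (nat_lit 0) (XT.nd (nat_lit 78) (nat_lit 152) (nat_lit 0) (XT.lf (nat_lit 0) (nat_lit 23603206718) (nat_lit 304) (nat_lit 10101863166) (nat_lit 76) (nat_lit 6336240742) (nat_lit 48) (nat_lit 5) (nat_lit 52) (nat_lit 5) (nat_lit 49) (nat_lit 5) (nat_lit 361) (nat_lit 327) (nat_lit 212)) (XT.lf (nat_lit 0) (nat_lit 10924867074) (nat_lit 152) (nat_lit 21129855972) (nat_lit 228) (nat_lit 9295421310) (nat_lit 46) (nat_lit 5) (nat_lit 48) (nat_lit 5) (nat_lit 49) (nat_lit 5) (nat_lit 362) (nat_lit 327) (nat_lit 211))) (XT.nd (nat_lit 78) (nat_lit 304) (nat_lit 0) (XT.lf (nat_lit 0) (nat_lit 33346373800) (nat_lit 152) (nat_lit 7748743754) (nat_lit 228) (nat_lit 1620990669) (nat_lit 46) (nat_lit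 5) (nat_lit 48) (nat_lit 5) (nat_lit 49) (nat_lit 5) (nat_lit 363) (nat_lit 327) (nat_lit 210)) (XT.nd (nat_lit 78) (nat_lit 0) (nat_lit 0) (XT.lf (nat_lit 0) (nat_lit 6533561872) (nat_lit 304) (nat_lit 31190087857) (nat_lit 76) (nat_lit 6406577197) (nat_lit 42) (nat_lit 5) (nat_lit 46) (nat_lit 5) (nat_lit 43) (nat_lit 5) (nat_lit 364) (nat_lit 327) (nat_lit 209)) (XT.lf (nat_lit 0) (nat_lit 15325122336) (nat_lit 304) (nat_lit 9079678918) (nat_lit 76) (nat_lit 21194736902) (nat_lit 42) (nat_lit 5) (nat_lit 46) (nat_lit 5) (nat_lit 43) (nat_lit 5) (nat_lit 365) (nat_lit 327) (nat_lit 208))))) (XT.nd (nat_lit 234) (nat_lit 228) (nat_lit 0) (XT.nd (nat_lit 78) (nat_lit 152) (nat_lit 0) (XT.lf (nat_lit 0) (nat_lit 14596614104) (nat_lit 152) (nat_lit 10183202973) (nat_lit 228) (nat_lit 22351322993) (nat_lit 40) (nat_lit 5) (nat_lit 42) (nat_lit 5) (nat_lit 43) (nat_lit 5) (nat_lit 366) (nat_lit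 327) (nat_lit 207)) (XT.nd (nat_lit 78) (nat_lit 152) (nat_lit 0) (XT.lf (nat_lit 0) (nat_lit 34933414128) (nat_lit 228) (nat_lit 9043244499) (nat_lit 76) (nat_lit 4751357868) (nat_lit 40) (nat_lit 5) (nat_lit 43) (nat_lit 5) (nat_lit 41) (nat_lit 5) (nat_lit 367) (nat_lit 327) (nat_lit 206)) (XT.lf (nat_lit 0) (nat_lit 15959923199) (nat_lit 152) (nat_lit 30046813667) (nat_lit 228) (nat_lit 4377400247) (nat_lit 38) (nat_lit 5) (nat_lit 40) (nat_lit 5) (nat_lit 41) (nat_lit 5) (nat_lit 368) (nat_lit 327) (nat_lit 205)))) (XT.nd (nat_lit 78) (nat_lit 152) (nat_lit 0) (XT.lf (nat_lit 0) (nat_lit 5485903204) (nat_lit 228) (nat_lit 9683331145) (nat_lit 76) (nat_lit 36941949142) (nat_lit 37) (nat_lit 5) (nat_lit 40) (nat_lit 5) (nat_lit 38) (nat_lit 5) (nat_lit 369) (nat_lit 327) (nat_lit 204)) (XT.nd (nat_lit 78) (nat_lit 0) (nat_lit 0) (XT.lf (nat_lit 0) (nat_lit 15965453893) (nat_lit 228)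 (nat_lit 37167844315) (nat_lit 76) (nat_lit 774188677) (nat_lit 35) (nat_lit 5) (nat_lit 38) (nat_lit 5) (nat_lit 36) (nat_lit 5) (nat_lit 370) (nat_lit 327) (nat_lit 203)) (XT.lf (nat_lit 0) (nat_lit 27380534963) (nat_lit 228) (nat_lit 11223147582) (nat_lit 76) (nat_lit 17169347452) (nat_lit 35) (nat_lit 5) (nat_lit 38) (nat_lit 5) (nat_lit 36) (nat_lit 5) (nat_lit 371) (nat_lit 327) (nat_lit 202)))))) (XT.nd (nat_lit 390) (nat_lit 304) (nat_lit 0) (XT.nd (nat_lit 156) (nat_lit 304) (nat_lit 0) (XT.nd (nat_lit 78) (nat_lit 0) (nat_lit 0) (XT.lf (nat_lit 0) (nat_lit 16542213630) (nat_lit 152) (nat_lit 23078804469) (nat_lit 228) (nat_lit 18098101850) (nat_lit 33) (nat_lit 5) (nat_lit 35) (nat_lit 5) (nat_lit 36) (nat_lit 5) (nat_lit 372) (nat_lit 327) (nat_lit 201)) (XT.lf (nat_lit 0) (nat_lit 46079557913) (nat_lit 152) (nat_lit 6580494561) (nat_lit 228) (nat_lit 7093137557) (nat_lit 33)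 (nat_lit 5) (nat_lit 35) (nat_lit 5) (nat_lit 36) (nat_lit 5) (nat_lit 373) (nat_lit 327) (nat_lit 200))) (XT.nd (nat_lit 78) (nat_lit 152) (nat_lit 0) (XT.lf (nat_lit 0) (nat_lit 4732682322) (nat_lit 152) (nat_lit 46416657154) (nat_lit 76) (nat_lit 10715471587) (nat_lit 31) (nat_lit 5) (nat_lit 33) (nat_lit 5) (nat_lit 32) (nat_lit 5) (nat_lit 374) (nat_lit 327) (nat_lit 199)) (XT.nd (nat_lit 78) (nat_lit 152) (nat_lit 0) (XT.lf (nat_lit 0) (nat_lit 17251268011) (nat_lit 152) (nat_lit 17803442758) (nat_lit 76) (nat_lit 29004497509) (nat_lit 31) (nat_lit 5) (nat_lit 33) (nat_lit 5) (nat_lit 32) (nat_lit 5) (nat_lit 375) (nat_lit 327) (nat_lit 198)) (XT.lf (nat_lit 0) (nat_lit 12639449060) (nat_lit 152) (nat_lit 17950440663) (nat_lit 228) (nat_lit 35763731929) (nat_lit 29) (nat_lit 5) (nat_lit 31) (nat_lit 5) (nat_lit 32) (nat_lit 5) (nat_lit 376) (nat_lit 327) (nat_lit 197))))) (XT.nd (nat_lit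 234) (nat_lit 152) (nat_lit 0) (XT.nd (nat_lit 78) (nat_lit 152) (nat_lit 0) (XT.lf (nat_lit 0) (nat_lit 44898839391) (nat_lit 228) (nat_lit 23535742996) (nat_lit 76) (nat_lit 313005020) (nat_lit 29) (nat_lit 5) (nat_lit 32) (nat_lit 5) (nat_lit 30) (nat_lit 4) (nat_lit 377) (nat_lit 327) (nat_lit 196)) (XT.nd (nat_lit 78) (nat_lit 76) (nat_lit 0) (XT.lf (nat_lit 0) (nat_lit 8111667704) (nat_lit 76) (nat_lit 52229439444) (nat_lit 152) (nat_lit 10899252255) (nat_lit 28) (nat_lit 5) (nat_lit 29) (nat_lit 5) (nat_lit 30) (nat_lit 4) (nat_lit 378) (nat_lit 327) (nat_lit 195)) (XT.lf (nat_lit 0) (nat_lit 3013466544) (nat_lit 152) (nat_lit 31733247995) (nat_lit 76) (nat_lit 39088846252) (nat_lit 27) (nat_lit 5) (nat_lit 29) (nat_lit 5) (nat_lit 28) (nat_lit 5) (nat_lit 379) (nat_lit 327) (nat_lit 194)))) (XT.nd (nat_lit 78) (nat_lit 0) (nat_lit 0) (XT.lf (nat_lit 0) (nat_lit 1082892811) (nat_lit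 152) (nat_lit 16186662106) (nat_lit 228) (nat_lit 59281333801) (nat_lit 25) (nat_lit 5) (nat_lit 27) (nat_lit 5) (nat_lit 28) (nat_lit 5) (nat_lit 380) (nat_lit 327) (nat_lit 193)) (XT.nd (nat_lit 78) (nat_lit 0) (nat_lit 0) (XT.lf (nat_lit 0) (nat_lit 32833358955) (nat_lit 228) (nat_lit 42799004488) (nat_lit 76) (nat_lit 3739875255) (nat_lit 25) (nat_lit 5) (nat_lit 28) (nat_lit 5) (nat_lit 26) (nat_lit 4) (nat_lit 381) (nat_lit 327) (nat_lit 192)) (XT.lf (nat_lit 0) (nat_lit 49437983750) (nat_lit 228) (nat_lit 8766762032) (nat_lit 76) (nat_lit 24116780029) (nat_lit 25) (nat_lit 5) (nat_lit 28) (nat_lit 5) (nat_lit 26) (nat_lit 4) (nat_lit 382) (nat_lit 327) (nat_lit 191))))))) (XT.nd (nat_lit 858) (nat_lit 456) (nat_lit 0) (XT.nd (nat_lit 390) (nat_lit 304) (nat_lit 0) (XT.nd (nat_lit 156) (nat_lit 228) (nat_lit 0) (XT.nd (nat_lit 78) (nat_lit 0) (nat_lit 0) (XT.lf (nat_lit 0) (nat_lit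 27853981113) (nat_lit 76) (nat_lit 39451142556) (nat_lit 152) (nat_lit 18091540523) (nat_lit 24) (nat_lit 5) (nat_lit 25) (nat_lit 5) (nat_lit 26) (nat_lit 4) (nat_lit 383) (nat_lit 327) (nat_lit 190)) (XT.lf (nat_lit 0) (nat_lit 66605585218) (nat_lit 76) (nat_lit 19605962608) (nat_lit 152) (nat_lit 2406716357) (nat_lit 24) (nat_lit 5) (nat_lit 25) (nat_lit 5) (nat_lit 26) (nat_lit 4) (nat_lit 384) (nat_lit 327) (nat_lit 189))) (XT.nd (nat_lit 78) (nat_lit 0) (nat_lit 0) (XT.lf (nat_lit 0) (nat_lit 13879647008) (nat_lit 228) (nat_lit 76436571827) (nat_lit 76) (nat_lit 1660379611) (nat_lit 21) (nat_lit 5) (nat_lit 24) (nat_lit 5) (nat_lit 22) (nat_lit 4) (nat_lit 385) (nat_lit 327) (nat_lit 188)) (XT.nd (nat_lit 78) (nat_lit 0) (nat_lit 0) (XT.lf (nat_lit 0) (nat_lit 31597320928) (nat_lit 228) (nat_lit 40121011745) (nat_lit 76) (nat_lit 23747651250) (nat_lit 21) (nat_lit 5) (nat_lit 24)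 (nat_lit 5) (nat_lit 22) (nat_lit 4) (nat_lit 386) (nat_lit 327) (nat_lit 187)) (XT.lf (nat_lit 0) (nat_lit 50198552682) (nat_lit 228) (nat_lit 1993888035) (nat_lit 76) (nat_lit 46937515116) (nat_lit 21) (nat_lit 5) (nat_lit 24) (nat_lit 5) (nat_lit 22) (nat_lit 4) (nat_lit 387) (nat_lit 327) (nat_lit 186))))) (XT.nd (nat_lit 234) (nat_lit 76) (nat_lit 0) (XT.nd (nat_lit 78) (nat_lit 152) (nat_lit 0) (XT.lf (nat_lit 0) (nat_lit 39293206155) (nat_lit 76) (nat_lit 31047901828) (nat_lit 152) (nat_lit 32605456084) (nat_lit 20) (nat_lit 5) (nat_lit 21) (nat_lit 5) (nat_lit 22) (nat_lit 4) (nat_lit 388) (nat_lit 327) (nat_lit 185)) (XT.nd (nat_lit 78) (nat_lit 152) (nat_lit 0) (XT.lf (nat_lit 0) (nat_lit 82709929392) (nat_lit 76) (nat_lit 8812457836) (nat_lit 152) (nat_lit 15430036462) (nat_lit 20) (nat_lit 5) (nat_lit 21) (nat_lit 5) (nat_lit 22) (nat_lit 4) (nat_lit 389) (nat_lit 327) (nat_lit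 184)) (XT.lf (nat_lit 0) (nat_lit 3026506731) (nat_lit 152) (nat_lit 93715309150) (nat_lit 76) (nat_lit 14389443129) (nat_lit 18) (nat_lit 5) (nat_lit 20) (nat_lit 5) (nat_lit 19) (nat_lit 4) (nat_lit 390) (nat_lit 327) (nat_lit 183)))) (XT.nd (nat_lit 78) (nat_lit 76) (nat_lit 0) (XT.lf (nat_lit 0) (nat_lit 22446994127) (nat_lit 152) (nat_lit 53907542114) (nat_lit 76) (nat_lit 39123869591) (nat_lit 18) (nat_lit 5) (nat_lit 20) (nat_lit 5) (nat_lit 19) (nat_lit 4) (nat_lit 391) (nat_lit 327) (nat_lit 182)) (XT.nd (nat_lit 78) (nat_lit 76) (nat_lit 0) (XT.lf (nat_lit 0) (nat_lit 42836517408) (nat_lit 152) (nat_lit 12113049985) (nat_lit 76) (nat_lit 65093442673) (nat_lit 18) (nat_lit 5) (nat_lit 20) (nat_lit 5) (nat_lit 19) (nat_lit 4) (nat_lit 392) (nat_lit 327) (nat_lit 181)) (XT.lf (nat_lit 0) (nat_lit 32818060832) (nat_lit 76) (nat_lit 31937944127) (nat_lit 152) (nat_lit 60054315764)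 (nat_lit 17) (nat_lit 5) (nat_lit 18) (nat_lit 5) (nat_lit 19) (nat_lit 4) (nat_lit 393) (nat_lit 327) (nat_lit 180)))))) (XT.nd (nat_lit 468) (nat_lit 228) (nat_lit 0) (XT.nd (nat_lit 234) (nat_lit 152) (nat_lit 0) (XT.nd (nat_lit 78) (nat_lit 76) (nat_lit 0) (XT.lf (nat_lit 0) (nat_lit 80412832388) (nat_lit 76) (nat_lit 7561917657) (nat_lit 152) (nat_lit 41831083296) (nat_lit 17) (nat_lit 5) (nat_lit 18) (nat_lit 5) (nat_lit 19) (nat_lit 4) (nat_lit 394) (nat_lit 327) (nat_lit 179)) (XT.nd (nat_lit 78) (nat_lit 76) (nat_lit 0) (XT.lf (nat_lit 0) (nat_lit 112634184458) (nat_lit 152) (nat_lit 4948657998) (nat_lit 0) (nat_lit 17454292090) (nat_lit 17) (nat_lit 5) (nat_lit 19) (nat_lit 4) (nat_lit 17) (nat_lit 4) (nat_lit 395) (nat_lit 327) (nat_lit 178)) (XT.lf (nat_lit 0) (nat_lit 42965938738) (nat_lit 76) (nat_lit 96353729582) (nat_lit 76) (nat_lit 1170679136) (nat_lit 16) (nat_lit 4)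 (nat_lit 17) (nat_lit 5) (nat_lit 17) (nat_lit 4) (nat_lit 396) (nat_lit 327) (nat_lit 177)))) (XT.nd (nat_lit 78) (nat_lit 76) (nat_lit 0) (XT.lf (nat_lit 0) (nat_lit 20530610398) (nat_lit 152) (nat_lit 53098306822) (nat_lit 76) (nat_lit 72566640676) (nat_lit 15) (nat_lit 5) (nat_lit 17) (nat_lit 5) (nat_lit 16) (nat_lit 4) (nat_lit 397) (nat_lit 327) (nat_lit 176)) (XT.nd (nat_lit 78) (nat_lit 76) (nat_lit 0) (XT.lf (nat_lit 0) (nat_lit 43276000681) (nat_lit 152) (nat_lit 6473121212) (nat_lit 76) (nat_lit 102436028914) (nat_lit 15) (nat_lit 5) (nat_lit 17) (nat_lit 5) (nat_lit 16) (nat_lit 4) (nat_lit 398) (nat_lit 327) (nat_lit 175)) (XT.lf (nat_lit 0) (nat_lit 43885033168) (nat_lit 76) (nat_lit 23957251633) (nat_lit 152) (nat_lit 90597757784) (nat_lit 14) (nat_lit 5) (nat_lit 15) (nat_lit 5) (nat_lit 16) (nat_lit 4) (nat_lit 399) (nat_lit 327) (nat_lit 174))))) (XT.nd (nat_lit 234)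 (nat_lit 152) (nat_lit 0) (XT.nd (nat_lit 78) (nat_lit 76) (nat_lit 0) (XT.lf (nat_lit 0) (nat_lit 93795547907) (nat_lit 152) (nat_lit 68069839683) (nat_lit 0) (nat_lit 3134358540) (nat_lit 14) (nat_lit 5) (nat_lit 16) (nat_lit 4) (nat_lit 14) (nat_lit 4) (nat_lit 400) (nat_lit 327) (nat_lit 173)) (XT.nd (nat_lit 78) (nat_lit 76) (nat_lit 0) (XT.lf (nat_lit 0) (nat_lit 121437753609) (nat_lit 152) (nat_lit 19655910033) (nat_lit 0) (nat_lit 30774207636) (nat_lit 14) (nat_lit 5) (nat_lit 16) (nat_lit 4) (nat_lit 14) (nat_lit 4) (nat_lit 401) (nat_lit 327) (nat_lit 172)) (XT.lf (nat_lit 0) (nat_lit 32206912982) (nat_lit 76) (nat_lit 118756604034) (nat_lit 76) (nat_lit 28090813674) (nat_lit 13) (nat_lit 4) (nat_lit 14) (nat_lit 5) (nat_lit 14) (nat_lit 4) (nat_lit 402) (nat_lit 327) (nat_lit 171)))) (XT.nd (nat_lit 78) (nat_lit 152) (nat_lit 0) (XT.lf (nat_lit 0) (nat_lit 87342702840) (nat_lit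 76) (nat_lit 94954381342) (nat_lit 76) (nat_lit 4286453471) (nat_lit 13) (nat_lit 4) (nat_lit 14) (nat_lit 5) (nat_lit 14) (nat_lit 4) (nat_lit 403) (nat_lit 327) (nat_lit 170)) (XT.nd (nat_lit 78) (nat_lit 76) (nat_lit 0) (XT.lf (nat_lit 0) (nat_lit 20044012079) (nat_lit 152) (nat_lit 49579738834) (nat_lit 76) (nat_lit 124849354952) (nat_lit 12) (nat_lit 5) (nat_lit 14) (nat_lit 5) (nat_lit 13) (nat_lit 4) (nat_lit 404) (nat_lit 327) (nat_lit 169)) (XT.lf (nat_lit 0) (nat_lit 2574146012) (nat_lit 76) (nat_lit 42911731253) (nat_lit 152) (nat_lit 157265815582) (nat_lit 11) (nat_lit 5) (nat_lit 12) (nat_lit 5) (nat_lit 13) (nat_lit 4) (nat_lit 405) (nat_lit 327) (nat_lit 168))))))))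
noncomputable def xc172 : XT := (XT.nd (nat_lit 1716) (nat_lit 0) (nat_lit 0) (XT.nd (nat_lit 858) (nat_lit 228) (nat_lit 0) (XT.nd (nat_lit 390) (nat_lit 152) (nat_lit 0) (XT.nd (nat_lit 156) (nat_lit 76) (nat_lit 0) (XT.nd (nat_lit 78) (nat_lit 0) (nat_lit 0) (XT.lf (nat_lit 0) (nat_lit 59054675196) (nat_lit 76) (nat_lit 13983580433) (nat_lit 152) (nat_lit 138364032850) (nat_lit 11) (nat_lit 5) (nat_lit 12) (nat_lit 5) (nat_lit 13) (nat_lit 4) (nat_lit 406) (nat_lit 327) (nat_lit 167)) (XT.lf (nat_lit 0) (nat_lit 102222967469) (nat_lit 152) (nat_lit 102384369588) (nat_lit 0) (nat_lit 15865341391) (nat_lit 11) (nat_lit 5) (nat_lit 13) (nat_lit 4) (nat_lit 11) (nat_lit 4) (nat_lit 407) (nat_lit 327) (nat_lit 166))) (XT.nd (nat_lit 78) (nat_lit 76) (nat_lit 0) (XT.lf (nat_lit 0) (nat_lit 133095016261) (nat_lit 152) (nat_lit 50154371714) (nat_lit 0) (nat_lit 46735795139) (nat_lit 11) (nat_lit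 5) (nat_lit 13) (nat_lit 4) (nat_lit 11) (nat_lit 4) (nat_lit 408) (nat_lit 327) (nat_lit 165)) (XT.nd (nat_lit 78) (nat_lit 0) (nat_lit 0) (XT.lf (nat_lit 0) (nat_lit 4839969607) (nat_lit 76) (nat_lit 160745179887) (nat_lit 76) (nat_lit 74384439676) (nat_lit 10) (nat_lit 4) (nat_lit 11) (nat_lit 5) (nat_lit 11) (nat_lit 4) (nat_lit 409) (nat_lit 327) (nat_lit 164)) (XT.lf (nat_lit 0) (nat_lit 64323242148) (nat_lit 76) (nat_lit 136224872171) (nat_lit 76) (nat_lit 49862685208) (nat_lit 10) (nat_lit 4) (nat_lit 11) (nat_lit 5) (nat_lit 11) (nat_lit 4) (nat_lit 410) (nat_lit 327) (nat_lit 163))))) (XT.nd (nat_lit 234) (nat_lit 76) (nat_lit 0) (XT.nd (nat_lit 78) (nat_lit 76) (nat_lit 0) (XT.lf (nat_lit 0) (nat_lit 126778742715) (nat_lit 76) (nat_lit 110479471694) (nat_lit 76) (nat_lit 24115906872) (nat_lit 10) (nat_lit 4) (nat_lit 11) (nat_lit 5) (nat_lit 11) (nat_lit 4) (nat_lit 411) (nat_lit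 327) (nat_lit 162)) (XT.nd (nat_lit 78) (nat_lit 0) (nat_lit 0) (XT.lf (nat_lit 0) (nat_lit 2823828655) (nat_lit 152) (nat_lit 80576028325) (nat_lit 76) (nat_lit 189483523322) (nat_lit 9) (nat_lit 5) (nat_lit 11) (nat_lit 5) (nat_lit 10) (nat_lit 4) (nat_lit 412) (nat_lit 327) (nat_lit 161)) (XT.lf (nat_lit 0) (nat_lit 30299164287) (nat_lit 152) (nat_lit 24252840039) (nat_lit 76) (nat_lit 230396377714) (nat_lit 9) (nat_lit 5) (nat_lit 11) (nat_lit 5) (nat_lit 10) (nat_lit 4) (nat_lit 413) (nat_lit 327) (nat_lit 160)))) (XT.nd (nat_lit 78) (nat_lit 0) (nat_lit 0) (XT.lf (nat_lit 0) (nat_lit 36038255243) (nat_lit 76) (nat_lit 23671780033) (nat_lit 152) (nat_lit 237878510350) (nat_lit 8) (nat_lit 5) (nat_lit 9) (nat_lit 5) (nat_lit 10) (nat_lit 4) (nat_lit 414) (nat_lit 327) (nat_lit 159)) (XT.nd (nat_lit 78) (nat_lit 0) (nat_lit 0) (XT.lf (nat_lit 0) (nat_lit 91144681226) (nat_lit 152) (nat_lit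 210799360829) (nat_lit 0) (nat_lit 8889013948) (nat_lit 8) (nat_lit 5) (nat_lit 10) (nat_lit 4) (nat_lit 8) (nat_lit 4) (nat_lit 415) (nat_lit 327) (nat_lit 158)) (XT.lf (nat_lit 0) (nat_lit 124538277759) (nat_lit 152) (nat_lit 157900571098) (nat_lit 0) (nat_lit 42281582301) (nat_lit 8) (nat_lit 5) (nat_lit 10) (nat_lit 4) (nat_lit 8) (nat_lit 4) (nat_lit 416) (nat_lit 327) (nat_lit 157)))))) (XT.nd (nat_lit 390) (nat_lit 152) (nat_lit 0) (XT.nd (nat_lit 156) (nat_lit 76) (nat_lit 0) (XT.nd (nat_lit 78) (nat_lit 0) (nat_lit 0) (XT.lf (nat_lit 0) (nat_lit 159600750612) (nat_lit 152) (nat_lit 102358388865) (nat_lit 0) (nat_lit 77343075935) (nat_lit 8) (nat_lit 5) (nat_lit 10) (nat_lit 4) (nat_lit 8) (nat_lit 4) (nat_lit 417) (nat_lit 327) (nat_lit 156)) (XT.lf (nat_lit 0) (nat_lit 196415581862) (nat_lit 152) (nat_lit 44040570839) (nat_lit 0) (nat_lit 114156974596) (nat_lit 8) (nat_lit 5)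 (nat_lit 10) (nat_lit 4) (nat_lit 8) (nat_lit 4) (nat_lit 418) (nat_lit 327) (nat_lit 155))) (XT.nd (nat_lit 78) (nat_lit 0) (nat_lit 0) (XT.lf (nat_lit 0) (nat_lit 17760171323) (nat_lit 76) (nat_lit 217587540594) (nat_lit 76) (nat_lit 135328045148) (nat_lit 7) (nat_lit 4) (nat_lit 8) (nat_lit 5) (nat_lit 8) (nat_lit 4) (nat_lit 419) (nat_lit 327) (nat_lit 154)) (XT.nd (nat_lit 78) (nat_lit 0) (nat_lit 0) (XT.lf (nat_lit 0) (nat_lit 84178559240) (nat_lit 76) (nat_lit 192793021960) (nat_lit 76) (nat_lit 110532680628) (nat_lit 7) (nat_lit 4) (nat_lit 8) (nat_lit 5) (nat_lit 8) (nat_lit 4) (nat_lit 420) (nat_lit 327) (nat_lit 153)) (XT.lf (nat_lit 0) (nat_lit 153916551762) (nat_lit 76) (nat_lit 166759410608) (nat_lit 76) (nat_lit 84498263671) (nat_lit 7) (nat_lit 4) (nat_lit 8) (nat_lit 5) (nat_lit 8) (nat_lit 4) (nat_lit 421) (nat_lit 327) (nat_lit 152))))) (XT.nd (nat_lit 234) (nat_lit 76)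 (nat_lit 0) (XT.nd (nat_lit 78) (nat_lit 76) (nat_lit 0) (XT.lf (nat_lit 0) (nat_lit 227140191731) (nat_lit 76) (nat_lit 139424721751) (nat_lit 76) (nat_lit 57162807571) (nat_lit 7) (nat_lit 4) (nat_lit 8) (nat_lit 5) (nat_lit 8) (nat_lit 4) (nat_lit 422) (nat_lit 327) (nat_lit 151)) (XT.nd (nat_lit 78) (nat_lit 76) (nat_lit 0) (XT.lf (nat_lit 0) (nat_lit 304023821145) (nat_lit 76) (nat_lit 110723872795) (nat_lit 76) (nat_lit 28461227907) (nat_lit 7) (nat_lit 4) (nat_lit 8) (nat_lit 5) (nat_lit 8) (nat_lit 4) (nat_lit 423) (nat_lit 327) (nat_lit 150)) (XT.lf (nat_lit 0) (nat_lit 1621207957) (nat_lit 152) (nat_lit 78939864488) (nat_lit 76) (nat_lit 383101832367) (nat_lit 6) (nat_lit 5) (nat_lit 8) (nat_lit 5) (nat_lit 7) (nat_lit 4) (nat_lit 424) (nat_lit 327) (nat_lit 149)))) (XT.nd (nat_lit 78) (nat_lit 76) (nat_lit 0) (XT.lf (nat_lit 0) (nat_lit 32250711692) (nat_lit 152) (nat_lit 16150044604)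 (nat_lit 76) (nat_lit 436715530360) (nat_lit 6) (nat_lit 5) (nat_lit 8) (nat_lit 5) (nat_lit 7) (nat_lit 4) (nat_lit 425) (nat_lit 327) (nat_lit 148)) (XT.nd (nat_lit 78) (nat_lit 0) (nat_lit 0) (XT.lf (nat_lit 0) (nat_lit 51424110743) (nat_lit 76) (nat_lit 13789911466) (nat_lit 152) (nat_lit 442388198906) (nat_lit 5) (nat_lit 5) (nat_lit 6) (nat_lit 5) (nat_lit 7) (nat_lit 4) (nat_lit 426) (nat_lit 327) (nat_lit 147)) (XT.lf (nat_lit 0) (nat_lit 100455041642) (nat_lit 152) (nat_lit 408618735695) (nat_lit 0) (nat_lit 22107197887) (nat_lit 5) (nat_lit 5) (nat_lit 7) (nat_lit 4) (nat_lit 5) (nat_lit 4) (nat_lit 427) (nat_lit 327) (nat_lit 146))))))) (XT.nd (nat_lit 39858) (nat_lit 0) (nat_lit 5092) (XT.nd (nat_lit 39390) (nat_lit 0) (nat_lit 7144) (XT.nd (nat_lit 39156) (nat_lit 0) (nat_lit 7752) (XT.nd (nat_lit 39078) (nat_lit 0) (nat_lit 7752) (XT.lf (nat_lit 0) (nat_lit 137683661010) (nat_lit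 152) (nat_lit 358908456685) (nat_lit 0) (nat_lit 59335271989) (nat_lit 5) (nat_lit 5) (nat_lit 7) (nat_lit 4) (nat_lit 5) (nat_lit 4) (nat_lit 428) (nat_lit 327) (nat_lit 145)) (XT.lf (nat_lit 0) (nat_lit 3353803473) (nat_lit 0) (nat_lit 3353803473) (nat_lit 684) (nat_lit 1372204602) (nat_lit 107) (nat_lit 5) (nat_lit 107) (nat_lit 3) (nat_lit 116) (nat_lit 3) (nat_lit 328) (nat_lit 328) (nat_lit 244))) (XT.nd (nat_lit 78) (nat_lit 0) (nat_lit 0) (XT.lf (nat_lit 0) (nat_lit 14003634154) (nat_lit 684) (nat_lit 1885885924) (nat_lit 760) (nat_lit 661118778) (nat_lit 107) (nat_lit 5) (nat_lit 116) (nat_lit 3) (nat_lit 117) (nat_lit 5) (nat_lit 329) (nat_lit 328) (nat_lit 243)) (XT.nd (nat_lit 78) (nat_lit 0) (nat_lit 0) (XT.lf (nat_lit 76) (nat_lit 6136315349) (nat_lit 0) (nat_lit 8675531909) (nat_lit 760) (nat_lit 2139860218) (nat_lit 108) (nat_lit 5) (nat_lit 107) (nat_lit 5) (nat_lit 117)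 (nat_lit 5) (nat_lit 330) (nat_lit 328) (nat_lit 242)) (XT.lf (nat_lit 76) (nat_lit 14616565202) (nat_lit 0) (nat_lit 1061049978) (nat_lit 760) (nat_lit 1694376821) (nat_lit 108) (nat_lit 5) (nat_lit 107) (nat_lit 5) (nat_lit 117) (nat_lit 5) (nat_lit 331) (nat_lit 328) (nat_lit 241))))) (XT.nd (nat_lit 234) (nat_lit 0) (nat_lit 0) (XT.nd (nat_lit 78) (nat_lit 684) (nat_lit 0) (XT.lf (nat_lit 76) (nat_lit 5775171700) (nat_lit 0) (nat_lit 10995931348) (nat_lit 760) (nat_lit 1032984869) (nat_lit 109) (nat_lit 5) (nat_lit 108) (nat_lit 5) (nat_lit 118) (nat_lit 5) (nat_lit 332) (nat_lit 328) (nat_lit 240)) (XT.nd (nat_lit 78) (nat_lit 684) (nat_lit 0) (XT.lf (nat_lit 76) (nat_lit 14801192154) (nat_lit 0) (nat_lit 3168383780) (nat_lit 760) (nat_lit 285715015) (nat_lit 109) (nat_lit 5) (nat_lit 108) (nat_lit 5) (nat_lit 118) (nat_lit 5) (nat_lit 333) (nat_lit 328) (nat_lit 239)) (XT.lf (nat_lit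 0) (nat_lit 639645890) (nat_lit 760) (nat_lit 13089600001) (nat_lit 836) (nat_lit 4991600154) (nat_lit 99) (nat_lit 5) (nat_lit 109) (nat_lit 5) (nat_lit 110) (nat_lit 5) (nat_lit 334) (nat_lit 328) (nat_lit 238)))) (XT.nd (nat_lit 78) (nat_lit 0) (nat_lit 76) (XT.lf (nat_lit 0) (nat_lit 1700562999) (nat_lit 760) (nat_lit 3982952359) (nat_lit 836) (nat_lit 13521000263) (nat_lit 99) (nat_lit 5) (nat_lit 109) (nat_lit 5) (nat_lit 110) (nat_lit 5) (nat_lit 335) (nat_lit 328) (nat_lit 237)) (XT.nd (nat_lit 78) (nat_lit 0) (nat_lit 0) (XT.lf (nat_lit 0) (nat_lit 2937135828) (nat_lit 760) (nat_lit 13998912051) (nat_lit 836) (nat_lit 2770204989) (nat_lit 100) (nat_lit 5) (nat_lit 110) (nat_lit 5) (nat_lit 111) (nat_lit 5) (nat_lit 336) (nat_lit 328) (nat_lit 236)) (XT.lf (nat_lit 0) (nat_lit 4385829436) (nat_lit 760) (nat_lit 4312984565) (nat_lit 836) (nat_lit 11526762356) (nat_lit 100) (nat_lit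 5) (nat_lit 110) (nat_lit 5) (nat_lit 111) (nat_lit 5) (nat_lit 337) (nat_lit 328) (nat_lit 235)))))) (XT.nd (nat_lit 468) (nat_lit 1064) (nat_lit 0) (XT.nd (nat_lit 234) (nat_lit 380) (nat_lit 0) (XT.nd (nat_lit 78) (nat_lit 760) (nat_lit 0) (XT.lf (nat_lit 0) (nat_lit 5991189915) (nat_lit 760) (nat_lit 14725879376) (nat_lit 76) (nat_lit 49598441) (nat_lit 101) (nat_lit 5) (nat_lit 111) (nat_lit 5) (nat_lit 102) (nat_lit 5) (nat_lit 338) (nat_lit 328) (nat_lit 234)) (XT.nd (nat_lit 78) (nat_lit 760) (nat_lit 0) (XT.lf (nat_lit 0) (nat_lit 7883174319) (nat_lit 760) (nat_lit 4422375981) (nat_lit 76) (nat_lit 9018958267) (nat_lit 101) (nat_lit 5) (nat_lit 111) (nat_lit 5) (nat_lit 102) (nat_lit 5) (nat_lit 339) (nat_lit 328) (nat_lit 233)) (XT.lf (nat_lit 0) (nat_lit 6598544338) (nat_lit 760) (nat_lit 3364247273) (nat_lit 836) (nat_lit 11942810232) (nat_lit 91) (nat_lit 5) (nat_lit 101) (nat_lit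 5) (nat_lit 102) (nat_lit 5) (nat_lit 340) (nat_lit 328) (nat_lit 232)))) (XT.nd (nat_lit 78) (nat_lit 380) (nat_lit 0) (XT.lf (nat_lit 0) (nat_lit 12306929180) (nat_lit 836) (nat_lit 4292556260) (nat_lit 76) (nat_lit 5908248879) (nat_lit 91) (nat_lit 5) (nat_lit 102) (nat_lit 5) (nat_lit 92) (nat_lit 5) (nat_lit 341) (nat_lit 328) (nat_lit 231)) (XT.nd (nat_lit 78) (nat_lit 0) (nat_lit 0) (XT.lf (nat_lit 0) (nat_lit 7446996843) (nat_lit 380) (nat_lit 7483518903) (nat_lit 456) (nat_lit 8201356525) (nat_lit 86) (nat_lit 5) (nat_lit 91) (nat_lit 5) (nat_lit 92) (nat_lit 5) (nat_lit 342) (nat_lit 328) (nat_lit 230)) (XT.lf (nat_lit 0) (nat_lit 17782898391) (nat_lit 456) (nat_lit 3904007480) (nat_lit 76) (nat_lit 2095440850) (nat_lit 86) (nat_lit 5) (nat_lit 92) (nat_lit 5) (nat_lit 87) (nat_lit 5) (nat_lit 343) (nat_lit 328) (nat_lit 229))))) (XT.nd (nat_lit 234) (nat_lit 304) (nat_lit 0)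 (XT.nd (nat_lit 78) (nat_lit 456) (nat_lit 0) (XT.lf (nat_lit 0) (nat_lit 8610050489) (nat_lit 304) (nat_lit 12416505059) (nat_lit 380) (nat_lit 3426366516) (nat_lit 82) (nat_lit 5) (nat_lit 86) (nat_lit 5) (nat_lit 87) (nat_lit 5) (nat_lit 344) (nat_lit 328) (nat_lit 228)) (XT.nd (nat_lit 78) (nat_lit 456) (nat_lit 0) (XT.lf (nat_lit 0) (nat_lit 21876742657) (nat_lit 304) (nat_lit 2613584999) (nat_lit 380) (nat_lit 663811380) (nat_lit 82) (nat_lit 5) (nat_lit 86) (nat_lit 5) (nat_lit 87) (nat_lit 5) (nat_lit 345) (nat_lit 328) (nat_lit 227)) (XT.lf (nat_lit 0) (nat_lit 2439660880) (nat_lit 456) (nat_lit 15804781180) (nat_lit 76) (nat_lit 7630518030) (nat_lit 76) (nat_lit 5) (nat_lit 82) (nat_lit 5) (nat_lit 77) (nat_lit 5) (nat_lit 346) (nat_lit 328) (nat_lit 226)))) (XT.nd (nat_lit 78) (nat_lit 304) (nat_lit 0) (XT.lf (nat_lit 0) (nat_lit 5767564717) (nat_lit 456) (nat_lit 2493481565)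 (nat_lit 76) (nat_lit 18365661666) (nat_lit 76) (nat_lit 5) (nat_lit 82) (nat_lit 5) (nat_lit 77) (nat_lit 5) (nat_lit 347) (nat_lit 328) (nat_lit 225)) (XT.nd (nat_lit 78) (nat_lit 0) (nat_lit 0) (XT.lf (nat_lit 0) (nat_lit 9477321735) (nat_lit 380) (nat_lit 15590363907) (nat_lit 76) (nat_lit 2337592447) (nat_lit 72) (nat_lit 5) (nat_lit 77) (nat_lit 5) (nat_lit 73) (nat_lit 5) (nat_lit 348) (nat_lit 328) (nat_lit 224)) (XT.lf (nat_lit 0) (nat_lit 13543791953) (nat_lit 380) (nat_lit 1439997822) (nat_lit 76) (nat_lit 13230433111) (nat_lit 72) (nat_lit 5) (nat_lit 77) (nat_lit 5) (nat_lit 73) (nat_lit 5) (nat_lit 349) (nat_lit 328) (nat_lit 223))))))))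
noncomputable def xc173 : XT := (XT.nd (nat_lit 1716) (nat_lit 1368) (nat_lit 0) (XT.nd (nat_lit 858) (nat_lit 1216) (nat_lit 0) (XT.nd (nat_lit 390) (nat_lit 684) (nat_lit 0) (XT.nd (nat_lit 156) (nat_lit 608) (nat_lit 0) (XT.nd (nat_lit 78) (nat_lit 0) (nat_lit 0) (XT.lf (nat_lit 0) (nat_lit 13853168753) (nat_lit 304) (nat_lit 4169920646) (nat_lit 380) (nat_lit 11030057402) (nat_lit 68) (nat_lit 5) (nat_lit 72) (nat_lit 5) (nat_lit 73) (nat_lit 5) (nat_lit 350) (nat_lit 328) (nat_lit 222)) (XT.lf (nat_lit 0) (nat_lit 22856704674) (nat_lit 380) (nat_lit 92671851) (nat_lit 76) (nat_lit 6978129466) (nat_lit 68) (nat_lit 5) (nat_lit 73) (nat_lit 5) (nat_lit 69) (nat_lit 5) (nat_lit 351) (nat_lit 328) (nat_lit 221))) (XT.nd (nat_lit 78) (nat_lit 380) (nat_lit 0) (XT.lf (nat_lit 0) (nat_lit 16212651898) (nat_lit 228) (nat_lit 12034541401) (nat_lit 304) (nat_lit 2582636622) (nat_lit 65) (nat_lit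 5) (nat_lit 68) (nat_lit 5) (nat_lit 69) (nat_lit 5) (nat_lit 352) (nat_lit 328) (nat_lit 220)) (XT.nd (nat_lit 78) (nat_lit 0) (nat_lit 0) (XT.lf (nat_lit 0) (nat_lit 1568201209) (nat_lit 304) (nat_lit 513423532) (nat_lit 380) (nat_lit 29692995417) (nat_lit 60) (nat_lit 5) (nat_lit 64) (nat_lit 5) (nat_lit 65) (nat_lit 5) (nat_lit 353) (nat_lit 328) (nat_lit 219)) (XT.lf (nat_lit 0) (nat_lit 7318693564) (nat_lit 380) (nat_lit 13919328546) (nat_lit 76) (nat_lit 11505197022) (nat_lit 60) (nat_lit 5) (nat_lit 65) (nat_lit 5) (nat_lit 61) (nat_lit 5) (nat_lit 354) (nat_lit 328) (nat_lit 218))))) (XT.nd (nat_lit 234) (nat_lit 228) (nat_lit 0) (XT.nd (nat_lit 78) (nat_lit 228) (nat_lit 0) (XT.lf (nat_lit 0) (nat_lit 3270637950) (nat_lit 228) (nat_lit 9600673672) (nat_lit 304) (nat_lit 20886256915) (nat_lit 57) (nat_lit 5) (nat_lit 60) (nat_lit 5) (nat_lit 61) (nat_lit 5) (nat_lit 355) (nat_lit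 328) (nat_lit 217)) (XT.nd (nat_lit 78) (nat_lit 228) (nat_lit 0) (XT.lf (nat_lit 0) (nat_lit 18976379030) (nat_lit 304) (nat_lit 13060118659) (nat_lit 76) (nat_lit 2772401821) (nat_lit 57) (nat_lit 5) (nat_lit 61) (nat_lit 5) (nat_lit 58) (nat_lit 5) (nat_lit 356) (nat_lit 328) (nat_lit 216)) (XT.lf (nat_lit 0) (nat_lit 5240888865) (nat_lit 228) (nat_lit 20379634157) (nat_lit 304) (nat_lit 10280587629) (nat_lit 54) (nat_lit 5) (nat_lit 57) (nat_lit 5) (nat_lit 58) (nat_lit 5) (nat_lit 357) (nat_lit 328) (nat_lit 215)))) (XT.nd (nat_lit 78) (nat_lit 228) (nat_lit 0) (XT.lf (nat_lit 0) (nat_lit 24902987451) (nat_lit 228) (nat_lit 7909817831) (nat_lit 304) (nat_lit 4224335069) (nat_lit 54) (nat_lit 5) (nat_lit 57) (nat_lit 5) (nat_lit 58) (nat_lit 5) (nat_lit 358) (nat_lit 328) (nat_lit 214)) (XT.nd (nat_lit 78) (nat_lit 0) (nat_lit 0) (XT.lf (nat_lit 0) (nat_lit 2262069451) (nat_lit 228)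 (nat_lit 30787735224) (nat_lit 76) (nat_lit 5168721333) (nat_lit 51) (nat_lit 5) (nat_lit 54) (nat_lit 5) (nat_lit 52) (nat_lit 5) (nat_lit 359) (nat_lit 328) (nat_lit 213)) (XT.lf (nat_lit 0) (nat_lit 9264378285) (nat_lit 228) (nat_lit 11263043721) (nat_lit 76) (nat_lit 18911422833) (nat_lit 51) (nat_lit 5) (nat_lit 54) (nat_lit 5) (nat_lit 52) (nat_lit 5) (nat_lit 360) (nat_lit 328) (nat_lit 212)))))) (XT.nd (nat_lit 390) (nat_lit 532) (nat_lit 0) (XT.nd (nat_lit 156) (nat_lit 456) (nat_lit 0) (XT.nd (nat_lit 78) (nat_lit 0) (nat_lit 0) (XT.lf (nat_lit 0) (nat_lit 9536145865) (nat_lit 228) (nat_lit 7224793833) (nat_lit 304) (nat_lit 23952036804) (nat_lit 48) (nat_lit 5) (nat_lit 51) (nat_lit 5) (nat_lit 52) (nat_lit 5) (nat_lit 361) (nat_lit 328) (nat_lit 211)) (XT.lf (nat_lit 0) (nat_lit 24926813828) (nat_lit 304) (nat_lit 10390399771) (nat_lit 76) (nat_lit 6718880483) (nat_lit 48) (nat_lit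 5) (nat_lit 52) (nat_lit 5) (nat_lit 49) (nat_lit 5) (nat_lit 362) (nat_lit 328) (nat_lit 210))) (XT.nd (nat_lit 78) (nat_lit 304) (nat_lit 0) (XT.lf (nat_lit 0) (nat_lit 11684174132) (nat_lit 152) (nat_lit 22113227564) (nat_lit 228) (nat_lit 9613148244) (nat_lit 46) (nat_lit 5) (nat_lit 48) (nat_lit 5) (nat_lit 49) (nat_lit 5) (nat_lit 363) (nat_lit 328) (nat_lit 209)) (XT.nd (nat_lit 78) (nat_lit 304) (nat_lit 0) (XT.lf (nat_lit 0) (nat_lit 35216610305) (nat_lit 152) (nat_lit 8066541697) (nat_lit 228) (nat_lit 1561998172) (nat_lit 46) (nat_lit 5) (nat_lit 48) (nat_lit 5) (nat_lit 49) (nat_lit 5) (nat_lit 364) (nat_lit 328) (nat_lit 208)) (XT.lf (nat_lit 0) (nat_lit 6993653749) (nat_lit 304) (nat_lit 32539861117) (nat_lit 76) (nat_lit 6796462439) (nat_lit 42) (nat_lit 5) (nat_lit 46) (nat_lit 5) (nat_lit 43) (nat_lit 5) (nat_lit 365) (nat_lit 328) (nat_lit 207))))) (XT.nd (nat_lit 234)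 (nat_lit 380) (nat_lit 0) (XT.nd (nat_lit 78) (nat_lit 152) (nat_lit 0) (XT.lf (nat_lit 0) (nat_lit 16218439199) (nat_lit 304) (nat_lit 9333918927) (nat_lit 76) (nat_lit 22320717920) (nat_lit 42) (nat_lit 5) (nat_lit 46) (nat_lit 5) (nat_lit 43) (nat_lit 5) (nat_lit 366) (nat_lit 328) (nat_lit 206)) (XT.nd (nat_lit 78) (nat_lit 0) (nat_lit 0) (XT.lf (nat_lit 0) (nat_lit 15522967069) (nat_lit 152) (nat_lit 10619919359) (nat_lit 228) (nat_lit 23338524834) (nat_lit 40) (nat_lit 5) (nat_lit 42) (nat_lit 5) (nat_lit 43) (nat_lit 5) (nat_lit 367) (nat_lit 328) (nat_lit 205)) (XT.lf (nat_lit 0) (nat_lit 36799332023) (nat_lit 228) (nat_lit 9303333371) (nat_lit 76) (nat_lit 5055711580) (nat_lit 40) (nat_lit 5) (nat_lit 43) (nat_lit 5) (nat_lit 41) (nat_lit 5) (nat_lit 368) (nat_lit 328) (nat_lit 204)))) (XT.nd (nat_lit 78) (nat_lit 228) (nat_lit 0) (XT.lf (nat_lit 0) (nat_lit 16946894755) (nat_lit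 152) (nat_lit 31476698141) (nat_lit 228) (nat_lit 4473850841) (nat_lit 38) (nat_lit 5) (nat_lit 40) (nat_lit 5) (nat_lit 41) (nat_lit 5) (nat_lit 369) (nat_lit 328) (nat_lit 203)) (XT.nd (nat_lit 78) (nat_lit 152) (nat_lit 0) (XT.lf (nat_lit 0) (nat_lit 5873056681) (nat_lit 228) (nat_lit 9983722161) (nat_lit 76) (nat_lit 38854253540) (nat_lit 37) (nat_lit 5) (nat_lit 40) (nat_lit 5) (nat_lit 38) (nat_lit 5) (nat_lit 370) (nat_lit 328) (nat_lit 202)) (XT.lf (nat_lit 0) (nat_lit 16875134442) (nat_lit 228) (nat_lit 38840946368) (nat_lit 76) (nat_lit 881145866) (nat_lit 35) (nat_lit 5) (nat_lit 38) (nat_lit 5) (nat_lit 36) (nat_lit 5) (nat_lit 371) (nat_lit 328) (nat_lit 201))))))) (XT.nd (nat_lit 858) (nat_lit 608) (nat_lit 0) (XT.nd (nat_lit 390) (nat_lit 456) (nat_lit 0) (XT.nd (nat_lit 156) (nat_lit 152) (nat_lit 0) (XT.nd (nat_lit 78) (nat_lit 152) (nat_lit 0) (XT.lf (nat_lit 0) (nat_lit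 28855664429) (nat_lit 228) (nat_lit 11607838139) (nat_lit 76) (nat_lit 18092812687) (nat_lit 35) (nat_lit 5) (nat_lit 38) (nat_lit 5) (nat_lit 36) (nat_lit 5) (nat_lit 372) (nat_lit 328) (nat_lit 200)) (XT.lf (nat_lit 0) (nat_lit 17542944894) (nat_lit 152) (nat_lit 24162885021) (nat_lit 228) (nat_lit 18893999790) (nat_lit 33) (nat_lit 5) (nat_lit 35) (nat_lit 5) (nat_lit 36) (nat_lit 5) (nat_lit 373) (nat_lit 328) (nat_lit 199))) (XT.nd (nat_lit 78) (nat_lit 152) (nat_lit 0) (XT.lf (nat_lit 0) (nat_lit 48548888744) (nat_lit 152) (nat_lit 6842986269) (nat_lit 228) (nat_lit 7343978100) (nat_lit 33) (nat_lit 5) (nat_lit 35) (nat_lit 5) (nat_lit 36) (nat_lit 5) (nat_lit 374) (nat_lit 328) (nat_lit 198)) (XT.nd (nat_lit 78) (nat_lit 0) (nat_lit 0) (XT.lf (nat_lit 0) (nat_lit 5068673527) (nat_lit 152) (nat_lit 48567574775) (nat_lit 76) (nat_lit 11316785189) (nat_lit 31) (nat_lit 5) (nat_lit 33)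 (nat_lit 5) (nat_lit 32) (nat_lit 5) (nat_lit 375) (nat_lit 328) (nat_lit 197)) (XT.lf (nat_lit 0) (nat_lit 18208457211) (nat_lit 152) (nat_lit 18531790860) (nat_lit 76) (nat_lit 30517141454) (nat_lit 31) (nat_lit 5) (nat_lit 33) (nat_lit 5) (nat_lit 32) (nat_lit 5) (nat_lit 376) (nat_lit 328) (nat_lit 196))))) (XT.nd (nat_lit 234) (nat_lit 228) (nat_lit 0) (XT.nd (nat_lit 78) (nat_lit 76) (nat_lit 0) (XT.lf (nat_lit 0) (nat_lit 13430635483) (nat_lit 152) (nat_lit 18781354311) (nat_lit 228) (nat_lit 37454637065) (nat_lit 29) (nat_lit 5) (nat_lit 31) (nat_lit 5) (nat_lit 32) (nat_lit 5) (nat_lit 377) (nat_lit 328) (nat_lit 195)) (XT.nd (nat_lit 78) (nat_lit 76) (nat_lit 0) (XT.lf (nat_lit 0) (nat_lit 47232967579) (nat_lit 228) (nat_lit 24557435000) (nat_lit 76) (nat_lit 390061463) (nat_lit 29) (nat_lit 5) (nat_lit 32) (nat_lit 5) (nat_lit 30) (nat_lit 4) (nat_lit 378) (nat_lit 328) (nat_lit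 194)) (XT.lf (nat_lit 0) (nat_lit 8669844700) (nat_lit 76) (nat_lit 54775639474) (nat_lit 152) (nat_lit 11352485757) (nat_lit 28) (nat_lit 5) (nat_lit 29) (nat_lit 5) (nat_lit 30) (nat_lit 4) (nat_lit 379) (nat_lit 328) (nat_lit 193)))) (XT.nd (nat_lit 78) (nat_lit 152) (nat_lit 0) (XT.lf (nat_lit 0) (nat_lit 3248704829) (nat_lit 152) (nat_lit 33171749535) (nat_lit 76) (nat_lit 41102618707) (nat_lit 27) (nat_lit 5) (nat_lit 29) (nat_lit 5) (nat_lit 28) (nat_lit 5) (nat_lit 380) (nat_lit 328) (nat_lit 192)) (XT.nd (nat_lit 78) (nat_lit 0) (nat_lit 0) (XT.lf (nat_lit 0) (nat_lit 1282808621) (nat_lit 152) (nat_lit 16933037994) (nat_lit 228) (nat_lit 62158410115) (nat_lit 25) (nat_lit 5) (nat_lit 27) (nat_lit 5) (nat_lit 28) (nat_lit 5) (nat_lit 381) (nat_lit 328) (nat_lit 191)) (XT.lf (nat_lit 0) (nat_lit 34554833465) (nat_lit 228) (nat_lit 44797083612) (nat_lit 76) (nat_lit 3984909202) (nat_lit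 25) (nat_lit 5) (nat_lit 28) (nat_lit 5) (nat_lit 26) (nat_lit 4) (nat_lit 382) (nat_lit 328) (nat_lit 190)))))) (XT.nd (nat_lit 468) (nat_lit 304) (nat_lit 0) (XT.nd (nat_lit 234) (nat_lit 228) (nat_lit 0) (XT.nd (nat_lit 78) (nat_lit 76) (nat_lit 0) (XT.lf (nat_lit 0) (nat_lit 51985889187) (nat_lit 228) (nat_lit 9069984801) (nat_lit 76) (nat_lit 25377895397) (nat_lit 25) (nat_lit 5) (nat_lit 28) (nat_lit 5) (nat_lit 26) (nat_lit 4) (nat_lit 383) (nat_lit 328) (nat_lit 189)) (XT.nd (nat_lit 78) (nat_lit 0) (nat_lit 0) (XT.lf (nat_lit 0) (nat_lit 29379616222) (nat_lit 76) (nat_lit 41365226039) (nat_lit 152) (nat_lit 18917901159) (nat_lit 24) (nat_lit 5) (nat_lit 25) (nat_lit 5) (nat_lit 26) (nat_lit 4) (nat_lit 384) (nat_lit 328) (nat_lit 188)) (XT.lf (nat_lit 0) (nat_lit 70062470244) (nat_lit 76) (nat_lit 20530571553) (nat_lit 152) (nat_lit 2452560374) (nat_lit 24) (nat_lit 5) (nat_lit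 25) (nat_lit 5) (nat_lit 26) (nat_lit 4) (nat_lit 385) (nat_lit 328) (nat_lit 187)))) (XT.nd (nat_lit 78) (nat_lit 0) (nat_lit 0) (XT.lf (nat_lit 0) (nat_lit 14645163813) (nat_lit 228) (nat_lit 80128782654) (nat_lit 76) (nat_lit 1797878520) (nat_lit 21) (nat_lit 5) (nat_lit 24) (nat_lit 5) (nat_lit 22) (nat_lit 4) (nat_lit 386) (nat_lit 328) (nat_lit 186)) (XT.nd (nat_lit 78) (nat_lit 0) (nat_lit 0) (XT.lf (nat_lit 0) (nat_lit 33245315026) (nat_lit 228) (nat_lit 42003616842) (nat_lit 76) (nat_lit 24986919458) (nat_lit 21) (nat_lit 5) (nat_lit 24) (nat_lit 5) (nat_lit 22) (nat_lit 4) (nat_lit 387) (nat_lit 328) (nat_lit 185)) (XT.lf (nat_lit 0) (nat_lit 52773364175) (nat_lit 228) (nat_lit 1976015304) (nat_lit 76) (nat_lit 49333805773) (nat_lit 21) (nat_lit 5) (nat_lit 24) (nat_lit 5) (nat_lit 22) (nat_lit 4) (nat_lit 388) (nat_lit 328) (nat_lit 184))))) (XT.nd (nat_lit 234) (nat_lit 76)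 (nat_lit 0) (XT.nd (nat_lit 78) (nat_lit 152) (nat_lit 0) (XT.lf (nat_lit 0) (nat_lit 41373537352) (nat_lit 76) (nat_lit 32548226128) (nat_lit 152) (nat_lit 34168925756) (nat_lit 20) (nat_lit 5) (nat_lit 21) (nat_lit 5) (nat_lit 22) (nat_lit 4) (nat_lit 389) (nat_lit 328) (nat_lit 183)) (XT.nd (nat_lit 78) (nat_lit 152) (nat_lit 0) (XT.lf (nat_lit 0) (nat_lit 86955588613) (nat_lit 76) (nat_lit 9203489498) (nat_lit 152) (nat_lit 16137916254) (nat_lit 20) (nat_lit 5) (nat_lit 21) (nat_lit 5) (nat_lit 22) (nat_lit 4) (nat_lit 390) (nat_lit 328) (nat_lit 182)) (XT.lf (nat_lit 0) (nat_lit 3238990107) (nat_lit 152) (nat_lit 98288407082) (nat_lit 76) (nat_lit 15157346976) (nat_lit 18) (nat_lit 5) (nat_lit 20) (nat_lit 5) (nat_lit 19) (nat_lit 4) (nat_lit 391) (nat_lit 328) (nat_lit 181)))) (XT.nd (nat_lit 78) (nat_lit 76) (nat_lit 0) (XT.lf (nat_lit 0) (nat_lit 23627589585) (nat_lit 152) (nat_lit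 56495616815) (nat_lit 76) (nat_lit 41126188489) (nat_lit 18) (nat_lit 5) (nat_lit 20) (nat_lit 5) (nat_lit 19) (nat_lit 4) (nat_lit 392) (nat_lit 328) (nat_lit 180)) (XT.nd (nat_lit 78) (nat_lit 76) (nat_lit 0) (XT.lf (nat_lit 0) (nat_lit 45033815423) (nat_lit 152) (nat_lit 12616509718) (nat_lit 76) (nat_lit 68392043777) (nat_lit 18) (nat_lit 5) (nat_lit 20) (nat_lit 5) (nat_lit 19) (nat_lit 4) (nat_lit 393) (nat_lit 328) (nat_lit 179)) (XT.lf (nat_lit 0) (nat_lit 34559508370) (nat_lit 76) (nat_lit 33488697233) (nat_lit 152) (nat_lit 62999893951) (nat_lit 17) (nat_lit 5) (nat_lit 18) (nat_lit 5) (nat_lit 19) (nat_lit 4) (nat_lit 394) (nat_lit 328) (nat_lit 178))))))))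
noncomputable def xc174 : XT := (XT.nd (nat_lit 1716) (nat_lit 228) (nat_lit 0) (XT.nd (nat_lit 858) (nat_lit 304) (nat_lit 0) (XT.nd (nat_lit 390) (nat_lit 228) (nat_lit 0) (XT.nd (nat_lit 156) (nat_lit 152) (nat_lit 0) (XT.nd (nat_lit 78) (nat_lit 0) (nat_lit 0) (XT.lf (nat_lit 0) (nat_lit 84529230670) (nat_lit 76) (nat_lit 7896066777) (nat_lit 152) (nat_lit 43868220699) (nat_lit 17) (nat_lit 5) (nat_lit 18) (nat_lit 5) (nat_lit 19) (nat_lit 4) (nat_lit 395) (nat_lit 328) (nat_lit 177)) (XT.lf (nat_lit 0) (nat_lit 118315889903) (nat_lit 152) (nat_lit 5103064809) (nat_lit 0) (nat_lit 18367521162) (nat_lit 17) (nat_lit 5) (nat_lit 19) (nat_lit 4) (nat_lit 17) (nat_lit 4) (nat_lit 396) (nat_lit 328) (nat_lit 176))) (XT.nd (nat_lit 78) (nat_lit 76) (nat_lit 0) (XT.lf (nat_lit 0) (nat_lit 45205761342) (nat_lit 76) (nat_lit 101128934815) (nat_lit 76) (nat_lit 1177701605) (nat_lit 16) (nat_lit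 4) (nat_lit 17) (nat_lit 5) (nat_lit 17) (nat_lit 4) (nat_lit 397) (nat_lit 328) (nat_lit 175)) (XT.nd (nat_lit 78) (nat_lit 0) (nat_lit 0) (XT.lf (nat_lit 0) (nat_lit 21604629297) (nat_lit 152) (nat_lit 55664471216) (nat_lit 76) (nat_lit 76233847394) (nat_lit 15) (nat_lit 5) (nat_lit 17) (nat_lit 5) (nat_lit 16) (nat_lit 4) (nat_lit 398) (nat_lit 328) (nat_lit 174)) (XT.lf (nat_lit 0) (nat_lit 45485027743) (nat_lit 152) (nat_lit 6712252561) (nat_lit 76) (nat_lit 107594853869) (nat_lit 15) (nat_lit 5) (nat_lit 17) (nat_lit 5) (nat_lit 16) (nat_lit 4) (nat_lit 399) (nat_lit 328) (nat_lit 173))))) (XT.nd (nat_lit 234) (nat_lit 152) (nat_lit 0) (XT.nd (nat_lit 78) (nat_lit 0) (nat_lit 0) (XT.lf (nat_lit 0) (nat_lit 46162446237) (nat_lit 76) (nat_lit 25116324547) (nat_lit 152) (nat_lit 95081043130) (nat_lit 14) (nat_lit 5) (nat_lit 15) (nat_lit 5) (nat_lit 16) (nat_lit 4) (nat_lit 400) (nat_lit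 328) (nat_lit 172)) (XT.nd (nat_lit 78) (nat_lit 0) (nat_lit 0) (XT.lf (nat_lit 0) (nat_lit 98528160881) (nat_lit 152) (nat_lit 71392582529) (nat_lit 0) (nat_lit 3326836616) (nat_lit 14) (nat_lit 5) (nat_lit 16) (nat_lit 4) (nat_lit 14) (nat_lit 4) (nat_lit 401) (nat_lit 328) (nat_lit 171)) (XT.lf (nat_lit 0) (nat_lit 127550437079) (nat_lit 152) (nat_lit 20561801594) (nat_lit 0) (nat_lit 32346975302) (nat_lit 14) (nat_lit 5) (nat_lit 16) (nat_lit 4) (nat_lit 14) (nat_lit 4) (nat_lit 402) (nat_lit 328) (nat_lit 170)))) (XT.nd (nat_lit 78) (nat_lit 76) (nat_lit 0) (XT.lf (nat_lit 0) (nat_lit 33892922186) (nat_lit 76) (nat_lit 124658805134) (nat_lit 76) (nat_lit 29453307632) (nat_lit 13) (nat_lit 4) (nat_lit 14) (nat_lit 5) (nat_lit 14) (nat_lit 4) (nat_lit 403) (nat_lit 328) (nat_lit 169)) (XT.nd (nat_lit 78) (nat_lit 76) (nat_lit 0) (XT.lf (nat_lit 0) (nat_lit 91781898510) (nat_lit 76) (nat_lit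 99668167931) (nat_lit 76) (nat_lit 4460731644) (nat_lit 13) (nat_lit 4) (nat_lit 14) (nat_lit 5) (nat_lit 14) (nat_lit 4) (nat_lit 404) (nat_lit 328) (nat_lit 168)) (XT.lf (nat_lit 0) (nat_lit 21083129660) (nat_lit 152) (nat_lit 51988866945) (nat_lit 76) (nat_lit 131122909590) (nat_lit 12) (nat_lit 5) (nat_lit 14) (nat_lit 5) (nat_lit 13) (nat_lit 4) (nat_lit 405) (nat_lit 328) (nat_lit 167)))))) (XT.nd (nat_lit 390) (nat_lit 152) (nat_lit 0) (XT.nd (nat_lit 156) (nat_lit 76) (nat_lit 0) (XT.nd (nat_lit 78) (nat_lit 0) (nat_lit 0) (XT.lf (nat_lit 0) (nat_lit 2771585388) (nat_lit 76) (nat_lit 45024817867) (nat_lit 152) (nat_lit 165091053949) (nat_lit 11) (nat_lit 5) (nat_lit 12) (nat_lit 5) (nat_lit 13) (nat_lit 4) (nat_lit 406) (nat_lit 328) (nat_lit 166)) (XT.lf (nat_lit 0) (nat_lit 62072868075) (nat_lit 76) (nat_lit 14651807123) (nat_lit 152) (nat_lit 145245994099) (nat_lit 11) (nat_lit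 5) (nat_lit 12) (nat_lit 5) (nat_lit 13) (nat_lit 4) (nat_lit 407) (nat_lit 328) (nat_lit 165))) (XT.nd (nat_lit 78) (nat_lit 76) (nat_lit 0) (XT.lf (nat_lit 0) (nat_lit 107367439690) (nat_lit 152) (nat_lit 107440055237) (nat_lit 0) (nat_lit 16687143378) (nat_lit 11) (nat_lit 5) (nat_lit 13) (nat_lit 4) (nat_lit 11) (nat_lit 4) (nat_lit 408) (nat_lit 328) (nat_lit 164)) (XT.nd (nat_lit 78) (nat_lit 76) (nat_lit 0) (XT.lf (nat_lit 0) (nat_lit 139781504072) (nat_lit 152) (nat_lit 52601582842) (nat_lit 0) (nat_lit 49099761008) (nat_lit 11) (nat_lit 5) (nat_lit 13) (nat_lit 4) (nat_lit 11) (nat_lit 4) (nat_lit 409) (nat_lit 328) (nat_lit 163)) (XT.lf (nat_lit 0) (nat_lit 5141499618) (nat_lit 76) (nat_lit 168754062517) (nat_lit 76) (nat_lit 78070941595) (nat_lit 10) (nat_lit 4) (nat_lit 11) (nat_lit 5) (nat_lit 11) (nat_lit 4) (nat_lit 410) (nat_lit 328) (nat_lit 162))))) (XT.nd (nat_lit 234)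 (nat_lit 76) (nat_lit 0) (XT.nd (nat_lit 78) (nat_lit 76) (nat_lit 0) (XT.lf (nat_lit 0) (nat_lit 67596100951) (nat_lit 76) (nat_lit 143009090670) (nat_lit 76) (nat_lit 52324657501) (nat_lit 10) (nat_lit 4) (nat_lit 11) (nat_lit 5) (nat_lit 11) (nat_lit 4) (nat_lit 411) (nat_lit 328) (nat_lit 161)) (XT.nd (nat_lit 78) (nat_lit 76) (nat_lit 0) (XT.lf (nat_lit 0) (nat_lit 133171676705) (nat_lit 76) (nat_lit 115977707080) (nat_lit 76) (nat_lit 25292024152) (nat_lit 10) (nat_lit 4) (nat_lit 11) (nat_lit 5) (nat_lit 11) (nat_lit 4) (nat_lit 412) (nat_lit 328) (nat_lit 160)) (XT.lf (nat_lit 0) (nat_lit 2992380259) (nat_lit 152) (nat_lit 84552493641) (nat_lit 76) (nat_lit 198981301533) (nat_lit 9) (nat_lit 5) (nat_lit 11) (nat_lit 5) (nat_lit 10) (nat_lit 4) (nat_lit 413) (nat_lit 328) (nat_lit 159)))) (XT.nd (nat_lit 78) (nat_lit 76) (nat_lit 0) (XT.lf (nat_lit 0) (nat_lit 31840179807) (nat_lit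 152) (nat_lit 25415638135) (nat_lit 76) (nat_lit 241938674738) (nat_lit 9) (nat_lit 5) (nat_lit 11) (nat_lit 5) (nat_lit 10) (nat_lit 4) (nat_lit 414) (nat_lit 328) (nat_lit 158)) (XT.nd (nat_lit 78) (nat_lit 0) (nat_lit 0) (XT.lf (nat_lit 0) (nat_lit 37889207976) (nat_lit 76) (nat_lit 24831911197) (nat_lit 152) (nat_lit 249745569299) (nat_lit 8) (nat_lit 5) (nat_lit 9) (nat_lit 5) (nat_lit 10) (nat_lit 4) (nat_lit 415) (nat_lit 328) (nat_lit 157)) (XT.lf (nat_lit 0) (nat_lit 95726628027) (nat_lit 152) (nat_lit 221291749667) (nat_lit 0) (nat_lit 9355090398) (nat_lit 8) (nat_lit 5) (nat_lit 10) (nat_lit 4) (nat_lit 8) (nat_lit 4) (nat_lit 416) (nat_lit 328) (nat_lit 156))))))) (XT.nd (nat_lit 858) (nat_lit 0) (nat_lit 0) (XT.nd (nat_lit 390) (nat_lit 152) (nat_lit 0) (XT.nd (nat_lit 156) (nat_lit 76) (nat_lit 0) (XT.nd (nat_lit 78) (nat_lit 0) (nat_lit 0) (XT.lf (nat_lit 0) (nat_lit 130788727589)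 (nat_lit 152) (nat_lit 165750286126) (nat_lit 0) (nat_lit 44416257371) (nat_lit 8) (nat_lit 5) (nat_lit 10) (nat_lit 4) (nat_lit 8) (nat_lit 4) (nat_lit 417) (nat_lit 328) (nat_lit 155)) (XT.lf (nat_lit 0) (nat_lit 167603203325) (nat_lit 152) (nat_lit 107433152569) (nat_lit 0) (nat_lit 81229844927) (nat_lit 8) (nat_lit 5) (nat_lit 10) (nat_lit 4) (nat_lit 8) (nat_lit 4) (nat_lit 418) (nat_lit 328) (nat_lit 154))) (XT.nd (nat_lit 78) (nat_lit 76) (nat_lit 0) (XT.lf (nat_lit 0) (nat_lit 206257708748) (nat_lit 152) (nat_lit 46201498676) (nat_lit 0) (nat_lit 119883504464) (nat_lit 8) (nat_lit 5) (nat_lit 10) (nat_lit 4) (nat_lit 8) (nat_lit 4) (nat_lit 419) (nat_lit 328) (nat_lit 153)) (XT.nd (nat_lit 78) (nat_lit 0) (nat_lit 0) (XT.lf (nat_lit 0) (nat_lit 18688617680) (nat_lit 76) (nat_lit 228447442412) (nat_lit 76) (nat_lit 142072432522) (nat_lit 7) (nat_lit 4) (nat_lit 8) (nat_lit 5) (nat_lit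 8) (nat_lit 4) (nat_lit 420) (nat_lit 328) (nat_lit 152)) (XT.lf (nat_lit 0) (nat_lit 88425999383) (nat_lit 76) (nat_lit 202414125237) (nat_lit 76) (nat_lit 116038348104) (nat_lit 7) (nat_lit 4) (nat_lit 8) (nat_lit 5) (nat_lit 8) (nat_lit 4) (nat_lit 421) (nat_lit 328) (nat_lit 151))))) (XT.nd (nat_lit 234) (nat_lit 152) (nat_lit 0) (XT.nd (nat_lit 78) (nat_lit 0) (nat_lit 0) (XT.lf (nat_lit 0) (nat_lit 161649057618) (nat_lit 76) (nat_lit 175079716548) (nat_lit 76) (nat_lit 88703208707) (nat_lit 7) (nat_lit 4) (nat_lit 8) (nat_lit 5) (nat_lit 8) (nat_lit 4) (nat_lit 422) (nat_lit 328) (nat_lit 150)) (XT.nd (nat_lit 78) (nat_lit 0) (nat_lit 0) (XT.lf (nat_lit 0) (nat_lit 238532133001) (nat_lit 76) (nat_lit 146379134419) (nat_lit 76) (nat_lit 60001930665) (nat_lit 7) (nat_lit 4) (nat_lit 8) (nat_lit 5) (nat_lit 8) (nat_lit 4) (nat_lit 423) (nat_lit 328) (nat_lit 149)) (XT.lf (nat_lit 0)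 (nat_lit 319258280472) (nat_lit 76) (nat_lit 116244044131) (nat_lit 76) (nat_lit 29866177603) (nat_lit 7) (nat_lit 4) (nat_lit 8) (nat_lit 5) (nat_lit 8) (nat_lit 4) (nat_lit 424) (nat_lit 328) (nat_lit 148)))) (XT.nd (nat_lit 78) (nat_lit 76) (nat_lit 0) (XT.lf (nat_lit 0) (nat_lit 1718965508) (nat_lit 152) (nat_lit 82854618447) (nat_lit 76) (nat_lit 402271628124) (nat_lit 6) (nat_lit 5) (nat_lit 8) (nat_lit 5) (nat_lit 7) (nat_lit 4) (nat_lit 425) (nat_lit 328) (nat_lit 147)) (XT.nd (nat_lit 78) (nat_lit 76) (nat_lit 0) (XT.lf (nat_lit 0) (nat_lit 33879149328) (nat_lit 152) (nat_lit 16926842772) (nat_lit 76) (nat_lit 458565310820) (nat_lit 6) (nat_lit 5) (nat_lit 8) (nat_lit 5) (nat_lit 7) (nat_lit 4) (nat_lit 426) (nat_lit 328) (nat_lit 146)) (XT.lf (nat_lit 0) (nat_lit 54025525116) (nat_lit 76) (nat_lit 14464814659) (nat_lit 152) (nat_lit 464491208748) (nat_lit 5) (nat_lit 5) (nat_lit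 6) (nat_lit 5) (nat_lit 7) (nat_lit 4) (nat_lit 427) (nat_lit 328) (nat_lit 145)))))) (XT.nd (nat_lit 39546) (nat_lit 0) (nat_lit 7068) (XT.nd (nat_lit 39312) (nat_lit 0) (nat_lit 7752) (XT.nd (nat_lit 39156) (nat_lit 0) (nat_lit 7752) (XT.lf (nat_lit 0) (nat_lit 105492883518) (nat_lit 152) (nat_lit 429020372808) (nat_lit 0) (nat_lit 23226010480) (nat_lit 5) (nat_lit 5) (nat_lit 7) (nat_lit 4) (nat_lit 5) (nat_lit 4) (nat_lit 428) (nat_lit 328) (nat_lit 144)) (XT.nd (nat_lit 78) (nat_lit 0) (nat_lit 0) (XT.lf (nat_lit 0) (nat_lit 3640789911) (nat_lit 0) (nat_lit 3640789911) (nat_lit 684) (nat_lit 1189974895) (nat_lit 107) (nat_lit 5) (nat_lit 107) (nat_lit 3) (nat_lit 116) (nat_lit 3) (nat_lit 329) (nat_lit 329) (nat_lit 242)) (XT.lf (nat_lit 0) (nat_lit 15154730108) (nat_lit 684) (nat_lit 1726073131) (nat_lit 760) (nat_lit 474216547) (nat_lit 107) (nat_lit 5) (nat_lit 116) (nat_lit 3)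 (nat_lit 117) (nat_lit 5) (nat_lit 330) (nat_lit 329) (nat_lit 241)))) (XT.nd (nat_lit 78) (nat_lit 0) (nat_lit 0) (XT.lf (nat_lit 76) (nat_lit 6693139704) (nat_lit 0) (nat_lit 9292645391) (nat_lit 760) (nat_lit 1791264006) (nat_lit 108) (nat_lit 5) (nat_lit 107) (nat_lit 5) (nat_lit 117) (nat_lit 5) (nat_lit 331) (nat_lit 329) (nat_lit 240)) (XT.nd (nat_lit 78) (nat_lit 0) (nat_lit 76) (XT.lf (nat_lit 76) (nat_lit 15585496878) (nat_lit 0) (nat_lit 1288709036) (nat_lit 760) (nat_lit 1345201163) (nat_lit 108) (nat_lit 5) (nat_lit 107) (nat_lit 5) (nat_lit 117) (nat_lit 5) (nat_lit 332) (nat_lit 329) (nat_lit 239)) (XT.lf (nat_lit 76) (nat_lit 6321718289) (nat_lit 0) (nat_lit 11682425541) (nat_lit 760) (nat_lit 669901322) (nat_lit 109) (nat_lit 5) (nat_lit 108) (nat_lit 5) (nat_lit 118) (nat_lit 5) (nat_lit 333) (nat_lit 329) (nat_lit 238))))) (XT.nd (nat_lit 234) (nat_lit 0) (nat_lit 152)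 (XT.nd (nat_lit 78) (nat_lit 0) (nat_lit 76) (XT.lf (nat_lit 0) (nat_lit 91942799) (nat_lit 760) (nat_lit 3363491288) (nat_lit 836) (nat_lit 15693264251) (nat_lit 98) (nat_lit 5) (nat_lit 108) (nat_lit 5) (nat_lit 109) (nat_lit 5) (nat_lit 334) (nat_lit 329) (nat_lit 237)) (XT.nd (nat_lit 78) (nat_lit 0) (nat_lit 0) (XT.lf (nat_lit 0) (nat_lit 1037961493) (nat_lit 760) (nat_lit 13468991363) (nat_lit 836) (nat_lit 5131167143) (nat_lit 99) (nat_lit 5) (nat_lit 109) (nat_lit 5) (nat_lit 110) (nat_lit 5) (nat_lit 335) (nat_lit 329) (nat_lit 236)) (XT.lf (nat_lit 0) (nat_lit 2134480013) (nat_lit 760) (nat_lit 3920110798) (nat_lit 836) (nat_lit 14092275972) (nat_lit 99) (nat_lit 5) (nat_lit 109) (nat_lit 5) (nat_lit 110) (nat_lit 5) (nat_lit 336) (nat_lit 329) (nat_lit 235)))) (XT.nd (nat_lit 78) (nat_lit 0) (nat_lit 0) (XT.lf (nat_lit 0) (nat_lit 3419065973) (nat_lit 760) (nat_lit 14422643274)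 (nat_lit 836) (nat_lit 2832692907) (nat_lit 100) (nat_lit 5) (nat_lit 110) (nat_lit 5) (nat_lit 111) (nat_lit 5) (nat_lit 337) (nat_lit 329) (nat_lit 234)) (XT.nd (nat_lit 78) (nat_lit 0) (nat_lit 76) (XT.lf (nat_lit 0) (nat_lit 4924238388) (nat_lit 760) (nat_lit 4265572479) (nat_lit 836) (nat_lit 12030698253) (nat_lit 100) (nat_lit 5) (nat_lit 110) (nat_lit 5) (nat_lit 111) (nat_lit 5) (nat_lit 338) (nat_lit 329) (nat_lit 233)) (XT.lf (nat_lit 0) (nat_lit 6597944427) (nat_lit 760) (nat_lit 15186817966) (nat_lit 76) (nat_lit 4507375) (nat_lit 101) (nat_lit 5) (nat_lit 111) (nat_lit 5) (nat_lit 102) (nat_lit 5) (nat_lit 339) (nat_lit 329) (nat_lit 232))))))))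
noncomputable def xc175 : XT := (XT.nd (nat_lit 1794) (nat_lit 1824) (nat_lit 0) (XT.nd (nat_lit 858) (nat_lit 1824) (nat_lit 0) (XT.nd (nat_lit 390) (nat_lit 1064) (nat_lit 0) (XT.nd (nat_lit 156) (nat_lit 380) (nat_lit 0) (XT.nd (nat_lit 78) (nat_lit 760) (nat_lit 0) (XT.lf (nat_lit 0) (nat_lit 8569899717) (nat_lit 760) (nat_lit 4381251562) (nat_lit 76) (nat_lit 9424600477) (nat_lit 101) (nat_lit 5) (nat_lit 111) (nat_lit 5) (nat_lit 102) (nat_lit 5) (nat_lit 340) (nat_lit 329) (nat_lit 231)) (XT.lf (nat_lit 0) (nat_lit 7186485044) (nat_lit 760) (nat_lit 3557109396) (nat_lit 836) (nat_lit 12242817280) (nat_lit 91) (nat_lit 5) (nat_lit 101) (nat_lit 5) (nat_lit 102) (nat_lit 5) (nat_lit 341) (nat_lit 329) (nat_lit 230))) (XT.nd (nat_lit 78) (nat_lit 380) (nat_lit 0) (XT.lf (nat_lit 0) (nat_lit 13191112207) (nat_lit 836) (nat_lit 4247309258) (nat_lit 76) (nat_lit 6180936738) (nat_lit 91)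 (nat_lit 5) (nat_lit 102) (nat_lit 5) (nat_lit 92) (nat_lit 5) (nat_lit 342) (nat_lit 329) (nat_lit 229)) (XT.nd (nat_lit 78) (nat_lit 0) (nat_lit 0) (XT.lf (nat_lit 0) (nat_lit 8075029972) (nat_lit 380) (nat_lit 7862038322) (nat_lit 456) (nat_lit 8338090536) (nat_lit 86) (nat_lit 5) (nat_lit 91) (nat_lit 5) (nat_lit 92) (nat_lit 5) (nat_lit 343) (nat_lit 329) (nat_lit 228)) (XT.lf (nat_lit 0) (nat_lit 18919623259) (nat_lit 456) (nat_lit 3842961992) (nat_lit 76) (nat_lit 2196208649) (nat_lit 86) (nat_lit 5) (nat_lit 92) (nat_lit 5) (nat_lit 87) (nat_lit 5) (nat_lit 344) (nat_lit 329) (nat_lit 227))))) (XT.nd (nat_lit 234) (nat_lit 304) (nat_lit 0) (XT.nd (nat_lit 78) (nat_lit 456) (nat_lit 0) (XT.lf (nat_lit 0) (nat_lit 9292665877) (nat_lit 304) (nat_lit 13024944063) (nat_lit 380) (nat_lit 3345694601) (nat_lit 82) (nat_lit 5) (nat_lit 86) (nat_lit 5) (nat_lit 87) (nat_lit 5) (nat_lit 345)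 (nat_lit 329) (nat_lit 226)) (XT.nd (nat_lit 78) (nat_lit 456) (nat_lit 0) (XT.lf (nat_lit 0) (nat_lit 23210687279) (nat_lit 304) (nat_lit 2732467822) (nat_lit 380) (nat_lit 457011244) (nat_lit 82) (nat_lit 5) (nat_lit 86) (nat_lit 5) (nat_lit 87) (nat_lit 5) (nat_lit 346) (nat_lit 329) (nat_lit 225)) (XT.lf (nat_lit 0) (nat_lit 2786997578) (nat_lit 456) (nat_lit 16339784648) (nat_lit 76) (nat_lit 8030418649) (nat_lit 76) (nat_lit 5) (nat_lit 82) (nat_lit 5) (nat_lit 77) (nat_lit 5) (nat_lit 347) (nat_lit 329) (nat_lit 224)))) (XT.nd (nat_lit 78) (nat_lit 304) (nat_lit 0) (XT.lf (nat_lit 0) (nat_lit 6270565481) (nat_lit 456) (nat_lit 2375074128) (nat_lit 76) (nat_lit 19301444480) (nat_lit 76) (nat_lit 5) (nat_lit 82) (nat_lit 5) (nat_lit 77) (nat_lit 5) (nat_lit 348) (nat_lit 329) (nat_lit 223)) (XT.nd (nat_lit 78) (nat_lit 0) (nat_lit 0) (XT.lf (nat_lit 0) (nat_lit 10159808579) (nat_lit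 380) (nat_lit 16120581548) (nat_lit 76) (nat_lit 2484503560) (nat_lit 72) (nat_lit 5) (nat_lit 77) (nat_lit 5) (nat_lit 73) (nat_lit 5) (nat_lit 349) (nat_lit 329) (nat_lit 222)) (XT.lf (nat_lit 0) (nat_lit 14419667986) (nat_lit 380) (nat_lit 1274568614) (nat_lit 76) (nat_lit 13920556186) (nat_lit 72) (nat_lit 5) (nat_lit 77) (nat_lit 5) (nat_lit 73) (nat_lit 5) (nat_lit 350) (nat_lit 329) (nat_lit 221)))))) (XT.nd (nat_lit 468) (nat_lit 684) (nat_lit 0) (XT.nd (nat_lit 234) (nat_lit 608) (nat_lit 0) (XT.nd (nat_lit 78) (nat_lit 228) (nat_lit 0) (XT.lf (nat_lit 0) (nat_lit 14779426787) (nat_lit 304) (nat_lit 4337689402) (nat_lit 380) (nat_lit 11378847267) (nat_lit 68) (nat_lit 5) (nat_lit 72) (nat_lit 5) (nat_lit 73) (nat_lit 5) (nat_lit 351) (nat_lit 329) (nat_lit 220)) (XT.nd (nat_lit 78) (nat_lit 0) (nat_lit 0) (XT.lf (nat_lit 0) (nat_lit 138365412) (nat_lit 228) (nat_lit 24047628280)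 (nat_lit 304) (nat_lit 7228377226) (nat_lit 65) (nat_lit 5) (nat_lit 68) (nat_lit 5) (nat_lit 69) (nat_lit 5) (nat_lit 352) (nat_lit 329) (nat_lit 219)) (XT.lf (nat_lit 0) (nat_lit 17250797077) (nat_lit 228) (nat_lit 12587825626) (nat_lit 304) (nat_lit 2523566479) (nat_lit 65) (nat_lit 5) (nat_lit 68) (nat_lit 5) (nat_lit 69) (nat_lit 5) (nat_lit 353) (nat_lit 329) (nat_lit 218)))) (XT.nd (nat_lit 78) (nat_lit 228) (nat_lit 0) (XT.lf (nat_lit 0) (nat_lit 1876548268) (nat_lit 304) (nat_lit 486250847) (nat_lit 380) (nat_lit 30991535266) (nat_lit 60) (nat_lit 5) (nat_lit 64) (nat_lit 5) (nat_lit 65) (nat_lit 5) (nat_lit 354) (nat_lit 329) (nat_lit 217)) (XT.nd (nat_lit 78) (nat_lit 228) (nat_lit 0) (XT.lf (nat_lit 0) (nat_lit 7854074126) (nat_lit 380) (nat_lit 14388505694) (nat_lit 76) (nat_lit 12129173567) (nat_lit 60) (nat_lit 5) (nat_lit 65) (nat_lit 5) (nat_lit 61) (nat_lit 5) (nat_lit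 355) (nat_lit 329) (nat_lit 216)) (XT.lf (nat_lit 0) (nat_lit 3657301235) (nat_lit 228) (nat_lit 10022436706) (nat_lit 304) (nat_lit 21757318931) (nat_lit 57) (nat_lit 5) (nat_lit 60) (nat_lit 5) (nat_lit 61) (nat_lit 5) (nat_lit 356) (nat_lit 329) (nat_lit 215))))) (XT.nd (nat_lit 234) (nat_lit 456) (nat_lit 0) (XT.nd (nat_lit 78) (nat_lit 228) (nat_lit 0) (XT.lf (nat_lit 0) (nat_lit 20083074654) (nat_lit 304) (nat_lit 13493494390) (nat_lit 76) (nat_lit 2964741554) (nat_lit 57) (nat_lit 5) (nat_lit 61) (nat_lit 5) (nat_lit 58) (nat_lit 5) (nat_lit 357) (nat_lit 329) (nat_lit 214)) (XT.nd (nat_lit 78) (nat_lit 0) (nat_lit 0) (XT.lf (nat_lit 0) (nat_lit 5719021087) (nat_lit 228) (nat_lit 21336260557) (nat_lit 304) (nat_lit 10633064532) (nat_lit 54) (nat_lit 5) (nat_lit 57) (nat_lit 5) (nat_lit 58) (nat_lit 5) (nat_lit 358) (nat_lit 329) (nat_lit 213)) (XT.lf (nat_lit 0) (nat_lit 26353934708)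 (nat_lit 228) (nat_lit 8245922716) (nat_lit 304) (nat_lit 4281692318) (nat_lit 54) (nat_lit 5) (nat_lit 57) (nat_lit 5) (nat_lit 58) (nat_lit 5) (nat_lit 359) (nat_lit 329) (nat_lit 212)))) (XT.nd (nat_lit 78) (nat_lit 228) (nat_lit 0) (XT.lf (nat_lit 0) (nat_lit 2521228208) (nat_lit 228) (nat_lit 32113283677) (nat_lit 76) (nat_lit 5487522437) (nat_lit 51) (nat_lit 5) (nat_lit 54) (nat_lit 5) (nat_lit 52) (nat_lit 5) (nat_lit 360) (nat_lit 329) (nat_lit 211)) (XT.nd (nat_lit 78) (nat_lit 228) (nat_lit 0) (XT.lf (nat_lit 0) (nat_lit 9866697470) (nat_lit 228) (nat_lit 11622540376) (nat_lit 76) (nat_lit 19914484487) (nat_lit 51) (nat_lit 5) (nat_lit 54) (nat_lit 5) (nat_lit 52) (nat_lit 5) (nat_lit 361) (nat_lit 329) (nat_lit 210)) (XT.lf (nat_lit 0) (nat_lit 10213323923) (nat_lit 228) (nat_lit 7521267558) (nat_lit 304) (nat_lit 25007149097) (nat_lit 48) (nat_lit 5) (nat_lit 51) (nat_lit 5)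 (nat_lit 52) (nat_lit 5) (nat_lit 362) (nat_lit 329) (nat_lit 209))))))) (XT.nd (nat_lit 858) (nat_lit 836) (nat_lit 0) (XT.nd (nat_lit 390) (nat_lit 532) (nat_lit 0) (XT.nd (nat_lit 156) (nat_lit 304) (nat_lit 0) (XT.nd (nat_lit 78) (nat_lit 152) (nat_lit 0) (XT.lf (nat_lit 0) (nat_lit 26303264973) (nat_lit 304) (nat_lit 10713496583) (nat_lit 76) (nat_lit 7114532175) (nat_lit 48) (nat_lit 5) (nat_lit 52) (nat_lit 5) (nat_lit 49) (nat_lit 5) (nat_lit 363) (nat_lit 329) (nat_lit 208)) (XT.lf (nat_lit 0) (nat_lit 12461637900) (nat_lit 152) (nat_lit 23152565851) (nat_lit 228) (nat_lit 9960432294) (nat_lit 46) (nat_lit 5) (nat_lit 48) (nat_lit 5) (nat_lit 49) (nat_lit 5) (nat_lit 364) (nat_lit 329) (nat_lit 207))) (XT.nd (nat_lit 78) (nat_lit 304) (nat_lit 0) (XT.lf (nat_lit 0) (nat_lit 37161493259) (nat_lit 152) (nat_lit 8406703933) (nat_lit 228) (nat_lit 1513075831) (nat_lit 46) (nat_lit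 5) (nat_lit 48) (nat_lit 5) (nat_lit 49) (nat_lit 5) (nat_lit 365) (nat_lit 329) (nat_lit 206)) (XT.nd (nat_lit 78) (nat_lit 0) (nat_lit 0) (XT.lf (nat_lit 0) (nat_lit 7464346671) (nat_lit 304) (nat_lit 33976621852) (nat_lit 76) (nat_lit 7199375250) (nat_lit 42) (nat_lit 5) (nat_lit 46) (nat_lit 5) (nat_lit 43) (nat_lit 5) (nat_lit 366) (nat_lit 329) (nat_lit 205)) (XT.lf (nat_lit 0) (nat_lit 17144609001) (nat_lit 304) (nat_lit 9619441235) (nat_lit 76) (nat_lit 23496839234) (nat_lit 42) (nat_lit 5) (nat_lit 46) (nat_lit 5) (nat_lit 43) (nat_lit 5) (nat_lit 367) (nat_lit 329) (nat_lit 204))))) (XT.nd (nat_lit 234) (nat_lit 228) (nat_lit 0) (XT.nd (nat_lit 78) (nat_lit 152) (nat_lit 0) (XT.lf (nat_lit 0) (nat_lit 16477366905) (nat_lit 152) (nat_lit 11085206698) (nat_lit 228) (nat_lit 24387206806) (nat_lit 40) (nat_lit 5) (nat_lit 42) (nat_lit 5) (nat_lit 43) (nat_lit 5) (nat_lit 368) (nat_lit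 329) (nat_lit 203)) (XT.nd (nat_lit 78) (nat_lit 152) (nat_lit 0) (XT.lf (nat_lit 0) (nat_lit 38747459339) (nat_lit 228) (nat_lit 9594283846) (nat_lit 76) (nat_lit 5369073866) (nat_lit 40) (nat_lit 5) (nat_lit 43) (nat_lit 5) (nat_lit 41) (nat_lit 5) (nat_lit 369) (nat_lit 329) (nat_lit 202)) (XT.lf (nat_lit 0) (nat_lit 17965645747) (nat_lit 152) (nat_lit 32984813130) (nat_lit 228) (nat_lit 4586505362) (nat_lit 38) (nat_lit 5) (nat_lit 40) (nat_lit 5) (nat_lit 41) (nat_lit 5) (nat_lit 370) (nat_lit 329) (nat_lit 201)))) (XT.nd (nat_lit 78) (nat_lit 152) (nat_lit 0) (XT.lf (nat_lit 0) (nat_lit 6269075335) (nat_lit 228) (nat_lit 10316218437) (nat_lit 76) (nat_lit 40856110834) (nat_lit 37) (nat_lit 5) (nat_lit 40) (nat_lit 5) (nat_lit 38) (nat_lit 5) (nat_lit 371) (nat_lit 329) (nat_lit 200)) (XT.nd (nat_lit 78) (nat_lit 0) (nat_lit 0) (XT.lf (nat_lit 0) (nat_lit 17819941372) (nat_lit 228)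 (nat_lit 40614930047) (nat_lit 76) (nat_lit 987105886) (nat_lit 35) (nat_lit 5) (nat_lit 38) (nat_lit 5) (nat_lit 36) (nat_lit 5) (nat_lit 372) (nat_lit 329) (nat_lit 199)) (XT.lf (nat_lit 0) (nat_lit 30394685944) (nat_lit 228) (nat_lit 12028169437) (nat_lit 76) (nat_lit 19056408299) (nat_lit 35) (nat_lit 5) (nat_lit 38) (nat_lit 5) (nat_lit 36) (nat_lit 5) (nat_lit 373) (nat_lit 329) (nat_lit 198)))))) (XT.nd (nat_lit 468) (nat_lit 380) (nat_lit 0) (XT.nd (nat_lit 234) (nat_lit 152) (nat_lit 0) (XT.nd (nat_lit 78) (nat_lit 152) (nat_lit 0) (XT.lf (nat_lit 0) (nat_lit 18577571125) (nat_lit 152) (nat_lit 25307664492) (nat_lit 228) (nat_lit 19739827079) (nat_lit 33) (nat_lit 5) (nat_lit 35) (nat_lit 5) (nat_lit 36) (nat_lit 5) (nat_lit 374) (nat_lit 329) (nat_lit 197)) (XT.nd (nat_lit 78) (nat_lit 152) (nat_lit 0) (XT.lf (nat_lit 0) (nat_lit 51126313168) (nat_lit 152) (nat_lit 7124788173)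 (nat_lit 228) (nat_lit 7617012528) (nat_lit 33) (nat_lit 5) (nat_lit 35) (nat_lit 5) (nat_lit 36) (nat_lit 5) (nat_lit 375) (nat_lit 329) (nat_lit 196)) (XT.lf (nat_lit 0) (nat_lit 5412227012) (nat_lit 152) (nat_lit 50841835385) (nat_lit 76) (nat_lit 11942071181) (nat_lit 31) (nat_lit 5) (nat_lit 33) (nat_lit 5) (nat_lit 32) (nat_lit 5) (nat_lit 376) (nat_lit 329) (nat_lit 195)))) (XT.nd (nat_lit 78) (nat_lit 152) (nat_lit 0) (XT.lf (nat_lit 0) (nat_lit 19204708461) (nat_lit 152) (nat_lit 19311601233) (nat_lit 76) (nat_lit 32099614463) (nat_lit 31) (nat_lit 5) (nat_lit 33) (nat_lit 5) (nat_lit 32) (nat_lit 5) (nat_lit 377) (nat_lit 329) (nat_lit 194)) (XT.nd (nat_lit 78) (nat_lit 0) (nat_lit 0) (XT.lf (nat_lit 0) (nat_lit 14246579021) (nat_lit 152) (nat_lit 19660006258) (nat_lit 228) (nat_lit 39239131765) (nat_lit 29) (nat_lit 5) (nat_lit 31) (nat_lit 5) (nat_lit 32) (nat_lit 5) (nat_lit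 378) (nat_lit 329) (nat_lit 193)) (XT.lf (nat_lit 0) (nat_lit 49675510486) (nat_lit 228) (nat_lit 25644630881) (nat_lit 76) (nat_lit 465261761) (nat_lit 29) (nat_lit 5) (nat_lit 32) (nat_lit 5) (nat_lit 30) (nat_lit 4) (nat_lit 379) (nat_lit 329) (nat_lit 192))))) (XT.nd (nat_lit 234) (nat_lit 76) (nat_lit 0) (XT.nd (nat_lit 78) (nat_lit 228) (nat_lit 0) (XT.lf (nat_lit 0) (nat_lit 9241743838) (nat_lit 76) (nat_lit 57455217872) (nat_lit 152) (nat_lit 11836909038) (nat_lit 28) (nat_lit 5) (nat_lit 29) (nat_lit 5) (nat_lit 30) (nat_lit 4) (nat_lit 380) (nat_lit 329) (nat_lit 191)) (XT.nd (nat_lit 78) (nat_lit 152) (nat_lit 0) (XT.lf (nat_lit 0) (nat_lit 3487842980) (nat_lit 152) (nat_lit 34695950743) (nat_lit 76) (nat_lit 43211563830) (nat_lit 27) (nat_lit 5) (nat_lit 29) (nat_lit 5) (nat_lit 28) (nat_lit 5) (nat_lit 381) (nat_lit 329) (nat_lit 190)) (XT.lf (nat_lit 0) (nat_lit 1479167800)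 (nat_lit 152) (nat_lit 17722585841) (nat_lit 228) (nat_lit 65187427786) (nat_lit 25) (nat_lit 5) (nat_lit 27) (nat_lit 5) (nat_lit 28) (nat_lit 5) (nat_lit 382) (nat_lit 329) (nat_lit 189)))) (XT.nd (nat_lit 78) (nat_lit 76) (nat_lit 0) (XT.lf (nat_lit 0) (nat_lit 36354962043) (nat_lit 228) (nat_lit 46908256523) (nat_lit 76) (nat_lit 4236798820) (nat_lit 25) (nat_lit 5) (nat_lit 28) (nat_lit 5) (nat_lit 26) (nat_lit 4) (nat_lit 383) (nat_lit 329) (nat_lit 188)) (XT.nd (nat_lit 78) (nat_lit 76) (nat_lit 0) (XT.lf (nat_lit 0) (nat_lit 54654123555) (nat_lit 228) (nat_lit 9400930451) (nat_lit 76) (nat_lit 26696927460) (nat_lit 25) (nat_lit 5) (nat_lit 28) (nat_lit 5) (nat_lit 26) (nat_lit 4) (nat_lit 384) (nat_lit 329) (nat_lit 187)) (XT.lf (nat_lit 0) (nat_lit 30969173952) (nat_lit 76) (nat_lit 43380450021) (nat_lit 152) (nat_lit 19792851644) (nat_lit 24) (nat_lit 5) (nat_lit 25) (nat_lit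 5) (nat_lit 26) (nat_lit 4) (nat_lit 385) (nat_lit 329) (nat_lit 186))))))))
noncomputable def xc176 : XT := (XT.nd (nat_lit 1716) (nat_lit 456) (nat_lit 0) (XT.nd (nat_lit 858) (nat_lit 456) (nat_lit 0) (XT.nd (nat_lit 390) (nat_lit 228) (nat_lit 0) (XT.nd (nat_lit 156) (nat_lit 76) (nat_lit 0) (XT.nd (nat_lit 78) (nat_lit 228) (nat_lit 0) (XT.lf (nat_lit 0) (nat_lit 73680428918) (nat_lit 76) (nat_lit 21506588397) (nat_lit 152) (nat_lit 2507622134) (nat_lit 24) (nat_lit 5) (nat_lit 25) (nat_lit 5) (nat_lit 26) (nat_lit 4) (nat_lit 386) (nat_lit 329) (nat_lit 185)) (XT.lf (nat_lit 0) (nat_lit 15442305862) (nat_lit 228) (nat_lit 84017654653) (nat_lit 76) (nat_lit 1937187347) (nat_lit 21) (nat_lit 5) (nat_lit 24) (nat_lit 5) (nat_lit 22) (nat_lit 4) (nat_lit 387) (nat_lit 329) (nat_lit 184))) (XT.nd (nat_lit 78) (nat_lit 76) (nat_lit 0) (XT.lf (nat_lit 0) (nat_lit 34969374929) (nat_lit 228)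 (nat_lit 43991828986) (nat_lit 76) (nat_lit 26283327241) (nat_lit 21) (nat_lit 5) (nat_lit 24) (nat_lit 5) (nat_lit 22) (nat_lit 4) (nat_lit 388) (nat_lit 329) (nat_lit 183)) (XT.nd (nat_lit 78) (nat_lit 76) (nat_lit 0) (XT.lf (nat_lit 0) (nat_lit 55470883956) (nat_lit 228) (nat_lit 1968179213) (nat_lit 76) (nat_lit 51845316833) (nat_lit 21) (nat_lit 5) (nat_lit 24) (nat_lit 5) (nat_lit 22) (nat_lit 4) (nat_lit 389) (nat_lit 329) (nat_lit 182)) (XT.lf (nat_lit 0) (nat_lit 43547131126) (nat_lit 76) (nat_lit 34128407691) (nat_lit 152) (nat_lit 35816779634) (nat_lit 20) (nat_lit 5) (nat_lit 21) (nat_lit 5) (nat_lit 22) (nat_lit 4) (nat_lit 390) (nat_lit 329) (nat_lit 181))))) (XT.nd (nat_lit 234) (nat_lit 76) (nat_lit 0) (XT.nd (nat_lit 78) (nat_lit 152) (nat_lit 0) (XT.lf (nat_lit 0) (nat_lit 91403288907) (nat_lit 76) (nat_lit 9618683266) (nat_lit 152) (nat_lit 16887105009) (nat_lit 20) (nat_lit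 5) (nat_lit 21) (nat_lit 5) (nat_lit 22) (nat_lit 4) (nat_lit 391) (nat_lit 329) (nat_lit 180)) (XT.nd (nat_lit 78) (nat_lit 0) (nat_lit 0) (XT.lf (nat_lit 0) (nat_lit 3456411757) (nat_lit 152) (nat_lit 103100634669) (nat_lit 76) (nat_lit 15959143295) (nat_lit 18) (nat_lit 5) (nat_lit 20) (nat_lit 5) (nat_lit 19) (nat_lit 4) (nat_lit 392) (nat_lit 329) (nat_lit 179)) (XT.lf (nat_lit 0) (nat_lit 24861799679) (nat_lit 152) (nat_lit 59223071211) (nat_lit 76) (nat_lit 43224335028) (nat_lit 18) (nat_lit 5) (nat_lit 20) (nat_lit 5) (nat_lit 19) (nat_lit 4) (nat_lit 393) (nat_lit 329) (nat_lit 178)))) (XT.nd (nat_lit 78) (nat_lit 76) (nat_lit 0) (XT.lf (nat_lit 0) (nat_lit 47335821065) (nat_lit 152) (nat_lit 13154643352) (nat_lit 76) (nat_lit 71851490837) (nat_lit 18) (nat_lit 5) (nat_lit 20) (nat_lit 5) (nat_lit 19) (nat_lit 4) (nat_lit 394) (nat_lit 329) (nat_lit 177)) (XT.nd (nat_lit 78) (nat_lit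 0) (nat_lit 0) (XT.lf (nat_lit 0) (nat_lit 36378680610) (nat_lit 76) (nat_lit 35121278035) (nat_lit 152) (nat_lit 66098063161) (nat_lit 17) (nat_lit 5) (nat_lit 18) (nat_lit 5) (nat_lit 19) (nat_lit 4) (nat_lit 395) (nat_lit 329) (nat_lit 176)) (XT.lf (nat_lit 0) (nat_lit 88842546320) (nat_lit 76) (nat_lit 8251009107) (nat_lit 152) (nat_lit 46012274126) (nat_lit 17) (nat_lit 5) (nat_lit 18) (nat_lit 5) (nat_lit 19) (nat_lit 4) (nat_lit 396) (nat_lit 329) (nat_lit 175)))))) (XT.nd (nat_lit 390) (nat_lit 228) (nat_lit 0) (XT.nd (nat_lit 156) (nat_lit 152) (nat_lit 0) (XT.nd (nat_lit 78) (nat_lit 76) (nat_lit 0) (XT.lf (nat_lit 0) (nat_lit 124277032444) (nat_lit 152) (nat_lit 5273840646) (nat_lit 0) (nat_lit 19322645037) (nat_lit 17) (nat_lit 5) (nat_lit 19) (nat_lit 4) (nat_lit 17) (nat_lit 4) (nat_lit 397) (nat_lit 329) (nat_lit 174)) (XT.lf (nat_lit 0) (nat_lit 47549065888) (nat_lit 76)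 (nat_lit 106146849813) (nat_lit 76) (nat_lit 1189864248) (nat_lit 16) (nat_lit 4) (nat_lit 17) (nat_lit 5) (nat_lit 17) (nat_lit 4) (nat_lit 398) (nat_lit 329) (nat_lit 173))) (XT.nd (nat_lit 78) (nat_lit 76) (nat_lit 0) (XT.lf (nat_lit 0) (nat_lit 22727934122) (nat_lit 152) (nat_lit 58367195051) (nat_lit 76) (nat_lit 80080800249) (nat_lit 15) (nat_lit 5) (nat_lit 17) (nat_lit 5) (nat_lit 16) (nat_lit 4) (nat_lit 399) (nat_lit 329) (nat_lit 172)) (XT.nd (nat_lit 78) (nat_lit 76) (nat_lit 0) (XT.lf (nat_lit 0) (nat_lit 47800301377) (nat_lit 152) (nat_lit 6971198784) (nat_lit 76) (nat_lit 113008177976) (nat_lit 15) (nat_lit 5) (nat_lit 17) (nat_lit 5) (nat_lit 16) (nat_lit 4) (nat_lit 400) (nat_lit 329) (nat_lit 171)) (XT.lf (nat_lit 0) (nat_lit 48545998399) (nat_lit 76) (nat_lit 26336957402) (nat_lit 152) (nat_lit 99792825407) (nat_lit 14) (nat_lit 5) (nat_lit 15) (nat_lit 5) (nat_lit 16)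 (nat_lit 4) (nat_lit 401) (nat_lit 329) (nat_lit 170))))) (XT.nd (nat_lit 234) (nat_lit 152) (nat_lit 0) (XT.nd (nat_lit 78) (nat_lit 76) (nat_lit 0) (XT.lf (nat_lit 0) (nat_lit 103493422058) (nat_lit 152) (nat_lit 74888969807) (nat_lit 0) (nat_lit 3525613956) (nat_lit 14) (nat_lit 5) (nat_lit 16) (nat_lit 4) (nat_lit 14) (nat_lit 4) (nat_lit 402) (nat_lit 329) (nat_lit 169)) (XT.nd (nat_lit 78) (nat_lit 76) (nat_lit 0) (XT.lf (nat_lit 0) (nat_lit 133964961916) (nat_lit 152) (nat_lit 21520137532) (nat_lit 0) (nat_lit 33995215028) (nat_lit 14) (nat_lit 5) (nat_lit 16) (nat_lit 4) (nat_lit 14) (nat_lit 4) (nat_lit 403) (nat_lit 329) (nat_lit 168)) (XT.lf (nat_lit 0) (nat_lit 35656197370) (nat_lit 76) (nat_lit 130859428745) (nat_lit 76) (nat_lit 30887835394) (nat_lit 13) (nat_lit 4) (nat_lit 14) (nat_lit 5) (nat_lit 14) (nat_lit 4) (nat_lit 404) (nat_lit 329) (nat_lit 167)))) (XT.nd (nat_lit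 78) (nat_lit 152) (nat_lit 0) (XT.lf (nat_lit 0) (nat_lit 96436354459) (nat_lit 76) (nat_lit 104620798570) (nat_lit 76) (nat_lit 4647446683) (nat_lit 13) (nat_lit 4) (nat_lit 14) (nat_lit 5) (nat_lit 14) (nat_lit 4) (nat_lit 405) (nat_lit 329) (nat_lit 166)) (XT.nd (nat_lit 78) (nat_lit 76) (nat_lit 0) (XT.lf (nat_lit 0) (nat_lit 22170770931) (nat_lit 152) (nat_lit 54524946274) (nat_lit 76) (nat_lit 137707251795) (nat_lit 12) (nat_lit 5) (nat_lit 14) (nat_lit 5) (nat_lit 13) (nat_lit 4) (nat_lit 406) (nat_lit 329) (nat_lit 165)) (XT.lf (nat_lit 0) (nat_lit 2972506675) (nat_lit 76) (nat_lit 47246580350) (nat_lit 152) (nat_lit 173311091986) (nat_lit 11) (nat_lit 5) (nat_lit 12) (nat_lit 5) (nat_lit 13) (nat_lit 4) (nat_lit 407) (nat_lit 329) (nat_lit 164))))))) (XT.nd (nat_lit 858) (nat_lit 228) (nat_lit 0) (XT.nd (nat_lit 390) (nat_lit 152) (nat_lit 0) (XT.nd (nat_lit 156) (nat_lit 76) (nat_lit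 0) (XT.nd (nat_lit 78) (nat_lit 0) (nat_lit 0) (XT.lf (nat_lit 0) (nat_lit 65235884829) (nat_lit 76) (nat_lit 15356322802) (nat_lit 152) (nat_lit 152475422699) (nat_lit 11) (nat_lit 5) (nat_lit 12) (nat_lit 5) (nat_lit 13) (nat_lit 4) (nat_lit 408) (nat_lit 329) (nat_lit 163)) (XT.lf (nat_lit 0) (nat_lit 112766037386) (nat_lit 152) (nat_lit 112754431848) (nat_lit 0) (nat_lit 17547382559) (nat_lit 11) (nat_lit 5) (nat_lit 13) (nat_lit 4) (nat_lit 11) (nat_lit 4) (nat_lit 409) (nat_lit 329) (nat_lit 162))) (XT.nd (nat_lit 78) (nat_lit 76) (nat_lit 0) (XT.lf (nat_lit 0) (nat_lit 146799365668) (nat_lit 152) (nat_lit 55176779937) (nat_lit 0) (nat_lit 51579398594) (nat_lit 11) (nat_lit 5) (nat_lit 13) (nat_lit 4) (nat_lit 11) (nat_lit 4) (nat_lit 410) (nat_lit 329) (nat_lit 161)) (XT.nd (nat_lit 78) (nat_lit 0) (nat_lit 0) (XT.lf (nat_lit 0) (nat_lit 5452571452) (nat_lit 76) (nat_lit 177166027444)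 (nat_lit 76) (nat_lit 81944810611) (nat_lit 10) (nat_lit 4) (nat_lit 11) (nat_lit 5) (nat_lit 11) (nat_lit 4) (nat_lit 411) (nat_lit 329) (nat_lit 160)) (XT.lf (nat_lit 0) (nat_lit 71027331574) (nat_lit 76) (nat_lit 150135032633) (nat_lit 76) (nat_lit 54912625554) (nat_lit 10) (nat_lit 4) (nat_lit 11) (nat_lit 5) (nat_lit 11) (nat_lit 4) (nat_lit 412) (nat_lit 329) (nat_lit 159))))) (XT.nd (nat_lit 234) (nat_lit 76) (nat_lit 0) (XT.nd (nat_lit 78) (nat_lit 76) (nat_lit 0) (XT.lf (nat_lit 0) (nat_lit 139879237278) (nat_lit 76) (nat_lit 121753247128) (nat_lit 76) (nat_lit 26529706481) (nat_lit 10) (nat_lit 4) (nat_lit 11) (nat_lit 5) (nat_lit 11) (nat_lit 4) (nat_lit 413) (nat_lit 329) (nat_lit 158)) (XT.nd (nat_lit 78) (nat_lit 0) (nat_lit 0) (XT.lf (nat_lit 0) (nat_lit 3166815755) (nat_lit 152) (nat_lit 88732647937) (nat_lit 76) (nat_lit 208951774361) (nat_lit 9) (nat_lit 5) (nat_lit 11)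 (nat_lit 5) (nat_lit 10) (nat_lit 4) (nat_lit 414) (nat_lit 329) (nat_lit 157)) (XT.lf (nat_lit 0) (nat_lit 33455823543) (nat_lit 152) (nat_lit 26641210151) (nat_lit 76) (nat_lit 254055996809) (nat_lit 9) (nat_lit 5) (nat_lit 11) (nat_lit 5) (nat_lit 10) (nat_lit 4) (nat_lit 415) (nat_lit 329) (nat_lit 156)))) (XT.nd (nat_lit 78) (nat_lit 0) (nat_lit 0) (XT.lf (nat_lit 0) (nat_lit 39828149074) (nat_lit 76) (nat_lit 26052229807) (nat_lit 152) (nat_lit 262208478994) (nat_lit 8) (nat_lit 5) (nat_lit 9) (nat_lit 5) (nat_lit 10) (nat_lit 4) (nat_lit 416) (nat_lit 329) (nat_lit 155)) (XT.nd (nat_lit 78) (nat_lit 0) (nat_lit 0) (XT.lf (nat_lit 0) (nat_lit 100535374611) (nat_lit 152) (nat_lit 232313181410) (nat_lit 0) (nat_lit 9842460113) (nat_lit 8) (nat_lit 5) (nat_lit 10) (nat_lit 4) (nat_lit 8) (nat_lit 4) (nat_lit 417) (nat_lit 329) (nat_lit 154)) (XT.lf (nat_lit 0) (nat_lit 137349511762)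 (nat_lit 152) (nat_lit 173996699728) (nat_lit 0) (nat_lit 46655751378) (nat_lit 8) (nat_lit 5) (nat_lit 10) (nat_lit 4) (nat_lit 8) (nat_lit 4) (nat_lit 418) (nat_lit 329) (nat_lit 153)))))) (XT.nd (nat_lit 468) (nat_lit 152) (nat_lit 0) (XT.nd (nat_lit 234) (nat_lit 0) (nat_lit 0) (XT.nd (nat_lit 78) (nat_lit 76) (nat_lit 0) (XT.lf (nat_lit 0) (nat_lit 176003694723) (nat_lit 152) (nat_lit 112765666669) (nat_lit 0) (nat_lit 85309128733) (nat_lit 8) (nat_lit 5) (nat_lit 10) (nat_lit 4) (nat_lit 8) (nat_lit 4) (nat_lit 419) (nat_lit 329) (nat_lit 152)) (XT.nd (nat_lit 78) (nat_lit 76) (nat_lit 0) (XT.lf (nat_lit 0) (nat_lit 216589957264) (nat_lit 152) (nat_lit 48474294059) (nat_lit 0) (nat_lit 125894624031) (nat_lit 8) (nat_lit 5) (nat_lit 10) (nat_lit 4) (nat_lit 8) (nat_lit 4) (nat_lit 420) (nat_lit 329) (nat_lit 151)) (XT.lf (nat_lit 0) (nat_lit 19659726832) (nat_lit 76) (nat_lit 239852149942)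 (nat_lit 76) (nat_lit 149156086001) (nat_lit 7) (nat_lit 4) (nat_lit 8) (nat_lit 5) (nat_lit 8) (nat_lit 4) (nat_lit 421) (nat_lit 329) (nat_lit 150)))) (XT.nd (nat_lit 78) (nat_lit 0) (nat_lit 0) (XT.lf (nat_lit 0) (nat_lit 92882231036) (nat_lit 76) (nat_lit 212518008079) (nat_lit 76) (nat_lit 121821248226) (nat_lit 7) (nat_lit 4) (nat_lit 8) (nat_lit 5) (nat_lit 8) (nat_lit 4) (nat_lit 422) (nat_lit 329) (nat_lit 149)) (XT.nd (nat_lit 78) (nat_lit 0) (nat_lit 0) (XT.lf (nat_lit 0) (nat_lit 169764778769) (nat_lit 76) (nat_lit 183817680071) (nat_lit 76) (nat_lit 93120257444) (nat_lit 7) (nat_lit 4) (nat_lit 8) (nat_lit 5) (nat_lit 8) (nat_lit 4) (nat_lit 423) (nat_lit 329) (nat_lit 148)) (XT.lf (nat_lit 0) (nat_lit 250490423718) (nat_lit 76) (nat_lit 153682831802) (nat_lit 76) (nat_lit 62984777962) (nat_lit 7) (nat_lit 4) (nat_lit 8) (nat_lit 5) (nat_lit 8) (nat_lit 4) (nat_lit 424) (nat_lit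 329) (nat_lit 147))))) (XT.nd (nat_lit 234) (nat_lit 76) (nat_lit 0) (XT.nd (nat_lit 78) (nat_lit 76) (nat_lit 0) (XT.lf (nat_lit 0) (nat_lit 335251369798) (nat_lit 76) (nat_lit 122041713635) (nat_lit 76) (nat_lit 31343058639) (nat_lit 7) (nat_lit 4) (nat_lit 8) (nat_lit 5) (nat_lit 8) (nat_lit 4) (nat_lit 425) (nat_lit 329) (nat_lit 146)) (XT.nd (nat_lit 78) (nat_lit 0) (nat_lit 0) (XT.lf (nat_lit 0) (nat_lit 1820058594) (nat_lit 152) (nat_lit 86968107405) (nat_lit 76) (nat_lit 422398546617) (nat_lit 6) (nat_lit 5) (nat_lit 8) (nat_lit 5) (nat_lit 7) (nat_lit 4) (nat_lit 426) (nat_lit 329) (nat_lit 145)) (XT.lf (nat_lit 0) (nat_lit 35587530423) (nat_lit 152) (nat_lit 17745335421) (nat_lit 76) (nat_lit 481506278349) (nat_lit 6) (nat_lit 5) (nat_lit 8) (nat_lit 5) (nat_lit 7) (nat_lit 4) (nat_lit 427) (nat_lit 329) (nat_lit 144)))) (XT.nd (nat_lit 39234) (nat_lit 0) (nat_lit 7752) (XT.lf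 (nat_lit 0) (nat_lit 56754201676) (nat_lit 76) (nat_lit 15174819673) (nat_lit 152) (nat_lit 487700893808) (nat_lit 5) (nat_lit 5) (nat_lit 6) (nat_lit 5) (nat_lit 7) (nat_lit 4) (nat_lit 428) (nat_lit 329) (nat_lit 143)) (XT.nd (nat_lit 78) (nat_lit 0) (nat_lit 0) (XT.lf (nat_lit 0) (nat_lit 3931034635) (nat_lit 0) (nat_lit 3931034635) (nat_lit 684) (nat_lit 1021954423) (nat_lit 107) (nat_lit 5) (nat_lit 107) (nat_lit 3) (nat_lit 116) (nat_lit 3) (nat_lit 330) (nat_lit 330) (nat_lit 240)) (XT.lf (nat_lit 0) (nat_lit 16321459128) (nat_lit 684) (nat_lit 1581894168) (nat_lit 760) (nat_lit 298418831) (nat_lit 107) (nat_lit 5) (nat_lit 116) (nat_lit 3) (nat_lit 117) (nat_lit 5) (nat_lit 331) (nat_lit 330) (nat_lit 239))))))))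
noncomputable def xc177 : XT := (XT.nd (nat_lit 1716) (nat_lit 2432) (nat_lit 0) (XT.nd (nat_lit 858) (nat_lit 1976) (nat_lit 0) (XT.nd (nat_lit 390) (nat_lit 532) (nat_lit 0) (XT.nd (nat_lit 156) (nat_lit 684) (nat_lit 0) (XT.nd (nat_lit 78) (nat_lit 0) (nat_lit 0) (XT.lf (nat_lit 76) (nat_lit 7254561848) (nat_lit 0) (nat_lit 9923569622) (nat_lit 760) (nat_lit 1467594350) (nat_lit 108) (nat_lit 5) (nat_lit 107) (nat_lit 5) (nat_lit 117) (nat_lit 5) (nat_lit 332) (nat_lit 330) (nat_lit 238)) (XT.lf (nat_lit 76) (nat_lit 16580738540) (nat_lit 0) (nat_lit 1511517784) (nat_lit 760) (nat_lit 1018906121) (nat_lit 108) (nat_lit 5) (nat_lit 107) (nat_lit 5) (nat_lit 117) (nat_lit 5) (nat_lit 333) (nat_lit 330) (nat_lit 237))) (XT.nd (nat_lit 78) (nat_lit 760) (nat_lit 0) (XT.lf (nat_lit 76) (nat_lit 6871625522) (nat_lit 0) (nat_lit 12390535593) (nat_lit 760) (nat_lit 327221522) (nat_lit 109) (nat_lit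 5) (nat_lit 108) (nat_lit 5) (nat_lit 118) (nat_lit 5) (nat_lit 334) (nat_lit 330) (nat_lit 236)) (XT.nd (nat_lit 78) (nat_lit 0) (nat_lit 76) (XT.lf (nat_lit 0) (nat_lit 443335103) (nat_lit 760) (nat_lit 3297082093) (nat_lit 836) (nat_lit 16347946126) (nat_lit 98) (nat_lit 5) (nat_lit 108) (nat_lit 5) (nat_lit 109) (nat_lit 5) (nat_lit 335) (nat_lit 330) (nat_lit 235)) (XT.lf (nat_lit 0) (nat_lit 1422134676) (nat_lit 760) (nat_lit 13892927427) (nat_lit 836) (nat_lit 5287940449) (nat_lit 99) (nat_lit 5) (nat_lit 109) (nat_lit 5) (nat_lit 110) (nat_lit 5) (nat_lit 336) (nat_lit 330) (nat_lit 234))))) (XT.nd (nat_lit 234) (nat_lit 608) (nat_lit 0) (XT.nd (nat_lit 78) (nat_lit 0) (nat_lit 76) (XT.lf (nat_lit 0) (nat_lit 2557656499) (nat_lit 760) (nat_lit 3878484430) (nat_lit 836) (nat_lit 14701856389) (nat_lit 99) (nat_lit 5) (nat_lit 109) (nat_lit 5) (nat_lit 110) (nat_lit 5) (nat_lit 337)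 (nat_lit 330) (nat_lit 233)) (XT.nd (nat_lit 78) (nat_lit 0) (nat_lit 0) (XT.lf (nat_lit 0) (nat_lit 3893940681) (nat_lit 760) (nat_lit 14893240853) (nat_lit 836) (nat_lit 2905373056) (nat_lit 100) (nat_lit 5) (nat_lit 110) (nat_lit 5) (nat_lit 111) (nat_lit 5) (nat_lit 338) (nat_lit 330) (nat_lit 232)) (XT.lf (nat_lit 0) (nat_lit 5459899268) (nat_lit 760) (nat_lit 4240246737) (nat_lit 836) (nat_lit 12566562217) (nat_lit 100) (nat_lit 5) (nat_lit 110) (nat_lit 5) (nat_lit 111) (nat_lit 5) (nat_lit 339) (nat_lit 330) (nat_lit 231)))) (XT.nd (nat_lit 78) (nat_lit 684) (nat_lit 0) (XT.lf (nat_lit 76) (nat_lit 7167410453) (nat_lit 0) (nat_lit 39685736) (nat_lit 836) (nat_lit 15657337288) (nat_lit 101) (nat_lit 5) (nat_lit 100) (nat_lit 5) (nat_lit 111) (nat_lit 5) (nat_lit 340) (nat_lit 330) (nat_lit 230)) (XT.nd (nat_lit 78) (nat_lit 760) (nat_lit 0) (XT.lf (nat_lit 0) (nat_lit 9263761307)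 (nat_lit 760) (nat_lit 4362451811) (nat_lit 76) (nat_lit 9854736893) (nat_lit 101) (nat_lit 5) (nat_lit 111) (nat_lit 5) (nat_lit 102) (nat_lit 5) (nat_lit 341) (nat_lit 330) (nat_lit 229)) (XT.lf (nat_lit 0) (nat_lit 7779835136) (nat_lit 760) (nat_lit 3757322925) (nat_lit 836) (nat_lit 12585449333) (nat_lit 91) (nat_lit 5) (nat_lit 101) (nat_lit 5) (nat_lit 102) (nat_lit 5) (nat_lit 342) (nat_lit 330) (nat_lit 228)))))) (XT.nd (nat_lit 390) (nat_lit 1292) (nat_lit 0) (XT.nd (nat_lit 156) (nat_lit 304) (nat_lit 0) (XT.nd (nat_lit 78) (nat_lit 380) (nat_lit 0) (XT.lf (nat_lit 0) (nat_lit 14094510510) (nat_lit 836) (nat_lit 4223960603) (nat_lit 76) (nat_lit 6469371708) (nat_lit 91) (nat_lit 5) (nat_lit 102) (nat_lit 5) (nat_lit 92) (nat_lit 5) (nat_lit 343) (nat_lit 330) (nat_lit 227)) (XT.lf (nat_lit 0) (nat_lit 8710693748) (nat_lit 380) (nat_lit 8259079897) (nat_lit 456) (nat_lit 8507073236)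 (nat_lit 86) (nat_lit 5) (nat_lit 91) (nat_lit 5) (nat_lit 92) (nat_lit 5) (nat_lit 344) (nat_lit 330) (nat_lit 226))) (XT.nd (nat_lit 78) (nat_lit 304) (nat_lit 0) (XT.lf (nat_lit 0) (nat_lit 20090166733) (nat_lit 456) (nat_lit 3802687542) (nat_lit 76) (nat_lit 2302387115) (nat_lit 86) (nat_lit 5) (nat_lit 92) (nat_lit 5) (nat_lit 87) (nat_lit 5) (nat_lit 345) (nat_lit 330) (nat_lit 225)) (XT.nd (nat_lit 78) (nat_lit 0) (nat_lit 0) (XT.lf (nat_lit 0) (nat_lit 9985972971) (nat_lit 304) (nat_lit 13664956574) (nat_lit 380) (nat_lit 3284416754) (nat_lit 82) (nat_lit 5) (nat_lit 86) (nat_lit 5) (nat_lit 87) (nat_lit 5) (nat_lit 346) (nat_lit 330) (nat_lit 224)) (XT.lf (nat_lit 0) (nat_lit 24589006214) (nat_lit 304) (nat_lit 2858391506) (nat_lit 380) (nat_lit 262183162) (nat_lit 82) (nat_lit 5) (nat_lit 86) (nat_lit 5) (nat_lit 87) (nat_lit 5) (nat_lit 347) (nat_lit 330) (nat_lit 223))))) (XT.nd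 (nat_lit 234) (nat_lit 532) (nat_lit 0) (XT.nd (nat_lit 78) (nat_lit 304) (nat_lit 0) (XT.lf (nat_lit 0) (nat_lit 3130749865) (nat_lit 456) (nat_lit 16925267674) (nat_lit 76) (nat_lit 8448605991) (nat_lit 76) (nat_lit 5) (nat_lit 82) (nat_lit 5) (nat_lit 77) (nat_lit 5) (nat_lit 348) (nat_lit 330) (nat_lit 222)) (XT.nd (nat_lit 78) (nat_lit 304) (nat_lit 0) (XT.lf (nat_lit 0) (nat_lit 6778762715) (nat_lit 456) (nat_lit 2273345734) (nat_lit 76) (nat_lit 20282389475) (nat_lit 76) (nat_lit 5) (nat_lit 82) (nat_lit 5) (nat_lit 77) (nat_lit 5) (nat_lit 349) (nat_lit 330) (nat_lit 221)) (XT.lf (nat_lit 0) (nat_lit 10857024185) (nat_lit 380) (nat_lit 16700487674) (nat_lit 76) (nat_lit 2635968186) (nat_lit 72) (nat_lit 5) (nat_lit 77) (nat_lit 5) (nat_lit 73) (nat_lit 5) (nat_lit 350) (nat_lit 330) (nat_lit 220)))) (XT.nd (nat_lit 78) (nat_lit 532) (nat_lit 0) (XT.lf (nat_lit 0) (nat_lit 15320865840)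 (nat_lit 380) (nat_lit 1122941854) (nat_lit 76) (nat_lit 14642526326) (nat_lit 72) (nat_lit 5) (nat_lit 77) (nat_lit 5) (nat_lit 73) (nat_lit 5) (nat_lit 351) (nat_lit 330) (nat_lit 219)) (XT.nd (nat_lit 78) (nat_lit 228) (nat_lit 0) (XT.lf (nat_lit 0) (nat_lit 15730279848) (nat_lit 304) (nat_lit 4517633033) (nat_lit 380) (nat_lit 11763922959) (nat_lit 68) (nat_lit 5) (nat_lit 72) (nat_lit 5) (nat_lit 73) (nat_lit 5) (nat_lit 352) (nat_lit 330) (nat_lit 218)) (XT.lf (nat_lit 0) (nat_lit 361962335) (nat_lit 228) (nat_lit 25203873652) (nat_lit 304) (nat_lit 7410556113) (nat_lit 65) (nat_lit 5) (nat_lit 68) (nat_lit 5) (nat_lit 69) (nat_lit 5) (nat_lit 353) (nat_lit 330) (nat_lit 217))))))) (XT.nd (nat_lit 858) (nat_lit 1140) (nat_lit 0) (XT.nd (nat_lit 390) (nat_lit 684) (nat_lit 0) (XT.nd (nat_lit 156) (nat_lit 228) (nat_lit 0) (XT.nd (nat_lit 78) (nat_lit 380) (nat_lit 0) (XT.lf (nat_lit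 0) (nat_lit 18319697552) (nat_lit 228) (nat_lit 13173277819) (nat_lit 304) (nat_lit 2479040065) (nat_lit 65) (nat_lit 5) (nat_lit 68) (nat_lit 5) (nat_lit 69) (nat_lit 5) (nat_lit 354) (nat_lit 330) (nat_lit 216)) (XT.lf (nat_lit 0) (nat_lit 2178935318) (nat_lit 304) (nat_lit 462632449) (nat_lit 380) (nat_lit 32372304844) (nat_lit 60) (nat_lit 5) (nat_lit 64) (nat_lit 5) (nat_lit 65) (nat_lit 5) (nat_lit 355) (nat_lit 330) (nat_lit 215))) (XT.nd (nat_lit 78) (nat_lit 228) (nat_lit 0) (XT.lf (nat_lit 0) (nat_lit 8400470244) (nat_lit 380) (nat_lit 14902226417) (nat_lit 76) (nat_lit 12779819723) (nat_lit 60) (nat_lit 5) (nat_lit 65) (nat_lit 5) (nat_lit 61) (nat_lit 5) (nat_lit 356) (nat_lit 330) (nat_lit 214)) (XT.nd (nat_lit 78) (nat_lit 0) (nat_lit 0) (XT.lf (nat_lit 0) (nat_lit 4042553043) (nat_lit 228) (nat_lit 10470705345) (nat_lit 304) (nat_lit 22688041267) (nat_lit 57) (nat_lit 5)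 (nat_lit 60) (nat_lit 5) (nat_lit 61) (nat_lit 5) (nat_lit 357) (nat_lit 330) (nat_lit 213)) (XT.lf (nat_lit 0) (nat_lit 21230427183) (nat_lit 304) (nat_lit 13968958042) (nat_lit 76) (nat_lit 3161703931) (nat_lit 57) (nat_lit 5) (nat_lit 61) (nat_lit 5) (nat_lit 58) (nat_lit 5) (nat_lit 358) (nat_lit 330) (nat_lit 212))))) (XT.nd (nat_lit 234) (nat_lit 228) (nat_lit 0) (XT.nd (nat_lit 78) (nat_lit 228) (nat_lit 0) (XT.lf (nat_lit 0) (nat_lit 6200970127) (nat_lit 228) (nat_lit 22346515484) (nat_lit 304) (nat_lit 11018184898) (nat_lit 54) (nat_lit 5) (nat_lit 57) (nat_lit 5) (nat_lit 58) (nat_lit 5) (nat_lit 359) (nat_lit 330) (nat_lit 211)) (XT.nd (nat_lit 78) (nat_lit 228) (nat_lit 0) (XT.lf (nat_lit 0) (nat_lit 27858296192) (nat_lit 228) (nat_lit 8604353993) (nat_lit 304) (nat_lit 4356221829) (nat_lit 54) (nat_lit 5) (nat_lit 57) (nat_lit 5) (nat_lit 58) (nat_lit 5) (nat_lit 360) (nat_lit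 330) (nat_lit 210)) (XT.lf (nat_lit 0) (nat_lit 2779766067) (nat_lit 228) (nat_lit 33524990212) (nat_lit 76) (nat_lit 5816651428) (nat_lit 51) (nat_lit 5) (nat_lit 54) (nat_lit 5) (nat_lit 52) (nat_lit 5) (nat_lit 361) (nat_lit 330) (nat_lit 209)))) (XT.nd (nat_lit 78) (nat_lit 228) (nat_lit 0) (XT.lf (nat_lit 0) (nat_lit 10486200389) (nat_lit 228) (nat_lit 12018945825) (nat_lit 76) (nat_lit 20962354300) (nat_lit 51) (nat_lit 5) (nat_lit 54) (nat_lit 5) (nat_lit 52) (nat_lit 5) (nat_lit 362) (nat_lit 330) (nat_lit 208)) (XT.nd (nat_lit 78) (nat_lit 0) (nat_lit 0) (XT.lf (nat_lit 0) (nat_lit 10905732309) (nat_lit 228) (nat_lit 7838586295) (nat_lit 304) (nat_lit 26128264333) (nat_lit 48) (nat_lit 5) (nat_lit 51) (nat_lit 5) (nat_lit 52) (nat_lit 5) (nat_lit 363) (nat_lit 330) (nat_lit 207)) (XT.lf (nat_lit 0) (nat_lit 27736442238) (nat_lit 304) (nat_lit 11071009801) (nat_lit 76) (nat_lit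 7524415400) (nat_lit 48) (nat_lit 5) (nat_lit 52) (nat_lit 5) (nat_lit 49) (nat_lit 5) (nat_lit 364) (nat_lit 330) (nat_lit 206)))))) (XT.nd (nat_lit 468) (nat_lit 532) (nat_lit 0) (XT.nd (nat_lit 234) (nat_lit 152) (nat_lit 0) (XT.nd (nat_lit 78) (nat_lit 304) (nat_lit 0) (XT.lf (nat_lit 0) (nat_lit 13260007832) (nat_lit 152) (nat_lit 24250037145) (nat_lit 228) (nat_lit 10337480338) (nat_lit 46) (nat_lit 5) (nat_lit 48) (nat_lit 5) (nat_lit 49) (nat_lit 5) (nat_lit 365) (nat_lit 330) (nat_lit 205)) (XT.nd (nat_lit 78) (nat_lit 304) (nat_lit 0) (XT.lf (nat_lit 0) (nat_lit 39186508910) (nat_lit 152) (nat_lit 8769746751) (nat_lit 228) (nat_lit 1473516698) (nat_lit 46) (nat_lit 5) (nat_lit 48) (nat_lit 5) (nat_lit 49) (nat_lit 5) (nat_lit 366) (nat_lit 330) (nat_lit 204)) (XT.lf (nat_lit 0) (nat_lit 7947323854) (nat_lit 304) (nat_lit 35502906622) (nat_lit 76) (nat_lit 7616568220) (nat_lit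 42) (nat_lit 5) (nat_lit 46) (nat_lit 5) (nat_lit 43) (nat_lit 5) (nat_lit 367) (nat_lit 330) (nat_lit 203)))) (XT.nd (nat_lit 78) (nat_lit 152) (nat_lit 0) (XT.lf (nat_lit 0) (nat_lit 18106372641) (nat_lit 304) (nat_lit 9936083466) (nat_lit 76) (nat_lit 24726180441) (nat_lit 42) (nat_lit 5) (nat_lit 46) (nat_lit 5) (nat_lit 43) (nat_lit 5) (nat_lit 368) (nat_lit 330) (nat_lit 202)) (XT.nd (nat_lit 78) (nat_lit 0) (nat_lit 0) (XT.lf (nat_lit 0) (nat_lit 17462914600) (nat_lit 152) (nat_lit 11579867371) (nat_lit 228) (nat_lit 25499316107) (nat_lit 40) (nat_lit 5) (nat_lit 42) (nat_lit 5) (nat_lit 43) (nat_lit 5) (nat_lit 369) (nat_lit 330) (nat_lit 201)) (XT.lf (nat_lit 0) (nat_lit 40782937262) (nat_lit 228) (nat_lit 9915978816) (nat_lit 76) (nat_lit 5692472418) (nat_lit 40) (nat_lit 5) (nat_lit 43) (nat_lit 5) (nat_lit 41) (nat_lit 5) (nat_lit 370) (nat_lit 330) (nat_lit 200))))) (XT.nd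 (nat_lit 234) (nat_lit 152) (nat_lit 0) (XT.nd (nat_lit 78) (nat_lit 228) (nat_lit 0) (XT.lf (nat_lit 0) (nat_lit 19019398560) (nat_lit 152) (nat_lit 34574443883) (nat_lit 228) (nat_lit 4715115872) (nat_lit 38) (nat_lit 5) (nat_lit 40) (nat_lit 5) (nat_lit 41) (nat_lit 5) (nat_lit 371) (nat_lit 330) (nat_lit 199)) (XT.nd (nat_lit 78) (nat_lit 152) (nat_lit 0) (XT.lf (nat_lit 0) (nat_lit 6675377918) (nat_lit 228) (nat_lit 10680836767) (nat_lit 76) (nat_lit 42952562287) (nat_lit 37) (nat_lit 5) (nat_lit 40) (nat_lit 5) (nat_lit 38) (nat_lit 5) (nat_lit 372) (nat_lit 330) (nat_lit 198)) (XT.lf (nat_lit 0) (nat_lit 18802593958) (nat_lit 228) (nat_lit 42493237875) (nat_lit 76) (nat_lit 1092608778) (nat_lit 35) (nat_lit 5) (nat_lit 38) (nat_lit 5) (nat_lit 36) (nat_lit 5) (nat_lit 373) (nat_lit 330) (nat_lit 197)))) (XT.nd (nat_lit 78) (nat_lit 152) (nat_lit 0) (XT.lf (nat_lit 0) (nat_lit 32001711210)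 (nat_lit 228) (nat_lit 12484398218) (nat_lit 76) (nat_lit 20062702616) (nat_lit 35) (nat_lit 5) (nat_lit 38) (nat_lit 5) (nat_lit 36) (nat_lit 5) (nat_lit 374) (nat_lit 330) (nat_lit 196)) (XT.nd (nat_lit 78) (nat_lit 0) (nat_lit 0) (XT.lf (nat_lit 0) (nat_lit 19649287764) (nat_lit 152) (nat_lit 26515573993) (nat_lit 228) (nat_lit 20637137980) (nat_lit 33) (nat_lit 5) (nat_lit 35) (nat_lit 5) (nat_lit 36) (nat_lit 5) (nat_lit 375) (nat_lit 330) (nat_lit 195)) (XT.lf (nat_lit 0) (nat_lit 53818665096) (nat_lit 152) (nat_lit 7426290702) (nat_lit 228) (nat_lit 7912453199) (nat_lit 33) (nat_lit 5) (nat_lit 35) (nat_lit 5) (nat_lit 36) (nat_lit 5) (nat_lit 376) (nat_lit 330) (nat_lit 194))))))))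
noncomputable def xc178 : XT := (XT.nd (nat_lit 1716) (nat_lit 684) (nat_lit 0) (XT.nd (nat_lit 858) (nat_lit 532) (nat_lit 0) (XT.nd (nat_lit 390) (nat_lit 304) (nat_lit 0) (XT.nd (nat_lit 156) (nat_lit 228) (nat_lit 0) (XT.nd (nat_lit 78) (nat_lit 0) (nat_lit 0) (XT.lf (nat_lit 0) (nat_lit 5764579685) (nat_lit 152) (nat_lit 53244137469) (nat_lit 76) (nat_lit 12593094679) (nat_lit 31) (nat_lit 5) (nat_lit 33) (nat_lit 5) (nat_lit 32) (nat_lit 5) (nat_lit 377) (nat_lit 330) (nat_lit 193)) (XT.lf (nat_lit 0) (nat_lit 20242792763) (nat_lit 152) (nat_lit 20144048261) (nat_lit 76) (nat_lit 33755947509) (nat_lit 31) (nat_lit 5) (nat_lit 33) (nat_lit 5) (nat_lit 32) (nat_lit 5) (nat_lit 378) (nat_lit 330) (nat_lit 192))) (XT.nd (nat_lit 78) (nat_lit 76) (nat_lit 0) (XT.lf (nat_lit 0) (nat_lit 15089893700) (nat_lit 152) (nat_lit 20588207687) (nat_lit 228) (nat_lit 41121054654) (nat_lit 29) (nat_lit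 5) (nat_lit 31) (nat_lit 5) (nat_lit 32) (nat_lit 5) (nat_lit 379) (nat_lit 330) (nat_lit 191)) (XT.nd (nat_lit 78) (nat_lit 76) (nat_lit 0) (XT.lf (nat_lit 0) (nat_lit 52232659732) (nat_lit 228) (nat_lit 26799265265) (nat_lit 76) (nat_lit 539043875) (nat_lit 29) (nat_lit 5) (nat_lit 32) (nat_lit 5) (nat_lit 30) (nat_lit 4) (nat_lit 380) (nat_lit 330) (nat_lit 190)) (XT.lf (nat_lit 0) (nat_lit 9829370172) (nat_lit 76) (nat_lit 60274279378) (nat_lit 152) (nat_lit 12353288725) (nat_lit 28) (nat_lit 5) (nat_lit 29) (nat_lit 5) (nat_lit 30) (nat_lit 4) (nat_lit 381) (nat_lit 330) (nat_lit 189))))) (XT.nd (nat_lit 234) (nat_lit 76) (nat_lit 0) (XT.nd (nat_lit 78) (nat_lit 152) (nat_lit 0) (XT.lf (nat_lit 0) (nat_lit 3731806929) (nat_lit 152) (nat_lit 36308855973) (nat_lit 76) (nat_lit 45420953076) (nat_lit 27) (nat_lit 5) (nat_lit 29) (nat_lit 5) (nat_lit 28) (nat_lit 5) (nat_lit 382) (nat_lit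 330) (nat_lit 188)) (XT.nd (nat_lit 78) (nat_lit 0) (nat_lit 0) (XT.lf (nat_lit 0) (nat_lit 1673052491) (nat_lit 152) (nat_lit 18556920074) (nat_lit 228) (nat_lit 68375231978) (nat_lit 25) (nat_lit 5) (nat_lit 27) (nat_lit 5) (nat_lit 28) (nat_lit 5) (nat_lit 383) (nat_lit 330) (nat_lit 187)) (XT.lf (nat_lit 0) (nat_lit 38238367201) (nat_lit 228) (nat_lit 49136951644) (nat_lit 76) (nat_lit 4496388565) (nat_lit 25) (nat_lit 5) (nat_lit 28) (nat_lit 5) (nat_lit 26) (nat_lit 4) (nat_lit 384) (nat_lit 330) (nat_lit 186)))) (XT.nd (nat_lit 78) (nat_lit 76) (nat_lit 0) (XT.lf (nat_lit 0) (nat_lit 57449360262) (nat_lit 228) (nat_lit 9759817254) (nat_lit 76) (nat_lit 28077249836) (nat_lit 25) (nat_lit 5) (nat_lit 28) (nat_lit 5) (nat_lit 26) (nat_lit 4) (nat_lit 385) (nat_lit 330) (nat_lit 185)) (XT.nd (nat_lit 78) (nat_lit 0) (nat_lit 0) (XT.lf (nat_lit 0) (nat_lit 32626999470) (nat_lit 76) (nat_lit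 45501366110) (nat_lit 152) (nat_lit 20718145408) (nat_lit 24) (nat_lit 5) (nat_lit 25) (nat_lit 5) (nat_lit 26) (nat_lit 4) (nat_lit 386) (nat_lit 330) (nat_lit 184)) (XT.lf (nat_lit 0) (nat_lit 77468609240) (nat_lit 76) (nat_lit 22536102186) (nat_lit 152) (nat_lit 2571718651) (nat_lit 24) (nat_lit 5) (nat_lit 25) (nat_lit 5) (nat_lit 26) (nat_lit 4) (nat_lit 387) (nat_lit 330) (nat_lit 183)))))) (XT.nd (nat_lit 390) (nat_lit 228) (nat_lit 0) (XT.nd (nat_lit 156) (nat_lit 76) (nat_lit 0) (XT.nd (nat_lit 78) (nat_lit 0) (nat_lit 0) (XT.lf (nat_lit 0) (nat_lit 16273272728) (nat_lit 228) (nat_lit 88111900530) (nat_lit 76) (nat_lit 2078867485) (nat_lit 21) (nat_lit 5) (nat_lit 24) (nat_lit 5) (nat_lit 22) (nat_lit 4) (nat_lit 388) (nat_lit 330) (nat_lit 182)) (XT.lf (nat_lit 0) (nat_lit 36773892792) (nat_lit 228) (nat_lit 46089861525) (nat_lit 76) (nat_lit 27640180052) (nat_lit 21) (nat_lit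 5) (nat_lit 24) (nat_lit 5) (nat_lit 22) (nat_lit 4) (nat_lit 389) (nat_lit 330) (nat_lit 181))) (XT.nd (nat_lit 78) (nat_lit 76) (nat_lit 0) (XT.lf (nat_lit 0) (nat_lit 58297808265) (nat_lit 228) (nat_lit 1969865403) (nat_lit 76) (nat_lit 54478236436) (nat_lit 21) (nat_lit 5) (nat_lit 24) (nat_lit 5) (nat_lit 22) (nat_lit 4) (nat_lit 390) (nat_lit 330) (nat_lit 180)) (XT.nd (nat_lit 78) (nat_lit 0) (nat_lit 0) (XT.lf (nat_lit 0) (nat_lit 45819650409) (nat_lit 76) (nat_lit 35791989307) (nat_lit 152) (nat_lit 37552659513) (nat_lit 20) (nat_lit 5) (nat_lit 21) (nat_lit 5) (nat_lit 22) (nat_lit 4) (nat_lit 391) (nat_lit 330) (nat_lit 179)) (XT.lf (nat_lit 0) (nat_lit 96064084521) (nat_lit 76) (nat_lit 10058818601) (nat_lit 152) (nat_lit 17679118257) (nat_lit 20) (nat_lit 5) (nat_lit 21) (nat_lit 5) (nat_lit 22) (nat_lit 4) (nat_lit 392) (nat_lit 330) (nat_lit 178))))) (XT.nd (nat_lit 234)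 (nat_lit 76) (nat_lit 0) (XT.nd (nat_lit 78) (nat_lit 0) (nat_lit 0) (XT.lf (nat_lit 0) (nat_lit 3679547216) (nat_lit 152) (nat_lit 108162974551) (nat_lit 76) (nat_lit 16796945330) (nat_lit 18) (nat_lit 5) (nat_lit 20) (nat_lit 5) (nat_lit 19) (nat_lit 4) (nat_lit 393) (nat_lit 330) (nat_lit 177)) (XT.nd (nat_lit 78) (nat_lit 0) (nat_lit 0) (XT.lf (nat_lit 0) (nat_lit 26152808587) (nat_lit 152) (nat_lit 62095946818) (nat_lit 76) (nat_lit 45423499276) (nat_lit 18) (nat_lit 5) (nat_lit 20) (nat_lit 5) (nat_lit 19) (nat_lit 4) (nat_lit 394) (nat_lit 330) (nat_lit 176)) (XT.lf (nat_lit 0) (nat_lit 49748249189) (nat_lit 152) (nat_lit 13728301277) (nat_lit 76) (nat_lit 75480205851) (nat_lit 18) (nat_lit 5) (nat_lit 20) (nat_lit 5) (nat_lit 19) (nat_lit 4) (nat_lit 395) (nat_lit 330) (nat_lit 175)))) (XT.nd (nat_lit 78) (nat_lit 0) (nat_lit 0) (XT.lf (nat_lit 0) (nat_lit 38280332846) (nat_lit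 76) (nat_lit 36839379071) (nat_lit 152) (nat_lit 69355959074) (nat_lit 17) (nat_lit 5) (nat_lit 18) (nat_lit 5) (nat_lit 19) (nat_lit 4) (nat_lit 396) (nat_lit 330) (nat_lit 174)) (XT.nd (nat_lit 78) (nat_lit 0) (nat_lit 0) (XT.lf (nat_lit 0) (nat_lit 93363452880) (nat_lit 76) (nat_lit 8627404452) (nat_lit 152) (nat_lit 48268119027) (nat_lit 17) (nat_lit 5) (nat_lit 18) (nat_lit 5) (nat_lit 19) (nat_lit 4) (nat_lit 397) (nat_lit 330) (nat_lit 173)) (XT.lf (nat_lit 0) (nat_lit 130532016082) (nat_lit 152) (nat_lit 5460999885) (nat_lit 0) (nat_lit 20322108643) (nat_lit 17) (nat_lit 5) (nat_lit 19) (nat_lit 4) (nat_lit 17) (nat_lit 4) (nat_lit 398) (nat_lit 330) (nat_lit 172))))))) (XT.nd (nat_lit 858) (nat_lit 228) (nat_lit 0) (XT.nd (nat_lit 390) (nat_lit 228) (nat_lit 0) (XT.nd (nat_lit 156) (nat_lit 76) (nat_lit 0) (XT.nd (nat_lit 78) (nat_lit 76) (nat_lit 0) (XT.lf (nat_lit 0) (nat_lit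 50001817575) (nat_lit 76) (nat_lit 111419242878) (nat_lit 76) (nat_lit 1206978832) (nat_lit 16) (nat_lit 4) (nat_lit 17) (nat_lit 5) (nat_lit 17) (nat_lit 4) (nat_lit 399) (nat_lit 330) (nat_lit 171)) (XT.lf (nat_lit 0) (nat_lit 23903399635) (nat_lit 152) (nat_lit 61212539179) (nat_lit 76) (nat_lit 84116822560) (nat_lit 15) (nat_lit 5) (nat_lit 17) (nat_lit 5) (nat_lit 16) (nat_lit 4) (nat_lit 400) (nat_lit 330) (nat_lit 170))) (XT.nd (nat_lit 78) (nat_lit 76) (nat_lit 0) (XT.lf (nat_lit 0) (nat_lit 50227524834) (nat_lit 152) (nat_lit 7250220033) (nat_lit 76) (nat_lit 118689046208) (nat_lit 15) (nat_lit 5) (nat_lit 17) (nat_lit 5) (nat_lit 16) (nat_lit 4) (nat_lit 401) (nat_lit 330) (nat_lit 169)) (XT.nd (nat_lit 78) (nat_lit 0) (nat_lit 0) (XT.lf (nat_lit 0) (nat_lit 51041715417) (nat_lit 76) (nat_lit 27621892917) (nat_lit 152) (nat_lit 104744126650) (nat_lit 14) (nat_lit 5) (nat_lit 15)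 (nat_lit 5) (nat_lit 16) (nat_lit 4) (nat_lit 402) (nat_lit 330) (nat_lit 168)) (XT.lf (nat_lit 0) (nat_lit 108703334098) (nat_lit 152) (nat_lit 78566985782) (nat_lit 0) (nat_lit 3731314616) (nat_lit 14) (nat_lit 5) (nat_lit 16) (nat_lit 4) (nat_lit 14) (nat_lit 4) (nat_lit 403) (nat_lit 330) (nat_lit 167))))) (XT.nd (nat_lit 234) (nat_lit 152) (nat_lit 0) (XT.nd (nat_lit 78) (nat_lit 76) (nat_lit 0) (XT.lf (nat_lit 0) (nat_lit 140696772809) (nat_lit 152) (nat_lit 22532875346) (nat_lit 0) (nat_lit 35722994792) (nat_lit 14) (nat_lit 5) (nat_lit 16) (nat_lit 4) (nat_lit 14) (nat_lit 4) (nat_lit 404) (nat_lit 330) (nat_lit 166)) (XT.nd (nat_lit 78) (nat_lit 0) (nat_lit 0) (XT.lf (nat_lit 0) (nat_lit 37501255832) (nat_lit 76) (nat_lit 137373088032) (nat_lit 76) (nat_lit 32397635218) (nat_lit 13) (nat_lit 4) (nat_lit 14) (nat_lit 5) (nat_lit 14) (nat_lit 4) (nat_lit 405) (nat_lit 330) (nat_lit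 165)) (XT.lf (nat_lit 0) (nat_lit 101317456557) (nat_lit 76) (nat_lit 109823922165) (nat_lit 76) (nat_lit 4846874307) (nat_lit 13) (nat_lit 4) (nat_lit 14) (nat_lit 5) (nat_lit 14) (nat_lit 4) (nat_lit 406) (nat_lit 330) (nat_lit 164)))) (XT.nd (nat_lit 78) (nat_lit 76) (nat_lit 0) (XT.lf (nat_lit 0) (nat_lit 23309681166) (nat_lit 152) (nat_lit 57193720555) (nat_lit 76) (nat_lit 144618189646) (nat_lit 12) (nat_lit 5) (nat_lit 14) (nat_lit 5) (nat_lit 13) (nat_lit 4) (nat_lit 407) (nat_lit 330) (nat_lit 163)) (XT.nd (nat_lit 78) (nat_lit 0) (nat_lit 0) (XT.lf (nat_lit 0) (nat_lit 3177678057) (nat_lit 76) (nat_lit 49582171579) (nat_lit 152) (nat_lit 181945340771) (nat_lit 11) (nat_lit 5) (nat_lit 12) (nat_lit 5) (nat_lit 13) (nat_lit 4) (nat_lit 408) (nat_lit 330) (nat_lit 162)) (XT.lf (nat_lit 0) (nat_lit 68551532450) (nat_lit 76) (nat_lit 16098674382) (nat_lit 152) (nat_lit 160069378773)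 (nat_lit 11) (nat_lit 5) (nat_lit 12) (nat_lit 5) (nat_lit 13) (nat_lit 4) (nat_lit 409) (nat_lit 330) (nat_lit 161)))))) (XT.nd (nat_lit 468) (nat_lit 76) (nat_lit 0) (XT.nd (nat_lit 234) (nat_lit 76) (nat_lit 0) (XT.nd (nat_lit 78) (nat_lit 76) (nat_lit 0) (XT.lf (nat_lit 0) (nat_lit 118431754867) (nat_lit 152) (nat_lit 118339884824) (nat_lit 0) (nat_lit 18448227434) (nat_lit 11) (nat_lit 5) (nat_lit 13) (nat_lit 4) (nat_lit 11) (nat_lit 4) (nat_lit 410) (nat_lit 330) (nat_lit 160)) (XT.nd (nat_lit 78) (nat_lit 76) (nat_lit 0) (XT.lf (nat_lit 0) (nat_lit 154165444058) (nat_lit 152) (nat_lit 57885839298) (nat_lit 0) (nat_lit 54180726378) (nat_lit 11) (nat_lit 5) (nat_lit 13) (nat_lit 4) (nat_lit 11) (nat_lit 4) (nat_lit 411) (nat_lit 330) (nat_lit 159)) (XT.lf (nat_lit 0) (nat_lit 5774176763) (nat_lit 76) (nat_lit 186000983510) (nat_lit 76) (nat_lit 86015132263) (nat_lit 10) (nat_lit 4)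 (nat_lit 11) (nat_lit 5) (nat_lit 11) (nat_lit 4) (nat_lit 412) (nat_lit 330) (nat_lit 158)))) (XT.nd (nat_lit 78) (nat_lit 76) (nat_lit 0) (XT.lf (nat_lit 0) (nat_lit 74625342665) (nat_lit 76) (nat_lit 157619550640) (nat_lit 76) (nat_lit 57632619804) (nat_lit 10) (nat_lit 4) (nat_lit 11) (nat_lit 5) (nat_lit 11) (nat_lit 4) (nat_lit 413) (nat_lit 330) (nat_lit 157)) (XT.nd (nat_lit 78) (nat_lit 76) (nat_lit 0) (XT.lf (nat_lit 0) (nat_lit 146917622487) (nat_lit 76) (nat_lit 127819734604) (nat_lit 76) (nat_lit 27831775589) (nat_lit 10) (nat_lit 4) (nat_lit 11) (nat_lit 5) (nat_lit 11) (nat_lit 4) (nat_lit 414) (nat_lit 330) (nat_lit 156)) (XT.lf (nat_lit 0) (nat_lit 3347665823) (nat_lit 152) (nat_lit 93126223295) (nat_lit 76) (nat_lit 219418780540) (nat_lit 9) (nat_lit 5) (nat_lit 11) (nat_lit 5) (nat_lit 10) (nat_lit 4) (nat_lit 415) (nat_lit 330) (nat_lit 155))))) (XT.nd (nat_lit 234)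 (nat_lit 0) (nat_lit 0) (XT.nd (nat_lit 78) (nat_lit 76) (nat_lit 0) (XT.lf (nat_lit 0) (nat_lit 35150052130) (nat_lit 152) (nat_lit 27932263955) (nat_lit 76) (nat_lit 266777289470) (nat_lit 9) (nat_lit 5) (nat_lit 11) (nat_lit 5) (nat_lit 10) (nat_lit 4) (nat_lit 416) (nat_lit 330) (nat_lit 154)) (XT.nd (nat_lit 78) (nat_lit 0) (nat_lit 0) (XT.lf (nat_lit 0) (nat_lit 41859901833) (nat_lit 76) (nat_lit 27335542477) (nat_lit 152) (nat_lit 275296799751) (nat_lit 8) (nat_lit 5) (nat_lit 9) (nat_lit 5) (nat_lit 10) (nat_lit 4) (nat_lit 417) (nat_lit 330) (nat_lit 153)) (XT.lf (nat_lit 0) (nat_lit 105582474573) (nat_lit 152) (nat_lit 243889696953) (nat_lit 0) (nat_lit 10352374679) (nat_lit 8) (nat_lit 5) (nat_lit 10) (nat_lit 4) (nat_lit 8) (nat_lit 4) (nat_lit 418) (nat_lit 330) (nat_lit 152)))) (XT.nd (nat_lit 78) (nat_lit 0) (nat_lit 0) (XT.lf (nat_lit 0) (nat_lit 144236350428) (nat_lit 152)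 (nat_lit 182659255163) (nat_lit 0) (nat_lit 49005483290) (nat_lit 8) (nat_lit 5) (nat_lit 10) (nat_lit 4) (nat_lit 8) (nat_lit 4) (nat_lit 419) (nat_lit 330) (nat_lit 151)) (XT.nd (nat_lit 78) (nat_lit 0) (nat_lit 0) (XT.lf (nat_lit 0) (nat_lit 184822320486) (nat_lit 152) (nat_lit 118368445668) (nat_lit 0) (nat_lit 89590722640) (nat_lit 8) (nat_lit 5) (nat_lit 10) (nat_lit 4) (nat_lit 8) (nat_lit 4) (nat_lit 420) (nat_lit 330) (nat_lit 150)) (XT.lf (nat_lit 0) (nat_lit 227437018009) (nat_lit 152) (nat_lit 50864195111) (nat_lit 0) (nat_lit 132204724251) (nat_lit 8) (nat_lit 5) (nat_lit 10) (nat_lit 4) (nat_lit 8) (nat_lit 4) (nat_lit 421) (nat_lit 330) (nat_lit 149))))))))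
noncomputable def xc179 : XT := (XT.nd (nat_lit 41028) (nat_lit 0) (nat_lit 2736) (XT.nd (nat_lit 40170) (nat_lit 0) (nat_lit 6080) (XT.nd (nat_lit 390) (nat_lit 76) (nat_lit 0) (XT.nd (nat_lit 156) (nat_lit 0) (nat_lit 0) (XT.nd (nat_lit 78) (nat_lit 0) (nat_lit 0) (XT.lf (nat_lit 0) (nat_lit 20675981444) (nat_lit 76) (nat_lit 251828735135) (nat_lit 76) (nat_lit 156595778602) (nat_lit 7) (nat_lit 4) (nat_lit 8) (nat_lit 5) (nat_lit 8) (nat_lit 4) (nat_lit 422) (nat_lit 330) (nat_lit 148)) (XT.lf (nat_lit 0) (nat_lit 97558026654) (nat_lit 76) (nat_lit 223128649146) (nat_lit 76) (nat_lit 127895061400) (nat_lit 7) (nat_lit 4) (nat_lit 8) (nat_lit 5) (nat_lit 8) (nat_lit 4) (nat_lit 423) (nat_lit 330) (nat_lit 147))) (XT.nd (nat_lit 78) (nat_lit 0) (nat_lit 0) (XT.lf (nat_lit 0) (nat_lit 178283193010) (nat_lit 76) (nat_lit 192994031372) (nat_lit 76) (nat_lit 97759842471) (nat_lit 7) (nat_lit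 4) (nat_lit 8) (nat_lit 5) (nat_lit 8) (nat_lit 4) (nat_lit 424) (nat_lit 330) (nat_lit 146)) (XT.nd (nat_lit 78) (nat_lit 0) (nat_lit 0) (XT.lf (nat_lit 0) (nat_lit 263043683286) (nat_lit 76) (nat_lit 161353132723) (nat_lit 76) (nat_lit 66118371294) (nat_lit 7) (nat_lit 4) (nat_lit 8) (nat_lit 5) (nat_lit 8) (nat_lit 4) (nat_lit 425) (nat_lit 330) (nat_lit 145)) (XT.lf (nat_lit 0) (nat_lit 352041308176) (nat_lit 76) (nat_lit 128130617727) (nat_lit 76) (nat_lit 32895311032) (nat_lit 7) (nat_lit 4) (nat_lit 8) (nat_lit 5) (nat_lit 8) (nat_lit 4) (nat_lit 426) (nat_lit 330) (nat_lit 144))))) (XT.nd (nat_lit 39546) (nat_lit 0) (nat_lit 7676) (XT.nd (nat_lit 39390) (nat_lit 0) (nat_lit 7676) (XT.lf (nat_lit 0) (nat_lit 1924798313) (nat_lit 152) (nat_lit 91289989452) (nat_lit 76) (nat_lit 443530571080) (nat_lit 6) (nat_lit 5) (nat_lit 8) (nat_lit 5) (nat_lit 7) (nat_lit 4) (nat_lit 427) (nat_lit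 330) (nat_lit 143)) (XT.nd (nat_lit 78) (nat_lit 0) (nat_lit 0) (XT.lf (nat_lit 0) (nat_lit 4225731698) (nat_lit 0) (nat_lit 4225731698) (nat_lit 684) (nat_lit 866685507) (nat_lit 107) (nat_lit 5) (nat_lit 107) (nat_lit 3) (nat_lit 116) (nat_lit 3) (nat_lit 331) (nat_lit 331) (nat_lit 238)) (XT.lf (nat_lit 0) (nat_lit 17508500351) (nat_lit 684) (nat_lit 1451934345) (nat_lit 760) (nat_lit 132379643) (nat_lit 107) (nat_lit 5) (nat_lit 116) (nat_lit 3) (nat_lit 117) (nat_lit 5) (nat_lit 332) (nat_lit 331) (nat_lit 237)))) (XT.nd (nat_lit 78) (nat_lit 0) (nat_lit 0) (XT.lf (nat_lit 76) (nat_lit 7822972624) (nat_lit 0) (nat_lit 10570579814) (nat_lit 760) (nat_lit 1166159686) (nat_lit 108) (nat_lit 5) (nat_lit 107) (nat_lit 5) (nat_lit 117) (nat_lit 5) (nat_lit 333) (nat_lit 331) (nat_lit 236)) (XT.nd (nat_lit 78) (nat_lit 0) (nat_lit 76) (XT.lf (nat_lit 76) (nat_lit 17605663737) (nat_lit 0)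 (nat_lit 1730742922) (nat_lit 760) (nat_lit 712885349) (nat_lit 108) (nat_lit 5) (nat_lit 107) (nat_lit 5) (nat_lit 117) (nat_lit 5) (nat_lit 334) (nat_lit 331) (nat_lit 235)) (XT.lf (nat_lit 76) (nat_lit 7427289627) (nat_lit 0) (nat_lit 13122523848) (nat_lit 760) (nat_lit 2380904) (nat_lit 109) (nat_lit 5) (nat_lit 108) (nat_lit 5) (nat_lit 118) (nat_lit 5) (nat_lit 335) (nat_lit 331) (nat_lit 234)))))) (XT.nd (nat_lit 390) (nat_lit 912) (nat_lit 0) (XT.nd (nat_lit 156) (nat_lit 0) (nat_lit 76) (XT.nd (nat_lit 78) (nat_lit 0) (nat_lit 76) (XT.lf (nat_lit 0) (nat_lit 780055294) (nat_lit 760) (nat_lit 3249161813) (nat_lit 836) (nat_lit 17047446528) (nat_lit 98) (nat_lit 5) (nat_lit 108) (nat_lit 5) (nat_lit 109) (nat_lit 5) (nat_lit 336) (nat_lit 331) (nat_lit 233)) (XT.lf (nat_lit 0) (nat_lit 1794624729) (nat_lit 760) (nat_lit 14361257696) (nat_lit 836) (nat_lit 5461829489) (nat_lit 99)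 (nat_lit 5) (nat_lit 109) (nat_lit 5) (nat_lit 110) (nat_lit 5) (nat_lit 337) (nat_lit 331) (nat_lit 232))) (XT.nd (nat_lit 78) (nat_lit 0) (nat_lit 76) (XT.lf (nat_lit 0) (nat_lit 2972571056) (nat_lit 760) (nat_lit 3856869506) (nat_lit 836) (nat_lit 15350751130) (nat_lit 99) (nat_lit 5) (nat_lit 109) (nat_lit 5) (nat_lit 110) (nat_lit 5) (nat_lit 338) (nat_lit 331) (nat_lit 231)) (XT.nd (nat_lit 78) (nat_lit 0) (nat_lit 0) (XT.lf (nat_lit 0) (nat_lit 4364303392) (nat_lit 760) (nat_lit 15410660642) (nat_lit 836) (nat_lit 2988097948) (nat_lit 100) (nat_lit 5) (nat_lit 110) (nat_lit 5) (nat_lit 111) (nat_lit 5) (nat_lit 339) (nat_lit 331) (nat_lit 230)) (XT.lf (nat_lit 0) (nat_lit 5995432972) (nat_lit 760) (nat_lit 4235837880) (nat_lit 836) (nat_lit 13135324842) (nat_lit 100) (nat_lit 5) (nat_lit 110) (nat_lit 5) (nat_lit 111) (nat_lit 5) (nat_lit 340) (nat_lit 331) (nat_lit 229))))) (XT.nd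 (nat_lit 234) (nat_lit 380) (nat_lit 0) (XT.nd (nat_lit 78) (nat_lit 684) (nat_lit 0) (XT.lf (nat_lit 76) (nat_lit 7738711505) (nat_lit 0) (nat_lit 82100831) (nat_lit 836) (nat_lit 16173869030) (nat_lit 101) (nat_lit 5) (nat_lit 100) (nat_lit 5) (nat_lit 111) (nat_lit 5) (nat_lit 341) (nat_lit 331) (nat_lit 228)) (XT.nd (nat_lit 78) (nat_lit 760) (nat_lit 0) (XT.lf (nat_lit 0) (nat_lit 9967644706) (nat_lit 760) (nat_lit 4364826257) (nat_lit 76) (nat_lit 10310200623) (nat_lit 101) (nat_lit 5) (nat_lit 111) (nat_lit 5) (nat_lit 102) (nat_lit 5) (nat_lit 342) (nat_lit 331) (nat_lit 227)) (XT.lf (nat_lit 0) (nat_lit 8381095229) (nat_lit 760) (nat_lit 3965468490) (nat_lit 836) (nat_lit 12970269364) (nat_lit 91) (nat_lit 5) (nat_lit 101) (nat_lit 5) (nat_lit 102) (nat_lit 5) (nat_lit 343) (nat_lit 331) (nat_lit 226)))) (XT.nd (nat_lit 78) (nat_lit 380) (nat_lit 0) (XT.lf (nat_lit 0) (nat_lit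 15020408546) (nat_lit 836) (nat_lit 4221358979) (nat_lit 76) (nat_lit 6774144721) (nat_lit 91) (nat_lit 5) (nat_lit 102) (nat_lit 5) (nat_lit 92) (nat_lit 5) (nat_lit 344) (nat_lit 331) (nat_lit 225)) (XT.nd (nat_lit 78) (nat_lit 0) (nat_lit 0) (XT.lf (nat_lit 0) (nat_lit 9356579707) (nat_lit 380) (nat_lit 8675607278) (nat_lit 456) (nat_lit 8707554492) (nat_lit 86) (nat_lit 5) (nat_lit 91) (nat_lit 5) (nat_lit 92) (nat_lit 5) (nat_lit 345) (nat_lit 331) (nat_lit 224)) (XT.lf (nat_lit 0) (nat_lit 21298359706) (nat_lit 456) (nat_lit 3782007814) (nat_lit 76) (nat_lit 2414212170) (nat_lit 86) (nat_lit 5) (nat_lit 92) (nat_lit 5) (nat_lit 87) (nat_lit 5) (nat_lit 346) (nat_lit 331) (nat_lit 223))))))) (XT.nd (nat_lit 858) (nat_lit 1368) (nat_lit 0) (XT.nd (nat_lit 390) (nat_lit 912) (nat_lit 0) (XT.nd (nat_lit 156) (nat_lit 760) (nat_lit 0) (XT.nd (nat_lit 78) (nat_lit 0) (nat_lit 0) (XT.lf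 (nat_lit 0) (nat_lit 10692685496) (nat_lit 304) (nat_lit 14338014206) (nat_lit 380) (nat_lit 3241324598) (nat_lit 82) (nat_lit 5) (nat_lit 86) (nat_lit 5) (nat_lit 87) (nat_lit 5) (nat_lit 347) (nat_lit 331) (nat_lit 222)) (XT.lf (nat_lit 0) (nat_lit 26015993550) (nat_lit 304) (nat_lit 2991606131) (nat_lit 380) (nat_lit 77851373) (nat_lit 82) (nat_lit 5) (nat_lit 86) (nat_lit 5) (nat_lit 87) (nat_lit 5) (nat_lit 348) (nat_lit 331) (nat_lit 221))) (XT.nd (nat_lit 78) (nat_lit 304) (nat_lit 0) (XT.lf (nat_lit 0) (nat_lit 3472686367) (nat_lit 456) (nat_lit 17561548105) (nat_lit 76) (nat_lit 8886153216) (nat_lit 76) (nat_lit 5) (nat_lit 82) (nat_lit 5) (nat_lit 77) (nat_lit 5) (nat_lit 349) (nat_lit 331) (nat_lit 220)) (XT.nd (nat_lit 78) (nat_lit 304) (nat_lit 0) (XT.lf (nat_lit 0) (nat_lit 7294271336) (nat_lit 456) (nat_lit 2187029255) (nat_lit 76) (nat_lit 21310906021) (nat_lit 76) (nat_lit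 5) (nat_lit 82) (nat_lit 5) (nat_lit 77) (nat_lit 5) (nat_lit 350) (nat_lit 331) (nat_lit 219)) (XT.lf (nat_lit 0) (nat_lit 11571508208) (nat_lit 380) (nat_lit 17330411876) (nat_lit 76) (nat_lit 2792473577) (nat_lit 72) (nat_lit 5) (nat_lit 77) (nat_lit 5) (nat_lit 73) (nat_lit 5) (nat_lit 351) (nat_lit 331) (nat_lit 218))))) (XT.nd (nat_lit 234) (nat_lit 380) (nat_lit 0) (XT.nd (nat_lit 78) (nat_lit 532) (nat_lit 0) (XT.lf (nat_lit 0) (nat_lit 16250368954) (nat_lit 380) (nat_lit 983755439) (nat_lit 76) (nat_lit 15398183102) (nat_lit 72) (nat_lit 5) (nat_lit 77) (nat_lit 5) (nat_lit 73) (nat_lit 5) (nat_lit 352) (nat_lit 331) (nat_lit 217)) (XT.nd (nat_lit 78) (nat_lit 228) (nat_lit 0) (XT.lf (nat_lit 0) (nat_lit 16708976807) (nat_lit 304) (nat_lit 4710008254) (nat_lit 380) (nat_lit 12185346616) (nat_lit 68) (nat_lit 5) (nat_lit 72) (nat_lit 5) (nat_lit 73) (nat_lit 5) (nat_lit 353) (nat_lit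 331) (nat_lit 216)) (XT.lf (nat_lit 0) (nat_lit 576594376) (nat_lit 228) (nat_lit 26422220584) (nat_lit 304) (nat_lit 7618507977) (nat_lit 65) (nat_lit 5) (nat_lit 68) (nat_lit 5) (nat_lit 69) (nat_lit 5) (nat_lit 354) (nat_lit 331) (nat_lit 215)))) (XT.nd (nat_lit 78) (nat_lit 380) (nat_lit 0) (XT.lf (nat_lit 0) (nat_lit 19422857597) (nat_lit 228) (nat_lit 13792087662) (nat_lit 304) (nat_lit 2448157839) (nat_lit 65) (nat_lit 5) (nat_lit 68) (nat_lit 5) (nat_lit 69) (nat_lit 5) (nat_lit 355) (nat_lit 331) (nat_lit 214)) (XT.nd (nat_lit 78) (nat_lit 0) (nat_lit 0) (XT.lf (nat_lit 0) (nat_lit 2477051822) (nat_lit 304) (nat_lit 442289295) (nat_lit 380) (nat_lit 33837806992) (nat_lit 60) (nat_lit 5) (nat_lit 64) (nat_lit 5) (nat_lit 65) (nat_lit 5) (nat_lit 356) (nat_lit 331) (nat_lit 213)) (XT.lf (nat_lit 0) (nat_lit 8959897304) (nat_lit 380) (nat_lit 15460757636) (nat_lit 76) (nat_lit 13458890053)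 (nat_lit 60) (nat_lit 5) (nat_lit 65) (nat_lit 5) (nat_lit 61) (nat_lit 5) (nat_lit 357) (nat_lit 331) (nat_lit 212)))))) (XT.nd (nat_lit 468) (nat_lit 684) (nat_lit 0) (XT.nd (nat_lit 234) (nat_lit 228) (nat_lit 0) (XT.nd (nat_lit 78) (nat_lit 228) (nat_lit 0) (XT.lf (nat_lit 0) (nat_lit 4428251440) (nat_lit 228) (nat_lit 10946301204) (nat_lit 304) (nat_lit 23679909443) (nat_lit 57) (nat_lit 5) (nat_lit 60) (nat_lit 5) (nat_lit 61) (nat_lit 5) (nat_lit 358) (nat_lit 331) (nat_lit 211)) (XT.nd (nat_lit 78) (nat_lit 228) (nat_lit 0) (XT.lf (nat_lit 0) (nat_lit 22421834072) (nat_lit 304) (nat_lit 14486715634) (nat_lit 76) (nat_lit 3363984411) (nat_lit 57) (nat_lit 5) (nat_lit 61) (nat_lit 5) (nat_lit 58) (nat_lit 5) (nat_lit 359) (nat_lit 331) (nat_lit 210)) (XT.lf (nat_lit 0) (nat_lit 6688794584) (nat_lit 228) (nat_lit 23412541393) (nat_lit 304) (nat_lit 11436184519) (nat_lit 54) (nat_lit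 5) (nat_lit 57) (nat_lit 5) (nat_lit 58) (nat_lit 5) (nat_lit 360) (nat_lit 331) (nat_lit 209)))) (XT.nd (nat_lit 78) (nat_lit 228) (nat_lit 0) (XT.lf (nat_lit 0) (nat_lit 29420521430) (nat_lit 228) (nat_lit 8985714678) (nat_lit 304) (nat_lit 4447452326) (nat_lit 54) (nat_lit 5) (nat_lit 57) (nat_lit 5) (nat_lit 58) (nat_lit 5) (nat_lit 361) (nat_lit 331) (nat_lit 208)) (XT.nd (nat_lit 78) (nat_lit 0) (nat_lit 0) (XT.lf (nat_lit 0) (nat_lit 3038914414) (nat_lit 228) (nat_lit 35025314418) (nat_lit 76) (nat_lit 6157146465) (nat_lit 51) (nat_lit 5) (nat_lit 54) (nat_lit 5) (nat_lit 52) (nat_lit 5) (nat_lit 362) (nat_lit 331) (nat_lit 207)) (XT.lf (nat_lit 0) (nat_lit 11124948546) (nat_lit 228) (nat_lit 12452345206) (nat_lit 76) (nat_lit 22057769602) (nat_lit 51) (nat_lit 5) (nat_lit 54) (nat_lit 5) (nat_lit 52) (nat_lit 5) (nat_lit 363) (nat_lit 331) (nat_lit 206))))) (XT.nd (nat_lit 234)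 (nat_lit 304) (nat_lit 0) (XT.nd (nat_lit 78) (nat_lit 152) (nat_lit 0) (XT.lf (nat_lit 0) (nat_lit 11615864448) (nat_lit 228) (nat_lit 8177232488) (nat_lit 304) (nat_lit 27317451046) (nat_lit 48) (nat_lit 5) (nat_lit 51) (nat_lit 5) (nat_lit 52) (nat_lit 5) (nat_lit 364) (nat_lit 331) (nat_lit 205)) (XT.nd (nat_lit 78) (nat_lit 152) (nat_lit 0) (XT.lf (nat_lit 0) (nat_lit 29230306542) (nat_lit 304) (nat_lit 11462962457) (nat_lit 76) (nat_lit 7949757816) (nat_lit 48) (nat_lit 5) (nat_lit 52) (nat_lit 5) (nat_lit 49) (nat_lit 5) (nat_lit 365) (nat_lit 331) (nat_lit 204)) (XT.lf (nat_lit 0) (nat_lit 14081999641) (nat_lit 152) (nat_lit 25407974832) (nat_lit 228) (nat_lit 10744627760) (nat_lit 46) (nat_lit 5) (nat_lit 48) (nat_lit 5) (nat_lit 49) (nat_lit 5) (nat_lit 366) (nat_lit 331) (nat_lit 203)))) (XT.nd (nat_lit 78) (nat_lit 304) (nat_lit 0) (XT.lf (nat_lit 0) (nat_lit 41297254753) (nat_lit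 152) (nat_lit 9156268211) (nat_lit 228) (nat_lit 1442691014) (nat_lit 46) (nat_lit 5) (nat_lit 48) (nat_lit 5) (nat_lit 49) (nat_lit 5) (nat_lit 367) (nat_lit 331) (nat_lit 202)) (XT.nd (nat_lit 78) (nat_lit 0) (nat_lit 0) (XT.lf (nat_lit 0) (nat_lit 8444245466) (nat_lit 304) (nat_lit 37121547353) (nat_lit 76) (nat_lit 8049300674) (nat_lit 42) (nat_lit 5) (nat_lit 46) (nat_lit 5) (nat_lit 43) (nat_lit 5) (nat_lit 368) (nat_lit 331) (nat_lit 201)) (XT.lf (nat_lit 0) (nat_lit 19106505958) (nat_lit 304) (nat_lit 10283835639) (nat_lit 76) (nat_lit 26011921885) (nat_lit 42) (nat_lit 5) (nat_lit 46) (nat_lit 5) (nat_lit 43) (nat_lit 5) (nat_lit 369) (nat_lit 331) (nat_lit 200))))))))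
noncomputable def xc180 : XT := (XT.nd (nat_lit 1716) (nat_lit 836) (nat_lit 0) (XT.nd (nat_lit 858) (nat_lit 608) (nat_lit 0) (XT.nd (nat_lit 390) (nat_lit 456) (nat_lit 0) (XT.nd (nat_lit 156) (nat_lit 380) (nat_lit 0) (XT.nd (nat_lit 78) (nat_lit 0) (nat_lit 0) (XT.lf (nat_lit 0) (nat_lit 18482708267) (nat_lit 152) (nat_lit 12104802088) (nat_lit 228) (nat_lit 26677002059) (nat_lit 40) (nat_lit 5) (nat_lit 42) (nat_lit 5) (nat_lit 43) (nat_lit 5) (nat_lit 370) (nat_lit 331) (nat_lit 199)) (XT.lf (nat_lit 0) (nat_lit 42911068213) (nat_lit 228) (nat_lit 10268449664) (nat_lit 76) (nat_lit 6026932645) (nat_lit 40) (nat_lit 5) (nat_lit 43) (nat_lit 5) (nat_lit 41) (nat_lit 5) (nat_lit 371) (nat_lit 331) (nat_lit 198))) (XT.nd (nat_lit 78) (nat_lit 228) (nat_lit 0) (XT.lf (nat_lit 0) (nat_lit 20111384838) (nat_lit 152) (nat_lit 36249098139) (nat_lit 228) (nat_lit 4859520411) (nat_lit 38) (nat_lit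 5) (nat_lit 40) (nat_lit 5) (nat_lit 41) (nat_lit 5) (nat_lit 372) (nat_lit 331) (nat_lit 197)) (XT.nd (nat_lit 78) (nat_lit 152) (nat_lit 0) (XT.lf (nat_lit 0) (nat_lit 7093363428) (nat_lit 228) (nat_lit 11077742467) (nat_lit 76) (nat_lit 45148848825) (nat_lit 37) (nat_lit 5) (nat_lit 40) (nat_lit 5) (nat_lit 38) (nat_lit 5) (nat_lit 373) (nat_lit 331) (nat_lit 196)) (XT.lf (nat_lit 0) (nat_lit 19825857912) (nat_lit 228) (nat_lit 44479633396) (nat_lit 76) (nat_lit 1198166743) (nat_lit 35) (nat_lit 5) (nat_lit 38) (nat_lit 5) (nat_lit 36) (nat_lit 5) (nat_lit 374) (nat_lit 331) (nat_lit 195))))) (XT.nd (nat_lit 234) (nat_lit 304) (nat_lit 0) (XT.nd (nat_lit 78) (nat_lit 152) (nat_lit 0) (XT.lf (nat_lit 0) (nat_lit 33680972253) (nat_lit 228) (nat_lit 12976935870) (nat_lit 76) (nat_lit 21114340153) (nat_lit 35) (nat_lit 5) (nat_lit 38) (nat_lit 5) (nat_lit 36) (nat_lit 5) (nat_lit 375) (nat_lit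 331) (nat_lit 194)) (XT.nd (nat_lit 78) (nat_lit 0) (nat_lit 0) (XT.lf (nat_lit 0) (nat_lit 20761310504) (nat_lit 152) (nat_lit 27789222331) (nat_lit 228) (nat_lit 21587652063) (nat_lit 33) (nat_lit 5) (nat_lit 35) (nat_lit 5) (nat_lit 36) (nat_lit 5) (nat_lit 376) (nat_lit 331) (nat_lit 193)) (XT.lf (nat_lit 0) (nat_lit 56632987257) (nat_lit 152) (nat_lit 7747957273) (nat_lit 228) (nat_lit 8230606511) (nat_lit 33) (nat_lit 5) (nat_lit 35) (nat_lit 5) (nat_lit 36) (nat_lit 5) (nat_lit 377) (nat_lit 331) (nat_lit 192)))) (XT.nd (nat_lit 78) (nat_lit 152) (nat_lit 0) (XT.lf (nat_lit 0) (nat_lit 6126950459) (nat_lit 152) (nat_lit 55779550976) (nat_lit 76) (nat_lit 13271656387) (nat_lit 31) (nat_lit 5) (nat_lit 33) (nat_lit 5) (nat_lit 32) (nat_lit 5) (nat_lit 378) (nat_lit 331) (nat_lit 191)) (XT.nd (nat_lit 78) (nat_lit 152) (nat_lit 0) (XT.lf (nat_lit 0) (nat_lit 21325543629) (nat_lit 152)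 (nat_lit 21030495087) (nat_lit 76) (nat_lit 35490322954) (nat_lit 31) (nat_lit 5) (nat_lit 33) (nat_lit 5) (nat_lit 32) (nat_lit 5) (nat_lit 379) (nat_lit 331) (nat_lit 190)) (XT.lf (nat_lit 0) (nat_lit 15963196300) (nat_lit 152) (nat_lit 21567913869) (nat_lit 228) (nat_lit 43104514463) (nat_lit 29) (nat_lit 5) (nat_lit 31) (nat_lit 5) (nat_lit 32) (nat_lit 5) (nat_lit 380) (nat_lit 331) (nat_lit 189)))))) (XT.nd (nat_lit 390) (nat_lit 304) (nat_lit 0) (XT.nd (nat_lit 156) (nat_lit 228) (nat_lit 0) (XT.nd (nat_lit 78) (nat_lit 76) (nat_lit 0) (XT.lf (nat_lit 0) (nat_lit 54910844848) (nat_lit 228) (nat_lit 28023494143) (nat_lit 76) (nat_lit 611818314) (nat_lit 29) (nat_lit 5) (nat_lit 32) (nat_lit 5) (nat_lit 30) (nat_lit 4) (nat_lit 381) (nat_lit 331) (nat_lit 188)) (XT.lf (nat_lit 0) (nat_lit 10434706382) (nat_lit 76) (nat_lit 63239286418) (nat_lit 152) (nat_lit 12902503487) (nat_lit 28)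 (nat_lit 5) (nat_lit 29) (nat_lit 5) (nat_lit 30) (nat_lit 4) (nat_lit 382) (nat_lit 331) (nat_lit 187))) (XT.nd (nat_lit 78) (nat_lit 152) (nat_lit 0) (XT.lf (nat_lit 0) (nat_lit 3981500949) (nat_lit 152) (nat_lit 38013738857) (nat_lit 76) (nat_lit 47736273796) (nat_lit 27) (nat_lit 5) (nat_lit 29) (nat_lit 5) (nat_lit 28) (nat_lit 5) (nat_lit 383) (nat_lit 331) (nat_lit 186)) (XT.nd (nat_lit 78) (nat_lit 0) (nat_lit 0) (XT.lf (nat_lit 0) (nat_lit 1865481807) (nat_lit 152) (nat_lit 19437786433) (nat_lit 228) (nat_lit 71729080019) (nat_lit 25) (nat_lit 5) (nat_lit 27) (nat_lit 5) (nat_lit 28) (nat_lit 5) (nat_lit 384) (nat_lit 331) (nat_lit 185)) (XT.lf (nat_lit 0) (nat_lit 40209838447) (nat_lit 228) (nat_lit 51487932828) (nat_lit 76) (nat_lit 4764518472) (nat_lit 25) (nat_lit 5) (nat_lit 28) (nat_lit 5) (nat_lit 26) (nat_lit 4) (nat_lit 385) (nat_lit 331) (nat_lit 184))))) (XT.nd (nat_lit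 234) (nat_lit 228) (nat_lit 0) (XT.nd (nat_lit 78) (nat_lit 76) (nat_lit 0) (XT.lf (nat_lit 0) (nat_lit 60378545309) (nat_lit 228) (nat_lit 10146982975) (nat_lit 76) (nat_lit 29522360404) (nat_lit 25) (nat_lit 5) (nat_lit 28) (nat_lit 5) (nat_lit 26) (nat_lit 4) (nat_lit 386) (nat_lit 331) (nat_lit 183)) (XT.nd (nat_lit 78) (nat_lit 0) (nat_lit 0) (XT.lf (nat_lit 0) (nat_lit 34357548374) (nat_lit 76) (nat_lit 47732800481) (nat_lit 152) (nat_lit 21695686403) (nat_lit 24) (nat_lit 5) (nat_lit 25) (nat_lit 5) (nat_lit 26) (nat_lit 4) (nat_lit 387) (nat_lit 331) (nat_lit 182)) (XT.lf (nat_lit 0) (nat_lit 81436514873) (nat_lit 76) (nat_lit 23621351168) (nat_lit 152) (nat_lit 2644717655) (nat_lit 24) (nat_lit 5) (nat_lit 25) (nat_lit 5) (nat_lit 26) (nat_lit 4) (nat_lit 388) (nat_lit 331) (nat_lit 181)))) (XT.nd (nat_lit 78) (nat_lit 0) (nat_lit 0) (XT.lf (nat_lit 0) (nat_lit 17140316475) (nat_lit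 228) (nat_lit 92420772785) (nat_lit 76) (nat_lit 2223464621) (nat_lit 21) (nat_lit 5) (nat_lit 24) (nat_lit 5) (nat_lit 22) (nat_lit 4) (nat_lit 389) (nat_lit 331) (nat_lit 180)) (XT.nd (nat_lit 78) (nat_lit 0) (nat_lit 0) (XT.lf (nat_lit 0) (nat_lit 38663425633) (nat_lit 228) (nat_lit 48302237676) (nat_lit 76) (nat_lit 29060906922) (nat_lit 21) (nat_lit 5) (nat_lit 24) (nat_lit 5) (nat_lit 22) (nat_lit 4) (nat_lit 390) (nat_lit 331) (nat_lit 179)) (XT.lf (nat_lit 0) (nat_lit 61261116013) (nat_lit 228) (nat_lit 1980628268) (nat_lit 76) (nat_lit 57239022417) (nat_lit 21) (nat_lit 5) (nat_lit 24) (nat_lit 5) (nat_lit 22) (nat_lit 4) (nat_lit 391) (nat_lit 331) (nat_lit 178))))))) (XT.nd (nat_lit 858) (nat_lit 380) (nat_lit 0) (XT.nd (nat_lit 390) (nat_lit 228) (nat_lit 0) (XT.nd (nat_lit 156) (nat_lit 152) (nat_lit 0) (XT.nd (nat_lit 78) (nat_lit 0) (nat_lit 0) (XT.lf (nat_lit 0) (nat_lit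 48196948328) (nat_lit 76) (nat_lit 37542732746) (nat_lit 152) (nat_lit 39380442963) (nat_lit 20) (nat_lit 5) (nat_lit 21) (nat_lit 5) (nat_lit 22) (nat_lit 4) (nat_lit 392) (nat_lit 331) (nat_lit 177)) (XT.lf (nat_lit 0) (nat_lit 100949493888) (nat_lit 76) (nat_lit 10524753792) (nat_lit 152) (nat_lit 18515598431) (nat_lit 20) (nat_lit 5) (nat_lit 21) (nat_lit 5) (nat_lit 22) (nat_lit 4) (nat_lit 393) (nat_lit 331) (nat_lit 176))) (XT.nd (nat_lit 78) (nat_lit 0) (nat_lit 0) (XT.lf (nat_lit 0) (nat_lit 3909161647) (nat_lit 152) (nat_lit 113487049037) (nat_lit 76) (nat_lit 17672933069) (nat_lit 18) (nat_lit 5) (nat_lit 20) (nat_lit 5) (nat_lit 19) (nat_lit 4) (nat_lit 394) (nat_lit 331) (nat_lit 175)) (XT.nd (nat_lit 78) (nat_lit 0) (nat_lit 0) (XT.lf (nat_lit 0) (nat_lit 27503912893) (nat_lit 152) (nat_lit 65120673452) (nat_lit 76) (nat_lit 47729093737) (nat_lit 18) (nat_lit 5) (nat_lit 20)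 (nat_lit 5) (nat_lit 19) (nat_lit 4) (nat_lit 395) (nat_lit 331) (nat_lit 174)) (XT.lf (nat_lit 0) (nat_lit 52277055817) (nat_lit 152) (nat_lit 14338458525) (nat_lit 76) (nat_lit 79286996618) (nat_lit 18) (nat_lit 5) (nat_lit 20) (nat_lit 5) (nat_lit 19) (nat_lit 4) (nat_lit 396) (nat_lit 331) (nat_lit 173))))) (XT.nd (nat_lit 234) (nat_lit 152) (nat_lit 0) (XT.nd (nat_lit 78) (nat_lit 0) (nat_lit 0) (XT.lf (nat_lit 0) (nat_lit 40269377340) (nat_lit 76) (nat_lit 38646914586) (nat_lit 152) (nat_lit 72781120071) (nat_lit 17) (nat_lit 5) (nat_lit 18) (nat_lit 5) (nat_lit 19) (nat_lit 4) (nat_lit 397) (nat_lit 331) (nat_lit 172)) (XT.nd (nat_lit 78) (nat_lit 0) (nat_lit 0) (XT.lf (nat_lit 0) (nat_lit 98103080620) (nat_lit 76) (nat_lit 9025980924) (nat_lit 152) (nat_lit 50640918353) (nat_lit 17) (nat_lit 5) (nat_lit 18) (nat_lit 5) (nat_lit 19) (nat_lit 4) (nat_lit 398) (nat_lit 331) (nat_lit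 171)) (XT.lf (nat_lit 0) (nat_lit 137095924836) (nat_lit 152) (nat_lit 5664632380) (nat_lit 0) (nat_lit 21368446595) (nat_lit 17) (nat_lit 5) (nat_lit 19) (nat_lit 4) (nat_lit 17) (nat_lit 4) (nat_lit 399) (nat_lit 331) (nat_lit 170)))) (XT.nd (nat_lit 78) (nat_lit 76) (nat_lit 0) (XT.lf (nat_lit 0) (nat_lit 52570206316) (nat_lit 76) (nat_lit 116958504861) (nat_lit 76) (nat_lit 1228889108) (nat_lit 16) (nat_lit 4) (nat_lit 17) (nat_lit 5) (nat_lit 17) (nat_lit 4) (nat_lit 400) (nat_lit 331) (nat_lit 169)) (XT.nd (nat_lit 78) (nat_lit 0) (nat_lit 0) (XT.lf (nat_lit 0) (nat_lit 25134006176) (nat_lit 152) (nat_lit 64206938815) (nat_lit 76) (nat_lit 88351672576) (nat_lit 15) (nat_lit 5) (nat_lit 17) (nat_lit 5) (nat_lit 16) (nat_lit 4) (nat_lit 401) (nat_lit 331) (nat_lit 168)) (XT.lf (nat_lit 0) (nat_lit 52772650180) (nat_lit 152) (nat_lit 7549657393) (nat_lit 76) (nat_lit 124651126030) (nat_lit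 15) (nat_lit 5) (nat_lit 17) (nat_lit 5) (nat_lit 16) (nat_lit 4) (nat_lit 402) (nat_lit 331) (nat_lit 167)))))) (XT.nd (nat_lit 468) (nat_lit 152) (nat_lit 0) (XT.nd (nat_lit 234) (nat_lit 152) (nat_lit 0) (XT.nd (nat_lit 78) (nat_lit 0) (nat_lit 0) (XT.lf (nat_lit 0) (nat_lit 53655857513) (nat_lit 76) (nat_lit 28974042116) (nat_lit 152) (nat_lit 109946557448) (nat_lit 14) (nat_lit 5) (nat_lit 15) (nat_lit 5) (nat_lit 16) (nat_lit 4) (nat_lit 403) (nat_lit 331) (nat_lit 166)) (XT.nd (nat_lit 78) (nat_lit 0) (nat_lit 0) (XT.lf (nat_lit 0) (nat_lit 114170465371) (nat_lit 152) (nat_lit 82435078821) (nat_lit 0) (nat_lit 3944565121) (nat_lit 14) (nat_lit 5) (nat_lit 16) (nat_lit 4) (nat_lit 14) (nat_lit 4) (nat_lit 404) (nat_lit 331) (nat_lit 165)) (XT.lf (nat_lit 0) (nat_lit 147762053896) (nat_lit 152) (nat_lit 23602132209) (nat_lit 0) (nat_lit 37534558601) (nat_lit 14) (nat_lit 5) (nat_lit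 16) (nat_lit 4) (nat_lit 14) (nat_lit 4) (nat_lit 405) (nat_lit 331) (nat_lit 164)))) (XT.nd (nat_lit 78) (nat_lit 76) (nat_lit 0) (XT.lf (nat_lit 0) (nat_lit 39432779934) (nat_lit 76) (nat_lit 144215155449) (nat_lit 76) (nat_lit 33986141065) (nat_lit 13) (nat_lit 4) (nat_lit 14) (nat_lit 5) (nat_lit 14) (nat_lit 4) (nat_lit 406) (nat_lit 331) (nat_lit 163)) (XT.nd (nat_lit 78) (nat_lit 76) (nat_lit 0) (XT.lf (nat_lit 0) (nat_lit 106437102061) (nat_lit 76) (nat_lit 115289797336) (nat_lit 76) (nat_lit 5059336200) (nat_lit 13) (nat_lit 4) (nat_lit 14) (nat_lit 5) (nat_lit 14) (nat_lit 4) (nat_lit 407) (nat_lit 331) (nat_lit 162)) (XT.lf (nat_lit 0) (nat_lit 24502713241) (nat_lit 152) (nat_lit 60001276848) (nat_lit 76) (nat_lit 151872296645) (nat_lit 12) (nat_lit 5) (nat_lit 14) (nat_lit 5) (nat_lit 13) (nat_lit 4) (nat_lit 408) (nat_lit 331) (nat_lit 161))))) (XT.nd (nat_lit 234) (nat_lit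 76) (nat_lit 0) (XT.nd (nat_lit 78) (nat_lit 0) (nat_lit 0) (XT.lf (nat_lit 0) (nat_lit 3387850893) (nat_lit 76) (nat_lit 52037028196) (nat_lit 152) (nat_lit 191014212514) (nat_lit 11) (nat_lit 5) (nat_lit 12) (nat_lit 5) (nat_lit 13) (nat_lit 4) (nat_lit 409) (nat_lit 331) (nat_lit 160)) (XT.nd (nat_lit 78) (nat_lit 0) (nat_lit 0) (XT.lf (nat_lit 0) (nat_lit 72027955675) (nat_lit 76) (nat_lit 16880510995) (nat_lit 152) (nat_lit 168045804573) (nat_lit 11) (nat_lit 5) (nat_lit 12) (nat_lit 5) (nat_lit 13) (nat_lit 4) (nat_lit 410) (nat_lit 331) (nat_lit 159)) (XT.lf (nat_lit 0) (nat_lit 124378209379) (nat_lit 152) (nat_lit 124209469889) (nat_lit 0) (nat_lit 19391932001) (nat_lit 11) (nat_lit 5) (nat_lit 13) (nat_lit 4) (nat_lit 11) (nat_lit 4) (nat_lit 411) (nat_lit 331) (nat_lit 158)))) (XT.nd (nat_lit 78) (nat_lit 76) (nat_lit 0) (XT.lf (nat_lit 0) (nat_lit 161897398897) (nat_lit 152)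 (nat_lit 60734979667) (nat_lit 0) (nat_lit 56910041930) (nat_lit 11) (nat_lit 5) (nat_lit 13) (nat_lit 4) (nat_lit 11) (nat_lit 4) (nat_lit 412) (nat_lit 331) (nat_lit 157)) (XT.nd (nat_lit 78) (nat_lit 0) (nat_lit 0) (XT.lf (nat_lit 0) (nat_lit 6107308946) (nat_lit 76) (nat_lit 195279857806) (nat_lit 76) (nat_lit 90291472660) (nat_lit 10) (nat_lit 4) (nat_lit 11) (nat_lit 5) (nat_lit 11) (nat_lit 4) (nat_lit 413) (nat_lit 331) (nat_lit 156)) (XT.lf (nat_lit 0) (nat_lit 78398917746) (nat_lit 76) (nat_lit 165480361620) (nat_lit 76) (nat_lit 60490997255) (nat_lit 10) (nat_lit 4) (nat_lit 11) (nat_lit 5) (nat_lit 11) (nat_lit 4) (nat_lit 414) (nat_lit 331) (nat_lit 155))))))))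
noncomputable def xc181 : XT := (XT.nd (nat_lit 41106) (nat_lit 0) (nat_lit 3344) (XT.nd (nat_lit 858) (nat_lit 0) (nat_lit 0) (XT.nd (nat_lit 390) (nat_lit 76) (nat_lit 0) (XT.nd (nat_lit 156) (nat_lit 76) (nat_lit 0) (XT.nd (nat_lit 78) (nat_lit 76) (nat_lit 0) (XT.lf (nat_lit 0) (nat_lit 154303796894) (nat_lit 76) (nat_lit 134191515094) (nat_lit 76) (nat_lit 29201218140) (nat_lit 10) (nat_lit 4) (nat_lit 11) (nat_lit 5) (nat_lit 11) (nat_lit 4) (nat_lit 415) (nat_lit 331) (nat_lit 154)) (XT.lf (nat_lit 0) (nat_lit 3535465696) (nat_lit 152) (nat_lit 97743480456) (nat_lit 76) (nat_lit 230407331776) (nat_lit 9) (nat_lit 5) (nat_lit 11) (nat_lit 5) (nat_lit 10) (nat_lit 4) (nat_lit 416) (nat_lit 331) (nat_lit 153))) (XT.nd (nat_lit 78) (nat_lit 76) (nat_lit 0) (XT.lf (nat_lit 0) (nat_lit 36926999100) (nat_lit 152) (nat_lit 29291682863) (nat_lit 76) (nat_lit 280132927476) (nat_lit 9) (nat_lit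 5) (nat_lit 11) (nat_lit 5) (nat_lit 10) (nat_lit 4) (nat_lit 417) (nat_lit 331) (nat_lit 152)) (XT.nd (nat_lit 78) (nat_lit 0) (nat_lit 0) (XT.lf (nat_lit 0) (nat_lit 43989491306) (nat_lit 76) (nat_lit 28684815001) (nat_lit 152) (nat_lit 289041591491) (nat_lit 8) (nat_lit 5) (nat_lit 9) (nat_lit 5) (nat_lit 10) (nat_lit 4) (nat_lit 418) (nat_lit 331) (nat_lit 151)) (XT.lf (nat_lit 0) (nat_lit 110880039329) (nat_lit 152) (nat_lit 256048677466) (nat_lit 0) (nat_lit 10886130882) (nat_lit 8) (nat_lit 5) (nat_lit 10) (nat_lit 4) (nat_lit 8) (nat_lit 4) (nat_lit 419) (nat_lit 331) (nat_lit 150))))) (XT.nd (nat_lit 234) (nat_lit 76) (nat_lit 0) (XT.nd (nat_lit 78) (nat_lit 0) (nat_lit 0) (XT.lf (nat_lit 0) (nat_lit 151465730832) (nat_lit 152) (nat_lit 191758404270) (nat_lit 0) (nat_lit 51471126473) (nat_lit 8) (nat_lit 5) (nat_lit 10) (nat_lit 4) (nat_lit 8) (nat_lit 4) (nat_lit 420) (nat_lit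 331) (nat_lit 149)) (XT.nd (nat_lit 78) (nat_lit 0) (nat_lit 0) (XT.lf (nat_lit 0) (nat_lit 194080163065) (nat_lit 152) (nat_lit 124254664473) (nat_lit 0) (nat_lit 94084895932) (nat_lit 8) (nat_lit 5) (nat_lit 10) (nat_lit 4) (nat_lit 8) (nat_lit 4) (nat_lit 421) (nat_lit 331) (nat_lit 148)) (XT.lf (nat_lit 0) (nat_lit 238824798962) (nat_lit 152) (nat_lit 53376734887) (nat_lit 0) (nat_lit 138828900616) (nat_lit 8) (nat_lit 5) (nat_lit 10) (nat_lit 4) (nat_lit 8) (nat_lit 4) (nat_lit 422) (nat_lit 331) (nat_lit 147)))) (XT.nd (nat_lit 78) (nat_lit 0) (nat_lit 0) (XT.lf (nat_lit 0) (nat_lit 21739955817) (nat_lit 76) (nat_lit 264405639189) (nat_lit 76) (nat_lit 164409139688) (nat_lit 7) (nat_lit 4) (nat_lit 8) (nat_lit 5) (nat_lit 8) (nat_lit 4) (nat_lit 423) (nat_lit 331) (nat_lit 146)) (XT.nd (nat_lit 78) (nat_lit 0) (nat_lit 0) (XT.lf (nat_lit 0) (nat_lit 102464666370) (nat_lit 76) (nat_lit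 234271240934) (nat_lit 76) (nat_lit 134274168904) (nat_lit 7) (nat_lit 4) (nat_lit 8) (nat_lit 5) (nat_lit 8) (nat_lit 4) (nat_lit 424) (nat_lit 331) (nat_lit 145)) (XT.lf (nat_lit 0) (nat_lit 187224722548) (nat_lit 76) (nat_lit 202630551351) (nat_lit 76) (nat_lit 102632934055) (nat_lit 7) (nat_lit 4) (nat_lit 8) (nat_lit 5) (nat_lit 8) (nat_lit 4) (nat_lit 425) (nat_lit 331) (nat_lit 144)))))) (XT.nd (nat_lit 39780) (nat_lit 0) (nat_lit 6916) (XT.nd (nat_lit 39546) (nat_lit 0) (nat_lit 7600) (XT.nd (nat_lit 78) (nat_lit 0) (nat_lit 0) (XT.lf (nat_lit 0) (nat_lit 276221934011) (nat_lit 76) (nat_lit 169408235465) (nat_lit 76) (nat_lit 69410098869) (nat_lit 7) (nat_lit 4) (nat_lit 8) (nat_lit 5) (nat_lit 8) (nat_lit 4) (nat_lit 426) (nat_lit 331) (nat_lit 143)) (XT.lf (nat_lit 0) (nat_lit 369668198880) (nat_lit 76) (nat_lit 134525192523) (nat_lit 76) (nat_lit 34526561355) (nat_lit 7) (nat_lit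 4) (nat_lit 8) (nat_lit 5) (nat_lit 8) (nat_lit 4) (nat_lit 427) (nat_lit 331) (nat_lit 142))) (XT.nd (nat_lit 78) (nat_lit 0) (nat_lit 0) (XT.lf (nat_lit 0) (nat_lit 4526038992) (nat_lit 0) (nat_lit 4526038992) (nat_lit 684) (nat_lit 722839159) (nat_lit 107) (nat_lit 5) (nat_lit 107) (nat_lit 3) (nat_lit 116) (nat_lit 3) (nat_lit 332) (nat_lit 332) (nat_lit 236)) (XT.nd (nat_lit 78) (nat_lit 0) (nat_lit 0) (XT.lf (nat_lit 0) (nat_lit 18694841258) (nat_lit 0) (nat_lit 25968708) (nat_lit 684) (nat_lit 1309349177) (nat_lit 107) (nat_lit 5) (nat_lit 107) (nat_lit 3) (nat_lit 116) (nat_lit 3) (nat_lit 333) (nat_lit 332) (nat_lit 235)) (XT.lf (nat_lit 76) (nat_lit 8400681512) (nat_lit 0) (nat_lit 11235917613) (nat_lit 760) (nat_lit 884499978) (nat_lit 108) (nat_lit 5) (nat_lit 107) (nat_lit 5) (nat_lit 117) (nat_lit 5) (nat_lit 334) (nat_lit 332) (nat_lit 234))))) (XT.nd (nat_lit 234) (nat_lit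 0) (nat_lit 76) (XT.nd (nat_lit 78) (nat_lit 684) (nat_lit 0) (XT.lf (nat_lit 76) (nat_lit 18663623359) (nat_lit 0) (nat_lit 1947574171) (nat_lit 760) (nat_lit 424750862) (nat_lit 108) (nat_lit 5) (nat_lit 107) (nat_lit 5) (nat_lit 117) (nat_lit 5) (nat_lit 335) (nat_lit 332) (nat_lit 233)) (XT.nd (nat_lit 78) (nat_lit 0) (nat_lit 0) (XT.lf (nat_lit 0) (nat_lit 297154765) (nat_lit 760) (nat_lit 13578468688) (nat_lit 836) (nat_lit 7688832261) (nat_lit 98) (nat_lit 5) (nat_lit 108) (nat_lit 5) (nat_lit 109) (nat_lit 5) (nat_lit 336) (nat_lit 332) (nat_lit 232)) (XT.lf (nat_lit 0) (nat_lit 1104367298) (nat_lit 760) (nat_lit 3218627265) (nat_lit 836) (nat_lit 17792882887) (nat_lit 98) (nat_lit 5) (nat_lit 108) (nat_lit 5) (nat_lit 109) (nat_lit 5) (nat_lit 337) (nat_lit 332) (nat_lit 231)))) (XT.nd (nat_lit 78) (nat_lit 0) (nat_lit 0) (XT.lf (nat_lit 0) (nat_lit 2157719520) (nat_lit 760) (nat_lit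 14874045204) (nat_lit 836) (nat_lit 5652827555) (nat_lit 99) (nat_lit 5) (nat_lit 109) (nat_lit 5) (nat_lit 110) (nat_lit 5) (nat_lit 338) (nat_lit 332) (nat_lit 230)) (XT.nd (nat_lit 78) (nat_lit 0) (nat_lit 76) (XT.lf (nat_lit 0) (nat_lit 3381545851) (nat_lit 760) (nat_lit 3854212622) (nat_lit 836) (nat_lit 16040104488) (nat_lit 99) (nat_lit 5) (nat_lit 109) (nat_lit 5) (nat_lit 110) (nat_lit 5) (nat_lit 339) (nat_lit 332) (nat_lit 229)) (XT.lf (nat_lit 0) (nat_lit 4832555458) (nat_lit 760) (nat_lit 15975078251) (nat_lit 836) (nat_lit 3080773811) (nat_lit 100) (nat_lit 5) (nat_lit 110) (nat_lit 5) (nat_lit 111) (nat_lit 5) (nat_lit 340) (nat_lit 332) (nat_lit 228))))))) (XT.nd (nat_lit 858) (nat_lit 1900) (nat_lit 0) (XT.nd (nat_lit 390) (nat_lit 1140) (nat_lit 0) (XT.nd (nat_lit 156) (nat_lit 684) (nat_lit 0) (XT.nd (nat_lit 78) (nat_lit 0) (nat_lit 0) (XT.lf (nat_lit 0) (nat_lit 6533334998)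 (nat_lit 760) (nat_lit 4251329371) (nat_lit 836) (nat_lit 13738063432) (nat_lit 100) (nat_lit 5) (nat_lit 110) (nat_lit 5) (nat_lit 111) (nat_lit 5) (nat_lit 341) (nat_lit 332) (nat_lit 227)) (XT.lf (nat_lit 76) (nat_lit 8318781348) (nat_lit 0) (nat_lit 122877807) (nat_lit 836) (nat_lit 16740988675) (nat_lit 101) (nat_lit 5) (nat_lit 100) (nat_lit 5) (nat_lit 111) (nat_lit 5) (nat_lit 342) (nat_lit 332) (nat_lit 226))) (XT.nd (nat_lit 78) (nat_lit 760) (nat_lit 0) (XT.lf (nat_lit 0) (nat_lit 10684344704) (nat_lit 760) (nat_lit 4387377643) (nat_lit 76) (nat_lit 10791902841) (nat_lit 101) (nat_lit 5) (nat_lit 111) (nat_lit 5) (nat_lit 102) (nat_lit 5) (nat_lit 343) (nat_lit 332) (nat_lit 225)) (XT.nd (nat_lit 78) (nat_lit 0) (nat_lit 0) (XT.lf (nat_lit 0) (nat_lit 8992683628) (nat_lit 760) (nat_lit 4182135944) (nat_lit 836) (nat_lit 13397057266) (nat_lit 91) (nat_lit 5) (nat_lit 101) (nat_lit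 5) (nat_lit 102) (nat_lit 5) (nat_lit 344) (nat_lit 332) (nat_lit 224)) (XT.lf (nat_lit 0) (nat_lit 15972038959) (nat_lit 836) (nat_lit 4238504340) (nat_lit 76) (nat_lit 7095894522) (nat_lit 91) (nat_lit 5) (nat_lit 102) (nat_lit 5) (nat_lit 92) (nat_lit 5) (nat_lit 345) (nat_lit 332) (nat_lit 223))))) (XT.nd (nat_lit 234) (nat_lit 456) (nat_lit 0) (XT.nd (nat_lit 78) (nat_lit 304) (nat_lit 0) (XT.lf (nat_lit 0) (nat_lit 10015203497) (nat_lit 380) (nat_lit 9112628809) (nat_lit 456) (nat_lit 8938966316) (nat_lit 86) (nat_lit 5) (nat_lit 91) (nat_lit 5) (nat_lit 92) (nat_lit 5) (nat_lit 346) (nat_lit 332) (nat_lit 222)) (XT.nd (nat_lit 78) (nat_lit 304) (nat_lit 0) (XT.lf (nat_lit 0) (nat_lit 22548025661) (nat_lit 456) (nat_lit 3779893598) (nat_lit 76) (nat_lit 2531934751) (nat_lit 86) (nat_lit 5) (nat_lit 92) (nat_lit 5) (nat_lit 87) (nat_lit 5) (nat_lit 347) (nat_lit 332) (nat_lit 221))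 (XT.lf (nat_lit 0) (nat_lit 11415450272) (nat_lit 304) (nat_lit 15045672107) (nat_lit 380) (nat_lit 3215351830) (nat_lit 82) (nat_lit 5) (nat_lit 86) (nat_lit 5) (nat_lit 87) (nat_lit 5) (nat_lit 348) (nat_lit 332) (nat_lit 220)))) (XT.nd (nat_lit 78) (nat_lit 380) (nat_lit 0) (XT.lf (nat_lit 0) (nat_lit 94225303) (nat_lit 380) (nat_lit 3036562708) (nat_lit 76) (nat_lit 27400144079) (nat_lit 81) (nat_lit 5) (nat_lit 86) (nat_lit 5) (nat_lit 82) (nat_lit 5) (nat_lit 349) (nat_lit 332) (nat_lit 219)) (XT.nd (nat_lit 78) (nat_lit 0) (nat_lit 0) (XT.lf (nat_lit 0) (nat_lit 3814483052) (nat_lit 456) (nat_lit 18249164782) (nat_lit 76) (nat_lit 9344172374) (nat_lit 76) (nat_lit 5) (nat_lit 82) (nat_lit 5) (nat_lit 77) (nat_lit 5) (nat_lit 350) (nat_lit 332) (nat_lit 218)) (XT.lf (nat_lit 0) (nat_lit 7819139537) (nat_lit 456) (nat_lit 2114989548) (nat_lit 76) (nat_lit 22389509891) (nat_lit 76)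 (nat_lit 5) (nat_lit 82) (nat_lit 5) (nat_lit 77) (nat_lit 5) (nat_lit 351) (nat_lit 332) (nat_lit 217)))))) (XT.nd (nat_lit 468) (nat_lit 684) (nat_lit 0) (XT.nd (nat_lit 234) (nat_lit 608) (nat_lit 0) (XT.nd (nat_lit 78) (nat_lit 304) (nat_lit 0) (XT.lf (nat_lit 0) (nat_lit 12305759640) (nat_lit 380) (nat_lit 18010900558) (nat_lit 76) (nat_lit 2954507217) (nat_lit 72) (nat_lit 5) (nat_lit 77) (nat_lit 5) (nat_lit 73) (nat_lit 5) (nat_lit 352) (nat_lit 332) (nat_lit 216)) (XT.nd (nat_lit 78) (nat_lit 304) (nat_lit 0) (XT.lf (nat_lit 0) (nat_lit 17211150279) (nat_lit 380) (nat_lit 855769962) (nat_lit 76) (nat_lit 16189435077) (nat_lit 72) (nat_lit 5) (nat_lit 77) (nat_lit 5) (nat_lit 73) (nat_lit 5) (nat_lit 353) (nat_lit 332) (nat_lit 215)) (XT.lf (nat_lit 0) (nat_lit 17718741263) (nat_lit 304) (nat_lit 4915117346) (nat_lit 380) (nat_lit 12643346381) (nat_lit 68) (nat_lit 5) (nat_lit 72)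 (nat_lit 5) (nat_lit 73) (nat_lit 5) (nat_lit 354) (nat_lit 332) (nat_lit 214)))) (XT.nd (nat_lit 78) (nat_lit 380) (nat_lit 0) (XT.lf (nat_lit 0) (nat_lit 783686158) (nat_lit 228) (nat_lit 27705375376) (nat_lit 304) (nat_lit 7851972206) (nat_lit 65) (nat_lit 5) (nat_lit 68) (nat_lit 5) (nat_lit 69) (nat_lit 5) (nat_lit 355) (nat_lit 332) (nat_lit 213)) (XT.nd (nat_lit 78) (nat_lit 380) (nat_lit 0) (XT.lf (nat_lit 0) (nat_lit 20563773870) (nat_lit 228) (nat_lit 14445543248) (nat_lit 304) (nat_lit 2430126521) (nat_lit 65) (nat_lit 5) (nat_lit 68) (nat_lit 5) (nat_lit 69) (nat_lit 5) (nat_lit 356) (nat_lit 332) (nat_lit 212)) (XT.lf (nat_lit 0) (nat_lit 2772486942) (nat_lit 304) (nat_lit 424970857) (nat_lit 380) (nat_lit 35390819253) (nat_lit 60) (nat_lit 5) (nat_lit 64) (nat_lit 5) (nat_lit 65) (nat_lit 5) (nat_lit 357) (nat_lit 332) (nat_lit 211))))) (XT.nd (nat_lit 234) (nat_lit 456) (nat_lit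 0) (XT.nd (nat_lit 78) (nat_lit 228) (nat_lit 0) (XT.lf (nat_lit 0) (nat_lit 9534335297) (nat_lit 380) (nat_lit 16064561866) (nat_lit 76) (nat_lit 14168187703) (nat_lit 60) (nat_lit 5) (nat_lit 65) (nat_lit 5) (nat_lit 61) (nat_lit 5) (nat_lit 358) (nat_lit 332) (nat_lit 210)) (XT.nd (nat_lit 78) (nat_lit 0) (nat_lit 0) (XT.lf (nat_lit 0) (nat_lit 4816168089) (nat_lit 228) (nat_lit 11450133809) (nat_lit 304) (nat_lit 24734622478) (nat_lit 57) (nat_lit 5) (nat_lit 60) (nat_lit 5) (nat_lit 61) (nat_lit 5) (nat_lit 359) (nat_lit 332) (nat_lit 209)) (XT.lf (nat_lit 0) (nat_lit 23660735780) (nat_lit 304) (nat_lit 15047159978) (nat_lit 76) (nat_lit 3572270055) (nat_lit 57) (nat_lit 5) (nat_lit 61) (nat_lit 5) (nat_lit 58) (nat_lit 5) (nat_lit 360) (nat_lit 332) (nat_lit 208)))) (XT.nd (nat_lit 78) (nat_lit 228) (nat_lit 0) (XT.lf (nat_lit 0) (nat_lit 7184482341) (nat_lit 228) (nat_lit 24536637972)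 (nat_lit 304) (nat_lit 11887440798) (nat_lit 54) (nat_lit 5) (nat_lit 57) (nat_lit 5) (nat_lit 58) (nat_lit 5) (nat_lit 361) (nat_lit 332) (nat_lit 207)) (XT.nd (nat_lit 78) (nat_lit 228) (nat_lit 0) (XT.lf (nat_lit 0) (nat_lit 31045117052) (nat_lit 228) (nat_lit 9390685659) (nat_lit 304) (nat_lit 4555012612) (nat_lit 54) (nat_lit 5) (nat_lit 57) (nat_lit 5) (nat_lit 58) (nat_lit 5) (nat_lit 362) (nat_lit 332) (nat_lit 206)) (XT.lf (nat_lit 0) (nat_lit 3299848837) (nat_lit 228) (nat_lit 36617010701) (nat_lit 76) (nat_lit 6510049109) (nat_lit 51) (nat_lit 5) (nat_lit 54) (nat_lit 5) (nat_lit 52) (nat_lit 5) (nat_lit 363) (nat_lit 332) (nat_lit 205))))))))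
noncomputable def xc182 : XT := (XT.nd (nat_lit 1716) (nat_lit 912) (nat_lit 0) (XT.nd (nat_lit 858) (nat_lit 912) (nat_lit 0) (XT.nd (nat_lit 390) (nat_lit 684) (nat_lit 0) (XT.nd (nat_lit 156) (nat_lit 152) (nat_lit 0) (XT.nd (nat_lit 78) (nat_lit 228) (nat_lit 0) (XT.lf (nat_lit 0) (nat_lit 11784994737) (nat_lit 228) (nat_lit 12922991573) (nat_lit 76) (nat_lit 23203558388) (nat_lit 51) (nat_lit 5) (nat_lit 54) (nat_lit 5) (nat_lit 52) (nat_lit 5) (nat_lit 364) (nat_lit 332) (nat_lit 204)) (XT.lf (nat_lit 0) (nat_lit 12346177421) (nat_lit 228) (nat_lit 8537764750) (nat_lit 304) (nat_lit 28576995705) (nat_lit 48) (nat_lit 5) (nat_lit 51) (nat_lit 5) (nat_lit 52) (nat_lit 5) (nat_lit 365) (nat_lit 332) (nat_lit 203))) (XT.nd (nat_lit 78) (nat_lit 152) (nat_lit 0) (XT.lf (nat_lit 0) (nat_lit 30788912293) (nat_lit 304) (nat_lit 11889536581) (nat_lit 76) (nat_lit 8391800488) (nat_lit 48) (nat_lit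 5) (nat_lit 52) (nat_lit 5) (nat_lit 49) (nat_lit 5) (nat_lit 366) (nat_lit 332) (nat_lit 202)) (XT.nd (nat_lit 78) (nat_lit 0) (nat_lit 0) (XT.lf (nat_lit 0) (nat_lit 14930309525) (nat_lit 152) (nat_lit 26628882262) (nat_lit 228) (nat_lit 11182333892) (nat_lit 46) (nat_lit 5) (nat_lit 48) (nat_lit 5) (nat_lit 49) (nat_lit 5) (nat_lit 367) (nat_lit 332) (nat_lit 201)) (XT.lf (nat_lit 0) (nat_lit 43499460254) (nat_lit 152) (nat_lit 9566947040) (nat_lit 228) (nat_lit 1420039606) (nat_lit 46) (nat_lit 5) (nat_lit 48) (nat_lit 5) (nat_lit 49) (nat_lit 5) (nat_lit 368) (nat_lit 332) (nat_lit 200))))) (XT.nd (nat_lit 234) (nat_lit 228) (nat_lit 0) (XT.nd (nat_lit 78) (nat_lit 152) (nat_lit 0) (XT.lf (nat_lit 0) (nat_lit 8956757439) (nat_lit 304) (nat_lit 38835670434) (nat_lit 76) (nat_lit 8498844204) (nat_lit 42) (nat_lit 5) (nat_lit 46) (nat_lit 5) (nat_lit 43) (nat_lit 5) (nat_lit 369) (nat_lit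 332) (nat_lit 199)) (XT.nd (nat_lit 78) (nat_lit 152) (nat_lit 0) (XT.lf (nat_lit 0) (nat_lit 20147830970) (nat_lit 304) (nat_lit 10662832862) (nat_lit 76) (nat_lit 27357354643) (nat_lit 42) (nat_lit 5) (nat_lit 46) (nat_lit 5) (nat_lit 43) (nat_lit 5) (nat_lit 370) (nat_lit 332) (nat_lit 198)) (XT.lf (nat_lit 0) (nat_lit 19539857681) (nat_lit 152) (nat_lit 12661009402) (nat_lit 228) (nat_lit 27922616467) (nat_lit 40) (nat_lit 5) (nat_lit 42) (nat_lit 5) (nat_lit 43) (nat_lit 5) (nat_lit 371) (nat_lit 332) (nat_lit 197)))) (XT.nd (nat_lit 78) (nat_lit 228) (nat_lit 0) (XT.lf (nat_lit 0) (nat_lit 45137332815) (nat_lit 228) (nat_lit 10651869341) (nat_lit 76) (nat_lit 6373482548) (nat_lit 40) (nat_lit 5) (nat_lit 43) (nat_lit 5) (nat_lit 41) (nat_lit 5) (nat_lit 372) (nat_lit 332) (nat_lit 196)) (XT.nd (nat_lit 78) (nat_lit 76) (nat_lit 0) (XT.lf (nat_lit 0) (nat_lit 21244860066) (nat_lit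 152) (nat_lit 38012511831) (nat_lit 228) (nat_lit 5019638150) (nat_lit 38) (nat_lit 5) (nat_lit 40) (nat_lit 5) (nat_lit 41) (nat_lit 5) (nat_lit 373) (nat_lit 332) (nat_lit 195)) (XT.lf (nat_lit 0) (nat_lit 7524418550) (nat_lit 228) (nat_lit 11507243071) (nat_lit 76) (nat_lit 47450425890) (nat_lit 37) (nat_lit 5) (nat_lit 40) (nat_lit 5) (nat_lit 38) (nat_lit 5) (nat_lit 374) (nat_lit 332) (nat_lit 194)))))) (XT.nd (nat_lit 390) (nat_lit 456) (nat_lit 0) (XT.nd (nat_lit 156) (nat_lit 304) (nat_lit 0) (XT.nd (nat_lit 78) (nat_lit 0) (nat_lit 0) (XT.lf (nat_lit 0) (nat_lit 20892556029) (nat_lit 228) (nat_lit 46578203391) (nat_lit 76) (nat_lit 1304267848) (nat_lit 35) (nat_lit 5) (nat_lit 38) (nat_lit 5) (nat_lit 36) (nat_lit 5) (nat_lit 375) (nat_lit 332) (nat_lit 193)) (XT.lf (nat_lit 0) (nat_lit 35436835362) (nat_lit 228) (nat_lit 13506342973) (nat_lit 76) (nat_lit 22214050273) (nat_lit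 35) (nat_lit 5) (nat_lit 38) (nat_lit 5) (nat_lit 36) (nat_lit 5) (nat_lit 376) (nat_lit 332) (nat_lit 192))) (XT.nd (nat_lit 78) (nat_lit 152) (nat_lit 0) (XT.lf (nat_lit 0) (nat_lit 21916889274) (nat_lit 152) (nat_lit 29131399672) (nat_lit 228) (nat_lit 22593254335) (nat_lit 33) (nat_lit 5) (nat_lit 35) (nat_lit 5) (nat_lit 36) (nat_lit 5) (nat_lit 377) (nat_lit 332) (nat_lit 191)) (XT.nd (nat_lit 78) (nat_lit 152) (nat_lit 0) (XT.lf (nat_lit 0) (nat_lit 59576553995) (nat_lit 152) (nat_lit 8090322970) (nat_lit 228) (nat_lit 8571869854) (nat_lit 33) (nat_lit 5) (nat_lit 35) (nat_lit 5) (nat_lit 36) (nat_lit 5) (nat_lit 378) (nat_lit 332) (nat_lit 190)) (XT.lf (nat_lit 0) (nat_lit 6500546771) (nat_lit 152) (nat_lit 58453523205) (nat_lit 76) (nat_lit 13979599274) (nat_lit 31) (nat_lit 5) (nat_lit 33) (nat_lit 5) (nat_lit 32) (nat_lit 5) (nat_lit 379) (nat_lit 332) (nat_lit 189))))) (XT.nd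 (nat_lit 234) (nat_lit 304) (nat_lit 0) (XT.nd (nat_lit 78) (nat_lit 152) (nat_lit 0) (XT.lf (nat_lit 0) (nat_lit 22455867276) (nat_lit 152) (nat_lit 21972490965) (nat_lit 76) (nat_lit 37307086785) (nat_lit 31) (nat_lit 5) (nat_lit 33) (nat_lit 5) (nat_lit 32) (nat_lit 5) (nat_lit 380) (nat_lit 332) (nat_lit 188)) (XT.nd (nat_lit 78) (nat_lit 0) (nat_lit 0) (XT.lf (nat_lit 0) (nat_lit 16869118397) (nat_lit 152) (nat_lit 22601226386) (nat_lit 228) (nat_lit 45193896264) (nat_lit 29) (nat_lit 5) (nat_lit 31) (nat_lit 5) (nat_lit 32) (nat_lit 5) (nat_lit 381) (nat_lit 332) (nat_lit 187)) (XT.lf (nat_lit 0) (nat_lit 57716751833) (nat_lit 228) (nat_lit 29319694351) (nat_lit 76) (nat_lit 683971357) (nat_lit 29) (nat_lit 5) (nat_lit 32) (nat_lit 5) (nat_lit 30) (nat_lit 4) (nat_lit 382) (nat_lit 332) (nat_lit 186)))) (XT.nd (nat_lit 78) (nat_lit 228) (nat_lit 0) (XT.lf (nat_lit 0) (nat_lit 11059723064)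 (nat_lit 76) (nat_lit 66357072120) (nat_lit 152) (nat_lit 13485542788) (nat_lit 28) (nat_lit 5) (nat_lit 29) (nat_lit 5) (nat_lit 30) (nat_lit 4) (nat_lit 383) (nat_lit 332) (nat_lit 185)) (XT.nd (nat_lit 78) (nat_lit 152) (nat_lit 0) (XT.lf (nat_lit 0) (nat_lit 4237812889) (nat_lit 152) (nat_lit 39814144697) (nat_lit 76) (nat_lit 50163244461) (nat_lit 27) (nat_lit 5) (nat_lit 29) (nat_lit 5) (nat_lit 28) (nat_lit 5) (nat_lit 384) (nat_lit 332) (nat_lit 184)) (XT.lf (nat_lit 0) (nat_lit 2057419563) (nat_lit 152) (nat_lit 20367063831) (nat_lit 228) (nat_lit 75256655510) (nat_lit 25) (nat_lit 5) (nat_lit 27) (nat_lit 5) (nat_lit 28) (nat_lit 5) (nat_lit 385) (nat_lit 332) (nat_lit 183))))))) (XT.nd (nat_lit 858) (nat_lit 380) (nat_lit 0) (XT.nd (nat_lit 390) (nat_lit 228) (nat_lit 0) (XT.nd (nat_lit 156) (nat_lit 304) (nat_lit 0) (XT.nd (nat_lit 78) (nat_lit 0) (nat_lit 0) (XT.lf (nat_lit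 0) (nat_lit 42274346592) (nat_lit 228) (nat_lit 53966305524) (nat_lit 76) (nat_lit 5042028277) (nat_lit 25) (nat_lit 5) (nat_lit 28) (nat_lit 5) (nat_lit 26) (nat_lit 4) (nat_lit 386) (nat_lit 332) (nat_lit 182)) (XT.lf (nat_lit 0) (nat_lit 63448916596) (nat_lit 228) (nat_lit 10562880748) (nat_lit 76) (nat_lit 31035891644) (nat_lit 25) (nat_lit 5) (nat_lit 28) (nat_lit 5) (nat_lit 26) (nat_lit 4) (nat_lit 387) (nat_lit 332) (nat_lit 181))) (XT.nd (nat_lit 78) (nat_lit 228) (nat_lit 0) (XT.lf (nat_lit 0) (nat_lit 36165402146) (nat_lit 76) (nat_lit 50079863240) (nat_lit 152) (nat_lit 22727530791) (nat_lit 24) (nat_lit 5) (nat_lit 25) (nat_lit 5) (nat_lit 26) (nat_lit 4) (nat_lit 388) (nat_lit 332) (nat_lit 180)) (XT.nd (nat_lit 78) (nat_lit 228) (nat_lit 0) (XT.lf (nat_lit 0) (nat_lit 85594032383) (nat_lit 76) (nat_lit 24764726093) (nat_lit 152) (nat_lit 2726534555) (nat_lit 24) (nat_lit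 5) (nat_lit 25) (nat_lit 5) (nat_lit 26) (nat_lit 4) (nat_lit 389) (nat_lit 332) (nat_lit 179)) (XT.lf (nat_lit 0) (nat_lit 18045749634) (nat_lit 228) (nat_lit 96954081019) (nat_lit 76) (nat_lit 2371512011) (nat_lit 21) (nat_lit 5) (nat_lit 24) (nat_lit 5) (nat_lit 22) (nat_lit 4) (nat_lit 390) (nat_lit 332) (nat_lit 178))))) (XT.nd (nat_lit 234) (nat_lit 152) (nat_lit 0) (XT.nd (nat_lit 78) (nat_lit 76) (nat_lit 0) (XT.lf (nat_lit 0) (nat_lit 40642708661) (nat_lit 228) (nat_lit 50633796793) (nat_lit 76) (nat_lit 30549070516) (nat_lit 21) (nat_lit 5) (nat_lit 24) (nat_lit 5) (nat_lit 22) (nat_lit 4) (nat_lit 391) (nat_lit 332) (nat_lit 177)) (XT.nd (nat_lit 78) (nat_lit 76) (nat_lit 0) (XT.lf (nat_lit 0) (nat_lit 64368087763) (nat_lit 228) (nat_lit 2000085618) (nat_lit 76) (nat_lit 60134419488) (nat_lit 21) (nat_lit 5) (nat_lit 24) (nat_lit 5) (nat_lit 22) (nat_lit 4) (nat_lit 392) (nat_lit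 332) (nat_lit 176)) (XT.lf (nat_lit 0) (nat_lit 50685086356) (nat_lit 76) (nat_lit 39384625822) (nat_lit 152) (nat_lit 41304250121) (nat_lit 20) (nat_lit 5) (nat_lit 21) (nat_lit 5) (nat_lit 22) (nat_lit 4) (nat_lit 393) (nat_lit 332) (nat_lit 175)))) (XT.nd (nat_lit 78) (nat_lit 152) (nat_lit 0) (XT.lf (nat_lit 0) (nat_lit 106071531069) (nat_lit 76) (nat_lit 11017426185) (nat_lit 152) (nat_lit 19398316458) (nat_lit 20) (nat_lit 5) (nat_lit 21) (nat_lit 5) (nat_lit 22) (nat_lit 4) (nat_lit 394) (nat_lit 332) (nat_lit 174)) (XT.nd (nat_lit 78) (nat_lit 0) (nat_lit 0) (XT.lf (nat_lit 0) (nat_lit 4146013898) (nat_lit 152) (nat_lit 119085143673) (nat_lit 76) (nat_lit 18589360197) (nat_lit 18) (nat_lit 5) (nat_lit 20) (nat_lit 5) (nat_lit 19) (nat_lit 4) (nat_lit 395) (nat_lit 332) (nat_lit 173)) (XT.lf (nat_lit 0) (nat_lit 28918531556) (nat_lit 152) (nat_lit 68304080633) (nat_lit 76) (nat_lit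 50146767923) (nat_lit 18) (nat_lit 5) (nat_lit 20) (nat_lit 5) (nat_lit 19) (nat_lit 4) (nat_lit 396) (nat_lit 332) (nat_lit 172)))))) (XT.nd (nat_lit 468) (nat_lit 152) (nat_lit 0) (XT.nd (nat_lit 234) (nat_lit 152) (nat_lit 0) (XT.nd (nat_lit 78) (nat_lit 76) (nat_lit 0) (XT.lf (nat_lit 0) (nat_lit 54928454339) (nat_lit 152) (nat_lit 14986213365) (nat_lit 76) (nat_lit 83281079305) (nat_lit 18) (nat_lit 5) (nat_lit 20) (nat_lit 5) (nat_lit 19) (nat_lit 4) (nat_lit 397) (nat_lit 332) (nat_lit 171)) (XT.nd (nat_lit 78) (nat_lit 0) (nat_lit 0) (XT.lf (nat_lit 0) (nat_lit 42350898680) (nat_lit 76) (nat_lit 40548028172) (nat_lit 152) (nat_lit 76381503097) (nat_lit 17) (nat_lit 5) (nat_lit 18) (nat_lit 5) (nat_lit 19) (nat_lit 4) (nat_lit 398) (nat_lit 332) (nat_lit 170)) (XT.lf (nat_lit 0) (nat_lit 103073046530) (nat_lit 76) (nat_lit 9447535072) (nat_lit 152) (nat_lit 53136132864) (nat_lit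 17) (nat_lit 5) (nat_lit 18) (nat_lit 5) (nat_lit 19) (nat_lit 4) (nat_lit 399) (nat_lit 332) (nat_lit 169)))) (XT.nd (nat_lit 78) (nat_lit 152) (nat_lit 0) (XT.lf (nat_lit 0) (nat_lit 143984560489) (nat_lit 152) (nat_lit 5884900281) (nat_lit 0) (nat_lit 22464290711) (nat_lit 17) (nat_lit 5) (nat_lit 19) (nat_lit 4) (nat_lit 17) (nat_lit 4) (nat_lit 400) (nat_lit 332) (nat_lit 168)) (XT.nd (nat_lit 78) (nat_lit 76) (nat_lit 0) (XT.lf (nat_lit 0) (nat_lit 55260664807) (nat_lit 76) (nat_lit 122777677125) (nat_lit 76) (nat_lit 1255468562) (nat_lit 16) (nat_lit 4) (nat_lit 17) (nat_lit 5) (nat_lit 17) (nat_lit 4) (nat_lit 401) (nat_lit 332) (nat_lit 167)) (XT.lf (nat_lit 0) (nat_lit 26422848490) (nat_lit 152) (nat_lit 67357215621) (nat_lit 76) (nat_lit 92795568122) (nat_lit 15) (nat_lit 5) (nat_lit 17) (nat_lit 5) (nat_lit 16) (nat_lit 4) (nat_lit 402) (nat_lit 332) (nat_lit 166))))) (XT.nd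 (nat_lit 234) (nat_lit 76) (nat_lit 0) (XT.nd (nat_lit 78) (nat_lit 76) (nat_lit 0) (XT.lf (nat_lit 0) (nat_lit 55441894122) (nat_lit 152) (nat_lit 7869930611) (nat_lit 76) (nat_lit 130908741300) (nat_lit 15) (nat_lit 5) (nat_lit 17) (nat_lit 5) (nat_lit 16) (nat_lit 4) (nat_lit 403) (nat_lit 332) (nat_lit 165)) (XT.nd (nat_lit 78) (nat_lit 0) (nat_lit 0) (XT.lf (nat_lit 0) (nat_lit 56394937304) (nat_lit 76) (nat_lit 30396489847) (nat_lit 152) (nat_lit 115412342885) (nat_lit 14) (nat_lit 5) (nat_lit 15) (nat_lit 5) (nat_lit 16) (nat_lit 4) (nat_lit 404) (nat_lit 332) (nat_lit 164)) (XT.lf (nat_lit 0) (nat_lit 119907981446) (nat_lit 152) (nat_lit 86502178567) (nat_lit 0) (nat_lit 4165997253) (nat_lit 14) (nat_lit 5) (nat_lit 16) (nat_lit 4) (nat_lit 14) (nat_lit 4) (nat_lit 405) (nat_lit 332) (nat_lit 163)))) (XT.nd (nat_lit 78) (nat_lit 76) (nat_lit 0) (XT.lf (nat_lit 0) (nat_lit 155177768787)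 (nat_lit 152) (nat_lit 24730187205) (nat_lit 0) (nat_lit 39434337842) (nat_lit 14) (nat_lit 5) (nat_lit 16) (nat_lit 4) (nat_lit 14) (nat_lit 4) (nat_lit 406) (nat_lit 332) (nat_lit 162)) (XT.nd (nat_lit 78) (nat_lit 0) (nat_lit 0) (XT.lf (nat_lit 0) (nat_lit 41455631002) (nat_lit 76) (nat_lit 151401798043) (nat_lit 76) (nat_lit 35656989239) (nat_lit 13) (nat_lit 4) (nat_lit 14) (nat_lit 5) (nat_lit 14) (nat_lit 4) (nat_lit 407) (nat_lit 332) (nat_lit 161)) (XT.lf (nat_lit 0) (nat_lit 111807730566) (nat_lit 76) (nat_lit 121031320366) (nat_lit 76) (nat_lit 5285199316) (nat_lit 13) (nat_lit 4) (nat_lit 14) (nat_lit 5) (nat_lit 14) (nat_lit 4) (nat_lit 408) (nat_lit 332) (nat_lit 160))))))))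
noncomputable def xc183 : XT := (XT.nd (nat_lit 41184) (nat_lit 0) (nat_lit 4028) (XT.nd (nat_lit 858) (nat_lit 76) (nat_lit 0) (XT.nd (nat_lit 390) (nat_lit 228) (nat_lit 0) (XT.nd (nat_lit 156) (nat_lit 0) (nat_lit 0) (XT.nd (nat_lit 78) (nat_lit 76) (nat_lit 0) (XT.lf (nat_lit 0) (nat_lit 25752835767) (nat_lit 152) (nat_lit 62954057485) (nat_lit 76) (nat_lit 159486952308) (nat_lit 12) (nat_lit 5) (nat_lit 14) (nat_lit 5) (nat_lit 13) (nat_lit 4) (nat_lit 409) (nat_lit 332) (nat_lit 159)) (XT.lf (nat_lit 0) (nat_lit 3603764011) (nat_lit 76) (nat_lit 54616882362) (nat_lit 152) (nat_lit 200539167769) (nat_lit 11) (nat_lit 5) (nat_lit 12) (nat_lit 5) (nat_lit 13) (nat_lit 4) (nat_lit 410) (nat_lit 332) (nat_lit 158))) (XT.nd (nat_lit 78) (nat_lit 0) (nat_lit 0) (XT.lf (nat_lit 0) (nat_lit 75673658767) (nat_lit 76) (nat_lit 17703586788) (nat_lit 152) (nat_lit 176423565877) (nat_lit 11) (nat_lit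 5) (nat_lit 12) (nat_lit 5) (nat_lit 13) (nat_lit 4) (nat_lit 411) (nat_lit 332) (nat_lit 157)) (XT.nd (nat_lit 78) (nat_lit 0) (nat_lit 0) (XT.lf (nat_lit 0) (nat_lit 130619674740) (nat_lit 152) (nat_lit 130376941863) (nat_lit 0) (nat_lit 20380842157) (nat_lit 11) (nat_lit 5) (nat_lit 13) (nat_lit 4) (nat_lit 11) (nat_lit 4) (nat_lit 412) (nat_lit 332) (nat_lit 156)) (XT.lf (nat_lit 0) (nat_lit 170013749691) (nat_lit 152) (nat_lit 63730774821) (nat_lit 0) (nat_lit 59773937889) (nat_lit 11) (nat_lit 5) (nat_lit 13) (nat_lit 4) (nat_lit 11) (nat_lit 4) (nat_lit 413) (nat_lit 332) (nat_lit 155))))) (XT.nd (nat_lit 234) (nat_lit 152) (nat_lit 0) (XT.nd (nat_lit 78) (nat_lit 0) (nat_lit 0) (XT.lf (nat_lit 0) (nat_lit 6452967677) (nat_lit 76) (nat_lit 205024644455) (nat_lit 76) (nat_lit 94783900064) (nat_lit 10) (nat_lit 4) (nat_lit 11) (nat_lit 5) (nat_lit 11) (nat_lit 4) (nat_lit 414) (nat_lit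 332) (nat_lit 154)) (XT.nd (nat_lit 78) (nat_lit 0) (nat_lit 0) (XT.lf (nat_lit 0) (nat_lit 82357238188) (nat_lit 76) (nat_lit 173736088043) (nat_lit 76) (nat_lit 63494455472) (nat_lit 10) (nat_lit 4) (nat_lit 11) (nat_lit 5) (nat_lit 11) (nat_lit 4) (nat_lit 415) (nat_lit 332) (nat_lit 153)) (XT.lf (nat_lit 0) (nat_lit 162055533935) (nat_lit 76) (nat_lit 140883670222) (nat_lit 76) (nat_lit 30641191765) (nat_lit 10) (nat_lit 4) (nat_lit 11) (nat_lit 5) (nat_lit 11) (nat_lit 4) (nat_lit 416) (nat_lit 332) (nat_lit 152)))) (XT.nd (nat_lit 78) (nat_lit 76) (nat_lit 0) (XT.lf (nat_lit 0) (nat_lit 3730757422) (nat_lit 152) (nat_lit 102595231346) (nat_lit 76) (nat_lit 241943673158) (nat_lit 9) (nat_lit 5) (nat_lit 11) (nat_lit 5) (nat_lit 10) (nat_lit 4) (nat_lit 417) (nat_lit 332) (nat_lit 151)) (XT.nd (nat_lit 78) (nat_lit 76) (nat_lit 0) (XT.lf (nat_lit 0) (nat_lit 38790985666) (nat_lit 152)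 (nat_lit 30722530689) (nat_lit 76) (nat_lit 294154787939) (nat_lit 9) (nat_lit 5) (nat_lit 11) (nat_lit 5) (nat_lit 10) (nat_lit 4) (nat_lit 418) (nat_lit 332) (nat_lit 150)) (XT.lf (nat_lit 0) (nat_lit 46222158055) (nat_lit 76) (nat_lit 30103178563) (nat_lit 152) (nat_lit 303475486714) (nat_lit 8) (nat_lit 5) (nat_lit 9) (nat_lit 5) (nat_lit 10) (nat_lit 4) (nat_lit 419) (nat_lit 332) (nat_lit 149)))))) (XT.nd (nat_lit 390) (nat_lit 0) (nat_lit 0) (XT.nd (nat_lit 156) (nat_lit 76) (nat_lit 0) (XT.nd (nat_lit 78) (nat_lit 0) (nat_lit 0) (XT.lf (nat_lit 0) (nat_lit 116440767850) (nat_lit 152) (nat_lit 268818907862) (nat_lit 0) (nat_lit 11445074587) (nat_lit 8) (nat_lit 5) (nat_lit 10) (nat_lit 4) (nat_lit 8) (nat_lit 4) (nat_lit 420) (nat_lit 332) (nat_lit 148)) (XT.lf (nat_lit 0) (nat_lit 159054947426) (nat_lit 152) (nat_lit 201315654504) (nat_lit 0) (nat_lit 54058622949) (nat_lit 8) (nat_lit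 5) (nat_lit 10) (nat_lit 4) (nat_lit 8) (nat_lit 4) (nat_lit 421) (nat_lit 332) (nat_lit 147))) (XT.nd (nat_lit 78) (nat_lit 76) (nat_lit 0) (XT.lf (nat_lit 0) (nat_lit 203799342696) (nat_lit 152) (nat_lit 130438188194) (nat_lit 0) (nat_lit 98802417065) (nat_lit 8) (nat_lit 5) (nat_lit 10) (nat_lit 4) (nat_lit 8) (nat_lit 4) (nat_lit 422) (nat_lit 332) (nat_lit 146)) (XT.nd (nat_lit 78) (nat_lit 76) (nat_lit 0) (XT.lf (nat_lit 0) (nat_lit 250780487937) (nat_lit 152) (nat_lit 56017753057) (nat_lit 0) (nat_lit 145782989776) (nat_lit 8) (nat_lit 5) (nat_lit 10) (nat_lit 4) (nat_lit 8) (nat_lit 4) (nat_lit 423) (nat_lit 332) (nat_lit 145)) (XT.lf (nat_lit 0) (nat_lit 22854323497) (nat_lit 76) (nat_lit 277612739559) (nat_lit 76) (nat_lit 172614696133) (nat_lit 7) (nat_lit 4) (nat_lit 8) (nat_lit 5) (nat_lit 8) (nat_lit 4) (nat_lit 424) (nat_lit 332) (nat_lit 144))))) (XT.nd (nat_lit 39702) (nat_lit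 0) (nat_lit 7600) (XT.nd (nat_lit 78) (nat_lit 0) (nat_lit 0) (XT.lf (nat_lit 0) (nat_lit 107613966248) (nat_lit 76) (nat_lit 245972249086) (nat_lit 76) (nat_lit 140973686359) (nat_lit 7) (nat_lit 4) (nat_lit 8) (nat_lit 5) (nat_lit 8) (nat_lit 4) (nat_lit 425) (nat_lit 332) (nat_lit 143)) (XT.nd (nat_lit 78) (nat_lit 0) (nat_lit 0) (XT.lf (nat_lit 0) (nat_lit 196610783971) (nat_lit 76) (nat_lit 212750122828) (nat_lit 76) (nat_lit 107751065530) (nat_lit 7) (nat_lit 4) (nat_lit 8) (nat_lit 5) (nat_lit 8) (nat_lit 4) (nat_lit 426) (nat_lit 332) (nat_lit 142)) (XT.lf (nat_lit 0) (nat_lit 290056673850) (nat_lit 76) (nat_lit 177867260485) (nat_lit 76) (nat_lit 72867732166) (nat_lit 7) (nat_lit 4) (nat_lit 8) (nat_lit 5) (nat_lit 8) (nat_lit 4) (nat_lit 427) (nat_lit 332) (nat_lit 141)))) (XT.nd (nat_lit 78) (nat_lit 0) (nat_lit 0) (XT.lf (nat_lit 0) (nat_lit 4833085349) (nat_lit 0) (nat_lit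 4833085349) (nat_lit 684) (nat_lit 589202774) (nat_lit 107) (nat_lit 5) (nat_lit 107) (nat_lit 3) (nat_lit 116) (nat_lit 3) (nat_lit 333) (nat_lit 333) (nat_lit 234)) (XT.nd (nat_lit 78) (nat_lit 0) (nat_lit 0) (XT.lf (nat_lit 0) (nat_lit 19783382193) (nat_lit 0) (nat_lit 181066014) (nat_lit 684) (nat_lit 1051429316) (nat_lit 107) (nat_lit 5) (nat_lit 107) (nat_lit 3) (nat_lit 116) (nat_lit 3) (nat_lit 334) (nat_lit 333) (nat_lit 233)) (XT.lf (nat_lit 76) (nat_lit 8989931240) (nat_lit 0) (nat_lit 11921803115) (nat_lit 760) (nat_lit 620364257) (nat_lit 108) (nat_lit 5) (nat_lit 107) (nat_lit 5) (nat_lit 117) (nat_lit 5) (nat_lit 335) (nat_lit 333) (nat_lit 232))))))) (XT.nd (nat_lit 858) (nat_lit 2356) (nat_lit 0) (XT.nd (nat_lit 390) (nat_lit 532) (nat_lit 0) (XT.nd (nat_lit 156) (nat_lit 0) (nat_lit 0) (XT.nd (nat_lit 78) (nat_lit 684) (nat_lit 0) (XT.lf (nat_lit 76) (nat_lit 19757962292)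 (nat_lit 0) (nat_lit 2163133472) (nat_lit 760) (nat_lit 152311529) (nat_lit 108) (nat_lit 5) (nat_lit 107) (nat_lit 5) (nat_lit 117) (nat_lit 5) (nat_lit 336) (nat_lit 333) (nat_lit 231)) (XT.lf (nat_lit 0) (nat_lit 583735588) (nat_lit 760) (nat_lit 14073589609) (nat_lit 836) (nat_lit 7971430095) (nat_lit 98) (nat_lit 5) (nat_lit 108) (nat_lit 5) (nat_lit 109) (nat_lit 5) (nat_lit 337) (nat_lit 333) (nat_lit 230))) (XT.nd (nat_lit 78) (nat_lit 0) (nat_lit 76) (XT.lf (nat_lit 0) (nat_lit 1418369554) (nat_lit 760) (nat_lit 3204508615) (nat_lit 836) (nat_lit 18585532956) (nat_lit 98) (nat_lit 5) (nat_lit 108) (nat_lit 5) (nat_lit 109) (nat_lit 5) (nat_lit 338) (nat_lit 333) (nat_lit 229)) (XT.nd (nat_lit 78) (nat_lit 0) (nat_lit 0) (XT.lf (nat_lit 0) (nat_lit 2513554299) (nat_lit 760) (nat_lit 15431556646) (nat_lit 836) (nat_lit 5861007792) (nat_lit 99) (nat_lit 5) (nat_lit 109) (nat_lit 5)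 (nat_lit 110) (nat_lit 5) (nat_lit 339) (nat_lit 333) (nat_lit 228)) (XT.lf (nat_lit 0) (nat_lit 3786764860) (nat_lit 760) (nat_lit 3869598665) (nat_lit 836) (nat_lit 16771194340) (nat_lit 99) (nat_lit 5) (nat_lit 109) (nat_lit 5) (nat_lit 110) (nat_lit 5) (nat_lit 340) (nat_lit 333) (nat_lit 227))))) (XT.nd (nat_lit 234) (nat_lit 684) (nat_lit 0) (XT.nd (nat_lit 78) (nat_lit 0) (nat_lit 0) (XT.lf (nat_lit 0) (nat_lit 5300974065) (nat_lit 760) (nat_lit 16586879400) (nat_lit 836) (nat_lit 3183357595) (nat_lit 100) (nat_lit 5) (nat_lit 110) (nat_lit 5) (nat_lit 111) (nat_lit 5) (nat_lit 341) (nat_lit 333) (nat_lit 226)) (XT.nd (nat_lit 78) (nat_lit 0) (nat_lit 0) (XT.lf (nat_lit 0) (nat_lit 7075993019) (nat_lit 760) (nat_lit 4285845588) (nat_lit 836) (nat_lit 14375961931) (nat_lit 100) (nat_lit 5) (nat_lit 110) (nat_lit 5) (nat_lit 111) (nat_lit 5) (nat_lit 342) (nat_lit 333) (nat_lit 225))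 (XT.lf (nat_lit 76) (nat_lit 8909898889) (nat_lit 0) (nat_lit 162284224) (nat_lit 836) (nat_lit 17358923545) (nat_lit 101) (nat_lit 5) (nat_lit 100) (nat_lit 5) (nat_lit 111) (nat_lit 5) (nat_lit 343) (nat_lit 333) (nat_lit 224)))) (XT.nd (nat_lit 78) (nat_lit 760) (nat_lit 0) (XT.lf (nat_lit 0) (nat_lit 11416582585) (nat_lit 760) (nat_lit 4429249993) (nat_lit 76) (nat_lit 11300833299) (nat_lit 101) (nat_lit 5) (nat_lit 111) (nat_lit 5) (nat_lit 102) (nat_lit 5) (nat_lit 344) (nat_lit 333) (nat_lit 223)) (XT.nd (nat_lit 78) (nat_lit 0) (nat_lit 0) (XT.lf (nat_lit 0) (nat_lit 9616951495) (nat_lit 760) (nat_lit 4407926669) (nat_lit 836) (nat_lit 13865798505) (nat_lit 91) (nat_lit 5) (nat_lit 101) (nat_lit 5) (nat_lit 102) (nat_lit 5) (nat_lit 345) (nat_lit 333) (nat_lit 222)) (XT.lf (nat_lit 0) (nat_lit 16952600079) (nat_lit 836) (nat_lit 4274536053) (nat_lit 76) (nat_lit 7435308355) (nat_lit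 91) (nat_lit 5) (nat_lit 102) (nat_lit 5) (nat_lit 92) (nat_lit 5) (nat_lit 346) (nat_lit 333) (nat_lit 221)))))) (XT.nd (nat_lit 468) (nat_lit 1216) (nat_lit 0) (XT.nd (nat_lit 234) (nat_lit 456) (nat_lit 0) (XT.nd (nat_lit 78) (nat_lit 304) (nat_lit 0) (XT.lf (nat_lit 0) (nat_lit 10689020184) (nat_lit 380) (nat_lit 9571200083) (nat_lit 456) (nat_lit 9200911547) (nat_lit 86) (nat_lit 5) (nat_lit 91) (nat_lit 5) (nat_lit 92) (nat_lit 5) (nat_lit 347) (nat_lit 333) (nat_lit 220)) (XT.nd (nat_lit 78) (nat_lit 304) (nat_lit 0) (XT.lf (nat_lit 0) (nat_lit 23842998798) (nat_lit 456) (nat_lit 3795450992) (nat_lit 76) (nat_lit 2655821259) (nat_lit 86) (nat_lit 5) (nat_lit 92) (nat_lit 5) (nat_lit 87) (nat_lit 5) (nat_lit 348) (nat_lit 333) (nat_lit 219)) (XT.lf (nat_lit 0) (nat_lit 12156862696) (nat_lit 304) (nat_lit 15789572211) (nat_lit 380) (nat_lit 3205562508) (nat_lit 82) (nat_lit 5) (nat_lit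 86) (nat_lit 5) (nat_lit 87) (nat_lit 5) (nat_lit 349) (nat_lit 333) (nat_lit 218)))) (XT.nd (nat_lit 78) (nat_lit 380) (nat_lit 0) (XT.lf (nat_lit 0) (nat_lit 256172784) (nat_lit 380) (nat_lit 3020507469) (nat_lit 76) (nat_lit 28772766395) (nat_lit 81) (nat_lit 5) (nat_lit 86) (nat_lit 5) (nat_lit 82) (nat_lit 5) (nat_lit 350) (nat_lit 333) (nat_lit 217)) (XT.nd (nat_lit 78) (nat_lit 0) (nat_lit 0) (XT.lf (nat_lit 0) (nat_lit 4157735429) (nat_lit 456) (nat_lit 18988869526) (nat_lit 76) (nat_lit 9823817725) (nat_lit 76) (nat_lit 5) (nat_lit 82) (nat_lit 5) (nat_lit 77) (nat_lit 5) (nat_lit 351) (nat_lit 333) (nat_lit 216)) (XT.lf (nat_lit 0) (nat_lit 8355361489) (nat_lit 456) (nat_lit 2056211888) (nat_lit 76) (nat_lit 23520829892) (nat_lit 76) (nat_lit 5) (nat_lit 82) (nat_lit 5) (nat_lit 77) (nat_lit 5) (nat_lit 352) (nat_lit 333) (nat_lit 215))))) (XT.nd (nat_lit 234) (nat_lit 608) (nat_lit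 0) (XT.nd (nat_lit 78) (nat_lit 304) (nat_lit 0) (XT.lf (nat_lit 0) (nat_lit 13062250362) (nat_lit 380) (nat_lit 18742709158) (nat_lit 76) (nat_lit 3122559073) (nat_lit 72) (nat_lit 5) (nat_lit 77) (nat_lit 5) (nat_lit 73) (nat_lit 5) (nat_lit 353) (nat_lit 333) (nat_lit 214)) (XT.nd (nat_lit 78) (nat_lit 304) (nat_lit 0) (XT.lf (nat_lit 0) (nat_lit 18206186594) (nat_lit 380) (nat_lit 737857100) (nat_lit 76) (nat_lit 17018265397) (nat_lit 72) (nat_lit 5) (nat_lit 77) (nat_lit 5) (nat_lit 73) (nat_lit 5) (nat_lit 354) (nat_lit 333) (nat_lit 213)) (XT.lf (nat_lit 0) (nat_lit 18762787729) (nat_lit 304) (nat_lit 5133307390) (nat_lit 380) (nat_lit 13138309559) (nat_lit 68) (nat_lit 5) (nat_lit 72) (nat_lit 5) (nat_lit 73) (nat_lit 5) (nat_lit 355) (nat_lit 333) (nat_lit 212)))) (XT.nd (nat_lit 78) (nat_lit 380) (nat_lit 0) (XT.lf (nat_lit 0) (nat_lit 984559413) (nat_lit 228) (nat_lit 29056216720)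 (nat_lit 304) (nat_lit 8110819187) (nat_lit 65) (nat_lit 5) (nat_lit 68) (nat_lit 5) (nat_lit 69) (nat_lit 5) (nat_lit 356) (nat_lit 333) (nat_lit 211)) (XT.nd (nat_lit 78) (nat_lit 380) (nat_lit 0) (XT.lf (nat_lit 0) (nat_lit 21745952036) (nat_lit 228) (nat_lit 15135032387) (nat_lit 304) (nat_lit 2424250343) (nat_lit 65) (nat_lit 5) (nat_lit 68) (nat_lit 5) (nat_lit 69) (nat_lit 5) (nat_lit 357) (nat_lit 333) (nat_lit 210)) (XT.lf (nat_lit 0) (nat_lit 3066741700) (nat_lit 304) (nat_lit 410452594) (nat_lit 380) (nat_lit 37034393694) (nat_lit 60) (nat_lit 5) (nat_lit 64) (nat_lit 5) (nat_lit 65) (nat_lit 5) (nat_lit 358) (nat_lit 333) (nat_lit 209))))))))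
noncomputable def xc184 : XT := (XT.nd (nat_lit 1716) (nat_lit 1216) (nat_lit 0) (XT.nd (nat_lit 858) (nat_lit 1140) (nat_lit 0) (XT.nd (nat_lit 390) (nat_lit 608) (nat_lit 0) (XT.nd (nat_lit 156) (nat_lit 228) (nat_lit 0) (XT.nd (nat_lit 78) (nat_lit 228) (nat_lit 0) (XT.lf (nat_lit 0) (nat_lit 10125739705) (nat_lit 380) (nat_lit 16714290048) (nat_lit 76) (nat_lit 14909570463) (nat_lit 60) (nat_lit 5) (nat_lit 65) (nat_lit 5) (nat_lit 61) (nat_lit 5) (nat_lit 359) (nat_lit 333) (nat_lit 208)) (XT.lf (nat_lit 0) (nat_lit 5208000600) (nat_lit 228) (nat_lit 11983200630) (nat_lit 304) (nat_lit 25854090621) (nat_lit 57) (nat_lit 5) (nat_lit 60) (nat_lit 5) (nat_lit 61) (nat_lit 5) (nat_lit 360) (nat_lit 333) (nat_lit 207))) (XT.nd (nat_lit 78) (nat_lit 228) (nat_lit 0) (XT.lf (nat_lit 0) (nat_lit 24950629715) (nat_lit 304) (nat_lit 15650863612) (nat_lit 76) (nat_lit 3787243127) (nat_lit 57)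 (nat_lit 5) (nat_lit 61) (nat_lit 5) (nat_lit 58) (nat_lit 5) (nat_lit 361) (nat_lit 333) (nat_lit 206)) (XT.nd (nat_lit 78) (nat_lit 0) (nat_lit 0) (XT.lf (nat_lit 0) (nat_lit 7689963172) (nat_lit 228) (nat_lit 25721265345) (nat_lit 304) (nat_lit 12372467761) (nat_lit 54) (nat_lit 5) (nat_lit 57) (nat_lit 5) (nat_lit 58) (nat_lit 5) (nat_lit 362) (nat_lit 333) (nat_lit 205)) (XT.lf (nat_lit 0) (nat_lit 32736665014) (nat_lit 228) (nat_lit 9820025155) (nat_lit 304) (nat_lit 4678625074) (nat_lit 54) (nat_lit 5) (nat_lit 57) (nat_lit 5) (nat_lit 58) (nat_lit 5) (nat_lit 363) (nat_lit 333) (nat_lit 204))))) (XT.nd (nat_lit 234) (nat_lit 152) (nat_lit 0) (XT.nd (nat_lit 78) (nat_lit 228) (nat_lit 0) (XT.lf (nat_lit 0) (nat_lit 3563697244) (nat_lit 228) (nat_lit 38303127052) (nat_lit 76) (nat_lit 6876408998) (nat_lit 51) (nat_lit 5) (nat_lit 54) (nat_lit 5) (nat_lit 52) (nat_lit 5) (nat_lit 364)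 (nat_lit 333) (nat_lit 203)) (XT.nd (nat_lit 78) (nat_lit 228) (nat_lit 0) (XT.lf (nat_lit 0) (nat_lit 12468393013) (nat_lit 228) (nat_lit 13431299072) (nat_lit 76) (nat_lit 24402648149) (nat_lit 51) (nat_lit 5) (nat_lit 54) (nat_lit 5) (nat_lit 52) (nat_lit 5) (nat_lit 365) (nat_lit 333) (nat_lit 202)) (XT.lf (nat_lit 0) (nat_lit 13099105112) (nat_lit 228) (nat_lit 8920816832) (nat_lit 304) (nat_lit 29909402956) (nat_lit 48) (nat_lit 5) (nat_lit 51) (nat_lit 5) (nat_lit 52) (nat_lit 5) (nat_lit 366) (nat_lit 333) (nat_lit 201)))) (XT.nd (nat_lit 78) (nat_lit 152) (nat_lit 0) (XT.lf (nat_lit 0) (nat_lit 32416421784) (nat_lit 304) (nat_lit 12351066472) (nat_lit 76) (nat_lit 8851803013) (nat_lit 48) (nat_lit 5) (nat_lit 52) (nat_lit 5) (nat_lit 49) (nat_lit 5) (nat_lit 367) (nat_lit 333) (nat_lit 200)) (XT.nd (nat_lit 78) (nat_lit 0) (nat_lit 0) (XT.lf (nat_lit 0) (nat_lit 15807627634) (nat_lit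 152) (nat_lit 27915436297) (nat_lit 228) (nat_lit 11651178245) (nat_lit 46) (nat_lit 5) (nat_lit 48) (nat_lit 5) (nat_lit 49) (nat_lit 5) (nat_lit 368) (nat_lit 333) (nat_lit 199)) (XT.lf (nat_lit 0) (nat_lit 45799007203) (nat_lit 152) (nat_lit 10002541936) (nat_lit 228) (nat_lit 1405067928) (nat_lit 46) (nat_lit 5) (nat_lit 48) (nat_lit 5) (nat_lit 49) (nat_lit 5) (nat_lit 369) (nat_lit 333) (nat_lit 198)))))) (XT.nd (nat_lit 390) (nat_lit 532) (nat_lit 0) (XT.nd (nat_lit 156) (nat_lit 304) (nat_lit 0) (XT.nd (nat_lit 78) (nat_lit 0) (nat_lit 0) (XT.lf (nat_lit 0) (nat_lit 9486499801) (nat_lit 304) (nat_lit 40648697233) (nat_lit 76) (nat_lit 8966487999) (nat_lit 42) (nat_lit 5) (nat_lit 46) (nat_lit 5) (nat_lit 43) (nat_lit 5) (nat_lit 370) (nat_lit 333) (nat_lit 197)) (XT.lf (nat_lit 0) (nat_lit 21233226795) (nat_lit 304) (nat_lit 11073349056) (nat_lit 76) (nat_lit 28765890551) (nat_lit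 42) (nat_lit 5) (nat_lit 46) (nat_lit 5) (nat_lit 43) (nat_lit 5) (nat_lit 371) (nat_lit 333) (nat_lit 196))) (XT.nd (nat_lit 78) (nat_lit 152) (nat_lit 0) (XT.lf (nat_lit 0) (nat_lit 20637498185) (nat_lit 152) (nat_lit 13249585687) (nat_lit 228) (nat_lit 29238714913) (nat_lit 40) (nat_lit 5) (nat_lit 42) (nat_lit 5) (nat_lit 43) (nat_lit 5) (nat_lit 372) (nat_lit 333) (nat_lit 195)) (XT.nd (nat_lit 78) (nat_lit 152) (nat_lit 0) (XT.lf (nat_lit 0) (nat_lit 47467406885) (nat_lit 228) (nat_lit 11066546431) (nat_lit 76) (nat_lit 6733157375) (nat_lit 40) (nat_lit 5) (nat_lit 43) (nat_lit 5) (nat_lit 41) (nat_lit 5) (nat_lit 373) (nat_lit 333) (nat_lit 194)) (XT.lf (nat_lit 0) (nat_lit 22423117569) (nat_lit 152) (nat_lit 39868655595) (nat_lit 228) (nat_lit 5195465154) (nat_lit 38) (nat_lit 5) (nat_lit 40) (nat_lit 5) (nat_lit 41) (nat_lit 5) (nat_lit 374) (nat_lit 333) (nat_lit 193))))) (XT.nd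 (nat_lit 234) (nat_lit 304) (nat_lit 0) (XT.nd (nat_lit 78) (nat_lit 152) (nat_lit 0) (XT.lf (nat_lit 0) (nat_lit 7969924694) (nat_lit 228) (nat_lit 11969782985) (nat_lit 76) (nat_lit 49862978589) (nat_lit 37) (nat_lit 5) (nat_lit 40) (nat_lit 5) (nat_lit 38) (nat_lit 5) (nat_lit 375) (nat_lit 333) (nat_lit 192)) (XT.nd (nat_lit 78) (nat_lit 0) (nat_lit 0) (XT.lf (nat_lit 0) (nat_lit 22005578588) (nat_lit 228) (nat_lit 48793361474) (nat_lit 76) (nat_lit 1411379442) (nat_lit 35) (nat_lit 5) (nat_lit 38) (nat_lit 5) (nat_lit 36) (nat_lit 5) (nat_lit 376) (nat_lit 333) (nat_lit 191)) (XT.lf (nat_lit 0) (nat_lit 37273814995) (nat_lit 228) (nat_lit 14073324801) (nat_lit 76) (nat_lit 23364655836) (nat_lit 35) (nat_lit 5) (nat_lit 38) (nat_lit 5) (nat_lit 36) (nat_lit 5) (nat_lit 377) (nat_lit 333) (nat_lit 190)))) (XT.nd (nat_lit 78) (nat_lit 152) (nat_lit 0) (XT.lf (nat_lit 0) (nat_lit 23119321714)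 (nat_lit 152) (nat_lit 30545081878) (nat_lit 228) (nat_lit 23655996117) (nat_lit 33) (nat_lit 5) (nat_lit 35) (nat_lit 5) (nat_lit 36) (nat_lit 5) (nat_lit 378) (nat_lit 333) (nat_lit 189)) (XT.nd (nat_lit 78) (nat_lit 152) (nat_lit 0) (XT.lf (nat_lit 0) (nat_lit 62656894054) (nat_lit 152) (nat_lit 8453993616) (nat_lit 228) (nat_lit 8936729123) (nat_lit 33) (nat_lit 5) (nat_lit 35) (nat_lit 5) (nat_lit 36) (nat_lit 5) (nat_lit 379) (nat_lit 333) (nat_lit 188)) (XT.lf (nat_lit 0) (nat_lit 6886570743) (nat_lit 152) (nat_lit 61271886149) (nat_lit 76) (nat_lit 14718815126) (nat_lit 31) (nat_lit 5) (nat_lit 33) (nat_lit 5) (nat_lit 32) (nat_lit 5) (nat_lit 380) (nat_lit 333) (nat_lit 187))))))) (XT.nd (nat_lit 858) (nat_lit 456) (nat_lit 0) (XT.nd (nat_lit 390) (nat_lit 456) (nat_lit 0) (XT.nd (nat_lit 156) (nat_lit 152) (nat_lit 0) (XT.nd (nat_lit 78) (nat_lit 152) (nat_lit 0) (XT.lf (nat_lit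 0) (nat_lit 23636752672) (nat_lit 152) (nat_lit 22971769593) (nat_lit 76) (nat_lit 39210761018) (nat_lit 31) (nat_lit 5) (nat_lit 33) (nat_lit 5) (nat_lit 32) (nat_lit 5) (nat_lit 381) (nat_lit 333) (nat_lit 186)) (XT.lf (nat_lit 0) (nat_lit 17810317884) (nat_lit 152) (nat_lit 23690395935) (nat_lit 228) (nat_lit 47393868698) (nat_lit 29) (nat_lit 5) (nat_lit 31) (nat_lit 5) (nat_lit 32) (nat_lit 5) (nat_lit 382) (nat_lit 333) (nat_lit 185))) (XT.nd (nat_lit 78) (nat_lit 152) (nat_lit 0) (XT.lf (nat_lit 0) (nat_lit 60657342025) (nat_lit 228) (nat_lit 30690464103) (nat_lit 76) (nat_lit 755868000) (nat_lit 29) (nat_lit 5) (nat_lit 32) (nat_lit 5) (nat_lit 30) (nat_lit 4) (nat_lit 383) (nat_lit 333) (nat_lit 184)) (XT.nd (nat_lit 78) (nat_lit 76) (nat_lit 0) (XT.lf (nat_lit 0) (nat_lit 11706388457) (nat_lit 76) (nat_lit 69634854415) (nat_lit 152) (nat_lit 14103506212) (nat_lit 28) (nat_lit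 5) (nat_lit 29) (nat_lit 5) (nat_lit 30) (nat_lit 4) (nat_lit 384) (nat_lit 333) (nat_lit 183)) (XT.lf (nat_lit 0) (nat_lit 4501619082) (nat_lit 152) (nat_lit 41713894016) (nat_lit 76) (nat_lit 52707830245) (nat_lit 27) (nat_lit 5) (nat_lit 29) (nat_lit 5) (nat_lit 28) (nat_lit 5) (nat_lit 385) (nat_lit 333) (nat_lit 182))))) (XT.nd (nat_lit 234) (nat_lit 304) (nat_lit 0) (XT.nd (nat_lit 78) (nat_lit 0) (nat_lit 0) (XT.lf (nat_lit 0) (nat_lit 2249781394) (nat_lit 152) (nat_lit 21346766752) (nat_lit 228) (nat_lit 78966083741) (nat_lit 25) (nat_lit 5) (nat_lit 27) (nat_lit 5) (nat_lit 28) (nat_lit 5) (nat_lit 386) (nat_lit 333) (nat_lit 181)) (XT.nd (nat_lit 78) (nat_lit 0) (nat_lit 0) (XT.lf (nat_lit 0) (nat_lit 44437058227) (nat_lit 228) (nat_lit 56577524252) (nat_lit 76) (nat_lit 5329761330) (nat_lit 25) (nat_lit 5) (nat_lit 28) (nat_lit 5) (nat_lit 26) (nat_lit 4) (nat_lit 387) (nat_lit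 333) (nat_lit 180)) (XT.lf (nat_lit 0) (nat_lit 66668023670) (nat_lit 228) (nat_lit 11008075691) (nat_lit 76) (nat_lit 32621621121) (nat_lit 25) (nat_lit 5) (nat_lit 28) (nat_lit 5) (nat_lit 26) (nat_lit 4) (nat_lit 388) (nat_lit 333) (nat_lit 179)))) (XT.nd (nat_lit 78) (nat_lit 228) (nat_lit 0) (XT.lf (nat_lit 0) (nat_lit 38055283459) (nat_lit 76) (nat_lit 52547958657) (nat_lit 152) (nat_lit 23815889252) (nat_lit 24) (nat_lit 5) (nat_lit 25) (nat_lit 5) (nat_lit 26) (nat_lit 4) (nat_lit 389) (nat_lit 333) (nat_lit 178)) (XT.nd (nat_lit 78) (nat_lit 228) (nat_lit 0) (XT.lf (nat_lit 0) (nat_lit 89951458959) (nat_lit 76) (nat_lit 25968774069) (nat_lit 152) (nat_lit 2817129779) (nat_lit 24) (nat_lit 5) (nat_lit 25) (nat_lit 5) (nat_lit 26) (nat_lit 4) (nat_lit 390) (nat_lit 333) (nat_lit 177)) (XT.lf (nat_lit 0) (nat_lit 18991953065) (nat_lit 228) (nat_lit 101722211007) (nat_lit 76) (nat_lit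 2523533562) (nat_lit 21) (nat_lit 5) (nat_lit 24) (nat_lit 5) (nat_lit 22) (nat_lit 4) (nat_lit 391) (nat_lit 333) (nat_lit 176)))))) (XT.nd (nat_lit 468) (nat_lit 228) (nat_lit 0) (XT.nd (nat_lit 234) (nat_lit 152) (nat_lit 0) (XT.nd (nat_lit 78) (nat_lit 76) (nat_lit 0) (XT.lf (nat_lit 0) (nat_lit 42716668808) (nat_lit 228) (nat_lit 53089701811) (nat_lit 76) (nat_lit 32108377327) (nat_lit 21) (nat_lit 5) (nat_lit 24) (nat_lit 5) (nat_lit 22) (nat_lit 4) (nat_lit 392) (nat_lit 333) (nat_lit 175)) (XT.nd (nat_lit 78) (nat_lit 76) (nat_lit 0) (XT.lf (nat_lit 0) (nat_lit 67626325212) (nat_lit 228) (nat_lit 2027913877) (nat_lit 76) (nat_lit 63171476924) (nat_lit 21) (nat_lit 5) (nat_lit 24) (nat_lit 5) (nat_lit 22) (nat_lit 4) (nat_lit 393) (nat_lit 333) (nat_lit 174)) (XT.lf (nat_lit 0) (nat_lit 53290352565) (nat_lit 76) (nat_lit 41321890165) (nat_lit 152) (nat_lit 43328451299) (nat_lit 20)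 (nat_lit 5) (nat_lit 21) (nat_lit 5) (nat_lit 22) (nat_lit 4) (nat_lit 394) (nat_lit 333) (nat_lit 173)))) (XT.nd (nat_lit 78) (nat_lit 152) (nat_lit 0) (XT.lf (nat_lit 0) (nat_lit 111442737996) (nat_lit 76) (nat_lit 11537852782) (nat_lit 152) (nat_lit 20329173873) (nat_lit 20) (nat_lit 5) (nat_lit 21) (nat_lit 5) (nat_lit 22) (nat_lit 4) (nat_lit 395) (nat_lit 333) (nat_lit 172)) (XT.nd (nat_lit 78) (nat_lit 0) (nat_lit 0) (XT.lf (nat_lit 0) (nat_lit 4390860324) (nat_lit 152) (nat_lit 124970232769) (nat_lit 76) (nat_lit 19548561063) (nat_lit 18) (nat_lit 5) (nat_lit 20) (nat_lit 5) (nat_lit 19) (nat_lit 4) (nat_lit 396) (nat_lit 333) (nat_lit 171)) (XT.lf (nat_lit 0) (nat_lit 30400215973) (nat_lit 152) (nat_lit 71653410296) (nat_lit 76) (nat_lit 52682423325) (nat_lit 18) (nat_lit 5) (nat_lit 20) (nat_lit 5) (nat_lit 19) (nat_lit 4) (nat_lit 397) (nat_lit 333) (nat_lit 170))))) (XT.nd (nat_lit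 234) (nat_lit 152) (nat_lit 0) (XT.nd (nat_lit 78) (nat_lit 76) (nat_lit 0) (XT.lf (nat_lit 0) (nat_lit 57708932141) (nat_lit 152) (nat_lit 15672786539) (nat_lit 76) (nat_lit 87472101847) (nat_lit 18) (nat_lit 5) (nat_lit 20) (nat_lit 5) (nat_lit 19) (nat_lit 4) (nat_lit 398) (nat_lit 333) (nat_lit 169)) (XT.nd (nat_lit 78) (nat_lit 0) (nat_lit 0) (XT.lf (nat_lit 0) (nat_lit 44530169212) (nat_lit 76) (nat_lit 42547101106) (nat_lit 152) (nat_lit 80165500722) (nat_lit 17) (nat_lit 5) (nat_lit 18) (nat_lit 5) (nat_lit 19) (nat_lit 4) (nat_lit 399) (nat_lit 333) (nat_lit 168)) (XT.lf (nat_lit 0) (nat_lit 108285485141) (nat_lit 76) (nat_lit 9892932325) (nat_lit 152) (nat_lit 55759532336) (nat_lit 17) (nat_lit 5) (nat_lit 18) (nat_lit 5) (nat_lit 19) (nat_lit 4) (nat_lit 400) (nat_lit 333) (nat_lit 167)))) (XT.nd (nat_lit 78) (nat_lit 152) (nat_lit 0) (XT.lf (nat_lit 0) (nat_lit 151214481856)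 (nat_lit 152) (nat_lit 6122035346) (nat_lit 0) (nat_lit 23612377616) (nat_lit 17) (nat_lit 5) (nat_lit 19) (nat_lit 4) (nat_lit 17) (nat_lit 4) (nat_lit 401) (nat_lit 333) (nat_lit 166)) (XT.nd (nat_lit 78) (nat_lit 76) (nat_lit 0) (XT.lf (nat_lit 0) (nat_lit 58079886867) (nat_lit 76) (nat_lit 128890481181) (nat_lit 76) (nat_lit 1286618405) (nat_lit 16) (nat_lit 4) (nat_lit 17) (nat_lit 5) (nat_lit 17) (nat_lit 4) (nat_lit 402) (nat_lit 333) (nat_lit 165)) (XT.lf (nat_lit 0) (nat_lit 27773144659) (nat_lit 152) (nat_lit 70670591019) (nat_lit 76) (nat_lit 97459212212) (nat_lit 15) (nat_lit 5) (nat_lit 17) (nat_lit 5) (nat_lit 16) (nat_lit 4) (nat_lit 403) (nat_lit 333) (nat_lit 164))))))))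
noncomputable def xc185 : XT := (XT.nd (nat_lit 1716) (nat_lit 0) (nat_lit 0) (XT.nd (nat_lit 858) (nat_lit 304) (nat_lit 0) (XT.nd (nat_lit 390) (nat_lit 152) (nat_lit 0) (XT.nd (nat_lit 156) (nat_lit 76) (nat_lit 0) (XT.nd (nat_lit 78) (nat_lit 76) (nat_lit 0) (XT.lf (nat_lit 0) (nat_lit 58241754300) (nat_lit 152) (nat_lit 8211536301) (nat_lit 76) (nat_lit 137476907588) (nat_lit 15) (nat_lit 5) (nat_lit 17) (nat_lit 5) (nat_lit 16) (nat_lit 4) (nat_lit 404) (nat_lit 333) (nat_lit 163)) (XT.lf (nat_lit 0) (nat_lit 59265738061) (nat_lit 76) (nat_lit 31892500849) (nat_lit 152) (nat_lit 121154350110) (nat_lit 14) (nat_lit 5) (nat_lit 15) (nat_lit 5) (nat_lit 16) (nat_lit 4) (nat_lit 405) (nat_lit 333) (nat_lit 162))) (XT.nd (nat_lit 78) (nat_lit 76) (nat_lit 0) (XT.lf (nat_lit 0) (nat_lit 125929677848) (nat_lit 152) (nat_lit 90777714529) (nat_lit 0) (nat_lit 4396250745) (nat_lit 14) (nat_lit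 5) (nat_lit 16) (nat_lit 4) (nat_lit 14) (nat_lit 4) (nat_lit 406) (nat_lit 333) (nat_lit 161)) (XT.nd (nat_lit 78) (nat_lit 76) (nat_lit 0) (XT.lf (nat_lit 0) (nat_lit 162961702302) (nat_lit 152) (nat_lit 25919484216) (nat_lit 0) (nat_lit 41426962952) (nat_lit 14) (nat_lit 5) (nat_lit 16) (nat_lit 4) (nat_lit 14) (nat_lit 4) (nat_lit 407) (nat_lit 333) (nat_lit 160)) (XT.lf (nat_lit 0) (nat_lit 43574863412) (nat_lit 76) (nat_lit 158950014767) (nat_lit 76) (nat_lit 37414025659) (nat_lit 13) (nat_lit 4) (nat_lit 14) (nat_lit 5) (nat_lit 14) (nat_lit 4) (nat_lit 408) (nat_lit 333) (nat_lit 159))))) (XT.nd (nat_lit 234) (nat_lit 0) (nat_lit 0) (XT.nd (nat_lit 78) (nat_lit 152) (nat_lit 0) (XT.lf (nat_lit 0) (nat_lit 117442356008) (nat_lit 76) (nat_lit 127062054786) (nat_lit 76) (nat_lit 5524875432) (nat_lit 13) (nat_lit 4) (nat_lit 14) (nat_lit 5) (nat_lit 14) (nat_lit 4) (nat_lit 409) (nat_lit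 333) (nat_lit 158)) (XT.nd (nat_lit 78) (nat_lit 76) (nat_lit 0) (XT.lf (nat_lit 0) (nat_lit 27063141378) (nat_lit 152) (nat_lit 66058873097) (nat_lit 76) (nat_lit 167480384577) (nat_lit 12) (nat_lit 5) (nat_lit 14) (nat_lit 5) (nat_lit 13) (nat_lit 4) (nat_lit 410) (nat_lit 333) (nat_lit 157)) (XT.lf (nat_lit 0) (nat_lit 3826147744) (nat_lit 76) (nat_lit 57327774331) (nat_lit 152) (nat_lit 210542765277) (nat_lit 11) (nat_lit 5) (nat_lit 12) (nat_lit 5) (nat_lit 13) (nat_lit 4) (nat_lit 411) (nat_lit 333) (nat_lit 156)))) (XT.nd (nat_lit 78) (nat_lit 0) (nat_lit 0) (XT.lf (nat_lit 0) (nat_lit 79497527926) (nat_lit 76) (nat_lit 18569764081) (nat_lit 152) (nat_lit 185222495713) (nat_lit 11) (nat_lit 5) (nat_lit 12) (nat_lit 5) (nat_lit 13) (nat_lit 4) (nat_lit 412) (nat_lit 333) (nat_lit 155)) (XT.nd (nat_lit 78) (nat_lit 0) (nat_lit 0) (XT.lf (nat_lit 0) (nat_lit 137171116428) (nat_lit 152)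 (nat_lit 136856785309) (nat_lit 0) (nat_lit 21417402229) (nat_lit 11) (nat_lit 5) (nat_lit 13) (nat_lit 4) (nat_lit 11) (nat_lit 4) (nat_lit 413) (nat_lit 333) (nat_lit 154)) (XT.lf (nat_lit 0) (nat_lit 178533920939) (nat_lit 152) (nat_lit 66880167232) (nat_lit 0) (nat_lit 62779318559) (nat_lit 11) (nat_lit 5) (nat_lit 13) (nat_lit 4) (nat_lit 11) (nat_lit 4) (nat_lit 414) (nat_lit 333) (nat_lit 153)))))) (XT.nd (nat_lit 390) (nat_lit 152) (nat_lit 0) (XT.nd (nat_lit 156) (nat_lit 76) (nat_lit 0) (XT.nd (nat_lit 78) (nat_lit 0) (nat_lit 0) (XT.lf (nat_lit 0) (nat_lit 6812163256) (nat_lit 76) (nat_lit 215258456052) (nat_lit 76) (nat_lit 99503007786) (nat_lit 10) (nat_lit 4) (nat_lit 11) (nat_lit 5) (nat_lit 11) (nat_lit 4) (nat_lit 415) (nat_lit 333) (nat_lit 152)) (XT.lf (nat_lit 0) (nat_lit 86509906951) (nat_lit 76) (nat_lit 182406301372) (nat_lit 76) (nat_lit 66650047501) (nat_lit 10)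 (nat_lit 4) (nat_lit 11) (nat_lit 5) (nat_lit 11) (nat_lit 4) (nat_lit 416) (nat_lit 333) (nat_lit 151))) (XT.nd (nat_lit 78) (nat_lit 76) (nat_lit 0) (XT.lf (nat_lit 0) (nat_lit 170191460016) (nat_lit 76) (nat_lit 147912052712) (nat_lit 76) (nat_lit 32155031597) (nat_lit 10) (nat_lit 4) (nat_lit 11) (nat_lit 5) (nat_lit 11) (nat_lit 4) (nat_lit 417) (nat_lit 333) (nat_lit 150)) (XT.nd (nat_lit 78) (nat_lit 0) (nat_lit 0) (XT.lf (nat_lit 0) (nat_lit 3934092065) (nat_lit 152) (nat_lit 107692863088) (nat_lit 76) (nat_lit 254055346425) (nat_lit 9) (nat_lit 5) (nat_lit 11) (nat_lit 5) (nat_lit 10) (nat_lit 4) (nat_lit 418) (nat_lit 333) (nat_lit 149)) (XT.lf (nat_lit 0) (nat_lit 40746531875) (nat_lit 152) (nat_lit 32228057390) (nat_lit 76) (nat_lit 308876326963) (nat_lit 9) (nat_lit 5) (nat_lit 11) (nat_lit 5) (nat_lit 10) (nat_lit 4) (nat_lit 419) (nat_lit 333) (nat_lit 148))))) (XT.nd (nat_lit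 234) (nat_lit 76) (nat_lit 0) (XT.nd (nat_lit 78) (nat_lit 0) (nat_lit 0) (XT.lf (nat_lit 0) (nat_lit 48563372245) (nat_lit 76) (nat_lit 31593936414) (nat_lit 152) (nat_lit 318632767307) (nat_lit 8) (nat_lit 5) (nat_lit 9) (nat_lit 5) (nat_lit 10) (nat_lit 4) (nat_lit 420) (nat_lit 333) (nat_lit 147)) (XT.nd (nat_lit 78) (nat_lit 0) (nat_lit 0) (XT.lf (nat_lit 0) (nat_lit 122277977721) (nat_lit 152) (nat_lit 282230643751) (nat_lit 0) (nat_lit 12030604652) (nat_lit 8) (nat_lit 5) (nat_lit 10) (nat_lit 4) (nat_lit 8) (nat_lit 4) (nat_lit 421) (nat_lit 333) (nat_lit 146)) (XT.lf (nat_lit 0) (nat_lit 167022143824) (nat_lit 152) (nat_lit 211353618655) (nat_lit 0) (nat_lit 56774198226) (nat_lit 8) (nat_lit 5) (nat_lit 10) (nat_lit 4) (nat_lit 8) (nat_lit 4) (nat_lit 422) (nat_lit 333) (nat_lit 145)))) (XT.nd (nat_lit 78) (nat_lit 76) (nat_lit 0) (XT.lf (nat_lit 0) (nat_lit 214003070809) (nat_lit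 152) (nat_lit 136933603722) (nat_lit 0) (nat_lit 103754579946) (nat_lit 8) (nat_lit 5) (nat_lit 10) (nat_lit 4) (nat_lit 8) (nat_lit 4) (nat_lit 423) (nat_lit 333) (nat_lit 144)) (XT.nd (nat_lit 78) (nat_lit 76) (nat_lit 0) (XT.lf (nat_lit 0) (nat_lit 263332618027) (nat_lit 152) (nat_lit 58793408442) (nat_lit 0) (nat_lit 153083607864) (nat_lit 8) (nat_lit 5) (nat_lit 10) (nat_lit 4) (nat_lit 8) (nat_lit 4) (nat_lit 424) (nat_lit 333) (nat_lit 143)) (XT.lf (nat_lit 0) (nat_lit 24021864967) (nat_lit 76) (nat_lit 291481420446) (nat_lit 76) (nat_lit 181231915711) (nat_lit 7) (nat_lit 4) (nat_lit 8) (nat_lit 5) (nat_lit 8) (nat_lit 4) (nat_lit 425) (nat_lit 333) (nat_lit 142))))))) (XT.nd (nat_lit 40404) (nat_lit 0) (nat_lit 4940) (XT.nd (nat_lit 39936) (nat_lit 0) (nat_lit 6840) (XT.nd (nat_lit 39702) (nat_lit 0) (nat_lit 7600) (XT.nd (nat_lit 78) (nat_lit 0) (nat_lit 0) (XT.lf (nat_lit 0)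 (nat_lit 113018307699) (nat_lit 76) (nat_lit 258259474787) (nat_lit 76) (nat_lit 148009499031) (nat_lit 7) (nat_lit 4) (nat_lit 8) (nat_lit 5) (nat_lit 8) (nat_lit 4) (nat_lit 426) (nat_lit 333) (nat_lit 141)) (XT.lf (nat_lit 0) (nat_lit 206463840444) (nat_lit 76) (nat_lit 223376784443) (nat_lit 76) (nat_lit 113126360096) (nat_lit 7) (nat_lit 4) (nat_lit 8) (nat_lit 5) (nat_lit 8) (nat_lit 4) (nat_lit 427) (nat_lit 333) (nat_lit 140))) (XT.nd (nat_lit 78) (nat_lit 0) (nat_lit 0) (XT.lf (nat_lit 0) (nat_lit 5147977175) (nat_lit 0) (nat_lit 5147977175) (nat_lit 684) (nat_lit 464668951) (nat_lit 107) (nat_lit 5) (nat_lit 107) (nat_lit 3) (nat_lit 116) (nat_lit 3) (nat_lit 334) (nat_lit 334) (nat_lit 232)) (XT.nd (nat_lit 78) (nat_lit 0) (nat_lit 0) (XT.lf (nat_lit 0) (nat_lit 20912051412) (nat_lit 0) (nat_lit 329619425) (nat_lit 684) (nat_lit 810678950) (nat_lit 107) (nat_lit 5) (nat_lit 107)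 (nat_lit 3) (nat_lit 116) (nat_lit 3) (nat_lit 335) (nat_lit 334) (nat_lit 231)) (XT.lf (nat_lit 76) (nat_lit 9592911388) (nat_lit 0) (nat_lit 12630446216) (nat_lit 760) (nat_lit 371690208) (nat_lit 108) (nat_lit 5) (nat_lit 107) (nat_lit 5) (nat_lit 117) (nat_lit 5) (nat_lit 336) (nat_lit 334) (nat_lit 230))))) (XT.nd (nat_lit 234) (nat_lit 0) (nat_lit 152) (XT.nd (nat_lit 78) (nat_lit 0) (nat_lit 76) (XT.lf (nat_lit 0) (nat_lit 103039524) (nat_lit 760) (nat_lit 2273698877) (nat_lit 836) (nat_lit 20787250700) (nat_lit 97) (nat_lit 5) (nat_lit 107) (nat_lit 5) (nat_lit 108) (nat_lit 5) (nat_lit 337) (nat_lit 334) (nat_lit 229)) (XT.nd (nat_lit 78) (nat_lit 0) (nat_lit 0) (XT.lf (nat_lit 0) (nat_lit 859383216) (nat_lit 760) (nat_lit 14610554792) (nat_lit 836) (nat_lit 8277626290) (nat_lit 98) (nat_lit 5) (nat_lit 108) (nat_lit 5) (nat_lit 109) (nat_lit 5) (nat_lit 338) (nat_lit 334) (nat_lit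 228)) (XT.lf (nat_lit 0) (nat_lit 1724012649) (nat_lit 760) (nat_lit 3205958524) (nat_lit 836) (nat_lit 19426833118) (nat_lit 98) (nat_lit 5) (nat_lit 108) (nat_lit 5) (nat_lit 109) (nat_lit 5) (nat_lit 339) (nat_lit 334) (nat_lit 227)))) (XT.nd (nat_lit 78) (nat_lit 0) (nat_lit 0) (XT.lf (nat_lit 0) (nat_lit 2864128887) (nat_lit 760) (nat_lit 16034253917) (nat_lit 836) (nat_lit 6086519731) (nat_lit 99) (nat_lit 5) (nat_lit 109) (nat_lit 5) (nat_lit 110) (nat_lit 5) (nat_lit 340) (nat_lit 334) (nat_lit 226)) (XT.nd (nat_lit 78) (nat_lit 0) (nat_lit 76) (XT.lf (nat_lit 0) (nat_lit 4190290601) (nat_lit 760) (nat_lit 3902239969) (nat_lit 836) (nat_lit 17545431723) (nat_lit 99) (nat_lit 5) (nat_lit 109) (nat_lit 5) (nat_lit 110) (nat_lit 5) (nat_lit 341) (nat_lit 334) (nat_lit 225)) (XT.lf (nat_lit 0) (nat_lit 5771728742) (nat_lit 760) (nat_lit 17246651701) (nat_lit 836) (nat_lit 3295854358)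 (nat_lit 100) (nat_lit 5) (nat_lit 110) (nat_lit 5) (nat_lit 111) (nat_lit 5) (nat_lit 342) (nat_lit 334) (nat_lit 224)))))) (XT.nd (nat_lit 468) (nat_lit 1064) (nat_lit 0) (XT.nd (nat_lit 234) (nat_lit 1064) (nat_lit 0) (XT.nd (nat_lit 78) (nat_lit 0) (nat_lit 0) (XT.lf (nat_lit 0) (nat_lit 7625703120) (nat_lit 760) (nat_lit 4338641040) (nat_lit 836) (nat_lit 15050311345) (nat_lit 100) (nat_lit 5) (nat_lit 110) (nat_lit 5) (nat_lit 111) (nat_lit 5) (nat_lit 343) (nat_lit 334) (nat_lit 223)) (XT.nd (nat_lit 78) (nat_lit 0) (nat_lit 76) (XT.lf (nat_lit 76) (nat_lit 9514285873) (nat_lit 0) (nat_lit 200568527) (nat_lit 836) (nat_lit 18028126354) (nat_lit 101) (nat_lit 5) (nat_lit 100) (nat_lit 5) (nat_lit 111) (nat_lit 5) (nat_lit 344) (nat_lit 334) (nat_lit 222)) (XT.lf (nat_lit 0) (nat_lit 12167022278) (nat_lit 760) (nat_lit 4489717905) (nat_lit 76) (nat_lit 11838061193) (nat_lit 101) (nat_lit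 5) (nat_lit 111) (nat_lit 5) (nat_lit 102) (nat_lit 5) (nat_lit 345) (nat_lit 334) (nat_lit 221)))) (XT.nd (nat_lit 78) (nat_lit 380) (nat_lit 0) (XT.lf (nat_lit 0) (nat_lit 10256196970) (nat_lit 760) (nat_lit 4643455817) (nat_lit 836) (nat_lit 14376674259) (nat_lit 91) (nat_lit 5) (nat_lit 101) (nat_lit 5) (nat_lit 102) (nat_lit 5) (nat_lit 346) (nat_lit 334) (nat_lit 220)) (XT.nd (nat_lit 78) (nat_lit 380) (nat_lit 0) (XT.lf (nat_lit 0) (nat_lit 17965272415) (nat_lit 836) (nat_lit 4328722262) (nat_lit 76) (nat_lit 7793122850) (nat_lit 91) (nat_lit 5) (nat_lit 102) (nat_lit 5) (nat_lit 92) (nat_lit 5) (nat_lit 347) (nat_lit 334) (nat_lit 219)) (XT.lf (nat_lit 0) (nat_lit 11380438551) (nat_lit 380) (nat_lit 10052426604) (nat_lit 456) (nat_lit 9493153873) (nat_lit 86) (nat_lit 5) (nat_lit 91) (nat_lit 5) (nat_lit 92) (nat_lit 5) (nat_lit 348) (nat_lit 334) (nat_lit 218))))) (XT.nd (nat_lit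 234) (nat_lit 684) (nat_lit 0) (XT.nd (nat_lit 78) (nat_lit 380) (nat_lit 0) (XT.lf (nat_lit 0) (nat_lit 25187141350) (nat_lit 456) (nat_lit 3827910811) (nat_lit 76) (nat_lit 2786154064) (nat_lit 86) (nat_lit 5) (nat_lit 92) (nat_lit 5) (nat_lit 87) (nat_lit 5) (nat_lit 349) (nat_lit 334) (nat_lit 217)) (XT.nd (nat_lit 78) (nat_lit 76) (nat_lit 0) (XT.lf (nat_lit 0) (nat_lit 12919481259) (nat_lit 304) (nat_lit 16571446740) (nat_lit 380) (nat_lit 3211140485) (nat_lit 82) (nat_lit 5) (nat_lit 86) (nat_lit 5) (nat_lit 87) (nat_lit 5) (nat_lit 350) (nat_lit 334) (nat_lit 216)) (XT.lf (nat_lit 0) (nat_lit 411599307) (nat_lit 380) (nat_lit 3019257674) (nat_lit 76) (nat_lit 30213776699) (nat_lit 81) (nat_lit 5) (nat_lit 86) (nat_lit 5) (nat_lit 82) (nat_lit 5) (nat_lit 351) (nat_lit 334) (nat_lit 215)))) (XT.nd (nat_lit 78) (nat_lit 304) (nat_lit 0) (XT.lf (nat_lit 0) (nat_lit 4503969795) (nat_lit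 456) (nat_lit 19781620490) (nat_lit 76) (nat_lit 10326289094) (nat_lit 76) (nat_lit 5) (nat_lit 82) (nat_lit 5) (nat_lit 77) (nat_lit 5) (nat_lit 352) (nat_lit 334) (nat_lit 214)) (XT.nd (nat_lit 78) (nat_lit 304) (nat_lit 0) (XT.lf (nat_lit 0) (nat_lit 8904889178) (nat_lit 456) (nat_lit 2009791518) (nat_lit 76) (nat_lit 24707614703) (nat_lit 76) (nat_lit 5) (nat_lit 82) (nat_lit 5) (nat_lit 77) (nat_lit 5) (nat_lit 353) (nat_lit 334) (nat_lit 213)) (XT.lf (nat_lit 0) (nat_lit 13843437928) (nat_lit 380) (nat_lit 19526795702) (nat_lit 76) (nat_lit 3297123757) (nat_lit 72) (nat_lit 5) (nat_lit 77) (nat_lit 5) (nat_lit 73) (nat_lit 5) (nat_lit 354) (nat_lit 334) (nat_lit 212))))))))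
noncomputable def xc186 : XT := (XT.nd (nat_lit 1716) (nat_lit 1444) (nat_lit 0) (XT.nd (nat_lit 858) (nat_lit 1064) (nat_lit 0) (XT.nd (nat_lit 390) (nat_lit 684) (nat_lit 0) (XT.nd (nat_lit 156) (nat_lit 608) (nat_lit 0) (XT.nd (nat_lit 78) (nat_lit 304) (nat_lit 0) (XT.lf (nat_lit 0) (nat_lit 19238472159) (nat_lit 380) (nat_lit 628989085) (nat_lit 76) (nat_lit 17886737458) (nat_lit 72) (nat_lit 5) (nat_lit 77) (nat_lit 5) (nat_lit 73) (nat_lit 5) (nat_lit 355) (nat_lit 334) (nat_lit 211)) (XT.lf (nat_lit 0) (nat_lit 19844337004) (nat_lit 304) (nat_lit 5364969745) (nat_lit 380) (nat_lit 13670776836) (nat_lit 68) (nat_lit 5) (nat_lit 72) (nat_lit 5) (nat_lit 73) (nat_lit 5) (nat_lit 356) (nat_lit 334) (nat_lit 210))) (XT.nd (nat_lit 78) (nat_lit 380) (nat_lit 0) (XT.lf (nat_lit 0) (nat_lit 1180444024) (nat_lit 228) (nat_lit 30477800866) (nat_lit 304) (nat_lit 8395043476) (nat_lit 65) (nat_lit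 5) (nat_lit 68) (nat_lit 5) (nat_lit 69) (nat_lit 5) (nat_lit 357) (nat_lit 334) (nat_lit 209)) (XT.nd (nat_lit 78) (nat_lit 380) (nat_lit 0) (XT.lf (nat_lit 0) (nat_lit 22972922629) (nat_lit 228) (nat_lit 15862044302) (nat_lit 304) (nat_lit 2429923175) (nat_lit 65) (nat_lit 5) (nat_lit 68) (nat_lit 5) (nat_lit 69) (nat_lit 5) (nat_lit 358) (nat_lit 334) (nat_lit 208)) (XT.lf (nat_lit 0) (nat_lit 3361240157) (nat_lit 304) (nat_lit 398533677) (nat_lit 380) (nat_lit 38771858031) (nat_lit 60) (nat_lit 5) (nat_lit 64) (nat_lit 5) (nat_lit 65) (nat_lit 5) (nat_lit 359) (nat_lit 334) (nat_lit 207))))) (XT.nd (nat_lit 234) (nat_lit 456) (nat_lit 0) (XT.nd (nat_lit 78) (nat_lit 228) (nat_lit 0) (XT.lf (nat_lit 0) (nat_lit 10736051764) (nat_lit 380) (nat_lit 17410775606) (nat_lit 76) (nat_lit 15684956811) (nat_lit 60) (nat_lit 5) (nat_lit 65) (nat_lit 5) (nat_lit 61) (nat_lit 5) (nat_lit 360) (nat_lit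 334) (nat_lit 206)) (XT.nd (nat_lit 78) (nat_lit 0) (nat_lit 0) (XT.lf (nat_lit 0) (nat_lit 5605383946) (nat_lit 228) (nat_lit 12546587538) (nat_lit 304) (nat_lit 27040434171) (nat_lit 57) (nat_lit 5) (nat_lit 60) (nat_lit 5) (nat_lit 61) (nat_lit 5) (nat_lit 361) (nat_lit 334) (nat_lit 205)) (XT.lf (nat_lit 0) (nat_lit 26295083783) (nat_lit 304) (nat_lit 16298572901) (nat_lit 76) (nat_lit 4009584484) (nat_lit 57) (nat_lit 5) (nat_lit 61) (nat_lit 5) (nat_lit 58) (nat_lit 5) (nat_lit 362) (nat_lit 334) (nat_lit 204)))) (XT.nd (nat_lit 78) (nat_lit 228) (nat_lit 0) (XT.lf (nat_lit 0) (nat_lit 8207120482) (nat_lit 228) (nat_lit 26969047862) (nat_lit 304) (nat_lit 12891911941) (nat_lit 54) (nat_lit 5) (nat_lit 57) (nat_lit 5) (nat_lit 58) (nat_lit 5) (nat_lit 363) (nat_lit 334) (nat_lit 203)) (XT.nd (nat_lit 78) (nat_lit 228) (nat_lit 0) (XT.lf (nat_lit 0) (nat_lit 34499840313) (nat_lit 228)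 (nat_lit 10274568557) (nat_lit 304) (nat_lit 4818099939) (nat_lit 54) (nat_lit 5) (nat_lit 57) (nat_lit 5) (nat_lit 58) (nat_lit 5) (nat_lit 364) (nat_lit 334) (nat_lit 202)) (XT.lf (nat_lit 0) (nat_lit 3831547381) (nat_lit 228) (nat_lit 40087005233) (nat_lit 76) (nat_lit 7257288345) (nat_lit 51) (nat_lit 5) (nat_lit 54) (nat_lit 5) (nat_lit 52) (nat_lit 5) (nat_lit 365) (nat_lit 334) (nat_lit 201)))))) (XT.nd (nat_lit 390) (nat_lit 684) (nat_lit 0) (XT.nd (nat_lit 156) (nat_lit 152) (nat_lit 0) (XT.nd (nat_lit 78) (nat_lit 228) (nat_lit 0) (XT.lf (nat_lit 0) (nat_lit 13177208163) (nat_lit 228) (nat_lit 13977837196) (nat_lit 76) (nat_lit 25658074743) (nat_lit 51) (nat_lit 5) (nat_lit 54) (nat_lit 5) (nat_lit 52) (nat_lit 5) (nat_lit 366) (nat_lit 334) (nat_lit 200)) (XT.lf (nat_lit 0) (nat_lit 13877070636) (nat_lit 228) (nat_lit 9327096988) (nat_lit 304) (nat_lit 31317396883) (nat_lit 48)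 (nat_lit 5) (nat_lit 51) (nat_lit 5) (nat_lit 52) (nat_lit 5) (nat_lit 367) (nat_lit 334) (nat_lit 199))) (XT.nd (nat_lit 78) (nat_lit 152) (nat_lit 0) (XT.lf (nat_lit 0) (nat_lit 34117119405) (nat_lit 304) (nat_lit 12848033004) (nat_lit 76) (nat_lit 9331048492) (nat_lit 48) (nat_lit 5) (nat_lit 52) (nat_lit 5) (nat_lit 49) (nat_lit 5) (nat_lit 368) (nat_lit 334) (nat_lit 198)) (XT.nd (nat_lit 78) (nat_lit 0) (nat_lit 0) (XT.lf (nat_lit 0) (nat_lit 16716650859) (nat_lit 152) (nat_lit 29270491487) (nat_lit 228) (nat_lit 12151857483) (nat_lit 46) (nat_lit 5) (nat_lit 48) (nat_lit 5) (nat_lit 49) (nat_lit 5) (nat_lit 369) (nat_lit 334) (nat_lit 197)) (XT.lf (nat_lit 0) (nat_lit 48201949794) (nat_lit 152) (nat_lit 10463891295) (nat_lit 228) (nat_lit 1397340682) (nat_lit 46) (nat_lit 5) (nat_lit 48) (nat_lit 5) (nat_lit 49) (nat_lit 5) (nat_lit 370) (nat_lit 334) (nat_lit 196))))) (XT.nd (nat_lit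 234) (nat_lit 228) (nat_lit 0) (XT.nd (nat_lit 78) (nat_lit 152) (nat_lit 0) (XT.lf (nat_lit 0) (nat_lit 10035114577) (nat_lit 304) (nat_lit 42564345952) (nat_lit 76) (nat_lit 9453543995) (nat_lit 42) (nat_lit 5) (nat_lit 46) (nat_lit 5) (nat_lit 43) (nat_lit 5) (nat_lit 371) (nat_lit 334) (nat_lit 195)) (XT.nd (nat_lit 78) (nat_lit 152) (nat_lit 0) (XT.lf (nat_lit 0) (nat_lit 22365640312) (nat_lit 304) (nat_lit 11515791611) (nat_lit 76) (nat_lit 30241072313) (nat_lit 42) (nat_lit 5) (nat_lit 46) (nat_lit 5) (nat_lit 43) (nat_lit 5) (nat_lit 372) (nat_lit 334) (nat_lit 194)) (XT.lf (nat_lit 0) (nat_lit 21778804042) (nat_lit 152) (nat_lit 13871725573) (nat_lit 228) (nat_lit 30628058934) (nat_lit 40) (nat_lit 5) (nat_lit 42) (nat_lit 5) (nat_lit 43) (nat_lit 5) (nat_lit 373) (nat_lit 334) (nat_lit 193)))) (XT.nd (nat_lit 78) (nat_lit 228) (nat_lit 0) (XT.lf (nat_lit 0) (nat_lit 49907178525)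 (nat_lit 228) (nat_lit 11512920123) (nat_lit 76) (nat_lit 7107004087) (nat_lit 40) (nat_lit 5) (nat_lit 43) (nat_lit 5) (nat_lit 41) (nat_lit 5) (nat_lit 374) (nat_lit 334) (nat_lit 192)) (XT.nd (nat_lit 78) (nat_lit 76) (nat_lit 0) (XT.lf (nat_lit 0) (nat_lit 23649502019) (nat_lit 152) (nat_lit 41821742047) (nat_lit 228) (nat_lit 5387070699) (nat_lit 38) (nat_lit 5) (nat_lit 40) (nat_lit 5) (nat_lit 41) (nat_lit 5) (nat_lit 375) (nat_lit 334) (nat_lit 191)) (XT.lf (nat_lit 0) (nat_lit 8431264662) (nat_lit 228) (nat_lit 12465939036) (nat_lit 76) (nat_lit 52392437183) (nat_lit 37) (nat_lit 5) (nat_lit 40) (nat_lit 5) (nat_lit 38) (nat_lit 5) (nat_lit 376) (nat_lit 334) (nat_lit 190))))))) (XT.nd (nat_lit 858) (nat_lit 532) (nat_lit 0) (XT.nd (nat_lit 390) (nat_lit 456) (nat_lit 0) (XT.nd (nat_lit 156) (nat_lit 304) (nat_lit 0) (XT.nd (nat_lit 78) (nat_lit 0) (nat_lit 0) (XT.lf (nat_lit 0)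 (nat_lit 23167893580) (nat_lit 228) (nat_lit 51129853052) (nat_lit 76) (nat_lit 1519951319) (nat_lit 35) (nat_lit 5) (nat_lit 38) (nat_lit 5) (nat_lit 36) (nat_lit 5) (nat_lit 377) (nat_lit 334) (nat_lit 189)) (XT.lf (nat_lit 0) (nat_lit 39196587708) (nat_lit 228) (nat_lit 14678727712) (nat_lit 76) (nat_lit 24569081870) (nat_lit 35) (nat_lit 5) (nat_lit 38) (nat_lit 5) (nat_lit 36) (nat_lit 5) (nat_lit 378) (nat_lit 334) (nat_lit 188))) (XT.nd (nat_lit 78) (nat_lit 152) (nat_lit 0) (XT.lf (nat_lit 0) (nat_lit 24371966236) (nat_lit 152) (nat_lit 32033435494) (nat_lit 228) (nat_lit 24778096661) (nat_lit 33) (nat_lit 5) (nat_lit 35) (nat_lit 5) (nat_lit 36) (nat_lit 5) (nat_lit 379) (nat_lit 334) (nat_lit 187)) (XT.nd (nat_lit 78) (nat_lit 152) (nat_lit 0) (XT.lf (nat_lit 0) (nat_lit 65881813458) (nat_lit 152) (nat_lit 8839645222) (nat_lit 228) (nat_lit 9325756759) (nat_lit 33) (nat_lit 5)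 (nat_lit 35) (nat_lit 5) (nat_lit 36) (nat_lit 5) (nat_lit 380) (nat_lit 334) (nat_lit 186)) (XT.lf (nat_lit 0) (nat_lit 7286225025) (nat_lit 152) (nat_lit 64240865295) (nat_lit 76) (nat_lit 15491251019) (nat_lit 31) (nat_lit 5) (nat_lit 33) (nat_lit 5) (nat_lit 32) (nat_lit 5) (nat_lit 381) (nat_lit 334) (nat_lit 185))))) (XT.nd (nat_lit 234) (nat_lit 304) (nat_lit 0) (XT.nd (nat_lit 78) (nat_lit 152) (nat_lit 0) (XT.lf (nat_lit 0) (nat_lit 24871281492) (nat_lit 152) (nat_lit 24030248395) (nat_lit 76) (nat_lit 41206056343) (nat_lit 31) (nat_lit 5) (nat_lit 33) (nat_lit 5) (nat_lit 32) (nat_lit 5) (nat_lit 382) (nat_lit 334) (nat_lit 184)) (XT.nd (nat_lit 78) (nat_lit 0) (nat_lit 0) (XT.lf (nat_lit 0) (nat_lit 18789490074) (nat_lit 152) (nat_lit 24837825690) (nat_lit 228) (nat_lit 49709392176) (nat_lit 29) (nat_lit 5) (nat_lit 31) (nat_lit 5) (nat_lit 32) (nat_lit 5) (nat_lit 383) (nat_lit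 334) (nat_lit 183)) (XT.lf (nat_lit 0) (nat_lit 63739871350) (nat_lit 228) (nat_lit 32138624528) (nat_lit 76) (nat_lit 827854665) (nat_lit 29) (nat_lit 5) (nat_lit 32) (nat_lit 5) (nat_lit 30) (nat_lit 4) (nat_lit 384) (nat_lit 334) (nat_lit 182)))) (XT.nd (nat_lit 78) (nat_lit 228) (nat_lit 0) (XT.lf (nat_lit 0) (nat_lit 12376677712) (nat_lit 76) (nat_lit 73080251276) (nat_lit 152) (nat_lit 14757603321) (nat_lit 28) (nat_lit 5) (nat_lit 29) (nat_lit 5) (nat_lit 30) (nat_lit 4) (nat_lit 385) (nat_lit 334) (nat_lit 181)) (XT.nd (nat_lit 78) (nat_lit 152) (nat_lit 0) (XT.lf (nat_lit 0) (nat_lit 4773788969) (nat_lit 152) (nat_lit 43717087205) (nat_lit 76) (nat_lit 55376259001) (nat_lit 27) (nat_lit 5) (nat_lit 29) (nat_lit 5) (nat_lit 28) (nat_lit 5) (nat_lit 386) (nat_lit 334) (nat_lit 180)) (XT.lf (nat_lit 0) (nat_lit 2443441305) (nat_lit 152) (nat_lit 22379048155) (nat_lit 228) (nat_lit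 82865948432) (nat_lit 25) (nat_lit 5) (nat_lit 27) (nat_lit 5) (nat_lit 28) (nat_lit 5) (nat_lit 387) (nat_lit 334) (nat_lit 179)))))) (XT.nd (nat_lit 468) (nat_lit 228) (nat_lit 0) (XT.nd (nat_lit 234) (nat_lit 228) (nat_lit 0) (XT.nd (nat_lit 78) (nat_lit 76) (nat_lit 0) (XT.lf (nat_lit 0) (nat_lit 46703350419) (nat_lit 228) (nat_lit 59327401328) (nat_lit 76) (nat_lit 5628568343) (nat_lit 25) (nat_lit 5) (nat_lit 28) (nat_lit 5) (nat_lit 26) (nat_lit 4) (nat_lit 388) (nat_lit 334) (nat_lit 178)) (XT.nd (nat_lit 78) (nat_lit 76) (nat_lit 0) (XT.lf (nat_lit 0) (nat_lit 70043747977) (nat_lit 228) (nat_lit 11483242202) (nat_lit 76) (nat_lit 34283482126) (nat_lit 25) (nat_lit 5) (nat_lit 28) (nat_lit 5) (nat_lit 26) (nat_lit 4) (nat_lit 389) (nat_lit 334) (nat_lit 177)) (XT.lf (nat_lit 0) (nat_lit 40032071401) (nat_lit 76) (nat_lit 55142796276) (nat_lit 152) (nat_lit 24963129901) (nat_lit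 24) (nat_lit 5) (nat_lit 25) (nat_lit 5) (nat_lit 26) (nat_lit 4) (nat_lit 390) (nat_lit 334) (nat_lit 176)))) (XT.nd (nat_lit 78) (nat_lit 228) (nat_lit 0) (XT.lf (nat_lit 0) (nat_lit 94519530735) (nat_lit 76) (nat_lit 27236202950) (nat_lit 152) (nat_lit 2916506445) (nat_lit 24) (nat_lit 5) (nat_lit 25) (nat_lit 5) (nat_lit 26) (nat_lit 4) (nat_lit 391) (nat_lit 334) (nat_lit 175)) (XT.nd (nat_lit 78) (nat_lit 0) (nat_lit 0) (XT.lf (nat_lit 0) (nat_lit 19981383779) (nat_lit 228) (nat_lit 106736145536) (nat_lit 76) (nat_lit 2680046702) (nat_lit 21) (nat_lit 5) (nat_lit 24) (nat_lit 5) (nat_lit 22) (nat_lit 4) (nat_lit 392) (nat_lit 334) (nat_lit 174)) (XT.lf (nat_lit 0) (nat_lit 44890438497) (nat_lit 228) (nat_lit 55675447833) (nat_lit 76) (nat_lit 33742688062) (nat_lit 21) (nat_lit 5) (nat_lit 24) (nat_lit 5) (nat_lit 22) (nat_lit 4) (nat_lit 393) (nat_lit 334) (nat_lit 173))))) (XT.nd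 (nat_lit 234) (nat_lit 152) (nat_lit 0) (XT.nd (nat_lit 78) (nat_lit 76) (nat_lit 0) (XT.lf (nat_lit 0) (nat_lit 71043771233) (nat_lit 228) (nat_lit 2063843792) (nat_lit 76) (nat_lit 66357566836) (nat_lit 21) (nat_lit 5) (nat_lit 24) (nat_lit 5) (nat_lit 22) (nat_lit 4) (nat_lit 394) (nat_lit 334) (nat_lit 172)) (XT.nd (nat_lit 78) (nat_lit 0) (nat_lit 0) (XT.lf (nat_lit 0) (nat_lit 56019280073) (nat_lit 76) (nat_lit 43358989708) (nat_lit 152) (nat_lit 45457675380) (nat_lit 20) (nat_lit 5) (nat_lit 21) (nat_lit 5) (nat_lit 22) (nat_lit 4) (nat_lit 395) (nat_lit 334) (nat_lit 171)) (XT.lf (nat_lit 0) (nat_lit 117076217638) (nat_lit 76) (nat_lit 12087131168) (nat_lit 152) (nat_lit 21310205439) (nat_lit 20) (nat_lit 5) (nat_lit 21) (nat_lit 5) (nat_lit 22) (nat_lit 4) (nat_lit 396) (nat_lit 334) (nat_lit 170)))) (XT.nd (nat_lit 78) (nat_lit 0) (nat_lit 0) (XT.lf (nat_lit 0) (nat_lit 4644458426)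 (nat_lit 152) (nat_lit 131156006914) (nat_lit 76) (nat_lit 20552957693) (nat_lit 18) (nat_lit 5) (nat_lit 20) (nat_lit 5) (nat_lit 19) (nat_lit 4) (nat_lit 397) (nat_lit 334) (nat_lit 169)) (XT.nd (nat_lit 78) (nat_lit 0) (nat_lit 0) (XT.lf (nat_lit 0) (nat_lit 31952660186) (nat_lit 152) (nat_lit 75176330817) (nat_lit 76) (nat_lit 55342228850) (nat_lit 18) (nat_lit 5) (nat_lit 20) (nat_lit 5) (nat_lit 19) (nat_lit 4) (nat_lit 398) (nat_lit 334) (nat_lit 168)) (XT.lf (nat_lit 0) (nat_lit 60625267714) (nat_lit 152) (nat_lit 16399521110) (nat_lit 76) (nat_lit 91870168234) (nat_lit 18) (nat_lit 5) (nat_lit 20) (nat_lit 5) (nat_lit 19) (nat_lit 4) (nat_lit 399) (nat_lit 334) (nat_lit 167))))))))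
noncomputable def xc187 : XT := (XT.nd (nat_lit 1716) (nat_lit 76) (nat_lit 0) (XT.nd (nat_lit 858) (nat_lit 380) (nat_lit 0) (XT.nd (nat_lit 390) (nat_lit 152) (nat_lit 0) (XT.nd (nat_lit 156) (nat_lit 152) (nat_lit 0) (XT.nd (nat_lit 78) (nat_lit 0) (nat_lit 0) (XT.lf (nat_lit 0) (nat_lit 46812664611) (nat_lit 76) (nat_lit 44648761399) (nat_lit 152) (nat_lit 84141959404) (nat_lit 17) (nat_lit 5) (nat_lit 18) (nat_lit 5) (nat_lit 19) (nat_lit 4) (nat_lit 400) (nat_lit 334) (nat_lit 166)) (XT.lf (nat_lit 0) (nat_lit 113753080291) (nat_lit 76) (nat_lit 10363107740) (nat_lit 152) (nat_lit 58517207663) (nat_lit 17) (nat_lit 5) (nat_lit 18) (nat_lit 5) (nat_lit 19) (nat_lit 4) (nat_lit 401) (nat_lit 334) (nat_lit 165))) (XT.nd (nat_lit 78) (nat_lit 152) (nat_lit 0) (XT.lf (nat_lit 0) (nat_lit 158803045716) (nat_lit 152) (nat_lit 6376336707) (nat_lit 0) (nat_lit 24815556469) (nat_lit 17) (nat_lit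 5) (nat_lit 19) (nat_lit 4) (nat_lit 17) (nat_lit 4) (nat_lit 402) (nat_lit 334) (nat_lit 164)) (XT.nd (nat_lit 78) (nat_lit 76) (nat_lit 0) (XT.lf (nat_lit 0) (nat_lit 61034846127) (nat_lit 76) (nat_lit 135311350093) (nat_lit 76) (nat_lit 1322265801) (nat_lit 16) (nat_lit 4) (nat_lit 17) (nat_lit 5) (nat_lit 17) (nat_lit 4) (nat_lit 403) (nat_lit 334) (nat_lit 163)) (XT.lf (nat_lit 0) (nat_lit 29188245199) (nat_lit 152) (nat_lit 74154700722) (nat_lit 76) (nat_lit 102353819702) (nat_lit 15) (nat_lit 5) (nat_lit 17) (nat_lit 5) (nat_lit 16) (nat_lit 4) (nat_lit 404) (nat_lit 334) (nat_lit 162))))) (XT.nd (nat_lit 234) (nat_lit 76) (nat_lit 0) (XT.nd (nat_lit 78) (nat_lit 76) (nat_lit 0) (XT.lf (nat_lit 0) (nat_lit 61179026116) (nat_lit 152) (nat_lit 8575046593) (nat_lit 76) (nat_lit 144371369043) (nat_lit 15) (nat_lit 5) (nat_lit 17) (nat_lit 5) (nat_lit 16) (nat_lit 4) (nat_lit 405) (nat_lit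 334) (nat_lit 161)) (XT.nd (nat_lit 78) (nat_lit 0) (nat_lit 0) (XT.lf (nat_lit 0) (nat_lit 62275332350) (nat_lit 76) (nat_lit 33465526353) (nat_lit 152) (nat_lit 127186117576) (nat_lit 14) (nat_lit 5) (nat_lit 15) (nat_lit 5) (nat_lit 16) (nat_lit 4) (nat_lit 406) (nat_lit 334) (nat_lit 160)) (XT.lf (nat_lit 0) (nat_lit 132250014193) (nat_lit 152) (nat_lit 95271636114) (nat_lit 0) (nat_lit 4635975871) (nat_lit 14) (nat_lit 5) (nat_lit 16) (nat_lit 4) (nat_lit 14) (nat_lit 4) (nat_lit 407) (nat_lit 334) (nat_lit 159)))) (XT.nd (nat_lit 78) (nat_lit 76) (nat_lit 0) (XT.lf (nat_lit 0) (nat_lit 171132504039) (nat_lit 152) (nat_lit 27172635435) (nat_lit 0) (nat_lit 43517275470) (nat_lit 14) (nat_lit 5) (nat_lit 16) (nat_lit 4) (nat_lit 14) (nat_lit 4) (nat_lit 408) (nat_lit 334) (nat_lit 158)) (XT.nd (nat_lit 78) (nat_lit 0) (nat_lit 0) (XT.lf (nat_lit 0) (nat_lit 45795738881) (nat_lit 76)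 (nat_lit 166877675888) (nat_lit 76) (nat_lit 39261313751) (nat_lit 13) (nat_lit 4) (nat_lit 14) (nat_lit 5) (nat_lit 14) (nat_lit 4) (nat_lit 409) (nat_lit 334) (nat_lit 157)) (XT.lf (nat_lit 0) (nat_lit 123354599807) (nat_lit 76) (nat_lit 133396262652) (nat_lit 76) (nat_lit 5778820927) (nat_lit 13) (nat_lit 4) (nat_lit 14) (nat_lit 5) (nat_lit 14) (nat_lit 4) (nat_lit 410) (nat_lit 334) (nat_lit 156)))))) (XT.nd (nat_lit 390) (nat_lit 228) (nat_lit 0) (XT.nd (nat_lit 156) (nat_lit 0) (nat_lit 0) (XT.nd (nat_lit 78) (nat_lit 76) (nat_lit 0) (XT.lf (nat_lit 0) (nat_lit 28436855201) (nat_lit 152) (nat_lit 69322916741) (nat_lit 76) (nat_lit 175871714150) (nat_lit 12) (nat_lit 5) (nat_lit 14) (nat_lit 5) (nat_lit 13) (nat_lit 4) (nat_lit 411) (nat_lit 334) (nat_lit 155)) (XT.lf (nat_lit 0) (nat_lit 4055727722) (nat_lit 76) (nat_lit 60176065860) (nat_lit 152) (nat_lit 221048714533) (nat_lit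 11) (nat_lit 5) (nat_lit 12) (nat_lit 5) (nat_lit 13) (nat_lit 4) (nat_lit 412) (nat_lit 334) (nat_lit 154))) (XT.nd (nat_lit 78) (nat_lit 0) (nat_lit 0) (XT.lf (nat_lit 0) (nat_lit 83508854410) (nat_lit 76) (nat_lit 19481016869) (nat_lit 152) (nat_lit 194463440492) (nat_lit 11) (nat_lit 5) (nat_lit 12) (nat_lit 5) (nat_lit 13) (nat_lit 4) (nat_lit 413) (nat_lit 334) (nat_lit 153)) (XT.nd (nat_lit 78) (nat_lit 0) (nat_lit 0) (XT.lf (nat_lit 0) (nat_lit 144048228215) (nat_lit 152) (nat_lit 143664247117) (nat_lit 0) (nat_lit 22504161650) (nat_lit 11) (nat_lit 5) (nat_lit 13) (nat_lit 4) (nat_lit 11) (nat_lit 4) (nat_lit 414) (nat_lit 334) (nat_lit 152)) (XT.lf (nat_lit 0) (nat_lit 187478289334) (nat_lit 152) (nat_lit 70190482777) (nat_lit 0) (nat_lit 65933417164) (nat_lit 11) (nat_lit 5) (nat_lit 13) (nat_lit 4) (nat_lit 11) (nat_lit 4) (nat_lit 415) (nat_lit 334) (nat_lit 151))))) (XT.nd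 (nat_lit 234) (nat_lit 152) (nat_lit 0) (XT.nd (nat_lit 78) (nat_lit 0) (nat_lit 0) (XT.lf (nat_lit 0) (nat_lit 7185920803) (nat_lit 76) (nat_lit 226005577833) (nat_lit 76) (nat_lit 104459938419) (nat_lit 10) (nat_lit 4) (nat_lit 11) (nat_lit 5) (nat_lit 11) (nat_lit 4) (nat_lit 416) (nat_lit 334) (nat_lit 150)) (XT.nd (nat_lit 78) (nat_lit 0) (nat_lit 0) (XT.lf (nat_lit 0) (nat_lit 90866973141) (nat_lit 76) (nat_lit 191511567849) (nat_lit 76) (nat_lit 69965197727) (nat_lit 10) (nat_lit 4) (nat_lit 11) (nat_lit 5) (nat_lit 11) (nat_lit 4) (nat_lit 417) (nat_lit 334) (nat_lit 149)) (XT.lf (nat_lit 0) (nat_lit 178731100485) (nat_lit 76) (nat_lit 155293323355) (nat_lit 76) (nat_lit 33746257321) (nat_lit 10) (nat_lit 4) (nat_lit 11) (nat_lit 5) (nat_lit 11) (nat_lit 4) (nat_lit 418) (nat_lit 334) (nat_lit 148)))) (XT.nd (nat_lit 78) (nat_lit 76) (nat_lit 0) (XT.lf (nat_lit 0) (nat_lit 4146031836)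 (nat_lit 152) (nat_lit 113048363543) (nat_lit 76) (nat_lit 266771256248) (nat_lit 9) (nat_lit 5) (nat_lit 11) (nat_lit 5) (nat_lit 10) (nat_lit 4) (nat_lit 419) (nat_lit 334) (nat_lit 147)) (XT.nd (nat_lit 78) (nat_lit 76) (nat_lit 0) (XT.lf (nat_lit 0) (nat_lit 42798368152) (nat_lit 152) (nat_lit 33811705308) (nat_lit 76) (nat_lit 324332659979) (nat_lit 9) (nat_lit 5) (nat_lit 11) (nat_lit 5) (nat_lit 10) (nat_lit 4) (nat_lit 420) (nat_lit 334) (nat_lit 146)) (XT.lf (nat_lit 0) (nat_lit 51018848149) (nat_lit 76) (nat_lit 33160571034) (nat_lit 152) (nat_lit 334549445362) (nat_lit 8) (nat_lit 5) (nat_lit 9) (nat_lit 5) (nat_lit 10) (nat_lit 4) (nat_lit 421) (nat_lit 334) (nat_lit 145))))))) (XT.nd (nat_lit 40482) (nat_lit 0) (nat_lit 5700) (XT.nd (nat_lit 390) (nat_lit 0) (nat_lit 0) (XT.nd (nat_lit 156) (nat_lit 76) (nat_lit 0) (XT.nd (nat_lit 78) (nat_lit 0) (nat_lit 0) (XT.lf (nat_lit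 0) (nat_lit 128405637584) (nat_lit 152) (nat_lit 296315682058) (nat_lit 0) (nat_lit 12644176913) (nat_lit 8) (nat_lit 5) (nat_lit 10) (nat_lit 4) (nat_lit 8) (nat_lit 4) (nat_lit 422) (nat_lit 334) (nat_lit 144)) (XT.lf (nat_lit 0) (nat_lit 175386356708) (nat_lit 152) (nat_lit 221896067320) (nat_lit 0) (nat_lit 59624376736) (nat_lit 8) (nat_lit 5) (nat_lit 10) (nat_lit 4) (nat_lit 8) (nat_lit 4) (nat_lit 423) (nat_lit 334) (nat_lit 143))) (XT.nd (nat_lit 78) (nat_lit 76) (nat_lit 0) (XT.lf (nat_lit 0) (nat_lit 224715705962) (nat_lit 152) (nat_lit 143756253178) (nat_lit 0) (nat_lit 108953231418) (nat_lit 8) (nat_lit 5) (nat_lit 10) (nat_lit 4) (nat_lit 8) (nat_lit 4) (nat_lit 424) (nat_lit 334) (nat_lit 142)) (XT.nd (nat_lit 78) (nat_lit 76) (nat_lit 0) (XT.lf (nat_lit 0) (nat_lit 276511136179) (nat_lit 152) (nat_lit 61710192454) (nat_lit 0) (nat_lit 160748190614) (nat_lit 8) (nat_lit 5)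 (nat_lit 10) (nat_lit 4) (nat_lit 8) (nat_lit 4) (nat_lit 425) (nat_lit 334) (nat_lit 141)) (XT.lf (nat_lit 0) (nat_lit 25245475490) (nat_lit 76) (nat_lit 306044646942) (nat_lit 76) (nat_lit 190281252786) (nat_lit 7) (nat_lit 4) (nat_lit 8) (nat_lit 5) (nat_lit 8) (nat_lit 4) (nat_lit 426) (nat_lit 334) (nat_lit 140))))) (XT.nd (nat_lit 39858) (nat_lit 0) (nat_lit 6840) (XT.nd (nat_lit 39702) (nat_lit 0) (nat_lit 7600) (XT.lf (nat_lit 0) (nat_lit 118690668108) (nat_lit 76) (nat_lit 271162120406) (nat_lit 76) (nat_lit 155398299020) (nat_lit 7) (nat_lit 4) (nat_lit 8) (nat_lit 5) (nat_lit 8) (nat_lit 4) (nat_lit 427) (nat_lit 334) (nat_lit 139)) (XT.nd (nat_lit 78) (nat_lit 0) (nat_lit 0) (XT.lf (nat_lit 0) (nat_lit 5471804657) (nat_lit 0) (nat_lit 5471804657) (nat_lit 684) (nat_lit 348225336) (nat_lit 107) (nat_lit 5) (nat_lit 107) (nat_lit 3) (nat_lit 116) (nat_lit 3) (nat_lit 335) (nat_lit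 335) (nat_lit 230)) (XT.lf (nat_lit 0) (nat_lit 22084184695) (nat_lit 0) (nat_lit 472631108) (nat_lit 684) (nat_lit 585161349) (nat_lit 107) (nat_lit 5) (nat_lit 107) (nat_lit 3) (nat_lit 116) (nat_lit 3) (nat_lit 336) (nat_lit 335) (nat_lit 229)))) (XT.nd (nat_lit 78) (nat_lit 760) (nat_lit 0) (XT.lf (nat_lit 76) (nat_lit 10211771094) (nat_lit 0) (nat_lit 13364057366) (nat_lit 760) (nat_lit 136585592) (nat_lit 108) (nat_lit 5) (nat_lit 107) (nat_lit 5) (nat_lit 117) (nat_lit 5) (nat_lit 337) (nat_lit 335) (nat_lit 228)) (XT.nd (nat_lit 78) (nat_lit 0) (nat_lit 76) (XT.lf (nat_lit 0) (nat_lit 342067206) (nat_lit 760) (nat_lit 2246774783) (nat_lit 836) (nat_lit 21721361624) (nat_lit 97) (nat_lit 5) (nat_lit 107) (nat_lit 5) (nat_lit 108) (nat_lit 5) (nat_lit 338) (nat_lit 335) (nat_lit 227)) (XT.lf (nat_lit 0) (nat_lit 1125899631) (nat_lit 760) (nat_lit 15189867748) (nat_lit 836) (nat_lit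 8607720475) (nat_lit 98) (nat_lit 5) (nat_lit 108) (nat_lit 5) (nat_lit 109) (nat_lit 5) (nat_lit 339) (nat_lit 335) (nat_lit 226)))))) (XT.nd (nat_lit 468) (nat_lit 1216) (nat_lit 0) (XT.nd (nat_lit 234) (nat_lit 0) (nat_lit 152) (XT.nd (nat_lit 78) (nat_lit 0) (nat_lit 76) (XT.lf (nat_lit 0) (nat_lit 2023115429) (nat_lit 760) (nat_lit 3222242372) (nat_lit 836) (nat_lit 20318377509) (nat_lit 98) (nat_lit 5) (nat_lit 108) (nat_lit 5) (nat_lit 109) (nat_lit 5) (nat_lit 340) (nat_lit 335) (nat_lit 225)) (XT.nd (nat_lit 78) (nat_lit 0) (nat_lit 0) (XT.lf (nat_lit 0) (nat_lit 3211323424) (nat_lit 760) (nat_lit 16682786966) (nat_lit 836) (nat_lit 6329586352) (nat_lit 99) (nat_lit 5) (nat_lit 109) (nat_lit 5) (nat_lit 110) (nat_lit 5) (nat_lit 341) (nat_lit 335) (nat_lit 224)) (XT.lf (nat_lit 0) (nat_lit 4594079506) (nat_lit 760) (nat_lit 3951466589) (nat_lit 836) (nat_lit 18364361057) (nat_lit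 99) (nat_lit 5) (nat_lit 109) (nat_lit 5) (nat_lit 110) (nat_lit 5) (nat_lit 342) (nat_lit 335) (nat_lit 223)))) (XT.nd (nat_lit 78) (nat_lit 0) (nat_lit 0) (XT.lf (nat_lit 0) (nat_lit 6246896560) (nat_lit 760) (nat_lit 17955177784) (nat_lit 836) (nat_lit 3418314997) (nat_lit 100) (nat_lit 5) (nat_lit 110) (nat_lit 5) (nat_lit 111) (nat_lit 5) (nat_lit 343) (nat_lit 335) (nat_lit 222)) (XT.nd (nat_lit 78) (nat_lit 0) (nat_lit 0) (XT.lf (nat_lit 0) (nat_lit 8184684830) (nat_lit 760) (nat_lit 4409090709) (nat_lit 836) (nat_lit 15762510646) (nat_lit 100) (nat_lit 5) (nat_lit 110) (nat_lit 5) (nat_lit 111) (nat_lit 5) (nat_lit 344) (nat_lit 335) (nat_lit 221)) (XT.lf (nat_lit 76) (nat_lit 10134119930) (nat_lit 0) (nat_lit 237962116) (nat_lit 836) (nat_lit 18749266577) (nat_lit 101) (nat_lit 5) (nat_lit 100) (nat_lit 5) (nat_lit 111) (nat_lit 5) (nat_lit 345) (nat_lit 335) (nat_lit 220)))))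 (XT.nd (nat_lit 234) (nat_lit 684) (nat_lit 0) (XT.nd (nat_lit 78) (nat_lit 760) (nat_lit 0) (XT.lf (nat_lit 0) (nat_lit 12938285467) (nat_lit 760) (nat_lit 4568176964) (nat_lit 76) (nat_lit 12404736341) (nat_lit 101) (nat_lit 5) (nat_lit 111) (nat_lit 5) (nat_lit 102) (nat_lit 5) (nat_lit 346) (nat_lit 335) (nat_lit 219)) (XT.nd (nat_lit 78) (nat_lit 0) (nat_lit 0) (XT.lf (nat_lit 0) (nat_lit 10912678383) (nat_lit 760) (nat_lit 4889354517) (nat_lit 836) (nat_lit 14930052941) (nat_lit 91) (nat_lit 5) (nat_lit 101) (nat_lit 5) (nat_lit 102) (nat_lit 5) (nat_lit 347) (nat_lit 335) (nat_lit 218)) (XT.lf (nat_lit 0) (nat_lit 19013234296) (nat_lit 836) (nat_lit 4400450354) (nat_lit 76) (nat_lit 8170125093) (nat_lit 91) (nat_lit 5) (nat_lit 102) (nat_lit 5) (nat_lit 92) (nat_lit 5) (nat_lit 348) (nat_lit 335) (nat_lit 217)))) (XT.nd (nat_lit 78) (nat_lit 304) (nat_lit 0) (XT.lf (nat_lit 0) (nat_lit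 12091834500) (nat_lit 380) (nat_lit 10557466542) (nat_lit 456) (nat_lit 9815609071) (nat_lit 86) (nat_lit 5) (nat_lit 91) (nat_lit 5) (nat_lit 92) (nat_lit 5) (nat_lit 349) (nat_lit 335) (nat_lit 216)) (XT.nd (nat_lit 78) (nat_lit 304) (nat_lit 0) (XT.lf (nat_lit 0) (nat_lit 26584360196) (nat_lit 456) (nat_lit 3876619068) (nat_lit 76) (nat_lit 2923232055) (nat_lit 86) (nat_lit 5) (nat_lit 92) (nat_lit 5) (nat_lit 87) (nat_lit 5) (nat_lit 350) (nat_lit 335) (nat_lit 215)) (XT.lf (nat_lit 0) (nat_lit 13705841198) (nat_lit 304) (nat_lit 17393121950) (nat_lit 380) (nat_lit 3231379915) (nat_lit 82) (nat_lit 5) (nat_lit 86) (nat_lit 5) (nat_lit 87) (nat_lit 5) (nat_lit 351) (nat_lit 335) (nat_lit 214))))))))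
noncomputable def xc188 : XT := (XT.nd (nat_lit 1716) (nat_lit 1672) (nat_lit 0) (XT.nd (nat_lit 858) (nat_lit 1140) (nat_lit 0) (XT.nd (nat_lit 390) (nat_lit 1140) (nat_lit 0) (XT.nd (nat_lit 156) (nat_lit 304) (nat_lit 0) (XT.nd (nat_lit 78) (nat_lit 380) (nat_lit 0) (XT.lf (nat_lit 0) (nat_lit 561537897) (nat_lit 380) (nat_lit 3032102490) (nat_lit 76) (nat_lit 31726616993) (nat_lit 81) (nat_lit 5) (nat_lit 86) (nat_lit 5) (nat_lit 82) (nat_lit 5) (nat_lit 352) (nat_lit 335) (nat_lit 213)) (XT.lf (nat_lit 0) (nat_lit 4854653632) (nat_lit 456) (nat_lit 20628576787) (nat_lit 76) (nat_lit 10852835279) (nat_lit 76) (nat_lit 5) (nat_lit 82) (nat_lit 5) (nat_lit 77) (nat_lit 5) (nat_lit 353) (nat_lit 335) (nat_lit 212))) (XT.nd (nat_lit 78) (nat_lit 304) (nat_lit 0) (XT.lf (nat_lit 0) (nat_lit 9469643492) (nat_lit 456) (nat_lit 1974924210) (nat_lit 76) (nat_lit 25952739943) (nat_lit 76) (nat_lit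 5) (nat_lit 82) (nat_lit 5) (nat_lit 77) (nat_lit 5) (nat_lit 354) (nat_lit 335) (nat_lit 211)) (XT.nd (nat_lit 78) (nat_lit 0) (nat_lit 0) (XT.lf (nat_lit 0) (nat_lit 14651777669) (nat_lit 380) (nat_lit 20364315611) (nat_lit 76) (nat_lit 3478702602) (nat_lit 72) (nat_lit 5) (nat_lit 77) (nat_lit 5) (nat_lit 73) (nat_lit 5) (nat_lit 355) (nat_lit 335) (nat_lit 210)) (XT.lf (nat_lit 0) (nat_lit 20311031809) (nat_lit 380) (nat_lit 528229133) (nat_lit 76) (nat_lit 18797000672) (nat_lit 72) (nat_lit 5) (nat_lit 77) (nat_lit 5) (nat_lit 73) (nat_lit 5) (nat_lit 356) (nat_lit 335) (nat_lit 209))))) (XT.nd (nat_lit 234) (nat_lit 608) (nat_lit 0) (XT.nd (nat_lit 78) (nat_lit 228) (nat_lit 0) (XT.lf (nat_lit 0) (nat_lit 20966630851) (nat_lit 304) (nat_lit 5610539761) (nat_lit 380) (nat_lit 14241437492) (nat_lit 68) (nat_lit 5) (nat_lit 72) (nat_lit 5) (nat_lit 73) (nat_lit 5) (nat_lit 357) (nat_lit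 335) (nat_lit 208)) (XT.nd (nat_lit 78) (nat_lit 0) (nat_lit 0) (XT.lf (nat_lit 0) (nat_lit 1372488122) (nat_lit 228) (nat_lit 31973367382) (nat_lit 304) (nat_lit 8704757854) (nat_lit 65) (nat_lit 5) (nat_lit 68) (nat_lit 5) (nat_lit 69) (nat_lit 5) (nat_lit 358) (nat_lit 335) (nat_lit 207)) (XT.lf (nat_lit 0) (nat_lit 24248256281) (nat_lit 228) (nat_lit 16628171728) (nat_lit 304) (nat_lit 2446621433) (nat_lit 65) (nat_lit 5) (nat_lit 68) (nat_lit 5) (nat_lit 69) (nat_lit 5) (nat_lit 359) (nat_lit 335) (nat_lit 206)))) (XT.nd (nat_lit 78) (nat_lit 228) (nat_lit 0) (XT.lf (nat_lit 0) (nat_lit 3657339689) (nat_lit 304) (nat_lit 389034921) (nat_lit 380) (nat_lit 40606817964) (nat_lit 60) (nat_lit 5) (nat_lit 64) (nat_lit 5) (nat_lit 65) (nat_lit 5) (nat_lit 360) (nat_lit 335) (nat_lit 205)) (XT.nd (nat_lit 78) (nat_lit 228) (nat_lit 0) (XT.lf (nat_lit 0) (nat_lit 11367208161) (nat_lit 380)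 (nat_lit 18155029630) (nat_lit 76) (nat_lit 16496331929) (nat_lit 60) (nat_lit 5) (nat_lit 65) (nat_lit 5) (nat_lit 61) (nat_lit 5) (nat_lit 361) (nat_lit 335) (nat_lit 204)) (XT.lf (nat_lit 0) (nat_lit 6009901049) (nat_lit 228) (nat_lit 13141469637) (nat_lit 304) (nat_lit 28295983334) (nat_lit 57) (nat_lit 5) (nat_lit 60) (nat_lit 5) (nat_lit 61) (nat_lit 5) (nat_lit 362) (nat_lit 335) (nat_lit 203)))))) (XT.nd (nat_lit 390) (nat_lit 684) (nat_lit 0) (XT.nd (nat_lit 156) (nat_lit 228) (nat_lit 0) (XT.nd (nat_lit 78) (nat_lit 228) (nat_lit 0) (XT.lf (nat_lit 0) (nat_lit 27697749611) (nat_lit 304) (nat_lit 16991203231) (nat_lit 76) (nat_lit 4239976815) (nat_lit 57) (nat_lit 5) (nat_lit 61) (nat_lit 5) (nat_lit 58) (nat_lit 5) (nat_lit 363) (nat_lit 335) (nat_lit 202)) (XT.lf (nat_lit 0) (nat_lit 8737802267) (nat_lit 228) (nat_lit 28282778487) (nat_lit 304) (nat_lit 13446549073) (nat_lit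 54) (nat_lit 5) (nat_lit 57) (nat_lit 5) (nat_lit 58) (nat_lit 5) (nat_lit 364) (nat_lit 335) (nat_lit 201))) (XT.nd (nat_lit 78) (nat_lit 228) (nat_lit 0) (XT.lf (nat_lit 0) (nat_lit 36339428292) (nat_lit 228) (nat_lit 10755228634) (nat_lit 304) (nat_lit 4973330208) (nat_lit 54) (nat_lit 5) (nat_lit 57) (nat_lit 5) (nat_lit 58) (nat_lit 5) (nat_lit 365) (nat_lit 335) (nat_lit 200)) (XT.nd (nat_lit 78) (nat_lit 0) (nat_lit 0) (XT.lf (nat_lit 0) (nat_lit 4104453798) (nat_lit 228) (nat_lit 41972282323) (nat_lit 76) (nat_lit 7653766274) (nat_lit 51) (nat_lit 5) (nat_lit 54) (nat_lit 5) (nat_lit 52) (nat_lit 5) (nat_lit 366) (nat_lit 335) (nat_lit 199)) (XT.lf (nat_lit 0) (nat_lit 13913524807) (nat_lit 228) (nat_lit 14563326035) (nat_lit 76) (nat_lit 26972991349) (nat_lit 51) (nat_lit 5) (nat_lit 54) (nat_lit 5) (nat_lit 52) (nat_lit 5) (nat_lit 367) (nat_lit 335) (nat_lit 198))))) (XT.nd (nat_lit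 234) (nat_lit 304) (nat_lit 0) (XT.nd (nat_lit 78) (nat_lit 152) (nat_lit 0) (XT.lf (nat_lit 0) (nat_lit 14682498107) (nat_lit 228) (nat_lit 9757387724) (nat_lit 304) (nat_lit 32803923216) (nat_lit 48) (nat_lit 5) (nat_lit 51) (nat_lit 5) (nat_lit 52) (nat_lit 5) (nat_lit 368) (nat_lit 335) (nat_lit 197)) (XT.nd (nat_lit 78) (nat_lit 152) (nat_lit 0) (XT.lf (nat_lit 0) (nat_lit 35895425744) (nat_lit 304) (nat_lit 13381058880) (nat_lit 76) (nat_lit 9830848381) (nat_lit 48) (nat_lit 5) (nat_lit 52) (nat_lit 5) (nat_lit 49) (nat_lit 5) (nat_lit 369) (nat_lit 335) (nat_lit 196)) (XT.lf (nat_lit 0) (nat_lit 17660095051) (nat_lit 152) (nat_lit 30697084883) (nat_lit 228) (nat_lit 12685183078) (nat_lit 46) (nat_lit 5) (nat_lit 48) (nat_lit 5) (nat_lit 49) (nat_lit 5) (nat_lit 370) (nat_lit 335) (nat_lit 195)))) (XT.nd (nat_lit 78) (nat_lit 304) (nat_lit 0) (XT.lf (nat_lit 0) (nat_lit 50714534569)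 (nat_lit 152) (nat_lit 10951913309) (nat_lit 228) (nat_lit 1396476975) (nat_lit 46) (nat_lit 5) (nat_lit 48) (nat_lit 5) (nat_lit 49) (nat_lit 5) (nat_lit 371) (nat_lit 335) (nat_lit 194)) (XT.nd (nat_lit 78) (nat_lit 0) (nat_lit 0) (XT.lf (nat_lit 0) (nat_lit 10604253333) (nat_lit 304) (nat_lit 44586634776) (nat_lit 76) (nat_lit 9961351895) (nat_lit 42) (nat_lit 5) (nat_lit 46) (nat_lit 5) (nat_lit 43) (nat_lit 5) (nat_lit 372) (nat_lit 335) (nat_lit 193)) (XT.lf (nat_lit 0) (nat_lit 23548096638) (nat_lit 304) (nat_lit 11990696930) (nat_lit 76) (nat_lit 31786583738) (nat_lit 42) (nat_lit 5) (nat_lit 46) (nat_lit 5) (nat_lit 43) (nat_lit 5) (nat_lit 373) (nat_lit 335) (nat_lit 192))))))) (XT.nd (nat_lit 858) (nat_lit 684) (nat_lit 0) (XT.nd (nat_lit 390) (nat_lit 456) (nat_lit 0) (XT.nd (nat_lit 156) (nat_lit 380) (nat_lit 0) (XT.nd (nat_lit 78) (nat_lit 0) (nat_lit 0) (XT.lf (nat_lit 0)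 (nat_lit 22967001340) (nat_lit 152) (nat_lit 14528722829) (nat_lit 228) (nat_lit 32093619047) (nat_lit 40) (nat_lit 5) (nat_lit 42) (nat_lit 5) (nat_lit 43) (nat_lit 5) (nat_lit 374) (nat_lit 335) (nat_lit 191)) (XT.lf (nat_lit 0) (nat_lit 52462765385) (nat_lit 228) (nat_lit 11991556034) (nat_lit 76) (nat_lit 7496085668) (nat_lit 40) (nat_lit 5) (nat_lit 43) (nat_lit 5) (nat_lit 41) (nat_lit 5) (nat_lit 375) (nat_lit 335) (nat_lit 190))) (XT.nd (nat_lit 78) (nat_lit 228) (nat_lit 0) (XT.lf (nat_lit 0) (nat_lit 24927422536) (nat_lit 152) (nat_lit 43876233839) (nat_lit 228) (nat_lit 5594594109) (nat_lit 38) (nat_lit 5) (nat_lit 40) (nat_lit 5) (nat_lit 41) (nat_lit 5) (nat_lit 376) (nat_lit 335) (nat_lit 189)) (XT.nd (nat_lit 78) (nat_lit 152) (nat_lit 0) (XT.lf (nat_lit 0) (nat_lit 8909829014) (nat_lit 228) (nat_lit 12996416852) (nat_lit 76) (nat_lit 55044992979) (nat_lit 37) (nat_lit 5)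 (nat_lit 40) (nat_lit 5) (nat_lit 38) (nat_lit 5) (nat_lit 377) (nat_lit 335) (nat_lit 188)) (XT.lf (nat_lit 0) (nat_lit 24382556796) (nat_lit 228) (nat_lit 53592761581) (nat_lit 76) (nat_lit 1630418639) (nat_lit 35) (nat_lit 5) (nat_lit 38) (nat_lit 5) (nat_lit 36) (nat_lit 5) (nat_lit 378) (nat_lit 335) (nat_lit 187))))) (XT.nd (nat_lit 234) (nat_lit 304) (nat_lit 0) (XT.nd (nat_lit 78) (nat_lit 152) (nat_lit 0) (XT.lf (nat_lit 0) (nat_lit 41210006177) (nat_lit 228) (nat_lit 15323536361) (nat_lit 76) (nat_lit 25830364301) (nat_lit 35) (nat_lit 5) (nat_lit 38) (nat_lit 5) (nat_lit 36) (nat_lit 5) (nat_lit 379) (nat_lit 335) (nat_lit 186)) (XT.nd (nat_lit 78) (nat_lit 0) (nat_lit 0) (XT.lf (nat_lit 0) (nat_lit 25678254740) (nat_lit 152) (nat_lit 33599823387) (nat_lit 228) (nat_lit 25961945475) (nat_lit 33) (nat_lit 5) (nat_lit 35) (nat_lit 5) (nat_lit 36) (nat_lit 5) (nat_lit 380) (nat_lit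 335) (nat_lit 185)) (XT.lf (nat_lit 0) (nat_lit 69259418600) (nat_lit 152) (nat_lit 9248023787) (nat_lit 228) (nat_lit 9739610293) (nat_lit 33) (nat_lit 5) (nat_lit 35) (nat_lit 5) (nat_lit 36) (nat_lit 5) (nat_lit 381) (nat_lit 335) (nat_lit 184)))) (XT.nd (nat_lit 78) (nat_lit 152) (nat_lit 0) (XT.lf (nat_lit 0) (nat_lit 7700718358) (nat_lit 152) (nat_lit 67367089818) (nat_lit 76) (nat_lit 16298915735) (nat_lit 31) (nat_lit 5) (nat_lit 33) (nat_lit 5) (nat_lit 32) (nat_lit 5) (nat_lit 382) (nat_lit 335) (nat_lit 183)) (XT.nd (nat_lit 78) (nat_lit 152) (nat_lit 0) (XT.lf (nat_lit 0) (nat_lit 26162638025) (nat_lit 152) (nat_lit 25150028680) (nat_lit 76) (nat_lit 43297885031) (nat_lit 31) (nat_lit 5) (nat_lit 33) (nat_lit 5) (nat_lit 32) (nat_lit 5) (nat_lit 383) (nat_lit 335) (nat_lit 182)) (XT.lf (nat_lit 0) (nat_lit 19809378452) (nat_lit 152) (nat_lit 26046075214) (nat_lit 228) (nat_lit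 52145728036) (nat_lit 29) (nat_lit 5) (nat_lit 31) (nat_lit 5) (nat_lit 32) (nat_lit 5) (nat_lit 384) (nat_lit 335) (nat_lit 181)))))) (XT.nd (nat_lit 468) (nat_lit 380) (nat_lit 0) (XT.nd (nat_lit 234) (nat_lit 152) (nat_lit 0) (XT.nd (nat_lit 78) (nat_lit 152) (nat_lit 0) (XT.lf (nat_lit 0) (nat_lit 66971910018) (nat_lit 228) (nat_lit 33667222166) (nat_lit 76) (nat_lit 900261697) (nat_lit 29) (nat_lit 5) (nat_lit 32) (nat_lit 5) (nat_lit 30) (nat_lit 4) (nat_lit 385) (nat_lit 335) (nat_lit 180)) (XT.nd (nat_lit 78) (nat_lit 76) (nat_lit 0) (XT.lf (nat_lit 0) (nat_lit 13072581740) (nat_lit 76) (nat_lit 76701297074) (nat_lit 152) (nat_lit 15449154053) (nat_lit 28) (nat_lit 5) (nat_lit 29) (nat_lit 5) (nat_lit 30) (nat_lit 4) (nat_lit 386) (nat_lit 335) (nat_lit 179)) (XT.lf (nat_lit 0) (nat_lit 5055189467) (nat_lit 152) (nat_lit 45828110263) (nat_lit 76) (nat_lit 58175037704) (nat_lit 27)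 (nat_lit 5) (nat_lit 29) (nat_lit 5) (nat_lit 28) (nat_lit 5) (nat_lit 387) (nat_lit 335) (nat_lit 178)))) (XT.nd (nat_lit 78) (nat_lit 0) (nat_lit 0) (XT.lf (nat_lit 0) (nat_lit 2639237717) (nat_lit 152) (nat_lit 23466202890) (nat_lit 228) (nat_lit 86965309802) (nat_lit 25) (nat_lit 5) (nat_lit 27) (nat_lit 5) (nat_lit 28) (nat_lit 5) (nat_lit 388) (nat_lit 335) (nat_lit 177)) (XT.nd (nat_lit 78) (nat_lit 0) (nat_lit 0) (XT.lf (nat_lit 0) (nat_lit 49078825677) (nat_lit 228) (nat_lit 62222116848) (nat_lit 76) (nat_lit 5939310997) (nat_lit 25) (nat_lit 5) (nat_lit 28) (nat_lit 5) (nat_lit 26) (nat_lit 4) (nat_lit 389) (nat_lit 335) (nat_lit 176)) (XT.lf (nat_lit 0) (nat_lit 73584323697) (nat_lit 228) (nat_lit 11989161888) (nat_lit 76) (nat_lit 36025574553) (nat_lit 25) (nat_lit 5) (nat_lit 28) (nat_lit 5) (nat_lit 26) (nat_lit 4) (nat_lit 390) (nat_lit 335) (nat_lit 175))))) (XT.nd (nat_lit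 234) (nat_lit 76) (nat_lit 0) (XT.nd (nat_lit 78) (nat_lit 228) (nat_lit 0) (XT.lf (nat_lit 0) (nat_lit 42100816712) (nat_lit 76) (nat_lit 57870402926) (nat_lit 152) (nat_lit 26171781803) (nat_lit 24) (nat_lit 5) (nat_lit 25) (nat_lit 5) (nat_lit 26) (nat_lit 4) (nat_lit 391) (nat_lit 335) (nat_lit 174)) (XT.nd (nat_lit 78) (nat_lit 228) (nat_lit 0) (XT.lf (nat_lit 0) (nat_lit 99309451786) (nat_lit 76) (nat_lit 28569886275) (nat_lit 152) (nat_lit 3024708346) (nat_lit 24) (nat_lit 5) (nat_lit 25) (nat_lit 5) (nat_lit 26) (nat_lit 4) (nat_lit 392) (nat_lit 335) (nat_lit 173)) (XT.lf (nat_lit 0) (nat_lit 21016582728) (nat_lit 228) (nat_lit 112007487034) (nat_lit 76) (nat_lit 2841565103) (nat_lit 21) (nat_lit 5) (nat_lit 24) (nat_lit 5) (nat_lit 22) (nat_lit 4) (nat_lit 393) (nat_lit 335) (nat_lit 172)))) (XT.nd (nat_lit 78) (nat_lit 76) (nat_lit 0) (XT.lf (nat_lit 0) (nat_lit 47169369718)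 (nat_lit 228) (nat_lit 58396871864) (nat_lit 76) (nat_lit 35456028242) (nat_lit 21) (nat_lit 5) (nat_lit 24) (nat_lit 5) (nat_lit 22) (nat_lit 4) (nat_lit 394) (nat_lit 335) (nat_lit 171)) (XT.nd (nat_lit 78) (nat_lit 76) (nat_lit 0) (XT.lf (nat_lit 0) (nat_lit 74628730552) (nat_lit 228) (nat_lit 2107656590) (nat_lit 76) (nat_lit 69700403061) (nat_lit 21) (nat_lit 5) (nat_lit 24) (nat_lit 5) (nat_lit 22) (nat_lit 4) (nat_lit 395) (nat_lit 335) (nat_lit 170)) (XT.lf (nat_lit 0) (nat_lit 58878665736) (nat_lit 76) (nat_lit 45500639905) (nat_lit 152) (nat_lit 47696819028) (nat_lit 20) (nat_lit 5) (nat_lit 21) (nat_lit 5) (nat_lit 22) (nat_lit 4) (nat_lit 396) (nat_lit 335) (nat_lit 169))))))))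
noncomputable def xc189 : XT := (XT.nd (nat_lit 1716) (nat_lit 152) (nat_lit 0) (XT.nd (nat_lit 858) (nat_lit 304) (nat_lit 0) (XT.nd (nat_lit 390) (nat_lit 228) (nat_lit 0) (XT.nd (nat_lit 156) (nat_lit 76) (nat_lit 0) (XT.nd (nat_lit 78) (nat_lit 152) (nat_lit 0) (XT.lf (nat_lit 0) (nat_lit 122985668195) (nat_lit 76) (nat_lit 12666440786) (nat_lit 152) (nat_lit 22343582262) (nat_lit 20) (nat_lit 5) (nat_lit 21) (nat_lit 5) (nat_lit 22) (nat_lit 4) (nat_lit 397) (nat_lit 335) (nat_lit 168)) (XT.lf (nat_lit 0) (nat_lit 4907570313) (nat_lit 152) (nat_lit 137656902504) (nat_lit 76) (nat_lit 21605066872) (nat_lit 18) (nat_lit 5) (nat_lit 20) (nat_lit 5) (nat_lit 19) (nat_lit 4) (nat_lit 398) (nat_lit 335) (nat_lit 167))) (XT.nd (nat_lit 78) (nat_lit 76) (nat_lit 0) (XT.lf (nat_lit 0) (nat_lit 33579711258) (nat_lit 152) (nat_lit 78880952352) (nat_lit 76) (nat_lit 58132636763) (nat_lit 18) (nat_lit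 5) (nat_lit 20) (nat_lit 5) (nat_lit 19) (nat_lit 4) (nat_lit 399) (nat_lit 335) (nat_lit 166)) (XT.nd (nat_lit 78) (nat_lit 76) (nat_lit 0) (XT.lf (nat_lit 0) (nat_lit 63684548302) (nat_lit 152) (nat_lit 17167882874) (nat_lit 76) (nat_lit 96485863761) (nat_lit 18) (nat_lit 5) (nat_lit 20) (nat_lit 5) (nat_lit 19) (nat_lit 4) (nat_lit 400) (nat_lit 335) (nat_lit 165)) (XT.lf (nat_lit 0) (nat_lit 49204079644) (nat_lit 76) (nat_lit 46857893563) (nat_lit 152) (nat_lit 88320199003) (nat_lit 17) (nat_lit 5) (nat_lit 18) (nat_lit 5) (nat_lit 19) (nat_lit 4) (nat_lit 401) (nat_lit 335) (nat_lit 164))))) (XT.nd (nat_lit 234) (nat_lit 152) (nat_lit 0) (XT.nd (nat_lit 78) (nat_lit 76) (nat_lit 0) (XT.lf (nat_lit 0) (nat_lit 119489097927) (nat_lit 76) (nat_lit 10859067026) (nat_lit 152) (nat_lit 61415583883) (nat_lit 17) (nat_lit 5) (nat_lit 18) (nat_lit 5) (nat_lit 19) (nat_lit 4) (nat_lit 402) (nat_lit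 335) (nat_lit 163)) (XT.nd (nat_lit 78) (nat_lit 76) (nat_lit 0) (XT.lf (nat_lit 0) (nat_lit 166768449491) (nat_lit 152) (nat_lit 6648169046) (nat_lit 0) (nat_lit 26076796852) (nat_lit 17) (nat_lit 5) (nat_lit 19) (nat_lit 4) (nat_lit 17) (nat_lit 4) (nat_lit 403) (nat_lit 335) (nat_lit 162)) (XT.lf (nat_lit 0) (nat_lit 64132815115) (nat_lit 76) (nat_lit 142055461681) (nat_lit 76) (nat_lit 1362362290) (nat_lit 16) (nat_lit 4) (nat_lit 17) (nat_lit 5) (nat_lit 17) (nat_lit 4) (nat_lit 404) (nat_lit 335) (nat_lit 161)))) (XT.nd (nat_lit 78) (nat_lit 76) (nat_lit 0) (XT.lf (nat_lit 0) (nat_lit 30671642317) (nat_lit 152) (nat_lit 77817610498) (nat_lit 76) (nat_lit 107491145044) (nat_lit 15) (nat_lit 5) (nat_lit 17) (nat_lit 5) (nat_lit 16) (nat_lit 4) (nat_lit 405) (nat_lit 335) (nat_lit 160)) (XT.nd (nat_lit 78) (nat_lit 76) (nat_lit 0) (XT.lf (nat_lit 0) (nat_lit 64260820144) (nat_lit 152)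 (nat_lit 8961108200) (nat_lit 76) (nat_lit 151608636883) (nat_lit 15) (nat_lit 5) (nat_lit 17) (nat_lit 5) (nat_lit 16) (nat_lit 4) (nat_lit 406) (nat_lit 335) (nat_lit 159)) (XT.lf (nat_lit 0) (nat_lit 65431101130) (nat_lit 76) (nat_lit 35119211252) (nat_lit 152) (nat_lit 133521886004) (nat_lit 14) (nat_lit 5) (nat_lit 15) (nat_lit 5) (nat_lit 16) (nat_lit 4) (nat_lit 407) (nat_lit 335) (nat_lit 158)))))) (XT.nd (nat_lit 390) (nat_lit 152) (nat_lit 0) (XT.nd (nat_lit 156) (nat_lit 152) (nat_lit 0) (XT.nd (nat_lit 78) (nat_lit 0) (nat_lit 0) (XT.lf (nat_lit 0) (nat_lit 138884149781) (nat_lit 152) (nat_lit 99994434118) (nat_lit 0) (nat_lit 4885835970) (nat_lit 14) (nat_lit 5) (nat_lit 16) (nat_lit 4) (nat_lit 14) (nat_lit 4) (nat_lit 408) (nat_lit 335) (nat_lit 157)) (XT.lf (nat_lit 0) (nat_lit 179709733887) (nat_lit 152) (nat_lit 28492425491) (nat_lit 0) (nat_lit 45710340487) (nat_lit 14)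 (nat_lit 5) (nat_lit 16) (nat_lit 4) (nat_lit 14) (nat_lit 4) (nat_lit 409) (nat_lit 335) (nat_lit 156))) (XT.nd (nat_lit 78) (nat_lit 76) (nat_lit 0) (XT.lf (nat_lit 0) (nat_lit 48123741062) (nat_lit 76) (nat_lit 175203564565) (nat_lit 76) (nat_lit 41203142985) (nat_lit 13) (nat_lit 4) (nat_lit 14) (nat_lit 5) (nat_lit 14) (nat_lit 4) (nat_lit 410) (nat_lit 335) (nat_lit 155)) (XT.nd (nat_lit 78) (nat_lit 76) (nat_lit 0) (XT.lf (nat_lit 0) (nat_lit 129558725261) (nat_lit 76) (nat_lit 140048937578) (nat_lit 76) (nat_lit 6047536779) (nat_lit 13) (nat_lit 4) (nat_lit 14) (nat_lit 5) (nat_lit 14) (nat_lit 4) (nat_lit 411) (nat_lit 335) (nat_lit 154)) (XT.lf (nat_lit 0) (nat_lit 29877343543) (nat_lit 152) (nat_lit 72753779122) (nat_lit 76) (nat_lit 184681000849) (nat_lit 12) (nat_lit 5) (nat_lit 14) (nat_lit 5) (nat_lit 13) (nat_lit 4) (nat_lit 412) (nat_lit 335) (nat_lit 153))))) (XT.nd (nat_lit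 234) (nat_lit 76) (nat_lit 0) (XT.nd (nat_lit 78) (nat_lit 0) (nat_lit 0) (XT.lf (nat_lit 0) (nat_lit 4293228477) (nat_lit 76) (nat_lit 63168454471) (nat_lit 152) (nat_lit 232081931206) (nat_lit 11) (nat_lit 5) (nat_lit 12) (nat_lit 5) (nat_lit 13) (nat_lit 4) (nat_lit 413) (nat_lit 335) (nat_lit 152)) (XT.nd (nat_lit 78) (nat_lit 0) (nat_lit 0) (XT.lf (nat_lit 0) (nat_lit 87717358433) (nat_lit 76) (nat_lit 20439434682) (nat_lit 152) (nat_lit 204168308656) (nat_lit 11) (nat_lit 5) (nat_lit 12) (nat_lit 5) (nat_lit 13) (nat_lit 4) (nat_lit 414) (nat_lit 335) (nat_lit 151)) (XT.lf (nat_lit 0) (nat_lit 151267470433) (nat_lit 152) (nat_lit 150815371077) (nat_lit 0) (nat_lit 23643781806) (nat_lit 11) (nat_lit 5) (nat_lit 13) (nat_lit 4) (nat_lit 11) (nat_lit 4) (nat_lit 415) (nat_lit 335) (nat_lit 150)))) (XT.nd (nat_lit 78) (nat_lit 76) (nat_lit 0) (XT.lf (nat_lit 0) (nat_lit 196868233141)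 (nat_lit 152) (nat_lit 73669446538) (nat_lit 0) (nat_lit 69243813805) (nat_lit 11) (nat_lit 5) (nat_lit 13) (nat_lit 4) (nat_lit 11) (nat_lit 4) (nat_lit 416) (nat_lit 335) (nat_lit 149)) (XT.nd (nat_lit 78) (nat_lit 0) (nat_lit 0) (XT.lf (nat_lit 0) (nat_lit 7575284312) (nat_lit 76) (nat_lit 237291524732) (nat_lit 76) (nat_lit 109666409483) (nat_lit 10) (nat_lit 4) (nat_lit 11) (nat_lit 5) (nat_lit 11) (nat_lit 4) (nat_lit 417) (nat_lit 335) (nat_lit 148)) (XT.lf (nat_lit 0) (nat_lit 95438957482) (nat_lit 76) (nat_lit 201073496725) (nat_lit 76) (nat_lit 73447718703) (nat_lit 10) (nat_lit 4) (nat_lit 11) (nat_lit 5) (nat_lit 11) (nat_lit 4) (nat_lit 418) (nat_lit 335) (nat_lit 147))))))) (XT.nd (nat_lit 40638) (nat_lit 0) (nat_lit 5928) (XT.nd (nat_lit 390) (nat_lit 0) (nat_lit 0) (XT.nd (nat_lit 156) (nat_lit 76) (nat_lit 0) (XT.nd (nat_lit 78) (nat_lit 76) (nat_lit 0) (XT.lf (nat_lit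 0) (nat_lit 187694927589) (nat_lit 76) (nat_lit 163044989983) (nat_lit 76) (nat_lit 35418580748) (nat_lit 10) (nat_lit 4) (nat_lit 11) (nat_lit 5) (nat_lit 11) (nat_lit 4) (nat_lit 419) (nat_lit 335) (nat_lit 146)) (XT.lf (nat_lit 0) (nat_lit 4367152173) (nat_lit 152) (nat_lit 118674348433) (nat_lit 76) (nat_lit 280121739697) (nat_lit 9) (nat_lit 5) (nat_lit 11) (nat_lit 5) (nat_lit 10) (nat_lit 4) (nat_lit 420) (nat_lit 335) (nat_lit 145))) (XT.nd (nat_lit 78) (nat_lit 76) (nat_lit 0) (XT.lf (nat_lit 0) (nat_lit 44951447270) (nat_lit 152) (nat_lit 35477116015) (nat_lit 76) (nat_lit 340560645966) (nat_lit 9) (nat_lit 5) (nat_lit 11) (nat_lit 5) (nat_lit 10) (nat_lit 4) (nat_lit 421) (nat_lit 335) (nat_lit 144)) (XT.nd (nat_lit 78) (nat_lit 0) (nat_lit 0) (XT.lf (nat_lit 0) (nat_lit 53594559074) (nat_lit 76) (nat_lit 34806751783) (nat_lit 152) (nat_lit 351263348187) (nat_lit 8) (nat_lit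 5) (nat_lit 9) (nat_lit 5) (nat_lit 10) (nat_lit 4) (nat_lit 422) (nat_lit 335) (nat_lit 143)) (XT.lf (nat_lit 0) (nat_lit 134838401076) (nat_lit 152) (nat_lit 311107435430) (nat_lit 0) (nat_lit 13287308233) (nat_lit 8) (nat_lit 5) (nat_lit 10) (nat_lit 4) (nat_lit 8) (nat_lit 4) (nat_lit 423) (nat_lit 335) (nat_lit 142))))) (XT.nd (nat_lit 40014) (nat_lit 0) (nat_lit 6764) (XT.nd (nat_lit 78) (nat_lit 0) (nat_lit 0) (XT.lf (nat_lit 0) (nat_lit 184167561794) (nat_lit 152) (nat_lit 232967984276) (nat_lit 0) (nat_lit 62615997929) (nat_lit 8) (nat_lit 5) (nat_lit 10) (nat_lit 4) (nat_lit 8) (nat_lit 4) (nat_lit 424) (nat_lit 335) (nat_lit 141)) (XT.nd (nat_lit 78) (nat_lit 0) (nat_lit 0) (XT.lf (nat_lit 0) (nat_lit 235962812451) (nat_lit 152) (nat_lit 150922269255) (nat_lit 0) (nat_lit 114410799995) (nat_lit 8) (nat_lit 5) (nat_lit 10) (nat_lit 4) (nat_lit 8) (nat_lit 4) (nat_lit 425) (nat_lit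 335) (nat_lit 140)) (XT.lf (nat_lit 0) (nat_lit 290347475074) (nat_lit 152) (nat_lit 64774943428) (nat_lit 0) (nat_lit 168795035388) (nat_lit 8) (nat_lit 5) (nat_lit 10) (nat_lit 4) (nat_lit 8) (nat_lit 4) (nat_lit 426) (nat_lit 335) (nat_lit 139)))) (XT.nd (nat_lit 78) (nat_lit 760) (nat_lit 0) (XT.lf (nat_lit 0) (nat_lit 5805647610) (nat_lit 0) (nat_lit 5805647610) (nat_lit 684) (nat_lit 238945389) (nat_lit 107) (nat_lit 5) (nat_lit 107) (nat_lit 3) (nat_lit 116) (nat_lit 3) (nat_lit 336) (nat_lit 336) (nat_lit 228)) (XT.nd (nat_lit 78) (nat_lit 760) (nat_lit 0) (XT.lf (nat_lit 0) (nat_lit 23303161015) (nat_lit 0) (nat_lit 611029749) (nat_lit 684) (nat_lit 373102820) (nat_lit 107) (nat_lit 5) (nat_lit 107) (nat_lit 3) (nat_lit 116) (nat_lit 3) (nat_lit 337) (nat_lit 336) (nat_lit 227)) (XT.lf (nat_lit 0) (nat_lit 83914066) (nat_lit 760) (nat_lit 14039522628) (nat_lit 836) (nat_lit 10763295782)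 (nat_lit 97) (nat_lit 5) (nat_lit 107) (nat_lit 5) (nat_lit 108) (nat_lit 5) (nat_lit 338) (nat_lit 336) (nat_lit 226)))))) (XT.nd (nat_lit 468) (nat_lit 836) (nat_lit 0) (XT.nd (nat_lit 234) (nat_lit 0) (nat_lit 152) (XT.nd (nat_lit 78) (nat_lit 0) (nat_lit 76) (XT.lf (nat_lit 0) (nat_lit 571302725) (nat_lit 760) (nat_lit 2231576980) (nat_lit 836) (nat_lit 22711963390) (nat_lit 97) (nat_lit 5) (nat_lit 107) (nat_lit 5) (nat_lit 108) (nat_lit 5) (nat_lit 339) (nat_lit 336) (nat_lit 225)) (XT.nd (nat_lit 78) (nat_lit 0) (nat_lit 0) (XT.lf (nat_lit 0) (nat_lit 1384958563) (nat_lit 760) (nat_lit 15812204870) (nat_lit 836) (nat_lit 8962109103) (nat_lit 98) (nat_lit 5) (nat_lit 108) (nat_lit 5) (nat_lit 109) (nat_lit 5) (nat_lit 340) (nat_lit 336) (nat_lit 224)) (XT.lf (nat_lit 0) (nat_lit 2317379724) (nat_lit 760) (nat_lit 3252729476) (nat_lit 836) (nat_lit 21261917912) (nat_lit 98) (nat_lit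 5) (nat_lit 108) (nat_lit 5) (nat_lit 109) (nat_lit 5) (nat_lit 341) (nat_lit 336) (nat_lit 223)))) (XT.nd (nat_lit 78) (nat_lit 0) (nat_lit 0) (XT.lf (nat_lit 0) (nat_lit 3556912809) (nat_lit 760) (nat_lit 17377987859) (nat_lit 836) (nat_lit 6590501620) (nat_lit 99) (nat_lit 5) (nat_lit 109) (nat_lit 5) (nat_lit 110) (nat_lit 5) (nat_lit 342) (nat_lit 336) (nat_lit 222)) (XT.nd (nat_lit 78) (nat_lit 0) (nat_lit 76) (XT.lf (nat_lit 0) (nat_lit 4999996066) (nat_lit 760) (nat_lit 4016717580) (nat_lit 836) (nat_lit 19229660967) (nat_lit 99) (nat_lit 5) (nat_lit 109) (nat_lit 5) (nat_lit 110) (nat_lit 5) (nat_lit 343) (nat_lit 336) (nat_lit 221)) (XT.lf (nat_lit 0) (nat_lit 6728476201) (nat_lit 760) (nat_lit 18713429642) (nat_lit 836) (nat_lit 3550834303) (nat_lit 100) (nat_lit 5) (nat_lit 110) (nat_lit 5) (nat_lit 111) (nat_lit 5) (nat_lit 344) (nat_lit 336) (nat_lit 220))))) (XT.nd (nat_lit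 234) (nat_lit 1064) (nat_lit 0) (XT.nd (nat_lit 78) (nat_lit 0) (nat_lit 0) (XT.lf (nat_lit 0) (nat_lit 8755095084) (nat_lit 760) (nat_lit 4496681405) (nat_lit 836) (nat_lit 16514068137) (nat_lit 100) (nat_lit 5) (nat_lit 110) (nat_lit 5) (nat_lit 111) (nat_lit 5) (nat_lit 345) (nat_lit 336) (nat_lit 219)) (XT.nd (nat_lit 78) (nat_lit 0) (nat_lit 76) (XT.lf (nat_lit 76) (nat_lit 10771546801) (nat_lit 0) (nat_lit 274681230) (nat_lit 836) (nat_lit 19523223245) (nat_lit 101) (nat_lit 5) (nat_lit 100) (nat_lit 5) (nat_lit 111) (nat_lit 5) (nat_lit 346) (nat_lit 336) (nat_lit 218)) (XT.lf (nat_lit 0) (nat_lit 13732965796) (nat_lit 760) (nat_lit 4664135167) (nat_lit 76) (nat_lit 13002090700) (nat_lit 101) (nat_lit 5) (nat_lit 111) (nat_lit 5) (nat_lit 102) (nat_lit 5) (nat_lit 347) (nat_lit 336) (nat_lit 217)))) (XT.nd (nat_lit 78) (nat_lit 380) (nat_lit 0) (XT.lf (nat_lit 0) (nat_lit 11588626647)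 (nat_lit 760) (nat_lit 5146272046) (nat_lit 836) (nat_lit 15526482997) (nat_lit 91) (nat_lit 5) (nat_lit 101) (nat_lit 5) (nat_lit 102) (nat_lit 5) (nat_lit 348) (nat_lit 336) (nat_lit 216)) (XT.nd (nat_lit 78) (nat_lit 380) (nat_lit 0) (XT.lf (nat_lit 0) (nat_lit 20099676746) (nat_lit 836) (nat_lit 4489218431) (nat_lit 76) (nat_lit 8567153889) (nat_lit 91) (nat_lit 5) (nat_lit 102) (nat_lit 5) (nat_lit 92) (nat_lit 5) (nat_lit 349) (nat_lit 336) (nat_lit 215)) (XT.lf (nat_lit 0) (nat_lit 12825563659) (nat_lit 380) (nat_lit 11087533619) (nat_lit 456) (nat_lit 10168337374) (nat_lit 86) (nat_lit 5) (nat_lit 91) (nat_lit 5) (nat_lit 92) (nat_lit 5) (nat_lit 350) (nat_lit 336) (nat_lit 214))))))))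
noncomputable def xc190 : XT := (XT.nd (nat_lit 1716) (nat_lit 1900) (nat_lit 0) (XT.nd (nat_lit 858) (nat_lit 1064) (nat_lit 0) (XT.nd (nat_lit 390) (nat_lit 1216) (nat_lit 0) (XT.nd (nat_lit 156) (nat_lit 456) (nat_lit 0) (XT.nd (nat_lit 78) (nat_lit 304) (nat_lit 0) (XT.lf (nat_lit 0) (nat_lit 28038622904) (nat_lit 456) (nat_lit 3941028448) (nat_lit 76) (nat_lit 3067371242) (nat_lit 86) (nat_lit 5) (nat_lit 92) (nat_lit 5) (nat_lit 87) (nat_lit 5) (nat_lit 351) (nat_lit 336) (nat_lit 213)) (XT.lf (nat_lit 0) (nat_lit 14518467386) (nat_lit 304) (nat_lit 18256522151) (nat_lit 380) (nat_lit 3265676715) (nat_lit 82) (nat_lit 5) (nat_lit 86) (nat_lit 5) (nat_lit 87) (nat_lit 5) (nat_lit 352) (nat_lit 336) (nat_lit 212))) (XT.nd (nat_lit 78) (nat_lit 380) (nat_lit 0) (XT.lf (nat_lit 0) (nat_lit 706946877) (nat_lit 380) (nat_lit 3058430456) (nat_lit 76) (nat_lit 33314899280) (nat_lit 81) (nat_lit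 5) (nat_lit 86) (nat_lit 5) (nat_lit 82) (nat_lit 5) (nat_lit 353) (nat_lit 336) (nat_lit 211)) (XT.nd (nat_lit 78) (nat_lit 0) (nat_lit 0) (XT.lf (nat_lit 0) (nat_lit 5211205223) (nat_lit 456) (nat_lit 21531094308) (nat_lit 76) (nat_lit 11404757523) (nat_lit 76) (nat_lit 5) (nat_lit 82) (nat_lit 5) (nat_lit 77) (nat_lit 5) (nat_lit 354) (nat_lit 336) (nat_lit 210)) (XT.lf (nat_lit 0) (nat_lit 10051524627) (nat_lit 456) (nat_lit 1950897737) (nat_lit 76) (nat_lit 27259215494) (nat_lit 76) (nat_lit 5) (nat_lit 82) (nat_lit 5) (nat_lit 77) (nat_lit 5) (nat_lit 355) (nat_lit 336) (nat_lit 209))))) (XT.nd (nat_lit 234) (nat_lit 608) (nat_lit 0) (XT.nd (nat_lit 78) (nat_lit 304) (nat_lit 0) (XT.lf (nat_lit 0) (nat_lit 15489734211) (nat_lit 380) (nat_lit 21256617671) (nat_lit 76) (nat_lit 3667805676) (nat_lit 72) (nat_lit 5) (nat_lit 77) (nat_lit 5) (nat_lit 73) (nat_lit 5) (nat_lit 356) (nat_lit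 336) (nat_lit 208)) (XT.nd (nat_lit 78) (nat_lit 304) (nat_lit 0) (XT.lf (nat_lit 0) (nat_lit 21426933551) (nat_lit 380) (nat_lit 434722761) (nat_lit 76) (nat_lit 19751296366) (nat_lit 72) (nat_lit 5) (nat_lit 77) (nat_lit 5) (nat_lit 73) (nat_lit 5) (nat_lit 357) (nat_lit 336) (nat_lit 207)) (XT.lf (nat_lit 0) (nat_lit 22132946064) (nat_lit 304) (nat_lit 5870496707) (nat_lit 380) (nat_lit 14851125524) (nat_lit 68) (nat_lit 5) (nat_lit 72) (nat_lit 5) (nat_lit 73) (nat_lit 5) (nat_lit 358) (nat_lit 336) (nat_lit 206)))) (XT.nd (nat_lit 78) (nat_lit 380) (nat_lit 0) (XT.lf (nat_lit 0) (nat_lit 1561767309) (nat_lit 228) (nat_lit 33546345476) (nat_lit 304) (nat_lit 9040188222) (nat_lit 65) (nat_lit 5) (nat_lit 68) (nat_lit 5) (nat_lit 69) (nat_lit 5) (nat_lit 359) (nat_lit 336) (nat_lit 205)) (XT.nd (nat_lit 78) (nat_lit 380) (nat_lit 0) (XT.lf (nat_lit 0) (nat_lit 25575578411) (nat_lit 228)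 (nat_lit 17435113386) (nat_lit 304) (nat_lit 2473897719) (nat_lit 65) (nat_lit 5) (nat_lit 68) (nat_lit 5) (nat_lit 69) (nat_lit 5) (nat_lit 360) (nat_lit 336) (nat_lit 204)) (XT.lf (nat_lit 0) (nat_lit 3956340483) (nat_lit 304) (nat_lit 381796926) (nat_lit 380) (nat_lit 42543160705) (nat_lit 60) (nat_lit 5) (nat_lit 64) (nat_lit 5) (nat_lit 65) (nat_lit 5) (nat_lit 361) (nat_lit 336) (nat_lit 203)))))) (XT.nd (nat_lit 390) (nat_lit 608) (nat_lit 0) (XT.nd (nat_lit 156) (nat_lit 228) (nat_lit 0) (XT.nd (nat_lit 78) (nat_lit 228) (nat_lit 0) (XT.lf (nat_lit 0) (nat_lit 12021150255) (nat_lit 380) (nat_lit 18948237114) (nat_lit 76) (nat_lit 17345753766) (nat_lit 60) (nat_lit 5) (nat_lit 65) (nat_lit 5) (nat_lit 61) (nat_lit 5) (nat_lit 362) (nat_lit 336) (nat_lit 202)) (XT.lf (nat_lit 0) (nat_lit 6423092615) (nat_lit 228) (nat_lit 13769112481) (nat_lit 304) (nat_lit 29623279059) (nat_lit 57)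 (nat_lit 5) (nat_lit 60) (nat_lit 5) (nat_lit 61) (nat_lit 5) (nat_lit 363) (nat_lit 336) (nat_lit 201))) (XT.nd (nat_lit 78) (nat_lit 228) (nat_lit 0) (XT.lf (nat_lit 0) (nat_lit 29162375540) (nat_lit 304) (nat_lit 17729835217) (nat_lit 76) (nat_lit 4479107726) (nat_lit 57) (nat_lit 5) (nat_lit 61) (nat_lit 5) (nat_lit 58) (nat_lit 5) (nat_lit 364) (nat_lit 336) (nat_lit 200)) (XT.nd (nat_lit 78) (nat_lit 0) (nat_lit 0) (XT.lf (nat_lit 0) (nat_lit 9283831393) (nat_lit 228) (nat_lit 29665423745) (nat_lit 304) (nat_lit 14037281547) (nat_lit 54) (nat_lit 5) (nat_lit 57) (nat_lit 5) (nat_lit 58) (nat_lit 5) (nat_lit 365) (nat_lit 336) (nat_lit 199)) (XT.lf (nat_lit 0) (nat_lit 38260341623) (nat_lit 228) (nat_lit 11262996097) (nat_lit 304) (nat_lit 5144287214) (nat_lit 54) (nat_lit 5) (nat_lit 57) (nat_lit 5) (nat_lit 58) (nat_lit 5) (nat_lit 366) (nat_lit 336) (nat_lit 198))))) (XT.nd (nat_lit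 234) (nat_lit 152) (nat_lit 0) (XT.nd (nat_lit 78) (nat_lit 228) (nat_lit 0) (XT.lf (nat_lit 0) (nat_lit 4383444331) (nat_lit 228) (nat_lit 43962893563) (nat_lit 76) (nat_lit 8066943034) (nat_lit 51) (nat_lit 5) (nat_lit 54) (nat_lit 5) (nat_lit 52) (nat_lit 5) (nat_lit 367) (nat_lit 336) (nat_lit 197)) (XT.nd (nat_lit 78) (nat_lit 228) (nat_lit 0) (XT.lf (nat_lit 0) (nat_lit 14679456137) (nat_lit 228) (nat_lit 15188632455) (nat_lit 76) (nat_lit 28350677532) (nat_lit 51) (nat_lit 5) (nat_lit 54) (nat_lit 5) (nat_lit 52) (nat_lit 5) (nat_lit 368) (nat_lit 336) (nat_lit 196)) (XT.lf (nat_lit 0) (nat_lit 15517823865) (nat_lit 228) (nat_lit 10212545895) (nat_lit 304) (nat_lit 34372152473) (nat_lit 48) (nat_lit 5) (nat_lit 51) (nat_lit 5) (nat_lit 52) (nat_lit 5) (nat_lit 369) (nat_lit 336) (nat_lit 195)))) (XT.nd (nat_lit 78) (nat_lit 152) (nat_lit 0) (XT.lf (nat_lit 0) (nat_lit 37755911651)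 (nat_lit 304) (nat_lit 13950904772) (nat_lit 76) (nat_lit 10352547230) (nat_lit 48) (nat_lit 5) (nat_lit 52) (nat_lit 5) (nat_lit 49) (nat_lit 5) (nat_lit 370) (nat_lit 336) (nat_lit 194)) (XT.nd (nat_lit 78) (nat_lit 0) (nat_lit 0) (XT.lf (nat_lit 0) (nat_lit 18640706742) (nat_lit 152) (nat_lit 32198441460) (nat_lit 228) (nat_lit 13252079621) (nat_lit 46) (nat_lit 5) (nat_lit 48) (nat_lit 5) (nat_lit 49) (nat_lit 5) (nat_lit 371) (nat_lit 336) (nat_lit 193)) (XT.lf (nat_lit 0) (nat_lit 53343220286) (nat_lit 152) (nat_lit 11467606434) (nat_lit 228) (nat_lit 1402145956) (nat_lit 46) (nat_lit 5) (nat_lit 48) (nat_lit 5) (nat_lit 49) (nat_lit 5) (nat_lit 372) (nat_lit 336) (nat_lit 192))))))) (XT.nd (nat_lit 858) (nat_lit 760) (nat_lit 0) (XT.nd (nat_lit 390) (nat_lit 532) (nat_lit 0) (XT.nd (nat_lit 156) (nat_lit 304) (nat_lit 0) (XT.nd (nat_lit 78) (nat_lit 0) (nat_lit 0) (XT.lf (nat_lit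 0) (nat_lit 11195584391) (nat_lit 304) (nat_lit 46719886266) (nat_lit 76) (nat_lit 10491284069) (nat_lit 42) (nat_lit 5) (nat_lit 46) (nat_lit 5) (nat_lit 43) (nat_lit 5) (nat_lit 373) (nat_lit 336) (nat_lit 191)) (XT.lf (nat_lit 0) (nat_lit 24783709462) (nat_lit 304) (nat_lit 12498726778) (nat_lit 76) (nat_lit 33406260143) (nat_lit 42) (nat_lit 5) (nat_lit 46) (nat_lit 5) (nat_lit 43) (nat_lit 5) (nat_lit 374) (nat_lit 336) (nat_lit 190))) (XT.nd (nat_lit 78) (nat_lit 152) (nat_lit 0) (XT.lf (nat_lit 0) (nat_lit 24205380519) (nat_lit 152) (nat_lit 15221971648) (nat_lit 228) (nat_lit 33638578608) (nat_lit 40) (nat_lit 5) (nat_lit 42) (nat_lit 5) (nat_lit 43) (nat_lit 5) (nat_lit 375) (nat_lit 336) (nat_lit 189)) (XT.nd (nat_lit 78) (nat_lit 152) (nat_lit 0) (XT.lf (nat_lit 0) (nat_lit 55140532165) (nat_lit 228) (nat_lit 12503142820) (nat_lit 76) (nat_lit 7901485304) (nat_lit 40) (nat_lit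 5) (nat_lit 43) (nat_lit 5) (nat_lit 41) (nat_lit 5) (nat_lit 376) (nat_lit 336) (nat_lit 188)) (XT.lf (nat_lit 0) (nat_lit 26260365469) (nat_lit 152) (nat_lit 46036852507) (nat_lit 228) (nat_lit 5818242069) (nat_lit 38) (nat_lit 5) (nat_lit 40) (nat_lit 5) (nat_lit 41) (nat_lit 5) (nat_lit 377) (nat_lit 336) (nat_lit 187))))) (XT.nd (nat_lit 234) (nat_lit 304) (nat_lit 0) (XT.nd (nat_lit 78) (nat_lit 152) (nat_lit 0) (XT.lf (nat_lit 0) (nat_lit 9407022160) (nat_lit 228) (nat_lit 13562048002) (nat_lit 76) (nat_lit 57827114678) (nat_lit 37) (nat_lit 5) (nat_lit 40) (nat_lit 5) (nat_lit 38) (nat_lit 5) (nat_lit 378) (nat_lit 336) (nat_lit 186)) (XT.nd (nat_lit 78) (nat_lit 0) (nat_lit 0) (XT.lf (nat_lit 0) (nat_lit 25652721857) (nat_lit 228) (nat_lit 56187516102) (nat_lit 76) (nat_lit 1743204654) (nat_lit 35) (nat_lit 5) (nat_lit 38) (nat_lit 5) (nat_lit 36) (nat_lit 5) (nat_lit 379) (nat_lit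 336) (nat_lit 185)) (XT.lf (nat_lit 0) (nat_lit 43319113363) (nat_lit 228) (nat_lit 16008871695) (nat_lit 76) (nat_lit 27151658786) (nat_lit 35) (nat_lit 5) (nat_lit 38) (nat_lit 5) (nat_lit 36) (nat_lit 5) (nat_lit 380) (nat_lit 336) (nat_lit 184)))) (XT.nd (nat_lit 78) (nat_lit 152) (nat_lit 0) (XT.lf (nat_lit 0) (nat_lit 27041705067) (nat_lit 152) (nat_lit 35247811037) (nat_lit 228) (nat_lit 27210105317) (nat_lit 33) (nat_lit 5) (nat_lit 35) (nat_lit 5) (nat_lit 36) (nat_lit 5) (nat_lit 381) (nat_lit 336) (nat_lit 183)) (XT.nd (nat_lit 78) (nat_lit 152) (nat_lit 0) (XT.lf (nat_lit 0) (nat_lit 72798139615) (nat_lit 152) (nat_lit 9679945434) (nat_lit 228) (nat_lit 10179031348) (nat_lit 33) (nat_lit 5) (nat_lit 35) (nat_lit 5) (nat_lit 36) (nat_lit 5) (nat_lit 382) (nat_lit 336) (nat_lit 182)) (XT.lf (nat_lit 0) (nat_lit 8131270904) (nat_lit 152) (nat_lit 70657604182) (nat_lit 76) (nat_lit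 17143886161) (nat_lit 31) (nat_lit 5) (nat_lit 33) (nat_lit 5) (nat_lit 32) (nat_lit 5) (nat_lit 383) (nat_lit 336) (nat_lit 181)))))) (XT.nd (nat_lit 468) (nat_lit 304) (nat_lit 0) (XT.nd (nat_lit 234) (nat_lit 304) (nat_lit 0) (XT.nd (nat_lit 78) (nat_lit 152) (nat_lit 0) (XT.lf (nat_lit 0) (nat_lit 27514119095) (nat_lit 152) (nat_lit 26333396659) (nat_lit 76) (nat_lit 45491374178) (nat_lit 31) (nat_lit 5) (nat_lit 33) (nat_lit 5) (nat_lit 32) (nat_lit 5) (nat_lit 384) (nat_lit 336) (nat_lit 180)) (XT.nd (nat_lit 78) (nat_lit 0) (nat_lit 0) (XT.lf (nat_lit 0) (nat_lit 20872785128) (nat_lit 152) (nat_lit 27317864906) (nat_lit 228) (nat_lit 54708448680) (nat_lit 29) (nat_lit 5) (nat_lit 31) (nat_lit 5) (nat_lit 32) (nat_lit 5) (nat_lit 385) (nat_lit 336) (nat_lit 179)) (XT.lf (nat_lit 0) (nat_lit 70361362752) (nat_lit 228) (nat_lit 35279532401) (nat_lit 76) (nat_lit 973405666) (nat_lit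 29) (nat_lit 5) (nat_lit 32) (nat_lit 5) (nat_lit 30) (nat_lit 4) (nat_lit 386) (nat_lit 336) (nat_lit 178)))) (XT.nd (nat_lit 78) (nat_lit 228) (nat_lit 0) (XT.lf (nat_lit 0) (nat_lit 13796115719) (nat_lit 76) (nat_lit 80506460099) (nat_lit 152) (nat_lit 16179589594) (nat_lit 28) (nat_lit 5) (nat_lit 29) (nat_lit 5) (nat_lit 30) (nat_lit 4) (nat_lit 387) (nat_lit 336) (nat_lit 177)) (XT.nd (nat_lit 78) (nat_lit 152) (nat_lit 0) (XT.lf (nat_lit 0) (nat_lit 5346689122) (nat_lit 152) (nat_lit 48051641579) (nat_lit 76) (nat_lit 61110969411) (nat_lit 27) (nat_lit 5) (nat_lit 29) (nat_lit 5) (nat_lit 28) (nat_lit 5) (nat_lit 388) (nat_lit 336) (nat_lit 176)) (XT.lf (nat_lit 0) (nat_lit 2837979055) (nat_lit 152) (nat_lit 24610671607) (nat_lit 228) (nat_lit 91273723999) (nat_lit 25) (nat_lit 5) (nat_lit 27) (nat_lit 5) (nat_lit 28) (nat_lit 5) (nat_lit 389) (nat_lit 336) (nat_lit 175))))) (XT.nd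 (nat_lit 234) (nat_lit 228) (nat_lit 0) (XT.nd (nat_lit 78) (nat_lit 76) (nat_lit 0) (XT.lf (nat_lit 0) (nat_lit 51569327266) (nat_lit 228) (nat_lit 65268229905) (nat_lit 76) (nat_lit 6262865424) (nat_lit 25) (nat_lit 5) (nat_lit 28) (nat_lit 5) (nat_lit 26) (nat_lit 4) (nat_lit 390) (nat_lit 336) (nat_lit 174)) (XT.nd (nat_lit 78) (nat_lit 76) (nat_lit 0) (XT.lf (nat_lit 0) (nat_lit 77298359221) (nat_lit 228) (nat_lit 12526722091) (nat_lit 76) (nat_lit 37852176021) (nat_lit 25) (nat_lit 5) (nat_lit 28) (nat_lit 5) (nat_lit 26) (nat_lit 4) (nat_lit 391) (nat_lit 336) (nat_lit 173)) (XT.lf (nat_lit 0) (nat_lit 44266757085) (nat_lit 76) (nat_lit 60737135622) (nat_lit 152) (nat_lit 27444539064) (nat_lit 24) (nat_lit 5) (nat_lit 25) (nat_lit 5) (nat_lit 26) (nat_lit 4) (nat_lit 392) (nat_lit 336) (nat_lit 172)))) (XT.nd (nat_lit 78) (nat_lit 228) (nat_lit 0) (XT.lf (nat_lit 0) (nat_lit 104332923935)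 (nat_lit 76) (nat_lit 29972868731) (nat_lit 152) (nat_lit 3141818211) (nat_lit 24) (nat_lit 5) (nat_lit 25) (nat_lit 5) (nat_lit 26) (nat_lit 4) (nat_lit 393) (nat_lit 336) (nat_lit 171)) (XT.nd (nat_lit 78) (nat_lit 0) (nat_lit 0) (XT.lf (nat_lit 0) (nat_lit 22100182622) (nat_lit 228) (nat_lit 117548481994) (nat_lit 76) (nat_lit 3008601241) (nat_lit 21) (nat_lit 5) (nat_lit 24) (nat_lit 5) (nat_lit 22) (nat_lit 4) (nat_lit 394) (nat_lit 336) (nat_lit 170)) (XT.lf (nat_lit 0) (nat_lit 49559048449) (nat_lit 228) (nat_lit 61260163656) (nat_lit 76) (nat_lit 37252599066) (nat_lit 21) (nat_lit 5) (nat_lit 24) (nat_lit 5) (nat_lit 22) (nat_lit 4) (nat_lit 395) (nat_lit 336) (nat_lit 169))))))))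
noncomputable def xc191 : XT := (XT.nd (nat_lit 1794) (nat_lit 152) (nat_lit 0) (XT.nd (nat_lit 858) (nat_lit 380) (nat_lit 0) (XT.nd (nat_lit 390) (nat_lit 228) (nat_lit 0) (XT.nd (nat_lit 156) (nat_lit 152) (nat_lit 0) (XT.nd (nat_lit 78) (nat_lit 76) (nat_lit 0) (XT.lf (nat_lit 0) (nat_lit 78389891123) (nat_lit 228) (nat_lit 2159180561) (nat_lit 76) (nat_lit 73208060749) (nat_lit 21) (nat_lit 5) (nat_lit 24) (nat_lit 5) (nat_lit 22) (nat_lit 4) (nat_lit 396) (nat_lit 336) (nat_lit 168)) (XT.lf (nat_lit 0) (nat_lit 61875589190) (nat_lit 76) (nat_lit 47751817671) (nat_lit 152) (nat_lit 50051056695) (nat_lit 20) (nat_lit 5) (nat_lit 21) (nat_lit 5) (nat_lit 22) (nat_lit 4) (nat_lit 397) (nat_lit 336) (nat_lit 167))) (XT.nd (nat_lit 78) (nat_lit 152) (nat_lit 0) (XT.lf (nat_lit 0) (nat_lit 129185418431) (nat_lit 76) (nat_lit 13277044511) (nat_lit 152) (nat_lit 23431615390) (nat_lit 20) (nat_lit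 5) (nat_lit 21) (nat_lit 5) (nat_lit 22) (nat_lit 4) (nat_lit 398) (nat_lit 336) (nat_lit 166)) (XT.nd (nat_lit 78) (nat_lit 0) (nat_lit 0) (XT.lf (nat_lit 0) (nat_lit 5180966031) (nat_lit 152) (nat_lit 144488133337) (nat_lit 76) (nat_lit 22707507330) (nat_lit 18) (nat_lit 5) (nat_lit 20) (nat_lit 5) (nat_lit 19) (nat_lit 4) (nat_lit 399) (nat_lit 336) (nat_lit 165)) (XT.lf (nat_lit 0) (nat_lit 35285379871) (nat_lit 152) (nat_lit 82775843502) (nat_lit 76) (nat_lit 61060399187) (nat_lit 18) (nat_lit 5) (nat_lit 20) (nat_lit 5) (nat_lit 19) (nat_lit 4) (nat_lit 400) (nat_lit 336) (nat_lit 164))))) (XT.nd (nat_lit 234) (nat_lit 152) (nat_lit 0) (XT.nd (nat_lit 78) (nat_lit 76) (nat_lit 0) (XT.lf (nat_lit 0) (nat_lit 66894188146) (nat_lit 152) (nat_lit 17979461334) (nat_lit 76) (nat_lit 101330281316) (nat_lit 18) (nat_lit 5) (nat_lit 20) (nat_lit 5) (nat_lit 19) (nat_lit 4) (nat_lit 401) (nat_lit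 336) (nat_lit 163)) (XT.nd (nat_lit 78) (nat_lit 0) (nat_lit 0) (XT.lf (nat_lit 0) (nat_lit 51710344218) (nat_lit 76) (nat_lit 49179649097) (nat_lit 152) (nat_lit 92710033561) (nat_lit 17) (nat_lit 5) (nat_lit 18) (nat_lit 5) (nat_lit 19) (nat_lit 4) (nat_lit 402) (nat_lit 336) (nat_lit 162)) (XT.lf (nat_lit 0) (nat_lit 125507420054) (nat_lit 76) (nat_lit 11381887859) (nat_lit 152) (nat_lit 64461434132) (nat_lit 17) (nat_lit 5) (nat_lit 18) (nat_lit 5) (nat_lit 19) (nat_lit 4) (nat_lit 403) (nat_lit 336) (nat_lit 161)))) (XT.nd (nat_lit 78) (nat_lit 152) (nat_lit 0) (XT.lf (nat_lit 0) (nat_lit 175129775811) (nat_lit 152) (nat_lit 6937961176) (nat_lit 0) (nat_lit 27399196839) (nat_lit 17) (nat_lit 5) (nat_lit 19) (nat_lit 4) (nat_lit 17) (nat_lit 4) (nat_lit 404) (nat_lit 336) (nat_lit 160)) (XT.nd (nat_lit 78) (nat_lit 76) (nat_lit 0) (XT.lf (nat_lit 0) (nat_lit 67381384834) (nat_lit 76)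 (nat_lit 149138773617) (nat_lit 76) (nat_lit 1406882399) (nat_lit 16) (nat_lit 4) (nat_lit 17) (nat_lit 5) (nat_lit 17) (nat_lit 4) (nat_lit 405) (nat_lit 336) (nat_lit 159)) (XT.lf (nat_lit 0) (nat_lit 32226979407) (nat_lit 152) (nat_lit 81667833192) (nat_lit 76) (nat_lit 112883511237) (nat_lit 15) (nat_lit 5) (nat_lit 17) (nat_lit 5) (nat_lit 16) (nat_lit 4) (nat_lit 406) (nat_lit 336) (nat_lit 158)))))) (XT.nd (nat_lit 468) (nat_lit 228) (nat_lit 0) (XT.nd (nat_lit 234) (nat_lit 76) (nat_lit 0) (XT.nd (nat_lit 78) (nat_lit 76) (nat_lit 0) (XT.lf (nat_lit 0) (nat_lit 67494580174) (nat_lit 152) (nat_lit 9370441865) (nat_lit 76) (nat_lit 159206029623) (nat_lit 15) (nat_lit 5) (nat_lit 17) (nat_lit 5) (nat_lit 16) (nat_lit 4) (nat_lit 407) (nat_lit 336) (nat_lit 157)) (XT.nd (nat_lit 78) (nat_lit 0) (nat_lit 0) (XT.lf (nat_lit 0) (nat_lit 68740753387) (nat_lit 76) (nat_lit 36857401821) (nat_lit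 152) (nat_lit 140176631143) (nat_lit 14) (nat_lit 5) (nat_lit 15) (nat_lit 5) (nat_lit 16) (nat_lit 4) (nat_lit 408) (nat_lit 336) (nat_lit 156)) (XT.lf (nat_lit 0) (nat_lit 145847980743) (nat_lit 152) (nat_lit 104957163713) (nat_lit 0) (nat_lit 5146509904) (nat_lit 14) (nat_lit 5) (nat_lit 16) (nat_lit 4) (nat_lit 14) (nat_lit 4) (nat_lit 409) (nat_lit 336) (nat_lit 155)))) (XT.nd (nat_lit 78) (nat_lit 76) (nat_lit 0) (XT.lf (nat_lit 0) (nat_lit 188713909602) (nat_lit 152) (nat_lit 29881816184) (nat_lit 0) (nat_lit 48011459545) (nat_lit 14) (nat_lit 5) (nat_lit 16) (nat_lit 4) (nat_lit 14) (nat_lit 4) (nat_lit 410) (nat_lit 336) (nat_lit 154)) (XT.nd (nat_lit 78) (nat_lit 0) (nat_lit 0) (XT.lf (nat_lit 0) (nat_lit 50564590461) (nat_lit 76) (nat_lit 183947420691) (nat_lit 76) (nat_lit 43244038045) (nat_lit 13) (nat_lit 4) (nat_lit 14) (nat_lit 5) (nat_lit 14) (nat_lit 4) (nat_lit 411) (nat_lit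 336) (nat_lit 153)) (XT.lf (nat_lit 0) (nat_lit 136069673282) (nat_lit 76) (nat_lit 147035839597) (nat_lit 76) (nat_lit 6331568771) (nat_lit 13) (nat_lit 4) (nat_lit 14) (nat_lit 5) (nat_lit 14) (nat_lit 4) (nat_lit 412) (nat_lit 336) (nat_lit 152))))) (XT.nd (nat_lit 234) (nat_lit 76) (nat_lit 0) (XT.nd (nat_lit 78) (nat_lit 76) (nat_lit 0) (XT.lf (nat_lit 0) (nat_lit 31388122813) (nat_lit 152) (nat_lit 76359464943) (nat_lit 76) (nat_lit 193929292154) (nat_lit 12) (nat_lit 5) (nat_lit 14) (nat_lit 5) (nat_lit 13) (nat_lit 4) (nat_lit 413) (nat_lit 336) (nat_lit 151)) (XT.nd (nat_lit 78) (nat_lit 0) (nat_lit 0) (XT.lf (nat_lit 0) (nat_lit 4539376856) (nat_lit 76) (nat_lit 66311988594) (nat_lit 152) (nat_lit 243668595517) (nat_lit 11) (nat_lit 5) (nat_lit 12) (nat_lit 5) (nat_lit 13) (nat_lit 4) (nat_lit 414) (nat_lit 336) (nat_lit 150)) (XT.lf (nat_lit 0) (nat_lit 92133213932) (nat_lit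 76) (nat_lit 21447226796) (nat_lit 152) (nat_lit 214360121947) (nat_lit 11) (nat_lit 5) (nat_lit 12) (nat_lit 5) (nat_lit 13) (nat_lit 4) (nat_lit 415) (nat_lit 336) (nat_lit 149)))) (XT.nd (nat_lit 78) (nat_lit 76) (nat_lit 0) (XT.lf (nat_lit 0) (nat_lit 158846109994) (nat_lit 152) (nat_lit 158327034509) (nat_lit 0) (nat_lit 24839043071) (nat_lit 11) (nat_lit 5) (nat_lit 13) (nat_lit 4) (nat_lit 11) (nat_lit 4) (nat_lit 416) (nat_lit 336) (nat_lit 148)) (XT.nd (nat_lit 78) (nat_lit 76) (nat_lit 0) (XT.lf (nat_lit 0) (nat_lit 206726183883) (nat_lit 152) (nat_lit 77325199702) (nat_lit 0) (nat_lit 72718454186) (nat_lit 11) (nat_lit 5) (nat_lit 13) (nat_lit 4) (nat_lit 11) (nat_lit 4) (nat_lit 417) (nat_lit 336) (nat_lit 147)) (XT.lf (nat_lit 0) (nat_lit 7981320608) (nat_lit 76) (nat_lit 249143101429) (nat_lit 76) (nat_lit 115134740519) (nat_lit 10) (nat_lit 4) (nat_lit 11) (nat_lit 5) (nat_lit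 11) (nat_lit 4) (nat_lit 418) (nat_lit 336) (nat_lit 146))))))) (XT.nd (nat_lit 40716) (nat_lit 0) (nat_lit 5928) (XT.nd (nat_lit 390) (nat_lit 0) (nat_lit 0) (XT.nd (nat_lit 156) (nat_lit 152) (nat_lit 0) (XT.nd (nat_lit 78) (nat_lit 0) (nat_lit 0) (XT.lf (nat_lit 0) (nat_lit 100236878766) (nat_lit 76) (nat_lit 211114791047) (nat_lit 76) (nat_lit 77105828982) (nat_lit 10) (nat_lit 4) (nat_lit 11) (nat_lit 5) (nat_lit 11) (nat_lit 4) (nat_lit 419) (nat_lit 336) (nat_lit 145)) (XT.lf (nat_lit 0) (nat_lit 197104410550) (nat_lit 76) (nat_lit 171185448516) (nat_lit 76) (nat_lit 37175913922) (nat_lit 10) (nat_lit 4) (nat_lit 11) (nat_lit 5) (nat_lit 11) (nat_lit 4) (nat_lit 420) (nat_lit 336) (nat_lit 144))) (XT.nd (nat_lit 78) (nat_lit 76) (nat_lit 0) (XT.lf (nat_lit 0) (nat_lit 4598043792) (nat_lit 152) (nat_lit 124584090085) (nat_lit 76) (nat_lit 294138639051) (nat_lit 9) (nat_lit 5) (nat_lit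 11) (nat_lit 5) (nat_lit 10) (nat_lit 4) (nat_lit 421) (nat_lit 336) (nat_lit 143)) (XT.nd (nat_lit 78) (nat_lit 76) (nat_lit 0) (XT.lf (nat_lit 0) (nat_lit 47210956786) (nat_lit 152) (nat_lit 37228137748) (nat_lit 76) (nat_lit 357598975758) (nat_lit 9) (nat_lit 5) (nat_lit 11) (nat_lit 5) (nat_lit 10) (nat_lit 4) (nat_lit 422) (nat_lit 336) (nat_lit 142)) (XT.lf (nat_lit 0) (nat_lit 56296752803) (nat_lit 76) (nat_lit 36536343067) (nat_lit 152) (nat_lit 368814207712) (nat_lit 8) (nat_lit 5) (nat_lit 9) (nat_lit 5) (nat_lit 10) (nat_lit 4) (nat_lit 423) (nat_lit 336) (nat_lit 141))))) (XT.nd (nat_lit 40092) (nat_lit 0) (nat_lit 6764) (XT.nd (nat_lit 78) (nat_lit 0) (nat_lit 0) (XT.lf (nat_lit 0) (nat_lit 141591642321) (nat_lit 152) (nat_lit 326641010620) (nat_lit 0) (nat_lit 13961580651) (nat_lit 8) (nat_lit 5) (nat_lit 10) (nat_lit 4) (nat_lit 8) (nat_lit 4) (nat_lit 424) (nat_lit 336)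 (nat_lit 140)) (XT.nd (nat_lit 78) (nat_lit 0) (nat_lit 0) (XT.lf (nat_lit 0) (nat_lit 193386721970) (nat_lit 152) (nat_lit 244595624841) (nat_lit 0) (nat_lit 65756233070) (nat_lit 8) (nat_lit 5) (nat_lit 10) (nat_lit 4) (nat_lit 8) (nat_lit 4) (nat_lit 425) (nat_lit 336) (nat_lit 139)) (XT.lf (nat_lit 0) (nat_lit 247771221727) (nat_lit 152) (nat_lit 158448612576) (nat_lit 0) (nat_lit 120140325942) (nat_lit 8) (nat_lit 5) (nat_lit 10) (nat_lit 4) (nat_lit 8) (nat_lit 4) (nat_lit 426) (nat_lit 336) (nat_lit 138)))) (XT.nd (nat_lit 78) (nat_lit 760) (nat_lit 0) (XT.lf (nat_lit 0) (nat_lit 6150580984) (nat_lit 0) (nat_lit 6150580984) (nat_lit 684) (nat_lit 135979994) (nat_lit 107) (nat_lit 5) (nat_lit 107) (nat_lit 3) (nat_lit 116) (nat_lit 3) (nat_lit 337) (nat_lit 337) (nat_lit 226)) (XT.nd (nat_lit 78) (nat_lit 760) (nat_lit 0) (XT.lf (nat_lit 0) (nat_lit 24572416196) (nat_lit 0) (nat_lit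 745678367) (nat_lit 684) (nat_lit 172876693) (nat_lit 107) (nat_lit 5) (nat_lit 107) (nat_lit 3) (nat_lit 116) (nat_lit 3) (nat_lit 338) (nat_lit 337) (nat_lit 225)) (XT.lf (nat_lit 0) (nat_lit 290140397) (nat_lit 760) (nat_lit 14620035386) (nat_lit 836) (nat_lit 11210540271) (nat_lit 97) (nat_lit 5) (nat_lit 107) (nat_lit 5) (nat_lit 108) (nat_lit 5) (nat_lit 339) (nat_lit 337) (nat_lit 224)))))) (XT.nd (nat_lit 468) (nat_lit 836) (nat_lit 0) (XT.nd (nat_lit 234) (nat_lit 0) (nat_lit 152) (XT.nd (nat_lit 78) (nat_lit 0) (nat_lit 76) (XT.lf (nat_lit 0) (nat_lit 792277983) (nat_lit 760) (nat_lit 2227476426) (nat_lit 836) (nat_lit 23760970799) (nat_lit 97) (nat_lit 5) (nat_lit 107) (nat_lit 5) (nat_lit 108) (nat_lit 5) (nat_lit 340) (nat_lit 337) (nat_lit 223)) (XT.nd (nat_lit 78) (nat_lit 0) (nat_lit 0) (XT.lf (nat_lit 0) (nat_lit 1638119370) (nat_lit 760) (nat_lit 16478410338) (nat_lit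 836) (nat_lit 9341282680) (nat_lit 98) (nat_lit 5) (nat_lit 108) (nat_lit 5) (nat_lit 109) (nat_lit 5) (nat_lit 341) (nat_lit 337) (nat_lit 222)) (XT.lf (nat_lit 0) (nat_lit 2608403833) (nat_lit 760) (nat_lit 3296885210) (nat_lit 836) (nat_lit 22259364399) (nat_lit 98) (nat_lit 5) (nat_lit 108) (nat_lit 5) (nat_lit 109) (nat_lit 5) (nat_lit 342) (nat_lit 337) (nat_lit 221)))) (XT.nd (nat_lit 78) (nat_lit 0) (nat_lit 0) (XT.lf (nat_lit 0) (nat_lit 3902579959) (nat_lit 760) (nat_lit 18120865978) (nat_lit 836) (nat_lit 6869628469) (nat_lit 99) (nat_lit 5) (nat_lit 109) (nat_lit 5) (nat_lit 110) (nat_lit 5) (nat_lit 343) (nat_lit 337) (nat_lit 220)) (XT.nd (nat_lit 78) (nat_lit 0) (nat_lit 76) (XT.lf (nat_lit 0) (nat_lit 5409825878) (nat_lit 760) (nat_lit 4097533198) (nat_lit 836) (nat_lit 20143145699) (nat_lit 99) (nat_lit 5) (nat_lit 109) (nat_lit 5) (nat_lit 110) (nat_lit 5) (nat_lit 344)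 (nat_lit 337) (nat_lit 219)) (XT.lf (nat_lit 0) (nat_lit 7218400975) (nat_lit 760) (nat_lit 19522564134) (nat_lit 836) (nat_lit 3693549312) (nat_lit 100) (nat_lit 5) (nat_lit 110) (nat_lit 5) (nat_lit 111) (nat_lit 5) (nat_lit 345) (nat_lit 337) (nat_lit 218))))) (XT.nd (nat_lit 234) (nat_lit 1064) (nat_lit 0) (XT.nd (nat_lit 78) (nat_lit 0) (nat_lit 0) (XT.lf (nat_lit 0) (nat_lit 9339041232) (nat_lit 760) (nat_lit 4601004057) (nat_lit 836) (nat_lit 17306603252) (nat_lit 100) (nat_lit 5) (nat_lit 110) (nat_lit 5) (nat_lit 111) (nat_lit 5) (nat_lit 346) (nat_lit 337) (nat_lit 217)) (XT.nd (nat_lit 78) (nat_lit 0) (nat_lit 76) (XT.lf (nat_lit 76) (nat_lit 11428691827) (nat_lit 0) (nat_lit 310928679) (nat_lit 836) (nat_lit 20351079046) (nat_lit 101) (nat_lit 5) (nat_lit 100) (nat_lit 5) (nat_lit 111) (nat_lit 5) (nat_lit 347) (nat_lit 337) (nat_lit 216)) (XT.lf (nat_lit 0) (nat_lit 14553642253)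 (nat_lit 760) (nat_lit 4777205286) (nat_lit 76) (nat_lit 13631440170) (nat_lit 101) (nat_lit 5) (nat_lit 111) (nat_lit 5) (nat_lit 102) (nat_lit 5) (nat_lit 348) (nat_lit 337) (nat_lit 215)))) (XT.nd (nat_lit 78) (nat_lit 380) (nat_lit 0) (XT.lf (nat_lit 0) (nat_lit 12286256931) (nat_lit 760) (nat_lit 5414877987) (nat_lit 836) (nat_lit 16166686884) (nat_lit 91) (nat_lit 5) (nat_lit 101) (nat_lit 5) (nat_lit 102) (nat_lit 5) (nat_lit 349) (nat_lit 337) (nat_lit 214)) (XT.nd (nat_lit 78) (nat_lit 380) (nat_lit 0) (XT.lf (nat_lit 0) (nat_lit 21227817713) (nat_lit 836) (nat_lit 4594627705) (nat_lit 76) (nat_lit 8985101189) (nat_lit 91) (nat_lit 5) (nat_lit 102) (nat_lit 5) (nat_lit 92) (nat_lit 5) (nat_lit 350) (nat_lit 337) (nat_lit 213)) (XT.lf (nat_lit 0) (nat_lit 13583973301) (nat_lit 380) (nat_lit 11643900095) (nat_lit 456) (nat_lit 10551536873) (nat_lit 86) (nat_lit 5) (nat_lit 91) (nat_lit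 5) (nat_lit 92) (nat_lit 5) (nat_lit 351) (nat_lit 337) (nat_lit 212))))))))
noncomputable def xc192 : XT := (XT.nd (nat_lit 1716) (nat_lit 1900) (nat_lit 0) (XT.nd (nat_lit 858) (nat_lit 1064) (nat_lit 0) (XT.nd (nat_lit 390) (nat_lit 1216) (nat_lit 0) (XT.nd (nat_lit 156) (nat_lit 456) (nat_lit 0) (XT.nd (nat_lit 78) (nat_lit 304) (nat_lit 0) (XT.lf (nat_lit 0) (nat_lit 29553973276) (nat_lit 456) (nat_lit 4020690689) (nat_lit 76) (nat_lit 3218905415) (nat_lit 86) (nat_lit 5) (nat_lit 92) (nat_lit 5) (nat_lit 87) (nat_lit 5) (nat_lit 352) (nat_lit 337) (nat_lit 211)) (XT.lf (nat_lit 0) (nat_lit 15359886563) (nat_lit 304) (nat_lit 19163673975) (nat_lit 380) (nat_lit 3313520919) (nat_lit 82) (nat_lit 5) (nat_lit 86) (nat_lit 5) (nat_lit 87) (nat_lit 5) (nat_lit 353) (nat_lit 337) (nat_lit 210))) (XT.nd (nat_lit 78) (nat_lit 380) (nat_lit 0) (XT.lf (nat_lit 0) (nat_lit 848717881) (nat_lit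 380) (nat_lit 3097721903) (nat_lit 76) (nat_lit 34982414255) (nat_lit 81) (nat_lit 5) (nat_lit 86) (nat_lit 5) (nat_lit 82) (nat_lit 5) (nat_lit 354) (nat_lit 337) (nat_lit 209)) (XT.nd (nat_lit 78) (nat_lit 0) (nat_lit 0) (XT.lf (nat_lit 0) (nat_lit 5575002590) (nat_lit 456) (nat_lit 22490722658) (nat_lit 76) (nat_lit 11983413069) (nat_lit 76) (nat_lit 5) (nat_lit 82) (nat_lit 5) (nat_lit 77) (nat_lit 5) (nat_lit 355) (nat_lit 337) (nat_lit 208)) (XT.lf (nat_lit 0) (nat_lit 10652421911) (nat_lit 456) (nat_lit 1937084181) (nat_lit 76) (nat_lit 28630193097) (nat_lit 76) (nat_lit 5) (nat_lit 82) (nat_lit 5) (nat_lit 77) (nat_lit 5) (nat_lit 356) (nat_lit 337) (nat_lit 207))))) (XT.nd (nat_lit 234) (nat_lit 608) (nat_lit 0) (XT.nd (nat_lit 78) (nat_lit 304) (nat_lit 0) (XT.lf (nat_lit 0) (nat_lit 16359792495) (nat_lit 380) (nat_lit 22205241098) (nat_lit 76) (nat_lit 3864953732) (nat_lit 72)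 (nat_lit 5) (nat_lit 77) (nat_lit 5) (nat_lit 73) (nat_lit 5) (nat_lit 357) (nat_lit 337) (nat_lit 206)) (XT.nd (nat_lit 78) (nat_lit 304) (nat_lit 0) (XT.lf (nat_lit 0) (nat_lit 22589300774) (nat_lit 380) (nat_lit 347689893) (nat_lit 76) (nat_lit 20751963824) (nat_lit 72) (nat_lit 5) (nat_lit 77) (nat_lit 5) (nat_lit 73) (nat_lit 5) (nat_lit 358) (nat_lit 337) (nat_lit 205)) (XT.lf (nat_lit 0) (nat_lit 23346608034) (nat_lit 304) (nat_lit 6145363908) (nat_lit 380) (nat_lit 15500816636) (nat_lit 68) (nat_lit 5) (nat_lit 72) (nat_lit 5) (nat_lit 73) (nat_lit 5) (nat_lit 359) (nat_lit 337) (nat_lit 204)))) (XT.nd (nat_lit 78) (nat_lit 380) (nat_lit 0) (XT.lf (nat_lit 0) (nat_lit 1749293118) (nat_lit 228) (nat_lit 35200360913) (nat_lit 304) (nat_lit 9401669266) (nat_lit 65) (nat_lit 5) (nat_lit 68) (nat_lit 5) (nat_lit 69) (nat_lit 5) (nat_lit 360) (nat_lit 337) (nat_lit 203)) (XT.nd (nat_lit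 78) (nat_lit 380) (nat_lit 0) (XT.lf (nat_lit 0) (nat_lit 26958583468) (nat_lit 228) (nat_lit 18284676830) (nat_lit 304) (nat_lit 2511375112) (nat_lit 65) (nat_lit 5) (nat_lit 68) (nat_lit 5) (nat_lit 69) (nat_lit 5) (nat_lit 361) (nat_lit 337) (nat_lit 202)) (XT.lf (nat_lit 0) (nat_lit 4259494296) (nat_lit 304) (nat_lit 376678390) (nat_lit 380) (nat_lit 44585059640) (nat_lit 60) (nat_lit 5) (nat_lit 64) (nat_lit 5) (nat_lit 65) (nat_lit 5) (nat_lit 362) (nat_lit 337) (nat_lit 201)))))) (XT.nd (nat_lit 390) (nat_lit 608) (nat_lit 0) (XT.nd (nat_lit 156) (nat_lit 228) (nat_lit 0) (XT.nd (nat_lit 78) (nat_lit 228) (nat_lit 0) (XT.lf (nat_lit 0) (nat_lit 12699832879) (nat_lit 380) (nat_lit 19791754188) (nat_lit 76) (nat_lit 18235359133) (nat_lit 60) (nat_lit 5) (nat_lit 65) (nat_lit 5) (nat_lit 61) (nat_lit 5) (nat_lit 363) (nat_lit 337) (nat_lit 200)) (XT.lf (nat_lit 0) (nat_lit 6846466305)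 (nat_lit 228) (nat_lit 14430873650) (nat_lit 304) (nat_lit 31025074810) (nat_lit 57) (nat_lit 5) (nat_lit 60) (nat_lit 5) (nat_lit 61) (nat_lit 5) (nat_lit 364) (nat_lit 337) (nat_lit 199))) (XT.nd (nat_lit 78) (nat_lit 228) (nat_lit 0) (XT.lf (nat_lit 0) (nat_lit 30692819440) (nat_lit 304) (nat_lit 18515711852) (nat_lit 76) (nat_lit 4727672699) (nat_lit 57) (nat_lit 5) (nat_lit 61) (nat_lit 5) (nat_lit 58) (nat_lit 5) (nat_lit 365) (nat_lit 337) (nat_lit 198)) (XT.nd (nat_lit 78) (nat_lit 0) (nat_lit 0) (XT.lf (nat_lit 0) (nat_lit 9847015264) (nat_lit 228) (nat_lit 31120129247) (nat_lit 304) (nat_lit 14665136572) (nat_lit 54) (nat_lit 5) (nat_lit 57) (nat_lit 5) (nat_lit 58) (nat_lit 5) (nat_lit 366) (nat_lit 337) (nat_lit 197)) (XT.lf (nat_lit 0) (nat_lit 40267637086) (nat_lit 228) (nat_lit 11798940488) (nat_lit 304) (nat_lit 5331016763) (nat_lit 54) (nat_lit 5) (nat_lit 57) (nat_lit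 5) (nat_lit 58) (nat_lit 5) (nat_lit 367) (nat_lit 337) (nat_lit 196))))) (XT.nd (nat_lit 234) (nat_lit 152) (nat_lit 0) (XT.nd (nat_lit 78) (nat_lit 228) (nat_lit 0) (XT.lf (nat_lit 0) (nat_lit 4669526157) (nat_lit 228) (nat_lit 46063076448) (nat_lit 76) (nat_lit 8497944105) (nat_lit 51) (nat_lit 5) (nat_lit 54) (nat_lit 5) (nat_lit 52) (nat_lit 5) (nat_lit 368) (nat_lit 337) (nat_lit 195)) (XT.nd (nat_lit 78) (nat_lit 228) (nat_lit 0) (XT.lf (nat_lit 0) (nat_lit 15477152380) (nat_lit 228) (nat_lit 15854767132) (nat_lit 76) (nat_lit 29794548474) (nat_lit 51) (nat_lit 5) (nat_lit 54) (nat_lit 5) (nat_lit 52) (nat_lit 5) (nat_lit 369) (nat_lit 337) (nat_lit 194)) (XT.lf (nat_lit 0) (nat_lit 16385507214) (nat_lit 228) (nat_lit 10693503155) (nat_lit 304) (nat_lit 36025483993) (nat_lit 48) (nat_lit 5) (nat_lit 51) (nat_lit 5) (nat_lit 52) (nat_lit 5) (nat_lit 370) (nat_lit 337) (nat_lit 193))))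 (XT.nd (nat_lit 78) (nat_lit 152) (nat_lit 0) (XT.lf (nat_lit 0) (nat_lit 39703312332) (nat_lit 304) (nat_lit 14558466290) (nat_lit 76) (nat_lit 10897527362) (nat_lit 48) (nat_lit 5) (nat_lit 52) (nat_lit 5) (nat_lit 49) (nat_lit 5) (nat_lit 371) (nat_lit 337) (nat_lit 192)) (XT.nd (nat_lit 78) (nat_lit 0) (nat_lit 0) (XT.lf (nat_lit 0) (nat_lit 19661274449) (nat_lit 152) (nat_lit 33777980161) (nat_lit 228) (nat_lit 13853583728) (nat_lit 46) (nat_lit 5) (nat_lit 48) (nat_lit 5) (nat_lit 49) (nat_lit 5) (nat_lit 372) (nat_lit 337) (nat_lit 191)) (XT.lf (nat_lit 0) (nat_lit 56094697844) (nat_lit 152) (nat_lit 12012050211) (nat_lit 228) (nat_lit 1414062897) (nat_lit 46) (nat_lit 5) (nat_lit 48) (nat_lit 5) (nat_lit 49) (nat_lit 5) (nat_lit 373) (nat_lit 337) (nat_lit 190))))))) (XT.nd (nat_lit 858) (nat_lit 760) (nat_lit 0) (XT.nd (nat_lit 390) (nat_lit 532) (nat_lit 0) (XT.nd (nat_lit 156)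 (nat_lit 304) (nat_lit 0) (XT.nd (nat_lit 78) (nat_lit 0) (nat_lit 0) (XT.lf (nat_lit 0) (nat_lit 11810799793) (nat_lit 304) (nat_lit 48968732961) (nat_lit 76) (nat_lit 11044750386) (nat_lit 42) (nat_lit 5) (nat_lit 46) (nat_lit 5) (nat_lit 43) (nat_lit 5) (nat_lit 374) (nat_lit 337) (nat_lit 189)) (XT.lf (nat_lit 0) (nat_lit 26075691300) (nat_lit 304) (nat_lit 13040665385) (nat_lit 76) (nat_lit 35104098973) (nat_lit 42) (nat_lit 5) (nat_lit 46) (nat_lit 5) (nat_lit 43) (nat_lit 5) (nat_lit 375) (nat_lit 337) (nat_lit 188))) (XT.nd (nat_lit 78) (nat_lit 152) (nat_lit 0) (XT.lf (nat_lit 0) (nat_lit 25497308603) (nat_lit 152) (nat_lit 15952968351) (nat_lit 228) (nat_lit 35266338475) (nat_lit 40) (nat_lit 5) (nat_lit 42) (nat_lit 5) (nat_lit 43) (nat_lit 5) (nat_lit 376) (nat_lit 337) (nat_lit 187)) (XT.nd (nat_lit 78) (nat_lit 152) (nat_lit 0) (XT.lf (nat_lit 0) (nat_lit 57947108443) (nat_lit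 228) (nat_lit 13048489515) (nat_lit 76) (nat_lit 8324310457) (nat_lit 40) (nat_lit 5) (nat_lit 43) (nat_lit 5) (nat_lit 41) (nat_lit 5) (nat_lit 377) (nat_lit 337) (nat_lit 186)) (XT.lf (nat_lit 0) (nat_lit 27651906922) (nat_lit 152) (nat_lit 48308588081) (nat_lit 228) (nat_lit 6058286375) (nat_lit 38) (nat_lit 5) (nat_lit 40) (nat_lit 5) (nat_lit 41) (nat_lit 5) (nat_lit 378) (nat_lit 337) (nat_lit 185))))) (XT.nd (nat_lit 234) (nat_lit 304) (nat_lit 0) (XT.nd (nat_lit 78) (nat_lit 152) (nat_lit 0) (XT.lf (nat_lit 0) (nat_lit 9924268230) (nat_lit 228) (nat_lit 14163787869) (nat_lit 76) (nat_lit 60745565243) (nat_lit 37) (nat_lit 5) (nat_lit 40) (nat_lit 5) (nat_lit 38) (nat_lit 5) (nat_lit 379) (nat_lit 337) (nat_lit 184)) (XT.nd (nat_lit 78) (nat_lit 0) (nat_lit 0) (XT.lf (nat_lit 0) (nat_lit 26981650214) (nat_lit 228) (nat_lit 58919900018) (nat_lit 76) (nat_lit 1858723239) (nat_lit 35)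 (nat_lit 5) (nat_lit 38) (nat_lit 5) (nat_lit 36) (nat_lit 5) (nat_lit 380) (nat_lit 337) (nat_lit 183)) (XT.lf (nat_lit 0) (nat_lit 45529156902) (nat_lit 228) (nat_lit 16735989671) (nat_lit 76) (nat_lit 28536249679) (nat_lit 35) (nat_lit 5) (nat_lit 38) (nat_lit 5) (nat_lit 36) (nat_lit 5) (nat_lit 381) (nat_lit 337) (nat_lit 182)))) (XT.nd (nat_lit 78) (nat_lit 152) (nat_lit 0) (XT.lf (nat_lit 0) (nat_lit 28465933258) (nat_lit 152) (nat_lit 36981173453) (nat_lit 228) (nat_lit 28525315859) (nat_lit 33) (nat_lit 5) (nat_lit 35) (nat_lit 5) (nat_lit 36) (nat_lit 5) (nat_lit 382) (nat_lit 337) (nat_lit 181)) (XT.nd (nat_lit 78) (nat_lit 152) (nat_lit 0) (XT.lf (nat_lit 0) (nat_lit 76506754156) (nat_lit 152) (nat_lit 10136296862) (nat_lit 228) (nat_lit 10644845084) (nat_lit 33) (nat_lit 5) (nat_lit 35) (nat_lit 5) (nat_lit 36) (nat_lit 5) (nat_lit 383) (nat_lit 337) (nat_lit 180)) (XT.lf (nat_lit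 0) (nat_lit 8579119371) (nat_lit 152) (nat_lit 74119881100) (nat_lit 76) (nat_lit 18028313703) (nat_lit 31) (nat_lit 5) (nat_lit 33) (nat_lit 5) (nat_lit 32) (nat_lit 5) (nat_lit 384) (nat_lit 337) (nat_lit 179)))))) (XT.nd (nat_lit 468) (nat_lit 304) (nat_lit 0) (XT.nd (nat_lit 234) (nat_lit 304) (nat_lit 0) (XT.nd (nat_lit 78) (nat_lit 152) (nat_lit 0) (XT.lf (nat_lit 0) (nat_lit 28929144024) (nat_lit 152) (nat_lit 27582825263) (nat_lit 76) (nat_lit 47791879299) (nat_lit 31) (nat_lit 5) (nat_lit 33) (nat_lit 5) (nat_lit 32) (nat_lit 5) (nat_lit 385) (nat_lit 337) (nat_lit 178)) (XT.nd (nat_lit 78) (nat_lit 0) (nat_lit 0) (XT.lf (nat_lit 0) (nat_lit 21982581078) (nat_lit 152) (nat_lit 28656080991) (nat_lit 228) (nat_lit 57403448657) (nat_lit 29) (nat_lit 5) (nat_lit 31) (nat_lit 5) (nat_lit 32) (nat_lit 5) (nat_lit 386) (nat_lit 337) (nat_lit 177)) (XT.lf (nat_lit 0) (nat_lit 73916489606)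 (nat_lit 228) (nat_lit 36979063785) (nat_lit 76) (nat_lit 1047591490) (nat_lit 29) (nat_lit 5) (nat_lit 32) (nat_lit 5) (nat_lit 30) (nat_lit 4) (nat_lit 387) (nat_lit 337) (nat_lit 176)))) (XT.nd (nat_lit 78) (nat_lit 228) (nat_lit 0) (XT.lf (nat_lit 0) (nat_lit 14549327302) (nat_lit 76) (nat_lit 84504661264) (nat_lit 152) (nat_lit 16950453734) (nat_lit 28) (nat_lit 5) (nat_lit 29) (nat_lit 5) (nat_lit 30) (nat_lit 4) (nat_lit 388) (nat_lit 337) (nat_lit 175)) (XT.nd (nat_lit 78) (nat_lit 152) (nat_lit 0) (XT.lf (nat_lit 0) (nat_lit 5649162065) (nat_lit 152) (nat_lit 50392659760) (nat_lit 76) (nat_lit 64191170781) (nat_lit 27) (nat_lit 5) (nat_lit 29) (nat_lit 5) (nat_lit 28) (nat_lit 5) (nat_lit 389) (nat_lit 337) (nat_lit 174)) (XT.lf (nat_lit 0) (nat_lit 3040448939) (nat_lit 152) (nat_lit 25815045163) (nat_lit 228) (nat_lit 95801263901) (nat_lit 25) (nat_lit 5) (nat_lit 27) (nat_lit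 5) (nat_lit 28) (nat_lit 5) (nat_lit 390) (nat_lit 337) (nat_lit 173))))) (XT.nd (nat_lit 234) (nat_lit 228) (nat_lit 0) (XT.nd (nat_lit 78) (nat_lit 76) (nat_lit 0) (XT.lf (nat_lit 0) (nat_lit 54180954904) (nat_lit 228) (nat_lit 68472691028) (nat_lit 76) (nat_lit 6600125591) (nat_lit 25) (nat_lit 5) (nat_lit 28) (nat_lit 5) (nat_lit 26) (nat_lit 4) (nat_lit 391) (nat_lit 337) (nat_lit 172)) (XT.nd (nat_lit 78) (nat_lit 76) (nat_lit 0) (XT.lf (nat_lit 0) (nat_lit 81194859348) (nat_lit 228) (nat_lit 13096914984) (nat_lit 76) (nat_lit 39767753294) (nat_lit 25) (nat_lit 5) (nat_lit 28) (nat_lit 5) (nat_lit 26) (nat_lit 4) (nat_lit 392) (nat_lit 337) (nat_lit 171)) (XT.lf (nat_lit 0) (nat_lit 46535332615) (nat_lit 76) (nat_lit 63749695395) (nat_lit 152) (nat_lit 28784265491) (nat_lit 24) (nat_lit 5) (nat_lit 25) (nat_lit 5) (nat_lit 26) (nat_lit 4) (nat_lit 393) (nat_lit 337) (nat_lit 170))))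 (XT.nd (nat_lit 78) (nat_lit 228) (nat_lit 0) (XT.lf (nat_lit 0) (nat_lit 109602177443) (nat_lit 76) (nat_lit 31448372160) (nat_lit 152) (nat_lit 3267956240) (nat_lit 24) (nat_lit 5) (nat_lit 25) (nat_lit 5) (nat_lit 26) (nat_lit 4) (nat_lit 394) (nat_lit 337) (nat_lit 169)) (XT.nd (nat_lit 78) (nat_lit 0) (nat_lit 0) (XT.lf (nat_lit 0) (nat_lit 23234915797) (nat_lit 228) (nat_lit 123372047235) (nat_lit 76) (nat_lit 3181668838) (nat_lit 21) (nat_lit 5) (nat_lit 24) (nat_lit 5) (nat_lit 22) (nat_lit 4) (nat_lit 395) (nat_lit 337) (nat_lit 168)) (XT.lf (nat_lit 0) (nat_lit 52065309484) (nat_lit 228) (nat_lit 64271877688) (nat_lit 76) (nat_lit 39136788577) (nat_lit 21) (nat_lit 5) (nat_lit 24) (nat_lit 5) (nat_lit 22) (nat_lit 4) (nat_lit 396) (nat_lit 337) (nat_lit 167))))))))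
noncomputable def xc193 : XT := (XT.nd (nat_lit 1716) (nat_lit 228) (nat_lit 0) (XT.nd (nat_lit 858) (nat_lit 304) (nat_lit 0) (XT.nd (nat_lit 390) (nat_lit 228) (nat_lit 0) (XT.nd (nat_lit 156) (nat_lit 152) (nat_lit 0) (XT.nd (nat_lit 78) (nat_lit 76) (nat_lit 0) (XT.lf (nat_lit 0) (nat_lit 82336346263) (nat_lit 228) (nat_lit 2218288017) (nat_lit 76) (nat_lit 76888996699) (nat_lit 21) (nat_lit 5) (nat_lit 24) (nat_lit 5) (nat_lit 22) (nat_lit 4) (nat_lit 397) (nat_lit 337) (nat_lit 166)) (XT.lf (nat_lit 0) (nat_lit 65017432293) (nat_lit 76) (nat_lit 50117772065) (nat_lit 152) (nat_lit 52525851448) (nat_lit 20) (nat_lit 5) (nat_lit 21) (nat_lit 5) (nat_lit 22) (nat_lit 4) (nat_lit 398) (nat_lit 337) (nat_lit 165))) (XT.nd (nat_lit 78) (nat_lit 152) (nat_lit 0) (XT.lf (nat_lit 0) (nat_lit 135690464251) (nat_lit 76) (nat_lit 13920290557) (nat_lit 152) (nat_lit 24576759892) (nat_lit 20) (nat_lit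 5) (nat_lit 21) (nat_lit 5) (nat_lit 22) (nat_lit 4) (nat_lit 399) (nat_lit 337) (nat_lit 164)) (XT.nd (nat_lit 78) (nat_lit 0) (nat_lit 0) (XT.lf (nat_lit 0) (nat_lit 5465426761) (nat_lit 152) (nat_lit 151665724320) (nat_lit 76) (nat_lit 23863007064) (nat_lit 18) (nat_lit 5) (nat_lit 20) (nat_lit 5) (nat_lit 19) (nat_lit 4) (nat_lit 400) (nat_lit 337) (nat_lit 163)) (XT.lf (nat_lit 0) (nat_lit 37073851178) (nat_lit 152) (nat_lit 86870049311) (nat_lit 76) (nat_lit 64132585211) (nat_lit 18) (nat_lit 5) (nat_lit 20) (nat_lit 5) (nat_lit 19) (nat_lit 4) (nat_lit 401) (nat_lit 337) (nat_lit 162))))) (XT.nd (nat_lit 234) (nat_lit 152) (nat_lit 0) (XT.nd (nat_lit 78) (nat_lit 76) (nat_lit 0) (XT.lf (nat_lit 0) (nat_lit 70261947376) (nat_lit 152) (nat_lit 18835971195) (nat_lit 76) (nat_lit 106415048776) (nat_lit 18) (nat_lit 5) (nat_lit 20) (nat_lit 5) (nat_lit 19) (nat_lit 4) (nat_lit 402) (nat_lit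 337) (nat_lit 161)) (XT.nd (nat_lit 78) (nat_lit 0) (nat_lit 0) (XT.lf (nat_lit 0) (nat_lit 54337639744) (nat_lit 76) (nat_lit 51619457725) (nat_lit 152) (nat_lit 97321793386) (nat_lit 17) (nat_lit 5) (nat_lit 18) (nat_lit 5) (nat_lit 19) (nat_lit 4) (nat_lit 403) (nat_lit 337) (nat_lit 160)) (XT.lf (nat_lit 0) (nat_lit 131822579928) (nat_lit 76) (nat_lit 11932721464) (nat_lit 152) (nat_lit 67661894550) (nat_lit 17) (nat_lit 5) (nat_lit 18) (nat_lit 5) (nat_lit 19) (nat_lit 4) (nat_lit 404) (nat_lit 337) (nat_lit 159)))) (XT.nd (nat_lit 78) (nat_lit 152) (nat_lit 0) (XT.lf (nat_lit 0) (nat_lit 183907039064) (nat_lit 152) (nat_lit 7246204973) (nat_lit 0) (nat_lit 28785991279) (nat_lit 17) (nat_lit 5) (nat_lit 19) (nat_lit 4) (nat_lit 17) (nat_lit 4) (nat_lit 405) (nat_lit 337) (nat_lit 158)) (XT.nd (nat_lit 78) (nat_lit 76) (nat_lit 0) (XT.lf (nat_lit 0) (nat_lit 70788484881) (nat_lit 76)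 (nat_lit 156578060463) (nat_lit 76) (nat_lit 1455822432) (nat_lit 16) (nat_lit 4) (nat_lit 17) (nat_lit 5) (nat_lit 17) (nat_lit 4) (nat_lit 406) (nat_lit 337) (nat_lit 157)) (XT.lf (nat_lit 0) (nat_lit 33858060780) (nat_lit 152) (nat_lit 85714346999) (nat_lit 76) (nat_lit 118543840033) (nat_lit 15) (nat_lit 5) (nat_lit 17) (nat_lit 5) (nat_lit 16) (nat_lit 4) (nat_lit 407) (nat_lit 337) (nat_lit 156)))))) (XT.nd (nat_lit 390) (nat_lit 152) (nat_lit 0) (XT.nd (nat_lit 156) (nat_lit 76) (nat_lit 0) (XT.nd (nat_lit 78) (nat_lit 76) (nat_lit 0) (XT.lf (nat_lit 0) (nat_lit 70888101947) (nat_lit 152) (nat_lit 9803842195) (nat_lit 76) (nat_lit 167181715137) (nat_lit 15) (nat_lit 5) (nat_lit 17) (nat_lit 5) (nat_lit 16) (nat_lit 4) (nat_lit 408) (nat_lit 337) (nat_lit 155)) (XT.lf (nat_lit 0) (nat_lit 72212346340) (nat_lit 76) (nat_lit 38684154004) (nat_lit 152) (nat_lit 147166098381) (nat_lit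 14) (nat_lit 5) (nat_lit 15) (nat_lit 5) (nat_lit 16) (nat_lit 4) (nat_lit 409) (nat_lit 337) (nat_lit 154))) (XT.nd (nat_lit 78) (nat_lit 76) (nat_lit 0) (XT.lf (nat_lit 0) (nat_lit 153158178848) (nat_lit 152) (nat_lit 110171468964) (nat_lit 0) (nat_lit 5418694480) (nat_lit 14) (nat_lit 5) (nat_lit 16) (nat_lit 4) (nat_lit 14) (nat_lit 4) (nat_lit 410) (nat_lit 337) (nat_lit 153)) (XT.nd (nat_lit 78) (nat_lit 76) (nat_lit 0) (XT.lf (nat_lit 0) (nat_lit 198166556576) (nat_lit 152) (nat_lit 31343951818) (nat_lit 0) (nat_lit 50426184028) (nat_lit 14) (nat_lit 5) (nat_lit 16) (nat_lit 4) (nat_lit 14) (nat_lit 4) (nat_lit 411) (nat_lit 337) (nat_lit 152)) (XT.lf (nat_lit 0) (nat_lit 53124259754) (nat_lit 76) (nat_lit 193129987098) (nat_lit 76) (nat_lit 45388768664) (nat_lit 13) (nat_lit 4) (nat_lit 14) (nat_lit 5) (nat_lit 14) (nat_lit 4) (nat_lit 412) (nat_lit 337) (nat_lit 151))))) (XT.nd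 (nat_lit 234) (nat_lit 0) (nat_lit 0) (XT.nd (nat_lit 78) (nat_lit 152) (nat_lit 0) (XT.lf (nat_lit 0) (nat_lit 142903099584) (nat_lit 76) (nat_lit 154373531932) (nat_lit 76) (nat_lit 6631507892) (nat_lit 13) (nat_lit 4) (nat_lit 14) (nat_lit 5) (nat_lit 14) (nat_lit 4) (nat_lit 413) (nat_lit 337) (nat_lit 150)) (XT.nd (nat_lit 78) (nat_lit 76) (nat_lit 0) (XT.lf (nat_lit 0) (nat_lit 32972868721) (nat_lit 152) (nat_lit 80148410403) (nat_lit 76) (nat_lit 203638674007) (nat_lit 12) (nat_lit 5) (nat_lit 14) (nat_lit 5) (nat_lit 13) (nat_lit 4) (nat_lit 414) (nat_lit 337) (nat_lit 149)) (XT.lf (nat_lit 0) (nat_lit 4794905296) (nat_lit 76) (nat_lit 69614083624) (nat_lit 152) (nat_lit 255836213730) (nat_lit 11) (nat_lit 5) (nat_lit 12) (nat_lit 5) (nat_lit 13) (nat_lit 4) (nat_lit 415) (nat_lit 337) (nat_lit 148)))) (XT.nd (nat_lit 78) (nat_lit 0) (nat_lit 0) (XT.lf (nat_lit 0) (nat_lit 96767074244)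 (nat_lit 76) (nat_lit 22506726803) (nat_lit 152) (nat_lit 225063069412) (nat_lit 11) (nat_lit 5) (nat_lit 12) (nat_lit 5) (nat_lit 13) (nat_lit 4) (nat_lit 416) (nat_lit 337) (nat_lit 147)) (XT.nd (nat_lit 78) (nat_lit 0) (nat_lit 0) (XT.lf (nat_lit 0) (nat_lit 166802262240) (nat_lit 152) (nat_lit 166216987031) (nat_lit 0) (nat_lit 26092852072) (nat_lit 11) (nat_lit 5) (nat_lit 13) (nat_lit 4) (nat_lit 11) (nat_lit 4) (nat_lit 417) (nat_lit 337) (nat_lit 146)) (XT.lf (nat_lit 0) (nat_lit 217075680455) (nat_lit 152) (nat_lit 81166317589) (nat_lit 0) (nat_lit 76365669131) (nat_lit 11) (nat_lit 5) (nat_lit 13) (nat_lit 4) (nat_lit 11) (nat_lit 4) (nat_lit 418) (nat_lit 337) (nat_lit 145))))))) (XT.nd (nat_lit 40794) (nat_lit 0) (nat_lit 5928) (XT.nd (nat_lit 390) (nat_lit 76) (nat_lit 0) (XT.nd (nat_lit 156) (nat_lit 76) (nat_lit 0) (XT.nd (nat_lit 78) (nat_lit 0) (nat_lit 0) (XT.lf (nat_lit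 0) (nat_lit 8405123219) (nat_lit 76) (nat_lit 261588465534) (nat_lit 76) (nat_lit 120877881682) (nat_lit 10) (nat_lit 4) (nat_lit 11) (nat_lit 5) (nat_lit 11) (nat_lit 4) (nat_lit 419) (nat_lit 337) (nat_lit 144)) (XT.lf (nat_lit 0) (nat_lit 105272281352) (nat_lit 76) (nat_lit 221659301108) (nat_lit 76) (nat_lit 80948171990) (nat_lit 10) (nat_lit 4) (nat_lit 11) (nat_lit 5) (nat_lit 11) (nat_lit 4) (nat_lit 420) (nat_lit 337) (nat_lit 143))) (XT.nd (nat_lit 78) (nat_lit 76) (nat_lit 0) (XT.lf (nat_lit 0) (nat_lit 206982067885) (nat_lit 76) (nat_lit 179734026189) (nat_lit 76) (nat_lit 39022377770) (nat_lit 10) (nat_lit 4) (nat_lit 11) (nat_lit 5) (nat_lit 11) (nat_lit 4) (nat_lit 421) (nat_lit 337) (nat_lit 142)) (XT.nd (nat_lit 78) (nat_lit 0) (nat_lit 0) (XT.lf (nat_lit 0) (nat_lit 4839314698) (nat_lit 152) (nat_lit 130791547858) (nat_lit 76) (nat_lit 308855378140) (nat_lit 9) (nat_lit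 5) (nat_lit 11) (nat_lit 5) (nat_lit 10) (nat_lit 4) (nat_lit 422) (nat_lit 337) (nat_lit 141)) (XT.lf (nat_lit 0) (nat_lit 49582331974) (nat_lit 152) (nat_lit 39068833464) (nat_lit 76) (nat_lit 375488264677) (nat_lit 9) (nat_lit 5) (nat_lit 11) (nat_lit 5) (nat_lit 10) (nat_lit 4) (nat_lit 423) (nat_lit 337) (nat_lit 140))))) (XT.nd (nat_lit 40170) (nat_lit 0) (nat_lit 6688) (XT.nd (nat_lit 78) (nat_lit 0) (nat_lit 0) (XT.lf (nat_lit 0) (nat_lit 59131967564) (nat_lit 76) (nat_lit 38353413004) (nat_lit 152) (nat_lit 387243754483) (nat_lit 8) (nat_lit 5) (nat_lit 9) (nat_lit 5) (nat_lit 10) (nat_lit 4) (nat_lit 424) (nat_lit 337) (nat_lit 139)) (XT.nd (nat_lit 78) (nat_lit 0) (nat_lit 0) (XT.lf (nat_lit 0) (nat_lit 148681493091) (nat_lit 152) (nat_lit 342953291009) (nat_lit 0) (nat_lit 14668645631) (nat_lit 8) (nat_lit 5) (nat_lit 10) (nat_lit 4) (nat_lit 8) (nat_lit 4) (nat_lit 425) (nat_lit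 337) (nat_lit 138)) (XT.lf (nat_lit 0) (nat_lit 203065837738) (nat_lit 152) (nat_lit 256806577376) (nat_lit 0) (nat_lit 69052602768) (nat_lit 8) (nat_lit 5) (nat_lit 10) (nat_lit 4) (nat_lit 8) (nat_lit 4) (nat_lit 426) (nat_lit 337) (nat_lit 137)))) (XT.nd (nat_lit 78) (nat_lit 836) (nat_lit 0) (XT.lf (nat_lit 0) (nat_lit 6507680095) (nat_lit 0) (nat_lit 6507680095) (nat_lit 684) (nat_lit 38549819) (nat_lit 107) (nat_lit 5) (nat_lit 107) (nat_lit 3) (nat_lit 116) (nat_lit 3) (nat_lit 338) (nat_lit 338) (nat_lit 224)) (XT.nd (nat_lit 78) (nat_lit 0) (nat_lit 76) (XT.lf (nat_lit 0) (nat_lit 16466767) (nat_lit 836) (nat_lit 860635811) (nat_lit 836) (nat_lit 25878710531) (nat_lit 96) (nat_lit 3) (nat_lit 107) (nat_lit 3) (nat_lit 107) (nat_lit 5) (nat_lit 339) (nat_lit 338) (nat_lit 223)) (XT.lf (nat_lit 0) (nat_lit 487895152) (nat_lit 760) (nat_lit 15240866295) (nat_lit 836) (nat_lit 11688599893)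 (nat_lit 97) (nat_lit 5) (nat_lit 107) (nat_lit 5) (nat_lit 108) (nat_lit 5) (nat_lit 340) (nat_lit 338) (nat_lit 222)))))) (XT.nd (nat_lit 468) (nat_lit 836) (nat_lit 0) (XT.nd (nat_lit 234) (nat_lit 0) (nat_lit 152) (XT.nd (nat_lit 78) (nat_lit 0) (nat_lit 76) (XT.lf (nat_lit 0) (nat_lit 1006413534) (nat_lit 760) (nat_lit 2233925618) (nat_lit 836) (nat_lit 24870478965) (nat_lit 97) (nat_lit 5) (nat_lit 107) (nat_lit 5) (nat_lit 108) (nat_lit 5) (nat_lit 341) (nat_lit 338) (nat_lit 221)) (XT.nd (nat_lit 78) (nat_lit 0) (nat_lit 0) (XT.lf (nat_lit 0) (nat_lit 1886839742) (nat_lit 760) (nat_lit 17189492056) (nat_lit 836) (nat_lit 9745823569) (nat_lit 98) (nat_lit 5) (nat_lit 108) (nat_lit 5) (nat_lit 109) (nat_lit 5) (nat_lit 342) (nat_lit 338) (nat_lit 220)) (XT.lf (nat_lit 0) (nat_lit 2897694885) (nat_lit 760) (nat_lit 3354263948) (nat_lit 836) (nat_lit 23312786671) (nat_lit 98) (nat_lit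 5) (nat_lit 108) (nat_lit 5) (nat_lit 109) (nat_lit 5) (nat_lit 343) (nat_lit 338) (nat_lit 219)))) (XT.nd (nat_lit 78) (nat_lit 0) (nat_lit 0) (XT.lf (nat_lit 0) (nat_lit 4249928013) (nat_lit 760) (nat_lit 18912604266) (nat_lit 836) (nat_lit 7167397211) (nat_lit 99) (nat_lit 5) (nat_lit 109) (nat_lit 5) (nat_lit 110) (nat_lit 5) (nat_lit 344) (nat_lit 338) (nat_lit 218)) (XT.nd (nat_lit 78) (nat_lit 0) (nat_lit 76) (XT.lf (nat_lit 0) (nat_lit 5825287702) (nat_lit 760) (nat_lit 4193547943) (nat_lit 836) (nat_lit 21106767097) (nat_lit 99) (nat_lit 5) (nat_lit 109) (nat_lit 5) (nat_lit 110) (nat_lit 5) (nat_lit 345) (nat_lit 338) (nat_lit 217)) (XT.lf (nat_lit 0) (nat_lit 7718550923) (nat_lit 760) (nat_lit 20383919561) (nat_lit 836) (nat_lit 3846637929) (nat_lit 100) (nat_lit 5) (nat_lit 110) (nat_lit 5) (nat_lit 111) (nat_lit 5) (nat_lit 346) (nat_lit 338) (nat_lit 216))))) (XT.nd (nat_lit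 234) (nat_lit 1064) (nat_lit 0) (XT.nd (nat_lit 78) (nat_lit 0) (nat_lit 0) (XT.lf (nat_lit 0) (nat_lit 9938593198) (nat_lit 760) (nat_lit 4721746850) (nat_lit 836) (nat_lit 18141848797) (nat_lit 100) (nat_lit 5) (nat_lit 110) (nat_lit 5) (nat_lit 111) (nat_lit 5) (nat_lit 347) (nat_lit 338) (nat_lit 215)) (XT.nd (nat_lit 78) (nat_lit 0) (nat_lit 76) (XT.lf (nat_lit 76) (nat_lit 12107670805) (nat_lit 0) (nat_lit 346895419) (nat_lit 836) (nat_lit 21234115663) (nat_lit 101) (nat_lit 5) (nat_lit 100) (nat_lit 5) (nat_lit 111) (nat_lit 5) (nat_lit 348) (nat_lit 338) (nat_lit 214)) (XT.lf (nat_lit 0) (nat_lit 15402891865) (nat_lit 760) (nat_lit 4907098076) (nat_lit 76) (nat_lit 14294186723) (nat_lit 101) (nat_lit 5) (nat_lit 111) (nat_lit 5) (nat_lit 102) (nat_lit 5) (nat_lit 349) (nat_lit 338) (nat_lit 213)))) (XT.nd (nat_lit 78) (nat_lit 380) (nat_lit 0) (XT.lf (nat_lit 0) (nat_lit 13007779712)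 (nat_lit 760) (nat_lit 5695864371) (nat_lit 836) (nat_lit 16851556137) (nat_lit 91) (nat_lit 5) (nat_lit 101) (nat_lit 5) (nat_lit 102) (nat_lit 5) (nat_lit 350) (nat_lit 338) (nat_lit 212)) (XT.nd (nat_lit 78) (nat_lit 380) (nat_lit 0) (XT.lf (nat_lit 0) (nat_lit 22400915746) (nat_lit 836) (nat_lit 4716375737) (nat_lit 76) (nat_lit 9424913715) (nat_lit 91) (nat_lit 5) (nat_lit 102) (nat_lit 5) (nat_lit 92) (nat_lit 5) (nat_lit 351) (nat_lit 338) (nat_lit 211)) (XT.lf (nat_lit 0) (nat_lit 14369413653) (nat_lit 380) (nat_lit 12227899903) (nat_lit 456) (nat_lit 10965537871) (nat_lit 86) (nat_lit 5) (nat_lit 91) (nat_lit 5) (nat_lit 92) (nat_lit 5) (nat_lit 352) (nat_lit 338) (nat_lit 210))))))))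
noncomputable def xc194 : XT := (XT.nd (nat_lit 1716) (nat_lit 1900) (nat_lit 0) (XT.nd (nat_lit 858) (nat_lit 1064) (nat_lit 0) (XT.nd (nat_lit 390) (nat_lit 1216) (nat_lit 0) (XT.nd (nat_lit 156) (nat_lit 456) (nat_lit 0) (XT.nd (nat_lit 78) (nat_lit 304) (nat_lit 0) (XT.lf (nat_lit 0) (nat_lit 31134546522) (nat_lit 456) (nat_lit 4115249775) (nat_lit 76) (nat_lit 3378186840) (nat_lit 86) (nat_lit 5) (nat_lit 92) (nat_lit 5) (nat_lit 87) (nat_lit 5) (nat_lit 353) (nat_lit 338) (nat_lit 209)) (XT.lf (nat_lit 0) (nat_lit 16232638994) (nat_lit 304) (nat_lit 20116710932) (nat_lit 380) (nat_lit 3374489815) (nat_lit 82) (nat_lit 5) (nat_lit 86) (nat_lit 5) (nat_lit 87) (nat_lit 5) (nat_lit 354) (nat_lit 338) (nat_lit 208))) (XT.nd (nat_lit 78) (nat_lit 380) (nat_lit 0) (XT.lf (nat_lit 0) (nat_lit 987683173) (nat_lit 380) (nat_lit 3149542170) (nat_lit 76) (nat_lit 36733140419) (nat_lit 81) (nat_lit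 5) (nat_lit 86) (nat_lit 5) (nat_lit 82) (nat_lit 5) (nat_lit 355) (nat_lit 338) (nat_lit 207)) (XT.nd (nat_lit 78) (nat_lit 0) (nat_lit 0) (XT.lf (nat_lit 0) (nat_lit 5947391817) (nat_lit 456) (nat_lit 23509203131) (nat_lit 76) (nat_lit 12590218797) (nat_lit 76) (nat_lit 5) (nat_lit 82) (nat_lit 5) (nat_lit 77) (nat_lit 5) (nat_lit 356) (nat_lit 338) (nat_lit 206)) (XT.lf (nat_lit 0) (nat_lit 11274223100) (nat_lit 456) (nat_lit 1932932999) (nat_lit 76) (nat_lit 30068974251) (nat_lit 76) (nat_lit 5) (nat_lit 82) (nat_lit 5) (nat_lit 77) (nat_lit 5) (nat_lit 357) (nat_lit 338) (nat_lit 205))))) (XT.nd (nat_lit 234) (nat_lit 608) (nat_lit 0) (XT.nd (nat_lit 78) (nat_lit 304) (nat_lit 0) (XT.lf (nat_lit 0) (nat_lit 17264468353) (nat_lit 380) (nat_lit 23211913624) (nat_lit 76) (nat_lit 4070680123) (nat_lit 72) (nat_lit 5) (nat_lit 77) (nat_lit 5) (nat_lit 73) (nat_lit 5) (nat_lit 358) (nat_lit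 338) (nat_lit 204)) (XT.nd (nat_lit 78) (nat_lit 304) (nat_lit 0) (XT.lf (nat_lit 0) (nat_lit 23801324131) (nat_lit 380) (nat_lit 266417693) (nat_lit 76) (nat_lit 21801446496) (nat_lit 72) (nat_lit 5) (nat_lit 77) (nat_lit 5) (nat_lit 73) (nat_lit 5) (nat_lit 359) (nat_lit 338) (nat_lit 203)) (XT.lf (nat_lit 0) (nat_lit 24611003893) (nat_lit 304) (nat_lit 6435709079) (nat_lit 380) (nat_lit 16191626028) (nat_lit 68) (nat_lit 5) (nat_lit 72) (nat_lit 5) (nat_lit 73) (nat_lit 5) (nat_lit 360) (nat_lit 338) (nat_lit 202)))) (XT.nd (nat_lit 78) (nat_lit 380) (nat_lit 0) (XT.lf (nat_lit 0) (nat_lit 1936020761) (nat_lit 228) (nat_lit 36939243506) (nat_lit 304) (nat_lit 9789640832) (nat_lit 65) (nat_lit 5) (nat_lit 68) (nat_lit 5) (nat_lit 69) (nat_lit 5) (nat_lit 361) (nat_lit 338) (nat_lit 201)) (XT.nd (nat_lit 78) (nat_lit 380) (nat_lit 0) (XT.lf (nat_lit 0) (nat_lit 28401048819) (nat_lit 228)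 (nat_lit 19178781669) (nat_lit 304) (nat_lit 2558742060) (nat_lit 65) (nat_lit 5) (nat_lit 68) (nat_lit 5) (nat_lit 69) (nat_lit 5) (nat_lit 362) (nat_lit 338) (nat_lit 200)) (XT.lf (nat_lit 0) (nat_lit 4568012583) (nat_lit 304) (nat_lit 373554594) (nat_lit 380) (nat_lit 46736980106) (nat_lit 60) (nat_lit 5) (nat_lit 64) (nat_lit 5) (nat_lit 65) (nat_lit 5) (nat_lit 363) (nat_lit 338) (nat_lit 199)))))) (XT.nd (nat_lit 390) (nat_lit 608) (nat_lit 0) (XT.nd (nat_lit 156) (nat_lit 228) (nat_lit 0) (XT.nd (nat_lit 78) (nat_lit 228) (nat_lit 0) (XT.lf (nat_lit 0) (nat_lit 13405232788) (nat_lit 380) (nat_lit 20687106268) (nat_lit 76) (nat_lit 19167369882) (nat_lit 60) (nat_lit 5) (nat_lit 65) (nat_lit 5) (nat_lit 61) (nat_lit 5) (nat_lit 364) (nat_lit 338) (nat_lit 198)) (XT.lf (nat_lit 0) (nat_lit 7281505321) (nat_lit 228) (nat_lit 15128204674) (nat_lit 304) (nat_lit 32504339252) (nat_lit 57)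 (nat_lit 5) (nat_lit 60) (nat_lit 5) (nat_lit 61) (nat_lit 5) (nat_lit 365) (nat_lit 338) (nat_lit 197))) (XT.nd (nat_lit 78) (nat_lit 228) (nat_lit 0) (XT.lf (nat_lit 0) (nat_lit 32293061430) (nat_lit 304) (nat_lit 19350236559) (nat_lit 76) (nat_lit 4986377955) (nat_lit 57) (nat_lit 5) (nat_lit 61) (nat_lit 5) (nat_lit 58) (nat_lit 5) (nat_lit 366) (nat_lit 338) (nat_lit 196)) (XT.nd (nat_lit 78) (nat_lit 0) (nat_lit 0) (XT.lf (nat_lit 0) (nat_lit 10429154962) (nat_lit 228) (nat_lit 32650225792) (nat_lit 304) (nat_lit 15331265009) (nat_lit 54) (nat_lit 5) (nat_lit 57) (nat_lit 5) (nat_lit 58) (nat_lit 5) (nat_lit 367) (nat_lit 338) (nat_lit 195)) (XT.lf (nat_lit 0) (nat_lit 42366532212) (nat_lit 228) (nat_lit 12364211400) (nat_lit 304) (nat_lit 5533635799) (nat_lit 54) (nat_lit 5) (nat_lit 57) (nat_lit 5) (nat_lit 58) (nat_lit 5) (nat_lit 368) (nat_lit 338) (nat_lit 194))))) (XT.nd (nat_lit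 234) (nat_lit 152) (nat_lit 0) (XT.nd (nat_lit 78) (nat_lit 228) (nat_lit 0) (XT.lf (nat_lit 0) (nat_lit 4963691452) (nat_lit 228) (nat_lit 48277376037) (nat_lit 76) (nat_lit 8947924230) (nat_lit 51) (nat_lit 5) (nat_lit 54) (nat_lit 5) (nat_lit 52) (nat_lit 5) (nat_lit 369) (nat_lit 338) (nat_lit 193)) (XT.nd (nat_lit 78) (nat_lit 228) (nat_lit 0) (XT.lf (nat_lit 0) (nat_lit 16308809035) (nat_lit 228) (nat_lit 16562882409) (nat_lit 76) (nat_lit 31308164393) (nat_lit 51) (nat_lit 5) (nat_lit 54) (nat_lit 5) (nat_lit 52) (nat_lit 5) (nat_lit 370) (nat_lit 338) (nat_lit 192)) (XT.lf (nat_lit 0) (nat_lit 17288040766) (nat_lit 228) (nat_lit 11201266715) (nat_lit 304) (nat_lit 37767550843) (nat_lit 48) (nat_lit 5) (nat_lit 51) (nat_lit 5) (nat_lit 52) (nat_lit 5) (nat_lit 371) (nat_lit 338) (nat_lit 191)))) (XT.nd (nat_lit 78) (nat_lit 152) (nat_lit 0) (XT.lf (nat_lit 0) (nat_lit 41742541529)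 (nat_lit 304) (nat_lit 15204771718) (nat_lit 76) (nat_lit 11467213499) (nat_lit 48) (nat_lit 5) (nat_lit 52) (nat_lit 5) (nat_lit 49) (nat_lit 5) (nat_lit 372) (nat_lit 338) (nat_lit 190)) (XT.nd (nat_lit 78) (nat_lit 0) (nat_lit 0) (XT.lf (nat_lit 0) (nat_lit 20724639641) (nat_lit 152) (nat_lit 35439320555) (nat_lit 228) (nat_lit 14490843528) (nat_lit 46) (nat_lit 5) (nat_lit 48) (nat_lit 5) (nat_lit 49) (nat_lit 5) (nat_lit 373) (nat_lit 338) (nat_lit 189)) (XT.lf (nat_lit 0) (nat_lit 58975910326) (nat_lit 152) (nat_lit 12586406423) (nat_lit 228) (nat_lit 1431985674) (nat_lit 46) (nat_lit 5) (nat_lit 48) (nat_lit 5) (nat_lit 49) (nat_lit 5) (nat_lit 374) (nat_lit 338) (nat_lit 188))))))) (XT.nd (nat_lit 858) (nat_lit 760) (nat_lit 0) (XT.nd (nat_lit 390) (nat_lit 532) (nat_lit 0) (XT.nd (nat_lit 156) (nat_lit 304) (nat_lit 0) (XT.nd (nat_lit 78) (nat_lit 0) (nat_lit 0) (XT.lf (nat_lit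 0) (nat_lit 12451622034) (nat_lit 304) (nat_lit 51338124151) (nat_lit 76) (nat_lit 11623202974) (nat_lit 42) (nat_lit 5) (nat_lit 46) (nat_lit 5) (nat_lit 43) (nat_lit 5) (nat_lit 375) (nat_lit 338) (nat_lit 187)) (XT.lf (nat_lit 0) (nat_lit 27427363723) (nat_lit 304) (nat_lit 13617417266) (nat_lit 76) (nat_lit 36884270654) (nat_lit 42) (nat_lit 5) (nat_lit 46) (nat_lit 5) (nat_lit 43) (nat_lit 5) (nat_lit 376) (nat_lit 338) (nat_lit 186))) (XT.nd (nat_lit 78) (nat_lit 152) (nat_lit 0) (XT.lf (nat_lit 0) (nat_lit 26846241206) (nat_lit 152) (nat_lit 16723313476) (nat_lit 228) (nat_lit 36980522463) (nat_lit 40) (nat_lit 5) (nat_lit 42) (nat_lit 5) (nat_lit 43) (nat_lit 5) (nat_lit 377) (nat_lit 338) (nat_lit 185)) (XT.nd (nat_lit 78) (nat_lit 152) (nat_lit 0) (XT.lf (nat_lit 0) (nat_lit 60889406876) (nat_lit 228) (nat_lit 13628523564) (nat_lit 76) (nat_lit 8765696853) (nat_lit 40) (nat_lit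 5) (nat_lit 43) (nat_lit 5) (nat_lit 41) (nat_lit 5) (nat_lit 378) (nat_lit 338) (nat_lit 184)) (XT.lf (nat_lit 0) (nat_lit 29105725108) (nat_lit 152) (nat_lit 50696709502) (nat_lit 228) (nat_lit 6315062103) (nat_lit 38) (nat_lit 5) (nat_lit 40) (nat_lit 5) (nat_lit 41) (nat_lit 5) (nat_lit 379) (nat_lit 338) (nat_lit 183))))) (XT.nd (nat_lit 234) (nat_lit 304) (nat_lit 0) (XT.nd (nat_lit 78) (nat_lit 152) (nat_lit 0) (XT.lf (nat_lit 0) (nat_lit 10463016754) (nat_lit 228) (nat_lit 14802714194) (nat_lit 76) (nat_lit 63807419315) (nat_lit 37) (nat_lit 5) (nat_lit 40) (nat_lit 5) (nat_lit 38) (nat_lit 5) (nat_lit 380) (nat_lit 338) (nat_lit 182)) (XT.nd (nat_lit 78) (nat_lit 0) (nat_lit 0) (XT.lf (nat_lit 0) (nat_lit 28372721174) (nat_lit 228) (nat_lit 61796061105) (nat_lit 76) (nat_lit 1977381263) (nat_lit 35) (nat_lit 5) (nat_lit 38) (nat_lit 5) (nat_lit 36) (nat_lit 5) (nat_lit 381) (nat_lit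 338) (nat_lit 181)) (XT.lf (nat_lit 0) (nat_lit 47845603746) (nat_lit 228) (nat_lit 17506280665) (nat_lit 76) (nat_lit 29987559174) (nat_lit 35) (nat_lit 5) (nat_lit 38) (nat_lit 5) (nat_lit 36) (nat_lit 5) (nat_lit 382) (nat_lit 338) (nat_lit 180)))) (XT.nd (nat_lit 78) (nat_lit 152) (nat_lit 0) (XT.lf (nat_lit 0) (nat_lit 29954665693) (nat_lit 152) (nat_lit 38803902750) (nat_lit 228) (nat_lit 29910498003) (nat_lit 33) (nat_lit 5) (nat_lit 35) (nat_lit 5) (nat_lit 36) (nat_lit 5) (nat_lit 383) (nat_lit 338) (nat_lit 179)) (XT.nd (nat_lit 78) (nat_lit 152) (nat_lit 0) (XT.lf (nat_lit 0) (nat_lit 80394411646) (nat_lit 152) (nat_lit 10618036109) (nat_lit 228) (nat_lit 11137960054) (nat_lit 33) (nat_lit 5) (nat_lit 35) (nat_lit 5) (nat_lit 36) (nat_lit 5) (nat_lit 384) (nat_lit 338) (nat_lit 178)) (XT.lf (nat_lit 0) (nat_lit 9045521982) (nat_lit 152) (nat_lit 77761835889) (nat_lit 76) (nat_lit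 18954430733) (nat_lit 31) (nat_lit 5) (nat_lit 33) (nat_lit 5) (nat_lit 32) (nat_lit 5) (nat_lit 385) (nat_lit 338) (nat_lit 177)))))) (XT.nd (nat_lit 468) (nat_lit 304) (nat_lit 0) (XT.nd (nat_lit 234) (nat_lit 304) (nat_lit 0) (XT.nd (nat_lit 78) (nat_lit 152) (nat_lit 0) (XT.lf (nat_lit 0) (nat_lit 30411264693) (nat_lit 152) (nat_lit 28900976750) (nat_lit 76) (nat_lit 50204998355) (nat_lit 31) (nat_lit 5) (nat_lit 33) (nat_lit 5) (nat_lit 32) (nat_lit 5) (nat_lit 386) (nat_lit 338) (nat_lit 176)) (XT.nd (nat_lit 78) (nat_lit 0) (nat_lit 0) (XT.lf (nat_lit 0) (nat_lit 23141716203) (nat_lit 152) (nat_lit 30063781041) (nat_lit 228) (nat_lit 60236956730) (nat_lit 29) (nat_lit 5) (nat_lit 31) (nat_lit 5) (nat_lit 32) (nat_lit 5) (nat_lit 387) (nat_lit 338) (nat_lit 175)) (XT.lf (nat_lit 0) (nat_lit 77645927433) (nat_lit 228) (nat_lit 38769563245) (nat_lit 76) (nat_lit 1123114412) (nat_lit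 29) (nat_lit 5) (nat_lit 32) (nat_lit 5) (nat_lit 30) (nat_lit 4) (nat_lit 388) (nat_lit 338) (nat_lit 174)))) (XT.nd (nat_lit 78) (nat_lit 228) (nat_lit 0) (XT.lf (nat_lit 0) (nat_lit 15334304594) (nat_lit 76) (nat_lit 88705294018) (nat_lit 152) (nat_lit 17763404684) (nat_lit 28) (nat_lit 5) (nat_lit 29) (nat_lit 5) (nat_lit 30) (nat_lit 4) (nat_lit 389) (nat_lit 338) (nat_lit 173)) (XT.nd (nat_lit 78) (nat_lit 152) (nat_lit 0) (XT.lf (nat_lit 0) (nat_lit 5963491811) (nat_lit 152) (nat_lit 52856452478) (nat_lit 76) (nat_lit 67423090227) (nat_lit 27) (nat_lit 5) (nat_lit 29) (nat_lit 5) (nat_lit 28) (nat_lit 5) (nat_lit 390) (nat_lit 338) (nat_lit 172)) (XT.lf (nat_lit 0) (nat_lit 3247411007) (nat_lit 152) (nat_lit 27082069508) (nat_lit 228) (nat_lit 100558541339) (nat_lit 25) (nat_lit 5) (nat_lit 27) (nat_lit 5) (nat_lit 28) (nat_lit 5) (nat_lit 391) (nat_lit 338) (nat_lit 171))))) (XT.nd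 (nat_lit 234) (nat_lit 228) (nat_lit 0) (XT.nd (nat_lit 78) (nat_lit 76) (nat_lit 0) (XT.lf (nat_lit 0) (nat_lit 56920080903) (nat_lit 228) (nat_lit 71842855854) (nat_lit 76) (nat_lit 6952006606) (nat_lit 25) (nat_lit 5) (nat_lit 28) (nat_lit 5) (nat_lit 26) (nat_lit 4) (nat_lit 392) (nat_lit 338) (nat_lit 170)) (XT.nd (nat_lit 78) (nat_lit 76) (nat_lit 0) (XT.lf (nat_lit 0) (nat_lit 85283248272) (nat_lit 228) (nat_lit 13700837185) (nat_lit 76) (nat_lit 41776974040) (nat_lit 25) (nat_lit 5) (nat_lit 28) (nat_lit 5) (nat_lit 26) (nat_lit 4) (nat_lit 393) (nat_lit 338) (nat_lit 169)) (XT.lf (nat_lit 0) (nat_lit 48912201447) (nat_lit 76) (nat_lit 66915142063) (nat_lit 152) (nat_lit 30193999830) (nat_lit 24) (nat_lit 5) (nat_lit 25) (nat_lit 5) (nat_lit 26) (nat_lit 4) (nat_lit 394) (nat_lit 338) (nat_lit 168)))) (XT.nd (nat_lit 78) (nat_lit 228) (nat_lit 0) (XT.lf (nat_lit 0) (nat_lit 115130002696)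 (nat_lit 76) (nat_lit 32999802100) (nat_lit 152) (nat_lit 3403278876) (nat_lit 24) (nat_lit 5) (nat_lit 25) (nat_lit 5) (nat_lit 26) (nat_lit 4) (nat_lit 395) (nat_lit 338) (nat_lit 167)) (XT.nd (nat_lit 78) (nat_lit 0) (nat_lit 0) (XT.lf (nat_lit 0) (nat_lit 24423622170) (nat_lit 228) (nat_lit 129491798025) (nat_lit 76) (nat_lit 3361285192) (nat_lit 21) (nat_lit 5) (nat_lit 24) (nat_lit 5) (nat_lit 22) (nat_lit 4) (nat_lit 396) (nat_lit 338) (nat_lit 166)) (XT.lf (nat_lit 0) (nat_lit 54694251705) (nat_lit 228) (nat_lit 67438946266) (nat_lit 76) (nat_lit 41113183160) (nat_lit 21) (nat_lit 5) (nat_lit 24) (nat_lit 5) (nat_lit 22) (nat_lit 4) (nat_lit 397) (nat_lit 338) (nat_lit 165))))))))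
noncomputable def xc195 : XT := (XT.nd (nat_lit 1716) (nat_lit 228) (nat_lit 0) (XT.nd (nat_lit 858) (nat_lit 304) (nat_lit 0) (XT.nd (nat_lit 390) (nat_lit 228) (nat_lit 0) (XT.nd (nat_lit 156) (nat_lit 152) (nat_lit 0) (XT.nd (nat_lit 78) (nat_lit 76) (nat_lit 0) (XT.lf (nat_lit 0) (nat_lit 86477617620) (nat_lit 228) (nat_lit 2284892602) (nat_lit 76) (nat_lit 80752070490) (nat_lit 21) (nat_lit 5) (nat_lit 24) (nat_lit 5) (nat_lit 22) (nat_lit 4) (nat_lit 398) (nat_lit 338) (nat_lit 164)) (XT.lf (nat_lit 0) (nat_lit 68311899049) (nat_lit 76) (nat_lit 52604035735) (nat_lit 152) (nat_lit 55126966622) (nat_lit 20) (nat_lit 5) (nat_lit 21) (nat_lit 5) (nat_lit 22) (nat_lit 4) (nat_lit 399) (nat_lit 338) (nat_lit 163))) (XT.nd (nat_lit 78) (nat_lit 152) (nat_lit 0) (XT.lf (nat_lit 0) (nat_lit 142516506646) (nat_lit 76) (nat_lit 14597614671) (nat_lit 152) (nat_lit 25781619412) (nat_lit 20) (nat_lit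 5) (nat_lit 21) (nat_lit 5) (nat_lit 22) (nat_lit 4) (nat_lit 400) (nat_lit 338) (nat_lit 162)) (XT.nd (nat_lit 78) (nat_lit 0) (nat_lit 0) (XT.lf (nat_lit 0) (nat_lit 5761747922) (nat_lit 152) (nat_lit 159206547331) (nat_lit 76) (nat_lit 25074410812) (nat_lit 18) (nat_lit 5) (nat_lit 20) (nat_lit 5) (nat_lit 19) (nat_lit 4) (nat_lit 401) (nat_lit 338) (nat_lit 161)) (XT.lf (nat_lit 0) (nat_lit 38949495948) (nat_lit 152) (nat_lit 91173110629) (nat_lit 76) (nat_lit 67356598657) (nat_lit 18) (nat_lit 5) (nat_lit 20) (nat_lit 5) (nat_lit 19) (nat_lit 4) (nat_lit 402) (nat_lit 338) (nat_lit 160))))) (XT.nd (nat_lit 234) (nat_lit 152) (nat_lit 0) (XT.nd (nat_lit 78) (nat_lit 76) (nat_lit 0) (XT.lf (nat_lit 0) (nat_lit 73795951612) (nat_lit 152) (nat_lit 19739254376) (nat_lit 76) (nat_lit 111752357582) (nat_lit 18) (nat_lit 5) (nat_lit 20) (nat_lit 5) (nat_lit 19) (nat_lit 4) (nat_lit 403) (nat_lit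 338) (nat_lit 159)) (XT.nd (nat_lit 78) (nat_lit 0) (nat_lit 0) (XT.lf (nat_lit 0) (nat_lit 57092415895) (nat_lit 76) (nat_lit 54183039385) (nat_lit 152) (nat_lit 102166348494) (nat_lit 17) (nat_lit 5) (nat_lit 18) (nat_lit 5) (nat_lit 19) (nat_lit 4) (nat_lit 404) (nat_lit 338) (nat_lit 158)) (XT.lf (nat_lit 0) (nat_lit 138449798604) (nat_lit 76) (nat_lit 12512794465) (nat_lit 152) (nat_lit 71024480172) (nat_lit 17) (nat_lit 5) (nat_lit 18) (nat_lit 5) (nat_lit 19) (nat_lit 4) (nat_lit 405) (nat_lit 338) (nat_lit 157)))) (XT.nd (nat_lit 78) (nat_lit 152) (nat_lit 0) (XT.lf (nat_lit 0) (nat_lit 193121234068) (nat_lit 152) (nat_lit 7573454668) (nat_lit 0) (nat_lit 30240560320) (nat_lit 17) (nat_lit 5) (nat_lit 19) (nat_lit 4) (nat_lit 17) (nat_lit 4) (nat_lit 406) (nat_lit 338) (nat_lit 156)) (XT.nd (nat_lit 78) (nat_lit 76) (nat_lit 0) (XT.lf (nat_lit 0) (nat_lit 74362404186) (nat_lit 76)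 (nat_lit 164390952751) (nat_lit 76) (nat_lit 1509199415) (nat_lit 16) (nat_lit 4) (nat_lit 17) (nat_lit 5) (nat_lit 17) (nat_lit 4) (nat_lit 407) (nat_lit 338) (nat_lit 155)) (XT.lf (nat_lit 0) (nat_lit 35568861689) (nat_lit 152) (nat_lit 89966615051) (nat_lit 76) (nat_lit 124485683495) (nat_lit 15) (nat_lit 5) (nat_lit 17) (nat_lit 5) (nat_lit 16) (nat_lit 4) (nat_lit 408) (nat_lit 338) (nat_lit 154)))))) (XT.nd (nat_lit 390) (nat_lit 152) (nat_lit 0) (XT.nd (nat_lit 156) (nat_lit 76) (nat_lit 0) (XT.nd (nat_lit 78) (nat_lit 76) (nat_lit 0) (XT.lf (nat_lit 0) (nat_lit 74449552635) (nat_lit 152) (nat_lit 10262177830) (nat_lit 76) (nat_lit 175554754665) (nat_lit 15) (nat_lit 5) (nat_lit 17) (nat_lit 5) (nat_lit 16) (nat_lit 4) (nat_lit 409) (nat_lit 338) (nat_lit 153)) (XT.lf (nat_lit 0) (nat_lit 75854306318) (nat_lit 76) (nat_lit 40603742287) (nat_lit 152) (nat_lit 154506839292) (nat_lit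 14) (nat_lit 5) (nat_lit 15) (nat_lit 5) (nat_lit 16) (nat_lit 4) (nat_lit 410) (nat_lit 338) (nat_lit 152))) (XT.nd (nat_lit 78) (nat_lit 76) (nat_lit 0) (XT.lf (nat_lit 0) (nat_lit 160832232069) (nat_lit 152) (nat_lit 115649608912) (nat_lit 0) (nat_lit 5703106828) (nat_lit 14) (nat_lit 5) (nat_lit 16) (nat_lit 4) (nat_lit 14) (nat_lit 4) (nat_lit 411) (nat_lit 338) (nat_lit 151)) (XT.nd (nat_lit 78) (nat_lit 76) (nat_lit 0) (XT.lf (nat_lit 0) (nat_lit 208090259909) (nat_lit 152) (nat_lit 32882165122) (nat_lit 0) (nat_lit 52960329062) (nat_lit 14) (nat_lit 5) (nat_lit 16) (nat_lit 4) (nat_lit 14) (nat_lit 4) (nat_lit 412) (nat_lit 338) (nat_lit 150)) (XT.lf (nat_lit 0) (nat_lit 55808989540) (nat_lit 76) (nat_lit 202773058219) (nat_lit 76) (nat_lit 47642360129) (nat_lit 13) (nat_lit 4) (nat_lit 14) (nat_lit 5) (nat_lit 14) (nat_lit 4) (nat_lit 413) (nat_lit 338) (nat_lit 149))))) (XT.nd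 (nat_lit 234) (nat_lit 0) (nat_lit 0) (XT.nd (nat_lit 78) (nat_lit 152) (nat_lit 0) (XT.lf (nat_lit 0) (nat_lit 150075413419) (nat_lit 76) (nat_lit 162079419734) (nat_lit 76) (nat_lit 6947990936) (nat_lit 13) (nat_lit 4) (nat_lit 14) (nat_lit 5) (nat_lit 14) (nat_lit 4) (nat_lit 414) (nat_lit 338) (nat_lit 148)) (XT.nd (nat_lit 78) (nat_lit 76) (nat_lit 0) (XT.lf (nat_lit 0) (nat_lit 34635425778) (nat_lit 152) (nat_lit 84129501865) (nat_lit 76) (nat_lit 213832324029) (nat_lit 12) (nat_lit 5) (nat_lit 14) (nat_lit 5) (nat_lit 13) (nat_lit 4) (nat_lit 415) (nat_lit 338) (nat_lit 147)) (XT.lf (nat_lit 0) (nat_lit 5060554957) (nat_lit 76) (nat_lit 73082538916) (nat_lit 152) (nat_lit 268613682862) (nat_lit 11) (nat_lit 5) (nat_lit 12) (nat_lit 5) (nat_lit 13) (nat_lit 4) (nat_lit 416) (nat_lit 338) (nat_lit 146)))) (XT.nd (nat_lit 78) (nat_lit 0) (nat_lit 0) (XT.lf (nat_lit 0) (nat_lit 101630098810)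 (nat_lit 76) (nat_lit 23620397534) (nat_lit 152) (nat_lit 236302564260) (nat_lit 11) (nat_lit 5) (nat_lit 12) (nat_lit 5) (nat_lit 13) (nat_lit 4) (nat_lit 417) (nat_lit 338) (nat_lit 145)) (XT.nd (nat_lit 78) (nat_lit 0) (nat_lit 0) (XT.lf (nat_lit 0) (nat_lit 175154934760) (nat_lit 152) (nat_lit 174503891527) (nat_lit 0) (nat_lit 27408249186) (nat_lit 11) (nat_lit 5) (nat_lit 13) (nat_lit 4) (nat_lit 11) (nat_lit 4) (nat_lit 418) (nat_lit 338) (nat_lit 144)) (XT.lf (nat_lit 0) (nat_lit 227941425818) (nat_lit 152) (nat_lit 85201828844) (nat_lit 0) (nat_lit 80194194978) (nat_lit 11) (nat_lit 5) (nat_lit 13) (nat_lit 4) (nat_lit 11) (nat_lit 4) (nat_lit 419) (nat_lit 338) (nat_lit 143))))))) (XT.nd (nat_lit 40872) (nat_lit 0) (nat_lit 5928) (XT.nd (nat_lit 390) (nat_lit 76) (nat_lit 0) (XT.nd (nat_lit 156) (nat_lit 76) (nat_lit 0) (XT.nd (nat_lit 78) (nat_lit 0) (nat_lit 0) (XT.lf (nat_lit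 0) (nat_lit 8847816188) (nat_lit 76) (nat_lit 274657194058) (nat_lit 76) (nat_lit 126909443917) (nat_lit 10) (nat_lit 4) (nat_lit 11) (nat_lit 5) (nat_lit 11) (nat_lit 4) (nat_lit 420) (nat_lit 338) (nat_lit 142)) (XT.lf (nat_lit 0) (nat_lit 110557263808) (nat_lit 76) (nat_lit 232732080684) (nat_lit 76) (nat_lit 84983835972) (nat_lit 10) (nat_lit 4) (nat_lit 11) (nat_lit 5) (nat_lit 11) (nat_lit 4) (nat_lit 421) (nat_lit 338) (nat_lit 141))) (XT.nd (nat_lit 78) (nat_lit 76) (nat_lit 0) (XT.lf (nat_lit 0) (nat_lit 217351522125) (nat_lit 76) (nat_lit 188711027042) (nat_lit 76) (nat_lit 40962311308) (nat_lit 10) (nat_lit 4) (nat_lit 11) (nat_lit 5) (nat_lit 11) (nat_lit 4) (nat_lit 422) (nat_lit 338) (nat_lit 140)) (XT.nd (nat_lit 78) (nat_lit 0) (nat_lit 0) (XT.lf (nat_lit 0) (nat_lit 5091592194) (nat_lit 152) (nat_lit 137311400325) (nat_lit 76) (nat_lit 324307042410) (nat_lit 9) (nat_lit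 5) (nat_lit 11) (nat_lit 5) (nat_lit 10) (nat_lit 4) (nat_lit 423) (nat_lit 338) (nat_lit 139)) (XT.lf (nat_lit 0) (nat_lit 52071269297) (nat_lit 152) (nat_lit 41003489493) (nat_lit 76) (nat_lit 394271149685) (nat_lit 9) (nat_lit 5) (nat_lit 11) (nat_lit 5) (nat_lit 10) (nat_lit 4) (nat_lit 424) (nat_lit 338) (nat_lit 138))))) (XT.nd (nat_lit 40248) (nat_lit 0) (nat_lit 6688) (XT.nd (nat_lit 78) (nat_lit 0) (nat_lit 0) (XT.lf (nat_lit 0) (nat_lit 62107048592) (nat_lit 76) (nat_lit 40262242642) (nat_lit 152) (nat_lit 406595816480) (nat_lit 8) (nat_lit 5) (nat_lit 9) (nat_lit 5) (nat_lit 10) (nat_lit 4) (nat_lit 425) (nat_lit 338) (nat_lit 137)) (XT.nd (nat_lit 40092) (nat_lit 0) (nat_lit 6688) (XT.lf (nat_lit 0) (nat_lit 156124881717) (nat_lit 152) (nat_lit 360083023458) (nat_lit 0) (nat_lit 15410228431) (nat_lit 8) (nat_lit 5) (nat_lit 10) (nat_lit 4) (nat_lit 8) (nat_lit 4) (nat_lit 426)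 (nat_lit 338) (nat_lit 136)) (XT.lf (nat_lit 0) (nat_lit 52331314) (nat_lit 836) (nat_lit 6824808036) (nat_lit 836) (nat_lit 6824808036) (nat_lit 96) (nat_lit 3) (nat_lit 107) (nat_lit 3) (nat_lit 107) (nat_lit 5) (nat_lit 339) (nat_lit 339) (nat_lit 222)))) (XT.nd (nat_lit 78) (nat_lit 0) (nat_lit 76) (XT.lf (nat_lit 0) (nat_lit 191600768) (nat_lit 836) (nat_lit 812045870) (nat_lit 836) (nat_lit 27081024326) (nat_lit 96) (nat_lit 3) (nat_lit 107) (nat_lit 3) (nat_lit 107) (nat_lit 5) (nat_lit 340) (nat_lit 339) (nat_lit 221)) (XT.nd (nat_lit 78) (nat_lit 0) (nat_lit 0) (XT.lf (nat_lit 0) (nat_lit 678501007) (nat_lit 760) (nat_lit 15902981392) (nat_lit 836) (nat_lit 12198229532) (nat_lit 97) (nat_lit 5) (nat_lit 107) (nat_lit 5) (nat_lit 108) (nat_lit 5) (nat_lit 341) (nat_lit 339) (nat_lit 220)) (XT.lf (nat_lit 0) (nat_lit 1215030494) (nat_lit 760) (nat_lit 2250452168) (nat_lit 836) (nat_lit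 26042764480) (nat_lit 97) (nat_lit 5) (nat_lit 107) (nat_lit 5) (nat_lit 108) (nat_lit 5) (nat_lit 342) (nat_lit 339) (nat_lit 219)))))) (XT.nd (nat_lit 468) (nat_lit 912) (nat_lit 0) (XT.nd (nat_lit 234) (nat_lit 0) (nat_lit 76) (XT.nd (nat_lit 78) (nat_lit 0) (nat_lit 0) (XT.lf (nat_lit 0) (nat_lit 2132487311) (nat_lit 760) (nat_lit 17946618542) (nat_lit 836) (nat_lit 10176404320) (nat_lit 98) (nat_lit 5) (nat_lit 108) (nat_lit 5) (nat_lit 109) (nat_lit 5) (nat_lit 343) (nat_lit 339) (nat_lit 218)) (XT.nd (nat_lit 78) (nat_lit 0) (nat_lit 76) (XT.lf (nat_lit 0) (nat_lit 3186680183) (nat_lit 760) (nat_lit 3424502748) (nat_lit 836) (nat_lit 24424416074) (nat_lit 98) (nat_lit 5) (nat_lit 108) (nat_lit 5) (nat_lit 109) (nat_lit 5) (nat_lit 344) (nat_lit 339) (nat_lit 217)) (XT.lf (nat_lit 0) (nat_lit 4600491585) (nat_lit 760) (nat_lit 19754556465) (nat_lit 836) (nat_lit 7484304322) (nat_lit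 99) (nat_lit 5) (nat_lit 109) (nat_lit 5) (nat_lit 110) (nat_lit 5) (nat_lit 345) (nat_lit 339) (nat_lit 216)))) (XT.nd (nat_lit 78) (nat_lit 0) (nat_lit 76) (XT.lf (nat_lit 0) (nat_lit 6248044631) (nat_lit 760) (nat_lit 4304484374) (nat_lit 836) (nat_lit 22122617119) (nat_lit 99) (nat_lit 5) (nat_lit 109) (nat_lit 5) (nat_lit 110) (nat_lit 5) (nat_lit 346) (nat_lit 339) (nat_lit 215)) (XT.nd (nat_lit 78) (nat_lit 0) (nat_lit 0) (XT.lf (nat_lit 0) (nat_lit 8230764093) (nat_lit 760) (nat_lit 21299013244) (nat_lit 836) (nat_lit 4010317808) (nat_lit 100) (nat_lit 5) (nat_lit 110) (nat_lit 5) (nat_lit 111) (nat_lit 5) (nat_lit 347) (nat_lit 339) (nat_lit 214)) (XT.lf (nat_lit 0) (nat_lit 10555794880) (nat_lit 760) (nat_lit 4858689150) (nat_lit 836) (nat_lit 19021653601) (nat_lit 100) (nat_lit 5) (nat_lit 110) (nat_lit 5) (nat_lit 111) (nat_lit 5) (nat_lit 348) (nat_lit 339) (nat_lit 213)))))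 (XT.nd (nat_lit 234) (nat_lit 380) (nat_lit 0) (XT.nd (nat_lit 78) (nat_lit 684) (nat_lit 0) (XT.lf (nat_lit 76) (nat_lit 12810600275) (nat_lit 0) (nat_lit 382762009) (nat_lit 836) (nat_lit 22173810258) (nat_lit 101) (nat_lit 5) (nat_lit 100) (nat_lit 5) (nat_lit 111) (nat_lit 5) (nat_lit 349) (nat_lit 339) (nat_lit 212)) (XT.nd (nat_lit 78) (nat_lit 760) (nat_lit 0) (XT.lf (nat_lit 0) (nat_lit 16283301764) (nat_lit 760) (nat_lit 5053616269) (nat_lit 76) (nat_lit 14991820816) (nat_lit 101) (nat_lit 5) (nat_lit 111) (nat_lit 5) (nat_lit 102) (nat_lit 5) (nat_lit 350) (nat_lit 339) (nat_lit 211)) (XT.lf (nat_lit 0) (nat_lit 13755411268) (nat_lit 760) (nat_lit 5989947825) (nat_lit 836) (nat_lit 17582147466) (nat_lit 91) (nat_lit 5) (nat_lit 101) (nat_lit 5) (nat_lit 102) (nat_lit 5) (nat_lit 351) (nat_lit 339) (nat_lit 210)))) (XT.nd (nat_lit 78) (nat_lit 380) (nat_lit 0) (XT.lf (nat_lit 0)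 (nat_lit 23622283208) (nat_lit 836) (nat_lit 4854250439) (nat_lit 76) (nat_lit 9887594743) (nat_lit 91) (nat_lit 5) (nat_lit 102) (nat_lit 5) (nat_lit 92) (nat_lit 5) (nat_lit 352) (nat_lit 339) (nat_lit 209)) (XT.nd (nat_lit 78) (nat_lit 0) (nat_lit 0) (XT.lf (nat_lit 0) (nat_lit 15184248677) (nat_lit 380) (nat_lit 12840931908) (nat_lit 456) (nat_lit 11410798124) (nat_lit 86) (nat_lit 5) (nat_lit 91) (nat_lit 5) (nat_lit 92) (nat_lit 5) (nat_lit 353) (nat_lit 339) (nat_lit 208)) (XT.lf (nat_lit 0) (nat_lit 32784584127) (nat_lit 456) (nat_lit 4224435894) (nat_lit 76) (nat_lit 3545587024) (nat_lit 86) (nat_lit 5) (nat_lit 92) (nat_lit 5) (nat_lit 87) (nat_lit 5) (nat_lit 354) (nat_lit 339) (nat_lit 207))))))))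
noncomputable def xc196 : XT := (XT.nd (nat_lit 1716) (nat_lit 1596) (nat_lit 0) (XT.nd (nat_lit 858) (nat_lit 1368) (nat_lit 0) (XT.nd (nat_lit 390) (nat_lit 912) (nat_lit 0) (XT.nd (nat_lit 156) (nat_lit 684) (nat_lit 0) (XT.nd (nat_lit 78) (nat_lit 76) (nat_lit 0) (XT.lf (nat_lit 0) (nat_lit 17139289630) (nat_lit 304) (nat_lit 21117878231) (nat_lit 380) (nat_lit 3448241834) (nat_lit 82) (nat_lit 5) (nat_lit 86) (nat_lit 5) (nat_lit 87) (nat_lit 5) (nat_lit 355) (nat_lit 339) (nat_lit 206)) (XT.lf (nat_lit 0) (nat_lit 1124622340) (nat_lit 380) (nat_lit 3213535534) (nat_lit 76) (nat_lit 38571253633) (nat_lit 81) (nat_lit 5) (nat_lit 86) (nat_lit 5) (nat_lit 82) (nat_lit 5) (nat_lit 356) (nat_lit 339) (nat_lit 205))) (XT.nd (nat_lit 78) (nat_lit 304) (nat_lit 0) (XT.lf (nat_lit 0) (nat_lit 6329694830) (nat_lit 456) (nat_lit 24588467677) (nat_lit 76) (nat_lit 13226654975) (nat_lit 76) (nat_lit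 5) (nat_lit 82) (nat_lit 5) (nat_lit 77) (nat_lit 5) (nat_lit 357) (nat_lit 339) (nat_lit 204)) (XT.nd (nat_lit 78) (nat_lit 304) (nat_lit 0) (XT.lf (nat_lit 0) (nat_lit 11918823229) (nat_lit 456) (nat_lit 1937964782) (nat_lit 76) (nat_lit 31579018428) (nat_lit 76) (nat_lit 5) (nat_lit 82) (nat_lit 5) (nat_lit 77) (nat_lit 5) (nat_lit 358) (nat_lit 339) (nat_lit 203)) (XT.lf (nat_lit 0) (nat_lit 18206318740) (nat_lit 380) (nat_lit 24278550548) (nat_lit 76) (nat_lit 4285532683) (nat_lit 72) (nat_lit 5) (nat_lit 77) (nat_lit 5) (nat_lit 73) (nat_lit 5) (nat_lit 359) (nat_lit 339) (nat_lit 202))))) (XT.nd (nat_lit 234) (nat_lit 380) (nat_lit 0) (XT.nd (nat_lit 78) (nat_lit 532) (nat_lit 0) (XT.lf (nat_lit 0) (nat_lit 25066273166) (nat_lit 380) (nat_lit 190254047) (nat_lit 76) (nat_lit 22902298396) (nat_lit 72) (nat_lit 5) (nat_lit 77) (nat_lit 5) (nat_lit 73) (nat_lit 5) (nat_lit 360) (nat_lit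 339) (nat_lit 201)) (XT.nd (nat_lit 78) (nat_lit 228) (nat_lit 0) (XT.lf (nat_lit 0) (nat_lit 25929595319) (nat_lit 304) (nat_lit 6742144851) (nat_lit 380) (nat_lit 16924806929) (nat_lit 68) (nat_lit 5) (nat_lit 72) (nat_lit 5) (nat_lit 73) (nat_lit 5) (nat_lit 361) (nat_lit 339) (nat_lit 200)) (XT.lf (nat_lit 0) (nat_lit 2122856254) (nat_lit 228) (nat_lit 38767035203) (nat_lit 304) (nat_lit 10204644962) (nat_lit 65) (nat_lit 5) (nat_lit 68) (nat_lit 5) (nat_lit 69) (nat_lit 5) (nat_lit 362) (nat_lit 339) (nat_lit 199)))) (XT.nd (nat_lit 78) (nat_lit 380) (nat_lit 0) (XT.lf (nat_lit 0) (nat_lit 29906848361) (nat_lit 228) (nat_lit 20119463154) (nat_lit 304) (nat_lit 2615747819) (nat_lit 65) (nat_lit 5) (nat_lit 68) (nat_lit 5) (nat_lit 69) (nat_lit 5) (nat_lit 363) (nat_lit 339) (nat_lit 198)) (XT.nd (nat_lit 78) (nat_lit 0) (nat_lit 0) (XT.lf (nat_lit 0) (nat_lit 4883074049) (nat_lit 304)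 (nat_lit 372316028) (nat_lit 380) (nat_lit 49003686239) (nat_lit 60) (nat_lit 5) (nat_lit 64) (nat_lit 5) (nat_lit 65) (nat_lit 5) (nat_lit 364) (nat_lit 339) (nat_lit 197)) (XT.lf (nat_lit 0) (nat_lit 14139356799) (nat_lit 380) (nat_lit 21635987087) (nat_lit 76) (nat_lit 20144099186) (nat_lit 60) (nat_lit 5) (nat_lit 65) (nat_lit 5) (nat_lit 61) (nat_lit 5) (nat_lit 365) (nat_lit 339) (nat_lit 196)))))) (XT.nd (nat_lit 390) (nat_lit 684) (nat_lit 0) (XT.nd (nat_lit 156) (nat_lit 456) (nat_lit 0) (XT.nd (nat_lit 78) (nat_lit 0) (nat_lit 0) (XT.lf (nat_lit 0) (nat_lit 7729676460) (nat_lit 228) (nat_lit 15862653313) (nat_lit 304) (nat_lit 34064259799) (nat_lit 57) (nat_lit 5) (nat_lit 60) (nat_lit 5) (nat_lit 61) (nat_lit 5) (nat_lit 366) (nat_lit 339) (nat_lit 195)) (XT.lf (nat_lit 0) (nat_lit 33967216559) (nat_lit 304) (nat_lit 20234972074) (nat_lit 76) (nat_lit 5255943221) (nat_lit 57)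 (nat_lit 5) (nat_lit 61) (nat_lit 5) (nat_lit 58) (nat_lit 5) (nat_lit 367) (nat_lit 339) (nat_lit 194))) (XT.nd (nat_lit 78) (nat_lit 228) (nat_lit 0) (XT.lf (nat_lit 0) (nat_lit 11032053922) (nat_lit 228) (nat_lit 34259236022) (nat_lit 304) (nat_lit 16036940829) (nat_lit 54) (nat_lit 5) (nat_lit 57) (nat_lit 5) (nat_lit 58) (nat_lit 5) (nat_lit 368) (nat_lit 339) (nat_lit 193)) (XT.nd (nat_lit 78) (nat_lit 228) (nat_lit 0) (XT.lf (nat_lit 0) (nat_lit 44562421881) (nat_lit 228) (nat_lit 12960040008) (nat_lit 304) (nat_lit 5752329561) (nat_lit 54) (nat_lit 5) (nat_lit 57) (nat_lit 5) (nat_lit 58) (nat_lit 5) (nat_lit 369) (nat_lit 339) (nat_lit 192)) (XT.lf (nat_lit 0) (nat_lit 5266922725) (nat_lit 228) (nat_lit 50610651430) (nat_lit 76) (nat_lit 9418071389) (nat_lit 51) (nat_lit 5) (nat_lit 54) (nat_lit 5) (nat_lit 52) (nat_lit 5) (nat_lit 370) (nat_lit 339) (nat_lit 191))))) (XT.nd (nat_lit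 234) (nat_lit 456) (nat_lit 0) (XT.nd (nat_lit 78) (nat_lit 228) (nat_lit 0) (XT.lf (nat_lit 0) (nat_lit 17176674916) (nat_lit 228) (nat_lit 17314270901) (nat_lit 76) (nat_lit 32895240182) (nat_lit 51) (nat_lit 5) (nat_lit 54) (nat_lit 5) (nat_lit 52) (nat_lit 5) (nat_lit 371) (nat_lit 339) (nat_lit 190)) (XT.nd (nat_lit 78) (nat_lit 0) (nat_lit 0) (XT.lf (nat_lit 0) (nat_lit 18227960438) (nat_lit 228) (nat_lit 11736920439) (nat_lit 304) (nat_lit 39602225573) (nat_lit 48) (nat_lit 5) (nat_lit 51) (nat_lit 5) (nat_lit 52) (nat_lit 5) (nat_lit 372) (nat_lit 339) (nat_lit 189)) (XT.lf (nat_lit 0) (nat_lit 43878705867) (nat_lit 304) (nat_lit 15890980474) (nat_lit 76) (nat_lit 12063077367) (nat_lit 48) (nat_lit 5) (nat_lit 52) (nat_lit 5) (nat_lit 49) (nat_lit 5) (nat_lit 373) (nat_lit 339) (nat_lit 188)))) (XT.nd (nat_lit 78) (nat_lit 304) (nat_lit 0) (XT.lf (nat_lit 0) (nat_lit 21833707423)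 (nat_lit 152) (nat_lit 37186290107) (nat_lit 228) (nat_lit 15165118687) (nat_lit 46) (nat_lit 5) (nat_lit 48) (nat_lit 5) (nat_lit 49) (nat_lit 5) (nat_lit 374) (nat_lit 339) (nat_lit 187)) (XT.nd (nat_lit 78) (nat_lit 304) (nat_lit 0) (XT.lf (nat_lit 0) (nat_lit 61994073271) (nat_lit 152) (nat_lit 13191920577) (nat_lit 228) (nat_lit 1455711608) (nat_lit 46) (nat_lit 5) (nat_lit 48) (nat_lit 5) (nat_lit 49) (nat_lit 5) (nat_lit 375) (nat_lit 339) (nat_lit 186)) (XT.lf (nat_lit 0) (nat_lit 13119810620) (nat_lit 304) (nat_lit 53833333798) (nat_lit 76) (nat_lit 12228140963) (nat_lit 42) (nat_lit 5) (nat_lit 46) (nat_lit 5) (nat_lit 43) (nat_lit 5) (nat_lit 376) (nat_lit 339) (nat_lit 185))))))) (XT.nd (nat_lit 858) (nat_lit 760) (nat_lit 0) (XT.nd (nat_lit 390) (nat_lit 456) (nat_lit 0) (XT.nd (nat_lit 156) (nat_lit 228) (nat_lit 0) (XT.nd (nat_lit 78) (nat_lit 152) (nat_lit 0) (XT.lf (nat_lit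 0) (nat_lit 28842167609) (nat_lit 304) (nat_lit 14230005690) (nat_lit 76) (nat_lit 38751129749) (nat_lit 42) (nat_lit 5) (nat_lit 46) (nat_lit 5) (nat_lit 43) (nat_lit 5) (nat_lit 377) (nat_lit 339) (nat_lit 184)) (XT.lf (nat_lit 0) (nat_lit 28255734376) (nat_lit 152) (nat_lit 17534714259) (nat_lit 228) (nat_lit 38784983564) (nat_lit 40) (nat_lit 5) (nat_lit 42) (nat_lit 5) (nat_lit 43) (nat_lit 5) (nat_lit 378) (nat_lit 339) (nat_lit 183))) (XT.nd (nat_lit 78) (nat_lit 228) (nat_lit 0) (XT.lf (nat_lit 0) (nat_lit 63974641856) (nat_lit 228) (nat_lit 14244289492) (nat_lit 76) (nat_lit 9226812419) (nat_lit 40) (nat_lit 5) (nat_lit 43) (nat_lit 5) (nat_lit 41) (nat_lit 5) (nat_lit 379) (nat_lit 339) (nat_lit 182)) (XT.nd (nat_lit 78) (nat_lit 76) (nat_lit 0) (XT.lf (nat_lit 0) (nat_lit 30625612578) (nat_lit 152) (nat_lit 53206775831) (nat_lit 228) (nat_lit 6588966146) (nat_lit 38) (nat_lit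 5) (nat_lit 40) (nat_lit 5) (nat_lit 41) (nat_lit 5) (nat_lit 380) (nat_lit 339) (nat_lit 181)) (XT.lf (nat_lit 0) (nat_lit 11024748192) (nat_lit 228) (nat_lit 15480026259) (nat_lit 76) (nat_lit 67020081265) (nat_lit 37) (nat_lit 5) (nat_lit 40) (nat_lit 5) (nat_lit 38) (nat_lit 5) (nat_lit 381) (nat_lit 339) (nat_lit 180))))) (XT.nd (nat_lit 234) (nat_lit 152) (nat_lit 0) (XT.nd (nat_lit 78) (nat_lit 152) (nat_lit 0) (XT.lf (nat_lit 0) (nat_lit 29829441993) (nat_lit 228) (nat_lit 64822522742) (nat_lit 76) (nat_lit 2099580812) (nat_lit 35) (nat_lit 5) (nat_lit 38) (nat_lit 5) (nat_lit 36) (nat_lit 5) (nat_lit 382) (nat_lit 339) (nat_lit 179)) (XT.nd (nat_lit 78) (nat_lit 152) (nat_lit 0) (XT.lf (nat_lit 0) (nat_lit 50274155134) (nat_lit 228) (nat_lit 18321269539) (nat_lit 76) (nat_lit 31509156644) (nat_lit 35) (nat_lit 5) (nat_lit 38) (nat_lit 5) (nat_lit 36) (nat_lit 5) (nat_lit 383) (nat_lit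 339) (nat_lit 178)) (XT.lf (nat_lit 0) (nat_lit 31511751151) (nat_lit 152) (nat_lit 40720216368) (nat_lit 228) (nat_lit 31368758823) (nat_lit 33) (nat_lit 5) (nat_lit 35) (nat_lit 5) (nat_lit 36) (nat_lit 5) (nat_lit 384) (nat_lit 339) (nat_lit 177)))) (XT.nd (nat_lit 78) (nat_lit 152) (nat_lit 0) (XT.lf (nat_lit 0) (nat_lit 84470658108) (nat_lit 152) (nat_lit 11126193611) (nat_lit 228) (nat_lit 11659368455) (nat_lit 33) (nat_lit 5) (nat_lit 35) (nat_lit 5) (nat_lit 36) (nat_lit 5) (nat_lit 385) (nat_lit 339) (nat_lit 176)) (XT.nd (nat_lit 78) (nat_lit 0) (nat_lit 0) (XT.lf (nat_lit 0) (nat_lit 9531763289) (nat_lit 152) (nat_lit 81591842182) (nat_lit 76) (nat_lit 19924557118) (nat_lit 31) (nat_lit 5) (nat_lit 33) (nat_lit 5) (nat_lit 32) (nat_lit 5) (nat_lit 386) (nat_lit 339) (nat_lit 175)) (XT.lf (nat_lit 0) (nat_lit 31964175745) (nat_lit 152) (nat_lit 30290706062) (nat_lit 76) (nat_lit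 52736586223) (nat_lit 31) (nat_lit 5) (nat_lit 33) (nat_lit 5) (nat_lit 32) (nat_lit 5) (nat_lit 387) (nat_lit 339) (nat_lit 174)))))) (XT.nd (nat_lit 468) (nat_lit 304) (nat_lit 0) (XT.nd (nat_lit 234) (nat_lit 228) (nat_lit 0) (XT.nd (nat_lit 78) (nat_lit 76) (nat_lit 0) (XT.lf (nat_lit 0) (nat_lit 24353229288) (nat_lit 152) (nat_lit 31544200025) (nat_lit 228) (nat_lit 63215548912) (nat_lit 29) (nat_lit 5) (nat_lit 31) (nat_lit 5) (nat_lit 32) (nat_lit 5) (nat_lit 388) (nat_lit 339) (nat_lit 173)) (XT.nd (nat_lit 78) (nat_lit 76) (nat_lit 0) (XT.lf (nat_lit 0) (nat_lit 81558712102) (nat_lit 228) (nat_lit 40655022152) (nat_lit 76) (nat_lit 1200261831) (nat_lit 29) (nat_lit 5) (nat_lit 32) (nat_lit 5) (nat_lit 30) (nat_lit 4) (nat_lit 389) (nat_lit 339) (nat_lit 172)) (XT.lf (nat_lit 0) (nat_lit 16153183930) (nat_lit 76) (nat_lit 93118245514) (nat_lit 152) (nat_lit 18620217333) (nat_lit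 28) (nat_lit 5) (nat_lit 29) (nat_lit 5) (nat_lit 30) (nat_lit 4) (nat_lit 390) (nat_lit 339) (nat_lit 171)))) (XT.nd (nat_lit 78) (nat_lit 152) (nat_lit 0) (XT.lf (nat_lit 0) (nat_lit 6290574922) (nat_lit 152) (nat_lit 55448626331) (nat_lit 76) (nat_lit 70814526740) (nat_lit 27) (nat_lit 5) (nat_lit 29) (nat_lit 5) (nat_lit 28) (nat_lit 5) (nat_lit 391) (nat_lit 339) (nat_lit 170)) (XT.nd (nat_lit 78) (nat_lit 0) (nat_lit 0) (XT.lf (nat_lit 0) (nat_lit 3459613413) (nat_lit 152) (nat_lit 28414651067) (nat_lit 228) (nat_lit 105556730757) (nat_lit 25) (nat_lit 5) (nat_lit 27) (nat_lit 5) (nat_lit 28) (nat_lit 5) (nat_lit 392) (nat_lit 339) (nat_lit 169)) (XT.lf (nat_lit 0) (nat_lit 59793366812) (nat_lit 228) (nat_lit 75386500029) (nat_lit 76) (nat_lit 7319447966) (nat_lit 25) (nat_lit 5) (nat_lit 28) (nat_lit 5) (nat_lit 26) (nat_lit 4) (nat_lit 393) (nat_lit 339) (nat_lit 168))))) (XT.nd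 (nat_lit 234) (nat_lit 228) (nat_lit 0) (XT.nd (nat_lit 78) (nat_lit 76) (nat_lit 0) (XT.lf (nat_lit 0) (nat_lit 89573393412) (nat_lit 228) (nat_lit 14339689885) (nat_lit 76) (nat_lit 43884718960) (nat_lit 25) (nat_lit 5) (nat_lit 28) (nat_lit 5) (nat_lit 26) (nat_lit 4) (nat_lit 394) (nat_lit 339) (nat_lit 167)) (XT.nd (nat_lit 78) (nat_lit 0) (nat_lit 0) (XT.lf (nat_lit 0) (nat_lit 51403255692) (nat_lit 76) (nat_lit 70240909959) (nat_lit 152) (nat_lit 31676961559) (nat_lit 24) (nat_lit 5) (nat_lit 25) (nat_lit 5) (nat_lit 26) (nat_lit 4) (nat_lit 395) (nat_lit 339) (nat_lit 166)) (XT.lf (nat_lit 0) (nat_lit 120929782996) (nat_lit 76) (nat_lit 34630754864) (nat_lit 152) (nat_lit 3547977807) (nat_lit 24) (nat_lit 5) (nat_lit 25) (nat_lit 5) (nat_lit 26) (nat_lit 4) (nat_lit 396) (nat_lit 339) (nat_lit 165)))) (XT.nd (nat_lit 78) (nat_lit 0) (nat_lit 0) (XT.lf (nat_lit 0) (nat_lit 25669257323)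 (nat_lit 228) (nat_lit 135922078110) (nat_lit 76) (nat_lit 3547973408) (nat_lit 21) (nat_lit 5) (nat_lit 24) (nat_lit 5) (nat_lit 22) (nat_lit 4) (nat_lit 397) (nat_lit 339) (nat_lit 164)) (XT.nd (nat_lit 78) (nat_lit 0) (nat_lit 0) (XT.lf (nat_lit 0) (nat_lit 57452253855) (nat_lit 228) (nat_lit 70768693754) (nat_lit 76) (nat_lit 43186579420) (nat_lit 21) (nat_lit 5) (nat_lit 24) (nat_lit 5) (nat_lit 22) (nat_lit 4) (nat_lit 398) (nat_lit 339) (nat_lit 163)) (XT.lf (nat_lit 0) (nat_lit 90823679040) (nat_lit 228) (nat_lit 2358946923) (nat_lit 76) (nat_lit 84806566492) (nat_lit 21) (nat_lit 5) (nat_lit 24) (nat_lit 5) (nat_lit 22) (nat_lit 4) (nat_lit 399) (nat_lit 339) (nat_lit 162))))))))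
noncomputable def xc197 : XT := (XT.nd (nat_lit 1716) (nat_lit 152) (nat_lit 0) (XT.nd (nat_lit 858) (nat_lit 380) (nat_lit 0) (XT.nd (nat_lit 390) (nat_lit 228) (nat_lit 0) (XT.nd (nat_lit 156) (nat_lit 152) (nat_lit 0) (XT.nd (nat_lit 78) (nat_lit 0) (nat_lit 0) (XT.lf (nat_lit 0) (nat_lit 71767036080) (nat_lit 76) (nat_lit 55216437129) (nat_lit 152) (nat_lit 57860478311) (nat_lit 20) (nat_lit 5) (nat_lit 21) (nat_lit 5) (nat_lit 22) (nat_lit 4) (nat_lit 400) (nat_lit 339) (nat_lit 161)) (XT.lf (nat_lit 0) (nat_lit 149679991101) (nat_lit 76) (nat_lit 15310542649) (nat_lit 152) (nat_lit 27048951200) (nat_lit 20) (nat_lit 5) (nat_lit 21) (nat_lit 5) (nat_lit 22) (nat_lit 4) (nat_lit 401) (nat_lit 339) (nat_lit 160))) (XT.nd (nat_lit 78) (nat_lit 0) (nat_lit 0) (XT.lf (nat_lit 0) (nat_lit 6070742186) (nat_lit 152) (nat_lit 167128359319) (nat_lit 76) (nat_lit 26344687719) (nat_lit 18) (nat_lit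 5) (nat_lit 20) (nat_lit 5) (nat_lit 19) (nat_lit 4) (nat_lit 402) (nat_lit 339) (nat_lit 159)) (XT.nd (nat_lit 78) (nat_lit 0) (nat_lit 0) (XT.lf (nat_lit 0) (nat_lit 40916882048) (nat_lit 152) (nat_lit 95695084847) (nat_lit 76) (nat_lit 70740196558) (nat_lit 18) (nat_lit 5) (nat_lit 20) (nat_lit 5) (nat_lit 19) (nat_lit 4) (nat_lit 403) (nat_lit 339) (nat_lit 158)) (XT.lf (nat_lit 0) (nat_lit 77504712339) (nat_lit 152) (nat_lit 20691282511) (nat_lit 76) (nat_lit 117354992574) (nat_lit 18) (nat_lit 5) (nat_lit 20) (nat_lit 5) (nat_lit 19) (nat_lit 4) (nat_lit 404) (nat_lit 339) (nat_lit 157))))) (XT.nd (nat_lit 234) (nat_lit 152) (nat_lit 0) (XT.nd (nat_lit 78) (nat_lit 0) (nat_lit 0) (XT.lf (nat_lit 0) (nat_lit 59981407813) (nat_lit 76) (nat_lit 56876416999) (nat_lit 152) (nat_lit 107255133438) (nat_lit 17) (nat_lit 5) (nat_lit 18) (nat_lit 5) (nat_lit 19) (nat_lit 4) (nat_lit 405) (nat_lit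 339) (nat_lit 156)) (XT.nd (nat_lit 78) (nat_lit 0) (nat_lit 0) (XT.lf (nat_lit 0) (nat_lit 145405022937) (nat_lit 76) (nat_lit 13123410993) (nat_lit 152) (nat_lit 74557101817) (nat_lit 17) (nat_lit 5) (nat_lit 18) (nat_lit 5) (nat_lit 19) (nat_lit 4) (nat_lit 406) (nat_lit 339) (nat_lit 155)) (XT.lf (nat_lit 0) (nat_lit 202794386973) (nat_lit 152) (nat_lit 7920326445) (nat_lit 0) (nat_lit 31766438202) (nat_lit 17) (nat_lit 5) (nat_lit 19) (nat_lit 4) (nat_lit 17) (nat_lit 4) (nat_lit 407) (nat_lit 339) (nat_lit 154)))) (XT.nd (nat_lit 78) (nat_lit 76) (nat_lit 0) (XT.lf (nat_lit 0) (nat_lit 78111812433) (nat_lit 76) (nat_lit 172595978180) (nat_lit 76) (nat_lit 1567050191) (nat_lit 16) (nat_lit 4) (nat_lit 17) (nat_lit 5) (nat_lit 17) (nat_lit 4) (nat_lit 408) (nat_lit 339) (nat_lit 153)) (XT.nd (nat_lit 78) (nat_lit 0) (nat_lit 0) (XT.lf (nat_lit 0) (nat_lit 37363538670) (nat_lit 152)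 (nat_lit 94434606303) (nat_lit 76) (nat_lit 130723256975) (nat_lit 15) (nat_lit 5) (nat_lit 17) (nat_lit 5) (nat_lit 16) (nat_lit 4) (nat_lit 409) (nat_lit 339) (nat_lit 152)) (XT.lf (nat_lit 0) (nat_lit 78187491121) (nat_lit 152) (nat_lit 10746391959) (nat_lit 76) (nat_lit 184345148880) (nat_lit 15) (nat_lit 5) (nat_lit 17) (nat_lit 5) (nat_lit 16) (nat_lit 4) (nat_lit 410) (nat_lit 339) (nat_lit 151)))))) (XT.nd (nat_lit 390) (nat_lit 228) (nat_lit 0) (XT.nd (nat_lit 156) (nat_lit 76) (nat_lit 0) (XT.nd (nat_lit 78) (nat_lit 0) (nat_lit 0) (XT.lf (nat_lit 0) (nat_lit 79675450351) (nat_lit 76) (nat_lit 42620669158) (nat_lit 152) (nat_lit 162216250183) (nat_lit 14) (nat_lit 5) (nat_lit 15) (nat_lit 5) (nat_lit 16) (nat_lit 4) (nat_lit 411) (nat_lit 339) (nat_lit 150)) (XT.lf (nat_lit 0) (nat_lit 168888487010) (nat_lit 152) (nat_lit 121404485275) (nat_lit 0) (nat_lit 6000486771) (nat_lit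 14) (nat_lit 5) (nat_lit 16) (nat_lit 4) (nat_lit 14) (nat_lit 4) (nat_lit 412) (nat_lit 339) (nat_lit 149))) (XT.nd (nat_lit 78) (nat_lit 76) (nat_lit 0) (XT.lf (nat_lit 0) (nat_lit 218508718939) (nat_lit 152) (nat_lit 34499983776) (nat_lit 0) (nat_lit 55619987993) (nat_lit 14) (nat_lit 5) (nat_lit 16) (nat_lit 4) (nat_lit 14) (nat_lit 4) (nat_lit 413) (nat_lit 339) (nat_lit 148)) (XT.nd (nat_lit 78) (nat_lit 0) (nat_lit 0) (XT.lf (nat_lit 0) (nat_lit 58625304593) (nat_lit 76) (nat_lit 212899531326) (nat_lit 76) (nat_lit 50010104468) (nat_lit 13) (nat_lit 4) (nat_lit 14) (nat_lit 5) (nat_lit 14) (nat_lit 4) (nat_lit 414) (nat_lit 339) (nat_lit 147)) (XT.lf (nat_lit 0) (nat_lit 157603817972) (nat_lit 76) (nat_lit 170171790908) (nat_lit 76) (nat_lit 7281701275) (nat_lit 13) (nat_lit 4) (nat_lit 14) (nat_lit 5) (nat_lit 14) (nat_lit 4) (nat_lit 415) (nat_lit 339) (nat_lit 146))))) (XT.nd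 (nat_lit 234) (nat_lit 76) (nat_lit 0) (XT.nd (nat_lit 78) (nat_lit 76) (nat_lit 0) (XT.lf (nat_lit 0) (nat_lit 36379817131) (nat_lit 152) (nat_lit 88312095726) (nat_lit 76) (nat_lit 224534567280) (nat_lit 12) (nat_lit 5) (nat_lit 14) (nat_lit 5) (nat_lit 13) (nat_lit 4) (nat_lit 416) (nat_lit 339) (nat_lit 145)) (XT.nd (nat_lit 78) (nat_lit 0) (nat_lit 0) (XT.lf (nat_lit 0) (nat_lit 5337078755) (nat_lit 76) (nat_lit 76725555759) (nat_lit 152) (nat_lit 282031358793) (nat_lit 11) (nat_lit 5) (nat_lit 12) (nat_lit 5) (nat_lit 13) (nat_lit 4) (nat_lit 417) (nat_lit 339) (nat_lit 144)) (XT.lf (nat_lit 0) (nat_lit 106733980942) (nat_lit 76) (nat_lit 24790836361) (nat_lit 152) (nat_lit 248105303699) (nat_lit 11) (nat_lit 5) (nat_lit 12) (nat_lit 5) (nat_lit 13) (nat_lit 4) (nat_lit 418) (nat_lit 339) (nat_lit 143)))) (XT.nd (nat_lit 78) (nat_lit 76) (nat_lit 0) (XT.lf (nat_lit 0) (nat_lit 183924073251)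 (nat_lit 152) (nat_lit 183207367413) (nat_lit 0) (nat_lit 28788416303) (nat_lit 11) (nat_lit 5) (nat_lit 13) (nat_lit 4) (nat_lit 11) (nat_lit 4) (nat_lit 419) (nat_lit 339) (nat_lit 142)) (XT.nd (nat_lit 78) (nat_lit 76) (nat_lit 0) (XT.lf (nat_lit 0) (nat_lit 239349346398) (nat_lit 152) (nat_lit 89441235819) (nat_lit 0) (nat_lit 84213194878) (nat_lit 11) (nat_lit 5) (nat_lit 13) (nat_lit 4) (nat_lit 11) (nat_lit 4) (nat_lit 420) (nat_lit 339) (nat_lit 141)) (XT.lf (nat_lit 0) (nat_lit 9310557843) (nat_lit 76) (nat_lit 288380353304) (nat_lit 76) (nat_lit 133243730763) (nat_lit 10) (nat_lit 4) (nat_lit 11) (nat_lit 5) (nat_lit 11) (nat_lit 4) (nat_lit 421) (nat_lit 339) (nat_lit 140))))))) (XT.nd (nat_lit 40950) (nat_lit 0) (nat_lit 5548) (XT.nd (nat_lit 40482) (nat_lit 0) (nat_lit 6688) (XT.nd (nat_lit 156) (nat_lit 152) (nat_lit 0) (XT.nd (nat_lit 78) (nat_lit 0) (nat_lit 0) (XT.lf (nat_lit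 0) (nat_lit 116104508757) (nat_lit 76) (nat_lit 244359446188) (nat_lit 76) (nat_lit 89222375056) (nat_lit 10) (nat_lit 4) (nat_lit 11) (nat_lit 5) (nat_lit 11) (nat_lit 4) (nat_lit 422) (nat_lit 339) (nat_lit 139)) (XT.lf (nat_lit 0) (nat_lit 228237557049) (nat_lit 76) (nat_lit 198137779794) (nat_lit 76) (nat_lit 43000281432) (nat_lit 10) (nat_lit 4) (nat_lit 11) (nat_lit 5) (nat_lit 11) (nat_lit 4) (nat_lit 423) (nat_lit 339) (nat_lit 138))) (XT.nd (nat_lit 78) (nat_lit 76) (nat_lit 0) (XT.lf (nat_lit 0) (nat_lit 5355524875) (nat_lit 152) (nat_lit 144159079253) (nat_lit 76) (nat_lit 340530462887) (nat_lit 9) (nat_lit 5) (nat_lit 11) (nat_lit 5) (nat_lit 10) (nat_lit 4) (nat_lit 424) (nat_lit 339) (nat_lit 137)) (XT.nd (nat_lit 78) (nat_lit 76) (nat_lit 0) (XT.lf (nat_lit 0) (nat_lit 54683740449) (nat_lit 152) (nat_lit 43036624835) (nat_lit 76) (nat_lit 413992391317) (nat_lit 9) (nat_lit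 5) (nat_lit 11) (nat_lit 5) (nat_lit 10) (nat_lit 4) (nat_lit 425) (nat_lit 339) (nat_lit 136)) (XT.lf (nat_lit 0) (nat_lit 65229165329) (nat_lit 76) (nat_lit 42267335716) (nat_lit 152) (nat_lit 426916422971) (nat_lit 8) (nat_lit 5) (nat_lit 9) (nat_lit 5) (nat_lit 10) (nat_lit 4) (nat_lit 426) (nat_lit 339) (nat_lit 135))))) (XT.nd (nat_lit 234) (nat_lit 0) (nat_lit 76) (XT.nd (nat_lit 78) (nat_lit 0) (nat_lit 0) (XT.lf (nat_lit 0) (nat_lit 137952957) (nat_lit 836) (nat_lit 7122419042) (nat_lit 836) (nat_lit 7122419042) (nat_lit 96) (nat_lit 3) (nat_lit 107) (nat_lit 3) (nat_lit 107) (nat_lit 5) (nat_lit 340) (nat_lit 340) (nat_lit 220)) (XT.nd (nat_lit 78) (nat_lit 0) (nat_lit 76) (XT.lf (nat_lit 0) (nat_lit 359285715) (nat_lit 836) (nat_lit 769544552) (nat_lit 836) (nat_lit 28351971932) (nat_lit 96) (nat_lit 3) (nat_lit 107) (nat_lit 3) (nat_lit 107) (nat_lit 5) (nat_lit 341) (nat_lit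 340) (nat_lit 219)) (XT.lf (nat_lit 0) (nat_lit 863184422) (nat_lit 760) (nat_lit 16607492622) (nat_lit 836) (nat_lit 12740294881) (nat_lit 97) (nat_lit 5) (nat_lit 107) (nat_lit 5) (nat_lit 108) (nat_lit 5) (nat_lit 342) (nat_lit 340) (nat_lit 218)))) (XT.nd (nat_lit 78) (nat_lit 0) (nat_lit 76) (XT.lf (nat_lit 0) (nat_lit 1419361414) (nat_lit 760) (nat_lit 2276653024) (nat_lit 836) (nat_lit 27280287344) (nat_lit 97) (nat_lit 5) (nat_lit 107) (nat_lit 5) (nat_lit 108) (nat_lit 5) (nat_lit 343) (nat_lit 340) (nat_lit 217)) (XT.nd (nat_lit 78) (nat_lit 0) (nat_lit 0) (XT.lf (nat_lit 0) (nat_lit 2376350299) (nat_lit 760) (nat_lit 18751116709) (nat_lit 836) (nat_lit 10633786507) (nat_lit 98) (nat_lit 5) (nat_lit 108) (nat_lit 5) (nat_lit 109) (nat_lit 5) (nat_lit 344) (nat_lit 340) (nat_lit 216)) (XT.lf (nat_lit 0) (nat_lit 3476717642) (nat_lit 760) (nat_lit 3507315734) (nat_lit 836) (nat_lit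 25596648279) (nat_lit 98) (nat_lit 5) (nat_lit 108) (nat_lit 5) (nat_lit 109) (nat_lit 5) (nat_lit 345) (nat_lit 340) (nat_lit 215)))))) (XT.nd (nat_lit 468) (nat_lit 1368) (nat_lit 0) (XT.nd (nat_lit 234) (nat_lit 0) (nat_lit 76) (XT.nd (nat_lit 78) (nat_lit 0) (nat_lit 0) (XT.lf (nat_lit 0) (nat_lit 4955747158) (nat_lit 760) (nat_lit 20648245273) (nat_lit 836) (nat_lit 7820911602) (nat_lit 99) (nat_lit 5) (nat_lit 109) (nat_lit 5) (nat_lit 110) (nat_lit 5) (nat_lit 346) (nat_lit 340) (nat_lit 214)) (XT.nd (nat_lit 78) (nat_lit 0) (nat_lit 76) (XT.lf (nat_lit 0) (nat_lit 6679714476) (nat_lit 760) (nat_lit 4430147625) (nat_lit 836) (nat_lit 23192930893) (nat_lit 99) (nat_lit 5) (nat_lit 109) (nat_lit 5) (nat_lit 110) (nat_lit 5) (nat_lit 347) (nat_lit 340) (nat_lit 213)) (XT.lf (nat_lit 0) (nat_lit 8756847080) (nat_lit 760) (nat_lit 22269540057) (nat_lit 836) (nat_lit 4184845474) (nat_lit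 100) (nat_lit 5) (nat_lit 110) (nat_lit 5) (nat_lit 111) (nat_lit 5) (nat_lit 348) (nat_lit 340) (nat_lit 212)))) (XT.nd (nat_lit 78) (nat_lit 0) (nat_lit 0) (XT.lf (nat_lit 0) (nat_lit 11192674893) (nat_lit 760) (nat_lit 5011696132) (nat_lit 836) (nat_lit 19947985591) (nat_lit 100) (nat_lit 5) (nat_lit 110) (nat_lit 5) (nat_lit 111) (nat_lit 5) (nat_lit 349) (nat_lit 340) (nat_lit 211)) (XT.nd (nat_lit 78) (nat_lit 0) (nat_lit 76) (XT.lf (nat_lit 76) (nat_lit 13539607322) (nat_lit 0) (nat_lit 418699945) (nat_lit 836) (nat_lit 23171833027) (nat_lit 101) (nat_lit 5) (nat_lit 100) (nat_lit 5) (nat_lit 111) (nat_lit 5) (nat_lit 350) (nat_lit 340) (nat_lit 210)) (XT.lf (nat_lit 0) (nat_lit 17197480734) (nat_lit 760) (nat_lit 5216649273) (nat_lit 76) (nat_lit 15725924108) (nat_lit 101) (nat_lit 5) (nat_lit 111) (nat_lit 5) (nat_lit 102) (nat_lit 5) (nat_lit 351) (nat_lit 340) (nat_lit 209)))))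 (XT.nd (nat_lit 234) (nat_lit 380) (nat_lit 0) (XT.nd (nat_lit 78) (nat_lit 380) (nat_lit 0) (XT.lf (nat_lit 0) (nat_lit 14531383709) (nat_lit 760) (nat_lit 6297871734) (nat_lit 836) (nat_lit 18359679803) (nat_lit 91) (nat_lit 5) (nat_lit 101) (nat_lit 5) (nat_lit 102) (nat_lit 5) (nat_lit 352) (nat_lit 340) (nat_lit 208)) (XT.nd (nat_lit 78) (nat_lit 380) (nat_lit 0) (XT.lf (nat_lit 0) (nat_lit 24895299115) (nat_lit 836) (nat_lit 5008124789) (nat_lit 76) (nat_lit 10374206084) (nat_lit 91) (nat_lit 5) (nat_lit 102) (nat_lit 5) (nat_lit 92) (nat_lit 5) (nat_lit 353) (nat_lit 340) (nat_lit 207)) (XT.lf (nat_lit 0) (nat_lit 16030866409) (nat_lit 380) (nat_lit 13484463319) (nat_lit 456) (nat_lit 11887898901) (nat_lit 86) (nat_lit 5) (nat_lit 91) (nat_lit 5) (nat_lit 92) (nat_lit 5) (nat_lit 354) (nat_lit 340) (nat_lit 206)))) (XT.nd (nat_lit 78) (nat_lit 380) (nat_lit 0) (XT.lf (nat_lit 0)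 (nat_lit 34508448507) (nat_lit 456) (nat_lit 4348060074) (nat_lit 76) (nat_lit 3721497526) (nat_lit 86) (nat_lit 5) (nat_lit 92) (nat_lit 5) (nat_lit 87) (nat_lit 5) (nat_lit 355) (nat_lit 340) (nat_lit 205)) (XT.nd (nat_lit 78) (nat_lit 76) (nat_lit 0) (XT.lf (nat_lit 0) (nat_lit 18082438862) (nat_lit 304) (nat_lit 22169537906) (nat_lit 380) (nat_lit 3534511095) (nat_lit 82) (nat_lit 5) (nat_lit 86) (nat_lit 5) (nat_lit 87) (nat_lit 5) (nat_lit 356) (nat_lit 340) (nat_lit 204)) (XT.lf (nat_lit 0) (nat_lit 1260268431) (nat_lit 380) (nat_lit 3289419798) (nat_lit 76) (nat_lit 40501137124) (nat_lit 81) (nat_lit 5) (nat_lit 86) (nat_lit 5) (nat_lit 82) (nat_lit 5) (nat_lit 357) (nat_lit 340) (nat_lit 203))))))))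
noncomputable def xc198 : XT := (XT.nd (nat_lit 1716) (nat_lit 1520) (nat_lit 0) (XT.nd (nat_lit 858) (nat_lit 1292) (nat_lit 0) (XT.nd (nat_lit 390) (nat_lit 836) (nat_lit 0) (XT.nd (nat_lit 156) (nat_lit 608) (nat_lit 0) (XT.nd (nat_lit 78) (nat_lit 0) (nat_lit 0) (XT.lf (nat_lit 0) (nat_lit 6723216690) (nat_lit 456) (nat_lit 25730638807) (nat_lit 76) (nat_lit 13894269119) (nat_lit 76) (nat_lit 5) (nat_lit 82) (nat_lit 5) (nat_lit 77) (nat_lit 5) (nat_lit 358) (nat_lit 340) (nat_lit 202)) (XT.lf (nat_lit 0) (nat_lit 12588133074) (nat_lit 456) (nat_lit 1951765636) (nat_lit 76) (nat_lit 33163951630) (nat_lit 76) (nat_lit 5) (nat_lit 82) (nat_lit 5) (nat_lit 77) (nat_lit 5) (nat_lit 359) (nat_lit 340) (nat_lit 201))) (XT.nd (nat_lit 78) (nat_lit 304) (nat_lit 0) (XT.lf (nat_lit 0) (nat_lit 19187951656) (nat_lit 380) (nat_lit 25407254714) (nat_lit 76) (nat_lit 4510075578) (nat_lit 72) (nat_lit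 5) (nat_lit 77) (nat_lit 5) (nat_lit 73) (nat_lit 5) (nat_lit 360) (nat_lit 340) (nat_lit 200)) (XT.nd (nat_lit 78) (nat_lit 304) (nat_lit 0) (XT.lf (nat_lit 0) (nat_lit 26387507756) (nat_lit 380) (nat_lit 118601643) (nat_lit 76) (nat_lit 24057190707) (nat_lit 72) (nat_lit 5) (nat_lit 77) (nat_lit 5) (nat_lit 73) (nat_lit 5) (nat_lit 361) (nat_lit 340) (nat_lit 199)) (XT.lf (nat_lit 0) (nat_lit 27305931077) (nat_lit 304) (nat_lit 7065329480) (nat_lit 380) (nat_lit 17701749861) (nat_lit 68) (nat_lit 5) (nat_lit 72) (nat_lit 5) (nat_lit 73) (nat_lit 5) (nat_lit 362) (nat_lit 340) (nat_lit 198))))) (XT.nd (nat_lit 234) (nat_lit 228) (nat_lit 0) (XT.nd (nat_lit 78) (nat_lit 380) (nat_lit 0) (XT.lf (nat_lit 0) (nat_lit 2310662972) (nat_lit 228) (nat_lit 40687998774) (nat_lit 304) (nat_lit 10647323548) (nat_lit 65) (nat_lit 5) (nat_lit 68) (nat_lit 5) (nat_lit 69) (nat_lit 5) (nat_lit 363) (nat_lit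 340) (nat_lit 197)) (XT.nd (nat_lit 78) (nat_lit 380) (nat_lit 0) (XT.lf (nat_lit 0) (nat_lit 31479965927) (nat_lit 228) (nat_lit 21108876132) (nat_lit 304) (nat_lit 2682198390) (nat_lit 65) (nat_lit 5) (nat_lit 68) (nat_lit 5) (nat_lit 69) (nat_lit 5) (nat_lit 364) (nat_lit 340) (nat_lit 196)) (XT.lf (nat_lit 0) (nat_lit 5205831685) (nat_lit 304) (nat_lit 372867162) (nat_lit 380) (nat_lit 51390248898) (nat_lit 60) (nat_lit 5) (nat_lit 64) (nat_lit 5) (nat_lit 65) (nat_lit 5) (nat_lit 365) (nat_lit 340) (nat_lit 195)))) (XT.nd (nat_lit 78) (nat_lit 228) (nat_lit 0) (XT.lf (nat_lit 0) (nat_lit 14904249692) (nat_lit 380) (nat_lit 22640258555) (nat_lit 76) (nat_lit 21167957940) (nat_lit 60) (nat_lit 5) (nat_lit 65) (nat_lit 5) (nat_lit 61) (nat_lit 5) (nat_lit 366) (nat_lit 340) (nat_lit 194)) (XT.nd (nat_lit 78) (nat_lit 0) (nat_lit 0) (XT.lf (nat_lit 0) (nat_lit 8192437719) (nat_lit 228)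 (nat_lit 16635866164) (nat_lit 304) (nat_lit 35708247014) (nat_lit 57) (nat_lit 5) (nat_lit 60) (nat_lit 5) (nat_lit 61) (nat_lit 5) (nat_lit 367) (nat_lit 340) (nat_lit 193)) (XT.lf (nat_lit 0) (nat_lit 35719547508) (nat_lit 304) (nat_lit 21171640122) (nat_lit 76) (nat_lit 5537104435) (nat_lit 57) (nat_lit 5) (nat_lit 61) (nat_lit 5) (nat_lit 58) (nat_lit 5) (nat_lit 368) (nat_lit 340) (nat_lit 192)))))) (XT.nd (nat_lit 390) (nat_lit 608) (nat_lit 0) (XT.nd (nat_lit 156) (nat_lit 456) (nat_lit 0) (XT.nd (nat_lit 78) (nat_lit 0) (nat_lit 0) (XT.lf (nat_lit 0) (nat_lit 11657526197) (nat_lit 228) (nat_lit 35950881669) (nat_lit 304) (nat_lit 16783561177) (nat_lit 54) (nat_lit 5) (nat_lit 57) (nat_lit 5) (nat_lit 58) (nat_lit 5) (nat_lit 369) (nat_lit 340) (nat_lit 191)) (XT.lf (nat_lit 0) (nat_lit 46860894955) (nat_lit 228) (nat_lit 13587740910) (nat_lit 304) (nat_lit 5987349187) (nat_lit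 54) (nat_lit 5) (nat_lit 57) (nat_lit 5) (nat_lit 58) (nat_lit 5) (nat_lit 370) (nat_lit 340) (nat_lit 190))) (XT.nd (nat_lit 78) (nat_lit 228) (nat_lit 0) (XT.lf (nat_lit 0) (nat_lit 5580197842) (nat_lit 228) (nat_lit 53068083403) (nat_lit 76) (nat_lit 9909610739) (nat_lit 51) (nat_lit 5) (nat_lit 54) (nat_lit 5) (nat_lit 52) (nat_lit 5) (nat_lit 371) (nat_lit 340) (nat_lit 189)) (XT.nd (nat_lit 78) (nat_lit 228) (nat_lit 0) (XT.lf (nat_lit 0) (nat_lit 18083060072) (nat_lit 228) (nat_lit 18110364829) (nat_lit 76) (nat_lit 34559655316) (nat_lit 51) (nat_lit 5) (nat_lit 54) (nat_lit 5) (nat_lit 52) (nat_lit 5) (nat_lit 372) (nat_lit 340) (nat_lit 188)) (XT.lf (nat_lit 0) (nat_lit 19207855180) (nat_lit 228) (nat_lit 12301626224) (nat_lit 304) (nat_lit 41533626819) (nat_lit 48) (nat_lit 5) (nat_lit 51) (nat_lit 5) (nat_lit 52) (nat_lit 5) (nat_lit 373) (nat_lit 340) (nat_lit 187))))) (XT.nd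 (nat_lit 234) (nat_lit 456) (nat_lit 0) (XT.nd (nat_lit 78) (nat_lit 152) (nat_lit 0) (XT.lf (nat_lit 0) (nat_lit 46117119402) (nat_lit 304) (nat_lit 16618382260) (nat_lit 76) (nat_lit 12686642294) (nat_lit 48) (nat_lit 5) (nat_lit 52) (nat_lit 5) (nat_lit 49) (nat_lit 5) (nat_lit 374) (nat_lit 340) (nat_lit 186)) (XT.nd (nat_lit 78) (nat_lit 0) (nat_lit 0) (XT.lf (nat_lit 0) (nat_lit 22991457012) (nat_lit 152) (nat_lit 39022932073) (nat_lit 228) (nat_lit 15877780955) (nat_lit 46) (nat_lit 5) (nat_lit 48) (nat_lit 5) (nat_lit 49) (nat_lit 5) (nat_lit 375) (nat_lit 340) (nat_lit 185)) (XT.lf (nat_lit 0) (nat_lit 65156695237) (nat_lit 152) (nat_lit 13829923710) (nat_lit 228) (nat_lit 1485074649) (nat_lit 46) (nat_lit 5) (nat_lit 48) (nat_lit 5) (nat_lit 49) (nat_lit 5) (nat_lit 376) (nat_lit 340) (nat_lit 184)))) (XT.nd (nat_lit 78) (nat_lit 152) (nat_lit 0) (XT.lf (nat_lit 0) (nat_lit 13817168484)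 (nat_lit 304) (nat_lit 56459969594) (nat_lit 76) (nat_lit 12861115213) (nat_lit 42) (nat_lit 5) (nat_lit 46) (nat_lit 5) (nat_lit 43) (nat_lit 5) (nat_lit 377) (nat_lit 340) (nat_lit 183)) (XT.nd (nat_lit 78) (nat_lit 152) (nat_lit 0) (XT.lf (nat_lit 0) (nat_lit 30323673450) (nat_lit 304) (nat_lit 14879571790) (nat_lit 76) (nat_lit 40709226428) (nat_lit 42) (nat_lit 5) (nat_lit 46) (nat_lit 5) (nat_lit 43) (nat_lit 5) (nat_lit 378) (nat_lit 340) (nat_lit 182)) (XT.lf (nat_lit 0) (nat_lit 29729456341) (nat_lit 152) (nat_lit 18388987486) (nat_lit 228) (nat_lit 40683810954) (nat_lit 40) (nat_lit 5) (nat_lit 42) (nat_lit 5) (nat_lit 43) (nat_lit 5) (nat_lit 379) (nat_lit 340) (nat_lit 181))))))) (XT.nd (nat_lit 858) (nat_lit 684) (nat_lit 0) (XT.nd (nat_lit 390) (nat_lit 456) (nat_lit 0) (XT.nd (nat_lit 156) (nat_lit 228) (nat_lit 0) (XT.nd (nat_lit 78) (nat_lit 152) (nat_lit 0) (XT.lf (nat_lit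 0) (nat_lit 67210348675) (nat_lit 228) (nat_lit 14896948183) (nat_lit 76) (nat_lit 9708861179) (nat_lit 40) (nat_lit 5) (nat_lit 43) (nat_lit 5) (nat_lit 41) (nat_lit 5) (nat_lit 380) (nat_lit 340) (nat_lit 180)) (XT.lf (nat_lit 0) (nat_lit 32215488413) (nat_lit 152) (nat_lit 55844648277) (nat_lit 228) (nat_lit 6880456120) (nat_lit 38) (nat_lit 5) (nat_lit 40) (nat_lit 5) (nat_lit 41) (nat_lit 5) (nat_lit 381) (nat_lit 340) (nat_lit 179))) (XT.nd (nat_lit 78) (nat_lit 152) (nat_lit 0) (XT.lf (nat_lit 0) (nat_lit 11610979344) (nat_lit 228) (nat_lit 16197044675) (nat_lit 76) (nat_lit 70391303908) (nat_lit 37) (nat_lit 5) (nat_lit 40) (nat_lit 5) (nat_lit 38) (nat_lit 5) (nat_lit 382) (nat_lit 340) (nat_lit 178)) (XT.nd (nat_lit 78) (nat_lit 0) (nat_lit 0) (XT.lf (nat_lit 0) (nat_lit 31355458093) (nat_lit 228) (nat_lit 68006196346) (nat_lit 76) (nat_lit 2225721292) (nat_lit 35) (nat_lit 5)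 (nat_lit 38) (nat_lit 5) (nat_lit 36) (nat_lit 5) (nat_lit 383) (nat_lit 340) (nat_lit 177)) (XT.lf (nat_lit 0) (nat_lit 52820761939) (nat_lit 228) (nat_lit 19182616317) (nat_lit 76) (nat_lit 33104768228) (nat_lit 35) (nat_lit 5) (nat_lit 38) (nat_lit 5) (nat_lit 36) (nat_lit 5) (nat_lit 384) (nat_lit 340) (nat_lit 176))))) (XT.nd (nat_lit 234) (nat_lit 152) (nat_lit 0) (XT.nd (nat_lit 78) (nat_lit 152) (nat_lit 0) (XT.lf (nat_lit 0) (nat_lit 33141172880) (nat_lit 152) (nat_lit 42734565945) (nat_lit 228) (nat_lit 32903397144) (nat_lit 33) (nat_lit 5) (nat_lit 35) (nat_lit 5) (nat_lit 36) (nat_lit 5) (nat_lit 385) (nat_lit 340) (nat_lit 175)) (XT.nd (nat_lit 78) (nat_lit 152) (nat_lit 0) (XT.lf (nat_lit 0) (nat_lit 88745461653) (nat_lit 152) (nat_lit 11661873537) (nat_lit 228) (nat_lit 12210146764) (nat_lit 33) (nat_lit 5) (nat_lit 35) (nat_lit 5) (nat_lit 36) (nat_lit 5) (nat_lit 386) (nat_lit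 340) (nat_lit 174)) (XT.lf (nat_lit 0) (nat_lit 10039158899) (nat_lit 152) (nat_lit 85618749029) (nat_lit 76) (nat_lit 20941106832) (nat_lit 31) (nat_lit 5) (nat_lit 33) (nat_lit 5) (nat_lit 32) (nat_lit 5) (nat_lit 387) (nat_lit 340) (nat_lit 173)))) (XT.nd (nat_lit 78) (nat_lit 152) (nat_lit 0) (XT.lf (nat_lit 0) (nat_lit 33591724956) (nat_lit 152) (nat_lit 31755064924) (nat_lit 76) (nat_lit 55392769685) (nat_lit 31) (nat_lit 5) (nat_lit 33) (nat_lit 5) (nat_lit 32) (nat_lit 5) (nat_lit 388) (nat_lit 340) (nat_lit 172)) (XT.nd (nat_lit 78) (nat_lit 0) (nat_lit 0) (XT.lf (nat_lit 0) (nat_lit 25620257895) (nat_lit 152) (nat_lit 33100756904) (nat_lit 228) (nat_lit 66346162498) (nat_lit 29) (nat_lit 5) (nat_lit 31) (nat_lit 5) (nat_lit 32) (nat_lit 5) (nat_lit 389) (nat_lit 340) (nat_lit 171)) (XT.lf (nat_lit 0) (nat_lit 85664301491) (nat_lit 228) (nat_lit 42639683232) (nat_lit 76) (nat_lit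 1279315012) (nat_lit 29) (nat_lit 5) (nat_lit 32) (nat_lit 5) (nat_lit 30) (nat_lit 4) (nat_lit 390) (nat_lit 340) (nat_lit 170)))))) (XT.nd (nat_lit 468) (nat_lit 304) (nat_lit 0) (XT.nd (nat_lit 234) (nat_lit 76) (nat_lit 0) (XT.nd (nat_lit 78) (nat_lit 228) (nat_lit 0) (XT.lf (nat_lit 0) (nat_lit 17008157509) (nat_lit 76) (nat_lit 97753919055) (nat_lit 152) (nat_lit 19522785947) (nat_lit 28) (nat_lit 5) (nat_lit 29) (nat_lit 5) (nat_lit 30) (nat_lit 4) (nat_lit 391) (nat_lit 340) (nat_lit 169)) (XT.nd (nat_lit 78) (nat_lit 152) (nat_lit 0) (XT.lf (nat_lit 0) (nat_lit 6631324548) (nat_lit 152) (nat_lit 58175117719) (nat_lit 76) (nat_lit 74373649450) (nat_lit 27) (nat_lit 5) (nat_lit 29) (nat_lit 5) (nat_lit 28) (nat_lit 5) (nat_lit 392) (nat_lit 340) (nat_lit 168)) (XT.lf (nat_lit 0) (nat_lit 3677793045) (nat_lit 152) (nat_lit 29815862607) (nat_lit 228) (nat_lit 110807594371) (nat_lit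 25) (nat_lit 5) (nat_lit 27) (nat_lit 5) (nat_lit 28) (nat_lit 5) (nat_lit 393) (nat_lit 340) (nat_lit 167)))) (XT.nd (nat_lit 78) (nat_lit 76) (nat_lit 0) (XT.lf (nat_lit 0) (nat_lit 62807780606) (nat_lit 228) (nat_lit 79111835355) (nat_lit 76) (nat_lit 7703416763) (nat_lit 25) (nat_lit 5) (nat_lit 28) (nat_lit 5) (nat_lit 26) (nat_lit 4) (nat_lit 394) (nat_lit 340) (nat_lit 166)) (XT.nd (nat_lit 78) (nat_lit 76) (nat_lit 0) (XT.lf (nat_lit 0) (nat_lit 94075630182) (nat_lit 228) (nat_lit 15014779450) (nat_lit 76) (nat_lit 46096094336) (nat_lit 25) (nat_lit 5) (nat_lit 28) (nat_lit 5) (nat_lit 26) (nat_lit 4) (nat_lit 395) (nat_lit 340) (nat_lit 165)) (XT.lf (nat_lit 0) (nat_lit 54014637681) (nat_lit 76) (nat_lit 73734824656) (nat_lit 152) (nat_lit 33236557244) (nat_lit 24) (nat_lit 5) (nat_lit 25) (nat_lit 5) (nat_lit 26) (nat_lit 4) (nat_lit 396) (nat_lit 340) (nat_lit 164))))) (XT.nd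 (nat_lit 234) (nat_lit 76) (nat_lit 0) (XT.nd (nat_lit 78) (nat_lit 228) (nat_lit 0) (XT.lf (nat_lit 0) (nat_lit 127015528531) (nat_lit 76) (nat_lit 36345025178) (nat_lit 152) (nat_lit 3702279180) (nat_lit 24) (nat_lit 5) (nat_lit 25) (nat_lit 5) (nat_lit 26) (nat_lit 4) (nat_lit 397) (nat_lit 340) (nat_lit 163)) (XT.nd (nat_lit 78) (nat_lit 0) (nat_lit 0) (XT.lf (nat_lit 0) (nat_lit 26974900728) (nat_lit 228) (nat_lit 142677991706) (nat_lit 76) (nat_lit 3742264556) (nat_lit 21) (nat_lit 5) (nat_lit 24) (nat_lit 5) (nat_lit 22) (nat_lit 4) (nat_lit 398) (nat_lit 340) (nat_lit 162)) (XT.lf (nat_lit 0) (nat_lit 60345990871) (nat_lit 228) (nat_lit 74268851957) (nat_lit 76) (nat_lit 45361996464) (nat_lit 21) (nat_lit 5) (nat_lit 24) (nat_lit 5) (nat_lit 22) (nat_lit 4) (nat_lit 399) (nat_lit 340) (nat_lit 161)))) (XT.nd (nat_lit 78) (nat_lit 76) (nat_lit 0) (XT.lf (nat_lit 0) (nat_lit 95384981394)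 (nat_lit 228) (nat_lit 2440440474) (nat_lit 76) (nat_lit 89062216791) (nat_lit 21) (nat_lit 5) (nat_lit 24) (nat_lit 5) (nat_lit 22) (nat_lit 4) (nat_lit 400) (nat_lit 340) (nat_lit 160)) (XT.nd (nat_lit 78) (nat_lit 0) (nat_lit 0) (XT.lf (nat_lit 0) (nat_lit 75391253715) (nat_lit 76) (nat_lit 57961113504) (nat_lit 152) (nat_lit 60732788719) (nat_lit 20) (nat_lit 5) (nat_lit 21) (nat_lit 5) (nat_lit 22) (nat_lit 4) (nat_lit 401) (nat_lit 340) (nat_lit 159)) (XT.lf (nat_lit 0) (nat_lit 157198148590) (nat_lit 76) (nat_lit 16060693133) (nat_lit 152) (nat_lit 28381671610) (nat_lit 20) (nat_lit 5) (nat_lit 21) (nat_lit 5) (nat_lit 22) (nat_lit 4) (nat_lit 402) (nat_lit 340) (nat_lit 158))))))))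
noncomputable def xc199 : XT := (XT.nd (nat_lit 1716) (nat_lit 76) (nat_lit 0) (XT.nd (nat_lit 858) (nat_lit 304) (nat_lit 0) (XT.nd (nat_lit 390) (nat_lit 228) (nat_lit 0) (XT.nd (nat_lit 156) (nat_lit 76) (nat_lit 0) (XT.nd (nat_lit 78) (nat_lit 0) (nat_lit 0) (XT.lf (nat_lit 0) (nat_lit 6393242441) (nat_lit 152) (nat_lit 175449842701) (nat_lit 76) (nat_lit 27676939218) (nat_lit 18) (nat_lit 5) (nat_lit 20) (nat_lit 5) (nat_lit 19) (nat_lit 4) (nat_lit 403) (nat_lit 340) (nat_lit 157)) (XT.lf (nat_lit 0) (nat_lit 42980786289) (nat_lit 152) (nat_lit 100446568057) (nat_lit 76) (nat_lit 74291508398) (nat_lit 18) (nat_lit 5) (nat_lit 20) (nat_lit 5) (nat_lit 19) (nat_lit 4) (nat_lit 404) (nat_lit 340) (nat_lit 156))) (XT.nd (nat_lit 78) (nat_lit 76) (nat_lit 0) (XT.lf (nat_lit 0) (nat_lit 81397148088) (nat_lit 152) (nat_lit 21694159939) (nat_lit 76) (nat_lit 123236363167) (nat_lit 18) (nat_lit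 5) (nat_lit 20) (nat_lit 5) (nat_lit 19) (nat_lit 4) (nat_lit 405) (nat_lit 340) (nat_lit 155)) (XT.nd (nat_lit 78) (nat_lit 0) (nat_lit 0) (XT.lf (nat_lit 0) (nat_lit 63011653825) (nat_lit 76) (nat_lit 59705930044) (nat_lit 152) (nat_lit 112600173573) (nat_lit 17) (nat_lit 5) (nat_lit 18) (nat_lit 5) (nat_lit 19) (nat_lit 4) (nat_lit 406) (nat_lit 340) (nat_lit 154)) (XT.lf (nat_lit 0) (nat_lit 152704965152) (nat_lit 76) (nat_lit 13765955062) (nat_lit 152) (nat_lit 78268084016) (nat_lit 17) (nat_lit 5) (nat_lit 18) (nat_lit 5) (nat_lit 19) (nat_lit 4) (nat_lit 407) (nat_lit 340) (nat_lit 153))))) (XT.nd (nat_lit 234) (nat_lit 76) (nat_lit 0) (XT.nd (nat_lit 78) (nat_lit 152) (nat_lit 0) (XT.lf (nat_lit 0) (nat_lit 212949608546) (nat_lit 152) (nat_lit 8287498362) (nat_lit 0) (nat_lit 33367322349) (nat_lit 17) (nat_lit 5) (nat_lit 19) (nat_lit 4) (nat_lit 17) (nat_lit 4) (nat_lit 408) (nat_lit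 340) (nat_lit 152)) (XT.nd (nat_lit 78) (nat_lit 76) (nat_lit 0) (XT.lf (nat_lit 0) (nat_lit 82045782227) (nat_lit 76) (nat_lit 181212605018) (nat_lit 76) (nat_lit 1629430641) (nat_lit 16) (nat_lit 4) (nat_lit 17) (nat_lit 5) (nat_lit 17) (nat_lit 4) (nat_lit 409) (nat_lit 340) (nat_lit 151)) (XT.lf (nat_lit 0) (nat_lit 39246440226) (nat_lit 152) (nat_lit 99128817797) (nat_lit 76) (nat_lit 137271473616) (nat_lit 15) (nat_lit 5) (nat_lit 17) (nat_lit 5) (nat_lit 16) (nat_lit 4) (nat_lit 410) (nat_lit 340) (nat_lit 150)))) (XT.nd (nat_lit 78) (nat_lit 76) (nat_lit 0) (XT.lf (nat_lit 0) (nat_lit 82110889127) (nat_lit 152) (nat_lit 11257503157) (nat_lit 76) (nat_lit 193573886126) (nat_lit 15) (nat_lit 5) (nat_lit 17) (nat_lit 5) (nat_lit 16) (nat_lit 4) (nat_lit 411) (nat_lit 340) (nat_lit 149)) (XT.nd (nat_lit 78) (nat_lit 0) (nat_lit 0) (XT.lf (nat_lit 0) (nat_lit 83685008553) (nat_lit 76)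 (nat_lit 44739675185) (nat_lit 152) (nat_lit 170312612739) (nat_lit 14) (nat_lit 5) (nat_lit 15) (nat_lit 5) (nat_lit 16) (nat_lit 4) (nat_lit 412) (nat_lit 340) (nat_lit 148)) (XT.lf (nat_lit 0) (nat_lit 177346193299) (nat_lit 152) (nat_lit 127449671822) (nat_lit 0) (nat_lit 6311599185) (nat_lit 14) (nat_lit 5) (nat_lit 16) (nat_lit 4) (nat_lit 14) (nat_lit 4) (nat_lit 413) (nat_lit 340) (nat_lit 147)))))) (XT.nd (nat_lit 390) (nat_lit 76) (nat_lit 0) (XT.nd (nat_lit 156) (nat_lit 152) (nat_lit 0) (XT.nd (nat_lit 78) (nat_lit 76) (nat_lit 0) (XT.lf (nat_lit 0) (nat_lit 229446804352) (nat_lit 152) (nat_lit 36201137520) (nat_lit 0) (nat_lit 58411547464) (nat_lit 14) (nat_lit 5) (nat_lit 16) (nat_lit 4) (nat_lit 14) (nat_lit 4) (nat_lit 414) (nat_lit 340) (nat_lit 146)) (XT.lf (nat_lit 0) (nat_lit 61580030663) (nat_lit 76) (nat_lit 223533460452) (nat_lit 76) (nat_lit 52497572351) (nat_lit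 13) (nat_lit 4) (nat_lit 14) (nat_lit 5) (nat_lit 14) (nat_lit 4) (nat_lit 415) (nat_lit 340) (nat_lit 145))) (XT.nd (nat_lit 78) (nat_lit 152) (nat_lit 0) (XT.lf (nat_lit 0) (nat_lit 165506352528) (nat_lit 76) (nat_lit 178669859081) (nat_lit 76) (nat_lit 7633369824) (nat_lit 13) (nat_lit 4) (nat_lit 14) (nat_lit 5) (nat_lit 14) (nat_lit 4) (nat_lit 416) (nat_lit 340) (nat_lit 144)) (XT.nd (nat_lit 78) (nat_lit 76) (nat_lit 0) (XT.lf (nat_lit 0) (nat_lit 38210254757) (nat_lit 152) (nat_lit 92706039531) (nat_lit 76) (nat_lit 235770934691) (nat_lit 12) (nat_lit 5) (nat_lit 14) (nat_lit 5) (nat_lit 13) (nat_lit 4) (nat_lit 417) (nat_lit 340) (nat_lit 143)) (XT.lf (nat_lit 0) (nat_lit 5625244304) (nat_lit 76) (nat_lit 80551756356) (nat_lit 152) (nat_lit 296121127901) (nat_lit 11) (nat_lit 5) (nat_lit 12) (nat_lit 5) (nat_lit 13) (nat_lit 4) (nat_lit 418) (nat_lit 340) (nat_lit 142))))) (XT.nd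 (nat_lit 234) (nat_lit 76) (nat_lit 0) (XT.nd (nat_lit 78) (nat_lit 0) (nat_lit 0) (XT.lf (nat_lit 0) (nat_lit 112090976761) (nat_lit 76) (nat_lit 26020780854) (nat_lit 152) (nat_lit 260499331901) (nat_lit 11) (nat_lit 5) (nat_lit 12) (nat_lit 5) (nat_lit 13) (nat_lit 4) (nat_lit 419) (nat_lit 340) (nat_lit 141)) (XT.nd (nat_lit 78) (nat_lit 0) (nat_lit 0) (XT.lf (nat_lit 0) (nat_lit 193130609570) (nat_lit 152) (nat_lit 192348036292) (nat_lit 0) (nat_lit 30236684881) (nat_lit 11) (nat_lit 5) (nat_lit 13) (nat_lit 4) (nat_lit 11) (nat_lit 4) (nat_lit 420) (nat_lit 340) (nat_lit 140)) (XT.lf (nat_lit 0) (nat_lit 251326654342) (nat_lit 152) (nat_lit 93894536189) (nat_lit 0) (nat_lit 88432281062) (nat_lit 11) (nat_lit 5) (nat_lit 13) (nat_lit 4) (nat_lit 11) (nat_lit 4) (nat_lit 421) (nat_lit 340) (nat_lit 139)))) (XT.nd (nat_lit 78) (nat_lit 0) (nat_lit 0) (XT.lf (nat_lit 0) (nat_lit 9794544553)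 (nat_lit 76) (nat_lit 302790572369) (nat_lit 76) (nat_lit 139895771859) (nat_lit 10) (nat_lit 4) (nat_lit 11) (nat_lit 5) (nat_lit 11) (nat_lit 4) (nat_lit 422) (nat_lit 340) (nat_lit 138)) (XT.nd (nat_lit 78) (nat_lit 0) (nat_lit 0) (XT.lf (nat_lit 0) (nat_lit 121927314021) (nat_lit 76) (nat_lit 256569038879) (nat_lit 76) (nat_lit 93673831483) (nat_lit 10) (nat_lit 4) (nat_lit 11) (nat_lit 5) (nat_lit 11) (nat_lit 4) (nat_lit 423) (nat_lit 340) (nat_lit 137)) (XT.lf (nat_lit 0) (nat_lit 239666177593) (nat_lit 76) (nat_lit 208036688194) (nat_lit 76) (nat_lit 45141093288) (nat_lit 10) (nat_lit 4) (nat_lit 11) (nat_lit 5) (nat_lit 11) (nat_lit 4) (nat_lit 424) (nat_lit 340) (nat_lit 136))))))) (XT.nd (nat_lit 41106) (nat_lit 0) (nat_lit 4788) (XT.nd (nat_lit 40638) (nat_lit 0) (nat_lit 6764) (XT.nd (nat_lit 40404) (nat_lit 0) (nat_lit 6612) (XT.nd (nat_lit 40326) (nat_lit 0) (nat_lit 6612)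 (XT.lf (nat_lit 0) (nat_lit 5631784630) (nat_lit 152) (nat_lit 151350805470) (nat_lit 76) (nat_lit 357564304268) (nat_lit 9) (nat_lit 5) (nat_lit 11) (nat_lit 5) (nat_lit 10) (nat_lit 4) (nat_lit 425) (nat_lit 340) (nat_lit 135)) (XT.lf (nat_lit 0) (nat_lit 220138657) (nat_lit 836) (nat_lit 7438966846) (nat_lit 836) (nat_lit 7438966846) (nat_lit 96) (nat_lit 3) (nat_lit 107) (nat_lit 3) (nat_lit 107) (nat_lit 5) (nat_lit 341) (nat_lit 341) (nat_lit 218))) (XT.nd (nat_lit 78) (nat_lit 0) (nat_lit 76) (XT.lf (nat_lit 0) (nat_lit 520655815) (nat_lit 836) (nat_lit 732644354) (nat_lit 836) (nat_lit 29694193103) (nat_lit 96) (nat_lit 3) (nat_lit 107) (nat_lit 3) (nat_lit 107) (nat_lit 5) (nat_lit 342) (nat_lit 341) (nat_lit 217)) (XT.nd (nat_lit 78) (nat_lit 0) (nat_lit 0) (XT.lf (nat_lit 0) (nat_lit 1043085924) (nat_lit 760) (nat_lit 17355656061) (nat_lit 836) (nat_lit 13315771188) (nat_lit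 97) (nat_lit 5) (nat_lit 107) (nat_lit 5) (nat_lit 108) (nat_lit 5) (nat_lit 343) (nat_lit 341) (nat_lit 216)) (XT.lf (nat_lit 0) (nat_lit 1620560228) (nat_lit 760) (nat_lit 2312189302) (nat_lit 836) (nat_lit 28585693676) (nat_lit 97) (nat_lit 5) (nat_lit 107) (nat_lit 5) (nat_lit 108) (nat_lit 5) (nat_lit 344) (nat_lit 341) (nat_lit 215))))) (XT.nd (nat_lit 234) (nat_lit 0) (nat_lit 76) (XT.nd (nat_lit 78) (nat_lit 0) (nat_lit 0) (XT.lf (nat_lit 0) (nat_lit 2619647290) (nat_lit 760) (nat_lit 19604470496) (nat_lit 836) (nat_lit 11118820024) (nat_lit 98) (nat_lit 5) (nat_lit 108) (nat_lit 5) (nat_lit 109) (nat_lit 5) (nat_lit 345) (nat_lit 341) (nat_lit 214)) (XT.nd (nat_lit 78) (nat_lit 0) (nat_lit 76) (XT.lf (nat_lit 0) (nat_lit 3769105406) (nat_lit 760) (nat_lit 3602489093) (nat_lit 836) (nat_lit 26832046590) (nat_lit 98) (nat_lit 5) (nat_lit 108) (nat_lit 5) (nat_lit 109) (nat_lit 5)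 (nat_lit 346) (nat_lit 341) (nat_lit 213)) (XT.lf (nat_lit 0) (nat_lit 5317122719) (nat_lit 760) (nat_lit 21595361377) (nat_lit 836) (nat_lit 8177845675) (nat_lit 99) (nat_lit 5) (nat_lit 109) (nat_lit 5) (nat_lit 110) (nat_lit 5) (nat_lit 347) (nat_lit 341) (nat_lit 212)))) (XT.nd (nat_lit 78) (nat_lit 0) (nat_lit 76) (XT.lf (nat_lit 0) (nat_lit 7121879440) (nat_lit 760) (nat_lit 4570420569) (nat_lit 836) (nat_lit 24320090288) (nat_lit 99) (nat_lit 5) (nat_lit 109) (nat_lit 5) (nat_lit 110) (nat_lit 5) (nat_lit 348) (nat_lit 341) (nat_lit 211)) (XT.nd (nat_lit 78) (nat_lit 0) (nat_lit 0) (XT.lf (nat_lit 0) (nat_lit 9298584929) (nat_lit 760) (nat_lit 23297371844) (nat_lit 836) (nat_lit 4370515662) (nat_lit 100) (nat_lit 5) (nat_lit 110) (nat_lit 5) (nat_lit 111) (nat_lit 5) (nat_lit 349) (nat_lit 341) (nat_lit 210)) (XT.lf (nat_lit 0) (nat_lit 11851256728) (nat_lit 760) (nat_lit 5180714066)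 (nat_lit 836) (nat_lit 20922935265) (nat_lit 100) (nat_lit 5) (nat_lit 110) (nat_lit 5) (nat_lit 111) (nat_lit 5) (nat_lit 350) (nat_lit 341) (nat_lit 209)))))) (XT.nd (nat_lit 468) (nat_lit 1064) (nat_lit 0) (XT.nd (nat_lit 234) (nat_lit 380) (nat_lit 0) (XT.nd (nat_lit 78) (nat_lit 684) (nat_lit 0) (XT.lf (nat_lit 76) (nat_lit 14296838965) (nat_lit 0) (nat_lit 454872889) (nat_lit 836) (nat_lit 24230045772) (nat_lit 101) (nat_lit 5) (nat_lit 100) (nat_lit 5) (nat_lit 111) (nat_lit 5) (nat_lit 351) (nat_lit 341) (nat_lit 208)) (XT.nd (nat_lit 78) (nat_lit 760) (nat_lit 0) (XT.lf (nat_lit 0) (nat_lit 18148070311) (nat_lit 760) (nat_lit 5396168530) (nat_lit 76) (nat_lit 16498172469) (nat_lit 101) (nat_lit 5) (nat_lit 111) (nat_lit 5) (nat_lit 102) (nat_lit 5) (nat_lit 352) (nat_lit 341) (nat_lit 207)) (XT.lf (nat_lit 0) (nat_lit 15337954598) (nat_lit 760) (nat_lit 6620408420) (nat_lit 836)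 (nat_lit 19185532241) (nat_lit 91) (nat_lit 5) (nat_lit 101) (nat_lit 5) (nat_lit 102) (nat_lit 5) (nat_lit 353) (nat_lit 341) (nat_lit 206)))) (XT.nd (nat_lit 78) (nat_lit 380) (nat_lit 0) (XT.lf (nat_lit 0) (nat_lit 26223421664) (nat_lit 836) (nat_lit 5177952188) (nat_lit 76) (nat_lit 10885870224) (nat_lit 91) (nat_lit 5) (nat_lit 102) (nat_lit 5) (nat_lit 92) (nat_lit 5) (nat_lit 354) (nat_lit 341) (nat_lit 205)) (XT.nd (nat_lit 78) (nat_lit 0) (nat_lit 0) (XT.lf (nat_lit 0) (nat_lit 16911688911) (nat_lit 380) (nat_lit 14160033257) (nat_lit 456) (nat_lit 12397541802) (nat_lit 86) (nat_lit 5) (nat_lit 91) (nat_lit 5) (nat_lit 92) (nat_lit 5) (nat_lit 355) (nat_lit 341) (nat_lit 204)) (XT.lf (nat_lit 0) (nat_lit 36310637530) (nat_lit 456) (nat_lit 4486009459) (nat_lit 76) (nat_lit 3906330815) (nat_lit 86) (nat_lit 5) (nat_lit 92) (nat_lit 5) (nat_lit 87) (nat_lit 5) (nat_lit 356) (nat_lit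 341) (nat_lit 203))))) (XT.nd (nat_lit 234) (nat_lit 304) (nat_lit 0) (XT.nd (nat_lit 78) (nat_lit 456) (nat_lit 0) (XT.lf (nat_lit 0) (nat_lit 19064732914) (nat_lit 304) (nat_lit 23274174223) (nat_lit 380) (nat_lit 3633102562) (nat_lit 82) (nat_lit 5) (nat_lit 86) (nat_lit 5) (nat_lit 87) (nat_lit 5) (nat_lit 357) (nat_lit 341) (nat_lit 202)) (XT.nd (nat_lit 78) (nat_lit 380) (nat_lit 0) (XT.lf (nat_lit 0) (nat_lit 1395313575) (nat_lit 380) (nat_lit 3376981480) (nat_lit 76) (nat_lit 42527391993) (nat_lit 81) (nat_lit 5) (nat_lit 86) (nat_lit 5) (nat_lit 82) (nat_lit 5) (nat_lit 358) (nat_lit 341) (nat_lit 201)) (XT.lf (nat_lit 0) (nat_lit 7129252461) (nat_lit 456) (nat_lit 26938030381) (nat_lit 76) (nat_lit 14594679985) (nat_lit 76) (nat_lit 5) (nat_lit 82) (nat_lit 5) (nat_lit 77) (nat_lit 5) (nat_lit 359) (nat_lit 341) (nat_lit 200)))) (XT.nd (nat_lit 78) (nat_lit 304) (nat_lit 0) (XT.lf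 (nat_lit 0) (nat_lit 13284087286) (nat_lit 456) (nat_lit 1973982141) (nat_lit 76) (nat_lit 34827575317) (nat_lit 76) (nat_lit 5) (nat_lit 82) (nat_lit 5) (nat_lit 77) (nat_lit 5) (nat_lit 360) (nat_lit 341) (nat_lit 199)) (XT.nd (nat_lit 78) (nat_lit 0) (nat_lit 0) (XT.lf (nat_lit 0) (nat_lit 20212035842) (nat_lit 380) (nat_lit 26600317348) (nat_lit 76) (nat_lit 4744891159) (nat_lit 72) (nat_lit 5) (nat_lit 77) (nat_lit 5) (nat_lit 73) (nat_lit 5) (nat_lit 361) (nat_lit 341) (nat_lit 198)) (XT.lf (nat_lit 0) (nat_lit 27768489432) (nat_lit 380) (nat_lit 50912581) (nat_lit 76) (nat_lit 25268918625) (nat_lit 72) (nat_lit 5) (nat_lit 77) (nat_lit 5) (nat_lit 73) (nat_lit 5) (nat_lit 362) (nat_lit 341) (nat_lit 197))))))))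
noncomputable def xc200 : XT := (XT.nd (nat_lit 1716) (nat_lit 1368) (nat_lit 0) (XT.nd (nat_lit 858) (nat_lit 1216) (nat_lit 0) (XT.nd (nat_lit 390) (nat_lit 684) (nat_lit 0) (XT.nd (nat_lit 156) (nat_lit 380) (nat_lit 0) (XT.nd (nat_lit 78) (nat_lit 228) (nat_lit 0) (XT.lf (nat_lit 0) (nat_lit 28743659370) (nat_lit 304) (nat_lit 7405967733) (nat_lit 380) (nat_lit 18523982556) (nat_lit 68) (nat_lit 5) (nat_lit 72) (nat_lit 5) (nat_lit 73) (nat_lit 5) (nat_lit 363) (nat_lit 341) (nat_lit 196)) (XT.lf (nat_lit 0) (nat_lit 2500267690) (nat_lit 228) (nat_lit 42706627112) (nat_lit 304) (nat_lit 11118416563) (nat_lit 65) (nat_lit 5) (nat_lit 68) (nat_lit 5) (nat_lit 69) (nat_lit 5) (nat_lit 364) (nat_lit 341) (nat_lit 195))) (XT.nd (nat_lit 78) (nat_lit 380) (nat_lit 0) (XT.lf (nat_lit 0) (nat_lit 33124508575) (nat_lit 228) (nat_lit 22149299367) (nat_lit 304) (nat_lit 2757952917) (nat_lit 65)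 (nat_lit 5) (nat_lit 68) (nat_lit 5) (nat_lit 69) (nat_lit 5) (nat_lit 365) (nat_lit 341) (nat_lit 194)) (XT.nd (nat_lit 78) (nat_lit 0) (nat_lit 0) (XT.lf (nat_lit 0) (nat_lit 5537419354) (nat_lit 304) (nat_lit 375125334) (nat_lit 380) (nat_lit 53902054628) (nat_lit 60) (nat_lit 5) (nat_lit 64) (nat_lit 5) (nat_lit 65) (nat_lit 5) (nat_lit 366) (nat_lit 341) (nat_lit 193)) (XT.lf (nat_lit 0) (nat_lit 15702001908) (nat_lit 380) (nat_lit 23701951405) (nat_lit 76) (nat_lit 22241461321) (nat_lit 60) (nat_lit 5) (nat_lit 65) (nat_lit 5) (nat_lit 61) (nat_lit 5) (nat_lit 367) (nat_lit 341) (nat_lit 192))))) (XT.nd (nat_lit 234) (nat_lit 228) (nat_lit 0) (XT.nd (nat_lit 78) (nat_lit 228) (nat_lit 0) (XT.lf (nat_lit 0) (nat_lit 8671245488) (nat_lit 228) (nat_lit 17449591614) (nat_lit 304) (nat_lit 37439939842) (nat_lit 57) (nat_lit 5) (nat_lit 60) (nat_lit 5) (nat_lit 61) (nat_lit 5) (nat_lit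 368) (nat_lit 341) (nat_lit 191)) (XT.nd (nat_lit 78) (nat_lit 228) (nat_lit 0) (XT.lf (nat_lit 0) (nat_lit 37554477373) (nat_lit 304) (nat_lit 22162121850) (nat_lit 76) (nat_lit 5830616394) (nat_lit 57) (nat_lit 5) (nat_lit 61) (nat_lit 5) (nat_lit 58) (nat_lit 5) (nat_lit 369) (nat_lit 341) (nat_lit 190)) (XT.lf (nat_lit 0) (nat_lit 12307404393) (nat_lit 228) (nat_lit 37729091373) (nat_lit 304) (nat_lit 17572646996) (nat_lit 54) (nat_lit 5) (nat_lit 57) (nat_lit 5) (nat_lit 58) (nat_lit 5) (nat_lit 370) (nat_lit 341) (nat_lit 189)))) (XT.nd (nat_lit 78) (nat_lit 228) (nat_lit 0) (XT.lf (nat_lit 0) (nat_lit 49267751023) (nat_lit 228) (nat_lit 14248714261) (nat_lit 304) (nat_lit 6239009752) (nat_lit 54) (nat_lit 5) (nat_lit 57) (nat_lit 5) (nat_lit 58) (nat_lit 5) (nat_lit 371) (nat_lit 341) (nat_lit 188)) (XT.nd (nat_lit 78) (nat_lit 0) (nat_lit 0) (XT.lf (nat_lit 0) (nat_lit 5904494791)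 (nat_lit 228) (nat_lit 55655183176) (nat_lit 76) (nat_lit 10423808537) (nat_lit 51) (nat_lit 5) (nat_lit 54) (nat_lit 5) (nat_lit 52) (nat_lit 5) (nat_lit 372) (nat_lit 341) (nat_lit 187)) (XT.lf (nat_lit 0) (nat_lit 19030343605) (nat_lit 228) (nat_lit 18952736026) (nat_lit 76) (nat_lit 36305464045) (nat_lit 51) (nat_lit 5) (nat_lit 54) (nat_lit 5) (nat_lit 52) (nat_lit 5) (nat_lit 373) (nat_lit 341) (nat_lit 186)))))) (XT.nd (nat_lit 390) (nat_lit 532) (nat_lit 0) (XT.nd (nat_lit 156) (nat_lit 456) (nat_lit 0) (XT.nd (nat_lit 78) (nat_lit 0) (nat_lit 0) (XT.lf (nat_lit 0) (nat_lit 20230376484) (nat_lit 228) (nat_lit 12896625687) (nat_lit 304) (nat_lit 43566126724) (nat_lit 48) (nat_lit 5) (nat_lit 51) (nat_lit 5) (nat_lit 52) (nat_lit 5) (nat_lit 374) (nat_lit 341) (nat_lit 185)) (XT.lf (nat_lit 0) (nat_lit 48463318448) (nat_lit 304) (nat_lit 17388396849) (nat_lit 76) (nat_lit 13339487840)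 (nat_lit 48) (nat_lit 5) (nat_lit 52) (nat_lit 5) (nat_lit 49) (nat_lit 5) (nat_lit 375) (nat_lit 341) (nat_lit 184))) (XT.nd (nat_lit 78) (nat_lit 304) (nat_lit 0) (XT.lf (nat_lit 0) (nat_lit 24200952055) (nat_lit 152) (nat_lit 40953514014) (nat_lit 228) (nat_lit 16630315203) (nat_lit 46) (nat_lit 5) (nat_lit 48) (nat_lit 5) (nat_lit 49) (nat_lit 5) (nat_lit 376) (nat_lit 341) (nat_lit 183)) (XT.nd (nat_lit 78) (nat_lit 304) (nat_lit 0) (XT.lf (nat_lit 0) (nat_lit 68471598754) (nat_lit 152) (nat_lit 14501834503) (nat_lit 228) (nat_lit 1519942858) (nat_lit 46) (nat_lit 5) (nat_lit 48) (nat_lit 5) (nat_lit 49) (nat_lit 5) (nat_lit 377) (nat_lit 341) (nat_lit 182)) (XT.lf (nat_lit 0) (nat_lit 14545548299) (nat_lit 304) (nat_lit 59223983135) (nat_lit 76) (nat_lit 13523733062) (nat_lit 42) (nat_lit 5) (nat_lit 46) (nat_lit 5) (nat_lit 43) (nat_lit 5) (nat_lit 378) (nat_lit 341) (nat_lit 181)))))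 (XT.nd (nat_lit 234) (nat_lit 380) (nat_lit 0) (XT.nd (nat_lit 78) (nat_lit 152) (nat_lit 0) (XT.lf (nat_lit 0) (nat_lit 31875591780) (nat_lit 304) (nat_lit 15567374248) (nat_lit 76) (nat_lit 42763318310) (nat_lit 42) (nat_lit 5) (nat_lit 46) (nat_lit 5) (nat_lit 43) (nat_lit 5) (nat_lit 379) (nat_lit 341) (nat_lit 180)) (XT.nd (nat_lit 78) (nat_lit 0) (nat_lit 0) (XT.lf (nat_lit 0) (nat_lit 31271199223) (nat_lit 152) (nat_lit 19288062723) (nat_lit 228) (nat_lit 42681337747) (nat_lit 40) (nat_lit 5) (nat_lit 42) (nat_lit 5) (nat_lit 43) (nat_lit 5) (nat_lit 380) (nat_lit 341) (nat_lit 179)) (XT.lf (nat_lit 0) (nat_lit 70604403276) (nat_lit 228) (nat_lit 15587776741) (nat_lit 76) (nat_lit 10213087131) (nat_lit 40) (nat_lit 5) (nat_lit 43) (nat_lit 5) (nat_lit 41) (nat_lit 5) (nat_lit 381) (nat_lit 341) (nat_lit 178)))) (XT.nd (nat_lit 78) (nat_lit 228) (nat_lit 0) (XT.lf (nat_lit 0) (nat_lit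 33879410412) (nat_lit 152) (nat_lit 58616503053) (nat_lit 228) (nat_lit 7190049599) (nat_lit 38) (nat_lit 5) (nat_lit 40) (nat_lit 5) (nat_lit 41) (nat_lit 5) (nat_lit 382) (nat_lit 341) (nat_lit 177)) (XT.nd (nat_lit 78) (nat_lit 152) (nat_lit 0) (XT.lf (nat_lit 0) (nat_lit 12223268668) (nat_lit 228) (nat_lit 16955211740) (nat_lit 76) (nat_lit 73929207951) (nat_lit 37) (nat_lit 5) (nat_lit 40) (nat_lit 5) (nat_lit 38) (nat_lit 5) (nat_lit 383) (nat_lit 341) (nat_lit 176)) (XT.lf (nat_lit 0) (nat_lit 32954563425) (nat_lit 228) (nat_lit 71354395022) (nat_lit 76) (nat_lit 2356201406) (nat_lit 35) (nat_lit 5) (nat_lit 38) (nat_lit 5) (nat_lit 36) (nat_lit 5) (nat_lit 384) (nat_lit 341) (nat_lit 175))))))) (XT.nd (nat_lit 858) (nat_lit 608) (nat_lit 0) (XT.nd (nat_lit 390) (nat_lit 456) (nat_lit 0) (XT.nd (nat_lit 156) (nat_lit 152) (nat_lit 0) (XT.nd (nat_lit 78) (nat_lit 152) (nat_lit 0)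 (XT.lf (nat_lit 0) (nat_lit 55491640442) (nat_lit 228) (nat_lit 20092117474) (nat_lit 76) (nat_lit 34778286686) (nat_lit 35) (nat_lit 5) (nat_lit 38) (nat_lit 5) (nat_lit 36) (nat_lit 5) (nat_lit 385) (nat_lit 341) (nat_lit 174)) (XT.lf (nat_lit 0) (nat_lit 34847060704) (nat_lit 152) (nat_lit 44851646857) (nat_lit 228) (nat_lit 34517909750) (nat_lit 33) (nat_lit 5) (nat_lit 35) (nat_lit 5) (nat_lit 36) (nat_lit 5) (nat_lit 386) (nat_lit 341) (nat_lit 173))) (XT.nd (nat_lit 78) (nat_lit 152) (nat_lit 0) (XT.lf (nat_lit 0) (nat_lit 93229238717) (nat_lit 152) (nat_lit 12226255419) (nat_lit 228) (nat_lit 12791456720) (nat_lit 33) (nat_lit 5) (nat_lit 35) (nat_lit 5) (nat_lit 36) (nat_lit 5) (nat_lit 387) (nat_lit 341) (nat_lit 172)) (XT.nd (nat_lit 78) (nat_lit 0) (nat_lit 0) (XT.lf (nat_lit 0) (nat_lit 10569060104) (nat_lit 152) (nat_lit 89851899394) (nat_lit 76) (nat_lit 22006594698) (nat_lit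 31) (nat_lit 5) (nat_lit 33) (nat_lit 5) (nat_lit 32) (nat_lit 5) (nat_lit 388) (nat_lit 341) (nat_lit 171)) (XT.lf (nat_lit 0) (nat_lit 35297923833) (nat_lit 152) (nat_lit 33297306660) (nat_lit 76) (nat_lit 58179962954) (nat_lit 31) (nat_lit 5) (nat_lit 33) (nat_lit 5) (nat_lit 32) (nat_lit 5) (nat_lit 389) (nat_lit 341) (nat_lit 170))))) (XT.nd (nat_lit 234) (nat_lit 228) (nat_lit 0) (XT.nd (nat_lit 78) (nat_lit 76) (nat_lit 0) (XT.lf (nat_lit 0) (nat_lit 26946048244) (nat_lit 152) (nat_lit 34737061758) (nat_lit 228) (nat_lit 69636111113) (nat_lit 29) (nat_lit 5) (nat_lit 31) (nat_lit 5) (nat_lit 32) (nat_lit 5) (nat_lit 390) (nat_lit 341) (nat_lit 169)) (XT.nd (nat_lit 78) (nat_lit 76) (nat_lit 0) (XT.lf (nat_lit 0) (nat_lit 89972599363) (nat_lit 228) (nat_lit 44728048321) (nat_lit 76) (nat_lit 1360550686) (nat_lit 29) (nat_lit 5) (nat_lit 32) (nat_lit 5) (nat_lit 30) (nat_lit 4) (nat_lit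 391) (nat_lit 341) (nat_lit 168)) (XT.lf (nat_lit 0) (nat_lit 17901480924) (nat_lit 76) (nat_lit 102623257879) (nat_lit 152) (nat_lit 20473127282) (nat_lit 28) (nat_lit 5) (nat_lit 29) (nat_lit 5) (nat_lit 30) (nat_lit 4) (nat_lit 392) (nat_lit 341) (nat_lit 167)))) (XT.nd (nat_lit 78) (nat_lit 152) (nat_lit 0) (XT.lf (nat_lit 0) (nat_lit 6986673886) (nat_lit 152) (nat_lit 61042204735) (nat_lit 76) (nat_lit 78109017975) (nat_lit 27) (nat_lit 5) (nat_lit 29) (nat_lit 5) (nat_lit 28) (nat_lit 5) (nat_lit 393) (nat_lit 341) (nat_lit 166)) (XT.nd (nat_lit 78) (nat_lit 0) (nat_lit 0) (XT.lf (nat_lit 0) (nat_lit 3902679489) (nat_lit 152) (nat_lit 31288949604) (nat_lit 228) (nat_lit 116323508852) (nat_lit 25) (nat_lit 5) (nat_lit 27) (nat_lit 5) (nat_lit 28) (nat_lit 5) (nat_lit 394) (nat_lit 341) (nat_lit 165)) (XT.lf (nat_lit 0) (nat_lit 65970614493) (nat_lit 228) (nat_lit 83027527191) (nat_lit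 76) (nat_lit 8104910865) (nat_lit 25) (nat_lit 5) (nat_lit 28) (nat_lit 5) (nat_lit 26) (nat_lit 4) (nat_lit 395) (nat_lit 341) (nat_lit 164)))))) (XT.nd (nat_lit 468) (nat_lit 304) (nat_lit 0) (XT.nd (nat_lit 234) (nat_lit 228) (nat_lit 0) (XT.nd (nat_lit 78) (nat_lit 76) (nat_lit 0) (XT.lf (nat_lit 0) (nat_lit 98800787744) (nat_lit 228) (nat_lit 15727518487) (nat_lit 76) (nat_lit 48416445019) (nat_lit 25) (nat_lit 5) (nat_lit 28) (nat_lit 5) (nat_lit 26) (nat_lit 4) (nat_lit 396) (nat_lit 341) (nat_lit 163)) (XT.nd (nat_lit 78) (nat_lit 0) (nat_lit 0) (XT.lf (nat_lit 0) (nat_lit 56752756598) (nat_lit 76) (nat_lit 77405120718) (nat_lit 152) (nat_lit 34876387471) (nat_lit 24) (nat_lit 5) (nat_lit 25) (nat_lit 5) (nat_lit 26) (nat_lit 4) (nat_lit 397) (nat_lit 341) (nat_lit 162)) (XT.lf (nat_lit 0) (nat_lit 133401911656) (nat_lit 76) (nat_lit 38146614369) (nat_lit 152) (nat_lit 3866443010)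 (nat_lit 24) (nat_lit 5) (nat_lit 25) (nat_lit 5) (nat_lit 26) (nat_lit 4) (nat_lit 398) (nat_lit 341) (nat_lit 161)))) (XT.nd (nat_lit 78) (nat_lit 0) (nat_lit 0) (XT.lf (nat_lit 0) (nat_lit 28343764166) (nat_lit 228) (nat_lit 149775437496) (nat_lit 76) (nat_lit 3944699758) (nat_lit 21) (nat_lit 5) (nat_lit 24) (nat_lit 5) (nat_lit 22) (nat_lit 4) (nat_lit 399) (nat_lit 341) (nat_lit 160)) (XT.nd (nat_lit 78) (nat_lit 0) (nat_lit 0) (XT.lf (nat_lit 0) (nat_lit 63382450798) (nat_lit 228) (nat_lit 77947576654) (nat_lit 76) (nat_lit 47644688645) (nat_lit 21) (nat_lit 5) (nat_lit 24) (nat_lit 5) (nat_lit 22) (nat_lit 4) (nat_lit 400) (nat_lit 341) (nat_lit 159)) (XT.lf (nat_lit 0) (nat_lit 100172478448) (nat_lit 228) (nat_lit 2529397831) (nat_lit 76) (nat_lit 93529225114) (nat_lit 21) (nat_lit 5) (nat_lit 24) (nat_lit 5) (nat_lit 22) (nat_lit 4) (nat_lit 401) (nat_lit 341) (nat_lit 158)))))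 (XT.nd (nat_lit 234) (nat_lit 76) (nat_lit 0) (XT.nd (nat_lit 78) (nat_lit 152) (nat_lit 0) (XT.lf (nat_lit 0) (nat_lit 79193347767) (nat_lit 76) (nat_lit 60844524751) (nat_lit 152) (nat_lit 63750640393) (nat_lit 20) (nat_lit 5) (nat_lit 21) (nat_lit 5) (nat_lit 22) (nat_lit 4) (nat_lit 402) (nat_lit 341) (nat_lit 157)) (XT.nd (nat_lit 78) (nat_lit 152) (nat_lit 0) (XT.lf (nat_lit 0) (nat_lit 165089038273) (nat_lit 76) (nat_lit 16849780716) (nat_lit 152) (nat_lit 29782862083) (nat_lit 20) (nat_lit 5) (nat_lit 21) (nat_lit 5) (nat_lit 22) (nat_lit 4) (nat_lit 403) (nat_lit 341) (nat_lit 156)) (XT.lf (nat_lit 0) (nat_lit 6730104695) (nat_lit 152) (nat_lit 184190648138) (nat_lit 76) (nat_lit 29074407143) (nat_lit 18) (nat_lit 5) (nat_lit 20) (nat_lit 5) (nat_lit 19) (nat_lit 4) (nat_lit 404) (nat_lit 341) (nat_lit 155)))) (XT.nd (nat_lit 78) (nat_lit 76) (nat_lit 0) (XT.lf (nat_lit 0) (nat_lit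 45146206682) (nat_lit 152) (nat_lit 105438718653) (nat_lit 76) (nat_lit 78019056165) (nat_lit 18) (nat_lit 5) (nat_lit 20) (nat_lit 5) (nat_lit 19) (nat_lit 4) (nat_lit 405) (nat_lit 341) (nat_lit 154)) (XT.nd (nat_lit 78) (nat_lit 76) (nat_lit 0) (XT.lf (nat_lit 0) (nat_lit 85482606519) (nat_lit 152) (nat_lit 22750127167) (nat_lit 76) (nat_lit 129410535941) (nat_lit 18) (nat_lit 5) (nat_lit 20) (nat_lit 5) (nat_lit 19) (nat_lit 4) (nat_lit 406) (nat_lit 341) (nat_lit 153)) (XT.lf (nat_lit 0) (nat_lit 66190513724) (nat_lit 76) (nat_lit 62678248946) (nat_lit 152) (nat_lit 118214112831) (nat_lit 17) (nat_lit 5) (nat_lit 18) (nat_lit 5) (nat_lit 19) (nat_lit 4) (nat_lit 407) (nat_lit 341) (nat_lit 152))))))))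
noncomputable def xc201 : XT := (XT.nd (nat_lit 42042) (nat_lit 0) (nat_lit 3800) (XT.nd (nat_lit 858) (nat_lit 152) (nat_lit 0) (XT.nd (nat_lit 390) (nat_lit 228) (nat_lit 0) (XT.nd (nat_lit 156) (nat_lit 152) (nat_lit 0) (XT.nd (nat_lit 78) (nat_lit 0) (nat_lit 0) (XT.lf (nat_lit 0) (nat_lit 160367144084) (nat_lit 76) (nat_lit 14441893195) (nat_lit 152) (nat_lit 82166184007) (nat_lit 17) (nat_lit 5) (nat_lit 18) (nat_lit 5) (nat_lit 19) (nat_lit 4) (nat_lit 408) (nat_lit 341) (nat_lit 151)) (XT.lf (nat_lit 0) (nat_lit 223611149947) (nat_lit 152) (nat_lit 8675710555) (nat_lit 0) (nat_lit 35047082785) (nat_lit 17) (nat_lit 5) (nat_lit 19) (nat_lit 4) (nat_lit 17) (nat_lit 4) (nat_lit 409) (nat_lit 341) (nat_lit 150))) (XT.nd (nat_lit 78) (nat_lit 76) (nat_lit 0) (XT.lf (nat_lit 0) (nat_lit 86173812084) (nat_lit 76) (nat_lit 190261287812) (nat_lit 76) (nat_lit 1696415045) (nat_lit 16) (nat_lit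 4) (nat_lit 17) (nat_lit 5) (nat_lit 17) (nat_lit 4) (nat_lit 410) (nat_lit 341) (nat_lit 149)) (XT.nd (nat_lit 78) (nat_lit 0) (nat_lit 0) (XT.lf (nat_lit 0) (nat_lit 41222117904) (nat_lit 152) (nat_lit 104060298306) (nat_lit 76) (nat_lit 144145980442) (nat_lit 15) (nat_lit 5) (nat_lit 17) (nat_lit 5) (nat_lit 16) (nat_lit 4) (nat_lit 411) (nat_lit 341) (nat_lit 148)) (XT.lf (nat_lit 0) (nat_lit 86229153266) (nat_lit 152) (nat_lit 11796606522) (nat_lit 76) (nat_lit 203262992951) (nat_lit 15) (nat_lit 5) (nat_lit 17) (nat_lit 5) (nat_lit 16) (nat_lit 4) (nat_lit 412) (nat_lit 341) (nat_lit 147))))) (XT.nd (nat_lit 234) (nat_lit 152) (nat_lit 0) (XT.nd (nat_lit 78) (nat_lit 0) (nat_lit 0) (XT.lf (nat_lit 0) (nat_lit 87892647357) (nat_lit 76) (nat_lit 46965749710) (nat_lit 152) (nat_lit 178815136843) (nat_lit 14) (nat_lit 5) (nat_lit 15) (nat_lit 5) (nat_lit 16) (nat_lit 4) (nat_lit 413)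 (nat_lit 341) (nat_lit 146)) (XT.nd (nat_lit 78) (nat_lit 0) (nat_lit 0) (XT.lf (nat_lit 0) (nat_lit 186225550073) (nat_lit 152) (nat_lit 133799445466) (nat_lit 0) (nat_lit 6637236354) (nat_lit 14) (nat_lit 5) (nat_lit 16) (nat_lit 4) (nat_lit 14) (nat_lit 4) (nat_lit 414) (nat_lit 341) (nat_lit 145)) (XT.lf (nat_lit 0) (nat_lit 240930618007) (nat_lit 152) (nat_lit 37989565875) (nat_lit 0) (nat_lit 61341703133) (nat_lit 14) (nat_lit 5) (nat_lit 16) (nat_lit 4) (nat_lit 14) (nat_lit 4) (nat_lit 415) (nat_lit 341) (nat_lit 144)))) (XT.nd (nat_lit 78) (nat_lit 76) (nat_lit 0) (XT.lf (nat_lit 0) (nat_lit 64680311870) (nat_lit 76) (nat_lit 234700113119) (nat_lit 76) (nat_lit 55110625716) (nat_lit 13) (nat_lit 4) (nat_lit 14) (nat_lit 5) (nat_lit 14) (nat_lit 4) (nat_lit 416) (nat_lit 341) (nat_lit 143)) (XT.nd (nat_lit 78) (nat_lit 76) (nat_lit 0) (XT.lf (nat_lit 0) (nat_lit 173801936511) (nat_lit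 76) (nat_lit 187593808840) (nat_lit 76) (nat_lit 8003776171) (nat_lit 13) (nat_lit 4) (nat_lit 14) (nat_lit 5) (nat_lit 14) (nat_lit 4) (nat_lit 417) (nat_lit 341) (nat_lit 142)) (XT.lf (nat_lit 0) (nat_lit 40131150053) (nat_lit 152) (nat_lit 97321694359) (nat_lit 76) (nat_lit 247568224325) (nat_lit 12) (nat_lit 5) (nat_lit 14) (nat_lit 5) (nat_lit 13) (nat_lit 4) (nat_lit 418) (nat_lit 341) (nat_lit 141)))))) (XT.nd (nat_lit 390) (nat_lit 0) (nat_lit 0) (XT.nd (nat_lit 156) (nat_lit 76) (nat_lit 0) (XT.nd (nat_lit 78) (nat_lit 0) (nat_lit 0) (XT.lf (nat_lit 0) (nat_lit 5925836779) (nat_lit 76) (nat_lit 84570203865) (nat_lit 152) (nat_lit 310916482407) (nat_lit 11) (nat_lit 5) (nat_lit 12) (nat_lit 5) (nat_lit 13) (nat_lit 4) (nat_lit 419) (nat_lit 341) (nat_lit 140)) (XT.lf (nat_lit 0) (nat_lit 117713935370) (nat_lit 76) (nat_lit 27313114840) (nat_lit 152) (nat_lit 273514106222) (nat_lit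 11) (nat_lit 5) (nat_lit 12) (nat_lit 5) (nat_lit 13) (nat_lit 4) (nat_lit 420) (nat_lit 341) (nat_lit 139))) (XT.nd (nat_lit 78) (nat_lit 76) (nat_lit 0) (XT.lf (nat_lit 0) (nat_lit 202796512071) (nat_lit 152) (nat_lit 201947570086) (nat_lit 0) (nat_lit 31756544306) (nat_lit 11) (nat_lit 5) (nat_lit 13) (nat_lit 4) (nat_lit 11) (nat_lit 4) (nat_lit 421) (nat_lit 341) (nat_lit 138)) (XT.nd (nat_lit 78) (nat_lit 76) (nat_lit 0) (XT.lf (nat_lit 0) (nat_lit 263901912796) (nat_lit 152) (nat_lit 98572245837) (nat_lit 0) (nat_lit 92861538145) (nat_lit 11) (nat_lit 5) (nat_lit 13) (nat_lit 4) (nat_lit 11) (nat_lit 4) (nat_lit 422) (nat_lit 341) (nat_lit 137)) (XT.lf (nat_lit 0) (nat_lit 10301014472) (nat_lit 76) (nat_lit 317922120398) (nat_lit 76) (nat_lit 146881358237) (nat_lit 10) (nat_lit 4) (nat_lit 11) (nat_lit 5) (nat_lit 11) (nat_lit 4) (nat_lit 423) (nat_lit 341) (nat_lit 136))))) (XT.nd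 (nat_lit 40560) (nat_lit 0) (nat_lit 6536) (XT.nd (nat_lit 78) (nat_lit 0) (nat_lit 0) (XT.lf (nat_lit 0) (nat_lit 128039625143) (nat_lit 76) (nat_lit 269389890261) (nat_lit 76) (nat_lit 98348759043) (nat_lit 10) (nat_lit 4) (nat_lit 11) (nat_lit 5) (nat_lit 11) (nat_lit 4) (nat_lit 424) (nat_lit 341) (nat_lit 135)) (XT.nd (nat_lit 40404) (nat_lit 0) (nat_lit 6536) (XT.lf (nat_lit 0) (nat_lit 251664672587) (nat_lit 76) (nat_lit 218431283973) (nat_lit 76) (nat_lit 47389801272) (nat_lit 10) (nat_lit 4) (nat_lit 11) (nat_lit 5) (nat_lit 11) (nat_lit 4) (nat_lit 425) (nat_lit 341) (nat_lit 134)) (XT.lf (nat_lit 0) (nat_lit 299434072) (nat_lit 836) (nat_lit 7775021176) (nat_lit 836) (nat_lit 7775021176) (nat_lit 96) (nat_lit 3) (nat_lit 107) (nat_lit 3) (nat_lit 107) (nat_lit 5) (nat_lit 342) (nat_lit 342) (nat_lit 216)))) (XT.nd (nat_lit 78) (nat_lit 0) (nat_lit 76) (XT.lf (nat_lit 0) (nat_lit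 676761906) (nat_lit 836) (nat_lit 700907025) (nat_lit 836) (nat_lit 31110533211) (nat_lit 96) (nat_lit 3) (nat_lit 107) (nat_lit 3) (nat_lit 107) (nat_lit 5) (nat_lit 343) (nat_lit 342) (nat_lit 215)) (XT.nd (nat_lit 78) (nat_lit 0) (nat_lit 0) (XT.lf (nat_lit 0) (nat_lit 1219269500) (nat_lit 760) (nat_lit 18148870889) (nat_lit 836) (nat_lit 13925742570) (nat_lit 97) (nat_lit 5) (nat_lit 107) (nat_lit 5) (nat_lit 108) (nat_lit 5) (nat_lit 344) (nat_lit 342) (nat_lit 214)) (XT.lf (nat_lit 0) (nat_lit 1819711363) (nat_lit 760) (nat_lit 2356781648) (nat_lit 836) (nat_lit 29961819144) (nat_lit 97) (nat_lit 5) (nat_lit 107) (nat_lit 5) (nat_lit 108) (nat_lit 5) (nat_lit 345) (nat_lit 342) (nat_lit 213))))))) (XT.nd (nat_lit 858) (nat_lit 1976) (nat_lit 0) (XT.nd (nat_lit 390) (nat_lit 912) (nat_lit 0) (XT.nd (nat_lit 156) (nat_lit 0) (nat_lit 76) (XT.nd (nat_lit 78) (nat_lit 0) (nat_lit 0) (XT.lf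 (nat_lit 0) (nat_lit 2863536208) (nat_lit 760) (nat_lit 20508320280) (nat_lit 836) (nat_lit 11632442832) (nat_lit 98) (nat_lit 5) (nat_lit 108) (nat_lit 5) (nat_lit 109) (nat_lit 5) (nat_lit 346) (nat_lit 342) (nat_lit 212)) (XT.lf (nat_lit 0) (nat_lit 4065090728) (nat_lit 760) (nat_lit 3709876652) (nat_lit 836) (nat_lit 28133345878) (nat_lit 98) (nat_lit 5) (nat_lit 108) (nat_lit 5) (nat_lit 109) (nat_lit 5) (nat_lit 347) (nat_lit 342) (nat_lit 211))) (XT.nd (nat_lit 78) (nat_lit 0) (nat_lit 0) (XT.lf (nat_lit 0) (nat_lit 5686006704) (nat_lit 760) (nat_lit 22597763315) (nat_lit 836) (nat_lit 8555797817) (nat_lit 99) (nat_lit 5) (nat_lit 109) (nat_lit 5) (nat_lit 110) (nat_lit 5) (nat_lit 348) (nat_lit 342) (nat_lit 210)) (XT.nd (nat_lit 78) (nat_lit 0) (nat_lit 76) (XT.lf (nat_lit 0) (nat_lit 7576095173) (nat_lit 760) (nat_lit 4725259569) (nat_lit 836) (nat_lit 25506628001) (nat_lit 99)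 (nat_lit 5) (nat_lit 109) (nat_lit 5) (nat_lit 110) (nat_lit 5) (nat_lit 349) (nat_lit 342) (nat_lit 209)) (XT.lf (nat_lit 0) (nat_lit 9857750451) (nat_lit 760) (nat_lit 24384557701) (nat_lit 836) (nat_lit 4567660869) (nat_lit 100) (nat_lit 5) (nat_lit 110) (nat_lit 5) (nat_lit 111) (nat_lit 5) (nat_lit 350) (nat_lit 342) (nat_lit 208))))) (XT.nd (nat_lit 234) (nat_lit 1064) (nat_lit 0) (XT.nd (nat_lit 78) (nat_lit 0) (nat_lit 0) (XT.lf (nat_lit 0) (nat_lit 12533568399) (nat_lit 760) (nat_lit 5365766212) (nat_lit 836) (nat_lit 21948719575) (nat_lit 100) (nat_lit 5) (nat_lit 110) (nat_lit 5) (nat_lit 111) (nat_lit 5) (nat_lit 351) (nat_lit 342) (nat_lit 207)) (XT.nd (nat_lit 78) (nat_lit 0) (nat_lit 76) (XT.lf (nat_lit 76) (nat_lit 15084471187) (nat_lit 0) (nat_lit 491437800) (nat_lit 836) (nat_lit 25350501434) (nat_lit 101) (nat_lit 5) (nat_lit 100) (nat_lit 5) (nat_lit 111) (nat_lit 5)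 (nat_lit 352) (nat_lit 342) (nat_lit 206)) (XT.lf (nat_lit 0) (nat_lit 19137755495) (nat_lit 760) (nat_lit 5592223481) (nat_lit 76) (nat_lit 17310339283) (nat_lit 101) (nat_lit 5) (nat_lit 111) (nat_lit 5) (nat_lit 102) (nat_lit 5) (nat_lit 353) (nat_lit 342) (nat_lit 205)))) (XT.nd (nat_lit 78) (nat_lit 380) (nat_lit 0) (XT.lf (nat_lit 0) (nat_lit 16177416231) (nat_lit 760) (nat_lit 6958361357) (nat_lit 836) (nat_lit 20061242819) (nat_lit 91) (nat_lit 5) (nat_lit 101) (nat_lit 5) (nat_lit 102) (nat_lit 5) (nat_lit 354) (nat_lit 342) (nat_lit 204)) (XT.nd (nat_lit 78) (nat_lit 380) (nat_lit 0) (XT.lf (nat_lit 0) (nat_lit 27610200541) (nat_lit 836) (nat_lit 5363762413) (nat_lit 76) (nat_lit 11423772657) (nat_lit 91) (nat_lit 5) (nat_lit 102) (nat_lit 5) (nat_lit 92) (nat_lit 5) (nat_lit 355) (nat_lit 342) (nat_lit 203)) (XT.lf (nat_lit 0) (nat_lit 17829181912) (nat_lit 380) (nat_lit 14869256481)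 (nat_lit 456) (nat_lit 12940546289) (nat_lit 86) (nat_lit 5) (nat_lit 91) (nat_lit 5) (nat_lit 92) (nat_lit 5) (nat_lit 356) (nat_lit 342) (nat_lit 202)))))) (XT.nd (nat_lit 468) (nat_lit 912) (nat_lit 0) (XT.nd (nat_lit 234) (nat_lit 684) (nat_lit 0) (XT.nd (nat_lit 78) (nat_lit 380) (nat_lit 0) (XT.lf (nat_lit 0) (nat_lit 38195798973) (nat_lit 456) (nat_lit 4638243157) (nat_lit 76) (nat_lit 4100521199) (nat_lit 86) (nat_lit 5) (nat_lit 92) (nat_lit 5) (nat_lit 87) (nat_lit 5) (nat_lit 357) (nat_lit 342) (nat_lit 201)) (XT.nd (nat_lit 78) (nat_lit 76) (nat_lit 0) (XT.lf (nat_lit 0) (nat_lit 20088873967) (nat_lit 304) (nat_lit 24434399416) (nat_lit 380) (nat_lit 3743887770) (nat_lit 82) (nat_lit 5) (nat_lit 86) (nat_lit 5) (nat_lit 87) (nat_lit 5) (nat_lit 358) (nat_lit 342) (nat_lit 200)) (XT.lf (nat_lit 0) (nat_lit 1530414149) (nat_lit 380) (nat_lit 3476071545) (nat_lit 76) (nat_lit 44654848226)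 (nat_lit 81) (nat_lit 5) (nat_lit 86) (nat_lit 5) (nat_lit 82) (nat_lit 5) (nat_lit 359) (nat_lit 342) (nat_lit 199)))) (XT.nd (nat_lit 78) (nat_lit 304) (nat_lit 0) (XT.lf (nat_lit 0) (nat_lit 7549093711) (nat_lit 456) (nat_lit 28213149255) (nat_lit 76) (nat_lit 15329581703) (nat_lit 76) (nat_lit 5) (nat_lit 82) (nat_lit 5) (nat_lit 77) (nat_lit 5) (nat_lit 360) (nat_lit 342) (nat_lit 198)) (XT.nd (nat_lit 78) (nat_lit 304) (nat_lit 0) (XT.lf (nat_lit 0) (nat_lit 14008652248) (nat_lit 456) (nat_lit 2004316823) (nat_lit 76) (nat_lit 36573875720) (nat_lit 76) (nat_lit 5) (nat_lit 82) (nat_lit 5) (nat_lit 77) (nat_lit 5) (nat_lit 361) (nat_lit 342) (nat_lit 197)) (XT.lf (nat_lit 0) (nat_lit 21281310289) (nat_lit 380) (nat_lit 27860219744) (nat_lit 76) (nat_lit 4990581795) (nat_lit 72) (nat_lit 5) (nat_lit 77) (nat_lit 5) (nat_lit 73) (nat_lit 5) (nat_lit 362) (nat_lit 342) (nat_lit 196)))))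 (XT.nd (nat_lit 234) (nat_lit 380) (nat_lit 0) (XT.nd (nat_lit 78) (nat_lit 228) (nat_lit 0) (XT.lf (nat_lit 0) (nat_lit 13756828) (nat_lit 304) (nat_lit 29199250577) (nat_lit 380) (nat_lit 26526866395) (nat_lit 68) (nat_lit 5) (nat_lit 72) (nat_lit 5) (nat_lit 73) (nat_lit 5) (nat_lit 363) (nat_lit 342) (nat_lit 195)) (XT.nd (nat_lit 78) (nat_lit 228) (nat_lit 0) (XT.lf (nat_lit 0) (nat_lit 30246540061) (nat_lit 304) (nat_lit 7764811950) (nat_lit 380) (nat_lit 19393170529) (nat_lit 68) (nat_lit 5) (nat_lit 72) (nat_lit 5) (nat_lit 73) (nat_lit 5) (nat_lit 364) (nat_lit 342) (nat_lit 194)) (XT.lf (nat_lit 0) (nat_lit 2692466172) (nat_lit 228) (nat_lit 44827653162) (nat_lit 304) (nat_lit 11618760827) (nat_lit 65) (nat_lit 5) (nat_lit 68) (nat_lit 5) (nat_lit 69) (nat_lit 5) (nat_lit 365) (nat_lit 342) (nat_lit 193)))) (XT.nd (nat_lit 78) (nat_lit 380) (nat_lit 0) (XT.lf (nat_lit 0) (nat_lit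 34844719810) (nat_lit 228) (nat_lit 23243140234) (nat_lit 304) (nat_lit 2842920501) (nat_lit 65) (nat_lit 5) (nat_lit 68) (nat_lit 5) (nat_lit 69) (nat_lit 5) (nat_lit 366) (nat_lit 342) (nat_lit 192)) (XT.nd (nat_lit 78) (nat_lit 0) (nat_lit 0) (XT.lf (nat_lit 0) (nat_lit 5878957972) (nat_lit 304) (nat_lit 379019754) (nat_lit 380) (nat_lit 56544815668) (nat_lit 60) (nat_lit 5) (nat_lit 64) (nat_lit 5) (nat_lit 65) (nat_lit 5) (nat_lit 367) (nat_lit 342) (nat_lit 191)) (XT.lf (nat_lit 0) (nat_lit 16534757088) (nat_lit 380) (nat_lit 24823266592) (nat_lit 76) (nat_lit 23367235505) (nat_lit 60) (nat_lit 5) (nat_lit 65) (nat_lit 5) (nat_lit 61) (nat_lit 5) (nat_lit 368) (nat_lit 342) (nat_lit 190))))))))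
noncomputable def xc202 : XT := (XT.nd (nat_lit 1716) (nat_lit 1216) (nat_lit 0) (XT.nd (nat_lit 858) (nat_lit 836) (nat_lit 0) (XT.nd (nat_lit 390) (nat_lit 684) (nat_lit 0) (XT.nd (nat_lit 156) (nat_lit 456) (nat_lit 0) (XT.nd (nat_lit 78) (nat_lit 0) (nat_lit 0) (XT.lf (nat_lit 0) (nat_lit 9167561398) (nat_lit 228) (nat_lit 18305683115) (nat_lit 304) (nat_lit 39263211644) (nat_lit 57) (nat_lit 5) (nat_lit 60) (nat_lit 5) (nat_lit 61) (nat_lit 5) (nat_lit 369) (nat_lit 342) (nat_lit 189)) (XT.lf (nat_lit 0) (nat_lit 39476602593) (nat_lit 304) (nat_lit 23208458983) (nat_lit 76) (nat_lit 6137255366) (nat_lit 57) (nat_lit 5) (nat_lit 61) (nat_lit 5) (nat_lit 58) (nat_lit 5) (nat_lit 370) (nat_lit 342) (nat_lit 188))) (XT.nd (nat_lit 78) (nat_lit 228) (nat_lit 0) (XT.lf (nat_lit 0) (nat_lit 12983547299) (nat_lit 228) (nat_lit 39598009089) (nat_lit 304) (nat_lit 18405844208) (nat_lit 54) (nat_lit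 5) (nat_lit 57) (nat_lit 5) (nat_lit 58) (nat_lit 5) (nat_lit 371) (nat_lit 342) (nat_lit 187)) (XT.nd (nat_lit 78) (nat_lit 228) (nat_lit 0) (XT.lf (nat_lit 0) (nat_lit 51789017323) (nat_lit 228) (nat_lit 14944448209) (nat_lit 304) (nat_lit 6507688680) (nat_lit 54) (nat_lit 5) (nat_lit 57) (nat_lit 5) (nat_lit 58) (nat_lit 5) (nat_lit 372) (nat_lit 342) (nat_lit 186)) (XT.lf (nat_lit 0) (nat_lit 6240796226) (nat_lit 228) (nat_lit 58377802292) (nat_lit 76) (nat_lit 10961976072) (nat_lit 51) (nat_lit 5) (nat_lit 54) (nat_lit 5) (nat_lit 52) (nat_lit 5) (nat_lit 373) (nat_lit 342) (nat_lit 185))))) (XT.nd (nat_lit 234) (nat_lit 456) (nat_lit 0) (XT.nd (nat_lit 78) (nat_lit 228) (nat_lit 0) (XT.lf (nat_lit 0) (nat_lit 20020981448) (nat_lit 228) (nat_lit 19843096596) (nat_lit 76) (nat_lit 38136905921) (nat_lit 51) (nat_lit 5) (nat_lit 54) (nat_lit 5) (nat_lit 52) (nat_lit 5) (nat_lit 374) (nat_lit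 342) (nat_lit 184)) (XT.nd (nat_lit 78) (nat_lit 0) (nat_lit 0) (XT.lf (nat_lit 0) (nat_lit 21298247729) (nat_lit 228) (nat_lit 13523242143) (nat_lit 304) (nat_lit 45704359195) (nat_lit 48) (nat_lit 5) (nat_lit 51) (nat_lit 5) (nat_lit 52) (nat_lit 5) (nat_lit 375) (nat_lit 342) (nat_lit 183)) (XT.lf (nat_lit 0) (nat_lit 50923076730) (nat_lit 304) (nat_lit 18202574493) (nat_lit 76) (nat_lit 14023254461) (nat_lit 48) (nat_lit 5) (nat_lit 52) (nat_lit 5) (nat_lit 49) (nat_lit 5) (nat_lit 376) (nat_lit 342) (nat_lit 182)))) (XT.nd (nat_lit 78) (nat_lit 304) (nat_lit 0) (XT.lf (nat_lit 0) (nat_lit 25465350854) (nat_lit 152) (nat_lit 42982536960) (nat_lit 228) (nat_lit 17424320941) (nat_lit 46) (nat_lit 5) (nat_lit 48) (nat_lit 5) (nat_lit 49) (nat_lit 5) (nat_lit 377) (nat_lit 342) (nat_lit 181)) (XT.nd (nat_lit 78) (nat_lit 304) (nat_lit 0) (XT.lf (nat_lit 0) (nat_lit 71946941735) (nat_lit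 152) (nat_lit 15209161700) (nat_lit 228) (nat_lit 1560216170) (nat_lit 46) (nat_lit 5) (nat_lit 48) (nat_lit 5) (nat_lit 49) (nat_lit 5) (nat_lit 378) (nat_lit 342) (nat_lit 180)) (XT.lf (nat_lit 0) (nat_lit 15306858721) (nat_lit 304) (nat_lit 62131681214) (nat_lit 76) (nat_lit 14217663105) (nat_lit 42) (nat_lit 5) (nat_lit 46) (nat_lit 5) (nat_lit 43) (nat_lit 5) (nat_lit 379) (nat_lit 342) (nat_lit 179)))))) (XT.nd (nat_lit 390) (nat_lit 456) (nat_lit 0) (XT.nd (nat_lit 156) (nat_lit 228) (nat_lit 0) (XT.nd (nat_lit 78) (nat_lit 152) (nat_lit 0) (XT.lf (nat_lit 0) (nat_lit 33501783757) (nat_lit 304) (nat_lit 16294789553) (nat_lit 76) (nat_lit 44918382692) (nat_lit 42) (nat_lit 5) (nat_lit 46) (nat_lit 5) (nat_lit 43) (nat_lit 5) (nat_lit 380) (nat_lit 342) (nat_lit 178)) (XT.lf (nat_lit 0) (nat_lit 32884890762) (nat_lit 152) (nat_lit 20233985916) (nat_lit 228) (nat_lit 44782149529) (nat_lit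 40) (nat_lit 5) (nat_lit 42) (nat_lit 5) (nat_lit 43) (nat_lit 5) (nat_lit 381) (nat_lit 342) (nat_lit 177))) (XT.nd (nat_lit 78) (nat_lit 228) (nat_lit 0) (XT.lf (nat_lit 0) (nat_lit 74165042639) (nat_lit 228) (nat_lit 16318168888) (nat_lit 76) (nat_lit 10740778125) (nat_lit 40) (nat_lit 5) (nat_lit 43) (nat_lit 5) (nat_lit 41) (nat_lit 5) (nat_lit 382) (nat_lit 342) (nat_lit 176)) (XT.nd (nat_lit 78) (nat_lit 76) (nat_lit 0) (XT.lf (nat_lit 0) (nat_lit 35621587354) (nat_lit 152) (nat_lit 61528845088) (nat_lit 228) (nat_lit 7518323664) (nat_lit 38) (nat_lit 5) (nat_lit 40) (nat_lit 5) (nat_lit 41) (nat_lit 5) (nat_lit 383) (nat_lit 342) (nat_lit 175)) (XT.lf (nat_lit 0) (nat_lit 12863221539) (nat_lit 228) (nat_lit 17756092356) (nat_lit 76) (nat_lit 77642302225) (nat_lit 37) (nat_lit 5) (nat_lit 40) (nat_lit 5) (nat_lit 38) (nat_lit 5) (nat_lit 384) (nat_lit 342) (nat_lit 174))))) (XT.nd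 (nat_lit 234) (nat_lit 152) (nat_lit 0) (XT.nd (nat_lit 78) (nat_lit 152) (nat_lit 0) (XT.lf (nat_lit 0) (nat_lit 34630711031) (nat_lit 228) (nat_lit 74874848431) (nat_lit 76) (nat_lit 2491421044) (nat_lit 35) (nat_lit 5) (nat_lit 38) (nat_lit 5) (nat_lit 36) (nat_lit 5) (nat_lit 385) (nat_lit 342) (nat_lit 173)) (XT.nd (nat_lit 78) (nat_lit 152) (nat_lit 0) (XT.lf (nat_lit 0) (nat_lit 58293288593) (nat_lit 228) (nat_lit 21051707785) (nat_lit 76) (nat_lit 36533781561) (nat_lit 35) (nat_lit 5) (nat_lit 38) (nat_lit 5) (nat_lit 36) (nat_lit 5) (nat_lit 386) (nat_lit 342) (nat_lit 172)) (XT.lf (nat_lit 0) (nat_lit 36633703245) (nat_lit 152) (nat_lit 47076408442) (nat_lit 228) (nat_lit 36215998206) (nat_lit 33) (nat_lit 5) (nat_lit 35) (nat_lit 5) (nat_lit 36) (nat_lit 5) (nat_lit 387) (nat_lit 342) (nat_lit 171)))) (XT.nd (nat_lit 78) (nat_lit 152) (nat_lit 0) (XT.lf (nat_lit 0) (nat_lit 97932881134)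 (nat_lit 152) (nat_lit 12820596040) (nat_lit 228) (nat_lit 13404546669) (nat_lit 33) (nat_lit 5) (nat_lit 35) (nat_lit 5) (nat_lit 36) (nat_lit 5) (nat_lit 388) (nat_lit 342) (nat_lit 170)) (XT.nd (nat_lit 78) (nat_lit 0) (nat_lit 0) (XT.lf (nat_lit 0) (nat_lit 11122858471) (nat_lit 152) (nat_lit 94301150068) (nat_lit 76) (nat_lit 23123643275) (nat_lit 31) (nat_lit 5) (nat_lit 33) (nat_lit 5) (nat_lit 32) (nat_lit 5) (nat_lit 389) (nat_lit 342) (nat_lit 169)) (XT.lf (nat_lit 0) (nat_lit 37086958464) (nat_lit 152) (nat_lit 34920891711) (nat_lit 76) (nat_lit 61104883809) (nat_lit 31) (nat_lit 5) (nat_lit 33) (nat_lit 5) (nat_lit 32) (nat_lit 5) (nat_lit 390) (nat_lit 342) (nat_lit 168))))))) (XT.nd (nat_lit 858) (nat_lit 456) (nat_lit 0) (XT.nd (nat_lit 390) (nat_lit 304) (nat_lit 0) (XT.nd (nat_lit 156) (nat_lit 304) (nat_lit 0) (XT.nd (nat_lit 78) (nat_lit 0) (nat_lit 0) (XT.lf (nat_lit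 0) (nat_lit 28333965127) (nat_lit 152) (nat_lit 36456923471) (nat_lit 228) (nat_lit 73093100787) (nat_lit 29) (nat_lit 5) (nat_lit 31) (nat_lit 5) (nat_lit 32) (nat_lit 5) (nat_lit 391) (nat_lit 342) (nat_lit 167)) (XT.lf (nat_lit 0) (nat_lit 94493980168) (nat_lit 228) (nat_lit 46924886952) (nat_lit 76) (nat_lit 1444242548) (nat_lit 29) (nat_lit 5) (nat_lit 32) (nat_lit 5) (nat_lit 30) (nat_lit 4) (nat_lit 392) (nat_lit 342) (nat_lit 166))) (XT.nd (nat_lit 78) (nat_lit 228) (nat_lit 0) (XT.lf (nat_lit 0) (nat_lit 18835480629) (nat_lit 76) (nat_lit 107737770316) (nat_lit 152) (nat_lit 21473384133) (nat_lit 28) (nat_lit 5) (nat_lit 29) (nat_lit 5) (nat_lit 30) (nat_lit 4) (nat_lit 393) (nat_lit 342) (nat_lit 165)) (XT.nd (nat_lit 78) (nat_lit 152) (nat_lit 0) (XT.lf (nat_lit 0) (nat_lit 7357579563) (nat_lit 152) (nat_lit 64056520079) (nat_lit 76) (nat_lit 82029603616) (nat_lit 27) (nat_lit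 5) (nat_lit 29) (nat_lit 5) (nat_lit 28) (nat_lit 5) (nat_lit 394) (nat_lit 342) (nat_lit 164)) (XT.lf (nat_lit 0) (nat_lit 4134998761) (nat_lit 152) (nat_lit 32837337098) (nat_lit 228) (nat_lit 122117493603) (nat_lit 25) (nat_lit 5) (nat_lit 27) (nat_lit 5) (nat_lit 28) (nat_lit 5) (nat_lit 395) (nat_lit 342) (nat_lit 163))))) (XT.nd (nat_lit 234) (nat_lit 228) (nat_lit 0) (XT.nd (nat_lit 78) (nat_lit 76) (nat_lit 0) (XT.lf (nat_lit 0) (nat_lit 69289503363) (nat_lit 228) (nat_lit 87142713135) (nat_lit 76) (nat_lit 8524962090) (nat_lit 25) (nat_lit 5) (nat_lit 28) (nat_lit 5) (nat_lit 26) (nat_lit 4) (nat_lit 396) (nat_lit 342) (nat_lit 162)) (XT.nd (nat_lit 78) (nat_lit 76) (nat_lit 0) (XT.lf (nat_lit 0) (nat_lit 103760215842) (nat_lit 228) (nat_lit 16479427350) (nat_lit 76) (nat_lit 50851367919) (nat_lit 25) (nat_lit 5) (nat_lit 28) (nat_lit 5) (nat_lit 26) (nat_lit 4) (nat_lit 397) (nat_lit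 342) (nat_lit 161)) (XT.lf (nat_lit 0) (nat_lit 59624305570) (nat_lit 76) (nat_lit 81260460499) (nat_lit 152) (nat_lit 36600254340) (nat_lit 24) (nat_lit 5) (nat_lit 25) (nat_lit 5) (nat_lit 26) (nat_lit 4) (nat_lit 398) (nat_lit 342) (nat_lit 160)))) (XT.nd (nat_lit 78) (nat_lit 228) (nat_lit 0) (XT.lf (nat_lit 0) (nat_lit 140104303564) (nat_lit 76) (nat_lit 40039739131) (nat_lit 152) (nat_lit 4040762776) (nat_lit 24) (nat_lit 5) (nat_lit 25) (nat_lit 5) (nat_lit 26) (nat_lit 4) (nat_lit 399) (nat_lit 342) (nat_lit 159)) (XT.nd (nat_lit 78) (nat_lit 0) (nat_lit 0) (XT.lf (nat_lit 0) (nat_lit 29779200359) (nat_lit 228) (nat_lit 157231144704) (nat_lit 76) (nat_lit 4155832229) (nat_lit 21) (nat_lit 5) (nat_lit 24) (nat_lit 5) (nat_lit 22) (nat_lit 4) (nat_lit 400) (nat_lit 342) (nat_lit 158)) (XT.lf (nat_lit 0) (nat_lit 66568952370) (nat_lit 228) (nat_lit 81813465328) (nat_lit 76) (nat_lit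 50040158775) (nat_lit 21) (nat_lit 5) (nat_lit 24) (nat_lit 5) (nat_lit 22) (nat_lit 4) (nat_lit 401) (nat_lit 342) (nat_lit 157)))))) (XT.nd (nat_lit 468) (nat_lit 228) (nat_lit 0) (XT.nd (nat_lit 234) (nat_lit 152) (nat_lit 0) (XT.nd (nat_lit 78) (nat_lit 76) (nat_lit 0) (XT.lf (nat_lit 0) (nat_lit 105197653830) (nat_lit 228) (nat_lit 2625877094) (nat_lit 76) (nat_lit 98218291796) (nat_lit 21) (nat_lit 5) (nat_lit 24) (nat_lit 5) (nat_lit 22) (nat_lit 4) (nat_lit 402) (nat_lit 342) (nat_lit 156)) (XT.nd (nat_lit 78) (nat_lit 0) (nat_lit 0) (XT.lf (nat_lit 0) (nat_lit 83182522063) (nat_lit 76) (nat_lit 63873468061) (nat_lit 152) (nat_lit 66921131359) (nat_lit 20) (nat_lit 5) (nat_lit 21) (nat_lit 5) (nat_lit 22) (nat_lit 4) (nat_lit 403) (nat_lit 342) (nat_lit 155)) (XT.lf (nat_lit 0) (nat_lit 173371592004) (nat_lit 76) (nat_lit 17679619344) (nat_lit 152) (nat_lit 31255775612) (nat_lit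 20) (nat_lit 5) (nat_lit 21) (nat_lit 5) (nat_lit 22) (nat_lit 4) (nat_lit 404) (nat_lit 342) (nat_lit 154)))) (XT.nd (nat_lit 78) (nat_lit 0) (nat_lit 0) (XT.lf (nat_lit 0) (nat_lit 7082210956) (nat_lit 152) (nat_lit 193371439776) (nat_lit 76) (nat_lit 30540482116) (nat_lit 18) (nat_lit 5) (nat_lit 20) (nat_lit 5) (nat_lit 19) (nat_lit 4) (nat_lit 405) (nat_lit 342) (nat_lit 153)) (XT.nd (nat_lit 78) (nat_lit 0) (nat_lit 0) (XT.lf (nat_lit 0) (nat_lit 47418375137) (nat_lit 152) (nat_lit 110683282425) (nat_lit 76) (nat_lit 81931775274) (nat_lit 18) (nat_lit 5) (nat_lit 20) (nat_lit 5) (nat_lit 19) (nat_lit 4) (nat_lit 406) (nat_lit 342) (nat_lit 152)) (XT.lf (nat_lit 0) (nat_lit 89770887436) (nat_lit 152) (nat_lit 23861564801) (nat_lit 76) (nat_lit 135892268739) (nat_lit 18) (nat_lit 5) (nat_lit 20) (nat_lit 5) (nat_lit 19) (nat_lit 4) (nat_lit 407) (nat_lit 342) (nat_lit 151))))) (XT.nd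 (nat_lit 234) (nat_lit 152) (nat_lit 0) (XT.nd (nat_lit 78) (nat_lit 0) (nat_lit 0) (XT.lf (nat_lit 0) (nat_lit 69525687672) (nat_lit 76) (nat_lit 65800390326) (nat_lit 152) (nat_lit 124110243034) (nat_lit 17) (nat_lit 5) (nat_lit 18) (nat_lit 5) (nat_lit 19) (nat_lit 4) (nat_lit 408) (nat_lit 342) (nat_lit 150)) (XT.nd (nat_lit 78) (nat_lit 0) (nat_lit 0) (XT.lf (nat_lit 0) (nat_lit 168409928204) (nat_lit 76) (nat_lit 15152777315) (nat_lit 152) (nat_lit 86260611838) (nat_lit 17) (nat_lit 5) (nat_lit 18) (nat_lit 5) (nat_lit 19) (nat_lit 4) (nat_lit 409) (nat_lit 342) (nat_lit 149)) (XT.lf (nat_lit 0) (nat_lit 234804461162) (nat_lit 152) (nat_lit 9085765720) (nat_lit 0) (nat_lit 36809771907) (nat_lit 17) (nat_lit 5) (nat_lit 19) (nat_lit 4) (nat_lit 17) (nat_lit 4) (nat_lit 410) (nat_lit 342) (nat_lit 148)))) (XT.nd (nat_lit 78) (nat_lit 76) (nat_lit 0) (XT.lf (nat_lit 0) (nat_lit 90505850304)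 (nat_lit 76) (nat_lit 199763515507) (nat_lit 76) (nat_lit 1768095544) (nat_lit 16) (nat_lit 4) (nat_lit 17) (nat_lit 5) (nat_lit 17) (nat_lit 4) (nat_lit 411) (nat_lit 342) (nat_lit 147)) (XT.nd (nat_lit 78) (nat_lit 0) (nat_lit 0) (XT.lf (nat_lit 0) (nat_lit 43295337783) (nat_lit 152) (nat_lit 109240673419) (nat_lit 76) (nat_lit 151363196149) (nat_lit 15) (nat_lit 5) (nat_lit 17) (nat_lit 5) (nat_lit 16) (nat_lit 4) (nat_lit 412) (nat_lit 342) (nat_lit 146)) (XT.lf (nat_lit 0) (nat_lit 90552148056) (nat_lit 152) (nat_lit 12364875132) (nat_lit 76) (nat_lit 213435587061) (nat_lit 15) (nat_lit 5) (nat_lit 17) (nat_lit 5) (nat_lit 16) (nat_lit 4) (nat_lit 413) (nat_lit 342) (nat_lit 145))))))))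
noncomputable def xc203 : XT := (XT.nd (nat_lit 42120) (nat_lit 0) (nat_lit 3116) (XT.nd (nat_lit 858) (nat_lit 0) (nat_lit 0) (XT.nd (nat_lit 390) (nat_lit 228) (nat_lit 0) (XT.nd (nat_lit 156) (nat_lit 76) (nat_lit 0) (XT.nd (nat_lit 78) (nat_lit 0) (nat_lit 0) (XT.lf (nat_lit 0) (nat_lit 92308493672) (nat_lit 76) (nat_lit 49304142198) (nat_lit 152) (nat_lit 187744005673) (nat_lit 14) (nat_lit 5) (nat_lit 15) (nat_lit 5) (nat_lit 16) (nat_lit 4) (nat_lit 414) (nat_lit 342) (nat_lit 144)) (XT.lf (nat_lit 0) (nat_lit 195547754661) (nat_lit 152) (nat_lit 140468819148) (nat_lit 0) (nat_lit 6978220358) (nat_lit 14) (nat_lit 5) (nat_lit 16) (nat_lit 4) (nat_lit 14) (nat_lit 4) (nat_lit 415) (nat_lit 342) (nat_lit 143))) (XT.nd (nat_lit 78) (nat_lit 76) (nat_lit 0) (XT.lf (nat_lit 0) (nat_lit 252987555654) (nat_lit 152) (nat_lit 39869426463) (nat_lit 0) (nat_lit 64417476086) (nat_lit 14) (nat_lit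 5) (nat_lit 16) (nat_lit 4) (nat_lit 14) (nat_lit 4) (nat_lit 416) (nat_lit 342) (nat_lit 142)) (XT.nd (nat_lit 78) (nat_lit 0) (nat_lit 0) (XT.lf (nat_lit 0) (nat_lit 67933628755) (nat_lit 76) (nat_lit 246426030018) (nat_lit 76) (nat_lit 57855431150) (nat_lit 13) (nat_lit 4) (nat_lit 14) (nat_lit 5) (nat_lit 14) (nat_lit 4) (nat_lit 417) (nat_lit 342) (nat_lit 141)) (XT.lf (nat_lit 0) (nat_lit 182510415519) (nat_lit 76) (nat_lit 196964843323) (nat_lit 76) (nat_lit 8393749882) (nat_lit 13) (nat_lit 4) (nat_lit 14) (nat_lit 5) (nat_lit 14) (nat_lit 4) (nat_lit 418) (nat_lit 342) (nat_lit 140))))) (XT.nd (nat_lit 234) (nat_lit 76) (nat_lit 0) (XT.nd (nat_lit 78) (nat_lit 76) (nat_lit 0) (XT.lf (nat_lit 0) (nat_lit 42147124842) (nat_lit 152) (nat_lit 102169958534) (nat_lit 76) (nat_lit 259954565609) (nat_lit 12) (nat_lit 5) (nat_lit 14) (nat_lit 5) (nat_lit 13) (nat_lit 4) (nat_lit 419) (nat_lit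 342) (nat_lit 139)) (XT.nd (nat_lit 78) (nat_lit 0) (nat_lit 0) (XT.lf (nat_lit 0) (nat_lit 6239661732) (nat_lit 76) (nat_lit 88790423528) (nat_lit 152) (nat_lit 326452599599) (nat_lit 11) (nat_lit 5) (nat_lit 12) (nat_lit 5) (nat_lit 13) (nat_lit 4) (nat_lit 420) (nat_lit 342) (nat_lit 138)) (XT.lf (nat_lit 0) (nat_lit 123616330344) (nat_lit 76) (nat_lit 28670874839) (nat_lit 152) (nat_lit 287180566839) (nat_lit 11) (nat_lit 5) (nat_lit 12) (nat_lit 5) (nat_lit 13) (nat_lit 4) (nat_lit 421) (nat_lit 342) (nat_lit 137)))) (XT.nd (nat_lit 78) (nat_lit 76) (nat_lit 0) (XT.lf (nat_lit 0) (nat_lit 212944838377) (nat_lit 152) (nat_lit 212028741770) (nat_lit 0) (nat_lit 33351650597) (nat_lit 11) (nat_lit 5) (nat_lit 13) (nat_lit 4) (nat_lit 11) (nat_lit 4) (nat_lit 422) (nat_lit 342) (nat_lit 136)) (XT.nd (nat_lit 78) (nat_lit 76) (nat_lit 0) (XT.lf (nat_lit 0) (nat_lit 277105104342) (nat_lit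 152) (nat_lit 103485423061) (nat_lit 0) (nat_lit 97511547506) (nat_lit 11) (nat_lit 5) (nat_lit 13) (nat_lit 4) (nat_lit 11) (nat_lit 4) (nat_lit 423) (nat_lit 342) (nat_lit 135)) (XT.lf (nat_lit 0) (nat_lit 10831251310) (nat_lit 76) (nat_lit 333810987788) (nat_lit 76) (nat_lit 154217079468) (nat_lit 10) (nat_lit 4) (nat_lit 11) (nat_lit 5) (nat_lit 11) (nat_lit 4) (nat_lit 424) (nat_lit 342) (nat_lit 134)))))) (XT.nd (nat_lit 40794) (nat_lit 0) (nat_lit 6688) (XT.nd (nat_lit 40560) (nat_lit 0) (nat_lit 6536) (XT.nd (nat_lit 40482) (nat_lit 0) (nat_lit 6536) (XT.lf (nat_lit 0) (nat_lit 134456069366) (nat_lit 76) (nat_lit 282852490841) (nat_lit 76) (nat_lit 103258247776) (nat_lit 10) (nat_lit 4) (nat_lit 11) (nat_lit 5) (nat_lit 11) (nat_lit 4) (nat_lit 425) (nat_lit 342) (nat_lit 133)) (XT.lf (nat_lit 0) (nat_lit 376345443) (nat_lit 836) (nat_lit 8131215308) (nat_lit 836) (nat_lit 8131215308)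 (nat_lit 96) (nat_lit 3) (nat_lit 107) (nat_lit 3) (nat_lit 107) (nat_lit 5) (nat_lit 343) (nat_lit 343) (nat_lit 214))) (XT.nd (nat_lit 78) (nat_lit 0) (nat_lit 76) (XT.lf (nat_lit 0) (nat_lit 828580318) (nat_lit 836) (nat_lit 673939182) (nat_lit 836) (nat_lit 32604046678) (nat_lit 96) (nat_lit 3) (nat_lit 107) (nat_lit 3) (nat_lit 107) (nat_lit 5) (nat_lit 344) (nat_lit 343) (nat_lit 213)) (XT.nd (nat_lit 78) (nat_lit 0) (nat_lit 0) (XT.lf (nat_lit 0) (nat_lit 1392731188) (nat_lit 760) (nat_lit 18988679082) (nat_lit 836) (nat_lit 14571401874) (nat_lit 97) (nat_lit 5) (nat_lit 107) (nat_lit 5) (nat_lit 108) (nat_lit 5) (nat_lit 345) (nat_lit 343) (nat_lit 212)) (XT.lf (nat_lit 0) (nat_lit 2017838087) (nat_lit 760) (nat_lit 2410206110) (nat_lit 836) (nat_lit 31411693125) (nat_lit 97) (nat_lit 5) (nat_lit 107) (nat_lit 5) (nat_lit 108) (nat_lit 5) (nat_lit 346) (nat_lit 343) (nat_lit 211)))))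 (XT.nd (nat_lit 234) (nat_lit 0) (nat_lit 76) (XT.nd (nat_lit 78) (nat_lit 0) (nat_lit 0) (XT.lf (nat_lit 0) (nat_lit 3109122592) (nat_lit 760) (nat_lit 21464463059) (nat_lit 836) (nat_lit 12175681124) (nat_lit 98) (nat_lit 5) (nat_lit 108) (nat_lit 5) (nat_lit 109) (nat_lit 5) (nat_lit 347) (nat_lit 343) (nat_lit 210)) (XT.nd (nat_lit 78) (nat_lit 0) (nat_lit 76) (XT.lf (nat_lit 0) (nat_lit 4365878192) (nat_lit 760) (nat_lit 3829395975) (nat_lit 836) (nat_lit 29503457125) (nat_lit 98) (nat_lit 5) (nat_lit 108) (nat_lit 5) (nat_lit 109) (nat_lit 5) (nat_lit 348) (nat_lit 343) (nat_lit 209)) (XT.lf (nat_lit 0) (nat_lit 6063756335) (nat_lit 760) (nat_lit 23657478120) (nat_lit 836) (nat_lit 8955524087) (nat_lit 99) (nat_lit 5) (nat_lit 109) (nat_lit 5) (nat_lit 110) (nat_lit 5) (nat_lit 349) (nat_lit 343) (nat_lit 208)))) (XT.nd (nat_lit 78) (nat_lit 0) (nat_lit 76) (XT.lf (nat_lit 0) (nat_lit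 8043899261) (nat_lit 760) (nat_lit 4894690775) (nat_lit 836) (nat_lit 26755232142) (nat_lit 99) (nat_lit 5) (nat_lit 109) (nat_lit 5) (nat_lit 110) (nat_lit 5) (nat_lit 350) (nat_lit 343) (nat_lit 207)) (XT.nd (nat_lit 78) (nat_lit 0) (nat_lit 0) (XT.lf (nat_lit 0) (nat_lit 10436113055) (nat_lit 760) (nat_lit 25533325055) (nat_lit 836) (nat_lit 4776651099) (nat_lit 100) (nat_lit 5) (nat_lit 110) (nat_lit 5) (nat_lit 111) (nat_lit 5) (nat_lit 351) (nat_lit 343) (nat_lit 206)) (XT.lf (nat_lit 0) (nat_lit 13241651658) (nat_lit 760) (nat_lit 5566949256) (nat_lit 836) (nat_lit 23027686208) (nat_lit 100) (nat_lit 5) (nat_lit 110) (nat_lit 5) (nat_lit 111) (nat_lit 5) (nat_lit 352) (nat_lit 343) (nat_lit 205))))))) (XT.nd (nat_lit 858) (nat_lit 1596) (nat_lit 0) (XT.nd (nat_lit 390) (nat_lit 1064) (nat_lit 0) (XT.nd (nat_lit 156) (nat_lit 1064) (nat_lit 0) (XT.nd (nat_lit 78) (nat_lit 0) (nat_lit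 76) (XT.lf (nat_lit 76) (nat_lit 15904717671) (nat_lit 0) (nat_lit 528545986) (nat_lit 836) (nat_lit 26535444531) (nat_lit 101) (nat_lit 5) (nat_lit 100) (nat_lit 5) (nat_lit 111) (nat_lit 5) (nat_lit 353) (nat_lit 343) (nat_lit 204)) (XT.lf (nat_lit 0) (nat_lit 20169275169) (nat_lit 760) (nat_lit 5804938078) (nat_lit 76) (nat_lit 18164299050) (nat_lit 101) (nat_lit 5) (nat_lit 111) (nat_lit 5) (nat_lit 102) (nat_lit 5) (nat_lit 354) (nat_lit 343) (nat_lit 203))) (XT.nd (nat_lit 78) (nat_lit 380) (nat_lit 0) (XT.lf (nat_lit 0) (nat_lit 17052104642) (nat_lit 760) (nat_lit 7312567422) (nat_lit 836) (nat_lit 20988508104) (nat_lit 91) (nat_lit 5) (nat_lit 101) (nat_lit 5) (nat_lit 102) (nat_lit 5) (nat_lit 355) (nat_lit 343) (nat_lit 202)) (XT.nd (nat_lit 78) (nat_lit 380) (nat_lit 0) (XT.lf (nat_lit 0) (nat_lit 29059289066) (nat_lit 836) (nat_lit 5565658122) (nat_lit 76) (nat_lit 11989164393)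 (nat_lit 91) (nat_lit 5) (nat_lit 102) (nat_lit 5) (nat_lit 92) (nat_lit 5) (nat_lit 356) (nat_lit 343) (nat_lit 201)) (XT.lf (nat_lit 0) (nat_lit 18785864187) (nat_lit 380) (nat_lit 15613827298) (nat_lit 456) (nat_lit 13517847887) (nat_lit 86) (nat_lit 5) (nat_lit 91) (nat_lit 5) (nat_lit 92) (nat_lit 5) (nat_lit 357) (nat_lit 343) (nat_lit 200))))) (XT.nd (nat_lit 234) (nat_lit 684) (nat_lit 0) (XT.nd (nat_lit 78) (nat_lit 380) (nat_lit 0) (XT.lf (nat_lit 0) (nat_lit 40168744991) (nat_lit 456) (nat_lit 4804788626) (nat_lit 76) (nat_lit 4304525802) (nat_lit 86) (nat_lit 5) (nat_lit 92) (nat_lit 5) (nat_lit 87) (nat_lit 5) (nat_lit 358) (nat_lit 343) (nat_lit 199)) (XT.nd (nat_lit 78) (nat_lit 76) (nat_lit 0) (XT.lf (nat_lit 0) (nat_lit 21157630053) (nat_lit 304) (nat_lit 25652959734) (nat_lit 380) (nat_lit 3866801051) (nat_lit 82) (nat_lit 5) (nat_lit 86) (nat_lit 5) (nat_lit 87) (nat_lit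 5) (nat_lit 359) (nat_lit 343) (nat_lit 198)) (XT.lf (nat_lit 0) (nat_lit 1666195533) (nat_lit 380) (nat_lit 3586601644) (nat_lit 76) (nat_lit 46888576245) (nat_lit 81) (nat_lit 5) (nat_lit 86) (nat_lit 5) (nat_lit 82) (nat_lit 5) (nat_lit 360) (nat_lit 343) (nat_lit 197)))) (XT.nd (nat_lit 78) (nat_lit 304) (nat_lit 0) (XT.lf (nat_lit 0) (nat_lit 7984034680) (nat_lit 456) (nat_lit 29558697742) (nat_lit 76) (nat_lit 16100748062) (nat_lit 76) (nat_lit 5) (nat_lit 82) (nat_lit 5) (nat_lit 77) (nat_lit 5) (nat_lit 361) (nat_lit 343) (nat_lit 196)) (XT.nd (nat_lit 78) (nat_lit 304) (nat_lit 0) (XT.lf (nat_lit 0) (nat_lit 14763833702) (nat_lit 456) (nat_lit 2042524117) (nat_lit 76) (nat_lit 38407033576) (nat_lit 76) (nat_lit 5) (nat_lit 82) (nat_lit 5) (nat_lit 77) (nat_lit 5) (nat_lit 362) (nat_lit 343) (nat_lit 195)) (XT.lf (nat_lit 0) (nat_lit 22398593631) (nat_lit 380) (nat_lit 29189635746)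 (nat_lit 76) (nat_lit 5247771727) (nat_lit 72) (nat_lit 5) (nat_lit 77) (nat_lit 5) (nat_lit 73) (nat_lit 5) (nat_lit 363) (nat_lit 343) (nat_lit 194)))))) (XT.nd (nat_lit 468) (nat_lit 684) (nat_lit 0) (XT.nd (nat_lit 234) (nat_lit 380) (nat_lit 0) (XT.nd (nat_lit 78) (nat_lit 228) (nat_lit 0) (XT.lf (nat_lit 0) (nat_lit 77013929) (nat_lit 304) (nat_lit 30648304374) (nat_lit 380) (nat_lit 27798913377) (nat_lit 68) (nat_lit 5) (nat_lit 72) (nat_lit 5) (nat_lit 73) (nat_lit 5) (nat_lit 364) (nat_lit 343) (nat_lit 193)) (XT.nd (nat_lit 78) (nat_lit 228) (nat_lit 0) (XT.lf (nat_lit 0) (nat_lit 31818456835) (nat_lit 304) (nat_lit 8142663279) (nat_lit 380) (nat_lit 20311118258) (nat_lit 68) (nat_lit 5) (nat_lit 72) (nat_lit 5) (nat_lit 73) (nat_lit 5) (nat_lit 365) (nat_lit 343) (nat_lit 192)) (XT.lf (nat_lit 0) (nat_lit 2888028344) (nat_lit 228) (nat_lit 47056060485) (nat_lit 304) (nat_lit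 12149289286) (nat_lit 65) (nat_lit 5) (nat_lit 68) (nat_lit 5) (nat_lit 69) (nat_lit 5) (nat_lit 366) (nat_lit 343) (nat_lit 191)))) (XT.nd (nat_lit 78) (nat_lit 380) (nat_lit 0) (XT.lf (nat_lit 0) (nat_lit 36644992813) (nat_lit 228) (nat_lit 24392939784) (nat_lit 304) (nat_lit 2937057400) (nat_lit 65) (nat_lit 5) (nat_lit 68) (nat_lit 5) (nat_lit 69) (nat_lit 5) (nat_lit 367) (nat_lit 343) (nat_lit 190)) (XT.nd (nat_lit 78) (nat_lit 0) (nat_lit 0) (XT.lf (nat_lit 0) (nat_lit 6231561336) (nat_lit 304) (nat_lit 384490609) (nat_lit 380) (nat_lit 59324580994) (nat_lit 60) (nat_lit 5) (nat_lit 64) (nat_lit 5) (nat_lit 65) (nat_lit 5) (nat_lit 368) (nat_lit 343) (nat_lit 189)) (XT.lf (nat_lit 0) (nat_lit 17404719509) (nat_lit 380) (nat_lit 26006577419) (nat_lit 76) (nat_lit 24548024599) (nat_lit 60) (nat_lit 5) (nat_lit 65) (nat_lit 5) (nat_lit 61) (nat_lit 5) (nat_lit 369) (nat_lit 343) (nat_lit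 188))))) (XT.nd (nat_lit 234) (nat_lit 228) (nat_lit 0) (XT.nd (nat_lit 78) (nat_lit 228) (nat_lit 0) (XT.lf (nat_lit 0) (nat_lit 9682858865) (nat_lit 228) (nat_lit 19206102798) (nat_lit 304) (nat_lit 41182177041) (nat_lit 57) (nat_lit 5) (nat_lit 60) (nat_lit 5) (nat_lit 61) (nat_lit 5) (nat_lit 370) (nat_lit 343) (nat_lit 187)) (XT.nd (nat_lit 78) (nat_lit 228) (nat_lit 0) (XT.lf (nat_lit 0) (nat_lit 41490706058) (nat_lit 304) (nat_lit 24312855666) (nat_lit 76) (nat_lit 6457821673) (nat_lit 57) (nat_lit 5) (nat_lit 61) (nat_lit 5) (nat_lit 58) (nat_lit 5) (nat_lit 371) (nat_lit 343) (nat_lit 186)) (XT.lf (nat_lit 0) (nat_lit 13687847281) (nat_lit 228) (nat_lit 41562003102) (nat_lit 304) (nat_lit 19284925409) (nat_lit 54) (nat_lit 5) (nat_lit 57) (nat_lit 5) (nat_lit 58) (nat_lit 5) (nat_lit 372) (nat_lit 343) (nat_lit 185)))) (XT.nd (nat_lit 78) (nat_lit 228) (nat_lit 0) (XT.lf (nat_lit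 0) (nat_lit 54430965920) (nat_lit 228) (nat_lit 15676521627) (nat_lit 304) (nat_lit 6793824533) (nat_lit 54) (nat_lit 5) (nat_lit 57) (nat_lit 5) (nat_lit 58) (nat_lit 5) (nat_lit 373) (nat_lit 343) (nat_lit 184)) (XT.nd (nat_lit 78) (nat_lit 0) (nat_lit 0) (XT.lf (nat_lit 0) (nat_lit 6590093811) (nat_lit 228) (nat_lit 61242143615) (nat_lit 76) (nat_lit 11525473613) (nat_lit 51) (nat_lit 5) (nat_lit 54) (nat_lit 5) (nat_lit 52) (nat_lit 5) (nat_lit 374) (nat_lit 343) (nat_lit 183)) (XT.lf (nat_lit 0) (nat_lit 21057514115) (nat_lit 228) (nat_lit 20783300195) (nat_lit 76) (nat_lit 40058416681) (nat_lit 51) (nat_lit 5) (nat_lit 54) (nat_lit 5) (nat_lit 52) (nat_lit 5) (nat_lit 375) (nat_lit 343) (nat_lit 182))))))))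
noncomputable def xc204 : XT := (XT.nd (nat_lit 1716) (nat_lit 988) (nat_lit 0) (XT.nd (nat_lit 858) (nat_lit 760) (nat_lit 0) (XT.nd (nat_lit 390) (nat_lit 532) (nat_lit 0) (XT.nd (nat_lit 156) (nat_lit 456) (nat_lit 0) (XT.nd (nat_lit 78) (nat_lit 0) (nat_lit 0) (XT.lf (nat_lit 0) (nat_lit 22414273423) (nat_lit 228) (nat_lit 14182882864) (nat_lit 304) (nat_lit 47953228978) (nat_lit 48) (nat_lit 5) (nat_lit 51) (nat_lit 5) (nat_lit 52) (nat_lit 5) (nat_lit 376) (nat_lit 343) (nat_lit 181)) (XT.lf (nat_lit 0) (nat_lit 53502420916) (nat_lit 304) (nat_lit 19062596915) (nat_lit 76) (nat_lit 14739648230) (nat_lit 48) (nat_lit 5) (nat_lit 52) (nat_lit 5) (nat_lit 49) (nat_lit 5) (nat_lit 377) (nat_lit 343) (nat_lit 180))) (XT.nd (nat_lit 78) (nat_lit 304) (nat_lit 0) (XT.lf (nat_lit 0) (nat_lit 26787916533) (nat_lit 152) (nat_lit 45114745210) (nat_lit 228) (nat_lit 18261514292) (nat_lit 46)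 (nat_lit 5) (nat_lit 48) (nat_lit 5) (nat_lit 49) (nat_lit 5) (nat_lit 378) (nat_lit 343) (nat_lit 179)) (XT.nd (nat_lit 78) (nat_lit 304) (nat_lit 0) (XT.lf (nat_lit 0) (nat_lit 75591239428) (nat_lit 152) (nat_lit 15953506834) (nat_lit 228) (nat_lit 1605824410) (nat_lit 46) (nat_lit 5) (nat_lit 48) (nat_lit 5) (nat_lit 49) (nat_lit 5) (nat_lit 379) (nat_lit 343) (nat_lit 178)) (XT.lf (nat_lit 0) (nat_lit 16103070598) (nat_lit 304) (nat_lit 65189738221) (nat_lit 76) (nat_lit 14944640039) (nat_lit 42) (nat_lit 5) (nat_lit 46) (nat_lit 5) (nat_lit 43) (nat_lit 5) (nat_lit 380) (nat_lit 343) (nat_lit 177))))) (XT.nd (nat_lit 234) (nat_lit 380) (nat_lit 0) (XT.nd (nat_lit 78) (nat_lit 152) (nat_lit 0) (XT.lf (nat_lit 0) (nat_lit 35206271936) (nat_lit 304) (nat_lit 17063312788) (nat_lit 76) (nat_lit 47179629235) (nat_lit 42) (nat_lit 5) (nat_lit 46) (nat_lit 5) (nat_lit 43) (nat_lit 5) (nat_lit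 381) (nat_lit 343) (nat_lit 176)) (XT.nd (nat_lit 78) (nat_lit 0) (nat_lit 0) (XT.lf (nat_lit 0) (nat_lit 34574606119) (nat_lit 152) (nat_lit 21228923359) (nat_lit 228) (nat_lit 46991093645) (nat_lit 40) (nat_lit 5) (nat_lit 42) (nat_lit 5) (nat_lit 43) (nat_lit 5) (nat_lit 382) (nat_lit 343) (nat_lit 175)) (XT.lf (nat_lit 0) (nat_lit 77900885881) (nat_lit 228) (nat_lit 17089635890) (nat_lit 76) (nat_lit 11293269763) (nat_lit 40) (nat_lit 5) (nat_lit 43) (nat_lit 5) (nat_lit 41) (nat_lit 5) (nat_lit 383) (nat_lit 343) (nat_lit 174)))) (XT.nd (nat_lit 78) (nat_lit 228) (nat_lit 0) (XT.lf (nat_lit 0) (nat_lit 37446391367) (nat_lit 152) (nat_lit 64588522610) (nat_lit 228) (nat_lit 7865914755) (nat_lit 38) (nat_lit 5) (nat_lit 40) (nat_lit 5) (nat_lit 41) (nat_lit 5) (nat_lit 384) (nat_lit 343) (nat_lit 173)) (XT.nd (nat_lit 78) (nat_lit 152) (nat_lit 0) (XT.lf (nat_lit 0) (nat_lit 13532495486)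 (nat_lit 228) (nat_lit 18601375458) (nat_lit 76) (nat_lit 81539504751) (nat_lit 37) (nat_lit 5) (nat_lit 40) (nat_lit 5) (nat_lit 38) (nat_lit 5) (nat_lit 385) (nat_lit 343) (nat_lit 172)) (XT.lf (nat_lit 0) (nat_lit 36388023847) (nat_lit 228) (nat_lit 78575718888) (nat_lit 76) (nat_lit 2631783088) (nat_lit 35) (nat_lit 5) (nat_lit 38) (nat_lit 5) (nat_lit 36) (nat_lit 5) (nat_lit 386) (nat_lit 343) (nat_lit 171)))))) (XT.nd (nat_lit 390) (nat_lit 456) (nat_lit 0) (XT.nd (nat_lit 156) (nat_lit 152) (nat_lit 0) (XT.nd (nat_lit 78) (nat_lit 152) (nat_lit 0) (XT.lf (nat_lit 0) (nat_lit 61232502799) (nat_lit 228) (nat_lit 22063462731) (nat_lit 76) (nat_lit 38375509679) (nat_lit 35) (nat_lit 5) (nat_lit 38) (nat_lit 5) (nat_lit 36) (nat_lit 5) (nat_lit 387) (nat_lit 343) (nat_lit 170)) (XT.lf (nat_lit 0) (nat_lit 38505560294) (nat_lit 152) (nat_lit 49414064912) (nat_lit 228) (nat_lit 38001576320)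 (nat_lit 33) (nat_lit 5) (nat_lit 35) (nat_lit 5) (nat_lit 36) (nat_lit 5) (nat_lit 388) (nat_lit 343) (nat_lit 169))) (XT.nd (nat_lit 78) (nat_lit 152) (nat_lit 0) (XT.lf (nat_lit 0) (nat_lit 102867784131) (nat_lit 152) (nat_lit 13446231601) (nat_lit 228) (nat_lit 14050753244) (nat_lit 33) (nat_lit 5) (nat_lit 35) (nat_lit 5) (nat_lit 36) (nat_lit 5) (nat_lit 389) (nat_lit 343) (nat_lit 168)) (XT.nd (nat_lit 78) (nat_lit 0) (nat_lit 0) (XT.lf (nat_lit 0) (nat_lit 11701990384) (nat_lit 152) (nat_lit 98976893018) (nat_lit 76) (nat_lit 24294989922) (nat_lit 31) (nat_lit 5) (nat_lit 33) (nat_lit 5) (nat_lit 32) (nat_lit 5) (nat_lit 390) (nat_lit 343) (nat_lit 167)) (XT.lf (nat_lit 0) (nat_lit 38963200664) (nat_lit 152) (nat_lit 36629493865) (nat_lit 76) (nat_lit 64174570364) (nat_lit 31) (nat_lit 5) (nat_lit 33) (nat_lit 5) (nat_lit 32) (nat_lit 5) (nat_lit 391) (nat_lit 343) (nat_lit 166)))))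 (XT.nd (nat_lit 234) (nat_lit 228) (nat_lit 0) (XT.nd (nat_lit 78) (nat_lit 76) (nat_lit 0) (XT.lf (nat_lit 0) (nat_lit 29787501905) (nat_lit 152) (nat_lit 38264357966) (nat_lit 228) (nat_lit 76725247090) (nat_lit 29) (nat_lit 5) (nat_lit 31) (nat_lit 5) (nat_lit 32) (nat_lit 5) (nat_lit 392) (nat_lit 343) (nat_lit 165)) (XT.nd (nat_lit 78) (nat_lit 76) (nat_lit 0) (XT.lf (nat_lit 0) (nat_lit 99239314856) (nat_lit 228) (nat_lit 49235245781) (nat_lit 76) (nat_lit 1530662684) (nat_lit 29) (nat_lit 5) (nat_lit 32) (nat_lit 5) (nat_lit 30) (nat_lit 4) (nat_lit 393) (nat_lit 343) (nat_lit 164)) (XT.lf (nat_lit 0) (nat_lit 19812561381) (nat_lit 76) (nat_lit 113109556376) (nat_lit 152) (nat_lit 22525829293) (nat_lit 28) (nat_lit 5) (nat_lit 29) (nat_lit 5) (nat_lit 30) (nat_lit 4) (nat_lit 394) (nat_lit 343) (nat_lit 163)))) (XT.nd (nat_lit 78) (nat_lit 152) (nat_lit 0) (XT.lf (nat_lit 0) (nat_lit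 7745024966) (nat_lit 152) (nat_lit 67225065001) (nat_lit 76) (nat_lit 86144811453) (nat_lit 27) (nat_lit 5) (nat_lit 29) (nat_lit 5) (nat_lit 28) (nat_lit 5) (nat_lit 395) (nat_lit 343) (nat_lit 162)) (XT.nd (nat_lit 78) (nat_lit 0) (nat_lit 0) (XT.lf (nat_lit 0) (nat_lit 4375476860) (nat_lit 152) (nat_lit 34464637072) (nat_lit 228) (nat_lit 128203240672) (nat_lit 25) (nat_lit 5) (nat_lit 27) (nat_lit 5) (nat_lit 28) (nat_lit 5) (nat_lit 396) (nat_lit 343) (nat_lit 161)) (XT.lf (nat_lit 0) (nat_lit 72772443970) (nat_lit 228) (nat_lit 91467023019) (nat_lit 76) (nat_lit 8964639385) (nat_lit 25) (nat_lit 5) (nat_lit 28) (nat_lit 5) (nat_lit 26) (nat_lit 4) (nat_lit 397) (nat_lit 343) (nat_lit 160))))))) (XT.nd (nat_lit 858) (nat_lit 456) (nat_lit 0) (XT.nd (nat_lit 390) (nat_lit 228) (nat_lit 0) (XT.nd (nat_lit 156) (nat_lit 228) (nat_lit 0) (XT.nd (nat_lit 78) (nat_lit 76) (nat_lit 0) (XT.lf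 (nat_lit 0) (nat_lit 108965812767) (nat_lit 228) (nat_lit 17272136076) (nat_lit 76) (nat_lit 53406726019) (nat_lit 25) (nat_lit 5) (nat_lit 28) (nat_lit 5) (nat_lit 26) (nat_lit 4) (nat_lit 398) (nat_lit 343) (nat_lit 159)) (XT.lf (nat_lit 0) (nat_lit 62636279253) (nat_lit 76) (nat_lit 85309954041) (nat_lit 152) (nat_lit 38412169548) (nat_lit 24) (nat_lit 5) (nat_lit 25) (nat_lit 5) (nat_lit 26) (nat_lit 4) (nat_lit 399) (nat_lit 343) (nat_lit 158))) (XT.nd (nat_lit 78) (nat_lit 228) (nat_lit 0) (XT.lf (nat_lit 0) (nat_lit 147138812461) (nat_lit 76) (nat_lit 42028840866) (nat_lit 152) (nat_lit 4225565192) (nat_lit 24) (nat_lit 5) (nat_lit 25) (nat_lit 5) (nat_lit 26) (nat_lit 4) (nat_lit 400) (nat_lit 343) (nat_lit 157)) (XT.nd (nat_lit 78) (nat_lit 0) (nat_lit 0) (XT.lf (nat_lit 0) (nat_lit 31284711836) (nat_lit 228) (nat_lit 165062711312) (nat_lit 76) (nat_lit 4376229268) (nat_lit 21)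 (nat_lit 5) (nat_lit 24) (nat_lit 5) (nat_lit 22) (nat_lit 4) (nat_lit 401) (nat_lit 343) (nat_lit 156)) (XT.lf (nat_lit 0) (nat_lit 69913163283) (nat_lit 228) (nat_lit 85875576092) (nat_lit 76) (nat_lit 52554171882) (nat_lit 21) (nat_lit 5) (nat_lit 24) (nat_lit 5) (nat_lit 22) (nat_lit 4) (nat_lit 402) (nat_lit 343) (nat_lit 155))))) (XT.nd (nat_lit 234) (nat_lit 152) (nat_lit 0) (XT.nd (nat_lit 78) (nat_lit 76) (nat_lit 0) (XT.lf (nat_lit 0) (nat_lit 110472549183) (nat_lit 228) (nat_lit 2729968566) (nat_lit 76) (nat_lit 103140639880) (nat_lit 21) (nat_lit 5) (nat_lit 24) (nat_lit 5) (nat_lit 22) (nat_lit 4) (nat_lit 403) (nat_lit 343) (nat_lit 154)) (XT.nd (nat_lit 78) (nat_lit 0) (nat_lit 0) (XT.lf (nat_lit 0) (nat_lit 87368411801) (nat_lit 76) (nat_lit 67055093458) (nat_lit 152) (nat_lit 70251731189) (nat_lit 20) (nat_lit 5) (nat_lit 21) (nat_lit 5) (nat_lit 22) (nat_lit 4) (nat_lit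 404) (nat_lit 343) (nat_lit 153)) (XT.lf (nat_lit 0) (nat_lit 182065660780) (nat_lit 76) (nat_lit 18552126019) (nat_lit 152) (nat_lit 32803843690) (nat_lit 20) (nat_lit 5) (nat_lit 21) (nat_lit 5) (nat_lit 22) (nat_lit 4) (nat_lit 405) (nat_lit 343) (nat_lit 152)))) (XT.nd (nat_lit 78) (nat_lit 0) (nat_lit 0) (XT.lf (nat_lit 0) (nat_lit 7450472095) (nat_lit 152) (nat_lit 203013943041) (nat_lit 76) (nat_lit 32078712223) (nat_lit 18) (nat_lit 5) (nat_lit 20) (nat_lit 5) (nat_lit 19) (nat_lit 4) (nat_lit 406) (nat_lit 343) (nat_lit 151)) (XT.nd (nat_lit 78) (nat_lit 0) (nat_lit 0) (XT.lf (nat_lit 0) (nat_lit 49802770647) (nat_lit 152) (nat_lit 116192619189) (nat_lit 76) (nat_lit 86039036419) (nat_lit 18) (nat_lit 5) (nat_lit 20) (nat_lit 5) (nat_lit 19) (nat_lit 4) (nat_lit 407) (nat_lit 343) (nat_lit 150)) (XT.lf (nat_lit 0) (nat_lit 94272266811) (nat_lit 152) (nat_lit 25030997939) (nat_lit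 76) (nat_lit 142697046349) (nat_lit 18) (nat_lit 5) (nat_lit 20) (nat_lit 5) (nat_lit 19) (nat_lit 4) (nat_lit 408) (nat_lit 343) (nat_lit 149)))))) (XT.nd (nat_lit 468) (nat_lit 228) (nat_lit 0) (XT.nd (nat_lit 234) (nat_lit 152) (nat_lit 0) (XT.nd (nat_lit 78) (nat_lit 0) (nat_lit 0) (XT.lf (nat_lit 0) (nat_lit 73025235784) (nat_lit 76) (nat_lit 69079733139) (nat_lit 152) (nat_lit 130302534834) (nat_lit 17) (nat_lit 5) (nat_lit 18) (nat_lit 5) (nat_lit 19) (nat_lit 4) (nat_lit 409) (nat_lit 343) (nat_lit 148)) (XT.nd (nat_lit 78) (nat_lit 0) (nat_lit 0) (XT.lf (nat_lit 0) (nat_lit 176852580547) (nat_lit 76) (nat_lit 15900247891) (nat_lit 152) (nat_lit 90561051618) (nat_lit 17) (nat_lit 5) (nat_lit 18) (nat_lit 5) (nat_lit 19) (nat_lit 4) (nat_lit 410) (nat_lit 343) (nat_lit 147)) (XT.lf (nat_lit 0) (nat_lit 246556252219) (nat_lit 152) (nat_lit 9518529867) (nat_lit 0) (nat_lit 38659634637)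 (nat_lit 17) (nat_lit 5) (nat_lit 19) (nat_lit 4) (nat_lit 17) (nat_lit 4) (nat_lit 411) (nat_lit 343) (nat_lit 146)))) (XT.nd (nat_lit 78) (nat_lit 76) (nat_lit 0) (XT.lf (nat_lit 0) (nat_lit 95052319795) (nat_lit 76) (nat_lit 209741862080) (nat_lit 76) (nat_lit 1844581725) (nat_lit 16) (nat_lit 4) (nat_lit 17) (nat_lit 5) (nat_lit 17) (nat_lit 4) (nat_lit 412) (nat_lit 343) (nat_lit 145)) (XT.nd (nat_lit 78) (nat_lit 0) (nat_lit 0) (XT.lf (nat_lit 0) (nat_lit 45471092412) (nat_lit 152) (nat_lit 114682172122) (nat_lit 76) (nat_lit 158940350682) (nat_lit 15) (nat_lit 5) (nat_lit 17) (nat_lit 5) (nat_lit 16) (nat_lit 4) (nat_lit 413) (nat_lit 343) (nat_lit 144)) (XT.lf (nat_lit 0) (nat_lit 95090219973) (nat_lit 152) (nat_lit 12963561777) (nat_lit 76) (nat_lit 224115932819) (nat_lit 15) (nat_lit 5) (nat_lit 17) (nat_lit 5) (nat_lit 16) (nat_lit 4) (nat_lit 414) (nat_lit 343) (nat_lit 143)))))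 (XT.nd (nat_lit 234) (nat_lit 152) (nat_lit 0) (XT.nd (nat_lit 78) (nat_lit 0) (nat_lit 0) (XT.lf (nat_lit 0) (nat_lit 96943160030) (nat_lit 76) (nat_lit 51760374253) (nat_lit 152) (nat_lit 197120423179) (nat_lit 14) (nat_lit 5) (nat_lit 15) (nat_lit 5) (nat_lit 16) (nat_lit 4) (nat_lit 415) (nat_lit 343) (nat_lit 142)) (XT.nd (nat_lit 78) (nat_lit 0) (nat_lit 0) (XT.lf (nat_lit 0) (nat_lit 205335053581) (nat_lit 152) (nat_lit 147473576576) (nat_lit 0) (nat_lit 7335405468) (nat_lit 14) (nat_lit 5) (nat_lit 16) (nat_lit 4) (nat_lit 14) (nat_lit 4) (nat_lit 416) (nat_lit 343) (nat_lit 141)) (XT.lf (nat_lit 0) (nat_lit 265646372662) (nat_lit 152) (nat_lit 41845103949) (nat_lit 0) (nat_lit 67646229978) (nat_lit 14) (nat_lit 5) (nat_lit 16) (nat_lit 4) (nat_lit 14) (nat_lit 4) (nat_lit 417) (nat_lit 343) (nat_lit 140)))) (XT.nd (nat_lit 78) (nat_lit 76) (nat_lit 0) (XT.lf (nat_lit 0) (nat_lit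 71347817033) (nat_lit 76) (nat_lit 258739087748) (nat_lit 76) (nat_lit 60738474043) (nat_lit 13) (nat_lit 4) (nat_lit 14) (nat_lit 5) (nat_lit 14) (nat_lit 4) (nat_lit 418) (nat_lit 343) (nat_lit 139)) (XT.nd (nat_lit 78) (nat_lit 76) (nat_lit 0) (XT.lf (nat_lit 0) (nat_lit 191652609476) (nat_lit 76) (nat_lit 206805234279) (nat_lit 76) (nat_lit 8804171982) (nat_lit 13) (nat_lit 4) (nat_lit 14) (nat_lit 5) (nat_lit 14) (nat_lit 4) (nat_lit 419) (nat_lit 343) (nat_lit 138)) (XT.lf (nat_lit 0) (nat_lit 44263022840) (nat_lit 152) (nat_lit 107262292702) (nat_lit 76) (nat_lit 272959486695) (nat_lit 12) (nat_lit 5) (nat_lit 14) (nat_lit 5) (nat_lit 13) (nat_lit 4) (nat_lit 420) (nat_lit 343) (nat_lit 137))))))))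
noncomputable def xc205 : XT := (XT.nd (nat_lit 42198) (nat_lit 0) (nat_lit 2280) (XT.nd (nat_lit 41340) (nat_lit 0) (nat_lit 5472) (XT.nd (nat_lit 40872) (nat_lit 0) (nat_lit 6536) (XT.nd (nat_lit 156) (nat_lit 76) (nat_lit 0) (XT.nd (nat_lit 78) (nat_lit 0) (nat_lit 0) (XT.lf (nat_lit 0) (nat_lit 6567547871) (nat_lit 76) (nat_lit 93222424949) (nat_lit 152) (nat_lit 342766425109) (nat_lit 11) (nat_lit 5) (nat_lit 12) (nat_lit 5) (nat_lit 13) (nat_lit 4) (nat_lit 421) (nat_lit 343) (nat_lit 136)) (XT.lf (nat_lit 0) (nat_lit 129812292625) (nat_lit 76) (nat_lit 30097256910) (nat_lit 152) (nat_lit 301531209972) (nat_lit 11) (nat_lit 5) (nat_lit 12) (nat_lit 5) (nat_lit 13) (nat_lit 4) (nat_lit 422) (nat_lit 343) (nat_lit 135))) (XT.nd (nat_lit 78) (nat_lit 76) (nat_lit 0) (XT.lf (nat_lit 0) (nat_lit 223599790682) (nat_lit 152) (nat_lit 222615478794) (nat_lit 0) (nat_lit 35025835464) (nat_lit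 11) (nat_lit 5) (nat_lit 13) (nat_lit 4) (nat_lit 11) (nat_lit 4) (nat_lit 423) (nat_lit 343) (nat_lit 134)) (XT.nd (nat_lit 78) (nat_lit 76) (nat_lit 0) (XT.lf (nat_lit 0) (nat_lit 290967702785) (nat_lit 152) (nat_lit 108645694153) (nat_lit 0) (nat_lit 102393412820) (nat_lit 11) (nat_lit 5) (nat_lit 13) (nat_lit 4) (nat_lit 11) (nat_lit 4) (nat_lit 424) (nat_lit 343) (nat_lit 133)) (XT.lf (nat_lit 0) (nat_lit 11386588130) (nat_lit 76) (nat_lit 350494971526) (nat_lit 76) (nat_lit 161920362757) (nat_lit 10) (nat_lit 4) (nat_lit 11) (nat_lit 5) (nat_lit 11) (nat_lit 4) (nat_lit 425) (nat_lit 343) (nat_lit 132))))) (XT.nd (nat_lit 234) (nat_lit 0) (nat_lit 76) (XT.nd (nat_lit 78) (nat_lit 0) (nat_lit 0) (XT.lf (nat_lit 0) (nat_lit 451343819) (nat_lit 836) (nat_lit 8508245981) (nat_lit 836) (nat_lit 8508245981) (nat_lit 96) (nat_lit 3) (nat_lit 107) (nat_lit 3) (nat_lit 107) (nat_lit 5) (nat_lit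 344) (nat_lit 344) (nat_lit 212)) (XT.nd (nat_lit 78) (nat_lit 0) (nat_lit 76) (XT.lf (nat_lit 0) (nat_lit 977020960) (nat_lit 836) (nat_lit 651388346) (nat_lit 836) (nat_lit 34178001216) (nat_lit 96) (nat_lit 3) (nat_lit 107) (nat_lit 3) (nat_lit 107) (nat_lit 5) (nat_lit 345) (nat_lit 344) (nat_lit 211)) (XT.lf (nat_lit 0) (nat_lit 1564406943) (nat_lit 760) (nat_lit 19876765779) (nat_lit 836) (nat_lit 15254051038) (nat_lit 97) (nat_lit 5) (nat_lit 107) (nat_lit 5) (nat_lit 108) (nat_lit 5) (nat_lit 346) (nat_lit 344) (nat_lit 210)))) (XT.nd (nat_lit 78) (nat_lit 0) (nat_lit 76) (XT.lf (nat_lit 0) (nat_lit 2215910177) (nat_lit 760) (nat_lit 2472290457) (nat_lit 836) (nat_lit 32938543562) (nat_lit 97) (nat_lit 5) (nat_lit 107) (nat_lit 5) (nat_lit 108) (nat_lit 5) (nat_lit 347) (nat_lit 344) (nat_lit 209)) (XT.nd (nat_lit 78) (nat_lit 0) (nat_lit 0) (XT.lf (nat_lit 0) (nat_lit 3357467223)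 (nat_lit 760) (nat_lit 22474853347) (nat_lit 836) (nat_lit 12749649898) (nat_lit 98) (nat_lit 5) (nat_lit 108) (nat_lit 5) (nat_lit 109) (nat_lit 5) (nat_lit 348) (nat_lit 344) (nat_lit 208)) (XT.lf (nat_lit 0) (nat_lit 4672637341) (nat_lit 760) (nat_lit 3961024950) (nat_lit 836) (nat_lit 30945472569) (nat_lit 98) (nat_lit 5) (nat_lit 108) (nat_lit 5) (nat_lit 109) (nat_lit 5) (nat_lit 349) (nat_lit 344) (nat_lit 207)))))) (XT.nd (nat_lit 390) (nat_lit 1292) (nat_lit 0) (XT.nd (nat_lit 156) (nat_lit 0) (nat_lit 76) (XT.nd (nat_lit 78) (nat_lit 0) (nat_lit 0) (XT.lf (nat_lit 0) (nat_lit 6451705418) (nat_lit 760) (nat_lit 24776702719) (nat_lit 836) (nat_lit 9377845760) (nat_lit 99) (nat_lit 5) (nat_lit 109) (nat_lit 5) (nat_lit 110) (nat_lit 5) (nat_lit 350) (nat_lit 344) (nat_lit 206)) (XT.lf (nat_lit 0) (nat_lit 8526819240) (nat_lit 760) (nat_lit 5078806926) (nat_lit 836) (nat_lit 28068751339)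 (nat_lit 99) (nat_lit 5) (nat_lit 109) (nat_lit 5) (nat_lit 110) (nat_lit 5) (nat_lit 351) (nat_lit 344) (nat_lit 205))) (XT.nd (nat_lit 78) (nat_lit 0) (nat_lit 0) (XT.lf (nat_lit 0) (nat_lit 11035447125) (nat_lit 760) (nat_lit 26746081530) (nat_lit 836) (nat_lit 4997893801) (nat_lit 100) (nat_lit 5) (nat_lit 110) (nat_lit 5) (nat_lit 111) (nat_lit 5) (nat_lit 352) (nat_lit 344) (nat_lit 204)) (XT.nd (nat_lit 78) (nat_lit 0) (nat_lit 0) (XT.lf (nat_lit 0) (nat_lit 13977570829) (nat_lit 760) (nat_lit 5784430263) (nat_lit 836) (nat_lit 24162318277) (nat_lit 100) (nat_lit 5) (nat_lit 110) (nat_lit 5) (nat_lit 111) (nat_lit 5) (nat_lit 353) (nat_lit 344) (nat_lit 203)) (XT.lf (nat_lit 76) (nat_lit 16759838293) (nat_lit 0) (nat_lit 566344076) (nat_lit 836) (nat_lit 27787312472) (nat_lit 101) (nat_lit 5) (nat_lit 100) (nat_lit 5) (nat_lit 111) (nat_lit 5) (nat_lit 354) (nat_lit 344) (nat_lit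 202))))) (XT.nd (nat_lit 234) (nat_lit 684) (nat_lit 0) (XT.nd (nat_lit 78) (nat_lit 760) (nat_lit 0) (XT.lf (nat_lit 0) (nat_lit 21245432260) (nat_lit 760) (nat_lit 6034507816) (nat_lit 76) (nat_lit 19062031285) (nat_lit 101) (nat_lit 5) (nat_lit 111) (nat_lit 5) (nat_lit 102) (nat_lit 5) (nat_lit 355) (nat_lit 344) (nat_lit 201)) (XT.nd (nat_lit 78) (nat_lit 0) (nat_lit 0) (XT.lf (nat_lit 0) (nat_lit 17964408376) (nat_lit 760) (nat_lit 7683899192) (nat_lit 836) (nat_lit 21969183526) (nat_lit 91) (nat_lit 5) (nat_lit 101) (nat_lit 5) (nat_lit 102) (nat_lit 5) (nat_lit 356) (nat_lit 344) (nat_lit 200)) (XT.lf (nat_lit 0) (nat_lit 30574456239) (nat_lit 836) (nat_lit 5783811856) (nat_lit 76) (nat_lit 12583364656) (nat_lit 91) (nat_lit 5) (nat_lit 102) (nat_lit 5) (nat_lit 92) (nat_lit 5) (nat_lit 357) (nat_lit 344) (nat_lit 199)))) (XT.nd (nat_lit 78) (nat_lit 304) (nat_lit 0) (XT.lf (nat_lit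 0) (nat_lit 19784316743) (nat_lit 380) (nat_lit 16395523645) (nat_lit 456) (nat_lit 14130497000) (nat_lit 86) (nat_lit 5) (nat_lit 91) (nat_lit 5) (nat_lit 92) (nat_lit 5) (nat_lit 358) (nat_lit 344) (nat_lit 198)) (XT.nd (nat_lit 78) (nat_lit 304) (nat_lit 0) (XT.lf (nat_lit 0) (nat_lit 42234466657) (nat_lit 456) (nat_lit 4985738544) (nat_lit 76) (nat_lit 4518825601) (nat_lit 86) (nat_lit 5) (nat_lit 92) (nat_lit 5) (nat_lit 87) (nat_lit 5) (nat_lit 359) (nat_lit 344) (nat_lit 197)) (XT.lf (nat_lit 0) (nat_lit 22273844786) (nat_lit 304) (nat_lit 26932741822) (nat_lit 380) (nat_lit 4001836245) (nat_lit 82) (nat_lit 5) (nat_lit 86) (nat_lit 5) (nat_lit 87) (nat_lit 5) (nat_lit 360) (nat_lit 344) (nat_lit 196))))))) (XT.nd (nat_lit 858) (nat_lit 1292) (nat_lit 0) (XT.nd (nat_lit 390) (nat_lit 836) (nat_lit 0) (XT.nd (nat_lit 156) (nat_lit 608) (nat_lit 0) (XT.nd (nat_lit 78) (nat_lit 380)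 (nat_lit 0) (XT.lf (nat_lit 0) (nat_lit 1803256490) (nat_lit 380) (nat_lit 3708540817) (nat_lit 76) (nat_lit 49233899033) (nat_lit 81) (nat_lit 5) (nat_lit 86) (nat_lit 5) (nat_lit 82) (nat_lit 5) (nat_lit 361) (nat_lit 344) (nat_lit 195)) (XT.lf (nat_lit 0) (nat_lit 8435378168) (nat_lit 456) (nat_lit 30977576869) (nat_lit 76) (nat_lit 16910036960) (nat_lit 76) (nat_lit 5) (nat_lit 82) (nat_lit 5) (nat_lit 77) (nat_lit 5) (nat_lit 362) (nat_lit 344) (nat_lit 194))) (XT.nd (nat_lit 78) (nat_lit 608) (nat_lit 0) (XT.lf (nat_lit 0) (nat_lit 15551684200) (nat_lit 456) (nat_lit 2088406742) (nat_lit 76) (nat_lit 40331434298) (nat_lit 76) (nat_lit 5) (nat_lit 82) (nat_lit 5) (nat_lit 77) (nat_lit 5) (nat_lit 363) (nat_lit 344) (nat_lit 193)) (XT.nd (nat_lit 78) (nat_lit 304) (nat_lit 0) (XT.lf (nat_lit 0) (nat_lit 23566793451) (nat_lit 380) (nat_lit 30591435008) (nat_lit 76) (nat_lit 5517108923)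 (nat_lit 72) (nat_lit 5) (nat_lit 77) (nat_lit 5) (nat_lit 73) (nat_lit 5) (nat_lit 364) (nat_lit 344) (nat_lit 192)) (XT.lf (nat_lit 0) (nat_lit 137616788) (nat_lit 304) (nat_lit 32170825051) (nat_lit 380) (nat_lit 29139610667) (nat_lit 68) (nat_lit 5) (nat_lit 72) (nat_lit 5) (nat_lit 73) (nat_lit 5) (nat_lit 365) (nat_lit 344) (nat_lit 191))))) (XT.nd (nat_lit 234) (nat_lit 608) (nat_lit 0) (XT.nd (nat_lit 78) (nat_lit 228) (nat_lit 0) (XT.lf (nat_lit 0) (nat_lit 33463429356) (nat_lit 304) (nat_lit 8540373070) (nat_lit 380) (nat_lit 21279770953) (nat_lit 68) (nat_lit 5) (nat_lit 72) (nat_lit 5) (nat_lit 73) (nat_lit 5) (nat_lit 366) (nat_lit 344) (nat_lit 190)) (XT.nd (nat_lit 78) (nat_lit 0) (nat_lit 0) (XT.lf (nat_lit 0) (nat_lit 3087703106) (nat_lit 228) (nat_lit 49397094499) (nat_lit 304) (nat_lit 12711030774) (nat_lit 65) (nat_lit 5) (nat_lit 68) (nat_lit 5) (nat_lit 69) (nat_lit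 5) (nat_lit 367) (nat_lit 344) (nat_lit 189)) (XT.lf (nat_lit 0) (nat_lit 38529883735) (nat_lit 228) (nat_lit 25601378191) (nat_lit 304) (nat_lit 3040364578) (nat_lit 65) (nat_lit 5) (nat_lit 68) (nat_lit 5) (nat_lit 69) (nat_lit 5) (nat_lit 368) (nat_lit 344) (nat_lit 188)))) (XT.nd (nat_lit 78) (nat_lit 228) (nat_lit 0) (XT.lf (nat_lit 0) (nat_lit 6596341639) (nat_lit 304) (nat_lit 391488261) (nat_lit 380) (nat_lit 62247748405) (nat_lit 60) (nat_lit 5) (nat_lit 64) (nat_lit 5) (nat_lit 65) (nat_lit 5) (nat_lit 369) (nat_lit 344) (nat_lit 187)) (XT.nd (nat_lit 78) (nat_lit 228) (nat_lit 0) (XT.lf (nat_lit 0) (nat_lit 18314161441) (nat_lit 380) (nat_lit 27254432366) (nat_lit 76) (nat_lit 25786697774) (nat_lit 60) (nat_lit 5) (nat_lit 65) (nat_lit 5) (nat_lit 61) (nat_lit 5) (nat_lit 370) (nat_lit 344) (nat_lit 186)) (XT.lf (nat_lit 0) (nat_lit 10218629380) (nat_lit 228) (nat_lit 20152925424)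 (nat_lit 304) (nat_lit 43201199558) (nat_lit 57) (nat_lit 5) (nat_lit 60) (nat_lit 5) (nat_lit 61) (nat_lit 5) (nat_lit 371) (nat_lit 344) (nat_lit 185)))))) (XT.nd (nat_lit 468) (nat_lit 608) (nat_lit 0) (XT.nd (nat_lit 234) (nat_lit 456) (nat_lit 0) (XT.nd (nat_lit 78) (nat_lit 228) (nat_lit 0) (XT.lf (nat_lit 0) (nat_lit 43601770462) (nat_lit 304) (nat_lit 25477680973) (nat_lit 76) (nat_lit 6793142270) (nat_lit 57) (nat_lit 5) (nat_lit 61) (nat_lit 5) (nat_lit 58) (nat_lit 5) (nat_lit 372) (nat_lit 344) (nat_lit 184)) (XT.nd (nat_lit 78) (nat_lit 0) (nat_lit 0) (XT.lf (nat_lit 0) (nat_lit 14422237484) (nat_lit 228) (nat_lit 43625675645) (nat_lit 304) (nat_lit 20211792079) (nat_lit 54) (nat_lit 5) (nat_lit 57) (nat_lit 5) (nat_lit 58) (nat_lit 5) (nat_lit 373) (nat_lit 344) (nat_lit 183)) (XT.lf (nat_lit 0) (nat_lit 57200131205) (nat_lit 228) (nat_lit 16446607126) (nat_lit 304) (nat_lit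 7097916140) (nat_lit 54) (nat_lit 5) (nat_lit 57) (nat_lit 5) (nat_lit 58) (nat_lit 5) (nat_lit 374) (nat_lit 344) (nat_lit 182)))) (XT.nd (nat_lit 78) (nat_lit 228) (nat_lit 0) (XT.lf (nat_lit 0) (nat_lit 6953392400) (nat_lit 228) (nat_lit 64254773434) (nat_lit 76) (nat_lit 12115714402) (nat_lit 51) (nat_lit 5) (nat_lit 54) (nat_lit 5) (nat_lit 52) (nat_lit 5) (nat_lit 375) (nat_lit 344) (nat_lit 181)) (XT.nd (nat_lit 78) (nat_lit 228) (nat_lit 0) (XT.lf (nat_lit 0) (nat_lit 22142574486) (nat_lit 228) (nat_lit 21775343908) (nat_lit 76) (nat_lit 42074639523) (nat_lit 51) (nat_lit 5) (nat_lit 54) (nat_lit 5) (nat_lit 52) (nat_lit 5) (nat_lit 376) (nat_lit 344) (nat_lit 180)) (XT.lf (nat_lit 0) (nat_lit 23581348370) (nat_lit 228) (nat_lit 14877041623) (nat_lit 304) (nat_lit 50317921559) (nat_lit 48) (nat_lit 5) (nat_lit 51) (nat_lit 5) (nat_lit 52) (nat_lit 5) (nat_lit 377) (nat_lit 344)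 (nat_lit 179))))) (XT.nd (nat_lit 234) (nat_lit 456) (nat_lit 0) (XT.nd (nat_lit 78) (nat_lit 152) (nat_lit 0) (XT.lf (nat_lit 0) (nat_lit 56207646586) (nat_lit 304) (nat_lit 19970278867) (nat_lit 76) (nat_lit 15490445650) (nat_lit 48) (nat_lit 5) (nat_lit 52) (nat_lit 5) (nat_lit 49) (nat_lit 5) (nat_lit 378) (nat_lit 344) (nat_lit 178)) (XT.nd (nat_lit 78) (nat_lit 0) (nat_lit 0) (XT.lf (nat_lit 0) (nat_lit 28172027222) (nat_lit 152) (nat_lit 47355136803) (nat_lit 228) (nat_lit 19143730418) (nat_lit 46) (nat_lit 5) (nat_lit 48) (nat_lit 5) (nat_lit 49) (nat_lit 5) (nat_lit 379) (nat_lit 344) (nat_lit 177)) (XT.lf (nat_lit 0) (nat_lit 79413386983) (nat_lit 152) (nat_lit 16736567255) (nat_lit 228) (nat_lit 1656725547) (nat_lit 46) (nat_lit 5) (nat_lit 48) (nat_lit 5) (nat_lit 49) (nat_lit 5) (nat_lit 380) (nat_lit 344) (nat_lit 176)))) (XT.nd (nat_lit 78) (nat_lit 152) (nat_lit 0) (XT.lf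 (nat_lit 0) (nat_lit 16936223167) (nat_lit 304) (nat_lit 68405209663) (nat_lit 76) (nat_lit 15706469572) (nat_lit 42) (nat_lit 5) (nat_lit 46) (nat_lit 5) (nat_lit 43) (nat_lit 5) (nat_lit 381) (nat_lit 344) (nat_lit 175)) (XT.nd (nat_lit 78) (nat_lit 152) (nat_lit 0) (XT.lf (nat_lit 0) (nat_lit 36993251284) (nat_lit 304) (nat_lit 17874558934) (nat_lit 76) (nat_lit 49552513107) (nat_lit 42) (nat_lit 5) (nat_lit 46) (nat_lit 5) (nat_lit 43) (nat_lit 5) (nat_lit 382) (nat_lit 344) (nat_lit 174)) (XT.lf (nat_lit 0) (nat_lit 36344579799) (nat_lit 152) (nat_lit 22275166033) (nat_lit 228) (nat_lit 49313289269) (nat_lit 40) (nat_lit 5) (nat_lit 42) (nat_lit 5) (nat_lit 43) (nat_lit 5) (nat_lit 383) (nat_lit 344) (nat_lit 173))))))))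
noncomputable def xc206 : XT := (XT.nd (nat_lit 1716) (nat_lit 684) (nat_lit 0) (XT.nd (nat_lit 858) (nat_lit 684) (nat_lit 0) (XT.nd (nat_lit 390) (nat_lit 456) (nat_lit 0) (XT.nd (nat_lit 156) (nat_lit 228) (nat_lit 0) (XT.nd (nat_lit 78) (nat_lit 152) (nat_lit 0) (XT.lf (nat_lit 0) (nat_lit 81820956125) (nat_lit 228) (nat_lit 17903807987) (nat_lit 76) (nat_lit 11871949335) (nat_lit 40) (nat_lit 5) (nat_lit 43) (nat_lit 5) (nat_lit 41) (nat_lit 5) (nat_lit 384) (nat_lit 344) (nat_lit 172)) (XT.lf (nat_lit 0) (nat_lit 39358370477) (nat_lit 152) (nat_lit 67802742633) (nat_lit 228) (nat_lit 8233518798) (nat_lit 38) (nat_lit 5) (nat_lit 40) (nat_lit 5) (nat_lit 41) (nat_lit 5) (nat_lit 385) (nat_lit 344) (nat_lit 171))) (XT.nd (nat_lit 78) (nat_lit 152) (nat_lit 0) (XT.lf (nat_lit 0) (nat_lit 14232805402) (nat_lit 228) (nat_lit 19492875963) (nat_lit 76) (nat_lit 85630164720) (nat_lit 37)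 (nat_lit 5) (nat_lit 40) (nat_lit 5) (nat_lit 38) (nat_lit 5) (nat_lit 386) (nat_lit 344) (nat_lit 170)) (XT.nd (nat_lit 78) (nat_lit 0) (nat_lit 0) (XT.lf (nat_lit 0) (nat_lit 38230805779) (nat_lit 228) (nat_lit 82465618696) (nat_lit 76) (nat_lit 2777695138) (nat_lit 35) (nat_lit 5) (nat_lit 38) (nat_lit 5) (nat_lit 36) (nat_lit 5) (nat_lit 387) (nat_lit 344) (nat_lit 169)) (XT.lf (nat_lit 0) (nat_lit 64316395309) (nat_lit 228) (nat_lit 23129601452) (nat_lit 76) (nat_lit 40307926015) (nat_lit 35) (nat_lit 5) (nat_lit 38) (nat_lit 5) (nat_lit 36) (nat_lit 5) (nat_lit 388) (nat_lit 344) (nat_lit 168))))) (XT.nd (nat_lit 234) (nat_lit 152) (nat_lit 0) (XT.nd (nat_lit 78) (nat_lit 152) (nat_lit 0) (XT.lf (nat_lit 0) (nat_lit 40467275395) (nat_lit 152) (nat_lit 51870106976) (nat_lit 228) (nat_lit 39878778223) (nat_lit 33) (nat_lit 5) (nat_lit 35) (nat_lit 5) (nat_lit 36) (nat_lit 5) (nat_lit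 389) (nat_lit 344) (nat_lit 167)) (XT.nd (nat_lit 78) (nat_lit 152) (nat_lit 0) (XT.lf (nat_lit 0) (nat_lit 108045875325) (nat_lit 152) (nat_lit 14104580152) (nat_lit 228) (nat_lit 14731503370) (nat_lit 33) (nat_lit 5) (nat_lit 35) (nat_lit 5) (nat_lit 36) (nat_lit 5) (nat_lit 390) (nat_lit 344) (nat_lit 166)) (XT.lf (nat_lit 0) (nat_lit 12307941595) (nat_lit 152) (nat_lit 103890078209) (nat_lit 76) (nat_lit 25523494052) (nat_lit 31) (nat_lit 5) (nat_lit 33) (nat_lit 5) (nat_lit 32) (nat_lit 5) (nat_lit 391) (nat_lit 344) (nat_lit 165)))) (XT.nd (nat_lit 78) (nat_lit 152) (nat_lit 0) (XT.lf (nat_lit 0) (nat_lit 40931219451) (nat_lit 152) (nat_lit 38427007168) (nat_lit 76) (nat_lit 67396398533) (nat_lit 31) (nat_lit 5) (nat_lit 33) (nat_lit 5) (nat_lit 32) (nat_lit 5) (nat_lit 392) (nat_lit 344) (nat_lit 164)) (XT.nd (nat_lit 78) (nat_lit 0) (nat_lit 0) (XT.lf (nat_lit 0) (nat_lit 31310290626)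 (nat_lit 152) (nat_lit 40163597018) (nat_lit 228) (nat_lit 80541093358) (nat_lit 29) (nat_lit 5) (nat_lit 31) (nat_lit 5) (nat_lit 32) (nat_lit 5) (nat_lit 393) (nat_lit 344) (nat_lit 163)) (XT.lf (nat_lit 0) (nat_lit 104219997768) (nat_lit 228) (nat_lit 51664458846) (nat_lit 76) (nat_lit 1620082900) (nat_lit 29) (nat_lit 5) (nat_lit 32) (nat_lit 5) (nat_lit 30) (nat_lit 4) (nat_lit 394) (nat_lit 344) (nat_lit 162)))))) (XT.nd (nat_lit 390) (nat_lit 380) (nat_lit 0) (XT.nd (nat_lit 156) (nat_lit 152) (nat_lit 0) (XT.nd (nat_lit 78) (nat_lit 76) (nat_lit 0) (XT.lf (nat_lit 0) (nat_lit 20835213686) (nat_lit 76) (nat_lit 118751335823) (nat_lit 152) (nat_lit 23632869921) (nat_lit 28) (nat_lit 5) (nat_lit 29) (nat_lit 5) (nat_lit 30) (nat_lit 4) (nat_lit 395) (nat_lit 344) (nat_lit 161)) (XT.lf (nat_lit 0) (nat_lit 8150023537) (nat_lit 152) (nat_lit 70555224299) (nat_lit 76) (nat_lit 90464503416)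 (nat_lit 27) (nat_lit 5) (nat_lit 29) (nat_lit 5) (nat_lit 28) (nat_lit 5) (nat_lit 396) (nat_lit 344) (nat_lit 160))) (XT.nd (nat_lit 78) (nat_lit 0) (nat_lit 0) (XT.lf (nat_lit 0) (nat_lit 4624843140) (nat_lit 152) (nat_lit 36174656336) (nat_lit 228) (nat_lit 134595146369) (nat_lit 25) (nat_lit 5) (nat_lit 27) (nat_lit 5) (nat_lit 28) (nat_lit 5) (nat_lit 397) (nat_lit 344) (nat_lit 159)) (XT.nd (nat_lit 78) (nat_lit 0) (nat_lit 0) (XT.lf (nat_lit 0) (nat_lit 76427814866) (nat_lit 228) (nat_lit 96010600226) (nat_lit 76) (nat_lit 9425052025) (nat_lit 25) (nat_lit 5) (nat_lit 28) (nat_lit 5) (nat_lit 26) (nat_lit 4) (nat_lit 398) (nat_lit 344) (nat_lit 158)) (XT.lf (nat_lit 0) (nat_lit 114430054545) (nat_lit 228) (nat_lit 18107386743) (nat_lit 76) (nat_lit 56088662959) (nat_lit 25) (nat_lit 5) (nat_lit 28) (nat_lit 5) (nat_lit 26) (nat_lit 4) (nat_lit 399) (nat_lit 344) (nat_lit 157)))))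 (XT.nd (nat_lit 234) (nat_lit 76) (nat_lit 0) (XT.nd (nat_lit 78) (nat_lit 228) (nat_lit 0) (XT.lf (nat_lit 0) (nat_lit 65795991996) (nat_lit 76) (nat_lit 89563180103) (nat_lit 152) (nat_lit 40316363052) (nat_lit 24) (nat_lit 5) (nat_lit 25) (nat_lit 5) (nat_lit 26) (nat_lit 4) (nat_lit 400) (nat_lit 344) (nat_lit 156)) (XT.nd (nat_lit 78) (nat_lit 228) (nat_lit 0) (XT.lf (nat_lit 0) (nat_lit 154522323351) (nat_lit 76) (nat_lit 44118595633) (nat_lit 152) (nat_lit 4421210143) (nat_lit 24) (nat_lit 5) (nat_lit 25) (nat_lit 5) (nat_lit 26) (nat_lit 4) (nat_lit 401) (nat_lit 344) (nat_lit 155)) (XT.lf (nat_lit 0) (nat_lit 32863960090) (nat_lit 228) (nat_lit 173288644494) (nat_lit 76) (nat_lit 4606474225) (nat_lit 21) (nat_lit 5) (nat_lit 24) (nat_lit 5) (nat_lit 22) (nat_lit 4) (nat_lit 402) (nat_lit 344) (nat_lit 154)))) (XT.nd (nat_lit 78) (nat_lit 76) (nat_lit 0) (XT.lf (nat_lit 0) (nat_lit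 73423119221) (nat_lit 228) (nat_lit 90143447865) (nat_lit 76) (nat_lit 55192769518) (nat_lit 21) (nat_lit 5) (nat_lit 24) (nat_lit 5) (nat_lit 22) (nat_lit 4) (nat_lit 403) (nat_lit 344) (nat_lit 153)) (XT.nd (nat_lit 78) (nat_lit 76) (nat_lit 0) (XT.lf (nat_lit 0) (nat_lit 116009793569) (nat_lit 228) (nat_lit 2841793631) (nat_lit 76) (nat_lit 108308042389) (nat_lit 21) (nat_lit 5) (nat_lit 24) (nat_lit 5) (nat_lit 22) (nat_lit 4) (nat_lit 404) (nat_lit 344) (nat_lit 152)) (XT.lf (nat_lit 0) (nat_lit 91761107798) (nat_lit 76) (nat_lit 70396920233) (nat_lit 152) (nat_lit 73750298031) (nat_lit 20) (nat_lit 5) (nat_lit 21) (nat_lit 5) (nat_lit 22) (nat_lit 4) (nat_lit 405) (nat_lit 344) (nat_lit 151))))))) (XT.nd (nat_lit 858) (nat_lit 228) (nat_lit 0) (XT.nd (nat_lit 390) (nat_lit 228) (nat_lit 0) (XT.nd (nat_lit 156) (nat_lit 76) (nat_lit 0) (XT.nd (nat_lit 78) (nat_lit 152) (nat_lit 0)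 (XT.lf (nat_lit 0) (nat_lit 191192063254) (nat_lit 76) (nat_lit 19469324799) (nat_lit 152) (nat_lit 34430683763) (nat_lit 20) (nat_lit 5) (nat_lit 21) (nat_lit 5) (nat_lit 22) (nat_lit 4) (nat_lit 406) (nat_lit 344) (nat_lit 150)) (XT.lf (nat_lit 0) (nat_lit 7835830703) (nat_lit 152) (nat_lit 213140995091) (nat_lit 76) (nat_lit 33692812007) (nat_lit 18) (nat_lit 5) (nat_lit 20) (nat_lit 5) (nat_lit 19) (nat_lit 4) (nat_lit 407) (nat_lit 344) (nat_lit 149))) (XT.nd (nat_lit 78) (nat_lit 76) (nat_lit 0) (XT.lf (nat_lit 0) (nat_lit 52305132992) (nat_lit 152) (nat_lit 121979731004) (nat_lit 76) (nat_lit 90350668405) (nat_lit 18) (nat_lit 5) (nat_lit 20) (nat_lit 5) (nat_lit 19) (nat_lit 4) (nat_lit 408) (nat_lit 344) (nat_lit 148)) (XT.nd (nat_lit 78) (nat_lit 76) (nat_lit 0) (XT.lf (nat_lit 0) (nat_lit 98997521878) (nat_lit 152) (nat_lit 26261101032) (nat_lit 76) (nat_lit 149841117871) (nat_lit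 18) (nat_lit 5) (nat_lit 20) (nat_lit 5) (nat_lit 19) (nat_lit 4) (nat_lit 409) (nat_lit 344) (nat_lit 147)) (XT.lf (nat_lit 0) (nat_lit 76697598462) (nat_lit 76) (nat_lit 72524035710) (nat_lit 152) (nat_lit 136805670326) (nat_lit 17) (nat_lit 5) (nat_lit 18) (nat_lit 5) (nat_lit 19) (nat_lit 4) (nat_lit 410) (nat_lit 344) (nat_lit 146))))) (XT.nd (nat_lit 234) (nat_lit 152) (nat_lit 0) (XT.nd (nat_lit 78) (nat_lit 76) (nat_lit 0) (XT.lf (nat_lit 0) (nat_lit 185715305658) (nat_lit 76) (nat_lit 16686037347) (nat_lit 152) (nat_lit 95077683962) (nat_lit 17) (nat_lit 5) (nat_lit 18) (nat_lit 5) (nat_lit 19) (nat_lit 4) (nat_lit 411) (nat_lit 344) (nat_lit 145)) (XT.nd (nat_lit 78) (nat_lit 76) (nat_lit 0) (XT.lf (nat_lit 0) (nat_lit 258894557345) (nat_lit 152) (nat_lit 9974933332) (nat_lit 0) (nat_lit 40601118985) (nat_lit 17) (nat_lit 5) (nat_lit 19) (nat_lit 4) (nat_lit 17) (nat_lit 4) (nat_lit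 412) (nat_lit 344) (nat_lit 144)) (XT.lf (nat_lit 0) (nat_lit 99824143926) (nat_lit 76) (nat_lit 220220039808) (nat_lit 76) (nat_lit 1926000293) (nat_lit 16) (nat_lit 4) (nat_lit 17) (nat_lit 5) (nat_lit 17) (nat_lit 4) (nat_lit 413) (nat_lit 344) (nat_lit 143)))) (XT.nd (nat_lit 78) (nat_lit 76) (nat_lit 0) (XT.lf (nat_lit 0) (nat_lit 47754613237) (nat_lit 152) (nat_lit 120397654907) (nat_lit 76) (nat_lit 166895526697) (nat_lit 15) (nat_lit 5) (nat_lit 17) (nat_lit 5) (nat_lit 16) (nat_lit 4) (nat_lit 414) (nat_lit 344) (nat_lit 142)) (XT.nd (nat_lit 78) (nat_lit 76) (nat_lit 0) (XT.lf (nat_lit 0) (nat_lit 99854222595) (nat_lit 152) (nat_lit 13594000988) (nat_lit 76) (nat_lit 235329499442) (nat_lit 15) (nat_lit 5) (nat_lit 17) (nat_lit 5) (nat_lit 16) (nat_lit 4) (nat_lit 415) (nat_lit 344) (nat_lit 141)) (XT.lf (nat_lit 0) (nat_lit 101807770798) (nat_lit 76) (nat_lit 54340252327) (nat_lit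 152) (nat_lit 206966664041) (nat_lit 14) (nat_lit 5) (nat_lit 15) (nat_lit 5) (nat_lit 16) (nat_lit 4) (nat_lit 416) (nat_lit 344) (nat_lit 140)))))) (XT.nd (nat_lit 468) (nat_lit 0) (nat_lit 0) (XT.nd (nat_lit 234) (nat_lit 152) (nat_lit 0) (XT.nd (nat_lit 78) (nat_lit 76) (nat_lit 0) (XT.lf (nat_lit 0) (nat_lit 215610795999) (nat_lit 152) (nat_lit 154830308893) (nat_lit 0) (nat_lit 7709680587) (nat_lit 14) (nat_lit 5) (nat_lit 16) (nat_lit 4) (nat_lit 14) (nat_lit 4) (nat_lit 417) (nat_lit 344) (nat_lit 139)) (XT.nd (nat_lit 78) (nat_lit 76) (nat_lit 0) (XT.lf (nat_lit 0) (nat_lit 278937252951) (nat_lit 152) (nat_lit 43921219611) (nat_lit 0) (nat_lit 71035688948) (nat_lit 14) (nat_lit 5) (nat_lit 16) (nat_lit 4) (nat_lit 14) (nat_lit 4) (nat_lit 418) (nat_lit 344) (nat_lit 138)) (XT.lf (nat_lit 0) (nat_lit 74931087105) (nat_lit 76) (nat_lit 271668564793) (nat_lit 76) (nat_lit 63766573560)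 (nat_lit 13) (nat_lit 4) (nat_lit 14) (nat_lit 5) (nat_lit 14) (nat_lit 4) (nat_lit 419) (nat_lit 344) (nat_lit 137)))) (XT.nd (nat_lit 78) (nat_lit 152) (nat_lit 0) (XT.lf (nat_lit 0) (nat_lit 201250363017) (nat_lit 76) (nat_lit 217138374713) (nat_lit 76) (nat_lit 9235976595) (nat_lit 13) (nat_lit 4) (nat_lit 14) (nat_lit 5) (nat_lit 14) (nat_lit 4) (nat_lit 420) (nat_lit 344) (nat_lit 136)) (XT.nd (nat_lit 78) (nat_lit 76) (nat_lit 0) (XT.lf (nat_lit 0) (nat_lit 46483921607) (nat_lit 152) (nat_lit 112610746333) (nat_lit 76) (nat_lit 286613985117) (nat_lit 12) (nat_lit 5) (nat_lit 14) (nat_lit 5) (nat_lit 13) (nat_lit 4) (nat_lit 421) (nat_lit 344) (nat_lit 135)) (XT.lf (nat_lit 0) (nat_lit 6910349802) (nat_lit 76) (nat_lit 97876725557) (nat_lit 152) (nat_lit 359896760451) (nat_lit 11) (nat_lit 5) (nat_lit 12) (nat_lit 5) (nat_lit 13) (nat_lit 4) (nat_lit 422) (nat_lit 344) (nat_lit 134)))))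 (XT.nd (nat_lit 40872) (nat_lit 0) (nat_lit 6460) (XT.nd (nat_lit 78) (nat_lit 0) (nat_lit 0) (XT.lf (nat_lit 0) (nat_lit 136316644910) (nat_lit 76) (nat_lit 31595623908) (nat_lit 152) (nat_lit 316600164838) (nat_lit 11) (nat_lit 5) (nat_lit 12) (nat_lit 5) (nat_lit 13) (nat_lit 4) (nat_lit 423) (nat_lit 344) (nat_lit 133)) (XT.nd (nat_lit 40716) (nat_lit 0) (nat_lit 6460) (XT.lf (nat_lit 0) (nat_lit 234786773765) (nat_lit 152) (nat_lit 233732919342) (nat_lit 0) (nat_lit 36783115751) (nat_lit 11) (nat_lit 5) (nat_lit 13) (nat_lit 4) (nat_lit 11) (nat_lit 4) (nat_lit 424) (nat_lit 344) (nat_lit 132)) (XT.lf (nat_lit 0) (nat_lit 524868927) (nat_lit 836) (nat_lit 8906873616) (nat_lit 836) (nat_lit 8906873616) (nat_lit 96) (nat_lit 3) (nat_lit 107) (nat_lit 3) (nat_lit 107) (nat_lit 5) (nat_lit 345) (nat_lit 345) (nat_lit 210)))) (XT.nd (nat_lit 78) (nat_lit 0) (nat_lit 76) (XT.lf (nat_lit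 0) (nat_lit 1122934708) (nat_lit 836) (nat_lit 632939355) (nat_lit 836) (nat_lit 35835882869) (nat_lit 96) (nat_lit 3) (nat_lit 107) (nat_lit 3) (nat_lit 107) (nat_lit 5) (nat_lit 346) (nat_lit 345) (nat_lit 209)) (XT.nd (nat_lit 78) (nat_lit 0) (nat_lit 0) (XT.lf (nat_lit 0) (nat_lit 1735179849) (nat_lit 760) (nat_lit 20814960297) (nat_lit 836) (nat_lit 15975101953) (nat_lit 97) (nat_lit 5) (nat_lit 107) (nat_lit 5) (nat_lit 108) (nat_lit 5) (nat_lit 347) (nat_lit 345) (nat_lit 208)) (XT.lf (nat_lit 0) (nat_lit 2414850980) (nat_lit 760) (nat_lit 2542910912) (nat_lit 836) (nat_lit 34545802515) (nat_lit 97) (nat_lit 5) (nat_lit 107) (nat_lit 5) (nat_lit 108) (nat_lit 5) (nat_lit 348) (nat_lit 345) (nat_lit 207))))))))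
noncomputable def xc207 : XT := (XT.nd (nat_lit 1794) (nat_lit 2356) (nat_lit 0) (XT.nd (nat_lit 858) (nat_lit 1976) (nat_lit 0) (XT.nd (nat_lit 390) (nat_lit 912) (nat_lit 0) (XT.nd (nat_lit 156) (nat_lit 0) (nat_lit 76) (XT.nd (nat_lit 78) (nat_lit 0) (nat_lit 0) (XT.lf (nat_lit 0) (nat_lit 3609593194) (nat_lit 760) (nat_lit 23541604753) (nat_lit 836) (nat_lit 13355553905) (nat_lit 98) (nat_lit 5) (nat_lit 108) (nat_lit 5) (nat_lit 109) (nat_lit 5) (nat_lit 349) (nat_lit 345) (nat_lit 206)) (XT.lf (nat_lit 0) (nat_lit 4986509788) (nat_lit 760) (nat_lit 4104798806) (nat_lit 836) (nat_lit 32462671447) (nat_lit 98) (nat_lit 5) (nat_lit 108) (nat_lit 5) (nat_lit 109) (nat_lit 5) (nat_lit 350) (nat_lit 345) (nat_lit 205))) (XT.nd (nat_lit 78) (nat_lit 0) (nat_lit 0) (XT.lf (nat_lit 0) (nat_lit 6851171656) (nat_lit 760) (nat_lit 25957806057) (nat_lit 836) (nat_lit 9823650037) (nat_lit 99) (nat_lit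 5) (nat_lit 109) (nat_lit 5) (nat_lit 110) (nat_lit 5) (nat_lit 351) (nat_lit 345) (nat_lit 204)) (XT.nd (nat_lit 78) (nat_lit 0) (nat_lit 76) (XT.lf (nat_lit 0) (nat_lit 9026380170) (nat_lit 760) (nat_lit 5277764607) (nat_lit 836) (nat_lit 29450200324) (nat_lit 99) (nat_lit 5) (nat_lit 109) (nat_lit 5) (nat_lit 110) (nat_lit 5) (nat_lit 352) (nat_lit 345) (nat_lit 203)) (XT.lf (nat_lit 0) (nat_lit 11657540042) (nat_lit 760) (nat_lit 28025417553) (nat_lit 836) (nat_lit 5231833975) (nat_lit 100) (nat_lit 5) (nat_lit 110) (nat_lit 5) (nat_lit 111) (nat_lit 5) (nat_lit 353) (nat_lit 345) (nat_lit 202))))) (XT.nd (nat_lit 234) (nat_lit 1064) (nat_lit 0) (XT.nd (nat_lit 78) (nat_lit 0) (nat_lit 0) (XT.lf (nat_lit 0) (nat_lit 14743421333) (nat_lit 760) (nat_lit 6018444106) (nat_lit 836) (nat_lit 25355239414) (nat_lit 100) (nat_lit 5) (nat_lit 110) (nat_lit 5) (nat_lit 111) (nat_lit 5) (nat_lit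 354) (nat_lit 345) (nat_lit 201)) (XT.nd (nat_lit 78) (nat_lit 0) (nat_lit 76) (XT.lf (nat_lit 76) (nat_lit 17652147431) (nat_lit 0) (nat_lit 604974921) (nat_lit 836) (nat_lit 29108737701) (nat_lit 101) (nat_lit 5) (nat_lit 100) (nat_lit 5) (nat_lit 111) (nat_lit 5) (nat_lit 355) (nat_lit 345) (nat_lit 200)) (XT.lf (nat_lit 0) (nat_lit 22369103720) (nat_lit 760) (nat_lit 6281197228) (nat_lit 76) (nat_lit 20005624715) (nat_lit 101) (nat_lit 5) (nat_lit 111) (nat_lit 5) (nat_lit 102) (nat_lit 5) (nat_lit 356) (nat_lit 345) (nat_lit 199)))) (XT.nd (nat_lit 78) (nat_lit 380) (nat_lit 0) (XT.lf (nat_lit 0) (nat_lit 18916777097) (nat_lit 760) (nat_lit 8073267302) (nat_lit 836) (nat_lit 23005284442) (nat_lit 91) (nat_lit 5) (nat_lit 101) (nat_lit 5) (nat_lit 102) (nat_lit 5) (nat_lit 357) (nat_lit 345) (nat_lit 198)) (XT.nd (nat_lit 78) (nat_lit 380) (nat_lit 0) (XT.lf (nat_lit 0) (nat_lit 32159598751)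 (nat_lit 836) (nat_lit 6018463518) (nat_lit 76) (nat_lit 13207763767) (nat_lit 91) (nat_lit 5) (nat_lit 102) (nat_lit 5) (nat_lit 92) (nat_lit 5) (nat_lit 358) (nat_lit 345) (nat_lit 197)) (XT.lf (nat_lit 0) (nat_lit 20827191851) (nat_lit 380) (nat_lit 17216211375) (nat_lit 456) (nat_lit 14779658330) (nat_lit 86) (nat_lit 5) (nat_lit 91) (nat_lit 5) (nat_lit 92) (nat_lit 5) (nat_lit 359) (nat_lit 345) (nat_lit 196)))))) (XT.nd (nat_lit 468) (nat_lit 912) (nat_lit 0) (XT.nd (nat_lit 234) (nat_lit 684) (nat_lit 0) (XT.nd (nat_lit 78) (nat_lit 380) (nat_lit 0) (XT.lf (nat_lit 0) (nat_lit 44398148645) (nat_lit 456) (nat_lit 5181248134) (nat_lit 76) (nat_lit 4743926525) (nat_lit 86) (nat_lit 5) (nat_lit 92) (nat_lit 5) (nat_lit 87) (nat_lit 5) (nat_lit 360) (nat_lit 345) (nat_lit 195)) (XT.nd (nat_lit 78) (nat_lit 76) (nat_lit 0) (XT.lf (nat_lit 0) (nat_lit 23440446986) (nat_lit 304) (nat_lit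 28276779459) (nat_lit 380) (nat_lit 4149043831) (nat_lit 82) (nat_lit 5) (nat_lit 86) (nat_lit 5) (nat_lit 87) (nat_lit 5) (nat_lit 361) (nat_lit 345) (nat_lit 194)) (XT.lf (nat_lit 0) (nat_lit 1942173220) (nat_lit 380) (nat_lit 3841912610) (nat_lit 76) (nat_lit 51696404847) (nat_lit 81) (nat_lit 5) (nat_lit 86) (nat_lit 5) (nat_lit 82) (nat_lit 5) (nat_lit 362) (nat_lit 345) (nat_lit 193)))) (XT.nd (nat_lit 78) (nat_lit 304) (nat_lit 0) (XT.lf (nat_lit 0) (nat_lit 8904441184) (nat_lit 456) (nat_lit 32472890397) (nat_lit 76) (nat_lit 17759395039) (nat_lit 76) (nat_lit 5) (nat_lit 82) (nat_lit 5) (nat_lit 77) (nat_lit 5) (nat_lit 363) (nat_lit 345) (nat_lit 192)) (XT.nd (nat_lit 78) (nat_lit 304) (nat_lit 0) (XT.lf (nat_lit 0) (nat_lit 16374310417) (nat_lit 456) (nat_lit 2141812493) (nat_lit 76) (nat_lit 42351678614) (nat_lit 76) (nat_lit 5) (nat_lit 82) (nat_lit 5) (nat_lit 77) (nat_lit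 5) (nat_lit 364) (nat_lit 345) (nat_lit 191)) (XT.lf (nat_lit 0) (nat_lit 24788915563) (nat_lit 380) (nat_lit 32068687006) (nat_lit 76) (nat_lit 5799266963) (nat_lit 72) (nat_lit 5) (nat_lit 77) (nat_lit 5) (nat_lit 73) (nat_lit 5) (nat_lit 365) (nat_lit 345) (nat_lit 190))))) (XT.nd (nat_lit 234) (nat_lit 380) (nat_lit 0) (XT.nd (nat_lit 78) (nat_lit 228) (nat_lit 0) (XT.lf (nat_lit 0) (nat_lit 195973512) (nat_lit 304) (nat_lit 33770391662) (nat_lit 380) (nat_lit 30551921469) (nat_lit 68) (nat_lit 5) (nat_lit 72) (nat_lit 5) (nat_lit 73) (nat_lit 5) (nat_lit 366) (nat_lit 345) (nat_lit 189)) (XT.nd (nat_lit 78) (nat_lit 228) (nat_lit 0) (XT.lf (nat_lit 0) (nat_lit 35185625475) (nat_lit 304) (nat_lit 8958844446) (nat_lit 380) (nat_lit 22301216899) (nat_lit 68) (nat_lit 5) (nat_lit 72) (nat_lit 5) (nat_lit 73) (nat_lit 5) (nat_lit 367) (nat_lit 345) (nat_lit 188)) (XT.lf (nat_lit 0) (nat_lit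 3292222815) (nat_lit 228) (nat_lit 51856274384) (nat_lit 304) (nat_lit 13305110224) (nat_lit 65) (nat_lit 5) (nat_lit 68) (nat_lit 5) (nat_lit 69) (nat_lit 5) (nat_lit 368) (nat_lit 345) (nat_lit 187)))) (XT.nd (nat_lit 78) (nat_lit 380) (nat_lit 0) (XT.lf (nat_lit 0) (nat_lit 40504125116) (nat_lit 228) (nat_lit 26871280587) (nat_lit 304) (nat_lit 3152885580) (nat_lit 65) (nat_lit 5) (nat_lit 68) (nat_lit 5) (nat_lit 69) (nat_lit 5) (nat_lit 369) (nat_lit 345) (nat_lit 186)) (XT.nd (nat_lit 78) (nat_lit 0) (nat_lit 0) (XT.lf (nat_lit 0) (nat_lit 6974414718) (nat_lit 304) (nat_lit 399972536) (nat_lit 380) (nat_lit 65321077649) (nat_lit 60) (nat_lit 5) (nat_lit 64) (nat_lit 5) (nat_lit 65) (nat_lit 5) (nat_lit 370) (nat_lit 345) (nat_lit 185)) (XT.lf (nat_lit 0) (nat_lit 19265430471) (nat_lit 380) (nat_lit 28569558587) (nat_lit 76) (nat_lit 27086256648) (nat_lit 60) (nat_lit 5) (nat_lit 65)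 (nat_lit 5) (nat_lit 61) (nat_lit 5) (nat_lit 371) (nat_lit 345) (nat_lit 184))))))) (XT.nd (nat_lit 858) (nat_lit 988) (nat_lit 0) (XT.nd (nat_lit 390) (nat_lit 684) (nat_lit 0) (XT.nd (nat_lit 156) (nat_lit 456) (nat_lit 0) (XT.nd (nat_lit 78) (nat_lit 0) (nat_lit 0) (XT.lf (nat_lit 0) (nat_lit 10776388578) (nat_lit 228) (nat_lit 21148342658) (nat_lit 304) (nat_lit 45324900049) (nat_lit 57) (nat_lit 5) (nat_lit 60) (nat_lit 5) (nat_lit 61) (nat_lit 5) (nat_lit 372) (nat_lit 345) (nat_lit 183)) (XT.lf (nat_lit 0) (nat_lit 45814991958) (nat_lit 304) (nat_lit 26705472073) (nat_lit 76) (nat_lit 7144073319) (nat_lit 57) (nat_lit 5) (nat_lit 61) (nat_lit 5) (nat_lit 58) (nat_lit 5) (nat_lit 373) (nat_lit 345) (nat_lit 182))) (XT.nd (nat_lit 78) (nat_lit 228) (nat_lit 0) (XT.lf (nat_lit 0) (nat_lit 15188698872) (nat_lit 228) (nat_lit 45793873158) (nat_lit 304) (nat_lit 21188477284) (nat_lit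 54) (nat_lit 5) (nat_lit 57) (nat_lit 5) (nat_lit 58) (nat_lit 5) (nat_lit 374) (nat_lit 345) (nat_lit 181)) (XT.nd (nat_lit 78) (nat_lit 228) (nat_lit 0) (XT.lf (nat_lit 0) (nat_lit 60103327779) (nat_lit 228) (nat_lit 17256474369) (nat_lit 304) (nat_lit 7420522043) (nat_lit 54) (nat_lit 5) (nat_lit 57) (nat_lit 5) (nat_lit 58) (nat_lit 5) (nat_lit 375) (nat_lit 345) (nat_lit 180)) (XT.lf (nat_lit 0) (nat_lit 7331714083) (nat_lit 228) (nat_lit 67422634679) (nat_lit 76) (nat_lit 12734168701) (nat_lit 51) (nat_lit 5) (nat_lit 54) (nat_lit 5) (nat_lit 52) (nat_lit 5) (nat_lit 376) (nat_lit 345) (nat_lit 179))))) (XT.nd (nat_lit 234) (nat_lit 456) (nat_lit 0) (XT.nd (nat_lit 78) (nat_lit 228) (nat_lit 0) (XT.lf (nat_lit 0) (nat_lit 23278895651) (nat_lit 228) (nat_lit 22821370698) (nat_lit 76) (nat_lit 44190436812) (nat_lit 51) (nat_lit 5) (nat_lit 54) (nat_lit 5) (nat_lit 52) (nat_lit 5) (nat_lit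 377) (nat_lit 345) (nat_lit 178)) (XT.nd (nat_lit 78) (nat_lit 0) (nat_lit 0) (XT.lf (nat_lit 0) (nat_lit 24802466833) (nat_lit 228) (nat_lit 15607301519) (nat_lit 304) (nat_lit 52803913902) (nat_lit 48) (nat_lit 5) (nat_lit 51) (nat_lit 5) (nat_lit 52) (nat_lit 5) (nat_lit 378) (nat_lit 345) (nat_lit 177)) (XT.lf (nat_lit 0) (nat_lit 59045334698) (nat_lit 304) (nat_lit 20927570231) (nat_lit 76) (nat_lit 16277498552) (nat_lit 48) (nat_lit 5) (nat_lit 52) (nat_lit 5) (nat_lit 49) (nat_lit 5) (nat_lit 379) (nat_lit 345) (nat_lit 176)))) (XT.nd (nat_lit 78) (nat_lit 304) (nat_lit 0) (XT.lf (nat_lit 0) (nat_lit 29621186282) (nat_lit 152) (nat_lit 49708974670) (nat_lit 228) (nat_lit 20072926383) (nat_lit 46) (nat_lit 5) (nat_lit 48) (nat_lit 5) (nat_lit 49) (nat_lit 5) (nat_lit 380) (nat_lit 345) (nat_lit 175)) (XT.nd (nat_lit 78) (nat_lit 304) (nat_lit 0) (XT.lf (nat_lit 0) (nat_lit 83422682712)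 (nat_lit 152) (nat_lit 17560139453) (nat_lit 228) (nat_lit 1712904152) (nat_lit 46) (nat_lit 5) (nat_lit 48) (nat_lit 5) (nat_lit 49) (nat_lit 5) (nat_lit 381) (nat_lit 345) (nat_lit 174)) (XT.lf (nat_lit 0) (nat_lit 17808430280) (nat_lit 304) (nat_lit 71785546818) (nat_lit 76) (nat_lit 16505033442) (nat_lit 42) (nat_lit 5) (nat_lit 46) (nat_lit 5) (nat_lit 43) (nat_lit 5) (nat_lit 382) (nat_lit 345) (nat_lit 173)))))) (XT.nd (nat_lit 468) (nat_lit 456) (nat_lit 0) (XT.nd (nat_lit 234) (nat_lit 380) (nat_lit 0) (XT.nd (nat_lit 78) (nat_lit 152) (nat_lit 0) (XT.lf (nat_lit 0) (nat_lit 38867100471) (nat_lit 304) (nat_lit 18730264663) (nat_lit 76) (nat_lit 52042748659) (nat_lit 42) (nat_lit 5) (nat_lit 46) (nat_lit 5) (nat_lit 43) (nat_lit 5) (nat_lit 383) (nat_lit 345) (nat_lit 172)) (XT.nd (nat_lit 78) (nat_lit 0) (nat_lit 0) (XT.lf (nat_lit 0) (nat_lit 38199217744) (nat_lit 152) (nat_lit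 23375134316) (nat_lit 228) (nat_lit 51754138261) (nat_lit 40) (nat_lit 5) (nat_lit 42) (nat_lit 5) (nat_lit 43) (nat_lit 5) (nat_lit 384) (nat_lit 345) (nat_lit 171)) (XT.lf (nat_lit 0) (nat_lit 85934703206) (nat_lit 228) (nat_lit 18762436301) (nat_lit 76) (nat_lit 12478259803) (nat_lit 40) (nat_lit 5) (nat_lit 43) (nat_lit 5) (nat_lit 41) (nat_lit 5) (nat_lit 385) (nat_lit 345) (nat_lit 170)))) (XT.nd (nat_lit 78) (nat_lit 228) (nat_lit 0) (XT.lf (nat_lit 0) (nat_lit 41362261374) (nat_lit 152) (nat_lit 71179087378) (nat_lit 228) (nat_lit 8621891615) (nat_lit 38) (nat_lit 5) (nat_lit 40) (nat_lit 5) (nat_lit 41) (nat_lit 5) (nat_lit 386) (nat_lit 345) (nat_lit 169)) (XT.nd (nat_lit 78) (nat_lit 152) (nat_lit 0) (XT.lf (nat_lit 0) (nat_lit 14965928795) (nat_lit 228) (nat_lit 20432537205) (nat_lit 76) (nat_lit 89924085410) (nat_lit 37) (nat_lit 5) (nat_lit 40) (nat_lit 5) (nat_lit 38) (nat_lit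 5) (nat_lit 387) (nat_lit 345) (nat_lit 168)) (XT.lf (nat_lit 0) (nat_lit 40163553088) (nat_lit 228) (nat_lit 86553628759) (nat_lit 76) (nat_lit 2929571182) (nat_lit 35) (nat_lit 5) (nat_lit 38) (nat_lit 5) (nat_lit 36) (nat_lit 5) (nat_lit 388) (nat_lit 345) (nat_lit 167))))) (XT.nd (nat_lit 234) (nat_lit 304) (nat_lit 0) (XT.nd (nat_lit 78) (nat_lit 152) (nat_lit 0) (XT.lf (nat_lit 0) (nat_lit 67552412237) (nat_lit 228) (nat_lit 24252490219) (nat_lit 76) (nat_lit 42335694971) (nat_lit 35) (nat_lit 5) (nat_lit 38) (nat_lit 5) (nat_lit 36) (nat_lit 5) (nat_lit 389) (nat_lit 345) (nat_lit 166)) (XT.nd (nat_lit 78) (nat_lit 0) (nat_lit 0) (XT.lf (nat_lit 0) (nat_lit 42523688676) (nat_lit 152) (nat_lit 54450314202) (nat_lit 228) (nat_lit 41851967099) (nat_lit 33) (nat_lit 5) (nat_lit 35) (nat_lit 5) (nat_lit 36) (nat_lit 5) (nat_lit 390) (nat_lit 345) (nat_lit 165)) (XT.lf (nat_lit 0) (nat_lit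 113479644816) (nat_lit 152) (nat_lit 14797144280) (nat_lit 228) (nat_lit 15448316601) (nat_lit 33) (nat_lit 5) (nat_lit 35) (nat_lit 5) (nat_lit 36) (nat_lit 5) (nat_lit 391) (nat_lit 345) (nat_lit 164)))) (XT.nd (nat_lit 78) (nat_lit 152) (nat_lit 0) (XT.lf (nat_lit 0) (nat_lit 12942251773) (nat_lit 152) (nat_lit 109052237939) (nat_lit 76) (nat_lit 26812144612) (nat_lit 31) (nat_lit 5) (nat_lit 33) (nat_lit 5) (nat_lit 32) (nat_lit 5) (nat_lit 392) (nat_lit 345) (nat_lit 163)) (XT.nd (nat_lit 78) (nat_lit 152) (nat_lit 0) (XT.lf (nat_lit 0) (nat_lit 42995792898) (nat_lit 152) (nat_lit 40317553544) (nat_lit 76) (nat_lit 70778100229) (nat_lit 31) (nat_lit 5) (nat_lit 33) (nat_lit 5) (nat_lit 32) (nat_lit 5) (nat_lit 393) (nat_lit 345) (nat_lit 162)) (XT.lf (nat_lit 0) (nat_lit 32906112301) (nat_lit 152) (nat_lit 42159097643) (nat_lit 228) (nat_lit 84549630032) (nat_lit 29) (nat_lit 5) (nat_lit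 31) (nat_lit 5) (nat_lit 32) (nat_lit 5) (nat_lit 394) (nat_lit 345) (nat_lit 161))))))))
noncomputable def xc208 : XT := (XT.nd (nat_lit 1716) (nat_lit 304) (nat_lit 0) (XT.nd (nat_lit 858) (nat_lit 456) (nat_lit 0) (XT.nd (nat_lit 390) (nat_lit 304) (nat_lit 0) (XT.nd (nat_lit 156) (nat_lit 228) (nat_lit 0) (XT.nd (nat_lit 78) (nat_lit 76) (nat_lit 0) (XT.lf (nat_lit 0) (nat_lit 109447974681) (nat_lit 228) (nat_lit 54218158683) (nat_lit 76) (nat_lit 1712776008) (nat_lit 29) (nat_lit 5) (nat_lit 32) (nat_lit 5) (nat_lit 30) (nat_lit 4) (nat_lit 395) (nat_lit 345) (nat_lit 160)) (XT.lf (nat_lit 0) (nat_lit 21906021297) (nat_lit 76) (nat_lit 124676477787) (nat_lit 152) (nat_lit 24797052340) (nat_lit 28) (nat_lit 5) (nat_lit 29) (nat_lit 5) (nat_lit 30) (nat_lit 4) (nat_lit 396) (nat_lit 345) (nat_lit 159))) (XT.nd (nat_lit 78) (nat_lit 152) (nat_lit 0) (XT.lf (nat_lit 0) (nat_lit 8573622060)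 (nat_lit 152) (nat_lit 74054782383) (nat_lit 76) (nat_lit 94999022364) (nat_lit 27) (nat_lit 5) (nat_lit 29) (nat_lit 5) (nat_lit 28) (nat_lit 5) (nat_lit 397) (nat_lit 345) (nat_lit 158)) (XT.nd (nat_lit 78) (nat_lit 0) (nat_lit 0) (XT.lf (nat_lit 0) (nat_lit 4883833538) (nat_lit 152) (nat_lit 37971404944) (nat_lit 228) (nat_lit 141308344652) (nat_lit 25) (nat_lit 5) (nat_lit 27) (nat_lit 5) (nat_lit 28) (nat_lit 5) (nat_lit 398) (nat_lit 345) (nat_lit 157)) (XT.lf (nat_lit 0) (nat_lit 80264397172) (nat_lit 228) (nat_lit 100784124393) (nat_lit 76) (nat_lit 9907352854) (nat_lit 25) (nat_lit 5) (nat_lit 28) (nat_lit 5) (nat_lit 26) (nat_lit 4) (nat_lit 399) (nat_lit 345) (nat_lit 156))))) (XT.nd (nat_lit 234) (nat_lit 228) (nat_lit 0) (XT.nd (nat_lit 78) (nat_lit 76) (nat_lit 0) (XT.lf (nat_lit 0) (nat_lit 120166025427) (nat_lit 228) (nat_lit 18987036228) (nat_lit 76) (nat_lit 58903618229)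 (nat_lit 25) (nat_lit 5) (nat_lit 28) (nat_lit 5) (nat_lit 26) (nat_lit 4) (nat_lit 400) (nat_lit 345) (nat_lit 155)) (XT.nd (nat_lit 78) (nat_lit 0) (nat_lit 0) (XT.lf (nat_lit 0) (nat_lit 69111096612) (nat_lit 76) (nat_lit 94030208369) (nat_lit 152) (nat_lit 42317292339) (nat_lit 24) (nat_lit 5) (nat_lit 25) (nat_lit 5) (nat_lit 26) (nat_lit 4) (nat_lit 401) (nat_lit 345) (nat_lit 154)) (XT.lf (nat_lit 0) (nat_lit 162272539533) (nat_lit 76) (nat_lit 46313924711) (nat_lit 152) (nat_lit 4628090779) (nat_lit 24) (nat_lit 5) (nat_lit 25) (nat_lit 5) (nat_lit 26) (nat_lit 4) (nat_lit 402) (nat_lit 345) (nat_lit 153)))) (XT.nd (nat_lit 78) (nat_lit 0) (nat_lit 0) (XT.lf (nat_lit 0) (nat_lit 34520775021) (nat_lit 228) (nat_lit 181928403355) (nat_lit 76) (nat_lit 4847168452) (nat_lit 21) (nat_lit 5) (nat_lit 24) (nat_lit 5) (nat_lit 22) (nat_lit 4) (nat_lit 403) (nat_lit 345) (nat_lit 152)) (XT.nd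 (nat_lit 78) (nat_lit 0) (nat_lit 0) (XT.lf (nat_lit 0) (nat_lit 77107243683) (nat_lit 228) (nat_lit 94627121816) (nat_lit 76) (nat_lit 57962284675) (nat_lit 21) (nat_lit 5) (nat_lit 24) (nat_lit 5) (nat_lit 22) (nat_lit 4) (nat_lit 404) (nat_lit 345) (nat_lit 151)) (XT.lf (nat_lit 0) (nat_lit 121822634201) (nat_lit 228) (nat_lit 2961503844) (nat_lit 76) (nat_lit 113732850872) (nat_lit 21) (nat_lit 5) (nat_lit 24) (nat_lit 5) (nat_lit 22) (nat_lit 4) (nat_lit 405) (nat_lit 345) (nat_lit 150)))))) (XT.nd (nat_lit 390) (nat_lit 228) (nat_lit 0) (XT.nd (nat_lit 156) (nat_lit 152) (nat_lit 0) (XT.nd (nat_lit 78) (nat_lit 0) (nat_lit 0) (XT.lf (nat_lit 0) (nat_lit 96371181696) (nat_lit 76) (nat_lit 73906854320) (nat_lit 152) (nat_lit 77425096635) (nat_lit 20) (nat_lit 5) (nat_lit 21) (nat_lit 5) (nat_lit 22) (nat_lit 4) (nat_lit 406) (nat_lit 345) (nat_lit 149)) (XT.lf (nat_lit 0) (nat_lit 200772636425)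 (nat_lit 76) (nat_lit 20433351110) (nat_lit 152) (nat_lit 36140107192) (nat_lit 20) (nat_lit 5) (nat_lit 21) (nat_lit 5) (nat_lit 22) (nat_lit 4) (nat_lit 407) (nat_lit 345) (nat_lit 148))) (XT.nd (nat_lit 78) (nat_lit 0) (nat_lit 0) (XT.lf (nat_lit 0) (nat_lit 8239263965) (nat_lit 152) (nat_lit 223776598041) (nat_lit 76) (nat_lit 35386671812) (nat_lit 18) (nat_lit 5) (nat_lit 20) (nat_lit 5) (nat_lit 19) (nat_lit 4) (nat_lit 408) (nat_lit 345) (nat_lit 147)) (XT.nd (nat_lit 78) (nat_lit 0) (nat_lit 0) (XT.lf (nat_lit 0) (nat_lit 54931477000) (nat_lit 152) (nat_lit 128058292027) (nat_lit 76) (nat_lit 94876982020) (nat_lit 18) (nat_lit 5) (nat_lit 20) (nat_lit 5) (nat_lit 19) (nat_lit 4) (nat_lit 409) (nat_lit 345) (nat_lit 146)) (XT.lf (nat_lit 0) (nat_lit 103957957361) (nat_lit 152) (nat_lit 27554703200) (nat_lit 76) (nat_lit 157341535855) (nat_lit 18) (nat_lit 5) (nat_lit 20) (nat_lit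 5) (nat_lit 19) (nat_lit 4) (nat_lit 410) (nat_lit 345) (nat_lit 145))))) (XT.nd (nat_lit 234) (nat_lit 152) (nat_lit 0) (XT.nd (nat_lit 78) (nat_lit 0) (nat_lit 0) (XT.lf (nat_lit 0) (nat_lit 80551617512) (nat_lit 76) (nat_lit 76141453744) (nat_lit 152) (nat_lit 143635077426) (nat_lit 17) (nat_lit 5) (nat_lit 18) (nat_lit 5) (nat_lit 19) (nat_lit 4) (nat_lit 411) (nat_lit 345) (nat_lit 144)) (XT.nd (nat_lit 78) (nat_lit 0) (nat_lit 0) (XT.lf (nat_lit 0) (nat_lit 195019298681) (nat_lit 76) (nat_lit 17511973738) (nat_lit 152) (nat_lit 99821209668) (nat_lit 17) (nat_lit 5) (nat_lit 18) (nat_lit 5) (nat_lit 19) (nat_lit 4) (nat_lit 412) (nat_lit 345) (nat_lit 143)) (XT.lf (nat_lit 0) (nat_lit 271848802233) (nat_lit 152) (nat_lit 10455972036) (nat_lit 0) (nat_lit 42638887058) (nat_lit 17) (nat_lit 5) (nat_lit 19) (nat_lit 4) (nat_lit 17) (nat_lit 4) (nat_lit 413) (nat_lit 345) (nat_lit 142))))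 (XT.nd (nat_lit 78) (nat_lit 76) (nat_lit 0) (XT.lf (nat_lit 0) (nat_lit 104832773472) (nat_lit 76) (nat_lit 231222955289) (nat_lit 76) (nat_lit 2012494849) (nat_lit 16) (nat_lit 4) (nat_lit 17) (nat_lit 5) (nat_lit 17) (nat_lit 4) (nat_lit 414) (nat_lit 345) (nat_lit 141)) (XT.nd (nat_lit 78) (nat_lit 0) (nat_lit 0) (XT.lf (nat_lit 0) (nat_lit 50151383540) (nat_lit 152) (nat_lit 126400643484) (nat_lit 76) (nat_lit 175247703014) (nat_lit 15) (nat_lit 5) (nat_lit 17) (nat_lit 5) (nat_lit 16) (nat_lit 4) (nat_lit 415) (nat_lit 345) (nat_lit 140)) (XT.lf (nat_lit 0) (nat_lit 104855542907) (nat_lit 152) (nat_lit 14257611353) (nat_lit 76) (nat_lit 247103022016) (nat_lit 15) (nat_lit 5) (nat_lit 17) (nat_lit 5) (nat_lit 16) (nat_lit 4) (nat_lit 416) (nat_lit 345) (nat_lit 139))))))) (XT.nd (nat_lit 41574) (nat_lit 0) (nat_lit 5700) (XT.nd (nat_lit 390) (nat_lit 152) (nat_lit 0) (XT.nd (nat_lit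 156) (nat_lit 76) (nat_lit 0) (XT.nd (nat_lit 78) (nat_lit 0) (nat_lit 0) (XT.lf (nat_lit 0) (nat_lit 106913989511) (nat_lit 76) (nat_lit 57049881144) (nat_lit 152) (nat_lit 217306126226) (nat_lit 14) (nat_lit 5) (nat_lit 15) (nat_lit 5) (nat_lit 16) (nat_lit 4) (nat_lit 417) (nat_lit 345) (nat_lit 138)) (XT.lf (nat_lit 0) (nat_lit 226399489757) (nat_lit 152) (nat_lit 162556453352) (nat_lit 0) (nat_lit 8101971732) (nat_lit 14) (nat_lit 5) (nat_lit 16) (nat_lit 4) (nat_lit 14) (nat_lit 4) (nat_lit 418) (nat_lit 345) (nat_lit 137))) (XT.nd (nat_lit 78) (nat_lit 76) (nat_lit 0) (XT.lf (nat_lit 0) (nat_lit 292891881273) (nat_lit 152) (nat_lit 46102641557) (nat_lit 0) (nat_lit 74593956363) (nat_lit 14) (nat_lit 5) (nat_lit 16) (nat_lit 4) (nat_lit 14) (nat_lit 4) (nat_lit 419) (nat_lit 345) (nat_lit 136)) (XT.nd (nat_lit 78) (nat_lit 0) (nat_lit 0) (XT.lf (nat_lit 0) (nat_lit 78692044381) (nat_lit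 76) (nat_lit 285245210862) (nat_lit 76) (nat_lit 66946898442) (nat_lit 13) (nat_lit 4) (nat_lit 14) (nat_lit 5) (nat_lit 14) (nat_lit 4) (nat_lit 420) (nat_lit 345) (nat_lit 135)) (XT.lf (nat_lit 0) (nat_lit 211326598235) (nat_lit 76) (nat_lit 227988834239) (nat_lit 76) (nat_lit 9690152762) (nat_lit 13) (nat_lit 4) (nat_lit 14) (nat_lit 5) (nat_lit 14) (nat_lit 4) (nat_lit 421) (nat_lit 345) (nat_lit 134))))) (XT.nd (nat_lit 40950) (nat_lit 0) (nat_lit 6460) (XT.nd (nat_lit 78) (nat_lit 76) (nat_lit 0) (XT.lf (nat_lit 0) (nat_lit 48815145011) (nat_lit 152) (nat_lit 118227985686) (nat_lit 76) (nat_lit 300950601911) (nat_lit 12) (nat_lit 5) (nat_lit 14) (nat_lit 5) (nat_lit 13) (nat_lit 4) (nat_lit 422) (nat_lit 345) (nat_lit 133)) (XT.nd (nat_lit 78) (nat_lit 0) (nat_lit 0) (XT.lf (nat_lit 0) (nat_lit 7268950772) (nat_lit 76) (nat_lit 102764375314) (nat_lit 152) (nat_lit 377884355014) (nat_lit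 11) (nat_lit 5) (nat_lit 12) (nat_lit 5) (nat_lit 13) (nat_lit 4) (nat_lit 423) (nat_lit 345) (nat_lit 132)) (XT.lf (nat_lit 0) (nat_lit 143144937613) (nat_lit 76) (nat_lit 33169513178) (nat_lit 152) (nat_lit 332423274547) (nat_lit 11) (nat_lit 5) (nat_lit 12) (nat_lit 5) (nat_lit 13) (nat_lit 4) (nat_lit 424) (nat_lit 345) (nat_lit 131)))) (XT.nd (nat_lit 78) (nat_lit 0) (nat_lit 0) (XT.lf (nat_lit 0) (nat_lit 597332706) (nat_lit 836) (nat_lit 9327922816) (nat_lit 836) (nat_lit 9327922816) (nat_lit 96) (nat_lit 3) (nat_lit 107) (nat_lit 3) (nat_lit 107) (nat_lit 5) (nat_lit 346) (nat_lit 346) (nat_lit 208)) (XT.nd (nat_lit 78) (nat_lit 0) (nat_lit 76) (XT.lf (nat_lit 0) (nat_lit 1267120172) (nat_lit 836) (nat_lit 618311123) (nat_lit 836) (nat_lit 37581401812) (nat_lit 96) (nat_lit 3) (nat_lit 107) (nat_lit 3) (nat_lit 107) (nat_lit 5) (nat_lit 347) (nat_lit 346) (nat_lit 207)) (XT.lf (nat_lit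 0) (nat_lit 1905886740) (nat_lit 760) (nat_lit 21805237772) (nat_lit 836) (nat_lit 16736077789) (nat_lit 97) (nat_lit 5) (nat_lit 107) (nat_lit 5) (nat_lit 108) (nat_lit 5) (nat_lit 348) (nat_lit 346) (nat_lit 206)))))) (XT.nd (nat_lit 468) (nat_lit 836) (nat_lit 0) (XT.nd (nat_lit 234) (nat_lit 0) (nat_lit 152) (XT.nd (nat_lit 78) (nat_lit 0) (nat_lit 76) (XT.lf (nat_lit 0) (nat_lit 2615543909) (nat_lit 760) (nat_lit 2621989276) (nat_lit 836) (nat_lit 36237112391) (nat_lit 97) (nat_lit 5) (nat_lit 107) (nat_lit 5) (nat_lit 108) (nat_lit 5) (nat_lit 349) (nat_lit 346) (nat_lit 205)) (XT.nd (nat_lit 78) (nat_lit 0) (nat_lit 0) (XT.lf (nat_lit 0) (nat_lit 3866492453) (nat_lit 760) (nat_lit 24666992237) (nat_lit 836) (nat_lit 13994688981) (nat_lit 98) (nat_lit 5) (nat_lit 108) (nat_lit 5) (nat_lit 109) (nat_lit 5) (nat_lit 350) (nat_lit 346) (nat_lit 204)) (XT.lf (nat_lit 0) (nat_lit 5308615849)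 (nat_lit 760) (nat_lit 4260807552) (nat_lit 836) (nat_lit 34058526334) (nat_lit 98) (nat_lit 5) (nat_lit 108) (nat_lit 5) (nat_lit 109) (nat_lit 5) (nat_lit 351) (nat_lit 346) (nat_lit 203)))) (XT.nd (nat_lit 78) (nat_lit 0) (nat_lit 0) (XT.lf (nat_lit 0) (nat_lit 7263463542) (nat_lit 760) (nat_lit 27203331917) (nat_lit 836) (nat_lit 10293891033) (nat_lit 99) (nat_lit 5) (nat_lit 109) (nat_lit 5) (nat_lit 110) (nat_lit 5) (nat_lit 352) (nat_lit 346) (nat_lit 202)) (XT.nd (nat_lit 78) (nat_lit 0) (nat_lit 76) (XT.lf (nat_lit 0) (nat_lit 9544111849) (nat_lit 760) (nat_lit 5491781940) (nat_lit 836) (nat_lit 30902766049) (nat_lit 99) (nat_lit 5) (nat_lit 109) (nat_lit 5) (nat_lit 110) (nat_lit 5) (nat_lit 353) (nat_lit 346) (nat_lit 201)) (XT.lf (nat_lit 0) (nat_lit 12304199865) (nat_lit 760) (nat_lit 29374109698) (nat_lit 836) (nat_lit 5478954458) (nat_lit 100) (nat_lit 5) (nat_lit 110) (nat_lit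 5) (nat_lit 111) (nat_lit 5) (nat_lit 354) (nat_lit 346) (nat_lit 200))))) (XT.nd (nat_lit 234) (nat_lit 1064) (nat_lit 0) (XT.nd (nat_lit 78) (nat_lit 0) (nat_lit 0) (XT.lf (nat_lit 0) (nat_lit 15541337943) (nat_lit 760) (nat_lit 6269291328) (nat_lit 836) (nat_lit 26609219275) (nat_lit 100) (nat_lit 5) (nat_lit 110) (nat_lit 5) (nat_lit 111) (nat_lit 5) (nat_lit 355) (nat_lit 346) (nat_lit 199)) (XT.nd (nat_lit 78) (nat_lit 0) (nat_lit 76) (XT.lf (nat_lit 76) (nat_lit 18584022125) (nat_lit 0) (nat_lit 644578445) (nat_lit 836) (nat_lit 30502550645) (nat_lit 101) (nat_lit 5) (nat_lit 100) (nat_lit 5) (nat_lit 111) (nat_lit 5) (nat_lit 356) (nat_lit 346) (nat_lit 198)) (XT.lf (nat_lit 0) (nat_lit 23543250379) (nat_lit 760) (nat_lit 6545337834) (nat_lit 76) (nat_lit 20997281792) (nat_lit 101) (nat_lit 5) (nat_lit 111) (nat_lit 5) (nat_lit 102) (nat_lit 5) (nat_lit 357) (nat_lit 346) (nat_lit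 197)))) (XT.nd (nat_lit 78) (nat_lit 380) (nat_lit 0) (XT.lf (nat_lit 0) (nat_lit 19911730058) (nat_lit 760) (nat_lit 8481622867) (nat_lit 836) (nat_lit 24098987883) (nat_lit 91) (nat_lit 5) (nat_lit 101) (nat_lit 5) (nat_lit 102) (nat_lit 5) (nat_lit 358) (nat_lit 346) (nat_lit 196)) (XT.nd (nat_lit 78) (nat_lit 380) (nat_lit 0) (XT.lf (nat_lit 0) (nat_lit 33818753019) (nat_lit 836) (nat_lit 6269918275) (nat_lit 76) (nat_lit 13863826222) (nat_lit 91) (nat_lit 5) (nat_lit 102) (nat_lit 5) (nat_lit 92) (nat_lit 5) (nat_lit 359) (nat_lit 346) (nat_lit 195)) (XT.lf (nat_lit 0) (nat_lit 21917221985) (nat_lit 380) (nat_lit 18077848745) (nat_lit 456) (nat_lit 15466610843) (nat_lit 86) (nat_lit 5) (nat_lit 91) (nat_lit 5) (nat_lit 92) (nat_lit 5) (nat_lit 360) (nat_lit 346) (nat_lit 194))))))))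
noncomputable def xc209 : XT := (XT.nd (nat_lit 1716) (nat_lit 1900) (nat_lit 0) (XT.nd (nat_lit 858) (nat_lit 1064) (nat_lit 0) (XT.nd (nat_lit 390) (nat_lit 1216) (nat_lit 0) (XT.nd (nat_lit 156) (nat_lit 456) (nat_lit 0) (XT.nd (nat_lit 78) (nat_lit 304) (nat_lit 0) (XT.lf (nat_lit 0) (nat_lit 46665184109) (nat_lit 456) (nat_lit 5391532912) (nat_lit 76) (nat_lit 4980360625) (nat_lit 86) (nat_lit 5) (nat_lit 92) (nat_lit 5) (nat_lit 87) (nat_lit 5) (nat_lit 361) (nat_lit 346) (nat_lit 193)) (XT.lf (nat_lit 0) (nat_lit 24660460229) (nat_lit 304) (nat_lit 29688260650) (nat_lit 380) (nat_lit 4308528471) (nat_lit 82) (nat_lit 5) (nat_lit 86) (nat_lit 5) (nat_lit 87) (nat_lit 5) (nat_lit 362) (nat_lit 346) (nat_lit 192))) (XT.nd (nat_lit 78) (nat_lit 380) (nat_lit 0) (XT.lf (nat_lit 0) (nat_lit 2083503110) (nat_lit 380) (nat_lit 3986792597) (nat_lit 76) (nat_lit 54281960566) (nat_lit 81) (nat_lit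 5) (nat_lit 86) (nat_lit 5) (nat_lit 82) (nat_lit 5) (nat_lit 363) (nat_lit 346) (nat_lit 191)) (XT.nd (nat_lit 78) (nat_lit 0) (nat_lit 0) (XT.lf (nat_lit 0) (nat_lit 9392560393) (nat_lit 456) (nat_lit 34047949597) (nat_lit 76) (nat_lit 18650862507) (nat_lit 76) (nat_lit 5) (nat_lit 82) (nat_lit 5) (nat_lit 77) (nat_lit 5) (nat_lit 364) (nat_lit 346) (nat_lit 190)) (XT.lf (nat_lit 0) (nat_lit 17233880366) (nat_lit 456) (nat_lit 2202631384) (nat_lit 76) (nat_lit 44472593702) (nat_lit 76) (nat_lit 5) (nat_lit 82) (nat_lit 5) (nat_lit 77) (nat_lit 5) (nat_lit 365) (nat_lit 346) (nat_lit 189))))) (XT.nd (nat_lit 234) (nat_lit 608) (nat_lit 0) (XT.nd (nat_lit 78) (nat_lit 304) (nat_lit 0) (XT.lf (nat_lit 0) (nat_lit 26068073303) (nat_lit 380) (nat_lit 33624665800) (nat_lit 76) (nat_lit 6094946950) (nat_lit 72) (nat_lit 5) (nat_lit 77) (nat_lit 5) (nat_lit 73) (nat_lit 5) (nat_lit 366) (nat_lit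 346) (nat_lit 188)) (XT.nd (nat_lit 78) (nat_lit 0) (nat_lit 0) (XT.lf (nat_lit 0) (nat_lit 252462332) (nat_lit 304) (nat_lit 35450770981) (nat_lit 380) (nat_lit 32039000779) (nat_lit 68) (nat_lit 5) (nat_lit 72) (nat_lit 5) (nat_lit 73) (nat_lit 5) (nat_lit 367) (nat_lit 346) (nat_lit 187)) (XT.lf (nat_lit 0) (nat_lit 36989373554) (nat_lit 304) (nat_lit 9399034036) (nat_lit 380) (nat_lit 23377690351) (nat_lit 68) (nat_lit 5) (nat_lit 72) (nat_lit 5) (nat_lit 73) (nat_lit 5) (nat_lit 368) (nat_lit 346) (nat_lit 186)))) (XT.nd (nat_lit 78) (nat_lit 380) (nat_lit 0) (XT.lf (nat_lit 0) (nat_lit 3502307474) (nat_lit 228) (nat_lit 54439405709) (nat_lit 304) (nat_lit 13932749329) (nat_lit 65) (nat_lit 5) (nat_lit 68) (nat_lit 5) (nat_lit 69) (nat_lit 5) (nat_lit 369) (nat_lit 346) (nat_lit 185)) (XT.nd (nat_lit 78) (nat_lit 380) (nat_lit 0) (XT.lf (nat_lit 0) (nat_lit 42572639485) (nat_lit 228)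 (nat_lit 28205623288) (nat_lit 304) (nat_lit 3274704710) (nat_lit 65) (nat_lit 5) (nat_lit 68) (nat_lit 5) (nat_lit 69) (nat_lit 5) (nat_lit 370) (nat_lit 346) (nat_lit 184)) (XT.lf (nat_lit 0) (nat_lit 7366905065) (nat_lit 304) (nat_lit 409912080) (nat_lit 380) (nat_lit 68551704615) (nat_lit 60) (nat_lit 5) (nat_lit 64) (nat_lit 5) (nat_lit 65) (nat_lit 5) (nat_lit 371) (nat_lit 346) (nat_lit 183)))))) (XT.nd (nat_lit 390) (nat_lit 608) (nat_lit 0) (XT.nd (nat_lit 156) (nat_lit 228) (nat_lit 0) (XT.nd (nat_lit 78) (nat_lit 228) (nat_lit 0) (XT.lf (nat_lit 0) (nat_lit 20260956832) (nat_lit 380) (nat_lit 29954866089) (nat_lit 76) (nat_lit 28449842937) (nat_lit 60) (nat_lit 5) (nat_lit 65) (nat_lit 5) (nat_lit 61) (nat_lit 5) (nat_lit 372) (nat_lit 346) (nat_lit 182)) (XT.lf (nat_lit 0) (nat_lit 11357682137) (nat_lit 228) (nat_lit 22194667693) (nat_lit 304) (nat_lit 47558165924) (nat_lit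 57) (nat_lit 5) (nat_lit 60) (nat_lit 5) (nat_lit 61) (nat_lit 5) (nat_lit 373) (nat_lit 346) (nat_lit 181))) (XT.nd (nat_lit 78) (nat_lit 228) (nat_lit 0) (XT.lf (nat_lit 0) (nat_lit 48135794138) (nat_lit 304) (nat_lit 27998938014) (nat_lit 76) (nat_lit 7511502777) (nat_lit 57) (nat_lit 5) (nat_lit 61) (nat_lit 5) (nat_lit 58) (nat_lit 5) (nat_lit 374) (nat_lit 346) (nat_lit 180)) (XT.nd (nat_lit 78) (nat_lit 0) (nat_lit 0) (XT.lf (nat_lit 0) (nat_lit 15989267162) (nat_lit 228) (nat_lit 48071697184) (nat_lit 304) (nat_lit 22217148858) (nat_lit 54) (nat_lit 5) (nat_lit 57) (nat_lit 5) (nat_lit 58) (nat_lit 5) (nat_lit 375) (nat_lit 346) (nat_lit 179)) (XT.lf (nat_lit 0) (nat_lit 63147668783) (nat_lit 228) (nat_lit 18107993676) (nat_lit 304) (nat_lit 7762260250) (nat_lit 54) (nat_lit 5) (nat_lit 57) (nat_lit 5) (nat_lit 58) (nat_lit 5) (nat_lit 376) (nat_lit 346) (nat_lit 178))))) (XT.nd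 (nat_lit 234) (nat_lit 152) (nat_lit 0) (XT.nd (nat_lit 78) (nat_lit 228) (nat_lit 0) (XT.lf (nat_lit 0) (nat_lit 7726102112) (nat_lit 228) (nat_lit 70753061265) (nat_lit 76) (nat_lit 13382367911) (nat_lit 51) (nat_lit 5) (nat_lit 54) (nat_lit 5) (nat_lit 52) (nat_lit 5) (nat_lit 377) (nat_lit 346) (nat_lit 177)) (XT.nd (nat_lit 78) (nat_lit 228) (nat_lit 0) (XT.lf (nat_lit 0) (nat_lit 24469318838) (nat_lit 228) (nat_lit 23923672425) (nat_lit 76) (nat_lit 46410902248) (nat_lit 51) (nat_lit 5) (nat_lit 54) (nat_lit 5) (nat_lit 52) (nat_lit 5) (nat_lit 378) (nat_lit 346) (nat_lit 176)) (XT.lf (nat_lit 0) (nat_lit 26080731711) (nat_lit 228) (nat_lit 16375338082) (nat_lit 304) (nat_lit 55416986028) (nat_lit 48) (nat_lit 5) (nat_lit 51) (nat_lit 5) (nat_lit 52) (nat_lit 5) (nat_lit 379) (nat_lit 346) (nat_lit 175)))) (XT.nd (nat_lit 78) (nat_lit 152) (nat_lit 0) (XT.lf (nat_lit 0) (nat_lit 62022368582)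 (nat_lit 304) (nat_lit 21936558649) (nat_lit 76) (nat_lit 17102739120) (nat_lit 48) (nat_lit 5) (nat_lit 52) (nat_lit 5) (nat_lit 49) (nat_lit 5) (nat_lit 380) (nat_lit 346) (nat_lit 174)) (XT.nd (nat_lit 78) (nat_lit 0) (nat_lit 0) (XT.lf (nat_lit 0) (nat_lit 31139032625) (nat_lit 152) (nat_lit 52181798485) (nat_lit 228) (nat_lit 21051184442) (nat_lit 46) (nat_lit 5) (nat_lit 48) (nat_lit 5) (nat_lit 49) (nat_lit 5) (nat_lit 381) (nat_lit 346) (nat_lit 173)) (XT.lf (nat_lit 0) (nat_lit 87628852113) (nat_lit 152) (nat_lit 18426122694) (nat_lit 228) (nat_lit 1774370065) (nat_lit 46) (nat_lit 5) (nat_lit 48) (nat_lit 5) (nat_lit 49) (nat_lit 5) (nat_lit 382) (nat_lit 346) (nat_lit 172))))))) (XT.nd (nat_lit 858) (nat_lit 760) (nat_lit 0) (XT.nd (nat_lit 390) (nat_lit 532) (nat_lit 0) (XT.nd (nat_lit 156) (nat_lit 304) (nat_lit 0) (XT.nd (nat_lit 78) (nat_lit 0) (nat_lit 0) (XT.lf (nat_lit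 0) (nat_lit 18721886673) (nat_lit 304) (nat_lit 75338612524) (nat_lit 76) (nat_lit 17342294539) (nat_lit 42) (nat_lit 5) (nat_lit 46) (nat_lit 5) (nat_lit 43) (nat_lit 5) (nat_lit 383) (nat_lit 346) (nat_lit 171)) (XT.lf (nat_lit 0) (nat_lit 40832393475) (nat_lit 304) (nat_lit 19632290625) (nat_lit 76) (nat_lit 54656323639) (nat_lit 42) (nat_lit 5) (nat_lit 46) (nat_lit 5) (nat_lit 43) (nat_lit 5) (nat_lit 384) (nat_lit 346) (nat_lit 170))) (XT.nd (nat_lit 78) (nat_lit 152) (nat_lit 0) (XT.lf (nat_lit 0) (nat_lit 40143109657) (nat_lit 152) (nat_lit 24531383079) (nat_lit 228) (nat_lit 54319336810) (nat_lit 40) (nat_lit 5) (nat_lit 42) (nat_lit 5) (nat_lit 43) (nat_lit 5) (nat_lit 385) (nat_lit 346) (nat_lit 169)) (XT.nd (nat_lit 78) (nat_lit 152) (nat_lit 0) (XT.lf (nat_lit 0) (nat_lit 90252027278) (nat_lit 228) (nat_lit 19667395228) (nat_lit 76) (nat_lit 13113703860) (nat_lit 40) (nat_lit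 5) (nat_lit 43) (nat_lit 5) (nat_lit 41) (nat_lit 5) (nat_lit 386) (nat_lit 346) (nat_lit 168)) (XT.lf (nat_lit 0) (nat_lit 43463002446) (nat_lit 152) (nat_lit 74725531645) (nat_lit 228) (nat_lit 9031849575) (nat_lit 38) (nat_lit 5) (nat_lit 40) (nat_lit 5) (nat_lit 41) (nat_lit 5) (nat_lit 387) (nat_lit 346) (nat_lit 167))))) (XT.nd (nat_lit 234) (nat_lit 304) (nat_lit 0) (XT.nd (nat_lit 78) (nat_lit 152) (nat_lit 0) (XT.lf (nat_lit 0) (nat_lit 15733711060) (nat_lit 228) (nat_lit 21422433856) (nat_lit 76) (nat_lit 94431548142) (nat_lit 37) (nat_lit 5) (nat_lit 40) (nat_lit 5) (nat_lit 38) (nat_lit 5) (nat_lit 388) (nat_lit 346) (nat_lit 166)) (XT.nd (nat_lit 78) (nat_lit 0) (nat_lit 0) (XT.lf (nat_lit 0) (nat_lit 42190966134) (nat_lit 228) (nat_lit 90849318477) (nat_lit 76) (nat_lit 3087833223) (nat_lit 35) (nat_lit 5) (nat_lit 38) (nat_lit 5) (nat_lit 36) (nat_lit 5) (nat_lit 389) (nat_lit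 346) (nat_lit 165)) (XT.lf (nat_lit 0) (nat_lit 70948352270) (nat_lit 228) (nat_lit 25434646424) (nat_lit 76) (nat_lit 44463702083) (nat_lit 35) (nat_lit 5) (nat_lit 38) (nat_lit 5) (nat_lit 36) (nat_lit 5) (nat_lit 390) (nat_lit 346) (nat_lit 164)))) (XT.nd (nat_lit 78) (nat_lit 152) (nat_lit 0) (XT.lf (nat_lit 0) (nat_lit 44679849991) (nat_lit 152) (nat_lit 57160768122) (nat_lit 228) (nat_lit 43925744561) (nat_lit 33) (nat_lit 5) (nat_lit 35) (nat_lit 5) (nat_lit 36) (nat_lit 5) (nat_lit 391) (nat_lit 346) (nat_lit 163)) (XT.nd (nat_lit 78) (nat_lit 152) (nat_lit 0) (XT.lf (nat_lit 0) (nat_lit 119182176467) (nat_lit 152) (nat_lit 15525514074) (nat_lit 228) (nat_lit 16202807771) (nat_lit 33) (nat_lit 5) (nat_lit 35) (nat_lit 5) (nat_lit 36) (nat_lit 5) (nat_lit 392) (nat_lit 346) (nat_lit 162)) (XT.lf (nat_lit 0) (nat_lit 13606519100) (nat_lit 152) (nat_lit 114475512710) (nat_lit 76) (nat_lit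 28164067814) (nat_lit 31) (nat_lit 5) (nat_lit 33) (nat_lit 5) (nat_lit 32) (nat_lit 5) (nat_lit 393) (nat_lit 346) (nat_lit 161)))))) (XT.nd (nat_lit 468) (nat_lit 304) (nat_lit 0) (XT.nd (nat_lit 234) (nat_lit 304) (nat_lit 0) (XT.nd (nat_lit 78) (nat_lit 152) (nat_lit 0) (XT.lf (nat_lit 0) (nat_lit 45161920389) (nat_lit 152) (nat_lit 42305491102) (nat_lit 76) (nat_lit 74327782356) (nat_lit 31) (nat_lit 5) (nat_lit 33) (nat_lit 5) (nat_lit 32) (nat_lit 5) (nat_lit 394) (nat_lit 346) (nat_lit 160)) (XT.nd (nat_lit 78) (nat_lit 0) (nat_lit 0) (XT.lf (nat_lit 0) (nat_lit 34578907389) (nat_lit 152) (nat_lit 44255552093) (nat_lit 228) (nat_lit 88760315168) (nat_lit 29) (nat_lit 5) (nat_lit 31) (nat_lit 5) (nat_lit 32) (nat_lit 5) (nat_lit 395) (nat_lit 346) (nat_lit 159)) (XT.lf (nat_lit 0) (nat_lit 114935772077) (nat_lit 228) (nat_lit 56902288290) (nat_lit 76) (nat_lit 1809017043) (nat_lit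 29) (nat_lit 5) (nat_lit 32) (nat_lit 5) (nat_lit 30) (nat_lit 4) (nat_lit 396) (nat_lit 346) (nat_lit 158)))) (XT.nd (nat_lit 78) (nat_lit 228) (nat_lit 0) (XT.lf (nat_lit 0) (nat_lit 23027668780) (nat_lit 76) (nat_lit 130899031991) (nat_lit 152) (nat_lit 26021067246) (nat_lit 28) (nat_lit 5) (nat_lit 29) (nat_lit 5) (nat_lit 30) (nat_lit 4) (nat_lit 397) (nat_lit 346) (nat_lit 157)) (XT.nd (nat_lit 78) (nat_lit 152) (nat_lit 0) (XT.lf (nat_lit 0) (nat_lit 9016903930) (nat_lit 152) (nat_lit 77731940431) (nat_lit 76) (nat_lit 99759217271) (nat_lit 27) (nat_lit 5) (nat_lit 29) (nat_lit 5) (nat_lit 28) (nat_lit 5) (nat_lit 398) (nat_lit 346) (nat_lit 156)) (XT.lf (nat_lit 0) (nat_lit 5153193689) (nat_lit 152) (nat_lit 39859105161) (nat_lit 228) (nat_lit 148358742352) (nat_lit 25) (nat_lit 5) (nat_lit 27) (nat_lit 5) (nat_lit 28) (nat_lit 5) (nat_lit 399) (nat_lit 346) (nat_lit 155))))) (XT.nd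 (nat_lit 234) (nat_lit 228) (nat_lit 0) (XT.nd (nat_lit 78) (nat_lit 76) (nat_lit 0) (XT.lf (nat_lit 0) (nat_lit 84291396225) (nat_lit 228) (nat_lit 105798835515) (nat_lit 76) (nat_lit 10412741565) (nat_lit 25) (nat_lit 5) (nat_lit 28) (nat_lit 5) (nat_lit 26) (nat_lit 4) (nat_lit 400) (nat_lit 346) (nat_lit 154)) (XT.nd (nat_lit 78) (nat_lit 76) (nat_lit 0) (XT.lf (nat_lit 0) (nat_lit 126187449741) (nat_lit 228) (nat_lit 19913059376) (nat_lit 76) (nat_lit 61858343015) (nat_lit 25) (nat_lit 5) (nat_lit 28) (nat_lit 5) (nat_lit 26) (nat_lit 4) (nat_lit 401) (nat_lit 346) (nat_lit 153)) (XT.lf (nat_lit 0) (nat_lit 72589603838) (nat_lit 76) (nat_lit 98721622880) (nat_lit 152) (nat_lit 44419652316) (nat_lit 24) (nat_lit 5) (nat_lit 25) (nat_lit 5) (nat_lit 26) (nat_lit 4) (nat_lit 402) (nat_lit 346) (nat_lit 152)))) (XT.nd (nat_lit 78) (nat_lit 228) (nat_lit 0) (XT.lf (nat_lit 0) (nat_lit 170408025934)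 (nat_lit 76) (nat_lit 48620005796) (nat_lit 152) (nat_lit 4846633756) (nat_lit 24) (nat_lit 5) (nat_lit 25) (nat_lit 5) (nat_lit 26) (nat_lit 4) (nat_lit 403) (nat_lit 346) (nat_lit 151)) (XT.nd (nat_lit 78) (nat_lit 0) (nat_lit 0) (XT.lf (nat_lit 0) (nat_lit 36259164726) (nat_lit 228) (nat_lit 191002444055) (nat_lit 76) (nat_lit 5098933238) (nat_lit 21) (nat_lit 5) (nat_lit 24) (nat_lit 5) (nat_lit 22) (nat_lit 4) (nat_lit 404) (nat_lit 346) (nat_lit 150)) (XT.lf (nat_lit 0) (nat_lit 80974368681) (nat_lit 228) (nat_lit 99337164128) (nat_lit 76) (nat_lit 60869357350) (nat_lit 21) (nat_lit 5) (nat_lit 24) (nat_lit 5) (nat_lit 22) (nat_lit 4) (nat_lit 405) (nat_lit 346) (nat_lit 149))))))))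
noncomputable def xc210 : XT := (XT.nd (nat_lit 42510) (nat_lit 0) (nat_lit 3724) (XT.nd (nat_lit 858) (nat_lit 304) (nat_lit 0) (XT.nd (nat_lit 390) (nat_lit 228) (nat_lit 0) (XT.nd (nat_lit 156) (nat_lit 152) (nat_lit 0) (XT.nd (nat_lit 78) (nat_lit 76) (nat_lit 0) (XT.lf (nat_lit 0) (nat_lit 127924968591) (nat_lit 228) (nat_lit 3089280199) (nat_lit 76) (nat_lit 119428025265) (nat_lit 21) (nat_lit 5) (nat_lit 24) (nat_lit 5) (nat_lit 22) (nat_lit 4) (nat_lit 406) (nat_lit 346) (nat_lit 148)) (XT.lf (nat_lit 0) (nat_lit 101209712218) (nat_lit 76) (nat_lit 77593206627) (nat_lit 152) (nat_lit 81284817411) (nat_lit 20) (nat_lit 5) (nat_lit 21) (nat_lit 5) (nat_lit 22) (nat_lit 4) (nat_lit 407) (nat_lit 346) (nat_lit 147))) (XT.nd (nat_lit 78) (nat_lit 152) (nat_lit 0) (XT.lf (nat_lit 0) (nat_lit 210830288662) (nat_lit 76) (nat_lit 21446456372) (nat_lit 152) (nat_lit 37936127736) (nat_lit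 20) (nat_lit 5) (nat_lit 21) (nat_lit 5) (nat_lit 22) (nat_lit 4) (nat_lit 408) (nat_lit 346) (nat_lit 146)) (XT.nd (nat_lit 78) (nat_lit 0) (nat_lit 0) (XT.lf (nat_lit 0) (nat_lit 8661786552) (nat_lit 152) (nat_lit 234945975060) (nat_lit 76) (nat_lit 37164367493) (nat_lit 18) (nat_lit 5) (nat_lit 20) (nat_lit 5) (nat_lit 19) (nat_lit 4) (nat_lit 409) (nat_lit 346) (nat_lit 145)) (XT.lf (nat_lit 0) (nat_lit 57688107412) (nat_lit 152) (nat_lit 134442680072) (nat_lit 76) (nat_lit 99628795017) (nat_lit 18) (nat_lit 5) (nat_lit 20) (nat_lit 5) (nat_lit 19) (nat_lit 4) (nat_lit 410) (nat_lit 346) (nat_lit 144))))) (XT.nd (nat_lit 234) (nat_lit 152) (nat_lit 0) (XT.nd (nat_lit 78) (nat_lit 76) (nat_lit 0) (XT.lf (nat_lit 0) (nat_lit 109165432906) (nat_lit 152) (nat_lit 28914794021) (nat_lit 76) (nat_lit 165216197310) (nat_lit 18) (nat_lit 5) (nat_lit 20) (nat_lit 5) (nat_lit 19) (nat_lit 4) (nat_lit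 411) (nat_lit 346) (nat_lit 143)) (XT.nd (nat_lit 78) (nat_lit 0) (nat_lit 0) (XT.lf (nat_lit 0) (nat_lit 84596558140) (nat_lit 76) (nat_lit 79940559311) (nat_lit 152) (nat_lit 150806966067) (nat_lit 17) (nat_lit 5) (nat_lit 18) (nat_lit 5) (nat_lit 19) (nat_lit 4) (nat_lit 412) (nat_lit 346) (nat_lit 142)) (XT.lf (nat_lit 0) (nat_lit 204786796713) (nat_lit 76) (nat_lit 18379984690) (nat_lit 152) (nat_lit 104802874694) (nat_lit 17) (nat_lit 5) (nat_lit 18) (nat_lit 5) (nat_lit 19) (nat_lit 4) (nat_lit 413) (nat_lit 346) (nat_lit 141)))) (XT.nd (nat_lit 78) (nat_lit 152) (nat_lit 0) (XT.lf (nat_lit 0) (nat_lit 285449874563) (nat_lit 152) (nat_lit 10962708994) (nat_lit 0) (nat_lit 44777826534) (nat_lit 17) (nat_lit 5) (nat_lit 19) (nat_lit 4) (nat_lit 17) (nat_lit 4) (nat_lit 414) (nat_lit 346) (nat_lit 140)) (XT.nd (nat_lit 78) (nat_lit 76) (nat_lit 0) (XT.lf (nat_lit 0) (nat_lit 110090214731)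 (nat_lit 76) (nat_lit 242776768352) (nat_lit 76) (nat_lit 2104225751) (nat_lit 16) (nat_lit 4) (nat_lit 17) (nat_lit 5) (nat_lit 17) (nat_lit 4) (nat_lit 415) (nat_lit 346) (nat_lit 139)) (XT.lf (nat_lit 0) (nat_lit 52667151937) (nat_lit 152) (nat_lit 132705352149) (nat_lit 76) (nat_lit 184016800168) (nat_lit 15) (nat_lit 5) (nat_lit 17) (nat_lit 5) (nat_lit 16) (nat_lit 4) (nat_lit 416) (nat_lit 346) (nat_lit 138)))))) (XT.nd (nat_lit 390) (nat_lit 152) (nat_lit 0) (XT.nd (nat_lit 156) (nat_lit 76) (nat_lit 0) (XT.nd (nat_lit 78) (nat_lit 76) (nat_lit 0) (XT.lf (nat_lit 0) (nat_lit 110106128834) (nat_lit 152) (nat_lit 14955898103) (nat_lit 76) (nat_lit 259464565500) (nat_lit 15) (nat_lit 5) (nat_lit 17) (nat_lit 5) (nat_lit 16) (nat_lit 4) (nat_lit 417) (nat_lit 346) (nat_lit 137)) (XT.lf (nat_lit 0) (nat_lit 112274047421) (nat_lit 76) (nat_lit 59895677878) (nat_lit 152) (nat_lit 228163386262)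 (nat_lit 14) (nat_lit 5) (nat_lit 15) (nat_lit 5) (nat_lit 16) (nat_lit 4) (nat_lit 418) (nat_lit 346) (nat_lit 136))) (XT.nd (nat_lit 78) (nat_lit 76) (nat_lit 0) (XT.lf (nat_lit 0) (nat_lit 237726860125) (nat_lit 152) (nat_lit 170670334082) (nat_lit 0) (nat_lit 8513244574) (nat_lit 14) (nat_lit 5) (nat_lit 16) (nat_lit 4) (nat_lit 14) (nat_lit 4) (nat_lit 419) (nat_lit 346) (nat_lit 135)) (XT.nd (nat_lit 78) (nat_lit 76) (nat_lit 0) (XT.lf (nat_lit 0) (nat_lit 307543519032) (nat_lit 152) (nat_lit 48394495599) (nat_lit 0) (nat_lit 78329534424) (nat_lit 14) (nat_lit 5) (nat_lit 16) (nat_lit 4) (nat_lit 14) (nat_lit 4) (nat_lit 420) (nat_lit 346) (nat_lit 134)) (XT.lf (nat_lit 0) (nat_lit 82639710474) (nat_lit 76) (nat_lit 299501319776) (nat_lit 76) (nat_lit 70286983685) (nat_lit 13) (nat_lit 4) (nat_lit 14) (nat_lit 5) (nat_lit 14) (nat_lit 4) (nat_lit 421) (nat_lit 346) (nat_lit 133)))))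 (XT.nd (nat_lit 41028) (nat_lit 0) (nat_lit 6460) (XT.nd (nat_lit 78) (nat_lit 152) (nat_lit 0) (XT.lf (nat_lit 0) (nat_lit 221905369931) (nat_lit 76) (nat_lit 239382417257) (nat_lit 76) (nat_lit 10167746420) (nat_lit 13) (nat_lit 4) (nat_lit 14) (nat_lit 5) (nat_lit 14) (nat_lit 4) (nat_lit 422) (nat_lit 346) (nat_lit 132)) (XT.nd (nat_lit 78) (nat_lit 76) (nat_lit 0) (XT.lf (nat_lit 0) (nat_lit 51262276252) (nat_lit 152) (nat_lit 124127323325) (nat_lit 76) (nat_lit 316003499389) (nat_lit 12) (nat_lit 5) (nat_lit 14) (nat_lit 5) (nat_lit 13) (nat_lit 4) (nat_lit 423) (nat_lit 346) (nat_lit 131)) (XT.lf (nat_lit 0) (nat_lit 7644265413) (nat_lit 76) (nat_lit 107896982722) (nat_lit 152) (nat_lit 396772002733) (nat_lit 11) (nat_lit 5) (nat_lit 12) (nat_lit 5) (nat_lit 13) (nat_lit 4) (nat_lit 424) (nat_lit 346) (nat_lit 130)))) (XT.nd (nat_lit 78) (nat_lit 0) (nat_lit 0) (XT.lf (nat_lit 0)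 (nat_lit 669122546) (nat_lit 836) (nat_lit 9772283148) (nat_lit 836) (nat_lit 9772283148) (nat_lit 96) (nat_lit 3) (nat_lit 107) (nat_lit 3) (nat_lit 107) (nat_lit 5) (nat_lit 347) (nat_lit 347) (nat_lit 206)) (XT.nd (nat_lit 78) (nat_lit 0) (nat_lit 76) (XT.lf (nat_lit 0) (nat_lit 1410329904) (nat_lit 836) (nat_lit 607253708) (nat_lit 836) (nat_lit 39418498932) (nat_lit 96) (nat_lit 3) (nat_lit 107) (nat_lit 3) (nat_lit 107) (nat_lit 5) (nat_lit 348) (nat_lit 347) (nat_lit 205)) (XT.lf (nat_lit 0) (nat_lit 2077324295) (nat_lit 760) (nat_lit 22849721392) (nat_lit 836) (nat_lit 17538614774) (nat_lit 97) (nat_lit 5) (nat_lit 107) (nat_lit 5) (nat_lit 108) (nat_lit 5) (nat_lit 349) (nat_lit 347) (nat_lit 204))))))) (XT.nd (nat_lit 858) (nat_lit 2356) (nat_lit 0) (XT.nd (nat_lit 390) (nat_lit 456) (nat_lit 0) (XT.nd (nat_lit 156) (nat_lit 0) (nat_lit 76) (XT.nd (nat_lit 78) (nat_lit 0) (nat_lit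 76) (XT.lf (nat_lit 0) (nat_lit 2818838455) (nat_lit 760) (nat_lit 2709490389) (nat_lit 836) (nat_lit 38016332863) (nat_lit 97) (nat_lit 5) (nat_lit 107) (nat_lit 5) (nat_lit 108) (nat_lit 5) (nat_lit 350) (nat_lit 347) (nat_lit 203)) (XT.lf (nat_lit 0) (nat_lit 4129131906) (nat_lit 760) (nat_lit 25853454997) (nat_lit 836) (nat_lit 14668443730) (nat_lit 98) (nat_lit 5) (nat_lit 108) (nat_lit 5) (nat_lit 109) (nat_lit 5) (nat_lit 351) (nat_lit 347) (nat_lit 202))) (XT.nd (nat_lit 78) (nat_lit 0) (nat_lit 76) (XT.lf (nat_lit 0) (nat_lit 5640060765) (nat_lit 760) (nat_lit 4429193785) (nat_lit 836) (nat_lit 35736710080) (nat_lit 98) (nat_lit 5) (nat_lit 108) (nat_lit 5) (nat_lit 109) (nat_lit 5) (nat_lit 352) (nat_lit 347) (nat_lit 201)) (XT.nd (nat_lit 78) (nat_lit 0) (nat_lit 0) (XT.lf (nat_lit 0) (nat_lit 7689886881) (nat_lit 760) (nat_lit 28516002420) (nat_lit 836) (nat_lit 10789591021)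 (nat_lit 99) (nat_lit 5) (nat_lit 109) (nat_lit 5) (nat_lit 110) (nat_lit 5) (nat_lit 353) (nat_lit 347) (nat_lit 200)) (XT.lf (nat_lit 0) (nat_lit 10081555691) (nat_lit 760) (nat_lit 5721136663) (nat_lit 836) (nat_lit 32429814291) (nat_lit 99) (nat_lit 5) (nat_lit 109) (nat_lit 5) (nat_lit 110) (nat_lit 5) (nat_lit 354) (nat_lit 347) (nat_lit 199))))) (XT.nd (nat_lit 234) (nat_lit 684) (nat_lit 0) (XT.nd (nat_lit 78) (nat_lit 0) (nat_lit 0) (XT.lf (nat_lit 0) (nat_lit 12977262757) (nat_lit 760) (nat_lit 30795124722) (nat_lit 836) (nat_lit 5739776362) (nat_lit 100) (nat_lit 5) (nat_lit 110) (nat_lit 5) (nat_lit 111) (nat_lit 5) (nat_lit 355) (nat_lit 347) (nat_lit 198)) (XT.nd (nat_lit 78) (nat_lit 0) (nat_lit 0) (XT.lf (nat_lit 0) (nat_lit 16373502840) (nat_lit 760) (nat_lit 6537336408) (nat_lit 836) (nat_lit 27927179458) (nat_lit 100) (nat_lit 5) (nat_lit 110) (nat_lit 5) (nat_lit 111)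 (nat_lit 5) (nat_lit 356) (nat_lit 347) (nat_lit 197)) (XT.lf (nat_lit 76) (nat_lit 19557910146) (nat_lit 0) (nat_lit 685292426) (nat_lit 836) (nat_lit 31971783446) (nat_lit 101) (nat_lit 5) (nat_lit 100) (nat_lit 5) (nat_lit 111) (nat_lit 5) (nat_lit 357) (nat_lit 347) (nat_lit 196)))) (XT.nd (nat_lit 78) (nat_lit 760) (nat_lit 0) (XT.lf (nat_lit 0) (nat_lit 24770926704) (nat_lit 760) (nat_lit 6827326489) (nat_lit 76) (nat_lit 22039323516) (nat_lit 101) (nat_lit 5) (nat_lit 111) (nat_lit 5) (nat_lit 102) (nat_lit 5) (nat_lit 358) (nat_lit 347) (nat_lit 195)) (XT.nd (nat_lit 78) (nat_lit 0) (nat_lit 0) (XT.lf (nat_lit 0) (nat_lit 20951864503) (nat_lit 760) (nat_lit 8909959974) (nat_lit 836) (nat_lit 25252634981) (nat_lit 91) (nat_lit 5) (nat_lit 101) (nat_lit 5) (nat_lit 102) (nat_lit 5) (nat_lit 359) (nat_lit 347) (nat_lit 194)) (XT.lf (nat_lit 0) (nat_lit 35556107297) (nat_lit 836) (nat_lit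 6538544875) (nat_lit 76) (nat_lit 14553093965) (nat_lit 91) (nat_lit 5) (nat_lit 102) (nat_lit 5) (nat_lit 92) (nat_lit 5) (nat_lit 360) (nat_lit 347) (nat_lit 193)))))) (XT.nd (nat_lit 468) (nat_lit 1216) (nat_lit 0) (XT.nd (nat_lit 234) (nat_lit 456) (nat_lit 0) (XT.nd (nat_lit 78) (nat_lit 304) (nat_lit 0) (XT.lf (nat_lit 0) (nat_lit 23057228699) (nat_lit 380) (nat_lit 18982491115) (nat_lit 456) (nat_lit 16192748276) (nat_lit 86) (nat_lit 5) (nat_lit 91) (nat_lit 5) (nat_lit 92) (nat_lit 5) (nat_lit 361) (nat_lit 347) (nat_lit 192)) (XT.nd (nat_lit 78) (nat_lit 304) (nat_lit 0) (XT.lf (nat_lit 0) (nat_lit 49041189828) (nat_lit 456) (nat_lit 5616866809) (nat_lit 76) (nat_lit 5228687294) (nat_lit 86) (nat_lit 5) (nat_lit 92) (nat_lit 5) (nat_lit 87) (nat_lit 5) (nat_lit 362) (nat_lit 347) (nat_lit 191)) (XT.lf (nat_lit 0) (nat_lit 25937012396) (nat_lit 304) (nat_lit 31170535105) (nat_lit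 380) (nat_lit 4480446912) (nat_lit 82) (nat_lit 5) (nat_lit 86) (nat_lit 5) (nat_lit 87) (nat_lit 5) (nat_lit 363) (nat_lit 347) (nat_lit 190)))) (XT.nd (nat_lit 78) (nat_lit 380) (nat_lit 0) (XT.lf (nat_lit 0) (nat_lit 2227788224) (nat_lit 380) (nat_lit 4143306247) (nat_lit 76) (nat_lit 56996725692) (nat_lit 81) (nat_lit 5) (nat_lit 86) (nat_lit 5) (nat_lit 82) (nat_lit 5) (nat_lit 364) (nat_lit 347) (nat_lit 189)) (XT.nd (nat_lit 78) (nat_lit 0) (nat_lit 0) (XT.lf (nat_lit 0) (nat_lit 9901097392) (nat_lit 456) (nat_lit 35706278760) (nat_lit 76) (nat_lit 19586578164) (nat_lit 76) (nat_lit 5) (nat_lit 82) (nat_lit 5) (nat_lit 77) (nat_lit 5) (nat_lit 365) (nat_lit 347) (nat_lit 188)) (XT.lf (nat_lit 0) (nat_lit 18132630556) (nat_lit 456) (nat_lit 2270793127) (nat_lit 76) (nat_lit 46699244846) (nat_lit 76) (nat_lit 5) (nat_lit 82) (nat_lit 5) (nat_lit 77) (nat_lit 5) (nat_lit 366) (nat_lit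 347) (nat_lit 187))))) (XT.nd (nat_lit 234) (nat_lit 608) (nat_lit 0) (XT.nd (nat_lit 78) (nat_lit 304) (nat_lit 0) (XT.lf (nat_lit 0) (nat_lit 27407496889) (nat_lit 380) (nat_lit 35262855501) (nat_lit 76) (nat_lit 6404879457) (nat_lit 72) (nat_lit 5) (nat_lit 77) (nat_lit 5) (nat_lit 73) (nat_lit 5) (nat_lit 367) (nat_lit 347) (nat_lit 186)) (XT.nd (nat_lit 78) (nat_lit 0) (nat_lit 0) (XT.lf (nat_lit 0) (nat_lit 307434787) (nat_lit 304) (nat_lit 37215926071) (nat_lit 380) (nat_lit 33604200920) (nat_lit 68) (nat_lit 5) (nat_lit 72) (nat_lit 5) (nat_lit 73) (nat_lit 5) (nat_lit 368) (nat_lit 347) (nat_lit 185)) (XT.lf (nat_lit 0) (nat_lit 38879174934) (nat_lit 304) (nat_lit 9861953872) (nat_lit 380) (nat_lit 24511574965) (nat_lit 68) (nat_lit 5) (nat_lit 72) (nat_lit 5) (nat_lit 73) (nat_lit 5) (nat_lit 369) (nat_lit 347) (nat_lit 184)))) (XT.nd (nat_lit 78) (nat_lit 380) (nat_lit 0) (XT.lf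 (nat_lit 0) (nat_lit 3718668669) (nat_lit 228) (nat_lit 57152593777) (nat_lit 304) (nat_lit 14595267606) (nat_lit 65) (nat_lit 5) (nat_lit 68) (nat_lit 5) (nat_lit 69) (nat_lit 5) (nat_lit 370) (nat_lit 347) (nat_lit 183)) (XT.nd (nat_lit 78) (nat_lit 380) (nat_lit 0) (XT.lf (nat_lit 0) (nat_lit 44740553194) (nat_lit 228) (nat_lit 29607540436) (nat_lit 304) (nat_lit 3405945479) (nat_lit 65) (nat_lit 5) (nat_lit 68) (nat_lit 5) (nat_lit 69) (nat_lit 5) (nat_lit 371) (nat_lit 347) (nat_lit 182)) (XT.lf (nat_lit 0) (nat_lit 7774950646) (nat_lit 304) (nat_lit 421283799) (nat_lit 380) (nat_lit 71947156588) (nat_lit 60) (nat_lit 5) (nat_lit 64) (nat_lit 5) (nat_lit 65) (nat_lit 5) (nat_lit 372) (nat_lit 347) (nat_lit 181))))))))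
noncomputable def xc211 : XT := (XT.nd (nat_lit 1716) (nat_lit 1216) (nat_lit 0) (XT.nd (nat_lit 858) (nat_lit 1140) (nat_lit 0) (XT.nd (nat_lit 390) (nat_lit 608) (nat_lit 0) (XT.nd (nat_lit 156) (nat_lit 228) (nat_lit 0) (XT.nd (nat_lit 78) (nat_lit 228) (nat_lit 0) (XT.lf (nat_lit 0) (nat_lit 21303260762) (nat_lit 380) (nat_lit 31413452543) (nat_lit 76) (nat_lit 29880746382) (nat_lit 60) (nat_lit 5) (nat_lit 65) (nat_lit 5) (nat_lit 61) (nat_lit 5) (nat_lit 373) (nat_lit 347) (nat_lit 180)) (XT.lf (nat_lit 0) (nat_lit 11964091533) (nat_lit 228) (nat_lit 23294340218) (nat_lit 304) (nat_lit 49906161180) (nat_lit 57) (nat_lit 5) (nat_lit 60) (nat_lit 5) (nat_lit 61) (nat_lit 5) (nat_lit 374) (nat_lit 347) (nat_lit 179))) (XT.nd (nat_lit 78) (nat_lit 228) (nat_lit 0) (XT.lf (nat_lit 0) (nat_lit 50569842423) (nat_lit 304) (nat_lit 29360964132) (nat_lit 76) (nat_lit 7896353010) (nat_lit 57)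 (nat_lit 5) (nat_lit 61) (nat_lit 5) (nat_lit 58) (nat_lit 5) (nat_lit 375) (nat_lit 347) (nat_lit 178)) (XT.nd (nat_lit 78) (nat_lit 0) (nat_lit 0) (XT.lf (nat_lit 0) (nat_lit 16826039677) (nat_lit 228) (nat_lit 50464515937) (nat_lit 304) (nat_lit 23300113068) (nat_lit 54) (nat_lit 5) (nat_lit 57) (nat_lit 5) (nat_lit 58) (nat_lit 5) (nat_lit 376) (nat_lit 347) (nat_lit 177)) (XT.lf (nat_lit 0) (nat_lit 66340584753) (nat_lit 228) (nat_lit 19003139925) (nat_lit 304) (nat_lit 8123808279) (nat_lit 54) (nat_lit 5) (nat_lit 57) (nat_lit 5) (nat_lit 58) (nat_lit 5) (nat_lit 377) (nat_lit 347) (nat_lit 176))))) (XT.nd (nat_lit 234) (nat_lit 152) (nat_lit 0) (XT.nd (nat_lit 78) (nat_lit 228) (nat_lit 0) (XT.lf (nat_lit 0) (nat_lit 8137624745) (nat_lit 228) (nat_lit 74253793559) (nat_lit 76) (nat_lit 14061908777) (nat_lit 51) (nat_lit 5) (nat_lit 54) (nat_lit 5) (nat_lit 52) (nat_lit 5) (nat_lit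 378) (nat_lit 347) (nat_lit 175)) (XT.nd (nat_lit 78) (nat_lit 228) (nat_lit 0) (XT.lf (nat_lit 0) (nat_lit 25716801473) (nat_lit 228) (nat_lit 25084693408) (nat_lit 76) (nat_lit 48741373523) (nat_lit 51) (nat_lit 5) (nat_lit 54) (nat_lit 5) (nat_lit 52) (nat_lit 5) (nat_lit 379) (nat_lit 347) (nat_lit 174)) (XT.lf (nat_lit 0) (nat_lit 27419363795) (nat_lit 228) (nat_lit 17182922662) (nat_lit 304) (nat_lit 58163233453) (nat_lit 48) (nat_lit 5) (nat_lit 51) (nat_lit 5) (nat_lit 52) (nat_lit 5) (nat_lit 380) (nat_lit 347) (nat_lit 173)))) (XT.nd (nat_lit 78) (nat_lit 152) (nat_lit 0) (XT.lf (nat_lit 0) (nat_lit 65145951545) (nat_lit 304) (nat_lit 22999472663) (nat_lit 76) (nat_lit 17968185048) (nat_lit 48) (nat_lit 5) (nat_lit 52) (nat_lit 5) (nat_lit 49) (nat_lit 5) (nat_lit 381) (nat_lit 347) (nat_lit 172)) (XT.nd (nat_lit 78) (nat_lit 0) (nat_lit 0) (XT.lf (nat_lit 0) (nat_lit 32729351176)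 (nat_lit 152) (nat_lit 54779437236) (nat_lit 228) (nat_lit 22080715765) (nat_lit 46) (nat_lit 5) (nat_lit 48) (nat_lit 5) (nat_lit 49) (nat_lit 5) (nat_lit 382) (nat_lit 347) (nat_lit 171)) (XT.lf (nat_lit 0) (nat_lit 92042072737) (nat_lit 152) (nat_lit 19336522949) (nat_lit 228) (nat_lit 1841157235) (nat_lit 46) (nat_lit 5) (nat_lit 48) (nat_lit 5) (nat_lit 49) (nat_lit 5) (nat_lit 383) (nat_lit 347) (nat_lit 170)))))) (XT.nd (nat_lit 390) (nat_lit 532) (nat_lit 0) (XT.nd (nat_lit 156) (nat_lit 304) (nat_lit 0) (XT.nd (nat_lit 78) (nat_lit 0) (nat_lit 0) (XT.lf (nat_lit 0) (nat_lit 19678874320) (nat_lit 304) (nat_lit 79072698129) (nat_lit 76) (nat_lit 18220302169) (nat_lit 42) (nat_lit 5) (nat_lit 46) (nat_lit 5) (nat_lit 43) (nat_lit 5) (nat_lit 384) (nat_lit 347) (nat_lit 169)) (XT.lf (nat_lit 0) (nat_lit 42893911543) (nat_lit 304) (nat_lit 20582624184) (nat_lit 76) (nat_lit 57399514014)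 (nat_lit 42) (nat_lit 5) (nat_lit 46) (nat_lit 5) (nat_lit 43) (nat_lit 5) (nat_lit 385) (nat_lit 347) (nat_lit 168))) (XT.nd (nat_lit 78) (nat_lit 152) (nat_lit 0) (XT.lf (nat_lit 0) (nat_lit 42181041580) (nat_lit 152) (nat_lit 25746607152) (nat_lit 228) (nat_lit 57014887900) (nat_lit 40) (nat_lit 5) (nat_lit 42) (nat_lit 5) (nat_lit 43) (nat_lit 5) (nat_lit 386) (nat_lit 347) (nat_lit 167)) (XT.nd (nat_lit 78) (nat_lit 152) (nat_lit 0) (XT.lf (nat_lit 0) (nat_lit 94783303391) (nat_lit 228) (nat_lit 20620685272) (nat_lit 76) (nat_lit 13779848071) (nat_lit 40) (nat_lit 5) (nat_lit 43) (nat_lit 5) (nat_lit 41) (nat_lit 5) (nat_lit 387) (nat_lit 347) (nat_lit 166)) (XT.lf (nat_lit 0) (nat_lit 45665747129) (nat_lit 152) (nat_lit 78450461196) (nat_lit 228) (nat_lit 9464270516) (nat_lit 38) (nat_lit 5) (nat_lit 40) (nat_lit 5) (nat_lit 41) (nat_lit 5) (nat_lit 388) (nat_lit 347) (nat_lit 165)))))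 (XT.nd (nat_lit 234) (nat_lit 304) (nat_lit 0) (XT.nd (nat_lit 78) (nat_lit 152) (nat_lit 0) (XT.lf (nat_lit 0) (nat_lit 16538070831) (nat_lit 228) (nat_lit 22464775313) (nat_lit 76) (nat_lit 99163337306) (nat_lit 37) (nat_lit 5) (nat_lit 40) (nat_lit 5) (nat_lit 38) (nat_lit 5) (nat_lit 389) (nat_lit 347) (nat_lit 164)) (XT.nd (nat_lit 78) (nat_lit 0) (nat_lit 0) (XT.lf (nat_lit 0) (nat_lit 44317961509) (nat_lit 228) (nat_lit 95362766967) (nat_lit 76) (nat_lit 3252912849) (nat_lit 35) (nat_lit 5) (nat_lit 38) (nat_lit 5) (nat_lit 36) (nat_lit 5) (nat_lit 390) (nat_lit 347) (nat_lit 163)) (XT.lf (nat_lit 0) (nat_lit 74512386138) (nat_lit 228) (nat_lit 26678743095) (nat_lit 76) (nat_lit 46697066201) (nat_lit 35) (nat_lit 5) (nat_lit 38) (nat_lit 5) (nat_lit 36) (nat_lit 5) (nat_lit 391) (nat_lit 347) (nat_lit 162)))) (XT.nd (nat_lit 78) (nat_lit 152) (nat_lit 0) (XT.lf (nat_lit 0) (nat_lit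 46941032405) (nat_lit 152) (nat_lit 60007866129) (nat_lit 228) (nat_lit 46104960684) (nat_lit 33) (nat_lit 5) (nat_lit 35) (nat_lit 5) (nat_lit 36) (nat_lit 5) (nat_lit 392) (nat_lit 347) (nat_lit 161)) (XT.nd (nat_lit 78) (nat_lit 152) (nat_lit 0) (XT.lf (nat_lit 0) (nat_lit 125167180447) (nat_lit 152) (nat_lit 16291370350) (nat_lit 228) (nat_lit 16996689964) (nat_lit 33) (nat_lit 5) (nat_lit 35) (nat_lit 5) (nat_lit 36) (nat_lit 5) (nat_lit 393) (nat_lit 347) (nat_lit 160)) (XT.lf (nat_lit 0) (nat_lit 14302404908) (nat_lit 152) (nat_lit 120172678708) (nat_lit 76) (nat_lit 29582535123) (nat_lit 31) (nat_lit 5) (nat_lit 33) (nat_lit 5) (nat_lit 32) (nat_lit 5) (nat_lit 394) (nat_lit 347) (nat_lit 159))))))) (XT.nd (nat_lit 858) (nat_lit 456) (nat_lit 0) (XT.nd (nat_lit 390) (nat_lit 456) (nat_lit 0) (XT.nd (nat_lit 156) (nat_lit 152) (nat_lit 0) (XT.nd (nat_lit 78) (nat_lit 152) (nat_lit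 0) (XT.lf (nat_lit 0) (nat_lit 47434835316) (nat_lit 152) (nat_lit 44395423145) (nat_lit 76) (nat_lit 78053946635) (nat_lit 31) (nat_lit 5) (nat_lit 33) (nat_lit 5) (nat_lit 32) (nat_lit 5) (nat_lit 395) (nat_lit 347) (nat_lit 158)) (XT.lf (nat_lit 0) (nat_lit 36332786520) (nat_lit 152) (nat_lit 46457898468) (nat_lit 228) (nat_lit 93183096128) (nat_lit 29) (nat_lit 5) (nat_lit 31) (nat_lit 5) (nat_lit 32) (nat_lit 5) (nat_lit 396) (nat_lit 347) (nat_lit 157))) (XT.nd (nat_lit 78) (nat_lit 152) (nat_lit 0) (XT.lf (nat_lit 0) (nat_lit 120696527721) (nat_lit 228) (nat_lit 59723113973) (nat_lit 76) (nat_lit 1909084434) (nat_lit 29) (nat_lit 5) (nat_lit 32) (nat_lit 5) (nat_lit 30) (nat_lit 4) (nat_lit 397) (nat_lit 347) (nat_lit 156)) (XT.nd (nat_lit 78) (nat_lit 76) (nat_lit 0) (XT.lf (nat_lit 0) (nat_lit 24202949197) (nat_lit 76) (nat_lit 137433761654) (nat_lit 152) (nat_lit 27307755338)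 (nat_lit 28) (nat_lit 5) (nat_lit 29) (nat_lit 5) (nat_lit 30) (nat_lit 4) (nat_lit 398) (nat_lit 347) (nat_lit 155)) (XT.lf (nat_lit 0) (nat_lit 9480992452) (nat_lit 152) (nat_lit 81595334667) (nat_lit 76) (nat_lit 104756469553) (nat_lit 27) (nat_lit 5) (nat_lit 29) (nat_lit 5) (nat_lit 28) (nat_lit 5) (nat_lit 399) (nat_lit 347) (nat_lit 154))))) (XT.nd (nat_lit 234) (nat_lit 304) (nat_lit 0) (XT.nd (nat_lit 78) (nat_lit 0) (nat_lit 0) (XT.lf (nat_lit 0) (nat_lit 5433681920) (nat_lit 152) (nat_lit 41842200981) (nat_lit 228) (nat_lit 155763056310) (nat_lit 25) (nat_lit 5) (nat_lit 27) (nat_lit 5) (nat_lit 28) (nat_lit 5) (nat_lit 400) (nat_lit 347) (nat_lit 153)) (XT.nd (nat_lit 78) (nat_lit 0) (nat_lit 0) (XT.lf (nat_lit 0) (nat_lit 88518464172) (nat_lit 228) (nat_lit 111066559515) (nat_lit 76) (nat_lit 10942468047) (nat_lit 25) (nat_lit 5) (nat_lit 28) (nat_lit 5) (nat_lit 26) (nat_lit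 4) (nat_lit 401) (nat_lit 347) (nat_lit 152)) (XT.lf (nat_lit 0) (nat_lit 132508725214) (nat_lit 228) (nat_lit 20887552558) (nat_lit 76) (nat_lit 64959916741) (nat_lit 25) (nat_lit 5) (nat_lit 28) (nat_lit 5) (nat_lit 26) (nat_lit 4) (nat_lit 402) (nat_lit 347) (nat_lit 151)))) (XT.nd (nat_lit 78) (nat_lit 228) (nat_lit 0) (XT.lf (nat_lit 0) (nat_lit 76239902529) (nat_lit 76) (nat_lit 103648546737) (nat_lit 152) (nat_lit 46628385825) (nat_lit 24) (nat_lit 5) (nat_lit 25) (nat_lit 5) (nat_lit 26) (nat_lit 4) (nat_lit 403) (nat_lit 347) (nat_lit 150)) (XT.nd (nat_lit 78) (nat_lit 228) (nat_lit 0) (XT.lf (nat_lit 0) (nat_lit 178948254373) (nat_lit 76) (nat_lit 51042284860) (nat_lit 152) (nat_lit 5077299628) (nat_lit 24) (nat_lit 5) (nat_lit 25) (nat_lit 5) (nat_lit 26) (nat_lit 4) (nat_lit 404) (nat_lit 347) (nat_lit 149)) (XT.lf (nat_lit 0) (nat_lit 38083325642) (nat_lit 228) (nat_lit 200532267420)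 (nat_lit 76) (nat_lit 5362411749) (nat_lit 21) (nat_lit 5) (nat_lit 24) (nat_lit 5) (nat_lit 22) (nat_lit 4) (nat_lit 405) (nat_lit 347) (nat_lit 148)))))) (XT.nd (nat_lit 468) (nat_lit 228) (nat_lit 0) (XT.nd (nat_lit 234) (nat_lit 152) (nat_lit 0) (XT.nd (nat_lit 78) (nat_lit 76) (nat_lit 0) (XT.lf (nat_lit 0) (nat_lit 85033756333) (nat_lit 228) (nat_lit 104284690109) (nat_lit 76) (nat_lit 63920950788) (nat_lit 21) (nat_lit 5) (nat_lit 24) (nat_lit 5) (nat_lit 22) (nat_lit 4) (nat_lit 406) (nat_lit 347) (nat_lit 147)) (XT.nd (nat_lit 78) (nat_lit 76) (nat_lit 0) (XT.lf (nat_lit 0) (nat_lit 134331378181) (nat_lit 228) (nat_lit 3225332565) (nat_lit 76) (nat_lit 125407165167) (nat_lit 21) (nat_lit 5) (nat_lit 24) (nat_lit 5) (nat_lit 22) (nat_lit 4) (nat_lit 407) (nat_lit 347) (nat_lit 146)) (XT.lf (nat_lit 0) (nat_lit 106288312511) (nat_lit 76) (nat_lit 81464712394) (nat_lit 152) (nat_lit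 85338596553) (nat_lit 20) (nat_lit 5) (nat_lit 21) (nat_lit 5) (nat_lit 22) (nat_lit 4) (nat_lit 408) (nat_lit 347) (nat_lit 145)))) (XT.nd (nat_lit 78) (nat_lit 152) (nat_lit 0) (XT.lf (nat_lit 0) (nat_lit 221389055173) (nat_lit 76) (nat_lit 22511012938) (nat_lit 152) (nat_lit 39822970572) (nat_lit 20) (nat_lit 5) (nat_lit 21) (nat_lit 5) (nat_lit 22) (nat_lit 4) (nat_lit 409) (nat_lit 347) (nat_lit 144)) (XT.nd (nat_lit 78) (nat_lit 0) (nat_lit 0) (XT.lf (nat_lit 0) (nat_lit 9104453557) (nat_lit 152) (nat_lit 246675629474) (nat_lit 76) (nat_lit 39030170530) (nat_lit 18) (nat_lit 5) (nat_lit 20) (nat_lit 5) (nat_lit 19) (nat_lit 4) (nat_lit 410) (nat_lit 347) (nat_lit 143)) (XT.lf (nat_lit 0) (nat_lit 60581634379) (nat_lit 152) (nat_lit 141148009944) (nat_lit 76) (nat_lit 104617458255) (nat_lit 18) (nat_lit 5) (nat_lit 20) (nat_lit 5) (nat_lit 19) (nat_lit 4) (nat_lit 411) (nat_lit 347)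 (nat_lit 142))))) (XT.nd (nat_lit 234) (nat_lit 152) (nat_lit 0) (XT.nd (nat_lit 78) (nat_lit 76) (nat_lit 0) (XT.lf (nat_lit 0) (nat_lit 114632391787) (nat_lit 152) (nat_lit 30344529787) (nat_lit 76) (nat_lit 173483886688) (nat_lit 18) (nat_lit 5) (nat_lit 20) (nat_lit 5) (nat_lit 19) (nat_lit 4) (nat_lit 412) (nat_lit 347) (nat_lit 141)) (XT.nd (nat_lit 78) (nat_lit 0) (nat_lit 0) (XT.lf (nat_lit 0) (nat_lit 88842131855) (nat_lit 76) (nat_lit 83930360862) (nat_lit 152) (nat_lit 158338366316) (nat_lit 17) (nat_lit 5) (nat_lit 18) (nat_lit 5) (nat_lit 19) (nat_lit 4) (nat_lit 413) (nat_lit 347) (nat_lit 140)) (XT.lf (nat_lit 0) (nat_lit 215041132556) (nat_lit 76) (nat_lit 19292101626) (nat_lit 152) (nat_lit 110034496472) (nat_lit 17) (nat_lit 5) (nat_lit 18) (nat_lit 5) (nat_lit 19) (nat_lit 4) (nat_lit 414) (nat_lit 347) (nat_lit 139)))) (XT.nd (nat_lit 78) (nat_lit 152) (nat_lit 0) (XT.lf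 (nat_lit 0) (nat_lit 299730197968) (nat_lit 152) (nat_lit 11496276059) (nat_lit 0) (nat_lit 47023062644) (nat_lit 17) (nat_lit 5) (nat_lit 19) (nat_lit 4) (nat_lit 17) (nat_lit 4) (nat_lit 415) (nat_lit 347) (nat_lit 138)) (XT.nd (nat_lit 78) (nat_lit 76) (nat_lit 0) (XT.lf (nat_lit 0) (nat_lit 115609058878) (nat_lit 76) (nat_lit 254908953978) (nat_lit 76) (nat_lit 2201370063) (nat_lit 16) (nat_lit 4) (nat_lit 17) (nat_lit 5) (nat_lit 17) (nat_lit 4) (nat_lit 416) (nat_lit 347) (nat_lit 137)) (XT.lf (nat_lit 0) (nat_lit 55307946469) (nat_lit 152) (nat_lit 139326720882) (nat_lit 76) (nat_lit 193223728160) (nat_lit 15) (nat_lit 5) (nat_lit 17) (nat_lit 5) (nat_lit 16) (nat_lit 4) (nat_lit 417) (nat_lit 347) (nat_lit 136))))))))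
noncomputable def xc212 : XT := (XT.nd (nat_lit 42588) (nat_lit 0) (nat_lit 2280) (XT.nd (nat_lit 41730) (nat_lit 0) (nat_lit 5624) (XT.nd (nat_lit 390) (nat_lit 76) (nat_lit 0) (XT.nd (nat_lit 156) (nat_lit 76) (nat_lit 0) (XT.nd (nat_lit 78) (nat_lit 76) (nat_lit 0) (XT.lf (nat_lit 0) (nat_lit 115618518071) (nat_lit 152) (nat_lit 15690455984) (nat_lit 76) (nat_lit 272443591856) (nat_lit 15) (nat_lit 5) (nat_lit 17) (nat_lit 5) (nat_lit 16) (nat_lit 4) (nat_lit 418) (nat_lit 347) (nat_lit 135)) (XT.lf (nat_lit 0) (nat_lit 117900773315) (nat_lit 76) (nat_lit 62884387101) (nat_lit 152) (nat_lit 239564257367) (nat_lit 14) (nat_lit 5) (nat_lit 15) (nat_lit 5) (nat_lit 16) (nat_lit 4) (nat_lit 419) (nat_lit 347) (nat_lit 134))) (XT.nd (nat_lit 78) (nat_lit 76) (nat_lit 0) (XT.lf (nat_lit 0) (nat_lit 249619911412) (nat_lit 152) (nat_lit 179191205038) (nat_lit 0) (nat_lit 8944507034) (nat_lit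 14) (nat_lit 5) (nat_lit 16) (nat_lit 4) (nat_lit 14) (nat_lit 4) (nat_lit 420) (nat_lit 347) (nat_lit 133)) (XT.nd (nat_lit 78) (nat_lit 76) (nat_lit 0) (XT.lf (nat_lit 0) (nat_lit 322927083823) (nat_lit 152) (nat_lit 50802176810) (nat_lit 0) (nat_lit 82251344699) (nat_lit 14) (nat_lit 5) (nat_lit 16) (nat_lit 4) (nat_lit 14) (nat_lit 4) (nat_lit 421) (nat_lit 347) (nat_lit 132)) (XT.lf (nat_lit 0) (nat_lit 86783545317) (nat_lit 76) (nat_lit 314470806057) (nat_lit 76) (nat_lit 73794748127) (nat_lit 13) (nat_lit 4) (nat_lit 14) (nat_lit 5) (nat_lit 14) (nat_lit 4) (nat_lit 422) (nat_lit 347) (nat_lit 131))))) (XT.nd (nat_lit 41106) (nat_lit 0) (nat_lit 6384) (XT.nd (nat_lit 78) (nat_lit 76) (nat_lit 0) (XT.lf (nat_lit 0) (nat_lit 233011923493) (nat_lit 76) (nat_lit 251346224112) (nat_lit 76) (nat_lit 10669862558) (nat_lit 13) (nat_lit 4) (nat_lit 14) (nat_lit 5) (nat_lit 14) (nat_lit 4)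 (nat_lit 423) (nat_lit 347) (nat_lit 130)) (XT.nd (nat_lit 40950) (nat_lit 0) (nat_lit 6384) (XT.lf (nat_lit 0) (nat_lit 53831171461) (nat_lit 152) (nat_lit 130322749224) (nat_lit 76) (nat_lit 331808542732) (nat_lit 12) (nat_lit 5) (nat_lit 14) (nat_lit 5) (nat_lit 13) (nat_lit 4) (nat_lit 424) (nat_lit 347) (nat_lit 129)) (XT.lf (nat_lit 0) (nat_lit 740604256) (nat_lit 836) (nat_lit 10240910176) (nat_lit 836) (nat_lit 10240910176) (nat_lit 96) (nat_lit 3) (nat_lit 107) (nat_lit 3) (nat_lit 107) (nat_lit 5) (nat_lit 348) (nat_lit 348) (nat_lit 204)))) (XT.nd (nat_lit 78) (nat_lit 0) (nat_lit 76) (XT.lf (nat_lit 0) (nat_lit 1553276080) (nat_lit 836) (nat_lit 599545671) (nat_lit 836) (nat_lit 41351353156) (nat_lit 96) (nat_lit 3) (nat_lit 107) (nat_lit 3) (nat_lit 107) (nat_lit 5) (nat_lit 349) (nat_lit 348) (nat_lit 203)) (XT.nd (nat_lit 78) (nat_lit 0) (nat_lit 0) (XT.lf (nat_lit 0) (nat_lit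 2250254654) (nat_lit 760) (nat_lit 23950685223) (nat_lit 836) (nat_lit 18384464420) (nat_lit 97) (nat_lit 5) (nat_lit 107) (nat_lit 5) (nat_lit 108) (nat_lit 5) (nat_lit 350) (nat_lit 348) (nat_lit 202)) (XT.lf (nat_lit 0) (nat_lit 3025555753) (nat_lit 760) (nat_lit 2805419920) (nat_lit 836) (nat_lit 39887548466) (nat_lit 97) (nat_lit 5) (nat_lit 107) (nat_lit 5) (nat_lit 108) (nat_lit 5) (nat_lit 351) (nat_lit 348) (nat_lit 201)))))) (XT.nd (nat_lit 390) (nat_lit 912) (nat_lit 0) (XT.nd (nat_lit 156) (nat_lit 0) (nat_lit 76) (XT.nd (nat_lit 78) (nat_lit 0) (nat_lit 0) (XT.lf (nat_lit 0) (nat_lit 4398459096) (nat_lit 760) (nat_lit 27103599990) (nat_lit 836) (nat_lit 15378301563) (nat_lit 98) (nat_lit 5) (nat_lit 108) (nat_lit 5) (nat_lit 109) (nat_lit 5) (nat_lit 352) (nat_lit 348) (nat_lit 200)) (XT.lf (nat_lit 0) (nat_lit 5981940560) (nat_lit 760) (nat_lit 4610150849) (nat_lit 836) (nat_lit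 37501103342) (nat_lit 98) (nat_lit 5) (nat_lit 108) (nat_lit 5) (nat_lit 109) (nat_lit 5) (nat_lit 353) (nat_lit 348) (nat_lit 199))) (XT.nd (nat_lit 78) (nat_lit 0) (nat_lit 0) (XT.lf (nat_lit 0) (nat_lit 8131750986) (nat_lit 760) (nat_lit 29898722185) (nat_lit 836) (nat_lit 11311841943) (nat_lit 99) (nat_lit 5) (nat_lit 109) (nat_lit 5) (nat_lit 110) (nat_lit 5) (nat_lit 354) (nat_lit 348) (nat_lit 198)) (XT.nd (nat_lit 78) (nat_lit 0) (nat_lit 76) (XT.lf (nat_lit 0) (nat_lit 10640271343) (nat_lit 760) (nat_lit 5966164585) (nat_lit 836) (nat_lit 34034896787) (nat_lit 99) (nat_lit 5) (nat_lit 109) (nat_lit 5) (nat_lit 110) (nat_lit 5) (nat_lit 355) (nat_lit 348) (nat_lit 197)) (XT.lf (nat_lit 0) (nat_lit 13678600180) (nat_lit 760) (nat_lit 32291624305) (nat_lit 836) (nat_lit 6014859675) (nat_lit 100) (nat_lit 5) (nat_lit 110) (nat_lit 5) (nat_lit 111) (nat_lit 5) (nat_lit 356) (nat_lit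 348) (nat_lit 196))))) (XT.nd (nat_lit 234) (nat_lit 1064) (nat_lit 0) (XT.nd (nat_lit 78) (nat_lit 0) (nat_lit 0) (XT.lf (nat_lit 0) (nat_lit 17242153491) (nat_lit 760) (nat_lit 6823006415) (nat_lit 836) (nat_lit 29312199855) (nat_lit 100) (nat_lit 5) (nat_lit 110) (nat_lit 5) (nat_lit 111) (nat_lit 5) (nat_lit 357) (nat_lit 348) (nat_lit 195)) (XT.nd (nat_lit 78) (nat_lit 0) (nat_lit 76) (XT.lf (nat_lit 76) (nat_lit 20576338001) (nat_lit 0) (nat_lit 727253246) (nat_lit 836) (nat_lit 33519674449) (nat_lit 101) (nat_lit 5) (nat_lit 100) (nat_lit 5) (nat_lit 111) (nat_lit 5) (nat_lit 358) (nat_lit 348) (nat_lit 194)) (XT.lf (nat_lit 0) (nat_lit 26055290552) (nat_lit 760) (nat_lit 7127624119) (nat_lit 76) (nat_lit 23134194576) (nat_lit 101) (nat_lit 5) (nat_lit 111) (nat_lit 5) (nat_lit 102) (nat_lit 5) (nat_lit 359) (nat_lit 348) (nat_lit 193)))) (XT.nd (nat_lit 78) (nat_lit 380) (nat_lit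 0) (XT.lf (nat_lit 0) (nat_lit 22039864024) (nat_lit 760) (nat_lit 9359318258) (nat_lit 836) (nat_lit 26468734036) (nat_lit 91) (nat_lit 5) (nat_lit 101) (nat_lit 5) (nat_lit 102) (nat_lit 5) (nat_lit 360) (nat_lit 348) (nat_lit 192)) (XT.nd (nat_lit 78) (nat_lit 380) (nat_lit 0) (XT.lf (nat_lit 0) (nat_lit 37376013911) (nat_lit 836) (nat_lit 6824774329) (nat_lit 76) (nat_lit 15277189872) (nat_lit 91) (nat_lit 5) (nat_lit 102) (nat_lit 5) (nat_lit 92) (nat_lit 5) (nat_lit 361) (nat_lit 348) (nat_lit 191)) (XT.lf (nat_lit 0) (nat_lit 24250131508) (nat_lit 380) (nat_lit 19932295882) (nat_lit 456) (nat_lit 16959580148) (nat_lit 86) (nat_lit 5) (nat_lit 91) (nat_lit 5) (nat_lit 92) (nat_lit 5) (nat_lit 362) (nat_lit 348) (nat_lit 190))))))) (XT.nd (nat_lit 858) (nat_lit 1368) (nat_lit 0) (XT.nd (nat_lit 390) (nat_lit 1216) (nat_lit 0) (XT.nd (nat_lit 156) (nat_lit 456) (nat_lit 0) (XT.nd (nat_lit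 78) (nat_lit 304) (nat_lit 0) (XT.lf (nat_lit 0) (nat_lit 51532021667) (nat_lit 456) (nat_lit 5857580673) (nat_lit 76) (nat_lit 5489494573) (nat_lit 86) (nat_lit 5) (nat_lit 92) (nat_lit 5) (nat_lit 87) (nat_lit 5) (nat_lit 363) (nat_lit 348) (nat_lit 189)) (XT.lf (nat_lit 0) (nat_lit 27273345243) (nat_lit 304) (nat_lit 32727122107) (nat_lit 380) (nat_lit 4665006234) (nat_lit 82) (nat_lit 5) (nat_lit 86) (nat_lit 5) (nat_lit 87) (nat_lit 5) (nat_lit 364) (nat_lit 348) (nat_lit 188))) (XT.nd (nat_lit 78) (nat_lit 380) (nat_lit 0) (XT.lf (nat_lit 0) (nat_lit 2375558550) (nat_lit 380) (nat_lit 4311627132) (nat_lit 76) (nat_lit 59847167055) (nat_lit 81) (nat_lit 5) (nat_lit 86) (nat_lit 5) (nat_lit 82) (nat_lit 5) (nat_lit 365) (nat_lit 348) (nat_lit 187)) (XT.nd (nat_lit 78) (nat_lit 0) (nat_lit 0) (XT.lf (nat_lit 0) (nat_lit 10431443852) (nat_lit 456) (nat_lit 37451621435) (nat_lit 76) (nat_lit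 20568784651) (nat_lit 76) (nat_lit 5) (nat_lit 82) (nat_lit 5) (nat_lit 77) (nat_lit 5) (nat_lit 366) (nat_lit 348) (nat_lit 186)) (XT.lf (nat_lit 0) (nat_lit 19072873123) (nat_lit 456) (nat_lit 2346264914) (nat_lit 76) (nat_lit 49036947640) (nat_lit 76) (nat_lit 5) (nat_lit 82) (nat_lit 5) (nat_lit 77) (nat_lit 5) (nat_lit 367) (nat_lit 348) (nat_lit 185))))) (XT.nd (nat_lit 234) (nat_lit 608) (nat_lit 0) (XT.nd (nat_lit 78) (nat_lit 304) (nat_lit 0) (XT.lf (nat_lit 0) (nat_lit 28810542863) (nat_lit 380) (nat_lit 36986956472) (nat_lit 76) (nat_lit 6729826523) (nat_lit 72) (nat_lit 5) (nat_lit 77) (nat_lit 5) (nat_lit 73) (nat_lit 5) (nat_lit 368) (nat_lit 348) (nat_lit 184)) (XT.nd (nat_lit 78) (nat_lit 0) (nat_lit 0) (XT.lf (nat_lit 0) (nat_lit 361218624) (nat_lit 304) (nat_lit 39070025359) (nat_lit 380) (nat_lit 35251077724) (nat_lit 68) (nat_lit 5) (nat_lit 72) (nat_lit 5) (nat_lit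 73) (nat_lit 5) (nat_lit 369) (nat_lit 348) (nat_lit 183)) (XT.lf (nat_lit 0) (nat_lit 40859716631) (nat_lit 304) (nat_lit 10348673455) (nat_lit 380) (nat_lit 25705407769) (nat_lit 68) (nat_lit 5) (nat_lit 72) (nat_lit 5) (nat_lit 73) (nat_lit 5) (nat_lit 370) (nat_lit 348) (nat_lit 182)))) (XT.nd (nat_lit 78) (nat_lit 380) (nat_lit 0) (XT.lf (nat_lit 0) (nat_lit 3942013279) (nat_lit 228) (nat_lit 60002257736) (nat_lit 304) (nat_lit 15294083876) (nat_lit 65) (nat_lit 5) (nat_lit 68) (nat_lit 5) (nat_lit 69) (nat_lit 5) (nat_lit 371) (nat_lit 348) (nat_lit 181)) (XT.nd (nat_lit 78) (nat_lit 380) (nat_lit 0) (XT.lf (nat_lit 0) (nat_lit 47013210545) (nat_lit 228) (nat_lit 31080331049) (nat_lit 304) (nat_lit 3546769315) (nat_lit 65) (nat_lit 5) (nat_lit 68) (nat_lit 5) (nat_lit 69) (nat_lit 5) (nat_lit 372) (nat_lit 348) (nat_lit 180)) (XT.lf (nat_lit 0) (nat_lit 8199707546) (nat_lit 304) (nat_lit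 434072357) (nat_lit 380) (nat_lit 75515368605) (nat_lit 60) (nat_lit 5) (nat_lit 64) (nat_lit 5) (nat_lit 65) (nat_lit 5) (nat_lit 373) (nat_lit 348) (nat_lit 179)))))) (XT.nd (nat_lit 468) (nat_lit 684) (nat_lit 0) (XT.nd (nat_lit 234) (nat_lit 456) (nat_lit 0) (XT.nd (nat_lit 78) (nat_lit 228) (nat_lit 0) (XT.lf (nat_lit 0) (nat_lit 22394959934) (nat_lit 380) (nat_lit 32948608752) (nat_lit 76) (nat_lit 31382412997) (nat_lit 60) (nat_lit 5) (nat_lit 65) (nat_lit 5) (nat_lit 61) (nat_lit 5) (nat_lit 374) (nat_lit 348) (nat_lit 178)) (XT.nd (nat_lit 78) (nat_lit 0) (nat_lit 0) (XT.lf (nat_lit 0) (nat_lit 12597239682) (nat_lit 228) (nat_lit 24449931732) (nat_lit 304) (nat_lit 52374337229) (nat_lit 57) (nat_lit 5) (nat_lit 60) (nat_lit 5) (nat_lit 61) (nat_lit 5) (nat_lit 375) (nat_lit 348) (nat_lit 177)) (XT.lf (nat_lit 0) (nat_lit 53123058878) (nat_lit 304) (nat_lit 30794617071) (nat_lit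 76) (nat_lit 8299583445) (nat_lit 57) (nat_lit 5) (nat_lit 61) (nat_lit 5) (nat_lit 58) (nat_lit 5) (nat_lit 376) (nat_lit 348) (nat_lit 176)))) (XT.nd (nat_lit 78) (nat_lit 228) (nat_lit 0) (XT.lf (nat_lit 0) (nat_lit 17701182166) (nat_lit 228) (nat_lit 52977976558) (nat_lit 304) (nat_lit 24439818737) (nat_lit 54) (nat_lit 5) (nat_lit 57) (nat_lit 5) (nat_lit 58) (nat_lit 5) (nat_lit 377) (nat_lit 348) (nat_lit 175)) (XT.nd (nat_lit 78) (nat_lit 228) (nat_lit 0) (XT.lf (nat_lit 0) (nat_lit 69689843043) (nat_lit 228) (nat_lit 19943996754) (nat_lit 304) (nat_lit 8505903469) (nat_lit 54) (nat_lit 5) (nat_lit 57) (nat_lit 5) (nat_lit 58) (nat_lit 5) (nat_lit 378) (nat_lit 348) (nat_lit 174)) (XT.lf (nat_lit 0) (nat_lit 8567379024) (nat_lit 228) (nat_lit 77932995011) (nat_lit 76) (nat_lit 14774457705) (nat_lit 51) (nat_lit 5) (nat_lit 54) (nat_lit 5) (nat_lit 52) (nat_lit 5) (nat_lit 379) (nat_lit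 348) (nat_lit 173))))) (XT.nd (nat_lit 234) (nat_lit 456) (nat_lit 0) (XT.nd (nat_lit 78) (nat_lit 228) (nat_lit 0) (XT.lf (nat_lit 0) (nat_lit 27024425395) (nat_lit 228) (nat_lit 26307034530) (nat_lit 76) (nat_lit 51187445522) (nat_lit 51) (nat_lit 5) (nat_lit 54) (nat_lit 5) (nat_lit 52) (nat_lit 5) (nat_lit 380) (nat_lit 348) (nat_lit 172)) (XT.nd (nat_lit 78) (nat_lit 0) (nat_lit 0) (XT.lf (nat_lit 0) (nat_lit 28821711122) (nat_lit 228) (nat_lit 18031926097) (nat_lit 304) (nat_lit 61049080498) (nat_lit 48) (nat_lit 5) (nat_lit 51) (nat_lit 5) (nat_lit 52) (nat_lit 5) (nat_lit 381) (nat_lit 348) (nat_lit 171)) (XT.lf (nat_lit 0) (nat_lit 68423625118) (nat_lit 304) (nat_lit 24118685373) (nat_lit 76) (nat_lit 18875944842) (nat_lit 48) (nat_lit 5) (nat_lit 52) (nat_lit 5) (nat_lit 49) (nat_lit 5) (nat_lit 382) (nat_lit 348) (nat_lit 170)))) (XT.nd (nat_lit 78) (nat_lit 304) (nat_lit 0)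 (XT.lf (nat_lit 0) (nat_lit 34396083514) (nat_lit 152) (nat_lit 57508022546) (nat_lit 228) (nat_lit 23163864569) (nat_lit 46) (nat_lit 5) (nat_lit 48) (nat_lit 5) (nat_lit 49) (nat_lit 5) (nat_lit 383) (nat_lit 348) (nat_lit 169)) (XT.nd (nat_lit 78) (nat_lit 304) (nat_lit 0) (XT.lf (nat_lit 0) (nat_lit 96672999974) (nat_lit 152) (nat_lit 20293457142) (nat_lit 228) (nat_lit 1913322731) (nat_lit 46) (nat_lit 5) (nat_lit 48) (nat_lit 5) (nat_lit 49) (nat_lit 5) (nat_lit 384) (nat_lit 348) (nat_lit 168)) (XT.lf (nat_lit 0) (nat_lit 20681768888) (nat_lit 304) (nat_lit 82996541634) (nat_lit 76) (nat_lit 19141197461) (nat_lit 42) (nat_lit 5) (nat_lit 46) (nat_lit 5) (nat_lit 43) (nat_lit 5) (nat_lit 385) (nat_lit 348) (nat_lit 167))))))))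
noncomputable def xc213 : XT := (XT.nd (nat_lit 1716) (nat_lit 608) (nat_lit 0) (XT.nd (nat_lit 858) (nat_lit 760) (nat_lit 0) (XT.nd (nat_lit 390) (nat_lit 456) (nat_lit 0) (XT.nd (nat_lit 156) (nat_lit 228) (nat_lit 0) (XT.nd (nat_lit 78) (nat_lit 152) (nat_lit 0) (XT.lf (nat_lit 0) (nat_lit 45056655550) (nat_lit 304) (nat_lit 21583382630) (nat_lit 76) (nat_lit 60278899414) (nat_lit 42) (nat_lit 5) (nat_lit 46) (nat_lit 5) (nat_lit 43) (nat_lit 5) (nat_lit 386) (nat_lit 348) (nat_lit 166)) (XT.lf (nat_lit 0) (nat_lit 44318008797) (nat_lit 152) (nat_lit 27023647185) (nat_lit 228) (nat_lit 59847114608) (nat_lit 40) (nat_lit 5) (nat_lit 42) (nat_lit 5) (nat_lit 43) (nat_lit 5) (nat_lit 387) (nat_lit 348) (nat_lit 165))) (XT.nd (nat_lit 78) (nat_lit 228) (nat_lit 0) (XT.lf (nat_lit 0) (nat_lit 99539407109) (nat_lit 228) (nat_lit 21624436345) (nat_lit 76) (nat_lit 14478327112) (nat_lit 40)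 (nat_lit 5) (nat_lit 43) (nat_lit 5) (nat_lit 41) (nat_lit 5) (nat_lit 388) (nat_lit 348) (nat_lit 164)) (XT.nd (nat_lit 78) (nat_lit 76) (nat_lit 0) (XT.lf (nat_lit 0) (nat_lit 47975877625) (nat_lit 152) (nat_lit 82362692164) (nat_lit 228) (nat_lit 9920094892) (nat_lit 38) (nat_lit 5) (nat_lit 40) (nat_lit 5) (nat_lit 41) (nat_lit 5) (nat_lit 389) (nat_lit 348) (nat_lit 163)) (XT.lf (nat_lit 0) (nat_lit 17381005409) (nat_lit 228) (nat_lit 23561909557) (nat_lit 76) (nat_lit 104130766535) (nat_lit 37) (nat_lit 5) (nat_lit 40) (nat_lit 5) (nat_lit 38) (nat_lit 5) (nat_lit 390) (nat_lit 348) (nat_lit 162))))) (XT.nd (nat_lit 234) (nat_lit 152) (nat_lit 0) (XT.nd (nat_lit 78) (nat_lit 152) (nat_lit 0) (XT.lf (nat_lit 0) (nat_lit 46549684589) (nat_lit 228) (nat_lit 100104585648) (nat_lit 76) (nat_lit 3425252790) (nat_lit 35) (nat_lit 5) (nat_lit 38) (nat_lit 5) (nat_lit 36) (nat_lit 5) (nat_lit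 391) (nat_lit 348) (nat_lit 161)) (XT.nd (nat_lit 78) (nat_lit 152) (nat_lit 0) (XT.lf (nat_lit 0) (nat_lit 78253076878) (nat_lit 228) (nat_lit 27987613899) (nat_lit 76) (nat_lit 49041152177) (nat_lit 35) (nat_lit 5) (nat_lit 38) (nat_lit 5) (nat_lit 36) (nat_lit 5) (nat_lit 392) (nat_lit 348) (nat_lit 160)) (XT.lf (nat_lit 0) (nat_lit 49312746079) (nat_lit 152) (nat_lit 62998336171) (nat_lit 228) (nat_lit 48394724723) (nat_lit 33) (nat_lit 5) (nat_lit 35) (nat_lit 5) (nat_lit 36) (nat_lit 5) (nat_lit 393) (nat_lit 348) (nat_lit 159)))) (XT.nd (nat_lit 78) (nat_lit 152) (nat_lit 0) (XT.lf (nat_lit 0) (nat_lit 131449027140) (nat_lit 152) (nat_lit 17096488140) (nat_lit 228) (nat_lit 17831777800) (nat_lit 33) (nat_lit 5) (nat_lit 35) (nat_lit 5) (nat_lit 36) (nat_lit 5) (nat_lit 394) (nat_lit 348) (nat_lit 158)) (XT.nd (nat_lit 78) (nat_lit 0) (nat_lit 0) (XT.lf (nat_lit 0) (nat_lit 15031638399)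 (nat_lit 152) (nat_lit 126157176918) (nat_lit 76) (nat_lit 31070971557) (nat_lit 31) (nat_lit 5) (nat_lit 33) (nat_lit 5) (nat_lit 32) (nat_lit 5) (nat_lit 395) (nat_lit 348) (nat_lit 157)) (XT.lf (nat_lit 0) (nat_lit 49820018268) (nat_lit 152) (nat_lit 46592207897) (nat_lit 76) (nat_lit 81965510326) (nat_lit 31) (nat_lit 5) (nat_lit 33) (nat_lit 5) (nat_lit 32) (nat_lit 5) (nat_lit 396) (nat_lit 348) (nat_lit 156)))))) (XT.nd (nat_lit 390) (nat_lit 304) (nat_lit 0) (XT.nd (nat_lit 156) (nat_lit 304) (nat_lit 0) (XT.nd (nat_lit 78) (nat_lit 0) (nat_lit 0) (XT.lf (nat_lit 0) (nat_lit 38172041503) (nat_lit 152) (nat_lit 48771331958) (nat_lit 228) (nat_lit 97828432523) (nat_lit 29) (nat_lit 5) (nat_lit 31) (nat_lit 5) (nat_lit 32) (nat_lit 5) (nat_lit 397) (nat_lit 348) (nat_lit 155)) (XT.lf (nat_lit 0) (nat_lit 126744022624) (nat_lit 228) (nat_lit 62687239076) (nat_lit 76) (nat_lit 2013261140)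 (nat_lit 29) (nat_lit 5) (nat_lit 32) (nat_lit 5) (nat_lit 30) (nat_lit 4) (nat_lit 398) (nat_lit 348) (nat_lit 154))) (XT.nd (nat_lit 78) (nat_lit 228) (nat_lit 0) (XT.lf (nat_lit 0) (nat_lit 25434771920) (nat_lit 76) (nat_lit 144296178140) (nat_lit 152) (nat_lit 28660113381) (nat_lit 28) (nat_lit 5) (nat_lit 29) (nat_lit 5) (nat_lit 30) (nat_lit 4) (nat_lit 399) (nat_lit 348) (nat_lit 153)) (XT.nd (nat_lit 78) (nat_lit 152) (nat_lit 0) (XT.lf (nat_lit 0) (nat_lit 9967054162) (nat_lit 152) (nat_lit 85654055790) (nat_lit 76) (nat_lit 110002720621) (nat_lit 27) (nat_lit 5) (nat_lit 29) (nat_lit 5) (nat_lit 28) (nat_lit 5) (nat_lit 400) (nat_lit 348) (nat_lit 152)) (XT.lf (nat_lit 0) (nat_lit 5726072181) (nat_lit 152) (nat_lit 43925368229) (nat_lit 228) (nat_lit 163538852518) (nat_lit 25) (nat_lit 5) (nat_lit 27) (nat_lit 5) (nat_lit 28) (nat_lit 5) (nat_lit 401) (nat_lit 348) (nat_lit 151)))))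 (XT.nd (nat_lit 234) (nat_lit 228) (nat_lit 0) (XT.nd (nat_lit 78) (nat_lit 76) (nat_lit 0) (XT.lf (nat_lit 0) (nat_lit 92955723558) (nat_lit 228) (nat_lit 116599735314) (nat_lit 76) (nat_lit 11497835807) (nat_lit 25) (nat_lit 5) (nat_lit 28) (nat_lit 5) (nat_lit 26) (nat_lit 4) (nat_lit 402) (nat_lit 348) (nat_lit 150)) (XT.nd (nat_lit 78) (nat_lit 76) (nat_lit 0) (XT.lf (nat_lit 0) (nat_lit 139144957835) (nat_lit 228) (nat_lit 21912737637) (nat_lit 76) (nat_lit 68215764347) (nat_lit 25) (nat_lit 5) (nat_lit 28) (nat_lit 5) (nat_lit 26) (nat_lit 4) (nat_lit 403) (nat_lit 348) (nat_lit 149)) (XT.lf (nat_lit 0) (nat_lit 80070780647) (nat_lit 76) (nat_lit 108822668145) (nat_lit 152) (nat_lit 48948694816) (nat_lit 24) (nat_lit 5) (nat_lit 25) (nat_lit 5) (nat_lit 26) (nat_lit 4) (nat_lit 404) (nat_lit 348) (nat_lit 148)))) (XT.nd (nat_lit 78) (nat_lit 228) (nat_lit 0) (XT.lf (nat_lit 0) (nat_lit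 187913650894) (nat_lit 76) (nat_lit 53586488695) (nat_lit 152) (nat_lit 5320583371) (nat_lit 24) (nat_lit 5) (nat_lit 25) (nat_lit 5) (nat_lit 26) (nat_lit 4) (nat_lit 405) (nat_lit 348) (nat_lit 147)) (XT.nd (nat_lit 78) (nat_lit 0) (nat_lit 0) (XT.lf (nat_lit 0) (nat_lit 39997653084) (nat_lit 228) (nat_lit 210540469148) (nat_lit 76) (nat_lit 5638270975) (nat_lit 21) (nat_lit 5) (nat_lit 24) (nat_lit 5) (nat_lit 22) (nat_lit 4) (nat_lit 406) (nat_lit 348) (nat_lit 146)) (XT.lf (nat_lit 0) (nat_lit 89295121446) (nat_lit 228) (nat_lit 109481389715) (nat_lit 76) (nat_lit 67124368460) (nat_lit 21) (nat_lit 5) (nat_lit 24) (nat_lit 5) (nat_lit 22) (nat_lit 4) (nat_lit 407) (nat_lit 348) (nat_lit 145))))))) (XT.nd (nat_lit 858) (nat_lit 152) (nat_lit 0) (XT.nd (nat_lit 390) (nat_lit 228) (nat_lit 0) (XT.nd (nat_lit 156) (nat_lit 152) (nat_lit 0) (XT.nd (nat_lit 78) (nat_lit 76) (nat_lit 0) (XT.lf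 (nat_lit 0) (nat_lit 141057163562) (nat_lit 228) (nat_lit 3369899290) (nat_lit 76) (nat_lit 131684542599) (nat_lit 21) (nat_lit 5) (nat_lit 24) (nat_lit 5) (nat_lit 22) (nat_lit 4) (nat_lit 408) (nat_lit 348) (nat_lit 144)) (XT.lf (nat_lit 0) (nat_lit 111619158687) (nat_lit 76) (nat_lit 85530551582) (nat_lit 152) (nat_lit 89596037284) (nat_lit 20) (nat_lit 5) (nat_lit 21) (nat_lit 5) (nat_lit 22) (nat_lit 4) (nat_lit 409) (nat_lit 348) (nat_lit 143))) (XT.nd (nat_lit 78) (nat_lit 152) (nat_lit 0) (XT.lf (nat_lit 0) (nat_lit 232474156075) (nat_lit 76) (nat_lit 23629519365) (nat_lit 152) (nat_lit 41805081865) (nat_lit 20) (nat_lit 5) (nat_lit 21) (nat_lit 5) (nat_lit 22) (nat_lit 4) (nat_lit 410) (nat_lit 348) (nat_lit 142)) (XT.nd (nat_lit 78) (nat_lit 0) (nat_lit 0) (XT.lf (nat_lit 0) (nat_lit 9568363470) (nat_lit 152) (nat_lit 258993407012) (nat_lit 76) (nat_lit 40988558569) (nat_lit 18)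 (nat_lit 5) (nat_lit 20) (nat_lit 5) (nat_lit 19) (nat_lit 4) (nat_lit 411) (nat_lit 348) (nat_lit 141)) (XT.lf (nat_lit 0) (nat_lit 63618989656) (nat_lit 152) (nat_lit 148190168598) (nat_lit 76) (nat_lit 109854883085) (nat_lit 18) (nat_lit 5) (nat_lit 20) (nat_lit 5) (nat_lit 19) (nat_lit 4) (nat_lit 412) (nat_lit 348) (nat_lit 140))))) (XT.nd (nat_lit 234) (nat_lit 152) (nat_lit 0) (XT.nd (nat_lit 78) (nat_lit 76) (nat_lit 0) (XT.lf (nat_lit 0) (nat_lit 120371890955) (nat_lit 152) (nat_lit 31847240235) (nat_lit 76) (nat_lit 182164320943) (nat_lit 18) (nat_lit 5) (nat_lit 20) (nat_lit 5) (nat_lit 19) (nat_lit 4) (nat_lit 413) (nat_lit 348) (nat_lit 139)) (XT.nd (nat_lit 78) (nat_lit 0) (nat_lit 0) (XT.lf (nat_lit 0) (nat_lit 93298520359) (nat_lit 76) (nat_lit 88120324335) (nat_lit 152) (nat_lit 166247168482) (nat_lit 17) (nat_lit 5) (nat_lit 18) (nat_lit 5) (nat_lit 19) (nat_lit 4) (nat_lit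 414) (nat_lit 348) (nat_lit 138)) (XT.lf (nat_lit 0) (nat_lit 225806791004) (nat_lit 76) (nat_lit 20250464259) (nat_lit 152) (nat_lit 115528491629) (nat_lit 17) (nat_lit 5) (nat_lit 18) (nat_lit 5) (nat_lit 19) (nat_lit 4) (nat_lit 415) (nat_lit 348) (nat_lit 137)))) (XT.nd (nat_lit 78) (nat_lit 152) (nat_lit 0) (XT.lf (nat_lit 0) (nat_lit 314723809613) (nat_lit 152) (nat_lit 12057875908) (nat_lit 0) (nat_lit 49379970682) (nat_lit 17) (nat_lit 5) (nat_lit 19) (nat_lit 4) (nat_lit 17) (nat_lit 4) (nat_lit 416) (nat_lit 348) (nat_lit 136)) (XT.nd (nat_lit 78) (nat_lit 76) (nat_lit 0) (XT.lf (nat_lit 0) (nat_lit 121402512648) (nat_lit 76) (nat_lit 267648367399) (nat_lit 76) (nat_lit 2304121582) (nat_lit 16) (nat_lit 4) (nat_lit 17) (nat_lit 5) (nat_lit 17) (nat_lit 4) (nat_lit 417) (nat_lit 348) (nat_lit 135)) (XT.lf (nat_lit 0) (nat_lit 58080089312) (nat_lit 152) (nat_lit 146280450237) (nat_lit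 76) (nat_lit 202890436549) (nat_lit 15) (nat_lit 5) (nat_lit 17) (nat_lit 5) (nat_lit 16) (nat_lit 4) (nat_lit 418) (nat_lit 348) (nat_lit 134)))))) (XT.nd (nat_lit 41496) (nat_lit 0) (nat_lit 6308) (XT.nd (nat_lit 234) (nat_lit 76) (nat_lit 0) (XT.nd (nat_lit 78) (nat_lit 76) (nat_lit 0) (XT.lf (nat_lit 0) (nat_lit 121405868278) (nat_lit 152) (nat_lit 16462972413) (nat_lit 76) (nat_lit 286071030478) (nat_lit 15) (nat_lit 5) (nat_lit 17) (nat_lit 5) (nat_lit 16) (nat_lit 4) (nat_lit 419) (nat_lit 348) (nat_lit 133)) (XT.nd (nat_lit 78) (nat_lit 0) (nat_lit 0) (XT.lf (nat_lit 0) (nat_lit 123807624700) (nat_lit 76) (nat_lit 66023096552) (nat_lit 152) (nat_lit 251535850546) (nat_lit 14) (nat_lit 5) (nat_lit 15) (nat_lit 5) (nat_lit 16) (nat_lit 4) (nat_lit 420) (nat_lit 348) (nat_lit 132)) (XT.lf (nat_lit 0) (nat_lit 262106991592) (nat_lit 152) (nat_lit 188139295223) (nat_lit 0) (nat_lit 9396811960)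 (nat_lit 14) (nat_lit 5) (nat_lit 16) (nat_lit 4) (nat_lit 14) (nat_lit 4) (nat_lit 421) (nat_lit 348) (nat_lit 131)))) (XT.nd (nat_lit 78) (nat_lit 76) (nat_lit 0) (XT.lf (nat_lit 0) (nat_lit 339079232880) (nat_lit 152) (nat_lit 53331361777) (nat_lit 0) (nat_lit 86368749624) (nat_lit 14) (nat_lit 5) (nat_lit 16) (nat_lit 4) (nat_lit 14) (nat_lit 4) (nat_lit 422) (nat_lit 348) (nat_lit 130)) (XT.nd (nat_lit 41106) (nat_lit 0) (nat_lit 6308) (XT.lf (nat_lit 0) (nat_lit 91133470264) (nat_lit 76) (nat_lit 330189285400) (nat_lit 76) (nat_lit 77478512977) (nat_lit 13) (nat_lit 4) (nat_lit 14) (nat_lit 5) (nat_lit 14) (nat_lit 4) (nat_lit 423) (nat_lit 348) (nat_lit 129)) (XT.lf (nat_lit 0) (nat_lit 812124792) (nat_lit 836) (nat_lit 10734826770) (nat_lit 836) (nat_lit 10734826770) (nat_lit 96) (nat_lit 3) (nat_lit 107) (nat_lit 3) (nat_lit 107) (nat_lit 5) (nat_lit 349) (nat_lit 349) (nat_lit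 202))))) (XT.nd (nat_lit 234) (nat_lit 0) (nat_lit 152) (XT.nd (nat_lit 78) (nat_lit 0) (nat_lit 76) (XT.lf (nat_lit 0) (nat_lit 1696635739) (nat_lit 836) (nat_lit 594991688) (nat_lit 836) (nat_lit 43384389547) (nat_lit 96) (nat_lit 3) (nat_lit 107) (nat_lit 3) (nat_lit 107) (nat_lit 5) (nat_lit 350) (nat_lit 349) (nat_lit 201)) (XT.nd (nat_lit 78) (nat_lit 0) (nat_lit 0) (XT.lf (nat_lit 0) (nat_lit 2425410601) (nat_lit 760) (nat_lit 25110557590) (nat_lit 836) (nat_lit 19275496173) (nat_lit 97) (nat_lit 5) (nat_lit 107) (nat_lit 5) (nat_lit 108) (nat_lit 5) (nat_lit 351) (nat_lit 349) (nat_lit 200)) (XT.lf (nat_lit 0) (nat_lit 3236493745) (nat_lit 760) (nat_lit 2909822445) (nat_lit 836) (nat_lit 41855076873) (nat_lit 97) (nat_lit 5) (nat_lit 107) (nat_lit 5) (nat_lit 108) (nat_lit 5) (nat_lit 352) (nat_lit 349) (nat_lit 199)))) (XT.nd (nat_lit 78) (nat_lit 0) (nat_lit 0) (XT.lf (nat_lit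 0) (nat_lit 4675407533) (nat_lit 760) (nat_lit 28420206061) (nat_lit 836) (nat_lit 16125843077) (nat_lit 98) (nat_lit 5) (nat_lit 108) (nat_lit 5) (nat_lit 109) (nat_lit 5) (nat_lit 353) (nat_lit 349) (nat_lit 198)) (XT.nd (nat_lit 78) (nat_lit 0) (nat_lit 76) (XT.lf (nat_lit 0) (nat_lit 6335347571) (nat_lit 760) (nat_lit 4803921316) (nat_lit 836) (nat_lit 39355802735) (nat_lit 98) (nat_lit 5) (nat_lit 108) (nat_lit 5) (nat_lit 109) (nat_lit 5) (nat_lit 354) (nat_lit 349) (nat_lit 197)) (XT.lf (nat_lit 0) (nat_lit 8590374600) (nat_lit 760) (nat_lit 31354583141) (nat_lit 836) (nat_lit 11861807166) (nat_lit 99) (nat_lit 5) (nat_lit 109) (nat_lit 5) (nat_lit 110) (nat_lit 5) (nat_lit 355) (nat_lit 349) (nat_lit 196))))))))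
noncomputable def xc214 : XT := (XT.nd (nat_lit 1716) (nat_lit 2204) (nat_lit 0) (XT.nd (nat_lit 858) (nat_lit 1824) (nat_lit 0) (XT.nd (nat_lit 390) (nat_lit 1368) (nat_lit 0) (XT.nd (nat_lit 156) (nat_lit 0) (nat_lit 76) (XT.nd (nat_lit 78) (nat_lit 0) (nat_lit 76) (XT.lf (nat_lit 0) (nat_lit 11221843067) (nat_lit 760) (nat_lit 6227258383) (nat_lit 836) (nat_lit 35721758889) (nat_lit 99) (nat_lit 5) (nat_lit 109) (nat_lit 5) (nat_lit 110) (nat_lit 5) (nat_lit 356) (nat_lit 349) (nat_lit 195)) (XT.lf (nat_lit 0) (nat_lit 14410125912) (nat_lit 760) (nat_lit 33866970460) (nat_lit 836) (nat_lit 6304804015) (nat_lit 100) (nat_lit 5) (nat_lit 110) (nat_lit 5) (nat_lit 111) (nat_lit 5) (nat_lit 357) (nat_lit 349) (nat_lit 194))) (XT.nd (nat_lit 78) (nat_lit 0) (nat_lit 0) (XT.lf (nat_lit 0) (nat_lit 18149590426) (nat_lit 760) (nat_lit 7126790012) (nat_lit 836) (nat_lit 30767525425) (nat_lit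 100) (nat_lit 5) (nat_lit 110) (nat_lit 5) (nat_lit 111) (nat_lit 5) (nat_lit 358) (nat_lit 349) (nat_lit 193)) (XT.nd (nat_lit 78) (nat_lit 0) (nat_lit 76) (XT.lf (nat_lit 76) (nat_lit 21641918936) (nat_lit 0) (nat_lit 770596587) (nat_lit 836) (nat_lit 35149673438) (nat_lit 101) (nat_lit 5) (nat_lit 100) (nat_lit 5) (nat_lit 111) (nat_lit 5) (nat_lit 359) (nat_lit 349) (nat_lit 192)) (XT.lf (nat_lit 0) (nat_lit 27399612913) (nat_lit 760) (nat_lit 7446754808) (nat_lit 76) (nat_lit 24284468825) (nat_lit 101) (nat_lit 5) (nat_lit 111) (nat_lit 5) (nat_lit 102) (nat_lit 5) (nat_lit 360) (nat_lit 349) (nat_lit 191))))) (XT.nd (nat_lit 234) (nat_lit 380) (nat_lit 0) (XT.nd (nat_lit 78) (nat_lit 380) (nat_lit 0) (XT.lf (nat_lit 0) (nat_lit 23178506928) (nat_lit 760) (nat_lit 9830785563) (nat_lit 836) (nat_lit 27749964212) (nat_lit 91) (nat_lit 5) (nat_lit 101) (nat_lit 5) (nat_lit 102) (nat_lit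 5) (nat_lit 361) (nat_lit 349) (nat_lit 190)) (XT.nd (nat_lit 78) (nat_lit 380) (nat_lit 0) (XT.lf (nat_lit 0) (nat_lit 39283001680) (nat_lit 836) (nat_lit 7129098950) (nat_lit 76) (nat_lit 16037821436) (nat_lit 91) (nat_lit 5) (nat_lit 102) (nat_lit 5) (nat_lit 92) (nat_lit 5) (nat_lit 362) (nat_lit 349) (nat_lit 189)) (XT.lf (nat_lit 0) (nat_lit 25498956790) (nat_lit 380) (nat_lit 20929527648) (nat_lit 456) (nat_lit 17768733267) (nat_lit 86) (nat_lit 5) (nat_lit 91) (nat_lit 5) (nat_lit 92) (nat_lit 5) (nat_lit 363) (nat_lit 349) (nat_lit 188)))) (XT.nd (nat_lit 78) (nat_lit 380) (nat_lit 0) (XT.lf (nat_lit 0) (nat_lit 54143790413) (nat_lit 456) (nat_lit 6114061088) (nat_lit 76) (nat_lit 5763400516) (nat_lit 86) (nat_lit 5) (nat_lit 92) (nat_lit 5) (nat_lit 87) (nat_lit 5) (nat_lit 364) (nat_lit 349) (nat_lit 187)) (XT.nd (nat_lit 78) (nat_lit 76) (nat_lit 0) (XT.lf (nat_lit 0) (nat_lit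 28672824049) (nat_lit 304) (nat_lit 34361718799) (nat_lit 380) (nat_lit 4862462420) (nat_lit 82) (nat_lit 5) (nat_lit 86) (nat_lit 5) (nat_lit 87) (nat_lit 5) (nat_lit 365) (nat_lit 349) (nat_lit 186)) (XT.lf (nat_lit 0) (nat_lit 2527335039) (nat_lit 380) (nat_lit 4491975449) (nat_lit 76) (nat_lit 62840074231) (nat_lit 81) (nat_lit 5) (nat_lit 86) (nat_lit 5) (nat_lit 82) (nat_lit 5) (nat_lit 366) (nat_lit 349) (nat_lit 185)))))) (XT.nd (nat_lit 390) (nat_lit 836) (nat_lit 0) (XT.nd (nat_lit 156) (nat_lit 608) (nat_lit 0) (XT.nd (nat_lit 78) (nat_lit 0) (nat_lit 0) (XT.lf (nat_lit 0) (nat_lit 10985026559) (nat_lit 456) (nat_lit 39287947393) (nat_lit 76) (nat_lit 21599833933) (nat_lit 76) (nat_lit 5) (nat_lit 82) (nat_lit 5) (nat_lit 77) (nat_lit 5) (nat_lit 367) (nat_lit 349) (nat_lit 184)) (XT.lf (nat_lit 0) (nat_lit 20057002982) (nat_lit 456) (nat_lit 2429049480) (nat_lit 76) (nat_lit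 51491280783) (nat_lit 76) (nat_lit 5) (nat_lit 82) (nat_lit 5) (nat_lit 77) (nat_lit 5) (nat_lit 368) (nat_lit 349) (nat_lit 183))) (XT.nd (nat_lit 78) (nat_lit 304) (nat_lit 0) (XT.lf (nat_lit 0) (nat_lit 30280703685) (nat_lit 380) (nat_lit 38800892228) (nat_lit 76) (nat_lit 7070583692) (nat_lit 72) (nat_lit 5) (nat_lit 77) (nat_lit 5) (nat_lit 73) (nat_lit 5) (nat_lit 369) (nat_lit 349) (nat_lit 182)) (XT.nd (nat_lit 78) (nat_lit 0) (nat_lit 0) (XT.lf (nat_lit 0) (nat_lit 414120460) (nat_lit 304) (nat_lit 41017452236) (nat_lit 380) (nat_lit 36983397378) (nat_lit 68) (nat_lit 5) (nat_lit 72) (nat_lit 5) (nat_lit 73) (nat_lit 5) (nat_lit 370) (nat_lit 349) (nat_lit 181)) (XT.lf (nat_lit 0) (nat_lit 42935884277) (nat_lit 304) (nat_lit 10860321994) (nat_lit 380) (nat_lit 26961883650) (nat_lit 68) (nat_lit 5) (nat_lit 72) (nat_lit 5) (nat_lit 73) (nat_lit 5) (nat_lit 371) (nat_lit 349) (nat_lit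 180))))) (XT.nd (nat_lit 234) (nat_lit 228) (nat_lit 0) (XT.nd (nat_lit 78) (nat_lit 380) (nat_lit 0) (XT.lf (nat_lit 0) (nat_lit 4173046982) (nat_lit 228) (nat_lit 62995145471) (nat_lit 304) (nat_lit 16030718128) (nat_lit 65) (nat_lit 5) (nat_lit 68) (nat_lit 5) (nat_lit 69) (nat_lit 5) (nat_lit 372) (nat_lit 349) (nat_lit 179)) (XT.nd (nat_lit 78) (nat_lit 380) (nat_lit 0) (XT.lf (nat_lit 0) (nat_lit 49396188252) (nat_lit 228) (nat_lit 32627466504) (nat_lit 304) (nat_lit 3697374503) (nat_lit 65) (nat_lit 5) (nat_lit 68) (nat_lit 5) (nat_lit 69) (nat_lit 5) (nat_lit 373) (nat_lit 349) (nat_lit 178)) (XT.lf (nat_lit 0) (nat_lit 8642354481) (nat_lit 304) (nat_lit 448269733) (nat_lit 380) (nat_lit 79264700924) (nat_lit 60) (nat_lit 5) (nat_lit 64) (nat_lit 5) (nat_lit 65) (nat_lit 5) (nat_lit 374) (nat_lit 349) (nat_lit 177)))) (XT.nd (nat_lit 78) (nat_lit 228) (nat_lit 0) (XT.lf (nat_lit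 0) (nat_lit 23538776987) (nat_lit 380) (nat_lit 34563824752) (nat_lit 76) (nat_lit 32958453643) (nat_lit 60) (nat_lit 5) (nat_lit 65) (nat_lit 5) (nat_lit 61) (nat_lit 5) (nat_lit 375) (nat_lit 349) (nat_lit 176)) (XT.nd (nat_lit 78) (nat_lit 0) (nat_lit 0) (XT.lf (nat_lit 0) (nat_lit 13258796516) (nat_lit 228) (nat_lit 25664151225) (nat_lit 304) (nat_lit 54968444558) (nat_lit 57) (nat_lit 5) (nat_lit 60) (nat_lit 5) (nat_lit 61) (nat_lit 5) (nat_lit 376) (nat_lit 349) (nat_lit 175)) (XT.lf (nat_lit 0) (nat_lit 55801637522) (nat_lit 304) (nat_lit 32303150403) (nat_lit 76) (nat_lit 8722193261) (nat_lit 57) (nat_lit 5) (nat_lit 61) (nat_lit 5) (nat_lit 58) (nat_lit 5) (nat_lit 377) (nat_lit 349) (nat_lit 174))))))) (XT.nd (nat_lit 858) (nat_lit 912) (nat_lit 0) (XT.nd (nat_lit 390) (nat_lit 608) (nat_lit 0) (XT.nd (nat_lit 156) (nat_lit 456) (nat_lit 0) (XT.nd (nat_lit 78) (nat_lit 0) (nat_lit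 0) (XT.lf (nat_lit 0) (nat_lit 18616935611) (nat_lit 228) (nat_lit 55618018084) (nat_lit 304) (nat_lit 25638861841) (nat_lit 54) (nat_lit 5) (nat_lit 57) (nat_lit 5) (nat_lit 58) (nat_lit 5) (nat_lit 378) (nat_lit 349) (nat_lit 173)) (XT.lf (nat_lit 0) (nat_lit 73203567896) (nat_lit 228) (nat_lit 20932761066) (nat_lit 304) (nat_lit 8909343564) (nat_lit 54) (nat_lit 5) (nat_lit 57) (nat_lit 5) (nat_lit 58) (nat_lit 5) (nat_lit 379) (nat_lit 349) (nat_lit 172))) (XT.nd (nat_lit 78) (nat_lit 228) (nat_lit 0) (XT.lf (nat_lit 0) (nat_lit 9016494497) (nat_lit 228) (nat_lit 81799269953) (nat_lit 76) (nat_lit 15521755183) (nat_lit 51) (nat_lit 5) (nat_lit 54) (nat_lit 5) (nat_lit 52) (nat_lit 5) (nat_lit 380) (nat_lit 349) (nat_lit 171)) (XT.nd (nat_lit 78) (nat_lit 228) (nat_lit 0) (XT.lf (nat_lit 0) (nat_lit 28395405258) (nat_lit 228) (nat_lit 27593457868) (nat_lit 76) (nat_lit 53754984077) (nat_lit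 51) (nat_lit 5) (nat_lit 54) (nat_lit 5) (nat_lit 52) (nat_lit 5) (nat_lit 381) (nat_lit 349) (nat_lit 170)) (XT.lf (nat_lit 0) (nat_lit 30291258480) (nat_lit 228) (nat_lit 18924322676) (nat_lit 304) (nat_lit 64081294498) (nat_lit 48) (nat_lit 5) (nat_lit 51) (nat_lit 5) (nat_lit 52) (nat_lit 5) (nat_lit 382) (nat_lit 349) (nat_lit 169))))) (XT.nd (nat_lit 234) (nat_lit 456) (nat_lit 0) (XT.nd (nat_lit 78) (nat_lit 152) (nat_lit 0) (XT.lf (nat_lit 0) (nat_lit 71863288002) (nat_lit 304) (nat_lit 25296718578) (nat_lit 76) (nat_lit 19828223300) (nat_lit 48) (nat_lit 5) (nat_lit 52) (nat_lit 5) (nat_lit 49) (nat_lit 5) (nat_lit 383) (nat_lit 349) (nat_lit 168)) (XT.nd (nat_lit 78) (nat_lit 0) (nat_lit 0) (XT.lf (nat_lit 0) (nat_lit 36143338736) (nat_lit 152) (nat_lit 60374002765) (nat_lit 228) (nat_lit 24303112687) (nat_lit 46) (nat_lit 5) (nat_lit 48) (nat_lit 5) (nat_lit 49) (nat_lit 5) (nat_lit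 384) (nat_lit 349) (nat_lit 167)) (XT.lf (nat_lit 0) (nat_lit 101532793827) (nat_lit 152) (nat_lit 21299157705) (nat_lit 228) (nat_lit 1990945905) (nat_lit 46) (nat_lit 5) (nat_lit 48) (nat_lit 5) (nat_lit 49) (nat_lit 5) (nat_lit 385) (nat_lit 349) (nat_lit 166)))) (XT.nd (nat_lit 78) (nat_lit 152) (nat_lit 0) (XT.lf (nat_lit 0) (nat_lit 21733046314) (nat_lit 304) (nat_lit 87119347036) (nat_lit 76) (nat_lit 20107218952) (nat_lit 42) (nat_lit 5) (nat_lit 46) (nat_lit 5) (nat_lit 43) (nat_lit 5) (nat_lit 386) (nat_lit 349) (nat_lit 165)) (XT.nd (nat_lit 78) (nat_lit 152) (nat_lit 0) (XT.lf (nat_lit 0) (nat_lit 47325858786) (nat_lit 304) (nat_lit 22636816828) (nat_lit 76) (nat_lit 63301379259) (nat_lit 42) (nat_lit 5) (nat_lit 46) (nat_lit 5) (nat_lit 43) (nat_lit 5) (nat_lit 387) (nat_lit 349) (nat_lit 164)) (XT.lf (nat_lit 0) (nat_lit 46559229091) (nat_lit 152) (nat_lit 28365495918) (nat_lit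 228) (nat_lit 62822674251) (nat_lit 40) (nat_lit 5) (nat_lit 42) (nat_lit 5) (nat_lit 43) (nat_lit 5) (nat_lit 388) (nat_lit 349) (nat_lit 163)))))) (XT.nd (nat_lit 468) (nat_lit 380) (nat_lit 0) (XT.nd (nat_lit 234) (nat_lit 304) (nat_lit 0) (XT.nd (nat_lit 78) (nat_lit 228) (nat_lit 0) (XT.lf (nat_lit 0) (nat_lit 104531741227) (nat_lit 228) (nat_lit 22680911504) (nat_lit 76) (nat_lit 15210848127) (nat_lit 40) (nat_lit 5) (nat_lit 43) (nat_lit 5) (nat_lit 41) (nat_lit 5) (nat_lit 389) (nat_lit 349) (nat_lit 162)) (XT.nd (nat_lit 78) (nat_lit 76) (nat_lit 0) (XT.lf (nat_lit 0) (nat_lit 50399019025) (nat_lit 152) (nat_lit 86471491542) (nat_lit 228) (nat_lit 10400327165) (nat_lit 38) (nat_lit 5) (nat_lit 40) (nat_lit 5) (nat_lit 41) (nat_lit 5) (nat_lit 390) (nat_lit 349) (nat_lit 161)) (XT.lf (nat_lit 0) (nat_lit 18264596302) (nat_lit 228) (nat_lit 24716327463) (nat_lit 76) (nat_lit 109345706100)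 (nat_lit 37) (nat_lit 5) (nat_lit 40) (nat_lit 5) (nat_lit 38) (nat_lit 5) (nat_lit 391) (nat_lit 349) (nat_lit 160)))) (XT.nd (nat_lit 78) (nat_lit 152) (nat_lit 0) (XT.lf (nat_lit 0) (nat_lit 48891522564) (nat_lit 228) (nat_lit 105085942216) (nat_lit 76) (nat_lit 3605308445) (nat_lit 35) (nat_lit 5) (nat_lit 38) (nat_lit 5) (nat_lit 36) (nat_lit 5) (nat_lit 392) (nat_lit 349) (nat_lit 159)) (XT.nd (nat_lit 78) (nat_lit 152) (nat_lit 0) (XT.lf (nat_lit 0) (nat_lit 82179400956) (nat_lit 228) (nat_lit 29364258676) (nat_lit 76) (nat_lit 51501584086) (nat_lit 35) (nat_lit 5) (nat_lit 38) (nat_lit 5) (nat_lit 36) (nat_lit 5) (nat_lit 393) (nat_lit 349) (nat_lit 158)) (XT.lf (nat_lit 0) (nat_lit 51800752594) (nat_lit 152) (nat_lit 66139252286) (nat_lit 228) (nat_lit 50800416519) (nat_lit 33) (nat_lit 5) (nat_lit 35) (nat_lit 5) (nat_lit 36) (nat_lit 5) (nat_lit 394) (nat_lit 349) (nat_lit 157)))))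 (XT.nd (nat_lit 234) (nat_lit 228) (nat_lit 0) (XT.nd (nat_lit 78) (nat_lit 152) (nat_lit 0) (XT.lf (nat_lit 0) (nat_lit 138042782507) (nat_lit 152) (nat_lit 17942740458) (nat_lit 228) (nat_lit 18709991033) (nat_lit 33) (nat_lit 5) (nat_lit 35) (nat_lit 5) (nat_lit 36) (nat_lit 5) (nat_lit 395) (nat_lit 349) (nat_lit 156)) (XT.nd (nat_lit 78) (nat_lit 0) (nat_lit 0) (XT.lf (nat_lit 0) (nat_lit 15796021449) (nat_lit 152) (nat_lit 132443143949) (nat_lit 76) (nat_lit 32632964286) (nat_lit 31) (nat_lit 5) (nat_lit 33) (nat_lit 5) (nat_lit 32) (nat_lit 5) (nat_lit 396) (nat_lit 349) (nat_lit 155)) (XT.lf (nat_lit 0) (nat_lit 52323210734) (nat_lit 152) (nat_lit 48900968945) (nat_lit 76) (nat_lit 86071827892) (nat_lit 31) (nat_lit 5) (nat_lit 33) (nat_lit 5) (nat_lit 32) (nat_lit 5) (nat_lit 397) (nat_lit 349) (nat_lit 154)))) (XT.nd (nat_lit 78) (nat_lit 76) (nat_lit 0) (XT.lf (nat_lit 0) (nat_lit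 40101156646) (nat_lit 152) (nat_lit 51201316756) (nat_lit 228) (nat_lit 102707320443) (nat_lit 29) (nat_lit 5) (nat_lit 31) (nat_lit 5) (nat_lit 32) (nat_lit 5) (nat_lit 398) (nat_lit 349) (nat_lit 153)) (XT.nd (nat_lit 78) (nat_lit 76) (nat_lit 0) (XT.lf (nat_lit 0) (nat_lit 133092714474) (nat_lit 228) (nat_lit 65801618630) (nat_lit 76) (nat_lit 2121835748) (nat_lit 29) (nat_lit 5) (nat_lit 32) (nat_lit 5) (nat_lit 30) (nat_lit 4) (nat_lit 399) (nat_lit 349) (nat_lit 152)) (XT.lf (nat_lit 0) (nat_lit 26726170619) (nat_lit 76) (nat_lit 151502577434) (nat_lit 152) (nat_lit 30081300706) (nat_lit 28) (nat_lit 5) (nat_lit 29) (nat_lit 5) (nat_lit 30) (nat_lit 4) (nat_lit 400) (nat_lit 349) (nat_lit 151))))))))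
noncomputable def xc215 : XT := (XT.nd (nat_lit 1716) (nat_lit 0) (nat_lit 0) (XT.nd (nat_lit 858) (nat_lit 456) (nat_lit 0) (XT.nd (nat_lit 390) (nat_lit 304) (nat_lit 0) (XT.nd (nat_lit 156) (nat_lit 76) (nat_lit 0) (XT.nd (nat_lit 78) (nat_lit 152) (nat_lit 0) (XT.lf (nat_lit 0) (nat_lit 10476302188) (nat_lit 152) (nat_lit 89917669591) (nat_lit 76) (nat_lit 115510500725) (nat_lit 27) (nat_lit 5) (nat_lit 29) (nat_lit 5) (nat_lit 28) (nat_lit 5) (nat_lit 401) (nat_lit 349) (nat_lit 150)) (XT.lf (nat_lit 0) (nat_lit 6031156893) (nat_lit 152) (nat_lit 46113525257) (nat_lit 228) (nat_lit 171704587337) (nat_lit 25) (nat_lit 5) (nat_lit 27) (nat_lit 5) (nat_lit 28) (nat_lit 5) (nat_lit 402) (nat_lit 349) (nat_lit 149))) (XT.nd (nat_lit 78) (nat_lit 76) (nat_lit 0) (XT.lf (nat_lit 0) (nat_lit 97613791983) (nat_lit 228) (nat_lit 122411443461) (nat_lit 76) (nat_lit 12080205473) (nat_lit 25) (nat_lit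 5) (nat_lit 28) (nat_lit 5) (nat_lit 26) (nat_lit 4) (nat_lit 403) (nat_lit 349) (nat_lit 148)) (XT.nd (nat_lit 78) (nat_lit 76) (nat_lit 0) (XT.lf (nat_lit 0) (nat_lit 146111998343) (nat_lit 228) (nat_lit 22990966310) (nat_lit 76) (nat_lit 71633674351) (nat_lit 25) (nat_lit 5) (nat_lit 28) (nat_lit 5) (nat_lit 26) (nat_lit 4) (nat_lit 404) (nat_lit 349) (nat_lit 147)) (XT.lf (nat_lit 0) (nat_lit 84091447111) (nat_lit 76) (nat_lit 114256267830) (nat_lit 152) (nat_lit 51386052187) (nat_lit 24) (nat_lit 5) (nat_lit 25) (nat_lit 5) (nat_lit 26) (nat_lit 4) (nat_lit 405) (nat_lit 349) (nat_lit 146))))) (XT.nd (nat_lit 234) (nat_lit 76) (nat_lit 0) (XT.nd (nat_lit 78) (nat_lit 228) (nat_lit 0) (XT.lf (nat_lit 0) (nat_lit 197325645278) (nat_lit 76) (nat_lit 56258638156) (nat_lit 152) (nat_lit 5577015044) (nat_lit 24) (nat_lit 5) (nat_lit 25) (nat_lit 5) (nat_lit 26) (nat_lit 4) (nat_lit 406)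 (nat_lit 349) (nat_lit 145)) (XT.nd (nat_lit 78) (nat_lit 0) (nat_lit 0) (XT.lf (nat_lit 0) (nat_lit 42006752210) (nat_lit 228) (nat_lit 221050792701) (nat_lit 76) (nat_lit 5927203697) (nat_lit 21) (nat_lit 5) (nat_lit 24) (nat_lit 5) (nat_lit 22) (nat_lit 4) (nat_lit 407) (nat_lit 349) (nat_lit 144)) (XT.lf (nat_lit 0) (nat_lit 93768655110) (nat_lit 228) (nat_lit 114939554531) (nat_lit 76) (nat_lit 70487271810) (nat_lit 21) (nat_lit 5) (nat_lit 24) (nat_lit 5) (nat_lit 22) (nat_lit 4) (nat_lit 408) (nat_lit 349) (nat_lit 143)))) (XT.nd (nat_lit 78) (nat_lit 76) (nat_lit 0) (XT.lf (nat_lit 0) (nat_lit 148118381351) (nat_lit 228) (nat_lit 3523246949) (nat_lit 76) (nat_lit 138275136326) (nat_lit 21) (nat_lit 5) (nat_lit 24) (nat_lit 5) (nat_lit 22) (nat_lit 4) (nat_lit 409) (nat_lit 349) (nat_lit 142)) (XT.nd (nat_lit 78) (nat_lit 0) (nat_lit 0) (XT.lf (nat_lit 0) (nat_lit 117215019615) (nat_lit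 76) (nat_lit 89800370380) (nat_lit 152) (nat_lit 94067232258) (nat_lit 20) (nat_lit 5) (nat_lit 21) (nat_lit 5) (nat_lit 22) (nat_lit 4) (nat_lit 410) (nat_lit 349) (nat_lit 141)) (XT.lf (nat_lit 0) (nat_lit 244112057206) (nat_lit 76) (nat_lit 24804606018) (nat_lit 152) (nat_lit 43887138920) (nat_lit 20) (nat_lit 5) (nat_lit 21) (nat_lit 5) (nat_lit 22) (nat_lit 4) (nat_lit 411) (nat_lit 349) (nat_lit 140)))))) (XT.nd (nat_lit 390) (nat_lit 228) (nat_lit 0) (XT.nd (nat_lit 156) (nat_lit 76) (nat_lit 0) (XT.nd (nat_lit 78) (nat_lit 0) (nat_lit 0) (XT.lf (nat_lit 0) (nat_lit 10054661223) (nat_lit 152) (nat_lit 271928561322) (nat_lit 76) (nat_lit 43044226418) (nat_lit 18) (nat_lit 5) (nat_lit 20) (nat_lit 5) (nat_lit 19) (nat_lit 4) (nat_lit 412) (nat_lit 349) (nat_lit 139)) (XT.lf (nat_lit 0) (nat_lit 66807443499) (nat_lit 152) (nat_lit 155585852226) (nat_lit 76) (nat_lit 115353570021) (nat_lit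 18) (nat_lit 5) (nat_lit 20) (nat_lit 5) (nat_lit 19) (nat_lit 4) (nat_lit 413) (nat_lit 349) (nat_lit 138))) (XT.nd (nat_lit 78) (nat_lit 76) (nat_lit 0) (XT.lf (nat_lit 0) (nat_lit 126397632513) (nat_lit 152) (nat_lit 33426435769) (nat_lit 76) (nat_lit 191278196782) (nat_lit 18) (nat_lit 5) (nat_lit 20) (nat_lit 5) (nat_lit 19) (nat_lit 4) (nat_lit 414) (nat_lit 349) (nat_lit 137)) (XT.nd (nat_lit 78) (nat_lit 0) (nat_lit 0) (XT.lf (nat_lit 0) (nat_lit 97976400492) (nat_lit 76) (nat_lit 92520395364) (nat_lit 152) (nat_lit 174552165320) (nat_lit 17) (nat_lit 5) (nat_lit 18) (nat_lit 5) (nat_lit 19) (nat_lit 4) (nat_lit 415) (nat_lit 349) (nat_lit 136)) (XT.lf (nat_lit 0) (nat_lit 237109467806) (nat_lit 76) (nat_lit 21257325388) (nat_lit 152) (nat_lit 121297905176) (nat_lit 17) (nat_lit 5) (nat_lit 18) (nat_lit 5) (nat_lit 19) (nat_lit 4) (nat_lit 416) (nat_lit 349) (nat_lit 135))))) (XT.nd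 (nat_lit 234) (nat_lit 76) (nat_lit 0) (XT.nd (nat_lit 78) (nat_lit 152) (nat_lit 0) (XT.lf (nat_lit 0) (nat_lit 330466441588) (nat_lit 152) (nat_lit 12648784257) (nat_lit 0) (nat_lit 51854189084) (nat_lit 17) (nat_lit 5) (nat_lit 19) (nat_lit 4) (nat_lit 17) (nat_lit 4) (nat_lit 417) (nat_lit 349) (nat_lit 134)) (XT.nd (nat_lit 78) (nat_lit 76) (nat_lit 0) (XT.lf (nat_lit 0) (nat_lit 127484430412) (nat_lit 76) (nat_lit 281025312502) (nat_lit 76) (nat_lit 2412690940) (nat_lit 16) (nat_lit 4) (nat_lit 17) (nat_lit 5) (nat_lit 17) (nat_lit 4) (nat_lit 418) (nat_lit 349) (nat_lit 133)) (XT.lf (nat_lit 0) (nat_lit 60990212162) (nat_lit 152) (nat_lit 153583038110) (nat_lit 76) (nat_lit 213039966976) (nat_lit 15) (nat_lit 5) (nat_lit 17) (nat_lit 5) (nat_lit 16) (nat_lit 4) (nat_lit 419) (nat_lit 349) (nat_lit 132)))) (XT.nd (nat_lit 78) (nat_lit 76) (nat_lit 0) (XT.lf (nat_lit 0) (nat_lit 127481988725)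 (nat_lit 152) (nat_lit 17275230902) (nat_lit 76) (nat_lit 300379352097) (nat_lit 15) (nat_lit 5) (nat_lit 17) (nat_lit 5) (nat_lit 16) (nat_lit 4) (nat_lit 420) (nat_lit 349) (nat_lit 131)) (XT.nd (nat_lit 78) (nat_lit 0) (nat_lit 0) (XT.lf (nat_lit 0) (nat_lit 130008720420) (nat_lit 76) (nat_lit 69319253733) (nat_lit 152) (nat_lit 264106638819) (nat_lit 14) (nat_lit 5) (nat_lit 15) (nat_lit 5) (nat_lit 16) (nat_lit 4) (nat_lit 421) (nat_lit 349) (nat_lit 130)) (XT.lf (nat_lit 0) (nat_lit 275217860092) (nat_lit 152) (nat_lit 197535856296) (nat_lit 0) (nat_lit 9871259882) (nat_lit 14) (nat_lit 5) (nat_lit 16) (nat_lit 4) (nat_lit 14) (nat_lit 4) (nat_lit 422) (nat_lit 349) (nat_lit 129))))))) (XT.nd (nat_lit 41964) (nat_lit 0) (nat_lit 4104) (XT.nd (nat_lit 41496) (nat_lit 0) (nat_lit 6384) (XT.nd (nat_lit 41262) (nat_lit 0) (nat_lit 6232) (XT.nd (nat_lit 41184) (nat_lit 0) (nat_lit 6232)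 (XT.lf (nat_lit 0) (nat_lit 356038450638) (nat_lit 152) (nat_lit 55988021592) (nat_lit 0) (nat_lit 90691575033) (nat_lit 14) (nat_lit 5) (nat_lit 16) (nat_lit 4) (nat_lit 14) (nat_lit 4) (nat_lit 423) (nat_lit 349) (nat_lit 128)) (XT.lf (nat_lit 0) (nat_lit 884014773) (nat_lit 836) (nat_lit 11255124648) (nat_lit 836) (nat_lit 11255124648) (nat_lit 96) (nat_lit 3) (nat_lit 107) (nat_lit 3) (nat_lit 107) (nat_lit 5) (nat_lit 350) (nat_lit 350) (nat_lit 200))) (XT.nd (nat_lit 78) (nat_lit 0) (nat_lit 76) (XT.lf (nat_lit 0) (nat_lit 1841055604) (nat_lit 836) (nat_lit 593420395) (nat_lit 836) (nat_lit 45522288147) (nat_lit 96) (nat_lit 3) (nat_lit 107) (nat_lit 3) (nat_lit 107) (nat_lit 5) (nat_lit 351) (nat_lit 350) (nat_lit 199)) (XT.nd (nat_lit 78) (nat_lit 0) (nat_lit 0) (XT.lf (nat_lit 0) (nat_lit 2603500374) (nat_lit 760) (nat_lit 26331925021) (nat_lit 836) (nat_lit 20213700490) (nat_lit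 97) (nat_lit 5) (nat_lit 107) (nat_lit 5) (nat_lit 108) (nat_lit 5) (nat_lit 352) (nat_lit 350) (nat_lit 198)) (XT.lf (nat_lit 0) (nat_lit 3452431996) (nat_lit 760) (nat_lit 3022779807) (nat_lit 836) (nat_lit 43923477867) (nat_lit 97) (nat_lit 5) (nat_lit 107) (nat_lit 5) (nat_lit 108) (nat_lit 5) (nat_lit 353) (nat_lit 350) (nat_lit 197))))) (XT.nd (nat_lit 234) (nat_lit 0) (nat_lit 76) (XT.nd (nat_lit 78) (nat_lit 0) (nat_lit 0) (XT.lf (nat_lit 0) (nat_lit 4960901703) (nat_lit 760) (nat_lit 29806228673) (nat_lit 836) (nat_lit 16912748779) (nat_lit 98) (nat_lit 5) (nat_lit 108) (nat_lit 5) (nat_lit 109) (nat_lit 5) (nat_lit 354) (nat_lit 350) (nat_lit 196)) (XT.nd (nat_lit 78) (nat_lit 0) (nat_lit 76) (XT.lf (nat_lit 0) (nat_lit 6701375705) (nat_lit 760) (nat_lit 5010795772) (nat_lit 836) (nat_lit 41305129584) (nat_lit 98) (nat_lit 5) (nat_lit 108) (nat_lit 5) (nat_lit 109) (nat_lit 5)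 (nat_lit 355) (nat_lit 350) (nat_lit 195)) (XT.lf (nat_lit 0) (nat_lit 9067091575) (nat_lit 760) (nat_lit 32886869982) (nat_lit 836) (nat_lit 12440723489) (nat_lit 99) (nat_lit 5) (nat_lit 109) (nat_lit 5) (nat_lit 110) (nat_lit 5) (nat_lit 356) (nat_lit 350) (nat_lit 194)))) (XT.nd (nat_lit 78) (nat_lit 0) (nat_lit 76) (XT.lf (nat_lit 0) (nat_lit 11827885930) (nat_lit 760) (nat_lit 6504866715) (nat_lit 836) (nat_lit 37494347752) (nat_lit 99) (nat_lit 5) (nat_lit 109) (nat_lit 5) (nat_lit 110) (nat_lit 5) (nat_lit 357) (nat_lit 350) (nat_lit 193)) (XT.nd (nat_lit 78) (nat_lit 0) (nat_lit 0) (XT.lf (nat_lit 0) (nat_lit 15173802931) (nat_lit 760) (nat_lit 35524731627) (nat_lit 836) (nat_lit 6610249527) (nat_lit 100) (nat_lit 5) (nat_lit 110) (nat_lit 5) (nat_lit 111) (nat_lit 5) (nat_lit 358) (nat_lit 350) (nat_lit 192)) (XT.lf (nat_lit 0) (nat_lit 19098184922) (nat_lit 760) (nat_lit 7449236793)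 (nat_lit 836) (nat_lit 32296573422) (nat_lit 100) (nat_lit 5) (nat_lit 110) (nat_lit 5) (nat_lit 111) (nat_lit 5) (nat_lit 359) (nat_lit 350) (nat_lit 191)))))) (XT.nd (nat_lit 468) (nat_lit 1368) (nat_lit 0) (XT.nd (nat_lit 234) (nat_lit 380) (nat_lit 0) (XT.nd (nat_lit 78) (nat_lit 684) (nat_lit 0) (XT.lf (nat_lit 76) (nat_lit 22757360946) (nat_lit 0) (nat_lit 815458098) (nat_lit 836) (nat_lit 36865447601) (nat_lit 101) (nat_lit 5) (nat_lit 100) (nat_lit 5) (nat_lit 111) (nat_lit 5) (nat_lit 360) (nat_lit 350) (nat_lit 190)) (XT.nd (nat_lit 78) (nat_lit 760) (nat_lit 0) (XT.lf (nat_lit 0) (nat_lit 28807287739) (nat_lit 760) (nat_lit 7785305232) (nat_lit 76) (nat_lit 25492855097) (nat_lit 101) (nat_lit 5) (nat_lit 111) (nat_lit 5) (nat_lit 102) (nat_lit 5) (nat_lit 361) (nat_lit 350) (nat_lit 189)) (XT.lf (nat_lit 0) (nat_lit 24370674634) (nat_lit 760) (nat_lit 10325500707) (nat_lit 836)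 (nat_lit 29099179860) (nat_lit 91) (nat_lit 5) (nat_lit 101) (nat_lit 5) (nat_lit 102) (nat_lit 5) (nat_lit 362) (nat_lit 350) (nat_lit 188)))) (XT.nd (nat_lit 78) (nat_lit 380) (nat_lit 0) (XT.lf (nat_lit 0) (nat_lit 41281788566) (nat_lit 836) (nat_lit 7452071725) (nat_lit 76) (nat_lit 16836784681) (nat_lit 91) (nat_lit 5) (nat_lit 102) (nat_lit 5) (nat_lit 92) (nat_lit 5) (nat_lit 363) (nat_lit 350) (nat_lit 187)) (XT.nd (nat_lit 78) (nat_lit 0) (nat_lit 0) (XT.lf (nat_lit 0) (nat_lit 26806846768) (nat_lit 380) (nat_lit 21976563642) (nat_lit 456) (nat_lit 18621953705) (nat_lit 86) (nat_lit 5) (nat_lit 91) (nat_lit 5) (nat_lit 92) (nat_lit 5) (nat_lit 364) (nat_lit 350) (nat_lit 186)) (XT.lf (nat_lit 0) (nat_lit 56882878041) (nat_lit 456) (nat_lit 6386749523) (nat_lit 76) (nat_lit 6051054636) (nat_lit 86) (nat_lit 5) (nat_lit 92) (nat_lit 5) (nat_lit 87) (nat_lit 5) (nat_lit 365) (nat_lit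 350) (nat_lit 185))))) (XT.nd (nat_lit 234) (nat_lit 608) (nat_lit 0) (XT.nd (nat_lit 78) (nat_lit 456) (nat_lit 0) (XT.lf (nat_lit 0) (nat_lit 30138947377) (nat_lit 304) (nat_lit 36078208900) (nat_lit 380) (nat_lit 5073119214) (nat_lit 82) (nat_lit 5) (nat_lit 86) (nat_lit 5) (nat_lit 87) (nat_lit 5) (nat_lit 366) (nat_lit 350) (nat_lit 184)) (XT.nd (nat_lit 78) (nat_lit 380) (nat_lit 0) (XT.lf (nat_lit 0) (nat_lit 2683632459) (nat_lit 380) (nat_lit 4684616815) (nat_lit 76) (nat_lit 65982575742) (nat_lit 81) (nat_lit 5) (nat_lit 86) (nat_lit 5) (nat_lit 82) (nat_lit 5) (nat_lit 367) (nat_lit 350) (nat_lit 183)) (XT.lf (nat_lit 0) (nat_lit 11563312366) (nat_lit 456) (nat_lit 41219460306) (nat_lit 76) (nat_lit 22682193021) (nat_lit 76) (nat_lit 5) (nat_lit 82) (nat_lit 5) (nat_lit 77) (nat_lit 5) (nat_lit 368) (nat_lit 350) (nat_lit 182)))) (XT.nd (nat_lit 78) (nat_lit 608) (nat_lit 0) (XT.lf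 (nat_lit 0) (nat_lit 21087505017) (nat_lit 456) (nat_lit 2519183424) (nat_lit 76) (nat_lit 54068099481) (nat_lit 76) (nat_lit 5) (nat_lit 82) (nat_lit 5) (nat_lit 77) (nat_lit 5) (nat_lit 369) (nat_lit 350) (nat_lit 181)) (XT.nd (nat_lit 78) (nat_lit 304) (nat_lit 0) (XT.lf (nat_lit 0) (nat_lit 31821617488) (nat_lit 380) (nat_lit 40708817051) (nat_lit 76) (nat_lit 7427982123) (nat_lit 72) (nat_lit 5) (nat_lit 77) (nat_lit 5) (nat_lit 73) (nat_lit 5) (nat_lit 370) (nat_lit 350) (nat_lit 180)) (XT.lf (nat_lit 0) (nat_lit 466428210) (nat_lit 304) (nat_lit 43062815197) (nat_lit 380) (nat_lit 38805143907) (nat_lit 68) (nat_lit 5) (nat_lit 72) (nat_lit 5) (nat_lit 73) (nat_lit 5) (nat_lit 371) (nat_lit 350) (nat_lit 179))))))))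
noncomputable def xc216 : XT := (XT.nd (nat_lit 1716) (nat_lit 1368) (nat_lit 0) (XT.nd (nat_lit 858) (nat_lit 1216) (nat_lit 0) (XT.nd (nat_lit 390) (nat_lit 684) (nat_lit 0) (XT.nd (nat_lit 156) (nat_lit 380) (nat_lit 0) (XT.nd (nat_lit 78) (nat_lit 228) (nat_lit 0) (XT.lf (nat_lit 0) (nat_lit 45112775374) (nat_lit 304) (nat_lit 11398090807) (nat_lit 380) (nat_lit 28283860366) (nat_lit 68) (nat_lit 5) (nat_lit 72) (nat_lit 5) (nat_lit 73) (nat_lit 5) (nat_lit 372) (nat_lit 350) (nat_lit 178)) (XT.lf (nat_lit 0) (nat_lit 4412477598) (nat_lit 228) (nat_lit 66138349319) (nat_lit 304) (nat_lit 16806793770) (nat_lit 65) (nat_lit 5) (nat_lit 68) (nat_lit 5) (nat_lit 69) (nat_lit 5) (nat_lit 373) (nat_lit 350) (nat_lit 177))) (XT.nd (nat_lit 78) (nat_lit 380) (nat_lit 0) (XT.lf (nat_lit 0) (nat_lit 51895310300) (nat_lit 228) (nat_lit 34252598472) (nat_lit 304) (nat_lit 3857995357) (nat_lit 65)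 (nat_lit 5) (nat_lit 68) (nat_lit 5) (nat_lit 69) (nat_lit 5) (nat_lit 374) (nat_lit 350) (nat_lit 176)) (XT.nd (nat_lit 78) (nat_lit 0) (nat_lit 0) (XT.lf (nat_lit 0) (nat_lit 9104097201) (nat_lit 304) (nat_lit 463874836) (nat_lit 380) (nat_lit 83203957639) (nat_lit 60) (nat_lit 5) (nat_lit 64) (nat_lit 5) (nat_lit 65) (nat_lit 5) (nat_lit 375) (nat_lit 350) (nat_lit 175)) (XT.lf (nat_lit 0) (nat_lit 24737547180) (nat_lit 380) (nat_lit 36262796545) (nat_lit 76) (nat_lit 34612652965) (nat_lit 60) (nat_lit 5) (nat_lit 65) (nat_lit 5) (nat_lit 61) (nat_lit 5) (nat_lit 376) (nat_lit 350) (nat_lit 174))))) (XT.nd (nat_lit 234) (nat_lit 228) (nat_lit 0) (XT.nd (nat_lit 78) (nat_lit 228) (nat_lit 0) (XT.lf (nat_lit 0) (nat_lit 13950484505) (nat_lit 228) (nat_lit 26939851218) (nat_lit 304) (nat_lit 57694545215) (nat_lit 57) (nat_lit 5) (nat_lit 60) (nat_lit 5) (nat_lit 61) (nat_lit 5) (nat_lit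 377) (nat_lit 350) (nat_lit 173)) (XT.nd (nat_lit 78) (nat_lit 228) (nat_lit 0) (XT.lf (nat_lit 0) (nat_lit 58612060169) (nat_lit 304) (nat_lit 33890010851) (nat_lit 76) (nat_lit 9165224142) (nat_lit 57) (nat_lit 5) (nat_lit 61) (nat_lit 5) (nat_lit 58) (nat_lit 5) (nat_lit 378) (nat_lit 350) (nat_lit 172)) (XT.lf (nat_lit 0) (nat_lit 19575623059) (nat_lit 228) (nat_lit 58390885154) (nat_lit 304) (nat_lit 26899990573) (nat_lit 54) (nat_lit 5) (nat_lit 57) (nat_lit 5) (nat_lit 58) (nat_lit 5) (nat_lit 379) (nat_lit 350) (nat_lit 171)))) (XT.nd (nat_lit 78) (nat_lit 228) (nat_lit 0) (XT.lf (nat_lit 0) (nat_lit 76890261213) (nat_lit 228) (nat_lit 21971747849) (nat_lit 304) (nat_lit 9334987543) (nat_lit 54) (nat_lit 5) (nat_lit 57) (nat_lit 5) (nat_lit 58) (nat_lit 5) (nat_lit 380) (nat_lit 350) (nat_lit 170)) (XT.nd (nat_lit 78) (nat_lit 0) (nat_lit 0) (XT.lf (nat_lit 0) (nat_lit 9486136930)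 (nat_lit 228) (nat_lit 85861682604) (nat_lit 76) (nat_lit 16305620351) (nat_lit 51) (nat_lit 5) (nat_lit 54) (nat_lit 5) (nat_lit 52) (nat_lit 5) (nat_lit 381) (nat_lit 350) (nat_lit 169)) (XT.lf (nat_lit 0) (nat_lit 29833097147) (nat_lit 228) (nat_lit 28946891860) (nat_lit 76) (nat_lit 56450140337) (nat_lit 51) (nat_lit 5) (nat_lit 54) (nat_lit 5) (nat_lit 52) (nat_lit 5) (nat_lit 382) (nat_lit 350) (nat_lit 168)))))) (XT.nd (nat_lit 390) (nat_lit 532) (nat_lit 0) (XT.nd (nat_lit 156) (nat_lit 456) (nat_lit 0) (XT.nd (nat_lit 78) (nat_lit 0) (nat_lit 0) (XT.lf (nat_lit 0) (nat_lit 31831637097) (nat_lit 228) (nat_lit 19862194387) (nat_lit 304) (nat_lit 67267000924) (nat_lit 48) (nat_lit 5) (nat_lit 51) (nat_lit 5) (nat_lit 52) (nat_lit 5) (nat_lit 383) (nat_lit 350) (nat_lit 167)) (XT.lf (nat_lit 0) (nat_lit 75473215783) (nat_lit 304) (nat_lit 26536247419) (nat_lit 76) (nat_lit 20827327179)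 (nat_lit 48) (nat_lit 5) (nat_lit 52) (nat_lit 5) (nat_lit 49) (nat_lit 5) (nat_lit 384) (nat_lit 350) (nat_lit 166))) (XT.nd (nat_lit 78) (nat_lit 304) (nat_lit 0) (XT.lf (nat_lit 0) (nat_lit 37975404582) (nat_lit 152) (nat_lit 63384157861) (nat_lit 228) (nat_lit 25501084548) (nat_lit 46) (nat_lit 5) (nat_lit 48) (nat_lit 5) (nat_lit 49) (nat_lit 5) (nat_lit 385) (nat_lit 350) (nat_lit 165)) (XT.nd (nat_lit 78) (nat_lit 304) (nat_lit 0) (XT.lf (nat_lit 0) (nat_lit 106633146764) (nat_lit 152) (nat_lit 22355977456) (nat_lit 228) (nat_lit 2074127702) (nat_lit 46) (nat_lit 5) (nat_lit 48) (nat_lit 5) (nat_lit 49) (nat_lit 5) (nat_lit 386) (nat_lit 350) (nat_lit 164)) (XT.lf (nat_lit 0) (nat_lit 22835289543) (nat_lit 304) (nat_lit 91450804928) (nat_lit 76) (nat_lit 21120708351) (nat_lit 42) (nat_lit 5) (nat_lit 46) (nat_lit 5) (nat_lit 43) (nat_lit 5) (nat_lit 387) (nat_lit 350) (nat_lit 163)))))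 (XT.nd (nat_lit 234) (nat_lit 380) (nat_lit 0) (XT.nd (nat_lit 78) (nat_lit 152) (nat_lit 0) (XT.lf (nat_lit 0) (nat_lit 49707000214) (nat_lit 304) (nat_lit 23745315326) (nat_lit 76) (nat_lit 66474189604) (nat_lit 42) (nat_lit 5) (nat_lit 46) (nat_lit 5) (nat_lit 43) (nat_lit 5) (nat_lit 388) (nat_lit 350) (nat_lit 162)) (XT.nd (nat_lit 78) (nat_lit 0) (nat_lit 0) (XT.lf (nat_lit 0) (nat_lit 48910156399) (nat_lit 152) (nat_lit 29775304839) (nat_lit 228) (nat_lit 65948573416) (nat_lit 40) (nat_lit 5) (nat_lit 42) (nat_lit 5) (nat_lit 43) (nat_lit 5) (nat_lit 389) (nat_lit 350) (nat_lit 161)) (XT.lf (nat_lit 0) (nat_lit 109772263673) (nat_lit 228) (nat_lit 23792511131) (nat_lit 76) (nat_lit 15979195213) (nat_lit 40) (nat_lit 5) (nat_lit 43) (nat_lit 5) (nat_lit 41) (nat_lit 5) (nat_lit 390) (nat_lit 350) (nat_lit 160)))) (XT.nd (nat_lit 78) (nat_lit 228) (nat_lit 0) (XT.lf (nat_lit 0) (nat_lit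 52941053893) (nat_lit 152) (nat_lit 90786598789) (nat_lit 228) (nat_lit 10906037427) (nat_lit 38) (nat_lit 5) (nat_lit 40) (nat_lit 5) (nat_lit 41) (nat_lit 5) (nat_lit 391) (nat_lit 350) (nat_lit 159)) (XT.nd (nat_lit 78) (nat_lit 152) (nat_lit 0) (XT.lf (nat_lit 0) (nat_lit 19191014890) (nat_lit 228) (nat_lit 25930667582) (nat_lit 76) (nat_lit 114820611575) (nat_lit 37) (nat_lit 5) (nat_lit 40) (nat_lit 5) (nat_lit 38) (nat_lit 5) (nat_lit 392) (nat_lit 350) (nat_lit 158)) (XT.lf (nat_lit 0) (nat_lit 51349117963) (nat_lit 228) (nat_lit 110318586071) (nat_lit 76) (nat_lit 3793549391) (nat_lit 35) (nat_lit 5) (nat_lit 38) (nat_lit 5) (nat_lit 36) (nat_lit 5) (nat_lit 393) (nat_lit 350) (nat_lit 157))))))) (XT.nd (nat_lit 858) (nat_lit 608) (nat_lit 0) (XT.nd (nat_lit 390) (nat_lit 456) (nat_lit 0) (XT.nd (nat_lit 156) (nat_lit 152) (nat_lit 0) (XT.nd (nat_lit 78) (nat_lit 152) (nat_lit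 0) (XT.lf (nat_lit 0) (nat_lit 86300770309) (nat_lit 228) (nat_lit 30811849462) (nat_lit 76) (nat_lit 54084259027) (nat_lit 35) (nat_lit 5) (nat_lit 38) (nat_lit 5) (nat_lit 36) (nat_lit 5) (nat_lit 394) (nat_lit 350) (nat_lit 156)) (XT.lf (nat_lit 0) (nat_lit 54411079756) (nat_lit 152) (nat_lit 69438051006) (nat_lit 228) (nat_lit 53327698624) (nat_lit 33) (nat_lit 5) (nat_lit 35) (nat_lit 5) (nat_lit 36) (nat_lit 5) (nat_lit 395) (nat_lit 350) (nat_lit 155))) (XT.nd (nat_lit 78) (nat_lit 152) (nat_lit 0) (XT.lf (nat_lit 0) (nat_lit 144964244997) (nat_lit 152) (nat_lit 18832102343) (nat_lit 228) (nat_lit 19633358469) (nat_lit 33) (nat_lit 5) (nat_lit 35) (nat_lit 5) (nat_lit 36) (nat_lit 5) (nat_lit 396) (nat_lit 350) (nat_lit 154)) (XT.nd (nat_lit 78) (nat_lit 0) (nat_lit 0) (XT.lf (nat_lit 0) (nat_lit 16597433523) (nat_lit 152) (nat_lit 139045444625) (nat_lit 76) (nat_lit 34272271595)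 (nat_lit 31) (nat_lit 5) (nat_lit 33) (nat_lit 5) (nat_lit 32) (nat_lit 5) (nat_lit 397) (nat_lit 350) (nat_lit 153)) (XT.lf (nat_lit 0) (nat_lit 54950429368) (nat_lit 152) (nat_lit 51327106419) (nat_lit 76) (nat_lit 90382713662) (nat_lit 31) (nat_lit 5) (nat_lit 33) (nat_lit 5) (nat_lit 32) (nat_lit 5) (nat_lit 398) (nat_lit 350) (nat_lit 152))))) (XT.nd (nat_lit 234) (nat_lit 228) (nat_lit 0) (XT.nd (nat_lit 78) (nat_lit 76) (nat_lit 0) (XT.lf (nat_lit 0) (nat_lit 42124820435) (nat_lit 152) (nat_lit 53753598650) (nat_lit 228) (nat_lit 107831318023) (nat_lit 29) (nat_lit 5) (nat_lit 31) (nat_lit 5) (nat_lit 32) (nat_lit 5) (nat_lit 399) (nat_lit 350) (nat_lit 151)) (XT.nd (nat_lit 78) (nat_lit 76) (nat_lit 0) (XT.lf (nat_lit 0) (nat_lit 139757772618) (nat_lit 228) (nat_lit 69073574936) (nat_lit 76) (nat_lit 2235103544) (nat_lit 29) (nat_lit 5) (nat_lit 32) (nat_lit 5) (nat_lit 30) (nat_lit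 4) (nat_lit 400) (nat_lit 350) (nat_lit 150)) (XT.lf (nat_lit 0) (nat_lit 28080311443) (nat_lit 76) (nat_lit 159070078540) (nat_lit 152) (nat_lit 31574646155) (nat_lit 28) (nat_lit 5) (nat_lit 29) (nat_lit 5) (nat_lit 30) (nat_lit 4) (nat_lit 401) (nat_lit 350) (nat_lit 149)))) (XT.nd (nat_lit 78) (nat_lit 152) (nat_lit 0) (XT.lf (nat_lit 0) (nat_lit 11009999671) (nat_lit 152) (nat_lit 94396238794) (nat_lit 76) (nat_lit 121292959161) (nat_lit 27) (nat_lit 5) (nat_lit 29) (nat_lit 5) (nat_lit 28) (nat_lit 5) (nat_lit 402) (nat_lit 350) (nat_lit 148)) (XT.nd (nat_lit 78) (nat_lit 0) (nat_lit 0) (XT.lf (nat_lit 0) (nat_lit 6349749751) (nat_lit 152) (nat_lit 48411844255) (nat_lit 228) (nat_lit 180279650892) (nat_lit 25) (nat_lit 5) (nat_lit 27) (nat_lit 5) (nat_lit 28) (nat_lit 5) (nat_lit 403) (nat_lit 350) (nat_lit 147)) (XT.lf (nat_lit 0) (nat_lit 102503807884) (nat_lit 228) (nat_lit 128515436388)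 (nat_lit 76) (nat_lit 12690998400) (nat_lit 25) (nat_lit 5) (nat_lit 28) (nat_lit 5) (nat_lit 26) (nat_lit 4) (nat_lit 404) (nat_lit 350) (nat_lit 146)))))) (XT.nd (nat_lit 468) (nat_lit 304) (nat_lit 0) (XT.nd (nat_lit 234) (nat_lit 228) (nat_lit 0) (XT.nd (nat_lit 78) (nat_lit 76) (nat_lit 0) (XT.lf (nat_lit 0) (nat_lit 153426480452) (nat_lit 228) (nat_lit 24124724867) (nat_lit 76) (nat_lit 75221817738) (nat_lit 25) (nat_lit 5) (nat_lit 28) (nat_lit 5) (nat_lit 26) (nat_lit 4) (nat_lit 405) (nat_lit 350) (nat_lit 145)) (XT.nd (nat_lit 78) (nat_lit 0) (nat_lit 0) (XT.lf (nat_lit 0) (nat_lit 88311554551) (nat_lit 76) (nat_lit 119962247914) (nat_lit 152) (nat_lit 53946214324) (nat_lit 24) (nat_lit 5) (nat_lit 25) (nat_lit 5) (nat_lit 26) (nat_lit 4) (nat_lit 406) (nat_lit 350) (nat_lit 144)) (XT.lf (nat_lit 0) (nat_lit 207206722860) (nat_lit 76) (nat_lit 59065062151) (nat_lit 152) (nat_lit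 5847160585) (nat_lit 24) (nat_lit 5) (nat_lit 25) (nat_lit 5) (nat_lit 26) (nat_lit 4) (nat_lit 407) (nat_lit 350) (nat_lit 143)))) (XT.nd (nat_lit 78) (nat_lit 0) (nat_lit 0) (XT.lf (nat_lit 0) (nat_lit 44115449433) (nat_lit 228) (nat_lit 232088185032) (nat_lit 76) (nat_lit 6229930479) (nat_lit 21) (nat_lit 5) (nat_lit 24) (nat_lit 5) (nat_lit 22) (nat_lit 4) (nat_lit 408) (nat_lit 350) (nat_lit 142)) (XT.nd (nat_lit 78) (nat_lit 0) (nat_lit 0) (XT.lf (nat_lit 0) (nat_lit 98465049401) (nat_lit 228) (nat_lit 120672106253) (nat_lit 76) (nat_lit 74017698826) (nat_lit 21) (nat_lit 5) (nat_lit 24) (nat_lit 5) (nat_lit 22) (nat_lit 4) (nat_lit 409) (nat_lit 350) (nat_lit 141)) (XT.lf (nat_lit 0) (nat_lit 155531882833) (nat_lit 228) (nat_lit 3685670245) (nat_lit 76) (nat_lit 145194667833) (nat_lit 21) (nat_lit 5) (nat_lit 24) (nat_lit 5) (nat_lit 22) (nat_lit 4) (nat_lit 410) (nat_lit 350) (nat_lit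 140))))) (XT.nd (nat_lit 234) (nat_lit 76) (nat_lit 0) (XT.nd (nat_lit 78) (nat_lit 152) (nat_lit 0) (XT.lf (nat_lit 0) (nat_lit 123089288050) (nat_lit 76) (nat_lit 94284303837) (nat_lit 152) (nat_lit 98762787167) (nat_lit 20) (nat_lit 5) (nat_lit 21) (nat_lit 5) (nat_lit 22) (nat_lit 4) (nat_lit 411) (nat_lit 350) (nat_lit 139)) (XT.nd (nat_lit 78) (nat_lit 152) (nat_lit 0) (XT.lf (nat_lit 0) (nat_lit 256330533833) (nat_lit 76) (nat_lit 26039041022) (nat_lit 152) (nat_lit 46074060911) (nat_lit 20) (nat_lit 5) (nat_lit 21) (nat_lit 5) (nat_lit 22) (nat_lit 4) (nat_lit 412) (nat_lit 350) (nat_lit 138)) (XT.lf (nat_lit 0) (nat_lit 10564541294) (nat_lit 152) (nat_lit 285511822910) (nat_lit 76) (nat_lit 45202097531) (nat_lit 18) (nat_lit 5) (nat_lit 20) (nat_lit 5) (nat_lit 19) (nat_lit 4) (nat_lit 413) (nat_lit 350) (nat_lit 137)))) (XT.nd (nat_lit 78) (nat_lit 76) (nat_lit 0) (XT.lf (nat_lit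 0) (nat_lit 70154622351) (nat_lit 152) (nat_lit 163352605335) (nat_lit 76) (nat_lit 121126638800) (nat_lit 18) (nat_lit 5) (nat_lit 20) (nat_lit 5) (nat_lit 19) (nat_lit 4) (nat_lit 414) (nat_lit 350) (nat_lit 136)) (XT.nd (nat_lit 78) (nat_lit 76) (nat_lit 0) (XT.lf (nat_lit 0) (nat_lit 132723996688) (nat_lit 152) (nat_lit 35085815175) (nat_lit 76) (nat_lit 200847240219) (nat_lit 18) (nat_lit 5) (nat_lit 20) (nat_lit 5) (nat_lit 19) (nat_lit 4) (nat_lit 415) (nat_lit 350) (nat_lit 135)) (XT.lf (nat_lit 0) (nat_lit 102886970281) (nat_lit 76) (nat_lit 97141022671) (nat_lit 152) (nat_lit 183273096410) (nat_lit 17) (nat_lit 5) (nat_lit 18) (nat_lit 5) (nat_lit 19) (nat_lit 4) (nat_lit 416) (nat_lit 350) (nat_lit 134))))))))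
noncomputable def xc217 : XT := (XT.nd (nat_lit 42900) (nat_lit 0) (nat_lit 2128) (XT.nd (nat_lit 42042) (nat_lit 0) (nat_lit 5472) (XT.nd (nat_lit 390) (nat_lit 76) (nat_lit 0) (XT.nd (nat_lit 156) (nat_lit 152) (nat_lit 0) (XT.nd (nat_lit 78) (nat_lit 0) (nat_lit 0) (XT.lf (nat_lit 0) (nat_lit 248976131448) (nat_lit 76) (nat_lit 22315055980) (nat_lit 152) (nat_lit 127356441219) (nat_lit 17) (nat_lit 5) (nat_lit 18) (nat_lit 5) (nat_lit 19) (nat_lit 4) (nat_lit 417) (nat_lit 350) (nat_lit 133)) (XT.lf (nat_lit 0) (nat_lit 346995606293) (nat_lit 152) (nat_lit 13270352317) (nat_lit 0) (nat_lit 54451633113) (nat_lit 17) (nat_lit 5) (nat_lit 19) (nat_lit 4) (nat_lit 17) (nat_lit 4) (nat_lit 418) (nat_lit 350) (nat_lit 132))) (XT.nd (nat_lit 78) (nat_lit 76) (nat_lit 0) (XT.lf (nat_lit 0) (nat_lit 133869347745) (nat_lit 76) (nat_lit 295071613712) (nat_lit 76) (nat_lit 2527305786) (nat_lit 16)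 (nat_lit 4) (nat_lit 17) (nat_lit 5) (nat_lit 17) (nat_lit 4) (nat_lit 419) (nat_lit 350) (nat_lit 131)) (XT.nd (nat_lit 78) (nat_lit 0) (nat_lit 0) (XT.lf (nat_lit 0) (nat_lit 64045272326) (nat_lit 152) (nat_lit 161251818462) (nat_lit 76) (nat_lit 223696508273) (nat_lit 15) (nat_lit 5) (nat_lit 17) (nat_lit 5) (nat_lit 16) (nat_lit 4) (nat_lit 420) (nat_lit 350) (nat_lit 130)) (XT.lf (nat_lit 0) (nat_lit 133861373452) (nat_lit 152) (nat_lit 18129114777) (nat_lit 76) (nat_lit 315402646318) (nat_lit 15) (nat_lit 5) (nat_lit 17) (nat_lit 5) (nat_lit 16) (nat_lit 4) (nat_lit 421) (nat_lit 350) (nat_lit 129))))) (XT.nd (nat_lit 41418) (nat_lit 0) (nat_lit 6232) (XT.nd (nat_lit 78) (nat_lit 0) (nat_lit 0) (XT.lf (nat_lit 0) (nat_lit 136518874794) (nat_lit 76) (nat_lit 72780683408) (nat_lit 152) (nat_lit 277306524725) (nat_lit 14) (nat_lit 5) (nat_lit 15) (nat_lit 5) (nat_lit 16) (nat_lit 4)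 (nat_lit 422) (nat_lit 350) (nat_lit 128)) (XT.nd (nat_lit 41262) (nat_lit 0) (nat_lit 6232) (XT.lf (nat_lit 0) (nat_lit 288983758919) (nat_lit 152) (nat_lit 207403212659) (nat_lit 0) (nat_lit 10369001855) (nat_lit 14) (nat_lit 5) (nat_lit 16) (nat_lit 4) (nat_lit 14) (nat_lit 4) (nat_lit 423) (nat_lit 350) (nat_lit 127)) (XT.lf (nat_lit 0) (nat_lit 956590786) (nat_lit 836) (nat_lit 11802966177) (nat_lit 836) (nat_lit 11802966177) (nat_lit 96) (nat_lit 3) (nat_lit 107) (nat_lit 3) (nat_lit 107) (nat_lit 5) (nat_lit 351) (nat_lit 351) (nat_lit 198)))) (XT.nd (nat_lit 78) (nat_lit 0) (nat_lit 76) (XT.lf (nat_lit 0) (nat_lit 1987156527) (nat_lit 836) (nat_lit 594682456) (nat_lit 836) (nat_lit 47769993596) (nat_lit 96) (nat_lit 3) (nat_lit 107) (nat_lit 3) (nat_lit 107) (nat_lit 5) (nat_lit 352) (nat_lit 351) (nat_lit 197)) (XT.nd (nat_lit 78) (nat_lit 0) (nat_lit 0) (XT.lf (nat_lit 0) (nat_lit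 2785212120) (nat_lit 760) (nat_lit 27617536738) (nat_lit 836) (nat_lit 21201192325) (nat_lit 97) (nat_lit 5) (nat_lit 107) (nat_lit 5) (nat_lit 108) (nat_lit 5) (nat_lit 353) (nat_lit 351) (nat_lit 196)) (XT.lf (nat_lit 0) (nat_lit 3674136194) (nat_lit 760) (nat_lit 3144409717) (nat_lit 836) (nat_lit 46097563008) (nat_lit 97) (nat_lit 5) (nat_lit 107) (nat_lit 5) (nat_lit 108) (nat_lit 5) (nat_lit 354) (nat_lit 351) (nat_lit 195)))))) (XT.nd (nat_lit 390) (nat_lit 912) (nat_lit 0) (XT.nd (nat_lit 156) (nat_lit 0) (nat_lit 76) (XT.nd (nat_lit 78) (nat_lit 0) (nat_lit 0) (XT.lf (nat_lit 0) (nat_lit 5255861793) (nat_lit 760) (nat_lit 31264805240) (nat_lit 836) (nat_lit 17740802134) (nat_lit 98) (nat_lit 5) (nat_lit 108) (nat_lit 5) (nat_lit 109) (nat_lit 5) (nat_lit 355) (nat_lit 351) (nat_lit 194)) (XT.lf (nat_lit 0) (nat_lit 7081125448) (nat_lit 760) (nat_lit 5231111878) (nat_lit 836) (nat_lit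 43353639316) (nat_lit 98) (nat_lit 5) (nat_lit 108) (nat_lit 5) (nat_lit 109) (nat_lit 5) (nat_lit 356) (nat_lit 351) (nat_lit 193))) (XT.nd (nat_lit 78) (nat_lit 0) (nat_lit 0) (XT.lf (nat_lit 0) (nat_lit 9563256353) (nat_lit 760) (nat_lit 34499066256) (nat_lit 836) (nat_lit 13049903395) (nat_lit 99) (nat_lit 5) (nat_lit 109) (nat_lit 5) (nat_lit 110) (nat_lit 5) (nat_lit 357) (nat_lit 351) (nat_lit 192)) (XT.nd (nat_lit 78) (nat_lit 0) (nat_lit 76) (XT.lf (nat_lit 0) (nat_lit 12460051844) (nat_lit 760) (nat_lit 6799493646) (nat_lit 836) (nat_lit 39356821075) (nat_lit 99) (nat_lit 5) (nat_lit 109) (nat_lit 5) (nat_lit 110) (nat_lit 5) (nat_lit 358) (nat_lit 351) (nat_lit 191)) (XT.lf (nat_lit 0) (nat_lit 15971650197) (nat_lit 760) (nat_lit 37268689427) (nat_lit 836) (nat_lit 6931877933) (nat_lit 100) (nat_lit 5) (nat_lit 110) (nat_lit 5) (nat_lit 111) (nat_lit 5) (nat_lit 359) (nat_lit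 351) (nat_lit 190))))) (XT.nd (nat_lit 234) (nat_lit 1064) (nat_lit 0) (XT.nd (nat_lit 78) (nat_lit 0) (nat_lit 0) (XT.lf (nat_lit 0) (nat_lit 20090386663) (nat_lit 760) (nat_lit 7790956937) (nat_lit 836) (nat_lit 33902941072) (nat_lit 100) (nat_lit 5) (nat_lit 110) (nat_lit 5) (nat_lit 111) (nat_lit 5) (nat_lit 360) (nat_lit 351) (nat_lit 189)) (XT.nd (nat_lit 78) (nat_lit 0) (nat_lit 76) (XT.lf (nat_lit 76) (nat_lit 23925474856) (nat_lit 0) (nat_lit 861974024) (nat_lit 836) (nat_lit 38670888227) (nat_lit 101) (nat_lit 5) (nat_lit 100) (nat_lit 5) (nat_lit 111) (nat_lit 5) (nat_lit 361) (nat_lit 351) (nat_lit 188)) (XT.lf (nat_lit 0) (nat_lit 30281841859) (nat_lit 760) (nat_lit 8143924401) (nat_lit 76) (nat_lit 26762203367) (nat_lit 101) (nat_lit 5) (nat_lit 111) (nat_lit 5) (nat_lit 102) (nat_lit 5) (nat_lit 362) (nat_lit 351) (nat_lit 187)))) (XT.nd (nat_lit 78) (nat_lit 380) (nat_lit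 0) (XT.lf (nat_lit 0) (nat_lit 25619360167) (nat_lit 760) (nat_lit 10844656346) (nat_lit 836) (nat_lit 30519415440) (nat_lit 91) (nat_lit 5) (nat_lit 101) (nat_lit 5) (nat_lit 102) (nat_lit 5) (nat_lit 363) (nat_lit 351) (nat_lit 186)) (XT.nd (nat_lit 78) (nat_lit 380) (nat_lit 0) (XT.lf (nat_lit 0) (nat_lit 43377294594) (nat_lit 836) (nat_lit 7794305993) (nat_lit 76) (nat_lit 17675968290) (nat_lit 91) (nat_lit 5) (nat_lit 102) (nat_lit 5) (nat_lit 92) (nat_lit 5) (nat_lit 364) (nat_lit 351) (nat_lit 185)) (XT.lf (nat_lit 0) (nat_lit 28177068596) (nat_lit 380) (nat_lit 23075899408) (nat_lit 456) (nat_lit 19521109236) (nat_lit 86) (nat_lit 5) (nat_lit 91) (nat_lit 5) (nat_lit 92) (nat_lit 5) (nat_lit 365) (nat_lit 351) (nat_lit 184))))))) (XT.nd (nat_lit 858) (nat_lit 1368) (nat_lit 0) (XT.nd (nat_lit 390) (nat_lit 1216) (nat_lit 0) (XT.nd (nat_lit 156) (nat_lit 456) (nat_lit 0) (XT.nd (nat_lit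 78) (nat_lit 304) (nat_lit 0) (XT.lf (nat_lit 0) (nat_lit 59755954466) (nat_lit 456) (nat_lit 6676141766) (nat_lit 76) (nat_lit 6353139427) (nat_lit 86) (nat_lit 5) (nat_lit 92) (nat_lit 5) (nat_lit 87) (nat_lit 5) (nat_lit 366) (nat_lit 351) (nat_lit 183)) (XT.lf (nat_lit 0) (nat_lit 31675356991) (nat_lit 304) (nat_lit 37880671871) (nat_lit 380) (nat_lit 5297327258) (nat_lit 82) (nat_lit 5) (nat_lit 86) (nat_lit 5) (nat_lit 87) (nat_lit 5) (nat_lit 367) (nat_lit 351) (nat_lit 182))) (XT.nd (nat_lit 78) (nat_lit 380) (nat_lit 0) (XT.lf (nat_lit 0) (nat_lit 2844962081) (nat_lit 380) (nat_lit 4889861347) (nat_lit 76) (nat_lit 69282156048) (nat_lit 81) (nat_lit 5) (nat_lit 86) (nat_lit 5) (nat_lit 82) (nat_lit 5) (nat_lit 368) (nat_lit 351) (nat_lit 181)) (XT.nd (nat_lit 78) (nat_lit 0) (nat_lit 0) (XT.lf (nat_lit 0) (nat_lit 12167813113) (nat_lit 456) (nat_lit 43250606149) (nat_lit 76) (nat_lit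 23818449966) (nat_lit 76) (nat_lit 5) (nat_lit 82) (nat_lit 5) (nat_lit 77) (nat_lit 5) (nat_lit 369) (nat_lit 351) (nat_lit 180)) (XT.lf (nat_lit 0) (nat_lit 22166961342) (nat_lit 456) (nat_lit 2616735765) (nat_lit 76) (nat_lit 56773549497) (nat_lit 76) (nat_lit 5) (nat_lit 82) (nat_lit 5) (nat_lit 77) (nat_lit 5) (nat_lit 370) (nat_lit 351) (nat_lit 179))))) (XT.nd (nat_lit 234) (nat_lit 608) (nat_lit 0) (XT.nd (nat_lit 78) (nat_lit 304) (nat_lit 0) (XT.lf (nat_lit 0) (nat_lit 33437078063) (nat_lit 380) (nat_lit 42715124308) (nat_lit 76) (nat_lit 7802890749) (nat_lit 72) (nat_lit 5) (nat_lit 77) (nat_lit 5) (nat_lit 73) (nat_lit 5) (nat_lit 371) (nat_lit 351) (nat_lit 178)) (XT.nd (nat_lit 78) (nat_lit 0) (nat_lit 0) (XT.lf (nat_lit 0) (nat_lit 518413320) (nat_lit 304) (nat_lit 45210958541) (nat_lit 380) (nat_lit 40720527324) (nat_lit 68) (nat_lit 5) (nat_lit 72) (nat_lit 5) (nat_lit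 73) (nat_lit 5) (nat_lit 372) (nat_lit 351) (nat_lit 177)) (XT.lf (nat_lit 0) (nat_lit 47395712903) (nat_lit 304) (nat_lit 11963235904) (nat_lit 380) (nat_lit 29674364072) (nat_lit 68) (nat_lit 5) (nat_lit 72) (nat_lit 5) (nat_lit 73) (nat_lit 5) (nat_lit 373) (nat_lit 351) (nat_lit 176)))) (XT.nd (nat_lit 78) (nat_lit 380) (nat_lit 0) (XT.lf (nat_lit 0) (nat_lit 4661018274) (nat_lit 228) (nat_lit 69439322635) (nat_lit 304) (nat_lit 17624040248) (nat_lit 65) (nat_lit 5) (nat_lit 68) (nat_lit 5) (nat_lit 69) (nat_lit 5) (nat_lit 374) (nat_lit 351) (nat_lit 175)) (XT.nd (nat_lit 78) (nat_lit 380) (nat_lit 0) (XT.lf (nat_lit 0) (nat_lit 54516663239) (nat_lit 228) (nat_lit 35959567300) (nat_lit 304) (nat_lit 4028901591) (nat_lit 65) (nat_lit 5) (nat_lit 68) (nat_lit 5) (nat_lit 69) (nat_lit 5) (nat_lit 375) (nat_lit 351) (nat_lit 174)) (XT.lf (nat_lit 0) (nat_lit 9586172806) (nat_lit 304) (nat_lit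 480893174) (nat_lit 380) (nat_lit 87342406467) (nat_lit 60) (nat_lit 5) (nat_lit 64) (nat_lit 5) (nat_lit 65) (nat_lit 5) (nat_lit 376) (nat_lit 351) (nat_lit 173)))))) (XT.nd (nat_lit 468) (nat_lit 684) (nat_lit 0) (XT.nd (nat_lit 234) (nat_lit 456) (nat_lit 0) (XT.nd (nat_lit 78) (nat_lit 228) (nat_lit 0) (XT.lf (nat_lit 0) (nat_lit 25994226211) (nat_lit 380) (nat_lit 38049433474) (nat_lit 76) (nat_lit 36348978711) (nat_lit 60) (nat_lit 5) (nat_lit 65) (nat_lit 5) (nat_lit 61) (nat_lit 5) (nat_lit 377) (nat_lit 351) (nat_lit 172)) (XT.nd (nat_lit 78) (nat_lit 0) (nat_lit 0) (XT.lf (nat_lit 0) (nat_lit 14674084162) (nat_lit 228) (nat_lit 28280034193) (nat_lit 304) (nat_lit 60559026152) (nat_lit 57) (nat_lit 5) (nat_lit 60) (nat_lit 5) (nat_lit 61) (nat_lit 5) (nat_lit 378) (nat_lit 351) (nat_lit 171)) (XT.lf (nat_lit 0) (nat_lit 61561112856) (nat_lit 304) (nat_lit 35558845115) (nat_lit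 76) (nat_lit 9629763099) (nat_lit 57) (nat_lit 5) (nat_lit 61) (nat_lit 5) (nat_lit 58) (nat_lit 5) (nat_lit 379) (nat_lit 351) (nat_lit 170)))) (XT.nd (nat_lit 78) (nat_lit 228) (nat_lit 0) (XT.lf (nat_lit 0) (nat_lit 20579656518) (nat_lit 228) (nat_lit 61303142488) (nat_lit 304) (nat_lit 28226110864) (nat_lit 54) (nat_lit 5) (nat_lit 57) (nat_lit 5) (nat_lit 58) (nat_lit 5) (nat_lit 380) (nat_lit 351) (nat_lit 169)) (XT.nd (nat_lit 78) (nat_lit 228) (nat_lit 0) (XT.lf (nat_lit 0) (nat_lit 80758824089) (nat_lit 228) (nat_lit 23063395314) (nat_lit 304) (nat_lit 9783756693) (nat_lit 54) (nat_lit 5) (nat_lit 57) (nat_lit 5) (nat_lit 58) (nat_lit 5) (nat_lit 381) (nat_lit 351) (nat_lit 168)) (XT.lf (nat_lit 0) (nat_lit 9977511992) (nat_lit 228) (nat_lit 90129777304) (nat_lit 76) (nat_lit 17127955708) (nat_lit 51) (nat_lit 5) (nat_lit 54) (nat_lit 5) (nat_lit 52) (nat_lit 5) (nat_lit 382) (nat_lit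 351) (nat_lit 167))))) (XT.nd (nat_lit 234) (nat_lit 456) (nat_lit 0) (XT.nd (nat_lit 78) (nat_lit 228) (nat_lit 0) (XT.lf (nat_lit 0) (nat_lit 31341007448) (nat_lit 228) (nat_lit 30370436995) (nat_lit 76) (nat_lit 59279365772) (nat_lit 51) (nat_lit 5) (nat_lit 54) (nat_lit 5) (nat_lit 52) (nat_lit 5) (nat_lit 383) (nat_lit 351) (nat_lit 166)) (XT.nd (nat_lit 78) (nat_lit 0) (nat_lit 0) (XT.lf (nat_lit 0) (nat_lit 33446634547) (nat_lit 228) (nat_lit 20847735469) (nat_lit 304) (nat_lit 70613699452) (nat_lit 48) (nat_lit 5) (nat_lit 51) (nat_lit 5) (nat_lit 52) (nat_lit 5) (nat_lit 384) (nat_lit 351) (nat_lit 165)) (XT.lf (nat_lit 0) (nat_lit 79262081454) (nat_lit 304) (nat_lit 27840105515) (nat_lit 76) (nat_lit 21875671056) (nat_lit 48) (nat_lit 5) (nat_lit 52) (nat_lit 5) (nat_lit 49) (nat_lit 5) (nat_lit 385) (nat_lit 351) (nat_lit 164)))) (XT.nd (nat_lit 78) (nat_lit 304) (nat_lit 0)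 (XT.lf (nat_lit 0) (nat_lit 39896758856) (nat_lit 152) (nat_lit 66545615149) (nat_lit 228) (nat_lit 26760552586) (nat_lit 46) (nat_lit 5) (nat_lit 48) (nat_lit 5) (nat_lit 49) (nat_lit 5) (nat_lit 386) (nat_lit 351) (nat_lit 163)) (XT.nd (nat_lit 78) (nat_lit 304) (nat_lit 0) (XT.lf (nat_lit 0) (nat_lit 111986312716) (nat_lit 152) (nat_lit 23466394800) (nat_lit 228) (nat_lit 2162990097) (nat_lit 46) (nat_lit 5) (nat_lit 48) (nat_lit 5) (nat_lit 49) (nat_lit 5) (nat_lit 387) (nat_lit 351) (nat_lit 162)) (XT.lf (nat_lit 0) (nat_lit 23991195437) (nat_lit 304) (nat_lit 96001114371) (nat_lit 76) (nat_lit 22184116514) (nat_lit 42) (nat_lit 5) (nat_lit 46) (nat_lit 5) (nat_lit 43) (nat_lit 5) (nat_lit 388) (nat_lit 351) (nat_lit 161))))))))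
noncomputable def xc218 : XT := (XT.nd (nat_lit 1716) (nat_lit 456) (nat_lit 0) (XT.nd (nat_lit 858) (nat_lit 760) (nat_lit 0) (XT.nd (nat_lit 390) (nat_lit 456) (nat_lit 0) (XT.nd (nat_lit 156) (nat_lit 228) (nat_lit 0) (XT.nd (nat_lit 78) (nat_lit 152) (nat_lit 0) (XT.lf (nat_lit 0) (nat_lit 52205818241) (nat_lit 304) (nat_lit 24911408900) (nat_lit 76) (nat_lit 69804920747) (nat_lit 42) (nat_lit 5) (nat_lit 46) (nat_lit 5) (nat_lit 43) (nat_lit 5) (nat_lit 389) (nat_lit 351) (nat_lit 160)) (XT.lf (nat_lit 0) (nat_lit 51376494925) (nat_lit 152) (nat_lit 31256391283) (nat_lit 228) (nat_lit 69232183904) (nat_lit 40) (nat_lit 5) (nat_lit 42) (nat_lit 5) (nat_lit 43) (nat_lit 5) (nat_lit 390) (nat_lit 351) (nat_lit 159))) (XT.nd (nat_lit 78) (nat_lit 228) (nat_lit 0) (XT.lf (nat_lit 0) (nat_lit 115273516663) (nat_lit 228) (nat_lit 24961777551) (nat_lit 76) (nat_lit 16785234049) (nat_lit 40)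 (nat_lit 5) (nat_lit 43) (nat_lit 5) (nat_lit 41) (nat_lit 5) (nat_lit 391) (nat_lit 351) (nat_lit 158)) (XT.nd (nat_lit 78) (nat_lit 76) (nat_lit 0) (XT.lf (nat_lit 0) (nat_lit 55608137351) (nat_lit 152) (nat_lit 95318248612) (nat_lit 228) (nat_lit 11438363247) (nat_lit 38) (nat_lit 5) (nat_lit 40) (nat_lit 5) (nat_lit 41) (nat_lit 5) (nat_lit 392) (nat_lit 351) (nat_lit 157)) (XT.lf (nat_lit 0) (nat_lit 20162528241) (nat_lit 228) (nat_lit 27207721365) (nat_lit 76) (nat_lit 120568553872) (nat_lit 37) (nat_lit 5) (nat_lit 40) (nat_lit 5) (nat_lit 38) (nat_lit 5) (nat_lit 393) (nat_lit 351) (nat_lit 156))))) (XT.nd (nat_lit 234) (nat_lit 152) (nat_lit 0) (XT.nd (nat_lit 78) (nat_lit 152) (nat_lit 0) (XT.lf (nat_lit 0) (nat_lit 53928382723) (nat_lit 228) (nat_lit 115814875234) (nat_lit 76) (nat_lit 3990460895) (nat_lit 35) (nat_lit 5) (nat_lit 38) (nat_lit 5) (nat_lit 36) (nat_lit 5) (nat_lit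 394) (nat_lit 351) (nat_lit 155)) (XT.nd (nat_lit 78) (nat_lit 152) (nat_lit 0) (XT.lf (nat_lit 0) (nat_lit 90627055360) (nat_lit 228) (nat_lit 32333737038) (nat_lit 76) (nat_lit 56795361536) (nat_lit 35) (nat_lit 5) (nat_lit 38) (nat_lit 5) (nat_lit 36) (nat_lit 5) (nat_lit 395) (nat_lit 351) (nat_lit 154)) (XT.lf (nat_lit 0) (nat_lit 57150036948) (nat_lit 152) (nat_lit 72902548663) (nat_lit 228) (nat_lit 55982529160) (nat_lit 33) (nat_lit 5) (nat_lit 35) (nat_lit 5) (nat_lit 36) (nat_lit 5) (nat_lit 396) (nat_lit 351) (nat_lit 153)))) (XT.nd (nat_lit 78) (nat_lit 152) (nat_lit 0) (XT.lf (nat_lit 0) (nat_lit 152229984108) (nat_lit 152) (nat_lit 19766655181) (nat_lit 228) (nat_lit 20604022206) (nat_lit 33) (nat_lit 5) (nat_lit 35) (nat_lit 5) (nat_lit 36) (nat_lit 5) (nat_lit 397) (nat_lit 351) (nat_lit 152)) (XT.nd (nat_lit 78) (nat_lit 0) (nat_lit 0) (XT.lf (nat_lit 0) (nat_lit 17437836721)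 (nat_lit 152) (nat_lit 145979706406) (nat_lit 76) (nat_lit 35992832200) (nat_lit 31) (nat_lit 5) (nat_lit 33) (nat_lit 5) (nat_lit 32) (nat_lit 5) (nat_lit 398) (nat_lit 351) (nat_lit 151)) (XT.lf (nat_lit 0) (nat_lit 57707980856) (nat_lit 152) (nat_lit 53876308930) (nat_lit 76) (nat_lit 94908465559) (nat_lit 31) (nat_lit 5) (nat_lit 33) (nat_lit 5) (nat_lit 32) (nat_lit 5) (nat_lit 399) (nat_lit 351) (nat_lit 150)))))) (XT.nd (nat_lit 390) (nat_lit 304) (nat_lit 0) (XT.nd (nat_lit 156) (nat_lit 304) (nat_lit 0) (XT.nd (nat_lit 78) (nat_lit 0) (nat_lit 0) (XT.lf (nat_lit 0) (nat_lit 44247937608) (nat_lit 152) (nat_lit 56434218315) (nat_lit 228) (nat_lit 113212572413) (nat_lit 29) (nat_lit 5) (nat_lit 31) (nat_lit 5) (nat_lit 32) (nat_lit 5) (nat_lit 400) (nat_lit 351) (nat_lit 149)) (XT.lf (nat_lit 0) (nat_lit 146755114692) (nat_lit 228) (nat_lit 72510814113) (nat_lit 76) (nat_lit 2353367574)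 (nat_lit 29) (nat_lit 5) (nat_lit 32) (nat_lit 5) (nat_lit 30) (nat_lit 4) (nat_lit 401) (nat_lit 351) (nat_lit 148))) (XT.nd (nat_lit 78) (nat_lit 228) (nat_lit 0) (XT.lf (nat_lit 0) (nat_lit 29500501431) (nat_lit 76) (nat_lit 167016663858) (nat_lit 152) (nat_lit 33143655482) (nat_lit 28) (nat_lit 5) (nat_lit 29) (nat_lit 5) (nat_lit 30) (nat_lit 4) (nat_lit 402) (nat_lit 351) (nat_lit 147)) (XT.nd (nat_lit 78) (nat_lit 152) (nat_lit 0) (XT.lf (nat_lit 0) (nat_lit 11569463259) (nat_lit 152) (nat_lit 99100346175) (nat_lit 76) (nat_lit 127363895917) (nat_lit 27) (nat_lit 5) (nat_lit 29) (nat_lit 5) (nat_lit 28) (nat_lit 5) (nat_lit 403) (nat_lit 351) (nat_lit 146)) (XT.lf (nat_lit 0) (nat_lit 6682688498) (nat_lit 152) (nat_lit 50825763212) (nat_lit 228) (nat_lit 189284412746) (nat_lit 25) (nat_lit 5) (nat_lit 27) (nat_lit 5) (nat_lit 28) (nat_lit 5) (nat_lit 404) (nat_lit 351) (nat_lit 145)))))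 (XT.nd (nat_lit 234) (nat_lit 228) (nat_lit 0) (XT.nd (nat_lit 78) (nat_lit 76) (nat_lit 0) (XT.lf (nat_lit 0) (nat_lit 107637457508) (nat_lit 228) (nat_lit 134926170343) (nat_lit 76) (nat_lit 13331700387) (nat_lit 25) (nat_lit 5) (nat_lit 28) (nat_lit 5) (nat_lit 26) (nat_lit 4) (nat_lit 405) (nat_lit 351) (nat_lit 144)) (XT.nd (nat_lit 78) (nat_lit 76) (nat_lit 0) (XT.lf (nat_lit 0) (nat_lit 161105860884) (nat_lit 228) (nat_lit 25316639335) (nat_lit 76) (nat_lit 78988767736) (nat_lit 25) (nat_lit 5) (nat_lit 28) (nat_lit 5) (nat_lit 26) (nat_lit 4) (nat_lit 406) (nat_lit 351) (nat_lit 143)) (XT.lf (nat_lit 0) (nat_lit 92741223058) (nat_lit 76) (nat_lit 125954162297) (nat_lit 152) (nat_lit 56635234363) (nat_lit 24) (nat_lit 5) (nat_lit 25) (nat_lit 5) (nat_lit 26) (nat_lit 4) (nat_lit 407) (nat_lit 351) (nat_lit 142)))) (XT.nd (nat_lit 78) (nat_lit 228) (nat_lit 0) (XT.lf (nat_lit 0) (nat_lit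 217580478793) (nat_lit 76) (nat_lit 62012412391) (nat_lit 152) (nat_lit 6131622731) (nat_lit 24) (nat_lit 5) (nat_lit 25) (nat_lit 5) (nat_lit 26) (nat_lit 4) (nat_lit 408) (nat_lit 351) (nat_lit 141)) (XT.nd (nat_lit 78) (nat_lit 0) (nat_lit 0) (XT.lf (nat_lit 0) (nat_lit 46328804319) (nat_lit 228) (nat_lit 243678855231) (nat_lit 76) (nat_lit 6547201694) (nat_lit 21) (nat_lit 5) (nat_lit 24) (nat_lit 5) (nat_lit 22) (nat_lit 4) (nat_lit 409) (nat_lit 351) (nat_lit 140)) (XT.lf (nat_lit 0) (nat_lit 103395523218) (nat_lit 228) (nat_lit 126692626754) (nat_lit 76) (nat_lit 77724083473) (nat_lit 21) (nat_lit 5) (nat_lit 24) (nat_lit 5) (nat_lit 22) (nat_lit 4) (nat_lit 410) (nat_lit 351) (nat_lit 139))))))) (XT.nd (nat_lit 858) (nat_lit 0) (nat_lit 0) (XT.nd (nat_lit 390) (nat_lit 228) (nat_lit 0) (XT.nd (nat_lit 156) (nat_lit 152) (nat_lit 0) (XT.nd (nat_lit 78) (nat_lit 76) (nat_lit 0) (XT.lf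 (nat_lit 0) (nat_lit 163315354448) (nat_lit 228) (nat_lit 3857492032) (nat_lit 76) (nat_lit 152459639040) (nat_lit 21) (nat_lit 5) (nat_lit 24) (nat_lit 5) (nat_lit 22) (nat_lit 4) (nat_lit 411) (nat_lit 351) (nat_lit 138)) (XT.lf (nat_lit 0) (nat_lit 129256013182) (nat_lit 76) (nat_lit 98992999698) (nat_lit 152) (nat_lit 103693845616) (nat_lit 20) (nat_lit 5) (nat_lit 21) (nat_lit 5) (nat_lit 22) (nat_lit 4) (nat_lit 412) (nat_lit 351) (nat_lit 137))) (XT.nd (nat_lit 78) (nat_lit 152) (nat_lit 0) (XT.lf (nat_lit 0) (nat_lit 269158737410) (nat_lit 76) (nat_lit 27335736568) (nat_lit 152) (nat_lit 48371020233) (nat_lit 20) (nat_lit 5) (nat_lit 21) (nat_lit 5) (nat_lit 22) (nat_lit 4) (nat_lit 413) (nat_lit 351) (nat_lit 136)) (XT.nd (nat_lit 78) (nat_lit 0) (nat_lit 0) (XT.lf (nat_lit 0) (nat_lit 11099250907) (nat_lit 152) (nat_lit 299775471673) (nat_lit 76) (nat_lit 47467336005) (nat_lit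 18) (nat_lit 5) (nat_lit 20) (nat_lit 5) (nat_lit 19) (nat_lit 4) (nat_lit 414) (nat_lit 351) (nat_lit 135)) (XT.lf (nat_lit 0) (nat_lit 73668527324) (nat_lit 152) (nat_lit 171508861904) (nat_lit 76) (nat_lit 127187859881) (nat_lit 18) (nat_lit 5) (nat_lit 20) (nat_lit 5) (nat_lit 19) (nat_lit 4) (nat_lit 415) (nat_lit 351) (nat_lit 134))))) (XT.nd (nat_lit 234) (nat_lit 152) (nat_lit 0) (XT.nd (nat_lit 78) (nat_lit 76) (nat_lit 0) (XT.lf (nat_lit 0) (nat_lit 139366076385) (nat_lit 152) (nat_lit 36829273840) (nat_lit 76) (nat_lit 210894258555) (nat_lit 18) (nat_lit 5) (nat_lit 20) (nat_lit 5) (nat_lit 19) (nat_lit 4) (nat_lit 416) (nat_lit 351) (nat_lit 133)) (XT.nd (nat_lit 78) (nat_lit 0) (nat_lit 0) (XT.lf (nat_lit 0) (nat_lit 108041976177) (nat_lit 76) (nat_lit 101993182683) (nat_lit 152) (nat_lit 192430694834) (nat_lit 17) (nat_lit 5) (nat_lit 18) (nat_lit 5) (nat_lit 19) (nat_lit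 4) (nat_lit 417) (nat_lit 351) (nat_lit 132)) (XT.lf (nat_lit 0) (nat_lit 261435087909) (nat_lit 76) (nat_lit 23426150568) (nat_lit 152) (nat_lit 133718495284) (nat_lit 17) (nat_lit 5) (nat_lit 18) (nat_lit 5) (nat_lit 19) (nat_lit 4) (nat_lit 418) (nat_lit 351) (nat_lit 131)))) (XT.nd (nat_lit 78) (nat_lit 152) (nat_lit 0) (XT.lf (nat_lit 0) (nat_lit 364350686041) (nat_lit 152) (nat_lit 13924009477) (nat_lit 0) (nat_lit 57178509168) (nat_lit 17) (nat_lit 5) (nat_lit 19) (nat_lit 4) (nat_lit 17) (nat_lit 4) (nat_lit 419) (nat_lit 351) (nat_lit 130)) (XT.nd (nat_lit 78) (nat_lit 76) (nat_lit 0) (XT.lf (nat_lit 0) (nat_lit 140572516548) (nat_lit 76) (nat_lit 309820691527) (nat_lit 76) (nat_lit 2648211029) (nat_lit 16) (nat_lit 4) (nat_lit 17) (nat_lit 5) (nat_lit 17) (nat_lit 4) (nat_lit 420) (nat_lit 351) (nat_lit 129)) (XT.lf (nat_lit 0) (nat_lit 67252569552) (nat_lit 152) (nat_lit 169305002079)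 (nat_lit 76) (nat_lit 234885454274) (nat_lit 15) (nat_lit 5) (nat_lit 17) (nat_lit 5) (nat_lit 16) (nat_lit 4) (nat_lit 421) (nat_lit 351) (nat_lit 128)))))) (XT.nd (nat_lit 41808) (nat_lit 0) (nat_lit 6308) (XT.nd (nat_lit 41574) (nat_lit 0) (nat_lit 6232) (XT.nd (nat_lit 41418) (nat_lit 0) (nat_lit 6156) (XT.lf (nat_lit 0) (nat_lit 140559236039) (nat_lit 152) (nat_lit 19026611177) (nat_lit 76) (nat_lit 331176703003) (nat_lit 15) (nat_lit 5) (nat_lit 17) (nat_lit 5) (nat_lit 16) (nat_lit 4) (nat_lit 422) (nat_lit 351) (nat_lit 127)) (XT.nd (nat_lit 78) (nat_lit 0) (nat_lit 0) (XT.lf (nat_lit 0) (nat_lit 1030157537) (nat_lit 836) (nat_lit 12379586410) (nat_lit 836) (nat_lit 12379586410) (nat_lit 96) (nat_lit 3) (nat_lit 107) (nat_lit 3) (nat_lit 107) (nat_lit 5) (nat_lit 352) (nat_lit 352) (nat_lit 196)) (XT.lf (nat_lit 0) (nat_lit 2135537612) (nat_lit 836) (nat_lit 598648816) (nat_lit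 836) (nat_lit 50132725513) (nat_lit 96) (nat_lit 3) (nat_lit 107) (nat_lit 3) (nat_lit 107) (nat_lit 5) (nat_lit 353) (nat_lit 352) (nat_lit 195)))) (XT.nd (nat_lit 78) (nat_lit 0) (nat_lit 0) (XT.lf (nat_lit 0) (nat_lit 2971218057) (nat_lit 760) (nat_lit 28970309690) (nat_lit 836) (nat_lit 22240215034) (nat_lit 97) (nat_lit 5) (nat_lit 107) (nat_lit 5) (nat_lit 108) (nat_lit 5) (nat_lit 354) (nat_lit 352) (nat_lit 194)) (XT.nd (nat_lit 78) (nat_lit 0) (nat_lit 76) (XT.lf (nat_lit 0) (nat_lit 3902362367) (nat_lit 760) (nat_lit 3274864598) (nat_lit 836) (nat_lit 48382406009) (nat_lit 97) (nat_lit 5) (nat_lit 107) (nat_lit 5) (nat_lit 108) (nat_lit 5) (nat_lit 355) (nat_lit 352) (nat_lit 193)) (XT.lf (nat_lit 0) (nat_lit 5561208176) (nat_lit 760) (nat_lit 32799261043) (nat_lit 836) (nat_lit 18611892959) (nat_lit 98) (nat_lit 5) (nat_lit 108) (nat_lit 5) (nat_lit 109) (nat_lit 5) (nat_lit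 356) (nat_lit 352) (nat_lit 192))))) (XT.nd (nat_lit 234) (nat_lit 0) (nat_lit 152) (XT.nd (nat_lit 78) (nat_lit 0) (nat_lit 76) (XT.lf (nat_lit 0) (nat_lit 7475708666) (nat_lit 760) (nat_lit 5465253701) (nat_lit 836) (nat_lit 45506131490) (nat_lit 98) (nat_lit 5) (nat_lit 108) (nat_lit 5) (nat_lit 109) (nat_lit 5) (nat_lit 357) (nat_lit 352) (nat_lit 191)) (XT.nd (nat_lit 78) (nat_lit 0) (nat_lit 0) (XT.lf (nat_lit 0) (nat_lit 10080249283) (nat_lit 760) (nat_lit 36194861088) (nat_lit 836) (nat_lit 13690737551) (nat_lit 99) (nat_lit 5) (nat_lit 109) (nat_lit 5) (nat_lit 110) (nat_lit 5) (nat_lit 358) (nat_lit 352) (nat_lit 190)) (XT.lf (nat_lit 0) (nat_lit 13120035496) (nat_lit 760) (nat_lit 7111698346) (nat_lit 836) (nat_lit 41313556401) (nat_lit 99) (nat_lit 5) (nat_lit 109) (nat_lit 5) (nat_lit 110) (nat_lit 5) (nat_lit 359) (nat_lit 352) (nat_lit 189)))) (XT.nd (nat_lit 78) (nat_lit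 0) (nat_lit 0) (XT.lf (nat_lit 0) (nat_lit 16805749369) (nat_lit 760) (nat_lit 39102846093) (nat_lit 836) (nat_lit 7270413715) (nat_lit 100) (nat_lit 5) (nat_lit 110) (nat_lit 5) (nat_lit 111) (nat_lit 5) (nat_lit 360) (nat_lit 352) (nat_lit 188)) (XT.nd (nat_lit 78) (nat_lit 0) (nat_lit 0) (XT.lf (nat_lit 0) (nat_lit 21128731388) (nat_lit 760) (nat_lit 8152621159) (nat_lit 836) (nat_lit 35590413731) (nat_lit 100) (nat_lit 5) (nat_lit 110) (nat_lit 5) (nat_lit 111) (nat_lit 5) (nat_lit 361) (nat_lit 352) (nat_lit 187)) (XT.lf (nat_lit 76) (nat_lit 25149182487) (nat_lit 0) (nat_lit 910281816) (nat_lit 836) (nat_lit 40570118123) (nat_lit 101) (nat_lit 5) (nat_lit 100) (nat_lit 5) (nat_lit 111) (nat_lit 5) (nat_lit 362) (nat_lit 352) (nat_lit 186))))))))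
noncomputable def xc219 : XT := (XT.nd (nat_lit 1716) (nat_lit 1976) (nat_lit 0) (XT.nd (nat_lit 858) (nat_lit 1292) (nat_lit 0) (XT.nd (nat_lit 390) (nat_lit 1368) (nat_lit 0) (XT.nd (nat_lit 156) (nat_lit 380) (nat_lit 0) (XT.nd (nat_lit 78) (nat_lit 760) (nat_lit 0) (XT.lf (nat_lit 0) (nat_lit 31826945047) (nat_lit 760) (nat_lit 8523323712) (nat_lit 76) (nat_lit 28095511281) (nat_lit 101) (nat_lit 5) (nat_lit 111) (nat_lit 5) (nat_lit 102) (nat_lit 5) (nat_lit 363) (nat_lit 352) (nat_lit 185)) (XT.lf (nat_lit 0) (nat_lit 26927676747) (nat_lit 760) (nat_lit 11389501956) (nat_lit 836) (nat_lit 32013891052) (nat_lit 91) (nat_lit 5) (nat_lit 101) (nat_lit 5) (nat_lit 102) (nat_lit 5) (nat_lit 364) (nat_lit 352) (nat_lit 184))) (XT.nd (nat_lit 78) (nat_lit 380) (nat_lit 0) (XT.lf (nat_lit 0) (nat_lit 45574655107) (nat_lit 836) (nat_lit 8156475427) (nat_lit 76) (nat_lit 18557357974) (nat_lit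 91) (nat_lit 5) (nat_lit 102) (nat_lit 5) (nat_lit 92) (nat_lit 5) (nat_lit 365) (nat_lit 352) (nat_lit 183)) (XT.nd (nat_lit 78) (nat_lit 0) (nat_lit 0) (XT.lf (nat_lit 0) (nat_lit 29613023604) (nat_lit 380) (nat_lit 24230154773) (nat_lit 456) (nat_lit 20468192223) (nat_lit 86) (nat_lit 5) (nat_lit 91) (nat_lit 5) (nat_lit 92) (nat_lit 5) (nat_lit 366) (nat_lit 352) (nat_lit 182)) (XT.lf (nat_lit 0) (nat_lit 62769994841) (nat_lit 456) (nat_lit 6982787645) (nat_lit 76) (nat_lit 6670371962) (nat_lit 86) (nat_lit 5) (nat_lit 92) (nat_lit 5) (nat_lit 87) (nat_lit 5) (nat_lit 367) (nat_lit 352) (nat_lit 181))))) (XT.nd (nat_lit 234) (nat_lit 608) (nat_lit 0) (XT.nd (nat_lit 78) (nat_lit 456) (nat_lit 0) (XT.lf (nat_lit 0) (nat_lit 33285847966) (nat_lit 304) (nat_lit 39773392564) (nat_lit 380) (nat_lit 5535483494) (nat_lit 82) (nat_lit 5) (nat_lit 86) (nat_lit 5) (nat_lit 87) (nat_lit 5) (nat_lit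 368) (nat_lit 352) (nat_lit 180)) (XT.nd (nat_lit 78) (nat_lit 380) (nat_lit 0) (XT.lf (nat_lit 0) (nat_lit 3011834220) (nat_lit 380) (nat_lit 5108062977) (nat_lit 76) (nat_lit 72746673391) (nat_lit 81) (nat_lit 5) (nat_lit 86) (nat_lit 5) (nat_lit 82) (nat_lit 5) (nat_lit 369) (nat_lit 352) (nat_lit 179)) (XT.lf (nat_lit 0) (nat_lit 12800090507) (nat_lit 456) (nat_lit 45386082333) (nat_lit 76) (nat_lit 25011320124) (nat_lit 76) (nat_lit 5) (nat_lit 82) (nat_lit 5) (nat_lit 77) (nat_lit 5) (nat_lit 370) (nat_lit 352) (nat_lit 178)))) (XT.nd (nat_lit 78) (nat_lit 608) (nat_lit 0) (XT.lf (nat_lit 0) (nat_lit 23298058684) (nat_lit 456) (nat_lit 2721806721) (nat_lit 76) (nat_lit 59614081885) (nat_lit 76) (nat_lit 5) (nat_lit 82) (nat_lit 5) (nat_lit 77) (nat_lit 5) (nat_lit 371) (nat_lit 352) (nat_lit 177)) (XT.nd (nat_lit 78) (nat_lit 304) (nat_lit 0) (XT.lf (nat_lit 0) (nat_lit 35131045072)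 (nat_lit 380) (nat_lit 44824455493) (nat_lit 76) (nat_lit 8196218525) (nat_lit 72) (nat_lit 5) (nat_lit 77) (nat_lit 5) (nat_lit 73) (nat_lit 5) (nat_lit 372) (nat_lit 352) (nat_lit 176)) (XT.lf (nat_lit 0) (nat_lit 570332805) (nat_lit 304) (nat_lit 47466973664) (nat_lit 380) (nat_lit 42733992441) (nat_lit 68) (nat_lit 5) (nat_lit 72) (nat_lit 5) (nat_lit 73) (nat_lit 5) (nat_lit 373) (nat_lit 352) (nat_lit 175)))))) (XT.nd (nat_lit 390) (nat_lit 684) (nat_lit 0) (XT.nd (nat_lit 156) (nat_lit 380) (nat_lit 0) (XT.nd (nat_lit 78) (nat_lit 228) (nat_lit 0) (XT.lf (nat_lit 0) (nat_lit 49790259329) (nat_lit 304) (nat_lit 12557080743) (nat_lit 380) (nat_lit 31136595371) (nat_lit 68) (nat_lit 5) (nat_lit 72) (nat_lit 5) (nat_lit 73) (nat_lit 5) (nat_lit 374) (nat_lit 352) (nat_lit 174)) (XT.lf (nat_lit 0) (nat_lit 4919390544) (nat_lit 228) (nat_lit 72905897247) (nat_lit 304) (nat_lit 18484296038)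 (nat_lit 65) (nat_lit 5) (nat_lit 68) (nat_lit 5) (nat_lit 69) (nat_lit 5) (nat_lit 375) (nat_lit 352) (nat_lit 173))) (XT.nd (nat_lit 78) (nat_lit 380) (nat_lit 0) (XT.lf (nat_lit 0) (nat_lit 57266611979) (nat_lit 228) (nat_lit 37752410885) (nat_lit 304) (nat_lit 4210397887) (nat_lit 65) (nat_lit 5) (nat_lit 68) (nat_lit 5) (nat_lit 69) (nat_lit 5) (nat_lit 376) (nat_lit 352) (nat_lit 172)) (XT.nd (nat_lit 78) (nat_lit 0) (nat_lit 0) (XT.lf (nat_lit 0) (nat_lit 10089854003) (nat_lit 304) (nat_lit 499336559) (nat_lit 380) (nat_lit 91689799757) (nat_lit 60) (nat_lit 5) (nat_lit 64) (nat_lit 5) (nat_lit 65) (nat_lit 5) (nat_lit 377) (nat_lit 352) (nat_lit 171)) (XT.lf (nat_lit 0) (nat_lit 27311898222) (nat_lit 380) (nat_lit 39927866238) (nat_lit 76) (nat_lit 38171591454) (nat_lit 60) (nat_lit 5) (nat_lit 65) (nat_lit 5) (nat_lit 61) (nat_lit 5) (nat_lit 378) (nat_lit 352) (nat_lit 170)))))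 (XT.nd (nat_lit 234) (nat_lit 228) (nat_lit 0) (XT.nd (nat_lit 78) (nat_lit 228) (nat_lit 0) (XT.lf (nat_lit 0) (nat_lit 15431439556) (nat_lit 228) (nat_lit 29687859407) (nat_lit 304) (nat_lit 63568613448) (nat_lit 57) (nat_lit 5) (nat_lit 60) (nat_lit 5) (nat_lit 61) (nat_lit 5) (nat_lit 379) (nat_lit 352) (nat_lit 169)) (XT.nd (nat_lit 78) (nat_lit 228) (nat_lit 0) (XT.lf (nat_lit 0) (nat_lit 64655902901) (nat_lit 304) (nat_lit 37313507300) (nat_lit 76) (nat_lit 10116945357) (nat_lit 57) (nat_lit 5) (nat_lit 61) (nat_lit 5) (nat_lit 58) (nat_lit 5) (nat_lit 380) (nat_lit 352) (nat_lit 168)) (XT.lf (nat_lit 0) (nat_lit 21631543930) (nat_lit 228) (nat_lit 64361690157) (nat_lit 304) (nat_lit 29620292381) (nat_lit 54) (nat_lit 5) (nat_lit 57) (nat_lit 5) (nat_lit 58) (nat_lit 5) (nat_lit 381) (nat_lit 352) (nat_lit 167)))) (XT.nd (nat_lit 78) (nat_lit 228) (nat_lit 0) (XT.lf (nat_lit 0) (nat_lit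 84818579185) (nat_lit 228) (nat_lit 24210270360) (nat_lit 304) (nat_lit 10256635932) (nat_lit 54) (nat_lit 5) (nat_lit 57) (nat_lit 5) (nat_lit 58) (nat_lit 5) (nat_lit 382) (nat_lit 352) (nat_lit 166)) (XT.nd (nat_lit 78) (nat_lit 0) (nat_lit 0) (XT.lf (nat_lit 0) (nat_lit 10491868966) (nat_lit 228) (nat_lit 94613600020) (nat_lit 76) (nat_lit 17990751986) (nat_lit 51) (nat_lit 5) (nat_lit 54) (nat_lit 5) (nat_lit 52) (nat_lit 5) (nat_lit 383) (nat_lit 352) (nat_lit 165)) (XT.lf (nat_lit 0) (nat_lit 32922801986) (nat_lit 228) (nat_lit 31867372036) (nat_lit 76) (nat_lit 62249427864) (nat_lit 51) (nat_lit 5) (nat_lit 54) (nat_lit 5) (nat_lit 52) (nat_lit 5) (nat_lit 384) (nat_lit 352) (nat_lit 164))))))) (XT.nd (nat_lit 858) (nat_lit 760) (nat_lit 0) (XT.nd (nat_lit 390) (nat_lit 532) (nat_lit 0) (XT.nd (nat_lit 156) (nat_lit 456) (nat_lit 0) (XT.nd (nat_lit 78) (nat_lit 0) (nat_lit 0) (XT.lf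 (nat_lit 0) (nat_lit 35140204909) (nat_lit 228) (nat_lit 21883257265) (nat_lit 304) (nat_lit 74129281006) (nat_lit 48) (nat_lit 5) (nat_lit 51) (nat_lit 5) (nat_lit 52) (nat_lit 5) (nat_lit 385) (nat_lit 352) (nat_lit 163)) (XT.lf (nat_lit 0) (nat_lit 83238976802) (nat_lit 304) (nat_lit 29211290587) (nat_lit 76) (nat_lit 22975783423) (nat_lit 48) (nat_lit 5) (nat_lit 52) (nat_lit 5) (nat_lit 49) (nat_lit 5) (nat_lit 386) (nat_lit 352) (nat_lit 162))) (XT.nd (nat_lit 78) (nat_lit 304) (nat_lit 0) (XT.lf (nat_lit 0) (nat_lit 41912081192) (nat_lit 152) (nat_lit 69865865880) (nat_lit 228) (nat_lit 28084443083) (nat_lit 46) (nat_lit 5) (nat_lit 48) (nat_lit 5) (nat_lit 49) (nat_lit 5) (nat_lit 387) (nat_lit 352) (nat_lit 161)) (XT.nd (nat_lit 78) (nat_lit 304) (nat_lit 0) (XT.lf (nat_lit 0) (nat_lit 117605137299) (nat_lit 152) (nat_lit 24633019276) (nat_lit 228) (nat_lit 2257675666) (nat_lit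 46) (nat_lit 5) (nat_lit 48) (nat_lit 5) (nat_lit 49) (nat_lit 5) (nat_lit 388) (nat_lit 352) (nat_lit 160)) (XT.lf (nat_lit 0) (nat_lit 25203581891) (nat_lit 304) (nat_lit 100781006096) (nat_lit 76) (nat_lit 23300009637) (nat_lit 42) (nat_lit 5) (nat_lit 46) (nat_lit 5) (nat_lit 43) (nat_lit 5) (nat_lit 389) (nat_lit 352) (nat_lit 159))))) (XT.nd (nat_lit 234) (nat_lit 380) (nat_lit 0) (XT.nd (nat_lit 78) (nat_lit 152) (nat_lit 0) (XT.lf (nat_lit 0) (nat_lit 54828325041) (nat_lit 304) (nat_lit 26137775541) (nat_lit 76) (nat_lit 73301535638) (nat_lit 42) (nat_lit 5) (nat_lit 46) (nat_lit 5) (nat_lit 43) (nat_lit 5) (nat_lit 390) (nat_lit 352) (nat_lit 158)) (XT.nd (nat_lit 78) (nat_lit 0) (nat_lit 0) (XT.lf (nat_lit 0) (nat_lit 53964213736) (nat_lit 152) (nat_lit 32812245951) (nat_lit 228) (nat_lit 72681259600) (nat_lit 40) (nat_lit 5) (nat_lit 42) (nat_lit 5) (nat_lit 43) (nat_lit 5) (nat_lit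 391) (nat_lit 352) (nat_lit 157)) (XT.lf (nat_lit 0) (nat_lit 121048657172) (nat_lit 228) (nat_lit 26191400091) (nat_lit 76) (nat_lit 17630916680) (nat_lit 40) (nat_lit 5) (nat_lit 43) (nat_lit 5) (nat_lit 41) (nat_lit 5) (nat_lit 392) (nat_lit 352) (nat_lit 156)))) (XT.nd (nat_lit 78) (nat_lit 228) (nat_lit 0) (XT.lf (nat_lit 0) (nat_lit 58406712712) (nat_lit 152) (nat_lit 100077194949) (nat_lit 228) (nat_lit 11998511748) (nat_lit 38) (nat_lit 5) (nat_lit 40) (nat_lit 5) (nat_lit 41) (nat_lit 5) (nat_lit 393) (nat_lit 352) (nat_lit 155)) (XT.nd (nat_lit 78) (nat_lit 152) (nat_lit 0) (XT.lf (nat_lit 0) (nat_lit 21181505090) (nat_lit 228) (nat_lit 28550438865) (nat_lit 76) (nat_lit 126603250699) (nat_lit 37) (nat_lit 5) (nat_lit 40) (nat_lit 5) (nat_lit 38) (nat_lit 5) (nat_lit 394) (nat_lit 352) (nat_lit 154)) (XT.lf (nat_lit 0) (nat_lit 56635512845) (nat_lit 228) (nat_lit 121587804808)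 (nat_lit 76) (nat_lit 4196545423) (nat_lit 35) (nat_lit 5) (nat_lit 38) (nat_lit 5) (nat_lit 36) (nat_lit 5) (nat_lit 395) (nat_lit 352) (nat_lit 153)))))) (XT.nd (nat_lit 468) (nat_lit 304) (nat_lit 0) (XT.nd (nat_lit 234) (nat_lit 304) (nat_lit 0) (XT.nd (nat_lit 78) (nat_lit 152) (nat_lit 0) (XT.lf (nat_lit 0) (nat_lit 95168609067) (nat_lit 228) (nat_lit 33933457998) (nat_lit 76) (nat_lit 59641378644) (nat_lit 35) (nat_lit 5) (nat_lit 38) (nat_lit 5) (nat_lit 36) (nat_lit 5) (nat_lit 396) (nat_lit 352) (nat_lit 152)) (XT.nd (nat_lit 78) (nat_lit 0) (nat_lit 0) (XT.lf (nat_lit 0) (nat_lit 60024231045) (nat_lit 152) (nat_lit 76540959640) (nat_lit 228) (nat_lit 58771175440) (nat_lit 33) (nat_lit 5) (nat_lit 35) (nat_lit 5) (nat_lit 36) (nat_lit 5) (nat_lit 397) (nat_lit 352) (nat_lit 151)) (XT.lf (nat_lit 0) (nat_lit 159857380693) (nat_lit 152) (nat_lit 20748591316) (nat_lit 228) (nat_lit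 21624242195) (nat_lit 33) (nat_lit 5) (nat_lit 35) (nat_lit 5) (nat_lit 36) (nat_lit 5) (nat_lit 398) (nat_lit 352) (nat_lit 150)))) (XT.nd (nat_lit 78) (nat_lit 152) (nat_lit 0) (XT.lf (nat_lit 0) (nat_lit 18319280957) (nat_lit 152) (nat_lit 153262355717) (nat_lit 76) (nat_lit 37798774966) (nat_lit 31) (nat_lit 5) (nat_lit 33) (nat_lit 5) (nat_lit 32) (nat_lit 5) (nat_lit 399) (nat_lit 352) (nat_lit 149)) (XT.nd (nat_lit 78) (nat_lit 152) (nat_lit 0) (XT.lf (nat_lit 0) (nat_lit 60602477423) (nat_lit 152) (nat_lit 56554566273) (nat_lit 76) (nat_lit 99659889938) (nat_lit 31) (nat_lit 5) (nat_lit 33) (nat_lit 5) (nat_lit 32) (nat_lit 5) (nat_lit 400) (nat_lit 352) (nat_lit 148)) (XT.lf (nat_lit 0) (nat_lit 46475641656) (nat_lit 152) (nat_lit 59249525360) (nat_lit 228) (nat_lit 118863848189) (nat_lit 29) (nat_lit 5) (nat_lit 31) (nat_lit 5) (nat_lit 32) (nat_lit 5) (nat_lit 401) (nat_lit 352)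 (nat_lit 147))))) (XT.nd (nat_lit 234) (nat_lit 152) (nat_lit 0) (XT.nd (nat_lit 78) (nat_lit 152) (nat_lit 0) (XT.lf (nat_lit 0) (nat_lit 154101444977) (nat_lit 228) (nat_lit 76121443644) (nat_lit 76) (nat_lit 2476939673) (nat_lit 29) (nat_lit 5) (nat_lit 32) (nat_lit 5) (nat_lit 30) (nat_lit 4) (nat_lit 402) (nat_lit 352) (nat_lit 146)) (XT.nd (nat_lit 78) (nat_lit 76) (nat_lit 0) (XT.lf (nat_lit 0) (nat_lit 30990197174) (nat_lit 76) (nat_lit 175361221669) (nat_lit 152) (nat_lit 34792019226) (nat_lit 28) (nat_lit 5) (nat_lit 29) (nat_lit 5) (nat_lit 30) (nat_lit 4) (nat_lit 403) (nat_lit 352) (nat_lit 145)) (XT.lf (nat_lit 0) (nat_lit 12156066675) (nat_lit 152) (nat_lit 104041118987) (nat_lit 76) (nat_lit 133737794838) (nat_lit 27) (nat_lit 5) (nat_lit 29) (nat_lit 5) (nat_lit 28) (nat_lit 5) (nat_lit 404) (nat_lit 352) (nat_lit 144)))) (XT.nd (nat_lit 78) (nat_lit 0) (nat_lit 0) (XT.lf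 (nat_lit 0) (nat_lit 7030837670) (nat_lit 152) (nat_lit 53360998533) (nat_lit 228) (nat_lit 198740269946) (nat_lit 25) (nat_lit 5) (nat_lit 27) (nat_lit 5) (nat_lit 28) (nat_lit 5) (nat_lit 405) (nat_lit 352) (nat_lit 143)) (XT.nd (nat_lit 78) (nat_lit 0) (nat_lit 0) (XT.lf (nat_lit 0) (nat_lit 113027003155) (nat_lit 228) (nat_lit 141658839073) (nat_lit 76) (nat_lit 14003865512) (nat_lit 25) (nat_lit 5) (nat_lit 28) (nat_lit 5) (nat_lit 26) (nat_lit 4) (nat_lit 406) (nat_lit 352) (nat_lit 142)) (XT.lf (nat_lit 0) (nat_lit 169168461329) (nat_lit 228) (nat_lit 26569481028) (nat_lit 76) (nat_lit 82943520510) (nat_lit 25) (nat_lit 5) (nat_lit 28) (nat_lit 5) (nat_lit 26) (nat_lit 4) (nat_lit 407) (nat_lit 352) (nat_lit 141))))))))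
noncomputable def xc220 : XT := (XT.nd (nat_lit 43134) (nat_lit 0) (nat_lit 2964) (XT.nd (nat_lit 858) (nat_lit 152) (nat_lit 0) (XT.nd (nat_lit 390) (nat_lit 304) (nat_lit 0) (XT.nd (nat_lit 156) (nat_lit 228) (nat_lit 0) (XT.nd (nat_lit 78) (nat_lit 0) (nat_lit 0) (XT.lf (nat_lit 0) (nat_lit 97391064964) (nat_lit 76) (nat_lit 132246248633) (nat_lit 152) (nat_lit 59459476193) (nat_lit 24) (nat_lit 5) (nat_lit 25) (nat_lit 5) (nat_lit 26) (nat_lit 4) (nat_lit 408) (nat_lit 352) (nat_lit 140)) (XT.lf (nat_lit 0) (nat_lit 228471674878) (nat_lit 76) (nat_lit 65107678934) (nat_lit 152) (nat_lit 6431042069) (nat_lit 24) (nat_lit 5) (nat_lit 25) (nat_lit 5) (nat_lit 26) (nat_lit 4) (nat_lit 409) (nat_lit 352) (nat_lit 139))) (XT.nd (nat_lit 78) (nat_lit 0) (nat_lit 0) (XT.lf (nat_lit 0) (nat_lit 48652122008) (nat_lit 228) (nat_lit 255850336268) (nat_lit 76) (nat_lit 6879799594) (nat_lit 21) (nat_lit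 5) (nat_lit 24) (nat_lit 5) (nat_lit 22) (nat_lit 4) (nat_lit 410) (nat_lit 352) (nat_lit 138)) (XT.nd (nat_lit 78) (nat_lit 0) (nat_lit 0) (XT.lf (nat_lit 0) (nat_lit 108571849353) (nat_lit 228) (nat_lit 133015389782) (nat_lit 76) (nat_lit 81615276042) (nat_lit 21) (nat_lit 5) (nat_lit 24) (nat_lit 5) (nat_lit 22) (nat_lit 4) (nat_lit 411) (nat_lit 352) (nat_lit 137)) (XT.lf (nat_lit 0) (nat_lit 171487360242) (nat_lit 228) (nat_lit 4039063481) (nat_lit 76) (nat_lit 160087371845) (nat_lit 21) (nat_lit 5) (nat_lit 24) (nat_lit 5) (nat_lit 22) (nat_lit 4) (nat_lit 412) (nat_lit 352) (nat_lit 136))))) (XT.nd (nat_lit 234) (nat_lit 76) (nat_lit 0) (XT.nd (nat_lit 78) (nat_lit 152) (nat_lit 0) (XT.lf (nat_lit 0) (nat_lit 135729934684) (nat_lit 76) (nat_lit 103937643488) (nat_lit 152) (nat_lit 108872115303) (nat_lit 20) (nat_lit 5) (nat_lit 21) (nat_lit 5) (nat_lit 22) (nat_lit 4) (nat_lit 413)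 (nat_lit 352) (nat_lit 135)) (XT.nd (nat_lit 78) (nat_lit 152) (nat_lit 0) (XT.lf (nat_lit 0) (nat_lit 282627265559) (nat_lit 76) (nat_lit 28697755591) (nat_lit 152) (nat_lit 50783454488) (nat_lit 20) (nat_lit 5) (nat_lit 21) (nat_lit 5) (nat_lit 22) (nat_lit 4) (nat_lit 414) (nat_lit 352) (nat_lit 134)) (XT.lf (nat_lit 0) (nat_lit 11660093316) (nat_lit 152) (nat_lit 314753413163) (nat_lit 76) (nat_lit 49845359130) (nat_lit 18) (nat_lit 5) (nat_lit 20) (nat_lit 5) (nat_lit 19) (nat_lit 4) (nat_lit 415) (nat_lit 352) (nat_lit 133)))) (XT.nd (nat_lit 78) (nat_lit 76) (nat_lit 0) (XT.lf (nat_lit 0) (nat_lit 77357553560) (nat_lit 152) (nat_lit 180073988720) (nat_lit 76) (nat_lit 133551687470) (nat_lit 18) (nat_lit 5) (nat_lit 20) (nat_lit 5) (nat_lit 19) (nat_lit 4) (nat_lit 416) (nat_lit 352) (nat_lit 132)) (XT.nd (nat_lit 78) (nat_lit 76) (nat_lit 0) (XT.lf (nat_lit 0) (nat_lit 146339713413)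 (nat_lit 152) (nat_lit 38660912504) (nat_lit 76) (nat_lit 221443194906) (nat_lit 18) (nat_lit 5) (nat_lit 20) (nat_lit 5) (nat_lit 19) (nat_lit 4) (nat_lit 417) (nat_lit 352) (nat_lit 131)) (XT.lf (nat_lit 0) (nat_lit 113453741546) (nat_lit 76) (nat_lit 107088405426) (nat_lit 152) (nat_lit 202046736247) (nat_lit 17) (nat_lit 5) (nat_lit 18) (nat_lit 5) (nat_lit 19) (nat_lit 4) (nat_lit 418) (nat_lit 352) (nat_lit 130)))))) (XT.nd (nat_lit 41808) (nat_lit 0) (nat_lit 6156) (XT.nd (nat_lit 156) (nat_lit 152) (nat_lit 0) (XT.nd (nat_lit 78) (nat_lit 0) (nat_lit 0) (XT.lf (nat_lit 0) (nat_lit 274516048552) (nat_lit 76) (nat_lit 24593232962) (nat_lit 152) (nat_lit 140399188306) (nat_lit 17) (nat_lit 5) (nat_lit 18) (nat_lit 5) (nat_lit 19) (nat_lit 4) (nat_lit 419) (nat_lit 352) (nat_lit 129)) (XT.lf (nat_lit 0) (nat_lit 382573027085) (nat_lit 152) (nat_lit 14611266227) (nat_lit 0) (nat_lit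 60041329773) (nat_lit 17) (nat_lit 5) (nat_lit 19) (nat_lit 4) (nat_lit 17) (nat_lit 4) (nat_lit 420) (nat_lit 352) (nat_lit 128))) (XT.nd (nat_lit 78) (nat_lit 76) (nat_lit 0) (XT.lf (nat_lit 0) (nat_lit 147609941846) (nat_lit 76) (nat_lit 325307641866) (nat_lit 76) (nat_lit 2775669158) (nat_lit 16) (nat_lit 4) (nat_lit 17) (nat_lit 5) (nat_lit 17) (nat_lit 4) (nat_lit 421) (nat_lit 352) (nat_lit 127)) (XT.nd (nat_lit 41496) (nat_lit 0) (nat_lit 6156) (XT.lf (nat_lit 0) (nat_lit 70619763663) (nat_lit 152) (nat_lit 177761719480) (nat_lit 76) (nat_lit 246633464482) (nat_lit 15) (nat_lit 5) (nat_lit 17) (nat_lit 5) (nat_lit 16) (nat_lit 4) (nat_lit 422) (nat_lit 352) (nat_lit 126)) (XT.lf (nat_lit 0) (nat_lit 1105009823) (nat_lit 836) (nat_lit 12986295367) (nat_lit 836) (nat_lit 12986295367) (nat_lit 96) (nat_lit 3) (nat_lit 107) (nat_lit 3) (nat_lit 107) (nat_lit 5) (nat_lit 353) (nat_lit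 353) (nat_lit 194))))) (XT.nd (nat_lit 234) (nat_lit 0) (nat_lit 152) (XT.nd (nat_lit 78) (nat_lit 0) (nat_lit 76) (XT.lf (nat_lit 0) (nat_lit 2286780034) (nat_lit 836) (nat_lit 605209136) (nat_lit 836) (nat_lit 52615989668) (nat_lit 96) (nat_lit 3) (nat_lit 107) (nat_lit 3) (nat_lit 107) (nat_lit 5) (nat_lit 354) (nat_lit 353) (nat_lit 193)) (XT.nd (nat_lit 78) (nat_lit 0) (nat_lit 0) (XT.lf (nat_lit 0) (nat_lit 3162178353) (nat_lit 760) (nat_lit 30393334122) (nat_lit 836) (nat_lit 23333144691) (nat_lit 97) (nat_lit 5) (nat_lit 107) (nat_lit 5) (nat_lit 108) (nat_lit 5) (nat_lit 355) (nat_lit 353) (nat_lit 192)) (XT.lf (nat_lit 0) (nat_lit 4137860860) (nat_lit 760) (nat_lit 3414330635) (nat_lit 836) (nat_lit 50783353838) (nat_lit 97) (nat_lit 5) (nat_lit 107) (nat_lit 5) (nat_lit 108) (nat_lit 5) (nat_lit 356) (nat_lit 353) (nat_lit 191)))) (XT.nd (nat_lit 78) (nat_lit 0) (nat_lit 0) (XT.lf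 (nat_lit 0) (nat_lit 5877865676) (nat_lit 760) (nat_lit 34413115741) (nat_lit 836) (nat_lit 19528021138) (nat_lit 98) (nat_lit 5) (nat_lit 108) (nat_lit 5) (nat_lit 109) (nat_lit 5) (nat_lit 357) (nat_lit 353) (nat_lit 190)) (XT.nd (nat_lit 78) (nat_lit 0) (nat_lit 76) (XT.lf (nat_lit 0) (nat_lit 7886253234) (nat_lit 760) (nat_lit 5713651287) (nat_lit 836) (nat_lit 47767660475) (nat_lit 98) (nat_lit 5) (nat_lit 108) (nat_lit 5) (nat_lit 109) (nat_lit 5) (nat_lit 358) (nat_lit 353) (nat_lit 189)) (XT.lf (nat_lit 0) (nat_lit 10619481804) (nat_lit 760) (nat_lit 37978156540) (nat_lit 836) (nat_lit 14364697545) (nat_lit 99) (nat_lit 5) (nat_lit 109) (nat_lit 5) (nat_lit 110) (nat_lit 5) (nat_lit 359) (nat_lit 353) (nat_lit 188))))))) (XT.nd (nat_lit 858) (nat_lit 2052) (nat_lit 0) (XT.nd (nat_lit 390) (nat_lit 1368) (nat_lit 0) (XT.nd (nat_lit 156) (nat_lit 0) (nat_lit 76) (XT.nd (nat_lit 78)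 (nat_lit 0) (nat_lit 76) (XT.lf (nat_lit 0) (nat_lit 13809580182) (nat_lit 760) (nat_lit 7442095072) (nat_lit 836) (nat_lit 43369160999) (nat_lit 99) (nat_lit 5) (nat_lit 109) (nat_lit 5) (nat_lit 110) (nat_lit 5) (nat_lit 360) (nat_lit 353) (nat_lit 187)) (XT.lf (nat_lit 0) (nat_lit 17678251496) (nat_lit 760) (nat_lit 41031432565) (nat_lit 836) (nat_lit 7626625453) (nat_lit 100) (nat_lit 5) (nat_lit 110) (nat_lit 5) (nat_lit 111) (nat_lit 5) (nat_lit 361) (nat_lit 353) (nat_lit 186))) (XT.nd (nat_lit 78) (nat_lit 0) (nat_lit 0) (XT.lf (nat_lit 0) (nat_lit 22215848585) (nat_lit 760) (nat_lit 8534960947) (nat_lit 836) (nat_lit 37362973516) (nat_lit 100) (nat_lit 5) (nat_lit 110) (nat_lit 5) (nat_lit 111) (nat_lit 5) (nat_lit 362) (nat_lit 353) (nat_lit 185)) (XT.nd (nat_lit 78) (nat_lit 0) (nat_lit 76) (XT.lf (nat_lit 76) (nat_lit 26431524958) (nat_lit 0) (nat_lit 960520705) (nat_lit 836)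 (nat_lit 42567499751) (nat_lit 101) (nat_lit 5) (nat_lit 100) (nat_lit 5) (nat_lit 111) (nat_lit 5) (nat_lit 363) (nat_lit 353) (nat_lit 184)) (XT.lf (nat_lit 0) (nat_lit 33446420278) (nat_lit 760) (nat_lit 8924277281) (nat_lit 76) (nat_lit 29495931060) (nat_lit 101) (nat_lit 5) (nat_lit 111) (nat_lit 5) (nat_lit 102) (nat_lit 5) (nat_lit 364) (nat_lit 353) (nat_lit 183))))) (XT.nd (nat_lit 234) (nat_lit 380) (nat_lit 0) (XT.nd (nat_lit 78) (nat_lit 380) (nat_lit 0) (XT.lf (nat_lit 0) (nat_lit 28298866545) (nat_lit 760) (nat_lit 11961346933) (nat_lit 836) (nat_lit 33586018567) (nat_lit 91) (nat_lit 5) (nat_lit 101) (nat_lit 5) (nat_lit 102) (nat_lit 5) (nat_lit 365) (nat_lit 353) (nat_lit 182)) (XT.nd (nat_lit 78) (nat_lit 380) (nat_lit 0) (XT.lf (nat_lit 0) (nat_lit 47879234377) (nat_lit 836) (nat_lit 8539314285) (nat_lit 76) (nat_lit 19483041083) (nat_lit 91) (nat_lit 5) (nat_lit 102)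 (nat_lit 5) (nat_lit 92) (nat_lit 5) (nat_lit 366) (nat_lit 353) (nat_lit 181)) (XT.lf (nat_lit 0) (nat_lit 31118256715) (nat_lit 380) (nat_lit 25442080102) (nat_lit 456) (nat_lit 21465322945) (nat_lit 86) (nat_lit 5) (nat_lit 91) (nat_lit 5) (nat_lit 92) (nat_lit 5) (nat_lit 367) (nat_lit 353) (nat_lit 180)))) (XT.nd (nat_lit 78) (nat_lit 380) (nat_lit 0) (XT.lf (nat_lit 0) (nat_lit 65932297441) (nat_lit 456) (nat_lit 7307291010) (nat_lit 76) (nat_lit 7003505584) (nat_lit 86) (nat_lit 5) (nat_lit 92) (nat_lit 5) (nat_lit 87) (nat_lit 5) (nat_lit 368) (nat_lit 353) (nat_lit 179)) (XT.nd (nat_lit 78) (nat_lit 76) (nat_lit 0) (XT.lf (nat_lit 0) (nat_lit 34974379027) (nat_lit 304) (nat_lit 41760871352) (nat_lit 380) (nat_lit 5788030795) (nat_lit 82) (nat_lit 5) (nat_lit 86) (nat_lit 5) (nat_lit 87) (nat_lit 5) (nat_lit 369) (nat_lit 353) (nat_lit 178)) (XT.lf (nat_lit 0) (nat_lit 3184760657)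 (nat_lit 380) (nat_lit 5339619018) (nat_lit 76) (nat_lit 76384378526) (nat_lit 81) (nat_lit 5) (nat_lit 86) (nat_lit 5) (nat_lit 82) (nat_lit 5) (nat_lit 370) (nat_lit 353) (nat_lit 177)))))) (XT.nd (nat_lit 468) (nat_lit 836) (nat_lit 0) (XT.nd (nat_lit 234) (nat_lit 532) (nat_lit 0) (XT.nd (nat_lit 78) (nat_lit 304) (nat_lit 0) (XT.lf (nat_lit 0) (nat_lit 13461761008) (nat_lit 456) (nat_lit 47630847561) (nat_lit 76) (nat_lit 26263652714) (nat_lit 76) (nat_lit 5) (nat_lit 82) (nat_lit 5) (nat_lit 77) (nat_lit 5) (nat_lit 371) (nat_lit 353) (nat_lit 176)) (XT.nd (nat_lit 78) (nat_lit 304) (nat_lit 0) (XT.lf (nat_lit 0) (nat_lit 24483595881) (nat_lit 456) (nat_lit 2834526687) (nat_lit 76) (nat_lit 62596468440) (nat_lit 76) (nat_lit 5) (nat_lit 82) (nat_lit 5) (nat_lit 77) (nat_lit 5) (nat_lit 372) (nat_lit 353) (nat_lit 175)) (XT.lf (nat_lit 0) (nat_lit 36907654566) (nat_lit 380) (nat_lit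 47041709987) (nat_lit 76) (nat_lit 8608916742) (nat_lit 72) (nat_lit 5) (nat_lit 77) (nat_lit 5) (nat_lit 73) (nat_lit 5) (nat_lit 373) (nat_lit 353) (nat_lit 174)))) (XT.nd (nat_lit 78) (nat_lit 228) (nat_lit 0) (XT.lf (nat_lit 0) (nat_lit 622431141) (nat_lit 304) (nat_lit 49836210961) (nat_lit 380) (nat_lit 44850228344) (nat_lit 68) (nat_lit 5) (nat_lit 72) (nat_lit 5) (nat_lit 73) (nat_lit 5) (nat_lit 374) (nat_lit 353) (nat_lit 173)) (XT.nd (nat_lit 78) (nat_lit 228) (nat_lit 0) (XT.lf (nat_lit 0) (nat_lit 52302231054) (nat_lit 304) (nat_lit 13181019174) (nat_lit 380) (nat_lit 32673935884) (nat_lit 68) (nat_lit 5) (nat_lit 72) (nat_lit 5) (nat_lit 73) (nat_lit 5) (nat_lit 375) (nat_lit 353) (nat_lit 172)) (XT.lf (nat_lit 0) (nat_lit 5188327288) (nat_lit 228) (nat_lit 76546301842) (nat_lit 304) (nat_lit 19389511998) (nat_lit 65) (nat_lit 5) (nat_lit 68) (nat_lit 5) (nat_lit 69) (nat_lit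 5) (nat_lit 376) (nat_lit 353) (nat_lit 171))))) (XT.nd (nat_lit 234) (nat_lit 456) (nat_lit 0) (XT.nd (nat_lit 78) (nat_lit 380) (nat_lit 0) (XT.lf (nat_lit 0) (nat_lit 60151816118) (nat_lit 228) (nat_lit 39635374032) (nat_lit 304) (nat_lit 4402823647) (nat_lit 65) (nat_lit 5) (nat_lit 68) (nat_lit 5) (nat_lit 69) (nat_lit 5) (nat_lit 377) (nat_lit 353) (nat_lit 170)) (XT.nd (nat_lit 78) (nat_lit 0) (nat_lit 0) (XT.lf (nat_lit 0) (nat_lit 10616453331) (nat_lit 304) (nat_lit 519222867) (nat_lit 380) (nat_lit 96256396745) (nat_lit 60) (nat_lit 5) (nat_lit 64) (nat_lit 5) (nat_lit 65) (nat_lit 5) (nat_lit 378) (nat_lit 353) (nat_lit 169)) (XT.lf (nat_lit 0) (nat_lit 28693784018) (nat_lit 380) (nat_lit 41902455550) (nat_lit 76) (nat_lit 40084854753) (nat_lit 60) (nat_lit 5) (nat_lit 65) (nat_lit 5) (nat_lit 61) (nat_lit 5) (nat_lit 379) (nat_lit 353) (nat_lit 168)))) (XT.nd (nat_lit 78) (nat_lit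 228) (nat_lit 0) (XT.lf (nat_lit 0) (nat_lit 16224463856) (nat_lit 228) (nat_lit 31166650115) (nat_lit 304) (nat_lit 66730387420) (nat_lit 57) (nat_lit 5) (nat_lit 60) (nat_lit 5) (nat_lit 61) (nat_lit 5) (nat_lit 380) (nat_lit 353) (nat_lit 167)) (XT.nd (nat_lit 78) (nat_lit 228) (nat_lit 0) (XT.lf (nat_lit 0) (nat_lit 67903876642) (nat_lit 304) (nat_lit 39158066954) (nat_lit 76) (nat_lit 10627957345) (nat_lit 57) (nat_lit 5) (nat_lit 61) (nat_lit 5) (nat_lit 58) (nat_lit 5) (nat_lit 381) (nat_lit 353) (nat_lit 166)) (XT.lf (nat_lit 0) (nat_lit 22733896261) (nat_lit 228) (nat_lit 67573779694) (nat_lit 304) (nat_lit 31085775004) (nat_lit 54) (nat_lit 5) (nat_lit 57) (nat_lit 5) (nat_lit 58) (nat_lit 5) (nat_lit 382) (nat_lit 353) (nat_lit 165))))))))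
noncomputable def xc221 : XT := (XT.nd (nat_lit 1716) (nat_lit 912) (nat_lit 0) (XT.nd (nat_lit 858) (nat_lit 912) (nat_lit 0) (XT.nd (nat_lit 390) (nat_lit 608) (nat_lit 0) (XT.nd (nat_lit 156) (nat_lit 228) (nat_lit 0) (XT.nd (nat_lit 78) (nat_lit 228) (nat_lit 0) (XT.lf (nat_lit 0) (nat_lit 89079293987) (nat_lit 228) (nat_lit 25415074382) (nat_lit 304) (nat_lit 10754675351) (nat_lit 54) (nat_lit 5) (nat_lit 57) (nat_lit 5) (nat_lit 58) (nat_lit 5) (nat_lit 383) (nat_lit 353) (nat_lit 164)) (XT.lf (nat_lit 0) (nat_lit 11030504477) (nat_lit 228) (nat_lit 99323721155) (nat_lit 76) (nat_lit 18896093208) (nat_lit 51) (nat_lit 5) (nat_lit 54) (nat_lit 5) (nat_lit 52) (nat_lit 5) (nat_lit 384) (nat_lit 353) (nat_lit 163))) (XT.nd (nat_lit 78) (nat_lit 228) (nat_lit 0) (XT.lf (nat_lit 0) (nat_lit 34582315479) (nat_lit 228) (nat_lit 33441160766) (nat_lit 76) (nat_lit 65367426516) (nat_lit 51)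 (nat_lit 5) (nat_lit 54) (nat_lit 5) (nat_lit 52) (nat_lit 5) (nat_lit 385) (nat_lit 353) (nat_lit 162)) (XT.nd (nat_lit 78) (nat_lit 0) (nat_lit 0) (XT.lf (nat_lit 0) (nat_lit 36916479223) (nat_lit 228) (nat_lit 22971193392) (nat_lit 304) (nat_lit 77822045811) (nat_lit 48) (nat_lit 5) (nat_lit 51) (nat_lit 5) (nat_lit 52) (nat_lit 5) (nat_lit 386) (nat_lit 353) (nat_lit 161)) (XT.lf (nat_lit 0) (nat_lit 87413434735) (nat_lit 304) (nat_lit 30652970578) (nat_lit 76) (nat_lit 24130313015) (nat_lit 48) (nat_lit 5) (nat_lit 52) (nat_lit 5) (nat_lit 49) (nat_lit 5) (nat_lit 387) (nat_lit 353) (nat_lit 160))))) (XT.nd (nat_lit 234) (nat_lit 152) (nat_lit 0) (XT.nd (nat_lit 78) (nat_lit 304) (nat_lit 0) (XT.lf (nat_lit 0) (nat_lit 44026265201) (nat_lit 152) (nat_lit 73352782732) (nat_lit 228) (nat_lit 29475842441) (nat_lit 46) (nat_lit 5) (nat_lit 48) (nat_lit 5) (nat_lit 49) (nat_lit 5) (nat_lit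 388) (nat_lit 353) (nat_lit 159)) (XT.nd (nat_lit 78) (nat_lit 304) (nat_lit 0) (XT.lf (nat_lit 0) (nat_lit 123503089353) (nat_lit 152) (nat_lit 25858597438) (nat_lit 228) (nat_lit 2358347263) (nat_lit 46) (nat_lit 5) (nat_lit 48) (nat_lit 5) (nat_lit 49) (nat_lit 5) (nat_lit 389) (nat_lit 353) (nat_lit 158)) (XT.lf (nat_lit 0) (nat_lit 26475395165) (nat_lit 304) (nat_lit 105801767065) (nat_lit 76) (nat_lit 24471075694) (nat_lit 42) (nat_lit 5) (nat_lit 46) (nat_lit 5) (nat_lit 43) (nat_lit 5) (nat_lit 390) (nat_lit 353) (nat_lit 157)))) (XT.nd (nat_lit 78) (nat_lit 152) (nat_lit 0) (XT.lf (nat_lit 0) (nat_lit 57580821464) (nat_lit 304) (nat_lit 27427245903) (nat_lit 76) (nat_lit 76972389159) (nat_lit 42) (nat_lit 5) (nat_lit 46) (nat_lit 5) (nat_lit 43) (nat_lit 5) (nat_lit 391) (nat_lit 353) (nat_lit 156)) (XT.nd (nat_lit 78) (nat_lit 0) (nat_lit 0) (XT.lf (nat_lit 0) (nat_lit 56679561896)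 (nat_lit 152) (nat_lit 34446540882) (nat_lit 228) (nat_lit 76303954326) (nat_lit 40) (nat_lit 5) (nat_lit 42) (nat_lit 5) (nat_lit 43) (nat_lit 5) (nat_lit 392) (nat_lit 353) (nat_lit 155)) (XT.lf (nat_lit 0) (nat_lit 127111488830) (nat_lit 228) (nat_lit 27484220584) (nat_lit 76) (nat_lit 18518286487) (nat_lit 40) (nat_lit 5) (nat_lit 43) (nat_lit 5) (nat_lit 41) (nat_lit 5) (nat_lit 393) (nat_lit 353) (nat_lit 154)))))) (XT.nd (nat_lit 390) (nat_lit 380) (nat_lit 0) (XT.nd (nat_lit 156) (nat_lit 304) (nat_lit 0) (XT.nd (nat_lit 78) (nat_lit 76) (nat_lit 0) (XT.lf (nat_lit 0) (nat_lit 61343527706) (nat_lit 152) (nat_lit 105074736245) (nat_lit 228) (nat_lit 12587761906) (nat_lit 38) (nat_lit 5) (nat_lit 40) (nat_lit 5) (nat_lit 41) (nat_lit 5) (nat_lit 394) (nat_lit 353) (nat_lit 153)) (XT.lf (nat_lit 0) (nat_lit 22250422010) (nat_lit 228) (nat_lit 29961934896) (nat_lit 76) (nat_lit 132939099522)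 (nat_lit 37) (nat_lit 5) (nat_lit 40) (nat_lit 5) (nat_lit 38) (nat_lit 5) (nat_lit 395) (nat_lit 353) (nat_lit 152))) (XT.nd (nat_lit 78) (nat_lit 152) (nat_lit 0) (XT.lf (nat_lit 0) (nat_lit 59477003668) (nat_lit 228) (nat_lit 127651037056) (nat_lit 76) (nat_lit 4412324153) (nat_lit 35) (nat_lit 5) (nat_lit 38) (nat_lit 5) (nat_lit 36) (nat_lit 5) (nat_lit 396) (nat_lit 353) (nat_lit 151)) (XT.nd (nat_lit 78) (nat_lit 152) (nat_lit 0) (XT.lf (nat_lit 0) (nat_lit 99936292073) (nat_lit 228) (nat_lit 35614742333) (nat_lit 76) (nat_lit 62629115632) (nat_lit 35) (nat_lit 5) (nat_lit 38) (nat_lit 5) (nat_lit 36) (nat_lit 5) (nat_lit 397) (nat_lit 353) (nat_lit 150)) (XT.lf (nat_lit 0) (nat_lit 63040582959) (nat_lit 152) (nat_lit 80361915599) (nat_lit 228) (nat_lit 61700228382) (nat_lit 33) (nat_lit 5) (nat_lit 35) (nat_lit 5) (nat_lit 36) (nat_lit 5) (nat_lit 398) (nat_lit 353) (nat_lit 149)))))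 (XT.nd (nat_lit 234) (nat_lit 228) (nat_lit 0) (XT.nd (nat_lit 78) (nat_lit 152) (nat_lit 0) (XT.lf (nat_lit 0) (nat_lit 167864669120) (nat_lit 152) (nat_lit 21780218954) (nat_lit 228) (nat_lit 22696401134) (nat_lit 33) (nat_lit 5) (nat_lit 35) (nat_lit 5) (nat_lit 36) (nat_lit 5) (nat_lit 399) (nat_lit 353) (nat_lit 148)) (XT.nd (nat_lit 78) (nat_lit 0) (nat_lit 0) (XT.lf (nat_lit 0) (nat_lit 19243909313) (nat_lit 152) (nat_lit 160910656261) (nat_lit 76) (nat_lit 39694429048) (nat_lit 31) (nat_lit 5) (nat_lit 33) (nat_lit 5) (nat_lit 32) (nat_lit 5) (nat_lit 400) (nat_lit 353) (nat_lit 147)) (XT.lf (nat_lit 0) (nat_lit 63640853016) (nat_lit 152) (nat_lit 59368182928) (nat_lit 76) (nat_lit 104648327610) (nat_lit 31) (nat_lit 5) (nat_lit 33) (nat_lit 5) (nat_lit 32) (nat_lit 5) (nat_lit 401) (nat_lit 353) (nat_lit 146)))) (XT.nd (nat_lit 78) (nat_lit 76) (nat_lit 0) (XT.lf (nat_lit 0) (nat_lit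 48813307790) (nat_lit 152) (nat_lit 62206193128) (nat_lit 228) (nat_lit 124798557293) (nat_lit 29) (nat_lit 5) (nat_lit 31) (nat_lit 5) (nat_lit 32) (nat_lit 5) (nat_lit 402) (nat_lit 353) (nat_lit 145)) (XT.nd (nat_lit 78) (nat_lit 76) (nat_lit 0) (XT.lf (nat_lit 0) (nat_lit 161814294597) (nat_lit 228) (nat_lit 79913990952) (nat_lit 76) (nat_lit 2606141506) (nat_lit 29) (nat_lit 5) (nat_lit 32) (nat_lit 5) (nat_lit 30) (nat_lit 4) (nat_lit 403) (nat_lit 353) (nat_lit 144)) (XT.lf (nat_lit 0) (nat_lit 32553013765) (nat_lit 76) (nat_lit 184123590795) (nat_lit 152) (nat_lit 36523621067) (nat_lit 28) (nat_lit 5) (nat_lit 29) (nat_lit 5) (nat_lit 30) (nat_lit 4) (nat_lit 404) (nat_lit 353) (nat_lit 143))))))) (XT.nd (nat_lit 858) (nat_lit 304) (nat_lit 0) (XT.nd (nat_lit 390) (nat_lit 304) (nat_lit 0) (XT.nd (nat_lit 156) (nat_lit 76) (nat_lit 0) (XT.nd (nat_lit 78) (nat_lit 152) (nat_lit 0)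 (XT.lf (nat_lit 0) (nat_lit 12771244388) (nat_lit 152) (nat_lit 109230254757) (nat_lit 76) (nat_lit 140429858390) (nat_lit 27) (nat_lit 5) (nat_lit 29) (nat_lit 5) (nat_lit 28) (nat_lit 5) (nat_lit 405) (nat_lit 353) (nat_lit 142)) (XT.lf (nat_lit 0) (nat_lit 7395091343) (nat_lit 152) (nat_lit 56023558356) (nat_lit 228) (nat_lit 208669697558) (nat_lit 25) (nat_lit 5) (nat_lit 27) (nat_lit 5) (nat_lit 28) (nat_lit 5) (nat_lit 406) (nat_lit 353) (nat_lit 141))) (XT.nd (nat_lit 78) (nat_lit 76) (nat_lit 0) (XT.lf (nat_lit 0) (nat_lit 118685312742) (nat_lit 228) (nat_lit 148729409338) (nat_lit 76) (nat_lit 14709120108) (nat_lit 25) (nat_lit 5) (nat_lit 28) (nat_lit 5) (nat_lit 26) (nat_lit 4) (nat_lit 407) (nat_lit 353) (nat_lit 140)) (XT.nd (nat_lit 78) (nat_lit 76) (nat_lit 0) (XT.lf (nat_lit 0) (nat_lit 177633512424) (nat_lit 228) (nat_lit 27886172519) (nat_lit 76) (nat_lit 87095516840)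 (nat_lit 25) (nat_lit 5) (nat_lit 28) (nat_lit 5) (nat_lit 26) (nat_lit 4) (nat_lit 408) (nat_lit 353) (nat_lit 139)) (XT.lf (nat_lit 0) (nat_lit 102272210731) (nat_lit 76) (nat_lit 138853461945) (nat_lit 152) (nat_lit 62425629241) (nat_lit 24) (nat_lit 5) (nat_lit 25) (nat_lit 5) (nat_lit 26) (nat_lit 4) (nat_lit 409) (nat_lit 353) (nat_lit 138))))) (XT.nd (nat_lit 234) (nat_lit 76) (nat_lit 0) (XT.nd (nat_lit 78) (nat_lit 228) (nat_lit 0) (XT.lf (nat_lit 0) (nat_lit 239906299117) (nat_lit 76) (nat_lit 68358206577) (nat_lit 152) (nat_lit 6746098209) (nat_lit 24) (nat_lit 5) (nat_lit 25) (nat_lit 5) (nat_lit 26) (nat_lit 4) (nat_lit 410) (nat_lit 353) (nat_lit 137)) (XT.nd (nat_lit 78) (nat_lit 0) (nat_lit 0) (XT.lf (nat_lit 0) (nat_lit 51090966179) (nat_lit 228) (nat_lit 268631549929) (nat_lit 76) (nat_lit 7228540426) (nat_lit 21) (nat_lit 5) (nat_lit 24) (nat_lit 5) (nat_lit 22) (nat_lit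 4) (nat_lit 411) (nat_lit 353) (nat_lit 136)) (XT.lf (nat_lit 0) (nat_lit 114006382841) (nat_lit 228) (nat_lit 139655394364) (nat_lit 76) (nat_lit 85700564466) (nat_lit 21) (nat_lit 5) (nat_lit 24) (nat_lit 5) (nat_lit 22) (nat_lit 4) (nat_lit 412) (nat_lit 353) (nat_lit 135)))) (XT.nd (nat_lit 78) (nat_lit 76) (nat_lit 0) (XT.lf (nat_lit 0) (nat_lit 180067386368) (nat_lit 228) (nat_lit 4230764363) (nat_lit 76) (nat_lit 168096049600) (nat_lit 21) (nat_lit 5) (nat_lit 24) (nat_lit 5) (nat_lit 22) (nat_lit 4) (nat_lit 413) (nat_lit 353) (nat_lit 134)) (XT.nd (nat_lit 78) (nat_lit 0) (nat_lit 0) (XT.lf (nat_lit 0) (nat_lit 142526518351) (nat_lit 76) (nat_lit 109129984895) (nat_lit 152) (nat_lit 114309895586) (nat_lit 20) (nat_lit 5) (nat_lit 21) (nat_lit 5) (nat_lit 22) (nat_lit 4) (nat_lit 414) (nat_lit 353) (nat_lit 133)) (XT.lf (nat_lit 0) (nat_lit 296768235440) (nat_lit 76) (nat_lit 30128318830)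 (nat_lit 152) (nat_lit 53317079134) (nat_lit 20) (nat_lit 5) (nat_lit 21) (nat_lit 5) (nat_lit 22) (nat_lit 4) (nat_lit 415) (nat_lit 353) (nat_lit 132)))))) (XT.nd (nat_lit 468) (nat_lit 76) (nat_lit 0) (XT.nd (nat_lit 234) (nat_lit 76) (nat_lit 0) (XT.nd (nat_lit 78) (nat_lit 0) (nat_lit 0) (XT.lf (nat_lit 0) (nat_lit 12248431191) (nat_lit 152) (nat_lit 330481258793) (nat_lit 76) (nat_lit 52341850511) (nat_lit 18) (nat_lit 5) (nat_lit 20) (nat_lit 5) (nat_lit 19) (nat_lit 4) (nat_lit 416) (nat_lit 353) (nat_lit 131)) (XT.nd (nat_lit 78) (nat_lit 0) (nat_lit 0) (XT.lf (nat_lit 0) (nat_lit 81230510485) (nat_lit 152) (nat_lit 189068330986) (nat_lit 76) (nat_lit 140233294152) (nat_lit 18) (nat_lit 5) (nat_lit 20) (nat_lit 5) (nat_lit 19) (nat_lit 4) (nat_lit 417) (nat_lit 353) (nat_lit 130)) (XT.lf (nat_lit 0) (nat_lit 153661536462) (nat_lit 152) (nat_lit 40585046539) (nat_lit 76) (nat_lit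 232519185421) (nat_lit 18) (nat_lit 5) (nat_lit 20) (nat_lit 5) (nat_lit 19) (nat_lit 4) (nat_lit 418) (nat_lit 353) (nat_lit 129)))) (XT.nd (nat_lit 78) (nat_lit 0) (nat_lit 0) (XT.lf (nat_lit 0) (nat_lit 119135196478) (nat_lit 76) (nat_lit 112438801760) (nat_lit 152) (nat_lit 212144090447) (nat_lit 17) (nat_lit 5) (nat_lit 18) (nat_lit 5) (nat_lit 19) (nat_lit 4) (nat_lit 419) (nat_lit 353) (nat_lit 128)) (XT.nd (nat_lit 78) (nat_lit 0) (nat_lit 0) (XT.lf (nat_lit 0) (nat_lit 288250201317) (nat_lit 76) (nat_lit 25819062289) (nat_lit 152) (nat_lit 147414402377) (nat_lit 17) (nat_lit 5) (nat_lit 18) (nat_lit 5) (nat_lit 19) (nat_lit 4) (nat_lit 420) (nat_lit 353) (nat_lit 127)) (XT.lf (nat_lit 0) (nat_lit 401706038296) (nat_lit 152) (nat_lit 15333717316) (nat_lit 0) (nat_lit 63046929274) (nat_lit 17) (nat_lit 5) (nat_lit 19) (nat_lit 4) (nat_lit 17) (nat_lit 4) (nat_lit 421) (nat_lit 353)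 (nat_lit 126))))) (XT.nd (nat_lit 41730) (nat_lit 0) (nat_lit 6156) (XT.nd (nat_lit 41574) (nat_lit 0) (nat_lit 6080) (XT.lf (nat_lit 0) (nat_lit 154998420318) (nat_lit 76) (nat_lit 341569319437) (nat_lit 76) (nat_lit 2909960622) (nat_lit 16) (nat_lit 4) (nat_lit 17) (nat_lit 5) (nat_lit 17) (nat_lit 4) (nat_lit 422) (nat_lit 353) (nat_lit 125)) (XT.nd (nat_lit 78) (nat_lit 0) (nat_lit 0) (XT.lf (nat_lit 0) (nat_lit 1181434381) (nat_lit 836) (nat_lit 13624480554) (nat_lit 836) (nat_lit 13624480554) (nat_lit 96) (nat_lit 3) (nat_lit 107) (nat_lit 3) (nat_lit 107) (nat_lit 5) (nat_lit 354) (nat_lit 354) (nat_lit 192)) (XT.lf (nat_lit 0) (nat_lit 2441450592) (nat_lit 836) (nat_lit 614270390) (nat_lit 836) (nat_lit 55225589949) (nat_lit 96) (nat_lit 3) (nat_lit 107) (nat_lit 3) (nat_lit 107) (nat_lit 5) (nat_lit 355) (nat_lit 354) (nat_lit 191)))) (XT.nd (nat_lit 78) (nat_lit 0) (nat_lit 0)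 (XT.lf (nat_lit 0) (nat_lit 3358744771) (nat_lit 760) (nat_lit 31889879692) (nat_lit 836) (nat_lit 24482494810) (nat_lit 97) (nat_lit 5) (nat_lit 107) (nat_lit 5) (nat_lit 108) (nat_lit 5) (nat_lit 356) (nat_lit 354) (nat_lit 190)) (XT.nd (nat_lit 78) (nat_lit 0) (nat_lit 76) (XT.lf (nat_lit 0) (nat_lit 4381380093) (nat_lit 760) (nat_lit 3563027037) (nat_lit 836) (nat_lit 53306038563) (nat_lit 97) (nat_lit 5) (nat_lit 107) (nat_lit 5) (nat_lit 108) (nat_lit 5) (nat_lit 357) (nat_lit 354) (nat_lit 189)) (XT.lf (nat_lit 0) (nat_lit 6206767659) (nat_lit 760) (nat_lit 36110090482) (nat_lit 836) (nat_lit 20491300681) (nat_lit 98) (nat_lit 5) (nat_lit 108) (nat_lit 5) (nat_lit 109) (nat_lit 5) (nat_lit 358) (nat_lit 354) (nat_lit 188))))))))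
noncomputable def xc222 : XT := (XT.nd (nat_lit 1716) (nat_lit 2356) (nat_lit 0) (XT.nd (nat_lit 858) (nat_lit 1976) (nat_lit 0) (XT.nd (nat_lit 390) (nat_lit 912) (nat_lit 0) (XT.nd (nat_lit 156) (nat_lit 0) (nat_lit 76) (XT.nd (nat_lit 78) (nat_lit 0) (nat_lit 76) (XT.lf (nat_lit 0) (nat_lit 8313907514) (nat_lit 760) (nat_lit 5976780474) (nat_lit 836) (nat_lit 50143546819) (nat_lit 98) (nat_lit 5) (nat_lit 108) (nat_lit 5) (nat_lit 109) (nat_lit 5) (nat_lit 359) (nat_lit 354) (nat_lit 187)) (XT.lf (nat_lit 0) (nat_lit 11182401524) (nat_lit 760) (nat_lit 39853075613) (nat_lit 836) (nat_lit 15073338877) (nat_lit 99) (nat_lit 5) (nat_lit 109) (nat_lit 5) (nat_lit 110) (nat_lit 5) (nat_lit 360) (nat_lit 354) (nat_lit 186))) (XT.nd (nat_lit 78) (nat_lit 0) (nat_lit 76) (XT.lf (nat_lit 0) (nat_lit 14530483601) (nat_lit 760) (nat_lit 7791353392) (nat_lit 836) (nat_lit 45528482339) (nat_lit 99)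 (nat_lit 5) (nat_lit 109) (nat_lit 5) (nat_lit 110) (nat_lit 5) (nat_lit 361) (nat_lit 354) (nat_lit 185)) (XT.nd (nat_lit 78) (nat_lit 0) (nat_lit 0) (XT.lf (nat_lit 0) (nat_lit 18591383716) (nat_lit 760) (nat_lit 43058917270) (nat_lit 836) (nat_lit 8001327295) (nat_lit 100) (nat_lit 5) (nat_lit 110) (nat_lit 5) (nat_lit 111) (nat_lit 5) (nat_lit 362) (nat_lit 354) (nat_lit 184)) (XT.lf (nat_lit 0) (nat_lit 23354469247) (nat_lit 760) (nat_lit 8938769068) (nat_lit 836) (nat_lit 39224808448) (nat_lit 100) (nat_lit 5) (nat_lit 110) (nat_lit 5) (nat_lit 111) (nat_lit 5) (nat_lit 363) (nat_lit 354) (nat_lit 183))))) (XT.nd (nat_lit 234) (nat_lit 380) (nat_lit 0) (XT.nd (nat_lit 78) (nat_lit 684) (nat_lit 0) (XT.lf (nat_lit 76) (nat_lit 27775671134) (nat_lit 0) (nat_lit 1012832271) (nat_lit 836) (nat_lit 44667644101) (nat_lit 101) (nat_lit 5) (nat_lit 100) (nat_lit 5) (nat_lit 111) (nat_lit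 5) (nat_lit 364) (nat_lit 354) (nat_lit 182)) (XT.nd (nat_lit 78) (nat_lit 760) (nat_lit 0) (XT.lf (nat_lit 0) (nat_lit 35144254197) (nat_lit 760) (nat_lit 9347622560) (nat_lit 76) (nat_lit 30966776787) (nat_lit 101) (nat_lit 5) (nat_lit 111) (nat_lit 5) (nat_lit 102) (nat_lit 5) (nat_lit 365) (nat_lit 354) (nat_lit 181)) (XT.lf (nat_lit 0) (nat_lit 29736309610) (nat_lit 760) (nat_lit 12561563831) (nat_lit 836) (nat_lit 35239408350) (nat_lit 91) (nat_lit 5) (nat_lit 101) (nat_lit 5) (nat_lit 102) (nat_lit 5) (nat_lit 366) (nat_lit 354) (nat_lit 180)))) (XT.nd (nat_lit 78) (nat_lit 380) (nat_lit 0) (XT.lf (nat_lit 0) (nat_lit 50296639646) (nat_lit 836) (nat_lit 8943617947) (nat_lit 76) (nat_lit 20455211469) (nat_lit 91) (nat_lit 5) (nat_lit 102) (nat_lit 5) (nat_lit 92) (nat_lit 5) (nat_lit 367) (nat_lit 354) (nat_lit 179)) (XT.nd (nat_lit 78) (nat_lit 0) (nat_lit 0) (XT.lf (nat_lit 0) (nat_lit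 32696466086) (nat_lit 380) (nat_lit 26714562874) (nat_lit 456) (nat_lit 22514753364) (nat_lit 86) (nat_lit 5) (nat_lit 91) (nat_lit 5) (nat_lit 92) (nat_lit 5) (nat_lit 368) (nat_lit 354) (nat_lit 178)) (XT.lf (nat_lit 0) (nat_lit 69250502208) (nat_lit 456) (nat_lit 7650309966) (nat_lit 76) (nat_lit 7353331678) (nat_lit 86) (nat_lit 5) (nat_lit 92) (nat_lit 5) (nat_lit 87) (nat_lit 5) (nat_lit 369) (nat_lit 354) (nat_lit 177)))))) (XT.nd (nat_lit 390) (nat_lit 912) (nat_lit 0) (XT.nd (nat_lit 156) (nat_lit 684) (nat_lit 0) (XT.nd (nat_lit 78) (nat_lit 76) (nat_lit 0) (XT.lf (nat_lit 0) (nat_lit 36745083160) (nat_lit 304) (nat_lit 43847834792) (nat_lit 380) (nat_lit 6055457847) (nat_lit 82) (nat_lit 5) (nat_lit 86) (nat_lit 5) (nat_lit 87) (nat_lit 5) (nat_lit 370) (nat_lit 354) (nat_lit 176)) (XT.lf (nat_lit 0) (nat_lit 3364256944) (nat_lit 380) (nat_lit 5584969938) (nat_lit 76) (nat_lit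 80203934382) (nat_lit 81) (nat_lit 5) (nat_lit 86) (nat_lit 5) (nat_lit 82) (nat_lit 5) (nat_lit 371) (nat_lit 354) (nat_lit 175))) (XT.nd (nat_lit 78) (nat_lit 304) (nat_lit 0) (XT.lf (nat_lit 0) (nat_lit 14154500737) (nat_lit 456) (nat_lit 49990132444) (nat_lit 76) (nat_lit 27578437693) (nat_lit 76) (nat_lit 5) (nat_lit 82) (nat_lit 5) (nat_lit 77) (nat_lit 5) (nat_lit 372) (nat_lit 354) (nat_lit 174)) (XT.nd (nat_lit 78) (nat_lit 304) (nat_lit 0) (XT.lf (nat_lit 0) (nat_lit 25726491559) (nat_lit 456) (nat_lit 2955055407) (nat_lit 76) (nat_lit 65727817904) (nat_lit 76) (nat_lit 5) (nat_lit 82) (nat_lit 5) (nat_lit 77) (nat_lit 5) (nat_lit 373) (nat_lit 354) (nat_lit 173)) (XT.lf (nat_lit 0) (nat_lit 38771229802) (nat_lit 380) (nat_lit 49372055549) (nat_lit 76) (nat_lit 9041981437) (nat_lit 72) (nat_lit 5) (nat_lit 77) (nat_lit 5) (nat_lit 73) (nat_lit 5) (nat_lit 374) (nat_lit 354) (nat_lit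 172))))) (XT.nd (nat_lit 234) (nat_lit 380) (nat_lit 0) (XT.nd (nat_lit 78) (nat_lit 228) (nat_lit 0) (XT.lf (nat_lit 0) (nat_lit 674941992) (nat_lit 304) (nat_lit 52324292361) (nat_lit 380) (nat_lit 47074178565) (nat_lit 68) (nat_lit 5) (nat_lit 72) (nat_lit 5) (nat_lit 73) (nat_lit 5) (nat_lit 375) (nat_lit 354) (nat_lit 171)) (XT.nd (nat_lit 78) (nat_lit 228) (nat_lit 0) (XT.lf (nat_lit 0) (nat_lit 54937713362) (nat_lit 304) (nat_lit 13836518563) (nat_lit 380) (nat_lit 34289955349) (nat_lit 68) (nat_lit 5) (nat_lit 72) (nat_lit 5) (nat_lit 73) (nat_lit 5) (nat_lit 376) (nat_lit 354) (nat_lit 170)) (XT.lf (nat_lit 0) (nat_lit 5468575595) (nat_lit 228) (nat_lit 80369181318) (nat_lit 304) (nat_lit 20341755089) (nat_lit 65) (nat_lit 5) (nat_lit 68) (nat_lit 5) (nat_lit 69) (nat_lit 5) (nat_lit 377) (nat_lit 354) (nat_lit 169)))) (XT.nd (nat_lit 78) (nat_lit 380) (nat_lit 0) (XT.lf (nat_lit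 0) (nat_lit 63179246869) (nat_lit 228) (nat_lit 41612918337) (nat_lit 304) (nat_lit 4606552916) (nat_lit 65) (nat_lit 5) (nat_lit 68) (nat_lit 5) (nat_lit 69) (nat_lit 5) (nat_lit 378) (nat_lit 354) (nat_lit 168)) (XT.nd (nat_lit 78) (nat_lit 0) (nat_lit 0) (XT.lf (nat_lit 0) (nat_lit 11167327361) (nat_lit 304) (nat_lit 540575828) (nat_lit 380) (nat_lit 101052987103) (nat_lit 60) (nat_lit 5) (nat_lit 64) (nat_lit 5) (nat_lit 65) (nat_lit 5) (nat_lit 379) (nat_lit 354) (nat_lit 167)) (XT.lf (nat_lit 0) (nat_lit 30143249531) (nat_lit 380) (nat_lit 43977801458) (nat_lit 76) (nat_lit 42093345768) (nat_lit 60) (nat_lit 5) (nat_lit 65) (nat_lit 5) (nat_lit 61) (nat_lit 5) (nat_lit 380) (nat_lit 354) (nat_lit 166))))))) (XT.nd (nat_lit 858) (nat_lit 988) (nat_lit 0) (XT.nd (nat_lit 390) (nat_lit 684) (nat_lit 0) (XT.nd (nat_lit 156) (nat_lit 456) (nat_lit 0) (XT.nd (nat_lit 78) (nat_lit 0) (nat_lit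 0) (XT.lf (nat_lit 0) (nat_lit 17055144937) (nat_lit 228) (nat_lit 32719901203) (nat_lit 304) (nat_lit 70051798673) (nat_lit 57) (nat_lit 5) (nat_lit 60) (nat_lit 5) (nat_lit 61) (nat_lit 5) (nat_lit 381) (nat_lit 354) (nat_lit 165)) (XT.lf (nat_lit 0) (nat_lit 71312837909) (nat_lit 304) (nat_lit 41096817729) (nat_lit 76) (nat_lit 11164039765) (nat_lit 57) (nat_lit 5) (nat_lit 61) (nat_lit 5) (nat_lit 58) (nat_lit 5) (nat_lit 382) (nat_lit 354) (nat_lit 164))) (XT.nd (nat_lit 78) (nat_lit 228) (nat_lit 0) (XT.lf (nat_lit 0) (nat_lit 23889434734) (nat_lit 228) (nat_lit 70947031064) (nat_lit 304) (nat_lit 32625975776) (nat_lit 54) (nat_lit 5) (nat_lit 57) (nat_lit 5) (nat_lit 58) (nat_lit 5) (nat_lit 383) (nat_lit 354) (nat_lit 163)) (XT.nd (nat_lit 78) (nat_lit 228) (nat_lit 0) (XT.lf (nat_lit 0) (nat_lit 93551205029) (nat_lit 228) (nat_lit 26680649420) (nat_lit 304) (nat_lit 11278991996)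 (nat_lit 54) (nat_lit 5) (nat_lit 57) (nat_lit 5) (nat_lit 58) (nat_lit 5) (nat_lit 384) (nat_lit 354) (nat_lit 162)) (XT.lf (nat_lit 0) (nat_lit 11594766266) (nat_lit 228) (nat_lit 104271259715) (nat_lit 76) (nat_lit 19846161924) (nat_lit 51) (nat_lit 5) (nat_lit 54) (nat_lit 5) (nat_lit 52) (nat_lit 5) (nat_lit 385) (nat_lit 354) (nat_lit 161))))) (XT.nd (nat_lit 234) (nat_lit 456) (nat_lit 0) (XT.nd (nat_lit 78) (nat_lit 228) (nat_lit 0) (XT.lf (nat_lit 0) (nat_lit 36323561315) (nat_lit 228) (nat_lit 35095459283) (nat_lit 76) (nat_lit 68640811229) (nat_lit 51) (nat_lit 5) (nat_lit 54) (nat_lit 5) (nat_lit 52) (nat_lit 5) (nat_lit 386) (nat_lit 354) (nat_lit 160)) (XT.nd (nat_lit 78) (nat_lit 0) (nat_lit 0) (XT.lf (nat_lit 0) (nat_lit 38779776261) (nat_lit 228) (nat_lit 24114105228) (nat_lit 304) (nat_lit 81700722482) (nat_lit 48) (nat_lit 5) (nat_lit 51) (nat_lit 5) (nat_lit 52) (nat_lit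 5) (nat_lit 387) (nat_lit 354) (nat_lit 159)) (XT.lf (nat_lit 0) (nat_lit 91795452588) (nat_lit 304) (nat_lit 32168490274) (nat_lit 76) (nat_lit 25342035397) (nat_lit 48) (nat_lit 5) (nat_lit 52) (nat_lit 5) (nat_lit 49) (nat_lit 5) (nat_lit 388) (nat_lit 354) (nat_lit 158)))) (XT.nd (nat_lit 78) (nat_lit 304) (nat_lit 0) (XT.lf (nat_lit 0) (nat_lit 46244431023) (nat_lit 152) (nat_lit 77014638248) (nat_lit 228) (nat_lit 30938003909) (nat_lit 46) (nat_lit 5) (nat_lit 48) (nat_lit 5) (nat_lit 49) (nat_lit 5) (nat_lit 389) (nat_lit 354) (nat_lit 157)) (XT.nd (nat_lit 78) (nat_lit 304) (nat_lit 0) (XT.lf (nat_lit 0) (nat_lit 129694293880) (nat_lit 152) (nat_lit 27146019100) (nat_lit 228) (nat_lit 2465187812) (nat_lit 46) (nat_lit 5) (nat_lit 48) (nat_lit 5) (nat_lit 49) (nat_lit 5) (nat_lit 390) (nat_lit 354) (nat_lit 156)) (XT.lf (nat_lit 0) (nat_lit 27809717467) (nat_lit 304) (nat_lit 111075266451)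 (nat_lit 76) (nat_lit 25700131135) (nat_lit 42) (nat_lit 5) (nat_lit 46) (nat_lit 5) (nat_lit 43) (nat_lit 5) (nat_lit 391) (nat_lit 354) (nat_lit 155)))))) (XT.nd (nat_lit 468) (nat_lit 456) (nat_lit 0) (XT.nd (nat_lit 234) (nat_lit 380) (nat_lit 0) (XT.nd (nat_lit 78) (nat_lit 152) (nat_lit 0) (XT.lf (nat_lit 0) (nat_lit 60469912579) (nat_lit 304) (nat_lit 28782809181) (nat_lit 76) (nat_lit 80826248290) (nat_lit 42) (nat_lit 5) (nat_lit 46) (nat_lit 5) (nat_lit 43) (nat_lit 5) (nat_lit 392) (nat_lit 354) (nat_lit 154)) (XT.nd (nat_lit 78) (nat_lit 0) (nat_lit 0) (XT.lf (nat_lit 0) (nat_lit 59529084185) (nat_lit 152) (nat_lit 36163137889) (nat_lit 228) (nat_lit 80108840701) (nat_lit 40) (nat_lit 5) (nat_lit 42) (nat_lit 5) (nat_lit 43) (nat_lit 5) (nat_lit 393) (nat_lit 354) (nat_lit 153)) (XT.lf (nat_lit 0) (nat_lit 133476495289) (nat_lit 228) (nat_lit 28843239312) (nat_lit 76) (nat_lit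 19449483326) (nat_lit 40) (nat_lit 5) (nat_lit 43) (nat_lit 5) (nat_lit 41) (nat_lit 5) (nat_lit 394) (nat_lit 354) (nat_lit 152)))) (XT.nd (nat_lit 78) (nat_lit 228) (nat_lit 0) (XT.lf (nat_lit 0) (nat_lit 64425651356) (nat_lit 152) (nat_lit 110322742036) (nat_lit 228) (nat_lit 13207467072) (nat_lit 38) (nat_lit 5) (nat_lit 40) (nat_lit 5) (nat_lit 41) (nat_lit 5) (nat_lit 395) (nat_lit 354) (nat_lit 151)) (XT.nd (nat_lit 78) (nat_lit 152) (nat_lit 0) (XT.lf (nat_lit 0) (nat_lit 23371869792) (nat_lit 228) (nat_lit 31445495666) (nat_lit 76) (nat_lit 139591212129) (nat_lit 37) (nat_lit 5) (nat_lit 40) (nat_lit 5) (nat_lit 38) (nat_lit 5) (nat_lit 396) (nat_lit 354) (nat_lit 150)) (XT.lf (nat_lit 0) (nat_lit 62459665806) (nat_lit 228) (nat_lit 134018933133) (nat_lit 76) (nat_lit 4638338509) (nat_lit 35) (nat_lit 5) (nat_lit 38) (nat_lit 5) (nat_lit 36) (nat_lit 5) (nat_lit 397) (nat_lit 354)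 (nat_lit 149))))) (XT.nd (nat_lit 234) (nat_lit 304) (nat_lit 0) (XT.nd (nat_lit 78) (nat_lit 152) (nat_lit 0) (XT.lf (nat_lit 0) (nat_lit 104941499014) (nat_lit 228) (nat_lit 37381521568) (nat_lit 76) (nat_lit 65765712508) (nat_lit 35) (nat_lit 5) (nat_lit 38) (nat_lit 5) (nat_lit 36) (nat_lit 5) (nat_lit 398) (nat_lit 354) (nat_lit 148)) (XT.nd (nat_lit 78) (nat_lit 0) (nat_lit 0) (XT.lf (nat_lit 0) (nat_lit 66206344861) (nat_lit 152) (nat_lit 84374485734) (nat_lit 228) (nat_lit 64776617733) (nat_lit 33) (nat_lit 5) (nat_lit 35) (nat_lit 5) (nat_lit 36) (nat_lit 5) (nat_lit 399) (nat_lit 354) (nat_lit 147)) (XT.lf (nat_lit 0) (nat_lit 176270981390) (nat_lit 152) (nat_lit 22863967383) (nat_lit 228) (nat_lit 23823009697) (nat_lit 33) (nat_lit 5) (nat_lit 35) (nat_lit 5) (nat_lit 36) (nat_lit 5) (nat_lit 400) (nat_lit 354) (nat_lit 146)))) (XT.nd (nat_lit 78) (nat_lit 152) (nat_lit 0) (XT.lf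 (nat_lit 0) (nat_lit 20213963562) (nat_lit 152) (nat_lit 168942749399) (nat_lit 76) (nat_lit 41684334477) (nat_lit 31) (nat_lit 5) (nat_lit 33) (nat_lit 5) (nat_lit 32) (nat_lit 5) (nat_lit 401) (nat_lit 354) (nat_lit 145)) (XT.nd (nat_lit 78) (nat_lit 152) (nat_lit 0) (XT.lf (nat_lit 0) (nat_lit 66830380223) (nat_lit 152) (nat_lit 62323792383) (nat_lit 76) (nat_lit 109885681111) (nat_lit 31) (nat_lit 5) (nat_lit 33) (nat_lit 5) (nat_lit 32) (nat_lit 5) (nat_lit 402) (nat_lit 354) (nat_lit 144)) (XT.lf (nat_lit 0) (nat_lit 51266566423) (nat_lit 152) (nat_lit 65311234305) (nat_lit 228) (nat_lit 131030790549) (nat_lit 29) (nat_lit 5) (nat_lit 31) (nat_lit 5) (nat_lit 32) (nat_lit 5) (nat_lit 403) (nat_lit 354) (nat_lit 143))))))))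
noncomputable def xc223 : XT := (XT.nd (nat_lit 43446) (nat_lit 0) (nat_lit 3040) (XT.nd (nat_lit 858) (nat_lit 304) (nat_lit 0) (XT.nd (nat_lit 390) (nat_lit 304) (nat_lit 0) (XT.nd (nat_lit 156) (nat_lit 228) (nat_lit 0) (XT.nd (nat_lit 78) (nat_lit 76) (nat_lit 0) (XT.lf (nat_lit 0) (nat_lit 169912063631) (nat_lit 228) (nat_lit 83897423039) (nat_lit 76) (nat_lit 2741305587) (nat_lit 29) (nat_lit 5) (nat_lit 32) (nat_lit 5) (nat_lit 30) (nat_lit 4) (nat_lit 404) (nat_lit 354) (nat_lit 142)) (XT.lf (nat_lit 0) (nat_lit 34192734051) (nat_lit 76) (nat_lit 193324607563) (nat_lit 152) (nat_lit 38342546683) (nat_lit 28) (nat_lit 5) (nat_lit 29) (nat_lit 5) (nat_lit 30) (nat_lit 4) (nat_lit 405) (nat_lit 354) (nat_lit 141))) (XT.nd (nat_lit 78) (nat_lit 152) (nat_lit 0) (XT.lf (nat_lit 0) (nat_lit 13416495387) (nat_lit 152) (nat_lit 114680048511) (nat_lit 76) (nat_lit 147456044107) (nat_lit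 27) (nat_lit 5) (nat_lit 29) (nat_lit 5) (nat_lit 28) (nat_lit 5) (nat_lit 406) (nat_lit 354) (nat_lit 140)) (XT.nd (nat_lit 78) (nat_lit 0) (nat_lit 0) (XT.lf (nat_lit 0) (nat_lit 7776375878) (nat_lit 152) (nat_lit 58819756587) (nat_lit 228) (nat_lit 219096301815) (nat_lit 25) (nat_lit 5) (nat_lit 27) (nat_lit 5) (nat_lit 28) (nat_lit 5) (nat_lit 407) (nat_lit 354) (nat_lit 139)) (XT.lf (nat_lit 0) (nat_lit 124625890787) (nat_lit 228) (nat_lit 156154658319) (nat_lit 76) (nat_lit 15449166880) (nat_lit 25) (nat_lit 5) (nat_lit 28) (nat_lit 5) (nat_lit 26) (nat_lit 4) (nat_lit 408) (nat_lit 354) (nat_lit 138))))) (XT.nd (nat_lit 234) (nat_lit 228) (nat_lit 0) (XT.nd (nat_lit 78) (nat_lit 76) (nat_lit 0) (XT.lf (nat_lit 0) (nat_lit 186521199862) (nat_lit 228) (nat_lit 29269794015) (nat_lit 76) (nat_lit 91454664841) (nat_lit 25) (nat_lit 5) (nat_lit 28) (nat_lit 5) (nat_lit 26) (nat_lit 4)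 (nat_lit 409) (nat_lit 354) (nat_lit 137)) (XT.nd (nat_lit 78) (nat_lit 0) (nat_lit 0) (XT.lf (nat_lit 0) (nat_lit 107396336025) (nat_lit 76) (nat_lit 145791509990) (nat_lit 152) (nat_lit 65540724072) (nat_lit 24) (nat_lit 5) (nat_lit 25) (nat_lit 5) (nat_lit 26) (nat_lit 4) (nat_lit 410) (nat_lit 354) (nat_lit 136)) (XT.lf (nat_lit 0) (nat_lit 251911628127) (nat_lit 76) (nat_lit 71771712094) (nat_lit 152) (nat_lit 7077511090) (nat_lit 24) (nat_lit 5) (nat_lit 25) (nat_lit 5) (nat_lit 26) (nat_lit 4) (nat_lit 411) (nat_lit 354) (nat_lit 135)))) (XT.nd (nat_lit 78) (nat_lit 0) (nat_lit 0) (XT.lf (nat_lit 0) (nat_lit 53651172603) (nat_lit 228) (nat_lit 282052875133) (nat_lit 76) (nat_lit 7594276611) (nat_lit 21) (nat_lit 5) (nat_lit 24) (nat_lit 5) (nat_lit 22) (nat_lit 4) (nat_lit 412) (nat_lit 354) (nat_lit 134)) (XT.nd (nat_lit 78) (nat_lit 0) (nat_lit 0) (XT.lf (nat_lit 0) (nat_lit 119712090663)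 (nat_lit 228) (nat_lit 146628399995) (nat_lit 76) (nat_lit 89989696655) (nat_lit 21) (nat_lit 5) (nat_lit 24) (nat_lit 5) (nat_lit 22) (nat_lit 4) (nat_lit 413) (nat_lit 354) (nat_lit 133)) (XT.lf (nat_lit 0) (nat_lit 189075887763) (nat_lit 228) (nat_lit 4433003450) (nat_lit 76) (nat_lit 176504760619) (nat_lit 21) (nat_lit 5) (nat_lit 24) (nat_lit 5) (nat_lit 22) (nat_lit 4) (nat_lit 414) (nat_lit 354) (nat_lit 132)))))) (XT.nd (nat_lit 468) (nat_lit 0) (nat_lit 0) (XT.nd (nat_lit 234) (nat_lit 76) (nat_lit 0) (XT.nd (nat_lit 78) (nat_lit 152) (nat_lit 0) (XT.lf (nat_lit 0) (nat_lit 149661993414) (nat_lit 76) (nat_lit 114582365530) (nat_lit 152) (nat_lit 120020106481) (nat_lit 20) (nat_lit 5) (nat_lit 21) (nat_lit 5) (nat_lit 22) (nat_lit 4) (nat_lit 415) (nat_lit 354) (nat_lit 131)) (XT.nd (nat_lit 78) (nat_lit 152) (nat_lit 0) (XT.lf (nat_lit 0) (nat_lit 311615360684) (nat_lit 76) (nat_lit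 31630812286) (nat_lit 152) (nat_lit 55977900821) (nat_lit 20) (nat_lit 5) (nat_lit 21) (nat_lit 5) (nat_lit 22) (nat_lit 4) (nat_lit 416) (nat_lit 354) (nat_lit 130)) (XT.lf (nat_lit 0) (nat_lit 12865690128) (nat_lit 152) (nat_lit 346996410143) (nat_lit 76) (nat_lit 54962773806) (nat_lit 18) (nat_lit 5) (nat_lit 20) (nat_lit 5) (nat_lit 19) (nat_lit 4) (nat_lit 417) (nat_lit 354) (nat_lit 129)))) (XT.nd (nat_lit 78) (nat_lit 76) (nat_lit 0) (XT.lf (nat_lit 0) (nat_lit 85296643035) (nat_lit 152) (nat_lit 198513260307) (nat_lit 76) (nat_lit 147248607211) (nat_lit 18) (nat_lit 5) (nat_lit 20) (nat_lit 5) (nat_lit 19) (nat_lit 4) (nat_lit 418) (nat_lit 354) (nat_lit 128)) (XT.nd (nat_lit 78) (nat_lit 76) (nat_lit 0) (XT.lf (nat_lit 0) (nat_lit 161349000929) (nat_lit 152) (nat_lit 42606215791) (nat_lit 76) (nat_lit 244148619314) (nat_lit 18) (nat_lit 5) (nat_lit 20) (nat_lit 5) (nat_lit 19)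 (nat_lit 4) (nat_lit 419) (nat_lit 354) (nat_lit 127)) (XT.lf (nat_lit 0) (nat_lit 125099909005) (nat_lit 76) (nat_lit 118057092018) (nat_lit 152) (nat_lit 222746775594) (nat_lit 17) (nat_lit 5) (nat_lit 18) (nat_lit 5) (nat_lit 19) (nat_lit 4) (nat_lit 420) (nat_lit 354) (nat_lit 126))))) (XT.nd (nat_lit 41886) (nat_lit 0) (nat_lit 6080) (XT.nd (nat_lit 41730) (nat_lit 0) (nat_lit 6004) (XT.lf (nat_lit 0) (nat_lit 302670285386) (nat_lit 76) (nat_lit 27106539375) (nat_lit 152) (nat_lit 154780818328) (nat_lit 17) (nat_lit 5) (nat_lit 18) (nat_lit 5) (nat_lit 19) (nat_lit 4) (nat_lit 421) (nat_lit 354) (nat_lit 125)) (XT.nd (nat_lit 78) (nat_lit 0) (nat_lit 0) (XT.lf (nat_lit 0) (nat_lit 1259711603) (nat_lit 836) (nat_lit 14295609724) (nat_lit 836) (nat_lit 14295609724) (nat_lit 96) (nat_lit 3) (nat_lit 107) (nat_lit 3) (nat_lit 107) (nat_lit 5) (nat_lit 355) (nat_lit 355) (nat_lit 190))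 (XT.lf (nat_lit 0) (nat_lit 2600105032) (nat_lit 836) (nat_lit 625755608) (nat_lit 836) (nat_lit 57967641145) (nat_lit 96) (nat_lit 3) (nat_lit 107) (nat_lit 3) (nat_lit 107) (nat_lit 5) (nat_lit 356) (nat_lit 355) (nat_lit 189)))) (XT.nd (nat_lit 78) (nat_lit 0) (nat_lit 0) (XT.lf (nat_lit 0) (nat_lit 3561564095) (nat_lit 760) (nat_lit 33463402124) (nat_lit 836) (nat_lit 25690921487) (nat_lit 97) (nat_lit 5) (nat_lit 107) (nat_lit 5) (nat_lit 108) (nat_lit 5) (nat_lit 357) (nat_lit 355) (nat_lit 188)) (XT.nd (nat_lit 78) (nat_lit 0) (nat_lit 76) (XT.lf (nat_lit 0) (nat_lit 4633670132) (nat_lit 760) (nat_lit 3721205482) (nat_lit 836) (nat_lit 55956389954) (nat_lit 97) (nat_lit 5) (nat_lit 107) (nat_lit 5) (nat_lit 108) (nat_lit 5) (nat_lit 358) (nat_lit 355) (nat_lit 187)) (XT.lf (nat_lit 0) (nat_lit 6548859964) (nat_lit 760) (nat_lit 37894115599) (nat_lit 836) (nat_lit 21503964115) (nat_lit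 98) (nat_lit 5) (nat_lit 108) (nat_lit 5) (nat_lit 109) (nat_lit 5) (nat_lit 359) (nat_lit 355) (nat_lit 186))))))) (XT.nd (nat_lit 858) (nat_lit 2204) (nat_lit 0) (XT.nd (nat_lit 390) (nat_lit 912) (nat_lit 0) (XT.nd (nat_lit 156) (nat_lit 0) (nat_lit 76) (XT.nd (nat_lit 78) (nat_lit 0) (nat_lit 76) (XT.lf (nat_lit 0) (nat_lit 8759844721) (nat_lit 760) (nat_lit 6255162920) (nat_lit 836) (nat_lit 52639389303) (nat_lit 98) (nat_lit 5) (nat_lit 108) (nat_lit 5) (nat_lit 109) (nat_lit 5) (nat_lit 360) (nat_lit 355) (nat_lit 185)) (XT.lf (nat_lit 0) (nat_lit 11770497228) (nat_lit 760) (nat_lit 41823970886) (nat_lit 836) (nat_lit 15818304192) (nat_lit 99) (nat_lit 5) (nat_lit 109) (nat_lit 5) (nat_lit 110) (nat_lit 5) (nat_lit 361) (nat_lit 355) (nat_lit 184))) (XT.nd (nat_lit 78) (nat_lit 0) (nat_lit 76) (XT.lf (nat_lit 0) (nat_lit 15284603617) (nat_lit 760) (nat_lit 8160198674) (nat_lit 836)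 (nat_lit 47796619191) (nat_lit 99) (nat_lit 5) (nat_lit 109) (nat_lit 5) (nat_lit 110) (nat_lit 5) (nat_lit 362) (nat_lit 355) (nat_lit 183)) (XT.nd (nat_lit 78) (nat_lit 0) (nat_lit 0) (XT.lf (nat_lit 0) (nat_lit 19547455982) (nat_lit 760) (nat_lit 45190015584) (nat_lit 836) (nat_lit 8395380571) (nat_lit 100) (nat_lit 5) (nat_lit 110) (nat_lit 5) (nat_lit 111) (nat_lit 5) (nat_lit 363) (nat_lit 355) (nat_lit 182)) (XT.lf (nat_lit 0) (nat_lit 24547433738) (nat_lit 760) (nat_lit 9364900331) (nat_lit 836) (nat_lit 41180322119) (nat_lit 100) (nat_lit 5) (nat_lit 110) (nat_lit 5) (nat_lit 111) (nat_lit 5) (nat_lit 364) (nat_lit 355) (nat_lit 181))))) (XT.nd (nat_lit 234) (nat_lit 380) (nat_lit 0) (XT.nd (nat_lit 78) (nat_lit 684) (nat_lit 0) (XT.lf (nat_lit 76) (nat_lit 29184926281) (nat_lit 0) (nat_lit 1067360988) (nat_lit 836) (nat_lit 46875420286) (nat_lit 101) (nat_lit 5) (nat_lit 100)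 (nat_lit 5) (nat_lit 111) (nat_lit 5) (nat_lit 365) (nat_lit 355) (nat_lit 180)) (XT.nd (nat_lit 78) (nat_lit 760) (nat_lit 0) (XT.lf (nat_lit 0) (nat_lit 36924607863) (nat_lit 760) (nat_lit 9794261206) (nat_lit 76) (nat_lit 32511532110) (nat_lit 101) (nat_lit 5) (nat_lit 111) (nat_lit 5) (nat_lit 102) (nat_lit 5) (nat_lit 366) (nat_lit 355) (nat_lit 179)) (XT.lf (nat_lit 0) (nat_lit 31243533016) (nat_lit 760) (nat_lit 13191591729) (nat_lit 836) (nat_lit 36977876595) (nat_lit 91) (nat_lit 5) (nat_lit 101) (nat_lit 5) (nat_lit 102) (nat_lit 5) (nat_lit 367) (nat_lit 355) (nat_lit 178)))) (XT.nd (nat_lit 78) (nat_lit 380) (nat_lit 0) (XT.lf (nat_lit 0) (nat_lit 52832735620) (nat_lit 836) (nat_lit 9370243695) (nat_lit 76) (nat_lit 21476174611) (nat_lit 91) (nat_lit 5) (nat_lit 102) (nat_lit 5) (nat_lit 92) (nat_lit 5) (nat_lit 368) (nat_lit 355) (nat_lit 177)) (XT.nd (nat_lit 78) (nat_lit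 0) (nat_lit 0) (XT.lf (nat_lit 0) (nat_lit 34351513005) (nat_lit 380) (nat_lit 28050634571) (nat_lit 456) (nat_lit 23618871325) (nat_lit 86) (nat_lit 5) (nat_lit 91) (nat_lit 5) (nat_lit 92) (nat_lit 5) (nat_lit 369) (nat_lit 355) (nat_lit 176)) (XT.lf (nat_lit 0) (nat_lit 72732609988) (nat_lit 456) (nat_lit 8012557352) (nat_lit 76) (nat_lit 7720681541) (nat_lit 86) (nat_lit 5) (nat_lit 92) (nat_lit 5) (nat_lit 87) (nat_lit 5) (nat_lit 370) (nat_lit 355) (nat_lit 175)))))) (XT.nd (nat_lit 468) (nat_lit 836) (nat_lit 0) (XT.nd (nat_lit 234) (nat_lit 608) (nat_lit 0) (XT.nd (nat_lit 78) (nat_lit 456) (nat_lit 0) (XT.lf (nat_lit 0) (nat_lit 38602278526) (nat_lit 304) (nat_lit 46039246825) (nat_lit 380) (nat_lit 6338299231) (nat_lit 82) (nat_lit 5) (nat_lit 86) (nat_lit 5) (nat_lit 87) (nat_lit 5) (nat_lit 371) (nat_lit 355) (nat_lit 174)) (XT.nd (nat_lit 78) (nat_lit 380) (nat_lit 0) (XT.lf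 (nat_lit 0) (nat_lit 3550844626) (nat_lit 380) (nat_lit 5844599360) (nat_lit 76) (nat_lit 84214436707) (nat_lit 81) (nat_lit 5) (nat_lit 86) (nat_lit 5) (nat_lit 82) (nat_lit 5) (nat_lit 372) (nat_lit 355) (nat_lit 173)) (XT.lf (nat_lit 0) (nat_lit 14880050426) (nat_lit 456) (nat_lit 52469450863) (nat_lit 76) (nat_lit 28958812951) (nat_lit 76) (nat_lit 5) (nat_lit 82) (nat_lit 5) (nat_lit 77) (nat_lit 5) (nat_lit 373) (nat_lit 355) (nat_lit 172)))) (XT.nd (nat_lit 78) (nat_lit 608) (nat_lit 0) (XT.lf (nat_lit 0) (nat_lit 27029791996) (nat_lit 456) (nat_lit 3083581317) (nat_lit 76) (nat_lit 69015592964) (nat_lit 76) (nat_lit 5) (nat_lit 82) (nat_lit 5) (nat_lit 77) (nat_lit 5) (nat_lit 374) (nat_lit 355) (nat_lit 171)) (XT.nd (nat_lit 78) (nat_lit 304) (nat_lit 0) (XT.lf (nat_lit 0) (nat_lit 40726292432) (nat_lit 380) (nat_lit 51820939562) (nat_lit 76) (nat_lit 9496455890) (nat_lit 72) (nat_lit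 5) (nat_lit 77) (nat_lit 5) (nat_lit 73) (nat_lit 5) (nat_lit 375) (nat_lit 355) (nat_lit 170)) (XT.lf (nat_lit 0) (nat_lit 728089811) (nat_lit 304) (nat_lit 54937124531) (nat_lit 380) (nat_lit 49411051942) (nat_lit 68) (nat_lit 5) (nat_lit 72) (nat_lit 5) (nat_lit 73) (nat_lit 5) (nat_lit 376) (nat_lit 355) (nat_lit 169))))) (XT.nd (nat_lit 234) (nat_lit 608) (nat_lit 0) (XT.nd (nat_lit 78) (nat_lit 228) (nat_lit 0) (XT.lf (nat_lit 0) (nat_lit 57703075906) (nat_lit 304) (nat_lit 14525123112) (nat_lit 380) (nat_lit 35988419257) (nat_lit 68) (nat_lit 5) (nat_lit 72) (nat_lit 5) (nat_lit 73) (nat_lit 5) (nat_lit 377) (nat_lit 355) (nat_lit 168)) (XT.nd (nat_lit 78) (nat_lit 0) (nat_lit 0) (XT.lf (nat_lit 0) (nat_lit 5760899560) (nat_lit 228) (nat_lit 84383617149) (nat_lit 304) (nat_lit 21343212450) (nat_lit 65) (nat_lit 5) (nat_lit 68) (nat_lit 5) (nat_lit 69) (nat_lit 5) (nat_lit 378) (nat_lit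 355) (nat_lit 167)) (XT.lf (nat_lit 0) (nat_lit 66356204627) (nat_lit 228) (nat_lit 43689732601) (nat_lit 304) (nat_lit 4821994472) (nat_lit 65) (nat_lit 5) (nat_lit 68) (nat_lit 5) (nat_lit 69) (nat_lit 5) (nat_lit 379) (nat_lit 355) (nat_lit 166)))) (XT.nd (nat_lit 78) (nat_lit 228) (nat_lit 0) (XT.lf (nat_lit 0) (nat_lit 11743880907) (nat_lit 304) (nat_lit 563424863) (nat_lit 380) (nat_lit 106090915842) (nat_lit 60) (nat_lit 5) (nat_lit 64) (nat_lit 5) (nat_lit 65) (nat_lit 5) (nat_lit 380) (nat_lit 355) (nat_lit 165)) (XT.nd (nat_lit 78) (nat_lit 228) (nat_lit 0) (XT.lf (nat_lit 0) (nat_lit 31663814559) (nat_lit 380) (nat_lit 46158753326) (nat_lit 76) (nat_lit 44201866369) (nat_lit 60) (nat_lit 5) (nat_lit 65) (nat_lit 5) (nat_lit 61) (nat_lit 5) (nat_lit 381) (nat_lit 355) (nat_lit 164)) (XT.lf (nat_lit 0) (nat_lit 17925551063) (nat_lit 228) (nat_lit 34351287267) (nat_lit 304) (nat_lit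 73540685098) (nat_lit 57) (nat_lit 5) (nat_lit 60) (nat_lit 5) (nat_lit 61) (nat_lit 5) (nat_lit 382) (nat_lit 355) (nat_lit 163))))))))
noncomputable def xc224 : XT := (XT.nd (nat_lit 1716) (nat_lit 912) (nat_lit 0) (XT.nd (nat_lit 858) (nat_lit 988) (nat_lit 0) (XT.nd (nat_lit 390) (nat_lit 684) (nat_lit 0) (XT.nd (nat_lit 156) (nat_lit 228) (nat_lit 0) (XT.nd (nat_lit 78) (nat_lit 228) (nat_lit 0) (XT.lf (nat_lit 0) (nat_lit 74890967273) (nat_lit 304) (nat_lit 43134286668) (nat_lit 76) (nat_lit 11726490781) (nat_lit 57) (nat_lit 5) (nat_lit 61) (nat_lit 5) (nat_lit 58) (nat_lit 5) (nat_lit 383) (nat_lit 355) (nat_lit 162)) (XT.lf (nat_lit 0) (nat_lit 25100998225) (nat_lit 228) (nat_lit 74489450539) (nat_lit 304) (nat_lit 34244496354) (nat_lit 54) (nat_lit 5) (nat_lit 57) (nat_lit 5) (nat_lit 58) (nat_lit 5) (nat_lit 384) (nat_lit 355) (nat_lit 161))) (XT.nd (nat_lit 78) (nat_lit 228)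 (nat_lit 0) (XT.lf (nat_lit 0) (nat_lit 98245043142) (nat_lit 228) (nat_lit 28009984675) (nat_lit 304) (nat_lit 11830771871) (nat_lit 54) (nat_lit 5) (nat_lit 57) (nat_lit 5) (nat_lit 58) (nat_lit 5) (nat_lit 385) (nat_lit 355) (nat_lit 160)) (XT.nd (nat_lit 78) (nat_lit 0) (nat_lit 0) (XT.lf (nat_lit 0) (nat_lit 12186057020) (nat_lit 228) (nat_lit 109467908871) (nat_lit 76) (nat_lit 20843244675) (nat_lit 51) (nat_lit 5) (nat_lit 54) (nat_lit 5) (nat_lit 52) (nat_lit 5) (nat_lit 386) (nat_lit 355) (nat_lit 159)) (XT.lf (nat_lit 0) (nat_lit 38150741705) (nat_lit 228) (nat_lit 36834123837) (nat_lit 76) (nat_lit 72077399080) (nat_lit 51) (nat_lit 5) (nat_lit 54) (nat_lit 5) (nat_lit 52) (nat_lit 5) (nat_lit 387) (nat_lit 355) (nat_lit 158))))) (XT.nd (nat_lit 234) (nat_lit 304) (nat_lit 0) (XT.nd (nat_lit 78) (nat_lit 152) (nat_lit 0) (XT.lf (nat_lit 0) (nat_lit 40734613671) (nat_lit 228)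 (nat_lit 25314687738) (nat_lit 304) (nat_lit 85774488203) (nat_lit 48) (nat_lit 5) (nat_lit 51) (nat_lit 5) (nat_lit 52) (nat_lit 5) (nat_lit 388) (nat_lit 355) (nat_lit 157)) (XT.nd (nat_lit 78) (nat_lit 152) (nat_lit 0) (XT.lf (nat_lit 0) (nat_lit 96395516480) (nat_lit 304) (nat_lit 33761378431) (nat_lit 76) (nat_lit 26613859825) (nat_lit 48) (nat_lit 5) (nat_lit 52) (nat_lit 5) (nat_lit 49) (nat_lit 5) (nat_lit 389) (nat_lit 355) (nat_lit 156)) (XT.lf (nat_lit 0) (nat_lit 48571938344) (nat_lit 152) (nat_lit 80860124246) (nat_lit 228) (nat_lit 32474354758) (nat_lit 46) (nat_lit 5) (nat_lit 48) (nat_lit 5) (nat_lit 49) (nat_lit 5) (nat_lit 390) (nat_lit 355) (nat_lit 155)))) (XT.nd (nat_lit 78) (nat_lit 304) (nat_lit 0) (XT.lf (nat_lit 0) (nat_lit 136193566450) (nat_lit 152) (nat_lit 28498323946) (nat_lit 228) (nat_lit 2578400206) (nat_lit 46) (nat_lit 5) (nat_lit 48) (nat_lit 5) (nat_lit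 49) (nat_lit 5) (nat_lit 391) (nat_lit 355) (nat_lit 154)) (XT.nd (nat_lit 78) (nat_lit 0) (nat_lit 0) (XT.lf (nat_lit 0) (nat_lit 29209774808) (nat_lit 304) (nat_lit 116613983091) (nat_lit 76) (nat_lit 26990127856) (nat_lit 42) (nat_lit 5) (nat_lit 46) (nat_lit 5) (nat_lit 43) (nat_lit 5) (nat_lit 392) (nat_lit 355) (nat_lit 153)) (XT.lf (nat_lit 0) (nat_lit 63502523891) (nat_lit 304) (nat_lit 30207619467) (nat_lit 76) (nat_lit 84872313241) (nat_lit 42) (nat_lit 5) (nat_lit 46) (nat_lit 5) (nat_lit 43) (nat_lit 5) (nat_lit 393) (nat_lit 355) (nat_lit 152)))))) (XT.nd (nat_lit 390) (nat_lit 456) (nat_lit 0) (XT.nd (nat_lit 156) (nat_lit 380) (nat_lit 0) (XT.nd (nat_lit 78) (nat_lit 0) (nat_lit 0) (XT.lf (nat_lit 0) (nat_lit 62519637436) (nat_lit 152) (nat_lit 37966097471) (nat_lit 228) (nat_lit 84104930046) (nat_lit 40) (nat_lit 5) (nat_lit 42) (nat_lit 5) (nat_lit 43) (nat_lit 5) (nat_lit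 394) (nat_lit 355) (nat_lit 151)) (XT.lf (nat_lit 0) (nat_lit 140158875171) (nat_lit 228) (nat_lit 30271621412) (nat_lit 76) (nat_lit 20426748889) (nat_lit 40) (nat_lit 5) (nat_lit 43) (nat_lit 5) (nat_lit 41) (nat_lit 5) (nat_lit 395) (nat_lit 355) (nat_lit 150))) (XT.nd (nat_lit 78) (nat_lit 228) (nat_lit 0) (XT.lf (nat_lit 0) (nat_lit 67660491533) (nat_lit 152) (nat_lit 115833680932) (nat_lit 228) (nat_lit 13859057724) (nat_lit 38) (nat_lit 5) (nat_lit 40) (nat_lit 5) (nat_lit 41) (nat_lit 5) (nat_lit 396) (nat_lit 355) (nat_lit 149)) (XT.nd (nat_lit 78) (nat_lit 152) (nat_lit 0) (XT.lf (nat_lit 0) (nat_lit 24548560044) (nat_lit 228) (nat_lit 33004585892) (nat_lit 76) (nat_lit 146575450859) (nat_lit 37) (nat_lit 5) (nat_lit 40) (nat_lit 5) (nat_lit 38) (nat_lit 5) (nat_lit 397) (nat_lit 355) (nat_lit 148)) (XT.lf (nat_lit 0) (nat_lit 65590641799) (nat_lit 228) (nat_lit 140706586569)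 (nat_lit 76) (nat_lit 4875151715) (nat_lit 35) (nat_lit 5) (nat_lit 38) (nat_lit 5) (nat_lit 36) (nat_lit 5) (nat_lit 398) (nat_lit 355) (nat_lit 147))))) (XT.nd (nat_lit 234) (nat_lit 304) (nat_lit 0) (XT.nd (nat_lit 78) (nat_lit 152) (nat_lit 0) (XT.lf (nat_lit 0) (nat_lit 110196186063) (nat_lit 228) (nat_lit 39237937437) (nat_lit 76) (nat_lit 69058661257) (nat_lit 35) (nat_lit 5) (nat_lit 38) (nat_lit 5) (nat_lit 36) (nat_lit 5) (nat_lit 399) (nat_lit 355) (nat_lit 146)) (XT.nd (nat_lit 78) (nat_lit 0) (nat_lit 0) (XT.lf (nat_lit 0) (nat_lit 69529118118) (nat_lit 152) (nat_lit 88588198097) (nat_lit 228) (nat_lit 68007628150) (nat_lit 33) (nat_lit 5) (nat_lit 35) (nat_lit 5) (nat_lit 36) (nat_lit 5) (nat_lit 400) (nat_lit 355) (nat_lit 145)) (XT.lf (nat_lit 0) (nat_lit 185096393329) (nat_lit 152) (nat_lit 24002392492) (nat_lit 228) (nat_lit 25006712115) (nat_lit 33) (nat_lit 5) (nat_lit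 35) (nat_lit 5) (nat_lit 36) (nat_lit 5) (nat_lit 401) (nat_lit 355) (nat_lit 144)))) (XT.nd (nat_lit 78) (nat_lit 152) (nat_lit 0) (XT.lf (nat_lit 0) (nat_lit 21231789888) (nat_lit 152) (nat_lit 177377696687) (nat_lit 76) (nat_lit 43773253221) (nat_lit 31) (nat_lit 5) (nat_lit 33) (nat_lit 5) (nat_lit 32) (nat_lit 5) (nat_lit 402) (nat_lit 355) (nat_lit 143)) (XT.nd (nat_lit 78) (nat_lit 152) (nat_lit 0) (XT.lf (nat_lit 0) (nat_lit 70178687946) (nat_lit 152) (nat_lit 65428372306) (nat_lit 76) (nat_lit 115384443281) (nat_lit 31) (nat_lit 5) (nat_lit 33) (nat_lit 5) (nat_lit 32) (nat_lit 5) (nat_lit 403) (nat_lit 355) (nat_lit 142)) (XT.lf (nat_lit 0) (nat_lit 53841317188) (nat_lit 152) (nat_lit 68572017353) (nat_lit 228) (nat_lit 137575350839) (nat_lit 29) (nat_lit 5) (nat_lit 31) (nat_lit 5) (nat_lit 32) (nat_lit 5) (nat_lit 404) (nat_lit 355) (nat_lit 141))))))) (XT.nd (nat_lit 858) (nat_lit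 304) (nat_lit 0) (XT.nd (nat_lit 390) (nat_lit 304) (nat_lit 0) (XT.nd (nat_lit 156) (nat_lit 228) (nat_lit 0) (XT.nd (nat_lit 78) (nat_lit 76) (nat_lit 0) (XT.lf (nat_lit 0) (nat_lit 178414065275) (nat_lit 228) (nat_lit 88081167243) (nat_lit 76) (nat_lit 2882776313) (nat_lit 29) (nat_lit 5) (nat_lit 32) (nat_lit 5) (nat_lit 30) (nat_lit 4) (nat_lit 405) (nat_lit 355) (nat_lit 140)) (XT.lf (nat_lit 0) (nat_lit 35913318234) (nat_lit 76) (nat_lit 202986155154) (nat_lit 152) (nat_lit 40253093121) (nat_lit 28) (nat_lit 5) (nat_lit 29) (nat_lit 5) (nat_lit 30) (nat_lit 4) (nat_lit 406) (nat_lit 355) (nat_lit 139))) (XT.nd (nat_lit 78) (nat_lit 152) (nat_lit 0) (XT.lf (nat_lit 0) (nat_lit 14093387077) (nat_lit 152) (nat_lit 120403421473) (nat_lit 76) (nat_lit 154833102818) (nat_lit 27) (nat_lit 5) (nat_lit 29) (nat_lit 5) (nat_lit 28) (nat_lit 5) (nat_lit 407) (nat_lit 355) (nat_lit 138)) (XT.nd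 (nat_lit 78) (nat_lit 0) (nat_lit 0) (XT.lf (nat_lit 0) (nat_lit 8175652692) (nat_lit 152) (nat_lit 61756227694) (nat_lit 228) (nat_lit 230044875979) (nat_lit 25) (nat_lit 5) (nat_lit 27) (nat_lit 5) (nat_lit 28) (nat_lit 5) (nat_lit 408) (nat_lit 355) (nat_lit 137)) (XT.lf (nat_lit 0) (nat_lit 130862910867) (nat_lit 228) (nat_lit 163952213016) (nat_lit 76) (nat_lit 16225789185) (nat_lit 25) (nat_lit 5) (nat_lit 28) (nat_lit 5) (nat_lit 26) (nat_lit 4) (nat_lit 409) (nat_lit 355) (nat_lit 136))))) (XT.nd (nat_lit 234) (nat_lit 228) (nat_lit 0) (XT.nd (nat_lit 78) (nat_lit 76) (nat_lit 0) (XT.lf (nat_lit 0) (nat_lit 195852712751) (nat_lit 228) (nat_lit 30723590174) (nat_lit 76) (nat_lit 96031363760) (nat_lit 25) (nat_lit 5) (nat_lit 28) (nat_lit 5) (nat_lit 26) (nat_lit 4) (nat_lit 410) (nat_lit 355) (nat_lit 135)) (XT.nd (nat_lit 78) (nat_lit 0) (nat_lit 0) (XT.lf (nat_lit 0) (nat_lit 112775690020)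 (nat_lit 76) (nat_lit 153076890431) (nat_lit 152) (nat_lit 68812148819) (nat_lit 24) (nat_lit 5) (nat_lit 25) (nat_lit 5) (nat_lit 26) (nat_lit 4) (nat_lit 411) (nat_lit 355) (nat_lit 134)) (XT.lf (nat_lit 0) (nat_lit 264516292575) (nat_lit 76) (nat_lit 75356302405) (nat_lit 152) (nat_lit 7426042400) (nat_lit 24) (nat_lit 5) (nat_lit 25) (nat_lit 5) (nat_lit 26) (nat_lit 4) (nat_lit 412) (nat_lit 355) (nat_lit 133)))) (XT.nd (nat_lit 78) (nat_lit 0) (nat_lit 0) (XT.lf (nat_lit 0) (nat_lit 56338863309) (nat_lit 228) (nat_lit 296146219758) (nat_lit 76) (nat_lit 7977898980) (nat_lit 21) (nat_lit 5) (nat_lit 24) (nat_lit 5) (nat_lit 22) (nat_lit 4) (nat_lit 413) (nat_lit 355) (nat_lit 132)) (XT.nd (nat_lit 78) (nat_lit 0) (nat_lit 0) (XT.lf (nat_lit 0) (nat_lit 125702582888) (nat_lit 228) (nat_lit 153950963679) (nat_lit 76) (nat_lit 94492903905) (nat_lit 21) (nat_lit 5) (nat_lit 24) (nat_lit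 5) (nat_lit 22) (nat_lit 4) (nat_lit 414) (nat_lit 355) (nat_lit 131)) (XT.lf (nat_lit 0) (nat_lit 198534337096) (nat_lit 228) (nat_lit 4646219036) (nat_lit 76) (nat_lit 185333543809) (nat_lit 21) (nat_lit 5) (nat_lit 24) (nat_lit 5) (nat_lit 22) (nat_lit 4) (nat_lit 415) (nat_lit 355) (nat_lit 130)))))) (XT.nd (nat_lit 42198) (nat_lit 0) (nat_lit 6004) (XT.nd (nat_lit 234) (nat_lit 76) (nat_lit 0) (XT.nd (nat_lit 78) (nat_lit 152) (nat_lit 0) (XT.lf (nat_lit 0) (nat_lit 157153391629) (nat_lit 76) (nat_lit 120307748106) (nat_lit 152) (nat_lit 126016319167) (nat_lit 20) (nat_lit 5) (nat_lit 21) (nat_lit 5) (nat_lit 22) (nat_lit 4) (nat_lit 416) (nat_lit 355) (nat_lit 129)) (XT.nd (nat_lit 78) (nat_lit 152) (nat_lit 0) (XT.lf (nat_lit 0) (nat_lit 327204032093) (nat_lit 76) (nat_lit 33208795091) (nat_lit 152) (nat_lit 58772231444) (nat_lit 20) (nat_lit 5) (nat_lit 21) (nat_lit 5) (nat_lit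 22) (nat_lit 4) (nat_lit 417) (nat_lit 355) (nat_lit 128)) (XT.lf (nat_lit 0) (nat_lit 13513362279) (nat_lit 152) (nat_lit 364338147575) (nat_lit 76) (nat_lit 57714387118) (nat_lit 18) (nat_lit 5) (nat_lit 20) (nat_lit 5) (nat_lit 19) (nat_lit 4) (nat_lit 418) (nat_lit 355) (nat_lit 127)))) (XT.nd (nat_lit 78) (nat_lit 76) (nat_lit 0) (XT.lf (nat_lit 0) (nat_lit 89565653896) (nat_lit 152) (nat_lit 208431225155) (nat_lit 76) (nat_lit 154614346735) (nat_lit 18) (nat_lit 5) (nat_lit 20) (nat_lit 5) (nat_lit 19) (nat_lit 4) (nat_lit 419) (nat_lit 355) (nat_lit 126)) (XT.nd (nat_lit 78) (nat_lit 76) (nat_lit 0) (XT.lf (nat_lit 0) (nat_lit 169420430698) (nat_lit 152) (nat_lit 44729194993) (nat_lit 76) (nat_lit 256359201863) (nat_lit 18) (nat_lit 5) (nat_lit 20) (nat_lit 5) (nat_lit 19) (nat_lit 4) (nat_lit 420) (nat_lit 355) (nat_lit 125)) (XT.lf (nat_lit 0) (nat_lit 131362117791) (nat_lit 76)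 (nat_lit 123956636115) (nat_lit 152) (nat_lit 233880015167) (nat_lit 17) (nat_lit 5) (nat_lit 18) (nat_lit 5) (nat_lit 19) (nat_lit 4) (nat_lit 421) (nat_lit 355) (nat_lit 124))))) (XT.nd (nat_lit 234) (nat_lit 0) (nat_lit 76) (XT.nd (nat_lit 78) (nat_lit 0) (nat_lit 0) (XT.lf (nat_lit 0) (nat_lit 1340117140) (nat_lit 836) (nat_lit 15001233876) (nat_lit 836) (nat_lit 15001233876) (nat_lit 96) (nat_lit 3) (nat_lit 107) (nat_lit 3) (nat_lit 107) (nat_lit 5) (nat_lit 356) (nat_lit 356) (nat_lit 188)) (XT.nd (nat_lit 78) (nat_lit 0) (nat_lit 76) (XT.lf (nat_lit 0) (nat_lit 2763291155) (nat_lit 836) (nat_lit 639602753) (nat_lit 836) (nat_lit 60848582565) (nat_lit 96) (nat_lit 3) (nat_lit 107) (nat_lit 3) (nat_lit 107) (nat_lit 5) (nat_lit 357) (nat_lit 356) (nat_lit 187)) (XT.lf (nat_lit 0) (nat_lit 3771281380) (nat_lit 760) (nat_lit 35117550415) (nat_lit 836) (nat_lit 26961228955) (nat_lit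 97) (nat_lit 5) (nat_lit 107) (nat_lit 5) (nat_lit 108) (nat_lit 5) (nat_lit 358) (nat_lit 356) (nat_lit 186)))) (XT.nd (nat_lit 78) (nat_lit 0) (nat_lit 76) (XT.lf (nat_lit 0) (nat_lit 4895486095) (nat_lit 760) (nat_lit 3889149741) (nat_lit 836) (nat_lit 58740648874) (nat_lit 97) (nat_lit 5) (nat_lit 107) (nat_lit 5) (nat_lit 108) (nat_lit 5) (nat_lit 359) (nat_lit 356) (nat_lit 185)) (XT.nd (nat_lit 78) (nat_lit 0) (nat_lit 0) (XT.lf (nat_lit 0) (nat_lit 6905104706) (nat_lit 760) (nat_lit 39769338924) (nat_lit 836) (nat_lit 22568367219) (nat_lit 98) (nat_lit 5) (nat_lit 108) (nat_lit 5) (nat_lit 109) (nat_lit 5) (nat_lit 360) (nat_lit 356) (nat_lit 184)) (XT.lf (nat_lit 0) (nat_lit 9225267189) (nat_lit 760) (nat_lit 6549366347) (nat_lit 836) (nat_lit 55261077718) (nat_lit 98) (nat_lit 5) (nat_lit 108) (nat_lit 5) (nat_lit 109) (nat_lit 5) (nat_lit 361) (nat_lit 356) (nat_lit 183))))))))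
noncomputable def xc225 : XT := (XT.nd (nat_lit 1716) (nat_lit 2128) (nat_lit 0) (XT.nd (nat_lit 858) (nat_lit 1900) (nat_lit 0) (XT.nd (nat_lit 390) (nat_lit 1292) (nat_lit 0) (XT.nd (nat_lit 156) (nat_lit 0) (nat_lit 76) (XT.nd (nat_lit 78) (nat_lit 0) (nat_lit 0) (XT.lf (nat_lit 0) (nat_lit 12385303838) (nat_lit 760) (nat_lit 43895433823) (nat_lit 836) (nat_lit 16601326768) (nat_lit 99) (nat_lit 5) (nat_lit 109) (nat_lit 5) (nat_lit 110) (nat_lit 5) (nat_lit 362) (nat_lit 356) (nat_lit 182)) (XT.lf (nat_lit 0) (nat_lit 16073864035) (nat_lit 760) (nat_lit 8549412791) (nat_lit 836) (nat_lit 50178933356) (nat_lit 99) (nat_lit 5) (nat_lit 109) (nat_lit 5) (nat_lit 110) (nat_lit 5) (nat_lit 363) (nat_lit 356) (nat_lit 181))) (XT.nd (nat_lit 78) (nat_lit 0) (nat_lit 0) (XT.lf (nat_lit 0) (nat_lit 20548867855) (nat_lit 760) (nat_lit 47429699991) (nat_lit 836) (nat_lit 8809695551) (nat_lit 100)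 (nat_lit 5) (nat_lit 110) (nat_lit 5) (nat_lit 111) (nat_lit 5) (nat_lit 364) (nat_lit 356) (nat_lit 180)) (XT.nd (nat_lit 78) (nat_lit 0) (nat_lit 0) (XT.lf (nat_lit 0) (nat_lit 25797699782) (nat_lit 760) (nat_lit 9814272613) (nat_lit 836) (nat_lit 43234143893) (nat_lit 100) (nat_lit 5) (nat_lit 110) (nat_lit 5) (nat_lit 111) (nat_lit 5) (nat_lit 365) (nat_lit 356) (nat_lit 179)) (XT.lf (nat_lit 76) (nat_lit 30662740930) (nat_lit 0) (nat_lit 1124254754) (nat_lit 836) (nat_lit 49195965885) (nat_lit 101) (nat_lit 5) (nat_lit 100) (nat_lit 5) (nat_lit 111) (nat_lit 5) (nat_lit 366) (nat_lit 356) (nat_lit 178))))) (XT.nd (nat_lit 234) (nat_lit 684) (nat_lit 0) (XT.nd (nat_lit 78) (nat_lit 760) (nat_lit 0) (XT.lf (nat_lit 0) (nat_lit 38791827787) (nat_lit 760) (nat_lit 10265160224) (nat_lit 76) (nat_lit 34133858361) (nat_lit 101) (nat_lit 5) (nat_lit 111) (nat_lit 5) (nat_lit 102) (nat_lit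 5) (nat_lit 367) (nat_lit 356) (nat_lit 177)) (XT.nd (nat_lit 78) (nat_lit 0) (nat_lit 0) (XT.lf (nat_lit 0) (nat_lit 32824220257) (nat_lit 760) (nat_lit 13852939756) (nat_lit 836) (nat_lit 38805453261) (nat_lit 91) (nat_lit 5) (nat_lit 101) (nat_lit 5) (nat_lit 102) (nat_lit 5) (nat_lit 368) (nat_lit 356) (nat_lit 176)) (XT.lf (nat_lit 0) (nat_lit 55493659468) (nat_lit 836) (nat_lit 9820111753) (nat_lit 76) (nat_lit 22548353018) (nat_lit 91) (nat_lit 5) (nat_lit 102) (nat_lit 5) (nat_lit 92) (nat_lit 5) (nat_lit 369) (nat_lit 356) (nat_lit 175)))) (XT.nd (nat_lit 78) (nat_lit 304) (nat_lit 0) (XT.lf (nat_lit 0) (nat_lit 36087432070) (nat_lit 380) (nat_lit 29453477912) (nat_lit 456) (nat_lit 24780205180) (nat_lit 86) (nat_lit 5) (nat_lit 91) (nat_lit 5) (nat_lit 92) (nat_lit 5) (nat_lit 370) (nat_lit 356) (nat_lit 174)) (XT.nd (nat_lit 78) (nat_lit 304) (nat_lit 0) (XT.lf (nat_lit 0) (nat_lit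 76387002547) (nat_lit 456) (nat_lit 8394801444) (nat_lit 76) (nat_lit 8106428343) (nat_lit 86) (nat_lit 5) (nat_lit 92) (nat_lit 5) (nat_lit 87) (nat_lit 5) (nat_lit 371) (nat_lit 356) (nat_lit 173)) (XT.lf (nat_lit 0) (nat_lit 40550479715) (nat_lit 304) (nat_lit 48340320543) (nat_lit 380) (nat_lit 6637135727) (nat_lit 82) (nat_lit 5) (nat_lit 86) (nat_lit 5) (nat_lit 87) (nat_lit 5) (nat_lit 372) (nat_lit 356) (nat_lit 172)))))) (XT.nd (nat_lit 390) (nat_lit 836) (nat_lit 0) (XT.nd (nat_lit 156) (nat_lit 608) (nat_lit 0) (XT.nd (nat_lit 78) (nat_lit 380) (nat_lit 0) (XT.lf (nat_lit 0) (nat_lit 3745053373) (nat_lit 380) (nat_lit 6119034249) (nat_lit 76) (nat_lit 88425435735) (nat_lit 81) (nat_lit 5) (nat_lit 86) (nat_lit 5) (nat_lit 82) (nat_lit 5) (nat_lit 373) (nat_lit 356) (nat_lit 171)) (XT.lf (nat_lit 0) (nat_lit 15640220431) (nat_lit 456) (nat_lit 55074612110) (nat_lit 76) (nat_lit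 30408071851) (nat_lit 76) (nat_lit 5) (nat_lit 82) (nat_lit 5) (nat_lit 77) (nat_lit 5) (nat_lit 374) (nat_lit 356) (nat_lit 170))) (XT.nd (nat_lit 78) (nat_lit 608) (nat_lit 0) (XT.lf (nat_lit 0) (nat_lit 28396679200) (nat_lit 456) (nat_lit 3220321053) (nat_lit 76) (nat_lit 72467628091) (nat_lit 76) (nat_lit 5) (nat_lit 82) (nat_lit 5) (nat_lit 77) (nat_lit 5) (nat_lit 375) (nat_lit 356) (nat_lit 169)) (XT.nd (nat_lit 78) (nat_lit 304) (nat_lit 0) (XT.lf (nat_lit 0) (nat_lit 42777574075) (nat_lit 380) (nat_lit 54394101040) (nat_lit 76) (nat_lit 9973433226) (nat_lit 72) (nat_lit 5) (nat_lit 77) (nat_lit 5) (nat_lit 73) (nat_lit 5) (nat_lit 376) (nat_lit 356) (nat_lit 168)) (XT.lf (nat_lit 0) (nat_lit 782091326) (nat_lit 304) (nat_lit 57680912777) (nat_lit 380) (nat_lit 51866334197) (nat_lit 68) (nat_lit 5) (nat_lit 72) (nat_lit 5) (nat_lit 73) (nat_lit 5) (nat_lit 377) (nat_lit 356) (nat_lit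 167))))) (XT.nd (nat_lit 234) (nat_lit 608) (nat_lit 0) (XT.nd (nat_lit 78) (nat_lit 228) (nat_lit 0) (XT.lf (nat_lit 0) (nat_lit 60604988772) (nat_lit 304) (nat_lit 15248457382) (nat_lit 380) (nat_lit 37773297037) (nat_lit 68) (nat_lit 5) (nat_lit 72) (nat_lit 5) (nat_lit 73) (nat_lit 5) (nat_lit 378) (nat_lit 356) (nat_lit 166)) (XT.nd (nat_lit 78) (nat_lit 0) (nat_lit 0) (XT.lf (nat_lit 0) (nat_lit 6066083029) (nat_lit 228) (nat_lit 88599148814) (nat_lit 304) (nat_lit 22396195844) (nat_lit 65) (nat_lit 5) (nat_lit 68) (nat_lit 5) (nat_lit 69) (nat_lit 5) (nat_lit 379) (nat_lit 356) (nat_lit 165)) (XT.lf (nat_lit 0) (nat_lit 69690337231) (nat_lit 228) (nat_lit 45870743810) (nat_lit 304) (nat_lit 5049592074) (nat_lit 65) (nat_lit 5) (nat_lit 68) (nat_lit 5) (nat_lit 69) (nat_lit 5) (nat_lit 380) (nat_lit 356) (nat_lit 164)))) (XT.nd (nat_lit 78) (nat_lit 228) (nat_lit 0) (XT.lf (nat_lit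 0) (nat_lit 12347571259) (nat_lit 304) (nat_lit 587804944) (nat_lit 380) (nat_lit 111382109602) (nat_lit 60) (nat_lit 5) (nat_lit 64) (nat_lit 5) (nat_lit 65) (nat_lit 5) (nat_lit 381) (nat_lit 356) (nat_lit 163)) (XT.nd (nat_lit 78) (nat_lit 228) (nat_lit 0) (XT.lf (nat_lit 0) (nat_lit 33259161796) (nat_lit 380) (nat_lit 48450420512) (nat_lit 76) (nat_lit 46415454755) (nat_lit 60) (nat_lit 5) (nat_lit 65) (nat_lit 5) (nat_lit 61) (nat_lit 5) (nat_lit 382) (nat_lit 356) (nat_lit 162)) (XT.lf (nat_lit 0) (nat_lit 18837836669) (nat_lit 228) (nat_lit 36064671136) (nat_lit 304) (nat_lit 77205289867) (nat_lit 57) (nat_lit 5) (nat_lit 60) (nat_lit 5) (nat_lit 61) (nat_lit 5) (nat_lit 383) (nat_lit 356) (nat_lit 161))))))) (XT.nd (nat_lit 858) (nat_lit 988) (nat_lit 0) (XT.nd (nat_lit 390) (nat_lit 684) (nat_lit 0) (XT.nd (nat_lit 156) (nat_lit 228) (nat_lit 0) (XT.nd (nat_lit 78) (nat_lit 228)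 (nat_lit 0) (XT.lf (nat_lit 0) (nat_lit 78646842139) (nat_lit 304) (nat_lit 45275244133) (nat_lit 76) (nat_lit 12316669313) (nat_lit 57) (nat_lit 5) (nat_lit 61) (nat_lit 5) (nat_lit 58) (nat_lit 5) (nat_lit 384) (nat_lit 356) (nat_lit 160)) (XT.lf (nat_lit 0) (nat_lit 26371550862) (nat_lit 228) (nat_lit 78209449527) (nat_lit 304) (nat_lit 35945130957) (nat_lit 54) (nat_lit 5) (nat_lit 57) (nat_lit 5) (nat_lit 58) (nat_lit 5) (nat_lit 385) (nat_lit 356) (nat_lit 159))) (XT.nd (nat_lit 78) (nat_lit 228) (nat_lit 0) (XT.lf (nat_lit 0) (nat_lit 103172059799) (nat_lit 228) (nat_lit 29406223395) (nat_lit 304) (nat_lit 12411272165) (nat_lit 54) (nat_lit 5) (nat_lit 57) (nat_lit 5) (nat_lit 58) (nat_lit 5) (nat_lit 386) (nat_lit 356) (nat_lit 158)) (XT.nd (nat_lit 78) (nat_lit 0) (nat_lit 0) (XT.lf (nat_lit 0) (nat_lit 12805838274) (nat_lit 228) (nat_lit 114925962972) (nat_lit 76) (nat_lit 21889737661)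 (nat_lit 51) (nat_lit 5) (nat_lit 54) (nat_lit 5) (nat_lit 52) (nat_lit 5) (nat_lit 387) (nat_lit 356) (nat_lit 157)) (XT.lf (nat_lit 0) (nat_lit 40068258222) (nat_lit 228) (nat_lit 38661219227) (nat_lit 76) (nat_lit 75685393560) (nat_lit 51) (nat_lit 5) (nat_lit 54) (nat_lit 5) (nat_lit 52) (nat_lit 5) (nat_lit 388) (nat_lit 356) (nat_lit 156))))) (XT.nd (nat_lit 234) (nat_lit 304) (nat_lit 0) (XT.nd (nat_lit 78) (nat_lit 152) (nat_lit 0) (XT.lf (nat_lit 0) (nat_lit 42785719498) (nat_lit 228) (nat_lit 26575775638) (nat_lit 304) (nat_lit 90052990025) (nat_lit 48) (nat_lit 5) (nat_lit 51) (nat_lit 5) (nat_lit 52) (nat_lit 5) (nat_lit 389) (nat_lit 356) (nat_lit 155)) (XT.nd (nat_lit 78) (nat_lit 152) (nat_lit 0) (XT.lf (nat_lit 0) (nat_lit 101224626782) (nat_lit 304) (nat_lit 35435355419) (nat_lit 76) (nat_lit 27948836407) (nat_lit 48) (nat_lit 5) (nat_lit 52) (nat_lit 5) (nat_lit 49) (nat_lit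 5) (nat_lit 390) (nat_lit 356) (nat_lit 154)) (XT.lf (nat_lit 0) (nat_lit 51014399905) (nat_lit 152) (nat_lit 84898372259) (nat_lit 228) (nat_lit 34088503928) (nat_lit 46) (nat_lit 5) (nat_lit 48) (nat_lit 5) (nat_lit 49) (nat_lit 5) (nat_lit 391) (nat_lit 356) (nat_lit 153)))) (XT.nd (nat_lit 78) (nat_lit 304) (nat_lit 0) (XT.lf (nat_lit 0) (nat_lit 143016449196) (nat_lit 152) (nat_lit 29918708525) (nat_lit 228) (nat_lit 2698207295) (nat_lit 46) (nat_lit 5) (nat_lit 48) (nat_lit 5) (nat_lit 49) (nat_lit 5) (nat_lit 392) (nat_lit 356) (nat_lit 152)) (XT.nd (nat_lit 78) (nat_lit 0) (nat_lit 0) (XT.lf (nat_lit 0) (nat_lit 30678945152) (nat_lit 304) (nat_lit 122431034461) (nat_lit 76) (nat_lit 28344160475) (nat_lit 42) (nat_lit 5) (nat_lit 46) (nat_lit 5) (nat_lit 43) (nat_lit 5) (nat_lit 393) (nat_lit 356) (nat_lit 151)) (XT.lf (nat_lit 0) (nat_lit 66685918280) (nat_lit 304) (nat_lit 31705002550)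 (nat_lit 76) (nat_lit 89120239595) (nat_lit 42) (nat_lit 5) (nat_lit 46) (nat_lit 5) (nat_lit 43) (nat_lit 5) (nat_lit 394) (nat_lit 356) (nat_lit 150)))))) (XT.nd (nat_lit 468) (nat_lit 456) (nat_lit 0) (XT.nd (nat_lit 234) (nat_lit 228) (nat_lit 0) (XT.nd (nat_lit 78) (nat_lit 152) (nat_lit 0) (XT.lf (nat_lit 0) (nat_lit 65658407554) (nat_lit 152) (nat_lit 39859688229) (nat_lit 228) (nat_lit 88301693383) (nat_lit 40) (nat_lit 5) (nat_lit 42) (nat_lit 5) (nat_lit 43) (nat_lit 5) (nat_lit 395) (nat_lit 356) (nat_lit 149)) (XT.nd (nat_lit 78) (nat_lit 152) (nat_lit 0) (XT.lf (nat_lit 0) (nat_lit 147174578674) (nat_lit 228) (nat_lit 31772703739) (nat_lit 76) (nat_lit 21452432271) (nat_lit 40) (nat_lit 5) (nat_lit 43) (nat_lit 5) (nat_lit 41) (nat_lit 5) (nat_lit 396) (nat_lit 356) (nat_lit 148)) (XT.lf (nat_lit 0) (nat_lit 71055813261) (nat_lit 152) (nat_lit 121620650053) (nat_lit 228) (nat_lit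 14544044440) (nat_lit 38) (nat_lit 5) (nat_lit 40) (nat_lit 5) (nat_lit 41) (nat_lit 5) (nat_lit 397) (nat_lit 356) (nat_lit 147)))) (XT.nd (nat_lit 78) (nat_lit 152) (nat_lit 0) (XT.lf (nat_lit 0) (nat_lit 25783332049) (nat_lit 228) (nat_lit 34642856404) (nat_lit 76) (nat_lit 153908466598) (nat_lit 37) (nat_lit 5) (nat_lit 40) (nat_lit 5) (nat_lit 38) (nat_lit 5) (nat_lit 398) (nat_lit 356) (nat_lit 146)) (XT.nd (nat_lit 78) (nat_lit 0) (nat_lit 0) (XT.lf (nat_lit 0) (nat_lit 68877423506) (nat_lit 228) (nat_lit 147729858555) (nat_lit 76) (nat_lit 5123350371) (nat_lit 35) (nat_lit 5) (nat_lit 38) (nat_lit 5) (nat_lit 36) (nat_lit 5) (nat_lit 399) (nat_lit 356) (nat_lit 145)) (XT.lf (nat_lit 0) (nat_lit 115712899763) (nat_lit 228) (nat_lit 41188351125) (nat_lit 76) (nat_lit 72515823910) (nat_lit 35) (nat_lit 5) (nat_lit 38) (nat_lit 5) (nat_lit 36) (nat_lit 5) (nat_lit 400) (nat_lit 356)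 (nat_lit 144))))) (XT.nd (nat_lit 234) (nat_lit 152) (nat_lit 0) (XT.nd (nat_lit 78) (nat_lit 152) (nat_lit 0) (XT.lf (nat_lit 0) (nat_lit 73016871995) (nat_lit 152) (nat_lit 93013062040) (nat_lit 228) (nat_lit 71400916161) (nat_lit 33) (nat_lit 5) (nat_lit 35) (nat_lit 5) (nat_lit 36) (nat_lit 5) (nat_lit 401) (nat_lit 356) (nat_lit 143)) (XT.nd (nat_lit 78) (nat_lit 152) (nat_lit 0) (XT.lf (nat_lit 0) (nat_lit 194361972968) (nat_lit 152) (nat_lit 25198182629) (nat_lit 228) (nat_lit 26250292105) (nat_lit 33) (nat_lit 5) (nat_lit 35) (nat_lit 5) (nat_lit 36) (nat_lit 5) (nat_lit 402) (nat_lit 356) (nat_lit 142)) (XT.lf (nat_lit 0) (nat_lit 22299844823) (nat_lit 152) (nat_lit 186235524668) (nat_lit 76) (nat_lit 45966180752) (nat_lit 31) (nat_lit 5) (nat_lit 33) (nat_lit 5) (nat_lit 32) (nat_lit 5) (nat_lit 403) (nat_lit 356) (nat_lit 141)))) (XT.nd (nat_lit 78) (nat_lit 152) (nat_lit 0)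 (XT.lf (nat_lit 0) (nat_lit 73693779906) (nat_lit 152) (nat_lit 68689260584) (nat_lit 76) (nat_lit 121157727226) (nat_lit 31) (nat_lit 5) (nat_lit 33) (nat_lit 5) (nat_lit 32) (nat_lit 5) (nat_lit 404) (nat_lit 356) (nat_lit 140)) (XT.nd (nat_lit 78) (nat_lit 0) (nat_lit 0) (XT.lf (nat_lit 0) (nat_lit 56543743541) (nat_lit 152) (nat_lit 71996283829) (nat_lit 228) (nat_lit 144447788008) (nat_lit 29) (nat_lit 5) (nat_lit 31) (nat_lit 5) (nat_lit 32) (nat_lit 5) (nat_lit 405) (nat_lit 356) (nat_lit 139)) (XT.lf (nat_lit 0) (nat_lit 187340572132) (nat_lit 228) (nat_lit 92475133136) (nat_lit 76) (nat_lit 3030911000) (nat_lit 29) (nat_lit 5) (nat_lit 32) (nat_lit 5) (nat_lit 30) (nat_lit 4) (nat_lit 406) (nat_lit 356) (nat_lit 138))))))))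
noncomputable def xc226 : XT := (XT.nd (nat_lit 43524) (nat_lit 0) (nat_lit 2736) (XT.nd (nat_lit 858) (nat_lit 152) (nat_lit 0) (XT.nd (nat_lit 390) (nat_lit 380) (nat_lit 0) (XT.nd (nat_lit 156) (nat_lit 152) (nat_lit 0) (XT.nd (nat_lit 78) (nat_lit 76) (nat_lit 0) (XT.lf (nat_lit 0) (nat_lit 37718913834) (nat_lit 76) (nat_lit 213131215486) (nat_lit 152) (nat_lit 42259778710) (nat_lit 28) (nat_lit 5) (nat_lit 29) (nat_lit 5) (nat_lit 30) (nat_lit 4) (nat_lit 407) (nat_lit 356) (nat_lit 137)) (XT.lf (nat_lit 0) (nat_lit 14803559306) (nat_lit 152) (nat_lit 126413951310) (nat_lit 76) (nat_lit 162578618735) (nat_lit 27) (nat_lit 5) (nat_lit 29) (nat_lit 5) (nat_lit 28) (nat_lit 5) (nat_lit 408) (nat_lit 356) (nat_lit 136))) (XT.nd (nat_lit 78) (nat_lit 0) (nat_lit 0) (XT.lf (nat_lit 0) (nat_lit 8593921060) (nat_lit 152) (nat_lit 64839942279) (nat_lit 228) (nat_lit 241541459074) (nat_lit 25)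 (nat_lit 5) (nat_lit 27) (nat_lit 5) (nat_lit 28) (nat_lit 5) (nat_lit 409) (nat_lit 356) (nat_lit 135)) (XT.nd (nat_lit 78) (nat_lit 0) (nat_lit 0) (XT.lf (nat_lit 0) (nat_lit 137411249644) (nat_lit 228) (nat_lit 172140591722) (nat_lit 76) (nat_lit 17040855479) (nat_lit 25) (nat_lit 5) (nat_lit 28) (nat_lit 5) (nat_lit 26) (nat_lit 4) (nat_lit 410) (nat_lit 356) (nat_lit 134)) (XT.lf (nat_lit 0) (nat_lit 205650294325) (nat_lit 228) (nat_lit 32250977355) (nat_lit 76) (nat_lit 100836528934) (nat_lit 25) (nat_lit 5) (nat_lit 28) (nat_lit 5) (nat_lit 26) (nat_lit 4) (nat_lit 411) (nat_lit 356) (nat_lit 133))))) (XT.nd (nat_lit 234) (nat_lit 76) (nat_lit 0) (XT.nd (nat_lit 78) (nat_lit 228) (nat_lit 0) (XT.lf (nat_lit 0) (nat_lit 118423125038) (nat_lit 76) (nat_lit 160726929911) (nat_lit 152) (nat_lit 72247666503) (nat_lit 24) (nat_lit 5) (nat_lit 25) (nat_lit 5) (nat_lit 26) (nat_lit 4) (nat_lit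 412) (nat_lit 356) (nat_lit 132)) (XT.nd (nat_lit 78) (nat_lit 228) (nat_lit 0) (XT.lf (nat_lit 0) (nat_lit 277750345791) (nat_lit 76) (nat_lit 79120493676) (nat_lit 152) (nat_lit 7792497133) (nat_lit 24) (nat_lit 5) (nat_lit 25) (nat_lit 5) (nat_lit 26) (nat_lit 4) (nat_lit 413) (nat_lit 356) (nat_lit 131)) (XT.lf (nat_lit 0) (nat_lit 59160461420) (nat_lit 228) (nat_lit 310945096160) (nat_lit 76) (nat_lit 8380339088) (nat_lit 21) (nat_lit 5) (nat_lit 24) (nat_lit 5) (nat_lit 22) (nat_lit 4) (nat_lit 414) (nat_lit 356) (nat_lit 130)))) (XT.nd (nat_lit 78) (nat_lit 76) (nat_lit 0) (XT.lf (nat_lit 0) (nat_lit 131992145313) (nat_lit 228) (nat_lit 161640478924) (nat_lit 76) (nat_lit 99220925442) (nat_lit 21) (nat_lit 5) (nat_lit 24) (nat_lit 5) (nat_lit 22) (nat_lit 4) (nat_lit 415) (nat_lit 356) (nat_lit 129)) (XT.nd (nat_lit 78) (nat_lit 76) (nat_lit 0) (XT.lf (nat_lit 0) (nat_lit 208465276123)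 (nat_lit 228) (nat_lit 4870879570) (nat_lit 76) (nat_lit 194603436564) (nat_lit 21) (nat_lit 5) (nat_lit 24) (nat_lit 5) (nat_lit 22) (nat_lit 4) (nat_lit 416) (nat_lit 356) (nat_lit 128)) (XT.lf (nat_lit 0) (nat_lit 165018588235) (nat_lit 76) (nat_lit 126319747121) (nat_lit 152) (nat_lit 132312788061) (nat_lit 20) (nat_lit 5) (nat_lit 21) (nat_lit 5) (nat_lit 22) (nat_lit 4) (nat_lit 417) (nat_lit 356) (nat_lit 127)))))) (XT.nd (nat_lit 42198) (nat_lit 0) (nat_lit 5928) (XT.nd (nat_lit 156) (nat_lit 0) (nat_lit 0) (XT.nd (nat_lit 78) (nat_lit 152) (nat_lit 0) (XT.lf (nat_lit 0) (nat_lit 343571402293) (nat_lit 76) (nat_lit 34866007807) (nat_lit 152) (nat_lit 61706702955) (nat_lit 20) (nat_lit 5) (nat_lit 21) (nat_lit 5) (nat_lit 22) (nat_lit 4) (nat_lit 418) (nat_lit 356) (nat_lit 126)) (XT.lf (nat_lit 0) (nat_lit 14193010115) (nat_lit 152) (nat_lit 382547723367) (nat_lit 76) (nat_lit 60603258057)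 (nat_lit 18) (nat_lit 5) (nat_lit 20) (nat_lit 5) (nat_lit 19) (nat_lit 4) (nat_lit 419) (nat_lit 356) (nat_lit 125))) (XT.nd (nat_lit 78) (nat_lit 0) (nat_lit 0) (XT.lf (nat_lit 0) (nat_lit 94047726803) (nat_lit 152) (nat_lit 218845803949) (nat_lit 76) (nat_lit 162348065580) (nat_lit 18) (nat_lit 5) (nat_lit 20) (nat_lit 5) (nat_lit 19) (nat_lit 4) (nat_lit 420) (nat_lit 356) (nat_lit 124)) (XT.nd (nat_lit 41886) (nat_lit 0) (nat_lit 5928) (XT.lf (nat_lit 0) (nat_lit 177895061959) (nat_lit 152) (nat_lit 46959004777) (nat_lit 76) (nat_lit 269180020536) (nat_lit 18) (nat_lit 5) (nat_lit 20) (nat_lit 5) (nat_lit 19) (nat_lit 4) (nat_lit 421) (nat_lit 356) (nat_lit 123)) (XT.lf (nat_lit 0) (nat_lit 1422923412) (nat_lit 836) (nat_lit 15742990505) (nat_lit 836) (nat_lit 15742990505) (nat_lit 96) (nat_lit 3) (nat_lit 107) (nat_lit 3) (nat_lit 107) (nat_lit 5) (nat_lit 357) (nat_lit 357) (nat_lit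 186))))) (XT.nd (nat_lit 234) (nat_lit 0) (nat_lit 152) (XT.nd (nat_lit 78) (nat_lit 0) (nat_lit 76) (XT.lf (nat_lit 0) (nat_lit 2931551741) (nat_lit 836) (nat_lit 655763719) (nat_lit 836) (nat_lit 63875192522) (nat_lit 96) (nat_lit 3) (nat_lit 107) (nat_lit 3) (nat_lit 107) (nat_lit 5) (nat_lit 358) (nat_lit 357) (nat_lit 185)) (XT.nd (nat_lit 78) (nat_lit 0) (nat_lit 0) (XT.lf (nat_lit 0) (nat_lit 3988543027) (nat_lit 760) (nat_lit 36856174588) (nat_lit 836) (nat_lit 28296375566) (nat_lit 97) (nat_lit 5) (nat_lit 107) (nat_lit 5) (nat_lit 108) (nat_lit 5) (nat_lit 359) (nat_lit 357) (nat_lit 184)) (XT.lf (nat_lit 0) (nat_lit 5167591427) (nat_lit 760) (nat_lit 4067175469) (nat_lit 836) (nat_lit 61665381474) (nat_lit 97) (nat_lit 5) (nat_lit 107) (nat_lit 5) (nat_lit 108) (nat_lit 5) (nat_lit 360) (nat_lit 357) (nat_lit 183)))) (XT.nd (nat_lit 78) (nat_lit 0) (nat_lit 0) (XT.lf (nat_lit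 0) (nat_lit 7276483972) (nat_lit 760) (nat_lit 41740134709) (nat_lit 836) (nat_lit 23686994104) (nat_lit 98) (nat_lit 5) (nat_lit 108) (nat_lit 5) (nat_lit 109) (nat_lit 5) (nat_lit 361) (nat_lit 357) (nat_lit 182)) (XT.nd (nat_lit 78) (nat_lit 0) (nat_lit 76) (XT.lf (nat_lit 0) (nat_lit 9711410577) (nat_lit 760) (nat_lit 6860004987) (nat_lit 836) (nat_lit 58014806389) (nat_lit 98) (nat_lit 5) (nat_lit 108) (nat_lit 5) (nat_lit 109) (nat_lit 5) (nat_lit 362) (nat_lit 357) (nat_lit 181)) (XT.lf (nat_lit 0) (nat_lit 13028407351) (nat_lit 760) (nat_lit 46072304736) (nat_lit 836) (nat_lit 17424234256) (nat_lit 99) (nat_lit 5) (nat_lit 109) (nat_lit 5) (nat_lit 110) (nat_lit 5) (nat_lit 363) (nat_lit 357) (nat_lit 180))))))) (XT.nd (nat_lit 858) (nat_lit 2052) (nat_lit 0) (XT.nd (nat_lit 390) (nat_lit 1368) (nat_lit 0) (XT.nd (nat_lit 156) (nat_lit 0) (nat_lit 76) (XT.nd (nat_lit 78) (nat_lit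 0) (nat_lit 76) (XT.lf (nat_lit 0) (nat_lit 16900260399) (nat_lit 760) (nat_lit 8959835070) (nat_lit 836) (nat_lit 52681062071) (nat_lit 99) (nat_lit 5) (nat_lit 109) (nat_lit 5) (nat_lit 110) (nat_lit 5) (nat_lit 364) (nat_lit 357) (nat_lit 179)) (XT.lf (nat_lit 0) (nat_lit 21598115397) (nat_lit 760) (nat_lit 49783210958) (nat_lit 836) (nat_lit 9245233345) (nat_lit 100) (nat_lit 5) (nat_lit 110) (nat_lit 5) (nat_lit 111) (nat_lit 5) (nat_lit 365) (nat_lit 357) (nat_lit 178))) (XT.nd (nat_lit 78) (nat_lit 0) (nat_lit 0) (XT.lf (nat_lit 0) (nat_lit 27108350627) (nat_lit 760) (nat_lit 10287868117) (nat_lit 836) (nat_lit 45391139675) (nat_lit 100) (nat_lit 5) (nat_lit 110) (nat_lit 5) (nat_lit 111) (nat_lit 5) (nat_lit 366) (nat_lit 357) (nat_lit 177)) (XT.nd (nat_lit 78) (nat_lit 0) (nat_lit 76) (XT.lf (nat_lit 76) (nat_lit 32212720005) (nat_lit 0) (nat_lit 1183665422) (nat_lit 836) (nat_lit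 51634698043) (nat_lit 101) (nat_lit 5) (nat_lit 100) (nat_lit 5) (nat_lit 111) (nat_lit 5) (nat_lit 367) (nat_lit 357) (nat_lit 176)) (XT.lf (nat_lit 0) (nat_lit 40750457299) (nat_lit 760) (nat_lit 10761353344) (nat_lit 76) (nat_lit 35837603112) (nat_lit 101) (nat_lit 5) (nat_lit 111) (nat_lit 5) (nat_lit 102) (nat_lit 5) (nat_lit 368) (nat_lit 357) (nat_lit 175))))) (XT.nd (nat_lit 234) (nat_lit 380) (nat_lit 0) (XT.nd (nat_lit 78) (nat_lit 380) (nat_lit 0) (XT.lf (nat_lit 0) (nat_lit 34482220921) (nat_lit 760) (nat_lit 14547190772) (nat_lit 836) (nat_lit 40726390628) (nat_lit 91) (nat_lit 5) (nat_lit 101) (nat_lit 5) (nat_lit 102) (nat_lit 5) (nat_lit 369) (nat_lit 357) (nat_lit 174)) (XT.nd (nat_lit 78) (nat_lit 380) (nat_lit 0) (XT.lf (nat_lit 0) (nat_lit 58285836380) (nat_lit 836) (nat_lit 10294206568) (nat_lit 76) (nat_lit 23674291917) (nat_lit 91) (nat_lit 5) (nat_lit 102) (nat_lit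 5) (nat_lit 92) (nat_lit 5) (nat_lit 370) (nat_lit 357) (nat_lit 173)) (XT.lf (nat_lit 0) (nat_lit 37908441692) (nat_lit 380) (nat_lit 30926434449) (nat_lit 456) (nat_lit 26001428852) (nat_lit 86) (nat_lit 5) (nat_lit 91) (nat_lit 5) (nat_lit 92) (nat_lit 5) (nat_lit 371) (nat_lit 357) (nat_lit 172)))) (XT.nd (nat_lit 78) (nat_lit 380) (nat_lit 0) (XT.lf (nat_lit 0) (nat_lit 80222463386) (nat_lit 456) (nat_lit 8797866890) (nat_lit 76) (nat_lit 8511489193) (nat_lit 86) (nat_lit 5) (nat_lit 92) (nat_lit 5) (nat_lit 87) (nat_lit 5) (nat_lit 372) (nat_lit 357) (nat_lit 171)) (XT.nd (nat_lit 78) (nat_lit 76) (nat_lit 0) (XT.lf (nat_lit 0) (nat_lit 42594409382) (nat_lit 304) (nat_lit 50756530563) (nat_lit 380) (nat_lit 6952594812) (nat_lit 82) (nat_lit 5) (nat_lit 86) (nat_lit 5) (nat_lit 87) (nat_lit 5) (nat_lit 373) (nat_lit 357) (nat_lit 170)) (XT.lf (nat_lit 0) (nat_lit 3947423063) (nat_lit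 380) (nat_lit 6408845300) (nat_lit 76) (nat_lit 92846958944) (nat_lit 81) (nat_lit 5) (nat_lit 86) (nat_lit 5) (nat_lit 82) (nat_lit 5) (nat_lit 374) (nat_lit 357) (nat_lit 169)))))) (XT.nd (nat_lit 468) (nat_lit 836) (nat_lit 0) (XT.nd (nat_lit 234) (nat_lit 532) (nat_lit 0) (XT.nd (nat_lit 78) (nat_lit 304) (nat_lit 0) (XT.lf (nat_lit 0) (nat_lit 16436895838) (nat_lit 456) (nat_lit 57811733830) (nat_lit 76) (nat_lit 31929671137) (nat_lit 76) (nat_lit 5) (nat_lit 82) (nat_lit 5) (nat_lit 77) (nat_lit 5) (nat_lit 375) (nat_lit 357) (nat_lit 168)) (XT.nd (nat_lit 78) (nat_lit 304) (nat_lit 0) (XT.lf (nat_lit 0) (nat_lit 29830479241) (nat_lit 456) (nat_lit 3365519120) (nat_lit 76) (nat_lit 76092148251) (nat_lit 76) (nat_lit 5) (nat_lit 82) (nat_lit 5) (nat_lit 77) (nat_lit 5) (nat_lit 376) (nat_lit 357) (nat_lit 167)) (XT.lf (nat_lit 0) (nat_lit 44930028308) (nat_lit 380) (nat_lit 57097583416)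 (nat_lit 76) (nat_lit 10474059119) (nat_lit 72) (nat_lit 5) (nat_lit 77) (nat_lit 5) (nat_lit 73) (nat_lit 5) (nat_lit 377) (nat_lit 357) (nat_lit 166)))) (XT.nd (nat_lit 78) (nat_lit 228) (nat_lit 0) (XT.lf (nat_lit 0) (nat_lit 837156912) (nat_lit 304) (nat_lit 60562175668) (nat_lit 380) (nat_lit 54445800256) (nat_lit 68) (nat_lit 5) (nat_lit 72) (nat_lit 5) (nat_lit 73) (nat_lit 5) (nat_lit 378) (nat_lit 357) (nat_lit 165)) (XT.nd (nat_lit 78) (nat_lit 228) (nat_lit 0) (XT.lf (nat_lit 0) (nat_lit 63650439182) (nat_lit 304) (nat_lit 16008230015) (nat_lit 380) (nat_lit 39648770794) (nat_lit 68) (nat_lit 5) (nat_lit 72) (nat_lit 5) (nat_lit 73) (nat_lit 5) (nat_lit 379) (nat_lit 357) (nat_lit 164)) (XT.lf (nat_lit 0) (nat_lit 6384932297) (nat_lit 228) (nat_lit 93025796330) (nat_lit 304) (nat_lit 23503146473) (nat_lit 65) (nat_lit 5) (nat_lit 68) (nat_lit 5) (nat_lit 69) (nat_lit 5) (nat_lit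 380) (nat_lit 357) (nat_lit 163))))) (XT.nd (nat_lit 234) (nat_lit 456) (nat_lit 0) (XT.nd (nat_lit 78) (nat_lit 380) (nat_lit 0) (XT.lf (nat_lit 0) (nat_lit 73189658965) (nat_lit 228) (nat_lit 48161128691) (nat_lit 304) (nat_lit 5289824855) (nat_lit 65) (nat_lit 5) (nat_lit 68) (nat_lit 5) (nat_lit 69) (nat_lit 5) (nat_lit 381) (nat_lit 357) (nat_lit 162)) (XT.nd (nat_lit 78) (nat_lit 0) (nat_lit 0) (XT.lf (nat_lit 0) (nat_lit 12979912457) (nat_lit 304) (nat_lit 613756495) (nat_lit 380) (nat_lit 116939104395) (nat_lit 60) (nat_lit 5) (nat_lit 64) (nat_lit 5) (nat_lit 65) (nat_lit 5) (nat_lit 382) (nat_lit 357) (nat_lit 161)) (XT.lf (nat_lit 0) (nat_lit 34933146197) (nat_lit 380) (nat_lit 50858183733) (nat_lit 76) (nat_lit 48739397623) (nat_lit 60) (nat_lit 5) (nat_lit 65) (nat_lit 5) (nat_lit 61) (nat_lit 5) (nat_lit 383) (nat_lit 357) (nat_lit 160)))) (XT.nd (nat_lit 78) (nat_lit 228)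 (nat_lit 0) (XT.lf (nat_lit 0) (nat_lit 19794248278) (nat_lit 228) (nat_lit 37864112860) (nat_lit 304) (nat_lit 81054280450) (nat_lit 57) (nat_lit 5) (nat_lit 60) (nat_lit 5) (nat_lit 61) (nat_lit 5) (nat_lit 384) (nat_lit 357) (nat_lit 159)) (XT.nd (nat_lit 78) (nat_lit 228) (nat_lit 0) (XT.lf (nat_lit 0) (nat_lit 82589457717) (nat_lit 304) (nat_lit 47524714396) (nat_lit 76) (nat_lit 12935998465) (nat_lit 57) (nat_lit 5) (nat_lit 61) (nat_lit 5) (nat_lit 58) (nat_lit 5) (nat_lit 385) (nat_lit 357) (nat_lit 158)) (XT.lf (nat_lit 0) (nat_lit 27704189834) (nat_lit 228) (nat_lit 82115864371) (nat_lit 304) (nat_lit 37731874838) (nat_lit 54) (nat_lit 5) (nat_lit 57) (nat_lit 5) (nat_lit 58) (nat_lit 5) (nat_lit 386) (nat_lit 357) (nat_lit 157))))))))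
noncomputable def xc227 : XT := (XT.nd (nat_lit 1716) (nat_lit 760) (nat_lit 0) (XT.nd (nat_lit 858) (nat_lit 912) (nat_lit 0) (XT.nd (nat_lit 390) (nat_lit 608) (nat_lit 0) (XT.nd (nat_lit 156) (nat_lit 228) (nat_lit 0) (XT.nd (nat_lit 78) (nat_lit 228) (nat_lit 0) (XT.lf (nat_lit 0) (nat_lit 108344054626) (nat_lit 228) (nat_lit 30872670153) (nat_lit 304) (nat_lit 13021823710) (nat_lit 54) (nat_lit 5) (nat_lit 57) (nat_lit 5) (nat_lit 58) (nat_lit 5) (nat_lit 387) (nat_lit 357) (nat_lit 156)) (XT.lf (nat_lit 0) (nat_lit 13455634409) (nat_lit 228) (nat_lit 120658346071) (nat_lit 76) (nat_lit 22988152664) (nat_lit 51) (nat_lit 5) (nat_lit 54) (nat_lit 5) (nat_lit 52) (nat_lit 5) (nat_lit 388) (nat_lit 357) (nat_lit 155))) (XT.nd (nat_lit 78) (nat_lit 228) (nat_lit 0) (XT.lf (nat_lit 0) (nat_lit 42080722772) (nat_lit 228) (nat_lit 40581027760) (nat_lit 76) (nat_lit 79473404304) (nat_lit 51)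 (nat_lit 5) (nat_lit 54) (nat_lit 5) (nat_lit 52) (nat_lit 5) (nat_lit 389) (nat_lit 357) (nat_lit 154)) (XT.nd (nat_lit 78) (nat_lit 0) (nat_lit 0) (XT.lf (nat_lit 0) (nat_lit 44938044153) (nat_lit 228) (nat_lit 27900349919) (nat_lit 304) (nat_lit 94546367338) (nat_lit 48) (nat_lit 5) (nat_lit 51) (nat_lit 5) (nat_lit 52) (nat_lit 5) (nat_lit 390) (nat_lit 357) (nat_lit 153)) (XT.lf (nat_lit 0) (nat_lit 106294324768) (nat_lit 304) (nat_lit 37194341392) (nat_lit 76) (nat_lit 29350163571) (nat_lit 48) (nat_lit 5) (nat_lit 52) (nat_lit 5) (nat_lit 49) (nat_lit 5) (nat_lit 391) (nat_lit 357) (nat_lit 152))))) (XT.nd (nat_lit 234) (nat_lit 152) (nat_lit 0) (XT.nd (nat_lit 78) (nat_lit 304) (nat_lit 0) (XT.lf (nat_lit 0) (nat_lit 53577695542) (nat_lit 152) (nat_lit 89138975045) (nat_lit 228) (nat_lit 35784250151) (nat_lit 46) (nat_lit 5) (nat_lit 48) (nat_lit 5) (nat_lit 49) (nat_lit 5) (nat_lit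 392) (nat_lit 357) (nat_lit 151)) (XT.nd (nat_lit 78) (nat_lit 304) (nat_lit 0) (XT.lf (nat_lit 0) (nat_lit 150179248456) (nat_lit 152) (nat_lit 31410533640) (nat_lit 228) (nat_lit 2824851971) (nat_lit 46) (nat_lit 5) (nat_lit 48) (nat_lit 5) (nat_lit 49) (nat_lit 5) (nat_lit 393) (nat_lit 357) (nat_lit 150)) (XT.lf (nat_lit 0) (nat_lit 32220766880) (nat_lit 304) (nat_lit 128540207241) (nat_lit 76) (nat_lit 29765473919) (nat_lit 42) (nat_lit 5) (nat_lit 46) (nat_lit 5) (nat_lit 43) (nat_lit 5) (nat_lit 394) (nat_lit 357) (nat_lit 149)))) (XT.nd (nat_lit 78) (nat_lit 152) (nat_lit 0) (XT.lf (nat_lit 0) (nat_lit 70027713689) (nat_lit 304) (nat_lit 33278463208) (nat_lit 76) (nat_lit 93580161499) (nat_lit 42) (nat_lit 5) (nat_lit 46) (nat_lit 5) (nat_lit 43) (nat_lit 5) (nat_lit 395) (nat_lit 357) (nat_lit 148)) (XT.nd (nat_lit 78) (nat_lit 0) (nat_lit 0) (XT.lf (nat_lit 0) (nat_lit 68952927249)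 (nat_lit 152) (nat_lit 41848396798) (nat_lit 228) (nat_lit 92709083570) (nat_lit 40) (nat_lit 5) (nat_lit 42) (nat_lit 5) (nat_lit 43) (nat_lit 5) (nat_lit 396) (nat_lit 357) (nat_lit 147)) (XT.lf (nat_lit 0) (nat_lit 154540345924) (nat_lit 228) (nat_lit 33350002197) (nat_lit 76) (nat_lit 22528995778) (nat_lit 40) (nat_lit 5) (nat_lit 43) (nat_lit 5) (nat_lit 41) (nat_lit 5) (nat_lit 397) (nat_lit 357) (nat_lit 146)))))) (XT.nd (nat_lit 390) (nat_lit 380) (nat_lit 0) (XT.nd (nat_lit 156) (nat_lit 304) (nat_lit 0) (XT.nd (nat_lit 78) (nat_lit 76) (nat_lit 0) (XT.lf (nat_lit 0) (nat_lit 74619757802) (nat_lit 152) (nat_lit 127697405979) (nat_lit 228) (nat_lit 15264021111) (nat_lit 38) (nat_lit 5) (nat_lit 40) (nat_lit 5) (nat_lit 41) (nat_lit 5) (nat_lit 398) (nat_lit 357) (nat_lit 145)) (XT.lf (nat_lit 0) (nat_lit 27079159878) (nat_lit 228) (nat_lit 36364152256) (nat_lit 76) (nat_lit 161607738631)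 (nat_lit 37) (nat_lit 5) (nat_lit 40) (nat_lit 5) (nat_lit 38) (nat_lit 5) (nat_lit 399) (nat_lit 357) (nat_lit 144))) (XT.nd (nat_lit 78) (nat_lit 152) (nat_lit 0) (XT.lf (nat_lit 0) (nat_lit 72327870298) (nat_lit 228) (nat_lit 155105415117) (nat_lit 76) (nat_lit 5383546071) (nat_lit 35) (nat_lit 5) (nat_lit 38) (nat_lit 5) (nat_lit 36) (nat_lit 5) (nat_lit 400) (nat_lit 357) (nat_lit 143)) (XT.nd (nat_lit 78) (nat_lit 152) (nat_lit 0) (XT.lf (nat_lit 0) (nat_lit 121504807243) (nat_lit 228) (nat_lit 43237353095) (nat_lit 76) (nat_lit 76145451469) (nat_lit 35) (nat_lit 5) (nat_lit 38) (nat_lit 5) (nat_lit 36) (nat_lit 5) (nat_lit 401) (nat_lit 357) (nat_lit 142)) (XT.lf (nat_lit 0) (nat_lit 76677963187) (nat_lit 152) (nat_lit 97659591821) (nat_lit 228) (nat_lit 74964528049) (nat_lit 33) (nat_lit 5) (nat_lit 35) (nat_lit 5) (nat_lit 36) (nat_lit 5) (nat_lit 402) (nat_lit 357) (nat_lit 141)))))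 (XT.nd (nat_lit 234) (nat_lit 228) (nat_lit 0) (XT.nd (nat_lit 78) (nat_lit 152) (nat_lit 0) (XT.lf (nat_lit 0) (nat_lit 204089831229) (nat_lit 152) (nat_lit 26454164788) (nat_lit 228) (nat_lit 27556679168) (nat_lit 33) (nat_lit 5) (nat_lit 35) (nat_lit 5) (nat_lit 36) (nat_lit 5) (nat_lit 403) (nat_lit 357) (nat_lit 140)) (XT.nd (nat_lit 78) (nat_lit 0) (nat_lit 0) (XT.lf (nat_lit 0) (nat_lit 23420701409) (nat_lit 152) (nat_lit 195537272009) (nat_lit 76) (nat_lit 48268358153) (nat_lit 31) (nat_lit 5) (nat_lit 33) (nat_lit 5) (nat_lit 32) (nat_lit 5) (nat_lit 404) (nat_lit 357) (nat_lit 139)) (XT.lf (nat_lit 0) (nat_lit 77384053991) (nat_lit 152) (nat_lit 72114172287) (nat_lit 76) (nat_lit 127219297743) (nat_lit 31) (nat_lit 5) (nat_lit 33) (nat_lit 5) (nat_lit 32) (nat_lit 5) (nat_lit 405) (nat_lit 357) (nat_lit 138)))) (XT.nd (nat_lit 78) (nat_lit 76) (nat_lit 0) (XT.lf (nat_lit 0) (nat_lit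 59380327990) (nat_lit 152) (nat_lit 75592166599) (nat_lit 228) (nat_lit 151664435573) (nat_lit 29) (nat_lit 5) (nat_lit 31) (nat_lit 5) (nat_lit 32) (nat_lit 5) (nat_lit 406) (nat_lit 357) (nat_lit 137)) (XT.nd (nat_lit 78) (nat_lit 76) (nat_lit 0) (XT.lf (nat_lit 0) (nat_lit 196712864769) (nat_lit 228) (nat_lit 97089735625) (nat_lit 76) (nat_lit 3186080922) (nat_lit 29) (nat_lit 5) (nat_lit 32) (nat_lit 5) (nat_lit 30) (nat_lit 4) (nat_lit 407) (nat_lit 357) (nat_lit 136)) (XT.lf (nat_lit 0) (nat_lit 39613866045) (nat_lit 76) (nat_lit 223783923720) (nat_lit 152) (nat_lit 44367353526) (nat_lit 28) (nat_lit 5) (nat_lit 29) (nat_lit 5) (nat_lit 30) (nat_lit 4) (nat_lit 408) (nat_lit 357) (nat_lit 135))))))) (XT.nd (nat_lit 858) (nat_lit 152) (nat_lit 0) (XT.nd (nat_lit 390) (nat_lit 304) (nat_lit 0) (XT.nd (nat_lit 156) (nat_lit 76) (nat_lit 0) (XT.nd (nat_lit 78) (nat_lit 152) (nat_lit 0)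 (XT.lf (nat_lit 0) (nat_lit 15548728542) (nat_lit 152) (nat_lit 132725903990) (nat_lit 76) (nat_lit 170711051510) (nat_lit 27) (nat_lit 5) (nat_lit 29) (nat_lit 5) (nat_lit 28) (nat_lit 5) (nat_lit 409) (nat_lit 357) (nat_lit 134)) (XT.lf (nat_lit 0) (nat_lit 9032220952) (nat_lit 152) (nat_lit 68078223474) (nat_lit 228) (nat_lit 253613397602) (nat_lit 25) (nat_lit 5) (nat_lit 27) (nat_lit 5) (nat_lit 28) (nat_lit 5) (nat_lit 410) (nat_lit 357) (nat_lit 133))) (XT.nd (nat_lit 78) (nat_lit 76) (nat_lit 0) (XT.lf (nat_lit 0) (nat_lit 144286522542) (nat_lit 228) (nat_lit 180739247662) (nat_lit 76) (nat_lit 17896323954) (nat_lit 25) (nat_lit 5) (nat_lit 28) (nat_lit 5) (nat_lit 26) (nat_lit 4) (nat_lit 411) (nat_lit 357) (nat_lit 132)) (XT.nd (nat_lit 78) (nat_lit 76) (nat_lit 0) (XT.lf (nat_lit 0) (nat_lit 215937295152) (nat_lit 228) (nat_lit 33855551322) (nat_lit 76) (nat_lit 105881617953)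 (nat_lit 25) (nat_lit 5) (nat_lit 28) (nat_lit 5) (nat_lit 26) (nat_lit 4) (nat_lit 412) (nat_lit 357) (nat_lit 131)) (XT.lf (nat_lit 0) (nat_lit 124352127563) (nat_lit 76) (nat_lit 168759825121) (nat_lit 152) (nat_lit 75855433269) (nat_lit 24) (nat_lit 5) (nat_lit 25) (nat_lit 5) (nat_lit 26) (nat_lit 4) (nat_lit 413) (nat_lit 357) (nat_lit 130))))) (XT.nd (nat_lit 234) (nat_lit 76) (nat_lit 0) (XT.nd (nat_lit 78) (nat_lit 228) (nat_lit 0) (XT.lf (nat_lit 0) (nat_lit 291645335722) (nat_lit 76) (nat_lit 83073231422) (nat_lit 152) (nat_lit 8177725266) (nat_lit 24) (nat_lit 5) (nat_lit 25) (nat_lit 5) (nat_lit 26) (nat_lit 4) (nat_lit 414) (nat_lit 357) (nat_lit 129)) (XT.nd (nat_lit 78) (nat_lit 0) (nat_lit 0) (XT.lf (nat_lit 0) (nat_lit 62122706663) (nat_lit 228) (nat_lit 326484700550) (nat_lit 76) (nat_lit 8802571607) (nat_lit 21) (nat_lit 5) (nat_lit 24) (nat_lit 5) (nat_lit 22) (nat_lit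 4) (nat_lit 415) (nat_lit 357) (nat_lit 128)) (XT.lf (nat_lit 0) (nat_lit 138595773695) (nat_lit 228) (nat_lit 169715216757) (nat_lit 76) (nat_lit 104185034157) (nat_lit 21) (nat_lit 5) (nat_lit 24) (nat_lit 5) (nat_lit 22) (nat_lit 4) (nat_lit 416) (nat_lit 357) (nat_lit 127)))) (XT.nd (nat_lit 78) (nat_lit 76) (nat_lit 0) (XT.lf (nat_lit 0) (nat_lit 218892369563) (nat_lit 228) (nat_lit 5107484394) (nat_lit 76) (nat_lit 204336525004) (nat_lit 21) (nat_lit 5) (nat_lit 24) (nat_lit 5) (nat_lit 22) (nat_lit 4) (nat_lit 417) (nat_lit 357) (nat_lit 126)) (XT.nd (nat_lit 78) (nat_lit 0) (nat_lit 0) (XT.lf (nat_lit 0) (nat_lit 173276344880) (nat_lit 76) (nat_lit 132632661108) (nat_lit 152) (nat_lit 138924484548) (nat_lit 20) (nat_lit 5) (nat_lit 21) (nat_lit 5) (nat_lit 22) (nat_lit 4) (nat_lit 418) (nat_lit 357) (nat_lit 125)) (XT.lf (nat_lit 0) (nat_lit 360756474534) (nat_lit 76) (nat_lit 36606381178)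 (nat_lit 152) (nat_lit 64788282945) (nat_lit 20) (nat_lit 5) (nat_lit 21) (nat_lit 5) (nat_lit 22) (nat_lit 4) (nat_lit 419) (nat_lit 357) (nat_lit 124)))))) (XT.nd (nat_lit 42432) (nat_lit 0) (nat_lit 6080) (XT.nd (nat_lit 42198) (nat_lit 0) (nat_lit 6004) (XT.nd (nat_lit 42042) (nat_lit 0) (nat_lit 5928) (XT.lf (nat_lit 0) (nat_lit 14906270347) (nat_lit 152) (nat_lit 401668459569) (nat_lit 76) (nat_lit 63636279540) (nat_lit 18) (nat_lit 5) (nat_lit 20) (nat_lit 5) (nat_lit 19) (nat_lit 4) (nat_lit 420) (nat_lit 357) (nat_lit 123)) (XT.nd (nat_lit 78) (nat_lit 0) (nat_lit 0) (XT.lf (nat_lit 0) (nat_lit 1508401025) (nat_lit 836) (nat_lit 16522607091) (nat_lit 836) (nat_lit 16522607091) (nat_lit 96) (nat_lit 3) (nat_lit 107) (nat_lit 3) (nat_lit 107) (nat_lit 5) (nat_lit 358) (nat_lit 358) (nat_lit 184)) (XT.lf (nat_lit 0) (nat_lit 3105427313) (nat_lit 836) (nat_lit 674203450) (nat_lit 836)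 (nat_lit 67054603694) (nat_lit 96) (nat_lit 3) (nat_lit 107) (nat_lit 3) (nat_lit 107) (nat_lit 5) (nat_lit 359) (nat_lit 358) (nat_lit 183)))) (XT.nd (nat_lit 78) (nat_lit 0) (nat_lit 0) (XT.lf (nat_lit 0) (nat_lit 4213999728) (nat_lit 760) (nat_lit 38683334022) (nat_lit 836) (nat_lit 29699480208) (nat_lit 97) (nat_lit 5) (nat_lit 107) (nat_lit 5) (nat_lit 108) (nat_lit 5) (nat_lit 360) (nat_lit 358) (nat_lit 182)) (XT.nd (nat_lit 78) (nat_lit 0) (nat_lit 76) (XT.lf (nat_lit 0) (nat_lit 5450761046) (nat_lit 760) (nat_lit 4255630151) (nat_lit 836) (nat_lit 64737494227) (nat_lit 97) (nat_lit 5) (nat_lit 107) (nat_lit 5) (nat_lit 108) (nat_lit 5) (nat_lit 361) (nat_lit 358) (nat_lit 181)) (XT.lf (nat_lit 0) (nat_lit 7664003436) (nat_lit 760) (nat_lit 43811113180) (nat_lit 836) (nat_lit 24862462652) (nat_lit 98) (nat_lit 5) (nat_lit 108) (nat_lit 5) (nat_lit 109) (nat_lit 5) (nat_lit 362)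 (nat_lit 358) (nat_lit 180))))) (XT.nd (nat_lit 234) (nat_lit 0) (nat_lit 152) (XT.nd (nat_lit 78) (nat_lit 0) (nat_lit 76) (XT.lf (nat_lit 0) (nat_lit 10219548026) (nat_lit 760) (nat_lit 7187740222) (nat_lit 836) (nat_lit 60907088464) (nat_lit 98) (nat_lit 5) (nat_lit 108) (nat_lit 5) (nat_lit 109) (nat_lit 5) (nat_lit 363) (nat_lit 358) (nat_lit 179)) (XT.nd (nat_lit 78) (nat_lit 0) (nat_lit 0) (XT.lf (nat_lit 0) (nat_lit 13701449778) (nat_lit 760) (nat_lit 48359683439) (nat_lit 836) (nat_lit 18288952680) (nat_lit 99) (nat_lit 5) (nat_lit 109) (nat_lit 5) (nat_lit 110) (nat_lit 5) (nat_lit 364) (nat_lit 358) (nat_lit 178)) (XT.lf (nat_lit 0) (nat_lit 17765865857) (nat_lit 760) (nat_lit 9392363459) (nat_lit 836) (nat_lit 55308931090) (nat_lit 99) (nat_lit 5) (nat_lit 109) (nat_lit 5) (nat_lit 110) (nat_lit 5) (nat_lit 365) (nat_lit 358) (nat_lit 177)))) (XT.nd (nat_lit 78) (nat_lit 0)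 (nat_lit 0) (XT.lf (nat_lit 0) (nat_lit 22697798173) (nat_lit 760) (nat_lit 52256068528) (nat_lit 836) (nat_lit 9703007952) (nat_lit 100) (nat_lit 5) (nat_lit 110) (nat_lit 5) (nat_lit 111) (nat_lit 5) (nat_lit 366) (nat_lit 358) (nat_lit 176)) (XT.nd (nat_lit 78) (nat_lit 0) (nat_lit 0) (XT.lf (nat_lit 0) (nat_lit 28482603402) (nat_lit 760) (nat_lit 10786734877) (nat_lit 836) (nat_lit 47656423268) (nat_lit 100) (nat_lit 5) (nat_lit 110) (nat_lit 5) (nat_lit 111) (nat_lit 5) (nat_lit 367) (nat_lit 358) (nat_lit 175)) (XT.lf (nat_lit 76) (nat_lit 33838632221) (nat_lit 0) (nat_lit 1245749309) (nat_lit 836) (nat_lit 54197325339) (nat_lit 101) (nat_lit 5) (nat_lit 100) (nat_lit 5) (nat_lit 111) (nat_lit 5) (nat_lit 368) (nat_lit 358) (nat_lit 174))))))))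
noncomputable def xc228 : XT := (XT.nd (nat_lit 1716) (nat_lit 1976) (nat_lit 0) (XT.nd (nat_lit 858) (nat_lit 1292) (nat_lit 0) (XT.nd (nat_lit 390) (nat_lit 1368) (nat_lit 0) (XT.nd (nat_lit 156) (nat_lit 380) (nat_lit 0) (XT.nd (nat_lit 78) (nat_lit 760) (nat_lit 0) (XT.lf (nat_lit 0) (nat_lit 42805248302) (nat_lit 760) (nat_lit 11283942652) (nat_lit 76) (nat_lit 37626809193) (nat_lit 101) (nat_lit 5) (nat_lit 111) (nat_lit 5) (nat_lit 102) (nat_lit 5) (nat_lit 369) (nat_lit 358) (nat_lit 173)) (XT.lf (nat_lit 0) (nat_lit 36221560675) (nat_lit 760) (nat_lit 15276005211) (nat_lit 836) (nat_lit 42745172477) (nat_lit 91) (nat_lit 5) (nat_lit 101) (nat_lit 5) (nat_lit 102) (nat_lit 5) (nat_lit 370) (nat_lit 358) (nat_lit 172))) (XT.nd (nat_lit 78) (nat_lit 380) (nat_lit 0) (XT.lf (nat_lit 0) (nat_lit 61215995717) (nat_lit 836) (nat_lit 10793578328) (nat_lit 76) (nat_lit 24856665242) (nat_lit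 91) (nat_lit 5) (nat_lit 102) (nat_lit 5) (nat_lit 92) (nat_lit 5) (nat_lit 371) (nat_lit 358) (nat_lit 171)) (XT.nd (nat_lit 78) (nat_lit 0) (nat_lit 0) (XT.lf (nat_lit 0) (nat_lit 39818954949) (nat_lit 380) (nat_lit 32473012536) (nat_lit 456) (nat_lit 27285367336) (nat_lit 86) (nat_lit 5) (nat_lit 91) (nat_lit 5) (nat_lit 92) (nat_lit 5) (nat_lit 372) (nat_lit 358) (nat_lit 170)) (XT.lf (nat_lit 0) (nat_lit 84248199446) (nat_lit 456) (nat_lit 9222635856) (nat_lit 76) (nat_lit 8936827310) (nat_lit 86) (nat_lit 5) (nat_lit 92) (nat_lit 5) (nat_lit 87) (nat_lit 5) (nat_lit 373) (nat_lit 358) (nat_lit 169))))) (XT.nd (nat_lit 234) (nat_lit 608) (nat_lit 0) (XT.nd (nat_lit 78) (nat_lit 456) (nat_lit 0) (XT.lf (nat_lit 0) (nat_lit 44739010287) (nat_lit 304) (nat_lit 53293626019) (nat_lit 380) (nat_lit 7285351354) (nat_lit 82) (nat_lit 5) (nat_lit 86) (nat_lit 5) (nat_lit 87) (nat_lit 5) (nat_lit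 374) (nat_lit 358) (nat_lit 168)) (XT.nd (nat_lit 78) (nat_lit 380) (nat_lit 0) (XT.lf (nat_lit 0) (nat_lit 4158505800) (nat_lit 380) (nat_lit 6714647509) (nat_lit 76) (nat_lit 97489534939) (nat_lit 81) (nat_lit 5) (nat_lit 86) (nat_lit 5) (nat_lit 82) (nat_lit 5) (nat_lit 375) (nat_lit 358) (nat_lit 167)) (XT.lf (nat_lit 0) (nat_lit 17272041660) (nat_lit 456) (nat_lit 60687255773) (nat_lit 76) (nat_lit 33527239224) (nat_lit 76) (nat_lit 5) (nat_lit 82) (nat_lit 5) (nat_lit 77) (nat_lit 5) (nat_lit 376) (nat_lit 358) (nat_lit 166)))) (XT.nd (nat_lit 78) (nat_lit 608) (nat_lit 0) (XT.lf (nat_lit 0) (nat_lit 31334670850) (nat_lit 456) (nat_lit 3519447696) (nat_lit 76) (nat_lit 79897788549) (nat_lit 76) (nat_lit 5) (nat_lit 82) (nat_lit 5) (nat_lit 77) (nat_lit 5) (nat_lit 377) (nat_lit 358) (nat_lit 165)) (XT.nd (nat_lit 78) (nat_lit 304) (nat_lit 0) (XT.lf (nat_lit 0) (nat_lit 47188843129)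 (nat_lit 380) (nat_lit 59937748142) (nat_lit 76) (nat_lit 10999534621) (nat_lit 72) (nat_lit 5) (nat_lit 77) (nat_lit 5) (nat_lit 73) (nat_lit 5) (nat_lit 378) (nat_lit 358) (nat_lit 164)) (XT.lf (nat_lit 0) (nat_lit 893491874) (nat_lit 304) (nat_lit 63587760417) (nat_lit 380) (nat_lit 57155527321) (nat_lit 68) (nat_lit 5) (nat_lit 72) (nat_lit 5) (nat_lit 73) (nat_lit 5) (nat_lit 379) (nat_lit 358) (nat_lit 163)))))) (XT.nd (nat_lit 390) (nat_lit 684) (nat_lit 0) (XT.nd (nat_lit 156) (nat_lit 380) (nat_lit 0) (XT.nd (nat_lit 78) (nat_lit 228) (nat_lit 0) (XT.lf (nat_lit 0) (nat_lit 66846748870) (nat_lit 304) (nat_lit 16806237673) (nat_lit 380) (nat_lit 41619244621) (nat_lit 68) (nat_lit 5) (nat_lit 72) (nat_lit 5) (nat_lit 73) (nat_lit 5) (nat_lit 380) (nat_lit 358) (nat_lit 162)) (XT.lf (nat_lit 0) (nat_lit 6718278791) (nat_lit 228) (nat_lit 97674083946) (nat_lit 304) (nat_lit 24666640156)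 (nat_lit 65) (nat_lit 5) (nat_lit 68) (nat_lit 5) (nat_lit 69) (nat_lit 5) (nat_lit 381) (nat_lit 358) (nat_lit 161))) (XT.nd (nat_lit 78) (nat_lit 380) (nat_lit 0) (XT.lf (nat_lit 0) (nat_lit 76862570369) (nat_lit 228) (nat_lit 50566325887) (nat_lit 304) (nat_lit 5543207869) (nat_lit 65) (nat_lit 5) (nat_lit 68) (nat_lit 5) (nat_lit 69) (nat_lit 5) (nat_lit 382) (nat_lit 358) (nat_lit 160)) (XT.nd (nat_lit 78) (nat_lit 0) (nat_lit 0) (XT.lf (nat_lit 0) (nat_lit 13642479632) (nat_lit 304) (nat_lit 641325321) (nat_lit 380) (nat_lit 122775074865) (nat_lit 60) (nat_lit 5) (nat_lit 64) (nat_lit 5) (nat_lit 65) (nat_lit 5) (nat_lit 383) (nat_lit 358) (nat_lit 159)) (XT.lf (nat_lit 0) (nat_lit 36689804697) (nat_lit 380) (nat_lit 53387707155) (nat_lit 76) (nat_lit 51179242906) (nat_lit 60) (nat_lit 5) (nat_lit 65) (nat_lit 5) (nat_lit 61) (nat_lit 5) (nat_lit 384) (nat_lit 358) (nat_lit 158)))))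 (XT.nd (nat_lit 234) (nat_lit 228) (nat_lit 0) (XT.nd (nat_lit 78) (nat_lit 228) (nat_lit 0) (XT.lf (nat_lit 0) (nat_lit 20797130557) (nat_lit 228) (nat_lit 39753879200) (nat_lit 304) (nat_lit 85096768704) (nat_lit 57) (nat_lit 5) (nat_lit 60) (nat_lit 5) (nat_lit 61) (nat_lit 5) (nat_lit 385) (nat_lit 358) (nat_lit 157)) (XT.nd (nat_lit 78) (nat_lit 228) (nat_lit 0) (XT.lf (nat_lit 0) (nat_lit 86728248945) (nat_lit 304) (nat_lit 49887986901) (nat_lit 76) (nat_lit 13585969078) (nat_lit 57) (nat_lit 5) (nat_lit 61) (nat_lit 5) (nat_lit 58) (nat_lit 5) (nat_lit 386) (nat_lit 358) (nat_lit 156)) (XT.lf (nat_lit 0) (nat_lit 29102153457) (nat_lit 228) (nat_lit 86217977198) (nat_lit 304) (nat_lit 39608933282) (nat_lit 54) (nat_lit 5) (nat_lit 57) (nat_lit 5) (nat_lit 58) (nat_lit 5) (nat_lit 387) (nat_lit 358) (nat_lit 155)))) (XT.nd (nat_lit 78) (nat_lit 228) (nat_lit 0) (XT.lf (nat_lit 0) (nat_lit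 113773404149) (nat_lit 228) (nat_lit 32412798525) (nat_lit 304) (nat_lit 13663833659) (nat_lit 54) (nat_lit 5) (nat_lit 57) (nat_lit 5) (nat_lit 58) (nat_lit 5) (nat_lit 388) (nat_lit 358) (nat_lit 154)) (XT.nd (nat_lit 78) (nat_lit 0) (nat_lit 0) (XT.lf (nat_lit 0) (nat_lit 14137036738) (nat_lit 228) (nat_lit 126678642015) (nat_lit 76) (nat_lit 24141123217) (nat_lit 51) (nat_lit 5) (nat_lit 54) (nat_lit 5) (nat_lit 52) (nat_lit 5) (nat_lit 389) (nat_lit 358) (nat_lit 153)) (XT.lf (nat_lit 0) (nat_lit 44192969015) (nat_lit 228) (nat_lit 42598058805) (nat_lit 76) (nat_lit 83450467777) (nat_lit 51) (nat_lit 5) (nat_lit 54) (nat_lit 5) (nat_lit 52) (nat_lit 5) (nat_lit 390) (nat_lit 358) (nat_lit 152))))))) (XT.nd (nat_lit 858) (nat_lit 760) (nat_lit 0) (XT.nd (nat_lit 390) (nat_lit 532) (nat_lit 0) (XT.nd (nat_lit 156) (nat_lit 456) (nat_lit 0) (XT.nd (nat_lit 78) (nat_lit 0) (nat_lit 0)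 (XT.lf (nat_lit 0) (nat_lit 47196772827) (nat_lit 228) (nat_lit 29291544739) (nat_lit 304) (nat_lit 99265275556) (nat_lit 48) (nat_lit 5) (nat_lit 51) (nat_lit 5) (nat_lit 52) (nat_lit 5) (nat_lit 391) (nat_lit 358) (nat_lit 151)) (XT.lf (nat_lit 0) (nat_lit 111616720505) (nat_lit 304) (nat_lit 39042464993) (nat_lit 76) (nat_lit 30821195870) (nat_lit 48) (nat_lit 5) (nat_lit 52) (nat_lit 5) (nat_lit 49) (nat_lit 5) (nat_lit 392) (nat_lit 358) (nat_lit 150))) (XT.nd (nat_lit 78) (nat_lit 304) (nat_lit 0) (XT.lf (nat_lit 0) (nat_lit 56267986796) (nat_lit 152) (nat_lit 93592009216) (nat_lit 228) (nat_lit 37565590574) (nat_lit 46) (nat_lit 5) (nat_lit 48) (nat_lit 5) (nat_lit 49) (nat_lit 5) (nat_lit 393) (nat_lit 358) (nat_lit 149)) (XT.nd (nat_lit 78) (nat_lit 304) (nat_lit 0) (XT.lf (nat_lit 0) (nat_lit 157699074191) (nat_lit 152) (nat_lit 32977332149) (nat_lit 228) (nat_lit 2958597346)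 (nat_lit 46) (nat_lit 5) (nat_lit 48) (nat_lit 5) (nat_lit 49) (nat_lit 5) (nat_lit 394) (nat_lit 358) (nat_lit 148)) (XT.lf (nat_lit 0) (nat_lit 33838947601) (nat_lit 304) (nat_lit 134955989537) (nat_lit 76) (nat_lit 31257471352) (nat_lit 42) (nat_lit 5) (nat_lit 46) (nat_lit 5) (nat_lit 43) (nat_lit 5) (nat_lit 395) (nat_lit 358) (nat_lit 147))))) (XT.nd (nat_lit 234) (nat_lit 380) (nat_lit 0) (XT.nd (nat_lit 78) (nat_lit 152) (nat_lit 0) (XT.lf (nat_lit 0) (nat_lit 73535901637) (nat_lit 304) (nat_lit 34931692973) (nat_lit 76) (nat_lit 98262715990) (nat_lit 42) (nat_lit 5) (nat_lit 46) (nat_lit 5) (nat_lit 43) (nat_lit 5) (nat_lit 396) (nat_lit 358) (nat_lit 146)) (XT.nd (nat_lit 78) (nat_lit 0) (nat_lit 0) (XT.lf (nat_lit 0) (nat_lit 72411094533) (nat_lit 152) (nat_lit 43936938323) (nat_lit 228) (nat_lit 97337558627) (nat_lit 40) (nat_lit 5) (nat_lit 42) (nat_lit 5) (nat_lit 43) (nat_lit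 5) (nat_lit 397) (nat_lit 358) (nat_lit 145)) (XT.lf (nat_lit 0) (nat_lit 162273747181) (nat_lit 228) (nat_lit 35007219559) (nat_lit 76) (nat_lit 23659020981) (nat_lit 40) (nat_lit 5) (nat_lit 43) (nat_lit 5) (nat_lit 41) (nat_lit 5) (nat_lit 398) (nat_lit 358) (nat_lit 144)))) (XT.nd (nat_lit 78) (nat_lit 228) (nat_lit 0) (XT.lf (nat_lit 0) (nat_lit 78360862589) (nat_lit 152) (nat_lit 134078397297) (nat_lit 228) (nat_lit 16020668379) (nat_lit 38) (nat_lit 5) (nat_lit 40) (nat_lit 5) (nat_lit 41) (nat_lit 5) (nat_lit 399) (nat_lit 358) (nat_lit 143)) (XT.nd (nat_lit 78) (nat_lit 152) (nat_lit 0) (XT.lf (nat_lit 0) (nat_lit 28439159801) (nat_lit 228) (nat_lit 38172521350) (nat_lit 76) (nat_lit 169691616451) (nat_lit 37) (nat_lit 5) (nat_lit 40) (nat_lit 5) (nat_lit 38) (nat_lit 5) (nat_lit 400) (nat_lit 358) (nat_lit 142)) (XT.lf (nat_lit 0) (nat_lit 75950228090) (nat_lit 228) (nat_lit 162850766267)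 (nat_lit 76) (nat_lit 5656377053) (nat_lit 35) (nat_lit 5) (nat_lit 38) (nat_lit 5) (nat_lit 36) (nat_lit 5) (nat_lit 401) (nat_lit 358) (nat_lit 141)))))) (XT.nd (nat_lit 468) (nat_lit 304) (nat_lit 0) (XT.nd (nat_lit 234) (nat_lit 304) (nat_lit 0) (XT.nd (nat_lit 78) (nat_lit 152) (nat_lit 0) (XT.lf (nat_lit 0) (nat_lit 127585727870) (nat_lit 228) (nat_lit 45389773506) (nat_lit 76) (nat_lit 79956203737) (nat_lit 35) (nat_lit 5) (nat_lit 38) (nat_lit 5) (nat_lit 36) (nat_lit 5) (nat_lit 402) (nat_lit 358) (nat_lit 140)) (XT.nd (nat_lit 78) (nat_lit 0) (nat_lit 0) (XT.lf (nat_lit 0) (nat_lit 80521156216) (nat_lit 152) (nat_lit 102538831438) (nat_lit 228) (nat_lit 78706918697) (nat_lit 33) (nat_lit 5) (nat_lit 35) (nat_lit 5) (nat_lit 36) (nat_lit 5) (nat_lit 403) (nat_lit 358) (nat_lit 139)) (XT.lf (nat_lit 0) (nat_lit 214303175046) (nat_lit 152) (nat_lit 27773311147) (nat_lit 228) (nat_lit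 28928955264) (nat_lit 33) (nat_lit 5) (nat_lit 35) (nat_lit 5) (nat_lit 36) (nat_lit 5) (nat_lit 404) (nat_lit 358) (nat_lit 138)))) (XT.nd (nat_lit 78) (nat_lit 152) (nat_lit 0) (XT.lf (nat_lit 0) (nat_lit 24597055614) (nat_lit 152) (nat_lit 205305039108) (nat_lit 76) (nat_lit 50685284780) (nat_lit 31) (nat_lit 5) (nat_lit 33) (nat_lit 5) (nat_lit 32) (nat_lit 5) (nat_lit 405) (nat_lit 358) (nat_lit 137)) (XT.nd (nat_lit 78) (nat_lit 152) (nat_lit 0) (XT.lf (nat_lit 0) (nat_lit 81258322533) (nat_lit 152) (nat_lit 75711217567) (nat_lit 76) (nat_lit 133583604268) (nat_lit 31) (nat_lit 5) (nat_lit 33) (nat_lit 5) (nat_lit 32) (nat_lit 5) (nat_lit 406) (nat_lit 358) (nat_lit 136)) (XT.lf (nat_lit 0) (nat_lit 62357867993) (nat_lit 152) (nat_lit 79368209015) (nat_lit 228) (nat_lit 159242449337) (nat_lit 29) (nat_lit 5) (nat_lit 31) (nat_lit 5) (nat_lit 32) (nat_lit 5) (nat_lit 407) (nat_lit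 358) (nat_lit 135))))) (XT.nd (nat_lit 234) (nat_lit 152) (nat_lit 0) (XT.nd (nat_lit 78) (nat_lit 152) (nat_lit 0) (XT.lf (nat_lit 0) (nat_lit 206553282639) (nat_lit 228) (nat_lit 101935919307) (nat_lit 76) (nat_lit 3348672381) (nat_lit 29) (nat_lit 5) (nat_lit 32) (nat_lit 5) (nat_lit 30) (nat_lit 4) (nat_lit 408) (nat_lit 358) (nat_lit 134)) (XT.nd (nat_lit 78) (nat_lit 76) (nat_lit 0) (XT.lf (nat_lit 0) (nat_lit 41602728526) (nat_lit 76) (nat_lit 234969625539) (nat_lit 152) (nat_lit 46580810437) (nat_lit 28) (nat_lit 5) (nat_lit 29) (nat_lit 5) (nat_lit 30) (nat_lit 4) (nat_lit 409) (nat_lit 358) (nat_lit 133)) (XT.lf (nat_lit 0) (nat_lit 16330692198) (nat_lit 152) (nat_lit 139354267320) (nat_lit 76) (nat_lit 179249780356) (nat_lit 27) (nat_lit 5) (nat_lit 29) (nat_lit 5) (nat_lit 28) (nat_lit 5) (nat_lit 410) (nat_lit 358) (nat_lit 132)))) (XT.nd (nat_lit 78) (nat_lit 0) (nat_lit 0)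 (XT.lf (nat_lit 0) (nat_lit 9491635936) (nat_lit 152) (nat_lit 71478764201) (nat_lit 228) (nat_lit 266289410407) (nat_lit 25) (nat_lit 5) (nat_lit 27) (nat_lit 5) (nat_lit 28) (nat_lit 5) (nat_lit 411) (nat_lit 358) (nat_lit 131)) (XT.nd (nat_lit 78) (nat_lit 0) (nat_lit 0) (XT.lf (nat_lit 0) (nat_lit 151505121155) (nat_lit 228) (nat_lit 189768614902) (nat_lit 76) (nat_lit 18794247364) (nat_lit 25) (nat_lit 5) (nat_lit 28) (nat_lit 5) (nat_lit 26) (nat_lit 4) (nat_lit 412) (nat_lit 358) (nat_lit 130)) (XT.lf (nat_lit 0) (nat_lit 226738228944) (nat_lit 228) (nat_lit 35541095418) (nat_lit 76) (nat_lit 111178658100) (nat_lit 25) (nat_lit 5) (nat_lit 28) (nat_lit 5) (nat_lit 26) (nat_lit 4) (nat_lit 413) (nat_lit 358) (nat_lit 129))))))))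
noncomputable def xc229 : XT := (XT.nd (nat_lit 43758) (nat_lit 0) (nat_lit 1672) (XT.nd (nat_lit 42900) (nat_lit 0) (nat_lit 5016) (XT.nd (nat_lit 390) (nat_lit 76) (nat_lit 0) (XT.nd (nat_lit 156) (nat_lit 228) (nat_lit 0) (XT.nd (nat_lit 78) (nat_lit 0) (nat_lit 0) (XT.lf (nat_lit 0) (nat_lit 130576850742) (nat_lit 76) (nat_lit 177194685960) (nat_lit 152) (nat_lit 79644017577) (nat_lit 24) (nat_lit 5) (nat_lit 25) (nat_lit 5) (nat_lit 26) (nat_lit 4) (nat_lit 414) (nat_lit 358) (nat_lit 128)) (XT.lf (nat_lit 0) (nat_lit 306234380414) (nat_lit 76) (nat_lit 87223911643) (nat_lit 152) (nat_lit 8582623572) (nat_lit 24) (nat_lit 5) (nat_lit 25) (nat_lit 5) (nat_lit 26) (nat_lit 4) (nat_lit 415) (nat_lit 358) (nat_lit 127))) (XT.nd (nat_lit 78) (nat_lit 0) (nat_lit 0) (XT.lf (nat_lit 0) (nat_lit 65232671630) (nat_lit 228) (nat_lit 342801996423) (nat_lit 76) (nat_lit 9245616799) (nat_lit 21)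 (nat_lit 5) (nat_lit 24) (nat_lit 5) (nat_lit 22) (nat_lit 4) (nat_lit 416) (nat_lit 358) (nat_lit 126)) (XT.nd (nat_lit 78) (nat_lit 0) (nat_lit 0) (XT.lf (nat_lit 0) (nat_lit 145529209651) (nat_lit 228) (nat_lit 178194368876) (nat_lit 76) (nat_lit 109397063590) (nat_lit 21) (nat_lit 5) (nat_lit 24) (nat_lit 5) (nat_lit 22) (nat_lit 4) (nat_lit 417) (nat_lit 358) (nat_lit 125)) (XT.lf (nat_lit 0) (nat_lit 229840461633) (nat_lit 228) (nat_lit 5356564595) (nat_lit 76) (nat_lit 214555996706) (nat_lit 21) (nat_lit 5) (nat_lit 24) (nat_lit 5) (nat_lit 22) (nat_lit 4) (nat_lit 418) (nat_lit 358) (nat_lit 124))))) (XT.nd (nat_lit 42276) (nat_lit 0) (nat_lit 5776) (XT.nd (nat_lit 78) (nat_lit 0) (nat_lit 0) (XT.lf (nat_lit 0) (nat_lit 181946354626) (nat_lit 76) (nat_lit 139261506526) (nat_lit 152) (nat_lit 145867132435) (nat_lit 20) (nat_lit 5) (nat_lit 21) (nat_lit 5) (nat_lit 22) (nat_lit 4)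 (nat_lit 419) (nat_lit 358) (nat_lit 123)) (XT.nd (nat_lit 42120) (nat_lit 0) (nat_lit 5776) (XT.lf (nat_lit 0) (nat_lit 378800195882) (nat_lit 76) (nat_lit 38434045345) (nat_lit 152) (nat_lit 68024291053) (nat_lit 20) (nat_lit 5) (nat_lit 21) (nat_lit 5) (nat_lit 22) (nat_lit 4) (nat_lit 420) (nat_lit 358) (nat_lit 122)) (XT.lf (nat_lit 0) (nat_lit 1596820117) (nat_lit 836) (nat_lit 17341904848) (nat_lit 836) (nat_lit 17341904848) (nat_lit 96) (nat_lit 3) (nat_lit 107) (nat_lit 3) (nat_lit 107) (nat_lit 5) (nat_lit 359) (nat_lit 359) (nat_lit 182)))) (XT.nd (nat_lit 78) (nat_lit 0) (nat_lit 76) (XT.lf (nat_lit 0) (nat_lit 3285458755) (nat_lit 836) (nat_lit 694899151) (nat_lit 836) (nat_lit 70394319407) (nat_lit 96) (nat_lit 3) (nat_lit 107) (nat_lit 3) (nat_lit 107) (nat_lit 5) (nat_lit 360) (nat_lit 359) (nat_lit 181)) (XT.nd (nat_lit 78) (nat_lit 0) (nat_lit 0) (XT.lf (nat_lit 0) (nat_lit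 4448309283) (nat_lit 760) (nat_lit 40603306351) (nat_lit 836) (nat_lit 31173829151) (nat_lit 97) (nat_lit 5) (nat_lit 107) (nat_lit 5) (nat_lit 108) (nat_lit 5) (nat_lit 361) (nat_lit 359) (nat_lit 180)) (XT.lf (nat_lit 0) (nat_lit 5745784402) (nat_lit 760) (nat_lit 4454893210) (nat_lit 836) (nat_lit 67964249827) (nat_lit 97) (nat_lit 5) (nat_lit 107) (nat_lit 5) (nat_lit 108) (nat_lit 5) (nat_lit 362) (nat_lit 359) (nat_lit 179)))))) (XT.nd (nat_lit 390) (nat_lit 912) (nat_lit 0) (XT.nd (nat_lit 156) (nat_lit 0) (nat_lit 76) (XT.nd (nat_lit 78) (nat_lit 0) (nat_lit 0) (XT.lf (nat_lit 0) (nat_lit 8068695913) (nat_lit 760) (nat_lit 45987130731) (nat_lit 836) (nat_lit 26097530314) (nat_lit 98) (nat_lit 5) (nat_lit 108) (nat_lit 5) (nat_lit 109) (nat_lit 5) (nat_lit 363) (nat_lit 359) (nat_lit 178)) (XT.lf (nat_lit 0) (nat_lit 10750994288) (nat_lit 760) (nat_lit 7533281416) (nat_lit 836) (nat_lit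 63944771010) (nat_lit 98) (nat_lit 5) (nat_lit 108) (nat_lit 5) (nat_lit 109) (nat_lit 5) (nat_lit 364) (nat_lit 359) (nat_lit 177))) (XT.nd (nat_lit 78) (nat_lit 0) (nat_lit 0) (XT.lf (nat_lit 0) (nat_lit 14406134113) (nat_lit 760) (nat_lit 50762940597) (nat_lit 836) (nat_lit 19197510709) (nat_lit 99) (nat_lit 5) (nat_lit 109) (nat_lit 5) (nat_lit 110) (nat_lit 5) (nat_lit 365) (nat_lit 359) (nat_lit 176)) (XT.nd (nat_lit 78) (nat_lit 0) (nat_lit 76) (XT.lf (nat_lit 0) (nat_lit 18672837098) (nat_lit 760) (nat_lit 9847955904) (nat_lit 836) (nat_lit 58068768497) (nat_lit 99) (nat_lit 5) (nat_lit 109) (nat_lit 5) (nat_lit 110) (nat_lit 5) (nat_lit 366) (nat_lit 359) (nat_lit 175)) (XT.lf (nat_lit 0) (nat_lit 23850626409) (nat_lit 760) (nat_lit 54854084673) (nat_lit 836) (nat_lit 10184088455) (nat_lit 100) (nat_lit 5) (nat_lit 110) (nat_lit 5) (nat_lit 111) (nat_lit 5) (nat_lit 367) (nat_lit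 359) (nat_lit 174))))) (XT.nd (nat_lit 234) (nat_lit 1064) (nat_lit 0) (XT.nd (nat_lit 78) (nat_lit 0) (nat_lit 0) (XT.lf (nat_lit 0) (nat_lit 29923817694) (nat_lit 760) (nat_lit 11311988496) (nat_lit 836) (nat_lit 50035368341) (nat_lit 100) (nat_lit 5) (nat_lit 110) (nat_lit 5) (nat_lit 111) (nat_lit 5) (nat_lit 368) (nat_lit 359) (nat_lit 173)) (XT.nd (nat_lit 78) (nat_lit 0) (nat_lit 76) (XT.lf (nat_lit 76) (nat_lit 35544419810) (nat_lit 0) (nat_lit 1310667719) (nat_lit 836) (nat_lit 56889860443) (nat_lit 101) (nat_lit 5) (nat_lit 100) (nat_lit 5) (nat_lit 111) (nat_lit 5) (nat_lit 369) (nat_lit 359) (nat_lit 172)) (XT.lf (nat_lit 0) (nat_lit 44961173428) (nat_lit 760) (nat_lit 11834100457) (nat_lit 76) (nat_lit 39505724188) (nat_lit 101) (nat_lit 5) (nat_lit 111) (nat_lit 5) (nat_lit 102) (nat_lit 5) (nat_lit 370) (nat_lit 359) (nat_lit 171)))) (XT.nd (nat_lit 78) (nat_lit 380) (nat_lit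 0) (XT.lf (nat_lit 0) (nat_lit 38046451596) (nat_lit 760) (nat_lit 16041125109) (nat_lit 836) (nat_lit 44866523905) (nat_lit 91) (nat_lit 5) (nat_lit 101) (nat_lit 5) (nat_lit 102) (nat_lit 5) (nat_lit 371) (nat_lit 359) (nat_lit 170)) (XT.nd (nat_lit 78) (nat_lit 380) (nat_lit 0) (XT.lf (nat_lit 0) (nat_lit 64291187810) (nat_lit 836) (nat_lit 11319344710) (nat_lit 76) (nat_lit 26098281932) (nat_lit 91) (nat_lit 5) (nat_lit 102) (nat_lit 5) (nat_lit 92) (nat_lit 5) (nat_lit 372) (nat_lit 359) (nat_lit 169)) (XT.lf (nat_lit 0) (nat_lit 41823590835) (nat_lit 380) (nat_lit 34096895693) (nat_lit 456) (nat_lit 28635002634) (nat_lit 86) (nat_lit 5) (nat_lit 91) (nat_lit 5) (nat_lit 92) (nat_lit 5) (nat_lit 373) (nat_lit 359) (nat_lit 168))))))) (XT.nd (nat_lit 858) (nat_lit 1368) (nat_lit 0) (XT.nd (nat_lit 390) (nat_lit 1216) (nat_lit 0) (XT.nd (nat_lit 156) (nat_lit 456) (nat_lit 0) (XT.nd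 (nat_lit 78) (nat_lit 304) (nat_lit 0) (XT.lf (nat_lit 0) (nat_lit 88473863740) (nat_lit 456) (nat_lit 9670049393) (nat_lit 76) (nat_lit 9383454306) (nat_lit 86) (nat_lit 5) (nat_lit 92) (nat_lit 5) (nat_lit 87) (nat_lit 5) (nat_lit 374) (nat_lit 359) (nat_lit 167)) (XT.lf (nat_lit 0) (nat_lit 46989457795) (nat_lit 304) (nat_lit 55957644215) (nat_lit 380) (nat_lit 7636128492) (nat_lit 82) (nat_lit 5) (nat_lit 86) (nat_lit 5) (nat_lit 87) (nat_lit 5) (nat_lit 375) (nat_lit 359) (nat_lit 166))) (XT.nd (nat_lit 78) (nat_lit 380) (nat_lit 0) (XT.lf (nat_lit 0) (nat_lit 4378867901) (nat_lit 380) (nat_lit 7037100922) (nat_lit 76) (nat_lit 102364218532) (nat_lit 81) (nat_lit 5) (nat_lit 86) (nat_lit 5) (nat_lit 82) (nat_lit 5) (nat_lit 376) (nat_lit 359) (nat_lit 165)) (XT.nd (nat_lit 78) (nat_lit 0) (nat_lit 0) (XT.lf (nat_lit 0) (nat_lit 18147708169) (nat_lit 456) (nat_lit 63707954391) (nat_lit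 76) (nat_lit 35204584885) (nat_lit 76) (nat_lit 5) (nat_lit 82) (nat_lit 5) (nat_lit 77) (nat_lit 5) (nat_lit 377) (nat_lit 359) (nat_lit 164)) (XT.lf (nat_lit 0) (nat_lit 32912894322) (nat_lit 456) (nat_lit 3682406585) (nat_lit 76) (nat_lit 83893614833) (nat_lit 76) (nat_lit 5) (nat_lit 82) (nat_lit 5) (nat_lit 77) (nat_lit 5) (nat_lit 378) (nat_lit 359) (nat_lit 163))))) (XT.nd (nat_lit 234) (nat_lit 608) (nat_lit 0) (XT.nd (nat_lit 78) (nat_lit 304) (nat_lit 0) (XT.lf (nat_lit 0) (nat_lit 49559453907) (nat_lit 380) (nat_lit 62921289113) (nat_lit 76) (nat_lit 11551119104) (nat_lit 72) (nat_lit 5) (nat_lit 77) (nat_lit 5) (nat_lit 73) (nat_lit 5) (nat_lit 379) (nat_lit 359) (nat_lit 162)) (XT.nd (nat_lit 78) (nat_lit 0) (nat_lit 0) (XT.lf (nat_lit 0) (nat_lit 951297638) (nat_lit 304) (nat_lit 66764859064) (nat_lit 380) (nat_lit 60001908723) (nat_lit 68) (nat_lit 5) (nat_lit 72) (nat_lit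 5) (nat_lit 73) (nat_lit 5) (nat_lit 380) (nat_lit 359) (nat_lit 161)) (XT.lf (nat_lit 0) (nat_lit 70201592191) (nat_lit 304) (nat_lit 17644369201) (nat_lit 380) (nat_lit 43689354505) (nat_lit 68) (nat_lit 5) (nat_lit 72) (nat_lit 5) (nat_lit 73) (nat_lit 5) (nat_lit 381) (nat_lit 359) (nat_lit 160)))) (XT.nd (nat_lit 78) (nat_lit 380) (nat_lit 0) (XT.lf (nat_lit 0) (nat_lit 7066981736) (nat_lit 228) (nat_lit 102555065060) (nat_lit 304) (nat_lit 25889392898) (nat_lit 65) (nat_lit 5) (nat_lit 68) (nat_lit 5) (nat_lit 69) (nat_lit 5) (nat_lit 382) (nat_lit 359) (nat_lit 159)) (XT.nd (nat_lit 78) (nat_lit 380) (nat_lit 0) (XT.lf (nat_lit 0) (nat_lit 80717878893) (nat_lit 228) (nat_lit 53092048769) (nat_lit 304) (nat_lit 5810292771) (nat_lit 65) (nat_lit 5) (nat_lit 68) (nat_lit 5) (nat_lit 69) (nat_lit 5) (nat_lit 383) (nat_lit 359) (nat_lit 158)) (XT.lf (nat_lit 0) (nat_lit 14336913412) (nat_lit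 304) (nat_lit 670562563) (nat_lit 380) (nat_lit 128903865116) (nat_lit 60) (nat_lit 5) (nat_lit 64) (nat_lit 5) (nat_lit 65) (nat_lit 5) (nat_lit 384) (nat_lit 359) (nat_lit 157)))))) (XT.nd (nat_lit 468) (nat_lit 684) (nat_lit 0) (XT.nd (nat_lit 234) (nat_lit 456) (nat_lit 0) (XT.nd (nat_lit 78) (nat_lit 228) (nat_lit 0) (XT.lf (nat_lit 0) (nat_lit 38533366306) (nat_lit 380) (nat_lit 56044951230) (nat_lit 76) (nat_lit 53740813125) (nat_lit 60) (nat_lit 5) (nat_lit 65) (nat_lit 5) (nat_lit 61) (nat_lit 5) (nat_lit 385) (nat_lit 359) (nat_lit 156)) (XT.nd (nat_lit 78) (nat_lit 0) (nat_lit 0) (XT.lf (nat_lit 0) (nat_lit 21848932541) (nat_lit 228) (nat_lit 41738453610) (nat_lit 304) (nat_lit 89342332065) (nat_lit 57) (nat_lit 5) (nat_lit 60) (nat_lit 5) (nat_lit 61) (nat_lit 5) (nat_lit 386) (nat_lit 359) (nat_lit 155)) (XT.lf (nat_lit 0) (nat_lit 91073113402) (nat_lit 304) (nat_lit 52370628228)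 (nat_lit 76) (nat_lit 14268143441) (nat_lit 57) (nat_lit 5) (nat_lit 61) (nat_lit 5) (nat_lit 58) (nat_lit 5) (nat_lit 387) (nat_lit 359) (nat_lit 154)))) (XT.nd (nat_lit 78) (nat_lit 228) (nat_lit 0) (XT.lf (nat_lit 0) (nat_lit 30568829502) (nat_lit 228) (nat_lit 90525537834) (nat_lit 304) (nat_lit 41580731150) (nat_lit 54) (nat_lit 5) (nat_lit 57) (nat_lit 5) (nat_lit 58) (nat_lit 5) (nat_lit 388) (nat_lit 359) (nat_lit 153)) (XT.nd (nat_lit 78) (nat_lit 228) (nat_lit 0) (XT.lf (nat_lit 0) (nat_lit 119473091854) (nat_lit 228) (nat_lit 34030259191) (nat_lit 304) (nat_lit 14338788393) (nat_lit 54) (nat_lit 5) (nat_lit 57) (nat_lit 5) (nat_lit 58) (nat_lit 5) (nat_lit 389) (nat_lit 359) (nat_lit 152)) (XT.lf (nat_lit 0) (nat_lit 14851707721) (nat_lit 228) (nat_lit 133001126170) (nat_lit 76) (nat_lit 25351411052) (nat_lit 51) (nat_lit 5) (nat_lit 54) (nat_lit 5) (nat_lit 52) (nat_lit 5) (nat_lit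 390) (nat_lit 359) (nat_lit 151))))) (XT.nd (nat_lit 234) (nat_lit 456) (nat_lit 0) (XT.nd (nat_lit 78) (nat_lit 228) (nat_lit 0) (XT.lf (nat_lit 0) (nat_lit 46410064271) (nat_lit 228) (nat_lit 44717058940) (nat_lit 76) (nat_lit 87626068951) (nat_lit 51) (nat_lit 5) (nat_lit 54) (nat_lit 5) (nat_lit 52) (nat_lit 5) (nat_lit 391) (nat_lit 359) (nat_lit 150)) (XT.nd (nat_lit 78) (nat_lit 0) (nat_lit 0) (XT.lf (nat_lit 0) (nat_lit 49567338422) (nat_lit 228) (nat_lit 30752654696) (nat_lit 304) (nat_lit 104220911081) (nat_lit 48) (nat_lit 5) (nat_lit 51) (nat_lit 5) (nat_lit 52) (nat_lit 5) (nat_lit 392) (nat_lit 359) (nat_lit 149)) (XT.lf (nat_lit 0) (nat_lit 117204522061) (nat_lit 304) (nat_lit 40984072625) (nat_lit 76) (nat_lit 32365452145) (nat_lit 48) (nat_lit 5) (nat_lit 52) (nat_lit 5) (nat_lit 49) (nat_lit 5) (nat_lit 393) (nat_lit 359) (nat_lit 148)))) (XT.nd (nat_lit 78) (nat_lit 304)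 (nat_lit 0) (XT.lf (nat_lit 0) (nat_lit 59091732147) (nat_lit 152) (nat_lit 98268059035) (nat_lit 228) (nat_lit 39436729890) (nat_lit 46) (nat_lit 5) (nat_lit 48) (nat_lit 5) (nat_lit 49) (nat_lit 5) (nat_lit 394) (nat_lit 359) (nat_lit 147)) (XT.nd (nat_lit 78) (nat_lit 304) (nat_lit 0) (XT.lf (nat_lit 0) (nat_lit 165593881244) (nat_lit 152) (nat_lit 34622817193) (nat_lit 228) (nat_lit 3099727010) (nat_lit 46) (nat_lit 5) (nat_lit 48) (nat_lit 5) (nat_lit 49) (nat_lit 5) (nat_lit 395) (nat_lit 359) (nat_lit 146)) (XT.lf (nat_lit 0) (nat_lit 35537373327) (nat_lit 304) (nat_lit 141693604827) (nat_lit 76) (nat_lit 32823722459) (nat_lit 42) (nat_lit 5) (nat_lit 46) (nat_lit 5) (nat_lit 43) (nat_lit 5) (nat_lit 396) (nat_lit 359) (nat_lit 145))))))))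
noncomputable def xc230 : XT := (XT.nd (nat_lit 1716) (nat_lit 76) (nat_lit 0) (XT.nd (nat_lit 858) (nat_lit 760) (nat_lit 0) (XT.nd (nat_lit 390) (nat_lit 456) (nat_lit 0) (XT.nd (nat_lit 156) (nat_lit 228) (nat_lit 0) (XT.nd (nat_lit 78) (nat_lit 152) (nat_lit 0) (XT.lf (nat_lit 0) (nat_lit 77218866573) (nat_lit 304) (nat_lit 36668578396) (nat_lit 76) (nat_lit 103179068494) (nat_lit 42) (nat_lit 5) (nat_lit 46) (nat_lit 5) (nat_lit 43) (nat_lit 5) (nat_lit 397) (nat_lit 359) (nat_lit 144)) (XT.lf (nat_lit 0) (nat_lit 76041192046) (nat_lit 152) (nat_lit 46130267494) (nat_lit 228) (nat_lit 102198106290) (nat_lit 40) (nat_lit 5) (nat_lit 42) (nat_lit 5) (nat_lit 43) (nat_lit 5) (nat_lit 398) (nat_lit 359) (nat_lit 143))) (XT.nd (nat_lit 78) (nat_lit 228) (nat_lit 0) (XT.lf (nat_lit 0) (nat_lit 170393224981) (nat_lit 228) (nat_lit 36748253782) (nat_lit 76) (nat_lit 24845215036) (nat_lit 40)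 (nat_lit 5) (nat_lit 43) (nat_lit 5) (nat_lit 41) (nat_lit 5) (nat_lit 399) (nat_lit 359) (nat_lit 142)) (XT.nd (nat_lit 78) (nat_lit 76) (nat_lit 0) (XT.lf (nat_lit 0) (nat_lit 82288082042) (nat_lit 152) (nat_lit 140778798811) (nat_lit 228) (nat_lit 16815757319) (nat_lit 38) (nat_lit 5) (nat_lit 40) (nat_lit 5) (nat_lit 41) (nat_lit 5) (nat_lit 400) (nat_lit 359) (nat_lit 141)) (XT.lf (nat_lit 0) (nat_lit 29866597999) (nat_lit 228) (nat_lit 40072223590) (nat_lit 76) (nat_lit 178179363611) (nat_lit 37) (nat_lit 5) (nat_lit 40) (nat_lit 5) (nat_lit 38) (nat_lit 5) (nat_lit 401) (nat_lit 359) (nat_lit 140))))) (XT.nd (nat_lit 234) (nat_lit 152) (nat_lit 0) (XT.nd (nat_lit 78) (nat_lit 152) (nat_lit 0) (XT.lf (nat_lit 0) (nat_lit 79753149271) (nat_lit 228) (nat_lit 170984307205) (nat_lit 76) (nat_lit 5942509901) (nat_lit 35) (nat_lit 5) (nat_lit 38) (nat_lit 5) (nat_lit 36) (nat_lit 5) (nat_lit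 402) (nat_lit 359) (nat_lit 139)) (XT.nd (nat_lit 78) (nat_lit 152) (nat_lit 0) (XT.lf (nat_lit 0) (nat_lit 133970166431) (nat_lit 228) (nat_lit 47650693253) (nat_lit 76) (nat_lit 83957170110) (nat_lit 35) (nat_lit 5) (nat_lit 38) (nat_lit 5) (nat_lit 36) (nat_lit 5) (nat_lit 403) (nat_lit 359) (nat_lit 138)) (XT.lf (nat_lit 0) (nat_lit 84555644746) (nat_lit 152) (nat_lit 107662380743) (nat_lit 228) (nat_lit 82636971430) (nat_lit 33) (nat_lit 5) (nat_lit 35) (nat_lit 5) (nat_lit 36) (nat_lit 5) (nat_lit 404) (nat_lit 359) (nat_lit 137)))) (XT.nd (nat_lit 78) (nat_lit 152) (nat_lit 0) (XT.lf (nat_lit 0) (nat_lit 225026363056) (nat_lit 152) (nat_lit 29158745975) (nat_lit 228) (nat_lit 30370361883) (nat_lit 33) (nat_lit 5) (nat_lit 35) (nat_lit 5) (nat_lit 36) (nat_lit 5) (nat_lit 405) (nat_lit 359) (nat_lit 136)) (XT.nd (nat_lit 78) (nat_lit 0) (nat_lit 0) (XT.lf (nat_lit 0) (nat_lit 25831733005)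 (nat_lit 152) (nat_lit 215562040269) (nat_lit 76) (nat_lit 53222731531) (nat_lit 31) (nat_lit 5) (nat_lit 33) (nat_lit 5) (nat_lit 32) (nat_lit 5) (nat_lit 406) (nat_lit 359) (nat_lit 135)) (XT.lf (nat_lit 0) (nat_lit 85325833527) (nat_lit 152) (nat_lit 79488920545) (nat_lit 76) (nat_lit 140265815445) (nat_lit 31) (nat_lit 5) (nat_lit 33) (nat_lit 5) (nat_lit 32) (nat_lit 5) (nat_lit 407) (nat_lit 359) (nat_lit 134)))))) (XT.nd (nat_lit 390) (nat_lit 304) (nat_lit 0) (XT.nd (nat_lit 156) (nat_lit 304) (nat_lit 0) (XT.nd (nat_lit 78) (nat_lit 0) (nat_lit 0) (XT.lf (nat_lit 0) (nat_lit 65483492552) (nat_lit 152) (nat_lit 83333385076) (nat_lit 228) (nat_lit 167199847982) (nat_lit 29) (nat_lit 5) (nat_lit 31) (nat_lit 5) (nat_lit 32) (nat_lit 5) (nat_lit 408) (nat_lit 359) (nat_lit 133)) (XT.lf (nat_lit 0) (nat_lit 216885277502) (nat_lit 228) (nat_lit 107025184116) (nat_lit 76) (nat_lit 3519087780)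 (nat_lit 29) (nat_lit 5) (nat_lit 32) (nat_lit 5) (nat_lit 30) (nat_lit 4) (nat_lit 409) (nat_lit 359) (nat_lit 132))) (XT.nd (nat_lit 78) (nat_lit 228) (nat_lit 0) (XT.lf (nat_lit 0) (nat_lit 43690274639) (nat_lit 76) (nat_lit 246714937321) (nat_lit 152) (nat_lit 48905396749) (nat_lit 28) (nat_lit 5) (nat_lit 29) (nat_lit 5) (nat_lit 30) (nat_lit 4) (nat_lit 410) (nat_lit 359) (nat_lit 131)) (XT.nd (nat_lit 78) (nat_lit 152) (nat_lit 0) (XT.lf (nat_lit 0) (nat_lit 17151333139) (nat_lit 152) (nat_lit 146314786247) (nat_lit 76) (nat_lit 188215150344) (nat_lit 27) (nat_lit 5) (nat_lit 29) (nat_lit 5) (nat_lit 28) (nat_lit 5) (nat_lit 411) (nat_lit 359) (nat_lit 130)) (XT.lf (nat_lit 0) (nat_lit 9973296132) (nat_lit 152) (nat_lit 75049645315) (nat_lit 228) (nat_lit 279599656823) (nat_lit 25) (nat_lit 5) (nat_lit 27) (nat_lit 5) (nat_lit 28) (nat_lit 5) (nat_lit 412) (nat_lit 359) (nat_lit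 129))))) (XT.nd (nat_lit 234) (nat_lit 228) (nat_lit 0) (XT.nd (nat_lit 78) (nat_lit 76) (nat_lit 0) (XT.lf (nat_lit 0) (nat_lit 159084252484) (nat_lit 228) (nat_lit 199250156628) (nat_lit 76) (nat_lit 19736778064) (nat_lit 25) (nat_lit 5) (nat_lit 28) (nat_lit 5) (nat_lit 26) (nat_lit 4) (nat_lit 413) (nat_lit 359) (nat_lit 128)) (XT.nd (nat_lit 78) (nat_lit 76) (nat_lit 0) (XT.lf (nat_lit 0) (nat_lit 238078831125) (nat_lit 228) (nat_lit 37311589218) (nat_lit 76) (nat_lit 116740275131) (nat_lit 25) (nat_lit 5) (nat_lit 28) (nat_lit 5) (nat_lit 26) (nat_lit 4) (nat_lit 414) (nat_lit 359) (nat_lit 127)) (XT.lf (nat_lit 0) (nat_lit 137112148428) (nat_lit 76) (nat_lit 186051580878) (nat_lit 152) (nat_lit 83622420401) (nat_lit 24) (nat_lit 5) (nat_lit 25) (nat_lit 5) (nat_lit 26) (nat_lit 4) (nat_lit 415) (nat_lit 359) (nat_lit 126)))) (XT.nd (nat_lit 78) (nat_lit 228) (nat_lit 0) (XT.lf (nat_lit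 0) (nat_lit 321552247196) (nat_lit 76) (nat_lit 91582403053) (nat_lit 152) (nat_lit 9008137556) (nat_lit 24) (nat_lit 5) (nat_lit 25) (nat_lit 5) (nat_lit 26) (nat_lit 4) (nat_lit 416) (nat_lit 359) (nat_lit 125)) (XT.nd (nat_lit 78) (nat_lit 0) (nat_lit 0) (XT.lf (nat_lit 0) (nat_lit 68497778803) (nat_lit 228) (nat_lit 359935802226) (nat_lit 76) (nat_lit 9710543091) (nat_lit 21) (nat_lit 5) (nat_lit 24) (nat_lit 5) (nat_lit 22) (nat_lit 4) (nat_lit 417) (nat_lit 359) (nat_lit 124)) (XT.lf (nat_lit 0) (nat_lit 152808978316) (nat_lit 228) (nat_lit 187098093017) (nat_lit 76) (nat_lit 114869436248) (nat_lit 21) (nat_lit 5) (nat_lit 24) (nat_lit 5) (nat_lit 22) (nat_lit 4) (nat_lit 418) (nat_lit 359) (nat_lit 123))))))) (XT.nd (nat_lit 42978) (nat_lit 0) (nat_lit 3952) (XT.nd (nat_lit 42510) (nat_lit 0) (nat_lit 5852) (XT.nd (nat_lit 42276) (nat_lit 0) (nat_lit 5776) (XT.nd (nat_lit 78) (nat_lit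 76) (nat_lit 0) (XT.lf (nat_lit 0) (nat_lit 241335635364) (nat_lit 228) (nat_lit 5618683965) (nat_lit 76) (nat_lit 225286196045) (nat_lit 21) (nat_lit 5) (nat_lit 24) (nat_lit 5) (nat_lit 22) (nat_lit 4) (nat_lit 419) (nat_lit 359) (nat_lit 122)) (XT.lf (nat_lit 0) (nat_lit 191049289139) (nat_lit 76) (nat_lit 146222053383) (nat_lit 152) (nat_lit 153157245210) (nat_lit 20) (nat_lit 5) (nat_lit 21) (nat_lit 5) (nat_lit 22) (nat_lit 4) (nat_lit 420) (nat_lit 359) (nat_lit 121))) (XT.nd (nat_lit 78) (nat_lit 0) (nat_lit 0) (XT.lf (nat_lit 0) (nat_lit 1688451635) (nat_lit 836) (nat_lit 18202802723) (nat_lit 836) (nat_lit 18202802723) (nat_lit 96) (nat_lit 3) (nat_lit 107) (nat_lit 3) (nat_lit 107) (nat_lit 5) (nat_lit 360) (nat_lit 360) (nat_lit 180)) (XT.nd (nat_lit 78) (nat_lit 0) (nat_lit 76) (XT.lf (nat_lit 0) (nat_lit 3472189813) (nat_lit 836) (nat_lit 717839600) (nat_lit 836) (nat_lit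 73902230868) (nat_lit 96) (nat_lit 3) (nat_lit 107) (nat_lit 3) (nat_lit 107) (nat_lit 5) (nat_lit 361) (nat_lit 360) (nat_lit 179)) (XT.lf (nat_lit 0) (nat_lit 4692139322) (nat_lit 760) (nat_lit 42620596955) (nat_lit 836) (nat_lit 32722883359) (nat_lit 97) (nat_lit 5) (nat_lit 107) (nat_lit 5) (nat_lit 108) (nat_lit 5) (nat_lit 362) (nat_lit 360) (nat_lit 178))))) (XT.nd (nat_lit 234) (nat_lit 0) (nat_lit 152) (XT.nd (nat_lit 78) (nat_lit 0) (nat_lit 76) (XT.lf (nat_lit 0) (nat_lit 6053468455) (nat_lit 760) (nat_lit 4665376238) (nat_lit 836) (nat_lit 71353283985) (nat_lit 97) (nat_lit 5) (nat_lit 107) (nat_lit 5) (nat_lit 108) (nat_lit 5) (nat_lit 363) (nat_lit 360) (nat_lit 177)) (XT.nd (nat_lit 78) (nat_lit 0) (nat_lit 0) (XT.lf (nat_lit 0) (nat_lit 8491624862) (nat_lit 760) (nat_lit 48273300775) (nat_lit 836) (nat_lit 27395100280) (nat_lit 98) (nat_lit 5) (nat_lit 108) (nat_lit 5) (nat_lit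 109) (nat_lit 5) (nat_lit 364) (nat_lit 360) (nat_lit 176)) (XT.lf (nat_lit 0) (nat_lit 11307109864) (nat_lit 760) (nat_lit 7897386923) (nat_lit 836) (nat_lit 67135050941) (nat_lit 98) (nat_lit 5) (nat_lit 108) (nat_lit 5) (nat_lit 109) (nat_lit 5) (nat_lit 365) (nat_lit 360) (nat_lit 175)))) (XT.nd (nat_lit 78) (nat_lit 0) (nat_lit 0) (XT.lf (nat_lit 0) (nat_lit 15144229340) (nat_lit 760) (nat_lit 53287729791) (nat_lit 836) (nat_lit 20152044199) (nat_lit 99) (nat_lit 5) (nat_lit 109) (nat_lit 5) (nat_lit 110) (nat_lit 5) (nat_lit 366) (nat_lit 360) (nat_lit 174)) (XT.nd (nat_lit 78) (nat_lit 0) (nat_lit 76) (XT.lf (nat_lit 0) (nat_lit 19623420402) (nat_lit 760) (nat_lit 10327631951) (nat_lit 836) (nat_lit 60967119260) (nat_lit 99) (nat_lit 5) (nat_lit 109) (nat_lit 5) (nat_lit 110) (nat_lit 5) (nat_lit 367) (nat_lit 360) (nat_lit 173)) (XT.lf (nat_lit 0) (nat_lit 25059428321) (nat_lit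 760) (nat_lit 57583376406) (nat_lit 836) (nat_lit 10689601362) (nat_lit 100) (nat_lit 5) (nat_lit 110) (nat_lit 5) (nat_lit 111) (nat_lit 5) (nat_lit 368) (nat_lit 360) (nat_lit 172)))))) (XT.nd (nat_lit 468) (nat_lit 1064) (nat_lit 0) (XT.nd (nat_lit 234) (nat_lit 1064) (nat_lit 0) (XT.nd (nat_lit 78) (nat_lit 0) (nat_lit 0) (XT.lf (nat_lit 0) (nat_lit 31435504380) (nat_lit 760) (nat_lit 11864814111) (nat_lit 836) (nat_lit 52533621029) (nat_lit 100) (nat_lit 5) (nat_lit 110) (nat_lit 5) (nat_lit 111) (nat_lit 5) (nat_lit 369) (nat_lit 360) (nat_lit 171)) (XT.nd (nat_lit 78) (nat_lit 0) (nat_lit 76) (XT.lf (nat_lit 76) (nat_lit 37334208581) (nat_lit 0) (nat_lit 1378587449) (nat_lit 836) (nat_lit 59718633590) (nat_lit 101) (nat_lit 5) (nat_lit 100) (nat_lit 5) (nat_lit 111) (nat_lit 5) (nat_lit 370) (nat_lit 360) (nat_lit 170)) (XT.lf (nat_lit 0) (nat_lit 47223438639) (nat_lit 760) (nat_lit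 12413071395) (nat_lit 76) (nat_lit 41478810429) (nat_lit 101) (nat_lit 5) (nat_lit 111) (nat_lit 5) (nat_lit 102) (nat_lit 5) (nat_lit 371) (nat_lit 360) (nat_lit 169)))) (XT.nd (nat_lit 78) (nat_lit 380) (nat_lit 0) (XT.lf (nat_lit 0) (nat_lit 39961302872) (nat_lit 760) (nat_lit 16844378315) (nat_lit 836) (nat_lit 47095421805) (nat_lit 91) (nat_lit 5) (nat_lit 101) (nat_lit 5) (nat_lit 102) (nat_lit 5) (nat_lit 372) (nat_lit 360) (nat_lit 168)) (XT.nd (nat_lit 78) (nat_lit 380) (nat_lit 0) (XT.lf (nat_lit 0) (nat_lit 67518801446) (nat_lit 836) (nat_lit 11872692867) (nat_lit 76) (nat_lit 27402092561) (nat_lit 91) (nat_lit 5) (nat_lit 102) (nat_lit 5) (nat_lit 92) (nat_lit 5) (nat_lit 373) (nat_lit 360) (nat_lit 167)) (XT.lf (nat_lit 0) (nat_lit 43927185922) (nat_lit 380) (nat_lit 35801951390) (nat_lit 456) (nat_lit 30053480141) (nat_lit 86) (nat_lit 5) (nat_lit 91) (nat_lit 5) (nat_lit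 92) (nat_lit 5) (nat_lit 374) (nat_lit 360) (nat_lit 166))))) (XT.nd (nat_lit 234) (nat_lit 684) (nat_lit 0) (XT.nd (nat_lit 78) (nat_lit 380) (nat_lit 0) (XT.lf (nat_lit 0) (nat_lit 92909578988) (nat_lit 456) (nat_lit 10141109000) (nat_lit 76) (nat_lit 9852432582) (nat_lit 86) (nat_lit 5) (nat_lit 92) (nat_lit 5) (nat_lit 87) (nat_lit 5) (nat_lit 375) (nat_lit 360) (nat_lit 165)) (XT.nd (nat_lit 78) (nat_lit 76) (nat_lit 0) (XT.lf (nat_lit 0) (nat_lit 49351172857) (nat_lit 304) (nat_lit 58754924971) (nat_lit 380) (nat_lit 8005698699) (nat_lit 82) (nat_lit 5) (nat_lit 86) (nat_lit 5) (nat_lit 87) (nat_lit 5) (nat_lit 376) (nat_lit 360) (nat_lit 164)) (XT.lf (nat_lit 0) (nat_lit 4609091851) (nat_lit 380) (nat_lit 7376911558) (nat_lit 76) (nat_lit 107482617074) (nat_lit 81) (nat_lit 5) (nat_lit 86) (nat_lit 5) (nat_lit 82) (nat_lit 5) (nat_lit 377) (nat_lit 360) (nat_lit 163)))) (XT.nd (nat_lit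 78) (nat_lit 304) (nat_lit 0) (XT.lf (nat_lit 0) (nat_lit 19066036367) (nat_lit 456) (nat_lit 66880958304) (nat_lit 76) (nat_lit 36965706374) (nat_lit 76) (nat_lit 5) (nat_lit 82) (nat_lit 5) (nat_lit 77) (nat_lit 5) (nat_lit 378) (nat_lit 360) (nat_lit 162)) (XT.nd (nat_lit 78) (nat_lit 304) (nat_lit 0) (XT.lf (nat_lit 0) (nat_lit 34568960743) (nat_lit 456) (nat_lit 3854723289) (nat_lit 76) (nat_lit 88089145332) (nat_lit 76) (nat_lit 5) (nat_lit 82) (nat_lit 5) (nat_lit 77) (nat_lit 5) (nat_lit 379) (nat_lit 360) (nat_lit 161)) (XT.lf (nat_lit 0) (nat_lit 52047556871) (nat_lit 380) (nat_lit 66055247958) (nat_lit 76) (nat_lit 12130133337) (nat_lit 72) (nat_lit 5) (nat_lit 77) (nat_lit 5) (nat_lit 73) (nat_lit 5) (nat_lit 380) (nat_lit 360) (nat_lit 160))))))))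
noncomputable def xc231 : XT := (XT.nd (nat_lit 1716) (nat_lit 1216) (nat_lit 0) (XT.nd (nat_lit 858) (nat_lit 1064) (nat_lit 0) (XT.nd (nat_lit 390) (nat_lit 684) (nat_lit 0) (XT.nd (nat_lit 156) (nat_lit 608) (nat_lit 0) (XT.nd (nat_lit 78) (nat_lit 0) (nat_lit 0) (XT.lf (nat_lit 0) (nat_lit 1010772879) (nat_lit 304) (nat_lit 70101025487) (nat_lit 380) (nat_lit 62991668591) (nat_lit 68) (nat_lit 5) (nat_lit 72) (nat_lit 5) (nat_lit 73) (nat_lit 5) (nat_lit 381) (nat_lit 360) (nat_lit 159)) (XT.lf (nat_lit 0) (nat_lit 73723014999) (nat_lit 304) (nat_lit 18524610013) (nat_lit 380) (nat_lit 45863978832) (nat_lit 68) (nat_lit 5) (nat_lit 72) (nat_lit 5) (nat_lit 73) (nat_lit 5) (nat_lit 382) (nat_lit 360) (nat_lit 158))) (XT.nd (nat_lit 78) (nat_lit 380) (nat_lit 0) (XT.lf (nat_lit 0) (nat_lit 7431930828) (nat_lit 228) (nat_lit 107680348396) (nat_lit 304) (nat_lit 27174266837) (nat_lit 65)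 (nat_lit 5) (nat_lit 68) (nat_lit 5) (nat_lit 69) (nat_lit 5) (nat_lit 383) (nat_lit 360) (nat_lit 157)) (XT.nd (nat_lit 78) (nat_lit 380) (nat_lit 0) (XT.lf (nat_lit 0) (nat_lit 84764820462) (nat_lit 228) (nat_lit 55744298905) (nat_lit 304) (nat_lit 6091668642) (nat_lit 65) (nat_lit 5) (nat_lit 68) (nat_lit 5) (nat_lit 69) (nat_lit 5) (nat_lit 384) (nat_lit 360) (nat_lit 156)) (XT.lf (nat_lit 0) (nat_lit 15064924432) (nat_lit 304) (nat_lit 701524683) (nat_lit 380) (nat_lit 135340021191) (nat_lit 60) (nat_lit 5) (nat_lit 64) (nat_lit 5) (nat_lit 65) (nat_lit 5) (nat_lit 385) (nat_lit 360) (nat_lit 155))))) (XT.nd (nat_lit 234) (nat_lit 456) (nat_lit 0) (XT.nd (nat_lit 78) (nat_lit 228) (nat_lit 0) (XT.lf (nat_lit 0) (nat_lit 40468262625) (nat_lit 380) (nat_lit 58836186290) (nat_lit 76) (nat_lit 56430219380) (nat_lit 60) (nat_lit 5) (nat_lit 65) (nat_lit 5) (nat_lit 61) (nat_lit 5) (nat_lit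 386) (nat_lit 360) (nat_lit 154)) (XT.nd (nat_lit 78) (nat_lit 0) (nat_lit 0) (XT.lf (nat_lit 0) (nat_lit 22952214048) (nat_lit 228) (nat_lit 43822546767) (nat_lit 304) (nat_lit 93801035903) (nat_lit 57) (nat_lit 5) (nat_lit 60) (nat_lit 5) (nat_lit 61) (nat_lit 5) (nat_lit 387) (nat_lit 360) (nat_lit 153)) (XT.lf (nat_lit 0) (nat_lit 95634435295) (nat_lit 304) (nat_lit 54978494771) (nat_lit 76) (nat_lit 14984159147) (nat_lit 57) (nat_lit 5) (nat_lit 61) (nat_lit 5) (nat_lit 58) (nat_lit 5) (nat_lit 388) (nat_lit 360) (nat_lit 152)))) (XT.nd (nat_lit 78) (nat_lit 228) (nat_lit 0) (XT.lf (nat_lit 0) (nat_lit 32107763832) (nat_lit 228) (nat_lit 95048786858) (nat_lit 304) (nat_lit 43651922994) (nat_lit 54) (nat_lit 5) (nat_lit 57) (nat_lit 5) (nat_lit 58) (nat_lit 5) (nat_lit 389) (nat_lit 360) (nat_lit 151)) (XT.nd (nat_lit 78) (nat_lit 228) (nat_lit 0) (XT.lf (nat_lit 0) (nat_lit 125456739642)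 (nat_lit 228) (nat_lit 35728888467) (nat_lit 304) (nat_lit 15048256657) (nat_lit 54) (nat_lit 5) (nat_lit 57) (nat_lit 5) (nat_lit 58) (nat_lit 5) (nat_lit 390) (nat_lit 360) (nat_lit 150)) (XT.lf (nat_lit 0) (nat_lit 15601385303) (nat_lit 228) (nat_lit 139640798854) (nat_lit 76) (nat_lit 26621912828) (nat_lit 51) (nat_lit 5) (nat_lit 54) (nat_lit 5) (nat_lit 52) (nat_lit 5) (nat_lit 391) (nat_lit 360) (nat_lit 149)))))) (XT.nd (nat_lit 390) (nat_lit 684) (nat_lit 0) (XT.nd (nat_lit 156) (nat_lit 152) (nat_lit 0) (XT.nd (nat_lit 78) (nat_lit 228) (nat_lit 0) (XT.lf (nat_lit 0) (nat_lit 48737321957) (nat_lit 228) (nat_lit 46943022721) (nat_lit 76) (nat_lit 92010164040) (nat_lit 51) (nat_lit 5) (nat_lit 54) (nat_lit 5) (nat_lit 52) (nat_lit 5) (nat_lit 392) (nat_lit 360) (nat_lit 148)) (XT.lf (nat_lit 0) (nat_lit 52055435007) (nat_lit 228) (nat_lit 32287142506) (nat_lit 304) (nat_lit 109425037586)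 (nat_lit 48) (nat_lit 5) (nat_lit 51) (nat_lit 5) (nat_lit 52) (nat_lit 5) (nat_lit 393) (nat_lit 360) (nat_lit 147))) (XT.nd (nat_lit 78) (nat_lit 152) (nat_lit 0) (XT.lf (nat_lit 0) (nat_lit 123071066106) (nat_lit 304) (nat_lit 43023738281) (nat_lit 76) (nat_lit 33986624055) (nat_lit 48) (nat_lit 5) (nat_lit 52) (nat_lit 5) (nat_lit 49) (nat_lit 5) (nat_lit 394) (nat_lit 360) (nat_lit 146)) (XT.nd (nat_lit 78) (nat_lit 0) (nat_lit 0) (XT.lf (nat_lit 0) (nat_lit 62055702891) (nat_lit 152) (nat_lit 103178241450) (nat_lit 228) (nat_lit 41402090001) (nat_lit 46) (nat_lit 5) (nat_lit 48) (nat_lit 5) (nat_lit 49) (nat_lit 5) (nat_lit 395) (nat_lit 360) (nat_lit 145)) (XT.lf (nat_lit 0) (nat_lit 173882512579) (nat_lit 152) (nat_lit 36350890875) (nat_lit 228) (nat_lit 3248545377) (nat_lit 46) (nat_lit 5) (nat_lit 48) (nat_lit 5) (nat_lit 49) (nat_lit 5) (nat_lit 396) (nat_lit 360) (nat_lit 144)))))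 (XT.nd (nat_lit 234) (nat_lit 228) (nat_lit 0) (XT.nd (nat_lit 78) (nat_lit 152) (nat_lit 0) (XT.lf (nat_lit 0) (nat_lit 37320118045) (nat_lit 304) (nat_lit 148769047711) (nat_lit 76) (nat_lit 34467972110) (nat_lit 42) (nat_lit 5) (nat_lit 46) (nat_lit 5) (nat_lit 43) (nat_lit 5) (nat_lit 397) (nat_lit 360) (nat_lit 143)) (XT.nd (nat_lit 78) (nat_lit 152) (nat_lit 0) (XT.lf (nat_lit 0) (nat_lit 81085406141) (nat_lit 304) (nat_lit 38493209832) (nat_lit 76) (nat_lit 108340939565) (nat_lit 42) (nat_lit 5) (nat_lit 46) (nat_lit 5) (nat_lit 43) (nat_lit 5) (nat_lit 398) (nat_lit 360) (nat_lit 142)) (XT.lf (nat_lit 0) (nat_lit 79851907237) (nat_lit 152) (nat_lit 48433590169) (nat_lit 228) (nat_lit 107302269864) (nat_lit 40) (nat_lit 5) (nat_lit 42) (nat_lit 5) (nat_lit 43) (nat_lit 5) (nat_lit 399) (nat_lit 360) (nat_lit 141)))) (XT.nd (nat_lit 78) (nat_lit 228) (nat_lit 0) (XT.lf (nat_lit 0)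 (nat_lit 178918138330) (nat_lit 228) (nat_lit 38577206829) (nat_lit 76) (nat_lit 26090417289) (nat_lit 40) (nat_lit 5) (nat_lit 43) (nat_lit 5) (nat_lit 41) (nat_lit 5) (nat_lit 400) (nat_lit 360) (nat_lit 140)) (XT.nd (nat_lit 78) (nat_lit 76) (nat_lit 0) (XT.lf (nat_lit 0) (nat_lit 86410809341) (nat_lit 152) (nat_lit 147814547505) (nat_lit 228) (nat_lit 17651153368) (nat_lit 38) (nat_lit 5) (nat_lit 40) (nat_lit 5) (nat_lit 41) (nat_lit 5) (nat_lit 401) (nat_lit 360) (nat_lit 139)) (XT.lf (nat_lit 0) (nat_lit 31364898609) (nat_lit 228) (nat_lit 42067740594) (nat_lit 76) (nat_lit 187091203754) (nat_lit 37) (nat_lit 5) (nat_lit 40) (nat_lit 5) (nat_lit 38) (nat_lit 5) (nat_lit 402) (nat_lit 360) (nat_lit 138))))))) (XT.nd (nat_lit 858) (nat_lit 304) (nat_lit 0) (XT.nd (nat_lit 390) (nat_lit 456) (nat_lit 0) (XT.nd (nat_lit 156) (nat_lit 304) (nat_lit 0) (XT.nd (nat_lit 78) (nat_lit 0) (nat_lit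 0) (XT.lf (nat_lit 0) (nat_lit 83745713560) (nat_lit 228) (nat_lit 179525361681) (nat_lit 76) (nat_lit 6242641287) (nat_lit 35) (nat_lit 5) (nat_lit 38) (nat_lit 5) (nat_lit 36) (nat_lit 5) (nat_lit 403) (nat_lit 360) (nat_lit 137)) (XT.lf (nat_lit 0) (nat_lit 140673347920) (nat_lit 228) (nat_lit 50025455645) (nat_lit 76) (nat_lit 88157891368) (nat_lit 35) (nat_lit 5) (nat_lit 38) (nat_lit 5) (nat_lit 36) (nat_lit 5) (nat_lit 404) (nat_lit 360) (nat_lit 136))) (XT.nd (nat_lit 78) (nat_lit 152) (nat_lit 0) (XT.lf (nat_lit 0) (nat_lit 88791073895) (nat_lit 152) (nat_lit 113042422895) (nat_lit 228) (nat_lit 86764018911) (nat_lit 33) (nat_lit 5) (nat_lit 35) (nat_lit 5) (nat_lit 36) (nat_lit 5) (nat_lit 405) (nat_lit 360) (nat_lit 135)) (XT.nd (nat_lit 78) (nat_lit 152) (nat_lit 0) (XT.lf (nat_lit 0) (nat_lit 236284963982) (nat_lit 152) (nat_lit 30613752906) (nat_lit 228) (nat_lit 31884307511)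 (nat_lit 33) (nat_lit 5) (nat_lit 35) (nat_lit 5) (nat_lit 36) (nat_lit 5) (nat_lit 406) (nat_lit 360) (nat_lit 134)) (XT.lf (nat_lit 0) (nat_lit 27127695720) (nat_lit 152) (nat_lit 226332658568) (nat_lit 76) (nat_lit 55886754740) (nat_lit 31) (nat_lit 5) (nat_lit 33) (nat_lit 5) (nat_lit 32) (nat_lit 5) (nat_lit 407) (nat_lit 360) (nat_lit 133))))) (XT.nd (nat_lit 234) (nat_lit 304) (nat_lit 0) (XT.nd (nat_lit 78) (nat_lit 152) (nat_lit 0) (XT.lf (nat_lit 0) (nat_lit 89596292884) (nat_lit 152) (nat_lit 83456239226) (nat_lit 76) (nat_lit 147281855391) (nat_lit 31) (nat_lit 5) (nat_lit 33) (nat_lit 5) (nat_lit 32) (nat_lit 5) (nat_lit 408) (nat_lit 360) (nat_lit 132)) (XT.nd (nat_lit 78) (nat_lit 0) (nat_lit 0) (XT.lf (nat_lit 0) (nat_lit 68764679570) (nat_lit 152) (nat_lit 87497120642) (nat_lit 228) (nat_lit 175555555735) (nat_lit 29) (nat_lit 5) (nat_lit 31) (nat_lit 5) (nat_lit 32) (nat_lit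 5) (nat_lit 409) (nat_lit 360) (nat_lit 131)) (XT.lf (nat_lit 0) (nat_lit 227733469477) (nat_lit 228) (nat_lit 112369612341) (nat_lit 76) (nat_lit 3697746731) (nat_lit 29) (nat_lit 5) (nat_lit 32) (nat_lit 5) (nat_lit 30) (nat_lit 4) (nat_lit 410) (nat_lit 360) (nat_lit 130)))) (XT.nd (nat_lit 78) (nat_lit 228) (nat_lit 0) (XT.lf (nat_lit 0) (nat_lit 45881509175) (nat_lit 76) (nat_lit 259047809362) (nat_lit 152) (nat_lit 51346626487) (nat_lit 28) (nat_lit 5) (nat_lit 29) (nat_lit 5) (nat_lit 30) (nat_lit 4) (nat_lit 411) (nat_lit 360) (nat_lit 129)) (XT.nd (nat_lit 78) (nat_lit 152) (nat_lit 0) (XT.lf (nat_lit 0) (nat_lit 18012624359) (nat_lit 152) (nat_lit 153623999991) (nat_lit 76) (nat_lit 197628520987) (nat_lit 27) (nat_lit 5) (nat_lit 29) (nat_lit 5) (nat_lit 28) (nat_lit 5) (nat_lit 412) (nat_lit 360) (nat_lit 128)) (XT.lf (nat_lit 0) (nat_lit 10478381256) (nat_lit 152) (nat_lit 78799354705)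 (nat_lit 228) (nat_lit 293575808276) (nat_lit 25) (nat_lit 5) (nat_lit 27) (nat_lit 5) (nat_lit 28) (nat_lit 5) (nat_lit 413) (nat_lit 360) (nat_lit 127)))))) (XT.nd (nat_lit 42744) (nat_lit 0) (nat_lit 5700) (XT.nd (nat_lit 234) (nat_lit 228) (nat_lit 0) (XT.nd (nat_lit 78) (nat_lit 76) (nat_lit 0) (XT.lf (nat_lit 0) (nat_lit 167041980093) (nat_lit 228) (nat_lit 209206415916) (nat_lit 76) (nat_lit 20726173278) (nat_lit 25) (nat_lit 5) (nat_lit 28) (nat_lit 5) (nat_lit 26) (nat_lit 4) (nat_lit 414) (nat_lit 360) (nat_lit 126)) (XT.nd (nat_lit 78) (nat_lit 76) (nat_lit 0) (XT.lf (nat_lit 0) (nat_lit 249986120286) (nat_lit 228) (nat_lit 39171217685) (nat_lit 76) (nat_lit 122579723470) (nat_lit 25) (nat_lit 5) (nat_lit 28) (nat_lit 5) (nat_lit 26) (nat_lit 4) (nat_lit 415) (nat_lit 360) (nat_lit 125)) (XT.lf (nat_lit 0) (nat_lit 143973610859) (nat_lit 76) (nat_lit 195351584520) (nat_lit 152)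 (nat_lit 87800096474) (nat_lit 24) (nat_lit 5) (nat_lit 25) (nat_lit 5) (nat_lit 26) (nat_lit 4) (nat_lit 416) (nat_lit 360) (nat_lit 124)))) (XT.nd (nat_lit 78) (nat_lit 228) (nat_lit 0) (XT.lf (nat_lit 0) (nat_lit 337635435755) (nat_lit 76) (nat_lit 96159070442) (nat_lit 152) (nat_lit 9455263531) (nat_lit 24) (nat_lit 5) (nat_lit 25) (nat_lit 5) (nat_lit 26) (nat_lit 4) (nat_lit 417) (nat_lit 360) (nat_lit 123)) (XT.nd (nat_lit 78) (nat_lit 0) (nat_lit 0) (XT.lf (nat_lit 0) (nat_lit 71925818393) (nat_lit 228) (nat_lit 377926883477) (nat_lit 76) (nat_lit 10198469749) (nat_lit 21) (nat_lit 5) (nat_lit 24) (nat_lit 5) (nat_lit 22) (nat_lit 4) (nat_lit 418) (nat_lit 360) (nat_lit 122)) (XT.lf (nat_lit 0) (nat_lit 160452427850) (nat_lit 228) (nat_lit 196447560658) (nat_lit 76) (nat_lit 120615193302) (nat_lit 21) (nat_lit 5) (nat_lit 24) (nat_lit 5) (nat_lit 22) (nat_lit 4) (nat_lit 419) (nat_lit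 360) (nat_lit 121))))) (XT.nd (nat_lit 234) (nat_lit 0) (nat_lit 76) (XT.nd (nat_lit 78) (nat_lit 0) (nat_lit 0) (XT.lf (nat_lit 0) (nat_lit 1783568560) (nat_lit 836) (nat_lit 19107321665) (nat_lit 836) (nat_lit 19107321665) (nat_lit 96) (nat_lit 3) (nat_lit 107) (nat_lit 3) (nat_lit 107) (nat_lit 5) (nat_lit 361) (nat_lit 361) (nat_lit 178)) (XT.nd (nat_lit 78) (nat_lit 0) (nat_lit 76) (XT.lf (nat_lit 0) (nat_lit 3666169480) (nat_lit 836) (nat_lit 743024542) (nat_lit 836) (nat_lit 77586635374) (nat_lit 96) (nat_lit 3) (nat_lit 107) (nat_lit 3) (nat_lit 107) (nat_lit 5) (nat_lit 362) (nat_lit 361) (nat_lit 177)) (XT.lf (nat_lit 0) (nat_lit 4946169939) (nat_lit 760) (nat_lit 44739949058) (nat_lit 836) (nat_lit 34350286257) (nat_lit 97) (nat_lit 5) (nat_lit 107) (nat_lit 5) (nat_lit 108) (nat_lit 5) (nat_lit 363) (nat_lit 361) (nat_lit 176)))) (XT.nd (nat_lit 78) (nat_lit 0) (nat_lit 76)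 (XT.lf (nat_lit 0) (nat_lit 6374640592) (nat_lit 760) (nat_lit 4887523388) (nat_lit 836) (nat_lit 74912623166) (nat_lit 97) (nat_lit 5) (nat_lit 107) (nat_lit 5) (nat_lit 108) (nat_lit 5) (nat_lit 364) (nat_lit 361) (nat_lit 175)) (XT.nd (nat_lit 78) (nat_lit 0) (nat_lit 0) (XT.lf (nat_lit 0) (nat_lit 8933887877) (nat_lit 760) (nat_lit 50675005276) (nat_lit 836) (nat_lit 28758228037) (nat_lit 98) (nat_lit 5) (nat_lit 108) (nat_lit 5) (nat_lit 109) (nat_lit 5) (nat_lit 365) (nat_lit 361) (nat_lit 174)) (XT.lf (nat_lit 0) (nat_lit 11889305140) (nat_lit 760) (nat_lit 8280865281) (nat_lit 836) (nat_lit 70485491816) (nat_lit 98) (nat_lit 5) (nat_lit 108) (nat_lit 5) (nat_lit 109) (nat_lit 5) (nat_lit 366) (nat_lit 361) (nat_lit 173))))))))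
noncomputable def xc232 : XT := (XT.nd (nat_lit 1716) (nat_lit 2128) (nat_lit 0) (XT.nd (nat_lit 858) (nat_lit 1900) (nat_lit 0) (XT.nd (nat_lit 390) (nat_lit 1292) (nat_lit 0) (XT.nd (nat_lit 156) (nat_lit 0) (nat_lit 76) (XT.nd (nat_lit 78) (nat_lit 0) (nat_lit 0) (XT.lf (nat_lit 0) (nat_lit 15917575521) (nat_lit 760) (nat_lit 55940000329) (nat_lit 836) (nat_lit 21154801017) (nat_lit 99) (nat_lit 5) (nat_lit 109) (nat_lit 5) (nat_lit 110) (nat_lit 5) (nat_lit 367) (nat_lit 361) (nat_lit 172)) (XT.lf (nat_lit 0) (nat_lit 20619957816) (nat_lit 760) (nat_lit 10832474547) (nat_lit 836) (nat_lit 64010860564) (nat_lit 99) (nat_lit 5) (nat_lit 109) (nat_lit 5) (nat_lit 110) (nat_lit 5) (nat_lit 368) (nat_lit 361) (nat_lit 171))) (XT.nd (nat_lit 78) (nat_lit 0) (nat_lit 0) (XT.lf (nat_lit 0) (nat_lit 26327157644) (nat_lit 760) (nat_lit 60450379694) (nat_lit 836) (nat_lit 11220733118) (nat_lit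 100) (nat_lit 5) (nat_lit 110) (nat_lit 5) (nat_lit 111) (nat_lit 5) (nat_lit 369) (nat_lit 361) (nat_lit 170)) (XT.nd (nat_lit 78) (nat_lit 0) (nat_lit 0) (XT.lf (nat_lit 0) (nat_lit 33021334748) (nat_lit 760) (nat_lit 12446468594) (nat_lit 836) (nat_lit 55157113211) (nat_lit 100) (nat_lit 5) (nat_lit 110) (nat_lit 5) (nat_lit 111) (nat_lit 5) (nat_lit 370) (nat_lit 361) (nat_lit 169)) (XT.lf (nat_lit 76) (nat_lit 39212318358) (nat_lit 0) (nat_lit 1449681306) (nat_lit 836) (nat_lit 62690306879) (nat_lit 101) (nat_lit 5) (nat_lit 100) (nat_lit 5) (nat_lit 111) (nat_lit 5) (nat_lit 371) (nat_lit 361) (nat_lit 168))))) (XT.nd (nat_lit 234) (nat_lit 684) (nat_lit 0) (XT.nd (nat_lit 78) (nat_lit 760) (nat_lit 0) (XT.lf (nat_lit 0) (nat_lit 49597496322) (nat_lit 760) (nat_lit 13022174775) (nat_lit 76) (nat_lit 43550755515) (nat_lit 101) (nat_lit 5) (nat_lit 111) (nat_lit 5) (nat_lit 102) (nat_lit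 5) (nat_lit 372) (nat_lit 361) (nat_lit 167)) (XT.nd (nat_lit 78) (nat_lit 0) (nat_lit 0) (XT.lf (nat_lit 0) (nat_lit 41970731912) (nat_lit 760) (nat_lit 17687682900) (nat_lit 836) (nat_lit 49437106006) (nat_lit 91) (nat_lit 5) (nat_lit 101) (nat_lit 5) (nat_lit 102) (nat_lit 5) (nat_lit 373) (nat_lit 361) (nat_lit 166)) (XT.lf (nat_lit 0) (nat_lit 70906582105) (nat_lit 836) (nat_lit 12454881633) (nat_lit 76) (nat_lit 28771196312) (nat_lit 91) (nat_lit 5) (nat_lit 102) (nat_lit 5) (nat_lit 92) (nat_lit 5) (nat_lit 374) (nat_lit 361) (nat_lit 165)))) (XT.nd (nat_lit 78) (nat_lit 304) (nat_lit 0) (XT.lf (nat_lit 0) (nat_lit 46134806484) (nat_lit 380) (nat_lit 37592240262) (nat_lit 456) (nat_lit 31544115486) (nat_lit 86) (nat_lit 5) (nat_lit 91) (nat_lit 5) (nat_lit 92) (nat_lit 5) (nat_lit 375) (nat_lit 361) (nat_lit 164)) (XT.nd (nat_lit 78) (nat_lit 304) (nat_lit 0) (XT.lf (nat_lit 0) (nat_lit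 97565962301) (nat_lit 456) (nat_lit 10636878406) (nat_lit 76) (nat_lit 10344877849) (nat_lit 86) (nat_lit 5) (nat_lit 92) (nat_lit 5) (nat_lit 87) (nat_lit 5) (nat_lit 376) (nat_lit 361) (nat_lit 163)) (XT.lf (nat_lit 0) (nat_lit 51829835510) (nat_lit 304) (nat_lit 61692125682) (nat_lit 380) (nat_lit 8394885025) (nat_lit 82) (nat_lit 5) (nat_lit 86) (nat_lit 5) (nat_lit 87) (nat_lit 5) (nat_lit 377) (nat_lit 361) (nat_lit 162)))))) (XT.nd (nat_lit 390) (nat_lit 836) (nat_lit 0) (XT.nd (nat_lit 156) (nat_lit 608) (nat_lit 0) (XT.nd (nat_lit 78) (nat_lit 380) (nat_lit 0) (XT.lf (nat_lit 0) (nat_lit 4849778238) (nat_lit 380) (nat_lit 7734832500) (nat_lit 76) (nat_lit 112856918100) (nat_lit 81) (nat_lit 5) (nat_lit 86) (nat_lit 5) (nat_lit 82) (nat_lit 5) (nat_lit 378) (nat_lit 361) (nat_lit 161)) (XT.lf (nat_lit 0) (nat_lit 20029263618) (nat_lit 456) (nat_lit 70213764672) (nat_lit 76) (nat_lit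 38814800985) (nat_lit 76) (nat_lit 5) (nat_lit 82) (nat_lit 5) (nat_lit 77) (nat_lit 5) (nat_lit 379) (nat_lit 361) (nat_lit 160))) (XT.nd (nat_lit 78) (nat_lit 608) (nat_lit 0) (XT.lf (nat_lit 0) (nat_lit 36306861574) (nat_lit 456) (nat_lit 4036753218) (nat_lit 76) (nat_lit 92494373354) (nat_lit 76) (nat_lit 5) (nat_lit 82) (nat_lit 5) (nat_lit 77) (nat_lit 5) (nat_lit 380) (nat_lit 361) (nat_lit 159)) (XT.nd (nat_lit 78) (nat_lit 304) (nat_lit 0) (XT.lf (nat_lit 0) (nat_lit 54659123167) (nat_lit 380) (nat_lit 69347030210) (nat_lit 76) (nat_lit 12737962705) (nat_lit 72) (nat_lit 5) (nat_lit 77) (nat_lit 5) (nat_lit 73) (nat_lit 5) (nat_lit 381) (nat_lit 361) (nat_lit 158)) (XT.lf (nat_lit 0) (nat_lit 1072114569) (nat_lit 304) (nat_lit 73604193288) (nat_lit 380) (nat_lit 66131877355) (nat_lit 68) (nat_lit 5) (nat_lit 72) (nat_lit 5) (nat_lit 73) (nat_lit 5) (nat_lit 382) (nat_lit 361) (nat_lit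 157))))) (XT.nd (nat_lit 234) (nat_lit 608) (nat_lit 0) (XT.nd (nat_lit 78) (nat_lit 228) (nat_lit 0) (XT.lf (nat_lit 0) (nat_lit 77419454365) (nat_lit 304) (nat_lit 19449046730) (nat_lit 380) (nat_lit 48148249521) (nat_lit 68) (nat_lit 5) (nat_lit 72) (nat_lit 5) (nat_lit 73) (nat_lit 5) (nat_lit 383) (nat_lit 361) (nat_lit 156)) (XT.nd (nat_lit 78) (nat_lit 0) (nat_lit 0) (XT.lf (nat_lit 0) (nat_lit 7814048916) (nat_lit 228) (nat_lit 113062125528) (nat_lit 304) (nat_lit 28524276591) (nat_lit 65) (nat_lit 5) (nat_lit 68) (nat_lit 5) (nat_lit 69) (nat_lit 5) (nat_lit 384) (nat_lit 361) (nat_lit 155)) (XT.lf (nat_lit 0) (nat_lit 89013082006) (nat_lit 228) (nat_lit 58529380243) (nat_lit 304) (nat_lit 6387962943) (nat_lit 65) (nat_lit 5) (nat_lit 68) (nat_lit 5) (nat_lit 69) (nat_lit 5) (nat_lit 385) (nat_lit 361) (nat_lit 154)))) (XT.nd (nat_lit 78) (nat_lit 228) (nat_lit 0) (XT.lf (nat_lit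 0) (nat_lit 15828297954) (nat_lit 304) (nat_lit 734273472) (nat_lit 380) (nat_lit 142098825261) (nat_lit 60) (nat_lit 5) (nat_lit 64) (nat_lit 5) (nat_lit 65) (nat_lit 5) (nat_lit 386) (nat_lit 361) (nat_lit 153)) (XT.nd (nat_lit 78) (nat_lit 228) (nat_lit 0) (XT.lf (nat_lit 0) (nat_lit 42499138799) (nat_lit 380) (nat_lit 61768006941) (nat_lit 76) (nat_lit 59253876018) (nat_lit 60) (nat_lit 5) (nat_lit 65) (nat_lit 5) (nat_lit 61) (nat_lit 5) (nat_lit 387) (nat_lit 361) (nat_lit 152)) (XT.lf (nat_lit 0) (nat_lit 24109652307) (nat_lit 228) (nat_lit 46011107644) (nat_lit 304) (nat_lit 98483457072) (nat_lit 57) (nat_lit 5) (nat_lit 60) (nat_lit 5) (nat_lit 61) (nat_lit 5) (nat_lit 388) (nat_lit 361) (nat_lit 151))))))) (XT.nd (nat_lit 858) (nat_lit 988) (nat_lit 0) (XT.nd (nat_lit 390) (nat_lit 684) (nat_lit 0) (XT.nd (nat_lit 156) (nat_lit 228) (nat_lit 0) (XT.nd (nat_lit 78) (nat_lit 228)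 (nat_lit 0) (XT.lf (nat_lit 0) (nat_lit 100423110549) (nat_lit 304) (nat_lit 57717746159) (nat_lit 76) (nat_lit 15735733122) (nat_lit 57) (nat_lit 5) (nat_lit 61) (nat_lit 5) (nat_lit 58) (nat_lit 5) (nat_lit 389) (nat_lit 361) (nat_lit 150)) (XT.lf (nat_lit 0) (nat_lit 33722669352) (nat_lit 228) (nat_lit 99798479836) (nat_lit 304) (nat_lit 45827403757) (nat_lit 54) (nat_lit 5) (nat_lit 57) (nat_lit 5) (nat_lit 58) (nat_lit 5) (nat_lit 390) (nat_lit 361) (nat_lit 149))) (XT.nd (nat_lit 78) (nat_lit 228) (nat_lit 0) (XT.lf (nat_lit 0) (nat_lit 131738640746) (nat_lit 228) (nat_lit 37512717304) (nat_lit 304) (nat_lit 15793892932) (nat_lit 54) (nat_lit 5) (nat_lit 57) (nat_lit 5) (nat_lit 58) (nat_lit 5) (nat_lit 391) (nat_lit 361) (nat_lit 148)) (XT.nd (nat_lit 78) (nat_lit 0) (nat_lit 0) (XT.lf (nat_lit 0) (nat_lit 16387887399) (nat_lit 228) (nat_lit 146613420543) (nat_lit 76) (nat_lit 27955667176)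 (nat_lit 51) (nat_lit 5) (nat_lit 54) (nat_lit 5) (nat_lit 52) (nat_lit 5) (nat_lit 392) (nat_lit 361) (nat_lit 147)) (XT.lf (nat_lit 0) (nat_lit 51180314561) (nat_lit 228) (nat_lit 49281204092) (nat_lit 76) (nat_lit 96613204343) (nat_lit 51) (nat_lit 5) (nat_lit 54) (nat_lit 5) (nat_lit 52) (nat_lit 5) (nat_lit 393) (nat_lit 361) (nat_lit 146))))) (XT.nd (nat_lit 234) (nat_lit 304) (nat_lit 0) (XT.nd (nat_lit 78) (nat_lit 152) (nat_lit 0) (XT.lf (nat_lit 0) (nat_lit 54667031849) (nat_lit 228) (nat_lit 33898647091) (nat_lit 304) (nat_lit 114890013683) (nat_lit 48) (nat_lit 5) (nat_lit 51) (nat_lit 5) (nat_lit 52) (nat_lit 5) (nat_lit 394) (nat_lit 361) (nat_lit 145)) (XT.nd (nat_lit 78) (nat_lit 152) (nat_lit 0) (XT.lf (nat_lit 0) (nat_lit 129230349972) (nat_lit 304) (nat_lit 45166273970) (nat_lit 76) (nat_lit 35688585011) (nat_lit 48) (nat_lit 5) (nat_lit 52) (nat_lit 5) (nat_lit 49) (nat_lit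 5) (nat_lit 395) (nat_lit 361) (nat_lit 144)) (XT.lf (nat_lit 0) (nat_lit 65166999724) (nat_lit 152) (nat_lit 108334232401) (nat_lit 228) (nat_lit 43466320230) (nat_lit 46) (nat_lit 5) (nat_lit 48) (nat_lit 5) (nat_lit 49) (nat_lit 5) (nat_lit 396) (nat_lit 361) (nat_lit 143)))) (XT.nd (nat_lit 78) (nat_lit 304) (nat_lit 0) (XT.lf (nat_lit 0) (nat_lit 182584744578) (nat_lit 152) (nat_lit 38165653398) (nat_lit 228) (nat_lit 3405378102) (nat_lit 46) (nat_lit 5) (nat_lit 48) (nat_lit 5) (nat_lit 49) (nat_lit 5) (nat_lit 397) (nat_lit 361) (nat_lit 142)) (XT.nd (nat_lit 78) (nat_lit 0) (nat_lit 0) (XT.lf (nat_lit 0) (nat_lit 39191453699) (nat_lit 304) (nat_lit 156199121541) (nat_lit 76) (nat_lit 36194149426) (nat_lit 42) (nat_lit 5) (nat_lit 46) (nat_lit 5) (nat_lit 43) (nat_lit 5) (nat_lit 398) (nat_lit 361) (nat_lit 141)) (XT.lf (nat_lit 0) (nat_lit 85144752402) (nat_lit 304) (nat_lit 40409890746)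 (nat_lit 76) (nat_lit 113760632933) (nat_lit 42) (nat_lit 5) (nat_lit 46) (nat_lit 5) (nat_lit 43) (nat_lit 5) (nat_lit 399) (nat_lit 361) (nat_lit 140)))))) (XT.nd (nat_lit 468) (nat_lit 456) (nat_lit 0) (XT.nd (nat_lit 234) (nat_lit 228) (nat_lit 0) (XT.nd (nat_lit 78) (nat_lit 152) (nat_lit 0) (XT.lf (nat_lit 0) (nat_lit 83852353473) (nat_lit 152) (nat_lit 50852375620) (nat_lit 228) (nat_lit 112662175429) (nat_lit 40) (nat_lit 5) (nat_lit 42) (nat_lit 5) (nat_lit 43) (nat_lit 5) (nat_lit 400) (nat_lit 361) (nat_lit 139)) (XT.nd (nat_lit 78) (nat_lit 152) (nat_lit 0) (XT.lf (nat_lit 0) (nat_lit 187868809056) (nat_lit 228) (nat_lit 40498394026) (nat_lit 76) (nat_lit 27397606182) (nat_lit 40) (nat_lit 5) (nat_lit 43) (nat_lit 5) (nat_lit 41) (nat_lit 5) (nat_lit 401) (nat_lit 361) (nat_lit 138)) (XT.lf (nat_lit 0) (nat_lit 90738899192) (nat_lit 152) (nat_lit 155202380324) (nat_lit 228)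 (nat_lit 18528820499) (nat_lit 38) (nat_lit 5) (nat_lit 40) (nat_lit 5) (nat_lit 41) (nat_lit 5) (nat_lit 402) (nat_lit 361) (nat_lit 137)))) (XT.nd (nat_lit 78) (nat_lit 152) (nat_lit 0) (XT.lf (nat_lit 0) (nat_lit 32937652120) (nat_lit 228) (nat_lit 44163785969) (nat_lit 76) (nat_lit 196448368896) (nat_lit 37) (nat_lit 5) (nat_lit 40) (nat_lit 5) (nat_lit 38) (nat_lit 5) (nat_lit 403) (nat_lit 361) (nat_lit 136)) (XT.nd (nat_lit 78) (nat_lit 0) (nat_lit 0) (XT.lf (nat_lit 0) (nat_lit 87937449874) (nat_lit 228) (nat_lit 188494227603) (nat_lit 76) (nat_lit 6557499783) (nat_lit 35) (nat_lit 5) (nat_lit 38) (nat_lit 5) (nat_lit 36) (nat_lit 5) (nat_lit 404) (nat_lit 361) (nat_lit 135)) (XT.lf (nat_lit 0) (nat_lit 147711254017) (nat_lit 228) (nat_lit 52519678748) (nat_lit 76) (nat_lit 92568382539) (nat_lit 35) (nat_lit 5) (nat_lit 38) (nat_lit 5) (nat_lit 36) (nat_lit 5) (nat_lit 405) (nat_lit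 361) (nat_lit 134))))) (XT.nd (nat_lit 234) (nat_lit 152) (nat_lit 0) (XT.nd (nat_lit 78) (nat_lit 152) (nat_lit 0) (XT.lf (nat_lit 0) (nat_lit 93237563564) (nat_lit 152) (nat_lit 118691753213) (nat_lit 228) (nat_lit 91097865127) (nat_lit 33) (nat_lit 5) (nat_lit 35) (nat_lit 5) (nat_lit 36) (nat_lit 5) (nat_lit 406) (nat_lit 361) (nat_lit 133)) (XT.nd (nat_lit 78) (nat_lit 152) (nat_lit 0) (XT.lf (nat_lit 0) (nat_lit 248105817870) (nat_lit 152) (nat_lit 32141782621) (nat_lit 228) (nat_lit 33474375524) (nat_lit 33) (nat_lit 5) (nat_lit 35) (nat_lit 5) (nat_lit 36) (nat_lit 5) (nat_lit 407) (nat_lit 361) (nat_lit 132)) (XT.lf (nat_lit 0) (nat_lit 28488049726) (nat_lit 152) (nat_lit 237642503547) (nat_lit 76) (nat_lit 58683710737) (nat_lit 31) (nat_lit 5) (nat_lit 33) (nat_lit 5) (nat_lit 32) (nat_lit 5) (nat_lit 408) (nat_lit 361) (nat_lit 131)))) (XT.nd (nat_lit 78) (nat_lit 152) (nat_lit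 0) (XT.lf (nat_lit 0) (nat_lit 94079887737) (nat_lit 152) (nat_lit 87622586474) (nat_lit 76) (nat_lit 154648441742) (nat_lit 31) (nat_lit 5) (nat_lit 33) (nat_lit 5) (nat_lit 32) (nat_lit 5) (nat_lit 409) (nat_lit 361) (nat_lit 130)) (XT.nd (nat_lit 78) (nat_lit 0) (nat_lit 0) (XT.lf (nat_lit 0) (nat_lit 72209273992) (nat_lit 152) (nat_lit 91869315734) (nat_lit 228) (nat_lit 184329447222) (nat_lit 29) (nat_lit 5) (nat_lit 31) (nat_lit 5) (nat_lit 32) (nat_lit 5) (nat_lit 410) (nat_lit 361) (nat_lit 129)) (XT.lf (nat_lit 0) (nat_lit 239123705854) (nat_lit 228) (nat_lit 117981897057) (nat_lit 76) (nat_lit 3885087186) (nat_lit 29) (nat_lit 5) (nat_lit 32) (nat_lit 5) (nat_lit 30) (nat_lit 4) (nat_lit 411) (nat_lit 361) (nat_lit 128))))))))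
noncomputable def xc233 : XT := (XT.nd (nat_lit 44070) (nat_lit 0) (nat_lit 1900) (XT.nd (nat_lit 43212) (nat_lit 0) (nat_lit 5320) (XT.nd (nat_lit 390) (nat_lit 304) (nat_lit 0) (XT.nd (nat_lit 156) (nat_lit 152) (nat_lit 0) (XT.nd (nat_lit 78) (nat_lit 76) (nat_lit 0) (XT.lf (nat_lit 0) (nat_lit 48181680600) (nat_lit 76) (nat_lit 271997592280) (nat_lit 152) (nat_lit 53910293323) (nat_lit 28) (nat_lit 5) (nat_lit 29) (nat_lit 5) (nat_lit 30) (nat_lit 4) (nat_lit 412) (nat_lit 361) (nat_lit 127)) (XT.lf (nat_lit 0) (nat_lit 18916633865) (nat_lit 152) (nat_lit 161299281107) (nat_lit 76) (nat_lit 207512317218) (nat_lit 27) (nat_lit 5) (nat_lit 29) (nat_lit 5) (nat_lit 28) (nat_lit 5) (nat_lit 413) (nat_lit 361) (nat_lit 126))) (XT.nd (nat_lit 78) (nat_lit 0) (nat_lit 0) (XT.lf (nat_lit 0) (nat_lit 11008123736) (nat_lit 152) (nat_lit 82736807361) (nat_lit 228) (nat_lit 308251123509) (nat_lit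 25) (nat_lit 5) (nat_lit 27) (nat_lit 5) (nat_lit 28) (nat_lit 5) (nat_lit 414) (nat_lit 361) (nat_lit 125)) (XT.nd (nat_lit 78) (nat_lit 0) (nat_lit 0) (XT.lf (nat_lit 0) (nat_lit 175397267292) (nat_lit 228) (nat_lit 219661069098) (nat_lit 76) (nat_lit 21764800592) (nat_lit 25) (nat_lit 5) (nat_lit 28) (nat_lit 5) (nat_lit 26) (nat_lit 4) (nat_lit 415) (nat_lit 361) (nat_lit 124)) (XT.lf (nat_lit 0) (nat_lit 262488462676) (nat_lit 228) (nat_lit 41124380843) (nat_lit 76) (nat_lit 128710917881) (nat_lit 25) (nat_lit 5) (nat_lit 28) (nat_lit 5) (nat_lit 26) (nat_lit 4) (nat_lit 416) (nat_lit 361) (nat_lit 123))))) (XT.nd (nat_lit 42588) (nat_lit 0) (nat_lit 5700) (XT.nd (nat_lit 78) (nat_lit 228) (nat_lit 0) (XT.lf (nat_lit 0) (nat_lit 151177602069) (nat_lit 76) (nat_lit 205116827780) (nat_lit 152) (nat_lit 92186976628) (nat_lit 24) (nat_lit 5) (nat_lit 25) (nat_lit 5) (nat_lit 26) (nat_lit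 4) (nat_lit 417) (nat_lit 361) (nat_lit 122)) (XT.nd (nat_lit 78) (nat_lit 228) (nat_lit 0) (XT.lf (nat_lit 0) (nat_lit 354522265321) (nat_lit 76) (nat_lit 100964799235) (nat_lit 152) (nat_lit 9925050832) (nat_lit 24) (nat_lit 5) (nat_lit 25) (nat_lit 5) (nat_lit 26) (nat_lit 4) (nat_lit 418) (nat_lit 361) (nat_lit 121)) (XT.lf (nat_lit 0) (nat_lit 75524967045) (nat_lit 228) (nat_lit 396818049547) (nat_lit 76) (nat_lit 10710569657) (nat_lit 21) (nat_lit 5) (nat_lit 24) (nat_lit 5) (nat_lit 22) (nat_lit 4) (nat_lit 419) (nat_lit 361) (nat_lit 120)))) (XT.nd (nat_lit 78) (nat_lit 0) (nat_lit 0) (XT.lf (nat_lit 0) (nat_lit 1882447072) (nat_lit 836) (nat_lit 20057589159) (nat_lit 836) (nat_lit 20057589159) (nat_lit 96) (nat_lit 3) (nat_lit 107) (nat_lit 3) (nat_lit 107) (nat_lit 5) (nat_lit 362) (nat_lit 362) (nat_lit 176)) (XT.nd (nat_lit 78) (nat_lit 0) (nat_lit 76) (XT.lf (nat_lit 0) (nat_lit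 3867954305) (nat_lit 836) (nat_lit 770464170) (nat_lit 836) (nat_lit 81456255544) (nat_lit 96) (nat_lit 3) (nat_lit 107) (nat_lit 3) (nat_lit 107) (nat_lit 5) (nat_lit 363) (nat_lit 362) (nat_lit 175)) (XT.lf (nat_lit 0) (nat_lit 5211096260) (nat_lit 760) (nat_lit 46966354452) (nat_lit 836) (nat_lit 36059871981) (nat_lit 97) (nat_lit 5) (nat_lit 107) (nat_lit 5) (nat_lit 108) (nat_lit 5) (nat_lit 364) (nat_lit 362) (nat_lit 174)))))) (XT.nd (nat_lit 390) (nat_lit 456) (nat_lit 0) (XT.nd (nat_lit 156) (nat_lit 0) (nat_lit 76) (XT.nd (nat_lit 78) (nat_lit 0) (nat_lit 76) (XT.lf (nat_lit 0) (nat_lit 6710151502) (nat_lit 760) (nat_lit 5121811882) (nat_lit 836) (nat_lit 78650703287) (nat_lit 97) (nat_lit 5) (nat_lit 107) (nat_lit 5) (nat_lit 108) (nat_lit 5) (nat_lit 365) (nat_lit 362) (nat_lit 173)) (XT.lf (nat_lit 0) (nat_lit 9396620160) (nat_lit 760) (nat_lit 53197906980) (nat_lit 836) (nat_lit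 30190128323) (nat_lit 98) (nat_lit 5) (nat_lit 108) (nat_lit 5) (nat_lit 109) (nat_lit 5) (nat_lit 366) (nat_lit 362) (nat_lit 172))) (XT.nd (nat_lit 78) (nat_lit 0) (nat_lit 76) (XT.lf (nat_lit 0) (nat_lit 12499044576) (nat_lit 760) (nat_lit 8684576583) (nat_lit 836) (nat_lit 74004041533) (nat_lit 98) (nat_lit 5) (nat_lit 108) (nat_lit 5) (nat_lit 109) (nat_lit 5) (nat_lit 367) (nat_lit 362) (nat_lit 171)) (XT.nd (nat_lit 78) (nat_lit 0) (nat_lit 0) (XT.lf (nat_lit 0) (nat_lit 16728088958) (nat_lit 760) (nat_lit 58726010821) (nat_lit 836) (nat_lit 22208146154) (nat_lit 99) (nat_lit 5) (nat_lit 109) (nat_lit 5) (nat_lit 110) (nat_lit 5) (nat_lit 368) (nat_lit 362) (nat_lit 170)) (XT.lf (nat_lit 0) (nat_lit 21664893480) (nat_lit 760) (nat_lit 11363632060) (nat_lit 836) (nat_lit 67207217960) (nat_lit 99) (nat_lit 5) (nat_lit 109) (nat_lit 5) (nat_lit 110) (nat_lit 5) (nat_lit 369) (nat_lit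 362) (nat_lit 169))))) (XT.nd (nat_lit 234) (nat_lit 684) (nat_lit 0) (XT.nd (nat_lit 78) (nat_lit 0) (nat_lit 0) (XT.lf (nat_lit 0) (nat_lit 27656901382) (nat_lit 760) (nat_lit 63461864181) (nat_lit 836) (nat_lit 11778732755) (nat_lit 100) (nat_lit 5) (nat_lit 110) (nat_lit 5) (nat_lit 111) (nat_lit 5) (nat_lit 370) (nat_lit 362) (nat_lit 168)) (XT.nd (nat_lit 78) (nat_lit 0) (nat_lit 0) (XT.lf (nat_lit 0) (nat_lit 34685149920) (nat_lit 760) (nat_lit 13058282979) (nat_lit 836) (nat_lit 57912076473) (nat_lit 100) (nat_lit 5) (nat_lit 110) (nat_lit 5) (nat_lit 111) (nat_lit 5) (nat_lit 371) (nat_lit 362) (nat_lit 167)) (XT.lf (nat_lit 76) (nat_lit 41183273820) (nat_lit 0) (nat_lit 1524128623) (nat_lit 836) (nat_lit 65811889443) (nat_lit 101) (nat_lit 5) (nat_lit 100) (nat_lit 5) (nat_lit 111) (nat_lit 5) (nat_lit 372) (nat_lit 362) (nat_lit 166)))) (XT.nd (nat_lit 78) (nat_lit 760) (nat_lit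 0) (XT.lf (nat_lit 0) (nat_lit 52089058894) (nat_lit 760) (nat_lit 13662807151) (nat_lit 76) (nat_lit 45726483372) (nat_lit 101) (nat_lit 5) (nat_lit 111) (nat_lit 5) (nat_lit 102) (nat_lit 5) (nat_lit 373) (nat_lit 362) (nat_lit 165)) (XT.nd (nat_lit 78) (nat_lit 0) (nat_lit 0) (XT.lf (nat_lit 0) (nat_lit 44079575897) (nat_lit 760) (nat_lit 18573051779) (nat_lit 836) (nat_lit 51897091112) (nat_lit 91) (nat_lit 5) (nat_lit 101) (nat_lit 5) (nat_lit 102) (nat_lit 5) (nat_lit 374) (nat_lit 362) (nat_lit 164)) (XT.lf (nat_lit 0) (nat_lit 74462650971) (nat_lit 836) (nat_lit 13067243968) (nat_lit 76) (nat_lit 30208848303) (nat_lit 91) (nat_lit 5) (nat_lit 102) (nat_lit 5) (nat_lit 92) (nat_lit 5) (nat_lit 375) (nat_lit 362) (nat_lit 163))))))) (XT.nd (nat_lit 858) (nat_lit 1444) (nat_lit 0) (XT.nd (nat_lit 390) (nat_lit 836) (nat_lit 0) (XT.nd (nat_lit 156) (nat_lit 760) (nat_lit 0) (XT.nd (nat_lit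 78) (nat_lit 0) (nat_lit 0) (XT.lf (nat_lit 0) (nat_lit 48451761108) (nat_lit 380) (nat_lit 39472025793) (nat_lit 456) (nat_lit 33110401839) (nat_lit 86) (nat_lit 5) (nat_lit 91) (nat_lit 5) (nat_lit 92) (nat_lit 5) (nat_lit 376) (nat_lit 362) (nat_lit 162)) (XT.lf (nat_lit 0) (nat_lit 102454150996) (nat_lit 456) (nat_lit 11158485552) (nat_lit 76) (nat_lit 10861961776) (nat_lit 86) (nat_lit 5) (nat_lit 92) (nat_lit 5) (nat_lit 87) (nat_lit 5) (nat_lit 377) (nat_lit 362) (nat_lit 161))) (XT.nd (nat_lit 78) (nat_lit 456) (nat_lit 0) (XT.lf (nat_lit 0) (nat_lit 54431398951) (nat_lit 304) (nat_lit 64776237147) (nat_lit 380) (nat_lit 8804562510) (nat_lit 82) (nat_lit 5) (nat_lit 86) (nat_lit 5) (nat_lit 87) (nat_lit 5) (nat_lit 378) (nat_lit 362) (nat_lit 160)) (XT.nd (nat_lit 78) (nat_lit 380) (nat_lit 0) (XT.lf (nat_lit 0) (nat_lit 5101547690) (nat_lit 380) (nat_lit 8111665159) (nat_lit 76)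 (nat_lit 118499918357) (nat_lit 81) (nat_lit 5) (nat_lit 86) (nat_lit 5) (nat_lit 82) (nat_lit 5) (nat_lit 379) (nat_lit 362) (nat_lit 159)) (XT.lf (nat_lit 0) (nat_lit 21039729460) (nat_lit 456) (nat_lit 73714256491) (nat_lit 76) (nat_lit 40756275087) (nat_lit 76) (nat_lit 5) (nat_lit 82) (nat_lit 5) (nat_lit 77) (nat_lit 5) (nat_lit 380) (nat_lit 362) (nat_lit 158))))) (XT.nd (nat_lit 234) (nat_lit 228) (nat_lit 0) (XT.nd (nat_lit 78) (nat_lit 608) (nat_lit 0) (XT.lf (nat_lit 0) (nat_lit 38130778615) (nat_lit 456) (nat_lit 4228880008) (nat_lit 76) (nat_lit 97119791119) (nat_lit 76) (nat_lit 5) (nat_lit 82) (nat_lit 5) (nat_lit 77) (nat_lit 5) (nat_lit 381) (nat_lit 362) (nat_lit 157)) (XT.nd (nat_lit 78) (nat_lit 304) (nat_lit 0) (XT.lf (nat_lit 0) (nat_lit 57400413523) (nat_lit 380) (nat_lit 72804422405) (nat_lit 76) (nat_lit 13376060570) (nat_lit 72) (nat_lit 5) (nat_lit 77) (nat_lit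 5) (nat_lit 73) (nat_lit 5) (nat_lit 382) (nat_lit 362) (nat_lit 156)) (XT.lf (nat_lit 0) (nat_lit 1135518979) (nat_lit 304) (nat_lit 77282694587) (nat_lit 380) (nat_lit 69429968125) (nat_lit 68) (nat_lit 5) (nat_lit 72) (nat_lit 5) (nat_lit 73) (nat_lit 5) (nat_lit 383) (nat_lit 362) (nat_lit 155)))) (XT.nd (nat_lit 78) (nat_lit 228) (nat_lit 0) (XT.lf (nat_lit 0) (nat_lit 81299759161) (nat_lit 304) (nat_lit 20419872051) (nat_lit 380) (nat_lit 50547563808) (nat_lit 68) (nat_lit 5) (nat_lit 72) (nat_lit 5) (nat_lit 73) (nat_lit 5) (nat_lit 384) (nat_lit 362) (nat_lit 154)) (XT.nd (nat_lit 78) (nat_lit 0) (nat_lit 0) (XT.lf (nat_lit 0) (nat_lit 8214294714) (nat_lit 228) (nat_lit 118713199797) (nat_lit 304) (nat_lit 29942596009) (nat_lit 65) (nat_lit 5) (nat_lit 68) (nat_lit 5) (nat_lit 69) (nat_lit 5) (nat_lit 385) (nat_lit 362) (nat_lit 153)) (XT.lf (nat_lit 0) (nat_lit 93472825013) (nat_lit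 228) (nat_lit 61453914010) (nat_lit 304) (nat_lit 6699842603) (nat_lit 65) (nat_lit 5) (nat_lit 68) (nat_lit 5) (nat_lit 69) (nat_lit 5) (nat_lit 386) (nat_lit 362) (nat_lit 152)))))) (XT.nd (nat_lit 468) (nat_lit 608) (nat_lit 0) (XT.nd (nat_lit 234) (nat_lit 228) (nat_lit 0) (XT.nd (nat_lit 78) (nat_lit 228) (nat_lit 0) (XT.lf (nat_lit 0) (nat_lit 16628898612) (nat_lit 304) (nat_lit 768876085) (nat_lit 380) (nat_lit 149196331613) (nat_lit 60) (nat_lit 5) (nat_lit 64) (nat_lit 5) (nat_lit 65) (nat_lit 5) (nat_lit 387) (nat_lit 362) (nat_lit 151)) (XT.nd (nat_lit 78) (nat_lit 228) (nat_lit 0) (XT.lf (nat_lit 0) (nat_lit 44630864938) (nat_lit 380) (nat_lit 64847347276) (nat_lit 76) (nat_lit 62218516004) (nat_lit 60) (nat_lit 5) (nat_lit 65) (nat_lit 5) (nat_lit 61) (nat_lit 5) (nat_lit 388) (nat_lit 362) (nat_lit 150)) (XT.lf (nat_lit 0) (nat_lit 25324048805) (nat_lit 228) (nat_lit 48309335170)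 (nat_lit 304) (nat_lit 103400708722) (nat_lit 57) (nat_lit 5) (nat_lit 60) (nat_lit 5) (nat_lit 61) (nat_lit 5) (nat_lit 389) (nat_lit 362) (nat_lit 149)))) (XT.nd (nat_lit 78) (nat_lit 228) (nat_lit 0) (XT.lf (nat_lit 0) (nat_lit 105450573097) (nat_lit 304) (nat_lit 60594859453) (nat_lit 76) (nat_lit 16524665826) (nat_lit 57) (nat_lit 5) (nat_lit 61) (nat_lit 5) (nat_lit 58) (nat_lit 5) (nat_lit 390) (nat_lit 362) (nat_lit 148)) (XT.nd (nat_lit 78) (nat_lit 0) (nat_lit 0) (XT.lf (nat_lit 0) (nat_lit 35417435317) (nat_lit 228) (nat_lit 104785912793) (nat_lit 304) (nat_lit 48112320080) (nat_lit 54) (nat_lit 5) (nat_lit 57) (nat_lit 5) (nat_lit 58) (nat_lit 5) (nat_lit 391) (nat_lit 362) (nat_lit 147)) (XT.lf (nat_lit 0) (nat_lit 138333794210) (nat_lit 228) (nat_lit 39385980756) (nat_lit 304) (nat_lit 16577441040) (nat_lit 54) (nat_lit 5) (nat_lit 57) (nat_lit 5) (nat_lit 58) (nat_lit 5)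 (nat_lit 392) (nat_lit 362) (nat_lit 146))))) (XT.nd (nat_lit 234) (nat_lit 152) (nat_lit 0) (XT.nd (nat_lit 78) (nat_lit 228) (nat_lit 0) (XT.lf (nat_lit 0) (nat_lit 17213116537) (nat_lit 228) (nat_lit 153935548937) (nat_lit 76) (nat_lit 29355862059) (nat_lit 51) (nat_lit 5) (nat_lit 54) (nat_lit 5) (nat_lit 52) (nat_lit 5) (nat_lit 393) (nat_lit 362) (nat_lit 145)) (XT.nd (nat_lit 78) (nat_lit 228) (nat_lit 0) (XT.lf (nat_lit 0) (nat_lit 53744887210) (nat_lit 228) (nat_lit 51737128455) (nat_lit 76) (nat_lit 101446161250) (nat_lit 51) (nat_lit 5) (nat_lit 54) (nat_lit 5) (nat_lit 52) (nat_lit 5) (nat_lit 394) (nat_lit 362) (nat_lit 144)) (XT.lf (nat_lit 0) (nat_lit 57408388059) (nat_lit 228) (nat_lit 35590992108) (nat_lit 304) (nat_lit 120628822047) (nat_lit 48) (nat_lit 5) (nat_lit 51) (nat_lit 5) (nat_lit 52) (nat_lit 5) (nat_lit 395) (nat_lit 362) (nat_lit 143)))) (XT.nd (nat_lit 78)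 (nat_lit 152) (nat_lit 0) (XT.lf (nat_lit 0) (nat_lit 135697065257) (nat_lit 304) (nat_lit 47416740753) (nat_lit 76) (nat_lit 37475399525) (nat_lit 48) (nat_lit 5) (nat_lit 52) (nat_lit 5) (nat_lit 49) (nat_lit 5) (nat_lit 396) (nat_lit 362) (nat_lit 142)) (XT.nd (nat_lit 78) (nat_lit 0) (nat_lit 0) (XT.lf (nat_lit 0) (nat_lit 68433070063) (nat_lit 152) (nat_lit 113748294478) (nat_lit 228) (nat_lit 45634308105) (nat_lit 46) (nat_lit 5) (nat_lit 48) (nat_lit 5) (nat_lit 49) (nat_lit 5) (nat_lit 397) (nat_lit 362) (nat_lit 141)) (XT.lf (nat_lit 0) (nat_lit 191721334524) (nat_lit 152) (nat_lit 40071412694) (nat_lit 228) (nat_lit 3570572591) (nat_lit 46) (nat_lit 5) (nat_lit 48) (nat_lit 5) (nat_lit 49) (nat_lit 5) (nat_lit 398) (nat_lit 362) (nat_lit 140))))))))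
noncomputable def xc234 : XT := (XT.nd (nat_lit 44226) (nat_lit 0) (nat_lit 3116) (XT.nd (nat_lit 858) (nat_lit 532) (nat_lit 0) (XT.nd (nat_lit 390) (nat_lit 532) (nat_lit 0) (XT.nd (nat_lit 156) (nat_lit 304) (nat_lit 0) (XT.nd (nat_lit 78) (nat_lit 0) (nat_lit 0) (XT.lf (nat_lit 0) (nat_lit 41155860625) (nat_lit 304) (nat_lit 164001478021) (nat_lit 76) (nat_lit 38006377269) (nat_lit 42) (nat_lit 5) (nat_lit 46) (nat_lit 5) (nat_lit 43) (nat_lit 5) (nat_lit 399) (nat_lit 362) (nat_lit 139)) (XT.lf (nat_lit 0) (nat_lit 89406594061) (nat_lit 304) (nat_lit 42423147572) (nat_lit 76) (nat_lit 119451064934) (nat_lit 42) (nat_lit 5) (nat_lit 46) (nat_lit 5) (nat_lit 43) (nat_lit 5) (nat_lit 400) (nat_lit 362) (nat_lit 138))) (XT.nd (nat_lit 78) (nat_lit 152) (nat_lit 0) (XT.lf (nat_lit 0) (nat_lit 88052092121) (nat_lit 152) (nat_lit 53392369405) (nat_lit 228) (nat_lit 118290560457) (nat_lit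 40) (nat_lit 5) (nat_lit 42) (nat_lit 5) (nat_lit 43) (nat_lit 5) (nat_lit 401) (nat_lit 362) (nat_lit 137)) (XT.nd (nat_lit 78) (nat_lit 152) (nat_lit 0) (XT.lf (nat_lit 0) (nat_lit 197266570425) (nat_lit 228) (nat_lit 42516353959) (nat_lit 76) (nat_lit 28769906472) (nat_lit 40) (nat_lit 5) (nat_lit 43) (nat_lit 5) (nat_lit 41) (nat_lit 5) (nat_lit 402) (nat_lit 362) (nat_lit 136)) (XT.lf (nat_lit 0) (nat_lit 95282691665) (nat_lit 152) (nat_lit 162959873894) (nat_lit 228) (nat_lit 19450825663) (nat_lit 38) (nat_lit 5) (nat_lit 40) (nat_lit 5) (nat_lit 41) (nat_lit 5) (nat_lit 403) (nat_lit 362) (nat_lit 135))))) (XT.nd (nat_lit 234) (nat_lit 304) (nat_lit 0) (XT.nd (nat_lit 78) (nat_lit 152) (nat_lit 0) (XT.lf (nat_lit 0) (nat_lit 34588624142) (nat_lit 228) (nat_lit 46365316170) (nat_lit 76) (nat_lit 206273150111) (nat_lit 37) (nat_lit 5) (nat_lit 40) (nat_lit 5) (nat_lit 38) (nat_lit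 5) (nat_lit 404) (nat_lit 362) (nat_lit 134)) (XT.nd (nat_lit 78) (nat_lit 0) (nat_lit 0) (XT.lf (nat_lit 0) (nat_lit 92338359226) (nat_lit 228) (nat_lit 197912225003) (nat_lit 76) (nat_lit 6887847727) (nat_lit 35) (nat_lit 5) (nat_lit 38) (nat_lit 5) (nat_lit 36) (nat_lit 5) (nat_lit 405) (nat_lit 362) (nat_lit 133)) (XT.lf (nat_lit 0) (nat_lit 155100661344) (nat_lit 228) (nat_lit 55139268419) (nat_lit 76) (nat_lit 97199156860) (nat_lit 35) (nat_lit 5) (nat_lit 38) (nat_lit 5) (nat_lit 36) (nat_lit 5) (nat_lit 406) (nat_lit 362) (nat_lit 132)))) (XT.nd (nat_lit 78) (nat_lit 152) (nat_lit 0) (XT.lf (nat_lit 0) (nat_lit 97905732876) (nat_lit 152) (nat_lit 124623809512) (nat_lit 228) (nat_lit 95648808515) (nat_lit 33) (nat_lit 5) (nat_lit 35) (nat_lit 5) (nat_lit 36) (nat_lit 5) (nat_lit 407) (nat_lit 362) (nat_lit 131)) (XT.nd (nat_lit 78) (nat_lit 152) (nat_lit 0) (XT.lf (nat_lit 0) (nat_lit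 260517100319) (nat_lit 152) (nat_lit 33746460932) (nat_lit 228) (nat_lit 35144332521) (nat_lit 33) (nat_lit 5) (nat_lit 35) (nat_lit 5) (nat_lit 36) (nat_lit 5) (nat_lit 408) (nat_lit 362) (nat_lit 130)) (XT.lf (nat_lit 0) (nat_lit 29916052411) (nat_lit 152) (nat_lit 249518471854) (nat_lit 76) (nat_lit 61620271114) (nat_lit 31) (nat_lit 5) (nat_lit 33) (nat_lit 5) (nat_lit 32) (nat_lit 5) (nat_lit 409) (nat_lit 362) (nat_lit 129)))))) (XT.nd (nat_lit 390) (nat_lit 228) (nat_lit 0) (XT.nd (nat_lit 156) (nat_lit 152) (nat_lit 0) (XT.nd (nat_lit 78) (nat_lit 152) (nat_lit 0) (XT.lf (nat_lit 0) (nat_lit 98787310885) (nat_lit 152) (nat_lit 91997852112) (nat_lit 76) (nat_lit 162383125581) (nat_lit 31) (nat_lit 5) (nat_lit 33) (nat_lit 5) (nat_lit 32) (nat_lit 5) (nat_lit 410) (nat_lit 362) (nat_lit 128)) (XT.lf (nat_lit 0) (nat_lit 75825506802) (nat_lit 152) (nat_lit 96460367969) (nat_lit 228)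 (nat_lit 193542394594) (nat_lit 29) (nat_lit 5) (nat_lit 31) (nat_lit 5) (nat_lit 32) (nat_lit 5) (nat_lit 411) (nat_lit 362) (nat_lit 127))) (XT.nd (nat_lit 78) (nat_lit 152) (nat_lit 0) (XT.lf (nat_lit 0) (nat_lit 251083122805) (nat_lit 228) (nat_lit 123875372045) (nat_lit 76) (nat_lit 4081566595) (nat_lit 29) (nat_lit 5) (nat_lit 32) (nat_lit 5) (nat_lit 30) (nat_lit 4) (nat_lit 412) (nat_lit 362) (nat_lit 126)) (XT.nd (nat_lit 78) (nat_lit 76) (nat_lit 0) (XT.lf (nat_lit 0) (nat_lit 50596293852) (nat_lit 76) (nat_lit 285595106768) (nat_lit 152) (nat_lit 56602484189) (nat_lit 28) (nat_lit 5) (nat_lit 29) (nat_lit 5) (nat_lit 30) (nat_lit 4) (nat_lit 413) (nat_lit 362) (nat_lit 125)) (XT.lf (nat_lit 0) (nat_lit 19865529765) (nat_lit 152) (nat_lit 169358876561) (nat_lit 76) (nat_lit 217890082904) (nat_lit 27) (nat_lit 5) (nat_lit 29) (nat_lit 5) (nat_lit 28) (nat_lit 5) (nat_lit 414) (nat_lit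 362) (nat_lit 124))))) (XT.nd (nat_lit 234) (nat_lit 76) (nat_lit 0) (XT.nd (nat_lit 78) (nat_lit 0) (nat_lit 0) (XT.lf (nat_lit 0) (nat_lit 11563811934) (nat_lit 152) (nat_lit 86871366477) (nat_lit 228) (nat_lit 323660527593) (nat_lit 25) (nat_lit 5) (nat_lit 27) (nat_lit 5) (nat_lit 28) (nat_lit 5) (nat_lit 415) (nat_lit 362) (nat_lit 123)) (XT.nd (nat_lit 78) (nat_lit 0) (nat_lit 0) (XT.lf (nat_lit 0) (nat_lit 184170022444) (nat_lit 228) (nat_lit 230638981861) (nat_lit 76) (nat_lit 22855143704) (nat_lit 25) (nat_lit 5) (nat_lit 28) (nat_lit 5) (nat_lit 26) (nat_lit 4) (nat_lit 416) (nat_lit 362) (nat_lit 122)) (XT.lf (nat_lit 0) (nat_lit 275615639893) (nat_lit 228) (nat_lit 43175703988) (nat_lit 76) (nat_lit 135148466711) (nat_lit 25) (nat_lit 5) (nat_lit 28) (nat_lit 5) (nat_lit 26) (nat_lit 4) (nat_lit 417) (nat_lit 362) (nat_lit 121)))) (XT.nd (nat_lit 42588) (nat_lit 0) (nat_lit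 5472) (XT.lf (nat_lit 0) (nat_lit 158741299104) (nat_lit 76) (nat_lit 215370550380) (nat_lit 152) (nat_lit 96793491293) (nat_lit 24) (nat_lit 5) (nat_lit 25) (nat_lit 5) (nat_lit 26) (nat_lit 4) (nat_lit 418) (nat_lit 362) (nat_lit 120)) (XT.nd (nat_lit 78) (nat_lit 0) (nat_lit 0) (XT.lf (nat_lit 0) (nat_lit 1985367688) (nat_lit 836) (nat_lit 21055844046) (nat_lit 836) (nat_lit 21055844046) (nat_lit 96) (nat_lit 3) (nat_lit 107) (nat_lit 3) (nat_lit 107) (nat_lit 5) (nat_lit 363) (nat_lit 363) (nat_lit 174)) (XT.lf (nat_lit 0) (nat_lit 4078110615) (nat_lit 836) (nat_lit 800178672) (nat_lit 836) (nat_lit 85520259615) (nat_lit 96) (nat_lit 3) (nat_lit 107) (nat_lit 3) (nat_lit 107) (nat_lit 5) (nat_lit 364) (nat_lit 363) (nat_lit 173))))))) (XT.nd (nat_lit 858) (nat_lit 1976) (nat_lit 0) (XT.nd (nat_lit 390) (nat_lit 456) (nat_lit 0) (XT.nd (nat_lit 156) (nat_lit 0) (nat_lit 76) (XT.nd (nat_lit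 78) (nat_lit 0) (nat_lit 0) (XT.lf (nat_lit 0) (nat_lit 5487630958) (nat_lit 760) (nat_lit 49305064865) (nat_lit 836) (nat_lit 37855674117) (nat_lit 97) (nat_lit 5) (nat_lit 107) (nat_lit 5) (nat_lit 108) (nat_lit 5) (nat_lit 365) (nat_lit 363) (nat_lit 172)) (XT.lf (nat_lit 0) (nat_lit 7060878015) (nat_lit 760) (nat_lit 5368752658) (nat_lit 836) (nat_lit 82576389438) (nat_lit 97) (nat_lit 5) (nat_lit 107) (nat_lit 5) (nat_lit 108) (nat_lit 5) (nat_lit 366) (nat_lit 363) (nat_lit 171))) (XT.nd (nat_lit 78) (nat_lit 0) (nat_lit 0) (XT.lf (nat_lit 0) (nat_lit 9880998005) (nat_lit 760) (nat_lit 55847962365) (nat_lit 836) (nat_lit 31694182479) (nat_lit 98) (nat_lit 5) (nat_lit 108) (nat_lit 5) (nat_lit 109) (nat_lit 5) (nat_lit 367) (nat_lit 363) (nat_lit 170)) (XT.nd (nat_lit 78) (nat_lit 0) (nat_lit 76) (XT.lf (nat_lit 0) (nat_lit 13137850936) (nat_lit 760) (nat_lit 9109434018) (nat_lit 836)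 (nat_lit 77699050982) (nat_lit 98) (nat_lit 5) (nat_lit 108) (nat_lit 5) (nat_lit 109) (nat_lit 5) (nat_lit 368) (nat_lit 363) (nat_lit 169)) (XT.lf (nat_lit 0) (nat_lit 17577767475) (nat_lit 760) (nat_lit 61652343539) (nat_lit 836) (nat_lit 23314567146) (nat_lit 99) (nat_lit 5) (nat_lit 109) (nat_lit 5) (nat_lit 110) (nat_lit 5) (nat_lit 369) (nat_lit 363) (nat_lit 168))))) (XT.nd (nat_lit 234) (nat_lit 608) (nat_lit 0) (XT.nd (nat_lit 78) (nat_lit 0) (nat_lit 76) (XT.lf (nat_lit 0) (nat_lit 22760780124) (nat_lit 760) (nat_lit 11922320499) (nat_lit 836) (nat_lit 70563782366) (nat_lit 99) (nat_lit 5) (nat_lit 109) (nat_lit 5) (nat_lit 110) (nat_lit 5) (nat_lit 370) (nat_lit 363) (nat_lit 167)) (XT.nd (nat_lit 78) (nat_lit 0) (nat_lit 0) (XT.lf (nat_lit 0) (nat_lit 29051887818) (nat_lit 760) (nat_lit 66624948776) (nat_lit 836) (nat_lit 12364914727) (nat_lit 100) (nat_lit 5) (nat_lit 110)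 (nat_lit 5) (nat_lit 111) (nat_lit 5) (nat_lit 371) (nat_lit 363) (nat_lit 166)) (XT.lf (nat_lit 0) (nat_lit 36430970622) (nat_lit 760) (nat_lit 13701665115) (nat_lit 836) (nat_lit 60805056806) (nat_lit 100) (nat_lit 5) (nat_lit 110) (nat_lit 5) (nat_lit 111) (nat_lit 5) (nat_lit 372) (nat_lit 363) (nat_lit 165)))) (XT.nd (nat_lit 78) (nat_lit 684) (nat_lit 0) (XT.lf (nat_lit 76) (nat_lit 43251815782) (nat_lit 0) (nat_lit 1602115780) (nat_lit 836) (nat_lit 69090753502) (nat_lit 101) (nat_lit 5) (nat_lit 100) (nat_lit 5) (nat_lit 111) (nat_lit 5) (nat_lit 373) (nat_lit 363) (nat_lit 164)) (XT.nd (nat_lit 78) (nat_lit 760) (nat_lit 0) (XT.lf (nat_lit 0) (nat_lit 54704112977) (nat_lit 760) (nat_lit 14336445139) (nat_lit 76) (nat_lit 48011165891) (nat_lit 101) (nat_lit 5) (nat_lit 111) (nat_lit 5) (nat_lit 102) (nat_lit 5) (nat_lit 374) (nat_lit 363) (nat_lit 163)) (XT.lf (nat_lit 0) (nat_lit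 46292903798) (nat_lit 760) (nat_lit 19502597551) (nat_lit 836) (nat_lit 54481179051) (nat_lit 91) (nat_lit 5) (nat_lit 101) (nat_lit 5) (nat_lit 102) (nat_lit 5) (nat_lit 375) (nat_lit 363) (nat_lit 162)))))) (XT.nd (nat_lit 468) (nat_lit 836) (nat_lit 0) (XT.nd (nat_lit 234) (nat_lit 760) (nat_lit 0) (XT.nd (nat_lit 78) (nat_lit 380) (nat_lit 0) (XT.lf (nat_lit 0) (nat_lit 78195524799) (nat_lit 836) (nat_lit 13711189615) (nat_lit 76) (nat_lit 31718467294) (nat_lit 91) (nat_lit 5) (nat_lit 102) (nat_lit 5) (nat_lit 92) (nat_lit 5) (nat_lit 376) (nat_lit 363) (nat_lit 161)) (XT.nd (nat_lit 78) (nat_lit 0) (nat_lit 0) (XT.lf (nat_lit 0) (nat_lit 50883613835) (nat_lit 380) (nat_lit 41445784468) (nat_lit 456) (nat_lit 34756017694) (nat_lit 86) (nat_lit 5) (nat_lit 91) (nat_lit 5) (nat_lit 92) (nat_lit 5) (nat_lit 377) (nat_lit 363) (nat_lit 160)) (XT.lf (nat_lit 0) (nat_lit 107585829593) (nat_lit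 456) (nat_lit 11707124774) (nat_lit 76) (nat_lit 11404914772) (nat_lit 86) (nat_lit 5) (nat_lit 92) (nat_lit 5) (nat_lit 87) (nat_lit 5) (nat_lit 378) (nat_lit 363) (nat_lit 159)))) (XT.nd (nat_lit 78) (nat_lit 456) (nat_lit 0) (XT.lf (nat_lit 0) (nat_lit 57162104195) (nat_lit 304) (nat_lit 68014600190) (nat_lit 380) (nat_lit 9235659781) (nat_lit 82) (nat_lit 5) (nat_lit 86) (nat_lit 5) (nat_lit 87) (nat_lit 5) (nat_lit 379) (nat_lit 363) (nat_lit 158)) (XT.nd (nat_lit 78) (nat_lit 380) (nat_lit 0) (XT.lf (nat_lit 0) (nat_lit 5365042798) (nat_lit 380) (nat_lit 8508260693) (nat_lit 76) (nat_lit 124425054276) (nat_lit 81) (nat_lit 5) (nat_lit 86) (nat_lit 5) (nat_lit 82) (nat_lit 5) (nat_lit 380) (nat_lit 363) (nat_lit 157)) (XT.lf (nat_lit 0) (nat_lit 22099881611) (nat_lit 456) (nat_lit 77390720866) (nat_lit 76) (nat_lit 42794754648) (nat_lit 76) (nat_lit 5) (nat_lit 82) (nat_lit 5) (nat_lit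 77) (nat_lit 5) (nat_lit 381) (nat_lit 363) (nat_lit 156))))) (XT.nd (nat_lit 234) (nat_lit 228) (nat_lit 0) (XT.nd (nat_lit 78) (nat_lit 608) (nat_lit 0) (XT.lf (nat_lit 0) (nat_lit 40045094382) (nat_lit 456) (nat_lit 4431515961) (nat_lit 76) (nat_lit 101976414776) (nat_lit 76) (nat_lit 5) (nat_lit 82) (nat_lit 5) (nat_lit 77) (nat_lit 5) (nat_lit 382) (nat_lit 363) (nat_lit 155)) (XT.nd (nat_lit 78) (nat_lit 304) (nat_lit 0) (XT.lf (nat_lit 0) (nat_lit 60277993562) (nat_lit 380) (nat_lit 76435610132) (nat_lit 76) (nat_lit 14045951788) (nat_lit 72) (nat_lit 5) (nat_lit 77) (nat_lit 5) (nat_lit 73) (nat_lit 5) (nat_lit 383) (nat_lit 363) (nat_lit 154)) (XT.lf (nat_lit 0) (nat_lit 1201182621) (nat_lit 304) (nat_lit 81145279778) (nat_lit 380) (nat_lit 72893753971) (nat_lit 68) (nat_lit 5) (nat_lit 72) (nat_lit 5) (nat_lit 73) (nat_lit 5) (nat_lit 384) (nat_lit 363) (nat_lit 153)))) (XT.nd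 (nat_lit 78) (nat_lit 228) (nat_lit 0) (XT.lf (nat_lit 0) (nat_lit 85373211588) (nat_lit 304) (nat_lit 21439389903) (nat_lit 380) (nat_lit 53067596703) (nat_lit 68) (nat_lit 5) (nat_lit 72) (nat_lit 5) (nat_lit 73) (nat_lit 5) (nat_lit 385) (nat_lit 363) (nat_lit 152)) (XT.nd (nat_lit 78) (nat_lit 0) (nat_lit 0) (XT.lf (nat_lit 0) (nat_lit 8633665553) (nat_lit 228) (nat_lit 124647016697) (nat_lit 304) (nat_lit 31432565346) (nat_lit 65) (nat_lit 5) (nat_lit 68) (nat_lit 5) (nat_lit 69) (nat_lit 5) (nat_lit 386) (nat_lit 363) (nat_lit 151)) (XT.lf (nat_lit 0) (nat_lit 98154710171) (nat_lit 228) (nat_lit 64524854387) (nat_lit 304) (nat_lit 7028015244) (nat_lit 65) (nat_lit 5) (nat_lit 68) (nat_lit 5) (nat_lit 69) (nat_lit 5) (nat_lit 387) (nat_lit 363) (nat_lit 150))))))))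
noncomputable def xc235 : XT := (XT.nd (nat_lit 1716) (nat_lit 608) (nat_lit 0) (XT.nd (nat_lit 858) (nat_lit 988) (nat_lit 0) (XT.nd (nat_lit 390) (nat_lit 608) (nat_lit 0) (XT.nd (nat_lit 156) (nat_lit 456) (nat_lit 0) (XT.nd (nat_lit 78) (nat_lit 0) (nat_lit 0) (XT.lf (nat_lit 0) (nat_lit 17468675299) (nat_lit 304) (nat_lit 805405095) (nat_lit 380) (nat_lit 156649404510) (nat_lit 60) (nat_lit 5) (nat_lit 64) (nat_lit 5) (nat_lit 65) (nat_lit 5) (nat_lit 388) (nat_lit 363) (nat_lit 149)) (XT.lf (nat_lit 0) (nat_lit 46868548048) (nat_lit 380) (nat_lit 68081496942) (nat_lit 76) (nat_lit 65331207051) (nat_lit 60) (nat_lit 5) (nat_lit 65) (nat_lit 5) (nat_lit 61) (nat_lit 5) (nat_lit 389) (nat_lit 363) (nat_lit 148))) (XT.nd (nat_lit 78) (nat_lit 228) (nat_lit 0) (XT.lf (nat_lit 0) (nat_lit 26598336400) (nat_lit 228) (nat_lit 50722690495) (nat_lit 304) (nat_lit 108564466423) (nat_lit 57)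 (nat_lit 5) (nat_lit 60) (nat_lit 5) (nat_lit 61) (nat_lit 5) (nat_lit 390) (nat_lit 363) (nat_lit 147)) (XT.nd (nat_lit 78) (nat_lit 228) (nat_lit 0) (XT.lf (nat_lit 0) (nat_lit 110728822405) (nat_lit 304) (nat_lit 63616644136) (nat_lit 76) (nat_lit 17352845646) (nat_lit 57) (nat_lit 5) (nat_lit 61) (nat_lit 5) (nat_lit 58) (nat_lit 5) (nat_lit 391) (nat_lit 363) (nat_lit 146)) (XT.lf (nat_lit 0) (nat_lit 37196137013) (nat_lit 228) (nat_lit 110022948992) (nat_lit 304) (nat_lit 50512082238) (nat_lit 54) (nat_lit 5) (nat_lit 57) (nat_lit 5) (nat_lit 58) (nat_lit 5) (nat_lit 392) (nat_lit 363) (nat_lit 145))))) (XT.nd (nat_lit 234) (nat_lit 380) (nat_lit 0) (XT.nd (nat_lit 78) (nat_lit 228) (nat_lit 0) (XT.lf (nat_lit 0) (nat_lit 145257940996) (nat_lit 228) (nat_lit 41353127945) (nat_lit 304) (nat_lit 17400738001) (nat_lit 54) (nat_lit 5) (nat_lit 57) (nat_lit 5) (nat_lit 58) (nat_lit 5)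 (nat_lit 393) (nat_lit 363) (nat_lit 144)) (XT.nd (nat_lit 78) (nat_lit 0) (nat_lit 0) (XT.lf (nat_lit 0) (nat_lit 18079064669) (nat_lit 228) (nat_lit 161624577963) (nat_lit 76) (nat_lit 30825842486) (nat_lit 51) (nat_lit 5) (nat_lit 54) (nat_lit 5) (nat_lit 52) (nat_lit 5) (nat_lit 394) (nat_lit 363) (nat_lit 143)) (XT.lf (nat_lit 0) (nat_lit 56437171862) (nat_lit 228) (nat_lit 54316605430) (nat_lit 76) (nat_lit 106520552479) (nat_lit 51) (nat_lit 5) (nat_lit 54) (nat_lit 5) (nat_lit 52) (nat_lit 5) (nat_lit 395) (nat_lit 363) (nat_lit 142)))) (XT.nd (nat_lit 78) (nat_lit 152) (nat_lit 0) (XT.lf (nat_lit 0) (nat_lit 60286067887) (nat_lit 228) (nat_lit 37368194922) (nat_lit 304) (nat_lit 126655100048) (nat_lit 48) (nat_lit 5) (nat_lit 51) (nat_lit 5) (nat_lit 52) (nat_lit 5) (nat_lit 396) (nat_lit 363) (nat_lit 141)) (XT.nd (nat_lit 78) (nat_lit 152) (nat_lit 0) (XT.lf (nat_lit 0) (nat_lit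 142486633065) (nat_lit 304) (nat_lit 49780460407) (nat_lit 76) (nat_lit 39351333005) (nat_lit 48) (nat_lit 5) (nat_lit 52) (nat_lit 5) (nat_lit 49) (nat_lit 5) (nat_lit 397) (nat_lit 363) (nat_lit 140)) (XT.lf (nat_lit 0) (nat_lit 71861726154) (nat_lit 152) (nat_lit 119433305988) (nat_lit 228) (nat_lit 47911190733) (nat_lit 46) (nat_lit 5) (nat_lit 48) (nat_lit 5) (nat_lit 49) (nat_lit 5) (nat_lit 398) (nat_lit 363) (nat_lit 139)))))) (XT.nd (nat_lit 390) (nat_lit 532) (nat_lit 0) (XT.nd (nat_lit 156) (nat_lit 152) (nat_lit 0) (XT.nd (nat_lit 78) (nat_lit 304) (nat_lit 0) (XT.lf (nat_lit 0) (nat_lit 201314070381) (nat_lit 152) (nat_lit 42072694554) (nat_lit 228) (nat_lit 3744498576) (nat_lit 46) (nat_lit 5) (nat_lit 48) (nat_lit 5) (nat_lit 49) (nat_lit 5) (nat_lit 399) (nat_lit 363) (nat_lit 138)) (XT.lf (nat_lit 0) (nat_lit 43218038456) (nat_lit 304) (nat_lit 172194658863) (nat_lit 76)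 (nat_lit 39908982184) (nat_lit 42) (nat_lit 5) (nat_lit 46) (nat_lit 5) (nat_lit 43) (nat_lit 5) (nat_lit 400) (nat_lit 363) (nat_lit 137))) (XT.nd (nat_lit 78) (nat_lit 152) (nat_lit 0) (XT.lf (nat_lit 0) (nat_lit 93881099764) (nat_lit 304) (nat_lit 44537740133) (nat_lit 76) (nat_lit 125425795373) (nat_lit 42) (nat_lit 5) (nat_lit 46) (nat_lit 5) (nat_lit 43) (nat_lit 5) (nat_lit 401) (nat_lit 363) (nat_lit 136)) (XT.nd (nat_lit 78) (nat_lit 0) (nat_lit 0) (XT.lf (nat_lit 0) (nat_lit 92461155661) (nat_lit 152) (nat_lit 56059606926) (nat_lit 228) (nat_lit 124200803904) (nat_lit 40) (nat_lit 5) (nat_lit 42) (nat_lit 5) (nat_lit 43) (nat_lit 5) (nat_lit 402) (nat_lit 363) (nat_lit 135)) (XT.lf (nat_lit 0) (nat_lit 207133818144) (nat_lit 228) (nat_lit 44635858942) (nat_lit 76) (nat_lit 30210596790) (nat_lit 40) (nat_lit 5) (nat_lit 43) (nat_lit 5) (nat_lit 41) (nat_lit 5) (nat_lit 403) (nat_lit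 363) (nat_lit 134))))) (XT.nd (nat_lit 234) (nat_lit 152) (nat_lit 0) (XT.nd (nat_lit 78) (nat_lit 228) (nat_lit 0) (XT.lf (nat_lit 0) (nat_lit 100053037146) (nat_lit 152) (nat_lit 171105486230) (nat_lit 228) (nat_lit 20419343489) (nat_lit 38) (nat_lit 5) (nat_lit 40) (nat_lit 5) (nat_lit 41) (nat_lit 5) (nat_lit 404) (nat_lit 363) (nat_lit 133)) (XT.nd (nat_lit 78) (nat_lit 152) (nat_lit 0) (XT.lf (nat_lit 0) (nat_lit 36321764569) (nat_lit 228) (nat_lit 48677541981) (nat_lit 76) (nat_lit 216588950719) (nat_lit 37) (nat_lit 5) (nat_lit 40) (nat_lit 5) (nat_lit 38) (nat_lit 5) (nat_lit 405) (nat_lit 363) (nat_lit 132)) (XT.lf (nat_lit 0) (nat_lit 96958938737) (nat_lit 228) (nat_lit 207801746476) (nat_lit 76) (nat_lit 7234483155) (nat_lit 35) (nat_lit 5) (nat_lit 38) (nat_lit 5) (nat_lit 36) (nat_lit 5) (nat_lit 406) (nat_lit 363) (nat_lit 131)))) (XT.nd (nat_lit 78) (nat_lit 152) (nat_lit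 0) (XT.lf (nat_lit 0) (nat_lit 162859181601) (nat_lit 228) (nat_lit 57890432052) (nat_lit 76) (nat_lit 102061250934) (nat_lit 35) (nat_lit 5) (nat_lit 38) (nat_lit 5) (nat_lit 36) (nat_lit 5) (nat_lit 407) (nat_lit 363) (nat_lit 130)) (XT.nd (nat_lit 78) (nat_lit 0) (nat_lit 0) (XT.lf (nat_lit 0) (nat_lit 102806725763) (nat_lit 152) (nat_lit 130852703968) (nat_lit 228) (nat_lit 100427666293) (nat_lit 33) (nat_lit 5) (nat_lit 35) (nat_lit 5) (nat_lit 36) (nat_lit 5) (nat_lit 408) (nat_lit 363) (nat_lit 129)) (XT.lf (nat_lit 0) (nat_lit 273548389853) (nat_lit 152) (nat_lit 35431597293) (nat_lit 228) (nat_lit 36898137102) (nat_lit 33) (nat_lit 5) (nat_lit 35) (nat_lit 5) (nat_lit 36) (nat_lit 5) (nat_lit 409) (nat_lit 363) (nat_lit 128))))))) (XT.nd (nat_lit 43446) (nat_lit 0) (nat_lit 5016) (XT.nd (nat_lit 390) (nat_lit 228) (nat_lit 0) (XT.nd (nat_lit 156) (nat_lit 228) (nat_lit 0) (XT.nd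 (nat_lit 78) (nat_lit 0) (nat_lit 0) (XT.lf (nat_lit 0) (nat_lit 31415120519) (nat_lit 152) (nat_lit 261988810985) (nat_lit 76) (nat_lit 64703438719) (nat_lit 31) (nat_lit 5) (nat_lit 33) (nat_lit 5) (nat_lit 32) (nat_lit 5) (nat_lit 410) (nat_lit 363) (nat_lit 127)) (XT.lf (nat_lit 0) (nat_lit 103729786417) (nat_lit 152) (nat_lit 96592426181) (nat_lit 76) (nat_lit 170504333335) (nat_lit 31) (nat_lit 5) (nat_lit 33) (nat_lit 5) (nat_lit 32) (nat_lit 5) (nat_lit 411) (nat_lit 363) (nat_lit 126))) (XT.nd (nat_lit 78) (nat_lit 76) (nat_lit 0) (XT.lf (nat_lit 0) (nat_lit 79622014895) (nat_lit 152) (nat_lit 101281197205) (nat_lit 228) (nat_lit 203216317055) (nat_lit 29) (nat_lit 5) (nat_lit 31) (nat_lit 5) (nat_lit 32) (nat_lit 5) (nat_lit 412) (nat_lit 363) (nat_lit 125)) (XT.nd (nat_lit 78) (nat_lit 76) (nat_lit 0) (XT.lf (nat_lit 0) (nat_lit 263640210155) (nat_lit 228) (nat_lit 130064043264)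 (nat_lit 76) (nat_lit 4287663111) (nat_lit 29) (nat_lit 5) (nat_lit 32) (nat_lit 5) (nat_lit 30) (nat_lit 4) (nat_lit 413) (nat_lit 363) (nat_lit 124)) (XT.lf (nat_lit 0) (nat_lit 53131123712) (nat_lit 76) (nat_lit 299872716868) (nat_lit 152) (nat_lit 59429593614) (nat_lit 28) (nat_lit 5) (nat_lit 29) (nat_lit 5) (nat_lit 30) (nat_lit 4) (nat_lit 414) (nat_lit 363) (nat_lit 123))))) (XT.nd (nat_lit 234) (nat_lit 0) (nat_lit 0) (XT.nd (nat_lit 78) (nat_lit 152) (nat_lit 0) (XT.lf (nat_lit 0) (nat_lit 20861585579) (nat_lit 152) (nat_lit 177821950910) (nat_lit 76) (nat_lit 228786537004) (nat_lit 27) (nat_lit 5) (nat_lit 29) (nat_lit 5) (nat_lit 28) (nat_lit 5) (nat_lit 415) (nat_lit 363) (nat_lit 122)) (XT.nd (nat_lit 78) (nat_lit 0) (nat_lit 0) (XT.lf (nat_lit 0) (nat_lit 12146793471) (nat_lit 152) (nat_lit 91212865639) (nat_lit 228) (nat_lit 339840694932) (nat_lit 25) (nat_lit 5) (nat_lit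 27) (nat_lit 5) (nat_lit 28) (nat_lit 5) (nat_lit 416) (nat_lit 363) (nat_lit 121)) (XT.lf (nat_lit 0) (nat_lit 193381146502) (nat_lit 228) (nat_lit 242166268195) (nat_lit 76) (nat_lit 23999808448) (nat_lit 25) (nat_lit 5) (nat_lit 28) (nat_lit 5) (nat_lit 26) (nat_lit 4) (nat_lit 417) (nat_lit 363) (nat_lit 120)))) (XT.nd (nat_lit 42666) (nat_lit 0) (nat_lit 5396) (XT.lf (nat_lit 0) (nat_lit 289398919922) (nat_lit 228) (nat_lit 45330048464) (nat_lit 76) (nat_lit 141907706769) (nat_lit 25) (nat_lit 5) (nat_lit 28) (nat_lit 5) (nat_lit 26) (nat_lit 4) (nat_lit 418) (nat_lit 363) (nat_lit 119)) (XT.nd (nat_lit 78) (nat_lit 0) (nat_lit 0) (XT.lf (nat_lit 0) (nat_lit 2092616356) (nat_lit 836) (nat_lit 22104441626) (nat_lit 836) (nat_lit 22104441626) (nat_lit 96) (nat_lit 3) (nat_lit 107) (nat_lit 3) (nat_lit 107) (nat_lit 5) (nat_lit 364) (nat_lit 364) (nat_lit 172)) (XT.lf (nat_lit 0) (nat_lit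 4297216685) (nat_lit 836) (nat_lit 832197849) (nat_lit 836) (nat_lit 89788282839) (nat_lit 96) (nat_lit 3) (nat_lit 107) (nat_lit 3) (nat_lit 107) (nat_lit 5) (nat_lit 365) (nat_lit 364) (nat_lit 171)))))) (XT.nd (nat_lit 468) (nat_lit 456) (nat_lit 0) (XT.nd (nat_lit 234) (nat_lit 0) (nat_lit 76) (XT.nd (nat_lit 78) (nat_lit 0) (nat_lit 0) (XT.lf (nat_lit 0) (nat_lit 5776506733) (nat_lit 760) (nat_lit 51761603995) (nat_lit 836) (nat_lit 39741934953) (nat_lit 97) (nat_lit 5) (nat_lit 107) (nat_lit 5) (nat_lit 108) (nat_lit 5) (nat_lit 366) (nat_lit 364) (nat_lit 170)) (XT.nd (nat_lit 78) (nat_lit 0) (nat_lit 76) (XT.lf (nat_lit 0) (nat_lit 7427725942) (nat_lit 760) (nat_lit 5628891136) (nat_lit 836) (nat_lit 86698996653) (nat_lit 97) (nat_lit 5) (nat_lit 107) (nat_lit 5) (nat_lit 108) (nat_lit 5) (nat_lit 367) (nat_lit 364) (nat_lit 169)) (XT.lf (nat_lit 0) (nat_lit 10388242316) (nat_lit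 760) (nat_lit 58631435346) (nat_lit 836) (nat_lit 33273946242) (nat_lit 98) (nat_lit 5) (nat_lit 108) (nat_lit 5) (nat_lit 109) (nat_lit 5) (nat_lit 368) (nat_lit 364) (nat_lit 168)))) (XT.nd (nat_lit 78) (nat_lit 0) (nat_lit 76) (XT.lf (nat_lit 0) (nat_lit 13807309588) (nat_lit 760) (nat_lit 9556405588) (nat_lit 836) (nat_lit 81579293663) (nat_lit 98) (nat_lit 5) (nat_lit 108) (nat_lit 5) (nat_lit 109) (nat_lit 5) (nat_lit 369) (nat_lit 364) (nat_lit 167)) (XT.nd (nat_lit 78) (nat_lit 0) (nat_lit 0) (XT.lf (nat_lit 0) (nat_lit 18468695821) (nat_lit 760) (nat_lit 64725919607) (nat_lit 836) (nat_lit 24476679797) (nat_lit 99) (nat_lit 5) (nat_lit 109) (nat_lit 5) (nat_lit 110) (nat_lit 5) (nat_lit 370) (nat_lit 364) (nat_lit 166)) (XT.lf (nat_lit 0) (nat_lit 23910285770) (nat_lit 760) (nat_lit 12509825943) (nat_lit 836) (nat_lit 74088527955) (nat_lit 99) (nat_lit 5) (nat_lit 109) (nat_lit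 5) (nat_lit 110) (nat_lit 5) (nat_lit 371) (nat_lit 364) (nat_lit 165))))) (XT.nd (nat_lit 234) (nat_lit 684) (nat_lit 0) (XT.nd (nat_lit 78) (nat_lit 0) (nat_lit 0) (XT.lf (nat_lit 0) (nat_lit 30515494786) (nat_lit 760) (nat_lit 69947118107) (nat_lit 836) (nat_lit 12980661901) (nat_lit 100) (nat_lit 5) (nat_lit 110) (nat_lit 5) (nat_lit 111) (nat_lit 5) (nat_lit 372) (nat_lit 364) (nat_lit 164)) (XT.nd (nat_lit 78) (nat_lit 0) (nat_lit 0) (XT.lf (nat_lit 0) (nat_lit 38263007322) (nat_lit 760) (nat_lit 14378102553) (nat_lit 836) (nat_lit 63842930063) (nat_lit 100) (nat_lit 5) (nat_lit 110) (nat_lit 5) (nat_lit 111) (nat_lit 5) (nat_lit 373) (nat_lit 364) (nat_lit 163)) (XT.lf (nat_lit 76) (nat_lit 45422912940) (nat_lit 0) (nat_lit 1683836741) (nat_lit 836) (nat_lit 72534651347) (nat_lit 101) (nat_lit 5) (nat_lit 100) (nat_lit 5) (nat_lit 111) (nat_lit 5) (nat_lit 374) (nat_lit 364) (nat_lit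 162)))) (XT.nd (nat_lit 78) (nat_lit 760) (nat_lit 0) (XT.lf (nat_lit 0) (nat_lit 57448934172) (nat_lit 760) (nat_lit 15044648467) (nat_lit 76) (nat_lit 50410235161) (nat_lit 101) (nat_lit 5) (nat_lit 111) (nat_lit 5) (nat_lit 102) (nat_lit 5) (nat_lit 375) (nat_lit 364) (nat_lit 161)) (XT.nd (nat_lit 78) (nat_lit 0) (nat_lit 0) (XT.lf (nat_lit 0) (nat_lit 48616028902) (nat_lit 760) (nat_lit 20478537572) (nat_lit 836) (nat_lit 57195472366) (nat_lit 91) (nat_lit 5) (nat_lit 101) (nat_lit 5) (nat_lit 102) (nat_lit 5) (nat_lit 376) (nat_lit 364) (nat_lit 160)) (XT.lf (nat_lit 0) (nat_lit 82114136667) (nat_lit 836) (nat_lit 14388208007) (nat_lit 76) (nat_lit 33303643788) (nat_lit 91) (nat_lit 5) (nat_lit 102) (nat_lit 5) (nat_lit 92) (nat_lit 5) (nat_lit 377) (nat_lit 364) (nat_lit 159))))))))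
noncomputable def xc236 : XT := (XT.nd (nat_lit 1716) (nat_lit 1596) (nat_lit 0) (XT.nd (nat_lit 858) (nat_lit 1444) (nat_lit 0) (XT.nd (nat_lit 390) (nat_lit 836) (nat_lit 0) (XT.nd (nat_lit 156) (nat_lit 760) (nat_lit 0) (XT.nd (nat_lit 78) (nat_lit 0) (nat_lit 0) (XT.lf (nat_lit 0) (nat_lit 53436197856) (nat_lit 380) (nat_lit 43518216445) (nat_lit 456) (nat_lit 36484835144) (nat_lit 86) (nat_lit 5) (nat_lit 91) (nat_lit 5) (nat_lit 92) (nat_lit 5) (nat_lit 378) (nat_lit 364) (nat_lit 158)) (XT.lf (nat_lit 0) (nat_lit 112973258076) (nat_lit 456) (nat_lit 12284059193) (nat_lit 76) (nat_lit 11975028906) (nat_lit 86) (nat_lit 5) (nat_lit 92) (nat_lit 5) (nat_lit 87) (nat_lit 5) (nat_lit 379) (nat_lit 364) (nat_lit 157))) (XT.nd (nat_lit 78) (nat_lit 456) (nat_lit 0) (XT.lf (nat_lit 0) (nat_lit 60028495388) (nat_lit 304) (nat_lit 71414923111) (nat_lit 380) (nat_lit 9689160817) (nat_lit 82)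 (nat_lit 5) (nat_lit 86) (nat_lit 5) (nat_lit 87) (nat_lit 5) (nat_lit 380) (nat_lit 364) (nat_lit 156)) (XT.nd (nat_lit 78) (nat_lit 380) (nat_lit 0) (XT.lf (nat_lit 0) (nat_lit 5640930061) (nat_lit 380) (nat_lit 8925521597) (nat_lit 76) (nat_lit 130646433975) (nat_lit 81) (nat_lit 5) (nat_lit 86) (nat_lit 5) (nat_lit 82) (nat_lit 5) (nat_lit 381) (nat_lit 364) (nat_lit 155)) (XT.lf (nat_lit 0) (nat_lit 23212282203) (nat_lit 456) (nat_lit 81251868294) (nat_lit 76) (nat_lit 44935096287) (nat_lit 76) (nat_lit 5) (nat_lit 82) (nat_lit 5) (nat_lit 77) (nat_lit 5) (nat_lit 382) (nat_lit 364) (nat_lit 154))))) (XT.nd (nat_lit 234) (nat_lit 228) (nat_lit 0) (XT.nd (nat_lit 78) (nat_lit 608) (nat_lit 0) (XT.lf (nat_lit 0) (nat_lit 42054402921) (nat_lit 456) (nat_lit 4645102602) (nat_lit 76) (nat_lit 107075810664) (nat_lit 76) (nat_lit 5) (nat_lit 82) (nat_lit 5) (nat_lit 77) (nat_lit 5) (nat_lit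 383) (nat_lit 364) (nat_lit 153)) (XT.nd (nat_lit 78) (nat_lit 304) (nat_lit 0) (XT.lf (nat_lit 0) (nat_lit 63298749805) (nat_lit 380) (nat_lit 80249197085) (nat_lit 76) (nat_lit 14749236397) (nat_lit 72) (nat_lit 5) (nat_lit 77) (nat_lit 5) (nat_lit 73) (nat_lit 5) (nat_lit 384) (nat_lit 364) (nat_lit 152)) (XT.lf (nat_lit 0) (nat_lit 1269303152) (nat_lit 304) (nat_lit 85201138290) (nat_lit 380) (nat_lit 76531446150) (nat_lit 68) (nat_lit 5) (nat_lit 72) (nat_lit 5) (nat_lit 73) (nat_lit 5) (nat_lit 385) (nat_lit 364) (nat_lit 151)))) (XT.nd (nat_lit 78) (nat_lit 228) (nat_lit 0) (XT.lf (nat_lit 0) (nat_lit 89649549691) (nat_lit 304) (nat_lit 22510020849) (nat_lit 380) (nat_lit 55714314139) (nat_lit 68) (nat_lit 5) (nat_lit 72) (nat_lit 5) (nat_lit 73) (nat_lit 5) (nat_lit 386) (nat_lit 364) (nat_lit 150)) (XT.nd (nat_lit 78) (nat_lit 0) (nat_lit 0) (XT.lf (nat_lit 0) (nat_lit 9073200170)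 (nat_lit 228) (nat_lit 130877695795) (nat_lit 304) (nat_lit 32997698862) (nat_lit 65) (nat_lit 5) (nat_lit 68) (nat_lit 5) (nat_lit 69) (nat_lit 5) (nat_lit 387) (nat_lit 364) (nat_lit 149)) (XT.lf (nat_lit 0) (nat_lit 103069923147) (nat_lit 228) (nat_lit 67749504975) (nat_lit 304) (nat_lit 7373230529) (nat_lit 65) (nat_lit 5) (nat_lit 68) (nat_lit 5) (nat_lit 69) (nat_lit 5) (nat_lit 388) (nat_lit 364) (nat_lit 148)))))) (XT.nd (nat_lit 390) (nat_lit 608) (nat_lit 0) (XT.nd (nat_lit 156) (nat_lit 456) (nat_lit 0) (XT.nd (nat_lit 78) (nat_lit 0) (nat_lit 0) (XT.lf (nat_lit 0) (nat_lit 18349666212) (nat_lit 304) (nat_lit 843938574) (nat_lit 380) (nat_lit 164475758015) (nat_lit 60) (nat_lit 5) (nat_lit 64) (nat_lit 5) (nat_lit 65) (nat_lit 5) (nat_lit 389) (nat_lit 364) (nat_lit 147)) (XT.lf (nat_lit 0) (nat_lit 49217544487) (nat_lit 380) (nat_lit 71478118094) (nat_lit 76) (nat_lit 68599368535)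 (nat_lit 60) (nat_lit 5) (nat_lit 65) (nat_lit 5) (nat_lit 61) (nat_lit 5) (nat_lit 390) (nat_lit 364) (nat_lit 146))) (XT.nd (nat_lit 78) (nat_lit 228) (nat_lit 0) (XT.lf (nat_lit 0) (nat_lit 27935586694) (nat_lit 228) (nat_lit 53256909886) (nat_lit 304) (nat_lit 113986995653) (nat_lit 57) (nat_lit 5) (nat_lit 60) (nat_lit 5) (nat_lit 61) (nat_lit 5) (nat_lit 391) (nat_lit 364) (nat_lit 145)) (XT.nd (nat_lit 78) (nat_lit 228) (nat_lit 0) (XT.lf (nat_lit 0) (nat_lit 116270452327) (nat_lit 304) (nat_lit 66790257940) (nat_lit 76) (nat_lit 18222253487) (nat_lit 57) (nat_lit 5) (nat_lit 61) (nat_lit 5) (nat_lit 58) (nat_lit 5) (nat_lit 392) (nat_lit 364) (nat_lit 144)) (XT.lf (nat_lit 0) (nat_lit 39063045841) (nat_lit 228) (nat_lit 115522047061) (nat_lit 304) (nat_lit 53032376739) (nat_lit 54) (nat_lit 5) (nat_lit 57) (nat_lit 5) (nat_lit 58) (nat_lit 5) (nat_lit 393) (nat_lit 364) (nat_lit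 143))))) (XT.nd (nat_lit 234) (nat_lit 380) (nat_lit 0) (XT.nd (nat_lit 78) (nat_lit 228) (nat_lit 0) (XT.lf (nat_lit 0) (nat_lit 152527601834) (nat_lit 228) (nat_lit 43418832552) (nat_lit 304) (nat_lit 18265718129) (nat_lit 54) (nat_lit 5) (nat_lit 57) (nat_lit 5) (nat_lit 58) (nat_lit 5) (nat_lit 394) (nat_lit 364) (nat_lit 142)) (XT.nd (nat_lit 78) (nat_lit 0) (nat_lit 0) (XT.lf (nat_lit 0) (nat_lit 18987818180) (nat_lit 228) (nat_lit 169698778816) (nat_lit 76) (nat_lit 32369118578) (nat_lit 51) (nat_lit 5) (nat_lit 54) (nat_lit 5) (nat_lit 52) (nat_lit 5) (nat_lit 395) (nat_lit 364) (nat_lit 141)) (XT.lf (nat_lit 0) (nat_lit 59263602148) (nat_lit 228) (nat_lit 57025742324) (nat_lit 76) (nat_lit 111848469595) (nat_lit 51) (nat_lit 5) (nat_lit 54) (nat_lit 5) (nat_lit 52) (nat_lit 5) (nat_lit 396) (nat_lit 364) (nat_lit 140)))) (XT.nd (nat_lit 78) (nat_lit 152) (nat_lit 0) (XT.lf (nat_lit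 0) (nat_lit 63306956700) (nat_lit 228) (nat_lit 39234476059) (nat_lit 304) (nat_lit 132983171965) (nat_lit 48) (nat_lit 5) (nat_lit 51) (nat_lit 5) (nat_lit 52) (nat_lit 5) (nat_lit 397) (nat_lit 364) (nat_lit 139)) (XT.nd (nat_lit 78) (nat_lit 152) (nat_lit 0) (XT.lf (nat_lit 0) (nat_lit 149615240951) (nat_lit 304) (nat_lit 52263027750) (nat_lit 76) (nat_lit 41320862018) (nat_lit 48) (nat_lit 5) (nat_lit 52) (nat_lit 5) (nat_lit 49) (nat_lit 5) (nat_lit 398) (nat_lit 364) (nat_lit 138)) (XT.lf (nat_lit 0) (nat_lit 75461164015) (nat_lit 152) (nat_lit 125402791502) (nat_lit 228) (nat_lit 50302366798) (nat_lit 46) (nat_lit 5) (nat_lit 48) (nat_lit 5) (nat_lit 49) (nat_lit 5) (nat_lit 399) (nat_lit 364) (nat_lit 137))))))) (XT.nd (nat_lit 858) (nat_lit 608) (nat_lit 0) (XT.nd (nat_lit 390) (nat_lit 532) (nat_lit 0) (XT.nd (nat_lit 156) (nat_lit 152) (nat_lit 0) (XT.nd (nat_lit 78) (nat_lit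 304) (nat_lit 0) (XT.lf (nat_lit 0) (nat_lit 211385822999) (nat_lit 152) (nat_lit 44174253295) (nat_lit 228) (nat_lit 3927548770) (nat_lit 46) (nat_lit 5) (nat_lit 48) (nat_lit 5) (nat_lit 49) (nat_lit 5) (nat_lit 400) (nat_lit 364) (nat_lit 136)) (XT.lf (nat_lit 0) (nat_lit 45382917522) (nat_lit 304) (nat_lit 180798139599) (nat_lit 76) (nat_lit 41906504810) (nat_lit 42) (nat_lit 5) (nat_lit 46) (nat_lit 5) (nat_lit 43) (nat_lit 5) (nat_lit 401) (nat_lit 364) (nat_lit 135))) (XT.nd (nat_lit 78) (nat_lit 152) (nat_lit 0) (XT.lf (nat_lit 0) (nat_lit 98578942507) (nat_lit 304) (nat_lit 46758672657) (nat_lit 76) (nat_lit 131699059919) (nat_lit 42) (nat_lit 5) (nat_lit 46) (nat_lit 5) (nat_lit 43) (nat_lit 5) (nat_lit 402) (nat_lit 364) (nat_lit 134)) (XT.nd (nat_lit 78) (nat_lit 0) (nat_lit 0) (XT.lf (nat_lit 0) (nat_lit 97090071887) (nat_lit 152) (nat_lit 58860427682) (nat_lit 228) (nat_lit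 130406957863) (nat_lit 40) (nat_lit 5) (nat_lit 42) (nat_lit 5) (nat_lit 43) (nat_lit 5) (nat_lit 403) (nat_lit 364) (nat_lit 133)) (XT.lf (nat_lit 0) (nat_lit 217494063880) (nat_lit 228) (nat_lit 46861926070) (nat_lit 76) (nat_lit 31723117554) (nat_lit 40) (nat_lit 5) (nat_lit 43) (nat_lit 5) (nat_lit 41) (nat_lit 5) (nat_lit 404) (nat_lit 364) (nat_lit 132))))) (XT.nd (nat_lit 234) (nat_lit 152) (nat_lit 0) (XT.nd (nat_lit 78) (nat_lit 228) (nat_lit 0) (XT.lf (nat_lit 0) (nat_lit 105061322470) (nat_lit 152) (nat_lit 179658600580) (nat_lit 228) (nat_lit 21436661269) (nat_lit 38) (nat_lit 5) (nat_lit 40) (nat_lit 5) (nat_lit 41) (nat_lit 5) (nat_lit 405) (nat_lit 364) (nat_lit 131)) (XT.nd (nat_lit 78) (nat_lit 152) (nat_lit 0) (XT.lf (nat_lit 0) (nat_lit 38141217170) (nat_lit 228) (nat_lit 51105940624) (nat_lit 76) (nat_lit 227420342112) (nat_lit 37) (nat_lit 5) (nat_lit 40) (nat_lit 5)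 (nat_lit 38) (nat_lit 5) (nat_lit 406) (nat_lit 364) (nat_lit 130)) (XT.lf (nat_lit 0) (nat_lit 101810206807) (nat_lit 228) (nat_lit 218186310192) (nat_lit 76) (nat_lit 7598241818) (nat_lit 35) (nat_lit 5) (nat_lit 38) (nat_lit 5) (nat_lit 36) (nat_lit 5) (nat_lit 407) (nat_lit 364) (nat_lit 129)))) (XT.nd (nat_lit 78) (nat_lit 152) (nat_lit 0) (XT.lf (nat_lit 0) (nat_lit 171005303665) (nat_lit 228) (nat_lit 60779693076) (nat_lit 76) (nat_lit 107166251104) (nat_lit 35) (nat_lit 5) (nat_lit 38) (nat_lit 5) (nat_lit 36) (nat_lit 5) (nat_lit 408) (nat_lit 364) (nat_lit 128)) (XT.nd (nat_lit 78) (nat_lit 0) (nat_lit 0) (XT.lf (nat_lit 0) (nat_lit 107952237782) (nat_lit 152) (nat_lit 137393256609) (nat_lit 228) (nat_lit 105445800041) (nat_lit 33) (nat_lit 5) (nat_lit 35) (nat_lit 5) (nat_lit 36) (nat_lit 5) (nat_lit 409) (nat_lit 364) (nat_lit 127)) (XT.lf (nat_lit 0) (nat_lit 287230738613)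 (nat_lit 152) (nat_lit 37201193770) (nat_lit 228) (nat_lit 38739949131) (nat_lit 33) (nat_lit 5) (nat_lit 35) (nat_lit 5) (nat_lit 36) (nat_lit 5) (nat_lit 410) (nat_lit 364) (nat_lit 126)))))) (XT.nd (nat_lit 468) (nat_lit 152) (nat_lit 0) (XT.nd (nat_lit 234) (nat_lit 152) (nat_lit 0) (XT.nd (nat_lit 78) (nat_lit 152) (nat_lit 0) (XT.lf (nat_lit 0) (nat_lit 32988838437) (nat_lit 152) (nat_lit 275083186262) (nat_lit 76) (nat_lit 67940564441) (nat_lit 31) (nat_lit 5) (nat_lit 33) (nat_lit 5) (nat_lit 32) (nat_lit 5) (nat_lit 411) (nat_lit 364) (nat_lit 125)) (XT.nd (nat_lit 78) (nat_lit 152) (nat_lit 0) (XT.lf (nat_lit 0) (nat_lit 108919096588) (nat_lit 152) (nat_lit 101417223422) (nat_lit 76) (nat_lit 179031410751) (nat_lit 31) (nat_lit 5) (nat_lit 33) (nat_lit 5) (nat_lit 32) (nat_lit 5) (nat_lit 412) (nat_lit 364) (nat_lit 124)) (XT.lf (nat_lit 0) (nat_lit 83607861901) (nat_lit 152)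 (nat_lit 106343271431) (nat_lit 228) (nat_lit 213374232891) (nat_lit 29) (nat_lit 5) (nat_lit 31) (nat_lit 5) (nat_lit 32) (nat_lit 5) (nat_lit 413) (nat_lit 364) (nat_lit 123)))) (XT.nd (nat_lit 78) (nat_lit 152) (nat_lit 0) (XT.lf (nat_lit 0) (nat_lit 276824879356) (nat_lit 228) (nat_lit 136562621951) (nat_lit 76) (nat_lit 4503876821) (nat_lit 29) (nat_lit 5) (nat_lit 32) (nat_lit 5) (nat_lit 30) (nat_lit 4) (nat_lit 414) (nat_lit 364) (nat_lit 122)) (XT.nd (nat_lit 78) (nat_lit 76) (nat_lit 0) (XT.lf (nat_lit 0) (nat_lit 55792228802) (nat_lit 76) (nat_lit 314864406917) (nat_lit 152) (nat_lit 62398338797) (nat_lit 28) (nat_lit 5) (nat_lit 29) (nat_lit 5) (nat_lit 30) (nat_lit 4) (nat_lit 415) (nat_lit 364) (nat_lit 121)) (XT.lf (nat_lit 0) (nat_lit 21907185789) (nat_lit 152) (nat_lit 186708631694) (nat_lit 76) (nat_lit 240227632520) (nat_lit 27) (nat_lit 5) (nat_lit 29) (nat_lit 5) (nat_lit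 28) (nat_lit 5) (nat_lit 416) (nat_lit 364) (nat_lit 120))))) (XT.nd (nat_lit 42978) (nat_lit 0) (nat_lit 5472) (XT.nd (nat_lit 42822) (nat_lit 0) (nat_lit 5396) (XT.lf (nat_lit 0) (nat_lit 12758478668) (nat_lit 152) (nat_lit 95771632129) (nat_lit 228) (nat_lit 356830136445) (nat_lit 25) (nat_lit 5) (nat_lit 27) (nat_lit 5) (nat_lit 28) (nat_lit 5) (nat_lit 417) (nat_lit 364) (nat_lit 119)) (XT.nd (nat_lit 78) (nat_lit 0) (nat_lit 0) (XT.lf (nat_lit 0) (nat_lit 2204485525) (nat_lit 836) (nat_lit 23205859061) (nat_lit 836) (nat_lit 23205859061) (nat_lit 96) (nat_lit 3) (nat_lit 107) (nat_lit 3) (nat_lit 107) (nat_lit 5) (nat_lit 365) (nat_lit 365) (nat_lit 170)) (XT.lf (nat_lit 0) (nat_lit 4525864856) (nat_lit 836) (nat_lit 866560797) (nat_lit 836) (nat_lit 94270450036) (nat_lit 96) (nat_lit 3) (nat_lit 107) (nat_lit 3) (nat_lit 107) (nat_lit 5) (nat_lit 366) (nat_lit 365) (nat_lit 169))))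 (XT.nd (nat_lit 78) (nat_lit 0) (nat_lit 0) (XT.lf (nat_lit 0) (nat_lit 6078478761) (nat_lit 760) (nat_lit 54341780238) (nat_lit 836) (nat_lit 41723115265) (nat_lit 97) (nat_lit 5) (nat_lit 107) (nat_lit 5) (nat_lit 108) (nat_lit 5) (nat_lit 367) (nat_lit 365) (nat_lit 168)) (XT.nd (nat_lit 78) (nat_lit 0) (nat_lit 76) (XT.lf (nat_lit 0) (nat_lit 7811632898) (nat_lit 760) (nat_lit 5902808114) (nat_lit 836) (nat_lit 91028311786) (nat_lit 97) (nat_lit 5) (nat_lit 107) (nat_lit 5) (nat_lit 108) (nat_lit 5) (nat_lit 368) (nat_lit 365) (nat_lit 167)) (XT.lf (nat_lit 0) (nat_lit 10919622151) (nat_lit 760) (nat_lit 61554911751) (nat_lit 836) (nat_lit 34933157966) (nat_lit 98) (nat_lit 5) (nat_lit 108) (nat_lit 5) (nat_lit 109) (nat_lit 5) (nat_lit 369) (nat_lit 365) (nat_lit 166))))))))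
noncomputable def xc237 : XT := (XT.nd (nat_lit 1716) (nat_lit 2356) (nat_lit 0) (XT.nd (nat_lit 858) (nat_lit 1976) (nat_lit 0) (XT.nd (nat_lit 390) (nat_lit 912) (nat_lit 0) (XT.nd (nat_lit 156) (nat_lit 0) (nat_lit 76) (XT.nd (nat_lit 78) (nat_lit 0) (nat_lit 76) (XT.lf (nat_lit 0) (nat_lit 14509072896) (nat_lit 760) (nat_lit 10026515998) (nat_lit 836) (nat_lit 85653986358) (nat_lit 98) (nat_lit 5) (nat_lit 108) (nat_lit 5) (nat_lit 109) (nat_lit 5) (nat_lit 370) (nat_lit 365) (nat_lit 165)) (XT.lf (nat_lit 0) (nat_lit 19403051221) (nat_lit 760) (nat_lit 67954015035) (nat_lit 836) (nat_lit 25697234235) (nat_lit 99) (nat_lit 5) (nat_lit 109) (nat_lit 5) (nat_lit 110) (nat_lit 5) (nat_lit 371) (nat_lit 365) (nat_lit 164))) (XT.nd (nat_lit 78) (nat_lit 0) (nat_lit 76) (XT.lf (nat_lit 0) (nat_lit 25116200639) (nat_lit 760) (nat_lit 13127507190) (nat_lit 836) (nat_lit 77789830969) (nat_lit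 99) (nat_lit 5) (nat_lit 109) (nat_lit 5) (nat_lit 110) (nat_lit 5) (nat_lit 372) (nat_lit 365) (nat_lit 163)) (XT.nd (nat_lit 78) (nat_lit 0) (nat_lit 0) (XT.lf (nat_lit 0) (nat_lit 32051258257) (nat_lit 760) (nat_lit 73436239901) (nat_lit 836) (nat_lit 13627428726) (nat_lit 100) (nat_lit 5) (nat_lit 110) (nat_lit 5) (nat_lit 111) (nat_lit 5) (nat_lit 373) (nat_lit 365) (nat_lit 162)) (XT.lf (nat_lit 0) (nat_lit 40185670766) (nat_lit 760) (nat_lit 15089165670) (nat_lit 836) (nat_lit 67032918214) (nat_lit 100) (nat_lit 5) (nat_lit 110) (nat_lit 5) (nat_lit 111) (nat_lit 5) (nat_lit 374) (nat_lit 365) (nat_lit 161))))) (XT.nd (nat_lit 234) (nat_lit 380) (nat_lit 0) (XT.nd (nat_lit 78) (nat_lit 684) (nat_lit 0) (XT.lf (nat_lit 76) (nat_lit 47701774114) (nat_lit 0) (nat_lit 1769493587) (nat_lit 836) (nat_lit 76151733275) (nat_lit 101) (nat_lit 5) (nat_lit 100) (nat_lit 5) (nat_lit 111) (nat_lit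 5) (nat_lit 375) (nat_lit 365) (nat_lit 160)) (XT.nd (nat_lit 78) (nat_lit 760) (nat_lit 0) (XT.lf (nat_lit 0) (nat_lit 60330102464) (nat_lit 760) (nat_lit 15789063267) (nat_lit 76) (nat_lit 52929396329) (nat_lit 101) (nat_lit 5) (nat_lit 111) (nat_lit 5) (nat_lit 102) (nat_lit 5) (nat_lit 376) (nat_lit 365) (nat_lit 159)) (XT.lf (nat_lit 0) (nat_lit 51054521880) (nat_lit 760) (nat_lit 21503199274) (nat_lit 836) (nat_lit 60046388262) (nat_lit 91) (nat_lit 5) (nat_lit 101) (nat_lit 5) (nat_lit 102) (nat_lit 5) (nat_lit 377) (nat_lit 365) (nat_lit 158)))) (XT.nd (nat_lit 78) (nat_lit 380) (nat_lit 0) (XT.lf (nat_lit 0) (nat_lit 86227857675) (nat_lit 836) (nat_lit 15099871388) (nat_lit 76) (nat_lit 34968148545) (nat_lit 91) (nat_lit 5) (nat_lit 102) (nat_lit 5) (nat_lit 92) (nat_lit 5) (nat_lit 378) (nat_lit 365) (nat_lit 157)) (XT.nd (nat_lit 78) (nat_lit 0) (nat_lit 0) (XT.lf (nat_lit 0)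 (nat_lit 56115629817) (nat_lit 380) (nat_lit 45694256749) (nat_lit 456) (nat_lit 38300928661) (nat_lit 86) (nat_lit 5) (nat_lit 91) (nat_lit 5) (nat_lit 92) (nat_lit 5) (nat_lit 379) (nat_lit 365) (nat_lit 156)) (XT.lf (nat_lit 0) (nat_lit 118629301483) (nat_lit 456) (nat_lit 12890623314) (nat_lit 76) (nat_lit 12573660983) (nat_lit 86) (nat_lit 5) (nat_lit 92) (nat_lit 5) (nat_lit 87) (nat_lit 5) (nat_lit 380) (nat_lit 365) (nat_lit 155)))))) (XT.nd (nat_lit 390) (nat_lit 912) (nat_lit 0) (XT.nd (nat_lit 156) (nat_lit 684) (nat_lit 0) (XT.nd (nat_lit 78) (nat_lit 76) (nat_lit 0) (XT.lf (nat_lit 0) (nat_lit 63037435789) (nat_lit 304) (nat_lit 74985300025) (nat_lit 380) (nat_lit 10166106882) (nat_lit 82) (nat_lit 5) (nat_lit 86) (nat_lit 5) (nat_lit 87) (nat_lit 5) (nat_lit 381) (nat_lit 365) (nat_lit 154)) (XT.lf (nat_lit 0) (nat_lit 5929901846) (nat_lit 380) (nat_lit 9364403454) (nat_lit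 76) (nat_lit 137178870854) (nat_lit 81) (nat_lit 5) (nat_lit 86) (nat_lit 5) (nat_lit 82) (nat_lit 5) (nat_lit 382) (nat_lit 365) (nat_lit 153))) (XT.nd (nat_lit 78) (nat_lit 304) (nat_lit 0) (XT.lf (nat_lit 0) (nat_lit 24379614236) (nat_lit 456) (nat_lit 85306852987) (nat_lit 76) (nat_lit 47182398863) (nat_lit 76) (nat_lit 5) (nat_lit 82) (nat_lit 5) (nat_lit 77) (nat_lit 5) (nat_lit 383) (nat_lit 365) (nat_lit 152)) (XT.nd (nat_lit 78) (nat_lit 304) (nat_lit 0) (XT.lf (nat_lit 0) (nat_lit 44163521090) (nat_lit 456) (nat_lit 4870111330) (nat_lit 76) (nat_lit 112430122875) (nat_lit 76) (nat_lit 5) (nat_lit 82) (nat_lit 5) (nat_lit 77) (nat_lit 5) (nat_lit 384) (nat_lit 365) (nat_lit 151)) (XT.lf (nat_lit 0) (nat_lit 66469906401) (nat_lit 380) (nat_lit 84254225145) (nat_lit 76) (nat_lit 15487593473) (nat_lit 72) (nat_lit 5) (nat_lit 77) (nat_lit 5) (nat_lit 73) (nat_lit 5) (nat_lit 385)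 (nat_lit 365) (nat_lit 150))))) (XT.nd (nat_lit 234) (nat_lit 380) (nat_lit 0) (XT.nd (nat_lit 78) (nat_lit 228) (nat_lit 0) (XT.lf (nat_lit 0) (nat_lit 1340080237) (nat_lit 304) (nat_lit 89459920395) (nat_lit 380) (nat_lit 80351673315) (nat_lit 68) (nat_lit 5) (nat_lit 72) (nat_lit 5) (nat_lit 73) (nat_lit 5) (nat_lit 386) (nat_lit 365) (nat_lit 149)) (XT.nd (nat_lit 78) (nat_lit 228) (nat_lit 0) (XT.lf (nat_lit 0) (nat_lit 94138990916) (nat_lit 304) (nat_lit 23634307787) (nat_lit 380) (nat_lit 58493986853) (nat_lit 68) (nat_lit 5) (nat_lit 72) (nat_lit 5) (nat_lit 73) (nat_lit 5) (nat_lit 387) (nat_lit 365) (nat_lit 148)) (XT.lf (nat_lit 0) (nat_lit 9533981576) (nat_lit 228) (nat_lit 137420064269) (nat_lit 304) (nat_lit 34641692874) (nat_lit 65) (nat_lit 5) (nat_lit 68) (nat_lit 5) (nat_lit 69) (nat_lit 5) (nat_lit 388) (nat_lit 365) (nat_lit 147)))) (XT.nd (nat_lit 78) (nat_lit 380)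 (nat_lit 0) (XT.lf (nat_lit 0) (nat_lit 108230201587) (nat_lit 228) (nat_lit 71135536115) (nat_lit 304) (nat_lit 7736281645) (nat_lit 65) (nat_lit 5) (nat_lit 68) (nat_lit 5) (nat_lit 69) (nat_lit 5) (nat_lit 389) (nat_lit 365) (nat_lit 146)) (XT.nd (nat_lit 78) (nat_lit 0) (nat_lit 0) (XT.lf (nat_lit 0) (nat_lit 19274004078) (nat_lit 304) (nat_lit 884560196) (nat_lit 380) (nat_lit 172693997871) (nat_lit 60) (nat_lit 5) (nat_lit 64) (nat_lit 5) (nat_lit 65) (nat_lit 5) (nat_lit 390) (nat_lit 365) (nat_lit 145)) (XT.lf (nat_lit 0) (nat_lit 51683472992) (nat_lit 380) (nat_lit 75045263278) (nat_lit 76) (nat_lit 72030789234) (nat_lit 60) (nat_lit 5) (nat_lit 65) (nat_lit 5) (nat_lit 61) (nat_lit 5) (nat_lit 391) (nat_lit 365) (nat_lit 144))))))) (XT.nd (nat_lit 858) (nat_lit 988) (nat_lit 0) (XT.nd (nat_lit 390) (nat_lit 684) (nat_lit 0) (XT.nd (nat_lit 156) (nat_lit 456) (nat_lit 0) (XT.nd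 (nat_lit 78) (nat_lit 0) (nat_lit 0) (XT.lf (nat_lit 0) (nat_lit 29339017705) (nat_lit 228) (nat_lit 55918018299) (nat_lit 304) (nat_lit 119681180728) (nat_lit 57) (nat_lit 5) (nat_lit 60) (nat_lit 5) (nat_lit 61) (nat_lit 5) (nat_lit 392) (nat_lit 365) (nat_lit 143)) (XT.lf (nat_lit 0) (nat_lit 122088681339) (nat_lit 304) (nat_lit 70123223533) (nat_lit 76) (nat_lit 19134967575) (nat_lit 57) (nat_lit 5) (nat_lit 61) (nat_lit 5) (nat_lit 58) (nat_lit 5) (nat_lit 393) (nat_lit 365) (nat_lit 142))) (XT.nd (nat_lit 78) (nat_lit 228) (nat_lit 0) (XT.lf (nat_lit 0) (nat_lit 41022639836) (nat_lit 228) (nat_lit 121296290566) (nat_lit 304) (nat_lit 55679179603) (nat_lit 54) (nat_lit 5) (nat_lit 57) (nat_lit 5) (nat_lit 58) (nat_lit 5) (nat_lit 394) (nat_lit 365) (nat_lit 141)) (XT.nd (nat_lit 78) (nat_lit 228) (nat_lit 0) (XT.lf (nat_lit 0) (nat_lit 160160116881) (nat_lit 228) (nat_lit 45588003848)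 (nat_lit 304) (nat_lit 19174417393) (nat_lit 54) (nat_lit 5) (nat_lit 57) (nat_lit 5) (nat_lit 58) (nat_lit 5) (nat_lit 395) (nat_lit 365) (nat_lit 140)) (XT.lf (nat_lit 0) (nat_lit 19941563083) (nat_lit 228) (nat_lit 178177343112) (nat_lit 76) (nat_lit 33989374024) (nat_lit 51) (nat_lit 5) (nat_lit 54) (nat_lit 5) (nat_lit 52) (nat_lit 5) (nat_lit 396) (nat_lit 365) (nat_lit 139))))) (XT.nd (nat_lit 234) (nat_lit 456) (nat_lit 0) (XT.nd (nat_lit 78) (nat_lit 228) (nat_lit 0) (XT.lf (nat_lit 0) (nat_lit 62230928915) (nat_lit 228) (nat_lit 59870958351) (nat_lit 76) (nat_lit 117442606901) (nat_lit 51) (nat_lit 5) (nat_lit 54) (nat_lit 5) (nat_lit 52) (nat_lit 5) (nat_lit 397) (nat_lit 365) (nat_lit 138)) (XT.nd (nat_lit 78) (nat_lit 0) (nat_lit 0) (XT.lf (nat_lit 0) (nat_lit 66478277704) (nat_lit 228) (nat_lit 41194269151) (nat_lit 304) (nat_lit 139628082867) (nat_lit 48) (nat_lit 5) (nat_lit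 51) (nat_lit 5) (nat_lit 52) (nat_lit 5) (nat_lit 398) (nat_lit 365) (nat_lit 137)) (XT.lf (nat_lit 0) (nat_lit 157099881667) (nat_lit 304) (nat_lit 54870323648) (nat_lit 76) (nat_lit 43388685039) (nat_lit 48) (nat_lit 5) (nat_lit 52) (nat_lit 5) (nat_lit 49) (nat_lit 5) (nat_lit 399) (nat_lit 365) (nat_lit 136)))) (XT.nd (nat_lit 78) (nat_lit 304) (nat_lit 0) (XT.lf (nat_lit 0) (nat_lit 79239983261) (nat_lit 152) (nat_lit 131670953947) (nat_lit 228) (nat_lit 52813509201) (nat_lit 46) (nat_lit 5) (nat_lit 48) (nat_lit 5) (nat_lit 49) (nat_lit 5) (nat_lit 400) (nat_lit 365) (nat_lit 135)) (XT.nd (nat_lit 78) (nat_lit 304) (nat_lit 0) (XT.lf (nat_lit 0) (nat_lit 221960600859) (nat_lit 152) (nat_lit 46381082979) (nat_lit 228) (nat_lit 4120139601) (nat_lit 46) (nat_lit 5) (nat_lit 48) (nat_lit 5) (nat_lit 49) (nat_lit 5) (nat_lit 401) (nat_lit 365) (nat_lit 134)) (XT.lf (nat_lit 0) (nat_lit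 47655670784) (nat_lit 304) (nat_lit 189832375643) (nat_lit 76) (nat_lit 44003710791) (nat_lit 42) (nat_lit 5) (nat_lit 46) (nat_lit 5) (nat_lit 43) (nat_lit 5) (nat_lit 402) (nat_lit 365) (nat_lit 133)))))) (XT.nd (nat_lit 468) (nat_lit 456) (nat_lit 0) (XT.nd (nat_lit 234) (nat_lit 380) (nat_lit 0) (XT.nd (nat_lit 78) (nat_lit 152) (nat_lit 0) (XT.lf (nat_lit 0) (nat_lit 103511325238) (nat_lit 304) (nat_lit 49091205398) (nat_lit 76) (nat_lit 138285804097) (nat_lit 42) (nat_lit 5) (nat_lit 46) (nat_lit 5) (nat_lit 43) (nat_lit 5) (nat_lit 403) (nat_lit 365) (nat_lit 132)) (XT.nd (nat_lit 78) (nat_lit 0) (nat_lit 0) (XT.lf (nat_lit 0) (nat_lit 101949889262) (nat_lit 152) (nat_lit 61801490253) (nat_lit 228) (nat_lit 136923780826) (nat_lit 40) (nat_lit 5) (nat_lit 42) (nat_lit 5) (nat_lit 43) (nat_lit 5) (nat_lit 404) (nat_lit 365) (nat_lit 131)) (XT.lf (nat_lit 0) (nat_lit 228371991408) (nat_lit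 228) (nat_lit 49199828888) (nat_lit 76) (nat_lit 33311079258) (nat_lit 40) (nat_lit 5) (nat_lit 43) (nat_lit 5) (nat_lit 41) (nat_lit 5) (nat_lit 405) (nat_lit 365) (nat_lit 130)))) (XT.nd (nat_lit 78) (nat_lit 228) (nat_lit 0) (XT.lf (nat_lit 0) (nat_lit 110319498314) (nat_lit 152) (nat_lit 188639571460) (nat_lit 228) (nat_lit 22505184225) (nat_lit 38) (nat_lit 5) (nat_lit 40) (nat_lit 5) (nat_lit 41) (nat_lit 5) (nat_lit 406) (nat_lit 365) (nat_lit 129)) (XT.nd (nat_lit 78) (nat_lit 152) (nat_lit 0) (XT.lf (nat_lit 0) (nat_lit 40051329613) (nat_lit 228) (nat_lit 53656268534) (nat_lit 76) (nat_lit 238793122353) (nat_lit 37) (nat_lit 5) (nat_lit 40) (nat_lit 5) (nat_lit 38) (nat_lit 5) (nat_lit 407) (nat_lit 365) (nat_lit 128)) (XT.lf (nat_lit 0) (nat_lit 106903729513) (nat_lit 228) (nat_lit 229090615627) (nat_lit 76) (nat_lit 7979999265) (nat_lit 35) (nat_lit 5) (nat_lit 38) (nat_lit 5)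 (nat_lit 36) (nat_lit 5) (nat_lit 408) (nat_lit 365) (nat_lit 127))))) (XT.nd (nat_lit 234) (nat_lit 304) (nat_lit 0) (XT.nd (nat_lit 78) (nat_lit 152) (nat_lit 0) (XT.lf (nat_lit 0) (nat_lit 179558437768) (nat_lit 228) (nat_lit 63813906230) (nat_lit 76) (nat_lit 112526321142) (nat_lit 35) (nat_lit 5) (nat_lit 38) (nat_lit 5) (nat_lit 36) (nat_lit 5) (nat_lit 409) (nat_lit 365) (nat_lit 126)) (XT.nd (nat_lit 78) (nat_lit 0) (nat_lit 0) (XT.lf (nat_lit 0) (nat_lit 113354544211) (nat_lit 152) (nat_lit 144261030498) (nat_lit 228) (nat_lit 110715142590) (nat_lit 33) (nat_lit 5) (nat_lit 35) (nat_lit 5) (nat_lit 36) (nat_lit 5) (nat_lit 410) (nat_lit 365) (nat_lit 125)) (XT.lf (nat_lit 0) (nat_lit 301596746534) (nat_lit 152) (nat_lit 39059454467) (nat_lit 228) (nat_lit 40674139490) (nat_lit 33) (nat_lit 5) (nat_lit 35) (nat_lit 5) (nat_lit 36) (nat_lit 5) (nat_lit 411) (nat_lit 365) (nat_lit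 124)))) (XT.nd (nat_lit 78) (nat_lit 152) (nat_lit 0) (XT.lf (nat_lit 0) (nat_lit 34640966883) (nat_lit 152) (nat_lit 288832751223) (nat_lit 76) (nat_lit 71339364805) (nat_lit 31) (nat_lit 5) (nat_lit 33) (nat_lit 5) (nat_lit 32) (nat_lit 5) (nat_lit 412) (nat_lit 365) (nat_lit 123)) (XT.nd (nat_lit 78) (nat_lit 152) (nat_lit 0) (XT.lf (nat_lit 0) (nat_lit 114367610012) (nat_lit 152) (nat_lit 106483709020) (nat_lit 76) (nat_lit 187984669042) (nat_lit 31) (nat_lit 5) (nat_lit 33) (nat_lit 5) (nat_lit 32) (nat_lit 5) (nat_lit 413) (nat_lit 365) (nat_lit 122)) (XT.lf (nat_lit 0) (nat_lit 87792559995) (nat_lit 152) (nat_lit 111658633973) (nat_lit 228) (nat_lit 224040314134) (nat_lit 29) (nat_lit 5) (nat_lit 31) (nat_lit 5) (nat_lit 32) (nat_lit 5) (nat_lit 414) (nat_lit 365) (nat_lit 121))))))))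
noncomputable def xc238 : XT := (XT.nd (nat_lit 44538) (nat_lit 0) (nat_lit 836) (XT.nd (nat_lit 43680) (nat_lit 0) (nat_lit 3724) (XT.nd (nat_lit 43212) (nat_lit 0) (nat_lit 5320) (XT.nd (nat_lit 156) (nat_lit 76) (nat_lit 0) (XT.nd (nat_lit 78) (nat_lit 76) (nat_lit 0) (XT.lf (nat_lit 0) (nat_lit 290668534836) (nat_lit 228) (nat_lit 143386559418) (nat_lit 76) (nat_lit 4730731029) (nat_lit 29) (nat_lit 5) (nat_lit 32) (nat_lit 5) (nat_lit 30) (nat_lit 4) (nat_lit 415) (nat_lit 365) (nat_lit 120)) (XT.lf (nat_lit 0) (nat_lit 58585966233) (nat_lit 76) (nat_lit 330605862370) (nat_lit 152) (nat_lit 65515775466) (nat_lit 28) (nat_lit 5) (nat_lit 29) (nat_lit 5) (nat_lit 30) (nat_lit 4) (nat_lit 416) (nat_lit 365) (nat_lit 119))) (XT.nd (nat_lit 42900) (nat_lit 0) (nat_lit 5244) (XT.lf (nat_lit 0) (nat_lit 23004831637) (nat_lit 152) (nat_lit 196040057146) (nat_lit 76) (nat_lit 252240618378)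 (nat_lit 27) (nat_lit 5) (nat_lit 29) (nat_lit 5) (nat_lit 28) (nat_lit 5) (nat_lit 417) (nat_lit 365) (nat_lit 118)) (XT.nd (nat_lit 78) (nat_lit 0) (nat_lit 0) (XT.lf (nat_lit 0) (nat_lit 2321275200) (nat_lit 836) (nat_lit 24362701088) (nat_lit 836) (nat_lit 24362701088) (nat_lit 96) (nat_lit 3) (nat_lit 107) (nat_lit 3) (nat_lit 107) (nat_lit 5) (nat_lit 366) (nat_lit 366) (nat_lit 168)) (XT.lf (nat_lit 0) (nat_lit 4764663621) (nat_lit 836) (nat_lit 903315645) (nat_lit 836) (nat_lit 98977399346) (nat_lit 96) (nat_lit 3) (nat_lit 107) (nat_lit 3) (nat_lit 107) (nat_lit 5) (nat_lit 367) (nat_lit 366) (nat_lit 167))))) (XT.nd (nat_lit 234) (nat_lit 0) (nat_lit 76) (XT.nd (nat_lit 78) (nat_lit 0) (nat_lit 0) (XT.lf (nat_lit 0) (nat_lit 6394327136) (nat_lit 760) (nat_lit 57051700127) (nat_lit 836) (nat_lit 43803904647) (nat_lit 97) (nat_lit 5) (nat_lit 107) (nat_lit 5) (nat_lit 108) (nat_lit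 5) (nat_lit 368) (nat_lit 366) (nat_lit 166)) (XT.nd (nat_lit 78) (nat_lit 0) (nat_lit 76) (XT.lf (nat_lit 0) (nat_lit 8213571149) (nat_lit 760) (nat_lit 6191120784) (nat_lit 836) (nat_lit 95574616536) (nat_lit 97) (nat_lit 5) (nat_lit 107) (nat_lit 5) (nat_lit 108) (nat_lit 5) (nat_lit 369) (nat_lit 366) (nat_lit 165)) (XT.lf (nat_lit 0) (nat_lit 11476458333) (nat_lit 760) (nat_lit 64625314606) (nat_lit 836) (nat_lit 36675747304) (nat_lit 98) (nat_lit 5) (nat_lit 108) (nat_lit 5) (nat_lit 109) (nat_lit 5) (nat_lit 370) (nat_lit 366) (nat_lit 164)))) (XT.nd (nat_lit 78) (nat_lit 0) (nat_lit 76) (XT.lf (nat_lit 0) (nat_lit 15244864707) (nat_lit 760) (nat_lit 10520848720) (nat_lit 836) (nat_lit 89932810857) (nat_lit 98) (nat_lit 5) (nat_lit 108) (nat_lit 5) (nat_lit 109) (nat_lit 5) (nat_lit 371) (nat_lit 366) (nat_lit 163)) (XT.nd (nat_lit 78) (nat_lit 0) (nat_lit 0) (XT.lf (nat_lit 0) (nat_lit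 20383109097) (nat_lit 760) (nat_lit 71344277643) (nat_lit 836) (nat_lit 26979121296) (nat_lit 99) (nat_lit 5) (nat_lit 109) (nat_lit 5) (nat_lit 110) (nat_lit 5) (nat_lit 372) (nat_lit 366) (nat_lit 162)) (XT.lf (nat_lit 0) (nat_lit 26381444304) (nat_lit 760) (nat_lit 13776798604) (nat_lit 836) (nat_lit 81676489517) (nat_lit 99) (nat_lit 5) (nat_lit 109) (nat_lit 5) (nat_lit 110) (nat_lit 5) (nat_lit 373) (nat_lit 366) (nat_lit 161)))))) (XT.nd (nat_lit 390) (nat_lit 1140) (nat_lit 0) (XT.nd (nat_lit 156) (nat_lit 684) (nat_lit 0) (XT.nd (nat_lit 78) (nat_lit 0) (nat_lit 0) (XT.lf (nat_lit 0) (nat_lit 33662881244) (nat_lit 760) (nat_lit 77100583314) (nat_lit 836) (nat_lit 14306744589) (nat_lit 100) (nat_lit 5) (nat_lit 110) (nat_lit 5) (nat_lit 111) (nat_lit 5) (nat_lit 374) (nat_lit 366) (nat_lit 160)) (XT.lf (nat_lit 0) (nat_lit 42203582947) (nat_lit 760) (nat_lit 15836511018) (nat_lit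 836) (nat_lit 70382606435) (nat_lit 100) (nat_lit 5) (nat_lit 110) (nat_lit 5) (nat_lit 111) (nat_lit 5) (nat_lit 375) (nat_lit 366) (nat_lit 159))) (XT.nd (nat_lit 78) (nat_lit 684) (nat_lit 0) (XT.lf (nat_lit 76) (nat_lit 50093861030) (nat_lit 0) (nat_lit 1859297072) (nat_lit 836) (nat_lit 79950566524) (nat_lit 101) (nat_lit 5) (nat_lit 100) (nat_lit 5) (nat_lit 111) (nat_lit 5) (nat_lit 376) (nat_lit 366) (nat_lit 158)) (XT.nd (nat_lit 78) (nat_lit 760) (nat_lit 0) (XT.lf (nat_lit 0) (nat_lit 63354518320) (nat_lit 760) (nat_lit 16571425615) (nat_lit 76) (nat_lit 55574641121) (nat_lit 101) (nat_lit 5) (nat_lit 111) (nat_lit 5) (nat_lit 102) (nat_lit 5) (nat_lit 377) (nat_lit 366) (nat_lit 157)) (XT.lf (nat_lit 0) (nat_lit 53614224420) (nat_lit 760) (nat_lit 22579025745) (nat_lit 836) (nat_lit 63040673461) (nat_lit 91) (nat_lit 5) (nat_lit 101) (nat_lit 5) (nat_lit 102) (nat_lit 5) (nat_lit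 378) (nat_lit 366) (nat_lit 156))))) (XT.nd (nat_lit 234) (nat_lit 760) (nat_lit 0) (XT.nd (nat_lit 78) (nat_lit 380) (nat_lit 0) (XT.lf (nat_lit 0) (nat_lit 90546519651) (nat_lit 836) (nat_lit 15847838182) (nat_lit 76) (nat_lit 36715941520) (nat_lit 91) (nat_lit 5) (nat_lit 102) (nat_lit 5) (nat_lit 92) (nat_lit 5) (nat_lit 379) (nat_lit 366) (nat_lit 155)) (XT.nd (nat_lit 78) (nat_lit 0) (nat_lit 0) (XT.lf (nat_lit 0) (nat_lit 58928324748) (nat_lit 380) (nat_lit 47979087030) (nat_lit 456) (nat_lit 40208584400) (nat_lit 86) (nat_lit 5) (nat_lit 91) (nat_lit 5) (nat_lit 92) (nat_lit 5) (nat_lit 380) (nat_lit 366) (nat_lit 154)) (XT.lf (nat_lit 0) (nat_lit 124567460890) (nat_lit 456) (nat_lit 13528225828) (nat_lit 76) (nat_lit 13202235761) (nat_lit 86) (nat_lit 5) (nat_lit 92) (nat_lit 5) (nat_lit 87) (nat_lit 5) (nat_lit 381) (nat_lit 366) (nat_lit 153)))) (XT.nd (nat_lit 78) (nat_lit 456)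 (nat_lit 0) (XT.lf (nat_lit 0) (nat_lit 66196124478) (nat_lit 304) (nat_lit 78734230113) (nat_lit 380) (nat_lit 10667598642) (nat_lit 82) (nat_lit 5) (nat_lit 86) (nat_lit 5) (nat_lit 87) (nat_lit 5) (nat_lit 382) (nat_lit 366) (nat_lit 152)) (XT.nd (nat_lit 78) (nat_lit 380) (nat_lit 0) (XT.lf (nat_lit 0) (nat_lit 6232678373) (nat_lit 380) (nat_lit 9825916848) (nat_lit 76) (nat_lit 144037918867) (nat_lit 81) (nat_lit 5) (nat_lit 86) (nat_lit 5) (nat_lit 82) (nat_lit 5) (nat_lit 383) (nat_lit 366) (nat_lit 151)) (XT.lf (nat_lit 0) (nat_lit 25604688303) (nat_lit 456) (nat_lit 89565294302) (nat_lit 76) (nat_lit 49542015641) (nat_lit 76) (nat_lit 5) (nat_lit 82) (nat_lit 5) (nat_lit 77) (nat_lit 5) (nat_lit 384) (nat_lit 366) (nat_lit 150))))))) (XT.nd (nat_lit 858) (nat_lit 1216) (nat_lit 0) (XT.nd (nat_lit 390) (nat_lit 836) (nat_lit 0) (XT.nd (nat_lit 156) (nat_lit 532) (nat_lit 0) (XT.nd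 (nat_lit 78) (nat_lit 304) (nat_lit 0) (XT.lf (nat_lit 0) (nat_lit 46377500340) (nat_lit 456) (nat_lit 5107044197) (nat_lit 76) (nat_lit 118052102195) (nat_lit 76) (nat_lit 5) (nat_lit 82) (nat_lit 5) (nat_lit 77) (nat_lit 5) (nat_lit 385) (nat_lit 366) (nat_lit 149)) (XT.lf (nat_lit 0) (nat_lit 69799042634) (nat_lit 380) (nat_lit 88460195545) (nat_lit 76) (nat_lit 16262785171) (nat_lit 72) (nat_lit 5) (nat_lit 77) (nat_lit 5) (nat_lit 73) (nat_lit 5) (nat_lit 386) (nat_lit 366) (nat_lit 148))) (XT.nd (nat_lit 78) (nat_lit 228) (nat_lit 0) (XT.lf (nat_lit 0) (nat_lit 1413716382) (nat_lit 304) (nat_lit 93931760126) (nat_lit 380) (nat_lit 84363501750) (nat_lit 68) (nat_lit 5) (nat_lit 72) (nat_lit 5) (nat_lit 73) (nat_lit 5) (nat_lit 387) (nat_lit 366) (nat_lit 147)) (XT.nd (nat_lit 78) (nat_lit 228) (nat_lit 0) (XT.lf (nat_lit 0) (nat_lit 98852256780) (nat_lit 304) (nat_lit 24814921949)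 (nat_lit 380) (nat_lit 61413205023) (nat_lit 68) (nat_lit 5) (nat_lit 72) (nat_lit 5) (nat_lit 73) (nat_lit 5) (nat_lit 388) (nat_lit 366) (nat_lit 146)) (XT.lf (nat_lit 0) (nat_lit 10017139972) (nat_lit 228) (nat_lit 144289692141) (nat_lit 304) (nat_lit 36368434270) (nat_lit 65) (nat_lit 5) (nat_lit 68) (nat_lit 5) (nat_lit 69) (nat_lit 5) (nat_lit 389) (nat_lit 366) (nat_lit 145))))) (XT.nd (nat_lit 234) (nat_lit 456) (nat_lit 0) (XT.nd (nat_lit 78) (nat_lit 380) (nat_lit 0) (XT.lf (nat_lit 0) (nat_lit 113647863396) (nat_lit 228) (nat_lit 74691003071) (nat_lit 304) (nat_lit 8118006920) (nat_lit 65) (nat_lit 5) (nat_lit 68) (nat_lit 5) (nat_lit 69) (nat_lit 5) (nat_lit 390) (nat_lit 366) (nat_lit 144)) (XT.nd (nat_lit 78) (nat_lit 0) (nat_lit 0) (XT.lf (nat_lit 0) (nat_lit 20243921566) (nat_lit 304) (nat_lit 927359357) (nat_lit 380) (nat_lit 181323665524) (nat_lit 60) (nat_lit 5) (nat_lit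 64) (nat_lit 5) (nat_lit 65) (nat_lit 5) (nat_lit 391) (nat_lit 366) (nat_lit 143)) (XT.lf (nat_lit 0) (nat_lit 54272228302) (nat_lit 380) (nat_lit 78791394270) (nat_lit 76) (nat_lit 75633645951) (nat_lit 60) (nat_lit 5) (nat_lit 65) (nat_lit 5) (nat_lit 61) (nat_lit 5) (nat_lit 392) (nat_lit 366) (nat_lit 142)))) (XT.nd (nat_lit 78) (nat_lit 228) (nat_lit 0) (XT.lf (nat_lit 0) (nat_lit 30812001857) (nat_lit 228) (nat_lit 58712343629) (nat_lit 304) (nat_lit 125660555222) (nat_lit 57) (nat_lit 5) (nat_lit 60) (nat_lit 5) (nat_lit 61) (nat_lit 5) (nat_lit 393) (nat_lit 366) (nat_lit 141)) (XT.nd (nat_lit 78) (nat_lit 228) (nat_lit 0) (XT.lf (nat_lit 0) (nat_lit 128197384245) (nat_lit 304) (nat_lit 73623446111) (nat_lit 76) (nat_lit 20093168484) (nat_lit 57) (nat_lit 5) (nat_lit 61) (nat_lit 5) (nat_lit 58) (nat_lit 5) (nat_lit 394) (nat_lit 366) (nat_lit 140)) (XT.lf (nat_lit 0) (nat_lit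 43079614642) (nat_lit 228) (nat_lit 127359419065) (nat_lit 304) (nat_lit 58458770353) (nat_lit 54) (nat_lit 5) (nat_lit 57) (nat_lit 5) (nat_lit 58) (nat_lit 5) (nat_lit 395) (nat_lit 366) (nat_lit 139)))))) (XT.nd (nat_lit 468) (nat_lit 608) (nat_lit 0) (XT.nd (nat_lit 234) (nat_lit 380) (nat_lit 0) (XT.nd (nat_lit 78) (nat_lit 228) (nat_lit 0) (XT.lf (nat_lit 0) (nat_lit 168173687310) (nat_lit 228) (nat_lit 47865798298) (nat_lit 304) (nat_lit 20128978044) (nat_lit 54) (nat_lit 5) (nat_lit 57) (nat_lit 5) (nat_lit 58) (nat_lit 5) (nat_lit 396) (nat_lit 366) (nat_lit 138)) (XT.nd (nat_lit 78) (nat_lit 0) (nat_lit 0) (XT.lf (nat_lit 0) (nat_lit 20942590437) (nat_lit 228) (nat_lit 187080428277) (nat_lit 76) (nat_lit 35690474940) (nat_lit 51) (nat_lit 5) (nat_lit 54) (nat_lit 5) (nat_lit 52) (nat_lit 5) (nat_lit 397) (nat_lit 366) (nat_lit 137)) (XT.lf (nat_lit 0) (nat_lit 65346236504) (nat_lit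 228) (nat_lit 62858999611) (nat_lit 76) (nat_lit 123316291736) (nat_lit 51) (nat_lit 5) (nat_lit 54) (nat_lit 5) (nat_lit 52) (nat_lit 5) (nat_lit 398) (nat_lit 366) (nat_lit 136)))) (XT.nd (nat_lit 78) (nat_lit 152) (nat_lit 0) (XT.lf (nat_lit 0) (nat_lit 69807609430) (nat_lit 228) (nat_lit 43252231397) (nat_lit 304) (nat_lit 146605634225) (nat_lit 48) (nat_lit 5) (nat_lit 51) (nat_lit 5) (nat_lit 52) (nat_lit 5) (nat_lit 399) (nat_lit 366) (nat_lit 135)) (XT.nd (nat_lit 78) (nat_lit 152) (nat_lit 0) (XT.lf (nat_lit 0) (nat_lit 164958393817) (nat_lit 304) (nat_lit 57608528729) (nat_lit 76) (nat_lit 45559733732) (nat_lit 48) (nat_lit 5) (nat_lit 52) (nat_lit 5) (nat_lit 49) (nat_lit 5) (nat_lit 400) (nat_lit 366) (nat_lit 134)) (XT.lf (nat_lit 0) (nat_lit 83207207863) (nat_lit 152) (nat_lit 138252708329) (nat_lit 228) (nat_lit 55450578368) (nat_lit 46) (nat_lit 5) (nat_lit 48) (nat_lit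 5) (nat_lit 49) (nat_lit 5) (nat_lit 401) (nat_lit 366) (nat_lit 133))))) (XT.nd (nat_lit 234) (nat_lit 304) (nat_lit 0) (XT.nd (nat_lit 78) (nat_lit 304) (nat_lit 0) (XT.lf (nat_lit 0) (nat_lit 233063607510) (nat_lit 152) (nat_lit 48698429208) (nat_lit 228) (nat_lit 4322712017) (nat_lit 46) (nat_lit 5) (nat_lit 48) (nat_lit 5) (nat_lit 49) (nat_lit 5) (nat_lit 402) (nat_lit 366) (nat_lit 132)) (XT.nd (nat_lit 78) (nat_lit 0) (nat_lit 0) (XT.lf (nat_lit 0) (nat_lit 50041726328) (nat_lit 304) (nat_lit 199318850718) (nat_lit 76) (nat_lit 46205602217) (nat_lit 42) (nat_lit 5) (nat_lit 46) (nat_lit 5) (nat_lit 43) (nat_lit 5) (nat_lit 403) (nat_lit 366) (nat_lit 131)) (XT.lf (nat_lit 0) (nat_lit 108690007695) (nat_lit 304) (nat_lit 51540866900) (nat_lit 76) (nat_lit 145201718956) (nat_lit 42) (nat_lit 5) (nat_lit 46) (nat_lit 5) (nat_lit 43) (nat_lit 5) (nat_lit 404) (nat_lit 366) (nat_lit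 130)))) (XT.nd (nat_lit 78) (nat_lit 152) (nat_lit 0) (XT.lf (nat_lit 0) (nat_lit 107052203481) (nat_lit 152) (nat_lit 64889788065) (nat_lit 228) (nat_lit 143766772651) (nat_lit 40) (nat_lit 5) (nat_lit 42) (nat_lit 5) (nat_lit 43) (nat_lit 5) (nat_lit 405) (nat_lit 366) (nat_lit 129)) (XT.nd (nat_lit 78) (nat_lit 152) (nat_lit 0) (XT.lf (nat_lit 0) (nat_lit 239793515544) (nat_lit 228) (nat_lit 51655109687) (nat_lit 76) (nat_lit 34978271159) (nat_lit 40) (nat_lit 5) (nat_lit 43) (nat_lit 5) (nat_lit 41) (nat_lit 5) (nat_lit 406) (nat_lit 366) (nat_lit 128)) (XT.lf (nat_lit 0) (nat_lit 115840107896) (nat_lit 152) (nat_lit 198069773027) (nat_lit 228) (nat_lit 23627441070) (nat_lit 38) (nat_lit 5) (nat_lit 40) (nat_lit 5) (nat_lit 41) (nat_lit 5) (nat_lit 407) (nat_lit 366) (nat_lit 127))))))))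
noncomputable def xc239 : XT := (XT.nd (nat_lit 44694) (nat_lit 0) (nat_lit 1368) (XT.nd (nat_lit 43758) (nat_lit 0) (nat_lit 4788) (XT.nd (nat_lit 390) (nat_lit 380) (nat_lit 0) (XT.nd (nat_lit 156) (nat_lit 152) (nat_lit 0) (XT.nd (nat_lit 78) (nat_lit 152) (nat_lit 0) (XT.lf (nat_lit 0) (nat_lit 42056663971) (nat_lit 228) (nat_lit 56334574822) (nat_lit 76) (nat_lit 250734377686) (nat_lit 37) (nat_lit 5) (nat_lit 40) (nat_lit 5) (nat_lit 38) (nat_lit 5) (nat_lit 408) (nat_lit 366) (nat_lit 126)) (XT.lf (nat_lit 0) (nat_lit 112251648293) (nat_lit 228) (nat_lit 240540602122) (nat_lit 76) (nat_lit 8380673021) (nat_lit 35) (nat_lit 5) (nat_lit 38) (nat_lit 5) (nat_lit 36) (nat_lit 5) (nat_lit 409) (nat_lit 366) (nat_lit 125))) (XT.nd (nat_lit 78) (nat_lit 152) (nat_lit 0) (XT.lf (nat_lit 0) (nat_lit 188538961851) (nat_lit 228) (nat_lit 67000273650) (nat_lit 76) (nat_lit 118154231287) (nat_lit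 35) (nat_lit 5) (nat_lit 38) (nat_lit 5) (nat_lit 36) (nat_lit 5) (nat_lit 410) (nat_lit 366) (nat_lit 124)) (XT.nd (nat_lit 78) (nat_lit 0) (nat_lit 0) (XT.lf (nat_lit 0) (nat_lit 119026529508) (nat_lit 152) (nat_lit 151472368698) (nat_lit 228) (nat_lit 116248226293) (nat_lit 33) (nat_lit 5) (nat_lit 35) (nat_lit 5) (nat_lit 36) (nat_lit 5) (nat_lit 411) (nat_lit 366) (nat_lit 123)) (XT.lf (nat_lit 0) (nat_lit 316680639181) (nat_lit 152) (nat_lit 41010795452) (nat_lit 228) (nat_lit 42705300344) (nat_lit 33) (nat_lit 5) (nat_lit 35) (nat_lit 5) (nat_lit 36) (nat_lit 5) (nat_lit 412) (nat_lit 366) (nat_lit 122))))) (XT.nd (nat_lit 234) (nat_lit 76) (nat_lit 0) (XT.nd (nat_lit 78) (nat_lit 152) (nat_lit 0) (XT.lf (nat_lit 0) (nat_lit 36375451984) (nat_lit 152) (nat_lit 303270221573) (nat_lit 76) (nat_lit 74907940430) (nat_lit 31) (nat_lit 5) (nat_lit 33) (nat_lit 5) (nat_lit 32) (nat_lit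 5) (nat_lit 413) (nat_lit 366) (nat_lit 121)) (XT.nd (nat_lit 78) (nat_lit 152) (nat_lit 0) (XT.lf (nat_lit 0) (nat_lit 120088311233) (nat_lit 152) (nat_lit 111803925698) (nat_lit 76) (nat_lit 197385433337) (nat_lit 31) (nat_lit 5) (nat_lit 33) (nat_lit 5) (nat_lit 32) (nat_lit 5) (nat_lit 414) (nat_lit 366) (nat_lit 120)) (XT.lf (nat_lit 0) (nat_lit 92186092756) (nat_lit 152) (nat_lit 117239932085) (nat_lit 228) (nat_lit 235239943990) (nat_lit 29) (nat_lit 5) (nat_lit 31) (nat_lit 5) (nat_lit 32) (nat_lit 5) (nat_lit 415) (nat_lit 366) (nat_lit 119)))) (XT.nd (nat_lit 78) (nat_lit 76) (nat_lit 0) (XT.lf (nat_lit 0) (nat_lit 305204148892) (nat_lit 228) (nat_lit 150552083644) (nat_lit 76) (nat_lit 4968773582) (nat_lit 29) (nat_lit 5) (nat_lit 32) (nat_lit 5) (nat_lit 30) (nat_lit 4) (nat_lit 416) (nat_lit 366) (nat_lit 118)) (XT.nd (nat_lit 42978) (nat_lit 0) (nat_lit 5168) (XT.lf (nat_lit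 0) (nat_lit 61519006939) (nat_lit 76) (nat_lit 347134554678) (nat_lit 152) (nat_lit 68789314561) (nat_lit 28) (nat_lit 5) (nat_lit 29) (nat_lit 5) (nat_lit 30) (nat_lit 4) (nat_lit 417) (nat_lit 366) (nat_lit 117)) (XT.lf (nat_lit 0) (nat_lit 2443293971) (nat_lit 836) (nat_lit 25577706051) (nat_lit 836) (nat_lit 25577706051) (nat_lit 96) (nat_lit 3) (nat_lit 107) (nat_lit 3) (nat_lit 107) (nat_lit 5) (nat_lit 367) (nat_lit 367) (nat_lit 166)))))) (XT.nd (nat_lit 468) (nat_lit 380) (nat_lit 0) (XT.nd (nat_lit 234) (nat_lit 0) (nat_lit 152) (XT.nd (nat_lit 78) (nat_lit 0) (nat_lit 76) (XT.lf (nat_lit 0) (nat_lit 5014239678) (nat_lit 836) (nat_lit 942519348) (nat_lit 836) (nat_lit 103920307234) (nat_lit 96) (nat_lit 3) (nat_lit 107) (nat_lit 3) (nat_lit 107) (nat_lit 5) (nat_lit 368) (nat_lit 367) (nat_lit 165)) (XT.nd (nat_lit 78) (nat_lit 0) (nat_lit 0) (XT.lf (nat_lit 0) (nat_lit 6724859308)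 (nat_lit 760) (nat_lit 59897782528) (nat_lit 836) (nat_lit 45989232414) (nat_lit 97) (nat_lit 5) (nat_lit 107) (nat_lit 5) (nat_lit 108) (nat_lit 5) (nat_lit 369) (nat_lit 367) (nat_lit 164)) (XT.lf (nat_lit 0) (nat_lit 8634550483) (nat_lit 760) (nat_lit 6494483866) (nat_lit 836) (nat_lit 100348711681) (nat_lit 97) (nat_lit 5) (nat_lit 107) (nat_lit 5) (nat_lit 108) (nat_lit 5) (nat_lit 370) (nat_lit 367) (nat_lit 163)))) (XT.nd (nat_lit 78) (nat_lit 0) (nat_lit 0) (XT.lf (nat_lit 0) (nat_lit 12060127122) (nat_lit 760) (nat_lit 67849920262) (nat_lit 836) (nat_lit 38505844365) (nat_lit 98) (nat_lit 5) (nat_lit 108) (nat_lit 5) (nat_lit 109) (nat_lit 5) (nat_lit 371) (nat_lit 367) (nat_lit 162)) (XT.nd (nat_lit 78) (nat_lit 0) (nat_lit 76) (XT.lf (nat_lit 0) (nat_lit 16016484963) (nat_lit 760) (nat_lit 11040548227) (nat_lit 836) (nat_lit 94425936824) (nat_lit 98) (nat_lit 5) (nat_lit 108)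 (nat_lit 5) (nat_lit 109) (nat_lit 5) (nat_lit 372) (nat_lit 367) (nat_lit 161)) (XT.lf (nat_lit 0) (nat_lit 21411248964) (nat_lit 760) (nat_lit 74904744911) (nat_lit 836) (nat_lit 28325379265) (nat_lit 99) (nat_lit 5) (nat_lit 109) (nat_lit 5) (nat_lit 110) (nat_lit 5) (nat_lit 373) (nat_lit 367) (nat_lit 160))))) (XT.nd (nat_lit 234) (nat_lit 608) (nat_lit 0) (XT.nd (nat_lit 78) (nat_lit 0) (nat_lit 76) (XT.lf (nat_lit 0) (nat_lit 27709073103) (nat_lit 760) (nat_lit 14459213187) (nat_lit 836) (nat_lit 85757744378) (nat_lit 99) (nat_lit 5) (nat_lit 109) (nat_lit 5) (nat_lit 110) (nat_lit 5) (nat_lit 374) (nat_lit 367) (nat_lit 159)) (XT.nd (nat_lit 78) (nat_lit 0) (nat_lit 0) (XT.lf (nat_lit 0) (nat_lit 35354243061) (nat_lit 760) (nat_lit 80948838255) (nat_lit 836) (nat_lit 15020217352) (nat_lit 100) (nat_lit 5) (nat_lit 110) (nat_lit 5) (nat_lit 111) (nat_lit 5) (nat_lit 375) (nat_lit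 367) (nat_lit 158)) (XT.lf (nat_lit 0) (nat_lit 44321588527) (nat_lit 760) (nat_lit 16621884927) (nat_lit 836) (nat_lit 73899961075) (nat_lit 100) (nat_lit 5) (nat_lit 110) (nat_lit 5) (nat_lit 111) (nat_lit 5) (nat_lit 376) (nat_lit 367) (nat_lit 157)))) (XT.nd (nat_lit 78) (nat_lit 684) (nat_lit 0) (XT.lf (nat_lit 76) (nat_lit 52604901665) (nat_lit 0) (nat_lit 1953467191) (nat_lit 836) (nat_lit 83940155245) (nat_lit 101) (nat_lit 5) (nat_lit 100) (nat_lit 5) (nat_lit 111) (nat_lit 5) (nat_lit 377) (nat_lit 367) (nat_lit 156)) (XT.nd (nat_lit 78) (nat_lit 760) (nat_lit 0) (XT.lf (nat_lit 0) (nat_lit 66529419504) (nat_lit 760) (nat_lit 17393565318) (nat_lit 76) (nat_lit 58352262044) (nat_lit 101) (nat_lit 5) (nat_lit 111) (nat_lit 5) (nat_lit 102) (nat_lit 5) (nat_lit 378) (nat_lit 367) (nat_lit 155)) (XT.lf (nat_lit 0) (nat_lit 56301263484) (nat_lit 760) (nat_lit 23708581573) (nat_lit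 836) (nat_lit 66185419864) (nat_lit 91) (nat_lit 5) (nat_lit 101) (nat_lit 5) (nat_lit 102) (nat_lit 5) (nat_lit 379) (nat_lit 367) (nat_lit 154))))))) (XT.nd (nat_lit 858) (nat_lit 1444) (nat_lit 0) (XT.nd (nat_lit 390) (nat_lit 1216) (nat_lit 0) (XT.nd (nat_lit 156) (nat_lit 380) (nat_lit 0) (XT.nd (nat_lit 78) (nat_lit 380) (nat_lit 0) (XT.lf (nat_lit 0) (nat_lit 95080438915) (nat_lit 836) (nat_lit 16633856599) (nat_lit 76) (nat_lit 38551181270) (nat_lit 91) (nat_lit 5) (nat_lit 102) (nat_lit 5) (nat_lit 92) (nat_lit 5) (nat_lit 380) (nat_lit 367) (nat_lit 153)) (XT.lf (nat_lit 0) (nat_lit 61881011679) (nat_lit 380) (nat_lit 50378147906) (nat_lit 456) (nat_lit 42212310042) (nat_lit 86) (nat_lit 5) (nat_lit 91) (nat_lit 5) (nat_lit 92) (nat_lit 5) (nat_lit 381) (nat_lit 367) (nat_lit 152))) (XT.nd (nat_lit 78) (nat_lit 380) (nat_lit 0) (XT.lf (nat_lit 0) (nat_lit 130801905893) (nat_lit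 456) (nat_lit 14198352629) (nat_lit 76) (nat_lit 13862249344) (nat_lit 86) (nat_lit 5) (nat_lit 92) (nat_lit 5) (nat_lit 87) (nat_lit 5) (nat_lit 382) (nat_lit 367) (nat_lit 151)) (XT.nd (nat_lit 78) (nat_lit 76) (nat_lit 0) (XT.lf (nat_lit 0) (nat_lit 69512113831) (nat_lit 304) (nat_lit 82670637843) (nat_lit 380) (nat_lit 11194798453) (nat_lit 82) (nat_lit 5) (nat_lit 86) (nat_lit 5) (nat_lit 87) (nat_lit 5) (nat_lit 383) (nat_lit 367) (nat_lit 150)) (XT.lf (nat_lit 0) (nat_lit 6550009738) (nat_lit 380) (nat_lit 10311129445) (nat_lit 76) (nat_lit 151239909569) (nat_lit 81) (nat_lit 5) (nat_lit 86) (nat_lit 5) (nat_lit 82) (nat_lit 5) (nat_lit 384) (nat_lit 367) (nat_lit 149))))) (XT.nd (nat_lit 234) (nat_lit 532) (nat_lit 0) (XT.nd (nat_lit 78) (nat_lit 304) (nat_lit 0) (XT.lf (nat_lit 0) (nat_lit 26890449571) (nat_lit 456) (nat_lit 94037299302) (nat_lit 76) (nat_lit 52019567067) (nat_lit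 76) (nat_lit 5) (nat_lit 82) (nat_lit 5) (nat_lit 77) (nat_lit 5) (nat_lit 385) (nat_lit 367) (nat_lit 148)) (XT.nd (nat_lit 78) (nat_lit 304) (nat_lit 0) (XT.lf (nat_lit 0) (nat_lit 48701639026) (nat_lit 456) (nat_lit 5356434774) (nat_lit 76) (nat_lit 123955136490) (nat_lit 76) (nat_lit 5) (nat_lit 82) (nat_lit 5) (nat_lit 77) (nat_lit 5) (nat_lit 386) (nat_lit 367) (nat_lit 147)) (XT.lf (nat_lit 0) (nat_lit 73294111240) (nat_lit 380) (nat_lit 92877091166) (nat_lit 76) (nat_lit 17076660959) (nat_lit 72) (nat_lit 5) (nat_lit 77) (nat_lit 5) (nat_lit 73) (nat_lit 5) (nat_lit 387) (nat_lit 367) (nat_lit 146)))) (XT.nd (nat_lit 78) (nat_lit 228) (nat_lit 0) (XT.lf (nat_lit 0) (nat_lit 1490417742) (nat_lit 304) (nat_lit 98627299343) (nat_lit 380) (nat_lit 88576456673) (nat_lit 68) (nat_lit 5) (nat_lit 72) (nat_lit 5) (nat_lit 73) (nat_lit 5) (nat_lit 388) (nat_lit 367) (nat_lit 145)) (XT.nd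 (nat_lit 78) (nat_lit 228) (nat_lit 0) (XT.lf (nat_lit 0) (nat_lit 103800598705) (nat_lit 304) (nat_lit 26054669200) (nat_lit 380) (nat_lit 64478893689) (nat_lit 68) (nat_lit 5) (nat_lit 72) (nat_lit 5) (nat_lit 73) (nat_lit 5) (nat_lit 389) (nat_lit 367) (nat_lit 144)) (XT.lf (nat_lit 0) (nat_lit 10523855761) (nat_lit 228) (nat_lit 151502929272) (nat_lit 304) (nat_lit 38182009500) (nat_lit 65) (nat_lit 5) (nat_lit 68) (nat_lit 5) (nat_lit 69) (nat_lit 5) (nat_lit 390) (nat_lit 367) (nat_lit 143)))))) (XT.nd (nat_lit 468) (nat_lit 608) (nat_lit 0) (XT.nd (nat_lit 234) (nat_lit 456) (nat_lit 0) (XT.nd (nat_lit 78) (nat_lit 380) (nat_lit 0) (XT.lf (nat_lit 0) (nat_lit 119335836367) (nat_lit 228) (nat_lit 78424365152) (nat_lit 304) (nat_lit 8519291567) (nat_lit 65) (nat_lit 5) (nat_lit 68) (nat_lit 5) (nat_lit 69) (nat_lit 5) (nat_lit 391) (nat_lit 367) (nat_lit 142)) (XT.nd (nat_lit 78) (nat_lit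 0) (nat_lit 0) (XT.lf (nat_lit 0) (nat_lit 21261756905) (nat_lit 304) (nat_lit 972431317) (nat_lit 380) (nat_lit 190385284409) (nat_lit 60) (nat_lit 5) (nat_lit 64) (nat_lit 5) (nat_lit 65) (nat_lit 5) (nat_lit 392) (nat_lit 367) (nat_lit 141)) (XT.lf (nat_lit 0) (nat_lit 56989995418) (nat_lit 380) (nat_lit 82725401921) (nat_lit 76) (nat_lit 79416523037) (nat_lit 60) (nat_lit 5) (nat_lit 65) (nat_lit 5) (nat_lit 61) (nat_lit 5) (nat_lit 393) (nat_lit 367) (nat_lit 140)))) (XT.nd (nat_lit 78) (nat_lit 228) (nat_lit 0) (XT.lf (nat_lit 0) (nat_lit 32358074301) (nat_lit 228) (nat_lit 61646531709) (nat_lit 304) (nat_lit 131939333965) (nat_lit 57) (nat_lit 5) (nat_lit 60) (nat_lit 5) (nat_lit 61) (nat_lit 5) (nat_lit 394) (nat_lit 367) (nat_lit 139)) (XT.nd (nat_lit 78) (nat_lit 228) (nat_lit 0) (XT.lf (nat_lit 0) (nat_lit 134611125421) (nat_lit 304) (nat_lit 77299231934) (nat_lit 76) (nat_lit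 21099144395) (nat_lit 57) (nat_lit 5) (nat_lit 61) (nat_lit 5) (nat_lit 58) (nat_lit 5) (nat_lit 395) (nat_lit 367) (nat_lit 138)) (XT.lf (nat_lit 0) (nat_lit 45238894978) (nat_lit 228) (nat_lit 133725860739) (nat_lit 304) (nat_lit 61377746757) (nat_lit 54) (nat_lit 5) (nat_lit 57) (nat_lit 5) (nat_lit 58) (nat_lit 5) (nat_lit 396) (nat_lit 367) (nat_lit 137))))) (XT.nd (nat_lit 234) (nat_lit 380) (nat_lit 0) (XT.nd (nat_lit 78) (nat_lit 228) (nat_lit 0) (XT.lf (nat_lit 0) (nat_lit 176587418918) (nat_lit 228) (nat_lit 50257631757) (nat_lit 304) (nat_lit 21131653505) (nat_lit 54) (nat_lit 5) (nat_lit 57) (nat_lit 5) (nat_lit 58) (nat_lit 5) (nat_lit 397) (nat_lit 367) (nat_lit 136)) (XT.nd (nat_lit 78) (nat_lit 0) (nat_lit 0) (XT.lf (nat_lit 0) (nat_lit 21993302000) (nat_lit 228) (nat_lit 196429205255) (nat_lit 76) (nat_lit 37476479154) (nat_lit 51) (nat_lit 5) (nat_lit 54) (nat_lit 5) (nat_lit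 52) (nat_lit 5) (nat_lit 398) (nat_lit 367) (nat_lit 135)) (XT.lf (nat_lit 0) (nat_lit 68616959797) (nat_lit 228) (nat_lit 65996954890) (nat_lit 76) (nat_lit 129483516292) (nat_lit 51) (nat_lit 5) (nat_lit 54) (nat_lit 5) (nat_lit 52) (nat_lit 5) (nat_lit 399) (nat_lit 367) (nat_lit 134)))) (XT.nd (nat_lit 78) (nat_lit 152) (nat_lit 0) (XT.lf (nat_lit 0) (nat_lit 73302904043) (nat_lit 228) (nat_lit 45413254565) (nat_lit 304) (nat_lit 153932421346) (nat_lit 48) (nat_lit 5) (nat_lit 51) (nat_lit 5) (nat_lit 52) (nat_lit 5) (nat_lit 400) (nat_lit 367) (nat_lit 133)) (XT.nd (nat_lit 78) (nat_lit 152) (nat_lit 0) (XT.lf (nat_lit 0) (nat_lit 173209504498) (nat_lit 304) (nat_lit 60484137840) (nat_lit 76) (nat_lit 47839184763) (nat_lit 48) (nat_lit 5) (nat_lit 52) (nat_lit 5) (nat_lit 49) (nat_lit 5) (nat_lit 401) (nat_lit 367) (nat_lit 132)) (XT.lf (nat_lit 0) (nat_lit 87372307883) (nat_lit 152)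 (nat_lit 145163717156) (nat_lit 228) (nat_lit 58219836273) (nat_lit 46) (nat_lit 5) (nat_lit 48) (nat_lit 5) (nat_lit 49) (nat_lit 5) (nat_lit 402) (nat_lit 367) (nat_lit 131))))))))
noncomputable def xc240 : XT := (XT.nd (nat_lit 44850) (nat_lit 0) (nat_lit 1672) (XT.nd (nat_lit 936) (nat_lit 304) (nat_lit 0) (XT.nd (nat_lit 390) (nat_lit 532) (nat_lit 0) (XT.nd (nat_lit 156) (nat_lit 152) (nat_lit 0) (XT.nd (nat_lit 78) (nat_lit 304) (nat_lit 0) (XT.lf (nat_lit 0) (nat_lit 244721301816) (nat_lit 152) (nat_lit 51131801536) (nat_lit 228) (nat_lit 4535732367) (nat_lit 46) (nat_lit 5) (nat_lit 48) (nat_lit 5) (nat_lit 49) (nat_lit 5) (nat_lit 403) (nat_lit 367) (nat_lit 130)) (XT.lf (nat_lit 0) (nat_lit 52546780449) (nat_lit 304) (nat_lit 209280127761) (nat_lit 76) (nat_lit 48517429618) (nat_lit 42) (nat_lit 5) (nat_lit 46) (nat_lit 5) (nat_lit 43) (nat_lit 5) (nat_lit 404) (nat_lit 367)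 (nat_lit 129))) (XT.nd (nat_lit 78) (nat_lit 152) (nat_lit 0) (XT.lf (nat_lit 0) (nat_lit 114127334561) (nat_lit 304) (nat_lit 54113466918) (nat_lit 76) (nat_lit 152463278513) (nat_lit 42) (nat_lit 5) (nat_lit 46) (nat_lit 5) (nat_lit 43) (nat_lit 5) (nat_lit 405) (nat_lit 367) (nat_lit 128)) (XT.nd (nat_lit 78) (nat_lit 0) (nat_lit 0) (XT.lf (nat_lit 0) (nat_lit 112409185315) (nat_lit 152) (nat_lit 68132665949) (nat_lit 228) (nat_lit 150952211315) (nat_lit 40) (nat_lit 5) (nat_lit 42) (nat_lit 5) (nat_lit 43) (nat_lit 5) (nat_lit 406) (nat_lit 367) (nat_lit 127)) (XT.lf (nat_lit 0) (nat_lit 251785843989) (nat_lit 228) (nat_lit 54233592477) (nat_lit 76) (nat_lit 36728670376) (nat_lit 40) (nat_lit 5) (nat_lit 43) (nat_lit 5) (nat_lit 41) (nat_lit 5) (nat_lit 407) (nat_lit 367) (nat_lit 126))))) (XT.nd (nat_lit 234) (nat_lit 152) (nat_lit 0) (XT.nd (nat_lit 78) (nat_lit 228) (nat_lit 0) (XT.lf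 (nat_lit 0) (nat_lit 121636317071) (nat_lit 152) (nat_lit 207971649882) (nat_lit 228) (nat_lit 24806089889) (nat_lit 38) (nat_lit 5) (nat_lit 40) (nat_lit 5) (nat_lit 41) (nat_lit 5) (nat_lit 408) (nat_lit 367) (nat_lit 125)) (XT.nd (nat_lit 78) (nat_lit 152) (nat_lit 0) (XT.lf (nat_lit 0) (nat_lit 44162007716) (nat_lit 228) (nat_lit 59147215455) (nat_lit 76) (nat_lit 263272547106) (nat_lit 37) (nat_lit 5) (nat_lit 40) (nat_lit 5) (nat_lit 38) (nat_lit 5) (nat_lit 409) (nat_lit 367) (nat_lit 124)) (XT.lf (nat_lit 0) (nat_lit 117866708988) (nat_lit 228) (nat_lit 252563510427) (nat_lit 76) (nat_lit 8801224852) (nat_lit 35) (nat_lit 5) (nat_lit 38) (nat_lit 5) (nat_lit 36) (nat_lit 5) (nat_lit 410) (nat_lit 367) (nat_lit 123)))) (XT.nd (nat_lit 78) (nat_lit 152) (nat_lit 0) (XT.lf (nat_lit 0) (nat_lit 197968270211) (nat_lit 228) (nat_lit 70346361808) (nat_lit 76) (nat_lit 124063388737) (nat_lit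 35) (nat_lit 5) (nat_lit 38) (nat_lit 5) (nat_lit 36) (nat_lit 5) (nat_lit 411) (nat_lit 367) (nat_lit 122)) (XT.nd (nat_lit 78) (nat_lit 0) (nat_lit 0) (XT.lf (nat_lit 0) (nat_lit 124981718194) (nat_lit 152) (nat_lit 159044433097) (nat_lit 228) (nat_lit 122058212731) (nat_lit 33) (nat_lit 5) (nat_lit 35) (nat_lit 5) (nat_lit 36) (nat_lit 5) (nat_lit 412) (nat_lit 367) (nat_lit 121)) (XT.lf (nat_lit 0) (nat_lit 332518349436) (nat_lit 152) (nat_lit 43059855190) (nat_lit 228) (nat_lit 44838255955) (nat_lit 33) (nat_lit 5) (nat_lit 35) (nat_lit 5) (nat_lit 36) (nat_lit 5) (nat_lit 413) (nat_lit 367) (nat_lit 120)))))) (XT.nd (nat_lit 43446) (nat_lit 0) (nat_lit 5168) (XT.nd (nat_lit 43212) (nat_lit 0) (nat_lit 5092) (XT.nd (nat_lit 78) (nat_lit 152) (nat_lit 0) (XT.lf (nat_lit 0) (nat_lit 126094831757) (nat_lit 152) (nat_lit 117390522188) (nat_lit 76) (nat_lit 207256093524) (nat_lit 31) (nat_lit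 5) (nat_lit 33) (nat_lit 5) (nat_lit 32) (nat_lit 5) (nat_lit 415) (nat_lit 367) (nat_lit 118)) (XT.lf (nat_lit 0) (nat_lit 96798939127) (nat_lit 152) (nat_lit 123100446978) (nat_lit 228) (nat_lit 246999777152) (nat_lit 29) (nat_lit 5) (nat_lit 31) (nat_lit 5) (nat_lit 32) (nat_lit 5) (nat_lit 416) (nat_lit 367) (nat_lit 117))) (XT.nd (nat_lit 78) (nat_lit 0) (nat_lit 0) (XT.lf (nat_lit 0) (nat_lit 2570860039) (nat_lit 836) (nat_lit 26853752268) (nat_lit 836) (nat_lit 26853752268) (nat_lit 96) (nat_lit 3) (nat_lit 107) (nat_lit 3) (nat_lit 107) (nat_lit 5) (nat_lit 368) (nat_lit 368) (nat_lit 164)) (XT.nd (nat_lit 78) (nat_lit 0) (nat_lit 76) (XT.lf (nat_lit 0) (nat_lit 5275239986) (nat_lit 836) (nat_lit 984237534) (nat_lit 836) (nat_lit 109110914814) (nat_lit 96) (nat_lit 3) (nat_lit 107) (nat_lit 3) (nat_lit 107) (nat_lit 5) (nat_lit 369) (nat_lit 368) (nat_lit 163)) (XT.lf (nat_lit 0)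 (nat_lit 7070912537) (nat_lit 760) (nat_lit 62886773600) (nat_lit 836) (nat_lit 48284279100) (nat_lit 97) (nat_lit 5) (nat_lit 107) (nat_lit 5) (nat_lit 108) (nat_lit 5) (nat_lit 370) (nat_lit 368) (nat_lit 162))))) (XT.nd (nat_lit 234) (nat_lit 0) (nat_lit 152) (XT.nd (nat_lit 78) (nat_lit 0) (nat_lit 76) (XT.lf (nat_lit 0) (nat_lit 9075621115) (nat_lit 760) (nat_lit 6813590864) (nat_lit 836) (nat_lit 105361942565) (nat_lit 97) (nat_lit 5) (nat_lit 107) (nat_lit 5) (nat_lit 108) (nat_lit 5) (nat_lit 371) (nat_lit 368) (nat_lit 161)) (XT.nd (nat_lit 78) (nat_lit 0) (nat_lit 0) (XT.lf (nat_lit 0) (nat_lit 12672063975) (nat_lit 760) (nat_lit 71236375390) (nat_lit 836) (nat_lit 40427789369) (nat_lit 98) (nat_lit 5) (nat_lit 108) (nat_lit 5) (nat_lit 109) (nat_lit 5) (nat_lit 372) (nat_lit 368) (nat_lit 160)) (XT.lf (nat_lit 0) (nat_lit 16825814446) (nat_lit 760) (nat_lit 11586822416) (nat_lit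 836) (nat_lit 99144045842) (nat_lit 98) (nat_lit 5) (nat_lit 108) (nat_lit 5) (nat_lit 109) (nat_lit 5) (nat_lit 373) (nat_lit 368) (nat_lit 159)))) (XT.nd (nat_lit 78) (nat_lit 0) (nat_lit 0) (XT.lf (nat_lit 0) (nat_lit 22489960540) (nat_lit 760) (nat_lit 78643862778) (nat_lit 836) (nat_lit 29739200976) (nat_lit 99) (nat_lit 5) (nat_lit 109) (nat_lit 5) (nat_lit 110) (nat_lit 5) (nat_lit 374) (nat_lit 368) (nat_lit 158)) (XT.nd (nat_lit 78) (nat_lit 0) (nat_lit 76) (XT.lf (nat_lit 0) (nat_lit 29102287831) (nat_lit 760) (nat_lit 15176345867) (nat_lit 836) (nat_lit 90043300881) (nat_lit 99) (nat_lit 5) (nat_lit 109) (nat_lit 5) (nat_lit 110) (nat_lit 5) (nat_lit 375) (nat_lit 368) (nat_lit 157)) (XT.lf (nat_lit 0) (nat_lit 37129408959) (nat_lit 760) (nat_lit 84990135747) (nat_lit 836) (nat_lit 15769537094) (nat_lit 100) (nat_lit 5) (nat_lit 110) (nat_lit 5) (nat_lit 111) (nat_lit 5) (nat_lit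 376) (nat_lit 368) (nat_lit 156))))))) (XT.nd (nat_lit 858) (nat_lit 1900) (nat_lit 0) (XT.nd (nat_lit 390) (nat_lit 1140) (nat_lit 0) (XT.nd (nat_lit 156) (nat_lit 684) (nat_lit 0) (XT.nd (nat_lit 78) (nat_lit 0) (nat_lit 0) (XT.lf (nat_lit 0) (nat_lit 46544766759) (nat_lit 760) (nat_lit 17447127344) (nat_lit 836) (nat_lit 77593348533) (nat_lit 100) (nat_lit 5) (nat_lit 110) (nat_lit 5) (nat_lit 111) (nat_lit 5) (nat_lit 377) (nat_lit 368) (nat_lit 155)) (XT.lf (nat_lit 76) (nat_lit 55240904193) (nat_lit 0) (nat_lit 2052233763) (nat_lit 836) (nat_lit 88129961551) (nat_lit 101) (nat_lit 5) (nat_lit 100) (nat_lit 5) (nat_lit 111) (nat_lit 5) (nat_lit 378) (nat_lit 368) (nat_lit 154))) (XT.nd (nat_lit 78) (nat_lit 760) (nat_lit 0) (XT.lf (nat_lit 0) (nat_lit 69862398659) (nat_lit 760) (nat_lit 18257409954) (nat_lit 76) (nat_lit 61268867316) (nat_lit 101) (nat_lit 5) (nat_lit 111) (nat_lit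 5) (nat_lit 102) (nat_lit 5) (nat_lit 379) (nat_lit 368) (nat_lit 153)) (XT.nd (nat_lit 78) (nat_lit 0) (nat_lit 0) (XT.lf (nat_lit 0) (nat_lit 59122066198) (nat_lit 760) (nat_lit 24894558989) (nat_lit 836) (nat_lit 69488081089) (nat_lit 91) (nat_lit 5) (nat_lit 101) (nat_lit 5) (nat_lit 102) (nat_lit 5) (nat_lit 380) (nat_lit 368) (nat_lit 152)) (XT.lf (nat_lit 0) (nat_lit 99840441162) (nat_lit 836) (nat_lit 17459768483) (nat_lit 76) (nat_lit 40478234823) (nat_lit 91) (nat_lit 5) (nat_lit 102) (nat_lit 5) (nat_lit 92) (nat_lit 5) (nat_lit 381) (nat_lit 368) (nat_lit 151))))) (XT.nd (nat_lit 234) (nat_lit 456) (nat_lit 0) (XT.nd (nat_lit 78) (nat_lit 304) (nat_lit 0) (XT.lf (nat_lit 0) (nat_lit 64980749967) (nat_lit 380) (nat_lit 52897151923) (nat_lit 456) (nat_lit 44316845202) (nat_lit 86) (nat_lit 5) (nat_lit 91) (nat_lit 5) (nat_lit 92) (nat_lit 5) (nat_lit 382) (nat_lit 368) (nat_lit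 150)) (XT.nd (nat_lit 78) (nat_lit 304) (nat_lit 0) (XT.lf (nat_lit 0) (nat_lit 137347508632) (nat_lit 456) (nat_lit 14902570041) (nat_lit 76) (nat_lit 14555272736) (nat_lit 86) (nat_lit 5) (nat_lit 92) (nat_lit 5) (nat_lit 87) (nat_lit 5) (nat_lit 383) (nat_lit 368) (nat_lit 149)) (XT.lf (nat_lit 0) (nat_lit 72993327802) (nat_lit 304) (nat_lit 86803894202) (nat_lit 380) (nat_lit 11748932824) (nat_lit 82) (nat_lit 5) (nat_lit 86) (nat_lit 5) (nat_lit 87) (nat_lit 5) (nat_lit 384) (nat_lit 368) (nat_lit 148)))) (XT.nd (nat_lit 78) (nat_lit 380) (nat_lit 0) (XT.lf (nat_lit 0) (nat_lit 6882677976) (nat_lit 380) (nat_lit 10821168234) (nat_lit 76) (nat_lit 158801990997) (nat_lit 81) (nat_lit 5) (nat_lit 86) (nat_lit 5) (nat_lit 82) (nat_lit 5) (nat_lit 385) (nat_lit 368) (nat_lit 147)) (XT.nd (nat_lit 78) (nat_lit 0) (nat_lit 0) (XT.lf (nat_lit 0) (nat_lit 28239985068) (nat_lit 456) (nat_lit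 98733486522) (nat_lit 76) (nat_lit 54620954169) (nat_lit 76) (nat_lit 5) (nat_lit 82) (nat_lit 5) (nat_lit 77) (nat_lit 5) (nat_lit 386) (nat_lit 368) (nat_lit 146)) (XT.lf (nat_lit 0) (nat_lit 51141495280) (nat_lit 456) (nat_lit 5618849136) (nat_lit 76) (nat_lit 130153282598) (nat_lit 76) (nat_lit 5) (nat_lit 82) (nat_lit 5) (nat_lit 77) (nat_lit 5) (nat_lit 387) (nat_lit 368) (nat_lit 145)))))) (XT.nd (nat_lit 468) (nat_lit 684) (nat_lit 0) (XT.nd (nat_lit 234) (nat_lit 608) (nat_lit 0) (XT.nd (nat_lit 78) (nat_lit 304) (nat_lit 0) (XT.lf (nat_lit 0) (nat_lit 76963457595) (nat_lit 380) (nat_lit 97515400005) (nat_lit 76) (nat_lit 17931162061) (nat_lit 72) (nat_lit 5) (nat_lit 77) (nat_lit 5) (nat_lit 73) (nat_lit 5) (nat_lit 388) (nat_lit 368) (nat_lit 144)) (XT.nd (nat_lit 78) (nat_lit 0) (nat_lit 0) (XT.lf (nat_lit 0) (nat_lit 1570394902) (nat_lit 304) (nat_lit 103557713029) (nat_lit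 380) (nat_lit 93000544663) (nat_lit 68) (nat_lit 5) (nat_lit 72) (nat_lit 5) (nat_lit 73) (nat_lit 5) (nat_lit 389) (nat_lit 368) (nat_lit 143)) (XT.lf (nat_lit 0) (nat_lit 108995825090) (nat_lit 304) (nat_lit 27356496677) (nat_lit 380) (nat_lit 67698328999) (nat_lit 68) (nat_lit 5) (nat_lit 72) (nat_lit 5) (nat_lit 73) (nat_lit 5) (nat_lit 390) (nat_lit 368) (nat_lit 142)))) (XT.nd (nat_lit 78) (nat_lit 380) (nat_lit 0) (XT.lf (nat_lit 0) (nat_lit 11055362645) (nat_lit 228) (nat_lit 159076944238) (nat_lit 304) (nat_lit 40086714072) (nat_lit 65) (nat_lit 5) (nat_lit 68) (nat_lit 5) (nat_lit 69) (nat_lit 5) (nat_lit 391) (nat_lit 368) (nat_lit 141)) (XT.nd (nat_lit 78) (nat_lit 380) (nat_lit 0) (XT.lf (nat_lit 0) (nat_lit 125307689229) (nat_lit 228) (nat_lit 82344505793) (nat_lit 304) (nat_lit 8941069571) (nat_lit 65) (nat_lit 5) (nat_lit 68) (nat_lit 5) (nat_lit 69) (nat_lit 5) (nat_lit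 392) (nat_lit 368) (nat_lit 140)) (XT.lf (nat_lit 0) (nat_lit 22329959725) (nat_lit 304) (nat_lit 1019877365) (nat_lit 380) (nat_lit 199900408593) (nat_lit 60) (nat_lit 5) (nat_lit 64) (nat_lit 5) (nat_lit 65) (nat_lit 5) (nat_lit 393) (nat_lit 368) (nat_lit 139))))) (XT.nd (nat_lit 234) (nat_lit 456) (nat_lit 0) (XT.nd (nat_lit 78) (nat_lit 228) (nat_lit 0) (XT.lf (nat_lit 0) (nat_lit 59843264532) (nat_lit 380) (nat_lit 86856627064) (nat_lit 76) (nat_lit 83388432897) (nat_lit 60) (nat_lit 5) (nat_lit 65) (nat_lit 5) (nat_lit 61) (nat_lit 5) (nat_lit 394) (nat_lit 368) (nat_lit 138)) (XT.nd (nat_lit 78) (nat_lit 0) (nat_lit 0) (XT.lf (nat_lit 0) (nat_lit 33980941600) (nat_lit 228) (nat_lit 64727562057) (nat_lit 304) (nat_lit 138532446678) (nat_lit 57) (nat_lit 5) (nat_lit 60) (nat_lit 5) (nat_lit 61) (nat_lit 5) (nat_lit 395) (nat_lit 368) (nat_lit 137)) (XT.lf (nat_lit 0) (nat_lit 141345193677)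 (nat_lit 304) (nat_lit 81159307831) (nat_lit 76) (nat_lit 22155296614) (nat_lit 57) (nat_lit 5) (nat_lit 61) (nat_lit 5) (nat_lit 58) (nat_lit 5) (nat_lit 396) (nat_lit 368) (nat_lit 136)))) (XT.nd (nat_lit 78) (nat_lit 228) (nat_lit 0) (XT.lf (nat_lit 0) (nat_lit 47505646625) (nat_lit 228) (nat_lit 140410766675) (nat_lit 304) (nat_lit 64443040341) (nat_lit 54) (nat_lit 5) (nat_lit 57) (nat_lit 5) (nat_lit 58) (nat_lit 5) (nat_lit 397) (nat_lit 368) (nat_lit 135)) (XT.nd (nat_lit 78) (nat_lit 228) (nat_lit 0) (XT.lf (nat_lit 0) (nat_lit 185421367861) (nat_lit 228) (nat_lit 52769192296) (nat_lit 304) (nat_lit 22184813558) (nat_lit 54) (nat_lit 5) (nat_lit 57) (nat_lit 5) (nat_lit 58) (nat_lit 5) (nat_lit 398) (nat_lit 368) (nat_lit 134)) (XT.lf (nat_lit 0) (nat_lit 23096216116) (nat_lit 228) (nat_lit 206245908660) (nat_lit 76) (nat_lit 39351645939) (nat_lit 51) (nat_lit 5) (nat_lit 54) (nat_lit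 5) (nat_lit 52) (nat_lit 5) (nat_lit 399) (nat_lit 368) (nat_lit 133))))))))
noncomputable def xc241 : XT := (XT.nd (nat_lit 44850) (nat_lit 0) (nat_lit 1976) (XT.nd (nat_lit 858) (nat_lit 456) (nat_lit 0) (XT.nd (nat_lit 390) (nat_lit 684) (nat_lit 0) (XT.nd (nat_lit 156) (nat_lit 152) (nat_lit 0) (XT.nd (nat_lit 78) (nat_lit 228) (nat_lit 0) (XT.lf (nat_lit 0) (nat_lit 72050902088) (nat_lit 228) (nat_lit 69292272294) (nat_lit 76) (nat_lit 135958970990) (nat_lit 51) (nat_lit 5) (nat_lit 54) (nat_lit 5) (nat_lit 52) (nat_lit 5) (nat_lit 400) (nat_lit 368) (nat_lit 132)) (XT.lf (nat_lit 0) (nat_lit 76972506516) (nat_lit 228) (nat_lit 47682476567) (nat_lit 304) (nat_lit 161625872716) (nat_lit 48) (nat_lit 5) (nat_lit 51) (nat_lit 5) (nat_lit 52) (nat_lit 5) (nat_lit 401) (nat_lit 368) (nat_lit 131))) (XT.nd (nat_lit 78) (nat_lit 152) (nat_lit 0) (XT.lf (nat_lit 0) (nat_lit 181872874045) (nat_lit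 304) (nat_lit 63503975276) (nat_lit 76) (nat_lit 50232472205) (nat_lit 48) (nat_lit 5) (nat_lit 52) (nat_lit 5) (nat_lit 49) (nat_lit 5) (nat_lit 402) (nat_lit 368) (nat_lit 130)) (XT.nd (nat_lit 78) (nat_lit 0) (nat_lit 0) (XT.lf (nat_lit 0) (nat_lit 91745222258) (nat_lit 152) (nat_lit 152420427649) (nat_lit 228) (nat_lit 61127861181) (nat_lit 46) (nat_lit 5) (nat_lit 48) (nat_lit 5) (nat_lit 49) (nat_lit 5) (nat_lit 403) (nat_lit 368) (nat_lit 129)) (XT.lf (nat_lit 0) (nat_lit 256961461175) (nat_lit 152) (nat_lit 53686986503) (nat_lit 228) (nat_lit 4759693360) (nat_lit 46) (nat_lit 5) (nat_lit 48) (nat_lit 5) (nat_lit 49) (nat_lit 5) (nat_lit 404) (nat_lit 368) (nat_lit 128))))) (XT.nd (nat_lit 234) (nat_lit 228) (nat_lit 0) (XT.nd (nat_lit 78) (nat_lit 152) (nat_lit 0) (XT.lf (nat_lit 0) (nat_lit 55176811358) (nat_lit 304) (nat_lit 219739902409) (nat_lit 76) (nat_lit 50944704536) (nat_lit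 42) (nat_lit 5) (nat_lit 46) (nat_lit 5) (nat_lit 43) (nat_lit 5) (nat_lit 405) (nat_lit 368) (nat_lit 127)) (XT.nd (nat_lit 78) (nat_lit 152) (nat_lit 0) (XT.lf (nat_lit 0) (nat_lit 119836264991) (nat_lit 304) (nat_lit 56815110035) (nat_lit 76) (nat_lit 160087779046) (nat_lit 42) (nat_lit 5) (nat_lit 46) (nat_lit 5) (nat_lit 43) (nat_lit 5) (nat_lit 406) (nat_lit 368) (nat_lit 126)) (XT.lf (nat_lit 0) (nat_lit 118033609806) (nat_lit 152) (nat_lit 71537837550) (nat_lit 228) (nat_lit 158497191523) (nat_lit 40) (nat_lit 5) (nat_lit 42) (nat_lit 5) (nat_lit 43) (nat_lit 5) (nat_lit 407) (nat_lit 368) (nat_lit 125)))) (XT.nd (nat_lit 78) (nat_lit 228) (nat_lit 0) (XT.lf (nat_lit 0) (nat_lit 264377542236) (nat_lit 228) (nat_lit 56941396642) (nat_lit 76) (nat_lit 38566451430) (nat_lit 40) (nat_lit 5) (nat_lit 43) (nat_lit 5) (nat_lit 41) (nat_lit 5) (nat_lit 408) (nat_lit 368) (nat_lit 124))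 (XT.nd (nat_lit 78) (nat_lit 76) (nat_lit 0) (XT.lf (nat_lit 0) (nat_lit 127721945876) (nat_lit 152) (nat_lit 218368770429) (nat_lit 228) (nat_lit 26043924330) (nat_lit 38) (nat_lit 5) (nat_lit 40) (nat_lit 5) (nat_lit 41) (nat_lit 5) (nat_lit 409) (nat_lit 368) (nat_lit 123)) (XT.lf (nat_lit 0) (nat_lit 46372385241) (nat_lit 228) (nat_lit 62100868193) (nat_lit 76) (nat_lit 276437490141) (nat_lit 37) (nat_lit 5) (nat_lit 40) (nat_lit 5) (nat_lit 38) (nat_lit 5) (nat_lit 410) (nat_lit 368) (nat_lit 122)))))) (XT.nd (nat_lit 390) (nat_lit 0) (nat_lit 0) (XT.nd (nat_lit 156) (nat_lit 304) (nat_lit 0) (XT.nd (nat_lit 78) (nat_lit 0) (nat_lit 0) (XT.lf (nat_lit 0) (nat_lit 123762292311) (nat_lit 228) (nat_lit 265187947353) (nat_lit 76) (nat_lit 9242663128) (nat_lit 35) (nat_lit 5) (nat_lit 38) (nat_lit 5) (nat_lit 36) (nat_lit 5) (nat_lit 411) (nat_lit 368) (nat_lit 121)) (XT.lf (nat_lit 0)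 (nat_lit 207868824554) (nat_lit 228) (nat_lit 73860119331) (nat_lit 76) (nat_lit 130267869634) (nat_lit 35) (nat_lit 5) (nat_lit 38) (nat_lit 5) (nat_lit 36) (nat_lit 5) (nat_lit 412) (nat_lit 368) (nat_lit 120))) (XT.nd (nat_lit 78) (nat_lit 152) (nat_lit 0) (XT.lf (nat_lit 0) (nat_lit 131234307242) (nat_lit 152) (nat_lit 166995245195) (nat_lit 228) (nat_lit 128158923933) (nat_lit 33) (nat_lit 5) (nat_lit 35) (nat_lit 5) (nat_lit 36) (nat_lit 5) (nat_lit 413) (nat_lit 368) (nat_lit 119)) (XT.nd (nat_lit 78) (nat_lit 152) (nat_lit 0) (XT.lf (nat_lit 0) (nat_lit 349147603230) (nat_lit 152) (nat_lit 45211505514) (nat_lit 228) (nat_lit 47078074053) (nat_lit 33) (nat_lit 5) (nat_lit 35) (nat_lit 5) (nat_lit 36) (nat_lit 5) (nat_lit 414) (nat_lit 368) (nat_lit 118)) (XT.lf (nat_lit 0) (nat_lit 40108261258) (nat_lit 152) (nat_lit 334348022135) (nat_lit 76) (nat_lit 82588857566) (nat_lit 31) (nat_lit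 5) (nat_lit 33) (nat_lit 5) (nat_lit 32) (nat_lit 5) (nat_lit 415) (nat_lit 368) (nat_lit 117))))) (XT.nd (nat_lit 43368) (nat_lit 0) (nat_lit 5016) (XT.nd (nat_lit 43212) (nat_lit 0) (nat_lit 4940) (XT.lf (nat_lit 0) (nat_lit 132401482607) (nat_lit 152) (nat_lit 123256783178) (nat_lit 76) (nat_lit 217620157628) (nat_lit 31) (nat_lit 5) (nat_lit 33) (nat_lit 5) (nat_lit 32) (nat_lit 5) (nat_lit 416) (nat_lit 368) (nat_lit 116)) (XT.nd (nat_lit 78) (nat_lit 0) (nat_lit 0) (XT.lf (nat_lit 0) (nat_lit 2704302243) (nat_lit 836) (nat_lit 28193864748) (nat_lit 836) (nat_lit 28193864748) (nat_lit 96) (nat_lit 3) (nat_lit 107) (nat_lit 3) (nat_lit 107) (nat_lit 5) (nat_lit 369) (nat_lit 369) (nat_lit 162)) (XT.lf (nat_lit 0) (nat_lit 5548333798) (nat_lit 836) (nat_lit 1028544393) (nat_lit 836) (nat_lit 114561555537) (nat_lit 96) (nat_lit 3) (nat_lit 107) (nat_lit 3) (nat_lit 107) (nat_lit 5) (nat_lit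 370) (nat_lit 369) (nat_lit 161)))) (XT.nd (nat_lit 78) (nat_lit 0) (nat_lit 0) (XT.lf (nat_lit 0) (nat_lit 7433356362) (nat_lit 760) (nat_lit 66025762571) (nat_lit 836) (nat_lit 50694488578) (nat_lit 97) (nat_lit 5) (nat_lit 107) (nat_lit 5) (nat_lit 108) (nat_lit 5) (nat_lit 371) (nat_lit 369) (nat_lit 160)) (XT.nd (nat_lit 78) (nat_lit 0) (nat_lit 76) (XT.lf (nat_lit 0) (nat_lit 9537876645) (nat_lit 760) (nat_lit 7149175446) (nat_lit 836) (nat_lit 110626225906) (nat_lit 97) (nat_lit 5) (nat_lit 107) (nat_lit 5) (nat_lit 108) (nat_lit 5) (nat_lit 372) (nat_lit 369) (nat_lit 159)) (XT.lf (nat_lit 0) (nat_lit 13313767397) (nat_lit 760) (nat_lit 74792714900) (nat_lit 836) (nat_lit 42446142815) (nat_lit 98) (nat_lit 5) (nat_lit 108) (nat_lit 5) (nat_lit 109) (nat_lit 5) (nat_lit 373) (nat_lit 369) (nat_lit 158))))))) (XT.nd (nat_lit 858) (nat_lit 2204) (nat_lit 0) (XT.nd (nat_lit 390) (nat_lit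 912) (nat_lit 0) (XT.nd (nat_lit 156) (nat_lit 0) (nat_lit 76) (XT.nd (nat_lit 78) (nat_lit 0) (nat_lit 76) (XT.lf (nat_lit 0) (nat_lit 17674819667) (nat_lit 760) (nat_lit 12160945194) (nat_lit 836) (nat_lit 104098356684) (nat_lit 98) (nat_lit 5) (nat_lit 108) (nat_lit 5) (nat_lit 109) (nat_lit 5) (nat_lit 374) (nat_lit 369) (nat_lit 157)) (XT.lf (nat_lit 0) (nat_lit 23621850065) (nat_lit 760) (nat_lit 82570505460) (nat_lit 836) (nat_lit 31223941295) (nat_lit 99) (nat_lit 5) (nat_lit 109) (nat_lit 5) (nat_lit 110) (nat_lit 5) (nat_lit 375) (nat_lit 369) (nat_lit 156))) (XT.nd (nat_lit 78) (nat_lit 0) (nat_lit 76) (XT.lf (nat_lit 0) (nat_lit 30564441745) (nat_lit 760) (nat_lit 15929877011) (nat_lit 836) (nat_lit 94543351896) (nat_lit 99) (nat_lit 5) (nat_lit 109) (nat_lit 5) (nat_lit 110) (nat_lit 5) (nat_lit 376) (nat_lit 369) (nat_lit 155)) (XT.nd (nat_lit 78) (nat_lit 0) (nat_lit 0) (XT.lf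 (nat_lit 0) (nat_lit 38992640174) (nat_lit 760) (nat_lit 89234069364) (nat_lit 836) (nat_lit 16556480048) (nat_lit 100) (nat_lit 5) (nat_lit 110) (nat_lit 5) (nat_lit 111) (nat_lit 5) (nat_lit 377) (nat_lit 369) (nat_lit 154)) (XT.lf (nat_lit 0) (nat_lit 48878443922) (nat_lit 760) (nat_lit 18314175930) (nat_lit 836) (nat_lit 81471555102) (nat_lit 100) (nat_lit 5) (nat_lit 110) (nat_lit 5) (nat_lit 111) (nat_lit 5) (nat_lit 378) (nat_lit 369) (nat_lit 153))))) (XT.nd (nat_lit 234) (nat_lit 380) (nat_lit 0) (XT.nd (nat_lit 78) (nat_lit 684) (nat_lit 0) (XT.lf (nat_lit 76) (nat_lit 58008171575) (nat_lit 0) (nat_lit 2155837026) (nat_lit 836) (nat_lit 92529927696) (nat_lit 101) (nat_lit 5) (nat_lit 100) (nat_lit 5) (nat_lit 111) (nat_lit 5) (nat_lit 379) (nat_lit 369) (nat_lit 152)) (XT.nd (nat_lit 78) (nat_lit 760) (nat_lit 0) (XT.lf (nat_lit 0) (nat_lit 73361421703) (nat_lit 760) (nat_lit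 19164989176) (nat_lit 76) (nat_lit 64331396549) (nat_lit 101) (nat_lit 5) (nat_lit 111) (nat_lit 5) (nat_lit 102) (nat_lit 5) (nat_lit 380) (nat_lit 369) (nat_lit 151)) (XT.lf (nat_lit 0) (nat_lit 62083375440) (nat_lit 760) (nat_lit 26139784296) (nat_lit 836) (nat_lit 72956489889) (nat_lit 91) (nat_lit 5) (nat_lit 101) (nat_lit 5) (nat_lit 102) (nat_lit 5) (nat_lit 381) (nat_lit 369) (nat_lit 150)))) (XT.nd (nat_lit 78) (nat_lit 380) (nat_lit 0) (XT.lf (nat_lit 0) (nat_lit 104837887529) (nat_lit 836) (nat_lit 18327513420) (nat_lit 76) (nat_lit 42501688050) (nat_lit 91) (nat_lit 5) (nat_lit 102) (nat_lit 5) (nat_lit 92) (nat_lit 5) (nat_lit 382) (nat_lit 369) (nat_lit 149)) (XT.nd (nat_lit 78) (nat_lit 0) (nat_lit 0) (XT.lf (nat_lit 0) (nat_lit 68234946381) (nat_lit 380) (nat_lit 55542097157) (nat_lit 456) (nat_lit 46527172412) (nat_lit 86) (nat_lit 5) (nat_lit 91) (nat_lit 5) (nat_lit 92)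 (nat_lit 5) (nat_lit 383) (nat_lit 369) (nat_lit 148)) (XT.lf (nat_lit 0) (nat_lit 144219879478) (nat_lit 456) (nat_lit 15642528277) (nat_lit 76) (nat_lit 15282955579) (nat_lit 86) (nat_lit 5) (nat_lit 92) (nat_lit 5) (nat_lit 87) (nat_lit 5) (nat_lit 384) (nat_lit 369) (nat_lit 147)))))) (XT.nd (nat_lit 468) (nat_lit 836) (nat_lit 0) (XT.nd (nat_lit 234) (nat_lit 608) (nat_lit 0) (XT.nd (nat_lit 78) (nat_lit 456) (nat_lit 0) (XT.lf (nat_lit 0) (nat_lit 76648081067) (nat_lit 304) (nat_lit 91143838995) (nat_lit 380) (nat_lit 12331295064) (nat_lit 82) (nat_lit 5) (nat_lit 86) (nat_lit 5) (nat_lit 87) (nat_lit 5) (nat_lit 385) (nat_lit 369) (nat_lit 146)) (XT.nd (nat_lit 78) (nat_lit 380) (nat_lit 0) (XT.lf (nat_lit 0) (nat_lit 7231499179) (nat_lit 380) (nat_lit 11357221944) (nat_lit 76) (nat_lit 166742168504) (nat_lit 81) (nat_lit 5) (nat_lit 86) (nat_lit 5) (nat_lit 82) (nat_lit 5) (nat_lit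 386) (nat_lit 369) (nat_lit 145)) (XT.lf (nat_lit 0) (nat_lit 29656531276) (nat_lit 456) (nat_lit 103665010966) (nat_lit 76) (nat_lit 57352372623) (nat_lit 76) (nat_lit 5) (nat_lit 82) (nat_lit 5) (nat_lit 77) (nat_lit 5) (nat_lit 387) (nat_lit 369) (nat_lit 144)))) (XT.nd (nat_lit 78) (nat_lit 608) (nat_lit 0) (XT.lf (nat_lit 0) (nat_lit 53702900478) (nat_lit 456) (nat_lit 5894886943) (nat_lit 76) (nat_lit 136661299820) (nat_lit 76) (nat_lit 5) (nat_lit 82) (nat_lit 5) (nat_lit 77) (nat_lit 5) (nat_lit 388) (nat_lit 369) (nat_lit 143)) (XT.nd (nat_lit 78) (nat_lit 304) (nat_lit 0) (XT.lf (nat_lit 0) (nat_lit 80815839811) (nat_lit 380) (nat_lit 102386139874) (nat_lit 76) (nat_lit 18828326108) (nat_lit 72) (nat_lit 5) (nat_lit 77) (nat_lit 5) (nat_lit 73) (nat_lit 5) (nat_lit 389) (nat_lit 369) (nat_lit 142)) (XT.lf (nat_lit 0) (nat_lit 1653863647) (nat_lit 304) (nat_lit 108734735839) (nat_lit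 380) (nat_lit 97646277254) (nat_lit 68) (nat_lit 5) (nat_lit 72) (nat_lit 5) (nat_lit 73) (nat_lit 5) (nat_lit 390) (nat_lit 369) (nat_lit 141))))) (XT.nd (nat_lit 234) (nat_lit 608) (nat_lit 0) (XT.nd (nat_lit 78) (nat_lit 228) (nat_lit 0) (XT.lf (nat_lit 0) (nat_lit 114450329678) (nat_lit 304) (nat_lit 28723499758) (nat_lit 380) (nat_lit 71079155314) (nat_lit 68) (nat_lit 5) (nat_lit 72) (nat_lit 5) (nat_lit 73) (nat_lit 5) (nat_lit 391) (nat_lit 369) (nat_lit 140)) (XT.nd (nat_lit 78) (nat_lit 0) (nat_lit 0) (XT.lf (nat_lit 0) (nat_lit 11612950819) (nat_lit 228) (nat_lit 167029765148) (nat_lit 304) (nat_lit 42087062561) (nat_lit 65) (nat_lit 5) (nat_lit 68) (nat_lit 5) (nat_lit 69) (nat_lit 5) (nat_lit 392) (nat_lit 369) (nat_lit 139)) (XT.lf (nat_lit 0) (nat_lit 131577664207) (nat_lit 228) (nat_lit 86460753652) (nat_lit 304) (nat_lit 9384325702) (nat_lit 65) (nat_lit 5) (nat_lit 68)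 (nat_lit 5) (nat_lit 69) (nat_lit 5) (nat_lit 393) (nat_lit 369) (nat_lit 138)))) (XT.nd (nat_lit 78) (nat_lit 228) (nat_lit 0) (XT.lf (nat_lit 0) (nat_lit 23451097145) (nat_lit 304) (nat_lit 1069805003) (nat_lit 380) (nat_lit 209891673887) (nat_lit 60) (nat_lit 5) (nat_lit 64) (nat_lit 5) (nat_lit 65) (nat_lit 5) (nat_lit 394) (nat_lit 369) (nat_lit 137)) (XT.nd (nat_lit 78) (nat_lit 228) (nat_lit 0) (XT.lf (nat_lit 0) (nat_lit 62838846664) (nat_lit 380) (nat_lit 91194882495) (nat_lit 76) (nat_lit 87558837498) (nat_lit 60) (nat_lit 5) (nat_lit 65) (nat_lit 5) (nat_lit 61) (nat_lit 5) (nat_lit 395) (nat_lit 369) (nat_lit 136)) (XT.lf (nat_lit 0) (nat_lit 35684490796) (nat_lit 228) (nat_lit 67962764434) (nat_lit 304) (nat_lit 145455573334) (nat_lit 57) (nat_lit 5) (nat_lit 60) (nat_lit 5) (nat_lit 61) (nat_lit 5) (nat_lit 396) (nat_lit 369) (nat_lit 135))))))))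
noncomputable def xc242 : XT := (XT.nd (nat_lit 45084) (nat_lit 0) (nat_lit 2052) (XT.nd (nat_lit 858) (nat_lit 684) (nat_lit 0) (XT.nd (nat_lit 390) (nat_lit 684) (nat_lit 0) (XT.nd (nat_lit 156) (nat_lit 228) (nat_lit 0) (XT.nd (nat_lit 78) (nat_lit 228) (nat_lit 0) (XT.lf (nat_lit 0) (nat_lit 148415638835) (nat_lit 304) (nat_lit 85212841749) (nat_lit 76) (nat_lit 23264145345) (nat_lit 57) (nat_lit 5) (nat_lit 61) (nat_lit 5) (nat_lit 58) (nat_lit 5) (nat_lit 397) (nat_lit 369) (nat_lit 134)) (XT.lf (nat_lit 0) (nat_lit 49885288954) (nat_lit 228) (nat_lit 147430046867) (nat_lit 304) (nat_lit 67661932718) (nat_lit 54) (nat_lit 5) (nat_lit 57) (nat_lit 5) (nat_lit 58) (nat_lit 5) (nat_lit 398) (nat_lit 369) (nat_lit 133))) (XT.nd (nat_lit 78) (nat_lit 228) (nat_lit 0) (XT.lf (nat_lit 0) (nat_lit 194696588633) (nat_lit 228) (nat_lit 55406453681) (nat_lit 304) (nat_lit 23290949816) (nat_lit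 54) (nat_lit 5) (nat_lit 57) (nat_lit 5) (nat_lit 58) (nat_lit 5) (nat_lit 399) (nat_lit 369) (nat_lit 132)) (XT.nd (nat_lit 78) (nat_lit 0) (nat_lit 0) (XT.lf (nat_lit 0) (nat_lit 24253973876) (nat_lit 228) (nat_lit 216553889483) (nat_lit 76) (nat_lit 41320446220) (nat_lit 51) (nat_lit 5) (nat_lit 54) (nat_lit 5) (nat_lit 52) (nat_lit 5) (nat_lit 400) (nat_lit 369) (nat_lit 131)) (XT.lf (nat_lit 0) (nat_lit 75656253816) (nat_lit 228) (nat_lit 72752776756) (nat_lit 76) (nat_lit 142758079524) (nat_lit 51) (nat_lit 5) (nat_lit 54) (nat_lit 5) (nat_lit 52) (nat_lit 5) (nat_lit 401) (nat_lit 369) (nat_lit 130))))) (XT.nd (nat_lit 234) (nat_lit 304) (nat_lit 0) (XT.nd (nat_lit 78) (nat_lit 152) (nat_lit 0) (XT.lf (nat_lit 0) (nat_lit 80825174718) (nat_lit 228) (nat_lit 50065293614) (nat_lit 304) (nat_lit 169704291344) (nat_lit 48) (nat_lit 5) (nat_lit 51) (nat_lit 5) (nat_lit 52) (nat_lit 5)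 (nat_lit 402) (nat_lit 369) (nat_lit 129)) (XT.nd (nat_lit 78) (nat_lit 152) (nat_lit 0) (XT.lf (nat_lit 0) (nat_lit 190969142982) (nat_lit 304) (nat_lit 66675210814) (nat_lit 76) (nat_lit 52745300536) (nat_lit 48) (nat_lit 5) (nat_lit 52) (nat_lit 5) (nat_lit 49) (nat_lit 5) (nat_lit 403) (nat_lit 369) (nat_lit 128)) (XT.lf (nat_lit 0) (nat_lit 96336382674) (nat_lit 152) (nat_lit 160040110832) (nat_lit 228) (nat_lit 64181563169) (nat_lit 46) (nat_lit 5) (nat_lit 48) (nat_lit 5) (nat_lit 49) (nat_lit 5) (nat_lit 404) (nat_lit 369) (nat_lit 127)))) (XT.nd (nat_lit 78) (nat_lit 304) (nat_lit 0) (XT.lf (nat_lit 0) (nat_lit 269813247855) (nat_lit 152) (nat_lit 56370061353) (nat_lit 228) (nat_lit 4995115104) (nat_lit 46) (nat_lit 5) (nat_lit 48) (nat_lit 5) (nat_lit 49) (nat_lit 5) (nat_lit 405) (nat_lit 369) (nat_lit 126)) (XT.nd (nat_lit 78) (nat_lit 0) (nat_lit 0) (XT.lf (nat_lit 0) (nat_lit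 57938093547) (nat_lit 304) (nat_lit 230723059217) (nat_lit 76) (nat_lit 53493212722) (nat_lit 42) (nat_lit 5) (nat_lit 46) (nat_lit 5) (nat_lit 43) (nat_lit 5) (nat_lit 406) (nat_lit 369) (nat_lit 125)) (XT.lf (nat_lit 0) (nat_lit 125830403593) (nat_lit 304) (nat_lit 59652210001) (nat_lit 76) (nat_lit 168093380340) (nat_lit 42) (nat_lit 5) (nat_lit 46) (nat_lit 5) (nat_lit 43) (nat_lit 5) (nat_lit 407) (nat_lit 369) (nat_lit 124)))))) (XT.nd (nat_lit 468) (nat_lit 152) (nat_lit 0) (XT.nd (nat_lit 156) (nat_lit 380) (nat_lit 0) (XT.nd (nat_lit 78) (nat_lit 0) (nat_lit 0) (XT.lf (nat_lit 0) (nat_lit 123938886872) (nat_lit 152) (nat_lit 75113403626) (nat_lit 228) (nat_lit 166419665288) (nat_lit 40) (nat_lit 5) (nat_lit 42) (nat_lit 5) (nat_lit 43) (nat_lit 5) (nat_lit 408) (nat_lit 369) (nat_lit 123)) (XT.lf (nat_lit 0) (nat_lit 277598601704) (nat_lit 228) (nat_lit 59784951318) (nat_lit 76)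 (nat_lit 40495996257) (nat_lit 40) (nat_lit 5) (nat_lit 43) (nat_lit 5) (nat_lit 41) (nat_lit 5) (nat_lit 409) (nat_lit 369) (nat_lit 122))) (XT.nd (nat_lit 78) (nat_lit 228) (nat_lit 0) (XT.lf (nat_lit 0) (nat_lit 134111501630) (nat_lit 152) (nat_lit 229285882921) (nat_lit 228) (nat_lit 27343880135) (nat_lit 38) (nat_lit 5) (nat_lit 40) (nat_lit 5) (nat_lit 41) (nat_lit 5) (nat_lit 410) (nat_lit 369) (nat_lit 121)) (XT.nd (nat_lit 78) (nat_lit 152) (nat_lit 0) (XT.lf (nat_lit 0) (nat_lit 48693069936) (nat_lit 228) (nat_lit 65202548306) (nat_lit 76) (nat_lit 290260558007) (nat_lit 37) (nat_lit 5) (nat_lit 40) (nat_lit 5) (nat_lit 38) (nat_lit 5) (nat_lit 411) (nat_lit 369) (nat_lit 120)) (XT.lf (nat_lit 0) (nat_lit 129952445814) (nat_lit 228) (nat_lit 278443953705) (nat_lit 76) (nat_lit 9706045294) (nat_lit 35) (nat_lit 5) (nat_lit 38) (nat_lit 5) (nat_lit 36) (nat_lit 5) (nat_lit 412)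 (nat_lit 369) (nat_lit 119))))) (XT.nd (nat_lit 43524) (nat_lit 0) (nat_lit 4788) (XT.nd (nat_lit 78) (nat_lit 0) (nat_lit 0) (XT.lf (nat_lit 0) (nat_lit 137799200053) (nat_lit 152) (nat_lit 175343728945) (nat_lit 228) (nat_lit 134564875178) (nat_lit 33) (nat_lit 5) (nat_lit 35) (nat_lit 5) (nat_lit 36) (nat_lit 5) (nat_lit 414) (nat_lit 369) (nat_lit 117)) (XT.nd (nat_lit 43368) (nat_lit 0) (nat_lit 4788) (XT.lf (nat_lit 0) (nat_lit 366608009534) (nat_lit 152) (nat_lit 47470863162) (nat_lit 228) (nat_lit 49430077801) (nat_lit 33) (nat_lit 5) (nat_lit 35) (nat_lit 5) (nat_lit 36) (nat_lit 5) (nat_lit 415) (nat_lit 369) (nat_lit 116)) (XT.lf (nat_lit 0) (nat_lit 2843961075) (nat_lit 836) (nat_lit 29601222262) (nat_lit 836) (nat_lit 29601222262) (nat_lit 96) (nat_lit 3) (nat_lit 107) (nat_lit 3) (nat_lit 107) (nat_lit 5) (nat_lit 370) (nat_lit 370) (nat_lit 160)))) (XT.nd (nat_lit 78) (nat_lit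 0) (nat_lit 76) (XT.lf (nat_lit 0) (nat_lit 5834214717) (nat_lit 836) (nat_lit 1075522617) (nat_lit 836) (nat_lit 120285184319) (nat_lit 96) (nat_lit 3) (nat_lit 107) (nat_lit 3) (nat_lit 107) (nat_lit 5) (nat_lit 371) (nat_lit 370) (nat_lit 159)) (XT.nd (nat_lit 78) (nat_lit 0) (nat_lit 0) (XT.lf (nat_lit 0) (nat_lit 7813095108) (nat_lit 760) (nat_lit 69322198355) (nat_lit 836) (nat_lit 53225580829) (nat_lit 97) (nat_lit 5) (nat_lit 107) (nat_lit 5) (nat_lit 108) (nat_lit 5) (nat_lit 372) (nat_lit 370) (nat_lit 158)) (XT.lf (nat_lit 0) (nat_lit 10022457076) (nat_lit 760) (nat_lit 7502012938) (nat_lit 836) (nat_lit 116154077985) (nat_lit 97) (nat_lit 5) (nat_lit 107) (nat_lit 5) (nat_lit 108) (nat_lit 5) (nat_lit 373) (nat_lit 370) (nat_lit 157))))))) (XT.nd (nat_lit 858) (nat_lit 1976) (nat_lit 0) (XT.nd (nat_lit 390) (nat_lit 912) (nat_lit 0) (XT.nd (nat_lit 156) (nat_lit 0) (nat_lit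 76) (XT.nd (nat_lit 78) (nat_lit 0) (nat_lit 0) (XT.lf (nat_lit 0) (nat_lit 13986802909) (nat_lit 760) (nat_lit 78527380795) (nat_lit 836) (nat_lit 44565696194) (nat_lit 98) (nat_lit 5) (nat_lit 108) (nat_lit 5) (nat_lit 109) (nat_lit 5) (nat_lit 374) (nat_lit 370) (nat_lit 156)) (XT.lf (nat_lit 0) (nat_lit 18565557928) (nat_lit 760) (nat_lit 12764259262) (nat_lit 836) (nat_lit 109300651888) (nat_lit 98) (nat_lit 5) (nat_lit 108) (nat_lit 5) (nat_lit 109) (nat_lit 5) (nat_lit 375) (nat_lit 370) (nat_lit 155))) (XT.nd (nat_lit 78) (nat_lit 0) (nat_lit 0) (XT.lf (nat_lit 0) (nat_lit 24809646875) (nat_lit 760) (nat_lit 86693996305) (nat_lit 836) (nat_lit 32783124999) (nat_lit 99) (nat_lit 5) (nat_lit 109) (nat_lit 5) (nat_lit 110) (nat_lit 5) (nat_lit 376) (nat_lit 370) (nat_lit 154)) (XT.nd (nat_lit 78) (nat_lit 0) (nat_lit 76) (XT.lf (nat_lit 0) (nat_lit 32099048886) (nat_lit 760) (nat_lit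 16721576168) (nat_lit 836) (nat_lit 99268602005) (nat_lit 99) (nat_lit 5) (nat_lit 109) (nat_lit 5) (nat_lit 110) (nat_lit 5) (nat_lit 377) (nat_lit 370) (nat_lit 153)) (XT.lf (nat_lit 0) (nat_lit 40948404398) (nat_lit 760) (nat_lit 93690717802) (nat_lit 836) (nat_lit 17382912758) (nat_lit 100) (nat_lit 5) (nat_lit 110) (nat_lit 5) (nat_lit 111) (nat_lit 5) (nat_lit 378) (nat_lit 370) (nat_lit 152))))) (XT.nd (nat_lit 234) (nat_lit 1064) (nat_lit 0) (XT.nd (nat_lit 78) (nat_lit 0) (nat_lit 0) (XT.lf (nat_lit 0) (nat_lit 51328206323) (nat_lit 760) (nat_lit 19225070412) (nat_lit 836) (nat_lit 85543807816) (nat_lit 100) (nat_lit 5) (nat_lit 110) (nat_lit 5) (nat_lit 111) (nat_lit 5) (nat_lit 379) (nat_lit 370) (nat_lit 151)) (XT.nd (nat_lit 78) (nat_lit 0) (nat_lit 76) (XT.lf (nat_lit 76) (nat_lit 60913316818) (nat_lit 0) (nat_lit 2264528265) (nat_lit 836) (nat_lit 97150499425) (nat_lit 101)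 (nat_lit 5) (nat_lit 100) (nat_lit 5) (nat_lit 111) (nat_lit 5) (nat_lit 380) (nat_lit 370) (nat_lit 150)) (XT.lf (nat_lit 0) (nat_lit 77034847084) (nat_lit 760) (nat_lit 20118439292) (nat_lit 76) (nat_lit 67547137232) (nat_lit 101) (nat_lit 5) (nat_lit 111) (nat_lit 5) (nat_lit 102) (nat_lit 5) (nat_lit 381) (nat_lit 370) (nat_lit 149)))) (XT.nd (nat_lit 78) (nat_lit 380) (nat_lit 0) (XT.lf (nat_lit 0) (nat_lit 65192266146) (nat_lit 760) (nat_lit 27447224629) (nat_lit 836) (nat_lit 76598876510) (nat_lit 91) (nat_lit 5) (nat_lit 101) (nat_lit 5) (nat_lit 102) (nat_lit 5) (nat_lit 382) (nat_lit 370) (nat_lit 148)) (XT.nd (nat_lit 78) (nat_lit 380) (nat_lit 0) (XT.lf (nat_lit 0) (nat_lit 110084701913) (nat_lit 836) (nat_lit 19239133092) (nat_lit 76) (nat_lit 44626356568) (nat_lit 91) (nat_lit 5) (nat_lit 102) (nat_lit 5) (nat_lit 92) (nat_lit 5) (nat_lit 383) (nat_lit 370) (nat_lit 147))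 (XT.lf (nat_lit 0) (nat_lit 71651372989) (nat_lit 380) (nat_lit 58319281505) (nat_lit 456) (nat_lit 48848528720) (nat_lit 86) (nat_lit 5) (nat_lit 91) (nat_lit 5) (nat_lit 92) (nat_lit 5) (nat_lit 384) (nat_lit 370) (nat_lit 146)))))) (XT.nd (nat_lit 468) (nat_lit 912) (nat_lit 0) (XT.nd (nat_lit 234) (nat_lit 684) (nat_lit 0) (XT.nd (nat_lit 78) (nat_lit 380) (nat_lit 0) (XT.lf (nat_lit 0) (nat_lit 151435404440) (nat_lit 456) (nat_lit 16419965106) (nat_lit 76) (nat_lit 16047030076) (nat_lit 86) (nat_lit 5) (nat_lit 92) (nat_lit 5) (nat_lit 87) (nat_lit 5) (nat_lit 385) (nat_lit 370) (nat_lit 145)) (XT.nd (nat_lit 78) (nat_lit 76) (nat_lit 0) (XT.lf (nat_lit 0) (nat_lit 80485099066) (nat_lit 304) (nat_lit 95700804263) (nat_lit 380) (nat_lit 12943248116) (nat_lit 82) (nat_lit 5) (nat_lit 86) (nat_lit 5) (nat_lit 87) (nat_lit 5) (nat_lit 386) (nat_lit 370) (nat_lit 144)) (XT.lf (nat_lit 0)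 (nat_lit 7597325660) (nat_lit 380) (nat_lit 11920543630) (nat_lit 76) (nat_lit 175079347640) (nat_lit 81) (nat_lit 5) (nat_lit 86) (nat_lit 5) (nat_lit 82) (nat_lit 5) (nat_lit 387) (nat_lit 370) (nat_lit 143)))) (XT.nd (nat_lit 78) (nat_lit 304) (nat_lit 0) (XT.lf (nat_lit 0) (nat_lit 31143482063) (nat_lit 456) (nat_lit 108843590419) (nat_lit 76) (nat_lit 60220327532) (nat_lit 76) (nat_lit 5) (nat_lit 82) (nat_lit 5) (nat_lit 77) (nat_lit 5) (nat_lit 388) (nat_lit 370) (nat_lit 142)) (XT.nd (nat_lit 78) (nat_lit 304) (nat_lit 0) (XT.lf (nat_lit 0) (nat_lit 56391973332) (nat_lit 456) (nat_lit 6185182628) (nat_lit 76) (nat_lit 143494685075) (nat_lit 76) (nat_lit 5) (nat_lit 82) (nat_lit 5) (nat_lit 77) (nat_lit 5) (nat_lit 389) (nat_lit 370) (nat_lit 141)) (XT.lf (nat_lit 0) (nat_lit 84860449793) (nat_lit 380) (nat_lit 107500884390) (nat_lit 76) (nat_lit 19770292024) (nat_lit 72) (nat_lit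 5) (nat_lit 77) (nat_lit 5) (nat_lit 73) (nat_lit 5) (nat_lit 390) (nat_lit 370) (nat_lit 140))))) (XT.nd (nat_lit 234) (nat_lit 380) (nat_lit 0) (XT.nd (nat_lit 78) (nat_lit 228) (nat_lit 0) (XT.lf (nat_lit 0) (nat_lit 1741045718) (nat_lit 304) (nat_lit 114170690009) (nat_lit 380) (nat_lit 102524695750) (nat_lit 68) (nat_lit 5) (nat_lit 72) (nat_lit 5) (nat_lit 73) (nat_lit 5) (nat_lit 391) (nat_lit 370) (nat_lit 139)) (XT.nd (nat_lit 78) (nat_lit 228) (nat_lit 0) (XT.lf (nat_lit 0) (nat_lit 120177121294) (nat_lit 304) (nat_lit 30158929391) (nat_lit 380) (nat_lit 74629403206) (nat_lit 68) (nat_lit 5) (nat_lit 72) (nat_lit 5) (nat_lit 73) (nat_lit 5) (nat_lit 392) (nat_lit 370) (nat_lit 138)) (XT.lf (nat_lit 0) (nat_lit 12197970280) (nat_lit 228) (nat_lit 175380322520) (nat_lit 304) (nat_lit 44187799169) (nat_lit 65) (nat_lit 5) (nat_lit 68) (nat_lit 5) (nat_lit 69) (nat_lit 5) (nat_lit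 393) (nat_lit 370) (nat_lit 137)))) (XT.nd (nat_lit 78) (nat_lit 380) (nat_lit 0) (XT.lf (nat_lit 0) (nat_lit 138160711150) (nat_lit 228) (nat_lit 90782904777) (nat_lit 304) (nat_lit 9850097682) (nat_lit 65) (nat_lit 5) (nat_lit 68) (nat_lit 5) (nat_lit 69) (nat_lit 5) (nat_lit 394) (nat_lit 370) (nat_lit 136)) (XT.nd (nat_lit 78) (nat_lit 0) (nat_lit 0) (XT.lf (nat_lit 0) (nat_lit 24627860105) (nat_lit 304) (nat_lit 1122328152) (nat_lit 380) (nat_lit 220382851563) (nat_lit 60) (nat_lit 5) (nat_lit 64) (nat_lit 5) (nat_lit 65) (nat_lit 5) (nat_lit 395) (nat_lit 370) (nat_lit 135)) (XT.lf (nat_lit 0) (nat_lit 65983890046) (nat_lit 380) (nat_lit 95750476124) (nat_lit 76) (nat_lit 91937670942) (nat_lit 60) (nat_lit 5) (nat_lit 65) (nat_lit 5) (nat_lit 61) (nat_lit 5) (nat_lit 396) (nat_lit 370) (nat_lit 134))))))))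
noncomputable def xc243 : XT := (XT.nd (nat_lit 45162) (nat_lit 0) (nat_lit 2052) (XT.nd (nat_lit 858) (nat_lit 684) (nat_lit 0) (XT.nd (nat_lit 390) (nat_lit 684) (nat_lit 0) (XT.nd (nat_lit 156) (nat_lit 456) (nat_lit 0) (XT.nd (nat_lit 78) (nat_lit 0) (nat_lit 0) (XT.lf (nat_lit 0) (nat_lit 37472798888) (nat_lit 228) (nat_lit 71359836238) (nat_lit 304) (nat_lit 152725181318) (nat_lit 57) (nat_lit 5) (nat_lit 60) (nat_lit 5) (nat_lit 61) (nat_lit 5) (nat_lit 397) (nat_lit 370) (nat_lit 133)) (XT.lf (nat_lit 0) (nat_lit 155839310095) (nat_lit 304) (nat_lit 89469464360) (nat_lit 76) (nat_lit 24428335742) (nat_lit 57) (nat_lit 5) (nat_lit 61) (nat_lit 5) (nat_lit 58) (nat_lit 5) (nat_lit 398) (nat_lit 370) (nat_lit 132))) (XT.nd (nat_lit 78) (nat_lit 228) (nat_lit 0) (XT.lf (nat_lit 0) (nat_lit 52383508049) (nat_lit 228) (nat_lit 154800408039) (nat_lit 304) (nat_lit 71042072764) (nat_lit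 54) (nat_lit 5) (nat_lit 57) (nat_lit 5) (nat_lit 58) (nat_lit 5) (nat_lit 399) (nat_lit 370) (nat_lit 131)) (XT.nd (nat_lit 78) (nat_lit 228) (nat_lit 0) (XT.lf (nat_lit 0) (nat_lit 204435184395) (nat_lit 228) (nat_lit 58175689535) (nat_lit 304) (nat_lit 24452681507) (nat_lit 54) (nat_lit 5) (nat_lit 57) (nat_lit 5) (nat_lit 58) (nat_lit 5) (nat_lit 400) (nat_lit 370) (nat_lit 130)) (XT.lf (nat_lit 0) (nat_lit 25469345544) (nat_lit 228) (nat_lit 227377670478) (nat_lit 76) (nat_lit 43387573279) (nat_lit 51) (nat_lit 5) (nat_lit 54) (nat_lit 5) (nat_lit 52) (nat_lit 5) (nat_lit 401) (nat_lit 370) (nat_lit 129))))) (XT.nd (nat_lit 234) (nat_lit 456) (nat_lit 0) (XT.nd (nat_lit 78) (nat_lit 228) (nat_lit 0) (XT.lf (nat_lit 0) (nat_lit 79441612196) (nat_lit 228) (nat_lit 76386688471) (nat_lit 76) (nat_lit 149897035640) (nat_lit 51) (nat_lit 5) (nat_lit 54) (nat_lit 5) (nat_lit 52) (nat_lit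 5) (nat_lit 402) (nat_lit 370) (nat_lit 128)) (XT.nd (nat_lit 78) (nat_lit 0) (nat_lit 0) (XT.lf (nat_lit 0) (nat_lit 84870100462) (nat_lit 228) (nat_lit 52567373006) (nat_lit 304) (nat_lit 178186898194) (nat_lit 48) (nat_lit 5) (nat_lit 51) (nat_lit 5) (nat_lit 52) (nat_lit 5) (nat_lit 403) (nat_lit 370) (nat_lit 127)) (XT.lf (nat_lit 0) (nat_lit 200519981297) (nat_lit 304) (nat_lit 70005376592) (nat_lit 76) (nat_lit 55383658279) (nat_lit 48) (nat_lit 5) (nat_lit 52) (nat_lit 5) (nat_lit 49) (nat_lit 5) (nat_lit 404) (nat_lit 370) (nat_lit 126)))) (XT.nd (nat_lit 78) (nat_lit 304) (nat_lit 0) (XT.lf (nat_lit 0) (nat_lit 101156738590) (nat_lit 152) (nat_lit 168040902588) (nat_lit 228) (nat_lit 67388200446) (nat_lit 46) (nat_lit 5) (nat_lit 48) (nat_lit 5) (nat_lit 49) (nat_lit 5) (nat_lit 405) (nat_lit 370) (nat_lit 125)) (XT.nd (nat_lit 78) (nat_lit 304) (nat_lit 0) (XT.lf (nat_lit 0)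 (nat_lit 283307278612) (nat_lit 152) (nat_lit 59187408433) (nat_lit 228) (nat_lit 5242546210) (nat_lit 46) (nat_lit 5) (nat_lit 48) (nat_lit 5) (nat_lit 49) (nat_lit 5) (nat_lit 406) (nat_lit 370) (nat_lit 124)) (XT.lf (nat_lit 0) (nat_lit 60837212846) (nat_lit 304) (nat_lit 242255730714) (nat_lit 76) (nat_lit 56169027970) (nat_lit 42) (nat_lit 5) (nat_lit 46) (nat_lit 5) (nat_lit 43) (nat_lit 5) (nat_lit 407) (nat_lit 370) (nat_lit 123)))))) (XT.nd (nat_lit 468) (nat_lit 304) (nat_lit 0) (XT.nd (nat_lit 156) (nat_lit 228) (nat_lit 0) (XT.nd (nat_lit 78) (nat_lit 152) (nat_lit 0) (XT.lf (nat_lit 0) (nat_lit 132124032937) (nat_lit 304) (nat_lit 62631504822) (nat_lit 76) (nat_lit 176499148987) (nat_lit 42) (nat_lit 5) (nat_lit 46) (nat_lit 5) (nat_lit 43) (nat_lit 5) (nat_lit 408) (nat_lit 370) (nat_lit 122)) (XT.lf (nat_lit 0) (nat_lit 130139093416) (nat_lit 152) (nat_lit 78867871266) (nat_lit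 228) (nat_lit 174738484550) (nat_lit 40) (nat_lit 5) (nat_lit 42) (nat_lit 5) (nat_lit 43) (nat_lit 5) (nat_lit 409) (nat_lit 370) (nat_lit 121))) (XT.nd (nat_lit 78) (nat_lit 228) (nat_lit 0) (XT.lf (nat_lit 0) (nat_lit 291480511250) (nat_lit 228) (nat_lit 62771010534) (nat_lit 76) (nat_lit 42521904691) (nat_lit 40) (nat_lit 5) (nat_lit 43) (nat_lit 5) (nat_lit 41) (nat_lit 5) (nat_lit 410) (nat_lit 370) (nat_lit 120)) (XT.nd (nat_lit 78) (nat_lit 76) (nat_lit 0) (XT.lf (nat_lit 0) (nat_lit 140820213636) (nat_lit 152) (nat_lit 240748974320) (nat_lit 228) (nat_lit 28709042023) (nat_lit 38) (nat_lit 5) (nat_lit 40) (nat_lit 5) (nat_lit 41) (nat_lit 5) (nat_lit 411) (nat_lit 370) (nat_lit 119)) (XT.lf (nat_lit 0) (nat_lit 51129596841) (nat_lit 228) (nat_lit 68459625112) (nat_lit 76) (nat_lit 304774668320) (nat_lit 37) (nat_lit 5) (nat_lit 40) (nat_lit 5) (nat_lit 38) (nat_lit 5) (nat_lit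 412) (nat_lit 370) (nat_lit 118))))) (XT.nd (nat_lit 43602) (nat_lit 0) (nat_lit 4788) (XT.nd (nat_lit 78) (nat_lit 152) (nat_lit 0) (XT.lf (nat_lit 0) (nat_lit 229179179226) (nat_lit 228) (nat_lit 81424461260) (nat_lit 76) (nat_lit 143622654223) (nat_lit 35) (nat_lit 5) (nat_lit 38) (nat_lit 5) (nat_lit 36) (nat_lit 5) (nat_lit 414) (nat_lit 370) (nat_lit 116)) (XT.nd (nat_lit 43446) (nat_lit 0) (nat_lit 4788) (XT.lf (nat_lit 0) (nat_lit 144692042097) (nat_lit 152) (nat_lit 184109755746) (nat_lit 228) (nat_lit 141291309456) (nat_lit 33) (nat_lit 5) (nat_lit 35) (nat_lit 5) (nat_lit 36) (nat_lit 5) (nat_lit 415) (nat_lit 370) (nat_lit 115)) (XT.lf (nat_lit 0) (nat_lit 2990189714) (nat_lit 836) (nat_lit 31079164806) (nat_lit 836) (nat_lit 31079164806) (nat_lit 96) (nat_lit 3) (nat_lit 107) (nat_lit 3) (nat_lit 107) (nat_lit 5) (nat_lit 371) (nat_lit 371) (nat_lit 158)))) (XT.nd (nat_lit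 78) (nat_lit 0) (nat_lit 76) (XT.lf (nat_lit 0) (nat_lit 6133602758) (nat_lit 836) (nat_lit 1125263378) (nat_lit 836) (nat_lit 126295408165) (nat_lit 96) (nat_lit 3) (nat_lit 107) (nat_lit 3) (nat_lit 107) (nat_lit 5) (nat_lit 372) (nat_lit 371) (nat_lit 157)) (XT.nd (nat_lit 78) (nat_lit 0) (nat_lit 0) (XT.lf (nat_lit 0) (nat_lit 8211070434) (nat_lit 760) (nat_lit 72783907053) (nat_lit 836) (nat_lit 55883565378) (nat_lit 97) (nat_lit 5) (nat_lit 107) (nat_lit 5) (nat_lit 108) (nat_lit 5) (nat_lit 373) (nat_lit 371) (nat_lit 156)) (XT.lf (nat_lit 0) (nat_lit 10530551900) (nat_lit 760) (nat_lit 7872921948) (nat_lit 836) (nat_lit 121958644272) (nat_lit 97) (nat_lit 5) (nat_lit 107) (nat_lit 5) (nat_lit 108) (nat_lit 5) (nat_lit 374) (nat_lit 371) (nat_lit 155))))))) (XT.nd (nat_lit 858) (nat_lit 1976) (nat_lit 0) (XT.nd (nat_lit 390) (nat_lit 912) (nat_lit 0) (XT.nd (nat_lit 156) (nat_lit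 0) (nat_lit 76) (XT.nd (nat_lit 78) (nat_lit 0) (nat_lit 0) (XT.lf (nat_lit 0) (nat_lit 14692807128) (nat_lit 760) (nat_lit 82449242033) (nat_lit 836) (nat_lit 46791483261) (nat_lit 98) (nat_lit 5) (nat_lit 108) (nat_lit 5) (nat_lit 109) (nat_lit 5) (nat_lit 375) (nat_lit 371) (nat_lit 154)) (XT.lf (nat_lit 0) (nat_lit 19500182562) (nat_lit 760) (nat_lit 13398179082) (nat_lit 836) (nat_lit 114763305679) (nat_lit 98) (nat_lit 5) (nat_lit 108) (nat_lit 5) (nat_lit 109) (nat_lit 5) (nat_lit 376) (nat_lit 371) (nat_lit 153))) (XT.nd (nat_lit 78) (nat_lit 0) (nat_lit 0) (XT.lf (nat_lit 0) (nat_lit 26056210223) (nat_lit 760) (nat_lit 91024129745) (nat_lit 836) (nat_lit 34420455072) (nat_lit 99) (nat_lit 5) (nat_lit 109) (nat_lit 5) (nat_lit 110) (nat_lit 5) (nat_lit 377) (nat_lit 371) (nat_lit 152)) (XT.nd (nat_lit 78) (nat_lit 0) (nat_lit 76) (XT.lf (nat_lit 0) (nat_lit 33709792763) (nat_lit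 760) (nat_lit 17553306048) (nat_lit 836) (nat_lit 104230292889) (nat_lit 99) (nat_lit 5) (nat_lit 109) (nat_lit 5) (nat_lit 110) (nat_lit 5) (nat_lit 378) (nat_lit 371) (nat_lit 151)) (XT.lf (nat_lit 0) (nat_lit 43001386718) (nat_lit 760) (nat_lit 98370668630) (nat_lit 836) (nat_lit 18250796451) (nat_lit 100) (nat_lit 5) (nat_lit 110) (nat_lit 5) (nat_lit 111) (nat_lit 5) (nat_lit 379) (nat_lit 371) (nat_lit 150))))) (XT.nd (nat_lit 234) (nat_lit 1064) (nat_lit 0) (XT.nd (nat_lit 78) (nat_lit 0) (nat_lit 0) (XT.lf (nat_lit 0) (nat_lit 53899913877) (nat_lit 760) (nat_lit 20181957207) (nat_lit 836) (nat_lit 89819796356) (nat_lit 100) (nat_lit 5) (nat_lit 110) (nat_lit 5) (nat_lit 111) (nat_lit 5) (nat_lit 380) (nat_lit 371) (nat_lit 149)) (XT.nd (nat_lit 78) (nat_lit 0) (nat_lit 76) (XT.lf (nat_lit 76) (nat_lit 63963278953) (nat_lit 0) (nat_lit 2378570450) (nat_lit 836) (nat_lit 102002650559)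 (nat_lit 101) (nat_lit 5) (nat_lit 100) (nat_lit 5) (nat_lit 111) (nat_lit 5) (nat_lit 381) (nat_lit 371) (nat_lit 148)) (XT.lf (nat_lit 0) (nat_lit 80891445942) (nat_lit 760) (nat_lit 21120008112) (nat_lit 76) (nat_lit 70923742035) (nat_lit 101) (nat_lit 5) (nat_lit 111) (nat_lit 5) (nat_lit 102) (nat_lit 5) (nat_lit 382) (nat_lit 371) (nat_lit 147)))) (XT.nd (nat_lit 78) (nat_lit 380) (nat_lit 0) (XT.lf (nat_lit 0) (nat_lit 68456162386) (nat_lit 760) (nat_lit 28819995038) (nat_lit 836) (nat_lit 80423888025) (nat_lit 91) (nat_lit 5) (nat_lit 101) (nat_lit 5) (nat_lit 102) (nat_lit 5) (nat_lit 383) (nat_lit 371) (nat_lit 146)) (XT.nd (nat_lit 78) (nat_lit 380) (nat_lit 0) (XT.lf (nat_lit 0) (nat_lit 115593399601) (nat_lit 836) (nat_lit 20196775917) (nat_lit 76) (nat_lit 46857297176) (nat_lit 91) (nat_lit 5) (nat_lit 102) (nat_lit 5) (nat_lit 92) (nat_lit 5) (nat_lit 384) (nat_lit 371) (nat_lit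 145)) (XT.lf (nat_lit 0) (nat_lit 75238185891) (nat_lit 380) (nat_lit 61235317681) (nat_lit 456) (nat_lit 51286417911) (nat_lit 86) (nat_lit 5) (nat_lit 91) (nat_lit 5) (nat_lit 92) (nat_lit 5) (nat_lit 385) (nat_lit 371) (nat_lit 144)))))) (XT.nd (nat_lit 468) (nat_lit 912) (nat_lit 0) (XT.nd (nat_lit 234) (nat_lit 684) (nat_lit 0) (XT.nd (nat_lit 78) (nat_lit 380) (nat_lit 0) (XT.lf (nat_lit 0) (nat_lit 159011284402) (nat_lit 456) (nat_lit 17236709771) (nat_lit 76) (nat_lit 16849315111) (nat_lit 86) (nat_lit 5) (nat_lit 92) (nat_lit 5) (nat_lit 87) (nat_lit 5) (nat_lit 386) (nat_lit 371) (nat_lit 143)) (XT.nd (nat_lit 78) (nat_lit 76) (nat_lit 0) (XT.lf (nat_lit 0) (nat_lit 84513539004) (nat_lit 304) (nat_lit 100485638869) (nat_lit 380) (nat_lit 13586227572) (nat_lit 82) (nat_lit 5) (nat_lit 86) (nat_lit 5) (nat_lit 87) (nat_lit 5) (nat_lit 387) (nat_lit 371) (nat_lit 142)) (XT.lf (nat_lit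 0) (nat_lit 7981048199) (nat_lit 380) (nat_lit 12512453432) (nat_lit 76) (nat_lit 183833379158) (nat_lit 81) (nat_lit 5) (nat_lit 86) (nat_lit 5) (nat_lit 82) (nat_lit 5) (nat_lit 388) (nat_lit 371) (nat_lit 141)))) (XT.nd (nat_lit 78) (nat_lit 304) (nat_lit 0) (XT.lf (nat_lit 0) (nat_lit 32704396957) (nat_lit 456) (nat_lit 114281533119) (nat_lit 76) (nat_lit 63231648923) (nat_lit 76) (nat_lit 5) (nat_lit 82) (nat_lit 5) (nat_lit 77) (nat_lit 5) (nat_lit 389) (nat_lit 371) (nat_lit 140)) (XT.nd (nat_lit 78) (nat_lit 304) (nat_lit 0) (XT.lf (nat_lit 0) (nat_lit 59215134657) (nat_lit 456) (nat_lit 6490406692) (nat_lit 76) (nat_lit 150669709818) (nat_lit 76) (nat_lit 5) (nat_lit 82) (nat_lit 5) (nat_lit 77) (nat_lit 5) (nat_lit 390) (nat_lit 371) (nat_lit 139)) (XT.lf (nat_lit 0) (nat_lit 89106935314) (nat_lit 380) (nat_lit 112871790308) (nat_lit 76) (nat_lit 20759305137) (nat_lit 72) (nat_lit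 5) (nat_lit 77) (nat_lit 5) (nat_lit 73) (nat_lit 5) (nat_lit 391) (nat_lit 371) (nat_lit 138))))) (XT.nd (nat_lit 234) (nat_lit 380) (nat_lit 0) (XT.nd (nat_lit 78) (nat_lit 228) (nat_lit 0) (XT.lf (nat_lit 0) (nat_lit 1832169559) (nat_lit 304) (nat_lit 119878514648) (nat_lit 380) (nat_lit 107647397325) (nat_lit 68) (nat_lit 5) (nat_lit 72) (nat_lit 5) (nat_lit 73) (nat_lit 5) (nat_lit 392) (nat_lit 371) (nat_lit 137)) (XT.nd (nat_lit 78) (nat_lit 228) (nat_lit 0) (XT.lf (nat_lit 0) (nat_lit 126189855030) (nat_lit 304) (nat_lit 31666199802) (nat_lit 380) (nat_lit 78357508402) (nat_lit 68) (nat_lit 5) (nat_lit 72) (nat_lit 5) (nat_lit 73) (nat_lit 5) (nat_lit 393) (nat_lit 371) (nat_lit 136)) (XT.lf (nat_lit 0) (nat_lit 12811834254) (nat_lit 228) (nat_lit 184148494305) (nat_lit 304) (nat_lit 46393908836) (nat_lit 65) (nat_lit 5) (nat_lit 68) (nat_lit 5) (nat_lit 69) (nat_lit 5) (nat_lit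 394) (nat_lit 371) (nat_lit 135)))) (XT.nd (nat_lit 78) (nat_lit 380) (nat_lit 0) (XT.lf (nat_lit 0) (nat_lit 145072523337) (nat_lit 228) (nat_lit 95321245882) (nat_lit 304) (nat_lit 10339478480) (nat_lit 65) (nat_lit 5) (nat_lit 68) (nat_lit 5) (nat_lit 69) (nat_lit 5) (nat_lit 395) (nat_lit 371) (nat_lit 134)) (XT.nd (nat_lit 78) (nat_lit 0) (nat_lit 0) (XT.lf (nat_lit 0) (nat_lit 25863069983) (nat_lit 304) (nat_lit 1177567370) (nat_lit 380) (nat_lit 231398904782) (nat_lit 60) (nat_lit 5) (nat_lit 64) (nat_lit 5) (nat_lit 65) (nat_lit 5) (nat_lit 396) (nat_lit 371) (nat_lit 133)) (XT.lf (nat_lit 0) (nat_lit 69285897290) (nat_lit 380) (nat_lit 100534235308) (nat_lit 76) (nat_lit 96535363169) (nat_lit 60) (nat_lit 5) (nat_lit 65) (nat_lit 5) (nat_lit 61) (nat_lit 5) (nat_lit 397) (nat_lit 371) (nat_lit 132))))))))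
noncomputable def xc244 : XT := (XT.nd (nat_lit 45318) (nat_lit 0) (nat_lit 1672) (XT.nd (nat_lit 858) (nat_lit 532) (nat_lit 0) (XT.nd (nat_lit 390) (nat_lit 684) (nat_lit 0) (XT.nd (nat_lit 156) (nat_lit 456) (nat_lit 0) (XT.nd (nat_lit 78) (nat_lit 0) (nat_lit 0) (XT.lf (nat_lit 0) (nat_lit 39350142735) (nat_lit 228) (nat_lit 74926860778) (nat_lit 304) (nat_lit 160358564481) (nat_lit 57) (nat_lit 5) (nat_lit 60) (nat_lit 5) (nat_lit 61) (nat_lit 5) (nat_lit 398) (nat_lit 371) (nat_lit 131)) (XT.lf (nat_lit 0) (nat_lit 163633896297) (nat_lit 304) (nat_lit 93939291794) (nat_lit 76) (nat_lit 25650644256) (nat_lit 57) (nat_lit 5) (nat_lit 61) (nat_lit 5) (nat_lit 58) (nat_lit 5) (nat_lit 399) (nat_lit 371) (nat_lit 130))) (XT.nd (nat_lit 78) (nat_lit 228) (nat_lit 0) (XT.lf (nat_lit 0) (nat_lit 55006270432) (nat_lit 228) (nat_lit 162539393365) (nat_lit 304) (nat_lit 74591494688) (nat_lit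 54) (nat_lit 5) (nat_lit 57) (nat_lit 5) (nat_lit 58) (nat_lit 5) (nat_lit 400) (nat_lit 371) (nat_lit 129)) (XT.nd (nat_lit 78) (nat_lit 228) (nat_lit 0) (XT.lf (nat_lit 0) (nat_lit 214660359787) (nat_lit 228) (nat_lit 61083488225) (nat_lit 304) (nat_lit 25672761569) (nat_lit 54) (nat_lit 5) (nat_lit 57) (nat_lit 5) (nat_lit 58) (nat_lit 5) (nat_lit 401) (nat_lit 371) (nat_lit 128)) (XT.lf (nat_lit 0) (nat_lit 26745237288) (nat_lit 228) (nat_lit 238743004361) (nat_lit 76) (nat_lit 45557953981) (nat_lit 51) (nat_lit 5) (nat_lit 54) (nat_lit 5) (nat_lit 52) (nat_lit 5) (nat_lit 402) (nat_lit 371) (nat_lit 127))))) (XT.nd (nat_lit 234) (nat_lit 456) (nat_lit 0) (XT.nd (nat_lit 78) (nat_lit 228) (nat_lit 0) (XT.lf (nat_lit 0) (nat_lit 83416001821) (nat_lit 228) (nat_lit 80202642284) (nat_lit 76) (nat_lit 157392841745) (nat_lit 51) (nat_lit 5) (nat_lit 54) (nat_lit 5) (nat_lit 52) (nat_lit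 5) (nat_lit 403) (nat_lit 371) (nat_lit 126)) (XT.nd (nat_lit 78) (nat_lit 0) (nat_lit 0) (XT.lf (nat_lit 0) (nat_lit 89116931569) (nat_lit 228) (nat_lit 55194666564) (nat_lit 304) (nat_lit 187093877828) (nat_lit 48) (nat_lit 5) (nat_lit 51) (nat_lit 5) (nat_lit 52) (nat_lit 5) (nat_lit 404) (nat_lit 371) (nat_lit 125)) (XT.lf (nat_lit 0) (nat_lit 210548140150) (nat_lit 304) (nat_lit 73502384866) (nat_lit 76) (nat_lit 58153832319) (nat_lit 48) (nat_lit 5) (nat_lit 52) (nat_lit 5) (nat_lit 49) (nat_lit 5) (nat_lit 405) (nat_lit 371) (nat_lit 124)))) (XT.nd (nat_lit 78) (nat_lit 304) (nat_lit 0) (XT.lf (nat_lit 0) (nat_lit 106217783486) (nat_lit 152) (nat_lit 176441846777) (nat_lit 228) (nat_lit 70755396518) (nat_lit 46) (nat_lit 5) (nat_lit 48) (nat_lit 5) (nat_lit 49) (nat_lit 5) (nat_lit 406) (nat_lit 371) (nat_lit 123)) (XT.nd (nat_lit 78) (nat_lit 304) (nat_lit 0) (XT.lf (nat_lit 0)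 (nat_lit 297475697749) (nat_lit 152) (nat_lit 62145730341) (nat_lit 228) (nat_lit 5502564996) (nat_lit 46) (nat_lit 5) (nat_lit 48) (nat_lit 5) (nat_lit 49) (nat_lit 5) (nat_lit 407) (nat_lit 371) (nat_lit 122)) (XT.lf (nat_lit 0) (nat_lit 63881082216) (nat_lit 304) (nat_lit 254365359461) (nat_lit 76) (nat_lit 58978526635) (nat_lit 42) (nat_lit 5) (nat_lit 46) (nat_lit 5) (nat_lit 43) (nat_lit 5) (nat_lit 408) (nat_lit 371) (nat_lit 121)))))) (XT.nd (nat_lit 43992) (nat_lit 0) (nat_lit 4636) (XT.nd (nat_lit 156) (nat_lit 380) (nat_lit 0) (XT.nd (nat_lit 78) (nat_lit 152) (nat_lit 0) (XT.lf (nat_lit 0) (nat_lit 138732147657) (nat_lit 304) (nat_lit 65760072644) (nat_lit 76) (nat_lit 185325103833) (nat_lit 42) (nat_lit 5) (nat_lit 46) (nat_lit 5) (nat_lit 43) (nat_lit 5) (nat_lit 409) (nat_lit 371) (nat_lit 120)) (XT.lf (nat_lit 0) (nat_lit 136649006999) (nat_lit 152) (nat_lit 82810174090)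 (nat_lit 228) (nat_lit 183473445965) (nat_lit 40) (nat_lit 5) (nat_lit 42) (nat_lit 5) (nat_lit 43) (nat_lit 5) (nat_lit 410) (nat_lit 371) (nat_lit 119))) (XT.nd (nat_lit 78) (nat_lit 380) (nat_lit 0) (XT.lf (nat_lit 0) (nat_lit 306056332243) (nat_lit 228) (nat_lit 65906669133) (nat_lit 76) (nat_lit 44649005477) (nat_lit 40) (nat_lit 5) (nat_lit 43) (nat_lit 5) (nat_lit 41) (nat_lit 5) (nat_lit 411) (nat_lit 371) (nat_lit 118)) (XT.nd (nat_lit 156) (nat_lit 228) (nat_lit 0) (XT.lf (nat_lit 0) (nat_lit 147864069602) (nat_lit 152) (nat_lit 252785332108) (nat_lit 228) (nat_lit 30142650932) (nat_lit 38) (nat_lit 5) (nat_lit 40) (nat_lit 5) (nat_lit 41) (nat_lit 5) (nat_lit 412) (nat_lit 371) (nat_lit 117)) (XT.lf (nat_lit 0) (nat_lit 143276190706) (nat_lit 228) (nat_lit 306978439624) (nat_lit 76) (nat_lit 10703132033) (nat_lit 35) (nat_lit 5) (nat_lit 38) (nat_lit 5) (nat_lit 36) (nat_lit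 5) (nat_lit 414) (nat_lit 371) (nat_lit 115))))) (XT.nd (nat_lit 234) (nat_lit 0) (nat_lit 76) (XT.nd (nat_lit 78) (nat_lit 0) (nat_lit 0) (XT.lf (nat_lit 0) (nat_lit 3143355060) (nat_lit 836) (nat_lit 32631201442) (nat_lit 836) (nat_lit 32631201442) (nat_lit 96) (nat_lit 3) (nat_lit 107) (nat_lit 3) (nat_lit 107) (nat_lit 5) (nat_lit 372) (nat_lit 372) (nat_lit 156)) (XT.nd (nat_lit 78) (nat_lit 0) (nat_lit 76) (XT.lf (nat_lit 0) (nat_lit 6447246438) (nat_lit 836) (nat_lit 1177866348) (nat_lit 836) (nat_lit 132606518373) (nat_lit 96) (nat_lit 3) (nat_lit 107) (nat_lit 3) (nat_lit 107) (nat_lit 5) (nat_lit 373) (nat_lit 372) (nat_lit 155)) (XT.lf (nat_lit 0) (nat_lit 8628263928) (nat_lit 760) (nat_lit 76419110371) (nat_lit 836) (nat_lit 58674755445) (nat_lit 97) (nat_lit 5) (nat_lit 107) (nat_lit 5) (nat_lit 108) (nat_lit 5) (nat_lit 374) (nat_lit 372) (nat_lit 154)))) (XT.nd (nat_lit 78)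 (nat_lit 0) (nat_lit 76) (XT.lf (nat_lit 0) (nat_lit 11063403279) (nat_lit 760) (nat_lit 8262766106) (nat_lit 836) (nat_lit 128053730579) (nat_lit 97) (nat_lit 5) (nat_lit 107) (nat_lit 5) (nat_lit 108) (nat_lit 5) (nat_lit 375) (nat_lit 372) (nat_lit 153)) (XT.nd (nat_lit 78) (nat_lit 0) (nat_lit 0) (XT.lf (nat_lit 0) (nat_lit 15433491996) (nat_lit 760) (nat_lit 86567615427) (nat_lit 836) (nat_lit 49128791897) (nat_lit 98) (nat_lit 5) (nat_lit 108) (nat_lit 5) (nat_lit 109) (nat_lit 5) (nat_lit 376) (nat_lit 372) (nat_lit 152)) (XT.lf (nat_lit 0) (nat_lit 20480948367) (nat_lit 760) (nat_lit 14064194028) (nat_lit 836) (nat_lit 120499313319) (nat_lit 98) (nat_lit 5) (nat_lit 108) (nat_lit 5) (nat_lit 109) (nat_lit 5) (nat_lit 377) (nat_lit 372) (nat_lit 151))))))) (XT.nd (nat_lit 858) (nat_lit 1900) (nat_lit 0) (XT.nd (nat_lit 390) (nat_lit 1292) (nat_lit 0) (XT.nd (nat_lit 156) (nat_lit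 0) (nat_lit 76) (XT.nd (nat_lit 78) (nat_lit 0) (nat_lit 0) (XT.lf (nat_lit 0) (nat_lit 27364536384) (nat_lit 760) (nat_lit 95571194396) (nat_lit 836) (nat_lit 36139821429) (nat_lit 99) (nat_lit 5) (nat_lit 109) (nat_lit 5) (nat_lit 110) (nat_lit 5) (nat_lit 378) (nat_lit 372) (nat_lit 150)) (XT.lf (nat_lit 0) (nat_lit 35400535401) (nat_lit 760) (nat_lit 18427026745) (nat_lit 836) (nat_lit 109440230012) (nat_lit 99) (nat_lit 5) (nat_lit 109) (nat_lit 5) (nat_lit 110) (nat_lit 5) (nat_lit 379) (nat_lit 372) (nat_lit 149))) (XT.nd (nat_lit 78) (nat_lit 0) (nat_lit 0) (XT.lf (nat_lit 0) (nat_lit 45156501042) (nat_lit 760) (nat_lit 103285043276) (nat_lit 836) (nat_lit 19162191654) (nat_lit 100) (nat_lit 5) (nat_lit 110) (nat_lit 5) (nat_lit 111) (nat_lit 5) (nat_lit 380) (nat_lit 372) (nat_lit 148)) (XT.nd (nat_lit 78) (nat_lit 0) (nat_lit 0) (XT.lf (nat_lit 0) (nat_lit 56599714322) (nat_lit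 760) (nat_lit 21187094319) (nat_lit 836) (nat_lit 94309696059) (nat_lit 100) (nat_lit 5) (nat_lit 110) (nat_lit 5) (nat_lit 111) (nat_lit 5) (nat_lit 381) (nat_lit 372) (nat_lit 147)) (XT.lf (nat_lit 76) (nat_lit 67165339766) (nat_lit 0) (nat_lit 2498238901) (nat_lit 836) (nat_lit 107097908858) (nat_lit 101) (nat_lit 5) (nat_lit 100) (nat_lit 5) (nat_lit 111) (nat_lit 5) (nat_lit 382) (nat_lit 372) (nat_lit 146))))) (XT.nd (nat_lit 234) (nat_lit 684) (nat_lit 0) (XT.nd (nat_lit 78) (nat_lit 760) (nat_lit 0) (XT.lf (nat_lit 0) (nat_lit 84940423232) (nat_lit 760) (nat_lit 22172060087) (nat_lit 76) (nat_lit 74469246997) (nat_lit 101) (nat_lit 5) (nat_lit 111) (nat_lit 5) (nat_lit 102) (nat_lit 5) (nat_lit 383) (nat_lit 372) (nat_lit 145)) (XT.nd (nat_lit 78) (nat_lit 0) (nat_lit 0) (XT.lf (nat_lit 0) (nat_lit 71882855252) (nat_lit 760) (nat_lit 30261365925) (nat_lit 836) (nat_lit 84440608675)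 (nat_lit 91) (nat_lit 5) (nat_lit 101) (nat_lit 5) (nat_lit 102) (nat_lit 5) (nat_lit 384) (nat_lit 372) (nat_lit 144)) (XT.lf (nat_lit 0) (nat_lit 121377117284) (nat_lit 836) (nat_lit 21202701941) (nat_lit 76) (nat_lit 49199819885) (nat_lit 91) (nat_lit 5) (nat_lit 102) (nat_lit 5) (nat_lit 92) (nat_lit 5) (nat_lit 385) (nat_lit 372) (nat_lit 143)))) (XT.nd (nat_lit 78) (nat_lit 304) (nat_lit 0) (XT.lf (nat_lit 0) (nat_lit 79003944848) (nat_lit 380) (nat_lit 64297148962) (nat_lit 456) (nat_lit 53846623391) (nat_lit 86) (nat_lit 5) (nat_lit 91) (nat_lit 5) (nat_lit 92) (nat_lit 5) (nat_lit 386) (nat_lit 372) (nat_lit 142)) (XT.nd (nat_lit 78) (nat_lit 304) (nat_lit 0) (XT.lf (nat_lit 0) (nat_lit 166965576278) (nat_lit 456) (nat_lit 18094687127) (nat_lit 76) (nat_lit 17691720577) (nat_lit 86) (nat_lit 5) (nat_lit 92) (nat_lit 5) (nat_lit 87) (nat_lit 5) (nat_lit 387) (nat_lit 372) (nat_lit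 141)) (XT.lf (nat_lit 0) (nat_lit 88743011859) (nat_lit 304) (nat_lit 105509734320) (nat_lit 380) (nat_lit 14261744893) (nat_lit 82) (nat_lit 5) (nat_lit 86) (nat_lit 5) (nat_lit 87) (nat_lit 5) (nat_lit 388) (nat_lit 372) (nat_lit 140)))))) (XT.nd (nat_lit 468) (nat_lit 836) (nat_lit 0) (XT.nd (nat_lit 234) (nat_lit 608) (nat_lit 0) (XT.nd (nat_lit 78) (nat_lit 380) (nat_lit 0) (XT.lf (nat_lit 0) (nat_lit 8383598347) (nat_lit 380) (nat_lit 13134341518) (nat_lit 76) (nat_lit 193025106290) (nat_lit 81) (nat_lit 5) (nat_lit 86) (nat_lit 5) (nat_lit 82) (nat_lit 5) (nat_lit 389) (nat_lit 372) (nat_lit 139)) (XT.nd (nat_lit 78) (nat_lit 0) (nat_lit 0) (XT.lf (nat_lit 0) (nat_lit 34343009813) (nat_lit 456) (nat_lit 119991766854) (nat_lit 76) (nat_lit 66393508025) (nat_lit 76) (nat_lit 5) (nat_lit 82) (nat_lit 5) (nat_lit 77) (nat_lit 5) (nat_lit 390) (nat_lit 372) (nat_lit 138)) (XT.lf (nat_lit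 0) (nat_lit 62179122827) (nat_lit 456) (nat_lit 6811267102) (nat_lit 76) (nat_lit 158203458792) (nat_lit 76) (nat_lit 5) (nat_lit 82) (nat_lit 5) (nat_lit 77) (nat_lit 5) (nat_lit 391) (nat_lit 372) (nat_lit 137)))) (XT.nd (nat_lit 78) (nat_lit 304) (nat_lit 0) (XT.lf (nat_lit 0) (nat_lit 93565423151) (nat_lit 380) (nat_lit 118511626262) (nat_lit 76) (nat_lit 21797722559) (nat_lit 72) (nat_lit 5) (nat_lit 77) (nat_lit 5) (nat_lit 73) (nat_lit 5) (nat_lit 392) (nat_lit 372) (nat_lit 136)) (XT.nd (nat_lit 78) (nat_lit 0) (nat_lit 0) (XT.lf (nat_lit 0) (nat_lit 1927471057) (nat_lit 304) (nat_lit 125871796515) (nat_lit 380) (nat_lit 113026562463) (nat_lit 68) (nat_lit 5) (nat_lit 72) (nat_lit 5) (nat_lit 73) (nat_lit 5) (nat_lit 393) (nat_lit 372) (nat_lit 135)) (XT.lf (nat_lit 0) (nat_lit 132502864944) (nat_lit 304) (nat_lit 33248896587) (nat_lit 380) (nat_lit 82272331700) (nat_lit 68) (nat_lit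 5) (nat_lit 72) (nat_lit 5) (nat_lit 73) (nat_lit 5) (nat_lit 394) (nat_lit 372) (nat_lit 134))))) (XT.nd (nat_lit 234) (nat_lit 228) (nat_lit 0) (XT.nd (nat_lit 78) (nat_lit 380) (nat_lit 0) (XT.lf (nat_lit 0) (nat_lit 13456022756) (nat_lit 228) (nat_lit 193355153178) (nat_lit 304) (nat_lit 48710628958) (nat_lit 65) (nat_lit 5) (nat_lit 68) (nat_lit 5) (nat_lit 69) (nat_lit 5) (nat_lit 395) (nat_lit 372) (nat_lit 133)) (XT.nd (nat_lit 78) (nat_lit 380) (nat_lit 0) (XT.lf (nat_lit 0) (nat_lit 152329575017) (nat_lit 228) (nat_lit 100086578803) (nat_lit 304) (nat_lit 10853618765) (nat_lit 65) (nat_lit 5) (nat_lit 68) (nat_lit 5) (nat_lit 69) (nat_lit 5) (nat_lit 396) (nat_lit 372) (nat_lit 132)) (XT.lf (nat_lit 0) (nat_lit 27159685499) (nat_lit 304) (nat_lit 1235650102) (nat_lit 380) (nat_lit 242966047881) (nat_lit 60) (nat_lit 5) (nat_lit 64) (nat_lit 5) (nat_lit 65) (nat_lit 5) (nat_lit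 397) (nat_lit 372) (nat_lit 131)))) (XT.nd (nat_lit 78) (nat_lit 228) (nat_lit 0) (XT.lf (nat_lit 0) (nat_lit 72752743394) (nat_lit 380) (nat_lit 105557532450) (nat_lit 76) (nat_lit 101362864824) (nat_lit 60) (nat_lit 5) (nat_lit 65) (nat_lit 5) (nat_lit 61) (nat_lit 5) (nat_lit 398) (nat_lit 372) (nat_lit 130)) (XT.nd (nat_lit 78) (nat_lit 0) (nat_lit 0) (XT.lf (nat_lit 0) (nat_lit 41321009421) (nat_lit 228) (nat_lit 78672326473) (nat_lit 304) (nat_lit 168373884177) (nat_lit 57) (nat_lit 5) (nat_lit 60) (nat_lit 5) (nat_lit 61) (nat_lit 5) (nat_lit 399) (nat_lit 372) (nat_lit 129)) (XT.lf (nat_lit 0) (nat_lit 171817968162) (nat_lit 304) (nat_lit 98632949550) (nat_lit 76) (nat_lit 26933985292) (nat_lit 57) (nat_lit 5) (nat_lit 61) (nat_lit 5) (nat_lit 58) (nat_lit 5) (nat_lit 400) (nat_lit 372) (nat_lit 128))))))))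
noncomputable def xc245 : XT := (XT.nd (nat_lit 45474) (nat_lit 0) (nat_lit 1064) (XT.nd (nat_lit 1014) (nat_lit 228) (nat_lit 0) (XT.nd (nat_lit 390) (nat_lit 608) (nat_lit 0) (XT.nd (nat_lit 156) (nat_lit 456) (nat_lit 0) (XT.nd (nat_lit 78) (nat_lit 0) (nat_lit 0) (XT.lf (nat_lit 0) (nat_lit 57759837451) (nat_lit 228) (nat_lit 170665424189) (nat_lit 304) (nat_lit 78318637028) (nat_lit 54) (nat_lit 5) (nat_lit 57) (nat_lit 5) (nat_lit 58) (nat_lit 5) (nat_lit 401) (nat_lit 372) (nat_lit 127)) (XT.lf (nat_lit 0) (nat_lit 225396476346) (nat_lit 228) (nat_lit 64136768498) (nat_lit 304) (nat_lit 26954083082) (nat_lit 54) (nat_lit 5) (nat_lit 57) (nat_lit 5) (nat_lit 58) (nat_lit 5) (nat_lit 402) (nat_lit 372) (nat_lit 126))) (XT.nd (nat_lit 78) (nat_lit 228) (nat_lit 0) (XT.lf (nat_lit 0) (nat_lit 28084698215) (nat_lit 228) (nat_lit 250676934951) (nat_lit 76) (nat_lit 47836760558) (nat_lit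 51) (nat_lit 5) (nat_lit 54) (nat_lit 5) (nat_lit 52) (nat_lit 5) (nat_lit 403) (nat_lit 372) (nat_lit 125)) (XT.nd (nat_lit 78) (nat_lit 228) (nat_lit 0) (XT.lf (nat_lit 0) (nat_lit 87588896258) (nat_lit 228) (nat_lit 84209708086) (nat_lit 76) (nat_lit 165263349430) (nat_lit 51) (nat_lit 5) (nat_lit 54) (nat_lit 5) (nat_lit 52) (nat_lit 5) (nat_lit 404) (nat_lit 372) (nat_lit 124)) (XT.lf (nat_lit 0) (nat_lit 93575795004) (nat_lit 228) (nat_lit 57953424752) (nat_lit 304) (nat_lit 196446426344) (nat_lit 48) (nat_lit 5) (nat_lit 51) (nat_lit 5) (nat_lit 52) (nat_lit 5) (nat_lit 405) (nat_lit 372) (nat_lit 123))))) (XT.nd (nat_lit 234) (nat_lit 456) (nat_lit 0) (XT.nd (nat_lit 78) (nat_lit 152) (nat_lit 0) (XT.lf (nat_lit 0) (nat_lit 221077506149) (nat_lit 304) (nat_lit 77174546689) (nat_lit 76) (nat_lit 61062422916) (nat_lit 48) (nat_lit 5) (nat_lit 52) (nat_lit 5) (nat_lit 49) (nat_lit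 5) (nat_lit 406) (nat_lit 372) (nat_lit 122)) (XT.nd (nat_lit 78) (nat_lit 0) (nat_lit 0) (XT.lf (nat_lit 0) (nat_lit 111531582380) (nat_lit 152) (nat_lit 185262940531) (nat_lit 228) (nat_lit 74291158225) (nat_lit 46) (nat_lit 5) (nat_lit 48) (nat_lit 5) (nat_lit 49) (nat_lit 5) (nat_lit 407) (nat_lit 372) (nat_lit 121)) (XT.lf (nat_lit 0) (nat_lit 312352253798) (nat_lit 152) (nat_lit 65252065825) (nat_lit 228) (nat_lit 5775780752) (nat_lit 46) (nat_lit 5) (nat_lit 48) (nat_lit 5) (nat_lit 49) (nat_lit 5) (nat_lit 408) (nat_lit 372) (nat_lit 120)))) (XT.nd (nat_lit 78) (nat_lit 152) (nat_lit 0) (XT.lf (nat_lit 0) (nat_lit 67076958302) (nat_lit 304) (nat_lit 267080763225) (nat_lit 76) (nat_lit 61928402868) (nat_lit 42) (nat_lit 5) (nat_lit 46) (nat_lit 5) (nat_lit 43) (nat_lit 5) (nat_lit 409) (nat_lit 372) (nat_lit 119)) (XT.nd (nat_lit 78) (nat_lit 152) (nat_lit 0) (XT.lf (nat_lit 0) (nat_lit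 145670490254) (nat_lit 304) (nat_lit 69045348459) (nat_lit 76) (nat_lit 194592263693) (nat_lit 42) (nat_lit 5) (nat_lit 46) (nat_lit 5) (nat_lit 43) (nat_lit 5) (nat_lit 410) (nat_lit 372) (nat_lit 118)) (XT.lf (nat_lit 0) (nat_lit 143484141169) (nat_lit 152) (nat_lit 86949693461) (nat_lit 228) (nat_lit 192645337933) (nat_lit 40) (nat_lit 5) (nat_lit 42) (nat_lit 5) (nat_lit 43) (nat_lit 5) (nat_lit 411) (nat_lit 372) (nat_lit 117)))))) (XT.nd (nat_lit 43992) (nat_lit 0) (nat_lit 4636) (XT.nd (nat_lit 43758) (nat_lit 0) (nat_lit 4484) (XT.nd (nat_lit 43680) (nat_lit 0) (nat_lit 4484) (XT.lf (nat_lit 0) (nat_lit 56373705974) (nat_lit 228) (nat_lit 75471321600) (nat_lit 76) (nat_lit 336015993195) (nat_lit 37) (nat_lit 5) (nat_lit 40) (nat_lit 5) (nat_lit 38) (nat_lit 5) (nat_lit 414) (nat_lit 372) (nat_lit 114)) (XT.lf (nat_lit 0) (nat_lit 3303838785) (nat_lit 836) (nat_lit 34261018562) (nat_lit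 836) (nat_lit 34261018562) (nat_lit 96) (nat_lit 3) (nat_lit 107) (nat_lit 3) (nat_lit 107) (nat_lit 5) (nat_lit 373) (nat_lit 373) (nat_lit 154))) (XT.nd (nat_lit 78) (nat_lit 0) (nat_lit 76) (XT.lf (nat_lit 0) (nat_lit 6775924898) (nat_lit 836) (nat_lit 1233439756) (nat_lit 836) (nat_lit 139233524383) (nat_lit 96) (nat_lit 3) (nat_lit 107) (nat_lit 3) (nat_lit 107) (nat_lit 5) (nat_lit 374) (nat_lit 373) (nat_lit 153)) (XT.nd (nat_lit 78) (nat_lit 0) (nat_lit 0) (XT.lf (nat_lit 0) (nat_lit 9065699775) (nat_lit 760) (nat_lit 80236444995) (nat_lit 836) (nat_lit 61605782831) (nat_lit 97) (nat_lit 5) (nat_lit 107) (nat_lit 5) (nat_lit 108) (nat_lit 5) (nat_lit 375) (nat_lit 373) (nat_lit 152)) (XT.lf (nat_lit 0) (nat_lit 11622309301) (nat_lit 760) (nat_lit 8672455941) (nat_lit 836) (nat_lit 134453835787) (nat_lit 97) (nat_lit 5) (nat_lit 107) (nat_lit 5) (nat_lit 108) (nat_lit 5) (nat_lit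 376) (nat_lit 373) (nat_lit 151))))) (XT.nd (nat_lit 234) (nat_lit 0) (nat_lit 76) (XT.nd (nat_lit 78) (nat_lit 0) (nat_lit 0) (XT.lf (nat_lit 0) (nat_lit 16210649146) (nat_lit 760) (nat_lit 90892287619) (nat_lit 836) (nat_lit 51583176592) (nat_lit 98) (nat_lit 5) (nat_lit 108) (nat_lit 5) (nat_lit 109) (nat_lit 5) (nat_lit 377) (nat_lit 373) (nat_lit 150)) (XT.nd (nat_lit 78) (nat_lit 0) (nat_lit 76) (XT.lf (nat_lit 0) (nat_lit 21510217262) (nat_lit 760) (nat_lit 14763871750) (nat_lit 836) (nat_lit 126522321938) (nat_lit 98) (nat_lit 5) (nat_lit 108) (nat_lit 5) (nat_lit 109) (nat_lit 5) (nat_lit 378) (nat_lit 373) (nat_lit 149)) (XT.lf (nat_lit 0) (nat_lit 28737766060) (nat_lit 760) (nat_lit 100345997349) (nat_lit 836) (nat_lit 37945310099) (nat_lit 99) (nat_lit 5) (nat_lit 109) (nat_lit 5) (nat_lit 110) (nat_lit 5) (nat_lit 379) (nat_lit 373) (nat_lit 148)))) (XT.nd (nat_lit 78) (nat_lit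 0) (nat_lit 76) (XT.lf (nat_lit 0) (nat_lit 37175326797) (nat_lit 760) (nat_lit 19344800208) (nat_lit 836) (nat_lit 114910810655) (nat_lit 99) (nat_lit 5) (nat_lit 109) (nat_lit 5) (nat_lit 110) (nat_lit 5) (nat_lit 380) (nat_lit 373) (nat_lit 147)) (XT.nd (nat_lit 78) (nat_lit 0) (nat_lit 0) (XT.lf (nat_lit 0) (nat_lit 47418902047) (nat_lit 760) (nat_lit 108445523298) (nat_lit 836) (nat_lit 20119263032) (nat_lit 100) (nat_lit 5) (nat_lit 110) (nat_lit 5) (nat_lit 111) (nat_lit 5) (nat_lit 381) (nat_lit 373) (nat_lit 146)) (XT.lf (nat_lit 0) (nat_lit 59434058089) (nat_lit 760) (nat_lit 22242856519) (nat_lit 836) (nat_lit 99024192096) (nat_lit 100) (nat_lit 5) (nat_lit 110) (nat_lit 5) (nat_lit 111) (nat_lit 5) (nat_lit 382) (nat_lit 373) (nat_lit 145))))))) (XT.nd (nat_lit 858) (nat_lit 1596) (nat_lit 0) (XT.nd (nat_lit 390) (nat_lit 1064) (nat_lit 0) (XT.nd (nat_lit 156) (nat_lit 1064)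 (nat_lit 0) (XT.nd (nat_lit 78) (nat_lit 0) (nat_lit 76) (XT.lf (nat_lit 76) (nat_lit 70527141326) (nat_lit 0) (nat_lit 2623821984) (nat_lit 836) (nat_lit 112448383231) (nat_lit 101) (nat_lit 5) (nat_lit 100) (nat_lit 5) (nat_lit 111) (nat_lit 5) (nat_lit 383) (nat_lit 373) (nat_lit 144)) (XT.lf (nat_lit 0) (nat_lit 89191439851) (nat_lit 760) (nat_lit 23277081748) (nat_lit 76) (nat_lit 78192090627) (nat_lit 101) (nat_lit 5) (nat_lit 111) (nat_lit 5) (nat_lit 102) (nat_lit 5) (nat_lit 384) (nat_lit 373) (nat_lit 143))) (XT.nd (nat_lit 78) (nat_lit 380) (nat_lit 0) (XT.lf (nat_lit 0) (nat_lit 75480521595) (nat_lit 760) (nat_lit 31774770853) (nat_lit 836) (nat_lit 88658581284) (nat_lit 91) (nat_lit 5) (nat_lit 101) (nat_lit 5) (nat_lit 102) (nat_lit 5) (nat_lit 385) (nat_lit 373) (nat_lit 142)) (XT.nd (nat_lit 78) (nat_lit 380) (nat_lit 0) (XT.lf (nat_lit 0) (nat_lit 127449644534) (nat_lit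 836) (nat_lit 22259288039) (nat_lit 76) (nat_lit 51659500540) (nat_lit 91) (nat_lit 5) (nat_lit 102) (nat_lit 5) (nat_lit 92) (nat_lit 5) (nat_lit 386) (nat_lit 373) (nat_lit 141)) (XT.lf (nat_lit 0) (nat_lit 82957633847) (nat_lit 380) (nat_lit 67512065727) (nat_lit 456) (nat_lit 56535221758) (nat_lit 86) (nat_lit 5) (nat_lit 91) (nat_lit 5) (nat_lit 92) (nat_lit 5) (nat_lit 387) (nat_lit 373) (nat_lit 140))))) (XT.nd (nat_lit 234) (nat_lit 684) (nat_lit 0) (XT.nd (nat_lit 78) (nat_lit 380) (nat_lit 0) (XT.lf (nat_lit 0) (nat_lit 175317236185) (nat_lit 456) (nat_lit 18995922043) (nat_lit 76) (nat_lit 18576251922) (nat_lit 86) (nat_lit 5) (nat_lit 92) (nat_lit 5) (nat_lit 87) (nat_lit 5) (nat_lit 388) (nat_lit 373) (nat_lit 139)) (XT.nd (nat_lit 78) (nat_lit 76) (nat_lit 0) (XT.lf (nat_lit 0) (nat_lit 93183605450) (nat_lit 304) (nat_lit 110785051882) (nat_lit 380) (nat_lit 14971390815) (nat_lit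 82) (nat_lit 5) (nat_lit 86) (nat_lit 5) (nat_lit 87) (nat_lit 5) (nat_lit 389) (nat_lit 373) (nat_lit 138)) (XT.lf (nat_lit 0) (nat_lit 8805950815) (nat_lit 380) (nat_lit 13787671215) (nat_lit 76) (nat_lit 202676414369) (nat_lit 81) (nat_lit 5) (nat_lit 86) (nat_lit 5) (nat_lit 82) (nat_lit 5) (nat_lit 390) (nat_lit 373) (nat_lit 137)))) (XT.nd (nat_lit 78) (nat_lit 304) (nat_lit 0) (XT.lf (nat_lit 0) (nat_lit 36063237862) (nat_lit 456) (nat_lit 125987869553) (nat_lit 76) (nat_lit 69713434362) (nat_lit 76) (nat_lit 5) (nat_lit 82) (nat_lit 5) (nat_lit 77) (nat_lit 5) (nat_lit 391) (nat_lit 373) (nat_lit 136)) (XT.nd (nat_lit 78) (nat_lit 304) (nat_lit 0) (XT.lf (nat_lit 0) (nat_lit 65291009976) (nat_lit 456) (nat_lit 7148510797) (nat_lit 76) (nat_lit 166113870718) (nat_lit 76) (nat_lit 5) (nat_lit 82) (nat_lit 5) (nat_lit 77) (nat_lit 5) (nat_lit 392) (nat_lit 373) (nat_lit 135)) (XT.lf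 (nat_lit 0) (nat_lit 98246543353) (nat_lit 380) (nat_lit 124433802985) (nat_lit 76) (nat_lit 22888018814) (nat_lit 72) (nat_lit 5) (nat_lit 77) (nat_lit 5) (nat_lit 73) (nat_lit 5) (nat_lit 393) (nat_lit 373) (nat_lit 134)))))) (XT.nd (nat_lit 468) (nat_lit 684) (nat_lit 0) (XT.nd (nat_lit 234) (nat_lit 380) (nat_lit 0) (XT.nd (nat_lit 78) (nat_lit 228) (nat_lit 0) (XT.lf (nat_lit 0) (nat_lit 2027194288) (nat_lit 304) (nat_lit 132164802336) (nat_lit 380) (nat_lit 118674983803) (nat_lit 68) (nat_lit 5) (nat_lit 72) (nat_lit 5) (nat_lit 73) (nat_lit 5) (nat_lit 394) (nat_lit 373) (nat_lit 133)) (XT.nd (nat_lit 78) (nat_lit 228) (nat_lit 0) (XT.lf (nat_lit 0) (nat_lit 139131198361) (nat_lit 304) (nat_lit 34910785222) (nat_lit 380) (nat_lit 86383179921) (nat_lit 68) (nat_lit 5) (nat_lit 72) (nat_lit 5) (nat_lit 73) (nat_lit 5) (nat_lit 395) (nat_lit 373) (nat_lit 132)) (XT.lf (nat_lit 0) (nat_lit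 14132086288) (nat_lit 228) (nat_lit 203022216196) (nat_lit 304) (nat_lit 51143461702) (nat_lit 65) (nat_lit 5) (nat_lit 68) (nat_lit 5) (nat_lit 69) (nat_lit 5) (nat_lit 396) (nat_lit 373) (nat_lit 131)))) (XT.nd (nat_lit 78) (nat_lit 380) (nat_lit 0) (XT.lf (nat_lit 0) (nat_lit 159949160810) (nat_lit 228) (nat_lit 105090246180) (nat_lit 304) (nat_lit 11393729510) (nat_lit 65) (nat_lit 5) (nat_lit 68) (nat_lit 5) (nat_lit 69) (nat_lit 5) (nat_lit 397) (nat_lit 373) (nat_lit 130)) (XT.nd (nat_lit 78) (nat_lit 0) (nat_lit 0) (XT.lf (nat_lit 0) (nat_lit 28520809925) (nat_lit 304) (nat_lit 1296710941) (nat_lit 380) (nat_lit 255111808652) (nat_lit 60) (nat_lit 5) (nat_lit 64) (nat_lit 5) (nat_lit 65) (nat_lit 5) (nat_lit 398) (nat_lit 373) (nat_lit 129)) (XT.lf (nat_lit 0) (nat_lit 76392694614) (nat_lit 380) (nat_lit 110832311909) (nat_lit 76) (nat_lit 106431673369) (nat_lit 60) (nat_lit 5)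 (nat_lit 65) (nat_lit 5) (nat_lit 61) (nat_lit 5) (nat_lit 399) (nat_lit 373) (nat_lit 128))))) (XT.nd (nat_lit 234) (nat_lit 228) (nat_lit 0) (XT.nd (nat_lit 78) (nat_lit 228) (nat_lit 0) (XT.lf (nat_lit 0) (nat_lit 43390107102) (nat_lit 228) (nat_lit 82605147019) (nat_lit 304) (nat_lit 176790212373) (nat_lit 57) (nat_lit 5) (nat_lit 60) (nat_lit 5) (nat_lit 61) (nat_lit 5) (nat_lit 400) (nat_lit 373) (nat_lit 127)) (XT.nd (nat_lit 78) (nat_lit 228) (nat_lit 0) (XT.lf (nat_lit 0) (nat_lit 180411022624) (nat_lit 304) (nat_lit 103561597632) (nat_lit 76) (nat_lit 28281418182) (nat_lit 57) (nat_lit 5) (nat_lit 61) (nat_lit 5) (nat_lit 58) (nat_lit 5) (nat_lit 401) (nat_lit 373) (nat_lit 126)) (XT.lf (nat_lit 0) (nat_lit 60650780342) (nat_lit 228) (nat_lit 179197843838) (nat_lit 304) (nat_lit 82232362627) (nat_lit 54) (nat_lit 5) (nat_lit 57) (nat_lit 5) (nat_lit 58) (nat_lit 5) (nat_lit 402)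 (nat_lit 373) (nat_lit 125)))) (XT.nd (nat_lit 78) (nat_lit 228) (nat_lit 0) (XT.lf (nat_lit 0) (nat_lit 236669110657) (nat_lit 228) (nat_lit 67342795914) (nat_lit 304) (nat_lit 28299686043) (nat_lit 54) (nat_lit 5) (nat_lit 57) (nat_lit 5) (nat_lit 58) (nat_lit 5) (nat_lit 403) (nat_lit 373) (nat_lit 124)) (XT.nd (nat_lit 78) (nat_lit 0) (nat_lit 0) (XT.lf (nat_lit 0) (nat_lit 29490927740) (nat_lit 228) (nat_lit 263207861400) (nat_lit 76) (nat_lit 50229422966) (nat_lit 51) (nat_lit 5) (nat_lit 54) (nat_lit 5) (nat_lit 52) (nat_lit 5) (nat_lit 404) (nat_lit 373) (nat_lit 123)) (XT.lf (nat_lit 0) (nat_lit 91970240703) (nat_lit 228) (nat_lit 88417412254) (nat_lit 76) (nat_lit 173527302025) (nat_lit 51) (nat_lit 5) (nat_lit 54) (nat_lit 5) (nat_lit 52) (nat_lit 5) (nat_lit 405) (nat_lit 373) (nat_lit 122))))))))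
noncomputable def xc246 : XT := (XT.nd (nat_lit 45630) (nat_lit 0) (nat_lit 304) (XT.nd (nat_lit 44772) (nat_lit 0) (nat_lit 3344) (XT.nd (nat_lit 390) (nat_lit 0) (nat_lit 0) (XT.nd (nat_lit 156) (nat_lit 456) (nat_lit 0) (XT.nd (nat_lit 78) (nat_lit 0) (nat_lit 0) (XT.lf (nat_lit 0) (nat_lit 98257321132) (nat_lit 228) (nat_lit 60850211508) (nat_lit 304) (nat_lit 206266801742) (nat_lit 48) (nat_lit 5) (nat_lit 51) (nat_lit 5) (nat_lit 52) (nat_lit 5) (nat_lit 406) (nat_lit 373) (nat_lit 121)) (XT.lf (nat_lit 0) (nat_lit 232133158319) (nat_lit 304) (nat_lit 81030591556) (nat_lit 76) (nat_lit 64116359464) (nat_lit 48) (nat_lit 5) (nat_lit 52) (nat_lit 5) (nat_lit 49) (nat_lit 5) (nat_lit 407) (nat_lit 373) (nat_lit 120))) (XT.nd (nat_lit 78) (nat_lit 304) (nat_lit 0) (XT.lf (nat_lit 0) (nat_lit 117110800700) (nat_lit 152) (nat_lit 194525181811) (nat_lit 228) (nat_lit 78003894713) (nat_lit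 46) (nat_lit 5) (nat_lit 48) (nat_lit 5) (nat_lit 49) (nat_lit 5) (nat_lit 408) (nat_lit 373) (nat_lit 119)) (XT.nd (nat_lit 78) (nat_lit 304) (nat_lit 0) (XT.lf (nat_lit 0) (nat_lit 327972380013) (nat_lit 152) (nat_lit 68513806501) (nat_lit 228) (nat_lit 6062835101) (nat_lit 46) (nat_lit 5) (nat_lit 48) (nat_lit 5) (nat_lit 49) (nat_lit 5) (nat_lit 409) (nat_lit 373) (nat_lit 118)) (XT.lf (nat_lit 0) (nat_lit 70432458802) (nat_lit 304) (nat_lit 280432203465) (nat_lit 76) (nat_lit 65025684601) (nat_lit 42) (nat_lit 5) (nat_lit 46) (nat_lit 5) (nat_lit 43) (nat_lit 5) (nat_lit 410) (nat_lit 373) (nat_lit 117))))) (XT.nd (nat_lit 44148) (nat_lit 0) (nat_lit 4180) (XT.nd (nat_lit 43992) (nat_lit 0) (nat_lit 4104) (XT.lf (nat_lit 0) (nat_lit 152955588657) (nat_lit 304) (nat_lit 72495141671) (nat_lit 76) (nat_lit 204322697439) (nat_lit 42) (nat_lit 5) (nat_lit 46) (nat_lit 5) (nat_lit 43) (nat_lit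 5) (nat_lit 411) (nat_lit 373) (nat_lit 116)) (XT.nd (nat_lit 78) (nat_lit 0) (nat_lit 0) (XT.lf (nat_lit 0) (nat_lit 3472038409) (nat_lit 836) (nat_lit 35972488581) (nat_lit 836) (nat_lit 35972488581) (nat_lit 96) (nat_lit 3) (nat_lit 107) (nat_lit 3) (nat_lit 107) (nat_lit 5) (nat_lit 374) (nat_lit 374) (nat_lit 152)) (XT.lf (nat_lit 0) (nat_lit 7120450066) (nat_lit 836) (nat_lit 1292100489) (nat_lit 836) (nat_lit 146192189347) (nat_lit 96) (nat_lit 3) (nat_lit 107) (nat_lit 3) (nat_lit 107) (nat_lit 5) (nat_lit 375) (nat_lit 374) (nat_lit 151)))) (XT.nd (nat_lit 78) (nat_lit 0) (nat_lit 0) (XT.lf (nat_lit 0) (nat_lit 9524447485) (nat_lit 760) (nat_lit 84244982987) (nat_lit 836) (nat_lit 64683613571) (nat_lit 97) (nat_lit 5) (nat_lit 107) (nat_lit 5) (nat_lit 108) (nat_lit 5) (nat_lit 376) (nat_lit 374) (nat_lit 150)) (XT.nd (nat_lit 78) (nat_lit 0) (nat_lit 76) (XT.lf (nat_lit 0) (nat_lit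 12208627358) (nat_lit 760) (nat_lit 9102950874) (nat_lit 836) (nat_lit 141174186242) (nat_lit 97) (nat_lit 5) (nat_lit 107) (nat_lit 5) (nat_lit 108) (nat_lit 5) (nat_lit 377) (nat_lit 374) (nat_lit 149)) (XT.lf (nat_lit 0) (nat_lit 17026154438) (nat_lit 760) (nat_lit 95433538210) (nat_lit 836) (nat_lit 54160471568) (nat_lit 98) (nat_lit 5) (nat_lit 108) (nat_lit 5) (nat_lit 109) (nat_lit 5) (nat_lit 378) (nat_lit 374) (nat_lit 148)))))) (XT.nd (nat_lit 390) (nat_lit 912) (nat_lit 0) (XT.nd (nat_lit 156) (nat_lit 0) (nat_lit 76) (XT.nd (nat_lit 78) (nat_lit 0) (nat_lit 76) (XT.lf (nat_lit 0) (nat_lit 22590464158) (nat_lit 760) (nat_lit 15498861727) (nat_lit 836) (nat_lit 132846662935) (nat_lit 98) (nat_lit 5) (nat_lit 108) (nat_lit 5) (nat_lit 109) (nat_lit 5) (nat_lit 379) (nat_lit 374) (nat_lit 147)) (XT.lf (nat_lit 0) (nat_lit 30179192102) (nat_lit 760) (nat_lit 105359889717) (nat_lit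 836) (nat_lit 39841212883) (nat_lit 99) (nat_lit 5) (nat_lit 109) (nat_lit 5) (nat_lit 110) (nat_lit 5) (nat_lit 380) (nat_lit 374) (nat_lit 146))) (XT.nd (nat_lit 78) (nat_lit 0) (nat_lit 76) (XT.lf (nat_lit 0) (nat_lit 39038414792) (nat_lit 760) (nat_lit 20308794981) (nat_lit 836) (nat_lit 120655053358) (nat_lit 99) (nat_lit 5) (nat_lit 109) (nat_lit 5) (nat_lit 110) (nat_lit 5) (nat_lit 381) (nat_lit 374) (nat_lit 145)) (XT.nd (nat_lit 78) (nat_lit 0) (nat_lit 0) (XT.lf (nat_lit 0) (nat_lit 49793997674) (nat_lit 760) (nat_lit 113864378020) (nat_lit 836) (nat_lit 21124284502) (nat_lit 100) (nat_lit 5) (nat_lit 110) (nat_lit 5) (nat_lit 111) (nat_lit 5) (nat_lit 382) (nat_lit 374) (nat_lit 144)) (XT.lf (nat_lit 0) (nat_lit 62409713873) (nat_lit 760) (nat_lit 23351740828) (nat_lit 836) (nat_lit 103974504860) (nat_lit 100) (nat_lit 5) (nat_lit 110) (nat_lit 5) (nat_lit 111) (nat_lit 5) (nat_lit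 383) (nat_lit 374) (nat_lit 143))))) (XT.nd (nat_lit 234) (nat_lit 380) (nat_lit 0) (XT.nd (nat_lit 78) (nat_lit 684) (nat_lit 0) (XT.lf (nat_lit 76) (nat_lit 74056704354) (nat_lit 0) (nat_lit 2755621824) (nat_lit 836) (nat_lit 118066792353) (nat_lit 101) (nat_lit 5) (nat_lit 100) (nat_lit 5) (nat_lit 111) (nat_lit 5) (nat_lit 384) (nat_lit 374) (nat_lit 142)) (XT.nd (nat_lit 78) (nat_lit 760) (nat_lit 0) (XT.lf (nat_lit 0) (nat_lit 93654635842) (nat_lit 760) (nat_lit 24437687451) (nat_lit 76) (nat_lit 82101133960) (nat_lit 101) (nat_lit 5) (nat_lit 111) (nat_lit 5) (nat_lit 102) (nat_lit 5) (nat_lit 385) (nat_lit 374) (nat_lit 141)) (XT.lf (nat_lit 0) (nat_lit 79257743665) (nat_lit 760) (nat_lit 33363814730) (nat_lit 836) (nat_lit 93087829782) (nat_lit 91) (nat_lit 5) (nat_lit 101) (nat_lit 5) (nat_lit 102) (nat_lit 5) (nat_lit 386) (nat_lit 374) (nat_lit 140)))) (XT.nd (nat_lit 78) (nat_lit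 380) (nat_lit 0) (XT.lf (nat_lit 0) (nat_lit 133825456816) (nat_lit 836) (nat_lit 23369033395) (nat_lit 76) (nat_lit 54242194079) (nat_lit 91) (nat_lit 5) (nat_lit 102) (nat_lit 5) (nat_lit 92) (nat_lit 5) (nat_lit 387) (nat_lit 374) (nat_lit 139)) (XT.nd (nat_lit 78) (nat_lit 0) (nat_lit 0) (XT.lf (nat_lit 0) (nat_lit 87108682666) (nat_lit 380) (nat_lit 70887722815) (nat_lit 456) (nat_lit 59358597084) (nat_lit 86) (nat_lit 5) (nat_lit 91) (nat_lit 5) (nat_lit 92) (nat_lit 5) (nat_lit 388) (nat_lit 374) (nat_lit 138)) (XT.lf (nat_lit 0) (nat_lit 184086164746) (nat_lit 456) (nat_lit 19942544050) (nat_lit 76) (nat_lit 19505014918) (nat_lit 86) (nat_lit 5) (nat_lit 92) (nat_lit 5) (nat_lit 87) (nat_lit 5) (nat_lit 389) (nat_lit 374) (nat_lit 137))))))) (XT.nd (nat_lit 858) (nat_lit 1064) (nat_lit 0) (XT.nd (nat_lit 390) (nat_lit 912) (nat_lit 0) (XT.nd (nat_lit 156) (nat_lit 684) (nat_lit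 0) (XT.nd (nat_lit 78) (nat_lit 76) (nat_lit 0) (XT.lf (nat_lit 0) (nat_lit 97845908622) (nat_lit 304) (nat_lit 116324151049) (nat_lit 380) (nat_lit 15716838974) (nat_lit 82) (nat_lit 5) (nat_lit 86) (nat_lit 5) (nat_lit 87) (nat_lit 5) (nat_lit 390) (nat_lit 374) (nat_lit 136)) (XT.lf (nat_lit 0) (nat_lit 9249125954) (nat_lit 380) (nat_lit 14473982324) (nat_lit 76) (nat_lit 212810282947) (nat_lit 81) (nat_lit 5) (nat_lit 86) (nat_lit 5) (nat_lit 82) (nat_lit 5) (nat_lit 391) (nat_lit 374) (nat_lit 135))) (XT.nd (nat_lit 78) (nat_lit 304) (nat_lit 0) (XT.lf (nat_lit 0) (nat_lit 37869191191) (nat_lit 456) (nat_lit 132284101450) (nat_lit 76) (nat_lit 73199333687) (nat_lit 76) (nat_lit 5) (nat_lit 82) (nat_lit 5) (nat_lit 77) (nat_lit 5) (nat_lit 392) (nat_lit 374) (nat_lit 134)) (XT.nd (nat_lit 78) (nat_lit 304) (nat_lit 0) (XT.lf (nat_lit 0) (nat_lit 68558218985) (nat_lit 456) (nat_lit 7502925307)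 (nat_lit 76) (nat_lit 174419781021) (nat_lit 76) (nat_lit 5) (nat_lit 82) (nat_lit 5) (nat_lit 77) (nat_lit 5) (nat_lit 393) (nat_lit 374) (nat_lit 133)) (XT.lf (nat_lit 0) (nat_lit 103161454688) (nat_lit 380) (nat_lit 130652405070) (nat_lit 76) (nat_lit 24032791752) (nat_lit 72) (nat_lit 5) (nat_lit 77) (nat_lit 5) (nat_lit 73) (nat_lit 5) (nat_lit 394) (nat_lit 374) (nat_lit 132))))) (XT.nd (nat_lit 234) (nat_lit 380) (nat_lit 0) (XT.nd (nat_lit 78) (nat_lit 228) (nat_lit 0) (XT.lf (nat_lit 0) (nat_lit 2131592259) (nat_lit 304) (nat_lit 138772512744) (nat_lit 380) (nat_lit 124606096456) (nat_lit 68) (nat_lit 5) (nat_lit 72) (nat_lit 5) (nat_lit 73) (nat_lit 5) (nat_lit 395) (nat_lit 374) (nat_lit 131)) (XT.nd (nat_lit 78) (nat_lit 228) (nat_lit 0) (XT.lf (nat_lit 0) (nat_lit 146090651857) (nat_lit 304) (nat_lit 36655819998) (nat_lit 380) (nat_lit 90699827928) (nat_lit 68) (nat_lit 5)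 (nat_lit 72) (nat_lit 5) (nat_lit 73) (nat_lit 5) (nat_lit 396) (nat_lit 374) (nat_lit 130)) (XT.lf (nat_lit 0) (nat_lit 14841649690) (nat_lit 228) (nat_lit 213172696945) (nat_lit 304) (nat_lit 53698186984) (nat_lit 65) (nat_lit 5) (nat_lit 68) (nat_lit 5) (nat_lit 69) (nat_lit 5) (nat_lit 397) (nat_lit 374) (nat_lit 129)))) (XT.nd (nat_lit 78) (nat_lit 380) (nat_lit 0) (XT.lf (nat_lit 0) (nat_lit 167949437029) (nat_lit 228) (nat_lit 110344158431) (nat_lit 304) (nat_lit 11961084744) (nat_lit 65) (nat_lit 5) (nat_lit 68) (nat_lit 5) (nat_lit 69) (nat_lit 5) (nat_lit 398) (nat_lit 374) (nat_lit 128)) (XT.nd (nat_lit 78) (nat_lit 0) (nat_lit 0) (XT.lf (nat_lit 0) (nat_lit 29949698631) (nat_lit 304) (nat_lit 1360891916) (nat_lit 380) (nat_lit 267865093757) (nat_lit 60) (nat_lit 5) (nat_lit 64) (nat_lit 5) (nat_lit 65) (nat_lit 5) (nat_lit 399) (nat_lit 374) (nat_lit 127)) (XT.lf (nat_lit 0)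 (nat_lit 80214428256) (nat_lit 380) (nat_lit 116371118285) (nat_lit 76) (nat_lit 111753860486) (nat_lit 60) (nat_lit 5) (nat_lit 65) (nat_lit 5) (nat_lit 61) (nat_lit 5) (nat_lit 400) (nat_lit 374) (nat_lit 126)))))) (XT.nd (nat_lit 468) (nat_lit 380) (nat_lit 0) (XT.nd (nat_lit 234) (nat_lit 228) (nat_lit 0) (XT.nd (nat_lit 78) (nat_lit 228) (nat_lit 0) (XT.lf (nat_lit 0) (nat_lit 45562376366) (nat_lit 228) (nat_lit 86734682576) (nat_lit 304) (nat_lit 185627576949) (nat_lit 57) (nat_lit 5) (nat_lit 60) (nat_lit 5) (nat_lit 61) (nat_lit 5) (nat_lit 401) (nat_lit 374) (nat_lit 125)) (XT.nd (nat_lit 78) (nat_lit 228) (nat_lit 0) (XT.lf (nat_lit 0) (nat_lit 189433529360) (nat_lit 304) (nat_lit 108736956973) (nat_lit 76) (nat_lit 29696154512) (nat_lit 57) (nat_lit 5) (nat_lit 61) (nat_lit 5) (nat_lit 58) (nat_lit 5) (nat_lit 402) (nat_lit 374) (nat_lit 124)) (XT.lf (nat_lit 0) (nat_lit 63685996020)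 (nat_lit 228) (nat_lit 188156963641) (nat_lit 304) (nat_lit 86341979622) (nat_lit 54) (nat_lit 5) (nat_lit 57) (nat_lit 5) (nat_lit 58) (nat_lit 5) (nat_lit 403) (nat_lit 374) (nat_lit 123)))) (XT.nd (nat_lit 78) (nat_lit 228) (nat_lit 0) (XT.lf (nat_lit 0) (nat_lit 248505115390) (nat_lit 228) (nat_lit 70709200100) (nat_lit 304) (nat_lit 29712764500) (nat_lit 54) (nat_lit 5) (nat_lit 57) (nat_lit 5) (nat_lit 58) (nat_lit 5) (nat_lit 404) (nat_lit 374) (nat_lit 122)) (XT.nd (nat_lit 78) (nat_lit 0) (nat_lit 0) (XT.lf (nat_lit 0) (nat_lit 30967283301) (nat_lit 228) (nat_lit 276365605674) (nat_lit 76) (nat_lit 52741641851) (nat_lit 51) (nat_lit 5) (nat_lit 54) (nat_lit 5) (nat_lit 52) (nat_lit 5) (nat_lit 405) (nat_lit 374) (nat_lit 121)) (XT.lf (nat_lit 0) (nat_lit 96570475761) (nat_lit 228) (nat_lit 92835760203) (nat_lit 76) (nat_lit 182204379256) (nat_lit 51) (nat_lit 5) (nat_lit 54) (nat_lit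 5) (nat_lit 52) (nat_lit 5) (nat_lit 406) (nat_lit 374) (nat_lit 120))))) (XT.nd (nat_lit 234) (nat_lit 0) (nat_lit 0) (XT.nd (nat_lit 78) (nat_lit 152) (nat_lit 0) (XT.lf (nat_lit 0) (nat_lit 103172669164) (nat_lit 228) (nat_lit 63891919833) (nat_lit 304) (nat_lit 216578376824) (nat_lit 48) (nat_lit 5) (nat_lit 51) (nat_lit 5) (nat_lit 52) (nat_lit 5) (nat_lit 407) (nat_lit 374) (nat_lit 119)) (XT.nd (nat_lit 78) (nat_lit 152) (nat_lit 0) (XT.lf (nat_lit 0) (nat_lit 243741427902) (nat_lit 304) (nat_lit 85079688057) (nat_lit 76) (nat_lit 67322917031) (nat_lit 48) (nat_lit 5) (nat_lit 52) (nat_lit 5) (nat_lit 49) (nat_lit 5) (nat_lit 408) (nat_lit 374) (nat_lit 118)) (XT.lf (nat_lit 0) (nat_lit 122968734569) (nat_lit 152) (nat_lit 204250619364) (nat_lit 228) (nat_lit 81902437365) (nat_lit 46) (nat_lit 5) (nat_lit 48) (nat_lit 5) (nat_lit 49) (nat_lit 5) (nat_lit 409) (nat_lit 374) (nat_lit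 117)))) (XT.nd (nat_lit 44148) (nat_lit 0) (nat_lit 3800) (XT.lf (nat_lit 0) (nat_lit 344373278855) (nat_lit 152) (nat_lit 71938714408) (nat_lit 228) (nat_lit 6364403443) (nat_lit 46) (nat_lit 5) (nat_lit 48) (nat_lit 5) (nat_lit 49) (nat_lit 5) (nat_lit 410) (nat_lit 374) (nat_lit 116)) (XT.nd (nat_lit 78) (nat_lit 0) (nat_lit 0) (XT.lf (nat_lit 0) (nat_lit 3648368388) (nat_lit 836) (nat_lit 37769679079) (nat_lit 836) (nat_lit 37769679079) (nat_lit 96) (nat_lit 3) (nat_lit 107) (nat_lit 3) (nat_lit 107) (nat_lit 5) (nat_lit 375) (nat_lit 375) (nat_lit 150)) (XT.lf (nat_lit 0) (nat_lit 7481668872) (nat_lit 836) (nat_lit 1353974216) (nat_lit 836) (nat_lit 153499067518) (nat_lit 96) (nat_lit 3) (nat_lit 107) (nat_lit 3) (nat_lit 107) (nat_lit 5) (nat_lit 376) (nat_lit 375) (nat_lit 149))))))))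
noncomputable def xc247 : XT := (XT.nd (nat_lit 1716) (nat_lit 1444) (nat_lit 0) (XT.nd (nat_lit 858) (nat_lit 1976) (nat_lit 0) (XT.nd (nat_lit 390) (nat_lit 456) (nat_lit 0) (XT.nd (nat_lit 156) (nat_lit 0) (nat_lit 76) (XT.nd (nat_lit 78) (nat_lit 0) (nat_lit 0) (XT.lf (nat_lit 0) (nat_lit 10005624709) (nat_lit 760) (nat_lit 88454253218) (nat_lit 836) (nat_lit 67915564408) (nat_lit 97) (nat_lit 5) (nat_lit 107) (nat_lit 5) (nat_lit 108) (nat_lit 5) (nat_lit 377) (nat_lit 375) (nat_lit 148)) (XT.lf (nat_lit 0) (nat_lit 12823777630) (nat_lit 760) (nat_lit 9555261353) (nat_lit 836) (nat_lit 148230771895) (nat_lit 97) (nat_lit 5) (nat_lit 107) (nat_lit 5) (nat_lit 108) (nat_lit 5) (nat_lit 378) (nat_lit 375) (nat_lit 147))) (XT.nd (nat_lit 78) (nat_lit 0) (nat_lit 0) (XT.lf (nat_lit 0) (nat_lit 17881972667) (nat_lit 760) (nat_lit 100202164064) (nat_lit 836) (nat_lit 56866804575) (nat_lit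 98) (nat_lit 5) (nat_lit 108) (nat_lit 5) (nat_lit 109) (nat_lit 5) (nat_lit 379) (nat_lit 375) (nat_lit 146)) (XT.nd (nat_lit 78) (nat_lit 0) (nat_lit 76) (XT.lf (nat_lit 0) (nat_lit 23724283088) (nat_lit 760) (nat_lit 16270899045) (nat_lit 836) (nat_lit 139487386015) (nat_lit 98) (nat_lit 5) (nat_lit 108) (nat_lit 5) (nat_lit 109) (nat_lit 5) (nat_lit 380) (nat_lit 375) (nat_lit 145)) (XT.lf (nat_lit 0) (nat_lit 31692267570) (nat_lit 760) (nat_lit 110624793501) (nat_lit 836) (nat_lit 41832037498) (nat_lit 99) (nat_lit 5) (nat_lit 109) (nat_lit 5) (nat_lit 110) (nat_lit 5) (nat_lit 381) (nat_lit 375) (nat_lit 144))))) (XT.nd (nat_lit 234) (nat_lit 608) (nat_lit 0) (XT.nd (nat_lit 78) (nat_lit 0) (nat_lit 76) (XT.lf (nat_lit 0) (nat_lit 40994255401) (nat_lit 760) (nat_lit 21321291205) (nat_lit 836) (nat_lit 126686628856) (nat_lit 99) (nat_lit 5) (nat_lit 109) (nat_lit 5) (nat_lit 110) (nat_lit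 5) (nat_lit 382) (nat_lit 375) (nat_lit 143)) (XT.nd (nat_lit 78) (nat_lit 0) (nat_lit 0) (XT.lf (nat_lit 0) (nat_lit 52287462206) (nat_lit 760) (nat_lit 119554493571) (nat_lit 836) (nat_lit 22179644593) (nat_lit 100) (nat_lit 5) (nat_lit 110) (nat_lit 5) (nat_lit 111) (nat_lit 5) (nat_lit 383) (nat_lit 375) (nat_lit 142)) (XT.lf (nat_lit 0) (nat_lit 65533784946) (nat_lit 760) (nat_lit 24516372298) (nat_lit 836) (nat_lit 109172416643) (nat_lit 100) (nat_lit 5) (nat_lit 110) (nat_lit 5) (nat_lit 111) (nat_lit 5) (nat_lit 384) (nat_lit 375) (nat_lit 141)))) (XT.nd (nat_lit 78) (nat_lit 684) (nat_lit 0) (XT.lf (nat_lit 76) (nat_lit 77762447472) (nat_lit 0) (nat_lit 2893955061) (nat_lit 836) (nat_lit 123966494746) (nat_lit 101) (nat_lit 5) (nat_lit 100) (nat_lit 5) (nat_lit 111) (nat_lit 5) (nat_lit 385) (nat_lit 375) (nat_lit 140)) (XT.nd (nat_lit 78) (nat_lit 760) (nat_lit 0) (XT.lf (nat_lit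 0) (nat_lit 98340654707) (nat_lit 760) (nat_lit 25656625444) (nat_lit 76) (nat_lit 86205681635) (nat_lit 101) (nat_lit 5) (nat_lit 111) (nat_lit 5) (nat_lit 102) (nat_lit 5) (nat_lit 386) (nat_lit 375) (nat_lit 139)) (XT.lf (nat_lit 0) (nat_lit 83223529706) (nat_lit 760) (nat_lit 35032282414) (nat_lit 836) (nat_lit 97738882889) (nat_lit 91) (nat_lit 5) (nat_lit 101) (nat_lit 5) (nat_lit 102) (nat_lit 5) (nat_lit 387) (nat_lit 375) (nat_lit 138)))))) (XT.nd (nat_lit 390) (nat_lit 1216) (nat_lit 0) (XT.nd (nat_lit 156) (nat_lit 380) (nat_lit 0) (XT.nd (nat_lit 78) (nat_lit 380) (nat_lit 0) (XT.lf (nat_lit 0) (nat_lit 140519750115) (nat_lit 836) (nat_lit 24534565294) (nat_lit 76) (nat_lit 56954048466) (nat_lit 91) (nat_lit 5) (nat_lit 102) (nat_lit 5) (nat_lit 92) (nat_lit 5) (nat_lit 388) (nat_lit 375) (nat_lit 137)) (XT.lf (nat_lit 0) (nat_lit 91466989477) (nat_lit 380) (nat_lit 74432157756)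 (nat_lit 456) (nat_lit 62323455952) (nat_lit 86) (nat_lit 5) (nat_lit 91) (nat_lit 5) (nat_lit 92) (nat_lit 5) (nat_lit 389) (nat_lit 375) (nat_lit 136))) (XT.nd (nat_lit 78) (nat_lit 380) (nat_lit 0) (XT.lf (nat_lit 0) (nat_lit 193293254617) (nat_lit 456) (nat_lit 20936792255) (nat_lit 76) (nat_lit 20480220675) (nat_lit 86) (nat_lit 5) (nat_lit 92) (nat_lit 5) (nat_lit 87) (nat_lit 5) (nat_lit 390) (nat_lit 375) (nat_lit 135)) (XT.nd (nat_lit 78) (nat_lit 76) (nat_lit 0) (XT.lf (nat_lit 0) (nat_lit 102741036616) (nat_lit 304) (nat_lit 122140219439) (nat_lit 380) (nat_lit 16499849738) (nat_lit 82) (nat_lit 5) (nat_lit 86) (nat_lit 5) (nat_lit 87) (nat_lit 5) (nat_lit 391) (nat_lit 375) (nat_lit 134)) (XT.lf (nat_lit 0) (nat_lit 9714192317) (nat_lit 380) (nat_lit 15194894635) (nat_lit 76) (nat_lit 223450840504) (nat_lit 81) (nat_lit 5) (nat_lit 86) (nat_lit 5) (nat_lit 82) (nat_lit 5) (nat_lit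 392) (nat_lit 375) (nat_lit 133))))) (XT.nd (nat_lit 234) (nat_lit 532) (nat_lit 0) (XT.nd (nat_lit 78) (nat_lit 304) (nat_lit 0) (XT.lf (nat_lit 0) (nat_lit 39765182666) (nat_lit 456) (nat_lit 138895438875) (nat_lit 76) (nat_lit 76859506816) (nat_lit 76) (nat_lit 5) (nat_lit 82) (nat_lit 5) (nat_lit 77) (nat_lit 5) (nat_lit 393) (nat_lit 375) (nat_lit 132)) (XT.nd (nat_lit 78) (nat_lit 304) (nat_lit 0) (XT.lf (nat_lit 0) (nat_lit 71988541282) (nat_lit 456) (nat_lit 7875340480) (nat_lit 76) (nat_lit 183140966687) (nat_lit 76) (nat_lit 5) (nat_lit 82) (nat_lit 5) (nat_lit 77) (nat_lit 5) (nat_lit 394) (nat_lit 375) (nat_lit 131)) (XT.lf (nat_lit 0) (nat_lit 108321871338) (nat_lit 380) (nat_lit 137182224358) (nat_lit 76) (nat_lit 25234768753) (nat_lit 72) (nat_lit 5) (nat_lit 77) (nat_lit 5) (nat_lit 73) (nat_lit 5) (nat_lit 395) (nat_lit 375) (nat_lit 130)))) (XT.nd (nat_lit 78) (nat_lit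 228) (nat_lit 0) (XT.lf (nat_lit 0) (nat_lit 2240927661) (nat_lit 304) (nat_lit 145710657919) (nat_lit 380) (nat_lit 130834009861) (nat_lit 68) (nat_lit 5) (nat_lit 72) (nat_lit 5) (nat_lit 73) (nat_lit 5) (nat_lit 396) (nat_lit 375) (nat_lit 129)) (XT.nd (nat_lit 78) (nat_lit 228) (nat_lit 0) (XT.lf (nat_lit 0) (nat_lit 153397809010) (nat_lit 304) (nat_lit 38488153415) (nat_lit 380) (nat_lit 95232541784) (nat_lit 68) (nat_lit 5) (nat_lit 72) (nat_lit 5) (nat_lit 73) (nat_lit 5) (nat_lit 397) (nat_lit 375) (nat_lit 128)) (XT.lf (nat_lit 0) (nat_lit 15586416154) (nat_lit 228) (nat_lit 223830760309) (nat_lit 304) (nat_lit 56380876103) (nat_lit 65) (nat_lit 5) (nat_lit 68) (nat_lit 5) (nat_lit 69) (nat_lit 5) (nat_lit 398) (nat_lit 375) (nat_lit 127))))))) (XT.nd (nat_lit 858) (nat_lit 152) (nat_lit 0) (XT.nd (nat_lit 390) (nat_lit 684) (nat_lit 0) (XT.nd (nat_lit 156) (nat_lit 228) (nat_lit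 0) (XT.nd (nat_lit 78) (nat_lit 380) (nat_lit 0) (XT.lf (nat_lit 0) (nat_lit 176349465052) (nat_lit 228) (nat_lit 115860822083) (nat_lit 304) (nat_lit 12557024476) (nat_lit 65) (nat_lit 5) (nat_lit 68) (nat_lit 5) (nat_lit 69) (nat_lit 5) (nat_lit 399) (nat_lit 375) (nat_lit 126)) (XT.lf (nat_lit 0) (nat_lit 31449766973) (nat_lit 304) (nat_lit 1428342796) (nat_lit 380) (nat_lit 281256257445) (nat_lit 60) (nat_lit 5) (nat_lit 64) (nat_lit 5) (nat_lit 65) (nat_lit 5) (nat_lit 400) (nat_lit 375) (nat_lit 125))) (XT.nd (nat_lit 78) (nat_lit 228) (nat_lit 0) (XT.lf (nat_lit 0) (nat_lit 84227053443) (nat_lit 380) (nat_lit 122187126155) (nat_lit 76) (nat_lit 117342100857) (nat_lit 60) (nat_lit 5) (nat_lit 65) (nat_lit 5) (nat_lit 61) (nat_lit 5) (nat_lit 401) (nat_lit 375) (nat_lit 124)) (XT.nd (nat_lit 78) (nat_lit 0) (nat_lit 0) (XT.lf (nat_lit 0) (nat_lit 47843002131) (nat_lit 228) (nat_lit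 91070762017) (nat_lit 304) (nat_lit 194907009272) (nat_lit 57) (nat_lit 5) (nat_lit 60) (nat_lit 5) (nat_lit 61) (nat_lit 5) (nat_lit 402) (nat_lit 375) (nat_lit 123)) (XT.lf (nat_lit 0) (nat_lit 198906979619) (nat_lit 304) (nat_lit 114171337212) (nat_lit 76) (nat_lit 31181565794) (nat_lit 57) (nat_lit 5) (nat_lit 61) (nat_lit 5) (nat_lit 58) (nat_lit 5) (nat_lit 403) (nat_lit 375) (nat_lit 122))))) (XT.nd (nat_lit 234) (nat_lit 228) (nat_lit 0) (XT.nd (nat_lit 78) (nat_lit 228) (nat_lit 0) (XT.lf (nat_lit 0) (nat_lit 66872723631) (nat_lit 228) (nat_lit 197564111242) (nat_lit 304) (nat_lit 90657263513) (nat_lit 54) (nat_lit 5) (nat_lit 57) (nat_lit 5) (nat_lit 58) (nat_lit 5) (nat_lit 404) (nat_lit 375) (nat_lit 121)) (XT.nd (nat_lit 78) (nat_lit 228) (nat_lit 0) (XT.lf (nat_lit 0) (nat_lit 260932683360) (nat_lit 228) (nat_lit 74243992886) (nat_lit 304) (nat_lit 31196674069) (nat_lit 54)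 (nat_lit 5) (nat_lit 57) (nat_lit 5) (nat_lit 58) (nat_lit 5) (nat_lit 405) (nat_lit 375) (nat_lit 120)) (XT.lf (nat_lit 0) (nat_lit 32517288440) (nat_lit 228) (nat_lit 290181483421) (nat_lit 76) (nat_lit 55379402162) (nat_lit 51) (nat_lit 5) (nat_lit 54) (nat_lit 5) (nat_lit 52) (nat_lit 5) (nat_lit 406) (nat_lit 375) (nat_lit 119)))) (XT.nd (nat_lit 78) (nat_lit 228) (nat_lit 0) (XT.lf (nat_lit 0) (nat_lit 101400562382) (nat_lit 228) (nat_lit 97475260083) (nat_lit 76) (nat_lit 191315244142) (nat_lit 51) (nat_lit 5) (nat_lit 54) (nat_lit 5) (nat_lit 52) (nat_lit 5) (nat_lit 407) (nat_lit 375) (nat_lit 118)) (XT.nd (nat_lit 78) (nat_lit 0) (nat_lit 0) (XT.lf (nat_lit 0) (nat_lit 108333553846) (nat_lit 228) (nat_lit 67085788160) (nat_lit 304) (nat_lit 227405694753) (nat_lit 48) (nat_lit 5) (nat_lit 51) (nat_lit 5) (nat_lit 52) (nat_lit 5) (nat_lit 408) (nat_lit 375) (nat_lit 117)) (XT.lf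 (nat_lit 0) (nat_lit 255929961126) (nat_lit 304) (nat_lit 89331465588) (nat_lit 76) (nat_lit 70689733716) (nat_lit 48) (nat_lit 5) (nat_lit 52) (nat_lit 5) (nat_lit 49) (nat_lit 5) (nat_lit 409) (nat_lit 375) (nat_lit 116)))))) (XT.nd (nat_lit 44616) (nat_lit 0) (nat_lit 3952) (XT.nd (nat_lit 44382) (nat_lit 0) (nat_lit 3876) (XT.nd (nat_lit 44226) (nat_lit 0) (nat_lit 3800) (XT.lf (nat_lit 0) (nat_lit 129119342575) (nat_lit 152) (nat_lit 214462405172) (nat_lit 228) (nat_lit 85996060744) (nat_lit 46) (nat_lit 5) (nat_lit 48) (nat_lit 5) (nat_lit 49) (nat_lit 5) (nat_lit 410) (nat_lit 375) (nat_lit 115)) (XT.nd (nat_lit 78) (nat_lit 0) (nat_lit 0) (XT.lf (nat_lit 0) (nat_lit 3833261238) (nat_lit 836) (nat_lit 39656862415) (nat_lit 836) (nat_lit 39656862415) (nat_lit 96) (nat_lit 3) (nat_lit 107) (nat_lit 3) (nat_lit 107) (nat_lit 5) (nat_lit 376) (nat_lit 376) (nat_lit 148)) (XT.lf (nat_lit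 0) (nat_lit 7860465515) (nat_lit 836) (nat_lit 1419195560) (nat_lit 836) (nat_lit 161171543526) (nat_lit 96) (nat_lit 3) (nat_lit 107) (nat_lit 3) (nat_lit 107) (nat_lit 5) (nat_lit 377) (nat_lit 376) (nat_lit 147)))) (XT.nd (nat_lit 78) (nat_lit 0) (nat_lit 0) (XT.lf (nat_lit 0) (nat_lit 10510400140) (nat_lit 760) (nat_lit 92874263913) (nat_lit 836) (nat_lit 71309320095) (nat_lit 97) (nat_lit 5) (nat_lit 107) (nat_lit 5) (nat_lit 108) (nat_lit 5) (nat_lit 378) (nat_lit 376) (nat_lit 146)) (XT.nd (nat_lit 78) (nat_lit 0) (nat_lit 76) (XT.lf (nat_lit 0) (nat_lit 13469246697) (nat_lit 760) (nat_lit 10030451119) (nat_lit 836) (nat_lit 155640384268) (nat_lit 97) (nat_lit 5) (nat_lit 107) (nat_lit 5) (nat_lit 108) (nat_lit 5) (nat_lit 379) (nat_lit 376) (nat_lit 145)) (XT.lf (nat_lit 0) (nat_lit 18780162464) (nat_lit 760) (nat_lit 105209504868) (nat_lit 836) (nat_lit 59708611406) (nat_lit 98)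 (nat_lit 5) (nat_lit 108) (nat_lit 5) (nat_lit 109) (nat_lit 5) (nat_lit 380) (nat_lit 376) (nat_lit 144))))) (XT.nd (nat_lit 234) (nat_lit 0) (nat_lit 152) (XT.nd (nat_lit 78) (nat_lit 0) (nat_lit 76) (XT.lf (nat_lit 0) (nat_lit 24914393588) (nat_lit 760) (nat_lit 17081808380) (nat_lit 836) (nat_lit 146460294937) (nat_lit 98) (nat_lit 5) (nat_lit 108) (nat_lit 5) (nat_lit 109) (nat_lit 5) (nat_lit 381) (nat_lit 376) (nat_lit 143)) (XT.nd (nat_lit 78) (nat_lit 0) (nat_lit 0) (XT.lf (nat_lit 0) (nat_lit 33280614157) (nat_lit 760) (nat_lit 116153229818) (nat_lit 836) (nat_lit 43922518258) (nat_lit 99) (nat_lit 5) (nat_lit 109) (nat_lit 5) (nat_lit 110) (nat_lit 5) (nat_lit 382) (nat_lit 376) (nat_lit 142)) (XT.lf (nat_lit 0) (nat_lit 43047523609) (nat_lit 760) (nat_lit 22384685900) (nat_lit 836) (nat_lit 133019892570) (nat_lit 99) (nat_lit 5) (nat_lit 109) (nat_lit 5) (nat_lit 110) (nat_lit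 5) (nat_lit 383) (nat_lit 376) (nat_lit 141)))) (XT.nd (nat_lit 78) (nat_lit 0) (nat_lit 0) (XT.lf (nat_lit 0) (nat_lit 54905249963) (nat_lit 760) (nat_lit 125529403419) (nat_lit 836) (nat_lit 23287852099) (nat_lit 100) (nat_lit 5) (nat_lit 110) (nat_lit 5) (nat_lit 111) (nat_lit 5) (nat_lit 384) (nat_lit 376) (nat_lit 140)) (XT.nd (nat_lit 78) (nat_lit 0) (nat_lit 0) (XT.lf (nat_lit 0) (nat_lit 68813726238) (nat_lit 760) (nat_lit 25739510122) (nat_lit 836) (nat_lit 114630299643) (nat_lit 100) (nat_lit 5) (nat_lit 110) (nat_lit 5) (nat_lit 111) (nat_lit 5) (nat_lit 385) (nat_lit 376) (nat_lit 139)) (XT.lf (nat_lit 76) (nat_lit 81653207398) (nat_lit 0) (nat_lit 3039153627) (nat_lit 836) (nat_lit 130161520413) (nat_lit 101) (nat_lit 5) (nat_lit 100) (nat_lit 5) (nat_lit 111) (nat_lit 5) (nat_lit 386) (nat_lit 376) (nat_lit 138))))))))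
noncomputable def xc248 : XT := (XT.nd (nat_lit 1716) (nat_lit 228) (nat_lit 0) (XT.nd (nat_lit 858) (nat_lit 1292) (nat_lit 0) (XT.nd (nat_lit 390) (nat_lit 1368) (nat_lit 0) (XT.nd (nat_lit 156) (nat_lit 380) (nat_lit 0) (XT.nd (nat_lit 78) (nat_lit 760) (nat_lit 0) (XT.lf (nat_lit 0) (nat_lit 103260668914) (nat_lit 760) (nat_lit 26936784263) (nat_lit 76) (nat_lit 90515504018) (nat_lit 101) (nat_lit 5) (nat_lit 111) (nat_lit 5) (nat_lit 102) (nat_lit 5) (nat_lit 387) (nat_lit 376) (nat_lit 137)) (XT.lf (nat_lit 0) (nat_lit 87387335541) (nat_lit 760) (nat_lit 36784147734) (nat_lit 836) (nat_lit 102622799023) (nat_lit 91) (nat_lit 5) (nat_lit 101) (nat_lit 5) (nat_lit 102) (nat_lit 5) (nat_lit 388) (nat_lit 376) (nat_lit 136))) (XT.nd (nat_lit 78) (nat_lit 380) (nat_lit 0) (XT.lf (nat_lit 0) (nat_lit 147548477266) (nat_lit 836) (nat_lit 25758645241) (nat_lit 76) (nat_lit 59801519309) (nat_lit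 91) (nat_lit 5) (nat_lit 102) (nat_lit 5) (nat_lit 92) (nat_lit 5) (nat_lit 389) (nat_lit 376) (nat_lit 135)) (XT.nd (nat_lit 78) (nat_lit 0) (nat_lit 0) (XT.lf (nat_lit 0) (nat_lit 96042944553) (nat_lit 380) (nat_lit 78153809907) (nat_lit 456) (nat_lit 65436843275) (nat_lit 86) (nat_lit 5) (nat_lit 91) (nat_lit 5) (nat_lit 92) (nat_lit 5) (nat_lit 390) (nat_lit 376) (nat_lit 134)) (XT.lf (nat_lit 0) (nat_lit 202960440371) (nat_lit 456) (nat_lit 21981020532) (nat_lit 76) (nat_lit 21504190902) (nat_lit 86) (nat_lit 5) (nat_lit 92) (nat_lit 5) (nat_lit 87) (nat_lit 5) (nat_lit 391) (nat_lit 376) (nat_lit 133))))) (XT.nd (nat_lit 234) (nat_lit 608) (nat_lit 0) (XT.nd (nat_lit 78) (nat_lit 456) (nat_lit 0) (XT.lf (nat_lit 0) (nat_lit 107880657664) (nat_lit 304) (nat_lit 128247104185) (nat_lit 380) (nat_lit 17322274257) (nat_lit 82) (nat_lit 5) (nat_lit 86) (nat_lit 5) (nat_lit 87) (nat_lit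 5) (nat_lit 392) (nat_lit 376) (nat_lit 132)) (XT.nd (nat_lit 78) (nat_lit 380) (nat_lit 0) (XT.lf (nat_lit 0) (nat_lit 10202269340) (nat_lit 380) (nat_lit 15952111652) (nat_lit 76) (nat_lit 234623421904) (nat_lit 81) (nat_lit 5) (nat_lit 86) (nat_lit 5) (nat_lit 82) (nat_lit 5) (nat_lit 393) (nat_lit 376) (nat_lit 131)) (XT.lf (nat_lit 0) (nat_lit 41755738320) (nat_lit 456) (nat_lit 145837609779) (nat_lit 76) (nat_lit 80702669409) (nat_lit 76) (nat_lit 5) (nat_lit 82) (nat_lit 5) (nat_lit 77) (nat_lit 5) (nat_lit 394) (nat_lit 376) (nat_lit 130)))) (XT.nd (nat_lit 78) (nat_lit 608) (nat_lit 0) (XT.lf (nat_lit 0) (nat_lit 75590155509) (nat_lit 456) (nat_lit 8266630322) (nat_lit 76) (nat_lit 192298193357) (nat_lit 76) (nat_lit 5) (nat_lit 82) (nat_lit 5) (nat_lit 77) (nat_lit 5) (nat_lit 395) (nat_lit 376) (nat_lit 129)) (XT.nd (nat_lit 78) (nat_lit 304) (nat_lit 0) (XT.lf (nat_lit 0) (nat_lit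 113740090906) (nat_lit 380) (nat_lit 144038795018) (nat_lit 76) (nat_lit 26496813234) (nat_lit 72) (nat_lit 5) (nat_lit 77) (nat_lit 5) (nat_lit 73) (nat_lit 5) (nat_lit 396) (nat_lit 376) (nat_lit 128)) (XT.lf (nat_lit 0) (nat_lit 2355473625) (nat_lit 304) (nat_lit 152995755021) (nat_lit 380) (nat_lit 137373541268) (nat_lit 68) (nat_lit 5) (nat_lit 72) (nat_lit 5) (nat_lit 73) (nat_lit 5) (nat_lit 397) (nat_lit 376) (nat_lit 127)))))) (XT.nd (nat_lit 390) (nat_lit 684) (nat_lit 0) (XT.nd (nat_lit 156) (nat_lit 380) (nat_lit 0) (XT.nd (nat_lit 78) (nat_lit 228) (nat_lit 0) (XT.lf (nat_lit 0) (nat_lit 161070080014) (nat_lit 304) (nat_lit 40412146044) (nat_lit 380) (nat_lit 99992103077) (nat_lit 68) (nat_lit 5) (nat_lit 72) (nat_lit 5) (nat_lit 73) (nat_lit 5) (nat_lit 398) (nat_lit 376) (nat_lit 126)) (XT.lf (nat_lit 0) (nat_lit 16368171411) (nat_lit 228) (nat_lit 235021779973) (nat_lit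 304) (nat_lit 59197906094) (nat_lit 65) (nat_lit 5) (nat_lit 68) (nat_lit 5) (nat_lit 69) (nat_lit 5) (nat_lit 399) (nat_lit 376) (nat_lit 125))) (XT.nd (nat_lit 78) (nat_lit 380) (nat_lit 0) (XT.lf (nat_lit 0) (nat_lit 185169256827) (nat_lit 228) (nat_lit 121653369519) (nat_lit 304) (nat_lit 13182957782) (nat_lit 65) (nat_lit 5) (nat_lit 68) (nat_lit 5) (nat_lit 69) (nat_lit 5) (nat_lit 400) (nat_lit 376) (nat_lit 124)) (XT.nd (nat_lit 78) (nat_lit 0) (nat_lit 0) (XT.lf (nat_lit 0) (nat_lit 33024598550) (nat_lit 304) (nat_lit 1499221417) (nat_lit 380) (nat_lit 295317173719) (nat_lit 60) (nat_lit 5) (nat_lit 64) (nat_lit 5) (nat_lit 65) (nat_lit 5) (nat_lit 401) (nat_lit 376) (nat_lit 123)) (XT.lf (nat_lit 0) (nat_lit 88440132895) (nat_lit 380) (nat_lit 128294171311) (nat_lit 76) (nat_lit 123209702360) (nat_lit 60) (nat_lit 5) (nat_lit 65) (nat_lit 5) (nat_lit 61) (nat_lit 5) (nat_lit 402)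 (nat_lit 376) (nat_lit 122))))) (XT.nd (nat_lit 234) (nat_lit 228) (nat_lit 0) (XT.nd (nat_lit 78) (nat_lit 228) (nat_lit 0) (XT.lf (nat_lit 0) (nat_lit 50237426113) (nat_lit 228) (nat_lit 95623706297) (nat_lit 304) (nat_lit 204650594181) (nat_lit 57) (nat_lit 5) (nat_lit 60) (nat_lit 5) (nat_lit 61) (nat_lit 5) (nat_lit 403) (nat_lit 376) (nat_lit 121)) (XT.nd (nat_lit 78) (nat_lit 228) (nat_lit 0) (XT.lf (nat_lit 0) (nat_lit 208853937480) (nat_lit 304) (nat_lit 119877665877) (nat_lit 76) (nat_lit 32741191526) (nat_lit 57) (nat_lit 5) (nat_lit 61) (nat_lit 5) (nat_lit 58) (nat_lit 5) (nat_lit 404) (nat_lit 376) (nat_lit 120)) (XT.lf (nat_lit 0) (nat_lit 70218561907) (nat_lit 228) (nat_lit 207441681357) (nat_lit 304) (nat_lit 95188480349) (nat_lit 54) (nat_lit 5) (nat_lit 57) (nat_lit 5) (nat_lit 58) (nat_lit 5) (nat_lit 405) (nat_lit 376) (nat_lit 119)))) (XT.nd (nat_lit 78) (nat_lit 228)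 (nat_lit 0) (XT.lf (nat_lit 0) (nat_lit 273981414761) (nat_lit 228) (nat_lit 77955587343) (nat_lit 304) (nat_lit 32754939829) (nat_lit 54) (nat_lit 5) (nat_lit 57) (nat_lit 5) (nat_lit 58) (nat_lit 5) (nat_lit 406) (nat_lit 376) (nat_lit 118)) (XT.nd (nat_lit 78) (nat_lit 0) (nat_lit 0) (XT.lf (nat_lit 0) (nat_lit 34144641274) (nat_lit 228) (nat_lit 304688378421) (nat_lit 76) (nat_lit 58148987435) (nat_lit 51) (nat_lit 5) (nat_lit 54) (nat_lit 5) (nat_lit 52) (nat_lit 5) (nat_lit 407) (nat_lit 376) (nat_lit 117)) (XT.lf (nat_lit 0) (nat_lit 106472008037) (nat_lit 228) (nat_lit 102346947686) (nat_lit 76) (nat_lit 200881592220) (nat_lit 51) (nat_lit 5) (nat_lit 54) (nat_lit 5) (nat_lit 52) (nat_lit 5) (nat_lit 408) (nat_lit 376) (nat_lit 116))))))) (XT.nd (nat_lit 45162) (nat_lit 0) (nat_lit 1520) (XT.nd (nat_lit 44694) (nat_lit 0) (nat_lit 3800) (XT.nd (nat_lit 44460) (nat_lit 0) (nat_lit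 3648) (XT.nd (nat_lit 44382) (nat_lit 0) (nat_lit 3648) (XT.lf (nat_lit 0) (nat_lit 113752273466) (nat_lit 228) (nat_lit 70439417555) (nat_lit 304) (nat_lit 238774527416) (nat_lit 48) (nat_lit 5) (nat_lit 51) (nat_lit 5) (nat_lit 52) (nat_lit 5) (nat_lit 409) (nat_lit 376) (nat_lit 115)) (XT.lf (nat_lit 0) (nat_lit 4027168680) (nat_lit 836) (nat_lit 41638525838) (nat_lit 836) (nat_lit 41638525838) (nat_lit 96) (nat_lit 3) (nat_lit 107) (nat_lit 3) (nat_lit 107) (nat_lit 5) (nat_lit 377) (nat_lit 377) (nat_lit 146))) (XT.nd (nat_lit 78) (nat_lit 0) (nat_lit 76) (XT.lf (nat_lit 0) (nat_lit 8257763802) (nat_lit 836) (nat_lit 1487908293) (nat_lit 836) (nat_lit 169227873658) (nat_lit 96) (nat_lit 3) (nat_lit 107) (nat_lit 3) (nat_lit 107) (nat_lit 5) (nat_lit 378) (nat_lit 377) (nat_lit 145)) (XT.nd (nat_lit 78) (nat_lit 0) (nat_lit 0) (XT.lf (nat_lit 0) (nat_lit 11039996514) (nat_lit 760) (nat_lit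 97515526345) (nat_lit 836) (nat_lit 74872951603) (nat_lit 97) (nat_lit 5) (nat_lit 107) (nat_lit 5) (nat_lit 108) (nat_lit 5) (nat_lit 379) (nat_lit 377) (nat_lit 144)) (XT.lf (nat_lit 0) (nat_lit 14146591286) (nat_lit 760) (nat_lit 10529639614) (nat_lit 836) (nat_lit 163420656342) (nat_lit 97) (nat_lit 5) (nat_lit 107) (nat_lit 5) (nat_lit 108) (nat_lit 5) (nat_lit 380) (nat_lit 377) (nat_lit 143))))) (XT.nd (nat_lit 234) (nat_lit 0) (nat_lit 76) (XT.nd (nat_lit 78) (nat_lit 0) (nat_lit 0) (XT.lf (nat_lit 0) (nat_lit 19722881393) (nat_lit 760) (nat_lit 110467469999) (nat_lit 836) (nat_lit 62692651140) (nat_lit 98) (nat_lit 5) (nat_lit 108) (nat_lit 5) (nat_lit 109) (nat_lit 5) (nat_lit 381) (nat_lit 377) (nat_lit 142)) (XT.nd (nat_lit 78) (nat_lit 0) (nat_lit 76) (XT.lf (nat_lit 0) (nat_lit 26163647368) (nat_lit 760) (nat_lit 17933508216) (nat_lit 836) (nat_lit 153781985077) (nat_lit 98)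 (nat_lit 5) (nat_lit 108) (nat_lit 5) (nat_lit 109) (nat_lit 5) (nat_lit 382) (nat_lit 377) (nat_lit 141)) (XT.lf (nat_lit 0) (nat_lit 34948030995) (nat_lit 760) (nat_lit 121958348581) (nat_lit 836) (nat_lit 46117627288) (nat_lit 99) (nat_lit 5) (nat_lit 109) (nat_lit 5) (nat_lit 110) (nat_lit 5) (nat_lit 383) (nat_lit 377) (nat_lit 140)))) (XT.nd (nat_lit 78) (nat_lit 0) (nat_lit 76) (XT.lf (nat_lit 0) (nat_lit 45203124675) (nat_lit 760) (nat_lit 23501498550) (nat_lit 836) (nat_lit 139669918738) (nat_lit 99) (nat_lit 5) (nat_lit 109) (nat_lit 5) (nat_lit 110) (nat_lit 5) (nat_lit 384) (nat_lit 377) (nat_lit 139)) (XT.nd (nat_lit 78) (nat_lit 0) (nat_lit 0) (XT.lf (nat_lit 0) (nat_lit 57653609646) (nat_lit 760) (nat_lit 131803320457) (nat_lit 836) (nat_lit 24451542006) (nat_lit 100) (nat_lit 5) (nat_lit 110) (nat_lit 5) (nat_lit 111) (nat_lit 5) (nat_lit 385) (nat_lit 377) (nat_lit 138))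 (XT.lf (nat_lit 0) (nat_lit 72257362250) (nat_lit 760) (nat_lit 27024054072) (nat_lit 836) (nat_lit 120361145389) (nat_lit 100) (nat_lit 5) (nat_lit 110) (nat_lit 5) (nat_lit 111) (nat_lit 5) (nat_lit 386) (nat_lit 377) (nat_lit 137)))))) (XT.nd (nat_lit 468) (nat_lit 1368) (nat_lit 0) (XT.nd (nat_lit 234) (nat_lit 380) (nat_lit 0) (XT.nd (nat_lit 78) (nat_lit 684) (nat_lit 0) (XT.lf (nat_lit 76) (nat_lit 85738260105) (nat_lit 0) (nat_lit 3191565561) (nat_lit 836) (nat_lit 136666604080) (nat_lit 101) (nat_lit 5) (nat_lit 100) (nat_lit 5) (nat_lit 111) (nat_lit 5) (nat_lit 387) (nat_lit 377) (nat_lit 136)) (XT.nd (nat_lit 78) (nat_lit 760) (nat_lit 0) (XT.lf (nat_lit 0) (nat_lit 108426406643) (nat_lit 760) (nat_lit 28281199482) (nat_lit 76) (nat_lit 95040860445) (nat_lit 101) (nat_lit 5) (nat_lit 111) (nat_lit 5) (nat_lit 102) (nat_lit 5) (nat_lit 388) (nat_lit 377) (nat_lit 135)) (XT.lf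 (nat_lit 0) (nat_lit 91759087215) (nat_lit 760) (nat_lit 38623582966) (nat_lit 836) (nat_lit 107751192479) (nat_lit 91) (nat_lit 5) (nat_lit 101) (nat_lit 5) (nat_lit 102) (nat_lit 5) (nat_lit 389) (nat_lit 377) (nat_lit 134)))) (XT.nd (nat_lit 78) (nat_lit 380) (nat_lit 0) (XT.lf (nat_lit 0) (nat_lit 154928386067) (nat_lit 836) (nat_lit 27044175401) (nat_lit 76) (nat_lit 62791385224) (nat_lit 91) (nat_lit 5) (nat_lit 102) (nat_lit 5) (nat_lit 92) (nat_lit 5) (nat_lit 390) (nat_lit 377) (nat_lit 133)) (XT.nd (nat_lit 78) (nat_lit 0) (nat_lit 0) (XT.lf (nat_lit 0) (nat_lit 100847455140) (nat_lit 380) (nat_lit 82061540551) (nat_lit 456) (nat_lit 68706158931) (nat_lit 86) (nat_lit 5) (nat_lit 91) (nat_lit 5) (nat_lit 92) (nat_lit 5) (nat_lit 391) (nat_lit 377) (nat_lit 132)) (XT.lf (nat_lit 0) (nat_lit 213110750847) (nat_lit 456) (nat_lit 23077702999) (nat_lit 76) (nat_lit 22579363435) (nat_lit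 86) (nat_lit 5) (nat_lit 92) (nat_lit 5) (nat_lit 87) (nat_lit 5) (nat_lit 392) (nat_lit 377) (nat_lit 131))))) (XT.nd (nat_lit 234) (nat_lit 608) (nat_lit 0) (XT.nd (nat_lit 78) (nat_lit 456) (nat_lit 0) (XT.lf (nat_lit 0) (nat_lit 113277020904) (nat_lit 304) (nat_lit 134659344905) (nat_lit 380) (nat_lit 18186058747) (nat_lit 82) (nat_lit 5) (nat_lit 86) (nat_lit 5) (nat_lit 87) (nat_lit 5) (nat_lit 393) (nat_lit 377) (nat_lit 130)) (XT.nd (nat_lit 78) (nat_lit 380) (nat_lit 0) (XT.lf (nat_lit 0) (nat_lit 10714530114) (nat_lit 380) (nat_lit 16747424524) (nat_lit 76) (nat_lit 246354628712) (nat_lit 81) (nat_lit 5) (nat_lit 86) (nat_lit 5) (nat_lit 82) (nat_lit 5) (nat_lit 394) (nat_lit 377) (nat_lit 129)) (XT.lf (nat_lit 0) (nat_lit 43845608249) (nat_lit 456) (nat_lit 153127131047) (nat_lit 76) (nat_lit 84737972723) (nat_lit 76) (nat_lit 5) (nat_lit 82) (nat_lit 5) (nat_lit 77) (nat_lit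 5) (nat_lit 395) (nat_lit 377) (nat_lit 128)))) (XT.nd (nat_lit 78) (nat_lit 608) (nat_lit 0) (XT.lf (nat_lit 0) (nat_lit 79371647106) (nat_lit 456) (nat_lit 8677714962) (nat_lit 76) (nat_lit 201913264780) (nat_lit 76) (nat_lit 5) (nat_lit 82) (nat_lit 5) (nat_lit 77) (nat_lit 5) (nat_lit 396) (nat_lit 377) (nat_lit 127)) (XT.nd (nat_lit 78) (nat_lit 304) (nat_lit 0) (XT.lf (nat_lit 0) (nat_lit 119429023796) (nat_lit 380) (nat_lit 151238430408) (nat_lit 76) (nat_lit 27821931486) (nat_lit 72) (nat_lit 5) (nat_lit 77) (nat_lit 5) (nat_lit 73) (nat_lit 5) (nat_lit 397) (nat_lit 377) (nat_lit 126)) (XT.lf (nat_lit 0) (nat_lit 2475514500) (nat_lit 304) (nat_lit 160645147495) (nat_lit 380) (nat_lit 144240250906) (nat_lit 68) (nat_lit 5) (nat_lit 72) (nat_lit 5) (nat_lit 73) (nat_lit 5) (nat_lit 398) (nat_lit 377) (nat_lit 125))))))))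
noncomputable def xc249 : XT := (XT.nd (nat_lit 46176) (nat_lit 0) (nat_lit 228) (XT.nd (nat_lit 45318) (nat_lit 0) (nat_lit 3420) (XT.nd (nat_lit 390) (nat_lit 684) (nat_lit 0) (XT.nd (nat_lit 156) (nat_lit 380) (nat_lit 0) (XT.nd (nat_lit 78) (nat_lit 228) (nat_lit 0) (XT.lf (nat_lit 0) (nat_lit 169125743247) (nat_lit 304) (nat_lit 42432376892) (nat_lit 380) (nat_lit 104989834493) (nat_lit 68) (nat_lit 5) (nat_lit 72) (nat_lit 5) (nat_lit 73) (nat_lit 5) (nat_lit 399) (nat_lit 377) (nat_lit 124)) (XT.lf (nat_lit 0) (nat_lit 17188788098) (nat_lit 228) (nat_lit 246772398811) (nat_lit 304) (nat_lit 62155974810) (nat_lit 65) (nat_lit 5) (nat_lit 68) (nat_lit 5) (nat_lit 69) (nat_lit 5) (nat_lit 400) (nat_lit 377) (nat_lit 123))) (XT.nd (nat_lit 78) (nat_lit 380) (nat_lit 0) (XT.lf (nat_lit 0) (nat_lit 194429822636) (nat_lit 228) (nat_lit 127735590223) (nat_lit 304) (nat_lit 13840366063) (nat_lit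 65) (nat_lit 5) (nat_lit 68) (nat_lit 5) (nat_lit 69) (nat_lit 5) (nat_lit 401) (nat_lit 377) (nat_lit 122)) (XT.nd (nat_lit 78) (nat_lit 0) (nat_lit 0) (XT.lf (nat_lit 0) (nat_lit 34677953856) (nat_lit 304) (nat_lit 1573694036) (nat_lit 380) (nat_lit 310081312134) (nat_lit 60) (nat_lit 5) (nat_lit 64) (nat_lit 5) (nat_lit 65) (nat_lit 5) (nat_lit 402) (nat_lit 377) (nat_lit 121)) (XT.lf (nat_lit 0) (nat_lit 92863705780) (nat_lit 380) (nat_lit 134706783594) (nat_lit 76) (nat_lit 129370637781) (nat_lit 60) (nat_lit 5) (nat_lit 65) (nat_lit 5) (nat_lit 61) (nat_lit 5) (nat_lit 403) (nat_lit 377) (nat_lit 120))))) (XT.nd (nat_lit 234) (nat_lit 228) (nat_lit 0) (XT.nd (nat_lit 78) (nat_lit 228) (nat_lit 0) (XT.lf (nat_lit 0) (nat_lit 52751359890) (nat_lit 228) (nat_lit 100404352998) (nat_lit 304) (nat_lit 214881522480) (nat_lit 57) (nat_lit 5) (nat_lit 60) (nat_lit 5) (nat_lit 61) (nat_lit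 5) (nat_lit 404) (nat_lit 377) (nat_lit 119)) (XT.nd (nat_lit 78) (nat_lit 228) (nat_lit 0) (XT.lf (nat_lit 0) (nat_lit 219298093657) (nat_lit 304) (nat_lit 125869519062) (nat_lit 76) (nat_lit 34378747650) (nat_lit 57) (nat_lit 5) (nat_lit 61) (nat_lit 5) (nat_lit 58) (nat_lit 5) (nat_lit 405) (nat_lit 377) (nat_lit 118)) (XT.lf (nat_lit 0) (nat_lit 73731487368) (nat_lit 228) (nat_lit 217813189056) (nat_lit 304) (nat_lit 99946411087) (nat_lit 54) (nat_lit 5) (nat_lit 57) (nat_lit 5) (nat_lit 58) (nat_lit 5) (nat_lit 406) (nat_lit 377) (nat_lit 117)))) (XT.nd (nat_lit 78) (nat_lit 228) (nat_lit 0) (XT.lf (nat_lit 0) (nat_lit 287682387752) (nat_lit 228) (nat_lit 81852817787) (nat_lit 304) (nat_lit 34391264650) (nat_lit 54) (nat_lit 5) (nat_lit 57) (nat_lit 5) (nat_lit 58) (nat_lit 5) (nat_lit 407) (nat_lit 377) (nat_lit 116)) (XT.nd (nat_lit 44538) (nat_lit 0) (nat_lit 3420) (XT.lf (nat_lit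 0) (nat_lit 35853223371) (nat_lit 228) (nat_lit 319920820769) (nat_lit 76) (nat_lit 61056994779) (nat_lit 51) (nat_lit 5) (nat_lit 54) (nat_lit 5) (nat_lit 52) (nat_lit 5) (nat_lit 408) (nat_lit 377) (nat_lit 115)) (XT.lf (nat_lit 0) (nat_lit 4230562834) (nat_lit 836) (nat_lit 43719382108) (nat_lit 836) (nat_lit 43719382108) (nat_lit 96) (nat_lit 3) (nat_lit 107) (nat_lit 3) (nat_lit 107) (nat_lit 5) (nat_lit 378) (nat_lit 378) (nat_lit 144)))))) (XT.nd (nat_lit 390) (nat_lit 0) (nat_lit 228) (XT.nd (nat_lit 156) (nat_lit 0) (nat_lit 76) (XT.nd (nat_lit 78) (nat_lit 0) (nat_lit 76) (XT.lf (nat_lit 0) (nat_lit 8674529553) (nat_lit 836) (nat_lit 1560265571) (nat_lit 836) (nat_lit 177687229205) (nat_lit 96) (nat_lit 3) (nat_lit 107) (nat_lit 3) (nat_lit 107) (nat_lit 5) (nat_lit 379) (nat_lit 378) (nat_lit 143)) (XT.lf (nat_lit 0) (nat_lit 11595693725) (nat_lit 760) (nat_lit 102389079747)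 (nat_lit 836) (nat_lit 78614935241) (nat_lit 97) (nat_lit 5) (nat_lit 107) (nat_lit 5) (nat_lit 108) (nat_lit 5) (nat_lit 380) (nat_lit 378) (nat_lit 142))) (XT.nd (nat_lit 78) (nat_lit 0) (nat_lit 76) (XT.lf (nat_lit 0) (nat_lit 14857442170) (nat_lit 760) (nat_lit 11054004533) (nat_lit 836) (nat_lit 171590104452) (nat_lit 97) (nat_lit 5) (nat_lit 107) (nat_lit 5) (nat_lit 108) (nat_lit 5) (nat_lit 381) (nat_lit 378) (nat_lit 141)) (XT.nd (nat_lit 78) (nat_lit 0) (nat_lit 0) (XT.lf (nat_lit 0) (nat_lit 20712391273) (nat_lit 760) (nat_lit 115988566754) (nat_lit 836) (nat_lit 65826022167) (nat_lit 98) (nat_lit 5) (nat_lit 108) (nat_lit 5) (nat_lit 109) (nat_lit 5) (nat_lit 382) (nat_lit 378) (nat_lit 140)) (XT.lf (nat_lit 0) (nat_lit 27475035270) (nat_lit 760) (nat_lit 18828015297) (nat_lit 836) (nat_lit 161469882874) (nat_lit 98) (nat_lit 5) (nat_lit 108) (nat_lit 5) (nat_lit 109) (nat_lit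 5) (nat_lit 383) (nat_lit 378) (nat_lit 139))))) (XT.nd (nat_lit 234) (nat_lit 0) (nat_lit 76) (XT.nd (nat_lit 78) (nat_lit 0) (nat_lit 0) (XT.lf (nat_lit 0) (nat_lit 36698503865) (nat_lit 760) (nat_lit 128053959681) (nat_lit 836) (nat_lit 48422586308) (nat_lit 99) (nat_lit 5) (nat_lit 109) (nat_lit 5) (nat_lit 110) (nat_lit 5) (nat_lit 384) (nat_lit 378) (nat_lit 138)) (XT.nd (nat_lit 78) (nat_lit 0) (nat_lit 76) (XT.lf (nat_lit 0) (nat_lit 47466205976) (nat_lit 760) (nat_lit 24674376973) (nat_lit 836) (nat_lit 146652536252) (nat_lit 99) (nat_lit 5) (nat_lit 109) (nat_lit 5) (nat_lit 110) (nat_lit 5) (nat_lit 385) (nat_lit 378) (nat_lit 137)) (XT.lf (nat_lit 0) (nat_lit 60539099367) (nat_lit 760) (nat_lit 138391170712) (nat_lit 836) (nat_lit 25673481739) (nat_lit 100) (nat_lit 5) (nat_lit 110) (nat_lit 5) (nat_lit 111) (nat_lit 5) (nat_lit 386) (nat_lit 378) (nat_lit 136)))) (XT.nd (nat_lit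 78) (nat_lit 0) (nat_lit 0) (XT.lf (nat_lit 0) (nat_lit 75872905828) (nat_lit 760) (nat_lit 28373051283) (nat_lit 836) (nat_lit 126378595642) (nat_lit 100) (nat_lit 5) (nat_lit 110) (nat_lit 5) (nat_lit 111) (nat_lit 5) (nat_lit 387) (nat_lit 378) (nat_lit 135)) (XT.nd (nat_lit 78) (nat_lit 0) (nat_lit 76) (XT.lf (nat_lit 76) (nat_lit 90027343031) (nat_lit 0) (nat_lit 3351555859) (nat_lit 836) (nat_lit 143497220131) (nat_lit 101) (nat_lit 5) (nat_lit 100) (nat_lit 5) (nat_lit 111) (nat_lit 5) (nat_lit 388) (nat_lit 378) (nat_lit 134)) (XT.lf (nat_lit 0) (nat_lit 113850179840) (nat_lit 760) (nat_lit 29693060822) (nat_lit 76) (nat_lit 99792523626) (nat_lit 101) (nat_lit 5) (nat_lit 111) (nat_lit 5) (nat_lit 102) (nat_lit 5) (nat_lit 389) (nat_lit 378) (nat_lit 133))))))) (XT.nd (nat_lit 858) (nat_lit 1064) (nat_lit 0) (XT.nd (nat_lit 390) (nat_lit 1064) (nat_lit 0) (XT.nd (nat_lit 156) (nat_lit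 684) (nat_lit 0) (XT.nd (nat_lit 78) (nat_lit 0) (nat_lit 0) (XT.lf (nat_lit 0) (nat_lit 96349204748) (nat_lit 760) (nat_lit 40554968777) (nat_lit 836) (nat_lit 113136260950) (nat_lit 91) (nat_lit 5) (nat_lit 101) (nat_lit 5) (nat_lit 102) (nat_lit 5) (nat_lit 390) (nat_lit 378) (nat_lit 132)) (XT.lf (nat_lit 0) (nat_lit 162677059283) (nat_lit 836) (nat_lit 28394205393) (nat_lit 76) (nat_lit 65930763963) (nat_lit 91) (nat_lit 5) (nat_lit 102) (nat_lit 5) (nat_lit 92) (nat_lit 5) (nat_lit 391) (nat_lit 378) (nat_lit 131))) (XT.nd (nat_lit 78) (nat_lit 304) (nat_lit 0) (XT.lf (nat_lit 0) (nat_lit 105891971533) (nat_lit 380) (nat_lit 86164653994) (nat_lit 456) (nat_lit 72139175260) (nat_lit 86) (nat_lit 5) (nat_lit 91) (nat_lit 5) (nat_lit 92) (nat_lit 5) (nat_lit 392) (nat_lit 378) (nat_lit 130)) (XT.nd (nat_lit 78) (nat_lit 304) (nat_lit 0) (XT.lf (nat_lit 0) (nat_lit 223768364087) (nat_lit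 456) (nat_lit 24229439797) (nat_lit 76) (nat_lit 23708298036) (nat_lit 86) (nat_lit 5) (nat_lit 92) (nat_lit 5) (nat_lit 87) (nat_lit 5) (nat_lit 393) (nat_lit 378) (nat_lit 129)) (XT.lf (nat_lit 0) (nat_lit 118942985651) (nat_lit 304) (nat_lit 141392208304) (nat_lit 380) (nat_lit 19093249011) (nat_lit 82) (nat_lit 5) (nat_lit 86) (nat_lit 5) (nat_lit 87) (nat_lit 5) (nat_lit 394) (nat_lit 378) (nat_lit 128))))) (XT.nd (nat_lit 234) (nat_lit 608) (nat_lit 0) (XT.nd (nat_lit 78) (nat_lit 380) (nat_lit 0) (XT.lf (nat_lit 0) (nat_lit 11252204291) (nat_lit 380) (nat_lit 17582716193) (nat_lit 76) (nat_lit 258672392541) (nat_lit 81) (nat_lit 5) (nat_lit 86) (nat_lit 5) (nat_lit 82) (nat_lit 5) (nat_lit 395) (nat_lit 378) (nat_lit 127)) (XT.nd (nat_lit 78) (nat_lit 0) (nat_lit 0) (XT.lf (nat_lit 0) (nat_lit 46039778015) (nat_lit 456) (nat_lit 160781347717) (nat_lit 76) (nat_lit 88975025412) (nat_lit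 76) (nat_lit 5) (nat_lit 82) (nat_lit 5) (nat_lit 77) (nat_lit 5) (nat_lit 396) (nat_lit 378) (nat_lit 126)) (XT.lf (nat_lit 0) (nat_lit 83342028846) (nat_lit 456) (nat_lit 9109562727) (nat_lit 76) (nat_lit 212009074736) (nat_lit 76) (nat_lit 5) (nat_lit 82) (nat_lit 5) (nat_lit 77) (nat_lit 5) (nat_lit 397) (nat_lit 378) (nat_lit 125)))) (XT.nd (nat_lit 78) (nat_lit 304) (nat_lit 0) (XT.lf (nat_lit 0) (nat_lit 125402224052) (nat_lit 380) (nat_lit 158798261805) (nat_lit 76) (nat_lit 29213279842) (nat_lit 72) (nat_lit 5) (nat_lit 77) (nat_lit 5) (nat_lit 73) (nat_lit 5) (nat_lit 398) (nat_lit 378) (nat_lit 124)) (XT.nd (nat_lit 78) (nat_lit 0) (nat_lit 0) (XT.lf (nat_lit 0) (nat_lit 2601346637) (nat_lit 304) (nat_lit 168677046342) (nat_lit 380) (nat_lit 151450478939) (nat_lit 68) (nat_lit 5) (nat_lit 72) (nat_lit 5) (nat_lit 73) (nat_lit 5) (nat_lit 399) (nat_lit 378) (nat_lit 123)) (XT.lf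 (nat_lit 0) (nat_lit 177583988897) (nat_lit 304) (nat_lit 44553654281) (nat_lit 380) (nat_lit 110237626682) (nat_lit 68) (nat_lit 5) (nat_lit 72) (nat_lit 5) (nat_lit 73) (nat_lit 5) (nat_lit 400) (nat_lit 378) (nat_lit 122)))))) (XT.nd (nat_lit 468) (nat_lit 228) (nat_lit 0) (XT.nd (nat_lit 234) (nat_lit 228) (nat_lit 0) (XT.nd (nat_lit 78) (nat_lit 380) (nat_lit 0) (XT.lf (nat_lit 0) (nat_lit 18050230330) (nat_lit 228) (nat_lit 259110592302) (nat_lit 304) (nat_lit 65262116781) (nat_lit 65) (nat_lit 5) (nat_lit 68) (nat_lit 5) (nat_lit 69) (nat_lit 5) (nat_lit 401) (nat_lit 378) (nat_lit 121)) (XT.nd (nat_lit 78) (nat_lit 380) (nat_lit 0) (XT.lf (nat_lit 0) (nat_lit 204153221222) (nat_lit 228) (nat_lit 134121963591) (nat_lit 304) (nat_lit 14530806490) (nat_lit 65) (nat_lit 5) (nat_lit 68) (nat_lit 5) (nat_lit 69) (nat_lit 5) (nat_lit 402) (nat_lit 378) (nat_lit 120)) (XT.lf (nat_lit 0)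 (nat_lit 36413779329) (nat_lit 304) (nat_lit 1651935698) (nat_lit 380) (nat_lit 325583817405) (nat_lit 60) (nat_lit 5) (nat_lit 64) (nat_lit 5) (nat_lit 65) (nat_lit 5) (nat_lit 403) (nat_lit 378) (nat_lit 119)))) (XT.nd (nat_lit 78) (nat_lit 228) (nat_lit 0) (XT.lf (nat_lit 0) (nat_lit 97508311695) (nat_lit 380) (nat_lit 141440221384) (nat_lit 76) (nat_lit 135839578108) (nat_lit 60) (nat_lit 5) (nat_lit 65) (nat_lit 5) (nat_lit 61) (nat_lit 5) (nat_lit 404) (nat_lit 378) (nat_lit 118)) (XT.nd (nat_lit 78) (nat_lit 0) (nat_lit 0) (XT.lf (nat_lit 0) (nat_lit 55390798607) (nat_lit 228) (nat_lit 105424082110) (nat_lit 304) (nat_lit 225624146077) (nat_lit 57) (nat_lit 5) (nat_lit 60) (nat_lit 5) (nat_lit 61) (nat_lit 5) (nat_lit 405) (nat_lit 378) (nat_lit 117)) (XT.lf (nat_lit 0) (nat_lit 230264321970) (nat_lit 304) (nat_lit 132161153647) (nat_lit 76) (nat_lit 36098135415) (nat_lit 57) (nat_lit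 5) (nat_lit 61) (nat_lit 5) (nat_lit 58) (nat_lit 5) (nat_lit 406) (nat_lit 378) (nat_lit 116))))) (XT.nd (nat_lit 44772) (nat_lit 0) (nat_lit 3192) (XT.nd (nat_lit 78) (nat_lit 0) (nat_lit 0) (XT.lf (nat_lit 0) (nat_lit 77419873406) (nat_lit 228) (nat_lit 228703325725) (nat_lit 304) (nat_lit 104942377194) (nat_lit 54) (nat_lit 5) (nat_lit 57) (nat_lit 5) (nat_lit 58) (nat_lit 5) (nat_lit 407) (nat_lit 378) (nat_lit 115)) (XT.nd (nat_lit 44616) (nat_lit 0) (nat_lit 3192) (XT.lf (nat_lit 0) (nat_lit 302068232539) (nat_lit 228) (nat_lit 85944960787) (nat_lit 304) (nat_lit 36109537933) (nat_lit 54) (nat_lit 5) (nat_lit 57) (nat_lit 5) (nat_lit 58) (nat_lit 5) (nat_lit 408) (nat_lit 378) (nat_lit 114)) (XT.lf (nat_lit 0) (nat_lit 4443937433) (nat_lit 836) (nat_lit 45904380673) (nat_lit 836) (nat_lit 45904380673) (nat_lit 96) (nat_lit 3) (nat_lit 107) (nat_lit 3) (nat_lit 107) (nat_lit 5) (nat_lit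 379) (nat_lit 379) (nat_lit 142)))) (XT.nd (nat_lit 78) (nat_lit 0) (nat_lit 76) (XT.lf (nat_lit 0) (nat_lit 9111773093) (nat_lit 836) (nat_lit 1636430201) (nat_lit 836) (nat_lit 186569742015) (nat_lit 96) (nat_lit 3) (nat_lit 107) (nat_lit 3) (nat_lit 107) (nat_lit 5) (nat_lit 380) (nat_lit 379) (nat_lit 141)) (XT.nd (nat_lit 78) (nat_lit 0) (nat_lit 0) (XT.lf (nat_lit 0) (nat_lit 12178832048) (nat_lit 760) (nat_lit 107506517485) (nat_lit 836) (nat_lit 82544172758) (nat_lit 97) (nat_lit 5) (nat_lit 107) (nat_lit 5) (nat_lit 108) (nat_lit 5) (nat_lit 381) (nat_lit 379) (nat_lit 140)) (XT.lf (nat_lit 0) (nat_lit 15603508219) (nat_lit 760) (nat_lit 11604784522) (nat_lit 836) (nat_lit 180168172299) (nat_lit 97) (nat_lit 5) (nat_lit 107) (nat_lit 5) (nat_lit 108) (nat_lit 5) (nat_lit 382) (nat_lit 379) (nat_lit 139))))))))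
noncomputable def xc250 : XT := (XT.nd (nat_lit 1716) (nat_lit 228) (nat_lit 0) (XT.nd (nat_lit 858) (nat_lit 1976) (nat_lit 0) (XT.nd (nat_lit 390) (nat_lit 912) (nat_lit 0) (XT.nd (nat_lit 156) (nat_lit 0) (nat_lit 76) (XT.nd (nat_lit 78) (nat_lit 0) (nat_lit 0) (XT.lf (nat_lit 0) (nat_lit 21751063726) (nat_lit 760) (nat_lit 121785930016) (nat_lit 836) (nat_lit 69116179030) (nat_lit 98) (nat_lit 5) (nat_lit 108) (nat_lit 5) (nat_lit 109) (nat_lit 5) (nat_lit 383) (nat_lit 379) (nat_lit 138)) (XT.lf (nat_lit 0) (nat_lit 28851694547) (nat_lit 760) (nat_lit 19767449324) (nat_lit 836) (nat_lit 169542287260) (nat_lit 98) (nat_lit 5) (nat_lit 108) (nat_lit 5) (nat_lit 109) (nat_lit 5) (nat_lit 384) (nat_lit 379) (nat_lit 137))) (XT.nd (nat_lit 78) (nat_lit 0) (nat_lit 0) (XT.lf (nat_lit 0) (nat_lit 38536214837) (nat_lit 760) (nat_lit 134454565756) (nat_lit 836) (nat_lit 50842879031) (nat_lit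 99) (nat_lit 5) (nat_lit 109) (nat_lit 5) (nat_lit 110) (nat_lit 5) (nat_lit 385) (nat_lit 379) (nat_lit 136)) (XT.nd (nat_lit 78) (nat_lit 0) (nat_lit 76) (XT.lf (nat_lit 0) (nat_lit 49842169397) (nat_lit 760) (nat_lit 25906103527) (nat_lit 836) (nat_lit 153984366310) (nat_lit 99) (nat_lit 5) (nat_lit 109) (nat_lit 5) (nat_lit 110) (nat_lit 5) (nat_lit 386) (nat_lit 379) (nat_lit 135)) (XT.lf (nat_lit 0) (nat_lit 63568602397) (nat_lit 760) (nat_lit 145308628778) (nat_lit 836) (nat_lit 26956577715) (nat_lit 100) (nat_lit 5) (nat_lit 110) (nat_lit 5) (nat_lit 111) (nat_lit 5) (nat_lit 387) (nat_lit 379) (nat_lit 134))))) (XT.nd (nat_lit 234) (nat_lit 1064) (nat_lit 0) (XT.nd (nat_lit 78) (nat_lit 0) (nat_lit 0) (XT.lf (nat_lit 0) (nat_lit 79668977845) (nat_lit 760) (nat_lit 29789703400) (nat_lit 836) (nat_lit 132696974842) (nat_lit 100) (nat_lit 5) (nat_lit 110) (nat_lit 5) (nat_lit 111)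 (nat_lit 5) (nat_lit 388) (nat_lit 379) (nat_lit 133)) (XT.nd (nat_lit 78) (nat_lit 0) (nat_lit 76) (XT.lf (nat_lit 76) (nat_lit 94530678364) (nat_lit 0) (nat_lit 3519507366) (nat_lit 836) (nat_lit 150669619321) (nat_lit 101) (nat_lit 5) (nat_lit 100) (nat_lit 5) (nat_lit 111) (nat_lit 5) (nat_lit 389) (nat_lit 379) (nat_lit 132)) (XT.lf (nat_lit 0) (nat_lit 119544913652) (nat_lit 760) (nat_lit 31175719637) (nat_lit 76) (nat_lit 104781805281) (nat_lit 101) (nat_lit 5) (nat_lit 111) (nat_lit 5) (nat_lit 102) (nat_lit 5) (nat_lit 390) (nat_lit 379) (nat_lit 131)))) (XT.nd (nat_lit 78) (nat_lit 380) (nat_lit 0) (XT.lf (nat_lit 0) (nat_lit 101168627047) (nat_lit 760) (nat_lit 42582904664) (nat_lit 836) (nat_lit 118790814449) (nat_lit 91) (nat_lit 5) (nat_lit 101) (nat_lit 5) (nat_lit 102) (nat_lit 5) (nat_lit 391) (nat_lit 379) (nat_lit 130)) (XT.nd (nat_lit 78) (nat_lit 380) (nat_lit 0) (XT.lf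 (nat_lit 0) (nat_lit 170812956612) (nat_lit 836) (nat_lit 29811939448) (nat_lit 76) (nat_lit 69227129353) (nat_lit 91) (nat_lit 5) (nat_lit 102) (nat_lit 5) (nat_lit 92) (nat_lit 5) (nat_lit 392) (nat_lit 379) (nat_lit 129)) (XT.lf (nat_lit 0) (nat_lit 111188514450) (nat_lit 380) (nat_lit 90472919723) (nat_lit 456) (nat_lit 75744055459) (nat_lit 86) (nat_lit 5) (nat_lit 91) (nat_lit 5) (nat_lit 92) (nat_lit 5) (nat_lit 393) (nat_lit 379) (nat_lit 128)))))) (XT.nd (nat_lit 390) (nat_lit 1216) (nat_lit 0) (XT.nd (nat_lit 156) (nat_lit 456) (nat_lit 0) (XT.nd (nat_lit 78) (nat_lit 304) (nat_lit 0) (XT.lf (nat_lit 0) (nat_lit 234958665011) (nat_lit 456) (nat_lit 25438963168) (nat_lit 76) (nat_lit 24893682487) (nat_lit 86) (nat_lit 5) (nat_lit 92) (nat_lit 5) (nat_lit 87) (nat_lit 5) (nat_lit 394) (nat_lit 379) (nat_lit 127)) (XT.lf (nat_lit 0) (nat_lit 124892052123) (nat_lit 304) (nat_lit 148461724529)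 (nat_lit 380) (nat_lit 20045995205) (nat_lit 82) (nat_lit 5) (nat_lit 86) (nat_lit 5) (nat_lit 87) (nat_lit 5) (nat_lit 395) (nat_lit 379) (nat_lit 126))) (XT.nd (nat_lit 78) (nat_lit 380) (nat_lit 0) (XT.lf (nat_lit 0) (nat_lit 11816581101) (nat_lit 380) (nat_lit 18459965784) (nat_lit 76) (nat_lit 271606041550) (nat_lit 81) (nat_lit 5) (nat_lit 86) (nat_lit 5) (nat_lit 82) (nat_lit 5) (nat_lit 396) (nat_lit 379) (nat_lit 125)) (XT.nd (nat_lit 78) (nat_lit 0) (nat_lit 0) (XT.lf (nat_lit 0) (nat_lit 48343480616) (nat_lit 456) (nat_lit 168818474166) (nat_lit 76) (nat_lit 93423916413) (nat_lit 76) (nat_lit 5) (nat_lit 82) (nat_lit 5) (nat_lit 77) (nat_lit 5) (nat_lit 397) (nat_lit 379) (nat_lit 124)) (XT.lf (nat_lit 0) (nat_lit 87510762383) (nat_lit 456) (nat_lit 9563192352) (nat_lit 76) (nat_lit 222609661549) (nat_lit 76) (nat_lit 5) (nat_lit 82) (nat_lit 5) (nat_lit 77) (nat_lit 5) (nat_lit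 398) (nat_lit 379) (nat_lit 123))))) (XT.nd (nat_lit 234) (nat_lit 608) (nat_lit 0) (XT.nd (nat_lit 78) (nat_lit 304) (nat_lit 0) (XT.lf (nat_lit 0) (nat_lit 131673921709) (nat_lit 380) (nat_lit 166736279091) (nat_lit 76) (nat_lit 30674172209) (nat_lit 72) (nat_lit 5) (nat_lit 77) (nat_lit 5) (nat_lit 73) (nat_lit 5) (nat_lit 399) (nat_lit 379) (nat_lit 122)) (XT.nd (nat_lit 78) (nat_lit 0) (nat_lit 0) (XT.lf (nat_lit 0) (nat_lit 2733279195) (nat_lit 304) (nat_lit 177110573463) (nat_lit 380) (nat_lit 159021384280) (nat_lit 68) (nat_lit 5) (nat_lit 72) (nat_lit 5) (nat_lit 73) (nat_lit 5) (nat_lit 400) (nat_lit 379) (nat_lit 121)) (XT.lf (nat_lit 0) (nat_lit 186464964748) (nat_lit 304) (nat_lit 46781027285) (nat_lit 380) (nat_lit 115747966487) (nat_lit 68) (nat_lit 5) (nat_lit 72) (nat_lit 5) (nat_lit 73) (nat_lit 5) (nat_lit 401) (nat_lit 379) (nat_lit 120)))) (XT.nd (nat_lit 78) (nat_lit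 380) (nat_lit 0) (XT.lf (nat_lit 0) (nat_lit 18954558469) (nat_lit 228) (nat_lit 272065735115) (nat_lit 304) (nat_lit 68523719881) (nat_lit 65) (nat_lit 5) (nat_lit 68) (nat_lit 5) (nat_lit 69) (nat_lit 5) (nat_lit 402) (nat_lit 379) (nat_lit 119)) (XT.nd (nat_lit 78) (nat_lit 380) (nat_lit 0) (XT.lf (nat_lit 0) (nat_lit 214362612401) (nat_lit 228) (nat_lit 140827693388) (nat_lit 304) (nat_lit 15255915635) (nat_lit 65) (nat_lit 5) (nat_lit 68) (nat_lit 5) (nat_lit 69) (nat_lit 5) (nat_lit 403) (nat_lit 379) (nat_lit 118)) (XT.lf (nat_lit 0) (nat_lit 38236216849) (nat_lit 304) (nat_lit 1734130632) (nat_lit 380) (nat_lit 341861593004) (nat_lit 60) (nat_lit 5) (nat_lit 64) (nat_lit 5) (nat_lit 65) (nat_lit 5) (nat_lit 404) (nat_lit 379) (nat_lit 117))))))) (XT.nd (nat_lit 45552) (nat_lit 0) (nat_lit 1444) (XT.nd (nat_lit 45084) (nat_lit 0) (nat_lit 3040) (XT.nd (nat_lit 156) (nat_lit 0) (nat_lit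 0) (XT.nd (nat_lit 78) (nat_lit 228) (nat_lit 0) (XT.lf (nat_lit 0) (nat_lit 102385015829) (nat_lit 380) (nat_lit 148510507836) (nat_lit 76) (nat_lit 142631927479) (nat_lit 60) (nat_lit 5) (nat_lit 65) (nat_lit 5) (nat_lit 61) (nat_lit 5) (nat_lit 405) (nat_lit 379) (nat_lit 116)) (XT.lf (nat_lit 0) (nat_lit 58162035338) (nat_lit 228) (nat_lit 110694843097) (nat_lit 304) (nat_lit 236904035897) (nat_lit 57) (nat_lit 5) (nat_lit 60) (nat_lit 5) (nat_lit 61) (nat_lit 5) (nat_lit 406) (nat_lit 379) (nat_lit 115))) (XT.nd (nat_lit 44772) (nat_lit 0) (nat_lit 2964) (XT.lf (nat_lit 0) (nat_lit 241778738640) (nat_lit 304) (nat_lit 138767541154) (nat_lit 76) (nat_lit 37903450696) (nat_lit 57) (nat_lit 5) (nat_lit 61) (nat_lit 5) (nat_lit 58) (nat_lit 5) (nat_lit 407) (nat_lit 379) (nat_lit 114)) (XT.nd (nat_lit 78) (nat_lit 0) (nat_lit 0) (XT.lf (nat_lit 0) (nat_lit 4667809096) (nat_lit 836) (nat_lit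 48198719397) (nat_lit 836) (nat_lit 48198719397) (nat_lit 96) (nat_lit 3) (nat_lit 107) (nat_lit 3) (nat_lit 107) (nat_lit 5) (nat_lit 380) (nat_lit 380) (nat_lit 140)) (XT.lf (nat_lit 0) (nat_lit 9570551826) (nat_lit 836) (nat_lit 1716574931) (nat_lit 836) (nat_lit 195896552337) (nat_lit 96) (nat_lit 3) (nat_lit 107) (nat_lit 3) (nat_lit 107) (nat_lit 5) (nat_lit 381) (nat_lit 380) (nat_lit 139))))) (XT.nd (nat_lit 234) (nat_lit 0) (nat_lit 76) (XT.nd (nat_lit 78) (nat_lit 0) (nat_lit 0) (XT.lf (nat_lit 0) (nat_lit 12790815498) (nat_lit 760) (nat_lit 112880014562) (nat_lit 836) (nat_lit 86670012466) (nat_lit 97) (nat_lit 5) (nat_lit 107) (nat_lit 5) (nat_lit 108) (nat_lit 5) (nat_lit 382) (nat_lit 380) (nat_lit 138)) (XT.nd (nat_lit 78) (nat_lit 0) (nat_lit 76) (XT.lf (nat_lit 0) (nat_lit 16386580628) (nat_lit 760) (nat_lit 12183282037) (nat_lit 836) (nat_lit 189175277171) (nat_lit 97)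 (nat_lit 5) (nat_lit 107) (nat_lit 5) (nat_lit 108) (nat_lit 5) (nat_lit 383) (nat_lit 380) (nat_lit 137)) (XT.lf (nat_lit 0) (nat_lit 22841385972) (nat_lit 760) (nat_lit 127873353432) (nat_lit 836) (nat_lit 72570950118) (nat_lit 98) (nat_lit 5) (nat_lit 108) (nat_lit 5) (nat_lit 109) (nat_lit 5) (nat_lit 384) (nat_lit 380) (nat_lit 136)))) (XT.nd (nat_lit 78) (nat_lit 0) (nat_lit 76) (XT.lf (nat_lit 0) (nat_lit 30296916475) (nat_lit 760) (nat_lit 20754037900) (nat_lit 836) (nat_lit 178018413182) (nat_lit 98) (nat_lit 5) (nat_lit 108) (nat_lit 5) (nat_lit 109) (nat_lit 5) (nat_lit 385) (nat_lit 380) (nat_lit 135)) (XT.nd (nat_lit 78) (nat_lit 0) (nat_lit 0) (XT.lf (nat_lit 0) (nat_lit 40465552361) (nat_lit 760) (nat_lit 141175396621) (nat_lit 836) (nat_lit 53384264168) (nat_lit 99) (nat_lit 5) (nat_lit 109) (nat_lit 5) (nat_lit 110) (nat_lit 5) (nat_lit 386) (nat_lit 380) (nat_lit 134))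 (XT.lf (nat_lit 0) (nat_lit 52336684326) (nat_lit 760) (nat_lit 27199601634) (nat_lit 836) (nat_lit 161682861945) (nat_lit 99) (nat_lit 5) (nat_lit 109) (nat_lit 5) (nat_lit 110) (nat_lit 5) (nat_lit 387) (nat_lit 380) (nat_lit 133)))))) (XT.nd (nat_lit 468) (nat_lit 1140) (nat_lit 0) (XT.nd (nat_lit 234) (nat_lit 684) (nat_lit 0) (XT.nd (nat_lit 78) (nat_lit 0) (nat_lit 0) (XT.lf (nat_lit 0) (nat_lit 66749343685) (nat_lit 760) (nat_lit 152572155029) (nat_lit 836) (nat_lit 28303882237) (nat_lit 100) (nat_lit 5) (nat_lit 110) (nat_lit 5) (nat_lit 111) (nat_lit 5) (nat_lit 388) (nat_lit 380) (nat_lit 132)) (XT.nd (nat_lit 78) (nat_lit 0) (nat_lit 0) (XT.lf (nat_lit 0) (nat_lit 83654627849) (nat_lit 760) (nat_lit 31277374105) (nat_lit 836) (nat_lit 139331324190) (nat_lit 100) (nat_lit 5) (nat_lit 110) (nat_lit 5) (nat_lit 111) (nat_lit 5) (nat_lit 389) (nat_lit 380) (nat_lit 131)) (XT.lf (nat_lit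 76) (nat_lit 99258997481) (nat_lit 0) (nat_lit 3695821704) (nat_lit 836) (nat_lit 158200867347) (nat_lit 101) (nat_lit 5) (nat_lit 100) (nat_lit 5) (nat_lit 111) (nat_lit 5) (nat_lit 390) (nat_lit 380) (nat_lit 130)))) (XT.nd (nat_lit 78) (nat_lit 760) (nat_lit 0) (XT.lf (nat_lit 0) (nat_lit 125524177312) (nat_lit 760) (nat_lit 32732696797) (nat_lit 76) (nat_lit 110020583049) (nat_lit 101) (nat_lit 5) (nat_lit 111) (nat_lit 5) (nat_lit 102) (nat_lit 5) (nat_lit 391) (nat_lit 380) (nat_lit 129)) (XT.nd (nat_lit 78) (nat_lit 0) (nat_lit 0) (XT.lf (nat_lit 0) (nat_lit 106228838046) (nat_lit 760) (nat_lit 44712219919) (nat_lit 836) (nat_lit 124728305695) (nat_lit 91) (nat_lit 5) (nat_lit 101) (nat_lit 5) (nat_lit 102) (nat_lit 5) (nat_lit 392) (nat_lit 380) (nat_lit 128)) (XT.lf (nat_lit 0) (nat_lit 179355458742) (nat_lit 836) (nat_lit 31300743934) (nat_lit 76) (nat_lit 72688329078) (nat_lit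 91) (nat_lit 5) (nat_lit 102) (nat_lit 5) (nat_lit 92) (nat_lit 5) (nat_lit 393) (nat_lit 380) (nat_lit 127))))) (XT.nd (nat_lit 234) (nat_lit 456) (nat_lit 0) (XT.nd (nat_lit 78) (nat_lit 304) (nat_lit 0) (XT.lf (nat_lit 0) (nat_lit 116749703747) (nat_lit 380) (nat_lit 94996595669) (nat_lit 456) (nat_lit 79529372913) (nat_lit 86) (nat_lit 5) (nat_lit 91) (nat_lit 5) (nat_lit 92) (nat_lit 5) (nat_lit 394) (nat_lit 380) (nat_lit 126)) (XT.nd (nat_lit 78) (nat_lit 304) (nat_lit 0) (XT.lf (nat_lit 0) (nat_lit 246708305943) (nat_lit 456) (nat_lit 26709143871) (nat_lit 76) (nat_lit 26138338992) (nat_lit 86) (nat_lit 5) (nat_lit 92) (nat_lit 5) (nat_lit 87) (nat_lit 5) (nat_lit 395) (nat_lit 380) (nat_lit 125)) (XT.lf (nat_lit 0) (nat_lit 131138393677) (nat_lit 304) (nat_lit 155884725321) (nat_lit 380) (nat_lit 21046556863) (nat_lit 82) (nat_lit 5) (nat_lit 86) (nat_lit 5) (nat_lit 87) (nat_lit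 5) (nat_lit 396) (nat_lit 380) (nat_lit 124)))) (XT.nd (nat_lit 78) (nat_lit 380) (nat_lit 0) (XT.lf (nat_lit 0) (nat_lit 12409012510) (nat_lit 380) (nat_lit 19381253216) (nat_lit 76) (nat_lit 285186370277) (nat_lit 81) (nat_lit 5) (nat_lit 86) (nat_lit 5) (nat_lit 82) (nat_lit 5) (nat_lit 397) (nat_lit 380) (nat_lit 123)) (XT.nd (nat_lit 78) (nat_lit 0) (nat_lit 0) (XT.lf (nat_lit 0) (nat_lit 50762209022) (nat_lit 456) (nat_lit 177257637388) (nat_lit 76) (nat_lit 98095238973) (nat_lit 76) (nat_lit 5) (nat_lit 82) (nat_lit 5) (nat_lit 77) (nat_lit 5) (nat_lit 398) (nat_lit 380) (nat_lit 122)) (XT.lf (nat_lit 0) (nat_lit 91887780861) (nat_lit 456) (nat_lit 10039675316) (nat_lit 76) (nat_lit 233740265331) (nat_lit 76) (nat_lit 5) (nat_lit 82) (nat_lit 5) (nat_lit 77) (nat_lit 5) (nat_lit 399) (nat_lit 380) (nat_lit 121))))))))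
noncomputable def xc251 : XT := (XT.nd (nat_lit 46488) (nat_lit 0) (nat_lit 228) (XT.nd (nat_lit 45630) (nat_lit 0) (nat_lit 2584) (XT.nd (nat_lit 390) (nat_lit 608) (nat_lit 0) (XT.nd (nat_lit 156) (nat_lit 228) (nat_lit 0) (XT.nd (nat_lit 78) (nat_lit 304) (nat_lit 0) (XT.lf (nat_lit 0) (nat_lit 138259056756) (nat_lit 380) (nat_lit 175071373496) (nat_lit 76) (nat_lit 32208087961) (nat_lit 72) (nat_lit 5) (nat_lit 77) (nat_lit 5) (nat_lit 73) (nat_lit 5) (nat_lit 400) (nat_lit 380) (nat_lit 120)) (XT.lf (nat_lit 0) (nat_lit 2871634970) (nat_lit 304) (nat_lit 185965807174) (nat_lit 380) (nat_lit 166970985372) (nat_lit 68) (nat_lit 5) (nat_lit 72) (nat_lit 5) (nat_lit 73) (nat_lit 5) (nat_lit 401) (nat_lit 380) (nat_lit 119))) (XT.nd (nat_lit 78) (nat_lit 228) (nat_lit 0) (XT.lf (nat_lit 0) (nat_lit 195789824237) (nat_lit 304) (nat_lit 49119797733) (nat_lit 380) (nat_lit 121533966599) (nat_lit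 68) (nat_lit 5) (nat_lit 72) (nat_lit 5) (nat_lit 73) (nat_lit 5) (nat_lit 402) (nat_lit 380) (nat_lit 118)) (XT.nd (nat_lit 78) (nat_lit 0) (nat_lit 0) (XT.lf (nat_lit 0) (nat_lit 19903934123) (nat_lit 228) (nat_lit 285668671029) (nat_lit 304) (nat_lit 71948542847) (nat_lit 65) (nat_lit 5) (nat_lit 68) (nat_lit 5) (nat_lit 69) (nat_lit 5) (nat_lit 403) (nat_lit 380) (nat_lit 117)) (XT.lf (nat_lit 0) (nat_lit 225082312288) (nat_lit 228) (nat_lit 147868743923) (nat_lit 304) (nat_lit 16017413294) (nat_lit 65) (nat_lit 5) (nat_lit 68) (nat_lit 5) (nat_lit 69) (nat_lit 5) (nat_lit 404) (nat_lit 380) (nat_lit 116))))) (XT.nd (nat_lit 45006) (nat_lit 0) (nat_lit 2964) (XT.nd (nat_lit 78) (nat_lit 228) (nat_lit 0) (XT.lf (nat_lit 0) (nat_lit 40149613681) (nat_lit 304) (nat_lit 1820472673) (nat_lit 380) (nat_lit 358953388962) (nat_lit 60) (nat_lit 5) (nat_lit 64) (nat_lit 5) (nat_lit 65) (nat_lit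 5) (nat_lit 405) (nat_lit 380) (nat_lit 115)) (XT.nd (nat_lit 78) (nat_lit 228) (nat_lit 0) (XT.lf (nat_lit 0) (nat_lit 107505435373) (nat_lit 380) (nat_lit 155934468950) (nat_lit 76) (nat_lit 149763859876) (nat_lit 60) (nat_lit 5) (nat_lit 65) (nat_lit 5) (nat_lit 61) (nat_lit 5) (nat_lit 406) (nat_lit 380) (nat_lit 114)) (XT.lf (nat_lit 0) (nat_lit 61071676152) (nat_lit 228) (nat_lit 116229183330) (nat_lit 304) (nat_lit 248748042695) (nat_lit 57) (nat_lit 5) (nat_lit 60) (nat_lit 5) (nat_lit 61) (nat_lit 5) (nat_lit 407) (nat_lit 380) (nat_lit 113)))) (XT.nd (nat_lit 78) (nat_lit 0) (nat_lit 0) (XT.lf (nat_lit 0) (nat_lit 4902718636) (nat_lit 836) (nat_lit 50607856900) (nat_lit 836) (nat_lit 50607856900) (nat_lit 96) (nat_lit 3) (nat_lit 107) (nat_lit 3) (nat_lit 107) (nat_lit 5) (nat_lit 381) (nat_lit 381) (nat_lit 138)) (XT.nd (nat_lit 78) (nat_lit 0) (nat_lit 76) (XT.lf (nat_lit 0)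 (nat_lit 10051972913) (nat_lit 836) (nat_lit 1800882789) (nat_lit 836) (nat_lit 205689859065) (nat_lit 96) (nat_lit 3) (nat_lit 107) (nat_lit 3) (nat_lit 107) (nat_lit 5) (nat_lit 382) (nat_lit 381) (nat_lit 137)) (XT.lf (nat_lit 0) (nat_lit 13433115319) (nat_lit 760) (nat_lit 118522356517) (nat_lit 836) (nat_lit 91002271430) (nat_lit 97) (nat_lit 5) (nat_lit 107) (nat_lit 5) (nat_lit 108) (nat_lit 5) (nat_lit 383) (nat_lit 381) (nat_lit 136)))))) (XT.nd (nat_lit 390) (nat_lit 456) (nat_lit 0) (XT.nd (nat_lit 156) (nat_lit 0) (nat_lit 76) (XT.nd (nat_lit 78) (nat_lit 0) (nat_lit 76) (XT.lf (nat_lit 0) (nat_lit 17208537322) (nat_lit 760) (nat_lit 12790866354) (nat_lit 836) (nat_lit 198632858497) (nat_lit 97) (nat_lit 5) (nat_lit 107) (nat_lit 5) (nat_lit 108) (nat_lit 5) (nat_lit 384) (nat_lit 381) (nat_lit 135)) (XT.lf (nat_lit 0) (nat_lit 23985966890) (nat_lit 760) (nat_lit 134265322161)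 (nat_lit 836) (nat_lit 76198556251) (nat_lit 98) (nat_lit 5) (nat_lit 108) (nat_lit 5) (nat_lit 109) (nat_lit 5) (nat_lit 385) (nat_lit 381) (nat_lit 134))) (XT.nd (nat_lit 78) (nat_lit 0) (nat_lit 76) (XT.lf (nat_lit 0) (nat_lit 31814154317) (nat_lit 760) (nat_lit 21790121754) (nat_lit 836) (nat_lit 186918437295) (nat_lit 98) (nat_lit 5) (nat_lit 108) (nat_lit 5) (nat_lit 109) (nat_lit 5) (nat_lit 386) (nat_lit 381) (nat_lit 133)) (XT.nd (nat_lit 78) (nat_lit 0) (nat_lit 0) (XT.lf (nat_lit 0) (nat_lit 42491121846) (nat_lit 760) (nat_lit 148232445433) (nat_lit 836) (nat_lit 56052789109) (nat_lit 99) (nat_lit 5) (nat_lit 109) (nat_lit 5) (nat_lit 110) (nat_lit 5) (nat_lit 387) (nat_lit 381) (nat_lit 132)) (XT.lf (nat_lit 0) (nat_lit 54955701273) (nat_lit 760) (nat_lit 28557942651) (nat_lit 836) (nat_lit 169766349550) (nat_lit 99) (nat_lit 5) (nat_lit 109) (nat_lit 5) (nat_lit 110) (nat_lit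 5) (nat_lit 388) (nat_lit 381) (nat_lit 131))))) (XT.nd (nat_lit 234) (nat_lit 684) (nat_lit 0) (XT.nd (nat_lit 78) (nat_lit 0) (nat_lit 0) (XT.lf (nat_lit 0) (nat_lit 70088907166) (nat_lit 760) (nat_lit 160199034719) (nat_lit 836) (nat_lit 29718600736) (nat_lit 100) (nat_lit 5) (nat_lit 110) (nat_lit 5) (nat_lit 111) (nat_lit 5) (nat_lit 389) (nat_lit 381) (nat_lit 130)) (XT.nd (nat_lit 78) (nat_lit 0) (nat_lit 0) (XT.lf (nat_lit 0) (nat_lit 87839355715) (nat_lit 760) (nat_lit 32839597038) (nat_lit 836) (nat_lit 146297437435) (nat_lit 100) (nat_lit 5) (nat_lit 110) (nat_lit 5) (nat_lit 111) (nat_lit 5) (nat_lit 390) (nat_lit 381) (nat_lit 129)) (XT.lf (nat_lit 76) (nat_lit 104223566584) (nat_lit 0) (nat_lit 3880920245) (nat_lit 836) (nat_lit 166108885371) (nat_lit 101) (nat_lit 5) (nat_lit 100) (nat_lit 5) (nat_lit 111) (nat_lit 5) (nat_lit 391) (nat_lit 381) (nat_lit 128)))) (XT.nd (nat_lit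 78) (nat_lit 760) (nat_lit 0) (XT.lf (nat_lit 0) (nat_lit 131802216543) (nat_lit 760) (nat_lit 34367690983) (nat_lit 76) (nat_lit 115521328758) (nat_lit 101) (nat_lit 5) (nat_lit 111) (nat_lit 5) (nat_lit 102) (nat_lit 5) (nat_lit 392) (nat_lit 381) (nat_lit 127)) (XT.nd (nat_lit 78) (nat_lit 0) (nat_lit 0) (XT.lf (nat_lit 0) (nat_lit 111541894141) (nat_lit 760) (nat_lit 46947985130) (nat_lit 836) (nat_lit 130962862044) (nat_lit 91) (nat_lit 5) (nat_lit 101) (nat_lit 5) (nat_lit 102) (nat_lit 5) (nat_lit 393) (nat_lit 381) (nat_lit 126)) (XT.lf (nat_lit 0) (nat_lit 188324913584) (nat_lit 836) (nat_lit 32864155294) (nat_lit 76) (nat_lit 76322603361) (nat_lit 91) (nat_lit 5) (nat_lit 102) (nat_lit 5) (nat_lit 92) (nat_lit 5) (nat_lit 394) (nat_lit 381) (nat_lit 125))))))) (XT.nd (nat_lit 858) (nat_lit 380) (nat_lit 0) (XT.nd (nat_lit 390) (nat_lit 836) (nat_lit 0) (XT.nd (nat_lit 156) (nat_lit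 760) (nat_lit 0) (XT.nd (nat_lit 78) (nat_lit 0) (nat_lit 0) (XT.lf (nat_lit 0) (nat_lit 122588788549) (nat_lit 380) (nat_lit 99746452626) (nat_lit 456) (nat_lit 83504131519) (nat_lit 86) (nat_lit 5) (nat_lit 91) (nat_lit 5) (nat_lit 92) (nat_lit 5) (nat_lit 395) (nat_lit 381) (nat_lit 124)) (XT.lf (nat_lit 0) (nat_lit 259045270158) (nat_lit 456) (nat_lit 28042997931) (nat_lit 76) (nat_lit 27445230890) (nat_lit 86) (nat_lit 5) (nat_lit 92) (nat_lit 5) (nat_lit 87) (nat_lit 5) (nat_lit 396) (nat_lit 381) (nat_lit 123))) (XT.nd (nat_lit 78) (nat_lit 456) (nat_lit 0) (XT.lf (nat_lit 0) (nat_lit 137696890637) (nat_lit 304) (nat_lit 163678884096) (nat_lit 380) (nat_lit 22097308197) (nat_lit 82) (nat_lit 5) (nat_lit 86) (nat_lit 5) (nat_lit 87) (nat_lit 5) (nat_lit 397) (nat_lit 381) (nat_lit 122)) (XT.nd (nat_lit 78) (nat_lit 380) (nat_lit 0) (XT.lf (nat_lit 0) (nat_lit 13030916518) (nat_lit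 380) (nat_lit 20348764080) (nat_lit 76) (nat_lit 299445712963) (nat_lit 81) (nat_lit 5) (nat_lit 86) (nat_lit 5) (nat_lit 82) (nat_lit 5) (nat_lit 398) (nat_lit 381) (nat_lit 121)) (XT.lf (nat_lit 0) (nat_lit 53301729338) (nat_lit 456) (nat_lit 186118922444) (nat_lit 76) (nat_lit 103000115878) (nat_lit 76) (nat_lit 5) (nat_lit 82) (nat_lit 5) (nat_lit 77) (nat_lit 5) (nat_lit 399) (nat_lit 381) (nat_lit 120))))) (XT.nd (nat_lit 234) (nat_lit 228) (nat_lit 0) (XT.nd (nat_lit 78) (nat_lit 608) (nat_lit 0) (XT.lf (nat_lit 0) (nat_lit 96483512632) (nat_lit 456) (nat_lit 10540138307) (nat_lit 76) (nat_lit 245427388080) (nat_lit 76) (nat_lit 5) (nat_lit 82) (nat_lit 5) (nat_lit 77) (nat_lit 5) (nat_lit 400) (nat_lit 381) (nat_lit 119)) (XT.nd (nat_lit 78) (nat_lit 304) (nat_lit 0) (XT.lf (nat_lit 0) (nat_lit 145173314774) (nat_lit 380) (nat_lit 183823382489) (nat_lit 76) (nat_lit 33818680243)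 (nat_lit 72) (nat_lit 5) (nat_lit 77) (nat_lit 5) (nat_lit 73) (nat_lit 5) (nat_lit 401) (nat_lit 381) (nat_lit 118)) (XT.lf (nat_lit 0) (nat_lit 3016751244) (nat_lit 304) (nat_lit 195263829994) (nat_lit 380) (nat_lit 175318203010) (nat_lit 68) (nat_lit 5) (nat_lit 72) (nat_lit 5) (nat_lit 73) (nat_lit 5) (nat_lit 402) (nat_lit 381) (nat_lit 117)))) (XT.nd (nat_lit 78) (nat_lit 228) (nat_lit 0) (XT.lf (nat_lit 0) (nat_lit 205580776903) (nat_lit 304) (nat_lit 51575532820) (nat_lit 380) (nat_lit 127609396709) (nat_lit 68) (nat_lit 5) (nat_lit 72) (nat_lit 5) (nat_lit 73) (nat_lit 5) (nat_lit 403) (nat_lit 381) (nat_lit 116)) (XT.nd (nat_lit 78) (nat_lit 0) (nat_lit 0) (XT.lf (nat_lit 0) (nat_lit 20900625370) (nat_lit 228) (nat_lit 299951786358) (nat_lit 304) (nat_lit 75544733682) (nat_lit 65) (nat_lit 5) (nat_lit 68) (nat_lit 5) (nat_lit 69) (nat_lit 5) (nat_lit 404) (nat_lit 381) (nat_lit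 115)) (XT.lf (nat_lit 0) (nat_lit 236337851274) (nat_lit 228) (nat_lit 155261878049) (nat_lit 304) (nat_lit 16817106523) (nat_lit 65) (nat_lit 5) (nat_lit 68) (nat_lit 5) (nat_lit 69) (nat_lit 5) (nat_lit 405) (nat_lit 381) (nat_lit 114)))))) (XT.nd (nat_lit 45396) (nat_lit 0) (nat_lit 2888) (XT.nd (nat_lit 45162) (nat_lit 0) (nat_lit 2812) (XT.nd (nat_lit 45006) (nat_lit 0) (nat_lit 2736) (XT.lf (nat_lit 0) (nat_lit 42158532905) (nat_lit 304) (nat_lit 1911165703) (nat_lit 380) (nat_lit 376899894063) (nat_lit 60) (nat_lit 5) (nat_lit 64) (nat_lit 5) (nat_lit 65) (nat_lit 5) (nat_lit 406) (nat_lit 381) (nat_lit 113)) (XT.nd (nat_lit 78) (nat_lit 0) (nat_lit 0) (XT.lf (nat_lit 0) (nat_lit 5149232423) (nat_lit 836) (nat_lit 53137525513) (nat_lit 836) (nat_lit 53137525513) (nat_lit 96) (nat_lit 3) (nat_lit 107) (nat_lit 3) (nat_lit 107) (nat_lit 5) (nat_lit 382) (nat_lit 382) (nat_lit 136))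 (XT.lf (nat_lit 0) (nat_lit 10557196045) (nat_lit 836) (nat_lit 1889547438) (nat_lit 836) (nat_lit 215972972528) (nat_lit 96) (nat_lit 3) (nat_lit 107) (nat_lit 3) (nat_lit 107) (nat_lit 5) (nat_lit 383) (nat_lit 382) (nat_lit 135)))) (XT.nd (nat_lit 78) (nat_lit 0) (nat_lit 0) (XT.lf (nat_lit 0) (nat_lit 14107273621) (nat_lit 760) (nat_lit 124446969787) (nat_lit 836) (nat_lit 95551258780) (nat_lit 97) (nat_lit 5) (nat_lit 107) (nat_lit 5) (nat_lit 108) (nat_lit 5) (nat_lit 384) (nat_lit 382) (nat_lit 134)) (XT.nd (nat_lit 78) (nat_lit 0) (nat_lit 76) (XT.lf (nat_lit 0) (nat_lit 18071347555) (nat_lit 760) (nat_lit 13428976761) (nat_lit 836) (nat_lit 208563428829) (nat_lit 97) (nat_lit 5) (nat_lit 107) (nat_lit 5) (nat_lit 108) (nat_lit 5) (nat_lit 385) (nat_lit 382) (nat_lit 133)) (XT.lf (nat_lit 0) (nat_lit 25187543348) (nat_lit 760) (nat_lit 140977047278) (nat_lit 836) (nat_lit 80007630210)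 (nat_lit 98) (nat_lit 5) (nat_lit 108) (nat_lit 5) (nat_lit 109) (nat_lit 5) (nat_lit 386) (nat_lit 382) (nat_lit 132))))) (XT.nd (nat_lit 234) (nat_lit 0) (nat_lit 152) (XT.nd (nat_lit 78) (nat_lit 0) (nat_lit 76) (XT.lf (nat_lit 0) (nat_lit 33407031664) (nat_lit 760) (nat_lit 22878160231) (nat_lit 836) (nat_lit 196263545966) (nat_lit 98) (nat_lit 5) (nat_lit 108) (nat_lit 5) (nat_lit 109) (nat_lit 5) (nat_lit 387) (nat_lit 382) (nat_lit 131)) (XT.nd (nat_lit 78) (nat_lit 0) (nat_lit 0) (XT.lf (nat_lit 0) (nat_lit 44617756729) (nat_lit 760) (nat_lit 155642506690) (nat_lit 836) (nat_lit 58854804286) (nat_lit 99) (nat_lit 5) (nat_lit 109) (nat_lit 5) (nat_lit 110) (nat_lit 5) (nat_lit 388) (nat_lit 382) (nat_lit 130)) (XT.lf (nat_lit 0) (nat_lit 57705466137) (nat_lit 760) (nat_lit 29984353103) (nat_lit 836) (nat_lit 178254072476) (nat_lit 99) (nat_lit 5) (nat_lit 109) (nat_lit 5) (nat_lit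 110) (nat_lit 5) (nat_lit 389) (nat_lit 382) (nat_lit 129)))) (XT.nd (nat_lit 78) (nat_lit 0) (nat_lit 0) (XT.lf (nat_lit 0) (nat_lit 73595253927) (nat_lit 760) (nat_lit 168207419053) (nat_lit 836) (nat_lit 31204099377) (nat_lit 100) (nat_lit 5) (nat_lit 110) (nat_lit 5) (nat_lit 111) (nat_lit 5) (nat_lit 390) (nat_lit 382) (nat_lit 128)) (XT.nd (nat_lit 78) (nat_lit 0) (nat_lit 0) (XT.lf (nat_lit 0) (nat_lit 92233134360) (nat_lit 760) (nat_lit 34480084125) (nat_lit 836) (nat_lit 153611898454) (nat_lit 100) (nat_lit 5) (nat_lit 110) (nat_lit 5) (nat_lit 111) (nat_lit 5) (nat_lit 391) (nat_lit 382) (nat_lit 127)) (XT.lf (nat_lit 76) (nat_lit 109436213600) (nat_lit 0) (nat_lit 4075245129) (nat_lit 836) (nat_lit 174412492594) (nat_lit 101) (nat_lit 5) (nat_lit 100) (nat_lit 5) (nat_lit 111) (nat_lit 5) (nat_lit 392) (nat_lit 382) (nat_lit 126))))))))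
noncomputable def xc252 : XT := (XT.nd (nat_lit 46722) (nat_lit 0) (nat_lit 228) (XT.nd (nat_lit 858) (nat_lit 228) (nat_lit 0) (XT.nd (nat_lit 390) (nat_lit 1368) (nat_lit 0) (XT.nd (nat_lit 156) (nat_lit 380) (nat_lit 0) (XT.nd (nat_lit 78) (nat_lit 760) (nat_lit 0) (XT.lf (nat_lit 0) (nat_lit 138393987566) (nat_lit 760) (nat_lit 36084587410) (nat_lit 76) (nat_lit 121297138105) (nat_lit 101) (nat_lit 5) (nat_lit 111) (nat_lit 5) (nat_lit 102) (nat_lit 5) (nat_lit 393) (nat_lit 382) (nat_lit 125)) (XT.lf (nat_lit 0) (nat_lit 117120452968) (nat_lit 760) (nat_lit 49295524264) (nat_lit 836) (nat_lit 137509319036) (nat_lit 91) (nat_lit 5) (nat_lit 101) (nat_lit 5) (nat_lit 102) (nat_lit 5) (nat_lit 394) (nat_lit 382) (nat_lit 124))) (XT.nd (nat_lit 78) (nat_lit 380) (nat_lit 0) (XT.lf (nat_lit 0) (nat_lit 197742684800) (nat_lit 836) (nat_lit 34505888376) (nat_lit 76) (nat_lit 80138604577)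 (nat_lit 91) (nat_lit 5) (nat_lit 102) (nat_lit 5) (nat_lit 92) (nat_lit 5) (nat_lit 395) (nat_lit 382) (nat_lit 123)) (XT.nd (nat_lit 78) (nat_lit 0) (nat_lit 0) (XT.lf (nat_lit 0) (nat_lit 128719678874) (nat_lit 380) (nat_lit 104733799905) (nat_lit 456) (nat_lit 87677787038) (nat_lit 86) (nat_lit 5) (nat_lit 91) (nat_lit 5) (nat_lit 92) (nat_lit 5) (nat_lit 396) (nat_lit 382) (nat_lit 122)) (XT.lf (nat_lit 0) (nat_lit 271998938580) (nat_lit 456) (nat_lit 29443693738) (nat_lit 76) (nat_lit 28817469713) (nat_lit 86) (nat_lit 5) (nat_lit 92) (nat_lit 5) (nat_lit 87) (nat_lit 5) (nat_lit 397) (nat_lit 382) (nat_lit 121))))) (XT.nd (nat_lit 234) (nat_lit 608) (nat_lit 0) (XT.nd (nat_lit 78) (nat_lit 456) (nat_lit 0) (XT.lf (nat_lit 0) (nat_lit 144583165806) (nat_lit 304) (nat_lit 171862758014) (nat_lit 380) (nat_lit 23200743666) (nat_lit 82) (nat_lit 5) (nat_lit 86) (nat_lit 5) (nat_lit 87)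 (nat_lit 5) (nat_lit 398) (nat_lit 382) (nat_lit 120)) (XT.nd (nat_lit 78) (nat_lit 380) (nat_lit 0) (XT.lf (nat_lit 0) (nat_lit 13683780605) (nat_lit 380) (nat_lit 21364794758) (nat_lit 76) (nat_lit 314418020537) (nat_lit 81) (nat_lit 5) (nat_lit 86) (nat_lit 5) (nat_lit 82) (nat_lit 5) (nat_lit 399) (nat_lit 382) (nat_lit 119)) (XT.lf (nat_lit 0) (nat_lit 55968094594) (nat_lit 456) (nat_lit 195423420210) (nat_lit 76) (nat_lit 108150225941) (nat_lit 76) (nat_lit 5) (nat_lit 82) (nat_lit 5) (nat_lit 77) (nat_lit 5) (nat_lit 400) (nat_lit 382) (nat_lit 118)))) (XT.nd (nat_lit 78) (nat_lit 608) (nat_lit 0) (XT.lf (nat_lit 0) (nat_lit 101308906158) (nat_lit 456) (nat_lit 11065765835) (nat_lit 76) (nat_lit 257698856788) (nat_lit 76) (nat_lit 5) (nat_lit 82) (nat_lit 5) (nat_lit 77) (nat_lit 5) (nat_lit 401) (nat_lit 382) (nat_lit 117)) (XT.nd (nat_lit 78) (nat_lit 304) (nat_lit 0) (XT.lf (nat_lit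 0) (nat_lit 152433164349) (nat_lit 380) (nat_lit 193013136935) (nat_lit 76) (nat_lit 35509784672) (nat_lit 72) (nat_lit 5) (nat_lit 77) (nat_lit 5) (nat_lit 73) (nat_lit 5) (nat_lit 402) (nat_lit 382) (nat_lit 116)) (XT.lf (nat_lit 0) (nat_lit 3168980667) (nat_lit 304) (nat_lit 205026778827) (nat_lit 380) (nat_lit 184082905332) (nat_lit 68) (nat_lit 5) (nat_lit 72) (nat_lit 5) (nat_lit 73) (nat_lit 5) (nat_lit 403) (nat_lit 382) (nat_lit 115)))))) (XT.nd (nat_lit 45396) (nat_lit 0) (nat_lit 2432) (XT.nd (nat_lit 156) (nat_lit 0) (nat_lit 0) (XT.nd (nat_lit 78) (nat_lit 228) (nat_lit 0) (XT.lf (nat_lit 0) (nat_lit 215861141329) (nat_lit 304) (nat_lit 54154078351) (nat_lit 380) (nat_lit 133988716232) (nat_lit 68) (nat_lit 5) (nat_lit 72) (nat_lit 5) (nat_lit 73) (nat_lit 5) (nat_lit 404) (nat_lit 382) (nat_lit 114)) (XT.lf (nat_lit 0) (nat_lit 21947012230) (nat_lit 228) (nat_lit 314949087038)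 (nat_lit 304) (nat_lit 79320848999) (nat_lit 65) (nat_lit 5) (nat_lit 68) (nat_lit 5) (nat_lit 69) (nat_lit 5) (nat_lit 405) (nat_lit 382) (nat_lit 113))) (XT.nd (nat_lit 45084) (nat_lit 0) (nat_lit 2356) (XT.lf (nat_lit 0) (nat_lit 248156034878) (nat_lit 228) (nat_lit 163024697059) (nat_lit 304) (nat_lit 17656893881) (nat_lit 65) (nat_lit 5) (nat_lit 68) (nat_lit 5) (nat_lit 69) (nat_lit 5) (nat_lit 406) (nat_lit 382) (nat_lit 112)) (XT.nd (nat_lit 78) (nat_lit 0) (nat_lit 0) (XT.lf (nat_lit 0) (nat_lit 5407943799) (nat_lit 836) (nat_lit 55793744888) (nat_lit 836) (nat_lit 55793744888) (nat_lit 96) (nat_lit 3) (nat_lit 107) (nat_lit 3) (nat_lit 107) (nat_lit 5) (nat_lit 383) (nat_lit 383) (nat_lit 134)) (XT.lf (nat_lit 0) (nat_lit 11087436333) (nat_lit 836) (nat_lit 1982773571) (nat_lit 836) (nat_lit 226770369915) (nat_lit 96) (nat_lit 3) (nat_lit 107) (nat_lit 3) (nat_lit 107) (nat_lit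 5) (nat_lit 384) (nat_lit 383) (nat_lit 133))))) (XT.nd (nat_lit 234) (nat_lit 0) (nat_lit 76) (XT.nd (nat_lit 78) (nat_lit 0) (nat_lit 0) (XT.lf (nat_lit 0) (nat_lit 14814907176) (nat_lit 760) (nat_lit 130667953599) (nat_lit 836) (nat_lit 100327800203) (nat_lit 97) (nat_lit 5) (nat_lit 107) (nat_lit 5) (nat_lit 108) (nat_lit 5) (nat_lit 385) (nat_lit 383) (nat_lit 132)) (XT.nd (nat_lit 78) (nat_lit 0) (nat_lit 76) (XT.lf (nat_lit 0) (nat_lit 18977076717) (nat_lit 760) (nat_lit 14099125907) (nat_lit 836) (nat_lit 218990627398) (nat_lit 97) (nat_lit 5) (nat_lit 107) (nat_lit 5) (nat_lit 108) (nat_lit 5) (nat_lit 386) (nat_lit 383) (nat_lit 131)) (XT.lf (nat_lit 0) (nat_lit 26448986831) (nat_lit 760) (nat_lit 148024501918) (nat_lit 836) (nat_lit 84007237251) (nat_lit 98) (nat_lit 5) (nat_lit 108) (nat_lit 5) (nat_lit 109) (nat_lit 5) (nat_lit 387) (nat_lit 383) (nat_lit 130)))) (XT.nd (nat_lit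 78) (nat_lit 0) (nat_lit 76) (XT.lf (nat_lit 0) (nat_lit 35079351167) (nat_lit 760) (nat_lit 24020737077) (nat_lit 836) (nat_lit 206075985674) (nat_lit 98) (nat_lit 5) (nat_lit 108) (nat_lit 5) (nat_lit 109) (nat_lit 5) (nat_lit 388) (nat_lit 383) (nat_lit 129)) (XT.nd (nat_lit 78) (nat_lit 0) (nat_lit 0) (XT.lf (nat_lit 0) (nat_lit 46850530089) (nat_lit 760) (nat_lit 163423216139) (nat_lit 836) (nat_lit 61796978262) (nat_lit 99) (nat_lit 5) (nat_lit 109) (nat_lit 5) (nat_lit 110) (nat_lit 5) (nat_lit 389) (nat_lit 383) (nat_lit 128)) (XT.lf (nat_lit 0) (nat_lit 60592535181) (nat_lit 760) (nat_lit 31482222295) (nat_lit 836) (nat_lit 187166236825) (nat_lit 99) (nat_lit 5) (nat_lit 109) (nat_lit 5) (nat_lit 110) (nat_lit 5) (nat_lit 390) (nat_lit 383) (nat_lit 127))))))) (XT.nd (nat_lit 858) (nat_lit 608) (nat_lit 0) (XT.nd (nat_lit 390) (nat_lit 1140) (nat_lit 0) (XT.nd (nat_lit 156) (nat_lit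 684) (nat_lit 0) (XT.nd (nat_lit 78) (nat_lit 0) (nat_lit 0) (XT.lf (nat_lit 0) (nat_lit 77276741252) (nat_lit 760) (nat_lit 176616368325) (nat_lit 836) (nat_lit 32763913058) (nat_lit 100) (nat_lit 5) (nat_lit 110) (nat_lit 5) (nat_lit 111) (nat_lit 5) (nat_lit 391) (nat_lit 383) (nat_lit 126)) (XT.lf (nat_lit 0) (nat_lit 96846433582) (nat_lit 760) (nat_lit 36202734350) (nat_lit 836) (nat_lit 161292120721) (nat_lit 100) (nat_lit 5) (nat_lit 110) (nat_lit 5) (nat_lit 111) (nat_lit 5) (nat_lit 392) (nat_lit 383) (nat_lit 125))) (XT.nd (nat_lit 78) (nat_lit 684) (nat_lit 0) (XT.lf (nat_lit 76) (nat_lit 114909356423) (nat_lit 0) (nat_lit 4279260330) (nat_lit 836) (nat_lit 183131450970) (nat_lit 101) (nat_lit 5) (nat_lit 100) (nat_lit 5) (nat_lit 111) (nat_lit 5) (nat_lit 393) (nat_lit 383) (nat_lit 124)) (XT.nd (nat_lit 78) (nat_lit 760) (nat_lit 0) (XT.lf (nat_lit 0) (nat_lit 145315192790)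 (nat_lit 760) (nat_lit 37887467009) (nat_lit 76) (nat_lit 127361761821) (nat_lit 101) (nat_lit 5) (nat_lit 111) (nat_lit 5) (nat_lit 102) (nat_lit 5) (nat_lit 394) (nat_lit 383) (nat_lit 123)) (XT.lf (nat_lit 0) (nat_lit 122977803617) (nat_lit 760) (nat_lit 51760427349) (nat_lit 836) (nat_lit 144383255636) (nat_lit 91) (nat_lit 5) (nat_lit 101) (nat_lit 5) (nat_lit 102) (nat_lit 5) (nat_lit 395) (nat_lit 383) (nat_lit 122))))) (XT.nd (nat_lit 234) (nat_lit 760) (nat_lit 0) (XT.nd (nat_lit 78) (nat_lit 380) (nat_lit 0) (XT.lf (nat_lit 0) (nat_lit 207631202746) (nat_lit 836) (nat_lit 36229845215) (nat_lit 76) (nat_lit 84145417842) (nat_lit 91) (nat_lit 5) (nat_lit 102) (nat_lit 5) (nat_lit 92) (nat_lit 5) (nat_lit 396) (nat_lit 383) (nat_lit 121)) (XT.nd (nat_lit 78) (nat_lit 0) (nat_lit 0) (XT.lf (nat_lit 0) (nat_lit 135156978824) (nat_lit 380) (nat_lit 109970512256) (nat_lit 456) (nat_lit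 92060269536) (nat_lit 86) (nat_lit 5) (nat_lit 91) (nat_lit 5) (nat_lit 92) (nat_lit 5) (nat_lit 397) (nat_lit 383) (nat_lit 120)) (XT.lf (nat_lit 0) (nat_lit 285600159808) (nat_lit 456) (nat_lit 30914559523) (nat_lit 76) (nat_lit 30258322588) (nat_lit 86) (nat_lit 5) (nat_lit 92) (nat_lit 5) (nat_lit 87) (nat_lit 5) (nat_lit 398) (nat_lit 383) (nat_lit 119)))) (XT.nd (nat_lit 78) (nat_lit 456) (nat_lit 0) (XT.lf (nat_lit 0) (nat_lit 151813621725) (nat_lit 304) (nat_lit 180455832162) (nat_lit 380) (nat_lit 24359483851) (nat_lit 82) (nat_lit 5) (nat_lit 86) (nat_lit 5) (nat_lit 87) (nat_lit 5) (nat_lit 399) (nat_lit 383) (nat_lit 118)) (XT.nd (nat_lit 78) (nat_lit 380) (nat_lit 0) (XT.lf (nat_lit 0) (nat_lit 14369165336) (nat_lit 380) (nat_lit 22431757829) (nat_lit 76) (nat_lit 330138941450) (nat_lit 81) (nat_lit 5) (nat_lit 86) (nat_lit 5) (nat_lit 82) (nat_lit 5) (nat_lit 400) (nat_lit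 383) (nat_lit 117)) (XT.lf (nat_lit 0) (nat_lit 58767659224) (nat_lit 456) (nat_lit 205193277518) (nat_lit 76) (nat_lit 113557831813) (nat_lit 76) (nat_lit 5) (nat_lit 82) (nat_lit 5) (nat_lit 77) (nat_lit 5) (nat_lit 401) (nat_lit 383) (nat_lit 116)))))) (XT.nd (nat_lit 45630) (nat_lit 0) (nat_lit 2204) (XT.nd (nat_lit 234) (nat_lit 0) (nat_lit 0) (XT.nd (nat_lit 78) (nat_lit 608) (nat_lit 0) (XT.lf (nat_lit 0) (nat_lit 106375456132) (nat_lit 456) (nat_lit 11617802982) (nat_lit 76) (nat_lit 270583889698) (nat_lit 76) (nat_lit 5) (nat_lit 82) (nat_lit 5) (nat_lit 77) (nat_lit 5) (nat_lit 402) (nat_lit 383) (nat_lit 115)) (XT.nd (nat_lit 78) (nat_lit 304) (nat_lit 0) (XT.lf (nat_lit 0) (nat_lit 160055896341) (nat_lit 380) (nat_lit 202662510628) (nat_lit 76) (nat_lit 37285428478) (nat_lit 72) (nat_lit 5) (nat_lit 77) (nat_lit 5) (nat_lit 73) (nat_lit 5) (nat_lit 403) (nat_lit 383) (nat_lit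 114)) (XT.lf (nat_lit 0) (nat_lit 3328692159) (nat_lit 304) (nat_lit 215277897664) (nat_lit 380) (nat_lit 193285955062) (nat_lit 68) (nat_lit 5) (nat_lit 72) (nat_lit 5) (nat_lit 73) (nat_lit 5) (nat_lit 404) (nat_lit 383) (nat_lit 113)))) (XT.nd (nat_lit 45240) (nat_lit 0) (nat_lit 2128) (XT.lf (nat_lit 0) (nat_lit 226655400737) (nat_lit 304) (nat_lit 56861572644) (nat_lit 380) (nat_lit 140687108676) (nat_lit 68) (nat_lit 5) (nat_lit 72) (nat_lit 5) (nat_lit 73) (nat_lit 5) (nat_lit 405) (nat_lit 383) (nat_lit 112)) (XT.nd (nat_lit 78) (nat_lit 0) (nat_lit 0) (XT.lf (nat_lit 0) (nat_lit 5679474554) (nat_lit 836) (nat_lit 58582836305) (nat_lit 836) (nat_lit 58582836305) (nat_lit 96) (nat_lit 3) (nat_lit 107) (nat_lit 3) (nat_lit 107) (nat_lit 5) (nat_lit 384) (nat_lit 384) (nat_lit 132)) (XT.lf (nat_lit 0) (nat_lit 11643967321) (nat_lit 836) (nat_lit 2080777339) (nat_lit 836) (nat_lit 238107753501)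 (nat_lit 96) (nat_lit 3) (nat_lit 107) (nat_lit 3) (nat_lit 107) (nat_lit 5) (nat_lit 385) (nat_lit 384) (nat_lit 131))))) (XT.nd (nat_lit 234) (nat_lit 0) (nat_lit 76) (XT.nd (nat_lit 78) (nat_lit 0) (nat_lit 0) (XT.lf (nat_lit 0) (nat_lit 15557711377) (nat_lit 760) (nat_lit 137200113477) (nat_lit 836) (nat_lit 105343263667) (nat_lit 97) (nat_lit 5) (nat_lit 107) (nat_lit 5) (nat_lit 108) (nat_lit 5) (nat_lit 386) (nat_lit 384) (nat_lit 130)) (XT.nd (nat_lit 78) (nat_lit 0) (nat_lit 76) (XT.lf (nat_lit 0) (nat_lit 19927891356) (nat_lit 760) (nat_lit 14802903343) (nat_lit 836) (nat_lit 229939276344) (nat_lit 97) (nat_lit 5) (nat_lit 107) (nat_lit 5) (nat_lit 108) (nat_lit 5) (nat_lit 387) (nat_lit 384) (nat_lit 129)) (XT.lf (nat_lit 0) (nat_lit 27773310381) (nat_lit 760) (nat_lit 155424459237) (nat_lit 836) (nat_lit 88206896646) (nat_lit 98) (nat_lit 5) (nat_lit 108) (nat_lit 5) (nat_lit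 109) (nat_lit 5) (nat_lit 388) (nat_lit 384) (nat_lit 128)))) (XT.nd (nat_lit 78) (nat_lit 0) (nat_lit 76) (XT.lf (nat_lit 0) (nat_lit 36835103686) (nat_lit 760) (nat_lit 25220566524) (nat_lit 836) (nat_lit 216379115941) (nat_lit 98) (nat_lit 5) (nat_lit 108) (nat_lit 5) (nat_lit 109) (nat_lit 5) (nat_lit 389) (nat_lit 384) (nat_lit 127)) (XT.nd (nat_lit 78) (nat_lit 0) (nat_lit 0) (XT.lf (nat_lit 0) (nat_lit 49194766820) (nat_lit 760) (nat_lit 171593092695) (nat_lit 836) (nat_lit 64886313579) (nat_lit 99) (nat_lit 5) (nat_lit 109) (nat_lit 5) (nat_lit 110) (nat_lit 5) (nat_lit 390) (nat_lit 384) (nat_lit 126)) (XT.lf (nat_lit 0) (nat_lit 63623790727) (nat_lit 760) (nat_lit 33055110314) (nat_lit 836) (nat_lit 196524059528) (nat_lit 99) (nat_lit 5) (nat_lit 109) (nat_lit 5) (nat_lit 110) (nat_lit 5) (nat_lit 391) (nat_lit 384) (nat_lit 125))))))))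
noncomputable def xc253 : XT := (XT.nd (nat_lit 47034) (nat_lit 0) (nat_lit 304) (XT.nd (nat_lit 858) (nat_lit 304) (nat_lit 0) (XT.nd (nat_lit 390) (nat_lit 1140) (nat_lit 0) (XT.nd (nat_lit 156) (nat_lit 684) (nat_lit 0) (XT.nd (nat_lit 78) (nat_lit 0) (nat_lit 0) (XT.lf (nat_lit 0) (nat_lit 81142142604) (nat_lit 760) (nat_lit 185445897235) (nat_lit 836) (nat_lit 34401753801) (nat_lit 100) (nat_lit 5) (nat_lit 110) (nat_lit 5) (nat_lit 111) (nat_lit 5) (nat_lit 392) (nat_lit 384) (nat_lit 124)) (XT.lf (nat_lit 0) (nat_lit 101690245060) (nat_lit 760) (nat_lit 38011642967) (nat_lit 836) (nat_lit 169356388747) (nat_lit 100) (nat_lit 5) (nat_lit 110) (nat_lit 5) (nat_lit 111) (nat_lit 5) (nat_lit 393) (nat_lit 384) (nat_lit 123))) (XT.nd (nat_lit 78) (nat_lit 684) (nat_lit 0) (XT.lf (nat_lit 76) (nat_lit 120656032538) (nat_lit 0) (nat_lit 4493452775) (nat_lit 836) (nat_lit 192286512176) (nat_lit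 101) (nat_lit 5) (nat_lit 100) (nat_lit 5) (nat_lit 111) (nat_lit 5) (nat_lit 394) (nat_lit 384) (nat_lit 122)) (XT.nd (nat_lit 78) (nat_lit 760) (nat_lit 0) (XT.lf (nat_lit 0) (nat_lit 152582318276) (nat_lit 760) (nat_lit 39780616078) (nat_lit 76) (nat_lit 133729638403) (nat_lit 101) (nat_lit 5) (nat_lit 111) (nat_lit 5) (nat_lit 102) (nat_lit 5) (nat_lit 395) (nat_lit 384) (nat_lit 121)) (XT.lf (nat_lit 0) (nat_lit 129127898333) (nat_lit 760) (nat_lit 54348563794) (nat_lit 836) (nat_lit 151601031252) (nat_lit 91) (nat_lit 5) (nat_lit 101) (nat_lit 5) (nat_lit 102) (nat_lit 5) (nat_lit 396) (nat_lit 384) (nat_lit 120))))) (XT.nd (nat_lit 234) (nat_lit 760) (nat_lit 0) (XT.nd (nat_lit 78) (nat_lit 380) (nat_lit 0) (XT.lf (nat_lit 0) (nat_lit 218014017946) (nat_lit 836) (nat_lit 38040124251) (nat_lit 76) (nat_lit 88352582644) (nat_lit 91) (nat_lit 5) (nat_lit 102) (nat_lit 5) (nat_lit 92)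 (nat_lit 5) (nat_lit 397) (nat_lit 384) (nat_lit 119)) (XT.nd (nat_lit 78) (nat_lit 0) (nat_lit 0) (XT.lf (nat_lit 0) (nat_lit 141916021422) (nat_lit 380) (nat_lit 115469058146) (nat_lit 456) (nat_lit 96662006955) (nat_lit 86) (nat_lit 5) (nat_lit 91) (nat_lit 5) (nat_lit 92) (nat_lit 5) (nat_lit 398) (nat_lit 384) (nat_lit 118)) (XT.lf (nat_lit 0) (nat_lit 299881323625) (nat_lit 456) (nat_lit 32459091216) (nat_lit 76) (nat_lit 31771220024) (nat_lit 86) (nat_lit 5) (nat_lit 92) (nat_lit 5) (nat_lit 87) (nat_lit 5) (nat_lit 399) (nat_lit 384) (nat_lit 117)))) (XT.nd (nat_lit 78) (nat_lit 456) (nat_lit 0) (XT.lf (nat_lit 0) (nat_lit 159405479800) (nat_lit 304) (nat_lit 189478565945) (nat_lit 380) (nat_lit 25576281627) (nat_lit 82) (nat_lit 5) (nat_lit 86) (nat_lit 5) (nat_lit 87) (nat_lit 5) (nat_lit 400) (nat_lit 384) (nat_lit 116)) (XT.nd (nat_lit 78) (nat_lit 380) (nat_lit 0) (XT.lf (nat_lit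 0) (nat_lit 15088708139) (nat_lit 380) (nat_lit 23552187745) (nat_lit 76) (nat_lit 346645906560) (nat_lit 81) (nat_lit 5) (nat_lit 86) (nat_lit 5) (nat_lit 82) (nat_lit 5) (nat_lit 401) (nat_lit 384) (nat_lit 115)) (XT.lf (nat_lit 0) (nat_lit 61707094248) (nat_lit 456) (nat_lit 215451749827) (nat_lit 76) (nat_lit 119235809186) (nat_lit 76) (nat_lit 5) (nat_lit 82) (nat_lit 5) (nat_lit 77) (nat_lit 5) (nat_lit 402) (nat_lit 384) (nat_lit 114)))))) (XT.nd (nat_lit 45708) (nat_lit 0) (nat_lit 1900) (XT.nd (nat_lit 45474) (nat_lit 0) (nat_lit 1824) (XT.nd (nat_lit 78) (nat_lit 304) (nat_lit 0) (XT.lf (nat_lit 0) (nat_lit 111695230904) (nat_lit 456) (nat_lit 12197558306) (nat_lit 76) (nat_lit 284113165881) (nat_lit 76) (nat_lit 5) (nat_lit 82) (nat_lit 5) (nat_lit 77) (nat_lit 5) (nat_lit 403) (nat_lit 384) (nat_lit 113)) (XT.lf (nat_lit 0) (nat_lit 168059665104) (nat_lit 380) (nat_lit 212794472300)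 (nat_lit 76) (nat_lit 39149840104) (nat_lit 72) (nat_lit 5) (nat_lit 77) (nat_lit 5) (nat_lit 73) (nat_lit 5) (nat_lit 404) (nat_lit 384) (nat_lit 112))) (XT.nd (nat_lit 78) (nat_lit 0) (nat_lit 0) (XT.lf (nat_lit 0) (nat_lit 5964476459) (nat_lit 836) (nat_lit 61511437686) (nat_lit 836) (nat_lit 61511437686) (nat_lit 96) (nat_lit 3) (nat_lit 107) (nat_lit 3) (nat_lit 107) (nat_lit 5) (nat_lit 385) (nat_lit 385) (nat_lit 130)) (XT.nd (nat_lit 78) (nat_lit 0) (nat_lit 76) (XT.lf (nat_lit 0) (nat_lit 12228124118) (nat_lit 836) (nat_lit 2183786809) (nat_lit 836) (nat_lit 250012111778) (nat_lit 96) (nat_lit 3) (nat_lit 107) (nat_lit 3) (nat_lit 107) (nat_lit 5) (nat_lit 386) (nat_lit 385) (nat_lit 129)) (XT.lf (nat_lit 0) (nat_lit 16337464376) (nat_lit 760) (nat_lit 144058996428) (nat_lit 836) (nat_lit 110609586447) (nat_lit 97) (nat_lit 5) (nat_lit 107) (nat_lit 5) (nat_lit 108) (nat_lit 5)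 (nat_lit 387) (nat_lit 385) (nat_lit 128))))) (XT.nd (nat_lit 234) (nat_lit 0) (nat_lit 152) (XT.nd (nat_lit 78) (nat_lit 0) (nat_lit 76) (XT.lf (nat_lit 0) (nat_lit 20926064429) (nat_lit 760) (nat_lit 15541979251) (nat_lit 836) (nat_lit 241435439776) (nat_lit 97) (nat_lit 5) (nat_lit 107) (nat_lit 5) (nat_lit 108) (nat_lit 5) (nat_lit 388) (nat_lit 385) (nat_lit 127)) (XT.nd (nat_lit 78) (nat_lit 0) (nat_lit 0) (XT.lf (nat_lit 0) (nat_lit 29163675863) (nat_lit 760) (nat_lit 163194532287) (nat_lit 836) (nat_lit 92616604320) (nat_lit 98) (nat_lit 5) (nat_lit 108) (nat_lit 5) (nat_lit 109) (nat_lit 5) (nat_lit 389) (nat_lit 385) (nat_lit 126)) (XT.lf (nat_lit 0) (nat_lit 38678477883) (nat_lit 760) (nat_lit 26480499697) (nat_lit 836) (nat_lit 227197464921) (nat_lit 98) (nat_lit 5) (nat_lit 108) (nat_lit 5) (nat_lit 109) (nat_lit 5) (nat_lit 390) (nat_lit 385) (nat_lit 125)))) (XT.nd (nat_lit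 78) (nat_lit 0) (nat_lit 0) (XT.lf (nat_lit 0) (nat_lit 51656056386) (nat_lit 760) (nat_lit 180171582477) (nat_lit 836) (nat_lit 68130163412) (nat_lit 99) (nat_lit 5) (nat_lit 109) (nat_lit 5) (nat_lit 110) (nat_lit 5) (nat_lit 391) (nat_lit 385) (nat_lit 124)) (XT.nd (nat_lit 78) (nat_lit 0) (nat_lit 76) (XT.lf (nat_lit 0) (nat_lit 66806457620) (nat_lit 760) (nat_lit 34706756446) (nat_lit 836) (nat_lit 206349818841) (nat_lit 99) (nat_lit 5) (nat_lit 109) (nat_lit 5) (nat_lit 110) (nat_lit 5) (nat_lit 392) (nat_lit 385) (nat_lit 123)) (XT.lf (nat_lit 0) (nat_lit 85200668590) (nat_lit 760) (nat_lit 194717022477) (nat_lit 836) (nat_lit 36121519577) (nat_lit 100) (nat_lit 5) (nat_lit 110) (nat_lit 5) (nat_lit 111) (nat_lit 5) (nat_lit 393) (nat_lit 385) (nat_lit 122))))))) (XT.nd (nat_lit 46254) (nat_lit 0) (nat_lit 1520) (XT.nd (nat_lit 390) (nat_lit 1140) (nat_lit 0) (XT.nd (nat_lit 156)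 (nat_lit 684) (nat_lit 0) (XT.nd (nat_lit 78) (nat_lit 0) (nat_lit 0) (XT.lf (nat_lit 0) (nat_lit 106776108605) (nat_lit 760) (nat_lit 39911111191) (nat_lit 836) (nat_lit 177823901600) (nat_lit 100) (nat_lit 5) (nat_lit 110) (nat_lit 5) (nat_lit 111) (nat_lit 5) (nat_lit 394) (nat_lit 385) (nat_lit 121)) (XT.lf (nat_lit 76) (nat_lit 126689930122) (nat_lit 0) (nat_lit 4718333512) (nat_lit 836) (nat_lit 201899466953) (nat_lit 101) (nat_lit 5) (nat_lit 100) (nat_lit 5) (nat_lit 111) (nat_lit 5) (nat_lit 395) (nat_lit 385) (nat_lit 120))) (XT.nd (nat_lit 78) (nat_lit 760) (nat_lit 0) (XT.lf (nat_lit 0) (nat_lit 160212673053) (nat_lit 760) (nat_lit 41768536423) (nat_lit 76) (nat_lit 140415928478) (nat_lit 101) (nat_lit 5) (nat_lit 111) (nat_lit 5) (nat_lit 102) (nat_lit 5) (nat_lit 396) (nat_lit 385) (nat_lit 119)) (XT.nd (nat_lit 78) (nat_lit 0) (nat_lit 0) (XT.lf (nat_lit 0) (nat_lit 135585385798)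 (nat_lit 760) (nat_lit 57066096363) (nat_lit 836) (nat_lit 159179824613) (nat_lit 91) (nat_lit 5) (nat_lit 101) (nat_lit 5) (nat_lit 102) (nat_lit 5) (nat_lit 397) (nat_lit 385) (nat_lit 118)) (XT.lf (nat_lit 0) (nat_lit 228915857223) (nat_lit 836) (nat_lit 39941030032) (nat_lit 76) (nat_lit 92770115550) (nat_lit 91) (nat_lit 5) (nat_lit 102) (nat_lit 5) (nat_lit 92) (nat_lit 5) (nat_lit 398) (nat_lit 385) (nat_lit 117))))) (XT.nd (nat_lit 234) (nat_lit 456) (nat_lit 0) (XT.nd (nat_lit 78) (nat_lit 304) (nat_lit 0) (XT.lf (nat_lit 0) (nat_lit 149012905175) (nat_lit 380) (nat_lit 121242529446) (nat_lit 456) (nat_lit 101493949880) (nat_lit 86) (nat_lit 5) (nat_lit 91) (nat_lit 5) (nat_lit 92) (nat_lit 5) (nat_lit 399) (nat_lit 385) (nat_lit 116)) (XT.nd (nat_lit 78) (nat_lit 304) (nat_lit 0) (XT.lf (nat_lit 0) (nat_lit 314876438174) (nat_lit 456) (nat_lit 34080960713) (nat_lit 76) (nat_lit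 33359764069) (nat_lit 86) (nat_lit 5) (nat_lit 92) (nat_lit 5) (nat_lit 87) (nat_lit 5) (nat_lit 400) (nat_lit 385) (nat_lit 115)) (XT.lf (nat_lit 0) (nat_lit 167376821353) (nat_lit 304) (nat_lit 198952441793) (nat_lit 380) (nat_lit 26854028665) (nat_lit 82) (nat_lit 5) (nat_lit 86) (nat_lit 5) (nat_lit 87) (nat_lit 5) (nat_lit 401) (nat_lit 385) (nat_lit 114)))) (XT.nd (nat_lit 78) (nat_lit 380) (nat_lit 0) (XT.lf (nat_lit 0) (nat_lit 15844127253) (nat_lit 380) (nat_lit 24728746815) (nat_lit 76) (nat_lit 363978218249) (nat_lit 81) (nat_lit 5) (nat_lit 86) (nat_lit 5) (nat_lit 82) (nat_lit 5) (nat_lit 402) (nat_lit 385) (nat_lit 113)) (XT.nd (nat_lit 78) (nat_lit 0) (nat_lit 0) (XT.lf (nat_lit 0) (nat_lit 64793403212) (nat_lit 456) (nat_lit 226223256533) (nat_lit 76) (nat_lit 125197677452) (nat_lit 76) (nat_lit 5) (nat_lit 82) (nat_lit 5) (nat_lit 77) (nat_lit 5) (nat_lit 403) (nat_lit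 385) (nat_lit 112)) (XT.lf (nat_lit 0) (nat_lit 117280901260) (nat_lit 456) (nat_lit 12806406901) (nat_lit 76) (nat_lit 298318898277) (nat_lit 76) (nat_lit 5) (nat_lit 82) (nat_lit 5) (nat_lit 77) (nat_lit 5) (nat_lit 404) (nat_lit 385) (nat_lit 111)))))) (XT.nd (nat_lit 468) (nat_lit 0) (nat_lit 228) (XT.nd (nat_lit 234) (nat_lit 0) (nat_lit 76) (XT.nd (nat_lit 78) (nat_lit 0) (nat_lit 0) (XT.lf (nat_lit 0) (nat_lit 6263632868) (nat_lit 836) (nat_lit 64586519382) (nat_lit 836) (nat_lit 64586519382) (nat_lit 96) (nat_lit 3) (nat_lit 107) (nat_lit 3) (nat_lit 107) (nat_lit 5) (nat_lit 386) (nat_lit 386) (nat_lit 128)) (XT.nd (nat_lit 78) (nat_lit 0) (nat_lit 76) (XT.lf (nat_lit 0) (nat_lit 12841306680) (nat_lit 836) (nat_lit 2292042456) (nat_lit 836) (nat_lit 262511783674) (nat_lit 96) (nat_lit 3) (nat_lit 107) (nat_lit 3) (nat_lit 107) (nat_lit 5) (nat_lit 387) (nat_lit 386) (nat_lit 127))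 (XT.lf (nat_lit 0) (nat_lit 17156031410) (nat_lit 760) (nat_lit 151260927906) (nat_lit 836) (nat_lit 116139303498) (nat_lit 97) (nat_lit 5) (nat_lit 107) (nat_lit 5) (nat_lit 108) (nat_lit 5) (nat_lit 388) (nat_lit 386) (nat_lit 126)))) (XT.nd (nat_lit 78) (nat_lit 0) (nat_lit 76) (XT.lf (nat_lit 0) (nat_lit 21973980807) (nat_lit 760) (nat_lit 16318108363) (nat_lit 836) (nat_lit 253506485792) (nat_lit 97) (nat_lit 5) (nat_lit 107) (nat_lit 5) (nat_lit 108) (nat_lit 5) (nat_lit 389) (nat_lit 386) (nat_lit 125)) (XT.nd (nat_lit 78) (nat_lit 0) (nat_lit 0) (XT.lf (nat_lit 0) (nat_lit 30623401573) (nat_lit 760) (nat_lit 171353215898) (nat_lit 836) (nat_lit 97246856615) (nat_lit 98) (nat_lit 5) (nat_lit 108) (nat_lit 5) (nat_lit 109) (nat_lit 5) (nat_lit 390) (nat_lit 386) (nat_lit 124)) (XT.lf (nat_lit 0) (nat_lit 40613870269) (nat_lit 760) (nat_lit 27803531345) (nat_lit 836) (nat_lit 238556787766)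 (nat_lit 98) (nat_lit 5) (nat_lit 108) (nat_lit 5) (nat_lit 109) (nat_lit 5) (nat_lit 391) (nat_lit 386) (nat_lit 123))))) (XT.nd (nat_lit 234) (nat_lit 0) (nat_lit 76) (XT.nd (nat_lit 78) (nat_lit 0) (nat_lit 0) (XT.lf (nat_lit 0) (nat_lit 54240266213) (nat_lit 760) (nat_lit 189179105045) (nat_lit 836) (nat_lit 71536249046) (nat_lit 99) (nat_lit 5) (nat_lit 109) (nat_lit 5) (nat_lit 110) (nat_lit 5) (nat_lit 392) (nat_lit 386) (nat_lit 122)) (XT.nd (nat_lit 78) (nat_lit 0) (nat_lit 76) (XT.lf (nat_lit 0) (nat_lit 70148120508) (nat_lit 760) (nat_lit 36441088024) (nat_lit 836) (nat_lit 216666907368) (nat_lit 99) (nat_lit 5) (nat_lit 109) (nat_lit 5) (nat_lit 110) (nat_lit 5) (nat_lit 393) (nat_lit 386) (nat_lit 121)) (XT.lf (nat_lit 0) (nat_lit 89461988964) (nat_lit 760) (nat_lit 204451812721) (nat_lit 836) (nat_lit 37927303570) (nat_lit 100) (nat_lit 5) (nat_lit 110) (nat_lit 5) (nat_lit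 111) (nat_lit 5) (nat_lit 394) (nat_lit 386) (nat_lit 120)))) (XT.nd (nat_lit 78) (nat_lit 0) (nat_lit 0) (XT.lf (nat_lit 0) (nat_lit 112116139696) (nat_lit 760) (nat_lit 41905656389) (nat_lit 836) (nat_lit 186714818599) (nat_lit 100) (nat_lit 5) (nat_lit 110) (nat_lit 5) (nat_lit 111) (nat_lit 5) (nat_lit 395) (nat_lit 386) (nat_lit 119)) (XT.nd (nat_lit 78) (nat_lit 0) (nat_lit 76) (XT.lf (nat_lit 76) (nat_lit 133025420693) (nat_lit 0) (nat_lit 4954438938) (nat_lit 836) (nat_lit 211993196916) (nat_lit 101) (nat_lit 5) (nat_lit 100) (nat_lit 5) (nat_lit 111) (nat_lit 5) (nat_lit 396) (nat_lit 386) (nat_lit 118)) (XT.lf (nat_lit 0) (nat_lit 168224430392) (nat_lit 760) (nat_lit 43855956024) (nat_lit 76) (nat_lit 147436550892) (nat_lit 101) (nat_lit 5) (nat_lit 111) (nat_lit 5) (nat_lit 102) (nat_lit 5) (nat_lit 397) (nat_lit 386) (nat_lit 117))))))))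
noncomputable def xc254 : XT := (XT.nd (nat_lit 92976) (nat_lit 0) (nat_lit 380) (XT.nd (nat_lit 46410) (nat_lit 0) (nat_lit 380) (XT.nd (nat_lit 390) (nat_lit 76) (nat_lit 0) (XT.nd (nat_lit 156) (nat_lit 684) (nat_lit 0) (XT.nd (nat_lit 78) (nat_lit 0) (nat_lit 0) (XT.lf (nat_lit 0) (nat_lit 142365646063) (nat_lit 760) (nat_lit 59919495855) (nat_lit 836) (nat_lit 167137674618) (nat_lit 91) (nat_lit 5) (nat_lit 101) (nat_lit 5) (nat_lit 102) (nat_lit 5) (nat_lit 398) (nat_lit 386) (nat_lit 116)) (XT.lf (nat_lit 0) (nat_lit 240362682627) (nat_lit 836) (nat_lit 41937083411) (nat_lit 76) (nat_lit 97408534047) (nat_lit 91) (nat_lit 5) (nat_lit 102) (nat_lit 5) (nat_lit 92) (nat_lit 5) (nat_lit 399) (nat_lit 386) (nat_lit 115))) (XT.nd (nat_lit 78) (nat_lit 304) (nat_lit 0) (XT.lf (nat_lit 0) (nat_lit 156464532458) (nat_lit 380) (nat_lit 127304672600) (nat_lit 456) (nat_lit 106567597558) (nat_lit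 86) (nat_lit 5) (nat_lit 91) (nat_lit 5) (nat_lit 92) (nat_lit 5) (nat_lit 400) (nat_lit 386) (nat_lit 114)) (XT.nd (nat_lit 78) (nat_lit 304) (nat_lit 0) (XT.lf (nat_lit 0) (nat_lit 330621210984) (nat_lit 456) (nat_lit 35784024563) (nat_lit 76) (nat_lit 35027736893) (nat_lit 86) (nat_lit 5) (nat_lit 92) (nat_lit 5) (nat_lit 87) (nat_lit 5) (nat_lit 401) (nat_lit 386) (nat_lit 113)) (XT.lf (nat_lit 0) (nat_lit 175746630732) (nat_lit 304) (nat_lit 208900016310) (nat_lit 380) (nat_lit 28195762258) (nat_lit 82) (nat_lit 5) (nat_lit 86) (nat_lit 5) (nat_lit 87) (nat_lit 5) (nat_lit 402) (nat_lit 386) (nat_lit 112))))) (XT.nd (nat_lit 45786) (nat_lit 0) (nat_lit 1216) (XT.nd (nat_lit 45630) (nat_lit 0) (nat_lit 1140) (XT.lf (nat_lit 0) (nat_lit 16637225866) (nat_lit 380) (nat_lit 25964231487) (nat_lit 76) (nat_lit 382177144001) (nat_lit 81) (nat_lit 5) (nat_lit 86) (nat_lit 5) (nat_lit 82) (nat_lit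 5) (nat_lit 403) (nat_lit 386) (nat_lit 111)) (XT.nd (nat_lit 78) (nat_lit 0) (nat_lit 0) (XT.lf (nat_lit 0) (nat_lit 6577660395) (nat_lit 836) (nat_lit 67815400735) (nat_lit 836) (nat_lit 67815400735) (nat_lit 96) (nat_lit 3) (nat_lit 107) (nat_lit 3) (nat_lit 107) (nat_lit 5) (nat_lit 387) (nat_lit 387) (nat_lit 126)) (XT.lf (nat_lit 0) (nat_lit 13484983220) (nat_lit 836) (nat_lit 2405797691) (nat_lit 836) (nat_lit 275636525970) (nat_lit 96) (nat_lit 3) (nat_lit 107) (nat_lit 3) (nat_lit 107) (nat_lit 5) (nat_lit 388) (nat_lit 387) (nat_lit 125)))) (XT.nd (nat_lit 78) (nat_lit 0) (nat_lit 0) (XT.lf (nat_lit 0) (nat_lit 18015369320) (nat_lit 760) (nat_lit 158823050635) (nat_lit 836) (nat_lit 121945577270) (nat_lit 97) (nat_lit 5) (nat_lit 107) (nat_lit 5) (nat_lit 108) (nat_lit 5) (nat_lit 389) (nat_lit 387) (nat_lit 124)) (XT.nd (nat_lit 78) (nat_lit 0) (nat_lit 76) (XT.lf (nat_lit 0)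 (nat_lit 23074143029) (nat_lit 760) (nat_lit 17133134098) (nat_lit 836) (nat_lit 266181151603) (nat_lit 97) (nat_lit 5) (nat_lit 107) (nat_lit 5) (nat_lit 108) (nat_lit 5) (nat_lit 390) (nat_lit 387) (nat_lit 123)) (XT.lf (nat_lit 0) (nat_lit 32155970215) (nat_lit 760) (nat_lit 179919930658) (nat_lit 836) (nat_lit 102108675254) (nat_lit 98) (nat_lit 5) (nat_lit 108) (nat_lit 5) (nat_lit 109) (nat_lit 5) (nat_lit 391) (nat_lit 387) (nat_lit 122)))))) (XT.nd (nat_lit 390) (nat_lit 912) (nat_lit 0) (XT.nd (nat_lit 156) (nat_lit 0) (nat_lit 76) (XT.nd (nat_lit 78) (nat_lit 0) (nat_lit 76) (XT.lf (nat_lit 0) (nat_lit 42645895748) (nat_lit 760) (nat_lit 29192806926) (nat_lit 836) (nat_lit 250484127924) (nat_lit 98) (nat_lit 5) (nat_lit 108) (nat_lit 5) (nat_lit 109) (nat_lit 5) (nat_lit 392) (nat_lit 387) (nat_lit 121)) (XT.lf (nat_lit 0) (nat_lit 56953555720) (nat_lit 760) (nat_lit 198637101969)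 (nat_lit 836) (nat_lit 75112678246) (nat_lit 99) (nat_lit 5) (nat_lit 109) (nat_lit 5) (nat_lit 110) (nat_lit 5) (nat_lit 393) (nat_lit 387) (nat_lit 120))) (XT.nd (nat_lit 78) (nat_lit 0) (nat_lit 76) (XT.lf (nat_lit 0) (nat_lit 73656741960) (nat_lit 760) (nat_lit 38262229732) (nat_lit 836) (nat_lit 227499887733) (nat_lit 99) (nat_lit 5) (nat_lit 109) (nat_lit 5) (nat_lit 110) (nat_lit 5) (nat_lit 394) (nat_lit 387) (nat_lit 119)) (XT.nd (nat_lit 78) (nat_lit 0) (nat_lit 0) (XT.lf (nat_lit 0) (nat_lit 93936255709) (nat_lit 760) (nat_lit 214673441108) (nat_lit 836) (nat_lit 39823403909) (nat_lit 100) (nat_lit 5) (nat_lit 110) (nat_lit 5) (nat_lit 111) (nat_lit 5) (nat_lit 395) (nat_lit 387) (nat_lit 118)) (XT.lf (nat_lit 0) (nat_lit 117723058392) (nat_lit 760) (nat_lit 44000022781) (nat_lit 836) (nat_lit 196050307301) (nat_lit 100) (nat_lit 5) (nat_lit 110) (nat_lit 5) (nat_lit 111) (nat_lit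 5) (nat_lit 396) (nat_lit 387) (nat_lit 117))))) (XT.nd (nat_lit 234) (nat_lit 380) (nat_lit 0) (XT.nd (nat_lit 78) (nat_lit 684) (nat_lit 0) (XT.lf (nat_lit 76) (nat_lit 139677593375) (nat_lit 0) (nat_lit 5202332088) (nat_lit 836) (nat_lit 222591728975) (nat_lit 101) (nat_lit 5) (nat_lit 100) (nat_lit 5) (nat_lit 111) (nat_lit 5) (nat_lit 397) (nat_lit 387) (nat_lit 116)) (XT.nd (nat_lit 78) (nat_lit 760) (nat_lit 0) (XT.lf (nat_lit 0) (nat_lit 176636671127) (nat_lit 760) (nat_lit 46047840247) (nat_lit 76) (nat_lit 154808220605) (nat_lit 101) (nat_lit 5) (nat_lit 111) (nat_lit 5) (nat_lit 102) (nat_lit 5) (nat_lit 398) (nat_lit 387) (nat_lit 115)) (XT.lf (nat_lit 0) (nat_lit 149484827208) (nat_lit 760) (nat_lit 62915556520) (nat_lit 836) (nat_lit 175493523224) (nat_lit 91) (nat_lit 5) (nat_lit 101) (nat_lit 5) (nat_lit 102) (nat_lit 5) (nat_lit 399) (nat_lit 387) (nat_lit 114)))) (XT.nd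 (nat_lit 78) (nat_lit 380) (nat_lit 0) (XT.lf (nat_lit 0) (nat_lit 252381753306) (nat_lit 836) (nat_lit 44033032255) (nat_lit 76) (nat_lit 102278881584) (nat_lit 91) (nat_lit 5) (nat_lit 102) (nat_lit 5) (nat_lit 92) (nat_lit 5) (nat_lit 400) (nat_lit 387) (nat_lit 113)) (XT.nd (nat_lit 78) (nat_lit 0) (nat_lit 0) (XT.lf (nat_lit 0) (nat_lit 164288649806) (nat_lit 380) (nat_lit 133669921362) (nat_lit 456) (nat_lit 111895025221) (nat_lit 86) (nat_lit 5) (nat_lit 91) (nat_lit 5) (nat_lit 92) (nat_lit 5) (nat_lit 401) (nat_lit 387) (nat_lit 112)) (XT.lf (nat_lit 0) (nat_lit 347153134029) (nat_lit 456) (nat_lit 37572333107) (nat_lit 76) (nat_lit 36779109789) (nat_lit 86) (nat_lit 5) (nat_lit 92) (nat_lit 5) (nat_lit 87) (nat_lit 5) (nat_lit 402) (nat_lit 387) (nat_lit 111))))))) (XT.nd (nat_lit 858) (nat_lit 760) (nat_lit 0) (XT.nd (nat_lit 390) (nat_lit 0) (nat_lit 152) (XT.nd (nat_lit 156)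 (nat_lit 0) (nat_lit 76) (XT.nd (nat_lit 78) (nat_lit 0) (nat_lit 0) (XT.lf (nat_lit 0) (nat_lit 6907310656) (nat_lit 836) (nat_lit 71205767492) (nat_lit 836) (nat_lit 71205767492) (nat_lit 96) (nat_lit 3) (nat_lit 107) (nat_lit 3) (nat_lit 107) (nat_lit 5) (nat_lit 388) (nat_lit 388) (nat_lit 124)) (XT.lf (nat_lit 0) (nat_lit 14160693793) (nat_lit 836) (nat_lit 2525319424) (nat_lit 836) (nat_lit 289417584116) (nat_lit 96) (nat_lit 3) (nat_lit 107) (nat_lit 3) (nat_lit 107) (nat_lit 5) (nat_lit 389) (nat_lit 388) (nat_lit 123))) (XT.nd (nat_lit 78) (nat_lit 0) (nat_lit 0) (XT.lf (nat_lit 0) (nat_lit 18917531292) (nat_lit 760) (nat_lit 166763365373) (nat_lit 836) (nat_lit 128042229011) (nat_lit 97) (nat_lit 5) (nat_lit 107) (nat_lit 5) (nat_lit 108) (nat_lit 5) (nat_lit 390) (nat_lit 388) (nat_lit 122)) (XT.nd (nat_lit 78) (nat_lit 0) (nat_lit 76) (XT.lf (nat_lit 0) (nat_lit 24229177328)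 (nat_lit 760) (nat_lit 17988992905) (nat_lit 836) (nat_lit 279489611924) (nat_lit 97) (nat_lit 5) (nat_lit 107) (nat_lit 5) (nat_lit 108) (nat_lit 5) (nat_lit 391) (nat_lit 388) (nat_lit 121)) (XT.lf (nat_lit 0) (nat_lit 33765037264) (nat_lit 760) (nat_lit 188915069110) (nat_lit 836) (nat_lit 107213633559) (nat_lit 98) (nat_lit 5) (nat_lit 108) (nat_lit 5) (nat_lit 109) (nat_lit 5) (nat_lit 392) (nat_lit 388) (nat_lit 120))))) (XT.nd (nat_lit 234) (nat_lit 0) (nat_lit 152) (XT.nd (nat_lit 78) (nat_lit 0) (nat_lit 76) (XT.lf (nat_lit 0) (nat_lit 44779398667) (nat_lit 760) (nat_lit 30651630052) (nat_lit 836) (nat_lit 263007881503) (nat_lit 98) (nat_lit 5) (nat_lit 108) (nat_lit 5) (nat_lit 109) (nat_lit 5) (nat_lit 393) (nat_lit 388) (nat_lit 119)) (XT.nd (nat_lit 78) (nat_lit 0) (nat_lit 0) (XT.lf (nat_lit 0) (nat_lit 59802391055) (nat_lit 760) (nat_lit 208568087836) (nat_lit 836) (nat_lit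 78867964537) (nat_lit 99) (nat_lit 5) (nat_lit 109) (nat_lit 5) (nat_lit 110) (nat_lit 5) (nat_lit 394) (nat_lit 388) (nat_lit 118)) (XT.lf (nat_lit 0) (nat_lit 77340681484) (nat_lit 760) (nat_lit 40174513380) (nat_lit 836) (nat_lit 238874551052) (nat_lit 99) (nat_lit 5) (nat_lit 109) (nat_lit 5) (nat_lit 110) (nat_lit 5) (nat_lit 395) (nat_lit 388) (nat_lit 117)))) (XT.nd (nat_lit 78) (nat_lit 0) (nat_lit 0) (XT.lf (nat_lit 0) (nat_lit 98634127267) (nat_lit 760) (nat_lit 225406240374) (nat_lit 836) (nat_lit 41814333888) (nat_lit 100) (nat_lit 5) (nat_lit 110) (nat_lit 5) (nat_lit 111) (nat_lit 5) (nat_lit 396) (nat_lit 388) (nat_lit 116)) (XT.nd (nat_lit 78) (nat_lit 0) (nat_lit 0) (XT.lf (nat_lit 0) (nat_lit 123610219667) (nat_lit 760) (nat_lit 46199192693) (nat_lit 836) (nat_lit 205852593888) (nat_lit 100) (nat_lit 5) (nat_lit 110) (nat_lit 5) (nat_lit 111) (nat_lit 5) (nat_lit 397)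 (nat_lit 388) (nat_lit 115)) (XT.lf (nat_lit 76) (nat_lit 146662290864) (nat_lit 0) (nat_lit 5462603979) (nat_lit 836) (nat_lit 233720292488) (nat_lit 101) (nat_lit 5) (nat_lit 100) (nat_lit 5) (nat_lit 111) (nat_lit 5) (nat_lit 398) (nat_lit 388) (nat_lit 114)))))) (XT.nd (nat_lit 46254) (nat_lit 0) (nat_lit 836) (XT.nd (nat_lit 234) (nat_lit 380) (nat_lit 0) (XT.nd (nat_lit 78) (nat_lit 760) (nat_lit 0) (XT.lf (nat_lit 0) (nat_lit 185469429142) (nat_lit 760) (nat_lit 48349403618) (nat_lit 76) (nat_lit 162548488477) (nat_lit 101) (nat_lit 5) (nat_lit 111) (nat_lit 5) (nat_lit 102) (nat_lit 5) (nat_lit 399) (nat_lit 388) (nat_lit 113)) (XT.nd (nat_lit 78) (nat_lit 0) (nat_lit 0) (XT.lf (nat_lit 0) (nat_lit 156959883846) (nat_lit 760) (nat_lit 66061412235) (nat_lit 836) (nat_lit 184267260496) (nat_lit 91) (nat_lit 5) (nat_lit 101) (nat_lit 5) (nat_lit 102) (nat_lit 5) (nat_lit 400) (nat_lit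 388) (nat_lit 112)) (XT.lf (nat_lit 0) (nat_lit 265001690447) (nat_lit 836) (nat_lit 46233862709) (nat_lit 76) (nat_lit 107392753857) (nat_lit 91) (nat_lit 5) (nat_lit 102) (nat_lit 5) (nat_lit 92) (nat_lit 5) (nat_lit 401) (nat_lit 388) (nat_lit 111)))) (XT.nd (nat_lit 45864) (nat_lit 0) (nat_lit 760) (XT.lf (nat_lit 0) (nat_lit 172503890210) (nat_lit 380) (nat_lit 140353431155) (nat_lit 456) (nat_lit 117488912796) (nat_lit 86) (nat_lit 5) (nat_lit 91) (nat_lit 5) (nat_lit 92) (nat_lit 5) (nat_lit 402) (nat_lit 388) (nat_lit 110)) (XT.nd (nat_lit 78) (nat_lit 0) (nat_lit 0) (XT.lf (nat_lit 0) (nat_lit 7253372099) (nat_lit 836) (nat_lit 74765690079) (nat_lit 836) (nat_lit 74765690079) (nat_lit 96) (nat_lit 3) (nat_lit 107) (nat_lit 3) (nat_lit 107) (nat_lit 5) (nat_lit 389) (nat_lit 389) (nat_lit 122)) (XT.lf (nat_lit 0) (nat_lit 14870054027) (nat_lit 836) (nat_lit 2650888658) (nat_lit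 836) (nat_lit 303887766586) (nat_lit 96) (nat_lit 3) (nat_lit 107) (nat_lit 3) (nat_lit 107) (nat_lit 5) (nat_lit 390) (nat_lit 389) (nat_lit 121))))) (XT.nd (nat_lit 234) (nat_lit 0) (nat_lit 76) (XT.nd (nat_lit 78) (nat_lit 0) (nat_lit 0) (XT.lf (nat_lit 0) (nat_lit 19864671807) (nat_lit 760) (nat_lit 175100773739) (nat_lit 836) (nat_lit 134443771643) (nat_lit 97) (nat_lit 5) (nat_lit 107) (nat_lit 5) (nat_lit 108) (nat_lit 5) (nat_lit 391) (nat_lit 389) (nat_lit 120)) (XT.nd (nat_lit 78) (nat_lit 0) (nat_lit 76) (XT.lf (nat_lit 0) (nat_lit 25441839957) (nat_lit 760) (nat_lit 18887718833) (nat_lit 836) (nat_lit 293463550788) (nat_lit 97) (nat_lit 5) (nat_lit 107) (nat_lit 5) (nat_lit 108) (nat_lit 5) (nat_lit 392) (nat_lit 389) (nat_lit 119)) (XT.lf (nat_lit 0) (nat_lit 35454439729) (nat_lit 760) (nat_lit 198360044260) (nat_lit 836) (nat_lit 112573883983) (nat_lit 98) (nat_lit 5) (nat_lit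 108) (nat_lit 5) (nat_lit 109) (nat_lit 5) (nat_lit 393) (nat_lit 389) (nat_lit 118)))) (XT.nd (nat_lit 78) (nat_lit 0) (nat_lit 76) (XT.lf (nat_lit 0) (nat_lit 47019464411) (nat_lit 760) (nat_lit 32183470312) (nat_lit 836) (nat_lit 276157864861) (nat_lit 98) (nat_lit 5) (nat_lit 108) (nat_lit 5) (nat_lit 109) (nat_lit 5) (nat_lit 394) (nat_lit 389) (nat_lit 117)) (XT.nd (nat_lit 78) (nat_lit 0) (nat_lit 0) (XT.lf (nat_lit 0) (nat_lit 62793560538) (nat_lit 760) (nat_lit 218995703810) (nat_lit 836) (nat_lit 82811047460) (nat_lit 99) (nat_lit 5) (nat_lit 109) (nat_lit 5) (nat_lit 110) (nat_lit 5) (nat_lit 395) (nat_lit 389) (nat_lit 116)) (XT.lf (nat_lit 0) (nat_lit 81208715492) (nat_lit 760) (nat_lit 42182488174) (nat_lit 836) (nat_lit 250817978316) (nat_lit 99) (nat_lit 5) (nat_lit 109) (nat_lit 5) (nat_lit 110) (nat_lit 5) (nat_lit 396) (nat_lit 389) (nat_lit 115))))))))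
noncomputable def xc255 : XT := (XT.nd (nat_lit 93834) (nat_lit 0) (nat_lit 380) (XT.nd (nat_lit 46800) (nat_lit 0) (nat_lit 380) (XT.nd (nat_lit 46332) (nat_lit 0) (nat_lit 380) (XT.nd (nat_lit 156) (nat_lit 684) (nat_lit 0) (XT.nd (nat_lit 78) (nat_lit 0) (nat_lit 0) (XT.lf (nat_lit 0) (nat_lit 103566793968) (nat_lit 760) (nat_lit 236675760748) (nat_lit 836) (nat_lit 43904832698) (nat_lit 100) (nat_lit 5) (nat_lit 110) (nat_lit 5) (nat_lit 111) (nat_lit 5) (nat_lit 397) (nat_lit 389) (nat_lit 114)) (XT.lf (nat_lit 0) (nat_lit 129791645257) (nat_lit 760) (nat_lit 48508398380) (nat_lit 836) (nat_lit 216145016074) (nat_lit 100) (nat_lit 5) (nat_lit 110) (nat_lit 5) (nat_lit 111) (nat_lit 5) (nat_lit 398) (nat_lit 389) (nat_lit 113))) (XT.nd (nat_lit 78) (nat_lit 684) (nat_lit 0) (XT.lf (nat_lit 76) (nat_lit 153996147194) (nat_lit 0) (nat_lit 5735875026) (nat_lit 836) (nat_lit 245405379280)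 (nat_lit 101) (nat_lit 5) (nat_lit 100) (nat_lit 5) (nat_lit 111) (nat_lit 5) (nat_lit 399) (nat_lit 389) (nat_lit 112)) (XT.nd (nat_lit 78) (nat_lit 760) (nat_lit 0) (XT.lf (nat_lit 0) (nat_lit 194743739111) (nat_lit 760) (nat_lit 50766122196) (nat_lit 76) (nat_lit 170675783053) (nat_lit 101) (nat_lit 5) (nat_lit 111) (nat_lit 5) (nat_lit 102) (nat_lit 5) (nat_lit 400) (nat_lit 389) (nat_lit 111)) (XT.lf (nat_lit 0) (nat_lit 164808617518) (nat_lit 760) (nat_lit 69364553495) (nat_lit 836) (nat_lit 193479771921) (nat_lit 91) (nat_lit 5) (nat_lit 101) (nat_lit 5) (nat_lit 102) (nat_lit 5) (nat_lit 401) (nat_lit 389) (nat_lit 110))))) (XT.nd (nat_lit 234) (nat_lit 0) (nat_lit 76) (XT.nd (nat_lit 78) (nat_lit 0) (nat_lit 0) (XT.lf (nat_lit 0) (nat_lit 7616671916) (nat_lit 836) (nat_lit 78503642804) (nat_lit 836) (nat_lit 78503642804) (nat_lit 96) (nat_lit 3) (nat_lit 107) (nat_lit 3) (nat_lit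 107) (nat_lit 5) (nat_lit 390) (nat_lit 390) (nat_lit 120)) (XT.nd (nat_lit 78) (nat_lit 0) (nat_lit 76) (XT.lf (nat_lit 0) (nat_lit 15614759035) (nat_lit 836) (nat_lit 2782801131) (nat_lit 836) (nat_lit 319081522954) (nat_lit 96) (nat_lit 3) (nat_lit 107) (nat_lit 3) (nat_lit 107) (nat_lit 5) (nat_lit 391) (nat_lit 390) (nat_lit 119)) (XT.lf (nat_lit 0) (nat_lit 20859051838) (nat_lit 760) (nat_lit 183855123171) (nat_lit 836) (nat_lit 141165444290) (nat_lit 97) (nat_lit 5) (nat_lit 107) (nat_lit 5) (nat_lit 108) (nat_lit 5) (nat_lit 392) (nat_lit 390) (nat_lit 118)))) (XT.nd (nat_lit 78) (nat_lit 0) (nat_lit 76) (XT.lf (nat_lit 0) (nat_lit 26715023803) (nat_lit 760) (nat_lit 19831448342) (nat_lit 836) (nat_lit 308136236961) (nat_lit 97) (nat_lit 5) (nat_lit 107) (nat_lit 5) (nat_lit 108) (nat_lit 5) (nat_lit 393) (nat_lit 390) (nat_lit 117)) (XT.nd (nat_lit 78) (nat_lit 0) (nat_lit 0) (XT.lf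 (nat_lit 0) (nat_lit 37228205346) (nat_lit 760) (nat_lit 208277340527) (nat_lit 836) (nat_lit 118202187022) (nat_lit 98) (nat_lit 5) (nat_lit 108) (nat_lit 5) (nat_lit 109) (nat_lit 5) (nat_lit 394) (nat_lit 390) (nat_lit 116)) (XT.lf (nat_lit 0) (nat_lit 49371431565) (nat_lit 760) (nat_lit 33791971498) (nat_lit 836) (nat_lit 289965385570) (nat_lit 98) (nat_lit 5) (nat_lit 108) (nat_lit 5) (nat_lit 109) (nat_lit 5) (nat_lit 395) (nat_lit 390) (nat_lit 115)))))) (XT.nd (nat_lit 46566) (nat_lit 0) (nat_lit 0) (XT.nd (nat_lit 234) (nat_lit 228) (nat_lit 0) (XT.nd (nat_lit 78) (nat_lit 0) (nat_lit 0) (XT.lf (nat_lit 0) (nat_lit 65934190883) (nat_lit 760) (nat_lit 229944773882) (nat_lit 836) (nat_lit 86951313844) (nat_lit 99) (nat_lit 5) (nat_lit 109) (nat_lit 5) (nat_lit 110) (nat_lit 5) (nat_lit 396) (nat_lit 390) (nat_lit 114)) (XT.nd (nat_lit 78) (nat_lit 0) (nat_lit 76) (XT.lf (nat_lit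 0) (nat_lit 85270058236) (nat_lit 760) (nat_lit 44290931517) (nat_lit 836) (nat_lit 263358604861) (nat_lit 99) (nat_lit 5) (nat_lit 109) (nat_lit 5) (nat_lit 110) (nat_lit 5) (nat_lit 397) (nat_lit 390) (nat_lit 113)) (XT.lf (nat_lit 0) (nat_lit 108746004721) (nat_lit 760) (nat_lit 248508830741) (nat_lit 836) (nat_lit 46099876706) (nat_lit 100) (nat_lit 5) (nat_lit 110) (nat_lit 5) (nat_lit 111) (nat_lit 5) (nat_lit 398) (nat_lit 390) (nat_lit 112)))) (XT.nd (nat_lit 78) (nat_lit 304) (nat_lit 0) (XT.lf (nat_lit 0) (nat_lit 136282057096) (nat_lit 760) (nat_lit 50933134446) (nat_lit 836) (nat_lit 226952078661) (nat_lit 100) (nat_lit 5) (nat_lit 110) (nat_lit 5) (nat_lit 111) (nat_lit 5) (nat_lit 399) (nat_lit 390) (nat_lit 111)) (XT.nd (nat_lit 46176) (nat_lit 304) (nat_lit 0) (XT.lf (nat_lit 76) (nat_lit 161696627377) (nat_lit 0) (nat_lit 6022796532) (nat_lit 836) (nat_lit 257674806672)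 (nat_lit 101) (nat_lit 5) (nat_lit 100) (nat_lit 5) (nat_lit 111) (nat_lit 5) (nat_lit 400) (nat_lit 390) (nat_lit 110)) (XT.lf (nat_lit 0) (nat_lit 7998078039) (nat_lit 836) (nat_lit 82428524011) (nat_lit 836) (nat_lit 82428524011) (nat_lit 96) (nat_lit 3) (nat_lit 107) (nat_lit 3) (nat_lit 107) (nat_lit 5) (nat_lit 391) (nat_lit 391) (nat_lit 118))))) (XT.nd (nat_lit 234) (nat_lit 0) (nat_lit 152) (XT.nd (nat_lit 78) (nat_lit 0) (nat_lit 76) (XT.lf (nat_lit 0) (nat_lit 16396587515) (nat_lit 836) (nat_lit 2921367980) (nat_lit 836) (nat_lit 335035025895) (nat_lit 96) (nat_lit 3) (nat_lit 107) (nat_lit 3) (nat_lit 107) (nat_lit 5) (nat_lit 392) (nat_lit 391) (nat_lit 117)) (XT.nd (nat_lit 78) (nat_lit 0) (nat_lit 0) (XT.lf (nat_lit 0) (nat_lit 21903044285) (nat_lit 760) (nat_lit 193047254156) (nat_lit 836) (nat_lit 148223248536) (nat_lit 97) (nat_lit 5) (nat_lit 107) (nat_lit 5) (nat_lit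 108) (nat_lit 5) (nat_lit 393) (nat_lit 391) (nat_lit 116)) (XT.lf (nat_lit 0) (nat_lit 28051765332) (nat_lit 760) (nat_lit 20822425355) (nat_lit 836) (nat_lit 323542603125) (nat_lit 97) (nat_lit 5) (nat_lit 107) (nat_lit 5) (nat_lit 108) (nat_lit 5) (nat_lit 394) (nat_lit 391) (nat_lit 115)))) (XT.nd (nat_lit 78) (nat_lit 0) (nat_lit 0) (XT.lf (nat_lit 0) (nat_lit 39090562216) (nat_lit 760) (nat_lit 218690567240) (nat_lit 836) (nat_lit 124111941580) (nat_lit 98) (nat_lit 5) (nat_lit 108) (nat_lit 5) (nat_lit 109) (nat_lit 5) (nat_lit 395) (nat_lit 391) (nat_lit 114)) (XT.nd (nat_lit 78) (nat_lit 0) (nat_lit 76) (XT.lf (nat_lit 0) (nat_lit 51840904670) (nat_lit 760) (nat_lit 35480960251) (nat_lit 836) (nat_lit 304463316950) (nat_lit 98) (nat_lit 5) (nat_lit 108) (nat_lit 5) (nat_lit 109) (nat_lit 5) (nat_lit 396) (nat_lit 391) (nat_lit 113)) (XT.lf (nat_lit 0) (nat_lit 69231764207) (nat_lit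 760) (nat_lit 241441363942) (nat_lit 836) (nat_lit 91298620136) (nat_lit 99) (nat_lit 5) (nat_lit 109) (nat_lit 5) (nat_lit 110) (nat_lit 5) (nat_lit 397) (nat_lit 391) (nat_lit 112))))))) (XT.nd (nat_lit 93366) (nat_lit 0) (nat_lit 0) (XT.nd (nat_lit 46566) (nat_lit 0) (nat_lit 76) (XT.nd (nat_lit 156) (nat_lit 228) (nat_lit 0) (XT.nd (nat_lit 78) (nat_lit 0) (nat_lit 76) (XT.lf (nat_lit 0) (nat_lit 89534383796) (nat_lit 760) (nat_lit 46504860347) (nat_lit 836) (nat_lit 276526288056) (nat_lit 99) (nat_lit 5) (nat_lit 109) (nat_lit 5) (nat_lit 110) (nat_lit 5) (nat_lit 398) (nat_lit 391) (nat_lit 111)) (XT.lf (nat_lit 0) (nat_lit 114184095030) (nat_lit 760) (nat_lit 260933620989) (nat_lit 836) (nat_lit 48404691288) (nat_lit 100) (nat_lit 5) (nat_lit 110) (nat_lit 5) (nat_lit 111) (nat_lit 5) (nat_lit 399) (nat_lit 391) (nat_lit 110))) (XT.nd (nat_lit 46254) (nat_lit 304) (nat_lit 0) (XT.lf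 (nat_lit 0) (nat_lit 143096912401) (nat_lit 760) (nat_lit 53479170894) (nat_lit 836) (nat_lit 238299511876) (nat_lit 100) (nat_lit 5) (nat_lit 110) (nat_lit 5) (nat_lit 111) (nat_lit 5) (nat_lit 400) (nat_lit 391) (nat_lit 109)) (XT.nd (nat_lit 78) (nat_lit 0) (nat_lit 0) (XT.lf (nat_lit 0) (nat_lit 8398501240) (nat_lit 836) (nat_lit 86549677256) (nat_lit 836) (nat_lit 86549677256) (nat_lit 96) (nat_lit 3) (nat_lit 107) (nat_lit 3) (nat_lit 107) (nat_lit 5) (nat_lit 392) (nat_lit 392) (nat_lit 116)) (XT.lf (nat_lit 0) (nat_lit 17217406032) (nat_lit 836) (nat_lit 3066916464) (nat_lit 836) (nat_lit 351786257275) (nat_lit 96) (nat_lit 3) (nat_lit 107) (nat_lit 3) (nat_lit 107) (nat_lit 5) (nat_lit 393) (nat_lit 392) (nat_lit 115))))) (XT.nd (nat_lit 234) (nat_lit 0) (nat_lit 76) (XT.nd (nat_lit 78) (nat_lit 0) (nat_lit 0) (XT.lf (nat_lit 0) (nat_lit 22999139679) (nat_lit 760) (nat_lit 202699049812)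 (nat_lit 836) (nat_lit 155633986502) (nat_lit 97) (nat_lit 5) (nat_lit 107) (nat_lit 5) (nat_lit 108) (nat_lit 5) (nat_lit 394) (nat_lit 392) (nat_lit 114)) (XT.nd (nat_lit 78) (nat_lit 0) (nat_lit 76) (XT.lf (nat_lit 0) (nat_lit 29455251864) (nat_lit 760) (nat_lit 21863006573) (nat_lit 836) (nat_lit 339719329032) (nat_lit 97) (nat_lit 5) (nat_lit 107) (nat_lit 5) (nat_lit 108) (nat_lit 5) (nat_lit 395) (nat_lit 392) (nat_lit 113)) (XT.lf (nat_lit 0) (nat_lit 41045948923) (nat_lit 760) (nat_lit 229624514818) (nat_lit 836) (nat_lit 130317216850) (nat_lit 98) (nat_lit 5) (nat_lit 108) (nat_lit 5) (nat_lit 109) (nat_lit 5) (nat_lit 396) (nat_lit 392) (nat_lit 112)))) (XT.nd (nat_lit 78) (nat_lit 0) (nat_lit 76) (XT.lf (nat_lit 0) (nat_lit 54433767615) (nat_lit 760) (nat_lit 37254455136) (nat_lit 836) (nat_lit 319686176314) (nat_lit 98) (nat_lit 5) (nat_lit 108) (nat_lit 5) (nat_lit 109) (nat_lit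 5) (nat_lit 397) (nat_lit 392) (nat_lit 111)) (XT.nd (nat_lit 78) (nat_lit 0) (nat_lit 0) (XT.lf (nat_lit 0) (nat_lit 72694135892) (nat_lit 760) (nat_lit 253512843809) (nat_lit 836) (nat_lit 95863315859) (nat_lit 99) (nat_lit 5) (nat_lit 109) (nat_lit 5) (nat_lit 110) (nat_lit 5) (nat_lit 398) (nat_lit 392) (nat_lit 110)) (XT.lf (nat_lit 0) (nat_lit 94011849152) (nat_lit 760) (nat_lit 48829543050) (nat_lit 836) (nat_lit 290352378379) (nat_lit 99) (nat_lit 5) (nat_lit 109) (nat_lit 5) (nat_lit 110) (nat_lit 5) (nat_lit 399) (nat_lit 392) (nat_lit 109)))))) (XT.nd (nat_lit 46956) (nat_lit 0) (nat_lit 0) (XT.nd (nat_lit 234) (nat_lit 0) (nat_lit 76) (XT.nd (nat_lit 78) (nat_lit 0) (nat_lit 0) (XT.lf (nat_lit 0) (nat_lit 8818897321) (nat_lit 836) (nat_lit 90876913540) (nat_lit 836) (nat_lit 90876913540) (nat_lit 96) (nat_lit 3) (nat_lit 107) (nat_lit 3) (nat_lit 107) (nat_lit 5) (nat_lit 393)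 (nat_lit 393) (nat_lit 114)) (XT.nd (nat_lit 78) (nat_lit 0) (nat_lit 76) (XT.lf (nat_lit 0) (nat_lit 18079173514) (nat_lit 836) (nat_lit 3219790708) (nat_lit 836) (nat_lit 369375098560) (nat_lit 96) (nat_lit 3) (nat_lit 107) (nat_lit 3) (nat_lit 107) (nat_lit 5) (nat_lit 394) (nat_lit 393) (nat_lit 113)) (XT.lf (nat_lit 0) (nat_lit 24149952155) (nat_lit 760) (nat_lit 212833487970) (nat_lit 836) (nat_lit 163415300828) (nat_lit 97) (nat_lit 5) (nat_lit 107) (nat_lit 5) (nat_lit 108) (nat_lit 5) (nat_lit 395) (nat_lit 393) (nat_lit 112)))) (XT.nd (nat_lit 78) (nat_lit 0) (nat_lit 76) (XT.lf (nat_lit 0) (nat_lit 30928829211) (nat_lit 760) (nat_lit 22955667062) (nat_lit 836) (nat_lit 356704928818) (nat_lit 97) (nat_lit 5) (nat_lit 107) (nat_lit 5) (nat_lit 108) (nat_lit 5) (nat_lit 396) (nat_lit 393) (nat_lit 111)) (XT.nd (nat_lit 78) (nat_lit 0) (nat_lit 0) (XT.lf (nat_lit 0) (nat_lit 43099025142)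 (nat_lit 760) (nat_lit 241105213772) (nat_lit 836) (nat_lit 136832785803) (nat_lit 98) (nat_lit 5) (nat_lit 108) (nat_lit 5) (nat_lit 109) (nat_lit 5) (nat_lit 397) (nat_lit 393) (nat_lit 110)) (XT.lf (nat_lit 0) (nat_lit 57156197684) (nat_lit 760) (nat_lit 39116676190) (nat_lit 836) (nat_lit 335670207139) (nat_lit 98) (nat_lit 5) (nat_lit 108) (nat_lit 5) (nat_lit 109) (nat_lit 5) (nat_lit 398) (nat_lit 393) (nat_lit 109))))) (XT.nd (nat_lit 234) (nat_lit 0) (nat_lit 0) (XT.nd (nat_lit 78) (nat_lit 0) (nat_lit 0) (XT.lf (nat_lit 0) (nat_lit 9260269416) (nat_lit 836) (nat_lit 95420534655) (nat_lit 836) (nat_lit 95420534655) (nat_lit 96) (nat_lit 3) (nat_lit 107) (nat_lit 3) (nat_lit 107) (nat_lit 5) (nat_lit 394) (nat_lit 394) (nat_lit 112)) (XT.nd (nat_lit 78) (nat_lit 0) (nat_lit 76) (XT.lf (nat_lit 0) (nat_lit 18983945958) (nat_lit 836) (nat_lit 3380352508) (nat_lit 836) (nat_lit 387843425752)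 (nat_lit 96) (nat_lit 3) (nat_lit 107) (nat_lit 3) (nat_lit 107) (nat_lit 5) (nat_lit 395) (nat_lit 394) (nat_lit 111)) (XT.lf (nat_lit 0) (nat_lit 25358225718) (nat_lit 760) (nat_lit 223474695854) (nat_lit 836) (nat_lit 171585716664) (nat_lit 97) (nat_lit 5) (nat_lit 107) (nat_lit 5) (nat_lit 108) (nat_lit 5) (nat_lit 396) (nat_lit 394) (nat_lit 110)))) (XT.nd (nat_lit 46722) (nat_lit 76) (nat_lit 0) (XT.lf (nat_lit 0) (nat_lit 32476009678) (nat_lit 760) (nat_lit 24103006115) (nat_lit 836) (nat_lit 374539842683) (nat_lit 97) (nat_lit 5) (nat_lit 107) (nat_lit 5) (nat_lit 108) (nat_lit 5) (nat_lit 397) (nat_lit 394) (nat_lit 109)) (XT.nd (nat_lit 78) (nat_lit 0) (nat_lit 0) (XT.lf (nat_lit 0) (nat_lit 9723670396) (nat_lit 836) (nat_lit 100191357705) (nat_lit 836) (nat_lit 100191357705) (nat_lit 96) (nat_lit 3) (nat_lit 107) (nat_lit 3) (nat_lit 107) (nat_lit 5) (nat_lit 395) (nat_lit 395)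 (nat_lit 110)) (XT.lf (nat_lit 0) (nat_lit 19933881369) (nat_lit 836) (nat_lit 3548982165) (nat_lit 836) (nat_lit 407235209070) (nat_lit 96) (nat_lit 3) (nat_lit 107) (nat_lit 3) (nat_lit 107) (nat_lit 5) (nat_lit 396) (nat_lit 395) (nat_lit 109))))))))

set_option maxRecDepth 10000000 in
noncomputable def Tp : PT := (PT.nd (nat_lit 7229898) (PT.nd (nat_lit 6715332) (PT.nd (nat_lit 6200220) (PT.nd (nat_lit 5685108) pc0 pc1) (PT.nd (nat_lit 281268) pc2 pc3)) (PT.nd (nat_lit 281268) (PT.nd (nat_lit 140946) pc4 pc5) (PT.nd (nat_lit 139542) pc6 pc7))) (PT.nd (nat_lit 281970) (PT.nd (nat_lit 141648) (PT.nd (nat_lit 48672) pc8 pc9) (PT.nd (nat_lit 92352) pc10 pc11)) (PT.nd (nat_lit 232128) (PT.nd (nat_lit 92352) pc12 pc13) (PT.nd (nat_lit 187044) pc14 pc15))))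

set_option maxRecDepth 10000000 in
noncomputable def Tx : XT := (XT.nd (nat_lit 10956426) (nat_lit 0) (nat_lit 76) XT.nil (XT.nd (nat_lit 7591350) (nat_lit 0) (nat_lit 0) (XT.nd (nat_lit 3600324) (nat_lit 0) (nat_lit 152) (XT.nd (nat_lit 2480634) (nat_lit 0) (nat_lit 76) (XT.nd (nat_lit 1732458) (nat_lit 0) (nat_lit 76) (XT.nd (nat_lit 1216332) (nat_lit 0) (nat_lit 0) (XT.nd (nat_lit 842400) (nat_lit 0) (nat_lit 0) (XT.nd (nat_lit 562536) (nat_lit 0) (nat_lit 0) (XT.nd (nat_lit 420498) (nat_lit 0) (nat_lit 0) (XT.nd (nat_lit 280566) (nat_lit 0) (nat_lit 0) xc0 xc1) (XT.nd (nat_lit 93678) (nat_lit 0) (nat_lit 0) xc2 xc3)) (XT.nd (nat_lit 140634) (nat_lit 0) (nat_lit 0) (XT.nd (nat_lit 92742) (nat_lit 0) (nat_lit 0) xc4 xc5) (XT.nd (nat_lit 91806) (nat_lit 0) (nat_lit 0) xc6 xc7))) (XT.nd (nat_lit 188136) (nat_lit 0) (nat_lit 0) (XT.nd (nat_lit 94380) (nat_lit 0) (nat_lit 0) (XT.nd (nat_lit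 47268) (nat_lit 0) (nat_lit 0) xc8 xc9) (XT.nd (nat_lit 46956) (nat_lit 0) (nat_lit 0) xc10 xc11)) (XT.nd (nat_lit 93132) (nat_lit 0) (nat_lit 0) (XT.nd (nat_lit 46644) (nat_lit 0) (nat_lit 0) xc12 xc13) (XT.nd (nat_lit 46410) (nat_lit 0) (nat_lit 0) xc14 xc15)))) (XT.nd (nat_lit 281268) (nat_lit 0) (nat_lit 76) (XT.nd (nat_lit 141336) (nat_lit 0) (nat_lit 76) (XT.nd (nat_lit 92040) (nat_lit 0) (nat_lit 0) (XT.nd (nat_lit 46098) (nat_lit 0) (nat_lit 0) xc16 xc17) (XT.nd (nat_lit 3510) (nat_lit 76) (nat_lit 0) xc18 xc19)) (XT.nd (nat_lit 91104) (nat_lit 0) (nat_lit 0) (XT.nd (nat_lit 45630) (nat_lit 0) (nat_lit 0) xc20 xc21) (XT.nd (nat_lit 3510) (nat_lit 0) (nat_lit 0) xc22 xc23))) (XT.nd (nat_lit 138528) (nat_lit 0) (nat_lit 0) (XT.nd (nat_lit 48672) (nat_lit 0) (nat_lit 0) (XT.nd (nat_lit 45162) (nat_lit 0) (nat_lit 0) xc24 xc25) (XT.nd (nat_lit 45006) (nat_lit 0) (nat_lit 0) xc26 xc27))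 (XT.nd (nat_lit 48204) (nat_lit 0) (nat_lit 0) (XT.nd (nat_lit 3510) (nat_lit 0) (nat_lit 0) xc28 xc29) (XT.nd (nat_lit 44538) (nat_lit 0) (nat_lit 0) xc30 xc31))))) (XT.nd (nat_lit 418470) (nat_lit 0) (nat_lit 0) (XT.nd (nat_lit 230880) (nat_lit 0) (nat_lit 0) (XT.nd (nat_lit 95628) (nat_lit 0) (nat_lit 0) (XT.nd (nat_lit 47892) (nat_lit 0) (nat_lit 0) (XT.nd (nat_lit 44382) (nat_lit 0) (nat_lit 0) xc32 xc33) (XT.nd (nat_lit 44226) (nat_lit 0) (nat_lit 0) xc34 xc35)) (XT.nd (nat_lit 87984) (nat_lit 0) (nat_lit 0) (XT.nd (nat_lit 44070) (nat_lit 0) (nat_lit 0) xc36 xc37) (XT.nd (nat_lit 3510) (nat_lit 0) (nat_lit 0) xc38 xc39))) (XT.nd (nat_lit 94068) (nat_lit 0) (nat_lit 0) (XT.nd (nat_lit 47112) (nat_lit 0) (nat_lit 0) (XT.nd (nat_lit 3510) (nat_lit 0) (nat_lit 0) xc40 xc41) (XT.nd (nat_lit 3510) (nat_lit 0) (nat_lit 0) xc42 xc43)) (XT.nd (nat_lit 46800) (nat_lit 0) (nat_lit 0) (XT.nd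 (nat_lit 3510) (nat_lit 0) (nat_lit 0) xc44 xc45) (XT.nd (nat_lit 3510) (nat_lit 0) (nat_lit 0) xc46 xc47)))) (XT.nd (nat_lit 185250) (nat_lit 0) (nat_lit 0) (XT.nd (nat_lit 92898) (nat_lit 0) (nat_lit 0) (XT.nd (nat_lit 46488) (nat_lit 0) (nat_lit 0) (XT.nd (nat_lit 3510) (nat_lit 0) (nat_lit 0) xc48 xc49) (XT.nd (nat_lit 3510) (nat_lit 0) (nat_lit 0) xc50 xc51)) (XT.nd (nat_lit 46254) (nat_lit 0) (nat_lit 0) (XT.nd (nat_lit 3510) (nat_lit 152) (nat_lit 0) xc52 xc53) (XT.nd (nat_lit 3510) (nat_lit 228) (nat_lit 0) xc54 xc55))) (XT.nd (nat_lit 52962) (nat_lit 0) (nat_lit 0) (XT.nd (nat_lit 7020) (nat_lit 0) (nat_lit 0) (XT.nd (nat_lit 3510) (nat_lit 380) (nat_lit 0) xc56 xc57) (XT.nd (nat_lit 42432) (nat_lit 0) (nat_lit 0) xc58 xc59)) (XT.nd (nat_lit 45786) (nat_lit 0) (nat_lit 0) (XT.nd (nat_lit 42276) (nat_lit 0) (nat_lit 152) xc60 xc61) (XT.nd (nat_lit 42120) (nat_lit 0) (nat_lit 380)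 xc62 xc63)))))) (XT.nd (nat_lit 564018) (nat_lit 0) (nat_lit 0) (XT.nd (nat_lit 284622) (nat_lit 0) (nat_lit 0) (XT.nd (nat_lit 142974) (nat_lit 0) (nat_lit 0) (XT.nd (nat_lit 90792) (nat_lit 0) (nat_lit 0) (XT.nd (nat_lit 45474) (nat_lit 0) (nat_lit 0) (XT.nd (nat_lit 3510) (nat_lit 0) (nat_lit 0) xc64 xc65) (XT.nd (nat_lit 3510) (nat_lit 0) (nat_lit 0) xc66 xc67)) (XT.nd (nat_lit 45162) (nat_lit 0) (nat_lit 0) (XT.nd (nat_lit 3510) (nat_lit 228) (nat_lit 0) xc68 xc69) (XT.nd (nat_lit 3510) (nat_lit 760) (nat_lit 0) xc70 xc71))) (XT.nd (nat_lit 89856) (nat_lit 0) (nat_lit 0) (XT.nd (nat_lit 45006) (nat_lit 0) (nat_lit 0) (XT.nd (nat_lit 41496) (nat_lit 0) (nat_lit 228) xc72 xc73) (XT.nd (nat_lit 41340) (nat_lit 0) (nat_lit 988) xc74 xc75)) (XT.nd (nat_lit 44694) (nat_lit 0) (nat_lit 0) (XT.nd (nat_lit 3510) (nat_lit 152) (nat_lit 0) xc76 xc77) (XT.nd (nat_lit 3510) (nat_lit 456) (nat_lit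 0) xc78 xc79)))) (XT.nd (nat_lit 140322) (nat_lit 0) (nat_lit 0) (XT.nd (nat_lit 88998) (nat_lit 0) (nat_lit 0) (XT.nd (nat_lit 44538) (nat_lit 0) (nat_lit 0) (XT.nd (nat_lit 41028) (nat_lit 0) (nat_lit 228) xc80 xc81) (XT.nd (nat_lit 40950) (nat_lit 0) (nat_lit 988) xc82 xc83)) (XT.nd (nat_lit 44304) (nat_lit 0) (nat_lit 0) (XT.nd (nat_lit 3510) (nat_lit 152) (nat_lit 0) xc84 xc85) (XT.nd (nat_lit 3510) (nat_lit 684) (nat_lit 0) xc86 xc87))) (XT.nd (nat_lit 88140) (nat_lit 0) (nat_lit 0) (XT.nd (nat_lit 44148) (nat_lit 0) (nat_lit 0) (XT.nd (nat_lit 40638) (nat_lit 0) (nat_lit 456) xc88 xc89) (XT.nd (nat_lit 40482) (nat_lit 0) (nat_lit 1976) xc90 xc91)) (XT.nd (nat_lit 43836) (nat_lit 0) (nat_lit 228) (XT.nd (nat_lit 3510) (nat_lit 304) (nat_lit 0) xc92 xc93) (XT.nd (nat_lit 3510) (nat_lit 1444) (nat_lit 0) xc94 xc95))))) (XT.nd (nat_lit 276354) (nat_lit 0) (nat_lit 0) (XT.nd (nat_lit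 137826) (nat_lit 0) (nat_lit 0) (XT.nd (nat_lit 87204) (nat_lit 0) (nat_lit 0) (XT.nd (nat_lit 43680) (nat_lit 0) (nat_lit 0) (XT.nd (nat_lit 40170) (nat_lit 0) (nat_lit 1368) xc96 xc97) (XT.nd (nat_lit 3510) (nat_lit 228) (nat_lit 0) xc98 xc99)) (XT.nd (nat_lit 7020) (nat_lit 152) (nat_lit 0) (XT.nd (nat_lit 3510) (nat_lit 1216) (nat_lit 0) xc100 xc101) (XT.nd (nat_lit 40092) (nat_lit 0) (nat_lit 1216) xc102 xc103))) (XT.nd (nat_lit 50700) (nat_lit 0) (nat_lit 0) (XT.nd (nat_lit 43680) (nat_lit 0) (nat_lit 152) (XT.nd (nat_lit 3510) (nat_lit 152) (nat_lit 0) xc104 xc105) (XT.nd (nat_lit 3510) (nat_lit 988) (nat_lit 0) xc106 xc107)) (XT.nd (nat_lit 43836) (nat_lit 0) (nat_lit 0) (XT.nd (nat_lit 40326) (nat_lit 0) (nat_lit 912) xc108 xc109) (XT.nd (nat_lit 3510) (nat_lit 152) (nat_lit 0) xc110 xc111)))) (XT.nd (nat_lit 139230) (nat_lit 0) (nat_lit 0) (XT.nd (nat_lit 51012) (nat_lit 0) (nat_lit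 0) (XT.nd (nat_lit 7020) (nat_lit 0) (nat_lit 0) (XT.nd (nat_lit 3510) (nat_lit 684) (nat_lit 0) xc112 xc113) (XT.nd (nat_lit 40482) (nat_lit 0) (nat_lit 456) xc114 xc115)) (XT.nd (nat_lit 44070) (nat_lit 0) (nat_lit 0) (XT.nd (nat_lit 40560) (nat_lit 0) (nat_lit 2052) xc116 xc117) (XT.nd (nat_lit 3510) (nat_lit 380) (nat_lit 0) xc118 xc119))) (XT.nd (nat_lit 51246) (nat_lit 0) (nat_lit 0) (XT.nd (nat_lit 7020) (nat_lit 228) (nat_lit 0) (XT.nd (nat_lit 3510) (nat_lit 1216) (nat_lit 0) xc120 xc121) (XT.nd (nat_lit 40716) (nat_lit 0) (nat_lit 1064) xc122 xc123)) (XT.nd (nat_lit 44304) (nat_lit 0) (nat_lit 76) (XT.nd (nat_lit 3510) (nat_lit 152) (nat_lit 0) xc124 xc125) (XT.nd (nat_lit 3510) (nat_lit 608) (nat_lit 0) xc126 xc127))))))) (XT.nd (nat_lit 1268592) (nat_lit 0) (nat_lit 380) (XT.nd (nat_lit 568230) (nat_lit 0) (nat_lit 152) (XT.nd (nat_lit 282516) (nat_lit 0) (nat_lit 76) (XT.nd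 (nat_lit 140868) (nat_lit 0) (nat_lit 76) (XT.nd (nat_lit 51558) (nat_lit 0) (nat_lit 76) (XT.nd (nat_lit 7020) (nat_lit 304) (nat_lit 0) (XT.nd (nat_lit 3510) (nat_lit 1672) (nat_lit 0) xc128 xc129) (XT.nd (nat_lit 41028) (nat_lit 0) (nat_lit 1216) xc130 xc131)) (XT.nd (nat_lit 44616) (nat_lit 0) (nat_lit 0) (XT.nd (nat_lit 3510) (nat_lit 0) (nat_lit 0) xc132 xc133) (XT.nd (nat_lit 3510) (nat_lit 608) (nat_lit 0) xc134 xc135))) (XT.nd (nat_lit 51792) (nat_lit 0) (nat_lit 0) (XT.nd (nat_lit 7020) (nat_lit 228) (nat_lit 0) (XT.nd (nat_lit 3510) (nat_lit 1672) (nat_lit 0) xc136 xc137) (XT.nd (nat_lit 41262) (nat_lit 0) (nat_lit 988) xc138 xc139)) (XT.nd (nat_lit 44850) (nat_lit 0) (nat_lit 0) (XT.nd (nat_lit 3510) (nat_lit 0) (nat_lit 0) xc140 xc141) (XT.nd (nat_lit 3510) (nat_lit 456) (nat_lit 0) xc142 xc143)))) (XT.nd (nat_lit 142428) (nat_lit 0) (nat_lit 0) (XT.nd (nat_lit 52026) (nat_lit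 0) (nat_lit 0) (XT.nd (nat_lit 7020) (nat_lit 76) (nat_lit 0) (XT.nd (nat_lit 3510) (nat_lit 1216) (nat_lit 0) xc144 xc145) (XT.nd (nat_lit 41496) (nat_lit 0) (nat_lit 532) xc146 xc147)) (XT.nd (nat_lit 45162) (nat_lit 0) (nat_lit 0) (XT.nd (nat_lit 41652) (nat_lit 0) (nat_lit 1520) xc148 xc149) (XT.nd (nat_lit 3510) (nat_lit 76) (nat_lit 0) xc150 xc151))) (XT.nd (nat_lit 52338) (nat_lit 0) (nat_lit 0) (XT.nd (nat_lit 45318) (nat_lit 0) (nat_lit 76) (XT.nd (nat_lit 3510) (nat_lit 532) (nat_lit 0) xc152 xc153) (XT.nd (nat_lit 3510) (nat_lit 1216) (nat_lit 0) xc154 xc155)) (XT.nd (nat_lit 45396) (nat_lit 0) (nat_lit 0) (XT.nd (nat_lit 41886) (nat_lit 0) (nat_lit 456) xc156 xc157) (XT.nd (nat_lit 41964) (nat_lit 0) (nat_lit 1064) xc158 xc159))))) (XT.nd (nat_lit 327990) (nat_lit 0) (nat_lit 0) (XT.nd (nat_lit 182832) (nat_lit 0) (nat_lit 0) (XT.nd (nat_lit 91182) (nat_lit 0) (nat_lit 0) (XT.nd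 (nat_lit 45552) (nat_lit 0) (nat_lit 0) (XT.nd (nat_lit 42042) (nat_lit 0) (nat_lit 1976) xc160 xc161) (XT.nd (nat_lit 3510) (nat_lit 152) (nat_lit 0) xc162 xc163)) (XT.nd (nat_lit 45786) (nat_lit 0) (nat_lit 0) (XT.nd (nat_lit 3510) (nat_lit 608) (nat_lit 0) xc164 xc165) (XT.nd (nat_lit 3510) (nat_lit 1216) (nat_lit 0) xc166 xc167))) (XT.nd (nat_lit 52962) (nat_lit 0) (nat_lit 0) (XT.nd (nat_lit 7020) (nat_lit 228) (nat_lit 0) (XT.nd (nat_lit 3510) (nat_lit 1900) (nat_lit 0) xc168 xc169) (XT.nd (nat_lit 42432) (nat_lit 0) (nat_lit 456) xc170 xc171)) (XT.nd (nat_lit 46020) (nat_lit 0) (nat_lit 0) (XT.nd (nat_lit 42510) (nat_lit 0) (nat_lit 912) xc172 xc173) (XT.nd (nat_lit 42588) (nat_lit 0) (nat_lit 1444) xc174 xc175)))) (XT.nd (nat_lit 185406) (nat_lit 0) (nat_lit 152) (XT.nd (nat_lit 92508) (nat_lit 0) (nat_lit 152) (XT.nd (nat_lit 46176) (nat_lit 0) (nat_lit 76) (XT.nd (nat_lit 42666)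 (nat_lit 0) (nat_lit 2128) xc176 xc177) (XT.nd (nat_lit 3510) (nat_lit 152) (nat_lit 0) xc178 xc179)) (XT.nd (nat_lit 46410) (nat_lit 0) (nat_lit 0) (XT.nd (nat_lit 3510) (nat_lit 228) (nat_lit 0) xc180 xc181) (XT.nd (nat_lit 3510) (nat_lit 456) (nat_lit 0) xc182 xc183))) (XT.nd (nat_lit 93210) (nat_lit 0) (nat_lit 76) (XT.nd (nat_lit 46566) (nat_lit 0) (nat_lit 0) (XT.nd (nat_lit 3510) (nat_lit 608) (nat_lit 0) xc184 xc185) (XT.nd (nat_lit 3510) (nat_lit 836) (nat_lit 0) xc186 xc187)) (XT.nd (nat_lit 46800) (nat_lit 0) (nat_lit 0) (XT.nd (nat_lit 3510) (nat_lit 912) (nat_lit 0) xc188 xc189) (XT.nd (nat_lit 3510) (nat_lit 988) (nat_lit 0) xc190 xc191)))))) (XT.nd (nat_lit 846222) (nat_lit 0) (nat_lit 684) (XT.nd (nat_lit 378378) (nat_lit 0) (nat_lit 228) (XT.nd (nat_lit 188370) (nat_lit 0) (nat_lit 152) (XT.nd (nat_lit 93990) (nat_lit 0) (nat_lit 0) (XT.nd (nat_lit 46956) (nat_lit 0) (nat_lit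 0) (XT.nd (nat_lit 3510) (nat_lit 988) (nat_lit 0) xc192 xc193) (XT.nd (nat_lit 3510) (nat_lit 988) (nat_lit 0) xc194 xc195)) (XT.nd (nat_lit 47112) (nat_lit 0) (nat_lit 76) (XT.nd (nat_lit 3510) (nat_lit 988) (nat_lit 0) xc196 xc197) (XT.nd (nat_lit 3510) (nat_lit 836) (nat_lit 0) xc198 xc199))) (XT.nd (nat_lit 94770) (nat_lit 0) (nat_lit 0) (XT.nd (nat_lit 47346) (nat_lit 0) (nat_lit 0) (XT.nd (nat_lit 3510) (nat_lit 532) (nat_lit 0) xc200 xc201) (XT.nd (nat_lit 3510) (nat_lit 380) (nat_lit 0) xc202 xc203)) (XT.nd (nat_lit 47502) (nat_lit 0) (nat_lit 76) (XT.nd (nat_lit 3510) (nat_lit 152) (nat_lit 0) xc204 xc205) (XT.nd (nat_lit 44148) (nat_lit 0) (nat_lit 1368) xc206 xc207)))) (XT.nd (nat_lit 232596) (nat_lit 0) (nat_lit 228) (XT.nd (nat_lit 95550) (nat_lit 0) (nat_lit 76) (XT.nd (nat_lit 47736) (nat_lit 0) (nat_lit 0) (XT.nd (nat_lit 44226) (nat_lit 0) (nat_lit 760) xc208 xc209) (XT.nd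 (nat_lit 44304) (nat_lit 0) (nat_lit 304) xc210 xc211)) (XT.nd (nat_lit 88920) (nat_lit 0) (nat_lit 152) (XT.nd (nat_lit 44382) (nat_lit 0) (nat_lit 76) xc212 xc213) (XT.nd (nat_lit 3510) (nat_lit 1064) (nat_lit 0) xc214 xc215))) (XT.nd (nat_lit 96564) (nat_lit 0) (nat_lit 76) (XT.nd (nat_lit 48204) (nat_lit 0) (nat_lit 76) (XT.nd (nat_lit 3510) (nat_lit 228) (nat_lit 0) xc216 xc217) (XT.nd (nat_lit 44850) (nat_lit 0) (nat_lit 760) xc218 xc219)) (XT.nd (nat_lit 89934) (nat_lit 0) (nat_lit 152) (XT.nd (nat_lit 44928) (nat_lit 0) (nat_lit 76) xc220 xc221) (XT.nd (nat_lit 3510) (nat_lit 912) (nat_lit 0) xc222 xc223))))) (XT.nd (nat_lit 564096) (nat_lit 0) (nat_lit 912) (XT.nd (nat_lit 280020) (nat_lit 0) (nat_lit 304) (XT.nd (nat_lit 139542) (nat_lit 0) (nat_lit 228) (XT.nd (nat_lit 48750) (nat_lit 0) (nat_lit 76) (XT.nd (nat_lit 45240) (nat_lit 0) (nat_lit 912) xc224 xc225) (XT.nd (nat_lit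 45318) (nat_lit 0) (nat_lit 0) xc226 xc227)) (XT.nd (nat_lit 49062) (nat_lit 0) (nat_lit 0) (XT.nd (nat_lit 3510) (nat_lit 380) (nat_lit 0) xc228 xc229) (XT.nd (nat_lit 45630) (nat_lit 0) (nat_lit 76) xc230 xc231))) (XT.nd (nat_lit 141492) (nat_lit 0) (nat_lit 304) (XT.nd (nat_lit 49374) (nat_lit 0) (nat_lit 228) (XT.nd (nat_lit 3510) (nat_lit 608) (nat_lit 0) xc232 xc233) (XT.nd (nat_lit 46020) (nat_lit 0) (nat_lit 76) xc234 xc235)) (XT.nd (nat_lit 49764) (nat_lit 0) (nat_lit 152) (XT.nd (nat_lit 46254) (nat_lit 0) (nat_lit 304) xc236 xc237) (XT.nd (nat_lit 46332) (nat_lit 0) (nat_lit 76) xc238 xc239)))) (XT.nd (nat_lit 420654) (nat_lit 0) (nat_lit 1444) (XT.nd (nat_lit 187122) (nat_lit 0) (nat_lit 456) (XT.nd (nat_lit 93288) (nat_lit 0) (nat_lit 304) (XT.nd (nat_lit 46644) (nat_lit 0) (nat_lit 152) xc240 xc241) (XT.nd (nat_lit 46878) (nat_lit 0) (nat_lit 0) xc242 xc243)) (XT.nd (nat_lit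 94380) (nat_lit 0) (nat_lit 532) (XT.nd (nat_lit 47112) (nat_lit 0) (nat_lit 152) xc244 xc245) (XT.nd (nat_lit 91494) (nat_lit 0) (nat_lit 304) xc246 xc247))) (XT.nd (nat_lit 281736) (nat_lit 0) (nat_lit 1292) (XT.nd (nat_lit 140322) (nat_lit 0) (nat_lit 684) (XT.nd (nat_lit 47814) (nat_lit 0) (nat_lit 228) xc248 xc249) (XT.nd (nat_lit 48204) (nat_lit 0) (nat_lit 0) xc250 xc251)) (XT.nd (nat_lit 187902) (nat_lit 0) (nat_lit 1216) (XT.nd (nat_lit 93678) (nat_lit 0) (nat_lit 532) xc252 xc253) (XT.nd (nat_lit 140556) (nat_lit 0) (nat_lit 760) xc254 xc255)))))))) XT.nil))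

set_option maxRecDepth 10000000 in
noncomputable def Te : XT := XT.nil

set_option maxRecDepth 10000000 in
noncomputable def Tz : ZL := (ZL.cons (nat_lit 76) (nat_lit 3) (nat_lit 120758695426834197874) (ZL.cons (nat_lit 152) (nat_lit 6) (nat_lit 236028780477413980080) (ZL.cons (nat_lit 228) (nat_lit 6) (nat_lit 230818845324801875310) (ZL.cons (nat_lit 304) (nat_lit 3) (nat_lit 115274518822777759196) (ZL.cons (nat_lit 380) (nat_lit 6) (nat_lit 225348413414559165306) (ZL.cons (nat_lit 456) (nat_lit 6) (nat_lit 220414525345779691406) (ZL.cons (nat_lit 532) (nat_lit 3) (nat_lit 110078782825629675741) (ZL.cons (nat_lit 608) (nat_lit 6) (nat_lit 215233942873561243812) (ZL.cons (nat_lit 684) (nat_lit 6) (nat_lit 210565822170089370610) (ZL.cons (nat_lit 760) (nat_lit 3) (nat_lit 105160549325749285341) (ZL.cons (nat_lit 836) (nat_lit 6) (nat_lit 205664295431443903746) (ZL.cons (nat_lit 912) (nat_lit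 6) (nat_lit 201252445586682827128) (ZL.cons (nat_lit 988) (nat_lit 3) (nat_lit 100509687784488651695) (ZL.cons (nat_lit 1064) (nat_lit 6) (nat_lit 196620003249683696682) (ZL.cons (nat_lit 1140) (nat_lit 6) (nat_lit 192455703777564765512) (ZL.cons (nat_lit 1216) (nat_lit 3) (nat_lit 96116866166065466689) (ZL.cons (nat_lit 1292) (nat_lit 6) (nat_lit 188083189331839887782) (ZL.cons (nat_lit 1368) (nat_lit 6) (nat_lit 184158492003571771692) (ZL.cons (nat_lit 1444) (nat_lit 3) (nat_lit 91973545313484061020) (ZL.cons (nat_lit 1520) (nat_lit 6) (nat_lit 180037559808890249798) (ZL.cons (nat_lit 1596) (nat_lit 6) (nat_lit 176345288470896561830) (ZL.cons (nat_lit 1672) (nat_lit 3) (nat_lit 88071976913256066796) (ZL.cons (nat_lit 1748) (nat_lit 6) (nat_lit 172861485490753739836) (ZL.cons (nat_lit 1824) (nat_lit 6) (nat_lit 172468403566003189466) (ZL.cons (nat_lit 1900) (nat_lit 6) (nat_lit 169002157717219348504)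 (ZL.cons (nat_lit 1976) (nat_lit 3) (nat_lit 84405205218426613186) (ZL.cons (nat_lit 2052) (nat_lit 6) (nat_lit 165736963313853982514) (ZL.cons (nat_lit 2128) (nat_lit 6) (nat_lit 165362599575996315494) (ZL.cons (nat_lit 2204) (nat_lit 6) (nat_lit 162116761909954226092) (ZL.cons (nat_lit 2280) (nat_lit 3) (nat_lit 80967072726231340602) (ZL.cons (nat_lit 2356) (nat_lit 6) (nat_lit 159065169253807810334) (ZL.cons (nat_lit 2432) (nat_lit 6) (nat_lit 158708632360610032220) (ZL.cons (nat_lit 2508) (nat_lit 6) (nat_lit 155678380507362528902) (ZL.cons (nat_lit 2584) (nat_lit 3) (nat_lit 77752230035828147838) (ZL.cons (nat_lit 2660) (nat_lit 6) (nat_lit 152836175007355296240) (ZL.cons (nat_lit 2736) (nat_lit 6) (nat_lit 152496616061452650416) (ZL.cons (nat_lit 2812) (nat_lit 6) (nat_lit 150175248704635936062) (ZL.cons (nat_lit 2888) (nat_lit 6) (nat_lit 149677938796641468720) (ZL.cons (nat_lit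 2964) (nat_lit 3) (nat_lit 74756150143222528061) (ZL.cons (nat_lit 3040) (nat_lit 6) (nat_lit 147041717140877962052) (ZL.cons (nat_lit 3116) (nat_lit 6) (nat_lit 146718327668589727936) (ZL.cons (nat_lit 3192) (nat_lit 6) (nat_lit 144581674375934122070) (ZL.cons (nat_lit 3268) (nat_lit 6) (nat_lit 144108045892129867456) (ZL.cons (nat_lit 3344) (nat_lit 3) (nat_lit 71975147465019022969) (ZL.cons (nat_lit 3420) (nat_lit 6) (nat_lit 142291953257131511056) (ZL.cons (nat_lit 3496) (nat_lit 6) (nat_lit 141675240000454855970) (ZL.cons (nat_lit 3572) (nat_lit 6) (nat_lit 141367250026847013954) (ZL.cons (nat_lit 3648) (nat_lit 6) (nat_lit 139414117598584514880) (ZL.cons (nat_lit 3724) (nat_lit 6) (nat_lit 138963042852104272392) (ZL.cons (nat_lit 3800) (nat_lit 3) (nat_lit 69406401920294125947) (ZL.cons (nat_lit 3876) (nat_lit 6) (nat_lit 137319295061752486226) (ZL.cons (nat_lit 3952) (nat_lit 6)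 (nat_lit 136731949103012814718) (ZL.cons (nat_lit 4028) (nat_lit 6) (nat_lit 136438625318624393748) (ZL.cons (nat_lit 4104) (nat_lit 6) (nat_lit 134668656651598613652) (ZL.cons (nat_lit 4180) (nat_lit 6) (nat_lit 134239061654950763662) (ZL.cons (nat_lit 4256) (nat_lit 3) (nat_lit 67047988441039181595) (ZL.cons (nat_lit 4332) (nat_lit 6) (nat_lit 132768252896786873480) (ZL.cons (nat_lit 4408) (nat_lit 6) (nat_lit 132208875793225281564) (ZL.cons (nat_lit 4484) (nat_lit 6) (nat_lit 131929519808093452072) (ZL.cons (nat_lit 4560) (nat_lit 6) (nat_lit 131026213067732804344) (ZL.cons (nat_lit 4636) (nat_lit 6) (nat_lit 130343233957586696308) (ZL.cons (nat_lit 4712) (nat_lit 6) (nat_lit 129934095865541124890) (ZL.cons (nat_lit 4788) (nat_lit 3) (nat_lit 64898912326640847935) (ZL.cons (nat_lit 4864) (nat_lit 6) (nat_lit 129438389450557706076) (ZL.cons (nat_lit 4940) (nat_lit 6) (nat_lit 128637694143664439834)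 (ZL.cons (nat_lit 5016) (nat_lit 6) (nat_lit 128104954045034352296) (ZL.cons (nat_lit 5092) (nat_lit 6) (nat_lit 127838900725861181350) (ZL.cons (nat_lit 5168) (nat_lit 6) (nat_lit 127088195542377744862) (ZL.cons (nat_lit 5244) (nat_lit 6) (nat_lit 126437739247000499118) (ZL.cons (nat_lit 5320) (nat_lit 6) (nat_lit 126048083921242812052) (ZL.cons (nat_lit 5396) (nat_lit 3) (nat_lit 62959150907164535063) (ZL.cons (nat_lit 5472) (nat_lit 6) (nat_lit 125691048871342595454) (ZL.cons (nat_lit 5548) (nat_lit 6) (nat_lit 124928481912396627606) (ZL.cons (nat_lit 5624) (nat_lit 6) (nat_lit 124421110389891782334) (ZL.cons (nat_lit 5700) (nat_lit 6) (nat_lit 124167726276393524288) (ZL.cons (nat_lit 5776) (nat_lit 6) (nat_lit 124442927590866050780) (ZL.cons (nat_lit 5852) (nat_lit 6) (nat_lit 123573588571378442832) (ZL.cons (nat_lit 5928) (nat_lit 6) (nat_lit 122954106385304875456) (ZL.cons (nat_lit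 6004) (nat_lit 6) (nat_lit 122583006075059459204) (ZL.cons (nat_lit 6080) (nat_lit 3) (nat_lit 61229702034237471542) (ZL.cons (nat_lit 6156) (nat_lit 6) (nat_lit 123340859983613642870) (ZL.cons (nat_lit 6232) (nat_lit 6) (nat_lit 122369833287419711020) (ZL.cons (nat_lit 6308) (nat_lit 6) (nat_lit 121643579040804503544) (ZL.cons (nat_lit 6384) (nat_lit 6) (nat_lit 121160368066990365188) (ZL.cons (nat_lit 6460) (nat_lit 6) (nat_lit 120919049863658690862) (ZL.cons (nat_lit 6536) (nat_lit 6) (nat_lit 121314349976511006620) (ZL.cons (nat_lit 6612) (nat_lit 6) (nat_lit 120486408053189475242) (ZL.cons (nat_lit 6688) (nat_lit 6) (nat_lit 119896425018833696786) (ZL.cons (nat_lit 6764) (nat_lit 6) (nat_lit 119542996151933300356) (ZL.cons (nat_lit 6840) (nat_lit 3) (nat_lit 59712639977593071075) (ZL.cons (nat_lit 6916) (nat_lit 6) (nat_lit 120404625583150166048) (ZL.cons (nat_lit 6992) (nat_lit 6)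 (nat_lit 119479838253441659524) (ZL.cons (nat_lit 7068) (nat_lit 6) (nat_lit 118788167542379557166) (ZL.cons (nat_lit 7144) (nat_lit 6) (nat_lit 118327966614937520636) (ZL.cons (nat_lit 7220) (nat_lit 6) (nat_lit 118098139754621640326) (ZL.cons (nat_lit 7296) (nat_lit 3) (nat_lit 58954815639000919652) (ZL.cons (nat_lit 7372) (nat_lit 6) (nat_lit 117978457500229926972) (ZL.cons (nat_lit 7448) (nat_lit 6) (nat_lit 118185100038871875900) (ZL.cons (nat_lit 7524) (nat_lit 6) (nat_lit 118530050899972071678) (ZL.cons (nat_lit 7600) (nat_lit 6) (nat_lit 119014131395104562392) (ZL.cons (nat_lit 7676) (nat_lit 6) (nat_lit 119638494096876806356) (ZL.cons (nat_lit 7752) (nat_lit 6) (nat_lit 118621473046799752072) (ZL.cons (nat_lit 7828) (nat_lit 6) (nat_lit 117832956929350674568) (ZL.cons (nat_lit 7904) (nat_lit 6) (nat_lit 117271068325202314136) (ZL.cons (nat_lit 7980) (nat_lit 6) (nat_lit 116934469404344793726)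 (ZL.cons (nat_lit 8056) (nat_lit 3) (nat_lit 58411179370388035811) (ZL.cons (nat_lit 8132) (nat_lit 6) (nat_lit 116493286487343670884) (ZL.cons (nat_lit 8208) (nat_lit 6) (nat_lit 116634380242911250604) (ZL.cons (nat_lit 8284) (nat_lit 6) (nat_lit 116916903691559666186) (ZL.cons (nat_lit 8360) (nat_lit 6) (nat_lit 117341529508166651950) (ZL.cons (nat_lit 8436) (nat_lit 6) (nat_lit 117909268706581272150) (ZL.cons (nat_lit 8512) (nat_lit 6) (nat_lit 117028518868763646886) (ZL.cons (nat_lit 8588) (nat_lit 6) (nat_lit 116369784858228311308) (ZL.cons (nat_lit 8664) (nat_lit 6) (nat_lit 115931498260664466996) (ZL.cons (nat_lit 8740) (nat_lit 6) (nat_lit 115712615536554104792) (ZL.cons (nat_lit 8816) (nat_lit 3) (nat_lit 57606606454472465742) (ZL.cons (nat_lit 8892) (nat_lit 6) (nat_lit 115285480442284423536) (ZL.cons (nat_lit 8968) (nat_lit 6) (nat_lit 115502455107858469910) (ZL.cons (nat_lit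 9044) (nat_lit 6) (nat_lit 115864653512013675478) (ZL.cons (nat_lit 9120) (nat_lit 6) (nat_lit 116372938031902790728) (ZL.cons (nat_lit 9196) (nat_lit 6) (nat_lit 115621970300998907390) (ZL.cons (nat_lit 9272) (nat_lit 6) (nat_lit 115086838297048087932) (ZL.cons (nat_lit 9348) (nat_lit 6) (nat_lit 114766267896231401826) (ZL.cons (nat_lit 9424) (nat_lit 3) (nat_lit 57329747917844880863) (ZL.cons (nat_lit 9500) (nat_lit 6) (nat_lit 114135188970799426062) (ZL.cons (nat_lit 9576) (nat_lit 6) (nat_lit 114283337414145384768) (ZL.cons (nat_lit 9652) (nat_lit 6) (nat_lit 114579987035226221128) (ZL.cons (nat_lit 9728) (nat_lit 6) (nat_lit 115025844142663556182) (ZL.cons (nat_lit 9804) (nat_lit 6) (nat_lit 114398478418344188964) (ZL.cons (nat_lit 9880) (nat_lit 6) (nat_lit 113981062611140527712) (ZL.cons (nat_lit 9956) (nat_lit 6) (nat_lit 113772602873892563710) (ZL.cons (nat_lit 10032) (nat_lit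 3) (nat_lit 56590383519619218380) (ZL.cons (nat_lit 10108) (nat_lit 6) (nat_lit 113256647949244903414) (ZL.cons (nat_lit 10184) (nat_lit 6) (nat_lit 113484471348097652106) (ZL.cons (nat_lit 10260) (nat_lit 6) (nat_lit 113864779672460617952) (ZL.cons (nat_lit 10336) (nat_lit 6) (nat_lit 113355130144888408940) (ZL.cons (nat_lit 10412) (nat_lit 6) (nat_lit 113049825001253469792) (ZL.cons (nat_lit 10488) (nat_lit 3) (nat_lit 56474068662273572945) (ZL.cons (nat_lit 10564) (nat_lit 6) (nat_lit 112419942214431072318) (ZL.cons (nat_lit 10640) (nat_lit 6) (nat_lit 112575498079944328958) (ZL.cons (nat_lit 10716) (nat_lit 6) (nat_lit 112886980182079207136) (ZL.cons (nat_lit 10792) (nat_lit 6) (nat_lit 112489441318075720228) (ZL.cons (nat_lit 10868) (nat_lit 6) (nat_lit 112290908234982421180) (ZL.cons (nat_lit 10944) (nat_lit 3) (nat_lit 55885614026596214990) (ZL.cons (nat_lit 11020) (nat_lit 6) (nat_lit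 111850903008699219966) (ZL.cons (nat_lit 11096) (nat_lit 6) (nat_lit 112090117577494606092) (ZL.cons (nat_lit 11172) (nat_lit 6) (nat_lit 111799350774032759284) (ZL.cons (nat_lit 11248) (nat_lit 3) (nat_lit 55851252683822892069) (ZL.cons (nat_lit 11324) (nat_lit 6) (nat_lit 111308960908002217728) (ZL.cons (nat_lit 11400) (nat_lit 6) (nat_lit 111472294566791137200) (ZL.cons (nat_lit 11476) (nat_lit 6) (nat_lit 111283215440035614294) (ZL.cons (nat_lit 11552) (nat_lit 3) (nat_lit 55474190719759164689) (ZL.cons (nat_lit 11628) (nat_lit 6) (nat_lit 111032040142800458864) (ZL.cons (nat_lit 11704) (nat_lit 3) (nat_lit 55469903211215955552) (ZL.cons (nat_lit 11780) (nat_lit 6) (nat_lit 110768306080703545660) (ZL.cons (nat_lit 11856) (nat_lit 1) (nat_lit 18446744073709551617) ZL.nil))))))))))))))))))))))))))))))))))))))))))))))))))))))))))))))))))))))))))))))))))))))))))))))))))))))))))))))))))))))))))))))))))))))))))))))))))))))))))))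

noncomputable def vl : XL := ⟨(nat_lit 0), (nat_lit 76), (nat_lit 50710670), (nat_lit 152), (nat_lit 225808765), (nat_lit 152), (nat_lit 225808765), (nat_lit 1), (nat_lit 4), (nat_lit 2), (nat_lit 5), (nat_lit 2), (nat_lit 4), (nat_lit 0), (nat_lit 0), (nat_lit 0)⟩

noncomputable def cp0 : Nat := (nat_lit 43279876773902121181753927628569174162273580931867594428716600178939770042437224733671068926181823805119660863813023176963822565202140958543036078653418440220906712219731654101368432532453220990469699022475996028918440928976340331399992837967343785608192008569216229043548739640236609445726574679011665560116675777908786844620887603863948959133742818290593621147862565607462621679140013163797472313410614483288105723029891502585778264130153181936114417422832456953118222357526511546053540887341241718853248215270841214045225856928211538152582702461968812024314154603879541380731165489986528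78439144928618494233703899182746471257631890983785906288685304625863181638878677518939862811895241061976408753729861701760224856979021876672228137821034051980743078144338118647805218314674322423166057418332751286431983138975791547836892935642905857749010504665049556246193417982533969478638038280497887835985772959490978908012509109305620169917395479808526173221829191248377913762407504031016438396342969778085131701812030279360482286605034368704618805455694632859748759398046076525222940007508980005203464672634397421292580789051707232773322298941625116161753667526873842802001784941066795444990341682414332994844050314253738284629069645035774424744354781907922656051528724554242329202303185661290411142754657747881914887698665132014278060714911744046665957546347307136520485472127396638141753760537697177510878877622814704589940635295486770118836894939520354527264634979774675102137891386586638105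48851056225296093578347488960161135404408170777222096593881755488154386475968657811394982945922221270217999569163224409218250436144103760448459805147517798178288151341461113090963676176799339760296295345160327994324022967026798258424864681595395012510428697125843205724095625410409982086383091216495714131389586524779434900109798770890528874137184714185910283963874925746943257713006436918271167223792604170396689234733242366094713878925921583133470582561379774289208918271314710596120520772350578056451426527143041234519788797706852873622020624445258429436035817794592414583381616328714767553435606172226340847341475636971924466782543627927125330863678088525875486427199659378016907254556754630088924161596179061720053832770314799519152299444071518580477280800056766847687756690573652566999529220809454971856472049209292151794347549463301138035623386329264739061466622436476444568169481355498457551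861946321663005200993957168273235652564508213433845689936699576300075222835549407981229348282989053031784039509234275401532939216943520303394217254556244845207414358242767624447480675575820128406201996720878457403734761615451297160430456071513819439906360073545220204532578491879813403917819466095966389886917604075513383687313986899113528438487181163704812547047336637594967515467421228028192618770890944459547546921603270995659183418765454005402200778175987626854501438513419947375322011210594238545837028592070589969379097146474862527230155295543662927355619211497557485275457857361630574920442635388113655793703477147782262794558722163143127456232282826597267022164156409802836453694799765167097388956227283081712254944764006024098310785515621748475244608226981698729663416161191379224632615975469716866965959016669343099696815737207244154729031201971921615307116974723350359127451321553348806338294255448059155907670507702322606970571146091044922392708716908918671920187030012020793330898392139339121974886468811240337332857031596533404103552712973792642530392230263521147293562283586067282266590239722524262413387384350037561711468707544468755738075400863528190375404024931799158006671233515520)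

noncomputable def cp1 : Nat := (nat_lit 51547205230866330962756799735946978313348746818049356322320604270293481846339176148761884799623402701427033939723628099585850985840217930975739562245901053822714976810405286222228035610205210041989686673360633418336944782918655594795287392976526328973482058724866714142251454286799522676496426317307926113063132567051476494439650545278343314349151050741370080238267142789783658040850544299003417673604640615741476541758932140221155891076310892113785817960824092345415437425004461666083504905523299961106126562241961184119086629206718939266136697088507801584850235250315884663244892581673407552385600962490124268554975927332205572314534102803580436080474703644578149350091079873555100941563826283395414755334386446353717703834303914619535774161455937895070295043357094690545117251782333275521002308389188922379505797440895644493635398065220155583837049699674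86618001965609457346447038030871636416841879148782361181807886617158746788631612698087477647657097522839877705241276363240109662201752966301760661693047495841711031341629755663344263137871247508770809918211346338980740898043954123441432628627850419222443911658687171082560007778483775407422707909427798582187490345311353076251014735108809959831109209141205829249393962446092676564587944752783664364595673837559784548671657469480804246357668734655958628023830581969188804779851272848872812419363399085969686931274927117477238541617555101678366589354310096109695832181947652017270350178050878766507749730607165212727721744404241270461704690016871919705890918168596446884951919588560096338296740518430697763712729706913851431628986834989740786734367173942737656663532757442121492626014190982738708670787418046547170716731949938439521256216059964168880780174928769223255495366235598730407035573872118793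90074686349052037930749305166069048923890736047486105602819547839821608749237645258446144168897828007233633912008285350556312947662427641414612668368057040960912380787047602396219820868455985324153307137477173289804714718931196288269736098036488325772449397045473810824792954989606820178687192747937688060172778593657834965818537332050463703605874963421002486716668630322582841994011857528302320015377690495667354974753898713791671257561080123114596302461148929627634505134242768147923001612258737188224666155333033960926270847707176928771564646222014405313879308045145269954631837797828199841167221882019369181500836509016220703307469768874727802963395460802211531908996784556624643599584751779004557350005123879207214288609629231224257667954322878292725255825380603614165936792308669842368035228380420013225379084257713967104290835112207362363175831205173018324055585290964128874424851473037869321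752977056656489935889687782565769072954662600372690118536635075687254586301061286440706560496316893056935605822896160967501722210519377940522943516582956831147550438024624700991459568576660186989153557004163289358048572371269845365318036138677868003127351939121464357503485372572485388205471753803163487782329617119719638455812832723405624740355117807205051877943405786460822562209677946886525568937990149863382656106244254780373272274074913145453162510700351906462998755504001012030493160765700026766360645761581296961778657189127570192053688393046968718289785366631072754760950622245575552569337700888345965864537200292395182178588381047188119447738330684489185338930813584831672457028669940350949332913493815050031209530350031916655459338902933301201166587228426384755569933965094214020849480522896077663559469972860914392028738432263080685672591118549777717421342501688224358195566411214231876686942430778894177242749409842692096)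

noncomputable def rc0 : Nat := (nat_lit 43865661173538951701691772437911727805592738955602050832148088355415864737060236174848118727470652114465849566835240012987046759981321538704154075240095226594784143373213475055814888181955359272241418461033752688307708390122460199183482414547457840233626935143766453916602724815111831190405743103639860376783865948252413813393625959627669903953656831039510172520248169682053068045441856450289446801936885691112253998292113238090972351065578338218543440185260434304131529327257835340019305451775294921458780520952075767672048050948797224026668272060688962487035116314240100003460840679038463542046488979715722921076138760943293534980809392633173672040365436424625835495695089517083393587037925048055708457261973350286553744928223585277053829081443619867454808642888667947166232939805075043270756498726550266783209546986259005814487916736926781867846693681909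91608321099600033541777975347565797093211057030130494312909359244658347545519832311679737497861935558538302648581302490029015035147473647808312675353091103629415488464531232207284758541450913034051126037896508389932097377395257946301917861430897785537126499590819232587863852067781546270039007034399558907629413155465393265468099119069978987637232916954461075397515112773306681479262149778221435487884163868647529070667842228646729650647545601847348911356568850135264203821826710269097741687929272681519138649379001730396497919859975560676480423933625965387173359514896575835785548656541252813681128865060415896490087311999165462643770386833331407885558211488274098004307519176758376031352700446178484398120110636947301265858617921006847882895693517000759006226107895089099807606786945332487250599724229808309856590144984162547365299513778919063858504830409764610856957520029375662859390500599445908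02859169710742273538089537949043178596226635088267157596931445889109562733176106640325594248774788318764344802162033318305676596567311511147162350633650160325730005290551100184741000021640203429123001565162571291326066706177775338249770421618464991895429626375101617720553899262862901898072893037652942671712452484982471308197260980613036167939956375025661901312684986266722036146268934007884013671055938552993797439020908584551063565047070456598068209902545433386197754487901225382200633954050682377045786004766913644982347404991643033799979654218689116386331103538201635538826204420030887421166944580511678527603370287100140677415197650715262140210089219657990823192178744909465582051772463565977901043908708240756459766047381339528445157671235011242452161594597441166297164095836534626646661149769862974266594262146565577633796696549325398453716379102320647693317385098381642089743380507595013533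460706354722186161264854915131368270207507556520058267676683613787978969516934180068910853761121740988804951002330755389925017046868902202713774413111709170817118415744363834332709842270363374249027934337028603889916135460291353071239296179399475914685803387754277824826500245152480304343486446470105905959458693526593460551856887259964430377328419795689779200993732487699461376776888554413418243001129884435077857584555216417425531437708789548102787858605365359909615483606851107577533877931406417313637358417362594949853957227748875256132507284719895196642630160540866417951197584895063832119685344420377169423918794174907225849705065118819859036789869095310680202712110733236540208793605919006797459622049284404778503786797585562568429475776785607906160405026560492288928248904425486558697342765872267384197790395742427209059292126477311492229855811178780044897814531262562459093593805491012234464658713994565522558357098148659200)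

noncomputable def rc1 : Nat := (nat_lit 45970666737010618391888730413606854577817727274874428655209134607633983812741172280203743447538401008510080082418082716434234260096288497733283961591362147834999595159751495755646253596989049515412026335117581215602144512999953766571935726792592251031326948457360278476001872723510095072228389332308952394040185059684880479754826755255080126870744358812573599185905272440699570492747482849177293238981037486354078918401222586921664406657816593294781968013616040131648184334354633378418694502938518998150611560253576430127981319507979316948674649187707212197991187565801773841772340660658346945025171585776807430244762088577767464441550339507842869642403090641272641853936974571092071402770036117489487626903292917168774804914360823384564470519118728219671559125145629394289097393474810166599362432186636306754417780823562091845806420432989803011808005123723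05282264311181789221731250753503106336701416860963608329992833083625944090924731368104856130348833845546065809409600494544346601519923418444369056369099812679463578046146613512147061765932016381596297338570669959595113445152797875517512468147211101472989548144206230750009803197806385897544228141897980869647607602211569339889872218660543874288716574143399797034597129306359510246843868926232832741833576596633622067159944639726342200598207544782370401717743207595019305677023648006751259240401986075506374837399404095857456126311130908278393686508212797627151488995777536298766296437548588477298561079783804091302447512338525547952727774004642869912478098369109094426053142246884345092556985370835547304807824707545643533037968023173069407088621427390625469835008334424480092054639894996107516040490645379877590621969551286217229393892239316209658457347972533902159974201797855093857928513265510874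26330206924977505069625357216632267775016995710545893579525888367957457156759161680645978189245310658954533792445674822423239094764902542605487406233325633320105721508253134407568646812000577156388006663565387728574559711770107651070438615778407667561390154640857084212619312806765305575817600546654320203960110926055124736087685097841944753356206653604884402462933113097911568798589297966154706812702369561356939249836525518925812322655386437378793801377668942277635920968668011525802676624441198355205405903965321769123719002693726375984485913036958497735572496828057111297956575656279915617978273597346127976568356586703963367069744587277129436140923910504459183833952980047896036646564834218557299818186208348924904531691530835169822513415930703970246255986015184145045678670248883974612578442785369402257309773476089630809387244839444826423158104764092926928161675853743077388881946045711730738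697096136526817948542739931875852501998811411969768944775929442628798748889248995979338434623299620064367807703715712520648809370633466682700273566504947337883895559610352694767342129437782998669231236878055755682673813561303051841400356751418381535419350592313304073890879324739657645960223839820605527958149795214438579039420111871964922812627682583126277578878497616904547475523376608944791230373442007709908215088330494032937565852250534219416813040800179749929939065616549567450667265562945667951194124015339708314828881550756166017668258407207868392516317741227326286498974677250391310575932222484960342958903392750766976063335957476412253626131870520395985965947443323122491411948590420980660956204802574755143660392218864295336818097001328845580614303991005853342539614506480063861274891365026552264466746107021860391960181754126192513923700889301680371550432916118771649565155353691832227104093826867225999703933041078435840)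

noncomputable def rc2 : Nat := (nat_lit 48266091948408323847230113463276307982321953657999590558845460395954957314451121424484453150202159984734957016141464743244559198088976514919058390255221853040716292992796574963022062648132890483304785758480386902765521768614561896736799986394127785318321742165115223218640870420727437775504955174688148074325768091589119107472217725211752795554167514969209073603259618762810783368531368189669680387237128820456659962014593879888502176852704633390851934090917466263329806147050517720774981607444707771277966802605463526714827751618742641363508576196850067942538245474770136280808542304073153309442098285300133449680195490855470179231965439317098039478625081416650715171181592775270608729841386894679933077422541475557791459789615374635836865648243243000260361842614572085004287907764730876388631895381545200244592313121088567278277479293668276912768160282773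45995668415298003030440660452374276703049082983735207378818001076028770362961067865231465934457602780216523810983006005815168420460574966917871528941328946745032483940058518686571129215963254903693825896122944328657558701922868152980749831270925374822996909827712625683890667226936334239467839208000222516133969660140979857606091164468209637051385167928706140443971939274342156360921148679172310074666581395362762238772340937401198566493153416556728098003571709333864532014770124155346346573092353509378413711987503690395208005608510049433847170733424102626079383586219368348099443863184577306126667747748350639888128687415868283245984742709544486305715919614021269648408242528131542147763603070216495940954029273905580885878515112398559315345267836316823872717635893845999543729188155017069125404966798622384414274362360976180330905247196837507265034790733758504386307503376672148307765510492660483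50093075104721784890999192662731495678847883810245599933439991417658945859977654467227747849784866196913947827115183794017572641215391897116776023191309790622684954076079653077061740092487003559621184610380218236359346509387163997339485609209575942301126563327636597408742986552945077895332766113191233891550049836195080239664333691332462310090772023754580132728469770984548603276544108418538041894062634093107561899431435160334762920883269285457107047730768530208452565621931311316561001745170207801460004994206219265778768534224239505737855177282815213621040187812872811085596590334802988898404011931569483022175446625008516262476137629837764781881505353849727372806128612633746450237539769940568683379849736828930534159497493452967752823777725108227887996835769953329554307332797167634586115042760252358235446392331665779809089171302663198203408346776832199436519713891091492202273861516180035428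631171499094469145847854881613808004685889178629271347765697928517535260660639204137674057317211255030187655486828904929958684059002385565516954056726772162095044879792092271425956418801961774250393109448289381031200383199427765425516248013184678419966735189774980354716438348729216786278074414138828917113584882160368026981776418560901278707503944401388337859556472142633428298865061384073365254220553011882528358003240330371692838924560107546121294165867726961959129638556446024399661012816455789861259305828498253777990087509524639009188181310619319890793949655972049776684496736703120827416219439967836418721773511936820839838628825052416800163678935068297624537302886464347297303709169302078118342810218584564281668677582551229064586182933549758048330511502526360922985181137331188920264597628587092630928463353809205063466167476985017035635518839366675201233178669253075694628249196418740574514370143677484754479254918800605184)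

noncomputable def rc3 : Nat := (nat_lit 50708161227936293163609804501649623210530824507025168857605220723164938585141265658567785471545002046319006777147584860819582983489978782424747282422074612141167303065123528918582151322210513828833965567668896659500581132505277425725414810494946745207009701520156661832220440926136907017324312417621298836354254511459845122356115914121945940636317972236292153071964598811062055577304766445133169318073270570173815207768467613627530652139710985580673378394059191206004877295883053022558385319155048649168491892843272521148747966143112616612546518267270809582369542951541172406854084784375840488569443964784269252932130327597059107386708283904424953668508444719813988569395213367618065317227846883684104502192487308400630205232294202855230000238754582101469679815058458772343650583042102531312677318191746547951167502786387171422365843075596219962309627241820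40537823669426153801709265000021378605118962204003836696435427074427439334355769858735246068359028183539017901866103172967850110252681087452217424251299999053716515709908836495592743204322285125157763940662461921011900054072080395817460386186184638619971061593640393663658375658108734615151399860838534731644193615939062961882337491130984484600992199419746089846296432780279062116731922168117884863508668530640937465846808153303186321510776037829343417296098765826603505569717097321391883342030372002362186350305160052158586473655017990788730970547141629714810859511400012233919681475536600105270806034301389699545819696384439647828726588413202054692694607241667633361226130703830523492823418720751563046795695566706947809385639668978431802318111334122952959045384996025453887668509598353264962789476088891759826152360081485481168753613433368362272288549860845746260714952768170641992279163867659054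52601499762915281874304665176255225324876353385058713433852211672029695994839250686029136246284612502972707456853676046989052097645758972161049285542266279073770049449197741479154812025155113983053081006616745539525832908672138319809858598529367769009048141236367001381728360693492756013557193925687631076868463409210198386725364202288808935035594366643281845292003635568779804651126172485161393513496632522351416364905654492304406646039239815378662639327419991875682869992030625891210521095660250635931234921178037567522861824103867436974145168883758664574349698760530202605659772565766479630522804145303121439176253691756937849225766092586381230641212717052995735497761181372732948409279418754160395702696002252335449505168140137857017037117860727873901151999288223842414645017516067240826650711630162630798680616207560539843524948481691607524821248792904570727358762848190022050550054019949609534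634048227280377664215408901576231738980675625229072320105472468078768182233752834475341371095023597639492729157144840077123639917866106563809637667843887375074135520891336600059214101798667847185697537003213579766894636728139338952978022632326876088576096497434890545012529291917767625366503306193770845245100179369079281087860273384556013349695111520593667875461832654091449964231564372105512759635234985956529016654885236385400277340731110350412299195171530560812391975764691974550945667353027846275053041109656884406599053397249212063845571364560009570821792265123423688389763352767451418982291751546078476478677504662512072144062126035060662393313511129037657853258582542434022297965082937669210299323210970865943425098641782336726677211336348555984364059206220142561992728158585555844172905997669599452326781938223469718298958091775936384653575340649581189683642226785925622359796006903176358702869631305936678163362726644023296)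

noncomputable def rc4 : Nat := (nat_lit 51547205230866330962756799735946978313348746818049356322320604270293481846339176148761884799623402701427033939723628099585850985840217930975739562245901053822714976810405286222228035610205210041989686673360633418336944782918655594795287392976526328973482058724866714142251454286799522676496426317307926113063132567051476494439650545278343314349151050741370080238267142789783658040850544299003417673604640615741476541758932140221155891076310892113785817960824092345415437425004461666083504905523299961106126562241961184119086629206718939266136697088507801584850235250315884663244892581673407552385600962490124268554975927332205572314534102803580436080474703644578149350091079873555100941563826283395414755334386446353717703834303914619535774161455937895070295043357094690545117251782333275521002308389188922379505797440895644493635398065220155583837049699674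86618001965609457346447038030871636416841879148782361181807886617158746788631612698087477647657097522839877705241276363240109662201752966301760661693047495841711031341629755663344263137871247508770809918211346338980740898043954123441432628627850419222443911658687171082560007778483775407422707909427798582187490345311353076251014735108809959831109209141205829249393962446092676564587944752783664364595673837559784548671657469480804246357668734655958628023830581969188804779851272848872812419363399085969686931274927117477238541617555101678366589354310096109695832181947652017270350178050878766507749730607165212727721744404241270461704690016871919705890918168596446884951919588560096338296740518430697763712729706913851431628986834989740786734367173942737656663532757442121492626014190982738708670787418046547170716731949938439521256216059964168880780174928769223255495366235598730407035573872118793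90074686349052037930749305166069048923890736047486105602819547839821608749237645258446144168897828007233633912008285350556312947662427641414612668368057040960912380787047602396219820868455985324153307137477173289804714718931196288269736098036488325772449397045473810824792954989606820178687192747937688060172778593657834965818537332050463703605874963421002486716668630322582841994011857528302320015377690495667354974753898713791671257561080123114596302461148929627634505134242768147923001612258737188224666155333033960926270847707176928771564646222014405313879308045145269954631837797828199841167221882019369181500836509016220703307469768874727802963395460802211531908996784556624643599584751779004557350005123879207214288609629231224257667954322878292725255825380603614165936792308669842368035228380420013225379084257713967104290835112207362363175831205173018324055585290964128874424851473037869321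752977056656489935889687782565769072954662600372690118536635075687254586301061286440706560496316893056935605822896160967501722210519377940522943516582956831147550438024624700991459568576660186989153557004163289358048572371269845365318036138677868003127351939121464357503485372572485388205471753803163487782329617119719638455812832723405624740355117807205051877943405786460822562209677946886525568937990149863382656106244254780373272274074913145453162510700351906462998755504001012030493160765700026766360645761581296961778657189127570192053688393046968718289785366631072754760950622245575552569337700888345965864537200292395182178588381047188119447738330684489185338930813584831672457028669940350949332913493815050031209530350031916655459338902933301201166587228426384755569933965094214020849480522896077663559469972860914392028738432263080685672591118549777717421342501688224358195566411214231876686942430778894177242749409842692096)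

end Vale.Agent.Lib.P154.PChain.BJ.S4
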