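import Vale.Agent.Lib.P154.PChain.BJ.R5_0

set_option linter.all false

namespace Vale.Agent.Lib.P154.PChain.BJ.S6

open Vale.Agent.Lib.P154.Chain

noncomputable def pc0 : PT := (PT.nd (nat_lit 3952104) (PT.nd (nat_lit 3671070) (PT.nd (nat_lit 3530514) (PT.nd (nat_lit 3483558) (PT.nd (nat_lit 3436758) (PT.nd (nat_lit 3389958) PT.nil (PT.lf (nat_lit 76) (nat_lit 3) (nat_lit 1) (nat_lit 1) (nat_lit 189) (nat_lit 72) (nat_lit 189))) (PT.nd (nat_lit 78) (PT.lf (nat_lit 152) (nat_lit 6) (nat_lit 2) (nat_lit 3) (nat_lit 188) (nat_lit 73) (nat_lit 189)) (PT.lf (nat_lit 152) (nat_lit 6) (nat_lit 2) (nat_lit 1) (nat_lit 189) (nat_lit 73) (nat_lit 188)))) (PT.nd (nat_lit 156) (PT.nd (nat_lit 78) (PT.lf (nat_lit 228) (nat_lit 6) (nat_lit 3) (nat_lit 3) (nat_lit 187) (nat_lit 74) (nat_lit 189)) (PT.lf (nat_lit 304) (nat_lit 3) (nat_lit 4) (nat_lit 1) (nat_lit 188) (nat_lit 74) (nat_lit 188))) (PT.nd (nat_lit 46722)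 (PT.lf (nat_lit 228) (nat_lit 6) (nat_lit 3) (nat_lit 1) (nat_lit 189) (nat_lit 74) (nat_lit 187)) (PT.lf (nat_lit 380) (nat_lit 6) (nat_lit 5) (nat_lit 3) (nat_lit 187) (nat_lit 75) (nat_lit 188))))) (PT.nd (nat_lit 93600) (PT.nd (nat_lit 46800) (PT.nd (nat_lit 46722) (PT.lf (nat_lit 380) (nat_lit 6) (nat_lit 5) (nat_lit 1) (nat_lit 188) (nat_lit 75) (nat_lit 187)) (PT.lf (nat_lit 456) (nat_lit 6) (nat_lit 6) (nat_lit 3) (nat_lit 186) (nat_lit 76) (nat_lit 188))) (PT.nd (nat_lit 78) (PT.lf (nat_lit 532) (nat_lit 3) (nat_lit 7) (nat_lit 1) (nat_lit 187) (nat_lit 76) (nat_lit 187)) (PT.lf (nat_lit 456) (nat_lit 6) (nat_lit 6) (nat_lit 1) (nat_lit 188) (nat_lit 76) (nat_lit 186)))) (PT.nd (nat_lit 46800) (PT.nd (nat_lit 78) (PT.lf (nat_lit 608) (nat_lit 6) (nat_lit 8) (nat_lit 3) (nat_lit 186) (nat_lit 77) (nat_lit 187)) (PT.lf (nat_lit 608) (nat_lit 6) (nat_lit 8) (nat_lit 1) (nat_lit 187) (nat_lit 77)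 (nat_lit 186))) (PT.nd (nat_lit 78) (PT.lf (nat_lit 684) (nat_lit 6) (nat_lit 9) (nat_lit 3) (nat_lit 185) (nat_lit 78) (nat_lit 187)) (PT.lf (nat_lit 760) (nat_lit 3) (nat_lit 10) (nat_lit 1) (nat_lit 186) (nat_lit 78) (nat_lit 186)))))) (PT.nd (nat_lit 140478) (PT.nd (nat_lit 93522) (PT.nd (nat_lit 46722) (PT.lf (nat_lit 684) (nat_lit 6) (nat_lit 9) (nat_lit 1) (nat_lit 187) (nat_lit 78) (nat_lit 185)) (PT.nd (nat_lit 78) (PT.lf (nat_lit 836) (nat_lit 6) (nat_lit 11) (nat_lit 3) (nat_lit 185) (nat_lit 79) (nat_lit 186)) (PT.lf (nat_lit 836) (nat_lit 6) (nat_lit 11) (nat_lit 1) (nat_lit 186) (nat_lit 79) (nat_lit 185)))) (PT.nd (nat_lit 156) (PT.nd (nat_lit 78) (PT.lf (nat_lit 912) (nat_lit 6) (nat_lit 12) (nat_lit 3) (nat_lit 184) (nat_lit 80) (nat_lit 186)) (PT.lf (nat_lit 988) (nat_lit 3) (nat_lit 13) (nat_lit 1) (nat_lit 185) (nat_lit 80) (nat_lit 185))) (PT.nd (nat_lit 46722) (PT.lf (nat_lit 912)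 (nat_lit 6) (nat_lit 12) (nat_lit 1) (nat_lit 186) (nat_lit 80) (nat_lit 184)) (PT.lf (nat_lit 1064) (nat_lit 6) (nat_lit 14) (nat_lit 3) (nat_lit 184) (nat_lit 81) (nat_lit 185))))) (PT.nd (nat_lit 93600) (PT.nd (nat_lit 46800) (PT.nd (nat_lit 46722) (PT.lf (nat_lit 1064) (nat_lit 6) (nat_lit 14) (nat_lit 1) (nat_lit 185) (nat_lit 81) (nat_lit 184)) (PT.lf (nat_lit 1140) (nat_lit 6) (nat_lit 15) (nat_lit 3) (nat_lit 183) (nat_lit 82) (nat_lit 185))) (PT.nd (nat_lit 78) (PT.lf (nat_lit 1216) (nat_lit 3) (nat_lit 16) (nat_lit 1) (nat_lit 184) (nat_lit 82) (nat_lit 184)) (PT.lf (nat_lit 1140) (nat_lit 6) (nat_lit 15) (nat_lit 1) (nat_lit 185) (nat_lit 82) (nat_lit 183)))) (PT.nd (nat_lit 46800) (PT.nd (nat_lit 78) (PT.lf (nat_lit 1292) (nat_lit 6) (nat_lit 17) (nat_lit 3) (nat_lit 183) (nat_lit 83) (nat_lit 184)) (PT.lf (nat_lit 1292) (nat_lit 6) (nat_lit 17) (nat_lit 1) (nat_lit 184) (nat_lit 83) (nat_lit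 183))) (PT.nd (nat_lit 78) (PT.lf (nat_lit 1368) (nat_lit 6) (nat_lit 18) (nat_lit 3) (nat_lit 182) (nat_lit 84) (nat_lit 184)) (PT.lf (nat_lit 1444) (nat_lit 3) (nat_lit 19) (nat_lit 1) (nat_lit 183) (nat_lit 84) (nat_lit 183))))))) (PT.nd (nat_lit 280878) (PT.nd (nat_lit 140478) (PT.nd (nat_lit 93522) (PT.nd (nat_lit 46722) (PT.lf (nat_lit 1368) (nat_lit 6) (nat_lit 18) (nat_lit 1) (nat_lit 184) (nat_lit 84) (nat_lit 182)) (PT.nd (nat_lit 78) (PT.lf (nat_lit 1520) (nat_lit 6) (nat_lit 20) (nat_lit 3) (nat_lit 182) (nat_lit 85) (nat_lit 183)) (PT.lf (nat_lit 1520) (nat_lit 6) (nat_lit 20) (nat_lit 1) (nat_lit 183) (nat_lit 85) (nat_lit 182)))) (PT.nd (nat_lit 156) (PT.nd (nat_lit 78) (PT.lf (nat_lit 1596) (nat_lit 6) (nat_lit 21) (nat_lit 3) (nat_lit 181) (nat_lit 86) (nat_lit 183)) (PT.lf (nat_lit 1672) (nat_lit 3) (nat_lit 22) (nat_lit 1) (nat_lit 182) (nat_lit 86) (nat_lit 182))) (PT.nd (nat_lit 46722)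 (PT.lf (nat_lit 1596) (nat_lit 6) (nat_lit 21) (nat_lit 1) (nat_lit 183) (nat_lit 86) (nat_lit 181)) (PT.lf (nat_lit 1748) (nat_lit 6) (nat_lit 23) (nat_lit 3) (nat_lit 181) (nat_lit 87) (nat_lit 182))))) (PT.nd (nat_lit 93522) (PT.nd (nat_lit 46800) (PT.nd (nat_lit 46722) (PT.lf (nat_lit 1748) (nat_lit 6) (nat_lit 23) (nat_lit 1) (nat_lit 182) (nat_lit 87) (nat_lit 181)) (PT.lf (nat_lit 1824) (nat_lit 6) (nat_lit 24) (nat_lit 3) (nat_lit 180) (nat_lit 88) (nat_lit 182))) (PT.nd (nat_lit 78) (PT.lf (nat_lit 1900) (nat_lit 3) (nat_lit 25) (nat_lit 1) (nat_lit 181) (nat_lit 88) (nat_lit 181)) (PT.lf (nat_lit 1824) (nat_lit 6) (nat_lit 24) (nat_lit 1) (nat_lit 182) (nat_lit 88) (nat_lit 180)))) (PT.nd (nat_lit 156) (PT.nd (nat_lit 78) (PT.lf (nat_lit 1976) (nat_lit 6) (nat_lit 26) (nat_lit 3) (nat_lit 179) (nat_lit 89) (nat_lit 182)) (PT.lf (nat_lit 2052) (nat_lit 6) (nat_lit 27) (nat_lit 3) (nat_lit 180)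 (nat_lit 89) (nat_lit 181))) (PT.nd (nat_lit 78) (PT.lf (nat_lit 2052) (nat_lit 6) (nat_lit 27) (nat_lit 1) (nat_lit 181) (nat_lit 89) (nat_lit 180)) (PT.lf (nat_lit 1976) (nat_lit 6) (nat_lit 26) (nat_lit 1) (nat_lit 182) (nat_lit 89) (nat_lit 179)))))) (PT.nd (nat_lit 93756) (PT.nd (nat_lit 46878) (PT.nd (nat_lit 156) (PT.nd (nat_lit 78) (PT.lf (nat_lit 2128) (nat_lit 6) (nat_lit 28) (nat_lit 3) (nat_lit 179) (nat_lit 90) (nat_lit 181)) (PT.lf (nat_lit 2204) (nat_lit 3) (nat_lit 29) (nat_lit 1) (nat_lit 180) (nat_lit 90) (nat_lit 180))) (PT.nd (nat_lit 46644) (PT.lf (nat_lit 2128) (nat_lit 6) (nat_lit 28) (nat_lit 1) (nat_lit 181) (nat_lit 90) (nat_lit 179)) (PT.lf (nat_lit 2280) (nat_lit 6) (nat_lit 30) (nat_lit 3) (nat_lit 178) (nat_lit 91) (nat_lit 181)))) (PT.nd (nat_lit 156) (PT.nd (nat_lit 78) (PT.lf (nat_lit 2356) (nat_lit 6) (nat_lit 31) (nat_lit 3) (nat_lit 179) (nat_lit 91) (nat_lit 180)) (PT.lf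 (nat_lit 2356) (nat_lit 6) (nat_lit 31) (nat_lit 1) (nat_lit 180) (nat_lit 91) (nat_lit 179))) (PT.nd (nat_lit 46644) (PT.lf (nat_lit 2280) (nat_lit 6) (nat_lit 30) (nat_lit 1) (nat_lit 181) (nat_lit 91) (nat_lit 178)) (PT.lf (nat_lit 2432) (nat_lit 6) (nat_lit 32) (nat_lit 3) (nat_lit 178) (nat_lit 92) (nat_lit 180))))) (PT.nd (nat_lit 46878) (PT.nd (nat_lit 46722) (PT.nd (nat_lit 78) (PT.lf (nat_lit 2508) (nat_lit 3) (nat_lit 33) (nat_lit 1) (nat_lit 179) (nat_lit 92) (nat_lit 179)) (PT.lf (nat_lit 2432) (nat_lit 6) (nat_lit 32) (nat_lit 1) (nat_lit 180) (nat_lit 92) (nat_lit 178))) (PT.nd (nat_lit 78) (PT.lf (nat_lit 2584) (nat_lit 6) (nat_lit 34) (nat_lit 3) (nat_lit 177) (nat_lit 93) (nat_lit 180)) (PT.lf (nat_lit 2660) (nat_lit 6) (nat_lit 35) (nat_lit 3) (nat_lit 178) (nat_lit 93) (nat_lit 179)))) (PT.nd (nat_lit 46722) (PT.nd (nat_lit 78) (PT.lf (nat_lit 2660) (nat_lit 6) (nat_lit 35) (nat_lit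 1) (nat_lit 179) (nat_lit 93) (nat_lit 178)) (PT.lf (nat_lit 2584) (nat_lit 6) (nat_lit 34) (nat_lit 1) (nat_lit 180) (nat_lit 93) (nat_lit 177))) (PT.nd (nat_lit 78) (PT.lf (nat_lit 2736) (nat_lit 6) (nat_lit 36) (nat_lit 3) (nat_lit 177) (nat_lit 94) (nat_lit 179)) (PT.lf (nat_lit 2812) (nat_lit 3) (nat_lit 37) (nat_lit 1) (nat_lit 178) (nat_lit 94) (nat_lit 178))))))))
noncomputable def pc1 : PT := (PT.nd (nat_lit 374556) (PT.nd (nat_lit 187356) (PT.nd (nat_lit 93678) (PT.nd (nat_lit 46800) (PT.nd (nat_lit 46644) (PT.lf (nat_lit 2736) (nat_lit 6) (nat_lit 36) (nat_lit 1) (nat_lit 179) (nat_lit 94) (nat_lit 177)) (PT.nd (nat_lit 78) (PT.lf (nat_lit 2888) (nat_lit 6) (nat_lit 38) (nat_lit 3) (nat_lit 176) (nat_lit 95) (nat_lit 179)) (PT.lf (nat_lit 2964) (nat_lit 6) (nat_lit 39) (nat_lit 3) (nat_lit 177) (nat_lit 95) (nat_lit 178)))) (PT.nd (nat_lit 46722) (PT.nd (nat_lit 78) (PT.lf (nat_lit 2964) (nat_lit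 6) (nat_lit 39) (nat_lit 1) (nat_lit 178) (nat_lit 95) (nat_lit 177)) (PT.lf (nat_lit 2888) (nat_lit 6) (nat_lit 38) (nat_lit 1) (nat_lit 179) (nat_lit 95) (nat_lit 176))) (PT.nd (nat_lit 78) (PT.lf (nat_lit 3040) (nat_lit 6) (nat_lit 40) (nat_lit 3) (nat_lit 176) (nat_lit 96) (nat_lit 178)) (PT.lf (nat_lit 3116) (nat_lit 3) (nat_lit 41) (nat_lit 1) (nat_lit 177) (nat_lit 96) (nat_lit 177))))) (PT.nd (nat_lit 46878) (PT.nd (nat_lit 46722) (PT.nd (nat_lit 46644) (PT.lf (nat_lit 3040) (nat_lit 6) (nat_lit 40) (nat_lit 1) (nat_lit 178) (nat_lit 96) (nat_lit 176)) (PT.lf (nat_lit 3192) (nat_lit 6) (nat_lit 42) (nat_lit 3) (nat_lit 175) (nat_lit 97) (nat_lit 178))) (PT.nd (nat_lit 78) (PT.lf (nat_lit 3268) (nat_lit 6) (nat_lit 43) (nat_lit 3) (nat_lit 176) (nat_lit 97) (nat_lit 177)) (PT.lf (nat_lit 3268) (nat_lit 6) (nat_lit 43) (nat_lit 1) (nat_lit 177) (nat_lit 97) (nat_lit 176)))) (PT.nd (nat_lit 46644)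 (PT.nd (nat_lit 46566) (PT.lf (nat_lit 3192) (nat_lit 6) (nat_lit 42) (nat_lit 1) (nat_lit 178) (nat_lit 97) (nat_lit 175)) (PT.lf (nat_lit 3344) (nat_lit 6) (nat_lit 44) (nat_lit 3) (nat_lit 174) (nat_lit 98) (nat_lit 178))) (PT.nd (nat_lit 78) (PT.lf (nat_lit 3420) (nat_lit 6) (nat_lit 45) (nat_lit 3) (nat_lit 175) (nat_lit 98) (nat_lit 177)) (PT.lf (nat_lit 3496) (nat_lit 3) (nat_lit 46) (nat_lit 1) (nat_lit 176) (nat_lit 98) (nat_lit 176)))))) (PT.nd (nat_lit 93600) (PT.nd (nat_lit 46800) (PT.nd (nat_lit 46644) (PT.nd (nat_lit 78) (PT.lf (nat_lit 3420) (nat_lit 6) (nat_lit 45) (nat_lit 1) (nat_lit 177) (nat_lit 98) (nat_lit 175)) (PT.lf (nat_lit 3344) (nat_lit 6) (nat_lit 44) (nat_lit 1) (nat_lit 178) (nat_lit 98) (nat_lit 174))) (PT.nd (nat_lit 78) (PT.lf (nat_lit 3572) (nat_lit 6) (nat_lit 47) (nat_lit 3) (nat_lit 174) (nat_lit 99) (nat_lit 177)) (PT.lf (nat_lit 3648) (nat_lit 6) (nat_lit 48) (nat_lit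 3) (nat_lit 175) (nat_lit 99) (nat_lit 176)))) (PT.nd (nat_lit 46644) (PT.nd (nat_lit 78) (PT.lf (nat_lit 3648) (nat_lit 6) (nat_lit 48) (nat_lit 1) (nat_lit 176) (nat_lit 99) (nat_lit 175)) (PT.lf (nat_lit 3572) (nat_lit 6) (nat_lit 47) (nat_lit 1) (nat_lit 177) (nat_lit 99) (nat_lit 174))) (PT.nd (nat_lit 78) (PT.lf (nat_lit 3724) (nat_lit 6) (nat_lit 49) (nat_lit 3) (nat_lit 173) (nat_lit 100) (nat_lit 177)) (PT.lf (nat_lit 3800) (nat_lit 6) (nat_lit 50) (nat_lit 3) (nat_lit 174) (nat_lit 100) (nat_lit 176))))) (PT.nd (nat_lit 46800) (PT.nd (nat_lit 156) (PT.nd (nat_lit 78) (PT.lf (nat_lit 3876) (nat_lit 3) (nat_lit 51) (nat_lit 1) (nat_lit 175) (nat_lit 100) (nat_lit 175)) (PT.lf (nat_lit 3800) (nat_lit 6) (nat_lit 50) (nat_lit 1) (nat_lit 176) (nat_lit 100) (nat_lit 174))) (PT.nd (nat_lit 46566) (PT.lf (nat_lit 3724) (nat_lit 6) (nat_lit 49) (nat_lit 1) (nat_lit 177) (nat_lit 100) (nat_lit 173)) (PT.lf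 (nat_lit 3952) (nat_lit 6) (nat_lit 52) (nat_lit 3) (nat_lit 173) (nat_lit 101) (nat_lit 176)))) (PT.nd (nat_lit 156) (PT.nd (nat_lit 78) (PT.lf (nat_lit 4028) (nat_lit 6) (nat_lit 53) (nat_lit 3) (nat_lit 174) (nat_lit 101) (nat_lit 175)) (PT.lf (nat_lit 4028) (nat_lit 6) (nat_lit 53) (nat_lit 1) (nat_lit 175) (nat_lit 101) (nat_lit 174))) (PT.nd (nat_lit 46566) (PT.lf (nat_lit 3952) (nat_lit 6) (nat_lit 52) (nat_lit 1) (nat_lit 176) (nat_lit 101) (nat_lit 173)) (PT.lf (nat_lit 4104) (nat_lit 6) (nat_lit 54) (nat_lit 3) (nat_lit 172) (nat_lit 102) (nat_lit 176))))))) (PT.nd (nat_lit 140556) (PT.nd (nat_lit 47034) (PT.nd (nat_lit 234) (PT.nd (nat_lit 78) (PT.lf (nat_lit 4180) (nat_lit 6) (nat_lit 55) (nat_lit 3) (nat_lit 173) (nat_lit 102) (nat_lit 175)) (PT.nd (nat_lit 78) (PT.lf (nat_lit 4256) (nat_lit 3) (nat_lit 56) (nat_lit 1) (nat_lit 174) (nat_lit 102) (nat_lit 174)) (PT.lf (nat_lit 4180) (nat_lit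 6) (nat_lit 55) (nat_lit 1) (nat_lit 175) (nat_lit 102) (nat_lit 173)))) (PT.nd (nat_lit 46644) (PT.nd (nat_lit 46566) (PT.lf (nat_lit 4104) (nat_lit 6) (nat_lit 54) (nat_lit 1) (nat_lit 176) (nat_lit 102) (nat_lit 172)) (PT.lf (nat_lit 4332) (nat_lit 6) (nat_lit 57) (nat_lit 3) (nat_lit 172) (nat_lit 103) (nat_lit 175))) (PT.nd (nat_lit 78) (PT.lf (nat_lit 4408) (nat_lit 6) (nat_lit 58) (nat_lit 3) (nat_lit 173) (nat_lit 103) (nat_lit 174)) (PT.lf (nat_lit 4408) (nat_lit 6) (nat_lit 58) (nat_lit 1) (nat_lit 174) (nat_lit 103) (nat_lit 173))))) (PT.nd (nat_lit 46800) (PT.nd (nat_lit 46644) (PT.nd (nat_lit 46566) (PT.lf (nat_lit 4332) (nat_lit 6) (nat_lit 57) (nat_lit 1) (nat_lit 175) (nat_lit 103) (nat_lit 172)) (PT.lf (nat_lit 4484) (nat_lit 6) (nat_lit 59) (nat_lit 3) (nat_lit 171) (nat_lit 104) (nat_lit 175))) (PT.nd (nat_lit 78) (PT.lf (nat_lit 4560) (nat_lit 6) (nat_lit 60) (nat_lit 3) (nat_lit 172)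 (nat_lit 104) (nat_lit 174)) (PT.lf (nat_lit 4636) (nat_lit 3) (nat_lit 61) (nat_lit 1) (nat_lit 173) (nat_lit 104) (nat_lit 173)))) (PT.nd (nat_lit 46566) (PT.nd (nat_lit 78) (PT.lf (nat_lit 4560) (nat_lit 6) (nat_lit 60) (nat_lit 1) (nat_lit 174) (nat_lit 104) (nat_lit 172)) (PT.lf (nat_lit 4484) (nat_lit 6) (nat_lit 59) (nat_lit 1) (nat_lit 175) (nat_lit 104) (nat_lit 171))) (PT.nd (nat_lit 78) (PT.lf (nat_lit 4712) (nat_lit 6) (nat_lit 62) (nat_lit 3) (nat_lit 170) (nat_lit 105) (nat_lit 175)) (PT.lf (nat_lit 4788) (nat_lit 6) (nat_lit 63) (nat_lit 3) (nat_lit 171) (nat_lit 105) (nat_lit 174)))))) (PT.nd (nat_lit 47034) (PT.nd (nat_lit 46722) (PT.nd (nat_lit 156) (PT.nd (nat_lit 78) (PT.lf (nat_lit 4864) (nat_lit 6) (nat_lit 64) (nat_lit 3) (nat_lit 172) (nat_lit 105) (nat_lit 173)) (PT.lf (nat_lit 4864) (nat_lit 6) (nat_lit 64) (nat_lit 1) (nat_lit 173) (nat_lit 105) (nat_lit 172))) (PT.nd (nat_lit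 78) (PT.lf (nat_lit 4788) (nat_lit 6) (nat_lit 63) (nat_lit 1) (nat_lit 174) (nat_lit 105) (nat_lit 171)) (PT.lf (nat_lit 4712) (nat_lit 6) (nat_lit 62) (nat_lit 1) (nat_lit 175) (nat_lit 105) (nat_lit 170)))) (PT.nd (nat_lit 156) (PT.nd (nat_lit 78) (PT.lf (nat_lit 4940) (nat_lit 6) (nat_lit 65) (nat_lit 3) (nat_lit 170) (nat_lit 106) (nat_lit 174)) (PT.lf (nat_lit 5016) (nat_lit 6) (nat_lit 66) (nat_lit 3) (nat_lit 171) (nat_lit 106) (nat_lit 173))) (PT.nd (nat_lit 78) (PT.lf (nat_lit 5092) (nat_lit 3) (nat_lit 67) (nat_lit 1) (nat_lit 172) (nat_lit 106) (nat_lit 172)) (PT.lf (nat_lit 5016) (nat_lit 6) (nat_lit 66) (nat_lit 1) (nat_lit 173) (nat_lit 106) (nat_lit 171))))) (PT.nd (nat_lit 46722) (PT.nd (nat_lit 46566) (PT.nd (nat_lit 46488) (PT.lf (nat_lit 4940) (nat_lit 6) (nat_lit 65) (nat_lit 1) (nat_lit 174) (nat_lit 106) (nat_lit 170)) (PT.lf (nat_lit 5168) (nat_lit 6) (nat_lit 68) (nat_lit 3) (nat_lit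 169) (nat_lit 107) (nat_lit 174))) (PT.nd (nat_lit 78) (PT.lf (nat_lit 5244) (nat_lit 6) (nat_lit 69) (nat_lit 3) (nat_lit 170) (nat_lit 107) (nat_lit 173)) (PT.lf (nat_lit 5320) (nat_lit 6) (nat_lit 70) (nat_lit 3) (nat_lit 171) (nat_lit 107) (nat_lit 172)))) (PT.nd (nat_lit 156) (PT.nd (nat_lit 78) (PT.lf (nat_lit 5320) (nat_lit 6) (nat_lit 70) (nat_lit 1) (nat_lit 172) (nat_lit 107) (nat_lit 171)) (PT.lf (nat_lit 5244) (nat_lit 6) (nat_lit 69) (nat_lit 1) (nat_lit 173) (nat_lit 107) (nat_lit 170))) (PT.nd (nat_lit 46410) (PT.lf (nat_lit 5168) (nat_lit 6) (nat_lit 68) (nat_lit 1) (nat_lit 174) (nat_lit 107) (nat_lit 169)) (PT.lf (nat_lit 5396) (nat_lit 6) (nat_lit 71) (nat_lit 3) (nat_lit 168) (nat_lit 108) (nat_lit 174))))))))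
noncomputable def pc2 : PT := (PT.nd (nat_lit 187668) (PT.nd (nat_lit 93834) (PT.nd (nat_lit 46878) (PT.nd (nat_lit 234) (PT.nd (nat_lit 78) (PT.lf (nat_lit 5472) (nat_lit 6) (nat_lit 72) (nat_lit 3) (nat_lit 169) (nat_lit 108) (nat_lit 173)) (PT.nd (nat_lit 78) (PT.lf (nat_lit 5548) (nat_lit 6) (nat_lit 73) (nat_lit 3) (nat_lit 170) (nat_lit 108) (nat_lit 172)) (PT.lf (nat_lit 5624) (nat_lit 3) (nat_lit 74) (nat_lit 1) (nat_lit 171) (nat_lit 108) (nat_lit 171)))) (PT.nd (nat_lit 156) (PT.nd (nat_lit 78) (PT.lf (nat_lit 5548) (nat_lit 6) (nat_lit 73) (nat_lit 1) (nat_lit 172) (nat_lit 108) (nat_lit 170)) (PT.lf (nat_lit 5472) (nat_lit 6) (nat_lit 72) (nat_lit 1) (nat_lit 173) (nat_lit 108) (nat_lit 169))) (PT.nd (nat_lit 46410) (PT.lf (nat_lit 5396) (nat_lit 6) (nat_lit 71) (nat_lit 1) (nat_lit 174) (nat_lit 108) (nat_lit 168)) (PT.lf (nat_lit 5700) (nat_lit 6) (nat_lit 75) (nat_lit 3) (nat_lit 168) (nat_lit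 109) (nat_lit 173))))) (PT.nd (nat_lit 312) (PT.nd (nat_lit 156) (PT.nd (nat_lit 78) (PT.lf (nat_lit 5776) (nat_lit 6) (nat_lit 76) (nat_lit 3) (nat_lit 169) (nat_lit 109) (nat_lit 172)) (PT.lf (nat_lit 5852) (nat_lit 6) (nat_lit 77) (nat_lit 3) (nat_lit 170) (nat_lit 109) (nat_lit 171))) (PT.nd (nat_lit 78) (PT.lf (nat_lit 5852) (nat_lit 6) (nat_lit 77) (nat_lit 1) (nat_lit 171) (nat_lit 109) (nat_lit 170)) (PT.lf (nat_lit 5776) (nat_lit 6) (nat_lit 76) (nat_lit 1) (nat_lit 172) (nat_lit 109) (nat_lit 169)))) (PT.nd (nat_lit 46488) (PT.nd (nat_lit 46410) (PT.lf (nat_lit 5700) (nat_lit 6) (nat_lit 75) (nat_lit 1) (nat_lit 173) (nat_lit 109) (nat_lit 168)) (PT.lf (nat_lit 5928) (nat_lit 6) (nat_lit 78) (nat_lit 3) (nat_lit 167) (nat_lit 110) (nat_lit 173))) (PT.nd (nat_lit 78) (PT.lf (nat_lit 6004) (nat_lit 6) (nat_lit 79) (nat_lit 3) (nat_lit 168) (nat_lit 110) (nat_lit 172)) (PT.lf (nat_lit 6080) (nat_lit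 6) (nat_lit 80) (nat_lit 3) (nat_lit 169) (nat_lit 110) (nat_lit 171)))))) (PT.nd (nat_lit 46878) (PT.nd (nat_lit 234) (PT.nd (nat_lit 78) (PT.lf (nat_lit 6156) (nat_lit 3) (nat_lit 81) (nat_lit 1) (nat_lit 170) (nat_lit 110) (nat_lit 170)) (PT.nd (nat_lit 78) (PT.lf (nat_lit 6080) (nat_lit 6) (nat_lit 80) (nat_lit 1) (nat_lit 171) (nat_lit 110) (nat_lit 169)) (PT.lf (nat_lit 6004) (nat_lit 6) (nat_lit 79) (nat_lit 1) (nat_lit 172) (nat_lit 110) (nat_lit 168)))) (PT.nd (nat_lit 46488) (PT.nd (nat_lit 46410) (PT.lf (nat_lit 5928) (nat_lit 6) (nat_lit 78) (nat_lit 1) (nat_lit 173) (nat_lit 110) (nat_lit 167)) (PT.lf (nat_lit 6232) (nat_lit 6) (nat_lit 82) (nat_lit 3) (nat_lit 167) (nat_lit 111) (nat_lit 172))) (PT.nd (nat_lit 78) (PT.lf (nat_lit 6308) (nat_lit 6) (nat_lit 83) (nat_lit 3) (nat_lit 168) (nat_lit 111) (nat_lit 171)) (PT.lf (nat_lit 6384) (nat_lit 6) (nat_lit 84) (nat_lit 3) (nat_lit 169) (nat_lit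 111) (nat_lit 170))))) (PT.nd (nat_lit 46644) (PT.nd (nat_lit 156) (PT.nd (nat_lit 78) (PT.lf (nat_lit 6384) (nat_lit 6) (nat_lit 84) (nat_lit 1) (nat_lit 170) (nat_lit 111) (nat_lit 169)) (PT.lf (nat_lit 6308) (nat_lit 6) (nat_lit 83) (nat_lit 1) (nat_lit 171) (nat_lit 111) (nat_lit 168))) (PT.nd (nat_lit 46410) (PT.lf (nat_lit 6232) (nat_lit 6) (nat_lit 82) (nat_lit 1) (nat_lit 172) (nat_lit 111) (nat_lit 167)) (PT.lf (nat_lit 6460) (nat_lit 6) (nat_lit 85) (nat_lit 3) (nat_lit 166) (nat_lit 112) (nat_lit 172)))) (PT.nd (nat_lit 156) (PT.nd (nat_lit 78) (PT.lf (nat_lit 6536) (nat_lit 6) (nat_lit 86) (nat_lit 3) (nat_lit 167) (nat_lit 112) (nat_lit 171)) (PT.lf (nat_lit 6612) (nat_lit 6) (nat_lit 87) (nat_lit 3) (nat_lit 168) (nat_lit 112) (nat_lit 170))) (PT.nd (nat_lit 78) (PT.lf (nat_lit 6688) (nat_lit 3) (nat_lit 88) (nat_lit 1) (nat_lit 169) (nat_lit 112) (nat_lit 169)) (PT.lf (nat_lit 6612) (nat_lit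 6) (nat_lit 87) (nat_lit 1) (nat_lit 170) (nat_lit 112) (nat_lit 168))))))) (PT.nd (nat_lit 93678) (PT.nd (nat_lit 46800) (PT.nd (nat_lit 46488) (PT.nd (nat_lit 78) (PT.lf (nat_lit 6536) (nat_lit 6) (nat_lit 86) (nat_lit 1) (nat_lit 171) (nat_lit 112) (nat_lit 167)) (PT.nd (nat_lit 46332) (PT.lf (nat_lit 6460) (nat_lit 6) (nat_lit 85) (nat_lit 1) (nat_lit 172) (nat_lit 112) (nat_lit 166)) (PT.lf (nat_lit 6764) (nat_lit 6) (nat_lit 89) (nat_lit 3) (nat_lit 165) (nat_lit 113) (nat_lit 172)))) (PT.nd (nat_lit 156) (PT.nd (nat_lit 78) (PT.lf (nat_lit 6840) (nat_lit 6) (nat_lit 90) (nat_lit 3) (nat_lit 166) (nat_lit 113) (nat_lit 171)) (PT.lf (nat_lit 6916) (nat_lit 6) (nat_lit 91) (nat_lit 3) (nat_lit 167) (nat_lit 113) (nat_lit 170))) (PT.nd (nat_lit 78) (PT.lf (nat_lit 6992) (nat_lit 6) (nat_lit 92) (nat_lit 3) (nat_lit 168) (nat_lit 113) (nat_lit 169)) (PT.lf (nat_lit 6992) (nat_lit 6) (nat_lit 92) (nat_lit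 1) (nat_lit 169) (nat_lit 113) (nat_lit 168))))) (PT.nd (nat_lit 46566) (PT.nd (nat_lit 156) (PT.nd (nat_lit 78) (PT.lf (nat_lit 6916) (nat_lit 6) (nat_lit 91) (nat_lit 1) (nat_lit 170) (nat_lit 113) (nat_lit 167)) (PT.lf (nat_lit 6840) (nat_lit 6) (nat_lit 90) (nat_lit 1) (nat_lit 171) (nat_lit 113) (nat_lit 166))) (PT.nd (nat_lit 46332) (PT.lf (nat_lit 6764) (nat_lit 6) (nat_lit 89) (nat_lit 1) (nat_lit 172) (nat_lit 113) (nat_lit 165)) (PT.lf (nat_lit 7068) (nat_lit 6) (nat_lit 93) (nat_lit 3) (nat_lit 165) (nat_lit 114) (nat_lit 171)))) (PT.nd (nat_lit 156) (PT.nd (nat_lit 78) (PT.lf (nat_lit 7144) (nat_lit 6) (nat_lit 94) (nat_lit 3) (nat_lit 166) (nat_lit 114) (nat_lit 170)) (PT.lf (nat_lit 7220) (nat_lit 6) (nat_lit 95) (nat_lit 3) (nat_lit 167) (nat_lit 114) (nat_lit 169))) (PT.nd (nat_lit 78) (PT.lf (nat_lit 7296) (nat_lit 3) (nat_lit 96) (nat_lit 1) (nat_lit 168) (nat_lit 114) (nat_lit 168))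 (PT.lf (nat_lit 7220) (nat_lit 6) (nat_lit 95) (nat_lit 1) (nat_lit 169) (nat_lit 114) (nat_lit 167)))))) (PT.nd (nat_lit 46878) (PT.nd (nat_lit 46566) (PT.nd (nat_lit 46410) (PT.nd (nat_lit 78) (PT.lf (nat_lit 7144) (nat_lit 6) (nat_lit 94) (nat_lit 1) (nat_lit 170) (nat_lit 114) (nat_lit 166)) (PT.lf (nat_lit 7068) (nat_lit 6) (nat_lit 93) (nat_lit 1) (nat_lit 171) (nat_lit 114) (nat_lit 165))) (PT.nd (nat_lit 78) (PT.lf (nat_lit 7372) (nat_lit 6) (nat_lit 97) (nat_lit 3) (nat_lit 164) (nat_lit 115) (nat_lit 171)) (PT.lf (nat_lit 7448) (nat_lit 6) (nat_lit 98) (nat_lit 3) (nat_lit 165) (nat_lit 115) (nat_lit 170)))) (PT.nd (nat_lit 156) (PT.nd (nat_lit 78) (PT.lf (nat_lit 7524) (nat_lit 6) (nat_lit 99) (nat_lit 3) (nat_lit 166) (nat_lit 115) (nat_lit 169)) (PT.lf (nat_lit 7600) (nat_lit 6) (nat_lit 100) (nat_lit 3) (nat_lit 167) (nat_lit 115) (nat_lit 168))) (PT.nd (nat_lit 78) (PT.lf (nat_lit 7600)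 (nat_lit 6) (nat_lit 100) (nat_lit 1) (nat_lit 168) (nat_lit 115) (nat_lit 167)) (PT.lf (nat_lit 7524) (nat_lit 6) (nat_lit 99) (nat_lit 1) (nat_lit 169) (nat_lit 115) (nat_lit 166))))) (PT.nd (nat_lit 46488) (PT.nd (nat_lit 46332) (PT.nd (nat_lit 78) (PT.lf (nat_lit 7448) (nat_lit 6) (nat_lit 98) (nat_lit 1) (nat_lit 170) (nat_lit 115) (nat_lit 165)) (PT.lf (nat_lit 7372) (nat_lit 6) (nat_lit 97) (nat_lit 1) (nat_lit 171) (nat_lit 115) (nat_lit 164))) (PT.nd (nat_lit 78) (PT.lf (nat_lit 7676) (nat_lit 6) (nat_lit 101) (nat_lit 3) (nat_lit 163) (nat_lit 116) (nat_lit 171)) (PT.lf (nat_lit 7752) (nat_lit 6) (nat_lit 102) (nat_lit 3) (nat_lit 164) (nat_lit 116) (nat_lit 170)))) (PT.nd (nat_lit 156) (PT.nd (nat_lit 78) (PT.lf (nat_lit 7828) (nat_lit 6) (nat_lit 103) (nat_lit 3) (nat_lit 165) (nat_lit 116) (nat_lit 169)) (PT.lf (nat_lit 7904) (nat_lit 6) (nat_lit 104) (nat_lit 3) (nat_lit 166) (nat_lit 116)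 (nat_lit 168))) (PT.nd (nat_lit 78) (PT.lf (nat_lit 7980) (nat_lit 3) (nat_lit 105) (nat_lit 1) (nat_lit 167) (nat_lit 116) (nat_lit 167)) (PT.lf (nat_lit 7904) (nat_lit 6) (nat_lit 104) (nat_lit 1) (nat_lit 168) (nat_lit 116) (nat_lit 166))))))))
noncomputable def pc3 : PT := (PT.nd (nat_lit 186966) (PT.nd (nat_lit 93522) (PT.nd (nat_lit 46722) (PT.nd (nat_lit 46410) (PT.nd (nat_lit 78) (PT.lf (nat_lit 7828) (nat_lit 6) (nat_lit 103) (nat_lit 1) (nat_lit 169) (nat_lit 116) (nat_lit 165)) (PT.nd (nat_lit 78) (PT.lf (nat_lit 7752) (nat_lit 6) (nat_lit 102) (nat_lit 1) (nat_lit 170) (nat_lit 116) (nat_lit 164)) (PT.lf (nat_lit 7676) (nat_lit 6) (nat_lit 101) (nat_lit 1) (nat_lit 171) (nat_lit 116) (nat_lit 163)))) (PT.nd (nat_lit 156) (PT.nd (nat_lit 78) (PT.lf (nat_lit 8056) (nat_lit 6) (nat_lit 106) (nat_lit 3) (nat_lit 163) (nat_lit 117) (nat_lit 170)) (PT.lf (nat_lit 8132) (nat_lit 6) (nat_lit 107) (nat_lit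 3) (nat_lit 164) (nat_lit 117) (nat_lit 169))) (PT.nd (nat_lit 78) (PT.lf (nat_lit 8208) (nat_lit 6) (nat_lit 108) (nat_lit 3) (nat_lit 165) (nat_lit 117) (nat_lit 168)) (PT.lf (nat_lit 8284) (nat_lit 6) (nat_lit 109) (nat_lit 3) (nat_lit 166) (nat_lit 117) (nat_lit 167))))) (PT.nd (nat_lit 46488) (PT.nd (nat_lit 156) (PT.nd (nat_lit 78) (PT.lf (nat_lit 8284) (nat_lit 6) (nat_lit 109) (nat_lit 1) (nat_lit 167) (nat_lit 117) (nat_lit 166)) (PT.lf (nat_lit 8208) (nat_lit 6) (nat_lit 108) (nat_lit 1) (nat_lit 168) (nat_lit 117) (nat_lit 165))) (PT.nd (nat_lit 78) (PT.lf (nat_lit 8132) (nat_lit 6) (nat_lit 107) (nat_lit 1) (nat_lit 169) (nat_lit 117) (nat_lit 164)) (PT.lf (nat_lit 8056) (nat_lit 6) (nat_lit 106) (nat_lit 1) (nat_lit 170) (nat_lit 117) (nat_lit 163)))) (PT.nd (nat_lit 156) (PT.nd (nat_lit 78) (PT.lf (nat_lit 8360) (nat_lit 6) (nat_lit 110) (nat_lit 3) (nat_lit 162) (nat_lit 118) (nat_lit 170))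 (PT.lf (nat_lit 8436) (nat_lit 6) (nat_lit 111) (nat_lit 3) (nat_lit 163) (nat_lit 118) (nat_lit 169))) (PT.nd (nat_lit 78) (PT.lf (nat_lit 8512) (nat_lit 6) (nat_lit 112) (nat_lit 3) (nat_lit 164) (nat_lit 118) (nat_lit 168)) (PT.lf (nat_lit 8588) (nat_lit 6) (nat_lit 113) (nat_lit 3) (nat_lit 165) (nat_lit 118) (nat_lit 167)))))) (PT.nd (nat_lit 46722) (PT.nd (nat_lit 312) (PT.nd (nat_lit 156) (PT.nd (nat_lit 78) (PT.lf (nat_lit 8664) (nat_lit 3) (nat_lit 114) (nat_lit 1) (nat_lit 166) (nat_lit 118) (nat_lit 166)) (PT.lf (nat_lit 8588) (nat_lit 6) (nat_lit 113) (nat_lit 1) (nat_lit 167) (nat_lit 118) (nat_lit 165))) (PT.nd (nat_lit 78) (PT.lf (nat_lit 8512) (nat_lit 6) (nat_lit 112) (nat_lit 1) (nat_lit 168) (nat_lit 118) (nat_lit 164)) (PT.lf (nat_lit 8436) (nat_lit 6) (nat_lit 111) (nat_lit 1) (nat_lit 169) (nat_lit 118) (nat_lit 163)))) (PT.nd (nat_lit 46254) (PT.nd (nat_lit 46176) (PT.lf (nat_lit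 8360) (nat_lit 6) (nat_lit 110) (nat_lit 1) (nat_lit 170) (nat_lit 118) (nat_lit 162)) (PT.lf (nat_lit 8740) (nat_lit 6) (nat_lit 115) (nat_lit 3) (nat_lit 161) (nat_lit 119) (nat_lit 170))) (PT.nd (nat_lit 78) (PT.lf (nat_lit 8816) (nat_lit 6) (nat_lit 116) (nat_lit 3) (nat_lit 162) (nat_lit 119) (nat_lit 169)) (PT.lf (nat_lit 8892) (nat_lit 6) (nat_lit 117) (nat_lit 3) (nat_lit 163) (nat_lit 119) (nat_lit 168))))) (PT.nd (nat_lit 312) (PT.nd (nat_lit 156) (PT.nd (nat_lit 78) (PT.lf (nat_lit 8968) (nat_lit 6) (nat_lit 118) (nat_lit 3) (nat_lit 164) (nat_lit 119) (nat_lit 167)) (PT.lf (nat_lit 9044) (nat_lit 6) (nat_lit 119) (nat_lit 3) (nat_lit 165) (nat_lit 119) (nat_lit 166))) (PT.nd (nat_lit 78) (PT.lf (nat_lit 9044) (nat_lit 6) (nat_lit 119) (nat_lit 1) (nat_lit 166) (nat_lit 119) (nat_lit 165)) (PT.lf (nat_lit 8968) (nat_lit 6) (nat_lit 118) (nat_lit 1) (nat_lit 167) (nat_lit 119) (nat_lit 164))))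 (PT.nd (nat_lit 156) (PT.nd (nat_lit 78) (PT.lf (nat_lit 8892) (nat_lit 6) (nat_lit 117) (nat_lit 1) (nat_lit 168) (nat_lit 119) (nat_lit 163)) (PT.lf (nat_lit 8816) (nat_lit 6) (nat_lit 116) (nat_lit 1) (nat_lit 169) (nat_lit 119) (nat_lit 162))) (PT.nd (nat_lit 46176) (PT.lf (nat_lit 8740) (nat_lit 6) (nat_lit 115) (nat_lit 1) (nat_lit 170) (nat_lit 119) (nat_lit 161)) (PT.lf (nat_lit 9120) (nat_lit 6) (nat_lit 120) (nat_lit 3) (nat_lit 161) (nat_lit 120) (nat_lit 169))))))) (PT.nd (nat_lit 47268) (PT.nd (nat_lit 546) (PT.nd (nat_lit 234) (PT.nd (nat_lit 78) (PT.lf (nat_lit 9196) (nat_lit 6) (nat_lit 121) (nat_lit 3) (nat_lit 162) (nat_lit 120) (nat_lit 168)) (PT.nd (nat_lit 78) (PT.lf (nat_lit 9272) (nat_lit 6) (nat_lit 122) (nat_lit 3) (nat_lit 163) (nat_lit 120) (nat_lit 167)) (PT.lf (nat_lit 9348) (nat_lit 6) (nat_lit 123) (nat_lit 3) (nat_lit 164) (nat_lit 120) (nat_lit 166)))) (PT.nd (nat_lit 156)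 (PT.nd (nat_lit 78) (PT.lf (nat_lit 9424) (nat_lit 3) (nat_lit 124) (nat_lit 1) (nat_lit 165) (nat_lit 120) (nat_lit 165)) (PT.lf (nat_lit 9348) (nat_lit 6) (nat_lit 123) (nat_lit 1) (nat_lit 166) (nat_lit 120) (nat_lit 164))) (PT.nd (nat_lit 78) (PT.lf (nat_lit 9272) (nat_lit 6) (nat_lit 122) (nat_lit 1) (nat_lit 167) (nat_lit 120) (nat_lit 163)) (PT.lf (nat_lit 9196) (nat_lit 6) (nat_lit 121) (nat_lit 1) (nat_lit 168) (nat_lit 120) (nat_lit 162))))) (PT.nd (nat_lit 46410) (PT.nd (nat_lit 46254) (PT.nd (nat_lit 46176) (PT.lf (nat_lit 9120) (nat_lit 6) (nat_lit 120) (nat_lit 1) (nat_lit 169) (nat_lit 120) (nat_lit 161)) (PT.lf (nat_lit 9500) (nat_lit 6) (nat_lit 125) (nat_lit 3) (nat_lit 160) (nat_lit 121) (nat_lit 169))) (PT.nd (nat_lit 78) (PT.lf (nat_lit 9576) (nat_lit 6) (nat_lit 126) (nat_lit 3) (nat_lit 161) (nat_lit 121) (nat_lit 168)) (PT.lf (nat_lit 9652) (nat_lit 6) (nat_lit 127) (nat_lit 3)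 (nat_lit 162) (nat_lit 121) (nat_lit 167)))) (PT.nd (nat_lit 156) (PT.nd (nat_lit 78) (PT.lf (nat_lit 9728) (nat_lit 6) (nat_lit 128) (nat_lit 3) (nat_lit 163) (nat_lit 121) (nat_lit 166)) (PT.lf (nat_lit 9804) (nat_lit 6) (nat_lit 129) (nat_lit 3) (nat_lit 164) (nat_lit 121) (nat_lit 165))) (PT.nd (nat_lit 78) (PT.lf (nat_lit 9804) (nat_lit 6) (nat_lit 129) (nat_lit 1) (nat_lit 165) (nat_lit 121) (nat_lit 164)) (PT.lf (nat_lit 9728) (nat_lit 6) (nat_lit 128) (nat_lit 1) (nat_lit 166) (nat_lit 121) (nat_lit 163)))))) (PT.nd (nat_lit 46644) (PT.nd (nat_lit 46332) (PT.nd (nat_lit 156) (PT.nd (nat_lit 78) (PT.lf (nat_lit 9652) (nat_lit 6) (nat_lit 127) (nat_lit 1) (nat_lit 167) (nat_lit 121) (nat_lit 162)) (PT.lf (nat_lit 9576) (nat_lit 6) (nat_lit 126) (nat_lit 1) (nat_lit 168) (nat_lit 121) (nat_lit 161))) (PT.nd (nat_lit 46098) (PT.lf (nat_lit 9500) (nat_lit 6) (nat_lit 125) (nat_lit 1) (nat_lit 169) (nat_lit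 121) (nat_lit 160)) (PT.lf (nat_lit 9880) (nat_lit 6) (nat_lit 130) (nat_lit 3) (nat_lit 159) (nat_lit 122) (nat_lit 169)))) (PT.nd (nat_lit 156) (PT.nd (nat_lit 78) (PT.lf (nat_lit 9956) (nat_lit 6) (nat_lit 131) (nat_lit 3) (nat_lit 160) (nat_lit 122) (nat_lit 168)) (PT.lf (nat_lit 10032) (nat_lit 6) (nat_lit 132) (nat_lit 3) (nat_lit 161) (nat_lit 122) (nat_lit 167))) (PT.nd (nat_lit 78) (PT.lf (nat_lit 10108) (nat_lit 6) (nat_lit 133) (nat_lit 3) (nat_lit 162) (nat_lit 122) (nat_lit 166)) (PT.lf (nat_lit 10184) (nat_lit 6) (nat_lit 134) (nat_lit 3) (nat_lit 163) (nat_lit 122) (nat_lit 165))))) (PT.nd (nat_lit 312) (PT.nd (nat_lit 156) (PT.nd (nat_lit 78) (PT.lf (nat_lit 10260) (nat_lit 3) (nat_lit 135) (nat_lit 1) (nat_lit 164) (nat_lit 122) (nat_lit 164)) (PT.lf (nat_lit 10184) (nat_lit 6) (nat_lit 134) (nat_lit 1) (nat_lit 165) (nat_lit 122) (nat_lit 163))) (PT.nd (nat_lit 78) (PT.lf (nat_lit 10108)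 (nat_lit 6) (nat_lit 133) (nat_lit 1) (nat_lit 166) (nat_lit 122) (nat_lit 162)) (PT.lf (nat_lit 10032) (nat_lit 6) (nat_lit 132) (nat_lit 1) (nat_lit 167) (nat_lit 122) (nat_lit 161)))) (PT.nd (nat_lit 46176) (PT.nd (nat_lit 78) (PT.lf (nat_lit 9956) (nat_lit 6) (nat_lit 131) (nat_lit 1) (nat_lit 168) (nat_lit 122) (nat_lit 160)) (PT.lf (nat_lit 9880) (nat_lit 6) (nat_lit 130) (nat_lit 1) (nat_lit 169) (nat_lit 122) (nat_lit 159))) (PT.nd (nat_lit 78) (PT.lf (nat_lit 10336) (nat_lit 6) (nat_lit 136) (nat_lit 3) (nat_lit 159) (nat_lit 123) (nat_lit 168)) (PT.lf (nat_lit 10412) (nat_lit 6) (nat_lit 137) (nat_lit 3) (nat_lit 160) (nat_lit 123) (nat_lit 167))))))))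
noncomputable def pc4 : PT := (PT.nd (nat_lit 94302) (PT.nd (nat_lit 47190) (PT.nd (nat_lit 546) (PT.nd (nat_lit 234) (PT.nd (nat_lit 78) (PT.lf (nat_lit 10488) (nat_lit 6) (nat_lit 138) (nat_lit 3) (nat_lit 161) (nat_lit 123) (nat_lit 166)) (PT.nd (nat_lit 78) (PT.lf (nat_lit 10564) (nat_lit 6) (nat_lit 139) (nat_lit 3) (nat_lit 162) (nat_lit 123) (nat_lit 165)) (PT.lf (nat_lit 10640) (nat_lit 6) (nat_lit 140) (nat_lit 3) (nat_lit 163) (nat_lit 123) (nat_lit 164)))) (PT.nd (nat_lit 156) (PT.nd (nat_lit 78) (PT.lf (nat_lit 10640) (nat_lit 6) (nat_lit 140) (nat_lit 1) (nat_lit 164) (nat_lit 123) (nat_lit 163)) (PT.lf (nat_lit 10564) (nat_lit 6) (nat_lit 139) (nat_lit 1) (nat_lit 165) (nat_lit 123) (nat_lit 162))) (PT.nd (nat_lit 78) (PT.lf (nat_lit 10488) (nat_lit 6) (nat_lit 138) (nat_lit 1) (nat_lit 166) (nat_lit 123) (nat_lit 161)) (PT.lf (nat_lit 10412) (nat_lit 6) (nat_lit 137) (nat_lit 1) (nat_lit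 167) (nat_lit 123) (nat_lit 160))))) (PT.nd (nat_lit 46332) (PT.nd (nat_lit 46176) (PT.nd (nat_lit 46098) (PT.lf (nat_lit 10336) (nat_lit 6) (nat_lit 136) (nat_lit 1) (nat_lit 168) (nat_lit 123) (nat_lit 159)) (PT.lf (nat_lit 10716) (nat_lit 6) (nat_lit 141) (nat_lit 3) (nat_lit 158) (nat_lit 124) (nat_lit 168))) (PT.nd (nat_lit 78) (PT.lf (nat_lit 10792) (nat_lit 6) (nat_lit 142) (nat_lit 3) (nat_lit 159) (nat_lit 124) (nat_lit 167)) (PT.lf (nat_lit 10868) (nat_lit 6) (nat_lit 143) (nat_lit 3) (nat_lit 160) (nat_lit 124) (nat_lit 166)))) (PT.nd (nat_lit 156) (PT.nd (nat_lit 78) (PT.lf (nat_lit 10944) (nat_lit 6) (nat_lit 144) (nat_lit 3) (nat_lit 161) (nat_lit 124) (nat_lit 165)) (PT.lf (nat_lit 11020) (nat_lit 6) (nat_lit 145) (nat_lit 3) (nat_lit 162) (nat_lit 124) (nat_lit 164))) (PT.nd (nat_lit 78) (PT.lf (nat_lit 11096) (nat_lit 3) (nat_lit 146) (nat_lit 1) (nat_lit 163) (nat_lit 124) (nat_lit 163))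 (PT.lf (nat_lit 11020) (nat_lit 6) (nat_lit 145) (nat_lit 1) (nat_lit 164) (nat_lit 124) (nat_lit 162)))))) (PT.nd (nat_lit 46488) (PT.nd (nat_lit 234) (PT.nd (nat_lit 78) (PT.lf (nat_lit 10944) (nat_lit 6) (nat_lit 144) (nat_lit 1) (nat_lit 165) (nat_lit 124) (nat_lit 161)) (PT.nd (nat_lit 78) (PT.lf (nat_lit 10868) (nat_lit 6) (nat_lit 143) (nat_lit 1) (nat_lit 166) (nat_lit 124) (nat_lit 160)) (PT.lf (nat_lit 10792) (nat_lit 6) (nat_lit 142) (nat_lit 1) (nat_lit 167) (nat_lit 124) (nat_lit 159)))) (PT.nd (nat_lit 46098) (PT.nd (nat_lit 46020) (PT.lf (nat_lit 10716) (nat_lit 6) (nat_lit 141) (nat_lit 1) (nat_lit 168) (nat_lit 124) (nat_lit 158)) (PT.lf (nat_lit 11172) (nat_lit 6) (nat_lit 147) (nat_lit 3) (nat_lit 157) (nat_lit 125) (nat_lit 168))) (PT.nd (nat_lit 78) (PT.lf (nat_lit 11248) (nat_lit 6) (nat_lit 148) (nat_lit 3) (nat_lit 158) (nat_lit 125) (nat_lit 167)) (PT.lf (nat_lit 11324) (nat_lit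 6) (nat_lit 149) (nat_lit 3) (nat_lit 159) (nat_lit 125) (nat_lit 166))))) (PT.nd (nat_lit 312) (PT.nd (nat_lit 156) (PT.nd (nat_lit 78) (PT.lf (nat_lit 11400) (nat_lit 6) (nat_lit 150) (nat_lit 3) (nat_lit 160) (nat_lit 125) (nat_lit 165)) (PT.lf (nat_lit 11476) (nat_lit 6) (nat_lit 151) (nat_lit 3) (nat_lit 161) (nat_lit 125) (nat_lit 164))) (PT.nd (nat_lit 78) (PT.lf (nat_lit 11552) (nat_lit 6) (nat_lit 152) (nat_lit 3) (nat_lit 162) (nat_lit 125) (nat_lit 163)) (PT.lf (nat_lit 11552) (nat_lit 6) (nat_lit 152) (nat_lit 1) (nat_lit 163) (nat_lit 125) (nat_lit 162)))) (PT.nd (nat_lit 156) (PT.nd (nat_lit 78) (PT.lf (nat_lit 11476) (nat_lit 6) (nat_lit 151) (nat_lit 1) (nat_lit 164) (nat_lit 125) (nat_lit 161)) (PT.lf (nat_lit 11400) (nat_lit 6) (nat_lit 150) (nat_lit 1) (nat_lit 165) (nat_lit 125) (nat_lit 160))) (PT.nd (nat_lit 78) (PT.lf (nat_lit 11324) (nat_lit 6) (nat_lit 149) (nat_lit 1) (nat_lit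 166) (nat_lit 125) (nat_lit 159)) (PT.lf (nat_lit 11248) (nat_lit 6) (nat_lit 148) (nat_lit 1) (nat_lit 167) (nat_lit 125) (nat_lit 158))))))) (PT.nd (nat_lit 92898) (PT.nd (nat_lit 46410) (PT.nd (nat_lit 46098) (PT.nd (nat_lit 45942) (PT.lf (nat_lit 11172) (nat_lit 6) (nat_lit 147) (nat_lit 1) (nat_lit 168) (nat_lit 125) (nat_lit 157)) (PT.nd (nat_lit 78) (PT.lf (nat_lit 11628) (nat_lit 6) (nat_lit 153) (nat_lit 3) (nat_lit 156) (nat_lit 126) (nat_lit 168)) (PT.lf (nat_lit 11704) (nat_lit 6) (nat_lit 154) (nat_lit 3) (nat_lit 157) (nat_lit 126) (nat_lit 167)))) (PT.nd (nat_lit 156) (PT.nd (nat_lit 78) (PT.lf (nat_lit 11780) (nat_lit 6) (nat_lit 155) (nat_lit 3) (nat_lit 158) (nat_lit 126) (nat_lit 166)) (PT.lf (nat_lit 11856) (nat_lit 6) (nat_lit 156) (nat_lit 3) (nat_lit 159) (nat_lit 126) (nat_lit 165))) (PT.nd (nat_lit 78) (PT.lf (nat_lit 11932) (nat_lit 6) (nat_lit 157) (nat_lit 3) (nat_lit 160) (nat_lit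 126) (nat_lit 164)) (PT.lf (nat_lit 12008) (nat_lit 6) (nat_lit 158) (nat_lit 3) (nat_lit 161) (nat_lit 126) (nat_lit 163))))) (PT.nd (nat_lit 312) (PT.nd (nat_lit 156) (PT.nd (nat_lit 78) (PT.lf (nat_lit 12084) (nat_lit 3) (nat_lit 159) (nat_lit 1) (nat_lit 162) (nat_lit 126) (nat_lit 162)) (PT.lf (nat_lit 12008) (nat_lit 6) (nat_lit 158) (nat_lit 1) (nat_lit 163) (nat_lit 126) (nat_lit 161))) (PT.nd (nat_lit 78) (PT.lf (nat_lit 11932) (nat_lit 6) (nat_lit 157) (nat_lit 1) (nat_lit 164) (nat_lit 126) (nat_lit 160)) (PT.lf (nat_lit 11856) (nat_lit 6) (nat_lit 156) (nat_lit 1) (nat_lit 165) (nat_lit 126) (nat_lit 159)))) (PT.nd (nat_lit 156) (PT.nd (nat_lit 78) (PT.lf (nat_lit 11780) (nat_lit 6) (nat_lit 155) (nat_lit 1) (nat_lit 166) (nat_lit 126) (nat_lit 158)) (PT.lf (nat_lit 11704) (nat_lit 6) (nat_lit 154) (nat_lit 1) (nat_lit 167) (nat_lit 126) (nat_lit 157))) (PT.nd (nat_lit 45942) (PT.lf (nat_lit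 11628) (nat_lit 6) (nat_lit 153) (nat_lit 1) (nat_lit 168) (nat_lit 126) (nat_lit 156)) (PT.lf (nat_lit 12160) (nat_lit 6) (nat_lit 160) (nat_lit 3) (nat_lit 156) (nat_lit 127) (nat_lit 167)))))) (PT.nd (nat_lit 624) (PT.nd (nat_lit 312) (PT.nd (nat_lit 156) (PT.nd (nat_lit 78) (PT.lf (nat_lit 12236) (nat_lit 6) (nat_lit 161) (nat_lit 3) (nat_lit 157) (nat_lit 127) (nat_lit 166)) (PT.lf (nat_lit 12312) (nat_lit 6) (nat_lit 162) (nat_lit 3) (nat_lit 158) (nat_lit 127) (nat_lit 165))) (PT.nd (nat_lit 78) (PT.lf (nat_lit 12388) (nat_lit 6) (nat_lit 163) (nat_lit 3) (nat_lit 159) (nat_lit 127) (nat_lit 164)) (PT.lf (nat_lit 12464) (nat_lit 6) (nat_lit 164) (nat_lit 3) (nat_lit 160) (nat_lit 127) (nat_lit 163)))) (PT.nd (nat_lit 156) (PT.nd (nat_lit 78) (PT.lf (nat_lit 12540) (nat_lit 6) (nat_lit 165) (nat_lit 3) (nat_lit 161) (nat_lit 127) (nat_lit 162)) (PT.lf (nat_lit 12540) (nat_lit 6) (nat_lit 165) (nat_lit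 1) (nat_lit 162) (nat_lit 127) (nat_lit 161))) (PT.nd (nat_lit 78) (PT.lf (nat_lit 12464) (nat_lit 6) (nat_lit 164) (nat_lit 1) (nat_lit 163) (nat_lit 127) (nat_lit 160)) (PT.lf (nat_lit 12388) (nat_lit 6) (nat_lit 163) (nat_lit 1) (nat_lit 164) (nat_lit 127) (nat_lit 159))))) (PT.nd (nat_lit 46176) (PT.nd (nat_lit 156) (PT.nd (nat_lit 78) (PT.lf (nat_lit 12312) (nat_lit 6) (nat_lit 162) (nat_lit 1) (nat_lit 165) (nat_lit 127) (nat_lit 158)) (PT.lf (nat_lit 12236) (nat_lit 6) (nat_lit 161) (nat_lit 1) (nat_lit 166) (nat_lit 127) (nat_lit 157))) (PT.nd (nat_lit 45942) (PT.lf (nat_lit 12160) (nat_lit 6) (nat_lit 160) (nat_lit 1) (nat_lit 167) (nat_lit 127) (nat_lit 156)) (PT.lf (nat_lit 12616) (nat_lit 6) (nat_lit 166) (nat_lit 3) (nat_lit 155) (nat_lit 128) (nat_lit 167)))) (PT.nd (nat_lit 156) (PT.nd (nat_lit 78) (PT.lf (nat_lit 12692) (nat_lit 6) (nat_lit 167) (nat_lit 3) (nat_lit 156) (nat_lit 128) (nat_lit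 166)) (PT.lf (nat_lit 12768) (nat_lit 6) (nat_lit 168) (nat_lit 3) (nat_lit 157) (nat_lit 128) (nat_lit 165))) (PT.nd (nat_lit 78) (PT.lf (nat_lit 12844) (nat_lit 6) (nat_lit 169) (nat_lit 3) (nat_lit 158) (nat_lit 128) (nat_lit 164)) (PT.lf (nat_lit 12920) (nat_lit 6) (nat_lit 170) (nat_lit 3) (nat_lit 159) (nat_lit 128) (nat_lit 163))))))))
noncomputable def pc5 : PT := (PT.nd (nat_lit 93912) (PT.nd (nat_lit 46956) (PT.nd (nat_lit 546) (PT.nd (nat_lit 234) (PT.nd (nat_lit 78) (PT.lf (nat_lit 12996) (nat_lit 6) (nat_lit 171) (nat_lit 3) (nat_lit 160) (nat_lit 128) (nat_lit 162)) (PT.nd (nat_lit 78) (PT.lf (nat_lit 13072) (nat_lit 3) (nat_lit 172) (nat_lit 1) (nat_lit 161) (nat_lit 128) (nat_lit 161)) (PT.lf (nat_lit 12996) (nat_lit 6) (nat_lit 171) (nat_lit 1) (nat_lit 162) (nat_lit 128) (nat_lit 160)))) (PT.nd (nat_lit 156) (PT.nd (nat_lit 78) (PT.lf (nat_lit 12920) (nat_lit 6) (nat_lit 170) (nat_lit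 1) (nat_lit 163) (nat_lit 128) (nat_lit 159)) (PT.lf (nat_lit 12844) (nat_lit 6) (nat_lit 169) (nat_lit 1) (nat_lit 164) (nat_lit 128) (nat_lit 158))) (PT.nd (nat_lit 78) (PT.lf (nat_lit 12768) (nat_lit 6) (nat_lit 168) (nat_lit 1) (nat_lit 165) (nat_lit 128) (nat_lit 157)) (PT.lf (nat_lit 12692) (nat_lit 6) (nat_lit 167) (nat_lit 1) (nat_lit 166) (nat_lit 128) (nat_lit 156))))) (PT.nd (nat_lit 46098) (PT.nd (nat_lit 45942) (PT.nd (nat_lit 45864) (PT.lf (nat_lit 12616) (nat_lit 6) (nat_lit 166) (nat_lit 1) (nat_lit 167) (nat_lit 128) (nat_lit 155)) (PT.lf (nat_lit 13148) (nat_lit 6) (nat_lit 173) (nat_lit 3) (nat_lit 154) (nat_lit 129) (nat_lit 167))) (PT.nd (nat_lit 78) (PT.lf (nat_lit 13224) (nat_lit 6) (nat_lit 174) (nat_lit 3) (nat_lit 155) (nat_lit 129) (nat_lit 166)) (PT.lf (nat_lit 13300) (nat_lit 6) (nat_lit 175) (nat_lit 3) (nat_lit 156) (nat_lit 129) (nat_lit 165)))) (PT.nd (nat_lit 156) (PT.nd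 (nat_lit 78) (PT.lf (nat_lit 13376) (nat_lit 6) (nat_lit 176) (nat_lit 3) (nat_lit 157) (nat_lit 129) (nat_lit 164)) (PT.lf (nat_lit 13452) (nat_lit 6) (nat_lit 177) (nat_lit 3) (nat_lit 158) (nat_lit 129) (nat_lit 163))) (PT.nd (nat_lit 78) (PT.lf (nat_lit 13528) (nat_lit 6) (nat_lit 178) (nat_lit 3) (nat_lit 159) (nat_lit 129) (nat_lit 162)) (PT.lf (nat_lit 13604) (nat_lit 6) (nat_lit 179) (nat_lit 3) (nat_lit 160) (nat_lit 129) (nat_lit 161)))))) (PT.nd (nat_lit 46332) (PT.nd (nat_lit 312) (PT.nd (nat_lit 156) (PT.nd (nat_lit 78) (PT.lf (nat_lit 13604) (nat_lit 6) (nat_lit 179) (nat_lit 1) (nat_lit 161) (nat_lit 129) (nat_lit 160)) (PT.lf (nat_lit 13528) (nat_lit 6) (nat_lit 178) (nat_lit 1) (nat_lit 162) (nat_lit 129) (nat_lit 159))) (PT.nd (nat_lit 78) (PT.lf (nat_lit 13452) (nat_lit 6) (nat_lit 177) (nat_lit 1) (nat_lit 163) (nat_lit 129) (nat_lit 158)) (PT.lf (nat_lit 13376) (nat_lit 6) (nat_lit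 176) (nat_lit 1) (nat_lit 164) (nat_lit 129) (nat_lit 157)))) (PT.nd (nat_lit 156) (PT.nd (nat_lit 78) (PT.lf (nat_lit 13300) (nat_lit 6) (nat_lit 175) (nat_lit 1) (nat_lit 165) (nat_lit 129) (nat_lit 156)) (PT.lf (nat_lit 13224) (nat_lit 6) (nat_lit 174) (nat_lit 1) (nat_lit 166) (nat_lit 129) (nat_lit 155))) (PT.nd (nat_lit 45786) (PT.lf (nat_lit 13148) (nat_lit 6) (nat_lit 173) (nat_lit 1) (nat_lit 167) (nat_lit 129) (nat_lit 154)) (PT.lf (nat_lit 13680) (nat_lit 6) (nat_lit 180) (nat_lit 3) (nat_lit 153) (nat_lit 130) (nat_lit 167))))) (PT.nd (nat_lit 312) (PT.nd (nat_lit 156) (PT.nd (nat_lit 78) (PT.lf (nat_lit 13756) (nat_lit 6) (nat_lit 181) (nat_lit 3) (nat_lit 154) (nat_lit 130) (nat_lit 166)) (PT.lf (nat_lit 13832) (nat_lit 6) (nat_lit 182) (nat_lit 3) (nat_lit 155) (nat_lit 130) (nat_lit 165))) (PT.nd (nat_lit 78) (PT.lf (nat_lit 13908) (nat_lit 6) (nat_lit 183) (nat_lit 3) (nat_lit 156) (nat_lit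 130) (nat_lit 164)) (PT.lf (nat_lit 13984) (nat_lit 6) (nat_lit 184) (nat_lit 3) (nat_lit 157) (nat_lit 130) (nat_lit 163)))) (PT.nd (nat_lit 156) (PT.nd (nat_lit 78) (PT.lf (nat_lit 14060) (nat_lit 6) (nat_lit 185) (nat_lit 3) (nat_lit 158) (nat_lit 130) (nat_lit 162)) (PT.lf (nat_lit 14136) (nat_lit 6) (nat_lit 186) (nat_lit 3) (nat_lit 159) (nat_lit 130) (nat_lit 161))) (PT.nd (nat_lit 78) (PT.lf (nat_lit 14212) (nat_lit 3) (nat_lit 187) (nat_lit 1) (nat_lit 160) (nat_lit 130) (nat_lit 160)) (PT.lf (nat_lit 14136) (nat_lit 6) (nat_lit 186) (nat_lit 1) (nat_lit 161) (nat_lit 130) (nat_lit 159))))))) (PT.nd (nat_lit 46800) (PT.nd (nat_lit 46176) (PT.nd (nat_lit 234) (PT.nd (nat_lit 78) (PT.lf (nat_lit 14060) (nat_lit 6) (nat_lit 185) (nat_lit 1) (nat_lit 162) (nat_lit 130) (nat_lit 158)) (PT.nd (nat_lit 78) (PT.lf (nat_lit 13984) (nat_lit 6) (nat_lit 184) (nat_lit 1) (nat_lit 163) (nat_lit 130) (nat_lit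 157)) (PT.lf (nat_lit 13908) (nat_lit 6) (nat_lit 183) (nat_lit 1) (nat_lit 164) (nat_lit 130) (nat_lit 156)))) (PT.nd (nat_lit 156) (PT.nd (nat_lit 78) (PT.lf (nat_lit 13832) (nat_lit 6) (nat_lit 182) (nat_lit 1) (nat_lit 165) (nat_lit 130) (nat_lit 155)) (PT.lf (nat_lit 13756) (nat_lit 6) (nat_lit 181) (nat_lit 1) (nat_lit 166) (nat_lit 130) (nat_lit 154))) (PT.nd (nat_lit 45708) (PT.lf (nat_lit 13680) (nat_lit 6) (nat_lit 180) (nat_lit 1) (nat_lit 167) (nat_lit 130) (nat_lit 153)) (PT.lf (nat_lit 14288) (nat_lit 6) (nat_lit 188) (nat_lit 3) (nat_lit 152) (nat_lit 131) (nat_lit 167))))) (PT.nd (nat_lit 312) (PT.nd (nat_lit 156) (PT.nd (nat_lit 78) (PT.lf (nat_lit 14364) (nat_lit 6) (nat_lit 189) (nat_lit 3) (nat_lit 153) (nat_lit 131) (nat_lit 166)) (PT.lf (nat_lit 14440) (nat_lit 6) (nat_lit 190) (nat_lit 3) (nat_lit 154) (nat_lit 131) (nat_lit 165))) (PT.nd (nat_lit 78) (PT.lf (nat_lit 14516) (nat_lit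 6) (nat_lit 191) (nat_lit 3) (nat_lit 155) (nat_lit 131) (nat_lit 164)) (PT.lf (nat_lit 14592) (nat_lit 6) (nat_lit 192) (nat_lit 3) (nat_lit 156) (nat_lit 131) (nat_lit 163)))) (PT.nd (nat_lit 156) (PT.nd (nat_lit 78) (PT.lf (nat_lit 14668) (nat_lit 6) (nat_lit 193) (nat_lit 3) (nat_lit 157) (nat_lit 131) (nat_lit 162)) (PT.lf (nat_lit 14744) (nat_lit 6) (nat_lit 194) (nat_lit 3) (nat_lit 158) (nat_lit 131) (nat_lit 161))) (PT.nd (nat_lit 78) (PT.lf (nat_lit 14820) (nat_lit 6) (nat_lit 195) (nat_lit 3) (nat_lit 159) (nat_lit 131) (nat_lit 160)) (PT.lf (nat_lit 14820) (nat_lit 6) (nat_lit 195) (nat_lit 1) (nat_lit 160) (nat_lit 131) (nat_lit 159)))))) (PT.nd (nat_lit 46254) (PT.nd (nat_lit 312) (PT.nd (nat_lit 156) (PT.nd (nat_lit 78) (PT.lf (nat_lit 14744) (nat_lit 6) (nat_lit 194) (nat_lit 1) (nat_lit 161) (nat_lit 131) (nat_lit 158)) (PT.lf (nat_lit 14668) (nat_lit 6) (nat_lit 193) (nat_lit 1) (nat_lit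 162) (nat_lit 131) (nat_lit 157))) (PT.nd (nat_lit 78) (PT.lf (nat_lit 14592) (nat_lit 6) (nat_lit 192) (nat_lit 1) (nat_lit 163) (nat_lit 131) (nat_lit 156)) (PT.lf (nat_lit 14516) (nat_lit 6) (nat_lit 191) (nat_lit 1) (nat_lit 164) (nat_lit 131) (nat_lit 155)))) (PT.nd (nat_lit 156) (PT.nd (nat_lit 78) (PT.lf (nat_lit 14440) (nat_lit 6) (nat_lit 190) (nat_lit 1) (nat_lit 165) (nat_lit 131) (nat_lit 154)) (PT.lf (nat_lit 14364) (nat_lit 6) (nat_lit 189) (nat_lit 1) (nat_lit 166) (nat_lit 131) (nat_lit 153))) (PT.nd (nat_lit 45708) (PT.lf (nat_lit 14288) (nat_lit 6) (nat_lit 188) (nat_lit 1) (nat_lit 167) (nat_lit 131) (nat_lit 152)) (PT.lf (nat_lit 14896) (nat_lit 6) (nat_lit 196) (nat_lit 3) (nat_lit 152) (nat_lit 132) (nat_lit 166))))) (PT.nd (nat_lit 312) (PT.nd (nat_lit 156) (PT.nd (nat_lit 78) (PT.lf (nat_lit 14972) (nat_lit 6) (nat_lit 197) (nat_lit 3) (nat_lit 153) (nat_lit 132) (nat_lit 165))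 (PT.lf (nat_lit 15048) (nat_lit 6) (nat_lit 198) (nat_lit 3) (nat_lit 154) (nat_lit 132) (nat_lit 164))) (PT.nd (nat_lit 78) (PT.lf (nat_lit 15124) (nat_lit 6) (nat_lit 199) (nat_lit 3) (nat_lit 155) (nat_lit 132) (nat_lit 163)) (PT.lf (nat_lit 15200) (nat_lit 6) (nat_lit 200) (nat_lit 3) (nat_lit 156) (nat_lit 132) (nat_lit 162)))) (PT.nd (nat_lit 156) (PT.nd (nat_lit 78) (PT.lf (nat_lit 15276) (nat_lit 6) (nat_lit 201) (nat_lit 3) (nat_lit 157) (nat_lit 132) (nat_lit 161)) (PT.lf (nat_lit 15352) (nat_lit 6) (nat_lit 202) (nat_lit 3) (nat_lit 158) (nat_lit 132) (nat_lit 160))) (PT.nd (nat_lit 78) (PT.lf (nat_lit 15428) (nat_lit 3) (nat_lit 203) (nat_lit 1) (nat_lit 159) (nat_lit 132) (nat_lit 159)) (PT.lf (nat_lit 15352) (nat_lit 6) (nat_lit 202) (nat_lit 1) (nat_lit 160) (nat_lit 132) (nat_lit 158))))))))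
noncomputable def pc6 : PT := (PT.nd (nat_lit 93600) (PT.nd (nat_lit 46800) (PT.nd (nat_lit 46176) (PT.nd (nat_lit 234) (PT.nd (nat_lit 78) (PT.lf (nat_lit 15276) (nat_lit 6) (nat_lit 201) (nat_lit 1) (nat_lit 161) (nat_lit 132) (nat_lit 157)) (PT.nd (nat_lit 78) (PT.lf (nat_lit 15200) (nat_lit 6) (nat_lit 200) (nat_lit 1) (nat_lit 162) (nat_lit 132) (nat_lit 156)) (PT.lf (nat_lit 15124) (nat_lit 6) (nat_lit 199) (nat_lit 1) (nat_lit 163) (nat_lit 132) (nat_lit 155)))) (PT.nd (nat_lit 156) (PT.nd (nat_lit 78) (PT.lf (nat_lit 15048) (nat_lit 6) (nat_lit 198) (nat_lit 1) (nat_lit 164) (nat_lit 132) (nat_lit 154)) (PT.lf (nat_lit 14972) (nat_lit 6) (nat_lit 197) (nat_lit 1) (nat_lit 165) (nat_lit 132) (nat_lit 153))) (PT.nd (nat_lit 45708) (PT.lf (nat_lit 14896) (nat_lit 6) (nat_lit 196) (nat_lit 1) (nat_lit 166) (nat_lit 132) (nat_lit 152)) (PT.lf (nat_lit 15504) (nat_lit 6) (nat_lit 204) (nat_lit 3) (nat_lit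 151) (nat_lit 133) (nat_lit 166))))) (PT.nd (nat_lit 312) (PT.nd (nat_lit 156) (PT.nd (nat_lit 78) (PT.lf (nat_lit 15580) (nat_lit 6) (nat_lit 205) (nat_lit 3) (nat_lit 152) (nat_lit 133) (nat_lit 165)) (PT.lf (nat_lit 15656) (nat_lit 6) (nat_lit 206) (nat_lit 3) (nat_lit 153) (nat_lit 133) (nat_lit 164))) (PT.nd (nat_lit 78) (PT.lf (nat_lit 15732) (nat_lit 6) (nat_lit 207) (nat_lit 3) (nat_lit 154) (nat_lit 133) (nat_lit 163)) (PT.lf (nat_lit 15808) (nat_lit 6) (nat_lit 208) (nat_lit 3) (nat_lit 155) (nat_lit 133) (nat_lit 162)))) (PT.nd (nat_lit 156) (PT.nd (nat_lit 78) (PT.lf (nat_lit 15884) (nat_lit 6) (nat_lit 209) (nat_lit 3) (nat_lit 156) (nat_lit 133) (nat_lit 161)) (PT.lf (nat_lit 15960) (nat_lit 6) (nat_lit 210) (nat_lit 3) (nat_lit 157) (nat_lit 133) (nat_lit 160))) (PT.nd (nat_lit 78) (PT.lf (nat_lit 16036) (nat_lit 6) (nat_lit 211) (nat_lit 3) (nat_lit 158) (nat_lit 133) (nat_lit 159)) (PT.lf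 (nat_lit 16036) (nat_lit 6) (nat_lit 211) (nat_lit 1) (nat_lit 159) (nat_lit 133) (nat_lit 158)))))) (PT.nd (nat_lit 46176) (PT.nd (nat_lit 312) (PT.nd (nat_lit 156) (PT.nd (nat_lit 78) (PT.lf (nat_lit 15960) (nat_lit 6) (nat_lit 210) (nat_lit 1) (nat_lit 160) (nat_lit 133) (nat_lit 157)) (PT.lf (nat_lit 15884) (nat_lit 6) (nat_lit 209) (nat_lit 1) (nat_lit 161) (nat_lit 133) (nat_lit 156))) (PT.nd (nat_lit 78) (PT.lf (nat_lit 15808) (nat_lit 6) (nat_lit 208) (nat_lit 1) (nat_lit 162) (nat_lit 133) (nat_lit 155)) (PT.lf (nat_lit 15732) (nat_lit 6) (nat_lit 207) (nat_lit 1) (nat_lit 163) (nat_lit 133) (nat_lit 154)))) (PT.nd (nat_lit 156) (PT.nd (nat_lit 78) (PT.lf (nat_lit 15656) (nat_lit 6) (nat_lit 206) (nat_lit 1) (nat_lit 164) (nat_lit 133) (nat_lit 153)) (PT.lf (nat_lit 15580) (nat_lit 6) (nat_lit 205) (nat_lit 1) (nat_lit 165) (nat_lit 133) (nat_lit 152))) (PT.nd (nat_lit 45630) (PT.lf (nat_lit 15504)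 (nat_lit 6) (nat_lit 204) (nat_lit 1) (nat_lit 166) (nat_lit 133) (nat_lit 151)) (PT.lf (nat_lit 16492) (nat_lit 6) (nat_lit 217) (nat_lit 3) (nat_lit 150) (nat_lit 134) (nat_lit 166))))) (PT.nd (nat_lit 312) (PT.nd (nat_lit 156) (PT.nd (nat_lit 78) (PT.lf (nat_lit 16568) (nat_lit 6) (nat_lit 218) (nat_lit 3) (nat_lit 151) (nat_lit 134) (nat_lit 165)) (PT.lf (nat_lit 16644) (nat_lit 6) (nat_lit 219) (nat_lit 3) (nat_lit 152) (nat_lit 134) (nat_lit 164))) (PT.nd (nat_lit 78) (PT.lf (nat_lit 16720) (nat_lit 6) (nat_lit 220) (nat_lit 3) (nat_lit 153) (nat_lit 134) (nat_lit 163)) (PT.lf (nat_lit 16796) (nat_lit 6) (nat_lit 221) (nat_lit 3) (nat_lit 154) (nat_lit 134) (nat_lit 162)))) (PT.nd (nat_lit 156) (PT.nd (nat_lit 78) (PT.lf (nat_lit 16872) (nat_lit 6) (nat_lit 222) (nat_lit 3) (nat_lit 155) (nat_lit 134) (nat_lit 161)) (PT.lf (nat_lit 16948) (nat_lit 6) (nat_lit 223) (nat_lit 3) (nat_lit 156) (nat_lit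 134) (nat_lit 160))) (PT.nd (nat_lit 78) (PT.lf (nat_lit 17024) (nat_lit 6) (nat_lit 224) (nat_lit 3) (nat_lit 157) (nat_lit 134) (nat_lit 159)) (PT.lf (nat_lit 17100) (nat_lit 3) (nat_lit 225) (nat_lit 1) (nat_lit 158) (nat_lit 134) (nat_lit 158))))))) (PT.nd (nat_lit 46644) (PT.nd (nat_lit 546) (PT.nd (nat_lit 234) (PT.nd (nat_lit 78) (PT.lf (nat_lit 17024) (nat_lit 6) (nat_lit 224) (nat_lit 1) (nat_lit 159) (nat_lit 134) (nat_lit 157)) (PT.nd (nat_lit 78) (PT.lf (nat_lit 16948) (nat_lit 6) (nat_lit 223) (nat_lit 1) (nat_lit 160) (nat_lit 134) (nat_lit 156)) (PT.lf (nat_lit 16872) (nat_lit 6) (nat_lit 222) (nat_lit 1) (nat_lit 161) (nat_lit 134) (nat_lit 155)))) (PT.nd (nat_lit 156) (PT.nd (nat_lit 78) (PT.lf (nat_lit 16796) (nat_lit 6) (nat_lit 221) (nat_lit 1) (nat_lit 162) (nat_lit 134) (nat_lit 154)) (PT.lf (nat_lit 16720) (nat_lit 6) (nat_lit 220) (nat_lit 1) (nat_lit 163) (nat_lit 134) (nat_lit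 153))) (PT.nd (nat_lit 78) (PT.lf (nat_lit 16644) (nat_lit 6) (nat_lit 219) (nat_lit 1) (nat_lit 164) (nat_lit 134) (nat_lit 152)) (PT.lf (nat_lit 16568) (nat_lit 6) (nat_lit 218) (nat_lit 1) (nat_lit 165) (nat_lit 134) (nat_lit 151))))) (PT.nd (nat_lit 45786) (PT.nd (nat_lit 45630) (PT.nd (nat_lit 45552) (PT.lf (nat_lit 16492) (nat_lit 6) (nat_lit 217) (nat_lit 1) (nat_lit 166) (nat_lit 134) (nat_lit 150)) (PT.lf (nat_lit 16416) (nat_lit 6) (nat_lit 216) (nat_lit 3) (nat_lit 149) (nat_lit 135) (nat_lit 166))) (PT.nd (nat_lit 78) (PT.lf (nat_lit 17708) (nat_lit 6) (nat_lit 233) (nat_lit 3) (nat_lit 150) (nat_lit 135) (nat_lit 165)) (PT.lf (nat_lit 17784) (nat_lit 6) (nat_lit 234) (nat_lit 3) (nat_lit 151) (nat_lit 135) (nat_lit 164)))) (PT.nd (nat_lit 156) (PT.nd (nat_lit 78) (PT.lf (nat_lit 17860) (nat_lit 6) (nat_lit 235) (nat_lit 3) (nat_lit 152) (nat_lit 135) (nat_lit 163)) (PT.lf (nat_lit 17936) (nat_lit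 6) (nat_lit 236) (nat_lit 3) (nat_lit 153) (nat_lit 135) (nat_lit 162))) (PT.nd (nat_lit 78) (PT.lf (nat_lit 18012) (nat_lit 6) (nat_lit 237) (nat_lit 3) (nat_lit 154) (nat_lit 135) (nat_lit 161)) (PT.lf (nat_lit 18088) (nat_lit 6) (nat_lit 238) (nat_lit 3) (nat_lit 155) (nat_lit 135) (nat_lit 160)))))) (PT.nd (nat_lit 624) (PT.nd (nat_lit 312) (PT.nd (nat_lit 156) (PT.nd (nat_lit 78) (PT.lf (nat_lit 18164) (nat_lit 6) (nat_lit 239) (nat_lit 3) (nat_lit 156) (nat_lit 135) (nat_lit 159)) (PT.lf (nat_lit 18240) (nat_lit 6) (nat_lit 240) (nat_lit 3) (nat_lit 157) (nat_lit 135) (nat_lit 158))) (PT.nd (nat_lit 78) (PT.lf (nat_lit 18240) (nat_lit 6) (nat_lit 240) (nat_lit 1) (nat_lit 158) (nat_lit 135) (nat_lit 157)) (PT.lf (nat_lit 18164) (nat_lit 6) (nat_lit 239) (nat_lit 1) (nat_lit 159) (nat_lit 135) (nat_lit 156)))) (PT.nd (nat_lit 156) (PT.nd (nat_lit 78) (PT.lf (nat_lit 18088) (nat_lit 6) (nat_lit 238)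 (nat_lit 1) (nat_lit 160) (nat_lit 135) (nat_lit 155)) (PT.lf (nat_lit 18012) (nat_lit 6) (nat_lit 237) (nat_lit 1) (nat_lit 161) (nat_lit 135) (nat_lit 154))) (PT.nd (nat_lit 78) (PT.lf (nat_lit 17936) (nat_lit 6) (nat_lit 236) (nat_lit 1) (nat_lit 162) (nat_lit 135) (nat_lit 153)) (PT.lf (nat_lit 17860) (nat_lit 6) (nat_lit 235) (nat_lit 1) (nat_lit 163) (nat_lit 135) (nat_lit 152))))) (PT.nd (nat_lit 45708) (PT.nd (nat_lit 156) (PT.nd (nat_lit 78) (PT.lf (nat_lit 17784) (nat_lit 6) (nat_lit 234) (nat_lit 1) (nat_lit 164) (nat_lit 135) (nat_lit 151)) (PT.lf (nat_lit 17708) (nat_lit 6) (nat_lit 233) (nat_lit 1) (nat_lit 165) (nat_lit 135) (nat_lit 150))) (PT.nd (nat_lit 45474) (PT.lf (nat_lit 16416) (nat_lit 6) (nat_lit 216) (nat_lit 1) (nat_lit 166) (nat_lit 135) (nat_lit 149)) (PT.lf (nat_lit 16340) (nat_lit 6) (nat_lit 215) (nat_lit 3) (nat_lit 148) (nat_lit 136) (nat_lit 166)))) (PT.nd (nat_lit 156)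 (PT.nd (nat_lit 78) (PT.lf (nat_lit 17632) (nat_lit 6) (nat_lit 232) (nat_lit 3) (nat_lit 149) (nat_lit 136) (nat_lit 165)) (PT.lf (nat_lit 18848) (nat_lit 6) (nat_lit 248) (nat_lit 3) (nat_lit 150) (nat_lit 136) (nat_lit 164))) (PT.nd (nat_lit 78) (PT.lf (nat_lit 18924) (nat_lit 6) (nat_lit 249) (nat_lit 3) (nat_lit 151) (nat_lit 136) (nat_lit 163)) (PT.lf (nat_lit 19000) (nat_lit 6) (nat_lit 250) (nat_lit 3) (nat_lit 152) (nat_lit 136) (nat_lit 162))))))))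
noncomputable def pc7 : PT := (PT.nd (nat_lit 47736) (PT.nd (nat_lit 46488) (PT.nd (nat_lit 546) (PT.nd (nat_lit 234) (PT.nd (nat_lit 78) (PT.lf (nat_lit 19076) (nat_lit 6) (nat_lit 251) (nat_lit 3) (nat_lit 153) (nat_lit 136) (nat_lit 161)) (PT.nd (nat_lit 78) (PT.lf (nat_lit 19152) (nat_lit 6) (nat_lit 252) (nat_lit 3) (nat_lit 154) (nat_lit 136) (nat_lit 160)) (PT.lf (nat_lit 19228) (nat_lit 6) (nat_lit 253) (nat_lit 3) (nat_lit 155) (nat_lit 136) (nat_lit 159)))) (PT.nd (nat_lit 156) (PT.nd (nat_lit 78) (PT.lf (nat_lit 19304) (nat_lit 6) (nat_lit 254) (nat_lit 3) (nat_lit 156) (nat_lit 136) (nat_lit 158)) (PT.lf (nat_lit 19380) (nat_lit 3) (nat_lit 255) (nat_lit 1) (nat_lit 157) (nat_lit 136) (nat_lit 157))) (PT.nd (nat_lit 78) (PT.lf (nat_lit 19304) (nat_lit 6) (nat_lit 254) (nat_lit 1) (nat_lit 158) (nat_lit 136) (nat_lit 156)) (PT.lf (nat_lit 19228) (nat_lit 6) (nat_lit 253) (nat_lit 1) (nat_lit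 159) (nat_lit 136) (nat_lit 155))))) (PT.nd (nat_lit 312) (PT.nd (nat_lit 156) (PT.nd (nat_lit 78) (PT.lf (nat_lit 19152) (nat_lit 6) (nat_lit 252) (nat_lit 1) (nat_lit 160) (nat_lit 136) (nat_lit 154)) (PT.lf (nat_lit 19076) (nat_lit 6) (nat_lit 251) (nat_lit 1) (nat_lit 161) (nat_lit 136) (nat_lit 153))) (PT.nd (nat_lit 78) (PT.lf (nat_lit 19000) (nat_lit 6) (nat_lit 250) (nat_lit 1) (nat_lit 162) (nat_lit 136) (nat_lit 152)) (PT.lf (nat_lit 18924) (nat_lit 6) (nat_lit 249) (nat_lit 1) (nat_lit 163) (nat_lit 136) (nat_lit 151)))) (PT.nd (nat_lit 156) (PT.nd (nat_lit 78) (PT.lf (nat_lit 18848) (nat_lit 6) (nat_lit 248) (nat_lit 1) (nat_lit 164) (nat_lit 136) (nat_lit 150)) (PT.lf (nat_lit 17632) (nat_lit 6) (nat_lit 232) (nat_lit 1) (nat_lit 165) (nat_lit 136) (nat_lit 149))) (PT.nd (nat_lit 45396) (PT.lf (nat_lit 16340) (nat_lit 6) (nat_lit 215) (nat_lit 1) (nat_lit 166) (nat_lit 136) (nat_lit 148))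 (PT.lf (nat_lit 16264) (nat_lit 6) (nat_lit 214) (nat_lit 3) (nat_lit 147) (nat_lit 137) (nat_lit 166)))))) (PT.nd (nat_lit 624) (PT.nd (nat_lit 312) (PT.nd (nat_lit 156) (PT.nd (nat_lit 78) (PT.lf (nat_lit 17556) (nat_lit 6) (nat_lit 231) (nat_lit 3) (nat_lit 148) (nat_lit 137) (nat_lit 165)) (PT.lf (nat_lit 18772) (nat_lit 6) (nat_lit 247) (nat_lit 3) (nat_lit 149) (nat_lit 137) (nat_lit 164))) (PT.nd (nat_lit 78) (PT.lf (nat_lit 19912) (nat_lit 6) (nat_lit 262) (nat_lit 3) (nat_lit 150) (nat_lit 137) (nat_lit 163)) (PT.lf (nat_lit 19988) (nat_lit 6) (nat_lit 263) (nat_lit 3) (nat_lit 151) (nat_lit 137) (nat_lit 162)))) (PT.nd (nat_lit 156) (PT.nd (nat_lit 78) (PT.lf (nat_lit 20064) (nat_lit 6) (nat_lit 264) (nat_lit 3) (nat_lit 152) (nat_lit 137) (nat_lit 161)) (PT.lf (nat_lit 20140) (nat_lit 6) (nat_lit 265) (nat_lit 3) (nat_lit 153) (nat_lit 137) (nat_lit 160))) (PT.nd (nat_lit 78) (PT.lf (nat_lit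 20216) (nat_lit 6) (nat_lit 266) (nat_lit 3) (nat_lit 154) (nat_lit 137) (nat_lit 159)) (PT.lf (nat_lit 20292) (nat_lit 6) (nat_lit 267) (nat_lit 3) (nat_lit 155) (nat_lit 137) (nat_lit 158))))) (PT.nd (nat_lit 312) (PT.nd (nat_lit 156) (PT.nd (nat_lit 78) (PT.lf (nat_lit 20368) (nat_lit 6) (nat_lit 268) (nat_lit 3) (nat_lit 156) (nat_lit 137) (nat_lit 157)) (PT.lf (nat_lit 20368) (nat_lit 6) (nat_lit 268) (nat_lit 1) (nat_lit 157) (nat_lit 137) (nat_lit 156))) (PT.nd (nat_lit 78) (PT.lf (nat_lit 20292) (nat_lit 6) (nat_lit 267) (nat_lit 1) (nat_lit 158) (nat_lit 137) (nat_lit 155)) (PT.lf (nat_lit 20216) (nat_lit 6) (nat_lit 266) (nat_lit 1) (nat_lit 159) (nat_lit 137) (nat_lit 154)))) (PT.nd (nat_lit 156) (PT.nd (nat_lit 78) (PT.lf (nat_lit 20140) (nat_lit 6) (nat_lit 265) (nat_lit 1) (nat_lit 160) (nat_lit 137) (nat_lit 153)) (PT.lf (nat_lit 20064) (nat_lit 6) (nat_lit 264) (nat_lit 1) (nat_lit 161)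 (nat_lit 137) (nat_lit 152))) (PT.nd (nat_lit 78) (PT.lf (nat_lit 19988) (nat_lit 6) (nat_lit 263) (nat_lit 1) (nat_lit 162) (nat_lit 137) (nat_lit 151)) (PT.lf (nat_lit 19912) (nat_lit 6) (nat_lit 262) (nat_lit 1) (nat_lit 163) (nat_lit 137) (nat_lit 150))))))) (PT.nd (nat_lit 46410) (PT.nd (nat_lit 45786) (PT.nd (nat_lit 45474) (PT.nd (nat_lit 78) (PT.lf (nat_lit 18772) (nat_lit 6) (nat_lit 247) (nat_lit 1) (nat_lit 164) (nat_lit 137) (nat_lit 149)) (PT.nd (nat_lit 78) (PT.lf (nat_lit 17556) (nat_lit 6) (nat_lit 231) (nat_lit 1) (nat_lit 165) (nat_lit 137) (nat_lit 148)) (PT.lf (nat_lit 16264) (nat_lit 6) (nat_lit 214) (nat_lit 1) (nat_lit 166) (nat_lit 137) (nat_lit 147)))) (PT.nd (nat_lit 156) (PT.nd (nat_lit 78) (PT.lf (nat_lit 16188) (nat_lit 6) (nat_lit 213) (nat_lit 3) (nat_lit 146) (nat_lit 138) (nat_lit 166)) (PT.lf (nat_lit 17480) (nat_lit 6) (nat_lit 230) (nat_lit 3) (nat_lit 147) (nat_lit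 138) (nat_lit 165))) (PT.nd (nat_lit 78) (PT.lf (nat_lit 18696) (nat_lit 6) (nat_lit 246) (nat_lit 3) (nat_lit 148) (nat_lit 138) (nat_lit 164)) (PT.lf (nat_lit 19836) (nat_lit 6) (nat_lit 261) (nat_lit 3) (nat_lit 149) (nat_lit 138) (nat_lit 163))))) (PT.nd (nat_lit 312) (PT.nd (nat_lit 156) (PT.nd (nat_lit 78) (PT.lf (nat_lit 20900) (nat_lit 6) (nat_lit 275) (nat_lit 3) (nat_lit 150) (nat_lit 138) (nat_lit 162)) (PT.lf (nat_lit 20976) (nat_lit 6) (nat_lit 276) (nat_lit 3) (nat_lit 151) (nat_lit 138) (nat_lit 161))) (PT.nd (nat_lit 78) (PT.lf (nat_lit 21052) (nat_lit 6) (nat_lit 277) (nat_lit 3) (nat_lit 152) (nat_lit 138) (nat_lit 160)) (PT.lf (nat_lit 21128) (nat_lit 6) (nat_lit 278) (nat_lit 3) (nat_lit 153) (nat_lit 138) (nat_lit 159)))) (PT.nd (nat_lit 156) (PT.nd (nat_lit 78) (PT.lf (nat_lit 21204) (nat_lit 6) (nat_lit 279) (nat_lit 3) (nat_lit 154) (nat_lit 138) (nat_lit 158)) (PT.lf (nat_lit 21280)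 (nat_lit 6) (nat_lit 280) (nat_lit 3) (nat_lit 155) (nat_lit 138) (nat_lit 157))) (PT.nd (nat_lit 78) (PT.lf (nat_lit 21356) (nat_lit 3) (nat_lit 281) (nat_lit 1) (nat_lit 156) (nat_lit 138) (nat_lit 156)) (PT.lf (nat_lit 21280) (nat_lit 6) (nat_lit 280) (nat_lit 1) (nat_lit 157) (nat_lit 138) (nat_lit 155)))))) (PT.nd (nat_lit 624) (PT.nd (nat_lit 312) (PT.nd (nat_lit 156) (PT.nd (nat_lit 78) (PT.lf (nat_lit 21204) (nat_lit 6) (nat_lit 279) (nat_lit 1) (nat_lit 158) (nat_lit 138) (nat_lit 154)) (PT.lf (nat_lit 21128) (nat_lit 6) (nat_lit 278) (nat_lit 1) (nat_lit 159) (nat_lit 138) (nat_lit 153))) (PT.nd (nat_lit 78) (PT.lf (nat_lit 21052) (nat_lit 6) (nat_lit 277) (nat_lit 1) (nat_lit 160) (nat_lit 138) (nat_lit 152)) (PT.lf (nat_lit 20976) (nat_lit 6) (nat_lit 276) (nat_lit 1) (nat_lit 161) (nat_lit 138) (nat_lit 151)))) (PT.nd (nat_lit 156) (PT.nd (nat_lit 78) (PT.lf (nat_lit 20900) (nat_lit 6) (nat_lit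 275) (nat_lit 1) (nat_lit 162) (nat_lit 138) (nat_lit 150)) (PT.lf (nat_lit 19836) (nat_lit 6) (nat_lit 261) (nat_lit 1) (nat_lit 163) (nat_lit 138) (nat_lit 149))) (PT.nd (nat_lit 78) (PT.lf (nat_lit 18696) (nat_lit 6) (nat_lit 246) (nat_lit 1) (nat_lit 164) (nat_lit 138) (nat_lit 148)) (PT.lf (nat_lit 17480) (nat_lit 6) (nat_lit 230) (nat_lit 1) (nat_lit 165) (nat_lit 138) (nat_lit 147))))) (PT.nd (nat_lit 45474) (PT.nd (nat_lit 45318) (PT.nd (nat_lit 45240) (PT.lf (nat_lit 16188) (nat_lit 6) (nat_lit 213) (nat_lit 1) (nat_lit 166) (nat_lit 138) (nat_lit 146)) (PT.lf (nat_lit 16112) (nat_lit 6) (nat_lit 212) (nat_lit 3) (nat_lit 145) (nat_lit 139) (nat_lit 166))) (PT.nd (nat_lit 78) (PT.lf (nat_lit 17404) (nat_lit 6) (nat_lit 229) (nat_lit 3) (nat_lit 146) (nat_lit 139) (nat_lit 165)) (PT.lf (nat_lit 18620) (nat_lit 6) (nat_lit 245) (nat_lit 3) (nat_lit 147) (nat_lit 139) (nat_lit 164)))) (PT.nd (nat_lit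 156) (PT.nd (nat_lit 78) (PT.lf (nat_lit 19760) (nat_lit 6) (nat_lit 260) (nat_lit 3) (nat_lit 148) (nat_lit 139) (nat_lit 163)) (PT.lf (nat_lit 20824) (nat_lit 6) (nat_lit 274) (nat_lit 3) (nat_lit 149) (nat_lit 139) (nat_lit 162))) (PT.nd (nat_lit 78) (PT.lf (nat_lit 21812) (nat_lit 6) (nat_lit 287) (nat_lit 3) (nat_lit 150) (nat_lit 139) (nat_lit 161)) (PT.lf (nat_lit 21888) (nat_lit 6) (nat_lit 288) (nat_lit 3) (nat_lit 151) (nat_lit 139) (nat_lit 160))))))))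
noncomputable def pc8 : PT := (PT.nd (nat_lit 47502) (PT.nd (nat_lit 46332) (PT.nd (nat_lit 546) (PT.nd (nat_lit 234) (PT.nd (nat_lit 78) (PT.lf (nat_lit 21964) (nat_lit 6) (nat_lit 289) (nat_lit 3) (nat_lit 152) (nat_lit 139) (nat_lit 159)) (PT.nd (nat_lit 78) (PT.lf (nat_lit 22040) (nat_lit 6) (nat_lit 290) (nat_lit 3) (nat_lit 153) (nat_lit 139) (nat_lit 158)) (PT.lf (nat_lit 22116) (nat_lit 6) (nat_lit 291) (nat_lit 3) (nat_lit 154) (nat_lit 139) (nat_lit 157)))) (PT.nd (nat_lit 156) (PT.nd (nat_lit 78) (PT.lf (nat_lit 22192) (nat_lit 6) (nat_lit 292) (nat_lit 3) (nat_lit 155) (nat_lit 139) (nat_lit 156)) (PT.lf (nat_lit 22192) (nat_lit 6) (nat_lit 292) (nat_lit 1) (nat_lit 156) (nat_lit 139) (nat_lit 155))) (PT.nd (nat_lit 78) (PT.lf (nat_lit 22116) (nat_lit 6) (nat_lit 291) (nat_lit 1) (nat_lit 157) (nat_lit 139) (nat_lit 154)) (PT.lf (nat_lit 22040) (nat_lit 6) (nat_lit 290) (nat_lit 1) (nat_lit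 158) (nat_lit 139) (nat_lit 153))))) (PT.nd (nat_lit 312) (PT.nd (nat_lit 156) (PT.nd (nat_lit 78) (PT.lf (nat_lit 21964) (nat_lit 6) (nat_lit 289) (nat_lit 1) (nat_lit 159) (nat_lit 139) (nat_lit 152)) (PT.lf (nat_lit 21888) (nat_lit 6) (nat_lit 288) (nat_lit 1) (nat_lit 160) (nat_lit 139) (nat_lit 151))) (PT.nd (nat_lit 78) (PT.lf (nat_lit 21812) (nat_lit 6) (nat_lit 287) (nat_lit 1) (nat_lit 161) (nat_lit 139) (nat_lit 150)) (PT.lf (nat_lit 20824) (nat_lit 6) (nat_lit 274) (nat_lit 1) (nat_lit 162) (nat_lit 139) (nat_lit 149)))) (PT.nd (nat_lit 156) (PT.nd (nat_lit 78) (PT.lf (nat_lit 19760) (nat_lit 6) (nat_lit 260) (nat_lit 1) (nat_lit 163) (nat_lit 139) (nat_lit 148)) (PT.lf (nat_lit 18620) (nat_lit 6) (nat_lit 245) (nat_lit 1) (nat_lit 164) (nat_lit 139) (nat_lit 147))) (PT.nd (nat_lit 78) (PT.lf (nat_lit 17404) (nat_lit 6) (nat_lit 229) (nat_lit 1) (nat_lit 165) (nat_lit 139) (nat_lit 146)) (PT.lf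 (nat_lit 16112) (nat_lit 6) (nat_lit 212) (nat_lit 1) (nat_lit 166) (nat_lit 139) (nat_lit 145)))))) (PT.nd (nat_lit 546) (PT.nd (nat_lit 234) (PT.nd (nat_lit 78) (PT.lf (nat_lit 17328) (nat_lit 6) (nat_lit 228) (nat_lit 3) (nat_lit 145) (nat_lit 140) (nat_lit 165)) (PT.nd (nat_lit 78) (PT.lf (nat_lit 18544) (nat_lit 6) (nat_lit 244) (nat_lit 3) (nat_lit 146) (nat_lit 140) (nat_lit 164)) (PT.lf (nat_lit 19684) (nat_lit 6) (nat_lit 259) (nat_lit 3) (nat_lit 147) (nat_lit 140) (nat_lit 163)))) (PT.nd (nat_lit 156) (PT.nd (nat_lit 78) (PT.lf (nat_lit 20748) (nat_lit 6) (nat_lit 273) (nat_lit 3) (nat_lit 148) (nat_lit 140) (nat_lit 162)) (PT.lf (nat_lit 21736) (nat_lit 6) (nat_lit 286) (nat_lit 3) (nat_lit 149) (nat_lit 140) (nat_lit 161))) (PT.nd (nat_lit 78) (PT.lf (nat_lit 22648) (nat_lit 6) (nat_lit 298) (nat_lit 3) (nat_lit 150) (nat_lit 140) (nat_lit 160)) (PT.lf (nat_lit 22724) (nat_lit 6) (nat_lit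 299) (nat_lit 3) (nat_lit 151) (nat_lit 140) (nat_lit 159))))) (PT.nd (nat_lit 312) (PT.nd (nat_lit 156) (PT.nd (nat_lit 78) (PT.lf (nat_lit 22800) (nat_lit 6) (nat_lit 300) (nat_lit 3) (nat_lit 152) (nat_lit 140) (nat_lit 158)) (PT.lf (nat_lit 22876) (nat_lit 6) (nat_lit 301) (nat_lit 3) (nat_lit 153) (nat_lit 140) (nat_lit 157))) (PT.nd (nat_lit 78) (PT.lf (nat_lit 22952) (nat_lit 6) (nat_lit 302) (nat_lit 3) (nat_lit 154) (nat_lit 140) (nat_lit 156)) (PT.lf (nat_lit 23028) (nat_lit 3) (nat_lit 303) (nat_lit 1) (nat_lit 155) (nat_lit 140) (nat_lit 155)))) (PT.nd (nat_lit 156) (PT.nd (nat_lit 78) (PT.lf (nat_lit 22952) (nat_lit 6) (nat_lit 302) (nat_lit 1) (nat_lit 156) (nat_lit 140) (nat_lit 154)) (PT.lf (nat_lit 22876) (nat_lit 6) (nat_lit 301) (nat_lit 1) (nat_lit 157) (nat_lit 140) (nat_lit 153))) (PT.nd (nat_lit 78) (PT.lf (nat_lit 22800) (nat_lit 6) (nat_lit 300) (nat_lit 1) (nat_lit 158) (nat_lit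 140) (nat_lit 152)) (PT.lf (nat_lit 22724) (nat_lit 6) (nat_lit 299) (nat_lit 1) (nat_lit 159) (nat_lit 140) (nat_lit 151))))))) (PT.nd (nat_lit 46332) (PT.nd (nat_lit 45708) (PT.nd (nat_lit 234) (PT.nd (nat_lit 78) (PT.lf (nat_lit 22648) (nat_lit 6) (nat_lit 298) (nat_lit 1) (nat_lit 160) (nat_lit 140) (nat_lit 150)) (PT.nd (nat_lit 78) (PT.lf (nat_lit 21736) (nat_lit 6) (nat_lit 286) (nat_lit 1) (nat_lit 161) (nat_lit 140) (nat_lit 149)) (PT.lf (nat_lit 20748) (nat_lit 6) (nat_lit 273) (nat_lit 1) (nat_lit 162) (nat_lit 140) (nat_lit 148)))) (PT.nd (nat_lit 156) (PT.nd (nat_lit 78) (PT.lf (nat_lit 19684) (nat_lit 6) (nat_lit 259) (nat_lit 1) (nat_lit 163) (nat_lit 140) (nat_lit 147)) (PT.lf (nat_lit 18544) (nat_lit 6) (nat_lit 244) (nat_lit 1) (nat_lit 164) (nat_lit 140) (nat_lit 146))) (PT.nd (nat_lit 45240) (PT.lf (nat_lit 17328) (nat_lit 6) (nat_lit 228) (nat_lit 1) (nat_lit 165) (nat_lit 140) (nat_lit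 145)) (PT.lf (nat_lit 17252) (nat_lit 6) (nat_lit 227) (nat_lit 3) (nat_lit 144) (nat_lit 141) (nat_lit 165))))) (PT.nd (nat_lit 312) (PT.nd (nat_lit 156) (PT.nd (nat_lit 78) (PT.lf (nat_lit 18468) (nat_lit 6) (nat_lit 243) (nat_lit 3) (nat_lit 145) (nat_lit 141) (nat_lit 164)) (PT.lf (nat_lit 19608) (nat_lit 6) (nat_lit 258) (nat_lit 3) (nat_lit 146) (nat_lit 141) (nat_lit 163))) (PT.nd (nat_lit 78) (PT.lf (nat_lit 20672) (nat_lit 6) (nat_lit 272) (nat_lit 3) (nat_lit 147) (nat_lit 141) (nat_lit 162)) (PT.lf (nat_lit 21660) (nat_lit 6) (nat_lit 285) (nat_lit 3) (nat_lit 148) (nat_lit 141) (nat_lit 161)))) (PT.nd (nat_lit 156) (PT.nd (nat_lit 78) (PT.lf (nat_lit 22572) (nat_lit 6) (nat_lit 297) (nat_lit 3) (nat_lit 149) (nat_lit 141) (nat_lit 160)) (PT.lf (nat_lit 23408) (nat_lit 6) (nat_lit 308) (nat_lit 3) (nat_lit 150) (nat_lit 141) (nat_lit 159))) (PT.nd (nat_lit 78) (PT.lf (nat_lit 23484) (nat_lit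 6) (nat_lit 309) (nat_lit 3) (nat_lit 151) (nat_lit 141) (nat_lit 158)) (PT.lf (nat_lit 23560) (nat_lit 6) (nat_lit 310) (nat_lit 3) (nat_lit 152) (nat_lit 141) (nat_lit 157)))))) (PT.nd (nat_lit 624) (PT.nd (nat_lit 312) (PT.nd (nat_lit 156) (PT.nd (nat_lit 78) (PT.lf (nat_lit 23636) (nat_lit 6) (nat_lit 311) (nat_lit 3) (nat_lit 153) (nat_lit 141) (nat_lit 156)) (PT.lf (nat_lit 23712) (nat_lit 6) (nat_lit 312) (nat_lit 3) (nat_lit 154) (nat_lit 141) (nat_lit 155))) (PT.nd (nat_lit 78) (PT.lf (nat_lit 23712) (nat_lit 6) (nat_lit 312) (nat_lit 1) (nat_lit 155) (nat_lit 141) (nat_lit 154)) (PT.lf (nat_lit 23636) (nat_lit 6) (nat_lit 311) (nat_lit 1) (nat_lit 156) (nat_lit 141) (nat_lit 153)))) (PT.nd (nat_lit 156) (PT.nd (nat_lit 78) (PT.lf (nat_lit 23560) (nat_lit 6) (nat_lit 310) (nat_lit 1) (nat_lit 157) (nat_lit 141) (nat_lit 152)) (PT.lf (nat_lit 23484) (nat_lit 6) (nat_lit 309) (nat_lit 1) (nat_lit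 158) (nat_lit 141) (nat_lit 151))) (PT.nd (nat_lit 78) (PT.lf (nat_lit 23408) (nat_lit 6) (nat_lit 308) (nat_lit 1) (nat_lit 159) (nat_lit 141) (nat_lit 150)) (PT.lf (nat_lit 22572) (nat_lit 6) (nat_lit 297) (nat_lit 1) (nat_lit 160) (nat_lit 141) (nat_lit 149))))) (PT.nd (nat_lit 312) (PT.nd (nat_lit 156) (PT.nd (nat_lit 78) (PT.lf (nat_lit 21660) (nat_lit 6) (nat_lit 285) (nat_lit 1) (nat_lit 161) (nat_lit 141) (nat_lit 148)) (PT.lf (nat_lit 20672) (nat_lit 6) (nat_lit 272) (nat_lit 1) (nat_lit 162) (nat_lit 141) (nat_lit 147))) (PT.nd (nat_lit 78) (PT.lf (nat_lit 19608) (nat_lit 6) (nat_lit 258) (nat_lit 1) (nat_lit 163) (nat_lit 141) (nat_lit 146)) (PT.lf (nat_lit 18468) (nat_lit 6) (nat_lit 243) (nat_lit 1) (nat_lit 164) (nat_lit 141) (nat_lit 145)))) (PT.nd (nat_lit 45240) (PT.nd (nat_lit 45162) (PT.lf (nat_lit 17252) (nat_lit 6) (nat_lit 227) (nat_lit 1) (nat_lit 165) (nat_lit 141) (nat_lit 144))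 (PT.lf (nat_lit 17176) (nat_lit 6) (nat_lit 226) (nat_lit 3) (nat_lit 143) (nat_lit 142) (nat_lit 165))) (PT.nd (nat_lit 78) (PT.lf (nat_lit 18392) (nat_lit 6) (nat_lit 242) (nat_lit 3) (nat_lit 144) (nat_lit 142) (nat_lit 164)) (PT.lf (nat_lit 19532) (nat_lit 6) (nat_lit 257) (nat_lit 3) (nat_lit 145) (nat_lit 142) (nat_lit 163))))))))
noncomputable def pc9 : PT := (PT.nd (nat_lit 47424) (PT.nd (nat_lit 1170) (PT.nd (nat_lit 546) (PT.nd (nat_lit 234) (PT.nd (nat_lit 78) (PT.lf (nat_lit 20596) (nat_lit 6) (nat_lit 271) (nat_lit 3) (nat_lit 146) (nat_lit 142) (nat_lit 162)) (PT.nd (nat_lit 78) (PT.lf (nat_lit 21584) (nat_lit 6) (nat_lit 284) (nat_lit 3) (nat_lit 147) (nat_lit 142) (nat_lit 161)) (PT.lf (nat_lit 22496) (nat_lit 6) (nat_lit 296) (nat_lit 3) (nat_lit 148) (nat_lit 142) (nat_lit 160)))) (PT.nd (nat_lit 156) (PT.nd (nat_lit 78) (PT.lf (nat_lit 23332) (nat_lit 6) (nat_lit 307) (nat_lit 3) (nat_lit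 149) (nat_lit 142) (nat_lit 159)) (PT.lf (nat_lit 24092) (nat_lit 6) (nat_lit 317) (nat_lit 3) (nat_lit 150) (nat_lit 142) (nat_lit 158))) (PT.nd (nat_lit 78) (PT.lf (nat_lit 24168) (nat_lit 6) (nat_lit 318) (nat_lit 3) (nat_lit 151) (nat_lit 142) (nat_lit 157)) (PT.lf (nat_lit 24244) (nat_lit 6) (nat_lit 319) (nat_lit 3) (nat_lit 152) (nat_lit 142) (nat_lit 156))))) (PT.nd (nat_lit 312) (PT.nd (nat_lit 156) (PT.nd (nat_lit 78) (PT.lf (nat_lit 24320) (nat_lit 6) (nat_lit 320) (nat_lit 3) (nat_lit 153) (nat_lit 142) (nat_lit 155)) (PT.lf (nat_lit 24396) (nat_lit 3) (nat_lit 321) (nat_lit 1) (nat_lit 154) (nat_lit 142) (nat_lit 154))) (PT.nd (nat_lit 78) (PT.lf (nat_lit 24320) (nat_lit 6) (nat_lit 320) (nat_lit 1) (nat_lit 155) (nat_lit 142) (nat_lit 153)) (PT.lf (nat_lit 24244) (nat_lit 6) (nat_lit 319) (nat_lit 1) (nat_lit 156) (nat_lit 142) (nat_lit 152)))) (PT.nd (nat_lit 156) (PT.nd (nat_lit 78) (PT.lf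 (nat_lit 24168) (nat_lit 6) (nat_lit 318) (nat_lit 1) (nat_lit 157) (nat_lit 142) (nat_lit 151)) (PT.lf (nat_lit 24092) (nat_lit 6) (nat_lit 317) (nat_lit 1) (nat_lit 158) (nat_lit 142) (nat_lit 150))) (PT.nd (nat_lit 78) (PT.lf (nat_lit 23332) (nat_lit 6) (nat_lit 307) (nat_lit 1) (nat_lit 159) (nat_lit 142) (nat_lit 149)) (PT.lf (nat_lit 22496) (nat_lit 6) (nat_lit 296) (nat_lit 1) (nat_lit 160) (nat_lit 142) (nat_lit 148)))))) (PT.nd (nat_lit 45630) (PT.nd (nat_lit 312) (PT.nd (nat_lit 156) (PT.nd (nat_lit 78) (PT.lf (nat_lit 21584) (nat_lit 6) (nat_lit 284) (nat_lit 1) (nat_lit 161) (nat_lit 142) (nat_lit 147)) (PT.lf (nat_lit 20596) (nat_lit 6) (nat_lit 271) (nat_lit 1) (nat_lit 162) (nat_lit 142) (nat_lit 146))) (PT.nd (nat_lit 78) (PT.lf (nat_lit 19532) (nat_lit 6) (nat_lit 257) (nat_lit 1) (nat_lit 163) (nat_lit 142) (nat_lit 145)) (PT.lf (nat_lit 18392) (nat_lit 6) (nat_lit 242) (nat_lit 1) (nat_lit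 164) (nat_lit 142) (nat_lit 144)))) (PT.nd (nat_lit 45162) (PT.nd (nat_lit 45084) (PT.lf (nat_lit 17176) (nat_lit 6) (nat_lit 226) (nat_lit 1) (nat_lit 165) (nat_lit 142) (nat_lit 143)) (PT.lf (nat_lit 17176) (nat_lit 6) (nat_lit 226) (nat_lit 5) (nat_lit 142) (nat_lit 143) (nat_lit 165))) (PT.nd (nat_lit 78) (PT.lf (nat_lit 18316) (nat_lit 3) (nat_lit 241) (nat_lit 3) (nat_lit 143) (nat_lit 143) (nat_lit 164)) (PT.lf (nat_lit 19456) (nat_lit 6) (nat_lit 256) (nat_lit 3) (nat_lit 144) (nat_lit 143) (nat_lit 163))))) (PT.nd (nat_lit 312) (PT.nd (nat_lit 156) (PT.nd (nat_lit 78) (PT.lf (nat_lit 20520) (nat_lit 6) (nat_lit 270) (nat_lit 3) (nat_lit 145) (nat_lit 143) (nat_lit 162)) (PT.lf (nat_lit 21508) (nat_lit 6) (nat_lit 283) (nat_lit 3) (nat_lit 146) (nat_lit 143) (nat_lit 161))) (PT.nd (nat_lit 78) (PT.lf (nat_lit 22420) (nat_lit 6) (nat_lit 295) (nat_lit 3) (nat_lit 147) (nat_lit 143) (nat_lit 160))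 (PT.lf (nat_lit 23256) (nat_lit 6) (nat_lit 306) (nat_lit 3) (nat_lit 148) (nat_lit 143) (nat_lit 159)))) (PT.nd (nat_lit 156) (PT.nd (nat_lit 78) (PT.lf (nat_lit 24016) (nat_lit 6) (nat_lit 316) (nat_lit 3) (nat_lit 149) (nat_lit 143) (nat_lit 158)) (PT.lf (nat_lit 24700) (nat_lit 6) (nat_lit 325) (nat_lit 3) (nat_lit 150) (nat_lit 143) (nat_lit 157))) (PT.nd (nat_lit 78) (PT.lf (nat_lit 24776) (nat_lit 6) (nat_lit 326) (nat_lit 3) (nat_lit 151) (nat_lit 143) (nat_lit 156)) (PT.lf (nat_lit 24852) (nat_lit 6) (nat_lit 327) (nat_lit 3) (nat_lit 152) (nat_lit 143) (nat_lit 155))))))) (PT.nd (nat_lit 46098) (PT.nd (nat_lit 546) (PT.nd (nat_lit 234) (PT.nd (nat_lit 78) (PT.lf (nat_lit 24928) (nat_lit 6) (nat_lit 328) (nat_lit 3) (nat_lit 153) (nat_lit 143) (nat_lit 154)) (PT.nd (nat_lit 78) (PT.lf (nat_lit 24928) (nat_lit 6) (nat_lit 328) (nat_lit 1) (nat_lit 154) (nat_lit 143) (nat_lit 153)) (PT.lf (nat_lit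 24852) (nat_lit 6) (nat_lit 327) (nat_lit 1) (nat_lit 155) (nat_lit 143) (nat_lit 152)))) (PT.nd (nat_lit 156) (PT.nd (nat_lit 78) (PT.lf (nat_lit 24776) (nat_lit 6) (nat_lit 326) (nat_lit 1) (nat_lit 156) (nat_lit 143) (nat_lit 151)) (PT.lf (nat_lit 24700) (nat_lit 6) (nat_lit 325) (nat_lit 1) (nat_lit 157) (nat_lit 143) (nat_lit 150))) (PT.nd (nat_lit 78) (PT.lf (nat_lit 24016) (nat_lit 6) (nat_lit 316) (nat_lit 1) (nat_lit 158) (nat_lit 143) (nat_lit 149)) (PT.lf (nat_lit 23256) (nat_lit 6) (nat_lit 306) (nat_lit 1) (nat_lit 159) (nat_lit 143) (nat_lit 148))))) (PT.nd (nat_lit 312) (PT.nd (nat_lit 156) (PT.nd (nat_lit 78) (PT.lf (nat_lit 22420) (nat_lit 6) (nat_lit 295) (nat_lit 1) (nat_lit 160) (nat_lit 143) (nat_lit 147)) (PT.lf (nat_lit 21508) (nat_lit 6) (nat_lit 283) (nat_lit 1) (nat_lit 161) (nat_lit 143) (nat_lit 146))) (PT.nd (nat_lit 78) (PT.lf (nat_lit 20520) (nat_lit 6) (nat_lit 270) (nat_lit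 1) (nat_lit 162) (nat_lit 143) (nat_lit 145)) (PT.lf (nat_lit 19456) (nat_lit 6) (nat_lit 256) (nat_lit 1) (nat_lit 163) (nat_lit 143) (nat_lit 144)))) (PT.nd (nat_lit 45084) (PT.nd (nat_lit 78) (PT.lf (nat_lit 18316) (nat_lit 3) (nat_lit 241) (nat_lit 0) (nat_lit 164) (nat_lit 143) (nat_lit 143)) (PT.lf (nat_lit 17176) (nat_lit 6) (nat_lit 226) (nat_lit 0) (nat_lit 165) (nat_lit 143) (nat_lit 142))) (PT.nd (nat_lit 78) (PT.lf (nat_lit 17252) (nat_lit 6) (nat_lit 227) (nat_lit 5) (nat_lit 141) (nat_lit 144) (nat_lit 165)) (PT.lf (nat_lit 18392) (nat_lit 6) (nat_lit 242) (nat_lit 5) (nat_lit 142) (nat_lit 144) (nat_lit 164)))))) (PT.nd (nat_lit 624) (PT.nd (nat_lit 312) (PT.nd (nat_lit 156) (PT.nd (nat_lit 78) (PT.lf (nat_lit 19456) (nat_lit 6) (nat_lit 256) (nat_lit 5) (nat_lit 143) (nat_lit 144) (nat_lit 163)) (PT.lf (nat_lit 20444) (nat_lit 3) (nat_lit 269) (nat_lit 3) (nat_lit 144) (nat_lit 144) (nat_lit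 162))) (PT.nd (nat_lit 78) (PT.lf (nat_lit 21432) (nat_lit 6) (nat_lit 282) (nat_lit 3) (nat_lit 145) (nat_lit 144) (nat_lit 161)) (PT.lf (nat_lit 22344) (nat_lit 6) (nat_lit 294) (nat_lit 3) (nat_lit 146) (nat_lit 144) (nat_lit 160)))) (PT.nd (nat_lit 156) (PT.nd (nat_lit 78) (PT.lf (nat_lit 23180) (nat_lit 6) (nat_lit 305) (nat_lit 3) (nat_lit 147) (nat_lit 144) (nat_lit 159)) (PT.lf (nat_lit 23940) (nat_lit 6) (nat_lit 315) (nat_lit 3) (nat_lit 148) (nat_lit 144) (nat_lit 158))) (PT.nd (nat_lit 78) (PT.lf (nat_lit 24624) (nat_lit 6) (nat_lit 324) (nat_lit 3) (nat_lit 149) (nat_lit 144) (nat_lit 157)) (PT.lf (nat_lit 25232) (nat_lit 6) (nat_lit 332) (nat_lit 3) (nat_lit 150) (nat_lit 144) (nat_lit 156))))) (PT.nd (nat_lit 312) (PT.nd (nat_lit 156) (PT.nd (nat_lit 78) (PT.lf (nat_lit 25308) (nat_lit 6) (nat_lit 333) (nat_lit 3) (nat_lit 151) (nat_lit 144) (nat_lit 155)) (PT.lf (nat_lit 25384) (nat_lit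 6) (nat_lit 334) (nat_lit 3) (nat_lit 152) (nat_lit 144) (nat_lit 154))) (PT.nd (nat_lit 78) (PT.lf (nat_lit 25460) (nat_lit 3) (nat_lit 335) (nat_lit 1) (nat_lit 153) (nat_lit 144) (nat_lit 153)) (PT.lf (nat_lit 25384) (nat_lit 6) (nat_lit 334) (nat_lit 1) (nat_lit 154) (nat_lit 144) (nat_lit 152)))) (PT.nd (nat_lit 156) (PT.nd (nat_lit 78) (PT.lf (nat_lit 25308) (nat_lit 6) (nat_lit 333) (nat_lit 1) (nat_lit 155) (nat_lit 144) (nat_lit 151)) (PT.lf (nat_lit 25232) (nat_lit 6) (nat_lit 332) (nat_lit 1) (nat_lit 156) (nat_lit 144) (nat_lit 150))) (PT.nd (nat_lit 78) (PT.lf (nat_lit 24624) (nat_lit 6) (nat_lit 324) (nat_lit 1) (nat_lit 157) (nat_lit 144) (nat_lit 149)) (PT.lf (nat_lit 23940) (nat_lit 6) (nat_lit 315) (nat_lit 1) (nat_lit 158) (nat_lit 144) (nat_lit 148))))))))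
noncomputable def pc10 : PT := (PT.nd (nat_lit 47190) (PT.nd (nat_lit 45942) (PT.nd (nat_lit 45318) (PT.nd (nat_lit 234) (PT.nd (nat_lit 78) (PT.lf (nat_lit 23180) (nat_lit 6) (nat_lit 305) (nat_lit 1) (nat_lit 159) (nat_lit 144) (nat_lit 147)) (PT.nd (nat_lit 78) (PT.lf (nat_lit 22344) (nat_lit 6) (nat_lit 294) (nat_lit 1) (nat_lit 160) (nat_lit 144) (nat_lit 146)) (PT.lf (nat_lit 21432) (nat_lit 6) (nat_lit 282) (nat_lit 1) (nat_lit 161) (nat_lit 144) (nat_lit 145)))) (PT.nd (nat_lit 156) (PT.nd (nat_lit 78) (PT.lf (nat_lit 20444) (nat_lit 3) (nat_lit 269) (nat_lit 0) (nat_lit 162) (nat_lit 144) (nat_lit 144)) (PT.lf (nat_lit 19456) (nat_lit 6) (nat_lit 256) (nat_lit 0) (nat_lit 163) (nat_lit 144) (nat_lit 143))) (PT.nd (nat_lit 78) (PT.lf (nat_lit 18392) (nat_lit 6) (nat_lit 242) (nat_lit 0) (nat_lit 164) (nat_lit 144) (nat_lit 142)) (PT.lf (nat_lit 17252) (nat_lit 6) (nat_lit 227) (nat_lit 0) (nat_lit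 165) (nat_lit 144) (nat_lit 141))))) (PT.nd (nat_lit 312) (PT.nd (nat_lit 156) (PT.nd (nat_lit 78) (PT.lf (nat_lit 16112) (nat_lit 6) (nat_lit 212) (nat_lit 5) (nat_lit 139) (nat_lit 145) (nat_lit 166)) (PT.lf (nat_lit 17328) (nat_lit 6) (nat_lit 228) (nat_lit 5) (nat_lit 140) (nat_lit 145) (nat_lit 165))) (PT.nd (nat_lit 78) (PT.lf (nat_lit 18468) (nat_lit 6) (nat_lit 243) (nat_lit 5) (nat_lit 141) (nat_lit 145) (nat_lit 164)) (PT.lf (nat_lit 19532) (nat_lit 6) (nat_lit 257) (nat_lit 5) (nat_lit 142) (nat_lit 145) (nat_lit 163)))) (PT.nd (nat_lit 156) (PT.nd (nat_lit 78) (PT.lf (nat_lit 20520) (nat_lit 6) (nat_lit 270) (nat_lit 5) (nat_lit 143) (nat_lit 145) (nat_lit 162)) (PT.lf (nat_lit 21432) (nat_lit 6) (nat_lit 282) (nat_lit 5) (nat_lit 144) (nat_lit 145) (nat_lit 161))) (PT.nd (nat_lit 78) (PT.lf (nat_lit 22268) (nat_lit 3) (nat_lit 293) (nat_lit 3) (nat_lit 145) (nat_lit 145) (nat_lit 160)) (PT.lf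 (nat_lit 23104) (nat_lit 6) (nat_lit 304) (nat_lit 3) (nat_lit 146) (nat_lit 145) (nat_lit 159)))))) (PT.nd (nat_lit 624) (PT.nd (nat_lit 312) (PT.nd (nat_lit 156) (PT.nd (nat_lit 78) (PT.lf (nat_lit 23864) (nat_lit 6) (nat_lit 314) (nat_lit 3) (nat_lit 147) (nat_lit 145) (nat_lit 158)) (PT.lf (nat_lit 24548) (nat_lit 6) (nat_lit 323) (nat_lit 3) (nat_lit 148) (nat_lit 145) (nat_lit 157))) (PT.nd (nat_lit 78) (PT.lf (nat_lit 25156) (nat_lit 6) (nat_lit 331) (nat_lit 3) (nat_lit 149) (nat_lit 145) (nat_lit 156)) (PT.lf (nat_lit 25688) (nat_lit 6) (nat_lit 338) (nat_lit 3) (nat_lit 150) (nat_lit 145) (nat_lit 155)))) (PT.nd (nat_lit 156) (PT.nd (nat_lit 78) (PT.lf (nat_lit 25764) (nat_lit 6) (nat_lit 339) (nat_lit 3) (nat_lit 151) (nat_lit 145) (nat_lit 154)) (PT.lf (nat_lit 25840) (nat_lit 6) (nat_lit 340) (nat_lit 3) (nat_lit 152) (nat_lit 145) (nat_lit 153))) (PT.nd (nat_lit 78) (PT.lf (nat_lit 25840)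 (nat_lit 6) (nat_lit 340) (nat_lit 1) (nat_lit 153) (nat_lit 145) (nat_lit 152)) (PT.lf (nat_lit 25764) (nat_lit 6) (nat_lit 339) (nat_lit 1) (nat_lit 154) (nat_lit 145) (nat_lit 151))))) (PT.nd (nat_lit 312) (PT.nd (nat_lit 156) (PT.nd (nat_lit 78) (PT.lf (nat_lit 25688) (nat_lit 6) (nat_lit 338) (nat_lit 1) (nat_lit 155) (nat_lit 145) (nat_lit 150)) (PT.lf (nat_lit 25156) (nat_lit 6) (nat_lit 331) (nat_lit 1) (nat_lit 156) (nat_lit 145) (nat_lit 149))) (PT.nd (nat_lit 78) (PT.lf (nat_lit 24548) (nat_lit 6) (nat_lit 323) (nat_lit 1) (nat_lit 157) (nat_lit 145) (nat_lit 148)) (PT.lf (nat_lit 23864) (nat_lit 6) (nat_lit 314) (nat_lit 1) (nat_lit 158) (nat_lit 145) (nat_lit 147)))) (PT.nd (nat_lit 156) (PT.nd (nat_lit 78) (PT.lf (nat_lit 23104) (nat_lit 6) (nat_lit 304) (nat_lit 1) (nat_lit 159) (nat_lit 145) (nat_lit 146)) (PT.lf (nat_lit 22268) (nat_lit 3) (nat_lit 293) (nat_lit 0) (nat_lit 160) (nat_lit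 145) (nat_lit 145))) (PT.nd (nat_lit 78) (PT.lf (nat_lit 21432) (nat_lit 6) (nat_lit 282) (nat_lit 0) (nat_lit 161) (nat_lit 145) (nat_lit 144)) (PT.lf (nat_lit 20520) (nat_lit 6) (nat_lit 270) (nat_lit 0) (nat_lit 162) (nat_lit 145) (nat_lit 143))))))) (PT.nd (nat_lit 45786) (PT.nd (nat_lit 45162) (PT.nd (nat_lit 234) (PT.nd (nat_lit 78) (PT.lf (nat_lit 19532) (nat_lit 6) (nat_lit 257) (nat_lit 0) (nat_lit 163) (nat_lit 145) (nat_lit 142)) (PT.nd (nat_lit 78) (PT.lf (nat_lit 18468) (nat_lit 6) (nat_lit 243) (nat_lit 0) (nat_lit 164) (nat_lit 145) (nat_lit 141)) (PT.lf (nat_lit 17328) (nat_lit 6) (nat_lit 228) (nat_lit 0) (nat_lit 165) (nat_lit 145) (nat_lit 140)))) (PT.nd (nat_lit 44772) (PT.nd (nat_lit 44694) (PT.lf (nat_lit 16112) (nat_lit 6) (nat_lit 212) (nat_lit 0) (nat_lit 166) (nat_lit 145) (nat_lit 139)) (PT.lf (nat_lit 16188) (nat_lit 6) (nat_lit 213) (nat_lit 5) (nat_lit 138) (nat_lit 146) (nat_lit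 166))) (PT.nd (nat_lit 78) (PT.lf (nat_lit 17404) (nat_lit 6) (nat_lit 229) (nat_lit 5) (nat_lit 139) (nat_lit 146) (nat_lit 165)) (PT.lf (nat_lit 18544) (nat_lit 6) (nat_lit 244) (nat_lit 5) (nat_lit 140) (nat_lit 146) (nat_lit 164))))) (PT.nd (nat_lit 312) (PT.nd (nat_lit 156) (PT.nd (nat_lit 78) (PT.lf (nat_lit 19608) (nat_lit 6) (nat_lit 258) (nat_lit 5) (nat_lit 141) (nat_lit 146) (nat_lit 163)) (PT.lf (nat_lit 20596) (nat_lit 6) (nat_lit 271) (nat_lit 5) (nat_lit 142) (nat_lit 146) (nat_lit 162))) (PT.nd (nat_lit 78) (PT.lf (nat_lit 21508) (nat_lit 6) (nat_lit 283) (nat_lit 5) (nat_lit 143) (nat_lit 146) (nat_lit 161)) (PT.lf (nat_lit 22344) (nat_lit 6) (nat_lit 294) (nat_lit 5) (nat_lit 144) (nat_lit 146) (nat_lit 160)))) (PT.nd (nat_lit 156) (PT.nd (nat_lit 78) (PT.lf (nat_lit 23104) (nat_lit 6) (nat_lit 304) (nat_lit 5) (nat_lit 145) (nat_lit 146) (nat_lit 159)) (PT.lf (nat_lit 23788) (nat_lit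 3) (nat_lit 313) (nat_lit 3) (nat_lit 146) (nat_lit 146) (nat_lit 158))) (PT.nd (nat_lit 78) (PT.lf (nat_lit 24472) (nat_lit 6) (nat_lit 322) (nat_lit 3) (nat_lit 147) (nat_lit 146) (nat_lit 157)) (PT.lf (nat_lit 25080) (nat_lit 6) (nat_lit 330) (nat_lit 3) (nat_lit 148) (nat_lit 146) (nat_lit 156)))))) (PT.nd (nat_lit 624) (PT.nd (nat_lit 312) (PT.nd (nat_lit 156) (PT.nd (nat_lit 78) (PT.lf (nat_lit 25612) (nat_lit 6) (nat_lit 337) (nat_lit 3) (nat_lit 149) (nat_lit 146) (nat_lit 155)) (PT.lf (nat_lit 26068) (nat_lit 6) (nat_lit 343) (nat_lit 3) (nat_lit 150) (nat_lit 146) (nat_lit 154))) (PT.nd (nat_lit 78) (PT.lf (nat_lit 26144) (nat_lit 6) (nat_lit 344) (nat_lit 3) (nat_lit 151) (nat_lit 146) (nat_lit 153)) (PT.lf (nat_lit 26220) (nat_lit 3) (nat_lit 345) (nat_lit 1) (nat_lit 152) (nat_lit 146) (nat_lit 152)))) (PT.nd (nat_lit 156) (PT.nd (nat_lit 78) (PT.lf (nat_lit 26144) (nat_lit 6) (nat_lit 344)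 (nat_lit 1) (nat_lit 153) (nat_lit 146) (nat_lit 151)) (PT.lf (nat_lit 26068) (nat_lit 6) (nat_lit 343) (nat_lit 1) (nat_lit 154) (nat_lit 146) (nat_lit 150))) (PT.nd (nat_lit 78) (PT.lf (nat_lit 25612) (nat_lit 6) (nat_lit 337) (nat_lit 1) (nat_lit 155) (nat_lit 146) (nat_lit 149)) (PT.lf (nat_lit 25080) (nat_lit 6) (nat_lit 330) (nat_lit 1) (nat_lit 156) (nat_lit 146) (nat_lit 148))))) (PT.nd (nat_lit 312) (PT.nd (nat_lit 156) (PT.nd (nat_lit 78) (PT.lf (nat_lit 24472) (nat_lit 6) (nat_lit 322) (nat_lit 1) (nat_lit 157) (nat_lit 146) (nat_lit 147)) (PT.lf (nat_lit 23788) (nat_lit 3) (nat_lit 313) (nat_lit 0) (nat_lit 158) (nat_lit 146) (nat_lit 146))) (PT.nd (nat_lit 78) (PT.lf (nat_lit 23104) (nat_lit 6) (nat_lit 304) (nat_lit 0) (nat_lit 159) (nat_lit 146) (nat_lit 145)) (PT.lf (nat_lit 22344) (nat_lit 6) (nat_lit 294) (nat_lit 0) (nat_lit 160) (nat_lit 146) (nat_lit 144)))) (PT.nd (nat_lit 156) (PT.nd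 (nat_lit 78) (PT.lf (nat_lit 21508) (nat_lit 6) (nat_lit 283) (nat_lit 0) (nat_lit 161) (nat_lit 146) (nat_lit 143)) (PT.lf (nat_lit 20596) (nat_lit 6) (nat_lit 271) (nat_lit 0) (nat_lit 162) (nat_lit 146) (nat_lit 142))) (PT.nd (nat_lit 78) (PT.lf (nat_lit 19608) (nat_lit 6) (nat_lit 258) (nat_lit 0) (nat_lit 163) (nat_lit 146) (nat_lit 141)) (PT.lf (nat_lit 18544) (nat_lit 6) (nat_lit 244) (nat_lit 0) (nat_lit 164) (nat_lit 146) (nat_lit 140))))))))
noncomputable def pc11 : PT := (PT.nd (nat_lit 46956) (PT.nd (nat_lit 45708) (PT.nd (nat_lit 45084) (PT.nd (nat_lit 44772) (PT.nd (nat_lit 78) (PT.lf (nat_lit 17404) (nat_lit 6) (nat_lit 229) (nat_lit 0) (nat_lit 165) (nat_lit 146) (nat_lit 139)) (PT.nd (nat_lit 44616) (PT.lf (nat_lit 16188) (nat_lit 6) (nat_lit 213) (nat_lit 0) (nat_lit 166) (nat_lit 146) (nat_lit 138)) (PT.lf (nat_lit 16264) (nat_lit 6) (nat_lit 214) (nat_lit 5) (nat_lit 137) (nat_lit 147)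 (nat_lit 166)))) (PT.nd (nat_lit 156) (PT.nd (nat_lit 78) (PT.lf (nat_lit 17480) (nat_lit 6) (nat_lit 230) (nat_lit 5) (nat_lit 138) (nat_lit 147) (nat_lit 165)) (PT.lf (nat_lit 18620) (nat_lit 6) (nat_lit 245) (nat_lit 5) (nat_lit 139) (nat_lit 147) (nat_lit 164))) (PT.nd (nat_lit 78) (PT.lf (nat_lit 19684) (nat_lit 6) (nat_lit 259) (nat_lit 5) (nat_lit 140) (nat_lit 147) (nat_lit 163)) (PT.lf (nat_lit 20672) (nat_lit 6) (nat_lit 272) (nat_lit 5) (nat_lit 141) (nat_lit 147) (nat_lit 162))))) (PT.nd (nat_lit 312) (PT.nd (nat_lit 156) (PT.nd (nat_lit 78) (PT.lf (nat_lit 21584) (nat_lit 6) (nat_lit 284) (nat_lit 5) (nat_lit 142) (nat_lit 147) (nat_lit 161)) (PT.lf (nat_lit 22420) (nat_lit 6) (nat_lit 295) (nat_lit 5) (nat_lit 143) (nat_lit 147) (nat_lit 160))) (PT.nd (nat_lit 78) (PT.lf (nat_lit 23180) (nat_lit 6) (nat_lit 305) (nat_lit 5) (nat_lit 144) (nat_lit 147) (nat_lit 159)) (PT.lf (nat_lit 23864)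 (nat_lit 6) (nat_lit 314) (nat_lit 5) (nat_lit 145) (nat_lit 147) (nat_lit 158)))) (PT.nd (nat_lit 156) (PT.nd (nat_lit 78) (PT.lf (nat_lit 24472) (nat_lit 6) (nat_lit 322) (nat_lit 5) (nat_lit 146) (nat_lit 147) (nat_lit 157)) (PT.lf (nat_lit 25004) (nat_lit 3) (nat_lit 329) (nat_lit 3) (nat_lit 147) (nat_lit 147) (nat_lit 156))) (PT.nd (nat_lit 78) (PT.lf (nat_lit 25536) (nat_lit 6) (nat_lit 336) (nat_lit 3) (nat_lit 148) (nat_lit 147) (nat_lit 155)) (PT.lf (nat_lit 25992) (nat_lit 6) (nat_lit 342) (nat_lit 3) (nat_lit 149) (nat_lit 147) (nat_lit 154)))))) (PT.nd (nat_lit 624) (PT.nd (nat_lit 312) (PT.nd (nat_lit 156) (PT.nd (nat_lit 78) (PT.lf (nat_lit 26372) (nat_lit 6) (nat_lit 347) (nat_lit 3) (nat_lit 150) (nat_lit 147) (nat_lit 153)) (PT.lf (nat_lit 26448) (nat_lit 6) (nat_lit 348) (nat_lit 3) (nat_lit 151) (nat_lit 147) (nat_lit 152))) (PT.nd (nat_lit 78) (PT.lf (nat_lit 26448) (nat_lit 6) (nat_lit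 348) (nat_lit 1) (nat_lit 152) (nat_lit 147) (nat_lit 151)) (PT.lf (nat_lit 26372) (nat_lit 6) (nat_lit 347) (nat_lit 1) (nat_lit 153) (nat_lit 147) (nat_lit 150)))) (PT.nd (nat_lit 156) (PT.nd (nat_lit 78) (PT.lf (nat_lit 25992) (nat_lit 6) (nat_lit 342) (nat_lit 1) (nat_lit 154) (nat_lit 147) (nat_lit 149)) (PT.lf (nat_lit 25536) (nat_lit 6) (nat_lit 336) (nat_lit 1) (nat_lit 155) (nat_lit 147) (nat_lit 148))) (PT.nd (nat_lit 78) (PT.lf (nat_lit 25004) (nat_lit 3) (nat_lit 329) (nat_lit 0) (nat_lit 156) (nat_lit 147) (nat_lit 147)) (PT.lf (nat_lit 24472) (nat_lit 6) (nat_lit 322) (nat_lit 0) (nat_lit 157) (nat_lit 147) (nat_lit 146))))) (PT.nd (nat_lit 312) (PT.nd (nat_lit 156) (PT.nd (nat_lit 78) (PT.lf (nat_lit 23864) (nat_lit 6) (nat_lit 314) (nat_lit 0) (nat_lit 158) (nat_lit 147) (nat_lit 145)) (PT.lf (nat_lit 23180) (nat_lit 6) (nat_lit 305) (nat_lit 0) (nat_lit 159) (nat_lit 147) (nat_lit 144)))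 (PT.nd (nat_lit 78) (PT.lf (nat_lit 22420) (nat_lit 6) (nat_lit 295) (nat_lit 0) (nat_lit 160) (nat_lit 147) (nat_lit 143)) (PT.lf (nat_lit 21584) (nat_lit 6) (nat_lit 284) (nat_lit 0) (nat_lit 161) (nat_lit 147) (nat_lit 142)))) (PT.nd (nat_lit 156) (PT.nd (nat_lit 78) (PT.lf (nat_lit 20672) (nat_lit 6) (nat_lit 272) (nat_lit 0) (nat_lit 162) (nat_lit 147) (nat_lit 141)) (PT.lf (nat_lit 19684) (nat_lit 6) (nat_lit 259) (nat_lit 0) (nat_lit 163) (nat_lit 147) (nat_lit 140))) (PT.nd (nat_lit 78) (PT.lf (nat_lit 18620) (nat_lit 6) (nat_lit 245) (nat_lit 0) (nat_lit 164) (nat_lit 147) (nat_lit 139)) (PT.lf (nat_lit 17480) (nat_lit 6) (nat_lit 230) (nat_lit 0) (nat_lit 165) (nat_lit 147) (nat_lit 138))))))) (PT.nd (nat_lit 45630) (PT.nd (nat_lit 45006) (PT.nd (nat_lit 44694) (PT.nd (nat_lit 44538) (PT.lf (nat_lit 16264) (nat_lit 6) (nat_lit 214) (nat_lit 0) (nat_lit 166) (nat_lit 147) (nat_lit 137)) (PT.nd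 (nat_lit 78) (PT.lf (nat_lit 16340) (nat_lit 6) (nat_lit 215) (nat_lit 5) (nat_lit 136) (nat_lit 148) (nat_lit 166)) (PT.lf (nat_lit 17556) (nat_lit 6) (nat_lit 231) (nat_lit 5) (nat_lit 137) (nat_lit 148) (nat_lit 165)))) (PT.nd (nat_lit 156) (PT.nd (nat_lit 78) (PT.lf (nat_lit 18696) (nat_lit 6) (nat_lit 246) (nat_lit 5) (nat_lit 138) (nat_lit 148) (nat_lit 164)) (PT.lf (nat_lit 19760) (nat_lit 6) (nat_lit 260) (nat_lit 5) (nat_lit 139) (nat_lit 148) (nat_lit 163))) (PT.nd (nat_lit 78) (PT.lf (nat_lit 20748) (nat_lit 6) (nat_lit 273) (nat_lit 5) (nat_lit 140) (nat_lit 148) (nat_lit 162)) (PT.lf (nat_lit 21660) (nat_lit 6) (nat_lit 285) (nat_lit 5) (nat_lit 141) (nat_lit 148) (nat_lit 161))))) (PT.nd (nat_lit 312) (PT.nd (nat_lit 156) (PT.nd (nat_lit 78) (PT.lf (nat_lit 22496) (nat_lit 6) (nat_lit 296) (nat_lit 5) (nat_lit 142) (nat_lit 148) (nat_lit 160)) (PT.lf (nat_lit 23256) (nat_lit 6) (nat_lit 306)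 (nat_lit 5) (nat_lit 143) (nat_lit 148) (nat_lit 159))) (PT.nd (nat_lit 78) (PT.lf (nat_lit 23940) (nat_lit 6) (nat_lit 315) (nat_lit 5) (nat_lit 144) (nat_lit 148) (nat_lit 158)) (PT.lf (nat_lit 24548) (nat_lit 6) (nat_lit 323) (nat_lit 5) (nat_lit 145) (nat_lit 148) (nat_lit 157)))) (PT.nd (nat_lit 156) (PT.nd (nat_lit 78) (PT.lf (nat_lit 25080) (nat_lit 6) (nat_lit 330) (nat_lit 5) (nat_lit 146) (nat_lit 148) (nat_lit 156)) (PT.lf (nat_lit 25536) (nat_lit 6) (nat_lit 336) (nat_lit 5) (nat_lit 147) (nat_lit 148) (nat_lit 155))) (PT.nd (nat_lit 78) (PT.lf (nat_lit 25916) (nat_lit 3) (nat_lit 341) (nat_lit 3) (nat_lit 148) (nat_lit 148) (nat_lit 154)) (PT.lf (nat_lit 26296) (nat_lit 6) (nat_lit 346) (nat_lit 3) (nat_lit 149) (nat_lit 148) (nat_lit 153)))))) (PT.nd (nat_lit 624) (PT.nd (nat_lit 312) (PT.nd (nat_lit 156) (PT.nd (nat_lit 78) (PT.lf (nat_lit 26600) (nat_lit 6) (nat_lit 350) (nat_lit 3) (nat_lit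 150) (nat_lit 148) (nat_lit 152)) (PT.lf (nat_lit 26676) (nat_lit 3) (nat_lit 351) (nat_lit 1) (nat_lit 151) (nat_lit 148) (nat_lit 151))) (PT.nd (nat_lit 78) (PT.lf (nat_lit 26600) (nat_lit 6) (nat_lit 350) (nat_lit 1) (nat_lit 152) (nat_lit 148) (nat_lit 150)) (PT.lf (nat_lit 26296) (nat_lit 6) (nat_lit 346) (nat_lit 1) (nat_lit 153) (nat_lit 148) (nat_lit 149)))) (PT.nd (nat_lit 156) (PT.nd (nat_lit 78) (PT.lf (nat_lit 25916) (nat_lit 3) (nat_lit 341) (nat_lit 0) (nat_lit 154) (nat_lit 148) (nat_lit 148)) (PT.lf (nat_lit 25536) (nat_lit 6) (nat_lit 336) (nat_lit 0) (nat_lit 155) (nat_lit 148) (nat_lit 147))) (PT.nd (nat_lit 78) (PT.lf (nat_lit 25080) (nat_lit 6) (nat_lit 330) (nat_lit 0) (nat_lit 156) (nat_lit 148) (nat_lit 146)) (PT.lf (nat_lit 24548) (nat_lit 6) (nat_lit 323) (nat_lit 0) (nat_lit 157) (nat_lit 148) (nat_lit 145))))) (PT.nd (nat_lit 312) (PT.nd (nat_lit 156) (PT.nd (nat_lit 78) (PT.lf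 (nat_lit 23940) (nat_lit 6) (nat_lit 315) (nat_lit 0) (nat_lit 158) (nat_lit 148) (nat_lit 144)) (PT.lf (nat_lit 23256) (nat_lit 6) (nat_lit 306) (nat_lit 0) (nat_lit 159) (nat_lit 148) (nat_lit 143))) (PT.nd (nat_lit 78) (PT.lf (nat_lit 22496) (nat_lit 6) (nat_lit 296) (nat_lit 0) (nat_lit 160) (nat_lit 148) (nat_lit 142)) (PT.lf (nat_lit 21660) (nat_lit 6) (nat_lit 285) (nat_lit 0) (nat_lit 161) (nat_lit 148) (nat_lit 141)))) (PT.nd (nat_lit 156) (PT.nd (nat_lit 78) (PT.lf (nat_lit 20748) (nat_lit 6) (nat_lit 273) (nat_lit 0) (nat_lit 162) (nat_lit 148) (nat_lit 140)) (PT.lf (nat_lit 19760) (nat_lit 6) (nat_lit 260) (nat_lit 0) (nat_lit 163) (nat_lit 148) (nat_lit 139))) (PT.nd (nat_lit 78) (PT.lf (nat_lit 18696) (nat_lit 6) (nat_lit 246) (nat_lit 0) (nat_lit 164) (nat_lit 148) (nat_lit 138)) (PT.lf (nat_lit 17556) (nat_lit 6) (nat_lit 231) (nat_lit 0) (nat_lit 165) (nat_lit 148) (nat_lit 137))))))))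
noncomputable def pc12 : PT := (PT.nd (nat_lit 46722) (PT.nd (nat_lit 45552) (PT.nd (nat_lit 44928) (PT.nd (nat_lit 44616) (PT.nd (nat_lit 44460) (PT.lf (nat_lit 16340) (nat_lit 6) (nat_lit 215) (nat_lit 0) (nat_lit 166) (nat_lit 148) (nat_lit 136)) (PT.nd (nat_lit 78) (PT.lf (nat_lit 16416) (nat_lit 6) (nat_lit 216) (nat_lit 5) (nat_lit 135) (nat_lit 149) (nat_lit 166)) (PT.lf (nat_lit 17632) (nat_lit 6) (nat_lit 232) (nat_lit 5) (nat_lit 136) (nat_lit 149) (nat_lit 165)))) (PT.nd (nat_lit 156) (PT.nd (nat_lit 78) (PT.lf (nat_lit 18772) (nat_lit 6) (nat_lit 247) (nat_lit 5) (nat_lit 137) (nat_lit 149) (nat_lit 164)) (PT.lf (nat_lit 19836) (nat_lit 6) (nat_lit 261) (nat_lit 5) (nat_lit 138) (nat_lit 149) (nat_lit 163))) (PT.nd (nat_lit 78) (PT.lf (nat_lit 20824) (nat_lit 6) (nat_lit 274) (nat_lit 5) (nat_lit 139) (nat_lit 149) (nat_lit 162)) (PT.lf (nat_lit 21736) (nat_lit 6) (nat_lit 286) (nat_lit 5)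 (nat_lit 140) (nat_lit 149) (nat_lit 161))))) (PT.nd (nat_lit 312) (PT.nd (nat_lit 156) (PT.nd (nat_lit 78) (PT.lf (nat_lit 22572) (nat_lit 6) (nat_lit 297) (nat_lit 5) (nat_lit 141) (nat_lit 149) (nat_lit 160)) (PT.lf (nat_lit 23332) (nat_lit 6) (nat_lit 307) (nat_lit 5) (nat_lit 142) (nat_lit 149) (nat_lit 159))) (PT.nd (nat_lit 78) (PT.lf (nat_lit 24016) (nat_lit 6) (nat_lit 316) (nat_lit 5) (nat_lit 143) (nat_lit 149) (nat_lit 158)) (PT.lf (nat_lit 24624) (nat_lit 6) (nat_lit 324) (nat_lit 5) (nat_lit 144) (nat_lit 149) (nat_lit 157)))) (PT.nd (nat_lit 156) (PT.nd (nat_lit 78) (PT.lf (nat_lit 25156) (nat_lit 6) (nat_lit 331) (nat_lit 5) (nat_lit 145) (nat_lit 149) (nat_lit 156)) (PT.lf (nat_lit 25612) (nat_lit 6) (nat_lit 337) (nat_lit 5) (nat_lit 146) (nat_lit 149) (nat_lit 155))) (PT.nd (nat_lit 78) (PT.lf (nat_lit 25992) (nat_lit 6) (nat_lit 342) (nat_lit 5) (nat_lit 147) (nat_lit 149) (nat_lit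 154)) (PT.lf (nat_lit 26296) (nat_lit 6) (nat_lit 346) (nat_lit 5) (nat_lit 148) (nat_lit 149) (nat_lit 153)))))) (PT.nd (nat_lit 546) (PT.nd (nat_lit 234) (PT.nd (nat_lit 78) (PT.lf (nat_lit 26524) (nat_lit 3) (nat_lit 349) (nat_lit 3) (nat_lit 149) (nat_lit 149) (nat_lit 152)) (PT.nd (nat_lit 78) (PT.lf (nat_lit 26752) (nat_lit 6) (nat_lit 352) (nat_lit 3) (nat_lit 150) (nat_lit 149) (nat_lit 151)) (PT.lf (nat_lit 26752) (nat_lit 6) (nat_lit 352) (nat_lit 1) (nat_lit 151) (nat_lit 149) (nat_lit 150)))) (PT.nd (nat_lit 156) (PT.nd (nat_lit 78) (PT.lf (nat_lit 26524) (nat_lit 3) (nat_lit 349) (nat_lit 0) (nat_lit 152) (nat_lit 149) (nat_lit 149)) (PT.lf (nat_lit 26296) (nat_lit 6) (nat_lit 346) (nat_lit 0) (nat_lit 153) (nat_lit 149) (nat_lit 148))) (PT.nd (nat_lit 78) (PT.lf (nat_lit 25992) (nat_lit 6) (nat_lit 342) (nat_lit 0) (nat_lit 154) (nat_lit 149) (nat_lit 147)) (PT.lf (nat_lit 25612) (nat_lit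 6) (nat_lit 337) (nat_lit 0) (nat_lit 155) (nat_lit 149) (nat_lit 146))))) (PT.nd (nat_lit 312) (PT.nd (nat_lit 156) (PT.nd (nat_lit 78) (PT.lf (nat_lit 25156) (nat_lit 6) (nat_lit 331) (nat_lit 0) (nat_lit 156) (nat_lit 149) (nat_lit 145)) (PT.lf (nat_lit 24624) (nat_lit 6) (nat_lit 324) (nat_lit 0) (nat_lit 157) (nat_lit 149) (nat_lit 144))) (PT.nd (nat_lit 78) (PT.lf (nat_lit 24016) (nat_lit 6) (nat_lit 316) (nat_lit 0) (nat_lit 158) (nat_lit 149) (nat_lit 143)) (PT.lf (nat_lit 23332) (nat_lit 6) (nat_lit 307) (nat_lit 0) (nat_lit 159) (nat_lit 149) (nat_lit 142)))) (PT.nd (nat_lit 156) (PT.nd (nat_lit 78) (PT.lf (nat_lit 22572) (nat_lit 6) (nat_lit 297) (nat_lit 0) (nat_lit 160) (nat_lit 149) (nat_lit 141)) (PT.lf (nat_lit 21736) (nat_lit 6) (nat_lit 286) (nat_lit 0) (nat_lit 161) (nat_lit 149) (nat_lit 140))) (PT.nd (nat_lit 78) (PT.lf (nat_lit 20824) (nat_lit 6) (nat_lit 274) (nat_lit 0) (nat_lit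 162) (nat_lit 149) (nat_lit 139)) (PT.lf (nat_lit 19836) (nat_lit 6) (nat_lit 261) (nat_lit 0) (nat_lit 163) (nat_lit 149) (nat_lit 138))))))) (PT.nd (nat_lit 45474) (PT.nd (nat_lit 44850) (PT.nd (nat_lit 44538) (PT.nd (nat_lit 78) (PT.lf (nat_lit 18772) (nat_lit 6) (nat_lit 247) (nat_lit 0) (nat_lit 164) (nat_lit 149) (nat_lit 137)) (PT.nd (nat_lit 78) (PT.lf (nat_lit 17632) (nat_lit 6) (nat_lit 232) (nat_lit 0) (nat_lit 165) (nat_lit 149) (nat_lit 136)) (PT.lf (nat_lit 16416) (nat_lit 6) (nat_lit 216) (nat_lit 0) (nat_lit 166) (nat_lit 149) (nat_lit 135)))) (PT.nd (nat_lit 156) (PT.nd (nat_lit 78) (PT.lf (nat_lit 16492) (nat_lit 6) (nat_lit 217) (nat_lit 5) (nat_lit 134) (nat_lit 150) (nat_lit 166)) (PT.lf (nat_lit 17708) (nat_lit 6) (nat_lit 233) (nat_lit 5) (nat_lit 135) (nat_lit 150) (nat_lit 165))) (PT.nd (nat_lit 78) (PT.lf (nat_lit 18848) (nat_lit 6) (nat_lit 248) (nat_lit 5) (nat_lit 136) (nat_lit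 150) (nat_lit 164)) (PT.lf (nat_lit 19912) (nat_lit 6) (nat_lit 262) (nat_lit 5) (nat_lit 137) (nat_lit 150) (nat_lit 163))))) (PT.nd (nat_lit 312) (PT.nd (nat_lit 156) (PT.nd (nat_lit 78) (PT.lf (nat_lit 20900) (nat_lit 6) (nat_lit 275) (nat_lit 5) (nat_lit 138) (nat_lit 150) (nat_lit 162)) (PT.lf (nat_lit 21812) (nat_lit 6) (nat_lit 287) (nat_lit 5) (nat_lit 139) (nat_lit 150) (nat_lit 161))) (PT.nd (nat_lit 78) (PT.lf (nat_lit 22648) (nat_lit 6) (nat_lit 298) (nat_lit 5) (nat_lit 140) (nat_lit 150) (nat_lit 160)) (PT.lf (nat_lit 23408) (nat_lit 6) (nat_lit 308) (nat_lit 5) (nat_lit 141) (nat_lit 150) (nat_lit 159)))) (PT.nd (nat_lit 156) (PT.nd (nat_lit 78) (PT.lf (nat_lit 24092) (nat_lit 6) (nat_lit 317) (nat_lit 5) (nat_lit 142) (nat_lit 150) (nat_lit 158)) (PT.lf (nat_lit 24700) (nat_lit 6) (nat_lit 325) (nat_lit 5) (nat_lit 143) (nat_lit 150) (nat_lit 157))) (PT.nd (nat_lit 78) (PT.lf (nat_lit 25232)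 (nat_lit 6) (nat_lit 332) (nat_lit 5) (nat_lit 144) (nat_lit 150) (nat_lit 156)) (PT.lf (nat_lit 25688) (nat_lit 6) (nat_lit 338) (nat_lit 5) (nat_lit 145) (nat_lit 150) (nat_lit 155)))))) (PT.nd (nat_lit 624) (PT.nd (nat_lit 312) (PT.nd (nat_lit 156) (PT.nd (nat_lit 78) (PT.lf (nat_lit 26068) (nat_lit 6) (nat_lit 343) (nat_lit 5) (nat_lit 146) (nat_lit 150) (nat_lit 154)) (PT.lf (nat_lit 26372) (nat_lit 6) (nat_lit 347) (nat_lit 5) (nat_lit 147) (nat_lit 150) (nat_lit 153))) (PT.nd (nat_lit 78) (PT.lf (nat_lit 26600) (nat_lit 6) (nat_lit 350) (nat_lit 5) (nat_lit 148) (nat_lit 150) (nat_lit 152)) (PT.lf (nat_lit 26752) (nat_lit 6) (nat_lit 352) (nat_lit 5) (nat_lit 149) (nat_lit 150) (nat_lit 151)))) (PT.nd (nat_lit 156) (PT.nd (nat_lit 78) (PT.lf (nat_lit 26828) (nat_lit 1) (nat_lit 353) (nat_lit 0) (nat_lit 150) (nat_lit 150) (nat_lit 150)) (PT.lf (nat_lit 26752) (nat_lit 6) (nat_lit 352) (nat_lit 0)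 (nat_lit 151) (nat_lit 150) (nat_lit 149))) (PT.nd (nat_lit 78) (PT.lf (nat_lit 26600) (nat_lit 6) (nat_lit 350) (nat_lit 0) (nat_lit 152) (nat_lit 150) (nat_lit 148)) (PT.lf (nat_lit 26372) (nat_lit 6) (nat_lit 347) (nat_lit 0) (nat_lit 153) (nat_lit 150) (nat_lit 147))))) (PT.nd (nat_lit 312) (PT.nd (nat_lit 156) (PT.nd (nat_lit 78) (PT.lf (nat_lit 26068) (nat_lit 6) (nat_lit 343) (nat_lit 0) (nat_lit 154) (nat_lit 150) (nat_lit 146)) (PT.lf (nat_lit 25688) (nat_lit 6) (nat_lit 338) (nat_lit 0) (nat_lit 155) (nat_lit 150) (nat_lit 145))) (PT.nd (nat_lit 78) (PT.lf (nat_lit 25232) (nat_lit 6) (nat_lit 332) (nat_lit 0) (nat_lit 156) (nat_lit 150) (nat_lit 144)) (PT.lf (nat_lit 24700) (nat_lit 6) (nat_lit 325) (nat_lit 0) (nat_lit 157) (nat_lit 150) (nat_lit 143)))) (PT.nd (nat_lit 156) (PT.nd (nat_lit 78) (PT.lf (nat_lit 24092) (nat_lit 6) (nat_lit 317) (nat_lit 0) (nat_lit 158) (nat_lit 150) (nat_lit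 142)) (PT.lf (nat_lit 23408) (nat_lit 6) (nat_lit 308) (nat_lit 0) (nat_lit 159) (nat_lit 150) (nat_lit 141))) (PT.nd (nat_lit 78) (PT.lf (nat_lit 22648) (nat_lit 6) (nat_lit 298) (nat_lit 0) (nat_lit 160) (nat_lit 150) (nat_lit 140)) (PT.lf (nat_lit 21812) (nat_lit 6) (nat_lit 287) (nat_lit 0) (nat_lit 161) (nat_lit 150) (nat_lit 139))))))))
noncomputable def pc13 : PT := (PT.nd (nat_lit 46644) (PT.nd (nat_lit 45396) (PT.nd (nat_lit 44772) (PT.nd (nat_lit 234) (PT.nd (nat_lit 78) (PT.lf (nat_lit 20900) (nat_lit 6) (nat_lit 275) (nat_lit 0) (nat_lit 162) (nat_lit 150) (nat_lit 138)) (PT.nd (nat_lit 78) (PT.lf (nat_lit 19912) (nat_lit 6) (nat_lit 262) (nat_lit 0) (nat_lit 163) (nat_lit 150) (nat_lit 137)) (PT.lf (nat_lit 18848) (nat_lit 6) (nat_lit 248) (nat_lit 0) (nat_lit 164) (nat_lit 150) (nat_lit 136)))) (PT.nd (nat_lit 44382) (PT.nd (nat_lit 78) (PT.lf (nat_lit 17708) (nat_lit 6) (nat_lit 233) (nat_lit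 0) (nat_lit 165) (nat_lit 150) (nat_lit 135)) (PT.lf (nat_lit 16492) (nat_lit 6) (nat_lit 217) (nat_lit 0) (nat_lit 166) (nat_lit 150) (nat_lit 134))) (PT.nd (nat_lit 78) (PT.lf (nat_lit 15504) (nat_lit 6) (nat_lit 204) (nat_lit 5) (nat_lit 133) (nat_lit 151) (nat_lit 166)) (PT.lf (nat_lit 16568) (nat_lit 6) (nat_lit 218) (nat_lit 5) (nat_lit 134) (nat_lit 151) (nat_lit 165))))) (PT.nd (nat_lit 312) (PT.nd (nat_lit 156) (PT.nd (nat_lit 78) (PT.lf (nat_lit 17784) (nat_lit 6) (nat_lit 234) (nat_lit 5) (nat_lit 135) (nat_lit 151) (nat_lit 164)) (PT.lf (nat_lit 18924) (nat_lit 6) (nat_lit 249) (nat_lit 5) (nat_lit 136) (nat_lit 151) (nat_lit 163))) (PT.nd (nat_lit 78) (PT.lf (nat_lit 19988) (nat_lit 6) (nat_lit 263) (nat_lit 5) (nat_lit 137) (nat_lit 151) (nat_lit 162)) (PT.lf (nat_lit 20976) (nat_lit 6) (nat_lit 276) (nat_lit 5) (nat_lit 138) (nat_lit 151) (nat_lit 161)))) (PT.nd (nat_lit 156) (PT.nd (nat_lit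 78) (PT.lf (nat_lit 21888) (nat_lit 6) (nat_lit 288) (nat_lit 5) (nat_lit 139) (nat_lit 151) (nat_lit 160)) (PT.lf (nat_lit 22724) (nat_lit 6) (nat_lit 299) (nat_lit 5) (nat_lit 140) (nat_lit 151) (nat_lit 159))) (PT.nd (nat_lit 78) (PT.lf (nat_lit 23484) (nat_lit 6) (nat_lit 309) (nat_lit 5) (nat_lit 141) (nat_lit 151) (nat_lit 158)) (PT.lf (nat_lit 24168) (nat_lit 6) (nat_lit 318) (nat_lit 5) (nat_lit 142) (nat_lit 151) (nat_lit 157)))))) (PT.nd (nat_lit 624) (PT.nd (nat_lit 312) (PT.nd (nat_lit 156) (PT.nd (nat_lit 78) (PT.lf (nat_lit 24776) (nat_lit 6) (nat_lit 326) (nat_lit 5) (nat_lit 143) (nat_lit 151) (nat_lit 156)) (PT.lf (nat_lit 25308) (nat_lit 6) (nat_lit 333) (nat_lit 5) (nat_lit 144) (nat_lit 151) (nat_lit 155))) (PT.nd (nat_lit 78) (PT.lf (nat_lit 25764) (nat_lit 6) (nat_lit 339) (nat_lit 5) (nat_lit 145) (nat_lit 151) (nat_lit 154)) (PT.lf (nat_lit 26144) (nat_lit 6) (nat_lit 344) (nat_lit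 5) (nat_lit 146) (nat_lit 151) (nat_lit 153)))) (PT.nd (nat_lit 156) (PT.nd (nat_lit 78) (PT.lf (nat_lit 26448) (nat_lit 6) (nat_lit 348) (nat_lit 5) (nat_lit 147) (nat_lit 151) (nat_lit 152)) (PT.lf (nat_lit 26676) (nat_lit 3) (nat_lit 351) (nat_lit 4) (nat_lit 148) (nat_lit 151) (nat_lit 151))) (PT.nd (nat_lit 78) (PT.lf (nat_lit 26752) (nat_lit 6) (nat_lit 352) (nat_lit 4) (nat_lit 149) (nat_lit 151) (nat_lit 150)) (PT.lf (nat_lit 26752) (nat_lit 6) (nat_lit 352) (nat_lit 2) (nat_lit 150) (nat_lit 151) (nat_lit 149))))) (PT.nd (nat_lit 312) (PT.nd (nat_lit 156) (PT.nd (nat_lit 78) (PT.lf (nat_lit 26676) (nat_lit 3) (nat_lit 351) (nat_lit 0) (nat_lit 151) (nat_lit 151) (nat_lit 148)) (PT.lf (nat_lit 26448) (nat_lit 6) (nat_lit 348) (nat_lit 0) (nat_lit 152) (nat_lit 151) (nat_lit 147))) (PT.nd (nat_lit 78) (PT.lf (nat_lit 26144) (nat_lit 6) (nat_lit 344) (nat_lit 0) (nat_lit 153) (nat_lit 151) (nat_lit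 146)) (PT.lf (nat_lit 25764) (nat_lit 6) (nat_lit 339) (nat_lit 0) (nat_lit 154) (nat_lit 151) (nat_lit 145)))) (PT.nd (nat_lit 156) (PT.nd (nat_lit 78) (PT.lf (nat_lit 25308) (nat_lit 6) (nat_lit 333) (nat_lit 0) (nat_lit 155) (nat_lit 151) (nat_lit 144)) (PT.lf (nat_lit 24776) (nat_lit 6) (nat_lit 326) (nat_lit 0) (nat_lit 156) (nat_lit 151) (nat_lit 143))) (PT.nd (nat_lit 78) (PT.lf (nat_lit 24168) (nat_lit 6) (nat_lit 318) (nat_lit 0) (nat_lit 157) (nat_lit 151) (nat_lit 142)) (PT.lf (nat_lit 23484) (nat_lit 6) (nat_lit 309) (nat_lit 0) (nat_lit 158) (nat_lit 151) (nat_lit 141))))))) (PT.nd (nat_lit 45240) (PT.nd (nat_lit 546) (PT.nd (nat_lit 234) (PT.nd (nat_lit 78) (PT.lf (nat_lit 22724) (nat_lit 6) (nat_lit 299) (nat_lit 0) (nat_lit 159) (nat_lit 151) (nat_lit 140)) (PT.nd (nat_lit 78) (PT.lf (nat_lit 21888) (nat_lit 6) (nat_lit 288) (nat_lit 0) (nat_lit 160) (nat_lit 151) (nat_lit 139)) (PT.lf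 (nat_lit 20976) (nat_lit 6) (nat_lit 276) (nat_lit 0) (nat_lit 161) (nat_lit 151) (nat_lit 138)))) (PT.nd (nat_lit 156) (PT.nd (nat_lit 78) (PT.lf (nat_lit 19988) (nat_lit 6) (nat_lit 263) (nat_lit 0) (nat_lit 162) (nat_lit 151) (nat_lit 137)) (PT.lf (nat_lit 18924) (nat_lit 6) (nat_lit 249) (nat_lit 0) (nat_lit 163) (nat_lit 151) (nat_lit 136))) (PT.nd (nat_lit 78) (PT.lf (nat_lit 17784) (nat_lit 6) (nat_lit 234) (nat_lit 0) (nat_lit 164) (nat_lit 151) (nat_lit 135)) (PT.lf (nat_lit 16568) (nat_lit 6) (nat_lit 218) (nat_lit 0) (nat_lit 165) (nat_lit 151) (nat_lit 134))))) (PT.nd (nat_lit 44382) (PT.nd (nat_lit 44226) (PT.nd (nat_lit 44148) (PT.lf (nat_lit 15504) (nat_lit 6) (nat_lit 204) (nat_lit 0) (nat_lit 166) (nat_lit 151) (nat_lit 133)) (PT.lf (nat_lit 14288) (nat_lit 6) (nat_lit 188) (nat_lit 5) (nat_lit 131) (nat_lit 152) (nat_lit 167))) (PT.nd (nat_lit 78) (PT.lf (nat_lit 14896) (nat_lit 6) (nat_lit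 196) (nat_lit 5) (nat_lit 132) (nat_lit 152) (nat_lit 166)) (PT.lf (nat_lit 15580) (nat_lit 6) (nat_lit 205) (nat_lit 5) (nat_lit 133) (nat_lit 152) (nat_lit 165)))) (PT.nd (nat_lit 156) (PT.nd (nat_lit 78) (PT.lf (nat_lit 16644) (nat_lit 6) (nat_lit 219) (nat_lit 5) (nat_lit 134) (nat_lit 152) (nat_lit 164)) (PT.lf (nat_lit 17860) (nat_lit 6) (nat_lit 235) (nat_lit 5) (nat_lit 135) (nat_lit 152) (nat_lit 163))) (PT.nd (nat_lit 78) (PT.lf (nat_lit 19000) (nat_lit 6) (nat_lit 250) (nat_lit 5) (nat_lit 136) (nat_lit 152) (nat_lit 162)) (PT.lf (nat_lit 20064) (nat_lit 6) (nat_lit 264) (nat_lit 5) (nat_lit 137) (nat_lit 152) (nat_lit 161)))))) (PT.nd (nat_lit 624) (PT.nd (nat_lit 312) (PT.nd (nat_lit 156) (PT.nd (nat_lit 78) (PT.lf (nat_lit 21052) (nat_lit 6) (nat_lit 277) (nat_lit 5) (nat_lit 138) (nat_lit 152) (nat_lit 160)) (PT.lf (nat_lit 21964) (nat_lit 6) (nat_lit 289) (nat_lit 5) (nat_lit 139) (nat_lit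 152) (nat_lit 159))) (PT.nd (nat_lit 78) (PT.lf (nat_lit 22800) (nat_lit 6) (nat_lit 300) (nat_lit 5) (nat_lit 140) (nat_lit 152) (nat_lit 158)) (PT.lf (nat_lit 23560) (nat_lit 6) (nat_lit 310) (nat_lit 5) (nat_lit 141) (nat_lit 152) (nat_lit 157)))) (PT.nd (nat_lit 156) (PT.nd (nat_lit 78) (PT.lf (nat_lit 24244) (nat_lit 6) (nat_lit 319) (nat_lit 5) (nat_lit 142) (nat_lit 152) (nat_lit 156)) (PT.lf (nat_lit 24852) (nat_lit 6) (nat_lit 327) (nat_lit 5) (nat_lit 143) (nat_lit 152) (nat_lit 155))) (PT.nd (nat_lit 78) (PT.lf (nat_lit 25384) (nat_lit 6) (nat_lit 334) (nat_lit 5) (nat_lit 144) (nat_lit 152) (nat_lit 154)) (PT.lf (nat_lit 25840) (nat_lit 6) (nat_lit 340) (nat_lit 5) (nat_lit 145) (nat_lit 152) (nat_lit 153))))) (PT.nd (nat_lit 312) (PT.nd (nat_lit 156) (PT.nd (nat_lit 78) (PT.lf (nat_lit 26220) (nat_lit 3) (nat_lit 345) (nat_lit 4) (nat_lit 146) (nat_lit 152) (nat_lit 152)) (PT.lf (nat_lit 26448)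 (nat_lit 6) (nat_lit 348) (nat_lit 4) (nat_lit 147) (nat_lit 152) (nat_lit 151))) (PT.nd (nat_lit 78) (PT.lf (nat_lit 26600) (nat_lit 6) (nat_lit 350) (nat_lit 4) (nat_lit 148) (nat_lit 152) (nat_lit 150)) (PT.lf (nat_lit 26524) (nat_lit 3) (nat_lit 349) (nat_lit 2) (nat_lit 149) (nat_lit 152) (nat_lit 149)))) (PT.nd (nat_lit 156) (PT.nd (nat_lit 78) (PT.lf (nat_lit 26600) (nat_lit 6) (nat_lit 350) (nat_lit 2) (nat_lit 150) (nat_lit 152) (nat_lit 148)) (PT.lf (nat_lit 26448) (nat_lit 6) (nat_lit 348) (nat_lit 2) (nat_lit 151) (nat_lit 152) (nat_lit 147))) (PT.nd (nat_lit 78) (PT.lf (nat_lit 26220) (nat_lit 3) (nat_lit 345) (nat_lit 0) (nat_lit 152) (nat_lit 152) (nat_lit 146)) (PT.lf (nat_lit 25840) (nat_lit 6) (nat_lit 340) (nat_lit 0) (nat_lit 153) (nat_lit 152) (nat_lit 145))))))))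
noncomputable def pc14 : PT := (PT.nd (nat_lit 46332) (PT.nd (nat_lit 45084) (PT.nd (nat_lit 546) (PT.nd (nat_lit 234) (PT.nd (nat_lit 78) (PT.lf (nat_lit 25384) (nat_lit 6) (nat_lit 334) (nat_lit 0) (nat_lit 154) (nat_lit 152) (nat_lit 144)) (PT.nd (nat_lit 78) (PT.lf (nat_lit 24852) (nat_lit 6) (nat_lit 327) (nat_lit 0) (nat_lit 155) (nat_lit 152) (nat_lit 143)) (PT.lf (nat_lit 24244) (nat_lit 6) (nat_lit 319) (nat_lit 0) (nat_lit 156) (nat_lit 152) (nat_lit 142)))) (PT.nd (nat_lit 156) (PT.nd (nat_lit 78) (PT.lf (nat_lit 23560) (nat_lit 6) (nat_lit 310) (nat_lit 0) (nat_lit 157) (nat_lit 152) (nat_lit 141)) (PT.lf (nat_lit 22800) (nat_lit 6) (nat_lit 300) (nat_lit 0) (nat_lit 158) (nat_lit 152) (nat_lit 140))) (PT.nd (nat_lit 78) (PT.lf (nat_lit 21964) (nat_lit 6) (nat_lit 289) (nat_lit 0) (nat_lit 159) (nat_lit 152) (nat_lit 139)) (PT.lf (nat_lit 21052) (nat_lit 6) (nat_lit 277) (nat_lit 0) (nat_lit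 160) (nat_lit 152) (nat_lit 138))))) (PT.nd (nat_lit 312) (PT.nd (nat_lit 156) (PT.nd (nat_lit 78) (PT.lf (nat_lit 20064) (nat_lit 6) (nat_lit 264) (nat_lit 0) (nat_lit 161) (nat_lit 152) (nat_lit 137)) (PT.lf (nat_lit 19000) (nat_lit 6) (nat_lit 250) (nat_lit 0) (nat_lit 162) (nat_lit 152) (nat_lit 136))) (PT.nd (nat_lit 78) (PT.lf (nat_lit 17860) (nat_lit 6) (nat_lit 235) (nat_lit 0) (nat_lit 163) (nat_lit 152) (nat_lit 135)) (PT.lf (nat_lit 16644) (nat_lit 6) (nat_lit 219) (nat_lit 0) (nat_lit 164) (nat_lit 152) (nat_lit 134)))) (PT.nd (nat_lit 156) (PT.nd (nat_lit 78) (PT.lf (nat_lit 15580) (nat_lit 6) (nat_lit 205) (nat_lit 0) (nat_lit 165) (nat_lit 152) (nat_lit 133)) (PT.lf (nat_lit 14896) (nat_lit 6) (nat_lit 196) (nat_lit 0) (nat_lit 166) (nat_lit 152) (nat_lit 132))) (PT.nd (nat_lit 43992) (PT.lf (nat_lit 14288) (nat_lit 6) (nat_lit 188) (nat_lit 0) (nat_lit 167) (nat_lit 152) (nat_lit 131))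 (PT.lf (nat_lit 13680) (nat_lit 6) (nat_lit 180) (nat_lit 5) (nat_lit 130) (nat_lit 153) (nat_lit 167)))))) (PT.nd (nat_lit 624) (PT.nd (nat_lit 312) (PT.nd (nat_lit 156) (PT.nd (nat_lit 78) (PT.lf (nat_lit 14364) (nat_lit 6) (nat_lit 189) (nat_lit 5) (nat_lit 131) (nat_lit 153) (nat_lit 166)) (PT.lf (nat_lit 14972) (nat_lit 6) (nat_lit 197) (nat_lit 5) (nat_lit 132) (nat_lit 153) (nat_lit 165))) (PT.nd (nat_lit 78) (PT.lf (nat_lit 15656) (nat_lit 6) (nat_lit 206) (nat_lit 5) (nat_lit 133) (nat_lit 153) (nat_lit 164)) (PT.lf (nat_lit 16720) (nat_lit 6) (nat_lit 220) (nat_lit 5) (nat_lit 134) (nat_lit 153) (nat_lit 163)))) (PT.nd (nat_lit 156) (PT.nd (nat_lit 78) (PT.lf (nat_lit 17936) (nat_lit 6) (nat_lit 236) (nat_lit 5) (nat_lit 135) (nat_lit 153) (nat_lit 162)) (PT.lf (nat_lit 19076) (nat_lit 6) (nat_lit 251) (nat_lit 5) (nat_lit 136) (nat_lit 153) (nat_lit 161))) (PT.nd (nat_lit 78) (PT.lf (nat_lit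 20140) (nat_lit 6) (nat_lit 265) (nat_lit 5) (nat_lit 137) (nat_lit 153) (nat_lit 160)) (PT.lf (nat_lit 21128) (nat_lit 6) (nat_lit 278) (nat_lit 5) (nat_lit 138) (nat_lit 153) (nat_lit 159))))) (PT.nd (nat_lit 312) (PT.nd (nat_lit 156) (PT.nd (nat_lit 78) (PT.lf (nat_lit 22040) (nat_lit 6) (nat_lit 290) (nat_lit 5) (nat_lit 139) (nat_lit 153) (nat_lit 158)) (PT.lf (nat_lit 22876) (nat_lit 6) (nat_lit 301) (nat_lit 5) (nat_lit 140) (nat_lit 153) (nat_lit 157))) (PT.nd (nat_lit 78) (PT.lf (nat_lit 23636) (nat_lit 6) (nat_lit 311) (nat_lit 5) (nat_lit 141) (nat_lit 153) (nat_lit 156)) (PT.lf (nat_lit 24320) (nat_lit 6) (nat_lit 320) (nat_lit 5) (nat_lit 142) (nat_lit 153) (nat_lit 155)))) (PT.nd (nat_lit 156) (PT.nd (nat_lit 78) (PT.lf (nat_lit 24928) (nat_lit 6) (nat_lit 328) (nat_lit 5) (nat_lit 143) (nat_lit 153) (nat_lit 154)) (PT.lf (nat_lit 25460) (nat_lit 3) (nat_lit 335) (nat_lit 4) (nat_lit 144)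 (nat_lit 153) (nat_lit 153))) (PT.nd (nat_lit 78) (PT.lf (nat_lit 25840) (nat_lit 6) (nat_lit 340) (nat_lit 4) (nat_lit 145) (nat_lit 153) (nat_lit 152)) (PT.lf (nat_lit 26144) (nat_lit 6) (nat_lit 344) (nat_lit 4) (nat_lit 146) (nat_lit 153) (nat_lit 151))))))) (PT.nd (nat_lit 1170) (PT.nd (nat_lit 546) (PT.nd (nat_lit 234) (PT.nd (nat_lit 78) (PT.lf (nat_lit 26372) (nat_lit 6) (nat_lit 347) (nat_lit 4) (nat_lit 147) (nat_lit 153) (nat_lit 150)) (PT.nd (nat_lit 78) (PT.lf (nat_lit 26296) (nat_lit 6) (nat_lit 346) (nat_lit 4) (nat_lit 148) (nat_lit 153) (nat_lit 149)) (PT.lf (nat_lit 26296) (nat_lit 6) (nat_lit 346) (nat_lit 2) (nat_lit 149) (nat_lit 153) (nat_lit 148)))) (PT.nd (nat_lit 156) (PT.nd (nat_lit 78) (PT.lf (nat_lit 26372) (nat_lit 6) (nat_lit 347) (nat_lit 2) (nat_lit 150) (nat_lit 153) (nat_lit 147)) (PT.lf (nat_lit 26144) (nat_lit 6) (nat_lit 344) (nat_lit 2) (nat_lit 151) (nat_lit 153)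 (nat_lit 146))) (PT.nd (nat_lit 78) (PT.lf (nat_lit 25840) (nat_lit 6) (nat_lit 340) (nat_lit 2) (nat_lit 152) (nat_lit 153) (nat_lit 145)) (PT.lf (nat_lit 25460) (nat_lit 3) (nat_lit 335) (nat_lit 0) (nat_lit 153) (nat_lit 153) (nat_lit 144))))) (PT.nd (nat_lit 312) (PT.nd (nat_lit 156) (PT.nd (nat_lit 78) (PT.lf (nat_lit 24928) (nat_lit 6) (nat_lit 328) (nat_lit 0) (nat_lit 154) (nat_lit 153) (nat_lit 143)) (PT.lf (nat_lit 24320) (nat_lit 6) (nat_lit 320) (nat_lit 0) (nat_lit 155) (nat_lit 153) (nat_lit 142))) (PT.nd (nat_lit 78) (PT.lf (nat_lit 23636) (nat_lit 6) (nat_lit 311) (nat_lit 0) (nat_lit 156) (nat_lit 153) (nat_lit 141)) (PT.lf (nat_lit 22876) (nat_lit 6) (nat_lit 301) (nat_lit 0) (nat_lit 157) (nat_lit 153) (nat_lit 140)))) (PT.nd (nat_lit 156) (PT.nd (nat_lit 78) (PT.lf (nat_lit 22040) (nat_lit 6) (nat_lit 290) (nat_lit 0) (nat_lit 158) (nat_lit 153) (nat_lit 139)) (PT.lf (nat_lit 21128)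 (nat_lit 6) (nat_lit 278) (nat_lit 0) (nat_lit 159) (nat_lit 153) (nat_lit 138))) (PT.nd (nat_lit 78) (PT.lf (nat_lit 20140) (nat_lit 6) (nat_lit 265) (nat_lit 0) (nat_lit 160) (nat_lit 153) (nat_lit 137)) (PT.lf (nat_lit 19076) (nat_lit 6) (nat_lit 251) (nat_lit 0) (nat_lit 161) (nat_lit 153) (nat_lit 136)))))) (PT.nd (nat_lit 44460) (PT.nd (nat_lit 312) (PT.nd (nat_lit 156) (PT.nd (nat_lit 78) (PT.lf (nat_lit 17936) (nat_lit 6) (nat_lit 236) (nat_lit 0) (nat_lit 162) (nat_lit 153) (nat_lit 135)) (PT.lf (nat_lit 16720) (nat_lit 6) (nat_lit 220) (nat_lit 0) (nat_lit 163) (nat_lit 153) (nat_lit 134))) (PT.nd (nat_lit 78) (PT.lf (nat_lit 15656) (nat_lit 6) (nat_lit 206) (nat_lit 0) (nat_lit 164) (nat_lit 153) (nat_lit 133)) (PT.lf (nat_lit 14972) (nat_lit 6) (nat_lit 197) (nat_lit 0) (nat_lit 165) (nat_lit 153) (nat_lit 132)))) (PT.nd (nat_lit 43992) (PT.nd (nat_lit 78) (PT.lf (nat_lit 14364) (nat_lit 6)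 (nat_lit 189) (nat_lit 0) (nat_lit 166) (nat_lit 153) (nat_lit 131)) (PT.lf (nat_lit 13680) (nat_lit 6) (nat_lit 180) (nat_lit 0) (nat_lit 167) (nat_lit 153) (nat_lit 130))) (PT.nd (nat_lit 78) (PT.lf (nat_lit 13148) (nat_lit 6) (nat_lit 173) (nat_lit 5) (nat_lit 129) (nat_lit 154) (nat_lit 167)) (PT.lf (nat_lit 13756) (nat_lit 6) (nat_lit 181) (nat_lit 5) (nat_lit 130) (nat_lit 154) (nat_lit 166))))) (PT.nd (nat_lit 312) (PT.nd (nat_lit 156) (PT.nd (nat_lit 78) (PT.lf (nat_lit 14440) (nat_lit 6) (nat_lit 190) (nat_lit 5) (nat_lit 131) (nat_lit 154) (nat_lit 165)) (PT.lf (nat_lit 15048) (nat_lit 6) (nat_lit 198) (nat_lit 5) (nat_lit 132) (nat_lit 154) (nat_lit 164))) (PT.nd (nat_lit 78) (PT.lf (nat_lit 15732) (nat_lit 6) (nat_lit 207) (nat_lit 5) (nat_lit 133) (nat_lit 154) (nat_lit 163)) (PT.lf (nat_lit 16796) (nat_lit 6) (nat_lit 221) (nat_lit 5) (nat_lit 134) (nat_lit 154) (nat_lit 162)))) (PT.nd (nat_lit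 156) (PT.nd (nat_lit 78) (PT.lf (nat_lit 18012) (nat_lit 6) (nat_lit 237) (nat_lit 5) (nat_lit 135) (nat_lit 154) (nat_lit 161)) (PT.lf (nat_lit 19152) (nat_lit 6) (nat_lit 252) (nat_lit 5) (nat_lit 136) (nat_lit 154) (nat_lit 160))) (PT.nd (nat_lit 78) (PT.lf (nat_lit 20216) (nat_lit 6) (nat_lit 266) (nat_lit 5) (nat_lit 137) (nat_lit 154) (nat_lit 159)) (PT.lf (nat_lit 21204) (nat_lit 6) (nat_lit 279) (nat_lit 5) (nat_lit 138) (nat_lit 154) (nat_lit 158))))))))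
noncomputable def pc15 : PT := (PT.nd (nat_lit 46176) (PT.nd (nat_lit 1170) (PT.nd (nat_lit 546) (PT.nd (nat_lit 234) (PT.nd (nat_lit 78) (PT.lf (nat_lit 22116) (nat_lit 6) (nat_lit 291) (nat_lit 5) (nat_lit 139) (nat_lit 154) (nat_lit 157)) (PT.nd (nat_lit 78) (PT.lf (nat_lit 22952) (nat_lit 6) (nat_lit 302) (nat_lit 5) (nat_lit 140) (nat_lit 154) (nat_lit 156)) (PT.lf (nat_lit 23712) (nat_lit 6) (nat_lit 312) (nat_lit 5) (nat_lit 141) (nat_lit 154) (nat_lit 155)))) (PT.nd (nat_lit 156) (PT.nd (nat_lit 78) (PT.lf (nat_lit 24396) (nat_lit 3) (nat_lit 321) (nat_lit 4) (nat_lit 142) (nat_lit 154) (nat_lit 154)) (PT.lf (nat_lit 24928) (nat_lit 6) (nat_lit 328) (nat_lit 4) (nat_lit 143) (nat_lit 154) (nat_lit 153))) (PT.nd (nat_lit 78) (PT.lf (nat_lit 25384) (nat_lit 6) (nat_lit 334) (nat_lit 4) (nat_lit 144) (nat_lit 154) (nat_lit 152)) (PT.lf (nat_lit 25764) (nat_lit 6) (nat_lit 339) (nat_lit 4) (nat_lit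 145) (nat_lit 154) (nat_lit 151))))) (PT.nd (nat_lit 312) (PT.nd (nat_lit 156) (PT.nd (nat_lit 78) (PT.lf (nat_lit 26068) (nat_lit 6) (nat_lit 343) (nat_lit 4) (nat_lit 146) (nat_lit 154) (nat_lit 150)) (PT.lf (nat_lit 25992) (nat_lit 6) (nat_lit 342) (nat_lit 4) (nat_lit 147) (nat_lit 154) (nat_lit 149))) (PT.nd (nat_lit 78) (PT.lf (nat_lit 25916) (nat_lit 3) (nat_lit 341) (nat_lit 2) (nat_lit 148) (nat_lit 154) (nat_lit 148)) (PT.lf (nat_lit 25992) (nat_lit 6) (nat_lit 342) (nat_lit 2) (nat_lit 149) (nat_lit 154) (nat_lit 147)))) (PT.nd (nat_lit 156) (PT.nd (nat_lit 78) (PT.lf (nat_lit 26068) (nat_lit 6) (nat_lit 343) (nat_lit 2) (nat_lit 150) (nat_lit 154) (nat_lit 146)) (PT.lf (nat_lit 25764) (nat_lit 6) (nat_lit 339) (nat_lit 2) (nat_lit 151) (nat_lit 154) (nat_lit 145))) (PT.nd (nat_lit 78) (PT.lf (nat_lit 25384) (nat_lit 6) (nat_lit 334) (nat_lit 2) (nat_lit 152) (nat_lit 154) (nat_lit 144)) (PT.lf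 (nat_lit 24928) (nat_lit 6) (nat_lit 328) (nat_lit 2) (nat_lit 153) (nat_lit 154) (nat_lit 143)))))) (PT.nd (nat_lit 624) (PT.nd (nat_lit 312) (PT.nd (nat_lit 156) (PT.nd (nat_lit 78) (PT.lf (nat_lit 24396) (nat_lit 3) (nat_lit 321) (nat_lit 0) (nat_lit 154) (nat_lit 154) (nat_lit 142)) (PT.lf (nat_lit 23712) (nat_lit 6) (nat_lit 312) (nat_lit 0) (nat_lit 155) (nat_lit 154) (nat_lit 141))) (PT.nd (nat_lit 78) (PT.lf (nat_lit 22952) (nat_lit 6) (nat_lit 302) (nat_lit 0) (nat_lit 156) (nat_lit 154) (nat_lit 140)) (PT.lf (nat_lit 22116) (nat_lit 6) (nat_lit 291) (nat_lit 0) (nat_lit 157) (nat_lit 154) (nat_lit 139)))) (PT.nd (nat_lit 156) (PT.nd (nat_lit 78) (PT.lf (nat_lit 21204) (nat_lit 6) (nat_lit 279) (nat_lit 0) (nat_lit 158) (nat_lit 154) (nat_lit 138)) (PT.lf (nat_lit 20216) (nat_lit 6) (nat_lit 266) (nat_lit 0) (nat_lit 159) (nat_lit 154) (nat_lit 137))) (PT.nd (nat_lit 78) (PT.lf (nat_lit 19152)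 (nat_lit 6) (nat_lit 252) (nat_lit 0) (nat_lit 160) (nat_lit 154) (nat_lit 136)) (PT.lf (nat_lit 18012) (nat_lit 6) (nat_lit 237) (nat_lit 0) (nat_lit 161) (nat_lit 154) (nat_lit 135))))) (PT.nd (nat_lit 312) (PT.nd (nat_lit 156) (PT.nd (nat_lit 78) (PT.lf (nat_lit 16796) (nat_lit 6) (nat_lit 221) (nat_lit 0) (nat_lit 162) (nat_lit 154) (nat_lit 134)) (PT.lf (nat_lit 15732) (nat_lit 6) (nat_lit 207) (nat_lit 0) (nat_lit 163) (nat_lit 154) (nat_lit 133))) (PT.nd (nat_lit 78) (PT.lf (nat_lit 15048) (nat_lit 6) (nat_lit 198) (nat_lit 0) (nat_lit 164) (nat_lit 154) (nat_lit 132)) (PT.lf (nat_lit 14440) (nat_lit 6) (nat_lit 190) (nat_lit 0) (nat_lit 165) (nat_lit 154) (nat_lit 131)))) (PT.nd (nat_lit 43914) (PT.nd (nat_lit 78) (PT.lf (nat_lit 13756) (nat_lit 6) (nat_lit 181) (nat_lit 0) (nat_lit 166) (nat_lit 154) (nat_lit 130)) (PT.lf (nat_lit 13148) (nat_lit 6) (nat_lit 173) (nat_lit 0) (nat_lit 167) (nat_lit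 154) (nat_lit 129))) (PT.nd (nat_lit 78) (PT.lf (nat_lit 12616) (nat_lit 6) (nat_lit 166) (nat_lit 5) (nat_lit 128) (nat_lit 155) (nat_lit 167)) (PT.lf (nat_lit 13224) (nat_lit 6) (nat_lit 174) (nat_lit 5) (nat_lit 129) (nat_lit 155) (nat_lit 166))))))) (PT.nd (nat_lit 1170) (PT.nd (nat_lit 546) (PT.nd (nat_lit 234) (PT.nd (nat_lit 78) (PT.lf (nat_lit 13832) (nat_lit 6) (nat_lit 182) (nat_lit 5) (nat_lit 130) (nat_lit 155) (nat_lit 165)) (PT.nd (nat_lit 78) (PT.lf (nat_lit 14516) (nat_lit 6) (nat_lit 191) (nat_lit 5) (nat_lit 131) (nat_lit 155) (nat_lit 164)) (PT.lf (nat_lit 15124) (nat_lit 6) (nat_lit 199) (nat_lit 5) (nat_lit 132) (nat_lit 155) (nat_lit 163)))) (PT.nd (nat_lit 156) (PT.nd (nat_lit 78) (PT.lf (nat_lit 15808) (nat_lit 6) (nat_lit 208) (nat_lit 5) (nat_lit 133) (nat_lit 155) (nat_lit 162)) (PT.lf (nat_lit 16872) (nat_lit 6) (nat_lit 222) (nat_lit 5) (nat_lit 134) (nat_lit 155) (nat_lit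 161))) (PT.nd (nat_lit 78) (PT.lf (nat_lit 18088) (nat_lit 6) (nat_lit 238) (nat_lit 5) (nat_lit 135) (nat_lit 155) (nat_lit 160)) (PT.lf (nat_lit 19228) (nat_lit 6) (nat_lit 253) (nat_lit 5) (nat_lit 136) (nat_lit 155) (nat_lit 159))))) (PT.nd (nat_lit 312) (PT.nd (nat_lit 156) (PT.nd (nat_lit 78) (PT.lf (nat_lit 20292) (nat_lit 6) (nat_lit 267) (nat_lit 5) (nat_lit 137) (nat_lit 155) (nat_lit 158)) (PT.lf (nat_lit 21280) (nat_lit 6) (nat_lit 280) (nat_lit 5) (nat_lit 138) (nat_lit 155) (nat_lit 157))) (PT.nd (nat_lit 78) (PT.lf (nat_lit 22192) (nat_lit 6) (nat_lit 292) (nat_lit 5) (nat_lit 139) (nat_lit 155) (nat_lit 156)) (PT.lf (nat_lit 23028) (nat_lit 3) (nat_lit 303) (nat_lit 4) (nat_lit 140) (nat_lit 155) (nat_lit 155)))) (PT.nd (nat_lit 156) (PT.nd (nat_lit 78) (PT.lf (nat_lit 23712) (nat_lit 6) (nat_lit 312) (nat_lit 4) (nat_lit 141) (nat_lit 155) (nat_lit 154)) (PT.lf (nat_lit 24320) (nat_lit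 6) (nat_lit 320) (nat_lit 4) (nat_lit 142) (nat_lit 155) (nat_lit 153))) (PT.nd (nat_lit 78) (PT.lf (nat_lit 24852) (nat_lit 6) (nat_lit 327) (nat_lit 4) (nat_lit 143) (nat_lit 155) (nat_lit 152)) (PT.lf (nat_lit 25308) (nat_lit 6) (nat_lit 333) (nat_lit 4) (nat_lit 144) (nat_lit 155) (nat_lit 151)))))) (PT.nd (nat_lit 624) (PT.nd (nat_lit 312) (PT.nd (nat_lit 156) (PT.nd (nat_lit 78) (PT.lf (nat_lit 25688) (nat_lit 6) (nat_lit 338) (nat_lit 4) (nat_lit 145) (nat_lit 155) (nat_lit 150)) (PT.lf (nat_lit 25612) (nat_lit 6) (nat_lit 337) (nat_lit 4) (nat_lit 146) (nat_lit 155) (nat_lit 149))) (PT.nd (nat_lit 78) (PT.lf (nat_lit 25536) (nat_lit 6) (nat_lit 336) (nat_lit 4) (nat_lit 147) (nat_lit 155) (nat_lit 148)) (PT.lf (nat_lit 25536) (nat_lit 6) (nat_lit 336) (nat_lit 2) (nat_lit 148) (nat_lit 155) (nat_lit 147)))) (PT.nd (nat_lit 156) (PT.nd (nat_lit 78) (PT.lf (nat_lit 25612) (nat_lit 6) (nat_lit 337)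 (nat_lit 2) (nat_lit 149) (nat_lit 155) (nat_lit 146)) (PT.lf (nat_lit 25688) (nat_lit 6) (nat_lit 338) (nat_lit 2) (nat_lit 150) (nat_lit 155) (nat_lit 145))) (PT.nd (nat_lit 78) (PT.lf (nat_lit 25308) (nat_lit 6) (nat_lit 333) (nat_lit 2) (nat_lit 151) (nat_lit 155) (nat_lit 144)) (PT.lf (nat_lit 24852) (nat_lit 6) (nat_lit 327) (nat_lit 2) (nat_lit 152) (nat_lit 155) (nat_lit 143))))) (PT.nd (nat_lit 312) (PT.nd (nat_lit 156) (PT.nd (nat_lit 78) (PT.lf (nat_lit 24320) (nat_lit 6) (nat_lit 320) (nat_lit 2) (nat_lit 153) (nat_lit 155) (nat_lit 142)) (PT.lf (nat_lit 23712) (nat_lit 6) (nat_lit 312) (nat_lit 2) (nat_lit 154) (nat_lit 155) (nat_lit 141))) (PT.nd (nat_lit 78) (PT.lf (nat_lit 23028) (nat_lit 3) (nat_lit 303) (nat_lit 0) (nat_lit 155) (nat_lit 155) (nat_lit 140)) (PT.lf (nat_lit 22192) (nat_lit 6) (nat_lit 292) (nat_lit 0) (nat_lit 156) (nat_lit 155) (nat_lit 139)))) (PT.nd (nat_lit 156) (PT.nd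 (nat_lit 78) (PT.lf (nat_lit 21280) (nat_lit 6) (nat_lit 280) (nat_lit 0) (nat_lit 157) (nat_lit 155) (nat_lit 138)) (PT.lf (nat_lit 20292) (nat_lit 6) (nat_lit 267) (nat_lit 0) (nat_lit 158) (nat_lit 155) (nat_lit 137))) (PT.nd (nat_lit 78) (PT.lf (nat_lit 19228) (nat_lit 6) (nat_lit 253) (nat_lit 0) (nat_lit 159) (nat_lit 155) (nat_lit 136)) (PT.lf (nat_lit 18088) (nat_lit 6) (nat_lit 238) (nat_lit 0) (nat_lit 160) (nat_lit 155) (nat_lit 135))))))))
noncomputable def pc16 : PT := (PT.nd (nat_lit 45942) (PT.nd (nat_lit 44772) (PT.nd (nat_lit 44148) (PT.nd (nat_lit 234) (PT.nd (nat_lit 78) (PT.lf (nat_lit 16872) (nat_lit 6) (nat_lit 222) (nat_lit 0) (nat_lit 161) (nat_lit 155) (nat_lit 134)) (PT.nd (nat_lit 78) (PT.lf (nat_lit 15808) (nat_lit 6) (nat_lit 208) (nat_lit 0) (nat_lit 162) (nat_lit 155) (nat_lit 133)) (PT.lf (nat_lit 15124) (nat_lit 6) (nat_lit 199) (nat_lit 0) (nat_lit 163) (nat_lit 155) (nat_lit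 132)))) (PT.nd (nat_lit 156) (PT.nd (nat_lit 78) (PT.lf (nat_lit 14516) (nat_lit 6) (nat_lit 191) (nat_lit 0) (nat_lit 164) (nat_lit 155) (nat_lit 131)) (PT.lf (nat_lit 13832) (nat_lit 6) (nat_lit 182) (nat_lit 0) (nat_lit 165) (nat_lit 155) (nat_lit 130))) (PT.nd (nat_lit 78) (PT.lf (nat_lit 13224) (nat_lit 6) (nat_lit 174) (nat_lit 0) (nat_lit 166) (nat_lit 155) (nat_lit 129)) (PT.lf (nat_lit 12616) (nat_lit 6) (nat_lit 166) (nat_lit 0) (nat_lit 167) (nat_lit 155) (nat_lit 128))))) (PT.nd (nat_lit 312) (PT.nd (nat_lit 156) (PT.nd (nat_lit 78) (PT.lf (nat_lit 11628) (nat_lit 6) (nat_lit 153) (nat_lit 5) (nat_lit 126) (nat_lit 156) (nat_lit 168)) (PT.lf (nat_lit 12160) (nat_lit 6) (nat_lit 160) (nat_lit 5) (nat_lit 127) (nat_lit 156) (nat_lit 167))) (PT.nd (nat_lit 78) (PT.lf (nat_lit 12692) (nat_lit 6) (nat_lit 167) (nat_lit 5) (nat_lit 128) (nat_lit 156) (nat_lit 166)) (PT.lf (nat_lit 13300) (nat_lit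 6) (nat_lit 175) (nat_lit 5) (nat_lit 129) (nat_lit 156) (nat_lit 165)))) (PT.nd (nat_lit 156) (PT.nd (nat_lit 78) (PT.lf (nat_lit 13908) (nat_lit 6) (nat_lit 183) (nat_lit 5) (nat_lit 130) (nat_lit 156) (nat_lit 164)) (PT.lf (nat_lit 14592) (nat_lit 6) (nat_lit 192) (nat_lit 5) (nat_lit 131) (nat_lit 156) (nat_lit 163))) (PT.nd (nat_lit 78) (PT.lf (nat_lit 15200) (nat_lit 6) (nat_lit 200) (nat_lit 5) (nat_lit 132) (nat_lit 156) (nat_lit 162)) (PT.lf (nat_lit 15884) (nat_lit 6) (nat_lit 209) (nat_lit 5) (nat_lit 133) (nat_lit 156) (nat_lit 161)))))) (PT.nd (nat_lit 546) (PT.nd (nat_lit 234) (PT.nd (nat_lit 78) (PT.lf (nat_lit 16948) (nat_lit 6) (nat_lit 223) (nat_lit 5) (nat_lit 134) (nat_lit 156) (nat_lit 160)) (PT.nd (nat_lit 78) (PT.lf (nat_lit 18164) (nat_lit 6) (nat_lit 239) (nat_lit 5) (nat_lit 135) (nat_lit 156) (nat_lit 159)) (PT.lf (nat_lit 19304) (nat_lit 6) (nat_lit 254) (nat_lit 5) (nat_lit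 136) (nat_lit 156) (nat_lit 158)))) (PT.nd (nat_lit 156) (PT.nd (nat_lit 78) (PT.lf (nat_lit 20368) (nat_lit 6) (nat_lit 268) (nat_lit 5) (nat_lit 137) (nat_lit 156) (nat_lit 157)) (PT.lf (nat_lit 21356) (nat_lit 3) (nat_lit 281) (nat_lit 4) (nat_lit 138) (nat_lit 156) (nat_lit 156))) (PT.nd (nat_lit 78) (PT.lf (nat_lit 22192) (nat_lit 6) (nat_lit 292) (nat_lit 4) (nat_lit 139) (nat_lit 156) (nat_lit 155)) (PT.lf (nat_lit 22952) (nat_lit 6) (nat_lit 302) (nat_lit 4) (nat_lit 140) (nat_lit 156) (nat_lit 154))))) (PT.nd (nat_lit 312) (PT.nd (nat_lit 156) (PT.nd (nat_lit 78) (PT.lf (nat_lit 23636) (nat_lit 6) (nat_lit 311) (nat_lit 4) (nat_lit 141) (nat_lit 156) (nat_lit 153)) (PT.lf (nat_lit 24244) (nat_lit 6) (nat_lit 319) (nat_lit 4) (nat_lit 142) (nat_lit 156) (nat_lit 152))) (PT.nd (nat_lit 78) (PT.lf (nat_lit 24776) (nat_lit 6) (nat_lit 326) (nat_lit 4) (nat_lit 143) (nat_lit 156) (nat_lit 151)) (PT.lf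 (nat_lit 25232) (nat_lit 6) (nat_lit 332) (nat_lit 4) (nat_lit 144) (nat_lit 156) (nat_lit 150)))) (PT.nd (nat_lit 156) (PT.nd (nat_lit 78) (PT.lf (nat_lit 25156) (nat_lit 6) (nat_lit 331) (nat_lit 4) (nat_lit 145) (nat_lit 156) (nat_lit 149)) (PT.lf (nat_lit 25080) (nat_lit 6) (nat_lit 330) (nat_lit 4) (nat_lit 146) (nat_lit 156) (nat_lit 148))) (PT.nd (nat_lit 78) (PT.lf (nat_lit 25004) (nat_lit 3) (nat_lit 329) (nat_lit 2) (nat_lit 147) (nat_lit 156) (nat_lit 147)) (PT.lf (nat_lit 25080) (nat_lit 6) (nat_lit 330) (nat_lit 2) (nat_lit 148) (nat_lit 156) (nat_lit 146))))))) (PT.nd (nat_lit 1170) (PT.nd (nat_lit 546) (PT.nd (nat_lit 234) (PT.nd (nat_lit 78) (PT.lf (nat_lit 25156) (nat_lit 6) (nat_lit 331) (nat_lit 2) (nat_lit 149) (nat_lit 156) (nat_lit 145)) (PT.nd (nat_lit 78) (PT.lf (nat_lit 25232) (nat_lit 6) (nat_lit 332) (nat_lit 2) (nat_lit 150) (nat_lit 156) (nat_lit 144)) (PT.lf (nat_lit 24776)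 (nat_lit 6) (nat_lit 326) (nat_lit 2) (nat_lit 151) (nat_lit 156) (nat_lit 143)))) (PT.nd (nat_lit 156) (PT.nd (nat_lit 78) (PT.lf (nat_lit 24244) (nat_lit 6) (nat_lit 319) (nat_lit 2) (nat_lit 152) (nat_lit 156) (nat_lit 142)) (PT.lf (nat_lit 23636) (nat_lit 6) (nat_lit 311) (nat_lit 2) (nat_lit 153) (nat_lit 156) (nat_lit 141))) (PT.nd (nat_lit 78) (PT.lf (nat_lit 22952) (nat_lit 6) (nat_lit 302) (nat_lit 2) (nat_lit 154) (nat_lit 156) (nat_lit 140)) (PT.lf (nat_lit 22192) (nat_lit 6) (nat_lit 292) (nat_lit 2) (nat_lit 155) (nat_lit 156) (nat_lit 139))))) (PT.nd (nat_lit 312) (PT.nd (nat_lit 156) (PT.nd (nat_lit 78) (PT.lf (nat_lit 21356) (nat_lit 3) (nat_lit 281) (nat_lit 0) (nat_lit 156) (nat_lit 156) (nat_lit 138)) (PT.lf (nat_lit 20368) (nat_lit 6) (nat_lit 268) (nat_lit 0) (nat_lit 157) (nat_lit 156) (nat_lit 137))) (PT.nd (nat_lit 78) (PT.lf (nat_lit 19304) (nat_lit 6) (nat_lit 254) (nat_lit 0)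 (nat_lit 158) (nat_lit 156) (nat_lit 136)) (PT.lf (nat_lit 18164) (nat_lit 6) (nat_lit 239) (nat_lit 0) (nat_lit 159) (nat_lit 156) (nat_lit 135)))) (PT.nd (nat_lit 156) (PT.nd (nat_lit 78) (PT.lf (nat_lit 16948) (nat_lit 6) (nat_lit 223) (nat_lit 0) (nat_lit 160) (nat_lit 156) (nat_lit 134)) (PT.lf (nat_lit 15884) (nat_lit 6) (nat_lit 209) (nat_lit 0) (nat_lit 161) (nat_lit 156) (nat_lit 133))) (PT.nd (nat_lit 78) (PT.lf (nat_lit 15200) (nat_lit 6) (nat_lit 200) (nat_lit 0) (nat_lit 162) (nat_lit 156) (nat_lit 132)) (PT.lf (nat_lit 14592) (nat_lit 6) (nat_lit 192) (nat_lit 0) (nat_lit 163) (nat_lit 156) (nat_lit 131)))))) (PT.nd (nat_lit 44070) (PT.nd (nat_lit 312) (PT.nd (nat_lit 156) (PT.nd (nat_lit 78) (PT.lf (nat_lit 13908) (nat_lit 6) (nat_lit 183) (nat_lit 0) (nat_lit 164) (nat_lit 156) (nat_lit 130)) (PT.lf (nat_lit 13300) (nat_lit 6) (nat_lit 175) (nat_lit 0) (nat_lit 165) (nat_lit 156) (nat_lit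 129))) (PT.nd (nat_lit 78) (PT.lf (nat_lit 12692) (nat_lit 6) (nat_lit 167) (nat_lit 0) (nat_lit 166) (nat_lit 156) (nat_lit 128)) (PT.lf (nat_lit 12160) (nat_lit 6) (nat_lit 160) (nat_lit 0) (nat_lit 167) (nat_lit 156) (nat_lit 127)))) (PT.nd (nat_lit 43602) (PT.nd (nat_lit 43524) (PT.lf (nat_lit 11628) (nat_lit 6) (nat_lit 153) (nat_lit 0) (nat_lit 168) (nat_lit 156) (nat_lit 126)) (PT.lf (nat_lit 11172) (nat_lit 6) (nat_lit 147) (nat_lit 5) (nat_lit 125) (nat_lit 157) (nat_lit 168))) (PT.nd (nat_lit 78) (PT.lf (nat_lit 11704) (nat_lit 6) (nat_lit 154) (nat_lit 5) (nat_lit 126) (nat_lit 157) (nat_lit 167)) (PT.lf (nat_lit 12236) (nat_lit 6) (nat_lit 161) (nat_lit 5) (nat_lit 127) (nat_lit 157) (nat_lit 166))))) (PT.nd (nat_lit 312) (PT.nd (nat_lit 156) (PT.nd (nat_lit 78) (PT.lf (nat_lit 12768) (nat_lit 6) (nat_lit 168) (nat_lit 5) (nat_lit 128) (nat_lit 157) (nat_lit 165)) (PT.lf (nat_lit 13376) (nat_lit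 6) (nat_lit 176) (nat_lit 5) (nat_lit 129) (nat_lit 157) (nat_lit 164))) (PT.nd (nat_lit 78) (PT.lf (nat_lit 13984) (nat_lit 6) (nat_lit 184) (nat_lit 5) (nat_lit 130) (nat_lit 157) (nat_lit 163)) (PT.lf (nat_lit 14668) (nat_lit 6) (nat_lit 193) (nat_lit 5) (nat_lit 131) (nat_lit 157) (nat_lit 162)))) (PT.nd (nat_lit 156) (PT.nd (nat_lit 78) (PT.lf (nat_lit 15276) (nat_lit 6) (nat_lit 201) (nat_lit 5) (nat_lit 132) (nat_lit 157) (nat_lit 161)) (PT.lf (nat_lit 15960) (nat_lit 6) (nat_lit 210) (nat_lit 5) (nat_lit 133) (nat_lit 157) (nat_lit 160))) (PT.nd (nat_lit 78) (PT.lf (nat_lit 17024) (nat_lit 6) (nat_lit 224) (nat_lit 5) (nat_lit 134) (nat_lit 157) (nat_lit 159)) (PT.lf (nat_lit 18240) (nat_lit 6) (nat_lit 240) (nat_lit 5) (nat_lit 135) (nat_lit 157) (nat_lit 158))))))))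
noncomputable def pc17 : PT := (PT.nd (nat_lit 2418) (PT.nd (nat_lit 1170) (PT.nd (nat_lit 546) (PT.nd (nat_lit 234) (PT.nd (nat_lit 78) (PT.lf (nat_lit 19380) (nat_lit 3) (nat_lit 255) (nat_lit 4) (nat_lit 136) (nat_lit 157) (nat_lit 157)) (PT.nd (nat_lit 78) (PT.lf (nat_lit 20368) (nat_lit 6) (nat_lit 268) (nat_lit 4) (nat_lit 137) (nat_lit 157) (nat_lit 156)) (PT.lf (nat_lit 21280) (nat_lit 6) (nat_lit 280) (nat_lit 4) (nat_lit 138) (nat_lit 157) (nat_lit 155)))) (PT.nd (nat_lit 156) (PT.nd (nat_lit 78) (PT.lf (nat_lit 22116) (nat_lit 6) (nat_lit 291) (nat_lit 4) (nat_lit 139) (nat_lit 157) (nat_lit 154)) (PT.lf (nat_lit 22876) (nat_lit 6) (nat_lit 301) (nat_lit 4) (nat_lit 140) (nat_lit 157) (nat_lit 153))) (PT.nd (nat_lit 78) (PT.lf (nat_lit 23560) (nat_lit 6) (nat_lit 310) (nat_lit 4) (nat_lit 141) (nat_lit 157) (nat_lit 152)) (PT.lf (nat_lit 24168) (nat_lit 6) (nat_lit 318) (nat_lit 4) (nat_lit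 142) (nat_lit 157) (nat_lit 151))))) (PT.nd (nat_lit 312) (PT.nd (nat_lit 156) (PT.nd (nat_lit 78) (PT.lf (nat_lit 24700) (nat_lit 6) (nat_lit 325) (nat_lit 4) (nat_lit 143) (nat_lit 157) (nat_lit 150)) (PT.lf (nat_lit 24624) (nat_lit 6) (nat_lit 324) (nat_lit 4) (nat_lit 144) (nat_lit 157) (nat_lit 149))) (PT.nd (nat_lit 78) (PT.lf (nat_lit 24548) (nat_lit 6) (nat_lit 323) (nat_lit 4) (nat_lit 145) (nat_lit 157) (nat_lit 148)) (PT.lf (nat_lit 24472) (nat_lit 6) (nat_lit 322) (nat_lit 4) (nat_lit 146) (nat_lit 157) (nat_lit 147)))) (PT.nd (nat_lit 156) (PT.nd (nat_lit 78) (PT.lf (nat_lit 24472) (nat_lit 6) (nat_lit 322) (nat_lit 2) (nat_lit 147) (nat_lit 157) (nat_lit 146)) (PT.lf (nat_lit 24548) (nat_lit 6) (nat_lit 323) (nat_lit 2) (nat_lit 148) (nat_lit 157) (nat_lit 145))) (PT.nd (nat_lit 78) (PT.lf (nat_lit 24624) (nat_lit 6) (nat_lit 324) (nat_lit 2) (nat_lit 149) (nat_lit 157) (nat_lit 144)) (PT.lf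 (nat_lit 24700) (nat_lit 6) (nat_lit 325) (nat_lit 2) (nat_lit 150) (nat_lit 157) (nat_lit 143)))))) (PT.nd (nat_lit 624) (PT.nd (nat_lit 312) (PT.nd (nat_lit 156) (PT.nd (nat_lit 78) (PT.lf (nat_lit 24168) (nat_lit 6) (nat_lit 318) (nat_lit 2) (nat_lit 151) (nat_lit 157) (nat_lit 142)) (PT.lf (nat_lit 23560) (nat_lit 6) (nat_lit 310) (nat_lit 2) (nat_lit 152) (nat_lit 157) (nat_lit 141))) (PT.nd (nat_lit 78) (PT.lf (nat_lit 22876) (nat_lit 6) (nat_lit 301) (nat_lit 2) (nat_lit 153) (nat_lit 157) (nat_lit 140)) (PT.lf (nat_lit 22116) (nat_lit 6) (nat_lit 291) (nat_lit 2) (nat_lit 154) (nat_lit 157) (nat_lit 139)))) (PT.nd (nat_lit 156) (PT.nd (nat_lit 78) (PT.lf (nat_lit 21280) (nat_lit 6) (nat_lit 280) (nat_lit 2) (nat_lit 155) (nat_lit 157) (nat_lit 138)) (PT.lf (nat_lit 20368) (nat_lit 6) (nat_lit 268) (nat_lit 2) (nat_lit 156) (nat_lit 157) (nat_lit 137))) (PT.nd (nat_lit 78) (PT.lf (nat_lit 19380)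 (nat_lit 3) (nat_lit 255) (nat_lit 0) (nat_lit 157) (nat_lit 157) (nat_lit 136)) (PT.lf (nat_lit 18240) (nat_lit 6) (nat_lit 240) (nat_lit 0) (nat_lit 158) (nat_lit 157) (nat_lit 135))))) (PT.nd (nat_lit 312) (PT.nd (nat_lit 156) (PT.nd (nat_lit 78) (PT.lf (nat_lit 17024) (nat_lit 6) (nat_lit 224) (nat_lit 0) (nat_lit 159) (nat_lit 157) (nat_lit 134)) (PT.lf (nat_lit 15960) (nat_lit 6) (nat_lit 210) (nat_lit 0) (nat_lit 160) (nat_lit 157) (nat_lit 133))) (PT.nd (nat_lit 78) (PT.lf (nat_lit 15276) (nat_lit 6) (nat_lit 201) (nat_lit 0) (nat_lit 161) (nat_lit 157) (nat_lit 132)) (PT.lf (nat_lit 14668) (nat_lit 6) (nat_lit 193) (nat_lit 0) (nat_lit 162) (nat_lit 157) (nat_lit 131)))) (PT.nd (nat_lit 156) (PT.nd (nat_lit 78) (PT.lf (nat_lit 13984) (nat_lit 6) (nat_lit 184) (nat_lit 0) (nat_lit 163) (nat_lit 157) (nat_lit 130)) (PT.lf (nat_lit 13376) (nat_lit 6) (nat_lit 176) (nat_lit 0) (nat_lit 164) (nat_lit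 157) (nat_lit 129))) (PT.nd (nat_lit 78) (PT.lf (nat_lit 12768) (nat_lit 6) (nat_lit 168) (nat_lit 0) (nat_lit 165) (nat_lit 157) (nat_lit 128)) (PT.lf (nat_lit 12236) (nat_lit 6) (nat_lit 161) (nat_lit 0) (nat_lit 166) (nat_lit 157) (nat_lit 127))))))) (PT.nd (nat_lit 44538) (PT.nd (nat_lit 43914) (PT.nd (nat_lit 43602) (PT.nd (nat_lit 78) (PT.lf (nat_lit 11704) (nat_lit 6) (nat_lit 154) (nat_lit 0) (nat_lit 167) (nat_lit 157) (nat_lit 126)) (PT.nd (nat_lit 43446) (PT.lf (nat_lit 11172) (nat_lit 6) (nat_lit 147) (nat_lit 0) (nat_lit 168) (nat_lit 157) (nat_lit 125)) (PT.lf (nat_lit 10716) (nat_lit 6) (nat_lit 141) (nat_lit 5) (nat_lit 124) (nat_lit 158) (nat_lit 168)))) (PT.nd (nat_lit 156) (PT.nd (nat_lit 78) (PT.lf (nat_lit 11248) (nat_lit 6) (nat_lit 148) (nat_lit 5) (nat_lit 125) (nat_lit 158) (nat_lit 167)) (PT.lf (nat_lit 11780) (nat_lit 6) (nat_lit 155) (nat_lit 5) (nat_lit 126) (nat_lit 158) (nat_lit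 166))) (PT.nd (nat_lit 78) (PT.lf (nat_lit 12312) (nat_lit 6) (nat_lit 162) (nat_lit 5) (nat_lit 127) (nat_lit 158) (nat_lit 165)) (PT.lf (nat_lit 12844) (nat_lit 6) (nat_lit 169) (nat_lit 5) (nat_lit 128) (nat_lit 158) (nat_lit 164))))) (PT.nd (nat_lit 312) (PT.nd (nat_lit 156) (PT.nd (nat_lit 78) (PT.lf (nat_lit 13452) (nat_lit 6) (nat_lit 177) (nat_lit 5) (nat_lit 129) (nat_lit 158) (nat_lit 163)) (PT.lf (nat_lit 14060) (nat_lit 6) (nat_lit 185) (nat_lit 5) (nat_lit 130) (nat_lit 158) (nat_lit 162))) (PT.nd (nat_lit 78) (PT.lf (nat_lit 14744) (nat_lit 6) (nat_lit 194) (nat_lit 5) (nat_lit 131) (nat_lit 158) (nat_lit 161)) (PT.lf (nat_lit 15352) (nat_lit 6) (nat_lit 202) (nat_lit 5) (nat_lit 132) (nat_lit 158) (nat_lit 160)))) (PT.nd (nat_lit 156) (PT.nd (nat_lit 78) (PT.lf (nat_lit 16036) (nat_lit 6) (nat_lit 211) (nat_lit 5) (nat_lit 133) (nat_lit 158) (nat_lit 159)) (PT.lf (nat_lit 17100) (nat_lit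 3) (nat_lit 225) (nat_lit 4) (nat_lit 134) (nat_lit 158) (nat_lit 158))) (PT.nd (nat_lit 78) (PT.lf (nat_lit 18240) (nat_lit 6) (nat_lit 240) (nat_lit 4) (nat_lit 135) (nat_lit 158) (nat_lit 157)) (PT.lf (nat_lit 19304) (nat_lit 6) (nat_lit 254) (nat_lit 4) (nat_lit 136) (nat_lit 158) (nat_lit 156)))))) (PT.nd (nat_lit 624) (PT.nd (nat_lit 312) (PT.nd (nat_lit 156) (PT.nd (nat_lit 78) (PT.lf (nat_lit 20292) (nat_lit 6) (nat_lit 267) (nat_lit 4) (nat_lit 137) (nat_lit 158) (nat_lit 155)) (PT.lf (nat_lit 21204) (nat_lit 6) (nat_lit 279) (nat_lit 4) (nat_lit 138) (nat_lit 158) (nat_lit 154))) (PT.nd (nat_lit 78) (PT.lf (nat_lit 22040) (nat_lit 6) (nat_lit 290) (nat_lit 4) (nat_lit 139) (nat_lit 158) (nat_lit 153)) (PT.lf (nat_lit 22800) (nat_lit 6) (nat_lit 300) (nat_lit 4) (nat_lit 140) (nat_lit 158) (nat_lit 152)))) (PT.nd (nat_lit 156) (PT.nd (nat_lit 78) (PT.lf (nat_lit 23484) (nat_lit 6) (nat_lit 309)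 (nat_lit 4) (nat_lit 141) (nat_lit 158) (nat_lit 151)) (PT.lf (nat_lit 24092) (nat_lit 6) (nat_lit 317) (nat_lit 4) (nat_lit 142) (nat_lit 158) (nat_lit 150))) (PT.nd (nat_lit 78) (PT.lf (nat_lit 24016) (nat_lit 6) (nat_lit 316) (nat_lit 4) (nat_lit 143) (nat_lit 158) (nat_lit 149)) (PT.lf (nat_lit 23940) (nat_lit 6) (nat_lit 315) (nat_lit 4) (nat_lit 144) (nat_lit 158) (nat_lit 148))))) (PT.nd (nat_lit 312) (PT.nd (nat_lit 156) (PT.nd (nat_lit 78) (PT.lf (nat_lit 23864) (nat_lit 6) (nat_lit 314) (nat_lit 4) (nat_lit 145) (nat_lit 158) (nat_lit 147)) (PT.lf (nat_lit 23788) (nat_lit 3) (nat_lit 313) (nat_lit 2) (nat_lit 146) (nat_lit 158) (nat_lit 146))) (PT.nd (nat_lit 78) (PT.lf (nat_lit 23864) (nat_lit 6) (nat_lit 314) (nat_lit 2) (nat_lit 147) (nat_lit 158) (nat_lit 145)) (PT.lf (nat_lit 23940) (nat_lit 6) (nat_lit 315) (nat_lit 2) (nat_lit 148) (nat_lit 158) (nat_lit 144)))) (PT.nd (nat_lit 156) (PT.nd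 (nat_lit 78) (PT.lf (nat_lit 24016) (nat_lit 6) (nat_lit 316) (nat_lit 2) (nat_lit 149) (nat_lit 158) (nat_lit 143)) (PT.lf (nat_lit 24092) (nat_lit 6) (nat_lit 317) (nat_lit 2) (nat_lit 150) (nat_lit 158) (nat_lit 142))) (PT.nd (nat_lit 78) (PT.lf (nat_lit 23484) (nat_lit 6) (nat_lit 309) (nat_lit 2) (nat_lit 151) (nat_lit 158) (nat_lit 141)) (PT.lf (nat_lit 22800) (nat_lit 6) (nat_lit 300) (nat_lit 2) (nat_lit 152) (nat_lit 158) (nat_lit 140))))))))
noncomputable def pc18 : PT := (PT.nd (nat_lit 45630) (PT.nd (nat_lit 1170) (PT.nd (nat_lit 546) (PT.nd (nat_lit 234) (PT.nd (nat_lit 78) (PT.lf (nat_lit 22040) (nat_lit 6) (nat_lit 290) (nat_lit 2) (nat_lit 153) (nat_lit 158) (nat_lit 139)) (PT.nd (nat_lit 78) (PT.lf (nat_lit 21204) (nat_lit 6) (nat_lit 279) (nat_lit 2) (nat_lit 154) (nat_lit 158) (nat_lit 138)) (PT.lf (nat_lit 20292) (nat_lit 6) (nat_lit 267) (nat_lit 2) (nat_lit 155) (nat_lit 158) (nat_lit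 137)))) (PT.nd (nat_lit 156) (PT.nd (nat_lit 78) (PT.lf (nat_lit 19304) (nat_lit 6) (nat_lit 254) (nat_lit 2) (nat_lit 156) (nat_lit 158) (nat_lit 136)) (PT.lf (nat_lit 18240) (nat_lit 6) (nat_lit 240) (nat_lit 2) (nat_lit 157) (nat_lit 158) (nat_lit 135))) (PT.nd (nat_lit 78) (PT.lf (nat_lit 17100) (nat_lit 3) (nat_lit 225) (nat_lit 0) (nat_lit 158) (nat_lit 158) (nat_lit 134)) (PT.lf (nat_lit 16036) (nat_lit 6) (nat_lit 211) (nat_lit 0) (nat_lit 159) (nat_lit 158) (nat_lit 133))))) (PT.nd (nat_lit 312) (PT.nd (nat_lit 156) (PT.nd (nat_lit 78) (PT.lf (nat_lit 15352) (nat_lit 6) (nat_lit 202) (nat_lit 0) (nat_lit 160) (nat_lit 158) (nat_lit 132)) (PT.lf (nat_lit 14744) (nat_lit 6) (nat_lit 194) (nat_lit 0) (nat_lit 161) (nat_lit 158) (nat_lit 131))) (PT.nd (nat_lit 78) (PT.lf (nat_lit 14060) (nat_lit 6) (nat_lit 185) (nat_lit 0) (nat_lit 162) (nat_lit 158) (nat_lit 130)) (PT.lf (nat_lit 13452) (nat_lit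 6) (nat_lit 177) (nat_lit 0) (nat_lit 163) (nat_lit 158) (nat_lit 129)))) (PT.nd (nat_lit 156) (PT.nd (nat_lit 78) (PT.lf (nat_lit 12844) (nat_lit 6) (nat_lit 169) (nat_lit 0) (nat_lit 164) (nat_lit 158) (nat_lit 128)) (PT.lf (nat_lit 12312) (nat_lit 6) (nat_lit 162) (nat_lit 0) (nat_lit 165) (nat_lit 158) (nat_lit 127))) (PT.nd (nat_lit 78) (PT.lf (nat_lit 11780) (nat_lit 6) (nat_lit 155) (nat_lit 0) (nat_lit 166) (nat_lit 158) (nat_lit 126)) (PT.lf (nat_lit 11248) (nat_lit 6) (nat_lit 148) (nat_lit 0) (nat_lit 167) (nat_lit 158) (nat_lit 125)))))) (PT.nd (nat_lit 43836) (PT.nd (nat_lit 43524) (PT.nd (nat_lit 43368) (PT.nd (nat_lit 43290) (PT.lf (nat_lit 10716) (nat_lit 6) (nat_lit 141) (nat_lit 0) (nat_lit 168) (nat_lit 158) (nat_lit 124)) (PT.lf (nat_lit 9880) (nat_lit 6) (nat_lit 130) (nat_lit 5) (nat_lit 122) (nat_lit 159) (nat_lit 169))) (PT.nd (nat_lit 78) (PT.lf (nat_lit 10336) (nat_lit 6) (nat_lit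 136) (nat_lit 5) (nat_lit 123) (nat_lit 159) (nat_lit 168)) (PT.lf (nat_lit 10792) (nat_lit 6) (nat_lit 142) (nat_lit 5) (nat_lit 124) (nat_lit 159) (nat_lit 167)))) (PT.nd (nat_lit 156) (PT.nd (nat_lit 78) (PT.lf (nat_lit 11324) (nat_lit 6) (nat_lit 149) (nat_lit 5) (nat_lit 125) (nat_lit 159) (nat_lit 166)) (PT.lf (nat_lit 11856) (nat_lit 6) (nat_lit 156) (nat_lit 5) (nat_lit 126) (nat_lit 159) (nat_lit 165))) (PT.nd (nat_lit 78) (PT.lf (nat_lit 12388) (nat_lit 6) (nat_lit 163) (nat_lit 5) (nat_lit 127) (nat_lit 159) (nat_lit 164)) (PT.lf (nat_lit 12920) (nat_lit 6) (nat_lit 170) (nat_lit 5) (nat_lit 128) (nat_lit 159) (nat_lit 163))))) (PT.nd (nat_lit 312) (PT.nd (nat_lit 156) (PT.nd (nat_lit 78) (PT.lf (nat_lit 13528) (nat_lit 6) (nat_lit 178) (nat_lit 5) (nat_lit 129) (nat_lit 159) (nat_lit 162)) (PT.lf (nat_lit 14136) (nat_lit 6) (nat_lit 186) (nat_lit 5) (nat_lit 130) (nat_lit 159) (nat_lit 161)))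 (PT.nd (nat_lit 78) (PT.lf (nat_lit 14820) (nat_lit 6) (nat_lit 195) (nat_lit 5) (nat_lit 131) (nat_lit 159) (nat_lit 160)) (PT.lf (nat_lit 15428) (nat_lit 3) (nat_lit 203) (nat_lit 4) (nat_lit 132) (nat_lit 159) (nat_lit 159)))) (PT.nd (nat_lit 156) (PT.nd (nat_lit 78) (PT.lf (nat_lit 16036) (nat_lit 6) (nat_lit 211) (nat_lit 4) (nat_lit 133) (nat_lit 159) (nat_lit 158)) (PT.lf (nat_lit 17024) (nat_lit 6) (nat_lit 224) (nat_lit 4) (nat_lit 134) (nat_lit 159) (nat_lit 157))) (PT.nd (nat_lit 78) (PT.lf (nat_lit 18164) (nat_lit 6) (nat_lit 239) (nat_lit 4) (nat_lit 135) (nat_lit 159) (nat_lit 156)) (PT.lf (nat_lit 19228) (nat_lit 6) (nat_lit 253) (nat_lit 4) (nat_lit 136) (nat_lit 159) (nat_lit 155))))))) (PT.nd (nat_lit 1170) (PT.nd (nat_lit 546) (PT.nd (nat_lit 234) (PT.nd (nat_lit 78) (PT.lf (nat_lit 20216) (nat_lit 6) (nat_lit 266) (nat_lit 4) (nat_lit 137) (nat_lit 159) (nat_lit 154)) (PT.nd (nat_lit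 78) (PT.lf (nat_lit 21128) (nat_lit 6) (nat_lit 278) (nat_lit 4) (nat_lit 138) (nat_lit 159) (nat_lit 153)) (PT.lf (nat_lit 21964) (nat_lit 6) (nat_lit 289) (nat_lit 4) (nat_lit 139) (nat_lit 159) (nat_lit 152)))) (PT.nd (nat_lit 156) (PT.nd (nat_lit 78) (PT.lf (nat_lit 22724) (nat_lit 6) (nat_lit 299) (nat_lit 4) (nat_lit 140) (nat_lit 159) (nat_lit 151)) (PT.lf (nat_lit 23408) (nat_lit 6) (nat_lit 308) (nat_lit 4) (nat_lit 141) (nat_lit 159) (nat_lit 150))) (PT.nd (nat_lit 78) (PT.lf (nat_lit 23332) (nat_lit 6) (nat_lit 307) (nat_lit 4) (nat_lit 142) (nat_lit 159) (nat_lit 149)) (PT.lf (nat_lit 23256) (nat_lit 6) (nat_lit 306) (nat_lit 4) (nat_lit 143) (nat_lit 159) (nat_lit 148))))) (PT.nd (nat_lit 312) (PT.nd (nat_lit 156) (PT.nd (nat_lit 78) (PT.lf (nat_lit 23180) (nat_lit 6) (nat_lit 305) (nat_lit 4) (nat_lit 144) (nat_lit 159) (nat_lit 147)) (PT.lf (nat_lit 23104) (nat_lit 6) (nat_lit 304) (nat_lit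 4) (nat_lit 145) (nat_lit 159) (nat_lit 146))) (PT.nd (nat_lit 78) (PT.lf (nat_lit 23104) (nat_lit 6) (nat_lit 304) (nat_lit 2) (nat_lit 146) (nat_lit 159) (nat_lit 145)) (PT.lf (nat_lit 23180) (nat_lit 6) (nat_lit 305) (nat_lit 2) (nat_lit 147) (nat_lit 159) (nat_lit 144)))) (PT.nd (nat_lit 156) (PT.nd (nat_lit 78) (PT.lf (nat_lit 23256) (nat_lit 6) (nat_lit 306) (nat_lit 2) (nat_lit 148) (nat_lit 159) (nat_lit 143)) (PT.lf (nat_lit 23332) (nat_lit 6) (nat_lit 307) (nat_lit 2) (nat_lit 149) (nat_lit 159) (nat_lit 142))) (PT.nd (nat_lit 78) (PT.lf (nat_lit 23408) (nat_lit 6) (nat_lit 308) (nat_lit 2) (nat_lit 150) (nat_lit 159) (nat_lit 141)) (PT.lf (nat_lit 22724) (nat_lit 6) (nat_lit 299) (nat_lit 2) (nat_lit 151) (nat_lit 159) (nat_lit 140)))))) (PT.nd (nat_lit 624) (PT.nd (nat_lit 312) (PT.nd (nat_lit 156) (PT.nd (nat_lit 78) (PT.lf (nat_lit 21964) (nat_lit 6) (nat_lit 289) (nat_lit 2) (nat_lit 152)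 (nat_lit 159) (nat_lit 139)) (PT.lf (nat_lit 21128) (nat_lit 6) (nat_lit 278) (nat_lit 2) (nat_lit 153) (nat_lit 159) (nat_lit 138))) (PT.nd (nat_lit 78) (PT.lf (nat_lit 20216) (nat_lit 6) (nat_lit 266) (nat_lit 2) (nat_lit 154) (nat_lit 159) (nat_lit 137)) (PT.lf (nat_lit 19228) (nat_lit 6) (nat_lit 253) (nat_lit 2) (nat_lit 155) (nat_lit 159) (nat_lit 136)))) (PT.nd (nat_lit 156) (PT.nd (nat_lit 78) (PT.lf (nat_lit 18164) (nat_lit 6) (nat_lit 239) (nat_lit 2) (nat_lit 156) (nat_lit 159) (nat_lit 135)) (PT.lf (nat_lit 17024) (nat_lit 6) (nat_lit 224) (nat_lit 2) (nat_lit 157) (nat_lit 159) (nat_lit 134))) (PT.nd (nat_lit 78) (PT.lf (nat_lit 16036) (nat_lit 6) (nat_lit 211) (nat_lit 2) (nat_lit 158) (nat_lit 159) (nat_lit 133)) (PT.lf (nat_lit 15428) (nat_lit 3) (nat_lit 203) (nat_lit 0) (nat_lit 159) (nat_lit 159) (nat_lit 132))))) (PT.nd (nat_lit 312) (PT.nd (nat_lit 156) (PT.nd (nat_lit 78) (PT.lf (nat_lit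 14820) (nat_lit 6) (nat_lit 195) (nat_lit 0) (nat_lit 160) (nat_lit 159) (nat_lit 131)) (PT.lf (nat_lit 14136) (nat_lit 6) (nat_lit 186) (nat_lit 0) (nat_lit 161) (nat_lit 159) (nat_lit 130))) (PT.nd (nat_lit 78) (PT.lf (nat_lit 13528) (nat_lit 6) (nat_lit 178) (nat_lit 0) (nat_lit 162) (nat_lit 159) (nat_lit 129)) (PT.lf (nat_lit 12920) (nat_lit 6) (nat_lit 170) (nat_lit 0) (nat_lit 163) (nat_lit 159) (nat_lit 128)))) (PT.nd (nat_lit 156) (PT.nd (nat_lit 78) (PT.lf (nat_lit 12388) (nat_lit 6) (nat_lit 163) (nat_lit 0) (nat_lit 164) (nat_lit 159) (nat_lit 127)) (PT.lf (nat_lit 11856) (nat_lit 6) (nat_lit 156) (nat_lit 0) (nat_lit 165) (nat_lit 159) (nat_lit 126))) (PT.nd (nat_lit 78) (PT.lf (nat_lit 11324) (nat_lit 6) (nat_lit 149) (nat_lit 0) (nat_lit 166) (nat_lit 159) (nat_lit 125)) (PT.lf (nat_lit 10792) (nat_lit 6) (nat_lit 142) (nat_lit 0) (nat_lit 167) (nat_lit 159) (nat_lit 124))))))))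
noncomputable def pc19 : PT := (PT.nd (nat_lit 45474) (PT.nd (nat_lit 44226) (PT.nd (nat_lit 43602) (PT.nd (nat_lit 43290) (PT.nd (nat_lit 78) (PT.lf (nat_lit 10336) (nat_lit 6) (nat_lit 136) (nat_lit 0) (nat_lit 168) (nat_lit 159) (nat_lit 123)) (PT.nd (nat_lit 43134) (PT.lf (nat_lit 9880) (nat_lit 6) (nat_lit 130) (nat_lit 0) (nat_lit 169) (nat_lit 159) (nat_lit 122)) (PT.lf (nat_lit 9500) (nat_lit 6) (nat_lit 125) (nat_lit 5) (nat_lit 121) (nat_lit 160) (nat_lit 169)))) (PT.nd (nat_lit 156) (PT.nd (nat_lit 78) (PT.lf (nat_lit 9956) (nat_lit 6) (nat_lit 131) (nat_lit 5) (nat_lit 122) (nat_lit 160) (nat_lit 168)) (PT.lf (nat_lit 10412) (nat_lit 6) (nat_lit 137) (nat_lit 5) (nat_lit 123) (nat_lit 160) (nat_lit 167))) (PT.nd (nat_lit 78) (PT.lf (nat_lit 10868) (nat_lit 6) (nat_lit 143) (nat_lit 5) (nat_lit 124) (nat_lit 160) (nat_lit 166)) (PT.lf (nat_lit 11400) (nat_lit 6) (nat_lit 150) (nat_lit 5) (nat_lit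 125) (nat_lit 160) (nat_lit 165))))) (PT.nd (nat_lit 312) (PT.nd (nat_lit 156) (PT.nd (nat_lit 78) (PT.lf (nat_lit 11932) (nat_lit 6) (nat_lit 157) (nat_lit 5) (nat_lit 126) (nat_lit 160) (nat_lit 164)) (PT.lf (nat_lit 12464) (nat_lit 6) (nat_lit 164) (nat_lit 5) (nat_lit 127) (nat_lit 160) (nat_lit 163))) (PT.nd (nat_lit 78) (PT.lf (nat_lit 12996) (nat_lit 6) (nat_lit 171) (nat_lit 5) (nat_lit 128) (nat_lit 160) (nat_lit 162)) (PT.lf (nat_lit 13604) (nat_lit 6) (nat_lit 179) (nat_lit 5) (nat_lit 129) (nat_lit 160) (nat_lit 161)))) (PT.nd (nat_lit 156) (PT.nd (nat_lit 78) (PT.lf (nat_lit 14212) (nat_lit 3) (nat_lit 187) (nat_lit 4) (nat_lit 130) (nat_lit 160) (nat_lit 160)) (PT.lf (nat_lit 14820) (nat_lit 6) (nat_lit 195) (nat_lit 4) (nat_lit 131) (nat_lit 160) (nat_lit 159))) (PT.nd (nat_lit 78) (PT.lf (nat_lit 15352) (nat_lit 6) (nat_lit 202) (nat_lit 4) (nat_lit 132) (nat_lit 160) (nat_lit 158)) (PT.lf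 (nat_lit 15960) (nat_lit 6) (nat_lit 210) (nat_lit 4) (nat_lit 133) (nat_lit 160) (nat_lit 157)))))) (PT.nd (nat_lit 624) (PT.nd (nat_lit 312) (PT.nd (nat_lit 156) (PT.nd (nat_lit 78) (PT.lf (nat_lit 16948) (nat_lit 6) (nat_lit 223) (nat_lit 4) (nat_lit 134) (nat_lit 160) (nat_lit 156)) (PT.lf (nat_lit 18088) (nat_lit 6) (nat_lit 238) (nat_lit 4) (nat_lit 135) (nat_lit 160) (nat_lit 155))) (PT.nd (nat_lit 78) (PT.lf (nat_lit 19152) (nat_lit 6) (nat_lit 252) (nat_lit 4) (nat_lit 136) (nat_lit 160) (nat_lit 154)) (PT.lf (nat_lit 20140) (nat_lit 6) (nat_lit 265) (nat_lit 4) (nat_lit 137) (nat_lit 160) (nat_lit 153)))) (PT.nd (nat_lit 156) (PT.nd (nat_lit 78) (PT.lf (nat_lit 21052) (nat_lit 6) (nat_lit 277) (nat_lit 4) (nat_lit 138) (nat_lit 160) (nat_lit 152)) (PT.lf (nat_lit 21888) (nat_lit 6) (nat_lit 288) (nat_lit 4) (nat_lit 139) (nat_lit 160) (nat_lit 151))) (PT.nd (nat_lit 78) (PT.lf (nat_lit 22648)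 (nat_lit 6) (nat_lit 298) (nat_lit 4) (nat_lit 140) (nat_lit 160) (nat_lit 150)) (PT.lf (nat_lit 22572) (nat_lit 6) (nat_lit 297) (nat_lit 4) (nat_lit 141) (nat_lit 160) (nat_lit 149))))) (PT.nd (nat_lit 312) (PT.nd (nat_lit 156) (PT.nd (nat_lit 78) (PT.lf (nat_lit 22496) (nat_lit 6) (nat_lit 296) (nat_lit 4) (nat_lit 142) (nat_lit 160) (nat_lit 148)) (PT.lf (nat_lit 22420) (nat_lit 6) (nat_lit 295) (nat_lit 4) (nat_lit 143) (nat_lit 160) (nat_lit 147))) (PT.nd (nat_lit 78) (PT.lf (nat_lit 22344) (nat_lit 6) (nat_lit 294) (nat_lit 4) (nat_lit 144) (nat_lit 160) (nat_lit 146)) (PT.lf (nat_lit 22268) (nat_lit 3) (nat_lit 293) (nat_lit 2) (nat_lit 145) (nat_lit 160) (nat_lit 145)))) (PT.nd (nat_lit 156) (PT.nd (nat_lit 78) (PT.lf (nat_lit 22344) (nat_lit 6) (nat_lit 294) (nat_lit 2) (nat_lit 146) (nat_lit 160) (nat_lit 144)) (PT.lf (nat_lit 22420) (nat_lit 6) (nat_lit 295) (nat_lit 2) (nat_lit 147) (nat_lit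 160) (nat_lit 143))) (PT.nd (nat_lit 78) (PT.lf (nat_lit 22496) (nat_lit 6) (nat_lit 296) (nat_lit 2) (nat_lit 148) (nat_lit 160) (nat_lit 142)) (PT.lf (nat_lit 22572) (nat_lit 6) (nat_lit 297) (nat_lit 2) (nat_lit 149) (nat_lit 160) (nat_lit 141))))))) (PT.nd (nat_lit 1170) (PT.nd (nat_lit 546) (PT.nd (nat_lit 234) (PT.nd (nat_lit 78) (PT.lf (nat_lit 22648) (nat_lit 6) (nat_lit 298) (nat_lit 2) (nat_lit 150) (nat_lit 160) (nat_lit 140)) (PT.nd (nat_lit 78) (PT.lf (nat_lit 21888) (nat_lit 6) (nat_lit 288) (nat_lit 2) (nat_lit 151) (nat_lit 160) (nat_lit 139)) (PT.lf (nat_lit 21052) (nat_lit 6) (nat_lit 277) (nat_lit 2) (nat_lit 152) (nat_lit 160) (nat_lit 138)))) (PT.nd (nat_lit 156) (PT.nd (nat_lit 78) (PT.lf (nat_lit 20140) (nat_lit 6) (nat_lit 265) (nat_lit 2) (nat_lit 153) (nat_lit 160) (nat_lit 137)) (PT.lf (nat_lit 19152) (nat_lit 6) (nat_lit 252) (nat_lit 2) (nat_lit 154) (nat_lit 160) (nat_lit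 136))) (PT.nd (nat_lit 78) (PT.lf (nat_lit 18088) (nat_lit 6) (nat_lit 238) (nat_lit 2) (nat_lit 155) (nat_lit 160) (nat_lit 135)) (PT.lf (nat_lit 16948) (nat_lit 6) (nat_lit 223) (nat_lit 2) (nat_lit 156) (nat_lit 160) (nat_lit 134))))) (PT.nd (nat_lit 312) (PT.nd (nat_lit 156) (PT.nd (nat_lit 78) (PT.lf (nat_lit 15960) (nat_lit 6) (nat_lit 210) (nat_lit 2) (nat_lit 157) (nat_lit 160) (nat_lit 133)) (PT.lf (nat_lit 15352) (nat_lit 6) (nat_lit 202) (nat_lit 2) (nat_lit 158) (nat_lit 160) (nat_lit 132))) (PT.nd (nat_lit 78) (PT.lf (nat_lit 14820) (nat_lit 6) (nat_lit 195) (nat_lit 2) (nat_lit 159) (nat_lit 160) (nat_lit 131)) (PT.lf (nat_lit 14212) (nat_lit 3) (nat_lit 187) (nat_lit 0) (nat_lit 160) (nat_lit 160) (nat_lit 130)))) (PT.nd (nat_lit 156) (PT.nd (nat_lit 78) (PT.lf (nat_lit 13604) (nat_lit 6) (nat_lit 179) (nat_lit 0) (nat_lit 161) (nat_lit 160) (nat_lit 129)) (PT.lf (nat_lit 12996) (nat_lit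 6) (nat_lit 171) (nat_lit 0) (nat_lit 162) (nat_lit 160) (nat_lit 128))) (PT.nd (nat_lit 78) (PT.lf (nat_lit 12464) (nat_lit 6) (nat_lit 164) (nat_lit 0) (nat_lit 163) (nat_lit 160) (nat_lit 127)) (PT.lf (nat_lit 11932) (nat_lit 6) (nat_lit 157) (nat_lit 0) (nat_lit 164) (nat_lit 160) (nat_lit 126)))))) (PT.nd (nat_lit 43524) (PT.nd (nat_lit 312) (PT.nd (nat_lit 156) (PT.nd (nat_lit 78) (PT.lf (nat_lit 11400) (nat_lit 6) (nat_lit 150) (nat_lit 0) (nat_lit 165) (nat_lit 160) (nat_lit 125)) (PT.lf (nat_lit 10868) (nat_lit 6) (nat_lit 143) (nat_lit 0) (nat_lit 166) (nat_lit 160) (nat_lit 124))) (PT.nd (nat_lit 78) (PT.lf (nat_lit 10412) (nat_lit 6) (nat_lit 137) (nat_lit 0) (nat_lit 167) (nat_lit 160) (nat_lit 123)) (PT.lf (nat_lit 9956) (nat_lit 6) (nat_lit 131) (nat_lit 0) (nat_lit 168) (nat_lit 160) (nat_lit 122)))) (PT.nd (nat_lit 43056) (PT.nd (nat_lit 42978) (PT.lf (nat_lit 9500) (nat_lit 6) (nat_lit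 125) (nat_lit 0) (nat_lit 169) (nat_lit 160) (nat_lit 121)) (PT.lf (nat_lit 8740) (nat_lit 6) (nat_lit 115) (nat_lit 5) (nat_lit 119) (nat_lit 161) (nat_lit 170))) (PT.nd (nat_lit 78) (PT.lf (nat_lit 9120) (nat_lit 6) (nat_lit 120) (nat_lit 5) (nat_lit 120) (nat_lit 161) (nat_lit 169)) (PT.lf (nat_lit 9576) (nat_lit 6) (nat_lit 126) (nat_lit 5) (nat_lit 121) (nat_lit 161) (nat_lit 168))))) (PT.nd (nat_lit 312) (PT.nd (nat_lit 156) (PT.nd (nat_lit 78) (PT.lf (nat_lit 10032) (nat_lit 6) (nat_lit 132) (nat_lit 5) (nat_lit 122) (nat_lit 161) (nat_lit 167)) (PT.lf (nat_lit 10488) (nat_lit 6) (nat_lit 138) (nat_lit 5) (nat_lit 123) (nat_lit 161) (nat_lit 166))) (PT.nd (nat_lit 78) (PT.lf (nat_lit 10944) (nat_lit 6) (nat_lit 144) (nat_lit 5) (nat_lit 124) (nat_lit 161) (nat_lit 165)) (PT.lf (nat_lit 11476) (nat_lit 6) (nat_lit 151) (nat_lit 5) (nat_lit 125) (nat_lit 161) (nat_lit 164)))) (PT.nd (nat_lit 156)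 (PT.nd (nat_lit 78) (PT.lf (nat_lit 12008) (nat_lit 6) (nat_lit 158) (nat_lit 5) (nat_lit 126) (nat_lit 161) (nat_lit 163)) (PT.lf (nat_lit 12540) (nat_lit 6) (nat_lit 165) (nat_lit 5) (nat_lit 127) (nat_lit 161) (nat_lit 162))) (PT.nd (nat_lit 78) (PT.lf (nat_lit 13072) (nat_lit 3) (nat_lit 172) (nat_lit 4) (nat_lit 128) (nat_lit 161) (nat_lit 161)) (PT.lf (nat_lit 13604) (nat_lit 6) (nat_lit 179) (nat_lit 4) (nat_lit 129) (nat_lit 161) (nat_lit 160))))))))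
noncomputable def pc20 : PT := (PT.nd (nat_lit 2340) (PT.nd (nat_lit 1170) (PT.nd (nat_lit 546) (PT.nd (nat_lit 234) (PT.nd (nat_lit 78) (PT.lf (nat_lit 14136) (nat_lit 6) (nat_lit 186) (nat_lit 4) (nat_lit 130) (nat_lit 161) (nat_lit 159)) (PT.nd (nat_lit 78) (PT.lf (nat_lit 14744) (nat_lit 6) (nat_lit 194) (nat_lit 4) (nat_lit 131) (nat_lit 161) (nat_lit 158)) (PT.lf (nat_lit 15276) (nat_lit 6) (nat_lit 201) (nat_lit 4) (nat_lit 132) (nat_lit 161) (nat_lit 157)))) (PT.nd (nat_lit 156) (PT.nd (nat_lit 78) (PT.lf (nat_lit 15884) (nat_lit 6) (nat_lit 209) (nat_lit 4) (nat_lit 133) (nat_lit 161) (nat_lit 156)) (PT.lf (nat_lit 16872) (nat_lit 6) (nat_lit 222) (nat_lit 4) (nat_lit 134) (nat_lit 161) (nat_lit 155))) (PT.nd (nat_lit 78) (PT.lf (nat_lit 18012) (nat_lit 6) (nat_lit 237) (nat_lit 4) (nat_lit 135) (nat_lit 161) (nat_lit 154)) (PT.lf (nat_lit 19076) (nat_lit 6) (nat_lit 251) (nat_lit 4) (nat_lit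 136) (nat_lit 161) (nat_lit 153))))) (PT.nd (nat_lit 312) (PT.nd (nat_lit 156) (PT.nd (nat_lit 78) (PT.lf (nat_lit 20064) (nat_lit 6) (nat_lit 264) (nat_lit 4) (nat_lit 137) (nat_lit 161) (nat_lit 152)) (PT.lf (nat_lit 20976) (nat_lit 6) (nat_lit 276) (nat_lit 4) (nat_lit 138) (nat_lit 161) (nat_lit 151))) (PT.nd (nat_lit 78) (PT.lf (nat_lit 21812) (nat_lit 6) (nat_lit 287) (nat_lit 4) (nat_lit 139) (nat_lit 161) (nat_lit 150)) (PT.lf (nat_lit 21736) (nat_lit 6) (nat_lit 286) (nat_lit 4) (nat_lit 140) (nat_lit 161) (nat_lit 149)))) (PT.nd (nat_lit 156) (PT.nd (nat_lit 78) (PT.lf (nat_lit 21660) (nat_lit 6) (nat_lit 285) (nat_lit 4) (nat_lit 141) (nat_lit 161) (nat_lit 148)) (PT.lf (nat_lit 21584) (nat_lit 6) (nat_lit 284) (nat_lit 4) (nat_lit 142) (nat_lit 161) (nat_lit 147))) (PT.nd (nat_lit 78) (PT.lf (nat_lit 21508) (nat_lit 6) (nat_lit 283) (nat_lit 4) (nat_lit 143) (nat_lit 161) (nat_lit 146)) (PT.lf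 (nat_lit 21432) (nat_lit 6) (nat_lit 282) (nat_lit 4) (nat_lit 144) (nat_lit 161) (nat_lit 145)))))) (PT.nd (nat_lit 546) (PT.nd (nat_lit 234) (PT.nd (nat_lit 78) (PT.lf (nat_lit 21432) (nat_lit 6) (nat_lit 282) (nat_lit 2) (nat_lit 145) (nat_lit 161) (nat_lit 144)) (PT.nd (nat_lit 78) (PT.lf (nat_lit 21508) (nat_lit 6) (nat_lit 283) (nat_lit 2) (nat_lit 146) (nat_lit 161) (nat_lit 143)) (PT.lf (nat_lit 21584) (nat_lit 6) (nat_lit 284) (nat_lit 2) (nat_lit 147) (nat_lit 161) (nat_lit 142)))) (PT.nd (nat_lit 156) (PT.nd (nat_lit 78) (PT.lf (nat_lit 21660) (nat_lit 6) (nat_lit 285) (nat_lit 2) (nat_lit 148) (nat_lit 161) (nat_lit 141)) (PT.lf (nat_lit 21736) (nat_lit 6) (nat_lit 286) (nat_lit 2) (nat_lit 149) (nat_lit 161) (nat_lit 140))) (PT.nd (nat_lit 78) (PT.lf (nat_lit 21812) (nat_lit 6) (nat_lit 287) (nat_lit 2) (nat_lit 150) (nat_lit 161) (nat_lit 139)) (PT.lf (nat_lit 20976) (nat_lit 6) (nat_lit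 276) (nat_lit 2) (nat_lit 151) (nat_lit 161) (nat_lit 138))))) (PT.nd (nat_lit 312) (PT.nd (nat_lit 156) (PT.nd (nat_lit 78) (PT.lf (nat_lit 20064) (nat_lit 6) (nat_lit 264) (nat_lit 2) (nat_lit 152) (nat_lit 161) (nat_lit 137)) (PT.lf (nat_lit 19076) (nat_lit 6) (nat_lit 251) (nat_lit 2) (nat_lit 153) (nat_lit 161) (nat_lit 136))) (PT.nd (nat_lit 78) (PT.lf (nat_lit 18012) (nat_lit 6) (nat_lit 237) (nat_lit 2) (nat_lit 154) (nat_lit 161) (nat_lit 135)) (PT.lf (nat_lit 16872) (nat_lit 6) (nat_lit 222) (nat_lit 2) (nat_lit 155) (nat_lit 161) (nat_lit 134)))) (PT.nd (nat_lit 156) (PT.nd (nat_lit 78) (PT.lf (nat_lit 15884) (nat_lit 6) (nat_lit 209) (nat_lit 2) (nat_lit 156) (nat_lit 161) (nat_lit 133)) (PT.lf (nat_lit 15276) (nat_lit 6) (nat_lit 201) (nat_lit 2) (nat_lit 157) (nat_lit 161) (nat_lit 132))) (PT.nd (nat_lit 78) (PT.lf (nat_lit 14744) (nat_lit 6) (nat_lit 194) (nat_lit 2) (nat_lit 158) (nat_lit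 161) (nat_lit 131)) (PT.lf (nat_lit 14136) (nat_lit 6) (nat_lit 186) (nat_lit 2) (nat_lit 159) (nat_lit 161) (nat_lit 130))))))) (PT.nd (nat_lit 43914) (PT.nd (nat_lit 546) (PT.nd (nat_lit 234) (PT.nd (nat_lit 78) (PT.lf (nat_lit 13604) (nat_lit 6) (nat_lit 179) (nat_lit 2) (nat_lit 160) (nat_lit 161) (nat_lit 129)) (PT.nd (nat_lit 78) (PT.lf (nat_lit 13072) (nat_lit 3) (nat_lit 172) (nat_lit 0) (nat_lit 161) (nat_lit 161) (nat_lit 128)) (PT.lf (nat_lit 12540) (nat_lit 6) (nat_lit 165) (nat_lit 0) (nat_lit 162) (nat_lit 161) (nat_lit 127)))) (PT.nd (nat_lit 156) (PT.nd (nat_lit 78) (PT.lf (nat_lit 12008) (nat_lit 6) (nat_lit 158) (nat_lit 0) (nat_lit 163) (nat_lit 161) (nat_lit 126)) (PT.lf (nat_lit 11476) (nat_lit 6) (nat_lit 151) (nat_lit 0) (nat_lit 164) (nat_lit 161) (nat_lit 125))) (PT.nd (nat_lit 78) (PT.lf (nat_lit 10944) (nat_lit 6) (nat_lit 144) (nat_lit 0) (nat_lit 165) (nat_lit 161) (nat_lit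 124)) (PT.lf (nat_lit 10488) (nat_lit 6) (nat_lit 138) (nat_lit 0) (nat_lit 166) (nat_lit 161) (nat_lit 123))))) (PT.nd (nat_lit 43056) (PT.nd (nat_lit 156) (PT.nd (nat_lit 78) (PT.lf (nat_lit 10032) (nat_lit 6) (nat_lit 132) (nat_lit 0) (nat_lit 167) (nat_lit 161) (nat_lit 122)) (PT.lf (nat_lit 9576) (nat_lit 6) (nat_lit 126) (nat_lit 0) (nat_lit 168) (nat_lit 161) (nat_lit 121))) (PT.nd (nat_lit 78) (PT.lf (nat_lit 9120) (nat_lit 6) (nat_lit 120) (nat_lit 0) (nat_lit 169) (nat_lit 161) (nat_lit 120)) (PT.lf (nat_lit 8740) (nat_lit 6) (nat_lit 115) (nat_lit 0) (nat_lit 170) (nat_lit 161) (nat_lit 119)))) (PT.nd (nat_lit 156) (PT.nd (nat_lit 78) (PT.lf (nat_lit 8360) (nat_lit 6) (nat_lit 110) (nat_lit 5) (nat_lit 118) (nat_lit 162) (nat_lit 170)) (PT.lf (nat_lit 8816) (nat_lit 6) (nat_lit 116) (nat_lit 5) (nat_lit 119) (nat_lit 162) (nat_lit 169))) (PT.nd (nat_lit 78) (PT.lf (nat_lit 9196) (nat_lit 6)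 (nat_lit 121) (nat_lit 5) (nat_lit 120) (nat_lit 162) (nat_lit 168)) (PT.lf (nat_lit 9652) (nat_lit 6) (nat_lit 127) (nat_lit 5) (nat_lit 121) (nat_lit 162) (nat_lit 167)))))) (PT.nd (nat_lit 624) (PT.nd (nat_lit 312) (PT.nd (nat_lit 156) (PT.nd (nat_lit 78) (PT.lf (nat_lit 10108) (nat_lit 6) (nat_lit 133) (nat_lit 5) (nat_lit 122) (nat_lit 162) (nat_lit 166)) (PT.lf (nat_lit 10564) (nat_lit 6) (nat_lit 139) (nat_lit 5) (nat_lit 123) (nat_lit 162) (nat_lit 165))) (PT.nd (nat_lit 78) (PT.lf (nat_lit 11020) (nat_lit 6) (nat_lit 145) (nat_lit 5) (nat_lit 124) (nat_lit 162) (nat_lit 164)) (PT.lf (nat_lit 11552) (nat_lit 6) (nat_lit 152) (nat_lit 5) (nat_lit 125) (nat_lit 162) (nat_lit 163)))) (PT.nd (nat_lit 156) (PT.nd (nat_lit 78) (PT.lf (nat_lit 12084) (nat_lit 3) (nat_lit 159) (nat_lit 4) (nat_lit 126) (nat_lit 162) (nat_lit 162)) (PT.lf (nat_lit 12540) (nat_lit 6) (nat_lit 165) (nat_lit 4) (nat_lit 127)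 (nat_lit 162) (nat_lit 161))) (PT.nd (nat_lit 78) (PT.lf (nat_lit 12996) (nat_lit 6) (nat_lit 171) (nat_lit 4) (nat_lit 128) (nat_lit 162) (nat_lit 160)) (PT.lf (nat_lit 13528) (nat_lit 6) (nat_lit 178) (nat_lit 4) (nat_lit 129) (nat_lit 162) (nat_lit 159))))) (PT.nd (nat_lit 312) (PT.nd (nat_lit 156) (PT.nd (nat_lit 78) (PT.lf (nat_lit 14060) (nat_lit 6) (nat_lit 185) (nat_lit 4) (nat_lit 130) (nat_lit 162) (nat_lit 158)) (PT.lf (nat_lit 14668) (nat_lit 6) (nat_lit 193) (nat_lit 4) (nat_lit 131) (nat_lit 162) (nat_lit 157))) (PT.nd (nat_lit 78) (PT.lf (nat_lit 15200) (nat_lit 6) (nat_lit 200) (nat_lit 4) (nat_lit 132) (nat_lit 162) (nat_lit 156)) (PT.lf (nat_lit 15808) (nat_lit 6) (nat_lit 208) (nat_lit 4) (nat_lit 133) (nat_lit 162) (nat_lit 155)))) (PT.nd (nat_lit 156) (PT.nd (nat_lit 78) (PT.lf (nat_lit 16796) (nat_lit 6) (nat_lit 221) (nat_lit 4) (nat_lit 134) (nat_lit 162) (nat_lit 154)) (PT.lf (nat_lit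 17936) (nat_lit 6) (nat_lit 236) (nat_lit 4) (nat_lit 135) (nat_lit 162) (nat_lit 153))) (PT.nd (nat_lit 78) (PT.lf (nat_lit 19000) (nat_lit 6) (nat_lit 250) (nat_lit 4) (nat_lit 136) (nat_lit 162) (nat_lit 152)) (PT.lf (nat_lit 19988) (nat_lit 6) (nat_lit 263) (nat_lit 4) (nat_lit 137) (nat_lit 162) (nat_lit 151))))))))
noncomputable def pc21 : PT := (PT.nd (nat_lit 2418) (PT.nd (nat_lit 1170) (PT.nd (nat_lit 546) (PT.nd (nat_lit 234) (PT.nd (nat_lit 78) (PT.lf (nat_lit 20900) (nat_lit 6) (nat_lit 275) (nat_lit 4) (nat_lit 138) (nat_lit 162) (nat_lit 150)) (PT.nd (nat_lit 78) (PT.lf (nat_lit 20824) (nat_lit 6) (nat_lit 274) (nat_lit 4) (nat_lit 139) (nat_lit 162) (nat_lit 149)) (PT.lf (nat_lit 20748) (nat_lit 6) (nat_lit 273) (nat_lit 4) (nat_lit 140) (nat_lit 162) (nat_lit 148)))) (PT.nd (nat_lit 156) (PT.nd (nat_lit 78) (PT.lf (nat_lit 20672) (nat_lit 6) (nat_lit 272) (nat_lit 4) (nat_lit 141) (nat_lit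 162) (nat_lit 147)) (PT.lf (nat_lit 20596) (nat_lit 6) (nat_lit 271) (nat_lit 4) (nat_lit 142) (nat_lit 162) (nat_lit 146))) (PT.nd (nat_lit 78) (PT.lf (nat_lit 20520) (nat_lit 6) (nat_lit 270) (nat_lit 4) (nat_lit 143) (nat_lit 162) (nat_lit 145)) (PT.lf (nat_lit 20444) (nat_lit 3) (nat_lit 269) (nat_lit 2) (nat_lit 144) (nat_lit 162) (nat_lit 144))))) (PT.nd (nat_lit 312) (PT.nd (nat_lit 156) (PT.nd (nat_lit 78) (PT.lf (nat_lit 20520) (nat_lit 6) (nat_lit 270) (nat_lit 2) (nat_lit 145) (nat_lit 162) (nat_lit 143)) (PT.lf (nat_lit 20596) (nat_lit 6) (nat_lit 271) (nat_lit 2) (nat_lit 146) (nat_lit 162) (nat_lit 142))) (PT.nd (nat_lit 78) (PT.lf (nat_lit 20672) (nat_lit 6) (nat_lit 272) (nat_lit 2) (nat_lit 147) (nat_lit 162) (nat_lit 141)) (PT.lf (nat_lit 20748) (nat_lit 6) (nat_lit 273) (nat_lit 2) (nat_lit 148) (nat_lit 162) (nat_lit 140)))) (PT.nd (nat_lit 156) (PT.nd (nat_lit 78) (PT.lf (nat_lit 20824)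 (nat_lit 6) (nat_lit 274) (nat_lit 2) (nat_lit 149) (nat_lit 162) (nat_lit 139)) (PT.lf (nat_lit 20900) (nat_lit 6) (nat_lit 275) (nat_lit 2) (nat_lit 150) (nat_lit 162) (nat_lit 138))) (PT.nd (nat_lit 78) (PT.lf (nat_lit 19988) (nat_lit 6) (nat_lit 263) (nat_lit 2) (nat_lit 151) (nat_lit 162) (nat_lit 137)) (PT.lf (nat_lit 19000) (nat_lit 6) (nat_lit 250) (nat_lit 2) (nat_lit 152) (nat_lit 162) (nat_lit 136)))))) (PT.nd (nat_lit 624) (PT.nd (nat_lit 312) (PT.nd (nat_lit 156) (PT.nd (nat_lit 78) (PT.lf (nat_lit 17936) (nat_lit 6) (nat_lit 236) (nat_lit 2) (nat_lit 153) (nat_lit 162) (nat_lit 135)) (PT.lf (nat_lit 16796) (nat_lit 6) (nat_lit 221) (nat_lit 2) (nat_lit 154) (nat_lit 162) (nat_lit 134))) (PT.nd (nat_lit 78) (PT.lf (nat_lit 15808) (nat_lit 6) (nat_lit 208) (nat_lit 2) (nat_lit 155) (nat_lit 162) (nat_lit 133)) (PT.lf (nat_lit 15200) (nat_lit 6) (nat_lit 200) (nat_lit 2) (nat_lit 156) (nat_lit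 162) (nat_lit 132)))) (PT.nd (nat_lit 156) (PT.nd (nat_lit 78) (PT.lf (nat_lit 14668) (nat_lit 6) (nat_lit 193) (nat_lit 2) (nat_lit 157) (nat_lit 162) (nat_lit 131)) (PT.lf (nat_lit 14060) (nat_lit 6) (nat_lit 185) (nat_lit 2) (nat_lit 158) (nat_lit 162) (nat_lit 130))) (PT.nd (nat_lit 78) (PT.lf (nat_lit 13528) (nat_lit 6) (nat_lit 178) (nat_lit 2) (nat_lit 159) (nat_lit 162) (nat_lit 129)) (PT.lf (nat_lit 12996) (nat_lit 6) (nat_lit 171) (nat_lit 2) (nat_lit 160) (nat_lit 162) (nat_lit 128))))) (PT.nd (nat_lit 312) (PT.nd (nat_lit 156) (PT.nd (nat_lit 78) (PT.lf (nat_lit 12540) (nat_lit 6) (nat_lit 165) (nat_lit 2) (nat_lit 161) (nat_lit 162) (nat_lit 127)) (PT.lf (nat_lit 12084) (nat_lit 3) (nat_lit 159) (nat_lit 0) (nat_lit 162) (nat_lit 162) (nat_lit 126))) (PT.nd (nat_lit 78) (PT.lf (nat_lit 11552) (nat_lit 6) (nat_lit 152) (nat_lit 0) (nat_lit 163) (nat_lit 162) (nat_lit 125)) (PT.lf (nat_lit 11020)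 (nat_lit 6) (nat_lit 145) (nat_lit 0) (nat_lit 164) (nat_lit 162) (nat_lit 124)))) (PT.nd (nat_lit 156) (PT.nd (nat_lit 78) (PT.lf (nat_lit 10564) (nat_lit 6) (nat_lit 139) (nat_lit 0) (nat_lit 165) (nat_lit 162) (nat_lit 123)) (PT.lf (nat_lit 10108) (nat_lit 6) (nat_lit 133) (nat_lit 0) (nat_lit 166) (nat_lit 162) (nat_lit 122))) (PT.nd (nat_lit 78) (PT.lf (nat_lit 9652) (nat_lit 6) (nat_lit 127) (nat_lit 0) (nat_lit 167) (nat_lit 162) (nat_lit 121)) (PT.lf (nat_lit 9196) (nat_lit 6) (nat_lit 121) (nat_lit 0) (nat_lit 168) (nat_lit 162) (nat_lit 120))))))) (PT.nd (nat_lit 43758) (PT.nd (nat_lit 43134) (PT.nd (nat_lit 42822) (PT.nd (nat_lit 78) (PT.lf (nat_lit 8816) (nat_lit 6) (nat_lit 116) (nat_lit 0) (nat_lit 169) (nat_lit 162) (nat_lit 119)) (PT.nd (nat_lit 42666) (PT.lf (nat_lit 8360) (nat_lit 6) (nat_lit 110) (nat_lit 0) (nat_lit 170) (nat_lit 162) (nat_lit 118)) (PT.lf (nat_lit 7676) (nat_lit 6)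 (nat_lit 101) (nat_lit 5) (nat_lit 116) (nat_lit 163) (nat_lit 171)))) (PT.nd (nat_lit 156) (PT.nd (nat_lit 78) (PT.lf (nat_lit 8056) (nat_lit 6) (nat_lit 106) (nat_lit 5) (nat_lit 117) (nat_lit 163) (nat_lit 170)) (PT.lf (nat_lit 8436) (nat_lit 6) (nat_lit 111) (nat_lit 5) (nat_lit 118) (nat_lit 163) (nat_lit 169))) (PT.nd (nat_lit 78) (PT.lf (nat_lit 8892) (nat_lit 6) (nat_lit 117) (nat_lit 5) (nat_lit 119) (nat_lit 163) (nat_lit 168)) (PT.lf (nat_lit 9272) (nat_lit 6) (nat_lit 122) (nat_lit 5) (nat_lit 120) (nat_lit 163) (nat_lit 167))))) (PT.nd (nat_lit 312) (PT.nd (nat_lit 156) (PT.nd (nat_lit 78) (PT.lf (nat_lit 9728) (nat_lit 6) (nat_lit 128) (nat_lit 5) (nat_lit 121) (nat_lit 163) (nat_lit 166)) (PT.lf (nat_lit 10184) (nat_lit 6) (nat_lit 134) (nat_lit 5) (nat_lit 122) (nat_lit 163) (nat_lit 165))) (PT.nd (nat_lit 78) (PT.lf (nat_lit 10640) (nat_lit 6) (nat_lit 140) (nat_lit 5) (nat_lit 123) (nat_lit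 163) (nat_lit 164)) (PT.lf (nat_lit 11096) (nat_lit 3) (nat_lit 146) (nat_lit 4) (nat_lit 124) (nat_lit 163) (nat_lit 163)))) (PT.nd (nat_lit 156) (PT.nd (nat_lit 78) (PT.lf (nat_lit 11552) (nat_lit 6) (nat_lit 152) (nat_lit 4) (nat_lit 125) (nat_lit 163) (nat_lit 162)) (PT.lf (nat_lit 12008) (nat_lit 6) (nat_lit 158) (nat_lit 4) (nat_lit 126) (nat_lit 163) (nat_lit 161))) (PT.nd (nat_lit 78) (PT.lf (nat_lit 12464) (nat_lit 6) (nat_lit 164) (nat_lit 4) (nat_lit 127) (nat_lit 163) (nat_lit 160)) (PT.lf (nat_lit 12920) (nat_lit 6) (nat_lit 170) (nat_lit 4) (nat_lit 128) (nat_lit 163) (nat_lit 159)))))) (PT.nd (nat_lit 624) (PT.nd (nat_lit 312) (PT.nd (nat_lit 156) (PT.nd (nat_lit 78) (PT.lf (nat_lit 13452) (nat_lit 6) (nat_lit 177) (nat_lit 4) (nat_lit 129) (nat_lit 163) (nat_lit 158)) (PT.lf (nat_lit 13984) (nat_lit 6) (nat_lit 184) (nat_lit 4) (nat_lit 130) (nat_lit 163) (nat_lit 157))) (PT.nd (nat_lit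 78) (PT.lf (nat_lit 14592) (nat_lit 6) (nat_lit 192) (nat_lit 4) (nat_lit 131) (nat_lit 163) (nat_lit 156)) (PT.lf (nat_lit 15124) (nat_lit 6) (nat_lit 199) (nat_lit 4) (nat_lit 132) (nat_lit 163) (nat_lit 155)))) (PT.nd (nat_lit 156) (PT.nd (nat_lit 78) (PT.lf (nat_lit 15732) (nat_lit 6) (nat_lit 207) (nat_lit 4) (nat_lit 133) (nat_lit 163) (nat_lit 154)) (PT.lf (nat_lit 16720) (nat_lit 6) (nat_lit 220) (nat_lit 4) (nat_lit 134) (nat_lit 163) (nat_lit 153))) (PT.nd (nat_lit 78) (PT.lf (nat_lit 17860) (nat_lit 6) (nat_lit 235) (nat_lit 4) (nat_lit 135) (nat_lit 163) (nat_lit 152)) (PT.lf (nat_lit 18924) (nat_lit 6) (nat_lit 249) (nat_lit 4) (nat_lit 136) (nat_lit 163) (nat_lit 151))))) (PT.nd (nat_lit 312) (PT.nd (nat_lit 156) (PT.nd (nat_lit 78) (PT.lf (nat_lit 19912) (nat_lit 6) (nat_lit 262) (nat_lit 4) (nat_lit 137) (nat_lit 163) (nat_lit 150)) (PT.lf (nat_lit 19836) (nat_lit 6) (nat_lit 261) (nat_lit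 4) (nat_lit 138) (nat_lit 163) (nat_lit 149))) (PT.nd (nat_lit 78) (PT.lf (nat_lit 19760) (nat_lit 6) (nat_lit 260) (nat_lit 4) (nat_lit 139) (nat_lit 163) (nat_lit 148)) (PT.lf (nat_lit 19684) (nat_lit 6) (nat_lit 259) (nat_lit 4) (nat_lit 140) (nat_lit 163) (nat_lit 147)))) (PT.nd (nat_lit 156) (PT.nd (nat_lit 78) (PT.lf (nat_lit 19608) (nat_lit 6) (nat_lit 258) (nat_lit 4) (nat_lit 141) (nat_lit 163) (nat_lit 146)) (PT.lf (nat_lit 19532) (nat_lit 6) (nat_lit 257) (nat_lit 4) (nat_lit 142) (nat_lit 163) (nat_lit 145))) (PT.nd (nat_lit 78) (PT.lf (nat_lit 19456) (nat_lit 6) (nat_lit 256) (nat_lit 4) (nat_lit 143) (nat_lit 163) (nat_lit 144)) (PT.lf (nat_lit 19456) (nat_lit 6) (nat_lit 256) (nat_lit 2) (nat_lit 144) (nat_lit 163) (nat_lit 143))))))))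
noncomputable def pc22 : PT := (PT.nd (nat_lit 44850) (PT.nd (nat_lit 1170) (PT.nd (nat_lit 546) (PT.nd (nat_lit 234) (PT.nd (nat_lit 78) (PT.lf (nat_lit 19532) (nat_lit 6) (nat_lit 257) (nat_lit 2) (nat_lit 145) (nat_lit 163) (nat_lit 142)) (PT.nd (nat_lit 78) (PT.lf (nat_lit 19608) (nat_lit 6) (nat_lit 258) (nat_lit 2) (nat_lit 146) (nat_lit 163) (nat_lit 141)) (PT.lf (nat_lit 19684) (nat_lit 6) (nat_lit 259) (nat_lit 2) (nat_lit 147) (nat_lit 163) (nat_lit 140)))) (PT.nd (nat_lit 156) (PT.nd (nat_lit 78) (PT.lf (nat_lit 19760) (nat_lit 6) (nat_lit 260) (nat_lit 2) (nat_lit 148) (nat_lit 163) (nat_lit 139)) (PT.lf (nat_lit 19836) (nat_lit 6) (nat_lit 261) (nat_lit 2) (nat_lit 149) (nat_lit 163) (nat_lit 138))) (PT.nd (nat_lit 78) (PT.lf (nat_lit 19912) (nat_lit 6) (nat_lit 262) (nat_lit 2) (nat_lit 150) (nat_lit 163) (nat_lit 137)) (PT.lf (nat_lit 18924) (nat_lit 6) (nat_lit 249) (nat_lit 2) (nat_lit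 151) (nat_lit 163) (nat_lit 136))))) (PT.nd (nat_lit 312) (PT.nd (nat_lit 156) (PT.nd (nat_lit 78) (PT.lf (nat_lit 17860) (nat_lit 6) (nat_lit 235) (nat_lit 2) (nat_lit 152) (nat_lit 163) (nat_lit 135)) (PT.lf (nat_lit 16720) (nat_lit 6) (nat_lit 220) (nat_lit 2) (nat_lit 153) (nat_lit 163) (nat_lit 134))) (PT.nd (nat_lit 78) (PT.lf (nat_lit 15732) (nat_lit 6) (nat_lit 207) (nat_lit 2) (nat_lit 154) (nat_lit 163) (nat_lit 133)) (PT.lf (nat_lit 15124) (nat_lit 6) (nat_lit 199) (nat_lit 2) (nat_lit 155) (nat_lit 163) (nat_lit 132)))) (PT.nd (nat_lit 156) (PT.nd (nat_lit 78) (PT.lf (nat_lit 14592) (nat_lit 6) (nat_lit 192) (nat_lit 2) (nat_lit 156) (nat_lit 163) (nat_lit 131)) (PT.lf (nat_lit 13984) (nat_lit 6) (nat_lit 184) (nat_lit 2) (nat_lit 157) (nat_lit 163) (nat_lit 130))) (PT.nd (nat_lit 78) (PT.lf (nat_lit 13452) (nat_lit 6) (nat_lit 177) (nat_lit 2) (nat_lit 158) (nat_lit 163) (nat_lit 129)) (PT.lf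 (nat_lit 12920) (nat_lit 6) (nat_lit 170) (nat_lit 2) (nat_lit 159) (nat_lit 163) (nat_lit 128)))))) (PT.nd (nat_lit 624) (PT.nd (nat_lit 312) (PT.nd (nat_lit 156) (PT.nd (nat_lit 78) (PT.lf (nat_lit 12464) (nat_lit 6) (nat_lit 164) (nat_lit 2) (nat_lit 160) (nat_lit 163) (nat_lit 127)) (PT.lf (nat_lit 12008) (nat_lit 6) (nat_lit 158) (nat_lit 2) (nat_lit 161) (nat_lit 163) (nat_lit 126))) (PT.nd (nat_lit 78) (PT.lf (nat_lit 11552) (nat_lit 6) (nat_lit 152) (nat_lit 2) (nat_lit 162) (nat_lit 163) (nat_lit 125)) (PT.lf (nat_lit 11096) (nat_lit 3) (nat_lit 146) (nat_lit 0) (nat_lit 163) (nat_lit 163) (nat_lit 124)))) (PT.nd (nat_lit 156) (PT.nd (nat_lit 78) (PT.lf (nat_lit 10640) (nat_lit 6) (nat_lit 140) (nat_lit 0) (nat_lit 164) (nat_lit 163) (nat_lit 123)) (PT.lf (nat_lit 10184) (nat_lit 6) (nat_lit 134) (nat_lit 0) (nat_lit 165) (nat_lit 163) (nat_lit 122))) (PT.nd (nat_lit 78) (PT.lf (nat_lit 9728)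 (nat_lit 6) (nat_lit 128) (nat_lit 0) (nat_lit 166) (nat_lit 163) (nat_lit 121)) (PT.lf (nat_lit 9272) (nat_lit 6) (nat_lit 122) (nat_lit 0) (nat_lit 167) (nat_lit 163) (nat_lit 120))))) (PT.nd (nat_lit 42744) (PT.nd (nat_lit 156) (PT.nd (nat_lit 78) (PT.lf (nat_lit 8892) (nat_lit 6) (nat_lit 117) (nat_lit 0) (nat_lit 168) (nat_lit 163) (nat_lit 119)) (PT.lf (nat_lit 8436) (nat_lit 6) (nat_lit 111) (nat_lit 0) (nat_lit 169) (nat_lit 163) (nat_lit 118))) (PT.nd (nat_lit 78) (PT.lf (nat_lit 8056) (nat_lit 6) (nat_lit 106) (nat_lit 0) (nat_lit 170) (nat_lit 163) (nat_lit 117)) (PT.lf (nat_lit 7676) (nat_lit 6) (nat_lit 101) (nat_lit 0) (nat_lit 171) (nat_lit 163) (nat_lit 116)))) (PT.nd (nat_lit 156) (PT.nd (nat_lit 78) (PT.lf (nat_lit 7372) (nat_lit 6) (nat_lit 97) (nat_lit 5) (nat_lit 115) (nat_lit 164) (nat_lit 171)) (PT.lf (nat_lit 7752) (nat_lit 6) (nat_lit 102) (nat_lit 5) (nat_lit 116) (nat_lit 164)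 (nat_lit 170))) (PT.nd (nat_lit 78) (PT.lf (nat_lit 8132) (nat_lit 6) (nat_lit 107) (nat_lit 5) (nat_lit 117) (nat_lit 164) (nat_lit 169)) (PT.lf (nat_lit 8512) (nat_lit 6) (nat_lit 112) (nat_lit 5) (nat_lit 118) (nat_lit 164) (nat_lit 168))))))) (PT.nd (nat_lit 1170) (PT.nd (nat_lit 546) (PT.nd (nat_lit 234) (PT.nd (nat_lit 78) (PT.lf (nat_lit 8968) (nat_lit 6) (nat_lit 118) (nat_lit 5) (nat_lit 119) (nat_lit 164) (nat_lit 167)) (PT.nd (nat_lit 78) (PT.lf (nat_lit 9348) (nat_lit 6) (nat_lit 123) (nat_lit 5) (nat_lit 120) (nat_lit 164) (nat_lit 166)) (PT.lf (nat_lit 9804) (nat_lit 6) (nat_lit 129) (nat_lit 5) (nat_lit 121) (nat_lit 164) (nat_lit 165)))) (PT.nd (nat_lit 156) (PT.nd (nat_lit 78) (PT.lf (nat_lit 10260) (nat_lit 3) (nat_lit 135) (nat_lit 4) (nat_lit 122) (nat_lit 164) (nat_lit 164)) (PT.lf (nat_lit 10640) (nat_lit 6) (nat_lit 140) (nat_lit 4) (nat_lit 123) (nat_lit 164) (nat_lit 163))) (PT.nd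 (nat_lit 78) (PT.lf (nat_lit 11020) (nat_lit 6) (nat_lit 145) (nat_lit 4) (nat_lit 124) (nat_lit 164) (nat_lit 162)) (PT.lf (nat_lit 11476) (nat_lit 6) (nat_lit 151) (nat_lit 4) (nat_lit 125) (nat_lit 164) (nat_lit 161))))) (PT.nd (nat_lit 312) (PT.nd (nat_lit 156) (PT.nd (nat_lit 78) (PT.lf (nat_lit 11932) (nat_lit 6) (nat_lit 157) (nat_lit 4) (nat_lit 126) (nat_lit 164) (nat_lit 160)) (PT.lf (nat_lit 12388) (nat_lit 6) (nat_lit 163) (nat_lit 4) (nat_lit 127) (nat_lit 164) (nat_lit 159))) (PT.nd (nat_lit 78) (PT.lf (nat_lit 12844) (nat_lit 6) (nat_lit 169) (nat_lit 4) (nat_lit 128) (nat_lit 164) (nat_lit 158)) (PT.lf (nat_lit 13376) (nat_lit 6) (nat_lit 176) (nat_lit 4) (nat_lit 129) (nat_lit 164) (nat_lit 157)))) (PT.nd (nat_lit 156) (PT.nd (nat_lit 78) (PT.lf (nat_lit 13908) (nat_lit 6) (nat_lit 183) (nat_lit 4) (nat_lit 130) (nat_lit 164) (nat_lit 156)) (PT.lf (nat_lit 14516) (nat_lit 6) (nat_lit 191)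 (nat_lit 4) (nat_lit 131) (nat_lit 164) (nat_lit 155))) (PT.nd (nat_lit 78) (PT.lf (nat_lit 15048) (nat_lit 6) (nat_lit 198) (nat_lit 4) (nat_lit 132) (nat_lit 164) (nat_lit 154)) (PT.lf (nat_lit 15656) (nat_lit 6) (nat_lit 206) (nat_lit 4) (nat_lit 133) (nat_lit 164) (nat_lit 153)))))) (PT.nd (nat_lit 624) (PT.nd (nat_lit 312) (PT.nd (nat_lit 156) (PT.nd (nat_lit 78) (PT.lf (nat_lit 16644) (nat_lit 6) (nat_lit 219) (nat_lit 4) (nat_lit 134) (nat_lit 164) (nat_lit 152)) (PT.lf (nat_lit 17784) (nat_lit 6) (nat_lit 234) (nat_lit 4) (nat_lit 135) (nat_lit 164) (nat_lit 151))) (PT.nd (nat_lit 78) (PT.lf (nat_lit 18848) (nat_lit 6) (nat_lit 248) (nat_lit 4) (nat_lit 136) (nat_lit 164) (nat_lit 150)) (PT.lf (nat_lit 18772) (nat_lit 6) (nat_lit 247) (nat_lit 4) (nat_lit 137) (nat_lit 164) (nat_lit 149)))) (PT.nd (nat_lit 156) (PT.nd (nat_lit 78) (PT.lf (nat_lit 18696) (nat_lit 6) (nat_lit 246) (nat_lit 4) (nat_lit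 138) (nat_lit 164) (nat_lit 148)) (PT.lf (nat_lit 18620) (nat_lit 6) (nat_lit 245) (nat_lit 4) (nat_lit 139) (nat_lit 164) (nat_lit 147))) (PT.nd (nat_lit 78) (PT.lf (nat_lit 18544) (nat_lit 6) (nat_lit 244) (nat_lit 4) (nat_lit 140) (nat_lit 164) (nat_lit 146)) (PT.lf (nat_lit 18468) (nat_lit 6) (nat_lit 243) (nat_lit 4) (nat_lit 141) (nat_lit 164) (nat_lit 145))))) (PT.nd (nat_lit 312) (PT.nd (nat_lit 156) (PT.nd (nat_lit 78) (PT.lf (nat_lit 18392) (nat_lit 6) (nat_lit 242) (nat_lit 4) (nat_lit 142) (nat_lit 164) (nat_lit 144)) (PT.lf (nat_lit 18316) (nat_lit 3) (nat_lit 241) (nat_lit 2) (nat_lit 143) (nat_lit 164) (nat_lit 143))) (PT.nd (nat_lit 78) (PT.lf (nat_lit 18392) (nat_lit 6) (nat_lit 242) (nat_lit 2) (nat_lit 144) (nat_lit 164) (nat_lit 142)) (PT.lf (nat_lit 18468) (nat_lit 6) (nat_lit 243) (nat_lit 2) (nat_lit 145) (nat_lit 164) (nat_lit 141)))) (PT.nd (nat_lit 156) (PT.nd (nat_lit 78) (PT.lf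 (nat_lit 18544) (nat_lit 6) (nat_lit 244) (nat_lit 2) (nat_lit 146) (nat_lit 164) (nat_lit 140)) (PT.lf (nat_lit 18620) (nat_lit 6) (nat_lit 245) (nat_lit 2) (nat_lit 147) (nat_lit 164) (nat_lit 139))) (PT.nd (nat_lit 78) (PT.lf (nat_lit 18696) (nat_lit 6) (nat_lit 246) (nat_lit 2) (nat_lit 148) (nat_lit 164) (nat_lit 138)) (PT.lf (nat_lit 18772) (nat_lit 6) (nat_lit 247) (nat_lit 2) (nat_lit 149) (nat_lit 164) (nat_lit 137))))))))
noncomputable def pc23 : PT := (PT.nd (nat_lit 44694) (PT.nd (nat_lit 1170) (PT.nd (nat_lit 546) (PT.nd (nat_lit 234) (PT.nd (nat_lit 78) (PT.lf (nat_lit 18848) (nat_lit 6) (nat_lit 248) (nat_lit 2) (nat_lit 150) (nat_lit 164) (nat_lit 136)) (PT.nd (nat_lit 78) (PT.lf (nat_lit 17784) (nat_lit 6) (nat_lit 234) (nat_lit 2) (nat_lit 151) (nat_lit 164) (nat_lit 135)) (PT.lf (nat_lit 16644) (nat_lit 6) (nat_lit 219) (nat_lit 2) (nat_lit 152) (nat_lit 164) (nat_lit 134)))) (PT.nd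 (nat_lit 156) (PT.nd (nat_lit 78) (PT.lf (nat_lit 15656) (nat_lit 6) (nat_lit 206) (nat_lit 2) (nat_lit 153) (nat_lit 164) (nat_lit 133)) (PT.lf (nat_lit 15048) (nat_lit 6) (nat_lit 198) (nat_lit 2) (nat_lit 154) (nat_lit 164) (nat_lit 132))) (PT.nd (nat_lit 78) (PT.lf (nat_lit 14516) (nat_lit 6) (nat_lit 191) (nat_lit 2) (nat_lit 155) (nat_lit 164) (nat_lit 131)) (PT.lf (nat_lit 13908) (nat_lit 6) (nat_lit 183) (nat_lit 2) (nat_lit 156) (nat_lit 164) (nat_lit 130))))) (PT.nd (nat_lit 312) (PT.nd (nat_lit 156) (PT.nd (nat_lit 78) (PT.lf (nat_lit 13376) (nat_lit 6) (nat_lit 176) (nat_lit 2) (nat_lit 157) (nat_lit 164) (nat_lit 129)) (PT.lf (nat_lit 12844) (nat_lit 6) (nat_lit 169) (nat_lit 2) (nat_lit 158) (nat_lit 164) (nat_lit 128))) (PT.nd (nat_lit 78) (PT.lf (nat_lit 12388) (nat_lit 6) (nat_lit 163) (nat_lit 2) (nat_lit 159) (nat_lit 164) (nat_lit 127)) (PT.lf (nat_lit 11932) (nat_lit 6) (nat_lit 157)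 (nat_lit 2) (nat_lit 160) (nat_lit 164) (nat_lit 126)))) (PT.nd (nat_lit 156) (PT.nd (nat_lit 78) (PT.lf (nat_lit 11476) (nat_lit 6) (nat_lit 151) (nat_lit 2) (nat_lit 161) (nat_lit 164) (nat_lit 125)) (PT.lf (nat_lit 11020) (nat_lit 6) (nat_lit 145) (nat_lit 2) (nat_lit 162) (nat_lit 164) (nat_lit 124))) (PT.nd (nat_lit 78) (PT.lf (nat_lit 10640) (nat_lit 6) (nat_lit 140) (nat_lit 2) (nat_lit 163) (nat_lit 164) (nat_lit 123)) (PT.lf (nat_lit 10260) (nat_lit 3) (nat_lit 135) (nat_lit 0) (nat_lit 164) (nat_lit 164) (nat_lit 122)))))) (PT.nd (nat_lit 42900) (PT.nd (nat_lit 312) (PT.nd (nat_lit 156) (PT.nd (nat_lit 78) (PT.lf (nat_lit 9804) (nat_lit 6) (nat_lit 129) (nat_lit 0) (nat_lit 165) (nat_lit 164) (nat_lit 121)) (PT.lf (nat_lit 9348) (nat_lit 6) (nat_lit 123) (nat_lit 0) (nat_lit 166) (nat_lit 164) (nat_lit 120))) (PT.nd (nat_lit 78) (PT.lf (nat_lit 8968) (nat_lit 6) (nat_lit 118) (nat_lit 0) (nat_lit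 167) (nat_lit 164) (nat_lit 119)) (PT.lf (nat_lit 8512) (nat_lit 6) (nat_lit 112) (nat_lit 0) (nat_lit 168) (nat_lit 164) (nat_lit 118)))) (PT.nd (nat_lit 156) (PT.nd (nat_lit 78) (PT.lf (nat_lit 8132) (nat_lit 6) (nat_lit 107) (nat_lit 0) (nat_lit 169) (nat_lit 164) (nat_lit 117)) (PT.lf (nat_lit 7752) (nat_lit 6) (nat_lit 102) (nat_lit 0) (nat_lit 170) (nat_lit 164) (nat_lit 116))) (PT.nd (nat_lit 42354) (PT.lf (nat_lit 7372) (nat_lit 6) (nat_lit 97) (nat_lit 0) (nat_lit 171) (nat_lit 164) (nat_lit 115)) (PT.lf (nat_lit 6764) (nat_lit 6) (nat_lit 89) (nat_lit 5) (nat_lit 113) (nat_lit 165) (nat_lit 172))))) (PT.nd (nat_lit 312) (PT.nd (nat_lit 156) (PT.nd (nat_lit 78) (PT.lf (nat_lit 7068) (nat_lit 6) (nat_lit 93) (nat_lit 5) (nat_lit 114) (nat_lit 165) (nat_lit 171)) (PT.lf (nat_lit 7448) (nat_lit 6) (nat_lit 98) (nat_lit 5) (nat_lit 115) (nat_lit 165) (nat_lit 170))) (PT.nd (nat_lit 78) (PT.lf (nat_lit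 7828) (nat_lit 6) (nat_lit 103) (nat_lit 5) (nat_lit 116) (nat_lit 165) (nat_lit 169)) (PT.lf (nat_lit 8208) (nat_lit 6) (nat_lit 108) (nat_lit 5) (nat_lit 117) (nat_lit 165) (nat_lit 168)))) (PT.nd (nat_lit 156) (PT.nd (nat_lit 78) (PT.lf (nat_lit 8588) (nat_lit 6) (nat_lit 113) (nat_lit 5) (nat_lit 118) (nat_lit 165) (nat_lit 167)) (PT.lf (nat_lit 9044) (nat_lit 6) (nat_lit 119) (nat_lit 5) (nat_lit 119) (nat_lit 165) (nat_lit 166))) (PT.nd (nat_lit 78) (PT.lf (nat_lit 9424) (nat_lit 3) (nat_lit 124) (nat_lit 4) (nat_lit 120) (nat_lit 165) (nat_lit 165)) (PT.lf (nat_lit 9804) (nat_lit 6) (nat_lit 129) (nat_lit 4) (nat_lit 121) (nat_lit 165) (nat_lit 164))))))) (PT.nd (nat_lit 1170) (PT.nd (nat_lit 546) (PT.nd (nat_lit 234) (PT.nd (nat_lit 78) (PT.lf (nat_lit 10184) (nat_lit 6) (nat_lit 134) (nat_lit 4) (nat_lit 122) (nat_lit 165) (nat_lit 163)) (PT.nd (nat_lit 78) (PT.lf (nat_lit 10564) (nat_lit 6) (nat_lit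 139) (nat_lit 4) (nat_lit 123) (nat_lit 165) (nat_lit 162)) (PT.lf (nat_lit 10944) (nat_lit 6) (nat_lit 144) (nat_lit 4) (nat_lit 124) (nat_lit 165) (nat_lit 161)))) (PT.nd (nat_lit 156) (PT.nd (nat_lit 78) (PT.lf (nat_lit 11400) (nat_lit 6) (nat_lit 150) (nat_lit 4) (nat_lit 125) (nat_lit 165) (nat_lit 160)) (PT.lf (nat_lit 11856) (nat_lit 6) (nat_lit 156) (nat_lit 4) (nat_lit 126) (nat_lit 165) (nat_lit 159))) (PT.nd (nat_lit 78) (PT.lf (nat_lit 12312) (nat_lit 6) (nat_lit 162) (nat_lit 4) (nat_lit 127) (nat_lit 165) (nat_lit 158)) (PT.lf (nat_lit 12768) (nat_lit 6) (nat_lit 168) (nat_lit 4) (nat_lit 128) (nat_lit 165) (nat_lit 157))))) (PT.nd (nat_lit 312) (PT.nd (nat_lit 156) (PT.nd (nat_lit 78) (PT.lf (nat_lit 13300) (nat_lit 6) (nat_lit 175) (nat_lit 4) (nat_lit 129) (nat_lit 165) (nat_lit 156)) (PT.lf (nat_lit 13832) (nat_lit 6) (nat_lit 182) (nat_lit 4) (nat_lit 130) (nat_lit 165) (nat_lit 155)))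 (PT.nd (nat_lit 78) (PT.lf (nat_lit 14440) (nat_lit 6) (nat_lit 190) (nat_lit 4) (nat_lit 131) (nat_lit 165) (nat_lit 154)) (PT.lf (nat_lit 14972) (nat_lit 6) (nat_lit 197) (nat_lit 4) (nat_lit 132) (nat_lit 165) (nat_lit 153)))) (PT.nd (nat_lit 156) (PT.nd (nat_lit 78) (PT.lf (nat_lit 15580) (nat_lit 6) (nat_lit 205) (nat_lit 4) (nat_lit 133) (nat_lit 165) (nat_lit 152)) (PT.lf (nat_lit 16568) (nat_lit 6) (nat_lit 218) (nat_lit 4) (nat_lit 134) (nat_lit 165) (nat_lit 151))) (PT.nd (nat_lit 78) (PT.lf (nat_lit 17708) (nat_lit 6) (nat_lit 233) (nat_lit 4) (nat_lit 135) (nat_lit 165) (nat_lit 150)) (PT.lf (nat_lit 17632) (nat_lit 6) (nat_lit 232) (nat_lit 4) (nat_lit 136) (nat_lit 165) (nat_lit 149)))))) (PT.nd (nat_lit 624) (PT.nd (nat_lit 312) (PT.nd (nat_lit 156) (PT.nd (nat_lit 78) (PT.lf (nat_lit 17556) (nat_lit 6) (nat_lit 231) (nat_lit 4) (nat_lit 137) (nat_lit 165) (nat_lit 148)) (PT.lf (nat_lit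 17480) (nat_lit 6) (nat_lit 230) (nat_lit 4) (nat_lit 138) (nat_lit 165) (nat_lit 147))) (PT.nd (nat_lit 78) (PT.lf (nat_lit 17404) (nat_lit 6) (nat_lit 229) (nat_lit 4) (nat_lit 139) (nat_lit 165) (nat_lit 146)) (PT.lf (nat_lit 17328) (nat_lit 6) (nat_lit 228) (nat_lit 4) (nat_lit 140) (nat_lit 165) (nat_lit 145)))) (PT.nd (nat_lit 156) (PT.nd (nat_lit 78) (PT.lf (nat_lit 17252) (nat_lit 6) (nat_lit 227) (nat_lit 4) (nat_lit 141) (nat_lit 165) (nat_lit 144)) (PT.lf (nat_lit 17176) (nat_lit 6) (nat_lit 226) (nat_lit 4) (nat_lit 142) (nat_lit 165) (nat_lit 143))) (PT.nd (nat_lit 78) (PT.lf (nat_lit 17176) (nat_lit 6) (nat_lit 226) (nat_lit 2) (nat_lit 143) (nat_lit 165) (nat_lit 142)) (PT.lf (nat_lit 17252) (nat_lit 6) (nat_lit 227) (nat_lit 2) (nat_lit 144) (nat_lit 165) (nat_lit 141))))) (PT.nd (nat_lit 312) (PT.nd (nat_lit 156) (PT.nd (nat_lit 78) (PT.lf (nat_lit 17328) (nat_lit 6) (nat_lit 228) (nat_lit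 2) (nat_lit 145) (nat_lit 165) (nat_lit 140)) (PT.lf (nat_lit 17404) (nat_lit 6) (nat_lit 229) (nat_lit 2) (nat_lit 146) (nat_lit 165) (nat_lit 139))) (PT.nd (nat_lit 78) (PT.lf (nat_lit 17480) (nat_lit 6) (nat_lit 230) (nat_lit 2) (nat_lit 147) (nat_lit 165) (nat_lit 138)) (PT.lf (nat_lit 17556) (nat_lit 6) (nat_lit 231) (nat_lit 2) (nat_lit 148) (nat_lit 165) (nat_lit 137)))) (PT.nd (nat_lit 156) (PT.nd (nat_lit 78) (PT.lf (nat_lit 17632) (nat_lit 6) (nat_lit 232) (nat_lit 2) (nat_lit 149) (nat_lit 165) (nat_lit 136)) (PT.lf (nat_lit 17708) (nat_lit 6) (nat_lit 233) (nat_lit 2) (nat_lit 150) (nat_lit 165) (nat_lit 135))) (PT.nd (nat_lit 78) (PT.lf (nat_lit 16568) (nat_lit 6) (nat_lit 218) (nat_lit 2) (nat_lit 151) (nat_lit 165) (nat_lit 134)) (PT.lf (nat_lit 15580) (nat_lit 6) (nat_lit 205) (nat_lit 2) (nat_lit 152) (nat_lit 165) (nat_lit 133))))))))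
noncomputable def pc24 : PT := (PT.nd (nat_lit 44460) (PT.nd (nat_lit 1170) (PT.nd (nat_lit 546) (PT.nd (nat_lit 234) (PT.nd (nat_lit 78) (PT.lf (nat_lit 14972) (nat_lit 6) (nat_lit 197) (nat_lit 2) (nat_lit 153) (nat_lit 165) (nat_lit 132)) (PT.nd (nat_lit 78) (PT.lf (nat_lit 14440) (nat_lit 6) (nat_lit 190) (nat_lit 2) (nat_lit 154) (nat_lit 165) (nat_lit 131)) (PT.lf (nat_lit 13832) (nat_lit 6) (nat_lit 182) (nat_lit 2) (nat_lit 155) (nat_lit 165) (nat_lit 130)))) (PT.nd (nat_lit 156) (PT.nd (nat_lit 78) (PT.lf (nat_lit 13300) (nat_lit 6) (nat_lit 175) (nat_lit 2) (nat_lit 156) (nat_lit 165) (nat_lit 129)) (PT.lf (nat_lit 12768) (nat_lit 6) (nat_lit 168) (nat_lit 2) (nat_lit 157) (nat_lit 165) (nat_lit 128))) (PT.nd (nat_lit 78) (PT.lf (nat_lit 12312) (nat_lit 6) (nat_lit 162) (nat_lit 2) (nat_lit 158) (nat_lit 165) (nat_lit 127)) (PT.lf (nat_lit 11856) (nat_lit 6) (nat_lit 156) (nat_lit 2) (nat_lit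 159) (nat_lit 165) (nat_lit 126))))) (PT.nd (nat_lit 312) (PT.nd (nat_lit 156) (PT.nd (nat_lit 78) (PT.lf (nat_lit 11400) (nat_lit 6) (nat_lit 150) (nat_lit 2) (nat_lit 160) (nat_lit 165) (nat_lit 125)) (PT.lf (nat_lit 10944) (nat_lit 6) (nat_lit 144) (nat_lit 2) (nat_lit 161) (nat_lit 165) (nat_lit 124))) (PT.nd (nat_lit 78) (PT.lf (nat_lit 10564) (nat_lit 6) (nat_lit 139) (nat_lit 2) (nat_lit 162) (nat_lit 165) (nat_lit 123)) (PT.lf (nat_lit 10184) (nat_lit 6) (nat_lit 134) (nat_lit 2) (nat_lit 163) (nat_lit 165) (nat_lit 122)))) (PT.nd (nat_lit 156) (PT.nd (nat_lit 78) (PT.lf (nat_lit 9804) (nat_lit 6) (nat_lit 129) (nat_lit 2) (nat_lit 164) (nat_lit 165) (nat_lit 121)) (PT.lf (nat_lit 9424) (nat_lit 3) (nat_lit 124) (nat_lit 0) (nat_lit 165) (nat_lit 165) (nat_lit 120))) (PT.nd (nat_lit 78) (PT.lf (nat_lit 9044) (nat_lit 6) (nat_lit 119) (nat_lit 0) (nat_lit 166) (nat_lit 165) (nat_lit 119)) (PT.lf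 (nat_lit 8588) (nat_lit 6) (nat_lit 113) (nat_lit 0) (nat_lit 167) (nat_lit 165) (nat_lit 118)))))) (PT.nd (nat_lit 42666) (PT.nd (nat_lit 234) (PT.nd (nat_lit 78) (PT.lf (nat_lit 8208) (nat_lit 6) (nat_lit 108) (nat_lit 0) (nat_lit 168) (nat_lit 165) (nat_lit 117)) (PT.nd (nat_lit 78) (PT.lf (nat_lit 7828) (nat_lit 6) (nat_lit 103) (nat_lit 0) (nat_lit 169) (nat_lit 165) (nat_lit 116)) (PT.lf (nat_lit 7448) (nat_lit 6) (nat_lit 98) (nat_lit 0) (nat_lit 170) (nat_lit 165) (nat_lit 115)))) (PT.nd (nat_lit 42276) (PT.nd (nat_lit 78) (PT.lf (nat_lit 7068) (nat_lit 6) (nat_lit 93) (nat_lit 0) (nat_lit 171) (nat_lit 165) (nat_lit 114)) (PT.lf (nat_lit 6764) (nat_lit 6) (nat_lit 89) (nat_lit 0) (nat_lit 172) (nat_lit 165) (nat_lit 113))) (PT.nd (nat_lit 78) (PT.lf (nat_lit 6460) (nat_lit 6) (nat_lit 85) (nat_lit 5) (nat_lit 112) (nat_lit 166) (nat_lit 172)) (PT.lf (nat_lit 6840) (nat_lit 6) (nat_lit 90) (nat_lit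 5) (nat_lit 113) (nat_lit 166) (nat_lit 171))))) (PT.nd (nat_lit 312) (PT.nd (nat_lit 156) (PT.nd (nat_lit 78) (PT.lf (nat_lit 7144) (nat_lit 6) (nat_lit 94) (nat_lit 5) (nat_lit 114) (nat_lit 166) (nat_lit 170)) (PT.lf (nat_lit 7524) (nat_lit 6) (nat_lit 99) (nat_lit 5) (nat_lit 115) (nat_lit 166) (nat_lit 169))) (PT.nd (nat_lit 78) (PT.lf (nat_lit 7904) (nat_lit 6) (nat_lit 104) (nat_lit 5) (nat_lit 116) (nat_lit 166) (nat_lit 168)) (PT.lf (nat_lit 8284) (nat_lit 6) (nat_lit 109) (nat_lit 5) (nat_lit 117) (nat_lit 166) (nat_lit 167)))) (PT.nd (nat_lit 156) (PT.nd (nat_lit 78) (PT.lf (nat_lit 8664) (nat_lit 3) (nat_lit 114) (nat_lit 4) (nat_lit 118) (nat_lit 166) (nat_lit 166)) (PT.lf (nat_lit 9044) (nat_lit 6) (nat_lit 119) (nat_lit 4) (nat_lit 119) (nat_lit 166) (nat_lit 165))) (PT.nd (nat_lit 78) (PT.lf (nat_lit 9348) (nat_lit 6) (nat_lit 123) (nat_lit 4) (nat_lit 120) (nat_lit 166) (nat_lit 164))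 (PT.lf (nat_lit 9728) (nat_lit 6) (nat_lit 128) (nat_lit 4) (nat_lit 121) (nat_lit 166) (nat_lit 163))))))) (PT.nd (nat_lit 1170) (PT.nd (nat_lit 546) (PT.nd (nat_lit 234) (PT.nd (nat_lit 78) (PT.lf (nat_lit 10108) (nat_lit 6) (nat_lit 133) (nat_lit 4) (nat_lit 122) (nat_lit 166) (nat_lit 162)) (PT.nd (nat_lit 78) (PT.lf (nat_lit 10488) (nat_lit 6) (nat_lit 138) (nat_lit 4) (nat_lit 123) (nat_lit 166) (nat_lit 161)) (PT.lf (nat_lit 10868) (nat_lit 6) (nat_lit 143) (nat_lit 4) (nat_lit 124) (nat_lit 166) (nat_lit 160)))) (PT.nd (nat_lit 156) (PT.nd (nat_lit 78) (PT.lf (nat_lit 11324) (nat_lit 6) (nat_lit 149) (nat_lit 4) (nat_lit 125) (nat_lit 166) (nat_lit 159)) (PT.lf (nat_lit 11780) (nat_lit 6) (nat_lit 155) (nat_lit 4) (nat_lit 126) (nat_lit 166) (nat_lit 158))) (PT.nd (nat_lit 78) (PT.lf (nat_lit 12236) (nat_lit 6) (nat_lit 161) (nat_lit 4) (nat_lit 127) (nat_lit 166) (nat_lit 157)) (PT.lf (nat_lit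 12692) (nat_lit 6) (nat_lit 167) (nat_lit 4) (nat_lit 128) (nat_lit 166) (nat_lit 156))))) (PT.nd (nat_lit 312) (PT.nd (nat_lit 156) (PT.nd (nat_lit 78) (PT.lf (nat_lit 13224) (nat_lit 6) (nat_lit 174) (nat_lit 4) (nat_lit 129) (nat_lit 166) (nat_lit 155)) (PT.lf (nat_lit 13756) (nat_lit 6) (nat_lit 181) (nat_lit 4) (nat_lit 130) (nat_lit 166) (nat_lit 154))) (PT.nd (nat_lit 78) (PT.lf (nat_lit 14364) (nat_lit 6) (nat_lit 189) (nat_lit 4) (nat_lit 131) (nat_lit 166) (nat_lit 153)) (PT.lf (nat_lit 14896) (nat_lit 6) (nat_lit 196) (nat_lit 4) (nat_lit 132) (nat_lit 166) (nat_lit 152)))) (PT.nd (nat_lit 156) (PT.nd (nat_lit 78) (PT.lf (nat_lit 15504) (nat_lit 6) (nat_lit 204) (nat_lit 4) (nat_lit 133) (nat_lit 166) (nat_lit 151)) (PT.lf (nat_lit 16492) (nat_lit 6) (nat_lit 217) (nat_lit 4) (nat_lit 134) (nat_lit 166) (nat_lit 150))) (PT.nd (nat_lit 78) (PT.lf (nat_lit 16416) (nat_lit 6) (nat_lit 216) (nat_lit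 4) (nat_lit 135) (nat_lit 166) (nat_lit 149)) (PT.lf (nat_lit 16340) (nat_lit 6) (nat_lit 215) (nat_lit 4) (nat_lit 136) (nat_lit 166) (nat_lit 148)))))) (PT.nd (nat_lit 1014) (PT.nd (nat_lit 702) (PT.nd (nat_lit 156) (PT.nd (nat_lit 78) (PT.lf (nat_lit 16264) (nat_lit 6) (nat_lit 214) (nat_lit 4) (nat_lit 137) (nat_lit 166) (nat_lit 147)) (PT.lf (nat_lit 16188) (nat_lit 6) (nat_lit 213) (nat_lit 4) (nat_lit 138) (nat_lit 166) (nat_lit 146))) (PT.nd (nat_lit 468) (PT.lf (nat_lit 16112) (nat_lit 6) (nat_lit 212) (nat_lit 4) (nat_lit 139) (nat_lit 166) (nat_lit 145)) (PT.lf (nat_lit 16112) (nat_lit 6) (nat_lit 212) (nat_lit 2) (nat_lit 145) (nat_lit 166) (nat_lit 139)))) (PT.nd (nat_lit 156) (PT.nd (nat_lit 78) (PT.lf (nat_lit 16188) (nat_lit 6) (nat_lit 213) (nat_lit 2) (nat_lit 146) (nat_lit 166) (nat_lit 138)) (PT.lf (nat_lit 16264) (nat_lit 6) (nat_lit 214) (nat_lit 2) (nat_lit 147) (nat_lit 166) (nat_lit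 137))) (PT.nd (nat_lit 78) (PT.lf (nat_lit 16340) (nat_lit 6) (nat_lit 215) (nat_lit 2) (nat_lit 148) (nat_lit 166) (nat_lit 136)) (PT.lf (nat_lit 16416) (nat_lit 6) (nat_lit 216) (nat_lit 2) (nat_lit 149) (nat_lit 166) (nat_lit 135))))) (PT.nd (nat_lit 312) (PT.nd (nat_lit 156) (PT.nd (nat_lit 78) (PT.lf (nat_lit 16492) (nat_lit 6) (nat_lit 217) (nat_lit 2) (nat_lit 150) (nat_lit 166) (nat_lit 134)) (PT.lf (nat_lit 15504) (nat_lit 6) (nat_lit 204) (nat_lit 2) (nat_lit 151) (nat_lit 166) (nat_lit 133))) (PT.nd (nat_lit 78) (PT.lf (nat_lit 14896) (nat_lit 6) (nat_lit 196) (nat_lit 2) (nat_lit 152) (nat_lit 166) (nat_lit 132)) (PT.lf (nat_lit 14364) (nat_lit 6) (nat_lit 189) (nat_lit 2) (nat_lit 153) (nat_lit 166) (nat_lit 131)))) (PT.nd (nat_lit 156) (PT.nd (nat_lit 78) (PT.lf (nat_lit 13756) (nat_lit 6) (nat_lit 181) (nat_lit 2) (nat_lit 154) (nat_lit 166) (nat_lit 130)) (PT.lf (nat_lit 13224) (nat_lit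 6) (nat_lit 174) (nat_lit 2) (nat_lit 155) (nat_lit 166) (nat_lit 129))) (PT.nd (nat_lit 78) (PT.lf (nat_lit 12692) (nat_lit 6) (nat_lit 167) (nat_lit 2) (nat_lit 156) (nat_lit 166) (nat_lit 128)) (PT.lf (nat_lit 12236) (nat_lit 6) (nat_lit 161) (nat_lit 2) (nat_lit 157) (nat_lit 166) (nat_lit 127))))))))
noncomputable def pc25 : PT := (PT.nd (nat_lit 44382) (PT.nd (nat_lit 43134) (PT.nd (nat_lit 546) (PT.nd (nat_lit 234) (PT.nd (nat_lit 78) (PT.lf (nat_lit 11780) (nat_lit 6) (nat_lit 155) (nat_lit 2) (nat_lit 158) (nat_lit 166) (nat_lit 126)) (PT.nd (nat_lit 78) (PT.lf (nat_lit 11324) (nat_lit 6) (nat_lit 149) (nat_lit 2) (nat_lit 159) (nat_lit 166) (nat_lit 125)) (PT.lf (nat_lit 10868) (nat_lit 6) (nat_lit 143) (nat_lit 2) (nat_lit 160) (nat_lit 166) (nat_lit 124)))) (PT.nd (nat_lit 156) (PT.nd (nat_lit 78) (PT.lf (nat_lit 10488) (nat_lit 6) (nat_lit 138) (nat_lit 2) (nat_lit 161) (nat_lit 166) (nat_lit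 123)) (PT.lf (nat_lit 10108) (nat_lit 6) (nat_lit 133) (nat_lit 2) (nat_lit 162) (nat_lit 166) (nat_lit 122))) (PT.nd (nat_lit 78) (PT.lf (nat_lit 9728) (nat_lit 6) (nat_lit 128) (nat_lit 2) (nat_lit 163) (nat_lit 166) (nat_lit 121)) (PT.lf (nat_lit 9348) (nat_lit 6) (nat_lit 123) (nat_lit 2) (nat_lit 164) (nat_lit 166) (nat_lit 120))))) (PT.nd (nat_lit 312) (PT.nd (nat_lit 156) (PT.nd (nat_lit 78) (PT.lf (nat_lit 9044) (nat_lit 6) (nat_lit 119) (nat_lit 2) (nat_lit 165) (nat_lit 166) (nat_lit 119)) (PT.lf (nat_lit 8664) (nat_lit 3) (nat_lit 114) (nat_lit 0) (nat_lit 166) (nat_lit 166) (nat_lit 118))) (PT.nd (nat_lit 78) (PT.lf (nat_lit 8284) (nat_lit 6) (nat_lit 109) (nat_lit 0) (nat_lit 167) (nat_lit 166) (nat_lit 117)) (PT.lf (nat_lit 7904) (nat_lit 6) (nat_lit 104) (nat_lit 0) (nat_lit 168) (nat_lit 166) (nat_lit 116)))) (PT.nd (nat_lit 156) (PT.nd (nat_lit 78) (PT.lf (nat_lit 7524) (nat_lit 6) (nat_lit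 99) (nat_lit 0) (nat_lit 169) (nat_lit 166) (nat_lit 115)) (PT.lf (nat_lit 7144) (nat_lit 6) (nat_lit 94) (nat_lit 0) (nat_lit 170) (nat_lit 166) (nat_lit 114))) (PT.nd (nat_lit 78) (PT.lf (nat_lit 6840) (nat_lit 6) (nat_lit 90) (nat_lit 0) (nat_lit 171) (nat_lit 166) (nat_lit 113)) (PT.lf (nat_lit 6460) (nat_lit 6) (nat_lit 85) (nat_lit 0) (nat_lit 172) (nat_lit 166) (nat_lit 112)))))) (PT.nd (nat_lit 624) (PT.nd (nat_lit 312) (PT.nd (nat_lit 156) (PT.nd (nat_lit 78) (PT.lf (nat_lit 5928) (nat_lit 6) (nat_lit 78) (nat_lit 5) (nat_lit 110) (nat_lit 167) (nat_lit 173)) (PT.lf (nat_lit 6232) (nat_lit 6) (nat_lit 82) (nat_lit 5) (nat_lit 111) (nat_lit 167) (nat_lit 172))) (PT.nd (nat_lit 78) (PT.lf (nat_lit 6536) (nat_lit 6) (nat_lit 86) (nat_lit 5) (nat_lit 112) (nat_lit 167) (nat_lit 171)) (PT.lf (nat_lit 6916) (nat_lit 6) (nat_lit 91) (nat_lit 5) (nat_lit 113) (nat_lit 167) (nat_lit 170)))) (PT.nd (nat_lit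 156) (PT.nd (nat_lit 78) (PT.lf (nat_lit 7220) (nat_lit 6) (nat_lit 95) (nat_lit 5) (nat_lit 114) (nat_lit 167) (nat_lit 169)) (PT.lf (nat_lit 7600) (nat_lit 6) (nat_lit 100) (nat_lit 5) (nat_lit 115) (nat_lit 167) (nat_lit 168))) (PT.nd (nat_lit 78) (PT.lf (nat_lit 7980) (nat_lit 3) (nat_lit 105) (nat_lit 4) (nat_lit 116) (nat_lit 167) (nat_lit 167)) (PT.lf (nat_lit 8284) (nat_lit 6) (nat_lit 109) (nat_lit 4) (nat_lit 117) (nat_lit 167) (nat_lit 166))))) (PT.nd (nat_lit 312) (PT.nd (nat_lit 156) (PT.nd (nat_lit 78) (PT.lf (nat_lit 8588) (nat_lit 6) (nat_lit 113) (nat_lit 4) (nat_lit 118) (nat_lit 167) (nat_lit 165)) (PT.lf (nat_lit 8968) (nat_lit 6) (nat_lit 118) (nat_lit 4) (nat_lit 119) (nat_lit 167) (nat_lit 164))) (PT.nd (nat_lit 78) (PT.lf (nat_lit 9272) (nat_lit 6) (nat_lit 122) (nat_lit 4) (nat_lit 120) (nat_lit 167) (nat_lit 163)) (PT.lf (nat_lit 9652) (nat_lit 6) (nat_lit 127) (nat_lit 4) (nat_lit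 121) (nat_lit 167) (nat_lit 162)))) (PT.nd (nat_lit 156) (PT.nd (nat_lit 78) (PT.lf (nat_lit 10032) (nat_lit 6) (nat_lit 132) (nat_lit 4) (nat_lit 122) (nat_lit 167) (nat_lit 161)) (PT.lf (nat_lit 10412) (nat_lit 6) (nat_lit 137) (nat_lit 4) (nat_lit 123) (nat_lit 167) (nat_lit 160))) (PT.nd (nat_lit 78) (PT.lf (nat_lit 10792) (nat_lit 6) (nat_lit 142) (nat_lit 4) (nat_lit 124) (nat_lit 167) (nat_lit 159)) (PT.lf (nat_lit 11248) (nat_lit 6) (nat_lit 148) (nat_lit 4) (nat_lit 125) (nat_lit 167) (nat_lit 158))))))) (PT.nd (nat_lit 2730) (PT.nd (nat_lit 2106) (PT.nd (nat_lit 234) (PT.nd (nat_lit 78) (PT.lf (nat_lit 11704) (nat_lit 6) (nat_lit 154) (nat_lit 4) (nat_lit 126) (nat_lit 167) (nat_lit 157)) (PT.nd (nat_lit 78) (PT.lf (nat_lit 12160) (nat_lit 6) (nat_lit 160) (nat_lit 4) (nat_lit 127) (nat_lit 167) (nat_lit 156)) (PT.lf (nat_lit 12616) (nat_lit 6) (nat_lit 166) (nat_lit 4) (nat_lit 128) (nat_lit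 167) (nat_lit 155)))) (PT.nd (nat_lit 156) (PT.nd (nat_lit 78) (PT.lf (nat_lit 13148) (nat_lit 6) (nat_lit 173) (nat_lit 4) (nat_lit 129) (nat_lit 167) (nat_lit 154)) (PT.lf (nat_lit 13680) (nat_lit 6) (nat_lit 180) (nat_lit 4) (nat_lit 130) (nat_lit 167) (nat_lit 153))) (PT.nd (nat_lit 1638) (PT.lf (nat_lit 14288) (nat_lit 6) (nat_lit 188) (nat_lit 4) (nat_lit 131) (nat_lit 167) (nat_lit 152)) (PT.lf (nat_lit 14288) (nat_lit 6) (nat_lit 188) (nat_lit 2) (nat_lit 152) (nat_lit 167) (nat_lit 131))))) (PT.nd (nat_lit 312) (PT.nd (nat_lit 156) (PT.nd (nat_lit 78) (PT.lf (nat_lit 13680) (nat_lit 6) (nat_lit 180) (nat_lit 2) (nat_lit 153) (nat_lit 167) (nat_lit 130)) (PT.lf (nat_lit 13148) (nat_lit 6) (nat_lit 173) (nat_lit 2) (nat_lit 154) (nat_lit 167) (nat_lit 129))) (PT.nd (nat_lit 78) (PT.lf (nat_lit 12616) (nat_lit 6) (nat_lit 166) (nat_lit 2) (nat_lit 155) (nat_lit 167) (nat_lit 128)) (PT.lf (nat_lit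 12160) (nat_lit 6) (nat_lit 160) (nat_lit 2) (nat_lit 156) (nat_lit 167) (nat_lit 127)))) (PT.nd (nat_lit 156) (PT.nd (nat_lit 78) (PT.lf (nat_lit 11704) (nat_lit 6) (nat_lit 154) (nat_lit 2) (nat_lit 157) (nat_lit 167) (nat_lit 126)) (PT.lf (nat_lit 11248) (nat_lit 6) (nat_lit 148) (nat_lit 2) (nat_lit 158) (nat_lit 167) (nat_lit 125))) (PT.nd (nat_lit 78) (PT.lf (nat_lit 10792) (nat_lit 6) (nat_lit 142) (nat_lit 2) (nat_lit 159) (nat_lit 167) (nat_lit 124)) (PT.lf (nat_lit 10412) (nat_lit 6) (nat_lit 137) (nat_lit 2) (nat_lit 160) (nat_lit 167) (nat_lit 123)))))) (PT.nd (nat_lit 624) (PT.nd (nat_lit 312) (PT.nd (nat_lit 156) (PT.nd (nat_lit 78) (PT.lf (nat_lit 10032) (nat_lit 6) (nat_lit 132) (nat_lit 2) (nat_lit 161) (nat_lit 167) (nat_lit 122)) (PT.lf (nat_lit 9652) (nat_lit 6) (nat_lit 127) (nat_lit 2) (nat_lit 162) (nat_lit 167) (nat_lit 121))) (PT.nd (nat_lit 78) (PT.lf (nat_lit 9272) (nat_lit 6)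 (nat_lit 122) (nat_lit 2) (nat_lit 163) (nat_lit 167) (nat_lit 120)) (PT.lf (nat_lit 8968) (nat_lit 6) (nat_lit 118) (nat_lit 2) (nat_lit 164) (nat_lit 167) (nat_lit 119)))) (PT.nd (nat_lit 156) (PT.nd (nat_lit 78) (PT.lf (nat_lit 8588) (nat_lit 6) (nat_lit 113) (nat_lit 2) (nat_lit 165) (nat_lit 167) (nat_lit 118)) (PT.lf (nat_lit 8284) (nat_lit 6) (nat_lit 109) (nat_lit 2) (nat_lit 166) (nat_lit 167) (nat_lit 117))) (PT.nd (nat_lit 78) (PT.lf (nat_lit 7980) (nat_lit 3) (nat_lit 105) (nat_lit 0) (nat_lit 167) (nat_lit 167) (nat_lit 116)) (PT.lf (nat_lit 7600) (nat_lit 6) (nat_lit 100) (nat_lit 0) (nat_lit 168) (nat_lit 167) (nat_lit 115))))) (PT.nd (nat_lit 312) (PT.nd (nat_lit 156) (PT.nd (nat_lit 78) (PT.lf (nat_lit 7220) (nat_lit 6) (nat_lit 95) (nat_lit 0) (nat_lit 169) (nat_lit 167) (nat_lit 114)) (PT.lf (nat_lit 6916) (nat_lit 6) (nat_lit 91) (nat_lit 0) (nat_lit 170) (nat_lit 167) (nat_lit 113)))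 (PT.nd (nat_lit 78) (PT.lf (nat_lit 6536) (nat_lit 6) (nat_lit 86) (nat_lit 0) (nat_lit 171) (nat_lit 167) (nat_lit 112)) (PT.lf (nat_lit 6232) (nat_lit 6) (nat_lit 82) (nat_lit 0) (nat_lit 172) (nat_lit 167) (nat_lit 111)))) (PT.nd (nat_lit 41886) (PT.nd (nat_lit 41808) (PT.lf (nat_lit 5928) (nat_lit 6) (nat_lit 78) (nat_lit 0) (nat_lit 173) (nat_lit 167) (nat_lit 110)) (PT.lf (nat_lit 5396) (nat_lit 6) (nat_lit 71) (nat_lit 5) (nat_lit 108) (nat_lit 168) (nat_lit 174))) (PT.nd (nat_lit 78) (PT.lf (nat_lit 5700) (nat_lit 6) (nat_lit 75) (nat_lit 5) (nat_lit 109) (nat_lit 168) (nat_lit 173)) (PT.lf (nat_lit 6004) (nat_lit 6) (nat_lit 79) (nat_lit 5) (nat_lit 110) (nat_lit 168) (nat_lit 172))))))))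
noncomputable def pc26 : PT := (PT.nd (nat_lit 4680) (PT.nd (nat_lit 1170) (PT.nd (nat_lit 546) (PT.nd (nat_lit 234) (PT.nd (nat_lit 78) (PT.lf (nat_lit 6308) (nat_lit 6) (nat_lit 83) (nat_lit 5) (nat_lit 111) (nat_lit 168) (nat_lit 171)) (PT.nd (nat_lit 78) (PT.lf (nat_lit 6612) (nat_lit 6) (nat_lit 87) (nat_lit 5) (nat_lit 112) (nat_lit 168) (nat_lit 170)) (PT.lf (nat_lit 6992) (nat_lit 6) (nat_lit 92) (nat_lit 5) (nat_lit 113) (nat_lit 168) (nat_lit 169)))) (PT.nd (nat_lit 156) (PT.nd (nat_lit 78) (PT.lf (nat_lit 7296) (nat_lit 3) (nat_lit 96) (nat_lit 4) (nat_lit 114) (nat_lit 168) (nat_lit 168)) (PT.lf (nat_lit 7600) (nat_lit 6) (nat_lit 100) (nat_lit 4) (nat_lit 115) (nat_lit 168) (nat_lit 167))) (PT.nd (nat_lit 78) (PT.lf (nat_lit 7904) (nat_lit 6) (nat_lit 104) (nat_lit 4) (nat_lit 116) (nat_lit 168) (nat_lit 166)) (PT.lf (nat_lit 8208) (nat_lit 6) (nat_lit 108) (nat_lit 4) (nat_lit 117) (nat_lit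 168) (nat_lit 165))))) (PT.nd (nat_lit 312) (PT.nd (nat_lit 156) (PT.nd (nat_lit 78) (PT.lf (nat_lit 8512) (nat_lit 6) (nat_lit 112) (nat_lit 4) (nat_lit 118) (nat_lit 168) (nat_lit 164)) (PT.lf (nat_lit 8892) (nat_lit 6) (nat_lit 117) (nat_lit 4) (nat_lit 119) (nat_lit 168) (nat_lit 163))) (PT.nd (nat_lit 78) (PT.lf (nat_lit 9196) (nat_lit 6) (nat_lit 121) (nat_lit 4) (nat_lit 120) (nat_lit 168) (nat_lit 162)) (PT.lf (nat_lit 9576) (nat_lit 6) (nat_lit 126) (nat_lit 4) (nat_lit 121) (nat_lit 168) (nat_lit 161)))) (PT.nd (nat_lit 156) (PT.nd (nat_lit 78) (PT.lf (nat_lit 9956) (nat_lit 6) (nat_lit 131) (nat_lit 4) (nat_lit 122) (nat_lit 168) (nat_lit 160)) (PT.lf (nat_lit 10336) (nat_lit 6) (nat_lit 136) (nat_lit 4) (nat_lit 123) (nat_lit 168) (nat_lit 159))) (PT.nd (nat_lit 78) (PT.lf (nat_lit 10716) (nat_lit 6) (nat_lit 141) (nat_lit 4) (nat_lit 124) (nat_lit 168) (nat_lit 158)) (PT.lf (nat_lit 11172)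 (nat_lit 6) (nat_lit 147) (nat_lit 4) (nat_lit 125) (nat_lit 168) (nat_lit 157)))))) (PT.nd (nat_lit 2886) (PT.nd (nat_lit 2574) (PT.nd (nat_lit 2418) (PT.nd (nat_lit 2340) (PT.lf (nat_lit 11628) (nat_lit 6) (nat_lit 153) (nat_lit 4) (nat_lit 126) (nat_lit 168) (nat_lit 156)) (PT.lf (nat_lit 11628) (nat_lit 6) (nat_lit 153) (nat_lit 2) (nat_lit 156) (nat_lit 168) (nat_lit 126))) (PT.nd (nat_lit 78) (PT.lf (nat_lit 11172) (nat_lit 6) (nat_lit 147) (nat_lit 2) (nat_lit 157) (nat_lit 168) (nat_lit 125)) (PT.lf (nat_lit 10716) (nat_lit 6) (nat_lit 141) (nat_lit 2) (nat_lit 158) (nat_lit 168) (nat_lit 124)))) (PT.nd (nat_lit 156) (PT.nd (nat_lit 78) (PT.lf (nat_lit 10336) (nat_lit 6) (nat_lit 136) (nat_lit 2) (nat_lit 159) (nat_lit 168) (nat_lit 123)) (PT.lf (nat_lit 9956) (nat_lit 6) (nat_lit 131) (nat_lit 2) (nat_lit 160) (nat_lit 168) (nat_lit 122))) (PT.nd (nat_lit 78) (PT.lf (nat_lit 9576) (nat_lit 6)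 (nat_lit 126) (nat_lit 2) (nat_lit 161) (nat_lit 168) (nat_lit 121)) (PT.lf (nat_lit 9196) (nat_lit 6) (nat_lit 121) (nat_lit 2) (nat_lit 162) (nat_lit 168) (nat_lit 120))))) (PT.nd (nat_lit 312) (PT.nd (nat_lit 156) (PT.nd (nat_lit 78) (PT.lf (nat_lit 8892) (nat_lit 6) (nat_lit 117) (nat_lit 2) (nat_lit 163) (nat_lit 168) (nat_lit 119)) (PT.lf (nat_lit 8512) (nat_lit 6) (nat_lit 112) (nat_lit 2) (nat_lit 164) (nat_lit 168) (nat_lit 118))) (PT.nd (nat_lit 78) (PT.lf (nat_lit 8208) (nat_lit 6) (nat_lit 108) (nat_lit 2) (nat_lit 165) (nat_lit 168) (nat_lit 117)) (PT.lf (nat_lit 7904) (nat_lit 6) (nat_lit 104) (nat_lit 2) (nat_lit 166) (nat_lit 168) (nat_lit 116)))) (PT.nd (nat_lit 156) (PT.nd (nat_lit 78) (PT.lf (nat_lit 7600) (nat_lit 6) (nat_lit 100) (nat_lit 2) (nat_lit 167) (nat_lit 168) (nat_lit 115)) (PT.lf (nat_lit 7296) (nat_lit 3) (nat_lit 96) (nat_lit 0) (nat_lit 168) (nat_lit 168) (nat_lit 114)))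 (PT.nd (nat_lit 78) (PT.lf (nat_lit 6992) (nat_lit 6) (nat_lit 92) (nat_lit 0) (nat_lit 169) (nat_lit 168) (nat_lit 113)) (PT.lf (nat_lit 6612) (nat_lit 6) (nat_lit 87) (nat_lit 0) (nat_lit 170) (nat_lit 168) (nat_lit 112))))))) (PT.nd (nat_lit 42744) (PT.nd (nat_lit 42120) (PT.nd (nat_lit 234) (PT.nd (nat_lit 78) (PT.lf (nat_lit 6308) (nat_lit 6) (nat_lit 83) (nat_lit 0) (nat_lit 171) (nat_lit 168) (nat_lit 111)) (PT.nd (nat_lit 78) (PT.lf (nat_lit 6004) (nat_lit 6) (nat_lit 79) (nat_lit 0) (nat_lit 172) (nat_lit 168) (nat_lit 110)) (PT.lf (nat_lit 5700) (nat_lit 6) (nat_lit 75) (nat_lit 0) (nat_lit 173) (nat_lit 168) (nat_lit 109)))) (PT.nd (nat_lit 41730) (PT.nd (nat_lit 41652) (PT.lf (nat_lit 5396) (nat_lit 6) (nat_lit 71) (nat_lit 0) (nat_lit 174) (nat_lit 168) (nat_lit 108)) (PT.lf (nat_lit 5168) (nat_lit 6) (nat_lit 68) (nat_lit 5) (nat_lit 107) (nat_lit 169) (nat_lit 174))) (PT.nd (nat_lit 78)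 (PT.lf (nat_lit 5472) (nat_lit 6) (nat_lit 72) (nat_lit 5) (nat_lit 108) (nat_lit 169) (nat_lit 173)) (PT.lf (nat_lit 5776) (nat_lit 6) (nat_lit 76) (nat_lit 5) (nat_lit 109) (nat_lit 169) (nat_lit 172))))) (PT.nd (nat_lit 312) (PT.nd (nat_lit 156) (PT.nd (nat_lit 78) (PT.lf (nat_lit 6080) (nat_lit 6) (nat_lit 80) (nat_lit 5) (nat_lit 110) (nat_lit 169) (nat_lit 171)) (PT.lf (nat_lit 6384) (nat_lit 6) (nat_lit 84) (nat_lit 5) (nat_lit 111) (nat_lit 169) (nat_lit 170))) (PT.nd (nat_lit 78) (PT.lf (nat_lit 6688) (nat_lit 3) (nat_lit 88) (nat_lit 4) (nat_lit 112) (nat_lit 169) (nat_lit 169)) (PT.lf (nat_lit 6992) (nat_lit 6) (nat_lit 92) (nat_lit 4) (nat_lit 113) (nat_lit 169) (nat_lit 168)))) (PT.nd (nat_lit 156) (PT.nd (nat_lit 78) (PT.lf (nat_lit 7220) (nat_lit 6) (nat_lit 95) (nat_lit 4) (nat_lit 114) (nat_lit 169) (nat_lit 167)) (PT.lf (nat_lit 7524) (nat_lit 6) (nat_lit 99) (nat_lit 4) (nat_lit 115)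 (nat_lit 169) (nat_lit 166))) (PT.nd (nat_lit 78) (PT.lf (nat_lit 7828) (nat_lit 6) (nat_lit 103) (nat_lit 4) (nat_lit 116) (nat_lit 169) (nat_lit 165)) (PT.lf (nat_lit 8132) (nat_lit 6) (nat_lit 107) (nat_lit 4) (nat_lit 117) (nat_lit 169) (nat_lit 164)))))) (PT.nd (nat_lit 3432) (PT.nd (nat_lit 312) (PT.nd (nat_lit 156) (PT.nd (nat_lit 78) (PT.lf (nat_lit 8436) (nat_lit 6) (nat_lit 111) (nat_lit 4) (nat_lit 118) (nat_lit 169) (nat_lit 163)) (PT.lf (nat_lit 8816) (nat_lit 6) (nat_lit 116) (nat_lit 4) (nat_lit 119) (nat_lit 169) (nat_lit 162))) (PT.nd (nat_lit 78) (PT.lf (nat_lit 9120) (nat_lit 6) (nat_lit 120) (nat_lit 4) (nat_lit 120) (nat_lit 169) (nat_lit 161)) (PT.lf (nat_lit 9500) (nat_lit 6) (nat_lit 125) (nat_lit 4) (nat_lit 121) (nat_lit 169) (nat_lit 160)))) (PT.nd (nat_lit 2964) (PT.nd (nat_lit 2886) (PT.lf (nat_lit 9880) (nat_lit 6) (nat_lit 130) (nat_lit 4) (nat_lit 122) (nat_lit 169) (nat_lit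 159)) (PT.lf (nat_lit 9880) (nat_lit 6) (nat_lit 130) (nat_lit 2) (nat_lit 159) (nat_lit 169) (nat_lit 122))) (PT.nd (nat_lit 78) (PT.lf (nat_lit 9500) (nat_lit 6) (nat_lit 125) (nat_lit 2) (nat_lit 160) (nat_lit 169) (nat_lit 121)) (PT.lf (nat_lit 9120) (nat_lit 6) (nat_lit 120) (nat_lit 2) (nat_lit 161) (nat_lit 169) (nat_lit 120))))) (PT.nd (nat_lit 312) (PT.nd (nat_lit 156) (PT.nd (nat_lit 78) (PT.lf (nat_lit 8816) (nat_lit 6) (nat_lit 116) (nat_lit 2) (nat_lit 162) (nat_lit 169) (nat_lit 119)) (PT.lf (nat_lit 8436) (nat_lit 6) (nat_lit 111) (nat_lit 2) (nat_lit 163) (nat_lit 169) (nat_lit 118))) (PT.nd (nat_lit 78) (PT.lf (nat_lit 8132) (nat_lit 6) (nat_lit 107) (nat_lit 2) (nat_lit 164) (nat_lit 169) (nat_lit 117)) (PT.lf (nat_lit 7828) (nat_lit 6) (nat_lit 103) (nat_lit 2) (nat_lit 165) (nat_lit 169) (nat_lit 116)))) (PT.nd (nat_lit 156) (PT.nd (nat_lit 78) (PT.lf (nat_lit 7524) (nat_lit 6) (nat_lit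 99) (nat_lit 2) (nat_lit 166) (nat_lit 169) (nat_lit 115)) (PT.lf (nat_lit 7220) (nat_lit 6) (nat_lit 95) (nat_lit 2) (nat_lit 167) (nat_lit 169) (nat_lit 114))) (PT.nd (nat_lit 78) (PT.lf (nat_lit 6992) (nat_lit 6) (nat_lit 92) (nat_lit 2) (nat_lit 168) (nat_lit 169) (nat_lit 113)) (PT.lf (nat_lit 6688) (nat_lit 3) (nat_lit 88) (nat_lit 0) (nat_lit 169) (nat_lit 169) (nat_lit 112))))))))
noncomputable def pc27 : PT := (PT.nd (nat_lit 47034) (PT.nd (nat_lit 42588) (PT.nd (nat_lit 41964) (PT.nd (nat_lit 234) (PT.nd (nat_lit 78) (PT.lf (nat_lit 6384) (nat_lit 6) (nat_lit 84) (nat_lit 0) (nat_lit 170) (nat_lit 169) (nat_lit 111)) (PT.nd (nat_lit 78) (PT.lf (nat_lit 6080) (nat_lit 6) (nat_lit 80) (nat_lit 0) (nat_lit 171) (nat_lit 169) (nat_lit 110)) (PT.lf (nat_lit 5776) (nat_lit 6) (nat_lit 76) (nat_lit 0) (nat_lit 172) (nat_lit 169) (nat_lit 109)))) (PT.nd (nat_lit 41574) (PT.nd (nat_lit 78) (PT.lf (nat_lit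 5472) (nat_lit 6) (nat_lit 72) (nat_lit 0) (nat_lit 173) (nat_lit 169) (nat_lit 108)) (PT.lf (nat_lit 5168) (nat_lit 6) (nat_lit 68) (nat_lit 0) (nat_lit 174) (nat_lit 169) (nat_lit 107))) (PT.nd (nat_lit 78) (PT.lf (nat_lit 4712) (nat_lit 6) (nat_lit 62) (nat_lit 5) (nat_lit 105) (nat_lit 170) (nat_lit 175)) (PT.lf (nat_lit 4940) (nat_lit 6) (nat_lit 65) (nat_lit 5) (nat_lit 106) (nat_lit 170) (nat_lit 174))))) (PT.nd (nat_lit 312) (PT.nd (nat_lit 156) (PT.nd (nat_lit 78) (PT.lf (nat_lit 5244) (nat_lit 6) (nat_lit 69) (nat_lit 5) (nat_lit 107) (nat_lit 170) (nat_lit 173)) (PT.lf (nat_lit 5548) (nat_lit 6) (nat_lit 73) (nat_lit 5) (nat_lit 108) (nat_lit 170) (nat_lit 172))) (PT.nd (nat_lit 78) (PT.lf (nat_lit 5852) (nat_lit 6) (nat_lit 77) (nat_lit 5) (nat_lit 109) (nat_lit 170) (nat_lit 171)) (PT.lf (nat_lit 6156) (nat_lit 3) (nat_lit 81) (nat_lit 4) (nat_lit 110) (nat_lit 170) (nat_lit 170)))) (PT.nd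 (nat_lit 156) (PT.nd (nat_lit 78) (PT.lf (nat_lit 6384) (nat_lit 6) (nat_lit 84) (nat_lit 4) (nat_lit 111) (nat_lit 170) (nat_lit 169)) (PT.lf (nat_lit 6612) (nat_lit 6) (nat_lit 87) (nat_lit 4) (nat_lit 112) (nat_lit 170) (nat_lit 168))) (PT.nd (nat_lit 78) (PT.lf (nat_lit 6916) (nat_lit 6) (nat_lit 91) (nat_lit 4) (nat_lit 113) (nat_lit 170) (nat_lit 167)) (PT.lf (nat_lit 7144) (nat_lit 6) (nat_lit 94) (nat_lit 4) (nat_lit 114) (nat_lit 170) (nat_lit 166)))))) (PT.nd (nat_lit 3822) (PT.nd (nat_lit 312) (PT.nd (nat_lit 156) (PT.nd (nat_lit 78) (PT.lf (nat_lit 7448) (nat_lit 6) (nat_lit 98) (nat_lit 4) (nat_lit 115) (nat_lit 170) (nat_lit 165)) (PT.lf (nat_lit 7752) (nat_lit 6) (nat_lit 102) (nat_lit 4) (nat_lit 116) (nat_lit 170) (nat_lit 164))) (PT.nd (nat_lit 78) (PT.lf (nat_lit 8056) (nat_lit 6) (nat_lit 106) (nat_lit 4) (nat_lit 117) (nat_lit 170) (nat_lit 163)) (PT.lf (nat_lit 8360) (nat_lit 6) (nat_lit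 110) (nat_lit 4) (nat_lit 118) (nat_lit 170) (nat_lit 162)))) (PT.nd (nat_lit 3354) (PT.nd (nat_lit 3276) (PT.lf (nat_lit 8740) (nat_lit 6) (nat_lit 115) (nat_lit 4) (nat_lit 119) (nat_lit 170) (nat_lit 161)) (PT.lf (nat_lit 8740) (nat_lit 6) (nat_lit 115) (nat_lit 2) (nat_lit 161) (nat_lit 170) (nat_lit 119))) (PT.nd (nat_lit 78) (PT.lf (nat_lit 8360) (nat_lit 6) (nat_lit 110) (nat_lit 2) (nat_lit 162) (nat_lit 170) (nat_lit 118)) (PT.lf (nat_lit 8056) (nat_lit 6) (nat_lit 106) (nat_lit 2) (nat_lit 163) (nat_lit 170) (nat_lit 117))))) (PT.nd (nat_lit 312) (PT.nd (nat_lit 156) (PT.nd (nat_lit 78) (PT.lf (nat_lit 7752) (nat_lit 6) (nat_lit 102) (nat_lit 2) (nat_lit 164) (nat_lit 170) (nat_lit 116)) (PT.lf (nat_lit 7448) (nat_lit 6) (nat_lit 98) (nat_lit 2) (nat_lit 165) (nat_lit 170) (nat_lit 115))) (PT.nd (nat_lit 78) (PT.lf (nat_lit 7144) (nat_lit 6) (nat_lit 94) (nat_lit 2) (nat_lit 166) (nat_lit 170)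 (nat_lit 114)) (PT.lf (nat_lit 6916) (nat_lit 6) (nat_lit 91) (nat_lit 2) (nat_lit 167) (nat_lit 170) (nat_lit 113)))) (PT.nd (nat_lit 156) (PT.nd (nat_lit 78) (PT.lf (nat_lit 6612) (nat_lit 6) (nat_lit 87) (nat_lit 2) (nat_lit 168) (nat_lit 170) (nat_lit 112)) (PT.lf (nat_lit 6384) (nat_lit 6) (nat_lit 84) (nat_lit 2) (nat_lit 169) (nat_lit 170) (nat_lit 111))) (PT.nd (nat_lit 78) (PT.lf (nat_lit 6156) (nat_lit 3) (nat_lit 81) (nat_lit 0) (nat_lit 170) (nat_lit 170) (nat_lit 110)) (PT.lf (nat_lit 5852) (nat_lit 6) (nat_lit 77) (nat_lit 0) (nat_lit 171) (nat_lit 170) (nat_lit 109))))))) (PT.nd (nat_lit 42432) (PT.nd (nat_lit 41808) (PT.nd (nat_lit 234) (PT.nd (nat_lit 78) (PT.lf (nat_lit 5548) (nat_lit 6) (nat_lit 73) (nat_lit 0) (nat_lit 172) (nat_lit 170) (nat_lit 108)) (PT.nd (nat_lit 78) (PT.lf (nat_lit 5244) (nat_lit 6) (nat_lit 69) (nat_lit 0) (nat_lit 173) (nat_lit 170) (nat_lit 107)) (PT.lf (nat_lit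 4940) (nat_lit 6) (nat_lit 65) (nat_lit 0) (nat_lit 174) (nat_lit 170) (nat_lit 106)))) (PT.nd (nat_lit 41418) (PT.nd (nat_lit 41340) (PT.lf (nat_lit 4712) (nat_lit 6) (nat_lit 62) (nat_lit 0) (nat_lit 175) (nat_lit 170) (nat_lit 105)) (PT.lf (nat_lit 4484) (nat_lit 6) (nat_lit 59) (nat_lit 5) (nat_lit 104) (nat_lit 171) (nat_lit 175))) (PT.nd (nat_lit 78) (PT.lf (nat_lit 4788) (nat_lit 6) (nat_lit 63) (nat_lit 5) (nat_lit 105) (nat_lit 171) (nat_lit 174)) (PT.lf (nat_lit 5016) (nat_lit 6) (nat_lit 66) (nat_lit 5) (nat_lit 106) (nat_lit 171) (nat_lit 173))))) (PT.nd (nat_lit 312) (PT.nd (nat_lit 156) (PT.nd (nat_lit 78) (PT.lf (nat_lit 5320) (nat_lit 6) (nat_lit 70) (nat_lit 5) (nat_lit 107) (nat_lit 171) (nat_lit 172)) (PT.lf (nat_lit 5624) (nat_lit 3) (nat_lit 74) (nat_lit 4) (nat_lit 108) (nat_lit 171) (nat_lit 171))) (PT.nd (nat_lit 78) (PT.lf (nat_lit 5852) (nat_lit 6) (nat_lit 77) (nat_lit 4) (nat_lit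 109) (nat_lit 171) (nat_lit 170)) (PT.lf (nat_lit 6080) (nat_lit 6) (nat_lit 80) (nat_lit 4) (nat_lit 110) (nat_lit 171) (nat_lit 169)))) (PT.nd (nat_lit 156) (PT.nd (nat_lit 78) (PT.lf (nat_lit 6308) (nat_lit 6) (nat_lit 83) (nat_lit 4) (nat_lit 111) (nat_lit 171) (nat_lit 168)) (PT.lf (nat_lit 6536) (nat_lit 6) (nat_lit 86) (nat_lit 4) (nat_lit 112) (nat_lit 171) (nat_lit 167))) (PT.nd (nat_lit 78) (PT.lf (nat_lit 6840) (nat_lit 6) (nat_lit 90) (nat_lit 4) (nat_lit 113) (nat_lit 171) (nat_lit 166)) (PT.lf (nat_lit 7068) (nat_lit 6) (nat_lit 93) (nat_lit 4) (nat_lit 114) (nat_lit 171) (nat_lit 165)))))) (PT.nd (nat_lit 4212) (PT.nd (nat_lit 3900) (PT.nd (nat_lit 3744) (PT.nd (nat_lit 78) (PT.lf (nat_lit 7372) (nat_lit 6) (nat_lit 97) (nat_lit 4) (nat_lit 115) (nat_lit 171) (nat_lit 164)) (PT.lf (nat_lit 7676) (nat_lit 6) (nat_lit 101) (nat_lit 4) (nat_lit 116) (nat_lit 171) (nat_lit 163))) (PT.nd (nat_lit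 78) (PT.lf (nat_lit 7676) (nat_lit 6) (nat_lit 101) (nat_lit 2) (nat_lit 163) (nat_lit 171) (nat_lit 116)) (PT.lf (nat_lit 7372) (nat_lit 6) (nat_lit 97) (nat_lit 2) (nat_lit 164) (nat_lit 171) (nat_lit 115)))) (PT.nd (nat_lit 156) (PT.nd (nat_lit 78) (PT.lf (nat_lit 7068) (nat_lit 6) (nat_lit 93) (nat_lit 2) (nat_lit 165) (nat_lit 171) (nat_lit 114)) (PT.lf (nat_lit 6840) (nat_lit 6) (nat_lit 90) (nat_lit 2) (nat_lit 166) (nat_lit 171) (nat_lit 113))) (PT.nd (nat_lit 78) (PT.lf (nat_lit 6536) (nat_lit 6) (nat_lit 86) (nat_lit 2) (nat_lit 167) (nat_lit 171) (nat_lit 112)) (PT.lf (nat_lit 6308) (nat_lit 6) (nat_lit 83) (nat_lit 2) (nat_lit 168) (nat_lit 171) (nat_lit 111))))) (PT.nd (nat_lit 312) (PT.nd (nat_lit 156) (PT.nd (nat_lit 78) (PT.lf (nat_lit 6080) (nat_lit 6) (nat_lit 80) (nat_lit 2) (nat_lit 169) (nat_lit 171) (nat_lit 110)) (PT.lf (nat_lit 5852) (nat_lit 6) (nat_lit 77) (nat_lit 2) (nat_lit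 170) (nat_lit 171) (nat_lit 109))) (PT.nd (nat_lit 78) (PT.lf (nat_lit 5624) (nat_lit 3) (nat_lit 74) (nat_lit 0) (nat_lit 171) (nat_lit 171) (nat_lit 108)) (PT.lf (nat_lit 5320) (nat_lit 6) (nat_lit 70) (nat_lit 0) (nat_lit 172) (nat_lit 171) (nat_lit 107)))) (PT.nd (nat_lit 156) (PT.nd (nat_lit 78) (PT.lf (nat_lit 5016) (nat_lit 6) (nat_lit 66) (nat_lit 0) (nat_lit 173) (nat_lit 171) (nat_lit 106)) (PT.lf (nat_lit 4788) (nat_lit 6) (nat_lit 63) (nat_lit 0) (nat_lit 174) (nat_lit 171) (nat_lit 105))) (PT.nd (nat_lit 41184) (PT.lf (nat_lit 4484) (nat_lit 6) (nat_lit 59) (nat_lit 0) (nat_lit 175) (nat_lit 171) (nat_lit 104)) (PT.lf (nat_lit 4104) (nat_lit 6) (nat_lit 54) (nat_lit 5) (nat_lit 102) (nat_lit 172) (nat_lit 176))))))))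
noncomputable def pc28 : PT := (PT.nd (nat_lit 47190) (PT.nd (nat_lit 5148) (PT.nd (nat_lit 546) (PT.nd (nat_lit 234) (PT.nd (nat_lit 78) (PT.lf (nat_lit 4332) (nat_lit 6) (nat_lit 57) (nat_lit 5) (nat_lit 103) (nat_lit 172) (nat_lit 175)) (PT.nd (nat_lit 78) (PT.lf (nat_lit 4560) (nat_lit 6) (nat_lit 60) (nat_lit 5) (nat_lit 104) (nat_lit 172) (nat_lit 174)) (PT.lf (nat_lit 4864) (nat_lit 6) (nat_lit 64) (nat_lit 5) (nat_lit 105) (nat_lit 172) (nat_lit 173)))) (PT.nd (nat_lit 156) (PT.nd (nat_lit 78) (PT.lf (nat_lit 5092) (nat_lit 3) (nat_lit 67) (nat_lit 4) (nat_lit 106) (nat_lit 172) (nat_lit 172)) (PT.lf (nat_lit 5320) (nat_lit 6) (nat_lit 70) (nat_lit 4) (nat_lit 107) (nat_lit 172) (nat_lit 171))) (PT.nd (nat_lit 78) (PT.lf (nat_lit 5548) (nat_lit 6) (nat_lit 73) (nat_lit 4) (nat_lit 108) (nat_lit 172) (nat_lit 170)) (PT.lf (nat_lit 5776) (nat_lit 6) (nat_lit 76) (nat_lit 4) (nat_lit 109) (nat_lit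 172) (nat_lit 169))))) (PT.nd (nat_lit 4290) (PT.nd (nat_lit 156) (PT.nd (nat_lit 78) (PT.lf (nat_lit 6004) (nat_lit 6) (nat_lit 79) (nat_lit 4) (nat_lit 110) (nat_lit 172) (nat_lit 168)) (PT.lf (nat_lit 6232) (nat_lit 6) (nat_lit 82) (nat_lit 4) (nat_lit 111) (nat_lit 172) (nat_lit 167))) (PT.nd (nat_lit 78) (PT.lf (nat_lit 6460) (nat_lit 6) (nat_lit 85) (nat_lit 4) (nat_lit 112) (nat_lit 172) (nat_lit 166)) (PT.lf (nat_lit 6764) (nat_lit 6) (nat_lit 89) (nat_lit 4) (nat_lit 113) (nat_lit 172) (nat_lit 165)))) (PT.nd (nat_lit 156) (PT.nd (nat_lit 78) (PT.lf (nat_lit 6764) (nat_lit 6) (nat_lit 89) (nat_lit 2) (nat_lit 165) (nat_lit 172) (nat_lit 113)) (PT.lf (nat_lit 6460) (nat_lit 6) (nat_lit 85) (nat_lit 2) (nat_lit 166) (nat_lit 172) (nat_lit 112))) (PT.nd (nat_lit 78) (PT.lf (nat_lit 6232) (nat_lit 6) (nat_lit 82) (nat_lit 2) (nat_lit 167) (nat_lit 172) (nat_lit 111)) (PT.lf (nat_lit 6004) (nat_lit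 6) (nat_lit 79) (nat_lit 2) (nat_lit 168) (nat_lit 172) (nat_lit 110)))))) (PT.nd (nat_lit 546) (PT.nd (nat_lit 234) (PT.nd (nat_lit 78) (PT.lf (nat_lit 5776) (nat_lit 6) (nat_lit 76) (nat_lit 2) (nat_lit 169) (nat_lit 172) (nat_lit 109)) (PT.nd (nat_lit 78) (PT.lf (nat_lit 5548) (nat_lit 6) (nat_lit 73) (nat_lit 2) (nat_lit 170) (nat_lit 172) (nat_lit 108)) (PT.lf (nat_lit 5320) (nat_lit 6) (nat_lit 70) (nat_lit 2) (nat_lit 171) (nat_lit 172) (nat_lit 107)))) (PT.nd (nat_lit 156) (PT.nd (nat_lit 78) (PT.lf (nat_lit 5092) (nat_lit 3) (nat_lit 67) (nat_lit 0) (nat_lit 172) (nat_lit 172) (nat_lit 106)) (PT.lf (nat_lit 4864) (nat_lit 6) (nat_lit 64) (nat_lit 0) (nat_lit 173) (nat_lit 172) (nat_lit 105))) (PT.nd (nat_lit 78) (PT.lf (nat_lit 4560) (nat_lit 6) (nat_lit 60) (nat_lit 0) (nat_lit 174) (nat_lit 172) (nat_lit 104)) (PT.lf (nat_lit 4332) (nat_lit 6) (nat_lit 57) (nat_lit 0) (nat_lit 175) (nat_lit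 172) (nat_lit 103))))) (PT.nd (nat_lit 41184) (PT.nd (nat_lit 41028) (PT.nd (nat_lit 40950) (PT.lf (nat_lit 4104) (nat_lit 6) (nat_lit 54) (nat_lit 0) (nat_lit 176) (nat_lit 172) (nat_lit 102)) (PT.lf (nat_lit 3724) (nat_lit 6) (nat_lit 49) (nat_lit 5) (nat_lit 100) (nat_lit 173) (nat_lit 177))) (PT.nd (nat_lit 78) (PT.lf (nat_lit 3952) (nat_lit 6) (nat_lit 52) (nat_lit 5) (nat_lit 101) (nat_lit 173) (nat_lit 176)) (PT.lf (nat_lit 4180) (nat_lit 6) (nat_lit 55) (nat_lit 5) (nat_lit 102) (nat_lit 173) (nat_lit 175)))) (PT.nd (nat_lit 156) (PT.nd (nat_lit 78) (PT.lf (nat_lit 4408) (nat_lit 6) (nat_lit 58) (nat_lit 5) (nat_lit 103) (nat_lit 173) (nat_lit 174)) (PT.lf (nat_lit 4636) (nat_lit 3) (nat_lit 61) (nat_lit 4) (nat_lit 104) (nat_lit 173) (nat_lit 173))) (PT.nd (nat_lit 78) (PT.lf (nat_lit 4864) (nat_lit 6) (nat_lit 64) (nat_lit 4) (nat_lit 105) (nat_lit 173) (nat_lit 172)) (PT.lf (nat_lit 5016) (nat_lit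 6) (nat_lit 66) (nat_lit 4) (nat_lit 106) (nat_lit 173) (nat_lit 171))))))) (PT.nd (nat_lit 46176) (PT.nd (nat_lit 4914) (PT.nd (nat_lit 234) (PT.nd (nat_lit 78) (PT.lf (nat_lit 5244) (nat_lit 6) (nat_lit 69) (nat_lit 4) (nat_lit 107) (nat_lit 173) (nat_lit 170)) (PT.nd (nat_lit 78) (PT.lf (nat_lit 5472) (nat_lit 6) (nat_lit 72) (nat_lit 4) (nat_lit 108) (nat_lit 173) (nat_lit 169)) (PT.lf (nat_lit 5700) (nat_lit 6) (nat_lit 75) (nat_lit 4) (nat_lit 109) (nat_lit 173) (nat_lit 168)))) (PT.nd (nat_lit 4524) (PT.nd (nat_lit 4446) (PT.lf (nat_lit 5928) (nat_lit 6) (nat_lit 78) (nat_lit 4) (nat_lit 110) (nat_lit 173) (nat_lit 167)) (PT.lf (nat_lit 5928) (nat_lit 6) (nat_lit 78) (nat_lit 2) (nat_lit 167) (nat_lit 173) (nat_lit 110))) (PT.nd (nat_lit 78) (PT.lf (nat_lit 5700) (nat_lit 6) (nat_lit 75) (nat_lit 2) (nat_lit 168) (nat_lit 173) (nat_lit 109)) (PT.lf (nat_lit 5472) (nat_lit 6) (nat_lit 72) (nat_lit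 2) (nat_lit 169) (nat_lit 173) (nat_lit 108))))) (PT.nd (nat_lit 312) (PT.nd (nat_lit 156) (PT.nd (nat_lit 78) (PT.lf (nat_lit 5244) (nat_lit 6) (nat_lit 69) (nat_lit 2) (nat_lit 170) (nat_lit 173) (nat_lit 107)) (PT.lf (nat_lit 5016) (nat_lit 6) (nat_lit 66) (nat_lit 2) (nat_lit 171) (nat_lit 173) (nat_lit 106))) (PT.nd (nat_lit 78) (PT.lf (nat_lit 4864) (nat_lit 6) (nat_lit 64) (nat_lit 2) (nat_lit 172) (nat_lit 173) (nat_lit 105)) (PT.lf (nat_lit 4636) (nat_lit 3) (nat_lit 61) (nat_lit 0) (nat_lit 173) (nat_lit 173) (nat_lit 104)))) (PT.nd (nat_lit 156) (PT.nd (nat_lit 78) (PT.lf (nat_lit 4408) (nat_lit 6) (nat_lit 58) (nat_lit 0) (nat_lit 174) (nat_lit 173) (nat_lit 103)) (PT.lf (nat_lit 4180) (nat_lit 6) (nat_lit 55) (nat_lit 0) (nat_lit 175) (nat_lit 173) (nat_lit 102))) (PT.nd (nat_lit 78) (PT.lf (nat_lit 3952) (nat_lit 6) (nat_lit 52) (nat_lit 0) (nat_lit 176) (nat_lit 173) (nat_lit 101)) (PT.lf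 (nat_lit 3724) (nat_lit 6) (nat_lit 49) (nat_lit 0) (nat_lit 177) (nat_lit 173) (nat_lit 100)))))) (PT.nd (nat_lit 624) (PT.nd (nat_lit 312) (PT.nd (nat_lit 156) (PT.nd (nat_lit 78) (PT.lf (nat_lit 3344) (nat_lit 6) (nat_lit 44) (nat_lit 5) (nat_lit 98) (nat_lit 174) (nat_lit 178)) (PT.lf (nat_lit 3572) (nat_lit 6) (nat_lit 47) (nat_lit 5) (nat_lit 99) (nat_lit 174) (nat_lit 177))) (PT.nd (nat_lit 78) (PT.lf (nat_lit 3800) (nat_lit 6) (nat_lit 50) (nat_lit 5) (nat_lit 100) (nat_lit 174) (nat_lit 176)) (PT.lf (nat_lit 4028) (nat_lit 6) (nat_lit 53) (nat_lit 5) (nat_lit 101) (nat_lit 174) (nat_lit 175)))) (PT.nd (nat_lit 156) (PT.nd (nat_lit 78) (PT.lf (nat_lit 4256) (nat_lit 3) (nat_lit 56) (nat_lit 4) (nat_lit 102) (nat_lit 174) (nat_lit 174)) (PT.lf (nat_lit 4408) (nat_lit 6) (nat_lit 58) (nat_lit 4) (nat_lit 103) (nat_lit 174) (nat_lit 173))) (PT.nd (nat_lit 78) (PT.lf (nat_lit 4560) (nat_lit 6) (nat_lit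 60) (nat_lit 4) (nat_lit 104) (nat_lit 174) (nat_lit 172)) (PT.lf (nat_lit 4788) (nat_lit 6) (nat_lit 63) (nat_lit 4) (nat_lit 105) (nat_lit 174) (nat_lit 171))))) (PT.nd (nat_lit 4914) (PT.nd (nat_lit 156) (PT.nd (nat_lit 78) (PT.lf (nat_lit 4940) (nat_lit 6) (nat_lit 65) (nat_lit 4) (nat_lit 106) (nat_lit 174) (nat_lit 170)) (PT.lf (nat_lit 5168) (nat_lit 6) (nat_lit 68) (nat_lit 4) (nat_lit 107) (nat_lit 174) (nat_lit 169))) (PT.nd (nat_lit 4680) (PT.lf (nat_lit 5396) (nat_lit 6) (nat_lit 71) (nat_lit 4) (nat_lit 108) (nat_lit 174) (nat_lit 168)) (PT.lf (nat_lit 5396) (nat_lit 6) (nat_lit 71) (nat_lit 2) (nat_lit 168) (nat_lit 174) (nat_lit 108)))) (PT.nd (nat_lit 156) (PT.nd (nat_lit 78) (PT.lf (nat_lit 5168) (nat_lit 6) (nat_lit 68) (nat_lit 2) (nat_lit 169) (nat_lit 174) (nat_lit 107)) (PT.lf (nat_lit 4940) (nat_lit 6) (nat_lit 65) (nat_lit 2) (nat_lit 170) (nat_lit 174) (nat_lit 106))) (PT.nd (nat_lit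 78) (PT.lf (nat_lit 4788) (nat_lit 6) (nat_lit 63) (nat_lit 2) (nat_lit 171) (nat_lit 174) (nat_lit 105)) (PT.lf (nat_lit 4560) (nat_lit 6) (nat_lit 60) (nat_lit 2) (nat_lit 172) (nat_lit 174) (nat_lit 104))))))))
noncomputable def pc29 : PT := (PT.nd (nat_lit 88218) (PT.nd (nat_lit 46644) (PT.nd (nat_lit 41028) (PT.nd (nat_lit 234) (PT.nd (nat_lit 78) (PT.lf (nat_lit 4408) (nat_lit 6) (nat_lit 58) (nat_lit 2) (nat_lit 173) (nat_lit 174) (nat_lit 103)) (PT.nd (nat_lit 78) (PT.lf (nat_lit 4256) (nat_lit 3) (nat_lit 56) (nat_lit 0) (nat_lit 174) (nat_lit 174) (nat_lit 102)) (PT.lf (nat_lit 4028) (nat_lit 6) (nat_lit 53) (nat_lit 0) (nat_lit 175) (nat_lit 174) (nat_lit 101)))) (PT.nd (nat_lit 156) (PT.nd (nat_lit 78) (PT.lf (nat_lit 3800) (nat_lit 6) (nat_lit 50) (nat_lit 0) (nat_lit 176) (nat_lit 174) (nat_lit 100)) (PT.lf (nat_lit 3572) (nat_lit 6) (nat_lit 47) (nat_lit 0) (nat_lit 177) (nat_lit 174) (nat_lit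 99))) (PT.nd (nat_lit 40560) (PT.lf (nat_lit 3344) (nat_lit 6) (nat_lit 44) (nat_lit 0) (nat_lit 178) (nat_lit 174) (nat_lit 98)) (PT.lf (nat_lit 3192) (nat_lit 6) (nat_lit 42) (nat_lit 5) (nat_lit 97) (nat_lit 175) (nat_lit 178))))) (PT.nd (nat_lit 312) (PT.nd (nat_lit 156) (PT.nd (nat_lit 78) (PT.lf (nat_lit 3420) (nat_lit 6) (nat_lit 45) (nat_lit 5) (nat_lit 98) (nat_lit 175) (nat_lit 177)) (PT.lf (nat_lit 3648) (nat_lit 6) (nat_lit 48) (nat_lit 5) (nat_lit 99) (nat_lit 175) (nat_lit 176))) (PT.nd (nat_lit 78) (PT.lf (nat_lit 3876) (nat_lit 3) (nat_lit 51) (nat_lit 4) (nat_lit 100) (nat_lit 175) (nat_lit 175)) (PT.lf (nat_lit 4028) (nat_lit 6) (nat_lit 53) (nat_lit 4) (nat_lit 101) (nat_lit 175) (nat_lit 174)))) (PT.nd (nat_lit 156) (PT.nd (nat_lit 78) (PT.lf (nat_lit 4180) (nat_lit 6) (nat_lit 55) (nat_lit 4) (nat_lit 102) (nat_lit 175) (nat_lit 173)) (PT.lf (nat_lit 4332) (nat_lit 6) (nat_lit 57)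 (nat_lit 4) (nat_lit 103) (nat_lit 175) (nat_lit 172))) (PT.nd (nat_lit 78) (PT.lf (nat_lit 4484) (nat_lit 6) (nat_lit 59) (nat_lit 4) (nat_lit 104) (nat_lit 175) (nat_lit 171)) (PT.lf (nat_lit 4712) (nat_lit 6) (nat_lit 62) (nat_lit 4) (nat_lit 105) (nat_lit 175) (nat_lit 170)))))) (PT.nd (nat_lit 624) (PT.nd (nat_lit 312) (PT.nd (nat_lit 156) (PT.nd (nat_lit 78) (PT.lf (nat_lit 4712) (nat_lit 6) (nat_lit 62) (nat_lit 2) (nat_lit 170) (nat_lit 175) (nat_lit 105)) (PT.lf (nat_lit 4484) (nat_lit 6) (nat_lit 59) (nat_lit 2) (nat_lit 171) (nat_lit 175) (nat_lit 104))) (PT.nd (nat_lit 78) (PT.lf (nat_lit 4332) (nat_lit 6) (nat_lit 57) (nat_lit 2) (nat_lit 172) (nat_lit 175) (nat_lit 103)) (PT.lf (nat_lit 4180) (nat_lit 6) (nat_lit 55) (nat_lit 2) (nat_lit 173) (nat_lit 175) (nat_lit 102)))) (PT.nd (nat_lit 156) (PT.nd (nat_lit 78) (PT.lf (nat_lit 4028) (nat_lit 6) (nat_lit 53) (nat_lit 2) (nat_lit 174) (nat_lit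 175) (nat_lit 101)) (PT.lf (nat_lit 3876) (nat_lit 3) (nat_lit 51) (nat_lit 0) (nat_lit 175) (nat_lit 175) (nat_lit 100))) (PT.nd (nat_lit 78) (PT.lf (nat_lit 3648) (nat_lit 6) (nat_lit 48) (nat_lit 0) (nat_lit 176) (nat_lit 175) (nat_lit 99)) (PT.lf (nat_lit 3420) (nat_lit 6) (nat_lit 45) (nat_lit 0) (nat_lit 177) (nat_lit 175) (nat_lit 98))))) (PT.nd (nat_lit 40638) (PT.nd (nat_lit 40482) (PT.nd (nat_lit 40404) (PT.lf (nat_lit 3192) (nat_lit 6) (nat_lit 42) (nat_lit 0) (nat_lit 178) (nat_lit 175) (nat_lit 97)) (PT.lf (nat_lit 2888) (nat_lit 6) (nat_lit 38) (nat_lit 5) (nat_lit 95) (nat_lit 176) (nat_lit 179))) (PT.nd (nat_lit 78) (PT.lf (nat_lit 3040) (nat_lit 6) (nat_lit 40) (nat_lit 5) (nat_lit 96) (nat_lit 176) (nat_lit 178)) (PT.lf (nat_lit 3268) (nat_lit 6) (nat_lit 43) (nat_lit 5) (nat_lit 97) (nat_lit 176) (nat_lit 177)))) (PT.nd (nat_lit 156) (PT.nd (nat_lit 78) (PT.lf (nat_lit 3496) (nat_lit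 3) (nat_lit 46) (nat_lit 4) (nat_lit 98) (nat_lit 176) (nat_lit 176)) (PT.lf (nat_lit 3648) (nat_lit 6) (nat_lit 48) (nat_lit 4) (nat_lit 99) (nat_lit 176) (nat_lit 175))) (PT.nd (nat_lit 78) (PT.lf (nat_lit 3800) (nat_lit 6) (nat_lit 50) (nat_lit 4) (nat_lit 100) (nat_lit 176) (nat_lit 174)) (PT.lf (nat_lit 3952) (nat_lit 6) (nat_lit 52) (nat_lit 4) (nat_lit 101) (nat_lit 176) (nat_lit 173))))))) (PT.nd (nat_lit 46644) (PT.nd (nat_lit 5928) (PT.nd (nat_lit 5616) (PT.nd (nat_lit 5460) (PT.lf (nat_lit 4104) (nat_lit 6) (nat_lit 54) (nat_lit 4) (nat_lit 102) (nat_lit 176) (nat_lit 172)) (PT.nd (nat_lit 78) (PT.lf (nat_lit 4104) (nat_lit 6) (nat_lit 54) (nat_lit 2) (nat_lit 172) (nat_lit 176) (nat_lit 102)) (PT.lf (nat_lit 3952) (nat_lit 6) (nat_lit 52) (nat_lit 2) (nat_lit 173) (nat_lit 176) (nat_lit 101)))) (PT.nd (nat_lit 156) (PT.nd (nat_lit 78) (PT.lf (nat_lit 3800) (nat_lit 6) (nat_lit 50) (nat_lit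 2) (nat_lit 174) (nat_lit 176) (nat_lit 100)) (PT.lf (nat_lit 3648) (nat_lit 6) (nat_lit 48) (nat_lit 2) (nat_lit 175) (nat_lit 176) (nat_lit 99))) (PT.nd (nat_lit 78) (PT.lf (nat_lit 3496) (nat_lit 3) (nat_lit 46) (nat_lit 0) (nat_lit 176) (nat_lit 176) (nat_lit 98)) (PT.lf (nat_lit 3268) (nat_lit 6) (nat_lit 43) (nat_lit 0) (nat_lit 177) (nat_lit 176) (nat_lit 97))))) (PT.nd (nat_lit 40404) (PT.nd (nat_lit 40248) (PT.nd (nat_lit 78) (PT.lf (nat_lit 3040) (nat_lit 6) (nat_lit 40) (nat_lit 0) (nat_lit 178) (nat_lit 176) (nat_lit 96)) (PT.lf (nat_lit 2888) (nat_lit 6) (nat_lit 38) (nat_lit 0) (nat_lit 179) (nat_lit 176) (nat_lit 95))) (PT.nd (nat_lit 78) (PT.lf (nat_lit 2584) (nat_lit 6) (nat_lit 34) (nat_lit 5) (nat_lit 93) (nat_lit 177) (nat_lit 180)) (PT.lf (nat_lit 2736) (nat_lit 6) (nat_lit 36) (nat_lit 5) (nat_lit 94) (nat_lit 177) (nat_lit 179)))) (PT.nd (nat_lit 156) (PT.nd (nat_lit 78) (PT.lf (nat_lit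 2964) (nat_lit 6) (nat_lit 39) (nat_lit 5) (nat_lit 95) (nat_lit 177) (nat_lit 178)) (PT.lf (nat_lit 3116) (nat_lit 3) (nat_lit 41) (nat_lit 4) (nat_lit 96) (nat_lit 177) (nat_lit 177))) (PT.nd (nat_lit 78) (PT.lf (nat_lit 3268) (nat_lit 6) (nat_lit 43) (nat_lit 4) (nat_lit 97) (nat_lit 177) (nat_lit 176)) (PT.lf (nat_lit 3420) (nat_lit 6) (nat_lit 45) (nat_lit 4) (nat_lit 98) (nat_lit 177) (nat_lit 175)))))) (PT.nd (nat_lit 6240) (PT.nd (nat_lit 5928) (PT.nd (nat_lit 5772) (PT.nd (nat_lit 78) (PT.lf (nat_lit 3572) (nat_lit 6) (nat_lit 47) (nat_lit 4) (nat_lit 99) (nat_lit 177) (nat_lit 174)) (PT.lf (nat_lit 3724) (nat_lit 6) (nat_lit 49) (nat_lit 4) (nat_lit 100) (nat_lit 177) (nat_lit 173))) (PT.nd (nat_lit 78) (PT.lf (nat_lit 3724) (nat_lit 6) (nat_lit 49) (nat_lit 2) (nat_lit 173) (nat_lit 177) (nat_lit 100)) (PT.lf (nat_lit 3572) (nat_lit 6) (nat_lit 47) (nat_lit 2) (nat_lit 174) (nat_lit 177) (nat_lit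 99)))) (PT.nd (nat_lit 156) (PT.nd (nat_lit 78) (PT.lf (nat_lit 3420) (nat_lit 6) (nat_lit 45) (nat_lit 2) (nat_lit 175) (nat_lit 177) (nat_lit 98)) (PT.lf (nat_lit 3268) (nat_lit 6) (nat_lit 43) (nat_lit 2) (nat_lit 176) (nat_lit 177) (nat_lit 97))) (PT.nd (nat_lit 78) (PT.lf (nat_lit 3116) (nat_lit 3) (nat_lit 41) (nat_lit 0) (nat_lit 177) (nat_lit 177) (nat_lit 96)) (PT.lf (nat_lit 2964) (nat_lit 6) (nat_lit 39) (nat_lit 0) (nat_lit 178) (nat_lit 177) (nat_lit 95))))) (PT.nd (nat_lit 40170) (PT.nd (nat_lit 40014) (PT.nd (nat_lit 78) (PT.lf (nat_lit 2736) (nat_lit 6) (nat_lit 36) (nat_lit 0) (nat_lit 179) (nat_lit 177) (nat_lit 94)) (PT.lf (nat_lit 2584) (nat_lit 6) (nat_lit 34) (nat_lit 0) (nat_lit 180) (nat_lit 177) (nat_lit 93))) (PT.nd (nat_lit 78) (PT.lf (nat_lit 2280) (nat_lit 6) (nat_lit 30) (nat_lit 5) (nat_lit 91) (nat_lit 178) (nat_lit 181)) (PT.lf (nat_lit 2432) (nat_lit 6) (nat_lit 32) (nat_lit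 5) (nat_lit 92) (nat_lit 178) (nat_lit 180)))) (PT.nd (nat_lit 156) (PT.nd (nat_lit 78) (PT.lf (nat_lit 2660) (nat_lit 6) (nat_lit 35) (nat_lit 5) (nat_lit 93) (nat_lit 178) (nat_lit 179)) (PT.lf (nat_lit 2812) (nat_lit 3) (nat_lit 37) (nat_lit 4) (nat_lit 94) (nat_lit 178) (nat_lit 178))) (PT.nd (nat_lit 78) (PT.lf (nat_lit 2964) (nat_lit 6) (nat_lit 39) (nat_lit 4) (nat_lit 95) (nat_lit 178) (nat_lit 177)) (PT.lf (nat_lit 3040) (nat_lit 6) (nat_lit 40) (nat_lit 4) (nat_lit 96) (nat_lit 178) (nat_lit 176))))))))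
noncomputable def pc30 : PT := (PT.nd (nat_lit 100074) (PT.nd (nat_lit 46644) (PT.nd (nat_lit 6396) (PT.nd (nat_lit 6084) (PT.nd (nat_lit 78) (PT.lf (nat_lit 3192) (nat_lit 6) (nat_lit 42) (nat_lit 4) (nat_lit 97) (nat_lit 178) (nat_lit 175)) (PT.nd (nat_lit 5928) (PT.lf (nat_lit 3344) (nat_lit 6) (nat_lit 44) (nat_lit 4) (nat_lit 98) (nat_lit 178) (nat_lit 174)) (PT.lf (nat_lit 3344) (nat_lit 6) (nat_lit 44) (nat_lit 2) (nat_lit 174) (nat_lit 178) (nat_lit 98)))) (PT.nd (nat_lit 156) (PT.nd (nat_lit 78) (PT.lf (nat_lit 3192) (nat_lit 6) (nat_lit 42) (nat_lit 2) (nat_lit 175) (nat_lit 178) (nat_lit 97)) (PT.lf (nat_lit 3040) (nat_lit 6) (nat_lit 40) (nat_lit 2) (nat_lit 176) (nat_lit 178) (nat_lit 96))) (PT.nd (nat_lit 78) (PT.lf (nat_lit 2964) (nat_lit 6) (nat_lit 39) (nat_lit 2) (nat_lit 177) (nat_lit 178) (nat_lit 95)) (PT.lf (nat_lit 2812) (nat_lit 3) (nat_lit 37) (nat_lit 0) (nat_lit 178) (nat_lit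 178) (nat_lit 94))))) (PT.nd (nat_lit 39936) (PT.nd (nat_lit 156) (PT.nd (nat_lit 78) (PT.lf (nat_lit 2660) (nat_lit 6) (nat_lit 35) (nat_lit 0) (nat_lit 179) (nat_lit 178) (nat_lit 93)) (PT.lf (nat_lit 2432) (nat_lit 6) (nat_lit 32) (nat_lit 0) (nat_lit 180) (nat_lit 178) (nat_lit 92))) (PT.nd (nat_lit 39702) (PT.lf (nat_lit 2280) (nat_lit 6) (nat_lit 30) (nat_lit 0) (nat_lit 181) (nat_lit 178) (nat_lit 91)) (PT.lf (nat_lit 1976) (nat_lit 6) (nat_lit 26) (nat_lit 5) (nat_lit 89) (nat_lit 179) (nat_lit 182)))) (PT.nd (nat_lit 156) (PT.nd (nat_lit 78) (PT.lf (nat_lit 2128) (nat_lit 6) (nat_lit 28) (nat_lit 5) (nat_lit 90) (nat_lit 179) (nat_lit 181)) (PT.lf (nat_lit 2356) (nat_lit 6) (nat_lit 31) (nat_lit 5) (nat_lit 91) (nat_lit 179) (nat_lit 180))) (PT.nd (nat_lit 78) (PT.lf (nat_lit 2508) (nat_lit 3) (nat_lit 33) (nat_lit 4) (nat_lit 92) (nat_lit 179) (nat_lit 179)) (PT.lf (nat_lit 2660) (nat_lit 6)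 (nat_lit 35) (nat_lit 4) (nat_lit 93) (nat_lit 179) (nat_lit 178)))))) (PT.nd (nat_lit 6864) (PT.nd (nat_lit 6552) (PT.nd (nat_lit 6396) (PT.nd (nat_lit 78) (PT.lf (nat_lit 2736) (nat_lit 6) (nat_lit 36) (nat_lit 4) (nat_lit 94) (nat_lit 179) (nat_lit 177)) (PT.lf (nat_lit 2888) (nat_lit 6) (nat_lit 38) (nat_lit 4) (nat_lit 95) (nat_lit 179) (nat_lit 176))) (PT.nd (nat_lit 78) (PT.lf (nat_lit 2888) (nat_lit 6) (nat_lit 38) (nat_lit 2) (nat_lit 176) (nat_lit 179) (nat_lit 95)) (PT.lf (nat_lit 2736) (nat_lit 6) (nat_lit 36) (nat_lit 2) (nat_lit 177) (nat_lit 179) (nat_lit 94)))) (PT.nd (nat_lit 156) (PT.nd (nat_lit 78) (PT.lf (nat_lit 2660) (nat_lit 6) (nat_lit 35) (nat_lit 2) (nat_lit 178) (nat_lit 179) (nat_lit 93)) (PT.lf (nat_lit 2508) (nat_lit 3) (nat_lit 33) (nat_lit 0) (nat_lit 179) (nat_lit 179) (nat_lit 92))) (PT.nd (nat_lit 78) (PT.lf (nat_lit 2356) (nat_lit 6) (nat_lit 31) (nat_lit 0) (nat_lit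 180) (nat_lit 179) (nat_lit 91)) (PT.lf (nat_lit 2128) (nat_lit 6) (nat_lit 28) (nat_lit 0) (nat_lit 181) (nat_lit 179) (nat_lit 90))))) (PT.nd (nat_lit 39780) (PT.nd (nat_lit 39624) (PT.nd (nat_lit 39546) (PT.lf (nat_lit 1976) (nat_lit 6) (nat_lit 26) (nat_lit 0) (nat_lit 182) (nat_lit 179) (nat_lit 89)) (PT.lf (nat_lit 1824) (nat_lit 6) (nat_lit 24) (nat_lit 5) (nat_lit 88) (nat_lit 180) (nat_lit 182))) (PT.nd (nat_lit 78) (PT.lf (nat_lit 2052) (nat_lit 6) (nat_lit 27) (nat_lit 5) (nat_lit 89) (nat_lit 180) (nat_lit 181)) (PT.lf (nat_lit 2204) (nat_lit 3) (nat_lit 29) (nat_lit 4) (nat_lit 90) (nat_lit 180) (nat_lit 180)))) (PT.nd (nat_lit 156) (PT.nd (nat_lit 78) (PT.lf (nat_lit 2356) (nat_lit 6) (nat_lit 31) (nat_lit 4) (nat_lit 91) (nat_lit 180) (nat_lit 179)) (PT.lf (nat_lit 2432) (nat_lit 6) (nat_lit 32) (nat_lit 4) (nat_lit 92) (nat_lit 180) (nat_lit 178))) (PT.nd (nat_lit 6552) (PT.lf (nat_lit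 2584) (nat_lit 6) (nat_lit 34) (nat_lit 4) (nat_lit 93) (nat_lit 180) (nat_lit 177)) (PT.lf (nat_lit 2584) (nat_lit 6) (nat_lit 34) (nat_lit 2) (nat_lit 177) (nat_lit 180) (nat_lit 93))))))) (PT.nd (nat_lit 47190) (PT.nd (nat_lit 39858) (PT.nd (nat_lit 234) (PT.nd (nat_lit 78) (PT.lf (nat_lit 2432) (nat_lit 6) (nat_lit 32) (nat_lit 2) (nat_lit 178) (nat_lit 180) (nat_lit 92)) (PT.nd (nat_lit 78) (PT.lf (nat_lit 2356) (nat_lit 6) (nat_lit 31) (nat_lit 2) (nat_lit 179) (nat_lit 180) (nat_lit 91)) (PT.lf (nat_lit 2204) (nat_lit 3) (nat_lit 29) (nat_lit 0) (nat_lit 180) (nat_lit 180) (nat_lit 90)))) (PT.nd (nat_lit 39468) (PT.nd (nat_lit 78) (PT.lf (nat_lit 2052) (nat_lit 6) (nat_lit 27) (nat_lit 0) (nat_lit 181) (nat_lit 180) (nat_lit 89)) (PT.lf (nat_lit 1824) (nat_lit 6) (nat_lit 24) (nat_lit 0) (nat_lit 182) (nat_lit 180) (nat_lit 88))) (PT.nd (nat_lit 78) (PT.lf (nat_lit 1596) (nat_lit 6) (nat_lit 21)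 (nat_lit 5) (nat_lit 86) (nat_lit 181) (nat_lit 183)) (PT.lf (nat_lit 1748) (nat_lit 6) (nat_lit 23) (nat_lit 5) (nat_lit 87) (nat_lit 181) (nat_lit 182))))) (PT.nd (nat_lit 7020) (PT.nd (nat_lit 156) (PT.nd (nat_lit 78) (PT.lf (nat_lit 1900) (nat_lit 3) (nat_lit 25) (nat_lit 4) (nat_lit 88) (nat_lit 181) (nat_lit 181)) (PT.lf (nat_lit 2052) (nat_lit 6) (nat_lit 27) (nat_lit 4) (nat_lit 89) (nat_lit 181) (nat_lit 180))) (PT.nd (nat_lit 78) (PT.lf (nat_lit 2128) (nat_lit 6) (nat_lit 28) (nat_lit 4) (nat_lit 90) (nat_lit 181) (nat_lit 179)) (PT.lf (nat_lit 2280) (nat_lit 6) (nat_lit 30) (nat_lit 4) (nat_lit 91) (nat_lit 181) (nat_lit 178)))) (PT.nd (nat_lit 156) (PT.nd (nat_lit 78) (PT.lf (nat_lit 2280) (nat_lit 6) (nat_lit 30) (nat_lit 2) (nat_lit 178) (nat_lit 181) (nat_lit 91)) (PT.lf (nat_lit 2128) (nat_lit 6) (nat_lit 28) (nat_lit 2) (nat_lit 179) (nat_lit 181) (nat_lit 90))) (PT.nd (nat_lit 78) (PT.lf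 (nat_lit 2052) (nat_lit 6) (nat_lit 27) (nat_lit 2) (nat_lit 180) (nat_lit 181) (nat_lit 89)) (PT.lf (nat_lit 1900) (nat_lit 3) (nat_lit 25) (nat_lit 0) (nat_lit 181) (nat_lit 181) (nat_lit 88)))))) (PT.nd (nat_lit 46644) (PT.nd (nat_lit 39390) (PT.nd (nat_lit 39234) (PT.nd (nat_lit 78) (PT.lf (nat_lit 1748) (nat_lit 6) (nat_lit 23) (nat_lit 0) (nat_lit 182) (nat_lit 181) (nat_lit 87)) (PT.lf (nat_lit 1596) (nat_lit 6) (nat_lit 21) (nat_lit 0) (nat_lit 183) (nat_lit 181) (nat_lit 86))) (PT.nd (nat_lit 78) (PT.lf (nat_lit 1368) (nat_lit 6) (nat_lit 18) (nat_lit 5) (nat_lit 84) (nat_lit 182) (nat_lit 184)) (PT.lf (nat_lit 1520) (nat_lit 6) (nat_lit 20) (nat_lit 5) (nat_lit 85) (nat_lit 182) (nat_lit 183)))) (PT.nd (nat_lit 156) (PT.nd (nat_lit 78) (PT.lf (nat_lit 1672) (nat_lit 3) (nat_lit 22) (nat_lit 4) (nat_lit 86) (nat_lit 182) (nat_lit 182)) (PT.lf (nat_lit 1748) (nat_lit 6) (nat_lit 23) (nat_lit 4)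 (nat_lit 87) (nat_lit 182) (nat_lit 181))) (PT.nd (nat_lit 78) (PT.lf (nat_lit 1824) (nat_lit 6) (nat_lit 24) (nat_lit 4) (nat_lit 88) (nat_lit 182) (nat_lit 180)) (PT.lf (nat_lit 1976) (nat_lit 6) (nat_lit 26) (nat_lit 4) (nat_lit 89) (nat_lit 182) (nat_lit 179))))) (PT.nd (nat_lit 312) (PT.nd (nat_lit 156) (PT.nd (nat_lit 78) (PT.lf (nat_lit 1976) (nat_lit 6) (nat_lit 26) (nat_lit 2) (nat_lit 179) (nat_lit 182) (nat_lit 89)) (PT.lf (nat_lit 1824) (nat_lit 6) (nat_lit 24) (nat_lit 2) (nat_lit 180) (nat_lit 182) (nat_lit 88))) (PT.nd (nat_lit 78) (PT.lf (nat_lit 1748) (nat_lit 6) (nat_lit 23) (nat_lit 2) (nat_lit 181) (nat_lit 182) (nat_lit 87)) (PT.lf (nat_lit 1672) (nat_lit 3) (nat_lit 22) (nat_lit 0) (nat_lit 182) (nat_lit 182) (nat_lit 86)))) (PT.nd (nat_lit 39000) (PT.nd (nat_lit 78) (PT.lf (nat_lit 1520) (nat_lit 6) (nat_lit 20) (nat_lit 0) (nat_lit 183) (nat_lit 182) (nat_lit 85)) (PT.lf (nat_lit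 1368) (nat_lit 6) (nat_lit 18) (nat_lit 0) (nat_lit 184) (nat_lit 182) (nat_lit 84))) (PT.nd (nat_lit 78) (PT.lf (nat_lit 1140) (nat_lit 6) (nat_lit 15) (nat_lit 5) (nat_lit 82) (nat_lit 183) (nat_lit 185)) (PT.lf (nat_lit 1292) (nat_lit 6) (nat_lit 17) (nat_lit 5) (nat_lit 83) (nat_lit 183) (nat_lit 184))))))))
noncomputable def pc31 : PT := (PT.nd (nat_lit 140244) (PT.nd (nat_lit 54678) (PT.nd (nat_lit 7878) (PT.nd (nat_lit 7566) (PT.nd (nat_lit 78) (PT.lf (nat_lit 1444) (nat_lit 3) (nat_lit 19) (nat_lit 4) (nat_lit 84) (nat_lit 183) (nat_lit 183)) (PT.nd (nat_lit 78) (PT.lf (nat_lit 1520) (nat_lit 6) (nat_lit 20) (nat_lit 4) (nat_lit 85) (nat_lit 183) (nat_lit 182)) (PT.lf (nat_lit 1596) (nat_lit 6) (nat_lit 21) (nat_lit 4) (nat_lit 86) (nat_lit 183) (nat_lit 181)))) (PT.nd (nat_lit 156) (PT.nd (nat_lit 78) (PT.lf (nat_lit 1596) (nat_lit 6) (nat_lit 21) (nat_lit 2) (nat_lit 181) (nat_lit 183) (nat_lit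 86)) (PT.lf (nat_lit 1520) (nat_lit 6) (nat_lit 20) (nat_lit 2) (nat_lit 182) (nat_lit 183) (nat_lit 85))) (PT.nd (nat_lit 78) (PT.lf (nat_lit 1444) (nat_lit 3) (nat_lit 19) (nat_lit 0) (nat_lit 183) (nat_lit 183) (nat_lit 84)) (PT.lf (nat_lit 1292) (nat_lit 6) (nat_lit 17) (nat_lit 0) (nat_lit 184) (nat_lit 183) (nat_lit 83))))) (PT.nd (nat_lit 38922) (PT.nd (nat_lit 38766) (PT.nd (nat_lit 38688) (PT.lf (nat_lit 1140) (nat_lit 6) (nat_lit 15) (nat_lit 0) (nat_lit 185) (nat_lit 183) (nat_lit 82)) (PT.lf (nat_lit 912) (nat_lit 6) (nat_lit 12) (nat_lit 5) (nat_lit 80) (nat_lit 184) (nat_lit 186))) (PT.nd (nat_lit 78) (PT.lf (nat_lit 1064) (nat_lit 6) (nat_lit 14) (nat_lit 5) (nat_lit 81) (nat_lit 184) (nat_lit 185)) (PT.lf (nat_lit 1216) (nat_lit 3) (nat_lit 16) (nat_lit 4) (nat_lit 82) (nat_lit 184) (nat_lit 184)))) (PT.nd (nat_lit 7722) (PT.nd (nat_lit 78) (PT.lf (nat_lit 1292) (nat_lit 6) (nat_lit 17)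 (nat_lit 4) (nat_lit 83) (nat_lit 184) (nat_lit 183)) (PT.lf (nat_lit 1368) (nat_lit 6) (nat_lit 18) (nat_lit 4) (nat_lit 84) (nat_lit 184) (nat_lit 182))) (PT.nd (nat_lit 78) (PT.lf (nat_lit 1368) (nat_lit 6) (nat_lit 18) (nat_lit 2) (nat_lit 182) (nat_lit 184) (nat_lit 84)) (PT.lf (nat_lit 1292) (nat_lit 6) (nat_lit 17) (nat_lit 2) (nat_lit 183) (nat_lit 184) (nat_lit 83)))))) (PT.nd (nat_lit 46800) (PT.nd (nat_lit 38688) (PT.nd (nat_lit 156) (PT.nd (nat_lit 78) (PT.lf (nat_lit 1216) (nat_lit 3) (nat_lit 16) (nat_lit 0) (nat_lit 184) (nat_lit 184) (nat_lit 82)) (PT.lf (nat_lit 1064) (nat_lit 6) (nat_lit 14) (nat_lit 0) (nat_lit 185) (nat_lit 184) (nat_lit 81))) (PT.nd (nat_lit 38454) (PT.lf (nat_lit 912) (nat_lit 6) (nat_lit 12) (nat_lit 0) (nat_lit 186) (nat_lit 184) (nat_lit 80)) (PT.lf (nat_lit 684) (nat_lit 6) (nat_lit 9) (nat_lit 5) (nat_lit 78) (nat_lit 185) (nat_lit 187)))) (PT.nd (nat_lit 156)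 (PT.nd (nat_lit 78) (PT.lf (nat_lit 836) (nat_lit 6) (nat_lit 11) (nat_lit 5) (nat_lit 79) (nat_lit 185) (nat_lit 186)) (PT.lf (nat_lit 988) (nat_lit 3) (nat_lit 13) (nat_lit 4) (nat_lit 80) (nat_lit 185) (nat_lit 185))) (PT.nd (nat_lit 78) (PT.lf (nat_lit 1064) (nat_lit 6) (nat_lit 14) (nat_lit 4) (nat_lit 81) (nat_lit 185) (nat_lit 184)) (PT.lf (nat_lit 1140) (nat_lit 6) (nat_lit 15) (nat_lit 4) (nat_lit 82) (nat_lit 185) (nat_lit 183))))) (PT.nd (nat_lit 312) (PT.nd (nat_lit 156) (PT.nd (nat_lit 78) (PT.lf (nat_lit 1140) (nat_lit 6) (nat_lit 15) (nat_lit 2) (nat_lit 183) (nat_lit 185) (nat_lit 82)) (PT.lf (nat_lit 1064) (nat_lit 6) (nat_lit 14) (nat_lit 2) (nat_lit 184) (nat_lit 185) (nat_lit 81))) (PT.nd (nat_lit 78) (PT.lf (nat_lit 988) (nat_lit 3) (nat_lit 13) (nat_lit 0) (nat_lit 185) (nat_lit 185) (nat_lit 80)) (PT.lf (nat_lit 836) (nat_lit 6) (nat_lit 11) (nat_lit 0) (nat_lit 186) (nat_lit 185)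 (nat_lit 79)))) (PT.nd (nat_lit 38298) (PT.nd (nat_lit 38220) (PT.lf (nat_lit 684) (nat_lit 6) (nat_lit 9) (nat_lit 0) (nat_lit 187) (nat_lit 185) (nat_lit 78)) (PT.lf (nat_lit 456) (nat_lit 6) (nat_lit 6) (nat_lit 5) (nat_lit 76) (nat_lit 186) (nat_lit 188))) (PT.nd (nat_lit 78) (PT.lf (nat_lit 608) (nat_lit 6) (nat_lit 8) (nat_lit 5) (nat_lit 77) (nat_lit 186) (nat_lit 187)) (PT.lf (nat_lit 760) (nat_lit 3) (nat_lit 10) (nat_lit 4) (nat_lit 78) (nat_lit 186) (nat_lit 186))))))) (PT.nd (nat_lit 55380) (PT.nd (nat_lit 46488) (PT.nd (nat_lit 8268) (PT.nd (nat_lit 78) (PT.lf (nat_lit 836) (nat_lit 6) (nat_lit 11) (nat_lit 4) (nat_lit 79) (nat_lit 186) (nat_lit 185)) (PT.nd (nat_lit 8112) (PT.lf (nat_lit 912) (nat_lit 6) (nat_lit 12) (nat_lit 4) (nat_lit 80) (nat_lit 186) (nat_lit 184)) (PT.lf (nat_lit 912) (nat_lit 6) (nat_lit 12) (nat_lit 2) (nat_lit 184) (nat_lit 186) (nat_lit 80)))) (PT.nd (nat_lit 156)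 (PT.nd (nat_lit 78) (PT.lf (nat_lit 836) (nat_lit 6) (nat_lit 11) (nat_lit 2) (nat_lit 185) (nat_lit 186) (nat_lit 79)) (PT.lf (nat_lit 760) (nat_lit 3) (nat_lit 10) (nat_lit 0) (nat_lit 186) (nat_lit 186) (nat_lit 78))) (PT.nd (nat_lit 78) (PT.lf (nat_lit 608) (nat_lit 6) (nat_lit 8) (nat_lit 0) (nat_lit 187) (nat_lit 186) (nat_lit 77)) (PT.lf (nat_lit 456) (nat_lit 6) (nat_lit 6) (nat_lit 0) (nat_lit 188) (nat_lit 186) (nat_lit 76))))) (PT.nd (nat_lit 312) (PT.nd (nat_lit 156) (PT.nd (nat_lit 78) (PT.lf (nat_lit 228) (nat_lit 6) (nat_lit 3) (nat_lit 5) (nat_lit 74) (nat_lit 187) (nat_lit 189)) (PT.lf (nat_lit 380) (nat_lit 6) (nat_lit 5) (nat_lit 5) (nat_lit 75) (nat_lit 187) (nat_lit 188))) (PT.nd (nat_lit 78) (PT.lf (nat_lit 532) (nat_lit 3) (nat_lit 7) (nat_lit 4) (nat_lit 76) (nat_lit 187) (nat_lit 187)) (PT.lf (nat_lit 608) (nat_lit 6) (nat_lit 8) (nat_lit 4) (nat_lit 77) (nat_lit 187) (nat_lit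 186)))) (PT.nd (nat_lit 8424) (PT.nd (nat_lit 8346) (PT.lf (nat_lit 684) (nat_lit 6) (nat_lit 9) (nat_lit 4) (nat_lit 78) (nat_lit 187) (nat_lit 185)) (PT.lf (nat_lit 684) (nat_lit 6) (nat_lit 9) (nat_lit 2) (nat_lit 185) (nat_lit 187) (nat_lit 78))) (PT.nd (nat_lit 78) (PT.lf (nat_lit 608) (nat_lit 6) (nat_lit 8) (nat_lit 2) (nat_lit 186) (nat_lit 187) (nat_lit 77)) (PT.lf (nat_lit 532) (nat_lit 3) (nat_lit 7) (nat_lit 0) (nat_lit 187) (nat_lit 187) (nat_lit 76)))))) (PT.nd (nat_lit 46878) (PT.nd (nat_lit 38064) (PT.nd (nat_lit 37908) (PT.nd (nat_lit 78) (PT.lf (nat_lit 380) (nat_lit 6) (nat_lit 5) (nat_lit 0) (nat_lit 188) (nat_lit 187) (nat_lit 75)) (PT.lf (nat_lit 228) (nat_lit 6) (nat_lit 3) (nat_lit 0) (nat_lit 189) (nat_lit 187) (nat_lit 74))) (PT.nd (nat_lit 78) (PT.lf (nat_lit 152) (nat_lit 6) (nat_lit 2) (nat_lit 5) (nat_lit 73) (nat_lit 188) (nat_lit 189)) (PT.lf (nat_lit 304) (nat_lit 3) (nat_lit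 4) (nat_lit 4) (nat_lit 74) (nat_lit 188) (nat_lit 188)))) (PT.nd (nat_lit 8658) (PT.nd (nat_lit 78) (PT.lf (nat_lit 380) (nat_lit 6) (nat_lit 5) (nat_lit 4) (nat_lit 75) (nat_lit 188) (nat_lit 187)) (PT.lf (nat_lit 456) (nat_lit 6) (nat_lit 6) (nat_lit 4) (nat_lit 76) (nat_lit 188) (nat_lit 186))) (PT.nd (nat_lit 78) (PT.lf (nat_lit 456) (nat_lit 6) (nat_lit 6) (nat_lit 2) (nat_lit 186) (nat_lit 188) (nat_lit 76)) (PT.lf (nat_lit 380) (nat_lit 6) (nat_lit 5) (nat_lit 2) (nat_lit 187) (nat_lit 188) (nat_lit 75))))) (PT.nd (nat_lit 37986) (PT.nd (nat_lit 37830) (PT.nd (nat_lit 78) (PT.lf (nat_lit 304) (nat_lit 3) (nat_lit 4) (nat_lit 0) (nat_lit 188) (nat_lit 188) (nat_lit 74)) (PT.lf (nat_lit 152) (nat_lit 6) (nat_lit 2) (nat_lit 0) (nat_lit 189) (nat_lit 188) (nat_lit 73))) (PT.nd (nat_lit 78) (PT.lf (nat_lit 76) (nat_lit 3) (nat_lit 1) (nat_lit 4) (nat_lit 72) (nat_lit 189) (nat_lit 189)) (PT.lf (nat_lit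 152) (nat_lit 6) (nat_lit 2) (nat_lit 4) (nat_lit 73) (nat_lit 189) (nat_lit 188)))) (PT.nd (nat_lit 8892) (PT.nd (nat_lit 8814) (PT.lf (nat_lit 228) (nat_lit 6) (nat_lit 3) (nat_lit 4) (nat_lit 74) (nat_lit 189) (nat_lit 187)) (PT.lf (nat_lit 228) (nat_lit 6) (nat_lit 3) (nat_lit 2) (nat_lit 187) (nat_lit 189) (nat_lit 74))) (PT.nd (nat_lit 78) (PT.lf (nat_lit 152) (nat_lit 6) (nat_lit 2) (nat_lit 2) (nat_lit 188) (nat_lit 189) (nat_lit 73)) (PT.lf (nat_lit 76) (nat_lit 3) (nat_lit 1) (nat_lit 0) (nat_lit 189) (nat_lit 189) (nat_lit 72))))))))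
noncomputable def xc0 : XT := (XT.nd (nat_lit 187044) (nat_lit 0) (nat_lit 76) (XT.nd (nat_lit 93834) (nat_lit 0) (nat_lit 0) (XT.nd (nat_lit 46956) (nat_lit 0) (nat_lit 0) (XT.nd (nat_lit 46722) (nat_lit 0) (nat_lit 152) (XT.nd (nat_lit 78) (nat_lit 152) (nat_lit 0) (XT.lf (nat_lit 0) (nat_lit 79702812751) (nat_lit 76) (nat_lit 2474651093) (nat_lit 76) (nat_lit 2362618379) (nat_lit 4) (nat_lit 4) (nat_lit 5) (nat_lit 5) (nat_lit 5) (nat_lit 4) (nat_lit 449) (nat_lit 226) (nat_lit 225)) (XT.nd (nat_lit 46566) (nat_lit 0) (nat_lit 152) (XT.lf (nat_lit 0) (nat_lit 863723967) (nat_lit 152) (nat_lit 85462734757) (nat_lit 0) (nat_lit 649352763) (nat_lit 2) (nat_lit 5) (nat_lit 4) (nat_lit 4) (nat_lit 2) (nat_lit 4) (nat_lit 450) (nat_lit 226) (nat_lit 224)) (XT.lf (nat_lit 0) (nat_lit 27111344690) (nat_lit 76) (nat_lit 5858898592) (nat_lit 76) (nat_lit 5858898592) (nat_lit 4) (nat_lit 4) (nat_lit 5) (nat_lit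 5) (nat_lit 5) (nat_lit 4) (nat_lit 446) (nat_lit 227) (nat_lit 227)))) (XT.nd (nat_lit 78) (nat_lit 0) (nat_lit 0) (XT.lf (nat_lit 0) (nat_lit 62551332441) (nat_lit 76) (nat_lit 8723744149) (nat_lit 76) (nat_lit 8608350453) (nat_lit 4) (nat_lit 4) (nat_lit 5) (nat_lit 5) (nat_lit 5) (nat_lit 4) (nat_lit 447) (nat_lit 227) (nat_lit 226)) (XT.nd (nat_lit 78) (nat_lit 0) (nat_lit 0) (XT.lf (nat_lit 0) (nat_lit 71000337520) (nat_lit 76) (nat_lit 5702217371) (nat_lit 76) (nat_lit 5474790961) (nat_lit 4) (nat_lit 4) (nat_lit 5) (nat_lit 5) (nat_lit 5) (nat_lit 4) (nat_lit 448) (nat_lit 227) (nat_lit 225)) (XT.lf (nat_lit 0) (nat_lit 79577087242) (nat_lit 76) (nat_lit 2650576680) (nat_lit 76) (nat_lit 2314380644) (nat_lit 4) (nat_lit 4) (nat_lit 5) (nat_lit 5) (nat_lit 5) (nat_lit 4) (nat_lit 449) (nat_lit 227) (nat_lit 224))))) (XT.nd (nat_lit 46566) (nat_lit 0) (nat_lit 152) (XT.nd (nat_lit 46410) (nat_lit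 0) (nat_lit 152) (XT.lf (nat_lit 0) (nat_lit 875690679) (nat_lit 152) (nat_lit 85656371207) (nat_lit 0) (nat_lit 446760957) (nat_lit 2) (nat_lit 5) (nat_lit 4) (nat_lit 4) (nat_lit 2) (nat_lit 4) (nat_lit 450) (nat_lit 227) (nat_lit 223)) (XT.nd (nat_lit 78) (nat_lit 0) (nat_lit 0) (XT.lf (nat_lit 0) (nat_lit 18982577490) (nat_lit 76) (nat_lit 8860098399) (nat_lit 76) (nat_lit 8860098399) (nat_lit 4) (nat_lit 4) (nat_lit 5) (nat_lit 5) (nat_lit 5) (nat_lit 4) (nat_lit 444) (nat_lit 228) (nat_lit 228)) (XT.lf (nat_lit 0) (nat_lit 46007130881) (nat_lit 76) (nat_lit 14805848144) (nat_lit 76) (nat_lit 14686992637) (nat_lit 4) (nat_lit 4) (nat_lit 5) (nat_lit 5) (nat_lit 5) (nat_lit 4) (nat_lit 445) (nat_lit 228) (nat_lit 227)))) (XT.nd (nat_lit 156) (nat_lit 0) (nat_lit 0) (XT.nd (nat_lit 78) (nat_lit 0) (nat_lit 0) (XT.lf (nat_lit 0) (nat_lit 54156983866) (nat_lit 76) (nat_lit 11868287312) (nat_lit 76) (nat_lit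 11634038110) (nat_lit 4) (nat_lit 4) (nat_lit 5) (nat_lit 5) (nat_lit 5) (nat_lit 4) (nat_lit 446) (nat_lit 228) (nat_lit 226)) (XT.lf (nat_lit 0) (nat_lit 62421835167) (nat_lit 76) (nat_lit 8904947503) (nat_lit 76) (nat_lit 8558665586) (nat_lit 4) (nat_lit 4) (nat_lit 5) (nat_lit 5) (nat_lit 5) (nat_lit 4) (nat_lit 447) (nat_lit 228) (nat_lit 225))) (XT.nd (nat_lit 78) (nat_lit 0) (nat_lit 0) (XT.lf (nat_lit 0) (nat_lit 70808906497) (nat_lit 76) (nat_lit 5913239390) (nat_lit 76) (nat_lit 5458187848) (nat_lit 4) (nat_lit 4) (nat_lit 5) (nat_lit 5) (nat_lit 5) (nat_lit 4) (nat_lit 448) (nat_lit 228) (nat_lit 224)) (XT.lf (nat_lit 0) (nat_lit 79325526366) (nat_lit 76) (nat_lit 2890548859) (nat_lit 76) (nat_lit 2329895739) (nat_lit 4) (nat_lit 4) (nat_lit 5) (nat_lit 5) (nat_lit 5) (nat_lit 4) (nat_lit 449) (nat_lit 228) (nat_lit 223)))))) (XT.nd (nat_lit 46644) (nat_lit 0) (nat_lit 0) (XT.nd (nat_lit 46410)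 (nat_lit 0) (nat_lit 152) (XT.nd (nat_lit 46254) (nat_lit 0) (nat_lit 152) (XT.lf (nat_lit 0) (nat_lit 824210557) (nat_lit 152) (nat_lit 85979286615) (nat_lit 0) (nat_lit 180347524) (nat_lit 2) (nat_lit 5) (nat_lit 4) (nat_lit 4) (nat_lit 2) (nat_lit 4) (nat_lit 450) (nat_lit 228) (nat_lit 222)) (XT.nd (nat_lit 78) (nat_lit 0) (nat_lit 0) (XT.lf (nat_lit 0) (nat_lit 11123260828) (nat_lit 76) (nat_lit 11789142796) (nat_lit 76) (nat_lit 11789142796) (nat_lit 4) (nat_lit 4) (nat_lit 5) (nat_lit 5) (nat_lit 5) (nat_lit 4) (nat_lit 442) (nat_lit 229) (nat_lit 229)) (XT.lf (nat_lit 0) (nat_lit 30024029196) (nat_lit 76) (nat_lit 20736300966) (nat_lit 76) (nat_lit 20613879794) (nat_lit 4) (nat_lit 4) (nat_lit 5) (nat_lit 5) (nat_lit 5) (nat_lit 4) (nat_lit 443) (nat_lit 229) (nat_lit 228)))) (XT.nd (nat_lit 78) (nat_lit 0) (nat_lit 0) (XT.lf (nat_lit 0) (nat_lit 37897478302) (nat_lit 76) (nat_lit 17875201631)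 (nat_lit 76) (nat_lit 17633924952) (nat_lit 4) (nat_lit 4) (nat_lit 5) (nat_lit 5) (nat_lit 5) (nat_lit 4) (nat_lit 444) (nat_lit 229) (nat_lit 227)) (XT.nd (nat_lit 78) (nat_lit 0) (nat_lit 0) (XT.lf (nat_lit 0) (nat_lit 45873748689) (nat_lit 76) (nat_lit 14992487598) (nat_lit 76) (nat_lit 14635817224) (nat_lit 4) (nat_lit 4) (nat_lit 5) (nat_lit 5) (nat_lit 5) (nat_lit 4) (nat_lit 445) (nat_lit 229) (nat_lit 226)) (XT.lf (nat_lit 0) (nat_lit 53959809913) (nat_lit 76) (nat_lit 12085639992) (nat_lit 76) (nat_lit 11616936903) (nat_lit 4) (nat_lit 4) (nat_lit 5) (nat_lit 5) (nat_lit 5) (nat_lit 4) (nat_lit 446) (nat_lit 229) (nat_lit 225))))) (XT.nd (nat_lit 234) (nat_lit 152) (nat_lit 0) (XT.nd (nat_lit 78) (nat_lit 0) (nat_lit 0) (XT.lf (nat_lit 0) (nat_lit 62162727465) (nat_lit 76) (nat_lit 9152118848) (nat_lit 76) (nat_lit 8574646134) (nat_lit 4) (nat_lit 4) (nat_lit 5) (nat_lit 5) (nat_lit 5) (nat_lit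 4) (nat_lit 447) (nat_lit 229) (nat_lit 224)) (XT.nd (nat_lit 78) (nat_lit 0) (nat_lit 0) (XT.lf (nat_lit 0) (nat_lit 70489668943) (nat_lit 76) (nat_lit 6189360896) (nat_lit 76) (nat_lit 5506286603) (nat_lit 4) (nat_lit 4) (nat_lit 5) (nat_lit 5) (nat_lit 5) (nat_lit 4) (nat_lit 448) (nat_lit 229) (nat_lit 223)) (XT.lf (nat_lit 0) (nat_lit 78947910315) (nat_lit 76) (nat_lit 3194777317) (nat_lit 76) (nat_lit 2409177220) (nat_lit 4) (nat_lit 4) (nat_lit 5) (nat_lit 5) (nat_lit 5) (nat_lit 4) (nat_lit 449) (nat_lit 229) (nat_lit 222)))) (XT.nd (nat_lit 46176) (nat_lit 0) (nat_lit 152) (XT.nd (nat_lit 46098) (nat_lit 0) (nat_lit 152) (XT.lf (nat_lit 0) (nat_lit 557602371) (nat_lit 76) (nat_lit 153108014) (nat_lit 152) (nat_lit 86280126894) (nat_lit 2) (nat_lit 5) (nat_lit 3) (nat_lit 5) (nat_lit 4) (nat_lit 4) (nat_lit 450) (nat_lit 229) (nat_lit 221)) (XT.lf (nat_lit 0) (nat_lit 3512011923) (nat_lit 76) (nat_lit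 14653177572) (nat_lit 76) (nat_lit 14653177572) (nat_lit 4) (nat_lit 4) (nat_lit 5) (nat_lit 5) (nat_lit 5) (nat_lit 4) (nat_lit 440) (nat_lit 230) (nat_lit 230))) (XT.nd (nat_lit 78) (nat_lit 0) (nat_lit 0) (XT.lf (nat_lit 0) (nat_lit 14558159806) (nat_lit 76) (nat_lit 26529732607) (nat_lit 76) (nat_lit 26403638800) (nat_lit 4) (nat_lit 4) (nat_lit 5) (nat_lit 5) (nat_lit 5) (nat_lit 4) (nat_lit 441) (nat_lit 230) (nat_lit 229)) (XT.lf (nat_lit 0) (nat_lit 22176814678) (nat_lit 76) (nat_lit 23737940571) (nat_lit 76) (nat_lit 23489425592) (nat_lit 4) (nat_lit 4) (nat_lit 5) (nat_lit 5) (nat_lit 5) (nat_lit 4) (nat_lit 442) (nat_lit 230) (nat_lit 228))))))) (XT.nd (nat_lit 46878) (nat_lit 0) (nat_lit 0) (XT.nd (nat_lit 468) (nat_lit 76) (nat_lit 0) (XT.nd (nat_lit 234) (nat_lit 0) (nat_lit 0) (XT.nd (nat_lit 78) (nat_lit 0) (nat_lit 0) (XT.lf (nat_lit 0) (nat_lit 29886645537) (nat_lit 76) (nat_lit 20928539604)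 (nat_lit 76) (nat_lit 20561169118) (nat_lit 4) (nat_lit 4) (nat_lit 5) (nat_lit 5) (nat_lit 5) (nat_lit 4) (nat_lit 443) (nat_lit 230) (nat_lit 227)) (XT.nd (nat_lit 78) (nat_lit 0) (nat_lit 0) (XT.lf (nat_lit 0) (nat_lit 37694389130) (nat_lit 76) (nat_lit 18099074891) (nat_lit 76) (nat_lit 17616310710) (nat_lit 4) (nat_lit 4) (nat_lit 5) (nat_lit 5) (nat_lit 5) (nat_lit 4) (nat_lit 444) (nat_lit 230) (nat_lit 226)) (XT.lf (nat_lit 0) (nat_lit 45606867756) (nat_lit 76) (nat_lit 15247074084) (nat_lit 76) (nat_lit 14652277188) (nat_lit 4) (nat_lit 4) (nat_lit 5) (nat_lit 5) (nat_lit 5) (nat_lit 4) (nat_lit 445) (nat_lit 230) (nat_lit 225)))) (XT.nd (nat_lit 78) (nat_lit 0) (nat_lit 0) (XT.lf (nat_lit 0) (nat_lit 53630995232) (nat_lit 76) (nat_lit 12370045143) (nat_lit 76) (nat_lit 11666478621) (nat_lit 4) (nat_lit 4) (nat_lit 5) (nat_lit 5) (nat_lit 5) (nat_lit 4) (nat_lit 446) (nat_lit 230) (nat_lit 224))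 (XT.nd (nat_lit 78) (nat_lit 0) (nat_lit 0) (XT.lf (nat_lit 0) (nat_lit 61773782932) (nat_lit 76) (nat_lit 9465474159) (nat_lit 76) (nat_lit 8656306060) (nat_lit 4) (nat_lit 4) (nat_lit 5) (nat_lit 5) (nat_lit 5) (nat_lit 4) (nat_lit 447) (nat_lit 230) (nat_lit 223)) (XT.lf (nat_lit 0) (nat_lit 70042345912) (nat_lit 76) (nat_lit 6530823159) (nat_lit 76) (nat_lit 5619129255) (nat_lit 4) (nat_lit 4) (nat_lit 5) (nat_lit 5) (nat_lit 5) (nat_lit 4) (nat_lit 448) (nat_lit 230) (nat_lit 222))))) (XT.nd (nat_lit 46098) (nat_lit 0) (nat_lit 76) (XT.nd (nat_lit 78) (nat_lit 76) (nat_lit 0) (XT.lf (nat_lit 0) (nat_lit 78443909130) (nat_lit 76) (nat_lit 3563527883) (nat_lit 76) (nat_lit 2552294363) (nat_lit 4) (nat_lit 4) (nat_lit 5) (nat_lit 5) (nat_lit 5) (nat_lit 4) (nat_lit 449) (nat_lit 230) (nat_lit 221)) (XT.nd (nat_lit 45942) (nat_lit 0) (nat_lit 152) (XT.lf (nat_lit 0) (nat_lit 536206806) (nat_lit 152) (nat_lit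 19374106) (nat_lit 76) (nat_lit 86444192315) (nat_lit 3) (nat_lit 5) (nat_lit 5) (nat_lit 5) (nat_lit 4) (nat_lit 4) (nat_lit 450) (nat_lit 230) (nat_lit 220)) (XT.lf (nat_lit 0) (nat_lit 13624741669) (nat_lit 152) (nat_lit 3795955056) (nat_lit 0) (nat_lit 13624741669) (nat_lit 5) (nat_lit 5) (nat_lit 7) (nat_lit 4) (nat_lit 5) (nat_lit 4) (nat_lit 438) (nat_lit 231) (nat_lit 231)))) (XT.nd (nat_lit 156) (nat_lit 0) (nat_lit 0) (XT.nd (nat_lit 78) (nat_lit 76) (nat_lit 0) (XT.lf (nat_lit 0) (nat_lit 31772088892) (nat_lit 152) (nat_lit 423743110) (nat_lit 0) (nat_lit 31642212271) (nat_lit 5) (nat_lit 5) (nat_lit 7) (nat_lit 4) (nat_lit 5) (nat_lit 4) (nat_lit 439) (nat_lit 231) (nat_lit 230)) (XT.lf (nat_lit 0) (nat_lit 6952225657) (nat_lit 76) (nat_lit 29470799771) (nat_lit 76) (nat_lit 29214829343) (nat_lit 4) (nat_lit 4) (nat_lit 5) (nat_lit 5) (nat_lit 5) (nat_lit 4) (nat_lit 440) (nat_lit 231) (nat_lit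 229))) (XT.nd (nat_lit 78) (nat_lit 0) (nat_lit 0) (XT.lf (nat_lit 0) (nat_lit 14416654639) (nat_lit 76) (nat_lit 26727738405) (nat_lit 76) (nat_lit 26349346805) (nat_lit 4) (nat_lit 4) (nat_lit 5) (nat_lit 5) (nat_lit 5) (nat_lit 4) (nat_lit 441) (nat_lit 231) (nat_lit 228)) (XT.lf (nat_lit 0) (nat_lit 21967632831) (nat_lit 76) (nat_lit 23968530029) (nat_lit 76) (nat_lit 23471282922) (nat_lit 4) (nat_lit 4) (nat_lit 5) (nat_lit 5) (nat_lit 5) (nat_lit 4) (nat_lit 442) (nat_lit 231) (nat_lit 227)))))) (XT.nd (nat_lit 468) (nat_lit 76) (nat_lit 0) (XT.nd (nat_lit 234) (nat_lit 0) (nat_lit 0) (XT.nd (nat_lit 78) (nat_lit 0) (nat_lit 0) (XT.lf (nat_lit 0) (nat_lit 29611758177) (nat_lit 76) (nat_lit 21190763684) (nat_lit 76) (nat_lit 20578122881) (nat_lit 4) (nat_lit 4) (nat_lit 5) (nat_lit 5) (nat_lit 5) (nat_lit 4) (nat_lit 443) (nat_lit 231) (nat_lit 226)) (XT.nd (nat_lit 78) (nat_lit 0) (nat_lit 0) (XT.lf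 (nat_lit 0) (nat_lit 37355710009) (nat_lit 76) (nat_lit 18392012196) (nat_lit 76) (nat_lit 17667338679) (nat_lit 4) (nat_lit 4) (nat_lit 5) (nat_lit 5) (nat_lit 5) (nat_lit 4) (nat_lit 444) (nat_lit 231) (nat_lit 225)) (XT.lf (nat_lit 0) (nat_lit 45206254887) (nat_lit 76) (nat_lit 15569830054) (nat_lit 76) (nat_lit 14736386912) (nat_lit 4) (nat_lit 4) (nat_lit 5) (nat_lit 5) (nat_lit 5) (nat_lit 4) (nat_lit 445) (nat_lit 231) (nat_lit 224)))) (XT.nd (nat_lit 78) (nat_lit 0) (nat_lit 0) (XT.lf (nat_lit 0) (nat_lit 53170252510) (nat_lit 76) (nat_lit 12721751273) (nat_lit 76) (nat_lit 11782706553) (nat_lit 4) (nat_lit 4) (nat_lit 5) (nat_lit 5) (nat_lit 5) (nat_lit 4) (nat_lit 446) (nat_lit 231) (nat_lit 223)) (XT.nd (nat_lit 78) (nat_lit 0) (nat_lit 0) (XT.lf (nat_lit 0) (nat_lit 61254661712) (nat_lit 76) (nat_lit 9845287242) (nat_lit 76) (nat_lit 8803716717) (nat_lit 4) (nat_lit 4) (nat_lit 5) (nat_lit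 5) (nat_lit 5) (nat_lit 4) (nat_lit 447) (nat_lit 231) (nat_lit 222)) (XT.lf (nat_lit 0) (nat_lit 69466546539) (nat_lit 76) (nat_lit 6937924544) (nat_lit 76) (nat_lit 5796814404) (nat_lit 4) (nat_lit 4) (nat_lit 5) (nat_lit 5) (nat_lit 5) (nat_lit 4) (nat_lit 448) (nat_lit 231) (nat_lit 221))))) (XT.nd (nat_lit 45942) (nat_lit 0) (nat_lit 76) (XT.nd (nat_lit 78) (nat_lit 76) (nat_lit 0) (XT.lf (nat_lit 0) (nat_lit 77813082424) (nat_lit 76) (nat_lit 3997122766) (nat_lit 76) (nat_lit 2759372222) (nat_lit 4) (nat_lit 4) (nat_lit 5) (nat_lit 5) (nat_lit 5) (nat_lit 4) (nat_lit 449) (nat_lit 231) (nat_lit 220)) (XT.nd (nat_lit 45786) (nat_lit 0) (nat_lit 152) (XT.lf (nat_lit 0) (nat_lit 305190022) (nat_lit 152) (nat_lit 712040432) (nat_lit 76) (nat_lit 85993290614) (nat_lit 3) (nat_lit 5) (nat_lit 5) (nat_lit 5) (nat_lit 4) (nat_lit 4) (nat_lit 450) (nat_lit 231) (nat_lit 219)) (XT.lf (nat_lit 0) (nat_lit 9272779691)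 (nat_lit 152) (nat_lit 10831069805) (nat_lit 0) (nat_lit 9272779691) (nat_lit 5) (nat_lit 5) (nat_lit 7) (nat_lit 4) (nat_lit 5) (nat_lit 4) (nat_lit 436) (nat_lit 232) (nat_lit 232)))) (XT.nd (nat_lit 156) (nat_lit 76) (nat_lit 0) (XT.nd (nat_lit 78) (nat_lit 0) (nat_lit 0) (XT.lf (nat_lit 0) (nat_lit 22918200849) (nat_lit 152) (nat_lit 14694201763) (nat_lit 0) (nat_lit 22784427929) (nat_lit 5) (nat_lit 5) (nat_lit 7) (nat_lit 4) (nat_lit 5) (nat_lit 4) (nat_lit 437) (nat_lit 232) (nat_lit 231)) (XT.lf (nat_lit 0) (nat_lit 27345620043) (nat_lit 152) (nat_lit 7664419175) (nat_lit 0) (nat_lit 27081970502) (nat_lit 5) (nat_lit 5) (nat_lit 7) (nat_lit 4) (nat_lit 5) (nat_lit 4) (nat_lit 438) (nat_lit 232) (nat_lit 230))) (XT.nd (nat_lit 78) (nat_lit 76) (nat_lit 0) (XT.lf (nat_lit 0) (nat_lit 31831685582) (nat_lit 152) (nat_lit 566649319) (nat_lit 0) (nat_lit 31441942234) (nat_lit 5) (nat_lit 5) (nat_lit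 7) (nat_lit 4) (nat_lit 5) (nat_lit 4) (nat_lit 439) (nat_lit 232) (nat_lit 229)) (XT.lf (nat_lit 0) (nat_lit 6736768355) (nat_lit 76) (nat_lit 29708306913) (nat_lit 76) (nat_lit 29196142393) (nat_lit 4) (nat_lit 4) (nat_lit 5) (nat_lit 5) (nat_lit 5) (nat_lit 4) (nat_lit 440) (nat_lit 232) (nat_lit 228))))))))
noncomputable def xc1 : XT := (XT.nd (nat_lit 47580) (nat_lit 0) (nat_lit 76) (XT.nd (nat_lit 46566) (nat_lit 0) (nat_lit 76) (XT.nd (nat_lit 468) (nat_lit 76) (nat_lit 0) (XT.nd (nat_lit 234) (nat_lit 0) (nat_lit 0) (XT.nd (nat_lit 78) (nat_lit 0) (nat_lit 0) (XT.lf (nat_lit 0) (nat_lit 14133520657) (nat_lit 76) (nat_lit 26997829207) (nat_lit 76) (nat_lit 26366809180) (nat_lit 4) (nat_lit 4) (nat_lit 5) (nat_lit 5) (nat_lit 5) (nat_lit 4) (nat_lit 441) (nat_lit 232) (nat_lit 227)) (XT.nd (nat_lit 78) (nat_lit 0) (nat_lit 0) (XT.lf (nat_lit 0) (nat_lit 21618793336) (nat_lit 76) (nat_lit 24270255453)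 (nat_lit 76) (nat_lit 23523841731) (nat_lit 4) (nat_lit 4) (nat_lit 5) (nat_lit 5) (nat_lit 5) (nat_lit 4) (nat_lit 442) (nat_lit 232) (nat_lit 226)) (XT.lf (nat_lit 0) (nat_lit 29199126921) (nat_lit 76) (nat_lit 21523202333) (nat_lit 76) (nat_lit 20664755897) (nat_lit 4) (nat_lit 4) (nat_lit 5) (nat_lit 5) (nat_lit 5) (nat_lit 4) (nat_lit 443) (nat_lit 232) (nat_lit 225)))) (XT.nd (nat_lit 78) (nat_lit 0) (nat_lit 0) (XT.lf (nat_lit 0) (nat_lit 36881145005) (nat_lit 76) (nat_lit 18754269511) (nat_lit 76) (nat_lit 17787053448) (nat_lit 4) (nat_lit 4) (nat_lit 5) (nat_lit 5) (nat_lit 5) (nat_lit 4) (nat_lit 444) (nat_lit 232) (nat_lit 224)) (XT.nd (nat_lit 78) (nat_lit 0) (nat_lit 0) (XT.lf (nat_lit 0) (nat_lit 44671560030) (nat_lit 76) (nat_lit 15961037529) (nat_lit 76) (nat_lit 14888219889) (nat_lit 4) (nat_lit 4) (nat_lit 5) (nat_lit 5) (nat_lit 5) (nat_lit 4) (nat_lit 445) (nat_lit 232) (nat_lit 223))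 (XT.lf (nat_lit 0) (nat_lit 52577179156) (nat_lit 76) (nat_lit 13141065701) (nat_lit 76) (nat_lit 11965722256) (nat_lit 4) (nat_lit 4) (nat_lit 5) (nat_lit 5) (nat_lit 5) (nat_lit 4) (nat_lit 446) (nat_lit 232) (nat_lit 222))))) (XT.nd (nat_lit 234) (nat_lit 76) (nat_lit 0) (XT.nd (nat_lit 78) (nat_lit 0) (nat_lit 0) (XT.lf (nat_lit 0) (nat_lit 60604910205) (nat_lit 76) (nat_lit 10291889972) (nat_lit 76) (nat_lit 9017006912) (nat_lit 4) (nat_lit 4) (nat_lit 5) (nat_lit 5) (nat_lit 5) (nat_lit 4) (nat_lit 447) (nat_lit 232) (nat_lit 221)) (XT.nd (nat_lit 78) (nat_lit 0) (nat_lit 0) (XT.lf (nat_lit 0) (nat_lit 68761767698) (nat_lit 76) (nat_lit 7411020772) (nat_lit 76) (nat_lit 6039497308) (nat_lit 4) (nat_lit 4) (nat_lit 5) (nat_lit 5) (nat_lit 5) (nat_lit 4) (nat_lit 448) (nat_lit 232) (nat_lit 220)) (XT.lf (nat_lit 0) (nat_lit 77054878988) (nat_lit 76) (nat_lit 4495940837) (nat_lit 76) (nat_lit 3030591738)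 (nat_lit 4) (nat_lit 4) (nat_lit 5) (nat_lit 5) (nat_lit 5) (nat_lit 4) (nat_lit 449) (nat_lit 232) (nat_lit 219)))) (XT.nd (nat_lit 45708) (nat_lit 0) (nat_lit 152) (XT.nd (nat_lit 45630) (nat_lit 0) (nat_lit 152) (XT.lf (nat_lit 0) (nat_lit 12098161) (nat_lit 152) (nat_lit 1531882680) (nat_lit 76) (nat_lit 85479270154) (nat_lit 3) (nat_lit 5) (nat_lit 5) (nat_lit 5) (nat_lit 4) (nat_lit 4) (nat_lit 450) (nat_lit 232) (nat_lit 218)) (XT.lf (nat_lit 0) (nat_lit 5063542751) (nat_lit 152) (nat_lit 17679930731) (nat_lit 0) (nat_lit 5063542751) (nat_lit 5) (nat_lit 5) (nat_lit 7) (nat_lit 4) (nat_lit 5) (nat_lit 4) (nat_lit 434) (nat_lit 233) (nat_lit 233))) (XT.nd (nat_lit 78) (nat_lit 0) (nat_lit 0) (XT.lf (nat_lit 0) (nat_lit 14361660994) (nat_lit 152) (nat_lit 28574321208) (nat_lit 0) (nat_lit 14223874887) (nat_lit 5) (nat_lit 5) (nat_lit 7) (nat_lit 4) (nat_lit 5) (nat_lit 4) (nat_lit 435) (nat_lit 233)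 (nat_lit 232)) (XT.lf (nat_lit 0) (nat_lit 18644580187) (nat_lit 152) (nat_lit 21736823945) (nat_lit 0) (nat_lit 18373021160) (nat_lit 5) (nat_lit 5) (nat_lit 7) (nat_lit 4) (nat_lit 5) (nat_lit 4) (nat_lit 436) (nat_lit 233) (nat_lit 231)))))) (XT.nd (nat_lit 468) (nat_lit 0) (nat_lit 0) (XT.nd (nat_lit 234) (nat_lit 76) (nat_lit 0) (XT.nd (nat_lit 78) (nat_lit 0) (nat_lit 0) (XT.lf (nat_lit 0) (nat_lit 22979585439) (nat_lit 152) (nat_lit 14841395159) (nat_lit 0) (nat_lit 22578149790) (nat_lit 5) (nat_lit 5) (nat_lit 7) (nat_lit 4) (nat_lit 5) (nat_lit 4) (nat_lit 437) (nat_lit 233) (nat_lit 230)) (XT.nd (nat_lit 78) (nat_lit 0) (nat_lit 0) (XT.lf (nat_lit 0) (nat_lit 27370464618) (nat_lit 152) (nat_lit 7882009718) (nat_lit 0) (nat_lit 26842935162) (nat_lit 5) (nat_lit 5) (nat_lit 7) (nat_lit 4) (nat_lit 5) (nat_lit 4) (nat_lit 438) (nat_lit 233) (nat_lit 229)) (XT.lf (nat_lit 0) (nat_lit 31821054414)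 (nat_lit 152) (nat_lit 852586607) (nat_lit 0) (nat_lit 31171103787) (nat_lit 5) (nat_lit 5) (nat_lit 7) (nat_lit 4) (nat_lit 5) (nat_lit 4) (nat_lit 439) (nat_lit 233) (nat_lit 228)))) (XT.nd (nat_lit 78) (nat_lit 0) (nat_lit 0) (XT.lf (nat_lit 0) (nat_lit 6377463675) (nat_lit 76) (nat_lit 30019084100) (nat_lit 76) (nat_lit 29250277966) (nat_lit 4) (nat_lit 4) (nat_lit 5) (nat_lit 5) (nat_lit 5) (nat_lit 4) (nat_lit 440) (nat_lit 233) (nat_lit 227)) (XT.nd (nat_lit 78) (nat_lit 0) (nat_lit 0) (XT.lf (nat_lit 0) (nat_lit 13708510464) (nat_lit 76) (nat_lit 27340241016) (nat_lit 76) (nat_lit 26456041186) (nat_lit 4) (nat_lit 4) (nat_lit 5) (nat_lit 5) (nat_lit 5) (nat_lit 4) (nat_lit 441) (nat_lit 233) (nat_lit 226)) (XT.lf (nat_lit 0) (nat_lit 21129991382) (nat_lit 76) (nat_lit 24643380487) (nat_lit 76) (nat_lit 23647147943) (nat_lit 4) (nat_lit 4) (nat_lit 5) (nat_lit 5) (nat_lit 5) (nat_lit 4) (nat_lit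 442) (nat_lit 233) (nat_lit 225))))) (XT.nd (nat_lit 234) (nat_lit 0) (nat_lit 0) (XT.nd (nat_lit 78) (nat_lit 0) (nat_lit 0) (XT.lf (nat_lit 0) (nat_lit 28648391219) (nat_lit 76) (nat_lit 21926146033) (nat_lit 76) (nat_lit 20821143863) (nat_lit 4) (nat_lit 4) (nat_lit 5) (nat_lit 5) (nat_lit 5) (nat_lit 4) (nat_lit 443) (nat_lit 233) (nat_lit 224)) (XT.nd (nat_lit 78) (nat_lit 0) (nat_lit 0) (XT.lf (nat_lit 0) (nat_lit 36270279450) (nat_lit 76) (nat_lit 19186163371) (nat_lit 76) (nat_lit 17975559623) (nat_lit 4) (nat_lit 4) (nat_lit 5) (nat_lit 5) (nat_lit 5) (nat_lit 4) (nat_lit 444) (nat_lit 233) (nat_lit 223)) (XT.lf (nat_lit 0) (nat_lit 44002315978) (nat_lit 76) (nat_lit 16421038341) (nat_lit 76) (nat_lit 15107908789) (nat_lit 4) (nat_lit 4) (nat_lit 5) (nat_lit 5) (nat_lit 5) (nat_lit 4) (nat_lit 445) (nat_lit 233) (nat_lit 222)))) (XT.nd (nat_lit 156) (nat_lit 0) (nat_lit 0) (XT.nd (nat_lit 78)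 (nat_lit 0) (nat_lit 0) (XT.lf (nat_lit 0) (nat_lit 51851256950) (nat_lit 76) (nat_lit 13628354815) (nat_lit 76) (nat_lit 12215685648) (nat_lit 4) (nat_lit 4) (nat_lit 5) (nat_lit 5) (nat_lit 5) (nat_lit 4) (nat_lit 446) (nat_lit 233) (nat_lit 221)) (XT.lf (nat_lit 0) (nat_lit 59823960666) (nat_lit 76) (nat_lit 10805672585) (nat_lit 76) (nat_lit 9296363013) (nat_lit 4) (nat_lit 4) (nat_lit 5) (nat_lit 5) (nat_lit 5) (nat_lit 4) (nat_lit 447) (nat_lit 233) (nat_lit 220))) (XT.nd (nat_lit 78) (nat_lit 0) (nat_lit 0) (XT.lf (nat_lit 0) (nat_lit 67927393564) (nat_lit 76) (nat_lit 7950525227) (nat_lit 76) (nat_lit 6347390021) (nat_lit 4) (nat_lit 4) (nat_lit 5) (nat_lit 5) (nat_lit 5) (nat_lit 4) (nat_lit 448) (nat_lit 233) (nat_lit 219)) (XT.lf (nat_lit 0) (nat_lit 76168636315) (nat_lit 76) (nat_lit 5060417955) (nat_lit 76) (nat_lit 3366189900) (nat_lit 4) (nat_lit 4) (nat_lit 5) (nat_lit 5) (nat_lit 5) (nat_lit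 4) (nat_lit 449) (nat_lit 233) (nat_lit 218))))))) (XT.nd (nat_lit 46410) (nat_lit 0) (nat_lit 0) (XT.nd (nat_lit 45864) (nat_lit 0) (nat_lit 0) (XT.nd (nat_lit 45630) (nat_lit 0) (nat_lit 76) (XT.nd (nat_lit 45474) (nat_lit 0) (nat_lit 76) (XT.lf (nat_lit 0) (nat_lit 84554890004) (nat_lit 76) (nat_lit 2132825430) (nat_lit 76) (nat_lit 350157716) (nat_lit 4) (nat_lit 4) (nat_lit 5) (nat_lit 5) (nat_lit 5) (nat_lit 4) (nat_lit 450) (nat_lit 233) (nat_lit 217)) (XT.nd (nat_lit 78) (nat_lit 0) (nat_lit 0) (XT.lf (nat_lit 0) (nat_lit 985624988) (nat_lit 152) (nat_lit 24359757280) (nat_lit 0) (nat_lit 985624988) (nat_lit 5) (nat_lit 5) (nat_lit 7) (nat_lit 4) (nat_lit 5) (nat_lit 4) (nat_lit 432) (nat_lit 234) (nat_lit 234)) (XT.lf (nat_lit 0) (nat_lit 6079073290) (nat_lit 152) (nat_lit 42099373818) (nat_lit 0) (nat_lit 5937153599) (nat_lit 5) (nat_lit 5) (nat_lit 7) (nat_lit 4) (nat_lit 5) (nat_lit 4) (nat_lit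 433) (nat_lit 234) (nat_lit 233)))) (XT.nd (nat_lit 78) (nat_lit 0) (nat_lit 0) (XT.lf (nat_lit 0) (nat_lit 10229076933) (nat_lit 152) (nat_lit 35436786326) (nat_lit 0) (nat_lit 9949371135) (nat_lit 5) (nat_lit 5) (nat_lit 7) (nat_lit 4) (nat_lit 5) (nat_lit 4) (nat_lit 434) (nat_lit 234) (nat_lit 232)) (XT.nd (nat_lit 78) (nat_lit 0) (nat_lit 0) (XT.lf (nat_lit 0) (nat_lit 14424887122) (nat_lit 152) (nat_lit 28725930406) (nat_lit 0) (nat_lit 14011408404) (nat_lit 5) (nat_lit 5) (nat_lit 7) (nat_lit 4) (nat_lit 5) (nat_lit 4) (nat_lit 435) (nat_lit 234) (nat_lit 231)) (XT.lf (nat_lit 0) (nat_lit 18670170100) (nat_lit 152) (nat_lit 21960942204) (nat_lit 0) (nat_lit 18126814761) (nat_lit 5) (nat_lit 5) (nat_lit 7) (nat_lit 4) (nat_lit 5) (nat_lit 4) (nat_lit 436) (nat_lit 234) (nat_lit 230))))) (XT.nd (nat_lit 234) (nat_lit 76) (nat_lit 0) (XT.nd (nat_lit 78) (nat_lit 0) (nat_lit 0) (XT.lf (nat_lit 0) (nat_lit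 22968635336) (nat_lit 152) (nat_lit 15135910565) (nat_lit 0) (nat_lit 22299186190) (nat_lit 5) (nat_lit 5) (nat_lit 7) (nat_lit 4) (nat_lit 5) (nat_lit 4) (nat_lit 437) (nat_lit 234) (nat_lit 229)) (XT.nd (nat_lit 78) (nat_lit 0) (nat_lit 0) (XT.lf (nat_lit 0) (nat_lit 27324038773) (nat_lit 152) (nat_lit 8244871870) (nat_lit 0) (nat_lit 26532168454) (nat_lit 5) (nat_lit 5) (nat_lit 7) (nat_lit 4) (nat_lit 5) (nat_lit 4) (nat_lit 438) (nat_lit 234) (nat_lit 228)) (XT.lf (nat_lit 0) (nat_lit 31740186100) (nat_lit 152) (nat_lit 1281804822) (nat_lit 0) (nat_lit 30829460276) (nat_lit 5) (nat_lit 5) (nat_lit 7) (nat_lit 4) (nat_lit 5) (nat_lit 4) (nat_lit 439) (nat_lit 234) (nat_lit 227)))) (XT.nd (nat_lit 156) (nat_lit 0) (nat_lit 0) (XT.nd (nat_lit 78) (nat_lit 0) (nat_lit 0) (XT.lf (nat_lit 0) (nat_lit 5873997663) (nat_lit 76) (nat_lit 30403402885) (nat_lit 76) (nat_lit 29377283364) (nat_lit 4) (nat_lit 4)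 (nat_lit 5) (nat_lit 5) (nat_lit 5) (nat_lit 4) (nat_lit 440) (nat_lit 234) (nat_lit 226)) (XT.lf (nat_lit 0) (nat_lit 13141252691) (nat_lit 76) (nat_lit 27755273027) (nat_lit 76) (nat_lit 26617120792) (nat_lit 4) (nat_lit 4) (nat_lit 5) (nat_lit 5) (nat_lit 5) (nat_lit 4) (nat_lit 441) (nat_lit 234) (nat_lit 225))) (XT.nd (nat_lit 78) (nat_lit 0) (nat_lit 0) (XT.lf (nat_lit 0) (nat_lit 20500799861) (nat_lit 76) (nat_lit 25088231163) (nat_lit 76) (nat_lit 23841309303) (nat_lit 4) (nat_lit 4) (nat_lit 5) (nat_lit 5) (nat_lit 5) (nat_lit 4) (nat_lit 442) (nat_lit 234) (nat_lit 224)) (XT.lf (nat_lit 0) (nat_lit 27959069845) (nat_lit 76) (nat_lit 22399946869) (nat_lit 76) (nat_lit 21047423431) (nat_lit 4) (nat_lit 4) (nat_lit 5) (nat_lit 5) (nat_lit 5) (nat_lit 4) (nat_lit 443) (nat_lit 234) (nat_lit 223)))))) (XT.nd (nat_lit 45786) (nat_lit 0) (nat_lit 76) (XT.nd (nat_lit 234) (nat_lit 0) (nat_lit 0) (XT.nd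 (nat_lit 78) (nat_lit 0) (nat_lit 0) (XT.lf (nat_lit 0) (nat_lit 35522579579) (nat_lit 76) (nat_lit 19688071159) (nat_lit 76) (nat_lit 18233021916) (nat_lit 4) (nat_lit 4) (nat_lit 5) (nat_lit 5) (nat_lit 5) (nat_lit 4) (nat_lit 444) (nat_lit 234) (nat_lit 222)) (XT.nd (nat_lit 78) (nat_lit 0) (nat_lit 0) (XT.lf (nat_lit 0) (nat_lit 43197937953) (nat_lit 76) (nat_lit 16950234432) (nat_lit 76) (nat_lit 15395645574) (nat_lit 4) (nat_lit 4) (nat_lit 5) (nat_lit 5) (nat_lit 5) (nat_lit 4) (nat_lit 445) (nat_lit 234) (nat_lit 221)) (XT.lf (nat_lit 0) (nat_lit 50991851592) (nat_lit 76) (nat_lit 14184044404) (nat_lit 76) (nat_lit 12532815142) (nat_lit 4) (nat_lit 4) (nat_lit 5) (nat_lit 5) (nat_lit 5) (nat_lit 4) (nat_lit 446) (nat_lit 234) (nat_lit 220)))) (XT.nd (nat_lit 156) (nat_lit 0) (nat_lit 0) (XT.nd (nat_lit 78) (nat_lit 0) (nat_lit 0) (XT.lf (nat_lit 0) (nat_lit 58911130712) (nat_lit 76) (nat_lit 11387084016)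 (nat_lit 76) (nat_lit 9642029120) (nat_lit 4) (nat_lit 4) (nat_lit 5) (nat_lit 5) (nat_lit 5) (nat_lit 4) (nat_lit 447) (nat_lit 234) (nat_lit 219)) (XT.lf (nat_lit 0) (nat_lit 66962695072) (nat_lit 76) (nat_lit 8556909322) (nat_lit 76) (nat_lit 6720761576) (nat_lit 4) (nat_lit 4) (nat_lit 5) (nat_lit 5) (nat_lit 5) (nat_lit 4) (nat_lit 448) (nat_lit 234) (nat_lit 218))) (XT.nd (nat_lit 78) (nat_lit 0) (nat_lit 0) (XT.lf (nat_lit 0) (nat_lit 75153580018) (nat_lit 76) (nat_lit 5691047353) (nat_lit 76) (nat_lit 3766459948) (nat_lit 4) (nat_lit 4) (nat_lit 5) (nat_lit 5) (nat_lit 5) (nat_lit 4) (nat_lit 449) (nat_lit 234) (nat_lit 217)) (XT.lf (nat_lit 0) (nat_lit 83490942634) (nat_lit 76) (nat_lit 2786993958) (nat_lit 76) (nat_lit 776542806) (nat_lit 4) (nat_lit 4) (nat_lit 5) (nat_lit 5) (nat_lit 5) (nat_lit 4) (nat_lit 450) (nat_lit 234) (nat_lit 216))))) (XT.nd (nat_lit 234) (nat_lit 0) (nat_lit 0) (XT.nd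 (nat_lit 78) (nat_lit 152) (nat_lit 0) (XT.lf (nat_lit 0) (nat_lit 19054517511) (nat_lit 76) (nat_lit 2942685602) (nat_lit 76) (nat_lit 2942685602) (nat_lit 7) (nat_lit 4) (nat_lit 8) (nat_lit 5) (nat_lit 8) (nat_lit 4) (nat_lit 430) (nat_lit 235) (nat_lit 235)) (XT.nd (nat_lit 78) (nat_lit 152) (nat_lit 0) (XT.lf (nat_lit 0) (nat_lit 47240774504) (nat_lit 76) (nat_lit 2080323126) (nat_lit 76) (nat_lit 1929760526) (nat_lit 7) (nat_lit 4) (nat_lit 8) (nat_lit 5) (nat_lit 8) (nat_lit 4) (nat_lit 431) (nat_lit 235) (nat_lit 234)) (XT.lf (nat_lit 0) (nat_lit 2076301149) (nat_lit 152) (nat_lit 48798747171) (nat_lit 0) (nat_lit 1788204177) (nat_lit 5) (nat_lit 5) (nat_lit 7) (nat_lit 4) (nat_lit 5) (nat_lit 4) (nat_lit 432) (nat_lit 235) (nat_lit 233)))) (XT.nd (nat_lit 156) (nat_lit 0) (nat_lit 0) (XT.nd (nat_lit 78) (nat_lit 0) (nat_lit 0) (XT.lf (nat_lit 0) (nat_lit 6144196202) (nat_lit 152) (nat_lit 42255531291)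 (nat_lit 0) (nat_lit 5718313122) (nat_lit 5) (nat_lit 5) (nat_lit 7) (nat_lit 4) (nat_lit 5) (nat_lit 4) (nat_lit 433) (nat_lit 235) (nat_lit 232)) (XT.lf (nat_lit 0) (nat_lit 10255434543) (nat_lit 152) (nat_lit 35667628133) (nat_lit 0) (nat_lit 9695778543) (nat_lit 5) (nat_lit 5) (nat_lit 7) (nat_lit 4) (nat_lit 5) (nat_lit 4) (nat_lit 434) (nat_lit 235) (nat_lit 231))) (XT.nd (nat_lit 78) (nat_lit 0) (nat_lit 0) (XT.lf (nat_lit 0) (nat_lit 14413608516) (nat_lit 152) (nat_lit 29029281275) (nat_lit 0) (nat_lit 13724075896) (nat_lit 5) (nat_lit 5) (nat_lit 7) (nat_lit 4) (nat_lit 5) (nat_lit 4) (nat_lit 435) (nat_lit 235) (nat_lit 230)) (XT.lf (nat_lit 0) (nat_lit 18622351479) (nat_lit 152) (nat_lit 22334690220) (nat_lit 0) (nat_lit 17806725052) (nat_lit 5) (nat_lit 5) (nat_lit 7) (nat_lit 4) (nat_lit 5) (nat_lit 4) (nat_lit 436) (nat_lit 235) (nat_lit 229))))))))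
noncomputable def xc2 : XT := (XT.nd (nat_lit 47112) (nat_lit 0) (nat_lit 0) (XT.nd (nat_lit 1014) (nat_lit 0) (nat_lit 0) (XT.nd (nat_lit 468) (nat_lit 0) (nat_lit 0) (XT.nd (nat_lit 234) (nat_lit 76) (nat_lit 0) (XT.nd (nat_lit 78) (nat_lit 0) (nat_lit 0) (XT.lf (nat_lit 0) (nat_lit 22885340973) (nat_lit 152) (nat_lit 15578005327) (nat_lit 0) (nat_lit 21947293374) (nat_lit 5) (nat_lit 5) (nat_lit 7) (nat_lit 4) (nat_lit 5) (nat_lit 4) (nat_lit 437) (nat_lit 235) (nat_lit 228)) (XT.nd (nat_lit 78) (nat_lit 0) (nat_lit 0) (XT.lf (nat_lit 0) (nat_lit 27206301941) (nat_lit 152) (nat_lit 8753322694) (nat_lit 0) (nat_lit 26149398834) (nat_lit 5) (nat_lit 5) (nat_lit 7) (nat_lit 4) (nat_lit 5) (nat_lit 4) (nat_lit 438) (nat_lit 235) (nat_lit 227)) (XT.lf (nat_lit 0) (nat_lit 31589009978) (nat_lit 152) (nat_lit 1854679009) (nat_lit 0) (nat_lit 30416713176) (nat_lit 5) (nat_lit 5) (nat_lit 7) (nat_lit 4) (nat_lit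 5) (nat_lit 4) (nat_lit 439) (nat_lit 235) (nat_lit 226)))) (XT.nd (nat_lit 78) (nat_lit 0) (nat_lit 0) (XT.lf (nat_lit 0) (nat_lit 5225930396) (nat_lit 76) (nat_lit 30861599081) (nat_lit 76) (nat_lit 29577269565) (nat_lit 4) (nat_lit 4) (nat_lit 5) (nat_lit 5) (nat_lit 5) (nat_lit 4) (nat_lit 440) (nat_lit 235) (nat_lit 225)) (XT.nd (nat_lit 78) (nat_lit 0) (nat_lit 0) (XT.lf (nat_lit 0) (nat_lit 12431251676) (nat_lit 76) (nat_lit 28243287888) (nat_lit 76) (nat_lit 26850188746) (nat_lit 4) (nat_lit 4) (nat_lit 5) (nat_lit 5) (nat_lit 5) (nat_lit 4) (nat_lit 441) (nat_lit 235) (nat_lit 224)) (XT.lf (nat_lit 0) (nat_lit 19730668993) (nat_lit 76) (nat_lit 25605196185) (nat_lit 76) (nat_lit 24106495465) (nat_lit 4) (nat_lit 4) (nat_lit 5) (nat_lit 5) (nat_lit 5) (nat_lit 4) (nat_lit 442) (nat_lit 235) (nat_lit 223))))) (XT.nd (nat_lit 234) (nat_lit 0) (nat_lit 0) (XT.nd (nat_lit 78) (nat_lit 0) (nat_lit 0)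 (XT.lf (nat_lit 0) (nat_lit 27130560479) (nat_lit 76) (nat_lit 22945018843) (nat_lit 76) (nat_lit 21343792319) (nat_lit 4) (nat_lit 4) (nat_lit 5) (nat_lit 5) (nat_lit 5) (nat_lit 4) (nat_lit 443) (nat_lit 235) (nat_lit 222)) (XT.nd (nat_lit 78) (nat_lit 0) (nat_lit 0) (XT.lf (nat_lit 0) (nat_lit 34637392060) (nat_lit 76) (nat_lit 20260431436) (nat_lit 76) (nat_lit 18559665296) (nat_lit 4) (nat_lit 4) (nat_lit 5) (nat_lit 5) (nat_lit 5) (nat_lit 4) (nat_lit 444) (nat_lit 235) (nat_lit 221)) (XT.lf (nat_lit 0) (nat_lit 42257723101) (nat_lit 76) (nat_lit 17549088207) (nat_lit 76) (nat_lit 15751681663) (nat_lit 4) (nat_lit 4) (nat_lit 5) (nat_lit 5) (nat_lit 5) (nat_lit 4) (nat_lit 445) (nat_lit 235) (nat_lit 220)))) (XT.nd (nat_lit 156) (nat_lit 0) (nat_lit 0) (XT.nd (nat_lit 78) (nat_lit 0) (nat_lit 0) (XT.lf (nat_lit 0) (nat_lit 49998212145) (nat_lit 76) (nat_lit 14808620021) (nat_lit 76) (nat_lit 12917387843)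 (nat_lit 4) (nat_lit 4) (nat_lit 5) (nat_lit 5) (nat_lit 5) (nat_lit 4) (nat_lit 446) (nat_lit 235) (nat_lit 219)) (XT.lf (nat_lit 0) (nat_lit 57865622726) (nat_lit 76) (nat_lit 12036632296) (nat_lit 76) (nat_lit 10054307269) (nat_lit 4) (nat_lit 4) (nat_lit 5) (nat_lit 5) (nat_lit 5) (nat_lit 4) (nat_lit 447) (nat_lit 235) (nat_lit 218))) (XT.nd (nat_lit 78) (nat_lit 0) (nat_lit 0) (XT.lf (nat_lit 0) (nat_lit 65866829280) (nat_lit 76) (nat_lit 9230702905) (nat_lit 76) (nat_lit 7159938219) (nat_lit 4) (nat_lit 4) (nat_lit 5) (nat_lit 5) (nat_lit 5) (nat_lit 4) (nat_lit 448) (nat_lit 235) (nat_lit 217)) (XT.lf (nat_lit 0) (nat_lit 74008823153) (nat_lit 76) (nat_lit 6388380066) (nat_lit 76) (nat_lit 4231751633) (nat_lit 4) (nat_lit 4) (nat_lit 5) (nat_lit 5) (nat_lit 5) (nat_lit 4) (nat_lit 449) (nat_lit 235) (nat_lit 216)))))) (XT.nd (nat_lit 45552) (nat_lit 0) (nat_lit 76) (XT.nd (nat_lit 45318) (nat_lit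 0) (nat_lit 76) (XT.nd (nat_lit 45162) (nat_lit 0) (nat_lit 228) (XT.lf (nat_lit 0) (nat_lit 82298718709) (nat_lit 76) (nat_lit 3507180195) (nat_lit 76) (nat_lit 1267188901) (nat_lit 4) (nat_lit 4) (nat_lit 5) (nat_lit 5) (nat_lit 5) (nat_lit 4) (nat_lit 450) (nat_lit 235) (nat_lit 215)) (XT.nd (nat_lit 78) (nat_lit 0) (nat_lit 0) (XT.lf (nat_lit 0) (nat_lit 10126597344) (nat_lit 76) (nat_lit 6752265502) (nat_lit 76) (nat_lit 6752265502) (nat_lit 7) (nat_lit 4) (nat_lit 8) (nat_lit 5) (nat_lit 8) (nat_lit 4) (nat_lit 428) (nat_lit 236) (nat_lit 236)) (XT.lf (nat_lit 0) (nat_lit 29088913014) (nat_lit 76) (nat_lit 9808609443) (nat_lit 76) (nat_lit 9653529966) (nat_lit 7) (nat_lit 4) (nat_lit 8) (nat_lit 5) (nat_lit 8) (nat_lit 4) (nat_lit 429) (nat_lit 236) (nat_lit 235)))) (XT.nd (nat_lit 78) (nat_lit 152) (nat_lit 0) (XT.lf (nat_lit 0) (nat_lit 38030716704) (nat_lit 76) (nat_lit 6077965680) (nat_lit 76)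 (nat_lit 5772323602) (nat_lit 7) (nat_lit 4) (nat_lit 8) (nat_lit 5) (nat_lit 8) (nat_lit 4) (nat_lit 430) (nat_lit 236) (nat_lit 234)) (XT.nd (nat_lit 78) (nat_lit 152) (nat_lit 0) (XT.lf (nat_lit 0) (nat_lit 47086418985) (nat_lit 76) (nat_lit 2309339929) (nat_lit 76) (nat_lit 1857520570) (nat_lit 7) (nat_lit 4) (nat_lit 8) (nat_lit 5) (nat_lit 8) (nat_lit 4) (nat_lit 431) (nat_lit 236) (nat_lit 233)) (XT.lf (nat_lit 0) (nat_lit 2103449487) (nat_lit 152) (nat_lit 49036514232) (nat_lit 0) (nat_lit 1527003808) (nat_lit 5) (nat_lit 5) (nat_lit 7) (nat_lit 4) (nat_lit 5) (nat_lit 4) (nat_lit 432) (nat_lit 236) (nat_lit 232))))) (XT.nd (nat_lit 234) (nat_lit 0) (nat_lit 0) (XT.nd (nat_lit 78) (nat_lit 0) (nat_lit 0) (XT.lf (nat_lit 0) (nat_lit 6132579238) (nat_lit 152) (nat_lit 42567982686) (nat_lit 0) (nat_lit 5422360638) (nat_lit 5) (nat_lit 5) (nat_lit 7) (nat_lit 4) (nat_lit 5) (nat_lit 4) (nat_lit 433)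 (nat_lit 236) (nat_lit 231)) (XT.nd (nat_lit 78) (nat_lit 0) (nat_lit 0) (XT.lf (nat_lit 0) (nat_lit 10206181363) (nat_lit 152) (nat_lit 36052588589) (nat_lit 0) (nat_lit 9366086143) (nat_lit 5) (nat_lit 5) (nat_lit 7) (nat_lit 4) (nat_lit 5) (nat_lit 4) (nat_lit 434) (nat_lit 236) (nat_lit 230)) (XT.lf (nat_lit 0) (nat_lit 14327815322) (nat_lit 152) (nat_lit 29484638879) (nat_lit 0) (nat_lit 13361626295) (nat_lit 5) (nat_lit 5) (nat_lit 7) (nat_lit 4) (nat_lit 5) (nat_lit 4) (nat_lit 435) (nat_lit 236) (nat_lit 229)))) (XT.nd (nat_lit 156) (nat_lit 0) (nat_lit 0) (XT.nd (nat_lit 78) (nat_lit 0) (nat_lit 0) (XT.lf (nat_lit 0) (nat_lit 18501082542) (nat_lit 152) (nat_lit 22858394569) (nat_lit 0) (nat_lit 17412472343) (nat_lit 5) (nat_lit 5) (nat_lit 7) (nat_lit 4) (nat_lit 5) (nat_lit 4) (nat_lit 436) (nat_lit 236) (nat_lit 228)) (XT.lf (nat_lit 0) (nat_lit 22729629568) (nat_lit 152) (nat_lit 16168065739)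 (nat_lit 0) (nat_lit 21522163862) (nat_lit 5) (nat_lit 5) (nat_lit 7) (nat_lit 4) (nat_lit 5) (nat_lit 4) (nat_lit 437) (nat_lit 236) (nat_lit 227))) (XT.nd (nat_lit 78) (nat_lit 0) (nat_lit 0) (XT.lf (nat_lit 0) (nat_lit 27017151245) (nat_lit 152) (nat_lit 9407806469) (nat_lit 0) (nat_lit 25694291843) (nat_lit 5) (nat_lit 5) (nat_lit 7) (nat_lit 4) (nat_lit 5) (nat_lit 4) (nat_lit 438) (nat_lit 236) (nat_lit 226)) (XT.lf (nat_lit 0) (nat_lit 31367393953) (nat_lit 152) (nat_lit 2571709737) (nat_lit 0) (nat_lit 29932501837) (nat_lit 5) (nat_lit 5) (nat_lit 7) (nat_lit 4) (nat_lit 5) (nat_lit 4) (nat_lit 439) (nat_lit 236) (nat_lit 225))))))) (XT.nd (nat_lit 45942) (nat_lit 0) (nat_lit 0) (XT.nd (nat_lit 468) (nat_lit 0) (nat_lit 0) (XT.nd (nat_lit 234) (nat_lit 0) (nat_lit 0) (XT.nd (nat_lit 78) (nat_lit 0) (nat_lit 0) (XT.lf (nat_lit 0) (nat_lit 4432695602) (nat_lit 76) (nat_lit 31394073054) (nat_lit 76)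 (nat_lit 29850411312) (nat_lit 4) (nat_lit 4) (nat_lit 5) (nat_lit 5) (nat_lit 5) (nat_lit 4) (nat_lit 440) (nat_lit 236) (nat_lit 224)) (XT.nd (nat_lit 78) (nat_lit 0) (nat_lit 0) (XT.lf (nat_lit 0) (nat_lit 11577887029) (nat_lit 76) (nat_lit 28804712021) (nat_lit 76) (nat_lit 27155448701) (nat_lit 4) (nat_lit 4) (nat_lit 5) (nat_lit 5) (nat_lit 5) (nat_lit 4) (nat_lit 441) (nat_lit 236) (nat_lit 223)) (XT.lf (nat_lit 0) (nat_lit 18818925849) (nat_lit 76) (nat_lit 26194727270) (nat_lit 76) (nat_lit 24442938146) (nat_lit 4) (nat_lit 4) (nat_lit 5) (nat_lit 5) (nat_lit 5) (nat_lit 4) (nat_lit 442) (nat_lit 236) (nat_lit 222)))) (XT.nd (nat_lit 78) (nat_lit 0) (nat_lit 0) (XT.lf (nat_lit 0) (nat_lit 26162139182) (nat_lit 76) (nat_lit 23561838231) (nat_lit 76) (nat_lit 21710509491) (nat_lit 4) (nat_lit 4) (nat_lit 5) (nat_lit 5) (nat_lit 5) (nat_lit 4) (nat_lit 443) (nat_lit 236) (nat_lit 221)) (XT.nd (nat_lit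 78) (nat_lit 0) (nat_lit 0) (XT.lf (nat_lit 0) (nat_lit 33613943429) (nat_lit 76) (nat_lit 20903744321) (nat_lit 76) (nat_lit 18955775178) (nat_lit 4) (nat_lit 4) (nat_lit 5) (nat_lit 5) (nat_lit 5) (nat_lit 4) (nat_lit 444) (nat_lit 236) (nat_lit 220)) (XT.lf (nat_lit 0) (nat_lit 41180849875) (nat_lit 76) (nat_lit 18218122935) (nat_lit 76) (nat_lit 16176328157) (nat_lit 4) (nat_lit 4) (nat_lit 5) (nat_lit 5) (nat_lit 5) (nat_lit 4) (nat_lit 445) (nat_lit 236) (nat_lit 219))))) (XT.nd (nat_lit 234) (nat_lit 0) (nat_lit 0) (XT.nd (nat_lit 78) (nat_lit 0) (nat_lit 0) (XT.lf (nat_lit 0) (nat_lit 48869470380) (nat_lit 76) (nat_lit 15502627412) (nat_lit 76) (nat_lit 13369739785) (nat_lit 4) (nat_lit 4) (nat_lit 5) (nat_lit 5) (nat_lit 5) (nat_lit 4) (nat_lit 446) (nat_lit 236) (nat_lit 218)) (XT.nd (nat_lit 78) (nat_lit 0) (nat_lit 0) (XT.lf (nat_lit 0) (nat_lit 56686523156) (nat_lit 76) (nat_lit 12754884990)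 (nat_lit 76) (nat_lit 10533557704) (nat_lit 4) (nat_lit 4) (nat_lit 5) (nat_lit 5) (nat_lit 5) (nat_lit 4) (nat_lit 447) (nat_lit 236) (nat_lit 217)) (XT.lf (nat_lit 0) (nat_lit 64638838637) (nat_lit 76) (nat_lit 9972494729) (nat_lit 76) (nat_lit 7665303696) (nat_lit 4) (nat_lit 4) (nat_lit 5) (nat_lit 5) (nat_lit 5) (nat_lit 4) (nat_lit 448) (nat_lit 236) (nat_lit 216)))) (XT.nd (nat_lit 45084) (nat_lit 0) (nat_lit 228) (XT.nd (nat_lit 78) (nat_lit 0) (nat_lit 0) (XT.lf (nat_lit 0) (nat_lit 72733365449) (nat_lit 76) (nat_lit 7153025414) (nat_lit 76) (nat_lit 4762471520) (nat_lit 4) (nat_lit 4) (nat_lit 5) (nat_lit 5) (nat_lit 5) (nat_lit 4) (nat_lit 449) (nat_lit 236) (nat_lit 215)) (XT.lf (nat_lit 0) (nat_lit 80977176480) (nat_lit 76) (nat_lit 4294013431) (nat_lit 76) (nat_lit 1822524720) (nat_lit 4) (nat_lit 4) (nat_lit 5) (nat_lit 5) (nat_lit 5) (nat_lit 4) (nat_lit 450) (nat_lit 236) (nat_lit 214)))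 (XT.nd (nat_lit 78) (nat_lit 0) (nat_lit 0) (XT.lf (nat_lit 0) (nat_lit 1476152930) (nat_lit 76) (nat_lit 10462514994) (nat_lit 76) (nat_lit 10462514994) (nat_lit 7) (nat_lit 4) (nat_lit 8) (nat_lit 5) (nat_lit 8) (nat_lit 4) (nat_lit 426) (nat_lit 237) (nat_lit 237)) (XT.lf (nat_lit 0) (nat_lit 11515841196) (nat_lit 76) (nat_lit 17328691672) (nat_lit 76) (nat_lit 17168959810) (nat_lit 7) (nat_lit 4) (nat_lit 8) (nat_lit 5) (nat_lit 8) (nat_lit 4) (nat_lit 427) (nat_lit 237) (nat_lit 236)))))) (XT.nd (nat_lit 546) (nat_lit 76) (nat_lit 0) (XT.nd (nat_lit 234) (nat_lit 152) (nat_lit 0) (XT.nd (nat_lit 78) (nat_lit 0) (nat_lit 0) (XT.lf (nat_lit 0) (nat_lit 20172526821) (nat_lit 76) (nat_lit 13702903314) (nat_lit 76) (nat_lit 13388091974) (nat_lit 7) (nat_lit 4) (nat_lit 8) (nat_lit 5) (nat_lit 8) (nat_lit 4) (nat_lit 428) (nat_lit 237) (nat_lit 235)) (XT.nd (nat_lit 78) (nat_lit 0) (nat_lit 0) (XT.lf (nat_lit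 0) (nat_lit 28929926828) (nat_lit 76) (nat_lit 10044496750) (nat_lit 76) (nat_lit 9579122810) (nat_lit 7) (nat_lit 4) (nat_lit 8) (nat_lit 5) (nat_lit 8) (nat_lit 4) (nat_lit 429) (nat_lit 237) (nat_lit 234)) (XT.lf (nat_lit 0) (nat_lit 37795693316) (nat_lit 76) (nat_lit 6350275315) (nat_lit 76) (nat_lit 5738724093) (nat_lit 7) (nat_lit 4) (nat_lit 8) (nat_lit 5) (nat_lit 8) (nat_lit 4) (nat_lit 430) (nat_lit 237) (nat_lit 233)))) (XT.nd (nat_lit 156) (nat_lit 0) (nat_lit 0) (XT.nd (nat_lit 78) (nat_lit 152) (nat_lit 0) (XT.lf (nat_lit 0) (nat_lit 46777573071) (nat_lit 76) (nat_lit 2617011047) (nat_lit 76) (nat_lit 1863540135) (nat_lit 7) (nat_lit 4) (nat_lit 8) (nat_lit 5) (nat_lit 8) (nat_lit 4) (nat_lit 431) (nat_lit 237) (nat_lit 232)) (XT.lf (nat_lit 0) (nat_lit 2052718713) (nat_lit 152) (nat_lit 49433023503) (nat_lit 0) (nat_lit 1187420636) (nat_lit 5) (nat_lit 5) (nat_lit 7) (nat_lit 4) (nat_lit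 5) (nat_lit 4) (nat_lit 432) (nat_lit 237) (nat_lit 231))) (XT.nd (nat_lit 78) (nat_lit 0) (nat_lit 0) (XT.lf (nat_lit 0) (nat_lit 6044212248) (nat_lit 152) (nat_lit 43037001019) (nat_lit 0) (nat_lit 5049037549) (nat_lit 5) (nat_lit 5) (nat_lit 7) (nat_lit 4) (nat_lit 5) (nat_lit 4) (nat_lit 433) (nat_lit 237) (nat_lit 230)) (XT.lf (nat_lit 0) (nat_lit 10081274358) (nat_lit 152) (nat_lit 36592004069) (nat_lit 0) (nat_lit 8960005853) (nat_lit 5) (nat_lit 5) (nat_lit 7) (nat_lit 4) (nat_lit 5) (nat_lit 4) (nat_lit 434) (nat_lit 237) (nat_lit 229))))) (XT.nd (nat_lit 234) (nat_lit 76) (nat_lit 0) (XT.nd (nat_lit 78) (nat_lit 0) (nat_lit 0) (XT.lf (nat_lit 0) (nat_lit 14167432575) (nat_lit 152) (nat_lit 30092401104) (nat_lit 0) (nat_lit 12923742897) (nat_lit 5) (nat_lit 5) (nat_lit 7) (nat_lit 4) (nat_lit 5) (nat_lit 4) (nat_lit 435) (nat_lit 237) (nat_lit 228)) (XT.nd (nat_lit 78) (nat_lit 0) (nat_lit 0)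 (XT.lf (nat_lit 0) (nat_lit 18306257326) (nat_lit 152) (nat_lit 23532512857) (nat_lit 0) (nat_lit 16943712142) (nat_lit 5) (nat_lit 5) (nat_lit 7) (nat_lit 4) (nat_lit 5) (nat_lit 4) (nat_lit 436) (nat_lit 237) (nat_lit 227)) (XT.lf (nat_lit 0) (nat_lit 22501365061) (nat_lit 152) (nat_lit 16906607389) (nat_lit 0) (nat_lit 21023426182) (nat_lit 5) (nat_lit 5) (nat_lit 7) (nat_lit 4) (nat_lit 5) (nat_lit 4) (nat_lit 437) (nat_lit 237) (nat_lit 226)))) (XT.nd (nat_lit 156) (nat_lit 76) (nat_lit 0) (XT.nd (nat_lit 78) (nat_lit 0) (nat_lit 0) (XT.lf (nat_lit 0) (nat_lit 26756421409) (nat_lit 152) (nat_lit 10208895073) (nat_lit 0) (nat_lit 25166449815) (nat_lit 5) (nat_lit 5) (nat_lit 7) (nat_lit 4) (nat_lit 5) (nat_lit 4) (nat_lit 438) (nat_lit 237) (nat_lit 225)) (XT.lf (nat_lit 0) (nat_lit 31075144379) (nat_lit 152) (nat_lit 3433523539) (nat_lit 0) (nat_lit 29376403159) (nat_lit 5) (nat_lit 5) (nat_lit 7)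 (nat_lit 4) (nat_lit 5) (nat_lit 4) (nat_lit 439) (nat_lit 237) (nat_lit 224))) (XT.nd (nat_lit 78) (nat_lit 0) (nat_lit 0) (XT.lf (nat_lit 0) (nat_lit 3493600163) (nat_lit 76) (nat_lit 32001290071) (nat_lit 76) (nat_lit 30196947273) (nat_lit 4) (nat_lit 4) (nat_lit 5) (nat_lit 5) (nat_lit 5) (nat_lit 4) (nat_lit 440) (nat_lit 237) (nat_lit 223)) (XT.lf (nat_lit 0) (nat_lit 10580413092) (nat_lit 76) (nat_lit 29440035990) (nat_lit 76) (nat_lit 27533167388) (nat_lit 4) (nat_lit 4) (nat_lit 5) (nat_lit 5) (nat_lit 5) (nat_lit 4) (nat_lit 441) (nat_lit 237) (nat_lit 222))))))))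
noncomputable def xc3 : XT := (XT.nd (nat_lit 46800) (nat_lit 0) (nat_lit 0) (XT.nd (nat_lit 45786) (nat_lit 0) (nat_lit 0) (XT.nd (nat_lit 468) (nat_lit 0) (nat_lit 0) (XT.nd (nat_lit 234) (nat_lit 0) (nat_lit 0) (XT.nd (nat_lit 78) (nat_lit 0) (nat_lit 0) (XT.lf (nat_lit 0) (nat_lit 17764773759) (nat_lit 76) (nat_lit 26857339542) (nat_lit 76) (nat_lit 24850931324) (nat_lit 4) (nat_lit 4) (nat_lit 5) (nat_lit 5) (nat_lit 5) (nat_lit 4) (nat_lit 442) (nat_lit 237) (nat_lit 221)) (XT.nd (nat_lit 78) (nat_lit 0) (nat_lit 0) (XT.lf (nat_lit 0) (nat_lit 25052959759) (nat_lit 76) (nat_lit 24250944001) (nat_lit 76) (nat_lit 22147895380) (nat_lit 4) (nat_lit 4) (nat_lit 5) (nat_lit 5) (nat_lit 5) (nat_lit 4) (nat_lit 443) (nat_lit 237) (nat_lit 220)) (XT.lf (nat_lit 0) (nat_lit 32451339411) (nat_lit 76) (nat_lit 21618571934) (nat_lit 76) (nat_lit 19421697678) (nat_lit 4) (nat_lit 4) (nat_lit 5) (nat_lit 5) (nat_lit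 5) (nat_lit 4) (nat_lit 444) (nat_lit 237) (nat_lit 219)))) (XT.nd (nat_lit 78) (nat_lit 0) (nat_lit 0) (XT.lf (nat_lit 0) (nat_lit 39966377318) (nat_lit 76) (nat_lit 18957923210) (nat_lit 76) (nat_lit 16669956106) (nat_lit 4) (nat_lit 4) (nat_lit 5) (nat_lit 5) (nat_lit 5) (nat_lit 4) (nat_lit 445) (nat_lit 237) (nat_lit 218)) (XT.nd (nat_lit 78) (nat_lit 0) (nat_lit 0) (XT.lf (nat_lit 0) (nat_lit 47604640018) (nat_lit 76) (nat_lit 16266672991) (nat_lit 76) (nat_lit 13890266227) (nat_lit 4) (nat_lit 4) (nat_lit 5) (nat_lit 5) (nat_lit 5) (nat_lit 4) (nat_lit 446) (nat_lit 237) (nat_lit 217)) (XT.lf (nat_lit 0) (nat_lit 55372801721) (nat_lit 76) (nat_lit 13542469699) (nat_lit 76) (nat_lit 11080199188) (nat_lit 4) (nat_lit 4) (nat_lit 5) (nat_lit 5) (nat_lit 5) (nat_lit 4) (nat_lit 447) (nat_lit 237) (nat_lit 216))))) (XT.nd (nat_lit 45006) (nat_lit 0) (nat_lit 228) (XT.nd (nat_lit 78) (nat_lit 0) (nat_lit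 0) (XT.lf (nat_lit 0) (nat_lit 63277650141) (nat_lit 76) (nat_lit 10782932962) (nat_lit 76) (nat_lit 8237299590) (nat_lit 4) (nat_lit 4) (nat_lit 5) (nat_lit 5) (nat_lit 5) (nat_lit 4) (nat_lit 448) (nat_lit 237) (nat_lit 215)) (XT.nd (nat_lit 78) (nat_lit 0) (nat_lit 0) (XT.lf (nat_lit 0) (nat_lit 71326092428) (nat_lit 76) (nat_lit 7985651534) (nat_lit 76) (nat_lit 5359083346) (nat_lit 4) (nat_lit 4) (nat_lit 5) (nat_lit 5) (nat_lit 5) (nat_lit 4) (nat_lit 449) (nat_lit 237) (nat_lit 214)) (XT.lf (nat_lit 0) (nat_lit 79525161201) (nat_lit 76) (nat_lit 5148181189) (nat_lit 76) (nat_lit 2443035509) (nat_lit 4) (nat_lit 4) (nat_lit 5) (nat_lit 5) (nat_lit 5) (nat_lit 4) (nat_lit 450) (nat_lit 237) (nat_lit 213)))) (XT.nd (nat_lit 156) (nat_lit 76) (nat_lit 0) (XT.nd (nat_lit 78) (nat_lit 0) (nat_lit 0) (XT.lf (nat_lit 0) (nat_lit 7229439326) (nat_lit 152) (nat_lit 6784764556) (nat_lit 0) (nat_lit 7229439326)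 (nat_lit 8) (nat_lit 5) (nat_lit 10) (nat_lit 4) (nat_lit 8) (nat_lit 4) (nat_lit 424) (nat_lit 238) (nat_lit 238)) (XT.lf (nat_lit 0) (nat_lit 19187137708) (nat_lit 152) (nat_lit 5417738270) (nat_lit 0) (nat_lit 19022613890) (nat_lit 8) (nat_lit 5) (nat_lit 10) (nat_lit 4) (nat_lit 8) (nat_lit 4) (nat_lit 425) (nat_lit 238) (nat_lit 237))) (XT.nd (nat_lit 78) (nat_lit 0) (nat_lit 0) (XT.lf (nat_lit 0) (nat_lit 2869217958) (nat_lit 76) (nat_lit 21129353467) (nat_lit 76) (nat_lit 20805097787) (nat_lit 7) (nat_lit 4) (nat_lit 8) (nat_lit 5) (nat_lit 8) (nat_lit 4) (nat_lit 426) (nat_lit 238) (nat_lit 236)) (XT.lf (nat_lit 0) (nat_lit 11352085425) (nat_lit 76) (nat_lit 17571655598) (nat_lit 76) (nat_lit 17092320440) (nat_lit 7) (nat_lit 4) (nat_lit 8) (nat_lit 5) (nat_lit 8) (nat_lit 4) (nat_lit 427) (nat_lit 238) (nat_lit 235)))))) (XT.nd (nat_lit 468) (nat_lit 76) (nat_lit 0) (XT.nd (nat_lit 234) (nat_lit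 152) (nat_lit 0) (XT.nd (nat_lit 78) (nat_lit 0) (nat_lit 0) (XT.lf (nat_lit 0) (nat_lit 19930452732) (nat_lit 76) (nat_lit 13983382238) (nat_lit 76) (nat_lit 13353484480) (nat_lit 7) (nat_lit 4) (nat_lit 8) (nat_lit 5) (nat_lit 8) (nat_lit 4) (nat_lit 428) (nat_lit 238) (nat_lit 234)) (XT.nd (nat_lit 78) (nat_lit 0) (nat_lit 0) (XT.lf (nat_lit 0) (nat_lit 28611815538) (nat_lit 76) (nat_lit 10361398001) (nat_lit 76) (nat_lit 9585322962) (nat_lit 7) (nat_lit 4) (nat_lit 8) (nat_lit 5) (nat_lit 8) (nat_lit 4) (nat_lit 429) (nat_lit 238) (nat_lit 233)) (XT.lf (nat_lit 0) (nat_lit 37403759499) (nat_lit 76) (nat_lit 6702538049) (nat_lit 76) (nat_lit 5784543319) (nat_lit 7) (nat_lit 4) (nat_lit 8) (nat_lit 5) (nat_lit 8) (nat_lit 4) (nat_lit 430) (nat_lit 238) (nat_lit 232)))) (XT.nd (nat_lit 78) (nat_lit 152) (nat_lit 0) (XT.lf (nat_lit 0) (nat_lit 46313966899) (nat_lit 76) (nat_lit 3003605318) (nat_lit 76)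 (nat_lit 1947824480) (nat_lit 7) (nat_lit 4) (nat_lit 8) (nat_lit 5) (nat_lit 8) (nat_lit 4) (nat_lit 431) (nat_lit 238) (nat_lit 231)) (XT.nd (nat_lit 78) (nat_lit 0) (nat_lit 0) (XT.lf (nat_lit 0) (nat_lit 1924064498) (nat_lit 152) (nat_lit 49988621447) (nat_lit 0) (nat_lit 769157937) (nat_lit 5) (nat_lit 5) (nat_lit 7) (nat_lit 4) (nat_lit 5) (nat_lit 4) (nat_lit 432) (nat_lit 238) (nat_lit 230)) (XT.lf (nat_lit 0) (nat_lit 5879018018) (nat_lit 152) (nat_lit 43662996110) (nat_lit 0) (nat_lit 4598017650) (nat_lit 5) (nat_lit 5) (nat_lit 7) (nat_lit 4) (nat_lit 5) (nat_lit 4) (nat_lit 433) (nat_lit 238) (nat_lit 229))))) (XT.nd (nat_lit 234) (nat_lit 76) (nat_lit 0) (XT.nd (nat_lit 78) (nat_lit 0) (nat_lit 0) (XT.lf (nat_lit 0) (nat_lit 9880604385) (nat_lit 152) (nat_lit 37286345906) (nat_lit 0) (nat_lit 8477182846) (nat_lit 5) (nat_lit 5) (nat_lit 7) (nat_lit 4) (nat_lit 5) (nat_lit 4) (nat_lit 434)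 (nat_lit 238) (nat_lit 228)) (XT.nd (nat_lit 78) (nat_lit 0) (nat_lit 0) (XT.lf (nat_lit 0) (nat_lit 13932320133) (nat_lit 152) (nat_lit 30853099003) (nat_lit 0) (nat_lit 12410043087) (nat_lit 5) (nat_lit 5) (nat_lit 7) (nat_lit 4) (nat_lit 5) (nat_lit 4) (nat_lit 435) (nat_lit 238) (nat_lit 227)) (XT.lf (nat_lit 0) (nat_lit 18037705594) (nat_lit 152) (nat_lit 24357634119) (nat_lit 0) (nat_lit 16400034853) (nat_lit 5) (nat_lit 5) (nat_lit 7) (nat_lit 4) (nat_lit 5) (nat_lit 4) (nat_lit 436) (nat_lit 238) (nat_lit 226)))) (XT.nd (nat_lit 156) (nat_lit 76) (nat_lit 0) (XT.nd (nat_lit 78) (nat_lit 0) (nat_lit 0) (XT.lf (nat_lit 0) (nat_lit 22200348000) (nat_lit 152) (nat_lit 17794275605) (nat_lit 0) (nat_lit 20450644544) (nat_lit 5) (nat_lit 5) (nat_lit 7) (nat_lit 4) (nat_lit 5) (nat_lit 4) (nat_lit 437) (nat_lit 238) (nat_lit 225)) (XT.lf (nat_lit 0) (nat_lit 26423884609) (nat_lit 152) (nat_lit 11157288486)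 (nat_lit 0) (nat_lit 24565411528) (nat_lit 5) (nat_lit 5) (nat_lit 7) (nat_lit 4) (nat_lit 5) (nat_lit 4) (nat_lit 438) (nat_lit 238) (nat_lit 224))) (XT.nd (nat_lit 78) (nat_lit 76) (nat_lit 0) (XT.lf (nat_lit 0) (nat_lit 30712005892) (nat_lit 152) (nat_lit 4440873455) (nat_lit 0) (nat_lit 28747931232) (nat_lit 5) (nat_lit 5) (nat_lit 7) (nat_lit 4) (nat_lit 5) (nat_lit 4) (nat_lit 439) (nat_lit 238) (nat_lit 223)) (XT.lf (nat_lit 0) (nat_lit 2407823510) (nat_lit 76) (nat_lit 32683780711) (nat_lit 76) (nat_lit 30617180247) (nat_lit 4) (nat_lit 4) (nat_lit 5) (nat_lit 5) (nat_lit 5) (nat_lit 4) (nat_lit 440) (nat_lit 238) (nat_lit 222))))))) (XT.nd (nat_lit 45630) (nat_lit 0) (nat_lit 76) (XT.nd (nat_lit 468) (nat_lit 0) (nat_lit 0) (XT.nd (nat_lit 234) (nat_lit 0) (nat_lit 0) (XT.nd (nat_lit 78) (nat_lit 0) (nat_lit 0) (XT.lf (nat_lit 0) (nat_lit 9437958287) (nat_lit 76) (nat_lit 30149814933) (nat_lit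 76) (nat_lit 27983674854) (nat_lit 4) (nat_lit 4) (nat_lit 5) (nat_lit 5) (nat_lit 5) (nat_lit 4) (nat_lit 441) (nat_lit 238) (nat_lit 221)) (XT.nd (nat_lit 78) (nat_lit 0) (nat_lit 0) (XT.lf (nat_lit 0) (nat_lit 16567291620) (nat_lit 76) (nat_lit 27593611983) (nat_lit 76) (nat_lit 25330831500) (nat_lit 4) (nat_lit 4) (nat_lit 5) (nat_lit 5) (nat_lit 5) (nat_lit 4) (nat_lit 442) (nat_lit 238) (nat_lit 220)) (XT.lf (nat_lit 0) (nat_lit 23802053025) (nat_lit 76) (nat_lit 25012938284) (nat_lit 76) (nat_lit 22656332167) (nat_lit 4) (nat_lit 4) (nat_lit 5) (nat_lit 5) (nat_lit 5) (nat_lit 4) (nat_lit 443) (nat_lit 238) (nat_lit 219)))) (XT.nd (nat_lit 78) (nat_lit 0) (nat_lit 0) (XT.lf (nat_lit 0) (nat_lit 31148564138) (nat_lit 76) (nat_lit 22405538880) (nat_lit 76) (nat_lit 19957839913) (nat_lit 4) (nat_lit 4) (nat_lit 5) (nat_lit 5) (nat_lit 5) (nat_lit 4) (nat_lit 444) (nat_lit 238) (nat_lit 218)) (XT.nd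 (nat_lit 78) (nat_lit 0) (nat_lit 0) (XT.lf (nat_lit 0) (nat_lit 38613244239) (nat_lit 76) (nat_lit 19769135460) (nat_lit 76) (nat_lit 17232996834) (nat_lit 4) (nat_lit 4) (nat_lit 5) (nat_lit 5) (nat_lit 5) (nat_lit 4) (nat_lit 445) (nat_lit 238) (nat_lit 217)) (XT.lf (nat_lit 0) (nat_lit 46202615867) (nat_lit 76) (nat_lit 17101424371) (nat_lit 76) (nat_lit 14479421998) (nat_lit 4) (nat_lit 4) (nat_lit 5) (nat_lit 5) (nat_lit 5) (nat_lit 4) (nat_lit 446) (nat_lit 238) (nat_lit 216))))) (XT.nd (nat_lit 234) (nat_lit 0) (nat_lit 0) (XT.nd (nat_lit 78) (nat_lit 0) (nat_lit 0) (XT.lf (nat_lit 0) (nat_lit 53923310509) (nat_lit 76) (nat_lit 14400074603) (nat_lit 76) (nat_lit 11694709369) (nat_lit 4) (nat_lit 4) (nat_lit 5) (nat_lit 5) (nat_lit 5) (nat_lit 4) (nat_lit 447) (nat_lit 238) (nat_lit 215)) (XT.nd (nat_lit 78) (nat_lit 0) (nat_lit 0) (XT.lf (nat_lit 0) (nat_lit 61782074404) (nat_lit 76) (nat_lit 11662725753)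 (nat_lit 76) (nat_lit 8876425702) (nat_lit 4) (nat_lit 4) (nat_lit 5) (nat_lit 5) (nat_lit 5) (nat_lit 4) (nat_lit 448) (nat_lit 238) (nat_lit 214)) (XT.lf (nat_lit 0) (nat_lit 69785774434) (nat_lit 76) (nat_lit 8886985963) (nat_lit 76) (nat_lit 6022108421) (nat_lit 4) (nat_lit 4) (nat_lit 5) (nat_lit 5) (nat_lit 5) (nat_lit 4) (nat_lit 449) (nat_lit 238) (nat_lit 213)))) (XT.nd (nat_lit 44772) (nat_lit 0) (nat_lit 304) (XT.nd (nat_lit 44694) (nat_lit 0) (nat_lit 304) (XT.lf (nat_lit 0) (nat_lit 77941404122) (nat_lit 76) (nat_lit 6070429830) (nat_lit 76) (nat_lit 3129263461) (nat_lit 4) (nat_lit 4) (nat_lit 5) (nat_lit 5) (nat_lit 5) (nat_lit 4) (nat_lit 450) (nat_lit 238) (nat_lit 212)) (XT.lf (nat_lit 0) (nat_lit 2683599101) (nat_lit 152) (nat_lit 14788790915) (nat_lit 0) (nat_lit 2683599101) (nat_lit 8) (nat_lit 5) (nat_lit 10) (nat_lit 4) (nat_lit 8) (nat_lit 4) (nat_lit 422) (nat_lit 239) (nat_lit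 239))) (XT.nd (nat_lit 78) (nat_lit 0) (nat_lit 0) (XT.lf (nat_lit 0) (nat_lit 9951541625) (nat_lit 152) (nat_lit 21649266269) (nat_lit 0) (nat_lit 9782082092) (nat_lit 8) (nat_lit 5) (nat_lit 10) (nat_lit 4) (nat_lit 8) (nat_lit 4) (nat_lit 423) (nat_lit 239) (nat_lit 238)) (XT.lf (nat_lit 0) (nat_lit 14584573948) (nat_lit 152) (nat_lit 13653439669) (nat_lit 0) (nat_lit 14250590598) (nat_lit 8) (nat_lit 5) (nat_lit 10) (nat_lit 4) (nat_lit 8) (nat_lit 4) (nat_lit 424) (nat_lit 239) (nat_lit 237)))))) (XT.nd (nat_lit 546) (nat_lit 152) (nat_lit 0) (XT.nd (nat_lit 234) (nat_lit 0) (nat_lit 0) (XT.nd (nat_lit 78) (nat_lit 76) (nat_lit 0) (XT.lf (nat_lit 0) (nat_lit 19270343452) (nat_lit 152) (nat_lit 5583115386) (nat_lit 0) (nat_lit 18776628240) (nat_lit 8) (nat_lit 5) (nat_lit 10) (nat_lit 4) (nat_lit 8) (nat_lit 4) (nat_lit 425) (nat_lit 239) (nat_lit 236)) (XT.nd (nat_lit 78) (nat_lit 0) (nat_lit 0) (XT.lf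 (nat_lit 0) (nat_lit 2619881646) (nat_lit 76) (nat_lit 21418246758) (nat_lit 76) (nat_lit 20769452068) (nat_lit 7) (nat_lit 4) (nat_lit 8) (nat_lit 5) (nat_lit 8) (nat_lit 4) (nat_lit 426) (nat_lit 239) (nat_lit 235)) (XT.lf (nat_lit 0) (nat_lit 11024430796) (nat_lit 76) (nat_lit 17898063887) (nat_lit 76) (nat_lit 17098706596) (nat_lit 7) (nat_lit 4) (nat_lit 8) (nat_lit 5) (nat_lit 8) (nat_lit 4) (nat_lit 427) (nat_lit 239) (nat_lit 234)))) (XT.nd (nat_lit 156) (nat_lit 0) (nat_lit 0) (XT.nd (nat_lit 78) (nat_lit 0) (nat_lit 0) (XT.lf (nat_lit 0) (nat_lit 19526760900) (nat_lit 76) (nat_lit 14346212854) (nat_lit 76) (nat_lit 13400678282) (nat_lit 7) (nat_lit 4) (nat_lit 8) (nat_lit 5) (nat_lit 8) (nat_lit 4) (nat_lit 428) (nat_lit 239) (nat_lit 233)) (XT.lf (nat_lit 0) (nat_lit 28134301180) (nat_lit 76) (nat_lit 10759590101) (nat_lit 76) (nat_lit 9672135838) (nat_lit 7) (nat_lit 4) (nat_lit 8) (nat_lit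 5) (nat_lit 8) (nat_lit 4) (nat_lit 429) (nat_lit 239) (nat_lit 232))) (XT.nd (nat_lit 78) (nat_lit 0) (nat_lit 0) (XT.lf (nat_lit 0) (nat_lit 36854572786) (nat_lit 76) (nat_lit 7135061685) (nat_lit 76) (nat_lit 5909821315) (nat_lit 7) (nat_lit 4) (nat_lit 8) (nat_lit 5) (nat_lit 8) (nat_lit 4) (nat_lit 430) (nat_lit 239) (nat_lit 231)) (XT.lf (nat_lit 0) (nat_lit 45695195374) (nat_lit 76) (nat_lit 3469460544) (nat_lit 76) (nat_lit 2110447254) (nat_lit 7) (nat_lit 4) (nat_lit 8) (nat_lit 5) (nat_lit 8) (nat_lit 4) (nat_lit 431) (nat_lit 239) (nat_lit 230))))) (XT.nd (nat_lit 234) (nat_lit 0) (nat_lit 0) (XT.nd (nat_lit 78) (nat_lit 0) (nat_lit 0) (XT.lf (nat_lit 0) (nat_lit 1717374425) (nat_lit 152) (nat_lit 50703793538) (nat_lit 0) (nat_lit 271850240) (nat_lit 5) (nat_lit 5) (nat_lit 7) (nat_lit 4) (nat_lit 5) (nat_lit 4) (nat_lit 432) (nat_lit 239) (nat_lit 229)) (XT.nd (nat_lit 78) (nat_lit 0) (nat_lit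 0) (XT.lf (nat_lit 0) (nat_lit 5636852203) (nat_lit 152) (nat_lit 44446514947) (nat_lit 0) (nat_lit 4068906845) (nat_lit 5) (nat_lit 5) (nat_lit 7) (nat_lit 4) (nat_lit 5) (nat_lit 4) (nat_lit 433) (nat_lit 239) (nat_lit 228)) (XT.lf (nat_lit 0) (nat_lit 9603996102) (nat_lit 152) (nat_lit 38136220805) (nat_lit 0) (nat_lit 7917195238) (nat_lit 5) (nat_lit 5) (nat_lit 7) (nat_lit 4) (nat_lit 5) (nat_lit 4) (nat_lit 434) (nat_lit 239) (nat_lit 227)))) (XT.nd (nat_lit 156) (nat_lit 0) (nat_lit 0) (XT.nd (nat_lit 78) (nat_lit 0) (nat_lit 0) (XT.lf (nat_lit 0) (nat_lit 13622272560) (nat_lit 152) (nat_lit 31767397265) (nat_lit 0) (nat_lit 11820078000) (nat_lit 5) (nat_lit 5) (nat_lit 7) (nat_lit 4) (nat_lit 5) (nat_lit 4) (nat_lit 435) (nat_lit 239) (nat_lit 226)) (XT.lf (nat_lit 0) (nat_lit 17695192691) (nat_lit 152) (nat_lit 25334479335) (nat_lit 0) (nat_lit 15780965417) (nat_lit 5) (nat_lit 5) (nat_lit 7)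 (nat_lit 4) (nat_lit 5) (nat_lit 4) (nat_lit 436) (nat_lit 239) (nat_lit 225))) (XT.nd (nat_lit 78) (nat_lit 0) (nat_lit 0) (XT.lf (nat_lit 0) (nat_lit 21826315359) (nat_lit 152) (nat_lit 18831846018) (nat_lit 0) (nat_lit 19803318459) (nat_lit 5) (nat_lit 5) (nat_lit 7) (nat_lit 4) (nat_lit 5) (nat_lit 4) (nat_lit 437) (nat_lit 239) (nat_lit 224)) (XT.lf (nat_lit 0) (nat_lit 26019250281) (nat_lit 152) (nat_lit 12253815403) (nat_lit 0) (nat_lit 23890651803) (nat_lit 5) (nat_lit 5) (nat_lit 7) (nat_lit 4) (nat_lit 5) (nat_lit 4) (nat_lit 438) (nat_lit 239) (nat_lit 223))))))))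
noncomputable def xc4 : XT := (XT.nd (nat_lit 46488) (nat_lit 0) (nat_lit 0) (XT.nd (nat_lit 45474) (nat_lit 0) (nat_lit 76) (XT.nd (nat_lit 468) (nat_lit 0) (nat_lit 0) (XT.nd (nat_lit 234) (nat_lit 0) (nat_lit 0) (XT.nd (nat_lit 78) (nat_lit 76) (nat_lit 0) (XT.lf (nat_lit 0) (nat_lit 30277661187) (nat_lit 152) (nat_lit 5594639694) (nat_lit 0) (nat_lit 28046536905) (nat_lit 5) (nat_lit 5) (nat_lit 7) (nat_lit 4) (nat_lit 5) (nat_lit 4) (nat_lit 439) (nat_lit 239) (nat_lit 222)) (XT.nd (nat_lit 78) (nat_lit 0) (nat_lit 0) (XT.lf (nat_lit 0) (nat_lit 1174416908) (nat_lit 76) (nat_lit 33442141326) (nat_lit 76) (nat_lit 31111477428) (nat_lit 4) (nat_lit 4) (nat_lit 5) (nat_lit 5) (nat_lit 5) (nat_lit 4) (nat_lit 440) (nat_lit 239) (nat_lit 221)) (XT.lf (nat_lit 0) (nat_lit 8149524351) (nat_lit 76) (nat_lit 30934669046) (nat_lit 76) (nat_lit 28507364744) (nat_lit 4) (nat_lit 4) (nat_lit 5) (nat_lit 5) (nat_lit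 5) (nat_lit 4) (nat_lit 441) (nat_lit 239) (nat_lit 220)))) (XT.nd (nat_lit 78) (nat_lit 0) (nat_lit 0) (XT.lf (nat_lit 0) (nat_lit 15225433089) (nat_lit 76) (nat_lit 28404187938) (nat_lit 76) (nat_lit 25883058002) (nat_lit 4) (nat_lit 4) (nat_lit 5) (nat_lit 5) (nat_lit 5) (nat_lit 4) (nat_lit 442) (nat_lit 239) (nat_lit 219)) (XT.nd (nat_lit 78) (nat_lit 0) (nat_lit 0) (XT.lf (nat_lit 0) (nat_lit 22408325955) (nat_lit 76) (nat_lit 25848486902) (nat_lit 76) (nat_lit 23236264117) (nat_lit 4) (nat_lit 4) (nat_lit 5) (nat_lit 5) (nat_lit 5) (nat_lit 4) (nat_lit 443) (nat_lit 239) (nat_lit 218)) (XT.lf (nat_lit 0) (nat_lit 29704479262) (nat_lit 76) (nat_lit 23265332801) (nat_lit 76) (nat_lit 20564670357) (nat_lit 4) (nat_lit 4) (nat_lit 5) (nat_lit 5) (nat_lit 5) (nat_lit 4) (nat_lit 444) (nat_lit 239) (nat_lit 217))))) (XT.nd (nat_lit 234) (nat_lit 0) (nat_lit 0) (XT.nd (nat_lit 78) (nat_lit 0) (nat_lit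 0) (XT.lf (nat_lit 0) (nat_lit 37120268291) (nat_lit 76) (nat_lit 20652468511) (nat_lit 76) (nat_lit 17865942320) (nat_lit 4) (nat_lit 4) (nat_lit 5) (nat_lit 5) (nat_lit 5) (nat_lit 4) (nat_lit 445) (nat_lit 239) (nat_lit 216)) (XT.nd (nat_lit 78) (nat_lit 0) (nat_lit 0) (XT.lf (nat_lit 0) (nat_lit 44662172857) (nat_lit 76) (nat_lit 18007610946) (nat_lit 76) (nat_lit 15137721894) (nat_lit 4) (nat_lit 4) (nat_lit 5) (nat_lit 5) (nat_lit 5) (nat_lit 4) (nat_lit 446) (nat_lit 239) (nat_lit 215)) (XT.lf (nat_lit 0) (nat_lit 52336782975) (nat_lit 76) (nat_lit 15328449065) (nat_lit 76) (nat_lit 12377625196) (nat_lit 4) (nat_lit 4) (nat_lit 5) (nat_lit 5) (nat_lit 5) (nat_lit 4) (nat_lit 447) (nat_lit 239) (nat_lit 214)))) (XT.nd (nat_lit 156) (nat_lit 0) (nat_lit 0) (XT.nd (nat_lit 78) (nat_lit 0) (nat_lit 0) (XT.lf (nat_lit 0) (nat_lit 60150804612) (nat_lit 76) (nat_lit 12612641853) (nat_lit 76) (nat_lit 9583240493)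 (nat_lit 4) (nat_lit 4) (nat_lit 5) (nat_lit 5) (nat_lit 5) (nat_lit 4) (nat_lit 448) (nat_lit 239) (nat_lit 213)) (XT.lf (nat_lit 0) (nat_lit 68111065557) (nat_lit 76) (nat_lit 9857816276) (nat_lit 76) (nat_lit 6752126088) (nat_lit 4) (nat_lit 4) (nat_lit 5) (nat_lit 5) (nat_lit 5) (nat_lit 4) (nat_lit 449) (nat_lit 239) (nat_lit 212))) (XT.nd (nat_lit 44538) (nat_lit 0) (nat_lit 456) (XT.lf (nat_lit 0) (nat_lit 76224521376) (nat_lit 76) (nat_lit 7061565202) (nat_lit 76) (nat_lit 3881808193) (nat_lit 4) (nat_lit 4) (nat_lit 5) (nat_lit 5) (nat_lit 5) (nat_lit 4) (nat_lit 450) (nat_lit 239) (nat_lit 211)) (XT.lf (nat_lit 0) (nat_lit 15716119978) (nat_lit 76) (nat_lit 1708302636) (nat_lit 76) (nat_lit 1708302636) (nat_lit 10) (nat_lit 4) (nat_lit 11) (nat_lit 5) (nat_lit 11) (nat_lit 4) (nat_lit 420) (nat_lit 240) (nat_lit 240)))))) (XT.nd (nat_lit 468) (nat_lit 152) (nat_lit 0) (XT.nd (nat_lit 234) (nat_lit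 76) (nat_lit 0) (XT.nd (nat_lit 78) (nat_lit 0) (nat_lit 0) (XT.lf (nat_lit 0) (nat_lit 1002081262) (nat_lit 152) (nat_lit 37445314009) (nat_lit 0) (nat_lit 827537943) (nat_lit 8) (nat_lit 5) (nat_lit 10) (nat_lit 4) (nat_lit 8) (nat_lit 4) (nat_lit 421) (nat_lit 240) (nat_lit 239)) (XT.nd (nat_lit 78) (nat_lit 0) (nat_lit 0) (XT.lf (nat_lit 0) (nat_lit 5496664356) (nat_lit 152) (nat_lit 29664009704) (nat_lit 0) (nat_lit 5152661505) (nat_lit 8) (nat_lit 5) (nat_lit 10) (nat_lit 4) (nat_lit 8) (nat_lit 4) (nat_lit 422) (nat_lit 240) (nat_lit 238)) (XT.lf (nat_lit 0) (nat_lit 10037243541) (nat_lit 152) (nat_lit 21819604698) (nat_lit 0) (nat_lit 9528716872) (nat_lit 8) (nat_lit 5) (nat_lit 10) (nat_lit 4) (nat_lit 8) (nat_lit 4) (nat_lit 423) (nat_lit 240) (nat_lit 237)))) (XT.nd (nat_lit 78) (nat_lit 76) (nat_lit 0) (XT.lf (nat_lit 0) (nat_lit 14627786314) (nat_lit 152) (nat_lit 13905244657) (nat_lit 0)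 (nat_lit 13959527782) (nat_lit 8) (nat_lit 5) (nat_lit 10) (nat_lit 4) (nat_lit 8) (nat_lit 4) (nat_lit 424) (nat_lit 240) (nat_lit 236)) (XT.nd (nat_lit 78) (nat_lit 76) (nat_lit 0) (XT.lf (nat_lit 0) (nat_lit 19272303827) (nat_lit 152) (nat_lit 5914014121) (nat_lit 0) (nat_lit 18448965817) (nat_lit 8) (nat_lit 5) (nat_lit 10) (nat_lit 4) (nat_lit 8) (nat_lit 4) (nat_lit 425) (nat_lit 240) (nat_lit 235)) (XT.lf (nat_lit 0) (nat_lit 2204079059) (nat_lit 76) (nat_lit 21791962293) (nat_lit 76) (nat_lit 20818061684) (nat_lit 7) (nat_lit 4) (nat_lit 8) (nat_lit 5) (nat_lit 8) (nat_lit 4) (nat_lit 426) (nat_lit 240) (nat_lit 234))))) (XT.nd (nat_lit 234) (nat_lit 152) (nat_lit 0) (XT.nd (nat_lit 78) (nat_lit 0) (nat_lit 0) (XT.lf (nat_lit 0) (nat_lit 10532591007) (nat_lit 76) (nat_lit 18308201749) (nat_lit 76) (nat_lit 17188123859) (nat_lit 7) (nat_lit 4) (nat_lit 8) (nat_lit 5) (nat_lit 8) (nat_lit 4) (nat_lit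 427) (nat_lit 240) (nat_lit 233)) (XT.nd (nat_lit 78) (nat_lit 0) (nat_lit 0) (XT.lf (nat_lit 0) (nat_lit 18961098586) (nat_lit 76) (nat_lit 14791712199) (nat_lit 76) (nat_lit 13529714618) (nat_lit 7) (nat_lit 4) (nat_lit 8) (nat_lit 5) (nat_lit 8) (nat_lit 4) (nat_lit 428) (nat_lit 240) (nat_lit 232)) (XT.lf (nat_lit 0) (nat_lit 27496966510) (nat_lit 76) (nat_lit 11239420983) (nat_lit 76) (nat_lit 9839637295) (nat_lit 7) (nat_lit 4) (nat_lit 8) (nat_lit 5) (nat_lit 8) (nat_lit 4) (nat_lit 429) (nat_lit 240) (nat_lit 231)))) (XT.nd (nat_lit 156) (nat_lit 152) (nat_lit 0) (XT.nd (nat_lit 78) (nat_lit 0) (nat_lit 0) (XT.lf (nat_lit 0) (nat_lit 36147653305) (nat_lit 76) (nat_lit 7648224157) (nat_lit 76) (nat_lit 6114667549) (nat_lit 7) (nat_lit 4) (nat_lit 8) (nat_lit 5) (nat_lit 8) (nat_lit 4) (nat_lit 430) (nat_lit 240) (nat_lit 230)) (XT.lf (nat_lit 0) (nat_lit 44920717824) (nat_lit 76) (nat_lit 4014983782)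 (nat_lit 76) (nat_lit 2351550552) (nat_lit 7) (nat_lit 4) (nat_lit 8) (nat_lit 5) (nat_lit 8) (nat_lit 4) (nat_lit 431) (nat_lit 240) (nat_lit 229))) (XT.nd (nat_lit 78) (nat_lit 0) (nat_lit 0) (XT.lf (nat_lit 0) (nat_lit 1124451632) (nat_lit 76) (nat_lit 311005840) (nat_lit 152) (nat_lit 51271148424) (nat_lit 5) (nat_lit 5) (nat_lit 6) (nat_lit 5) (nat_lit 7) (nat_lit 4) (nat_lit 432) (nat_lit 240) (nat_lit 228)) (XT.lf (nat_lit 0) (nat_lit 5317503202) (nat_lit 152) (nat_lit 45388242157) (nat_lit 0) (nat_lit 3461242806) (nat_lit 5) (nat_lit 5) (nat_lit 7) (nat_lit 4) (nat_lit 5) (nat_lit 4) (nat_lit 433) (nat_lit 240) (nat_lit 227))))))) (XT.nd (nat_lit 1014) (nat_lit 0) (nat_lit 0) (XT.nd (nat_lit 468) (nat_lit 76) (nat_lit 0) (XT.nd (nat_lit 234) (nat_lit 0) (nat_lit 0) (XT.nd (nat_lit 78) (nat_lit 0) (nat_lit 0) (XT.lf (nat_lit 0) (nat_lit 9251207812) (nat_lit 152) (nat_lit 39142371378) (nat_lit 0)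 (nat_lit 7279553719) (nat_lit 5) (nat_lit 5) (nat_lit 7) (nat_lit 4) (nat_lit 5) (nat_lit 4) (nat_lit 434) (nat_lit 240) (nat_lit 226)) (XT.nd (nat_lit 78) (nat_lit 0) (nat_lit 0) (XT.lf (nat_lit 0) (nat_lit 13237018939) (nat_lit 152) (nat_lit 32836094791) (nat_lit 0) (nat_lit 11153332132) (nat_lit 5) (nat_lit 5) (nat_lit 7) (nat_lit 4) (nat_lit 5) (nat_lit 4) (nat_lit 435) (nat_lit 240) (nat_lit 225)) (XT.lf (nat_lit 0) (nat_lit 17278419333) (nat_lit 152) (nat_lit 26463902059) (nat_lit 0) (nat_lit 15085962900) (nat_lit 5) (nat_lit 5) (nat_lit 7) (nat_lit 4) (nat_lit 5) (nat_lit 4) (nat_lit 436) (nat_lit 240) (nat_lit 224)))) (XT.nd (nat_lit 78) (nat_lit 0) (nat_lit 0) (XT.lf (nat_lit 0) (nat_lit 21378940313) (nat_lit 152) (nat_lit 20020225245) (nat_lit 0) (nat_lit 19080882302) (nat_lit 5) (nat_lit 5) (nat_lit 7) (nat_lit 4) (nat_lit 5) (nat_lit 4) (nat_lit 437) (nat_lit 240) (nat_lit 223)) (XT.nd (nat_lit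 78) (nat_lit 0) (nat_lit 0) (XT.lf (nat_lit 0) (nat_lit 25542164859) (nat_lit 152) (nat_lit 13499433952) (nat_lit 0) (nat_lit 23141581044) (nat_lit 5) (nat_lit 5) (nat_lit 7) (nat_lit 4) (nat_lit 5) (nat_lit 4) (nat_lit 438) (nat_lit 240) (nat_lit 222)) (XT.lf (nat_lit 0) (nat_lit 29771730740) (nat_lit 152) (nat_lit 6895830402) (nat_lit 0) (nat_lit 27271607310) (nat_lit 5) (nat_lit 5) (nat_lit 7) (nat_lit 4) (nat_lit 5) (nat_lit 4) (nat_lit 439) (nat_lit 240) (nat_lit 221))))) (XT.nd (nat_lit 234) (nat_lit 0) (nat_lit 0) (XT.nd (nat_lit 78) (nat_lit 76) (nat_lit 0) (XT.lf (nat_lit 0) (nat_lit 34071333694) (nat_lit 152) (nat_lit 203644455) (nat_lit 0) (nat_lit 31474569860) (nat_lit 5) (nat_lit 5) (nat_lit 7) (nat_lit 4) (nat_lit 5) (nat_lit 4) (nat_lit 440) (nat_lit 240) (nat_lit 220)) (XT.nd (nat_lit 78) (nat_lit 0) (nat_lit 0) (XT.lf (nat_lit 0) (nat_lit 6713985468) (nat_lit 76) (nat_lit 31795284122)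 (nat_lit 76) (nat_lit 29104694653) (nat_lit 4) (nat_lit 4) (nat_lit 5) (nat_lit 5) (nat_lit 5) (nat_lit 4) (nat_lit 441) (nat_lit 240) (nat_lit 219)) (XT.lf (nat_lit 0) (nat_lit 13738025667) (nat_lit 76) (nat_lit 29289775676) (nat_lit 76) (nat_lit 26508093359) (nat_lit 4) (nat_lit 4) (nat_lit 5) (nat_lit 5) (nat_lit 5) (nat_lit 4) (nat_lit 442) (nat_lit 240) (nat_lit 218)))) (XT.nd (nat_lit 156) (nat_lit 0) (nat_lit 0) (XT.nd (nat_lit 78) (nat_lit 0) (nat_lit 0) (XT.lf (nat_lit 0) (nat_lit 20870560728) (nat_lit 76) (nat_lit 26758319944) (nat_lit 76) (nat_lit 23888197967) (nat_lit 4) (nat_lit 4) (nat_lit 5) (nat_lit 5) (nat_lit 5) (nat_lit 4) (nat_lit 443) (nat_lit 240) (nat_lit 217)) (XT.lf (nat_lit 0) (nat_lit 28117822963) (nat_lit 76) (nat_lit 24198704973) (nat_lit 76) (nat_lit 21242719250) (nat_lit 4) (nat_lit 4) (nat_lit 5) (nat_lit 5) (nat_lit 5) (nat_lit 4) (nat_lit 444) (nat_lit 240) (nat_lit 216)))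 (XT.nd (nat_lit 78) (nat_lit 0) (nat_lit 0) (XT.lf (nat_lit 0) (nat_lit 35486144931) (nat_lit 76) (nat_lit 21608694207) (nat_lit 76) (nat_lit 18569345622) (nat_lit 4) (nat_lit 4) (nat_lit 5) (nat_lit 5) (nat_lit 5) (nat_lit 4) (nat_lit 445) (nat_lit 240) (nat_lit 215)) (XT.lf (nat_lit 0) (nat_lit 42981964972) (nat_lit 76) (nat_lit 18986024529) (nat_lit 76) (nat_lit 15865741128) (nat_lit 4) (nat_lit 4) (nat_lit 5) (nat_lit 5) (nat_lit 5) (nat_lit 4) (nat_lit 446) (nat_lit 240) (nat_lit 214)))))) (XT.nd (nat_lit 44850) (nat_lit 0) (nat_lit 228) (XT.nd (nat_lit 234) (nat_lit 0) (nat_lit 0) (XT.nd (nat_lit 78) (nat_lit 0) (nat_lit 0) (XT.lf (nat_lit 0) (nat_lit 50611832831) (nat_lit 76) (nat_lit 16328404287) (nat_lit 76) (nat_lit 13129543394) (nat_lit 4) (nat_lit 4) (nat_lit 5) (nat_lit 5) (nat_lit 5) (nat_lit 4) (nat_lit 447) (nat_lit 240) (nat_lit 213)) (XT.nd (nat_lit 78) (nat_lit 0) (nat_lit 0) (XT.lf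 (nat_lit 0) (nat_lit 58382415384) (nat_lit 76) (nat_lit 13633511287) (nat_lit 76) (nat_lit 10358361567) (nat_lit 4) (nat_lit 4) (nat_lit 5) (nat_lit 5) (nat_lit 5) (nat_lit 4) (nat_lit 448) (nat_lit 240) (nat_lit 212)) (XT.lf (nat_lit 0) (nat_lit 66300502460) (nat_lit 76) (nat_lit 10898990769) (nat_lit 76) (nat_lit 7549774227) (nat_lit 4) (nat_lit 4) (nat_lit 5) (nat_lit 5) (nat_lit 5) (nat_lit 4) (nat_lit 449) (nat_lit 240) (nat_lit 211)))) (XT.nd (nat_lit 44460) (nat_lit 0) (nat_lit 456) (XT.nd (nat_lit 44382) (nat_lit 0) (nat_lit 456) (XT.lf (nat_lit 0) (nat_lit 74373012775) (nat_lit 76) (nat_lit 8122453347) (nat_lit 76) (nat_lit 4701327268) (nat_lit 4) (nat_lit 4) (nat_lit 5) (nat_lit 5) (nat_lit 5) (nat_lit 4) (nat_lit 450) (nat_lit 240) (nat_lit 210)) (XT.lf (nat_lit 0) (nat_lit 6269826862) (nat_lit 76) (nat_lit 5949683321) (nat_lit 76) (nat_lit 5949683321) (nat_lit 10) (nat_lit 4) (nat_lit 11) (nat_lit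 5) (nat_lit 11) (nat_lit 4) (nat_lit 418) (nat_lit 241) (nat_lit 241))) (XT.nd (nat_lit 78) (nat_lit 0) (nat_lit 0) (XT.lf (nat_lit 0) (nat_lit 21889685784) (nat_lit 76) (nat_lit 7791241505) (nat_lit 76) (nat_lit 7606068498) (nat_lit 10) (nat_lit 4) (nat_lit 11) (nat_lit 5) (nat_lit 11) (nat_lit 4) (nat_lit 419) (nat_lit 241) (nat_lit 240)) (XT.lf (nat_lit 0) (nat_lit 31346823600) (nat_lit 76) (nat_lit 3642463391) (nat_lit 76) (nat_lit 3277510766) (nat_lit 10) (nat_lit 4) (nat_lit 11) (nat_lit 5) (nat_lit 11) (nat_lit 4) (nat_lit 420) (nat_lit 241) (nat_lit 239))))) (XT.nd (nat_lit 234) (nat_lit 76) (nat_lit 0) (XT.nd (nat_lit 78) (nat_lit 0) (nat_lit 0) (XT.lf (nat_lit 0) (nat_lit 1090354236) (nat_lit 152) (nat_lit 37620762591) (nat_lit 0) (nat_lit 566571766) (nat_lit 8) (nat_lit 5) (nat_lit 10) (nat_lit 4) (nat_lit 8) (nat_lit 4) (nat_lit 421) (nat_lit 241) (nat_lit 238)) (XT.nd (nat_lit 78) (nat_lit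 0) (nat_lit 0) (XT.lf (nat_lit 0) (nat_lit 5541173093) (nat_lit 152) (nat_lit 29923368841) (nat_lit 0) (nat_lit 4852866805) (nat_lit 8) (nat_lit 5) (nat_lit 10) (nat_lit 4) (nat_lit 8) (nat_lit 4) (nat_lit 422) (nat_lit 241) (nat_lit 237)) (XT.lf (nat_lit 0) (nat_lit 10039262727) (nat_lit 152) (nat_lit 22160430394) (nat_lit 0) (nat_lit 9191224577) (nat_lit 8) (nat_lit 5) (nat_lit 10) (nat_lit 4) (nat_lit 8) (nat_lit 4) (nat_lit 423) (nat_lit 241) (nat_lit 236)))) (XT.nd (nat_lit 156) (nat_lit 76) (nat_lit 0) (XT.nd (nat_lit 78) (nat_lit 0) (nat_lit 0) (XT.lf (nat_lit 0) (nat_lit 14588553508) (nat_lit 152) (nat_lit 14325164100) (nat_lit 0) (nat_lit 13585435880) (nat_lit 8) (nat_lit 5) (nat_lit 10) (nat_lit 4) (nat_lit 8) (nat_lit 4) (nat_lit 424) (nat_lit 241) (nat_lit 235)) (XT.lf (nat_lit 0) (nat_lit 19193020544) (nat_lit 152) (nat_lit 6410723610) (nat_lit 0) (nat_lit 18039340317) (nat_lit 8) (nat_lit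 5) (nat_lit 10) (nat_lit 4) (nat_lit 8) (nat_lit 4) (nat_lit 425) (nat_lit 241) (nat_lit 234))) (XT.nd (nat_lit 78) (nat_lit 0) (nat_lit 0) (XT.lf (nat_lit 0) (nat_lit 1621446875) (nat_lit 76) (nat_lit 22250826619) (nat_lit 76) (nat_lit 20950969110) (nat_lit 7) (nat_lit 4) (nat_lit 8) (nat_lit 5) (nat_lit 8) (nat_lit 4) (nat_lit 426) (nat_lit 241) (nat_lit 233)) (XT.lf (nat_lit 0) (nat_lit 9876136297) (nat_lit 76) (nat_lit 18802427558) (nat_lit 76) (nat_lit 17360650359) (nat_lit 7) (nat_lit 4) (nat_lit 8) (nat_lit 5) (nat_lit 8) (nat_lit 4) (nat_lit 427) (nat_lit 241) (nat_lit 232))))))))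
noncomputable def xc5 : XT := (XT.nd (nat_lit 46176) (nat_lit 0) (nat_lit 0) (XT.nd (nat_lit 1014) (nat_lit 76) (nat_lit 0) (XT.nd (nat_lit 468) (nat_lit 0) (nat_lit 0) (XT.nd (nat_lit 234) (nat_lit 152) (nat_lit 0) (XT.nd (nat_lit 78) (nat_lit 0) (nat_lit 0) (XT.lf (nat_lit 0) (nat_lit 18232971520) (nat_lit 76) (nat_lit 15320269545) (nat_lit 76) (nat_lit 13740706239) (nat_lit 7) (nat_lit 4) (nat_lit 8) (nat_lit 5) (nat_lit 8) (nat_lit 4) (nat_lit 428) (nat_lit 241) (nat_lit 231)) (XT.nd (nat_lit 78) (nat_lit 0) (nat_lit 0) (XT.lf (nat_lit 0) (nat_lit 26699254633) (nat_lit 76) (nat_lit 11801309919) (nat_lit 76) (nat_lit 10087973692) (nat_lit 7) (nat_lit 4) (nat_lit 8) (nat_lit 5) (nat_lit 8) (nat_lit 4) (nat_lit 429) (nat_lit 241) (nat_lit 230)) (XT.lf (nat_lit 0) (nat_lit 35282383360) (nat_lit 76) (nat_lit 8242473859) (nat_lit 76) (nat_lit 6399261011) (nat_lit 7) (nat_lit 4) (nat_lit 8) (nat_lit 5) (nat_lit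 8) (nat_lit 4) (nat_lit 430) (nat_lit 241) (nat_lit 229)))) (XT.nd (nat_lit 78) (nat_lit 152) (nat_lit 0) (XT.lf (nat_lit 0) (nat_lit 43989857520) (nat_lit 76) (nat_lit 4640651703) (nat_lit 76) (nat_lit 2671345048) (nat_lit 7) (nat_lit 4) (nat_lit 8) (nat_lit 5) (nat_lit 8) (nat_lit 4) (nat_lit 431) (nat_lit 241) (nat_lit 228)) (XT.nd (nat_lit 78) (nat_lit 0) (nat_lit 0) (XT.lf (nat_lit 0) (nat_lit 97676831) (nat_lit 76) (nat_lit 980847630) (nat_lit 152) (nat_lit 51644080652) (nat_lit 5) (nat_lit 5) (nat_lit 6) (nat_lit 5) (nat_lit 7) (nat_lit 4) (nat_lit 432) (nat_lit 241) (nat_lit 227)) (XT.lf (nat_lit 0) (nat_lit 4920691973) (nat_lit 152) (nat_lit 46489000609) (nat_lit 0) (nat_lit 2774494562) (nat_lit 5) (nat_lit 5) (nat_lit 7) (nat_lit 4) (nat_lit 5) (nat_lit 4) (nat_lit 433) (nat_lit 241) (nat_lit 226))))) (XT.nd (nat_lit 234) (nat_lit 0) (nat_lit 0) (XT.nd (nat_lit 78) (nat_lit 0) (nat_lit 0) (XT.lf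 (nat_lit 0) (nat_lit 8821931252) (nat_lit 152) (nat_lit 40305676783) (nat_lit 0) (nat_lit 6563701127) (nat_lit 5) (nat_lit 5) (nat_lit 7) (nat_lit 4) (nat_lit 5) (nat_lit 4) (nat_lit 434) (nat_lit 241) (nat_lit 225)) (XT.nd (nat_lit 78) (nat_lit 0) (nat_lit 0) (XT.lf (nat_lit 0) (nat_lit 12776222642) (nat_lit 152) (nat_lit 34060125395) (nat_lit 0) (nat_lit 10409222891) (nat_lit 5) (nat_lit 5) (nat_lit 7) (nat_lit 4) (nat_lit 5) (nat_lit 4) (nat_lit 435) (nat_lit 241) (nat_lit 224)) (XT.lf (nat_lit 0) (nat_lit 16787021348) (nat_lit 152) (nat_lit 27746889165) (nat_lit 0) (nat_lit 14314420019) (nat_lit 5) (nat_lit 5) (nat_lit 7) (nat_lit 4) (nat_lit 5) (nat_lit 4) (nat_lit 436) (nat_lit 241) (nat_lit 223)))) (XT.nd (nat_lit 156) (nat_lit 0) (nat_lit 0) (XT.nd (nat_lit 78) (nat_lit 0) (nat_lit 0) (XT.lf (nat_lit 0) (nat_lit 20857831952) (nat_lit 152) (nat_lit 21360451674) (nat_lit 0) (nat_lit 18282704819)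 (nat_lit 5) (nat_lit 5) (nat_lit 7) (nat_lit 4) (nat_lit 5) (nat_lit 4) (nat_lit 437) (nat_lit 241) (nat_lit 222)) (XT.lf (nat_lit 0) (nat_lit 24992211473) (nat_lit 152) (nat_lit 14895232539) (nat_lit 0) (nat_lit 22317544724) (nat_lit 5) (nat_lit 5) (nat_lit 7) (nat_lit 4) (nat_lit 5) (nat_lit 4) (nat_lit 438) (nat_lit 241) (nat_lit 221))) (XT.nd (nat_lit 78) (nat_lit 0) (nat_lit 0) (XT.lf (nat_lit 0) (nat_lit 29193772476) (nat_lit 152) (nat_lit 8345582540) (nat_lit 0) (nat_lit 26422465323) (nat_lit 5) (nat_lit 5) (nat_lit 7) (nat_lit 4) (nat_lit 5) (nat_lit 4) (nat_lit 439) (nat_lit 241) (nat_lit 220)) (XT.lf (nat_lit 0) (nat_lit 33466186227) (nat_lit 152) (nat_lit 1705778682) (nat_lit 0) (nat_lit 30601053440) (nat_lit 5) (nat_lit 5) (nat_lit 7) (nat_lit 4) (nat_lit 5) (nat_lit 4) (nat_lit 440) (nat_lit 241) (nat_lit 219)))))) (XT.nd (nat_lit 468) (nat_lit 0) (nat_lit 0) (XT.nd (nat_lit 234) (nat_lit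 0) (nat_lit 0) (XT.nd (nat_lit 78) (nat_lit 0) (nat_lit 0) (XT.lf (nat_lit 0) (nat_lit 5130087285) (nat_lit 76) (nat_lit 32732412155) (nat_lit 76) (nat_lit 29776186519) (nat_lit 4) (nat_lit 4) (nat_lit 5) (nat_lit 5) (nat_lit 5) (nat_lit 4) (nat_lit 441) (nat_lit 241) (nat_lit 218)) (XT.nd (nat_lit 78) (nat_lit 0) (nat_lit 0) (XT.lf (nat_lit 0) (nat_lit 12103769679) (nat_lit 76) (nat_lit 30251149014) (nat_lit 76) (nat_lit 27206483718) (nat_lit 4) (nat_lit 4) (nat_lit 5) (nat_lit 5) (nat_lit 5) (nat_lit 4) (nat_lit 442) (nat_lit 241) (nat_lit 217)) (XT.lf (nat_lit 0) (nat_lit 19187413667) (nat_lit 76) (nat_lit 27743232411) (nat_lit 76) (nat_lit 24612703369) (nat_lit 4) (nat_lit 4) (nat_lit 5) (nat_lit 5) (nat_lit 5) (nat_lit 4) (nat_lit 443) (nat_lit 241) (nat_lit 216)))) (XT.nd (nat_lit 78) (nat_lit 0) (nat_lit 0) (XT.lf (nat_lit 0) (nat_lit 26387208841) (nat_lit 76) (nat_lit 25206470964) (nat_lit 76)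 (nat_lit 21992579061) (nat_lit 4) (nat_lit 4) (nat_lit 5) (nat_lit 5) (nat_lit 5) (nat_lit 4) (nat_lit 444) (nat_lit 241) (nat_lit 215)) (XT.nd (nat_lit 78) (nat_lit 0) (nat_lit 0) (XT.lf (nat_lit 0) (nat_lit 33709446284) (nat_lit 76) (nat_lit 22638648085) (nat_lit 76) (nat_lit 19343821366) (nat_lit 4) (nat_lit 4) (nat_lit 5) (nat_lit 5) (nat_lit 5) (nat_lit 4) (nat_lit 445) (nat_lit 241) (nat_lit 214)) (XT.lf (nat_lit 0) (nat_lit 41160524067) (nat_lit 76) (nat_lit 20037520046) (nat_lit 76) (nat_lit 16664115834) (nat_lit 4) (nat_lit 4) (nat_lit 5) (nat_lit 5) (nat_lit 5) (nat_lit 4) (nat_lit 446) (nat_lit 241) (nat_lit 213))))) (XT.nd (nat_lit 234) (nat_lit 0) (nat_lit 0) (XT.nd (nat_lit 78) (nat_lit 0) (nat_lit 0) (XT.lf (nat_lit 0) (nat_lit 48746952842) (nat_lit 76) (nat_lit 17400814015) (nat_lit 76) (nat_lit 13951120977) (nat_lit 4) (nat_lit 4) (nat_lit 5) (nat_lit 5) (nat_lit 5) (nat_lit 4) (nat_lit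 447) (nat_lit 241) (nat_lit 212)) (XT.nd (nat_lit 78) (nat_lit 0) (nat_lit 0) (XT.lf (nat_lit 0) (nat_lit 56475361526) (nat_lit 76) (nat_lit 14726226076) (nat_lit 76) (nat_lit 11202466215) (nat_lit 4) (nat_lit 4) (nat_lit 5) (nat_lit 5) (nat_lit 5) (nat_lit 4) (nat_lit 448) (nat_lit 241) (nat_lit 211)) (XT.lf (nat_lit 0) (nat_lit 64352503098) (nat_lit 76) (nat_lit 12011419208) (nat_lit 76) (nat_lit 8415749811) (nat_lit 4) (nat_lit 4) (nat_lit 5) (nat_lit 5) (nat_lit 5) (nat_lit 4) (nat_lit 449) (nat_lit 241) (nat_lit 210)))) (XT.nd (nat_lit 44304) (nat_lit 0) (nat_lit 456) (XT.nd (nat_lit 44226) (nat_lit 0) (nat_lit 532) (XT.lf (nat_lit 0) (nat_lit 72385260497) (nat_lit 76) (nat_lit 9254021252) (nat_lit 76) (nat_lit 5588536772) (nat_lit 4) (nat_lit 4) (nat_lit 5) (nat_lit 5) (nat_lit 5) (nat_lit 4) (nat_lit 450) (nat_lit 241) (nat_lit 209)) (XT.lf (nat_lit 0) (nat_lit 7215026223) (nat_lit 152) (nat_lit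 2834129359) (nat_lit 0) (nat_lit 7215026223) (nat_lit 11) (nat_lit 5) (nat_lit 13) (nat_lit 4) (nat_lit 11) (nat_lit 4) (nat_lit 416) (nat_lit 242) (nat_lit 242))) (XT.nd (nat_lit 78) (nat_lit 0) (nat_lit 0) (XT.lf (nat_lit 0) (nat_lit 3288557493) (nat_lit 76) (nat_lit 16161156627) (nat_lit 76) (nat_lit 15970428430) (nat_lit 10) (nat_lit 4) (nat_lit 11) (nat_lit 5) (nat_lit 11) (nat_lit 4) (nat_lit 417) (nat_lit 242) (nat_lit 241)) (XT.lf (nat_lit 0) (nat_lit 12451674878) (nat_lit 76) (nat_lit 12132000506) (nat_lit 76) (nat_lit 11756099303) (nat_lit 10) (nat_lit 4) (nat_lit 11) (nat_lit 5) (nat_lit 11) (nat_lit 4) (nat_lit 418) (nat_lit 242) (nat_lit 240))))))) (XT.nd (nat_lit 1014) (nat_lit 228) (nat_lit 0) (XT.nd (nat_lit 468) (nat_lit 76) (nat_lit 0) (XT.nd (nat_lit 234) (nat_lit 0) (nat_lit 0) (XT.nd (nat_lit 78) (nat_lit 152) (nat_lit 0) (XT.lf (nat_lit 0) (nat_lit 21716290580) (nat_lit 76) (nat_lit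 8064560481) (nat_lit 76) (nat_lit 7508879659) (nat_lit 10) (nat_lit 4) (nat_lit 11) (nat_lit 5) (nat_lit 11) (nat_lit 4) (nat_lit 419) (nat_lit 242) (nat_lit 239)) (XT.nd (nat_lit 78) (nat_lit 152) (nat_lit 0) (XT.lf (nat_lit 0) (nat_lit 31090499894) (nat_lit 76) (nat_lit 3955282476) (nat_lit 76) (nat_lit 3225058336) (nat_lit 10) (nat_lit 4) (nat_lit 11) (nat_lit 5) (nat_lit 11) (nat_lit 4) (nat_lit 420) (nat_lit 242) (nat_lit 238)) (XT.lf (nat_lit 0) (nat_lit 1092433997) (nat_lit 152) (nat_lit 37971813059) (nat_lit 0) (nat_lit 218954703) (nat_lit 8) (nat_lit 5) (nat_lit 10) (nat_lit 4) (nat_lit 8) (nat_lit 4) (nat_lit 421) (nat_lit 242) (nat_lit 237)))) (XT.nd (nat_lit 78) (nat_lit 0) (nat_lit 0) (XT.lf (nat_lit 0) (nat_lit 5500763302) (nat_lit 152) (nat_lit 30355885868) (nat_lit 0) (nat_lit 4467552146) (nat_lit 8) (nat_lit 5) (nat_lit 10) (nat_lit 4) (nat_lit 8) (nat_lit 4) (nat_lit 422) (nat_lit 242)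 (nat_lit 236)) (XT.nd (nat_lit 78) (nat_lit 0) (nat_lit 0) (XT.lf (nat_lit 0) (nat_lit 9957600945) (nat_lit 152) (nat_lit 22672041168) (nat_lit 0) (nat_lit 8769310311) (nat_lit 8) (nat_lit 5) (nat_lit 10) (nat_lit 4) (nat_lit 8) (nat_lit 4) (nat_lit 423) (nat_lit 242) (nat_lit 235)) (XT.lf (nat_lit 0) (nat_lit 14466841249) (nat_lit 152) (nat_lit 14913564920) (nat_lit 0) (nat_lit 13127988015) (nat_lit 8) (nat_lit 5) (nat_lit 10) (nat_lit 4) (nat_lit 8) (nat_lit 4) (nat_lit 424) (nat_lit 242) (nat_lit 234))))) (XT.nd (nat_lit 234) (nat_lit 0) (nat_lit 0) (XT.nd (nat_lit 78) (nat_lit 76) (nat_lit 0) (XT.lf (nat_lit 0) (nat_lit 19032424327) (nat_lit 152) (nat_lit 7073677871) (nat_lit 0) (nat_lit 17547393812) (nat_lit 8) (nat_lit 5) (nat_lit 10) (nat_lit 4) (nat_lit 8) (nat_lit 4) (nat_lit 425) (nat_lit 242) (nat_lit 233)) (XT.nd (nat_lit 78) (nat_lit 0) (nat_lit 0) (XT.lf (nat_lit 0) (nat_lit 871475998) (nat_lit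 76) (nat_lit 22795240685) (nat_lit 76) (nat_lit 21168290479) (nat_lit 7) (nat_lit 4) (nat_lit 8) (nat_lit 5) (nat_lit 8) (nat_lit 4) (nat_lit 426) (nat_lit 242) (nat_lit 232)) (XT.lf (nat_lit 0) (nat_lit 9054493064) (nat_lit 76) (nat_lit 19381173161) (nat_lit 76) (nat_lit 17616436848) (nat_lit 7) (nat_lit 4) (nat_lit 8) (nat_lit 5) (nat_lit 8) (nat_lit 4) (nat_lit 427) (nat_lit 242) (nat_lit 231)))) (XT.nd (nat_lit 156) (nat_lit 0) (nat_lit 0) (XT.nd (nat_lit 78) (nat_lit 0) (nat_lit 0) (XT.lf (nat_lit 0) (nat_lit 17341743476) (nat_lit 76) (nat_lit 15932346738) (nat_lit 76) (nat_lit 14033837505) (nat_lit 7) (nat_lit 4) (nat_lit 8) (nat_lit 5) (nat_lit 8) (nat_lit 4) (nat_lit 428) (nat_lit 242) (nat_lit 230)) (XT.lf (nat_lit 0) (nat_lit 25740468520) (nat_lit 76) (nat_lit 12445747878) (nat_lit 76) (nat_lit 10417362023) (nat_lit 7) (nat_lit 4) (nat_lit 8) (nat_lit 5) (nat_lit 8) (nat_lit 4) (nat_lit 429)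 (nat_lit 242) (nat_lit 229))) (XT.nd (nat_lit 78) (nat_lit 0) (nat_lit 0) (XT.lf (nat_lit 0) (nat_lit 34258006888) (nat_lit 76) (nat_lit 8918330037) (nat_lit 76) (nat_lit 6763850376) (nat_lit 7) (nat_lit 4) (nat_lit 8) (nat_lit 5) (nat_lit 8) (nat_lit 4) (nat_lit 430) (nat_lit 242) (nat_lit 228)) (XT.lf (nat_lit 0) (nat_lit 42901801089) (nat_lit 76) (nat_lit 5347011008) (nat_lit 76) (nat_lit 3070110174) (nat_lit 7) (nat_lit 4) (nat_lit 8) (nat_lit 5) (nat_lit 8) (nat_lit 4) (nat_lit 431) (nat_lit 242) (nat_lit 227)))))) (XT.nd (nat_lit 546) (nat_lit 76) (nat_lit 0) (XT.nd (nat_lit 234) (nat_lit 0) (nat_lit 0) (XT.nd (nat_lit 78) (nat_lit 76) (nat_lit 0) (XT.lf (nat_lit 0) (nat_lit 654068868) (nat_lit 152) (nat_lit 1067996537) (nat_lit 76) (nat_lit 51018730272) (nat_lit 6) (nat_lit 5) (nat_lit 8) (nat_lit 5) (nat_lit 7) (nat_lit 4) (nat_lit 432) (nat_lit 242) (nat_lit 226)) (XT.nd (nat_lit 78) (nat_lit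 0) (nat_lit 0) (XT.lf (nat_lit 0) (nat_lit 4446071787) (nat_lit 152) (nat_lit 47749752130) (nat_lit 0) (nat_lit 2008062044) (nat_lit 5) (nat_lit 5) (nat_lit 7) (nat_lit 4) (nat_lit 5) (nat_lit 4) (nat_lit 433) (nat_lit 242) (nat_lit 225)) (XT.lf (nat_lit 0) (nat_lit 8315791329) (nat_lit 152) (nat_lit 41627153502) (nat_lit 0) (nat_lit 5769011959) (nat_lit 5) (nat_lit 5) (nat_lit 7) (nat_lit 4) (nat_lit 5) (nat_lit 4) (nat_lit 434) (nat_lit 242) (nat_lit 224)))) (XT.nd (nat_lit 156) (nat_lit 0) (nat_lit 0) (XT.nd (nat_lit 78) (nat_lit 0) (nat_lit 0) (XT.lf (nat_lit 0) (nat_lit 12239481031) (nat_lit 152) (nat_lit 35440558616) (nat_lit 0) (nat_lit 9587100084) (nat_lit 5) (nat_lit 5) (nat_lit 7) (nat_lit 4) (nat_lit 5) (nat_lit 4) (nat_lit 435) (nat_lit 242) (nat_lit 223)) (XT.lf (nat_lit 0) (nat_lit 16220569361) (nat_lit 152) (nat_lit 29184561710) (nat_lit 0) (nat_lit 13465662610) (nat_lit 5) (nat_lit 5) (nat_lit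 7) (nat_lit 4) (nat_lit 5) (nat_lit 4) (nat_lit 436) (nat_lit 242) (nat_lit 222))) (XT.nd (nat_lit 78) (nat_lit 0) (nat_lit 0) (XT.lf (nat_lit 0) (nat_lit 20262534940) (nat_lit 152) (nat_lit 22853696377) (nat_lit 0) (nat_lit 17408088573) (nat_lit 5) (nat_lit 5) (nat_lit 7) (nat_lit 4) (nat_lit 5) (nat_lit 4) (nat_lit 437) (nat_lit 242) (nat_lit 221)) (XT.lf (nat_lit 0) (nat_lit 24368909582) (nat_lit 152) (nat_lit 16442430794) (nat_lit 0) (nat_lit 21417822812) (nat_lit 5) (nat_lit 5) (nat_lit 7) (nat_lit 4) (nat_lit 5) (nat_lit 4) (nat_lit 438) (nat_lit 242) (nat_lit 220))))) (XT.nd (nat_lit 234) (nat_lit 0) (nat_lit 0) (XT.nd (nat_lit 78) (nat_lit 76) (nat_lit 0) (XT.lf (nat_lit 0) (nat_lit 28543281382) (nat_lit 152) (nat_lit 9945162884) (nat_lit 0) (nat_lit 25498368977) (nat_lit 5) (nat_lit 5) (nat_lit 7) (nat_lit 4) (nat_lit 5) (nat_lit 4) (nat_lit 439) (nat_lit 242) (nat_lit 219)) (XT.nd (nat_lit 78)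 (nat_lit 76) (nat_lit 0) (XT.lf (nat_lit 0) (nat_lit 32789297848) (nat_lit 152) (nat_lit 3356215423) (nat_lit 0) (nat_lit 29653292594) (nat_lit 5) (nat_lit 5) (nat_lit 7) (nat_lit 4) (nat_lit 5) (nat_lit 4) (nat_lit 440) (nat_lit 242) (nat_lit 218)) (XT.lf (nat_lit 0) (nat_lit 3396445812) (nat_lit 76) (nat_lit 33746871996) (nat_lit 76) (nat_lit 30522427083) (nat_lit 4) (nat_lit 4) (nat_lit 5) (nat_lit 5) (nat_lit 5) (nat_lit 4) (nat_lit 441) (nat_lit 242) (nat_lit 217)))) (XT.nd (nat_lit 156) (nat_lit 0) (nat_lit 0) (XT.nd (nat_lit 78) (nat_lit 0) (nat_lit 0) (XT.lf (nat_lit 0) (nat_lit 10321237133) (nat_lit 76) (nat_lit 31289147984) (nat_lit 76) (nat_lit 27978839324) (nat_lit 4) (nat_lit 4) (nat_lit 5) (nat_lit 5) (nat_lit 5) (nat_lit 4) (nat_lit 442) (nat_lit 242) (nat_lit 216)) (XT.lf (nat_lit 0) (nat_lit 17357414060) (nat_lit 76) (nat_lit 28804084906) (nat_lit 76) (nat_lit 25410413384) (nat_lit 4)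 (nat_lit 4) (nat_lit 5) (nat_lit 5) (nat_lit 5) (nat_lit 4) (nat_lit 443) (nat_lit 242) (nat_lit 215))) (XT.nd (nat_lit 78) (nat_lit 0) (nat_lit 0) (XT.lf (nat_lit 0) (nat_lit 24511124709) (nat_lit 76) (nat_lit 26289511346) (nat_lit 76) (nat_lit 22814905008) (nat_lit 4) (nat_lit 4) (nat_lit 5) (nat_lit 5) (nat_lit 5) (nat_lit 4) (nat_lit 444) (nat_lit 242) (nat_lit 214)) (XT.lf (nat_lit 0) (nat_lit 31788619894) (nat_lit 76) (nat_lit 23743230106) (nat_lit 76) (nat_lit 20190046276) (nat_lit 4) (nat_lit 4) (nat_lit 5) (nat_lit 5) (nat_lit 5) (nat_lit 4) (nat_lit 445) (nat_lit 242) (nat_lit 213))))))))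
noncomputable def xc6 : XT := (XT.nd (nat_lit 46020) (nat_lit 0) (nat_lit 0) (XT.nd (nat_lit 45006) (nat_lit 0) (nat_lit 76) (XT.nd (nat_lit 44460) (nat_lit 0) (nat_lit 304) (XT.nd (nat_lit 234) (nat_lit 0) (nat_lit 0) (XT.nd (nat_lit 78) (nat_lit 0) (nat_lit 0) (XT.lf (nat_lit 0) (nat_lit 39196258593) (nat_lit 76) (nat_lit 21163016278) (nat_lit 76) (nat_lit 17533543621) (nat_lit 4) (nat_lit 4) (nat_lit 5) (nat_lit 5) (nat_lit 5) (nat_lit 4) (nat_lit 446) (nat_lit 242) (nat_lit 212)) (XT.nd (nat_lit 78) (nat_lit 0) (nat_lit 0) (XT.lf (nat_lit 0) (nat_lit 46740513498) (nat_lit 76) (nat_lit 18546615307) (nat_lit 76) (nat_lit 14843075829) (nat_lit 4) (nat_lit 4) (nat_lit 5) (nat_lit 5) (nat_lit 5) (nat_lit 4) (nat_lit 447) (nat_lit 242) (nat_lit 211)) (XT.lf (nat_lit 0) (nat_lit 54427976679) (nat_lit 76) (nat_lit 15891741018) (nat_lit 76) (nat_lit 12116292003) (nat_lit 4) (nat_lit 4) (nat_lit 5) (nat_lit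 5) (nat_lit 5) (nat_lit 4) (nat_lit 448) (nat_lit 242) (nat_lit 210)))) (XT.nd (nat_lit 78) (nat_lit 0) (nat_lit 0) (XT.lf (nat_lit 0) (nat_lit 62265365334) (nat_lit 76) (nat_lit 13196073618) (nat_lit 76) (nat_lit 9350809519) (nat_lit 4) (nat_lit 4) (nat_lit 5) (nat_lit 5) (nat_lit 5) (nat_lit 4) (nat_lit 449) (nat_lit 242) (nat_lit 209)) (XT.nd (nat_lit 44070) (nat_lit 0) (nat_lit 532) (XT.lf (nat_lit 0) (nat_lit 70259527669) (nat_lit 76) (nat_lit 10457257668) (nat_lit 76) (nat_lit 6544211935) (nat_lit 4) (nat_lit 4) (nat_lit 5) (nat_lit 5) (nat_lit 5) (nat_lit 4) (nat_lit 450) (nat_lit 242) (nat_lit 208)) (XT.lf (nat_lit 0) (nat_lit 2427243084) (nat_lit 152) (nat_lit 11559019124) (nat_lit 0) (nat_lit 2427243084) (nat_lit 11) (nat_lit 5) (nat_lit 13) (nat_lit 4) (nat_lit 11) (nat_lit 4) (nat_lit 414) (nat_lit 243) (nat_lit 243))))) (XT.nd (nat_lit 234) (nat_lit 152) (nat_lit 0) (XT.nd (nat_lit 78) (nat_lit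 76) (nat_lit 0) (XT.lf (nat_lit 0) (nat_lit 9691923680) (nat_lit 152) (nat_lit 14477006251) (nat_lit 0) (nat_lit 9495473638) (nat_lit 11) (nat_lit 5) (nat_lit 13) (nat_lit 4) (nat_lit 11) (nat_lit 4) (nat_lit 415) (nat_lit 243) (nat_lit 242)) (XT.nd (nat_lit 78) (nat_lit 76) (nat_lit 0) (XT.lf (nat_lit 0) (nat_lit 14579918191) (nat_lit 152) (nat_lit 5757108644) (nat_lit 0) (nat_lit 14192739951) (nat_lit 11) (nat_lit 5) (nat_lit 13) (nat_lit 4) (nat_lit 11) (nat_lit 4) (nat_lit 416) (nat_lit 243) (nat_lit 241)) (XT.lf (nat_lit 0) (nat_lit 3109960432) (nat_lit 76) (nat_lit 16442675172) (nat_lit 76) (nat_lit 15870323926) (nat_lit 10) (nat_lit 4) (nat_lit 11) (nat_lit 5) (nat_lit 11) (nat_lit 4) (nat_lit 417) (nat_lit 243) (nat_lit 240)))) (XT.nd (nat_lit 156) (nat_lit 152) (nat_lit 0) (XT.nd (nat_lit 78) (nat_lit 0) (nat_lit 0) (XT.lf (nat_lit 0) (nat_lit 12187661460) (nat_lit 76) (nat_lit 12454204164) (nat_lit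 76) (nat_lit 11702073300) (nat_lit 10) (nat_lit 4) (nat_lit 11) (nat_lit 5) (nat_lit 11) (nat_lit 4) (nat_lit 418) (nat_lit 243) (nat_lit 239)) (XT.lf (nat_lit 0) (nat_lit 21369348661) (nat_lit 76) (nat_lit 8426264248) (nat_lit 76) (nat_lit 7499590065) (nat_lit 10) (nat_lit 4) (nat_lit 11) (nat_lit 5) (nat_lit 11) (nat_lit 4) (nat_lit 419) (nat_lit 243) (nat_lit 238))) (XT.nd (nat_lit 78) (nat_lit 152) (nat_lit 0) (XT.lf (nat_lit 0) (nat_lit 30663044867) (nat_lit 76) (nat_lit 4355335864) (nat_lit 76) (nat_lit 3259202148) (nat_lit 10) (nat_lit 4) (nat_lit 11) (nat_lit 5) (nat_lit 11) (nat_lit 4) (nat_lit 420) (nat_lit 243) (nat_lit 237)) (XT.lf (nat_lit 0) (nat_lit 790528062) (nat_lit 76) (nat_lit 219908191) (nat_lit 152) (nat_lit 38280977856) (nat_lit 8) (nat_lit 5) (nat_lit 9) (nat_lit 5) (nat_lit 10) (nat_lit 4) (nat_lit 421) (nat_lit 243) (nat_lit 236)))))) (XT.nd (nat_lit 468) (nat_lit 152) (nat_lit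 0) (XT.nd (nat_lit 234) (nat_lit 76) (nat_lit 0) (XT.nd (nat_lit 78) (nat_lit 0) (nat_lit 0) (XT.lf (nat_lit 0) (nat_lit 5375399676) (nat_lit 152) (nat_lit 30961938712) (nat_lit 0) (nat_lit 3996380846) (nat_lit 8) (nat_lit 5) (nat_lit 10) (nat_lit 4) (nat_lit 8) (nat_lit 4) (nat_lit 422) (nat_lit 243) (nat_lit 235)) (XT.nd (nat_lit 78) (nat_lit 0) (nat_lit 0) (XT.lf (nat_lit 0) (nat_lit 9792186842) (nat_lit 152) (nat_lit 23354884058) (nat_lit 0) (nat_lit 8262605412) (nat_lit 8) (nat_lit 5) (nat_lit 10) (nat_lit 4) (nat_lit 8) (nat_lit 4) (nat_lit 423) (nat_lit 243) (nat_lit 234)) (XT.lf (nat_lit 0) (nat_lit 14262543188) (nat_lit 152) (nat_lit 15670961252) (nat_lit 0) (nat_lit 12586784476) (nat_lit 8) (nat_lit 5) (nat_lit 10) (nat_lit 4) (nat_lit 8) (nat_lit 4) (nat_lit 424) (nat_lit 243) (nat_lit 233)))) (XT.nd (nat_lit 78) (nat_lit 76) (nat_lit 0) (XT.lf (nat_lit 0) (nat_lit 18790374850) (nat_lit 152)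 (nat_lit 7903456186) (nat_lit 0) (nat_lit 16972696447) (nat_lit 8) (nat_lit 5) (nat_lit 10) (nat_lit 4) (nat_lit 8) (nat_lit 4) (nat_lit 425) (nat_lit 243) (nat_lit 232)) (XT.nd (nat_lit 78) (nat_lit 76) (nat_lit 0) (XT.lf (nat_lit 0) (nat_lit 23379638186) (nat_lit 152) (nat_lit 45581721) (nat_lit 0) (nat_lit 21424173676) (nat_lit 8) (nat_lit 5) (nat_lit 10) (nat_lit 4) (nat_lit 8) (nat_lit 4) (nat_lit 426) (nat_lit 243) (nat_lit 231)) (XT.lf (nat_lit 0) (nat_lit 8066943368) (nat_lit 76) (nat_lit 20044944259) (nat_lit 76) (nat_lit 17955706829) (nat_lit 7) (nat_lit 4) (nat_lit 8) (nat_lit 5) (nat_lit 8) (nat_lit 4) (nat_lit 427) (nat_lit 243) (nat_lit 230))))) (XT.nd (nat_lit 234) (nat_lit 152) (nat_lit 0) (XT.nd (nat_lit 78) (nat_lit 0) (nat_lit 0) (XT.lf (nat_lit 0) (nat_lit 16286635711) (nat_lit 76) (nat_lit 16628478602) (nat_lit 76) (nat_lit 14409364551) (nat_lit 7) (nat_lit 4) (nat_lit 8) (nat_lit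 5) (nat_lit 8) (nat_lit 4) (nat_lit 428) (nat_lit 243) (nat_lit 229)) (XT.nd (nat_lit 78) (nat_lit 0) (nat_lit 0) (XT.lf (nat_lit 0) (nat_lit 24619770396) (nat_lit 76) (nat_lit 13173297961) (nat_lit 76) (nat_lit 10828090103) (nat_lit 7) (nat_lit 4) (nat_lit 8) (nat_lit 5) (nat_lit 8) (nat_lit 4) (nat_lit 429) (nat_lit 243) (nat_lit 228)) (XT.lf (nat_lit 0) (nat_lit 33073628805) (nat_lit 76) (nat_lit 9676383247) (nat_lit 76) (nat_lit 7208754217) (nat_lit 7) (nat_lit 4) (nat_lit 8) (nat_lit 5) (nat_lit 8) (nat_lit 4) (nat_lit 430) (nat_lit 243) (nat_lit 227)))) (XT.nd (nat_lit 156) (nat_lit 76) (nat_lit 0) (XT.nd (nat_lit 78) (nat_lit 76) (nat_lit 0) (XT.lf (nat_lit 0) (nat_lit 41655597803) (nat_lit 76) (nat_lit 6134678903) (nat_lit 76) (nat_lit 3548194366) (nat_lit 7) (nat_lit 4) (nat_lit 8) (nat_lit 5) (nat_lit 8) (nat_lit 4) (nat_lit 431) (nat_lit 243) (nat_lit 226)) (XT.lf (nat_lit 0) (nat_lit 153728498)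 (nat_lit 152) (nat_lit 2389809380) (nat_lit 76) (nat_lit 50217895343) (nat_lit 6) (nat_lit 5) (nat_lit 8) (nat_lit 5) (nat_lit 7) (nat_lit 4) (nat_lit 432) (nat_lit 243) (nat_lit 225))) (XT.nd (nat_lit 78) (nat_lit 0) (nat_lit 0) (XT.lf (nat_lit 0) (nat_lit 3893227928) (nat_lit 152) (nat_lit 49171598348) (nat_lit 0) (nat_lit 1161275552) (nat_lit 5) (nat_lit 5) (nat_lit 7) (nat_lit 4) (nat_lit 5) (nat_lit 4) (nat_lit 433) (nat_lit 243) (nat_lit 224)) (XT.lf (nat_lit 0) (nat_lit 7732345782) (nat_lit 152) (nat_lit 43107956223) (nat_lit 0) (nat_lit 4894791828) (nat_lit 5) (nat_lit 5) (nat_lit 7) (nat_lit 4) (nat_lit 5) (nat_lit 4) (nat_lit 434) (nat_lit 243) (nat_lit 223))))))) (XT.nd (nat_lit 1014) (nat_lit 0) (nat_lit 0) (XT.nd (nat_lit 468) (nat_lit 76) (nat_lit 0) (XT.nd (nat_lit 234) (nat_lit 0) (nat_lit 0) (XT.nd (nat_lit 78) (nat_lit 0) (nat_lit 0) (XT.lf (nat_lit 0) (nat_lit 11626325108) (nat_lit 152)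 (nat_lit 36978600660) (nat_lit 0) (nat_lit 8686245350) (nat_lit 5) (nat_lit 5) (nat_lit 7) (nat_lit 4) (nat_lit 5) (nat_lit 4) (nat_lit 435) (nat_lit 243) (nat_lit 222)) (XT.nd (nat_lit 78) (nat_lit 0) (nat_lit 0) (XT.lf (nat_lit 0) (nat_lit 15578568413) (nat_lit 152) (nat_lit 30778175912) (nat_lit 0) (nat_lit 12538949039) (nat_lit 5) (nat_lit 5) (nat_lit 7) (nat_lit 4) (nat_lit 5) (nat_lit 4) (nat_lit 436) (nat_lit 243) (nat_lit 221)) (XT.lf (nat_lit 0) (nat_lit 19592529113) (nat_lit 152) (nat_lit 24501264131) (nat_lit 0) (nat_lit 16456269336) (nat_lit 5) (nat_lit 5) (nat_lit 7) (nat_lit 4) (nat_lit 5) (nat_lit 4) (nat_lit 437) (nat_lit 243) (nat_lit 220)))) (XT.nd (nat_lit 78) (nat_lit 0) (nat_lit 0) (XT.lf (nat_lit 0) (nat_lit 23671714552) (nat_lit 152) (nat_lit 18142380637) (nat_lit 0) (nat_lit 20441629141) (nat_lit 5) (nat_lit 5) (nat_lit 7) (nat_lit 4) (nat_lit 5) (nat_lit 4) (nat_lit 438) (nat_lit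 243) (nat_lit 219)) (XT.nd (nat_lit 78) (nat_lit 0) (nat_lit 0) (XT.lf (nat_lit 0) (nat_lit 27819689068) (nat_lit 152) (nat_lit 11695969124) (nat_lit 0) (nat_lit 24498510807) (nat_lit 5) (nat_lit 5) (nat_lit 7) (nat_lit 4) (nat_lit 5) (nat_lit 4) (nat_lit 439) (nat_lit 243) (nat_lit 218)) (XT.lf (nat_lit 0) (nat_lit 32040077103) (nat_lit 152) (nat_lit 5156396806) (nat_lit 0) (nat_lit 28630459183) (nat_lit 5) (nat_lit 5) (nat_lit 7) (nat_lit 4) (nat_lit 5) (nat_lit 4) (nat_lit 440) (nat_lit 243) (nat_lit 217))))) (XT.nd (nat_lit 234) (nat_lit 0) (nat_lit 0) (XT.nd (nat_lit 78) (nat_lit 0) (nat_lit 0) (XT.lf (nat_lit 0) (nat_lit 1511546217) (nat_lit 76) (nat_lit 34839550066) (nat_lit 76) (nat_lit 31344068399) (nat_lit 4) (nat_lit 4) (nat_lit 5) (nat_lit 5) (nat_lit 5) (nat_lit 4) (nat_lit 441) (nat_lit 243) (nat_lit 216)) (XT.nd (nat_lit 78) (nat_lit 0) (nat_lit 0) (XT.lf (nat_lit 0) (nat_lit 8388870477)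 (nat_lit 76) (nat_lit 32404679578) (nat_lit 76) (nat_lit 28825835050) (nat_lit 4) (nat_lit 4) (nat_lit 5) (nat_lit 5) (nat_lit 5) (nat_lit 4) (nat_lit 442) (nat_lit 243) (nat_lit 215)) (XT.lf (nat_lit 0) (nat_lit 15378962879) (nat_lit 76) (nat_lit 29941804387) (nat_lit 76) (nat_lit 26282025042) (nat_lit 4) (nat_lit 4) (nat_lit 5) (nat_lit 5) (nat_lit 5) (nat_lit 4) (nat_lit 443) (nat_lit 243) (nat_lit 214)))) (XT.nd (nat_lit 156) (nat_lit 0) (nat_lit 0) (XT.nd (nat_lit 78) (nat_lit 0) (nat_lit 0) (XT.lf (nat_lit 0) (nat_lit 22487931270) (nat_lit 76) (nat_lit 27448772465) (nat_lit 76) (nat_lit 23710415629) (nat_lit 4) (nat_lit 4) (nat_lit 5) (nat_lit 5) (nat_lit 5) (nat_lit 4) (nat_lit 444) (nat_lit 243) (nat_lit 213)) (XT.lf (nat_lit 0) (nat_lit 29721987370) (nat_lit 76) (nat_lit 24923405437) (nat_lit 76) (nat_lit 21108759773) (nat_lit 4) (nat_lit 4) (nat_lit 5) (nat_lit 5) (nat_lit 5) (nat_lit 4) (nat_lit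 445) (nat_lit 243) (nat_lit 212))) (XT.nd (nat_lit 78) (nat_lit 0) (nat_lit 0) (XT.lf (nat_lit 0) (nat_lit 37087452200) (nat_lit 76) (nat_lit 22363496669) (nat_lit 76) (nat_lit 18474784184) (nat_lit 4) (nat_lit 4) (nat_lit 5) (nat_lit 5) (nat_lit 5) (nat_lit 4) (nat_lit 446) (nat_lit 243) (nat_lit 211)) (XT.lf (nat_lit 0) (nat_lit 44590761602) (nat_lit 76) (nat_lit 19766809349) (nat_lit 76) (nat_lit 15806187327) (nat_lit 4) (nat_lit 4) (nat_lit 5) (nat_lit 5) (nat_lit 5) (nat_lit 4) (nat_lit 447) (nat_lit 243) (nat_lit 210)))))) (XT.nd (nat_lit 44382) (nat_lit 0) (nat_lit 304) (XT.nd (nat_lit 44070) (nat_lit 0) (nat_lit 532) (XT.nd (nat_lit 78) (nat_lit 0) (nat_lit 0) (XT.lf (nat_lit 0) (nat_lit 52238471866) (nat_lit 76) (nat_lit 17131074527) (nat_lit 76) (nat_lit 13100637421) (nat_lit 4) (nat_lit 4) (nat_lit 5) (nat_lit 5) (nat_lit 5) (nat_lit 4) (nat_lit 448) (nat_lit 243) (nat_lit 209)) (XT.nd (nat_lit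 78) (nat_lit 0) (nat_lit 0) (XT.lf (nat_lit 0) (nat_lit 60037265458) (nat_lit 76) (nat_lit 14453989132) (nat_lit 76) (nat_lit 10355770392) (nat_lit 4) (nat_lit 4) (nat_lit 5) (nat_lit 5) (nat_lit 5) (nat_lit 4) (nat_lit 449) (nat_lit 243) (nat_lit 208)) (XT.lf (nat_lit 0) (nat_lit 67993956856) (nat_lit 76) (nat_lit 11733213965) (nat_lit 76) (nat_lit 7569187813) (nat_lit 4) (nat_lit 4) (nat_lit 5) (nat_lit 5) (nat_lit 5) (nat_lit 4) (nat_lit 450) (nat_lit 243) (nat_lit 207)))) (XT.nd (nat_lit 156) (nat_lit 0) (nat_lit 0) (XT.nd (nat_lit 78) (nat_lit 152) (nat_lit 0) (XT.lf (nat_lit 0) (nat_lit 11222950408) (nat_lit 76) (nat_lit 2195175638) (nat_lit 76) (nat_lit 2195175638) (nat_lit 13) (nat_lit 4) (nat_lit 14) (nat_lit 5) (nat_lit 14) (nat_lit 4) (nat_lit 412) (nat_lit 244) (nat_lit 244)) (XT.lf (nat_lit 0) (nat_lit 265722310) (nat_lit 152) (nat_lit 31687755048) (nat_lit 0) (nat_lit 63378766) (nat_lit 11)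 (nat_lit 5) (nat_lit 13) (nat_lit 4) (nat_lit 11) (nat_lit 4) (nat_lit 413) (nat_lit 244) (nat_lit 243))) (XT.nd (nat_lit 78) (nat_lit 0) (nat_lit 0) (XT.lf (nat_lit 0) (nat_lit 5008847884) (nat_lit 152) (nat_lit 23209553670) (nat_lit 0) (nat_lit 4610054297) (nat_lit 11) (nat_lit 5) (nat_lit 13) (nat_lit 4) (nat_lit 11) (nat_lit 4) (nat_lit 414) (nat_lit 244) (nat_lit 242)) (XT.lf (nat_lit 0) (nat_lit 9799701097) (nat_lit 152) (nat_lit 14657371600) (nat_lit 0) (nat_lit 9210179313) (nat_lit 11) (nat_lit 5) (nat_lit 13) (nat_lit 4) (nat_lit 11) (nat_lit 4) (nat_lit 415) (nat_lit 244) (nat_lit 241))))) (XT.nd (nat_lit 234) (nat_lit 152) (nat_lit 0) (XT.nd (nat_lit 78) (nat_lit 76) (nat_lit 0) (XT.lf (nat_lit 0) (nat_lit 14642468133) (nat_lit 152) (nat_lit 6023736055) (nat_lit 0) (nat_lit 13867773342) (nat_lit 11) (nat_lit 5) (nat_lit 13) (nat_lit 4) (nat_lit 11) (nat_lit 4) (nat_lit 416) (nat_lit 244) (nat_lit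 240)) (XT.nd (nat_lit 78) (nat_lit 0) (nat_lit 0) (XT.lf (nat_lit 0) (nat_lit 2752610256) (nat_lit 76) (nat_lit 16815230052) (nat_lit 76) (nat_lit 15860755644) (nat_lit 10) (nat_lit 4) (nat_lit 11) (nat_lit 5) (nat_lit 11) (nat_lit 4) (nat_lit 417) (nat_lit 244) (nat_lit 239)) (XT.lf (nat_lit 0) (nat_lit 11747382782) (nat_lit 76) (nat_lit 12866259153) (nat_lit 76) (nat_lit 11737241426) (nat_lit 10) (nat_lit 4) (nat_lit 11) (nat_lit 5) (nat_lit 11) (nat_lit 4) (nat_lit 418) (nat_lit 244) (nat_lit 238)))) (XT.nd (nat_lit 156) (nat_lit 152) (nat_lit 0) (XT.nd (nat_lit 78) (nat_lit 0) (nat_lit 0) (XT.lf (nat_lit 0) (nat_lit 20848556874) (nat_lit 76) (nat_lit 8876668858) (nat_lit 76) (nat_lit 7578191598) (nat_lit 10) (nat_lit 4) (nat_lit 11) (nat_lit 5) (nat_lit 11) (nat_lit 4) (nat_lit 419) (nat_lit 244) (nat_lit 237)) (XT.lf (nat_lit 0) (nat_lit 30064085013) (nat_lit 76) (nat_lit 4842973116) (nat_lit 76)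 (nat_lit 3379972038) (nat_lit 10) (nat_lit 4) (nat_lit 11) (nat_lit 5) (nat_lit 11) (nat_lit 4) (nat_lit 420) (nat_lit 244) (nat_lit 236))) (XT.nd (nat_lit 78) (nat_lit 0) (nat_lit 0) (XT.lf (nat_lit 0) (nat_lit 92975262) (nat_lit 76) (nat_lit 752201192) (nat_lit 152) (nat_lit 38457129758) (nat_lit 8) (nat_lit 5) (nat_lit 9) (nat_lit 5) (nat_lit 10) (nat_lit 4) (nat_lit 421) (nat_lit 244) (nat_lit 235)) (XT.lf (nat_lit 0) (nat_lit 5164972673) (nat_lit 152) (nat_lit 31742056934) (nat_lit 0) (nat_lit 3438941200) (nat_lit 8) (nat_lit 5) (nat_lit 10) (nat_lit 4) (nat_lit 8) (nat_lit 4) (nat_lit 422) (nat_lit 244) (nat_lit 234))))))))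
noncomputable def xc7 : XT := (XT.nd (nat_lit 2028) (nat_lit 0) (nat_lit 0) (XT.nd (nat_lit 1014) (nat_lit 76) (nat_lit 0) (XT.nd (nat_lit 468) (nat_lit 152) (nat_lit 0) (XT.nd (nat_lit 234) (nat_lit 76) (nat_lit 0) (XT.nd (nat_lit 78) (nat_lit 0) (nat_lit 0) (XT.lf (nat_lit 0) (nat_lit 9542875881) (nat_lit 152) (nat_lit 24209555722) (nat_lit 0) (nat_lit 7670667126) (nat_lit 8) (nat_lit 5) (nat_lit 10) (nat_lit 4) (nat_lit 8) (nat_lit 4) (nat_lit 423) (nat_lit 244) (nat_lit 233)) (XT.nd (nat_lit 78) (nat_lit 0) (nat_lit 0) (XT.lf (nat_lit 0) (nat_lit 13975480811) (nat_lit 152) (nat_lit 16598014898) (nat_lit 0) (nat_lit 11961352365) (nat_lit 8) (nat_lit 5) (nat_lit 10) (nat_lit 4) (nat_lit 8) (nat_lit 4) (nat_lit 424) (nat_lit 244) (nat_lit 232)) (XT.lf (nat_lit 0) (nat_lit 18466660613) (nat_lit 152) (nat_lit 8900783602) (nat_lit 0) (nat_lit 16314746060) (nat_lit 8) (nat_lit 5) (nat_lit 10) (nat_lit 4)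 (nat_lit 8) (nat_lit 4) (nat_lit 425) (nat_lit 244) (nat_lit 231)))) (XT.nd (nat_lit 78) (nat_lit 76) (nat_lit 0) (XT.lf (nat_lit 0) (nat_lit 23020339619) (nat_lit 152) (nat_lit 1111136098) (nat_lit 0) (nat_lit 20734652147) (nat_lit 8) (nat_lit 5) (nat_lit 10) (nat_lit 4) (nat_lit 8) (nat_lit 4) (nat_lit 426) (nat_lit 244) (nat_lit 230)) (XT.nd (nat_lit 78) (nat_lit 0) (nat_lit 0) (XT.lf (nat_lit 0) (nat_lit 6912624300) (nat_lit 76) (nat_lit 20794320845) (nat_lit 76) (nat_lit 18378756751) (nat_lit 7) (nat_lit 4) (nat_lit 8) (nat_lit 5) (nat_lit 8) (nat_lit 4) (nat_lit 427) (nat_lit 244) (nat_lit 229)) (XT.lf (nat_lit 0) (nat_lit 15066726285) (nat_lit 76) (nat_lit 17409273408) (nat_lit 76) (nat_lit 14867615507) (nat_lit 7) (nat_lit 4) (nat_lit 8) (nat_lit 5) (nat_lit 8) (nat_lit 4) (nat_lit 428) (nat_lit 244) (nat_lit 228))))) (XT.nd (nat_lit 234) (nat_lit 152) (nat_lit 0) (XT.nd (nat_lit 78) (nat_lit 0)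 (nat_lit 0) (XT.lf (nat_lit 0) (nat_lit 23336181011) (nat_lit 76) (nat_lit 13984595893) (nat_lit 76) (nat_lit 11320516820) (nat_lit 7) (nat_lit 4) (nat_lit 8) (nat_lit 5) (nat_lit 8) (nat_lit 4) (nat_lit 429) (nat_lit 244) (nat_lit 227)) (XT.nd (nat_lit 78) (nat_lit 0) (nat_lit 0) (XT.lf (nat_lit 0) (nat_lit 31728214216) (nat_lit 76) (nat_lit 10517295864) (nat_lit 76) (nat_lit 7734361285) (nat_lit 7) (nat_lit 4) (nat_lit 8) (nat_lit 5) (nat_lit 8) (nat_lit 4) (nat_lit 430) (nat_lit 244) (nat_lit 226)) (XT.lf (nat_lit 0) (nat_lit 40250158745) (nat_lit 76) (nat_lit 7004343642) (nat_lit 76) (nat_lit 4106015366) (nat_lit 7) (nat_lit 4) (nat_lit 8) (nat_lit 5) (nat_lit 8) (nat_lit 4) (nat_lit 431) (nat_lit 244) (nat_lit 225)))) (XT.nd (nat_lit 156) (nat_lit 0) (nat_lit 0) (XT.nd (nat_lit 78) (nat_lit 152) (nat_lit 0) (XT.lf (nat_lit 0) (nat_lit 48909460956) (nat_lit 76) (nat_lit 3442669656) (nat_lit 76) (nat_lit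 432308666) (nat_lit 7) (nat_lit 4) (nat_lit 8) (nat_lit 5) (nat_lit 8) (nat_lit 4) (nat_lit 432) (nat_lit 244) (nat_lit 224)) (XT.lf (nat_lit 0) (nat_lit 3261677327) (nat_lit 152) (nat_lit 50755781654) (nat_lit 0) (nat_lit 233395176) (nat_lit 5) (nat_lit 5) (nat_lit 7) (nat_lit 4) (nat_lit 5) (nat_lit 4) (nat_lit 433) (nat_lit 244) (nat_lit 223))) (XT.nd (nat_lit 78) (nat_lit 0) (nat_lit 0) (XT.lf (nat_lit 0) (nat_lit 7071084805) (nat_lit 152) (nat_lit 44749378852) (nat_lit 0) (nat_lit 3940276850) (nat_lit 5) (nat_lit 5) (nat_lit 7) (nat_lit 4) (nat_lit 5) (nat_lit 4) (nat_lit 434) (nat_lit 244) (nat_lit 222)) (XT.lf (nat_lit 0) (nat_lit 10936219106) (nat_lit 152) (nat_lit 38675595447) (nat_lit 0) (nat_lit 7705871536) (nat_lit 5) (nat_lit 5) (nat_lit 7) (nat_lit 4) (nat_lit 5) (nat_lit 4) (nat_lit 435) (nat_lit 244) (nat_lit 221)))))) (XT.nd (nat_lit 468) (nat_lit 76) (nat_lit 0) (XT.nd (nat_lit 234) (nat_lit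 0) (nat_lit 0) (XT.nd (nat_lit 78) (nat_lit 0) (nat_lit 0) (XT.lf (nat_lit 0) (nat_lit 14860457533) (nat_lit 152) (nat_lit 32529124250) (nat_lit 0) (nat_lit 11533469558) (nat_lit 5) (nat_lit 5) (nat_lit 7) (nat_lit 4) (nat_lit 5) (nat_lit 4) (nat_lit 436) (nat_lit 244) (nat_lit 220)) (XT.nd (nat_lit 78) (nat_lit 0) (nat_lit 0) (XT.lf (nat_lit 0) (nat_lit 18847229030) (nat_lit 152) (nat_lit 26304594558) (nat_lit 0) (nat_lit 15426415421) (nat_lit 5) (nat_lit 5) (nat_lit 7) (nat_lit 4) (nat_lit 5) (nat_lit 4) (nat_lit 437) (nat_lit 244) (nat_lit 219)) (XT.lf (nat_lit 0) (nat_lit 22900017185) (nat_lit 152) (nat_lit 19996567461) (nat_lit 0) (nat_lit 19388110727) (nat_lit 5) (nat_lit 5) (nat_lit 7) (nat_lit 4) (nat_lit 5) (nat_lit 4) (nat_lit 438) (nat_lit 244) (nat_lit 218)))) (XT.nd (nat_lit 78) (nat_lit 0) (nat_lit 0) (XT.lf (nat_lit 0) (nat_lit 27022363269) (nat_lit 152) (nat_lit 13599531091) (nat_lit 0)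 (nat_lit 23422017152) (nat_lit 5) (nat_lit 5) (nat_lit 7) (nat_lit 4) (nat_lit 5) (nat_lit 4) (nat_lit 439) (nat_lit 244) (nat_lit 217)) (XT.nd (nat_lit 78) (nat_lit 0) (nat_lit 0) (XT.lf (nat_lit 0) (nat_lit 31217869332) (nat_lit 152) (nat_lit 7107895805) (nat_lit 0) (nat_lit 27531659468) (nat_lit 5) (nat_lit 5) (nat_lit 7) (nat_lit 4) (nat_lit 5) (nat_lit 4) (nat_lit 440) (nat_lit 244) (nat_lit 216)) (XT.lf (nat_lit 0) (nat_lit 35490201350) (nat_lit 152) (nat_lit 515989300) (nat_lit 0) (nat_lit 31720628625) (nat_lit 5) (nat_lit 5) (nat_lit 7) (nat_lit 4) (nat_lit 5) (nat_lit 4) (nat_lit 441) (nat_lit 244) (nat_lit 215))))) (XT.nd (nat_lit 234) (nat_lit 0) (nat_lit 0) (XT.nd (nat_lit 78) (nat_lit 0) (nat_lit 0) (XT.lf (nat_lit 0) (nat_lit 6304981235) (nat_lit 76) (nat_lit 33598718530) (nat_lit 76) (nat_lit 29748210989) (nat_lit 4) (nat_lit 4) (nat_lit 5) (nat_lit 5) (nat_lit 5) (nat_lit 4) (nat_lit 442)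 (nat_lit 244) (nat_lit 214)) (XT.nd (nat_lit 78) (nat_lit 0) (nat_lit 0) (XT.lf (nat_lit 0) (nat_lit 13250331380) (nat_lit 76) (nat_lit 31157384978) (nat_lit 76) (nat_lit 27228299945) (nat_lit 4) (nat_lit 4) (nat_lit 5) (nat_lit 5) (nat_lit 5) (nat_lit 4) (nat_lit 443) (nat_lit 244) (nat_lit 213)) (XT.lf (nat_lit 0) (nat_lit 20315860686) (nat_lit 76) (nat_lit 28685267268) (nat_lit 76) (nat_lit 24679893408) (nat_lit 4) (nat_lit 4) (nat_lit 5) (nat_lit 5) (nat_lit 5) (nat_lit 4) (nat_lit 444) (nat_lit 244) (nat_lit 212)))) (XT.nd (nat_lit 156) (nat_lit 0) (nat_lit 0) (XT.nd (nat_lit 78) (nat_lit 0) (nat_lit 0) (XT.lf (nat_lit 0) (nat_lit 27507742917) (nat_lit 76) (nat_lit 26180205300) (nat_lit 76) (nat_lit 22100764617) (nat_lit 4) (nat_lit 4) (nat_lit 5) (nat_lit 5) (nat_lit 5) (nat_lit 4) (nat_lit 445) (nat_lit 244) (nat_lit 211)) (XT.lf (nat_lit 0) (nat_lit 34832262243) (nat_lit 76) (nat_lit 23640010183)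 (nat_lit 76) (nat_lit 19488659964) (nat_lit 4) (nat_lit 4) (nat_lit 5) (nat_lit 5) (nat_lit 5) (nat_lit 4) (nat_lit 446) (nat_lit 244) (nat_lit 210))) (XT.nd (nat_lit 78) (nat_lit 0) (nat_lit 0) (XT.lf (nat_lit 0) (nat_lit 42295818729) (nat_lit 76) (nat_lit 21062462329) (nat_lit 76) (nat_lit 16841297027) (nat_lit 4) (nat_lit 4) (nat_lit 5) (nat_lit 5) (nat_lit 5) (nat_lit 4) (nat_lit 447) (nat_lit 244) (nat_lit 209)) (XT.lf (nat_lit 0) (nat_lit 49904933929) (nat_lit 76) (nat_lit 18445309513) (nat_lit 76) (nat_lit 14156362576) (nat_lit 4) (nat_lit 4) (nat_lit 5) (nat_lit 5) (nat_lit 5) (nat_lit 4) (nat_lit 448) (nat_lit 244) (nat_lit 208))))))) (XT.nd (nat_lit 44694) (nat_lit 0) (nat_lit 76) (XT.nd (nat_lit 44148) (nat_lit 0) (nat_lit 456) (XT.nd (nat_lit 43914) (nat_lit 0) (nat_lit 532) (XT.nd (nat_lit 78) (nat_lit 0) (nat_lit 0) (XT.lf (nat_lit 0) (nat_lit 57666256584) (nat_lit 76) (nat_lit 15786264902)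 (nat_lit 76) (nat_lit 11431510552) (nat_lit 4) (nat_lit 4) (nat_lit 5) (nat_lit 5) (nat_lit 5) (nat_lit 4) (nat_lit 449) (nat_lit 244) (nat_lit 207)) (XT.nd (nat_lit 43758) (nat_lit 0) (nat_lit 684) (XT.lf (nat_lit 0) (nat_lit 65586568433) (nat_lit 76) (nat_lit 13083005058) (nat_lit 76) (nat_lit 8664360017) (nat_lit 4) (nat_lit 4) (nat_lit 5) (nat_lit 5) (nat_lit 5) (nat_lit 4) (nat_lit 450) (nat_lit 244) (nat_lit 206)) (XT.lf (nat_lit 0) (nat_lit 1533285431) (nat_lit 76) (nat_lit 6663637769) (nat_lit 76) (nat_lit 6663637769) (nat_lit 13) (nat_lit 4) (nat_lit 14) (nat_lit 5) (nat_lit 14) (nat_lit 4) (nat_lit 410) (nat_lit 245) (nat_lit 245)))) (XT.nd (nat_lit 78) (nat_lit 152) (nat_lit 0) (XT.lf (nat_lit 0) (nat_lit 12658920946) (nat_lit 76) (nat_lit 9008877850) (nat_lit 76) (nat_lit 8794211585) (nat_lit 13) (nat_lit 4) (nat_lit 14) (nat_lit 5) (nat_lit 14) (nat_lit 4) (nat_lit 411) (nat_lit 245) (nat_lit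 244)) (XT.nd (nat_lit 78) (nat_lit 152) (nat_lit 0) (XT.lf (nat_lit 0) (nat_lit 22355472938) (nat_lit 76) (nat_lit 4647822699) (nat_lit 76) (nat_lit 4224742583) (nat_lit 13) (nat_lit 4) (nat_lit 14) (nat_lit 5) (nat_lit 14) (nat_lit 4) (nat_lit 412) (nat_lit 245) (nat_lit 243)) (XT.lf (nat_lit 0) (nat_lit 143931322) (nat_lit 76) (nat_lit 235061279) (nat_lit 152) (nat_lit 31640729630) (nat_lit 11) (nat_lit 5) (nat_lit 12) (nat_lit 5) (nat_lit 13) (nat_lit 4) (nat_lit 413) (nat_lit 245) (nat_lit 242))))) (XT.nd (nat_lit 234) (nat_lit 76) (nat_lit 0) (XT.nd (nat_lit 78) (nat_lit 0) (nat_lit 0) (XT.lf (nat_lit 0) (nat_lit 5073274324) (nat_lit 152) (nat_lit 23484179904) (nat_lit 0) (nat_lit 4275338690) (nat_lit 11) (nat_lit 5) (nat_lit 13) (nat_lit 4) (nat_lit 11) (nat_lit 4) (nat_lit 414) (nat_lit 245) (nat_lit 241)) (XT.nd (nat_lit 78) (nat_lit 0) (nat_lit 0) (XT.lf (nat_lit 0) (nat_lit 9818900062) (nat_lit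 152) (nat_lit 15018259897) (nat_lit 0) (nat_lit 8835791421) (nat_lit 11) (nat_lit 5) (nat_lit 13) (nat_lit 4) (nat_lit 11) (nat_lit 4) (nat_lit 415) (nat_lit 245) (nat_lit 240)) (XT.lf (nat_lit 0) (nat_lit 14617756928) (nat_lit 152) (nat_lit 6468373928) (nat_lit 0) (nat_lit 13454868669) (nat_lit 11) (nat_lit 5) (nat_lit 13) (nat_lit 4) (nat_lit 11) (nat_lit 4) (nat_lit 416) (nat_lit 245) (nat_lit 239)))) (XT.nd (nat_lit 156) (nat_lit 0) (nat_lit 0) (XT.nd (nat_lit 78) (nat_lit 0) (nat_lit 0) (XT.lf (nat_lit 0) (nat_lit 2216194715) (nat_lit 76) (nat_lit 17279146801) (nat_lit 76) (nat_lit 15941715223) (nat_lit 10) (nat_lit 4) (nat_lit 11) (nat_lit 5) (nat_lit 11) (nat_lit 4) (nat_lit 417) (nat_lit 245) (nat_lit 238)) (XT.lf (nat_lit 0) (nat_lit 11130454133) (nat_lit 76) (nat_lit 13368525523) (nat_lit 76) (nat_lit 11861634413) (nat_lit 10) (nat_lit 4) (nat_lit 11) (nat_lit 5) (nat_lit 11) (nat_lit 4) (nat_lit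 418) (nat_lit 245) (nat_lit 237))) (XT.nd (nat_lit 78) (nat_lit 0) (nat_lit 0) (XT.lf (nat_lit 0) (nat_lit 20153460158) (nat_lit 76) (nat_lit 9416167869) (nat_lit 76) (nat_lit 7744752941) (nat_lit 10) (nat_lit 4) (nat_lit 11) (nat_lit 5) (nat_lit 11) (nat_lit 4) (nat_lit 419) (nat_lit 245) (nat_lit 236)) (XT.lf (nat_lit 0) (nat_lit 29293096971) (nat_lit 76) (nat_lit 5418620322) (nat_lit 76) (nat_lit 3587473532) (nat_lit 10) (nat_lit 4) (nat_lit 11) (nat_lit 5) (nat_lit 11) (nat_lit 4) (nat_lit 420) (nat_lit 245) (nat_lit 235)))))) (XT.nd (nat_lit 546) (nat_lit 152) (nat_lit 0) (XT.nd (nat_lit 234) (nat_lit 76) (nat_lit 0) (XT.nd (nat_lit 78) (nat_lit 76) (nat_lit 0) (XT.lf (nat_lit 0) (nat_lit 601858227) (nat_lit 152) (nat_lit 764454065) (nat_lit 76) (nat_lit 37949414846) (nat_lit 9) (nat_lit 5) (nat_lit 11) (nat_lit 5) (nat_lit 10) (nat_lit 4) (nat_lit 421) (nat_lit 245) (nat_lit 234)) (XT.nd (nat_lit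 78) (nat_lit 0) (nat_lit 0) (XT.lf (nat_lit 0) (nat_lit 4869298425) (nat_lit 152) (nat_lit 32696922190) (nat_lit 0) (nat_lit 2794746126) (nat_lit 8) (nat_lit 5) (nat_lit 10) (nat_lit 4) (nat_lit 8) (nat_lit 4) (nat_lit 422) (nat_lit 245) (nat_lit 233)) (XT.lf (nat_lit 0) (nat_lit 9209450217) (nat_lit 152) (nat_lit 25236802961) (nat_lit 0) (nat_lit 6992978227) (nat_lit 8) (nat_lit 5) (nat_lit 10) (nat_lit 4) (nat_lit 8) (nat_lit 4) (nat_lit 423) (nat_lit 245) (nat_lit 232)))) (XT.nd (nat_lit 156) (nat_lit 76) (nat_lit 0) (XT.nd (nat_lit 78) (nat_lit 0) (nat_lit 0) (XT.lf (nat_lit 0) (nat_lit 13605403287) (nat_lit 152) (nat_lit 17695535907) (nat_lit 0) (nat_lit 11251145190) (nat_lit 8) (nat_lit 5) (nat_lit 10) (nat_lit 4) (nat_lit 8) (nat_lit 4) (nat_lit 424) (nat_lit 245) (nat_lit 231)) (XT.lf (nat_lit 0) (nat_lit 18060998759) (nat_lit 152) (nat_lit 10066531571) (nat_lit 0) (nat_lit 15572967742) (nat_lit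 8) (nat_lit 5) (nat_lit 10) (nat_lit 4) (nat_lit 8) (nat_lit 4) (nat_lit 425) (nat_lit 245) (nat_lit 230))) (XT.nd (nat_lit 78) (nat_lit 76) (nat_lit 0) (XT.lf (nat_lit 0) (nat_lit 22580129872) (nat_lit 152) (nat_lit 2343123835) (nat_lit 0) (nat_lit 19962222234) (nat_lit 8) (nat_lit 5) (nat_lit 10) (nat_lit 4) (nat_lit 8) (nat_lit 4) (nat_lit 426) (nat_lit 245) (nat_lit 229)) (XT.lf (nat_lit 0) (nat_lit 5590527233) (nat_lit 76) (nat_lit 21629957715) (nat_lit 76) (nat_lit 18885956270) (nat_lit 7) (nat_lit 4) (nat_lit 8) (nat_lit 5) (nat_lit 8) (nat_lit 4) (nat_lit 427) (nat_lit 245) (nat_lit 228))))) (XT.nd (nat_lit 234) (nat_lit 152) (nat_lit 0) (XT.nd (nat_lit 78) (nat_lit 0) (nat_lit 0) (XT.lf (nat_lit 0) (nat_lit 13680949258) (nat_lit 76) (nat_lit 18275413404) (nat_lit 76) (nat_lit 15408990787) (nat_lit 7) (nat_lit 4) (nat_lit 8) (nat_lit 5) (nat_lit 8) (nat_lit 4) (nat_lit 428) (nat_lit 245) (nat_lit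 227)) (XT.nd (nat_lit 78) (nat_lit 0) (nat_lit 0) (XT.lf (nat_lit 0) (nat_lit 21888578781) (nat_lit 76) (nat_lit 14880350575) (nat_lit 76) (nat_lit 11895072451) (nat_lit 7) (nat_lit 4) (nat_lit 8) (nat_lit 5) (nat_lit 8) (nat_lit 4) (nat_lit 429) (nat_lit 245) (nat_lit 226)) (XT.lf (nat_lit 0) (nat_lit 30220587517) (nat_lit 76) (nat_lit 11441802667) (nat_lit 76) (nat_lit 8341130848) (nat_lit 7) (nat_lit 4) (nat_lit 8) (nat_lit 5) (nat_lit 8) (nat_lit 4) (nat_lit 430) (nat_lit 245) (nat_lit 225)))) (XT.nd (nat_lit 156) (nat_lit 152) (nat_lit 0) (XT.nd (nat_lit 78) (nat_lit 0) (nat_lit 0) (XT.lf (nat_lit 0) (nat_lit 38684255862) (nat_lit 76) (nat_lit 7956765126) (nat_lit 76) (nat_lit 4744060592) (nat_lit 7) (nat_lit 4) (nat_lit 8) (nat_lit 5) (nat_lit 8) (nat_lit 4) (nat_lit 431) (nat_lit 245) (nat_lit 224)) (XT.lf (nat_lit 0) (nat_lit 47286979253) (nat_lit 76) (nat_lit 4422192772) (nat_lit 76) (nat_lit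 1100718613) (nat_lit 7) (nat_lit 4) (nat_lit 8) (nat_lit 5) (nat_lit 8) (nat_lit 4) (nat_lit 432) (nat_lit 245) (nat_lit 223))) (XT.nd (nat_lit 78) (nat_lit 0) (nat_lit 0) (XT.lf (nat_lit 0) (nat_lit 1766638278) (nat_lit 76) (nat_lit 791841532) (nat_lit 152) (nat_lit 51719456417) (nat_lit 5) (nat_lit 5) (nat_lit 6) (nat_lit 5) (nat_lit 7) (nat_lit 4) (nat_lit 433) (nat_lit 245) (nat_lit 222)) (XT.lf (nat_lit 0) (nat_lit 6331430598) (nat_lit 152) (nat_lit 46552855640) (nat_lit 0) (nat_lit 2904632985) (nat_lit 5) (nat_lit 5) (nat_lit 7) (nat_lit 4) (nat_lit 5) (nat_lit 4) (nat_lit 434) (nat_lit 245) (nat_lit 221))))))))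
noncomputable def xc8 : XT := (XT.nd (nat_lit 45552) (nat_lit 0) (nat_lit 0) (XT.nd (nat_lit 1014) (nat_lit 0) (nat_lit 0) (XT.nd (nat_lit 468) (nat_lit 76) (nat_lit 0) (XT.nd (nat_lit 234) (nat_lit 0) (nat_lit 0) (XT.nd (nat_lit 78) (nat_lit 0) (nat_lit 0) (XT.lf (nat_lit 0) (nat_lit 10168560021) (nat_lit 152) (nat_lit 40533025787) (nat_lit 0) (nat_lit 6645122004) (nat_lit 5) (nat_lit 5) (nat_lit 7) (nat_lit 4) (nat_lit 5) (nat_lit 4) (nat_lit 435) (nat_lit 245) (nat_lit 220)) (XT.nd (nat_lit 78) (nat_lit 0) (nat_lit 0) (XT.lf (nat_lit 0) (nat_lit 14065609244) (nat_lit 152) (nat_lit 34438936679) (nat_lit 0) (nat_lit 10448345592) (nat_lit 5) (nat_lit 5) (nat_lit 7) (nat_lit 4) (nat_lit 5) (nat_lit 4) (nat_lit 436) (nat_lit 245) (nat_lit 219)) (XT.lf (nat_lit 0) (nat_lit 18025983457) (nat_lit 152) (nat_lit 28265263384) (nat_lit 0) (nat_lit 14317626956) (nat_lit 5) (nat_lit 5) (nat_lit 7) (nat_lit 4) (nat_lit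 5) (nat_lit 4) (nat_lit 437) (nat_lit 245) (nat_lit 218)))) (XT.nd (nat_lit 78) (nat_lit 0) (nat_lit 0) (XT.lf (nat_lit 0) (nat_lit 22053143180) (nat_lit 152) (nat_lit 22006611430) (nat_lit 0) (nat_lit 18256347021) (nat_lit 5) (nat_lit 5) (nat_lit 7) (nat_lit 4) (nat_lit 5) (nat_lit 4) (nat_lit 438) (nat_lit 245) (nat_lit 217)) (XT.nd (nat_lit 78) (nat_lit 0) (nat_lit 0) (XT.lf (nat_lit 0) (nat_lit 26150607292) (nat_lit 152) (nat_lit 15657512092) (nat_lit 0) (nat_lit 22267947386) (nat_lit 5) (nat_lit 5) (nat_lit 7) (nat_lit 4) (nat_lit 5) (nat_lit 4) (nat_lit 439) (nat_lit 245) (nat_lit 216)) (XT.lf (nat_lit 0) (nat_lit 30321956101) (nat_lit 152) (nat_lit 9212417614) (nat_lit 0) (nat_lit 26355933333) (nat_lit 5) (nat_lit 5) (nat_lit 7) (nat_lit 4) (nat_lit 5) (nat_lit 4) (nat_lit 440) (nat_lit 245) (nat_lit 215))))) (XT.nd (nat_lit 234) (nat_lit 0) (nat_lit 0) (XT.nd (nat_lit 78) (nat_lit 76) (nat_lit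 0) (XT.lf (nat_lit 0) (nat_lit 34570834474) (nat_lit 152) (nat_lit 2665696359) (nat_lit 0) (nat_lit 30523876890) (nat_lit 5) (nat_lit 5) (nat_lit 7) (nat_lit 4) (nat_lit 5) (nat_lit 4) (nat_lit 441) (nat_lit 245) (nat_lit 214)) (XT.nd (nat_lit 78) (nat_lit 0) (nat_lit 0) (XT.lf (nat_lit 0) (nat_lit 4067748533) (nat_lit 76) (nat_lit 34872308177) (nat_lit 76) (nat_lit 30746773102) (nat_lit 4) (nat_lit 4) (nat_lit 5) (nat_lit 5) (nat_lit 5) (nat_lit 4) (nat_lit 442) (nat_lit 245) (nat_lit 213)) (XT.lf (nat_lit 0) (nat_lit 10969659593) (nat_lit 76) (nat_lit 32451888836) (nat_lit 76) (nat_lit 28250064934) (nat_lit 4) (nat_lit 4) (nat_lit 5) (nat_lit 5) (nat_lit 5) (nat_lit 4) (nat_lit 443) (nat_lit 245) (nat_lit 212)))) (XT.nd (nat_lit 156) (nat_lit 0) (nat_lit 0) (XT.nd (nat_lit 78) (nat_lit 0) (nat_lit 0) (XT.lf (nat_lit 0) (nat_lit 17993015030) (nat_lit 76) (nat_lit 30000076187) (nat_lit 76) (nat_lit 25724185462)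 (nat_lit 4) (nat_lit 4) (nat_lit 5) (nat_lit 5) (nat_lit 5) (nat_lit 4) (nat_lit 444) (nat_lit 245) (nat_lit 211)) (XT.lf (nat_lit 0) (nat_lit 25143951758) (nat_lit 76) (nat_lit 27514727869) (nat_lit 76) (nat_lit 23166927608) (nat_lit 4) (nat_lit 4) (nat_lit 5) (nat_lit 5) (nat_lit 5) (nat_lit 4) (nat_lit 445) (nat_lit 245) (nat_lit 210))) (XT.nd (nat_lit 78) (nat_lit 0) (nat_lit 0) (XT.lf (nat_lit 0) (nat_lit 32428718168) (nat_lit 76) (nat_lit 24993672219) (nat_lit 76) (nat_lit 20576056874) (nat_lit 4) (nat_lit 4) (nat_lit 5) (nat_lit 5) (nat_lit 5) (nat_lit 4) (nat_lit 446) (nat_lit 245) (nat_lit 209)) (XT.lf (nat_lit 0) (nat_lit 39853679589) (nat_lit 76) (nat_lit 22434706371) (nat_lit 76) (nat_lit 17949309392) (nat_lit 4) (nat_lit 4) (nat_lit 5) (nat_lit 5) (nat_lit 5) (nat_lit 4) (nat_lit 447) (nat_lit 245) (nat_lit 208)))))) (XT.nd (nat_lit 43992) (nat_lit 0) (nat_lit 456) (XT.nd (nat_lit 43758) (nat_lit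 0) (nat_lit 684) (XT.nd (nat_lit 78) (nat_lit 0) (nat_lit 0) (XT.lf (nat_lit 0) (nat_lit 47425323853) (nat_lit 76) (nat_lit 19835594338) (nat_lit 76) (nat_lit 15284389946) (nat_lit 4) (nat_lit 4) (nat_lit 5) (nat_lit 5) (nat_lit 5) (nat_lit 4) (nat_lit 448) (nat_lit 245) (nat_lit 207)) (XT.nd (nat_lit 78) (nat_lit 0) (nat_lit 0) (XT.lf (nat_lit 0) (nat_lit 55150266958) (nat_lit 76) (nat_lit 17194065050) (nat_lit 76) (nat_lit 12578969967) (nat_lit 4) (nat_lit 4) (nat_lit 5) (nat_lit 5) (nat_lit 5) (nat_lit 4) (nat_lit 449) (nat_lit 245) (nat_lit 206)) (XT.lf (nat_lit 0) (nat_lit 63035258856) (nat_lit 76) (nat_lit 14507810375) (nat_lit 76) (nat_lit 9830685493) (nat_lit 4) (nat_lit 4) (nat_lit 5) (nat_lit 5) (nat_lit 5) (nat_lit 4) (nat_lit 450) (nat_lit 245) (nat_lit 205)))) (XT.nd (nat_lit 78) (nat_lit 76) (nat_lit 0) (XT.lf (nat_lit 0) (nat_lit 3217576156) (nat_lit 152) (nat_lit 7717914163) (nat_lit 0)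 (nat_lit 3217576156) (nat_lit 14) (nat_lit 5) (nat_lit 16) (nat_lit 4) (nat_lit 14) (nat_lit 4) (nat_lit 408) (nat_lit 246) (nat_lit 246)) (XT.nd (nat_lit 78) (nat_lit 76) (nat_lit 0) (XT.lf (nat_lit 0) (nat_lit 11459745095) (nat_lit 152) (nat_lit 6304487318) (nat_lit 0) (nat_lit 11238638841) (nat_lit 14) (nat_lit 5) (nat_lit 16) (nat_lit 4) (nat_lit 14) (nat_lit 4) (nat_lit 409) (nat_lit 246) (nat_lit 245)) (XT.lf (nat_lit 0) (nat_lit 2973430147) (nat_lit 76) (nat_lit 13592471103) (nat_lit 76) (nat_lit 13156698583) (nat_lit 13) (nat_lit 4) (nat_lit 14) (nat_lit 5) (nat_lit 14) (nat_lit 4) (nat_lit 410) (nat_lit 246) (nat_lit 244))))) (XT.nd (nat_lit 234) (nat_lit 152) (nat_lit 0) (XT.nd (nat_lit 78) (nat_lit 76) (nat_lit 0) (XT.lf (nat_lit 0) (nat_lit 12475352352) (nat_lit 76) (nat_lit 9316878571) (nat_lit 76) (nat_lit 8672692201) (nat_lit 13) (nat_lit 4) (nat_lit 14) (nat_lit 5) (nat_lit 14) (nat_lit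 4) (nat_lit 411) (nat_lit 246) (nat_lit 243)) (XT.nd (nat_lit 78) (nat_lit 76) (nat_lit 0) (XT.lf (nat_lit 0) (nat_lit 22084110287) (nat_lit 76) (nat_lit 4997381824) (nat_lit 76) (nat_lit 4150851909) (nat_lit 13) (nat_lit 4) (nat_lit 14) (nat_lit 5) (nat_lit 14) (nat_lit 4) (nat_lit 412) (nat_lit 246) (nat_lit 242)) (XT.lf (nat_lit 0) (nat_lit 404718717) (nat_lit 152) (nat_lit 221400959) (nat_lit 76) (nat_lit 31399294371) (nat_lit 12) (nat_lit 5) (nat_lit 14) (nat_lit 5) (nat_lit 13) (nat_lit 4) (nat_lit 413) (nat_lit 246) (nat_lit 241)))) (XT.nd (nat_lit 156) (nat_lit 76) (nat_lit 0) (XT.nd (nat_lit 78) (nat_lit 0) (nat_lit 0) (XT.lf (nat_lit 0) (nat_lit 5047821783) (nat_lit 152) (nat_lit 23942156914) (nat_lit 0) (nat_lit 3850046876) (nat_lit 11) (nat_lit 5) (nat_lit 13) (nat_lit 4) (nat_lit 11) (nat_lit 4) (nat_lit 414) (nat_lit 246) (nat_lit 240)) (XT.lf (nat_lit 0) (nat_lit 9749537351) (nat_lit 152)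 (nat_lit 15559986482) (nat_lit 0) (nat_lit 8371982827) (nat_lit 11) (nat_lit 5) (nat_lit 13) (nat_lit 4) (nat_lit 11) (nat_lit 4) (nat_lit 415) (nat_lit 246) (nat_lit 239))) (XT.nd (nat_lit 78) (nat_lit 76) (nat_lit 0) (XT.lf (nat_lit 0) (nat_lit 14505762984) (nat_lit 152) (nat_lit 7091410782) (nat_lit 0) (nat_lit 12953665141) (nat_lit 11) (nat_lit 5) (nat_lit 13) (nat_lit 4) (nat_lit 11) (nat_lit 4) (nat_lit 416) (nat_lit 246) (nat_lit 238)) (XT.lf (nat_lit 0) (nat_lit 1500245098) (nat_lit 76) (nat_lit 17834830782) (nat_lit 76) (nat_lit 16113273406) (nat_lit 10) (nat_lit 4) (nat_lit 11) (nat_lit 5) (nat_lit 11) (nat_lit 4) (nat_lit 417) (nat_lit 246) (nat_lit 237))))))) (XT.nd (nat_lit 1014) (nat_lit 228) (nat_lit 0) (XT.nd (nat_lit 468) (nat_lit 76) (nat_lit 0) (XT.nd (nat_lit 234) (nat_lit 152) (nat_lit 0) (XT.nd (nat_lit 78) (nat_lit 0) (nat_lit 0) (XT.lf (nat_lit 0) (nat_lit 10336336450) (nat_lit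 76) (nat_lit 13961442146) (nat_lit 76) (nat_lit 12075360952) (nat_lit 10) (nat_lit 4) (nat_lit 11) (nat_lit 5) (nat_lit 11) (nat_lit 4) (nat_lit 418) (nat_lit 246) (nat_lit 236)) (XT.nd (nat_lit 78) (nat_lit 0) (nat_lit 0) (XT.lf (nat_lit 0) (nat_lit 19283451148) (nat_lit 76) (nat_lit 10045232687) (nat_lit 76) (nat_lit 7999419631) (nat_lit 10) (nat_lit 4) (nat_lit 11) (nat_lit 5) (nat_lit 11) (nat_lit 4) (nat_lit 419) (nat_lit 246) (nat_lit 235)) (XT.lf (nat_lit 0) (nat_lit 28349407061) (nat_lit 76) (nat_lit 6082780477) (nat_lit 76) (nat_lit 3881887943) (nat_lit 10) (nat_lit 4) (nat_lit 11) (nat_lit 5) (nat_lit 11) (nat_lit 4) (nat_lit 420) (nat_lit 246) (nat_lit 234)))) (XT.nd (nat_lit 78) (nat_lit 76) (nat_lit 0) (XT.lf (nat_lit 0) (nat_lit 275351913) (nat_lit 152) (nat_lit 1792490748) (nat_lit 76) (nat_lit 37263993470) (nat_lit 9) (nat_lit 5) (nat_lit 11) (nat_lit 5) (nat_lit 10) (nat_lit 4) (nat_lit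 421) (nat_lit 246) (nat_lit 233)) (XT.nd (nat_lit 78) (nat_lit 0) (nat_lit 0) (XT.lf (nat_lit 0) (nat_lit 4488118575) (nat_lit 152) (nat_lit 33827368829) (nat_lit 0) (nat_lit 2063232735) (nat_lit 8) (nat_lit 5) (nat_lit 10) (nat_lit 4) (nat_lit 8) (nat_lit 4) (nat_lit 422) (nat_lit 246) (nat_lit 232)) (XT.lf (nat_lit 0) (nat_lit 8791618507) (nat_lit 152) (nat_lit 26437523369) (nat_lit 0) (nat_lit 6228946560) (nat_lit 8) (nat_lit 5) (nat_lit 10) (nat_lit 4) (nat_lit 8) (nat_lit 4) (nat_lit 423) (nat_lit 246) (nat_lit 231))))) (XT.nd (nat_lit 234) (nat_lit 76) (nat_lit 0) (XT.nd (nat_lit 78) (nat_lit 0) (nat_lit 0) (XT.lf (nat_lit 0) (nat_lit 13151987247) (nat_lit 152) (nat_lit 18964483276) (nat_lit 0) (nat_lit 10455542380) (nat_lit 8) (nat_lit 5) (nat_lit 10) (nat_lit 4) (nat_lit 8) (nat_lit 4) (nat_lit 424) (nat_lit 246) (nat_lit 230)) (XT.nd (nat_lit 78) (nat_lit 0) (nat_lit 0) (XT.lf (nat_lit 0) (nat_lit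 17573034826) (nat_lit 152) (nat_lit 11401718708) (nat_lit 0) (nat_lit 14746713338) (nat_lit 8) (nat_lit 5) (nat_lit 10) (nat_lit 4) (nat_lit 8) (nat_lit 4) (nat_lit 425) (nat_lit 246) (nat_lit 229)) (XT.lf (nat_lit 0) (nat_lit 22058624295) (nat_lit 152) (nat_lit 3742621426) (nat_lit 0) (nat_lit 19106209000) (nat_lit 8) (nat_lit 5) (nat_lit 10) (nat_lit 4) (nat_lit 8) (nat_lit 4) (nat_lit 426) (nat_lit 246) (nat_lit 228)))) (XT.nd (nat_lit 156) (nat_lit 0) (nat_lit 0) (XT.nd (nat_lit 78) (nat_lit 0) (nat_lit 0) (XT.lf (nat_lit 0) (nat_lit 4099496937) (nat_lit 76) (nat_lit 22552585037) (nat_lit 76) (nat_lit 19477748570) (nat_lit 7) (nat_lit 4) (nat_lit 8) (nat_lit 5) (nat_lit 8) (nat_lit 4) (nat_lit 427) (nat_lit 246) (nat_lit 227)) (XT.lf (nat_lit 0) (nat_lit 12128093758) (nat_lit 76) (nat_lit 19227655411) (nat_lit 76) (nat_lit 16033963437) (nat_lit 7) (nat_lit 4) (nat_lit 8) (nat_lit 5) (nat_lit 8) (nat_lit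 4) (nat_lit 428) (nat_lit 246) (nat_lit 226))) (XT.nd (nat_lit 78) (nat_lit 0) (nat_lit 0) (XT.lf (nat_lit 0) (nat_lit 20275698812) (nat_lit 76) (nat_lit 15861344703) (nat_lit 76) (nat_lit 12552259034) (nat_lit 7) (nat_lit 4) (nat_lit 8) (nat_lit 5) (nat_lit 8) (nat_lit 4) (nat_lit 429) (nat_lit 246) (nat_lit 225)) (XT.lf (nat_lit 0) (nat_lit 28549431364) (nat_lit 76) (nat_lit 12450711478) (nat_lit 76) (nat_lit 9029593093) (nat_lit 7) (nat_lit 4) (nat_lit 8) (nat_lit 5) (nat_lit 8) (nat_lit 4) (nat_lit 430) (nat_lit 246) (nat_lit 224)))))) (XT.nd (nat_lit 546) (nat_lit 76) (nat_lit 0) (XT.nd (nat_lit 234) (nat_lit 76) (nat_lit 0) (XT.nd (nat_lit 78) (nat_lit 76) (nat_lit 0) (XT.lf (nat_lit 0) (nat_lit 36956520889) (nat_lit 76) (nat_lit 8992775569) (nat_lit 76) (nat_lit 5462887559) (nat_lit 7) (nat_lit 4) (nat_lit 8) (nat_lit 5) (nat_lit 8) (nat_lit 4) (nat_lit 431) (nat_lit 246) (nat_lit 223)) (XT.nd (nat_lit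 78) (nat_lit 76) (nat_lit 0) (XT.lf (nat_lit 0) (nat_lit 45504313388) (nat_lit 76) (nat_lit 5484515479) (nat_lit 76) (nat_lit 1849025891) (nat_lit 7) (nat_lit 4) (nat_lit 8) (nat_lit 5) (nat_lit 8) (nat_lit 4) (nat_lit 432) (nat_lit 246) (nat_lit 222)) (XT.lf (nat_lit 0) (nat_lit 1779729545) (nat_lit 152) (nat_lit 125164415) (nat_lit 76) (nat_lit 52402576483) (nat_lit 6) (nat_lit 5) (nat_lit 8) (nat_lit 5) (nat_lit 7) (nat_lit 4) (nat_lit 433) (nat_lit 246) (nat_lit 221)))) (XT.nd (nat_lit 156) (nat_lit 0) (nat_lit 0) (XT.nd (nat_lit 78) (nat_lit 0) (nat_lit 0) (XT.lf (nat_lit 0) (nat_lit 5512736861) (nat_lit 152) (nat_lit 48519962442) (nat_lit 0) (nat_lit 1786955300) (nat_lit 5) (nat_lit 5) (nat_lit 7) (nat_lit 4) (nat_lit 5) (nat_lit 4) (nat_lit 434) (nat_lit 246) (nat_lit 220)) (XT.lf (nat_lit 0) (nat_lit 9322677080) (nat_lit 152) (nat_lit 42552514678) (nat_lit 0) (nat_lit 5503069885) (nat_lit 5) (nat_lit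 5) (nat_lit 7) (nat_lit 4) (nat_lit 5) (nat_lit 4) (nat_lit 435) (nat_lit 246) (nat_lit 219))) (XT.nd (nat_lit 78) (nat_lit 0) (nat_lit 0) (XT.lf (nat_lit 0) (nat_lit 13193329019) (nat_lit 152) (nat_lit 36509281967) (nat_lit 0) (nat_lit 9282628975) (nat_lit 5) (nat_lit 5) (nat_lit 7) (nat_lit 4) (nat_lit 5) (nat_lit 4) (nat_lit 436) (nat_lit 246) (nat_lit 218)) (XT.lf (nat_lit 0) (nat_lit 17128074801) (nat_lit 152) (nat_lit 30384983815) (nat_lit 0) (nat_lit 13128935097) (nat_lit 5) (nat_lit 5) (nat_lit 7) (nat_lit 4) (nat_lit 5) (nat_lit 4) (nat_lit 437) (nat_lit 246) (nat_lit 217))))) (XT.nd (nat_lit 234) (nat_lit 76) (nat_lit 0) (XT.nd (nat_lit 78) (nat_lit 0) (nat_lit 0) (XT.lf (nat_lit 0) (nat_lit 21130352553) (nat_lit 152) (nat_lit 24174268893) (nat_lit 0) (nat_lit 17045349102) (nat_lit 5) (nat_lit 5) (nat_lit 7) (nat_lit 4) (nat_lit 5) (nat_lit 4) (nat_lit 438) (nat_lit 246) (nat_lit 216)) (XT.nd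 (nat_lit 78) (nat_lit 0) (nat_lit 0) (XT.lf (nat_lit 0) (nat_lit 25203659410) (nat_lit 152) (nat_lit 17871710363) (nat_lit 0) (nat_lit 21035293098) (nat_lit 5) (nat_lit 5) (nat_lit 7) (nat_lit 4) (nat_lit 5) (nat_lit 4) (nat_lit 439) (nat_lit 246) (nat_lit 215)) (XT.lf (nat_lit 0) (nat_lit 29351554573) (nat_lit 152) (nat_lit 11471801134) (nat_lit 0) (nat_lit 25102253445) (nat_lit 5) (nat_lit 5) (nat_lit 7) (nat_lit 4) (nat_lit 5) (nat_lit 4) (nat_lit 440) (nat_lit 246) (nat_lit 214)))) (XT.nd (nat_lit 156) (nat_lit 0) (nat_lit 0) (XT.nd (nat_lit 78) (nat_lit 76) (nat_lit 0) (XT.lf (nat_lit 0) (nat_lit 33577662417) (nat_lit 152) (nat_lit 4968949054) (nat_lit 0) (nat_lit 29249783797) (nat_lit 5) (nat_lit 5) (nat_lit 7) (nat_lit 4) (nat_lit 5) (nat_lit 4) (nat_lit 441) (nat_lit 246) (nat_lit 213)) (XT.lf (nat_lit 0) (nat_lit 1675217508) (nat_lit 76) (nat_lit 36226561364) (nat_lit 76) (nat_lit 31822393917)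 (nat_lit 4) (nat_lit 4) (nat_lit 5) (nat_lit 5) (nat_lit 5) (nat_lit 4) (nat_lit 442) (nat_lit 246) (nat_lit 212))) (XT.nd (nat_lit 78) (nat_lit 0) (nat_lit 0) (XT.lf (nat_lit 0) (nat_lit 8534954699) (nat_lit 76) (nat_lit 33826447083) (nat_lit 76) (nat_lit 29348212814) (nat_lit 4) (nat_lit 4) (nat_lit 5) (nat_lit 5) (nat_lit 5) (nat_lit 4) (nat_lit 443) (nat_lit 246) (nat_lit 211)) (XT.lf (nat_lit 0) (nat_lit 15517364632) (nat_lit 76) (nat_lit 31394348084) (nat_lit 76) (nat_lit 26844204279) (nat_lit 4) (nat_lit 4) (nat_lit 5) (nat_lit 5) (nat_lit 5) (nat_lit 4) (nat_lit 444) (nat_lit 246) (nat_lit 210))))))))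
noncomputable def xc9 : XT := (XT.nd (nat_lit 45396) (nat_lit 0) (nat_lit 0) (XT.nd (nat_lit 44382) (nat_lit 0) (nat_lit 304) (XT.nd (nat_lit 43836) (nat_lit 0) (nat_lit 684) (XT.nd (nat_lit 234) (nat_lit 0) (nat_lit 0) (XT.nd (nat_lit 78) (nat_lit 0) (nat_lit 0) (XT.lf (nat_lit 0) (nat_lit 22628548444) (nat_lit 76) (nat_lit 28928139233) (nat_lit 76) (nat_lit 24308180344) (nat_lit 4) (nat_lit 4) (nat_lit 5) (nat_lit 5) (nat_lit 5) (nat_lit 4) (nat_lit 445) (nat_lit 246) (nat_lit 209)) (XT.nd (nat_lit 78) (nat_lit 0) (nat_lit 0) (XT.lf (nat_lit 0) (nat_lit 29874719789) (nat_lit 76) (nat_lit 26425665589) (nat_lit 76) (nat_lit 21737925065) (nat_lit 4) (nat_lit 4) (nat_lit 5) (nat_lit 5) (nat_lit 5) (nat_lit 4) (nat_lit 446) (nat_lit 246) (nat_lit 208)) (XT.lf (nat_lit 0) (nat_lit 37262210275) (nat_lit 76) (nat_lit 23884740524) (nat_lit 76) (nat_lit 19131192588) (nat_lit 4) (nat_lit 4) (nat_lit 5) (nat_lit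 5) (nat_lit 5) (nat_lit 4) (nat_lit 447) (nat_lit 246) (nat_lit 207)))) (XT.nd (nat_lit 78) (nat_lit 0) (nat_lit 0) (XT.lf (nat_lit 0) (nat_lit 44797474988) (nat_lit 76) (nat_lit 21303143814) (nat_lit 76) (nat_lit 16485705187) (nat_lit 4) (nat_lit 4) (nat_lit 5) (nat_lit 5) (nat_lit 5) (nat_lit 4) (nat_lit 448) (nat_lit 246) (nat_lit 206)) (XT.nd (nat_lit 78) (nat_lit 0) (nat_lit 0) (XT.lf (nat_lit 0) (nat_lit 52487098142) (nat_lit 76) (nat_lit 18678619694) (nat_lit 76) (nat_lit 13799151269) (nat_lit 4) (nat_lit 4) (nat_lit 5) (nat_lit 5) (nat_lit 5) (nat_lit 4) (nat_lit 449) (nat_lit 246) (nat_lit 205)) (XT.lf (nat_lit 0) (nat_lit 60337798825) (nat_lit 76) (nat_lit 16008874891) (nat_lit 76) (nat_lit 11069183361) (nat_lit 4) (nat_lit 4) (nat_lit 5) (nat_lit 5) (nat_lit 5) (nat_lit 4) (nat_lit 450) (nat_lit 246) (nat_lit 204))))) (XT.nd (nat_lit 234) (nat_lit 76) (nat_lit 0) (XT.nd (nat_lit 78) (nat_lit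 152) (nat_lit 0) (XT.lf (nat_lit 0) (nat_lit 10325801470) (nat_lit 76) (nat_lit 1581234920) (nat_lit 76) (nat_lit 1581234920) (nat_lit 16) (nat_lit 4) (nat_lit 17) (nat_lit 5) (nat_lit 17) (nat_lit 4) (nat_lit 406) (nat_lit 247) (nat_lit 247)) (XT.nd (nat_lit 78) (nat_lit 0) (nat_lit 0) (XT.lf (nat_lit 0) (nat_lit 1686889493) (nat_lit 152) (nat_lit 24486594052) (nat_lit 0) (nat_lit 1459150051) (nat_lit 14) (nat_lit 5) (nat_lit 16) (nat_lit 4) (nat_lit 14) (nat_lit 4) (nat_lit 407) (nat_lit 247) (nat_lit 246)) (XT.lf (nat_lit 0) (nat_lit 6613290992) (nat_lit 152) (nat_lit 15529891227) (nat_lit 0) (nat_lit 6164445297) (nat_lit 14) (nat_lit 5) (nat_lit 16) (nat_lit 4) (nat_lit 14) (nat_lit 4) (nat_lit 408) (nat_lit 247) (nat_lit 245)))) (XT.nd (nat_lit 156) (nat_lit 0) (nat_lit 0) (XT.nd (nat_lit 78) (nat_lit 76) (nat_lit 0) (XT.lf (nat_lit 0) (nat_lit 11589727696) (nat_lit 152) (nat_lit 6489873423) (nat_lit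 0) (nat_lit 10926215735) (nat_lit 14) (nat_lit 5) (nat_lit 16) (nat_lit 4) (nat_lit 14) (nat_lit 4) (nat_lit 409) (nat_lit 247) (nat_lit 244)) (XT.lf (nat_lit 0) (nat_lit 2693926616) (nat_lit 76) (nat_lit 13952517001) (nat_lit 76) (nat_lit 13080591190) (nat_lit 13) (nat_lit 4) (nat_lit 14) (nat_lit 5) (nat_lit 14) (nat_lit 4) (nat_lit 410) (nat_lit 247) (nat_lit 243))) (XT.nd (nat_lit 78) (nat_lit 0) (nat_lit 0) (XT.lf (nat_lit 0) (nat_lit 12108054764) (nat_lit 76) (nat_lit 9718482874) (nat_lit 76) (nat_lit 8644213518) (nat_lit 13) (nat_lit 4) (nat_lit 14) (nat_lit 5) (nat_lit 14) (nat_lit 4) (nat_lit 411) (nat_lit 247) (nat_lit 242)) (XT.lf (nat_lit 0) (nat_lit 21631575750) (nat_lit 76) (nat_lit 5439334091) (nat_lit 76) (nat_lit 4168614693) (nat_lit 13) (nat_lit 4) (nat_lit 14) (nat_lit 5) (nat_lit 14) (nat_lit 4) (nat_lit 412) (nat_lit 247) (nat_lit 241)))))) (XT.nd (nat_lit 468) (nat_lit 152) (nat_lit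 0) (XT.nd (nat_lit 234) (nat_lit 76) (nat_lit 0) (XT.nd (nat_lit 78) (nat_lit 76) (nat_lit 0) (XT.lf (nat_lit 0) (nat_lit 343283978) (nat_lit 152) (nat_lit 764581118) (nat_lit 76) (nat_lit 30926060624) (nat_lit 12) (nat_lit 5) (nat_lit 14) (nat_lit 5) (nat_lit 13) (nat_lit 4) (nat_lit 413) (nat_lit 247) (nat_lit 240)) (XT.nd (nat_lit 78) (nat_lit 0) (nat_lit 0) (XT.lf (nat_lit 0) (nat_lit 4932468021) (nat_lit 152) (nat_lit 24583884873) (nat_lit 0) (nat_lit 3333807242) (nat_lit 11) (nat_lit 5) (nat_lit 13) (nat_lit 4) (nat_lit 11) (nat_lit 4) (nat_lit 414) (nat_lit 247) (nat_lit 239)) (XT.lf (nat_lit 0) (nat_lit 9591552357) (nat_lit 152) (nat_lit 16283024709) (nat_lit 0) (nat_lit 7818348260) (nat_lit 11) (nat_lit 5) (nat_lit 13) (nat_lit 4) (nat_lit 11) (nat_lit 4) (nat_lit 415) (nat_lit 247) (nat_lit 238)))) (XT.nd (nat_lit 78) (nat_lit 76) (nat_lit 0) (XT.lf (nat_lit 0) (nat_lit 14306388443) (nat_lit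 152) (nat_lit 7893391017) (nat_lit 0) (nat_lit 12363724814) (nat_lit 11) (nat_lit 5) (nat_lit 13) (nat_lit 4) (nat_lit 11) (nat_lit 4) (nat_lit 416) (nat_lit 247) (nat_lit 237)) (XT.nd (nat_lit 78) (nat_lit 0) (nat_lit 0) (XT.lf (nat_lit 0) (nat_lit 604135818) (nat_lit 76) (nat_lit 18482767545) (nat_lit 76) (nat_lit 16375580097) (nat_lit 10) (nat_lit 4) (nat_lit 11) (nat_lit 5) (nat_lit 11) (nat_lit 4) (nat_lit 417) (nat_lit 247) (nat_lit 236)) (XT.lf (nat_lit 0) (nat_lit 9364335842) (nat_lit 76) (nat_lit 14645527104) (nat_lit 76) (nat_lit 12378607794) (nat_lit 10) (nat_lit 4) (nat_lit 11) (nat_lit 5) (nat_lit 11) (nat_lit 4) (nat_lit 418) (nat_lit 247) (nat_lit 235))))) (XT.nd (nat_lit 234) (nat_lit 152) (nat_lit 0) (XT.nd (nat_lit 78) (nat_lit 0) (nat_lit 0) (XT.lf (nat_lit 0) (nat_lit 18237769641) (nat_lit 76) (nat_lit 10764412982) (nat_lit 76) (nat_lit 8342414194) (nat_lit 10) (nat_lit 4) (nat_lit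 11) (nat_lit 5) (nat_lit 11) (nat_lit 4) (nat_lit 419) (nat_lit 247) (nat_lit 234)) (XT.nd (nat_lit 78) (nat_lit 0) (nat_lit 0) (XT.lf (nat_lit 0) (nat_lit 27232190700) (nat_lit 76) (nat_lit 6836033912) (nat_lit 76) (nat_lit 4263472525) (nat_lit 10) (nat_lit 4) (nat_lit 11) (nat_lit 5) (nat_lit 11) (nat_lit 4) (nat_lit 420) (nat_lit 247) (nat_lit 233)) (XT.lf (nat_lit 0) (nat_lit 36355458222) (nat_lit 76) (nat_lit 2856957332) (nat_lit 76) (nat_lit 138218663) (nat_lit 10) (nat_lit 4) (nat_lit 11) (nat_lit 5) (nat_lit 11) (nat_lit 4) (nat_lit 421) (nat_lit 247) (nat_lit 232)))) (XT.nd (nat_lit 156) (nat_lit 0) (nat_lit 0) (XT.nd (nat_lit 78) (nat_lit 0) (nat_lit 0) (XT.lf (nat_lit 0) (nat_lit 4021100054) (nat_lit 152) (nat_lit 35134384619) (nat_lit 0) (nat_lit 1243761841) (nat_lit 8) (nat_lit 5) (nat_lit 10) (nat_lit 4) (nat_lit 8) (nat_lit 4) (nat_lit 422) (nat_lit 247) (nat_lit 231)) (XT.lf (nat_lit 0)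 (nat_lit 8289015656) (nat_lit 152) (nat_lit 27812766120) (nat_lit 0) (nat_lit 5377904523) (nat_lit 8) (nat_lit 5) (nat_lit 10) (nat_lit 4) (nat_lit 8) (nat_lit 4) (nat_lit 423) (nat_lit 247) (nat_lit 230))) (XT.nd (nat_lit 78) (nat_lit 0) (nat_lit 0) (XT.lf (nat_lit 0) (nat_lit 12614836503) (nat_lit 152) (nat_lit 20405965794) (nat_lit 0) (nat_lit 9573848749) (nat_lit 8) (nat_lit 5) (nat_lit 10) (nat_lit 4) (nat_lit 8) (nat_lit 4) (nat_lit 424) (nat_lit 247) (nat_lit 229)) (XT.lf (nat_lit 0) (nat_lit 17002342438) (nat_lit 152) (nat_lit 12907511681) (nat_lit 0) (nat_lit 13835260877) (nat_lit 8) (nat_lit 5) (nat_lit 10) (nat_lit 4) (nat_lit 8) (nat_lit 4) (nat_lit 425) (nat_lit 247) (nat_lit 228))))))) (XT.nd (nat_lit 1014) (nat_lit 76) (nat_lit 0) (XT.nd (nat_lit 468) (nat_lit 152) (nat_lit 0) (XT.nd (nat_lit 234) (nat_lit 0) (nat_lit 0) (XT.nd (nat_lit 78) (nat_lit 76) (nat_lit 0) (XT.lf (nat_lit 0) (nat_lit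 21455367204) (nat_lit 152) (nat_lit 5310851733) (nat_lit 0) (nat_lit 18165864471) (nat_lit 8) (nat_lit 5) (nat_lit 10) (nat_lit 4) (nat_lit 8) (nat_lit 4) (nat_lit 426) (nat_lit 247) (nat_lit 227)) (XT.nd (nat_lit 78) (nat_lit 0) (nat_lit 0) (XT.lf (nat_lit 0) (nat_lit 2438230568) (nat_lit 76) (nat_lit 23563008990) (nat_lit 76) (nat_lit 20154650750) (nat_lit 7) (nat_lit 4) (nat_lit 8) (nat_lit 5) (nat_lit 8) (nat_lit 4) (nat_lit 427) (nat_lit 247) (nat_lit 226)) (XT.lf (nat_lit 0) (nat_lit 10406802920) (nat_lit 76) (nat_lit 20266831485) (nat_lit 76) (nat_lit 16743079550) (nat_lit 7) (nat_lit 4) (nat_lit 8) (nat_lit 5) (nat_lit 8) (nat_lit 4) (nat_lit 428) (nat_lit 247) (nat_lit 225)))) (XT.nd (nat_lit 78) (nat_lit 0) (nat_lit 0) (XT.lf (nat_lit 0) (nat_lit 18496131790) (nat_lit 76) (nat_lit 16928435459) (nat_lit 76) (nat_lit 13292650809) (nat_lit 7) (nat_lit 4) (nat_lit 8) (nat_lit 5) (nat_lit 8) (nat_lit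 4) (nat_lit 429) (nat_lit 247) (nat_lit 224)) (XT.nd (nat_lit 78) (nat_lit 0) (nat_lit 0) (XT.lf (nat_lit 0) (nat_lit 26713285523) (nat_lit 76) (nat_lit 13544903866) (nat_lit 76) (nat_lit 9800349590) (nat_lit 7) (nat_lit 4) (nat_lit 8) (nat_lit 5) (nat_lit 8) (nat_lit 4) (nat_lit 430) (nat_lit 247) (nat_lit 223)) (XT.lf (nat_lit 0) (nat_lit 35065444155) (nat_lit 76) (nat_lit 10113280221) (nat_lit 76) (nat_lit 6263124367) (nat_lit 7) (nat_lit 4) (nat_lit 8) (nat_lit 5) (nat_lit 8) (nat_lit 4) (nat_lit 431) (nat_lit 247) (nat_lit 222))))) (XT.nd (nat_lit 234) (nat_lit 0) (nat_lit 0) (XT.nd (nat_lit 78) (nat_lit 152) (nat_lit 0) (XT.lf (nat_lit 0) (nat_lit 43559905691) (nat_lit 76) (nat_lit 6630566019) (nat_lit 76) (nat_lit 2677884361) (nat_lit 7) (nat_lit 4) (nat_lit 8) (nat_lit 5) (nat_lit 8) (nat_lit 4) (nat_lit 432) (nat_lit 247) (nat_lit 221)) (XT.nd (nat_lit 78) (nat_lit 76) (nat_lit 0) (XT.lf (nat_lit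 0) (nat_lit 939799312) (nat_lit 152) (nat_lit 2144428670) (nat_lit 76) (nat_lit 51254803033) (nat_lit 6) (nat_lit 5) (nat_lit 8) (nat_lit 5) (nat_lit 7) (nat_lit 4) (nat_lit 433) (nat_lit 247) (nat_lit 220)) (XT.lf (nat_lit 0) (nat_lit 4614288230) (nat_lit 152) (nat_lit 50652418089) (nat_lit 0) (nat_lit 586267184) (nat_lit 5) (nat_lit 5) (nat_lit 7) (nat_lit 4) (nat_lit 5) (nat_lit 4) (nat_lit 434) (nat_lit 247) (nat_lit 219)))) (XT.nd (nat_lit 156) (nat_lit 0) (nat_lit 0) (XT.nd (nat_lit 78) (nat_lit 0) (nat_lit 0) (XT.lf (nat_lit 0) (nat_lit 8397831165) (nat_lit 152) (nat_lit 44735826722) (nat_lit 0) (nat_lit 4278717270) (nat_lit 5) (nat_lit 5) (nat_lit 7) (nat_lit 4) (nat_lit 5) (nat_lit 4) (nat_lit 435) (nat_lit 247) (nat_lit 218)) (XT.lf (nat_lit 0) (nat_lit 12242854673) (nat_lit 152) (nat_lit 38741969154) (nat_lit 0) (nat_lit 8035301118) (nat_lit 5) (nat_lit 5) (nat_lit 7) (nat_lit 4) (nat_lit 5)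 (nat_lit 4) (nat_lit 436) (nat_lit 247) (nat_lit 217))) (XT.nd (nat_lit 78) (nat_lit 0) (nat_lit 0) (XT.lf (nat_lit 0) (nat_lit 16152718482) (nat_lit 152) (nat_lit 32665608034) (nat_lit 0) (nat_lit 11859301181) (nat_lit 5) (nat_lit 5) (nat_lit 7) (nat_lit 4) (nat_lit 5) (nat_lit 4) (nat_lit 437) (nat_lit 247) (nat_lit 216)) (XT.lf (nat_lit 0) (nat_lit 20130838979) (nat_lit 152) (nat_lit 26501433919) (nat_lit 0) (nat_lit 15754058817) (nat_lit 5) (nat_lit 5) (nat_lit 7) (nat_lit 4) (nat_lit 5) (nat_lit 4) (nat_lit 438) (nat_lit 247) (nat_lit 215)))))) (XT.nd (nat_lit 546) (nat_lit 0) (nat_lit 0) (XT.nd (nat_lit 234) (nat_lit 76) (nat_lit 0) (XT.nd (nat_lit 78) (nat_lit 0) (nat_lit 0) (XT.lf (nat_lit 0) (nat_lit 24180692191) (nat_lit 152) (nat_lit 20244060639) (nat_lit 0) (nat_lit 19722977213) (nat_lit 5) (nat_lit 5) (nat_lit 7) (nat_lit 4) (nat_lit 5) (nat_lit 4) (nat_lit 439) (nat_lit 247) (nat_lit 214))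 (XT.nd (nat_lit 78) (nat_lit 0) (nat_lit 0) (XT.lf (nat_lit 0) (nat_lit 28305816825) (nat_lit 152) (nat_lit 13888020586) (nat_lit 0) (nat_lit 23769524355) (nat_lit 5) (nat_lit 5) (nat_lit 7) (nat_lit 4) (nat_lit 5) (nat_lit 4) (nat_lit 440) (nat_lit 247) (nat_lit 213)) (XT.lf (nat_lit 0) (nat_lit 32509817359) (nat_lit 152) (nat_lit 7427759937) (nat_lit 0) (nat_lit 27897236062) (nat_lit 5) (nat_lit 5) (nat_lit 7) (nat_lit 4) (nat_lit 5) (nat_lit 4) (nat_lit 441) (nat_lit 247) (nat_lit 212)))) (XT.nd (nat_lit 156) (nat_lit 0) (nat_lit 0) (XT.nd (nat_lit 78) (nat_lit 76) (nat_lit 0) (XT.lf (nat_lit 0) (nat_lit 36796367191) (nat_lit 152) (nat_lit 857633806) (nat_lit 0) (nat_lit 32109719072) (nat_lit 5) (nat_lit 5) (nat_lit 7) (nat_lit 4) (nat_lit 5) (nat_lit 4) (nat_lit 442) (nat_lit 247) (nat_lit 211)) (XT.lf (nat_lit 0) (nat_lit 5944089285) (nat_lit 76) (nat_lit 35282260787) (nat_lit 76) (nat_lit 30523703132)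 (nat_lit 4) (nat_lit 4) (nat_lit 5) (nat_lit 5) (nat_lit 5) (nat_lit 4) (nat_lit 443) (nat_lit 247) (nat_lit 210))) (XT.nd (nat_lit 78) (nat_lit 0) (nat_lit 0) (XT.lf (nat_lit 0) (nat_lit 12886746303) (nat_lit 76) (nat_lit 32869301255) (nat_lit 76) (nat_lit 28040928516) (nat_lit 4) (nat_lit 4) (nat_lit 5) (nat_lit 5) (nat_lit 5) (nat_lit 4) (nat_lit 444) (nat_lit 247) (nat_lit 209)) (XT.lf (nat_lit 0) (nat_lit 19959335050) (nat_lit 76) (nat_lit 30421674410) (nat_lit 76) (nat_lit 25525520036) (nat_lit 4) (nat_lit 4) (nat_lit 5) (nat_lit 5) (nat_lit 5) (nat_lit 4) (nat_lit 445) (nat_lit 247) (nat_lit 208))))) (XT.nd (nat_lit 234) (nat_lit 0) (nat_lit 0) (XT.nd (nat_lit 78) (nat_lit 0) (nat_lit 0) (XT.lf (nat_lit 0) (nat_lit 27168035459) (nat_lit 76) (nat_lit 27937241549) (nat_lit 76) (nat_lit 22975279763) (nat_lit 4) (nat_lit 4) (nat_lit 5) (nat_lit 5) (nat_lit 5) (nat_lit 4) (nat_lit 446) (nat_lit 247)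 (nat_lit 207)) (XT.nd (nat_lit 78) (nat_lit 0) (nat_lit 0) (XT.lf (nat_lit 0) (nat_lit 34519146394) (nat_lit 76) (nat_lit 25413831808) (nat_lit 76) (nat_lit 20387979330) (nat_lit 4) (nat_lit 4) (nat_lit 5) (nat_lit 5) (nat_lit 5) (nat_lit 4) (nat_lit 447) (nat_lit 247) (nat_lit 206)) (XT.lf (nat_lit 0) (nat_lit 42019091157) (nat_lit 76) (nat_lit 22849240266) (nat_lit 76) (nat_lit 17761357990) (nat_lit 4) (nat_lit 4) (nat_lit 5) (nat_lit 5) (nat_lit 5) (nat_lit 4) (nat_lit 448) (nat_lit 247) (nat_lit 205)))) (XT.nd (nat_lit 43368) (nat_lit 0) (nat_lit 912) (XT.nd (nat_lit 78) (nat_lit 0) (nat_lit 0) (XT.lf (nat_lit 0) (nat_lit 49674423096) (nat_lit 76) (nat_lit 20241226018) (nat_lit 76) (nat_lit 15093120638) (nat_lit 4) (nat_lit 4) (nat_lit 5) (nat_lit 5) (nat_lit 5) (nat_lit 4) (nat_lit 449) (nat_lit 247) (nat_lit 204)) (XT.lf (nat_lit 0) (nat_lit 57491831338) (nat_lit 76) (nat_lit 17587510216) (nat_lit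 76) (nat_lit 12380935803) (nat_lit 4) (nat_lit 4) (nat_lit 5) (nat_lit 5) (nat_lit 5) (nat_lit 4) (nat_lit 450) (nat_lit 247) (nat_lit 203))) (XT.nd (nat_lit 78) (nat_lit 0) (nat_lit 0) (XT.lf (nat_lit 0) (nat_lit 437702364) (nat_lit 76) (nat_lit 6212371799) (nat_lit 76) (nat_lit 6212371799) (nat_lit 16) (nat_lit 4) (nat_lit 17) (nat_lit 5) (nat_lit 17) (nat_lit 4) (nat_lit 404) (nat_lit 248) (nat_lit 248)) (XT.lf (nat_lit 0) (nat_lit 10664524187) (nat_lit 76) (nat_lit 7958900089) (nat_lit 76) (nat_lit 7717291315) (nat_lit 16) (nat_lit 4) (nat_lit 17) (nat_lit 5) (nat_lit 17) (nat_lit 4) (nat_lit 405) (nat_lit 248) (nat_lit 247))))))))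
noncomputable def xc10 : XT := (XT.nd (nat_lit 2028) (nat_lit 228) (nat_lit 0) (XT.nd (nat_lit 1014) (nat_lit 228) (nat_lit 0) (XT.nd (nat_lit 468) (nat_lit 228) (nat_lit 0) (XT.nd (nat_lit 234) (nat_lit 76) (nat_lit 0) (XT.nd (nat_lit 78) (nat_lit 152) (nat_lit 0) (XT.lf (nat_lit 0) (nat_lit 20558676449) (nat_lit 76) (nat_lit 3447765353) (nat_lit 76) (nat_lit 2971584955) (nat_lit 16) (nat_lit 4) (nat_lit 17) (nat_lit 5) (nat_lit 17) (nat_lit 4) (nat_lit 406) (nat_lit 248) (nat_lit 246)) (XT.nd (nat_lit 78) (nat_lit 0) (nat_lit 0) (XT.lf (nat_lit 0) (nat_lit 1820771572) (nat_lit 152) (nat_lit 24677541740) (nat_lit 0) (nat_lit 1137354252) (nat_lit 14) (nat_lit 5) (nat_lit 16) (nat_lit 4) (nat_lit 14) (nat_lit 4) (nat_lit 407) (nat_lit 248) (nat_lit 245)) (XT.lf (nat_lit 0) (nat_lit 6699016992) (nat_lit 152) (nat_lit 15812162120) (nat_lit 0) (nat_lit 5800933406) (nat_lit 14) (nat_lit 5) (nat_lit 16) (nat_lit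 4) (nat_lit 14) (nat_lit 4) (nat_lit 408) (nat_lit 248) (nat_lit 244)))) (XT.nd (nat_lit 78) (nat_lit 76) (nat_lit 0) (XT.lf (nat_lit 0) (nat_lit 11628700222) (nat_lit 152) (nat_lit 6860807621) (nat_lit 0) (nat_lit 10522202785) (nat_lit 14) (nat_lit 5) (nat_lit 16) (nat_lit 4) (nat_lit 14) (nat_lit 4) (nat_lit 409) (nat_lit 248) (nat_lit 243)) (XT.nd (nat_lit 78) (nat_lit 0) (nat_lit 0) (XT.lf (nat_lit 0) (nat_lit 2227816043) (nat_lit 76) (nat_lit 14407727837) (nat_lit 76) (nat_lit 13098886857) (nat_lit 13) (nat_lit 4) (nat_lit 14) (nat_lit 5) (nat_lit 14) (nat_lit 4) (nat_lit 410) (nat_lit 248) (nat_lit 242)) (XT.lf (nat_lit 0) (nat_lit 11556707242) (nat_lit 76) (nat_lit 10214041674) (nat_lit 76) (nat_lit 8708750651) (nat_lit 13) (nat_lit 4) (nat_lit 14) (nat_lit 5) (nat_lit 14) (nat_lit 4) (nat_lit 411) (nat_lit 248) (nat_lit 241))))) (XT.nd (nat_lit 234) (nat_lit 76) (nat_lit 0) (XT.nd (nat_lit 78)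 (nat_lit 152) (nat_lit 0) (XT.lf (nat_lit 0) (nat_lit 20997473909) (nat_lit 76) (nat_lit 5974065673) (nat_lit 76) (nat_lit 4278046453) (nat_lit 13) (nat_lit 4) (nat_lit 14) (nat_lit 5) (nat_lit 14) (nat_lit 4) (nat_lit 412) (nat_lit 248) (nat_lit 240)) (XT.nd (nat_lit 78) (nat_lit 76) (nat_lit 0) (XT.lf (nat_lit 0) (nat_lit 193251148) (nat_lit 152) (nat_lit 1488892394) (nat_lit 76) (nat_lit 30363162652) (nat_lit 12) (nat_lit 5) (nat_lit 14) (nat_lit 5) (nat_lit 13) (nat_lit 4) (nat_lit 413) (nat_lit 248) (nat_lit 239)) (XT.lf (nat_lit 0) (nat_lit 4727112243) (nat_lit 152) (nat_lit 25409924515) (nat_lit 0) (nat_lit 2726168705) (nat_lit 11) (nat_lit 5) (nat_lit 13) (nat_lit 4) (nat_lit 11) (nat_lit 4) (nat_lit 414) (nat_lit 248) (nat_lit 238)))) (XT.nd (nat_lit 156) (nat_lit 76) (nat_lit 0) (XT.nd (nat_lit 78) (nat_lit 0) (nat_lit 0) (XT.lf (nat_lit 0) (nat_lit 9344807033) (nat_lit 152) (nat_lit 17188006359)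 (nat_lit 0) (nat_lit 7174403962) (nat_lit 11) (nat_lit 5) (nat_lit 13) (nat_lit 4) (nat_lit 11) (nat_lit 4) (nat_lit 415) (nat_lit 248) (nat_lit 237)) (XT.lf (nat_lit 0) (nat_lit 14019459094) (nat_lit 152) (nat_lit 8875015392) (nat_lit 0) (nat_lit 11684532205) (nat_lit 11) (nat_lit 5) (nat_lit 13) (nat_lit 4) (nat_lit 11) (nat_lit 4) (nat_lit 416) (nat_lit 248) (nat_lit 236))) (XT.nd (nat_lit 78) (nat_lit 76) (nat_lit 0) (XT.lf (nat_lit 0) (nat_lit 18755153074) (nat_lit 152) (nat_lit 463687836) (nat_lit 0) (nat_lit 16260494322) (nat_lit 11) (nat_lit 5) (nat_lit 13) (nat_lit 4) (nat_lit 11) (nat_lit 4) (nat_lit 417) (nat_lit 248) (nat_lit 235)) (XT.lf (nat_lit 0) (nat_lit 8213602990) (nat_lit 76) (nat_lit 15421378143) (nat_lit 76) (nat_lit 12771639914) (nat_lit 10) (nat_lit 4) (nat_lit 11) (nat_lit 5) (nat_lit 11) (nat_lit 4) (nat_lit 418) (nat_lit 248) (nat_lit 234)))))) (XT.nd (nat_lit 468) (nat_lit 76)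 (nat_lit 0) (XT.nd (nat_lit 234) (nat_lit 152) (nat_lit 0) (XT.nd (nat_lit 78) (nat_lit 0) (nat_lit 0) (XT.lf (nat_lit 0) (nat_lit 17015501935) (nat_lit 76) (nat_lit 11574337162) (nat_lit 76) (nat_lit 8774036333) (nat_lit 10) (nat_lit 4) (nat_lit 11) (nat_lit 5) (nat_lit 11) (nat_lit 4) (nat_lit 419) (nat_lit 248) (nat_lit 233)) (XT.nd (nat_lit 78) (nat_lit 0) (nat_lit 0) (XT.lf (nat_lit 0) (nat_lit 25940471680) (nat_lit 76) (nat_lit 7679038812) (nat_lit 76) (nat_lit 4732560702) (nat_lit 10) (nat_lit 4) (nat_lit 11) (nat_lit 5) (nat_lit 11) (nat_lit 4) (nat_lit 420) (nat_lit 248) (nat_lit 232)) (XT.lf (nat_lit 0) (nat_lit 34996310741) (nat_lit 76) (nat_lit 3732079436) (nat_lit 76) (nat_lit 643681634) (nat_lit 10) (nat_lit 4) (nat_lit 11) (nat_lit 5) (nat_lit 11) (nat_lit 4) (nat_lit 421) (nat_lit 248) (nat_lit 231)))) (XT.nd (nat_lit 78) (nat_lit 0) (nat_lit 0) (XT.lf (nat_lit 0) (nat_lit 3467834788) (nat_lit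 152) (nat_lit 36619111613) (nat_lit 0) (nat_lit 335617401) (nat_lit 8) (nat_lit 5) (nat_lit 10) (nat_lit 4) (nat_lit 8) (nat_lit 4) (nat_lit 422) (nat_lit 248) (nat_lit 230)) (XT.nd (nat_lit 78) (nat_lit 0) (nat_lit 0) (XT.lf (nat_lit 0) (nat_lit 7701202497) (nat_lit 152) (nat_lit 29363732882) (nat_lit 0) (nat_lit 4439108488) (nat_lit 8) (nat_lit 5) (nat_lit 10) (nat_lit 4) (nat_lit 8) (nat_lit 4) (nat_lit 423) (nat_lit 248) (nat_lit 229)) (XT.lf (nat_lit 0) (nat_lit 11993481699) (nat_lit 152) (nat_lit 22021243011) (nat_lit 0) (nat_lit 8605293884) (nat_lit 8) (nat_lit 5) (nat_lit 10) (nat_lit 4) (nat_lit 8) (nat_lit 4) (nat_lit 424) (nat_lit 248) (nat_lit 228))))) (XT.nd (nat_lit 234) (nat_lit 0) (nat_lit 0) (XT.nd (nat_lit 78) (nat_lit 76) (nat_lit 0) (XT.lf (nat_lit 0) (nat_lit 16348422932) (nat_lit 152) (nat_lit 14585226232) (nat_lit 0) (nat_lit 12837813944) (nat_lit 8) (nat_lit 5) (nat_lit 10) (nat_lit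 4) (nat_lit 8) (nat_lit 4) (nat_lit 425) (nat_lit 248) (nat_lit 227)) (XT.nd (nat_lit 78) (nat_lit 76) (nat_lit 0) (XT.lf (nat_lit 0) (nat_lit 20769831481) (nat_lit 152) (nat_lit 7049185054) (nat_lit 0) (nat_lit 17140366988) (nat_lit 8) (nat_lit 5) (nat_lit 10) (nat_lit 4) (nat_lit 8) (nat_lit 4) (nat_lit 426) (nat_lit 248) (nat_lit 226)) (XT.lf (nat_lit 0) (nat_lit 605276536) (nat_lit 76) (nat_lit 24662112468) (nat_lit 76) (nat_lit 20917254278) (nat_lit 7) (nat_lit 4) (nat_lit 8) (nat_lit 5) (nat_lit 8) (nat_lit 4) (nat_lit 427) (nat_lit 248) (nat_lit 225)))) (XT.nd (nat_lit 156) (nat_lit 0) (nat_lit 0) (XT.nd (nat_lit 78) (nat_lit 0) (nat_lit 0) (XT.lf (nat_lit 0) (nat_lit 8515572704) (nat_lit 76) (nat_lit 21393849645) (nat_lit 76) (nat_lit 17536958741) (nat_lit 7) (nat_lit 4) (nat_lit 8) (nat_lit 5) (nat_lit 8) (nat_lit 4) (nat_lit 428) (nat_lit 248) (nat_lit 224)) (XT.lf (nat_lit 0) (nat_lit 16548322754)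 (nat_lit 76) (nat_lit 18082555251) (nat_lit 76) (nat_lit 14116894722) (nat_lit 7) (nat_lit 4) (nat_lit 8) (nat_lit 5) (nat_lit 8) (nat_lit 4) (nat_lit 429) (nat_lit 248) (nat_lit 223))) (XT.nd (nat_lit 78) (nat_lit 0) (nat_lit 0) (XT.lf (nat_lit 0) (nat_lit 24710545595) (nat_lit 76) (nat_lit 14725335922) (nat_lit 76) (nat_lit 10654073814) (nat_lit 7) (nat_lit 4) (nat_lit 8) (nat_lit 5) (nat_lit 8) (nat_lit 4) (nat_lit 430) (nat_lit 248) (nat_lit 222)) (XT.lf (nat_lit 0) (nat_lit 33009373264) (nat_lit 76) (nat_lit 11319258165) (nat_lit 76) (nat_lit 7145470253) (nat_lit 7) (nat_lit 4) (nat_lit 8) (nat_lit 5) (nat_lit 8) (nat_lit 4) (nat_lit 431) (nat_lit 248) (nat_lit 221))))))) (XT.nd (nat_lit 1014) (nat_lit 0) (nat_lit 0) (XT.nd (nat_lit 468) (nat_lit 76) (nat_lit 0) (XT.nd (nat_lit 234) (nat_lit 0) (nat_lit 0) (XT.nd (nat_lit 78) (nat_lit 152) (nat_lit 0) (XT.lf (nat_lit 0) (nat_lit 41452057165) (nat_lit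 76) (nat_lit 7861345796) (nat_lit 76) (nat_lit 3588018269) (nat_lit 7) (nat_lit 4) (nat_lit 8) (nat_lit 5) (nat_lit 8) (nat_lit 4) (nat_lit 432) (nat_lit 248) (nat_lit 220)) (XT.nd (nat_lit 78) (nat_lit 76) (nat_lit 0) (XT.lf (nat_lit 0) (nat_lit 20973184) (nat_lit 152) (nat_lit 4327392365) (nat_lit 76) (nat_lit 50024789428) (nat_lit 6) (nat_lit 5) (nat_lit 8) (nat_lit 5) (nat_lit 7) (nat_lit 4) (nat_lit 433) (nat_lit 248) (nat_lit 219)) (XT.lf (nat_lit 0) (nat_lit 2929765861) (nat_lit 76) (nat_lit 712381639) (nat_lit 152) (nat_lit 52246552100) (nat_lit 5) (nat_lit 5) (nat_lit 6) (nat_lit 5) (nat_lit 7) (nat_lit 4) (nat_lit 434) (nat_lit 248) (nat_lit 218)))) (XT.nd (nat_lit 78) (nat_lit 0) (nat_lit 0) (XT.lf (nat_lit 0) (nat_lit 7393214156) (nat_lit 152) (nat_lit 47084869667) (nat_lit 0) (nat_lit 2970994336) (nat_lit 5) (nat_lit 5) (nat_lit 7) (nat_lit 4) (nat_lit 5) (nat_lit 4) (nat_lit 435) (nat_lit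 248) (nat_lit 217)) (XT.nd (nat_lit 78) (nat_lit 0) (nat_lit 0) (XT.lf (nat_lit 0) (nat_lit 11213355692) (nat_lit 152) (nat_lit 41138949131) (nat_lit 0) (nat_lit 6705272125) (nat_lit 5) (nat_lit 5) (nat_lit 7) (nat_lit 4) (nat_lit 5) (nat_lit 4) (nat_lit 436) (nat_lit 248) (nat_lit 216)) (XT.lf (nat_lit 0) (nat_lit 15099062247) (nat_lit 152) (nat_lit 35109128818) (nat_lit 0) (nat_lit 10507615819) (nat_lit 5) (nat_lit 5) (nat_lit 7) (nat_lit 4) (nat_lit 5) (nat_lit 4) (nat_lit 437) (nat_lit 248) (nat_lit 215))))) (XT.nd (nat_lit 234) (nat_lit 76) (nat_lit 0) (XT.nd (nat_lit 78) (nat_lit 0) (nat_lit 0) (XT.lf (nat_lit 0) (nat_lit 19053729099) (nat_lit 152) (nat_lit 28990139954) (nat_lit 0) (nat_lit 14381347854) (nat_lit 5) (nat_lit 5) (nat_lit 7) (nat_lit 4) (nat_lit 5) (nat_lit 4) (nat_lit 438) (nat_lit 248) (nat_lit 214)) (XT.nd (nat_lit 78) (nat_lit 0) (nat_lit 0) (XT.lf (nat_lit 0) (nat_lit 23080811782)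 (nat_lit 152) (nat_lit 22776635849) (nat_lit 0) (nat_lit 18329853045) (nat_lit 5) (nat_lit 5) (nat_lit 7) (nat_lit 4) (nat_lit 5) (nat_lit 4) (nat_lit 439) (nat_lit 248) (nat_lit 213)) (XT.lf (nat_lit 0) (nat_lit 27183829106) (nat_lit 152) (nat_lit 16463187227) (nat_lit 0) (nat_lit 22356581543) (nat_lit 5) (nat_lit 5) (nat_lit 7) (nat_lit 4) (nat_lit 5) (nat_lit 4) (nat_lit 440) (nat_lit 248) (nat_lit 212)))) (XT.nd (nat_lit 156) (nat_lit 76) (nat_lit 0) (XT.nd (nat_lit 78) (nat_lit 0) (nat_lit 0) (XT.lf (nat_lit 0) (nat_lit 31366366232) (nat_lit 152) (nat_lit 10044277484) (nat_lit 0) (nat_lit 26465051846) (nat_lit 5) (nat_lit 5) (nat_lit 7) (nat_lit 4) (nat_lit 5) (nat_lit 4) (nat_lit 441) (nat_lit 248) (nat_lit 211)) (XT.lf (nat_lit 0) (nat_lit 35632077804) (nat_lit 152) (nat_lit 3514297862) (nat_lit 0) (nat_lit 30658853882) (nat_lit 5) (nat_lit 5) (nat_lit 7) (nat_lit 4) (nat_lit 5) (nat_lit 4) (nat_lit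 442) (nat_lit 248) (nat_lit 210))) (XT.nd (nat_lit 78) (nat_lit 0) (nat_lit 0) (XT.lf (nat_lit 0) (nat_lit 3194799489) (nat_lit 76) (nat_lit 36820602020) (nat_lit 76) (nat_lit 31777563015) (nat_lit 4) (nat_lit 4) (nat_lit 5) (nat_lit 5) (nat_lit 5) (nat_lit 4) (nat_lit 443) (nat_lit 248) (nat_lit 209)) (XT.lf (nat_lit 0) (nat_lit 10098861442) (nat_lit 76) (nat_lit 34426224495) (nat_lit 76) (nat_lit 29315403855) (nat_lit 4) (nat_lit 4) (nat_lit 5) (nat_lit 5) (nat_lit 5) (nat_lit 4) (nat_lit 444) (nat_lit 248) (nat_lit 208)))))) (XT.nd (nat_lit 43602) (nat_lit 0) (nat_lit 760) (XT.nd (nat_lit 234) (nat_lit 0) (nat_lit 0) (XT.nd (nat_lit 78) (nat_lit 0) (nat_lit 0) (XT.lf (nat_lit 0) (nat_lit 17133979253) (nat_lit 76) (nat_lit 31996638432) (nat_lit 76) (nat_lit 26820010380) (nat_lit 4) (nat_lit 4) (nat_lit 5) (nat_lit 5) (nat_lit 5) (nat_lit 4) (nat_lit 445) (nat_lit 248) (nat_lit 207)) (XT.nd (nat_lit 78)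 (nat_lit 0) (nat_lit 0) (XT.lf (nat_lit 0) (nat_lit 24306300113) (nat_lit 76) (nat_lit 29529720894) (nat_lit 76) (nat_lit 24289202150) (nat_lit 4) (nat_lit 4) (nat_lit 5) (nat_lit 5) (nat_lit 5) (nat_lit 4) (nat_lit 446) (nat_lit 248) (nat_lit 206)) (XT.lf (nat_lit 0) (nat_lit 31622091097) (nat_lit 76) (nat_lit 27023316321) (nat_lit 76) (nat_lit 21720767780) (nat_lit 4) (nat_lit 4) (nat_lit 5) (nat_lit 5) (nat_lit 5) (nat_lit 4) (nat_lit 447) (nat_lit 248) (nat_lit 205)))) (XT.nd (nat_lit 156) (nat_lit 0) (nat_lit 0) (XT.nd (nat_lit 78) (nat_lit 0) (nat_lit 0) (XT.lf (nat_lit 0) (nat_lit 39087744645) (nat_lit 76) (nat_lit 24475234651) (nat_lit 76) (nat_lit 19112463005) (nat_lit 4) (nat_lit 4) (nat_lit 5) (nat_lit 5) (nat_lit 5) (nat_lit 4) (nat_lit 448) (nat_lit 248) (nat_lit 204)) (XT.lf (nat_lit 0) (nat_lit 46709784142) (nat_lit 76) (nat_lit 21883249405) (nat_lit 76) (nat_lit 16462008726) (nat_lit 4)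 (nat_lit 4) (nat_lit 5) (nat_lit 5) (nat_lit 5) (nat_lit 4) (nat_lit 449) (nat_lit 248) (nat_lit 203))) (XT.nd (nat_lit 43134) (nat_lit 0) (nat_lit 988) (XT.lf (nat_lit 0) (nat_lit 54494869625) (nat_lit 76) (nat_lit 19245095742) (nat_lit 76) (nat_lit 13767089010) (nat_lit 4) (nat_lit 4) (nat_lit 5) (nat_lit 5) (nat_lit 5) (nat_lit 4) (nat_lit 450) (nat_lit 248) (nat_lit 202)) (XT.lf (nat_lit 0) (nat_lit 1645746874) (nat_lit 152) (nat_lit 8982863481) (nat_lit 0) (nat_lit 1645746874) (nat_lit 17) (nat_lit 5) (nat_lit 19) (nat_lit 4) (nat_lit 17) (nat_lit 4) (nat_lit 402) (nat_lit 249) (nat_lit 249))))) (XT.nd (nat_lit 234) (nat_lit 152) (nat_lit 0) (XT.nd (nat_lit 78) (nat_lit 76) (nat_lit 0) (XT.lf (nat_lit 0) (nat_lit 8365576251) (nat_lit 152) (nat_lit 8645179501) (nat_lit 0) (nat_lit 8116719214) (nat_lit 17) (nat_lit 5) (nat_lit 19) (nat_lit 4) (nat_lit 17) (nat_lit 4) (nat_lit 403) (nat_lit 249) (nat_lit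 248)) (XT.nd (nat_lit 78) (nat_lit 0) (nat_lit 0) (XT.lf (nat_lit 0) (nat_lit 779690441) (nat_lit 76) (nat_lit 12718597977) (nat_lit 76) (nat_lit 12228132167) (nat_lit 16) (nat_lit 4) (nat_lit 17) (nat_lit 5) (nat_lit 17) (nat_lit 4) (nat_lit 404) (nat_lit 249) (nat_lit 247)) (XT.lf (nat_lit 0) (nat_lit 10475883407) (nat_lit 76) (nat_lit 8296441205) (nat_lit 76) (nat_lit 7571403770) (nat_lit 16) (nat_lit 4) (nat_lit 17) (nat_lit 5) (nat_lit 17) (nat_lit 4) (nat_lit 405) (nat_lit 249) (nat_lit 246)))) (XT.nd (nat_lit 156) (nat_lit 0) (nat_lit 0) (XT.nd (nat_lit 78) (nat_lit 152) (nat_lit 0) (XT.lf (nat_lit 0) (nat_lit 20279815773) (nat_lit 76) (nat_lit 3827720779) (nat_lit 76) (nat_lit 2874943903) (nat_lit 16) (nat_lit 4) (nat_lit 17) (nat_lit 5) (nat_lit 17) (nat_lit 4) (nat_lit 406) (nat_lit 249) (nat_lit 245)) (XT.lf (nat_lit 0) (nat_lit 1860913273) (nat_lit 152) (nat_lit 25059603964) (nat_lit 0) (nat_lit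 721220914) (nat_lit 14) (nat_lit 5) (nat_lit 16) (nat_lit 4) (nat_lit 14) (nat_lit 4) (nat_lit 407) (nat_lit 249) (nat_lit 244))) (XT.nd (nat_lit 78) (nat_lit 0) (nat_lit 0) (XT.lf (nat_lit 0) (nat_lit 6692405219) (nat_lit 152) (nat_lit 16282887649) (nat_lit 0) (nat_lit 5344299009) (nat_lit 14) (nat_lit 5) (nat_lit 16) (nat_lit 4) (nat_lit 14) (nat_lit 4) (nat_lit 408) (nat_lit 249) (nat_lit 243)) (XT.lf (nat_lit 0) (nat_lit 11576696725) (nat_lit 152) (nat_lit 7417614029) (nat_lit 0) (nat_lit 10026246971) (nat_lit 14) (nat_lit 5) (nat_lit 16) (nat_lit 4) (nat_lit 14) (nat_lit 4) (nat_lit 409) (nat_lit 249) (nat_lit 242))))))))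
noncomputable def xc11 : XT := (XT.nd (nat_lit 2028) (nat_lit 76) (nat_lit 0) (XT.nd (nat_lit 1014) (nat_lit 228) (nat_lit 0) (XT.nd (nat_lit 468) (nat_lit 228) (nat_lit 0) (XT.nd (nat_lit 234) (nat_lit 152) (nat_lit 0) (XT.nd (nat_lit 78) (nat_lit 0) (nat_lit 0) (XT.lf (nat_lit 0) (nat_lit 1574691147) (nat_lit 76) (nat_lit 14958501367) (nat_lit 76) (nat_lit 13211601570) (nat_lit 13) (nat_lit 4) (nat_lit 14) (nat_lit 5) (nat_lit 14) (nat_lit 4) (nat_lit 410) (nat_lit 249) (nat_lit 241)) (XT.nd (nat_lit 78) (nat_lit 0) (nat_lit 0) (XT.lf (nat_lit 0) (nat_lit 10820828027) (nat_lit 76) (nat_lit 10803987985) (nat_lit 76) (nat_lit 8866359992) (nat_lit 13) (nat_lit 4) (nat_lit 14) (nat_lit 5) (nat_lit 14) (nat_lit 4) (nat_lit 411) (nat_lit 249) (nat_lit 240)) (XT.lf (nat_lit 0) (nat_lit 20181250695) (nat_lit 76) (nat_lit 6602043811) (nat_lit 76) (nat_lit 4479242811) (nat_lit 13) (nat_lit 4) (nat_lit 14) (nat_lit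 5) (nat_lit 14) (nat_lit 4) (nat_lit 412) (nat_lit 249) (nat_lit 239)))) (XT.nd (nat_lit 78) (nat_lit 152) (nat_lit 0) (XT.lf (nat_lit 0) (nat_lit 29664138161) (nat_lit 76) (nat_lit 2348997242) (nat_lit 76) (nat_lit 46416624) (nat_lit 13) (nat_lit 4) (nat_lit 14) (nat_lit 5) (nat_lit 14) (nat_lit 4) (nat_lit 413) (nat_lit 249) (nat_lit 238)) (XT.nd (nat_lit 78) (nat_lit 0) (nat_lit 0) (XT.lf (nat_lit 0) (nat_lit 4431575013) (nat_lit 152) (nat_lit 26420997622) (nat_lit 0) (nat_lit 2026600318) (nat_lit 11) (nat_lit 5) (nat_lit 13) (nat_lit 4) (nat_lit 11) (nat_lit 4) (nat_lit 414) (nat_lit 249) (nat_lit 237)) (XT.lf (nat_lit 0) (nat_lit 9009085777) (nat_lit 152) (nat_lit 18275722192) (nat_lit 0) (nat_lit 6439587263) (nat_lit 11) (nat_lit 5) (nat_lit 13) (nat_lit 4) (nat_lit 11) (nat_lit 4) (nat_lit 415) (nat_lit 249) (nat_lit 236))))) (XT.nd (nat_lit 234) (nat_lit 152) (nat_lit 0) (XT.nd (nat_lit 78) (nat_lit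 76) (nat_lit 0) (XT.lf (nat_lit 0) (nat_lit 13644724221) (nat_lit 152) (nat_lit 10037141639) (nat_lit 0) (nat_lit 10915493845) (nat_lit 11) (nat_lit 5) (nat_lit 13) (nat_lit 4) (nat_lit 11) (nat_lit 4) (nat_lit 416) (nat_lit 249) (nat_lit 235)) (XT.nd (nat_lit 78) (nat_lit 76) (nat_lit 0) (XT.lf (nat_lit 0) (nat_lit 18342540903) (nat_lit 152) (nat_lit 1698057203) (nat_lit 0) (nat_lit 15458231049) (nat_lit 11) (nat_lit 5) (nat_lit 13) (nat_lit 4) (nat_lit 11) (nat_lit 4) (nat_lit 417) (nat_lit 249) (nat_lit 234)) (XT.lf (nat_lit 0) (nat_lit 6883132399) (nat_lit 76) (nat_lit 16289673190) (nat_lit 76) (nat_lit 13254800736) (nat_lit 10) (nat_lit 4) (nat_lit 11) (nat_lit 5) (nat_lit 11) (nat_lit 4) (nat_lit 418) (nat_lit 249) (nat_lit 233)))) (XT.nd (nat_lit 156) (nat_lit 152) (nat_lit 0) (XT.nd (nat_lit 78) (nat_lit 0) (nat_lit 0) (XT.lf (nat_lit 0) (nat_lit 15615580029) (nat_lit 76) (nat_lit 12475712929)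 (nat_lit 76) (nat_lit 9294663193) (nat_lit 10) (nat_lit 4) (nat_lit 11) (nat_lit 5) (nat_lit 11) (nat_lit 4) (nat_lit 419) (nat_lit 249) (nat_lit 232)) (XT.lf (nat_lit 0) (nat_lit 24473121313) (nat_lit 76) (nat_lit 8612531783) (nat_lit 76) (nat_lit 5289562357) (nat_lit 10) (nat_lit 4) (nat_lit 11) (nat_lit 5) (nat_lit 11) (nat_lit 4) (nat_lit 420) (nat_lit 249) (nat_lit 231))) (XT.nd (nat_lit 78) (nat_lit 152) (nat_lit 0) (XT.lf (nat_lit 0) (nat_lit 33463495849) (nat_lit 76) (nat_lit 4696754157) (nat_lit 76) (nat_lit 1235998624) (nat_lit 10) (nat_lit 4) (nat_lit 11) (nat_lit 5) (nat_lit 11) (nat_lit 4) (nat_lit 421) (nat_lit 249) (nat_lit 230)) (XT.lf (nat_lit 0) (nat_lit 2159160388) (nat_lit 76) (nat_lit 675169089) (nat_lit 152) (nat_lit 37614168194) (nat_lit 8) (nat_lit 5) (nat_lit 9) (nat_lit 5) (nat_lit 10) (nat_lit 4) (nat_lit 422) (nat_lit 249) (nat_lit 229)))))) (XT.nd (nat_lit 468) (nat_lit 152)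 (nat_lit 0) (XT.nd (nat_lit 234) (nat_lit 76) (nat_lit 0) (XT.nd (nat_lit 78) (nat_lit 0) (nat_lit 0) (XT.lf (nat_lit 0) (nat_lit 7027665405) (nat_lit 152) (nat_lit 31091778869) (nat_lit 0) (nat_lit 3411738148) (nat_lit 8) (nat_lit 5) (nat_lit 10) (nat_lit 4) (nat_lit 8) (nat_lit 4) (nat_lit 423) (nat_lit 249) (nat_lit 228)) (XT.nd (nat_lit 78) (nat_lit 0) (nat_lit 0) (XT.lf (nat_lit 0) (nat_lit 11287379905) (nat_lit 152) (nat_lit 23811726332) (nat_lit 0) (nat_lit 7549031476) (nat_lit 8) (nat_lit 5) (nat_lit 10) (nat_lit 4) (nat_lit 8) (nat_lit 4) (nat_lit 424) (nat_lit 249) (nat_lit 227)) (XT.lf (nat_lit 0) (nat_lit 15610704921) (nat_lit 152) (nat_lit 16436328324) (nat_lit 0) (nat_lit 11753500985) (nat_lit 8) (nat_lit 5) (nat_lit 10) (nat_lit 4) (nat_lit 8) (nat_lit 4) (nat_lit 425) (nat_lit 249) (nat_lit 226)))) (XT.nd (nat_lit 78) (nat_lit 76) (nat_lit 0) (XT.lf (nat_lit 0) (nat_lit 20001418115) (nat_lit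 152) (nat_lit 8959140322) (nat_lit 0) (nat_lit 16028820484) (nat_lit 8) (nat_lit 5) (nat_lit 10) (nat_lit 4) (nat_lit 8) (nat_lit 4) (nat_lit 426) (nat_lit 249) (nat_lit 225)) (XT.nd (nat_lit 78) (nat_lit 76) (nat_lit 0) (XT.lf (nat_lit 0) (nat_lit 24463356033) (nat_lit 152) (nat_lit 1373628862) (nat_lit 0) (nat_lit 20378725688) (nat_lit 8) (nat_lit 5) (nat_lit 10) (nat_lit 4) (nat_lit 8) (nat_lit 4) (nat_lit 427) (nat_lit 249) (nat_lit 224)) (XT.lf (nat_lit 0) (nat_lit 6452750578) (nat_lit 76) (nat_lit 22609694663) (nat_lit 76) (nat_lit 18416294692) (nat_lit 7) (nat_lit 4) (nat_lit 8) (nat_lit 5) (nat_lit 8) (nat_lit 4) (nat_lit 428) (nat_lit 249) (nat_lit 223))))) (XT.nd (nat_lit 234) (nat_lit 152) (nat_lit 0) (XT.nd (nat_lit 78) (nat_lit 0) (nat_lit 0) (XT.lf (nat_lit 0) (nat_lit 14430569736) (nat_lit 76) (nat_lit 19324712534) (nat_lit 76) (nat_lit 15025710984) (nat_lit 7) (nat_lit 4) (nat_lit 8) (nat_lit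 5) (nat_lit 8) (nat_lit 4) (nat_lit 429) (nat_lit 249) (nat_lit 222)) (XT.nd (nat_lit 78) (nat_lit 0) (nat_lit 0) (XT.lf (nat_lit 0) (nat_lit 22539461613) (nat_lit 76) (nat_lit 15993039092) (nat_lit 76) (nat_lit 11591511739) (nat_lit 7) (nat_lit 4) (nat_lit 8) (nat_lit 5) (nat_lit 8) (nat_lit 4) (nat_lit 430) (nat_lit 249) (nat_lit 221)) (XT.lf (nat_lit 0) (nat_lit 30786511648) (nat_lit 76) (nat_lit 12611763168) (nat_lit 76) (nat_lit 8110696199) (nat_lit 7) (nat_lit 4) (nat_lit 8) (nat_lit 5) (nat_lit 8) (nat_lit 4) (nat_lit 431) (nat_lit 249) (nat_lit 220)))) (XT.nd (nat_lit 156) (nat_lit 152) (nat_lit 0) (XT.nd (nat_lit 78) (nat_lit 0) (nat_lit 0) (XT.lf (nat_lit 0) (nat_lit 39178926001) (nat_lit 76) (nat_lit 9177930249) (nat_lit 76) (nat_lit 4580222876) (nat_lit 7) (nat_lit 4) (nat_lit 8) (nat_lit 5) (nat_lit 8) (nat_lit 4) (nat_lit 432) (nat_lit 249) (nat_lit 219)) (XT.lf (nat_lit 0) (nat_lit 47724037850)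 (nat_lit 76) (nat_lit 5688539897) (nat_lit 76) (nat_lit 997006890) (nat_lit 7) (nat_lit 4) (nat_lit 8) (nat_lit 5) (nat_lit 8) (nat_lit 4) (nat_lit 433) (nat_lit 249) (nat_lit 218))) (XT.nd (nat_lit 78) (nat_lit 0) (nat_lit 0) (XT.lf (nat_lit 0) (nat_lit 485618442) (nat_lit 76) (nat_lit 2109575793) (nat_lit 152) (nat_lit 53331678008) (nat_lit 5) (nat_lit 5) (nat_lit 6) (nat_lit 5) (nat_lit 7) (nat_lit 4) (nat_lit 434) (nat_lit 249) (nat_lit 217)) (XT.lf (nat_lit 0) (nat_lit 6307948234) (nat_lit 152) (nat_lit 49601696075) (nat_lit 0) (nat_lit 1578758413) (nat_lit 5) (nat_lit 5) (nat_lit 7) (nat_lit 4) (nat_lit 5) (nat_lit 4) (nat_lit 435) (nat_lit 249) (nat_lit 216))))))) (XT.nd (nat_lit 1014) (nat_lit 0) (nat_lit 0) (XT.nd (nat_lit 468) (nat_lit 76) (nat_lit 0) (XT.nd (nat_lit 234) (nat_lit 0) (nat_lit 0) (XT.nd (nat_lit 78) (nat_lit 0) (nat_lit 0) (XT.lf (nat_lit 0) (nat_lit 10103932515) (nat_lit 152)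 (nat_lit 43702316347) (nat_lit 0) (nat_lit 5291379833) (nat_lit 5) (nat_lit 5) (nat_lit 7) (nat_lit 4) (nat_lit 5) (nat_lit 4) (nat_lit 436) (nat_lit 249) (nat_lit 215)) (XT.nd (nat_lit 78) (nat_lit 0) (nat_lit 0) (XT.lf (nat_lit 0) (nat_lit 13966185425) (nat_lit 152) (nat_lit 37717681284) (nat_lit 0) (nat_lit 9072697927) (nat_lit 5) (nat_lit 5) (nat_lit 7) (nat_lit 4) (nat_lit 5) (nat_lit 4) (nat_lit 437) (nat_lit 249) (nat_lit 214)) (XT.lf (nat_lit 0) (nat_lit 17898081747) (nat_lit 152) (nat_lit 31642561595) (nat_lit 0) (nat_lit 12926016757) (nat_lit 5) (nat_lit 5) (nat_lit 7) (nat_lit 4) (nat_lit 5) (nat_lit 4) (nat_lit 438) (nat_lit 249) (nat_lit 213)))) (XT.nd (nat_lit 78) (nat_lit 0) (nat_lit 0) (XT.lf (nat_lit 0) (nat_lit 21903057120) (nat_lit 152) (nat_lit 25471648921) (nat_lit 0) (nat_lit 16854703303) (nat_lit 5) (nat_lit 5) (nat_lit 7) (nat_lit 4) (nat_lit 5) (nat_lit 4) (nat_lit 439) (nat_lit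 249) (nat_lit 212)) (XT.nd (nat_lit 78) (nat_lit 0) (nat_lit 0) (XT.lf (nat_lit 0) (nat_lit 25984611037) (nat_lit 152) (nat_lit 19199551205) (nat_lit 0) (nat_lit 20862190397) (nat_lit 5) (nat_lit 5) (nat_lit 7) (nat_lit 4) (nat_lit 5) (nat_lit 4) (nat_lit 440) (nat_lit 249) (nat_lit 211)) (XT.lf (nat_lit 0) (nat_lit 30146309903) (nat_lit 152) (nat_lit 12820787970) (nat_lit 0) (nat_lit 24951979727) (nat_lit 5) (nat_lit 5) (nat_lit 7) (nat_lit 4) (nat_lit 5) (nat_lit 4) (nat_lit 441) (nat_lit 249) (nat_lit 210))))) (XT.nd (nat_lit 234) (nat_lit 0) (nat_lit 0) (XT.nd (nat_lit 78) (nat_lit 76) (nat_lit 0) (XT.lf (nat_lit 0) (nat_lit 34391790155) (nat_lit 152) (nat_lit 6329785543) (nat_lit 0) (nat_lit 29127644896) (nat_lit 5) (nat_lit 5) (nat_lit 7) (nat_lit 4) (nat_lit 5) (nat_lit 4) (nat_lit 442) (nat_lit 249) (nat_lit 209)) (XT.nd (nat_lit 78) (nat_lit 0) (nat_lit 0) (XT.lf (nat_lit 0) (nat_lit 284683019)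 (nat_lit 76) (nat_lit 38442814963) (nat_lit 76) (nat_lit 33110888069) (nat_lit 4) (nat_lit 4) (nat_lit 5) (nat_lit 5) (nat_lit 5) (nat_lit 4) (nat_lit 443) (nat_lit 249) (nat_lit 208)) (XT.lf (nat_lit 0) (nat_lit 7151274036) (nat_lit 76) (nat_lit 36066478220) (nat_lit 76) (nat_lit 30668743914) (nat_lit 4) (nat_lit 4) (nat_lit 5) (nat_lit 5) (nat_lit 5) (nat_lit 4) (nat_lit 444) (nat_lit 249) (nat_lit 207)))) (XT.nd (nat_lit 156) (nat_lit 0) (nat_lit 0) (XT.nd (nat_lit 78) (nat_lit 0) (nat_lit 0) (XT.lf (nat_lit 0) (nat_lit 14150012297) (nat_lit 76) (nat_lit 33654407481) (nat_lit 76) (nat_lit 28192782483) (nat_lit 4) (nat_lit 4) (nat_lit 5) (nat_lit 5) (nat_lit 5) (nat_lit 4) (nat_lit 445) (nat_lit 249) (nat_lit 206)) (XT.lf (nat_lit 0) (nat_lit 21287013205) (nat_lit 76) (nat_lit 31204495111) (nat_lit 76) (nat_lit 25680840316) (nat_lit 4) (nat_lit 4) (nat_lit 5) (nat_lit 5) (nat_lit 5) (nat_lit 4) (nat_lit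 446) (nat_lit 249) (nat_lit 205))) (XT.nd (nat_lit 78) (nat_lit 0) (nat_lit 0) (XT.lf (nat_lit 0) (nat_lit 28568512975) (nat_lit 76) (nat_lit 28714600410) (nat_lit 76) (nat_lit 23130722510) (nat_lit 4) (nat_lit 4) (nat_lit 5) (nat_lit 5) (nat_lit 5) (nat_lit 4) (nat_lit 447) (nat_lit 249) (nat_lit 204)) (XT.lf (nat_lit 0) (nat_lit 36000874081) (nat_lit 76) (nat_lit 26182547742) (nat_lit 76) (nat_lit 20540200809) (nat_lit 4) (nat_lit 4) (nat_lit 5) (nat_lit 5) (nat_lit 5) (nat_lit 4) (nat_lit 448) (nat_lit 249) (nat_lit 203)))))) (XT.nd (nat_lit 43446) (nat_lit 0) (nat_lit 684) (XT.nd (nat_lit 43134) (nat_lit 0) (nat_lit 912) (XT.nd (nat_lit 78) (nat_lit 0) (nat_lit 0) (XT.lf (nat_lit 0) (nat_lit 43590590820) (nat_lit 76) (nat_lit 23606124634) (nat_lit 76) (nat_lit 17907011649) (nat_lit 4) (nat_lit 4) (nat_lit 5) (nat_lit 5) (nat_lit 5) (nat_lit 4) (nat_lit 449) (nat_lit 249) (nat_lit 202)) (XT.nd (nat_lit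 42978) (nat_lit 0) (nat_lit 1140) (XT.lf (nat_lit 0) (nat_lit 51344294983) (nat_lit 76) (nat_lit 20983079842) (nat_lit 76) (nat_lit 15228854185) (nat_lit 4) (nat_lit 4) (nat_lit 5) (nat_lit 5) (nat_lit 5) (nat_lit 4) (nat_lit 450) (nat_lit 249) (nat_lit 201)) (XT.lf (nat_lit 0) (nat_lit 5371748407) (nat_lit 76) (nat_lit 3174473782) (nat_lit 76) (nat_lit 3174473782) (nat_lit 19) (nat_lit 4) (nat_lit 20) (nat_lit 5) (nat_lit 20) (nat_lit 4) (nat_lit 400) (nat_lit 250) (nat_lit 250)))) (XT.nd (nat_lit 156) (nat_lit 76) (nat_lit 0) (XT.nd (nat_lit 78) (nat_lit 152) (nat_lit 0) (XT.lf (nat_lit 0) (nat_lit 20804065869) (nat_lit 76) (nat_lit 1723970431) (nat_lit 76) (nat_lit 1459958001) (nat_lit 19) (nat_lit 4) (nat_lit 20) (nat_lit 5) (nat_lit 20) (nat_lit 4) (nat_lit 401) (nat_lit 250) (nat_lit 249)) (XT.lf (nat_lit 0) (nat_lit 3496525708) (nat_lit 152) (nat_lit 18062388916) (nat_lit 0) (nat_lit 2991345923)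 (nat_lit 17) (nat_lit 5) (nat_lit 19) (nat_lit 4) (nat_lit 17) (nat_lit 4) (nat_lit 402) (nat_lit 250) (nat_lit 248))) (XT.nd (nat_lit 78) (nat_lit 76) (nat_lit 0) (XT.lf (nat_lit 0) (nat_lit 8520811328) (nat_lit 152) (nat_lit 8835688012) (nat_lit 0) (nat_lit 7774022770) (nat_lit 17) (nat_lit 5) (nat_lit 19) (nat_lit 4) (nat_lit 17) (nat_lit 4) (nat_lit 403) (nat_lit 250) (nat_lit 247)) (XT.lf (nat_lit 0) (nat_lit 492463945) (nat_lit 76) (nat_lit 13109952066) (nat_lit 76) (nat_lit 12128591883) (nat_lit 16) (nat_lit 4) (nat_lit 17) (nat_lit 5) (nat_lit 17) (nat_lit 4) (nat_lit 404) (nat_lit 250) (nat_lit 246))))) (XT.nd (nat_lit 234) (nat_lit 76) (nat_lit 0) (XT.nd (nat_lit 78) (nat_lit 152) (nat_lit 0) (XT.lf (nat_lit 0) (nat_lit 10098437015) (nat_lit 76) (nat_lit 8730209604) (nat_lit 76) (nat_lit 7521109980) (nat_lit 16) (nat_lit 4) (nat_lit 17) (nat_lit 5) (nat_lit 17) (nat_lit 4) (nat_lit 405) (nat_lit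 250) (nat_lit 245)) (XT.nd (nat_lit 78) (nat_lit 152) (nat_lit 0) (XT.lf (nat_lit 0) (nat_lit 19814777249) (nat_lit 76) (nat_lit 4302668119) (nat_lit 76) (nat_lit 2872462241) (nat_lit 16) (nat_lit 4) (nat_lit 17) (nat_lit 5) (nat_lit 17) (nat_lit 4) (nat_lit 406) (nat_lit 250) (nat_lit 244)) (XT.lf (nat_lit 0) (nat_lit 1807349672) (nat_lit 152) (nat_lit 25633114564) (nat_lit 0) (nat_lit 210386426) (nat_lit 14) (nat_lit 5) (nat_lit 16) (nat_lit 4) (nat_lit 14) (nat_lit 4) (nat_lit 407) (nat_lit 250) (nat_lit 243)))) (XT.nd (nat_lit 156) (nat_lit 76) (nat_lit 0) (XT.nd (nat_lit 78) (nat_lit 0) (nat_lit 0) (XT.lf (nat_lit 0) (nat_lit 6593449895) (nat_lit 152) (nat_lit 16942479128) (nat_lit 0) (nat_lit 4794143104) (nat_lit 14) (nat_lit 5) (nat_lit 16) (nat_lit 4) (nat_lit 14) (nat_lit 4) (nat_lit 408) (nat_lit 250) (nat_lit 242)) (XT.lf (nat_lit 0) (nat_lit 11433671767) (nat_lit 152) (nat_lit 8160779177) (nat_lit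 0) (nat_lit 9437914934) (nat_lit 14) (nat_lit 5) (nat_lit 16) (nat_lit 4) (nat_lit 14) (nat_lit 4) (nat_lit 409) (nat_lit 250) (nat_lit 241))) (XT.nd (nat_lit 78) (nat_lit 0) (nat_lit 0) (XT.lf (nat_lit 0) (nat_lit 733981236) (nat_lit 76) (nat_lit 15605318849) (nat_lit 76) (nat_lit 13418833819) (nat_lit 13) (nat_lit 4) (nat_lit 14) (nat_lit 5) (nat_lit 14) (nat_lit 4) (nat_lit 410) (nat_lit 250) (nat_lit 240)) (XT.lf (nat_lit 0) (nat_lit 9899774117) (nat_lit 76) (nat_lit 11488837294) (nat_lit 76) (nat_lit 9117179258) (nat_lit 13) (nat_lit 4) (nat_lit 14) (nat_lit 5) (nat_lit 14) (nat_lit 4) (nat_lit 411) (nat_lit 250) (nat_lit 239))))))))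
noncomputable def xc12 : XT := (XT.nd (nat_lit 2028) (nat_lit 76) (nat_lit 0) (XT.nd (nat_lit 1014) (nat_lit 228) (nat_lit 0) (XT.nd (nat_lit 468) (nat_lit 228) (nat_lit 0) (XT.nd (nat_lit 234) (nat_lit 0) (nat_lit 0) (XT.nd (nat_lit 78) (nat_lit 152) (nat_lit 0) (XT.lf (nat_lit 0) (nat_lit 19182192902) (nat_lit 76) (nat_lit 7323817224) (nat_lit 76) (nat_lit 4772379569) (nat_lit 13) (nat_lit 4) (nat_lit 14) (nat_lit 5) (nat_lit 14) (nat_lit 4) (nat_lit 412) (nat_lit 250) (nat_lit 238)) (XT.nd (nat_lit 78) (nat_lit 152) (nat_lit 0) (XT.lf (nat_lit 0) (nat_lit 28589348443) (nat_lit 76) (nat_lit 3106619299) (nat_lit 76) (nat_lit 380638326) (nat_lit 13) (nat_lit 4) (nat_lit 14) (nat_lit 5) (nat_lit 14) (nat_lit 4) (nat_lit 413) (nat_lit 250) (nat_lit 237)) (XT.lf (nat_lit 0) (nat_lit 4045598094) (nat_lit 152) (nat_lit 27617987655) (nat_lit 0) (nat_lit 1234490807) (nat_lit 11) (nat_lit 5) (nat_lit 13) (nat_lit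 4) (nat_lit 11) (nat_lit 4) (nat_lit 414) (nat_lit 250) (nat_lit 236)))) (XT.nd (nat_lit 78) (nat_lit 0) (nat_lit 0) (XT.lf (nat_lit 0) (nat_lit 8584095241) (nat_lit 152) (nat_lit 19547122639) (nat_lit 0) (nat_lit 5613256091) (nat_lit 11) (nat_lit 5) (nat_lit 13) (nat_lit 4) (nat_lit 11) (nat_lit 4) (nat_lit 415) (nat_lit 250) (nat_lit 235)) (XT.nd (nat_lit 78) (nat_lit 0) (nat_lit 0) (XT.lf (nat_lit 0) (nat_lit 13181856386) (nat_lit 152) (nat_lit 11380785206) (nat_lit 0) (nat_lit 10055937759) (nat_lit 11) (nat_lit 5) (nat_lit 13) (nat_lit 4) (nat_lit 11) (nat_lit 4) (nat_lit 416) (nat_lit 250) (nat_lit 234)) (XT.lf (nat_lit 0) (nat_lit 17842898992) (nat_lit 152) (nat_lit 3111839721) (nat_lit 0) (nat_lit 14566417765) (nat_lit 11) (nat_lit 5) (nat_lit 13) (nat_lit 4) (nat_lit 11) (nat_lit 4) (nat_lit 417) (nat_lit 250) (nat_lit 233))))) (XT.nd (nat_lit 234) (nat_lit 152) (nat_lit 0) (XT.nd (nat_lit 78)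 (nat_lit 0) (nat_lit 0) (XT.lf (nat_lit 0) (nat_lit 5371761521) (nat_lit 76) (nat_lit 17251170950) (nat_lit 76) (nat_lit 13828512441) (nat_lit 10) (nat_lit 4) (nat_lit 11) (nat_lit 5) (nat_lit 11) (nat_lit 4) (nat_lit 418) (nat_lit 250) (nat_lit 232)) (XT.nd (nat_lit 78) (nat_lit 0) (nat_lit 0) (XT.lf (nat_lit 0) (nat_lit 14036780691) (nat_lit 76) (nat_lit 13469327892) (nat_lit 76) (nat_lit 9904749692) (nat_lit 10) (nat_lit 4) (nat_lit 11) (nat_lit 5) (nat_lit 11) (nat_lit 4) (nat_lit 419) (nat_lit 250) (nat_lit 231)) (XT.lf (nat_lit 0) (nat_lit 22828857449) (nat_lit 76) (nat_lit 9637328497) (nat_lit 76) (nat_lit 5934964190) (nat_lit 10) (nat_lit 4) (nat_lit 11) (nat_lit 5) (nat_lit 11) (nat_lit 4) (nat_lit 420) (nat_lit 250) (nat_lit 230)))) (XT.nd (nat_lit 156) (nat_lit 0) (nat_lit 0) (XT.nd (nat_lit 78) (nat_lit 152) (nat_lit 0) (XT.lf (nat_lit 0) (nat_lit 31755674194) (nat_lit 76) (nat_lit 5751824416)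 (nat_lit 76) (nat_lit 1915687190) (nat_lit 10) (nat_lit 4) (nat_lit 11) (nat_lit 5) (nat_lit 11) (nat_lit 4) (nat_lit 421) (nat_lit 250) (nat_lit 229)) (XT.lf (nat_lit 0) (nat_lit 332939095) (nat_lit 76) (nat_lit 1784771713) (nat_lit 152) (nat_lit 38359429570) (nat_lit 8) (nat_lit 5) (nat_lit 9) (nat_lit 5) (nat_lit 10) (nat_lit 4) (nat_lit 422) (nat_lit 250) (nat_lit 228))) (XT.nd (nat_lit 78) (nat_lit 0) (nat_lit 0) (XT.lf (nat_lit 0) (nat_lit 6267815854) (nat_lit 152) (nat_lit 32998414024) (nat_lit 0) (nat_lit 2294895800) (nat_lit 8) (nat_lit 5) (nat_lit 10) (nat_lit 4) (nat_lit 8) (nat_lit 4) (nat_lit 423) (nat_lit 250) (nat_lit 227)) (XT.lf (nat_lit 0) (nat_lit 10495914137) (nat_lit 152) (nat_lit 25778980258) (nat_lit 0) (nat_lit 6404138577) (nat_lit 8) (nat_lit 5) (nat_lit 10) (nat_lit 4) (nat_lit 8) (nat_lit 4) (nat_lit 424) (nat_lit 250) (nat_lit 226)))))) (XT.nd (nat_lit 468) (nat_lit 152) (nat_lit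 0) (XT.nd (nat_lit 234) (nat_lit 76) (nat_lit 0) (XT.nd (nat_lit 78) (nat_lit 0) (nat_lit 0) (XT.lf (nat_lit 0) (nat_lit 14788543797) (nat_lit 152) (nat_lit 18462435426) (nat_lit 0) (nat_lit 10581374542) (nat_lit 8) (nat_lit 5) (nat_lit 10) (nat_lit 4) (nat_lit 8) (nat_lit 4) (nat_lit 425) (nat_lit 250) (nat_lit 225)) (XT.nd (nat_lit 78) (nat_lit 0) (nat_lit 0) (XT.lf (nat_lit 0) (nat_lit 19149455675) (nat_lit 152) (nat_lit 11042386430) (nat_lit 0) (nat_lit 14830253705) (nat_lit 8) (nat_lit 5) (nat_lit 10) (nat_lit 4) (nat_lit 8) (nat_lit 4) (nat_lit 426) (nat_lit 250) (nat_lit 224)) (XT.lf (nat_lit 0) (nat_lit 23582460277) (nat_lit 152) (nat_lit 3512349732) (nat_lit 0) (nat_lit 19154488681) (nat_lit 8) (nat_lit 5) (nat_lit 10) (nat_lit 4) (nat_lit 8) (nat_lit 4) (nat_lit 427) (nat_lit 250) (nat_lit 223)))) (XT.nd (nat_lit 78) (nat_lit 0) (nat_lit 0) (XT.lf (nat_lit 0) (nat_lit 4216534077) (nat_lit 76)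 (nat_lit 23915428929) (nat_lit 76) (nat_lit 19381855755) (nat_lit 7) (nat_lit 4) (nat_lit 8) (nat_lit 5) (nat_lit 8) (nat_lit 4) (nat_lit 428) (nat_lit 250) (nat_lit 222)) (XT.nd (nat_lit 78) (nat_lit 0) (nat_lit 0) (XT.lf (nat_lit 0) (nat_lit 12141022271) (nat_lit 76) (nat_lit 20655992687) (nat_lit 76) (nat_lit 16019893709) (nat_lit 7) (nat_lit 4) (nat_lit 8) (nat_lit 5) (nat_lit 8) (nat_lit 4) (nat_lit 429) (nat_lit 250) (nat_lit 221)) (XT.lf (nat_lit 0) (nat_lit 20198136513) (nat_lit 76) (nat_lit 17349121078) (nat_lit 76) (nat_lit 12613482484) (nat_lit 7) (nat_lit 4) (nat_lit 8) (nat_lit 5) (nat_lit 8) (nat_lit 4) (nat_lit 430) (nat_lit 250) (nat_lit 220))))) (XT.nd (nat_lit 234) (nat_lit 152) (nat_lit 0) (XT.nd (nat_lit 78) (nat_lit 0) (nat_lit 0) (XT.lf (nat_lit 0) (nat_lit 28394917000) (nat_lit 76) (nat_lit 13991924603) (nat_lit 76) (nat_lit 9159645606) (nat_lit 7) (nat_lit 4) (nat_lit 8) (nat_lit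 5) (nat_lit 8) (nat_lit 4) (nat_lit 431) (nat_lit 250) (nat_lit 219)) (XT.nd (nat_lit 78) (nat_lit 0) (nat_lit 0) (XT.lf (nat_lit 0) (nat_lit 36738525967) (nat_lit 76) (nat_lit 10581469790) (nat_lit 76) (nat_lit 5655365158) (nat_lit 7) (nat_lit 4) (nat_lit 8) (nat_lit 5) (nat_lit 8) (nat_lit 4) (nat_lit 432) (nat_lit 250) (nat_lit 218)) (XT.lf (nat_lit 0) (nat_lit 45236253946) (nat_lit 76) (nat_lit 7114776628) (nat_lit 76) (nat_lit 2097579148) (nat_lit 7) (nat_lit 4) (nat_lit 8) (nat_lit 5) (nat_lit 8) (nat_lit 4) (nat_lit 433) (nat_lit 250) (nat_lit 217)))) (XT.nd (nat_lit 156) (nat_lit 0) (nat_lit 0) (XT.nd (nat_lit 78) (nat_lit 76) (nat_lit 0) (XT.lf (nat_lit 0) (nat_lit 1487222525) (nat_lit 152) (nat_lit 2086575413) (nat_lit 76) (nat_lit 52393285579) (nat_lit 6) (nat_lit 5) (nat_lit 8) (nat_lit 5) (nat_lit 7) (nat_lit 4) (nat_lit 434) (nat_lit 250) (nat_lit 216)) (XT.lf (nat_lit 0) (nat_lit 5141085108)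 (nat_lit 152) (nat_lit 52288505115) (nat_lit 0) (nat_lit 100792984) (nat_lit 5) (nat_lit 5) (nat_lit 7) (nat_lit 4) (nat_lit 5) (nat_lit 4) (nat_lit 435) (nat_lit 250) (nat_lit 215))) (XT.nd (nat_lit 78) (nat_lit 0) (nat_lit 0) (XT.lf (nat_lit 0) (nat_lit 8913615743) (nat_lit 152) (nat_lit 46434310637) (nat_lit 0) (nat_lit 3792388804) (nat_lit 5) (nat_lit 5) (nat_lit 7) (nat_lit 4) (nat_lit 5) (nat_lit 4) (nat_lit 436) (nat_lit 250) (nat_lit 214)) (XT.lf (nat_lit 0) (nat_lit 12753098124) (nat_lit 152) (nat_lit 40493544749) (nat_lit 0) (nat_lit 7553293692) (nat_lit 5) (nat_lit 5) (nat_lit 7) (nat_lit 4) (nat_lit 5) (nat_lit 4) (nat_lit 437) (nat_lit 250) (nat_lit 213))))))) (XT.nd (nat_lit 43758) (nat_lit 0) (nat_lit 684) (XT.nd (nat_lit 468) (nat_lit 76) (nat_lit 0) (XT.nd (nat_lit 234) (nat_lit 0) (nat_lit 0) (XT.nd (nat_lit 78) (nat_lit 0) (nat_lit 0) (XT.lf (nat_lit 0) (nat_lit 16662887136) (nat_lit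 152) (nat_lit 34461016492) (nat_lit 0) (nat_lit 11386793878) (nat_lit 5) (nat_lit 5) (nat_lit 7) (nat_lit 4) (nat_lit 5) (nat_lit 4) (nat_lit 438) (nat_lit 250) (nat_lit 212)) (XT.nd (nat_lit 78) (nat_lit 0) (nat_lit 0) (XT.lf (nat_lit 0) (nat_lit 20646399102) (nat_lit 152) (nat_lit 28331454723) (nat_lit 0) (nat_lit 15296239021) (nat_lit 5) (nat_lit 5) (nat_lit 7) (nat_lit 4) (nat_lit 5) (nat_lit 4) (nat_lit 439) (nat_lit 250) (nat_lit 211)) (XT.lf (nat_lit 0) (nat_lit 24707114758) (nat_lit 152) (nat_lit 22099503516) (nat_lit 0) (nat_lit 19285045141) (nat_lit 5) (nat_lit 5) (nat_lit 7) (nat_lit 4) (nat_lit 5) (nat_lit 4) (nat_lit 440) (nat_lit 250) (nat_lit 210)))) (XT.nd (nat_lit 78) (nat_lit 0) (nat_lit 0) (XT.lf (nat_lit 0) (nat_lit 28848582304) (nat_lit 152) (nat_lit 15759717475) (nat_lit 0) (nat_lit 23356697603) (nat_lit 5) (nat_lit 5) (nat_lit 7) (nat_lit 4) (nat_lit 5) (nat_lit 4) (nat_lit 441)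 (nat_lit 250) (nat_lit 209)) (XT.nd (nat_lit 78) (nat_lit 0) (nat_lit 0) (XT.lf (nat_lit 0) (nat_lit 33074420497) (nat_lit 152) (nat_lit 9306556983) (nat_lit 0) (nat_lit 27514754162) (nat_lit 5) (nat_lit 5) (nat_lit 7) (nat_lit 4) (nat_lit 5) (nat_lit 4) (nat_lit 442) (nat_lit 250) (nat_lit 208)) (XT.lf (nat_lit 0) (nat_lit 37388321818) (nat_lit 152) (nat_lit 2734383355) (nat_lit 0) (nat_lit 31762848070) (nat_lit 5) (nat_lit 5) (nat_lit 7) (nat_lit 4) (nat_lit 5) (nat_lit 4) (nat_lit 443) (nat_lit 250) (nat_lit 207))))) (XT.nd (nat_lit 234) (nat_lit 0) (nat_lit 0) (XT.nd (nat_lit 78) (nat_lit 0) (nat_lit 0) (XT.lf (nat_lit 0) (nat_lit 4041408521) (nat_lit 76) (nat_lit 37791495664) (nat_lit 76) (nat_lit 32102131224) (nat_lit 4) (nat_lit 4) (nat_lit 5) (nat_lit 5) (nat_lit 5) (nat_lit 4) (nat_lit 444) (nat_lit 250) (nat_lit 206)) (XT.nd (nat_lit 78) (nat_lit 0) (nat_lit 0) (XT.lf (nat_lit 0) (nat_lit 11004826831)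 (nat_lit 76) (nat_lit 35396430093) (nat_lit 76) (nat_lit 29645035856) (nat_lit 4) (nat_lit 4) (nat_lit 5) (nat_lit 5) (nat_lit 5) (nat_lit 4) (nat_lit 445) (nat_lit 250) (nat_lit 205)) (XT.lf (nat_lit 0) (nat_lit 18107536524) (nat_lit 76) (nat_lit 32963027595) (nat_lit 76) (nat_lit 27151410253) (nat_lit 4) (nat_lit 4) (nat_lit 5) (nat_lit 5) (nat_lit 5) (nat_lit 4) (nat_lit 446) (nat_lit 250) (nat_lit 204)))) (XT.nd (nat_lit 156) (nat_lit 0) (nat_lit 0) (XT.nd (nat_lit 78) (nat_lit 0) (nat_lit 0) (XT.lf (nat_lit 0) (nat_lit 25355743852) (nat_lit 76) (nat_lit 30489161896) (nat_lit 76) (nat_lit 24619075521) (nat_lit 4) (nat_lit 4) (nat_lit 5) (nat_lit 5) (nat_lit 5) (nat_lit 4) (nat_lit 447) (nat_lit 250) (nat_lit 203)) (XT.lf (nat_lit 0) (nat_lit 32755782200) (nat_lit 76) (nat_lit 27972671366) (nat_lit 76) (nat_lit 22045818939) (nat_lit 4) (nat_lit 4) (nat_lit 5) (nat_lit 5) (nat_lit 5) (nat_lit 4) (nat_lit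 448) (nat_lit 250) (nat_lit 202))) (XT.nd (nat_lit 78) (nat_lit 0) (nat_lit 0) (XT.lf (nat_lit 0) (nat_lit 40314117619) (nat_lit 76) (nat_lit 25411357129) (nat_lit 76) (nat_lit 19429392031) (nat_lit 4) (nat_lit 4) (nat_lit 5) (nat_lit 5) (nat_lit 5) (nat_lit 4) (nat_lit 449) (nat_lit 250) (nat_lit 201)) (XT.lf (nat_lit 0) (nat_lit 48037354483) (nat_lit 76) (nat_lit 22802981144) (nat_lit 76) (nat_lit 16767508598) (nat_lit 4) (nat_lit 4) (nat_lit 5) (nat_lit 5) (nat_lit 5) (nat_lit 4) (nat_lit 450) (nat_lit 250) (nat_lit 200)))))) (XT.nd (nat_lit 546) (nat_lit 228) (nat_lit 0) (XT.nd (nat_lit 234) (nat_lit 228) (nat_lit 0) (XT.nd (nat_lit 78) (nat_lit 76) (nat_lit 0) (XT.lf (nat_lit 0) (nat_lit 3400520180) (nat_lit 152) (nat_lit 4399158611) (nat_lit 0) (nat_lit 3400520180) (nat_lit 20) (nat_lit 5) (nat_lit 22) (nat_lit 4) (nat_lit 20) (nat_lit 4) (nat_lit 398) (nat_lit 251) (nat_lit 251)) (XT.nd (nat_lit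 78) (nat_lit 0) (nat_lit 0) (XT.lf (nat_lit 0) (nat_lit 787788458) (nat_lit 76) (nat_lit 11198940509) (nat_lit 76) (nat_lit 10927007706) (nat_lit 19) (nat_lit 4) (nat_lit 20) (nat_lit 5) (nat_lit 20) (nat_lit 4) (nat_lit 399) (nat_lit 251) (nat_lit 250)) (XT.lf (nat_lit 0) (nat_lit 10648023636) (nat_lit 76) (nat_lit 6665424610) (nat_lit 76) (nat_lit 6129479377) (nat_lit 19) (nat_lit 4) (nat_lit 20) (nat_lit 5) (nat_lit 20) (nat_lit 4) (nat_lit 400) (nat_lit 251) (nat_lit 249)))) (XT.nd (nat_lit 156) (nat_lit 76) (nat_lit 0) (XT.nd (nat_lit 78) (nat_lit 152) (nat_lit 0) (XT.lf (nat_lit 0) (nat_lit 20615900286) (nat_lit 76) (nat_lit 2083694315) (nat_lit 76) (nat_lit 1291426334) (nat_lit 19) (nat_lit 4) (nat_lit 20) (nat_lit 5) (nat_lit 20) (nat_lit 4) (nat_lit 401) (nat_lit 251) (nat_lit 248)) (XT.lf (nat_lit 0) (nat_lit 3606620955) (nat_lit 152) (nat_lit 18352459239) (nat_lit 0) (nat_lit 2595819967) (nat_lit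 17) (nat_lit 5) (nat_lit 19) (nat_lit 4) (nat_lit 17) (nat_lit 4) (nat_lit 402) (nat_lit 251) (nat_lit 247))) (XT.nd (nat_lit 78) (nat_lit 76) (nat_lit 0) (XT.lf (nat_lit 0) (nat_lit 8582560087) (nat_lit 152) (nat_lit 9216871497) (nat_lit 0) (nat_lit 7337187474) (nat_lit 17) (nat_lit 5) (nat_lit 19) (nat_lit 4) (nat_lit 17) (nat_lit 4) (nat_lit 403) (nat_lit 251) (nat_lit 246)) (XT.lf (nat_lit 0) (nat_lit 13474265) (nat_lit 76) (nat_lit 13599147825) (nat_lit 76) (nat_lit 12126035771) (nat_lit 16) (nat_lit 4) (nat_lit 17) (nat_lit 5) (nat_lit 17) (nat_lit 4) (nat_lit 404) (nat_lit 251) (nat_lit 245))))) (XT.nd (nat_lit 234) (nat_lit 76) (nat_lit 0) (XT.nd (nat_lit 78) (nat_lit 152) (nat_lit 0) (XT.lf (nat_lit 0) (nat_lit 9531855204) (nat_lit 76) (nat_lit 9260584305) (nat_lit 76) (nat_lit 7566365997) (nat_lit 16) (nat_lit 4) (nat_lit 17) (nat_lit 5) (nat_lit 17) (nat_lit 4) (nat_lit 405) (nat_lit 251) (nat_lit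 244)) (XT.nd (nat_lit 78) (nat_lit 152) (nat_lit 0) (XT.lf (nat_lit 0) (nat_lit 19163154533) (nat_lit 76) (nat_lit 4873022375) (nat_lit 76) (nat_lit 2964137801) (nat_lit 16) (nat_lit 4) (nat_lit 17) (nat_lit 5) (nat_lit 17) (nat_lit 4) (nat_lit 406) (nat_lit 251) (nat_lit 243)) (XT.lf (nat_lit 0) (nat_lit 1260443653) (nat_lit 76) (nat_lit 403468700) (nat_lit 152) (nat_lit 25998984354) (nat_lit 14) (nat_lit 5) (nat_lit 15) (nat_lit 5) (nat_lit 16) (nat_lit 4) (nat_lit 407) (nat_lit 251) (nat_lit 242)))) (XT.nd (nat_lit 156) (nat_lit 76) (nat_lit 0) (XT.nd (nat_lit 78) (nat_lit 0) (nat_lit 0) (XT.lf (nat_lit 0) (nat_lit 6402064554) (nat_lit 152) (nat_lit 17791512900) (nat_lit 0) (nat_lit 4149984973) (nat_lit 14) (nat_lit 5) (nat_lit 16) (nat_lit 4) (nat_lit 14) (nat_lit 4) (nat_lit 408) (nat_lit 251) (nat_lit 241)) (XT.lf (nat_lit 0) (nat_lit 11199500373) (nat_lit 152) (nat_lit 9090952433) (nat_lit 0) (nat_lit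 8756692596) (nat_lit 14) (nat_lit 5) (nat_lit 16) (nat_lit 4) (nat_lit 14) (nat_lit 4) (nat_lit 409) (nat_lit 251) (nat_lit 240))) (XT.nd (nat_lit 78) (nat_lit 76) (nat_lit 0) (XT.lf (nat_lit 0) (nat_lit 16056533359) (nat_lit 152) (nat_lit 289290834) (nat_lit 0) (nat_lit 13428552574) (nat_lit 14) (nat_lit 5) (nat_lit 16) (nat_lit 4) (nat_lit 14) (nat_lit 4) (nat_lit 410) (nat_lit 251) (nat_lit 239)) (XT.lf (nat_lit 0) (nat_lit 8792740708) (nat_lit 76) (nat_lit 12269188013) (nat_lit 76) (nat_lit 9461427610) (nat_lit 13) (nat_lit 4) (nat_lit 14) (nat_lit 5) (nat_lit 14) (nat_lit 4) (nat_lit 411) (nat_lit 251) (nat_lit 238))))))))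
noncomputable def xc13 : XT := (XT.nd (nat_lit 2028) (nat_lit 76) (nat_lit 0) (XT.nd (nat_lit 1014) (nat_lit 228) (nat_lit 0) (XT.nd (nat_lit 468) (nat_lit 228) (nat_lit 0) (XT.nd (nat_lit 234) (nat_lit 0) (nat_lit 0) (XT.nd (nat_lit 78) (nat_lit 152) (nat_lit 0) (XT.lf (nat_lit 0) (nat_lit 17999427568) (nat_lit 76) (nat_lit 8140016587) (nat_lit 76) (nat_lit 5157712865) (nat_lit 13) (nat_lit 4) (nat_lit 14) (nat_lit 5) (nat_lit 14) (nat_lit 4) (nat_lit 412) (nat_lit 251) (nat_lit 237)) (XT.nd (nat_lit 78) (nat_lit 152) (nat_lit 0) (XT.lf (nat_lit 0) (nat_lit 27333056969) (nat_lit 76) (nat_lit 3957623171) (nat_lit 76) (nat_lit 805859917) (nat_lit 13) (nat_lit 4) (nat_lit 14) (nat_lit 5) (nat_lit 14) (nat_lit 4) (nat_lit 413) (nat_lit 251) (nat_lit 236)) (XT.lf (nat_lit 0) (nat_lit 3568844225) (nat_lit 152) (nat_lit 29001940530) (nat_lit 0) (nat_lit 349148039) (nat_lit 11) (nat_lit 5) (nat_lit 13) (nat_lit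 4) (nat_lit 11) (nat_lit 4) (nat_lit 414) (nat_lit 251) (nat_lit 235)))) (XT.nd (nat_lit 78) (nat_lit 0) (nat_lit 0) (XT.lf (nat_lit 0) (nat_lit 8069464073) (nat_lit 152) (nat_lit 21003318634) (nat_lit 0) (nat_lit 4694688409) (nat_lit 11) (nat_lit 5) (nat_lit 13) (nat_lit 4) (nat_lit 11) (nat_lit 4) (nat_lit 415) (nat_lit 251) (nat_lit 234)) (XT.nd (nat_lit 78) (nat_lit 0) (nat_lit 0) (XT.lf (nat_lit 0) (nat_lit 12630451143) (nat_lit 152) (nat_lit 12907120152) (nat_lit 0) (nat_lit 9105112879) (nat_lit 11) (nat_lit 5) (nat_lit 13) (nat_lit 4) (nat_lit 11) (nat_lit 4) (nat_lit 416) (nat_lit 251) (nat_lit 233)) (XT.lf (nat_lit 0) (nat_lit 17255790762) (nat_lit 152) (nat_lit 4706270737) (nat_lit 0) (nat_lit 13584275217) (nat_lit 11) (nat_lit 5) (nat_lit 13) (nat_lit 4) (nat_lit 11) (nat_lit 4) (nat_lit 417) (nat_lit 251) (nat_lit 232))))) (XT.nd (nat_lit 234) (nat_lit 152) (nat_lit 0) (XT.nd (nat_lit 78) (nat_lit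 0) (nat_lit 0) (XT.lf (nat_lit 0) (nat_lit 3678169742) (nat_lit 76) (nat_lit 18306711565) (nat_lit 76) (nat_lit 14493276329) (nat_lit 10) (nat_lit 4) (nat_lit 11) (nat_lit 5) (nat_lit 11) (nat_lit 4) (nat_lit 418) (nat_lit 251) (nat_lit 231)) (XT.nd (nat_lit 78) (nat_lit 0) (nat_lit 0) (XT.lf (nat_lit 0) (nat_lit 12277724386) (nat_lit 76) (nat_lit 14556050259) (nat_lit 76) (nat_lit 10604828915) (nat_lit 10) (nat_lit 4) (nat_lit 11) (nat_lit 5) (nat_lit 11) (nat_lit 4) (nat_lit 419) (nat_lit 251) (nat_lit 230)) (XT.lf (nat_lit 0) (nat_lit 21006243353) (nat_lit 76) (nat_lit 10754324409) (nat_lit 76) (nat_lit 6669330145) (nat_lit 10) (nat_lit 4) (nat_lit 11) (nat_lit 5) (nat_lit 11) (nat_lit 4) (nat_lit 420) (nat_lit 251) (nat_lit 229)))) (XT.nd (nat_lit 156) (nat_lit 76) (nat_lit 0) (XT.nd (nat_lit 78) (nat_lit 76) (nat_lit 0) (XT.lf (nat_lit 0) (nat_lit 29871353504) (nat_lit 76) (nat_lit 6898212119) (nat_lit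 76) (nat_lit 2683341234) (nat_lit 10) (nat_lit 4) (nat_lit 11) (nat_lit 5) (nat_lit 11) (nat_lit 4) (nat_lit 421) (nat_lit 251) (nat_lit 228)) (XT.lf (nat_lit 0) (nat_lit 1330148163) (nat_lit 152) (nat_lit 1640763920) (nat_lit 76) (nat_lit 37537221001) (nat_lit 9) (nat_lit 5) (nat_lit 11) (nat_lit 5) (nat_lit 10) (nat_lit 4) (nat_lit 422) (nat_lit 251) (nat_lit 227))) (XT.nd (nat_lit 78) (nat_lit 0) (nat_lit 0) (XT.lf (nat_lit 0) (nat_lit 5420989897) (nat_lit 152) (nat_lit 35085304339) (nat_lit 0) (nat_lit 1087605563) (nat_lit 8) (nat_lit 5) (nat_lit 10) (nat_lit 4) (nat_lit 8) (nat_lit 4) (nat_lit 423) (nat_lit 251) (nat_lit 226)) (XT.lf (nat_lit 0) (nat_lit 9618392825) (nat_lit 152) (nat_lit 27924723748) (nat_lit 0) (nat_lit 5169614795) (nat_lit 8) (nat_lit 5) (nat_lit 10) (nat_lit 4) (nat_lit 8) (nat_lit 4) (nat_lit 424) (nat_lit 251) (nat_lit 225)))))) (XT.nd (nat_lit 468) (nat_lit 152) (nat_lit 0)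 (XT.nd (nat_lit 234) (nat_lit 76) (nat_lit 0) (XT.nd (nat_lit 78) (nat_lit 0) (nat_lit 0) (XT.lf (nat_lit 0) (nat_lit 13881221169) (nat_lit 152) (nat_lit 20665317922) (nat_lit 0) (nat_lit 9320410425) (nat_lit 8) (nat_lit 5) (nat_lit 10) (nat_lit 4) (nat_lit 8) (nat_lit 4) (nat_lit 425) (nat_lit 251) (nat_lit 224)) (XT.nd (nat_lit 78) (nat_lit 0) (nat_lit 0) (XT.lf (nat_lit 0) (nat_lit 18213199730) (nat_lit 152) (nat_lit 13300743688) (nat_lit 0) (nat_lit 13543619361) (nat_lit 8) (nat_lit 5) (nat_lit 10) (nat_lit 4) (nat_lit 8) (nat_lit 4) (nat_lit 426) (nat_lit 251) (nat_lit 223)) (XT.lf (nat_lit 0) (nat_lit 22618113733) (nat_lit 152) (nat_lit 5824565984) (nat_lit 0) (nat_lit 17842931785) (nat_lit 8) (nat_lit 5) (nat_lit 10) (nat_lit 4) (nat_lit 8) (nat_lit 4) (nat_lit 427) (nat_lit 251) (nat_lit 222)))) (XT.nd (nat_lit 78) (nat_lit 0) (nat_lit 0) (XT.lf (nat_lit 0) (nat_lit 1804969225) (nat_lit 76) (nat_lit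 25312193374) (nat_lit 76) (nat_lit 20434485623) (nat_lit 7) (nat_lit 4) (nat_lit 8) (nat_lit 5) (nat_lit 8) (nat_lit 4) (nat_lit 428) (nat_lit 251) (nat_lit 221)) (XT.nd (nat_lit 78) (nat_lit 0) (nat_lit 0) (XT.lf (nat_lit 0) (nat_lit 9677679785) (nat_lit 76) (nat_lit 22077558965) (nat_lit 76) (nat_lit 17100311598) (nat_lit 7) (nat_lit 4) (nat_lit 8) (nat_lit 5) (nat_lit 8) (nat_lit 4) (nat_lit 429) (nat_lit 251) (nat_lit 220)) (XT.lf (nat_lit 0) (nat_lit 17684524479) (nat_lit 76) (nat_lit 18794766806) (nat_lit 76) (nat_lit 13720879035) (nat_lit 7) (nat_lit 4) (nat_lit 8) (nat_lit 5) (nat_lit 8) (nat_lit 4) (nat_lit 430) (nat_lit 251) (nat_lit 219))))) (XT.nd (nat_lit 234) (nat_lit 152) (nat_lit 0) (XT.nd (nat_lit 78) (nat_lit 0) (nat_lit 0) (XT.lf (nat_lit 0) (nat_lit 25832499579) (nat_lit 76) (nat_lit 15460948437) (nat_lit 76) (nat_lit 10293235032) (nat_lit 7) (nat_lit 4) (nat_lit 8) (nat_lit 5) (nat_lit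 8) (nat_lit 4) (nat_lit 431) (nat_lit 251) (nat_lit 218)) (XT.nd (nat_lit 78) (nat_lit 0) (nat_lit 0) (XT.lf (nat_lit 0) (nat_lit 34128724675) (nat_lit 76) (nat_lit 12073190814) (nat_lit 76) (nat_lit 6814384560) (nat_lit 7) (nat_lit 4) (nat_lit 8) (nat_lit 5) (nat_lit 8) (nat_lit 4) (nat_lit 432) (nat_lit 251) (nat_lit 217)) (XT.lf (nat_lit 0) (nat_lit 42580448897) (nat_lit 76) (nat_lit 8628533760) (nat_lit 76) (nat_lit 3281287846) (nat_lit 7) (nat_lit 4) (nat_lit 8) (nat_lit 5) (nat_lit 8) (nat_lit 4) (nat_lit 433) (nat_lit 251) (nat_lit 216)))) (XT.nd (nat_lit 156) (nat_lit 0) (nat_lit 0) (XT.nd (nat_lit 78) (nat_lit 76) (nat_lit 0) (XT.lf (nat_lit 0) (nat_lit 303109800) (nat_lit 152) (nat_lit 4817796765) (nat_lit 76) (nat_lit 50888886629) (nat_lit 6) (nat_lit 5) (nat_lit 8) (nat_lit 5) (nat_lit 7) (nat_lit 4) (nat_lit 434) (nat_lit 251) (nat_lit 215)) (XT.lf (nat_lit 0) (nat_lit 2412626329) (nat_lit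 76) (nat_lit 1493333695) (nat_lit 152) (nat_lit 53668665625) (nat_lit 5) (nat_lit 5) (nat_lit 6) (nat_lit 5) (nat_lit 7) (nat_lit 4) (nat_lit 435) (nat_lit 251) (nat_lit 214))) (XT.nd (nat_lit 78) (nat_lit 0) (nat_lit 0) (XT.lf (nat_lit 0) (nat_lit 7641365294) (nat_lit 152) (nat_lit 49337319180) (nat_lit 0) (nat_lit 2206989238) (nat_lit 5) (nat_lit 5) (nat_lit 7) (nat_lit 4) (nat_lit 5) (nat_lit 4) (nat_lit 436) (nat_lit 251) (nat_lit 213)) (XT.lf (nat_lit 0) (nat_lit 11458740364) (nat_lit 152) (nat_lit 43439144725) (nat_lit 0) (nat_lit 5948075481) (nat_lit 5) (nat_lit 5) (nat_lit 7) (nat_lit 4) (nat_lit 5) (nat_lit 4) (nat_lit 437) (nat_lit 251) (nat_lit 212))))))) (XT.nd (nat_lit 43602) (nat_lit 0) (nat_lit 760) (XT.nd (nat_lit 468) (nat_lit 76) (nat_lit 0) (XT.nd (nat_lit 234) (nat_lit 0) (nat_lit 0) (XT.nd (nat_lit 78) (nat_lit 0) (nat_lit 0) (XT.lf (nat_lit 0) (nat_lit 15347065969) (nat_lit 152) (nat_lit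 37447967372) (nat_lit 0) (nat_lit 9762334264) (nat_lit 5) (nat_lit 5) (nat_lit 7) (nat_lit 4) (nat_lit 5) (nat_lit 4) (nat_lit 438) (nat_lit 251) (nat_lit 211)) (XT.nd (nat_lit 78) (nat_lit 0) (nat_lit 0) (XT.lf (nat_lit 0) (nat_lit 19309739674) (nat_lit 152) (nat_lit 31358552113) (nat_lit 0) (nat_lit 13653098433) (nat_lit 5) (nat_lit 5) (nat_lit 7) (nat_lit 4) (nat_lit 5) (nat_lit 4) (nat_lit 439) (nat_lit 251) (nat_lit 210)) (XT.lf (nat_lit 0) (nat_lit 23350224011) (nat_lit 152) (nat_lit 25165578099) (nat_lit 0) (nat_lit 17623767685) (nat_lit 5) (nat_lit 5) (nat_lit 7) (nat_lit 4) (nat_lit 5) (nat_lit 4) (nat_lit 440) (nat_lit 251) (nat_lit 209)))) (XT.nd (nat_lit 78) (nat_lit 0) (nat_lit 0) (XT.lf (nat_lit 0) (nat_lit 27472049498) (nat_lit 152) (nat_lit 18863633994) (nat_lit 0) (nat_lit 21677811538) (nat_lit 5) (nat_lit 5) (nat_lit 7) (nat_lit 4) (nat_lit 5) (nat_lit 4) (nat_lit 441) (nat_lit 251) (nat_lit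 208)) (XT.nd (nat_lit 78) (nat_lit 0) (nat_lit 0) (XT.lf (nat_lit 0) (nat_lit 31678817731) (nat_lit 152) (nat_lit 12447213246) (nat_lit 0) (nat_lit 25818772359) (nat_lit 5) (nat_lit 5) (nat_lit 7) (nat_lit 4) (nat_lit 5) (nat_lit 4) (nat_lit 442) (nat_lit 251) (nat_lit 207)) (XT.lf (nat_lit 0) (nat_lit 35974204528) (nat_lit 152) (nat_lit 5910709271) (nat_lit 0) (nat_lit 30050268464) (nat_lit 5) (nat_lit 5) (nat_lit 7) (nat_lit 4) (nat_lit 5) (nat_lit 4) (nat_lit 443) (nat_lit 251) (nat_lit 206))))) (XT.nd (nat_lit 234) (nat_lit 0) (nat_lit 0) (XT.nd (nat_lit 78) (nat_lit 0) (nat_lit 0) (XT.lf (nat_lit 0) (nat_lit 766547540) (nat_lit 76) (nat_lit 39602784122) (nat_lit 76) (nat_lit 33616818260) (nat_lit 4) (nat_lit 4) (nat_lit 5) (nat_lit 5) (nat_lit 5) (nat_lit 4) (nat_lit 444) (nat_lit 251) (nat_lit 205)) (XT.nd (nat_lit 78) (nat_lit 0) (nat_lit 0) (XT.lf (nat_lit 0) (nat_lit 7695674635) (nat_lit 76) (nat_lit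 37224228423) (nat_lit 76) (nat_lit 31178039457) (nat_lit 4) (nat_lit 4) (nat_lit 5) (nat_lit 5) (nat_lit 5) (nat_lit 4) (nat_lit 445) (nat_lit 251) (nat_lit 204)) (XT.lf (nat_lit 0) (nat_lit 14765091887) (nat_lit 76) (nat_lit 34806854927) (nat_lit 76) (nat_lit 28702196927) (nat_lit 4) (nat_lit 4) (nat_lit 5) (nat_lit 5) (nat_lit 5) (nat_lit 4) (nat_lit 446) (nat_lit 251) (nat_lit 203)))) (XT.nd (nat_lit 156) (nat_lit 0) (nat_lit 0) (XT.nd (nat_lit 78) (nat_lit 0) (nat_lit 0) (XT.lf (nat_lit 0) (nat_lit 21980976456) (nat_lit 76) (nat_lit 32348551366) (nat_lit 76) (nat_lit 26187127314) (nat_lit 4) (nat_lit 4) (nat_lit 5) (nat_lit 5) (nat_lit 5) (nat_lit 4) (nat_lit 447) (nat_lit 251) (nat_lit 202)) (XT.lf (nat_lit 0) (nat_lit 29349633484) (nat_lit 76) (nat_lit 29847169707) (nat_lit 76) (nat_lit 23630632984) (nat_lit 4) (nat_lit 4) (nat_lit 5) (nat_lit 5) (nat_lit 5) (nat_lit 4) (nat_lit 448) (nat_lit 251)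 (nat_lit 201))) (XT.nd (nat_lit 78) (nat_lit 0) (nat_lit 0) (XT.lf (nat_lit 0) (nat_lit 36877501604) (nat_lit 76) (nat_lit 27300524278) (nat_lit 76) (nat_lit 21030480106) (nat_lit 4) (nat_lit 4) (nat_lit 5) (nat_lit 5) (nat_lit 5) (nat_lit 4) (nat_lit 449) (nat_lit 251) (nat_lit 200)) (XT.lf (nat_lit 0) (nat_lit 44571158564) (nat_lit 76) (nat_lit 24706389854) (nat_lit 76) (nat_lit 18384396703) (nat_lit 4) (nat_lit 4) (nat_lit 5) (nat_lit 5) (nat_lit 5) (nat_lit 4) (nat_lit 450) (nat_lit 251) (nat_lit 199)))))) (XT.nd (nat_lit 546) (nat_lit 228) (nat_lit 0) (XT.nd (nat_lit 234) (nat_lit 228) (nat_lit 0) (XT.nd (nat_lit 78) (nat_lit 152) (nat_lit 0) (XT.lf (nat_lit 0) (nat_lit 7662407655) (nat_lit 76) (nat_lit 1524226987) (nat_lit 76) (nat_lit 1524226987) (nat_lit 22) (nat_lit 4) (nat_lit 23) (nat_lit 5) (nat_lit 23) (nat_lit 4) (nat_lit 396) (nat_lit 252) (nat_lit 252)) (XT.nd (nat_lit 78) (nat_lit 0) (nat_lit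 0) (XT.lf (nat_lit 0) (nat_lit 1952311443) (nat_lit 152) (nat_lit 18280319706) (nat_lit 0) (nat_lit 1672220655) (nat_lit 20) (nat_lit 5) (nat_lit 22) (nat_lit 4) (nat_lit 20) (nat_lit 4) (nat_lit 397) (nat_lit 252) (nat_lit 251)) (XT.lf (nat_lit 0) (nat_lit 7029619624) (nat_lit 152) (nat_lit 8894735679) (nat_lit 0) (nat_lit 6477596034) (nat_lit 20) (nat_lit 5) (nat_lit 22) (nat_lit 4) (nat_lit 20) (nat_lit 4) (nat_lit 398) (nat_lit 252) (nat_lit 250)))) (XT.nd (nat_lit 156) (nat_lit 152) (nat_lit 0) (XT.nd (nat_lit 78) (nat_lit 0) (nat_lit 0) (XT.lf (nat_lit 0) (nat_lit 593977907) (nat_lit 76) (nat_lit 11569456109) (nat_lit 76) (nat_lit 10753420089) (nat_lit 19) (nat_lit 4) (nat_lit 20) (nat_lit 5) (nat_lit 20) (nat_lit 4) (nat_lit 399) (nat_lit 252) (nat_lit 249)) (XT.lf (nat_lit 0) (nat_lit 10361520679) (nat_lit 76) (nat_lit 7079187048) (nat_lit 76) (nat_lit 6006828280) (nat_lit 19) (nat_lit 4) (nat_lit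 20) (nat_lit 5) (nat_lit 20) (nat_lit 4) (nat_lit 400) (nat_lit 252) (nat_lit 248))) (XT.nd (nat_lit 78) (nat_lit 152) (nat_lit 0) (XT.lf (nat_lit 0) (nat_lit 20239404702) (nat_lit 76) (nat_lit 2539443973) (nat_lit 76) (nat_lit 1218228168) (nat_lit 19) (nat_lit 4) (nat_lit 20) (nat_lit 5) (nat_lit 20) (nat_lit 4) (nat_lit 401) (nat_lit 252) (nat_lit 247)) (XT.lf (nat_lit 0) (nat_lit 3621875690) (nat_lit 152) (nat_lit 18836191390) (nat_lit 0) (nat_lit 2104570274) (nat_lit 17) (nat_lit 5) (nat_lit 19) (nat_lit 4) (nat_lit 17) (nat_lit 4) (nat_lit 402) (nat_lit 252) (nat_lit 246))))) (XT.nd (nat_lit 234) (nat_lit 152) (nat_lit 0) (XT.nd (nat_lit 78) (nat_lit 76) (nat_lit 0) (XT.lf (nat_lit 0) (nat_lit 8550876485) (nat_lit 152) (nat_lit 9789063029) (nat_lit 0) (nat_lit 6805831627) (nat_lit 17) (nat_lit 5) (nat_lit 19) (nat_lit 4) (nat_lit 17) (nat_lit 4) (nat_lit 403) (nat_lit 252) (nat_lit 245)) (XT.nd (nat_lit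 78) (nat_lit 76) (nat_lit 0) (XT.lf (nat_lit 0) (nat_lit 13535237765) (nat_lit 152) (nat_lit 644863091) (nat_lit 0) (nat_lit 11569086654) (nat_lit 17) (nat_lit 5) (nat_lit 19) (nat_lit 4) (nat_lit 17) (nat_lit 4) (nat_lit 404) (nat_lit 252) (nat_lit 244)) (XT.lf (nat_lit 0) (nat_lit 8775642902) (nat_lit 76) (nat_lit 9888028743) (nat_lit 76) (nat_lit 7707211366) (nat_lit 16) (nat_lit 4) (nat_lit 17) (nat_lit 5) (nat_lit 17) (nat_lit 4) (nat_lit 405) (nat_lit 252) (nat_lit 243)))) (XT.nd (nat_lit 156) (nat_lit 0) (nat_lit 0) (XT.nd (nat_lit 78) (nat_lit 152) (nat_lit 0) (XT.lf (nat_lit 0) (nat_lit 18324378246) (nat_lit 76) (nat_lit 5539281914) (nat_lit 76) (nat_lit 3150050687) (nat_lit 16) (nat_lit 4) (nat_lit 17) (nat_lit 5) (nat_lit 17) (nat_lit 4) (nat_lit 406) (nat_lit 252) (nat_lit 242)) (XT.lf (nat_lit 0) (nat_lit 310502729) (nat_lit 76) (nat_lit 1119092098) (nat_lit 152) (nat_lit 26248318419) (nat_lit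 14) (nat_lit 5) (nat_lit 15) (nat_lit 5) (nat_lit 16) (nat_lit 4) (nat_lit 407) (nat_lit 252) (nat_lit 241))) (XT.nd (nat_lit 78) (nat_lit 0) (nat_lit 0) (XT.lf (nat_lit 0) (nat_lit 6118081966) (nat_lit 152) (nat_lit 18830730837) (nat_lit 0) (nat_lit 3411261758) (nat_lit 14) (nat_lit 5) (nat_lit 16) (nat_lit 4) (nat_lit 14) (nat_lit 4) (nat_lit 408) (nat_lit 252) (nat_lit 240)) (XT.lf (nat_lit 0) (nat_lit 10873977929) (nat_lit 152) (nat_lit 10208946569) (nat_lit 0) (nat_lit 7981984714) (nat_lit 14) (nat_lit 5) (nat_lit 16) (nat_lit 4) (nat_lit 14) (nat_lit 4) (nat_lit 409) (nat_lit 252) (nat_lit 239))))))))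
noncomputable def xc14 : XT := (XT.nd (nat_lit 2028) (nat_lit 152) (nat_lit 0) (XT.nd (nat_lit 1014) (nat_lit 228) (nat_lit 0) (XT.nd (nat_lit 468) (nat_lit 152) (nat_lit 0) (XT.nd (nat_lit 234) (nat_lit 152) (nat_lit 0) (XT.nd (nat_lit 78) (nat_lit 76) (nat_lit 0) (XT.lf (nat_lit 0) (nat_lit 15690680956) (nat_lit 152) (nat_lit 1483766716) (nat_lit 0) (nat_lit 12618908123) (nat_lit 14) (nat_lit 5) (nat_lit 16) (nat_lit 4) (nat_lit 14) (nat_lit 4) (nat_lit 410) (nat_lit 252) (nat_lit 238)) (XT.nd (nat_lit 78) (nat_lit 0) (nat_lit 0) (XT.lf (nat_lit 0) (nat_lit 7498760489) (nat_lit 76) (nat_lit 13145722001) (nat_lit 76) (nat_lit 9899405850) (nat_lit 13) (nat_lit 4) (nat_lit 14) (nat_lit 5) (nat_lit 14) (nat_lit 4) (nat_lit 411) (nat_lit 252) (nat_lit 237)) (XT.lf (nat_lit 0) (nat_lit 16631921208) (nat_lit 76) (nat_lit 9051355084) (nat_lit 76) (nat_lit 5635579400) (nat_lit 13) (nat_lit 4) (nat_lit 14) (nat_lit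 5) (nat_lit 14) (nat_lit 4) (nat_lit 412) (nat_lit 252) (nat_lit 236)))) (XT.nd (nat_lit 78) (nat_lit 152) (nat_lit 0) (XT.lf (nat_lit 0) (nat_lit 25894166006) (nat_lit 76) (nat_lit 4902752454) (nat_lit 76) (nat_lit 1322452952) (nat_lit 13) (nat_lit 4) (nat_lit 14) (nat_lit 5) (nat_lit 14) (nat_lit 4) (nat_lit 413) (nat_lit 252) (nat_lit 235)) (XT.nd (nat_lit 78) (nat_lit 0) (nat_lit 0) (XT.lf (nat_lit 0) (nat_lit 2364331436) (nat_lit 76) (nat_lit 642743834) (nat_lit 152) (nat_lit 29937500136) (nat_lit 11) (nat_lit 5) (nat_lit 12) (nat_lit 5) (nat_lit 13) (nat_lit 4) (nat_lit 414) (nat_lit 252) (nat_lit 234)) (XT.lf (nat_lit 0) (nat_lit 7464742596) (nat_lit 152) (nat_lit 22645582579) (nat_lit 0) (nat_lit 3683081585) (nat_lit 11) (nat_lit 5) (nat_lit 13) (nat_lit 4) (nat_lit 11) (nat_lit 4) (nat_lit 415) (nat_lit 252) (nat_lit 233))))) (XT.nd (nat_lit 234) (nat_lit 76) (nat_lit 0) (XT.nd (nat_lit 78) (nat_lit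 76) (nat_lit 0) (XT.lf (nat_lit 0) (nat_lit 11990026679) (nat_lit 152) (nat_lit 14617480167) (nat_lit 0) (nat_lit 8062188386) (nat_lit 11) (nat_lit 5) (nat_lit 13) (nat_lit 4) (nat_lit 11) (nat_lit 4) (nat_lit 416) (nat_lit 252) (nat_lit 232)) (XT.nd (nat_lit 78) (nat_lit 76) (nat_lit 0) (XT.lf (nat_lit 0) (nat_lit 16580703205) (nat_lit 152) (nat_lit 6482743440) (nat_lit 0) (nat_lit 12510945222) (nat_lit 11) (nat_lit 5) (nat_lit 13) (nat_lit 4) (nat_lit 11) (nat_lit 4) (nat_lit 417) (nat_lit 252) (nat_lit 231)) (XT.lf (nat_lit 0) (nat_lit 1800877223) (nat_lit 76) (nat_lit 19457217354) (nat_lit 76) (nat_lit 15249673263) (nat_lit 10) (nat_lit 4) (nat_lit 11) (nat_lit 5) (nat_lit 11) (nat_lit 4) (nat_lit 418) (nat_lit 252) (nat_lit 230)))) (XT.nd (nat_lit 156) (nat_lit 76) (nat_lit 0) (XT.nd (nat_lit 78) (nat_lit 0) (nat_lit 0) (XT.lf (nat_lit 0) (nat_lit 10336874076) (nat_lit 76) (nat_lit 15736829593) (nat_lit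 76) (nat_lit 11395512581) (nat_lit 10) (nat_lit 4) (nat_lit 11) (nat_lit 5) (nat_lit 11) (nat_lit 4) (nat_lit 419) (nat_lit 252) (nat_lit 229)) (XT.lf (nat_lit 0) (nat_lit 19003686449) (nat_lit 76) (nat_lit 11964495534) (nat_lit 76) (nat_lit 7493301901) (nat_lit 10) (nat_lit 4) (nat_lit 11) (nat_lit 5) (nat_lit 11) (nat_lit 4) (nat_lit 420) (nat_lit 252) (nat_lit 228))) (XT.nd (nat_lit 78) (nat_lit 76) (nat_lit 0) (XT.lf (nat_lit 0) (nat_lit 27808887287) (nat_lit 76) (nat_lit 8136918963) (nat_lit 76) (nat_lit 3539631524) (nat_lit 10) (nat_lit 4) (nat_lit 11) (nat_lit 5) (nat_lit 11) (nat_lit 4) (nat_lit 421) (nat_lit 252) (nat_lit 227)) (XT.lf (nat_lit 0) (nat_lit 459802246) (nat_lit 152) (nat_lit 3786310050) (nat_lit 76) (nat_lit 36295725104) (nat_lit 9) (nat_lit 5) (nat_lit 11) (nat_lit 5) (nat_lit 10) (nat_lit 4) (nat_lit 422) (nat_lit 252) (nat_lit 226)))))) (XT.nd (nat_lit 468) (nat_lit 152) (nat_lit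 0) (XT.nd (nat_lit 234) (nat_lit 0) (nat_lit 0) (XT.nd (nat_lit 78) (nat_lit 0) (nat_lit 0) (XT.lf (nat_lit 0) (nat_lit 4273127533) (nat_lit 76) (nat_lit 215390521) (nat_lit 152) (nat_lit 37140953254) (nat_lit 8) (nat_lit 5) (nat_lit 9) (nat_lit 5) (nat_lit 10) (nat_lit 4) (nat_lit 423) (nat_lit 252) (nat_lit 225)) (XT.nd (nat_lit 78) (nat_lit 0) (nat_lit 0) (XT.lf (nat_lit 0) (nat_lit 8654049201) (nat_lit 152) (nat_lit 30250831725) (nat_lit 0) (nat_lit 3844381421) (nat_lit 8) (nat_lit 5) (nat_lit 10) (nat_lit 4) (nat_lit 8) (nat_lit 4) (nat_lit 424) (nat_lit 252) (nat_lit 224)) (XT.lf (nat_lit 0) (nat_lit 12887944228) (nat_lit 152) (nat_lit 23046900661) (nat_lit 0) (nat_lit 7969506822) (nat_lit 8) (nat_lit 5) (nat_lit 10) (nat_lit 4) (nat_lit 8) (nat_lit 4) (nat_lit 425) (nat_lit 252) (nat_lit 223)))) (XT.nd (nat_lit 78) (nat_lit 0) (nat_lit 0) (XT.lf (nat_lit 0) (nat_lit 17191832191) (nat_lit 152) (nat_lit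 15736185420) (nat_lit 0) (nat_lit 12167793207) (nat_lit 8) (nat_lit 5) (nat_lit 10) (nat_lit 4) (nat_lit 8) (nat_lit 4) (nat_lit 426) (nat_lit 252) (nat_lit 222)) (XT.nd (nat_lit 78) (nat_lit 0) (nat_lit 0) (XT.lf (nat_lit 0) (nat_lit 21569473768) (nat_lit 152) (nat_lit 8312298000) (nat_lit 0) (nat_lit 16442908979) (nat_lit 8) (nat_lit 5) (nat_lit 10) (nat_lit 4) (nat_lit 8) (nat_lit 4) (nat_lit 427) (nat_lit 252) (nat_lit 221)) (XT.lf (nat_lit 0) (nat_lit 26024694082) (nat_lit 152) (nat_lit 768751508) (nat_lit 0) (nat_lit 20798589678) (nat_lit 8) (nat_lit 5) (nat_lit 10) (nat_lit 4) (nat_lit 8) (nat_lit 4) (nat_lit 428) (nat_lit 252) (nat_lit 220))))) (XT.nd (nat_lit 234) (nat_lit 76) (nat_lit 0) (XT.nd (nat_lit 78) (nat_lit 0) (nat_lit 0) (XT.lf (nat_lit 0) (nat_lit 7038389840) (nat_lit 76) (nat_lit 23590653514) (nat_lit 76) (nat_lit 18267908706) (nat_lit 7) (nat_lit 4) (nat_lit 8) (nat_lit 5) (nat_lit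 8) (nat_lit 4) (nat_lit 429) (nat_lit 252) (nat_lit 219)) (XT.nd (nat_lit 78) (nat_lit 0) (nat_lit 0) (XT.lf (nat_lit 0) (nat_lit 14996429148) (nat_lit 76) (nat_lit 20331239461) (nat_lit 76) (nat_lit 14914669019) (nat_lit 7) (nat_lit 4) (nat_lit 8) (nat_lit 5) (nat_lit 8) (nat_lit 4) (nat_lit 430) (nat_lit 252) (nat_lit 218)) (XT.lf (nat_lit 0) (nat_lit 23097020378) (nat_lit 76) (nat_lit 17020118282) (nat_lit 76) (nat_lit 11512454992) (nat_lit 7) (nat_lit 4) (nat_lit 8) (nat_lit 5) (nat_lit 8) (nat_lit 4) (nat_lit 431) (nat_lit 252) (nat_lit 217)))) (XT.nd (nat_lit 156) (nat_lit 76) (nat_lit 0) (XT.nd (nat_lit 78) (nat_lit 0) (nat_lit 0) (XT.lf (nat_lit 0) (nat_lit 31347241717) (nat_lit 76) (nat_lit 13654396766) (nat_lit 76) (nat_lit 8058293816) (nat_lit 7) (nat_lit 4) (nat_lit 8) (nat_lit 5) (nat_lit 8) (nat_lit 4) (nat_lit 432) (nat_lit 252) (nat_lit 216)) (XT.lf (nat_lit 0) (nat_lit 39754302096) (nat_lit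 76) (nat_lit 10231133991) (nat_lit 76) (nat_lit 4549167294) (nat_lit 7) (nat_lit 4) (nat_lit 8) (nat_lit 5) (nat_lit 8) (nat_lit 4) (nat_lit 433) (nat_lit 252) (nat_lit 215))) (XT.nd (nat_lit 78) (nat_lit 76) (nat_lit 0) (XT.lf (nat_lit 0) (nat_lit 48325547490) (nat_lit 76) (nat_lit 6747338756) (nat_lit 76) (nat_lit 982009198) (nat_lit 7) (nat_lit 4) (nat_lit 8) (nat_lit 5) (nat_lit 8) (nat_lit 4) (nat_lit 434) (nat_lit 252) (nat_lit 214)) (XT.lf (nat_lit 0) (nat_lit 2594658612) (nat_lit 152) (nat_lit 579107390) (nat_lit 76) (nat_lit 54447607760) (nat_lit 6) (nat_lit 5) (nat_lit 8) (nat_lit 5) (nat_lit 7) (nat_lit 4) (nat_lit 435) (nat_lit 252) (nat_lit 213))))))) (XT.nd (nat_lit 1014) (nat_lit 0) (nat_lit 0) (XT.nd (nat_lit 468) (nat_lit 76) (nat_lit 0) (XT.nd (nat_lit 234) (nat_lit 0) (nat_lit 0) (XT.nd (nat_lit 78) (nat_lit 0) (nat_lit 0) (XT.lf (nat_lit 0) (nat_lit 6286069492) (nat_lit 152) (nat_lit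 52413878587) (nat_lit 0) (nat_lit 533795835) (nat_lit 5) (nat_lit 5) (nat_lit 7) (nat_lit 4) (nat_lit 5) (nat_lit 4) (nat_lit 436) (nat_lit 252) (nat_lit 212)) (XT.nd (nat_lit 78) (nat_lit 0) (nat_lit 0) (XT.lf (nat_lit 0) (nat_lit 10081981154) (nat_lit 152) (nat_lit 46557055036) (nat_lit 0) (nat_lit 4255640676) (nat_lit 5) (nat_lit 5) (nat_lit 7) (nat_lit 4) (nat_lit 5) (nat_lit 4) (nat_lit 437) (nat_lit 252) (nat_lit 211)) (XT.lf (nat_lit 0) (nat_lit 13949468499) (nat_lit 152) (nat_lit 40606024193) (nat_lit 0) (nat_lit 8051218484) (nat_lit 5) (nat_lit 5) (nat_lit 7) (nat_lit 4) (nat_lit 5) (nat_lit 4) (nat_lit 438) (nat_lit 252) (nat_lit 210)))) (XT.nd (nat_lit 78) (nat_lit 0) (nat_lit 0) (XT.lf (nat_lit 0) (nat_lit 17891910884) (nat_lit 152) (nat_lit 34555586128) (nat_lit 0) (nat_lit 11923845785) (nat_lit 5) (nat_lit 5) (nat_lit 7) (nat_lit 4) (nat_lit 5) (nat_lit 4) (nat_lit 439) (nat_lit 252) (nat_lit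 209)) (XT.nd (nat_lit 78) (nat_lit 0) (nat_lit 0) (XT.lf (nat_lit 0) (nat_lit 21912753162) (nat_lit 152) (nat_lit 28400454050) (nat_lit 0) (nat_lit 15876906428) (nat_lit 5) (nat_lit 5) (nat_lit 7) (nat_lit 4) (nat_lit 5) (nat_lit 4) (nat_lit 440) (nat_lit 252) (nat_lit 208)) (XT.lf (nat_lit 0) (nat_lit 26015508689) (nat_lit 152) (nat_lit 22135249688) (nat_lit 0) (nat_lit 19913854543) (nat_lit 5) (nat_lit 5) (nat_lit 7) (nat_lit 4) (nat_lit 5) (nat_lit 4) (nat_lit 441) (nat_lit 252) (nat_lit 207))))) (XT.nd (nat_lit 234) (nat_lit 76) (nat_lit 0) (XT.nd (nat_lit 78) (nat_lit 0) (nat_lit 0) (XT.lf (nat_lit 0) (nat_lit 30203762398) (nat_lit 152) (nat_lit 15754498593) (nat_lit 0) (nat_lit 24038217561) (nat_lit 5) (nat_lit 5) (nat_lit 7) (nat_lit 4) (nat_lit 5) (nat_lit 4) (nat_lit 442) (nat_lit 252) (nat_lit 206)) (XT.nd (nat_lit 78) (nat_lit 0) (nat_lit 0) (XT.lf (nat_lit 0) (nat_lit 34481173929) (nat_lit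 152) (nat_lit 9252625350) (nat_lit 0) (nat_lit 28253599294) (nat_lit 5) (nat_lit 5) (nat_lit 7) (nat_lit 4) (nat_lit 5) (nat_lit 4) (nat_lit 443) (nat_lit 252) (nat_lit 205)) (XT.lf (nat_lit 0) (nat_lit 38851480824) (nat_lit 152) (nat_lit 2623948712) (nat_lit 0) (nat_lit 32563683085) (nat_lit 5) (nat_lit 5) (nat_lit 7) (nat_lit 4) (nat_lit 5) (nat_lit 4) (nat_lit 444) (nat_lit 252) (nat_lit 204)))) (XT.nd (nat_lit 156) (nat_lit 0) (nat_lit 0) (XT.nd (nat_lit 78) (nat_lit 0) (nat_lit 0) (XT.lf (nat_lit 0) (nat_lit 4219664217) (nat_lit 76) (nat_lit 39139399577) (nat_lit 76) (nat_lit 32793132804) (nat_lit 4) (nat_lit 4) (nat_lit 5) (nat_lit 5) (nat_lit 5) (nat_lit 4) (nat_lit 445) (nat_lit 252) (nat_lit 203)) (XT.lf (nat_lit 0) (nat_lit 11256758710) (nat_lit 76) (nat_lit 36737588218) (nat_lit 76) (nat_lit 30334555394) (nat_lit 4) (nat_lit 4) (nat_lit 5) (nat_lit 5) (nat_lit 5) (nat_lit 4) (nat_lit 446) (nat_lit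 252) (nat_lit 202))) (XT.nd (nat_lit 78) (nat_lit 0) (nat_lit 0) (XT.lf (nat_lit 0) (nat_lit 18441261960) (nat_lit 76) (nat_lit 34294393529) (nat_lit 76) (nat_lit 27836248032) (nat_lit 4) (nat_lit 4) (nat_lit 5) (nat_lit 5) (nat_lit 5) (nat_lit 4) (nat_lit 447) (nat_lit 252) (nat_lit 201)) (XT.lf (nat_lit 0) (nat_lit 25779451688) (nat_lit 76) (nat_lit 31807680678) (nat_lit 76) (nat_lit 25296027733) (nat_lit 4) (nat_lit 4) (nat_lit 5) (nat_lit 5) (nat_lit 5) (nat_lit 4) (nat_lit 448) (nat_lit 252) (nat_lit 200)))))) (XT.nd (nat_lit 42978) (nat_lit 0) (nat_lit 912) (XT.nd (nat_lit 42666) (nat_lit 0) (nat_lit 1216) (XT.nd (nat_lit 78) (nat_lit 0) (nat_lit 0) (XT.lf (nat_lit 0) (nat_lit 33277739904) (nat_lit 76) (nat_lit 29275276809) (nat_lit 76) (nat_lit 22711674885) (nat_lit 4) (nat_lit 4) (nat_lit 5) (nat_lit 5) (nat_lit 5) (nat_lit 4) (nat_lit 449) (nat_lit 252) (nat_lit 199)) (XT.nd (nat_lit 42510) (nat_lit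 0) (nat_lit 1444) (XT.lf (nat_lit 0) (nat_lit 40942678512) (nat_lit 76) (nat_lit 26694969143) (nat_lit 76) (nat_lit 20080931317) (nat_lit 4) (nat_lit 4) (nat_lit 5) (nat_lit 5) (nat_lit 5) (nat_lit 4) (nat_lit 450) (nat_lit 252) (nat_lit 198)) (XT.lf (nat_lit 0) (nat_lit 3996722759) (nat_lit 152) (nat_lit 2256285593) (nat_lit 0) (nat_lit 3996722759) (nat_lit 23) (nat_lit 5) (nat_lit 25) (nat_lit 4) (nat_lit 23) (nat_lit 4) (nat_lit 394) (nat_lit 253) (nat_lit 253)))) (XT.nd (nat_lit 156) (nat_lit 152) (nat_lit 0) (XT.nd (nat_lit 78) (nat_lit 0) (nat_lit 0) (XT.lf (nat_lit 0) (nat_lit 5262280642) (nat_lit 76) (nat_lit 7994268010) (nat_lit 76) (nat_lit 7697119694) (nat_lit 22) (nat_lit 4) (nat_lit 23) (nat_lit 5) (nat_lit 23) (nat_lit 4) (nat_lit 395) (nat_lit 253) (nat_lit 252)) (XT.lf (nat_lit 0) (nat_lit 15229605599) (nat_lit 76) (nat_lit 3389651422) (nat_lit 76) (nat_lit 2804009595) (nat_lit 22) (nat_lit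 4) (nat_lit 23) (nat_lit 5) (nat_lit 23) (nat_lit 4) (nat_lit 396) (nat_lit 253) (nat_lit 251))) (XT.nd (nat_lit 78) (nat_lit 0) (nat_lit 0) (XT.lf (nat_lit 0) (nat_lit 2136236559) (nat_lit 152) (nat_lit 18476049174) (nat_lit 0) (nat_lit 1295719458) (nat_lit 20) (nat_lit 5) (nat_lit 22) (nat_lit 4) (nat_lit 20) (nat_lit 4) (nat_lit 397) (nat_lit 253) (nat_lit 250)) (XT.lf (nat_lit 0) (nat_lit 7163533552) (nat_lit 152) (nat_lit 9184075299) (nat_lit 0) (nat_lit 6059004020) (nat_lit 20) (nat_lit 5) (nat_lit 22) (nat_lit 4) (nat_lit 20) (nat_lit 4) (nat_lit 398) (nat_lit 253) (nat_lit 249))))) (XT.nd (nat_lit 234) (nat_lit 228) (nat_lit 0) (XT.nd (nat_lit 78) (nat_lit 0) (nat_lit 0) (XT.lf (nat_lit 0) (nat_lit 206187455) (nat_lit 76) (nat_lit 12038878257) (nat_lit 76) (nat_lit 10678025978) (nat_lit 19) (nat_lit 4) (nat_lit 20) (nat_lit 5) (nat_lit 20) (nat_lit 4) (nat_lit 399) (nat_lit 253) (nat_lit 248))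 (XT.nd (nat_lit 78) (nat_lit 0) (nat_lit 0) (XT.lf (nat_lit 0) (nat_lit 9883737601) (nat_lit 76) (nat_lit 7590596417) (nat_lit 76) (nat_lit 5980887101) (nat_lit 19) (nat_lit 4) (nat_lit 20) (nat_lit 5) (nat_lit 20) (nat_lit 4) (nat_lit 400) (nat_lit 253) (nat_lit 247)) (XT.lf (nat_lit 0) (nat_lit 19674250141) (nat_lit 76) (nat_lit 3091617635) (nat_lit 76) (nat_lit 1240299545) (nat_lit 19) (nat_lit 4) (nat_lit 20) (nat_lit 5) (nat_lit 20) (nat_lit 4) (nat_lit 401) (nat_lit 253) (nat_lit 246)))) (XT.nd (nat_lit 156) (nat_lit 76) (nat_lit 0) (XT.nd (nat_lit 78) (nat_lit 0) (nat_lit 0) (XT.lf (nat_lit 0) (nat_lit 3542303242) (nat_lit 152) (nat_lit 19514008049) (nat_lit 0) (nat_lit 1517167598) (nat_lit 17) (nat_lit 5) (nat_lit 19) (nat_lit 4) (nat_lit 17) (nat_lit 4) (nat_lit 402) (nat_lit 253) (nat_lit 245)) (XT.lf (nat_lit 0) (nat_lit 8425732836) (nat_lit 152) (nat_lit 10552762581) (nat_lit 0) (nat_lit 6179490937)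 (nat_lit 17) (nat_lit 5) (nat_lit 19) (nat_lit 4) (nat_lit 17) (nat_lit 4) (nat_lit 403) (nat_lit 253) (nat_lit 244))) (XT.nd (nat_lit 78) (nat_lit 76) (nat_lit 0) (XT.lf (nat_lit 0) (nat_lit 13365850231) (nat_lit 152) (nat_lit 1491944094) (nat_lit 0) (nat_lit 10904942066) (nat_lit 17) (nat_lit 5) (nat_lit 19) (nat_lit 4) (nat_lit 17) (nat_lit 4) (nat_lit 404) (nat_lit 253) (nat_lit 243)) (XT.lf (nat_lit 0) (nat_lit 7829139341) (nat_lit 76) (nat_lit 10613091171) (nat_lit 76) (nat_lit 7943769156) (nat_lit 16) (nat_lit 4) (nat_lit 17) (nat_lit 5) (nat_lit 17) (nat_lit 4) (nat_lit 405) (nat_lit 253) (nat_lit 242))))))))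
noncomputable def xc15 : XT := (XT.nd (nat_lit 2028) (nat_lit 228) (nat_lit 0) (XT.nd (nat_lit 1014) (nat_lit 304) (nat_lit 0) (XT.nd (nat_lit 468) (nat_lit 152) (nat_lit 0) (XT.nd (nat_lit 234) (nat_lit 76) (nat_lit 0) (XT.nd (nat_lit 78) (nat_lit 152) (nat_lit 0) (XT.lf (nat_lit 0) (nat_lit 17297715476) (nat_lit 76) (nat_lit 6302028907) (nat_lit 76) (nat_lit 3430363348) (nat_lit 16) (nat_lit 4) (nat_lit 17) (nat_lit 5) (nat_lit 17) (nat_lit 4) (nat_lit 406) (nat_lit 253) (nat_lit 241)) (XT.nd (nat_lit 78) (nat_lit 76) (nat_lit 0) (XT.lf (nat_lit 0) (nat_lit 1110115824) (nat_lit 152) (nat_lit 814580478) (nat_lit 76) (nat_lit 25771039396) (nat_lit 15) (nat_lit 5) (nat_lit 17) (nat_lit 5) (nat_lit 16) (nat_lit 4) (nat_lit 407) (nat_lit 253) (nat_lit 240)) (XT.lf (nat_lit 0) (nat_lit 5741253991) (nat_lit 152) (nat_lit 20061040996) (nat_lit 0) (nat_lit 2577327974) (nat_lit 14) (nat_lit 5) (nat_lit 16) (nat_lit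 4) (nat_lit 14) (nat_lit 4) (nat_lit 408) (nat_lit 253) (nat_lit 239)))) (XT.nd (nat_lit 78) (nat_lit 76) (nat_lit 0) (XT.lf (nat_lit 0) (nat_lit 10456819996) (nat_lit 152) (nat_lit 11515738473) (nat_lit 0) (nat_lit 7113114360) (nat_lit 14) (nat_lit 5) (nat_lit 16) (nat_lit 4) (nat_lit 14) (nat_lit 4) (nat_lit 409) (nat_lit 253) (nat_lit 238)) (XT.nd (nat_lit 78) (nat_lit 76) (nat_lit 0) (XT.lf (nat_lit 0) (nat_lit 15234367725) (nat_lit 152) (nat_lit 2864812743) (nat_lit 0) (nat_lit 11716118770) (nat_lit 14) (nat_lit 5) (nat_lit 16) (nat_lit 4) (nat_lit 14) (nat_lit 4) (nat_lit 410) (nat_lit 253) (nat_lit 237)) (XT.lf (nat_lit 0) (nat_lit 6016702797) (nat_lit 76) (nat_lit 14119205162) (nat_lit 76) (nat_lit 10431496675) (nat_lit 13) (nat_lit 4) (nat_lit 14) (nat_lit 5) (nat_lit 14) (nat_lit 4) (nat_lit 411) (nat_lit 253) (nat_lit 236))))) (XT.nd (nat_lit 234) (nat_lit 0) (nat_lit 0) (XT.nd (nat_lit 78)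 (nat_lit 152) (nat_lit 0) (XT.lf (nat_lit 0) (nat_lit 15078478914) (nat_lit 76) (nat_lit 10058629031) (nat_lit 76) (nat_lit 6206396726) (nat_lit 13) (nat_lit 4) (nat_lit 14) (nat_lit 5) (nat_lit 14) (nat_lit 4) (nat_lit 412) (nat_lit 253) (nat_lit 235)) (XT.nd (nat_lit 78) (nat_lit 152) (nat_lit 0) (XT.lf (nat_lit 0) (nat_lit 24271418273) (nat_lit 76) (nat_lit 5942832988) (nat_lit 76) (nat_lit 1930868821) (nat_lit 13) (nat_lit 4) (nat_lit 14) (nat_lit 5) (nat_lit 14) (nat_lit 4) (nat_lit 413) (nat_lit 253) (nat_lit 234)) (XT.lf (nat_lit 0) (nat_lit 619634575) (nat_lit 76) (nat_lit 1738334991) (nat_lit 152) (nat_lit 30614111287) (nat_lit 11) (nat_lit 5) (nat_lit 12) (nat_lit 5) (nat_lit 13) (nat_lit 4) (nat_lit 414) (nat_lit 253) (nat_lit 233)))) (XT.nd (nat_lit 156) (nat_lit 0) (nat_lit 0) (XT.nd (nat_lit 78) (nat_lit 0) (nat_lit 0) (XT.lf (nat_lit 0) (nat_lit 6769402413) (nat_lit 152) (nat_lit 24475349464)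 (nat_lit 0) (nat_lit 2577551689) (nat_lit 11) (nat_lit 5) (nat_lit 13) (nat_lit 4) (nat_lit 11) (nat_lit 4) (nat_lit 415) (nat_lit 253) (nat_lit 232)) (XT.lf (nat_lit 0) (nat_lit 11260023402) (nat_lit 152) (nat_lit 16513359740) (nat_lit 0) (nat_lit 6926252988) (nat_lit 11) (nat_lit 5) (nat_lit 13) (nat_lit 4) (nat_lit 11) (nat_lit 4) (nat_lit 416) (nat_lit 253) (nat_lit 231))) (XT.nd (nat_lit 78) (nat_lit 0) (nat_lit 0) (XT.lf (nat_lit 0) (nat_lit 15817046439) (nat_lit 152) (nat_lit 8442810090) (nat_lit 0) (nat_lit 11345489918) (nat_lit 11) (nat_lit 5) (nat_lit 13) (nat_lit 4) (nat_lit 11) (nat_lit 4) (nat_lit 417) (nat_lit 253) (nat_lit 230)) (XT.lf (nat_lit 0) (nat_lit 20444453388) (nat_lit 152) (nat_lit 256648577) (nat_lit 0) (nat_lit 15839123947) (nat_lit 11) (nat_lit 5) (nat_lit 13) (nat_lit 4) (nat_lit 11) (nat_lit 4) (nat_lit 418) (nat_lit 253) (nat_lit 229)))))) (XT.nd (nat_lit 468) (nat_lit 76)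 (nat_lit 0) (XT.nd (nat_lit 234) (nat_lit 152) (nat_lit 0) (XT.nd (nat_lit 78) (nat_lit 0) (nat_lit 0) (XT.lf (nat_lit 0) (nat_lit 8212533872) (nat_lit 76) (nat_lit 17012697642) (nat_lit 76) (nat_lit 12277491580) (nat_lit 10) (nat_lit 4) (nat_lit 11) (nat_lit 5) (nat_lit 11) (nat_lit 4) (nat_lit 419) (nat_lit 253) (nat_lit 228)) (XT.nd (nat_lit 78) (nat_lit 0) (nat_lit 0) (XT.lf (nat_lit 0) (nat_lit 16819436931) (nat_lit 76) (nat_lit 13268899303) (nat_lit 76) (nat_lit 8407599433) (nat_lit 10) (nat_lit 4) (nat_lit 11) (nat_lit 5) (nat_lit 11) (nat_lit 4) (nat_lit 420) (nat_lit 253) (nat_lit 227)) (XT.lf (nat_lit 0) (nat_lit 25566473385) (nat_lit 76) (nat_lit 9469027315) (nat_lit 76) (nat_lit 4485306273) (nat_lit 10) (nat_lit 4) (nat_lit 11) (nat_lit 5) (nat_lit 11) (nat_lit 4) (nat_lit 421) (nat_lit 253) (nat_lit 226)))) (XT.nd (nat_lit 78) (nat_lit 152) (nat_lit 0) (XT.lf (nat_lit 0) (nat_lit 34461286277)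 (nat_lit 76) (nat_lit 5609761401) (nat_lit 76) (nat_lit 507184853) (nat_lit 10) (nat_lit 4) (nat_lit 11) (nat_lit 5) (nat_lit 11) (nat_lit 4) (nat_lit 422) (nat_lit 253) (nat_lit 225)) (XT.nd (nat_lit 78) (nat_lit 0) (nat_lit 0) (XT.lf (nat_lit 0) (nat_lit 1844570852) (nat_lit 76) (nat_lit 1634513431) (nat_lit 152) (nat_lit 38188502042) (nat_lit 8) (nat_lit 5) (nat_lit 9) (nat_lit 5) (nat_lit 10) (nat_lit 4) (nat_lit 423) (nat_lit 253) (nat_lit 224)) (XT.lf (nat_lit 0) (nat_lit 7602040635) (nat_lit 152) (nat_lit 32759336709) (nat_lit 0) (nat_lit 2427280482) (nat_lit 8) (nat_lit 5) (nat_lit 10) (nat_lit 4) (nat_lit 8) (nat_lit 4) (nat_lit 424) (nat_lit 253) (nat_lit 223))))) (XT.nd (nat_lit 234) (nat_lit 76) (nat_lit 0) (XT.nd (nat_lit 78) (nat_lit 0) (nat_lit 0) (XT.lf (nat_lit 0) (nat_lit 11807845064) (nat_lit 152) (nat_lit 25609264638) (nat_lit 0) (nat_lit 6527483332) (nat_lit 8) (nat_lit 5) (nat_lit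 10) (nat_lit 4) (nat_lit 8) (nat_lit 4) (nat_lit 425) (nat_lit 253) (nat_lit 222)) (XT.nd (nat_lit 78) (nat_lit 0) (nat_lit 0) (XT.lf (nat_lit 0) (nat_lit 16084460601) (nat_lit 152) (nat_lit 18350839682) (nat_lit 0) (nat_lit 10701573065) (nat_lit 8) (nat_lit 5) (nat_lit 10) (nat_lit 4) (nat_lit 8) (nat_lit 4) (nat_lit 426) (nat_lit 253) (nat_lit 221)) (XT.lf (nat_lit 0) (nat_lit 20435624094) (nat_lit 152) (nat_lit 10977719528) (nat_lit 0) (nat_lit 14953196942) (nat_lit 8) (nat_lit 5) (nat_lit 10) (nat_lit 4) (nat_lit 8) (nat_lit 4) (nat_lit 427) (nat_lit 253) (nat_lit 220)))) (XT.nd (nat_lit 156) (nat_lit 0) (nat_lit 0) (XT.nd (nat_lit 78) (nat_lit 76) (nat_lit 0) (XT.lf (nat_lit 0) (nat_lit 24865137532) (nat_lit 152) (nat_lit 3483461644) (nat_lit 0) (nat_lit 19286069976) (nat_lit 8) (nat_lit 5) (nat_lit 10) (nat_lit 4) (nat_lit 8) (nat_lit 4) (nat_lit 428) (nat_lit 253) (nat_lit 219)) (XT.lf (nat_lit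 0) (nat_lit 4220846264) (nat_lit 76) (nat_lit 25196598454) (nat_lit 76) (nat_lit 19523705265) (nat_lit 7) (nat_lit 4) (nat_lit 8) (nat_lit 5) (nat_lit 8) (nat_lit 4) (nat_lit 429) (nat_lit 253) (nat_lit 218))) (XT.nd (nat_lit 78) (nat_lit 0) (nat_lit 0) (XT.lf (nat_lit 0) (nat_lit 12131501701) (nat_lit 76) (nat_lit 21959881592) (nat_lit 76) (nat_lit 16195895553) (nat_lit 7) (nat_lit 4) (nat_lit 8) (nat_lit 5) (nat_lit 8) (nat_lit 4) (nat_lit 430) (nat_lit 253) (nat_lit 217)) (XT.lf (nat_lit 0) (nat_lit 20186089173) (nat_lit 76) (nat_lit 18670796521) (nat_lit 76) (nat_lit 12818370823) (nat_lit 7) (nat_lit 4) (nat_lit 8) (nat_lit 5) (nat_lit 8) (nat_lit 4) (nat_lit 431) (nat_lit 253) (nat_lit 216))))))) (XT.nd (nat_lit 1014) (nat_lit 76) (nat_lit 0) (XT.nd (nat_lit 468) (nat_lit 0) (nat_lit 0) (XT.nd (nat_lit 234) (nat_lit 152) (nat_lit 0) (XT.nd (nat_lit 78) (nat_lit 0) (nat_lit 0) (XT.lf (nat_lit 0) (nat_lit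 28391646669) (nat_lit 76) (nat_lit 15326469284) (nat_lit 76) (nat_lit 9388179839) (nat_lit 7) (nat_lit 4) (nat_lit 8) (nat_lit 5) (nat_lit 8) (nat_lit 4) (nat_lit 432) (nat_lit 253) (nat_lit 215)) (XT.nd (nat_lit 78) (nat_lit 0) (nat_lit 0) (XT.lf (nat_lit 0) (nat_lit 36755344094) (nat_lit 76) (nat_lit 11923977653) (nat_lit 76) (nat_lit 5902325347) (nat_lit 7) (nat_lit 4) (nat_lit 8) (nat_lit 5) (nat_lit 8) (nat_lit 4) (nat_lit 433) (nat_lit 253) (nat_lit 214)) (XT.lf (nat_lit 0) (nat_lit 45284489533) (nat_lit 76) (nat_lit 8460348577) (nat_lit 76) (nat_lit 2357761455) (nat_lit 7) (nat_lit 4) (nat_lit 8) (nat_lit 5) (nat_lit 8) (nat_lit 4) (nat_lit 434) (nat_lit 253) (nat_lit 213)))) (XT.nd (nat_lit 78) (nat_lit 76) (nat_lit 0) (XT.lf (nat_lit 0) (nat_lit 1224244169) (nat_lit 152) (nat_lit 3695948949) (nat_lit 76) (nat_lit 52749929002) (nat_lit 6) (nat_lit 5) (nat_lit 8) (nat_lit 5) (nat_lit 7) (nat_lit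 4) (nat_lit 435) (nat_lit 253) (nat_lit 212)) (XT.nd (nat_lit 78) (nat_lit 0) (nat_lit 0) (XT.lf (nat_lit 0) (nat_lit 3605483690) (nat_lit 76) (nat_lit 1253106029) (nat_lit 152) (nat_lit 54425616705) (nat_lit 5) (nat_lit 5) (nat_lit 6) (nat_lit 5) (nat_lit 7) (nat_lit 4) (nat_lit 436) (nat_lit 253) (nat_lit 211)) (XT.lf (nat_lit 0) (nat_lit 8621617501) (nat_lit 152) (nat_lit 49850000072) (nat_lit 0) (nat_lit 2474510449) (nat_lit 5) (nat_lit 5) (nat_lit 7) (nat_lit 4) (nat_lit 5) (nat_lit 4) (nat_lit 437) (nat_lit 253) (nat_lit 210))))) (XT.nd (nat_lit 234) (nat_lit 0) (nat_lit 0) (XT.nd (nat_lit 78) (nat_lit 0) (nat_lit 0) (XT.lf (nat_lit 0) (nat_lit 12468873525) (nat_lit 152) (nat_lit 43937946422) (nat_lit 0) (nat_lit 6251951389) (nat_lit 5) (nat_lit 5) (nat_lit 7) (nat_lit 4) (nat_lit 5) (nat_lit 4) (nat_lit 438) (nat_lit 253) (nat_lit 209)) (XT.nd (nat_lit 78) (nat_lit 0) (nat_lit 0) (XT.lf (nat_lit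 0) (nat_lit 16391673851) (nat_lit 152) (nat_lit 37925350292) (nat_lit 0) (nat_lit 10106970081) (nat_lit 5) (nat_lit 5) (nat_lit 7) (nat_lit 4) (nat_lit 5) (nat_lit 4) (nat_lit 439) (nat_lit 253) (nat_lit 208)) (XT.lf (nat_lit 0) (nat_lit 20393446169) (nat_lit 152) (nat_lit 31806957958) (nat_lit 0) (nat_lit 14042934986) (nat_lit 5) (nat_lit 5) (nat_lit 7) (nat_lit 4) (nat_lit 5) (nat_lit 4) (nat_lit 440) (nat_lit 253) (nat_lit 207)))) (XT.nd (nat_lit 156) (nat_lit 0) (nat_lit 0) (XT.nd (nat_lit 78) (nat_lit 0) (nat_lit 0) (XT.lf (nat_lit 0) (nat_lit 24477687172) (nat_lit 152) (nat_lit 25577423250) (nat_lit 0) (nat_lit 18063285298) (nat_lit 5) (nat_lit 5) (nat_lit 7) (nat_lit 4) (nat_lit 5) (nat_lit 4) (nat_lit 441) (nat_lit 253) (nat_lit 206)) (XT.lf (nat_lit 0) (nat_lit 28647965616) (nat_lit 152) (nat_lit 19231302886) (nat_lit 0) (nat_lit 22171533944) (nat_lit 5) (nat_lit 5) (nat_lit 7) (nat_lit 4) (nat_lit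 5) (nat_lit 4) (nat_lit 442) (nat_lit 253) (nat_lit 205))) (XT.nd (nat_lit 78) (nat_lit 0) (nat_lit 0) (XT.lf (nat_lit 0) (nat_lit 32907925431) (nat_lit 152) (nat_lit 12763051713) (nat_lit 0) (nat_lit 26371270655) (nat_lit 5) (nat_lit 5) (nat_lit 7) (nat_lit 4) (nat_lit 5) (nat_lit 4) (nat_lit 443) (nat_lit 253) (nat_lit 204)) (XT.lf (nat_lit 0) (nat_lit 37261288915) (nat_lit 152) (nat_lit 6167017861) (nat_lit 0) (nat_lit 30666165105) (nat_lit 5) (nat_lit 5) (nat_lit 7) (nat_lit 4) (nat_lit 5) (nat_lit 4) (nat_lit 444) (nat_lit 253) (nat_lit 203)))))) (XT.nd (nat_lit 42822) (nat_lit 0) (nat_lit 1216) (XT.nd (nat_lit 234) (nat_lit 0) (nat_lit 0) (XT.nd (nat_lit 78) (nat_lit 0) (nat_lit 0) (XT.lf (nat_lit 0) (nat_lit 573758286) (nat_lit 76) (nat_lit 41143617005) (nat_lit 76) (nat_lit 34491727143) (nat_lit 4) (nat_lit 4) (nat_lit 5) (nat_lit 5) (nat_lit 5) (nat_lit 4) (nat_lit 445) (nat_lit 253) (nat_lit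 202)) (XT.nd (nat_lit 78) (nat_lit 0) (nat_lit 0) (XT.lf (nat_lit 0) (nat_lit 7579471459) (nat_lit 76) (nat_lit 38756914518) (nat_lit 76) (nat_lit 32049911985) (nat_lit 4) (nat_lit 4) (nat_lit 5) (nat_lit 5) (nat_lit 5) (nat_lit 4) (nat_lit 446) (nat_lit 253) (nat_lit 201)) (XT.lf (nat_lit 0) (nat_lit 14733507409) (nat_lit 76) (nat_lit 36328388636) (nat_lit 76) (nat_lit 29567878655) (nat_lit 4) (nat_lit 4) (nat_lit 5) (nat_lit 5) (nat_lit 5) (nat_lit 4) (nat_lit 447) (nat_lit 253) (nat_lit 200)))) (XT.nd (nat_lit 156) (nat_lit 0) (nat_lit 0) (XT.nd (nat_lit 78) (nat_lit 0) (nat_lit 0) (XT.lf (nat_lit 0) (nat_lit 22042117234) (nat_lit 76) (nat_lit 33855917346) (nat_lit 76) (nat_lit 27043458385) (nat_lit 4) (nat_lit 4) (nat_lit 5) (nat_lit 5) (nat_lit 5) (nat_lit 4) (nat_lit 448) (nat_lit 253) (nat_lit 199)) (XT.lf (nat_lit 0) (nat_lit 29511687098) (nat_lit 76) (nat_lit 31337340235) (nat_lit 76) (nat_lit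 24474445373) (nat_lit 4) (nat_lit 4) (nat_lit 5) (nat_lit 5) (nat_lit 5) (nat_lit 4) (nat_lit 449) (nat_lit 253) (nat_lit 198))) (XT.nd (nat_lit 42354) (nat_lit 0) (nat_lit 1596) (XT.lf (nat_lit 0) (nat_lit 37148743810) (nat_lit 76) (nat_lit 28770456606) (nat_lit 76) (nat_lit 21858594848) (nat_lit 4) (nat_lit 4) (nat_lit 5) (nat_lit 5) (nat_lit 5) (nat_lit 4) (nat_lit 450) (nat_lit 253) (nat_lit 197)) (XT.lf (nat_lit 0) (nat_lit 7908048442) (nat_lit 152) (nat_lit 954185971) (nat_lit 152) (nat_lit 954185971) (nat_lit 25) (nat_lit 4) (nat_lit 27) (nat_lit 5) (nat_lit 27) (nat_lit 4) (nat_lit 392) (nat_lit 254) (nat_lit 254))))) (XT.nd (nat_lit 234) (nat_lit 152) (nat_lit 0) (XT.nd (nat_lit 78) (nat_lit 76) (nat_lit 0) (XT.lf (nat_lit 0) (nat_lit 3136812255) (nat_lit 152) (nat_lit 14092527609) (nat_lit 0) (nat_lit 2830749489) (nat_lit 23) (nat_lit 5) (nat_lit 25) (nat_lit 4) (nat_lit 23) (nat_lit 4) (nat_lit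 393) (nat_lit 254) (nat_lit 253)) (XT.nd (nat_lit 78) (nat_lit 76) (nat_lit 0) (XT.lf (nat_lit 0) (nat_lit 8247755556) (nat_lit 152) (nat_lit 4608723568) (nat_lit 0) (nat_lit 7644544475) (nat_lit 23) (nat_lit 5) (nat_lit 25) (nat_lit 4) (nat_lit 23) (nat_lit 4) (nat_lit 394) (nat_lit 254) (nat_lit 252)) (XT.lf (nat_lit 0) (nat_lit 5069004928) (nat_lit 76) (nat_lit 8389750509) (nat_lit 76) (nat_lit 7498045917) (nat_lit 22) (nat_lit 4) (nat_lit 23) (nat_lit 5) (nat_lit 23) (nat_lit 4) (nat_lit 395) (nat_lit 254) (nat_lit 251)))) (XT.nd (nat_lit 156) (nat_lit 0) (nat_lit 0) (XT.nd (nat_lit 78) (nat_lit 152) (nat_lit 0) (XT.lf (nat_lit 0) (nat_lit 14943893272) (nat_lit 76) (nat_lit 3827900067) (nat_lit 76) (nat_lit 2656104687) (nat_lit 22) (nat_lit 4) (nat_lit 23) (nat_lit 5) (nat_lit 23) (nat_lit 4) (nat_lit 396) (nat_lit 254) (nat_lit 250)) (XT.lf (nat_lit 0) (nat_lit 2224156716) (nat_lit 152) (nat_lit 18867679135)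 (nat_lit 0) (nat_lit 822478869) (nat_lit 20) (nat_lit 5) (nat_lit 22) (nat_lit 4) (nat_lit 20) (nat_lit 4) (nat_lit 397) (nat_lit 254) (nat_lit 249))) (XT.nd (nat_lit 78) (nat_lit 0) (nat_lit 0) (XT.lf (nat_lit 0) (nat_lit 7202899157) (nat_lit 152) (nat_lit 9666588903) (nat_lit 0) (nat_lit 5544898561) (nat_lit 20) (nat_lit 5) (nat_lit 22) (nat_lit 4) (nat_lit 20) (nat_lit 4) (nat_lit 398) (nat_lit 254) (nat_lit 248)) (XT.lf (nat_lit 0) (nat_lit 12235308976) (nat_lit 152) (nat_lit 368586154) (nat_lit 0) (nat_lit 10328451345) (nat_lit 20) (nat_lit 5) (nat_lit 22) (nat_lit 4) (nat_lit 20) (nat_lit 4) (nat_lit 399) (nat_lit 254) (nat_lit 247))))))))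
noncomputable def xc16 : XT := (XT.nd (nat_lit 2028) (nat_lit 304) (nat_lit 0) (XT.nd (nat_lit 1014) (nat_lit 380) (nat_lit 0) (XT.nd (nat_lit 468) (nat_lit 228) (nat_lit 0) (XT.nd (nat_lit 234) (nat_lit 76) (nat_lit 0) (XT.nd (nat_lit 78) (nat_lit 152) (nat_lit 0) (XT.lf (nat_lit 0) (nat_lit 9214256920) (nat_lit 76) (nat_lit 8200099580) (nat_lit 76) (nat_lit 6051633175) (nat_lit 19) (nat_lit 4) (nat_lit 20) (nat_lit 5) (nat_lit 20) (nat_lit 4) (nat_lit 400) (nat_lit 254) (nat_lit 246)) (XT.nd (nat_lit 78) (nat_lit 152) (nat_lit 0) (XT.lf (nat_lit 0) (nat_lit 18919942778) (nat_lit 76) (nat_lit 3740697781) (nat_lit 76) (nat_lit 1357659751) (nat_lit 19) (nat_lit 4) (nat_lit 20) (nat_lit 5) (nat_lit 20) (nat_lit 4) (nat_lit 401) (nat_lit 254) (nat_lit 245)) (XT.lf (nat_lit 0) (nat_lit 3367834082) (nat_lit 152) (nat_lit 20386501482) (nat_lit 0) (nat_lit 833098673) (nat_lit 17) (nat_lit 5) (nat_lit 19) (nat_lit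 4) (nat_lit 17) (nat_lit 4) (nat_lit 402) (nat_lit 254) (nat_lit 244)))) (XT.nd (nat_lit 78) (nat_lit 76) (nat_lit 0) (XT.lf (nat_lit 0) (nat_lit 8207019791) (nat_lit 152) (nat_lit 11508637465) (nat_lit 0) (nat_lit 5457618116) (nat_lit 17) (nat_lit 5) (nat_lit 19) (nat_lit 4) (nat_lit 17) (nat_lit 4) (nat_lit 403) (nat_lit 254) (nat_lit 243)) (XT.nd (nat_lit 78) (nat_lit 76) (nat_lit 0) (XT.lf (nat_lit 0) (nat_lit 13104181958) (nat_lit 152) (nat_lit 2528771841) (nat_lit 0) (nat_lit 10146366432) (nat_lit 17) (nat_lit 5) (nat_lit 19) (nat_lit 4) (nat_lit 17) (nat_lit 4) (nat_lit 404) (nat_lit 254) (nat_lit 242)) (XT.lf (nat_lit 0) (nat_lit 6691517479) (nat_lit 76) (nat_lit 11436405137) (nat_lit 76) (nat_lit 8276246068) (nat_lit 16) (nat_lit 4) (nat_lit 17) (nat_lit 5) (nat_lit 17) (nat_lit 4) (nat_lit 405) (nat_lit 254) (nat_lit 241))))) (XT.nd (nat_lit 234) (nat_lit 76) (nat_lit 0) (XT.nd (nat_lit 78) (nat_lit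 152) (nat_lit 0) (XT.lf (nat_lit 0) (nat_lit 16082269140) (nat_lit 76) (nat_lit 7161929829) (nat_lit 76) (nat_lit 3805320717) (nat_lit 16) (nat_lit 4) (nat_lit 17) (nat_lit 5) (nat_lit 17) (nat_lit 4) (nat_lit 406) (nat_lit 254) (nat_lit 240)) (XT.nd (nat_lit 78) (nat_lit 76) (nat_lit 0) (XT.lf (nat_lit 0) (nat_lit 702036863) (nat_lit 152) (nat_lit 2122202475) (nat_lit 76) (nat_lit 24892235074) (nat_lit 15) (nat_lit 5) (nat_lit 17) (nat_lit 5) (nat_lit 16) (nat_lit 4) (nat_lit 407) (nat_lit 254) (nat_lit 239)) (XT.lf (nat_lit 0) (nat_lit 5271251363) (nat_lit 152) (nat_lit 21483518403) (nat_lit 0) (nat_lit 1647454940) (nat_lit 14) (nat_lit 5) (nat_lit 16) (nat_lit 4) (nat_lit 14) (nat_lit 4) (nat_lit 408) (nat_lit 254) (nat_lit 238)))) (XT.nd (nat_lit 156) (nat_lit 76) (nat_lit 0) (XT.nd (nat_lit 78) (nat_lit 0) (nat_lit 0) (XT.lf (nat_lit 0) (nat_lit 9947662069) (nat_lit 152) (nat_lit 13012470003) (nat_lit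 0) (nat_lit 6149322327) (nat_lit 14) (nat_lit 5) (nat_lit 16) (nat_lit 4) (nat_lit 14) (nat_lit 4) (nat_lit 409) (nat_lit 254) (nat_lit 237)) (XT.lf (nat_lit 0) (nat_lit 14687194944) (nat_lit 152) (nat_lit 4433635654) (nat_lit 0) (nat_lit 10719395669) (nat_lit 14) (nat_lit 5) (nat_lit 16) (nat_lit 4) (nat_lit 14) (nat_lit 4) (nat_lit 410) (nat_lit 254) (nat_lit 236))) (XT.nd (nat_lit 78) (nat_lit 0) (nat_lit 0) (XT.lf (nat_lit 0) (nat_lit 4345272632) (nat_lit 76) (nat_lit 15190488113) (nat_lit 76) (nat_lit 11058165021) (nat_lit 13) (nat_lit 4) (nat_lit 14) (nat_lit 5) (nat_lit 14) (nat_lit 4) (nat_lit 411) (nat_lit 254) (nat_lit 235)) (XT.lf (nat_lit 0) (nat_lit 13337743309) (nat_lit 76) (nat_lit 11162718569) (nat_lit 76) (nat_lit 6870663615) (nat_lit 13) (nat_lit 4) (nat_lit 14) (nat_lit 5) (nat_lit 14) (nat_lit 4) (nat_lit 412) (nat_lit 254) (nat_lit 234)))))) (XT.nd (nat_lit 468) (nat_lit 228) (nat_lit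 0) (XT.nd (nat_lit 234) (nat_lit 0) (nat_lit 0) (XT.nd (nat_lit 78) (nat_lit 152) (nat_lit 0) (XT.lf (nat_lit 0) (nat_lit 22463395833) (nat_lit 76) (nat_lit 7078773583) (nat_lit 76) (nat_lit 2631639151) (nat_lit 13) (nat_lit 4) (nat_lit 14) (nat_lit 5) (nat_lit 14) (nat_lit 4) (nat_lit 413) (nat_lit 254) (nat_lit 233)) (XT.nd (nat_lit 78) (nat_lit 76) (nat_lit 0) (XT.lf (nat_lit 0) (nat_lit 1630168816) (nat_lit 152) (nat_lit 1288454334) (nat_lit 76) (nat_lit 30083573749) (nat_lit 12) (nat_lit 5) (nat_lit 14) (nat_lit 5) (nat_lit 13) (nat_lit 4) (nat_lit 414) (nat_lit 254) (nat_lit 232)) (XT.lf (nat_lit 0) (nat_lit 5982835944) (nat_lit 152) (nat_lit 26494218113) (nat_lit 0) (nat_lit 1377132727) (nat_lit 11) (nat_lit 5) (nat_lit 13) (nat_lit 4) (nat_lit 11) (nat_lit 4) (nat_lit 415) (nat_lit 254) (nat_lit 231)))) (XT.nd (nat_lit 78) (nat_lit 0) (nat_lit 0) (XT.lf (nat_lit 0) (nat_lit 10439803445) (nat_lit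 152) (nat_lit 18596415466) (nat_lit 0) (nat_lit 5696314120) (nat_lit 11) (nat_lit 5) (nat_lit 13) (nat_lit 4) (nat_lit 11) (nat_lit 4) (nat_lit 416) (nat_lit 254) (nat_lit 230)) (XT.nd (nat_lit 78) (nat_lit 0) (nat_lit 0) (XT.lf (nat_lit 0) (nat_lit 14964153191) (nat_lit 152) (nat_lit 10588183366) (nat_lit 0) (nat_lit 10086890947) (nat_lit 11) (nat_lit 5) (nat_lit 13) (nat_lit 4) (nat_lit 11) (nat_lit 4) (nat_lit 417) (nat_lit 254) (nat_lit 229)) (XT.lf (nat_lit 0) (nat_lit 19559838499) (nat_lit 152) (nat_lit 2462524328) (nat_lit 0) (nat_lit 14552699634) (nat_lit 11) (nat_lit 5) (nat_lit 13) (nat_lit 4) (nat_lit 11) (nat_lit 4) (nat_lit 418) (nat_lit 254) (nat_lit 228))))) (XT.nd (nat_lit 234) (nat_lit 152) (nat_lit 0) (XT.nd (nat_lit 78) (nat_lit 0) (nat_lit 0) (XT.lf (nat_lit 0) (nat_lit 5902847553) (nat_lit 76) (nat_lit 18384769244) (nat_lit 76) (nat_lit 13251536571) (nat_lit 10) (nat_lit 4) (nat_lit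 11) (nat_lit 5) (nat_lit 11) (nat_lit 4) (nat_lit 419) (nat_lit 254) (nat_lit 227)) (XT.nd (nat_lit 78) (nat_lit 0) (nat_lit 0) (XT.lf (nat_lit 0) (nat_lit 14451586230) (nat_lit 76) (nat_lit 14668675486) (nat_lit 76) (nat_lit 9413021642) (nat_lit 10) (nat_lit 4) (nat_lit 11) (nat_lit 5) (nat_lit 11) (nat_lit 4) (nat_lit 420) (nat_lit 254) (nat_lit 226)) (XT.lf (nat_lit 0) (nat_lit 23142152410) (nat_lit 76) (nat_lit 10895701151) (nat_lit 76) (nat_lit 5521191800) (nat_lit 10) (nat_lit 4) (nat_lit 11) (nat_lit 5) (nat_lit 11) (nat_lit 4) (nat_lit 421) (nat_lit 254) (nat_lit 225)))) (XT.nd (nat_lit 156) (nat_lit 76) (nat_lit 0) (XT.nd (nat_lit 78) (nat_lit 76) (nat_lit 0) (XT.lf (nat_lit 0) (nat_lit 31982139792) (nat_lit 76) (nat_lit 7062549463) (nat_lit 76) (nat_lit 1572646416) (nat_lit 10) (nat_lit 4) (nat_lit 11) (nat_lit 5) (nat_lit 11) (nat_lit 4) (nat_lit 422) (nat_lit 254) (nat_lit 224)) (XT.lf (nat_lit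 0) (nat_lit 2388528296) (nat_lit 152) (nat_lit 753223318) (nat_lit 76) (nat_lit 38566624888) (nat_lit 9) (nat_lit 5) (nat_lit 11) (nat_lit 5) (nat_lit 10) (nat_lit 4) (nat_lit 423) (nat_lit 254) (nat_lit 223))) (XT.nd (nat_lit 78) (nat_lit 0) (nat_lit 0) (XT.lf (nat_lit 0) (nat_lit 6461447897) (nat_lit 152) (nat_lit 35452430598) (nat_lit 0) (nat_lit 917073735) (nat_lit 8) (nat_lit 5) (nat_lit 10) (nat_lit 4) (nat_lit 8) (nat_lit 4) (nat_lit 424) (nat_lit 254) (nat_lit 222)) (XT.lf (nat_lit 0) (nat_lit 10639979900) (nat_lit 152) (nat_lit 28354648811) (nat_lit 0) (nat_lit 4993079934) (nat_lit 8) (nat_lit 5) (nat_lit 10) (nat_lit 4) (nat_lit 8) (nat_lit 4) (nat_lit 425) (nat_lit 254) (nat_lit 221))))))) (XT.nd (nat_lit 1014) (nat_lit 76) (nat_lit 0) (XT.nd (nat_lit 468) (nat_lit 152) (nat_lit 0) (XT.nd (nat_lit 234) (nat_lit 76) (nat_lit 0) (XT.nd (nat_lit 78) (nat_lit 0) (nat_lit 0) (XT.lf (nat_lit 0) (nat_lit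 14890117353) (nat_lit 152) (nat_lit 21146991121) (nat_lit 0) (nat_lit 9143677771) (nat_lit 8) (nat_lit 5) (nat_lit 10) (nat_lit 4) (nat_lit 8) (nat_lit 4) (nat_lit 426) (nat_lit 254) (nat_lit 220)) (XT.nd (nat_lit 78) (nat_lit 0) (nat_lit 0) (XT.lf (nat_lit 0) (nat_lit 19215573970) (nat_lit 152) (nat_lit 13823159576) (nat_lit 0) (nat_lit 13372493984) (nat_lit 8) (nat_lit 5) (nat_lit 10) (nat_lit 4) (nat_lit 8) (nat_lit 4) (nat_lit 427) (nat_lit 254) (nat_lit 219)) (XT.lf (nat_lit 0) (nat_lit 23620129274) (nat_lit 152) (nat_lit 6376754709) (nat_lit 0) (nat_lit 17683223654) (nat_lit 8) (nat_lit 5) (nat_lit 10) (nat_lit 4) (nat_lit 8) (nat_lit 4) (nat_lit 428) (nat_lit 254) (nat_lit 218)))) (XT.nd (nat_lit 78) (nat_lit 0) (nat_lit 0) (XT.lf (nat_lit 0) (nat_lit 1222587122) (nat_lit 76) (nat_lit 26896797040) (nat_lit 76) (nat_lit 20868798571) (nat_lit 7) (nat_lit 4) (nat_lit 8) (nat_lit 5) (nat_lit 8) (nat_lit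 4) (nat_lit 429) (nat_lit 254) (nat_lit 217)) (XT.nd (nat_lit 78) (nat_lit 0) (nat_lit 0) (XT.lf (nat_lit 0) (nat_lit 9087238802) (nat_lit 76) (nat_lit 23682116284) (nat_lit 76) (nat_lit 17565678156) (nat_lit 7) (nat_lit 4) (nat_lit 8) (nat_lit 5) (nat_lit 8) (nat_lit 4) (nat_lit 430) (nat_lit 254) (nat_lit 216)) (XT.lf (nat_lit 0) (nat_lit 17097162432) (nat_lit 76) (nat_lit 20414425492) (nat_lit 76) (nat_lit 14212123617) (nat_lit 7) (nat_lit 4) (nat_lit 8) (nat_lit 5) (nat_lit 8) (nat_lit 4) (nat_lit 431) (nat_lit 254) (nat_lit 215))))) (XT.nd (nat_lit 234) (nat_lit 152) (nat_lit 0) (XT.nd (nat_lit 78) (nat_lit 0) (nat_lit 0) (XT.lf (nat_lit 0) (nat_lit 25259356974) (nat_lit 76) (nat_lit 17090869399) (nat_lit 76) (nat_lit 10805204663) (nat_lit 7) (nat_lit 4) (nat_lit 8) (nat_lit 5) (nat_lit 8) (nat_lit 4) (nat_lit 432) (nat_lit 254) (nat_lit 214)) (XT.nd (nat_lit 78) (nat_lit 0) (nat_lit 0) (XT.lf (nat_lit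 0) (nat_lit 33580954444) (nat_lit 76) (nat_lit 13708543928) (nat_lit 76) (nat_lit 7341944376) (nat_lit 7) (nat_lit 4) (nat_lit 8) (nat_lit 5) (nat_lit 8) (nat_lit 4) (nat_lit 433) (nat_lit 254) (nat_lit 213)) (XT.lf (nat_lit 0) (nat_lit 42069226141) (nat_lit 76) (nat_lit 10264493648) (nat_lit 76) (nat_lit 3819316604) (nat_lit 7) (nat_lit 4) (nat_lit 8) (nat_lit 5) (nat_lit 8) (nat_lit 4) (nat_lit 434) (nat_lit 254) (nat_lit 212)))) (XT.nd (nat_lit 156) (nat_lit 0) (nat_lit 0) (XT.nd (nat_lit 78) (nat_lit 152) (nat_lit 0) (XT.lf (nat_lit 0) (nat_lit 50731588999) (nat_lit 76) (nat_lit 6755709196) (nat_lit 76) (nat_lit 234243324) (nat_lit 7) (nat_lit 4) (nat_lit 8) (nat_lit 5) (nat_lit 8) (nat_lit 4) (nat_lit 435) (nat_lit 254) (nat_lit 211)) (XT.lf (nat_lit 0) (nat_lit 208511617) (nat_lit 76) (nat_lit 3143234348) (nat_lit 152) (nat_lit 55985537352) (nat_lit 5) (nat_lit 5) (nat_lit 6) (nat_lit 5) (nat_lit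 7) (nat_lit 4) (nat_lit 436) (nat_lit 254) (nat_lit 210))) (XT.nd (nat_lit 78) (nat_lit 0) (nat_lit 0) (XT.lf (nat_lit 0) (nat_lit 7076373357) (nat_lit 152) (nat_lit 53320857161) (nat_lit 0) (nat_lit 603128473) (nat_lit 5) (nat_lit 5) (nat_lit 7) (nat_lit 4) (nat_lit 5) (nat_lit 4) (nat_lit 437) (nat_lit 254) (nat_lit 209)) (XT.lf (nat_lit 0) (nat_lit 10903987323) (nat_lit 152) (nat_lit 47446645447) (nat_lit 0) (nat_lit 4362960805) (nat_lit 5) (nat_lit 5) (nat_lit 7) (nat_lit 4) (nat_lit 5) (nat_lit 4) (nat_lit 438) (nat_lit 254) (nat_lit 208)))))) (XT.nd (nat_lit 546) (nat_lit 76) (nat_lit 0) (XT.nd (nat_lit 234) (nat_lit 0) (nat_lit 0) (XT.nd (nat_lit 78) (nat_lit 0) (nat_lit 0) (XT.lf (nat_lit 0) (nat_lit 14807717689) (nat_lit 152) (nat_lit 41470789061) (nat_lit 0) (nat_lit 8200883759) (nat_lit 5) (nat_lit 5) (nat_lit 7) (nat_lit 4) (nat_lit 5) (nat_lit 4) (nat_lit 439) (nat_lit 254) (nat_lit 207))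 (XT.nd (nat_lit 78) (nat_lit 0) (nat_lit 0) (XT.lf (nat_lit 0) (nat_lit 18790975483) (nat_lit 152) (nat_lit 35388066380) (nat_lit 0) (nat_lit 12120250861) (nat_lit 5) (nat_lit 5) (nat_lit 7) (nat_lit 4) (nat_lit 5) (nat_lit 4) (nat_lit 440) (nat_lit 254) (nat_lit 206)) (XT.lf (nat_lit 0) (nat_lit 22857241220) (nat_lit 152) (nat_lit 29193162404) (nat_lit 0) (nat_lit 16124486800) (nat_lit 5) (nat_lit 5) (nat_lit 7) (nat_lit 4) (nat_lit 5) (nat_lit 4) (nat_lit 441) (nat_lit 254) (nat_lit 205)))) (XT.nd (nat_lit 156) (nat_lit 0) (nat_lit 0) (XT.nd (nat_lit 78) (nat_lit 0) (nat_lit 0) (XT.lf (nat_lit 0) (nat_lit 27010067948) (nat_lit 152) (nat_lit 22880664110) (nat_lit 0) (nat_lit 20217090425) (nat_lit 5) (nat_lit 5) (nat_lit 7) (nat_lit 4) (nat_lit 5) (nat_lit 4) (nat_lit 442) (nat_lit 254) (nat_lit 204)) (XT.lf (nat_lit 0) (nat_lit 31253084352) (nat_lit 152) (nat_lit 16445055723) (nat_lit 0) (nat_lit 24401637795)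 (nat_lit 5) (nat_lit 5) (nat_lit 7) (nat_lit 4) (nat_lit 5) (nat_lit 4) (nat_lit 443) (nat_lit 254) (nat_lit 203))) (XT.nd (nat_lit 78) (nat_lit 0) (nat_lit 0) (XT.lf (nat_lit 0) (nat_lit 35589997920) (nat_lit 152) (nat_lit 9880713896) (nat_lit 0) (nat_lit 28681785311) (nat_lit 5) (nat_lit 5) (nat_lit 7) (nat_lit 4) (nat_lit 5) (nat_lit 4) (nat_lit 444) (nat_lit 254) (nat_lit 202)) (XT.lf (nat_lit 0) (nat_lit 40024598190) (nat_lit 152) (nat_lit 3181902796) (nat_lit 0) (nat_lit 33061272909) (nat_lit 5) (nat_lit 5) (nat_lit 7) (nat_lit 4) (nat_lit 5) (nat_lit 4) (nat_lit 445) (nat_lit 254) (nat_lit 201))))) (XT.nd (nat_lit 234) (nat_lit 0) (nat_lit 0) (XT.nd (nat_lit 78) (nat_lit 0) (nat_lit 0) (XT.lf (nat_lit 0) (nat_lit 3730016972) (nat_lit 76) (nat_lit 40866598286) (nat_lit 76) (nat_lit 33849765557) (nat_lit 4) (nat_lit 4) (nat_lit 5) (nat_lit 5) (nat_lit 5) (nat_lit 4) (nat_lit 446) (nat_lit 254) (nat_lit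 200)) (XT.nd (nat_lit 78) (nat_lit 0) (nat_lit 0) (XT.lf (nat_lit 0) (nat_lit 10854473019) (nat_lit 76) (nat_lit 38452313965) (nat_lit 76) (nat_lit 31383532257) (nat_lit 4) (nat_lit 4) (nat_lit 5) (nat_lit 5) (nat_lit 5) (nat_lit 4) (nat_lit 447) (nat_lit 254) (nat_lit 199)) (XT.lf (nat_lit 0) (nat_lit 18134364491) (nat_lit 76) (nat_lit 35993669432) (nat_lit 76) (nat_lit 28874451822) (nat_lit 4) (nat_lit 4) (nat_lit 5) (nat_lit 5) (nat_lit 5) (nat_lit 4) (nat_lit 448) (nat_lit 254) (nat_lit 198)))) (XT.nd (nat_lit 42276) (nat_lit 0) (nat_lit 1596) (XT.nd (nat_lit 78) (nat_lit 0) (nat_lit 0) (XT.lf (nat_lit 0) (nat_lit 25576052460) (nat_lit 76) (nat_lit 33488516358) (nat_lit 76) (nat_lit 26320331853) (nat_lit 4) (nat_lit 4) (nat_lit 5) (nat_lit 5) (nat_lit 5) (nat_lit 4) (nat_lit 449) (nat_lit 254) (nat_lit 197)) (XT.lf (nat_lit 0) (nat_lit 33186039370) (nat_lit 76) (nat_lit 30934665774) (nat_lit 76) (nat_lit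 23718940594) (nat_lit 4) (nat_lit 4) (nat_lit 5) (nat_lit 5) (nat_lit 5) (nat_lit 4) (nat_lit 450) (nat_lit 254) (nat_lit 196))) (XT.nd (nat_lit 78) (nat_lit 152) (nat_lit 0) (XT.lf (nat_lit 0) (nat_lit 3703260350) (nat_lit 152) (nat_lit 2001027609) (nat_lit 0) (nat_lit 3703260350) (nat_lit 27) (nat_lit 5) (nat_lit 29) (nat_lit 4) (nat_lit 27) (nat_lit 4) (nat_lit 390) (nat_lit 255) (nat_lit 255)) (XT.lf (nat_lit 0) (nat_lit 5768330674) (nat_lit 152) (nat_lit 6887053733) (nat_lit 152) (nat_lit 6562351745) (nat_lit 25) (nat_lit 4) (nat_lit 27) (nat_lit 5) (nat_lit 27) (nat_lit 4) (nat_lit 391) (nat_lit 255) (nat_lit 254))))))))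
noncomputable def xc17 : XT := (XT.nd (nat_lit 2028) (nat_lit 456) (nat_lit 0) (XT.nd (nat_lit 1014) (nat_lit 456) (nat_lit 0) (XT.nd (nat_lit 468) (nat_lit 228) (nat_lit 0) (XT.nd (nat_lit 234) (nat_lit 228) (nat_lit 0) (XT.nd (nat_lit 78) (nat_lit 152) (nat_lit 0) (XT.lf (nat_lit 0) (nat_lit 15721175072) (nat_lit 152) (nat_lit 2276582038) (nat_lit 152) (nat_lit 1636635402) (nat_lit 25) (nat_lit 4) (nat_lit 27) (nat_lit 5) (nat_lit 27) (nat_lit 4) (nat_lit 392) (nat_lit 255) (nat_lit 253)) (XT.nd (nat_lit 78) (nat_lit 0) (nat_lit 0) (XT.lf (nat_lit 0) (nat_lit 3346998865) (nat_lit 152) (nat_lit 14287716944) (nat_lit 0) (nat_lit 2428543135) (nat_lit 23) (nat_lit 5) (nat_lit 25) (nat_lit 4) (nat_lit 23) (nat_lit 4) (nat_lit 393) (nat_lit 255) (nat_lit 252)) (XT.lf (nat_lit 0) (nat_lit 8407696800) (nat_lit 152) (nat_lit 4897264730) (nat_lit 0) (nat_lit 7200747559) (nat_lit 23) (nat_lit 5) (nat_lit 25) (nat_lit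 4) (nat_lit 23) (nat_lit 4) (nat_lit 394) (nat_lit 255) (nat_lit 251)))) (XT.nd (nat_lit 78) (nat_lit 152) (nat_lit 0) (XT.lf (nat_lit 0) (nat_lit 4682284620) (nat_lit 76) (nat_lit 8883912759) (nat_lit 76) (nat_lit 7396872731) (nat_lit 22) (nat_lit 4) (nat_lit 23) (nat_lit 5) (nat_lit 23) (nat_lit 4) (nat_lit 395) (nat_lit 255) (nat_lit 250)) (XT.nd (nat_lit 78) (nat_lit 152) (nat_lit 0) (XT.lf (nat_lit 0) (nat_lit 14467428679) (nat_lit 76) (nat_lit 4363582847) (nat_lit 76) (nat_lit 2604610015) (nat_lit 22) (nat_lit 4) (nat_lit 23) (nat_lit 5) (nat_lit 23) (nat_lit 4) (nat_lit 396) (nat_lit 255) (nat_lit 249)) (XT.lf (nat_lit 0) (nat_lit 2216148737) (nat_lit 152) (nat_lit 19455551790) (nat_lit 0) (nat_lit 252085376) (nat_lit 20) (nat_lit 5) (nat_lit 22) (nat_lit 4) (nat_lit 20) (nat_lit 4) (nat_lit 397) (nat_lit 255) (nat_lit 248))))) (XT.nd (nat_lit 234) (nat_lit 152) (nat_lit 0) (XT.nd (nat_lit 78) (nat_lit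 76) (nat_lit 0) (XT.lf (nat_lit 0) (nat_lit 7147750836) (nat_lit 152) (nat_lit 10342698105) (nat_lit 0) (nat_lit 4934830438) (nat_lit 20) (nat_lit 5) (nat_lit 22) (nat_lit 4) (nat_lit 20) (nat_lit 4) (nat_lit 398) (nat_lit 255) (nat_lit 247)) (XT.nd (nat_lit 78) (nat_lit 76) (nat_lit 0) (XT.lf (nat_lit 0) (nat_lit 12134393333) (nat_lit 152) (nat_lit 1130361906) (nat_lit 0) (nat_lit 9679864163) (nat_lit 20) (nat_lit 5) (nat_lit 22) (nat_lit 4) (nat_lit 20) (nat_lit 4) (nat_lit 399) (nat_lit 255) (nat_lit 246)) (XT.lf (nat_lit 0) (nat_lit 8352493655) (nat_lit 76) (nat_lit 8908229114) (nat_lit 76) (nat_lit 6219128318) (nat_lit 19) (nat_lit 4) (nat_lit 20) (nat_lit 5) (nat_lit 20) (nat_lit 4) (nat_lit 400) (nat_lit 255) (nat_lit 245)))) (XT.nd (nat_lit 156) (nat_lit 0) (nat_lit 0) (XT.nd (nat_lit 78) (nat_lit 152) (nat_lit 0) (XT.lf (nat_lit 0) (nat_lit 17975823511) (nat_lit 76) (nat_lit 4487251569) (nat_lit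 76) (nat_lit 1570411332) (nat_lit 19) (nat_lit 4) (nat_lit 20) (nat_lit 5) (nat_lit 20) (nat_lit 4) (nat_lit 401) (nat_lit 255) (nat_lit 244)) (XT.lf (nat_lit 0) (nat_lit 3098315761) (nat_lit 152) (nat_lit 21454434062) (nat_lit 0) (nat_lit 51765770) (nat_lit 17) (nat_lit 5) (nat_lit 19) (nat_lit 4) (nat_lit 17) (nat_lit 4) (nat_lit 402) (nat_lit 255) (nat_lit 243))) (XT.nd (nat_lit 78) (nat_lit 0) (nat_lit 0) (XT.lf (nat_lit 0) (nat_lit 7894546242) (nat_lit 152) (nat_lit 12657522909) (nat_lit 0) (nat_lit 4639582400) (nat_lit 17) (nat_lit 5) (nat_lit 19) (nat_lit 4) (nat_lit 17) (nat_lit 4) (nat_lit 403) (nat_lit 255) (nat_lit 242)) (XT.lf (nat_lit 0) (nat_lit 12750004304) (nat_lit 152) (nat_lit 3756252300) (nat_lit 0) (nat_lit 9292696918) (nat_lit 17) (nat_lit 5) (nat_lit 19) (nat_lit 4) (nat_lit 17) (nat_lit 4) (nat_lit 404) (nat_lit 255) (nat_lit 241)))))) (XT.nd (nat_lit 468) (nat_lit 228) (nat_lit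 0) (XT.nd (nat_lit 234) (nat_lit 76) (nat_lit 0) (XT.nd (nat_lit 78) (nat_lit 76) (nat_lit 0) (XT.lf (nat_lit 0) (nat_lit 5361783278) (nat_lit 76) (nat_lit 12358690044) (nat_lit 76) (nat_lit 8704932615) (nat_lit 16) (nat_lit 4) (nat_lit 17) (nat_lit 5) (nat_lit 17) (nat_lit 4) (nat_lit 405) (nat_lit 255) (nat_lit 240)) (XT.nd (nat_lit 78) (nat_lit 76) (nat_lit 0) (XT.lf (nat_lit 0) (nat_lit 14676977197) (nat_lit 76) (nat_lit 8119736052) (nat_lit 76) (nat_lit 4275250427) (nat_lit 16) (nat_lit 4) (nat_lit 17) (nat_lit 5) (nat_lit 17) (nat_lit 4) (nat_lit 406) (nat_lit 255) (nat_lit 239)) (XT.lf (nat_lit 0) (nat_lit 202016631) (nat_lit 152) (nat_lit 3619564869) (nat_lit 76) (nat_lit 23918655556) (nat_lit 15) (nat_lit 5) (nat_lit 17) (nat_lit 5) (nat_lit 16) (nat_lit 4) (nat_lit 407) (nat_lit 255) (nat_lit 238)))) (XT.nd (nat_lit 78) (nat_lit 0) (nat_lit 0) (XT.lf (nat_lit 0) (nat_lit 4707663399) (nat_lit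 152) (nat_lit 23099406001) (nat_lit 0) (nat_lit 620830146) (nat_lit 14) (nat_lit 5) (nat_lit 16) (nat_lit 4) (nat_lit 14) (nat_lit 4) (nat_lit 408) (nat_lit 255) (nat_lit 237)) (XT.nd (nat_lit 78) (nat_lit 0) (nat_lit 0) (XT.lf (nat_lit 0) (nat_lit 9346059251) (nat_lit 152) (nat_lit 14700448982) (nat_lit 0) (nat_lit 5089766466) (nat_lit 14) (nat_lit 5) (nat_lit 16) (nat_lit 4) (nat_lit 14) (nat_lit 4) (nat_lit 409) (nat_lit 255) (nat_lit 236)) (XT.lf (nat_lit 0) (nat_lit 14048684501) (nat_lit 152) (nat_lit 6191606265) (nat_lit 0) (nat_lit 9627867898) (nat_lit 14) (nat_lit 5) (nat_lit 16) (nat_lit 4) (nat_lit 14) (nat_lit 4) (nat_lit 410) (nat_lit 255) (nat_lit 235))))) (XT.nd (nat_lit 234) (nat_lit 152) (nat_lit 0) (XT.nd (nat_lit 78) (nat_lit 0) (nat_lit 0) (XT.lf (nat_lit 0) (nat_lit 2483009519) (nat_lit 76) (nat_lit 16360506925) (nat_lit 76) (nat_lit 11779958460) (nat_lit 13) (nat_lit 4) (nat_lit 14)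 (nat_lit 5) (nat_lit 14) (nat_lit 4) (nat_lit 411) (nat_lit 255) (nat_lit 234)) (XT.nd (nat_lit 78) (nat_lit 0) (nat_lit 0) (XT.lf (nat_lit 0) (nat_lit 11408193362) (nat_lit 76) (nat_lit 12364588438) (nat_lit 76) (nat_lit 7628960495) (nat_lit 13) (nat_lit 4) (nat_lit 14) (nat_lit 5) (nat_lit 14) (nat_lit 4) (nat_lit 412) (nat_lit 255) (nat_lit 233)) (XT.lf (nat_lit 0) (nat_lit 20468518863) (nat_lit 76) (nat_lit 8311566807) (nat_lit 76) (nat_lit 3425376264) (nat_lit 13) (nat_lit 4) (nat_lit 14) (nat_lit 5) (nat_lit 14) (nat_lit 4) (nat_lit 413) (nat_lit 255) (nat_lit 232)))) (XT.nd (nat_lit 156) (nat_lit 0) (nat_lit 0) (XT.nd (nat_lit 78) (nat_lit 76) (nat_lit 0) (XT.lf (nat_lit 0) (nat_lit 818183803) (nat_lit 152) (nat_lit 3371454703) (nat_lit 76) (nat_lit 28845456954) (nat_lit 12) (nat_lit 5) (nat_lit 14) (nat_lit 5) (nat_lit 13) (nat_lit 4) (nat_lit 414) (nat_lit 255) (nat_lit 231)) (XT.lf (nat_lit 0)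 (nat_lit 5104355898) (nat_lit 152) (nat_lit 28703952587) (nat_lit 0) (nat_lit 80775787) (nat_lit 11) (nat_lit 5) (nat_lit 13) (nat_lit 4) (nat_lit 11) (nat_lit 4) (nat_lit 415) (nat_lit 255) (nat_lit 230))) (XT.nd (nat_lit 78) (nat_lit 0) (nat_lit 0) (XT.lf (nat_lit 0) (nat_lit 9528650109) (nat_lit 152) (nat_lit 20868467490) (nat_lit 0) (nat_lit 4371297077) (nat_lit 11) (nat_lit 5) (nat_lit 13) (nat_lit 4) (nat_lit 11) (nat_lit 4) (nat_lit 416) (nat_lit 255) (nat_lit 229)) (XT.lf (nat_lit 0) (nat_lit 14021278215) (nat_lit 152) (nat_lit 12920737865) (nat_lit 0) (nat_lit 8734048562) (nat_lit 11) (nat_lit 5) (nat_lit 13) (nat_lit 4) (nat_lit 11) (nat_lit 4) (nat_lit 417) (nat_lit 255) (nat_lit 228))))))) (XT.nd (nat_lit 1014) (nat_lit 152) (nat_lit 0) (XT.nd (nat_lit 468) (nat_lit 152) (nat_lit 0) (XT.nd (nat_lit 234) (nat_lit 76) (nat_lit 0) (XT.nd (nat_lit 78) (nat_lit 76) (nat_lit 0) (XT.lf (nat_lit 0)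 (nat_lit 18586165813) (nat_lit 152) (nat_lit 4853819095) (nat_lit 0) (nat_lit 13172842353) (nat_lit 11) (nat_lit 5) (nat_lit 13) (nat_lit 4) (nat_lit 11) (nat_lit 4) (nat_lit 418) (nat_lit 255) (nat_lit 227)) (XT.nd (nat_lit 78) (nat_lit 0) (nat_lit 0) (XT.lf (nat_lit 0) (nat_lit 3405796949) (nat_lit 76) (nat_lit 19854243295) (nat_lit 76) (nat_lit 14318498664) (nat_lit 10) (nat_lit 4) (nat_lit 11) (nat_lit 5) (nat_lit 11) (nat_lit 4) (nat_lit 419) (nat_lit 255) (nat_lit 226)) (XT.lf (nat_lit 0) (nat_lit 11898065351) (nat_lit 76) (nat_lit 16165047190) (nat_lit 76) (nat_lit 10510447052) (nat_lit 10) (nat_lit 4) (nat_lit 11) (nat_lit 5) (nat_lit 11) (nat_lit 4) (nat_lit 420) (nat_lit 255) (nat_lit 225)))) (XT.nd (nat_lit 78) (nat_lit 76) (nat_lit 0) (XT.lf (nat_lit 0) (nat_lit 20533806022) (nat_lit 76) (nat_lit 12418187080) (nat_lit 76) (nat_lit 6648193246) (nat_lit 10) (nat_lit 4) (nat_lit 11) (nat_lit 5)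 (nat_lit 11) (nat_lit 4) (nat_lit 421) (nat_lit 255) (nat_lit 224)) (XT.nd (nat_lit 78) (nat_lit 76) (nat_lit 0) (XT.lf (nat_lit 0) (nat_lit 29320564755) (nat_lit 76) (nat_lit 8610389010) (nat_lit 76) (nat_lit 2728362461) (nat_lit 10) (nat_lit 4) (nat_lit 11) (nat_lit 5) (nat_lit 11) (nat_lit 4) (nat_lit 422) (nat_lit 255) (nat_lit 223)) (XT.lf (nat_lit 0) (nat_lit 1228030188) (nat_lit 152) (nat_lit 3497894891) (nat_lit 76) (nat_lit 37025588413) (nat_lit 9) (nat_lit 5) (nat_lit 11) (nat_lit 5) (nat_lit 10) (nat_lit 4) (nat_lit 423) (nat_lit 255) (nat_lit 222))))) (XT.nd (nat_lit 234) (nat_lit 76) (nat_lit 0) (XT.nd (nat_lit 78) (nat_lit 0) (nat_lit 0) (XT.lf (nat_lit 0) (nat_lit 4536772945) (nat_lit 76) (nat_lit 701242176) (nat_lit 152) (nat_lit 37637965173) (nat_lit 8) (nat_lit 5) (nat_lit 9) (nat_lit 5) (nat_lit 10) (nat_lit 4) (nat_lit 424) (nat_lit 255) (nat_lit 221)) (XT.nd (nat_lit 78) (nat_lit 0)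 (nat_lit 0) (XT.lf (nat_lit 0) (nat_lit 9383328272) (nat_lit 152) (nat_lit 31285452061) (nat_lit 0) (nat_lit 3364955887) (nat_lit 8) (nat_lit 5) (nat_lit 10) (nat_lit 4) (nat_lit 8) (nat_lit 4) (nat_lit 425) (nat_lit 255) (nat_lit 220)) (XT.lf (nat_lit 0) (nat_lit 13607758848) (nat_lit 152) (nat_lit 24127082979) (nat_lit 0) (nat_lit 7492746060) (nat_lit 8) (nat_lit 5) (nat_lit 10) (nat_lit 4) (nat_lit 8) (nat_lit 4) (nat_lit 426) (nat_lit 255) (nat_lit 219)))) (XT.nd (nat_lit 156) (nat_lit 76) (nat_lit 0) (XT.nd (nat_lit 78) (nat_lit 0) (nat_lit 0) (XT.lf (nat_lit 0) (nat_lit 17908257331) (nat_lit 152) (nat_lit 16851104451) (nat_lit 0) (nat_lit 11699418908) (nat_lit 8) (nat_lit 5) (nat_lit 10) (nat_lit 4) (nat_lit 8) (nat_lit 4) (nat_lit 427) (nat_lit 255) (nat_lit 218)) (XT.lf (nat_lit 0) (nat_lit 22288581438) (nat_lit 152) (nat_lit 9451158825) (nat_lit 0) (nat_lit 15988650166) (nat_lit 8) (nat_lit 5)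 (nat_lit 10) (nat_lit 4) (nat_lit 8) (nat_lit 4) (nat_lit 428) (nat_lit 255) (nat_lit 217))) (XT.nd (nat_lit 78) (nat_lit 76) (nat_lit 0) (XT.lf (nat_lit 0) (nat_lit 26752558638) (nat_lit 152) (nat_lit 1920780129) (nat_lit 0) (nat_lit 20364187706) (nat_lit 8) (nat_lit 5) (nat_lit 10) (nat_lit 4) (nat_lit 8) (nat_lit 4) (nat_lit 429) (nat_lit 255) (nat_lit 216)) (XT.lf (nat_lit 0) (nat_lit 5860980416) (nat_lit 76) (nat_lit 25499448404) (nat_lit 76) (nat_lit 19025213725) (nat_lit 7) (nat_lit 4) (nat_lit 8) (nat_lit 5) (nat_lit 8) (nat_lit 4) (nat_lit 430) (nat_lit 255) (nat_lit 215)))))) (XT.nd (nat_lit 546) (nat_lit 0) (nat_lit 0) (XT.nd (nat_lit 234) (nat_lit 152) (nat_lit 0) (XT.nd (nat_lit 78) (nat_lit 0) (nat_lit 0) (XT.lf (nat_lit 0) (nat_lit 13827541092) (nat_lit 76) (nat_lit 22252528756) (nat_lit 76) (nat_lit 15694931217) (nat_lit 7) (nat_lit 4) (nat_lit 8) (nat_lit 5) (nat_lit 8) (nat_lit 4) (nat_lit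 431) (nat_lit 255) (nat_lit 214)) (XT.nd (nat_lit 78) (nat_lit 0) (nat_lit 0) (XT.lf (nat_lit 0) (nat_lit 21947635680) (nat_lit 76) (nat_lit 18949138823) (nat_lit 76) (nat_lit 12310606467) (nat_lit 7) (nat_lit 4) (nat_lit 8) (nat_lit 5) (nat_lit 8) (nat_lit 4) (nat_lit 432) (nat_lit 255) (nat_lit 213)) (XT.lf (nat_lit 0) (nat_lit 30228359407) (nat_lit 76) (nat_lit 15586392148) (nat_lit 76) (nat_lit 8869282300) (nat_lit 7) (nat_lit 4) (nat_lit 8) (nat_lit 5) (nat_lit 8) (nat_lit 4) (nat_lit 433) (nat_lit 255) (nat_lit 212)))) (XT.nd (nat_lit 156) (nat_lit 152) (nat_lit 0) (XT.nd (nat_lit 78) (nat_lit 0) (nat_lit 0) (XT.lf (nat_lit 0) (nat_lit 38676947858) (nat_lit 76) (nat_lit 12161350407) (nat_lit 76) (nat_lit 5367951733) (nat_lit 7) (nat_lit 4) (nat_lit 8) (nat_lit 5) (nat_lit 8) (nat_lit 4) (nat_lit 434) (nat_lit 255) (nat_lit 211)) (XT.lf (nat_lit 0) (nat_lit 47300783294) (nat_lit 76) (nat_lit 8671020847)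 (nat_lit 76) (nat_lit 1803555351) (nat_lit 7) (nat_lit 4) (nat_lit 8) (nat_lit 5) (nat_lit 8) (nat_lit 4) (nat_lit 435) (nat_lit 255) (nat_lit 210))) (XT.nd (nat_lit 78) (nat_lit 76) (nat_lit 0) (XT.lf (nat_lit 0) (nat_lit 1791369599) (nat_lit 152) (nat_lit 3302894745) (nat_lit 76) (nat_lit 54297942185) (nat_lit 6) (nat_lit 5) (nat_lit 8) (nat_lit 5) (nat_lit 7) (nat_lit 4) (nat_lit 436) (nat_lit 255) (nat_lit 209)) (XT.lf (nat_lit 0) (nat_lit 4071023320) (nat_lit 76) (nat_lit 1387209899) (nat_lit 152) (nat_lit 55598783903) (nat_lit 5) (nat_lit 5) (nat_lit 6) (nat_lit 5) (nat_lit 7) (nat_lit 4) (nat_lit 437) (nat_lit 255) (nat_lit 208))))) (XT.nd (nat_lit 234) (nat_lit 0) (nat_lit 0) (XT.nd (nat_lit 78) (nat_lit 0) (nat_lit 0) (XT.lf (nat_lit 0) (nat_lit 9253442516) (nat_lit 152) (nat_lit 51135187122) (nat_lit 0) (nat_lit 2382596155) (nat_lit 5) (nat_lit 5) (nat_lit 7) (nat_lit 4) (nat_lit 5) (nat_lit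 4) (nat_lit 438) (nat_lit 255) (nat_lit 207)) (XT.nd (nat_lit 78) (nat_lit 0) (nat_lit 0) (XT.lf (nat_lit 0) (nat_lit 13138658358) (nat_lit 152) (nat_lit 45195000389) (nat_lit 0) (nat_lit 6203921306) (nat_lit 5) (nat_lit 5) (nat_lit 7) (nat_lit 4) (nat_lit 5) (nat_lit 4) (nat_lit 439) (nat_lit 255) (nat_lit 206)) (XT.lf (nat_lit 0) (nat_lit 17103940885) (nat_lit 152) (nat_lit 39146908440) (nat_lit 0) (nat_lit 10107174036) (nat_lit 5) (nat_lit 5) (nat_lit 7) (nat_lit 4) (nat_lit 5) (nat_lit 4) (nat_lit 440) (nat_lit 255) (nat_lit 205)))) (XT.nd (nat_lit 156) (nat_lit 0) (nat_lit 0) (XT.nd (nat_lit 78) (nat_lit 0) (nat_lit 0) (XT.lf (nat_lit 0) (nat_lit 21152754908) (nat_lit 152) (nat_lit 32985626534) (nat_lit 0) (nat_lit 14095764954) (nat_lit 5) (nat_lit 5) (nat_lit 7) (nat_lit 4) (nat_lit 5) (nat_lit 4) (nat_lit 441) (nat_lit 255) (nat_lit 204)) (XT.lf (nat_lit 0) (nat_lit 25288638224) (nat_lit 152) (nat_lit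 26705771026) (nat_lit 0) (nat_lit 18173179237) (nat_lit 5) (nat_lit 5) (nat_lit 7) (nat_lit 4) (nat_lit 5) (nat_lit 4) (nat_lit 442) (nat_lit 255) (nat_lit 203))) (XT.nd (nat_lit 78) (nat_lit 0) (nat_lit 0) (XT.lf (nat_lit 0) (nat_lit 29515204713) (nat_lit 152) (nat_lit 20301854664) (nat_lit 0) (nat_lit 22342979674) (nat_lit 5) (nat_lit 5) (nat_lit 7) (nat_lit 4) (nat_lit 5) (nat_lit 4) (nat_lit 443) (nat_lit 255) (nat_lit 202)) (XT.lf (nat_lit 0) (nat_lit 33836147490) (nat_lit 152) (nat_lit 13768281794) (nat_lit 0) (nat_lit 26608809779) (nat_lit 5) (nat_lit 5) (nat_lit 7) (nat_lit 4) (nat_lit 5) (nat_lit 4) (nat_lit 444) (nat_lit 255) (nat_lit 201))))))))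
noncomputable def xc18 : XT := (XT.nd (nat_lit 43992) (nat_lit 0) (nat_lit 228) (XT.nd (nat_lit 42978) (nat_lit 0) (nat_lit 912) (XT.nd (nat_lit 42432) (nat_lit 0) (nat_lit 1444) (XT.nd (nat_lit 234) (nat_lit 0) (nat_lit 0) (XT.nd (nat_lit 78) (nat_lit 76) (nat_lit 0) (XT.lf (nat_lit 0) (nat_lit 38255242138) (nat_lit 152) (nat_lit 7099343467) (nat_lit 0) (nat_lit 30974396978) (nat_lit 5) (nat_lit 5) (nat_lit 7) (nat_lit 4) (nat_lit 5) (nat_lit 4) (nat_lit 445) (nat_lit 255) (nat_lit 200)) (XT.nd (nat_lit 78) (nat_lit 76) (nat_lit 0) (XT.lf (nat_lit 0) (nat_lit 42776349999) (nat_lit 152) (nat_lit 289212457) (nat_lit 0) (nat_lit 35443555861) (nat_lit 5) (nat_lit 5) (nat_lit 7) (nat_lit 4) (nat_lit 5) (nat_lit 4) (nat_lit 446) (nat_lit 255) (nat_lit 199)) (XT.lf (nat_lit 0) (nat_lit 6800769341) (nat_lit 76) (nat_lit 40668025372) (nat_lit 76) (nat_lit 33284795331) (nat_lit 4) (nat_lit 4) (nat_lit 5) (nat_lit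 5) (nat_lit 5) (nat_lit 4) (nat_lit 447) (nat_lit 255) (nat_lit 198)))) (XT.nd (nat_lit 78) (nat_lit 0) (nat_lit 0) (XT.lf (nat_lit 0) (nat_lit 14052778918) (nat_lit 76) (nat_lit 38222804876) (nat_lit 76) (nat_lit 30790607940) (nat_lit 4) (nat_lit 4) (nat_lit 5) (nat_lit 5) (nat_lit 5) (nat_lit 4) (nat_lit 448) (nat_lit 255) (nat_lit 197)) (XT.nd (nat_lit 78) (nat_lit 0) (nat_lit 0) (XT.lf (nat_lit 0) (nat_lit 21467397085) (nat_lit 76) (nat_lit 35730684847) (nat_lit 76) (nat_lit 28250947237) (nat_lit 4) (nat_lit 4) (nat_lit 5) (nat_lit 5) (nat_lit 5) (nat_lit 4) (nat_lit 449) (nat_lit 255) (nat_lit 196)) (XT.lf (nat_lit 0) (nat_lit 29051102634) (nat_lit 76) (nat_lit 33189487705) (nat_lit 76) (nat_lit 25663594100) (nat_lit 4) (nat_lit 4) (nat_lit 5) (nat_lit 5) (nat_lit 5) (nat_lit 4) (nat_lit 450) (nat_lit 255) (nat_lit 195))))) (XT.nd (nat_lit 234) (nat_lit 304) (nat_lit 0) (XT.nd (nat_lit 78) (nat_lit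 152) (nat_lit 0) (XT.lf (nat_lit 0) (nat_lit 6596632529) (nat_lit 152) (nat_lit 1213259481) (nat_lit 152) (nat_lit 1213259481) (nat_lit 29) (nat_lit 4) (nat_lit 31) (nat_lit 5) (nat_lit 31) (nat_lit 4) (nat_lit 388) (nat_lit 256) (nat_lit 256)) (XT.nd (nat_lit 78) (nat_lit 0) (nat_lit 0) (XT.lf (nat_lit 0) (nat_lit 2596295721) (nat_lit 152) (nat_lit 13567515513) (nat_lit 0) (nat_lit 2261852674) (nat_lit 27) (nat_lit 5) (nat_lit 29) (nat_lit 4) (nat_lit 27) (nat_lit 4) (nat_lit 389) (nat_lit 256) (nat_lit 255)) (XT.lf (nat_lit 0) (nat_lit 7688947451) (nat_lit 152) (nat_lit 4097916853) (nat_lit 0) (nat_lit 7029802415) (nat_lit 27) (nat_lit 5) (nat_lit 29) (nat_lit 4) (nat_lit 27) (nat_lit 4) (nat_lit 390) (nat_lit 256) (nat_lit 254)))) (XT.nd (nat_lit 156) (nat_lit 152) (nat_lit 0) (XT.nd (nat_lit 78) (nat_lit 0) (nat_lit 0) (XT.lf (nat_lit 0) (nat_lit 5575639392) (nat_lit 152) (nat_lit 7309818237) (nat_lit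 152) (nat_lit 6335428553) (nat_lit 25) (nat_lit 4) (nat_lit 27) (nat_lit 5) (nat_lit 27) (nat_lit 4) (nat_lit 391) (nat_lit 256) (nat_lit 253)) (XT.lf (nat_lit 0) (nat_lit 15436326689) (nat_lit 152) (nat_lit 2741587424) (nat_lit 152) (nat_lit 1461134974) (nat_lit 25) (nat_lit 4) (nat_lit 27) (nat_lit 5) (nat_lit 27) (nat_lit 4) (nat_lit 392) (nat_lit 256) (nat_lit 252))) (XT.nd (nat_lit 78) (nat_lit 0) (nat_lit 0) (XT.lf (nat_lit 0) (nat_lit 3461492979) (nat_lit 152) (nat_lit 14678266167) (nat_lit 0) (nat_lit 1929841749) (nat_lit 23) (nat_lit 5) (nat_lit 25) (nat_lit 4) (nat_lit 23) (nat_lit 4) (nat_lit 393) (nat_lit 256) (nat_lit 251)) (XT.lf (nat_lit 0) (nat_lit 8473409003) (nat_lit 152) (nat_lit 5378446794) (nat_lit 0) (nat_lit 6661666987) (nat_lit 23) (nat_lit 5) (nat_lit 25) (nat_lit 4) (nat_lit 23) (nat_lit 4) (nat_lit 394) (nat_lit 256) (nat_lit 250)))))) (XT.nd (nat_lit 468) (nat_lit 228) (nat_lit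 0) (XT.nd (nat_lit 234) (nat_lit 76) (nat_lit 0) (XT.nd (nat_lit 78) (nat_lit 152) (nat_lit 0) (XT.lf (nat_lit 0) (nat_lit 4101781804) (nat_lit 76) (nat_lit 9477186552) (nat_lit 76) (nat_lit 7393511733) (nat_lit 22) (nat_lit 4) (nat_lit 23) (nat_lit 5) (nat_lit 23) (nat_lit 4) (nat_lit 395) (nat_lit 256) (nat_lit 249)) (XT.nd (nat_lit 78) (nat_lit 152) (nat_lit 0) (XT.lf (nat_lit 0) (nat_lit 13799795491) (nat_lit 76) (nat_lit 4997167833) (nat_lit 76) (nat_lit 2649480584) (nat_lit 22) (nat_lit 4) (nat_lit 23) (nat_lit 5) (nat_lit 23) (nat_lit 4) (nat_lit 396) (nat_lit 256) (nat_lit 248)) (XT.lf (nat_lit 0) (nat_lit 1692045830) (nat_lit 76) (nat_lit 424237828) (nat_lit 152) (nat_lit 19820021019) (nat_lit 20) (nat_lit 5) (nat_lit 21) (nat_lit 5) (nat_lit 22) (nat_lit 4) (nat_lit 397) (nat_lit 256) (nat_lit 247)))) (XT.nd (nat_lit 78) (nat_lit 76) (nat_lit 0) (XT.lf (nat_lit 0) (nat_lit 6998040401) (nat_lit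 152) (nat_lit 11212993680) (nat_lit 0) (nat_lit 4228266582) (nat_lit 20) (nat_lit 5) (nat_lit 22) (nat_lit 4) (nat_lit 20) (nat_lit 4) (nat_lit 398) (nat_lit 256) (nat_lit 246)) (XT.nd (nat_lit 78) (nat_lit 76) (nat_lit 0) (XT.lf (nat_lit 0) (nat_lit 11940248606) (nat_lit 152) (nat_lit 2083828889) (nat_lit 0) (nat_lit 8935903161) (nat_lit 20) (nat_lit 5) (nat_lit 22) (nat_lit 4) (nat_lit 20) (nat_lit 4) (nat_lit 399) (nat_lit 256) (nat_lit 245)) (XT.lf (nat_lit 0) (nat_lit 7297694808) (nat_lit 76) (nat_lit 9715603771) (nat_lit 76) (nat_lit 6483518885) (nat_lit 19) (nat_lit 4) (nat_lit 20) (nat_lit 5) (nat_lit 20) (nat_lit 4) (nat_lit 400) (nat_lit 256) (nat_lit 244))))) (XT.nd (nat_lit 234) (nat_lit 76) (nat_lit 0) (XT.nd (nat_lit 78) (nat_lit 152) (nat_lit 0) (XT.lf (nat_lit 0) (nat_lit 16841067380) (nat_lit 76) (nat_lit 5331931328) (nat_lit 76) (nat_lit 1878740188) (nat_lit 19) (nat_lit 4) (nat_lit 20)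 (nat_lit 5) (nat_lit 20) (nat_lit 4) (nat_lit 401) (nat_lit 256) (nat_lit 243)) (XT.nd (nat_lit 78) (nat_lit 0) (nat_lit 0) (XT.lf (nat_lit 0) (nat_lit 1897642682) (nat_lit 76) (nat_lit 843982976) (nat_lit 152) (nat_lit 21882868838) (nat_lit 17) (nat_lit 5) (nat_lit 18) (nat_lit 5) (nat_lit 19) (nat_lit 4) (nat_lit 402) (nat_lit 256) (nat_lit 242)) (XT.lf (nat_lit 0) (nat_lit 7488039154) (nat_lit 152) (nat_lit 14000422795) (nat_lit 0) (nat_lit 3724669002) (nat_lit 17) (nat_lit 5) (nat_lit 19) (nat_lit 4) (nat_lit 17) (nat_lit 4) (nat_lit 403) (nat_lit 256) (nat_lit 241)))) (XT.nd (nat_lit 156) (nat_lit 0) (nat_lit 0) (XT.nd (nat_lit 78) (nat_lit 76) (nat_lit 0) (XT.lf (nat_lit 0) (nat_lit 12303007794) (nat_lit 152) (nat_lit 5175458025) (nat_lit 0) (nat_lit 8343187600) (nat_lit 17) (nat_lit 5) (nat_lit 19) (nat_lit 4) (nat_lit 17) (nat_lit 4) (nat_lit 404) (nat_lit 256) (nat_lit 240)) (XT.lf (nat_lit 0)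 (nat_lit 3838774834) (nat_lit 76) (nat_lit 13380751770) (nat_lit 76) (nat_lit 9230203379) (nat_lit 16) (nat_lit 4) (nat_lit 17) (nat_lit 5) (nat_lit 17) (nat_lit 4) (nat_lit 405) (nat_lit 256) (nat_lit 239))) (XT.nd (nat_lit 78) (nat_lit 0) (nat_lit 0) (XT.lf (nat_lit 0) (nat_lit 13080611722) (nat_lit 76) (nat_lit 9176284493) (nat_lit 76) (nat_lit 4840563096) (nat_lit 16) (nat_lit 4) (nat_lit 17) (nat_lit 5) (nat_lit 17) (nat_lit 4) (nat_lit 406) (nat_lit 256) (nat_lit 238)) (XT.lf (nat_lit 0) (nat_lit 22455126265) (nat_lit 76) (nat_lit 4913652161) (nat_lit 76) (nat_lit 398151146) (nat_lit 16) (nat_lit 4) (nat_lit 17) (nat_lit 5) (nat_lit 17) (nat_lit 4) (nat_lit 407) (nat_lit 256) (nat_lit 237))))))) (XT.nd (nat_lit 1014) (nat_lit 228) (nat_lit 0) (XT.nd (nat_lit 468) (nat_lit 228) (nat_lit 0) (XT.nd (nat_lit 234) (nat_lit 76) (nat_lit 0) (XT.nd (nat_lit 78) (nat_lit 0) (nat_lit 0) (XT.lf (nat_lit 0)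 (nat_lit 3541470393) (nat_lit 76) (nat_lit 513462969) (nat_lit 152) (nat_lit 24401588481) (nat_lit 14) (nat_lit 5) (nat_lit 15) (nat_lit 5) (nat_lit 16) (nat_lit 4) (nat_lit 408) (nat_lit 256) (nat_lit 236)) (XT.nd (nat_lit 78) (nat_lit 0) (nat_lit 0) (XT.lf (nat_lit 0) (nat_lit 8651485871) (nat_lit 152) (nat_lit 16581150343) (nat_lit 0) (nat_lit 3933520951) (nat_lit 14) (nat_lit 5) (nat_lit 16) (nat_lit 4) (nat_lit 14) (nat_lit 4) (nat_lit 409) (nat_lit 256) (nat_lit 235)) (XT.lf (nat_lit 0) (nat_lit 13318278476) (nat_lit 152) (nat_lit 8140260667) (nat_lit 0) (nat_lit 8440581694) (nat_lit 14) (nat_lit 5) (nat_lit 16) (nat_lit 4) (nat_lit 14) (nat_lit 4) (nat_lit 410) (nat_lit 256) (nat_lit 234)))) (XT.nd (nat_lit 78) (nat_lit 0) (nat_lit 0) (XT.lf (nat_lit 0) (nat_lit 428286240) (nat_lit 76) (nat_lit 17630283946) (nat_lit 76) (nat_lit 12597507687) (nat_lit 13) (nat_lit 4) (nat_lit 14) (nat_lit 5) (nat_lit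 14) (nat_lit 4) (nat_lit 411) (nat_lit 256) (nat_lit 233)) (XT.nd (nat_lit 78) (nat_lit 0) (nat_lit 0) (XT.lf (nat_lit 0) (nat_lit 9288143059) (nat_lit 76) (nat_lit 13665288814) (nat_lit 76) (nat_lit 8481949955) (nat_lit 13) (nat_lit 4) (nat_lit 14) (nat_lit 5) (nat_lit 14) (nat_lit 4) (nat_lit 412) (nat_lit 256) (nat_lit 232)) (XT.lf (nat_lit 0) (nat_lit 18285044264) (nat_lit 76) (nat_lit 9642289859) (nat_lit 76) (nat_lit 4312773719) (nat_lit 13) (nat_lit 4) (nat_lit 14) (nat_lit 5) (nat_lit 14) (nat_lit 4) (nat_lit 413) (nat_lit 256) (nat_lit 231))))) (XT.nd (nat_lit 234) (nat_lit 76) (nat_lit 0) (XT.nd (nat_lit 78) (nat_lit 152) (nat_lit 0) (XT.lf (nat_lit 0) (nat_lit 27426851225) (nat_lit 76) (nat_lit 5557771839) (nat_lit 76) (nat_lit 86336008) (nat_lit 13) (nat_lit 4) (nat_lit 14) (nat_lit 5) (nat_lit 14) (nat_lit 4) (nat_lit 414) (nat_lit 256) (nat_lit 230)) (XT.nd (nat_lit 78) (nat_lit 0) (nat_lit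 0) (XT.lf (nat_lit 0) (nat_lit 2807287593) (nat_lit 76) (nat_lit 1338776215) (nat_lit 152) (nat_lit 29780576643) (nat_lit 11) (nat_lit 5) (nat_lit 12) (nat_lit 5) (nat_lit 13) (nat_lit 4) (nat_lit 415) (nat_lit 256) (nat_lit 229)) (XT.lf (nat_lit 0) (nat_lit 8525767242) (nat_lit 152) (nat_lit 23331501100) (nat_lit 0) (nat_lit 2950044079) (nat_lit 11) (nat_lit 5) (nat_lit 13) (nat_lit 4) (nat_lit 11) (nat_lit 4) (nat_lit 416) (nat_lit 256) (nat_lit 228)))) (XT.nd (nat_lit 156) (nat_lit 76) (nat_lit 0) (XT.nd (nat_lit 78) (nat_lit 0) (nat_lit 0) (XT.lf (nat_lit 0) (nat_lit 12987597638) (nat_lit 152) (nat_lit 15442511743) (nat_lit 0) (nat_lit 7285780668) (nat_lit 11) (nat_lit 5) (nat_lit 13) (nat_lit 4) (nat_lit 11) (nat_lit 4) (nat_lit 417) (nat_lit 256) (nat_lit 227)) (XT.lf (nat_lit 0) (nat_lit 17522584548) (nat_lit 152) (nat_lit 7432622359) (nat_lit 0) (nat_lit 11698346405) (nat_lit 11) (nat_lit 5) (nat_lit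 13) (nat_lit 4) (nat_lit 11) (nat_lit 4) (nat_lit 418) (nat_lit 256) (nat_lit 226))) (XT.nd (nat_lit 78) (nat_lit 0) (nat_lit 0) (XT.lf (nat_lit 0) (nat_lit 719200169) (nat_lit 76) (nat_lit 21422403802) (nat_lit 76) (nat_lit 15479310153) (nat_lit 10) (nat_lit 4) (nat_lit 11) (nat_lit 5) (nat_lit 11) (nat_lit 4) (nat_lit 419) (nat_lit 256) (nat_lit 225)) (XT.lf (nat_lit 0) (nat_lit 9156643063) (nat_lit 76) (nat_lit 17759321923) (nat_lit 76) (nat_lit 11700834578) (nat_lit 10) (nat_lit 4) (nat_lit 11) (nat_lit 5) (nat_lit 11) (nat_lit 4) (nat_lit 420) (nat_lit 256) (nat_lit 224)))))) (XT.nd (nat_lit 546) (nat_lit 76) (nat_lit 0) (XT.nd (nat_lit 234) (nat_lit 152) (nat_lit 0) (XT.nd (nat_lit 78) (nat_lit 0) (nat_lit 0) (XT.lf (nat_lit 0) (nat_lit 17739155084) (nat_lit 76) (nat_lit 14037815430) (nat_lit 76) (nat_lit 7867295371) (nat_lit 10) (nat_lit 4) (nat_lit 11) (nat_lit 5) (nat_lit 11) (nat_lit 4) (nat_lit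 421) (nat_lit 256) (nat_lit 223)) (XT.nd (nat_lit 78) (nat_lit 0) (nat_lit 0) (XT.lf (nat_lit 0) (nat_lit 26474235516) (nat_lit 76) (nat_lit 10254632522) (nat_lit 76) (nat_lit 3975342837) (nat_lit 10) (nat_lit 4) (nat_lit 11) (nat_lit 5) (nat_lit 11) (nat_lit 4) (nat_lit 422) (nat_lit 256) (nat_lit 222)) (XT.lf (nat_lit 0) (nat_lit 35369516952) (nat_lit 76) (nat_lit 6406467505) (nat_lit 76) (nat_lit 21576241) (nat_lit 10) (nat_lit 4) (nat_lit 11) (nat_lit 5) (nat_lit 11) (nat_lit 4) (nat_lit 423) (nat_lit 256) (nat_lit 221)))) (XT.nd (nat_lit 156) (nat_lit 0) (nat_lit 0) (XT.nd (nat_lit 78) (nat_lit 0) (nat_lit 0) (XT.lf (nat_lit 0) (nat_lit 1498312713) (nat_lit 76) (nat_lit 2435544321) (nat_lit 152) (nat_lit 38989828815) (nat_lit 8) (nat_lit 5) (nat_lit 9) (nat_lit 5) (nat_lit 10) (nat_lit 4) (nat_lit 424) (nat_lit 256) (nat_lit 220)) (XT.lf (nat_lit 0) (nat_lit 8036792134) (nat_lit 152) (nat_lit 34404235282)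 (nat_lit 0) (nat_lit 1641688559) (nat_lit 8) (nat_lit 5) (nat_lit 10) (nat_lit 4) (nat_lit 8) (nat_lit 4) (nat_lit 425) (nat_lit 256) (nat_lit 219))) (XT.nd (nat_lit 78) (nat_lit 0) (nat_lit 0) (XT.lf (nat_lit 0) (nat_lit 12236264577) (nat_lit 152) (nat_lit 27293719218) (nat_lit 0) (nat_lit 5747335367) (nat_lit 8) (nat_lit 5) (nat_lit 10) (nat_lit 4) (nat_lit 8) (nat_lit 4) (nat_lit 426) (nat_lit 256) (nat_lit 218)) (XT.lf (nat_lit 0) (nat_lit 16512531863) (nat_lit 152) (nat_lit 20064199930) (nat_lit 0) (nat_lit 9932509804) (nat_lit 8) (nat_lit 5) (nat_lit 10) (nat_lit 4) (nat_lit 8) (nat_lit 4) (nat_lit 427) (nat_lit 256) (nat_lit 217))))) (XT.nd (nat_lit 234) (nat_lit 0) (nat_lit 0) (XT.nd (nat_lit 78) (nat_lit 76) (nat_lit 0) (XT.lf (nat_lit 0) (nat_lit 20869330536) (nat_lit 152) (nat_lit 12709360363) (nat_lit 0) (nat_lit 14200868818) (nat_lit 8) (nat_lit 5) (nat_lit 10) (nat_lit 4) (nat_lit 8) (nat_lit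 4) (nat_lit 428) (nat_lit 256) (nat_lit 216)) (XT.nd (nat_lit 78) (nat_lit 76) (nat_lit 0) (XT.lf (nat_lit 0) (nat_lit 25310467508) (nat_lit 152) (nat_lit 5222773957) (nat_lit 0) (nat_lit 18556142043) (nat_lit 8) (nat_lit 5) (nat_lit 10) (nat_lit 4) (nat_lit 8) (nat_lit 4) (nat_lit 429) (nat_lit 256) (nat_lit 215)) (XT.lf (nat_lit 0) (nat_lit 2449907483) (nat_lit 76) (nat_lit 27413465910) (nat_lit 76) (nat_lit 20575777583) (nat_lit 7) (nat_lit 4) (nat_lit 8) (nat_lit 5) (nat_lit 8) (nat_lit 4) (nat_lit 430) (nat_lit 256) (nat_lit 214)))) (XT.nd (nat_lit 156) (nat_lit 0) (nat_lit 0) (XT.nd (nat_lit 78) (nat_lit 0) (nat_lit 0) (XT.lf (nat_lit 0) (nat_lit 10374368204) (nat_lit 76) (nat_lit 24186712422) (nat_lit 76) (nat_lit 17268089279) (nat_lit 7) (nat_lit 4) (nat_lit 8) (nat_lit 5) (nat_lit 8) (nat_lit 4) (nat_lit 431) (nat_lit 256) (nat_lit 213)) (XT.lf (nat_lit 0) (nat_lit 18453589048) (nat_lit 76) (nat_lit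 20902901285) (nat_lit 76) (nat_lit 13905700650) (nat_lit 7) (nat_lit 4) (nat_lit 8) (nat_lit 5) (nat_lit 8) (nat_lit 4) (nat_lit 432) (nat_lit 256) (nat_lit 212))) (XT.nd (nat_lit 78) (nat_lit 0) (nat_lit 0) (XT.lf (nat_lit 0) (nat_lit 26694629530) (nat_lit 76) (nat_lit 17559163149) (nat_lit 76) (nat_lit 10485673687) (nat_lit 7) (nat_lit 4) (nat_lit 8) (nat_lit 5) (nat_lit 8) (nat_lit 4) (nat_lit 433) (nat_lit 256) (nat_lit 211)) (XT.lf (nat_lit 0) (nat_lit 35104690558) (nat_lit 76) (nat_lit 14152576302) (nat_lit 76) (nat_lit 7005020018) (nat_lit 7) (nat_lit 4) (nat_lit 8) (nat_lit 5) (nat_lit 8) (nat_lit 4) (nat_lit 434) (nat_lit 256) (nat_lit 210))))))))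
noncomputable def xc19 : XT := (XT.nd (nat_lit 43836) (nat_lit 0) (nat_lit 456) (XT.nd (nat_lit 1014) (nat_lit 0) (nat_lit 0) (XT.nd (nat_lit 468) (nat_lit 76) (nat_lit 0) (XT.nd (nat_lit 234) (nat_lit 0) (nat_lit 0) (XT.nd (nat_lit 78) (nat_lit 152) (nat_lit 0) (XT.lf (nat_lit 0) (nat_lit 43691120729) (nat_lit 76) (nat_lit 10680164113) (nat_lit 76) (nat_lit 3460698293) (nat_lit 7) (nat_lit 4) (nat_lit 8) (nat_lit 5) (nat_lit 8) (nat_lit 4) (nat_lit 435) (nat_lit 256) (nat_lit 209)) (XT.nd (nat_lit 78) (nat_lit 76) (nat_lit 0) (XT.lf (nat_lit 0) (nat_lit 147453844) (nat_lit 152) (nat_lit 6989949598) (nat_lit 76) (nat_lit 52312479910) (nat_lit 6) (nat_lit 5) (nat_lit 8) (nat_lit 5) (nat_lit 7) (nat_lit 4) (nat_lit 436) (nat_lit 256) (nat_lit 208)) (XT.lf (nat_lit 0) (nat_lit 274250515) (nat_lit 76) (nat_lit 3485016998) (nat_lit 152) (nat_lit 57357079878) (nat_lit 5) (nat_lit 5) (nat_lit 6) (nat_lit 5) (nat_lit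 7) (nat_lit 4) (nat_lit 437) (nat_lit 256) (nat_lit 207)))) (XT.nd (nat_lit 78) (nat_lit 0) (nat_lit 0) (XT.lf (nat_lit 0) (nat_lit 7515796881) (nat_lit 152) (nat_lit 55006794444) (nat_lit 0) (nat_lit 309127025) (nat_lit 5) (nat_lit 5) (nat_lit 7) (nat_lit 4) (nat_lit 5) (nat_lit 4) (nat_lit 438) (nat_lit 256) (nat_lit 206)) (XT.nd (nat_lit 78) (nat_lit 0) (nat_lit 0) (XT.lf (nat_lit 0) (nat_lit 11383037457) (nat_lit 152) (nat_lit 49101238443) (nat_lit 0) (nat_lit 4114337804) (nat_lit 5) (nat_lit 5) (nat_lit 7) (nat_lit 4) (nat_lit 5) (nat_lit 4) (nat_lit 439) (nat_lit 256) (nat_lit 205)) (XT.lf (nat_lit 0) (nat_lit 15330868270) (nat_lit 152) (nat_lit 43086768563) (nat_lit 0) (nat_lit 8001945513) (nat_lit 5) (nat_lit 5) (nat_lit 7) (nat_lit 4) (nat_lit 5) (nat_lit 4) (nat_lit 440) (nat_lit 256) (nat_lit 204))))) (XT.nd (nat_lit 234) (nat_lit 76) (nat_lit 0) (XT.nd (nat_lit 78) (nat_lit 0) (nat_lit 0) (XT.lf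 (nat_lit 0) (nat_lit 19362738880) (nat_lit 152) (nat_lit 36958129443) (nat_lit 0) (nat_lit 11975347089) (nat_lit 5) (nat_lit 5) (nat_lit 7) (nat_lit 4) (nat_lit 5) (nat_lit 4) (nat_lit 441) (nat_lit 256) (nat_lit 203)) (XT.nd (nat_lit 78) (nat_lit 0) (nat_lit 0) (XT.lf (nat_lit 0) (nat_lit 23482172281) (nat_lit 152) (nat_lit 30709965961) (nat_lit 0) (nat_lit 16038014439) (nat_lit 5) (nat_lit 5) (nat_lit 7) (nat_lit 4) (nat_lit 5) (nat_lit 4) (nat_lit 442) (nat_lit 256) (nat_lit 202)) (XT.lf (nat_lit 0) (nat_lit 27692767979) (nat_lit 152) (nat_lit 24336818556) (nat_lit 0) (nat_lit 20193497465) (nat_lit 5) (nat_lit 5) (nat_lit 7) (nat_lit 4) (nat_lit 5) (nat_lit 4) (nat_lit 443) (nat_lit 256) (nat_lit 201)))) (XT.nd (nat_lit 156) (nat_lit 76) (nat_lit 0) (XT.nd (nat_lit 78) (nat_lit 0) (nat_lit 0) (XT.lf (nat_lit 0) (nat_lit 31998205134) (nat_lit 152) (nat_lit 17833118459) (nat_lit 0) (nat_lit 24445427171)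 (nat_lit 5) (nat_lit 5) (nat_lit 7) (nat_lit 4) (nat_lit 5) (nat_lit 4) (nat_lit 444) (nat_lit 256) (nat_lit 200)) (XT.lf (nat_lit 0) (nat_lit 36402245779) (nat_lit 152) (nat_lit 11193182825) (nat_lit 0) (nat_lit 28797518837) (nat_lit 5) (nat_lit 5) (nat_lit 7) (nat_lit 4) (nat_lit 5) (nat_lit 4) (nat_lit 445) (nat_lit 256) (nat_lit 199))) (XT.nd (nat_lit 78) (nat_lit 76) (nat_lit 0) (XT.lf (nat_lit 0) (nat_lit 40908738104) (nat_lit 152) (nat_lit 4411209768) (nat_lit 0) (nat_lit 33253575261) (nat_lit 5) (nat_lit 5) (nat_lit 7) (nat_lit 4) (nat_lit 5) (nat_lit 4) (nat_lit 446) (nat_lit 256) (nat_lit 198)) (XT.lf (nat_lit 0) (nat_lit 2568854305) (nat_lit 76) (nat_lit 42977458916) (nat_lit 76) (nat_lit 35273329177) (nat_lit 4) (nat_lit 4) (nat_lit 5) (nat_lit 5) (nat_lit 5) (nat_lit 4) (nat_lit 447) (nat_lit 256) (nat_lit 197)))))) (XT.nd (nat_lit 42276) (nat_lit 0) (nat_lit 1368) (XT.nd (nat_lit 42042) (nat_lit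 0) (nat_lit 1900) (XT.nd (nat_lit 78) (nat_lit 0) (nat_lit 0) (XT.lf (nat_lit 0) (nat_lit 9793794080) (nat_lit 76) (nat_lit 40545271465) (nat_lit 76) (nat_lit 32793601052) (nat_lit 4) (nat_lit 4) (nat_lit 5) (nat_lit 5) (nat_lit 5) (nat_lit 4) (nat_lit 448) (nat_lit 256) (nat_lit 196)) (XT.nd (nat_lit 78) (nat_lit 0) (nat_lit 0) (XT.lf (nat_lit 0) (nat_lit 17182130886) (nat_lit 76) (nat_lit 38065804879) (nat_lit 76) (nat_lit 30267978470) (nat_lit 4) (nat_lit 4) (nat_lit 5) (nat_lit 5) (nat_lit 5) (nat_lit 4) (nat_lit 449) (nat_lit 256) (nat_lit 195)) (XT.lf (nat_lit 0) (nat_lit 24740320552) (nat_lit 76) (nat_lit 35536892632) (nat_lit 76) (nat_lit 27694254578) (nat_lit 4) (nat_lit 4) (nat_lit 5) (nat_lit 5) (nat_lit 5) (nat_lit 4) (nat_lit 450) (nat_lit 256) (nat_lit 194)))) (XT.nd (nat_lit 78) (nat_lit 152) (nat_lit 0) (XT.lf (nat_lit 0) (nat_lit 2739099218) (nat_lit 152) (nat_lit 3182187017) (nat_lit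 0) (nat_lit 2739099218) (nat_lit 31) (nat_lit 5) (nat_lit 33) (nat_lit 4) (nat_lit 31) (nat_lit 4) (nat_lit 386) (nat_lit 257) (nat_lit 257)) (XT.nd (nat_lit 78) (nat_lit 0) (nat_lit 0) (XT.lf (nat_lit 0) (nat_lit 3253665916) (nat_lit 152) (nat_lit 7389739184) (nat_lit 152) (nat_lit 7034928555) (nat_lit 29) (nat_lit 4) (nat_lit 31) (nat_lit 5) (nat_lit 31) (nat_lit 4) (nat_lit 387) (nat_lit 257) (nat_lit 256)) (XT.lf (nat_lit 0) (nat_lit 13098657837) (nat_lit 152) (nat_lit 2824246509) (nat_lit 152) (nat_lit 2124959541) (nat_lit 29) (nat_lit 4) (nat_lit 31) (nat_lit 5) (nat_lit 31) (nat_lit 4) (nat_lit 388) (nat_lit 257) (nat_lit 255))))) (XT.nd (nat_lit 234) (nat_lit 228) (nat_lit 0) (XT.nd (nat_lit 78) (nat_lit 152) (nat_lit 0) (XT.lf (nat_lit 0) (nat_lit 2835178975) (nat_lit 152) (nat_lit 13762114629) (nat_lit 0) (nat_lit 1831557600) (nat_lit 27) (nat_lit 5) (nat_lit 29) (nat_lit 4) (nat_lit 27) (nat_lit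 4) (nat_lit 389) (nat_lit 257) (nat_lit 254)) (XT.nd (nat_lit 78) (nat_lit 152) (nat_lit 0) (XT.lf (nat_lit 0) (nat_lit 7877329444) (nat_lit 152) (nat_lit 4385585517) (nat_lit 0) (nat_lit 6558463421) (nat_lit 27) (nat_lit 5) (nat_lit 29) (nat_lit 4) (nat_lit 27) (nat_lit 4) (nat_lit 390) (nat_lit 257) (nat_lit 253)) (XT.lf (nat_lit 0) (nat_lit 5190088457) (nat_lit 152) (nat_lit 7831014665) (nat_lit 152) (nat_lit 6206085876) (nat_lit 25) (nat_lit 4) (nat_lit 27) (nat_lit 5) (nat_lit 27) (nat_lit 4) (nat_lit 391) (nat_lit 257) (nat_lit 252)))) (XT.nd (nat_lit 156) (nat_lit 76) (nat_lit 0) (XT.nd (nat_lit 78) (nat_lit 152) (nat_lit 0) (XT.lf (nat_lit 0) (nat_lit 14961302840) (nat_lit 152) (nat_lit 3303794415) (nat_lit 152) (nat_lit 1381717309) (nat_lit 25) (nat_lit 4) (nat_lit 27) (nat_lit 5) (nat_lit 27) (nat_lit 4) (nat_lit 392) (nat_lit 257) (nat_lit 251)) (XT.lf (nat_lit 0) (nat_lit 3480394638) (nat_lit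 152) (nat_lit 15264516535) (nat_lit 0) (nat_lit 1334209574) (nat_lit 23) (nat_lit 5) (nat_lit 25) (nat_lit 4) (nat_lit 23) (nat_lit 4) (nat_lit 393) (nat_lit 257) (nat_lit 250))) (XT.nd (nat_lit 78) (nat_lit 76) (nat_lit 0) (XT.lf (nat_lit 0) (nat_lit 8444949586) (nat_lit 152) (nat_lit 6052690212) (nat_lit 0) (nat_lit 6026831718) (nat_lit 23) (nat_lit 5) (nat_lit 25) (nat_lit 4) (nat_lit 23) (nat_lit 4) (nat_lit 394) (nat_lit 257) (nat_lit 249)) (XT.lf (nat_lit 0) (nat_lit 3326989248) (nat_lit 76) (nat_lit 10170090283) (nat_lit 76) (nat_lit 7487959985) (nat_lit 22) (nat_lit 4) (nat_lit 23) (nat_lit 5) (nat_lit 23) (nat_lit 4) (nat_lit 395) (nat_lit 257) (nat_lit 248))))))) (XT.nd (nat_lit 1014) (nat_lit 304) (nat_lit 0) (XT.nd (nat_lit 468) (nat_lit 380) (nat_lit 0) (XT.nd (nat_lit 234) (nat_lit 76) (nat_lit 0) (XT.nd (nat_lit 78) (nat_lit 152) (nat_lit 0) (XT.lf (nat_lit 0) (nat_lit 12940410339) (nat_lit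 76) (nat_lit 5729208645) (nat_lit 76) (nat_lit 2790755600) (nat_lit 22) (nat_lit 4) (nat_lit 23) (nat_lit 5) (nat_lit 23) (nat_lit 4) (nat_lit 396) (nat_lit 257) (nat_lit 247)) (XT.nd (nat_lit 78) (nat_lit 0) (nat_lit 0) (XT.lf (nat_lit 0) (nat_lit 718059005) (nat_lit 76) (nat_lit 1205768131) (nat_lit 152) (nat_lit 20028074257) (nat_lit 20) (nat_lit 5) (nat_lit 21) (nat_lit 5) (nat_lit 22) (nat_lit 4) (nat_lit 397) (nat_lit 257) (nat_lit 246)) (XT.lf (nat_lit 0) (nat_lit 6753637038) (nat_lit 152) (nat_lit 12278236080) (nat_lit 0) (nat_lit 3424589606) (nat_lit 20) (nat_lit 5) (nat_lit 22) (nat_lit 4) (nat_lit 20) (nat_lit 4) (nat_lit 398) (nat_lit 257) (nat_lit 245)))) (XT.nd (nat_lit 78) (nat_lit 76) (nat_lit 0) (XT.lf (nat_lit 0) (nat_lit 11652705152) (nat_lit 152) (nat_lit 3229820229) (nat_lit 0) (nat_lit 8095918278) (nat_lit 20) (nat_lit 5) (nat_lit 22) (nat_lit 4) (nat_lit 20) (nat_lit 4) (nat_lit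 399) (nat_lit 257) (nat_lit 244)) (XT.nd (nat_lit 78) (nat_lit 0) (nat_lit 0) (XT.lf (nat_lit 0) (nat_lit 6048938710) (nat_lit 76) (nat_lit 10622929024) (nat_lit 76) (nat_lit 6845035897) (nat_lit 19) (nat_lit 4) (nat_lit 20) (nat_lit 5) (nat_lit 20) (nat_lit 4) (nat_lit 400) (nat_lit 257) (nat_lit 243)) (XT.lf (nat_lit 0) (nat_lit 15514682852) (nat_lit 76) (nat_lit 6275475127) (nat_lit 76) (nat_lit 2282915734) (nat_lit 19) (nat_lit 4) (nat_lit 20) (nat_lit 5) (nat_lit 20) (nat_lit 4) (nat_lit 401) (nat_lit 257) (nat_lit 242))))) (XT.nd (nat_lit 234) (nat_lit 228) (nat_lit 0) (XT.nd (nat_lit 78) (nat_lit 0) (nat_lit 0) (XT.lf (nat_lit 0) (nat_lit 449365850) (nat_lit 76) (nat_lit 1841441585) (nat_lit 152) (nat_lit 22356780308) (nat_lit 17) (nat_lit 5) (nat_lit 18) (nat_lit 5) (nat_lit 19) (nat_lit 4) (nat_lit 402) (nat_lit 257) (nat_lit 241)) (XT.nd (nat_lit 78) (nat_lit 0) (nat_lit 0) (XT.lf (nat_lit 0)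 (nat_lit 6987143326) (nat_lit 152) (nat_lit 15538510531) (nat_lit 0) (nat_lit 2712078483) (nat_lit 17) (nat_lit 5) (nat_lit 19) (nat_lit 4) (nat_lit 17) (nat_lit 4) (nat_lit 403) (nat_lit 257) (nat_lit 240)) (XT.lf (nat_lit 0) (nat_lit 11762801847) (nat_lit 152) (nat_lit 6787629099) (nat_lit 0) (nat_lit 7297008808) (nat_lit 17) (nat_lit 5) (nat_lit 19) (nat_lit 4) (nat_lit 17) (nat_lit 4) (nat_lit 404) (nat_lit 257) (nat_lit 239)))) (XT.nd (nat_lit 156) (nat_lit 152) (nat_lit 0) (XT.nd (nat_lit 78) (nat_lit 0) (nat_lit 0) (XT.lf (nat_lit 0) (nat_lit 2121161363) (nat_lit 76) (nat_lit 14503483379) (nat_lit 76) (nat_lit 9852517333) (nat_lit 16) (nat_lit 4) (nat_lit 17) (nat_lit 5) (nat_lit 17) (nat_lit 4) (nat_lit 405) (nat_lit 257) (nat_lit 238)) (XT.lf (nat_lit 0) (nat_lit 11291777832) (nat_lit 76) (nat_lit 10332498350) (nat_lit 76) (nat_lit 5501752686) (nat_lit 16) (nat_lit 4) (nat_lit 17) (nat_lit 5)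 (nat_lit 17) (nat_lit 4) (nat_lit 406) (nat_lit 257) (nat_lit 237))) (XT.nd (nat_lit 78) (nat_lit 152) (nat_lit 0) (XT.lf (nat_lit 0) (nat_lit 20597146338) (nat_lit 76) (nat_lit 6102373055) (nat_lit 76) (nat_lit 1097084072) (nat_lit 16) (nat_lit 4) (nat_lit 17) (nat_lit 5) (nat_lit 17) (nat_lit 4) (nat_lit 407) (nat_lit 257) (nat_lit 236)) (XT.lf (nat_lit 0) (nat_lit 1553898456) (nat_lit 76) (nat_lit 1760705963) (nat_lit 152) (nat_lit 25173448784) (nat_lit 14) (nat_lit 5) (nat_lit 15) (nat_lit 5) (nat_lit 16) (nat_lit 4) (nat_lit 408) (nat_lit 257) (nat_lit 235)))))) (XT.nd (nat_lit 546) (nat_lit 76) (nat_lit 0) (XT.nd (nat_lit 234) (nat_lit 228) (nat_lit 0) (XT.nd (nat_lit 78) (nat_lit 0) (nat_lit 0) (XT.lf (nat_lit 0) (nat_lit 7863335019) (nat_lit 152) (nat_lit 18656217418) (nat_lit 0) (nat_lit 2679575472) (nat_lit 14) (nat_lit 5) (nat_lit 16) (nat_lit 4) (nat_lit 14) (nat_lit 4) (nat_lit 409) (nat_lit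 257) (nat_lit 234)) (XT.nd (nat_lit 78) (nat_lit 0) (nat_lit 0) (XT.lf (nat_lit 0) (nat_lit 12495338648) (nat_lit 152) (nat_lit 10281301567) (nat_lit 0) (nat_lit 7156499623) (nat_lit 14) (nat_lit 5) (nat_lit 16) (nat_lit 4) (nat_lit 14) (nat_lit 4) (nat_lit 410) (nat_lit 257) (nat_lit 233)) (XT.lf (nat_lit 0) (nat_lit 17197737704) (nat_lit 152) (nat_lit 1785164325) (nat_lit 0) (nat_lit 11708336080) (nat_lit 14) (nat_lit 5) (nat_lit 16) (nat_lit 4) (nat_lit 14) (nat_lit 4) (nat_lit 411) (nat_lit 257) (nat_lit 232)))) (XT.nd (nat_lit 156) (nat_lit 152) (nat_lit 0) (XT.nd (nat_lit 78) (nat_lit 0) (nat_lit 0) (XT.lf (nat_lit 0) (nat_lit 6975739928) (nat_lit 76) (nat_lit 15065956233) (nat_lit 76) (nat_lit 9430377327) (nat_lit 13) (nat_lit 4) (nat_lit 14) (nat_lit 5) (nat_lit 14) (nat_lit 4) (nat_lit 412) (nat_lit 257) (nat_lit 231)) (XT.lf (nat_lit 0) (nat_lit 15911064148) (nat_lit 76) (nat_lit 11072105506)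 (nat_lit 76) (nat_lit 5294606909) (nat_lit 13) (nat_lit 4) (nat_lit 14) (nat_lit 5) (nat_lit 14) (nat_lit 4) (nat_lit 413) (nat_lit 257) (nat_lit 230))) (XT.nd (nat_lit 78) (nat_lit 152) (nat_lit 0) (XT.lf (nat_lit 0) (nat_lit 24993087628) (nat_lit 76) (nat_lit 7015886737) (nat_lit 76) (nat_lit 1100602032) (nat_lit 13) (nat_lit 4) (nat_lit 14) (nat_lit 5) (nat_lit 14) (nat_lit 4) (nat_lit 414) (nat_lit 257) (nat_lit 229)) (XT.lf (nat_lit 0) (nat_lit 235817262) (nat_lit 76) (nat_lit 2860180218) (nat_lit 152) (nat_lit 30871224400) (nat_lit 11) (nat_lit 5) (nat_lit 12) (nat_lit 5) (nat_lit 13) (nat_lit 4) (nat_lit 415) (nat_lit 257) (nat_lit 228))))) (XT.nd (nat_lit 234) (nat_lit 76) (nat_lit 0) (XT.nd (nat_lit 78) (nat_lit 0) (nat_lit 0) (XT.lf (nat_lit 0) (nat_lit 7430278539) (nat_lit 152) (nat_lit 25987668462) (nat_lit 0) (nat_lit 1431313252) (nat_lit 11) (nat_lit 5) (nat_lit 13) (nat_lit 4) (nat_lit 11)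 (nat_lit 4) (nat_lit 416) (nat_lit 257) (nat_lit 227)) (XT.nd (nat_lit 78) (nat_lit 0) (nat_lit 0) (XT.lf (nat_lit 0) (nat_lit 11862208246) (nat_lit 152) (nat_lit 18155708491) (nat_lit 0) (nat_lit 5740821787) (nat_lit 11) (nat_lit 5) (nat_lit 13) (nat_lit 4) (nat_lit 11) (nat_lit 4) (nat_lit 417) (nat_lit 257) (nat_lit 226)) (XT.lf (nat_lit 0) (nat_lit 16368165360) (nat_lit 152) (nat_lit 10201187443) (nat_lit 0) (nat_lit 10127923395) (nat_lit 11) (nat_lit 5) (nat_lit 13) (nat_lit 4) (nat_lit 11) (nat_lit 4) (nat_lit 418) (nat_lit 257) (nat_lit 225)))) (XT.nd (nat_lit 156) (nat_lit 0) (nat_lit 0) (XT.nd (nat_lit 78) (nat_lit 76) (nat_lit 0) (XT.lf (nat_lit 0) (nat_lit 20952087126) (nat_lit 152) (nat_lit 2117154765) (nat_lit 0) (nat_lit 14596451465) (nat_lit 11) (nat_lit 5) (nat_lit 13) (nat_lit 4) (nat_lit 11) (nat_lit 4) (nat_lit 419) (nat_lit 257) (nat_lit 224)) (XT.lf (nat_lit 0) (nat_lit 6224923946)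 (nat_lit 76) (nat_lit 19452892741) (nat_lit 76) (nat_lit 12985224365) (nat_lit 10) (nat_lit 4) (nat_lit 11) (nat_lit 5) (nat_lit 11) (nat_lit 4) (nat_lit 420) (nat_lit 257) (nat_lit 223))) (XT.nd (nat_lit 78) (nat_lit 0) (nat_lit 0) (XT.lf (nat_lit 0) (nat_lit 14755757667) (nat_lit 76) (nat_lit 15756001410) (nat_lit 76) (nat_lit 9179563409) (nat_lit 10) (nat_lit 4) (nat_lit 11) (nat_lit 5) (nat_lit 11) (nat_lit 4) (nat_lit 421) (nat_lit 257) (nat_lit 222)) (XT.lf (nat_lit 0) (nat_lit 23440664992) (nat_lit 76) (nat_lit 11996716718) (nat_lit 76) (nat_lit 5314677139) (nat_lit 10) (nat_lit 4) (nat_lit 11) (nat_lit 5) (nat_lit 11) (nat_lit 4) (nat_lit 422) (nat_lit 257) (nat_lit 221))))))))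
noncomputable def xc20 : XT := (XT.nd (nat_lit 2028) (nat_lit 0) (nat_lit 0) (XT.nd (nat_lit 1014) (nat_lit 228) (nat_lit 0) (XT.nd (nat_lit 468) (nat_lit 76) (nat_lit 0) (XT.nd (nat_lit 234) (nat_lit 0) (nat_lit 0) (XT.nd (nat_lit 78) (nat_lit 152) (nat_lit 0) (XT.lf (nat_lit 0) (nat_lit 32287234673) (nat_lit 76) (nat_lit 8171753852) (nat_lit 76) (nat_lit 1387188468) (nat_lit 10) (nat_lit 4) (nat_lit 11) (nat_lit 5) (nat_lit 11) (nat_lit 4) (nat_lit 423) (nat_lit 257) (nat_lit 220)) (XT.nd (nat_lit 78) (nat_lit 76) (nat_lit 0) (XT.lf (nat_lit 0) (nat_lit 2555475415) (nat_lit 152) (nat_lit 1696489905) (nat_lit 76) (nat_lit 38721916019) (nat_lit 9) (nat_lit 5) (nat_lit 11) (nat_lit 5) (nat_lit 10) (nat_lit 4) (nat_lit 424) (nat_lit 257) (nat_lit 219)) (XT.lf (nat_lit 0) (nat_lit 6419167333) (nat_lit 76) (nat_lit 181774901) (nat_lit 152) (nat_lit 37533696056) (nat_lit 8) (nat_lit 5) (nat_lit 9) (nat_lit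 5) (nat_lit 10) (nat_lit 4) (nat_lit 425) (nat_lit 257) (nat_lit 218)))) (XT.nd (nat_lit 78) (nat_lit 0) (nat_lit 0) (XT.lf (nat_lit 0) (nat_lit 10774436148) (nat_lit 152) (nat_lit 30649666802) (nat_lit 0) (nat_lit 3905920578) (nat_lit 8) (nat_lit 5) (nat_lit 10) (nat_lit 4) (nat_lit 8) (nat_lit 4) (nat_lit 426) (nat_lit 257) (nat_lit 217)) (XT.nd (nat_lit 78) (nat_lit 0) (nat_lit 0) (XT.lf (nat_lit 0) (nat_lit 15027178000) (nat_lit 152) (nat_lit 23465253573) (nat_lit 0) (nat_lit 8070222771) (nat_lit 8) (nat_lit 5) (nat_lit 10) (nat_lit 4) (nat_lit 8) (nat_lit 4) (nat_lit 427) (nat_lit 257) (nat_lit 216)) (XT.lf (nat_lit 0) (nat_lit 19361136446) (nat_lit 152) (nat_lit 16154206296) (nat_lit 0) (nat_lit 12318317470) (nat_lit 8) (nat_lit 5) (nat_lit 10) (nat_lit 4) (nat_lit 8) (nat_lit 4) (nat_lit 428) (nat_lit 257) (nat_lit 215))))) (XT.nd (nat_lit 234) (nat_lit 0) (nat_lit 0) (XT.nd (nat_lit 78) (nat_lit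 76) (nat_lit 0) (XT.lf (nat_lit 0) (nat_lit 23780098439) (nat_lit 152) (nat_lit 8710136676) (nat_lit 0) (nat_lit 16653916602) (nat_lit 8) (nat_lit 5) (nat_lit 10) (nat_lit 4) (nat_lit 8) (nat_lit 4) (nat_lit 429) (nat_lit 257) (nat_lit 214)) (XT.nd (nat_lit 78) (nat_lit 76) (nat_lit 0) (XT.lf (nat_lit 0) (nat_lit 28287925210) (nat_lit 152) (nat_lit 1126540188) (nat_lit 0) (nat_lit 21080808556) (nat_lit 8) (nat_lit 5) (nat_lit 10) (nat_lit 4) (nat_lit 8) (nat_lit 4) (nat_lit 430) (nat_lit 257) (nat_lit 213)) (XT.lf (nat_lit 0) (nat_lit 6734626430) (nat_lit 76) (nat_lit 26218666553) (nat_lit 76) (nat_lit 18932972408) (nat_lit 7) (nat_lit 4) (nat_lit 8) (nat_lit 5) (nat_lit 8) (nat_lit 4) (nat_lit 431) (nat_lit 257) (nat_lit 212)))) (XT.nd (nat_lit 156) (nat_lit 0) (nat_lit 0) (XT.nd (nat_lit 78) (nat_lit 0) (nat_lit 0) (XT.lf (nat_lit 0) (nat_lit 14774164030) (nat_lit 76) (nat_lit 22953863956) (nat_lit 76)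 (nat_lit 15591880983) (nat_lit 7) (nat_lit 4) (nat_lit 8) (nat_lit 5) (nat_lit 8) (nat_lit 4) (nat_lit 432) (nat_lit 257) (nat_lit 211)) (XT.lf (nat_lit 0) (nat_lit 22976677089) (nat_lit 76) (nat_lit 19628580713) (nat_lit 76) (nat_lit 12192530918) (nat_lit 7) (nat_lit 4) (nat_lit 8) (nat_lit 5) (nat_lit 8) (nat_lit 4) (nat_lit 433) (nat_lit 257) (nat_lit 210))) (XT.nd (nat_lit 78) (nat_lit 0) (nat_lit 0) (XT.lf (nat_lit 0) (nat_lit 31349332852) (nat_lit 76) (nat_lit 16239911237) (nat_lit 76) (nat_lit 8731951906) (nat_lit 7) (nat_lit 4) (nat_lit 8) (nat_lit 5) (nat_lit 8) (nat_lit 4) (nat_lit 434) (nat_lit 257) (nat_lit 209)) (XT.lf (nat_lit 0) (nat_lit 39899447232) (nat_lit 76) (nat_lit 12784894555) (nat_lit 76) (nat_lit 5207120141) (nat_lit 7) (nat_lit 4) (nat_lit 8) (nat_lit 5) (nat_lit 8) (nat_lit 4) (nat_lit 435) (nat_lit 257) (nat_lit 208)))))) (XT.nd (nat_lit 468) (nat_lit 76) (nat_lit 0) (XT.nd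 (nat_lit 234) (nat_lit 0) (nat_lit 0) (XT.nd (nat_lit 78) (nat_lit 152) (nat_lit 0) (XT.lf (nat_lit 0) (nat_lit 48634491203) (nat_lit 76) (nat_lit 9260511721) (nat_lit 76) (nat_lit 1614955672) (nat_lit 7) (nat_lit 4) (nat_lit 8) (nat_lit 5) (nat_lit 8) (nat_lit 4) (nat_lit 436) (nat_lit 257) (nat_lit 207)) (XT.nd (nat_lit 78) (nat_lit 76) (nat_lit 0) (XT.lf (nat_lit 0) (nat_lit 2007722667) (nat_lit 152) (nat_lit 3635686447) (nat_lit 76) (nat_lit 55534100597) (nat_lit 6) (nat_lit 5) (nat_lit 8) (nat_lit 5) (nat_lit 7) (nat_lit 4) (nat_lit 437) (nat_lit 257) (nat_lit 206)) (XT.lf (nat_lit 0) (nat_lit 3811498869) (nat_lit 76) (nat_lit 1896261239) (nat_lit 152) (nat_lit 57186817154) (nat_lit 5) (nat_lit 5) (nat_lit 6) (nat_lit 5) (nat_lit 7) (nat_lit 4) (nat_lit 438) (nat_lit 257) (nat_lit 205)))) (XT.nd (nat_lit 78) (nat_lit 0) (nat_lit 0) (XT.lf (nat_lit 0) (nat_lit 9539320948) (nat_lit 152) (nat_lit 53192916440)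 (nat_lit 0) (nat_lit 1930307404) (nat_lit 5) (nat_lit 5) (nat_lit 7) (nat_lit 4) (nat_lit 5) (nat_lit 4) (nat_lit 439) (nat_lit 257) (nat_lit 204)) (XT.nd (nat_lit 78) (nat_lit 0) (nat_lit 0) (XT.lf (nat_lit 0) (nat_lit 13470208348) (nat_lit 152) (nat_lit 47211089346) (nat_lit 0) (nat_lit 5802725771) (nat_lit 5) (nat_lit 5) (nat_lit 7) (nat_lit 4) (nat_lit 5) (nat_lit 4) (nat_lit 440) (nat_lit 257) (nat_lit 203)) (XT.lf (nat_lit 0) (nat_lit 17485629044) (nat_lit 152) (nat_lit 41114142251) (nat_lit 0) (nat_lit 9761380414) (nat_lit 5) (nat_lit 5) (nat_lit 7) (nat_lit 4) (nat_lit 5) (nat_lit 4) (nat_lit 441) (nat_lit 257) (nat_lit 202))))) (XT.nd (nat_lit 234) (nat_lit 76) (nat_lit 0) (XT.nd (nat_lit 78) (nat_lit 0) (nat_lit 0) (XT.lf (nat_lit 0) (nat_lit 21589091654) (nat_lit 152) (nat_lit 34896747726) (nat_lit 0) (nat_lit 13809730353) (nat_lit 5) (nat_lit 5) (nat_lit 7) (nat_lit 4) (nat_lit 5) (nat_lit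 4) (nat_lit 442) (nat_lit 257) (nat_lit 201)) (XT.nd (nat_lit 78) (nat_lit 0) (nat_lit 0) (XT.lf (nat_lit 0) (nat_lit 25784181729) (nat_lit 152) (nat_lit 28553473094) (nat_lit 0) (nat_lit 17951312980) (nat_lit 5) (nat_lit 5) (nat_lit 7) (nat_lit 4) (nat_lit 5) (nat_lit 4) (nat_lit 443) (nat_lit 257) (nat_lit 200)) (XT.lf (nat_lit 0) (nat_lit 30074564882) (nat_lit 152) (nat_lit 22078775690) (nat_lit 0) (nat_lit 22189747153) (nat_lit 5) (nat_lit 5) (nat_lit 7) (nat_lit 4) (nat_lit 5) (nat_lit 4) (nat_lit 444) (nat_lit 257) (nat_lit 199)))) (XT.nd (nat_lit 156) (nat_lit 76) (nat_lit 0) (XT.nd (nat_lit 78) (nat_lit 0) (nat_lit 0) (XT.lf (nat_lit 0) (nat_lit 34463989990) (nat_lit 152) (nat_lit 15466998010) (nat_lit 0) (nat_lit 26528736360) (nat_lit 5) (nat_lit 5) (nat_lit 7) (nat_lit 4) (nat_lit 5) (nat_lit 4) (nat_lit 445) (nat_lit 257) (nat_lit 198)) (XT.lf (nat_lit 0) (nat_lit 38956292475) (nat_lit 152)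 (nat_lit 8712362773) (nat_lit 0) (nat_lit 30972071949) (nat_lit 5) (nat_lit 5) (nat_lit 7) (nat_lit 4) (nat_lit 5) (nat_lit 4) (nat_lit 446) (nat_lit 257) (nat_lit 197))) (XT.nd (nat_lit 78) (nat_lit 76) (nat_lit 0) (XT.lf (nat_lit 0) (nat_lit 43555397648) (nat_lit 152) (nat_lit 1808967871) (nat_lit 0) (nat_lit 35523636448) (nat_lit 5) (nat_lit 5) (nat_lit 7) (nat_lit 4) (nat_lit 5) (nat_lit 4) (nat_lit 447) (nat_lit 257) (nat_lit 196)) (XT.lf (nat_lit 0) (nat_lit 5353688535) (nat_lit 76) (nat_lit 42963098539) (nat_lit 76) (nat_lit 34885181344) (nat_lit 4) (nat_lit 4) (nat_lit 5) (nat_lit 5) (nat_lit 5) (nat_lit 4) (nat_lit 448) (nat_lit 257) (nat_lit 195))))))) (XT.nd (nat_lit 42666) (nat_lit 0) (nat_lit 836) (XT.nd (nat_lit 42120) (nat_lit 0) (nat_lit 1444) (XT.nd (nat_lit 41886) (nat_lit 0) (nat_lit 1900) (XT.nd (nat_lit 78) (nat_lit 0) (nat_lit 0) (XT.lf (nat_lit 0) (nat_lit 12716509457) (nat_lit 76)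 (nat_lit 40495916848) (nat_lit 76) (nat_lit 32373188007) (nat_lit 4) (nat_lit 4) (nat_lit 5) (nat_lit 5) (nat_lit 5) (nat_lit 4) (nat_lit 449) (nat_lit 257) (nat_lit 194)) (XT.nd (nat_lit 41730) (nat_lit 0) (nat_lit 2204) (XT.lf (nat_lit 0) (nat_lit 20249926419) (nat_lit 76) (nat_lit 37978931684) (nat_lit 76) (nat_lit 29812696391) (nat_lit 4) (nat_lit 4) (nat_lit 5) (nat_lit 5) (nat_lit 5) (nat_lit 4) (nat_lit 450) (nat_lit 257) (nat_lit 193)) (XT.lf (nat_lit 0) (nat_lit 4124882375) (nat_lit 152) (nat_lit 2096957609) (nat_lit 152) (nat_lit 2096957609) (nat_lit 33) (nat_lit 4) (nat_lit 35) (nat_lit 5) (nat_lit 35) (nat_lit 4) (nat_lit 384) (nat_lit 258) (nat_lit 258)))) (XT.nd (nat_lit 78) (nat_lit 152) (nat_lit 0) (XT.lf (nat_lit 0) (nat_lit 756169712) (nat_lit 152) (nat_lit 15828940423) (nat_lit 0) (nat_lit 390714764) (nat_lit 31) (nat_lit 5) (nat_lit 33) (nat_lit 4) (nat_lit 31) (nat_lit 4) (nat_lit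 385) (nat_lit 258) (nat_lit 257)) (XT.nd (nat_lit 78) (nat_lit 152) (nat_lit 0) (XT.lf (nat_lit 0) (nat_lit 5791349077) (nat_lit 152) (nat_lit 6459917961) (nat_lit 0) (nat_lit 5071083499) (nat_lit 31) (nat_lit 5) (nat_lit 33) (nat_lit 4) (nat_lit 31) (nat_lit 4) (nat_lit 386) (nat_lit 258) (nat_lit 256)) (XT.lf (nat_lit 0) (nat_lit 3061613258) (nat_lit 152) (nat_lit 7842315473) (nat_lit 152) (nat_lit 6777573556) (nat_lit 29) (nat_lit 4) (nat_lit 31) (nat_lit 5) (nat_lit 31) (nat_lit 4) (nat_lit 387) (nat_lit 258) (nat_lit 255))))) (XT.nd (nat_lit 234) (nat_lit 304) (nat_lit 0) (XT.nd (nat_lit 78) (nat_lit 152) (nat_lit 0) (XT.lf (nat_lit 0) (nat_lit 12814753509) (nat_lit 152) (nat_lit 3318489707) (nat_lit 152) (nat_lit 1919304743) (nat_lit 29) (nat_lit 4) (nat_lit 31) (nat_lit 5) (nat_lit 31) (nat_lit 4) (nat_lit 388) (nat_lit 258) (nat_lit 254)) (XT.nd (nat_lit 78) (nat_lit 0) (nat_lit 0) (XT.lf (nat_lit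 0) (nat_lit 2978711168) (nat_lit 152) (nat_lit 14151482901) (nat_lit 0) (nat_lit 1305034515) (nat_lit 27) (nat_lit 5) (nat_lit 29) (nat_lit 4) (nat_lit 27) (nat_lit 4) (nat_lit 389) (nat_lit 258) (nat_lit 253)) (XT.lf (nat_lit 0) (nat_lit 7971831287) (nat_lit 152) (nat_lit 4865312572) (nat_lit 0) (nat_lit 5992091869) (nat_lit 27) (nat_lit 5) (nat_lit 29) (nat_lit 4) (nat_lit 27) (nat_lit 4) (nat_lit 390) (nat_lit 258) (nat_lit 252)))) (XT.nd (nat_lit 156) (nat_lit 152) (nat_lit 0) (XT.nd (nat_lit 78) (nat_lit 0) (nat_lit 0) (XT.lf (nat_lit 0) (nat_lit 4611340980) (nat_lit 152) (nat_lit 8451098429) (nat_lit 152) (nat_lit 6174210695) (nat_lit 25) (nat_lit 4) (nat_lit 27) (nat_lit 5) (nat_lit 27) (nat_lit 4) (nat_lit 391) (nat_lit 258) (nat_lit 251)) (XT.lf (nat_lit 0) (nat_lit 14295688457) (nat_lit 152) (nat_lit 3963694260) (nat_lit 152) (nat_lit 1398313015) (nat_lit 25) (nat_lit 4) (nat_lit 27) (nat_lit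 5) (nat_lit 27) (nat_lit 4) (nat_lit 392) (nat_lit 258) (nat_lit 250))) (XT.nd (nat_lit 78) (nat_lit 0) (nat_lit 0) (XT.lf (nat_lit 0) (nat_lit 3403720361) (nat_lit 152) (nat_lit 16046980305) (nat_lit 0) (nat_lit 641126154) (nat_lit 23) (nat_lit 5) (nat_lit 25) (nat_lit 4) (nat_lit 23) (nat_lit 4) (nat_lit 393) (nat_lit 258) (nat_lit 249)) (XT.lf (nat_lit 0) (nat_lit 8322293679) (nat_lit 152) (nat_lit 6920584128) (nat_lit 0) (nat_lit 5295687043) (nat_lit 23) (nat_lit 5) (nat_lit 25) (nat_lit 4) (nat_lit 23) (nat_lit 4) (nat_lit 394) (nat_lit 258) (nat_lit 248)))))) (XT.nd (nat_lit 546) (nat_lit 304) (nat_lit 0) (XT.nd (nat_lit 234) (nat_lit 152) (nat_lit 0) (XT.nd (nat_lit 78) (nat_lit 76) (nat_lit 0) (XT.lf (nat_lit 0) (nat_lit 2357229946) (nat_lit 76) (nat_lit 10963229400) (nat_lit 76) (nat_lit 7680300016) (nat_lit 22) (nat_lit 4) (nat_lit 23) (nat_lit 5) (nat_lit 23) (nat_lit 4) (nat_lit 395) (nat_lit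 258) (nat_lit 247)) (XT.nd (nat_lit 78) (nat_lit 76) (nat_lit 0) (XT.lf (nat_lit 0) (nat_lit 11888522304) (nat_lit 76) (nat_lit 6560344929) (nat_lit 76) (nat_lit 3028558508) (nat_lit 22) (nat_lit 4) (nat_lit 23) (nat_lit 5) (nat_lit 23) (nat_lit 4) (nat_lit 396) (nat_lit 258) (nat_lit 246)) (XT.lf (nat_lit 0) (nat_lit 1640484786) (nat_lit 152) (nat_lit 443211078) (nat_lit 76) (nat_lit 19886837600) (nat_lit 21) (nat_lit 5) (nat_lit 23) (nat_lit 5) (nat_lit 22) (nat_lit 4) (nat_lit 397) (nat_lit 258) (nat_lit 245)))) (XT.nd (nat_lit 156) (nat_lit 76) (nat_lit 0) (XT.nd (nat_lit 78) (nat_lit 0) (nat_lit 0) (XT.lf (nat_lit 0) (nat_lit 6414327191) (nat_lit 152) (nat_lit 13539356100) (nat_lit 0) (nat_lit 2523097269) (nat_lit 20) (nat_lit 5) (nat_lit 22) (nat_lit 4) (nat_lit 20) (nat_lit 4) (nat_lit 398) (nat_lit 258) (nat_lit 244)) (XT.lf (nat_lit 0) (nat_lit 11271511721) (nat_lit 152) (nat_lit 4569337277) (nat_lit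 0) (nat_lit 7159175546) (nat_lit 20) (nat_lit 5) (nat_lit 22) (nat_lit 4) (nat_lit 20) (nat_lit 4) (nat_lit 399) (nat_lit 258) (nat_lit 243))) (XT.nd (nat_lit 78) (nat_lit 0) (nat_lit 0) (XT.lf (nat_lit 0) (nat_lit 4605134215) (nat_lit 76) (nat_lit 11630997683) (nat_lit 76) (nat_lit 7303995242) (nat_lit 19) (nat_lit 4) (nat_lit 20) (nat_lit 5) (nat_lit 20) (nat_lit 4) (nat_lit 400) (nat_lit 258) (nat_lit 242)) (XT.lf (nat_lit 0) (nat_lit 13995510949) (nat_lit 76) (nat_lit 7318707423) (nat_lit 76) (nat_lit 2783291131) (nat_lit 19) (nat_lit 4) (nat_lit 20) (nat_lit 5) (nat_lit 20) (nat_lit 4) (nat_lit 401) (nat_lit 258) (nat_lit 241))))) (XT.nd (nat_lit 234) (nat_lit 152) (nat_lit 0) (XT.nd (nat_lit 78) (nat_lit 76) (nat_lit 0) (XT.lf (nat_lit 0) (nat_lit 1756451462) (nat_lit 152) (nat_lit 1172163366) (nat_lit 76) (nat_lit 21744871156) (nat_lit 18) (nat_lit 5) (nat_lit 20) (nat_lit 5) (nat_lit 19) (nat_lit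 4) (nat_lit 402) (nat_lit 258) (nat_lit 240)) (XT.nd (nat_lit 78) (nat_lit 0) (nat_lit 0) (XT.lf (nat_lit 0) (nat_lit 6391421082) (nat_lit 152) (nat_lit 17273130075) (nat_lit 0) (nat_lit 1600926055) (nat_lit 17) (nat_lit 5) (nat_lit 19) (nat_lit 4) (nat_lit 17) (nat_lit 4) (nat_lit 403) (nat_lit 258) (nat_lit 239)) (XT.lf (nat_lit 0) (nat_lit 11128914440) (nat_lit 152) (nat_lit 8594174215) (nat_lit 0) (nat_lit 6153246406) (nat_lit 17) (nat_lit 5) (nat_lit 19) (nat_lit 4) (nat_lit 17) (nat_lit 4) (nat_lit 404) (nat_lit 258) (nat_lit 238)))) (XT.nd (nat_lit 156) (nat_lit 76) (nat_lit 0) (XT.nd (nat_lit 78) (nat_lit 0) (nat_lit 0) (XT.lf (nat_lit 0) (nat_lit 207442038) (nat_lit 76) (nat_lit 15727865900) (nat_lit 76) (nat_lit 10572418247) (nat_lit 16) (nat_lit 4) (nat_lit 17) (nat_lit 5) (nat_lit 17) (nat_lit 4) (nat_lit 405) (nat_lit 258) (nat_lit 237)) (XT.lf (nat_lit 0) (nat_lit 9308912469) (nat_lit 76)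 (nat_lit 11589387907) (nat_lit 76) (nat_lit 6259396936) (nat_lit 16) (nat_lit 4) (nat_lit 17) (nat_lit 5) (nat_lit 17) (nat_lit 4) (nat_lit 406) (nat_lit 258) (nat_lit 236))) (XT.nd (nat_lit 78) (nat_lit 76) (nat_lit 0) (XT.lf (nat_lit 0) (nat_lit 18547148899) (nat_lit 76) (nat_lit 7390822841) (nat_lit 76) (nat_lit 1891372338) (nat_lit 16) (nat_lit 4) (nat_lit 17) (nat_lit 5) (nat_lit 17) (nat_lit 4) (nat_lit 407) (nat_lit 258) (nat_lit 235)) (XT.lf (nat_lit 0) (nat_lit 2485996071) (nat_lit 152) (nat_lit 617402295) (nat_lit 76) (nat_lit 25419123818) (nat_lit 15) (nat_lit 5) (nat_lit 17) (nat_lit 5) (nat_lit 16) (nat_lit 4) (nat_lit 408) (nat_lit 258) (nat_lit 234))))))))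
noncomputable def xc21 : XT := (XT.nd (nat_lit 2028) (nat_lit 228) (nat_lit 0) (XT.nd (nat_lit 1014) (nat_lit 228) (nat_lit 0) (XT.nd (nat_lit 468) (nat_lit 228) (nat_lit 0) (XT.nd (nat_lit 234) (nat_lit 76) (nat_lit 0) (XT.nd (nat_lit 78) (nat_lit 0) (nat_lit 0) (XT.lf (nat_lit 0) (nat_lit 6980918020) (nat_lit 152) (nat_lit 20927463371) (nat_lit 0) (nat_lit 1326834347) (nat_lit 14) (nat_lit 5) (nat_lit 16) (nat_lit 4) (nat_lit 14) (nat_lit 4) (nat_lit 409) (nat_lit 258) (nat_lit 233)) (XT.nd (nat_lit 78) (nat_lit 0) (nat_lit 0) (XT.lf (nat_lit 0) (nat_lit 11579145944) (nat_lit 152) (nat_lit 12616599779) (nat_lit 0) (nat_lit 5774499671) (nat_lit 14) (nat_lit 5) (nat_lit 16) (nat_lit 4) (nat_lit 14) (nat_lit 4) (nat_lit 410) (nat_lit 258) (nat_lit 232)) (XT.lf (nat_lit 0) (nat_lit 16248753054) (nat_lit 152) (nat_lit 4182649196) (nat_lit 0) (nat_lit 10297929500) (nat_lit 14) (nat_lit 5) (nat_lit 16) (nat_lit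 4) (nat_lit 14) (nat_lit 4) (nat_lit 411) (nat_lit 258) (nat_lit 231)))) (XT.nd (nat_lit 78) (nat_lit 0) (nat_lit 0) (XT.lf (nat_lit 0) (nat_lit 4468963422) (nat_lit 76) (nat_lit 16567814578) (nat_lit 76) (nat_lit 10475071332) (nat_lit 13) (nat_lit 4) (nat_lit 14) (nat_lit 5) (nat_lit 14) (nat_lit 4) (nat_lit 412) (nat_lit 258) (nat_lit 230)) (XT.nd (nat_lit 78) (nat_lit 0) (nat_lit 0) (XT.lf (nat_lit 0) (nat_lit 13344504161) (nat_lit 76) (nat_lit 12602263102) (nat_lit 76) (nat_lit 6371733749) (nat_lit 13) (nat_lit 4) (nat_lit 14) (nat_lit 5) (nat_lit 14) (nat_lit 4) (nat_lit 413) (nat_lit 258) (nat_lit 229)) (XT.lf (nat_lit 0) (nat_lit 22368485427) (nat_lit 76) (nat_lit 8573519333) (nat_lit 76) (nat_lit 2209217060) (nat_lit 13) (nat_lit 4) (nat_lit 14) (nat_lit 5) (nat_lit 14) (nat_lit 4) (nat_lit 414) (nat_lit 258) (nat_lit 228))))) (XT.nd (nat_lit 234) (nat_lit 76) (nat_lit 0) (XT.nd (nat_lit 78) (nat_lit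 76) (nat_lit 0) (XT.lf (nat_lit 0) (nat_lit 1976774200) (nat_lit 152) (nat_lit 2481327267) (nat_lit 76) (nat_lit 29552056509) (nat_lit 12) (nat_lit 5) (nat_lit 14) (nat_lit 5) (nat_lit 13) (nat_lit 4) (nat_lit 415) (nat_lit 258) (nat_lit 227)) (XT.nd (nat_lit 78) (nat_lit 0) (nat_lit 0) (XT.lf (nat_lit 0) (nat_lit 6053123846) (nat_lit 76) (nat_lit 189928639) (nat_lit 152) (nat_lit 28651187568) (nat_lit 11) (nat_lit 5) (nat_lit 12) (nat_lit 5) (nat_lit 13) (nat_lit 4) (nat_lit 416) (nat_lit 258) (nat_lit 226)) (XT.lf (nat_lit 0) (nat_lit 10644126688) (nat_lit 152) (nat_lit 21062698863) (nat_lit 0) (nat_lit 4097821957) (nat_lit 11) (nat_lit 5) (nat_lit 13) (nat_lit 4) (nat_lit 11) (nat_lit 4) (nat_lit 417) (nat_lit 258) (nat_lit 225)))) (XT.nd (nat_lit 156) (nat_lit 76) (nat_lit 0) (XT.nd (nat_lit 78) (nat_lit 0) (nat_lit 0) (XT.lf (nat_lit 0) (nat_lit 15121899535) (nat_lit 152) (nat_lit 13161933481) (nat_lit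 0) (nat_lit 8460201108) (nat_lit 11) (nat_lit 5) (nat_lit 13) (nat_lit 4) (nat_lit 11) (nat_lit 4) (nat_lit 418) (nat_lit 258) (nat_lit 224)) (XT.lf (nat_lit 0) (nat_lit 19678457934) (nat_lit 152) (nat_lit 5130090770) (nat_lit 0) (nat_lit 12904726793) (nat_lit 11) (nat_lit 5) (nat_lit 13) (nat_lit 4) (nat_lit 11) (nat_lit 4) (nat_lit 419) (nat_lit 258) (nat_lit 223))) (XT.nd (nat_lit 78) (nat_lit 0) (nat_lit 0) (XT.lf (nat_lit 0) (nat_lit 3100346307) (nat_lit 76) (nat_lit 21247239463) (nat_lit 76) (nat_lit 14364738696) (nat_lit 10) (nat_lit 4) (nat_lit 11) (nat_lit 5) (nat_lit 11) (nat_lit 4) (nat_lit 420) (nat_lit 258) (nat_lit 222)) (XT.lf (nat_lit 0) (nat_lit 11581006920) (nat_lit 76) (nat_lit 17574246348) (nat_lit 76) (nat_lit 10586144003) (nat_lit 10) (nat_lit 4) (nat_lit 11) (nat_lit 5) (nat_lit 11) (nat_lit 4) (nat_lit 421) (nat_lit 258) (nat_lit 221)))))) (XT.nd (nat_lit 468) (nat_lit 76) (nat_lit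 0) (XT.nd (nat_lit 234) (nat_lit 76) (nat_lit 0) (XT.nd (nat_lit 78) (nat_lit 76) (nat_lit 0) (XT.lf (nat_lit 0) (nat_lit 20217202489) (nat_lit 76) (nat_lit 13838163807) (nat_lit 76) (nat_lit 6747535658) (nat_lit 10) (nat_lit 4) (nat_lit 11) (nat_lit 5) (nat_lit 11) (nat_lit 4) (nat_lit 422) (nat_lit 258) (nat_lit 220)) (XT.nd (nat_lit 78) (nat_lit 76) (nat_lit 0) (XT.lf (nat_lit 0) (nat_lit 29016479206) (nat_lit 76) (nat_lit 10035727301) (nat_lit 76) (nat_lit 2845559536) (nat_lit 10) (nat_lit 4) (nat_lit 11) (nat_lit 5) (nat_lit 11) (nat_lit 4) (nat_lit 423) (nat_lit 258) (nat_lit 219)) (XT.lf (nat_lit 0) (nat_lit 1101276296) (nat_lit 152) (nat_lit 5051217286) (nat_lit 76) (nat_lit 36874128729) (nat_lit 9) (nat_lit 5) (nat_lit 11) (nat_lit 5) (nat_lit 10) (nat_lit 4) (nat_lit 424) (nat_lit 258) (nat_lit 218)))) (XT.nd (nat_lit 78) (nat_lit 0) (nat_lit 0) (XT.lf (nat_lit 0) (nat_lit 2951727598) (nat_lit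 76) (nat_lit 2138105603) (nat_lit 152) (nat_lit 39099256053) (nat_lit 8) (nat_lit 5) (nat_lit 9) (nat_lit 5) (nat_lit 10) (nat_lit 4) (nat_lit 425) (nat_lit 258) (nat_lit 217)) (XT.nd (nat_lit 78) (nat_lit 0) (nat_lit 0) (XT.lf (nat_lit 0) (nat_lit 9220996235) (nat_lit 152) (nat_lit 34197858113) (nat_lit 0) (nat_lit 1966892689) (nat_lit 8) (nat_lit 5) (nat_lit 10) (nat_lit 4) (nat_lit 8) (nat_lit 4) (nat_lit 426) (nat_lit 258) (nat_lit 216)) (XT.lf (nat_lit 0) (nat_lit 13450897859) (nat_lit 152) (nat_lit 27057237174) (nat_lit 0) (nat_lit 6110930567) (nat_lit 8) (nat_lit 5) (nat_lit 10) (nat_lit 4) (nat_lit 8) (nat_lit 4) (nat_lit 427) (nat_lit 258) (nat_lit 215))))) (XT.nd (nat_lit 234) (nat_lit 76) (nat_lit 0) (XT.nd (nat_lit 78) (nat_lit 0) (nat_lit 0) (XT.lf (nat_lit 0) (nat_lit 17762681327) (nat_lit 152) (nat_lit 19788706683) (nat_lit 0) (nat_lit 10339351174) (nat_lit 8) (nat_lit 5) (nat_lit 10) (nat_lit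 4) (nat_lit 8) (nat_lit 4) (nat_lit 428) (nat_lit 258) (nat_lit 214)) (XT.nd (nat_lit 78) (nat_lit 0) (nat_lit 0) (XT.lf (nat_lit 0) (nat_lit 22160114216) (nat_lit 152) (nat_lit 12385915497) (nat_lit 0) (nat_lit 14655849246) (nat_lit 8) (nat_lit 5) (nat_lit 10) (nat_lit 4) (nat_lit 8) (nat_lit 4) (nat_lit 429) (nat_lit 258) (nat_lit 213)) (XT.lf (nat_lit 0) (nat_lit 26647038943) (nat_lit 152) (nat_lit 4842395157) (nat_lit 0) (nat_lit 19064196481) (nat_lit 8) (nat_lit 5) (nat_lit 10) (nat_lit 4) (nat_lit 8) (nat_lit 4) (nat_lit 430) (nat_lit 258) (nat_lit 212)))) (XT.nd (nat_lit 156) (nat_lit 0) (nat_lit 0) (XT.nd (nat_lit 78) (nat_lit 0) (nat_lit 0) (XT.lf (nat_lit 0) (nat_lit 2905135416) (nat_lit 76) (nat_lit 28350166644) (nat_lit 76) (nat_lit 20691035356) (nat_lit 7) (nat_lit 4) (nat_lit 8) (nat_lit 5) (nat_lit 8) (nat_lit 4) (nat_lit 431) (nat_lit 258) (nat_lit 211)) (XT.lf (nat_lit 0) (nat_lit 10906145592)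 (nat_lit 76) (nat_lit 25103818939) (nat_lit 76) (nat_lit 17370620829) (nat_lit 7) (nat_lit 4) (nat_lit 8) (nat_lit 5) (nat_lit 8) (nat_lit 4) (nat_lit 432) (nat_lit 258) (nat_lit 210))) (XT.nd (nat_lit 78) (nat_lit 0) (nat_lit 0) (XT.lf (nat_lit 0) (nat_lit 19071253386) (nat_lit 76) (nat_lit 21796453068) (nat_lit 76) (nat_lit 13991345421) (nat_lit 7) (nat_lit 4) (nat_lit 8) (nat_lit 5) (nat_lit 8) (nat_lit 4) (nat_lit 433) (nat_lit 258) (nat_lit 209)) (XT.lf (nat_lit 0) (nat_lit 27407593358) (nat_lit 76) (nat_lit 18425179099) (nat_lit 76) (nat_lit 10550256368) (nat_lit 7) (nat_lit 4) (nat_lit 8) (nat_lit 5) (nat_lit 8) (nat_lit 4) (nat_lit 434) (nat_lit 258) (nat_lit 208))))))) (XT.nd (nat_lit 1014) (nat_lit 76) (nat_lit 0) (XT.nd (nat_lit 468) (nat_lit 0) (nat_lit 0) (XT.nd (nat_lit 234) (nat_lit 76) (nat_lit 0) (XT.nd (nat_lit 78) (nat_lit 76) (nat_lit 0) (XT.lf (nat_lit 0) (nat_lit 35922449689) (nat_lit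 76) (nat_lit 14987051259) (nat_lit 76) (nat_lit 7044346893) (nat_lit 7) (nat_lit 4) (nat_lit 8) (nat_lit 5) (nat_lit 8) (nat_lit 4) (nat_lit 435) (nat_lit 258) (nat_lit 207)) (XT.nd (nat_lit 78) (nat_lit 76) (nat_lit 0) (XT.lf (nat_lit 0) (nat_lit 44623262543) (nat_lit 76) (nat_lit 11479065357) (nat_lit 76) (nat_lit 3470553580) (nat_lit 7) (nat_lit 4) (nat_lit 8) (nat_lit 5) (nat_lit 8) (nat_lit 4) (nat_lit 436) (nat_lit 258) (nat_lit 206)) (XT.lf (nat_lit 0) (nat_lit 170846130) (nat_lit 152) (nat_lit 7725584824) (nat_lit 76) (nat_lit 53345063233) (nat_lit 6) (nat_lit 5) (nat_lit 8) (nat_lit 5) (nat_lit 7) (nat_lit 4) (nat_lit 437) (nat_lit 258) (nat_lit 205)))) (XT.nd (nat_lit 78) (nat_lit 76) (nat_lit 0) (XT.lf (nat_lit 0) (nat_lit 3817266447) (nat_lit 152) (nat_lit 385381379) (nat_lit 76) (nat_lit 58757524209) (nat_lit 6) (nat_lit 5) (nat_lit 8) (nat_lit 5) (nat_lit 7) (nat_lit 4) (nat_lit 438) (nat_lit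 258) (nat_lit 204)) (XT.nd (nat_lit 78) (nat_lit 0) (nat_lit 0) (XT.lf (nat_lit 0) (nat_lit 7252284441) (nat_lit 76) (nat_lit 357045515) (nat_lit 152) (nat_lit 57119996257) (nat_lit 5) (nat_lit 5) (nat_lit 6) (nat_lit 5) (nat_lit 7) (nat_lit 4) (nat_lit 439) (nat_lit 258) (nat_lit 203)) (XT.lf (nat_lit 0) (nat_lit 11520335303) (nat_lit 152) (nat_lit 51523474564) (nat_lit 0) (nat_lit 3507593162) (nat_lit 5) (nat_lit 5) (nat_lit 7) (nat_lit 4) (nat_lit 5) (nat_lit 4) (nat_lit 440) (nat_lit 258) (nat_lit 202))))) (XT.nd (nat_lit 234) (nat_lit 0) (nat_lit 0) (XT.nd (nat_lit 78) (nat_lit 0) (nat_lit 0) (XT.lf (nat_lit 0) (nat_lit 15519785207) (nat_lit 152) (nat_lit 45457296426) (nat_lit 0) (nat_lit 7451930394) (nat_lit 5) (nat_lit 5) (nat_lit 7) (nat_lit 4) (nat_lit 5) (nat_lit 4) (nat_lit 441) (nat_lit 258) (nat_lit 201)) (XT.nd (nat_lit 78) (nat_lit 0) (nat_lit 0) (XT.lf (nat_lit 0) (nat_lit 19607742195)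 (nat_lit 152) (nat_lit 39269774673) (nat_lit 0) (nat_lit 11486379934) (nat_lit 5) (nat_lit 5) (nat_lit 7) (nat_lit 4) (nat_lit 5) (nat_lit 4) (nat_lit 442) (nat_lit 258) (nat_lit 200)) (XT.lf (nat_lit 0) (nat_lit 23787778268) (nat_lit 152) (nat_lit 32955502734) (nat_lit 0) (nat_lit 15614467028) (nat_lit 5) (nat_lit 5) (nat_lit 7) (nat_lit 4) (nat_lit 5) (nat_lit 4) (nat_lit 443) (nat_lit 258) (nat_lit 199)))) (XT.nd (nat_lit 156) (nat_lit 0) (nat_lit 0) (XT.nd (nat_lit 78) (nat_lit 0) (nat_lit 0) (XT.lf (nat_lit 0) (nat_lit 28063545884) (nat_lit 152) (nat_lit 26508963284) (nat_lit 0) (nat_lit 19839798742) (nat_lit 5) (nat_lit 5) (nat_lit 7) (nat_lit 4) (nat_lit 5) (nat_lit 4) (nat_lit 444) (nat_lit 258) (nat_lit 198)) (XT.lf (nat_lit 0) (nat_lit 32438781151) (nat_lit 152) (nat_lit 19924523424) (nat_lit 0) (nat_lit 24166067115) (nat_lit 5) (nat_lit 5) (nat_lit 7) (nat_lit 4) (nat_lit 5) (nat_lit 4) (nat_lit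 445) (nat_lit 258) (nat_lit 197))) (XT.nd (nat_lit 78) (nat_lit 0) (nat_lit 0) (XT.lf (nat_lit 0) (nat_lit 36917307091) (nat_lit 152) (nat_lit 13196429759) (nat_lit 0) (nat_lit 28597052380) (nat_lit 5) (nat_lit 5) (nat_lit 7) (nat_lit 4) (nat_lit 5) (nat_lit 4) (nat_lit 446) (nat_lit 258) (nat_lit 196)) (XT.lf (nat_lit 0) (nat_lit 41503036978) (nat_lit 152) (nat_lit 6318803374) (nat_lit 0) (nat_lit 33136626272) (nat_lit 5) (nat_lit 5) (nat_lit 7) (nat_lit 4) (nat_lit 5) (nat_lit 4) (nat_lit 447) (nat_lit 258) (nat_lit 195)))))) (XT.nd (nat_lit 42042) (nat_lit 0) (nat_lit 1596) (XT.nd (nat_lit 41730) (nat_lit 0) (nat_lit 2052) (XT.nd (nat_lit 78) (nat_lit 0) (nat_lit 0) (XT.lf (nat_lit 0) (nat_lit 728582579) (nat_lit 76) (nat_lit 45478398763) (nat_lit 76) (nat_lit 37067176412) (nat_lit 4) (nat_lit 4) (nat_lit 5) (nat_lit 5) (nat_lit 5) (nat_lit 4) (nat_lit 448) (nat_lit 258) (nat_lit 194)) (XT.nd (nat_lit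 78) (nat_lit 0) (nat_lit 0) (XT.lf (nat_lit 0) (nat_lit 8066630797) (nat_lit 76) (nat_lit 43023144155) (nat_lit 76) (nat_lit 34568415351) (nat_lit 4) (nat_lit 4) (nat_lit 5) (nat_lit 5) (nat_lit 5) (nat_lit 4) (nat_lit 449) (nat_lit 258) (nat_lit 193)) (XT.lf (nat_lit 0) (nat_lit 15575996591) (nat_lit 76) (nat_lit 40517738683) (nat_lit 76) (nat_lit 32020770606) (nat_lit 4) (nat_lit 4) (nat_lit 5) (nat_lit 5) (nat_lit 5) (nat_lit 4) (nat_lit 450) (nat_lit 258) (nat_lit 192)))) (XT.nd (nat_lit 156) (nat_lit 304) (nat_lit 0) (XT.nd (nat_lit 78) (nat_lit 0) (nat_lit 0) (XT.lf (nat_lit 0) (nat_lit 1281967389) (nat_lit 152) (nat_lit 5432869155) (nat_lit 0) (nat_lit 1281967389) (nat_lit 35) (nat_lit 5) (nat_lit 37) (nat_lit 4) (nat_lit 35) (nat_lit 4) (nat_lit 382) (nat_lit 259) (nat_lit 259)) (XT.lf (nat_lit 0) (nat_lit 7608650830) (nat_lit 152) (nat_lit 1481641170) (nat_lit 0) (nat_lit 7220939675) (nat_lit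 35) (nat_lit 5) (nat_lit 37) (nat_lit 4) (nat_lit 35) (nat_lit 4) (nat_lit 383) (nat_lit 259) (nat_lit 258))) (XT.nd (nat_lit 78) (nat_lit 152) (nat_lit 0) (XT.lf (nat_lit 0) (nat_lit 8155501295) (nat_lit 152) (nat_lit 4623897279) (nat_lit 152) (nat_lit 3859767528) (nat_lit 33) (nat_lit 4) (nat_lit 35) (nat_lit 5) (nat_lit 35) (nat_lit 4) (nat_lit 384) (nat_lit 259) (nat_lit 257)) (XT.lf (nat_lit 0) (nat_lit 955427328) (nat_lit 76) (nat_lit 71672192) (nat_lit 152) (nat_lit 15951911357) (nat_lit 31) (nat_lit 5) (nat_lit 32) (nat_lit 5) (nat_lit 33) (nat_lit 4) (nat_lit 385) (nat_lit 259) (nat_lit 256))))) (XT.nd (nat_lit 234) (nat_lit 304) (nat_lit 0) (XT.nd (nat_lit 78) (nat_lit 152) (nat_lit 0) (XT.lf (nat_lit 0) (nat_lit 6010809046) (nat_lit 152) (nat_lit 6746633223) (nat_lit 0) (nat_lit 4569648533) (nat_lit 31) (nat_lit 5) (nat_lit 33) (nat_lit 4) (nat_lit 31) (nat_lit 4) (nat_lit 386) (nat_lit 259)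 (nat_lit 255)) (XT.nd (nat_lit 78) (nat_lit 0) (nat_lit 0) (XT.lf (nat_lit 0) (nat_lit 2677340130) (nat_lit 152) (nat_lit 8393052876) (nat_lit 152) (nat_lit 6617449315) (nat_lit 29) (nat_lit 4) (nat_lit 31) (nat_lit 5) (nat_lit 31) (nat_lit 4) (nat_lit 387) (nat_lit 259) (nat_lit 254)) (XT.lf (nat_lit 0) (nat_lit 12341304001) (nat_lit 152) (nat_lit 3909680420) (nat_lit 152) (nat_lit 1809374871) (nat_lit 29) (nat_lit 4) (nat_lit 31) (nat_lit 5) (nat_lit 31) (nat_lit 4) (nat_lit 388) (nat_lit 259) (nat_lit 253)))) (XT.nd (nat_lit 156) (nat_lit 152) (nat_lit 0) (XT.nd (nat_lit 78) (nat_lit 0) (nat_lit 0) (XT.lf (nat_lit 0) (nat_lit 3027017717) (nat_lit 152) (nat_lit 14735960551) (nat_lit 0) (nat_lit 681823350) (nat_lit 27) (nat_lit 5) (nat_lit 29) (nat_lit 4) (nat_lit 27) (nat_lit 4) (nat_lit 389) (nat_lit 259) (nat_lit 252)) (XT.lf (nat_lit 0) (nat_lit 7972535555) (nat_lit 152) (nat_lit 5537517197) (nat_lit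 0) (nat_lit 5330192872) (nat_lit 27) (nat_lit 5) (nat_lit 29) (nat_lit 4) (nat_lit 27) (nat_lit 4) (nat_lit 390) (nat_lit 259) (nat_lit 251))) (XT.nd (nat_lit 78) (nat_lit 0) (nat_lit 0) (XT.lf (nat_lit 0) (nat_lit 3838891258) (nat_lit 152) (nat_lit 9170611351) (nat_lit 152) (nat_lit 6239775158) (nat_lit 25) (nat_lit 4) (nat_lit 27) (nat_lit 5) (nat_lit 27) (nat_lit 4) (nat_lit 391) (nat_lit 259) (nat_lit 250)) (XT.lf (nat_lit 0) (nat_lit 13438901933) (nat_lit 152) (nat_lit 4721863572) (nat_lit 152) (nat_lit 1510936591) (nat_lit 25) (nat_lit 4) (nat_lit 27) (nat_lit 5) (nat_lit 27) (nat_lit 4) (nat_lit 392) (nat_lit 259) (nat_lit 249))))))))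
noncomputable def xc22 : XT := (XT.nd (nat_lit 2028) (nat_lit 456) (nat_lit 0) (XT.nd (nat_lit 1014) (nat_lit 456) (nat_lit 0) (XT.nd (nat_lit 468) (nat_lit 228) (nat_lit 0) (XT.nd (nat_lit 234) (nat_lit 152) (nat_lit 0) (XT.nd (nat_lit 78) (nat_lit 76) (nat_lit 0) (XT.lf (nat_lit 0) (nat_lit 3079874183) (nat_lit 76) (nat_lit 152999692) (nat_lit 152) (nat_lit 16874812218) (nat_lit 23) (nat_lit 5) (nat_lit 24) (nat_lit 5) (nat_lit 25) (nat_lit 4) (nat_lit 393) (nat_lit 259) (nat_lit 248)) (XT.nd (nat_lit 78) (nat_lit 76) (nat_lit 0) (XT.lf (nat_lit 0) (nat_lit 8105334109) (nat_lit 152) (nat_lit 7982886895) (nat_lit 0) (nat_lit 4467594095) (nat_lit 23) (nat_lit 5) (nat_lit 25) (nat_lit 4) (nat_lit 23) (nat_lit 4) (nat_lit 394) (nat_lit 259) (nat_lit 247)) (XT.lf (nat_lit 0) (nat_lit 1191656537) (nat_lit 76) (nat_lit 11857296939) (nat_lit 76) (nat_lit 7970699889) (nat_lit 22) (nat_lit 4) (nat_lit 23) (nat_lit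 5) (nat_lit 23) (nat_lit 4) (nat_lit 395) (nat_lit 259) (nat_lit 246)))) (XT.nd (nat_lit 78) (nat_lit 152) (nat_lit 0) (XT.lf (nat_lit 0) (nat_lit 10643212261) (nat_lit 76) (nat_lit 7491302921) (nat_lit 76) (nat_lit 3363097098) (nat_lit 22) (nat_lit 4) (nat_lit 23) (nat_lit 5) (nat_lit 23) (nat_lit 4) (nat_lit 396) (nat_lit 259) (nat_lit 245)) (XT.nd (nat_lit 78) (nat_lit 76) (nat_lit 0) (XT.lf (nat_lit 0) (nat_lit 1270457346) (nat_lit 152) (nat_lit 1783749035) (nat_lit 76) (nat_lit 18937877340) (nat_lit 21) (nat_lit 5) (nat_lit 23) (nat_lit 5) (nat_lit 22) (nat_lit 4) (nat_lit 397) (nat_lit 259) (nat_lit 244)) (XT.lf (nat_lit 0) (nat_lit 5979814373) (nat_lit 152) (nat_lit 14997455689) (nat_lit 0) (nat_lit 1523001859) (nat_lit 20) (nat_lit 5) (nat_lit 22) (nat_lit 4) (nat_lit 20) (nat_lit 4) (nat_lit 398) (nat_lit 259) (nat_lit 243))))) (XT.nd (nat_lit 234) (nat_lit 152) (nat_lit 0) (XT.nd (nat_lit 78)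 (nat_lit 76) (nat_lit 0) (XT.lf (nat_lit 0) (nat_lit 10796335231) (nat_lit 152) (nat_lit 6103550487) (nat_lit 0) (nat_lit 6124856451) (nat_lit 20) (nat_lit 5) (nat_lit 22) (nat_lit 4) (nat_lit 20) (nat_lit 4) (nat_lit 399) (nat_lit 259) (nat_lit 242)) (XT.nd (nat_lit 78) (nat_lit 0) (nat_lit 0) (XT.lf (nat_lit 0) (nat_lit 2965019746) (nat_lit 76) (nat_lit 12740690584) (nat_lit 76) (nat_lit 7860797954) (nat_lit 19) (nat_lit 4) (nat_lit 20) (nat_lit 5) (nat_lit 20) (nat_lit 4) (nat_lit 400) (nat_lit 259) (nat_lit 241)) (XT.lf (nat_lit 0) (nat_lit 12282224239) (nat_lit 76) (nat_lit 8462539777) (nat_lit 76) (nat_lit 3380303602) (nat_lit 19) (nat_lit 4) (nat_lit 20) (nat_lit 5) (nat_lit 20) (nat_lit 4) (nat_lit 401) (nat_lit 259) (nat_lit 240)))) (XT.nd (nat_lit 156) (nat_lit 0) (nat_lit 0) (XT.nd (nat_lit 78) (nat_lit 76) (nat_lit 0) (XT.lf (nat_lit 0) (nat_lit 1132812038) (nat_lit 152) (nat_lit 2979077779)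 (nat_lit 76) (nat_lit 20590480396) (nat_lit 18) (nat_lit 5) (nat_lit 20) (nat_lit 5) (nat_lit 19) (nat_lit 4) (nat_lit 402) (nat_lit 259) (nat_lit 239)) (XT.lf (nat_lit 0) (nat_lit 5700351889) (nat_lit 152) (nat_lit 19205797117) (nat_lit 0) (nat_lit 390240807) (nat_lit 17) (nat_lit 5) (nat_lit 19) (nat_lit 4) (nat_lit 17) (nat_lit 4) (nat_lit 403) (nat_lit 259) (nat_lit 238))) (XT.nd (nat_lit 78) (nat_lit 0) (nat_lit 0) (XT.lf (nat_lit 0) (nat_lit 10400791690) (nat_lit 152) (nat_lit 10596671909) (nat_lit 0) (nat_lit 4910900990) (nat_lit 17) (nat_lit 5) (nat_lit 19) (nat_lit 4) (nat_lit 17) (nat_lit 4) (nat_lit 404) (nat_lit 259) (nat_lit 237)) (XT.lf (nat_lit 0) (nat_lit 15169216801) (nat_lit 152) (nat_lit 1866900345) (nat_lit 0) (nat_lit 9504782782) (nat_lit 17) (nat_lit 5) (nat_lit 19) (nat_lit 4) (nat_lit 17) (nat_lit 4) (nat_lit 405) (nat_lit 259) (nat_lit 236)))))) (XT.nd (nat_lit 468) (nat_lit 228)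 (nat_lit 0) (XT.nd (nat_lit 234) (nat_lit 76) (nat_lit 0) (XT.nd (nat_lit 78) (nat_lit 76) (nat_lit 0) (XT.lf (nat_lit 0) (nat_lit 7130283032) (nat_lit 76) (nat_lit 12948051417) (nat_lit 76) (nat_lit 7114157866) (nat_lit 16) (nat_lit 4) (nat_lit 17) (nat_lit 5) (nat_lit 17) (nat_lit 4) (nat_lit 406) (nat_lit 259) (nat_lit 235)) (XT.nd (nat_lit 78) (nat_lit 76) (nat_lit 0) (XT.lf (nat_lit 0) (nat_lit 16303342690) (nat_lit 76) (nat_lit 8780127351) (nat_lit 76) (nat_lit 2781709982) (nat_lit 16) (nat_lit 4) (nat_lit 17) (nat_lit 5) (nat_lit 17) (nat_lit 4) (nat_lit 407) (nat_lit 259) (nat_lit 234)) (XT.lf (nat_lit 0) (nat_lit 1579165632) (nat_lit 152) (nat_lit 2952442996) (nat_lit 76) (nat_lit 24028026837) (nat_lit 15) (nat_lit 5) (nat_lit 17) (nat_lit 5) (nat_lit 16) (nat_lit 4) (nat_lit 408) (nat_lit 259) (nat_lit 233)))) (XT.nd (nat_lit 78) (nat_lit 0) (nat_lit 0) (XT.lf (nat_lit 0) (nat_lit 5876308215)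 (nat_lit 76) (nat_lit 128389777) (nat_lit 152) (nat_lit 23269717171) (nat_lit 14) (nat_lit 5) (nat_lit 15) (nat_lit 5) (nat_lit 16) (nat_lit 4) (nat_lit 409) (nat_lit 259) (nat_lit 232)) (XT.nd (nat_lit 78) (nat_lit 0) (nat_lit 0) (XT.lf (nat_lit 0) (nat_lit 10568899808) (nat_lit 152) (nat_lit 15148195854) (nat_lit 0) (nat_lit 4293374265) (nat_lit 14) (nat_lit 5) (nat_lit 16) (nat_lit 4) (nat_lit 14) (nat_lit 4) (nat_lit 410) (nat_lit 259) (nat_lit 231)) (XT.lf (nat_lit 0) (nat_lit 15206670077) (nat_lit 152) (nat_lit 6774620667) (nat_lit 0) (nat_lit 8789224844) (nat_lit 14) (nat_lit 5) (nat_lit 16) (nat_lit 4) (nat_lit 14) (nat_lit 4) (nat_lit 411) (nat_lit 259) (nat_lit 230))))) (XT.nd (nat_lit 234) (nat_lit 152) (nat_lit 0) (XT.nd (nat_lit 78) (nat_lit 0) (nat_lit 0) (XT.lf (nat_lit 0) (nat_lit 1765623156) (nat_lit 76) (nat_lit 18172176152) (nat_lit 76) (nat_lit 11616944811) (nat_lit 13) (nat_lit 4)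 (nat_lit 14) (nat_lit 5) (nat_lit 14) (nat_lit 4) (nat_lit 412) (nat_lit 259) (nat_lit 229)) (XT.nd (nat_lit 78) (nat_lit 0) (nat_lit 0) (XT.lf (nat_lit 0) (nat_lit 10583121680) (nat_lit 76) (nat_lit 14234099677) (nat_lit 76) (nat_lit 7545095416) (nat_lit 13) (nat_lit 4) (nat_lit 14) (nat_lit 5) (nat_lit 14) (nat_lit 4) (nat_lit 413) (nat_lit 259) (nat_lit 228)) (XT.lf (nat_lit 0) (nat_lit 19550751282) (nat_lit 76) (nat_lit 10232030666) (nat_lit 76) (nat_lit 3413149784) (nat_lit 13) (nat_lit 4) (nat_lit 14) (nat_lit 5) (nat_lit 14) (nat_lit 4) (nat_lit 414) (nat_lit 259) (nat_lit 227)))) (XT.nd (nat_lit 156) (nat_lit 0) (nat_lit 0) (XT.nd (nat_lit 78) (nat_lit 76) (nat_lit 0) (XT.lf (nat_lit 0) (nat_lit 767233078) (nat_lit 152) (nat_lit 5387491539) (nat_lit 76) (nat_lit 27901367124) (nat_lit 12) (nat_lit 5) (nat_lit 14) (nat_lit 5) (nat_lit 13) (nat_lit 4) (nat_lit 415) (nat_lit 259) (nat_lit 226)) (XT.lf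 (nat_lit 0) (nat_lit 3034370144) (nat_lit 76) (nat_lit 1941869267) (nat_lit 152) (nat_lit 29965656085) (nat_lit 11) (nat_lit 5) (nat_lit 12) (nat_lit 5) (nat_lit 13) (nat_lit 4) (nat_lit 416) (nat_lit 259) (nat_lit 225))) (XT.nd (nat_lit 78) (nat_lit 0) (nat_lit 0) (XT.lf (nat_lit 0) (nat_lit 9332288620) (nat_lit 152) (nat_lit 24166022948) (nat_lit 0) (nat_lit 2355345545) (nat_lit 11) (nat_lit 5) (nat_lit 13) (nat_lit 4) (nat_lit 11) (nat_lit 4) (nat_lit 417) (nat_lit 259) (nat_lit 224)) (XT.lf (nat_lit 0) (nat_lit 13782698101) (nat_lit 152) (nat_lit 16317447533) (nat_lit 0) (nat_lit 6693722312) (nat_lit 11) (nat_lit 5) (nat_lit 13) (nat_lit 4) (nat_lit 11) (nat_lit 4) (nat_lit 418) (nat_lit 259) (nat_lit 223))))))) (XT.nd (nat_lit 1014) (nat_lit 228) (nat_lit 0) (XT.nd (nat_lit 468) (nat_lit 152) (nat_lit 0) (XT.nd (nat_lit 234) (nat_lit 0) (nat_lit 0) (XT.nd (nat_lit 78) (nat_lit 76) (nat_lit 0) (XT.lf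 (nat_lit 0) (nat_lit 18312690126) (nat_lit 152) (nat_lit 8336274693) (nat_lit 0) (nat_lit 11114944711) (nat_lit 11) (nat_lit 5) (nat_lit 13) (nat_lit 4) (nat_lit 11) (nat_lit 4) (nat_lit 419) (nat_lit 259) (nat_lit 222)) (XT.nd (nat_lit 78) (nat_lit 76) (nat_lit 0) (XT.lf (nat_lit 0) (nat_lit 22926222939) (nat_lit 152) (nat_lit 215530588) (nat_lit 0) (nat_lit 15622875946) (nat_lit 11) (nat_lit 5) (nat_lit 13) (nat_lit 4) (nat_lit 11) (nat_lit 4) (nat_lit 420) (nat_lit 259) (nat_lit 221)) (XT.lf (nat_lit 0) (nat_lit 8212128788) (nat_lit 76) (nat_lit 19494139001) (nat_lit 76) (nat_lit 12088266203) (nat_lit 10) (nat_lit 4) (nat_lit 11) (nat_lit 5) (nat_lit 11) (nat_lit 4) (nat_lit 421) (nat_lit 259) (nat_lit 220)))) (XT.nd (nat_lit 78) (nat_lit 0) (nat_lit 0) (XT.lf (nat_lit 0) (nat_lit 16801031392) (nat_lit 76) (nat_lit 15780582820) (nat_lit 76) (nat_lit 8275170407) (nat_lit 10) (nat_lit 4) (nat_lit 11)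 (nat_lit 5) (nat_lit 11) (nat_lit 4) (nat_lit 422) (nat_lit 259) (nat_lit 219)) (XT.nd (nat_lit 78) (nat_lit 0) (nat_lit 0) (XT.lf (nat_lit 0) (nat_lit 25554392607) (nat_lit 76) (nat_lit 12000016567) (nat_lit 76) (nat_lit 4397963750) (nat_lit 10) (nat_lit 4) (nat_lit 11) (nat_lit 5) (nat_lit 11) (nat_lit 4) (nat_lit 423) (nat_lit 259) (nat_lit 218)) (XT.lf (nat_lit 0) (nat_lit 34479861002) (nat_lit 76) (nat_lit 8149136835) (nat_lit 76) (nat_lit 453258384) (nat_lit 10) (nat_lit 4) (nat_lit 11) (nat_lit 5) (nat_lit 11) (nat_lit 4) (nat_lit 424) (nat_lit 259) (nat_lit 217))))) (XT.nd (nat_lit 234) (nat_lit 0) (nat_lit 0) (XT.nd (nat_lit 78) (nat_lit 76) (nat_lit 0) (XT.lf (nat_lit 0) (nat_lit 3492877413) (nat_lit 152) (nat_lit 696430150) (nat_lit 76) (nat_lit 40057086903) (nat_lit 9) (nat_lit 5) (nat_lit 11) (nat_lit 5) (nat_lit 10) (nat_lit 4) (nat_lit 425) (nat_lit 259) (nat_lit 216)) (XT.nd (nat_lit 78)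 (nat_lit 0) (nat_lit 0) (XT.lf (nat_lit 0) (nat_lit 7502423437) (nat_lit 76) (nat_lit 72864442) (nat_lit 152) (nat_lit 37869229487) (nat_lit 8) (nat_lit 5) (nat_lit 9) (nat_lit 5) (nat_lit 10) (nat_lit 4) (nat_lit 426) (nat_lit 259) (nat_lit 215)) (XT.lf (nat_lit 0) (nat_lit 11782314109) (nat_lit 152) (nat_lit 30843289359) (nat_lit 0) (nat_lit 4052921190) (nat_lit 8) (nat_lit 5) (nat_lit 10) (nat_lit 4) (nat_lit 8) (nat_lit 4) (nat_lit 427) (nat_lit 259) (nat_lit 214)))) (XT.nd (nat_lit 156) (nat_lit 0) (nat_lit 0) (XT.nd (nat_lit 78) (nat_lit 0) (nat_lit 0) (XT.lf (nat_lit 0) (nat_lit 16072568471) (nat_lit 152) (nat_lit 23616037301) (nat_lit 0) (nat_lit 8262240736) (nat_lit 8) (nat_lit 5) (nat_lit 10) (nat_lit 4) (nat_lit 8) (nat_lit 4) (nat_lit 428) (nat_lit 259) (nat_lit 213)) (XT.lf (nat_lit 0) (nat_lit 20449099317) (nat_lit 152) (nat_lit 16253322264) (nat_lit 0) (nat_lit 12560194089) (nat_lit 8) (nat_lit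 5) (nat_lit 10) (nat_lit 4) (nat_lit 8) (nat_lit 4) (nat_lit 429) (nat_lit 259) (nat_lit 212))) (XT.nd (nat_lit 78) (nat_lit 0) (nat_lit 0) (XT.lf (nat_lit 0) (nat_lit 24915730797) (nat_lit 152) (nat_lit 8748710807) (nat_lit 0) (nat_lit 16950536743) (nat_lit 8) (nat_lit 5) (nat_lit 10) (nat_lit 4) (nat_lit 8) (nat_lit 4) (nat_lit 430) (nat_lit 259) (nat_lit 211)) (XT.lf (nat_lit 0) (nat_lit 29476365796) (nat_lit 152) (nat_lit 1095645503) (nat_lit 0) (nat_lit 21437104919) (nat_lit 8) (nat_lit 5) (nat_lit 10) (nat_lit 4) (nat_lit 8) (nat_lit 4) (nat_lit 431) (nat_lit 259) (nat_lit 210)))))) (XT.nd (nat_lit 546) (nat_lit 76) (nat_lit 0) (XT.nd (nat_lit 234) (nat_lit 76) (nat_lit 0) (XT.nd (nat_lit 78) (nat_lit 0) (nat_lit 0) (XT.lf (nat_lit 0) (nat_lit 6846153914) (nat_lit 76) (nat_lit 27354644837) (nat_lit 76) (nat_lit 19243474425) (nat_lit 7) (nat_lit 4) (nat_lit 8) (nat_lit 5) (nat_lit 8) (nat_lit 4) (nat_lit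 432) (nat_lit 259) (nat_lit 209)) (XT.nd (nat_lit 78) (nat_lit 0) (nat_lit 0) (XT.lf (nat_lit 0) (nat_lit 14974945917) (nat_lit 76) (nat_lit 24064674472) (nat_lit 76) (nat_lit 15883688976) (nat_lit 7) (nat_lit 4) (nat_lit 8) (nat_lit 5) (nat_lit 8) (nat_lit 4) (nat_lit 433) (nat_lit 259) (nat_lit 208)) (XT.lf (nat_lit 0) (nat_lit 23276027839) (nat_lit 76) (nat_lit 20710289345) (nat_lit 76) (nat_lit 12461522214) (nat_lit 7) (nat_lit 4) (nat_lit 8) (nat_lit 5) (nat_lit 8) (nat_lit 4) (nat_lit 434) (nat_lit 259) (nat_lit 207)))) (XT.nd (nat_lit 156) (nat_lit 76) (nat_lit 0) (XT.nd (nat_lit 78) (nat_lit 0) (nat_lit 0) (XT.lf (nat_lit 0) (nat_lit 31756653054) (nat_lit 76) (nat_lit 17288558437) (nat_lit 76) (nat_lit 8973983894) (nat_lit 7) (nat_lit 4) (nat_lit 8) (nat_lit 5) (nat_lit 8) (nat_lit 4) (nat_lit 435) (nat_lit 259) (nat_lit 206)) (XT.lf (nat_lit 0) (nat_lit 40424231815) (nat_lit 76) (nat_lit 13796491889)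 (nat_lit 76) (nat_lit 5418026654) (nat_lit 7) (nat_lit 4) (nat_lit 8) (nat_lit 5) (nat_lit 8) (nat_lit 4) (nat_lit 436) (nat_lit 259) (nat_lit 205))) (XT.nd (nat_lit 78) (nat_lit 76) (nat_lit 0) (XT.lf (nat_lit 0) (nat_lit 49286337736) (nat_lit 76) (nat_lit 10231038379) (nat_lit 76) (nat_lit 1790543346) (nat_lit 7) (nat_lit 4) (nat_lit 8) (nat_lit 5) (nat_lit 8) (nat_lit 4) (nat_lit 437) (nat_lit 259) (nat_lit 204)) (XT.lf (nat_lit 0) (nat_lit 1874332776) (nat_lit 152) (nat_lit 4695822600) (nat_lit 76) (nat_lit 56457454542) (nat_lit 6) (nat_lit 5) (nat_lit 8) (nat_lit 5) (nat_lit 7) (nat_lit 4) (nat_lit 438) (nat_lit 259) (nat_lit 203))))) (XT.nd (nat_lit 234) (nat_lit 0) (nat_lit 0) (XT.nd (nat_lit 78) (nat_lit 0) (nat_lit 0) (XT.lf (nat_lit 0) (nat_lit 2824711225) (nat_lit 76) (nat_lit 2783120496) (nat_lit 152) (nat_lit 59190690992) (nat_lit 5) (nat_lit 5) (nat_lit 6) (nat_lit 5) (nat_lit 7) (nat_lit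 4) (nat_lit 439) (nat_lit 259) (nat_lit 202)) (XT.nd (nat_lit 78) (nat_lit 0) (nat_lit 0) (XT.lf (nat_lit 0) (nat_lit 9479545359) (nat_lit 152) (nat_lit 56027692320) (nat_lit 0) (nat_lit 1114542231) (nat_lit 5) (nat_lit 5) (nat_lit 7) (nat_lit 4) (nat_lit 5) (nat_lit 4) (nat_lit 440) (nat_lit 259) (nat_lit 201)) (XT.lf (nat_lit 0) (nat_lit 13463489641) (nat_lit 152) (nat_lit 49991386955) (nat_lit 0) (nat_lit 5044979064) (nat_lit 5) (nat_lit 5) (nat_lit 7) (nat_lit 4) (nat_lit 5) (nat_lit 4) (nat_lit 441) (nat_lit 259) (nat_lit 200)))) (XT.nd (nat_lit 156) (nat_lit 0) (nat_lit 0) (XT.nd (nat_lit 78) (nat_lit 0) (nat_lit 0) (XT.lf (nat_lit 0) (nat_lit 17536392627) (nat_lit 152) (nat_lit 43832867896) (nat_lit 0) (nat_lit 9065933071) (nat_lit 5) (nat_lit 5) (nat_lit 7) (nat_lit 4) (nat_lit 5) (nat_lit 4) (nat_lit 442) (nat_lit 259) (nat_lit 199)) (XT.lf (nat_lit 0) (nat_lit 21701813163) (nat_lit 152) (nat_lit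 37546753911) (nat_lit 0) (nat_lit 13180917706) (nat_lit 5) (nat_lit 5) (nat_lit 7) (nat_lit 4) (nat_lit 5) (nat_lit 4) (nat_lit 443) (nat_lit 259) (nat_lit 198))) (XT.nd (nat_lit 78) (nat_lit 0) (nat_lit 0) (XT.lf (nat_lit 0) (nat_lit 25963390938) (nat_lit 152) (nat_lit 31127552280) (nat_lit 0) (nat_lit 17393528586) (nat_lit 5) (nat_lit 5) (nat_lit 7) (nat_lit 4) (nat_lit 5) (nat_lit 4) (nat_lit 444) (nat_lit 259) (nat_lit 197)) (XT.lf (nat_lit 0) (nat_lit 30324849661) (nat_lit 152) (nat_lit 24569653992) (nat_lit 0) (nat_lit 21707446634) (nat_lit 5) (nat_lit 5) (nat_lit 7) (nat_lit 4) (nat_lit 5) (nat_lit 4) (nat_lit 445) (nat_lit 259) (nat_lit 196))))))))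
noncomputable def xc23 : XT := (XT.nd (nat_lit 43368) (nat_lit 0) (nat_lit 304) (XT.nd (nat_lit 42354) (nat_lit 0) (nat_lit 1140) (XT.nd (nat_lit 41808) (nat_lit 0) (nat_lit 1900) (XT.nd (nat_lit 234) (nat_lit 76) (nat_lit 0) (XT.nd (nat_lit 78) (nat_lit 0) (nat_lit 0) (XT.lf (nat_lit 0) (nat_lit 34790000315) (nat_lit 152) (nat_lit 17867328844) (nat_lit 0) (nat_lit 26126441292) (nat_lit 5) (nat_lit 5) (nat_lit 7) (nat_lit 4) (nat_lit 5) (nat_lit 4) (nat_lit 446) (nat_lit 259) (nat_lit 195)) (XT.nd (nat_lit 78) (nat_lit 0) (nat_lit 0) (XT.lf (nat_lit 0) (nat_lit 39362744487) (nat_lit 152) (nat_lit 11014720436) (nat_lit 0) (nat_lit 30654373819) (nat_lit 5) (nat_lit 5) (nat_lit 7) (nat_lit 4) (nat_lit 5) (nat_lit 4) (nat_lit 447) (nat_lit 259) (nat_lit 194)) (XT.lf (nat_lit 0) (nat_lit 44047077780) (nat_lit 152) (nat_lit 4005841052) (nat_lit 0) (nat_lit 35295200660) (nat_lit 5) (nat_lit 5) (nat_lit 7) (nat_lit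 4) (nat_lit 5) (nat_lit 4) (nat_lit 448) (nat_lit 259) (nat_lit 193)))) (XT.nd (nat_lit 78) (nat_lit 0) (nat_lit 0) (XT.lf (nat_lit 0) (nat_lit 3228431907) (nat_lit 76) (nat_lit 45649695056) (nat_lit 76) (nat_lit 36855578662) (nat_lit 4) (nat_lit 4) (nat_lit 5) (nat_lit 5) (nat_lit 5) (nat_lit 4) (nat_lit 449) (nat_lit 259) (nat_lit 192)) (XT.nd (nat_lit 41418) (nat_lit 0) (nat_lit 2508) (XT.lf (nat_lit 0) (nat_lit 10714447052) (nat_lit 76) (nat_lit 43155532004) (nat_lit 76) (nat_lit 34320406606) (nat_lit 4) (nat_lit 4) (nat_lit 5) (nat_lit 5) (nat_lit 5) (nat_lit 4) (nat_lit 450) (nat_lit 259) (nat_lit 191)) (XT.lf (nat_lit 0) (nat_lit 814239511) (nat_lit 152) (nat_lit 3439269531) (nat_lit 152) (nat_lit 3439269531) (nat_lit 37) (nat_lit 4) (nat_lit 39) (nat_lit 5) (nat_lit 39) (nat_lit 4) (nat_lit 380) (nat_lit 260) (nat_lit 260))))) (XT.nd (nat_lit 234) (nat_lit 456) (nat_lit 0) (XT.nd (nat_lit 78) (nat_lit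 152) (nat_lit 0) (XT.lf (nat_lit 0) (nat_lit 11253890575) (nat_lit 152) (nat_lit 2421603370) (nat_lit 152) (nat_lit 2010280606) (nat_lit 37) (nat_lit 4) (nat_lit 39) (nat_lit 5) (nat_lit 39) (nat_lit 4) (nat_lit 381) (nat_lit 260) (nat_lit 259)) (XT.nd (nat_lit 78) (nat_lit 0) (nat_lit 0) (XT.lf (nat_lit 0) (nat_lit 2910658242) (nat_lit 152) (nat_lit 10960935068) (nat_lit 0) (nat_lit 2123604599) (nat_lit 35) (nat_lit 5) (nat_lit 37) (nat_lit 4) (nat_lit 35) (nat_lit 4) (nat_lit 382) (nat_lit 260) (nat_lit 258)) (XT.lf (nat_lit 0) (nat_lit 7904287863) (nat_lit 152) (nat_lit 1669261964) (nat_lit 0) (nat_lit 6740815623) (nat_lit 35) (nat_lit 5) (nat_lit 37) (nat_lit 4) (nat_lit 35) (nat_lit 4) (nat_lit 383) (nat_lit 260) (nat_lit 257)))) (XT.nd (nat_lit 156) (nat_lit 152) (nat_lit 0) (XT.nd (nat_lit 78) (nat_lit 152) (nat_lit 0) (XT.lf (nat_lit 0) (nat_lit 7872628560) (nat_lit 152) (nat_lit 5150089424) (nat_lit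 152) (nat_lit 3621162236) (nat_lit 33) (nat_lit 4) (nat_lit 35) (nat_lit 5) (nat_lit 35) (nat_lit 4) (nat_lit 384) (nat_lit 260) (nat_lit 256)) (XT.lf (nat_lit 0) (nat_lit 568141761) (nat_lit 76) (nat_lit 639680691) (nat_lit 152) (nat_lit 15777440717) (nat_lit 31) (nat_lit 5) (nat_lit 32) (nat_lit 5) (nat_lit 33) (nat_lit 4) (nat_lit 385) (nat_lit 260) (nat_lit 255))) (XT.nd (nat_lit 78) (nat_lit 152) (nat_lit 0) (XT.lf (nat_lit 0) (nat_lit 6136770106) (nat_lit 152) (nat_lit 7224770350) (nat_lit 0) (nat_lit 3973455391) (nat_lit 31) (nat_lit 5) (nat_lit 33) (nat_lit 4) (nat_lit 31) (nat_lit 4) (nat_lit 386) (nat_lit 260) (nat_lit 254)) (XT.lf (nat_lit 0) (nat_lit 2100510757) (nat_lit 152) (nat_lit 9042432620) (nat_lit 152) (nat_lit 6554415917) (nat_lit 29) (nat_lit 4) (nat_lit 31) (nat_lit 5) (nat_lit 31) (nat_lit 4) (nat_lit 387) (nat_lit 260) (nat_lit 253)))))) (XT.nd (nat_lit 468) (nat_lit 304) (nat_lit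 0) (XT.nd (nat_lit 234) (nat_lit 304) (nat_lit 0) (XT.nd (nat_lit 78) (nat_lit 152) (nat_lit 0) (XT.lf (nat_lit 0) (nat_lit 11677895619) (nat_lit 152) (nat_lit 4598335222) (nat_lit 152) (nat_lit 1795073870) (nat_lit 29) (nat_lit 4) (nat_lit 31) (nat_lit 5) (nat_lit 31) (nat_lit 4) (nat_lit 388) (nat_lit 260) (nat_lit 252)) (XT.nd (nat_lit 78) (nat_lit 0) (nat_lit 0) (XT.lf (nat_lit 0) (nat_lit 2941130392) (nat_lit 76) (nat_lit 39389070) (nat_lit 152) (nat_lit 15477047850) (nat_lit 27) (nat_lit 5) (nat_lit 28) (nat_lit 5) (nat_lit 29) (nat_lit 4) (nat_lit 389) (nat_lit 260) (nat_lit 251)) (XT.lf (nat_lit 0) (nat_lit 7879442861) (nat_lit 152) (nat_lit 6402786755) (nat_lit 0) (nat_lit 4572188071) (nat_lit 27) (nat_lit 5) (nat_lit 29) (nat_lit 4) (nat_lit 27) (nat_lit 4) (nat_lit 390) (nat_lit 260) (nat_lit 250)))) (XT.nd (nat_lit 78) (nat_lit 152) (nat_lit 0) (XT.lf (nat_lit 0) (nat_lit 2872064337) (nat_lit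 152) (nat_lit 9990182132) (nat_lit 152) (nat_lit 6402836555) (nat_lit 25) (nat_lit 4) (nat_lit 27) (nat_lit 5) (nat_lit 27) (nat_lit 4) (nat_lit 391) (nat_lit 260) (nat_lit 249)) (XT.nd (nat_lit 78) (nat_lit 152) (nat_lit 0) (XT.lf (nat_lit 0) (nat_lit 12390194622) (nat_lit 152) (nat_lit 5578964828) (nat_lit 152) (nat_lit 1719686447) (nat_lit 25) (nat_lit 4) (nat_lit 27) (nat_lit 5) (nat_lit 27) (nat_lit 4) (nat_lit 392) (nat_lit 260) (nat_lit 248)) (XT.lf (nat_lit 0) (nat_lit 1912888928) (nat_lit 76) (nat_lit 1060598627) (nat_lit 152) (nat_lit 17153051419) (nat_lit 23) (nat_lit 5) (nat_lit 24) (nat_lit 5) (nat_lit 25) (nat_lit 4) (nat_lit 393) (nat_lit 260) (nat_lit 247))))) (XT.nd (nat_lit 234) (nat_lit 228) (nat_lit 0) (XT.nd (nat_lit 78) (nat_lit 76) (nat_lit 0) (XT.lf (nat_lit 0) (nat_lit 7793881299) (nat_lit 152) (nat_lit 9240526741) (nat_lit 0) (nat_lit 3541829300) (nat_lit 23) (nat_lit 5) (nat_lit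 25) (nat_lit 4) (nat_lit 23) (nat_lit 4) (nat_lit 394) (nat_lit 260) (nat_lit 246)) (XT.nd (nat_lit 78) (nat_lit 76) (nat_lit 0) (XT.lf (nat_lit 0) (nat_lit 12683966031) (nat_lit 152) (nat_lit 167417504) (nat_lit 0) (nat_lit 8190305259) (nat_lit 23) (nat_lit 5) (nat_lit 25) (nat_lit 4) (nat_lit 23) (nat_lit 4) (nat_lit 395) (nat_lit 260) (nat_lit 245)) (XT.lf (nat_lit 0) (nat_lit 9203392074) (nat_lit 76) (nat_lit 8522896080) (nat_lit 76) (nat_lit 3794663683) (nat_lit 22) (nat_lit 4) (nat_lit 23) (nat_lit 5) (nat_lit 23) (nat_lit 4) (nat_lit 396) (nat_lit 260) (nat_lit 244)))) (XT.nd (nat_lit 156) (nat_lit 76) (nat_lit 0) (XT.nd (nat_lit 78) (nat_lit 76) (nat_lit 0) (XT.lf (nat_lit 0) (nat_lit 806519068) (nat_lit 152) (nat_lit 3318738128) (nat_lit 76) (nat_lit 17891520873) (nat_lit 21) (nat_lit 5) (nat_lit 23) (nat_lit 5) (nat_lit 22) (nat_lit 4) (nat_lit 397) (nat_lit 260) (nat_lit 243)) (XT.lf (nat_lit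 0) (nat_lit 5449718916) (nat_lit 152) (nat_lit 16653808914) (nat_lit 0) (nat_lit 423429506) (nat_lit 20) (nat_lit 5) (nat_lit 22) (nat_lit 4) (nat_lit 20) (nat_lit 4) (nat_lit 398) (nat_lit 260) (nat_lit 242))) (XT.nd (nat_lit 78) (nat_lit 76) (nat_lit 0) (XT.lf (nat_lit 0) (nat_lit 10226760479) (nat_lit 152) (nat_lit 7833800431) (nat_lit 0) (nat_lit 4992057219) (nat_lit 20) (nat_lit 5) (nat_lit 22) (nat_lit 4) (nat_lit 20) (nat_lit 4) (nat_lit 399) (nat_lit 260) (nat_lit 241)) (XT.lf (nat_lit 0) (nat_lit 1127162194) (nat_lit 76) (nat_lit 13952977362) (nat_lit 76) (nat_lit 8515930558) (nat_lit 19) (nat_lit 4) (nat_lit 20) (nat_lit 5) (nat_lit 20) (nat_lit 4) (nat_lit 400) (nat_lit 260) (nat_lit 240))))))) (XT.nd (nat_lit 1014) (nat_lit 380) (nat_lit 0) (XT.nd (nat_lit 468) (nat_lit 228) (nat_lit 0) (XT.nd (nat_lit 234) (nat_lit 76) (nat_lit 0) (XT.nd (nat_lit 78) (nat_lit 152) (nat_lit 0) (XT.lf (nat_lit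 0) (nat_lit 10373325676) (nat_lit 76) (nat_lit 9707971654) (nat_lit 76) (nat_lit 4074474807) (nat_lit 19) (nat_lit 4) (nat_lit 20) (nat_lit 5) (nat_lit 20) (nat_lit 4) (nat_lit 401) (nat_lit 260) (nat_lit 239)) (XT.nd (nat_lit 78) (nat_lit 76) (nat_lit 0) (XT.lf (nat_lit 0) (nat_lit 415024654) (nat_lit 152) (nat_lit 4981724994) (nat_lit 76) (nat_lit 19337645606) (nat_lit 18) (nat_lit 5) (nat_lit 20) (nat_lit 5) (nat_lit 19) (nat_lit 4) (nat_lit 402) (nat_lit 260) (nat_lit 238)) (XT.lf (nat_lit 0) (nat_lit 3982996112) (nat_lit 76) (nat_lit 939365544) (nat_lit 152) (nat_lit 20407864605) (nat_lit 17) (nat_lit 5) (nat_lit 18) (nat_lit 5) (nat_lit 19) (nat_lit 4) (nat_lit 403) (nat_lit 260) (nat_lit 237)))) (XT.nd (nat_lit 78) (nat_lit 76) (nat_lit 0) (XT.lf (nat_lit 0) (nat_lit 9577797374) (nat_lit 152) (nat_lit 12796871934) (nat_lit 0) (nat_lit 3568887016) (nat_lit 17) (nat_lit 5) (nat_lit 19) (nat_lit 4)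 (nat_lit 17) (nat_lit 4) (nat_lit 404) (nat_lit 260) (nat_lit 236)) (XT.nd (nat_lit 78) (nat_lit 76) (nat_lit 0) (XT.lf (nat_lit 0) (nat_lit 14311295953) (nat_lit 152) (nat_lit 4132922458) (nat_lit 0) (nat_lit 8132926063) (nat_lit 17) (nat_lit 5) (nat_lit 19) (nat_lit 4) (nat_lit 17) (nat_lit 4) (nat_lit 405) (nat_lit 260) (nat_lit 235)) (XT.lf (nat_lit 0) (nat_lit 4753985864) (nat_lit 76) (nat_lit 14409676061) (nat_lit 76) (nat_lit 8066782353) (nat_lit 16) (nat_lit 4) (nat_lit 17) (nat_lit 5) (nat_lit 17) (nat_lit 4) (nat_lit 406) (nat_lit 260) (nat_lit 234))))) (XT.nd (nat_lit 234) (nat_lit 76) (nat_lit 0) (XT.nd (nat_lit 78) (nat_lit 152) (nat_lit 0) (XT.lf (nat_lit 0) (nat_lit 13863767102) (nat_lit 76) (nat_lit 10271500539) (nat_lit 76) (nat_lit 3768874968) (nat_lit 16) (nat_lit 4) (nat_lit 17) (nat_lit 5) (nat_lit 17) (nat_lit 4) (nat_lit 407) (nat_lit 260) (nat_lit 233)) (XT.nd (nat_lit 78) (nat_lit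 76) (nat_lit 0) (XT.lf (nat_lit 0) (nat_lit 578383703) (nat_lit 152) (nat_lit 5483586129) (nat_lit 76) (nat_lit 22537903755) (nat_lit 15) (nat_lit 5) (nat_lit 17) (nat_lit 5) (nat_lit 16) (nat_lit 4) (nat_lit 408) (nat_lit 260) (nat_lit 232)) (XT.lf (nat_lit 0) (nat_lit 3233304945) (nat_lit 76) (nat_lit 1713282539) (nat_lit 152) (nat_lit 24369789984) (nat_lit 14) (nat_lit 5) (nat_lit 15) (nat_lit 5) (nat_lit 16) (nat_lit 4) (nat_lit 409) (nat_lit 260) (nat_lit 231)))) (XT.nd (nat_lit 156) (nat_lit 76) (nat_lit 0) (XT.nd (nat_lit 78) (nat_lit 0) (nat_lit 0) (XT.lf (nat_lit 0) (nat_lit 9463717500) (nat_lit 152) (nat_lit 17878301866) (nat_lit 0) (nat_lit 2711829219) (nat_lit 14) (nat_lit 5) (nat_lit 16) (nat_lit 4) (nat_lit 14) (nat_lit 4) (nat_lit 410) (nat_lit 260) (nat_lit 230)) (XT.lf (nat_lit 0) (nat_lit 14070578215) (nat_lit 152) (nat_lit 9563343569) (nat_lit 0) (nat_lit 7180903826) (nat_lit 14) (nat_lit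 5) (nat_lit 16) (nat_lit 4) (nat_lit 14) (nat_lit 4) (nat_lit 411) (nat_lit 260) (nat_lit 229))) (XT.nd (nat_lit 78) (nat_lit 76) (nat_lit 0) (XT.lf (nat_lit 0) (nat_lit 18754725919) (nat_lit 152) (nat_lit 1114463014) (nat_lit 0) (nat_lit 11731278611) (nat_lit 14) (nat_lit 5) (nat_lit 16) (nat_lit 4) (nat_lit 14) (nat_lit 4) (nat_lit 412) (nat_lit 260) (nat_lit 228)) (XT.lf (nat_lit 0) (nat_lit 7624503846) (nat_lit 76) (nat_lit 15969041108) (nat_lit 76) (nat_lit 8815717179) (nat_lit 13) (nat_lit 4) (nat_lit 14) (nat_lit 5) (nat_lit 14) (nat_lit 4) (nat_lit 413) (nat_lit 260) (nat_lit 227)))))) (XT.nd (nat_lit 546) (nat_lit 228) (nat_lit 0) (XT.nd (nat_lit 234) (nat_lit 76) (nat_lit 0) (XT.nd (nat_lit 78) (nat_lit 76) (nat_lit 0) (XT.lf (nat_lit 0) (nat_lit 16537423093) (nat_lit 76) (nat_lit 11992869921) (nat_lit 76) (nat_lit 4713452185) (nat_lit 13) (nat_lit 4) (nat_lit 14) (nat_lit 5) (nat_lit 14) (nat_lit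 4) (nat_lit 414) (nat_lit 260) (nat_lit 226)) (XT.nd (nat_lit 78) (nat_lit 76) (nat_lit 0) (XT.lf (nat_lit 0) (nat_lit 25609902716) (nat_lit 76) (nat_lit 7948454940) (nat_lit 76) (nat_lit 546616031) (nat_lit 13) (nat_lit 4) (nat_lit 14) (nat_lit 5) (nat_lit 14) (nat_lit 4) (nat_lit 415) (nat_lit 260) (nat_lit 225)) (XT.lf (nat_lit 0) (nat_lit 3616457607) (nat_lit 152) (nat_lit 179285471) (nat_lit 76) (nat_lit 31196893384) (nat_lit 12) (nat_lit 5) (nat_lit 14) (nat_lit 5) (nat_lit 13) (nat_lit 4) (nat_lit 416) (nat_lit 260) (nat_lit 224)))) (XT.nd (nat_lit 156) (nat_lit 0) (nat_lit 0) (XT.nd (nat_lit 78) (nat_lit 0) (nat_lit 0) (XT.lf (nat_lit 0) (nat_lit 7925547778) (nat_lit 152) (nat_lit 27468392389) (nat_lit 0) (nat_lit 511870000) (nat_lit 11) (nat_lit 5) (nat_lit 13) (nat_lit 4) (nat_lit 11) (nat_lit 4) (nat_lit 417) (nat_lit 260) (nat_lit 223)) (XT.lf (nat_lit 0) (nat_lit 12349390884) (nat_lit 152)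 (nat_lit 19670486845) (nat_lit 0) (nat_lit 4826943481) (nat_lit 11) (nat_lit 5) (nat_lit 13) (nat_lit 4) (nat_lit 11) (nat_lit 4) (nat_lit 418) (nat_lit 260) (nat_lit 222))) (XT.nd (nat_lit 78) (nat_lit 0) (nat_lit 0) (XT.lf (nat_lit 0) (nat_lit 16853590311) (nat_lit 152) (nat_lit 11738508054) (nat_lit 0) (nat_lit 9225541330) (nat_lit 11) (nat_lit 5) (nat_lit 13) (nat_lit 4) (nat_lit 11) (nat_lit 4) (nat_lit 419) (nat_lit 260) (nat_lit 221)) (XT.lf (nat_lit 0) (nat_lit 21442081768) (nat_lit 152) (nat_lit 3665525162) (nat_lit 0) (nat_lit 13711506983) (nat_lit 11) (nat_lit 5) (nat_lit 13) (nat_lit 4) (nat_lit 11) (nat_lit 4) (nat_lit 420) (nat_lit 260) (nat_lit 220))))) (XT.nd (nat_lit 234) (nat_lit 152) (nat_lit 0) (XT.nd (nat_lit 78) (nat_lit 0) (nat_lit 0) (XT.lf (nat_lit 0) (nat_lit 4646179592) (nat_lit 76) (nat_lit 21517356945) (nat_lit 76) (nat_lit 13687242543) (nat_lit 10) (nat_lit 4) (nat_lit 11)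 (nat_lit 5) (nat_lit 11) (nat_lit 4) (nat_lit 421) (nat_lit 260) (nat_lit 219)) (XT.nd (nat_lit 78) (nat_lit 0) (nat_lit 0) (XT.lf (nat_lit 0) (nat_lit 13189166695) (nat_lit 76) (nat_lit 17825671017) (nat_lit 76) (nat_lit 9898916212) (nat_lit 10) (nat_lit 4) (nat_lit 11) (nat_lit 5) (nat_lit 11) (nat_lit 4) (nat_lit 422) (nat_lit 260) (nat_lit 218)) (XT.lf (nat_lit 0) (nat_lit 21897949754) (nat_lit 76) (nat_lit 14066338019) (nat_lit 76) (nat_lit 6045757580) (nat_lit 10) (nat_lit 4) (nat_lit 11) (nat_lit 5) (nat_lit 11) (nat_lit 4) (nat_lit 423) (nat_lit 260) (nat_lit 217)))) (XT.nd (nat_lit 156) (nat_lit 76) (nat_lit 0) (XT.nd (nat_lit 78) (nat_lit 76) (nat_lit 0) (XT.lf (nat_lit 0) (nat_lit 30780138386) (nat_lit 76) (nat_lit 10236073098) (nat_lit 76) (nat_lit 2124399810) (nat_lit 10) (nat_lit 4) (nat_lit 11) (nat_lit 5) (nat_lit 11) (nat_lit 4) (nat_lit 424) (nat_lit 260) (nat_lit 216)) (XT.lf (nat_lit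 0) (nat_lit 1832120732) (nat_lit 152) (nat_lit 4480907859) (nat_lit 76) (nat_lit 37992872166) (nat_lit 9) (nat_lit 5) (nat_lit 11) (nat_lit 5) (nat_lit 10) (nat_lit 4) (nat_lit 425) (nat_lit 260) (nat_lit 215))) (XT.nd (nat_lit 78) (nat_lit 0) (nat_lit 0) (XT.lf (nat_lit 0) (nat_lit 3600579461) (nat_lit 76) (nat_lit 2254866920) (nat_lit 152) (nat_lit 39650352288) (nat_lit 8) (nat_lit 5) (nat_lit 9) (nat_lit 5) (nat_lit 10) (nat_lit 4) (nat_lit 426) (nat_lit 260) (nat_lit 214)) (XT.lf (nat_lit 0) (nat_lit 10019968763) (nat_lit 152) (nat_lit 34826718329) (nat_lit 0) (nat_lit 1894396379) (nat_lit 8) (nat_lit 5) (nat_lit 10) (nat_lit 4) (nat_lit 8) (nat_lit 4) (nat_lit 427) (nat_lit 260) (nat_lit 213))))))))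
noncomputable def xc24 : XT := (XT.nd (nat_lit 43212) (nat_lit 0) (nat_lit 912) (XT.nd (nat_lit 1014) (nat_lit 76) (nat_lit 0) (XT.nd (nat_lit 468) (nat_lit 152) (nat_lit 0) (XT.nd (nat_lit 234) (nat_lit 76) (nat_lit 0) (XT.nd (nat_lit 78) (nat_lit 0) (nat_lit 0) (XT.lf (nat_lit 0) (nat_lit 14289321082) (nat_lit 152) (nat_lit 27639542421) (nat_lit 0) (nat_lit 6085171206) (nat_lit 8) (nat_lit 5) (nat_lit 10) (nat_lit 4) (nat_lit 8) (nat_lit 4) (nat_lit 428) (nat_lit 260) (nat_lit 212)) (XT.nd (nat_lit 78) (nat_lit 0) (nat_lit 0) (XT.lf (nat_lit 0) (nat_lit 18645558681) (nat_lit 152) (nat_lit 20315736266) (nat_lit 0) (nat_lit 10365119978) (nat_lit 8) (nat_lit 5) (nat_lit 10) (nat_lit 4) (nat_lit 8) (nat_lit 4) (nat_lit 429) (nat_lit 260) (nat_lit 211)) (XT.lf (nat_lit 0) (nat_lit 23092487981) (nat_lit 152) (nat_lit 12848900423) (nat_lit 0) (nat_lit 14737982456) (nat_lit 8) (nat_lit 5) (nat_lit 10) (nat_lit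 4) (nat_lit 8) (nat_lit 4) (nat_lit 430) (nat_lit 260) (nat_lit 210)))) (XT.nd (nat_lit 78) (nat_lit 76) (nat_lit 0) (XT.lf (nat_lit 0) (nat_lit 27633994648) (nat_lit 152) (nat_lit 5232510472) (nat_lit 0) (nat_lit 19207579587) (nat_lit 8) (nat_lit 5) (nat_lit 10) (nat_lit 4) (nat_lit 8) (nat_lit 4) (nat_lit 431) (nat_lit 260) (nat_lit 209)) (XT.nd (nat_lit 78) (nat_lit 0) (nat_lit 0) (XT.lf (nat_lit 0) (nat_lit 2590641430) (nat_lit 76) (nat_lit 29708308390) (nat_lit 76) (nat_lit 21212078245) (nat_lit 7) (nat_lit 4) (nat_lit 8) (nat_lit 5) (nat_lit 8) (nat_lit 4) (nat_lit 432) (nat_lit 260) (nat_lit 208)) (XT.lf (nat_lit 0) (nat_lit 10684175383) (nat_lit 76) (nat_lit 26435226867) (nat_lit 76) (nat_lit 17871215087) (nat_lit 7) (nat_lit 4) (nat_lit 8) (nat_lit 5) (nat_lit 8) (nat_lit 4) (nat_lit 433) (nat_lit 260) (nat_lit 207))))) (XT.nd (nat_lit 234) (nat_lit 152) (nat_lit 0) (XT.nd (nat_lit 78) (nat_lit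 0) (nat_lit 0) (XT.lf (nat_lit 0) (nat_lit 18951026189) (nat_lit 76) (nat_lit 23097238672) (nat_lit 76) (nat_lit 14467419480) (nat_lit 7) (nat_lit 4) (nat_lit 8) (nat_lit 5) (nat_lit 8) (nat_lit 4) (nat_lit 434) (nat_lit 260) (nat_lit 206)) (XT.nd (nat_lit 78) (nat_lit 0) (nat_lit 0) (XT.lf (nat_lit 0) (nat_lit 27398417310) (nat_lit 76) (nat_lit 19691427118) (nat_lit 76) (nat_lit 10997717234) (nat_lit 7) (nat_lit 4) (nat_lit 8) (nat_lit 5) (nat_lit 8) (nat_lit 4) (nat_lit 435) (nat_lit 260) (nat_lit 205)) (XT.lf (nat_lit 0) (nat_lit 36033729962) (nat_lit 76) (nat_lit 16214816251) (nat_lit 76) (nat_lit 7459076570) (nat_lit 7) (nat_lit 4) (nat_lit 8) (nat_lit 5) (nat_lit 8) (nat_lit 4) (nat_lit 436) (nat_lit 260) (nat_lit 204)))) (XT.nd (nat_lit 156) (nat_lit 152) (nat_lit 0) (XT.nd (nat_lit 78) (nat_lit 0) (nat_lit 0) (XT.lf (nat_lit 0) (nat_lit 44864509562) (nat_lit 76) (nat_lit 12664368258) (nat_lit 76)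 (nat_lit 3848405472) (nat_lit 7) (nat_lit 4) (nat_lit 8) (nat_lit 5) (nat_lit 8) (nat_lit 4) (nat_lit 437) (nat_lit 260) (nat_lit 203)) (XT.lf (nat_lit 0) (nat_lit 53898472327) (nat_lit 76) (nat_lit 9036980804) (nat_lit 76) (nat_lit 162548985) (nat_lit 7) (nat_lit 4) (nat_lit 8) (nat_lit 5) (nat_lit 8) (nat_lit 4) (nat_lit 438) (nat_lit 260) (nat_lit 202))) (XT.nd (nat_lit 78) (nat_lit 76) (nat_lit 0) (XT.lf (nat_lit 0) (nat_lit 3531431137) (nat_lit 152) (nat_lit 1762392661) (nat_lit 76) (nat_lit 59576420342) (nat_lit 6) (nat_lit 5) (nat_lit 8) (nat_lit 5) (nat_lit 7) (nat_lit 4) (nat_lit 439) (nat_lit 260) (nat_lit 201)) (XT.lf (nat_lit 0) (nat_lit 5953616937) (nat_lit 76) (nat_lit 1405953249) (nat_lit 152) (nat_lit 59335239972) (nat_lit 5) (nat_lit 5) (nat_lit 6) (nat_lit 5) (nat_lit 7) (nat_lit 4) (nat_lit 440) (nat_lit 260) (nat_lit 200)))))) (XT.nd (nat_lit 468) (nat_lit 76) (nat_lit 0) (XT.nd (nat_lit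 234) (nat_lit 0) (nat_lit 0) (XT.nd (nat_lit 78) (nat_lit 0) (nat_lit 0) (XT.lf (nat_lit 0) (nat_lit 11314945584) (nat_lit 152) (nat_lit 54720375667) (nat_lit 0) (nat_lit 2538423262) (nat_lit 5) (nat_lit 5) (nat_lit 7) (nat_lit 4) (nat_lit 5) (nat_lit 4) (nat_lit 441) (nat_lit 260) (nat_lit 199)) (XT.nd (nat_lit 78) (nat_lit 0) (nat_lit 0) (XT.lf (nat_lit 0) (nat_lit 15373233033) (nat_lit 152) (nat_lit 48590014561) (nat_lit 0) (nat_lit 6546274810) (nat_lit 5) (nat_lit 5) (nat_lit 7) (nat_lit 4) (nat_lit 5) (nat_lit 4) (nat_lit 442) (nat_lit 260) (nat_lit 198)) (XT.lf (nat_lit 0) (nat_lit 19524463728) (nat_lit 152) (nat_lit 42331238396) (nat_lit 0) (nat_lit 10648538610) (nat_lit 5) (nat_lit 5) (nat_lit 7) (nat_lit 4) (nat_lit 5) (nat_lit 4) (nat_lit 443) (nat_lit 260) (nat_lit 197)))) (XT.nd (nat_lit 78) (nat_lit 0) (nat_lit 0) (XT.lf (nat_lit 0) (nat_lit 23772264959) (nat_lit 152) (nat_lit 35938578337)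 (nat_lit 0) (nat_lit 14848799166) (nat_lit 5) (nat_lit 5) (nat_lit 7) (nat_lit 4) (nat_lit 5) (nat_lit 4) (nat_lit 444) (nat_lit 260) (nat_lit 196)) (XT.nd (nat_lit 78) (nat_lit 0) (nat_lit 0) (XT.lf (nat_lit 0) (nat_lit 28120348396) (nat_lit 152) (nat_lit 29406448566) (nat_lit 0) (nat_lit 19150726607) (nat_lit 5) (nat_lit 5) (nat_lit 7) (nat_lit 4) (nat_lit 5) (nat_lit 4) (nat_lit 445) (nat_lit 260) (nat_lit 195)) (XT.lf (nat_lit 0) (nat_lit 32572513334) (nat_lit 152) (nat_lit 22729141395) (nat_lit 0) (nat_lit 23558079901) (nat_lit 5) (nat_lit 5) (nat_lit 7) (nat_lit 4) (nat_lit 5) (nat_lit 4) (nat_lit 446) (nat_lit 260) (nat_lit 194))))) (XT.nd (nat_lit 234) (nat_lit 76) (nat_lit 0) (XT.nd (nat_lit 78) (nat_lit 0) (nat_lit 0) (XT.lf (nat_lit 0) (nat_lit 37132650017) (nat_lit 152) (nat_lit 15900822286) (nat_lit 0) (nat_lit 28074710131) (nat_lit 5) (nat_lit 5) (nat_lit 7) (nat_lit 4) (nat_lit 5) (nat_lit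 4) (nat_lit 447) (nat_lit 260) (nat_lit 193)) (XT.nd (nat_lit 78) (nat_lit 0) (nat_lit 0) (XT.lf (nat_lit 0) (nat_lit 41804743028) (nat_lit 152) (nat_lit 8915524745) (nat_lit 0) (nat_lit 32704563869) (nat_lit 5) (nat_lit 5) (nat_lit 7) (nat_lit 4) (nat_lit 5) (nat_lit 4) (nat_lit 448) (nat_lit 260) (nat_lit 192)) (XT.lf (nat_lit 0) (nat_lit 46592874780) (nat_lit 152) (nat_lit 1767145114) (nat_lit 0) (nat_lit 37451686617) (nat_lit 5) (nat_lit 5) (nat_lit 7) (nat_lit 4) (nat_lit 5) (nat_lit 4) (nat_lit 449) (nat_lit 260) (nat_lit 191)))) (XT.nd (nat_lit 41340) (nat_lit 0) (nat_lit 2508) (XT.nd (nat_lit 41262) (nat_lit 0) (nat_lit 2812) (XT.lf (nat_lit 0) (nat_lit 5661029845) (nat_lit 76) (nat_lit 45894616513) (nat_lit 76) (nat_lit 36713613783) (nat_lit 4) (nat_lit 4) (nat_lit 5) (nat_lit 5) (nat_lit 5) (nat_lit 4) (nat_lit 450) (nat_lit 260) (nat_lit 190)) (XT.lf (nat_lit 0) (nat_lit 6367795384) (nat_lit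 152) (nat_lit 519261481) (nat_lit 152) (nat_lit 519261481) (nat_lit 41) (nat_lit 4) (nat_lit 43) (nat_lit 5) (nat_lit 43) (nat_lit 4) (nat_lit 378) (nat_lit 261) (nat_lit 261))) (XT.nd (nat_lit 78) (nat_lit 152) (nat_lit 0) (XT.lf (nat_lit 0) (nat_lit 3885576349) (nat_lit 152) (nat_lit 7747432670) (nat_lit 0) (nat_lit 3461913903) (nat_lit 39) (nat_lit 5) (nat_lit 41) (nat_lit 4) (nat_lit 39) (nat_lit 4) (nat_lit 379) (nat_lit 261) (nat_lit 260)) (XT.lf (nat_lit 0) (nat_lit 1534591206) (nat_lit 152) (nat_lit 7343766504) (nat_lit 152) (nat_lit 6508781293) (nat_lit 37) (nat_lit 4) (nat_lit 39) (nat_lit 5) (nat_lit 39) (nat_lit 4) (nat_lit 380) (nat_lit 261) (nat_lit 259))))))) (XT.nd (nat_lit 1014) (nat_lit 532) (nat_lit 0) (XT.nd (nat_lit 468) (nat_lit 608) (nat_lit 0) (XT.nd (nat_lit 234) (nat_lit 304) (nat_lit 0) (XT.nd (nat_lit 78) (nat_lit 152) (nat_lit 0) (XT.lf (nat_lit 0) (nat_lit 11068849540) (nat_lit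 152) (nat_lit 2927185174) (nat_lit 152) (nat_lit 1692857475) (nat_lit 37) (nat_lit 4) (nat_lit 39) (nat_lit 5) (nat_lit 39) (nat_lit 4) (nat_lit 381) (nat_lit 261) (nat_lit 258)) (XT.nd (nat_lit 78) (nat_lit 0) (nat_lit 0) (XT.lf (nat_lit 0) (nat_lit 3164077955) (nat_lit 152) (nat_lit 11246608523) (nat_lit 0) (nat_lit 1589282951) (nat_lit 35) (nat_lit 5) (nat_lit 37) (nat_lit 4) (nat_lit 35) (nat_lit 4) (nat_lit 382) (nat_lit 261) (nat_lit 257)) (XT.lf (nat_lit 0) (nat_lit 8108109098) (nat_lit 152) (nat_lit 2044667493) (nat_lit 0) (nat_lit 6167859146) (nat_lit 35) (nat_lit 5) (nat_lit 37) (nat_lit 4) (nat_lit 35) (nat_lit 4) (nat_lit 383) (nat_lit 261) (nat_lit 256)))) (XT.nd (nat_lit 78) (nat_lit 152) (nat_lit 0) (XT.lf (nat_lit 0) (nat_lit 7400899377) (nat_lit 152) (nat_lit 5772951432) (nat_lit 152) (nat_lit 3477890851) (nat_lit 33) (nat_lit 4) (nat_lit 35) (nat_lit 5) (nat_lit 35) (nat_lit 4) (nat_lit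 384) (nat_lit 261) (nat_lit 255)) (XT.nd (nat_lit 78) (nat_lit 76) (nat_lit 0) (XT.lf (nat_lit 0) (nat_lit 1294775133) (nat_lit 228) (nat_lit 11143398) (nat_lit 76) (nat_lit 15688780345) (nat_lit 32) (nat_lit 5) (nat_lit 35) (nat_lit 5) (nat_lit 33) (nat_lit 4) (nat_lit 385) (nat_lit 261) (nat_lit 254)) (XT.lf (nat_lit 0) (nat_lit 6169342319) (nat_lit 152) (nat_lit 7894747131) (nat_lit 0) (nat_lit 3281983127) (nat_lit 31) (nat_lit 5) (nat_lit 33) (nat_lit 4) (nat_lit 31) (nat_lit 4) (nat_lit 386) (nat_lit 261) (nat_lit 253))))) (XT.nd (nat_lit 234) (nat_lit 304) (nat_lit 0) (XT.nd (nat_lit 78) (nat_lit 152) (nat_lit 0) (XT.lf (nat_lit 0) (nat_lit 1330621116) (nat_lit 152) (nat_lit 9791022124) (nat_lit 152) (nat_lit 6588418283) (nat_lit 29) (nat_lit 4) (nat_lit 31) (nat_lit 5) (nat_lit 31) (nat_lit 4) (nat_lit 387) (nat_lit 261) (nat_lit 252)) (XT.nd (nat_lit 78) (nat_lit 152) (nat_lit 0) (XT.lf (nat_lit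 0) (nat_lit 10823948688) (nat_lit 152) (nat_lit 5385055851) (nat_lit 152) (nat_lit 1876389244) (nat_lit 29) (nat_lit 4) (nat_lit 31) (nat_lit 5) (nat_lit 31) (nat_lit 4) (nat_lit 388) (nat_lit 261) (nat_lit 251)) (XT.lf (nat_lit 0) (nat_lit 1972459879) (nat_lit 76) (nat_lit 873980909) (nat_lit 152) (nat_lit 15626878083) (nat_lit 27) (nat_lit 5) (nat_lit 28) (nat_lit 5) (nat_lit 29) (nat_lit 4) (nat_lit 389) (nat_lit 261) (nat_lit 250)))) (XT.nd (nat_lit 156) (nat_lit 152) (nat_lit 0) (XT.nd (nat_lit 78) (nat_lit 152) (nat_lit 0) (XT.lf (nat_lit 0) (nat_lit 7692471865) (nat_lit 152) (nat_lit 7461877307) (nat_lit 0) (nat_lit 3717415133) (nat_lit 27) (nat_lit 5) (nat_lit 29) (nat_lit 4) (nat_lit 27) (nat_lit 4) (nat_lit 390) (nat_lit 261) (nat_lit 249)) (XT.lf (nat_lit 0) (nat_lit 1710015416) (nat_lit 152) (nat_lit 10910526900) (nat_lit 152) (nat_lit 6663537366) (nat_lit 25) (nat_lit 4) (nat_lit 27) (nat_lit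 5) (nat_lit 27) (nat_lit 4) (nat_lit 391) (nat_lit 261) (nat_lit 248))) (XT.nd (nat_lit 78) (nat_lit 152) (nat_lit 0) (XT.lf (nat_lit 0) (nat_lit 11148650176) (nat_lit 152) (nat_lit 6535746951) (nat_lit 152) (nat_lit 2024744986) (nat_lit 25) (nat_lit 4) (nat_lit 27) (nat_lit 5) (nat_lit 27) (nat_lit 4) (nat_lit 392) (nat_lit 261) (nat_lit 247)) (XT.lf (nat_lit 0) (nat_lit 549345173) (nat_lit 76) (nat_lit 2069704031) (nat_lit 152) (nat_lit 17529541300) (nat_lit 23) (nat_lit 5) (nat_lit 24) (nat_lit 5) (nat_lit 25) (nat_lit 4) (nat_lit 393) (nat_lit 261) (nat_lit 246)))))) (XT.nd (nat_lit 546) (nat_lit 304) (nat_lit 0) (XT.nd (nat_lit 234) (nat_lit 152) (nat_lit 0) (XT.nd (nat_lit 78) (nat_lit 76) (nat_lit 0) (XT.lf (nat_lit 0) (nat_lit 7387663105) (nat_lit 152) (nat_lit 10694602573) (nat_lit 0) (nat_lit 2517583736) (nat_lit 23) (nat_lit 5) (nat_lit 25) (nat_lit 4) (nat_lit 23) (nat_lit 4) (nat_lit 394)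 (nat_lit 261) (nat_lit 245)) (XT.nd (nat_lit 78) (nat_lit 76) (nat_lit 0) (XT.lf (nat_lit 0) (nat_lit 12236893756) (nat_lit 152) (nat_lit 1697396914) (nat_lit 0) (nat_lit 7132242763) (nat_lit 23) (nat_lit 5) (nat_lit 25) (nat_lit 4) (nat_lit 23) (nat_lit 4) (nat_lit 395) (nat_lit 261) (nat_lit 244)) (XT.lf (nat_lit 0) (nat_lit 7567803649) (nat_lit 76) (nat_lit 9656025797) (nat_lit 76) (nat_lit 4323635362) (nat_lit 22) (nat_lit 4) (nat_lit 23) (nat_lit 5) (nat_lit 23) (nat_lit 4) (nat_lit 396) (nat_lit 261) (nat_lit 243)))) (XT.nd (nat_lit 156) (nat_lit 0) (nat_lit 0) (XT.nd (nat_lit 78) (nat_lit 76) (nat_lit 0) (XT.lf (nat_lit 0) (nat_lit 248264571) (nat_lit 152) (nat_lit 5049519608) (nat_lit 76) (nat_lit 16746853905) (nat_lit 21) (nat_lit 5) (nat_lit 23) (nat_lit 5) (nat_lit 22) (nat_lit 4) (nat_lit 397) (nat_lit 261) (nat_lit 242)) (XT.lf (nat_lit 0) (nat_lit 4039155106) (nat_lit 76) (nat_lit 792036056)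 (nat_lit 152) (nat_lit 17725440554) (nat_lit 20) (nat_lit 5) (nat_lit 21) (nat_lit 5) (nat_lit 22) (nat_lit 4) (nat_lit 398) (nat_lit 261) (nat_lit 241))) (XT.nd (nat_lit 78) (nat_lit 0) (nat_lit 0) (XT.lf (nat_lit 0) (nat_lit 9562289779) (nat_lit 152) (nat_lit 9761598980) (nat_lit 0) (nat_lit 3759788027) (nat_lit 20) (nat_lit 5) (nat_lit 22) (nat_lit 4) (nat_lit 20) (nat_lit 4) (nat_lit 399) (nat_lit 261) (nat_lit 240)) (XT.lf (nat_lit 0) (nat_lit 14367620862) (nat_lit 152) (nat_lit 892286093) (nat_lit 0) (nat_lit 8368669067) (nat_lit 20) (nat_lit 5) (nat_lit 22) (nat_lit 4) (nat_lit 20) (nat_lit 4) (nat_lit 400) (nat_lit 261) (nat_lit 239))))) (XT.nd (nat_lit 234) (nat_lit 76) (nat_lit 0) (XT.nd (nat_lit 78) (nat_lit 152) (nat_lit 0) (XT.lf (nat_lit 0) (nat_lit 8267147290) (nat_lit 76) (nat_lit 11056091296) (nat_lit 76) (nat_lit 4866411305) (nat_lit 19) (nat_lit 4) (nat_lit 20) (nat_lit 5) (nat_lit 20)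 (nat_lit 4) (nat_lit 401) (nat_lit 261) (nat_lit 238)) (XT.nd (nat_lit 78) (nat_lit 152) (nat_lit 0) (XT.lf (nat_lit 0) (nat_lit 17583719845) (nat_lit 76) (nat_lit 6780302662) (nat_lit 76) (nat_lit 405449663) (nat_lit 19) (nat_lit 4) (nat_lit 20) (nat_lit 5) (nat_lit 20) (nat_lit 4) (nat_lit 402) (nat_lit 261) (nat_lit 237)) (XT.lf (nat_lit 0) (nat_lit 1672056563) (nat_lit 76) (nat_lit 2380499683) (nat_lit 152) (nat_lit 21314586305) (nat_lit 17) (nat_lit 5) (nat_lit 18) (nat_lit 5) (nat_lit 19) (nat_lit 4) (nat_lit 403) (nat_lit 261) (nat_lit 236)))) (XT.nd (nat_lit 156) (nat_lit 76) (nat_lit 0) (XT.nd (nat_lit 78) (nat_lit 0) (nat_lit 0) (XT.lf (nat_lit 0) (nat_lit 8659212369) (nat_lit 152) (nat_lit 15196696797) (nat_lit 0) (nat_lit 2126031849) (nat_lit 17) (nat_lit 5) (nat_lit 19) (nat_lit 4) (nat_lit 17) (nat_lit 4) (nat_lit 404) (nat_lit 261) (nat_lit 235)) (XT.lf (nat_lit 0) (nat_lit 13358801695)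 (nat_lit 152) (nat_lit 6596652259) (nat_lit 0) (nat_lit 6661097357) (nat_lit 17) (nat_lit 5) (nat_lit 19) (nat_lit 4) (nat_lit 17) (nat_lit 4) (nat_lit 405) (nat_lit 261) (nat_lit 234))) (XT.nd (nat_lit 78) (nat_lit 0) (nat_lit 0) (XT.lf (nat_lit 0) (nat_lit 2177944589) (nat_lit 76) (nat_lit 15975538988) (nat_lit 76) (nat_lit 9118102788) (nat_lit 16) (nat_lit 4) (nat_lit 17) (nat_lit 5) (nat_lit 17) (nat_lit 4) (nat_lit 406) (nat_lit 261) (nat_lit 233)) (XT.lf (nat_lit 0) (nat_lit 11226290469) (nat_lit 76) (nat_lit 11866245546) (nat_lit 76) (nat_lit 4853729869) (nat_lit 16) (nat_lit 4) (nat_lit 17) (nat_lit 5) (nat_lit 17) (nat_lit 4) (nat_lit 407) (nat_lit 261) (nat_lit 232))))))))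
noncomputable def xc25 : XT := (XT.nd (nat_lit 2028) (nat_lit 152) (nat_lit 0) (XT.nd (nat_lit 1014) (nat_lit 304) (nat_lit 0) (XT.nd (nat_lit 468) (nat_lit 152) (nat_lit 0) (XT.nd (nat_lit 234) (nat_lit 76) (nat_lit 0) (XT.nd (nat_lit 78) (nat_lit 152) (nat_lit 0) (XT.lf (nat_lit 0) (nat_lit 20425005386) (nat_lit 76) (nat_lit 7690596237) (nat_lit 76) (nat_lit 527517960) (nat_lit 16) (nat_lit 4) (nat_lit 17) (nat_lit 5) (nat_lit 17) (nat_lit 4) (nat_lit 408) (nat_lit 261) (nat_lit 231)) (XT.nd (nat_lit 78) (nat_lit 0) (nat_lit 0) (XT.lf (nat_lit 0) (nat_lit 389831563) (nat_lit 76) (nat_lit 3402822191) (nat_lit 152) (nat_lit 25568875809) (nat_lit 14) (nat_lit 5) (nat_lit 15) (nat_lit 5) (nat_lit 16) (nat_lit 4) (nat_lit 409) (nat_lit 261) (nat_lit 230)) (XT.lf (nat_lit 0) (nat_lit 8262633327) (nat_lit 152) (nat_lit 20809303344) (nat_lit 0) (nat_lit 1028482599) (nat_lit 14) (nat_lit 5) (nat_lit 16) (nat_lit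 4) (nat_lit 14) (nat_lit 4) (nat_lit 410) (nat_lit 261) (nat_lit 229)))) (XT.nd (nat_lit 78) (nat_lit 76) (nat_lit 0) (XT.lf (nat_lit 0) (nat_lit 12839484765) (nat_lit 152) (nat_lit 12551254649) (nat_lit 0) (nat_lit 5471561118) (nat_lit 14) (nat_lit 5) (nat_lit 16) (nat_lit 4) (nat_lit 14) (nat_lit 4) (nat_lit 411) (nat_lit 261) (nat_lit 228)) (XT.nd (nat_lit 78) (nat_lit 76) (nat_lit 0) (XT.lf (nat_lit 0) (nat_lit 17494497250) (nat_lit 152) (nat_lit 4157626135) (nat_lit 0) (nat_lit 9996696981) (nat_lit 14) (nat_lit 5) (nat_lit 16) (nat_lit 4) (nat_lit 14) (nat_lit 4) (nat_lit 412) (nat_lit 261) (nat_lit 227)) (XT.lf (nat_lit 0) (nat_lit 4466065458) (nat_lit 76) (nat_lit 17808603364) (nat_lit 76) (nat_lit 10184709288) (nat_lit 13) (nat_lit 4) (nat_lit 14) (nat_lit 5) (nat_lit 14) (nat_lit 4) (nat_lit 413) (nat_lit 261) (nat_lit 226))))) (XT.nd (nat_lit 234) (nat_lit 76) (nat_lit 0) (XT.nd (nat_lit 78)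 (nat_lit 76) (nat_lit 0) (XT.lf (nat_lit 0) (nat_lit 13325867857) (nat_lit 76) (nat_lit 13857575695) (nat_lit 76) (nat_lit 6111260447) (nat_lit 13) (nat_lit 4) (nat_lit 14) (nat_lit 5) (nat_lit 14) (nat_lit 4) (nat_lit 414) (nat_lit 261) (nat_lit 225)) (XT.nd (nat_lit 78) (nat_lit 76) (nat_lit 0) (XT.lf (nat_lit 0) (nat_lit 22346777723) (nat_lit 76) (nat_lit 9837571896) (nat_lit 76) (nat_lit 1972401142) (nat_lit 13) (nat_lit 4) (nat_lit 14) (nat_lit 5) (nat_lit 14) (nat_lit 4) (nat_lit 415) (nat_lit 261) (nat_lit 224)) (XT.lf (nat_lit 0) (nat_lit 2191862740) (nat_lit 152) (nat_lit 3531083086) (nat_lit 76) (nat_lit 29322681150) (nat_lit 12) (nat_lit 5) (nat_lit 14) (nat_lit 5) (nat_lit 13) (nat_lit 4) (nat_lit 416) (nat_lit 261) (nat_lit 223)))) (XT.nd (nat_lit 156) (nat_lit 0) (nat_lit 0) (XT.nd (nat_lit 78) (nat_lit 0) (nat_lit 0) (XT.lf (nat_lit 0) (nat_lit 4973976723) (nat_lit 76) (nat_lit 1462759181)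 (nat_lit 152) (nat_lit 29523994505) (nat_lit 11) (nat_lit 5) (nat_lit 12) (nat_lit 5) (nat_lit 13) (nat_lit 4) (nat_lit 417) (nat_lit 261) (nat_lit 222)) (XT.lf (nat_lit 0) (nat_lit 10820725478) (nat_lit 152) (nat_lit 23223981256) (nat_lit 0) (nat_lit 2858233449) (nat_lit 11) (nat_lit 5) (nat_lit 13) (nat_lit 4) (nat_lit 11) (nat_lit 4) (nat_lit 418) (nat_lit 261) (nat_lit 221))) (XT.nd (nat_lit 78) (nat_lit 0) (nat_lit 0) (XT.lf (nat_lit 0) (nat_lit 15299883549) (nat_lit 152) (nat_lit 15339763678) (nat_lit 0) (nat_lit 7234865716) (nat_lit 11) (nat_lit 5) (nat_lit 13) (nat_lit 4) (nat_lit 11) (nat_lit 4) (nat_lit 419) (nat_lit 261) (nat_lit 220)) (XT.lf (nat_lit 0) (nat_lit 19864063010) (nat_lit 152) (nat_lit 7313150896) (nat_lit 0) (nat_lit 11699505561) (nat_lit 11) (nat_lit 5) (nat_lit 13) (nat_lit 4) (nat_lit 11) (nat_lit 4) (nat_lit 420) (nat_lit 261) (nat_lit 219)))))) (XT.nd (nat_lit 468) (nat_lit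 152) (nat_lit 0) (XT.nd (nat_lit 234) (nat_lit 76) (nat_lit 0) (XT.nd (nat_lit 78) (nat_lit 0) (nat_lit 0) (XT.lf (nat_lit 0) (nat_lit 880043453) (nat_lit 76) (nat_lit 23645668040) (nat_lit 76) (nat_lit 15384470188) (nat_lit 10) (nat_lit 4) (nat_lit 11) (nat_lit 5) (nat_lit 11) (nat_lit 4) (nat_lit 421) (nat_lit 261) (nat_lit 218)) (XT.nd (nat_lit 78) (nat_lit 0) (nat_lit 0) (XT.lf (nat_lit 0) (nat_lit 9378452400) (nat_lit 76) (nat_lit 19975215368) (nat_lit 76) (nat_lit 11620191881) (nat_lit 10) (nat_lit 4) (nat_lit 11) (nat_lit 5) (nat_lit 11) (nat_lit 4) (nat_lit 422) (nat_lit 261) (nat_lit 217)) (XT.lf (nat_lit 0) (nat_lit 18043955696) (nat_lit 76) (nat_lit 16236497181) (nat_lit 76) (nat_lit 7790380845) (nat_lit 10) (nat_lit 4) (nat_lit 11) (nat_lit 5) (nat_lit 11) (nat_lit 4) (nat_lit 423) (nat_lit 261) (nat_lit 216)))) (XT.nd (nat_lit 78) (nat_lit 76) (nat_lit 0) (XT.lf (nat_lit 0) (nat_lit 26884125140)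 (nat_lit 76) (nat_lit 12426246639) (nat_lit 76) (nat_lit 3891690644) (nat_lit 10) (nat_lit 4) (nat_lit 11) (nat_lit 5) (nat_lit 11) (nat_lit 4) (nat_lit 424) (nat_lit 261) (nat_lit 215)) (XT.nd (nat_lit 78) (nat_lit 0) (nat_lit 0) (XT.lf (nat_lit 0) (nat_lit 77738201) (nat_lit 152) (nat_lit 8462611192) (nat_lit 76) (nat_lit 35828161947) (nat_lit 9) (nat_lit 5) (nat_lit 11) (nat_lit 5) (nat_lit 10) (nat_lit 4) (nat_lit 425) (nat_lit 261) (nat_lit 214)) (XT.lf (nat_lit 0) (nat_lit 4045503455) (nat_lit 152) (nat_lit 491410588) (nat_lit 76) (nat_lit 41033164415) (nat_lit 9) (nat_lit 5) (nat_lit 11) (nat_lit 5) (nat_lit 10) (nat_lit 4) (nat_lit 426) (nat_lit 261) (nat_lit 213))))) (XT.nd (nat_lit 234) (nat_lit 76) (nat_lit 0) (XT.nd (nat_lit 78) (nat_lit 0) (nat_lit 0) (XT.lf (nat_lit 0) (nat_lit 7792090719) (nat_lit 76) (nat_lit 373824620) (nat_lit 152) (nat_lit 38640773562) (nat_lit 8) (nat_lit 5) (nat_lit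 9) (nat_lit 5) (nat_lit 10) (nat_lit 4) (nat_lit 427) (nat_lit 261) (nat_lit 212)) (XT.nd (nat_lit 78) (nat_lit 0) (nat_lit 0) (XT.lf (nat_lit 0) (nat_lit 12411380981) (nat_lit 152) (nat_lit 31862737725) (nat_lit 0) (nat_lit 3806240290) (nat_lit 8) (nat_lit 5) (nat_lit 10) (nat_lit 4) (nat_lit 8) (nat_lit 4) (nat_lit 428) (nat_lit 261) (nat_lit 211)) (XT.lf (nat_lit 0) (nat_lit 16747916399) (nat_lit 152) (nat_lit 24576707184) (nat_lit 0) (nat_lit 8068708886) (nat_lit 8) (nat_lit 5) (nat_lit 10) (nat_lit 4) (nat_lit 8) (nat_lit 4) (nat_lit 429) (nat_lit 261) (nat_lit 210)))) (XT.nd (nat_lit 156) (nat_lit 76) (nat_lit 0) (XT.nd (nat_lit 78) (nat_lit 0) (nat_lit 0) (XT.lf (nat_lit 0) (nat_lit 21175717368) (nat_lit 152) (nat_lit 17146546694) (nat_lit 0) (nat_lit 12424600319) (nat_lit 8) (nat_lit 5) (nat_lit 10) (nat_lit 4) (nat_lit 8) (nat_lit 4) (nat_lit 430) (nat_lit 261) (nat_lit 209)) (XT.lf (nat_lit 0)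 (nat_lit 25698652841) (nat_lit 152) (nat_lit 9565763882) (nat_lit 0) (nat_lit 16877720708) (nat_lit 8) (nat_lit 5) (nat_lit 10) (nat_lit 4) (nat_lit 8) (nat_lit 4) (nat_lit 431) (nat_lit 261) (nat_lit 208))) (XT.nd (nat_lit 78) (nat_lit 76) (nat_lit 0) (XT.lf (nat_lit 0) (nat_lit 30320674896) (nat_lit 152) (nat_lit 1827734764) (nat_lit 0) (nat_lit 21431961128) (nat_lit 8) (nat_lit 5) (nat_lit 10) (nat_lit 4) (nat_lit 8) (nat_lit 4) (nat_lit 432) (nat_lit 261) (nat_lit 207)) (XT.lf (nat_lit 0) (nat_lit 6195192567) (nat_lit 76) (nat_lit 28910181607) (nat_lit 76) (nat_lit 19955660427) (nat_lit 7) (nat_lit 4) (nat_lit 8) (nat_lit 5) (nat_lit 8) (nat_lit 4) (nat_lit 433) (nat_lit 261) (nat_lit 206))))))) (XT.nd (nat_lit 1014) (nat_lit 0) (nat_lit 0) (XT.nd (nat_lit 468) (nat_lit 76) (nat_lit 0) (XT.nd (nat_lit 234) (nat_lit 76) (nat_lit 0) (XT.nd (nat_lit 78) (nat_lit 0) (nat_lit 0) (XT.lf (nat_lit 0) (nat_lit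 14428809280) (nat_lit 76) (nat_lit 25588112765) (nat_lit 76) (nat_lit 16569700894) (nat_lit 7) (nat_lit 4) (nat_lit 8) (nat_lit 5) (nat_lit 8) (nat_lit 4) (nat_lit 434) (nat_lit 261) (nat_lit 205)) (XT.nd (nat_lit 78) (nat_lit 0) (nat_lit 0) (XT.lf (nat_lit 0) (nat_lit 22843934291) (nat_lit 76) (nat_lit 22197756893) (nat_lit 76) (nat_lit 13117315224) (nat_lit 7) (nat_lit 4) (nat_lit 8) (nat_lit 5) (nat_lit 8) (nat_lit 4) (nat_lit 435) (nat_lit 261) (nat_lit 204)) (XT.lf (nat_lit 0) (nat_lit 31447920622) (nat_lit 76) (nat_lit 18736151543) (nat_lit 76) (nat_lit 9595486770) (nat_lit 7) (nat_lit 4) (nat_lit 8) (nat_lit 5) (nat_lit 8) (nat_lit 4) (nat_lit 436) (nat_lit 261) (nat_lit 203)))) (XT.nd (nat_lit 78) (nat_lit 76) (nat_lit 0) (XT.lf (nat_lit 0) (nat_lit 40248286319) (nat_lit 76) (nat_lit 15200272013) (nat_lit 76) (nat_lit 6001138206) (nat_lit 7) (nat_lit 4) (nat_lit 8) (nat_lit 5) (nat_lit 8) (nat_lit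 4) (nat_lit 437) (nat_lit 261) (nat_lit 202)) (XT.nd (nat_lit 78) (nat_lit 76) (nat_lit 0) (XT.lf (nat_lit 0) (nat_lit 49252721022) (nat_lit 76) (nat_lit 11587028698) (nat_lit 76) (nat_lit 2331128839) (nat_lit 7) (nat_lit 4) (nat_lit 8) (nat_lit 5) (nat_lit 8) (nat_lit 4) (nat_lit 438) (nat_lit 261) (nat_lit 201)) (XT.lf (nat_lit 0) (nat_lit 1390082761) (nat_lit 152) (nat_lit 6489144524) (nat_lit 76) (nat_lit 57064972812) (nat_lit 6) (nat_lit 5) (nat_lit 8) (nat_lit 5) (nat_lit 7) (nat_lit 4) (nat_lit 439) (nat_lit 261) (nat_lit 200))))) (XT.nd (nat_lit 234) (nat_lit 0) (nat_lit 0) (XT.nd (nat_lit 78) (nat_lit 0) (nat_lit 0) (XT.lf (nat_lit 0) (nat_lit 1104107630) (nat_lit 76) (nat_lit 4052851783) (nat_lit 152) (nat_lit 61613646113) (nat_lit 5) (nat_lit 5) (nat_lit 6) (nat_lit 5) (nat_lit 7) (nat_lit 4) (nat_lit 440) (nat_lit 261) (nat_lit 199)) (XT.nd (nat_lit 78) (nat_lit 0) (nat_lit 0) (XT.lf (nat_lit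 0) (nat_lit 9001642332) (nat_lit 76) (nat_lit 71318894) (nat_lit 152) (nat_lit 59577761354) (nat_lit 5) (nat_lit 5) (nat_lit 6) (nat_lit 5) (nat_lit 7) (nat_lit 4) (nat_lit 441) (nat_lit 261) (nat_lit 198)) (XT.lf (nat_lit 0) (nat_lit 13116373274) (nat_lit 152) (nat_lit 53545371401) (nat_lit 0) (nat_lit 3925203507) (nat_lit 5) (nat_lit 5) (nat_lit 7) (nat_lit 4) (nat_lit 5) (nat_lit 4) (nat_lit 442) (nat_lit 261) (nat_lit 197)))) (XT.nd (nat_lit 156) (nat_lit 0) (nat_lit 0) (XT.nd (nat_lit 78) (nat_lit 0) (nat_lit 0) (XT.lf (nat_lit 0) (nat_lit 17253827425) (nat_lit 152) (nat_lit 47313136807) (nat_lit 0) (nat_lit 8015116983) (nat_lit 5) (nat_lit 5) (nat_lit 7) (nat_lit 4) (nat_lit 5) (nat_lit 4) (nat_lit 443) (nat_lit 261) (nat_lit 196)) (XT.lf (nat_lit 0) (nat_lit 21488253369) (nat_lit 152) (nat_lit 40946245265) (nat_lit 0) (nat_lit 12203386932) (nat_lit 5) (nat_lit 5) (nat_lit 7) (nat_lit 4) (nat_lit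 5) (nat_lit 4) (nat_lit 444) (nat_lit 261) (nat_lit 195))) (XT.nd (nat_lit 78) (nat_lit 0) (nat_lit 0) (XT.lf (nat_lit 0) (nat_lit 25823351091) (nat_lit 152) (nat_lit 34439133471) (nat_lit 0) (nat_lit 16493673009) (nat_lit 5) (nat_lit 5) (nat_lit 7) (nat_lit 4) (nat_lit 5) (nat_lit 4) (nat_lit 445) (nat_lit 261) (nat_lit 194)) (XT.lf (nat_lit 0) (nat_lit 30262908540) (nat_lit 152) (nat_lit 27786115600) (nat_lit 0) (nat_lit 20889724006) (nat_lit 5) (nat_lit 5) (nat_lit 7) (nat_lit 4) (nat_lit 5) (nat_lit 4) (nat_lit 446) (nat_lit 261) (nat_lit 193)))))) (XT.nd (nat_lit 41652) (nat_lit 0) (nat_lit 1976) (XT.nd (nat_lit 41340) (nat_lit 0) (nat_lit 2584) (XT.nd (nat_lit 78) (nat_lit 0) (nat_lit 0) (XT.lf (nat_lit 0) (nat_lit 34810804941) (nat_lit 152) (nat_lit 20981378333) (nat_lit 0) (nat_lit 25395381133) (nat_lit 5) (nat_lit 5) (nat_lit 7) (nat_lit 4) (nat_lit 5) (nat_lit 4) (nat_lit 447) (nat_lit 261) (nat_lit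 192)) (XT.nd (nat_lit 78) (nat_lit 0) (nat_lit 0) (XT.lf (nat_lit 0) (nat_lit 39471014184) (nat_lit 152) (nat_lit 14018975785) (nat_lit 0) (nat_lit 30014581372) (nat_lit 5) (nat_lit 5) (nat_lit 7) (nat_lit 4) (nat_lit 5) (nat_lit 4) (nat_lit 448) (nat_lit 261) (nat_lit 191)) (XT.lf (nat_lit 0) (nat_lit 44247608296) (nat_lit 152) (nat_lit 6892824304) (nat_lit 0) (nat_lit 34751360918) (nat_lit 5) (nat_lit 5) (nat_lit 7) (nat_lit 4) (nat_lit 5) (nat_lit 4) (nat_lit 449) (nat_lit 261) (nat_lit 190)))) (XT.nd (nat_lit 156) (nat_lit 152) (nat_lit 0) (XT.nd (nat_lit 78) (nat_lit 152) (nat_lit 0) (XT.lf (nat_lit 0) (nat_lit 2059613902) (nat_lit 228) (nat_lit 3015834611) (nat_lit 0) (nat_lit 2059613902) (nat_lit 43) (nat_lit 5) (nat_lit 46) (nat_lit 4) (nat_lit 43) (nat_lit 4) (nat_lit 376) (nat_lit 262) (nat_lit 262)) (XT.lf (nat_lit 0) (nat_lit 3198426357) (nat_lit 152) (nat_lit 5894262088) (nat_lit 152) (nat_lit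 5444798598) (nat_lit 41) (nat_lit 4) (nat_lit 43) (nat_lit 5) (nat_lit 43) (nat_lit 4) (nat_lit 377) (nat_lit 262) (nat_lit 261))) (XT.nd (nat_lit 78) (nat_lit 152) (nat_lit 0) (XT.lf (nat_lit 0) (nat_lit 12644836067) (nat_lit 152) (nat_lit 1527591913) (nat_lit 152) (nat_lit 641756103) (nat_lit 41) (nat_lit 4) (nat_lit 43) (nat_lit 5) (nat_lit 43) (nat_lit 4) (nat_lit 378) (nat_lit 262) (nat_lit 260)) (XT.lf (nat_lit 0) (nat_lit 4217565432) (nat_lit 152) (nat_lit 7934305794) (nat_lit 0) (nat_lit 2946207901) (nat_lit 39) (nat_lit 5) (nat_lit 41) (nat_lit 4) (nat_lit 39) (nat_lit 4) (nat_lit 379) (nat_lit 262) (nat_lit 259))))) (XT.nd (nat_lit 234) (nat_lit 304) (nat_lit 0) (XT.nd (nat_lit 78) (nat_lit 152) (nat_lit 0) (XT.lf (nat_lit 0) (nat_lit 1252845722) (nat_lit 152) (nat_lit 7904870126) (nat_lit 152) (nat_lit 6234170106) (nat_lit 37) (nat_lit 4) (nat_lit 39) (nat_lit 5) (nat_lit 39) (nat_lit 4) (nat_lit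 380) (nat_lit 262) (nat_lit 258)) (XT.nd (nat_lit 78) (nat_lit 152) (nat_lit 0) (XT.lf (nat_lit 0) (nat_lit 10698605785) (nat_lit 152) (nat_lit 3527467790) (nat_lit 152) (nat_lit 1469056615) (nat_lit 37) (nat_lit 4) (nat_lit 39) (nat_lit 5) (nat_lit 39) (nat_lit 4) (nat_lit 381) (nat_lit 262) (nat_lit 257)) (XT.lf (nat_lit 0) (nat_lit 3324415350) (nat_lit 152) (nat_lit 11723008293) (nat_lit 0) (nat_lit 960502951) (nat_lit 35) (nat_lit 5) (nat_lit 37) (nat_lit 4) (nat_lit 35) (nat_lit 4) (nat_lit 382) (nat_lit 262) (nat_lit 256)))) (XT.nd (nat_lit 156) (nat_lit 152) (nat_lit 0) (XT.nd (nat_lit 78) (nat_lit 152) (nat_lit 0) (XT.lf (nat_lit 0) (nat_lit 8220292632) (nat_lit 152) (nat_lit 2608185782) (nat_lit 0) (nat_lit 5501569604) (nat_lit 35) (nat_lit 5) (nat_lit 37) (nat_lit 4) (nat_lit 35) (nat_lit 4) (nat_lit 383) (nat_lit 262) (nat_lit 255)) (XT.lf (nat_lit 0) (nat_lit 6739901554) (nat_lit 152) (nat_lit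 6493027552) (nat_lit 152) (nat_lit 3429828184) (nat_lit 33) (nat_lit 4) (nat_lit 35) (nat_lit 5) (nat_lit 35) (nat_lit 4) (nat_lit 384) (nat_lit 262) (nat_lit 254))) (XT.nd (nat_lit 78) (nat_lit 76) (nat_lit 0) (XT.lf (nat_lit 0) (nat_lit 1295238140) (nat_lit 228) (nat_lit 768308989) (nat_lit 76) (nat_lit 14943562980) (nat_lit 32) (nat_lit 5) (nat_lit 35) (nat_lit 5) (nat_lit 33) (nat_lit 4) (nat_lit 385) (nat_lit 262) (nat_lit 253)) (XT.lf (nat_lit 0) (nat_lit 6108554147) (nat_lit 152) (nat_lit 8757148983) (nat_lit 0) (nat_lit 2494627542) (nat_lit 31) (nat_lit 5) (nat_lit 33) (nat_lit 4) (nat_lit 31) (nat_lit 4) (nat_lit 386) (nat_lit 262) (nat_lit 252))))))))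
noncomputable def xc26 : XT := (XT.nd (nat_lit 2028) (nat_lit 532) (nat_lit 0) (XT.nd (nat_lit 1014) (nat_lit 456) (nat_lit 0) (XT.nd (nat_lit 468) (nat_lit 380) (nat_lit 0) (XT.nd (nat_lit 234) (nat_lit 152) (nat_lit 0) (XT.nd (nat_lit 78) (nat_lit 152) (nat_lit 0) (XT.lf (nat_lit 0) (nat_lit 366998486) (nat_lit 152) (nat_lit 10639475496) (nat_lit 152) (nat_lit 6719486126) (nat_lit 29) (nat_lit 4) (nat_lit 31) (nat_lit 5) (nat_lit 31) (nat_lit 4) (nat_lit 387) (nat_lit 262) (nat_lit 251)) (XT.nd (nat_lit 78) (nat_lit 152) (nat_lit 0) (XT.lf (nat_lit 0) (nat_lit 9778717038) (nat_lit 152) (nat_lit 6270529732) (nat_lit 152) (nat_lit 2053392045) (nat_lit 29) (nat_lit 4) (nat_lit 31) (nat_lit 5) (nat_lit 31) (nat_lit 4) (nat_lit 388) (nat_lit 262) (nat_lit 250)) (XT.lf (nat_lit 0) (nat_lit 808868196) (nat_lit 76) (nat_lit 1809111800) (nat_lit 152) (nat_lit 15874290599) (nat_lit 27) (nat_lit 5) (nat_lit 28)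 (nat_lit 5) (nat_lit 29) (nat_lit 4) (nat_lit 389) (nat_lit 262) (nat_lit 249)))) (XT.nd (nat_lit 78) (nat_lit 152) (nat_lit 0) (XT.lf (nat_lit 0) (nat_lit 7411459191) (nat_lit 152) (nat_lit 8715714273) (nat_lit 0) (nat_lit 2765127167) (nat_lit 27) (nat_lit 5) (nat_lit 29) (nat_lit 4) (nat_lit 27) (nat_lit 4) (nat_lit 390) (nat_lit 262) (nat_lit 248)) (XT.nd (nat_lit 78) (nat_lit 0) (nat_lit 0) (XT.lf (nat_lit 0) (nat_lit 351729112) (nat_lit 152) (nat_lit 11932449842) (nat_lit 152) (nat_lit 7022105388) (nat_lit 25) (nat_lit 4) (nat_lit 27) (nat_lit 5) (nat_lit 27) (nat_lit 4) (nat_lit 391) (nat_lit 262) (nat_lit 247)) (XT.lf (nat_lit 0) (nat_lit 9713183750) (nat_lit 152) (nat_lit 7593045965) (nat_lit 152) (nat_lit 2426378763) (nat_lit 25) (nat_lit 4) (nat_lit 27) (nat_lit 5) (nat_lit 27) (nat_lit 4) (nat_lit 392) (nat_lit 262) (nat_lit 246))))) (XT.nd (nat_lit 234) (nat_lit 228) (nat_lit 0) (XT.nd (nat_lit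 78) (nat_lit 76) (nat_lit 0) (XT.lf (nat_lit 0) (nat_lit 2178976586) (nat_lit 228) (nat_lit 992201767) (nat_lit 76) (nat_lit 17002389773) (nat_lit 24) (nat_lit 5) (nat_lit 27) (nat_lit 5) (nat_lit 25) (nat_lit 4) (nat_lit 393) (nat_lit 262) (nat_lit 245)) (XT.nd (nat_lit 78) (nat_lit 0) (nat_lit 0) (XT.lf (nat_lit 0) (nat_lit 6886324580) (nat_lit 152) (nat_lit 12346384943) (nat_lit 0) (nat_lit 1393962432) (nat_lit 23) (nat_lit 5) (nat_lit 25) (nat_lit 4) (nat_lit 23) (nat_lit 4) (nat_lit 394) (nat_lit 262) (nat_lit 244)) (XT.lf (nat_lit 0) (nat_lit 11695891074) (nat_lit 152) (nat_lit 3422872078) (nat_lit 0) (nat_lit 5975789485) (nat_lit 23) (nat_lit 5) (nat_lit 25) (nat_lit 4) (nat_lit 23) (nat_lit 4) (nat_lit 395) (nat_lit 262) (nat_lit 243)))) (XT.nd (nat_lit 156) (nat_lit 152) (nat_lit 0) (XT.nd (nat_lit 78) (nat_lit 0) (nat_lit 0) (XT.lf (nat_lit 0) (nat_lit 5735017830) (nat_lit 76) (nat_lit 10891682185)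 (nat_lit 76) (nat_lit 4950474342) (nat_lit 22) (nat_lit 4) (nat_lit 23) (nat_lit 5) (nat_lit 23) (nat_lit 4) (nat_lit 396) (nat_lit 262) (nat_lit 242)) (XT.lf (nat_lit 0) (nat_lit 15093994676) (nat_lit 76) (nat_lit 6568724243) (nat_lit 76) (nat_lit 412850134) (nat_lit 22) (nat_lit 4) (nat_lit 23) (nat_lit 5) (nat_lit 23) (nat_lit 4) (nat_lit 397) (nat_lit 262) (nat_lit 241))) (XT.nd (nat_lit 78) (nat_lit 0) (nat_lit 0) (XT.lf (nat_lit 0) (nat_lit 2001781937) (nat_lit 76) (nat_lit 2119434760) (nat_lit 152) (nat_lit 18468178512) (nat_lit 20) (nat_lit 5) (nat_lit 21) (nat_lit 5) (nat_lit 22) (nat_lit 4) (nat_lit 398) (nat_lit 262) (nat_lit 240)) (XT.lf (nat_lit 0) (nat_lit 8802342525) (nat_lit 152) (nat_lit 11888630617) (nat_lit 0) (nat_lit 2426972133) (nat_lit 20) (nat_lit 5) (nat_lit 22) (nat_lit 4) (nat_lit 20) (nat_lit 4) (nat_lit 399) (nat_lit 262) (nat_lit 239)))))) (XT.nd (nat_lit 468) (nat_lit 228)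 (nat_lit 0) (XT.nd (nat_lit 234) (nat_lit 152) (nat_lit 0) (XT.nd (nat_lit 78) (nat_lit 76) (nat_lit 0) (XT.lf (nat_lit 0) (nat_lit 13571544461) (nat_lit 152) (nat_lit 3086943695) (nat_lit 0) (nat_lit 7005445873) (nat_lit 20) (nat_lit 5) (nat_lit 22) (nat_lit 4) (nat_lit 20) (nat_lit 4) (nat_lit 400) (nat_lit 262) (nat_lit 238)) (XT.nd (nat_lit 78) (nat_lit 0) (nat_lit 0) (XT.lf (nat_lit 0) (nat_lit 5961848732) (nat_lit 76) (nat_lit 12508076672) (nat_lit 76) (nat_lit 5756805077) (nat_lit 19) (nat_lit 4) (nat_lit 20) (nat_lit 5) (nat_lit 20) (nat_lit 4) (nat_lit 401) (nat_lit 262) (nat_lit 237)) (XT.lf (nat_lit 0) (nat_lit 15213408698) (nat_lit 76) (nat_lit 8262620500) (nat_lit 76) (nat_lit 1331569286) (nat_lit 19) (nat_lit 4) (nat_lit 20) (nat_lit 5) (nat_lit 20) (nat_lit 4) (nat_lit 402) (nat_lit 262) (nat_lit 236)))) (XT.nd (nat_lit 78) (nat_lit 76) (nat_lit 0) (XT.lf (nat_lit 0) (nat_lit 3094427265)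 (nat_lit 152) (nat_lit 823907182) (nat_lit 76) (nat_lit 21488708943) (nat_lit 18) (nat_lit 5) (nat_lit 20) (nat_lit 5) (nat_lit 19) (nat_lit 4) (nat_lit 403) (nat_lit 262) (nat_lit 235)) (XT.nd (nat_lit 78) (nat_lit 0) (nat_lit 0) (XT.lf (nat_lit 0) (nat_lit 7644234030) (nat_lit 152) (nat_lit 17798243431) (nat_lit 0) (nat_lit 581074744) (nat_lit 17) (nat_lit 5) (nat_lit 19) (nat_lit 4) (nat_lit 17) (nat_lit 4) (nat_lit 404) (nat_lit 262) (nat_lit 234)) (XT.lf (nat_lit 0) (nat_lit 12310901750) (nat_lit 152) (nat_lit 9260242523) (nat_lit 0) (nat_lit 5088010602) (nat_lit 17) (nat_lit 5) (nat_lit 19) (nat_lit 4) (nat_lit 17) (nat_lit 4) (nat_lit 405) (nat_lit 262) (nat_lit 233))))) (XT.nd (nat_lit 234) (nat_lit 152) (nat_lit 0) (XT.nd (nat_lit 78) (nat_lit 76) (nat_lit 0) (XT.lf (nat_lit 0) (nat_lit 17052685173) (nat_lit 152) (nat_lit 588381751) (nat_lit 0) (nat_lit 9674714547) (nat_lit 17) (nat_lit 5) (nat_lit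 19) (nat_lit 4) (nat_lit 17) (nat_lit 4) (nat_lit 406) (nat_lit 262) (nat_lit 232)) (XT.nd (nat_lit 78) (nat_lit 0) (nat_lit 0) (XT.lf (nat_lit 0) (nat_lit 8388608197) (nat_lit 76) (nat_lit 13565755840) (nat_lit 76) (nat_lit 6037222615) (nat_lit 16) (nat_lit 4) (nat_lit 17) (nat_lit 5) (nat_lit 17) (nat_lit 4) (nat_lit 407) (nat_lit 262) (nat_lit 231)) (XT.lf (nat_lit 0) (nat_lit 17529414397) (nat_lit 76) (nat_lit 9417330662) (nat_lit 76) (nat_lit 1742620155) (nat_lit 16) (nat_lit 4) (nat_lit 17) (nat_lit 5) (nat_lit 17) (nat_lit 4) (nat_lit 408) (nat_lit 262) (nat_lit 230)))) (XT.nd (nat_lit 156) (nat_lit 0) (nat_lit 0) (XT.nd (nat_lit 78) (nat_lit 76) (nat_lit 0) (XT.lf (nat_lit 0) (nat_lit 2567425342) (nat_lit 152) (nat_lit 2604756752) (nat_lit 76) (nat_lit 24236962704) (nat_lit 15) (nat_lit 5) (nat_lit 17) (nat_lit 5) (nat_lit 16) (nat_lit 4) (nat_lit 409) (nat_lit 262) (nat_lit 229)) (XT.lf (nat_lit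 0) (nat_lit 6198805628) (nat_lit 76) (nat_lit 773224880) (nat_lit 152) (nat_lit 23177969189) (nat_lit 14) (nat_lit 5) (nat_lit 15) (nat_lit 5) (nat_lit 16) (nat_lit 4) (nat_lit 410) (nat_lit 262) (nat_lit 228))) (XT.nd (nat_lit 78) (nat_lit 0) (nat_lit 0) (XT.lf (nat_lit 0) (nat_lit 11512314016) (nat_lit 152) (nat_lit 15740964704) (nat_lit 0) (nat_lit 3659703118) (nat_lit 14) (nat_lit 5) (nat_lit 16) (nat_lit 4) (nat_lit 14) (nat_lit 4) (nat_lit 411) (nat_lit 262) (nat_lit 227)) (XT.lf (nat_lit 0) (nat_lit 16139039880) (nat_lit 152) (nat_lit 7400978948) (nat_lit 0) (nat_lit 8160335175) (nat_lit 14) (nat_lit 5) (nat_lit 16) (nat_lit 4) (nat_lit 14) (nat_lit 4) (nat_lit 412) (nat_lit 262) (nat_lit 226))))))) (XT.nd (nat_lit 1014) (nat_lit 228) (nat_lit 0) (XT.nd (nat_lit 468) (nat_lit 76) (nat_lit 0) (XT.nd (nat_lit 234) (nat_lit 152) (nat_lit 0) (XT.nd (nat_lit 78) (nat_lit 0) (nat_lit 0) (XT.lf (nat_lit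 0) (nat_lit 1105046716) (nat_lit 76) (nat_lit 19754393829) (nat_lit 76) (nat_lit 11653267952) (nat_lit 13) (nat_lit 4) (nat_lit 14) (nat_lit 5) (nat_lit 14) (nat_lit 4) (nat_lit 413) (nat_lit 262) (nat_lit 225)) (XT.nd (nat_lit 78) (nat_lit 0) (nat_lit 0) (XT.lf (nat_lit 0) (nat_lit 9913279359) (nat_lit 76) (nat_lit 15827777342) (nat_lit 76) (nat_lit 7607795959) (nat_lit 13) (nat_lit 4) (nat_lit 14) (nat_lit 5) (nat_lit 14) (nat_lit 4) (nat_lit 414) (nat_lit 262) (nat_lit 224)) (XT.lf (nat_lit 0) (nat_lit 18884121502) (nat_lit 76) (nat_lit 11831473721) (nat_lit 76) (nat_lit 3496098641) (nat_lit 13) (nat_lit 4) (nat_lit 14) (nat_lit 5) (nat_lit 14) (nat_lit 4) (nat_lit 415) (nat_lit 262) (nat_lit 223)))) (XT.nd (nat_lit 78) (nat_lit 76) (nat_lit 0) (XT.lf (nat_lit 0) (nat_lit 672041795) (nat_lit 152) (nat_lit 7083162948) (nat_lit 76) (nat_lit 27346583643) (nat_lit 12) (nat_lit 5) (nat_lit 14) (nat_lit 5)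 (nat_lit 13) (nat_lit 4) (nat_lit 416) (nat_lit 262) (nat_lit 222)) (XT.nd (nat_lit 78) (nat_lit 0) (nat_lit 0) (XT.lf (nat_lit 0) (nat_lit 1302557898) (nat_lit 76) (nat_lit 3553961962) (nat_lit 152) (nat_lit 31162186937) (nat_lit 11) (nat_lit 5) (nat_lit 12) (nat_lit 5) (nat_lit 13) (nat_lit 4) (nat_lit 417) (nat_lit 262) (nat_lit 221)) (XT.lf (nat_lit 0) (nat_lit 9195366157) (nat_lit 152) (nat_lit 26981035761) (nat_lit 0) (nat_lit 785871984) (nat_lit 11) (nat_lit 5) (nat_lit 13) (nat_lit 4) (nat_lit 11) (nat_lit 4) (nat_lit 418) (nat_lit 262) (nat_lit 220))))) (XT.nd (nat_lit 234) (nat_lit 76) (nat_lit 0) (XT.nd (nat_lit 78) (nat_lit 0) (nat_lit 0) (XT.lf (nat_lit 0) (nat_lit 13650212232) (nat_lit 152) (nat_lit 19143188293) (nat_lit 0) (nat_lit 5141178443) (nat_lit 11) (nat_lit 5) (nat_lit 13) (nat_lit 4) (nat_lit 11) (nat_lit 4) (nat_lit 419) (nat_lit 262) (nat_lit 219)) (XT.nd (nat_lit 78) (nat_lit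 0) (nat_lit 0) (XT.lf (nat_lit 0) (nat_lit 18190787812) (nat_lit 152) (nat_lit 11161595035) (nat_lit 0) (nat_lit 9585113620) (nat_lit 11) (nat_lit 5) (nat_lit 13) (nat_lit 4) (nat_lit 11) (nat_lit 4) (nat_lit 420) (nat_lit 262) (nat_lit 218)) (XT.lf (nat_lit 0) (nat_lit 22821060392) (nat_lit 152) (nat_lit 3029281779) (nat_lit 0) (nat_lit 14121560566) (nat_lit 11) (nat_lit 5) (nat_lit 13) (nat_lit 4) (nat_lit 11) (nat_lit 4) (nat_lit 421) (nat_lit 262) (nat_lit 217)))) (XT.nd (nat_lit 156) (nat_lit 0) (nat_lit 0) (XT.nd (nat_lit 78) (nat_lit 0) (nat_lit 0) (XT.lf (nat_lit 0) (nat_lit 5365558757) (nat_lit 76) (nat_lit 22231094115) (nat_lit 76) (nat_lit 13440501440) (nat_lit 10) (nat_lit 4) (nat_lit 11) (nat_lit 5) (nat_lit 11) (nat_lit 4) (nat_lit 422) (nat_lit 262) (nat_lit 216)) (XT.lf (nat_lit 0) (nat_lit 13989042866) (nat_lit 76) (nat_lit 18512390308) (nat_lit 76) (nat_lit 9633357974) (nat_lit 10) (nat_lit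 4) (nat_lit 11) (nat_lit 5) (nat_lit 11) (nat_lit 4) (nat_lit 423) (nat_lit 262) (nat_lit 215))) (XT.nd (nat_lit 78) (nat_lit 0) (nat_lit 0) (XT.lf (nat_lit 0) (nat_lit 22788416982) (nat_lit 76) (nat_lit 14721571203) (nat_lit 76) (nat_lit 5756675121) (nat_lit 10) (nat_lit 4) (nat_lit 11) (nat_lit 5) (nat_lit 11) (nat_lit 4) (nat_lit 424) (nat_lit 262) (nat_lit 214)) (XT.lf (nat_lit 0) (nat_lit 31771369880) (nat_lit 76) (nat_lit 10855324433) (nat_lit 76) (nat_lit 1807065491) (nat_lit 10) (nat_lit 4) (nat_lit 11) (nat_lit 5) (nat_lit 11) (nat_lit 4) (nat_lit 425) (nat_lit 262) (nat_lit 213)))))) (XT.nd (nat_lit 546) (nat_lit 76) (nat_lit 0) (XT.nd (nat_lit 234) (nat_lit 0) (nat_lit 0) (XT.nd (nat_lit 78) (nat_lit 76) (nat_lit 0) (XT.lf (nat_lit 0) (nat_lit 2175622872) (nat_lit 152) (nat_lit 4712679327) (nat_lit 76) (nat_lit 38748158344) (nat_lit 9) (nat_lit 5) (nat_lit 11) (nat_lit 5) (nat_lit 10) (nat_lit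 4) (nat_lit 426) (nat_lit 262) (nat_lit 212)) (XT.nd (nat_lit 78) (nat_lit 0) (nat_lit 0) (XT.lf (nat_lit 0) (nat_lit 3448330817) (nat_lit 76) (nat_lit 2786202220) (nat_lit 152) (nat_lit 40640385256) (nat_lit 8) (nat_lit 5) (nat_lit 9) (nat_lit 5) (nat_lit 10) (nat_lit 4) (nat_lit 427) (nat_lit 262) (nat_lit 211)) (XT.lf (nat_lit 0) (nat_lit 10437107250) (nat_lit 152) (nat_lit 36289313384) (nat_lit 0) (nat_lit 1423456689) (nat_lit 8) (nat_lit 5) (nat_lit 10) (nat_lit 4) (nat_lit 8) (nat_lit 4) (nat_lit 428) (nat_lit 262) (nat_lit 210)))) (XT.nd (nat_lit 156) (nat_lit 0) (nat_lit 0) (XT.nd (nat_lit 78) (nat_lit 0) (nat_lit 0) (XT.lf (nat_lit 0) (nat_lit 14754514338) (nat_lit 152) (nat_lit 29039958197) (nat_lit 0) (nat_lit 5668954241) (nat_lit 8) (nat_lit 5) (nat_lit 10) (nat_lit 4) (nat_lit 8) (nat_lit 4) (nat_lit 429) (nat_lit 262) (nat_lit 209)) (XT.lf (nat_lit 0) (nat_lit 19163744112) (nat_lit 152) (nat_lit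 21645404846) (nat_lit 0) (nat_lit 10008368931) (nat_lit 8) (nat_lit 5) (nat_lit 10) (nat_lit 4) (nat_lit 8) (nat_lit 4) (nat_lit 430) (nat_lit 262) (nat_lit 208))) (XT.nd (nat_lit 78) (nat_lit 0) (nat_lit 0) (XT.lf (nat_lit 0) (nat_lit 23668649298) (nat_lit 152) (nat_lit 14099192073) (nat_lit 0) (nat_lit 14445492482) (nat_lit 8) (nat_lit 5) (nat_lit 10) (nat_lit 4) (nat_lit 8) (nat_lit 4) (nat_lit 431) (nat_lit 262) (nat_lit 207)) (XT.lf (nat_lit 0) (nat_lit 28273166220) (nat_lit 152) (nat_lit 6394726098) (nat_lit 0) (nat_lit 18984201993) (nat_lit 8) (nat_lit 5) (nat_lit 10) (nat_lit 4) (nat_lit 8) (nat_lit 4) (nat_lit 432) (nat_lit 262) (nat_lit 206))))) (XT.nd (nat_lit 234) (nat_lit 0) (nat_lit 0) (XT.nd (nat_lit 78) (nat_lit 0) (nat_lit 0) (XT.lf (nat_lit 0) (nat_lit 1504075057) (nat_lit 76) (nat_lit 31491701276) (nat_lit 76) (nat_lit 22138846357) (nat_lit 7) (nat_lit 4) (nat_lit 8) (nat_lit 5) (nat_lit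 8) (nat_lit 4) (nat_lit 433) (nat_lit 262) (nat_lit 205)) (XT.nd (nat_lit 78) (nat_lit 0) (nat_lit 0) (XT.lf (nat_lit 0) (nat_lit 9705425660) (nat_lit 76) (nat_lit 28185088116) (nat_lit 76) (nat_lit 18770203399) (nat_lit 7) (nat_lit 4) (nat_lit 8) (nat_lit 5) (nat_lit 8) (nat_lit 4) (nat_lit 434) (nat_lit 262) (nat_lit 204)) (XT.lf (nat_lit 0) (nat_lit 18089224351) (nat_lit 76) (nat_lit 24809737761) (nat_lit 76) (nat_lit 15334629939) (nat_lit 7) (nat_lit 4) (nat_lit 8) (nat_lit 5) (nat_lit 8) (nat_lit 4) (nat_lit 435) (nat_lit 262) (nat_lit 203)))) (XT.nd (nat_lit 156) (nat_lit 0) (nat_lit 0) (XT.nd (nat_lit 78) (nat_lit 0) (nat_lit 0) (XT.lf (nat_lit 0) (nat_lit 26662796778) (nat_lit 76) (nat_lit 21362700874) (nat_lit 76) (nat_lit 11829124019) (nat_lit 7) (nat_lit 4) (nat_lit 8) (nat_lit 5) (nat_lit 8) (nat_lit 4) (nat_lit 436) (nat_lit 262) (nat_lit 202)) (XT.lf (nat_lit 0) (nat_lit 35433634414) (nat_lit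 76) (nat_lit 17840965482) (nat_lit 76) (nat_lit 8250622575) (nat_lit 7) (nat_lit 4) (nat_lit 8) (nat_lit 5) (nat_lit 8) (nat_lit 4) (nat_lit 437) (nat_lit 262) (nat_lit 201))) (XT.nd (nat_lit 78) (nat_lit 0) (nat_lit 0) (XT.lf (nat_lit 0) (nat_lit 44409401096) (nat_lit 76) (nat_lit 14241454341) (nat_lit 76) (nat_lit 4595998762) (nat_lit 7) (nat_lit 4) (nat_lit 8) (nat_lit 5) (nat_lit 8) (nat_lit 4) (nat_lit 438) (nat_lit 262) (nat_lit 200)) (XT.lf (nat_lit 0) (nat_lit 53597939728) (nat_lit 76) (nat_lit 10561022246) (nat_lit 76) (nat_lit 862059219) (nat_lit 7) (nat_lit 4) (nat_lit 8) (nat_lit 5) (nat_lit 8) (nat_lit 4) (nat_lit 439) (nat_lit 262) (nat_lit 199))))))))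
noncomputable def xc27 : XT := (XT.nd (nat_lit 42978) (nat_lit 0) (nat_lit 608) (XT.nd (nat_lit 41964) (nat_lit 0) (nat_lit 1748) (XT.nd (nat_lit 468) (nat_lit 0) (nat_lit 0) (XT.nd (nat_lit 234) (nat_lit 0) (nat_lit 0) (XT.nd (nat_lit 78) (nat_lit 76) (nat_lit 0) (XT.lf (nat_lit 0) (nat_lit 2896806588) (nat_lit 152) (nat_lit 3870394631) (nat_lit 76) (nat_lit 60081220476) (nat_lit 6) (nat_lit 5) (nat_lit 8) (nat_lit 5) (nat_lit 7) (nat_lit 4) (nat_lit 440) (nat_lit 262) (nat_lit 198)) (XT.nd (nat_lit 78) (nat_lit 0) (nat_lit 0) (XT.lf (nat_lit 0) (nat_lit 3923072497) (nat_lit 76) (nat_lit 2837725731) (nat_lit 152) (nat_lit 61969302275) (nat_lit 5) (nat_lit 5) (nat_lit 6) (nat_lit 5) (nat_lit 7) (nat_lit 4) (nat_lit 441) (nat_lit 262) (nat_lit 197)) (XT.lf (nat_lit 0) (nat_lit 10763841337) (nat_lit 152) (nat_lit 58703268337) (nat_lit 0) (nat_lit 1200428907) (nat_lit 5) (nat_lit 5) (nat_lit 7) (nat_lit 4)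 (nat_lit 5) (nat_lit 4) (nat_lit 442) (nat_lit 262) (nat_lit 196)))) (XT.nd (nat_lit 78) (nat_lit 0) (nat_lit 0) (XT.lf (nat_lit 0) (nat_lit 14887920201) (nat_lit 152) (nat_lit 52496802260) (nat_lit 0) (nat_lit 5278351776) (nat_lit 5) (nat_lit 5) (nat_lit 7) (nat_lit 4) (nat_lit 5) (nat_lit 4) (nat_lit 443) (nat_lit 262) (nat_lit 195)) (XT.nd (nat_lit 78) (nat_lit 0) (nat_lit 0) (XT.lf (nat_lit 0) (nat_lit 19109360431) (nat_lit 152) (nat_lit 46154928696) (nat_lit 0) (nat_lit 9454980361) (nat_lit 5) (nat_lit 5) (nat_lit 7) (nat_lit 4) (nat_lit 5) (nat_lit 4) (nat_lit 444) (nat_lit 262) (nat_lit 194)) (XT.lf (nat_lit 0) (nat_lit 23431850663) (nat_lit 152) (nat_lit 39672106200) (nat_lit 0) (nat_lit 13733964141) (nat_lit 5) (nat_lit 5) (nat_lit 7) (nat_lit 4) (nat_lit 5) (nat_lit 4) (nat_lit 445) (nat_lit 262) (nat_lit 193))))) (XT.nd (nat_lit 234) (nat_lit 0) (nat_lit 0) (XT.nd (nat_lit 78) (nat_lit 0) (nat_lit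 0) (XT.lf (nat_lit 0) (nat_lit 27859167830) (nat_lit 152) (nat_lit 33042670171) (nat_lit 0) (nat_lit 18119042034) (nat_lit 5) (nat_lit 5) (nat_lit 7) (nat_lit 4) (nat_lit 5) (nat_lit 4) (nat_lit 446) (nat_lit 262) (nat_lit 192)) (XT.nd (nat_lit 78) (nat_lit 0) (nat_lit 0) (XT.lf (nat_lit 0) (nat_lit 32395180463) (nat_lit 152) (nat_lit 26260827898) (nat_lit 0) (nat_lit 22614045663) (nat_lit 5) (nat_lit 5) (nat_lit 7) (nat_lit 4) (nat_lit 5) (nat_lit 4) (nat_lit 447) (nat_lit 262) (nat_lit 191)) (XT.lf (nat_lit 0) (nat_lit 37043852066) (nat_lit 152) (nat_lit 19320653500) (nat_lit 0) (nat_lit 27222902700) (nat_lit 5) (nat_lit 5) (nat_lit 7) (nat_lit 4) (nat_lit 5) (nat_lit 4) (nat_lit 448) (nat_lit 262) (nat_lit 190)))) (XT.nd (nat_lit 41106) (nat_lit 0) (nat_lit 2888) (XT.nd (nat_lit 41028) (nat_lit 0) (nat_lit 3116) (XT.lf (nat_lit 0) (nat_lit 41809244587) (nat_lit 152) (nat_lit 12216082745) (nat_lit 0)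 (nat_lit 31949640302) (nat_lit 5) (nat_lit 5) (nat_lit 7) (nat_lit 4) (nat_lit 5) (nat_lit 4) (nat_lit 449) (nat_lit 262) (nat_lit 189)) (XT.lf (nat_lit 0) (nat_lit 1801020860) (nat_lit 152) (nat_lit 2539109029) (nat_lit 152) (nat_lit 2539109029) (nat_lit 46) (nat_lit 4) (nat_lit 48) (nat_lit 5) (nat_lit 48) (nat_lit 4) (nat_lit 374) (nat_lit 263) (nat_lit 263))) (XT.nd (nat_lit 78) (nat_lit 228) (nat_lit 0) (XT.lf (nat_lit 0) (nat_lit 12922664555) (nat_lit 152) (nat_lit 783137972) (nat_lit 152) (nat_lit 306302155) (nat_lit 46) (nat_lit 4) (nat_lit 48) (nat_lit 5) (nat_lit 48) (nat_lit 4) (nat_lit 375) (nat_lit 263) (nat_lit 262)) (XT.lf (nat_lit 0) (nat_lit 4530390042) (nat_lit 228) (nat_lit 6123322487) (nat_lit 0) (nat_lit 3617979158) (nat_lit 43) (nat_lit 5) (nat_lit 46) (nat_lit 4) (nat_lit 43) (nat_lit 4) (nat_lit 376) (nat_lit 263) (nat_lit 261)))))) (XT.nd (nat_lit 468) (nat_lit 532) (nat_lit 0)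 (XT.nd (nat_lit 234) (nat_lit 304) (nat_lit 0) (XT.nd (nat_lit 78) (nat_lit 152) (nat_lit 0) (XT.lf (nat_lit 0) (nat_lit 3014194312) (nat_lit 152) (nat_lit 6437608568) (nat_lit 152) (nat_lit 5088825364) (nat_lit 41) (nat_lit 4) (nat_lit 43) (nat_lit 5) (nat_lit 43) (nat_lit 4) (nat_lit 377) (nat_lit 263) (nat_lit 260)) (XT.nd (nat_lit 78) (nat_lit 152) (nat_lit 0) (XT.lf (nat_lit 0) (nat_lit 12372492662) (nat_lit 152) (nat_lit 2109390297) (nat_lit 152) (nat_lit 336944646) (nat_lit 41) (nat_lit 4) (nat_lit 43) (nat_lit 5) (nat_lit 43) (nat_lit 4) (nat_lit 378) (nat_lit 263) (nat_lit 259)) (XT.lf (nat_lit 0) (nat_lit 4458171238) (nat_lit 152) (nat_lit 8308215329) (nat_lit 0) (nat_lit 2338007728) (nat_lit 39) (nat_lit 5) (nat_lit 41) (nat_lit 4) (nat_lit 39) (nat_lit 4) (nat_lit 379) (nat_lit 263) (nat_lit 258)))) (XT.nd (nat_lit 78) (nat_lit 152) (nat_lit 0) (XT.lf (nat_lit 0) (nat_lit 782996383) (nat_lit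 152) (nat_lit 8562340213) (nat_lit 152) (nat_lit 6054465549) (nat_lit 37) (nat_lit 4) (nat_lit 39) (nat_lit 5) (nat_lit 39) (nat_lit 4) (nat_lit 380) (nat_lit 263) (nat_lit 257)) (XT.nd (nat_lit 78) (nat_lit 152) (nat_lit 0) (XT.lf (nat_lit 0) (nat_lit 10142835795) (nat_lit 152) (nat_lit 4222975735) (nat_lit 152) (nat_lit 1338682475) (nat_lit 37) (nat_lit 4) (nat_lit 39) (nat_lit 5) (nat_lit 39) (nat_lit 4) (nat_lit 381) (nat_lit 263) (nat_lit 256)) (XT.lf (nat_lit 0) (nat_lit 3391810529) (nat_lit 152) (nat_lit 12390550649) (nat_lit 0) (nat_lit 236715180) (nat_lit 35) (nat_lit 5) (nat_lit 37) (nat_lit 4) (nat_lit 35) (nat_lit 4) (nat_lit 382) (nat_lit 263) (nat_lit 255))))) (XT.nd (nat_lit 234) (nat_lit 304) (nat_lit 0) (XT.nd (nat_lit 78) (nat_lit 228) (nat_lit 0) (XT.lf (nat_lit 0) (nat_lit 8240936489) (nat_lit 152) (nat_lit 3360309224) (nat_lit 0) (nat_lit 4741364801) (nat_lit 35) (nat_lit 5) (nat_lit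 37) (nat_lit 4) (nat_lit 35) (nat_lit 4) (nat_lit 383) (nat_lit 263) (nat_lit 254)) (XT.nd (nat_lit 78) (nat_lit 76) (nat_lit 0) (XT.lf (nat_lit 0) (nat_lit 5889057520) (nat_lit 152) (nat_lit 7310946976) (nat_lit 152) (nat_lit 3476932241) (nat_lit 33) (nat_lit 4) (nat_lit 35) (nat_lit 5) (nat_lit 35) (nat_lit 4) (nat_lit 384) (nat_lit 263) (nat_lit 253)) (XT.lf (nat_lit 0) (nat_lit 1203750552) (nat_lit 228) (nat_lit 1715103102) (nat_lit 76) (nat_lit 14103817895) (nat_lit 32) (nat_lit 5) (nat_lit 35) (nat_lit 5) (nat_lit 33) (nat_lit 4) (nat_lit 385) (nat_lit 263) (nat_lit 252)))) (XT.nd (nat_lit 156) (nat_lit 228) (nat_lit 0) (XT.nd (nat_lit 78) (nat_lit 0) (nat_lit 0) (XT.lf (nat_lit 0) (nat_lit 5954352474) (nat_lit 152) (nat_lit 9812729461) (nat_lit 0) (nat_lit 1610700657) (nat_lit 31) (nat_lit 5) (nat_lit 33) (nat_lit 4) (nat_lit 31) (nat_lit 4) (nat_lit 386) (nat_lit 263) (nat_lit 251)) (XT.lf (nat_lit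 0) (nat_lit 10804940461) (nat_lit 152) (nat_lit 775759987) (nat_lit 0) (nat_lit 6164140327) (nat_lit 31) (nat_lit 5) (nat_lit 33) (nat_lit 4) (nat_lit 31) (nat_lit 4) (nat_lit 387) (nat_lit 263) (nat_lit 250))) (XT.nd (nat_lit 78) (nat_lit 76) (nat_lit 0) (XT.lf (nat_lit 0) (nat_lit 8541287362) (nat_lit 152) (nat_lit 7255530580) (nat_lit 152) (nat_lit 2326236936) (nat_lit 29) (nat_lit 4) (nat_lit 31) (nat_lit 5) (nat_lit 31) (nat_lit 4) (nat_lit 388) (nat_lit 263) (nat_lit 249)) (XT.lf (nat_lit 0) (nat_lit 2300230754) (nat_lit 228) (nat_lit 539916000) (nat_lit 76) (nat_lit 15674133490) (nat_lit 28) (nat_lit 5) (nat_lit 31) (nat_lit 5) (nat_lit 29) (nat_lit 4) (nat_lit 389) (nat_lit 263) (nat_lit 248))))))) (XT.nd (nat_lit 1014) (nat_lit 456) (nat_lit 0) (XT.nd (nat_lit 468) (nat_lit 304) (nat_lit 0) (XT.nd (nat_lit 234) (nat_lit 152) (nat_lit 0) (XT.nd (nat_lit 78) (nat_lit 152) (nat_lit 0) (XT.lf (nat_lit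 0) (nat_lit 7036159297) (nat_lit 152) (nat_lit 10165393237) (nat_lit 0) (nat_lit 1714492079) (nat_lit 27) (nat_lit 5) (nat_lit 29) (nat_lit 4) (nat_lit 27) (nat_lit 4) (nat_lit 390) (nat_lit 263) (nat_lit 247)) (XT.nd (nat_lit 78) (nat_lit 152) (nat_lit 0) (XT.lf (nat_lit 0) (nat_lit 11864435878) (nat_lit 152) (nat_lit 1180487412) (nat_lit 0) (nat_lit 6286445912) (nat_lit 27) (nat_lit 5) (nat_lit 29) (nat_lit 4) (nat_lit 27) (nat_lit 4) (nat_lit 391) (nat_lit 263) (nat_lit 246)) (XT.lf (nat_lit 0) (nat_lit 8082541055) (nat_lit 152) (nat_lit 8751785723) (nat_lit 152) (nat_lit 2924938720) (nat_lit 25) (nat_lit 4) (nat_lit 27) (nat_lit 5) (nat_lit 27) (nat_lit 4) (nat_lit 392) (nat_lit 263) (nat_lit 245)))) (XT.nd (nat_lit 78) (nat_lit 76) (nat_lit 0) (XT.lf (nat_lit 0) (nat_lit 1650343852) (nat_lit 228) (nat_lit 2718257755) (nat_lit 76) (nat_lit 15832968300) (nat_lit 24) (nat_lit 5) (nat_lit 27) (nat_lit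 5) (nat_lit 25) (nat_lit 4) (nat_lit 393) (nat_lit 263) (nat_lit 244)) (XT.nd (nat_lit 78) (nat_lit 0) (nat_lit 0) (XT.lf (nat_lit 0) (nat_lit 6289427661) (nat_lit 152) (nat_lit 14197317156) (nat_lit 0) (nat_lit 169983583) (nat_lit 23) (nat_lit 5) (nat_lit 25) (nat_lit 4) (nat_lit 23) (nat_lit 4) (nat_lit 394) (nat_lit 263) (nat_lit 243)) (XT.lf (nat_lit 0) (nat_lit 11060485265) (nat_lit 152) (nat_lit 5345350693) (nat_lit 0) (nat_lit 4719934933) (nat_lit 23) (nat_lit 5) (nat_lit 25) (nat_lit 4) (nat_lit 23) (nat_lit 4) (nat_lit 395) (nat_lit 263) (nat_lit 242))))) (XT.nd (nat_lit 234) (nat_lit 152) (nat_lit 0) (XT.nd (nat_lit 78) (nat_lit 76) (nat_lit 0) (XT.lf (nat_lit 0) (nat_lit 3703433154) (nat_lit 76) (nat_lit 12230944945) (nat_lit 76) (nat_lit 5675728347) (nat_lit 22) (nat_lit 4) (nat_lit 23) (nat_lit 5) (nat_lit 23) (nat_lit 4) (nat_lit 396) (nat_lit 263) (nat_lit 241)) (XT.nd (nat_lit 78) (nat_lit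 76) (nat_lit 0) (XT.lf (nat_lit 0) (nat_lit 12993628480) (nat_lit 76) (nat_lit 7939809032) (nat_lit 76) (nat_lit 1176178583) (nat_lit 22) (nat_lit 4) (nat_lit 23) (nat_lit 5) (nat_lit 23) (nat_lit 4) (nat_lit 397) (nat_lit 263) (nat_lit 240)) (XT.lf (nat_lit 0) (nat_lit 3317297033) (nat_lit 152) (nat_lit 231861014) (nat_lit 76) (nat_lit 19076174738) (nat_lit 21) (nat_lit 5) (nat_lit 23) (nat_lit 5) (nat_lit 22) (nat_lit 4) (nat_lit 398) (nat_lit 263) (nat_lit 239)))) (XT.nd (nat_lit 156) (nat_lit 76) (nat_lit 0) (XT.nd (nat_lit 78) (nat_lit 0) (nat_lit 0) (XT.lf (nat_lit 0) (nat_lit 7946254685) (nat_lit 152) (nat_lit 14216753913) (nat_lit 0) (nat_lit 992444942) (nat_lit 20) (nat_lit 5) (nat_lit 22) (nat_lit 4) (nat_lit 20) (nat_lit 4) (nat_lit 399) (nat_lit 263) (nat_lit 238)) (XT.lf (nat_lit 0) (nat_lit 12680379780) (nat_lit 152) (nat_lit 5480723269) (nat_lit 0) (nat_lit 5541397030) (nat_lit 20) (nat_lit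 5) (nat_lit 22) (nat_lit 4) (nat_lit 20) (nat_lit 4) (nat_lit 400) (nat_lit 263) (nat_lit 237))) (XT.nd (nat_lit 78) (nat_lit 0) (nat_lit 0) (XT.lf (nat_lit 0) (nat_lit 3455415662) (nat_lit 76) (nat_lit 14065196507) (nat_lit 76) (nat_lit 6746434139) (nat_lit 19) (nat_lit 4) (nat_lit 20) (nat_lit 5) (nat_lit 20) (nat_lit 4) (nat_lit 401) (nat_lit 263) (nat_lit 236)) (XT.lf (nat_lit 0) (nat_lit 12643856610) (nat_lit 76) (nat_lit 9849189326) (nat_lit 76) (nat_lit 2355883640) (nat_lit 19) (nat_lit 4) (nat_lit 20) (nat_lit 5) (nat_lit 20) (nat_lit 4) (nat_lit 402) (nat_lit 263) (nat_lit 235)))))) (XT.nd (nat_lit 546) (nat_lit 152) (nat_lit 0) (XT.nd (nat_lit 234) (nat_lit 152) (nat_lit 0) (XT.nd (nat_lit 78) (nat_lit 76) (nat_lit 0) (XT.lf (nat_lit 0) (nat_lit 2057083055) (nat_lit 152) (nat_lit 3486886615) (nat_lit 76) (nat_lit 19905695608) (nat_lit 18) (nat_lit 5) (nat_lit 20) (nat_lit 5) (nat_lit 19) (nat_lit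 4) (nat_lit 403) (nat_lit 263) (nat_lit 234)) (XT.nd (nat_lit 78) (nat_lit 0) (nat_lit 0) (XT.lf (nat_lit 0) (nat_lit 5453863234) (nat_lit 76) (nat_lit 1088576307) (nat_lit 152) (nat_lit 19525672786) (nat_lit 17) (nat_lit 5) (nat_lit 18) (nat_lit 5) (nat_lit 19) (nat_lit 4) (nat_lit 404) (nat_lit 263) (nat_lit 233)) (XT.lf (nat_lit 0) (nat_lit 11166680478) (nat_lit 152) (nat_lit 12126020658) (nat_lit 0) (nat_lit 3412291255) (nat_lit 17) (nat_lit 5) (nat_lit 19) (nat_lit 4) (nat_lit 17) (nat_lit 4) (nat_lit 405) (nat_lit 263) (nat_lit 232)))) (XT.nd (nat_lit 156) (nat_lit 76) (nat_lit 0) (XT.nd (nat_lit 78) (nat_lit 76) (nat_lit 0) (XT.lf (nat_lit 0) (nat_lit 15877432130) (nat_lit 152) (nat_lit 3512641958) (nat_lit 0) (nat_lit 7972480308) (nat_lit 17) (nat_lit 5) (nat_lit 19) (nat_lit 4) (nat_lit 17) (nat_lit 4) (nat_lit 406) (nat_lit 263) (nat_lit 231)) (XT.lf (nat_lit 0) (nat_lit 5348240760) (nat_lit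 76) (nat_lit 15371516430) (nat_lit 76) (nat_lit 7320387326) (nat_lit 16) (nat_lit 4) (nat_lit 17) (nat_lit 5) (nat_lit 17) (nat_lit 4) (nat_lit 407) (nat_lit 263) (nat_lit 230))) (XT.nd (nat_lit 78) (nat_lit 76) (nat_lit 0) (XT.lf (nat_lit 0) (nat_lit 14432824904) (nat_lit 76) (nat_lit 11249522447) (nat_lit 76) (nat_lit 3056473653) (nat_lit 16) (nat_lit 4) (nat_lit 17) (nat_lit 5) (nat_lit 17) (nat_lit 4) (nat_lit 408) (nat_lit 263) (nat_lit 229)) (XT.lf (nat_lit 0) (nat_lit 1249996327) (nat_lit 152) (nat_lit 5793342356) (nat_lit 76) (nat_lit 22416521155) (nat_lit 15) (nat_lit 5) (nat_lit 17) (nat_lit 5) (nat_lit 16) (nat_lit 4) (nat_lit 409) (nat_lit 263) (nat_lit 228))))) (XT.nd (nat_lit 234) (nat_lit 76) (nat_lit 0) (XT.nd (nat_lit 78) (nat_lit 0) (nat_lit 0) (XT.lf (nat_lit 0) (nat_lit 2892131913) (nat_lit 76) (nat_lit 2702321157) (nat_lit 152) (nat_lit 24608069963) (nat_lit 14) (nat_lit 5) (nat_lit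 15) (nat_lit 5) (nat_lit 16) (nat_lit 4) (nat_lit 410) (nat_lit 263) (nat_lit 227)) (XT.nd (nat_lit 78) (nat_lit 0) (nat_lit 0) (XT.lf (nat_lit 0) (nat_lit 10087906304) (nat_lit 152) (nat_lit 19135260860) (nat_lit 0) (nat_lit 1743746651) (nat_lit 14) (nat_lit 5) (nat_lit 16) (nat_lit 4) (nat_lit 14) (nat_lit 4) (nat_lit 411) (nat_lit 263) (nat_lit 226)) (XT.lf (nat_lit 0) (nat_lit 14687169429) (nat_lit 152) (nat_lit 10847355451) (nat_lit 0) (nat_lit 6220588604) (nat_lit 14) (nat_lit 5) (nat_lit 16) (nat_lit 4) (nat_lit 14) (nat_lit 4) (nat_lit 412) (nat_lit 263) (nat_lit 225)))) (XT.nd (nat_lit 156) (nat_lit 0) (nat_lit 0) (XT.nd (nat_lit 78) (nat_lit 76) (nat_lit 0) (XT.lf (nat_lit 0) (nat_lit 19370284856) (nat_lit 152) (nat_lit 2413456672) (nat_lit 0) (nat_lit 10784848524) (nat_lit 14) (nat_lit 5) (nat_lit 16) (nat_lit 4) (nat_lit 14) (nat_lit 4) (nat_lit 413) (nat_lit 263) (nat_lit 224)) (XT.lf (nat_lit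 0) (nat_lit 6296675726) (nat_lit 76) (nat_lit 17905196399) (nat_lit 76) (nat_lit 9204366371) (nat_lit 13) (nat_lit 4) (nat_lit 14) (nat_lit 5) (nat_lit 14) (nat_lit 4) (nat_lit 414) (nat_lit 263) (nat_lit 223))) (XT.nd (nat_lit 78) (nat_lit 0) (nat_lit 0) (XT.lf (nat_lit 0) (nat_lit 15218908428) (nat_lit 76) (nat_lit 13931902657) (nat_lit 76) (nat_lit 5119039916) (nat_lit 13) (nat_lit 4) (nat_lit 14) (nat_lit 5) (nat_lit 14) (nat_lit 4) (nat_lit 415) (nat_lit 263) (nat_lit 222)) (XT.lf (nat_lit 0) (nat_lit 24313005038) (nat_lit 76) (nat_lit 9884759675) (nat_lit 76) (nat_lit 963127307) (nat_lit 13) (nat_lit 4) (nat_lit 14) (nat_lit 5) (nat_lit 14) (nat_lit 4) (nat_lit 416) (nat_lit 263) (nat_lit 221))))))))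
noncomputable def xc28 : XT := (XT.nd (nat_lit 2028) (nat_lit 0) (nat_lit 0) (XT.nd (nat_lit 1014) (nat_lit 228) (nat_lit 0) (XT.nd (nat_lit 468) (nat_lit 152) (nat_lit 0) (XT.nd (nat_lit 234) (nat_lit 76) (nat_lit 0) (XT.nd (nat_lit 78) (nat_lit 76) (nat_lit 0) (XT.lf (nat_lit 0) (nat_lit 3203251840) (nat_lit 152) (nat_lit 2524632708) (nat_lit 76) (nat_lit 30351313451) (nat_lit 12) (nat_lit 5) (nat_lit 14) (nat_lit 5) (nat_lit 13) (nat_lit 4) (nat_lit 417) (nat_lit 263) (nat_lit 220)) (XT.nd (nat_lit 78) (nat_lit 0) (nat_lit 0) (XT.lf (nat_lit 0) (nat_lit 6065885006) (nat_lit 76) (nat_lit 1419654282) (nat_lit 152) (nat_lit 29538925528) (nat_lit 11) (nat_lit 5) (nat_lit 12) (nat_lit 5) (nat_lit 13) (nat_lit 4) (nat_lit 418) (nat_lit 263) (nat_lit 219)) (XT.lf (nat_lit 0) (nat_lit 11903134898) (nat_lit 152) (nat_lit 23152105281) (nat_lit 0) (nat_lit 2942650077) (nat_lit 11) (nat_lit 5) (nat_lit 13) (nat_lit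 4) (nat_lit 11) (nat_lit 4) (nat_lit 419) (nat_lit 263) (nat_lit 218)))) (XT.nd (nat_lit 78) (nat_lit 76) (nat_lit 0) (XT.lf (nat_lit 0) (nat_lit 16420794090) (nat_lit 152) (nat_lit 15214220298) (nat_lit 0) (nat_lit 7366483635) (nat_lit 11) (nat_lit 5) (nat_lit 13) (nat_lit 4) (nat_lit 11) (nat_lit 4) (nat_lit 420) (nat_lit 263) (nat_lit 217)) (XT.nd (nat_lit 78) (nat_lit 76) (nat_lit 0) (XT.lf (nat_lit 0) (nat_lit 21028817749) (nat_lit 152) (nat_lit 7124342261) (nat_lit 0) (nat_lit 11883414445) (nat_lit 11) (nat_lit 5) (nat_lit 13) (nat_lit 4) (nat_lit 11) (nat_lit 4) (nat_lit 421) (nat_lit 263) (nat_lit 216)) (XT.lf (nat_lit 0) (nat_lit 1146979354) (nat_lit 76) (nat_lit 24595278416) (nat_lit 76) (nat_lit 15361435452) (nat_lit 10) (nat_lit 4) (nat_lit 11) (nat_lit 5) (nat_lit 11) (nat_lit 4) (nat_lit 422) (nat_lit 263) (nat_lit 215))))) (XT.nd (nat_lit 234) (nat_lit 152) (nat_lit 0) (XT.nd (nat_lit 78)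 (nat_lit 0) (nat_lit 0) (XT.lf (nat_lit 0) (nat_lit 9729668135) (nat_lit 76) (nat_lit 20896006045) (nat_lit 76) (nat_lit 11576299334) (nat_lit 10) (nat_lit 4) (nat_lit 11) (nat_lit 5) (nat_lit 11) (nat_lit 4) (nat_lit 423) (nat_lit 263) (nat_lit 214)) (XT.nd (nat_lit 78) (nat_lit 0) (nat_lit 0) (XT.lf (nat_lit 0) (nat_lit 18489435137) (nat_lit 76) (nat_lit 17124052412) (nat_lit 76) (nat_lit 7720982840) (nat_lit 10) (nat_lit 4) (nat_lit 11) (nat_lit 5) (nat_lit 11) (nat_lit 4) (nat_lit 424) (nat_lit 263) (nat_lit 213)) (XT.lf (nat_lit 0) (nat_lit 27433934526) (nat_lit 76) (nat_lit 13276121634) (nat_lit 76) (nat_lit 3792117246) (nat_lit 10) (nat_lit 4) (nat_lit 11) (nat_lit 5) (nat_lit 11) (nat_lit 4) (nat_lit 425) (nat_lit 263) (nat_lit 212)))) (XT.nd (nat_lit 156) (nat_lit 76) (nat_lit 0) (XT.nd (nat_lit 78) (nat_lit 0) (nat_lit 0) (XT.lf (nat_lit 0) (nat_lit 209559785) (nat_lit 152) (nat_lit 9137175514)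 (nat_lit 76) (nat_lit 36359305955) (nat_lit 9) (nat_lit 5) (nat_lit 11) (nat_lit 5) (nat_lit 10) (nat_lit 4) (nat_lit 426) (nat_lit 263) (nat_lit 211)) (XT.lf (nat_lit 0) (nat_lit 4216150796) (nat_lit 152) (nat_lit 1080084590) (nat_lit 76) (nat_lit 41649835386) (nat_lit 9) (nat_lit 5) (nat_lit 11) (nat_lit 5) (nat_lit 10) (nat_lit 4) (nat_lit 427) (nat_lit 263) (nat_lit 210))) (XT.nd (nat_lit 78) (nat_lit 0) (nat_lit 0) (XT.lf (nat_lit 0) (nat_lit 7288756102) (nat_lit 76) (nat_lit 1086462435) (nat_lit 152) (nat_lit 39847118587) (nat_lit 8) (nat_lit 5) (nat_lit 9) (nat_lit 5) (nat_lit 10) (nat_lit 4) (nat_lit 428) (nat_lit 263) (nat_lit 209)) (XT.lf (nat_lit 0) (nat_lit 12663610688) (nat_lit 152) (nat_lit 33709389233) (nat_lit 0) (nat_lit 3163759168) (nat_lit 8) (nat_lit 5) (nat_lit 10) (nat_lit 4) (nat_lit 8) (nat_lit 4) (nat_lit 429) (nat_lit 263) (nat_lit 208)))))) (XT.nd (nat_lit 468) (nat_lit 152)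 (nat_lit 0) (XT.nd (nat_lit 234) (nat_lit 76) (nat_lit 0) (XT.nd (nat_lit 78) (nat_lit 0) (nat_lit 0) (XT.lf (nat_lit 0) (nat_lit 17054810176) (nat_lit 152) (nat_lit 26349405920) (nat_lit 0) (nat_lit 7487177021) (nat_lit 8) (nat_lit 5) (nat_lit 10) (nat_lit 4) (nat_lit 8) (nat_lit 4) (nat_lit 430) (nat_lit 263) (nat_lit 207)) (XT.nd (nat_lit 78) (nat_lit 0) (nat_lit 0) (XT.lf (nat_lit 0) (nat_lit 21542210229) (nat_lit 152) (nat_lit 18836756290) (nat_lit 0) (nat_lit 11908769663) (nat_lit 8) (nat_lit 5) (nat_lit 10) (nat_lit 4) (nat_lit 8) (nat_lit 4) (nat_lit 431) (nat_lit 263) (nat_lit 206)) (XT.lf (nat_lit 0) (nat_lit 26129731878) (nat_lit 152) (nat_lit 11164875892) (nat_lit 0) (nat_lit 16432400620) (nat_lit 8) (nat_lit 5) (nat_lit 10) (nat_lit 4) (nat_lit 8) (nat_lit 4) (nat_lit 432) (nat_lit 263) (nat_lit 205)))) (XT.nd (nat_lit 78) (nat_lit 76) (nat_lit 0) (XT.lf (nat_lit 0) (nat_lit 30821383635) (nat_lit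 152) (nat_lit 3327061140) (nat_lit 0) (nat_lit 21062022580) (nat_lit 8) (nat_lit 5) (nat_lit 10) (nat_lit 4) (nat_lit 8) (nat_lit 4) (nat_lit 433) (nat_lit 263) (nat_lit 204)) (XT.nd (nat_lit 78) (nat_lit 0) (nat_lit 0) (XT.lf (nat_lit 0) (nat_lit 4776748102) (nat_lit 76) (nat_lit 30890433926) (nat_lit 76) (nat_lit 21070849766) (nat_lit 7) (nat_lit 4) (nat_lit 8) (nat_lit 5) (nat_lit 8) (nat_lit 4) (nat_lit 434) (nat_lit 263) (nat_lit 203)) (XT.lf (nat_lit 0) (nat_lit 13130132889) (nat_lit 76) (nat_lit 27529652034) (nat_lit 76) (nat_lit 17651598840) (nat_lit 7) (nat_lit 4) (nat_lit 8) (nat_lit 5) (nat_lit 8) (nat_lit 4) (nat_lit 435) (nat_lit 263) (nat_lit 202))))) (XT.nd (nat_lit 234) (nat_lit 152) (nat_lit 0) (XT.nd (nat_lit 78) (nat_lit 0) (nat_lit 0) (XT.lf (nat_lit 0) (nat_lit 21674177255) (nat_lit 76) (nat_lit 24096759286) (nat_lit 76) (nat_lit 14161940040) (nat_lit 7) (nat_lit 4) (nat_lit 8) (nat_lit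 5) (nat_lit 8) (nat_lit 4) (nat_lit 436) (nat_lit 263) (nat_lit 201)) (XT.nd (nat_lit 78) (nat_lit 0) (nat_lit 0) (XT.lf (nat_lit 0) (nat_lit 30416346870) (nat_lit 76) (nat_lit 20588756067) (nat_lit 76) (nat_lit 10598824150) (nat_lit 7) (nat_lit 4) (nat_lit 8) (nat_lit 5) (nat_lit 8) (nat_lit 4) (nat_lit 437) (nat_lit 263) (nat_lit 200)) (XT.lf (nat_lit 0) (nat_lit 39364280522) (nat_lit 76) (nat_lit 17002577133) (nat_lit 76) (nat_lit 6959137768) (nat_lit 7) (nat_lit 4) (nat_lit 8) (nat_lit 5) (nat_lit 8) (nat_lit 4) (nat_lit 438) (nat_lit 263) (nat_lit 199)))) (XT.nd (nat_lit 156) (nat_lit 76) (nat_lit 0) (XT.nd (nat_lit 78) (nat_lit 76) (nat_lit 0) (XT.lf (nat_lit 0) (nat_lit 48525796795) (nat_lit 76) (nat_lit 13335088929) (nat_lit 76) (nat_lit 3239700584) (nat_lit 7) (nat_lit 4) (nat_lit 8) (nat_lit 5) (nat_lit 8) (nat_lit 4) (nat_lit 439) (nat_lit 263) (nat_lit 198)) (XT.lf (nat_lit 0) (nat_lit 551756359)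 (nat_lit 152) (nat_lit 9025758836) (nat_lit 76) (nat_lit 57351572879) (nat_lit 6) (nat_lit 5) (nat_lit 8) (nat_lit 5) (nat_lit 7) (nat_lit 4) (nat_lit 440) (nat_lit 263) (nat_lit 197))) (XT.nd (nat_lit 78) (nat_lit 76) (nat_lit 0) (XT.lf (nat_lit 0) (nat_lit 4364633911) (nat_lit 152) (nat_lit 1334584302) (nat_lit 76) (nat_lit 63113083500) (nat_lit 6) (nat_lit 5) (nat_lit 8) (nat_lit 5) (nat_lit 7) (nat_lit 4) (nat_lit 441) (nat_lit 263) (nat_lit 196)) (XT.lf (nat_lit 0) (nat_lit 6666687604) (nat_lit 76) (nat_lit 1662878612) (nat_lit 152) (nat_lit 62421318263) (nat_lit 5) (nat_lit 5) (nat_lit 6) (nat_lit 5) (nat_lit 7) (nat_lit 4) (nat_lit 442) (nat_lit 263) (nat_lit 195))))))) (XT.nd (nat_lit 41808) (nat_lit 0) (nat_lit 1672) (XT.nd (nat_lit 468) (nat_lit 0) (nat_lit 0) (XT.nd (nat_lit 234) (nat_lit 0) (nat_lit 0) (XT.nd (nat_lit 78) (nat_lit 0) (nat_lit 0) (XT.lf (nat_lit 0) (nat_lit 12424674760) (nat_lit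 152) (nat_lit 57886764171) (nat_lit 0) (nat_lit 2435851642) (nat_lit 5) (nat_lit 5) (nat_lit 7) (nat_lit 4) (nat_lit 5) (nat_lit 4) (nat_lit 443) (nat_lit 263) (nat_lit 194)) (XT.nd (nat_lit 78) (nat_lit 0) (nat_lit 0) (XT.lf (nat_lit 0) (nat_lit 16633507500) (nat_lit 152) (nat_lit 51569179905) (nat_lit 0) (nat_lit 6601177930) (nat_lit 5) (nat_lit 5) (nat_lit 7) (nat_lit 4) (nat_lit 5) (nat_lit 4) (nat_lit 444) (nat_lit 263) (nat_lit 193)) (XT.lf (nat_lit 0) (nat_lit 20943757450) (nat_lit 152) (nat_lit 45109939252) (nat_lit 0) (nat_lit 10869188607) (nat_lit 5) (nat_lit 5) (nat_lit 7) (nat_lit 4) (nat_lit 5) (nat_lit 4) (nat_lit 445) (nat_lit 263) (nat_lit 192)))) (XT.nd (nat_lit 78) (nat_lit 0) (nat_lit 0) (XT.lf (nat_lit 0) (nat_lit 25359190849) (nat_lit 152) (nat_lit 38503398217) (nat_lit 0) (nat_lit 15243613002) (nat_lit 5) (nat_lit 5) (nat_lit 7) (nat_lit 4) (nat_lit 5) (nat_lit 4) (nat_lit 446) (nat_lit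 263) (nat_lit 191)) (XT.nd (nat_lit 78) (nat_lit 0) (nat_lit 0) (XT.lf (nat_lit 0) (nat_lit 29883665842) (nat_lit 152) (nat_lit 31743784093) (nat_lit 0) (nat_lit 19728273428) (nat_lit 5) (nat_lit 5) (nat_lit 7) (nat_lit 4) (nat_lit 5) (nat_lit 4) (nat_lit 447) (nat_lit 263) (nat_lit 190)) (XT.lf (nat_lit 0) (nat_lit 34521135854) (nat_lit 152) (nat_lit 24825190421) (nat_lit 0) (nat_lit 24327088521) (nat_lit 5) (nat_lit 5) (nat_lit 7) (nat_lit 4) (nat_lit 5) (nat_lit 4) (nat_lit 448) (nat_lit 263) (nat_lit 189))))) (XT.nd (nat_lit 41028) (nat_lit 0) (nat_lit 2736) (XT.nd (nat_lit 40872) (nat_lit 0) (nat_lit 3268) (XT.lf (nat_lit 0) (nat_lit 39275653044) (nat_lit 152) (nat_lit 17741571829) (nat_lit 0) (nat_lit 29044076663) (nat_lit 5) (nat_lit 5) (nat_lit 7) (nat_lit 4) (nat_lit 5) (nat_lit 4) (nat_lit 449) (nat_lit 263) (nat_lit 188)) (XT.nd (nat_lit 78) (nat_lit 228) (nat_lit 0) (XT.lf (nat_lit 0) (nat_lit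 6087933494) (nat_lit 152) (nat_lit 275011976) (nat_lit 152) (nat_lit 275011976) (nat_lit 51) (nat_lit 4) (nat_lit 53) (nat_lit 5) (nat_lit 53) (nat_lit 4) (nat_lit 372) (nat_lit 264) (nat_lit 264)) (XT.lf (nat_lit 0) (nat_lit 4244741696) (nat_lit 228) (nat_lit 5515348224) (nat_lit 0) (nat_lit 3753600805) (nat_lit 48) (nat_lit 5) (nat_lit 51) (nat_lit 4) (nat_lit 48) (nat_lit 4) (nat_lit 373) (nat_lit 264) (nat_lit 263)))) (XT.nd (nat_lit 156) (nat_lit 304) (nat_lit 0) (XT.nd (nat_lit 78) (nat_lit 76) (nat_lit 0) (XT.lf (nat_lit 0) (nat_lit 3511722489) (nat_lit 152) (nat_lit 5608146064) (nat_lit 152) (nat_lit 4640169357) (nat_lit 46) (nat_lit 4) (nat_lit 48) (nat_lit 5) (nat_lit 48) (nat_lit 4) (nat_lit 374) (nat_lit 264) (nat_lit 262)) (XT.lf (nat_lit 0) (nat_lit 78635725) (nat_lit 228) (nat_lit 1271293579) (nat_lit 76) (nat_lit 12665226958) (nat_lit 45) (nat_lit 5) (nat_lit 48) (nat_lit 5) (nat_lit 46)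 (nat_lit 4) (nat_lit 375) (nat_lit 264) (nat_lit 261))) (XT.nd (nat_lit 78) (nat_lit 152) (nat_lit 0) (XT.lf (nat_lit 0) (nat_lit 4851825139) (nat_lit 228) (nat_lit 6398362361) (nat_lit 0) (nat_lit 3026206119) (nat_lit 43) (nat_lit 5) (nat_lit 46) (nat_lit 4) (nat_lit 43) (nat_lit 4) (nat_lit 376) (nat_lit 264) (nat_lit 260)) (XT.lf (nat_lit 0) (nat_lit 2645569244) (nat_lit 152) (nat_lit 7075312808) (nat_lit 152) (nat_lit 4826031341) (nat_lit 41) (nat_lit 4) (nat_lit 43) (nat_lit 5) (nat_lit 43) (nat_lit 4) (nat_lit 377) (nat_lit 264) (nat_lit 259)))))) (XT.nd (nat_lit 546) (nat_lit 456) (nat_lit 0) (XT.nd (nat_lit 234) (nat_lit 304) (nat_lit 0) (XT.nd (nat_lit 78) (nat_lit 304) (nat_lit 0) (XT.lf (nat_lit 0) (nat_lit 11918322582) (nat_lit 152) (nat_lit 2784426482) (nat_lit 152) (nat_lit 123822251) (nat_lit 41) (nat_lit 4) (nat_lit 43) (nat_lit 5) (nat_lit 43) (nat_lit 4) (nat_lit 378) (nat_lit 264) (nat_lit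 258)) (XT.nd (nat_lit 78) (nat_lit 152) (nat_lit 0) (XT.lf (nat_lit 0) (nat_lit 4607604005) (nat_lit 152) (nat_lit 8869487992) (nat_lit 0) (nat_lit 1636781946) (nat_lit 39) (nat_lit 5) (nat_lit 41) (nat_lit 4) (nat_lit 39) (nat_lit 4) (nat_lit 379) (nat_lit 264) (nat_lit 257)) (XT.lf (nat_lit 0) (nat_lit 124632642) (nat_lit 152) (nat_lit 9316751255) (nat_lit 152) (nat_lit 5969510600) (nat_lit 37) (nat_lit 4) (nat_lit 39) (nat_lit 5) (nat_lit 39) (nat_lit 4) (nat_lit 380) (nat_lit 264) (nat_lit 256)))) (XT.nd (nat_lit 156) (nat_lit 152) (nat_lit 0) (XT.nd (nat_lit 78) (nat_lit 152) (nat_lit 0) (XT.lf (nat_lit 0) (nat_lit 9401053946) (nat_lit 152) (nat_lit 5014316736) (nat_lit 152) (nat_lit 1301621133) (nat_lit 37) (nat_lit 4) (nat_lit 39) (nat_lit 5) (nat_lit 39) (nat_lit 4) (nat_lit 381) (nat_lit 264) (nat_lit 255)) (XT.lf (nat_lit 0) (nat_lit 2777725325) (nat_lit 76) (nat_lit 594309924) (nat_lit 152)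 (nat_lit 12661221826) (nat_lit 35) (nat_lit 5) (nat_lit 36) (nat_lit 5) (nat_lit 37) (nat_lit 4) (nat_lit 382) (nat_lit 264) (nat_lit 254))) (XT.nd (nat_lit 78) (nat_lit 152) (nat_lit 0) (XT.lf (nat_lit 0) (nat_lit 8170058707) (nat_lit 152) (nat_lit 4301695015) (nat_lit 0) (nat_lit 3886580482) (nat_lit 35) (nat_lit 5) (nat_lit 37) (nat_lit 4) (nat_lit 35) (nat_lit 4) (nat_lit 383) (nat_lit 264) (nat_lit 253)) (XT.lf (nat_lit 0) (nat_lit 4847623821) (nat_lit 152) (nat_lit 8227424391) (nat_lit 152) (nat_lit 3619244178) (nat_lit 33) (nat_lit 4) (nat_lit 35) (nat_lit 5) (nat_lit 35) (nat_lit 4) (nat_lit 384) (nat_lit 264) (nat_lit 252))))) (XT.nd (nat_lit 234) (nat_lit 304) (nat_lit 0) (XT.nd (nat_lit 78) (nat_lit 76) (nat_lit 0) (XT.lf (nat_lit 0) (nat_lit 1020232427) (nat_lit 228) (nat_lit 2852353034) (nat_lit 76) (nat_lit 13168811333) (nat_lit 32) (nat_lit 5) (nat_lit 35) (nat_lit 5) (nat_lit 33) (nat_lit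 4) (nat_lit 385) (nat_lit 264) (nat_lit 251)) (XT.nd (nat_lit 78) (nat_lit 0) (nat_lit 0) (XT.lf (nat_lit 0) (nat_lit 5706602561) (nat_lit 152) (nat_lit 11062410916) (nat_lit 0) (nat_lit 629430107) (nat_lit 31) (nat_lit 5) (nat_lit 33) (nat_lit 4) (nat_lit 31) (nat_lit 4) (nat_lit 386) (nat_lit 264) (nat_lit 250)) (XT.lf (nat_lit 0) (nat_lit 10514662358) (nat_lit 152) (nat_lit 2103127398) (nat_lit 0) (nat_lit 5148996394) (nat_lit 31) (nat_lit 5) (nat_lit 33) (nat_lit 4) (nat_lit 31) (nat_lit 4) (nat_lit 387) (nat_lit 264) (nat_lit 249)))) (XT.nd (nat_lit 156) (nat_lit 76) (nat_lit 0) (XT.nd (nat_lit 78) (nat_lit 76) (nat_lit 0) (XT.lf (nat_lit 0) (nat_lit 7110578409) (nat_lit 152) (nat_lit 8340919077) (nat_lit 152) (nat_lit 2695162325) (nat_lit 29) (nat_lit 4) (nat_lit 31) (nat_lit 5) (nat_lit 31) (nat_lit 4) (nat_lit 388) (nat_lit 264) (nat_lit 248)) (XT.lf (nat_lit 0) (nat_lit 1897287727) (nat_lit 228)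 (nat_lit 2066195468) (nat_lit 76) (nat_lit 14575752686) (nat_lit 28) (nat_lit 5) (nat_lit 31) (nat_lit 5) (nat_lit 29) (nat_lit 4) (nat_lit 389) (nat_lit 264) (nat_lit 247))) (XT.nd (nat_lit 78) (nat_lit 0) (nat_lit 0) (XT.lf (nat_lit 0) (nat_lit 6566244248) (nat_lit 152) (nat_lit 11812180909) (nat_lit 0) (nat_lit 564591836) (nat_lit 27) (nat_lit 5) (nat_lit 29) (nat_lit 4) (nat_lit 27) (nat_lit 4) (nat_lit 390) (nat_lit 264) (nat_lit 246)) (XT.lf (nat_lit 0) (nat_lit 11354654669) (nat_lit 152) (nat_lit 2900745045) (nat_lit 0) (nat_lit 5104145219) (nat_lit 27) (nat_lit 5) (nat_lit 29) (nat_lit 4) (nat_lit 27) (nat_lit 4) (nat_lit 391) (nat_lit 264) (nat_lit 245))))))))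
noncomputable def xc29 : XT := (XT.nd (nat_lit 2028) (nat_lit 532) (nat_lit 0) (XT.nd (nat_lit 1014) (nat_lit 380) (nat_lit 0) (XT.nd (nat_lit 468) (nat_lit 380) (nat_lit 0) (XT.nd (nat_lit 234) (nat_lit 76) (nat_lit 0) (XT.nd (nat_lit 78) (nat_lit 152) (nat_lit 0) (XT.lf (nat_lit 0) (nat_lit 6255297256) (nat_lit 152) (nat_lit 10012978716) (nat_lit 152) (nat_lit 3520860494) (nat_lit 25) (nat_lit 4) (nat_lit 27) (nat_lit 5) (nat_lit 27) (nat_lit 4) (nat_lit 392) (nat_lit 264) (nat_lit 244)) (XT.nd (nat_lit 78) (nat_lit 76) (nat_lit 0) (XT.lf (nat_lit 0) (nat_lit 1027408448) (nat_lit 228) (nat_lit 4641050696) (nat_lit 76) (nat_lit 14564319587) (nat_lit 24) (nat_lit 5) (nat_lit 27) (nat_lit 5) (nat_lit 25) (nat_lit 4) (nat_lit 393) (nat_lit 264) (nat_lit 243)) (XT.lf (nat_lit 0) (nat_lit 4429360980) (nat_lit 76) (nat_lit 1178417477) (nat_lit 152) (nat_lit 15081926724) (nat_lit 23) (nat_lit 5) (nat_lit 24)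 (nat_lit 5) (nat_lit 25) (nat_lit 4) (nat_lit 394) (nat_lit 264) (nat_lit 242)))) (XT.nd (nat_lit 78) (nat_lit 76) (nat_lit 0) (XT.lf (nat_lit 0) (nat_lit 10330121119) (nat_lit 152) (nat_lit 7466512595) (nat_lit 0) (nat_lit 3363581758) (nat_lit 23) (nat_lit 5) (nat_lit 25) (nat_lit 4) (nat_lit 23) (nat_lit 4) (nat_lit 395) (nat_lit 264) (nat_lit 241)) (XT.nd (nat_lit 78) (nat_lit 0) (nat_lit 0) (XT.lf (nat_lit 0) (nat_lit 1471274451) (nat_lit 76) (nat_lit 13674984306) (nat_lit 76) (nat_lit 6500031094) (nat_lit 22) (nat_lit 4) (nat_lit 23) (nat_lit 5) (nat_lit 23) (nat_lit 4) (nat_lit 396) (nat_lit 264) (nat_lit 240)) (XT.lf (nat_lit 0) (nat_lit 10694691600) (nat_lit 76) (nat_lit 9414743566) (nat_lit 76) (nat_lit 2037446810) (nat_lit 22) (nat_lit 4) (nat_lit 23) (nat_lit 5) (nat_lit 23) (nat_lit 4) (nat_lit 397) (nat_lit 264) (nat_lit 239))))) (XT.nd (nat_lit 234) (nat_lit 228) (nat_lit 0) (XT.nd (nat_lit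 78) (nat_lit 76) (nat_lit 0) (XT.lf (nat_lit 0) (nat_lit 2437646756) (nat_lit 152) (nat_lit 2625323882) (nat_lit 76) (nat_lit 17600937698) (nat_lit 21) (nat_lit 5) (nat_lit 23) (nat_lit 5) (nat_lit 22) (nat_lit 4) (nat_lit 398) (nat_lit 264) (nat_lit 238)) (XT.nd (nat_lit 78) (nat_lit 0) (nat_lit 0) (XT.lf (nat_lit 0) (nat_lit 6442727299) (nat_lit 76) (nat_lit 555894520) (nat_lit 152) (nat_lit 16197452229) (nat_lit 20) (nat_lit 5) (nat_lit 21) (nat_lit 5) (nat_lit 22) (nat_lit 4) (nat_lit 399) (nat_lit 264) (nat_lit 237)) (XT.lf (nat_lit 0) (nat_lit 11693348131) (nat_lit 152) (nat_lit 8075716467) (nat_lit 0) (nat_lit 3975243274) (nat_lit 20) (nat_lit 5) (nat_lit 22) (nat_lit 4) (nat_lit 20) (nat_lit 4) (nat_lit 400) (nat_lit 264) (nat_lit 236)))) (XT.nd (nat_lit 156) (nat_lit 152) (nat_lit 0) (XT.nd (nat_lit 78) (nat_lit 0) (nat_lit 0) (XT.lf (nat_lit 0) (nat_lit 745657994) (nat_lit 76) (nat_lit 15728811390)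 (nat_lit 76) (nat_lit 7836163215) (nat_lit 19) (nat_lit 4) (nat_lit 20) (nat_lit 5) (nat_lit 20) (nat_lit 4) (nat_lit 401) (nat_lit 264) (nat_lit 235)) (XT.lf (nat_lit 0) (nat_lit 9872818342) (nat_lit 76) (nat_lit 11541395464) (nat_lit 76) (nat_lit 3479287756) (nat_lit 19) (nat_lit 4) (nat_lit 20) (nat_lit 5) (nat_lit 20) (nat_lit 4) (nat_lit 402) (nat_lit 264) (nat_lit 234))) (XT.nd (nat_lit 78) (nat_lit 76) (nat_lit 0) (XT.lf (nat_lit 0) (nat_lit 923544368) (nat_lit 152) (nat_lit 6351836458) (nat_lit 76) (nat_lit 18220146817) (nat_lit 18) (nat_lit 5) (nat_lit 20) (nat_lit 5) (nat_lit 19) (nat_lit 4) (nat_lit 403) (nat_lit 264) (nat_lit 233)) (XT.lf (nat_lit 0) (nat_lit 2472346428) (nat_lit 76) (nat_lit 2876771707) (nat_lit 152) (nat_lit 20766654627) (nat_lit 17) (nat_lit 5) (nat_lit 18) (nat_lit 5) (nat_lit 19) (nat_lit 4) (nat_lit 404) (nat_lit 264) (nat_lit 232)))))) (XT.nd (nat_lit 468) (nat_lit 228)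 (nat_lit 0) (XT.nd (nat_lit 234) (nat_lit 76) (nat_lit 0) (XT.nd (nat_lit 78) (nat_lit 76) (nat_lit 0) (XT.lf (nat_lit 0) (nat_lit 9925138073) (nat_lit 152) (nat_lit 15196490743) (nat_lit 0) (nat_lit 1632475096) (nat_lit 17) (nat_lit 5) (nat_lit 19) (nat_lit 4) (nat_lit 17) (nat_lit 4) (nat_lit 405) (nat_lit 264) (nat_lit 231)) (XT.nd (nat_lit 78) (nat_lit 76) (nat_lit 0) (XT.lf (nat_lit 0) (nat_lit 14605761792) (nat_lit 152) (nat_lit 6639890754) (nat_lit 0) (nat_lit 6166921534) (nat_lit 17) (nat_lit 5) (nat_lit 19) (nat_lit 4) (nat_lit 17) (nat_lit 4) (nat_lit 406) (nat_lit 264) (nat_lit 230)) (XT.lf (nat_lit 0) (nat_lit 2102531526) (nat_lit 76) (nat_lit 17285105164) (nat_lit 76) (nat_lit 8704345215) (nat_lit 16) (nat_lit 4) (nat_lit 17) (nat_lit 5) (nat_lit 17) (nat_lit 4) (nat_lit 407) (nat_lit 264) (nat_lit 229)))) (XT.nd (nat_lit 78) (nat_lit 76) (nat_lit 0) (XT.lf (nat_lit 0) (nat_lit 11132531149)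 (nat_lit 76) (nat_lit 13188772536) (nat_lit 76) (nat_lit 4470226480) (nat_lit 16) (nat_lit 4) (nat_lit 17) (nat_lit 5) (nat_lit 17) (nat_lit 4) (nat_lit 408) (nat_lit 264) (nat_lit 228)) (XT.nd (nat_lit 78) (nat_lit 76) (nat_lit 0) (XT.lf (nat_lit 0) (nat_lit 20325851559) (nat_lit 76) (nat_lit 9020125221) (nat_lit 76) (nat_lit 167806245) (nat_lit 16) (nat_lit 4) (nat_lit 17) (nat_lit 5) (nat_lit 17) (nat_lit 4) (nat_lit 409) (nat_lit 264) (nat_lit 227)) (XT.lf (nat_lit 0) (nat_lit 4124587506) (nat_lit 152) (nat_lit 609282959) (nat_lit 76) (nat_lit 25524288003) (nat_lit 15) (nat_lit 5) (nat_lit 17) (nat_lit 5) (nat_lit 16) (nat_lit 4) (nat_lit 410) (nat_lit 264) (nat_lit 226))))) (XT.nd (nat_lit 234) (nat_lit 152) (nat_lit 0) (XT.nd (nat_lit 78) (nat_lit 0) (nat_lit 0) (XT.lf (nat_lit 0) (nat_lit 8284227503) (nat_lit 76) (nat_lit 283514815) (nat_lit 152) (nat_lit 22456319507) (nat_lit 14) (nat_lit 5) (nat_lit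 15) (nat_lit 5) (nat_lit 16) (nat_lit 4) (nat_lit 411) (nat_lit 264) (nat_lit 225)) (XT.nd (nat_lit 78) (nat_lit 0) (nat_lit 0) (XT.lf (nat_lit 0) (nat_lit 13137617272) (nat_lit 152) (nat_lit 14499767041) (nat_lit 0) (nat_lit 4175762344) (nat_lit 14) (nat_lit 5) (nat_lit 16) (nat_lit 4) (nat_lit 14) (nat_lit 4) (nat_lit 412) (nat_lit 264) (nat_lit 224)) (XT.lf (nat_lit 0) (nat_lit 17794846433) (nat_lit 152) (nat_lit 6114958984) (nat_lit 0) (nat_lit 8717597809) (nat_lit 14) (nat_lit 5) (nat_lit 16) (nat_lit 4) (nat_lit 14) (nat_lit 4) (nat_lit 413) (nat_lit 264) (nat_lit 223)))) (XT.nd (nat_lit 156) (nat_lit 76) (nat_lit 0) (XT.nd (nat_lit 78) (nat_lit 0) (nat_lit 0) (XT.lf (nat_lit 0) (nat_lit 2472896820) (nat_lit 76) (nat_lit 20091648084) (nat_lit 76) (nat_lit 10902366746) (nat_lit 13) (nat_lit 4) (nat_lit 14) (nat_lit 5) (nat_lit 14) (nat_lit 4) (nat_lit 414) (nat_lit 264) (nat_lit 222)) (XT.lf (nat_lit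 0) (nat_lit 11347935890) (nat_lit 76) (nat_lit 16140694033) (nat_lit 76) (nat_lit 6842643069) (nat_lit 13) (nat_lit 4) (nat_lit 14) (nat_lit 5) (nat_lit 14) (nat_lit 4) (nat_lit 415) (nat_lit 264) (nat_lit 221))) (XT.nd (nat_lit 78) (nat_lit 76) (nat_lit 0) (XT.lf (nat_lit 0) (nat_lit 20396213440) (nat_lit 76) (nat_lit 12115240070) (nat_lit 76) (nat_lit 2711587527) (nat_lit 13) (nat_lit 4) (nat_lit 14) (nat_lit 5) (nat_lit 14) (nat_lit 4) (nat_lit 416) (nat_lit 264) (nat_lit 220)) (XT.lf (nat_lit 0) (nat_lit 1465248226) (nat_lit 152) (nat_lit 6531724447) (nat_lit 76) (nat_lit 28145591372) (nat_lit 12) (nat_lit 5) (nat_lit 14) (nat_lit 5) (nat_lit 13) (nat_lit 4) (nat_lit 417) (nat_lit 264) (nat_lit 219))))))) (XT.nd (nat_lit 1014) (nat_lit 228) (nat_lit 0) (XT.nd (nat_lit 468) (nat_lit 152) (nat_lit 0) (XT.nd (nat_lit 234) (nat_lit 76) (nat_lit 0) (XT.nd (nat_lit 78) (nat_lit 0) (nat_lit 0) (XT.lf (nat_lit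 0) (nat_lit 1934526660) (nat_lit 76) (nat_lit 3750322907) (nat_lit 152) (nat_lit 31404864737) (nat_lit 11) (nat_lit 5) (nat_lit 12) (nat_lit 5) (nat_lit 13) (nat_lit 4) (nat_lit 418) (nat_lit 264) (nat_lit 218)) (XT.nd (nat_lit 78) (nat_lit 0) (nat_lit 0) (XT.lf (nat_lit 0) (nat_lit 10057124976) (nat_lit 152) (nat_lit 27370017578) (nat_lit 0) (nat_lit 637359572) (nat_lit 11) (nat_lit 5) (nat_lit 13) (nat_lit 4) (nat_lit 11) (nat_lit 4) (nat_lit 419) (nat_lit 264) (nat_lit 217)) (XT.lf (nat_lit 0) (nat_lit 14552535247) (nat_lit 152) (nat_lit 19474567814) (nat_lit 0) (nat_lit 5041676995) (nat_lit 11) (nat_lit 5) (nat_lit 13) (nat_lit 4) (nat_lit 11) (nat_lit 4) (nat_lit 420) (nat_lit 264) (nat_lit 216)))) (XT.nd (nat_lit 78) (nat_lit 76) (nat_lit 0) (XT.lf (nat_lit 0) (nat_lit 19138958012) (nat_lit 152) (nat_lit 11425889019) (nat_lit 0) (nat_lit 9539660100) (nat_lit 11) (nat_lit 5) (nat_lit 13) (nat_lit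 4) (nat_lit 11) (nat_lit 4) (nat_lit 421) (nat_lit 264) (nat_lit 215)) (XT.nd (nat_lit 78) (nat_lit 76) (nat_lit 0) (XT.lf (nat_lit 0) (nat_lit 23820400825) (nat_lit 152) (nat_lit 3216948365) (nat_lit 0) (nat_lit 14135239166) (nat_lit 11) (nat_lit 5) (nat_lit 13) (nat_lit 4) (nat_lit 11) (nat_lit 4) (nat_lit 422) (nat_lit 264) (nat_lit 214)) (XT.lf (nat_lit 0) (nat_lit 5262109720) (nat_lit 76) (nat_lit 23389427163) (nat_lit 76) (nat_lit 13620902643) (nat_lit 10) (nat_lit 4) (nat_lit 11) (nat_lit 5) (nat_lit 11) (nat_lit 4) (nat_lit 423) (nat_lit 264) (nat_lit 213))))) (XT.nd (nat_lit 234) (nat_lit 152) (nat_lit 0) (XT.nd (nat_lit 78) (nat_lit 0) (nat_lit 0) (XT.lf (nat_lit 0) (nat_lit 13983423213) (nat_lit 76) (nat_lit 19635789522) (nat_lit 76) (nat_lit 9786330186) (nat_lit 10) (nat_lit 4) (nat_lit 11) (nat_lit 5) (nat_lit 11) (nat_lit 4) (nat_lit 424) (nat_lit 264) (nat_lit 212)) (XT.nd (nat_lit 78) (nat_lit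 0) (nat_lit 0) (XT.lf (nat_lit 0) (nat_lit 22890589099) (nat_lit 76) (nat_lit 15805641261) (nat_lit 76) (nat_lit 5877604433) (nat_lit 10) (nat_lit 4) (nat_lit 11) (nat_lit 5) (nat_lit 11) (nat_lit 4) (nat_lit 425) (nat_lit 264) (nat_lit 211)) (XT.lf (nat_lit 0) (nat_lit 31991390336) (nat_lit 76) (nat_lit 11895635650) (nat_lit 76) (nat_lit 1891309995) (nat_lit 10) (nat_lit 4) (nat_lit 11) (nat_lit 5) (nat_lit 11) (nat_lit 4) (nat_lit 426) (nat_lit 264) (nat_lit 210)))) (XT.nd (nat_lit 156) (nat_lit 0) (nat_lit 0) (XT.nd (nat_lit 78) (nat_lit 76) (nat_lit 0) (XT.lf (nat_lit 0) (nat_lit 2133573994) (nat_lit 152) (nat_lit 5747237269) (nat_lit 76) (nat_lit 39138660174) (nat_lit 9) (nat_lit 5) (nat_lit 11) (nat_lit 5) (nat_lit 10) (nat_lit 4) (nat_lit 427) (nat_lit 264) (nat_lit 209)) (XT.lf (nat_lit 0) (nat_lit 2493503613) (nat_lit 76) (nat_lit 3734972064) (nat_lit 152) (nat_lit 42069189159) (nat_lit 8) (nat_lit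 5) (nat_lit 9) (nat_lit 5) (nat_lit 10) (nat_lit 4) (nat_lit 428) (nat_lit 264) (nat_lit 208))) (XT.nd (nat_lit 78) (nat_lit 0) (nat_lit 0) (XT.lf (nat_lit 0) (nat_lit 10473378448) (nat_lit 152) (nat_lit 38589080377) (nat_lit 0) (nat_lit 550934664) (nat_lit 8) (nat_lit 5) (nat_lit 10) (nat_lit 4) (nat_lit 8) (nat_lit 4) (nat_lit 429) (nat_lit 264) (nat_lit 207)) (XT.lf (nat_lit 0) (nat_lit 14847072803) (nat_lit 152) (nat_lit 31262660208) (nat_lit 0) (nat_lit 4858821607) (nat_lit 8) (nat_lit 5) (nat_lit 10) (nat_lit 4) (nat_lit 8) (nat_lit 4) (nat_lit 430) (nat_lit 264) (nat_lit 206)))))) (XT.nd (nat_lit 546) (nat_lit 152) (nat_lit 0) (XT.nd (nat_lit 234) (nat_lit 76) (nat_lit 0) (XT.nd (nat_lit 78) (nat_lit 0) (nat_lit 0) (XT.lf (nat_lit 0) (nat_lit 19317477582) (nat_lit 152) (nat_lit 23782596155) (nat_lit 0) (nat_lit 9265335695) (nat_lit 8) (nat_lit 5) (nat_lit 10) (nat_lit 4) (nat_lit 8) (nat_lit 4)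 (nat_lit 431) (nat_lit 264) (nat_lit 205)) (XT.nd (nat_lit 78) (nat_lit 0) (nat_lit 0) (XT.lf (nat_lit 0) (nat_lit 23888498965) (nat_lit 152) (nat_lit 16142352238) (nat_lit 0) (nat_lit 13774327280) (nat_lit 8) (nat_lit 5) (nat_lit 10) (nat_lit 4) (nat_lit 8) (nat_lit 4) (nat_lit 432) (nat_lit 264) (nat_lit 204)) (XT.lf (nat_lit 0) (nat_lit 28564131046) (nat_lit 152) (nat_lit 8335252517) (nat_lit 0) (nat_lit 18389736257) (nat_lit 8) (nat_lit 5) (nat_lit 10) (nat_lit 4) (nat_lit 8) (nat_lit 4) (nat_lit 433) (nat_lit 264) (nat_lit 203)))) (XT.nd (nat_lit 156) (nat_lit 0) (nat_lit 0) (XT.nd (nat_lit 78) (nat_lit 76) (nat_lit 0) (XT.lf (nat_lit 0) (nat_lit 33348459331) (nat_lit 152) (nat_lit 354475254) (nat_lit 0) (nat_lit 23115595508) (nat_lit 8) (nat_lit 5) (nat_lit 10) (nat_lit 4) (nat_lit 8) (nat_lit 4) (nat_lit 434) (nat_lit 264) (nat_lit 202)) (XT.lf (nat_lit 0) (nat_lit 7962326718) (nat_lit 76) (nat_lit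 30359876337) (nat_lit 76) (nat_lit 20070246462) (nat_lit 7) (nat_lit 4) (nat_lit 8) (nat_lit 5) (nat_lit 8) (nat_lit 4) (nat_lit 435) (nat_lit 264) (nat_lit 201))) (XT.nd (nat_lit 78) (nat_lit 0) (nat_lit 0) (XT.lf (nat_lit 0) (nat_lit 16477703063) (nat_lit 76) (nat_lit 26940715762) (nat_lit 76) (nat_lit 16595973215) (nat_lit 7) (nat_lit 4) (nat_lit 8) (nat_lit 5) (nat_lit 8) (nat_lit 4) (nat_lit 436) (nat_lit 264) (nat_lit 200)) (XT.lf (nat_lit 0) (nat_lit 25192039648) (nat_lit 76) (nat_lit 23446044751) (nat_lit 76) (nat_lit 13047794756) (nat_lit 7) (nat_lit 4) (nat_lit 8) (nat_lit 5) (nat_lit 8) (nat_lit 4) (nat_lit 437) (nat_lit 264) (nat_lit 199))))) (XT.nd (nat_lit 234) (nat_lit 152) (nat_lit 0) (XT.nd (nat_lit 78) (nat_lit 0) (nat_lit 0) (XT.lf (nat_lit 0) (nat_lit 34112950941) (nat_lit 76) (nat_lit 19872809708) (nat_lit 76) (nat_lit 9422610733) (nat_lit 7) (nat_lit 4) (nat_lit 8) (nat_lit 5) (nat_lit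 8) (nat_lit 4) (nat_lit 438) (nat_lit 264) (nat_lit 198)) (XT.nd (nat_lit 78) (nat_lit 0) (nat_lit 0) (XT.lf (nat_lit 0) (nat_lit 43248231914) (nat_lit 76) (nat_lit 16217888387) (nat_lit 76) (nat_lit 5717253511) (nat_lit 7) (nat_lit 4) (nat_lit 8) (nat_lit 5) (nat_lit 8) (nat_lit 4) (nat_lit 439) (nat_lit 264) (nat_lit 197)) (XT.lf (nat_lit 0) (nat_lit 52605864850) (nat_lit 76) (nat_lit 12478087170) (nat_lit 76) (nat_lit 1928485399) (nat_lit 7) (nat_lit 4) (nat_lit 8) (nat_lit 5) (nat_lit 8) (nat_lit 4) (nat_lit 440) (nat_lit 264) (nat_lit 196)))) (XT.nd (nat_lit 156) (nat_lit 0) (nat_lit 0) (XT.nd (nat_lit 78) (nat_lit 76) (nat_lit 0) (XT.lf (nat_lit 0) (nat_lit 1909011113) (nat_lit 152) (nat_lit 6721849884) (nat_lit 76) (nat_lit 60265737940) (nat_lit 6) (nat_lit 5) (nat_lit 8) (nat_lit 5) (nat_lit 7) (nat_lit 4) (nat_lit 441) (nat_lit 264) (nat_lit 195)) (XT.lf (nat_lit 0) (nat_lit 1147460238) (nat_lit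 76) (nat_lit 4660795268) (nat_lit 152) (nat_lit 65028898162) (nat_lit 5) (nat_lit 5) (nat_lit 6) (nat_lit 5) (nat_lit 7) (nat_lit 4) (nat_lit 442) (nat_lit 264) (nat_lit 194))) (XT.nd (nat_lit 78) (nat_lit 0) (nat_lit 0) (XT.lf (nat_lit 0) (nat_lit 9341872445) (nat_lit 76) (nat_lit 525114023) (nat_lit 152) (nat_lit 62967665908) (nat_lit 5) (nat_lit 5) (nat_lit 6) (nat_lit 5) (nat_lit 7) (nat_lit 4) (nat_lit 443) (nat_lit 264) (nat_lit 193)) (XT.lf (nat_lit 0) (nat_lit 14058531209) (nat_lit 152) (nat_lit 57193729792) (nat_lit 0) (nat_lit 3639486026) (nat_lit 5) (nat_lit 5) (nat_lit 7) (nat_lit 4) (nat_lit 5) (nat_lit 4) (nat_lit 444) (nat_lit 264) (nat_lit 192))))))))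
noncomputable def xc30 : XT := (XT.nd (nat_lit 42666) (nat_lit 0) (nat_lit 608) (XT.nd (nat_lit 41652) (nat_lit 0) (nat_lit 1672) (XT.nd (nat_lit 41106) (nat_lit 0) (nat_lit 2736) (XT.nd (nat_lit 234) (nat_lit 0) (nat_lit 0) (XT.nd (nat_lit 78) (nat_lit 0) (nat_lit 0) (XT.lf (nat_lit 0) (nat_lit 18356897391) (nat_lit 152) (nat_lit 50757384133) (nat_lit 0) (nat_lit 7896843205) (nat_lit 5) (nat_lit 5) (nat_lit 7) (nat_lit 4) (nat_lit 5) (nat_lit 4) (nat_lit 445) (nat_lit 264) (nat_lit 191)) (XT.nd (nat_lit 78) (nat_lit 0) (nat_lit 0) (XT.lf (nat_lit 0) (nat_lit 22760793151) (nat_lit 152) (nat_lit 44173071246) (nat_lit 0) (nat_lit 12260924398) (nat_lit 5) (nat_lit 5) (nat_lit 7) (nat_lit 4) (nat_lit 5) (nat_lit 4) (nat_lit 446) (nat_lit 264) (nat_lit 190)) (XT.lf (nat_lit 0) (nat_lit 27274066553) (nat_lit 152) (nat_lit 37435037849) (nat_lit 0) (nat_lit 16735542880) (nat_lit 5) (nat_lit 5) (nat_lit 7) (nat_lit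 4) (nat_lit 5) (nat_lit 4) (nat_lit 447) (nat_lit 264) (nat_lit 189)))) (XT.nd (nat_lit 78) (nat_lit 0) (nat_lit 0) (XT.lf (nat_lit 0) (nat_lit 31900661233) (nat_lit 152) (nat_lit 30537396340) (nat_lit 0) (nat_lit 21324608513) (nat_lit 5) (nat_lit 5) (nat_lit 7) (nat_lit 4) (nat_lit 5) (nat_lit 4) (nat_lit 448) (nat_lit 264) (nat_lit 188)) (XT.nd (nat_lit 40716) (nat_lit 0) (nat_lit 3648) (XT.lf (nat_lit 0) (nat_lit 36644619848) (nat_lit 152) (nat_lit 23474119653) (nat_lit 0) (nat_lit 26032131159) (nat_lit 5) (nat_lit 5) (nat_lit 7) (nat_lit 4) (nat_lit 5) (nat_lit 4) (nat_lit 449) (nat_lit 264) (nat_lit 187)) (XT.lf (nat_lit 0) (nat_lit 1740224039) (nat_lit 228) (nat_lit 2928455695) (nat_lit 0) (nat_lit 1740224039) (nat_lit 53) (nat_lit 5) (nat_lit 56) (nat_lit 4) (nat_lit 53) (nat_lit 4) (nat_lit 370) (nat_lit 265) (nat_lit 265))))) (XT.nd (nat_lit 234) (nat_lit 532) (nat_lit 0) (XT.nd (nat_lit 78) (nat_lit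 228) (nat_lit 0) (XT.lf (nat_lit 0) (nat_lit 3011345169) (nat_lit 152) (nat_lit 5276640547) (nat_lit 152) (nat_lit 4755589176) (nat_lit 51) (nat_lit 4) (nat_lit 53) (nat_lit 5) (nat_lit 53) (nat_lit 4) (nat_lit 371) (nat_lit 265) (nat_lit 264)) (XT.nd (nat_lit 78) (nat_lit 228) (nat_lit 0) (XT.lf (nat_lit 0) (nat_lit 12088640404) (nat_lit 152) (nat_lit 1107864533) (nat_lit 152) (nat_lit 80938045) (nat_lit 51) (nat_lit 4) (nat_lit 53) (nat_lit 5) (nat_lit 53) (nat_lit 4) (nat_lit 372) (nat_lit 265) (nat_lit 263)) (XT.lf (nat_lit 0) (nat_lit 4647769071) (nat_lit 228) (nat_lit 5695118483) (nat_lit 0) (nat_lit 3173917247) (nat_lit 48) (nat_lit 5) (nat_lit 51) (nat_lit 4) (nat_lit 48) (nat_lit 4) (nat_lit 373) (nat_lit 265) (nat_lit 262)))) (XT.nd (nat_lit 156) (nat_lit 304) (nat_lit 0) (XT.nd (nat_lit 78) (nat_lit 76) (nat_lit 0) (XT.lf (nat_lit 0) (nat_lit 3240685875) (nat_lit 152) (nat_lit 6230416418) (nat_lit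 152) (nat_lit 4293617199) (nat_lit 46) (nat_lit 4) (nat_lit 48) (nat_lit 5) (nat_lit 48) (nat_lit 4) (nat_lit 374) (nat_lit 265) (nat_lit 261)) (XT.lf (nat_lit 0) (nat_lit 369357469) (nat_lit 228) (nat_lit 1636467045) (nat_lit 76) (nat_lit 12015398343) (nat_lit 45) (nat_lit 5) (nat_lit 48) (nat_lit 5) (nat_lit 46) (nat_lit 4) (nat_lit 375) (nat_lit 265) (nat_lit 260))) (XT.nd (nat_lit 78) (nat_lit 152) (nat_lit 0) (XT.lf (nat_lit 0) (nat_lit 5083813962) (nat_lit 228) (nat_lit 6857029174) (nat_lit 0) (nat_lit 2343391604) (nat_lit 43) (nat_lit 5) (nat_lit 46) (nat_lit 4) (nat_lit 43) (nat_lit 4) (nat_lit 376) (nat_lit 265) (nat_lit 259)) (XT.lf (nat_lit 0) (nat_lit 2092229052) (nat_lit 152) (nat_lit 7807932024) (nat_lit 152) (nat_lit 4656186902) (nat_lit 41) (nat_lit 4) (nat_lit 43) (nat_lit 5) (nat_lit 43) (nat_lit 4) (nat_lit 377) (nat_lit 265) (nat_lit 258)))))) (XT.nd (nat_lit 468) (nat_lit 608) (nat_lit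 0) (XT.nd (nat_lit 234) (nat_lit 304) (nat_lit 0) (XT.nd (nat_lit 78) (nat_lit 152) (nat_lit 0) (XT.lf (nat_lit 0) (nat_lit 11281928982) (nat_lit 152) (nat_lit 3553290305) (nat_lit 152) (nat_lit 2202694) (nat_lit 41) (nat_lit 4) (nat_lit 43) (nat_lit 5) (nat_lit 43) (nat_lit 4) (nat_lit 378) (nat_lit 265) (nat_lit 257)) (XT.nd (nat_lit 78) (nat_lit 0) (nat_lit 0) (XT.lf (nat_lit 0) (nat_lit 4665994306) (nat_lit 152) (nat_lit 9618614216) (nat_lit 0) (nat_lit 841917835) (nat_lit 39) (nat_lit 5) (nat_lit 41) (nat_lit 4) (nat_lit 39) (nat_lit 4) (nat_lit 379) (nat_lit 265) (nat_lit 256)) (XT.lf (nat_lit 0) (nat_lit 9452889870) (nat_lit 152) (nat_lit 708715932) (nat_lit 0) (nat_lit 5263358451) (nat_lit 39) (nat_lit 5) (nat_lit 41) (nat_lit 4) (nat_lit 39) (nat_lit 4) (nat_lit 380) (nat_lit 265) (nat_lit 255)))) (XT.nd (nat_lit 78) (nat_lit 152) (nat_lit 0) (XT.lf (nat_lit 0) (nat_lit 8472612079) (nat_lit 152)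 (nat_lit 5902182255) (nat_lit 152) (nat_lit 1357840206) (nat_lit 37) (nat_lit 4) (nat_lit 39) (nat_lit 5) (nat_lit 39) (nat_lit 4) (nat_lit 381) (nat_lit 265) (nat_lit 254)) (XT.nd (nat_lit 78) (nat_lit 0) (nat_lit 0) (XT.lf (nat_lit 0) (nat_lit 1734299761) (nat_lit 76) (nat_lit 1528320016) (nat_lit 152) (nat_lit 12787934936) (nat_lit 35) (nat_lit 5) (nat_lit 36) (nat_lit 5) (nat_lit 37) (nat_lit 4) (nat_lit 382) (nat_lit 265) (nat_lit 253)) (XT.lf (nat_lit 0) (nat_lit 8007597354) (nat_lit 152) (nat_lit 5433165726) (nat_lit 0) (nat_lit 2936469746) (nat_lit 35) (nat_lit 5) (nat_lit 37) (nat_lit 4) (nat_lit 35) (nat_lit 4) (nat_lit 383) (nat_lit 265) (nat_lit 252))))) (XT.nd (nat_lit 234) (nat_lit 304) (nat_lit 0) (XT.nd (nat_lit 78) (nat_lit 152) (nat_lit 0) (XT.lf (nat_lit 0) (nat_lit 3614690464) (nat_lit 152) (nat_lit 9243260603) (nat_lit 152) (nat_lit 3856888347) (nat_lit 33) (nat_lit 4) (nat_lit 35)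 (nat_lit 5) (nat_lit 35) (nat_lit 4) (nat_lit 384) (nat_lit 265) (nat_lit 251)) (XT.nd (nat_lit 78) (nat_lit 76) (nat_lit 0) (XT.lf (nat_lit 0) (nat_lit 744523409) (nat_lit 228) (nat_lit 4181052499) (nat_lit 76) (nat_lit 12137726298) (nat_lit 32) (nat_lit 5) (nat_lit 35) (nat_lit 5) (nat_lit 33) (nat_lit 4) (nat_lit 385) (nat_lit 265) (nat_lit 250)) (XT.lf (nat_lit 0) (nat_lit 4910501861) (nat_lit 76) (nat_lit 458998236) (nat_lit 152) (nat_lit 12052699239) (nat_lit 31) (nat_lit 5) (nat_lit 32) (nat_lit 5) (nat_lit 33) (nat_lit 4) (nat_lit 386) (nat_lit 265) (nat_lit 249)))) (XT.nd (nat_lit 156) (nat_lit 152) (nat_lit 0) (XT.nd (nat_lit 78) (nat_lit 152) (nat_lit 0) (XT.lf (nat_lit 0) (nat_lit 10131858220) (nat_lit 152) (nat_lit 3623425043) (nat_lit 0) (nat_lit 4036637978) (nat_lit 31) (nat_lit 5) (nat_lit 33) (nat_lit 4) (nat_lit 31) (nat_lit 4) (nat_lit 387) (nat_lit 265) (nat_lit 248)) (XT.lf (nat_lit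 0) (nat_lit 5485340046) (nat_lit 152) (nat_lit 9527643619) (nat_lit 152) (nat_lit 3160490574) (nat_lit 29) (nat_lit 4) (nat_lit 31) (nat_lit 5) (nat_lit 31) (nat_lit 4) (nat_lit 388) (nat_lit 265) (nat_lit 247))) (XT.nd (nat_lit 78) (nat_lit 76) (nat_lit 0) (XT.lf (nat_lit 0) (nat_lit 1401023493) (nat_lit 228) (nat_lit 3787087782) (nat_lit 76) (nat_lit 13379281295) (nat_lit 28) (nat_lit 5) (nat_lit 31) (nat_lit 5) (nat_lit 29) (nat_lit 4) (nat_lit 389) (nat_lit 265) (nat_lit 246)) (XT.lf (nat_lit 0) (nat_lit 5308802117) (nat_lit 76) (nat_lit 699222680) (nat_lit 152) (nat_lit 12965014907) (nat_lit 27) (nat_lit 5) (nat_lit 28) (nat_lit 5) (nat_lit 29) (nat_lit 4) (nat_lit 390) (nat_lit 265) (nat_lit 245))))))) (XT.nd (nat_lit 1014) (nat_lit 456) (nat_lit 0) (XT.nd (nat_lit 468) (nat_lit 304) (nat_lit 0) (XT.nd (nat_lit 234) (nat_lit 76) (nat_lit 0) (XT.nd (nat_lit 78) (nat_lit 228) (nat_lit 0) (XT.lf (nat_lit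 0) (nat_lit 10751008851) (nat_lit 152) (nat_lit 4817410425) (nat_lit 0) (nat_lit 3822518308) (nat_lit 27) (nat_lit 5) (nat_lit 29) (nat_lit 4) (nat_lit 27) (nat_lit 4) (nat_lit 391) (nat_lit 265) (nat_lit 244)) (XT.nd (nat_lit 78) (nat_lit 76) (nat_lit 0) (XT.lf (nat_lit 0) (nat_lit 4229855733) (nat_lit 152) (nat_lit 11377726959) (nat_lit 152) (nat_lit 4214664791) (nat_lit 25) (nat_lit 4) (nat_lit 27) (nat_lit 5) (nat_lit 27) (nat_lit 4) (nat_lit 392) (nat_lit 265) (nat_lit 243)) (XT.lf (nat_lit 0) (nat_lit 309626063) (nat_lit 228) (nat_lit 6762260701) (nat_lit 76) (nat_lit 13195335106) (nat_lit 24) (nat_lit 5) (nat_lit 27) (nat_lit 5) (nat_lit 25) (nat_lit 4) (nat_lit 393) (nat_lit 265) (nat_lit 242)))) (XT.nd (nat_lit 78) (nat_lit 0) (nat_lit 0) (XT.lf (nat_lit 0) (nat_lit 2197287674) (nat_lit 76) (nat_lit 2634828353) (nat_lit 152) (nat_lit 15893775045) (nat_lit 23) (nat_lit 5) (nat_lit 24) (nat_lit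 5) (nat_lit 25) (nat_lit 4) (nat_lit 394) (nat_lit 265) (nat_lit 241)) (XT.nd (nat_lit 78) (nat_lit 0) (nat_lit 0) (XT.lf (nat_lit 0) (nat_lit 9504160455) (nat_lit 152) (nat_lit 9788211226) (nat_lit 0) (nat_lit 1905544796) (nat_lit 23) (nat_lit 5) (nat_lit 25) (nat_lit 4) (nat_lit 23) (nat_lit 4) (nat_lit 395) (nat_lit 265) (nat_lit 240)) (XT.lf (nat_lit 0) (nat_lit 14270914214) (nat_lit 152) (nat_lit 944609136) (nat_lit 0) (nat_lit 6469955011) (nat_lit 23) (nat_lit 5) (nat_lit 25) (nat_lit 4) (nat_lit 23) (nat_lit 4) (nat_lit 396) (nat_lit 265) (nat_lit 239))))) (XT.nd (nat_lit 234) (nat_lit 76) (nat_lit 0) (XT.nd (nat_lit 78) (nat_lit 152) (nat_lit 0) (XT.lf (nat_lit 0) (nat_lit 8195175258) (nat_lit 76) (nat_lit 10994816624) (nat_lit 76) (nat_lit 2997407379) (nat_lit 22) (nat_lit 4) (nat_lit 23) (nat_lit 5) (nat_lit 23) (nat_lit 4) (nat_lit 397) (nat_lit 265) (nat_lit 238)) (XT.nd (nat_lit 78) (nat_lit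 76) (nat_lit 0) (XT.lf (nat_lit 0) (nat_lit 1462254888) (nat_lit 152) (nat_lit 5219760018) (nat_lit 76) (nat_lit 16023717934) (nat_lit 21) (nat_lit 5) (nat_lit 23) (nat_lit 5) (nat_lit 22) (nat_lit 4) (nat_lit 398) (nat_lit 265) (nat_lit 237)) (XT.lf (nat_lit 0) (nat_lit 3733650386) (nat_lit 76) (nat_lit 2230369729) (nat_lit 152) (nat_lit 17275660053) (nat_lit 20) (nat_lit 5) (nat_lit 21) (nat_lit 5) (nat_lit 22) (nat_lit 4) (nat_lit 399) (nat_lit 265) (nat_lit 236)))) (XT.nd (nat_lit 156) (nat_lit 76) (nat_lit 0) (XT.nd (nat_lit 78) (nat_lit 0) (nat_lit 0) (XT.lf (nat_lit 0) (nat_lit 10609587059) (nat_lit 152) (nat_lit 10874190757) (nat_lit 0) (nat_lit 2305616120) (nat_lit 20) (nat_lit 5) (nat_lit 22) (nat_lit 4) (nat_lit 20) (nat_lit 4) (nat_lit 400) (nat_lit 265) (nat_lit 235)) (XT.lf (nat_lit 0) (nat_lit 15351440313) (nat_lit 152) (nat_lit 2127451563) (nat_lit 0) (nat_lit 6878009842) (nat_lit 20) (nat_lit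 5) (nat_lit 22) (nat_lit 4) (nat_lit 20) (nat_lit 4) (nat_lit 401) (nat_lit 265) (nat_lit 234))) (XT.nd (nat_lit 78) (nat_lit 0) (nat_lit 0) (XT.lf (nat_lit 0) (nat_lit 6897872598) (nat_lit 76) (nat_lit 13340717540) (nat_lit 76) (nat_lit 4702763250) (nat_lit 19) (nat_lit 4) (nat_lit 20) (nat_lit 5) (nat_lit 20) (nat_lit 4) (nat_lit 402) (nat_lit 265) (nat_lit 233)) (XT.lf (nat_lit 0) (nat_lit 16120308586) (nat_lit 76) (nat_lit 9110978889) (nat_lit 76) (nat_lit 313292737) (nat_lit 19) (nat_lit 4) (nat_lit 20) (nat_lit 5) (nat_lit 20) (nat_lit 4) (nat_lit 403) (nat_lit 265) (nat_lit 232)))))) (XT.nd (nat_lit 546) (nat_lit 152) (nat_lit 0) (XT.nd (nat_lit 234) (nat_lit 152) (nat_lit 0) (XT.nd (nat_lit 78) (nat_lit 76) (nat_lit 0) (XT.lf (nat_lit 0) (nat_lit 4064412721) (nat_lit 152) (nat_lit 702007805) (nat_lit 76) (nat_lit 21400119060) (nat_lit 18) (nat_lit 5) (nat_lit 20) (nat_lit 5) (nat_lit 19) (nat_lit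 4) (nat_lit 404) (nat_lit 265) (nat_lit 231)) (XT.nd (nat_lit 78) (nat_lit 0) (nat_lit 0) (XT.lf (nat_lit 0) (nat_lit 8329641903) (nat_lit 76) (nat_lit 258028112) (nat_lit 152) (nat_lit 18218787924) (nat_lit 17) (nat_lit 5) (nat_lit 18) (nat_lit 5) (nat_lit 19) (nat_lit 4) (nat_lit 405) (nat_lit 265) (nat_lit 230)) (XT.lf (nat_lit 0) (nat_lit 13236562992) (nat_lit 152) (nat_lit 9972860684) (nat_lit 0) (nat_lit 4256460554) (nat_lit 17) (nat_lit 5) (nat_lit 19) (nat_lit 4) (nat_lit 17) (nat_lit 4) (nat_lit 406) (nat_lit 265) (nat_lit 229)))) (XT.nd (nat_lit 156) (nat_lit 76) (nat_lit 0) (XT.nd (nat_lit 78) (nat_lit 76) (nat_lit 0) (XT.lf (nat_lit 0) (nat_lit 17969828604) (nat_lit 152) (nat_lit 1324985747) (nat_lit 0) (nat_lit 8851940059) (nat_lit 17) (nat_lit 5) (nat_lit 19) (nat_lit 4) (nat_lit 17) (nat_lit 4) (nat_lit 407) (nat_lit 265) (nat_lit 228)) (XT.lf (nat_lit 0) (nat_lit 7625649380) (nat_lit 76)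 (nat_lit 15236775419) (nat_lit 76) (nat_lit 5985113954) (nat_lit 16) (nat_lit 4) (nat_lit 17) (nat_lit 5) (nat_lit 17) (nat_lit 4) (nat_lit 408) (nat_lit 265) (nat_lit 227))) (XT.nd (nat_lit 78) (nat_lit 76) (nat_lit 0) (XT.lf (nat_lit 0) (nat_lit 16767518645) (nat_lit 76) (nat_lit 11092316392) (nat_lit 76) (nat_lit 1710778306) (nat_lit 16) (nat_lit 4) (nat_lit 17) (nat_lit 5) (nat_lit 17) (nat_lit 4) (nat_lit 409) (nat_lit 265) (nat_lit 226)) (XT.lf (nat_lit 0) (nat_lit 2584989868) (nat_lit 152) (nat_lit 4260102460) (nat_lit 76) (nat_lit 23471147075) (nat_lit 15) (nat_lit 5) (nat_lit 17) (nat_lit 5) (nat_lit 16) (nat_lit 4) (nat_lit 410) (nat_lit 265) (nat_lit 225))))) (XT.nd (nat_lit 234) (nat_lit 76) (nat_lit 0) (XT.nd (nat_lit 78) (nat_lit 0) (nat_lit 0) (XT.lf (nat_lit 0) (nat_lit 4510756257) (nat_lit 76) (nat_lit 2455159664) (nat_lit 152) (nat_lit 24118097218) (nat_lit 14) (nat_lit 5) (nat_lit 15)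 (nat_lit 5) (nat_lit 16) (nat_lit 4) (nat_lit 411) (nat_lit 265) (nat_lit 224)) (XT.nd (nat_lit 78) (nat_lit 0) (nat_lit 0) (XT.lf (nat_lit 0) (nat_lit 11489029432) (nat_lit 152) (nat_lit 18361405144) (nat_lit 0) (nat_lit 2024069653) (nat_lit 14) (nat_lit 5) (nat_lit 16) (nat_lit 4) (nat_lit 14) (nat_lit 4) (nat_lit 412) (nat_lit 265) (nat_lit 223)) (XT.lf (nat_lit 0) (nat_lit 16121126297) (nat_lit 152) (nat_lit 10024257983) (nat_lit 0) (nat_lit 6544133804) (nat_lit 14) (nat_lit 5) (nat_lit 16) (nat_lit 4) (nat_lit 14) (nat_lit 4) (nat_lit 413) (nat_lit 265) (nat_lit 222)))) (XT.nd (nat_lit 156) (nat_lit 0) (nat_lit 0) (XT.nd (nat_lit 78) (nat_lit 76) (nat_lit 0) (XT.lf (nat_lit 0) (nat_lit 20842653483) (nat_lit 152) (nat_lit 1530930016) (nat_lit 0) (nat_lit 11156891364) (nat_lit 14) (nat_lit 5) (nat_lit 16) (nat_lit 4) (nat_lit 14) (nat_lit 4) (nat_lit 414) (nat_lit 265) (nat_lit 221)) (XT.lf (nat_lit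 0) (nat_lit 7267821483) (nat_lit 76) (nat_lit 18459777859) (nat_lit 76) (nat_lit 8668414162) (nat_lit 13) (nat_lit 4) (nat_lit 14) (nat_lit 5) (nat_lit 14) (nat_lit 4) (nat_lit 415) (nat_lit 265) (nat_lit 220))) (XT.nd (nat_lit 78) (nat_lit 0) (nat_lit 0) (XT.lf (nat_lit 0) (nat_lit 16271614509) (nat_lit 76) (nat_lit 14455381196) (nat_lit 76) (nat_lit 4561491695) (nat_lit 13) (nat_lit 4) (nat_lit 14) (nat_lit 5) (nat_lit 14) (nat_lit 4) (nat_lit 416) (nat_lit 265) (nat_lit 219)) (XT.lf (nat_lit 0) (nat_lit 25457847943) (nat_lit 76) (nat_lit 10372353915) (nat_lit 76) (nat_lit 378924798) (nat_lit 13) (nat_lit 4) (nat_lit 14) (nat_lit 5) (nat_lit 14) (nat_lit 4) (nat_lit 417) (nat_lit 265) (nat_lit 218))))))))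
noncomputable def xc31 : XT := (XT.nd (nat_lit 2028) (nat_lit 0) (nat_lit 0) (XT.nd (nat_lit 1014) (nat_lit 228) (nat_lit 0) (XT.nd (nat_lit 468) (nat_lit 152) (nat_lit 0) (XT.nd (nat_lit 234) (nat_lit 76) (nat_lit 0) (XT.nd (nat_lit 78) (nat_lit 76) (nat_lit 0) (XT.lf (nat_lit 0) (nat_lit 3807171030) (nat_lit 152) (nat_lit 2361512328) (nat_lit 76) (nat_lit 30988932598) (nat_lit 12) (nat_lit 5) (nat_lit 14) (nat_lit 5) (nat_lit 13) (nat_lit 4) (nat_lit 418) (nat_lit 265) (nat_lit 217)) (XT.nd (nat_lit 78) (nat_lit 0) (nat_lit 0) (XT.lf (nat_lit 0) (nat_lit 6315920784) (nat_lit 76) (nat_lit 1812067362) (nat_lit 152) (nat_lit 30005962075) (nat_lit 11) (nat_lit 5) (nat_lit 12) (nat_lit 5) (nat_lit 13) (nat_lit 4) (nat_lit 419) (nat_lit 265) (nat_lit 216)) (XT.lf (nat_lit 0) (nat_lit 12584378825) (nat_lit 152) (nat_lit 23946360216) (nat_lit 0) (nat_lit 2608662316) (nat_lit 11) (nat_lit 5) (nat_lit 13) (nat_lit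 4) (nat_lit 11) (nat_lit 4) (nat_lit 420) (nat_lit 265) (nat_lit 215)))) (XT.nd (nat_lit 78) (nat_lit 76) (nat_lit 0) (XT.lf (nat_lit 0) (nat_lit 17149829848) (nat_lit 152) (nat_lit 15937680685) (nat_lit 0) (nat_lit 7088249593) (nat_lit 11) (nat_lit 5) (nat_lit 13) (nat_lit 4) (nat_lit 11) (nat_lit 4) (nat_lit 421) (nat_lit 265) (nat_lit 214)) (XT.nd (nat_lit 78) (nat_lit 76) (nat_lit 0) (XT.lf (nat_lit 0) (nat_lit 21810911746) (nat_lit 152) (nat_lit 7767574268) (nat_lit 0) (nat_lit 11665968630) (nat_lit 11) (nat_lit 5) (nat_lit 13) (nat_lit 4) (nat_lit 11) (nat_lit 4) (nat_lit 422) (nat_lit 265) (nat_lit 213)) (XT.lf (nat_lit 0) (nat_lit 582463930) (nat_lit 76) (nat_lit 25994832379) (nat_lit 76) (nat_lit 15768954446) (nat_lit 10) (nat_lit 4) (nat_lit 11) (nat_lit 5) (nat_lit 11) (nat_lit 4) (nat_lit 423) (nat_lit 265) (nat_lit 212))))) (XT.nd (nat_lit 234) (nat_lit 152) (nat_lit 0) (XT.nd (nat_lit 78)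 (nat_lit 0) (nat_lit 0) (XT.lf (nat_lit 0) (nat_lit 9266443919) (nat_lit 76) (nat_lit 22258977255) (nat_lit 76) (nat_lit 11954521830) (nat_lit 10) (nat_lit 4) (nat_lit 11) (nat_lit 5) (nat_lit 11) (nat_lit 4) (nat_lit 424) (nat_lit 265) (nat_lit 211)) (XT.nd (nat_lit 78) (nat_lit 0) (nat_lit 0) (XT.lf (nat_lit 0) (nat_lit 18137363684) (nat_lit 76) (nat_lit 18446093574) (nat_lit 76) (nat_lit 8065349322) (nat_lit 10) (nat_lit 4) (nat_lit 11) (nat_lit 5) (nat_lit 11) (nat_lit 4) (nat_lit 425) (nat_lit 265) (nat_lit 210)) (XT.lf (nat_lit 0) (nat_lit 27202974513) (nat_lit 76) (nat_lit 14552849690) (nat_lit 76) (nat_lit 4098038616) (nat_lit 10) (nat_lit 4) (nat_lit 11) (nat_lit 5) (nat_lit 11) (nat_lit 4) (nat_lit 426) (nat_lit 265) (nat_lit 209)))) (XT.nd (nat_lit 156) (nat_lit 76) (nat_lit 0) (XT.nd (nat_lit 78) (nat_lit 76) (nat_lit 0) (XT.lf (nat_lit 0) (nat_lit 36471197815) (nat_lit 76) (nat_lit 10575843739)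 (nat_lit 76) (nat_lit 49123129) (nat_lit 10) (nat_lit 4) (nat_lit 11) (nat_lit 5) (nat_lit 11) (nat_lit 4) (nat_lit 427) (nat_lit 265) (nat_lit 208)) (XT.lf (nat_lit 0) (nat_lit 4005223229) (nat_lit 152) (nat_lit 2465932537) (nat_lit 76) (nat_lit 41904463905) (nat_lit 9) (nat_lit 5) (nat_lit 11) (nat_lit 5) (nat_lit 10) (nat_lit 4) (nat_lit 428) (nat_lit 265) (nat_lit 207))) (XT.nd (nat_lit 78) (nat_lit 0) (nat_lit 0) (XT.lf (nat_lit 0) (nat_lit 5988170554) (nat_lit 76) (nat_lit 2215025447) (nat_lit 152) (nat_lit 41489562170) (nat_lit 8) (nat_lit 5) (nat_lit 9) (nat_lit 5) (nat_lit 10) (nat_lit 4) (nat_lit 429) (nat_lit 265) (nat_lit 206)) (XT.lf (nat_lit 0) (nat_lit 12538602902) (nat_lit 152) (nat_lit 36389460845) (nat_lit 0) (nat_lit 2121006067) (nat_lit 8) (nat_lit 5) (nat_lit 10) (nat_lit 4) (nat_lit 8) (nat_lit 4) (nat_lit 430) (nat_lit 265) (nat_lit 205)))))) (XT.nd (nat_lit 468) (nat_lit 152) (nat_lit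 0) (XT.nd (nat_lit 234) (nat_lit 76) (nat_lit 0) (XT.nd (nat_lit 78) (nat_lit 0) (nat_lit 0) (XT.lf (nat_lit 0) (nat_lit 16992507416) (nat_lit 152) (nat_lit 28941033274) (nat_lit 0) (nat_lit 6512880782) (nat_lit 8) (nat_lit 5) (nat_lit 10) (nat_lit 4) (nat_lit 8) (nat_lit 4) (nat_lit 431) (nat_lit 265) (nat_lit 204)) (XT.nd (nat_lit 78) (nat_lit 0) (nat_lit 0) (XT.lf (nat_lit 0) (nat_lit 21547509122) (nat_lit 152) (nat_lit 21331504388) (nat_lit 0) (nat_lit 11007659384) (nat_lit 8) (nat_lit 5) (nat_lit 10) (nat_lit 4) (nat_lit 8) (nat_lit 4) (nat_lit 432) (nat_lit 265) (nat_lit 203)) (XT.lf (nat_lit 0) (nat_lit 26207588120) (nat_lit 152) (nat_lit 13554225086) (nat_lit 0) (nat_lit 15609269349) (nat_lit 8) (nat_lit 5) (nat_lit 10) (nat_lit 4) (nat_lit 8) (nat_lit 4) (nat_lit 433) (nat_lit 265) (nat_lit 202)))) (XT.nd (nat_lit 78) (nat_lit 76) (nat_lit 0) (XT.lf (nat_lit 0) (nat_lit 30976816324) (nat_lit 152)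 (nat_lit 5602399685) (nat_lit 0) (nat_lit 20321731501) (nat_lit 8) (nat_lit 5) (nat_lit 10) (nat_lit 4) (nat_lit 8) (nat_lit 4) (nat_lit 434) (nat_lit 265) (nat_lit 201)) (XT.nd (nat_lit 78) (nat_lit 0) (nat_lit 0) (XT.lf (nat_lit 0) (nat_lit 2581290280) (nat_lit 76) (nat_lit 33302883681) (nat_lit 76) (nat_lit 22592686186) (nat_lit 7) (nat_lit 4) (nat_lit 8) (nat_lit 5) (nat_lit 8) (nat_lit 4) (nat_lit 435) (nat_lit 265) (nat_lit 200)) (XT.lf (nat_lit 0) (nat_lit 11068833595) (nat_lit 76) (nat_lit 29897055314) (nat_lit 76) (nat_lit 19133350370) (nat_lit 7) (nat_lit 4) (nat_lit 8) (nat_lit 5) (nat_lit 8) (nat_lit 4) (nat_lit 436) (nat_lit 265) (nat_lit 199))))) (XT.nd (nat_lit 234) (nat_lit 152) (nat_lit 0) (XT.nd (nat_lit 78) (nat_lit 0) (nat_lit 0) (XT.lf (nat_lit 0) (nat_lit 19756147821) (nat_lit 76) (nat_lit 26415328193) (nat_lit 76) (nat_lit 15599674271) (nat_lit 7) (nat_lit 4) (nat_lit 8) (nat_lit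 5) (nat_lit 8) (nat_lit 4) (nat_lit 437) (nat_lit 265) (nat_lit 198)) (XT.nd (nat_lit 78) (nat_lit 0) (nat_lit 0) (XT.lf (nat_lit 0) (nat_lit 28650823814) (nat_lit 76) (nat_lit 22854660033) (nat_lit 76) (nat_lit 11988570209) (nat_lit 7) (nat_lit 4) (nat_lit 8) (nat_lit 5) (nat_lit 8) (nat_lit 4) (nat_lit 438) (nat_lit 265) (nat_lit 197)) (XT.lf (nat_lit 0) (nat_lit 37760633621) (nat_lit 76) (nat_lit 19211939571) (nat_lit 76) (nat_lit 8296882852) (nat_lit 7) (nat_lit 4) (nat_lit 8) (nat_lit 5) (nat_lit 8) (nat_lit 4) (nat_lit 439) (nat_lit 265) (nat_lit 196)))) (XT.nd (nat_lit 156) (nat_lit 152) (nat_lit 0) (XT.nd (nat_lit 78) (nat_lit 0) (nat_lit 0) (XT.lf (nat_lit 0) (nat_lit 47093537271) (nat_lit 76) (nat_lit 15483983847) (nat_lit 76) (nat_lit 4521386453) (nat_lit 7) (nat_lit 4) (nat_lit 8) (nat_lit 5) (nat_lit 8) (nat_lit 4) (nat_lit 440) (nat_lit 265) (nat_lit 195)) (XT.lf (nat_lit 0) (nat_lit 56657689728)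 (nat_lit 76) (nat_lit 11667535424) (nat_lit 76) (nat_lit 658782035) (nat_lit 7) (nat_lit 4) (nat_lit 8) (nat_lit 5) (nat_lit 8) (nat_lit 4) (nat_lit 441) (nat_lit 265) (nat_lit 194))) (XT.nd (nat_lit 78) (nat_lit 76) (nat_lit 0) (XT.lf (nat_lit 0) (nat_lit 3230021727) (nat_lit 152) (nat_lit 4496620927) (nat_lit 76) (nat_lit 63198809404) (nat_lit 6) (nat_lit 5) (nat_lit 8) (nat_lit 5) (nat_lit 7) (nat_lit 4) (nat_lit 442) (nat_lit 265) (nat_lit 193)) (XT.lf (nat_lit 0) (nat_lit 3584975514) (nat_lit 76) (nat_lit 3647559953) (nat_lit 152) (nat_lit 65692103065) (nat_lit 5) (nat_lit 5) (nat_lit 6) (nat_lit 5) (nat_lit 7) (nat_lit 4) (nat_lit 443) (nat_lit 265) (nat_lit 192))))))) (XT.nd (nat_lit 41496) (nat_lit 0) (nat_lit 1824) (XT.nd (nat_lit 40950) (nat_lit 0) (nat_lit 3116) (XT.nd (nat_lit 234) (nat_lit 0) (nat_lit 0) (XT.nd (nat_lit 78) (nat_lit 0) (nat_lit 0) (XT.lf (nat_lit 0) (nat_lit 11382181580) (nat_lit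 152) (nat_lit 63033493012) (nat_lit 0) (nat_lit 567316764) (nat_lit 5) (nat_lit 5) (nat_lit 7) (nat_lit 4) (nat_lit 5) (nat_lit 4) (nat_lit 444) (nat_lit 265) (nat_lit 191)) (XT.nd (nat_lit 78) (nat_lit 0) (nat_lit 0) (XT.lf (nat_lit 0) (nat_lit 15669010123) (nat_lit 152) (nat_lit 56619375502) (nat_lit 0) (nat_lit 4814330740) (nat_lit 5) (nat_lit 5) (nat_lit 7) (nat_lit 4) (nat_lit 5) (nat_lit 4) (nat_lit 445) (nat_lit 265) (nat_lit 190)) (XT.lf (nat_lit 0) (nat_lit 20061704291) (nat_lit 152) (nat_lit 50056643343) (nat_lit 0) (nat_lit 9168369989) (nat_lit 5) (nat_lit 5) (nat_lit 7) (nat_lit 4) (nat_lit 5) (nat_lit 4) (nat_lit 446) (nat_lit 265) (nat_lit 189)))) (XT.nd (nat_lit 78) (nat_lit 0) (nat_lit 0) (XT.lf (nat_lit 0) (nat_lit 24564102361) (nat_lit 152) (nat_lit 43339562108) (nat_lit 0) (nat_lit 13633239012) (nat_lit 5) (nat_lit 5) (nat_lit 7) (nat_lit 4) (nat_lit 5) (nat_lit 4) (nat_lit 447) (nat_lit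 265) (nat_lit 188)) (XT.nd (nat_lit 78) (nat_lit 0) (nat_lit 0) (XT.lf (nat_lit 0) (nat_lit 29180138467) (nat_lit 152) (nat_lit 36462262504) (nat_lit 0) (nat_lit 18212839149) (nat_lit 5) (nat_lit 5) (nat_lit 7) (nat_lit 4) (nat_lit 5) (nat_lit 4) (nat_lit 448) (nat_lit 265) (nat_lit 187)) (XT.lf (nat_lit 0) (nat_lit 33913846039) (nat_lit 152) (nat_lit 29418735238) (nat_lit 0) (nat_lit 22911171994) (nat_lit 5) (nat_lit 5) (nat_lit 7) (nat_lit 4) (nat_lit 5) (nat_lit 4) (nat_lit 449) (nat_lit 265) (nat_lit 186))))) (XT.nd (nat_lit 234) (nat_lit 532) (nat_lit 0) (XT.nd (nat_lit 78) (nat_lit 228) (nat_lit 0) (XT.lf (nat_lit 0) (nat_lit 869360959) (nat_lit 152) (nat_lit 2661688343) (nat_lit 152) (nat_lit 2661688343) (nat_lit 56) (nat_lit 4) (nat_lit 58) (nat_lit 5) (nat_lit 58) (nat_lit 4) (nat_lit 368) (nat_lit 266) (nat_lit 266)) (XT.nd (nat_lit 78) (nat_lit 228) (nat_lit 0) (XT.lf (nat_lit 0) (nat_lit 10636502448)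 (nat_lit 152) (nat_lit 1257977746) (nat_lit 152) (nat_lit 705194346) (nat_lit 56) (nat_lit 4) (nat_lit 58) (nat_lit 5) (nat_lit 58) (nat_lit 4) (nat_lit 369) (nat_lit 266) (nat_lit 265)) (XT.lf (nat_lit 0) (nat_lit 3966044125) (nat_lit 228) (nat_lit 5945001603) (nat_lit 0) (nat_lit 2908309842) (nat_lit 53) (nat_lit 5) (nat_lit 56) (nat_lit 4) (nat_lit 53) (nat_lit 4) (nat_lit 370) (nat_lit 266) (nat_lit 264)))) (XT.nd (nat_lit 156) (nat_lit 304) (nat_lit 0) (XT.nd (nat_lit 78) (nat_lit 76) (nat_lit 0) (XT.lf (nat_lit 0) (nat_lit 2834275205) (nat_lit 152) (nat_lit 5888005556) (nat_lit 152) (nat_lit 4324396155) (nat_lit 51) (nat_lit 4) (nat_lit 53) (nat_lit 5) (nat_lit 53) (nat_lit 4) (nat_lit 371) (nat_lit 266) (nat_lit 263)) (XT.lf (nat_lit 0) (nat_lit 293952831) (nat_lit 228) (nat_lit 1458026043) (nat_lit 76) (nat_lit 11529963258) (nat_lit 50) (nat_lit 5) (nat_lit 53) (nat_lit 5) (nat_lit 51) (nat_lit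 4) (nat_lit 372) (nat_lit 266) (nat_lit 262))) (XT.nd (nat_lit 78) (nat_lit 152) (nat_lit 0) (XT.lf (nat_lit 0) (nat_lit 4963035091) (nat_lit 228) (nat_lit 6054816081) (nat_lit 0) (nat_lit 2505184501) (nat_lit 48) (nat_lit 5) (nat_lit 51) (nat_lit 4) (nat_lit 48) (nat_lit 4) (nat_lit 373) (nat_lit 266) (nat_lit 261)) (XT.lf (nat_lit 0) (nat_lit 2788695052) (nat_lit 152) (nat_lit 6945572852) (nat_lit 152) (nat_lit 4038258773) (nat_lit 46) (nat_lit 4) (nat_lit 48) (nat_lit 5) (nat_lit 48) (nat_lit 4) (nat_lit 374) (nat_lit 266) (nat_lit 260)))))) (XT.nd (nat_lit 546) (nat_lit 608) (nat_lit 0) (XT.nd (nat_lit 234) (nat_lit 304) (nat_lit 0) (XT.nd (nat_lit 78) (nat_lit 304) (nat_lit 0) (XT.lf (nat_lit 0) (nat_lit 572094163) (nat_lit 228) (nat_lit 2182335247) (nat_lit 76) (nat_lit 11275968691) (nat_lit 45) (nat_lit 5) (nat_lit 48) (nat_lit 5) (nat_lit 46) (nat_lit 4) (nat_lit 375) (nat_lit 266) (nat_lit 259))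 (XT.nd (nat_lit 78) (nat_lit 152) (nat_lit 0) (XT.lf (nat_lit 0) (nat_lit 5226559218) (nat_lit 228) (nat_lit 7499723701) (nat_lit 0) (nat_lit 1568938979) (nat_lit 43) (nat_lit 5) (nat_lit 46) (nat_lit 4) (nat_lit 43) (nat_lit 4) (nat_lit 376) (nat_lit 266) (nat_lit 258)) (XT.lf (nat_lit 0) (nat_lit 1353690235) (nat_lit 152) (nat_lit 8636106369) (nat_lit 152) (nat_lit 4579143641) (nat_lit 41) (nat_lit 4) (nat_lit 43) (nat_lit 5) (nat_lit 43) (nat_lit 4) (nat_lit 377) (nat_lit 266) (nat_lit 257)))) (XT.nd (nat_lit 156) (nat_lit 152) (nat_lit 0) (XT.nd (nat_lit 78) (nat_lit 76) (nat_lit 0) (XT.lf (nat_lit 0) (nat_lit 27473516) (nat_lit 228) (nat_lit 4388902644) (nat_lit 76) (nat_lit 10435004843) (nat_lit 40) (nat_lit 5) (nat_lit 43) (nat_lit 5) (nat_lit 41) (nat_lit 4) (nat_lit 378) (nat_lit 266) (nat_lit 256)) (XT.lf (nat_lit 0) (nat_lit 4585636586) (nat_lit 76) (nat_lit 48220096) (nat_lit 152) (nat_lit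 10508492001) (nat_lit 39) (nat_lit 5) (nat_lit 40) (nat_lit 5) (nat_lit 41) (nat_lit 4) (nat_lit 379) (nat_lit 266) (nat_lit 255))) (XT.nd (nat_lit 78) (nat_lit 152) (nat_lit 0) (XT.lf (nat_lit 0) (nat_lit 9375933111) (nat_lit 152) (nat_lit 1725758371) (nat_lit 0) (nat_lit 4340450171) (nat_lit 39) (nat_lit 5) (nat_lit 41) (nat_lit 4) (nat_lit 39) (nat_lit 4) (nat_lit 380) (nat_lit 266) (nat_lit 254)) (XT.lf (nat_lit 0) (nat_lit 7356698934) (nat_lit 152) (nat_lit 6887348097) (nat_lit 152) (nat_lit 1507388818) (nat_lit 37) (nat_lit 4) (nat_lit 39) (nat_lit 5) (nat_lit 39) (nat_lit 4) (nat_lit 381) (nat_lit 266) (nat_lit 253))))) (XT.nd (nat_lit 234) (nat_lit 304) (nat_lit 0) (XT.nd (nat_lit 78) (nat_lit 152) (nat_lit 0) (XT.lf (nat_lit 0) (nat_lit 499727647) (nat_lit 76) (nat_lit 2561420122) (nat_lit 152) (nat_lit 13009906237) (nat_lit 35) (nat_lit 5) (nat_lit 36) (nat_lit 5) (nat_lit 37) (nat_lit 4) (nat_lit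 382) (nat_lit 266) (nat_lit 252)) (XT.nd (nat_lit 78) (nat_lit 152) (nat_lit 0) (XT.lf (nat_lit 0) (nat_lit 7753410473) (nat_lit 152) (nat_lit 6755710019) (nat_lit 0) (nat_lit 1890202401) (nat_lit 35) (nat_lit 5) (nat_lit 37) (nat_lit 4) (nat_lit 35) (nat_lit 4) (nat_lit 383) (nat_lit 266) (nat_lit 251)) (XT.lf (nat_lit 0) (nat_lit 2189180130) (nat_lit 152) (nat_lit 10359343235) (nat_lit 152) (nat_lit 4190072397) (nat_lit 33) (nat_lit 4) (nat_lit 35) (nat_lit 5) (nat_lit 35) (nat_lit 4) (nat_lit 384) (nat_lit 266) (nat_lit 250)))) (XT.nd (nat_lit 156) (nat_lit 152) (nat_lit 0) (XT.nd (nat_lit 78) (nat_lit 76) (nat_lit 0) (XT.lf (nat_lit 0) (nat_lit 376382589) (nat_lit 228) (nat_lit 5702362496) (nat_lit 76) (nat_lit 11009661842) (nat_lit 32) (nat_lit 5) (nat_lit 35) (nat_lit 5) (nat_lit 33) (nat_lit 4) (nat_lit 385) (nat_lit 266) (nat_lit 249)) (XT.lf (nat_lit 0) (nat_lit 3284406436) (nat_lit 76) (nat_lit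 1661070953) (nat_lit 152) (nat_lit 12503511413) (nat_lit 31) (nat_lit 5) (nat_lit 32) (nat_lit 5) (nat_lit 33) (nat_lit 4) (nat_lit 386) (nat_lit 266) (nat_lit 248))) (XT.nd (nat_lit 78) (nat_lit 152) (nat_lit 0) (XT.lf (nat_lit 0) (nat_lit 9656193556) (nat_lit 152) (nat_lit 5337981338) (nat_lit 0) (nat_lit 2826093117) (nat_lit 31) (nat_lit 5) (nat_lit 33) (nat_lit 4) (nat_lit 31) (nat_lit 4) (nat_lit 387) (nat_lit 266) (nat_lit 247)) (XT.lf (nat_lit 0) (nat_lit 3664152162) (nat_lit 152) (nat_lit 10816741150) (nat_lit 152) (nat_lit 3722628281) (nat_lit 29) (nat_lit 4) (nat_lit 31) (nat_lit 5) (nat_lit 31) (nat_lit 4) (nat_lit 388) (nat_lit 266) (nat_lit 246))))))))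
noncomputable def xc32 : XT := (XT.nd (nat_lit 2028) (nat_lit 532) (nat_lit 0) (XT.nd (nat_lit 1014) (nat_lit 456) (nat_lit 0) (XT.nd (nat_lit 468) (nat_lit 304) (nat_lit 0) (XT.nd (nat_lit 234) (nat_lit 228) (nat_lit 0) (XT.nd (nat_lit 78) (nat_lit 76) (nat_lit 0) (XT.lf (nat_lit 0) (nat_lit 811004424) (nat_lit 228) (nat_lit 5704096634) (nat_lit 76) (nat_lit 12083673859) (nat_lit 28) (nat_lit 5) (nat_lit 31) (nat_lit 5) (nat_lit 29) (nat_lit 4) (nat_lit 389) (nat_lit 266) (nat_lit 245)) (XT.nd (nat_lit 78) (nat_lit 0) (nat_lit 0) (XT.lf (nat_lit 0) (nat_lit 3283161620) (nat_lit 76) (nat_lit 2077653292) (nat_lit 152) (nat_lit 13645330012) (nat_lit 27) (nat_lit 5) (nat_lit 28) (nat_lit 5) (nat_lit 29) (nat_lit 4) (nat_lit 390) (nat_lit 266) (nat_lit 244)) (XT.lf (nat_lit 0) (nat_lit 10052970967) (nat_lit 152) (nat_lit 6932158309) (nat_lit 0) (nat_lit 2440445310) (nat_lit 27) (nat_lit 5) (nat_lit 29) (nat_lit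 4) (nat_lit 27) (nat_lit 4) (nat_lit 391) (nat_lit 266) (nat_lit 243)))) (XT.nd (nat_lit 78) (nat_lit 76) (nat_lit 0) (XT.lf (nat_lit 0) (nat_lit 2004446682) (nat_lit 152) (nat_lit 12847222948) (nat_lit 152) (nat_lit 5006957849) (nat_lit 25) (nat_lit 4) (nat_lit 27) (nat_lit 5) (nat_lit 27) (nat_lit 4) (nat_lit 392) (nat_lit 266) (nat_lit 242)) (XT.nd (nat_lit 78) (nat_lit 76) (nat_lit 0) (XT.lf (nat_lit 0) (nat_lit 11216102483) (nat_lit 152) (nat_lit 8575025080) (nat_lit 152) (nat_lit 513653727) (nat_lit 25) (nat_lit 4) (nat_lit 27) (nat_lit 5) (nat_lit 27) (nat_lit 4) (nat_lit 393) (nat_lit 266) (nat_lit 241)) (XT.lf (nat_lit 0) (nat_lit 3962374701) (nat_lit 228) (nat_lit 232416973) (nat_lit 76) (nat_lit 16570507656) (nat_lit 24) (nat_lit 5) (nat_lit 27) (nat_lit 5) (nat_lit 25) (nat_lit 4) (nat_lit 394) (nat_lit 266) (nat_lit 240))))) (XT.nd (nat_lit 234) (nat_lit 152) (nat_lit 0) (XT.nd (nat_lit 78)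 (nat_lit 76) (nat_lit 0) (XT.lf (nat_lit 0) (nat_lit 8581881560) (nat_lit 152) (nat_lit 12312475255) (nat_lit 0) (nat_lit 344550036) (nat_lit 23) (nat_lit 5) (nat_lit 25) (nat_lit 4) (nat_lit 23) (nat_lit 4) (nat_lit 395) (nat_lit 266) (nat_lit 239)) (XT.nd (nat_lit 78) (nat_lit 76) (nat_lit 0) (XT.lf (nat_lit 0) (nat_lit 13314420668) (nat_lit 152) (nat_lit 3532441216) (nat_lit 0) (nat_lit 4880639102) (nat_lit 23) (nat_lit 5) (nat_lit 25) (nat_lit 4) (nat_lit 23) (nat_lit 4) (nat_lit 396) (nat_lit 266) (nat_lit 238)) (XT.lf (nat_lit 0) (nat_lit 5492895410) (nat_lit 76) (nat_lit 12681408853) (nat_lit 76) (nat_lit 4056899090) (nat_lit 22) (nat_lit 4) (nat_lit 23) (nat_lit 5) (nat_lit 23) (nat_lit 4) (nat_lit 397) (nat_lit 266) (nat_lit 237)))) (XT.nd (nat_lit 156) (nat_lit 0) (nat_lit 0) (XT.nd (nat_lit 78) (nat_lit 76) (nat_lit 0) (XT.lf (nat_lit 0) (nat_lit 390269145) (nat_lit 152) (nat_lit 8017436404)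 (nat_lit 76) (nat_lit 14343137293) (nat_lit 21) (nat_lit 5) (nat_lit 23) (nat_lit 5) (nat_lit 22) (nat_lit 4) (nat_lit 398) (nat_lit 266) (nat_lit 236)) (XT.lf (nat_lit 0) (nat_lit 819123481) (nat_lit 76) (nat_lit 4012692217) (nat_lit 152) (nat_lit 18454786196) (nat_lit 20) (nat_lit 5) (nat_lit 21) (nat_lit 5) (nat_lit 22) (nat_lit 4) (nat_lit 399) (nat_lit 266) (nat_lit 235))) (XT.nd (nat_lit 78) (nat_lit 0) (nat_lit 0) (XT.lf (nat_lit 0) (nat_lit 9428149589) (nat_lit 152) (nat_lit 13878591410) (nat_lit 0) (nat_lit 531056670) (nat_lit 20) (nat_lit 5) (nat_lit 22) (nat_lit 4) (nat_lit 20) (nat_lit 4) (nat_lit 400) (nat_lit 266) (nat_lit 234)) (XT.lf (nat_lit 0) (nat_lit 14138837524) (nat_lit 152) (nat_lit 5190186968) (nat_lit 0) (nat_lit 5077220787) (nat_lit 20) (nat_lit 5) (nat_lit 22) (nat_lit 4) (nat_lit 20) (nat_lit 4) (nat_lit 401) (nat_lit 266) (nat_lit 233)))))) (XT.nd (nat_lit 468) (nat_lit 228)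 (nat_lit 0) (XT.nd (nat_lit 234) (nat_lit 76) (nat_lit 0) (XT.nd (nat_lit 78) (nat_lit 76) (nat_lit 0) (XT.lf (nat_lit 0) (nat_lit 3716419911) (nat_lit 76) (nat_lit 15248727776) (nat_lit 76) (nat_lit 6027379178) (nat_lit 19) (nat_lit 4) (nat_lit 20) (nat_lit 5) (nat_lit 20) (nat_lit 4) (nat_lit 402) (nat_lit 266) (nat_lit 232)) (XT.nd (nat_lit 78) (nat_lit 76) (nat_lit 0) (XT.lf (nat_lit 0) (nat_lit 12882775469) (nat_lit 76) (nat_lit 11045154173) (nat_lit 76) (nat_lit 1668726097) (nat_lit 19) (nat_lit 4) (nat_lit 20) (nat_lit 5) (nat_lit 20) (nat_lit 4) (nat_lit 403) (nat_lit 266) (nat_lit 231)) (XT.lf (nat_lit 0) (nat_lit 2706092754) (nat_lit 152) (nat_lit 4033622384) (nat_lit 76) (nat_lit 19480175258) (nat_lit 18) (nat_lit 5) (nat_lit 20) (nat_lit 5) (nat_lit 19) (nat_lit 4) (nat_lit 404) (nat_lit 266) (nat_lit 230)))) (XT.nd (nat_lit 78) (nat_lit 0) (nat_lit 0) (XT.lf (nat_lit 0) (nat_lit 4877226034)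 (nat_lit 76) (nat_lit 2290455735) (nat_lit 152) (nat_lit 19693981229) (nat_lit 17) (nat_lit 5) (nat_lit 18) (nat_lit 5) (nat_lit 19) (nat_lit 4) (nat_lit 405) (nat_lit 266) (nat_lit 229)) (XT.nd (nat_lit 78) (nat_lit 0) (nat_lit 0) (XT.lf (nat_lit 0) (nat_lit 11768639341) (nat_lit 152) (nat_lit 13514464055) (nat_lit 0) (nat_lit 2239428032) (nat_lit 17) (nat_lit 5) (nat_lit 19) (nat_lit 4) (nat_lit 17) (nat_lit 4) (nat_lit 406) (nat_lit 266) (nat_lit 228)) (XT.lf (nat_lit 0) (nat_lit 16474333627) (nat_lit 152) (nat_lit 4918549680) (nat_lit 0) (nat_lit 6811349398) (nat_lit 17) (nat_lit 5) (nat_lit 19) (nat_lit 4) (nat_lit 17) (nat_lit 4) (nat_lit 407) (nat_lit 266) (nat_lit 227))))) (XT.nd (nat_lit 234) (nat_lit 76) (nat_lit 0) (XT.nd (nat_lit 78) (nat_lit 76) (nat_lit 0) (XT.lf (nat_lit 0) (nat_lit 3909115332) (nat_lit 76) (nat_lit 17395320613) (nat_lit 76) (nat_lit 7602459763) (nat_lit 16) (nat_lit 4)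 (nat_lit 17) (nat_lit 5) (nat_lit 17) (nat_lit 4) (nat_lit 408) (nat_lit 266) (nat_lit 226)) (XT.nd (nat_lit 78) (nat_lit 76) (nat_lit 0) (XT.lf (nat_lit 0) (nat_lit 13001032028) (nat_lit 76) (nat_lit 13274345361) (nat_lit 76) (nat_lit 3355390704) (nat_lit 16) (nat_lit 4) (nat_lit 17) (nat_lit 5) (nat_lit 17) (nat_lit 4) (nat_lit 409) (nat_lit 266) (nat_lit 225)) (XT.lf (nat_lit 0) (nat_lit 946513937) (nat_lit 152) (nat_lit 8119952536) (nat_lit 76) (nat_lit 21311184144) (nat_lit 15) (nat_lit 5) (nat_lit 17) (nat_lit 5) (nat_lit 16) (nat_lit 4) (nat_lit 410) (nat_lit 266) (nat_lit 224)))) (XT.nd (nat_lit 156) (nat_lit 0) (nat_lit 0) (XT.nd (nat_lit 78) (nat_lit 0) (nat_lit 0) (XT.lf (nat_lit 0) (nat_lit 525550434) (nat_lit 76) (nat_lit 4738381472) (nat_lit 152) (nat_lit 25883401104) (nat_lit 14) (nat_lit 5) (nat_lit 15) (nat_lit 5) (nat_lit 16) (nat_lit 4) (nat_lit 411) (nat_lit 266) (nat_lit 223)) (XT.lf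 (nat_lit 0) (nat_lit 9501208938) (nat_lit 76) (nat_lit 241073805) (nat_lit 152) (nat_lit 22196887552) (nat_lit 14) (nat_lit 5) (nat_lit 15) (nat_lit 5) (nat_lit 16) (nat_lit 4) (nat_lit 412) (nat_lit 266) (nat_lit 222))) (XT.nd (nat_lit 78) (nat_lit 0) (nat_lit 0) (XT.lf (nat_lit 0) (nat_lit 14347661971) (nat_lit 152) (nat_lit 14144769562) (nat_lit 0) (nat_lit 4262557364) (nat_lit 14) (nat_lit 5) (nat_lit 16) (nat_lit 4) (nat_lit 14) (nat_lit 4) (nat_lit 413) (nat_lit 266) (nat_lit 221)) (XT.lf (nat_lit 0) (nat_lit 19045499558) (nat_lit 152) (nat_lit 5696366560) (nat_lit 0) (nat_lit 8854793372) (nat_lit 14) (nat_lit 5) (nat_lit 16) (nat_lit 4) (nat_lit 14) (nat_lit 4) (nat_lit 414) (nat_lit 266) (nat_lit 220))))))) (XT.nd (nat_lit 1014) (nat_lit 228) (nat_lit 0) (XT.nd (nat_lit 468) (nat_lit 76) (nat_lit 0) (XT.nd (nat_lit 234) (nat_lit 152) (nat_lit 0) (XT.nd (nat_lit 78) (nat_lit 0) (nat_lit 0) (XT.lf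 (nat_lit 0) (nat_lit 2975000060) (nat_lit 76) (nat_lit 20891180520) (nat_lit 76) (nat_lit 10597948530) (nat_lit 13) (nat_lit 4) (nat_lit 14) (nat_lit 5) (nat_lit 14) (nat_lit 4) (nat_lit 415) (nat_lit 266) (nat_lit 219)) (XT.nd (nat_lit 78) (nat_lit 0) (nat_lit 0) (XT.lf (nat_lit 0) (nat_lit 11935604228) (nat_lit 76) (nat_lit 16907227838) (nat_lit 76) (nat_lit 6514456232) (nat_lit 13) (nat_lit 4) (nat_lit 14) (nat_lit 5) (nat_lit 14) (nat_lit 4) (nat_lit 416) (nat_lit 266) (nat_lit 218)) (XT.lf (nat_lit 0) (nat_lit 21079906731) (nat_lit 76) (nat_lit 12844049082) (nat_lit 76) (nat_lit 2354637072) (nat_lit 13) (nat_lit 4) (nat_lit 14) (nat_lit 5) (nat_lit 14) (nat_lit 4) (nat_lit 417) (nat_lit 266) (nat_lit 217)))) (XT.nd (nat_lit 78) (nat_lit 76) (nat_lit 0) (XT.lf (nat_lit 0) (nat_lit 1848357798) (nat_lit 152) (nat_lit 6831071313) (nat_lit 76) (nat_lit 28548875149) (nat_lit 12) (nat_lit 5) (nat_lit 14)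 (nat_lit 5) (nat_lit 13) (nat_lit 4) (nat_lit 418) (nat_lit 266) (nat_lit 216)) (XT.nd (nat_lit 78) (nat_lit 0) (nat_lit 0) (XT.lf (nat_lit 0) (nat_lit 1716668880) (nat_lit 76) (nat_lit 4387271697) (nat_lit 152) (nat_lit 32102657596) (nat_lit 11) (nat_lit 5) (nat_lit 12) (nat_lit 5) (nat_lit 13) (nat_lit 4) (nat_lit 419) (nat_lit 266) (nat_lit 215)) (XT.lf (nat_lit 0) (nat_lit 10514605074) (nat_lit 152) (nat_lit 28633504897) (nat_lit 0) (nat_lit 65313664) (nat_lit 11) (nat_lit 5) (nat_lit 13) (nat_lit 4) (nat_lit 11) (nat_lit 4) (nat_lit 420) (nat_lit 266) (nat_lit 214))))) (XT.nd (nat_lit 234) (nat_lit 76) (nat_lit 0) (XT.nd (nat_lit 78) (nat_lit 0) (nat_lit 0) (XT.lf (nat_lit 0) (nat_lit 15059695183) (nat_lit 152) (nat_lit 20663659602) (nat_lit 0) (nat_lit 4527040912) (nat_lit 11) (nat_lit 5) (nat_lit 13) (nat_lit 4) (nat_lit 11) (nat_lit 4) (nat_lit 421) (nat_lit 266) (nat_lit 213)) (XT.nd (nat_lit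 78) (nat_lit 0) (nat_lit 0) (XT.lf (nat_lit 0) (nat_lit 19701009203) (nat_lit 152) (nat_lit 12531256328) (nat_lit 0) (nat_lit 9087420116) (nat_lit 11) (nat_lit 5) (nat_lit 13) (nat_lit 4) (nat_lit 11) (nat_lit 4) (nat_lit 422) (nat_lit 266) (nat_lit 212)) (XT.lf (nat_lit 0) (nat_lit 24442602652) (nat_lit 152) (nat_lit 4229189091) (nat_lit 0) (nat_lit 13750436073) (nat_lit 11) (nat_lit 5) (nat_lit 13) (nat_lit 4) (nat_lit 11) (nat_lit 4) (nat_lit 423) (nat_lit 266) (nat_lit 211)))) (XT.nd (nat_lit 156) (nat_lit 0) (nat_lit 0) (XT.nd (nat_lit 78) (nat_lit 0) (nat_lit 0) (XT.lf (nat_lit 0) (nat_lit 4334375622) (nat_lit 76) (nat_lit 24995907716) (nat_lit 76) (nat_lit 14227452310) (nat_lit 10) (nat_lit 4) (nat_lit 11) (nat_lit 5) (nat_lit 11) (nat_lit 4) (nat_lit 424) (nat_lit 266) (nat_lit 210)) (XT.lf (nat_lit 0) (nat_lit 13170104979) (nat_lit 76) (nat_lit 21199785763) (nat_lit 76) (nat_lit 10357263534) (nat_lit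 10) (nat_lit 4) (nat_lit 11) (nat_lit 5) (nat_lit 11) (nat_lit 4) (nat_lit 425) (nat_lit 266) (nat_lit 209))) (XT.nd (nat_lit 78) (nat_lit 0) (nat_lit 0) (XT.lf (nat_lit 0) (nat_lit 22201550363) (nat_lit 76) (nat_lit 17322815401) (nat_lit 76) (nat_lit 6408383636) (nat_lit 10) (nat_lit 4) (nat_lit 11) (nat_lit 5) (nat_lit 11) (nat_lit 4) (nat_lit 426) (nat_lit 266) (nat_lit 208)) (XT.lf (nat_lit 0) (nat_lit 31436603330) (nat_lit 76) (nat_lit 13361608986) (nat_lit 76) (nat_lit 2377362138) (nat_lit 10) (nat_lit 4) (nat_lit 11) (nat_lit 5) (nat_lit 11) (nat_lit 4) (nat_lit 427) (nat_lit 266) (nat_lit 207)))))) (XT.nd (nat_lit 468) (nat_lit 76) (nat_lit 0) (XT.nd (nat_lit 234) (nat_lit 0) (nat_lit 0) (XT.nd (nat_lit 78) (nat_lit 76) (nat_lit 0) (XT.lf (nat_lit 0) (nat_lit 1705382751) (nat_lit 152) (nat_lit 7590101497) (nat_lit 76) (nat_lit 39160729569) (nat_lit 9) (nat_lit 5) (nat_lit 11) (nat_lit 5) (nat_lit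 10) (nat_lit 4) (nat_lit 428) (nat_lit 266) (nat_lit 206)) (XT.nd (nat_lit 78) (nat_lit 0) (nat_lit 0) (XT.lf (nat_lit 0) (nat_lit 729794493) (nat_lit 76) (nat_lit 5106476634) (nat_lit 152) (nat_lit 43939095613) (nat_lit 8) (nat_lit 5) (nat_lit 9) (nat_lit 5) (nat_lit 10) (nat_lit 4) (nat_lit 429) (nat_lit 266) (nat_lit 205)) (XT.lf (nat_lit 0) (nat_lit 9391363443) (nat_lit 76) (nat_lit 743163664) (nat_lit 152) (nat_lit 40998267639) (nat_lit 8) (nat_lit 5) (nat_lit 9) (nat_lit 5) (nat_lit 10) (nat_lit 4) (nat_lit 430) (nat_lit 266) (nat_lit 204)))) (XT.nd (nat_lit 78) (nat_lit 0) (nat_lit 0) (XT.lf (nat_lit 0) (nat_lit 14565268202) (nat_lit 152) (nat_lit 34316575019) (nat_lit 0) (nat_lit 3648999867) (nat_lit 8) (nat_lit 5) (nat_lit 10) (nat_lit 4) (nat_lit 8) (nat_lit 4) (nat_lit 431) (nat_lit 266) (nat_lit 203)) (XT.nd (nat_lit 78) (nat_lit 0) (nat_lit 0) (XT.lf (nat_lit 0) (nat_lit 19104716825) (nat_lit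 152) (nat_lit 26736866552) (nat_lit 0) (nat_lit 8129979457) (nat_lit 8) (nat_lit 5) (nat_lit 10) (nat_lit 4) (nat_lit 8) (nat_lit 4) (nat_lit 432) (nat_lit 266) (nat_lit 202)) (XT.lf (nat_lit 0) (nat_lit 23749695742) (nat_lit 152) (nat_lit 18988539113) (nat_lit 0) (nat_lit 12718192322) (nat_lit 8) (nat_lit 5) (nat_lit 10) (nat_lit 4) (nat_lit 8) (nat_lit 4) (nat_lit 433) (nat_lit 266) (nat_lit 201))))) (XT.nd (nat_lit 234) (nat_lit 0) (nat_lit 0) (XT.nd (nat_lit 78) (nat_lit 76) (nat_lit 0) (XT.lf (nat_lit 0) (nat_lit 28504263673) (nat_lit 152) (nat_lit 11064822317) (nat_lit 0) (nat_lit 17417647581) (nat_lit 8) (nat_lit 5) (nat_lit 10) (nat_lit 4) (nat_lit 8) (nat_lit 4) (nat_lit 434) (nat_lit 266) (nat_lit 200)) (XT.nd (nat_lit 78) (nat_lit 76) (nat_lit 0) (XT.lf (nat_lit 0) (nat_lit 33372575094) (nat_lit 152) (nat_lit 2958792529) (nat_lit 0) (nat_lit 22232451554) (nat_lit 8) (nat_lit 5) (nat_lit 10)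 (nat_lit 4) (nat_lit 8) (nat_lit 4) (nat_lit 435) (nat_lit 266) (nat_lit 199)) (XT.lf (nat_lit 0) (nat_lit 5442842654) (nat_lit 76) (nat_lit 32968361149) (nat_lit 76) (nat_lit 21776288630) (nat_lit 7) (nat_lit 4) (nat_lit 8) (nat_lit 5) (nat_lit 8) (nat_lit 4) (nat_lit 436) (nat_lit 266) (nat_lit 198)))) (XT.nd (nat_lit 156) (nat_lit 0) (nat_lit 0) (XT.nd (nat_lit 78) (nat_lit 0) (nat_lit 0) (XT.lf (nat_lit 0) (nat_lit 14103921579) (nat_lit 76) (nat_lit 29499200913) (nat_lit 76) (nat_lit 18256692492) (nat_lit 7) (nat_lit 4) (nat_lit 8) (nat_lit 5) (nat_lit 8) (nat_lit 4) (nat_lit 437) (nat_lit 266) (nat_lit 197)) (XT.lf (nat_lit 0) (nat_lit 22973126407) (nat_lit 76) (nat_lit 25950733612) (nat_lit 76) (nat_lit 14659258296) (nat_lit 7) (nat_lit 4) (nat_lit 8) (nat_lit 5) (nat_lit 8) (nat_lit 4) (nat_lit 438) (nat_lit 266) (nat_lit 196))) (XT.nd (nat_lit 78) (nat_lit 0) (nat_lit 0) (XT.lf (nat_lit 0) (nat_lit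 32058206928) (nat_lit 76) (nat_lit 22319858643) (nat_lit 76) (nat_lit 10980842652) (nat_lit 7) (nat_lit 4) (nat_lit 8) (nat_lit 5) (nat_lit 8) (nat_lit 4) (nat_lit 439) (nat_lit 266) (nat_lit 195)) (XT.lf (nat_lit 0) (nat_lit 41367101562) (nat_lit 76) (nat_lit 18603403398) (nat_lit 76) (nat_lit 7218231412) (nat_lit 7) (nat_lit 4) (nat_lit 8) (nat_lit 5) (nat_lit 8) (nat_lit 4) (nat_lit 440) (nat_lit 266) (nat_lit 194))))))))
noncomputable def xc33 : XT := (XT.nd (nat_lit 42354) (nat_lit 0) (nat_lit 836) (XT.nd (nat_lit 41340) (nat_lit 0) (nat_lit 2356) (XT.nd (nat_lit 468) (nat_lit 0) (nat_lit 0) (XT.nd (nat_lit 234) (nat_lit 76) (nat_lit 0) (XT.nd (nat_lit 78) (nat_lit 76) (nat_lit 0) (XT.lf (nat_lit 0) (nat_lit 50907944294) (nat_lit 76) (nat_lit 14798120488) (nat_lit 76) (nat_lit 3368136857) (nat_lit 7) (nat_lit 4) (nat_lit 8) (nat_lit 5) (nat_lit 8) (nat_lit 4) (nat_lit 441) (nat_lit 266) (nat_lit 193))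 (XT.nd (nat_lit 78) (nat_lit 0) (nat_lit 0) (XT.lf (nat_lit 0) (nat_lit 561627681) (nat_lit 152) (nat_lit 10333385890) (nat_lit 76) (nat_lit 60121772764) (nat_lit 6) (nat_lit 5) (nat_lit 8) (nat_lit 5) (nat_lit 7) (nat_lit 4) (nat_lit 442) (nat_lit 266) (nat_lit 192)) (XT.lf (nat_lit 0) (nat_lit 4518118798) (nat_lit 152) (nat_lit 2343948196) (nat_lit 76) (nat_lit 66155287707) (nat_lit 6) (nat_lit 5) (nat_lit 8) (nat_lit 5) (nat_lit 7) (nat_lit 4) (nat_lit 443) (nat_lit 266) (nat_lit 191)))) (XT.nd (nat_lit 78) (nat_lit 0) (nat_lit 0) (XT.lf (nat_lit 0) (nat_lit 5957668968) (nat_lit 76) (nat_lit 2670117893) (nat_lit 152) (nat_lit 66449121184) (nat_lit 5) (nat_lit 5) (nat_lit 6) (nat_lit 5) (nat_lit 7) (nat_lit 4) (nat_lit 444) (nat_lit 266) (nat_lit 190)) (XT.nd (nat_lit 78) (nat_lit 0) (nat_lit 0) (XT.lf (nat_lit 0) (nat_lit 12877747005) (nat_lit 152) (nat_lit 62701035488) (nat_lit 0) (nat_lit 1618957756)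 (nat_lit 5) (nat_lit 5) (nat_lit 7) (nat_lit 4) (nat_lit 5) (nat_lit 4) (nat_lit 445) (nat_lit 266) (nat_lit 189)) (XT.lf (nat_lit 0) (nat_lit 17259565842) (nat_lit 152) (nat_lit 56159255491) (nat_lit 0) (nat_lit 5963247544) (nat_lit 5) (nat_lit 5) (nat_lit 7) (nat_lit 4) (nat_lit 5) (nat_lit 4) (nat_lit 446) (nat_lit 266) (nat_lit 188))))) (XT.nd (nat_lit 40560) (nat_lit 0) (nat_lit 3876) (XT.nd (nat_lit 78) (nat_lit 0) (nat_lit 0) (XT.lf (nat_lit 0) (nat_lit 21751405337) (nat_lit 152) (nat_lit 49462516161) (nat_lit 0) (nat_lit 10418651071) (nat_lit 5) (nat_lit 5) (nat_lit 7) (nat_lit 4) (nat_lit 5) (nat_lit 4) (nat_lit 447) (nat_lit 266) (nat_lit 187)) (XT.nd (nat_lit 78) (nat_lit 0) (nat_lit 0) (XT.lf (nat_lit 0) (nat_lit 26357190401) (nat_lit 152) (nat_lit 42604965979) (nat_lit 0) (nat_lit 14989061408) (nat_lit 5) (nat_lit 5) (nat_lit 7) (nat_lit 4) (nat_lit 5) (nat_lit 4) (nat_lit 448) (nat_lit 266)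 (nat_lit 186)) (XT.lf (nat_lit 0) (nat_lit 31080945503) (nat_lit 152) (nat_lit 35580612911) (nat_lit 0) (nat_lit 19678472115) (nat_lit 5) (nat_lit 5) (nat_lit 7) (nat_lit 4) (nat_lit 5) (nat_lit 4) (nat_lit 449) (nat_lit 266) (nat_lit 185)))) (XT.nd (nat_lit 156) (nat_lit 152) (nat_lit 0) (XT.nd (nat_lit 78) (nat_lit 228) (nat_lit 0) (XT.lf (nat_lit 0) (nat_lit 4292453401) (nat_lit 228) (nat_lit 847931036) (nat_lit 228) (nat_lit 847931036) (nat_lit 61) (nat_lit 4) (nat_lit 64) (nat_lit 5) (nat_lit 64) (nat_lit 4) (nat_lit 366) (nat_lit 267) (nat_lit 267)) (XT.lf (nat_lit 0) (nat_lit 2907521435) (nat_lit 228) (nat_lit 6932840466) (nat_lit 0) (nat_lit 2338154534) (nat_lit 58) (nat_lit 5) (nat_lit 61) (nat_lit 4) (nat_lit 58) (nat_lit 4) (nat_lit 367) (nat_lit 267) (nat_lit 266))) (XT.nd (nat_lit 78) (nat_lit 0) (nat_lit 0) (XT.lf (nat_lit 0) (nat_lit 1652000165) (nat_lit 152) (nat_lit 5928584110) (nat_lit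 152) (nat_lit 4806433809) (nat_lit 56) (nat_lit 4) (nat_lit 58) (nat_lit 5) (nat_lit 58) (nat_lit 4) (nat_lit 368) (nat_lit 267) (nat_lit 265)) (XT.lf (nat_lit 0) (nat_lit 10465584817) (nat_lit 152) (nat_lit 1897981794) (nat_lit 152) (nat_lit 239148581) (nat_lit 56) (nat_lit 4) (nat_lit 58) (nat_lit 5) (nat_lit 58) (nat_lit 4) (nat_lit 369) (nat_lit 267) (nat_lit 264)))))) (XT.nd (nat_lit 468) (nat_lit 684) (nat_lit 0) (XT.nd (nat_lit 234) (nat_lit 380) (nat_lit 0) (XT.nd (nat_lit 78) (nat_lit 228) (nat_lit 0) (XT.lf (nat_lit 0) (nat_lit 4365522291) (nat_lit 228) (nat_lit 6209349214) (nat_lit 0) (nat_lit 2249129491) (nat_lit 53) (nat_lit 5) (nat_lit 56) (nat_lit 4) (nat_lit 53) (nat_lit 4) (nat_lit 370) (nat_lit 267) (nat_lit 263)) (XT.nd (nat_lit 78) (nat_lit 76) (nat_lit 0) (XT.lf (nat_lit 0) (nat_lit 2479980556) (nat_lit 152) (nat_lit 6590218405) (nat_lit 152) (nat_lit 3982684714) (nat_lit 51) (nat_lit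 4) (nat_lit 53) (nat_lit 5) (nat_lit 53) (nat_lit 4) (nat_lit 371) (nat_lit 267) (nat_lit 262)) (XT.lf (nat_lit 0) (nat_lit 580969642) (nat_lit 228) (nat_lit 1905001133) (nat_lit 76) (nat_lit 10803534070) (nat_lit 50) (nat_lit 5) (nat_lit 53) (nat_lit 5) (nat_lit 51) (nat_lit 4) (nat_lit 372) (nat_lit 267) (nat_lit 261)))) (XT.nd (nat_lit 78) (nat_lit 228) (nat_lit 0) (XT.lf (nat_lit 0) (nat_lit 5190815230) (nat_lit 228) (nat_lit 6594755318) (nat_lit 0) (nat_lit 1746818238) (nat_lit 48) (nat_lit 5) (nat_lit 51) (nat_lit 4) (nat_lit 48) (nat_lit 4) (nat_lit 373) (nat_lit 267) (nat_lit 260)) (XT.nd (nat_lit 78) (nat_lit 76) (nat_lit 0) (XT.lf (nat_lit 0) (nat_lit 2155355074) (nat_lit 152) (nat_lit 7754240261) (nat_lit 152) (nat_lit 3873870949) (nat_lit 46) (nat_lit 4) (nat_lit 48) (nat_lit 5) (nat_lit 48) (nat_lit 4) (nat_lit 374) (nat_lit 267) (nat_lit 259)) (XT.lf (nat_lit 0) (nat_lit 687022956) (nat_lit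 228) (nat_lit 2909375156) (nat_lit 76) (nat_lit 10446291898) (nat_lit 45) (nat_lit 5) (nat_lit 48) (nat_lit 5) (nat_lit 46) (nat_lit 4) (nat_lit 375) (nat_lit 267) (nat_lit 258))))) (XT.nd (nat_lit 234) (nat_lit 380) (nat_lit 0) (XT.nd (nat_lit 78) (nat_lit 152) (nat_lit 0) (XT.lf (nat_lit 0) (nat_lit 5280185637) (nat_lit 228) (nat_lit 8327007520) (nat_lit 0) (nat_lit 702171538) (nat_lit 43) (nat_lit 5) (nat_lit 46) (nat_lit 4) (nat_lit 43) (nat_lit 4) (nat_lit 376) (nat_lit 267) (nat_lit 257)) (XT.nd (nat_lit 78) (nat_lit 0) (nat_lit 0) (XT.lf (nat_lit 0) (nat_lit 429307469) (nat_lit 152) (nat_lit 9560559491) (nat_lit 152) (nat_lit 4594834237) (nat_lit 41) (nat_lit 4) (nat_lit 43) (nat_lit 5) (nat_lit 43) (nat_lit 4) (nat_lit 377) (nat_lit 267) (nat_lit 256)) (XT.lf (nat_lit 0) (nat_lit 9460087219) (nat_lit 152) (nat_lit 5375270730) (nat_lit 152) (nat_lit 33126879) (nat_lit 41) (nat_lit 4) (nat_lit 43)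 (nat_lit 5) (nat_lit 43) (nat_lit 4) (nat_lit 378) (nat_lit 267) (nat_lit 255)))) (XT.nd (nat_lit 156) (nat_lit 228) (nat_lit 0) (XT.nd (nat_lit 78) (nat_lit 0) (nat_lit 0) (XT.lf (nat_lit 0) (nat_lit 3467769117) (nat_lit 76) (nat_lit 1052116555) (nat_lit 152) (nat_lit 10641207399) (nat_lit 39) (nat_lit 5) (nat_lit 40) (nat_lit 5) (nat_lit 41) (nat_lit 4) (nat_lit 379) (nat_lit 267) (nat_lit 254)) (XT.lf (nat_lit 0) (nat_lit 9209248331) (nat_lit 152) (nat_lit 2929815382) (nat_lit 0) (nat_lit 3323413935) (nat_lit 39) (nat_lit 5) (nat_lit 41) (nat_lit 4) (nat_lit 39) (nat_lit 4) (nat_lit 380) (nat_lit 267) (nat_lit 253))) (XT.nd (nat_lit 78) (nat_lit 76) (nat_lit 0) (XT.lf (nat_lit 0) (nat_lit 6052339442) (nat_lit 152) (nat_lit 7970675087) (nat_lit 152) (nat_lit 1750397643) (nat_lit 37) (nat_lit 4) (nat_lit 39) (nat_lit 5) (nat_lit 39) (nat_lit 4) (nat_lit 381) (nat_lit 267) (nat_lit 252)) (XT.lf (nat_lit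 0) (nat_lit 2776354744) (nat_lit 228) (nat_lit 908979300) (nat_lit 76) (nat_lit 12409171477) (nat_lit 36) (nat_lit 5) (nat_lit 39) (nat_lit 5) (nat_lit 37) (nat_lit 4) (nat_lit 382) (nat_lit 267) (nat_lit 251))))))) (XT.nd (nat_lit 1014) (nat_lit 532) (nat_lit 0) (XT.nd (nat_lit 468) (nat_lit 456) (nat_lit 0) (XT.nd (nat_lit 234) (nat_lit 304) (nat_lit 0) (XT.nd (nat_lit 78) (nat_lit 152) (nat_lit 0) (XT.lf (nat_lit 0) (nat_lit 7407275961) (nat_lit 152) (nat_lit 8270483516) (nat_lit 0) (nat_lit 746864232) (nat_lit 35) (nat_lit 5) (nat_lit 37) (nat_lit 4) (nat_lit 35) (nat_lit 4) (nat_lit 383) (nat_lit 267) (nat_lit 250)) (XT.nd (nat_lit 78) (nat_lit 0) (nat_lit 0) (XT.lf (nat_lit 0) (nat_lit 569847228) (nat_lit 152) (nat_lit 11576647506) (nat_lit 152) (nat_lit 4619087461) (nat_lit 33) (nat_lit 4) (nat_lit 35) (nat_lit 5) (nat_lit 35) (nat_lit 4) (nat_lit 384) (nat_lit 267) (nat_lit 249)) (XT.lf (nat_lit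 0) (nat_lit 9698267165) (nat_lit 152) (nat_lit 7332247213) (nat_lit 152) (nat_lit 86193657) (nat_lit 33) (nat_lit 4) (nat_lit 35) (nat_lit 5) (nat_lit 35) (nat_lit 4) (nat_lit 385) (nat_lit 267) (nat_lit 248)))) (XT.nd (nat_lit 78) (nat_lit 152) (nat_lit 0) (XT.lf (nat_lit 0) (nat_lit 1462681544) (nat_lit 76) (nat_lit 2965311503) (nat_lit 152) (nat_lit 13051027468) (nat_lit 31) (nat_lit 5) (nat_lit 32) (nat_lit 5) (nat_lit 33) (nat_lit 4) (nat_lit 386) (nat_lit 267) (nat_lit 247)) (XT.nd (nat_lit 78) (nat_lit 152) (nat_lit 0) (XT.lf (nat_lit 0) (nat_lit 9087252738) (nat_lit 152) (nat_lit 7248294439) (nat_lit 0) (nat_lit 1516304053) (nat_lit 31) (nat_lit 5) (nat_lit 33) (nat_lit 4) (nat_lit 31) (nat_lit 4) (nat_lit 387) (nat_lit 267) (nat_lit 246)) (XT.lf (nat_lit 0) (nat_lit 1645423427) (nat_lit 152) (nat_lit 12209338067) (nat_lit 152) (nat_lit 4382066634) (nat_lit 29) (nat_lit 4) (nat_lit 31) (nat_lit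 5) (nat_lit 31) (nat_lit 4) (nat_lit 388) (nat_lit 267) (nat_lit 245))))) (XT.nd (nat_lit 234) (nat_lit 304) (nat_lit 0) (XT.nd (nat_lit 78) (nat_lit 76) (nat_lit 0) (XT.lf (nat_lit 0) (nat_lit 126714969) (nat_lit 228) (nat_lit 7818897081) (nat_lit 76) (nat_lit 10687798292) (nat_lit 28) (nat_lit 5) (nat_lit 31) (nat_lit 5) (nat_lit 29) (nat_lit 4) (nat_lit 389) (nat_lit 267) (nat_lit 244)) (XT.nd (nat_lit 78) (nat_lit 0) (nat_lit 0) (XT.lf (nat_lit 0) (nat_lit 1057845885) (nat_lit 76) (nat_lit 3560667970) (nat_lit 152) (nat_lit 14424013783) (nat_lit 27) (nat_lit 5) (nat_lit 28) (nat_lit 5) (nat_lit 29) (nat_lit 4) (nat_lit 390) (nat_lit 267) (nat_lit 243)) (XT.lf (nat_lit 0) (nat_lit 9259931081) (nat_lit 152) (nat_lit 9246836534) (nat_lit 0) (nat_lit 956718588) (nat_lit 27) (nat_lit 5) (nat_lit 29) (nat_lit 4) (nat_lit 27) (nat_lit 4) (nat_lit 391) (nat_lit 267) (nat_lit 242)))) (XT.nd (nat_lit 156) (nat_lit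 152) (nat_lit 0) (XT.nd (nat_lit 78) (nat_lit 152) (nat_lit 0) (XT.lf (nat_lit 0) (nat_lit 14003941208) (nat_lit 152) (nat_lit 414622625) (nat_lit 0) (nat_lit 5479622461) (nat_lit 27) (nat_lit 5) (nat_lit 29) (nat_lit 4) (nat_lit 27) (nat_lit 4) (nat_lit 392) (nat_lit 267) (nat_lit 241)) (XT.lf (nat_lit 0) (nat_lit 8724144236) (nat_lit 152) (nat_lit 10180179745) (nat_lit 152) (nat_lit 1441194732) (nat_lit 25) (nat_lit 4) (nat_lit 27) (nat_lit 5) (nat_lit 27) (nat_lit 4) (nat_lit 393) (nat_lit 267) (nat_lit 240))) (XT.nd (nat_lit 78) (nat_lit 76) (nat_lit 0) (XT.lf (nat_lit 0) (nat_lit 3018600258) (nat_lit 228) (nat_lit 2819640338) (nat_lit 76) (nat_lit 14969099621) (nat_lit 24) (nat_lit 5) (nat_lit 27) (nat_lit 5) (nat_lit 25) (nat_lit 4) (nat_lit 394) (nat_lit 267) (nat_lit 239)) (XT.lf (nat_lit 0) (nat_lit 6228374907) (nat_lit 76) (nat_lit 1347052341) (nat_lit 152) (nat_lit 13707406699) (nat_lit 23)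 (nat_lit 5) (nat_lit 24) (nat_lit 5) (nat_lit 25) (nat_lit 4) (nat_lit 395) (nat_lit 267) (nat_lit 238)))))) (XT.nd (nat_lit 546) (nat_lit 228) (nat_lit 0) (XT.nd (nat_lit 234) (nat_lit 228) (nat_lit 0) (XT.nd (nat_lit 78) (nat_lit 76) (nat_lit 0) (XT.lf (nat_lit 0) (nat_lit 12261799558) (nat_lit 152) (nat_lit 6323192865) (nat_lit 0) (nat_lit 3187826306) (nat_lit 23) (nat_lit 5) (nat_lit 25) (nat_lit 4) (nat_lit 23) (nat_lit 4) (nat_lit 396) (nat_lit 267) (nat_lit 237)) (XT.nd (nat_lit 78) (nat_lit 0) (nat_lit 0) (XT.lf (nat_lit 0) (nat_lit 2585490840) (nat_lit 76) (nat_lit 14475993972) (nat_lit 76) (nat_lit 5216847713) (nat_lit 22) (nat_lit 4) (nat_lit 23) (nat_lit 5) (nat_lit 23) (nat_lit 4) (nat_lit 397) (nat_lit 267) (nat_lit 236)) (XT.lf (nat_lit 0) (nat_lit 11770611278) (nat_lit 76) (nat_lit 10233681584) (nat_lit 76) (nat_lit 794755707) (nat_lit 22) (nat_lit 4) (nat_lit 23) (nat_lit 5) (nat_lit 23)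 (nat_lit 4) (nat_lit 398) (nat_lit 267) (nat_lit 235)))) (XT.nd (nat_lit 156) (nat_lit 76) (nat_lit 0) (XT.nd (nat_lit 78) (nat_lit 76) (nat_lit 0) (XT.lf (nat_lit 0) (nat_lit 3623160954) (nat_lit 152) (nat_lit 2258452457) (nat_lit 76) (nat_lit 17454602567) (nat_lit 21) (nat_lit 5) (nat_lit 23) (nat_lit 5) (nat_lit 22) (nat_lit 4) (nat_lit 399) (nat_lit 267) (nat_lit 234)) (XT.lf (nat_lit 0) (nat_lit 6784385528) (nat_lit 76) (nat_lit 1376853021) (nat_lit 152) (nat_lit 15727925761) (nat_lit 20) (nat_lit 5) (nat_lit 21) (nat_lit 5) (nat_lit 22) (nat_lit 4) (nat_lit 400) (nat_lit 267) (nat_lit 233))) (XT.nd (nat_lit 78) (nat_lit 76) (nat_lit 0) (XT.lf (nat_lit 0) (nat_lit 12828433740) (nat_lit 152) (nat_lit 8459774869) (nat_lit 0) (nat_lit 3170712821) (nat_lit 20) (nat_lit 5) (nat_lit 22) (nat_lit 4) (nat_lit 20) (nat_lit 4) (nat_lit 401) (nat_lit 267) (nat_lit 232)) (XT.lf (nat_lit 0) (nat_lit 325680370)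 (nat_lit 76) (nat_lit 17267093368) (nat_lit 76) (nat_lit 7454292971) (nat_lit 19) (nat_lit 4) (nat_lit 20) (nat_lit 5) (nat_lit 20) (nat_lit 4) (nat_lit 402) (nat_lit 267) (nat_lit 231))))) (XT.nd (nat_lit 234) (nat_lit 76) (nat_lit 0) (XT.nd (nat_lit 78) (nat_lit 152) (nat_lit 0) (XT.lf (nat_lit 0) (nat_lit 9437588909) (nat_lit 76) (nat_lit 13088922724) (nat_lit 76) (nat_lit 3125559727) (nat_lit 19) (nat_lit 4) (nat_lit 20) (nat_lit 5) (nat_lit 20) (nat_lit 4) (nat_lit 403) (nat_lit 267) (nat_lit 230)) (XT.nd (nat_lit 78) (nat_lit 76) (nat_lit 0) (XT.lf (nat_lit 0) (nat_lit 1249205648) (nat_lit 152) (nat_lit 7573652811) (nat_lit 76) (nat_lit 17453726324) (nat_lit 18) (nat_lit 5) (nat_lit 20) (nat_lit 5) (nat_lit 19) (nat_lit 4) (nat_lit 404) (nat_lit 267) (nat_lit 229)) (XT.lf (nat_lit 0) (nat_lit 1213833684) (nat_lit 76) (nat_lit 4434094223) (nat_lit 152) (nat_lit 21272319557) (nat_lit 17) (nat_lit 5)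 (nat_lit 18) (nat_lit 5) (nat_lit 19) (nat_lit 4) (nat_lit 405) (nat_lit 267) (nat_lit 228)))) (XT.nd (nat_lit 156) (nat_lit 76) (nat_lit 0) (XT.nd (nat_lit 78) (nat_lit 0) (nat_lit 0) (XT.lf (nat_lit 0) (nat_lit 10200708189) (nat_lit 152) (nat_lit 17267795469) (nat_lit 0) (nat_lit 114061513) (nat_lit 17) (nat_lit 5) (nat_lit 19) (nat_lit 4) (nat_lit 17) (nat_lit 4) (nat_lit 406) (nat_lit 267) (nat_lit 227)) (XT.lf (nat_lit 0) (nat_lit 14879634197) (nat_lit 152) (nat_lit 8722328244) (nat_lit 0) (nat_lit 4663110900) (nat_lit 17) (nat_lit 5) (nat_lit 19) (nat_lit 4) (nat_lit 17) (nat_lit 4) (nat_lit 407) (nat_lit 267) (nat_lit 226))) (XT.nd (nat_lit 78) (nat_lit 76) (nat_lit 0) (XT.lf (nat_lit 0) (nat_lit 19646171088) (nat_lit 152) (nat_lit 19921964) (nat_lit 0) (nat_lit 9303553984) (nat_lit 17) (nat_lit 5) (nat_lit 19) (nat_lit 4) (nat_lit 17) (nat_lit 4) (nat_lit 408) (nat_lit 267) (nat_lit 225)) (XT.lf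 (nat_lit 0) (nat_lit 9023100604) (nat_lit 76) (nat_lit 15568118755) (nat_lit 76) (nat_lit 5103080479) (nat_lit 16) (nat_lit 4) (nat_lit 17) (nat_lit 5) (nat_lit 17) (nat_lit 4) (nat_lit 409) (nat_lit 267) (nat_lit 224))))))))
noncomputable def xc34 : XT := (XT.nd (nat_lit 2028) (nat_lit 228) (nat_lit 0) (XT.nd (nat_lit 1014) (nat_lit 228) (nat_lit 0) (XT.nd (nat_lit 468) (nat_lit 228) (nat_lit 0) (XT.nd (nat_lit 234) (nat_lit 0) (nat_lit 0) (XT.nd (nat_lit 78) (nat_lit 152) (nat_lit 0) (XT.lf (nat_lit 0) (nat_lit 18242239506) (nat_lit 76) (nat_lit 11391933512) (nat_lit 76) (nat_lit 808039730) (nat_lit 16) (nat_lit 4) (nat_lit 17) (nat_lit 5) (nat_lit 17) (nat_lit 4) (nat_lit 410) (nat_lit 267) (nat_lit 223)) (XT.nd (nat_lit 78) (nat_lit 76) (nat_lit 0) (XT.lf (nat_lit 0) (nat_lit 3495628219) (nat_lit 152) (nat_lit 3603162192) (nat_lit 76) (nat_lit 24114226600) (nat_lit 15) (nat_lit 5) (nat_lit 17) (nat_lit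 5) (nat_lit 16) (nat_lit 4) (nat_lit 411) (nat_lit 267) (nat_lit 222)) (XT.lf (nat_lit 0) (nat_lit 5255035387) (nat_lit 76) (nat_lit 2659425489) (nat_lit 152) (nat_lit 24092182184) (nat_lit 14) (nat_lit 5) (nat_lit 15) (nat_lit 5) (nat_lit 16) (nat_lit 4) (nat_lit 412) (nat_lit 267) (nat_lit 221)))) (XT.nd (nat_lit 78) (nat_lit 0) (nat_lit 0) (XT.lf (nat_lit 0) (nat_lit 12472903829) (nat_lit 152) (nat_lit 18480094167) (nat_lit 0) (nat_lit 1870874879) (nat_lit 14) (nat_lit 5) (nat_lit 16) (nat_lit 4) (nat_lit 14) (nat_lit 4) (nat_lit 413) (nat_lit 267) (nat_lit 220)) (XT.nd (nat_lit 78) (nat_lit 0) (nat_lit 0) (XT.lf (nat_lit 0) (nat_lit 17147741804) (nat_lit 152) (nat_lit 10075307637) (nat_lit 0) (nat_lit 6443187050) (nat_lit 14) (nat_lit 5) (nat_lit 16) (nat_lit 4) (nat_lit 14) (nat_lit 4) (nat_lit 414) (nat_lit 267) (nat_lit 219)) (XT.lf (nat_lit 0) (nat_lit 21917495586) (nat_lit 152) (nat_lit 1504340070)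 (nat_lit 0) (nat_lit 11113401217) (nat_lit 14) (nat_lit 5) (nat_lit 16) (nat_lit 4) (nat_lit 14) (nat_lit 4) (nat_lit 415) (nat_lit 267) (nat_lit 218))))) (XT.nd (nat_lit 234) (nat_lit 152) (nat_lit 0) (XT.nd (nat_lit 78) (nat_lit 0) (nat_lit 0) (XT.lf (nat_lit 0) (nat_lit 7384393848) (nat_lit 76) (nat_lit 19472922385) (nat_lit 76) (nat_lit 8572187612) (nat_lit 13) (nat_lit 4) (nat_lit 14) (nat_lit 5) (nat_lit 14) (nat_lit 4) (nat_lit 416) (nat_lit 267) (nat_lit 217)) (XT.nd (nat_lit 78) (nat_lit 0) (nat_lit 0) (XT.lf (nat_lit 0) (nat_lit 16487986710) (nat_lit 76) (nat_lit 15429014042) (nat_lit 76) (nat_lit 4434453634) (nat_lit 13) (nat_lit 4) (nat_lit 14) (nat_lit 5) (nat_lit 14) (nat_lit 4) (nat_lit 417) (nat_lit 267) (nat_lit 216)) (XT.lf (nat_lit 0) (nat_lit 25784453792) (nat_lit 76) (nat_lit 11301767999) (nat_lit 76) (nat_lit 216114742) (nat_lit 13) (nat_lit 4) (nat_lit 14) (nat_lit 5) (nat_lit 14)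 (nat_lit 4) (nat_lit 418) (nat_lit 267) (nat_lit 215)))) (XT.nd (nat_lit 156) (nat_lit 0) (nat_lit 0) (XT.nd (nat_lit 78) (nat_lit 76) (nat_lit 0) (XT.lf (nat_lit 0) (nat_lit 4006772362) (nat_lit 152) (nat_lit 3040345019) (nat_lit 76) (nat_lit 31234685315) (nat_lit 12) (nat_lit 5) (nat_lit 14) (nat_lit 5) (nat_lit 13) (nat_lit 4) (nat_lit 419) (nat_lit 267) (nat_lit 214)) (XT.lf (nat_lit 0) (nat_lit 5724654257) (nat_lit 76) (nat_lit 2642149151) (nat_lit 152) (nat_lit 30923346220) (nat_lit 11) (nat_lit 5) (nat_lit 12) (nat_lit 5) (nat_lit 13) (nat_lit 4) (nat_lit 420) (nat_lit 267) (nat_lit 213))) (XT.nd (nat_lit 78) (nat_lit 0) (nat_lit 0) (XT.lf (nat_lit 0) (nat_lit 12866727686) (nat_lit 152) (nat_lit 25607955266) (nat_lit 0) (nat_lit 1853796109) (nat_lit 11) (nat_lit 5) (nat_lit 13) (nat_lit 4) (nat_lit 11) (nat_lit 4) (nat_lit 421) (nat_lit 267) (nat_lit 212)) (XT.lf (nat_lit 0) (nat_lit 17488849592)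 (nat_lit 152) (nat_lit 17512156984) (nat_lit 0) (nat_lit 6397340523) (nat_lit 11) (nat_lit 5) (nat_lit 13) (nat_lit 4) (nat_lit 11) (nat_lit 4) (nat_lit 422) (nat_lit 267) (nat_lit 211)))))) (XT.nd (nat_lit 468) (nat_lit 152) (nat_lit 0) (XT.nd (nat_lit 234) (nat_lit 0) (nat_lit 0) (XT.nd (nat_lit 78) (nat_lit 76) (nat_lit 0) (XT.lf (nat_lit 0) (nat_lit 22211809919) (nat_lit 152) (nat_lit 9245628575) (nat_lit 0) (nat_lit 11044012024) (nat_lit 11) (nat_lit 5) (nat_lit 13) (nat_lit 4) (nat_lit 11) (nat_lit 4) (nat_lit 423) (nat_lit 267) (nat_lit 210)) (XT.nd (nat_lit 78) (nat_lit 76) (nat_lit 0) (XT.lf (nat_lit 0) (nat_lit 27039735527) (nat_lit 152) (nat_lit 801146858) (nat_lit 0) (nat_lit 15797870810) (nat_lit 11) (nat_lit 5) (nat_lit 13) (nat_lit 4) (nat_lit 11) (nat_lit 4) (nat_lit 424) (nat_lit 267) (nat_lit 209)) (XT.lf (nat_lit 0) (nat_lit 7984472659) (nat_lit 76) (nat_lit 24069123967) (nat_lit 76)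 (nat_lit 12755349714) (nat_lit 10) (nat_lit 4) (nat_lit 11) (nat_lit 5) (nat_lit 11) (nat_lit 4) (nat_lit 425) (nat_lit 267) (nat_lit 208)))) (XT.nd (nat_lit 78) (nat_lit 0) (nat_lit 0) (XT.lf (nat_lit 0) (nat_lit 16982747709) (nat_lit 76) (nat_lit 20207953142) (nat_lit 76) (nat_lit 8824363804) (nat_lit 10) (nat_lit 4) (nat_lit 11) (nat_lit 5) (nat_lit 11) (nat_lit 4) (nat_lit 426) (nat_lit 267) (nat_lit 207)) (XT.nd (nat_lit 78) (nat_lit 0) (nat_lit 0) (XT.lf (nat_lit 0) (nat_lit 26185596468) (nat_lit 76) (nat_lit 16262086082) (nat_lit 76) (nat_lit 4810715110) (nat_lit 10) (nat_lit 4) (nat_lit 11) (nat_lit 5) (nat_lit 11) (nat_lit 4) (nat_lit 427) (nat_lit 267) (nat_lit 206)) (XT.lf (nat_lit 0) (nat_lit 35601060259) (nat_lit 76) (nat_lit 12228074944) (nat_lit 76) (nat_lit 710896560) (nat_lit 10) (nat_lit 4) (nat_lit 11) (nat_lit 5) (nat_lit 11) (nat_lit 4) (nat_lit 428) (nat_lit 267) (nat_lit 205)))))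 (XT.nd (nat_lit 234) (nat_lit 0) (nat_lit 0) (XT.nd (nat_lit 78) (nat_lit 76) (nat_lit 0) (XT.lf (nat_lit 0) (nat_lit 3410792748) (nat_lit 152) (nat_lit 4657159797) (nat_lit 76) (nat_lit 41792131120) (nat_lit 9) (nat_lit 5) (nat_lit 11) (nat_lit 5) (nat_lit 10) (nat_lit 4) (nat_lit 429) (nat_lit 267) (nat_lit 204)) (XT.nd (nat_lit 78) (nat_lit 0) (nat_lit 0) (XT.lf (nat_lit 0) (nat_lit 3881346359) (nat_lit 76) (nat_lit 3766163607) (nat_lit 152) (nat_lit 43571849650) (nat_lit 8) (nat_lit 5) (nat_lit 9) (nat_lit 5) (nat_lit 10) (nat_lit 4) (nat_lit 430) (nat_lit 267) (nat_lit 203)) (XT.lf (nat_lit 0) (nat_lit 12033639052) (nat_lit 152) (nat_lit 39913918467) (nat_lit 0) (nat_lit 671190529) (nat_lit 8) (nat_lit 5) (nat_lit 10) (nat_lit 4) (nat_lit 8) (nat_lit 4) (nat_lit 431) (nat_lit 267) (nat_lit 202)))) (XT.nd (nat_lit 156) (nat_lit 0) (nat_lit 0) (XT.nd (nat_lit 78) (nat_lit 0) (nat_lit 0) (XT.lf (nat_lit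 0) (nat_lit 16557987594) (nat_lit 152) (nat_lit 32363161863) (nat_lit 0) (nat_lit 5138773019) (nat_lit 8) (nat_lit 5) (nat_lit 10) (nat_lit 4) (nat_lit 8) (nat_lit 4) (nat_lit 432) (nat_lit 267) (nat_lit 201)) (XT.lf (nat_lit 0) (nat_lit 21188306238) (nat_lit 152) (nat_lit 24642943027) (nat_lit 0) (nat_lit 9713978992) (nat_lit 8) (nat_lit 5) (nat_lit 10) (nat_lit 4) (nat_lit 8) (nat_lit 4) (nat_lit 433) (nat_lit 267) (nat_lit 200))) (XT.nd (nat_lit 78) (nat_lit 0) (nat_lit 0) (XT.lf (nat_lit 0) (nat_lit 25928640894) (nat_lit 152) (nat_lit 16746516139) (nat_lit 0) (nat_lit 14400806200) (nat_lit 8) (nat_lit 5) (nat_lit 10) (nat_lit 4) (nat_lit 8) (nat_lit 4) (nat_lit 434) (nat_lit 267) (nat_lit 199)) (XT.lf (nat_lit 0) (nat_lit 30783133603) (nat_lit 152) (nat_lit 8666981406) (nat_lit 0) (nat_lit 19203349929) (nat_lit 8) (nat_lit 5) (nat_lit 10) (nat_lit 4) (nat_lit 8) (nat_lit 4) (nat_lit 435) (nat_lit 267)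 (nat_lit 198))))))) (XT.nd (nat_lit 1014) (nat_lit 0) (nat_lit 0) (XT.nd (nat_lit 468) (nat_lit 152) (nat_lit 0) (XT.nd (nat_lit 234) (nat_lit 0) (nat_lit 0) (XT.nd (nat_lit 78) (nat_lit 76) (nat_lit 0) (XT.lf (nat_lit 0) (nat_lit 35756026152) (nat_lit 152) (nat_lit 397279042) (nat_lit 0) (nat_lit 24125806577) (nat_lit 8) (nat_lit 5) (nat_lit 10) (nat_lit 4) (nat_lit 8) (nat_lit 4) (nat_lit 436) (nat_lit 267) (nat_lit 197)) (XT.nd (nat_lit 78) (nat_lit 0) (nat_lit 0) (XT.lf (nat_lit 0) (nat_lit 8230422085) (nat_lit 76) (nat_lit 32700357556) (nat_lit 76) (nat_lit 21021171086) (nat_lit 7) (nat_lit 4) (nat_lit 8) (nat_lit 5) (nat_lit 8) (nat_lit 4) (nat_lit 437) (nat_lit 267) (nat_lit 196)) (XT.lf (nat_lit 0) (nat_lit 17074897626) (nat_lit 76) (nat_lit 29163735749) (nat_lit 76) (nat_lit 17437008603) (nat_lit 7) (nat_lit 4) (nat_lit 8) (nat_lit 5) (nat_lit 8) (nat_lit 4) (nat_lit 438) (nat_lit 267) (nat_lit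 195)))) (XT.nd (nat_lit 78) (nat_lit 0) (nat_lit 0) (XT.lf (nat_lit 0) (nat_lit 26135969131) (nat_lit 76) (nat_lit 25544361259) (nat_lit 76) (nat_lit 13771478119) (nat_lit 7) (nat_lit 4) (nat_lit 8) (nat_lit 5) (nat_lit 8) (nat_lit 4) (nat_lit 439) (nat_lit 267) (nat_lit 194)) (XT.nd (nat_lit 78) (nat_lit 0) (nat_lit 0) (XT.lf (nat_lit 0) (nat_lit 35421554040) (nat_lit 76) (nat_lit 21839071528) (nat_lit 76) (nat_lit 10021376742) (nat_lit 7) (nat_lit 4) (nat_lit 8) (nat_lit 5) (nat_lit 8) (nat_lit 4) (nat_lit 440) (nat_lit 267) (nat_lit 193)) (XT.lf (nat_lit 0) (nat_lit 44939765972) (nat_lit 76) (nat_lit 18044628923) (nat_lit 76) (nat_lit 6183427685) (nat_lit 7) (nat_lit 4) (nat_lit 8) (nat_lit 5) (nat_lit 8) (nat_lit 4) (nat_lit 441) (nat_lit 267) (nat_lit 192))))) (XT.nd (nat_lit 234) (nat_lit 76) (nat_lit 0) (XT.nd (nat_lit 78) (nat_lit 76) (nat_lit 0) (XT.lf (nat_lit 0) (nat_lit 54698921811) (nat_lit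 76) (nat_lit 14157717911) (nat_lit 76) (nat_lit 2254277400) (nat_lit 7) (nat_lit 4) (nat_lit 8) (nat_lit 5) (nat_lit 8) (nat_lit 4) (nat_lit 442) (nat_lit 267) (nat_lit 191)) (XT.nd (nat_lit 78) (nat_lit 0) (nat_lit 0) (XT.lf (nat_lit 0) (nat_lit 1734977888) (nat_lit 152) (nat_lit 8422444400) (nat_lit 76) (nat_lit 62955051210) (nat_lit 6) (nat_lit 5) (nat_lit 8) (nat_lit 5) (nat_lit 7) (nat_lit 4) (nat_lit 443) (nat_lit 267) (nat_lit 190)) (XT.lf (nat_lit 0) (nat_lit 5776479232) (nat_lit 152) (nat_lit 258011238) (nat_lit 76) (nat_lit 69139582517) (nat_lit 6) (nat_lit 5) (nat_lit 8) (nat_lit 5) (nat_lit 7) (nat_lit 4) (nat_lit 444) (nat_lit 267) (nat_lit 189)))) (XT.nd (nat_lit 156) (nat_lit 0) (nat_lit 0) (XT.nd (nat_lit 78) (nat_lit 0) (nat_lit 0) (XT.lf (nat_lit 0) (nat_lit 8271514682) (nat_lit 76) (nat_lit 1725743289) (nat_lit 152) (nat_lit 67298523774) (nat_lit 5) (nat_lit 5) (nat_lit 6) (nat_lit 5)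 (nat_lit 7) (nat_lit 4) (nat_lit 445) (nat_lit 267) (nat_lit 188)) (XT.lf (nat_lit 0) (nat_lit 14351929333) (nat_lit 152) (nat_lit 62486240071) (nat_lit 0) (nat_lit 2642756471) (nat_lit 5) (nat_lit 5) (nat_lit 7) (nat_lit 4) (nat_lit 5) (nat_lit 4) (nat_lit 446) (nat_lit 267) (nat_lit 187))) (XT.nd (nat_lit 78) (nat_lit 0) (nat_lit 0) (XT.lf (nat_lit 0) (nat_lit 18833517786) (nat_lit 152) (nat_lit 55809250164) (nat_lit 0) (nat_lit 7088970196) (nat_lit 5) (nat_lit 5) (nat_lit 7) (nat_lit 4) (nat_lit 5) (nat_lit 4) (nat_lit 447) (nat_lit 267) (nat_lit 186)) (XT.lf (nat_lit 0) (nat_lit 23429350380) (nat_lit 152) (nat_lit 48970874179) (nat_lit 0) (nat_lit 11650458395) (nat_lit 5) (nat_lit 5) (nat_lit 7) (nat_lit 4) (nat_lit 5) (nat_lit 4) (nat_lit 448) (nat_lit 267) (nat_lit 185)))))) (XT.nd (nat_lit 40716) (nat_lit 0) (nat_lit 2888) (XT.nd (nat_lit 40404) (nat_lit 0) (nat_lit 3800) (XT.nd (nat_lit 40248)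 (nat_lit 0) (nat_lit 4484) (XT.lf (nat_lit 0) (nat_lit 28143442891) (nat_lit 152) (nat_lit 41965136835) (nat_lit 0) (nat_lit 16331206834) (nat_lit 5) (nat_lit 5) (nat_lit 7) (nat_lit 4) (nat_lit 5) (nat_lit 4) (nat_lit 449) (nat_lit 267) (nat_lit 184)) (XT.nd (nat_lit 78) (nat_lit 0) (nat_lit 0) (XT.lf (nat_lit 0) (nat_lit 778316463) (nat_lit 228) (nat_lit 4238072098) (nat_lit 0) (nat_lit 778316463) (nat_lit 64) (nat_lit 5) (nat_lit 67) (nat_lit 4) (nat_lit 64) (nat_lit 4) (nat_lit 364) (nat_lit 268) (nat_lit 268)) (XT.lf (nat_lit 0) (nat_lit 6136037776) (nat_lit 228) (nat_lit 112588941) (nat_lit 0) (nat_lit 5531996430) (nat_lit 64) (nat_lit 5) (nat_lit 67) (nat_lit 4) (nat_lit 64) (nat_lit 4) (nat_lit 365) (nat_lit 268) (nat_lit 267)))) (XT.nd (nat_lit 156) (nat_lit 228) (nat_lit 0) (XT.nd (nat_lit 78) (nat_lit 228) (nat_lit 0) (XT.lf (nat_lit 0) (nat_lit 8501246499) (nat_lit 228) (nat_lit 2333693579)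 (nat_lit 228) (nat_lit 1143204325) (nat_lit 61) (nat_lit 4) (nat_lit 64) (nat_lit 5) (nat_lit 64) (nat_lit 4) (nat_lit 366) (nat_lit 268) (nat_lit 266)) (XT.lf (nat_lit 0) (nat_lit 3392372699) (nat_lit 228) (nat_lit 7105450350) (nat_lit 0) (nat_lit 1683774490) (nat_lit 58) (nat_lit 5) (nat_lit 61) (nat_lit 4) (nat_lit 58) (nat_lit 4) (nat_lit 367) (nat_lit 268) (nat_lit 265))) (XT.nd (nat_lit 78) (nat_lit 76) (nat_lit 0) (XT.lf (nat_lit 0) (nat_lit 1391759128) (nat_lit 152) (nat_lit 6622584904) (nat_lit 152) (nat_lit 4377303783) (nat_lit 56) (nat_lit 4) (nat_lit 58) (nat_lit 5) (nat_lit 58) (nat_lit 4) (nat_lit 368) (nat_lit 268) (nat_lit 264)) (XT.lf (nat_lit 0) (nat_lit 137823809) (nat_lit 228) (nat_lit 2486550159) (nat_lit 76) (nat_lit 9984384650) (nat_lit 55) (nat_lit 5) (nat_lit 58) (nat_lit 5) (nat_lit 56) (nat_lit 4) (nat_lit 369) (nat_lit 268) (nat_lit 263))))) (XT.nd (nat_lit 234) (nat_lit 532)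 (nat_lit 0) (XT.nd (nat_lit 78) (nat_lit 228) (nat_lit 0) (XT.lf (nat_lit 0) (nat_lit 4679231634) (nat_lit 228) (nat_lit 6650185206) (nat_lit 0) (nat_lit 1502331042) (nat_lit 53) (nat_lit 5) (nat_lit 56) (nat_lit 4) (nat_lit 53) (nat_lit 4) (nat_lit 370) (nat_lit 268) (nat_lit 262)) (XT.nd (nat_lit 78) (nat_lit 76) (nat_lit 0) (XT.lf (nat_lit 0) (nat_lit 1948151643) (nat_lit 152) (nat_lit 7383892677) (nat_lit 152) (nat_lit 3730156269) (nat_lit 51) (nat_lit 4) (nat_lit 53) (nat_lit 5) (nat_lit 53) (nat_lit 4) (nat_lit 371) (nat_lit 268) (nat_lit 261)) (XT.lf (nat_lit 0) (nat_lit 781942571) (nat_lit 228) (nat_lit 2529340383) (nat_lit 76) (nat_lit 9988878116) (nat_lit 50) (nat_lit 5) (nat_lit 53) (nat_lit 5) (nat_lit 51) (nat_lit 4) (nat_lit 372) (nat_lit 268) (nat_lit 260)))) (XT.nd (nat_lit 156) (nat_lit 228) (nat_lit 0) (XT.nd (nat_lit 78) (nat_lit 152) (nat_lit 0) (XT.lf (nat_lit 0) (nat_lit 5331308520)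 (nat_lit 228) (nat_lit 7315407985) (nat_lit 0) (nat_lit 898155808) (nat_lit 48) (nat_lit 5) (nat_lit 51) (nat_lit 4) (nat_lit 48) (nat_lit 4) (nat_lit 373) (nat_lit 268) (nat_lit 259)) (XT.lf (nat_lit 0) (nat_lit 1340112539) (nat_lit 152) (nat_lit 8657125245) (nat_lit 152) (nat_lit 3800310087) (nat_lit 46) (nat_lit 4) (nat_lit 48) (nat_lit 5) (nat_lit 48) (nat_lit 4) (nat_lit 374) (nat_lit 268) (nat_lit 258))) (XT.nd (nat_lit 78) (nat_lit 152) (nat_lit 0) (XT.lf (nat_lit 0) (nat_lit 714244271) (nat_lit 228) (nat_lit 3818222050) (nat_lit 76) (nat_lit 9525643004) (nat_lit 45) (nat_lit 5) (nat_lit 48) (nat_lit 5) (nat_lit 46) (nat_lit 4) (nat_lit 375) (nat_lit 268) (nat_lit 257)) (XT.lf (nat_lit 0) (nat_lit 4984470045) (nat_lit 152) (nat_lit 262796189) (nat_lit 228) (nat_lit 9079333470) (nat_lit 43) (nat_lit 5) (nat_lit 45) (nat_lit 5) (nat_lit 46) (nat_lit 4) (nat_lit 376) (nat_lit 268) (nat_lit 256))))))))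
noncomputable def xc35 : XT := (XT.nd (nat_lit 2028) (nat_lit 836) (nat_lit 0) (XT.nd (nat_lit 1014) (nat_lit 684) (nat_lit 0) (XT.nd (nat_lit 468) (nat_lit 532) (nat_lit 0) (XT.nd (nat_lit 234) (nat_lit 228) (nat_lit 0) (XT.nd (nat_lit 78) (nat_lit 304) (nat_lit 0) (XT.lf (nat_lit 0) (nat_lit 9906925380) (nat_lit 228) (nat_lit 668424011) (nat_lit 0) (nat_lit 4028098618) (nat_lit 43) (nat_lit 5) (nat_lit 46) (nat_lit 4) (nat_lit 43) (nat_lit 4) (nat_lit 377) (nat_lit 268) (nat_lit 255)) (XT.nd (nat_lit 78) (nat_lit 152) (nat_lit 0) (XT.lf (nat_lit 0) (nat_lit 8273047155) (nat_lit 152) (nat_lit 6429979353) (nat_lit 152) (nat_lit 185697642) (nat_lit 41) (nat_lit 4) (nat_lit 43) (nat_lit 5) (nat_lit 43) (nat_lit 4) (nat_lit 378) (nat_lit 268) (nat_lit 254)) (XT.lf (nat_lit 0) (nat_lit 2161834676) (nat_lit 76) (nat_lit 2153892918) (nat_lit 152) (nat_lit 10867295927) (nat_lit 39) (nat_lit 5) (nat_lit 40) (nat_lit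 5) (nat_lit 41) (nat_lit 4) (nat_lit 379) (nat_lit 268) (nat_lit 253)))) (XT.nd (nat_lit 78) (nat_lit 228) (nat_lit 0) (XT.lf (nat_lit 0) (nat_lit 8952689883) (nat_lit 152) (nat_lit 4321939054) (nat_lit 0) (nat_lit 2211361068) (nat_lit 39) (nat_lit 5) (nat_lit 41) (nat_lit 4) (nat_lit 39) (nat_lit 4) (nat_lit 380) (nat_lit 268) (nat_lit 252)) (XT.nd (nat_lit 78) (nat_lit 76) (nat_lit 0) (XT.lf (nat_lit 0) (nat_lit 4558393871) (nat_lit 152) (nat_lit 9153109821) (nat_lit 152) (nat_lit 2087079018) (nat_lit 37) (nat_lit 4) (nat_lit 39) (nat_lit 5) (nat_lit 39) (nat_lit 4) (nat_lit 381) (nat_lit 268) (nat_lit 251)) (XT.lf (nat_lit 0) (nat_lit 2405735963) (nat_lit 228) (nat_lit 2497631444) (nat_lit 76) (nat_lit 11217630016) (nat_lit 36) (nat_lit 5) (nat_lit 39) (nat_lit 5) (nat_lit 37) (nat_lit 4) (nat_lit 382) (nat_lit 268) (nat_lit 250))))) (XT.nd (nat_lit 234) (nat_lit 304) (nat_lit 0) (XT.nd (nat_lit 78)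 (nat_lit 152) (nat_lit 0) (XT.lf (nat_lit 0) (nat_lit 6469353652) (nat_lit 76) (nat_lit 504386184) (nat_lit 152) (nat_lit 9479272089) (nat_lit 35) (nat_lit 5) (nat_lit 36) (nat_lit 5) (nat_lit 37) (nat_lit 4) (nat_lit 383) (nat_lit 268) (nat_lit 249)) (XT.nd (nat_lit 78) (nat_lit 152) (nat_lit 0) (XT.lf (nat_lit 0) (nat_lit 11663478925) (nat_lit 152) (nat_lit 1220434161) (nat_lit 0) (nat_lit 3911550252) (nat_lit 35) (nat_lit 5) (nat_lit 37) (nat_lit 4) (nat_lit 35) (nat_lit 4) (nat_lit 384) (nat_lit 268) (nat_lit 248)) (XT.lf (nat_lit 0) (nat_lit 7813555878) (nat_lit 152) (nat_lit 8683290311) (nat_lit 152) (nat_lit 651270850) (nat_lit 33) (nat_lit 4) (nat_lit 35) (nat_lit 5) (nat_lit 35) (nat_lit 4) (nat_lit 385) (nat_lit 268) (nat_lit 247)))) (XT.nd (nat_lit 156) (nat_lit 152) (nat_lit 0) (XT.nd (nat_lit 78) (nat_lit 76) (nat_lit 0) (XT.lf (nat_lit 0) (nat_lit 3821942056) (nat_lit 228) (nat_lit 545409889)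 (nat_lit 76) (nat_lit 13144808357) (nat_lit 32) (nat_lit 5) (nat_lit 35) (nat_lit 5) (nat_lit 33) (nat_lit 4) (nat_lit 386) (nat_lit 268) (nat_lit 246)) (XT.lf (nat_lit 0) (nat_lit 8424538634) (nat_lit 152) (nat_lit 9356033552) (nat_lit 0) (nat_lit 106126310) (nat_lit 31) (nat_lit 5) (nat_lit 33) (nat_lit 4) (nat_lit 31) (nat_lit 4) (nat_lit 387) (nat_lit 268) (nat_lit 245))) (XT.nd (nat_lit 78) (nat_lit 152) (nat_lit 0) (XT.lf (nat_lit 0) (nat_lit 13139545383) (nat_lit 152) (nat_lit 561436410) (nat_lit 0) (nat_lit 4572276023) (nat_lit 31) (nat_lit 5) (nat_lit 33) (nat_lit 4) (nat_lit 31) (nat_lit 4) (nat_lit 388) (nat_lit 268) (nat_lit 244)) (XT.lf (nat_lit 0) (nat_lit 8531403709) (nat_lit 152) (nat_lit 9474305819) (nat_lit 152) (nat_lit 665427685) (nat_lit 29) (nat_lit 4) (nat_lit 31) (nat_lit 5) (nat_lit 31) (nat_lit 4) (nat_lit 389) (nat_lit 268) (nat_lit 243)))))) (XT.nd (nat_lit 468) (nat_lit 228)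 (nat_lit 0) (XT.nd (nat_lit 234) (nat_lit 304) (nat_lit 0) (XT.nd (nat_lit 78) (nat_lit 76) (nat_lit 0) (XT.lf (nat_lit 0) (nat_lit 3793633542) (nat_lit 228) (nat_lit 1342373667) (nat_lit 76) (nat_lit 13945817612) (nat_lit 28) (nat_lit 5) (nat_lit 31) (nat_lit 5) (nat_lit 29) (nat_lit 4) (nat_lit 390) (nat_lit 268) (nat_lit 242)) (XT.nd (nat_lit 78) (nat_lit 0) (nat_lit 0) (XT.lf (nat_lit 0) (nat_lit 7734876586) (nat_lit 76) (nat_lit 642495722) (nat_lit 152) (nat_lit 11127147975) (nat_lit 27) (nat_lit 5) (nat_lit 28) (nat_lit 5) (nat_lit 29) (nat_lit 4) (nat_lit 391) (nat_lit 268) (nat_lit 241)) (XT.lf (nat_lit 0) (nat_lit 13080817472) (nat_lit 152) (nat_lit 2994629559) (nat_lit 0) (nat_lit 3864996643) (nat_lit 27) (nat_lit 5) (nat_lit 29) (nat_lit 4) (nat_lit 27) (nat_lit 4) (nat_lit 392) (nat_lit 268) (nat_lit 240)))) (XT.nd (nat_lit 78) (nat_lit 152) (nat_lit 0) (XT.lf (nat_lit 0) (nat_lit 6030035604)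 (nat_lit 152) (nat_lit 11891879939) (nat_lit 152) (nat_lit 2467645259) (nat_lit 25) (nat_lit 4) (nat_lit 27) (nat_lit 5) (nat_lit 27) (nat_lit 4) (nat_lit 393) (nat_lit 268) (nat_lit 239)) (XT.nd (nat_lit 78) (nat_lit 76) (nat_lit 0) (XT.lf (nat_lit 0) (nat_lit 1978846368) (nat_lit 228) (nat_lit 5609520095) (nat_lit 76) (nat_lit 13264317655) (nat_lit 24) (nat_lit 5) (nat_lit 27) (nat_lit 5) (nat_lit 25) (nat_lit 4) (nat_lit 394) (nat_lit 268) (nat_lit 238)) (XT.lf (nat_lit 0) (nat_lit 3321979046) (nat_lit 76) (nat_lit 3153394014) (nat_lit 152) (nat_lit 14854619440) (nat_lit 23) (nat_lit 5) (nat_lit 24) (nat_lit 5) (nat_lit 25) (nat_lit 4) (nat_lit 395) (nat_lit 268) (nat_lit 237))))) (XT.nd (nat_lit 234) (nat_lit 152) (nat_lit 0) (XT.nd (nat_lit 78) (nat_lit 76) (nat_lit 0) (XT.lf (nat_lit 0) (nat_lit 11112131120) (nat_lit 152) (nat_lit 9319302604) (nat_lit 0) (nat_lit 1390037466) (nat_lit 23) (nat_lit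 5) (nat_lit 25) (nat_lit 4) (nat_lit 23) (nat_lit 4) (nat_lit 396) (nat_lit 268) (nat_lit 236)) (XT.nd (nat_lit 78) (nat_lit 76) (nat_lit 0) (XT.lf (nat_lit 0) (nat_lit 15855651803) (nat_lit 152) (nat_lit 519244908) (nat_lit 0) (nat_lit 5953778531) (nat_lit 23) (nat_lit 5) (nat_lit 25) (nat_lit 4) (nat_lit 23) (nat_lit 4) (nat_lit 397) (nat_lit 268) (nat_lit 235)) (XT.lf (nat_lit 0) (nat_lit 8597938095) (nat_lit 76) (nat_lit 12164478127) (nat_lit 76) (nat_lit 2088061537) (nat_lit 22) (nat_lit 4) (nat_lit 23) (nat_lit 5) (nat_lit 23) (nat_lit 4) (nat_lit 398) (nat_lit 268) (nat_lit 234)))) (XT.nd (nat_lit 156) (nat_lit 0) (nat_lit 0) (XT.nd (nat_lit 78) (nat_lit 76) (nat_lit 0) (XT.lf (nat_lit 0) (nat_lit 2324738274) (nat_lit 152) (nat_lit 5526657425) (nat_lit 76) (nat_lit 15537537917) (nat_lit 21) (nat_lit 5) (nat_lit 23) (nat_lit 5) (nat_lit 22) (nat_lit 4) (nat_lit 399) (nat_lit 268) (nat_lit 233)) (XT.lf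 (nat_lit 0) (nat_lit 3395156493) (nat_lit 76) (nat_lit 3405610223) (nat_lit 152) (nat_lit 17142981434) (nat_lit 20) (nat_lit 5) (nat_lit 21) (nat_lit 5) (nat_lit 22) (nat_lit 4) (nat_lit 400) (nat_lit 268) (nat_lit 232))) (XT.nd (nat_lit 78) (nat_lit 0) (nat_lit 0) (XT.lf (nat_lit 0) (nat_lit 11419083948) (nat_lit 152) (nat_lit 11939072187) (nat_lit 0) (nat_lit 1156820061) (nat_lit 20) (nat_lit 5) (nat_lit 22) (nat_lit 4) (nat_lit 20) (nat_lit 4) (nat_lit 401) (nat_lit 268) (nat_lit 231)) (XT.lf (nat_lit 0) (nat_lit 16151772625) (nat_lit 152) (nat_lit 3213356706) (nat_lit 0) (nat_lit 5738946139) (nat_lit 20) (nat_lit 5) (nat_lit 22) (nat_lit 4) (nat_lit 20) (nat_lit 4) (nat_lit 402) (nat_lit 268) (nat_lit 230))))))) (XT.nd (nat_lit 1014) (nat_lit 380) (nat_lit 0) (XT.nd (nat_lit 468) (nat_lit 228) (nat_lit 0) (XT.nd (nat_lit 234) (nat_lit 76) (nat_lit 0) (XT.nd (nat_lit 78) (nat_lit 76) (nat_lit 0) (XT.lf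 (nat_lit 0) (nat_lit 5781738549) (nat_lit 76) (nat_lit 15244070357) (nat_lit 76) (nat_lit 4685066589) (nat_lit 19) (nat_lit 4) (nat_lit 20) (nat_lit 5) (nat_lit 20) (nat_lit 4) (nat_lit 403) (nat_lit 268) (nat_lit 229)) (XT.nd (nat_lit 78) (nat_lit 76) (nat_lit 0) (XT.lf (nat_lit 0) (nat_lit 15008374603) (nat_lit 76) (nat_lit 11014565346) (nat_lit 76) (nat_lit 313641887) (nat_lit 19) (nat_lit 4) (nat_lit 20) (nat_lit 5) (nat_lit 20) (nat_lit 4) (nat_lit 404) (nat_lit 268) (nat_lit 228)) (XT.lf (nat_lit 0) (nat_lit 4052685952) (nat_lit 152) (nat_lit 2611757081) (nat_lit 76) (nat_lit 20317051330) (nat_lit 18) (nat_lit 5) (nat_lit 20) (nat_lit 5) (nat_lit 19) (nat_lit 4) (nat_lit 405) (nat_lit 268) (nat_lit 227)))) (XT.nd (nat_lit 78) (nat_lit 0) (nat_lit 0) (XT.lf (nat_lit 0) (nat_lit 6388480427) (nat_lit 76) (nat_lit 2163718052) (nat_lit 152) (nat_lit 19093215468) (nat_lit 17) (nat_lit 5) (nat_lit 18) (nat_lit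 5) (nat_lit 19) (nat_lit 4) (nat_lit 406) (nat_lit 268) (nat_lit 226)) (XT.nd (nat_lit 78) (nat_lit 0) (nat_lit 0) (XT.lf (nat_lit 0) (nat_lit 13184336886) (nat_lit 152) (nat_lit 12739645127) (nat_lit 0) (nat_lit 2405347462) (nat_lit 17) (nat_lit 5) (nat_lit 19) (nat_lit 4) (nat_lit 17) (nat_lit 4) (nat_lit 407) (nat_lit 268) (nat_lit 225)) (XT.lf (nat_lit 0) (nat_lit 17925642108) (nat_lit 152) (nat_lit 4084790124) (nat_lit 0) (nat_lit 7024231512) (nat_lit 17) (nat_lit 5) (nat_lit 19) (nat_lit 4) (nat_lit 17) (nat_lit 4) (nat_lit 408) (nat_lit 268) (nat_lit 224))))) (XT.nd (nat_lit 234) (nat_lit 76) (nat_lit 0) (XT.nd (nat_lit 78) (nat_lit 76) (nat_lit 0) (XT.lf (nat_lit 0) (nat_lit 4830248511) (nat_lit 76) (nat_lit 17975640843) (nat_lit 76) (nat_lit 6955374740) (nat_lit 16) (nat_lit 4) (nat_lit 17) (nat_lit 5) (nat_lit 17) (nat_lit 4) (nat_lit 409) (nat_lit 268) (nat_lit 223)) (XT.nd (nat_lit 78) (nat_lit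 76) (nat_lit 0) (XT.lf (nat_lit 0) (nat_lit 14003673736) (nat_lit 76) (nat_lit 13820946581) (nat_lit 76) (nat_lit 2685286782) (nat_lit 16) (nat_lit 4) (nat_lit 17) (nat_lit 5) (nat_lit 17) (nat_lit 4) (nat_lit 410) (nat_lit 268) (nat_lit 222)) (XT.lf (nat_lit 0) (nat_lit 1631259744) (nat_lit 152) (nat_lit 7936235231) (nat_lit 76) (nat_lit 21714473561) (nat_lit 15) (nat_lit 5) (nat_lit 17) (nat_lit 5) (nat_lit 16) (nat_lit 4) (nat_lit 411) (nat_lit 268) (nat_lit 221)))) (XT.nd (nat_lit 156) (nat_lit 0) (nat_lit 0) (XT.nd (nat_lit 78) (nat_lit 0) (nat_lit 0) (XT.lf (nat_lit 0) (nat_lit 791307318) (nat_lit 76) (nat_lit 5192815566) (nat_lit 152) (nat_lit 26093453911) (nat_lit 14) (nat_lit 5) (nat_lit 15) (nat_lit 5) (nat_lit 16) (nat_lit 4) (nat_lit 412) (nat_lit 268) (nat_lit 220)) (XT.lf (nat_lit 0) (nat_lit 9855818167) (nat_lit 76) (nat_lit 645601480) (nat_lit 152) (nat_lit 22394624383) (nat_lit 14) (nat_lit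 5) (nat_lit 15) (nat_lit 5) (nat_lit 16) (nat_lit 4) (nat_lit 413) (nat_lit 268) (nat_lit 219))) (XT.nd (nat_lit 78) (nat_lit 0) (nat_lit 0) (XT.lf (nat_lit 0) (nat_lit 15147721985) (nat_lit 152) (nat_lit 14671579505) (nat_lit 0) (nat_lit 3919965169) (nat_lit 14) (nat_lit 5) (nat_lit 16) (nat_lit 4) (nat_lit 14) (nat_lit 4) (nat_lit 414) (nat_lit 268) (nat_lit 218)) (XT.lf (nat_lit 0) (nat_lit 19895796429) (nat_lit 152) (nat_lit 6141724645) (nat_lit 0) (nat_lit 8571399209) (nat_lit 14) (nat_lit 5) (nat_lit 16) (nat_lit 4) (nat_lit 14) (nat_lit 4) (nat_lit 415) (nat_lit 268) (nat_lit 217)))))) (XT.nd (nat_lit 546) (nat_lit 152) (nat_lit 0) (XT.nd (nat_lit 234) (nat_lit 152) (nat_lit 0) (XT.nd (nat_lit 78) (nat_lit 0) (nat_lit 0) (XT.lf (nat_lit 0) (nat_lit 2614006586) (nat_lit 76) (nat_lit 22154706707) (nat_lit 76) (nat_lit 10736483852) (nat_lit 13) (nat_lit 4) (nat_lit 14) (nat_lit 5) (nat_lit 14) (nat_lit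 4) (nat_lit 416) (nat_lit 268) (nat_lit 216)) (XT.nd (nat_lit 78) (nat_lit 0) (nat_lit 0) (XT.lf (nat_lit 0) (nat_lit 11678075524) (nat_lit 76) (nat_lit 18129507502) (nat_lit 76) (nat_lit 6620191798) (nat_lit 13) (nat_lit 4) (nat_lit 14) (nat_lit 5) (nat_lit 14) (nat_lit 4) (nat_lit 417) (nat_lit 268) (nat_lit 215)) (XT.lf (nat_lit 0) (nat_lit 20936169865) (nat_lit 76) (nat_lit 14020425672) (nat_lit 76) (nat_lit 2422670309) (nat_lit 13) (nat_lit 4) (nat_lit 14) (nat_lit 5) (nat_lit 14) (nat_lit 4) (nat_lit 418) (nat_lit 268) (nat_lit 214)))) (XT.nd (nat_lit 156) (nat_lit 0) (nat_lit 0) (XT.nd (nat_lit 78) (nat_lit 76) (nat_lit 0) (XT.lf (nat_lit 0) (nat_lit 1823457963) (nat_lit 152) (nat_lit 7981999443) (nat_lit 76) (nat_lit 28554507892) (nat_lit 12) (nat_lit 5) (nat_lit 14) (nat_lit 5) (nat_lit 13) (nat_lit 4) (nat_lit 419) (nat_lit 268) (nat_lit 213)) (XT.lf (nat_lit 0) (nat_lit 647368411) (nat_lit 76)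 (nat_lit 5468075126) (nat_lit 152) (nat_lit 33254912451) (nat_lit 11) (nat_lit 5) (nat_lit 12) (nat_lit 5) (nat_lit 13) (nat_lit 4) (nat_lit 420) (nat_lit 268) (nat_lit 212))) (XT.nd (nat_lit 78) (nat_lit 0) (nat_lit 0) (XT.lf (nat_lit 0) (nat_lit 9625760753) (nat_lit 76) (nat_lit 952405522) (nat_lit 152) (nat_lit 29831637517) (nat_lit 11) (nat_lit 5) (nat_lit 12) (nat_lit 5) (nat_lit 13) (nat_lit 4) (nat_lit 421) (nat_lit 268) (nat_lit 211)) (XT.lf (nat_lit 0) (nat_lit 15172499956) (nat_lit 152) (nat_lit 22714628482) (nat_lit 0) (nat_lit 3593379297) (nat_lit 11) (nat_lit 5) (nat_lit 13) (nat_lit 4) (nat_lit 11) (nat_lit 4) (nat_lit 422) (nat_lit 268) (nat_lit 210))))) (XT.nd (nat_lit 234) (nat_lit 76) (nat_lit 0) (XT.nd (nat_lit 78) (nat_lit 76) (nat_lit 0) (XT.lf (nat_lit 0) (nat_lit 19877369875) (nat_lit 152) (nat_lit 14482603789) (nat_lit 0) (nat_lit 8224182394) (nat_lit 11) (nat_lit 5) (nat_lit 13)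 (nat_lit 4) (nat_lit 11) (nat_lit 4) (nat_lit 423) (nat_lit 268) (nat_lit 209)) (XT.nd (nat_lit 78) (nat_lit 76) (nat_lit 0) (XT.lf (nat_lit 0) (nat_lit 24687731980) (nat_lit 152) (nat_lit 6071620826) (nat_lit 0) (nat_lit 12962634962) (nat_lit 11) (nat_lit 5) (nat_lit 13) (nat_lit 4) (nat_lit 11) (nat_lit 4) (nat_lit 424) (nat_lit 268) (nat_lit 208)) (XT.lf (nat_lit 0) (nat_lit 2575935591) (nat_lit 76) (nat_lit 27056615376) (nat_lit 76) (nat_lit 15261703275) (nat_lit 10) (nat_lit 4) (nat_lit 11) (nat_lit 5) (nat_lit 11) (nat_lit 4) (nat_lit 425) (nat_lit 268) (nat_lit 207)))) (XT.nd (nat_lit 156) (nat_lit 76) (nat_lit 0) (XT.nd (nat_lit 78) (nat_lit 0) (nat_lit 0) (XT.lf (nat_lit 0) (nat_lit 11542006433) (nat_lit 76) (nat_lit 23210783906) (nat_lit 76) (nat_lit 11348090170) (nat_lit 10) (nat_lit 4) (nat_lit 11) (nat_lit 5) (nat_lit 11) (nat_lit 4) (nat_lit 426) (nat_lit 268) (nat_lit 206)) (XT.lf (nat_lit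 0) (nat_lit 20713588969) (nat_lit 76) (nat_lit 19279809424) (nat_lit 76) (nat_lit 7351308276) (nat_lit 10) (nat_lit 4) (nat_lit 11) (nat_lit 5) (nat_lit 11) (nat_lit 4) (nat_lit 427) (nat_lit 268) (nat_lit 205))) (XT.nd (nat_lit 78) (nat_lit 76) (nat_lit 0) (XT.lf (nat_lit 0) (nat_lit 30098697205) (nat_lit 76) (nat_lit 15260257100) (nat_lit 76) (nat_lit 3267865260) (nat_lit 10) (nat_lit 4) (nat_lit 11) (nat_lit 5) (nat_lit 11) (nat_lit 4) (nat_lit 428) (nat_lit 268) (nat_lit 204)) (XT.lf (nat_lit 0) (nat_lit 888131378) (nat_lit 152) (nat_lit 10251514939) (nat_lit 76) (nat_lit 38808431956) (nat_lit 9) (nat_lit 5) (nat_lit 11) (nat_lit 5) (nat_lit 10) (nat_lit 4) (nat_lit 429) (nat_lit 268) (nat_lit 203))))))))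
noncomputable def xc36 : XT := (XT.nd (nat_lit 42042) (nat_lit 0) (nat_lit 1444) (XT.nd (nat_lit 1014) (nat_lit 152) (nat_lit 0) (XT.nd (nat_lit 468) (nat_lit 76) (nat_lit 0) (XT.nd (nat_lit 234) (nat_lit 0) (nat_lit 0) (XT.nd (nat_lit 78) (nat_lit 76) (nat_lit 0) (XT.lf (nat_lit 0) (nat_lit 5072404412) (nat_lit 152) (nat_lit 1817663784) (nat_lit 76) (nat_lit 44418861085) (nat_lit 9) (nat_lit 5) (nat_lit 11) (nat_lit 5) (nat_lit 10) (nat_lit 4) (nat_lit 430) (nat_lit 268) (nat_lit 202)) (XT.nd (nat_lit 78) (nat_lit 0) (nat_lit 0) (XT.lf (nat_lit 0) (nat_lit 6947789608) (nat_lit 76) (nat_lit 2471374620) (nat_lit 152) (nat_lit 43290336244) (nat_lit 8) (nat_lit 5) (nat_lit 9) (nat_lit 5) (nat_lit 10) (nat_lit 4) (nat_lit 431) (nat_lit 268) (nat_lit 201)) (XT.lf (nat_lit 0) (nat_lit 13905096132) (nat_lit 152) (nat_lit 38215306499) (nat_lit 0) (nat_lit 2031426397) (nat_lit 8) (nat_lit 5) (nat_lit 10) (nat_lit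 4) (nat_lit 8) (nat_lit 4) (nat_lit 432) (nat_lit 268) (nat_lit 200)))) (XT.nd (nat_lit 78) (nat_lit 0) (nat_lit 0) (XT.lf (nat_lit 0) (nat_lit 18521181502) (nat_lit 152) (nat_lit 30522377571) (nat_lit 0) (nat_lit 6594004318) (nat_lit 8) (nat_lit 5) (nat_lit 10) (nat_lit 4) (nat_lit 8) (nat_lit 4) (nat_lit 433) (nat_lit 268) (nat_lit 199)) (XT.nd (nat_lit 78) (nat_lit 0) (nat_lit 0) (XT.lf (nat_lit 0) (nat_lit 23247697445) (nat_lit 152) (nat_lit 22652445738) (nat_lit 0) (nat_lit 11268571283) (nat_lit 8) (nat_lit 5) (nat_lit 10) (nat_lit 4) (nat_lit 8) (nat_lit 4) (nat_lit 434) (nat_lit 268) (nat_lit 198)) (XT.lf (nat_lit 0) (nat_lit 28088773927) (nat_lit 152) (nat_lit 14598634361) (nat_lit 0) (nat_lit 16059211862) (nat_lit 8) (nat_lit 5) (nat_lit 10) (nat_lit 4) (nat_lit 8) (nat_lit 4) (nat_lit 435) (nat_lit 268) (nat_lit 197))))) (XT.nd (nat_lit 234) (nat_lit 0) (nat_lit 0) (XT.nd (nat_lit 78) (nat_lit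 76) (nat_lit 0) (XT.lf (nat_lit 0) (nat_lit 33048641014) (nat_lit 152) (nat_lit 6353906128) (nat_lit 0) (nat_lit 20970112055) (nat_lit 8) (nat_lit 5) (nat_lit 10) (nat_lit 4) (nat_lit 8) (nat_lit 4) (nat_lit 436) (nat_lit 268) (nat_lit 196)) (XT.nd (nat_lit 78) (nat_lit 0) (nat_lit 0) (XT.lf (nat_lit 0) (nat_lit 2130517154) (nat_lit 76) (nat_lit 36021595251) (nat_lit 76) (nat_lit 23895525617) (nat_lit 7) (nat_lit 4) (nat_lit 8) (nat_lit 5) (nat_lit 8) (nat_lit 4) (nat_lit 437) (nat_lit 268) (nat_lit 195)) (XT.lf (nat_lit 0) (nat_lit 10950983679) (nat_lit 76) (nat_lit 32496473922) (nat_lit 76) (nat_lit 20324248293) (nat_lit 7) (nat_lit 4) (nat_lit 8) (nat_lit 5) (nat_lit 8) (nat_lit 4) (nat_lit 438) (nat_lit 268) (nat_lit 194)))) (XT.nd (nat_lit 156) (nat_lit 0) (nat_lit 0) (XT.nd (nat_lit 78) (nat_lit 0) (nat_lit 0) (XT.lf (nat_lit 0) (nat_lit 19988745460) (nat_lit 76) (nat_lit 28888264947) (nat_lit 76)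 (nat_lit 16671227672) (nat_lit 7) (nat_lit 4) (nat_lit 8) (nat_lit 5) (nat_lit 8) (nat_lit 4) (nat_lit 439) (nat_lit 268) (nat_lit 193)) (XT.lf (nat_lit 0) (nat_lit 29251699569) (nat_lit 76) (nat_lit 25193815520) (nat_lit 76) (nat_lit 12933271793) (nat_lit 7) (nat_lit 4) (nat_lit 8) (nat_lit 5) (nat_lit 8) (nat_lit 4) (nat_lit 440) (nat_lit 268) (nat_lit 192))) (XT.nd (nat_lit 78) (nat_lit 0) (nat_lit 0) (XT.lf (nat_lit 0) (nat_lit 38747939850) (nat_lit 76) (nat_lit 21409897482) (nat_lit 76) (nat_lit 9107114481) (nat_lit 7) (nat_lit 4) (nat_lit 8) (nat_lit 5) (nat_lit 8) (nat_lit 4) (nat_lit 441) (nat_lit 268) (nat_lit 191)) (XT.lf (nat_lit 0) (nat_lit 48485763988) (nat_lit 76) (nat_lit 17533204497) (nat_lit 76) (nat_lit 5189412493) (nat_lit 7) (nat_lit 4) (nat_lit 8) (nat_lit 5) (nat_lit 8) (nat_lit 4) (nat_lit 442) (nat_lit 268) (nat_lit 190)))))) (XT.nd (nat_lit 468) (nat_lit 0) (nat_lit 0) (XT.nd (nat_lit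 234) (nat_lit 0) (nat_lit 0) (XT.nd (nat_lit 78) (nat_lit 152) (nat_lit 0) (XT.lf (nat_lit 0) (nat_lit 58473680763) (nat_lit 76) (nat_lit 13560349164) (nat_lit 76) (nat_lit 1176742593) (nat_lit 7) (nat_lit 4) (nat_lit 8) (nat_lit 5) (nat_lit 8) (nat_lit 4) (nat_lit 443) (nat_lit 268) (nat_lit 189)) (XT.nd (nat_lit 78) (nat_lit 76) (nat_lit 0) (XT.lf (nat_lit 0) (nat_lit 2877140692) (nat_lit 152) (nat_lit 6581665884) (nat_lit 76) (nat_lit 65814223308) (nat_lit 6) (nat_lit 5) (nat_lit 8) (nat_lit 5) (nat_lit 7) (nat_lit 4) (nat_lit 444) (nat_lit 268) (nat_lit 188)) (XT.lf (nat_lit 0) (nat_lit 1801887257) (nat_lit 76) (nat_lit 5223569784) (nat_lit 152) (nat_lit 70371456550) (nat_lit 5) (nat_lit 5) (nat_lit 6) (nat_lit 5) (nat_lit 7) (nat_lit 4) (nat_lit 445) (nat_lit 268) (nat_lit 187)))) (XT.nd (nat_lit 78) (nat_lit 0) (nat_lit 0) (XT.lf (nat_lit 0) (nat_lit 10532211395) (nat_lit 76) (nat_lit 811846684)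 (nat_lit 152) (nat_lit 68239082799) (nat_lit 5) (nat_lit 5) (nat_lit 6) (nat_lit 5) (nat_lit 7) (nat_lit 4) (nat_lit 446) (nat_lit 268) (nat_lit 186)) (XT.nd (nat_lit 78) (nat_lit 0) (nat_lit 0) (XT.lf (nat_lit 0) (nat_lit 15807890096) (nat_lit 152) (nat_lit 62385309806) (nat_lit 0) (nat_lit 3641286957) (nat_lit 5) (nat_lit 5) (nat_lit 7) (nat_lit 4) (nat_lit 5) (nat_lit 4) (nat_lit 447) (nat_lit 268) (nat_lit 185)) (XT.lf (nat_lit 0) (nat_lit 20394060098) (nat_lit 152) (nat_lit 55565549545) (nat_lit 0) (nat_lit 8194112887) (nat_lit 5) (nat_lit 5) (nat_lit 7) (nat_lit 4) (nat_lit 5) (nat_lit 4) (nat_lit 448) (nat_lit 268) (nat_lit 184))))) (XT.nd (nat_lit 40248) (nat_lit 0) (nat_lit 4028) (XT.nd (nat_lit 40092) (nat_lit 0) (nat_lit 4712) (XT.lf (nat_lit 0) (nat_lit 25098771453) (nat_lit 152) (nat_lit 48577885721) (nat_lit 0) (nat_lit 12866451355) (nat_lit 5) (nat_lit 5) (nat_lit 7) (nat_lit 4) (nat_lit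 5) (nat_lit 4) (nat_lit 449) (nat_lit 268) (nat_lit 183)) (XT.nd (nat_lit 78) (nat_lit 228) (nat_lit 0) (XT.lf (nat_lit 0) (nat_lit 2240808758) (nat_lit 304) (nat_lit 1129601875) (nat_lit 0) (nat_lit 2240808758) (nat_lit 70) (nat_lit 5) (nat_lit 74) (nat_lit 4) (nat_lit 70) (nat_lit 4) (nat_lit 362) (nat_lit 269) (nat_lit 269)) (XT.lf (nat_lit 0) (nat_lit 6100365565) (nat_lit 228) (nat_lit 2972073453) (nat_lit 228) (nat_lit 2331245989) (nat_lit 67) (nat_lit 4) (nat_lit 70) (nat_lit 5) (nat_lit 70) (nat_lit 4) (nat_lit 363) (nat_lit 269) (nat_lit 268)))) (XT.nd (nat_lit 156) (nat_lit 456) (nat_lit 0) (XT.nd (nat_lit 78) (nat_lit 0) (nat_lit 0) (XT.lf (nat_lit 0) (nat_lit 2128257587) (nat_lit 228) (nat_lit 8560632820) (nat_lit 0) (nat_lit 902053655) (nat_lit 64) (nat_lit 5) (nat_lit 67) (nat_lit 4) (nat_lit 64) (nat_lit 4) (nat_lit 364) (nat_lit 269) (nat_lit 267)) (XT.lf (nat_lit 0) (nat_lit 6658596489)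 (nat_lit 228) (nat_lit 279105354) (nat_lit 0) (nat_lit 4845944648) (nat_lit 64) (nat_lit 5) (nat_lit 67) (nat_lit 4) (nat_lit 64) (nat_lit 4) (nat_lit 365) (nat_lit 269) (nat_lit 266))) (XT.nd (nat_lit 78) (nat_lit 228) (nat_lit 0) (XT.lf (nat_lit 0) (nat_lit 8250192487) (nat_lit 228) (nat_lit 3057256177) (nat_lit 228) (nat_lit 675237435) (nat_lit 61) (nat_lit 4) (nat_lit 64) (nat_lit 5) (nat_lit 64) (nat_lit 4) (nat_lit 366) (nat_lit 269) (nat_lit 265)) (XT.lf (nat_lit 0) (nat_lit 3793131982) (nat_lit 228) (nat_lit 7450820944) (nat_lit 0) (nat_lit 943809515) (nat_lit 58) (nat_lit 5) (nat_lit 61) (nat_lit 4) (nat_lit 58) (nat_lit 4) (nat_lit 367) (nat_lit 269) (nat_lit 264))))))) (XT.nd (nat_lit 1014) (nat_lit 1140) (nat_lit 0) (XT.nd (nat_lit 468) (nat_lit 684) (nat_lit 0) (XT.nd (nat_lit 234) (nat_lit 380) (nat_lit 0) (XT.nd (nat_lit 78) (nat_lit 228) (nat_lit 0) (XT.lf (nat_lit 0) (nat_lit 957771412)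 (nat_lit 152) (nat_lit 7405985477) (nat_lit 152) (nat_lit 4035611639) (nat_lit 56) (nat_lit 4) (nat_lit 58) (nat_lit 5) (nat_lit 58) (nat_lit 4) (nat_lit 368) (nat_lit 269) (nat_lit 263)) (XT.nd (nat_lit 78) (nat_lit 152) (nat_lit 0) (XT.lf (nat_lit 0) (nat_lit 425809072) (nat_lit 228) (nat_lit 3011856537) (nat_lit 76) (nat_lit 9180140894) (nat_lit 55) (nat_lit 5) (nat_lit 58) (nat_lit 5) (nat_lit 56) (nat_lit 4) (nat_lit 369) (nat_lit 269) (nat_lit 262)) (XT.lf (nat_lit 0) (nat_lit 4907446270) (nat_lit 228) (nat_lit 7267894775) (nat_lit 0) (nat_lit 667261953) (nat_lit 53) (nat_lit 5) (nat_lit 56) (nat_lit 4) (nat_lit 53) (nat_lit 4) (nat_lit 370) (nat_lit 269) (nat_lit 261)))) (XT.nd (nat_lit 78) (nat_lit 228) (nat_lit 0) (XT.lf (nat_lit 0) (nat_lit 1238323761) (nat_lit 152) (nat_lit 8269721876) (nat_lit 152) (nat_lit 3566590165) (nat_lit 51) (nat_lit 4) (nat_lit 53) (nat_lit 5) (nat_lit 53) (nat_lit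 4) (nat_lit 371) (nat_lit 269) (nat_lit 260)) (XT.nd (nat_lit 78) (nat_lit 152) (nat_lit 0) (XT.lf (nat_lit 0) (nat_lit 897047225) (nat_lit 228) (nat_lit 3331589333) (nat_lit 76) (nat_lit 9085283559) (nat_lit 50) (nat_lit 5) (nat_lit 53) (nat_lit 5) (nat_lit 51) (nat_lit 4) (nat_lit 372) (nat_lit 269) (nat_lit 259)) (XT.lf (nat_lit 0) (nat_lit 5342673867) (nat_lit 152) (nat_lit 42371151) (nat_lit 228) (nat_lit 8175439923) (nat_lit 48) (nat_lit 5) (nat_lit 50) (nat_lit 5) (nat_lit 51) (nat_lit 4) (nat_lit 373) (nat_lit 269) (nat_lit 258))))) (XT.nd (nat_lit 234) (nat_lit 304) (nat_lit 0) (XT.nd (nat_lit 78) (nat_lit 228) (nat_lit 0) (XT.lf (nat_lit 0) (nat_lit 342255099) (nat_lit 152) (nat_lit 9655016735) (nat_lit 152) (nat_lit 3817511911) (nat_lit 46) (nat_lit 4) (nat_lit 48) (nat_lit 5) (nat_lit 48) (nat_lit 4) (nat_lit 374) (nat_lit 269) (nat_lit 257)) (XT.nd (nat_lit 78) (nat_lit 152) (nat_lit 0) (XT.lf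 (nat_lit 0) (nat_lit 653781894) (nat_lit 228) (nat_lit 4909670067) (nat_lit 76) (nat_lit 8513217559) (nat_lit 45) (nat_lit 5) (nat_lit 48) (nat_lit 5) (nat_lit 46) (nat_lit 4) (nat_lit 375) (nat_lit 269) (nat_lit 256)) (XT.lf (nat_lit 0) (nat_lit 3795530212) (nat_lit 152) (nat_lit 1337518397) (nat_lit 228) (nat_lit 9213735084) (nat_lit 43) (nat_lit 5) (nat_lit 45) (nat_lit 5) (nat_lit 46) (nat_lit 4) (nat_lit 376) (nat_lit 269) (nat_lit 255)))) (XT.nd (nat_lit 156) (nat_lit 152) (nat_lit 0) (XT.nd (nat_lit 78) (nat_lit 152) (nat_lit 0) (XT.lf (nat_lit 0) (nat_lit 9740270798) (nat_lit 228) (nat_lit 1941739437) (nat_lit 0) (nat_lit 2943205687) (nat_lit 43) (nat_lit 5) (nat_lit 46) (nat_lit 4) (nat_lit 43) (nat_lit 4) (nat_lit 377) (nat_lit 269) (nat_lit 254)) (XT.lf (nat_lit 0) (nat_lit 6900598379) (nat_lit 152) (nat_lit 7581701049) (nat_lit 152) (nat_lit 429825309) (nat_lit 41) (nat_lit 4) (nat_lit 43)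 (nat_lit 5) (nat_lit 43) (nat_lit 4) (nat_lit 378) (nat_lit 269) (nat_lit 253))) (XT.nd (nat_lit 78) (nat_lit 0) (nat_lit 0) (XT.lf (nat_lit 0) (nat_lit 666692155) (nat_lit 76) (nat_lit 3354511901) (nat_lit 152) (nat_lit 11186955140) (nat_lit 39) (nat_lit 5) (nat_lit 40) (nat_lit 5) (nat_lit 41) (nat_lit 4) (nat_lit 379) (nat_lit 269) (nat_lit 252)) (XT.lf (nat_lit 0) (nat_lit 8606033590) (nat_lit 152) (nat_lit 5903345806) (nat_lit 0) (nat_lit 1003319875) (nat_lit 39) (nat_lit 5) (nat_lit 41) (nat_lit 4) (nat_lit 39) (nat_lit 4) (nat_lit 380) (nat_lit 269) (nat_lit 251)))))) (XT.nd (nat_lit 546) (nat_lit 532) (nat_lit 0) (XT.nd (nat_lit 234) (nat_lit 304) (nat_lit 0) (XT.nd (nat_lit 78) (nat_lit 152) (nat_lit 0) (XT.lf (nat_lit 0) (nat_lit 2873556831) (nat_lit 152) (nat_lit 10435685494) (nat_lit 152) (nat_lit 2517727130) (nat_lit 37) (nat_lit 4) (nat_lit 39) (nat_lit 5) (nat_lit 39) (nat_lit 4) (nat_lit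 381) (nat_lit 269) (nat_lit 250)) (XT.nd (nat_lit 78) (nat_lit 76) (nat_lit 0) (XT.lf (nat_lit 0) (nat_lit 1944163898) (nat_lit 228) (nat_lit 4277368415) (nat_lit 76) (nat_lit 9929164663) (nat_lit 36) (nat_lit 5) (nat_lit 39) (nat_lit 5) (nat_lit 37) (nat_lit 4) (nat_lit 382) (nat_lit 269) (nat_lit 249)) (XT.lf (nat_lit 0) (nat_lit 4584236262) (nat_lit 76) (nat_lit 1871628618) (nat_lit 152) (nat_lit 10028544221) (nat_lit 35) (nat_lit 5) (nat_lit 36) (nat_lit 5) (nat_lit 37) (nat_lit 4) (nat_lit 383) (nat_lit 269) (nat_lit 248)))) (XT.nd (nat_lit 156) (nat_lit 152) (nat_lit 0) (XT.nd (nat_lit 78) (nat_lit 152) (nat_lit 0) (XT.lf (nat_lit 0) (nat_lit 11094448095) (nat_lit 152) (nat_lit 3192578119) (nat_lit 0) (nat_lit 2541377264) (nat_lit 35) (nat_lit 5) (nat_lit 37) (nat_lit 4) (nat_lit 35) (nat_lit 4) (nat_lit 384) (nat_lit 269) (nat_lit 247)) (XT.lf (nat_lit 0) (nat_lit 5734064462) (nat_lit 152) (nat_lit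 10136855628) (nat_lit 152) (nat_lit 1311851993) (nat_lit 33) (nat_lit 4) (nat_lit 35) (nat_lit 5) (nat_lit 35) (nat_lit 4) (nat_lit 385) (nat_lit 269) (nat_lit 246))) (XT.nd (nat_lit 78) (nat_lit 76) (nat_lit 0) (XT.lf (nat_lit 0) (nat_lit 3137415987) (nat_lit 228) (nat_lit 2720061609) (nat_lit 76) (nat_lit 11690640889) (nat_lit 32) (nat_lit 5) (nat_lit 35) (nat_lit 5) (nat_lit 33) (nat_lit 4) (nat_lit 386) (nat_lit 269) (nat_lit 245)) (XT.lf (nat_lit 0) (nat_lit 6247605331) (nat_lit 76) (nat_lit 1433647941) (nat_lit 152) (nat_lit 10243173550) (nat_lit 31) (nat_lit 5) (nat_lit 32) (nat_lit 5) (nat_lit 33) (nat_lit 4) (nat_lit 387) (nat_lit 269) (nat_lit 244))))) (XT.nd (nat_lit 234) (nat_lit 304) (nat_lit 0) (XT.nd (nat_lit 78) (nat_lit 228) (nat_lit 0) (XT.lf (nat_lit 0) (nat_lit 12346862232) (nat_lit 152) (nat_lit 2933504013) (nat_lit 0) (nat_lit 3032108981) (nat_lit 31) (nat_lit 5) (nat_lit 33) (nat_lit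 4) (nat_lit 31) (nat_lit 4) (nat_lit 388) (nat_lit 269) (nat_lit 243)) (XT.nd (nat_lit 78) (nat_lit 76) (nat_lit 0) (XT.lf (nat_lit 0) (nat_lit 6047704397) (nat_lit 152) (nat_lit 11106867834) (nat_lit 152) (nat_lit 1557542958) (nat_lit 29) (nat_lit 4) (nat_lit 31) (nat_lit 5) (nat_lit 31) (nat_lit 4) (nat_lit 389) (nat_lit 269) (nat_lit 242)) (XT.lf (nat_lit 0) (nat_lit 2884408313) (nat_lit 228) (nat_lit 3921715441) (nat_lit 76) (nat_lit 12317978402) (nat_lit 28) (nat_lit 5) (nat_lit 31) (nat_lit 5) (nat_lit 29) (nat_lit 4) (nat_lit 390) (nat_lit 269) (nat_lit 241)))) (XT.nd (nat_lit 156) (nat_lit 228) (nat_lit 0) (XT.nd (nat_lit 78) (nat_lit 0) (nat_lit 0) (XT.lf (nat_lit 0) (nat_lit 5041580810) (nat_lit 76) (nat_lit 2367163712) (nat_lit 152) (nat_lit 12139841523) (nat_lit 27) (nat_lit 5) (nat_lit 28) (nat_lit 5) (nat_lit 29) (nat_lit 4) (nat_lit 391) (nat_lit 269) (nat_lit 240)) (XT.lf (nat_lit 0) (nat_lit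 12062223841) (nat_lit 152) (nat_lit 5776942469) (nat_lit 0) (nat_lit 2146848271) (nat_lit 27) (nat_lit 5) (nat_lit 29) (nat_lit 4) (nat_lit 27) (nat_lit 4) (nat_lit 392) (nat_lit 269) (nat_lit 239))) (XT.nd (nat_lit 78) (nat_lit 76) (nat_lit 0) (XT.lf (nat_lit 0) (nat_lit 3131422511) (nat_lit 152) (nat_lit 13711621320) (nat_lit 152) (nat_lit 3593902206) (nat_lit 25) (nat_lit 4) (nat_lit 27) (nat_lit 5) (nat_lit 27) (nat_lit 4) (nat_lit 393) (nat_lit 269) (nat_lit 238)) (XT.lf (nat_lit 0) (nat_lit 842204508) (nat_lit 228) (nat_lit 8604494005) (nat_lit 76) (nat_lit 11454672140) (nat_lit 24) (nat_lit 5) (nat_lit 27) (nat_lit 5) (nat_lit 25) (nat_lit 4) (nat_lit 394) (nat_lit 269) (nat_lit 237))))))))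
noncomputable def xc37 : XT := (XT.nd (nat_lit 2028) (nat_lit 532) (nat_lit 0) (XT.nd (nat_lit 1014) (nat_lit 380) (nat_lit 0) (XT.nd (nat_lit 468) (nat_lit 304) (nat_lit 0) (XT.nd (nat_lit 234) (nat_lit 152) (nat_lit 0) (XT.nd (nat_lit 78) (nat_lit 0) (nat_lit 0) (XT.lf (nat_lit 0) (nat_lit 208183723) (nat_lit 76) (nat_lit 5069196117) (nat_lit 152) (nat_lit 16103145215) (nat_lit 23) (nat_lit 5) (nat_lit 24) (nat_lit 5) (nat_lit 25) (nat_lit 4) (nat_lit 395) (nat_lit 269) (nat_lit 236)) (XT.nd (nat_lit 78) (nat_lit 0) (nat_lit 0) (XT.lf (nat_lit 0) (nat_lit 9344919082) (nat_lit 76) (nat_lit 524533845) (nat_lit 152) (nat_lit 12003896687) (nat_lit 23) (nat_lit 5) (nat_lit 24) (nat_lit 5) (nat_lit 25) (nat_lit 4) (nat_lit 396) (nat_lit 269) (nat_lit 235)) (XT.lf (nat_lit 0) (nat_lit 14577532197) (nat_lit 152) (nat_lit 3779810087) (nat_lit 0) (nat_lit 4024279791) (nat_lit 23) (nat_lit 5) (nat_lit 25) (nat_lit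 4) (nat_lit 23) (nat_lit 4) (nat_lit 397) (nat_lit 269) (nat_lit 234)))) (XT.nd (nat_lit 78) (nat_lit 76) (nat_lit 0) (XT.lf (nat_lit 0) (nat_lit 5216555606) (nat_lit 76) (nat_lit 14205723236) (nat_lit 76) (nat_lit 3483011297) (nat_lit 22) (nat_lit 4) (nat_lit 23) (nat_lit 5) (nat_lit 23) (nat_lit 4) (nat_lit 398) (nat_lit 269) (nat_lit 233)) (XT.nd (nat_lit 78) (nat_lit 0) (nat_lit 0) (XT.lf (nat_lit 0) (nat_lit 927539197) (nat_lit 152) (nat_lit 9004331185) (nat_lit 76) (nat_lit 13513166707) (nat_lit 21) (nat_lit 5) (nat_lit 23) (nat_lit 5) (nat_lit 22) (nat_lit 4) (nat_lit 399) (nat_lit 269) (nat_lit 232)) (XT.lf (nat_lit 0) (nat_lit 5342319851) (nat_lit 152) (nat_lit 202058320) (nat_lit 76) (nat_lit 18457315474) (nat_lit 21) (nat_lit 5) (nat_lit 23) (nat_lit 5) (nat_lit 22) (nat_lit 4) (nat_lit 400) (nat_lit 269) (nat_lit 231))))) (XT.nd (nat_lit 234) (nat_lit 152) (nat_lit 0) (XT.nd (nat_lit 78) (nat_lit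 76) (nat_lit 0) (XT.lf (nat_lit 0) (nat_lit 8933582576) (nat_lit 76) (nat_lit 985446819) (nat_lit 152) (nat_lit 14655144983) (nat_lit 20) (nat_lit 5) (nat_lit 21) (nat_lit 5) (nat_lit 22) (nat_lit 4) (nat_lit 401) (nat_lit 269) (nat_lit 230)) (XT.nd (nat_lit 78) (nat_lit 76) (nat_lit 0) (XT.lf (nat_lit 0) (nat_lit 14614555372) (nat_lit 152) (nat_lit 6957233276) (nat_lit 0) (nat_lit 3592604210) (nat_lit 20) (nat_lit 5) (nat_lit 22) (nat_lit 4) (nat_lit 20) (nat_lit 4) (nat_lit 402) (nat_lit 269) (nat_lit 229)) (XT.lf (nat_lit 0) (nat_lit 1912029957) (nat_lit 76) (nat_lit 17512480212) (nat_lit 76) (nat_lit 6348609359) (nat_lit 19) (nat_lit 4) (nat_lit 20) (nat_lit 5) (nat_lit 20) (nat_lit 4) (nat_lit 403) (nat_lit 269) (nat_lit 228)))) (XT.nd (nat_lit 156) (nat_lit 76) (nat_lit 0) (XT.nd (nat_lit 78) (nat_lit 76) (nat_lit 0) (XT.lf (nat_lit 0) (nat_lit 11088839275) (nat_lit 76) (nat_lit 13306222507) (nat_lit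 76) (nat_lit 2004565546) (nat_lit 19) (nat_lit 4) (nat_lit 20) (nat_lit 5) (nat_lit 20) (nat_lit 4) (nat_lit 404) (nat_lit 269) (nat_lit 227)) (XT.lf (nat_lit 0) (nat_lit 2368693654) (nat_lit 152) (nat_lit 6626981761) (nat_lit 76) (nat_lit 18050137850) (nat_lit 18) (nat_lit 5) (nat_lit 20) (nat_lit 5) (nat_lit 19) (nat_lit 4) (nat_lit 405) (nat_lit 269) (nat_lit 226))) (XT.nd (nat_lit 78) (nat_lit 0) (nat_lit 0) (XT.lf (nat_lit 0) (nat_lit 2244926243) (nat_lit 76) (nat_lit 4558144074) (nat_lit 152) (nat_lit 20908620337) (nat_lit 17) (nat_lit 5) (nat_lit 18) (nat_lit 5) (nat_lit 19) (nat_lit 4) (nat_lit 406) (nat_lit 269) (nat_lit 225)) (XT.lf (nat_lit 0) (nat_lit 11386960368) (nat_lit 152) (nat_lit 16974010607) (nat_lit 0) (nat_lit 36086282) (nat_lit 17) (nat_lit 5) (nat_lit 19) (nat_lit 4) (nat_lit 17) (nat_lit 4) (nat_lit 407) (nat_lit 269) (nat_lit 224)))))) (XT.nd (nat_lit 468) (nat_lit 152) (nat_lit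 0) (XT.nd (nat_lit 234) (nat_lit 152) (nat_lit 0) (XT.nd (nat_lit 78) (nat_lit 76) (nat_lit 0) (XT.lf (nat_lit 0) (nat_lit 16103768823) (nat_lit 152) (nat_lit 8365321891) (nat_lit 0) (nat_lit 4634039231) (nat_lit 17) (nat_lit 5) (nat_lit 19) (nat_lit 4) (nat_lit 17) (nat_lit 4) (nat_lit 408) (nat_lit 269) (nat_lit 223)) (XT.nd (nat_lit 78) (nat_lit 0) (nat_lit 0) (XT.lf (nat_lit 0) (nat_lit 418812092) (nat_lit 76) (nat_lit 20499015284) (nat_lit 76) (nat_lit 8913891996) (nat_lit 16) (nat_lit 4) (nat_lit 17) (nat_lit 5) (nat_lit 17) (nat_lit 4) (nat_lit 409) (nat_lit 269) (nat_lit 222)) (XT.lf (nat_lit 0) (nat_lit 9547855106) (nat_lit 76) (nat_lit 16365186051) (nat_lit 76) (nat_lit 4668030049) (nat_lit 16) (nat_lit 4) (nat_lit 17) (nat_lit 5) (nat_lit 17) (nat_lit 4) (nat_lit 410) (nat_lit 269) (nat_lit 221)))) (XT.nd (nat_lit 78) (nat_lit 152) (nat_lit 0) (XT.lf (nat_lit 0) (nat_lit 18863297675) (nat_lit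 76) (nat_lit 12148464282) (nat_lit 76) (nat_lit 342538654) (nat_lit 16) (nat_lit 4) (nat_lit 17) (nat_lit 5) (nat_lit 17) (nat_lit 4) (nat_lit 411) (nat_lit 269) (nat_lit 220)) (XT.nd (nat_lit 78) (nat_lit 76) (nat_lit 0) (XT.lf (nat_lit 0) (nat_lit 3987012380) (nat_lit 152) (nat_lit 3817892073) (nat_lit 76) (nat_lit 24346006119) (nat_lit 15) (nat_lit 5) (nat_lit 17) (nat_lit 5) (nat_lit 16) (nat_lit 4) (nat_lit 412) (nat_lit 269) (nat_lit 219)) (XT.lf (nat_lit 0) (nat_lit 5128766653) (nat_lit 76) (nat_lit 3315972097) (nat_lit 152) (nat_lit 24526429114) (nat_lit 14) (nat_lit 5) (nat_lit 15) (nat_lit 5) (nat_lit 16) (nat_lit 4) (nat_lit 413) (nat_lit 269) (nat_lit 218))))) (XT.nd (nat_lit 234) (nat_lit 152) (nat_lit 0) (XT.nd (nat_lit 78) (nat_lit 0) (nat_lit 0) (XT.lf (nat_lit 0) (nat_lit 13043692513) (nat_lit 152) (nat_lit 19489198325) (nat_lit 0) (nat_lit 1282922973) (nat_lit 14) (nat_lit 5) (nat_lit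 16) (nat_lit 4) (nat_lit 14) (nat_lit 4) (nat_lit 414) (nat_lit 269) (nat_lit 217)) (XT.nd (nat_lit 78) (nat_lit 0) (nat_lit 0) (XT.lf (nat_lit 0) (nat_lit 17770719054) (nat_lit 152) (nat_lit 10999258715) (nat_lit 0) (nat_lit 5916123879) (nat_lit 14) (nat_lit 5) (nat_lit 16) (nat_lit 4) (nat_lit 14) (nat_lit 4) (nat_lit 415) (nat_lit 269) (nat_lit 216)) (XT.lf (nat_lit 0) (nat_lit 22598073631) (nat_lit 152) (nat_lit 2333288836) (nat_lit 0) (nat_lit 10652385607) (nat_lit 14) (nat_lit 5) (nat_lit 16) (nat_lit 4) (nat_lit 14) (nat_lit 4) (nat_lit 416) (nat_lit 269) (nat_lit 215)))) (XT.nd (nat_lit 156) (nat_lit 76) (nat_lit 0) (XT.nd (nat_lit 78) (nat_lit 0) (nat_lit 0) (XT.lf (nat_lit 0) (nat_lit 6645970336) (nat_lit 76) (nat_lit 20947889117) (nat_lit 76) (nat_lit 8913761434) (nat_lit 13) (nat_lit 4) (nat_lit 14) (nat_lit 5) (nat_lit 14) (nat_lit 4) (nat_lit 417) (nat_lit 269) (nat_lit 214)) (XT.lf (nat_lit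 0) (nat_lit 15866809589) (nat_lit 76) (nat_lit 16856442444) (nat_lit 76) (nat_lit 4736451014) (nat_lit 13) (nat_lit 4) (nat_lit 14) (nat_lit 5) (nat_lit 14) (nat_lit 4) (nat_lit 418) (nat_lit 269) (nat_lit 213))) (XT.nd (nat_lit 78) (nat_lit 76) (nat_lit 0) (XT.lf (nat_lit 0) (nat_lit 25290848940) (nat_lit 76) (nat_lit 12677009041) (nat_lit 76) (nat_lit 473654750) (nat_lit 13) (nat_lit 4) (nat_lit 14) (nat_lit 5) (nat_lit 14) (nat_lit 4) (nat_lit 419) (nat_lit 269) (nat_lit 212)) (XT.lf (nat_lit 0) (nat_lit 3802671511) (nat_lit 152) (nat_lit 4564865938) (nat_lit 76) (nat_lit 31085251951) (nat_lit 12) (nat_lit 5) (nat_lit 14) (nat_lit 5) (nat_lit 13) (nat_lit 4) (nat_lit 420) (nat_lit 269) (nat_lit 211))))))) (XT.nd (nat_lit 1014) (nat_lit 228) (nat_lit 0) (XT.nd (nat_lit 468) (nat_lit 152) (nat_lit 0) (XT.nd (nat_lit 234) (nat_lit 76) (nat_lit 0) (XT.nd (nat_lit 78) (nat_lit 0) (nat_lit 0) (XT.lf (nat_lit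 0) (nat_lit 4287533996) (nat_lit 76) (nat_lit 3914633784) (nat_lit 152) (nat_lit 32291968475) (nat_lit 11) (nat_lit 5) (nat_lit 12) (nat_lit 5) (nat_lit 13) (nat_lit 4) (nat_lit 421) (nat_lit 269) (nat_lit 210)) (XT.nd (nat_lit 78) (nat_lit 0) (nat_lit 0) (XT.lf (nat_lit 0) (nat_lit 12749936302) (nat_lit 152) (nat_lit 28143216668) (nat_lit 0) (nat_lit 673086374) (nat_lit 11) (nat_lit 5) (nat_lit 13) (nat_lit 4) (nat_lit 11) (nat_lit 4) (nat_lit 422) (nat_lit 269) (nat_lit 209)) (XT.lf (nat_lit 0) (nat_lit 17437242718) (nat_lit 152) (nat_lit 19944690729) (nat_lit 0) (nat_lit 5288483254) (nat_lit 11) (nat_lit 5) (nat_lit 13) (nat_lit 4) (nat_lit 11) (nat_lit 4) (nat_lit 423) (nat_lit 269) (nat_lit 208)))) (XT.nd (nat_lit 78) (nat_lit 76) (nat_lit 0) (XT.lf (nat_lit 0) (nat_lit 22230552878) (nat_lit 152) (nat_lit 11566230828) (nat_lit 0) (nat_lit 10011978329) (nat_lit 11) (nat_lit 5) (nat_lit 13) (nat_lit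 4) (nat_lit 11) (nat_lit 4) (nat_lit 424) (nat_lit 269) (nat_lit 207)) (XT.nd (nat_lit 78) (nat_lit 76) (nat_lit 0) (XT.lf (nat_lit 0) (nat_lit 27134055110) (nat_lit 152) (nat_lit 3000515980) (nat_lit 0) (nat_lit 14847698927) (nat_lit 11) (nat_lit 5) (nat_lit 13) (nat_lit 4) (nat_lit 11) (nat_lit 4) (nat_lit 425) (nat_lit 269) (nat_lit 206)) (XT.lf (nat_lit 0) (nat_lit 5874572487) (nat_lit 76) (nat_lit 26333931526) (nat_lit 76) (nat_lit 13981767931) (nat_lit 10) (nat_lit 4) (nat_lit 11) (nat_lit 5) (nat_lit 11) (nat_lit 4) (nat_lit 426) (nat_lit 269) (nat_lit 205))))) (XT.nd (nat_lit 234) (nat_lit 152) (nat_lit 0) (XT.nd (nat_lit 78) (nat_lit 0) (nat_lit 0) (XT.lf (nat_lit 0) (nat_lit 15015799469) (nat_lit 76) (nat_lit 22417415858) (nat_lit 76) (nat_lit 10001361572) (nat_lit 10) (nat_lit 4) (nat_lit 11) (nat_lit 5) (nat_lit 11) (nat_lit 4) (nat_lit 427) (nat_lit 269) (nat_lit 204)) (XT.nd (nat_lit 78)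 (nat_lit 0) (nat_lit 0) (XT.lf (nat_lit 0) (nat_lit 24371436292) (nat_lit 76) (nat_lit 18411901217) (nat_lit 76) (nat_lit 5933817133) (nat_lit 10) (nat_lit 4) (nat_lit 11) (nat_lit 5) (nat_lit 11) (nat_lit 4) (nat_lit 428) (nat_lit 269) (nat_lit 203)) (XT.lf (nat_lit 0) (nat_lit 33949657785) (nat_lit 76) (nat_lit 14313887638) (nat_lit 76) (nat_lit 1775580450) (nat_lit 10) (nat_lit 4) (nat_lit 11) (nat_lit 5) (nat_lit 11) (nat_lit 4) (nat_lit 429) (nat_lit 269) (nat_lit 202)))) (XT.nd (nat_lit 156) (nat_lit 0) (nat_lit 0) (XT.nd (nat_lit 78) (nat_lit 76) (nat_lit 0) (XT.lf (nat_lit 0) (nat_lit 2428647049) (nat_lit 152) (nat_lit 7666622711) (nat_lit 76) (nat_lit 41305661645) (nat_lit 9) (nat_lit 5) (nat_lit 11) (nat_lit 5) (nat_lit 10) (nat_lit 4) (nat_lit 430) (nat_lit 269) (nat_lit 201)) (XT.lf (nat_lit 0) (nat_lit 954626420) (nat_lit 76) (nat_lit 5748904956) (nat_lit 152) (nat_lit 46100129115) (nat_lit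 8) (nat_lit 5) (nat_lit 9) (nat_lit 5) (nat_lit 10) (nat_lit 4) (nat_lit 431) (nat_lit 269) (nat_lit 200))) (XT.nd (nat_lit 78) (nat_lit 0) (nat_lit 0) (XT.lf (nat_lit 0) (nat_lit 9936883921) (nat_lit 76) (nat_lit 1218553943) (nat_lit 152) (nat_lit 43091573529) (nat_lit 8) (nat_lit 5) (nat_lit 9) (nat_lit 5) (nat_lit 10) (nat_lit 4) (nat_lit 432) (nat_lit 269) (nat_lit 199)) (XT.lf (nat_lit 0) (nat_lit 15745991036) (nat_lit 152) (nat_lit 36631980114) (nat_lit 0) (nat_lit 3355542110) (nat_lit 8) (nat_lit 5) (nat_lit 10) (nat_lit 4) (nat_lit 8) (nat_lit 4) (nat_lit 433) (nat_lit 269) (nat_lit 198)))))) (XT.nd (nat_lit 546) (nat_lit 152) (nat_lit 0) (XT.nd (nat_lit 234) (nat_lit 76) (nat_lit 0) (XT.nd (nat_lit 78) (nat_lit 0) (nat_lit 0) (XT.lf (nat_lit 0) (nat_lit 20459090753) (nat_lit 152) (nat_lit 28787771636) (nat_lit 0) (nat_lit 8018205924) (nat_lit 8) (nat_lit 5) (nat_lit 10) (nat_lit 4) (nat_lit 8)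 (nat_lit 4) (nat_lit 434) (nat_lit 269) (nat_lit 197)) (XT.nd (nat_lit 78) (nat_lit 0) (nat_lit 0) (XT.lf (nat_lit 0) (nat_lit 25287141772) (nat_lit 152) (nat_lit 20758934390) (nat_lit 0) (nat_lit 12797290049) (nat_lit 8) (nat_lit 5) (nat_lit 10) (nat_lit 4) (nat_lit 8) (nat_lit 4) (nat_lit 435) (nat_lit 269) (nat_lit 196)) (XT.lf (nat_lit 0) (nat_lit 30234362779) (nat_lit 152) (nat_lit 12538452886) (nat_lit 0) (nat_lit 17696970381) (nat_lit 8) (nat_lit 5) (nat_lit 10) (nat_lit 4) (nat_lit 8) (nat_lit 4) (nat_lit 436) (nat_lit 269) (nat_lit 195)))) (XT.nd (nat_lit 156) (nat_lit 0) (nat_lit 0) (XT.nd (nat_lit 78) (nat_lit 76) (nat_lit 0) (XT.lf (nat_lit 0) (nat_lit 35305076589) (nat_lit 152) (nat_lit 4119144180) (nat_lit 0) (nat_lit 22721528196) (nat_lit 8) (nat_lit 5) (nat_lit 10) (nat_lit 4) (nat_lit 8) (nat_lit 4) (nat_lit 437) (nat_lit 269) (nat_lit 194)) (XT.lf (nat_lit 0) (nat_lit 4596033573) (nat_lit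 76) (nat_lit 35951860234) (nat_lit 76) (nat_lit 23323500195) (nat_lit 7) (nat_lit 4) (nat_lit 8) (nat_lit 5) (nat_lit 8) (nat_lit 4) (nat_lit 438) (nat_lit 269) (nat_lit 193))) (XT.nd (nat_lit 78) (nat_lit 0) (nat_lit 0) (XT.lf (nat_lit 0) (nat_lit 13611164553) (nat_lit 76) (nat_lit 32354491563) (nat_lit 76) (nat_lit 19682625072) (nat_lit 7) (nat_lit 4) (nat_lit 8) (nat_lit 5) (nat_lit 8) (nat_lit 4) (nat_lit 439) (nat_lit 269) (nat_lit 192)) (XT.lf (nat_lit 0) (nat_lit 22852147011) (nat_lit 76) (nat_lit 28670566703) (nat_lit 76) (nat_lit 15956460939) (nat_lit 7) (nat_lit 4) (nat_lit 8) (nat_lit 5) (nat_lit 8) (nat_lit 4) (nat_lit 440) (nat_lit 269) (nat_lit 191))))) (XT.nd (nat_lit 234) (nat_lit 152) (nat_lit 0) (XT.nd (nat_lit 78) (nat_lit 0) (nat_lit 0) (XT.lf (nat_lit 0) (nat_lit 32327055593) (nat_lit 76) (nat_lit 24896866693) (nat_lit 76) (nat_lit 12141751924) (nat_lit 7) (nat_lit 4) (nat_lit 8) (nat_lit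 5) (nat_lit 8) (nat_lit 4) (nat_lit 441) (nat_lit 269) (nat_lit 190)) (XT.nd (nat_lit 78) (nat_lit 0) (nat_lit 0) (XT.lf (nat_lit 0) (nat_lit 42044169343) (nat_lit 76) (nat_lit 21030094122) (nat_lit 76) (nat_lit 8235164787) (nat_lit 7) (nat_lit 4) (nat_lit 8) (nat_lit 5) (nat_lit 8) (nat_lit 4) (nat_lit 442) (nat_lit 269) (nat_lit 189)) (XT.lf (nat_lit 0) (nat_lit 52011978945) (nat_lit 76) (nat_lit 17066870259) (nat_lit 76) (nat_lit 4233286005) (nat_lit 7) (nat_lit 4) (nat_lit 8) (nat_lit 5) (nat_lit 8) (nat_lit 4) (nat_lit 443) (nat_lit 269) (nat_lit 188)))) (XT.nd (nat_lit 156) (nat_lit 76) (nat_lit 0) (XT.nd (nat_lit 78) (nat_lit 76) (nat_lit 0) (XT.lf (nat_lit 0) (nat_lit 62239194134) (nat_lit 76) (nat_lit 13003732093) (nat_lit 76) (nat_lit 132618791) (nat_lit 7) (nat_lit 4) (nat_lit 8) (nat_lit 5) (nat_lit 8) (nat_lit 4) (nat_lit 444) (nat_lit 269) (nat_lit 187)) (XT.lf (nat_lit 0) (nat_lit 3990991407)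 (nat_lit 152) (nat_lit 4805836712) (nat_lit 76) (nat_lit 68703458718) (nat_lit 6) (nat_lit 5) (nat_lit 8) (nat_lit 5) (nat_lit 7) (nat_lit 4) (nat_lit 445) (nat_lit 269) (nat_lit 186))) (XT.nd (nat_lit 78) (nat_lit 0) (nat_lit 0) (XT.lf (nat_lit 0) (nat_lit 3809877149) (nat_lit 76) (nat_lit 4442734252) (nat_lit 152) (nat_lit 71435613171) (nat_lit 5) (nat_lit 5) (nat_lit 6) (nat_lit 5) (nat_lit 7) (nat_lit 4) (nat_lit 446) (nat_lit 269) (nat_lit 185)) (XT.lf (nat_lit 0) (nat_lit 12671878515) (nat_lit 152) (nat_lit 69196441158) (nat_lit 0) (nat_lit 72588813) (nat_lit 5) (nat_lit 5) (nat_lit 7) (nat_lit 4) (nat_lit 5) (nat_lit 4) (nat_lit 447) (nat_lit 269) (nat_lit 184))))))))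
noncomputable def xc38 : XT := (XT.nd (nat_lit 41886) (nat_lit 0) (nat_lit 836) (XT.nd (nat_lit 40872) (nat_lit 0) (nat_lit 2280) (XT.nd (nat_lit 40326) (nat_lit 0) (nat_lit 3648) (XT.nd (nat_lit 40092) (nat_lit 0) (nat_lit 4712) (XT.nd (nat_lit 78) (nat_lit 0) (nat_lit 0) (XT.lf (nat_lit 0) (nat_lit 17248667361) (nat_lit 152) (nat_lit 62394754417) (nat_lit 0) (nat_lit 4617004773) (nat_lit 5) (nat_lit 5) (nat_lit 7) (nat_lit 4) (nat_lit 5) (nat_lit 4) (nat_lit 448) (nat_lit 269) (nat_lit 183)) (XT.nd (nat_lit 39936) (nat_lit 0) (nat_lit 5244) (XT.lf (nat_lit 0) (nat_lit 21944270797) (nat_lit 152) (nat_lit 55424637698) (nat_lit 0) (nat_lit 9281178223) (nat_lit 5) (nat_lit 5) (nat_lit 7) (nat_lit 4) (nat_lit 5) (nat_lit 4) (nat_lit 449) (nat_lit 269) (nat_lit 182)) (XT.lf (nat_lit 0) (nat_lit 1701894484) (nat_lit 228) (nat_lit 1867864774) (nat_lit 228) (nat_lit 1867864774) (nat_lit 74) (nat_lit 4) (nat_lit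 77) (nat_lit 5) (nat_lit 77) (nat_lit 4) (nat_lit 360) (nat_lit 270) (nat_lit 270)))) (XT.nd (nat_lit 78) (nat_lit 228) (nat_lit 0) (XT.lf (nat_lit 0) (nat_lit 627315307) (nat_lit 228) (nat_lit 16610388) (nat_lit 304) (nat_lit 10403802330) (nat_lit 70) (nat_lit 5) (nat_lit 73) (nat_lit 5) (nat_lit 74) (nat_lit 4) (nat_lit 361) (nat_lit 270) (nat_lit 269)) (XT.nd (nat_lit 78) (nat_lit 228) (nat_lit 0) (XT.lf (nat_lit 0) (nat_lit 5092083679) (nat_lit 304) (nat_lit 2340657724) (nat_lit 0) (nat_lit 3791203927) (nat_lit 70) (nat_lit 5) (nat_lit 74) (nat_lit 4) (nat_lit 70) (nat_lit 4) (nat_lit 362) (nat_lit 270) (nat_lit 268)) (XT.lf (nat_lit 0) (nat_lit 5936635092) (nat_lit 228) (nat_lit 3696554341) (nat_lit 228) (nat_lit 1773512003) (nat_lit 67) (nat_lit 4) (nat_lit 70) (nat_lit 5) (nat_lit 70) (nat_lit 4) (nat_lit 363) (nat_lit 270) (nat_lit 267))))) (XT.nd (nat_lit 234) (nat_lit 608) (nat_lit 0) (XT.nd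 (nat_lit 78) (nat_lit 228) (nat_lit 0) (XT.lf (nat_lit 0) (nat_lit 2617427114) (nat_lit 228) (nat_lit 8814172515) (nat_lit 0) (nat_lit 163947810) (nat_lit 64) (nat_lit 5) (nat_lit 67) (nat_lit 4) (nat_lit 64) (nat_lit 4) (nat_lit 364) (nat_lit 270) (nat_lit 266)) (XT.nd (nat_lit 78) (nat_lit 228) (nat_lit 0) (XT.lf (nat_lit 0) (nat_lit 7100129173) (nat_lit 228) (nat_lit 612283680) (nat_lit 0) (nat_lit 4077282967) (nat_lit 64) (nat_lit 5) (nat_lit 67) (nat_lit 4) (nat_lit 64) (nat_lit 4) (nat_lit 365) (nat_lit 270) (nat_lit 265)) (XT.lf (nat_lit 0) (nat_lit 7831525399) (nat_lit 228) (nat_lit 3867182103) (nat_lit 228) (nat_lit 291552498) (nat_lit 61) (nat_lit 4) (nat_lit 64) (nat_lit 5) (nat_lit 64) (nat_lit 4) (nat_lit 366) (nat_lit 270) (nat_lit 264)))) (XT.nd (nat_lit 156) (nat_lit 228) (nat_lit 0) (XT.nd (nat_lit 78) (nat_lit 152) (nat_lit 0) (XT.lf (nat_lit 0) (nat_lit 4110149462) (nat_lit 228) (nat_lit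 7969254027) (nat_lit 0) (nat_lit 117613038) (nat_lit 58) (nat_lit 5) (nat_lit 61) (nat_lit 4) (nat_lit 58) (nat_lit 4) (nat_lit 367) (nat_lit 270) (nat_lit 263)) (XT.lf (nat_lit 0) (nat_lit 349657805) (nat_lit 152) (nat_lit 8279470353) (nat_lit 152) (nat_lit 3781058811) (nat_lit 56) (nat_lit 4) (nat_lit 58) (nat_lit 5) (nat_lit 58) (nat_lit 4) (nat_lit 368) (nat_lit 270) (nat_lit 262))) (XT.nd (nat_lit 78) (nat_lit 152) (nat_lit 0) (XT.lf (nat_lit 0) (nat_lit 629725497) (nat_lit 228) (nat_lit 3711209673) (nat_lit 76) (nat_lit 8289000552) (nat_lit 55) (nat_lit 5) (nat_lit 58) (nat_lit 5) (nat_lit 56) (nat_lit 4) (nat_lit 369) (nat_lit 270) (nat_lit 261)) (XT.lf (nat_lit 0) (nat_lit 4790964907) (nat_lit 152) (nat_lit 261918420) (nat_lit 228) (nat_lit 7803616968) (nat_lit 53) (nat_lit 5) (nat_lit 55) (nat_lit 5) (nat_lit 56) (nat_lit 4) (nat_lit 370) (nat_lit 270) (nat_lit 260)))))) (XT.nd (nat_lit 468) (nat_lit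 608) (nat_lit 0) (XT.nd (nat_lit 234) (nat_lit 380) (nat_lit 0) (XT.nd (nat_lit 78) (nat_lit 228) (nat_lit 0) (XT.lf (nat_lit 0) (nat_lit 349876674) (nat_lit 152) (nat_lit 9248480027) (nat_lit 152) (nat_lit 3491843479) (nat_lit 51) (nat_lit 4) (nat_lit 53) (nat_lit 5) (nat_lit 53) (nat_lit 4) (nat_lit 371) (nat_lit 270) (nat_lit 259)) (XT.nd (nat_lit 78) (nat_lit 152) (nat_lit 0) (XT.lf (nat_lit 0) (nat_lit 926384182) (nat_lit 228) (nat_lit 4312448977) (nat_lit 76) (nat_lit 8091960852) (nat_lit 50) (nat_lit 5) (nat_lit 53) (nat_lit 5) (nat_lit 51) (nat_lit 4) (nat_lit 372) (nat_lit 270) (nat_lit 258)) (XT.lf (nat_lit 0) (nat_lit 4266909895) (nat_lit 152) (nat_lit 1094460158) (nat_lit 228) (nat_lit 8217591311) (nat_lit 48) (nat_lit 5) (nat_lit 50) (nat_lit 5) (nat_lit 51) (nat_lit 4) (nat_lit 373) (nat_lit 270) (nat_lit 257)))) (XT.nd (nat_lit 78) (nat_lit 380) (nat_lit 0) (XT.lf (nat_lit 0) (nat_lit 9917763352)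 (nat_lit 228) (nat_lit 822715508) (nat_lit 0) (nat_lit 3094468131) (nat_lit 48) (nat_lit 5) (nat_lit 51) (nat_lit 4) (nat_lit 48) (nat_lit 4) (nat_lit 374) (nat_lit 270) (nat_lit 256)) (XT.nd (nat_lit 78) (nat_lit 152) (nat_lit 0) (XT.lf (nat_lit 0) (nat_lit 505582993) (nat_lit 228) (nat_lit 6184672899) (nat_lit 76) (nat_lit 7408130918) (nat_lit 45) (nat_lit 5) (nat_lit 48) (nat_lit 5) (nat_lit 46) (nat_lit 4) (nat_lit 375) (nat_lit 270) (nat_lit 255)) (XT.lf (nat_lit 0) (nat_lit 2421589352) (nat_lit 152) (nat_lit 2508959575) (nat_lit 228) (nat_lit 9439591894) (nat_lit 43) (nat_lit 5) (nat_lit 45) (nat_lit 5) (nat_lit 46) (nat_lit 4) (nat_lit 376) (nat_lit 270) (nat_lit 254))))) (XT.nd (nat_lit 234) (nat_lit 380) (nat_lit 0) (XT.nd (nat_lit 78) (nat_lit 228) (nat_lit 0) (XT.lf (nat_lit 0) (nat_lit 9485630826) (nat_lit 228) (nat_lit 3400128748) (nat_lit 0) (nat_lit 1764388184) (nat_lit 43) (nat_lit 5) (nat_lit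 46) (nat_lit 4) (nat_lit 43) (nat_lit 4) (nat_lit 377) (nat_lit 270) (nat_lit 253)) (XT.nd (nat_lit 78) (nat_lit 76) (nat_lit 0) (XT.lf (nat_lit 0) (nat_lit 5341541661) (nat_lit 152) (nat_lit 8831442177) (nat_lit 152) (nat_lit 765723196) (nat_lit 41) (nat_lit 4) (nat_lit 43) (nat_lit 5) (nat_lit 43) (nat_lit 4) (nat_lit 378) (nat_lit 270) (nat_lit 252)) (XT.lf (nat_lit 0) (nat_lit 3645852621) (nat_lit 228) (nat_lit 999081206) (nat_lit 76) (nat_lit 10591294384) (nat_lit 40) (nat_lit 5) (nat_lit 43) (nat_lit 5) (nat_lit 41) (nat_lit 4) (nat_lit 379) (nat_lit 270) (nat_lit 251)))) (XT.nd (nat_lit 156) (nat_lit 152) (nat_lit 0) (XT.nd (nat_lit 78) (nat_lit 152) (nat_lit 0) (XT.lf (nat_lit 0) (nat_lit 7864164096) (nat_lit 76) (nat_lit 307770934) (nat_lit 152) (nat_lit 7370604998) (nat_lit 39) (nat_lit 5) (nat_lit 40) (nat_lit 5) (nat_lit 41) (nat_lit 4) (nat_lit 380) (nat_lit 270) (nat_lit 250)) (XT.lf (nat_lit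 0) (nat_lit 996356135) (nat_lit 152) (nat_lit 11819522804) (nat_lit 152) (nat_lit 3042718275) (nat_lit 37) (nat_lit 4) (nat_lit 39) (nat_lit 5) (nat_lit 39) (nat_lit 4) (nat_lit 381) (nat_lit 270) (nat_lit 249))) (XT.nd (nat_lit 78) (nat_lit 76) (nat_lit 0) (XT.lf (nat_lit 0) (nat_lit 1391235232) (nat_lit 228) (nat_lit 6249745323) (nat_lit 76) (nat_lit 8542649572) (nat_lit 36) (nat_lit 5) (nat_lit 39) (nat_lit 5) (nat_lit 37) (nat_lit 4) (nat_lit 382) (nat_lit 270) (nat_lit 248)) (XT.lf (nat_lit 0) (nat_lit 2504682698) (nat_lit 76) (nat_lit 3341193683) (nat_lit 152) (nat_lit 10673185955) (nat_lit 35) (nat_lit 5) (nat_lit 36) (nat_lit 5) (nat_lit 37) (nat_lit 4) (nat_lit 383) (nat_lit 270) (nat_lit 247))))))) (XT.nd (nat_lit 1014) (nat_lit 532) (nat_lit 0) (XT.nd (nat_lit 468) (nat_lit 456) (nat_lit 0) (XT.nd (nat_lit 234) (nat_lit 228) (nat_lit 0) (XT.nd (nat_lit 78) (nat_lit 228) (nat_lit 0) (XT.lf (nat_lit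 0) (nat_lit 10433427312) (nat_lit 152) (nat_lit 5359427650) (nat_lit 0) (nat_lit 1071740766) (nat_lit 35) (nat_lit 5) (nat_lit 37) (nat_lit 4) (nat_lit 35) (nat_lit 4) (nat_lit 384) (nat_lit 270) (nat_lit 246)) (XT.nd (nat_lit 78) (nat_lit 76) (nat_lit 0) (XT.lf (nat_lit 0) (nat_lit 3457975886) (nat_lit 152) (nat_lit 11694213270) (nat_lit 152) (nat_lit 2068514294) (nat_lit 33) (nat_lit 4) (nat_lit 35) (nat_lit 5) (nat_lit 35) (nat_lit 4) (nat_lit 385) (nat_lit 270) (nat_lit 245)) (XT.lf (nat_lit 0) (nat_lit 2359756522) (nat_lit 228) (nat_lit 5091715983) (nat_lit 76) (nat_lit 10135875786) (nat_lit 32) (nat_lit 5) (nat_lit 35) (nat_lit 5) (nat_lit 33) (nat_lit 4) (nat_lit 386) (nat_lit 270) (nat_lit 244)))) (XT.nd (nat_lit 78) (nat_lit 152) (nat_lit 0) (XT.lf (nat_lit 0) (nat_lit 3764478805) (nat_lit 76) (nat_lit 3080524922) (nat_lit 152) (nat_lit 11120417754) (nat_lit 31) (nat_lit 5) (nat_lit 32) (nat_lit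 5) (nat_lit 33) (nat_lit 4) (nat_lit 387) (nat_lit 270) (nat_lit 243)) (XT.nd (nat_lit 78) (nat_lit 152) (nat_lit 0) (XT.lf (nat_lit 0) (nat_lit 11460202588) (nat_lit 152) (nat_lit 5504960198) (nat_lit 0) (nat_lit 1389826341) (nat_lit 31) (nat_lit 5) (nat_lit 33) (nat_lit 4) (nat_lit 31) (nat_lit 4) (nat_lit 388) (nat_lit 270) (nat_lit 242)) (XT.lf (nat_lit 0) (nat_lit 3362524673) (nat_lit 152) (nat_lit 12846004179) (nat_lit 152) (nat_lit 2547888490) (nat_lit 29) (nat_lit 4) (nat_lit 31) (nat_lit 5) (nat_lit 31) (nat_lit 4) (nat_lit 389) (nat_lit 270) (nat_lit 241))))) (XT.nd (nat_lit 234) (nat_lit 304) (nat_lit 0) (XT.nd (nat_lit 78) (nat_lit 76) (nat_lit 0) (XT.lf (nat_lit 0) (nat_lit 1879875039) (nat_lit 228) (nat_lit 6703075611) (nat_lit 76) (nat_lit 10586750993) (nat_lit 28) (nat_lit 5) (nat_lit 31) (nat_lit 5) (nat_lit 29) (nat_lit 4) (nat_lit 390) (nat_lit 270) (nat_lit 240)) (XT.nd (nat_lit 78)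 (nat_lit 0) (nat_lit 0) (XT.lf (nat_lit 0) (nat_lit 2144069960) (nat_lit 76) (nat_lit 4199751797) (nat_lit 152) (nat_lit 13252181628) (nat_lit 27) (nat_lit 5) (nat_lit 28) (nat_lit 5) (nat_lit 29) (nat_lit 4) (nat_lit 391) (nat_lit 270) (nat_lit 239)) (XT.lf (nat_lit 0) (nat_lit 10947270281) (nat_lit 152) (nat_lit 8763992502) (nat_lit 0) (nat_lit 323676049) (nat_lit 27) (nat_lit 5) (nat_lit 29) (nat_lit 4) (nat_lit 27) (nat_lit 4) (nat_lit 392) (nat_lit 270) (nat_lit 238)))) (XT.nd (nat_lit 156) (nat_lit 152) (nat_lit 0) (XT.nd (nat_lit 78) (nat_lit 0) (nat_lit 0) (XT.lf (nat_lit 0) (nat_lit 25772189) (nat_lit 152) (nat_lit 15640993956) (nat_lit 152) (nat_lit 4820949681) (nat_lit 25) (nat_lit 4) (nat_lit 27) (nat_lit 5) (nat_lit 27) (nat_lit 4) (nat_lit 393) (nat_lit 270) (nat_lit 237)) (XT.lf (nat_lit 0) (nat_lit 9142301682) (nat_lit 152) (nat_lit 11410898883) (nat_lit 152) (nat_lit 400126411) (nat_lit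 25) (nat_lit 4) (nat_lit 27) (nat_lit 5) (nat_lit 27) (nat_lit 4) (nat_lit 394) (nat_lit 270) (nat_lit 236))) (XT.nd (nat_lit 78) (nat_lit 76) (nat_lit 0) (XT.lf (nat_lit 0) (nat_lit 4010351121) (nat_lit 228) (nat_lit 3054932701) (nat_lit 76) (nat_lit 14368293436) (nat_lit 24) (nat_lit 5) (nat_lit 27) (nat_lit 5) (nat_lit 25) (nat_lit 4) (nat_lit 395) (nat_lit 270) (nat_lit 235)) (XT.lf (nat_lit 0) (nat_lit 5965187162) (nat_lit 76) (nat_lit 2577134147) (nat_lit 152) (nat_lit 13385888759) (nat_lit 23) (nat_lit 5) (nat_lit 24) (nat_lit 5) (nat_lit 25) (nat_lit 4) (nat_lit 396) (nat_lit 270) (nat_lit 234)))))) (XT.nd (nat_lit 546) (nat_lit 304) (nat_lit 0) (XT.nd (nat_lit 234) (nat_lit 152) (nat_lit 0) (XT.nd (nat_lit 78) (nat_lit 76) (nat_lit 0) (XT.lf (nat_lit 0) (nat_lit 13201155872) (nat_lit 152) (nat_lit 7249505971) (nat_lit 0) (nat_lit 1987303042) (nat_lit 23) (nat_lit 5) (nat_lit 25) (nat_lit 4) (nat_lit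 23) (nat_lit 4) (nat_lit 397) (nat_lit 270) (nat_lit 233)) (XT.nd (nat_lit 78) (nat_lit 0) (nat_lit 0) (XT.lf (nat_lit 0) (nat_lit 1623509202) (nat_lit 76) (nat_lit 16359200523) (nat_lit 76) (nat_lit 4980823875) (nat_lit 22) (nat_lit 4) (nat_lit 23) (nat_lit 5) (nat_lit 23) (nat_lit 4) (nat_lit 398) (nat_lit 270) (nat_lit 232)) (XT.lf (nat_lit 0) (nat_lit 10804310520) (nat_lit 76) (nat_lit 12119102932) (nat_lit 76) (nat_lit 580994422) (nat_lit 22) (nat_lit 4) (nat_lit 23) (nat_lit 5) (nat_lit 23) (nat_lit 4) (nat_lit 399) (nat_lit 270) (nat_lit 231)))) (XT.nd (nat_lit 156) (nat_lit 0) (nat_lit 0) (XT.nd (nat_lit 78) (nat_lit 76) (nat_lit 0) (XT.lf (nat_lit 0) (nat_lit 3817345401) (nat_lit 152) (nat_lit 3943976822) (nat_lit 76) (nat_lit 16300747552) (nat_lit 21) (nat_lit 5) (nat_lit 23) (nat_lit 5) (nat_lit 22) (nat_lit 4) (nat_lit 400) (nat_lit 270) (nat_lit 230)) (XT.lf (nat_lit 0) (nat_lit 5065962580)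 (nat_lit 76) (nat_lit 3263945383) (nat_lit 152) (nat_lit 16306571279) (nat_lit 20) (nat_lit 5) (nat_lit 21) (nat_lit 5) (nat_lit 22) (nat_lit 4) (nat_lit 401) (nat_lit 270) (nat_lit 229))) (XT.nd (nat_lit 78) (nat_lit 0) (nat_lit 0) (XT.lf (nat_lit 0) (nat_lit 12976648141) (nat_lit 152) (nat_lit 10915575884) (nat_lit 0) (nat_lit 1335941472) (nat_lit 20) (nat_lit 5) (nat_lit 22) (nat_lit 4) (nat_lit 20) (nat_lit 4) (nat_lit 402) (nat_lit 270) (nat_lit 228)) (XT.lf (nat_lit 0) (nat_lit 17742122872) (nat_lit 152) (nat_lit 2132477679) (nat_lit 0) (nat_lit 5963630095) (nat_lit 20) (nat_lit 5) (nat_lit 22) (nat_lit 4) (nat_lit 20) (nat_lit 4) (nat_lit 403) (nat_lit 270) (nat_lit 227))))) (XT.nd (nat_lit 234) (nat_lit 152) (nat_lit 0) (XT.nd (nat_lit 78) (nat_lit 76) (nat_lit 0) (XT.lf (nat_lit 0) (nat_lit 6953515680) (nat_lit 76) (nat_lit 15712446889) (nat_lit 76) (nat_lit 3800181193) (nat_lit 19) (nat_lit 4)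 (nat_lit 20) (nat_lit 5) (nat_lit 20) (nat_lit 4) (nat_lit 404) (nat_lit 270) (nat_lit 226)) (XT.nd (nat_lit 78) (nat_lit 0) (nat_lit 0) (XT.lf (nat_lit 0) (nat_lit 582811451) (nat_lit 152) (nat_lit 10859035071) (nat_lit 76) (nat_lit 15671763889) (nat_lit 18) (nat_lit 5) (nat_lit 20) (nat_lit 5) (nat_lit 19) (nat_lit 4) (nat_lit 405) (nat_lit 270) (nat_lit 225)) (XT.lf (nat_lit 0) (nat_lit 4971040077) (nat_lit 152) (nat_lit 2077024766) (nat_lit 76) (nat_lit 20732811021) (nat_lit 18) (nat_lit 5) (nat_lit 20) (nat_lit 5) (nat_lit 19) (nat_lit 4) (nat_lit 406) (nat_lit 270) (nat_lit 224)))) (XT.nd (nat_lit 156) (nat_lit 76) (nat_lit 0) (XT.nd (nat_lit 78) (nat_lit 0) (nat_lit 0) (XT.lf (nat_lit 0) (nat_lit 7014483944) (nat_lit 76) (nat_lit 2495437849) (nat_lit 152) (nat_lit 18957674441) (nat_lit 17) (nat_lit 5) (nat_lit 18) (nat_lit 5) (nat_lit 19) (nat_lit 4) (nat_lit 407) (nat_lit 270) (nat_lit 223)) (XT.lf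 (nat_lit 0) (nat_lit 14178959306) (nat_lit 152) (nat_lit 12865257537) (nat_lit 0) (nat_lit 2130888623) (nat_lit 17) (nat_lit 5) (nat_lit 19) (nat_lit 4) (nat_lit 17) (nat_lit 4) (nat_lit 408) (nat_lit 270) (nat_lit 222))) (XT.nd (nat_lit 78) (nat_lit 76) (nat_lit 0) (XT.lf (nat_lit 0) (nat_lit 18965901429) (nat_lit 152) (nat_lit 4132812239) (nat_lit 0) (nat_lit 6805798032) (nat_lit 17) (nat_lit 5) (nat_lit 19) (nat_lit 4) (nat_lit 17) (nat_lit 4) (nat_lit 409) (nat_lit 270) (nat_lit 221)) (XT.lf (nat_lit 0) (nat_lit 4870890182) (nat_lit 76) (nat_lit 19026875046) (nat_lit 76) (nat_lit 6758002024) (nat_lit 16) (nat_lit 4) (nat_lit 17) (nat_lit 5) (nat_lit 17) (nat_lit 4) (nat_lit 410) (nat_lit 270) (nat_lit 220))))))))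
noncomputable def xc39 : XT := (XT.nd (nat_lit 2028) (nat_lit 228) (nat_lit 0) (XT.nd (nat_lit 1014) (nat_lit 228) (nat_lit 0) (XT.nd (nat_lit 468) (nat_lit 228) (nat_lit 0) (XT.nd (nat_lit 234) (nat_lit 0) (nat_lit 0) (XT.nd (nat_lit 78) (nat_lit 152) (nat_lit 0) (XT.lf (nat_lit 0) (nat_lit 14144498261) (nat_lit 76) (nat_lit 14829820569) (nat_lit 76) (nat_lit 2455345968) (nat_lit 16) (nat_lit 4) (nat_lit 17) (nat_lit 5) (nat_lit 17) (nat_lit 4) (nat_lit 411) (nat_lit 270) (nat_lit 219)) (XT.nd (nat_lit 78) (nat_lit 76) (nat_lit 0) (XT.lf (nat_lit 0) (nat_lit 1893695936) (nat_lit 152) (nat_lit 8632797654) (nat_lit 76) (nat_lit 21701045531) (nat_lit 15) (nat_lit 5) (nat_lit 17) (nat_lit 5) (nat_lit 16) (nat_lit 4) (nat_lit 412) (nat_lit 270) (nat_lit 218)) (XT.lf (nat_lit 0) (nat_lit 177385900) (nat_lit 76) (nat_lit 6105336228) (nat_lit 152) (nat_lit 26767138150) (nat_lit 14) (nat_lit 5) (nat_lit 15) (nat_lit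 5) (nat_lit 16) (nat_lit 4) (nat_lit 413) (nat_lit 270) (nat_lit 217)))) (XT.nd (nat_lit 78) (nat_lit 0) (nat_lit 0) (XT.lf (nat_lit 0) (nat_lit 9348724586) (nat_lit 76) (nat_lit 1499504483) (nat_lit 152) (nat_lit 23047283337) (nat_lit 14) (nat_lit 5) (nat_lit 15) (nat_lit 5) (nat_lit 16) (nat_lit 4) (nat_lit 414) (nat_lit 270) (nat_lit 216)) (XT.nd (nat_lit 78) (nat_lit 0) (nat_lit 0) (XT.lf (nat_lit 0) (nat_lit 15540406598) (nat_lit 152) (nat_lit 16081186726) (nat_lit 0) (nat_lit 3145255084) (nat_lit 14) (nat_lit 5) (nat_lit 16) (nat_lit 4) (nat_lit 14) (nat_lit 4) (nat_lit 415) (nat_lit 270) (nat_lit 215)) (XT.lf (nat_lit 0) (nat_lit 20347921508) (nat_lit 152) (nat_lit 7452840798) (nat_lit 0) (nat_lit 7864330335) (nat_lit 14) (nat_lit 5) (nat_lit 16) (nat_lit 4) (nat_lit 14) (nat_lit 4) (nat_lit 416) (nat_lit 270) (nat_lit 214))))) (XT.nd (nat_lit 234) (nat_lit 152) (nat_lit 0) (XT.nd (nat_lit 78) (nat_lit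 0) (nat_lit 0) (XT.lf (nat_lit 0) (nat_lit 1387274163) (nat_lit 76) (nat_lit 23886621550) (nat_lit 76) (nat_lit 11317166630) (nat_lit 13) (nat_lit 4) (nat_lit 14) (nat_lit 5) (nat_lit 14) (nat_lit 4) (nat_lit 417) (nat_lit 270) (nat_lit 213)) (XT.nd (nat_lit 78) (nat_lit 0) (nat_lit 0) (XT.lf (nat_lit 0) (nat_lit 10571943426) (nat_lit 76) (nat_lit 19812296390) (nat_lit 76) (nat_lit 7159478609) (nat_lit 13) (nat_lit 4) (nat_lit 14) (nat_lit 5) (nat_lit 14) (nat_lit 4) (nat_lit 418) (nat_lit 270) (nat_lit 212)) (XT.lf (nat_lit 0) (nat_lit 19960866284) (nat_lit 76) (nat_lit 15649485814) (nat_lit 76) (nat_lit 2915733217) (nat_lit 13) (nat_lit 4) (nat_lit 14) (nat_lit 5) (nat_lit 14) (nat_lit 4) (nat_lit 419) (nat_lit 270) (nat_lit 211)))) (XT.nd (nat_lit 156) (nat_lit 76) (nat_lit 0) (XT.nd (nat_lit 78) (nat_lit 0) (nat_lit 0) (XT.lf (nat_lit 0) (nat_lit 1390111723) (nat_lit 152) (nat_lit 9990403289) (nat_lit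 76) (nat_lit 28158097523) (nat_lit 12) (nat_lit 5) (nat_lit 14) (nat_lit 5) (nat_lit 13) (nat_lit 4) (nat_lit 420) (nat_lit 270) (nat_lit 210)) (XT.lf (nat_lit 0) (nat_lit 5730786730) (nat_lit 152) (nat_lit 1255121852) (nat_lit 76) (nat_lit 33595817638) (nat_lit 12) (nat_lit 5) (nat_lit 14) (nat_lit 5) (nat_lit 13) (nat_lit 4) (nat_lit 421) (nat_lit 270) (nat_lit 209))) (XT.nd (nat_lit 78) (nat_lit 0) (nat_lit 0) (XT.lf (nat_lit 0) (nat_lit 7829059001) (nat_lit 76) (nat_lit 2413179786) (nat_lit 152) (nat_lit 31412682144) (nat_lit 11) (nat_lit 5) (nat_lit 12) (nat_lit 5) (nat_lit 13) (nat_lit 4) (nat_lit 422) (nat_lit 270) (nat_lit 208)) (XT.lf (nat_lit 0) (nat_lit 14889296297) (nat_lit 152) (nat_lit 25636662093) (nat_lit 0) (nat_lit 2234349429) (nat_lit 11) (nat_lit 5) (nat_lit 13) (nat_lit 4) (nat_lit 11) (nat_lit 4) (nat_lit 423) (nat_lit 270) (nat_lit 207)))))) (XT.nd (nat_lit 468) (nat_lit 152) (nat_lit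 0) (XT.nd (nat_lit 234) (nat_lit 76) (nat_lit 0) (XT.nd (nat_lit 78) (nat_lit 0) (nat_lit 0) (XT.lf (nat_lit 0) (nat_lit 19666051170) (nat_lit 152) (nat_lit 17289777980) (nat_lit 0) (nat_lit 6943322668) (nat_lit 11) (nat_lit 5) (nat_lit 13) (nat_lit 4) (nat_lit 11) (nat_lit 4) (nat_lit 424) (nat_lit 270) (nat_lit 206)) (XT.nd (nat_lit 78) (nat_lit 0) (nat_lit 0) (XT.lf (nat_lit 0) (nat_lit 24553480309) (nat_lit 152) (nat_lit 8754719238) (nat_lit 0) (nat_lit 11764944394) (nat_lit 11) (nat_lit 5) (nat_lit 13) (nat_lit 4) (nat_lit 11) (nat_lit 4) (nat_lit 425) (nat_lit 270) (nat_lit 205)) (XT.lf (nat_lit 0) (nat_lit 29555854283) (nat_lit 152) (nat_lit 24028047) (nat_lit 0) (nat_lit 16703427677) (nat_lit 11) (nat_lit 5) (nat_lit 13) (nat_lit 4) (nat_lit 11) (nat_lit 4) (nat_lit 426) (nat_lit 270) (nat_lit 204)))) (XT.nd (nat_lit 78) (nat_lit 0) (nat_lit 0) (XT.lf (nat_lit 0) (nat_lit 9087249316) (nat_lit 76)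 (nat_lit 25677646982) (nat_lit 76) (nat_lit 12763190578) (nat_lit 10) (nat_lit 4) (nat_lit 11) (nat_lit 5) (nat_lit 11) (nat_lit 4) (nat_lit 427) (nat_lit 270) (nat_lit 203)) (XT.nd (nat_lit 78) (nat_lit 0) (nat_lit 0) (XT.lf (nat_lit 0) (nat_lit 18414273117) (nat_lit 76) (nat_lit 21685761159) (nat_lit 76) (nat_lit 8711081651) (nat_lit 10) (nat_lit 4) (nat_lit 11) (nat_lit 5) (nat_lit 11) (nat_lit 4) (nat_lit 428) (nat_lit 270) (nat_lit 202)) (XT.lf (nat_lit 0) (nat_lit 27964714977) (nat_lit 76) (nat_lit 17600979443) (nat_lit 76) (nat_lit 4567830901) (nat_lit 10) (nat_lit 4) (nat_lit 11) (nat_lit 5) (nat_lit 11) (nat_lit 4) (nat_lit 429) (nat_lit 270) (nat_lit 201))))) (XT.nd (nat_lit 234) (nat_lit 0) (nat_lit 0) (XT.nd (nat_lit 78) (nat_lit 152) (nat_lit 0) (XT.lf (nat_lit 0) (nat_lit 37746919942) (nat_lit 76) (nat_lit 13419732607) (nat_lit 76) (nat_lit 329818013) (nat_lit 10) (nat_lit 4) (nat_lit 11)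 (nat_lit 5) (nat_lit 11) (nat_lit 4) (nat_lit 430) (nat_lit 270) (nat_lit 200)) (XT.nd (nat_lit 78) (nat_lit 76) (nat_lit 0) (XT.lf (nat_lit 0) (nat_lit 3928475760) (nat_lit 152) (nat_lit 5170221471) (nat_lit 76) (nat_lit 43801289907) (nat_lit 9) (nat_lit 5) (nat_lit 11) (nat_lit 5) (nat_lit 10) (nat_lit 4) (nat_lit 431) (nat_lit 270) (nat_lit 199)) (XT.lf (nat_lit 0) (nat_lit 3682935723) (nat_lit 76) (nat_lit 4633059565) (nat_lit 152) (nat_lit 46029275899) (nat_lit 8) (nat_lit 5) (nat_lit 9) (nat_lit 5) (nat_lit 10) (nat_lit 4) (nat_lit 432) (nat_lit 270) (nat_lit 198)))) (XT.nd (nat_lit 156) (nat_lit 0) (nat_lit 0) (XT.nd (nat_lit 78) (nat_lit 0) (nat_lit 0) (XT.lf (nat_lit 0) (nat_lit 12856029770) (nat_lit 76) (nat_lit 4321689) (nat_lit 152) (nat_lit 42972808997) (nat_lit 8) (nat_lit 5) (nat_lit 9) (nat_lit 5) (nat_lit 10) (nat_lit 4) (nat_lit 433) (nat_lit 270) (nat_lit 197)) (XT.lf (nat_lit 0) (nat_lit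 17560384171) (nat_lit 152) (nat_lit 35157854797) (nat_lit 0) (nat_lit 4646870001) (nat_lit 8) (nat_lit 5) (nat_lit 10) (nat_lit 4) (nat_lit 8) (nat_lit 4) (nat_lit 434) (nat_lit 270) (nat_lit 196))) (XT.nd (nat_lit 78) (nat_lit 0) (nat_lit 0) (XT.lf (nat_lit 0) (nat_lit 22375789110) (nat_lit 152) (nat_lit 27153264280) (nat_lit 0) (nat_lit 9414734265) (nat_lit 8) (nat_lit 5) (nat_lit 10) (nat_lit 4) (nat_lit 8) (nat_lit 4) (nat_lit 435) (nat_lit 270) (nat_lit 195)) (XT.lf (nat_lit 0) (nat_lit 27310732369) (nat_lit 152) (nat_lit 18956323290) (nat_lit 0) (nat_lit 14303521530) (nat_lit 8) (nat_lit 5) (nat_lit 10) (nat_lit 4) (nat_lit 8) (nat_lit 4) (nat_lit 436) (nat_lit 270) (nat_lit 194))))))) (XT.nd (nat_lit 40716) (nat_lit 0) (nat_lit 3648) (XT.nd (nat_lit 468) (nat_lit 152) (nat_lit 0) (XT.nd (nat_lit 234) (nat_lit 0) (nat_lit 0) (XT.nd (nat_lit 78) (nat_lit 76) (nat_lit 0) (XT.lf (nat_lit 0) (nat_lit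 32369526036) (nat_lit 152) (nat_lit 10559869452) (nat_lit 0) (nat_lit 19317503550) (nat_lit 8) (nat_lit 5) (nat_lit 10) (nat_lit 4) (nat_lit 8) (nat_lit 4) (nat_lit 437) (nat_lit 270) (nat_lit 193)) (XT.nd (nat_lit 78) (nat_lit 76) (nat_lit 0) (XT.lf (nat_lit 0) (nat_lit 37556590414) (nat_lit 152) (nat_lit 1956566058) (nat_lit 0) (nat_lit 24461061476) (nat_lit 8) (nat_lit 5) (nat_lit 10) (nat_lit 4) (nat_lit 8) (nat_lit 4) (nat_lit 438) (nat_lit 270) (nat_lit 192)) (XT.lf (nat_lit 0) (nat_lit 6997653769) (nat_lit 76) (nat_lit 35946069850) (nat_lit 76) (nat_lit 22808301638) (nat_lit 7) (nat_lit 4) (nat_lit 8) (nat_lit 5) (nat_lit 8) (nat_lit 4) (nat_lit 439) (nat_lit 270) (nat_lit 191)))) (XT.nd (nat_lit 78) (nat_lit 0) (nat_lit 0) (XT.lf (nat_lit 0) (nat_lit 16217304527) (nat_lit 76) (nat_lit 32272363017) (nat_lit 76) (nat_lit 19093585802) (nat_lit 7) (nat_lit 4) (nat_lit 8) (nat_lit 5) (nat_lit 8) (nat_lit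 4) (nat_lit 440) (nat_lit 270) (nat_lit 190)) (XT.nd (nat_lit 78) (nat_lit 0) (nat_lit 0) (XT.lf (nat_lit 0) (nat_lit 25671502720) (nat_lit 76) (nat_lit 28508583420) (nat_lit 76) (nat_lit 15289991639) (nat_lit 7) (nat_lit 4) (nat_lit 8) (nat_lit 5) (nat_lit 8) (nat_lit 4) (nat_lit 441) (nat_lit 270) (nat_lit 189)) (XT.lf (nat_lit 0) (nat_lit 35368509297) (nat_lit 76) (nat_lit 24651442320) (nat_lit 76) (nat_lit 11394195620) (nat_lit 7) (nat_lit 4) (nat_lit 8) (nat_lit 5) (nat_lit 8) (nat_lit 4) (nat_lit 442) (nat_lit 270) (nat_lit 188))))) (XT.nd (nat_lit 234) (nat_lit 76) (nat_lit 0) (XT.nd (nat_lit 78) (nat_lit 76) (nat_lit 0) (XT.lf (nat_lit 0) (nat_lit 45316797372) (nat_lit 76) (nat_lit 20697569399) (nat_lit 76) (nat_lit 7402793651) (nat_lit 7) (nat_lit 4) (nat_lit 8) (nat_lit 5) (nat_lit 8) (nat_lit 4) (nat_lit 443) (nat_lit 270) (nat_lit 187)) (XT.nd (nat_lit 78) (nat_lit 76) (nat_lit 0) (XT.lf (nat_lit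 0) (nat_lit 55525059622) (nat_lit 76) (nat_lit 16643509817) (nat_lit 76) (nat_lit 3312298100) (nat_lit 7) (nat_lit 4) (nat_lit 8) (nat_lit 5) (nat_lit 8) (nat_lit 4) (nat_lit 444) (nat_lit 270) (nat_lit 186)) (XT.lf (nat_lit 0) (nat_lit 863676398) (nat_lit 152) (nat_lit 11613323355) (nat_lit 76) (nat_lit 65129818053) (nat_lit 6) (nat_lit 5) (nat_lit 8) (nat_lit 5) (nat_lit 7) (nat_lit 4) (nat_lit 445) (nat_lit 270) (nat_lit 185)))) (XT.nd (nat_lit 156) (nat_lit 0) (nat_lit 0) (XT.nd (nat_lit 78) (nat_lit 76) (nat_lit 0) (XT.lf (nat_lit 0) (nat_lit 5079272846) (nat_lit 152) (nat_lit 3090006960) (nat_lit 76) (nat_lit 71626857428) (nat_lit 6) (nat_lit 5) (nat_lit 8) (nat_lit 5) (nat_lit 7) (nat_lit 4) (nat_lit 446) (nat_lit 270) (nat_lit 184)) (XT.lf (nat_lit 0) (nat_lit 5765942975) (nat_lit 76) (nat_lit 3692292437) (nat_lit 152) (nat_lit 72591795831) (nat_lit 5) (nat_lit 5) (nat_lit 6) (nat_lit 5) (nat_lit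 7) (nat_lit 4) (nat_lit 447) (nat_lit 270) (nat_lit 183))) (XT.nd (nat_lit 78) (nat_lit 0) (nat_lit 0) (XT.lf (nat_lit 0) (nat_lit 13990423765) (nat_lit 152) (nat_lit 69464456059) (nat_lit 0) (nat_lit 916008427) (nat_lit 5) (nat_lit 5) (nat_lit 7) (nat_lit 4) (nat_lit 5) (nat_lit 4) (nat_lit 448) (nat_lit 270) (nat_lit 182)) (XT.lf (nat_lit 0) (nat_lit 18677184561) (nat_lit 152) (nat_lit 62511375366) (nat_lit 0) (nat_lit 5572254674) (nat_lit 5) (nat_lit 5) (nat_lit 7) (nat_lit 4) (nat_lit 5) (nat_lit 4) (nat_lit 449) (nat_lit 270) (nat_lit 181)))))) (XT.nd (nat_lit 546) (nat_lit 836) (nat_lit 0) (XT.nd (nat_lit 234) (nat_lit 760) (nat_lit 0) (XT.nd (nat_lit 78) (nat_lit 532) (nat_lit 0) (XT.lf (nat_lit 0) (nat_lit 4280742590) (nat_lit 228) (nat_lit 496378539) (nat_lit 228) (nat_lit 496378539) (nat_lit 81) (nat_lit 4) (nat_lit 84) (nat_lit 5) (nat_lit 84) (nat_lit 4) (nat_lit 358) (nat_lit 271) (nat_lit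 271)) (XT.nd (nat_lit 78) (nat_lit 228) (nat_lit 0) (XT.lf (nat_lit 0) (nat_lit 3361842008) (nat_lit 304) (nat_lit 4685585560) (nat_lit 0) (nat_lit 2661592536) (nat_lit 77) (nat_lit 5) (nat_lit 81) (nat_lit 4) (nat_lit 77) (nat_lit 4) (nat_lit 359) (nat_lit 271) (nat_lit 270)) (XT.lf (nat_lit 0) (nat_lit 3323754440) (nat_lit 228) (nat_lit 4466550481) (nat_lit 228) (nat_lit 3086447153) (nat_lit 74) (nat_lit 4) (nat_lit 77) (nat_lit 5) (nat_lit 77) (nat_lit 4) (nat_lit 360) (nat_lit 271) (nat_lit 269)))) (XT.nd (nat_lit 156) (nat_lit 456) (nat_lit 0) (XT.nd (nat_lit 78) (nat_lit 0) (nat_lit 0) (XT.lf (nat_lit 0) (nat_lit 457534462) (nat_lit 228) (nat_lit 772854738) (nat_lit 304) (nat_lit 9820179030) (nat_lit 70) (nat_lit 5) (nat_lit 73) (nat_lit 5) (nat_lit 74) (nat_lit 4) (nat_lit 361) (nat_lit 271) (nat_lit 268)) (XT.lf (nat_lit 0) (nat_lit 5623135830) (nat_lit 304) (nat_lit 2585090819) (nat_lit 0) (nat_lit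 3020239637) (nat_lit 70) (nat_lit 5) (nat_lit 74) (nat_lit 4) (nat_lit 70) (nat_lit 4) (nat_lit 362) (nat_lit 271) (nat_lit 267))) (XT.nd (nat_lit 78) (nat_lit 228) (nat_lit 0) (XT.lf (nat_lit 0) (nat_lit 5609031081) (nat_lit 228) (nat_lit 4505321694) (nat_lit 228) (nat_lit 1298384155) (nat_lit 67) (nat_lit 4) (nat_lit 70) (nat_lit 5) (nat_lit 70) (nat_lit 4) (nat_lit 363) (nat_lit 271) (nat_lit 266)) (XT.lf (nat_lit 0) (nat_lit 2359591542) (nat_lit 152) (nat_lit 671431605) (nat_lit 228) (nat_lit 8572007428) (nat_lit 64) (nat_lit 5) (nat_lit 66) (nat_lit 5) (nat_lit 67) (nat_lit 4) (nat_lit 364) (nat_lit 271) (nat_lit 265))))) (XT.nd (nat_lit 234) (nat_lit 380) (nat_lit 0) (XT.nd (nat_lit 78) (nat_lit 456) (nat_lit 0) (XT.lf (nat_lit 0) (nat_lit 7461021634) (nat_lit 228) (nat_lit 1112415045) (nat_lit 0) (nat_lit 3225339741) (nat_lit 64) (nat_lit 5) (nat_lit 67) (nat_lit 4) (nat_lit 64) (nat_lit 4) (nat_lit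 365) (nat_lit 271) (nat_lit 264)) (XT.nd (nat_lit 78) (nat_lit 152) (nat_lit 0) (XT.lf (nat_lit 0) (nat_lit 8026010) (nat_lit 304) (nat_lit 4756072003) (nat_lit 76) (nat_lit 7236772353) (nat_lit 60) (nat_lit 5) (nat_lit 64) (nat_lit 5) (nat_lit 61) (nat_lit 4) (nat_lit 366) (nat_lit 271) (nat_lit 263)) (XT.lf (nat_lit 0) (nat_lit 3540131921) (nat_lit 152) (nat_lit 811369604) (nat_lit 228) (nat_lit 7857632375) (nat_lit 58) (nat_lit 5) (nat_lit 60) (nat_lit 5) (nat_lit 61) (nat_lit 4) (nat_lit 367) (nat_lit 271) (nat_lit 262)))) (XT.nd (nat_lit 156) (nat_lit 152) (nat_lit 0) (XT.nd (nat_lit 78) (nat_lit 228) (nat_lit 0) (XT.lf (nat_lit 0) (nat_lit 8814853064) (nat_lit 228) (nat_lit 424661458) (nat_lit 0) (nat_lit 3184473167) (nat_lit 58) (nat_lit 5) (nat_lit 61) (nat_lit 4) (nat_lit 58) (nat_lit 4) (nat_lit 368) (nat_lit 271) (nat_lit 261)) (XT.lf (nat_lit 0) (nat_lit 749751261) (nat_lit 228) (nat_lit 4585220653)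 (nat_lit 76) (nat_lit 7310184957) (nat_lit 55) (nat_lit 5) (nat_lit 58) (nat_lit 5) (nat_lit 56) (nat_lit 4) (nat_lit 369) (nat_lit 271) (nat_lit 260))) (XT.nd (nat_lit 78) (nat_lit 0) (nat_lit 0) (XT.lf (nat_lit 0) (nat_lit 3824598505) (nat_lit 152) (nat_lit 1295973717) (nat_lit 228) (nat_lit 7752732627) (nat_lit 53) (nat_lit 5) (nat_lit 55) (nat_lit 5) (nat_lit 56) (nat_lit 4) (nat_lit 370) (nat_lit 271) (nat_lit 259)) (XT.lf (nat_lit 0) (nat_lit 9609957950) (nat_lit 228) (nat_lit 703955830) (nat_lit 0) (nat_lit 2794786496) (nat_lit 53) (nat_lit 5) (nat_lit 56) (nat_lit 4) (nat_lit 53) (nat_lit 4) (nat_lit 371) (nat_lit 271) (nat_lit 258))))))))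
noncomputable def xc40 : XT := (XT.nd (nat_lit 2028) (nat_lit 912) (nat_lit 0) (XT.nd (nat_lit 1014) (nat_lit 912) (nat_lit 0) (XT.nd (nat_lit 468) (nat_lit 608) (nat_lit 0) (XT.nd (nat_lit 234) (nat_lit 380) (nat_lit 0) (XT.nd (nat_lit 78) (nat_lit 152) (nat_lit 0) (XT.lf (nat_lit 0) (nat_lit 869979075) (nat_lit 228) (nat_lit 5472776376) (nat_lit 76) (nat_lit 7008042043) (nat_lit 50) (nat_lit 5) (nat_lit 53) (nat_lit 5) (nat_lit 51) (nat_lit 4) (nat_lit 372) (nat_lit 271) (nat_lit 257)) (XT.nd (nat_lit 78) (nat_lit 0) (nat_lit 0) (XT.lf (nat_lit 0) (nat_lit 3010302037) (nat_lit 152) (nat_lit 2241155450) (nat_lit 228) (nat_lit 8349124400) (nat_lit 48) (nat_lit 5) (nat_lit 50) (nat_lit 5) (nat_lit 51) (nat_lit 4) (nat_lit 373) (nat_lit 271) (nat_lit 256)) (XT.lf (nat_lit 0) (nat_lit 9755633653) (nat_lit 228) (nat_lit 2161925917) (nat_lit 0) (nat_lit 1940585931) (nat_lit 48) (nat_lit 5) (nat_lit 51) (nat_lit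 4) (nat_lit 48) (nat_lit 4) (nat_lit 374) (nat_lit 271) (nat_lit 255)))) (XT.nd (nat_lit 78) (nat_lit 152) (nat_lit 0) (XT.lf (nat_lit 0) (nat_lit 269518074) (nat_lit 228) (nat_lit 7644344627) (nat_lit 76) (nat_lit 6209417472) (nat_lit 45) (nat_lit 5) (nat_lit 48) (nat_lit 5) (nat_lit 46) (nat_lit 4) (nat_lit 375) (nat_lit 271) (nat_lit 254)) (XT.nd (nat_lit 78) (nat_lit 0) (nat_lit 0) (XT.lf (nat_lit 0) (nat_lit 861446935) (nat_lit 152) (nat_lit 3778143311) (nat_lit 228) (nat_lit 9757101251) (nat_lit 43) (nat_lit 5) (nat_lit 45) (nat_lit 5) (nat_lit 46) (nat_lit 4) (nat_lit 376) (nat_lit 271) (nat_lit 253)) (XT.lf (nat_lit 0) (nat_lit 9142782963) (nat_lit 228) (nat_lit 5044866265) (nat_lit 0) (nat_lit 490616074) (nat_lit 43) (nat_lit 5) (nat_lit 46) (nat_lit 4) (nat_lit 43) (nat_lit 4) (nat_lit 377) (nat_lit 271) (nat_lit 252))))) (XT.nd (nat_lit 234) (nat_lit 304) (nat_lit 0) (XT.nd (nat_lit 78) (nat_lit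 152) (nat_lit 0) (XT.lf (nat_lit 0) (nat_lit 3594514721) (nat_lit 152) (nat_lit 10180294743) (nat_lit 152) (nat_lit 1193684806) (nat_lit 41) (nat_lit 4) (nat_lit 43) (nat_lit 5) (nat_lit 43) (nat_lit 4) (nat_lit 378) (nat_lit 271) (nat_lit 251)) (XT.nd (nat_lit 78) (nat_lit 76) (nat_lit 0) (XT.lf (nat_lit 0) (nat_lit 3187795994) (nat_lit 228) (nat_lit 2840086055) (nat_lit 76) (nat_lit 9239419523) (nat_lit 40) (nat_lit 5) (nat_lit 43) (nat_lit 5) (nat_lit 41) (nat_lit 4) (nat_lit 379) (nat_lit 271) (nat_lit 250)) (XT.lf (nat_lit 0) (nat_lit 5918884790) (nat_lit 76) (nat_lit 1738968097) (nat_lit 152) (nat_lit 7917450324) (nat_lit 39) (nat_lit 5) (nat_lit 40) (nat_lit 5) (nat_lit 41) (nat_lit 4) (nat_lit 380) (nat_lit 271) (nat_lit 249)))) (XT.nd (nat_lit 156) (nat_lit 76) (nat_lit 0) (XT.nd (nat_lit 78) (nat_lit 228) (nat_lit 0) (XT.lf (nat_lit 0) (nat_lit 12241314540) (nat_lit 152) (nat_lit 1053874323)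 (nat_lit 0) (nat_lit 2597994794) (nat_lit 39) (nat_lit 5) (nat_lit 41) (nat_lit 4) (nat_lit 39) (nat_lit 4) (nat_lit 381) (nat_lit 271) (nat_lit 248)) (XT.lf (nat_lit 0) (nat_lit 746466824) (nat_lit 228) (nat_lit 8416485603) (nat_lit 76) (nat_lit 7056873227) (nat_lit 36) (nat_lit 5) (nat_lit 39) (nat_lit 5) (nat_lit 37) (nat_lit 4) (nat_lit 382) (nat_lit 271) (nat_lit 247))) (XT.nd (nat_lit 78) (nat_lit 0) (nat_lit 0) (XT.lf (nat_lit 0) (nat_lit 228875874) (nat_lit 76) (nat_lit 4914365464) (nat_lit 152) (nat_lit 11413760570) (nat_lit 35) (nat_lit 5) (nat_lit 36) (nat_lit 5) (nat_lit 37) (nat_lit 4) (nat_lit 383) (nat_lit 271) (nat_lit 246)) (XT.lf (nat_lit 0) (nat_lit 9176160275) (nat_lit 76) (nat_lit 508567371) (nat_lit 152) (nat_lit 7219197406) (nat_lit 35) (nat_lit 5) (nat_lit 36) (nat_lit 5) (nat_lit 37) (nat_lit 4) (nat_lit 384) (nat_lit 271) (nat_lit 245)))))) (XT.nd (nat_lit 468) (nat_lit 380) (nat_lit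 0) (XT.nd (nat_lit 234) (nat_lit 228) (nat_lit 0) (XT.nd (nat_lit 78) (nat_lit 152) (nat_lit 0) (XT.lf (nat_lit 0) (nat_lit 983301334) (nat_lit 152) (nat_lit 13356724036) (nat_lit 152) (nat_lit 2921918912) (nat_lit 33) (nat_lit 4) (nat_lit 35) (nat_lit 5) (nat_lit 35) (nat_lit 4) (nat_lit 385) (nat_lit 271) (nat_lit 244)) (XT.nd (nat_lit 78) (nat_lit 76) (nat_lit 0) (XT.lf (nat_lit 0) (nat_lit 1488284153) (nat_lit 228) (nat_lit 7662445330) (nat_lit 76) (nat_lit 8479154516) (nat_lit 32) (nat_lit 5) (nat_lit 35) (nat_lit 5) (nat_lit 33) (nat_lit 4) (nat_lit 386) (nat_lit 271) (nat_lit 243)) (XT.lf (nat_lit 0) (nat_lit 1080187311) (nat_lit 76) (nat_lit 4833831528) (nat_lit 152) (nat_lit 12095730665) (nat_lit 31) (nat_lit 5) (nat_lit 32) (nat_lit 5) (nat_lit 33) (nat_lit 4) (nat_lit 387) (nat_lit 271) (nat_lit 242)))) (XT.nd (nat_lit 78) (nat_lit 228) (nat_lit 0) (XT.lf (nat_lit 0) (nat_lit 10119189830) (nat_lit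 76) (nat_lit 363092134) (nat_lit 152) (nat_lit 7918449999) (nat_lit 31) (nat_lit 5) (nat_lit 32) (nat_lit 5) (nat_lit 33) (nat_lit 4) (nat_lit 388) (nat_lit 271) (nat_lit 241)) (XT.nd (nat_lit 78) (nat_lit 76) (nat_lit 0) (XT.lf (nat_lit 0) (nat_lit 473518264) (nat_lit 152) (nat_lit 14693234488) (nat_lit 152) (nat_lit 3637329633) (nat_lit 29) (nat_lit 4) (nat_lit 31) (nat_lit 5) (nat_lit 31) (nat_lit 4) (nat_lit 389) (nat_lit 271) (nat_lit 240)) (XT.lf (nat_lit 0) (nat_lit 779155973) (nat_lit 228) (nat_lit 9688884494) (nat_lit 76) (nat_lit 8750622663) (nat_lit 28) (nat_lit 5) (nat_lit 31) (nat_lit 5) (nat_lit 29) (nat_lit 4) (nat_lit 390) (nat_lit 271) (nat_lit 239))))) (XT.nd (nat_lit 234) (nat_lit 304) (nat_lit 0) (XT.nd (nat_lit 78) (nat_lit 76) (nat_lit 0) (XT.lf (nat_lit 0) (nat_lit 5190903410) (nat_lit 228) (nat_lit 941451047) (nat_lit 76) (nat_lit 13514182380) (nat_lit 28) (nat_lit 5) (nat_lit 31)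 (nat_lit 5) (nat_lit 29) (nat_lit 4) (nat_lit 391) (nat_lit 271) (nat_lit 238)) (XT.nd (nat_lit 78) (nat_lit 0) (nat_lit 0) (XT.lf (nat_lit 0) (nat_lit 8112650883) (nat_lit 76) (nat_lit 1638077884) (nat_lit 152) (nat_lit 10336058025) (nat_lit 27) (nat_lit 5) (nat_lit 28) (nat_lit 5) (nat_lit 29) (nat_lit 4) (nat_lit 392) (nat_lit 271) (nat_lit 237)) (XT.lf (nat_lit 0) (nat_lit 14423676594) (nat_lit 152) (nat_lit 3225436525) (nat_lit 0) (nat_lit 2891852752) (nat_lit 27) (nat_lit 5) (nat_lit 29) (nat_lit 4) (nat_lit 27) (nat_lit 4) (nat_lit 393) (nat_lit 271) (nat_lit 236)))) (XT.nd (nat_lit 156) (nat_lit 76) (nat_lit 0) (XT.nd (nat_lit 78) (nat_lit 76) (nat_lit 0) (XT.lf (nat_lit 0) (nat_lit 5771143894) (nat_lit 152) (nat_lit 13477145059) (nat_lit 152) (nat_lit 1760148209) (nat_lit 25) (nat_lit 4) (nat_lit 27) (nat_lit 5) (nat_lit 27) (nat_lit 4) (nat_lit 394) (nat_lit 271) (nat_lit 235)) (XT.lf (nat_lit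 0) (nat_lit 2647252210) (nat_lit 228) (nat_lit 6522854479) (nat_lit 76) (nat_lit 12319866601) (nat_lit 24) (nat_lit 5) (nat_lit 27) (nat_lit 5) (nat_lit 25) (nat_lit 4) (nat_lit 395) (nat_lit 271) (nat_lit 234))) (XT.nd (nat_lit 78) (nat_lit 0) (nat_lit 0) (XT.lf (nat_lit 0) (nat_lit 2374056315) (nat_lit 76) (nat_lit 4741892502) (nat_lit 152) (nat_lit 14870560505) (nat_lit 23) (nat_lit 5) (nat_lit 24) (nat_lit 5) (nat_lit 25) (nat_lit 4) (nat_lit 396) (nat_lit 271) (nat_lit 233)) (XT.lf (nat_lit 0) (nat_lit 11564783673) (nat_lit 76) (nat_lit 162094647) (nat_lit 152) (nat_lit 10770827839) (nat_lit 23) (nat_lit 5) (nat_lit 24) (nat_lit 5) (nat_lit 25) (nat_lit 4) (nat_lit 397) (nat_lit 271) (nat_lit 232))))))) (XT.nd (nat_lit 1014) (nat_lit 456) (nat_lit 0) (XT.nd (nat_lit 468) (nat_lit 228) (nat_lit 0) (XT.nd (nat_lit 234) (nat_lit 76) (nat_lit 0) (XT.nd (nat_lit 78) (nat_lit 152) (nat_lit 0) (XT.lf (nat_lit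 0) (nat_lit 16463448217) (nat_lit 152) (nat_lit 2141716315) (nat_lit 0) (nat_lit 4419464589) (nat_lit 23) (nat_lit 5) (nat_lit 25) (nat_lit 4) (nat_lit 23) (nat_lit 4) (nat_lit 398) (nat_lit 271) (nat_lit 231)) (XT.nd (nat_lit 78) (nat_lit 76) (nat_lit 0) (XT.lf (nat_lit 0) (nat_lit 6945280737) (nat_lit 76) (nat_lit 14410372655) (nat_lit 76) (nat_lit 2211309549) (nat_lit 22) (nat_lit 4) (nat_lit 23) (nat_lit 5) (nat_lit 23) (nat_lit 4) (nat_lit 399) (nat_lit 271) (nat_lit 230)) (XT.lf (nat_lit 0) (nat_lit 2191874543) (nat_lit 152) (nat_lit 7900120381) (nat_lit 76) (nat_lit 14033913462) (nat_lit 21) (nat_lit 5) (nat_lit 23) (nat_lit 5) (nat_lit 22) (nat_lit 4) (nat_lit 400) (nat_lit 271) (nat_lit 229)))) (XT.nd (nat_lit 78) (nat_lit 0) (nat_lit 0) (XT.lf (nat_lit 0) (nat_lit 981346164) (nat_lit 76) (nat_lit 5657643565) (nat_lit 152) (nat_lit 18063295745) (nat_lit 20) (nat_lit 5) (nat_lit 21) (nat_lit 5)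 (nat_lit 22) (nat_lit 4) (nat_lit 401) (nat_lit 271) (nat_lit 228)) (XT.nd (nat_lit 78) (nat_lit 0) (nat_lit 0) (XT.lf (nat_lit 0) (nat_lit 10193174419) (nat_lit 76) (nat_lit 1053572918) (nat_lit 152) (nat_lit 14048397945) (nat_lit 20) (nat_lit 5) (nat_lit 21) (nat_lit 5) (nat_lit 22) (nat_lit 4) (nat_lit 402) (nat_lit 271) (nat_lit 227)) (XT.lf (nat_lit 0) (nat_lit 15976754224) (nat_lit 152) (nat_lit 6356176563) (nat_lit 0) (nat_lit 3573347637) (nat_lit 20) (nat_lit 5) (nat_lit 22) (nat_lit 4) (nat_lit 20) (nat_lit 4) (nat_lit 403) (nat_lit 271) (nat_lit 226))))) (XT.nd (nat_lit 234) (nat_lit 76) (nat_lit 0) (XT.nd (nat_lit 78) (nat_lit 76) (nat_lit 0) (XT.lf (nat_lit 0) (nat_lit 2598790429) (nat_lit 76) (nat_lit 18235341019) (nat_lit 76) (nat_lit 5702057811) (nat_lit 19) (nat_lit 4) (nat_lit 20) (nat_lit 5) (nat_lit 20) (nat_lit 4) (nat_lit 404) (nat_lit 271) (nat_lit 225)) (XT.nd (nat_lit 78) (nat_lit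 76) (nat_lit 0) (XT.lf (nat_lit 0) (nat_lit 11860136821) (nat_lit 76) (nat_lit 13991900483) (nat_lit 76) (nat_lit 1332523468) (nat_lit 19) (nat_lit 4) (nat_lit 20) (nat_lit 5) (nat_lit 20) (nat_lit 4) (nat_lit 405) (nat_lit 271) (nat_lit 224)) (XT.lf (nat_lit 0) (nat_lit 3057854643) (nat_lit 152) (nat_lit 6574353261) (nat_lit 76) (nat_lit 18220721695) (nat_lit 18) (nat_lit 5) (nat_lit 20) (nat_lit 5) (nat_lit 19) (nat_lit 4) (nat_lit 406) (nat_lit 271) (nat_lit 223)))) (XT.nd (nat_lit 156) (nat_lit 0) (nat_lit 0) (XT.nd (nat_lit 78) (nat_lit 0) (nat_lit 0) (XT.lf (nat_lit 0) (nat_lit 2383339861) (nat_lit 76) (nat_lit 5145721003) (nat_lit 152) (nat_lit 21012622784) (nat_lit 17) (nat_lit 5) (nat_lit 18) (nat_lit 5) (nat_lit 19) (nat_lit 4) (nat_lit 407) (nat_lit 271) (nat_lit 222)) (XT.lf (nat_lit 0) (nat_lit 11657202291) (nat_lit 76) (nat_lit 497107896) (nat_lit 152) (nat_lit 17096199654) (nat_lit 17) (nat_lit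 5) (nat_lit 18) (nat_lit 5) (nat_lit 19) (nat_lit 4) (nat_lit 408) (nat_lit 271) (nat_lit 221))) (XT.nd (nat_lit 78) (nat_lit 0) (nat_lit 0) (XT.lf (nat_lit 0) (nat_lit 16914055794) (nat_lit 152) (nat_lit 8898332439) (nat_lit 0) (nat_lit 4168346955) (nat_lit 17) (nat_lit 5) (nat_lit 19) (nat_lit 4) (nat_lit 17) (nat_lit 4) (nat_lit 409) (nat_lit 271) (nat_lit 220)) (XT.lf (nat_lit 0) (nat_lit 21777332558) (nat_lit 152) (nat_lit 30696777) (nat_lit 0) (nat_lit 8926022141) (nat_lit 17) (nat_lit 5) (nat_lit 19) (nat_lit 4) (nat_lit 17) (nat_lit 4) (nat_lit 410) (nat_lit 271) (nat_lit 219)))))) (XT.nd (nat_lit 546) (nat_lit 228) (nat_lit 0) (XT.nd (nat_lit 234) (nat_lit 76) (nat_lit 0) (XT.nd (nat_lit 78) (nat_lit 76) (nat_lit 0) (XT.lf (nat_lit 0) (nat_lit 9201684365) (nat_lit 76) (nat_lit 17630379294) (nat_lit 76) (nat_lit 4676543072) (nat_lit 16) (nat_lit 4) (nat_lit 17) (nat_lit 5) (nat_lit 17) (nat_lit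 4) (nat_lit 411) (nat_lit 271) (nat_lit 218)) (XT.nd (nat_lit 78) (nat_lit 76) (nat_lit 0) (XT.lf (nat_lit 0) (nat_lit 18631617168) (nat_lit 76) (nat_lit 13364713240) (nat_lit 76) (nat_lit 311337403) (nat_lit 16) (nat_lit 4) (nat_lit 17) (nat_lit 5) (nat_lit 17) (nat_lit 4) (nat_lit 412) (nat_lit 271) (nat_lit 217)) (XT.lf (nat_lit 0) (nat_lit 4061569178) (nat_lit 152) (nat_lit 4905030808) (nat_lit 76) (nat_lit 24164147388) (nat_lit 15) (nat_lit 5) (nat_lit 17) (nat_lit 5) (nat_lit 16) (nat_lit 4) (nat_lit 413) (nat_lit 271) (nat_lit 216)))) (XT.nd (nat_lit 156) (nat_lit 0) (nat_lit 0) (XT.nd (nat_lit 78) (nat_lit 0) (nat_lit 0) (XT.lf (nat_lit 0) (nat_lit 4130372461) (nat_lit 76) (nat_lit 4428353812) (nat_lit 152) (nat_lit 25419726420) (nat_lit 14) (nat_lit 5) (nat_lit 15) (nat_lit 5) (nat_lit 16) (nat_lit 4) (nat_lit 414) (nat_lit 271) (nat_lit 215)) (XT.lf (nat_lit 0) (nat_lit 13202910244) (nat_lit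 152) (nat_lit 21391949198) (nat_lit 0) (nat_lit 256371677) (nat_lit 14) (nat_lit 5) (nat_lit 16) (nat_lit 4) (nat_lit 14) (nat_lit 4) (nat_lit 415) (nat_lit 271) (nat_lit 214))) (XT.nd (nat_lit 78) (nat_lit 0) (nat_lit 0) (XT.lf (nat_lit 0) (nat_lit 17991163342) (nat_lit 152) (nat_lit 12800131378) (nat_lit 0) (nat_lit 4958761028) (nat_lit 14) (nat_lit 5) (nat_lit 16) (nat_lit 4) (nat_lit 14) (nat_lit 4) (nat_lit 416) (nat_lit 271) (nat_lit 213)) (XT.lf (nat_lit 0) (nat_lit 22885101431) (nat_lit 152) (nat_lit 4022551313) (nat_lit 0) (nat_lit 9769336256) (nat_lit 14) (nat_lit 5) (nat_lit 16) (nat_lit 4) (nat_lit 14) (nat_lit 4) (nat_lit 417) (nat_lit 271) (nat_lit 212))))) (XT.nd (nat_lit 234) (nat_lit 152) (nat_lit 0) (XT.nd (nat_lit 78) (nat_lit 0) (nat_lit 0) (XT.lf (nat_lit 0) (nat_lit 5046944796) (nat_lit 76) (nat_lit 22890570293) (nat_lit 76) (nat_lit 9693870301) (nat_lit 13) (nat_lit 4) (nat_lit 14)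 (nat_lit 5) (nat_lit 14) (nat_lit 4) (nat_lit 418) (nat_lit 271) (nat_lit 211)) (XT.nd (nat_lit 78) (nat_lit 0) (nat_lit 0) (XT.lf (nat_lit 0) (nat_lit 14401773969) (nat_lit 76) (nat_lit 18743898385) (nat_lit 76) (nat_lit 5468620901) (nat_lit 13) (nat_lit 4) (nat_lit 14) (nat_lit 5) (nat_lit 14) (nat_lit 4) (nat_lit 419) (nat_lit 271) (nat_lit 210)) (XT.lf (nat_lit 0) (nat_lit 23970053671) (nat_lit 76) (nat_lit 14504633595) (nat_lit 76) (nat_lit 1153067285) (nat_lit 13) (nat_lit 4) (nat_lit 14) (nat_lit 5) (nat_lit 14) (nat_lit 4) (nat_lit 420) (nat_lit 271) (nat_lit 209)))) (XT.nd (nat_lit 156) (nat_lit 0) (nat_lit 0) (XT.nd (nat_lit 78) (nat_lit 76) (nat_lit 0) (XT.lf (nat_lit 0) (nat_lit 3193014175) (nat_lit 152) (nat_lit 6943814356) (nat_lit 76) (nat_lit 30534887174) (nat_lit 12) (nat_lit 5) (nat_lit 14) (nat_lit 5) (nat_lit 13) (nat_lit 4) (nat_lit 421) (nat_lit 271) (nat_lit 208)) (XT.lf (nat_lit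 0) (nat_lit 1994989883) (nat_lit 76) (nat_lit 5636799550) (nat_lit 152) (nat_lit 34115303352) (nat_lit 11) (nat_lit 5) (nat_lit 12) (nat_lit 5) (nat_lit 13) (nat_lit 4) (nat_lit 422) (nat_lit 271) (nat_lit 207))) (XT.nd (nat_lit 78) (nat_lit 0) (nat_lit 0) (XT.lf (nat_lit 0) (nat_lit 11280915392) (nat_lit 76) (nat_lit 959613250) (nat_lit 152) (nat_lit 30613102588) (nat_lit 11) (nat_lit 5) (nat_lit 12) (nat_lit 5) (nat_lit 13) (nat_lit 4) (nat_lit 423) (nat_lit 271) (nat_lit 206)) (XT.lf (nat_lit 0) (nat_lit 16991986032) (nat_lit 152) (nat_lit 23247263441) (nat_lit 0) (nat_lit 3753986627) (nat_lit 11) (nat_lit 5) (nat_lit 13) (nat_lit 4) (nat_lit 11) (nat_lit 4) (nat_lit 424) (nat_lit 271) (nat_lit 205))))))))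
noncomputable def xc41 : XT := (XT.nd (nat_lit 41574) (nat_lit 0) (nat_lit 2356) (XT.nd (nat_lit 1014) (nat_lit 228) (nat_lit 0) (XT.nd (nat_lit 468) (nat_lit 152) (nat_lit 0) (XT.nd (nat_lit 234) (nat_lit 0) (nat_lit 0) (XT.nd (nat_lit 78) (nat_lit 76) (nat_lit 0) (XT.lf (nat_lit 0) (nat_lit 21863810225) (nat_lit 152) (nat_lit 14741967907) (nat_lit 0) (nat_lit 8561920129) (nat_lit 11) (nat_lit 5) (nat_lit 13) (nat_lit 4) (nat_lit 11) (nat_lit 4) (nat_lit 425) (nat_lit 271) (nat_lit 204)) (XT.nd (nat_lit 78) (nat_lit 76) (nat_lit 0) (XT.lf (nat_lit 0) (nat_lit 26851033767) (nat_lit 152) (nat_lit 6040173036) (nat_lit 0) (nat_lit 13487113873) (nat_lit 11) (nat_lit 5) (nat_lit 13) (nat_lit 4) (nat_lit 11) (nat_lit 4) (nat_lit 426) (nat_lit 271) (nat_lit 203)) (XT.lf (nat_lit 0) (nat_lit 2922758223) (nat_lit 76) (nat_lit 29063351541) (nat_lit 76) (nat_lit 15639208543) (nat_lit 10) (nat_lit 4) (nat_lit 11)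 (nat_lit 5) (nat_lit 11) (nat_lit 4) (nat_lit 427) (nat_lit 271) (nat_lit 202)))) (XT.nd (nat_lit 78) (nat_lit 0) (nat_lit 0) (XT.lf (nat_lit 0) (nat_lit 12222002391) (nat_lit 76) (nat_lit 25084697581) (nat_lit 76) (nat_lit 11602085549) (nat_lit 10) (nat_lit 4) (nat_lit 11) (nat_lit 5) (nat_lit 11) (nat_lit 4) (nat_lit 428) (nat_lit 271) (nat_lit 201)) (XT.nd (nat_lit 78) (nat_lit 0) (nat_lit 0) (XT.lf (nat_lit 0) (nat_lit 21745473734) (nat_lit 76) (nat_lit 21012762334) (nat_lit 76) (nat_lit 7473384250) (nat_lit 10) (nat_lit 4) (nat_lit 11) (nat_lit 5) (nat_lit 11) (nat_lit 4) (nat_lit 429) (nat_lit 271) (nat_lit 200)) (XT.lf (nat_lit 0) (nat_lit 31501493730) (nat_lit 76) (nat_lit 16843987797) (nat_lit 76) (nat_lit 3249497041) (nat_lit 10) (nat_lit 4) (nat_lit 11) (nat_lit 5) (nat_lit 11) (nat_lit 4) (nat_lit 430) (nat_lit 271) (nat_lit 199))))) (XT.nd (nat_lit 234) (nat_lit 0) (nat_lit 0) (XT.nd (nat_lit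 78) (nat_lit 76) (nat_lit 0) (XT.lf (nat_lit 0) (nat_lit 1052323548) (nat_lit 152) (nat_lit 11511781399) (nat_lit 76) (nat_lit 40435637106) (nat_lit 9) (nat_lit 5) (nat_lit 11) (nat_lit 5) (nat_lit 10) (nat_lit 4) (nat_lit 431) (nat_lit 271) (nat_lit 198)) (XT.nd (nat_lit 78) (nat_lit 76) (nat_lit 0) (XT.lf (nat_lit 0) (nat_lit 5391385458) (nat_lit 152) (nat_lit 2755434702) (nat_lit 76) (nat_lit 46299661164) (nat_lit 9) (nat_lit 5) (nat_lit 11) (nat_lit 5) (nat_lit 10) (nat_lit 4) (nat_lit 432) (nat_lit 271) (nat_lit 197)) (XT.lf (nat_lit 0) (nat_lit 6338122174) (nat_lit 76) (nat_lit 3557693224) (nat_lit 152) (nat_lit 46039754431) (nat_lit 8) (nat_lit 5) (nat_lit 9) (nat_lit 5) (nat_lit 10) (nat_lit 4) (nat_lit 433) (nat_lit 271) (nat_lit 196)))) (XT.nd (nat_lit 156) (nat_lit 0) (nat_lit 0) (XT.nd (nat_lit 78) (nat_lit 0) (nat_lit 0) (XT.lf (nat_lit 0) (nat_lit 14549044849) (nat_lit 152) (nat_lit 41768261313)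 (nat_lit 0) (nat_lit 1151617684) (nat_lit 8) (nat_lit 5) (nat_lit 10) (nat_lit 4) (nat_lit 8) (nat_lit 4) (nat_lit 434) (nat_lit 271) (nat_lit 195)) (XT.lf (nat_lit 0) (nat_lit 19352172040) (nat_lit 152) (nat_lit 33787211310) (nat_lit 0) (nat_lit 5908588880) (nat_lit 8) (nat_lit 5) (nat_lit 10) (nat_lit 4) (nat_lit 8) (nat_lit 4) (nat_lit 435) (nat_lit 271) (nat_lit 194))) (XT.nd (nat_lit 78) (nat_lit 0) (nat_lit 0) (XT.lf (nat_lit 0) (nat_lit 24275195156) (nat_lit 152) (nat_lit 25613125188) (nat_lit 0) (nat_lit 10786800351) (nat_lit 8) (nat_lit 5) (nat_lit 10) (nat_lit 4) (nat_lit 8) (nat_lit 4) (nat_lit 436) (nat_lit 271) (nat_lit 193)) (XT.lf (nat_lit 0) (nat_lit 29322415868) (nat_lit 152) (nat_lit 17238860541) (nat_lit 0) (nat_lit 15790514610) (nat_lit 8) (nat_lit 5) (nat_lit 10) (nat_lit 4) (nat_lit 8) (nat_lit 4) (nat_lit 437) (nat_lit 271) (nat_lit 192)))))) (XT.nd (nat_lit 468) (nat_lit 152) (nat_lit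 0) (XT.nd (nat_lit 234) (nat_lit 0) (nat_lit 0) (XT.nd (nat_lit 78) (nat_lit 76) (nat_lit 0) (XT.lf (nat_lit 0) (nat_lit 34498244367) (nat_lit 152) (nat_lit 8657100053) (nat_lit 0) (nat_lit 20924103836) (nat_lit 8) (nat_lit 5) (nat_lit 10) (nat_lit 4) (nat_lit 8) (nat_lit 4) (nat_lit 438) (nat_lit 271) (nat_lit 191)) (XT.nd (nat_lit 78) (nat_lit 0) (nat_lit 0) (XT.lf (nat_lit 0) (nat_lit 142434310) (nat_lit 76) (nat_lit 39666138079) (nat_lit 76) (nat_lit 26050988544) (nat_lit 7) (nat_lit 4) (nat_lit 8) (nat_lit 5) (nat_lit 8) (nat_lit 4) (nat_lit 439) (nat_lit 271) (nat_lit 190)) (XT.lf (nat_lit 0) (nat_lit 9341374680) (nat_lit 76) (nat_lit 36002351661) (nat_lit 76) (nat_lit 22347387559) (nat_lit 7) (nat_lit 4) (nat_lit 8) (nat_lit 5) (nat_lit 8) (nat_lit 4) (nat_lit 440) (nat_lit 271) (nat_lit 189)))) (XT.nd (nat_lit 78) (nat_lit 0) (nat_lit 0) (XT.lf (nat_lit 0) (nat_lit 18775465700) (nat_lit 76) (nat_lit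 32248203535) (nat_lit 76) (nat_lit 18554584514) (nat_lit 7) (nat_lit 4) (nat_lit 8) (nat_lit 5) (nat_lit 8) (nat_lit 4) (nat_lit 441) (nat_lit 271) (nat_lit 188)) (XT.nd (nat_lit 78) (nat_lit 0) (nat_lit 0) (XT.lf (nat_lit 0) (nat_lit 28452950750) (nat_lit 76) (nat_lit 28400413376) (nat_lit 76) (nat_lit 14669265308) (nat_lit 7) (nat_lit 4) (nat_lit 8) (nat_lit 5) (nat_lit 8) (nat_lit 4) (nat_lit 442) (nat_lit 271) (nat_lit 187)) (XT.lf (nat_lit 0) (nat_lit 38382285885) (nat_lit 76) (nat_lit 24455619040) (nat_lit 76) (nat_lit 10688035003) (nat_lit 7) (nat_lit 4) (nat_lit 8) (nat_lit 5) (nat_lit 8) (nat_lit 4) (nat_lit 443) (nat_lit 271) (nat_lit 186))))) (XT.nd (nat_lit 234) (nat_lit 76) (nat_lit 0) (XT.nd (nat_lit 78) (nat_lit 76) (nat_lit 0) (XT.lf (nat_lit 0) (nat_lit 48572147224) (nat_lit 76) (nat_lit 20410373617) (nat_lit 76) (nat_lit 6607414853) (nat_lit 7) (nat_lit 4) (nat_lit 8) (nat_lit 5) (nat_lit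 8) (nat_lit 4) (nat_lit 444) (nat_lit 271) (nat_lit 185)) (XT.nd (nat_lit 78) (nat_lit 76) (nat_lit 0) (XT.lf (nat_lit 0) (nat_lit 59031438529) (nat_lit 76) (nat_lit 16261142428) (nat_lit 76) (nat_lit 2423839269) (nat_lit 7) (nat_lit 4) (nat_lit 8) (nat_lit 5) (nat_lit 8) (nat_lit 4) (nat_lit 445) (nat_lit 271) (nat_lit 184)) (XT.lf (nat_lit 0) (nat_lit 1829928142) (nat_lit 152) (nat_lit 10155893102) (nat_lit 76) (nat_lit 67920892157) (nat_lit 6) (nat_lit 5) (nat_lit 8) (nat_lit 5) (nat_lit 7) (nat_lit 4) (nat_lit 446) (nat_lit 271) (nat_lit 183)))) (XT.nd (nat_lit 156) (nat_lit 0) (nat_lit 0) (XT.nd (nat_lit 78) (nat_lit 76) (nat_lit 0) (XT.lf (nat_lit 0) (nat_lit 6144603898) (nat_lit 152) (nat_lit 1429474204) (nat_lit 76) (nat_lit 74588458842) (nat_lit 6) (nat_lit 5) (nat_lit 8) (nat_lit 5) (nat_lit 7) (nat_lit 4) (nat_lit 447) (nat_lit 271) (nat_lit 182)) (XT.lf (nat_lit 0) (nat_lit 7674965671) (nat_lit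 76) (nat_lit 2970066730) (nat_lit 152) (nat_lit 73839315250) (nat_lit 5) (nat_lit 5) (nat_lit 6) (nat_lit 5) (nat_lit 7) (nat_lit 4) (nat_lit 448) (nat_lit 271) (nat_lit 181))) (XT.nd (nat_lit 39624) (nat_lit 0) (nat_lit 6004) (XT.lf (nat_lit 0) (nat_lit 15294658012) (nat_lit 152) (nat_lit 69844291020) (nat_lit 0) (nat_lit 1736439901) (nat_lit 5) (nat_lit 5) (nat_lit 7) (nat_lit 4) (nat_lit 5) (nat_lit 4) (nat_lit 449) (nat_lit 271) (nat_lit 180)) (XT.lf (nat_lit 0) (nat_lit 758821608) (nat_lit 304) (nat_lit 3600059089) (nat_lit 0) (nat_lit 758821608) (nat_lit 84) (nat_lit 5) (nat_lit 88) (nat_lit 4) (nat_lit 84) (nat_lit 4) (nat_lit 356) (nat_lit 272) (nat_lit 272))))))) (XT.nd (nat_lit 1014) (nat_lit 1444) (nat_lit 0) (XT.nd (nat_lit 468) (nat_lit 1140) (nat_lit 0) (XT.nd (nat_lit 234) (nat_lit 532) (nat_lit 0) (XT.nd (nat_lit 78) (nat_lit 304) (nat_lit 0) (XT.lf (nat_lit 0) (nat_lit 530603040) (nat_lit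 228) (nat_lit 5300757519) (nat_lit 228) (nat_lit 4557862854) (nat_lit 81) (nat_lit 4) (nat_lit 84) (nat_lit 5) (nat_lit 84) (nat_lit 4) (nat_lit 357) (nat_lit 272) (nat_lit 271)) (XT.nd (nat_lit 78) (nat_lit 304) (nat_lit 0) (XT.lf (nat_lit 0) (nat_lit 8484440443) (nat_lit 228) (nat_lit 1764094953) (nat_lit 228) (nat_lit 299943332) (nat_lit 81) (nat_lit 4) (nat_lit 84) (nat_lit 5) (nat_lit 84) (nat_lit 4) (nat_lit 358) (nat_lit 272) (nat_lit 270)) (XT.lf (nat_lit 0) (nat_lit 3984250699) (nat_lit 304) (nat_lit 4844885277) (nat_lit 0) (nat_lit 1882890415) (nat_lit 77) (nat_lit 5) (nat_lit 81) (nat_lit 4) (nat_lit 77) (nat_lit 4) (nat_lit 359) (nat_lit 272) (nat_lit 269)))) (XT.nd (nat_lit 78) (nat_lit 304) (nat_lit 0) (XT.lf (nat_lit 0) (nat_lit 3083580921) (nat_lit 228) (nat_lit 5279548534) (nat_lit 228) (nat_lit 2518135962) (nat_lit 74) (nat_lit 4) (nat_lit 77) (nat_lit 5) (nat_lit 77) (nat_lit 4) (nat_lit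 360) (nat_lit 272) (nat_lit 268)) (XT.nd (nat_lit 78) (nat_lit 0) (nat_lit 0) (XT.lf (nat_lit 0) (nat_lit 124489652) (nat_lit 228) (nat_lit 1612815612) (nat_lit 304) (nat_lit 9319139990) (nat_lit 70) (nat_lit 5) (nat_lit 73) (nat_lit 5) (nat_lit 74) (nat_lit 4) (nat_lit 361) (nat_lit 272) (nat_lit 267)) (XT.lf (nat_lit 0) (nat_lit 6075237998) (nat_lit 304) (nat_lit 2992716617) (nat_lit 0) (nat_lit 2168050986) (nat_lit 70) (nat_lit 5) (nat_lit 74) (nat_lit 4) (nat_lit 70) (nat_lit 4) (nat_lit 362) (nat_lit 272) (nat_lit 266))))) (XT.nd (nat_lit 234) (nat_lit 684) (nat_lit 0) (XT.nd (nat_lit 78) (nat_lit 228) (nat_lit 0) (XT.lf (nat_lit 0) (nat_lit 5117267275) (nat_lit 228) (nat_lit 5399082203) (nat_lit 228) (nat_lit 905447283) (nat_lit 67) (nat_lit 4) (nat_lit 70) (nat_lit 5) (nat_lit 70) (nat_lit 4) (nat_lit 363) (nat_lit 272) (nat_lit 265)) (XT.nd (nat_lit 78) (nat_lit 0) (nat_lit 0) (XT.lf (nat_lit 0)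 (nat_lit 1768733422) (nat_lit 152) (nat_lit 1596653397) (nat_lit 228) (nat_lit 8248133799) (nat_lit 64) (nat_lit 5) (nat_lit 66) (nat_lit 5) (nat_lit 67) (nat_lit 4) (nat_lit 364) (nat_lit 272) (nat_lit 264)) (XT.lf (nat_lit 0) (nat_lit 7741589215) (nat_lit 228) (nat_lit 1779936458) (nat_lit 0) (nat_lit 2289370554) (nat_lit 64) (nat_lit 5) (nat_lit 67) (nat_lit 4) (nat_lit 64) (nat_lit 4) (nat_lit 365) (nat_lit 272) (nat_lit 263)))) (XT.nd (nat_lit 156) (nat_lit 228) (nat_lit 0) (XT.nd (nat_lit 78) (nat_lit 152) (nat_lit 0) (XT.lf (nat_lit 0) (nat_lit 219863484) (nat_lit 304) (nat_lit 5526947159) (nat_lit 76) (nat_lit 6267658242) (nat_lit 60) (nat_lit 5) (nat_lit 64) (nat_lit 5) (nat_lit 61) (nat_lit 4) (nat_lit 366) (nat_lit 272) (nat_lit 262)) (XT.lf (nat_lit 0) (nat_lit 2679415523) (nat_lit 152) (nat_lit 1832190719) (nat_lit 228) (nat_lit 7712692692) (nat_lit 58) (nat_lit 5) (nat_lit 60) (nat_lit 5)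 (nat_lit 61) (nat_lit 4) (nat_lit 367) (nat_lit 272) (nat_lit 261))) (XT.nd (nat_lit 78) (nat_lit 228) (nat_lit 0) (XT.lf (nat_lit 0) (nat_lit 8921973517) (nat_lit 228) (nat_lit 1364077328) (nat_lit 0) (nat_lit 2154705517) (nat_lit 58) (nat_lit 5) (nat_lit 61) (nat_lit 4) (nat_lit 58) (nat_lit 4) (nat_lit 368) (nat_lit 272) (nat_lit 260)) (XT.lf (nat_lit 0) (nat_lit 785991241) (nat_lit 228) (nat_lit 5634653174) (nat_lit 76) (nat_lit 6242838833) (nat_lit 55) (nat_lit 5) (nat_lit 58) (nat_lit 5) (nat_lit 56) (nat_lit 4) (nat_lit 369) (nat_lit 272) (nat_lit 259)))))) (XT.nd (nat_lit 546) (nat_lit 684) (nat_lit 0) (XT.nd (nat_lit 234) (nat_lit 380) (nat_lit 0) (XT.nd (nat_lit 78) (nat_lit 228) (nat_lit 0) (XT.lf (nat_lit 0) (nat_lit 2681502655) (nat_lit 152) (nat_lit 2422527660) (nat_lit 228) (nat_lit 7789197282) (nat_lit 53) (nat_lit 5) (nat_lit 55) (nat_lit 5) (nat_lit 56) (nat_lit 4) (nat_lit 370) (nat_lit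 272) (nat_lit 258)) (XT.nd (nat_lit 78) (nat_lit 228) (nat_lit 0) (XT.lf (nat_lit 0) (nat_lit 9541048620) (nat_lit 228) (nat_lit 1927770706) (nat_lit 0) (nat_lit 1661387256) (nat_lit 53) (nat_lit 5) (nat_lit 56) (nat_lit 4) (nat_lit 53) (nat_lit 4) (nat_lit 371) (nat_lit 272) (nat_lit 257)) (XT.lf (nat_lit 0) (nat_lit 727782620) (nat_lit 228) (nat_lit 6813585409) (nat_lit 76) (nat_lit 5832580018) (nat_lit 50) (nat_lit 5) (nat_lit 53) (nat_lit 5) (nat_lit 51) (nat_lit 4) (nat_lit 372) (nat_lit 272) (nat_lit 256)))) (XT.nd (nat_lit 156) (nat_lit 228) (nat_lit 0) (XT.nd (nat_lit 78) (nat_lit 0) (nat_lit 0) (XT.lf (nat_lit 0) (nat_lit 1571752287) (nat_lit 152) (nat_lit 3483458995) (nat_lit 228) (nat_lit 8570154123) (nat_lit 48) (nat_lit 5) (nat_lit 50) (nat_lit 5) (nat_lit 51) (nat_lit 4) (nat_lit 373) (nat_lit 272) (nat_lit 255)) (XT.lf (nat_lit 0) (nat_lit 9507451105) (nat_lit 228) (nat_lit 3683224941) (nat_lit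 0) (nat_lit 693822201) (nat_lit 48) (nat_lit 5) (nat_lit 51) (nat_lit 4) (nat_lit 48) (nat_lit 4) (nat_lit 374) (nat_lit 272) (nat_lit 254))) (XT.nd (nat_lit 78) (nat_lit 76) (nat_lit 0) (XT.lf (nat_lit 0) (nat_lit 4860859123) (nat_lit 152) (nat_lit 9234790012) (nat_lit 152) (nat_lit 55706160) (nat_lit 46) (nat_lit 4) (nat_lit 48) (nat_lit 5) (nat_lit 48) (nat_lit 4) (nat_lit 375) (nat_lit 272) (nat_lit 253)) (XT.lf (nat_lit 0) (nat_lit 4268437605) (nat_lit 228) (nat_lit 868966141) (nat_lit 76) (nat_lit 9288799594) (nat_lit 45) (nat_lit 5) (nat_lit 48) (nat_lit 5) (nat_lit 46) (nat_lit 4) (nat_lit 376) (nat_lit 272) (nat_lit 252))))) (XT.nd (nat_lit 234) (nat_lit 304) (nat_lit 0) (XT.nd (nat_lit 78) (nat_lit 228) (nat_lit 0) (XT.lf (nat_lit 0) (nat_lit 7823325551) (nat_lit 152) (nat_lit 896721922) (nat_lit 228) (nat_lit 5989287054) (nat_lit 43) (nat_lit 5) (nat_lit 45) (nat_lit 5) (nat_lit 46) (nat_lit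 4) (nat_lit 377) (nat_lit 272) (nat_lit 251)) (XT.nd (nat_lit 78) (nat_lit 76) (nat_lit 0) (XT.lf (nat_lit 0) (nat_lit 1657991029) (nat_lit 152) (nat_lit 11629437357) (nat_lit 152) (nat_lit 1714084086) (nat_lit 41) (nat_lit 4) (nat_lit 43) (nat_lit 5) (nat_lit 43) (nat_lit 4) (nat_lit 378) (nat_lit 272) (nat_lit 250)) (XT.lf (nat_lit 0) (nat_lit 2640225278) (nat_lit 228) (nat_lit 4870940603) (nat_lit 76) (nat_lit 7790432810) (nat_lit 40) (nat_lit 5) (nat_lit 43) (nat_lit 5) (nat_lit 41) (nat_lit 4) (nat_lit 379) (nat_lit 272) (nat_lit 249)))) (XT.nd (nat_lit 156) (nat_lit 228) (nat_lit 0) (XT.nd (nat_lit 78) (nat_lit 0) (nat_lit 0) (XT.lf (nat_lit 0) (nat_lit 3781947351) (nat_lit 76) (nat_lit 3271554143) (nat_lit 152) (nat_lit 8557811049) (nat_lit 39) (nat_lit 5) (nat_lit 40) (nat_lit 5) (nat_lit 41) (nat_lit 4) (nat_lit 380) (nat_lit 272) (nat_lit 248)) (XT.lf (nat_lit 0) (nat_lit 11586165819) (nat_lit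 152) (nat_lit 3276654974) (nat_lit 0) (nat_lit 1067904654) (nat_lit 39) (nat_lit 5) (nat_lit 41) (nat_lit 4) (nat_lit 39) (nat_lit 4) (nat_lit 381) (nat_lit 272) (nat_lit 247))) (XT.nd (nat_lit 78) (nat_lit 0) (nat_lit 0) (XT.lf (nat_lit 0) (nat_lit 9295285) (nat_lit 228) (nat_lit 10779482523) (nat_lit 76) (nat_lit 5470537376) (nat_lit 36) (nat_lit 5) (nat_lit 39) (nat_lit 5) (nat_lit 37) (nat_lit 4) (nat_lit 382) (nat_lit 272) (nat_lit 246)) (XT.lf (nat_lit 0) (nat_lit 4368927776) (nat_lit 228) (nat_lit 2201361370) (nat_lit 76) (nat_lit 10027324365) (nat_lit 36) (nat_lit 5) (nat_lit 39) (nat_lit 5) (nat_lit 37) (nat_lit 4) (nat_lit 383) (nat_lit 272) (nat_lit 245))))))))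
noncomputable def xc42 : XT := (XT.nd (nat_lit 2028) (nat_lit 684) (nat_lit 0) (XT.nd (nat_lit 1014) (nat_lit 532) (nat_lit 0) (XT.nd (nat_lit 468) (nat_lit 532) (nat_lit 0) (XT.nd (nat_lit 234) (nat_lit 76) (nat_lit 0) (XT.nd (nat_lit 78) (nat_lit 228) (nat_lit 0) (XT.lf (nat_lit 0) (nat_lit 6639952923) (nat_lit 76) (nat_lit 2214357475) (nat_lit 152) (nat_lit 8091916952) (nat_lit 35) (nat_lit 5) (nat_lit 36) (nat_lit 5) (nat_lit 37) (nat_lit 4) (nat_lit 384) (nat_lit 272) (nat_lit 244)) (XT.nd (nat_lit 78) (nat_lit 228) (nat_lit 0) (XT.lf (nat_lit 0) (nat_lit 13449984781) (nat_lit 152) (nat_lit 1659102144) (nat_lit 0) (nat_lit 2196955719) (nat_lit 35) (nat_lit 5) (nat_lit 37) (nat_lit 4) (nat_lit 35) (nat_lit 4) (nat_lit 385) (nat_lit 272) (nat_lit 243)) (XT.lf (nat_lit 0) (nat_lit 522237397) (nat_lit 228) (nat_lit 10434495918) (nat_lit 76) (nat_lit 6719029459) (nat_lit 32) (nat_lit 5) (nat_lit 35) (nat_lit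 5) (nat_lit 33) (nat_lit 4) (nat_lit 386) (nat_lit 272) (nat_lit 242)))) (XT.nd (nat_lit 78) (nat_lit 76) (nat_lit 0) (XT.lf (nat_lit 0) (nat_lit 4904861027) (nat_lit 228) (nat_lit 1772341573) (nat_lit 76) (nat_lit 11379725750) (nat_lit 32) (nat_lit 5) (nat_lit 35) (nat_lit 5) (nat_lit 33) (nat_lit 4) (nat_lit 387) (nat_lit 272) (nat_lit 241)) (XT.nd (nat_lit 78) (nat_lit 0) (nat_lit 0) (XT.lf (nat_lit 0) (nat_lit 7172570271) (nat_lit 76) (nat_lit 2250838188) (nat_lit 152) (nat_lit 9026000364) (nat_lit 31) (nat_lit 5) (nat_lit 32) (nat_lit 5) (nat_lit 33) (nat_lit 4) (nat_lit 388) (nat_lit 272) (nat_lit 240)) (XT.lf (nat_lit 0) (nat_lit 14053536363) (nat_lit 152) (nat_lit 2570677677) (nat_lit 0) (nat_lit 2230181843) (nat_lit 31) (nat_lit 5) (nat_lit 33) (nat_lit 4) (nat_lit 31) (nat_lit 4) (nat_lit 389) (nat_lit 272) (nat_lit 239))))) (XT.nd (nat_lit 234) (nat_lit 228) (nat_lit 0) (XT.nd (nat_lit 78) (nat_lit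 152) (nat_lit 0) (XT.lf (nat_lit 0) (nat_lit 6385050192) (nat_lit 152) (nat_lit 12458812212) (nat_lit 152) (nat_lit 427043842) (nat_lit 29) (nat_lit 4) (nat_lit 31) (nat_lit 5) (nat_lit 31) (nat_lit 4) (nat_lit 390) (nat_lit 272) (nat_lit 238)) (XT.nd (nat_lit 78) (nat_lit 76) (nat_lit 0) (XT.lf (nat_lit 0) (nat_lit 3962367662) (nat_lit 228) (nat_lit 4190505560) (nat_lit 76) (nat_lit 11546955767) (nat_lit 28) (nat_lit 5) (nat_lit 31) (nat_lit 5) (nat_lit 29) (nat_lit 4) (nat_lit 391) (nat_lit 272) (nat_lit 237)) (XT.lf (nat_lit 0) (nat_lit 4743296718) (nat_lit 76) (nat_lit 3716732185) (nat_lit 152) (nat_lit 11681920608) (nat_lit 27) (nat_lit 5) (nat_lit 28) (nat_lit 5) (nat_lit 29) (nat_lit 4) (nat_lit 392) (nat_lit 272) (nat_lit 236)))) (XT.nd (nat_lit 156) (nat_lit 76) (nat_lit 0) (XT.nd (nat_lit 78) (nat_lit 152) (nat_lit 0) (XT.lf (nat_lit 0) (nat_lit 13083331266) (nat_lit 152) (nat_lit 6684640663)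 (nat_lit 0) (nat_lit 829651505) (nat_lit 27) (nat_lit 5) (nat_lit 29) (nat_lit 4) (nat_lit 27) (nat_lit 4) (nat_lit 393) (nat_lit 272) (nat_lit 235)) (XT.lf (nat_lit 0) (nat_lit 2188962227) (nat_lit 152) (nat_lit 15655747112) (nat_lit 152) (nat_lit 3222287733) (nat_lit 25) (nat_lit 4) (nat_lit 27) (nat_lit 5) (nat_lit 27) (nat_lit 4) (nat_lit 394) (nat_lit 272) (nat_lit 234))) (XT.nd (nat_lit 78) (nat_lit 0) (nat_lit 0) (XT.lf (nat_lit 0) (nat_lit 1184890861) (nat_lit 228) (nat_lit 10202674248) (nat_lit 76) (nat_lit 10162257358) (nat_lit 24) (nat_lit 5) (nat_lit 27) (nat_lit 5) (nat_lit 25) (nat_lit 4) (nat_lit 395) (nat_lit 272) (nat_lit 233)) (XT.lf (nat_lit 0) (nat_lit 5602850632) (nat_lit 228) (nat_lit 1403675446) (nat_lit 76) (nat_lit 15041359396) (nat_lit 24) (nat_lit 5) (nat_lit 27) (nat_lit 5) (nat_lit 25) (nat_lit 4) (nat_lit 396) (nat_lit 272) (nat_lit 232)))))) (XT.nd (nat_lit 468) (nat_lit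 228) (nat_lit 0) (XT.nd (nat_lit 234) (nat_lit 152) (nat_lit 0) (XT.nd (nat_lit 78) (nat_lit 76) (nat_lit 0) (XT.lf (nat_lit 0) (nat_lit 7708036156) (nat_lit 76) (nat_lit 2464388574) (nat_lit 152) (nat_lit 12387902968) (nat_lit 23) (nat_lit 5) (nat_lit 24) (nat_lit 5) (nat_lit 25) (nat_lit 4) (nat_lit 397) (nat_lit 272) (nat_lit 231)) (XT.nd (nat_lit 78) (nat_lit 76) (nat_lit 0) (XT.lf (nat_lit 0) (nat_lit 14859854209) (nat_lit 152) (nat_lit 6089135520) (nat_lit 0) (nat_lit 2139739732) (nat_lit 23) (nat_lit 5) (nat_lit 25) (nat_lit 4) (nat_lit 23) (nat_lit 4) (nat_lit 398) (nat_lit 272) (nat_lit 230)) (XT.lf (nat_lit 0) (nat_lit 2869610915) (nat_lit 76) (nat_lit 16817047957) (nat_lit 76) (nat_lit 3946370880) (nat_lit 22) (nat_lit 4) (nat_lit 23) (nat_lit 5) (nat_lit 23) (nat_lit 4) (nat_lit 399) (nat_lit 272) (nat_lit 229)))) (XT.nd (nat_lit 78) (nat_lit 76) (nat_lit 0) (XT.lf (nat_lit 0) (nat_lit 464486962)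 (nat_lit 152) (nat_lit 12073945823) (nat_lit 76) (nat_lit 11654832473) (nat_lit 21) (nat_lit 5) (nat_lit 23) (nat_lit 5) (nat_lit 22) (nat_lit 4) (nat_lit 400) (nat_lit 272) (nat_lit 228)) (XT.nd (nat_lit 78) (nat_lit 76) (nat_lit 0) (XT.lf (nat_lit 0) (nat_lit 4876747931) (nat_lit 152) (nat_lit 3258975747) (nat_lit 76) (nat_lit 16634968372) (nat_lit 21) (nat_lit 5) (nat_lit 23) (nat_lit 5) (nat_lit 22) (nat_lit 4) (nat_lit 401) (nat_lit 272) (nat_lit 227)) (XT.lf (nat_lit 0) (nat_lit 5841109813) (nat_lit 76) (nat_lit 3586313816) (nat_lit 152) (nat_lit 15937844645) (nat_lit 20) (nat_lit 5) (nat_lit 21) (nat_lit 5) (nat_lit 22) (nat_lit 4) (nat_lit 402) (nat_lit 272) (nat_lit 226))))) (XT.nd (nat_lit 234) (nat_lit 152) (nat_lit 0) (XT.nd (nat_lit 78) (nat_lit 76) (nat_lit 0) (XT.lf (nat_lit 0) (nat_lit 14108482070) (nat_lit 152) (nat_lit 10800067898) (nat_lit 0) (nat_lit 1069323744) (nat_lit 20) (nat_lit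 5) (nat_lit 22) (nat_lit 4) (nat_lit 20) (nat_lit 4) (nat_lit 403) (nat_lit 272) (nat_lit 225)) (XT.nd (nat_lit 78) (nat_lit 76) (nat_lit 0) (XT.lf (nat_lit 0) (nat_lit 18916992509) (nat_lit 152) (nat_lit 1940521397) (nat_lit 0) (nat_lit 5751740376) (nat_lit 20) (nat_lit 5) (nat_lit 22) (nat_lit 4) (nat_lit 20) (nat_lit 4) (nat_lit 404) (nat_lit 272) (nat_lit 224)) (XT.lf (nat_lit 0) (nat_lit 7237934404) (nat_lit 76) (nat_lit 16654323762) (nat_lit 76) (nat_lit 3366650457) (nat_lit 19) (nat_lit 4) (nat_lit 20) (nat_lit 5) (nat_lit 20) (nat_lit 4) (nat_lit 405) (nat_lit 272) (nat_lit 223)))) (XT.nd (nat_lit 156) (nat_lit 76) (nat_lit 0) (XT.nd (nat_lit 78) (nat_lit 0) (nat_lit 0) (XT.lf (nat_lit 0) (nat_lit 1040262694) (nat_lit 152) (nat_lit 11294795542) (nat_lit 76) (nat_lit 15593503970) (nat_lit 18) (nat_lit 5) (nat_lit 20) (nat_lit 5) (nat_lit 19) (nat_lit 4) (nat_lit 406) (nat_lit 272) (nat_lit 222))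 (XT.lf (nat_lit 0) (nat_lit 5466075199) (nat_lit 152) (nat_lit 2425789853) (nat_lit 76) (nat_lit 20726816330) (nat_lit 18) (nat_lit 5) (nat_lit 20) (nat_lit 5) (nat_lit 19) (nat_lit 4) (nat_lit 407) (nat_lit 272) (nat_lit 221))) (XT.nd (nat_lit 78) (nat_lit 0) (nat_lit 0) (XT.lf (nat_lit 0) (nat_lit 6758028240) (nat_lit 76) (nat_lit 3287283809) (nat_lit 152) (nat_lit 19283579117) (nat_lit 17) (nat_lit 5) (nat_lit 18) (nat_lit 5) (nat_lit 19) (nat_lit 4) (nat_lit 408) (nat_lit 272) (nat_lit 220)) (XT.lf (nat_lit 0) (nat_lit 14756471719) (nat_lit 152) (nat_lit 13890085087) (nat_lit 0) (nat_lit 1414020411) (nat_lit 17) (nat_lit 5) (nat_lit 19) (nat_lit 4) (nat_lit 17) (nat_lit 4) (nat_lit 409) (nat_lit 272) (nat_lit 219))))))) (XT.nd (nat_lit 1014) (nat_lit 304) (nat_lit 0) (XT.nd (nat_lit 468) (nat_lit 152) (nat_lit 0) (XT.nd (nat_lit 234) (nat_lit 152) (nat_lit 0) (XT.nd (nat_lit 78) (nat_lit 76) (nat_lit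 0) (XT.lf (nat_lit 0) (nat_lit 19598617358) (nat_lit 152) (nat_lit 5062272870) (nat_lit 0) (nat_lit 6153640246) (nat_lit 17) (nat_lit 5) (nat_lit 19) (nat_lit 4) (nat_lit 17) (nat_lit 4) (nat_lit 410) (nat_lit 272) (nat_lit 218)) (XT.nd (nat_lit 78) (nat_lit 0) (nat_lit 0) (XT.lf (nat_lit 0) (nat_lit 4030537024) (nat_lit 76) (nat_lit 20552587547) (nat_lit 76) (nat_lit 7008070819) (nat_lit 16) (nat_lit 4) (nat_lit 17) (nat_lit 5) (nat_lit 17) (nat_lit 4) (nat_lit 411) (nat_lit 272) (nat_lit 217)) (XT.lf (nat_lit 0) (nat_lit 13422185342) (nat_lit 76) (nat_lit 16304919851) (nat_lit 76) (nat_lit 2663762720) (nat_lit 16) (nat_lit 4) (nat_lit 17) (nat_lit 5) (nat_lit 17) (nat_lit 4) (nat_lit 412) (nat_lit 272) (nat_lit 216)))) (XT.nd (nat_lit 78) (nat_lit 76) (nat_lit 0) (XT.lf (nat_lit 0) (nat_lit 1735155158) (nat_lit 152) (nat_lit 10212617793) (nat_lit 76) (nat_lit 21267452399) (nat_lit 15) (nat_lit 5) (nat_lit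 17) (nat_lit 5) (nat_lit 16) (nat_lit 4) (nat_lit 413) (nat_lit 272) (nat_lit 215)) (XT.nd (nat_lit 78) (nat_lit 76) (nat_lit 0) (XT.lf (nat_lit 0) (nat_lit 6173295002) (nat_lit 152) (nat_lit 1294286760) (nat_lit 76) (nat_lit 26597122042) (nat_lit 15) (nat_lit 5) (nat_lit 17) (nat_lit 5) (nat_lit 16) (nat_lit 4) (nat_lit 414) (nat_lit 272) (nat_lit 214)) (XT.lf (nat_lit 0) (nat_lit 7975336499) (nat_lit 76) (nat_lit 2807841713) (nat_lit 152) (nat_lit 24155335581) (nat_lit 14) (nat_lit 5) (nat_lit 15) (nat_lit 5) (nat_lit 16) (nat_lit 4) (nat_lit 415) (nat_lit 272) (nat_lit 213))))) (XT.nd (nat_lit 234) (nat_lit 152) (nat_lit 0) (XT.nd (nat_lit 78) (nat_lit 0) (nat_lit 0) (XT.lf (nat_lit 0) (nat_lit 15525739830) (nat_lit 152) (nat_lit 18379832965) (nat_lit 0) (nat_lit 1933138838) (nat_lit 14) (nat_lit 5) (nat_lit 16) (nat_lit 4) (nat_lit 14) (nat_lit 4) (nat_lit 416) (nat_lit 272) (nat_lit 212)) (XT.nd (nat_lit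 78) (nat_lit 0) (nat_lit 0) (XT.lf (nat_lit 0) (nat_lit 20401521813) (nat_lit 152) (nat_lit 9636684146) (nat_lit 0) (nat_lit 6727986005) (nat_lit 14) (nat_lit 5) (nat_lit 16) (nat_lit 4) (nat_lit 14) (nat_lit 4) (nat_lit 417) (nat_lit 272) (nat_lit 211)) (XT.lf (nat_lit 0) (nat_lit 25387793863) (nat_lit 152) (nat_lit 699100500) (nat_lit 0) (nat_lit 11635680564) (nat_lit 14) (nat_lit 5) (nat_lit 16) (nat_lit 4) (nat_lit 14) (nat_lit 4) (nat_lit 418) (nat_lit 272) (nat_lit 210)))) (XT.nd (nat_lit 156) (nat_lit 76) (nat_lit 0) (XT.nd (nat_lit 78) (nat_lit 0) (nat_lit 0) (XT.lf (nat_lit 0) (nat_lit 8608714538) (nat_lit 76) (nat_lit 21962950609) (nat_lit 76) (nat_lit 8134548482) (nat_lit 13) (nat_lit 4) (nat_lit 14) (nat_lit 5) (nat_lit 14) (nat_lit 4) (nat_lit 419) (nat_lit 272) (nat_lit 209)) (XT.lf (nat_lit 0) (nat_lit 18144857672) (nat_lit 76) (nat_lit 17738898061) (nat_lit 76) (nat_lit 3836429113) (nat_lit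 13) (nat_lit 4) (nat_lit 14) (nat_lit 5) (nat_lit 14) (nat_lit 4) (nat_lit 420) (nat_lit 272) (nat_lit 208))) (XT.nd (nat_lit 78) (nat_lit 0) (nat_lit 0) (XT.lf (nat_lit 0) (nat_lit 545418245) (nat_lit 152) (nat_lit 12867179446) (nat_lit 76) (nat_lit 27352822083) (nat_lit 12) (nat_lit 5) (nat_lit 14) (nat_lit 5) (nat_lit 13) (nat_lit 4) (nat_lit 421) (nat_lit 272) (nat_lit 207)) (XT.lf (nat_lit 0) (nat_lit 4948903667) (nat_lit 152) (nat_lit 3997919122) (nat_lit 76) (nat_lit 32895034766) (nat_lit 12) (nat_lit 5) (nat_lit 14) (nat_lit 5) (nat_lit 13) (nat_lit 4) (nat_lit 422) (nat_lit 272) (nat_lit 206)))))) (XT.nd (nat_lit 546) (nat_lit 152) (nat_lit 0) (XT.nd (nat_lit 234) (nat_lit 76) (nat_lit 0) (XT.nd (nat_lit 78) (nat_lit 0) (nat_lit 0) (XT.lf (nat_lit 0) (nat_lit 5178125620) (nat_lit 76) (nat_lit 4324387100) (nat_lit 152) (nat_lit 33447539132) (nat_lit 11) (nat_lit 5) (nat_lit 12) (nat_lit 5) (nat_lit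 13) (nat_lit 4) (nat_lit 423) (nat_lit 272) (nat_lit 205)) (XT.nd (nat_lit 78) (nat_lit 0) (nat_lit 0) (XT.lf (nat_lit 0) (nat_lit 14206020900) (nat_lit 152) (nat_lit 29443892780) (nat_lit 0) (nat_lit 441183409) (nat_lit 11) (nat_lit 5) (nat_lit 13) (nat_lit 4) (nat_lit 11) (nat_lit 4) (nat_lit 424) (nat_lit 272) (nat_lit 204)) (XT.lf (nat_lit 0) (nat_lit 19062694661) (nat_lit 152) (nat_lit 20967493565) (nat_lit 0) (nat_lit 5235827373) (nat_lit 11) (nat_lit 5) (nat_lit 13) (nat_lit 4) (nat_lit 11) (nat_lit 4) (nat_lit 425) (nat_lit 272) (nat_lit 203)))) (XT.nd (nat_lit 156) (nat_lit 76) (nat_lit 0) (XT.nd (nat_lit 78) (nat_lit 0) (nat_lit 0) (XT.lf (nat_lit 0) (nat_lit 24035209045) (nat_lit 152) (nat_lit 12293753372) (nat_lit 0) (nat_lit 10148118652) (nat_lit 11) (nat_lit 5) (nat_lit 13) (nat_lit 4) (nat_lit 11) (nat_lit 4) (nat_lit 426) (nat_lit 272) (nat_lit 202)) (XT.lf (nat_lit 0) (nat_lit 29127908967)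 (nat_lit 152) (nat_lit 3415093205) (nat_lit 0) (nat_lit 15182349541) (nat_lit 11) (nat_lit 5) (nat_lit 13) (nat_lit 4) (nat_lit 11) (nat_lit 4) (nat_lit 427) (nat_lit 272) (nat_lit 201))) (XT.nd (nat_lit 78) (nat_lit 0) (nat_lit 0) (XT.lf (nat_lit 0) (nat_lit 5789213393) (nat_lit 76) (nat_lit 28611680427) (nat_lit 76) (nat_lit 14609354948) (nat_lit 10) (nat_lit 4) (nat_lit 11) (nat_lit 5) (nat_lit 11) (nat_lit 4) (nat_lit 428) (nat_lit 272) (nat_lit 200)) (XT.lf (nat_lit 0) (nat_lit 15286499767) (nat_lit 76) (nat_lit 24552217479) (nat_lit 76) (nat_lit 10494779329) (nat_lit 10) (nat_lit 4) (nat_lit 11) (nat_lit 5) (nat_lit 11) (nat_lit 4) (nat_lit 429) (nat_lit 272) (nat_lit 199))))) (XT.nd (nat_lit 234) (nat_lit 76) (nat_lit 0) (XT.nd (nat_lit 78) (nat_lit 76) (nat_lit 0) (XT.lf (nat_lit 0) (nat_lit 25017097464) (nat_lit 76) (nat_lit 20395551971) (nat_lit 76) (nat_lit 6284606373) (nat_lit 10) (nat_lit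 4) (nat_lit 11) (nat_lit 5) (nat_lit 11) (nat_lit 4) (nat_lit 430) (nat_lit 272) (nat_lit 198)) (XT.nd (nat_lit 78) (nat_lit 76) (nat_lit 0) (XT.lf (nat_lit 0) (nat_lit 34989508949) (nat_lit 76) (nat_lit 16138051865) (nat_lit 76) (nat_lit 1975157288) (nat_lit 10) (nat_lit 4) (nat_lit 11) (nat_lit 5) (nat_lit 11) (nat_lit 4) (nat_lit 431) (nat_lit 272) (nat_lit 197)) (XT.lf (nat_lit 0) (nat_lit 2389772308) (nat_lit 152) (nat_lit 9362092693) (nat_lit 76) (nat_lit 42798543655) (nat_lit 9) (nat_lit 5) (nat_lit 11) (nat_lit 5) (nat_lit 10) (nat_lit 4) (nat_lit 432) (nat_lit 272) (nat_lit 196)))) (XT.nd (nat_lit 156) (nat_lit 0) (nat_lit 0) (XT.nd (nat_lit 78) (nat_lit 76) (nat_lit 0) (XT.lf (nat_lit 0) (nat_lit 6820970762) (nat_lit 152) (nat_lit 415726726) (nat_lit 76) (nat_lit 48804998024) (nat_lit 9) (nat_lit 5) (nat_lit 11) (nat_lit 5) (nat_lit 10) (nat_lit 4) (nat_lit 433) (nat_lit 272) (nat_lit 195)) (XT.lf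 (nat_lit 0) (nat_lit 8926888121) (nat_lit 76) (nat_lit 2519775016) (nat_lit 152) (nat_lit 46129213870) (nat_lit 8) (nat_lit 5) (nat_lit 9) (nat_lit 5) (nat_lit 10) (nat_lit 4) (nat_lit 434) (nat_lit 272) (nat_lit 194))) (XT.nd (nat_lit 78) (nat_lit 0) (nat_lit 0) (XT.lf (nat_lit 0) (nat_lit 16213648567) (nat_lit 152) (nat_lit 40666572132) (nat_lit 0) (nat_lit 2275790272) (nat_lit 8) (nat_lit 5) (nat_lit 10) (nat_lit 4) (nat_lit 8) (nat_lit 4) (nat_lit 435) (nat_lit 272) (nat_lit 193)) (XT.lf (nat_lit 0) (nat_lit 21125098728) (nat_lit 152) (nat_lit 32514675202) (nat_lit 0) (nat_lit 7143733981) (nat_lit 8) (nat_lit 5) (nat_lit 10) (nat_lit 4) (nat_lit 8) (nat_lit 4) (nat_lit 436) (nat_lit 272) (nat_lit 192))))))))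
noncomputable def xc43 : XT := (XT.nd (nat_lit 41418) (nat_lit 0) (nat_lit 1672) (XT.nd (nat_lit 40404) (nat_lit 0) (nat_lit 4180) (XT.nd (nat_lit 468) (nat_lit 152) (nat_lit 0) (XT.nd (nat_lit 234) (nat_lit 76) (nat_lit 0) (XT.nd (nat_lit 78) (nat_lit 0) (nat_lit 0) (XT.lf (nat_lit 0) (nat_lit 26161083562) (nat_lit 152) (nat_lit 24161953460) (nat_lit 0) (nat_lit 12137479540) (nat_lit 8) (nat_lit 5) (nat_lit 10) (nat_lit 4) (nat_lit 8) (nat_lit 4) (nat_lit 437) (nat_lit 272) (nat_lit 191)) (XT.nd (nat_lit 78) (nat_lit 0) (nat_lit 0) (XT.lf (nat_lit 0) (nat_lit 31326003441) (nat_lit 152) (nat_lit 15601108413) (nat_lit 0) (nat_lit 17261390417) (nat_lit 8) (nat_lit 5) (nat_lit 10) (nat_lit 4) (nat_lit 8) (nat_lit 4) (nat_lit 438) (nat_lit 272) (nat_lit 190)) (XT.lf (nat_lit 0) (nat_lit 36624371405) (nat_lit 152) (nat_lit 6824659710) (nat_lit 0) (nat_lit 22519943813) (nat_lit 8) (nat_lit 5) (nat_lit 10) (nat_lit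 4) (nat_lit 8) (nat_lit 4) (nat_lit 439) (nat_lit 272) (nat_lit 189)))) (XT.nd (nat_lit 78) (nat_lit 0) (nat_lit 0) (XT.lf (nat_lit 0) (nat_lit 2218349376) (nat_lit 76) (nat_lit 39863791849) (nat_lit 76) (nat_lit 25720709338) (nat_lit 7) (nat_lit 4) (nat_lit 8) (nat_lit 5) (nat_lit 8) (nat_lit 4) (nat_lit 440) (nat_lit 272) (nat_lit 188)) (XT.nd (nat_lit 78) (nat_lit 0) (nat_lit 0) (XT.lf (nat_lit 0) (nat_lit 11632918869) (nat_lit 76) (nat_lit 36118994664) (nat_lit 76) (nat_lit 21938383106) (nat_lit 7) (nat_lit 4) (nat_lit 8) (nat_lit 5) (nat_lit 8) (nat_lit 4) (nat_lit 441) (nat_lit 272) (nat_lit 187)) (XT.lf (nat_lit 0) (nat_lit 21291450980) (nat_lit 76) (nat_lit 32280283090) (nat_lit 76) (nat_lit 18063235564) (nat_lit 7) (nat_lit 4) (nat_lit 8) (nat_lit 5) (nat_lit 8) (nat_lit 4) (nat_lit 442) (nat_lit 272) (nat_lit 186))))) (XT.nd (nat_lit 234) (nat_lit 152) (nat_lit 0) (XT.nd (nat_lit 78) (nat_lit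 0) (nat_lit 0) (XT.lf (nat_lit 0) (nat_lit 31202385204) (nat_lit 76) (nat_lit 28344302914) (nat_lit 76) (nat_lit 14091880660) (nat_lit 7) (nat_lit 4) (nat_lit 8) (nat_lit 5) (nat_lit 8) (nat_lit 4) (nat_lit 443) (nat_lit 272) (nat_lit 185)) (XT.nd (nat_lit 78) (nat_lit 0) (nat_lit 0) (XT.lf (nat_lit 0) (nat_lit 41374381580) (nat_lit 76) (nat_lit 24307614927) (nat_lit 76) (nat_lit 10020848279) (nat_lit 7) (nat_lit 4) (nat_lit 8) (nat_lit 5) (nat_lit 8) (nat_lit 4) (nat_lit 444) (nat_lit 272) (nat_lit 184)) (XT.lf (nat_lit 0) (nat_lit 51816328260) (nat_lit 76) (nat_lit 20166691929) (nat_lit 76) (nat_lit 5846581208) (nat_lit 7) (nat_lit 4) (nat_lit 8) (nat_lit 5) (nat_lit 8) (nat_lit 4) (nat_lit 445) (nat_lit 272) (nat_lit 183)))) (XT.nd (nat_lit 156) (nat_lit 76) (nat_lit 0) (XT.nd (nat_lit 78) (nat_lit 76) (nat_lit 0) (XT.lf (nat_lit 0) (nat_lit 62537349276) (nat_lit 76) (nat_lit 15917915636) (nat_lit 76)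 (nat_lit 1565432028) (nat_lit 7) (nat_lit 4) (nat_lit 8) (nat_lit 5) (nat_lit 8) (nat_lit 4) (nat_lit 446) (nat_lit 272) (nat_lit 182)) (XT.lf (nat_lit 0) (nat_lit 2771187993) (nat_lit 152) (nat_lit 8758401967) (nat_lit 76) (nat_lit 70747640951) (nat_lit 6) (nat_lit 5) (nat_lit 8) (nat_lit 5) (nat_lit 7) (nat_lit 4) (nat_lit 447) (nat_lit 272) (nat_lit 181))) (XT.nd (nat_lit 78) (nat_lit 0) (nat_lit 0) (XT.lf (nat_lit 0) (nat_lit 183818756) (nat_lit 76) (nat_lit 7007435874) (nat_lit 152) (nat_lit 77410198722) (nat_lit 5) (nat_lit 5) (nat_lit 6) (nat_lit 5) (nat_lit 7) (nat_lit 4) (nat_lit 448) (nat_lit 272) (nat_lit 180)) (XT.lf (nat_lit 0) (nat_lit 9541602997) (nat_lit 76) (nat_lit 2273991543) (nat_lit 152) (nat_lit 75177659515) (nat_lit 5) (nat_lit 5) (nat_lit 6) (nat_lit 5) (nat_lit 7) (nat_lit 4) (nat_lit 449) (nat_lit 272) (nat_lit 179)))))) (XT.nd (nat_lit 468) (nat_lit 1292) (nat_lit 0) (XT.nd (nat_lit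 234) (nat_lit 532) (nat_lit 0) (XT.nd (nat_lit 78) (nat_lit 608) (nat_lit 0) (XT.lf (nat_lit 0) (nat_lit 1910940562) (nat_lit 304) (nat_lit 1148243361) (nat_lit 0) (nat_lit 1910940562) (nat_lit 92) (nat_lit 5) (nat_lit 96) (nat_lit 4) (nat_lit 92) (nat_lit 4) (nat_lit 354) (nat_lit 273) (nat_lit 273)) (XT.nd (nat_lit 78) (nat_lit 304) (nat_lit 0) (XT.lf (nat_lit 0) (nat_lit 5372690007) (nat_lit 304) (nat_lit 2750781564) (nat_lit 304) (nat_lit 1962644614) (nat_lit 88) (nat_lit 4) (nat_lit 92) (nat_lit 5) (nat_lit 92) (nat_lit 4) (nat_lit 355) (nat_lit 273) (nat_lit 272)) (XT.lf (nat_lit 0) (nat_lit 2233527965) (nat_lit 304) (nat_lit 7277925735) (nat_lit 0) (nat_lit 725451795) (nat_lit 84) (nat_lit 5) (nat_lit 88) (nat_lit 4) (nat_lit 84) (nat_lit 4) (nat_lit 356) (nat_lit 273) (nat_lit 271)))) (XT.nd (nat_lit 78) (nat_lit 304) (nat_lit 0) (XT.lf (nat_lit 0) (nat_lit 374202223) (nat_lit 228) (nat_lit 6123678737)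 (nat_lit 228) (nat_lit 3894345612) (nat_lit 81) (nat_lit 4) (nat_lit 84) (nat_lit 5) (nat_lit 84) (nat_lit 4) (nat_lit 357) (nat_lit 273) (nat_lit 270)) (XT.nd (nat_lit 78) (nat_lit 228) (nat_lit 0) (XT.lf (nat_lit 0) (nat_lit 308805819) (nat_lit 304) (nat_lit 2302706785) (nat_lit 76) (nat_lit 7941314758) (nat_lit 80) (nat_lit 5) (nat_lit 84) (nat_lit 5) (nat_lit 81) (nat_lit 4) (nat_lit 358) (nat_lit 273) (nat_lit 269)) (XT.lf (nat_lit 0) (nat_lit 4529362462) (nat_lit 304) (nat_lit 5163623903) (nat_lit 0) (nat_lit 1025055225) (nat_lit 77) (nat_lit 5) (nat_lit 81) (nat_lit 4) (nat_lit 77) (nat_lit 4) (nat_lit 359) (nat_lit 273) (nat_lit 268))))) (XT.nd (nat_lit 234) (nat_lit 760) (nat_lit 0) (XT.nd (nat_lit 78) (nat_lit 304) (nat_lit 0) (XT.lf (nat_lit 0) (nat_lit 2683058552) (nat_lit 228) (nat_lit 6175434092) (nat_lit 228) (nat_lit 2030299392) (nat_lit 74) (nat_lit 4) (nat_lit 77) (nat_lit 5) (nat_lit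 77) (nat_lit 4) (nat_lit 360) (nat_lit 273) (nat_lit 267)) (XT.nd (nat_lit 78) (nat_lit 228) (nat_lit 0) (XT.lf (nat_lit 0) (nat_lit 2168693776) (nat_lit 304) (nat_lit 364848921) (nat_lit 76) (nat_lit 8531714228) (nat_lit 73) (nat_lit 5) (nat_lit 77) (nat_lit 5) (nat_lit 74) (nat_lit 4) (nat_lit 361) (nat_lit 273) (nat_lit 266)) (XT.lf (nat_lit 0) (nat_lit 6448785222) (nat_lit 304) (nat_lit 3563891296) (nat_lit 0) (nat_lit 1233893345) (nat_lit 70) (nat_lit 5) (nat_lit 74) (nat_lit 4) (nat_lit 70) (nat_lit 4) (nat_lit 362) (nat_lit 273) (nat_lit 265)))) (XT.nd (nat_lit 156) (nat_lit 304) (nat_lit 0) (XT.nd (nat_lit 78) (nat_lit 228) (nat_lit 0) (XT.lf (nat_lit 0) (nat_lit 4460913979) (nat_lit 228) (nat_lit 6378616824) (nat_lit 228) (nat_lit 594358046) (nat_lit 67) (nat_lit 4) (nat_lit 70) (nat_lit 5) (nat_lit 70) (nat_lit 4) (nat_lit 363) (nat_lit 273) (nat_lit 264)) (XT.lf (nat_lit 0) (nat_lit 1009939830)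 (nat_lit 152) (nat_lit 2609263128) (nat_lit 228) (nat_lit 8007871994) (nat_lit 64) (nat_lit 5) (nat_lit 66) (nat_lit 5) (nat_lit 67) (nat_lit 4) (nat_lit 364) (nat_lit 273) (nat_lit 263))) (XT.nd (nat_lit 78) (nat_lit 304) (nat_lit 0) (XT.lf (nat_lit 0) (nat_lit 7942077072) (nat_lit 228) (nat_lit 2615431189) (nat_lit 0) (nat_lit 1268557567) (nat_lit 64) (nat_lit 5) (nat_lit 67) (nat_lit 4) (nat_lit 64) (nat_lit 4) (nat_lit 365) (nat_lit 273) (nat_lit 262)) (XT.lf (nat_lit 0) (nat_lit 349834263) (nat_lit 304) (nat_lit 6469231067) (nat_lit 76) (nat_lit 5212086186) (nat_lit 60) (nat_lit 5) (nat_lit 64) (nat_lit 5) (nat_lit 61) (nat_lit 4) (nat_lit 366) (nat_lit 273) (nat_lit 261))))))) (XT.nd (nat_lit 1014) (nat_lit 988) (nat_lit 0) (XT.nd (nat_lit 468) (nat_lit 760) (nat_lit 0) (XT.nd (nat_lit 234) (nat_lit 380) (nat_lit 0) (XT.nd (nat_lit 78) (nat_lit 228) (nat_lit 0) (XT.lf (nat_lit 0) (nat_lit 1646048884)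 (nat_lit 152) (nat_lit 2943401557) (nat_lit 228) (nat_lit 7653109032) (nat_lit 58) (nat_lit 5) (nat_lit 60) (nat_lit 5) (nat_lit 61) (nat_lit 4) (nat_lit 367) (nat_lit 273) (nat_lit 260)) (XT.nd (nat_lit 78) (nat_lit 228) (nat_lit 0) (XT.lf (nat_lit 0) (nat_lit 8947221994) (nat_lit 228) (nat_lit 2476233734) (nat_lit 0) (nat_lit 1037152743) (nat_lit 58) (nat_lit 5) (nat_lit 61) (nat_lit 4) (nat_lit 58) (nat_lit 4) (nat_lit 368) (nat_lit 273) (nat_lit 259)) (XT.lf (nat_lit 0) (nat_lit 738477105) (nat_lit 228) (nat_lit 6860424217) (nat_lit 76) (nat_lit 5086029548) (nat_lit 55) (nat_lit 5) (nat_lit 58) (nat_lit 5) (nat_lit 56) (nat_lit 4) (nat_lit 369) (nat_lit 273) (nat_lit 258)))) (XT.nd (nat_lit 78) (nat_lit 228) (nat_lit 0) (XT.lf (nat_lit 0) (nat_lit 1360678535) (nat_lit 152) (nat_lit 3642564615) (nat_lit 228) (nat_lit 7913042795) (nat_lit 53) (nat_lit 5) (nat_lit 55) (nat_lit 5) (nat_lit 56) (nat_lit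 4) (nat_lit 370) (nat_lit 273) (nat_lit 257)) (XT.nd (nat_lit 78) (nat_lit 228) (nat_lit 0) (XT.lf (nat_lit 0) (nat_lit 9388205272) (nat_lit 228) (nat_lit 3329464661) (nat_lit 0) (nat_lit 437168856) (nat_lit 53) (nat_lit 5) (nat_lit 56) (nat_lit 4) (nat_lit 53) (nat_lit 4) (nat_lit 371) (nat_lit 273) (nat_lit 256)) (XT.lf (nat_lit 0) (nat_lit 499670565) (nat_lit 228) (nat_lit 8336047656) (nat_lit 76) (nat_lit 4564547674) (nat_lit 50) (nat_lit 5) (nat_lit 53) (nat_lit 5) (nat_lit 51) (nat_lit 4) (nat_lit 372) (nat_lit 273) (nat_lit 255))))) (XT.nd (nat_lit 234) (nat_lit 456) (nat_lit 0) (XT.nd (nat_lit 78) (nat_lit 304) (nat_lit 0) (XT.lf (nat_lit 0) (nat_lit 4772940555) (nat_lit 228) (nat_lit 49020731) (nat_lit 76) (nat_lit 8831357867) (nat_lit 50) (nat_lit 5) (nat_lit 53) (nat_lit 5) (nat_lit 51) (nat_lit 4) (nat_lit 373) (nat_lit 273) (nat_lit 254)) (XT.nd (nat_lit 78) (nat_lit 152) (nat_lit 0) (XT.lf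 (nat_lit 0) (nat_lit 8519553838) (nat_lit 152) (nat_lit 659787291) (nat_lit 228) (nat_lit 4734496857) (nat_lit 48) (nat_lit 5) (nat_lit 50) (nat_lit 5) (nat_lit 51) (nat_lit 4) (nat_lit 374) (nat_lit 273) (nat_lit 253)) (XT.lf (nat_lit 0) (nat_lit 3055008995) (nat_lit 152) (nat_lit 10651130241) (nat_lit 152) (nat_lit 476408296) (nat_lit 46) (nat_lit 4) (nat_lit 48) (nat_lit 5) (nat_lit 48) (nat_lit 4) (nat_lit 375) (nat_lit 273) (nat_lit 252)))) (XT.nd (nat_lit 156) (nat_lit 228) (nat_lit 0) (XT.nd (nat_lit 78) (nat_lit 152) (nat_lit 0) (XT.lf (nat_lit 0) (nat_lit 3818338399) (nat_lit 228) (nat_lit 2767971333) (nat_lit 76) (nat_lit 7872345257) (nat_lit 45) (nat_lit 5) (nat_lit 48) (nat_lit 5) (nat_lit 46) (nat_lit 4) (nat_lit 376) (nat_lit 273) (nat_lit 251)) (XT.lf (nat_lit 0) (nat_lit 5821166685) (nat_lit 152) (nat_lit 2393024456) (nat_lit 228) (nat_lit 6529277357) (nat_lit 43) (nat_lit 5) (nat_lit 45)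 (nat_lit 5) (nat_lit 46) (nat_lit 4) (nat_lit 377) (nat_lit 273) (nat_lit 250))) (XT.nd (nat_lit 78) (nat_lit 228) (nat_lit 0) (XT.lf (nat_lit 0) (nat_lit 12714929988) (nat_lit 228) (nat_lit 460555563) (nat_lit 0) (nat_lit 1862169482) (nat_lit 43) (nat_lit 5) (nat_lit 46) (nat_lit 4) (nat_lit 43) (nat_lit 4) (nat_lit 378) (nat_lit 273) (nat_lit 249)) (XT.lf (nat_lit 0) (nat_lit 2002662013) (nat_lit 228) (nat_lit 7093419383) (nat_lit 76) (nat_lit 6243068140) (nat_lit 40) (nat_lit 5) (nat_lit 43) (nat_lit 5) (nat_lit 41) (nat_lit 4) (nat_lit 379) (nat_lit 273) (nat_lit 248)))))) (XT.nd (nat_lit 546) (nat_lit 456) (nat_lit 0) (XT.nd (nat_lit 234) (nat_lit 304) (nat_lit 0) (XT.nd (nat_lit 78) (nat_lit 152) (nat_lit 0) (XT.lf (nat_lit 0) (nat_lit 1451484553) (nat_lit 76) (nat_lit 4906868224) (nat_lit 152) (nat_lit 9292246711) (nat_lit 39) (nat_lit 5) (nat_lit 40) (nat_lit 5) (nat_lit 41) (nat_lit 4) (nat_lit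 380) (nat_lit 273) (nat_lit 247)) (XT.nd (nat_lit 78) (nat_lit 152) (nat_lit 0) (XT.lf (nat_lit 0) (nat_lit 10272495949) (nat_lit 76) (nat_lit 573297669) (nat_lit 152) (nat_lit 5125583766) (nat_lit 39) (nat_lit 5) (nat_lit 40) (nat_lit 5) (nat_lit 41) (nat_lit 4) (nat_lit 381) (nat_lit 273) (nat_lit 246)) (XT.lf (nat_lit 0) (nat_lit 2953042667) (nat_lit 152) (nat_lit 12511587605) (nat_lit 152) (nat_lit 837261503) (nat_lit 37) (nat_lit 4) (nat_lit 39) (nat_lit 5) (nat_lit 39) (nat_lit 4) (nat_lit 382) (nat_lit 273) (nat_lit 245)))) (XT.nd (nat_lit 156) (nat_lit 152) (nat_lit 0) (XT.nd (nat_lit 78) (nat_lit 76) (nat_lit 0) (XT.lf (nat_lit 0) (nat_lit 3504784771) (nat_lit 228) (nat_lit 4823625444) (nat_lit 76) (nat_lit 8313046644) (nat_lit 36) (nat_lit 5) (nat_lit 39) (nat_lit 5) (nat_lit 37) (nat_lit 4) (nat_lit 383) (nat_lit 273) (nat_lit 244)) (XT.lf (nat_lit 0) (nat_lit 3905152401) (nat_lit 76) (nat_lit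 4025790298) (nat_lit 152) (nat_lit 9060912105) (nat_lit 35) (nat_lit 5) (nat_lit 36) (nat_lit 5) (nat_lit 37) (nat_lit 4) (nat_lit 384) (nat_lit 273) (nat_lit 243))) (XT.nd (nat_lit 78) (nat_lit 152) (nat_lit 0) (XT.lf (nat_lit 0) (nat_lit 12476414045) (nat_lit 152) (nat_lit 4481440993) (nat_lit 0) (nat_lit 395328301) (nat_lit 35) (nat_lit 5) (nat_lit 37) (nat_lit 4) (nat_lit 35) (nat_lit 4) (nat_lit 385) (nat_lit 273) (nat_lit 242)) (XT.lf (nat_lit 0) (nat_lit 4309289636) (nat_lit 152) (nat_lit 12865616922) (nat_lit 152) (nat_lit 549959553) (nat_lit 33) (nat_lit 4) (nat_lit 35) (nat_lit 5) (nat_lit 35) (nat_lit 4) (nat_lit 386) (nat_lit 273) (nat_lit 241))))) (XT.nd (nat_lit 234) (nat_lit 304) (nat_lit 0) (XT.nd (nat_lit 78) (nat_lit 76) (nat_lit 0) (XT.lf (nat_lit 0) (nat_lit 3811621364) (nat_lit 228) (nat_lit 4805805440) (nat_lit 76) (nat_lit 9489723254) (nat_lit 32) (nat_lit 5) (nat_lit 35) (nat_lit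 5) (nat_lit 33) (nat_lit 4) (nat_lit 387) (nat_lit 273) (nat_lit 240)) (XT.nd (nat_lit 78) (nat_lit 0) (nat_lit 0) (XT.lf (nat_lit 0) (nat_lit 4021630060) (nat_lit 76) (nat_lit 4247401035) (nat_lit 152) (nat_lit 10232439918) (nat_lit 31) (nat_lit 5) (nat_lit 32) (nat_lit 5) (nat_lit 33) (nat_lit 4) (nat_lit 388) (nat_lit 273) (nat_lit 239)) (XT.lf (nat_lit 0) (nat_lit 12849243547) (nat_lit 152) (nat_lit 5810609882) (nat_lit 0) (nat_lit 248108275) (nat_lit 31) (nat_lit 5) (nat_lit 33) (nat_lit 4) (nat_lit 31) (nat_lit 4) (nat_lit 389) (nat_lit 273) (nat_lit 238)))) (XT.nd (nat_lit 156) (nat_lit 76) (nat_lit 0) (XT.nd (nat_lit 78) (nat_lit 76) (nat_lit 0) (XT.lf (nat_lit 0) (nat_lit 3025065212) (nat_lit 152) (nat_lit 14552377728) (nat_lit 152) (nat_lit 1748898912) (nat_lit 29) (nat_lit 4) (nat_lit 31) (nat_lit 5) (nat_lit 31) (nat_lit 4) (nat_lit 390) (nat_lit 273) (nat_lit 237)) (XT.lf (nat_lit 0) (nat_lit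 2636530922) (nat_lit 228) (nat_lit 7647771085) (nat_lit 76) (nat_lit 9472242702) (nat_lit 28) (nat_lit 5) (nat_lit 31) (nat_lit 5) (nat_lit 29) (nat_lit 4) (nat_lit 391) (nat_lit 273) (nat_lit 236))) (XT.nd (nat_lit 78) (nat_lit 0) (nat_lit 0) (XT.lf (nat_lit 0) (nat_lit 1163208231) (nat_lit 76) (nat_lit 5907661368) (nat_lit 152) (nat_lit 13129700789) (nat_lit 27) (nat_lit 5) (nat_lit 28) (nat_lit 5) (nat_lit 29) (nat_lit 4) (nat_lit 392) (nat_lit 273) (nat_lit 235)) (XT.lf (nat_lit 0) (nat_lit 10288828837) (nat_lit 76) (nat_lit 1368638600) (nat_lit 152) (nat_lit 8999883328) (nat_lit 27) (nat_lit 5) (nat_lit 28) (nat_lit 5) (nat_lit 29) (nat_lit 4) (nat_lit 393) (nat_lit 273) (nat_lit 234))))))))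
noncomputable def xc44 : XT := (XT.nd (nat_lit 2028) (nat_lit 456) (nat_lit 0) (XT.nd (nat_lit 1014) (nat_lit 456) (nat_lit 0) (XT.nd (nat_lit 468) (nat_lit 304) (nat_lit 0) (XT.nd (nat_lit 234) (nat_lit 76) (nat_lit 0) (XT.nd (nat_lit 78) (nat_lit 228) (nat_lit 0) (XT.lf (nat_lit 0) (nat_lit 16356686354) (nat_lit 152) (nat_lit 1576007735) (nat_lit 0) (nat_lit 3195900256) (nat_lit 27) (nat_lit 5) (nat_lit 29) (nat_lit 4) (nat_lit 27) (nat_lit 4) (nat_lit 394) (nat_lit 273) (nat_lit 233)) (XT.nd (nat_lit 78) (nat_lit 76) (nat_lit 0) (XT.lf (nat_lit 0) (nat_lit 7511752534) (nat_lit 152) (nat_lit 13715779501) (nat_lit 152) (nat_lit 385533871) (nat_lit 25) (nat_lit 4) (nat_lit 27) (nat_lit 5) (nat_lit 27) (nat_lit 4) (nat_lit 395) (nat_lit 273) (nat_lit 232)) (XT.lf (nat_lit 0) (nat_lit 4012846185) (nat_lit 228) (nat_lit 5348691691) (nat_lit 76) (nat_lit 12750520027) (nat_lit 24) (nat_lit 5) (nat_lit 27) (nat_lit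 5) (nat_lit 25) (nat_lit 4) (nat_lit 396) (nat_lit 273) (nat_lit 231)))) (XT.nd (nat_lit 78) (nat_lit 0) (nat_lit 0) (XT.lf (nat_lit 0) (nat_lit 3634914253) (nat_lit 76) (nat_lit 4882039226) (nat_lit 152) (nat_lit 14109515243) (nat_lit 23) (nat_lit 5) (nat_lit 24) (nat_lit 5) (nat_lit 25) (nat_lit 4) (nat_lit 397) (nat_lit 273) (nat_lit 230)) (XT.nd (nat_lit 78) (nat_lit 0) (nat_lit 0) (XT.lf (nat_lit 0) (nat_lit 12899931546) (nat_lit 76) (nat_lit 257463692) (nat_lit 152) (nat_lit 9998889333) (nat_lit 23) (nat_lit 5) (nat_lit 24) (nat_lit 5) (nat_lit 25) (nat_lit 4) (nat_lit 398) (nat_lit 273) (nat_lit 229)) (XT.lf (nat_lit 0) (nat_lit 17928681634) (nat_lit 152) (nat_lit 1398428736) (nat_lit 0) (nat_lit 4375144364) (nat_lit 23) (nat_lit 5) (nat_lit 25) (nat_lit 4) (nat_lit 23) (nat_lit 4) (nat_lit 399) (nat_lit 273) (nat_lit 228))))) (XT.nd (nat_lit 234) (nat_lit 76) (nat_lit 0) (XT.nd (nat_lit 78) (nat_lit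 152) (nat_lit 0) (XT.lf (nat_lit 0) (nat_lit 7781301848) (nat_lit 76) (nat_lit 15088976249) (nat_lit 76) (nat_lit 1393519288) (nat_lit 22) (nat_lit 4) (nat_lit 23) (nat_lit 5) (nat_lit 23) (nat_lit 4) (nat_lit 400) (nat_lit 273) (nat_lit 227)) (XT.nd (nat_lit 78) (nat_lit 76) (nat_lit 0) (XT.lf (nat_lit 0) (nat_lit 3021253757) (nat_lit 152) (nat_lit 7700097939) (nat_lit 76) (nat_lit 14121018715) (nat_lit 21) (nat_lit 5) (nat_lit 23) (nat_lit 5) (nat_lit 22) (nat_lit 4) (nat_lit 401) (nat_lit 273) (nat_lit 226)) (XT.lf (nat_lit 0) (nat_lit 1266083409) (nat_lit 76) (nat_lit 6237906441) (nat_lit 152) (nat_lit 17934998817) (nat_lit 20) (nat_lit 5) (nat_lit 21) (nat_lit 5) (nat_lit 22) (nat_lit 4) (nat_lit 402) (nat_lit 273) (nat_lit 225)))) (XT.nd (nat_lit 156) (nat_lit 76) (nat_lit 0) (XT.nd (nat_lit 78) (nat_lit 0) (nat_lit 0) (XT.lf (nat_lit 0) (nat_lit 10569386055) (nat_lit 76) (nat_lit 1581490133) (nat_lit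 152) (nat_lit 13901746811) (nat_lit 20) (nat_lit 5) (nat_lit 21) (nat_lit 5) (nat_lit 22) (nat_lit 4) (nat_lit 403) (nat_lit 273) (nat_lit 224)) (XT.lf (nat_lit 0) (nat_lit 16920994452) (nat_lit 152) (nat_lit 6651894728) (nat_lit 0) (nat_lit 3112269776) (nat_lit 20) (nat_lit 5) (nat_lit 22) (nat_lit 4) (nat_lit 20) (nat_lit 4) (nat_lit 404) (nat_lit 273) (nat_lit 223))) (XT.nd (nat_lit 78) (nat_lit 0) (nat_lit 0) (XT.lf (nat_lit 0) (nat_lit 2389814526) (nat_lit 76) (nat_lit 19437328000) (nat_lit 76) (nat_lit 5509747817) (nat_lit 19) (nat_lit 4) (nat_lit 20) (nat_lit 5) (nat_lit 20) (nat_lit 4) (nat_lit 405) (nat_lit 273) (nat_lit 222)) (XT.lf (nat_lit 0) (nat_lit 11754422293) (nat_lit 76) (nat_lit 15148036340) (nat_lit 76) (nat_lit 1105062462) (nat_lit 19) (nat_lit 4) (nat_lit 20) (nat_lit 5) (nat_lit 20) (nat_lit 4) (nat_lit 406) (nat_lit 273) (nat_lit 221)))))) (XT.nd (nat_lit 468) (nat_lit 228) (nat_lit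 0) (XT.nd (nat_lit 234) (nat_lit 76) (nat_lit 0) (XT.nd (nat_lit 78) (nat_lit 76) (nat_lit 0) (XT.lf (nat_lit 0) (nat_lit 3320485057) (nat_lit 152) (nat_lit 7414421926) (nat_lit 76) (nat_lit 17963710045) (nat_lit 18) (nat_lit 5) (nat_lit 20) (nat_lit 5) (nat_lit 19) (nat_lit 4) (nat_lit 407) (nat_lit 273) (nat_lit 220)) (XT.nd (nat_lit 78) (nat_lit 0) (nat_lit 0) (XT.lf (nat_lit 0) (nat_lit 1629562742) (nat_lit 76) (nat_lit 6199668272) (nat_lit 152) (nat_lit 21581713650) (nat_lit 17) (nat_lit 5) (nat_lit 18) (nat_lit 5) (nat_lit 19) (nat_lit 4) (nat_lit 408) (nat_lit 273) (nat_lit 219)) (XT.lf (nat_lit 0) (nat_lit 11016936665) (nat_lit 76) (nat_lit 1488636961) (nat_lit 152) (nat_lit 17638104635) (nat_lit 17) (nat_lit 5) (nat_lit 18) (nat_lit 5) (nat_lit 19) (nat_lit 4) (nat_lit 409) (nat_lit 273) (nat_lit 218)))) (XT.nd (nat_lit 78) (nat_lit 76) (nat_lit 0) (XT.lf (nat_lit 0) (nat_lit 17312893919) (nat_lit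 152) (nat_lit 10323283229) (nat_lit 0) (nat_lit 3262502074) (nat_lit 17) (nat_lit 5) (nat_lit 19) (nat_lit 4) (nat_lit 17) (nat_lit 4) (nat_lit 410) (nat_lit 273) (nat_lit 217)) (XT.nd (nat_lit 78) (nat_lit 76) (nat_lit 0) (XT.lf (nat_lit 0) (nat_lit 22238739032) (nat_lit 152) (nat_lit 1346661046) (nat_lit 0) (nat_lit 8091706784) (nat_lit 17) (nat_lit 5) (nat_lit 19) (nat_lit 4) (nat_lit 17) (nat_lit 4) (nat_lit 411) (nat_lit 273) (nat_lit 216)) (XT.lf (nat_lit 0) (nat_lit 7981016674) (nat_lit 76) (nat_lit 19368805153) (nat_lit 76) (nat_lit 5127947270) (nat_lit 16) (nat_lit 4) (nat_lit 17) (nat_lit 5) (nat_lit 17) (nat_lit 4) (nat_lit 412) (nat_lit 273) (nat_lit 215))))) (XT.nd (nat_lit 234) (nat_lit 76) (nat_lit 0) (XT.nd (nat_lit 78) (nat_lit 152) (nat_lit 0) (XT.lf (nat_lit 0) (nat_lit 17542873756) (nat_lit 76) (nat_lit 15046145097) (nat_lit 76) (nat_lit 714194364) (nat_lit 16) (nat_lit 4) (nat_lit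 17) (nat_lit 5) (nat_lit 17) (nat_lit 4) (nat_lit 413) (nat_lit 273) (nat_lit 214)) (XT.nd (nat_lit 78) (nat_lit 76) (nat_lit 0) (XT.lf (nat_lit 0) (nat_lit 3719130928) (nat_lit 152) (nat_lit 6870554606) (nat_lit 76) (nat_lit 23563777167) (nat_lit 15) (nat_lit 5) (nat_lit 17) (nat_lit 5) (nat_lit 16) (nat_lit 4) (nat_lit 414) (nat_lit 273) (nat_lit 213)) (XT.lf (nat_lit 0) (nat_lit 2253025710) (nat_lit 76) (nat_lit 6002777170) (nat_lit 152) (nat_lit 26773668615) (nat_lit 14) (nat_lit 5) (nat_lit 15) (nat_lit 5) (nat_lit 16) (nat_lit 4) (nat_lit 415) (nat_lit 273) (nat_lit 212)))) (XT.nd (nat_lit 156) (nat_lit 76) (nat_lit 0) (XT.nd (nat_lit 78) (nat_lit 0) (nat_lit 0) (XT.lf (nat_lit 0) (nat_lit 11722045802) (nat_lit 76) (nat_lit 1239364444) (nat_lit 152) (nat_lit 22969370112) (nat_lit 14) (nat_lit 5) (nat_lit 15) (nat_lit 5) (nat_lit 16) (nat_lit 4) (nat_lit 416) (nat_lit 273) (nat_lit 211)) (XT.lf (nat_lit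 0) (nat_lit 17807651414) (nat_lit 152) (nat_lit 15487100601) (nat_lit 0) (nat_lit 3564397224) (nat_lit 14) (nat_lit 5) (nat_lit 16) (nat_lit 4) (nat_lit 14) (nat_lit 4) (nat_lit 417) (nat_lit 273) (nat_lit 210))) (XT.nd (nat_lit 78) (nat_lit 76) (nat_lit 0) (XT.lf (nat_lit 0) (nat_lit 22776809593) (nat_lit 152) (nat_lit 6581971706) (nat_lit 0) (nat_lit 8457266576) (nat_lit 14) (nat_lit 5) (nat_lit 16) (nat_lit 4) (nat_lit 14) (nat_lit 4) (nat_lit 418) (nat_lit 273) (nat_lit 209)) (XT.lf (nat_lit 0) (nat_lit 2576626093) (nat_lit 76) (nat_lit 25309455251) (nat_lit 76) (nat_lit 10915845411) (nat_lit 13) (nat_lit 4) (nat_lit 14) (nat_lit 5) (nat_lit 14) (nat_lit 4) (nat_lit 419) (nat_lit 273) (nat_lit 208))))))) (XT.nd (nat_lit 1014) (nat_lit 228) (nat_lit 0) (XT.nd (nat_lit 468) (nat_lit 76) (nat_lit 0) (XT.nd (nat_lit 234) (nat_lit 76) (nat_lit 0) (XT.nd (nat_lit 78) (nat_lit 76) (nat_lit 0) (XT.lf (nat_lit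 0) (nat_lit 12081568677) (nat_lit 76) (nat_lit 21100171870) (nat_lit 76) (nat_lit 6634652494) (nat_lit 13) (nat_lit 4) (nat_lit 14) (nat_lit 5) (nat_lit 14) (nat_lit 4) (nat_lit 420) (nat_lit 273) (nat_lit 207)) (XT.nd (nat_lit 78) (nat_lit 76) (nat_lit 0) (XT.lf (nat_lit 0) (nat_lit 21810167192) (nat_lit 76) (nat_lit 16793718152) (nat_lit 76) (nat_lit 2258383692) (nat_lit 13) (nat_lit 4) (nat_lit 14) (nat_lit 5) (nat_lit 14) (nat_lit 4) (nat_lit 421) (nat_lit 273) (nat_lit 206)) (XT.lf (nat_lit 0) (nat_lit 2173527460) (nat_lit 152) (nat_lit 10190855350) (nat_lit 76) (nat_lit 29575446529) (nat_lit 12) (nat_lit 5) (nat_lit 14) (nat_lit 5) (nat_lit 13) (nat_lit 4) (nat_lit 422) (nat_lit 273) (nat_lit 205)))) (XT.nd (nat_lit 78) (nat_lit 76) (nat_lit 0) (XT.lf (nat_lit 0) (nat_lit 6662173367) (nat_lit 152) (nat_lit 1144711570) (nat_lit 76) (nat_lit 35243089482) (nat_lit 12) (nat_lit 5) (nat_lit 14) (nat_lit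 5) (nat_lit 13) (nat_lit 4) (nat_lit 423) (nat_lit 273) (nat_lit 204)) (XT.nd (nat_lit 78) (nat_lit 0) (nat_lit 0) (XT.lf (nat_lit 0) (nat_lit 8277466032) (nat_lit 76) (nat_lit 3057647381) (nat_lit 152) (nat_lit 32856825122) (nat_lit 11) (nat_lit 5) (nat_lit 12) (nat_lit 5) (nat_lit 13) (nat_lit 4) (nat_lit 424) (nat_lit 273) (nat_lit 203)) (XT.lf (nat_lit 0) (nat_lit 16147686040) (nat_lit 152) (nat_lit 27436735991) (nat_lit 0) (nat_lit 1783759831) (nat_lit 11) (nat_lit 5) (nat_lit 13) (nat_lit 4) (nat_lit 11) (nat_lit 4) (nat_lit 425) (nat_lit 273) (nat_lit 202))))) (XT.nd (nat_lit 234) (nat_lit 76) (nat_lit 0) (XT.nd (nat_lit 78) (nat_lit 0) (nat_lit 0) (XT.lf (nat_lit 0) (nat_lit 21105919688) (nat_lit 152) (nat_lit 18790233350) (nat_lit 0) (nat_lit 6683524446) (nat_lit 11) (nat_lit 5) (nat_lit 13) (nat_lit 4) (nat_lit 11) (nat_lit 4) (nat_lit 426) (nat_lit 273) (nat_lit 201)) (XT.nd (nat_lit 78) (nat_lit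 0) (nat_lit 0) (XT.lf (nat_lit 0) (nat_lit 26184754819) (nat_lit 152) (nat_lit 9938017409) (nat_lit 0) (nat_lit 11705593524) (nat_lit 11) (nat_lit 5) (nat_lit 13) (nat_lit 4) (nat_lit 11) (nat_lit 4) (nat_lit 427) (nat_lit 273) (nat_lit 200)) (XT.lf (nat_lit 0) (nat_lit 31388629248) (nat_lit 152) (nat_lit 872353220) (nat_lit 0) (nat_lit 16854355282) (nat_lit 11) (nat_lit 5) (nat_lit 13) (nat_lit 4) (nat_lit 11) (nat_lit 4) (nat_lit 428) (nat_lit 273) (nat_lit 199)))) (XT.nd (nat_lit 156) (nat_lit 0) (nat_lit 0) (XT.nd (nat_lit 78) (nat_lit 0) (nat_lit 0) (XT.lf (nat_lit 0) (nat_lit 8582149314) (nat_lit 76) (nat_lit 28222437607) (nat_lit 76) (nat_lit 13634656192) (nat_lit 10) (nat_lit 4) (nat_lit 11) (nat_lit 5) (nat_lit 11) (nat_lit 4) (nat_lit 429) (nat_lit 273) (nat_lit 198)) (XT.lf (nat_lit 0) (nat_lit 18288065167) (nat_lit 76) (nat_lit 24077528438) (nat_lit 76) (nat_lit 9437798044) (nat_lit 10) (nat_lit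 4) (nat_lit 11) (nat_lit 5) (nat_lit 11) (nat_lit 4) (nat_lit 430) (nat_lit 273) (nat_lit 197))) (XT.nd (nat_lit 78) (nat_lit 0) (nat_lit 0) (XT.lf (nat_lit 0) (nat_lit 28236513695) (nat_lit 76) (nat_lit 19831442253) (nat_lit 76) (nat_lit 5141275957) (nat_lit 10) (nat_lit 4) (nat_lit 11) (nat_lit 5) (nat_lit 11) (nat_lit 4) (nat_lit 431) (nat_lit 273) (nat_lit 196)) (XT.lf (nat_lit 0) (nat_lit 38436187719) (nat_lit 76) (nat_lit 15480468880) (nat_lit 76) (nat_lit 741335690) (nat_lit 10) (nat_lit 4) (nat_lit 11) (nat_lit 5) (nat_lit 11) (nat_lit 4) (nat_lit 432) (nat_lit 273) (nat_lit 195)))))) (XT.nd (nat_lit 546) (nat_lit 76) (nat_lit 0) (XT.nd (nat_lit 234) (nat_lit 0) (nat_lit 0) (XT.nd (nat_lit 78) (nat_lit 76) (nat_lit 0) (XT.lf (nat_lit 0) (nat_lit 3692381730) (nat_lit 152) (nat_lit 7291138952) (nat_lit 76) (nat_lit 45166332029) (nat_lit 9) (nat_lit 5) (nat_lit 11) (nat_lit 5) (nat_lit 10) (nat_lit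 4) (nat_lit 433) (nat_lit 273) (nat_lit 194)) (XT.nd (nat_lit 78) (nat_lit 0) (nat_lit 0) (XT.lf (nat_lit 0) (nat_lit 1892038978) (nat_lit 76) (nat_lit 6346812666) (nat_lit 152) (nat_lit 49447560562) (nat_lit 8) (nat_lit 5) (nat_lit 9) (nat_lit 5) (nat_lit 10) (nat_lit 4) (nat_lit 434) (nat_lit 273) (nat_lit 193)) (XT.lf (nat_lit 0) (nat_lit 11455626315) (nat_lit 76) (nat_lit 1516426798) (nat_lit 152) (nat_lit 46295507862) (nat_lit 8) (nat_lit 5) (nat_lit 9) (nat_lit 5) (nat_lit 10) (nat_lit 4) (nat_lit 435) (nat_lit 273) (nat_lit 192)))) (XT.nd (nat_lit 156) (nat_lit 0) (nat_lit 0) (XT.nd (nat_lit 78) (nat_lit 0) (nat_lit 0) (XT.lf (nat_lit 0) (nat_lit 17857690575) (nat_lit 152) (nat_lit 39667003813) (nat_lit 0) (nat_lit 3371139159) (nat_lit 8) (nat_lit 5) (nat_lit 10) (nat_lit 4) (nat_lit 8) (nat_lit 4) (nat_lit 436) (nat_lit 273) (nat_lit 191)) (XT.lf (nat_lit 0) (nat_lit 22882766788) (nat_lit 152)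 (nat_lit 31335197513) (nat_lit 0) (nat_lit 8355206369) (nat_lit 8) (nat_lit 5) (nat_lit 10) (nat_lit 4) (nat_lit 8) (nat_lit 4) (nat_lit 437) (nat_lit 273) (nat_lit 190))) (XT.nd (nat_lit 78) (nat_lit 0) (nat_lit 0) (XT.lf (nat_lit 0) (nat_lit 28037095775) (nat_lit 152) (nat_lit 22794658720) (nat_lit 0) (nat_lit 13469720789) (nat_lit 8) (nat_lit 5) (nat_lit 10) (nat_lit 4) (nat_lit 8) (nat_lit 4) (nat_lit 438) (nat_lit 273) (nat_lit 189)) (XT.lf (nat_lit 0) (nat_lit 33325181318) (nat_lit 152) (nat_lit 14037924827) (nat_lit 0) (nat_lit 18719151413) (nat_lit 8) (nat_lit 5) (nat_lit 10) (nat_lit 4) (nat_lit 8) (nat_lit 4) (nat_lit 439) (nat_lit 273) (nat_lit 188))))) (XT.nd (nat_lit 234) (nat_lit 0) (nat_lit 0) (XT.nd (nat_lit 78) (nat_lit 76) (nat_lit 0) (XT.lf (nat_lit 0) (nat_lit 38751644075) (nat_lit 152) (nat_lit 5057344318) (nat_lit 0) (nat_lit 24108085122) (nat_lit 8) (nat_lit 5) (nat_lit 10) (nat_lit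 4) (nat_lit 8) (nat_lit 4) (nat_lit 440) (nat_lit 273) (nat_lit 187)) (XT.nd (nat_lit 78) (nat_lit 0) (nat_lit 0) (XT.lf (nat_lit 0) (nat_lit 4237621166) (nat_lit 76) (nat_lit 40124339054) (nat_lit 76) (nat_lit 25444344133) (nat_lit 7) (nat_lit 4) (nat_lit 8) (nat_lit 5) (nat_lit 8) (nat_lit 4) (nat_lit 441) (nat_lit 273) (nat_lit 186)) (XT.lf (nat_lit 0) (nat_lit 13877752366) (nat_lit 76) (nat_lit 36294441640) (nat_lit 76) (nat_lit 21579071992) (nat_lit 7) (nat_lit 4) (nat_lit 8) (nat_lit 5) (nat_lit 8) (nat_lit 4) (nat_lit 442) (nat_lit 273) (nat_lit 185)))) (XT.nd (nat_lit 156) (nat_lit 0) (nat_lit 0) (XT.nd (nat_lit 78) (nat_lit 0) (nat_lit 0) (XT.lf (nat_lit 0) (nat_lit 23770821627) (nat_lit 76) (nat_lit 32367018900) (nat_lit 76) (nat_lit 17617304856) (nat_lit 7) (nat_lit 4) (nat_lit 8) (nat_lit 5) (nat_lit 8) (nat_lit 4) (nat_lit 443) (nat_lit 273) (nat_lit 184)) (XT.lf (nat_lit 0) (nat_lit 33925473379)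 (nat_lit 76) (nat_lit 28338639104) (nat_lit 76) (nat_lit 13555580988) (nat_lit 7) (nat_lit 4) (nat_lit 8) (nat_lit 5) (nat_lit 8) (nat_lit 4) (nat_lit 444) (nat_lit 273) (nat_lit 183))) (XT.nd (nat_lit 78) (nat_lit 0) (nat_lit 0) (XT.lf (nat_lit 0) (nat_lit 44350580618) (nat_lit 76) (nat_lit 24205782310) (nat_lit 76) (nat_lit 9390351308) (nat_lit 7) (nat_lit 4) (nat_lit 8) (nat_lit 5) (nat_lit 8) (nat_lit 4) (nat_lit 445) (nat_lit 273) (nat_lit 182)) (XT.lf (nat_lit 0) (nat_lit 55055252663) (nat_lit 76) (nat_lit 19964837284) (nat_lit 76) (nat_lit 5117976295) (nat_lit 7) (nat_lit 4) (nat_lit 8) (nat_lit 5) (nat_lit 8) (nat_lit 4) (nat_lit 446) (nat_lit 273) (nat_lit 181))))))))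
noncomputable def xc45 : XT := (XT.nd (nat_lit 41262) (nat_lit 0) (nat_lit 1216) (XT.nd (nat_lit 40248) (nat_lit 0) (nat_lit 3268) (XT.nd (nat_lit 39702) (nat_lit 0) (nat_lit 5168) (XT.nd (nat_lit 39468) (nat_lit 0) (nat_lit 6612) (XT.nd (nat_lit 78) (nat_lit 152) (nat_lit 0) (XT.lf (nat_lit 0) (nat_lit 66048843108) (nat_lit 76) (nat_lit 15612098345) (nat_lit 76) (nat_lit 734722806) (nat_lit 7) (nat_lit 4) (nat_lit 8) (nat_lit 5) (nat_lit 8) (nat_lit 4) (nat_lit 447) (nat_lit 273) (nat_lit 180)) (XT.nd (nat_lit 78) (nat_lit 76) (nat_lit 0) (XT.lf (nat_lit 0) (nat_lit 3689804834) (nat_lit 152) (nat_lit 7416697501) (nat_lit 76) (nat_lit 73613893377) (nat_lit 6) (nat_lit 5) (nat_lit 8) (nat_lit 5) (nat_lit 7) (nat_lit 4) (nat_lit 448) (nat_lit 273) (nat_lit 179)) (XT.lf (nat_lit 0) (nat_lit 1778059878) (nat_lit 76) (nat_lit 6455351000) (nat_lit 152) (nat_lit 78881208380) (nat_lit 5) (nat_lit 5) (nat_lit 6)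 (nat_lit 5) (nat_lit 7) (nat_lit 4) (nat_lit 449) (nat_lit 273) (nat_lit 178)))) (XT.nd (nat_lit 78) (nat_lit 304) (nat_lit 0) (XT.lf (nat_lit 0) (nat_lit 1131779777) (nat_lit 304) (nat_lit 1849375605) (nat_lit 304) (nat_lit 1849375605) (nat_lit 96) (nat_lit 4) (nat_lit 100) (nat_lit 5) (nat_lit 100) (nat_lit 4) (nat_lit 352) (nat_lit 274) (nat_lit 274)) (XT.nd (nat_lit 78) (nat_lit 0) (nat_lit 0) (XT.lf (nat_lit 0) (nat_lit 8007858) (nat_lit 228) (nat_lit 407825810) (nat_lit 304) (nat_lit 9384088422) (nat_lit 92) (nat_lit 5) (nat_lit 95) (nat_lit 5) (nat_lit 96) (nat_lit 4) (nat_lit 353) (nat_lit 274) (nat_lit 273)) (XT.lf (nat_lit 0) (nat_lit 4585161501) (nat_lit 304) (nat_lit 2371322318) (nat_lit 0) (nat_lit 2985243493) (nat_lit 92) (nat_lit 5) (nat_lit 96) (nat_lit 4) (nat_lit 92) (nat_lit 4) (nat_lit 354) (nat_lit 274) (nat_lit 272))))) (XT.nd (nat_lit 234) (nat_lit 608) (nat_lit 0) (XT.nd (nat_lit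 78) (nat_lit 532) (nat_lit 0) (XT.lf (nat_lit 0) (nat_lit 5222263122) (nat_lit 304) (nat_lit 3615954791) (nat_lit 304) (nat_lit 1250855278) (nat_lit 88) (nat_lit 4) (nat_lit 92) (nat_lit 5) (nat_lit 92) (nat_lit 4) (nat_lit 355) (nat_lit 274) (nat_lit 271)) (XT.nd (nat_lit 78) (nat_lit 228) (nat_lit 0) (XT.lf (nat_lit 0) (nat_lit 2728541594) (nat_lit 228) (nat_lit 146599179) (nat_lit 304) (nat_lit 7366226414) (nat_lit 84) (nat_lit 5) (nat_lit 87) (nat_lit 5) (nat_lit 88) (nat_lit 4) (nat_lit 356) (nat_lit 274) (nat_lit 270)) (XT.lf (nat_lit 0) (nat_lit 61263928) (nat_lit 228) (nat_lit 7027345567) (nat_lit 228) (nat_lit 3309626019) (nat_lit 81) (nat_lit 4) (nat_lit 84) (nat_lit 5) (nat_lit 84) (nat_lit 4) (nat_lit 357) (nat_lit 274) (nat_lit 269)))) (XT.nd (nat_lit 156) (nat_lit 304) (nat_lit 0) (XT.nd (nat_lit 78) (nat_lit 228) (nat_lit 0) (XT.lf (nat_lit 0) (nat_lit 835830519) (nat_lit 304) (nat_lit 2700837450)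 (nat_lit 76) (nat_lit 7023407792) (nat_lit 80) (nat_lit 5) (nat_lit 84) (nat_lit 5) (nat_lit 81) (nat_lit 4) (nat_lit 358) (nat_lit 274) (nat_lit 268)) (XT.lf (nat_lit 0) (nat_lit 4997653607) (nat_lit 304) (nat_lit 5642079949) (nat_lit 0) (nat_lit 87337402) (nat_lit 77) (nat_lit 5) (nat_lit 81) (nat_lit 4) (nat_lit 77) (nat_lit 4) (nat_lit 359) (nat_lit 274) (nat_lit 267))) (XT.nd (nat_lit 78) (nat_lit 76) (nat_lit 0) (XT.lf (nat_lit 0) (nat_lit 2121837361) (nat_lit 228) (nat_lit 7154989970) (nat_lit 228) (nat_lit 1622511178) (nat_lit 74) (nat_lit 4) (nat_lit 77) (nat_lit 5) (nat_lit 77) (nat_lit 4) (nat_lit 360) (nat_lit 274) (nat_lit 266)) (XT.lf (nat_lit 0) (nat_lit 2524124631) (nat_lit 304) (nat_lit 1012547135) (nat_lit 76) (nat_lit 7540363385) (nat_lit 73) (nat_lit 5) (nat_lit 77) (nat_lit 5) (nat_lit 74) (nat_lit 4) (nat_lit 361) (nat_lit 274) (nat_lit 265)))))) (XT.nd (nat_lit 468) (nat_lit 760)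 (nat_lit 0) (XT.nd (nat_lit 234) (nat_lit 456) (nat_lit 0) (XT.nd (nat_lit 78) (nat_lit 456) (nat_lit 0) (XT.lf (nat_lit 0) (nat_lit 6744103902) (nat_lit 304) (nat_lit 4299113940) (nat_lit 0) (nat_lit 216950460) (nat_lit 70) (nat_lit 5) (nat_lit 74) (nat_lit 4) (nat_lit 70) (nat_lit 4) (nat_lit 362) (nat_lit 274) (nat_lit 264)) (XT.nd (nat_lit 78) (nat_lit 228) (nat_lit 0) (XT.lf (nat_lit 0) (nat_lit 3639397679) (nat_lit 228) (nat_lit 7444781460) (nat_lit 228) (nat_lit 364844618) (nat_lit 67) (nat_lit 4) (nat_lit 70) (nat_lit 5) (nat_lit 70) (nat_lit 4) (nat_lit 363) (nat_lit 274) (nat_lit 263)) (XT.lf (nat_lit 0) (nat_lit 82547744) (nat_lit 152) (nat_lit 3710145604) (nat_lit 228) (nat_lit 7851012076) (nat_lit 64) (nat_lit 5) (nat_lit 66) (nat_lit 5) (nat_lit 67) (nat_lit 4) (nat_lit 364) (nat_lit 274) (nat_lit 262)))) (XT.nd (nat_lit 78) (nat_lit 456) (nat_lit 0) (XT.lf (nat_lit 0) (nat_lit 8062660388)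 (nat_lit 228) (nat_lit 3619629283) (nat_lit 0) (nat_lit 162008810) (nat_lit 64) (nat_lit 5) (nat_lit 67) (nat_lit 4) (nat_lit 64) (nat_lit 4) (nat_lit 365) (nat_lit 274) (nat_lit 261)) (XT.nd (nat_lit 78) (nat_lit 152) (nat_lit 0) (XT.lf (nat_lit 0) (nat_lit 398051913) (nat_lit 304) (nat_lit 7583747084) (nat_lit 76) (nat_lit 4069133839) (nat_lit 60) (nat_lit 5) (nat_lit 64) (nat_lit 5) (nat_lit 61) (nat_lit 4) (nat_lit 366) (nat_lit 274) (nat_lit 260)) (XT.lf (nat_lit 0) (nat_lit 439129063) (nat_lit 152) (nat_lit 4145973078) (nat_lit 228) (nat_lit 7678829329) (nat_lit 58) (nat_lit 5) (nat_lit 60) (nat_lit 5) (nat_lit 61) (nat_lit 4) (nat_lit 367) (nat_lit 274) (nat_lit 259))))) (XT.nd (nat_lit 234) (nat_lit 532) (nat_lit 0) (XT.nd (nat_lit 78) (nat_lit 228) (nat_lit 0) (XT.lf (nat_lit 0) (nat_lit 8719750698) (nat_lit 152) (nat_lit 172528305) (nat_lit 228) (nat_lit 3591232607) (nat_lit 58) (nat_lit 5) (nat_lit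 60) (nat_lit 5) (nat_lit 61) (nat_lit 4) (nat_lit 368) (nat_lit 274) (nat_lit 258)) (XT.nd (nat_lit 78) (nat_lit 0) (nat_lit 0) (XT.lf (nat_lit 0) (nat_lit 607167334) (nat_lit 228) (nat_lit 8263604844) (nat_lit 76) (nat_lit 3838746298) (nat_lit 55) (nat_lit 5) (nat_lit 58) (nat_lit 5) (nat_lit 56) (nat_lit 4) (nat_lit 369) (nat_lit 274) (nat_lit 257)) (XT.lf (nat_lit 0) (nat_lit 4819459085) (nat_lit 228) (nat_lit 136315035) (nat_lit 76) (nat_lit 7986685831) (nat_lit 55) (nat_lit 5) (nat_lit 58) (nat_lit 5) (nat_lit 56) (nat_lit 4) (nat_lit 370) (nat_lit 274) (nat_lit 256)))) (XT.nd (nat_lit 156) (nat_lit 152) (nat_lit 0) (XT.nd (nat_lit 78) (nat_lit 228) (nat_lit 0) (XT.lf (nat_lit 0) (nat_lit 8263480388) (nat_lit 152) (nat_lit 896431006) (nat_lit 228) (nat_lit 4022448511) (nat_lit 53) (nat_lit 5) (nat_lit 55) (nat_lit 5) (nat_lit 56) (nat_lit 4) (nat_lit 371) (nat_lit 274) (nat_lit 255)) (XT.lf (nat_lit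 0) (nat_lit 185443591) (nat_lit 228) (nat_lit 10041493425) (nat_lit 76) (nat_lit 3202837022) (nat_lit 50) (nat_lit 5) (nat_lit 53) (nat_lit 5) (nat_lit 51) (nat_lit 4) (nat_lit 372) (nat_lit 274) (nat_lit 254))) (XT.nd (nat_lit 78) (nat_lit 152) (nat_lit 0) (XT.lf (nat_lit 0) (nat_lit 4420800931) (nat_lit 228) (nat_lit 1820136620) (nat_lit 76) (nat_lit 7443037937) (nat_lit 50) (nat_lit 5) (nat_lit 53) (nat_lit 5) (nat_lit 51) (nat_lit 4) (nat_lit 373) (nat_lit 274) (nat_lit 253)) (XT.lf (nat_lit 0) (nat_lit 6648162975) (nat_lit 152) (nat_lit 2124241180) (nat_lit 228) (nat_lit 5173744587) (nat_lit 48) (nat_lit 5) (nat_lit 50) (nat_lit 5) (nat_lit 51) (nat_lit 4) (nat_lit 374) (nat_lit 274) (nat_lit 252))))))) (XT.nd (nat_lit 1014) (nat_lit 836) (nat_lit 0) (XT.nd (nat_lit 468) (nat_lit 608) (nat_lit 0) (XT.nd (nat_lit 234) (nat_lit 228) (nat_lit 0) (XT.nd (nat_lit 78) (nat_lit 228) (nat_lit 0) (XT.lf (nat_lit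 0) (nat_lit 1062528838) (nat_lit 152) (nat_lit 12166842570) (nat_lit 152) (nat_lit 987591998) (nat_lit 46) (nat_lit 4) (nat_lit 48) (nat_lit 5) (nat_lit 48) (nat_lit 4) (nat_lit 375) (nat_lit 274) (nat_lit 251)) (XT.nd (nat_lit 78) (nat_lit 152) (nat_lit 0) (XT.lf (nat_lit 0) (nat_lit 3280618582) (nat_lit 228) (nat_lit 4854037897) (nat_lit 76) (nat_lit 6359666742) (nat_lit 45) (nat_lit 5) (nat_lit 48) (nat_lit 5) (nat_lit 46) (nat_lit 4) (nat_lit 376) (nat_lit 274) (nat_lit 250)) (XT.lf (nat_lit 0) (nat_lit 3630127241) (nat_lit 152) (nat_lit 3989834753) (nat_lit 228) (nat_lit 7160879344) (nat_lit 43) (nat_lit 5) (nat_lit 45) (nat_lit 5) (nat_lit 46) (nat_lit 4) (nat_lit 377) (nat_lit 274) (nat_lit 249)))) (XT.nd (nat_lit 78) (nat_lit 228) (nat_lit 0) (XT.lf (nat_lit 0) (nat_lit 12070088151) (nat_lit 228) (nat_lit 2736029742) (nat_lit 0) (nat_lit 270437417) (nat_lit 43) (nat_lit 5) (nat_lit 46) (nat_lit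 4) (nat_lit 43) (nat_lit 4) (nat_lit 378) (nat_lit 274) (nat_lit 248)) (XT.nd (nat_lit 78) (nat_lit 0) (nat_lit 0) (XT.lf (nat_lit 0) (nat_lit 1274549105) (nat_lit 228) (nat_lit 9509464365) (nat_lit 76) (nat_lit 4595973448) (nat_lit 40) (nat_lit 5) (nat_lit 43) (nat_lit 5) (nat_lit 41) (nat_lit 4) (nat_lit 379) (nat_lit 274) (nat_lit 247)) (XT.lf (nat_lit 0) (nat_lit 5582128460) (nat_lit 228) (nat_lit 1053571785) (nat_lit 76) (nat_lit 9057188256) (nat_lit 40) (nat_lit 5) (nat_lit 43) (nat_lit 5) (nat_lit 41) (nat_lit 4) (nat_lit 380) (nat_lit 274) (nat_lit 246))))) (XT.nd (nat_lit 234) (nat_lit 304) (nat_lit 0) (XT.nd (nat_lit 78) (nat_lit 228) (nat_lit 0) (XT.lf (nat_lit 0) (nat_lit 7686378777) (nat_lit 76) (nat_lit 2339119806) (nat_lit 152) (nat_lit 5989497982) (nat_lit 39) (nat_lit 5) (nat_lit 40) (nat_lit 5) (nat_lit 41) (nat_lit 4) (nat_lit 381) (nat_lit 274) (nat_lit 245)) (XT.nd (nat_lit 78) (nat_lit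 76) (nat_lit 0) (XT.lf (nat_lit 0) (nat_lit 228018369) (nat_lit 152) (nat_lit 14340143361) (nat_lit 152) (nat_lit 1779642243) (nat_lit 37) (nat_lit 4) (nat_lit 39) (nat_lit 5) (nat_lit 39) (nat_lit 4) (nat_lit 382) (nat_lit 274) (nat_lit 244)) (XT.lf (nat_lit 0) (nat_lit 2547857155) (nat_lit 228) (nat_lit 7644673840) (nat_lit 76) (nat_lit 6496105273) (nat_lit 36) (nat_lit 5) (nat_lit 39) (nat_lit 5) (nat_lit 37) (nat_lit 4) (nat_lit 383) (nat_lit 274) (nat_lit 243)))) (XT.nd (nat_lit 156) (nat_lit 228) (nat_lit 0) (XT.nd (nat_lit 78) (nat_lit 0) (nat_lit 0) (XT.lf (nat_lit 0) (nat_lit 969369075) (nat_lit 76) (nat_lit 5944448647) (nat_lit 152) (nat_lit 10127029560) (nat_lit 35) (nat_lit 5) (nat_lit 36) (nat_lit 5) (nat_lit 37) (nat_lit 4) (nat_lit 384) (nat_lit 274) (nat_lit 242)) (XT.lf (nat_lit 0) (nat_lit 9883067046) (nat_lit 76) (nat_lit 1540753998) (nat_lit 152) (nat_lit 5979425754) (nat_lit 35) (nat_lit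 5) (nat_lit 36) (nat_lit 5) (nat_lit 37) (nat_lit 4) (nat_lit 385) (nat_lit 274) (nat_lit 241))) (XT.nd (nat_lit 78) (nat_lit 76) (nat_lit 0) (XT.lf (nat_lit 0) (nat_lit 1168148506) (nat_lit 152) (nat_lit 14878251680) (nat_lit 152) (nat_lit 1730813524) (nat_lit 33) (nat_lit 4) (nat_lit 35) (nat_lit 5) (nat_lit 35) (nat_lit 4) (nat_lit 386) (nat_lit 274) (nat_lit 240)) (XT.lf (nat_lit 0) (nat_lit 2622961171) (nat_lit 228) (nat_lit 8043933231) (nat_lit 76) (nat_lit 7493875608) (nat_lit 32) (nat_lit 5) (nat_lit 35) (nat_lit 5) (nat_lit 33) (nat_lit 4) (nat_lit 387) (nat_lit 274) (nat_lit 239)))))) (XT.nd (nat_lit 546) (nat_lit 456) (nat_lit 0) (XT.nd (nat_lit 234) (nat_lit 304) (nat_lit 0) (XT.nd (nat_lit 78) (nat_lit 0) (nat_lit 0) (XT.lf (nat_lit 0) (nat_lit 663615947) (nat_lit 76) (nat_lit 6354525246) (nat_lit 152) (nat_lit 11538822832) (nat_lit 31) (nat_lit 5) (nat_lit 32) (nat_lit 5) (nat_lit 33) (nat_lit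 4) (nat_lit 388) (nat_lit 274) (nat_lit 238)) (XT.nd (nat_lit 78) (nat_lit 0) (nat_lit 0) (XT.lf (nat_lit 0) (nat_lit 9688016680) (nat_lit 76) (nat_lit 1878309036) (nat_lit 152) (nat_lit 7398095824) (nat_lit 31) (nat_lit 5) (nat_lit 32) (nat_lit 5) (nat_lit 33) (nat_lit 4) (nat_lit 389) (nat_lit 274) (nat_lit 237)) (XT.lf (nat_lit 0) (nat_lit 16218431251) (nat_lit 152) (nat_lit 534604584) (nat_lit 0) (nat_lit 2632054484) (nat_lit 31) (nat_lit 5) (nat_lit 33) (nat_lit 4) (nat_lit 31) (nat_lit 4) (nat_lit 390) (nat_lit 274) (nat_lit 236)))) (XT.nd (nat_lit 156) (nat_lit 76) (nat_lit 0) (XT.nd (nat_lit 78) (nat_lit 0) (nat_lit 0) (XT.lf (nat_lit 0) (nat_lit 1212234694) (nat_lit 228) (nat_lit 11316268533) (nat_lit 76) (nat_lit 7288230329) (nat_lit 28) (nat_lit 5) (nat_lit 31) (nat_lit 5) (nat_lit 29) (nat_lit 4) (nat_lit 391) (nat_lit 274) (nat_lit 235)) (XT.lf (nat_lit 0) (nat_lit 5607325334) (nat_lit 228)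 (nat_lit 2579407541) (nat_lit 76) (nat_lit 12075209120) (nat_lit 28) (nat_lit 5) (nat_lit 31) (nat_lit 5) (nat_lit 29) (nat_lit 4) (nat_lit 392) (nat_lit 274) (nat_lit 234))) (XT.nd (nat_lit 78) (nat_lit 0) (nat_lit 0) (XT.lf (nat_lit 0) (nat_lit 6443961971) (nat_lit 76) (nat_lit 3696934363) (nat_lit 152) (nat_lit 10579422009) (nat_lit 27) (nat_lit 5) (nat_lit 28) (nat_lit 5) (nat_lit 29) (nat_lit 4) (nat_lit 393) (nat_lit 274) (nat_lit 233)) (XT.lf (nat_lit 0) (nat_lit 14790587331) (nat_lit 152) (nat_lit 5511490644) (nat_lit 0) (nat_lit 890974800) (nat_lit 27) (nat_lit 5) (nat_lit 29) (nat_lit 4) (nat_lit 27) (nat_lit 4) (nat_lit 394) (nat_lit 274) (nat_lit 232))))) (XT.nd (nat_lit 234) (nat_lit 228) (nat_lit 0) (XT.nd (nat_lit 78) (nat_lit 76) (nat_lit 0) (XT.lf (nat_lit 0) (nat_lit 3448406816) (nat_lit 152) (nat_lit 16147610603) (nat_lit 152) (nat_lit 2083474253) (nat_lit 25) (nat_lit 4) (nat_lit 27)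 (nat_lit 5) (nat_lit 27) (nat_lit 4) (nat_lit 395) (nat_lit 274) (nat_lit 231)) (XT.nd (nat_lit 78) (nat_lit 0) (nat_lit 0) (XT.lf (nat_lit 0) (nat_lit 2321725270) (nat_lit 228) (nat_lit 9510765912) (nat_lit 76) (nat_lit 10347276130) (nat_lit 24) (nat_lit 5) (nat_lit 27) (nat_lit 5) (nat_lit 25) (nat_lit 4) (nat_lit 396) (nat_lit 274) (nat_lit 230)) (XT.lf (nat_lit 0) (nat_lit 6765344492) (nat_lit 228) (nat_lit 645298370) (nat_lit 76) (nat_lit 15285354365) (nat_lit 24) (nat_lit 5) (nat_lit 27) (nat_lit 5) (nat_lit 25) (nat_lit 4) (nat_lit 397) (nat_lit 274) (nat_lit 229)))) (XT.nd (nat_lit 156) (nat_lit 152) (nat_lit 0) (XT.nd (nat_lit 78) (nat_lit 0) (nat_lit 0) (XT.lf (nat_lit 0) (nat_lit 8560130909) (nat_lit 76) (nat_lit 2814076577) (nat_lit 152) (nat_lit 11852557279) (nat_lit 23) (nat_lit 5) (nat_lit 24) (nat_lit 5) (nat_lit 25) (nat_lit 4) (nat_lit 398) (nat_lit 274) (nat_lit 228)) (XT.lf (nat_lit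 0) (nat_lit 16096200765) (nat_lit 152) (nat_lit 5830056753) (nat_lit 0) (nat_lit 1847960405) (nat_lit 23) (nat_lit 5) (nat_lit 25) (nat_lit 4) (nat_lit 23) (nat_lit 4) (nat_lit 399) (nat_lit 274) (nat_lit 227))) (XT.nd (nat_lit 78) (nat_lit 76) (nat_lit 0) (XT.lf (nat_lit 0) (nat_lit 3216003056) (nat_lit 76) (nat_lit 17753912259) (nat_lit 76) (nat_lit 3367885792) (nat_lit 22) (nat_lit 4) (nat_lit 23) (nat_lit 5) (nat_lit 23) (nat_lit 4) (nat_lit 400) (nat_lit 274) (nat_lit 226)) (XT.lf (nat_lit 0) (nat_lit 1061452603) (nat_lit 152) (nat_lit 12365050602) (nat_lit 76) (nat_lit 11491162985) (nat_lit 21) (nat_lit 5) (nat_lit 23) (nat_lit 5) (nat_lit 22) (nat_lit 4) (nat_lit 401) (nat_lit 274) (nat_lit 225))))))))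
noncomputable def xc46 : XT := (XT.nd (nat_lit 2028) (nat_lit 380) (nat_lit 0) (XT.nd (nat_lit 1014) (nat_lit 304) (nat_lit 0) (XT.nd (nat_lit 468) (nat_lit 228) (nat_lit 0) (XT.nd (nat_lit 234) (nat_lit 152) (nat_lit 0) (XT.nd (nat_lit 78) (nat_lit 76) (nat_lit 0) (XT.lf (nat_lit 0) (nat_lit 5508754587) (nat_lit 152) (nat_lit 3466904196) (nat_lit 76) (nat_lit 16539692418) (nat_lit 21) (nat_lit 5) (nat_lit 23) (nat_lit 5) (nat_lit 22) (nat_lit 4) (nat_lit 402) (nat_lit 274) (nat_lit 224)) (XT.nd (nat_lit 78) (nat_lit 0) (nat_lit 0) (XT.lf (nat_lit 0) (nat_lit 5724495957) (nat_lit 76) (nat_lit 4374157132) (nat_lit 152) (nat_lit 16032045701) (nat_lit 20) (nat_lit 5) (nat_lit 21) (nat_lit 5) (nat_lit 22) (nat_lit 4) (nat_lit 403) (nat_lit 274) (nat_lit 223)) (XT.lf (nat_lit 0) (nat_lit 14819412040) (nat_lit 152) (nat_lit 11590158059) (nat_lit 0) (nat_lit 355148945) (nat_lit 20) (nat_lit 5) (nat_lit 22) (nat_lit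 4) (nat_lit 20) (nat_lit 4) (nat_lit 404) (nat_lit 274) (nat_lit 222)))) (XT.nd (nat_lit 78) (nat_lit 152) (nat_lit 0) (XT.lf (nat_lit 0) (nat_lit 19680729027) (nat_lit 152) (nat_lit 2635997514) (nat_lit 0) (nat_lit 5101072236) (nat_lit 20) (nat_lit 5) (nat_lit 22) (nat_lit 4) (nat_lit 20) (nat_lit 4) (nat_lit 405) (nat_lit 274) (nat_lit 221)) (XT.nd (nat_lit 78) (nat_lit 76) (nat_lit 0) (XT.lf (nat_lit 0) (nat_lit 6635635036) (nat_lit 76) (nat_lit 18072955476) (nat_lit 76) (nat_lit 3381265971) (nat_lit 19) (nat_lit 4) (nat_lit 20) (nat_lit 5) (nat_lit 20) (nat_lit 4) (nat_lit 406) (nat_lit 274) (nat_lit 220)) (XT.lf (nat_lit 0) (nat_lit 1067505531) (nat_lit 152) (nat_lit 12633422902) (nat_lit 76) (nat_lit 15081319305) (nat_lit 18) (nat_lit 5) (nat_lit 20) (nat_lit 5) (nat_lit 19) (nat_lit 4) (nat_lit 407) (nat_lit 274) (nat_lit 219))))) (XT.nd (nat_lit 234) (nat_lit 152) (nat_lit 0) (XT.nd (nat_lit 78)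 (nat_lit 76) (nat_lit 0) (XT.lf (nat_lit 0) (nat_lit 5540011459) (nat_lit 152) (nat_lit 3659837445) (nat_lit 76) (nat_lit 20295816704) (nat_lit 18) (nat_lit 5) (nat_lit 20) (nat_lit 5) (nat_lit 19) (nat_lit 4) (nat_lit 408) (nat_lit 274) (nat_lit 218)) (XT.nd (nat_lit 78) (nat_lit 0) (nat_lit 0) (XT.lf (nat_lit 0) (nat_lit 5616476398) (nat_lit 76) (nat_lit 4543653114) (nat_lit 152) (nat_lit 20069959375) (nat_lit 17) (nat_lit 5) (nat_lit 18) (nat_lit 5) (nat_lit 19) (nat_lit 4) (nat_lit 409) (nat_lit 274) (nat_lit 217)) (XT.lf (nat_lit 0) (nat_lit 14918165009) (nat_lit 152) (nat_lit 15818324854) (nat_lit 0) (nat_lit 250081389) (nat_lit 17) (nat_lit 5) (nat_lit 19) (nat_lit 4) (nat_lit 17) (nat_lit 4) (nat_lit 410) (nat_lit 274) (nat_lit 216)))) (XT.nd (nat_lit 156) (nat_lit 76) (nat_lit 0) (XT.nd (nat_lit 78) (nat_lit 76) (nat_lit 0) (XT.lf (nat_lit 0) (nat_lit 19824672148) (nat_lit 152) (nat_lit 6878146765)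 (nat_lit 0) (nat_lit 5062762894) (nat_lit 17) (nat_lit 5) (nat_lit 19) (nat_lit 4) (nat_lit 17) (nat_lit 4) (nat_lit 411) (nat_lit 274) (nat_lit 215)) (XT.lf (nat_lit 0) (nat_lit 2303356745) (nat_lit 76) (nat_lit 22559046326) (nat_lit 76) (nat_lit 7706044223) (nat_lit 16) (nat_lit 4) (nat_lit 17) (nat_lit 5) (nat_lit 17) (nat_lit 4) (nat_lit 412) (nat_lit 274) (nat_lit 214))) (XT.nd (nat_lit 78) (nat_lit 76) (nat_lit 0) (XT.lf (nat_lit 0) (nat_lit 11830178100) (nat_lit 76) (nat_lit 18252857317) (nat_lit 76) (nat_lit 3311415555) (nat_lit 16) (nat_lit 4) (nat_lit 17) (nat_lit 5) (nat_lit 17) (nat_lit 4) (nat_lit 413) (nat_lit 274) (nat_lit 213)) (XT.lf (nat_lit 0) (nat_lit 1154385971) (nat_lit 152) (nat_lit 12683901987) (nat_lit 76) (nat_lit 20407710095) (nat_lit 15) (nat_lit 5) (nat_lit 17) (nat_lit 5) (nat_lit 16) (nat_lit 4) (nat_lit 414) (nat_lit 274) (nat_lit 212)))))) (XT.nd (nat_lit 468) (nat_lit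 152) (nat_lit 0) (XT.nd (nat_lit 234) (nat_lit 76) (nat_lit 0) (XT.nd (nat_lit 78) (nat_lit 76) (nat_lit 0) (XT.lf (nat_lit 0) (nat_lit 5651725795) (nat_lit 152) (nat_lit 3637665004) (nat_lit 76) (nat_lit 25833798406) (nat_lit 15) (nat_lit 5) (nat_lit 17) (nat_lit 5) (nat_lit 16) (nat_lit 4) (nat_lit 415) (nat_lit 274) (nat_lit 211)) (XT.nd (nat_lit 78) (nat_lit 0) (nat_lit 0) (XT.lf (nat_lit 0) (nat_lit 5725906974) (nat_lit 76) (nat_lit 4578285223) (nat_lit 152) (nat_lit 25721902425) (nat_lit 14) (nat_lit 5) (nat_lit 15) (nat_lit 5) (nat_lit 16) (nat_lit 4) (nat_lit 416) (nat_lit 274) (nat_lit 210)) (XT.lf (nat_lit 0) (nat_lit 15101223744) (nat_lit 152) (nat_lit 21578912694) (nat_lit 0) (nat_lit 275805610) (nat_lit 14) (nat_lit 5) (nat_lit 16) (nat_lit 4) (nat_lit 14) (nat_lit 4) (nat_lit 417) (nat_lit 274) (nat_lit 209)))) (XT.nd (nat_lit 78) (nat_lit 76) (nat_lit 0) (XT.lf (nat_lit 0) (nat_lit 20053766515)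 (nat_lit 152) (nat_lit 12705293266) (nat_lit 0) (nat_lit 5154281558) (nat_lit 14) (nat_lit 5) (nat_lit 16) (nat_lit 4) (nat_lit 14) (nat_lit 4) (nat_lit 418) (nat_lit 274) (nat_lit 208)) (XT.nd (nat_lit 78) (nat_lit 76) (nat_lit 0) (XT.lf (nat_lit 0) (nat_lit 25122138695) (nat_lit 152) (nat_lit 3627566437) (nat_lit 0) (nat_lit 10150744202) (nat_lit 14) (nat_lit 5) (nat_lit 16) (nat_lit 4) (nat_lit 14) (nat_lit 4) (nat_lit 419) (nat_lit 274) (nat_lit 207)) (XT.lf (nat_lit 0) (nat_lit 5774888665) (nat_lit 76) (nat_lit 24591392057) (nat_lit 76) (nat_lit 9550182480) (nat_lit 13) (nat_lit 4) (nat_lit 14) (nat_lit 5) (nat_lit 14) (nat_lit 4) (nat_lit 420) (nat_lit 274) (nat_lit 206))))) (XT.nd (nat_lit 234) (nat_lit 76) (nat_lit 0) (XT.nd (nat_lit 78) (nat_lit 76) (nat_lit 0) (XT.lf (nat_lit 0) (nat_lit 15474077668) (nat_lit 76) (nat_lit 20298859695) (nat_lit 76) (nat_lit 5189868483) (nat_lit 13) (nat_lit 4)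 (nat_lit 14) (nat_lit 5) (nat_lit 14) (nat_lit 4) (nat_lit 421) (nat_lit 274) (nat_lit 205)) (XT.nd (nat_lit 78) (nat_lit 76) (nat_lit 0) (XT.lf (nat_lit 0) (nat_lit 25406279908) (nat_lit 76) (nat_lit 15904988598) (nat_lit 76) (nat_lit 730189974) (nat_lit 13) (nat_lit 4) (nat_lit 14) (nat_lit 5) (nat_lit 14) (nat_lit 4) (nat_lit 422) (nat_lit 274) (nat_lit 204)) (XT.lf (nat_lit 0) (nat_lit 3757959098) (nat_lit 152) (nat_lit 7610032344) (nat_lit 76) (nat_lit 31784266889) (nat_lit 12) (nat_lit 5) (nat_lit 14) (nat_lit 5) (nat_lit 13) (nat_lit 4) (nat_lit 423) (nat_lit 274) (nat_lit 203)))) (XT.nd (nat_lit 156) (nat_lit 0) (nat_lit 0) (XT.nd (nat_lit 78) (nat_lit 0) (nat_lit 0) (XT.lf (nat_lit 0) (nat_lit 1655730786) (nat_lit 76) (nat_lit 6697200198) (nat_lit 152) (nat_lit 35943632291) (nat_lit 11) (nat_lit 5) (nat_lit 12) (nat_lit 5) (nat_lit 13) (nat_lit 4) (nat_lit 424) (nat_lit 274) (nat_lit 202)) (XT.lf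 (nat_lit 0) (nat_lit 11300789207) (nat_lit 76) (nat_lit 1833068637) (nat_lit 152) (nat_lit 32339899860) (nat_lit 11) (nat_lit 5) (nat_lit 12) (nat_lit 5) (nat_lit 13) (nat_lit 4) (nat_lit 425) (nat_lit 274) (nat_lit 201))) (XT.nd (nat_lit 78) (nat_lit 0) (nat_lit 0) (XT.lf (nat_lit 0) (nat_lit 18060606124) (nat_lit 152) (nat_lit 25535289506) (nat_lit 0) (nat_lit 3090303938) (nat_lit 11) (nat_lit 5) (nat_lit 13) (nat_lit 4) (nat_lit 11) (nat_lit 4) (nat_lit 426) (nat_lit 274) (nat_lit 200)) (XT.lf (nat_lit 0) (nat_lit 23125980291) (nat_lit 152) (nat_lit 16708747570) (nat_lit 0) (nat_lit 8100565434) (nat_lit 11) (nat_lit 5) (nat_lit 13) (nat_lit 4) (nat_lit 11) (nat_lit 4) (nat_lit 427) (nat_lit 274) (nat_lit 199))))))) (XT.nd (nat_lit 1014) (nat_lit 152) (nat_lit 0) (XT.nd (nat_lit 468) (nat_lit 76) (nat_lit 0) (XT.nd (nat_lit 234) (nat_lit 76) (nat_lit 0) (XT.nd (nat_lit 78) (nat_lit 76) (nat_lit 0) (XT.lf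 (nat_lit 0) (nat_lit 28316785825) (nat_lit 152) (nat_lit 7668009600) (nat_lit 0) (nat_lit 13237863519) (nat_lit 11) (nat_lit 5) (nat_lit 13) (nat_lit 4) (nat_lit 11) (nat_lit 4) (nat_lit 428) (nat_lit 274) (nat_lit 198)) (XT.nd (nat_lit 78) (nat_lit 0) (nat_lit 0) (XT.lf (nat_lit 0) (nat_lit 1626564203) (nat_lit 76) (nat_lit 32026629706) (nat_lit 76) (nat_lit 16895758422) (nat_lit 10) (nat_lit 4) (nat_lit 11) (nat_lit 5) (nat_lit 11) (nat_lit 4) (nat_lit 429) (nat_lit 274) (nat_lit 197)) (XT.lf (nat_lit 0) (nat_lit 11308517100) (nat_lit 76) (nat_lit 27893134458) (nat_lit 76) (nat_lit 12711827272) (nat_lit 10) (nat_lit 4) (nat_lit 11) (nat_lit 5) (nat_lit 11) (nat_lit 4) (nat_lit 430) (nat_lit 274) (nat_lit 196)))) (XT.nd (nat_lit 78) (nat_lit 76) (nat_lit 0) (XT.lf (nat_lit 0) (nat_lit 21233700624) (nat_lit 76) (nat_lit 23658129750) (nat_lit 76) (nat_lit 8427855668) (nat_lit 10) (nat_lit 4) (nat_lit 11)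 (nat_lit 5) (nat_lit 11) (nat_lit 4) (nat_lit 431) (nat_lit 274) (nat_lit 195)) (XT.nd (nat_lit 78) (nat_lit 76) (nat_lit 0) (XT.lf (nat_lit 0) (nat_lit 31410787264) (nat_lit 76) (nat_lit 19317915092) (nat_lit 76) (nat_lit 4040100336) (nat_lit 10) (nat_lit 4) (nat_lit 11) (nat_lit 5) (nat_lit 11) (nat_lit 4) (nat_lit 432) (nat_lit 274) (nat_lit 194)) (XT.lf (nat_lit 0) (nat_lit 446388675) (nat_lit 152) (nat_lit 14417801738) (nat_lit 76) (nat_lit 41397773294) (nat_lit 9) (nat_lit 5) (nat_lit 11) (nat_lit 5) (nat_lit 10) (nat_lit 4) (nat_lit 433) (nat_lit 274) (nat_lit 193))))) (XT.nd (nat_lit 234) (nat_lit 0) (nat_lit 0) (XT.nd (nat_lit 78) (nat_lit 76) (nat_lit 0) (XT.lf (nat_lit 0) (nat_lit 4963409806) (nat_lit 152) (nat_lit 5293060488) (nat_lit 76) (nat_lit 47542937659) (nat_lit 9) (nat_lit 5) (nat_lit 11) (nat_lit 5) (nat_lit 10) (nat_lit 4) (nat_lit 434) (nat_lit 274) (nat_lit 192)) (XT.nd (nat_lit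 78) (nat_lit 0) (nat_lit 0) (XT.lf (nat_lit 0) (nat_lit 4143879323) (nat_lit 76) (nat_lit 5489701056) (nat_lit 152) (nat_lit 49748868521) (nat_lit 8) (nat_lit 5) (nat_lit 9) (nat_lit 5) (nat_lit 10) (nat_lit 4) (nat_lit 435) (nat_lit 274) (nat_lit 191)) (XT.lf (nat_lit 0) (nat_lit 13930439935) (nat_lit 76) (nat_lit 544913787) (nat_lit 152) (nat_lit 46536684886) (nat_lit 8) (nat_lit 5) (nat_lit 9) (nat_lit 5) (nat_lit 10) (nat_lit 4) (nat_lit 436) (nat_lit 274) (nat_lit 190)))) (XT.nd (nat_lit 156) (nat_lit 0) (nat_lit 0) (XT.nd (nat_lit 78) (nat_lit 0) (nat_lit 0) (XT.lf (nat_lit 0) (nat_lit 19484600998) (nat_lit 152) (nat_lit 38764860583) (nat_lit 0) (nat_lit 4440390196) (nat_lit 8) (nat_lit 5) (nat_lit 10) (nat_lit 4) (nat_lit 8) (nat_lit 4) (nat_lit 437) (nat_lit 274) (nat_lit 189)) (XT.lf (nat_lit 0) (nat_lit 24628647565) (nat_lit 152) (nat_lit 30244036600) (nat_lit 0) (nat_lit 9545781844) (nat_lit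 8) (nat_lit 5) (nat_lit 10) (nat_lit 4) (nat_lit 8) (nat_lit 4) (nat_lit 438) (nat_lit 274) (nat_lit 188))) (XT.nd (nat_lit 78) (nat_lit 0) (nat_lit 0) (XT.lf (nat_lit 0) (nat_lit 29906750176) (nat_lit 152) (nat_lit 21506443298) (nat_lit 0) (nat_lit 14786355407) (nat_lit 8) (nat_lit 5) (nat_lit 10) (nat_lit 4) (nat_lit 8) (nat_lit 4) (nat_lit 439) (nat_lit 274) (nat_lit 187)) (XT.lf (nat_lit 0) (nat_lit 35323520765) (nat_lit 152) (nat_lit 12544445888) (nat_lit 0) (nat_lit 20166690027) (nat_lit 8) (nat_lit 5) (nat_lit 10) (nat_lit 4) (nat_lit 8) (nat_lit 4) (nat_lit 440) (nat_lit 274) (nat_lit 186)))))) (XT.nd (nat_lit 546) (nat_lit 76) (nat_lit 0) (XT.nd (nat_lit 234) (nat_lit 0) (nat_lit 0) (XT.nd (nat_lit 78) (nat_lit 76) (nat_lit 0) (XT.lf (nat_lit 0) (nat_lit 40883692433) (nat_lit 152) (nat_lit 3350213499) (nat_lit 0) (nat_lit 25691486969) (nat_lit 8) (nat_lit 5) (nat_lit 10) (nat_lit 4) (nat_lit 8)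 (nat_lit 4) (nat_lit 441) (nat_lit 274) (nat_lit 185)) (XT.nd (nat_lit 78) (nat_lit 0) (nat_lit 0) (XT.lf (nat_lit 0) (nat_lit 6205376919) (nat_lit 76) (nat_lit 40446396542) (nat_lit 76) (nat_lit 25219846683) (nat_lit 7) (nat_lit 4) (nat_lit 8) (nat_lit 5) (nat_lit 8) (nat_lit 4) (nat_lit 442) (nat_lit 274) (nat_lit 184)) (XT.lf (nat_lit 0) (nat_lit 16081101556) (nat_lit 76) (nat_lit 36527281992) (nat_lit 76) (nat_lit 21267388060) (nat_lit 7) (nat_lit 4) (nat_lit 8) (nat_lit 5) (nat_lit 8) (nat_lit 4) (nat_lit 443) (nat_lit 274) (nat_lit 183)))) (XT.nd (nat_lit 156) (nat_lit 0) (nat_lit 0) (XT.nd (nat_lit 78) (nat_lit 0) (nat_lit 0) (XT.lf (nat_lit 0) (nat_lit 26218913867) (nat_lit 76) (nat_lit 32506968402) (nat_lit 76) (nat_lit 17214701583) (nat_lit 7) (nat_lit 4) (nat_lit 8) (nat_lit 5) (nat_lit 8) (nat_lit 4) (nat_lit 444) (nat_lit 274) (nat_lit 182)) (XT.lf (nat_lit 0) (nat_lit 36627672135) (nat_lit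 76) (nat_lit 28381942875) (nat_lit 76) (nat_lit 13058246070) (nat_lit 7) (nat_lit 4) (nat_lit 8) (nat_lit 5) (nat_lit 8) (nat_lit 4) (nat_lit 445) (nat_lit 274) (nat_lit 181))) (XT.nd (nat_lit 78) (nat_lit 0) (nat_lit 0) (XT.lf (nat_lit 0) (nat_lit 47316471391) (nat_lit 76) (nat_lit 24148601020) (nat_lit 76) (nat_lit 8794389665) (nat_lit 7) (nat_lit 4) (nat_lit 8) (nat_lit 5) (nat_lit 8) (nat_lit 4) (nat_lit 446) (nat_lit 274) (nat_lit 180)) (XT.lf (nat_lit 0) (nat_lit 58294651363) (nat_lit 76) (nat_lit 19803243801) (nat_lit 76) (nat_lit 4419406669) (nat_lit 7) (nat_lit 4) (nat_lit 8) (nat_lit 5) (nat_lit 8) (nat_lit 4) (nat_lit 447) (nat_lit 274) (nat_lit 179))))) (XT.nd (nat_lit 39312) (nat_lit 0) (nat_lit 6536) (XT.nd (nat_lit 78) (nat_lit 0) (nat_lit 0) (XT.lf (nat_lit 0) (nat_lit 69149507) (nat_lit 152) (nat_lit 15272226522) (nat_lit 76) (nat_lit 69501956854) (nat_lit 6) (nat_lit 5) (nat_lit 8) (nat_lit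 5) (nat_lit 7) (nat_lit 4) (nat_lit 448) (nat_lit 274) (nat_lit 178)) (XT.nd (nat_lit 39156) (nat_lit 0) (nat_lit 7524) (XT.lf (nat_lit 0) (nat_lit 4588020141) (nat_lit 152) (nat_lit 6126844269) (nat_lit 76) (nat_lit 76523434881) (nat_lit 6) (nat_lit 5) (nat_lit 8) (nat_lit 5) (nat_lit 7) (nat_lit 4) (nat_lit 449) (nat_lit 274) (nat_lit 177)) (XT.lf (nat_lit 0) (nat_lit 3265255723) (nat_lit 304) (nat_lit 716634265) (nat_lit 304) (nat_lit 716634265) (nat_lit 105) (nat_lit 4) (nat_lit 109) (nat_lit 5) (nat_lit 109) (nat_lit 4) (nat_lit 350) (nat_lit 275) (nat_lit 275)))) (XT.nd (nat_lit 156) (nat_lit 304) (nat_lit 0) (XT.nd (nat_lit 78) (nat_lit 304) (nat_lit 0) (XT.lf (nat_lit 0) (nat_lit 2640437064) (nat_lit 380) (nat_lit 5107882162) (nat_lit 0) (nat_lit 1779218539) (nat_lit 100) (nat_lit 5) (nat_lit 105) (nat_lit 4) (nat_lit 100) (nat_lit 4) (nat_lit 351) (nat_lit 275) (nat_lit 274)) (XT.lf (nat_lit 0)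 (nat_lit 2190221241) (nat_lit 304) (nat_lit 4584836322) (nat_lit 304) (nat_lit 2887483307) (nat_lit 96) (nat_lit 4) (nat_lit 100) (nat_lit 5) (nat_lit 100) (nat_lit 4) (nat_lit 352) (nat_lit 275) (nat_lit 273))) (XT.nd (nat_lit 78) (nat_lit 228) (nat_lit 0) (XT.lf (nat_lit 0) (nat_lit 1163644416) (nat_lit 380) (nat_lit 146935908) (nat_lit 76) (nat_lit 8492038822) (nat_lit 95) (nat_lit 5) (nat_lit 100) (nat_lit 5) (nat_lit 96) (nat_lit 4) (nat_lit 353) (nat_lit 275) (nat_lit 272)) (XT.lf (nat_lit 0) (nat_lit 5275751568) (nat_lit 304) (nat_lit 2595894497) (nat_lit 0) (nat_lit 2074517565) (nat_lit 92) (nat_lit 5) (nat_lit 96) (nat_lit 4) (nat_lit 92) (nat_lit 4) (nat_lit 354) (nat_lit 275) (nat_lit 271))))))))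
noncomputable def xc47 : XT := (XT.nd (nat_lit 2028) (nat_lit 1596) (nat_lit 0) (XT.nd (nat_lit 1014) (nat_lit 1520) (nat_lit 0) (XT.nd (nat_lit 468) (nat_lit 1064) (nat_lit 0) (XT.nd (nat_lit 234) (nat_lit 760) (nat_lit 0) (XT.nd (nat_lit 78) (nat_lit 304) (nat_lit 0) (XT.lf (nat_lit 0) (nat_lit 4921277911) (nat_lit 304) (nat_lit 4558920271) (nat_lit 304) (nat_lit 614791603) (nat_lit 88) (nat_lit 4) (nat_lit 92) (nat_lit 5) (nat_lit 92) (nat_lit 4) (nat_lit 355) (nat_lit 275) (nat_lit 270)) (XT.nd (nat_lit 78) (nat_lit 0) (nat_lit 0) (XT.lf (nat_lit 0) (nat_lit 2337112476) (nat_lit 228) (nat_lit 1112393976) (nat_lit 304) (nat_lit 6799093206) (nat_lit 84) (nat_lit 5) (nat_lit 87) (nat_lit 5) (nat_lit 88) (nat_lit 4) (nat_lit 356) (nat_lit 275) (nat_lit 269)) (XT.lf (nat_lit 0) (nat_lit 7607988942) (nat_lit 304) (nat_lit 400514267) (nat_lit 0) (nat_lit 2398634480) (nat_lit 84) (nat_lit 5) (nat_lit 88) (nat_lit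 4) (nat_lit 84) (nat_lit 4) (nat_lit 357) (nat_lit 275) (nat_lit 268)))) (XT.nd (nat_lit 78) (nat_lit 456) (nat_lit 0) (XT.lf (nat_lit 0) (nat_lit 1287444249) (nat_lit 304) (nat_lit 3255894923) (nat_lit 76) (nat_lit 6026977584) (nat_lit 80) (nat_lit 5) (nat_lit 84) (nat_lit 5) (nat_lit 81) (nat_lit 4) (nat_lit 358) (nat_lit 275) (nat_lit 267)) (XT.nd (nat_lit 78) (nat_lit 228) (nat_lit 0) (XT.lf (nat_lit 0) (nat_lit 4449048796) (nat_lit 228) (nat_lit 949612784) (nat_lit 304) (nat_lit 5340186958) (nat_lit 77) (nat_lit 5) (nat_lit 80) (nat_lit 5) (nat_lit 81) (nat_lit 4) (nat_lit 359) (nat_lit 275) (nat_lit 266)) (XT.lf (nat_lit 0) (nat_lit 1399426961) (nat_lit 228) (nat_lit 8219072088) (nat_lit 228) (nat_lit 1294415001) (nat_lit 74) (nat_lit 4) (nat_lit 77) (nat_lit 5) (nat_lit 77) (nat_lit 4) (nat_lit 360) (nat_lit 275) (nat_lit 265))))) (XT.nd (nat_lit 234) (nat_lit 532) (nat_lit 0) (XT.nd (nat_lit 78)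 (nat_lit 456) (nat_lit 0) (XT.lf (nat_lit 0) (nat_lit 2802711730) (nat_lit 304) (nat_lit 1821600182) (nat_lit 76) (nat_lit 6467514215) (nat_lit 73) (nat_lit 5) (nat_lit 77) (nat_lit 5) (nat_lit 74) (nat_lit 4) (nat_lit 361) (nat_lit 275) (nat_lit 264)) (XT.nd (nat_lit 78) (nat_lit 228) (nat_lit 0) (XT.lf (nat_lit 0) (nat_lit 6068862529) (nat_lit 228) (nat_lit 901252951) (nat_lit 304) (nat_lit 4306437421) (nat_lit 70) (nat_lit 5) (nat_lit 73) (nat_lit 5) (nat_lit 74) (nat_lit 4) (nat_lit 362) (nat_lit 275) (nat_lit 263)) (XT.lf (nat_lit 0) (nat_lit 2652000545) (nat_lit 228) (nat_lit 8598507712) (nat_lit 228) (nat_lit 216706453) (nat_lit 67) (nat_lit 4) (nat_lit 70) (nat_lit 5) (nat_lit 70) (nat_lit 4) (nat_lit 363) (nat_lit 275) (nat_lit 262)))) (XT.nd (nat_lit 156) (nat_lit 304) (nat_lit 0) (XT.nd (nat_lit 78) (nat_lit 152) (nat_lit 0) (XT.lf (nat_lit 0) (nat_lit 3895759203) (nat_lit 304) (nat_lit 994461446)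 (nat_lit 76) (nat_lit 6772913426) (nat_lit 66) (nat_lit 5) (nat_lit 70) (nat_lit 5) (nat_lit 67) (nat_lit 4) (nat_lit 364) (nat_lit 275) (nat_lit 261)) (XT.lf (nat_lit 0) (nat_lit 7061788394) (nat_lit 152) (nat_lit 1051766355) (nat_lit 228) (nat_lit 3751752061) (nat_lit 64) (nat_lit 5) (nat_lit 66) (nat_lit 5) (nat_lit 67) (nat_lit 4) (nat_lit 365) (nat_lit 275) (nat_lit 260))) (XT.nd (nat_lit 78) (nat_lit 0) (nat_lit 0) (XT.lf (nat_lit 0) (nat_lit 364558567) (nat_lit 304) (nat_lit 8871469057) (nat_lit 76) (nat_lit 2837802507) (nat_lit 60) (nat_lit 5) (nat_lit 64) (nat_lit 5) (nat_lit 61) (nat_lit 4) (nat_lit 366) (nat_lit 275) (nat_lit 259)) (XT.lf (nat_lit 0) (nat_lit 4507616455) (nat_lit 304) (nat_lit 924008939) (nat_lit 76) (nat_lit 6856536442) (nat_lit 60) (nat_lit 5) (nat_lit 64) (nat_lit 5) (nat_lit 61) (nat_lit 4) (nat_lit 367) (nat_lit 275) (nat_lit 258)))))) (XT.nd (nat_lit 468) (nat_lit 760)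 (nat_lit 0) (XT.nd (nat_lit 234) (nat_lit 380) (nat_lit 0) (XT.nd (nat_lit 78) (nat_lit 228) (nat_lit 0) (XT.lf (nat_lit 0) (nat_lit 7272031428) (nat_lit 152) (nat_lit 1494453922) (nat_lit 228) (nat_lit 3742718776) (nat_lit 58) (nat_lit 5) (nat_lit 60) (nat_lit 5) (nat_lit 61) (nat_lit 4) (nat_lit 368) (nat_lit 275) (nat_lit 257)) (XT.nd (nat_lit 78) (nat_lit 0) (nat_lit 0) (XT.lf (nat_lit 0) (nat_lit 391947192) (nat_lit 228) (nat_lit 9845421135) (nat_lit 76) (nat_lit 2499899222) (nat_lit 55) (nat_lit 5) (nat_lit 58) (nat_lit 5) (nat_lit 56) (nat_lit 4) (nat_lit 369) (nat_lit 275) (nat_lit 256)) (XT.lf (nat_lit 0) (nat_lit 4565991740) (nat_lit 228) (nat_lit 1783433466) (nat_lit 76) (nat_lit 6621943052) (nat_lit 55) (nat_lit 5) (nat_lit 58) (nat_lit 5) (nat_lit 56) (nat_lit 4) (nat_lit 370) (nat_lit 275) (nat_lit 255)))) (XT.nd (nat_lit 78) (nat_lit 228) (nat_lit 0) (XT.lf (nat_lit 0) (nat_lit 6518919147)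 (nat_lit 152) (nat_lit 2333621904) (nat_lit 228) (nat_lit 4360355723) (nat_lit 53) (nat_lit 5) (nat_lit 55) (nat_lit 5) (nat_lit 56) (nat_lit 4) (nat_lit 371) (nat_lit 275) (nat_lit 254)) (XT.nd (nat_lit 78) (nat_lit 76) (nat_lit 0) (XT.lf (nat_lit 0) (nat_lit 1528912523) (nat_lit 152) (nat_lit 11714067216) (nat_lit 152) (nat_lit 219455232) (nat_lit 51) (nat_lit 4) (nat_lit 53) (nat_lit 5) (nat_lit 53) (nat_lit 4) (nat_lit 372) (nat_lit 275) (nat_lit 253)) (XT.lf (nat_lit 0) (nat_lit 3983376072) (nat_lit 228) (nat_lit 3773813504) (nat_lit 76) (nat_lit 5960624883) (nat_lit 50) (nat_lit 5) (nat_lit 53) (nat_lit 5) (nat_lit 51) (nat_lit 4) (nat_lit 373) (nat_lit 275) (nat_lit 252))))) (XT.nd (nat_lit 234) (nat_lit 380) (nat_lit 0) (XT.nd (nat_lit 78) (nat_lit 228) (nat_lit 0) (XT.lf (nat_lit 0) (nat_lit 4592471765) (nat_lit 152) (nat_lit 3687010661) (nat_lit 228) (nat_lit 5702180386) (nat_lit 48) (nat_lit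 5) (nat_lit 50) (nat_lit 5) (nat_lit 51) (nat_lit 4) (nat_lit 374) (nat_lit 275) (nat_lit 251)) (XT.nd (nat_lit 78) (nat_lit 228) (nat_lit 0) (XT.lf (nat_lit 0) (nat_lit 12675679058) (nat_lit 228) (nat_lit 1096499852) (nat_lit 0) (nat_lit 482131582) (nat_lit 48) (nat_lit 5) (nat_lit 51) (nat_lit 4) (nat_lit 48) (nat_lit 4) (nat_lit 375) (nat_lit 275) (nat_lit 250)) (XT.lf (nat_lit 0) (nat_lit 2654808301) (nat_lit 228) (nat_lit 7128988611) (nat_lit 76) (nat_lit 4749442290) (nat_lit 45) (nat_lit 5) (nat_lit 48) (nat_lit 5) (nat_lit 46) (nat_lit 4) (nat_lit 376) (nat_lit 275) (nat_lit 249)))) (XT.nd (nat_lit 156) (nat_lit 228) (nat_lit 0) (XT.nd (nat_lit 78) (nat_lit 0) (nat_lit 0) (XT.lf (nat_lit 0) (nat_lit 1248292717) (nat_lit 152) (nat_lit 5688548085) (nat_lit 228) (nat_lit 7884644901) (nat_lit 43) (nat_lit 5) (nat_lit 45) (nat_lit 5) (nat_lit 46) (nat_lit 4) (nat_lit 377) (nat_lit 275) (nat_lit 248))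 (XT.lf (nat_lit 0) (nat_lit 9901608504) (nat_lit 152) (nat_lit 1448719270) (nat_lit 228) (nat_lit 3767979869) (nat_lit 43) (nat_lit 5) (nat_lit 45) (nat_lit 5) (nat_lit 46) (nat_lit 4) (nat_lit 378) (nat_lit 275) (nat_lit 247))) (XT.nd (nat_lit 78) (nat_lit 0) (nat_lit 0) (XT.lf (nat_lit 0) (nat_lit 455250340) (nat_lit 228) (nat_lit 12121186658) (nat_lit 76) (nat_lit 2847709523) (nat_lit 40) (nat_lit 5) (nat_lit 43) (nat_lit 5) (nat_lit 41) (nat_lit 4) (nat_lit 379) (nat_lit 275) (nat_lit 246)) (XT.lf (nat_lit 0) (nat_lit 4729665760) (nat_lit 228) (nat_lit 3724214142) (nat_lit 76) (nat_lit 7284171167) (nat_lit 40) (nat_lit 5) (nat_lit 43) (nat_lit 5) (nat_lit 41) (nat_lit 4) (nat_lit 380) (nat_lit 275) (nat_lit 245))))))) (XT.nd (nat_lit 1014) (nat_lit 608) (nat_lit 0) (XT.nd (nat_lit 468) (nat_lit 608) (nat_lit 0) (XT.nd (nat_lit 234) (nat_lit 76) (nat_lit 0) (XT.nd (nat_lit 78) (nat_lit 228) (nat_lit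 0) (XT.lf (nat_lit 0) (nat_lit 4904242985) (nat_lit 76) (nat_lit 4209851312) (nat_lit 152) (nat_lit 6947840896) (nat_lit 39) (nat_lit 5) (nat_lit 40) (nat_lit 5) (nat_lit 41) (nat_lit 4) (nat_lit 381) (nat_lit 275) (nat_lit 244)) (XT.nd (nat_lit 78) (nat_lit 228) (nat_lit 0) (XT.lf (nat_lit 0) (nat_lit 13604539537) (nat_lit 152) (nat_lit 2644888978) (nat_lit 0) (nat_lit 146888207) (nat_lit 39) (nat_lit 5) (nat_lit 41) (nat_lit 4) (nat_lit 39) (nat_lit 4) (nat_lit 382) (nat_lit 275) (nat_lit 243)) (XT.lf (nat_lit 0) (nat_lit 1497308775) (nat_lit 228) (nat_lit 10666971551) (nat_lit 76) (nat_lit 4574912634) (nat_lit 36) (nat_lit 5) (nat_lit 39) (nat_lit 5) (nat_lit 37) (nat_lit 4) (nat_lit 383) (nat_lit 275) (nat_lit 242)))) (XT.nd (nat_lit 78) (nat_lit 76) (nat_lit 0) (XT.lf (nat_lit 0) (nat_lit 5822905723) (nat_lit 228) (nat_lit 2127618520) (nat_lit 76) (nat_lit 9142097580) (nat_lit 36) (nat_lit 5) (nat_lit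 39) (nat_lit 5) (nat_lit 37) (nat_lit 4) (nat_lit 384) (nat_lit 275) (nat_lit 241)) (XT.nd (nat_lit 78) (nat_lit 0) (nat_lit 0) (XT.lf (nat_lit 0) (nat_lit 6688508471) (nat_lit 76) (nat_lit 3592869477) (nat_lit 152) (nat_lit 7175196065) (nat_lit 35) (nat_lit 5) (nat_lit 36) (nat_lit 5) (nat_lit 37) (nat_lit 4) (nat_lit 385) (nat_lit 275) (nat_lit 240)) (XT.lf (nat_lit 0) (nat_lit 14842994048) (nat_lit 152) (nat_lit 2137095258) (nat_lit 0) (nat_lit 852287052) (nat_lit 35) (nat_lit 5) (nat_lit 37) (nat_lit 4) (nat_lit 35) (nat_lit 4) (nat_lit 386) (nat_lit 275) (nat_lit 239))))) (XT.nd (nat_lit 234) (nat_lit 304) (nat_lit 0) (XT.nd (nat_lit 78) (nat_lit 76) (nat_lit 0) (XT.lf (nat_lit 0) (nat_lit 1337841813) (nat_lit 228) (nat_lit 11489554380) (nat_lit 76) (nat_lit 5390438869) (nat_lit 32) (nat_lit 5) (nat_lit 35) (nat_lit 5) (nat_lit 33) (nat_lit 4) (nat_lit 387) (nat_lit 275) (nat_lit 238)) (XT.nd (nat_lit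 78) (nat_lit 76) (nat_lit 0) (XT.lf (nat_lit 0) (nat_lit 5697564672) (nat_lit 228) (nat_lit 2847730827) (nat_lit 76) (nat_lit 10069803280) (nat_lit 32) (nat_lit 5) (nat_lit 35) (nat_lit 5) (nat_lit 33) (nat_lit 4) (nat_lit 388) (nat_lit 275) (nat_lit 237)) (XT.lf (nat_lit 0) (nat_lit 6067735803) (nat_lit 76) (nat_lit 4121360975) (nat_lit 152) (nat_lit 8835164903) (nat_lit 31) (nat_lit 5) (nat_lit 32) (nat_lit 5) (nat_lit 33) (nat_lit 4) (nat_lit 389) (nat_lit 275) (nat_lit 236)))) (XT.nd (nat_lit 156) (nat_lit 152) (nat_lit 0) (XT.nd (nat_lit 78) (nat_lit 152) (nat_lit 0) (XT.lf (nat_lit 0) (nat_lit 14791524581) (nat_lit 152) (nat_lit 4244523583) (nat_lit 0) (nat_lit 410378271) (nat_lit 31) (nat_lit 5) (nat_lit 33) (nat_lit 4) (nat_lit 31) (nat_lit 4) (nat_lit 390) (nat_lit 275) (nat_lit 235)) (XT.lf (nat_lit 0) (nat_lit 4678096513) (nat_lit 152) (nat_lit 14884289615) (nat_lit 152) (nat_lit 317970298)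 (nat_lit 29) (nat_lit 4) (nat_lit 31) (nat_lit 5) (nat_lit 31) (nat_lit 4) (nat_lit 391) (nat_lit 275) (nat_lit 234))) (XT.nd (nat_lit 78) (nat_lit 76) (nat_lit 0) (XT.lf (nat_lit 0) (nat_lit 4056075991) (nat_lit 228) (nat_lit 6512264671) (nat_lit 76) (nat_lit 9758138537) (nat_lit 28) (nat_lit 5) (nat_lit 31) (nat_lit 5) (nat_lit 29) (nat_lit 4) (nat_lit 392) (nat_lit 275) (nat_lit 233)) (XT.lf (nat_lit 0) (nat_lit 2383400433) (nat_lit 76) (nat_lit 6140758525) (nat_lit 152) (nat_lit 12262666244) (nat_lit 27) (nat_lit 5) (nat_lit 28) (nat_lit 5) (nat_lit 29) (nat_lit 4) (nat_lit 393) (nat_lit 275) (nat_lit 232)))))) (XT.nd (nat_lit 546) (nat_lit 304) (nat_lit 0) (XT.nd (nat_lit 234) (nat_lit 76) (nat_lit 0) (XT.nd (nat_lit 78) (nat_lit 228) (nat_lit 0) (XT.lf (nat_lit 0) (nat_lit 11582004643) (nat_lit 76) (nat_lit 1556964040) (nat_lit 152) (nat_lit 8121642257) (nat_lit 27) (nat_lit 5) (nat_lit 28) (nat_lit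 5) (nat_lit 29) (nat_lit 4) (nat_lit 394) (nat_lit 275) (nat_lit 231)) (XT.nd (nat_lit 78) (nat_lit 228) (nat_lit 0) (XT.lf (nat_lit 0) (nat_lit 17870695513) (nat_lit 152) (nat_lit 818190755) (nat_lit 0) (nat_lit 3060379393) (nat_lit 27) (nat_lit 5) (nat_lit 29) (nat_lit 4) (nat_lit 27) (nat_lit 4) (nat_lit 395) (nat_lit 275) (nat_lit 230)) (XT.lf (nat_lit 0) (nat_lit 528010209) (nat_lit 228) (nat_lit 13893534872) (nat_lit 76) (nat_lit 7829527781) (nat_lit 24) (nat_lit 5) (nat_lit 27) (nat_lit 5) (nat_lit 25) (nat_lit 4) (nat_lit 396) (nat_lit 275) (nat_lit 229)))) (XT.nd (nat_lit 156) (nat_lit 0) (nat_lit 0) (XT.nd (nat_lit 78) (nat_lit 76) (nat_lit 0) (XT.lf (nat_lit 0) (nat_lit 4946826466) (nat_lit 228) (nat_lit 5073900470) (nat_lit 76) (nat_lit 12747324256) (nat_lit 24) (nat_lit 5) (nat_lit 27) (nat_lit 5) (nat_lit 25) (nat_lit 4) (nat_lit 397) (nat_lit 275) (nat_lit 228)) (XT.lf (nat_lit 0) (nat_lit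 3998007148) (nat_lit 76) (nat_lit 5489747840) (nat_lit 152) (nat_lit 13813105975) (nat_lit 23) (nat_lit 5) (nat_lit 24) (nat_lit 5) (nat_lit 25) (nat_lit 4) (nat_lit 398) (nat_lit 275) (nat_lit 227))) (XT.nd (nat_lit 78) (nat_lit 0) (nat_lit 0) (XT.lf (nat_lit 0) (nat_lit 13356636248) (nat_lit 76) (nat_lit 811192036) (nat_lit 152) (nat_lit 9681747513) (nat_lit 23) (nat_lit 5) (nat_lit 24) (nat_lit 5) (nat_lit 25) (nat_lit 4) (nat_lit 399) (nat_lit 275) (nat_lit 226)) (XT.lf (nat_lit 0) (nat_lit 18979532461) (nat_lit 152) (nat_lit 1545124619) (nat_lit 0) (nat_lit 3890366172) (nat_lit 23) (nat_lit 5) (nat_lit 25) (nat_lit 4) (nat_lit 23) (nat_lit 4) (nat_lit 400) (nat_lit 275) (nat_lit 225))))) (XT.nd (nat_lit 234) (nat_lit 76) (nat_lit 0) (XT.nd (nat_lit 78) (nat_lit 152) (nat_lit 0) (XT.lf (nat_lit 0) (nat_lit 7728593124) (nat_lit 76) (nat_lit 16243399781) (nat_lit 76) (nat_lit 1024356871) (nat_lit 22)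 (nat_lit 4) (nat_lit 23) (nat_lit 5) (nat_lit 23) (nat_lit 4) (nat_lit 401) (nat_lit 275) (nat_lit 224)) (XT.nd (nat_lit 78) (nat_lit 76) (nat_lit 0) (XT.lf (nat_lit 0) (nat_lit 3420347847) (nat_lit 152) (nat_lit 8401830586) (nat_lit 76) (nat_lit 13772832963) (nat_lit 21) (nat_lit 5) (nat_lit 23) (nat_lit 5) (nat_lit 22) (nat_lit 4) (nat_lit 402) (nat_lit 275) (nat_lit 223)) (XT.lf (nat_lit 0) (nat_lit 649700196) (nat_lit 76) (nat_lit 7289835805) (nat_lit 152) (nat_lit 18272947812) (nat_lit 20) (nat_lit 5) (nat_lit 21) (nat_lit 5) (nat_lit 22) (nat_lit 4) (nat_lit 403) (nat_lit 275) (nat_lit 222)))) (XT.nd (nat_lit 156) (nat_lit 76) (nat_lit 0) (XT.nd (nat_lit 78) (nat_lit 0) (nat_lit 0) (XT.lf (nat_lit 0) (nat_lit 10062910115) (nat_lit 76) (nat_lit 2572224619) (nat_lit 152) (nat_lit 14212127555) (nat_lit 20) (nat_lit 5) (nat_lit 21) (nat_lit 5) (nat_lit 22) (nat_lit 4) (nat_lit 404) (nat_lit 275) (nat_lit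 221)) (XT.lf (nat_lit 0) (nat_lit 17450503858) (nat_lit 152) (nat_lit 7845188961) (nat_lit 0) (nat_lit 2206030954) (nat_lit 20) (nat_lit 5) (nat_lit 22) (nat_lit 4) (nat_lit 20) (nat_lit 4) (nat_lit 405) (nat_lit 275) (nat_lit 220))) (XT.nd (nat_lit 78) (nat_lit 0) (nat_lit 0) (XT.lf (nat_lit 0) (nat_lit 1283436781) (nat_lit 76) (nat_lit 21122876012) (nat_lit 76) (nat_lit 5769633482) (nat_lit 19) (nat_lit 4) (nat_lit 20) (nat_lit 5) (nat_lit 20) (nat_lit 4) (nat_lit 406) (nat_lit 275) (nat_lit 219)) (XT.lf (nat_lit 0) (nat_lit 10769218249) (nat_lit 76) (nat_lit 16779445806) (nat_lit 76) (nat_lit 1320601697) (nat_lit 19) (nat_lit 4) (nat_lit 20) (nat_lit 5) (nat_lit 20) (nat_lit 4) (nat_lit 407) (nat_lit 275) (nat_lit 218))))))))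
noncomputable def xc48 : XT := (XT.nd (nat_lit 2028) (nat_lit 304) (nat_lit 0) (XT.nd (nat_lit 1014) (nat_lit 304) (nat_lit 0) (XT.nd (nat_lit 468) (nat_lit 152) (nat_lit 0) (XT.nd (nat_lit 234) (nat_lit 76) (nat_lit 0) (XT.nd (nat_lit 78) (nat_lit 76) (nat_lit 0) (XT.lf (nat_lit 0) (nat_lit 3157697542) (nat_lit 152) (nat_lit 9151243901) (nat_lit 76) (nat_lit 17274725251) (nat_lit 18) (nat_lit 5) (nat_lit 20) (nat_lit 5) (nat_lit 19) (nat_lit 4) (nat_lit 408) (nat_lit 275) (nat_lit 217)) (XT.nd (nat_lit 78) (nat_lit 76) (nat_lit 0) (XT.lf (nat_lit 0) (nat_lit 7704432041) (nat_lit 152) (nat_lit 20912484) (nat_lit 76) (nat_lit 22594949814) (nat_lit 18) (nat_lit 5) (nat_lit 20) (nat_lit 5) (nat_lit 19) (nat_lit 4) (nat_lit 409) (nat_lit 275) (nat_lit 216)) (XT.lf (nat_lit 0) (nat_lit 9496938618) (nat_lit 76) (nat_lit 2943696135) (nat_lit 152) (nat_lit 18636799711) (nat_lit 17) (nat_lit 5) (nat_lit 18) (nat_lit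 5) (nat_lit 19) (nat_lit 4) (nat_lit 410) (nat_lit 275) (nat_lit 215)))) (XT.nd (nat_lit 78) (nat_lit 76) (nat_lit 0) (XT.lf (nat_lit 0) (nat_lit 17300070553) (nat_lit 152) (nat_lit 12647403764) (nat_lit 0) (nat_lit 1910385538) (nat_lit 17) (nat_lit 5) (nat_lit 19) (nat_lit 4) (nat_lit 17) (nat_lit 4) (nat_lit 411) (nat_lit 275) (nat_lit 214)) (XT.nd (nat_lit 78) (nat_lit 76) (nat_lit 0) (XT.lf (nat_lit 0) (nat_lit 22297432307) (nat_lit 152) (nat_lit 3545199093) (nat_lit 0) (nat_lit 6819307632) (nat_lit 17) (nat_lit 5) (nat_lit 19) (nat_lit 4) (nat_lit 17) (nat_lit 4) (nat_lit 412) (nat_lit 275) (nat_lit 213)) (XT.lf (nat_lit 0) (nat_lit 5877050579) (nat_lit 76) (nat_lit 21588233259) (nat_lit 76) (nat_lit 6024244838) (nat_lit 16) (nat_lit 4) (nat_lit 17) (nat_lit 5) (nat_lit 17) (nat_lit 4) (nat_lit 413) (nat_lit 275) (nat_lit 212))))) (XT.nd (nat_lit 234) (nat_lit 76) (nat_lit 0) (XT.nd (nat_lit 78) (nat_lit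 76) (nat_lit 0) (XT.lf (nat_lit 0) (nat_lit 15587601047) (nat_lit 76) (nat_lit 17200846477) (nat_lit 76) (nat_lit 1553495194) (nat_lit 16) (nat_lit 4) (nat_lit 17) (nat_lit 5) (nat_lit 17) (nat_lit 4) (nat_lit 414) (nat_lit 275) (nat_lit 211)) (XT.nd (nat_lit 78) (nat_lit 0) (nat_lit 0) (XT.lf (nat_lit 0) (nat_lit 2956999045) (nat_lit 152) (nat_lit 9725578036) (nat_lit 76) (nat_lit 22537521906) (nat_lit 15) (nat_lit 5) (nat_lit 17) (nat_lit 5) (nat_lit 16) (nat_lit 4) (nat_lit 415) (nat_lit 275) (nat_lit 210)) (XT.lf (nat_lit 0) (nat_lit 7537764457) (nat_lit 152) (nat_lit 505201741) (nat_lit 76) (nat_lit 28082191492) (nat_lit 15) (nat_lit 5) (nat_lit 17) (nat_lit 5) (nat_lit 16) (nat_lit 4) (nat_lit 416) (nat_lit 275) (nat_lit 209)))) (XT.nd (nat_lit 156) (nat_lit 0) (nat_lit 0) (XT.nd (nat_lit 78) (nat_lit 0) (nat_lit 0) (XT.lf (nat_lit 0) (nat_lit 9107497071) (nat_lit 76) (nat_lit 3203167701) (nat_lit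 152) (nat_lit 24745066473) (nat_lit 14) (nat_lit 5) (nat_lit 15) (nat_lit 5) (nat_lit 16) (nat_lit 4) (nat_lit 417) (nat_lit 275) (nat_lit 208)) (XT.lf (nat_lit 0) (nat_lit 17216285271) (nat_lit 152) (nat_lit 19074415654) (nat_lit 0) (nat_lit 1723839407) (nat_lit 14) (nat_lit 5) (nat_lit 16) (nat_lit 4) (nat_lit 14) (nat_lit 4) (nat_lit 418) (nat_lit 275) (nat_lit 207))) (XT.nd (nat_lit 78) (nat_lit 0) (nat_lit 0) (XT.lf (nat_lit 0) (nat_lit 22268995835) (nat_lit 152) (nat_lit 10026389519) (nat_lit 0) (nat_lit 6706734887) (nat_lit 14) (nat_lit 5) (nat_lit 16) (nat_lit 4) (nat_lit 14) (nat_lit 4) (nat_lit 419) (nat_lit 275) (nat_lit 206)) (XT.lf (nat_lit 0) (nat_lit 27442420647) (nat_lit 152) (nat_lit 765458921) (nat_lit 0) (nat_lit 11812378064) (nat_lit 14) (nat_lit 5) (nat_lit 16) (nat_lit 4) (nat_lit 14) (nat_lit 4) (nat_lit 420) (nat_lit 275) (nat_lit 205)))))) (XT.nd (nat_lit 468) (nat_lit 76) (nat_lit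 0) (XT.nd (nat_lit 234) (nat_lit 76) (nat_lit 0) (XT.nd (nat_lit 78) (nat_lit 76) (nat_lit 0) (XT.lf (nat_lit 0) (nat_lit 8889943025) (nat_lit 76) (nat_lit 23936592720) (nat_lit 76) (nat_lit 8240742725) (nat_lit 13) (nat_lit 4) (nat_lit 14) (nat_lit 5) (nat_lit 14) (nat_lit 4) (nat_lit 421) (nat_lit 275) (nat_lit 204)) (XT.nd (nat_lit 78) (nat_lit 76) (nat_lit 0) (XT.lf (nat_lit 0) (nat_lit 18794423979) (nat_lit 76) (nat_lit 19555843837) (nat_lit 76) (nat_lit 3796103150) (nat_lit 13) (nat_lit 4) (nat_lit 14) (nat_lit 5) (nat_lit 14) (nat_lit 4) (nat_lit 422) (nat_lit 275) (nat_lit 203)) (XT.lf (nat_lit 0) (nat_lit 737556941) (nat_lit 152) (nat_lit 14324529893) (nat_lit 76) (nat_lit 28196399389) (nat_lit 12) (nat_lit 5) (nat_lit 14) (nat_lit 5) (nat_lit 13) (nat_lit 4) (nat_lit 423) (nat_lit 275) (nat_lit 202)))) (XT.nd (nat_lit 78) (nat_lit 76) (nat_lit 0) (XT.lf (nat_lit 0) (nat_lit 5302713909) (nat_lit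 152) (nat_lit 5117484351) (nat_lit 76) (nat_lit 33983489083) (nat_lit 12) (nat_lit 5) (nat_lit 14) (nat_lit 5) (nat_lit 13) (nat_lit 4) (nat_lit 424) (nat_lit 275) (nat_lit 201)) (XT.nd (nat_lit 78) (nat_lit 0) (nat_lit 0) (XT.lf (nat_lit 0) (nat_lit 4399576684) (nat_lit 76) (nat_lit 5620147112) (nat_lit 152) (nat_lit 35563077167) (nat_lit 11) (nat_lit 5) (nat_lit 12) (nat_lit 5) (nat_lit 13) (nat_lit 4) (nat_lit 425) (nat_lit 275) (nat_lit 200)) (XT.lf (nat_lit 0) (nat_lit 14255515770) (nat_lit 76) (nat_lit 647314004) (nat_lit 152) (nat_lit 31893723951) (nat_lit 11) (nat_lit 5) (nat_lit 12) (nat_lit 5) (nat_lit 13) (nat_lit 4) (nat_lit 426) (nat_lit 275) (nat_lit 199))))) (XT.nd (nat_lit 234) (nat_lit 76) (nat_lit 0) (XT.nd (nat_lit 78) (nat_lit 0) (nat_lit 0) (XT.lf (nat_lit 0) (nat_lit 19948912668) (nat_lit 152) (nat_lit 23733199860) (nat_lit 0) (nat_lit 4364115245) (nat_lit 11) (nat_lit 5) (nat_lit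 13) (nat_lit 4) (nat_lit 11) (nat_lit 4) (nat_lit 427) (nat_lit 275) (nat_lit 198)) (XT.nd (nat_lit 78) (nat_lit 0) (nat_lit 0) (XT.lf (nat_lit 0) (nat_lit 25127029953) (nat_lit 152) (nat_lit 14716662103) (nat_lit 0) (nat_lit 9490283551) (nat_lit 11) (nat_lit 5) (nat_lit 13) (nat_lit 4) (nat_lit 11) (nat_lit 4) (nat_lit 428) (nat_lit 275) (nat_lit 197)) (XT.lf (nat_lit 0) (nat_lit 30435483820) (nat_lit 152) (nat_lit 5477323777) (nat_lit 0) (nat_lit 14748301516) (nat_lit 11) (nat_lit 5) (nat_lit 13) (nat_lit 4) (nat_lit 11) (nat_lit 4) (nat_lit 429) (nat_lit 275) (nat_lit 196)))) (XT.nd (nat_lit 156) (nat_lit 0) (nat_lit 0) (XT.nd (nat_lit 78) (nat_lit 0) (nat_lit 0) (XT.lf (nat_lit 0) (nat_lit 4072354631) (nat_lit 76) (nat_lit 31845704056) (nat_lit 76) (nat_lit 16109554857) (nat_lit 10) (nat_lit 4) (nat_lit 11) (nat_lit 5) (nat_lit 11) (nat_lit 4) (nat_lit 430) (nat_lit 275) (nat_lit 195)) (XT.lf (nat_lit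 0) (nat_lit 13974950771) (nat_lit 76) (nat_lit 27621458063) (nat_lit 76) (nat_lit 11837768190) (nat_lit 10) (nat_lit 4) (nat_lit 11) (nat_lit 5) (nat_lit 11) (nat_lit 4) (nat_lit 431) (nat_lit 275) (nat_lit 194))) (XT.nd (nat_lit 78) (nat_lit 0) (nat_lit 0) (XT.lf (nat_lit 0) (nat_lit 24130107912) (nat_lit 76) (nat_lit 23291688760) (nat_lit 76) (nat_lit 7461842892) (nat_lit 10) (nat_lit 4) (nat_lit 11) (nat_lit 5) (nat_lit 11) (nat_lit 4) (nat_lit 432) (nat_lit 275) (nat_lit 193)) (XT.lf (nat_lit 0) (nat_lit 34546699493) (nat_lit 76) (nat_lit 18852612854) (nat_lit 76) (nat_lit 2977955340) (nat_lit 10) (nat_lit 4) (nat_lit 11) (nat_lit 5) (nat_lit 11) (nat_lit 4) (nat_lit 433) (nat_lit 275) (nat_lit 192))))))) (XT.nd (nat_lit 1014) (nat_lit 76) (nat_lit 0) (XT.nd (nat_lit 468) (nat_lit 76) (nat_lit 0) (XT.nd (nat_lit 234) (nat_lit 0) (nat_lit 0) (XT.nd (nat_lit 78) (nat_lit 76) (nat_lit 0) (XT.lf (nat_lit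 0) (nat_lit 1586243078) (nat_lit 152) (nat_lit 12698090516) (nat_lit 76) (nat_lit 43631566366) (nat_lit 9) (nat_lit 5) (nat_lit 11) (nat_lit 5) (nat_lit 10) (nat_lit 4) (nat_lit 434) (nat_lit 275) (nat_lit 191)) (XT.nd (nat_lit 78) (nat_lit 76) (nat_lit 0) (XT.lf (nat_lit 0) (nat_lit 6205965248) (nat_lit 152) (nat_lit 3362293784) (nat_lit 76) (nat_lit 49932196540) (nat_lit 9) (nat_lit 5) (nat_lit 11) (nat_lit 5) (nat_lit 10) (nat_lit 4) (nat_lit 435) (nat_lit 275) (nat_lit 190)) (XT.lf (nat_lit 0) (nat_lit 6337268353) (nat_lit 76) (nat_lit 4667007802) (nat_lit 152) (nat_lit 50127074177) (nat_lit 8) (nat_lit 5) (nat_lit 9) (nat_lit 5) (nat_lit 10) (nat_lit 4) (nat_lit 436) (nat_lit 275) (nat_lit 189)))) (XT.nd (nat_lit 78) (nat_lit 0) (nat_lit 0) (XT.lf (nat_lit 0) (nat_lit 15963616922) (nat_lit 152) (nat_lit 46457434609) (nat_lit 0) (nat_lit 389610310) (nat_lit 8) (nat_lit 5) (nat_lit 10) (nat_lit 4) (nat_lit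 8) (nat_lit 4) (nat_lit 437) (nat_lit 275) (nat_lit 188)) (XT.nd (nat_lit 78) (nat_lit 0) (nat_lit 0) (XT.lf (nat_lit 0) (nat_lit 21097680556) (nat_lit 152) (nat_lit 37955751217) (nat_lit 0) (nat_lit 5486144896) (nat_lit 8) (nat_lit 5) (nat_lit 10) (nat_lit 4) (nat_lit 8) (nat_lit 4) (nat_lit 438) (nat_lit 275) (nat_lit 187)) (XT.lf (nat_lit 0) (nat_lit 26366090999) (nat_lit 152) (nat_lit 29236741015) (nat_lit 0) (nat_lit 10718119371) (nat_lit 8) (nat_lit 5) (nat_lit 10) (nat_lit 4) (nat_lit 8) (nat_lit 4) (nat_lit 439) (nat_lit 275) (nat_lit 186))))) (XT.nd (nat_lit 234) (nat_lit 76) (nat_lit 0) (XT.nd (nat_lit 78) (nat_lit 0) (nat_lit 0) (XT.lf (nat_lit 0) (nat_lit 31773451717) (nat_lit 152) (nat_lit 20292785448) (nat_lit 0) (nat_lit 16090105362) (nat_lit 8) (nat_lit 5) (nat_lit 10) (nat_lit 4) (nat_lit 8) (nat_lit 4) (nat_lit 440) (nat_lit 275) (nat_lit 185)) (XT.nd (nat_lit 78) (nat_lit 0) (nat_lit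 0) (XT.lf (nat_lit 0) (nat_lit 37324487588) (nat_lit 152) (nat_lit 11116069412) (nat_lit 0) (nat_lit 21606796838) (nat_lit 8) (nat_lit 5) (nat_lit 10) (nat_lit 4) (nat_lit 8) (nat_lit 4) (nat_lit 441) (nat_lit 275) (nat_lit 184)) (XT.lf (nat_lit 0) (nat_lit 43024049032) (nat_lit 152) (nat_lit 1698574415) (nat_lit 0) (nat_lit 27273014209) (nat_lit 8) (nat_lit 5) (nat_lit 10) (nat_lit 4) (nat_lit 8) (nat_lit 4) (nat_lit 442) (nat_lit 275) (nat_lit 183)))) (XT.nd (nat_lit 156) (nat_lit 0) (nat_lit 0) (XT.nd (nat_lit 78) (nat_lit 0) (nat_lit 0) (XT.lf (nat_lit 0) (nat_lit 8126505818) (nat_lit 76) (nat_lit 40828727374) (nat_lit 76) (nat_lit 25045319664) (nat_lit 7) (nat_lit 4) (nat_lit 8) (nat_lit 5) (nat_lit 8) (nat_lit 4) (nat_lit 443) (nat_lit 275) (nat_lit 182)) (XT.lf (nat_lit 0) (nat_lit 18247969158) (nat_lit 76) (nat_lit 36816245050) (nat_lit 76) (nat_lit 21001407354) (nat_lit 7) (nat_lit 4) (nat_lit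 8) (nat_lit 5) (nat_lit 8) (nat_lit 4) (nat_lit 444) (nat_lit 275) (nat_lit 181))) (XT.nd (nat_lit 78) (nat_lit 0) (nat_lit 0) (XT.lf (nat_lit 0) (nat_lit 28640854637) (nat_lit 76) (nat_lit 32698822694) (nat_lit 76) (nat_lit 16853470448) (nat_lit 7) (nat_lit 4) (nat_lit 8) (nat_lit 5) (nat_lit 8) (nat_lit 4) (nat_lit 445) (nat_lit 275) (nat_lit 180)) (XT.lf (nat_lit 0) (nat_lit 39314243420) (nat_lit 76) (nat_lit 28472862559) (nat_lit 76) (nat_lit 12597884536) (nat_lit 7) (nat_lit 4) (nat_lit 8) (nat_lit 5) (nat_lit 8) (nat_lit 4) (nat_lit 446) (nat_lit 275) (nat_lit 179)))))) (XT.nd (nat_lit 39468) (nat_lit 0) (nat_lit 5624) (XT.nd (nat_lit 39156) (nat_lit 0) (nat_lit 7144) (XT.nd (nat_lit 78) (nat_lit 76) (nat_lit 0) (XT.lf (nat_lit 0) (nat_lit 50277461766) (nat_lit 76) (nat_lit 24134672058) (nat_lit 76) (nat_lit 8230931146) (nat_lit 7) (nat_lit 4) (nat_lit 8) (nat_lit 5) (nat_lit 8) (nat_lit 4) (nat_lit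 447) (nat_lit 275) (nat_lit 178)) (XT.nd (nat_lit 78) (nat_lit 76) (nat_lit 0) (XT.lf (nat_lit 0) (nat_lit 61540089189) (nat_lit 76) (nat_lit 19680460540) (nat_lit 76) (nat_lit 3748794491) (nat_lit 7) (nat_lit 4) (nat_lit 8) (nat_lit 5) (nat_lit 8) (nat_lit 4) (nat_lit 448) (nat_lit 275) (nat_lit 177)) (XT.lf (nat_lit 0) (nat_lit 835807645) (nat_lit 152) (nat_lit 14262088311) (nat_lit 76) (nat_lit 72267719154) (nat_lit 6) (nat_lit 5) (nat_lit 8) (nat_lit 5) (nat_lit 7) (nat_lit 4) (nat_lit 449) (nat_lit 275) (nat_lit 176)))) (XT.nd (nat_lit 156) (nat_lit 684) (nat_lit 0) (XT.nd (nat_lit 78) (nat_lit 0) (nat_lit 0) (XT.lf (nat_lit 0) (nat_lit 343772006) (nat_lit 380) (nat_lit 3886106699) (nat_lit 0) (nat_lit 343772006) (nat_lit 109) (nat_lit 5) (nat_lit 114) (nat_lit 4) (nat_lit 109) (nat_lit 4) (nat_lit 348) (nat_lit 276) (nat_lit 276)) (XT.lf (nat_lit 0) (nat_lit 4714950827) (nat_lit 380) (nat_lit 754292147)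 (nat_lit 0) (nat_lit 3801284094) (nat_lit 109) (nat_lit 5) (nat_lit 114) (nat_lit 4) (nat_lit 109) (nat_lit 4) (nat_lit 349) (nat_lit 276) (nat_lit 275))) (XT.nd (nat_lit 78) (nat_lit 380) (nat_lit 0) (XT.lf (nat_lit 0) (nat_lit 6460119305) (nat_lit 304) (nat_lit 2369555217) (nat_lit 304) (nat_lit 568833403) (nat_lit 105) (nat_lit 4) (nat_lit 109) (nat_lit 5) (nat_lit 109) (nat_lit 4) (nat_lit 350) (nat_lit 276) (nat_lit 274)) (XT.lf (nat_lit 0) (nat_lit 3430525633) (nat_lit 380) (nat_lit 5253853817) (nat_lit 0) (nat_lit 846117537) (nat_lit 100) (nat_lit 5) (nat_lit 105) (nat_lit 4) (nat_lit 100) (nat_lit 4) (nat_lit 351) (nat_lit 276) (nat_lit 273))))) (XT.nd (nat_lit 234) (nat_lit 912) (nat_lit 0) (XT.nd (nat_lit 78) (nat_lit 304) (nat_lit 0) (XT.lf (nat_lit 0) (nat_lit 1970142219) (nat_lit 304) (nat_lit 5546512890) (nat_lit 304) (nat_lit 2150323736) (nat_lit 96) (nat_lit 4) (nat_lit 100) (nat_lit 5)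 (nat_lit 100) (nat_lit 4) (nat_lit 352) (nat_lit 276) (nat_lit 272)) (XT.nd (nat_lit 78) (nat_lit 228) (nat_lit 0) (XT.lf (nat_lit 0) (nat_lit 1840254862) (nat_lit 380) (nat_lit 448608733) (nat_lit 76) (nat_lit 7519388520) (nat_lit 95) (nat_lit 5) (nat_lit 100) (nat_lit 5) (nat_lit 96) (nat_lit 4) (nat_lit 353) (nat_lit 276) (nat_lit 271)) (XT.lf (nat_lit 0) (nat_lit 5894254753) (nat_lit 304) (nat_lit 2970399486) (nat_lit 0) (nat_lit 1088907560) (nat_lit 92) (nat_lit 5) (nat_lit 96) (nat_lit 4) (nat_lit 92) (nat_lit 4) (nat_lit 354) (nat_lit 276) (nat_lit 270)))) (XT.nd (nat_lit 156) (nat_lit 304) (nat_lit 0) (XT.nd (nat_lit 78) (nat_lit 304) (nat_lit 0) (XT.lf (nat_lit 0) (nat_lit 4469471378) (nat_lit 304) (nat_lit 5580501955) (nat_lit 304) (nat_lit 53897806) (nat_lit 88) (nat_lit 4) (nat_lit 92) (nat_lit 5) (nat_lit 92) (nat_lit 4) (nat_lit 355) (nat_lit 276) (nat_lit 269)) (XT.lf (nat_lit 0) (nat_lit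 1791676022) (nat_lit 228) (nat_lit 2158338580) (nat_lit 304) (nat_lit 6308807996) (nat_lit 84) (nat_lit 5) (nat_lit 87) (nat_lit 5) (nat_lit 88) (nat_lit 4) (nat_lit 356) (nat_lit 276) (nat_lit 268))) (XT.nd (nat_lit 78) (nat_lit 304) (nat_lit 0) (XT.lf (nat_lit 0) (nat_lit 8054643303) (nat_lit 304) (nat_lit 1015250407) (nat_lit 0) (nat_lit 1349102063) (nat_lit 84) (nat_lit 5) (nat_lit 88) (nat_lit 4) (nat_lit 84) (nat_lit 4) (nat_lit 357) (nat_lit 276) (nat_lit 267)) (XT.lf (nat_lit 0) (nat_lit 1664041623) (nat_lit 304) (nat_lit 3968364207) (nat_lit 76) (nat_lit 4951153469) (nat_lit 80) (nat_lit 5) (nat_lit 84) (nat_lit 5) (nat_lit 81) (nat_lit 4) (nat_lit 358) (nat_lit 276) (nat_lit 266))))))))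
noncomputable def xc49 : XT := (XT.nd (nat_lit 2028) (nat_lit 1444) (nat_lit 0) (XT.nd (nat_lit 1014) (nat_lit 1292) (nat_lit 0) (XT.nd (nat_lit 468) (nat_lit 988) (nat_lit 0) (XT.nd (nat_lit 234) (nat_lit 532) (nat_lit 0) (XT.nd (nat_lit 78) (nat_lit 304) (nat_lit 0) (XT.lf (nat_lit 0) (nat_lit 3653739837) (nat_lit 228) (nat_lit 2071516875) (nat_lit 304) (nat_lit 5028352310) (nat_lit 77) (nat_lit 5) (nat_lit 80) (nat_lit 5) (nat_lit 81) (nat_lit 4) (nat_lit 359) (nat_lit 276) (nat_lit 265)) (XT.nd (nat_lit 78) (nat_lit 76) (nat_lit 0) (XT.lf (nat_lit 0) (nat_lit 515196119) (nat_lit 228) (nat_lit 9368610228) (nat_lit 228) (nat_lit 1045724174) (nat_lit 74) (nat_lit 4) (nat_lit 77) (nat_lit 5) (nat_lit 77) (nat_lit 4) (nat_lit 360) (nat_lit 276) (nat_lit 264)) (XT.lf (nat_lit 0) (nat_lit 3004698500) (nat_lit 304) (nat_lit 2792715000) (nat_lit 76) (nat_lit 5312229276) (nat_lit 73) (nat_lit 5) (nat_lit 77)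 (nat_lit 5) (nat_lit 74) (nat_lit 4) (nat_lit 361) (nat_lit 276) (nat_lit 263)))) (XT.nd (nat_lit 78) (nat_lit 304) (nat_lit 0) (XT.lf (nat_lit 0) (nat_lit 5011209146) (nat_lit 228) (nat_lit 2110094056) (nat_lit 304) (nat_lit 4174606200) (nat_lit 70) (nat_lit 5) (nat_lit 73) (nat_lit 5) (nat_lit 74) (nat_lit 4) (nat_lit 362) (nat_lit 276) (nat_lit 262)) (XT.nd (nat_lit 78) (nat_lit 76) (nat_lit 0) (XT.lf (nat_lit 0) (nat_lit 1497859804) (nat_lit 228) (nat_lit 9840803689) (nat_lit 228) (nat_lit 149814110) (nat_lit 67) (nat_lit 4) (nat_lit 70) (nat_lit 5) (nat_lit 70) (nat_lit 4) (nat_lit 363) (nat_lit 276) (nat_lit 261)) (XT.lf (nat_lit 0) (nat_lit 3921163613) (nat_lit 304) (nat_lit 2236902562) (nat_lit 76) (nat_lit 5527531515) (nat_lit 66) (nat_lit 5) (nat_lit 70) (nat_lit 5) (nat_lit 67) (nat_lit 4) (nat_lit 364) (nat_lit 276) (nat_lit 260))))) (XT.nd (nat_lit 234) (nat_lit 532) (nat_lit 0) (XT.nd (nat_lit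 78) (nat_lit 304) (nat_lit 0) (XT.lf (nat_lit 0) (nat_lit 5728876718) (nat_lit 152) (nat_lit 2358257422) (nat_lit 228) (nat_lit 3802205145) (nat_lit 64) (nat_lit 5) (nat_lit 66) (nat_lit 5) (nat_lit 67) (nat_lit 4) (nat_lit 365) (nat_lit 276) (nat_lit 259)) (XT.nd (nat_lit 78) (nat_lit 0) (nat_lit 0) (XT.lf (nat_lit 0) (nat_lit 249324958) (nat_lit 304) (nat_lit 10333522182) (nat_lit 76) (nat_lit 1517016267) (nat_lit 60) (nat_lit 5) (nat_lit 64) (nat_lit 5) (nat_lit 61) (nat_lit 4) (nat_lit 366) (nat_lit 276) (nat_lit 258)) (XT.lf (nat_lit 0) (nat_lit 4353770066) (nat_lit 304) (nat_lit 2450962103) (nat_lit 76) (nat_lit 5510634239) (nat_lit 60) (nat_lit 5) (nat_lit 64) (nat_lit 5) (nat_lit 61) (nat_lit 4) (nat_lit 367) (nat_lit 276) (nat_lit 257)))) (XT.nd (nat_lit 156) (nat_lit 152) (nat_lit 0) (XT.nd (nat_lit 78) (nat_lit 228) (nat_lit 0) (XT.lf (nat_lit 0) (nat_lit 5650425138) (nat_lit 152) (nat_lit 2909137815)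 (nat_lit 228) (nat_lit 3978450562) (nat_lit 58) (nat_lit 5) (nat_lit 60) (nat_lit 5) (nat_lit 61) (nat_lit 4) (nat_lit 368) (nat_lit 276) (nat_lit 256)) (XT.lf (nat_lit 0) (nat_lit 92628623) (nat_lit 228) (nat_lit 11607255259) (nat_lit 76) (nat_lit 1068318456) (nat_lit 55) (nat_lit 5) (nat_lit 58) (nat_lit 5) (nat_lit 56) (nat_lit 4) (nat_lit 369) (nat_lit 276) (nat_lit 255))) (XT.nd (nat_lit 78) (nat_lit 152) (nat_lit 0) (XT.lf (nat_lit 0) (nat_lit 4229539963) (nat_lit 228) (nat_lit 3608667727) (nat_lit 76) (nat_lit 5165220825) (nat_lit 55) (nat_lit 5) (nat_lit 58) (nat_lit 5) (nat_lit 56) (nat_lit 4) (nat_lit 370) (nat_lit 276) (nat_lit 254)) (XT.lf (nat_lit 0) (nat_lit 4594580579) (nat_lit 152) (nat_lit 3866959118) (nat_lit 228) (nat_lit 4785064961) (nat_lit 53) (nat_lit 5) (nat_lit 55) (nat_lit 5) (nat_lit 56) (nat_lit 4) (nat_lit 371) (nat_lit 276) (nat_lit 253)))))) (XT.nd (nat_lit 468) (nat_lit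 684) (nat_lit 0) (XT.nd (nat_lit 234) (nat_lit 228) (nat_lit 0) (XT.nd (nat_lit 78) (nat_lit 380) (nat_lit 0) (XT.lf (nat_lit 0) (nat_lit 12786710869) (nat_lit 228) (nat_lit 506013845) (nat_lit 0) (nat_lit 205386981) (nat_lit 53) (nat_lit 5) (nat_lit 56) (nat_lit 4) (nat_lit 53) (nat_lit 4) (nat_lit 372) (nat_lit 276) (nat_lit 252)) (XT.nd (nat_lit 78) (nat_lit 152) (nat_lit 0) (XT.lf (nat_lit 0) (nat_lit 3460283762) (nat_lit 228) (nat_lit 5911758478) (nat_lit 76) (nat_lit 4382823392) (nat_lit 50) (nat_lit 5) (nat_lit 53) (nat_lit 5) (nat_lit 51) (nat_lit 4) (nat_lit 373) (nat_lit 276) (nat_lit 251)) (XT.lf (nat_lit 0) (nat_lit 2350683973) (nat_lit 152) (nat_lit 5349461262) (nat_lit 228) (nat_lit 6320265992) (nat_lit 48) (nat_lit 5) (nat_lit 50) (nat_lit 5) (nat_lit 51) (nat_lit 4) (nat_lit 374) (nat_lit 276) (nat_lit 250)))) (XT.nd (nat_lit 78) (nat_lit 228) (nat_lit 0) (XT.lf (nat_lit 0) (nat_lit 10861383161)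 (nat_lit 152) (nat_lit 1195974999) (nat_lit 228) (nat_lit 2236879868) (nat_lit 48) (nat_lit 5) (nat_lit 50) (nat_lit 5) (nat_lit 51) (nat_lit 4) (nat_lit 375) (nat_lit 276) (nat_lit 249)) (XT.nd (nat_lit 78) (nat_lit 0) (nat_lit 0) (XT.lf (nat_lit 0) (nat_lit 1940360734) (nat_lit 228) (nat_lit 9594811294) (nat_lit 76) (nat_lit 3040264909) (nat_lit 45) (nat_lit 5) (nat_lit 48) (nat_lit 5) (nat_lit 46) (nat_lit 4) (nat_lit 376) (nat_lit 276) (nat_lit 248)) (XT.lf (nat_lit 0) (nat_lit 6176981007) (nat_lit 228) (nat_lit 1300534905) (nat_lit 76) (nat_lit 7387538685) (nat_lit 45) (nat_lit 5) (nat_lit 48) (nat_lit 5) (nat_lit 46) (nat_lit 4) (nat_lit 377) (nat_lit 276) (nat_lit 247))))) (XT.nd (nat_lit 234) (nat_lit 304) (nat_lit 0) (XT.nd (nat_lit 78) (nat_lit 228) (nat_lit 0) (XT.lf (nat_lit 0) (nat_lit 7268826398) (nat_lit 152) (nat_lit 3275893338) (nat_lit 228) (nat_lit 4618537786) (nat_lit 43) (nat_lit 5)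 (nat_lit 45) (nat_lit 5) (nat_lit 46) (nat_lit 4) (nat_lit 378) (nat_lit 276) (nat_lit 246)) (XT.nd (nat_lit 78) (nat_lit 76) (nat_lit 0) (XT.lf (nat_lit 0) (nat_lit 536194379) (nat_lit 152) (nat_lit 14470313971) (nat_lit 152) (nat_lit 465024478) (nat_lit 41) (nat_lit 4) (nat_lit 43) (nat_lit 5) (nat_lit 43) (nat_lit 4) (nat_lit 379) (nat_lit 276) (nat_lit 245)) (XT.lf (nat_lit 0) (nat_lit 3786267249) (nat_lit 228) (nat_lit 6591099778) (nat_lit 76) (nat_lit 5409178203) (nat_lit 40) (nat_lit 5) (nat_lit 43) (nat_lit 5) (nat_lit 41) (nat_lit 4) (nat_lit 380) (nat_lit 276) (nat_lit 244)))) (XT.nd (nat_lit 156) (nat_lit 228) (nat_lit 0) (XT.nd (nat_lit 78) (nat_lit 0) (nat_lit 0) (XT.lf (nat_lit 0) (nat_lit 1923657581) (nat_lit 76) (nat_lit 6187126806) (nat_lit 152) (nat_lit 8001449894) (nat_lit 39) (nat_lit 5) (nat_lit 40) (nat_lit 5) (nat_lit 41) (nat_lit 4) (nat_lit 381) (nat_lit 276) (nat_lit 243)) (XT.lf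 (nat_lit 0) (nat_lit 10717332300) (nat_lit 76) (nat_lit 1851578918) (nat_lit 152) (nat_lit 3878681508) (nat_lit 39) (nat_lit 5) (nat_lit 40) (nat_lit 5) (nat_lit 41) (nat_lit 4) (nat_lit 382) (nat_lit 276) (nat_lit 242))) (XT.nd (nat_lit 78) (nat_lit 0) (nat_lit 0) (XT.lf (nat_lit 0) (nat_lit 352221678) (nat_lit 228) (nat_lit 13893159419) (nat_lit 76) (nat_lit 2547790013) (nat_lit 36) (nat_lit 5) (nat_lit 39) (nat_lit 5) (nat_lit 37) (nat_lit 4) (nat_lit 383) (nat_lit 276) (nat_lit 241)) (XT.lf (nat_lit 0) (nat_lit 4647677411) (nat_lit 228) (nat_lit 5407955906) (nat_lit 76) (nat_lit 7091877633) (nat_lit 36) (nat_lit 5) (nat_lit 39) (nat_lit 5) (nat_lit 37) (nat_lit 4) (nat_lit 384) (nat_lit 276) (nat_lit 240))))))) (XT.nd (nat_lit 1014) (nat_lit 532) (nat_lit 0) (XT.nd (nat_lit 468) (nat_lit 532) (nat_lit 0) (XT.nd (nat_lit 234) (nat_lit 152) (nat_lit 0) (XT.nd (nat_lit 78) (nat_lit 152) (nat_lit 0) (XT.lf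 (nat_lit 0) (nat_lit 3289267300) (nat_lit 76) (nat_lit 5754943435) (nat_lit 152) (nat_lit 8469117114) (nat_lit 35) (nat_lit 5) (nat_lit 36) (nat_lit 5) (nat_lit 37) (nat_lit 4) (nat_lit 385) (nat_lit 276) (nat_lit 239)) (XT.nd (nat_lit 78) (nat_lit 152) (nat_lit 0) (XT.lf (nat_lit 0) (nat_lit 12252589424) (nat_lit 76) (nat_lit 1315970265) (nat_lit 152) (nat_lit 4321694870) (nat_lit 35) (nat_lit 5) (nat_lit 36) (nat_lit 5) (nat_lit 37) (nat_lit 4) (nat_lit 386) (nat_lit 276) (nat_lit 238)) (XT.lf (nat_lit 0) (nat_lit 3132262458) (nat_lit 152) (nat_lit 15100367000) (nat_lit 152) (nat_lit 45752423) (nat_lit 33) (nat_lit 4) (nat_lit 35) (nat_lit 5) (nat_lit 35) (nat_lit 4) (nat_lit 387) (nat_lit 276) (nat_lit 237)))) (XT.nd (nat_lit 78) (nat_lit 76) (nat_lit 0) (XT.lf (nat_lit 0) (nat_lit 4286632083) (nat_lit 228) (nat_lit 6555094991) (nat_lit 76) (nat_lit 7834784466) (nat_lit 32) (nat_lit 5) (nat_lit 35)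 (nat_lit 5) (nat_lit 33) (nat_lit 4) (nat_lit 388) (nat_lit 276) (nat_lit 236)) (XT.nd (nat_lit 78) (nat_lit 0) (nat_lit 0) (XT.lf (nat_lit 0) (nat_lit 2235851244) (nat_lit 76) (nat_lit 6478069645) (nat_lit 152) (nat_lit 10373686494) (nat_lit 31) (nat_lit 5) (nat_lit 32) (nat_lit 5) (nat_lit 33) (nat_lit 4) (nat_lit 389) (nat_lit 276) (nat_lit 235)) (XT.lf (nat_lit 0) (nat_lit 11324903495) (nat_lit 76) (nat_lit 1960337812) (nat_lit 152) (nat_lit 6225469531) (nat_lit 31) (nat_lit 5) (nat_lit 32) (nat_lit 5) (nat_lit 33) (nat_lit 4) (nat_lit 390) (nat_lit 276) (nat_lit 234))))) (XT.nd (nat_lit 234) (nat_lit 304) (nat_lit 0) (XT.nd (nat_lit 78) (nat_lit 76) (nat_lit 0) (XT.lf (nat_lit 0) (nat_lit 628217676) (nat_lit 152) (nat_lit 17343609138) (nat_lit 152) (nat_lit 1975347617) (nat_lit 29) (nat_lit 4) (nat_lit 31) (nat_lit 5) (nat_lit 31) (nat_lit 4) (nat_lit 391) (nat_lit 276) (nat_lit 233)) (XT.nd (nat_lit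 78) (nat_lit 0) (nat_lit 0) (XT.lf (nat_lit 0) (nat_lit 2404584641) (nat_lit 228) (nat_lit 10661498016) (nat_lit 76) (nat_lit 7328491176) (nat_lit 28) (nat_lit 5) (nat_lit 31) (nat_lit 5) (nat_lit 29) (nat_lit 4) (nat_lit 392) (nat_lit 276) (nat_lit 232)) (XT.lf (nat_lit 0) (nat_lit 6824072020) (nat_lit 228) (nat_lit 1859398170) (nat_lit 76) (nat_lit 12172912383) (nat_lit 28) (nat_lit 5) (nat_lit 31) (nat_lit 5) (nat_lit 29) (nat_lit 4) (nat_lit 393) (nat_lit 276) (nat_lit 231)))) (XT.nd (nat_lit 156) (nat_lit 228) (nat_lit 0) (XT.nd (nat_lit 78) (nat_lit 0) (nat_lit 0) (XT.lf (nat_lit 0) (nat_lit 7255605177) (nat_lit 76) (nat_lit 4139662491) (nat_lit 152) (nat_lit 9936213792) (nat_lit 27) (nat_lit 5) (nat_lit 28) (nat_lit 5) (nat_lit 29) (nat_lit 4) (nat_lit 394) (nat_lit 276) (nat_lit 230)) (XT.lf (nat_lit 0) (nat_lit 16077324746) (nat_lit 152) (nat_lit 5236418313) (nat_lit 0) (nat_lit 507887802) (nat_lit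 27) (nat_lit 5) (nat_lit 29) (nat_lit 4) (nat_lit 27) (nat_lit 4) (nat_lit 395) (nat_lit 276) (nat_lit 229))) (XT.nd (nat_lit 78) (nat_lit 76) (nat_lit 0) (XT.lf (nat_lit 0) (nat_lit 3811375721) (nat_lit 152) (nat_lit 17117128890) (nat_lit 152) (nat_lit 1397129346) (nat_lit 25) (nat_lit 4) (nat_lit 27) (nat_lit 5) (nat_lit 27) (nat_lit 4) (nat_lit 396) (nat_lit 276) (nat_lit 228)) (XT.lf (nat_lit 0) (nat_lit 3024869387) (nat_lit 228) (nat_lit 9725691968) (nat_lit 76) (nat_lit 10093180451) (nat_lit 24) (nat_lit 5) (nat_lit 27) (nat_lit 5) (nat_lit 25) (nat_lit 4) (nat_lit 397) (nat_lit 276) (nat_lit 227)))))) (XT.nd (nat_lit 546) (nat_lit 228) (nat_lit 0) (XT.nd (nat_lit 234) (nat_lit 228) (nat_lit 0) (XT.nd (nat_lit 78) (nat_lit 76) (nat_lit 0) (XT.lf (nat_lit 0) (nat_lit 7503987446) (nat_lit 228) (nat_lit 775001998) (nat_lit 76) (nat_lit 15099420524) (nat_lit 24) (nat_lit 5) (nat_lit 27) (nat_lit 5) (nat_lit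 25) (nat_lit 4) (nat_lit 398) (nat_lit 276) (nat_lit 226)) (XT.nd (nat_lit 78) (nat_lit 0) (nat_lit 0) (XT.lf (nat_lit 0) (nat_lit 8525424461) (nat_lit 76) (nat_lit 3627928782) (nat_lit 152) (nat_lit 11774696743) (nat_lit 23) (nat_lit 5) (nat_lit 24) (nat_lit 5) (nat_lit 25) (nat_lit 4) (nat_lit 399) (nat_lit 276) (nat_lit 225)) (XT.lf (nat_lit 0) (nat_lit 16915361309) (nat_lit 152) (nat_lit 6469760368) (nat_lit 0) (nat_lit 1109870490) (nat_lit 23) (nat_lit 5) (nat_lit 25) (nat_lit 4) (nat_lit 23) (nat_lit 4) (nat_lit 400) (nat_lit 276) (nat_lit 224)))) (XT.nd (nat_lit 156) (nat_lit 76) (nat_lit 0) (XT.nd (nat_lit 78) (nat_lit 76) (nat_lit 0) (XT.lf (nat_lit 0) (nat_lit 2664333516) (nat_lit 76) (nat_lit 19172846394) (nat_lit 76) (nat_lit 3241261768) (nat_lit 22) (nat_lit 4) (nat_lit 23) (nat_lit 5) (nat_lit 23) (nat_lit 4) (nat_lit 401) (nat_lit 276) (nat_lit 223)) (XT.lf (nat_lit 0) (nat_lit 1224774443)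 (nat_lit 152) (nat_lit 13567713677) (nat_lit 76) (nat_lit 10885915851) (nat_lit 21) (nat_lit 5) (nat_lit 23) (nat_lit 5) (nat_lit 22) (nat_lit 4) (nat_lit 402) (nat_lit 276) (nat_lit 222))) (XT.nd (nat_lit 78) (nat_lit 76) (nat_lit 0) (XT.lf (nat_lit 0) (nat_lit 5716427664) (nat_lit 152) (nat_lit 4568513145) (nat_lit 76) (nat_lit 16011765043) (nat_lit 21) (nat_lit 5) (nat_lit 23) (nat_lit 5) (nat_lit 22) (nat_lit 4) (nat_lit 403) (nat_lit 276) (nat_lit 221)) (XT.lf (nat_lit 0) (nat_lit 4714510890) (nat_lit 76) (nat_lit 5631679203) (nat_lit 152) (nat_lit 16587272637) (nat_lit 20) (nat_lit 5) (nat_lit 21) (nat_lit 5) (nat_lit 22) (nat_lit 4) (nat_lit 404) (nat_lit 276) (nat_lit 220))))) (XT.nd (nat_lit 234) (nat_lit 152) (nat_lit 0) (XT.nd (nat_lit 78) (nat_lit 76) (nat_lit 0) (XT.lf (nat_lit 0) (nat_lit 14292292261) (nat_lit 76) (nat_lit 827205263) (nat_lit 152) (nat_lit 12469691761) (nat_lit 20) (nat_lit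 5) (nat_lit 21) (nat_lit 5) (nat_lit 22) (nat_lit 4) (nat_lit 405) (nat_lit 276) (nat_lit 219)) (XT.nd (nat_lit 78) (nat_lit 76) (nat_lit 0) (XT.lf (nat_lit 0) (nat_lit 20035013844) (nat_lit 152) (nat_lit 4222807011) (nat_lit 0) (nat_lit 4006802834) (nat_lit 20) (nat_lit 5) (nat_lit 22) (nat_lit 4) (nat_lit 20) (nat_lit 4) (nat_lit 406) (nat_lit 276) (nat_lit 218)) (XT.lf (nat_lit 0) (nat_lit 5141856546) (nat_lit 76) (nat_lit 19974330899) (nat_lit 76) (nat_lit 3843594085) (nat_lit 19) (nat_lit 4) (nat_lit 20) (nat_lit 5) (nat_lit 20) (nat_lit 4) (nat_lit 407) (nat_lit 276) (nat_lit 217)))) (XT.nd (nat_lit 156) (nat_lit 76) (nat_lit 0) (XT.nd (nat_lit 78) (nat_lit 0) (nat_lit 0) (XT.lf (nat_lit 0) (nat_lit 664543275) (nat_lit 152) (nat_lit 14881253579) (nat_lit 76) (nat_lit 14129697890) (nat_lit 18) (nat_lit 5) (nat_lit 20) (nat_lit 5) (nat_lit 19) (nat_lit 4) (nat_lit 408) (nat_lit 276) (nat_lit 216))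 (XT.lf (nat_lit 0) (nat_lit 5192448117) (nat_lit 152) (nat_lit 5786247155) (nat_lit 76) (nat_lit 19433994784) (nat_lit 18) (nat_lit 5) (nat_lit 20) (nat_lit 5) (nat_lit 19) (nat_lit 4) (nat_lit 409) (nat_lit 276) (nat_lit 215))) (XT.nd (nat_lit 78) (nat_lit 0) (nat_lit 0) (XT.lf (nat_lit 0) (nat_lit 3581883812) (nat_lit 76) (nat_lit 6271626670) (nat_lit 152) (nat_lit 21318576605) (nat_lit 17) (nat_lit 5) (nat_lit 18) (nat_lit 5) (nat_lit 19) (nat_lit 4) (nat_lit 410) (nat_lit 276) (nat_lit 214)) (XT.lf (nat_lit 0) (nat_lit 13280732560) (nat_lit 76) (nat_lit 1395409250) (nat_lit 152) (nat_lit 17277477418) (nat_lit 17) (nat_lit 5) (nat_lit 18) (nat_lit 5) (nat_lit 19) (nat_lit 4) (nat_lit 411) (nat_lit 276) (nat_lit 213))))))))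
noncomputable def xc50 : XT := (XT.nd (nat_lit 2028) (nat_lit 76) (nat_lit 0) (XT.nd (nat_lit 1014) (nat_lit 304) (nat_lit 0) (XT.nd (nat_lit 468) (nat_lit 152) (nat_lit 0) (XT.nd (nat_lit 234) (nat_lit 152) (nat_lit 0) (XT.nd (nat_lit 78) (nat_lit 76) (nat_lit 0) (XT.lf (nat_lit 0) (nat_lit 19642393052) (nat_lit 152) (nat_lit 9590619979) (nat_lit 0) (nat_lit 3525621231) (nat_lit 17) (nat_lit 5) (nat_lit 19) (nat_lit 4) (nat_lit 17) (nat_lit 4) (nat_lit 412) (nat_lit 276) (nat_lit 212)) (XT.nd (nat_lit 78) (nat_lit 76) (nat_lit 0) (XT.lf (nat_lit 0) (nat_lit 24736569240) (nat_lit 152) (nat_lit 315432836) (nat_lit 0) (nat_lit 8536434558) (nat_lit 17) (nat_lit 5) (nat_lit 19) (nat_lit 4) (nat_lit 17) (nat_lit 4) (nat_lit 413) (nat_lit 276) (nat_lit 211)) (XT.lf (nat_lit 0) (nat_lit 9356777246) (nat_lit 76) (nat_lit 20682873888) (nat_lit 76) (nat_lit 4401804390) (nat_lit 16) (nat_lit 4) (nat_lit 17) (nat_lit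 5) (nat_lit 17) (nat_lit 4) (nat_lit 414) (nat_lit 276) (nat_lit 210)))) (XT.nd (nat_lit 78) (nat_lit 76) (nat_lit 0) (XT.lf (nat_lit 0) (nat_lit 147610552) (nat_lit 152) (nat_lit 16059997568) (nat_lit 76) (nat_lit 19113327123) (nat_lit 15) (nat_lit 5) (nat_lit 17) (nat_lit 5) (nat_lit 16) (nat_lit 4) (nat_lit 415) (nat_lit 276) (nat_lit 209)) (XT.nd (nat_lit 78) (nat_lit 76) (nat_lit 0) (XT.lf (nat_lit 0) (nat_lit 4712201141) (nat_lit 152) (nat_lit 6870167500) (nat_lit 76) (nat_lit 24644112742) (nat_lit 15) (nat_lit 5) (nat_lit 17) (nat_lit 5) (nat_lit 16) (nat_lit 4) (nat_lit 416) (nat_lit 276) (nat_lit 208)) (XT.lf (nat_lit 0) (nat_lit 2585609258) (nat_lit 76) (nat_lit 6821096110) (nat_lit 152) (nat_lit 27752703581) (nat_lit 14) (nat_lit 5) (nat_lit 15) (nat_lit 5) (nat_lit 16) (nat_lit 4) (nat_lit 417) (nat_lit 276) (nat_lit 207))))) (XT.nd (nat_lit 234) (nat_lit 152) (nat_lit 0) (XT.nd (nat_lit 78)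 (nat_lit 0) (nat_lit 0) (XT.lf (nat_lit 0) (nat_lit 12406278481) (nat_lit 76) (nat_lit 1873618394) (nat_lit 152) (nat_lit 23839296096) (nat_lit 14) (nat_lit 5) (nat_lit 15) (nat_lit 5) (nat_lit 16) (nat_lit 4) (nat_lit 418) (nat_lit 276) (nat_lit 206)) (XT.nd (nat_lit 78) (nat_lit 0) (nat_lit 0) (XT.lf (nat_lit 0) (nat_lit 19299391620) (nat_lit 152) (nat_lit 16675713615) (nat_lit 0) (nat_lit 3132666125) (nat_lit 14) (nat_lit 5) (nat_lit 16) (nat_lit 4) (nat_lit 14) (nat_lit 4) (nat_lit 419) (nat_lit 276) (nat_lit 205)) (XT.lf (nat_lit 0) (nat_lit 24458053856) (nat_lit 152) (nat_lit 7442778769) (nat_lit 0) (nat_lit 8225520949) (nat_lit 14) (nat_lit 5) (nat_lit 16) (nat_lit 4) (nat_lit 14) (nat_lit 4) (nat_lit 420) (nat_lit 276) (nat_lit 204)))) (XT.nd (nat_lit 156) (nat_lit 76) (nat_lit 0) (XT.nd (nat_lit 78) (nat_lit 0) (nat_lit 0) (XT.lf (nat_lit 0) (nat_lit 2052010134) (nat_lit 76) (nat_lit 27710095829)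 (nat_lit 76) (nat_lit 11413672231) (nat_lit 13) (nat_lit 4) (nat_lit 14) (nat_lit 5) (nat_lit 14) (nat_lit 4) (nat_lit 421) (nat_lit 276) (nat_lit 203)) (XT.lf (nat_lit 0) (nat_lit 11929577219) (nat_lit 76) (nat_lit 23342086959) (nat_lit 76) (nat_lit 6983633563) (nat_lit 13) (nat_lit 4) (nat_lit 14) (nat_lit 5) (nat_lit 14) (nat_lit 4) (nat_lit 422) (nat_lit 276) (nat_lit 202))) (XT.nd (nat_lit 78) (nat_lit 76) (nat_lit 0) (XT.lf (nat_lit 0) (nat_lit 22050427479) (nat_lit 76) (nat_lit 18868146780) (nat_lit 76) (nat_lit 2449470279) (nat_lit 13) (nat_lit 4) (nat_lit 14) (nat_lit 5) (nat_lit 14) (nat_lit 4) (nat_lit 423) (nat_lit 276) (nat_lit 201)) (XT.lf (nat_lit 0) (nat_lit 2149990482) (nat_lit 152) (nat_lit 12112664854) (nat_lit 76) (nat_lit 30251703203) (nat_lit 12) (nat_lit 5) (nat_lit 14) (nat_lit 5) (nat_lit 13) (nat_lit 4) (nat_lit 424) (nat_lit 276) (nat_lit 200)))))) (XT.nd (nat_lit 468) (nat_lit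 228) (nat_lit 0) (XT.nd (nat_lit 234) (nat_lit 0) (nat_lit 0) (XT.nd (nat_lit 78) (nat_lit 76) (nat_lit 0) (XT.lf (nat_lit 0) (nat_lit 6811607786) (nat_lit 152) (nat_lit 2706347779) (nat_lit 76) (nat_lit 36177180001) (nat_lit 12) (nat_lit 5) (nat_lit 14) (nat_lit 5) (nat_lit 13) (nat_lit 4) (nat_lit 425) (nat_lit 276) (nat_lit 199)) (XT.nd (nat_lit 78) (nat_lit 0) (nat_lit 0) (XT.lf (nat_lit 0) (nat_lit 7071081351) (nat_lit 76) (nat_lit 4584143086) (nat_lit 152) (nat_lit 35254850156) (nat_lit 11) (nat_lit 5) (nat_lit 12) (nat_lit 5) (nat_lit 13) (nat_lit 4) (nat_lit 426) (nat_lit 276) (nat_lit 198)) (XT.lf (nat_lit 0) (nat_lit 16650775873) (nat_lit 152) (nat_lit 31017512150) (nat_lit 0) (nat_lit 492978100) (nat_lit 11) (nat_lit 5) (nat_lit 13) (nat_lit 4) (nat_lit 11) (nat_lit 4) (nat_lit 427) (nat_lit 276) (nat_lit 197)))) (XT.nd (nat_lit 78) (nat_lit 0) (nat_lit 0) (XT.lf (nat_lit 0) (nat_lit 21816574469)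 (nat_lit 152) (nat_lit 22024469745) (nat_lit 0) (nat_lit 5608340795) (nat_lit 11) (nat_lit 5) (nat_lit 13) (nat_lit 4) (nat_lit 11) (nat_lit 4) (nat_lit 428) (nat_lit 276) (nat_lit 196)) (XT.nd (nat_lit 78) (nat_lit 0) (nat_lit 0) (XT.lf (nat_lit 0) (nat_lit 27113068445) (nat_lit 152) (nat_lit 12807942440) (nat_lit 0) (nat_lit 10855867875) (nat_lit 11) (nat_lit 5) (nat_lit 13) (nat_lit 4) (nat_lit 11) (nat_lit 4) (nat_lit 429) (nat_lit 276) (nat_lit 195)) (XT.lf (nat_lit 0) (nat_lit 32544885804) (nat_lit 152) (nat_lit 3359876961) (nat_lit 0) (nat_lit 16240144559) (nat_lit 11) (nat_lit 5) (nat_lit 13) (nat_lit 4) (nat_lit 11) (nat_lit 4) (nat_lit 430) (nat_lit 276) (nat_lit 194))))) (XT.nd (nat_lit 234) (nat_lit 152) (nat_lit 0) (XT.nd (nat_lit 78) (nat_lit 0) (nat_lit 0) (XT.lf (nat_lit 0) (nat_lit 6453921539) (nat_lit 76) (nat_lit 31724890296) (nat_lit 76) (nat_lit 15373993057) (nat_lit 10) (nat_lit 4)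 (nat_lit 11) (nat_lit 5) (nat_lit 11) (nat_lit 4) (nat_lit 431) (nat_lit 276) (nat_lit 193)) (XT.nd (nat_lit 78) (nat_lit 0) (nat_lit 0) (XT.lf (nat_lit 0) (nat_lit 16587787905) (nat_lit 76) (nat_lit 27405262114) (nat_lit 76) (nat_lit 11009553229) (nat_lit 10) (nat_lit 4) (nat_lit 11) (nat_lit 5) (nat_lit 11) (nat_lit 4) (nat_lit 432) (nat_lit 276) (nat_lit 192)) (XT.lf (nat_lit 0) (nat_lit 26983708830) (nat_lit 76) (nat_lit 22976031956) (nat_lit 76) (nat_lit 6536816619) (nat_lit 10) (nat_lit 4) (nat_lit 11) (nat_lit 5) (nat_lit 11) (nat_lit 4) (nat_lit 433) (nat_lit 276) (nat_lit 191)))) (XT.nd (nat_lit 156) (nat_lit 76) (nat_lit 0) (XT.nd (nat_lit 78) (nat_lit 76) (nat_lit 0) (XT.lf (nat_lit 0) (nat_lit 37650768128) (nat_lit 76) (nat_lit 18433329621) (nat_lit 76) (nat_lit 1951875010) (nat_lit 10) (nat_lit 4) (nat_lit 11) (nat_lit 5) (nat_lit 11) (nat_lit 4) (nat_lit 434) (nat_lit 276) (nat_lit 190))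 (XT.lf (nat_lit 0) (nat_lit 2695629543) (nat_lit 152) (nat_lit 11050335641) (nat_lit 76) (nat_lit 45875436416) (nat_lit 9) (nat_lit 5) (nat_lit 11) (nat_lit 5) (nat_lit 10) (nat_lit 4) (nat_lit 435) (nat_lit 276) (nat_lit 189))) (XT.nd (nat_lit 78) (nat_lit 76) (nat_lit 0) (XT.lf (nat_lit 0) (nat_lit 7423017189) (nat_lit 152) (nat_lit 1493553286) (nat_lit 76) (nat_lit 52337854726) (nat_lit 9) (nat_lit 5) (nat_lit 11) (nat_lit 5) (nat_lit 10) (nat_lit 4) (nat_lit 436) (nat_lit 276) (nat_lit 188)) (XT.lf (nat_lit 0) (nat_lit 8477685821) (nat_lit 76) (nat_lit 3876313647) (nat_lit 152) (nat_lit 50580589107) (nat_lit 8) (nat_lit 5) (nat_lit 9) (nat_lit 5) (nat_lit 10) (nat_lit 4) (nat_lit 437) (nat_lit 276) (nat_lit 187))))))) (XT.nd (nat_lit 39858) (nat_lit 0) (nat_lit 5016) (XT.nd (nat_lit 468) (nat_lit 76) (nat_lit 0) (XT.nd (nat_lit 234) (nat_lit 0) (nat_lit 0) (XT.nd (nat_lit 78) (nat_lit 0) (nat_lit 0)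 (XT.lf (nat_lit 0) (nat_lit 17441109437) (nat_lit 152) (nat_lit 45936540964) (nat_lit 0) (nat_lit 1287262691) (nat_lit 8) (nat_lit 5) (nat_lit 10) (nat_lit 4) (nat_lit 8) (nat_lit 4) (nat_lit 438) (nat_lit 276) (nat_lit 186)) (XT.nd (nat_lit 78) (nat_lit 0) (nat_lit 0) (XT.lf (nat_lit 0) (nat_lit 22700110009) (nat_lit 152) (nat_lit 37235572605) (nat_lit 0) (nat_lit 6510888536) (nat_lit 8) (nat_lit 5) (nat_lit 10) (nat_lit 4) (nat_lit 8) (nat_lit 4) (nat_lit 439) (nat_lit 276) (nat_lit 185)) (XT.lf (nat_lit 0) (nat_lit 28098334929) (nat_lit 152) (nat_lit 28309133392) (nat_lit 0) (nat_lit 11874769062) (nat_lit 8) (nat_lit 5) (nat_lit 10) (nat_lit 4) (nat_lit 8) (nat_lit 4) (nat_lit 440) (nat_lit 276) (nat_lit 184)))) (XT.nd (nat_lit 78) (nat_lit 0) (nat_lit 0) (XT.lf (nat_lit 0) (nat_lit 33640501094) (nat_lit 152) (nat_lit 19149423524) (nat_lit 0) (nat_lit 17383591154) (nat_lit 8) (nat_lit 5) (nat_lit 10)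 (nat_lit 4) (nat_lit 8) (nat_lit 4) (nat_lit 441) (nat_lit 276) (nat_lit 183)) (XT.nd (nat_lit 78) (nat_lit 0) (nat_lit 0) (XT.lf (nat_lit 0) (nat_lit 39331451172) (nat_lit 152) (nat_lit 9748439370) (nat_lit 0) (nat_lit 23042168346) (nat_lit 8) (nat_lit 5) (nat_lit 10) (nat_lit 4) (nat_lit 8) (nat_lit 4) (nat_lit 442) (nat_lit 276) (nat_lit 182)) (XT.lf (nat_lit 0) (nat_lit 45176157839) (nat_lit 152) (nat_lit 97966478) (nat_lit 0) (nat_lit 28855445026) (nat_lit 8) (nat_lit 5) (nat_lit 10) (nat_lit 4) (nat_lit 8) (nat_lit 4) (nat_lit 443) (nat_lit 276) (nat_lit 181))))) (XT.nd (nat_lit 234) (nat_lit 0) (nat_lit 0) (XT.nd (nat_lit 78) (nat_lit 0) (nat_lit 0) (XT.lf (nat_lit 0) (nat_lit 10005674347) (nat_lit 76) (nat_lit 41270234435) (nat_lit 76) (nat_lit 24919007072) (nat_lit 7) (nat_lit 4) (nat_lit 8) (nat_lit 5) (nat_lit 8) (nat_lit 4) (nat_lit 444) (nat_lit 276) (nat_lit 180)) (XT.nd (nat_lit 78) (nat_lit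 0) (nat_lit 0) (XT.lf (nat_lit 0) (nat_lit 20383149353) (nat_lit 76) (nat_lit 37160193799) (nat_lit 76) (nat_lit 20779340659) (nat_lit 7) (nat_lit 4) (nat_lit 8) (nat_lit 5) (nat_lit 8) (nat_lit 4) (nat_lit 445) (nat_lit 276) (nat_lit 179)) (XT.lf (nat_lit 0) (nat_lit 31041576510) (nat_lit 76) (nat_lit 32941400383) (nat_lit 76) (nat_lit 16531784352) (nat_lit 7) (nat_lit 4) (nat_lit 8) (nat_lit 5) (nat_lit 8) (nat_lit 4) (nat_lit 446) (nat_lit 276) (nat_lit 178)))) (XT.nd (nat_lit 39000) (nat_lit 0) (nat_lit 8132) (XT.nd (nat_lit 78) (nat_lit 0) (nat_lit 0) (XT.lf (nat_lit 0) (nat_lit 41990269007) (nat_lit 76) (nat_lit 28610167861) (nat_lit 76) (nat_lit 12172626695) (nat_lit 7) (nat_lit 4) (nat_lit 8) (nat_lit 5) (nat_lit 8) (nat_lit 4) (nat_lit 447) (nat_lit 276) (nat_lit 177)) (XT.lf (nat_lit 0) (nat_lit 53238793663) (nat_lit 76) (nat_lit 24162711662) (nat_lit 76) (nat_lit 7698058713) (nat_lit 7) (nat_lit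 4) (nat_lit 8) (nat_lit 5) (nat_lit 8) (nat_lit 4) (nat_lit 448) (nat_lit 276) (nat_lit 176))) (XT.nd (nat_lit 78) (nat_lit 380) (nat_lit 0) (XT.lf (nat_lit 0) (nat_lit 1346628141) (nat_lit 380) (nat_lit 1761941551) (nat_lit 0) (nat_lit 1346628141) (nat_lit 119) (nat_lit 5) (nat_lit 124) (nat_lit 4) (nat_lit 119) (nat_lit 4) (nat_lit 346) (nat_lit 277) (nat_lit 277)) (XT.lf (nat_lit 0) (nat_lit 3387870180) (nat_lit 380) (nat_lit 3304361888) (nat_lit 380) (nat_lit 2335052851) (nat_lit 114) (nat_lit 4) (nat_lit 119) (nat_lit 5) (nat_lit 119) (nat_lit 4) (nat_lit 347) (nat_lit 277) (nat_lit 276)))))) (XT.nd (nat_lit 546) (nat_lit 1444) (nat_lit 0) (XT.nd (nat_lit 234) (nat_lit 912) (nat_lit 0) (XT.nd (nat_lit 78) (nat_lit 380) (nat_lit 0) (XT.lf (nat_lit 0) (nat_lit 1302707983) (nat_lit 304) (nat_lit 280096822) (nat_lit 380) (nat_lit 7565898133) (nat_lit 109) (nat_lit 5) (nat_lit 113) (nat_lit 5) (nat_lit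 114) (nat_lit 4) (nat_lit 348) (nat_lit 277) (nat_lit 275)) (XT.nd (nat_lit 78) (nat_lit 380) (nat_lit 0) (XT.lf (nat_lit 0) (nat_lit 5560423619) (nat_lit 380) (nat_lit 894399780) (nat_lit 0) (nat_lit 2818625071) (nat_lit 109) (nat_lit 5) (nat_lit 114) (nat_lit 4) (nat_lit 109) (nat_lit 4) (nat_lit 349) (nat_lit 277) (nat_lit 274)) (XT.lf (nat_lit 0) (nat_lit 220124588) (nat_lit 380) (nat_lit 3156164159) (nat_lit 76) (nat_lit 6026533954) (nat_lit 104) (nat_lit 5) (nat_lit 109) (nat_lit 5) (nat_lit 105) (nat_lit 4) (nat_lit 350) (nat_lit 277) (nat_lit 273)))) (XT.nd (nat_lit 156) (nat_lit 304) (nat_lit 0) (XT.nd (nat_lit 78) (nat_lit 304) (nat_lit 0) (XT.lf (nat_lit 0) (nat_lit 3988880874) (nat_lit 304) (nat_lit 162859242) (nat_lit 380) (nat_lit 5384630933) (nat_lit 100) (nat_lit 5) (nat_lit 104) (nat_lit 5) (nat_lit 105) (nat_lit 4) (nat_lit 351) (nat_lit 277) (nat_lit 272)) (XT.lf (nat_lit 0) (nat_lit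 1603130185) (nat_lit 304) (nat_lit 6584621213) (nat_lit 304) (nat_lit 1486628376) (nat_lit 96) (nat_lit 4) (nat_lit 100) (nat_lit 5) (nat_lit 100) (nat_lit 4) (nat_lit 352) (nat_lit 277) (nat_lit 271))) (XT.nd (nat_lit 78) (nat_lit 228) (nat_lit 0) (XT.lf (nat_lit 0) (nat_lit 2446179243) (nat_lit 380) (nat_lit 897430476) (nat_lit 76) (nat_lit 6473218510) (nat_lit 95) (nat_lit 5) (nat_lit 100) (nat_lit 5) (nat_lit 96) (nat_lit 4) (nat_lit 353) (nat_lit 277) (nat_lit 270)) (XT.lf (nat_lit 0) (nat_lit 6441211496) (nat_lit 304) (nat_lit 3495164523) (nat_lit 0) (nat_lit 27552267) (nat_lit 92) (nat_lit 5) (nat_lit 96) (nat_lit 4) (nat_lit 92) (nat_lit 4) (nat_lit 354) (nat_lit 277) (nat_lit 269))))) (XT.nd (nat_lit 234) (nat_lit 836) (nat_lit 0) (XT.nd (nat_lit 78) (nat_lit 228) (nat_lit 0) (XT.lf (nat_lit 0) (nat_lit 423880167) (nat_lit 380) (nat_lit 6253431961) (nat_lit 76) (nat_lit 3438288213) (nat_lit 87)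 (nat_lit 5) (nat_lit 92) (nat_lit 5) (nat_lit 88) (nat_lit 4) (nat_lit 355) (nat_lit 277) (nat_lit 268)) (XT.nd (nat_lit 78) (nat_lit 0) (nat_lit 0) (XT.lf (nat_lit 0) (nat_lit 1091755637) (nat_lit 228) (nat_lit 3285346921) (nat_lit 304) (nat_lit 5894942379) (nat_lit 84) (nat_lit 5) (nat_lit 87) (nat_lit 5) (nat_lit 88) (nat_lit 4) (nat_lit 356) (nat_lit 277) (nat_lit 267)) (XT.lf (nat_lit 0) (nat_lit 8428373952) (nat_lit 304) (nat_lit 1784677120) (nat_lit 0) (nat_lit 220786723) (nat_lit 84) (nat_lit 5) (nat_lit 88) (nat_lit 4) (nat_lit 84) (nat_lit 4) (nat_lit 357) (nat_lit 277) (nat_lit 266)))) (XT.nd (nat_lit 156) (nat_lit 304) (nat_lit 0) (XT.nd (nat_lit 78) (nat_lit 228) (nat_lit 0) (XT.lf (nat_lit 0) (nat_lit 1965951708) (nat_lit 304) (nat_lit 4838867847) (nat_lit 76) (nat_lit 3794995404) (nat_lit 80) (nat_lit 5) (nat_lit 84) (nat_lit 5) (nat_lit 81) (nat_lit 4) (nat_lit 358) (nat_lit 277) (nat_lit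 265)) (XT.lf (nat_lit 0) (nat_lit 2699251137) (nat_lit 228) (nat_lit 3277616989) (nat_lit 304) (nat_lit 4794522869) (nat_lit 77) (nat_lit 5) (nat_lit 80) (nat_lit 5) (nat_lit 81) (nat_lit 4) (nat_lit 359) (nat_lit 277) (nat_lit 264))) (XT.nd (nat_lit 78) (nat_lit 304) (nat_lit 0) (XT.lf (nat_lit 0) (nat_lit 10078091381) (nat_lit 304) (nat_lit 521253818) (nat_lit 0) (nat_lit 349703935) (nat_lit 77) (nat_lit 5) (nat_lit 81) (nat_lit 4) (nat_lit 77) (nat_lit 4) (nat_lit 360) (nat_lit 277) (nat_lit 263)) (XT.lf (nat_lit 0) (nat_lit 3130261432) (nat_lit 304) (nat_lit 3926740136) (nat_lit 76) (nat_lit 4073499096) (nat_lit 73) (nat_lit 5) (nat_lit 77) (nat_lit 5) (nat_lit 74) (nat_lit 4) (nat_lit 361) (nat_lit 277) (nat_lit 262))))))))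
noncomputable def xc51 : XT := (XT.nd (nat_lit 2028) (nat_lit 1444) (nat_lit 0) (XT.nd (nat_lit 1014) (nat_lit 1140) (nat_lit 0) (XT.nd (nat_lit 468) (nat_lit 760) (nat_lit 0) (XT.nd (nat_lit 234) (nat_lit 456) (nat_lit 0) (XT.nd (nat_lit 78) (nat_lit 304) (nat_lit 0) (XT.lf (nat_lit 0) (nat_lit 3789360826) (nat_lit 228) (nat_lit 3406311382) (nat_lit 304) (nat_lit 4122646320) (nat_lit 70) (nat_lit 5) (nat_lit 73) (nat_lit 5) (nat_lit 74) (nat_lit 4) (nat_lit 362) (nat_lit 277) (nat_lit 261)) (XT.nd (nat_lit 78) (nat_lit 76) (nat_lit 0) (XT.lf (nat_lit 0) (nat_lit 175966984) (nat_lit 228) (nat_lit 11172754894) (nat_lit 228) (nat_lit 164109139) (nat_lit 67) (nat_lit 4) (nat_lit 70) (nat_lit 5) (nat_lit 70) (nat_lit 4) (nat_lit 363) (nat_lit 277) (nat_lit 260)) (XT.lf (nat_lit 0) (nat_lit 3868135275) (nat_lit 304) (nat_lit 3647472036) (nat_lit 76) (nat_lit 4195532392) (nat_lit 66) (nat_lit 5) (nat_lit 70)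 (nat_lit 5) (nat_lit 67) (nat_lit 4) (nat_lit 364) (nat_lit 277) (nat_lit 259)))) (XT.nd (nat_lit 78) (nat_lit 304) (nat_lit 0) (XT.lf (nat_lit 0) (nat_lit 4226405461) (nat_lit 152) (nat_lit 3755381693) (nat_lit 228) (nat_lit 3934677403) (nat_lit 64) (nat_lit 5) (nat_lit 66) (nat_lit 5) (nat_lit 67) (nat_lit 4) (nat_lit 365) (nat_lit 277) (nat_lit 258)) (XT.nd (nat_lit 78) (nat_lit 0) (nat_lit 0) (XT.lf (nat_lit 0) (nat_lit 52250398) (nat_lit 304) (nat_lit 11971183979) (nat_lit 76) (nat_lit 105621036) (nat_lit 60) (nat_lit 5) (nat_lit 64) (nat_lit 5) (nat_lit 61) (nat_lit 4) (nat_lit 366) (nat_lit 277) (nat_lit 257)) (XT.lf (nat_lit 0) (nat_lit 4119207370) (nat_lit 304) (nat_lit 4151633647) (nat_lit 76) (nat_lit 4074854578) (nat_lit 60) (nat_lit 5) (nat_lit 64) (nat_lit 5) (nat_lit 61) (nat_lit 4) (nat_lit 367) (nat_lit 277) (nat_lit 256))))) (XT.nd (nat_lit 234) (nat_lit 380) (nat_lit 0) (XT.nd (nat_lit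 78) (nat_lit 228) (nat_lit 0) (XT.lf (nat_lit 0) (nat_lit 3853514891) (nat_lit 152) (nat_lit 4417816116) (nat_lit 228) (nat_lit 4298633943) (nat_lit 58) (nat_lit 5) (nat_lit 60) (nat_lit 5) (nat_lit 61) (nat_lit 4) (nat_lit 368) (nat_lit 277) (nat_lit 255)) (XT.nd (nat_lit 78) (nat_lit 228) (nat_lit 0) (XT.lf (nat_lit 0) (nat_lit 12060955541) (nat_lit 152) (nat_lit 456071729) (nat_lit 228) (nat_lit 284888838) (nat_lit 58) (nat_lit 5) (nat_lit 60) (nat_lit 5) (nat_lit 61) (nat_lit 4) (nat_lit 369) (nat_lit 277) (nat_lit 254)) (XT.lf (nat_lit 0) (nat_lit 3809809768) (nat_lit 228) (nat_lit 5613612683) (nat_lit 76) (nat_lit 3615246288) (nat_lit 55) (nat_lit 5) (nat_lit 58) (nat_lit 5) (nat_lit 56) (nat_lit 4) (nat_lit 370) (nat_lit 277) (nat_lit 253)))) (XT.nd (nat_lit 156) (nat_lit 228) (nat_lit 0) (XT.nd (nat_lit 78) (nat_lit 0) (nat_lit 0) (XT.lf (nat_lit 0) (nat_lit 2488783223) (nat_lit 152) (nat_lit 5497782457)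 (nat_lit 228) (nat_lit 5296947329) (nat_lit 53) (nat_lit 5) (nat_lit 55) (nat_lit 5) (nat_lit 56) (nat_lit 4) (nat_lit 371) (nat_lit 277) (nat_lit 252)) (XT.lf (nat_lit 0) (nat_lit 10829199680) (nat_lit 152) (nat_lit 1445972604) (nat_lit 228) (nat_lit 1260955198) (nat_lit 53) (nat_lit 5) (nat_lit 55) (nat_lit 5) (nat_lit 56) (nat_lit 4) (nat_lit 372) (nat_lit 277) (nat_lit 251))) (XT.nd (nat_lit 78) (nat_lit 0) (nat_lit 0) (XT.lf (nat_lit 0) (nat_lit 2851066930) (nat_lit 228) (nat_lit 8235839651) (nat_lit 76) (nat_lit 2708254802) (nat_lit 50) (nat_lit 5) (nat_lit 53) (nat_lit 5) (nat_lit 51) (nat_lit 4) (nat_lit 373) (nat_lit 277) (nat_lit 250)) (XT.lf (nat_lit 0) (nat_lit 7034647294) (nat_lit 228) (nat_lit 77614561) (nat_lit 76) (nat_lit 6950143166) (nat_lit 50) (nat_lit 5) (nat_lit 53) (nat_lit 5) (nat_lit 51) (nat_lit 4) (nat_lit 374) (nat_lit 277) (nat_lit 249)))))) (XT.nd (nat_lit 468) (nat_lit 380)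 (nat_lit 0) (XT.nd (nat_lit 234) (nat_lit 380) (nat_lit 0) (XT.nd (nat_lit 78) (nat_lit 228) (nat_lit 0) (XT.lf (nat_lit 0) (nat_lit 8373764923) (nat_lit 152) (nat_lit 2984075214) (nat_lit 228) (nat_lit 2979421614) (nat_lit 48) (nat_lit 5) (nat_lit 50) (nat_lit 5) (nat_lit 51) (nat_lit 4) (nat_lit 375) (nat_lit 277) (nat_lit 248)) (XT.nd (nat_lit 78) (nat_lit 0) (nat_lit 0) (XT.lf (nat_lit 0) (nat_lit 1136651603) (nat_lit 228) (nat_lit 12253660550) (nat_lit 76) (nat_lit 1230641144) (nat_lit 45) (nat_lit 5) (nat_lit 48) (nat_lit 5) (nat_lit 46) (nat_lit 4) (nat_lit 376) (nat_lit 277) (nat_lit 247)) (XT.lf (nat_lit 0) (nat_lit 5340832193) (nat_lit 228) (nat_lit 4016322270) (nat_lit 76) (nat_lit 5554398222) (nat_lit 45) (nat_lit 5) (nat_lit 48) (nat_lit 5) (nat_lit 46) (nat_lit 4) (nat_lit 377) (nat_lit 277) (nat_lit 246)))) (XT.nd (nat_lit 78) (nat_lit 228) (nat_lit 0) (XT.lf (nat_lit 0) (nat_lit 4442609647)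 (nat_lit 152) (nat_lit 5207299111) (nat_lit 228) (nat_lit 5561615004) (nat_lit 43) (nat_lit 5) (nat_lit 45) (nat_lit 5) (nat_lit 46) (nat_lit 4) (nat_lit 378) (nat_lit 277) (nat_lit 245)) (XT.nd (nat_lit 78) (nat_lit 228) (nat_lit 0) (XT.lf (nat_lit 0) (nat_lit 13126522540) (nat_lit 152) (nat_lit 939151578) (nat_lit 228) (nat_lit 1455513694) (nat_lit 43) (nat_lit 5) (nat_lit 45) (nat_lit 5) (nat_lit 46) (nat_lit 4) (nat_lit 379) (nat_lit 277) (nat_lit 244)) (XT.lf (nat_lit 0) (nat_lit 2751108599) (nat_lit 228) (nat_lit 9656733740) (nat_lit 76) (nat_lit 3430571020) (nat_lit 40) (nat_lit 5) (nat_lit 43) (nat_lit 5) (nat_lit 41) (nat_lit 4) (nat_lit 380) (nat_lit 277) (nat_lit 243))))) (XT.nd (nat_lit 234) (nat_lit 304) (nat_lit 0) (XT.nd (nat_lit 78) (nat_lit 76) (nat_lit 0) (XT.lf (nat_lit 0) (nat_lit 7026784666) (nat_lit 228) (nat_lit 1233434073) (nat_lit 76) (nat_lit 7905356267) (nat_lit 40) (nat_lit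 5) (nat_lit 43) (nat_lit 5) (nat_lit 41) (nat_lit 4) (nat_lit 381) (nat_lit 277) (nat_lit 242)) (XT.nd (nat_lit 78) (nat_lit 0) (nat_lit 0) (XT.lf (nat_lit 0) (nat_lit 7482301314) (nat_lit 76) (nat_lit 3960538733) (nat_lit 152) (nat_lit 5059362697) (nat_lit 39) (nat_lit 5) (nat_lit 40) (nat_lit 5) (nat_lit 41) (nat_lit 4) (nat_lit 382) (nat_lit 277) (nat_lit 241)) (XT.lf (nat_lit 0) (nat_lit 15948927341) (nat_lit 152) (nat_lit 474957123) (nat_lit 0) (nat_lit 426332433) (nat_lit 39) (nat_lit 5) (nat_lit 41) (nat_lit 4) (nat_lit 39) (nat_lit 4) (nat_lit 383) (nat_lit 277) (nat_lit 240)))) (XT.nd (nat_lit 156) (nat_lit 76) (nat_lit 0) (XT.nd (nat_lit 78) (nat_lit 0) (nat_lit 0) (XT.lf (nat_lit 0) (nat_lit 3377787720) (nat_lit 228) (nat_lit 8893425278) (nat_lit 76) (nat_lit 4934629170) (nat_lit 36) (nat_lit 5) (nat_lit 39) (nat_lit 5) (nat_lit 37) (nat_lit 4) (nat_lit 384) (nat_lit 277) (nat_lit 239)) (XT.lf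 (nat_lit 0) (nat_lit 7714291608) (nat_lit 228) (nat_lit 311428637) (nat_lit 76) (nat_lit 9547746056) (nat_lit 36) (nat_lit 5) (nat_lit 39) (nat_lit 5) (nat_lit 37) (nat_lit 4) (nat_lit 385) (nat_lit 277) (nat_lit 238))) (XT.nd (nat_lit 78) (nat_lit 0) (nat_lit 0) (XT.lf (nat_lit 0) (nat_lit 8595154735) (nat_lit 76) (nat_lit 3612363296) (nat_lit 152) (nat_lit 5743814825) (nat_lit 35) (nat_lit 5) (nat_lit 36) (nat_lit 5) (nat_lit 37) (nat_lit 4) (nat_lit 386) (nat_lit 277) (nat_lit 237)) (XT.lf (nat_lit 0) (nat_lit 16791942768) (nat_lit 152) (nat_lit 674980388) (nat_lit 0) (nat_lit 874932360) (nat_lit 35) (nat_lit 5) (nat_lit 37) (nat_lit 4) (nat_lit 35) (nat_lit 4) (nat_lit 387) (nat_lit 277) (nat_lit 236))))))) (XT.nd (nat_lit 1014) (nat_lit 532) (nat_lit 0) (XT.nd (nat_lit 468) (nat_lit 380) (nat_lit 0) (XT.nd (nat_lit 234) (nat_lit 228) (nat_lit 0) (XT.nd (nat_lit 78) (nat_lit 76) (nat_lit 0) (XT.lf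 (nat_lit 0) (nat_lit 2777731489) (nat_lit 228) (nat_lit 10474665526) (nat_lit 76) (nat_lit 5489050325) (nat_lit 32) (nat_lit 5) (nat_lit 35) (nat_lit 5) (nat_lit 33) (nat_lit 4) (nat_lit 388) (nat_lit 277) (nat_lit 235)) (XT.nd (nat_lit 78) (nat_lit 76) (nat_lit 0) (XT.lf (nat_lit 0) (nat_lit 7156917363) (nat_lit 228) (nat_lit 1775646398) (nat_lit 76) (nat_lit 10221427991) (nat_lit 32) (nat_lit 5) (nat_lit 35) (nat_lit 5) (nat_lit 33) (nat_lit 4) (nat_lit 389) (nat_lit 277) (nat_lit 234)) (XT.lf (nat_lit 0) (nat_lit 7230242916) (nat_lit 76) (nat_lit 4454291354) (nat_lit 152) (nat_lit 7893877362) (nat_lit 31) (nat_lit 5) (nat_lit 32) (nat_lit 5) (nat_lit 33) (nat_lit 4) (nat_lit 390) (nat_lit 277) (nat_lit 233)))) (XT.nd (nat_lit 78) (nat_lit 228) (nat_lit 0) (XT.lf (nat_lit 0) (nat_lit 16315377304) (nat_lit 152) (nat_lit 3569430359) (nat_lit 0) (nat_lit 131745001) (nat_lit 31) (nat_lit 5) (nat_lit 33)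 (nat_lit 4) (nat_lit 31) (nat_lit 4) (nat_lit 391) (nat_lit 277) (nat_lit 232)) (XT.nd (nat_lit 78) (nat_lit 0) (nat_lit 0) (XT.lf (nat_lit 0) (nat_lit 651408234) (nat_lit 228) (nat_lit 15030733120) (nat_lit 76) (nat_lit 4784144045) (nat_lit 28) (nat_lit 5) (nat_lit 31) (nat_lit 5) (nat_lit 29) (nat_lit 4) (nat_lit 392) (nat_lit 277) (nat_lit 231)) (XT.lf (nat_lit 0) (nat_lit 5045958830) (nat_lit 228) (nat_lit 6274319227) (nat_lit 76) (nat_lit 9608568911) (nat_lit 28) (nat_lit 5) (nat_lit 31) (nat_lit 5) (nat_lit 29) (nat_lit 4) (nat_lit 393) (nat_lit 277) (nat_lit 230))))) (XT.nd (nat_lit 234) (nat_lit 304) (nat_lit 0) (XT.nd (nat_lit 78) (nat_lit 0) (nat_lit 0) (XT.lf (nat_lit 0) (nat_lit 2707580482) (nat_lit 76) (nat_lit 6841645132) (nat_lit 152) (nat_lit 11856762696) (nat_lit 27) (nat_lit 5) (nat_lit 28) (nat_lit 5) (nat_lit 29) (nat_lit 4) (nat_lit 394) (nat_lit 277) (nat_lit 229)) (XT.nd (nat_lit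 78) (nat_lit 0) (nat_lit 0) (XT.lf (nat_lit 0) (nat_lit 11998396087) (nat_lit 76) (nat_lit 2203979814) (nat_lit 152) (nat_lit 7694633470) (nat_lit 27) (nat_lit 5) (nat_lit 28) (nat_lit 5) (nat_lit 29) (nat_lit 4) (nat_lit 395) (nat_lit 277) (nat_lit 228)) (XT.lf (nat_lit 0) (nat_lit 18972315322) (nat_lit 152) (nat_lit 947162773) (nat_lit 0) (nat_lit 2483975911) (nat_lit 27) (nat_lit 5) (nat_lit 29) (nat_lit 4) (nat_lit 27) (nat_lit 4) (nat_lit 396) (nat_lit 277) (nat_lit 227)))) (XT.nd (nat_lit 156) (nat_lit 76) (nat_lit 0) (XT.nd (nat_lit 78) (nat_lit 0) (nat_lit 0) (XT.lf (nat_lit 0) (nat_lit 997793875) (nat_lit 228) (nat_lit 14604737534) (nat_lit 76) (nat_lit 7320603797) (nat_lit 24) (nat_lit 5) (nat_lit 27) (nat_lit 5) (nat_lit 25) (nat_lit 4) (nat_lit 397) (nat_lit 277) (nat_lit 226)) (XT.lf (nat_lit 0) (nat_lit 5454213708) (nat_lit 228) (nat_lit 5695991381) (nat_lit 76) (nat_lit 12308283186) (nat_lit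 24) (nat_lit 5) (nat_lit 27) (nat_lit 5) (nat_lit 25) (nat_lit 4) (nat_lit 398) (nat_lit 277) (nat_lit 225))) (XT.nd (nat_lit 78) (nat_lit 0) (nat_lit 0) (XT.lf (nat_lit 0) (nat_lit 3464965139) (nat_lit 76) (nat_lit 6567933022) (nat_lit 152) (nat_lit 13977354414) (nat_lit 23) (nat_lit 5) (nat_lit 24) (nat_lit 5) (nat_lit 25) (nat_lit 4) (nat_lit 399) (nat_lit 277) (nat_lit 224)) (XT.lf (nat_lit 0) (nat_lit 12935657078) (nat_lit 76) (nat_lit 1826585201) (nat_lit 152) (nat_lit 9815936126) (nat_lit 23) (nat_lit 5) (nat_lit 24) (nat_lit 5) (nat_lit 25) (nat_lit 4) (nat_lit 400) (nat_lit 277) (nat_lit 223)))))) (XT.nd (nat_lit 546) (nat_lit 304) (nat_lit 0) (XT.nd (nat_lit 234) (nat_lit 76) (nat_lit 0) (XT.nd (nat_lit 78) (nat_lit 152) (nat_lit 0) (XT.lf (nat_lit 0) (nat_lit 19619569985) (nat_lit 152) (nat_lit 2582473441) (nat_lit 0) (nat_lit 2961522841) (nat_lit 23) (nat_lit 5) (nat_lit 25) (nat_lit 4) (nat_lit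 23) (nat_lit 4) (nat_lit 401) (nat_lit 277) (nat_lit 222)) (XT.nd (nat_lit 78) (nat_lit 76) (nat_lit 0) (XT.lf (nat_lit 0) (nat_lit 6785629732) (nat_lit 76) (nat_lit 17878278549) (nat_lit 76) (nat_lit 1101375899) (nat_lit 22) (nat_lit 4) (nat_lit 23) (nat_lit 5) (nat_lit 23) (nat_lit 4) (nat_lit 402) (nat_lit 277) (nat_lit 221)) (XT.lf (nat_lit 0) (nat_lit 3391099599) (nat_lit 152) (nat_lit 10008364157) (nat_lit 76) (nat_lit 12985063318) (nat_lit 21) (nat_lit 5) (nat_lit 23) (nat_lit 5) (nat_lit 22) (nat_lit 4) (nat_lit 403) (nat_lit 277) (nat_lit 220)))) (XT.nd (nat_lit 156) (nat_lit 0) (nat_lit 0) (XT.nd (nat_lit 78) (nat_lit 76) (nat_lit 0) (XT.lf (nat_lit 0) (nat_lit 7955475759) (nat_lit 152) (nat_lit 854713268) (nat_lit 76) (nat_lit 18213059733) (nat_lit 21) (nat_lit 5) (nat_lit 23) (nat_lit 5) (nat_lit 22) (nat_lit 4) (nat_lit 404) (nat_lit 277) (nat_lit 219)) (XT.lf (nat_lit 0) (nat_lit 8669048006)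 (nat_lit 76) (nat_lit 4031516866) (nat_lit 152) (nat_lit 14979260116) (nat_lit 20) (nat_lit 5) (nat_lit 21) (nat_lit 5) (nat_lit 22) (nat_lit 4) (nat_lit 405) (nat_lit 277) (nat_lit 218))) (XT.nd (nat_lit 78) (nat_lit 0) (nat_lit 0) (XT.lf (nat_lit 0) (nat_lit 17565858192) (nat_lit 152) (nat_lit 9942237455) (nat_lit 0) (nat_lit 848673470) (nat_lit 20) (nat_lit 5) (nat_lit 22) (nat_lit 4) (nat_lit 20) (nat_lit 4) (nat_lit 406) (nat_lit 277) (nat_lit 217)) (XT.lf (nat_lit 0) (nat_lit 22578749592) (nat_lit 152) (nat_lit 713203523) (nat_lit 0) (nat_lit 5762025254) (nat_lit 20) (nat_lit 5) (nat_lit 22) (nat_lit 4) (nat_lit 20) (nat_lit 4) (nat_lit 407) (nat_lit 277) (nat_lit 216))))) (XT.nd (nat_lit 234) (nat_lit 152) (nat_lit 0) (XT.nd (nat_lit 78) (nat_lit 76) (nat_lit 0) (XT.lf (nat_lit 0) (nat_lit 8896750061) (nat_lit 76) (nat_lit 18893636806) (nat_lit 76) (nat_lit 1980272064) (nat_lit 19) (nat_lit 4) (nat_lit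 20) (nat_lit 5) (nat_lit 20) (nat_lit 4) (nat_lit 408) (nat_lit 277) (nat_lit 215)) (XT.nd (nat_lit 78) (nat_lit 0) (nat_lit 0) (XT.lf (nat_lit 0) (nat_lit 2567993795) (nat_lit 152) (nat_lit 11794162970) (nat_lit 76) (nat_lit 16146819677) (nat_lit 18) (nat_lit 5) (nat_lit 20) (nat_lit 5) (nat_lit 19) (nat_lit 4) (nat_lit 409) (nat_lit 277) (nat_lit 214)) (XT.lf (nat_lit 0) (nat_lit 7176876144) (nat_lit 152) (nat_lit 2529224650) (nat_lit 76) (nat_lit 21563840696) (nat_lit 18) (nat_lit 5) (nat_lit 20) (nat_lit 5) (nat_lit 19) (nat_lit 4) (nat_lit 410) (nat_lit 277) (nat_lit 213)))) (XT.nd (nat_lit 156) (nat_lit 76) (nat_lit 0) (XT.nd (nat_lit 78) (nat_lit 0) (nat_lit 0) (XT.lf (nat_lit 0) (nat_lit 7086316815) (nat_lit 76) (nat_lit 4870845598) (nat_lit 152) (nat_lit 20095584112) (nat_lit 17) (nat_lit 5) (nat_lit 18) (nat_lit 5) (nat_lit 19) (nat_lit 4) (nat_lit 411) (nat_lit 277) (nat_lit 212)) (XT.lf (nat_lit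 0) (nat_lit 16872824095) (nat_lit 152) (nat_lit 15883135105) (nat_lit 0) (nat_lit 103322512) (nat_lit 17) (nat_lit 5) (nat_lit 19) (nat_lit 4) (nat_lit 17) (nat_lit 4) (nat_lit 412) (nat_lit 277) (nat_lit 211))) (XT.nd (nat_lit 78) (nat_lit 76) (nat_lit 0) (XT.lf (nat_lit 0) (nat_lit 21950319177) (nat_lit 152) (nat_lit 6639384957) (nat_lit 0) (nat_lit 5099882777) (nat_lit 17) (nat_lit 5) (nat_lit 19) (nat_lit 4) (nat_lit 17) (nat_lit 4) (nat_lit 413) (nat_lit 277) (nat_lit 210)) (XT.lf (nat_lit 0) (nat_lit 2875837288) (nat_lit 76) (nat_lit 24299069776) (nat_lit 76) (nat_lit 7370055884) (nat_lit 16) (nat_lit 4) (nat_lit 17) (nat_lit 5) (nat_lit 17) (nat_lit 4) (nat_lit 414) (nat_lit 277) (nat_lit 209))))))))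
noncomputable def xc52 : XT := (XT.nd (nat_lit 2028) (nat_lit 76) (nat_lit 0) (XT.nd (nat_lit 1014) (nat_lit 228) (nat_lit 0) (XT.nd (nat_lit 468) (nat_lit 228) (nat_lit 0) (XT.nd (nat_lit 234) (nat_lit 76) (nat_lit 0) (XT.nd (nat_lit 78) (nat_lit 76) (nat_lit 0) (XT.lf (nat_lit 0) (nat_lit 12751266170) (nat_lit 76) (nat_lit 19839502655) (nat_lit 76) (nat_lit 2834199936) (nat_lit 16) (nat_lit 4) (nat_lit 17) (nat_lit 5) (nat_lit 17) (nat_lit 4) (nat_lit 415) (nat_lit 277) (nat_lit 208)) (XT.nd (nat_lit 78) (nat_lit 0) (nat_lit 0) (XT.lf (nat_lit 0) (nat_lit 1769992388) (nat_lit 152) (nat_lit 13486284992) (nat_lit 76) (nat_lit 21075528081) (nat_lit 15) (nat_lit 5) (nat_lit 17) (nat_lit 5) (nat_lit 16) (nat_lit 4) (nat_lit 416) (nat_lit 277) (nat_lit 207)) (XT.lf (nat_lit 0) (nat_lit 6424395834) (nat_lit 152) (nat_lit 4109755533) (nat_lit 76) (nat_lit 26731786750) (nat_lit 15) (nat_lit 5) (nat_lit 17) (nat_lit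 5) (nat_lit 16) (nat_lit 4) (nat_lit 417) (nat_lit 277) (nat_lit 206)))) (XT.nd (nat_lit 78) (nat_lit 0) (nat_lit 0) (XT.lf (nat_lit 0) (nat_lit 5600611028) (nat_lit 76) (nat_lit 5641608276) (nat_lit 152) (nat_lit 26985165881) (nat_lit 14) (nat_lit 5) (nat_lit 15) (nat_lit 5) (nat_lit 16) (nat_lit 4) (nat_lit 418) (nat_lit 277) (nat_lit 205)) (XT.nd (nat_lit 78) (nat_lit 0) (nat_lit 0) (XT.lf (nat_lit 0) (nat_lit 15630344013) (nat_lit 76) (nat_lit 586020424) (nat_lit 152) (nat_lit 23000961574) (nat_lit 14) (nat_lit 5) (nat_lit 15) (nat_lit 5) (nat_lit 16) (nat_lit 4) (nat_lit 419) (nat_lit 277) (nat_lit 204)) (XT.lf (nat_lit 0) (nat_lit 21355060889) (nat_lit 152) (nat_lit 14375594309) (nat_lit 0) (nat_lit 4505853891) (nat_lit 14) (nat_lit 5) (nat_lit 16) (nat_lit 4) (nat_lit 14) (nat_lit 4) (nat_lit 420) (nat_lit 277) (nat_lit 203))))) (XT.nd (nat_lit 234) (nat_lit 152) (nat_lit 0) (XT.nd (nat_lit 78)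 (nat_lit 76) (nat_lit 0) (XT.lf (nat_lit 0) (nat_lit 26625472677) (nat_lit 152) (nat_lit 4947236196) (nat_lit 0) (nat_lit 9714235881) (nat_lit 14) (nat_lit 5) (nat_lit 16) (nat_lit 4) (nat_lit 14) (nat_lit 4) (nat_lit 421) (nat_lit 277) (nat_lit 202)) (XT.nd (nat_lit 78) (nat_lit 0) (nat_lit 0) (XT.lf (nat_lit 0) (nat_lit 4805741218) (nat_lit 76) (nat_lit 27267026332) (nat_lit 76) (nat_lit 10295566432) (nat_lit 13) (nat_lit 4) (nat_lit 14) (nat_lit 5) (nat_lit 14) (nat_lit 4) (nat_lit 422) (nat_lit 277) (nat_lit 201)) (XT.lf (nat_lit 0) (nat_lit 14901222575) (nat_lit 76) (nat_lit 22805094838) (nat_lit 76) (nat_lit 5775165904) (nat_lit 13) (nat_lit 4) (nat_lit 14) (nat_lit 5) (nat_lit 14) (nat_lit 4) (nat_lit 423) (nat_lit 277) (nat_lit 200)))) (XT.nd (nat_lit 156) (nat_lit 76) (nat_lit 0) (XT.nd (nat_lit 78) (nat_lit 76) (nat_lit 0) (XT.lf (nat_lit 0) (nat_lit 25249569467) (nat_lit 76) (nat_lit 18232972999)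 (nat_lit 76) (nat_lit 1146278014) (nat_lit 13) (nat_lit 4) (nat_lit 14) (nat_lit 5) (nat_lit 14) (nat_lit 4) (nat_lit 424) (nat_lit 277) (nat_lit 199)) (XT.lf (nat_lit 0) (nat_lit 3524987730) (nat_lit 152) (nat_lit 9986082564) (nat_lit 76) (nat_lit 32299240945) (nat_lit 12) (nat_lit 5) (nat_lit 14) (nat_lit 5) (nat_lit 13) (nat_lit 4) (nat_lit 425) (nat_lit 277) (nat_lit 198))) (XT.nd (nat_lit 78) (nat_lit 76) (nat_lit 0) (XT.lf (nat_lit 0) (nat_lit 8288283722) (nat_lit 152) (nat_lit 370099148) (nat_lit 76) (nat_lit 38369278553) (nat_lit 12) (nat_lit 5) (nat_lit 14) (nat_lit 5) (nat_lit 13) (nat_lit 4) (nat_lit 426) (nat_lit 277) (nat_lit 197)) (XT.lf (nat_lit 0) (nat_lit 9676952472) (nat_lit 76) (nat_lit 3586208393) (nat_lit 152) (nat_lit 35016313809) (nat_lit 11) (nat_lit 5) (nat_lit 12) (nat_lit 5) (nat_lit 13) (nat_lit 4) (nat_lit 427) (nat_lit 277) (nat_lit 196)))))) (XT.nd (nat_lit 468) (nat_lit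 152) (nat_lit 0) (XT.nd (nat_lit 234) (nat_lit 76) (nat_lit 0) (XT.nd (nat_lit 78) (nat_lit 0) (nat_lit 0) (XT.lf (nat_lit 0) (nat_lit 18382526742) (nat_lit 152) (nat_lit 29597817989) (nat_lit 0) (nat_lit 1588643260) (nat_lit 11) (nat_lit 5) (nat_lit 13) (nat_lit 4) (nat_lit 11) (nat_lit 4) (nat_lit 428) (nat_lit 277) (nat_lit 195)) (XT.nd (nat_lit 78) (nat_lit 0) (nat_lit 0) (XT.lf (nat_lit 0) (nat_lit 23667409173) (nat_lit 152) (nat_lit 20403437308) (nat_lit 0) (nat_lit 6825985016) (nat_lit 11) (nat_lit 5) (nat_lit 13) (nat_lit 4) (nat_lit 11) (nat_lit 4) (nat_lit 429) (nat_lit 277) (nat_lit 194)) (XT.lf (nat_lit 0) (nat_lit 29087953187) (nat_lit 152) (nat_lit 10976873403) (nat_lit 0) (nat_lit 12200373035) (nat_lit 11) (nat_lit 5) (nat_lit 13) (nat_lit 4) (nat_lit 11) (nat_lit 4) (nat_lit 430) (nat_lit 277) (nat_lit 193)))) (XT.nd (nat_lit 78) (nat_lit 76) (nat_lit 0) (XT.lf (nat_lit 0) (nat_lit 34648895182)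 (nat_lit 152) (nat_lit 1309889473) (nat_lit 0) (nat_lit 17716503385) (nat_lit 11) (nat_lit 5) (nat_lit 13) (nat_lit 4) (nat_lit 11) (nat_lit 4) (nat_lit 431) (nat_lit 277) (nat_lit 192)) (XT.nd (nat_lit 78) (nat_lit 0) (nat_lit 0) (XT.lf (nat_lit 0) (nat_lit 8777236866) (nat_lit 76) (nat_lit 31662229538) (nat_lit 76) (nat_lit 14686331289) (nat_lit 10) (nat_lit 4) (nat_lit 11) (nat_lit 5) (nat_lit 11) (nat_lit 4) (nat_lit 432) (nat_lit 277) (nat_lit 191)) (XT.lf (nat_lit 0) (nat_lit 19153089193) (nat_lit 76) (nat_lit 27242558359) (nat_lit 76) (nat_lit 10224420836) (nat_lit 10) (nat_lit 4) (nat_lit 11) (nat_lit 5) (nat_lit 11) (nat_lit 4) (nat_lit 433) (nat_lit 277) (nat_lit 190))))) (XT.nd (nat_lit 234) (nat_lit 76) (nat_lit 0) (XT.nd (nat_lit 78) (nat_lit 76) (nat_lit 0) (XT.lf (nat_lit 0) (nat_lit 29800664416) (nat_lit 76) (nat_lit 22709136586) (nat_lit 76) (nat_lit 5649990059) (nat_lit 10) (nat_lit 4)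 (nat_lit 11) (nat_lit 5) (nat_lit 11) (nat_lit 4) (nat_lit 434) (nat_lit 277) (nat_lit 189)) (XT.nd (nat_lit 78) (nat_lit 76) (nat_lit 0) (XT.lf (nat_lit 0) (nat_lit 40729266242) (nat_lit 76) (nat_lit 18058002977) (nat_lit 76) (nat_lit 959041883) (nat_lit 10) (nat_lit 4) (nat_lit 11) (nat_lit 5) (nat_lit 11) (nat_lit 4) (nat_lit 435) (nat_lit 277) (nat_lit 188)) (XT.lf (nat_lit 0) (nat_lit 3777345986) (nat_lit 152) (nat_lit 9469603660) (nat_lit 76) (nat_lit 48132954159) (nat_lit 9) (nat_lit 5) (nat_lit 11) (nat_lit 5) (nat_lit 10) (nat_lit 4) (nat_lit 436) (nat_lit 277) (nat_lit 187)))) (XT.nd (nat_lit 156) (nat_lit 0) (nat_lit 0) (XT.nd (nat_lit 78) (nat_lit 0) (nat_lit 0) (XT.lf (nat_lit 0) (nat_lit 324518315) (nat_lit 76) (nat_lit 8296005514) (nat_lit 152) (nat_lit 54442178560) (nat_lit 8) (nat_lit 5) (nat_lit 9) (nat_lit 5) (nat_lit 10) (nat_lit 4) (nat_lit 437) (nat_lit 277) (nat_lit 186)) (XT.lf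 (nat_lit 0) (nat_lit 10570360647) (nat_lit 76) (nat_lit 3115324907) (nat_lit 152) (nat_lit 51108000847) (nat_lit 8) (nat_lit 5) (nat_lit 9) (nat_lit 5) (nat_lit 10) (nat_lit 4) (nat_lit 438) (nat_lit 277) (nat_lit 185))) (XT.nd (nat_lit 78) (nat_lit 0) (nat_lit 0) (XT.lf (nat_lit 0) (nat_lit 18905603920) (nat_lit 152) (nat_lit 45509927340) (nat_lit 0) (nat_lit 2160986682) (nat_lit 8) (nat_lit 5) (nat_lit 10) (nat_lit 4) (nat_lit 8) (nat_lit 4) (nat_lit 439) (nat_lit 277) (nat_lit 184)) (XT.lf (nat_lit 0) (nat_lit 24294959135) (nat_lit 152) (nat_lit 36600494295) (nat_lit 0) (nat_lit 7516997823) (nat_lit 8) (nat_lit 5) (nat_lit 10) (nat_lit 4) (nat_lit 8) (nat_lit 4) (nat_lit 440) (nat_lit 277) (nat_lit 183))))))) (XT.nd (nat_lit 39702) (nat_lit 0) (nat_lit 4788) (XT.nd (nat_lit 468) (nat_lit 0) (nat_lit 0) (XT.nd (nat_lit 234) (nat_lit 76) (nat_lit 0) (XT.nd (nat_lit 78) (nat_lit 0) (nat_lit 0) (XT.lf (nat_lit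 0) (nat_lit 29828513934) (nat_lit 152) (nat_lit 27457295269) (nat_lit 0) (nat_lit 13018179736) (nat_lit 8) (nat_lit 5) (nat_lit 10) (nat_lit 4) (nat_lit 8) (nat_lit 4) (nat_lit 441) (nat_lit 277) (nat_lit 182)) (XT.nd (nat_lit 78) (nat_lit 0) (nat_lit 0) (XT.lf (nat_lit 0) (nat_lit 35511103464) (nat_lit 152) (nat_lit 18072341060) (nat_lit 0) (nat_lit 18669339279) (nat_lit 8) (nat_lit 5) (nat_lit 10) (nat_lit 4) (nat_lit 8) (nat_lit 4) (nat_lit 442) (nat_lit 277) (nat_lit 181)) (XT.lf (nat_lit 0) (nat_lit 41347693093) (nat_lit 152) (nat_lit 8437431221) (nat_lit 0) (nat_lit 24475414358) (nat_lit 8) (nat_lit 5) (nat_lit 10) (nat_lit 4) (nat_lit 8) (nat_lit 4) (nat_lit 443) (nat_lit 277) (nat_lit 180)))) (XT.nd (nat_lit 78) (nat_lit 0) (nat_lit 0) (XT.lf (nat_lit 0) (nat_lit 1484827430) (nat_lit 76) (nat_lit 45872828393) (nat_lit 76) (nat_lit 28970923882) (nat_lit 7) (nat_lit 4) (nat_lit 8) (nat_lit 5) (nat_lit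 8) (nat_lit 4) (nat_lit 444) (nat_lit 277) (nat_lit 179)) (XT.nd (nat_lit 78) (nat_lit 0) (nat_lit 0) (XT.lf (nat_lit 0) (nat_lit 11847340811) (nat_lit 76) (nat_lit 41769954476) (nat_lit 76) (nat_lit 24839287075) (nat_lit 7) (nat_lit 4) (nat_lit 8) (nat_lit 5) (nat_lit 8) (nat_lit 4) (nat_lit 445) (nat_lit 277) (nat_lit 178)) (XT.lf (nat_lit 0) (nat_lit 22491242118) (nat_lit 76) (nat_lit 37558119038) (nat_lit 76) (nat_lit 20599526501) (nat_lit 7) (nat_lit 4) (nat_lit 8) (nat_lit 5) (nat_lit 8) (nat_lit 4) (nat_lit 446) (nat_lit 277) (nat_lit 177))))) (XT.nd (nat_lit 38922) (nat_lit 0) (nat_lit 7752) (XT.nd (nat_lit 78) (nat_lit 0) (nat_lit 0) (XT.lf (nat_lit 0) (nat_lit 33425831849) (nat_lit 76) (nat_lit 33233641836) (nat_lit 76) (nat_lit 16247937516) (nat_lit 7) (nat_lit 4) (nat_lit 8) (nat_lit 5) (nat_lit 8) (nat_lit 4) (nat_lit 447) (nat_lit 277) (nat_lit 176)) (XT.nd (nat_lit 38766) (nat_lit 0) (nat_lit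 8892) (XT.lf (nat_lit 0) (nat_lit 44660664498) (nat_lit 76) (nat_lit 28792744200) (nat_lit 76) (nat_lit 11780717761) (nat_lit 7) (nat_lit 4) (nat_lit 8) (nat_lit 5) (nat_lit 8) (nat_lit 4) (nat_lit 448) (nat_lit 277) (nat_lit 175)) (XT.lf (nat_lit 0) (nat_lit 252288663) (nat_lit 380) (nat_lit 2045662745) (nat_lit 380) (nat_lit 2045662745) (nat_lit 124) (nat_lit 4) (nat_lit 129) (nat_lit 5) (nat_lit 129) (nat_lit 4) (nat_lit 344) (nat_lit 278) (nat_lit 278)))) (XT.nd (nat_lit 156) (nat_lit 760) (nat_lit 0) (XT.nd (nat_lit 78) (nat_lit 380) (nat_lit 0) (XT.lf (nat_lit 0) (nat_lit 7307132829) (nat_lit 380) (nat_lit 1259592216) (nat_lit 380) (nat_lit 231252258) (nat_lit 124) (nat_lit 4) (nat_lit 129) (nat_lit 5) (nat_lit 129) (nat_lit 4) (nat_lit 345) (nat_lit 278) (nat_lit 277)) (XT.lf (nat_lit 0) (nat_lit 3643762236) (nat_lit 380) (nat_lit 3592033693) (nat_lit 0) (nat_lit 1676064891) (nat_lit 119) (nat_lit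 5) (nat_lit 124) (nat_lit 4) (nat_lit 119) (nat_lit 4) (nat_lit 346) (nat_lit 278) (nat_lit 276))) (XT.nd (nat_lit 78) (nat_lit 380) (nat_lit 0) (XT.lf (nat_lit 0) (nat_lit 3250880812) (nat_lit 380) (nat_lit 4344052663) (nat_lit 380) (nat_lit 1435278582) (nat_lit 114) (nat_lit 4) (nat_lit 119) (nat_lit 5) (nat_lit 119) (nat_lit 4) (nat_lit 347) (nat_lit 278) (nat_lit 275)) (XT.lf (nat_lit 0) (nat_lit 1083399278) (nat_lit 304) (nat_lit 1333270717) (nat_lit 380) (nat_lit 6736177390) (nat_lit 109) (nat_lit 5) (nat_lit 113) (nat_lit 5) (nat_lit 114) (nat_lit 4) (nat_lit 348) (nat_lit 278) (nat_lit 274)))))) (XT.nd (nat_lit 546) (nat_lit 1292) (nat_lit 0) (XT.nd (nat_lit 234) (nat_lit 988) (nat_lit 0) (XT.nd (nat_lit 78) (nat_lit 684) (nat_lit 0) (XT.lf (nat_lit 0) (nat_lit 6338441234) (nat_lit 380) (nat_lit 1174737470) (nat_lit 0) (nat_lit 1766115124) (nat_lit 109) (nat_lit 5) (nat_lit 114) (nat_lit 4) (nat_lit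 109) (nat_lit 4) (nat_lit 349) (nat_lit 278) (nat_lit 273)) (XT.nd (nat_lit 78) (nat_lit 304) (nat_lit 0) (XT.lf (nat_lit 0) (nat_lit 928953391) (nat_lit 380) (nat_lit 3522685216) (nat_lit 76) (nat_lit 4958279064) (nat_lit 104) (nat_lit 5) (nat_lit 109) (nat_lit 5) (nat_lit 105) (nat_lit 4) (nat_lit 350) (nat_lit 278) (nat_lit 272)) (XT.lf (nat_lit 0) (nat_lit 3548444041) (nat_lit 304) (nat_lit 1263716402) (nat_lit 380) (nat_lit 4732781153) (nat_lit 100) (nat_lit 5) (nat_lit 104) (nat_lit 5) (nat_lit 105) (nat_lit 4) (nat_lit 351) (nat_lit 278) (nat_lit 271)))) (XT.nd (nat_lit 156) (nat_lit 608) (nat_lit 0) (XT.nd (nat_lit 78) (nat_lit 76) (nat_lit 0) (XT.lf (nat_lit 0) (nat_lit 1088864450) (nat_lit 304) (nat_lit 7700068378) (nat_lit 304) (nat_lit 895817302) (nat_lit 96) (nat_lit 4) (nat_lit 100) (nat_lit 5) (nat_lit 100) (nat_lit 4) (nat_lit 352) (nat_lit 278) (nat_lit 270)) (XT.lf (nat_lit 0) (nat_lit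 2981947009) (nat_lit 380) (nat_lit 1493793311) (nat_lit 76) (nat_lit 5352614663) (nat_lit 95) (nat_lit 5) (nat_lit 100) (nat_lit 5) (nat_lit 96) (nat_lit 4) (nat_lit 353) (nat_lit 278) (nat_lit 269))) (XT.nd (nat_lit 78) (nat_lit 380) (nat_lit 0) (XT.lf (nat_lit 0) (nat_lit 5795410380) (nat_lit 228) (nat_lit 1132576357) (nat_lit 304) (nat_lit 3048958800) (nat_lit 92) (nat_lit 5) (nat_lit 95) (nat_lit 5) (nat_lit 96) (nat_lit 4) (nat_lit 354) (nat_lit 278) (nat_lit 268)) (XT.lf (nat_lit 0) (nat_lit 827800452) (nat_lit 380) (nat_lit 7026994371) (nat_lit 76) (nat_lit 2275523468) (nat_lit 87) (nat_lit 5) (nat_lit 92) (nat_lit 5) (nat_lit 88) (nat_lit 4) (nat_lit 355) (nat_lit 278) (nat_lit 267))))) (XT.nd (nat_lit 234) (nat_lit 760) (nat_lit 0) (XT.nd (nat_lit 78) (nat_lit 304) (nat_lit 0) (XT.lf (nat_lit 0) (nat_lit 236739740) (nat_lit 228) (nat_lit 4494403766) (nat_lit 304) (nat_lit 5557134724) (nat_lit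 84) (nat_lit 5) (nat_lit 87) (nat_lit 5) (nat_lit 88) (nat_lit 4) (nat_lit 356) (nat_lit 278) (nat_lit 266)) (XT.nd (nat_lit 78) (nat_lit 304) (nat_lit 0) (XT.lf (nat_lit 0) (nat_lit 7732240233) (nat_lit 228) (nat_lit 1006946601) (nat_lit 304) (nat_lit 1712199505) (nat_lit 84) (nat_lit 5) (nat_lit 87) (nat_lit 5) (nat_lit 88) (nat_lit 4) (nat_lit 357) (nat_lit 278) (nat_lit 265)) (XT.lf (nat_lit 0) (nat_lit 2193438307) (nat_lit 304) (nat_lit 5868166476) (nat_lit 76) (nat_lit 2557493155) (nat_lit 80) (nat_lit 5) (nat_lit 84) (nat_lit 5) (nat_lit 81) (nat_lit 4) (nat_lit 358) (nat_lit 278) (nat_lit 264)))) (XT.nd (nat_lit 156) (nat_lit 532) (nat_lit 0) (XT.nd (nat_lit 78) (nat_lit 0) (nat_lit 0) (XT.lf (nat_lit 0) (nat_lit 1584748679) (nat_lit 228) (nat_lit 4568966999) (nat_lit 304) (nat_lit 4638494316) (nat_lit 77) (nat_lit 5) (nat_lit 80) (nat_lit 5) (nat_lit 81) (nat_lit 4) (nat_lit 359) (nat_lit 278)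 (nat_lit 263)) (XT.lf (nat_lit 0) (nat_lit 9253990428) (nat_lit 228) (nat_lit 958153157) (nat_lit 304) (nat_lit 759024767) (nat_lit 77) (nat_lit 5) (nat_lit 80) (nat_lit 5) (nat_lit 81) (nat_lit 4) (nat_lit 360) (nat_lit 278) (nat_lit 262))) (XT.nd (nat_lit 78) (nat_lit 228) (nat_lit 0) (XT.lf (nat_lit 0) (nat_lit 3179510244) (nat_lit 304) (nat_lit 5224666486) (nat_lit 76) (nat_lit 2750241290) (nat_lit 73) (nat_lit 5) (nat_lit 77) (nat_lit 5) (nat_lit 74) (nat_lit 4) (nat_lit 361) (nat_lit 278) (nat_lit 261)) (XT.lf (nat_lit 0) (nat_lit 2402249934) (nat_lit 228) (nat_lit 4791037547) (nat_lit 304) (nat_lit 4150512377) (nat_lit 70) (nat_lit 5) (nat_lit 73) (nat_lit 5) (nat_lit 74) (nat_lit 4) (nat_lit 362) (nat_lit 278) (nat_lit 260))))))))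
noncomputable def xc53 : XT := (XT.nd (nat_lit 2028) (nat_lit 1216) (nat_lit 0) (XT.nd (nat_lit 1014) (nat_lit 1216) (nat_lit 0) (XT.nd (nat_lit 468) (nat_lit 760) (nat_lit 0) (XT.nd (nat_lit 234) (nat_lit 456) (nat_lit 0) (XT.nd (nat_lit 78) (nat_lit 456) (nat_lit 0) (XT.lf (nat_lit 0) (nat_lit 10240213105) (nat_lit 228) (nat_lit 1063339542) (nat_lit 304) (nat_lit 236057768) (nat_lit 70) (nat_lit 5) (nat_lit 73) (nat_lit 5) (nat_lit 74) (nat_lit 4) (nat_lit 363) (nat_lit 278) (nat_lit 259)) (XT.nd (nat_lit 78) (nat_lit 152) (nat_lit 0) (XT.lf (nat_lit 0) (nat_lit 3736627856) (nat_lit 304) (nat_lit 5227402403) (nat_lit 76) (nat_lit 2775752173) (nat_lit 66) (nat_lit 5) (nat_lit 70) (nat_lit 5) (nat_lit 67) (nat_lit 4) (nat_lit 364) (nat_lit 278) (nat_lit 258)) (XT.lf (nat_lit 0) (nat_lit 2553061785) (nat_lit 152) (nat_lit 5244359954) (nat_lit 228) (nat_lit 4149284587) (nat_lit 64) (nat_lit 5) (nat_lit 66)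 (nat_lit 5) (nat_lit 67) (nat_lit 4) (nat_lit 365) (nat_lit 278) (nat_lit 257)))) (XT.nd (nat_lit 78) (nat_lit 456) (nat_lit 0) (XT.lf (nat_lit 0) (nat_lit 10551962270) (nat_lit 152) (nat_lit 1407215122) (nat_lit 228) (nat_lit 201312619) (nat_lit 64) (nat_lit 5) (nat_lit 66) (nat_lit 5) (nat_lit 67) (nat_lit 4) (nat_lit 366) (nat_lit 278) (nat_lit 256)) (XT.nd (nat_lit 78) (nat_lit 152) (nat_lit 0) (XT.lf (nat_lit 0) (nat_lit 3803723407) (nat_lit 304) (nat_lit 6027509596) (nat_lit 76) (nat_lit 2547942893) (nat_lit 60) (nat_lit 5) (nat_lit 64) (nat_lit 5) (nat_lit 61) (nat_lit 4) (nat_lit 367) (nat_lit 278) (nat_lit 255)) (XT.lf (nat_lit 0) (nat_lit 1879730572) (nat_lit 152) (nat_lit 6021807087) (nat_lit 228) (nat_lit 4703548691) (nat_lit 58) (nat_lit 5) (nat_lit 60) (nat_lit 5) (nat_lit 61) (nat_lit 4) (nat_lit 368) (nat_lit 278) (nat_lit 254))))) (XT.nd (nat_lit 234) (nat_lit 380) (nat_lit 0) (XT.nd (nat_lit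 78) (nat_lit 380) (nat_lit 0) (XT.lf (nat_lit 0) (nat_lit 10028360774) (nat_lit 152) (nat_lit 2084000871) (nat_lit 228) (nat_lit 725733504) (nat_lit 58) (nat_lit 5) (nat_lit 60) (nat_lit 5) (nat_lit 61) (nat_lit 4) (nat_lit 369) (nat_lit 278) (nat_lit 253)) (XT.nd (nat_lit 78) (nat_lit 152) (nat_lit 0) (XT.lf (nat_lit 0) (nat_lit 3306434400) (nat_lit 228) (nat_lit 7800020226) (nat_lit 76) (nat_lit 1970665092) (nat_lit 55) (nat_lit 5) (nat_lit 58) (nat_lit 5) (nat_lit 56) (nat_lit 4) (nat_lit 370) (nat_lit 278) (nat_lit 252)) (XT.lf (nat_lit 0) (nat_lit 199687063) (nat_lit 152) (nat_lit 7227516912) (nat_lit 228) (nat_lit 5896450104) (nat_lit 53) (nat_lit 5) (nat_lit 55) (nat_lit 5) (nat_lit 56) (nat_lit 4) (nat_lit 371) (nat_lit 278) (nat_lit 251)))) (XT.nd (nat_lit 156) (nat_lit 152) (nat_lit 0) (XT.nd (nat_lit 78) (nat_lit 228) (nat_lit 0) (XT.lf (nat_lit 0) (nat_lit 8482652238) (nat_lit 152) (nat_lit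 3199613710) (nat_lit 228) (nat_lit 1895019136) (nat_lit 53) (nat_lit 5) (nat_lit 55) (nat_lit 5) (nat_lit 56) (nat_lit 4) (nat_lit 372) (nat_lit 278) (nat_lit 250)) (XT.lf (nat_lit 0) (nat_lit 2155193251) (nat_lit 228) (nat_lit 10748087773) (nat_lit 76) (nat_lit 935455898) (nat_lit 50) (nat_lit 5) (nat_lit 53) (nat_lit 5) (nat_lit 51) (nat_lit 4) (nat_lit 373) (nat_lit 278) (nat_lit 249))) (XT.nd (nat_lit 78) (nat_lit 152) (nat_lit 0) (XT.lf (nat_lit 0) (nat_lit 6306069830) (nat_lit 228) (nat_lit 2646510305) (nat_lit 76) (nat_lit 5154390865) (nat_lit 50) (nat_lit 5) (nat_lit 53) (nat_lit 5) (nat_lit 51) (nat_lit 4) (nat_lit 374) (nat_lit 278) (nat_lit 248)) (XT.lf (nat_lit 0) (nat_lit 5697650862) (nat_lit 152) (nat_lit 4874136119) (nat_lit 228) (nat_lit 3811774077) (nat_lit 48) (nat_lit 5) (nat_lit 50) (nat_lit 5) (nat_lit 51) (nat_lit 4) (nat_lit 375) (nat_lit 278) (nat_lit 247)))))) (XT.nd (nat_lit 468)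 (nat_lit 608) (nat_lit 0) (XT.nd (nat_lit 234) (nat_lit 228) (nat_lit 0) (XT.nd (nat_lit 78) (nat_lit 304) (nat_lit 0) (XT.lf (nat_lit 0) (nat_lit 253931944) (nat_lit 228) (nat_lit 436226690) (nat_lit 76) (nat_lit 13979340821) (nat_lit 47) (nat_lit 5) (nat_lit 50) (nat_lit 5) (nat_lit 48) (nat_lit 5) (nat_lit 376) (nat_lit 278) (nat_lit 246)) (XT.nd (nat_lit 78) (nat_lit 152) (nat_lit 0) (XT.lf (nat_lit 0) (nat_lit 4415664391) (nat_lit 228) (nat_lit 6925801082) (nat_lit 76) (nat_lit 3619915102) (nat_lit 45) (nat_lit 5) (nat_lit 48) (nat_lit 5) (nat_lit 46) (nat_lit 4) (nat_lit 377) (nat_lit 278) (nat_lit 245)) (XT.lf (nat_lit 0) (nat_lit 1420488742) (nat_lit 152) (nat_lit 7244624226) (nat_lit 228) (nat_lit 6598035571) (nat_lit 43) (nat_lit 5) (nat_lit 45) (nat_lit 5) (nat_lit 46) (nat_lit 4) (nat_lit 378) (nat_lit 278) (nat_lit 244)))) (XT.nd (nat_lit 78) (nat_lit 228) (nat_lit 0) (XT.lf (nat_lit 0) (nat_lit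 10051258180) (nat_lit 152) (nat_lit 2999422395) (nat_lit 228) (nat_lit 2523045760) (nat_lit 43) (nat_lit 5) (nat_lit 45) (nat_lit 5) (nat_lit 46) (nat_lit 4) (nat_lit 379) (nat_lit 278) (nat_lit 243)) (XT.nd (nat_lit 78) (nat_lit 0) (nat_lit 0) (XT.lf (nat_lit 0) (nat_lit 1623285303) (nat_lit 228) (nat_lit 12923794736) (nat_lit 76) (nat_lit 1346620739) (nat_lit 40) (nat_lit 5) (nat_lit 43) (nat_lit 5) (nat_lit 41) (nat_lit 4) (nat_lit 380) (nat_lit 278) (nat_lit 242)) (XT.lf (nat_lit 0) (nat_lit 5869495643) (nat_lit 228) (nat_lit 4552844782) (nat_lit 76) (nat_lit 5799413120) (nat_lit 40) (nat_lit 5) (nat_lit 43) (nat_lit 5) (nat_lit 41) (nat_lit 4) (nat_lit 381) (nat_lit 278) (nat_lit 241))))) (XT.nd (nat_lit 234) (nat_lit 304) (nat_lit 0) (XT.nd (nat_lit 78) (nat_lit 228) (nat_lit 0) (XT.lf (nat_lit 0) (nat_lit 4044991342) (nat_lit 76) (nat_lit 6178910654) (nat_lit 152) (nat_lit 6336335699) (nat_lit 39)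 (nat_lit 5) (nat_lit 40) (nat_lit 5) (nat_lit 41) (nat_lit 4) (nat_lit 382) (nat_lit 278) (nat_lit 240)) (XT.nd (nat_lit 78) (nat_lit 228) (nat_lit 0) (XT.lf (nat_lit 0) (nat_lit 12891928244) (nat_lit 76) (nat_lit 1805623273) (nat_lit 152) (nat_lit 2211680204) (nat_lit 39) (nat_lit 5) (nat_lit 40) (nat_lit 5) (nat_lit 41) (nat_lit 4) (nat_lit 383) (nat_lit 278) (nat_lit 239)) (XT.lf (nat_lit 0) (nat_lit 2012127036) (nat_lit 228) (nat_lit 12587072191) (nat_lit 76) (nat_lit 2668467218) (nat_lit 36) (nat_lit 5) (nat_lit 39) (nat_lit 5) (nat_lit 37) (nat_lit 4) (nat_lit 384) (nat_lit 278) (nat_lit 238)))) (XT.nd (nat_lit 156) (nat_lit 228) (nat_lit 0) (XT.nd (nat_lit 78) (nat_lit 76) (nat_lit 0) (XT.lf (nat_lit 0) (nat_lit 6321047443) (nat_lit 228) (nat_lit 4054630031) (nat_lit 76) (nat_lit 7260446777) (nat_lit 36) (nat_lit 5) (nat_lit 39) (nat_lit 5) (nat_lit 37) (nat_lit 4) (nat_lit 385) (nat_lit 278) (nat_lit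 237)) (XT.lf (nat_lit 0) (nat_lit 4728387644) (nat_lit 76) (nat_lit 6021936413) (nat_lit 152) (nat_lit 7265591231) (nat_lit 35) (nat_lit 5) (nat_lit 36) (nat_lit 5) (nat_lit 37) (nat_lit 4) (nat_lit 386) (nat_lit 278) (nat_lit 236))) (XT.nd (nat_lit 78) (nat_lit 228) (nat_lit 0) (XT.lf (nat_lit 0) (nat_lit 13761303671) (nat_lit 76) (nat_lit 1538409336) (nat_lit 152) (nat_lit 3107781826) (nat_lit 35) (nat_lit 5) (nat_lit 36) (nat_lit 5) (nat_lit 37) (nat_lit 4) (nat_lit 387) (nat_lit 278) (nat_lit 235)) (XT.lf (nat_lit 0) (nat_lit 1169544435) (nat_lit 228) (nat_lit 14609867299) (nat_lit 76) (nat_lit 3030551188) (nat_lit 32) (nat_lit 5) (nat_lit 35) (nat_lit 5) (nat_lit 33) (nat_lit 4) (nat_lit 388) (nat_lit 278) (nat_lit 234))))))) (XT.nd (nat_lit 1014) (nat_lit 532) (nat_lit 0) (XT.nd (nat_lit 468) (nat_lit 380) (nat_lit 0) (XT.nd (nat_lit 234) (nat_lit 228) (nat_lit 0) (XT.nd (nat_lit 78) (nat_lit 76)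 (nat_lit 0) (XT.lf (nat_lit 0) (nat_lit 5522894811) (nat_lit 228) (nat_lit 5957739043) (nat_lit 76) (nat_lit 7742653865) (nat_lit 32) (nat_lit 5) (nat_lit 35) (nat_lit 5) (nat_lit 33) (nat_lit 4) (nat_lit 389) (nat_lit 278) (nat_lit 233)) (XT.nd (nat_lit 78) (nat_lit 0) (nat_lit 0) (XT.lf (nat_lit 0) (nat_lit 2918487271) (nat_lit 76) (nat_lit 7065494206) (nat_lit 152) (nat_lit 9665727194) (nat_lit 31) (nat_lit 5) (nat_lit 32) (nat_lit 5) (nat_lit 33) (nat_lit 4) (nat_lit 390) (nat_lit 278) (nat_lit 232)) (XT.lf (nat_lit 0) (nat_lit 12091618234) (nat_lit 76) (nat_lit 2497128899) (nat_lit 152) (nat_lit 5499889906) (nat_lit 31) (nat_lit 5) (nat_lit 32) (nat_lit 5) (nat_lit 33) (nat_lit 4) (nat_lit 391) (nat_lit 278) (nat_lit 231)))) (XT.nd (nat_lit 78) (nat_lit 76) (nat_lit 0) (XT.lf (nat_lit 0) (nat_lit 905720808) (nat_lit 152) (nat_lit 18406634641) (nat_lit 152) (nat_lit 1228966700) (nat_lit 29) (nat_lit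 4) (nat_lit 31) (nat_lit 5) (nat_lit 31) (nat_lit 4) (nat_lit 392) (nat_lit 278) (nat_lit 230)) (XT.nd (nat_lit 78) (nat_lit 0) (nat_lit 0) (XT.lf (nat_lit 0) (nat_lit 3165354995) (nat_lit 228) (nat_lit 10911729163) (nat_lit 76) (nat_lit 6927884872) (nat_lit 28) (nat_lit 5) (nat_lit 31) (nat_lit 5) (nat_lit 29) (nat_lit 4) (nat_lit 393) (nat_lit 278) (nat_lit 229)) (XT.lf (nat_lit 0) (nat_lit 7619089550) (nat_lit 228) (nat_lit 2025727492) (nat_lit 76) (nat_lit 11838783750) (nat_lit 28) (nat_lit 5) (nat_lit 31) (nat_lit 5) (nat_lit 29) (nat_lit 4) (nat_lit 394) (nat_lit 278) (nat_lit 228))))) (XT.nd (nat_lit 234) (nat_lit 152) (nat_lit 0) (XT.nd (nat_lit 78) (nat_lit 152) (nat_lit 0) (XT.lf (nat_lit 0) (nat_lit 7182130960) (nat_lit 76) (nat_lit 5047018222) (nat_lit 152) (nat_lit 9746769717) (nat_lit 27) (nat_lit 5) (nat_lit 28) (nat_lit 5) (nat_lit 29) (nat_lit 4) (nat_lit 395) (nat_lit 278) (nat_lit 227))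 (XT.nd (nat_lit 78) (nat_lit 152) (nat_lit 0) (XT.lf (nat_lit 0) (nat_lit 16623710167) (nat_lit 76) (nat_lit 328471768) (nat_lit 152) (nat_lit 5531592999) (nat_lit 27) (nat_lit 5) (nat_lit 28) (nat_lit 5) (nat_lit 29) (nat_lit 4) (nat_lit 396) (nat_lit 278) (nat_lit 226)) (XT.lf (nat_lit 0) (nat_lit 3279527251) (nat_lit 152) (nat_lit 18567656011) (nat_lit 152) (nat_lit 1158783337) (nat_lit 25) (nat_lit 4) (nat_lit 27) (nat_lit 5) (nat_lit 27) (nat_lit 4) (nat_lit 397) (nat_lit 278) (nat_lit 225)))) (XT.nd (nat_lit 156) (nat_lit 76) (nat_lit 0) (XT.nd (nat_lit 78) (nat_lit 0) (nat_lit 0) (XT.lf (nat_lit 0) (nat_lit 3298211418) (nat_lit 228) (nat_lit 10847276412) (nat_lit 76) (nat_lit 9396830961) (nat_lit 24) (nat_lit 5) (nat_lit 27) (nat_lit 5) (nat_lit 25) (nat_lit 4) (nat_lit 398) (nat_lit 278) (nat_lit 224)) (XT.lf (nat_lit 0) (nat_lit 7822193252) (nat_lit 228) (nat_lit 1793469911) (nat_lit 76) (nat_lit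 14480064739) (nat_lit 24) (nat_lit 5) (nat_lit 27) (nat_lit 5) (nat_lit 25) (nat_lit 4) (nat_lit 399) (nat_lit 278) (nat_lit 223))) (XT.nd (nat_lit 78) (nat_lit 0) (nat_lit 0) (XT.lf (nat_lit 0) (nat_lit 7602379999) (nat_lit 76) (nat_lit 4910425922) (nat_lit 152) (nat_lit 12152013378) (nat_lit 23) (nat_lit 5) (nat_lit 24) (nat_lit 5) (nat_lit 25) (nat_lit 4) (nat_lit 400) (nat_lit 278) (nat_lit 222)) (XT.lf (nat_lit 0) (nat_lit 17239713107) (nat_lit 76) (nat_lit 80853543) (nat_lit 152) (nat_lit 7931131036) (nat_lit 23) (nat_lit 5) (nat_lit 24) (nat_lit 5) (nat_lit 25) (nat_lit 4) (nat_lit 401) (nat_lit 278) (nat_lit 221)))))) (XT.nd (nat_lit 546) (nat_lit 228) (nat_lit 0) (XT.nd (nat_lit 234) (nat_lit 152) (nat_lit 0) (XT.nd (nat_lit 78) (nat_lit 76) (nat_lit 0) (XT.lf (nat_lit 0) (nat_lit 1210770697) (nat_lit 76) (nat_lit 21079670579) (nat_lit 76) (nat_lit 3565211647) (nat_lit 22) (nat_lit 4) (nat_lit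 23) (nat_lit 5) (nat_lit 23) (nat_lit 4) (nat_lit 402) (nat_lit 278) (nat_lit 220)) (XT.nd (nat_lit 78) (nat_lit 0) (nat_lit 0) (XT.lf (nat_lit 0) (nat_lit 955274654) (nat_lit 152) (nat_lit 15687284098) (nat_lit 76) (nat_lit 9833652828) (nat_lit 21) (nat_lit 5) (nat_lit 23) (nat_lit 5) (nat_lit 22) (nat_lit 4) (nat_lit 403) (nat_lit 278) (nat_lit 219)) (XT.lf (nat_lit 0) (nat_lit 5500167797) (nat_lit 152) (nat_lit 6569920643) (nat_lit 76) (nat_lit 15045432439) (nat_lit 21) (nat_lit 5) (nat_lit 23) (nat_lit 5) (nat_lit 22) (nat_lit 4) (nat_lit 404) (nat_lit 278) (nat_lit 218)))) (XT.nd (nat_lit 156) (nat_lit 76) (nat_lit 0) (XT.nd (nat_lit 78) (nat_lit 0) (nat_lit 0) (XT.lf (nat_lit 0) (nat_lit 2804165121) (nat_lit 76) (nat_lit 7365799396) (nat_lit 152) (nat_lit 17604394396) (nat_lit 20) (nat_lit 5) (nat_lit 21) (nat_lit 5) (nat_lit 22) (nat_lit 4) (nat_lit 405) (nat_lit 278) (nat_lit 217)) (XT.lf (nat_lit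 0) (nat_lit 12523333593) (nat_lit 76) (nat_lit 2484903966) (nat_lit 152) (nat_lit 13443879036) (nat_lit 20) (nat_lit 5) (nat_lit 21) (nat_lit 5) (nat_lit 22) (nat_lit 4) (nat_lit 406) (nat_lit 278) (nat_lit 216))) (XT.nd (nat_lit 78) (nat_lit 76) (nat_lit 0) (XT.lf (nat_lit 0) (nat_lit 19978936203) (nat_lit 152) (nat_lit 6710128173) (nat_lit 0) (nat_lit 2461530116) (nat_lit 20) (nat_lit 5) (nat_lit 22) (nat_lit 4) (nat_lit 20) (nat_lit 4) (nat_lit 407) (nat_lit 278) (nat_lit 215)) (XT.lf (nat_lit 0) (nat_lit 2746545270) (nat_lit 76) (nat_lit 22367135531) (nat_lit 76) (nat_lit 4755903809) (nat_lit 19) (nat_lit 4) (nat_lit 20) (nat_lit 5) (nat_lit 20) (nat_lit 4) (nat_lit 408) (nat_lit 278) (nat_lit 214))))) (XT.nd (nat_lit 234) (nat_lit 76) (nat_lit 0) (XT.nd (nat_lit 78) (nat_lit 152) (nat_lit 0) (XT.lf (nat_lit 0) (nat_lit 12557599041) (nat_lit 76) (nat_lit 17876956401) (nat_lit 76) (nat_lit 174631830)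 (nat_lit 19) (nat_lit 4) (nat_lit 20) (nat_lit 5) (nat_lit 20) (nat_lit 4) (nat_lit 409) (nat_lit 278) (nat_lit 213)) (XT.nd (nat_lit 78) (nat_lit 76) (nat_lit 0) (XT.lf (nat_lit 0) (nat_lit 4420426410) (nat_lit 152) (nat_lit 8817298617) (nat_lit 76) (nat_lit 18132997149) (nat_lit 18) (nat_lit 5) (nat_lit 20) (nat_lit 5) (nat_lit 19) (nat_lit 4) (nat_lit 410) (nat_lit 278) (nat_lit 212)) (XT.lf (nat_lit 0) (nat_lit 641087409) (nat_lit 76) (nat_lit 8480939874) (nat_lit 152) (nat_lit 23033862955) (nat_lit 17) (nat_lit 5) (nat_lit 18) (nat_lit 5) (nat_lit 19) (nat_lit 4) (nat_lit 411) (nat_lit 278) (nat_lit 211)))) (XT.nd (nat_lit 156) (nat_lit 76) (nat_lit 0) (XT.nd (nat_lit 78) (nat_lit 0) (nat_lit 0) (XT.lf (nat_lit 0) (nat_lit 10500882461) (nat_lit 76) (nat_lit 3519252168) (nat_lit 152) (nat_lit 18942819822) (nat_lit 17) (nat_lit 5) (nat_lit 18) (nat_lit 5) (nat_lit 19) (nat_lit 4) (nat_lit 412) (nat_lit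 278) (nat_lit 210)) (XT.lf (nat_lit 0) (nat_lit 19047605259) (nat_lit 152) (nat_lit 13215013992) (nat_lit 0) (nat_lit 1532143458) (nat_lit 17) (nat_lit 5) (nat_lit 19) (nat_lit 4) (nat_lit 17) (nat_lit 4) (nat_lit 413) (nat_lit 278) (nat_lit 209))) (XT.nd (nat_lit 78) (nat_lit 76) (nat_lit 0) (XT.lf (nat_lit 0) (nat_lit 24228825296) (nat_lit 152) (nat_lit 3785542072) (nat_lit 0) (nat_lit 6637074669) (nat_lit 17) (nat_lit 5) (nat_lit 19) (nat_lit 4) (nat_lit 17) (nat_lit 4) (nat_lit 414) (nat_lit 278) (nat_lit 208)) (XT.lf (nat_lit 0) (nat_lit 5985205228) (nat_lit 76) (nat_lit 23606821044) (nat_lit 76) (nat_lit 5941003594) (nat_lit 16) (nat_lit 4) (nat_lit 17) (nat_lit 5) (nat_lit 17) (nat_lit 4) (nat_lit 415) (nat_lit 278) (nat_lit 207))))))))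
noncomputable def xc54 : XT := (XT.nd (nat_lit 2028) (nat_lit 76) (nat_lit 0) (XT.nd (nat_lit 1014) (nat_lit 228) (nat_lit 0) (XT.nd (nat_lit 468) (nat_lit 228) (nat_lit 0) (XT.nd (nat_lit 234) (nat_lit 76) (nat_lit 0) (XT.nd (nat_lit 78) (nat_lit 76) (nat_lit 0) (XT.lf (nat_lit 0) (nat_lit 16068845729) (nat_lit 76) (nat_lit 19054861691) (nat_lit 76) (nat_lit 1317134705) (nat_lit 16) (nat_lit 4) (nat_lit 17) (nat_lit 5) (nat_lit 17) (nat_lit 4) (nat_lit 416) (nat_lit 278) (nat_lit 206)) (XT.nd (nat_lit 78) (nat_lit 0) (nat_lit 0) (XT.lf (nat_lit 0) (nat_lit 3348168527) (nat_lit 152) (nat_lit 11010759957) (nat_lit 76) (nat_lit 23016872201) (nat_lit 15) (nat_lit 5) (nat_lit 17) (nat_lit 5) (nat_lit 16) (nat_lit 4) (nat_lit 417) (nat_lit 278) (nat_lit 205)) (XT.lf (nat_lit 0) (nat_lit 8097784377) (nat_lit 152) (nat_lit 1436821417) (nat_lit 76) (nat_lit 28804690136) (nat_lit 15) (nat_lit 5) (nat_lit 17) (nat_lit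 5) (nat_lit 16) (nat_lit 4) (nat_lit 418) (nat_lit 278) (nat_lit 204)))) (XT.nd (nat_lit 78) (nat_lit 0) (nat_lit 0) (XT.lf (nat_lit 0) (nat_lit 8537442152) (nat_lit 76) (nat_lit 4506189999) (nat_lit 152) (nat_lit 26286455416) (nat_lit 14) (nat_lit 5) (nat_lit 15) (nat_lit 5) (nat_lit 16) (nat_lit 4) (nat_lit 419) (nat_lit 278) (nat_lit 203)) (XT.nd (nat_lit 78) (nat_lit 0) (nat_lit 0) (XT.lf (nat_lit 0) (nat_lit 18130730393) (nat_lit 152) (nat_lit 21569963340) (nat_lit 0) (nat_lit 650126695) (nat_lit 14) (nat_lit 5) (nat_lit 16) (nat_lit 4) (nat_lit 14) (nat_lit 4) (nat_lit 420) (nat_lit 278) (nat_lit 202)) (XT.lf (nat_lit 0) (nat_lit 23387632332) (nat_lit 152) (nat_lit 12167225307) (nat_lit 0) (nat_lit 5846805531) (nat_lit 14) (nat_lit 5) (nat_lit 16) (nat_lit 4) (nat_lit 14) (nat_lit 4) (nat_lit 421) (nat_lit 278) (nat_lit 201))))) (XT.nd (nat_lit 234) (nat_lit 152) (nat_lit 0) (XT.nd (nat_lit 78) (nat_lit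 76) (nat_lit 0) (XT.lf (nat_lit 0) (nat_lit 28775615125) (nat_lit 152) (nat_lit 2532899076) (nat_lit 0) (nat_lit 11176319290) (nat_lit 14) (nat_lit 5) (nat_lit 16) (nat_lit 4) (nat_lit 14) (nat_lit 4) (nat_lit 422) (nat_lit 278) (nat_lit 200)) (XT.nd (nat_lit 78) (nat_lit 0) (nat_lit 0) (XT.lf (nat_lit 0) (nat_lit 7487542619) (nat_lit 76) (nat_lit 26883818938) (nat_lit 76) (nat_lit 9227757051) (nat_lit 13) (nat_lit 4) (nat_lit 14) (nat_lit 5) (nat_lit 14) (nat_lit 4) (nat_lit 423) (nat_lit 278) (nat_lit 199)) (XT.lf (nat_lit 0) (nat_lit 17811976887) (nat_lit 76) (nat_lit 22323016436) (nat_lit 76) (nat_lit 4611841877) (nat_lit 13) (nat_lit 4) (nat_lit 14) (nat_lit 5) (nat_lit 14) (nat_lit 4) (nat_lit 424) (nat_lit 278) (nat_lit 198)))) (XT.nd (nat_lit 156) (nat_lit 76) (nat_lit 0) (XT.nd (nat_lit 78) (nat_lit 0) (nat_lit 0) (XT.lf (nat_lit 0) (nat_lit 114700400) (nat_lit 152) (nat_lit 17531840193) (nat_lit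 76) (nat_lit 28283156770) (nat_lit 12) (nat_lit 5) (nat_lit 14) (nat_lit 5) (nat_lit 13) (nat_lit 4) (nat_lit 425) (nat_lit 278) (nat_lit 197)) (XT.lf (nat_lit 0) (nat_lit 4866006976) (nat_lit 152) (nat_lit 7938636824) (nat_lit 76) (nat_lit 34342764923) (nat_lit 12) (nat_lit 5) (nat_lit 14) (nat_lit 5) (nat_lit 13) (nat_lit 4) (nat_lit 426) (nat_lit 278) (nat_lit 196))) (XT.nd (nat_lit 78) (nat_lit 0) (nat_lit 0) (XT.lf (nat_lit 0) (nat_lit 1935229343) (nat_lit 76) (nat_lit 7819596386) (nat_lit 152) (nat_lit 38646979445) (nat_lit 11) (nat_lit 5) (nat_lit 12) (nat_lit 5) (nat_lit 13) (nat_lit 4) (nat_lit 427) (nat_lit 278) (nat_lit 195)) (XT.lf (nat_lit 0) (nat_lit 12223589334) (nat_lit 76) (nat_lit 2623515649) (nat_lit 152) (nat_lit 34845027513) (nat_lit 11) (nat_lit 5) (nat_lit 12) (nat_lit 5) (nat_lit 13) (nat_lit 4) (nat_lit 428) (nat_lit 278) (nat_lit 194)))))) (XT.nd (nat_lit 468) (nat_lit 152) (nat_lit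 0) (XT.nd (nat_lit 234) (nat_lit 76) (nat_lit 0) (XT.nd (nat_lit 78) (nat_lit 0) (nat_lit 0) (XT.lf (nat_lit 0) (nat_lit 20095495232) (nat_lit 152) (nat_lit 28270445219) (nat_lit 0) (nat_lit 2655131681) (nat_lit 11) (nat_lit 5) (nat_lit 13) (nat_lit 4) (nat_lit 11) (nat_lit 4) (nat_lit 429) (nat_lit 278) (nat_lit 193)) (XT.nd (nat_lit 78) (nat_lit 0) (nat_lit 0) (XT.lf (nat_lit 0) (nat_lit 25505094252) (nat_lit 152) (nat_lit 18864756631) (nat_lit 0) (nat_lit 8019919055) (nat_lit 11) (nat_lit 5) (nat_lit 13) (nat_lit 4) (nat_lit 11) (nat_lit 4) (nat_lit 430) (nat_lit 278) (nat_lit 192)) (XT.lf (nat_lit 0) (nat_lit 31055410039) (nat_lit 152) (nat_lit 9218039998) (nat_lit 0) (nat_lit 13526728390) (nat_lit 11) (nat_lit 5) (nat_lit 13) (nat_lit 4) (nat_lit 11) (nat_lit 4) (nat_lit 431) (nat_lit 278) (nat_lit 191)))) (XT.nd (nat_lit 78) (nat_lit 0) (nat_lit 0) (XT.lf (nat_lit 0) (nat_lit 691630042) (nat_lit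 76) (nat_lit 36066310712) (nat_lit 76) (nat_lit 18495389790) (nat_lit 10) (nat_lit 4) (nat_lit 11) (nat_lit 5) (nat_lit 11) (nat_lit 4) (nat_lit 432) (nat_lit 278) (nat_lit 190)) (XT.nd (nat_lit 78) (nat_lit 0) (nat_lit 0) (XT.lf (nat_lit 0) (nat_lit 11047998294) (nat_lit 76) (nat_lit 31655920096) (nat_lit 76) (nat_lit 14043990169) (nat_lit 10) (nat_lit 4) (nat_lit 11) (nat_lit 5) (nat_lit 11) (nat_lit 4) (nat_lit 433) (nat_lit 278) (nat_lit 189)) (XT.lf (nat_lit 0) (nat_lit 21676656938) (nat_lit 76) (nat_lit 27131508577) (nat_lit 76) (nat_lit 9479764084) (nat_lit 10) (nat_lit 4) (nat_lit 11) (nat_lit 5) (nat_lit 11) (nat_lit 4) (nat_lit 434) (nat_lit 278) (nat_lit 188))))) (XT.nd (nat_lit 234) (nat_lit 76) (nat_lit 0) (XT.nd (nat_lit 78) (nat_lit 76) (nat_lit 0) (XT.lf (nat_lit 0) (nat_lit 32586893154) (nat_lit 76) (nat_lit 22489122788) (nat_lit 76) (nat_lit 4798723376) (nat_lit 10) (nat_lit 4) (nat_lit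 11) (nat_lit 5) (nat_lit 11) (nat_lit 4) (nat_lit 435) (nat_lit 278) (nat_lit 187)) (XT.nd (nat_lit 78) (nat_lit 0) (nat_lit 0) (XT.lf (nat_lit 0) (nat_lit 3159308) (nat_lit 152) (nat_lit 17721515063) (nat_lit 76) (nat_lit 43785048945) (nat_lit 9) (nat_lit 5) (nat_lit 11) (nat_lit 5) (nat_lit 10) (nat_lit 4) (nat_lit 436) (nat_lit 278) (nat_lit 186)) (XT.lf (nat_lit 0) (nat_lit 4834061178) (nat_lit 152) (nat_lit 7951220236) (nat_lit 76) (nat_lit 50407609813) (nat_lit 9) (nat_lit 5) (nat_lit 11) (nat_lit 5) (nat_lit 10) (nat_lit 4) (nat_lit 437) (nat_lit 278) (nat_lit 185)))) (XT.nd (nat_lit 156) (nat_lit 0) (nat_lit 0) (XT.nd (nat_lit 78) (nat_lit 0) (nat_lit 0) (XT.lf (nat_lit 0) (nat_lit 2119054109) (nat_lit 76) (nat_lit 7693159321) (nat_lit 152) (nat_lit 55114273108) (nat_lit 8) (nat_lit 5) (nat_lit 9) (nat_lit 5) (nat_lit 10) (nat_lit 4) (nat_lit 438) (nat_lit 278) (nat_lit 184)) (XT.lf (nat_lit 0)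 (nat_lit 12620287237) (nat_lit 76) (nat_lit 2381865859) (nat_lit 152) (nat_lit 51708065330) (nat_lit 8) (nat_lit 5) (nat_lit 9) (nat_lit 5) (nat_lit 10) (nat_lit 4) (nat_lit 439) (nat_lit 278) (nat_lit 183))) (XT.nd (nat_lit 78) (nat_lit 0) (nat_lit 0) (XT.lf (nat_lit 0) (nat_lit 20360000995) (nat_lit 152) (nat_lit 45174113036) (nat_lit 0) (nat_lit 3012983885) (nat_lit 8) (nat_lit 5) (nat_lit 10) (nat_lit 4) (nat_lit 8) (nat_lit 4) (nat_lit 440) (nat_lit 278) (nat_lit 182)) (XT.lf (nat_lit 0) (nat_lit 25885195245) (nat_lit 152) (nat_lit 36046943954) (nat_lit 0) (nat_lit 8506748149) (nat_lit 8) (nat_lit 5) (nat_lit 10) (nat_lit 4) (nat_lit 8) (nat_lit 4) (nat_lit 441) (nat_lit 278) (nat_lit 181))))))) (XT.nd (nat_lit 39546) (nat_lit 0) (nat_lit 5016) (XT.nd (nat_lit 468) (nat_lit 0) (nat_lit 0) (XT.nd (nat_lit 234) (nat_lit 76) (nat_lit 0) (XT.nd (nat_lit 78) (nat_lit 0) (nat_lit 0) (XT.lf (nat_lit 0) (nat_lit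 31559667737) (nat_lit 152) (nat_lit 26677552798) (nat_lit 0) (nat_lit 14150706091) (nat_lit 8) (nat_lit 5) (nat_lit 10) (nat_lit 4) (nat_lit 8) (nat_lit 4) (nat_lit 442) (nat_lit 278) (nat_lit 180)) (XT.nd (nat_lit 78) (nat_lit 0) (nat_lit 0) (XT.lf (nat_lit 0) (nat_lit 37388376747) (nat_lit 152) (nat_lit 17057752719) (nat_lit 0) (nat_lit 19949789324) (nat_lit 8) (nat_lit 5) (nat_lit 10) (nat_lit 4) (nat_lit 8) (nat_lit 4) (nat_lit 443) (nat_lit 278) (nat_lit 179)) (XT.lf (nat_lit 0) (nat_lit 43376415322) (nat_lit 152) (nat_lit 7179138068) (nat_lit 0) (nat_lit 25909065009) (nat_lit 8) (nat_lit 5) (nat_lit 10) (nat_lit 4) (nat_lit 8) (nat_lit 4) (nat_lit 444) (nat_lit 278) (nat_lit 178)))) (XT.nd (nat_lit 78) (nat_lit 0) (nat_lit 0) (XT.lf (nat_lit 0) (nat_lit 3025970538) (nat_lit 76) (nat_lit 46532132670) (nat_lit 76) (nat_lit 29036857221) (nat_lit 7) (nat_lit 4) (nat_lit 8) (nat_lit 5) (nat_lit 8) (nat_lit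 4) (nat_lit 445) (nat_lit 278) (nat_lit 177)) (XT.nd (nat_lit 78) (nat_lit 0) (nat_lit 0) (XT.lf (nat_lit 0) (nat_lit 13655769079) (nat_lit 76) (nat_lit 42327052552) (nat_lit 76) (nat_lit 24804665320) (nat_lit 7) (nat_lit 4) (nat_lit 8) (nat_lit 5) (nat_lit 8) (nat_lit 4) (nat_lit 446) (nat_lit 278) (nat_lit 176)) (XT.lf (nat_lit 0) (nat_lit 24576666803) (nat_lit 76) (nat_lit 38009133912) (nat_lit 76) (nat_lit 20460424561) (nat_lit 7) (nat_lit 4) (nat_lit 8) (nat_lit 5) (nat_lit 8) (nat_lit 4) (nat_lit 447) (nat_lit 278) (nat_lit 175))))) (XT.nd (nat_lit 38766) (nat_lit 0) (nat_lit 8132) (XT.nd (nat_lit 38610) (nat_lit 0) (nat_lit 9272) (XT.lf (nat_lit 0) (nat_lit 35798206242) (nat_lit 76) (nat_lit 33574603812) (nat_lit 76) (nat_lit 16000339006) (nat_lit 7) (nat_lit 4) (nat_lit 8) (nat_lit 5) (nat_lit 8) (nat_lit 4) (nat_lit 448) (nat_lit 278) (nat_lit 174)) (XT.nd (nat_lit 78) (nat_lit 456) (nat_lit 0)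 (XT.lf (nat_lit 0) (nat_lit 2204516973) (nat_lit 380) (nat_lit 1016843270) (nat_lit 380) (nat_lit 1016843270) (nat_lit 135) (nat_lit 4) (nat_lit 140) (nat_lit 5) (nat_lit 140) (nat_lit 4) (nat_lit 342) (nat_lit 279) (nat_lit 279)) (XT.lf (nat_lit 0) (nat_lit 1765294623) (nat_lit 456) (nat_lit 6109404829) (nat_lit 0) (nat_lit 706104466) (nat_lit 129) (nat_lit 5) (nat_lit 135) (nat_lit 4) (nat_lit 129) (nat_lit 4) (nat_lit 343) (nat_lit 279) (nat_lit 278)))) (XT.nd (nat_lit 156) (nat_lit 684) (nat_lit 0) (XT.nd (nat_lit 78) (nat_lit 76) (nat_lit 0) (XT.lf (nat_lit 0) (nat_lit 438034012) (nat_lit 380) (nat_lit 5169096851) (nat_lit 380) (nat_lit 3081566737) (nat_lit 124) (nat_lit 4) (nat_lit 129) (nat_lit 5) (nat_lit 129) (nat_lit 4) (nat_lit 344) (nat_lit 279) (nat_lit 277)) (XT.lf (nat_lit 0) (nat_lit 716259864) (nat_lit 456) (nat_lit 1631910897) (nat_lit 76) (nat_lit 6452491668) (nat_lit 123) (nat_lit 5)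 (nat_lit 129) (nat_lit 5) (nat_lit 124) (nat_lit 4) (nat_lit 345) (nat_lit 279) (nat_lit 276))) (XT.nd (nat_lit 78) (nat_lit 380) (nat_lit 0) (XT.lf (nat_lit 0) (nat_lit 4528413292) (nat_lit 380) (nat_lit 3796545014) (nat_lit 0) (nat_lit 591299254) (nat_lit 119) (nat_lit 5) (nat_lit 124) (nat_lit 4) (nat_lit 119) (nat_lit 4) (nat_lit 346) (nat_lit 279) (nat_lit 275)) (XT.lf (nat_lit 0) (nat_lit 2976782376) (nat_lit 380) (nat_lit 5455033642) (nat_lit 380) (nat_lit 604252871) (nat_lit 114) (nat_lit 4) (nat_lit 119) (nat_lit 5) (nat_lit 119) (nat_lit 4) (nat_lit 347) (nat_lit 279) (nat_lit 274)))))) (XT.nd (nat_lit 546) (nat_lit 1444) (nat_lit 0) (XT.nd (nat_lit 234) (nat_lit 912) (nat_lit 0) (XT.nd (nat_lit 78) (nat_lit 380) (nat_lit 0) (XT.lf (nat_lit 0) (nat_lit 723913127) (nat_lit 304) (nat_lit 2459214448) (nat_lit 380) (nat_lit 5976813030) (nat_lit 109) (nat_lit 5) (nat_lit 113) (nat_lit 5) (nat_lit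 114) (nat_lit 4) (nat_lit 348) (nat_lit 279) (nat_lit 273)) (XT.nd (nat_lit 78) (nat_lit 380) (nat_lit 0) (XT.lf (nat_lit 0) (nat_lit 7049683493) (nat_lit 380) (nat_lit 1595550173) (nat_lit 0) (nat_lit 642834584) (nat_lit 109) (nat_lit 5) (nat_lit 114) (nat_lit 4) (nat_lit 109) (nat_lit 4) (nat_lit 349) (nat_lit 279) (nat_lit 272)) (XT.lf (nat_lit 0) (nat_lit 1569372359) (nat_lit 380) (nat_lit 4032804077) (nat_lit 76) (nat_lit 3817786637) (nat_lit 104) (nat_lit 5) (nat_lit 109) (nat_lit 5) (nat_lit 105) (nat_lit 4) (nat_lit 350) (nat_lit 279) (nat_lit 271)))) (XT.nd (nat_lit 156) (nat_lit 304) (nat_lit 0) (XT.nd (nat_lit 78) (nat_lit 304) (nat_lit 0) (XT.lf (nat_lit 0) (nat_lit 2963491951) (nat_lit 304) (nat_lit 2440576456) (nat_lit 380) (nat_lit 4152396564) (nat_lit 100) (nat_lit 5) (nat_lit 104) (nat_lit 5) (nat_lit 105) (nat_lit 4) (nat_lit 351) (nat_lit 279) (nat_lit 270)) (XT.lf (nat_lit 0) (nat_lit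 426895655) (nat_lit 304) (nat_lit 8893829047) (nat_lit 304) (nat_lit 377374268) (nat_lit 96) (nat_lit 4) (nat_lit 100) (nat_lit 5) (nat_lit 100) (nat_lit 4) (nat_lit 352) (nat_lit 279) (nat_lit 269))) (XT.nd (nat_lit 78) (nat_lit 228) (nat_lit 0) (XT.lf (nat_lit 0) (nat_lit 3448026306) (nat_lit 380) (nat_lit 2238218332) (nat_lit 76) (nat_lit 4156597811) (nat_lit 95) (nat_lit 5) (nat_lit 100) (nat_lit 5) (nat_lit 96) (nat_lit 4) (nat_lit 353) (nat_lit 279) (nat_lit 268)) (XT.lf (nat_lit 0) (nat_lit 4972674713) (nat_lit 228) (nat_lit 2372466133) (nat_lit 304) (nat_lit 2647780029) (nat_lit 92) (nat_lit 5) (nat_lit 95) (nat_lit 5) (nat_lit 96) (nat_lit 4) (nat_lit 354) (nat_lit 279) (nat_lit 267))))) (XT.nd (nat_lit 234) (nat_lit 836) (nat_lit 0) (XT.nd (nat_lit 78) (nat_lit 228) (nat_lit 0) (XT.lf (nat_lit 0) (nat_lit 1159267730) (nat_lit 380) (nat_lit 7955244820) (nat_lit 76) (nat_lit 1033540843) (nat_lit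 87) (nat_lit 5) (nat_lit 92) (nat_lit 5) (nat_lit 88) (nat_lit 4) (nat_lit 355) (nat_lit 279) (nat_lit 266)) (XT.nd (nat_lit 78) (nat_lit 228) (nat_lit 0) (XT.lf (nat_lit 0) (nat_lit 5019888104) (nat_lit 380) (nat_lit 759012925) (nat_lit 76) (nat_lit 4528412393) (nat_lit 87) (nat_lit 5) (nat_lit 92) (nat_lit 5) (nat_lit 88) (nat_lit 4) (nat_lit 356) (nat_lit 279) (nat_lit 265)) (XT.lf (nat_lit 0) (nat_lit 6659115648) (nat_lit 228) (nat_lit 2321507017) (nat_lit 304) (nat_lit 1491236003) (nat_lit 84) (nat_lit 5) (nat_lit 87) (nat_lit 5) (nat_lit 88) (nat_lit 4) (nat_lit 357) (nat_lit 279) (nat_lit 264)))) (XT.nd (nat_lit 156) (nat_lit 304) (nat_lit 0) (XT.nd (nat_lit 78) (nat_lit 228) (nat_lit 0) (XT.lf (nat_lit 0) (nat_lit 2346700196) (nat_lit 304) (nat_lit 7057159483) (nat_lit 76) (nat_lit 1237565409) (nat_lit 80) (nat_lit 5) (nat_lit 84) (nat_lit 5) (nat_lit 81) (nat_lit 4) (nat_lit 358) (nat_lit 279)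 (nat_lit 263)) (XT.lf (nat_lit 0) (nat_lit 309258625) (nat_lit 228) (nat_lit 5946695270) (nat_lit 304) (nat_lit 4560130317) (nat_lit 77) (nat_lit 5) (nat_lit 80) (nat_lit 5) (nat_lit 81) (nat_lit 4) (nat_lit 359) (nat_lit 279) (nat_lit 262))) (XT.nd (nat_lit 78) (nat_lit 304) (nat_lit 0) (XT.lf (nat_lit 0) (nat_lit 7917496728) (nat_lit 228) (nat_lit 2358664804) (nat_lit 304) (nat_lit 720043526) (nat_lit 77) (nat_lit 5) (nat_lit 80) (nat_lit 5) (nat_lit 81) (nat_lit 4) (nat_lit 360) (nat_lit 279) (nat_lit 261)) (XT.lf (nat_lit 0) (nat_lit 3152487966) (nat_lit 304) (nat_lit 6687628161) (nat_lit 76) (nat_lit 1341299613) (nat_lit 73) (nat_lit 5) (nat_lit 77) (nat_lit 5) (nat_lit 74) (nat_lit 4) (nat_lit 361) (nat_lit 279) (nat_lit 260))))))))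
noncomputable def xc55 : XT := (XT.nd (nat_lit 2028) (nat_lit 1368) (nat_lit 0) (XT.nd (nat_lit 1014) (nat_lit 1140) (nat_lit 0) (XT.nd (nat_lit 468) (nat_lit 760) (nat_lit 0) (XT.nd (nat_lit 234) (nat_lit 456) (nat_lit 0) (XT.nd (nat_lit 78) (nat_lit 304) (nat_lit 0) (XT.lf (nat_lit 0) (nat_lit 848664432) (nat_lit 228) (nat_lit 6265482505) (nat_lit 304) (nat_lit 4258228723) (nat_lit 70) (nat_lit 5) (nat_lit 73) (nat_lit 5) (nat_lit 74) (nat_lit 4) (nat_lit 362) (nat_lit 279) (nat_lit 259)) (XT.nd (nat_lit 78) (nat_lit 304) (nat_lit 0) (XT.lf (nat_lit 0) (nat_lit 8626911078) (nat_lit 228) (nat_lit 2560825779) (nat_lit 304) (nat_lit 381563728) (nat_lit 70) (nat_lit 5) (nat_lit 73) (nat_lit 5) (nat_lit 74) (nat_lit 4) (nat_lit 363) (nat_lit 279) (nat_lit 258)) (XT.lf (nat_lit 0) (nat_lit 3526526446) (nat_lit 304) (nat_lit 6978074186) (nat_lit 76) (nat_lit 1266950275) (nat_lit 66) (nat_lit 5) (nat_lit 70)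 (nat_lit 5) (nat_lit 67) (nat_lit 4) (nat_lit 364) (nat_lit 279) (nat_lit 257)))) (XT.nd (nat_lit 78) (nat_lit 304) (nat_lit 0) (XT.lf (nat_lit 0) (nat_lit 707383544) (nat_lit 152) (nat_lit 6826493256) (nat_lit 228) (nat_lit 4446214218) (nat_lit 64) (nat_lit 5) (nat_lit 66) (nat_lit 5) (nat_lit 67) (nat_lit 4) (nat_lit 365) (nat_lit 279) (nat_lit 256)) (XT.nd (nat_lit 78) (nat_lit 304) (nat_lit 0) (XT.lf (nat_lit 0) (nat_lit 8647871740) (nat_lit 152) (nat_lit 3012537334) (nat_lit 228) (nat_lit 534534866) (nat_lit 64) (nat_lit 5) (nat_lit 66) (nat_lit 5) (nat_lit 67) (nat_lit 4) (nat_lit 366) (nat_lit 279) (nat_lit 255)) (XT.lf (nat_lit 0) (nat_lit 3407042514) (nat_lit 304) (nat_lit 8080229063) (nat_lit 76) (nat_lit 928564990) (nat_lit 60) (nat_lit 5) (nat_lit 64) (nat_lit 5) (nat_lit 61) (nat_lit 4) (nat_lit 367) (nat_lit 279) (nat_lit 254))))) (XT.nd (nat_lit 234) (nat_lit 380) (nat_lit 0) (XT.nd (nat_lit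 78) (nat_lit 380) (nat_lit 0) (XT.lf (nat_lit 0) (nat_lit 7452480691) (nat_lit 304) (nat_lit 267332053) (nat_lit 76) (nat_lit 4923517033) (nat_lit 60) (nat_lit 5) (nat_lit 64) (nat_lit 5) (nat_lit 61) (nat_lit 4) (nat_lit 368) (nat_lit 279) (nat_lit 253)) (XT.nd (nat_lit 78) (nat_lit 228) (nat_lit 0) (XT.lf (nat_lit 0) (nat_lit 7818880194) (nat_lit 152) (nat_lit 3807947000) (nat_lit 228) (nat_lit 1250616844) (nat_lit 58) (nat_lit 5) (nat_lit 60) (nat_lit 5) (nat_lit 61) (nat_lit 4) (nat_lit 369) (nat_lit 279) (nat_lit 252)) (XT.lf (nat_lit 0) (nat_lit 2718974016) (nat_lit 228) (nat_lit 10169800811) (nat_lit 76) (nat_lit 230040226) (nat_lit 55) (nat_lit 5) (nat_lit 58) (nat_lit 5) (nat_lit 56) (nat_lit 4) (nat_lit 370) (nat_lit 279) (nat_lit 251)))) (XT.nd (nat_lit 156) (nat_lit 228) (nat_lit 0) (XT.nd (nat_lit 78) (nat_lit 152) (nat_lit 0) (XT.lf (nat_lit 0) (nat_lit 6804831704) (nat_lit 228) (nat_lit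 2230320335) (nat_lit 76) (nat_lit 4331254925) (nat_lit 55) (nat_lit 5) (nat_lit 58) (nat_lit 5) (nat_lit 56) (nat_lit 4) (nat_lit 371) (nat_lit 279) (nat_lit 250)) (XT.lf (nat_lit 0) (nat_lit 5952479148) (nat_lit 152) (nat_lit 5052981039) (nat_lit 228) (nat_lit 2616220682) (nat_lit 53) (nat_lit 5) (nat_lit 55) (nat_lit 5) (nat_lit 56) (nat_lit 4) (nat_lit 372) (nat_lit 279) (nat_lit 249))) (XT.nd (nat_lit 78) (nat_lit 0) (nat_lit 0) (XT.lf (nat_lit 0) (nat_lit 425469214) (nat_lit 152) (nat_lit 955772939) (nat_lit 228) (nat_lit 12504112547) (nat_lit 50) (nat_lit 5) (nat_lit 52) (nat_lit 5) (nat_lit 53) (nat_lit 5) (nat_lit 373) (nat_lit 279) (nat_lit 248)) (XT.lf (nat_lit 0) (nat_lit 5491180012) (nat_lit 228) (nat_lit 5404118236) (nat_lit 76) (nat_lit 3259527749) (nat_lit 50) (nat_lit 5) (nat_lit 53) (nat_lit 5) (nat_lit 51) (nat_lit 4) (nat_lit 374) (nat_lit 279) (nat_lit 247)))))) (XT.nd (nat_lit 468)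 (nat_lit 532) (nat_lit 0) (XT.nd (nat_lit 234) (nat_lit 228) (nat_lit 0) (XT.nd (nat_lit 78) (nat_lit 228) (nat_lit 0) (XT.lf (nat_lit 0) (nat_lit 2830702628) (nat_lit 152) (nat_lit 6867809220) (nat_lit 228) (nat_lit 4734664557) (nat_lit 48) (nat_lit 5) (nat_lit 50) (nat_lit 5) (nat_lit 51) (nat_lit 4) (nat_lit 375) (nat_lit 279) (nat_lit 246)) (XT.nd (nat_lit 78) (nat_lit 228) (nat_lit 0) (XT.lf (nat_lit 0) (nat_lit 11316016418) (nat_lit 152) (nat_lit 2708831444) (nat_lit 228) (nat_lit 695263270) (nat_lit 48) (nat_lit 5) (nat_lit 50) (nat_lit 5) (nat_lit 51) (nat_lit 4) (nat_lit 376) (nat_lit 279) (nat_lit 245)) (XT.lf (nat_lit 0) (nat_lit 3400669204) (nat_lit 228) (nat_lit 10031513605) (nat_lit 76) (nat_lit 1582399000) (nat_lit 45) (nat_lit 5) (nat_lit 48) (nat_lit 5) (nat_lit 46) (nat_lit 4) (nat_lit 377) (nat_lit 279) (nat_lit 244)))) (XT.nd (nat_lit 78) (nat_lit 228) (nat_lit 0) (XT.lf (nat_lit 0)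 (nat_lit 7606776269) (nat_lit 228) (nat_lit 1765049067) (nat_lit 76) (nat_lit 5945832495) (nat_lit 45) (nat_lit 5) (nat_lit 48) (nat_lit 5) (nat_lit 46) (nat_lit 4) (nat_lit 378) (nat_lit 279) (nat_lit 243)) (XT.nd (nat_lit 78) (nat_lit 76) (nat_lit 0) (XT.lf (nat_lit 0) (nat_lit 6778996844) (nat_lit 152) (nat_lit 5166724420) (nat_lit 228) (nat_lit 3683920624) (nat_lit 43) (nat_lit 5) (nat_lit 45) (nat_lit 5) (nat_lit 46) (nat_lit 4) (nat_lit 379) (nat_lit 279) (nat_lit 242)) (XT.lf (nat_lit 0) (nat_lit 414428532) (nat_lit 228) (nat_lit 442404693) (nat_lit 76) (nat_lit 15095244069) (nat_lit 42) (nat_lit 5) (nat_lit 45) (nat_lit 5) (nat_lit 43) (nat_lit 5) (nat_lit 380) (nat_lit 279) (nat_lit 241))))) (XT.nd (nat_lit 234) (nat_lit 304) (nat_lit 0) (XT.nd (nat_lit 78) (nat_lit 76) (nat_lit 0) (XT.lf (nat_lit 0) (nat_lit 4619414721) (nat_lit 228) (nat_lit 8075012491) (nat_lit 76) (nat_lit 3586946516) (nat_lit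 40) (nat_lit 5) (nat_lit 43) (nat_lit 5) (nat_lit 41) (nat_lit 4) (nat_lit 381) (nat_lit 279) (nat_lit 240)) (XT.nd (nat_lit 78) (nat_lit 0) (nat_lit 0) (XT.lf (nat_lit 0) (nat_lit 402398909) (nat_lit 76) (nat_lit 8508633066) (nat_lit 152) (nat_lit 7710716315) (nat_lit 39) (nat_lit 5) (nat_lit 40) (nat_lit 5) (nat_lit 41) (nat_lit 4) (nat_lit 382) (nat_lit 279) (nat_lit 239)) (XT.lf (nat_lit 0) (nat_lit 9200474956) (nat_lit 76) (nat_lit 4156771545) (nat_lit 152) (nat_lit 3614325407) (nat_lit 39) (nat_lit 5) (nat_lit 40) (nat_lit 5) (nat_lit 41) (nat_lit 4) (nat_lit 383) (nat_lit 279) (nat_lit 238)))) (XT.nd (nat_lit 156) (nat_lit 76) (nat_lit 0) (XT.nd (nat_lit 78) (nat_lit 0) (nat_lit 0) (XT.lf (nat_lit 0) (nat_lit 549502064) (nat_lit 228) (nat_lit 16492124106) (nat_lit 76) (nat_lit 291411635) (nat_lit 36) (nat_lit 5) (nat_lit 39) (nat_lit 5) (nat_lit 37) (nat_lit 4) (nat_lit 384) (nat_lit 279) (nat_lit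 237)) (XT.lf (nat_lit 0) (nat_lit 4831642393) (nat_lit 228) (nat_lit 8007793090) (nat_lit 76) (nat_lit 4862869518) (nat_lit 36) (nat_lit 5) (nat_lit 39) (nat_lit 5) (nat_lit 37) (nat_lit 4) (nat_lit 385) (nat_lit 279) (nat_lit 236))) (XT.nd (nat_lit 78) (nat_lit 0) (nat_lit 0) (XT.lf (nat_lit 0) (nat_lit 648909421) (nat_lit 76) (nat_lit 8546795068) (nat_lit 152) (nat_lit 8888353797) (nat_lit 35) (nat_lit 5) (nat_lit 36) (nat_lit 5) (nat_lit 37) (nat_lit 4) (nat_lit 386) (nat_lit 279) (nat_lit 235)) (XT.lf (nat_lit 0) (nat_lit 9635573539) (nat_lit 76) (nat_lit 4083832507) (nat_lit 152) (nat_lit 4757008052) (nat_lit 35) (nat_lit 5) (nat_lit 36) (nat_lit 5) (nat_lit 37) (nat_lit 4) (nat_lit 387) (nat_lit 279) (nat_lit 234))))))) (XT.nd (nat_lit 1014) (nat_lit 456) (nat_lit 0) (XT.nd (nat_lit 468) (nat_lit 380) (nat_lit 0) (XT.nd (nat_lit 234) (nat_lit 304) (nat_lit 0) (XT.nd (nat_lit 78) (nat_lit 228) (nat_lit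 0) (XT.lf (nat_lit 0) (nat_lit 18332733889) (nat_lit 152) (nat_lit 85931455) (nat_lit 0) (nat_lit 463268907) (nat_lit 35) (nat_lit 5) (nat_lit 37) (nat_lit 4) (nat_lit 35) (nat_lit 4) (nat_lit 388) (nat_lit 279) (nat_lit 233)) (XT.nd (nat_lit 78) (nat_lit 0) (nat_lit 0) (XT.lf (nat_lit 0) (nat_lit 3788933076) (nat_lit 228) (nat_lit 10357710455) (nat_lit 76) (nat_lit 5149557073) (nat_lit 32) (nat_lit 5) (nat_lit 35) (nat_lit 5) (nat_lit 33) (nat_lit 4) (nat_lit 389) (nat_lit 279) (nat_lit 232)) (XT.lf (nat_lit 0) (nat_lit 8197613022) (nat_lit 228) (nat_lit 1582633483) (nat_lit 76) (nat_lit 9943952267) (nat_lit 32) (nat_lit 5) (nat_lit 35) (nat_lit 5) (nat_lit 33) (nat_lit 4) (nat_lit 390) (nat_lit 279) (nat_lit 231)))) (XT.nd (nat_lit 78) (nat_lit 228) (nat_lit 0) (XT.lf (nat_lit 0) (nat_lit 7515234152) (nat_lit 76) (nat_lit 5247564667) (nat_lit 152) (nat_lit 7401520585) (nat_lit 31) (nat_lit 5) (nat_lit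 32) (nat_lit 5) (nat_lit 33) (nat_lit 4) (nat_lit 391) (nat_lit 279) (nat_lit 230)) (XT.nd (nat_lit 78) (nat_lit 228) (nat_lit 0) (XT.lf (nat_lit 0) (nat_lit 16832223348) (nat_lit 76) (nat_lit 601271537) (nat_lit 152) (nat_lit 3185101724) (nat_lit 31) (nat_lit 5) (nat_lit 32) (nat_lit 5) (nat_lit 33) (nat_lit 4) (nat_lit 392) (nat_lit 279) (nat_lit 229)) (XT.lf (nat_lit 0) (nat_lit 1180617267) (nat_lit 228) (nat_lit 15775680084) (nat_lit 76) (nat_lit 4128517919) (nat_lit 28) (nat_lit 5) (nat_lit 31) (nat_lit 5) (nat_lit 29) (nat_lit 4) (nat_lit 393) (nat_lit 279) (nat_lit 228))))) (XT.nd (nat_lit 234) (nat_lit 304) (nat_lit 0) (XT.nd (nat_lit 78) (nat_lit 76) (nat_lit 0) (XT.lf (nat_lit 0) (nat_lit 5611531135) (nat_lit 228) (nat_lit 6931487532) (nat_lit 76) (nat_lit 9021117313) (nat_lit 28) (nat_lit 5) (nat_lit 31) (nat_lit 5) (nat_lit 29) (nat_lit 4) (nat_lit 394) (nat_lit 279) (nat_lit 227)) (XT.nd (nat_lit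 78) (nat_lit 0) (nat_lit 0) (XT.lf (nat_lit 0) (nat_lit 2137337451) (nat_lit 76) (nat_lit 8013603666) (nat_lit 152) (nat_lit 11907636657) (nat_lit 27) (nat_lit 5) (nat_lit 28) (nat_lit 5) (nat_lit 29) (nat_lit 4) (nat_lit 395) (nat_lit 279) (nat_lit 226)) (XT.lf (nat_lit 0) (nat_lit 11538723236) (nat_lit 76) (nat_lit 3313353584) (nat_lit 152) (nat_lit 7715017979) (nat_lit 27) (nat_lit 5) (nat_lit 28) (nat_lit 5) (nat_lit 29) (nat_lit 4) (nat_lit 396) (nat_lit 279) (nat_lit 225)))) (XT.nd (nat_lit 156) (nat_lit 76) (nat_lit 0) (XT.nd (nat_lit 78) (nat_lit 228) (nat_lit 0) (XT.lf (nat_lit 0) (nat_lit 19665430788) (nat_lit 152) (nat_lit 1963576146) (nat_lit 0) (nat_lit 1462732907) (nat_lit 27) (nat_lit 5) (nat_lit 29) (nat_lit 4) (nat_lit 27) (nat_lit 4) (nat_lit 397) (nat_lit 279) (nat_lit 224)) (XT.lf (nat_lit 0) (nat_lit 1034096692) (nat_lit 228) (nat_lit 16233358215) (nat_lit 76) (nat_lit 6362519862)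 (nat_lit 24) (nat_lit 5) (nat_lit 27) (nat_lit 5) (nat_lit 25) (nat_lit 4) (nat_lit 398) (nat_lit 279) (nat_lit 223))) (XT.nd (nat_lit 78) (nat_lit 76) (nat_lit 0) (XT.lf (nat_lit 0) (nat_lit 5537306434) (nat_lit 228) (nat_lit 7217936247) (nat_lit 76) (nat_lit 11428767985) (nat_lit 24) (nat_lit 5) (nat_lit 27) (nat_lit 5) (nat_lit 25) (nat_lit 4) (nat_lit 399) (nat_lit 279) (nat_lit 222)) (XT.lf (nat_lit 0) (nat_lit 2031947932) (nat_lit 76) (nat_lit 8122257689) (nat_lit 152) (nat_lit 14601111361) (nat_lit 23) (nat_lit 5) (nat_lit 24) (nat_lit 5) (nat_lit 25) (nat_lit 4) (nat_lit 400) (nat_lit 279) (nat_lit 221)))))) (XT.nd (nat_lit 546) (nat_lit 228) (nat_lit 0) (XT.nd (nat_lit 234) (nat_lit 152) (nat_lit 0) (XT.nd (nat_lit 78) (nat_lit 76) (nat_lit 0) (XT.lf (nat_lit 0) (nat_lit 11632379861) (nat_lit 76) (nat_lit 3309652083) (nat_lit 152) (nat_lit 10400764872) (nat_lit 23) (nat_lit 5) (nat_lit 24) (nat_lit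 5) (nat_lit 25) (nat_lit 4) (nat_lit 401) (nat_lit 279) (nat_lit 220)) (XT.nd (nat_lit 78) (nat_lit 76) (nat_lit 0) (XT.lf (nat_lit 0) (nat_lit 19849718580) (nat_lit 152) (nat_lit 4516502960) (nat_lit 0) (nat_lit 1582399470) (nat_lit 23) (nat_lit 5) (nat_lit 25) (nat_lit 4) (nat_lit 23) (nat_lit 4) (nat_lit 402) (nat_lit 279) (nat_lit 219)) (XT.lf (nat_lit 0) (nat_lit 4945516399) (nat_lit 76) (nat_lit 20000971617) (nat_lit 76) (nat_lit 1624882881) (nat_lit 22) (nat_lit 4) (nat_lit 23) (nat_lit 5) (nat_lit 23) (nat_lit 4) (nat_lit 403) (nat_lit 279) (nat_lit 218)))) (XT.nd (nat_lit 156) (nat_lit 76) (nat_lit 0) (XT.nd (nat_lit 78) (nat_lit 0) (nat_lit 0) (XT.lf (nat_lit 0) (nat_lit 2932802028) (nat_lit 152) (nat_lit 12528102195) (nat_lit 76) (nat_lit 11750815055) (nat_lit 21) (nat_lit 5) (nat_lit 23) (nat_lit 5) (nat_lit 22) (nat_lit 4) (nat_lit 404) (nat_lit 279) (nat_lit 217)) (XT.lf (nat_lit 0) (nat_lit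 7557278787) (nat_lit 152) (nat_lit 3242940179) (nat_lit 76) (nat_lit 17071700891) (nat_lit 21) (nat_lit 5) (nat_lit 23) (nat_lit 5) (nat_lit 22) (nat_lit 4) (nat_lit 405) (nat_lit 279) (nat_lit 216))) (XT.nd (nat_lit 78) (nat_lit 0) (nat_lit 0) (XT.lf (nat_lit 0) (nat_lit 6377818373) (nat_lit 76) (nat_lit 5967784634) (nat_lit 152) (nat_lit 16205575856) (nat_lit 20) (nat_lit 5) (nat_lit 21) (nat_lit 5) (nat_lit 22) (nat_lit 4) (nat_lit 406) (nat_lit 279) (nat_lit 215)) (XT.lf (nat_lit 0) (nat_lit 16286925153) (nat_lit 76) (nat_lit 987617354) (nat_lit 152) (nat_lit 11976369803) (nat_lit 20) (nat_lit 5) (nat_lit 21) (nat_lit 5) (nat_lit 22) (nat_lit 4) (nat_lit 407) (nat_lit 279) (nat_lit 214))))) (XT.nd (nat_lit 234) (nat_lit 76) (nat_lit 0) (XT.nd (nat_lit 78) (nat_lit 152) (nat_lit 0) (XT.lf (nat_lit 0) (nat_lit 22356136568) (nat_lit 152) (nat_lit 3583713660) (nat_lit 0) (nat_lit 4031649411) (nat_lit 20)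 (nat_lit 5) (nat_lit 22) (nat_lit 4) (nat_lit 20) (nat_lit 4) (nat_lit 408) (nat_lit 279) (nat_lit 213)) (XT.nd (nat_lit 78) (nat_lit 76) (nat_lit 0) (XT.lf (nat_lit 0) (nat_lit 6124035296) (nat_lit 76) (nat_lit 21500781141) (nat_lit 76) (nat_lit 3087854325) (nat_lit 19) (nat_lit 4) (nat_lit 20) (nat_lit 5) (nat_lit 20) (nat_lit 4) (nat_lit 409) (nat_lit 279) (nat_lit 212)) (XT.lf (nat_lit 0) (nat_lit 1547321472) (nat_lit 152) (nat_lit 15357727974) (nat_lit 76) (nat_lit 14570500694) (nat_lit 18) (nat_lit 5) (nat_lit 20) (nat_lit 5) (nat_lit 19) (nat_lit 4) (nat_lit 410) (nat_lit 279) (nat_lit 211)))) (XT.nd (nat_lit 156) (nat_lit 0) (nat_lit 0) (XT.nd (nat_lit 78) (nat_lit 76) (nat_lit 0) (XT.lf (nat_lit 0) (nat_lit 6226517193) (nat_lit 152) (nat_lit 5942323521) (nat_lit 76) (nat_lit 20092552038) (nat_lit 18) (nat_lit 5) (nat_lit 20) (nat_lit 5) (nat_lit 19) (nat_lit 4) (nat_lit 411) (nat_lit 279) (nat_lit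 210)) (XT.lf (nat_lit 0) (nat_lit 3769034732) (nat_lit 76) (nat_lit 7281272150) (nat_lit 152) (nat_lit 22020381937) (nat_lit 17) (nat_lit 5) (nat_lit 18) (nat_lit 5) (nat_lit 19) (nat_lit 4) (nat_lit 412) (nat_lit 279) (nat_lit 209))) (XT.nd (nat_lit 78) (nat_lit 0) (nat_lit 0) (XT.lf (nat_lit 0) (nat_lit 13834078548) (nat_lit 76) (nat_lit 2213086122) (nat_lit 152) (nat_lit 17856253051) (nat_lit 17) (nat_lit 5) (nat_lit 18) (nat_lit 5) (nat_lit 19) (nat_lit 4) (nat_lit 413) (nat_lit 279) (nat_lit 208)) (XT.lf (nat_lit 0) (nat_lit 21191845595) (nat_lit 152) (nat_lit 10647363020) (nat_lit 0) (nat_lit 2921986800) (nat_lit 17) (nat_lit 5) (nat_lit 19) (nat_lit 4) (nat_lit 17) (nat_lit 4) (nat_lit 414) (nat_lit 279) (nat_lit 207))))))))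
noncomputable def xc56 : XT := (XT.nd (nat_lit 2028) (nat_lit 76) (nat_lit 0) (XT.nd (nat_lit 1014) (nat_lit 304) (nat_lit 0) (XT.nd (nat_lit 468) (nat_lit 152) (nat_lit 0) (XT.nd (nat_lit 234) (nat_lit 76) (nat_lit 0) (XT.nd (nat_lit 78) (nat_lit 152) (nat_lit 0) (XT.lf (nat_lit 0) (nat_lit 26482692171) (nat_lit 152) (nat_lit 1021339993) (nat_lit 0) (nat_lit 8140923839) (nat_lit 17) (nat_lit 5) (nat_lit 19) (nat_lit 4) (nat_lit 17) (nat_lit 4) (nat_lit 415) (nat_lit 279) (nat_lit 206)) (XT.nd (nat_lit 78) (nat_lit 76) (nat_lit 0) (XT.lf (nat_lit 0) (nat_lit 9014316312) (nat_lit 76) (nat_lit 22975388739) (nat_lit 76) (nat_lit 4563805324) (nat_lit 16) (nat_lit 4) (nat_lit 17) (nat_lit 5) (nat_lit 17) (nat_lit 4) (nat_lit 416) (nat_lit 279) (nat_lit 205)) (XT.lf (nat_lit 0) (nat_lit 150481025) (nat_lit 152) (nat_lit 18173888569) (nat_lit 76) (nat_lit 19165468693) (nat_lit 15) (nat_lit 5) (nat_lit 17) (nat_lit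 5) (nat_lit 16) (nat_lit 4) (nat_lit 417) (nat_lit 279) (nat_lit 204)))) (XT.nd (nat_lit 78) (nat_lit 76) (nat_lit 0) (XT.lf (nat_lit 0) (nat_lit 4886144329) (nat_lit 152) (nat_lit 8626299473) (nat_lit 76) (nat_lit 24941310196) (nat_lit 15) (nat_lit 5) (nat_lit 17) (nat_lit 5) (nat_lit 16) (nat_lit 4) (nat_lit 418) (nat_lit 279) (nat_lit 203)) (XT.nd (nat_lit 78) (nat_lit 0) (nat_lit 0) (XT.lf (nat_lit 0) (nat_lit 1178788269) (nat_lit 76) (nat_lit 8568921791) (nat_lit 152) (nat_lit 29699365872) (nat_lit 14) (nat_lit 5) (nat_lit 15) (nat_lit 5) (nat_lit 16) (nat_lit 4) (nat_lit 419) (nat_lit 279) (nat_lit 202)) (XT.lf (nat_lit 0) (nat_lit 11403437029) (nat_lit 76) (nat_lit 3411602369) (nat_lit 152) (nat_lit 25653364243) (nat_lit 14) (nat_lit 5) (nat_lit 15) (nat_lit 5) (nat_lit 16) (nat_lit 4) (nat_lit 420) (nat_lit 279) (nat_lit 201))))) (XT.nd (nat_lit 234) (nat_lit 152) (nat_lit 0) (XT.nd (nat_lit 78)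 (nat_lit 0) (nat_lit 0) (XT.lf (nat_lit 0) (nat_lit 20026030573) (nat_lit 152) (nat_lit 19654308035) (nat_lit 0) (nat_lit 1840286829) (nat_lit 14) (nat_lit 5) (nat_lit 16) (nat_lit 4) (nat_lit 14) (nat_lit 4) (nat_lit 421) (nat_lit 279) (nat_lit 200)) (XT.nd (nat_lit 78) (nat_lit 0) (nat_lit 0) (XT.lf (nat_lit 0) (nat_lit 25401279038) (nat_lit 152) (nat_lit 10044131187) (nat_lit 0) (nat_lit 7158769243) (nat_lit 14) (nat_lit 5) (nat_lit 16) (nat_lit 4) (nat_lit 14) (nat_lit 4) (nat_lit 422) (nat_lit 279) (nat_lit 199)) (XT.lf (nat_lit 0) (nat_lit 30912687206) (nat_lit 152) (nat_lit 193244418) (nat_lit 0) (nat_lit 12615064739) (nat_lit 14) (nat_lit 5) (nat_lit 16) (nat_lit 4) (nat_lit 14) (nat_lit 4) (nat_lit 423) (nat_lit 279) (nat_lit 198)))) (XT.nd (nat_lit 156) (nat_lit 76) (nat_lit 0) (XT.nd (nat_lit 78) (nat_lit 0) (nat_lit 0) (XT.lf (nat_lit 0) (nat_lit 10104127767) (nat_lit 76) (nat_lit 26558070160)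 (nat_lit 76) (nat_lit 8206940244) (nat_lit 13) (nat_lit 4) (nat_lit 14) (nat_lit 5) (nat_lit 14) (nat_lit 4) (nat_lit 424) (nat_lit 279) (nat_lit 197)) (XT.lf (nat_lit 0) (nat_lit 20668626358) (nat_lit 76) (nat_lit 21893422127) (nat_lit 76) (nat_lit 3490343232) (nat_lit 13) (nat_lit 4) (nat_lit 14) (nat_lit 5) (nat_lit 14) (nat_lit 4) (nat_lit 425) (nat_lit 279) (nat_lit 196))) (XT.nd (nat_lit 78) (nat_lit 0) (nat_lit 0) (XT.lf (nat_lit 0) (nat_lit 1317432300) (nat_lit 152) (nat_lit 15779127227) (nat_lit 76) (nat_lit 30174900745) (nat_lit 12) (nat_lit 5) (nat_lit 14) (nat_lit 5) (nat_lit 13) (nat_lit 4) (nat_lit 426) (nat_lit 279) (nat_lit 195)) (XT.lf (nat_lit 0) (nat_lit 6176347270) (nat_lit 152) (nat_lit 5964496732) (nat_lit 76) (nat_lit 36385911240) (nat_lit 12) (nat_lit 5) (nat_lit 14) (nat_lit 5) (nat_lit 13) (nat_lit 4) (nat_lit 427) (nat_lit 279) (nat_lit 194)))))) (XT.nd (nat_lit 468) (nat_lit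 152) (nat_lit 0) (XT.nd (nat_lit 234) (nat_lit 76) (nat_lit 0) (XT.nd (nat_lit 78) (nat_lit 0) (nat_lit 0) (XT.lf (nat_lit 0) (nat_lit 4183896212) (nat_lit 76) (nat_lit 7015078456) (nat_lit 152) (nat_lit 38620198818) (nat_lit 11) (nat_lit 5) (nat_lit 12) (nat_lit 5) (nat_lit 13) (nat_lit 4) (nat_lit 428) (nat_lit 279) (nat_lit 193)) (XT.nd (nat_lit 78) (nat_lit 0) (nat_lit 0) (XT.lf (nat_lit 0) (nat_lit 14717102828) (nat_lit 76) (nat_lit 1693380516) (nat_lit 152) (nat_lit 34738737552) (nat_lit 11) (nat_lit 5) (nat_lit 12) (nat_lit 5) (nat_lit 13) (nat_lit 4) (nat_lit 429) (nat_lit 279) (nat_lit 192)) (XT.lf (nat_lit 0) (nat_lit 21793178346) (nat_lit 152) (nat_lit 27030418968) (nat_lit 0) (nat_lit 3695129796) (nat_lit 11) (nat_lit 5) (nat_lit 13) (nat_lit 4) (nat_lit 11) (nat_lit 4) (nat_lit 430) (nat_lit 279) (nat_lit 191)))) (XT.nd (nat_lit 78) (nat_lit 76) (nat_lit 0) (XT.lf (nat_lit 0) (nat_lit 27333177426)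 (nat_lit 152) (nat_lit 17403379322) (nat_lit 0) (nat_lit 9192889602) (nat_lit 11) (nat_lit 5) (nat_lit 13) (nat_lit 4) (nat_lit 11) (nat_lit 4) (nat_lit 431) (nat_lit 279) (nat_lit 190)) (XT.nd (nat_lit 78) (nat_lit 76) (nat_lit 0) (XT.lf (nat_lit 0) (nat_lit 33019043550) (nat_lit 152) (nat_lit 7526309345) (nat_lit 0) (nat_lit 14837746722) (nat_lit 11) (nat_lit 5) (nat_lit 13) (nat_lit 4) (nat_lit 11) (nat_lit 4) (nat_lit 432) (nat_lit 279) (nat_lit 189)) (XT.lf (nat_lit 0) (nat_lit 2661354013) (nat_lit 76) (nat_lit 36219973501) (nat_lit 76) (nat_lit 17998862106) (nat_lit 10) (nat_lit 4) (nat_lit 11) (nat_lit 5) (nat_lit 11) (nat_lit 4) (nat_lit 433) (nat_lit 279) (nat_lit 188))))) (XT.nd (nat_lit 234) (nat_lit 152) (nat_lit 0) (XT.nd (nat_lit 78) (nat_lit 0) (nat_lit 0) (XT.lf (nat_lit 0) (nat_lit 13271647048) (nat_lit 76) (nat_lit 31704309803) (nat_lit 76) (nat_lit 13444543489) (nat_lit 10) (nat_lit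 4) (nat_lit 11) (nat_lit 5) (nat_lit 11) (nat_lit 4) (nat_lit 434) (nat_lit 279) (nat_lit 187)) (XT.nd (nat_lit 78) (nat_lit 0) (nat_lit 0) (XT.lf (nat_lit 0) (nat_lit 24164052574) (nat_lit 76) (nat_lit 27070417043) (nat_lit 76) (nat_lit 8773121681) (nat_lit 10) (nat_lit 4) (nat_lit 11) (nat_lit 5) (nat_lit 11) (nat_lit 4) (nat_lit 435) (nat_lit 279) (nat_lit 186)) (XT.lf (nat_lit 0) (nat_lit 35348088227) (nat_lit 76) (nat_lit 22314246188) (nat_lit 76) (nat_lit 3980514858) (nat_lit 10) (nat_lit 4) (nat_lit 11) (nat_lit 5) (nat_lit 11) (nat_lit 4) (nat_lit 436) (nat_lit 279) (nat_lit 185)))) (XT.nd (nat_lit 156) (nat_lit 76) (nat_lit 0) (XT.nd (nat_lit 78) (nat_lit 0) (nat_lit 0) (XT.lf (nat_lit 0) (nat_lit 919171381) (nat_lit 152) (nat_lit 16503188152) (nat_lit 76) (nat_lit 45905073257) (nat_lit 9) (nat_lit 5) (nat_lit 11) (nat_lit 5) (nat_lit 10) (nat_lit 4) (nat_lit 437) (nat_lit 279) (nat_lit 184))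 (XT.lf (nat_lit 0) (nat_lit 5868323104) (nat_lit 152) (nat_lit 6490754549) (nat_lit 76) (nat_lit 52702821450) (nat_lit 9) (nat_lit 5) (nat_lit 11) (nat_lit 5) (nat_lit 10) (nat_lit 4) (nat_lit 438) (nat_lit 279) (nat_lit 183))) (XT.nd (nat_lit 78) (nat_lit 0) (nat_lit 0) (XT.lf (nat_lit 0) (nat_lit 3864971141) (nat_lit 76) (nat_lit 7121120319) (nat_lit 152) (nat_lit 55861705629) (nat_lit 8) (nat_lit 5) (nat_lit 9) (nat_lit 5) (nat_lit 10) (nat_lit 4) (nat_lit 439) (nat_lit 279) (nat_lit 182)) (XT.lf (nat_lit 0) (nat_lit 14632240911) (nat_lit 76) (nat_lit 1673871562) (nat_lit 152) (nat_lit 52379699841) (nat_lit 8) (nat_lit 5) (nat_lit 9) (nat_lit 5) (nat_lit 10) (nat_lit 4) (nat_lit 440) (nat_lit 279) (nat_lit 181))))))) (XT.nd (nat_lit 39390) (nat_lit 0) (nat_lit 5548) (XT.nd (nat_lit 468) (nat_lit 0) (nat_lit 0) (XT.nd (nat_lit 234) (nat_lit 76) (nat_lit 0) (XT.nd (nat_lit 78) (nat_lit 0) (nat_lit 0)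 (XT.lf (nat_lit 0) (nat_lit 21807099409) (nat_lit 152) (nat_lit 44925875097) (nat_lit 0) (nat_lit 3845354363) (nat_lit 8) (nat_lit 5) (nat_lit 10) (nat_lit 4) (nat_lit 8) (nat_lit 4) (nat_lit 441) (nat_lit 279) (nat_lit 180)) (XT.nd (nat_lit 78) (nat_lit 0) (nat_lit 0) (XT.lf (nat_lit 0) (nat_lit 27473691282) (nat_lit 152) (nat_lit 35571593700) (nat_lit 0) (nat_lit 9482320460) (nat_lit 8) (nat_lit 5) (nat_lit 10) (nat_lit 4) (nat_lit 8) (nat_lit 4) (nat_lit 442) (nat_lit 279) (nat_lit 179)) (XT.lf (nat_lit 0) (nat_lit 33294749206) (nat_lit 152) (nat_lit 25966463292) (nat_lit 0) (nat_lit 15274615493) (nat_lit 8) (nat_lit 5) (nat_lit 10) (nat_lit 4) (nat_lit 8) (nat_lit 4) (nat_lit 443) (nat_lit 279) (nat_lit 178)))) (XT.nd (nat_lit 78) (nat_lit 76) (nat_lit 0) (XT.lf (nat_lit 0) (nat_lit 39275359542) (nat_lit 152) (nat_lit 16102091039) (nat_lit 0) (nat_lit 21227300693) (nat_lit 8) (nat_lit 5) (nat_lit 10)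 (nat_lit 4) (nat_lit 8) (nat_lit 4) (nat_lit 444) (nat_lit 279) (nat_lit 177)) (XT.nd (nat_lit 78) (nat_lit 76) (nat_lit 0) (XT.lf (nat_lit 0) (nat_lit 45420748065) (nat_lit 152) (nat_lit 5969857587) (nat_lit 0) (nat_lit 27345577434) (nat_lit 8) (nat_lit 5) (nat_lit 10) (nat_lit 4) (nat_lit 8) (nat_lit 4) (nat_lit 445) (nat_lit 279) (nat_lit 176)) (XT.lf (nat_lit 0) (nat_lit 4527437075) (nat_lit 76) (nat_lit 47252367953) (nat_lit 76) (nat_lit 29150875203) (nat_lit 7) (nat_lit 4) (nat_lit 8) (nat_lit 5) (nat_lit 8) (nat_lit 4) (nat_lit 446) (nat_lit 279) (nat_lit 175))))) (XT.nd (nat_lit 38610) (nat_lit 0) (nat_lit 8892) (XT.nd (nat_lit 78) (nat_lit 0) (nat_lit 0) (XT.lf (nat_lit 0) (nat_lit 15435041589) (nat_lit 76) (nat_lit 42940816850) (nat_lit 76) (nat_lit 24813768644) (nat_lit 7) (nat_lit 4) (nat_lit 8) (nat_lit 5) (nat_lit 8) (nat_lit 4) (nat_lit 447) (nat_lit 279) (nat_lit 174)) (XT.nd (nat_lit 38454)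 (nat_lit 0) (nat_lit 10564) (XT.lf (nat_lit 0) (nat_lit 26643674999) (nat_lit 76) (nat_lit 38512468824) (nat_lit 76) (nat_lit 20360609497) (nat_lit 7) (nat_lit 4) (nat_lit 8) (nat_lit 5) (nat_lit 8) (nat_lit 4) (nat_lit 448) (nat_lit 279) (nat_lit 173)) (XT.lf (nat_lit 0) (nat_lit 4077958014) (nat_lit 456) (nat_lit 30638930) (nat_lit 456) (nat_lit 30638930) (nat_lit 146) (nat_lit 4) (nat_lit 152) (nat_lit 5) (nat_lit 152) (nat_lit 4) (nat_lit 340) (nat_lit 280) (nat_lit 280)))) (XT.nd (nat_lit 156) (nat_lit 836) (nat_lit 0) (XT.nd (nat_lit 78) (nat_lit 380) (nat_lit 0) (XT.lf (nat_lit 0) (nat_lit 3698781514) (nat_lit 456) (nat_lit 2102042157) (nat_lit 0) (nat_lit 2575086678) (nat_lit 140) (nat_lit 5) (nat_lit 146) (nat_lit 4) (nat_lit 140) (nat_lit 4) (nat_lit 341) (nat_lit 280) (nat_lit 279)) (XT.lf (nat_lit 0) (nat_lit 4345425110) (nat_lit 380) (nat_lit 3173549066) (nat_lit 380) (nat_lit 958888368) (nat_lit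 135) (nat_lit 4) (nat_lit 140) (nat_lit 5) (nat_lit 140) (nat_lit 4) (nat_lit 342) (nat_lit 280) (nat_lit 278))) (XT.nd (nat_lit 78) (nat_lit 380) (nat_lit 0) (XT.lf (nat_lit 0) (nat_lit 2337671812) (nat_lit 380) (nat_lit 426625067) (nat_lit 456) (nat_lit 5819327719) (nat_lit 129) (nat_lit 5) (nat_lit 134) (nat_lit 5) (nat_lit 135) (nat_lit 4) (nat_lit 343) (nat_lit 280) (nat_lit 277)) (XT.lf (nat_lit 0) (nat_lit 238345921) (nat_lit 380) (nat_lit 6315822562) (nat_lit 380) (nat_lit 2138938280) (nat_lit 124) (nat_lit 4) (nat_lit 129) (nat_lit 5) (nat_lit 129) (nat_lit 4) (nat_lit 344) (nat_lit 280) (nat_lit 276)))))) (XT.nd (nat_lit 546) (nat_lit 1520) (nat_lit 0) (XT.nd (nat_lit 234) (nat_lit 988) (nat_lit 0) (XT.nd (nat_lit 78) (nat_lit 760) (nat_lit 0) (XT.lf (nat_lit 0) (nat_lit 1594809620) (nat_lit 456) (nat_lit 1908729789) (nat_lit 76) (nat_lit 5302658733) (nat_lit 123) (nat_lit 5) (nat_lit 129) (nat_lit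 5) (nat_lit 124) (nat_lit 4) (nat_lit 345) (nat_lit 280) (nat_lit 275)) (XT.nd (nat_lit 78) (nat_lit 456) (nat_lit 0) (XT.lf (nat_lit 0) (nat_lit 4780318984) (nat_lit 304) (nat_lit 573173153) (nat_lit 380) (nat_lit 3569932301) (nat_lit 119) (nat_lit 5) (nat_lit 123) (nat_lit 5) (nat_lit 124) (nat_lit 4) (nat_lit 346) (nat_lit 280) (nat_lit 274)) (XT.lf (nat_lit 0) (nat_lit 155652629) (nat_lit 456) (nat_lit 6481051170) (nat_lit 76) (nat_lit 2408110953) (nat_lit 113) (nat_lit 5) (nat_lit 119) (nat_lit 5) (nat_lit 114) (nat_lit 4) (nat_lit 347) (nat_lit 280) (nat_lit 273)))) (XT.nd (nat_lit 156) (nat_lit 684) (nat_lit 0) (XT.nd (nat_lit 78) (nat_lit 0) (nat_lit 0) (XT.lf (nat_lit 0) (nat_lit 223935418) (nat_lit 304) (nat_lit 3658911848) (nat_lit 380) (nat_lit 5287141532) (nat_lit 109) (nat_lit 5) (nat_lit 113) (nat_lit 5) (nat_lit 114) (nat_lit 4) (nat_lit 348) (nat_lit 280) (nat_lit 272)) (XT.lf (nat_lit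 0) (nat_lit 7136997697) (nat_lit 304) (nat_lit 563187879) (nat_lit 380) (nat_lit 1599431416) (nat_lit 109) (nat_lit 5) (nat_lit 113) (nat_lit 5) (nat_lit 114) (nat_lit 4) (nat_lit 349) (nat_lit 280) (nat_lit 271))) (XT.nd (nat_lit 78) (nat_lit 304) (nat_lit 0) (XT.lf (nat_lit 0) (nat_lit 2141941081) (nat_lit 380) (nat_lit 4686966479) (nat_lit 76) (nat_lit 2604060126) (nat_lit 104) (nat_lit 5) (nat_lit 109) (nat_lit 5) (nat_lit 105) (nat_lit 4) (nat_lit 350) (nat_lit 280) (nat_lit 270)) (XT.lf (nat_lit 0) (nat_lit 2233513480) (nat_lit 304) (nat_lit 3694467731) (nat_lit 380) (nat_lit 3642970034) (nat_lit 100) (nat_lit 5) (nat_lit 104) (nat_lit 5) (nat_lit 105) (nat_lit 4) (nat_lit 351) (nat_lit 280) (nat_lit 269))))) (XT.nd (nat_lit 234) (nat_lit 912) (nat_lit 0) (XT.nd (nat_lit 78) (nat_lit 532) (nat_lit 0) (XT.lf (nat_lit 0) (nat_lit 75969612) (nat_lit 380) (nat_lit 381019018) (nat_lit 76) (nat_lit 9257184429)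 (nat_lit 99) (nat_lit 5) (nat_lit 104) (nat_lit 5) (nat_lit 100) (nat_lit 5) (nat_lit 352) (nat_lit 280) (nat_lit 268)) (XT.nd (nat_lit 78) (nat_lit 228) (nat_lit 0) (XT.lf (nat_lit 0) (nat_lit 3844824388) (nat_lit 380) (nat_lit 3131356007) (nat_lit 76) (nat_lit 2884122890) (nat_lit 95) (nat_lit 5) (nat_lit 100) (nat_lit 5) (nat_lit 96) (nat_lit 4) (nat_lit 353) (nat_lit 280) (nat_lit 267)) (XT.lf (nat_lit 0) (nat_lit 4000116091) (nat_lit 228) (nat_lit 3692652116) (nat_lit 304) (nat_lit 2319108156) (nat_lit 92) (nat_lit 5) (nat_lit 95) (nat_lit 5) (nat_lit 96) (nat_lit 4) (nat_lit 354) (nat_lit 280) (nat_lit 266)))) (XT.nd (nat_lit 156) (nat_lit 532) (nat_lit 0) (XT.nd (nat_lit 78) (nat_lit 0) (nat_lit 0) (XT.lf (nat_lit 0) (nat_lit 1126910983) (nat_lit 304) (nat_lit 294491480) (nat_lit 380) (nat_lit 8747333754) (nat_lit 87) (nat_lit 5) (nat_lit 91) (nat_lit 5) (nat_lit 92) (nat_lit 5) (nat_lit 355) (nat_lit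 280) (nat_lit 265)) (XT.lf (nat_lit 0) (nat_lit 5239923080) (nat_lit 380) (nat_lit 1903813546) (nat_lit 76) (nat_lit 3185540486) (nat_lit 87) (nat_lit 5) (nat_lit 92) (nat_lit 5) (nat_lit 88) (nat_lit 4) (nat_lit 356) (nat_lit 280) (nat_lit 264))) (XT.nd (nat_lit 78) (nat_lit 304) (nat_lit 0) (XT.lf (nat_lit 0) (nat_lit 5431078749) (nat_lit 228) (nat_lit 3719649080) (nat_lit 304) (nat_lit 1344609777) (nat_lit 84) (nat_lit 5) (nat_lit 87) (nat_lit 5) (nat_lit 88) (nat_lit 4) (nat_lit 357) (nat_lit 280) (nat_lit 263)) (XT.lf (nat_lit 0) (nat_lit 2258254444) (nat_lit 228) (nat_lit 169243722) (nat_lit 304) (nat_lit 8239268946) (nat_lit 80) (nat_lit 5) (nat_lit 83) (nat_lit 5) (nat_lit 84) (nat_lit 5) (nat_lit 358) (nat_lit 280) (nat_lit 262))))))))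
noncomputable def xc57 : XT := (XT.nd (nat_lit 2028) (nat_lit 1596) (nat_lit 0) (XT.nd (nat_lit 1014) (nat_lit 1216) (nat_lit 0) (XT.nd (nat_lit 468) (nat_lit 836) (nat_lit 0) (XT.nd (nat_lit 234) (nat_lit 532) (nat_lit 0) (XT.nd (nat_lit 78) (nat_lit 532) (nat_lit 0) (XT.lf (nat_lit 0) (nat_lit 6294518344) (nat_lit 304) (nat_lit 1106315679) (nat_lit 76) (nat_lit 3441875099) (nat_lit 80) (nat_lit 5) (nat_lit 84) (nat_lit 5) (nat_lit 81) (nat_lit 4) (nat_lit 359) (nat_lit 280) (nat_lit 261)) (XT.nd (nat_lit 78) (nat_lit 304) (nat_lit 0) (XT.lf (nat_lit 0) (nat_lit 6420677732) (nat_lit 228) (nat_lit 3846094958) (nat_lit 304) (nat_lit 757511295) (nat_lit 77) (nat_lit 5) (nat_lit 80) (nat_lit 5) (nat_lit 81) (nat_lit 4) (nat_lit 360) (nat_lit 280) (nat_lit 260)) (XT.lf (nat_lit 0) (nat_lit 2893053216) (nat_lit 228) (nat_lit 157633037) (nat_lit 304) (nat_lit 8160785704) (nat_lit 73) (nat_lit 5) (nat_lit 76)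 (nat_lit 5) (nat_lit 77) (nat_lit 5) (nat_lit 361) (nat_lit 280) (nat_lit 259)))) (XT.nd (nat_lit 78) (nat_lit 532) (nat_lit 0) (XT.lf (nat_lit 0) (nat_lit 6966570862) (nat_lit 304) (nat_lit 855722623) (nat_lit 76) (nat_lit 3581525732) (nat_lit 73) (nat_lit 5) (nat_lit 77) (nat_lit 5) (nat_lit 74) (nat_lit 4) (nat_lit 362) (nat_lit 280) (nat_lit 258)) (XT.nd (nat_lit 78) (nat_lit 304) (nat_lit 0) (XT.lf (nat_lit 0) (nat_lit 6847516254) (nat_lit 228) (nat_lit 4148648053) (nat_lit 304) (nat_lit 605913429) (nat_lit 70) (nat_lit 5) (nat_lit 73) (nat_lit 5) (nat_lit 74) (nat_lit 4) (nat_lit 363) (nat_lit 280) (nat_lit 257)) (XT.lf (nat_lit 0) (nat_lit 2902101301) (nat_lit 228) (nat_lit 338802940) (nat_lit 304) (nat_lit 8565470938) (nat_lit 66) (nat_lit 5) (nat_lit 69) (nat_lit 5) (nat_lit 70) (nat_lit 5) (nat_lit 364) (nat_lit 280) (nat_lit 256))))) (XT.nd (nat_lit 234) (nat_lit 380) (nat_lit 0) (XT.nd (nat_lit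 78) (nat_lit 456) (nat_lit 0) (XT.lf (nat_lit 0) (nat_lit 7203536128) (nat_lit 304) (nat_lit 1286635422) (nat_lit 76) (nat_lit 3526097832) (nat_lit 66) (nat_lit 5) (nat_lit 70) (nat_lit 5) (nat_lit 67) (nat_lit 4) (nat_lit 365) (nat_lit 280) (nat_lit 255)) (XT.nd (nat_lit 78) (nat_lit 304) (nat_lit 0) (XT.lf (nat_lit 0) (nat_lit 6571535246) (nat_lit 152) (nat_lit 4711721628) (nat_lit 228) (nat_lit 949281947) (nat_lit 64) (nat_lit 5) (nat_lit 66) (nat_lit 5) (nat_lit 67) (nat_lit 4) (nat_lit 366) (nat_lit 280) (nat_lit 254)) (XT.lf (nat_lit 0) (nat_lit 2136200081) (nat_lit 228) (nat_lit 800311073) (nat_lit 304) (nat_lit 9518967695) (nat_lit 60) (nat_lit 5) (nat_lit 63) (nat_lit 5) (nat_lit 64) (nat_lit 5) (nat_lit 367) (nat_lit 280) (nat_lit 253)))) (XT.nd (nat_lit 156) (nat_lit 228) (nat_lit 0) (XT.nd (nat_lit 78) (nat_lit 152) (nat_lit 0) (XT.lf (nat_lit 0) (nat_lit 6940948529) (nat_lit 304) (nat_lit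 2554672022) (nat_lit 76) (nat_lit 3188592670) (nat_lit 60) (nat_lit 5) (nat_lit 64) (nat_lit 5) (nat_lit 61) (nat_lit 4) (nat_lit 368) (nat_lit 280) (nat_lit 252)) (XT.lf (nat_lit 0) (nat_lit 5430583187) (nat_lit 152) (nat_lit 5629416477) (nat_lit 228) (nat_lit 1859997493) (nat_lit 58) (nat_lit 5) (nat_lit 60) (nat_lit 5) (nat_lit 61) (nat_lit 4) (nat_lit 369) (nat_lit 280) (nat_lit 251))) (XT.nd (nat_lit 78) (nat_lit 0) (nat_lit 0) (XT.lf (nat_lit 0) (nat_lit 422526904) (nat_lit 152) (nat_lit 1640154568) (nat_lit 228) (nat_lit 11100636721) (nat_lit 55) (nat_lit 5) (nat_lit 57) (nat_lit 5) (nat_lit 58) (nat_lit 5) (nat_lit 370) (nat_lit 280) (nat_lit 250)) (XT.lf (nat_lit 0) (nat_lit 6100741559) (nat_lit 228) (nat_lit 4840234158) (nat_lit 76) (nat_lit 2471378210) (nat_lit 55) (nat_lit 5) (nat_lit 58) (nat_lit 5) (nat_lit 56) (nat_lit 4) (nat_lit 371) (nat_lit 280) (nat_lit 249)))))) (XT.nd (nat_lit 468)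 (nat_lit 456) (nat_lit 0) (XT.nd (nat_lit 234) (nat_lit 380) (nat_lit 0) (XT.nd (nat_lit 78) (nat_lit 228) (nat_lit 0) (XT.lf (nat_lit 0) (nat_lit 3236469580) (nat_lit 152) (nat_lit 7007694041) (nat_lit 228) (nat_lit 3425190012) (nat_lit 53) (nat_lit 5) (nat_lit 55) (nat_lit 5) (nat_lit 56) (nat_lit 4) (nat_lit 372) (nat_lit 280) (nat_lit 248)) (XT.nd (nat_lit 78) (nat_lit 152) (nat_lit 0) (XT.lf (nat_lit 0) (nat_lit 552957681) (nat_lit 228) (nat_lit 2391941547) (nat_lit 76) (nat_lit 10989423612) (nat_lit 52) (nat_lit 5) (nat_lit 55) (nat_lit 5) (nat_lit 53) (nat_lit 5) (nat_lit 373) (nat_lit 280) (nat_lit 247)) (XT.lf (nat_lit 0) (nat_lit 4589265798) (nat_lit 228) (nat_lit 8352847913) (nat_lit 76) (nat_lit 1263898111) (nat_lit 50) (nat_lit 5) (nat_lit 53) (nat_lit 5) (nat_lit 51) (nat_lit 4) (nat_lit 374) (nat_lit 280) (nat_lit 246)))) (XT.nd (nat_lit 78) (nat_lit 380) (nat_lit 0) (XT.lf (nat_lit 0) (nat_lit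 8739458595) (nat_lit 228) (nat_lit 225104851) (nat_lit 76) (nat_lit 5521521494) (nat_lit 50) (nat_lit 5) (nat_lit 53) (nat_lit 5) (nat_lit 51) (nat_lit 4) (nat_lit 375) (nat_lit 280) (nat_lit 245)) (XT.nd (nat_lit 78) (nat_lit 228) (nat_lit 0) (XT.lf (nat_lit 0) (nat_lit 8204396551) (nat_lit 152) (nat_lit 4829640819) (nat_lit 228) (nat_lit 1739943300) (nat_lit 48) (nat_lit 5) (nat_lit 50) (nat_lit 5) (nat_lit 51) (nat_lit 4) (nat_lit 376) (nat_lit 280) (nat_lit 244)) (XT.lf (nat_lit 0) (nat_lit 1729375104) (nat_lit 152) (nat_lit 571074151) (nat_lit 228) (nat_lit 12770588930) (nat_lit 45) (nat_lit 5) (nat_lit 47) (nat_lit 5) (nat_lit 48) (nat_lit 5) (nat_lit 377) (nat_lit 280) (nat_lit 243))))) (XT.nd (nat_lit 234) (nat_lit 304) (nat_lit 0) (XT.nd (nat_lit 78) (nat_lit 152) (nat_lit 0) (XT.lf (nat_lit 0) (nat_lit 6472244567) (nat_lit 228) (nat_lit 5120297801) (nat_lit 76) (nat_lit 3782608776) (nat_lit 45)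 (nat_lit 5) (nat_lit 48) (nat_lit 5) (nat_lit 46) (nat_lit 4) (nat_lit 378) (nat_lit 280) (nat_lit 242)) (XT.nd (nat_lit 78) (nat_lit 0) (nat_lit 0) (XT.lf (nat_lit 0) (nat_lit 3306879277) (nat_lit 152) (nat_lit 7442951411) (nat_lit 228) (nat_lit 4939152644) (nat_lit 43) (nat_lit 5) (nat_lit 45) (nat_lit 5) (nat_lit 46) (nat_lit 4) (nat_lit 379) (nat_lit 280) (nat_lit 241)) (XT.lf (nat_lit 0) (nat_lit 11993106160) (nat_lit 152) (nat_lit 3158243701) (nat_lit 228) (nat_lit 861026975) (nat_lit 43) (nat_lit 5) (nat_lit 45) (nat_lit 5) (nat_lit 46) (nat_lit 4) (nat_lit 380) (nat_lit 280) (nat_lit 240)))) (XT.nd (nat_lit 156) (nat_lit 76) (nat_lit 0) (XT.nd (nat_lit 78) (nat_lit 0) (nat_lit 0) (XT.lf (nat_lit 0) (nat_lit 3275449598) (nat_lit 228) (nat_lit 11803014821) (nat_lit 76) (nat_lit 1266023230) (nat_lit 40) (nat_lit 5) (nat_lit 43) (nat_lit 5) (nat_lit 41) (nat_lit 4) (nat_lit 381) (nat_lit 280) (nat_lit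 239)) (XT.lf (nat_lit 0) (nat_lit 7536233434) (nat_lit 228) (nat_lit 3381363076) (nat_lit 76) (nat_lit 5768197247) (nat_lit 40) (nat_lit 5) (nat_lit 43) (nat_lit 5) (nat_lit 41) (nat_lit 4) (nat_lit 382) (nat_lit 280) (nat_lit 238))) (XT.nd (nat_lit 78) (nat_lit 0) (nat_lit 0) (XT.lf (nat_lit 0) (nat_lit 5301979492) (nat_lit 76) (nat_lit 6620681933) (nat_lit 152) (nat_lit 5114755898) (nat_lit 39) (nat_lit 5) (nat_lit 40) (nat_lit 5) (nat_lit 41) (nat_lit 4) (nat_lit 383) (nat_lit 280) (nat_lit 237)) (XT.lf (nat_lit 0) (nat_lit 14221643201) (nat_lit 76) (nat_lit 2200688162) (nat_lit 152) (nat_lit 977821280) (nat_lit 39) (nat_lit 5) (nat_lit 40) (nat_lit 5) (nat_lit 41) (nat_lit 4) (nat_lit 384) (nat_lit 280) (nat_lit 236))))))) (XT.nd (nat_lit 1014) (nat_lit 684) (nat_lit 0) (XT.nd (nat_lit 468) (nat_lit 380) (nat_lit 0) (XT.nd (nat_lit 234) (nat_lit 228) (nat_lit 0) (XT.nd (nat_lit 78) (nat_lit 76) (nat_lit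 0) (XT.lf (nat_lit 0) (nat_lit 3244775035) (nat_lit 228) (nat_lit 12174372035) (nat_lit 76) (nat_lit 2352919308) (nat_lit 36) (nat_lit 5) (nat_lit 39) (nat_lit 5) (nat_lit 37) (nat_lit 4) (nat_lit 385) (nat_lit 280) (nat_lit 235)) (XT.nd (nat_lit 78) (nat_lit 76) (nat_lit 0) (XT.lf (nat_lit 0) (nat_lit 7577356624) (nat_lit 228) (nat_lit 3575681452) (nat_lit 76) (nat_lit 7001731646) (nat_lit 36) (nat_lit 5) (nat_lit 39) (nat_lit 5) (nat_lit 37) (nat_lit 4) (nat_lit 386) (nat_lit 280) (nat_lit 234)) (XT.lf (nat_lit 0) (nat_lit 5294914826) (nat_lit 76) (nat_lit 6746148436) (nat_lit 152) (nat_lit 6507867599) (nat_lit 35) (nat_lit 5) (nat_lit 36) (nat_lit 5) (nat_lit 37) (nat_lit 4) (nat_lit 387) (nat_lit 280) (nat_lit 233)))) (XT.nd (nat_lit 78) (nat_lit 228) (nat_lit 0) (XT.lf (nat_lit 0) (nat_lit 14416425330) (nat_lit 76) (nat_lit 2209211090) (nat_lit 152) (nat_lit 2329682555) (nat_lit 35) (nat_lit 5) (nat_lit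 36) (nat_lit 5) (nat_lit 37) (nat_lit 4) (nat_lit 388) (nat_lit 280) (nat_lit 232)) (XT.nd (nat_lit 78) (nat_lit 0) (nat_lit 0) (XT.lf (nat_lit 0) (nat_lit 1953517046) (nat_lit 228) (nat_lit 14979405271) (nat_lit 76) (nat_lit 2439871802) (nat_lit 32) (nat_lit 5) (nat_lit 35) (nat_lit 5) (nat_lit 33) (nat_lit 4) (nat_lit 389) (nat_lit 280) (nat_lit 231)) (XT.lf (nat_lit 0) (nat_lit 6338553851) (nat_lit 228) (nat_lit 6247240088) (nat_lit 76) (nat_lit 7215712510) (nat_lit 32) (nat_lit 5) (nat_lit 35) (nat_lit 5) (nat_lit 33) (nat_lit 4) (nat_lit 390) (nat_lit 280) (nat_lit 230))))) (XT.nd (nat_lit 234) (nat_lit 152) (nat_lit 0) (XT.nd (nat_lit 78) (nat_lit 152) (nat_lit 0) (XT.lf (nat_lit 0) (nat_lit 2715301644) (nat_lit 76) (nat_lit 8119343612) (nat_lit 152) (nat_lit 9409059384) (nat_lit 31) (nat_lit 5) (nat_lit 32) (nat_lit 5) (nat_lit 33) (nat_lit 4) (nat_lit 391) (nat_lit 280) (nat_lit 229)) (XT.nd (nat_lit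 78) (nat_lit 152) (nat_lit 0) (XT.lf (nat_lit 0) (nat_lit 11991037358) (nat_lit 76) (nat_lit 3491621482) (nat_lit 152) (nat_lit 5216008068) (nat_lit 31) (nat_lit 5) (nat_lit 32) (nat_lit 5) (nat_lit 33) (nat_lit 4) (nat_lit 392) (nat_lit 280) (nat_lit 228)) (XT.lf (nat_lit 0) (nat_lit 288844315) (nat_lit 152) (nat_lit 19951244354) (nat_lit 152) (nat_lit 928099145) (nat_lit 29) (nat_lit 4) (nat_lit 31) (nat_lit 5) (nat_lit 31) (nat_lit 4) (nat_lit 393) (nat_lit 280) (nat_lit 227)))) (XT.nd (nat_lit 156) (nat_lit 76) (nat_lit 0) (XT.nd (nat_lit 78) (nat_lit 0) (nat_lit 0) (XT.lf (nat_lit 0) (nat_lit 3498769271) (nat_lit 228) (nat_lit 12066820868) (nat_lit 76) (nat_lit 6082854907) (nat_lit 28) (nat_lit 5) (nat_lit 31) (nat_lit 5) (nat_lit 29) (nat_lit 4) (nat_lit 394) (nat_lit 280) (nat_lit 226)) (XT.lf (nat_lit 0) (nat_lit 7996123172) (nat_lit 228) (nat_lit 3079112141) (nat_lit 76) (nat_lit 11068917289)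 (nat_lit 28) (nat_lit 5) (nat_lit 31) (nat_lit 5) (nat_lit 29) (nat_lit 4) (nat_lit 395) (nat_lit 280) (nat_lit 225))) (XT.nd (nat_lit 78) (nat_lit 0) (nat_lit 0) (XT.lf (nat_lit 0) (nat_lit 6221970533) (nat_lit 76) (nat_lit 6423841694) (nat_lit 152) (nat_lit 10008404756) (nat_lit 27) (nat_lit 5) (nat_lit 28) (nat_lit 5) (nat_lit 29) (nat_lit 4) (nat_lit 396) (nat_lit 280) (nat_lit 224)) (XT.lf (nat_lit 0) (nat_lit 15788295572) (nat_lit 76) (nat_lit 1635890034) (nat_lit 152) (nat_lit 5755729683) (nat_lit 27) (nat_lit 5) (nat_lit 28) (nat_lit 5) (nat_lit 29) (nat_lit 4) (nat_lit 397) (nat_lit 280) (nat_lit 223)))))) (XT.nd (nat_lit 546) (nat_lit 228) (nat_lit 0) (XT.nd (nat_lit 234) (nat_lit 228) (nat_lit 0) (XT.nd (nat_lit 78) (nat_lit 76) (nat_lit 0) (XT.lf (nat_lit 0) (nat_lit 1849057255) (nat_lit 152) (nat_lit 20505301780) (nat_lit 152) (nat_lit 1366779615) (nat_lit 25) (nat_lit 4) (nat_lit 27) (nat_lit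 5) (nat_lit 27) (nat_lit 4) (nat_lit 398) (nat_lit 280) (nat_lit 222)) (XT.nd (nat_lit 78) (nat_lit 0) (nat_lit 0) (XT.lf (nat_lit 0) (nat_lit 3142933839) (nat_lit 228) (nat_lit 12880787643) (nat_lit 76) (nat_lit 8252455744) (nat_lit 24) (nat_lit 5) (nat_lit 27) (nat_lit 5) (nat_lit 25) (nat_lit 4) (nat_lit 399) (nat_lit 280) (nat_lit 221)) (XT.lf (nat_lit 0) (nat_lit 7720721011) (nat_lit 228) (nat_lit 3706735190) (nat_lit 76) (nat_lit 13421204118) (nat_lit 24) (nat_lit 5) (nat_lit 27) (nat_lit 5) (nat_lit 25) (nat_lit 4) (nat_lit 400) (nat_lit 280) (nat_lit 220)))) (XT.nd (nat_lit 156) (nat_lit 152) (nat_lit 0) (XT.nd (nat_lit 78) (nat_lit 0) (nat_lit 0) (XT.lf (nat_lit 0) (nat_lit 5784099052) (nat_lit 76) (nat_lit 6668753948) (nat_lit 152) (nat_lit 12984961298) (nat_lit 23) (nat_lit 5) (nat_lit 24) (nat_lit 5) (nat_lit 25) (nat_lit 4) (nat_lit 401) (nat_lit 280) (nat_lit 219)) (XT.lf (nat_lit 0) (nat_lit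 15565033473) (nat_lit 76) (nat_lit 1761202352) (nat_lit 152) (nat_lit 8718434999) (nat_lit 23) (nat_lit 5) (nat_lit 24) (nat_lit 5) (nat_lit 25) (nat_lit 4) (nat_lit 402) (nat_lit 280) (nat_lit 218))) (XT.nd (nat_lit 78) (nat_lit 152) (nat_lit 0) (XT.lf (nat_lit 0) (nat_lit 22340144118) (nat_lit 152) (nat_lit 1131364035) (nat_lit 0) (nat_lit 3198401517) (nat_lit 23) (nat_lit 5) (nat_lit 25) (nat_lit 4) (nat_lit 23) (nat_lit 4) (nat_lit 403) (nat_lit 280) (nat_lit 217)) (XT.lf (nat_lit 0) (nat_lit 251135125) (nat_lit 152) (nat_lit 18734464100) (nat_lit 76) (nat_lit 8326328788) (nat_lit 21) (nat_lit 5) (nat_lit 23) (nat_lit 5) (nat_lit 22) (nat_lit 4) (nat_lit 404) (nat_lit 280) (nat_lit 216))))) (XT.nd (nat_lit 234) (nat_lit 152) (nat_lit 0) (XT.nd (nat_lit 78) (nat_lit 76) (nat_lit 0) (XT.lf (nat_lit 0) (nat_lit 4857782163) (nat_lit 152) (nat_lit 9482510228) (nat_lit 76) (nat_lit 13632373952) (nat_lit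 21) (nat_lit 5) (nat_lit 23) (nat_lit 5) (nat_lit 22) (nat_lit 4) (nat_lit 405) (nat_lit 280) (nat_lit 215)) (XT.nd (nat_lit 78) (nat_lit 76) (nat_lit 0) (XT.lf (nat_lit 0) (nat_lit 9567488485) (nat_lit 152) (nat_lit 18446799) (nat_lit 76) (nat_lit 19068351379) (nat_lit 21) (nat_lit 5) (nat_lit 23) (nat_lit 5) (nat_lit 22) (nat_lit 4) (nat_lit 406) (nat_lit 280) (nat_lit 214)) (XT.lf (nat_lit 0) (nat_lit 9858368023) (nat_lit 76) (nat_lit 4620766007) (nat_lit 152) (nat_lit 14875407593) (nat_lit 20) (nat_lit 5) (nat_lit 21) (nat_lit 5) (nat_lit 22) (nat_lit 4) (nat_lit 407) (nat_lit 280) (nat_lit 213)))) (XT.nd (nat_lit 156) (nat_lit 152) (nat_lit 0) (XT.nd (nat_lit 78) (nat_lit 0) (nat_lit 0) (XT.lf (nat_lit 0) (nat_lit 19509051149) (nat_lit 152) (nat_lit 10112333860) (nat_lit 0) (nat_lit 455296869) (nat_lit 20) (nat_lit 5) (nat_lit 22) (nat_lit 4) (nat_lit 20) (nat_lit 4) (nat_lit 408) (nat_lit 280) (nat_lit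 212)) (XT.lf (nat_lit 0) (nat_lit 24702598099) (nat_lit 152) (nat_lit 554531359) (nat_lit 0) (nat_lit 5562980072) (nat_lit 20) (nat_lit 5) (nat_lit 22) (nat_lit 4) (nat_lit 20) (nat_lit 4) (nat_lit 409) (nat_lit 280) (nat_lit 211))) (XT.nd (nat_lit 78) (nat_lit 76) (nat_lit 0) (XT.lf (nat_lit 0) (nat_lit 9413698167) (nat_lit 76) (nat_lit 20696687358) (nat_lit 76) (nat_lit 1473706470) (nat_lit 19) (nat_lit 4) (nat_lit 20) (nat_lit 5) (nat_lit 20) (nat_lit 4) (nat_lit 410) (nat_lit 280) (nat_lit 210)) (XT.lf (nat_lit 0) (nat_lit 3218477029) (nat_lit 152) (nat_lit 12770407334) (nat_lit 76) (nat_lit 16381950642) (nat_lit 18) (nat_lit 5) (nat_lit 20) (nat_lit 5) (nat_lit 19) (nat_lit 4) (nat_lit 411) (nat_lit 280) (nat_lit 209))))))))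
noncomputable def xc58 : XT := (XT.nd (nat_lit 2028) (nat_lit 228) (nat_lit 0) (XT.nd (nat_lit 1014) (nat_lit 228) (nat_lit 0) (XT.nd (nat_lit 468) (nat_lit 228) (nat_lit 0) (XT.nd (nat_lit 234) (nat_lit 76) (nat_lit 0) (XT.nd (nat_lit 78) (nat_lit 76) (nat_lit 0) (XT.lf (nat_lit 0) (nat_lit 7990726217) (nat_lit 152) (nat_lit 3161318975) (nat_lit 76) (nat_lit 22029634353) (nat_lit 18) (nat_lit 5) (nat_lit 20) (nat_lit 5) (nat_lit 19) (nat_lit 4) (nat_lit 412) (nat_lit 280) (nat_lit 208)) (XT.nd (nat_lit 78) (nat_lit 0) (nat_lit 0) (XT.lf (nat_lit 0) (nat_lit 6812367534) (nat_lit 76) (nat_lit 6129085449) (nat_lit 152) (nat_lit 21074341585) (nat_lit 17) (nat_lit 5) (nat_lit 18) (nat_lit 5) (nat_lit 19) (nat_lit 4) (nat_lit 413) (nat_lit 280) (nat_lit 207)) (XT.lf (nat_lit 0) (nat_lit 17094015234) (nat_lit 76) (nat_lit 948774952) (nat_lit 152) (nat_lit 16832084515) (nat_lit 17) (nat_lit 5) (nat_lit 18) (nat_lit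 5) (nat_lit 19) (nat_lit 4) (nat_lit 414) (nat_lit 280) (nat_lit 206)))) (XT.nd (nat_lit 78) (nat_lit 76) (nat_lit 0) (XT.lf (nat_lit 0) (nat_lit 23310127288) (nat_lit 152) (nat_lit 8172834064) (nat_lit 0) (nat_lit 4276381287) (nat_lit 17) (nat_lit 5) (nat_lit 19) (nat_lit 4) (nat_lit 17) (nat_lit 4) (nat_lit 415) (nat_lit 280) (nat_lit 205)) (XT.nd (nat_lit 78) (nat_lit 0) (nat_lit 0) (XT.lf (nat_lit 0) (nat_lit 1693641519) (nat_lit 76) (nat_lit 27039157682) (nat_lit 76) (nat_lit 7937630046) (nat_lit 16) (nat_lit 4) (nat_lit 17) (nat_lit 5) (nat_lit 17) (nat_lit 4) (nat_lit 416) (nat_lit 280) (nat_lit 204)) (XT.lf (nat_lit 0) (nat_lit 11970724618) (nat_lit 76) (nat_lit 22401914106) (nat_lit 76) (nat_lit 3234579057) (nat_lit 16) (nat_lit 4) (nat_lit 17) (nat_lit 5) (nat_lit 17) (nat_lit 4) (nat_lit 417) (nat_lit 280) (nat_lit 203))))) (XT.nd (nat_lit 234) (nat_lit 76) (nat_lit 0) (XT.nd (nat_lit 78) (nat_lit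 76) (nat_lit 0) (XT.lf (nat_lit 0) (nat_lit 1550656373) (nat_lit 152) (nat_lit 16083393301) (nat_lit 76) (nat_lit 20938424821) (nat_lit 15) (nat_lit 5) (nat_lit 17) (nat_lit 5) (nat_lit 16) (nat_lit 4) (nat_lit 418) (nat_lit 280) (nat_lit 202)) (XT.nd (nat_lit 78) (nat_lit 76) (nat_lit 0) (XT.lf (nat_lit 0) (nat_lit 6387739259) (nat_lit 152) (nat_lit 6326144841) (nat_lit 76) (nat_lit 26852648596) (nat_lit 15) (nat_lit 5) (nat_lit 17) (nat_lit 5) (nat_lit 16) (nat_lit 4) (nat_lit 419) (nat_lit 280) (nat_lit 201)) (XT.lf (nat_lit 0) (nat_lit 3748007852) (nat_lit 76) (nat_lit 7632034755) (nat_lit 152) (nat_lit 29210070309) (nat_lit 14) (nat_lit 5) (nat_lit 15) (nat_lit 5) (nat_lit 16) (nat_lit 4) (nat_lit 420) (nat_lit 280) (nat_lit 200)))) (XT.nd (nat_lit 156) (nat_lit 76) (nat_lit 0) (XT.nd (nat_lit 78) (nat_lit 0) (nat_lit 0) (XT.lf (nat_lit 0) (nat_lit 14205594445) (nat_lit 76) (nat_lit 2354771131) (nat_lit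 152) (nat_lit 25082890860) (nat_lit 14) (nat_lit 5) (nat_lit 15) (nat_lit 5) (nat_lit 16) (nat_lit 4) (nat_lit 421) (nat_lit 280) (nat_lit 199)) (XT.lf (nat_lit 0) (nat_lit 21900615117) (nat_lit 152) (nat_lit 17828295645) (nat_lit 0) (nat_lit 2998951304) (nat_lit 14) (nat_lit 5) (nat_lit 16) (nat_lit 4) (nat_lit 14) (nat_lit 4) (nat_lit 422) (nat_lit 280) (nat_lit 198))) (XT.nd (nat_lit 78) (nat_lit 76) (nat_lit 0) (XT.lf (nat_lit 0) (nat_lit 27400019960) (nat_lit 152) (nat_lit 8000171986) (nat_lit 0) (nat_lit 8444848699) (nat_lit 14) (nat_lit 5) (nat_lit 16) (nat_lit 4) (nat_lit 14) (nat_lit 4) (nat_lit 423) (nat_lit 280) (nat_lit 197)) (XT.lf (nat_lit 0) (nat_lit 2119287091) (nat_lit 76) (nat_lit 30941834703) (nat_lit 76) (nat_lit 11934714462) (nat_lit 13) (nat_lit 4) (nat_lit 14) (nat_lit 5) (nat_lit 14) (nat_lit 4) (nat_lit 424) (nat_lit 280) (nat_lit 196)))))) (XT.nd (nat_lit 468) (nat_lit 76) (nat_lit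 0) (XT.nd (nat_lit 234) (nat_lit 76) (nat_lit 0) (XT.nd (nat_lit 78) (nat_lit 76) (nat_lit 0) (XT.lf (nat_lit 0) (nat_lit 12661902244) (nat_lit 76) (nat_lit 26287545466) (nat_lit 76) (nat_lit 7229989324) (nat_lit 13) (nat_lit 4) (nat_lit 14) (nat_lit 5) (nat_lit 14) (nat_lit 4) (nat_lit 425) (nat_lit 280) (nat_lit 195)) (XT.nd (nat_lit 78) (nat_lit 76) (nat_lit 0) (XT.lf (nat_lit 0) (nat_lit 23477666357) (nat_lit 76) (nat_lit 21514043433) (nat_lit 76) (nat_lit 2407520396) (nat_lit 13) (nat_lit 4) (nat_lit 14) (nat_lit 5) (nat_lit 14) (nat_lit 4) (nat_lit 426) (nat_lit 280) (nat_lit 194)) (XT.lf (nat_lit 0) (nat_lit 2487401953) (nat_lit 152) (nat_lit 14104637746) (nat_lit 76) (nat_lit 32063510262) (nat_lit 12) (nat_lit 5) (nat_lit 14) (nat_lit 5) (nat_lit 13) (nat_lit 4) (nat_lit 427) (nat_lit 280) (nat_lit 193)))) (XT.nd (nat_lit 78) (nat_lit 76) (nat_lit 0) (XT.lf (nat_lit 0) (nat_lit 7459158741) (nat_lit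 152) (nat_lit 4058127462) (nat_lit 76) (nat_lit 38432209447) (nat_lit 12) (nat_lit 5) (nat_lit 14) (nat_lit 5) (nat_lit 13) (nat_lit 4) (nat_lit 428) (nat_lit 280) (nat_lit 192)) (XT.nd (nat_lit 78) (nat_lit 0) (nat_lit 0) (XT.lf (nat_lit 0) (nat_lit 6374273112) (nat_lit 76) (nat_lit 6246073914) (nat_lit 152) (nat_lit 38660706932) (nat_lit 11) (nat_lit 5) (nat_lit 12) (nat_lit 5) (nat_lit 13) (nat_lit 4) (nat_lit 429) (nat_lit 280) (nat_lit 191)) (XT.lf (nat_lit 0) (nat_lit 17163334373) (nat_lit 76) (nat_lit 793252906) (nat_lit 152) (nat_lit 34695367785) (nat_lit 11) (nat_lit 5) (nat_lit 12) (nat_lit 5) (nat_lit 13) (nat_lit 4) (nat_lit 430) (nat_lit 280) (nat_lit 190))))) (XT.nd (nat_lit 234) (nat_lit 76) (nat_lit 0) (XT.nd (nat_lit 78) (nat_lit 0) (nat_lit 0) (XT.lf (nat_lit 0) (nat_lit 23478944906) (nat_lit 152) (nat_lit 25873059684) (nat_lit 0) (nat_lit 4711200170) (nat_lit 11) (nat_lit 5) (nat_lit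 13) (nat_lit 4) (nat_lit 11) (nat_lit 4) (nat_lit 431) (nat_lit 280) (nat_lit 189)) (XT.nd (nat_lit 78) (nat_lit 0) (nat_lit 0) (XT.lf (nat_lit 0) (nat_lit 29155086545) (nat_lit 152) (nat_lit 16014537156) (nat_lit 0) (nat_lit 10347527241) (nat_lit 11) (nat_lit 5) (nat_lit 13) (nat_lit 4) (nat_lit 11) (nat_lit 4) (nat_lit 432) (nat_lit 280) (nat_lit 188)) (XT.lf (nat_lit 0) (nat_lit 34982346697) (nat_lit 152) (nat_lit 5896813630) (nat_lit 0) (nat_lit 16136132475) (nat_lit 11) (nat_lit 5) (nat_lit 13) (nat_lit 4) (nat_lit 11) (nat_lit 4) (nat_lit 433) (nat_lit 280) (nat_lit 187)))) (XT.nd (nat_lit 156) (nat_lit 0) (nat_lit 0) (XT.nd (nat_lit 78) (nat_lit 0) (nat_lit 0) (XT.lf (nat_lit 0) (nat_lit 4578290561) (nat_lit 76) (nat_lit 36431535914) (nat_lit 76) (nat_lit 17547792644) (nat_lit 10) (nat_lit 4) (nat_lit 11) (nat_lit 5) (nat_lit 11) (nat_lit 4) (nat_lit 434) (nat_lit 280) (nat_lit 186)) (XT.lf (nat_lit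 0) (nat_lit 15453384738) (nat_lit 76) (nat_lit 31805888813) (nat_lit 76) (nat_lit 12885709575) (nat_lit 10) (nat_lit 4) (nat_lit 11) (nat_lit 5) (nat_lit 11) (nat_lit 4) (nat_lit 435) (nat_lit 280) (nat_lit 185))) (XT.nd (nat_lit 78) (nat_lit 0) (nat_lit 0) (XT.lf (nat_lit 0) (nat_lit 26620613257) (nat_lit 76) (nat_lit 27057723453) (nat_lit 76) (nat_lit 8102169488) (nat_lit 10) (nat_lit 4) (nat_lit 11) (nat_lit 5) (nat_lit 11) (nat_lit 4) (nat_lit 436) (nat_lit 280) (nat_lit 184)) (XT.lf (nat_lit 0) (nat_lit 38089733889) (nat_lit 76) (nat_lit 22182890952) (nat_lit 76) (nat_lit 3192992592) (nat_lit 10) (nat_lit 4) (nat_lit 11) (nat_lit 5) (nat_lit 11) (nat_lit 4) (nat_lit 437) (nat_lit 280) (nat_lit 183))))))) (XT.nd (nat_lit 39234) (nat_lit 0) (nat_lit 6688) (XT.nd (nat_lit 468) (nat_lit 76) (nat_lit 0) (XT.nd (nat_lit 234) (nat_lit 0) (nat_lit 0) (XT.nd (nat_lit 78) (nat_lit 76) (nat_lit 0) (XT.lf (nat_lit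 0) (nat_lit 1810086416) (nat_lit 152) (nat_lit 15348767006) (nat_lit 76) (nat_lit 48042403457) (nat_lit 9) (nat_lit 5) (nat_lit 11) (nat_lit 5) (nat_lit 10) (nat_lit 4) (nat_lit 438) (nat_lit 280) (nat_lit 182)) (XT.nd (nat_lit 78) (nat_lit 76) (nat_lit 0) (XT.lf (nat_lit 0) (nat_lit 6882566869) (nat_lit 152) (nat_lit 5084004574) (nat_lit 76) (nat_lit 55021942990) (nat_lit 9) (nat_lit 5) (nat_lit 11) (nat_lit 5) (nat_lit 10) (nat_lit 4) (nat_lit 439) (nat_lit 280) (nat_lit 181)) (XT.lf (nat_lit 0) (nat_lit 5566692175) (nat_lit 76) (nat_lit 6578006090) (nat_lit 152) (nat_lit 56683568983) (nat_lit 8) (nat_lit 5) (nat_lit 9) (nat_lit 5) (nat_lit 10) (nat_lit 4) (nat_lit 440) (nat_lit 280) (nat_lit 180)))) (XT.nd (nat_lit 78) (nat_lit 0) (nat_lit 0) (XT.lf (nat_lit 0) (nat_lit 16610792508) (nat_lit 76) (nat_lit 989381070) (nat_lit 152) (nat_lit 53121976453) (nat_lit 8) (nat_lit 5) (nat_lit 9) (nat_lit 5) (nat_lit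 10) (nat_lit 4) (nat_lit 441) (nat_lit 280) (nat_lit 179)) (XT.nd (nat_lit 78) (nat_lit 0) (nat_lit 0) (XT.lf (nat_lit 0) (nat_lit 23249603828) (nat_lit 152) (nat_lit 44762235260) (nat_lit 0) (nat_lit 4660103214) (nat_lit 8) (nat_lit 5) (nat_lit 10) (nat_lit 4) (nat_lit 8) (nat_lit 4) (nat_lit 442) (nat_lit 280) (nat_lit 178)) (XT.lf (nat_lit 0) (nat_lit 29063233513) (nat_lit 152) (nat_lit 35171347250) (nat_lit 0) (nat_lit 10445807762) (nat_lit 8) (nat_lit 5) (nat_lit 10) (nat_lit 4) (nat_lit 8) (nat_lit 4) (nat_lit 443) (nat_lit 280) (nat_lit 177))))) (XT.nd (nat_lit 234) (nat_lit 76) (nat_lit 0) (XT.nd (nat_lit 78) (nat_lit 0) (nat_lit 0) (XT.lf (nat_lit 0) (nat_lit 35036631965) (nat_lit 152) (nat_lit 25320802567) (nat_lit 0) (nat_lit 16392094433) (nat_lit 8) (nat_lit 5) (nat_lit 10) (nat_lit 4) (nat_lit 8) (nat_lit 4) (nat_lit 444) (nat_lit 280) (nat_lit 176)) (XT.nd (nat_lit 78) (nat_lit 0) (nat_lit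 0) (XT.lf (nat_lit 0) (nat_lit 41175018661) (nat_lit 152) (nat_lit 15201993942) (nat_lit 0) (nat_lit 22504159009) (nat_lit 8) (nat_lit 5) (nat_lit 10) (nat_lit 4) (nat_lit 8) (nat_lit 4) (nat_lit 445) (nat_lit 280) (nat_lit 175)) (XT.lf (nat_lit 0) (nat_lit 47483757238) (nat_lit 152) (nat_lit 4806079695) (nat_lit 0) (nat_lit 28787342131) (nat_lit 8) (nat_lit 5) (nat_lit 10) (nat_lit 4) (nat_lit 8) (nat_lit 4) (nat_lit 446) (nat_lit 280) (nat_lit 174)))) (XT.nd (nat_lit 38376) (nat_lit 0) (nat_lit 10564) (XT.nd (nat_lit 78) (nat_lit 0) (nat_lit 0) (XT.lf (nat_lit 0) (nat_lit 5992968379) (nat_lit 76) (nat_lit 48032999886) (nat_lit 76) (nat_lit 29311773657) (nat_lit 7) (nat_lit 4) (nat_lit 8) (nat_lit 5) (nat_lit 8) (nat_lit 4) (nat_lit 447) (nat_lit 280) (nat_lit 173)) (XT.lf (nat_lit 0) (nat_lit 17189071664) (nat_lit 76) (nat_lit 43610653874) (nat_lit 76) (nat_lit 24865339177) (nat_lit 7) (nat_lit 4) (nat_lit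 8) (nat_lit 5) (nat_lit 8) (nat_lit 4) (nat_lit 448) (nat_lit 280) (nat_lit 172))) (XT.nd (nat_lit 78) (nat_lit 456) (nat_lit 0) (XT.lf (nat_lit 0) (nat_lit 930536856) (nat_lit 532) (nat_lit 2184343658) (nat_lit 0) (nat_lit 930536856) (nat_lit 152) (nat_lit 5) (nat_lit 159) (nat_lit 4) (nat_lit 152) (nat_lit 4) (nat_lit 338) (nat_lit 281) (nat_lit 281)) (XT.lf (nat_lit 0) (nat_lit 1787750940) (nat_lit 456) (nat_lit 3793781501) (nat_lit 456) (nat_lit 2601653649) (nat_lit 146) (nat_lit 4) (nat_lit 152) (nat_lit 5) (nat_lit 152) (nat_lit 4) (nat_lit 339) (nat_lit 281) (nat_lit 280)))))) (XT.nd (nat_lit 546) (nat_lit 1824) (nat_lit 0) (XT.nd (nat_lit 234) (nat_lit 1140) (nat_lit 0) (XT.nd (nat_lit 78) (nat_lit 836) (nat_lit 0) (XT.lf (nat_lit 0) (nat_lit 1061295515) (nat_lit 532) (nat_lit 195103638) (nat_lit 76) (nat_lit 7023204360) (nat_lit 145) (nat_lit 5) (nat_lit 152) (nat_lit 5) (nat_lit 146) (nat_lit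 4) (nat_lit 340) (nat_lit 281) (nat_lit 279)) (XT.nd (nat_lit 78) (nat_lit 456) (nat_lit 0) (XT.lf (nat_lit 0) (nat_lit 4761122905) (nat_lit 456) (nat_lit 2228648381) (nat_lit 0) (nat_lit 1389056525) (nat_lit 140) (nat_lit 5) (nat_lit 146) (nat_lit 4) (nat_lit 140) (nat_lit 4) (nat_lit 341) (nat_lit 281) (nat_lit 278)) (XT.lf (nat_lit 0) (nat_lit 50774091) (nat_lit 456) (nat_lit 4328185130) (nat_lit 76) (nat_lit 4103256213) (nat_lit 134) (nat_lit 5) (nat_lit 140) (nat_lit 5) (nat_lit 135) (nat_lit 4) (nat_lit 342) (nat_lit 281) (nat_lit 277)))) (XT.nd (nat_lit 156) (nat_lit 760) (nat_lit 0) (XT.nd (nat_lit 78) (nat_lit 0) (nat_lit 0) (XT.lf (nat_lit 0) (nat_lit 2066529381) (nat_lit 380) (nat_lit 1640921788) (nat_lit 456) (nat_lit 4881713243) (nat_lit 129) (nat_lit 5) (nat_lit 134) (nat_lit 5) (nat_lit 135) (nat_lit 4) (nat_lit 343) (nat_lit 281) (nat_lit 276)) (XT.lf (nat_lit 0) (nat_lit 7438753130) (nat_lit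 456) (nat_lit 92814244) (nat_lit 0) (nat_lit 1168864974) (nat_lit 129) (nat_lit 5) (nat_lit 135) (nat_lit 4) (nat_lit 129) (nat_lit 4) (nat_lit 344) (nat_lit 281) (nat_lit 275))) (XT.nd (nat_lit 78) (nat_lit 304) (nat_lit 0) (XT.lf (nat_lit 0) (nat_lit 2409677240) (nat_lit 456) (nat_lit 2319320094) (nat_lit 76) (nat_lit 4085658637) (nat_lit 123) (nat_lit 5) (nat_lit 129) (nat_lit 5) (nat_lit 124) (nat_lit 4) (nat_lit 345) (nat_lit 281) (nat_lit 274)) (XT.lf (nat_lit 0) (nat_lit 4300356744) (nat_lit 304) (nat_lit 1820327181) (nat_lit 380) (nat_lit 2812654865) (nat_lit 119) (nat_lit 5) (nat_lit 123) (nat_lit 5) (nat_lit 124) (nat_lit 4) (nat_lit 346) (nat_lit 281) (nat_lit 273))))) (XT.nd (nat_lit 234) (nat_lit 1064) (nat_lit 0) (XT.nd (nat_lit 78) (nat_lit 304) (nat_lit 0) (XT.lf (nat_lit 0) (nat_lit 837725615) (nat_lit 456) (nat_lit 7048627393) (nat_lit 76) (nat_lit 1169995272) (nat_lit 113) (nat_lit 5)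 (nat_lit 119) (nat_lit 5) (nat_lit 114) (nat_lit 4) (nat_lit 347) (nat_lit 281) (nat_lit 272)) (XT.nd (nat_lit 78) (nat_lit 304) (nat_lit 0) (XT.lf (nat_lit 0) (nat_lit 4520448649) (nat_lit 456) (nat_lit 408834124) (nat_lit 76) (nat_lit 4253597721) (nat_lit 113) (nat_lit 5) (nat_lit 119) (nat_lit 5) (nat_lit 114) (nat_lit 4) (nat_lit 348) (nat_lit 281) (nat_lit 271)) (XT.lf (nat_lit 0) (nat_lit 6435864330) (nat_lit 304) (nat_lit 1856249104) (nat_lit 380) (nat_lit 1021788783) (nat_lit 109) (nat_lit 5) (nat_lit 113) (nat_lit 5) (nat_lit 114) (nat_lit 4) (nat_lit 349) (nat_lit 281) (nat_lit 270)))) (XT.nd (nat_lit 156) (nat_lit 380) (nat_lit 0) (XT.nd (nat_lit 78) (nat_lit 304) (nat_lit 0) (XT.lf (nat_lit 0) (nat_lit 2647159860) (nat_lit 380) (nat_lit 5485744019) (nat_lit 76) (nat_lit 1316038994) (nat_lit 104) (nat_lit 5) (nat_lit 109) (nat_lit 5) (nat_lit 105) (nat_lit 4) (nat_lit 350) (nat_lit 281) (nat_lit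 269)) (XT.lf (nat_lit 0) (nat_lit 1357870784) (nat_lit 304) (nat_lit 5026485858) (nat_lit 380) (nat_lit 3204056432) (nat_lit 100) (nat_lit 5) (nat_lit 104) (nat_lit 5) (nat_lit 105) (nat_lit 4) (nat_lit 351) (nat_lit 281) (nat_lit 268))) (XT.nd (nat_lit 78) (nat_lit 304) (nat_lit 0) (XT.lf (nat_lit 0) (nat_lit 466086211) (nat_lit 380) (nat_lit 1338355619) (nat_lit 76) (nat_lit 7928293568) (nat_lit 99) (nat_lit 5) (nat_lit 104) (nat_lit 5) (nat_lit 100) (nat_lit 5) (nat_lit 352) (nat_lit 281) (nat_lit 267)) (XT.lf (nat_lit 0) (nat_lit 4172687970) (nat_lit 380) (nat_lit 4173986747) (nat_lit 76) (nat_lit 1534078029) (nat_lit 95) (nat_lit 5) (nat_lit 100) (nat_lit 5) (nat_lit 96) (nat_lit 4) (nat_lit 353) (nat_lit 281) (nat_lit 266))))))))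
noncomputable def xc59 : XT := (XT.nd (nat_lit 2028) (nat_lit 1824) (nat_lit 0) (XT.nd (nat_lit 1014) (nat_lit 1444) (nat_lit 0) (XT.nd (nat_lit 468) (nat_lit 1216) (nat_lit 0) (XT.nd (nat_lit 234) (nat_lit 532) (nat_lit 0) (XT.nd (nat_lit 78) (nat_lit 380) (nat_lit 0) (XT.lf (nat_lit 0) (nat_lit 2876884705) (nat_lit 228) (nat_lit 5094287866) (nat_lit 304) (nat_lit 2062655994) (nat_lit 92) (nat_lit 5) (nat_lit 95) (nat_lit 5) (nat_lit 96) (nat_lit 4) (nat_lit 354) (nat_lit 281) (nat_lit 265)) (XT.nd (nat_lit 78) (nat_lit 304) (nat_lit 0) (XT.lf (nat_lit 0) (nat_lit 1623528025) (nat_lit 304) (nat_lit 101618803) (nat_lit 76) (nat_lit 8466965177) (nat_lit 91) (nat_lit 5) (nat_lit 95) (nat_lit 5) (nat_lit 92) (nat_lit 5) (nat_lit 355) (nat_lit 281) (nat_lit 264)) (XT.lf (nat_lit 0) (nat_lit 5389165012) (nat_lit 380) (nat_lit 3203282079) (nat_lit 76) (nat_lit 1761809673) (nat_lit 87) (nat_lit 5) (nat_lit 92)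 (nat_lit 5) (nat_lit 88) (nat_lit 4) (nat_lit 356) (nat_lit 281) (nat_lit 263)))) (XT.nd (nat_lit 78) (nat_lit 304) (nat_lit 0) (XT.lf (nat_lit 0) (nat_lit 4047056496) (nat_lit 228) (nat_lit 5202594468) (nat_lit 304) (nat_lit 1272192706) (nat_lit 84) (nat_lit 5) (nat_lit 87) (nat_lit 5) (nat_lit 88) (nat_lit 4) (nat_lit 357) (nat_lit 281) (nat_lit 262)) (XT.nd (nat_lit 78) (nat_lit 0) (nat_lit 0) (XT.lf (nat_lit 0) (nat_lit 760063122) (nat_lit 228) (nat_lit 1687175819) (nat_lit 304) (nat_lit 8247567127) (nat_lit 80) (nat_lit 5) (nat_lit 83) (nat_lit 5) (nat_lit 84) (nat_lit 5) (nat_lit 358) (nat_lit 281) (nat_lit 261)) (XT.lf (nat_lit 0) (nat_lit 6263130094) (nat_lit 304) (nat_lit 2676025776) (nat_lit 76) (nat_lit 1933141498) (nat_lit 80) (nat_lit 5) (nat_lit 84) (nat_lit 5) (nat_lit 81) (nat_lit 4) (nat_lit 359) (nat_lit 281) (nat_lit 260))))) (XT.nd (nat_lit 234) (nat_lit 684) (nat_lit 0) (XT.nd (nat_lit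 78) (nat_lit 304) (nat_lit 0) (XT.lf (nat_lit 0) (nat_lit 4762225539) (nat_lit 228) (nat_lit 5421743317) (nat_lit 304) (nat_lit 871460812) (nat_lit 77) (nat_lit 5) (nat_lit 80) (nat_lit 5) (nat_lit 81) (nat_lit 4) (nat_lit 360) (nat_lit 281) (nat_lit 259)) (XT.nd (nat_lit 78) (nat_lit 0) (nat_lit 0) (XT.lf (nat_lit 0) (nat_lit 1113276466) (nat_lit 228) (nat_lit 1773238016) (nat_lit 304) (nat_lit 8357723503) (nat_lit 73) (nat_lit 5) (nat_lit 76) (nat_lit 5) (nat_lit 77) (nat_lit 5) (nat_lit 361) (nat_lit 281) (nat_lit 258)) (XT.lf (nat_lit 0) (nat_lit 6751819183) (nat_lit 304) (nat_lit 2709581083) (nat_lit 76) (nat_lit 1976716075) (nat_lit 73) (nat_lit 5) (nat_lit 77) (nat_lit 5) (nat_lit 74) (nat_lit 4) (nat_lit 362) (nat_lit 281) (nat_lit 257)))) (XT.nd (nat_lit 156) (nat_lit 152) (nat_lit 0) (XT.nd (nat_lit 78) (nat_lit 304) (nat_lit 0) (XT.lf (nat_lit 0) (nat_lit 4900473823) (nat_lit 228) (nat_lit 5828193784)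 (nat_lit 304) (nat_lit 909302903) (nat_lit 70) (nat_lit 5) (nat_lit 73) (nat_lit 5) (nat_lit 74) (nat_lit 4) (nat_lit 363) (nat_lit 281) (nat_lit 256)) (XT.lf (nat_lit 0) (nat_lit 826238447) (nat_lit 228) (nat_lit 2063334062) (nat_lit 304) (nat_lit 8954411345) (nat_lit 66) (nat_lit 5) (nat_lit 69) (nat_lit 5) (nat_lit 70) (nat_lit 5) (nat_lit 364) (nat_lit 281) (nat_lit 255))) (XT.nd (nat_lit 78) (nat_lit 152) (nat_lit 0) (XT.lf (nat_lit 0) (nat_lit 6801974834) (nat_lit 304) (nat_lit 3439134028) (nat_lit 76) (nat_lit 1814288254) (nat_lit 66) (nat_lit 5) (nat_lit 70) (nat_lit 5) (nat_lit 67) (nat_lit 4) (nat_lit 365) (nat_lit 281) (nat_lit 254)) (XT.lf (nat_lit 0) (nat_lit 4321138512) (nat_lit 152) (nat_lit 6506252728) (nat_lit 228) (nat_lit 1445916262) (nat_lit 64) (nat_lit 5) (nat_lit 66) (nat_lit 5) (nat_lit 67) (nat_lit 4) (nat_lit 366) (nat_lit 281) (nat_lit 253)))))) (XT.nd (nat_lit 468) (nat_lit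 608) (nat_lit 0) (XT.nd (nat_lit 234) (nat_lit 380) (nat_lit 0) (XT.nd (nat_lit 78) (nat_lit 380) (nat_lit 0) (XT.lf (nat_lit 0) (nat_lit 2396468720) (nat_lit 228) (nat_lit 245991098) (nat_lit 76) (nat_lit 9855535047) (nat_lit 63) (nat_lit 5) (nat_lit 66) (nat_lit 5) (nat_lit 64) (nat_lit 5) (nat_lit 367) (nat_lit 281) (nat_lit 252)) (XT.nd (nat_lit 78) (nat_lit 152) (nat_lit 0) (XT.lf (nat_lit 0) (nat_lit 6348425082) (nat_lit 304) (nat_lit 5020968295) (nat_lit 76) (nat_lit 1358921104) (nat_lit 60) (nat_lit 5) (nat_lit 64) (nat_lit 5) (nat_lit 61) (nat_lit 4) (nat_lit 368) (nat_lit 281) (nat_lit 251)) (XT.lf (nat_lit 0) (nat_lit 2861382892) (nat_lit 152) (nat_lit 7550000878) (nat_lit 228) (nat_lit 2554407921) (nat_lit 58) (nat_lit 5) (nat_lit 60) (nat_lit 5) (nat_lit 61) (nat_lit 4) (nat_lit 369) (nat_lit 281) (nat_lit 250)))) (XT.nd (nat_lit 78) (nat_lit 304) (nat_lit 0) (XT.lf (nat_lit 0) (nat_lit 1346459577)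 (nat_lit 228) (nat_lit 2246923003) (nat_lit 76) (nat_lit 9617001152) (nat_lit 57) (nat_lit 5) (nat_lit 60) (nat_lit 5) (nat_lit 58) (nat_lit 5) (nat_lit 370) (nat_lit 281) (nat_lit 249)) (XT.nd (nat_lit 78) (nat_lit 152) (nat_lit 0) (XT.lf (nat_lit 0) (nat_lit 5312398803) (nat_lit 228) (nat_lit 7636231526) (nat_lit 76) (nat_lit 512962372) (nat_lit 55) (nat_lit 5) (nat_lit 58) (nat_lit 5) (nat_lit 56) (nat_lit 4) (nat_lit 371) (nat_lit 281) (nat_lit 248)) (XT.lf (nat_lit 0) (nat_lit 332250321) (nat_lit 152) (nat_lit 9065460716) (nat_lit 228) (nat_lit 4322633993) (nat_lit 53) (nat_lit 5) (nat_lit 55) (nat_lit 5) (nat_lit 56) (nat_lit 4) (nat_lit 372) (nat_lit 281) (nat_lit 247))))) (XT.nd (nat_lit 234) (nat_lit 380) (nat_lit 0) (XT.nd (nat_lit 78) (nat_lit 228) (nat_lit 0) (XT.lf (nat_lit 0) (nat_lit 8592701104) (nat_lit 152) (nat_lit 5029490441) (nat_lit 228) (nat_lit 364188502) (nat_lit 53) (nat_lit 5)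 (nat_lit 55) (nat_lit 5) (nat_lit 56) (nat_lit 4) (nat_lit 373) (nat_lit 281) (nat_lit 246)) (XT.nd (nat_lit 78) (nat_lit 0) (nat_lit 0) (XT.lf (nat_lit 0) (nat_lit 2756873101) (nat_lit 152) (nat_lit 850844849) (nat_lit 228) (nat_lit 10652609888) (nat_lit 50) (nat_lit 5) (nat_lit 52) (nat_lit 5) (nat_lit 53) (nat_lit 5) (nat_lit 374) (nat_lit 281) (nat_lit 245)) (XT.lf (nat_lit 0) (nat_lit 7720675018) (nat_lit 228) (nat_lit 3417863514) (nat_lit 76) (nat_lit 3402987785) (nat_lit 50) (nat_lit 5) (nat_lit 53) (nat_lit 5) (nat_lit 51) (nat_lit 4) (nat_lit 375) (nat_lit 281) (nat_lit 244)))) (XT.nd (nat_lit 156) (nat_lit 152) (nat_lit 0) (XT.nd (nat_lit 78) (nat_lit 76) (nat_lit 0) (XT.lf (nat_lit 0) (nat_lit 4898258490) (nat_lit 152) (nat_lit 7057004110) (nat_lit 228) (nat_lit 2875967230) (nat_lit 48) (nat_lit 5) (nat_lit 50) (nat_lit 5) (nat_lit 51) (nat_lit 4) (nat_lit 376) (nat_lit 281) (nat_lit 243)) (XT.lf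 (nat_lit 0) (nat_lit 1141831974) (nat_lit 228) (nat_lit 1705791541) (nat_lit 76) (nat_lit 12282341857) (nat_lit 47) (nat_lit 5) (nat_lit 50) (nat_lit 5) (nat_lit 48) (nat_lit 5) (nat_lit 377) (nat_lit 281) (nat_lit 242))) (XT.nd (nat_lit 78) (nat_lit 0) (nat_lit 0) (XT.lf (nat_lit 0) (nat_lit 5246871919) (nat_lit 228) (nat_lit 8675908083) (nat_lit 76) (nat_lit 1513308354) (nat_lit 45) (nat_lit 5) (nat_lit 48) (nat_lit 5) (nat_lit 46) (nat_lit 4) (nat_lit 378) (nat_lit 281) (nat_lit 241)) (XT.lf (nat_lit 0) (nat_lit 9465502569) (nat_lit 228) (nat_lit 360944899) (nat_lit 76) (nat_lit 5925248888) (nat_lit 45) (nat_lit 5) (nat_lit 48) (nat_lit 5) (nat_lit 46) (nat_lit 4) (nat_lit 379) (nat_lit 281) (nat_lit 240))))))) (XT.nd (nat_lit 1014) (nat_lit 760) (nat_lit 0) (XT.nd (nat_lit 468) (nat_lit 380) (nat_lit 0) (XT.nd (nat_lit 234) (nat_lit 304) (nat_lit 0) (XT.nd (nat_lit 78) (nat_lit 228) (nat_lit 0) (XT.lf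 (nat_lit 0) (nat_lit 8270881199) (nat_lit 152) (nat_lit 5565771553) (nat_lit 228) (nat_lit 2239355118) (nat_lit 43) (nat_lit 5) (nat_lit 45) (nat_lit 5) (nat_lit 46) (nat_lit 4) (nat_lit 380) (nat_lit 281) (nat_lit 239)) (XT.nd (nat_lit 78) (nat_lit 0) (nat_lit 0) (XT.lf (nat_lit 0) (nat_lit 659273108) (nat_lit 152) (nat_lit 1188578166) (nat_lit 228) (nat_lit 14562956424) (nat_lit 40) (nat_lit 5) (nat_lit 42) (nat_lit 5) (nat_lit 43) (nat_lit 5) (nat_lit 381) (nat_lit 281) (nat_lit 238)) (XT.lf (nat_lit 0) (nat_lit 6071029854) (nat_lit 228) (nat_lit 7364969547) (nat_lit 76) (nat_lit 3317248914) (nat_lit 40) (nat_lit 5) (nat_lit 43) (nat_lit 5) (nat_lit 41) (nat_lit 4) (nat_lit 382) (nat_lit 281) (nat_lit 237)))) (XT.nd (nat_lit 78) (nat_lit 228) (nat_lit 0) (XT.lf (nat_lit 0) (nat_lit 1193035399) (nat_lit 76) (nat_lit 9199507367) (nat_lit 152) (nat_lit 6714282735) (nat_lit 39) (nat_lit 5) (nat_lit 40)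 (nat_lit 5) (nat_lit 41) (nat_lit 4) (nat_lit 383) (nat_lit 281) (nat_lit 236)) (XT.nd (nat_lit 78) (nat_lit 228) (nat_lit 0) (XT.lf (nat_lit 0) (nat_lit 10067984504) (nat_lit 76) (nat_lit 4799121294) (nat_lit 152) (nat_lit 2603214217) (nat_lit 39) (nat_lit 5) (nat_lit 40) (nat_lit 5) (nat_lit 41) (nat_lit 4) (nat_lit 384) (nat_lit 281) (nat_lit 235)) (XT.lf (nat_lit 0) (nat_lit 1284719176) (nat_lit 152) (nat_lit 277002326) (nat_lit 228) (nat_lit 16283667957) (nat_lit 36) (nat_lit 5) (nat_lit 38) (nat_lit 5) (nat_lit 39) (nat_lit 5) (nat_lit 385) (nat_lit 281) (nat_lit 234))))) (XT.nd (nat_lit 234) (nat_lit 304) (nat_lit 0) (XT.nd (nat_lit 78) (nat_lit 76) (nat_lit 0) (XT.lf (nat_lit 0) (nat_lit 5867132809) (nat_lit 228) (nat_lit 8003345497) (nat_lit 76) (nat_lit 4358435084) (nat_lit 36) (nat_lit 5) (nat_lit 39) (nat_lit 5) (nat_lit 37) (nat_lit 4) (nat_lit 386) (nat_lit 281) (nat_lit 233)) (XT.nd (nat_lit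 78) (nat_lit 0) (nat_lit 0) (XT.lf (nat_lit 0) (nat_lit 735534724) (nat_lit 76) (nat_lit 9527683419) (nat_lit 152) (nat_lit 8361890345) (nat_lit 35) (nat_lit 5) (nat_lit 36) (nat_lit 5) (nat_lit 37) (nat_lit 4) (nat_lit 387) (nat_lit 281) (nat_lit 232)) (XT.lf (nat_lit 0) (nat_lit 9814718179) (nat_lit 76) (nat_lit 5009565518) (nat_lit 152) (nat_lit 4207923298) (nat_lit 35) (nat_lit 5) (nat_lit 36) (nat_lit 5) (nat_lit 37) (nat_lit 4) (nat_lit 388) (nat_lit 281) (nat_lit 231)))) (XT.nd (nat_lit 156) (nat_lit 76) (nat_lit 0) (XT.nd (nat_lit 78) (nat_lit 152) (nat_lit 0) (XT.lf (nat_lit 0) (nat_lit 22484653) (nat_lit 152) (nat_lit 370283125) (nat_lit 76) (nat_lit 19060144160) (nat_lit 34) (nat_lit 5) (nat_lit 36) (nat_lit 5) (nat_lit 35) (nat_lit 5) (nat_lit 389) (nat_lit 281) (nat_lit 230)) (XT.lf (nat_lit 0) (nat_lit 4377125260) (nat_lit 228) (nat_lit 11136358612) (nat_lit 76) (nat_lit 4369057009) (nat_lit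 32) (nat_lit 5) (nat_lit 35) (nat_lit 5) (nat_lit 33) (nat_lit 4) (nat_lit 390) (nat_lit 281) (nat_lit 229))) (XT.nd (nat_lit 78) (nat_lit 76) (nat_lit 0) (XT.lf (nat_lit 0) (nat_lit 8824829595) (nat_lit 228) (nat_lit 2267250673) (nat_lit 76) (nat_lit 9234115004) (nat_lit 32) (nat_lit 5) (nat_lit 35) (nat_lit 5) (nat_lit 33) (nat_lit 4) (nat_lit 391) (nat_lit 281) (nat_lit 228)) (XT.lf (nat_lit 0) (nat_lit 6923310383) (nat_lit 76) (nat_lit 6505283022) (nat_lit 152) (nat_lit 7353896084) (nat_lit 31) (nat_lit 5) (nat_lit 32) (nat_lit 5) (nat_lit 33) (nat_lit 4) (nat_lit 392) (nat_lit 281) (nat_lit 227)))))) (XT.nd (nat_lit 546) (nat_lit 228) (nat_lit 0) (XT.nd (nat_lit 234) (nat_lit 304) (nat_lit 0) (XT.nd (nat_lit 78) (nat_lit 228) (nat_lit 0) (XT.lf (nat_lit 0) (nat_lit 16357127401) (nat_lit 76) (nat_lit 1792835274) (nat_lit 152) (nat_lit 3103133862) (nat_lit 31) (nat_lit 5) (nat_lit 32) (nat_lit 5) (nat_lit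 33) (nat_lit 4) (nat_lit 393) (nat_lit 281) (nat_lit 226)) (XT.nd (nat_lit 78) (nat_lit 0) (nat_lit 0) (XT.lf (nat_lit 0) (nat_lit 1278957857) (nat_lit 228) (nat_lit 17436214687) (nat_lit 76) (nat_lit 3021429121) (nat_lit 28) (nat_lit 5) (nat_lit 31) (nat_lit 5) (nat_lit 29) (nat_lit 4) (nat_lit 394) (nat_lit 281) (nat_lit 225)) (XT.lf (nat_lit 0) (nat_lit 5755427595) (nat_lit 228) (nat_lit 8486767225) (nat_lit 76) (nat_lit 7990744882) (nat_lit 28) (nat_lit 5) (nat_lit 31) (nat_lit 5) (nat_lit 29) (nat_lit 4) (nat_lit 395) (nat_lit 281) (nat_lit 224)))) (XT.nd (nat_lit 156) (nat_lit 228) (nat_lit 0) (XT.nd (nat_lit 78) (nat_lit 0) (nat_lit 0) (XT.lf (nat_lit 0) (nat_lit 668806353) (nat_lit 76) (nat_lit 9662654000) (nat_lit 152) (nat_lit 12413757263) (nat_lit 27) (nat_lit 5) (nat_lit 28) (nat_lit 5) (nat_lit 29) (nat_lit 4) (nat_lit 396) (nat_lit 281) (nat_lit 223)) (XT.lf (nat_lit 0) (nat_lit 10198348716)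 (nat_lit 76) (nat_lit 4891446112) (nat_lit 152) (nat_lit 8181725991) (nat_lit 27) (nat_lit 5) (nat_lit 28) (nat_lit 5) (nat_lit 29) (nat_lit 4) (nat_lit 397) (nat_lit 281) (nat_lit 222))) (XT.nd (nat_lit 78) (nat_lit 228) (nat_lit 0) (XT.lf (nat_lit 0) (nat_lit 19941283339) (nat_lit 76) (nat_lit 10101849) (nat_lit 152) (nat_lit 3863420109) (nat_lit 27) (nat_lit 5) (nat_lit 28) (nat_lit 5) (nat_lit 29) (nat_lit 4) (nat_lit 398) (nat_lit 281) (nat_lit 221)) (XT.lf (nat_lit 0) (nat_lit 636983297) (nat_lit 228) (nat_lit 18786972222) (nat_lit 76) (nat_lit 4948352599) (nat_lit 24) (nat_lit 5) (nat_lit 27) (nat_lit 5) (nat_lit 25) (nat_lit 4) (nat_lit 399) (nat_lit 281) (nat_lit 220))))) (XT.nd (nat_lit 234) (nat_lit 152) (nat_lit 0) (XT.nd (nat_lit 78) (nat_lit 76) (nat_lit 0) (XT.lf (nat_lit 0) (nat_lit 5195761062) (nat_lit 228) (nat_lit 9648047055) (nat_lit 76) (nat_lit 10101556692) (nat_lit 24) (nat_lit 5)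 (nat_lit 27) (nat_lit 5) (nat_lit 25) (nat_lit 4) (nat_lit 400) (nat_lit 281) (nat_lit 219)) (XT.nd (nat_lit 78) (nat_lit 76) (nat_lit 0) (XT.lf (nat_lit 0) (nat_lit 9853837018) (nat_lit 228) (nat_lit 304185578) (nat_lit 76) (nat_lit 15378721091) (nat_lit 24) (nat_lit 5) (nat_lit 27) (nat_lit 5) (nat_lit 25) (nat_lit 4) (nat_lit 401) (nat_lit 281) (nat_lit 218)) (XT.lf (nat_lit 0) (nat_lit 9436925146) (nat_lit 76) (nat_lit 5269069680) (nat_lit 152) (nat_lit 11438245263) (nat_lit 23) (nat_lit 5) (nat_lit 24) (nat_lit 5) (nat_lit 25) (nat_lit 4) (nat_lit 402) (nat_lit 281) (nat_lit 217)))) (XT.nd (nat_lit 156) (nat_lit 76) (nat_lit 0) (XT.nd (nat_lit 78) (nat_lit 76) (nat_lit 0) (XT.lf (nat_lit 0) (nat_lit 19409948673) (nat_lit 76) (nat_lit 260886106) (nat_lit 152) (nat_lit 7100119239) (nat_lit 23) (nat_lit 5) (nat_lit 24) (nat_lit 5) (nat_lit 25) (nat_lit 4) (nat_lit 403) (nat_lit 281) (nat_lit 216)) (XT.lf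 (nat_lit 0) (nat_lit 2196083767) (nat_lit 76) (nat_lit 22621531793) (nat_lit 76) (nat_lit 2597869916) (nat_lit 22) (nat_lit 4) (nat_lit 23) (nat_lit 5) (nat_lit 23) (nat_lit 4) (nat_lit 404) (nat_lit 281) (nat_lit 215))) (XT.nd (nat_lit 78) (nat_lit 0) (nat_lit 0) (XT.lf (nat_lit 0) (nat_lit 2042160513) (nat_lit 152) (nat_lit 15974716438) (nat_lit 76) (nat_lit 10060618113) (nat_lit 21) (nat_lit 5) (nat_lit 23) (nat_lit 5) (nat_lit 22) (nat_lit 4) (nat_lit 405) (nat_lit 281) (nat_lit 214)) (XT.lf (nat_lit 0) (nat_lit 6735060613) (nat_lit 152) (nat_lit 6541954870) (nat_lit 76) (nat_lit 15482606783) (nat_lit 21) (nat_lit 5) (nat_lit 23) (nat_lit 5) (nat_lit 22) (nat_lit 4) (nat_lit 406) (nat_lit 281) (nat_lit 213))))))))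
noncomputable def xc60 : XT := (XT.nd (nat_lit 2028) (nat_lit 304) (nat_lit 0) (XT.nd (nat_lit 1014) (nat_lit 304) (nat_lit 0) (XT.nd (nat_lit 468) (nat_lit 228) (nat_lit 0) (XT.nd (nat_lit 234) (nat_lit 152) (nat_lit 0) (XT.nd (nat_lit 78) (nat_lit 0) (nat_lit 0) (XT.lf (nat_lit 0) (nat_lit 3174034372) (nat_lit 76) (nat_lit 8392101163) (nat_lit 152) (nat_lit 17896161427) (nat_lit 20) (nat_lit 5) (nat_lit 21) (nat_lit 5) (nat_lit 22) (nat_lit 4) (nat_lit 407) (nat_lit 281) (nat_lit 212)) (XT.nd (nat_lit 78) (nat_lit 0) (nat_lit 0) (XT.lf (nat_lit 0) (nat_lit 13254519760) (nat_lit 76) (nat_lit 3320938458) (nat_lit 152) (nat_lit 13609599373) (nat_lit 20) (nat_lit 5) (nat_lit 21) (nat_lit 5) (nat_lit 22) (nat_lit 4) (nat_lit 408) (nat_lit 281) (nat_lit 211)) (XT.lf (nat_lit 0) (nat_lit 21721291066) (nat_lit 152) (nat_lit 7370370176) (nat_lit 0) (nat_lit 1838257890) (nat_lit 20) (nat_lit 5) (nat_lit 22) (nat_lit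 4) (nat_lit 20) (nat_lit 4) (nat_lit 409) (nat_lit 281) (nat_lit 210)))) (XT.nd (nat_lit 78) (nat_lit 76) (nat_lit 0) (XT.lf (nat_lit 0) (nat_lit 2432942837) (nat_lit 76) (nat_lit 24613701092) (nat_lit 76) (nat_lit 4649733100) (nat_lit 19) (nat_lit 4) (nat_lit 20) (nat_lit 5) (nat_lit 20) (nat_lit 4) (nat_lit 410) (nat_lit 281) (nat_lit 209)) (XT.nd (nat_lit 78) (nat_lit 0) (nat_lit 0) (XT.lf (nat_lit 0) (nat_lit 89115883) (nat_lit 152) (nat_lit 19861640239) (nat_lit 76) (nat_lit 12533741378) (nat_lit 18) (nat_lit 5) (nat_lit 20) (nat_lit 5) (nat_lit 19) (nat_lit 4) (nat_lit 411) (nat_lit 281) (nat_lit 208)) (XT.lf (nat_lit 0) (nat_lit 4846500765) (nat_lit 152) (nat_lit 10280437756) (nat_lit 76) (nat_lit 18168851641) (nat_lit 18) (nat_lit 5) (nat_lit 20) (nat_lit 5) (nat_lit 19) (nat_lit 4) (nat_lit 412) (nat_lit 281) (nat_lit 207))))) (XT.nd (nat_lit 234) (nat_lit 152) (nat_lit 0) (XT.nd (nat_lit 78)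 (nat_lit 76) (nat_lit 0) (XT.lf (nat_lit 0) (nat_lit 9717311523) (nat_lit 152) (nat_lit 466758740) (nat_lit 76) (nat_lit 23948234530) (nat_lit 18) (nat_lit 5) (nat_lit 20) (nat_lit 5) (nat_lit 19) (nat_lit 4) (nat_lit 413) (nat_lit 281) (nat_lit 206)) (XT.nd (nat_lit 78) (nat_lit 0) (nat_lit 0) (XT.lf (nat_lit 0) (nat_lit 9778791307) (nat_lit 76) (nat_lit 5021012621) (nat_lit 152) (nat_lit 20192148408) (nat_lit 17) (nat_lit 5) (nat_lit 18) (nat_lit 5) (nat_lit 19) (nat_lit 4) (nat_lit 414) (nat_lit 281) (nat_lit 205)) (XT.lf (nat_lit 0) (nat_lit 20014026028) (nat_lit 152) (nat_lit 15592318775) (nat_lit 0) (nat_lit 271670928) (nat_lit 17) (nat_lit 5) (nat_lit 19) (nat_lit 4) (nat_lit 17) (nat_lit 4) (nat_lit 415) (nat_lit 281) (nat_lit 204)))) (XT.nd (nat_lit 156) (nat_lit 76) (nat_lit 0) (XT.nd (nat_lit 78) (nat_lit 76) (nat_lit 0) (XT.lf (nat_lit 0) (nat_lit 25406854356) (nat_lit 152) (nat_lit 5784453391)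 (nat_lit 0) (nat_lit 5598691844) (nat_lit 17) (nat_lit 5) (nat_lit 19) (nat_lit 4) (nat_lit 17) (nat_lit 4) (nat_lit 416) (nat_lit 281) (nat_lit 203)) (XT.lf (nat_lit 0) (nat_lit 4352197188) (nat_lit 76) (nat_lit 26624374844) (nat_lit 76) (nat_lit 6752321640) (nat_lit 16) (nat_lit 4) (nat_lit 17) (nat_lit 5) (nat_lit 17) (nat_lit 4) (nat_lit 417) (nat_lit 281) (nat_lit 202))) (XT.nd (nat_lit 78) (nat_lit 76) (nat_lit 0) (XT.lf (nat_lit 0) (nat_lit 14861639001) (nat_lit 76) (nat_lit 21883721462) (nat_lit 76) (nat_lit 1949638461) (nat_lit 16) (nat_lit 4) (nat_lit 17) (nat_lit 5) (nat_lit 17) (nat_lit 4) (nat_lit 418) (nat_lit 281) (nat_lit 201)) (XT.lf (nat_lit 0) (nat_lit 2912720337) (nat_lit 152) (nat_lit 14081483821) (nat_lit 76) (nat_lit 22695799988) (nat_lit 15) (nat_lit 5) (nat_lit 17) (nat_lit 5) (nat_lit 16) (nat_lit 4) (nat_lit 419) (nat_lit 281) (nat_lit 200)))))) (XT.nd (nat_lit 468) (nat_lit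 152) (nat_lit 0) (XT.nd (nat_lit 234) (nat_lit 76) (nat_lit 0) (XT.nd (nat_lit 78) (nat_lit 76) (nat_lit 0) (XT.lf (nat_lit 0) (nat_lit 7856598885) (nat_lit 152) (nat_lit 4103879401) (nat_lit 76) (nat_lit 28754560503) (nat_lit 15) (nat_lit 5) (nat_lit 17) (nat_lit 5) (nat_lit 16) (nat_lit 4) (nat_lit 420) (nat_lit 281) (nat_lit 199)) (XT.nd (nat_lit 78) (nat_lit 0) (nat_lit 0) (XT.lf (nat_lit 0) (nat_lit 6248850325) (nat_lit 76) (nat_lit 6735578993) (nat_lit 152) (nat_lit 28785329398) (nat_lit 14) (nat_lit 5) (nat_lit 15) (nat_lit 5) (nat_lit 16) (nat_lit 4) (nat_lit 421) (nat_lit 281) (nat_lit 198)) (XT.lf (nat_lit 0) (nat_lit 16950599403) (nat_lit 76) (nat_lit 1332776590) (nat_lit 152) (nat_lit 24572229023) (nat_lit 14) (nat_lit 5) (nat_lit 15) (nat_lit 5) (nat_lit 16) (nat_lit 4) (nat_lit 422) (nat_lit 281) (nat_lit 197)))) (XT.nd (nat_lit 78) (nat_lit 76) (nat_lit 0) (XT.lf (nat_lit 0) (nat_lit 23758315659)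 (nat_lit 152) (nat_lit 16086170596) (nat_lit 0) (nat_lit 4129032832) (nat_lit 14) (nat_lit 5) (nat_lit 16) (nat_lit 4) (nat_lit 14) (nat_lit 4) (nat_lit 423) (nat_lit 281) (nat_lit 196)) (XT.nd (nat_lit 78) (nat_lit 76) (nat_lit 0) (XT.lf (nat_lit 0) (nat_lit 29387731324) (nat_lit 152) (nat_lit 6029522856) (nat_lit 0) (nat_lit 9708012596) (nat_lit 14) (nat_lit 5) (nat_lit 16) (nat_lit 4) (nat_lit 14) (nat_lit 4) (nat_lit 424) (nat_lit 281) (nat_lit 195)) (XT.lf (nat_lit 0) (nat_lit 4371846912) (nat_lit 76) (nat_lit 30833908386) (nat_lit 76) (nat_lit 11105222763) (nat_lit 13) (nat_lit 4) (nat_lit 14) (nat_lit 5) (nat_lit 14) (nat_lit 4) (nat_lit 425) (nat_lit 281) (nat_lit 194))))) (XT.nd (nat_lit 234) (nat_lit 76) (nat_lit 0) (XT.nd (nat_lit 78) (nat_lit 76) (nat_lit 0) (XT.lf (nat_lit 0) (nat_lit 15166983786) (nat_lit 76) (nat_lit 26070170512) (nat_lit 76) (nat_lit 6293944214) (nat_lit 13) (nat_lit 4)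 (nat_lit 14) (nat_lit 5) (nat_lit 14) (nat_lit 4) (nat_lit 426) (nat_lit 281) (nat_lit 193)) (XT.nd (nat_lit 78) (nat_lit 76) (nat_lit 0) (XT.lf (nat_lit 0) (nat_lit 26245321080) (nat_lit 76) (nat_lit 21182764427) (nat_lit 76) (nat_lit 1360382134) (nat_lit 13) (nat_lit 4) (nat_lit 14) (nat_lit 5) (nat_lit 14) (nat_lit 4) (nat_lit 427) (nat_lit 281) (nat_lit 192)) (XT.lf (nat_lit 0) (nat_lit 3627578432) (nat_lit 152) (nat_lit 12503209721) (nat_lit 76) (nat_lit 33952329035) (nat_lit 12) (nat_lit 5) (nat_lit 14) (nat_lit 5) (nat_lit 13) (nat_lit 4) (nat_lit 428) (nat_lit 281) (nat_lit 191)))) (XT.nd (nat_lit 156) (nat_lit 0) (nat_lit 0) (XT.nd (nat_lit 78) (nat_lit 76) (nat_lit 0) (XT.lf (nat_lit 0) (nat_lit 8717452357) (nat_lit 152) (nat_lit 2214272104) (nat_lit 76) (nat_lit 40485091716) (nat_lit 12) (nat_lit 5) (nat_lit 14) (nat_lit 5) (nat_lit 13) (nat_lit 4) (nat_lit 429) (nat_lit 281) (nat_lit 190))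 (XT.lf (nat_lit 0) (nat_lit 8511829907) (nat_lit 76) (nat_lit 5510224068) (nat_lit 152) (nat_lit 38766613679) (nat_lit 11) (nat_lit 5) (nat_lit 12) (nat_lit 5) (nat_lit 13) (nat_lit 4) (nat_lit 430) (nat_lit 281) (nat_lit 189))) (XT.nd (nat_lit 78) (nat_lit 0) (nat_lit 0) (XT.lf (nat_lit 0) (nat_lit 19489344705) (nat_lit 152) (nat_lit 34634481777) (nat_lit 0) (nat_lit 77744056) (nat_lit 11) (nat_lit 5) (nat_lit 13) (nat_lit 4) (nat_lit 11) (nat_lit 4) (nat_lit 431) (nat_lit 281) (nat_lit 188)) (XT.lf (nat_lit 0) (nat_lit 25156045094) (nat_lit 152) (nat_lit 24793966479) (nat_lit 0) (nat_lit 5705789526) (nat_lit 11) (nat_lit 5) (nat_lit 13) (nat_lit 4) (nat_lit 11) (nat_lit 4) (nat_lit 432) (nat_lit 281) (nat_lit 187))))))) (XT.nd (nat_lit 1014) (nat_lit 76) (nat_lit 0) (XT.nd (nat_lit 468) (nat_lit 152) (nat_lit 0) (XT.nd (nat_lit 234) (nat_lit 0) (nat_lit 0) (XT.nd (nat_lit 78) (nat_lit 76) (nat_lit 0)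 (XT.lf (nat_lit 0) (nat_lit 30974138986) (nat_lit 152) (nat_lit 14693725702) (nat_lit 0) (nat_lit 11486354371) (nat_lit 11) (nat_lit 5) (nat_lit 13) (nat_lit 4) (nat_lit 11) (nat_lit 4) (nat_lit 433) (nat_lit 281) (nat_lit 186)) (XT.nd (nat_lit 78) (nat_lit 76) (nat_lit 0) (XT.lf (nat_lit 0) (nat_lit 36948710152) (nat_lit 152) (nat_lit 4324933991) (nat_lit 0) (nat_lit 17424489568) (nat_lit 11) (nat_lit 5) (nat_lit 13) (nat_lit 4) (nat_lit 11) (nat_lit 4) (nat_lit 434) (nat_lit 281) (nat_lit 185)) (XT.lf (nat_lit 0) (nat_lit 6447278383) (nat_lit 76) (nat_lit 36699675891) (nat_lit 76) (nat_lit 17140080580) (nat_lit 10) (nat_lit 4) (nat_lit 11) (nat_lit 5) (nat_lit 11) (nat_lit 4) (nat_lit 435) (nat_lit 281) (nat_lit 184)))) (XT.nd (nat_lit 78) (nat_lit 0) (nat_lit 0) (XT.lf (nat_lit 0) (nat_lit 17598189295) (nat_lit 76) (nat_lit 31959282856) (nat_lit 76) (nat_lit 12365343150) (nat_lit 10) (nat_lit 4) (nat_lit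 11) (nat_lit 5) (nat_lit 11) (nat_lit 4) (nat_lit 436) (nat_lit 281) (nat_lit 183)) (XT.nd (nat_lit 78) (nat_lit 0) (nat_lit 0) (XT.lf (nat_lit 0) (nat_lit 29051467592) (nat_lit 76) (nat_lit 27091996301) (nat_lit 76) (nat_lit 7464712522) (nat_lit 10) (nat_lit 4) (nat_lit 11) (nat_lit 5) (nat_lit 11) (nat_lit 4) (nat_lit 437) (nat_lit 281) (nat_lit 182)) (XT.lf (nat_lit 0) (nat_lit 40817120991) (nat_lit 76) (nat_lit 22093563257) (nat_lit 76) (nat_lit 2433906592) (nat_lit 10) (nat_lit 4) (nat_lit 11) (nat_lit 5) (nat_lit 11) (nat_lit 4) (nat_lit 438) (nat_lit 281) (nat_lit 181))))) (XT.nd (nat_lit 234) (nat_lit 0) (nat_lit 0) (XT.nd (nat_lit 78) (nat_lit 76) (nat_lit 0) (XT.lf (nat_lit 0) (nat_lit 2678169661) (nat_lit 152) (nat_lit 14254402238) (nat_lit 76) (nat_lit 50200216237) (nat_lit 9) (nat_lit 5) (nat_lit 11) (nat_lit 5) (nat_lit 10) (nat_lit 4) (nat_lit 439) (nat_lit 281) (nat_lit 180)) (XT.nd (nat_lit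 78) (nat_lit 76) (nat_lit 0) (XT.lf (nat_lit 0) (nat_lit 7879122178) (nat_lit 152) (nat_lit 3726983178) (nat_lit 76) (nat_lit 57368271839) (nat_lit 9) (nat_lit 5) (nat_lit 11) (nat_lit 5) (nat_lit 10) (nat_lit 4) (nat_lit 440) (nat_lit 281) (nat_lit 179)) (XT.lf (nat_lit 0) (nat_lit 7228435047) (nat_lit 76) (nat_lit 6062038857) (nat_lit 152) (nat_lit 57579110632) (nat_lit 8) (nat_lit 5) (nat_lit 9) (nat_lit 5) (nat_lit 10) (nat_lit 4) (nat_lit 441) (nat_lit 281) (nat_lit 178)))) (XT.nd (nat_lit 156) (nat_lit 0) (nat_lit 0) (XT.nd (nat_lit 78) (nat_lit 0) (nat_lit 0) (XT.lf (nat_lit 0) (nat_lit 18560322211) (nat_lit 76) (nat_lit 326531029) (nat_lit 152) (nat_lit 53934115921) (nat_lit 8) (nat_lit 5) (nat_lit 9) (nat_lit 5) (nat_lit 10) (nat_lit 4) (nat_lit 442) (nat_lit 281) (nat_lit 177)) (XT.lf (nat_lit 0) (nat_lit 24690132227) (nat_lit 152) (nat_lit 44680447695) (nat_lit 0) (nat_lit 5459146785) (nat_lit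 8) (nat_lit 5) (nat_lit 10) (nat_lit 4) (nat_lit 8) (nat_lit 4) (nat_lit 443) (nat_lit 281) (nat_lit 176))) (XT.nd (nat_lit 78) (nat_lit 0) (nat_lit 0) (XT.lf (nat_lit 0) (nat_lit 30656528851) (nat_lit 152) (nat_lit 34843327839) (nat_lit 0) (nat_lit 11399221291) (nat_lit 8) (nat_lit 5) (nat_lit 10) (nat_lit 4) (nat_lit 8) (nat_lit 4) (nat_lit 444) (nat_lit 281) (nat_lit 175)) (XT.lf (nat_lit 0) (nat_lit 36788117656) (nat_lit 152) (nat_lit 24737553025) (nat_lit 0) (nat_lit 17505254640) (nat_lit 8) (nat_lit 5) (nat_lit 10) (nat_lit 4) (nat_lit 8) (nat_lit 4) (nat_lit 445) (nat_lit 281) (nat_lit 174)))))) (XT.nd (nat_lit 38610) (nat_lit 0) (nat_lit 8512) (XT.nd (nat_lit 38298) (nat_lit 0) (nat_lit 10564) (XT.nd (nat_lit 78) (nat_lit 76) (nat_lit 0) (XT.lf (nat_lit 0) (nat_lit 43090256339) (nat_lit 152) (nat_lit 14354292964) (nat_lit 0) (nat_lit 23782582201) (nat_lit 8) (nat_lit 5) (nat_lit 10) (nat_lit 4)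 (nat_lit 8) (nat_lit 4) (nat_lit 446) (nat_lit 281) (nat_lit 173)) (XT.nd (nat_lit 78) (nat_lit 76) (nat_lit 0) (XT.lf (nat_lit 0) (nat_lit 49568451623) (nat_lit 152) (nat_lit 3684474905) (nat_lit 0) (nat_lit 30236689018) (nat_lit 8) (nat_lit 5) (nat_lit 10) (nat_lit 4) (nat_lit 8) (nat_lit 4) (nat_lit 447) (nat_lit 281) (nat_lit 172)) (XT.lf (nat_lit 0) (nat_lit 7426134933) (nat_lit 76) (nat_lit 48873613687) (nat_lit 76) (nat_lit 29518464220) (nat_lit 7) (nat_lit 4) (nat_lit 8) (nat_lit 5) (nat_lit 8) (nat_lit 4) (nat_lit 448) (nat_lit 281) (nat_lit 171)))) (XT.nd (nat_lit 156) (nat_lit 988) (nat_lit 0) (XT.nd (nat_lit 78) (nat_lit 456) (nat_lit 0) (XT.lf (nat_lit 0) (nat_lit 1865368992) (nat_lit 532) (nat_lit 226899346) (nat_lit 0) (nat_lit 1865368992) (nat_lit 165) (nat_lit 5) (nat_lit 172) (nat_lit 4) (nat_lit 165) (nat_lit 4) (nat_lit 336) (nat_lit 282) (nat_lit 282)) (XT.lf (nat_lit 0) (nat_lit 5596786796)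 (nat_lit 456) (nat_lit 1835050915) (nat_lit 456) (nat_lit 570322476) (nat_lit 159) (nat_lit 4) (nat_lit 165) (nat_lit 5) (nat_lit 165) (nat_lit 4) (nat_lit 337) (nat_lit 282) (nat_lit 281))) (XT.nd (nat_lit 78) (nat_lit 456) (nat_lit 0) (XT.lf (nat_lit 0) (nat_lit 3041168016) (nat_lit 532) (nat_lit 4429987449) (nat_lit 0) (nat_lit 621148476) (nat_lit 152) (nat_lit 5) (nat_lit 159) (nat_lit 4) (nat_lit 152) (nat_lit 4) (nat_lit 338) (nat_lit 282) (nat_lit 280)) (XT.lf (nat_lit 0) (nat_lit 1664531666) (nat_lit 456) (nat_lit 5049505391) (nat_lit 456) (nat_lit 1472080169) (nat_lit 146) (nat_lit 4) (nat_lit 152) (nat_lit 5) (nat_lit 152) (nat_lit 4) (nat_lit 339) (nat_lit 282) (nat_lit 279))))) (XT.nd (nat_lit 234) (nat_lit 1140) (nat_lit 0) (XT.nd (nat_lit 78) (nat_lit 836) (nat_lit 0) (XT.lf (nat_lit 0) (nat_lit 2122722558) (nat_lit 532) (nat_lit 391993264) (nat_lit 76) (nat_lit 5768908497) (nat_lit 145)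 (nat_lit 5) (nat_lit 152) (nat_lit 5) (nat_lit 146) (nat_lit 4) (nat_lit 340) (nat_lit 282) (nat_lit 278)) (XT.nd (nat_lit 78) (nat_lit 456) (nat_lit 0) (XT.lf (nat_lit 0) (nat_lit 5763039108) (nat_lit 456) (nat_lit 2481971456) (nat_lit 0) (nat_lit 139654720) (nat_lit 140) (nat_lit 5) (nat_lit 146) (nat_lit 4) (nat_lit 140) (nat_lit 4) (nat_lit 341) (nat_lit 282) (nat_lit 277)) (XT.lf (nat_lit 0) (nat_lit 979717169) (nat_lit 456) (nat_lit 4662898489) (nat_lit 76) (nat_lit 2846610501) (nat_lit 134) (nat_lit 5) (nat_lit 140) (nat_lit 5) (nat_lit 135) (nat_lit 4) (nat_lit 342) (nat_lit 282) (nat_lit 276)))) (XT.nd (nat_lit 156) (nat_lit 760) (nat_lit 0) (XT.nd (nat_lit 78) (nat_lit 0) (nat_lit 0) (XT.lf (nat_lit 0) (nat_lit 1664865145) (nat_lit 380) (nat_lit 2923793868) (nat_lit 456) (nat_lit 4008976865) (nat_lit 129) (nat_lit 5) (nat_lit 134) (nat_lit 5) (nat_lit 135) (nat_lit 4) (nat_lit 343) (nat_lit 282)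 (nat_lit 275)) (XT.lf (nat_lit 0) (nat_lit 8159223691) (nat_lit 380) (nat_lit 106118861) (nat_lit 456) (nat_lit 445227662) (nat_lit 129) (nat_lit 5) (nat_lit 134) (nat_lit 5) (nat_lit 135) (nat_lit 4) (nat_lit 344) (nat_lit 282) (nat_lit 274))) (XT.nd (nat_lit 78) (nat_lit 304) (nat_lit 0) (XT.lf (nat_lit 0) (nat_lit 3161574742) (nat_lit 456) (nat_lit 2864040579) (nat_lit 76) (nat_lit 2800427981) (nat_lit 123) (nat_lit 5) (nat_lit 129) (nat_lit 5) (nat_lit 124) (nat_lit 4) (nat_lit 345) (nat_lit 282) (nat_lit 273)) (XT.lf (nat_lit 0) (nat_lit 3685377404) (nat_lit 304) (nat_lit 3139484561) (nat_lit 380) (nat_lit 2121321223) (nat_lit 119) (nat_lit 5) (nat_lit 123) (nat_lit 5) (nat_lit 124) (nat_lit 4) (nat_lit 346) (nat_lit 282) (nat_lit 272))))))))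
noncomputable def xc61 : XT := (XT.nd (nat_lit 2028) (nat_lit 2128) (nat_lit 0) (XT.nd (nat_lit 1014) (nat_lit 1900) (nat_lit 0) (XT.nd (nat_lit 468) (nat_lit 1444) (nat_lit 0) (XT.nd (nat_lit 234) (nat_lit 760) (nat_lit 0) (XT.nd (nat_lit 78) (nat_lit 304) (nat_lit 0) (XT.lf (nat_lit 0) (nat_lit 1312735364) (nat_lit 380) (nat_lit 142992390) (nat_lit 456) (nat_lit 7615084814) (nat_lit 113) (nat_lit 5) (nat_lit 118) (nat_lit 5) (nat_lit 119) (nat_lit 5) (nat_lit 347) (nat_lit 282) (nat_lit 271)) (XT.nd (nat_lit 78) (nat_lit 304) (nat_lit 0) (XT.lf (nat_lit 0) (nat_lit 5095989851) (nat_lit 456) (nat_lit 1175961378) (nat_lit 76) (nat_lit 2926690702) (nat_lit 113) (nat_lit 5) (nat_lit 119) (nat_lit 5) (nat_lit 114) (nat_lit 4) (nat_lit 348) (nat_lit 282) (nat_lit 270)) (XT.lf (nat_lit 0) (nat_lit 5594996706) (nat_lit 304) (nat_lit 3224685281) (nat_lit 380) (nat_lit 511443489) (nat_lit 109) (nat_lit 5) (nat_lit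 113) (nat_lit 5) (nat_lit 114) (nat_lit 4) (nat_lit 349) (nat_lit 282) (nat_lit 269)))) (XT.nd (nat_lit 78) (nat_lit 380) (nat_lit 0) (XT.lf (nat_lit 0) (nat_lit 3037589266) (nat_lit 304) (nat_lit 48345610) (nat_lit 380) (nat_lit 6381953775) (nat_lit 104) (nat_lit 5) (nat_lit 108) (nat_lit 5) (nat_lit 109) (nat_lit 5) (nat_lit 350) (nat_lit 282) (nat_lit 268)) (XT.nd (nat_lit 78) (nat_lit 76) (nat_lit 0) (XT.lf (nat_lit 0) (nat_lit 335798738) (nat_lit 304) (nat_lit 6437794737) (nat_lit 380) (nat_lit 2835272243) (nat_lit 100) (nat_lit 5) (nat_lit 104) (nat_lit 5) (nat_lit 105) (nat_lit 4) (nat_lit 351) (nat_lit 282) (nat_lit 267)) (XT.lf (nat_lit 0) (nat_lit 788613688) (nat_lit 380) (nat_lit 2442690308) (nat_lit 76) (nat_lit 6522969041) (nat_lit 99) (nat_lit 5) (nat_lit 104) (nat_lit 5) (nat_lit 100) (nat_lit 5) (nat_lit 352) (nat_lit 282) (nat_lit 266))))) (XT.nd (nat_lit 234) (nat_lit 836) (nat_lit 0)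 (XT.nd (nat_lit 78) (nat_lit 304) (nat_lit 0) (XT.lf (nat_lit 0) (nat_lit 4431903537) (nat_lit 380) (nat_lit 5367021591) (nat_lit 76) (nat_lit 105283577) (nat_lit 95) (nat_lit 5) (nat_lit 100) (nat_lit 5) (nat_lit 96) (nat_lit 4) (nat_lit 353) (nat_lit 282) (nat_lit 265)) (XT.nd (nat_lit 78) (nat_lit 76) (nat_lit 0) (XT.lf (nat_lit 0) (nat_lit 1601999092) (nat_lit 228) (nat_lit 6578598113) (nat_lit 304) (nat_lit 1878199456) (nat_lit 92) (nat_lit 5) (nat_lit 95) (nat_lit 5) (nat_lit 96) (nat_lit 4) (nat_lit 354) (nat_lit 282) (nat_lit 264)) (XT.lf (nat_lit 0) (nat_lit 1767016474) (nat_lit 304) (nat_lit 1460421285) (nat_lit 76) (nat_lit 6990727563) (nat_lit 91) (nat_lit 5) (nat_lit 95) (nat_lit 5) (nat_lit 92) (nat_lit 5) (nat_lit 355) (nat_lit 282) (nat_lit 263)))) (XT.nd (nat_lit 156) (nat_lit 304) (nat_lit 0) (XT.nd (nat_lit 78) (nat_lit 228) (nat_lit 0) (XT.lf (nat_lit 0) (nat_lit 5467744303) (nat_lit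 380) (nat_lit 4658553983) (nat_lit 76) (nat_lit 255975917) (nat_lit 87) (nat_lit 5) (nat_lit 92) (nat_lit 5) (nat_lit 88) (nat_lit 4) (nat_lit 356) (nat_lit 282) (nat_lit 262)) (XT.lf (nat_lit 0) (nat_lit 2505839549) (nat_lit 228) (nat_lit 6771638958) (nat_lit 304) (nat_lit 1273921512) (nat_lit 84) (nat_lit 5) (nat_lit 87) (nat_lit 5) (nat_lit 88) (nat_lit 4) (nat_lit 357) (nat_lit 282) (nat_lit 261))) (XT.nd (nat_lit 78) (nat_lit 228) (nat_lit 0) (XT.lf (nat_lit 0) (nat_lit 2402449671) (nat_lit 304) (nat_lit 881575395) (nat_lit 76) (nat_lit 7441646094) (nat_lit 83) (nat_lit 5) (nat_lit 87) (nat_lit 5) (nat_lit 84) (nat_lit 5) (nat_lit 358) (nat_lit 282) (nat_lit 260)) (XT.lf (nat_lit 0) (nat_lit 6158788935) (nat_lit 304) (nat_lit 4407278008) (nat_lit 76) (nat_lit 338897043) (nat_lit 80) (nat_lit 5) (nat_lit 84) (nat_lit 5) (nat_lit 81) (nat_lit 4) (nat_lit 359) (nat_lit 282) (nat_lit 259)))))) (XT.nd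 (nat_lit 468) (nat_lit 836) (nat_lit 0) (XT.nd (nat_lit 234) (nat_lit 532) (nat_lit 0) (XT.nd (nat_lit 78) (nat_lit 304) (nat_lit 0) (XT.lf (nat_lit 0) (nat_lit 2940691016) (nat_lit 228) (nat_lit 7086986658) (nat_lit 304) (nat_lit 1061991645) (nat_lit 77) (nat_lit 5) (nat_lit 80) (nat_lit 5) (nat_lit 81) (nat_lit 4) (nat_lit 360) (nat_lit 282) (nat_lit 258)) (XT.nd (nat_lit 78) (nat_lit 228) (nat_lit 0) (XT.lf (nat_lit 0) (nat_lit 2654691829) (nat_lit 304) (nat_lit 817287692) (nat_lit 76) (nat_lit 7807917052) (nat_lit 76) (nat_lit 5) (nat_lit 80) (nat_lit 5) (nat_lit 77) (nat_lit 5) (nat_lit 361) (nat_lit 282) (nat_lit 257)) (XT.lf (nat_lit 0) (nat_lit 6461546372) (nat_lit 304) (nat_lit 4731091322) (nat_lit 76) (nat_lit 282904041) (nat_lit 73) (nat_lit 5) (nat_lit 77) (nat_lit 5) (nat_lit 74) (nat_lit 4) (nat_lit 362) (nat_lit 282) (nat_lit 256)))) (XT.nd (nat_lit 78) (nat_lit 304) (nat_lit 0) (XT.lf (nat_lit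 0) (nat_lit 2784082486) (nat_lit 228) (nat_lit 7600930535) (nat_lit 304) (nat_lit 1291997249) (nat_lit 70) (nat_lit 5) (nat_lit 73) (nat_lit 5) (nat_lit 74) (nat_lit 4) (nat_lit 363) (nat_lit 282) (nat_lit 255)) (XT.nd (nat_lit 78) (nat_lit 228) (nat_lit 0) (XT.lf (nat_lit 0) (nat_lit 2473483197) (nat_lit 304) (nat_lit 1395361556) (nat_lit 76) (nat_lit 8015527275) (nat_lit 69) (nat_lit 5) (nat_lit 73) (nat_lit 5) (nat_lit 70) (nat_lit 5) (nat_lit 364) (nat_lit 282) (nat_lit 254)) (XT.lf (nat_lit 0) (nat_lit 6322042237) (nat_lit 304) (nat_lit 5765796699) (nat_lit 76) (nat_lit 9873468) (nat_lit 66) (nat_lit 5) (nat_lit 70) (nat_lit 5) (nat_lit 67) (nat_lit 4) (nat_lit 365) (nat_lit 282) (nat_lit 253))))) (XT.nd (nat_lit 234) (nat_lit 380) (nat_lit 0) (XT.nd (nat_lit 78) (nat_lit 304) (nat_lit 0) (XT.lf (nat_lit 0) (nat_lit 1894715174) (nat_lit 152) (nat_lit 8397698670) (nat_lit 228) (nat_lit 2024871763)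 (nat_lit 64) (nat_lit 5) (nat_lit 66) (nat_lit 5) (nat_lit 67) (nat_lit 4) (nat_lit 366) (nat_lit 282) (nat_lit 252)) (XT.nd (nat_lit 78) (nat_lit 228) (nat_lit 0) (XT.lf (nat_lit 0) (nat_lit 1797194432) (nat_lit 228) (nat_lit 2763365869) (nat_lit 76) (nat_lit 7982538929) (nat_lit 63) (nat_lit 5) (nat_lit 66) (nat_lit 5) (nat_lit 64) (nat_lit 5) (nat_lit 367) (nat_lit 282) (nat_lit 251)) (XT.lf (nat_lit 0) (nat_lit 5101569642) (nat_lit 228) (nat_lit 578382740) (nat_lit 304) (nat_lit 7095552917) (nat_lit 60) (nat_lit 5) (nat_lit 63) (nat_lit 5) (nat_lit 64) (nat_lit 5) (nat_lit 368) (nat_lit 282) (nat_lit 250)))) (XT.nd (nat_lit 156) (nat_lit 152) (nat_lit 0) (XT.nd (nat_lit 78) (nat_lit 76) (nat_lit 0) (XT.lf (nat_lit 0) (nat_lit 109034375) (nat_lit 152) (nat_lit 9571378382) (nat_lit 228) (nat_lit 3334454892) (nat_lit 58) (nat_lit 5) (nat_lit 60) (nat_lit 5) (nat_lit 61) (nat_lit 4) (nat_lit 369) (nat_lit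 282) (nat_lit 249)) (XT.lf (nat_lit 0) (nat_lit 551245462) (nat_lit 228) (nat_lit 5092194002) (nat_lit 76) (nat_lit 7617166444) (nat_lit 57) (nat_lit 5) (nat_lit 60) (nat_lit 5) (nat_lit 58) (nat_lit 5) (nat_lit 370) (nat_lit 282) (nat_lit 248))) (XT.nd (nat_lit 78) (nat_lit 0) (nat_lit 0) (XT.lf (nat_lit 0) (nat_lit 2877802188) (nat_lit 152) (nat_lit 1576466363) (nat_lit 228) (nat_lit 9059443140) (nat_lit 55) (nat_lit 5) (nat_lit 57) (nat_lit 5) (nat_lit 58) (nat_lit 5) (nat_lit 371) (nat_lit 282) (nat_lit 247)) (XT.lf (nat_lit 0) (nat_lit 8491919736) (nat_lit 228) (nat_lit 2708805749) (nat_lit 76) (nat_lit 2573177423) (nat_lit 55) (nat_lit 5) (nat_lit 58) (nat_lit 5) (nat_lit 56) (nat_lit 4) (nat_lit 372) (nat_lit 282) (nat_lit 246))))))) (XT.nd (nat_lit 1014) (nat_lit 912) (nat_lit 0) (XT.nd (nat_lit 468) (nat_lit 456) (nat_lit 0) (XT.nd (nat_lit 234) (nat_lit 380) (nat_lit 0) (XT.nd (nat_lit 78) (nat_lit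 228) (nat_lit 0) (XT.lf (nat_lit 0) (nat_lit 5448176507) (nat_lit 152) (nat_lit 7212730924) (nat_lit 228) (nat_lit 1380704071) (nat_lit 53) (nat_lit 5) (nat_lit 55) (nat_lit 5) (nat_lit 56) (nat_lit 4) (nat_lit 373) (nat_lit 282) (nat_lit 245)) (XT.nd (nat_lit 78) (nat_lit 152) (nat_lit 0) (XT.lf (nat_lit 0) (nat_lit 2556157892) (nat_lit 228) (nat_lit 535595746) (nat_lit 76) (nat_lit 11225753496) (nat_lit 52) (nat_lit 5) (nat_lit 55) (nat_lit 5) (nat_lit 53) (nat_lit 5) (nat_lit 374) (nat_lit 282) (nat_lit 244)) (XT.lf (nat_lit 0) (nat_lit 6614060473) (nat_lit 228) (nat_lit 6805600352) (nat_lit 76) (nat_lit 1180704468) (nat_lit 50) (nat_lit 5) (nat_lit 53) (nat_lit 5) (nat_lit 51) (nat_lit 4) (nat_lit 375) (nat_lit 282) (nat_lit 243)))) (XT.nd (nat_lit 78) (nat_lit 228) (nat_lit 0) (XT.lf (nat_lit 0) (nat_lit 1394713376) (nat_lit 152) (nat_lit 9392867556) (nat_lit 228) (nat_lit 4104327700) (nat_lit 48)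 (nat_lit 5) (nat_lit 50) (nat_lit 5) (nat_lit 51) (nat_lit 4) (nat_lit 376) (nat_lit 282) (nat_lit 242)) (XT.nd (nat_lit 78) (nat_lit 228) (nat_lit 0) (XT.lf (nat_lit 0) (nat_lit 9885182601) (nat_lit 152) (nat_lit 5214950870) (nat_lit 228) (nat_lit 91665403) (nat_lit 48) (nat_lit 5) (nat_lit 50) (nat_lit 5) (nat_lit 51) (nat_lit 4) (nat_lit 377) (nat_lit 282) (nat_lit 241)) (XT.lf (nat_lit 0) (nat_lit 3056810728) (nat_lit 152) (nat_lit 881247977) (nat_lit 228) (nat_lit 11562209874) (nat_lit 45) (nat_lit 5) (nat_lit 47) (nat_lit 5) (nat_lit 48) (nat_lit 5) (nat_lit 378) (nat_lit 282) (nat_lit 240))))) (XT.nd (nat_lit 234) (nat_lit 228) (nat_lit 0) (XT.nd (nat_lit 78) (nat_lit 228) (nat_lit 0) (XT.lf (nat_lit 0) (nat_lit 8121841829) (nat_lit 228) (nat_lit 4166319465) (nat_lit 76) (nat_lit 3528767652) (nat_lit 45) (nat_lit 5) (nat_lit 48) (nat_lit 5) (nat_lit 46) (nat_lit 4) (nat_lit 379) (nat_lit 282) (nat_lit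 239)) (XT.nd (nat_lit 78) (nat_lit 76) (nat_lit 0) (XT.lf (nat_lit 0) (nat_lit 4343930206) (nat_lit 152) (nat_lit 8085705365) (nat_lit 228) (nat_lit 3713512322) (nat_lit 43) (nat_lit 5) (nat_lit 45) (nat_lit 5) (nat_lit 46) (nat_lit 4) (nat_lit 380) (nat_lit 282) (nat_lit 238)) (XT.lf (nat_lit 0) (nat_lit 370575896) (nat_lit 228) (nat_lit 3378533793) (nat_lit 76) (nat_lit 12730226027) (nat_lit 42) (nat_lit 5) (nat_lit 45) (nat_lit 5) (nat_lit 43) (nat_lit 5) (nat_lit 381) (nat_lit 282) (nat_lit 237)))) (XT.nd (nat_lit 156) (nat_lit 76) (nat_lit 0) (XT.nd (nat_lit 78) (nat_lit 0) (nat_lit 0) (XT.lf (nat_lit 0) (nat_lit 4510272855) (nat_lit 228) (nat_lit 11559753578) (nat_lit 76) (nat_lit 754260515) (nat_lit 40) (nat_lit 5) (nat_lit 43) (nat_lit 5) (nat_lit 41) (nat_lit 4) (nat_lit 382) (nat_lit 282) (nat_lit 236)) (XT.lf (nat_lit 0) (nat_lit 8795640500) (nat_lit 228) (nat_lit 3068871109) (nat_lit 76) (nat_lit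 5314442870) (nat_lit 40) (nat_lit 5) (nat_lit 43) (nat_lit 5) (nat_lit 41) (nat_lit 4) (nat_lit 383) (nat_lit 282) (nat_lit 235))) (XT.nd (nat_lit 78) (nat_lit 0) (nat_lit 0) (XT.lf (nat_lit 0) (nat_lit 5701589205) (nat_lit 76) (nat_lit 7514151718) (nat_lit 152) (nat_lit 4328347762) (nat_lit 39) (nat_lit 5) (nat_lit 40) (nat_lit 5) (nat_lit 41) (nat_lit 4) (nat_lit 384) (nat_lit 282) (nat_lit 234)) (XT.lf (nat_lit 0) (nat_lit 14712512140) (nat_lit 76) (nat_lit 3038880496) (nat_lit 152) (nat_lit 169307289) (nat_lit 39) (nat_lit 5) (nat_lit 40) (nat_lit 5) (nat_lit 41) (nat_lit 4) (nat_lit 385) (nat_lit 282) (nat_lit 233)))))) (XT.nd (nat_lit 546) (nat_lit 304) (nat_lit 0) (XT.nd (nat_lit 234) (nat_lit 304) (nat_lit 0) (XT.nd (nat_lit 78) (nat_lit 76) (nat_lit 0) (XT.lf (nat_lit 0) (nat_lit 4057300961) (nat_lit 228) (nat_lit 12650614105) (nat_lit 76) (nat_lit 1598826140) (nat_lit 36) (nat_lit 5) (nat_lit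 39) (nat_lit 5) (nat_lit 37) (nat_lit 4) (nat_lit 386) (nat_lit 282) (nat_lit 232)) (XT.nd (nat_lit 78) (nat_lit 76) (nat_lit 0) (XT.lf (nat_lit 0) (nat_lit 8423215154) (nat_lit 228) (nat_lit 3967587911) (nat_lit 76) (nat_lit 6313043539) (nat_lit 36) (nat_lit 5) (nat_lit 39) (nat_lit 5) (nat_lit 37) (nat_lit 4) (nat_lit 387) (nat_lit 282) (nat_lit 231)) (XT.lf (nat_lit 0) (nat_lit 4991538540) (nat_lit 76) (nat_lit 7931021328) (nat_lit 152) (nat_lit 6190241881) (nat_lit 35) (nat_lit 5) (nat_lit 36) (nat_lit 5) (nat_lit 37) (nat_lit 4) (nat_lit 388) (nat_lit 282) (nat_lit 230)))) (XT.nd (nat_lit 156) (nat_lit 76) (nat_lit 0) (XT.nd (nat_lit 78) (nat_lit 228) (nat_lit 0) (XT.lf (nat_lit 0) (nat_lit 14219778922) (nat_lit 76) (nat_lit 3332189771) (nat_lit 152) (nat_lit 1982214226) (nat_lit 35) (nat_lit 5) (nat_lit 36) (nat_lit 5) (nat_lit 37) (nat_lit 4) (nat_lit 389) (nat_lit 282) (nat_lit 229)) (XT.lf (nat_lit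 0) (nat_lit 2311613377) (nat_lit 228) (nat_lit 16254261102) (nat_lit 76) (nat_lit 1401498396) (nat_lit 32) (nat_lit 5) (nat_lit 35) (nat_lit 5) (nat_lit 33) (nat_lit 4) (nat_lit 390) (nat_lit 282) (nat_lit 228))) (XT.nd (nat_lit 78) (nat_lit 76) (nat_lit 0) (XT.lf (nat_lit 0) (nat_lit 6737680890) (nat_lit 228) (nat_lit 7424423528) (nat_lit 76) (nat_lit 6249576407) (nat_lit 32) (nat_lit 5) (nat_lit 35) (nat_lit 5) (nat_lit 33) (nat_lit 4) (nat_lit 391) (nat_lit 282) (nat_lit 227)) (XT.lf (nat_lit 0) (nat_lit 1624614313) (nat_lit 76) (nat_lit 9644889454) (nat_lit 152) (nat_lit 9600633829) (nat_lit 31) (nat_lit 5) (nat_lit 32) (nat_lit 5) (nat_lit 33) (nat_lit 4) (nat_lit 392) (nat_lit 282) (nat_lit 226))))) (XT.nd (nat_lit 234) (nat_lit 76) (nat_lit 0) (XT.nd (nat_lit 78) (nat_lit 228) (nat_lit 0) (XT.lf (nat_lit 0) (nat_lit 11020678551) (nat_lit 76) (nat_lit 4949436802) (nat_lit 152) (nat_lit 5371256221)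 (nat_lit 31) (nat_lit 5) (nat_lit 32) (nat_lit 5) (nat_lit 33) (nat_lit 4) (nat_lit 393) (nat_lit 282) (nat_lit 225)) (XT.nd (nat_lit 78) (nat_lit 228) (nat_lit 0) (XT.lf (nat_lit 0) (nat_lit 20624218754) (nat_lit 76) (nat_lit 146615758) (nat_lit 152) (nat_lit 1057143659) (nat_lit 31) (nat_lit 5) (nat_lit 32) (nat_lit 5) (nat_lit 33) (nat_lit 4) (nat_lit 394) (nat_lit 282) (nat_lit 224)) (XT.lf (nat_lit 0) (nat_lit 3406351103) (nat_lit 228) (nat_lit 14132060090) (nat_lit 76) (nat_lit 4787221827) (nat_lit 28) (nat_lit 5) (nat_lit 31) (nat_lit 5) (nat_lit 29) (nat_lit 4) (nat_lit 395) (nat_lit 282) (nat_lit 223)))) (XT.nd (nat_lit 156) (nat_lit 0) (nat_lit 0) (XT.nd (nat_lit 78) (nat_lit 76) (nat_lit 0) (XT.lf (nat_lit 0) (nat_lit 7956269559) (nat_lit 228) (nat_lit 5025602244) (nat_lit 76) (nat_lit 9856826290) (nat_lit 28) (nat_lit 5) (nat_lit 31) (nat_lit 5) (nat_lit 29) (nat_lit 4) (nat_lit 396) (nat_lit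 282) (nat_lit 222)) (XT.lf (nat_lit 0) (nat_lit 4368209444) (nat_lit 76) (nat_lit 8277668734) (nat_lit 152) (nat_lit 10721188517) (nat_lit 27) (nat_lit 5) (nat_lit 28) (nat_lit 5) (nat_lit 29) (nat_lit 4) (nat_lit 397) (nat_lit 282) (nat_lit 221))) (XT.nd (nat_lit 78) (nat_lit 0) (nat_lit 0) (XT.lf (nat_lit 0) (nat_lit 14076472867) (nat_lit 76) (nat_lit 3412107082) (nat_lit 152) (nat_lit 6422341398) (nat_lit 27) (nat_lit 5) (nat_lit 28) (nat_lit 5) (nat_lit 29) (nat_lit 4) (nat_lit 398) (nat_lit 282) (nat_lit 220)) (XT.lf (nat_lit 0) (nat_lit 22454411361) (nat_lit 152) (nat_lit 479639358) (nat_lit 0) (nat_lit 1537712393) (nat_lit 27) (nat_lit 5) (nat_lit 29) (nat_lit 4) (nat_lit 27) (nat_lit 4) (nat_lit 399) (nat_lit 282) (nat_lit 219))))))))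
noncomputable def xc62 : XT := (XT.nd (nat_lit 2028) (nat_lit 456) (nat_lit 0) (XT.nd (nat_lit 1014) (nat_lit 304) (nat_lit 0) (XT.nd (nat_lit 468) (nat_lit 304) (nat_lit 0) (XT.nd (nat_lit 234) (nat_lit 76) (nat_lit 0) (XT.nd (nat_lit 78) (nat_lit 76) (nat_lit 0) (XT.lf (nat_lit 0) (nat_lit 2557587172) (nat_lit 228) (nat_lit 15836829721) (nat_lit 76) (nat_lit 6651684027) (nat_lit 24) (nat_lit 5) (nat_lit 27) (nat_lit 5) (nat_lit 25) (nat_lit 4) (nat_lit 400) (nat_lit 282) (nat_lit 218)) (XT.nd (nat_lit 78) (nat_lit 76) (nat_lit 0) (XT.lf (nat_lit 0) (nat_lit 7197744939) (nat_lit 228) (nat_lit 6526079080) (nat_lit 76) (nat_lit 11914196451) (nat_lit 24) (nat_lit 5) (nat_lit 27) (nat_lit 5) (nat_lit 25) (nat_lit 4) (nat_lit 401) (nat_lit 282) (nat_lit 217)) (XT.lf (nat_lit 0) (nat_lit 3058417544) (nat_lit 76) (nat_lit 8912774785) (nat_lit 152) (nat_lit 14276688888) (nat_lit 23) (nat_lit 5) (nat_lit 24) (nat_lit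 5) (nat_lit 25) (nat_lit 4) (nat_lit 402) (nat_lit 282) (nat_lit 216)))) (XT.nd (nat_lit 78) (nat_lit 76) (nat_lit 0) (XT.lf (nat_lit 0) (nat_lit 12999609790) (nat_lit 76) (nat_lit 3919226899) (nat_lit 152) (nat_lit 9956277272) (nat_lit 23) (nat_lit 5) (nat_lit 24) (nat_lit 5) (nat_lit 25) (nat_lit 4) (nat_lit 403) (nat_lit 282) (nat_lit 215)) (XT.nd (nat_lit 78) (nat_lit 76) (nat_lit 0) (XT.lf (nat_lit 0) (nat_lit 21992509820) (nat_lit 152) (nat_lit 4357373621) (nat_lit 0) (nat_lit 1171958067) (nat_lit 23) (nat_lit 5) (nat_lit 25) (nat_lit 4) (nat_lit 23) (nat_lit 4) (nat_lit 404) (nat_lit 282) (nat_lit 214)) (XT.lf (nat_lit 0) (nat_lit 5452258087) (nat_lit 76) (nat_lit 21824177276) (nat_lit 76) (nat_lit 909799888) (nat_lit 22) (nat_lit 4) (nat_lit 23) (nat_lit 5) (nat_lit 23) (nat_lit 4) (nat_lit 405) (nat_lit 282) (nat_lit 213))))) (XT.nd (nat_lit 234) (nat_lit 152) (nat_lit 0) (XT.nd (nat_lit 78) (nat_lit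 76) (nat_lit 0) (XT.lf (nat_lit 0) (nat_lit 3784536964) (nat_lit 152) (nat_lit 13322860198) (nat_lit 76) (nat_lit 11761719775) (nat_lit 21) (nat_lit 5) (nat_lit 23) (nat_lit 5) (nat_lit 22) (nat_lit 4) (nat_lit 406) (nat_lit 282) (nat_lit 212)) (XT.nd (nat_lit 78) (nat_lit 76) (nat_lit 0) (XT.lf (nat_lit 0) (nat_lit 8569259650) (nat_lit 152) (nat_lit 3698312804) (nat_lit 76) (nat_lit 17305612287) (nat_lit 21) (nat_lit 5) (nat_lit 23) (nat_lit 5) (nat_lit 22) (nat_lit 4) (nat_lit 407) (nat_lit 282) (nat_lit 211)) (XT.lf (nat_lit 0) (nat_lit 6279353166) (nat_lit 76) (nat_lit 7247310286) (nat_lit 152) (nat_lit 16770841952) (nat_lit 20) (nat_lit 5) (nat_lit 21) (nat_lit 5) (nat_lit 22) (nat_lit 4) (nat_lit 408) (nat_lit 282) (nat_lit 210)))) (XT.nd (nat_lit 156) (nat_lit 152) (nat_lit 0) (XT.nd (nat_lit 78) (nat_lit 0) (nat_lit 0) (XT.lf (nat_lit 0) (nat_lit 16574580366) (nat_lit 76) (nat_lit 2064689027) (nat_lit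 152) (nat_lit 12404096754) (nat_lit 20) (nat_lit 5) (nat_lit 21) (nat_lit 5) (nat_lit 22) (nat_lit 4) (nat_lit 409) (nat_lit 282) (nat_lit 209)) (XT.lf (nat_lit 0) (nat_lit 23906503539) (nat_lit 152) (nat_lit 4720962193) (nat_lit 0) (nat_lit 3184104199) (nat_lit 20) (nat_lit 5) (nat_lit 22) (nat_lit 4) (nat_lit 20) (nat_lit 4) (nat_lit 410) (nat_lit 282) (nat_lit 208))) (XT.nd (nat_lit 78) (nat_lit 76) (nat_lit 0) (XT.lf (nat_lit 0) (nat_lit 5348307866) (nat_lit 76) (nat_lit 24025964590) (nat_lit 76) (nat_lit 3227276423) (nat_lit 19) (nat_lit 4) (nat_lit 20) (nat_lit 5) (nat_lit 20) (nat_lit 4) (nat_lit 411) (nat_lit 282) (nat_lit 207)) (XT.lf (nat_lit 0) (nat_lit 1578652880) (nat_lit 152) (nat_lit 17668089642) (nat_lit 76) (nat_lit 14167464765) (nat_lit 18) (nat_lit 5) (nat_lit 20) (nat_lit 5) (nat_lit 19) (nat_lit 4) (nat_lit 412) (nat_lit 282) (nat_lit 206)))))) (XT.nd (nat_lit 468) (nat_lit 152) (nat_lit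 0) (XT.nd (nat_lit 234) (nat_lit 76) (nat_lit 0) (XT.nd (nat_lit 78) (nat_lit 76) (nat_lit 0) (XT.lf (nat_lit 0) (nat_lit 6435452604) (nat_lit 152) (nat_lit 7880695739) (nat_lit 76) (nat_lit 19934995972) (nat_lit 18) (nat_lit 5) (nat_lit 20) (nat_lit 5) (nat_lit 19) (nat_lit 4) (nat_lit 413) (nat_lit 282) (nat_lit 205)) (XT.nd (nat_lit 78) (nat_lit 0) (nat_lit 0) (XT.lf (nat_lit 0) (nat_lit 2191275009) (nat_lit 76) (nat_lit 9240131206) (nat_lit 152) (nat_lit 23681983812) (nat_lit 17) (nat_lit 5) (nat_lit 18) (nat_lit 5) (nat_lit 19) (nat_lit 4) (nat_lit 414) (nat_lit 282) (nat_lit 204)) (XT.lf (nat_lit 0) (nat_lit 12675654666) (nat_lit 76) (nat_lit 3953860560) (nat_lit 152) (nat_lit 19370423535) (nat_lit 17) (nat_lit 5) (nat_lit 18) (nat_lit 5) (nat_lit 19) (nat_lit 4) (nat_lit 415) (nat_lit 282) (nat_lit 203)))) (XT.nd (nat_lit 78) (nat_lit 76) (nat_lit 0) (XT.lf (nat_lit 0) (nat_lit 21971168410) (nat_lit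 152) (nat_lit 13503228439) (nat_lit 0) (nat_lit 1439062918) (nat_lit 17) (nat_lit 5) (nat_lit 19) (nat_lit 4) (nat_lit 17) (nat_lit 4) (nat_lit 416) (nat_lit 282) (nat_lit 202)) (XT.nd (nat_lit 78) (nat_lit 76) (nat_lit 0) (XT.lf (nat_lit 0) (nat_lit 27486265425) (nat_lit 152) (nat_lit 3475598742) (nat_lit 0) (nat_lit 6892130136) (nat_lit 17) (nat_lit 5) (nat_lit 19) (nat_lit 4) (nat_lit 17) (nat_lit 4) (nat_lit 417) (nat_lit 282) (nat_lit 201)) (XT.lf (nat_lit 0) (nat_lit 6940814215) (nat_lit 76) (nat_lit 26267523500) (nat_lit 76) (nat_lit 5613165107) (nat_lit 16) (nat_lit 4) (nat_lit 17) (nat_lit 5) (nat_lit 17) (nat_lit 4) (nat_lit 418) (nat_lit 282) (nat_lit 200))))) (XT.nd (nat_lit 234) (nat_lit 76) (nat_lit 0) (XT.nd (nat_lit 78) (nat_lit 76) (nat_lit 0) (XT.lf (nat_lit 0) (nat_lit 17693945560) (nat_lit 76) (nat_lit 21418308263) (nat_lit 76) (nat_lit 705480836) (nat_lit 16) (nat_lit 4) (nat_lit 17)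 (nat_lit 5) (nat_lit 17) (nat_lit 4) (nat_lit 419) (nat_lit 282) (nat_lit 199)) (XT.nd (nat_lit 78) (nat_lit 0) (nat_lit 0) (XT.lf (nat_lit 0) (nat_lit 4240128596) (nat_lit 152) (nat_lit 12162132428) (nat_lit 76) (nat_lit 24441074422) (nat_lit 15) (nat_lit 5) (nat_lit 17) (nat_lit 5) (nat_lit 16) (nat_lit 4) (nat_lit 420) (nat_lit 282) (nat_lit 198)) (XT.lf (nat_lit 0) (nat_lit 9296206220) (nat_lit 152) (nat_lit 1953407523) (nat_lit 76) (nat_lit 30650595798) (nat_lit 15) (nat_lit 5) (nat_lit 17) (nat_lit 5) (nat_lit 16) (nat_lit 4) (nat_lit 421) (nat_lit 282) (nat_lit 197)))) (XT.nd (nat_lit 156) (nat_lit 0) (nat_lit 0) (XT.nd (nat_lit 78) (nat_lit 0) (nat_lit 0) (XT.lf (nat_lit 0) (nat_lit 8687614014) (nat_lit 76) (nat_lit 5876833085) (nat_lit 152) (nat_lit 28422531453) (nat_lit 14) (nat_lit 5) (nat_lit 15) (nat_lit 5) (nat_lit 16) (nat_lit 4) (nat_lit 422) (nat_lit 282) (nat_lit 196)) (XT.lf (nat_lit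 0) (nat_lit 19644843772) (nat_lit 76) (nat_lit 342844084) (nat_lit 152) (nat_lit 24118757226) (nat_lit 14) (nat_lit 5) (nat_lit 15) (nat_lit 5) (nat_lit 16) (nat_lit 4) (nat_lit 423) (nat_lit 282) (nat_lit 195))) (XT.nd (nat_lit 78) (nat_lit 0) (nat_lit 0) (XT.lf (nat_lit 0) (nat_lit 25602823153) (nat_lit 152) (nat_lit 14422489414) (nat_lit 0) (nat_lit 5233310065) (nat_lit 14) (nat_lit 5) (nat_lit 16) (nat_lit 4) (nat_lit 14) (nat_lit 4) (nat_lit 424) (nat_lit 282) (nat_lit 194)) (XT.lf (nat_lit 0) (nat_lit 31368157462) (nat_lit 152) (nat_lit 4126654852) (nat_lit 0) (nat_lit 10951103700) (nat_lit 14) (nat_lit 5) (nat_lit 16) (nat_lit 4) (nat_lit 14) (nat_lit 4) (nat_lit 425) (nat_lit 282) (nat_lit 193))))))) (XT.nd (nat_lit 1014) (nat_lit 152) (nat_lit 0) (XT.nd (nat_lit 468) (nat_lit 76) (nat_lit 0) (XT.nd (nat_lit 234) (nat_lit 152) (nat_lit 0) (XT.nd (nat_lit 78) (nat_lit 0) (nat_lit 0) (XT.lf (nat_lit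 0) (nat_lit 6566327052) (nat_lit 76) (nat_lit 30782225329) (nat_lit 76) (nat_lit 10319015572) (nat_lit 13) (nat_lit 4) (nat_lit 14) (nat_lit 5) (nat_lit 14) (nat_lit 4) (nat_lit 426) (nat_lit 282) (nat_lit 192)) (XT.nd (nat_lit 78) (nat_lit 0) (nat_lit 0) (XT.lf (nat_lit 0) (nat_lit 17625221195) (nat_lit 76) (nat_lit 25904022901) (nat_lit 76) (nat_lit 5396001498) (nat_lit 13) (nat_lit 4) (nat_lit 14) (nat_lit 5) (nat_lit 14) (nat_lit 4) (nat_lit 427) (nat_lit 282) (nat_lit 191)) (XT.lf (nat_lit 0) (nat_lit 28977562165) (nat_lit 76) (nat_lit 20897613645) (nat_lit 76) (nat_lit 346085790) (nat_lit 13) (nat_lit 4) (nat_lit 14) (nat_lit 5) (nat_lit 14) (nat_lit 4) (nat_lit 428) (nat_lit 282) (nat_lit 190)))) (XT.nd (nat_lit 78) (nat_lit 76) (nat_lit 0) (XT.lf (nat_lit 0) (nat_lit 4740793022) (nat_lit 152) (nat_lit 10969957292) (nat_lit 76) (nat_lit 35844603746) (nat_lit 12) (nat_lit 5) (nat_lit 14) (nat_lit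 5) (nat_lit 13) (nat_lit 4) (nat_lit 429) (nat_lit 282) (nat_lit 189)) (XT.nd (nat_lit 78) (nat_lit 76) (nat_lit 0) (XT.lf (nat_lit 0) (nat_lit 9954109168) (nat_lit 152) (nat_lit 427934519) (nat_lit 76) (nat_lit 42547901594) (nat_lit 12) (nat_lit 5) (nat_lit 14) (nat_lit 5) (nat_lit 13) (nat_lit 4) (nat_lit 430) (nat_lit 282) (nat_lit 188)) (XT.lf (nat_lit 0) (nat_lit 10601786182) (nat_lit 76) (nat_lit 4805296024) (nat_lit 152) (nat_lit 38936196631) (nat_lit 11) (nat_lit 5) (nat_lit 12) (nat_lit 5) (nat_lit 13) (nat_lit 4) (nat_lit 431) (nat_lit 282) (nat_lit 187))))) (XT.nd (nat_lit 234) (nat_lit 76) (nat_lit 0) (XT.nd (nat_lit 78) (nat_lit 0) (nat_lit 0) (XT.lf (nat_lit 0) (nat_lit 21018424891) (nat_lit 152) (nat_lit 33872268661) (nat_lit 0) (nat_lit 908477689) (nat_lit 11) (nat_lit 5) (nat_lit 13) (nat_lit 4) (nat_lit 11) (nat_lit 4) (nat_lit 432) (nat_lit 282) (nat_lit 186)) (XT.nd (nat_lit 78) (nat_lit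 0) (nat_lit 0) (XT.lf (nat_lit 0) (nat_lit 26827619501) (nat_lit 152) (nat_lit 23789001426) (nat_lit 0) (nat_lit 6681236330) (nat_lit 11) (nat_lit 5) (nat_lit 13) (nat_lit 4) (nat_lit 11) (nat_lit 4) (nat_lit 433) (nat_lit 282) (nat_lit 185)) (XT.lf (nat_lit 0) (nat_lit 32793550587) (nat_lit 152) (nat_lit 13436688883) (nat_lit 0) (nat_lit 12611792690) (nat_lit 11) (nat_lit 5) (nat_lit 13) (nat_lit 4) (nat_lit 11) (nat_lit 4) (nat_lit 434) (nat_lit 282) (nat_lit 184)))) (XT.nd (nat_lit 156) (nat_lit 0) (nat_lit 0) (XT.nd (nat_lit 78) (nat_lit 76) (nat_lit 0) (XT.lf (nat_lit 0) (nat_lit 38921431098) (nat_lit 152) (nat_lit 2806285322) (nat_lit 0) (nat_lit 18705328806) (nat_lit 11) (nat_lit 5) (nat_lit 13) (nat_lit 4) (nat_lit 11) (nat_lit 4) (nat_lit 435) (nat_lit 282) (nat_lit 183)) (XT.lf (nat_lit 0) (nat_lit 8272932672) (nat_lit 76) (nat_lit 37023207311) (nat_lit 76) (nat_lit 16773760946) (nat_lit 10)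 (nat_lit 4) (nat_lit 11) (nat_lit 5) (nat_lit 11) (nat_lit 4) (nat_lit 436) (nat_lit 282) (nat_lit 182))) (XT.nd (nat_lit 78) (nat_lit 0) (nat_lit 0) (XT.lf (nat_lit 0) (nat_lit 19710830059) (nat_lit 76) (nat_lit 32163246918) (nat_lit 76) (nat_lit 11881427667) (nat_lit 10) (nat_lit 4) (nat_lit 11) (nat_lit 5) (nat_lit 11) (nat_lit 4) (nat_lit 437) (nat_lit 282) (nat_lit 181)) (XT.lf (nat_lit 0) (nat_lit 31461550537) (nat_lit 76) (nat_lit 27171926652) (nat_lit 76) (nat_lit 6858677415) (nat_lit 10) (nat_lit 4) (nat_lit 11) (nat_lit 5) (nat_lit 11) (nat_lit 4) (nat_lit 438) (nat_lit 282) (nat_lit 180)))))) (XT.nd (nat_lit 546) (nat_lit 0) (nat_lit 0) (XT.nd (nat_lit 234) (nat_lit 76) (nat_lit 0) (XT.nd (nat_lit 78) (nat_lit 76) (nat_lit 0) (XT.lf (nat_lit 0) (nat_lit 43535361725) (nat_lit 76) (nat_lit 22044885167) (nat_lit 76) (nat_lit 1701121379) (nat_lit 10) (nat_lit 4) (nat_lit 11) (nat_lit 5) (nat_lit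 11) (nat_lit 4) (nat_lit 439) (nat_lit 282) (nat_lit 179)) (XT.nd (nat_lit 78) (nat_lit 0) (nat_lit 0) (XT.lf (nat_lit 0) (nat_lit 3525581065) (nat_lit 152) (nat_lit 13216460001) (nat_lit 76) (nat_lit 52381631034) (nat_lit 9) (nat_lit 5) (nat_lit 11) (nat_lit 5) (nat_lit 10) (nat_lit 4) (nat_lit 440) (nat_lit 282) (nat_lit 178)) (XT.lf (nat_lit 0) (nat_lit 8860220420) (nat_lit 152) (nat_lit 2415905000) (nat_lit 76) (nat_lit 59745056217) (nat_lit 9) (nat_lit 5) (nat_lit 11) (nat_lit 5) (nat_lit 10) (nat_lit 4) (nat_lit 441) (nat_lit 282) (nat_lit 177)))) (XT.nd (nat_lit 156) (nat_lit 0) (nat_lit 0) (XT.nd (nat_lit 78) (nat_lit 0) (nat_lit 0) (XT.lf (nat_lit 0) (nat_lit 8854225892) (nat_lit 76) (nat_lit 5571539370) (nat_lit 152) (nat_lit 58547726839) (nat_lit 8) (nat_lit 5) (nat_lit 9) (nat_lit 5) (nat_lit 10) (nat_lit 4) (nat_lit 442) (nat_lit 282) (nat_lit 176)) (XT.lf (nat_lit 0) (nat_lit 20171624191)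 (nat_lit 152) (nat_lit 54502073550) (nat_lit 0) (nat_lit 310275285) (nat_lit 8) (nat_lit 5) (nat_lit 10) (nat_lit 4) (nat_lit 8) (nat_lit 4) (nat_lit 443) (nat_lit 282) (nat_lit 175))) (XT.nd (nat_lit 78) (nat_lit 0) (nat_lit 0) (XT.lf (nat_lit 0) (nat_lit 26131222925) (nat_lit 152) (nat_lit 44677987506) (nat_lit 0) (nat_lit 6244318563) (nat_lit 8) (nat_lit 5) (nat_lit 10) (nat_lit 4) (nat_lit 8) (nat_lit 4) (nat_lit 444) (nat_lit 282) (nat_lit 174)) (XT.lf (nat_lit 0) (nat_lit 32256211835) (nat_lit 152) (nat_lit 34584866878) (nat_lit 0) (nat_lit 12344496352) (nat_lit 8) (nat_lit 5) (nat_lit 10) (nat_lit 4) (nat_lit 8) (nat_lit 4) (nat_lit 445) (nat_lit 282) (nat_lit 173))))) (XT.nd (nat_lit 38142) (nat_lit 0) (nat_lit 11400) (XT.nd (nat_lit 78) (nat_lit 0) (nat_lit 0) (XT.lf (nat_lit 0) (nat_lit 38551942853) (nat_lit 152) (nat_lit 24213892435) (nat_lit 0) (nat_lit 18616138903) (nat_lit 8) (nat_lit 5)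 (nat_lit 10) (nat_lit 4) (nat_lit 8) (nat_lit 4) (nat_lit 446) (nat_lit 282) (nat_lit 172)) (XT.nd (nat_lit 78) (nat_lit 0) (nat_lit 0) (XT.lf (nat_lit 0) (nat_lit 45023917105) (nat_lit 152) (nat_lit 13556002160) (nat_lit 0) (nat_lit 25064726292) (nat_lit 8) (nat_lit 5) (nat_lit 10) (nat_lit 4) (nat_lit 8) (nat_lit 4) (nat_lit 447) (nat_lit 282) (nat_lit 171)) (XT.lf (nat_lit 0) (nat_lit 51677789712) (nat_lit 152) (nat_lit 2601883334) (nat_lit 0) (nat_lit 31695893208) (nat_lit 8) (nat_lit 5) (nat_lit 10) (nat_lit 4) (nat_lit 8) (nat_lit 4) (nat_lit 448) (nat_lit 282) (nat_lit 170)))) (XT.nd (nat_lit 156) (nat_lit 532) (nat_lit 0) (XT.nd (nat_lit 78) (nat_lit 532) (nat_lit 0) (XT.lf (nat_lit 0) (nat_lit 1719353736) (nat_lit 532) (nat_lit 1077958713) (nat_lit 532) (nat_lit 1077958713) (nat_lit 172) (nat_lit 4) (nat_lit 179) (nat_lit 5) (nat_lit 179) (nat_lit 4) (nat_lit 334) (nat_lit 283) (nat_lit 283))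 (XT.lf (nat_lit 0) (nat_lit 1398858146) (nat_lit 532) (nat_lit 6337185022) (nat_lit 0) (nat_lit 96187854) (nat_lit 165) (nat_lit 5) (nat_lit 172) (nat_lit 4) (nat_lit 165) (nat_lit 4) (nat_lit 335) (nat_lit 283) (nat_lit 282))) (XT.nd (nat_lit 78) (nat_lit 532) (nat_lit 0) (XT.lf (nat_lit 0) (nat_lit 4985976431) (nat_lit 532) (nat_lit 512180909) (nat_lit 0) (nat_lit 2418577701) (nat_lit 165) (nat_lit 5) (nat_lit 172) (nat_lit 4) (nat_lit 165) (nat_lit 4) (nat_lit 336) (nat_lit 283) (nat_lit 281)) (XT.lf (nat_lit 0) (nat_lit 622437759) (nat_lit 532) (nat_lit 2531741766) (nat_lit 76) (nat_lit 4850709659) (nat_lit 158) (nat_lit 5) (nat_lit 165) (nat_lit 5) (nat_lit 159) (nat_lit 4) (nat_lit 337) (nat_lit 283) (nat_lit 280))))))))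
noncomputable def xc63 : XT := (XT.nd (nat_lit 2028) (nat_lit 2736) (nat_lit 0) (XT.nd (nat_lit 1014) (nat_lit 2584) (nat_lit 0) (XT.nd (nat_lit 468) (nat_lit 1900) (nat_lit 0) (XT.nd (nat_lit 234) (nat_lit 1216) (nat_lit 0) (XT.nd (nat_lit 78) (nat_lit 532) (nat_lit 0) (XT.lf (nat_lit 0) (nat_lit 3475907864) (nat_lit 456) (nat_lit 693218310) (nat_lit 532) (nat_lit 3927386735) (nat_lit 152) (nat_lit 5) (nat_lit 158) (nat_lit 5) (nat_lit 159) (nat_lit 4) (nat_lit 338) (nat_lit 283) (nat_lit 279)) (XT.nd (nat_lit 78) (nat_lit 76) (nat_lit 0) (XT.lf (nat_lit 0) (nat_lit 1417985450) (nat_lit 456) (nat_lit 6369922554) (nat_lit 456) (nat_lit 404074057) (nat_lit 146) (nat_lit 4) (nat_lit 152) (nat_lit 5) (nat_lit 152) (nat_lit 4) (nat_lit 339) (nat_lit 283) (nat_lit 278)) (XT.lf (nat_lit 0) (nat_lit 3125126482) (nat_lit 532) (nat_lit 712807597) (nat_lit 76) (nat_lit 4452621273) (nat_lit 145) (nat_lit 5) (nat_lit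 152) (nat_lit 5) (nat_lit 146) (nat_lit 4) (nat_lit 340) (nat_lit 283) (nat_lit 277)))) (XT.nd (nat_lit 78) (nat_lit 836) (nat_lit 0) (XT.lf (nat_lit 0) (nat_lit 5519337915) (nat_lit 380) (nat_lit 1197579537) (nat_lit 456) (nat_lit 1676165062) (nat_lit 140) (nat_lit 5) (nat_lit 145) (nat_lit 5) (nat_lit 146) (nat_lit 4) (nat_lit 341) (nat_lit 283) (nat_lit 276)) (XT.nd (nat_lit 78) (nat_lit 380) (nat_lit 0) (XT.lf (nat_lit 0) (nat_lit 1847463931) (nat_lit 456) (nat_lit 5127652559) (nat_lit 76) (nat_lit 1524060881) (nat_lit 134) (nat_lit 5) (nat_lit 140) (nat_lit 5) (nat_lit 135) (nat_lit 4) (nat_lit 342) (nat_lit 283) (nat_lit 275)) (XT.lf (nat_lit 0) (nat_lit 1132328136) (nat_lit 380) (nat_lit 4276362264) (nat_lit 456) (nat_lit 3200355998) (nat_lit 129) (nat_lit 5) (nat_lit 134) (nat_lit 5) (nat_lit 135) (nat_lit 4) (nat_lit 343) (nat_lit 283) (nat_lit 274))))) (XT.nd (nat_lit 234) (nat_lit 1140) (nat_lit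 0) (XT.nd (nat_lit 78) (nat_lit 684) (nat_lit 0) (XT.lf (nat_lit 0) (nat_lit 313958810) (nat_lit 456) (nat_lit 1156484738) (nat_lit 76) (nat_lit 7252728939) (nat_lit 128) (nat_lit 5) (nat_lit 134) (nat_lit 5) (nat_lit 129) (nat_lit 5) (nat_lit 344) (nat_lit 283) (nat_lit 273)) (XT.nd (nat_lit 78) (nat_lit 304) (nat_lit 0) (XT.lf (nat_lit 0) (nat_lit 3851159125) (nat_lit 456) (nat_lit 3543367214) (nat_lit 76) (nat_lit 1445843749) (nat_lit 123) (nat_lit 5) (nat_lit 129) (nat_lit 5) (nat_lit 124) (nat_lit 4) (nat_lit 345) (nat_lit 283) (nat_lit 272)) (XT.lf (nat_lit 0) (nat_lit 2934843606) (nat_lit 304) (nat_lit 4531797955) (nat_lit 380) (nat_lit 1495327300) (nat_lit 119) (nat_lit 5) (nat_lit 123) (nat_lit 5) (nat_lit 124) (nat_lit 4) (nat_lit 346) (nat_lit 283) (nat_lit 271)))) (XT.nd (nat_lit 156) (nat_lit 684) (nat_lit 0) (XT.nd (nat_lit 78) (nat_lit 0) (nat_lit 0) (XT.lf (nat_lit 0) (nat_lit 467062644)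 (nat_lit 380) (nat_lit 1553949121) (nat_lit 456) (nat_lit 7066884108) (nat_lit 113) (nat_lit 5) (nat_lit 118) (nat_lit 5) (nat_lit 119) (nat_lit 5) (nat_lit 347) (nat_lit 283) (nat_lit 270)) (XT.lf (nat_lit 0) (nat_lit 5607821168) (nat_lit 456) (nat_lit 2082486438) (nat_lit 76) (nat_lit 1527043855) (nat_lit 113) (nat_lit 5) (nat_lit 119) (nat_lit 5) (nat_lit 114) (nat_lit 4) (nat_lit 348) (nat_lit 283) (nat_lit 269))) (XT.nd (nat_lit 78) (nat_lit 380) (nat_lit 0) (XT.lf (nat_lit 0) (nat_lit 4613660086) (nat_lit 304) (nat_lit 4669692130) (nat_lit 380) (nat_lit 67949603) (nat_lit 109) (nat_lit 5) (nat_lit 113) (nat_lit 5) (nat_lit 114) (nat_lit 4) (nat_lit 349) (nat_lit 283) (nat_lit 268)) (XT.lf (nat_lit 0) (nat_lit 1954779705) (nat_lit 304) (nat_lit 1517058123) (nat_lit 380) (nat_lit 6017588096) (nat_lit 104) (nat_lit 5) (nat_lit 108) (nat_lit 5) (nat_lit 109) (nat_lit 5) (nat_lit 350) (nat_lit 283) (nat_lit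 267)))))) (XT.nd (nat_lit 468) (nat_lit 1292) (nat_lit 0) (XT.nd (nat_lit 234) (nat_lit 608) (nat_lit 0) (XT.nd (nat_lit 78) (nat_lit 684) (nat_lit 0) (XT.lf (nat_lit 0) (nat_lit 7104044852) (nat_lit 380) (nat_lit 817329274) (nat_lit 76) (nat_lit 1710712530) (nat_lit 104) (nat_lit 5) (nat_lit 109) (nat_lit 5) (nat_lit 105) (nat_lit 4) (nat_lit 351) (nat_lit 283) (nat_lit 266)) (XT.nd (nat_lit 78) (nat_lit 304) (nat_lit 0) (XT.lf (nat_lit 0) (nat_lit 1043833863) (nat_lit 380) (nat_lit 3694988035) (nat_lit 76) (nat_lit 5039982895) (nat_lit 99) (nat_lit 5) (nat_lit 104) (nat_lit 5) (nat_lit 100) (nat_lit 5) (nat_lit 352) (nat_lit 283) (nat_lit 265)) (XT.lf (nat_lit 0) (nat_lit 3205015972) (nat_lit 304) (nat_lit 1431441505) (nat_lit 380) (nat_lit 5293821379) (nat_lit 95) (nat_lit 5) (nat_lit 99) (nat_lit 5) (nat_lit 100) (nat_lit 5) (nat_lit 353) (nat_lit 283) (nat_lit 264)))) (XT.nd (nat_lit 78) (nat_lit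 380) (nat_lit 0) (XT.lf (nat_lit 0) (nat_lit 174345273) (nat_lit 228) (nat_lit 8146879828) (nat_lit 304) (nat_lit 1765577368) (nat_lit 92) (nat_lit 5) (nat_lit 95) (nat_lit 5) (nat_lit 96) (nat_lit 4) (nat_lit 354) (nat_lit 283) (nat_lit 263)) (XT.nd (nat_lit 78) (nat_lit 304) (nat_lit 0) (XT.lf (nat_lit 0) (nat_lit 1841160630) (nat_lit 304) (nat_lit 2972673857) (nat_lit 76) (nat_lit 5433409422) (nat_lit 91) (nat_lit 5) (nat_lit 95) (nat_lit 5) (nat_lit 92) (nat_lit 5) (nat_lit 355) (nat_lit 283) (nat_lit 262)) (XT.lf (nat_lit 0) (nat_lit 4128989579) (nat_lit 304) (nat_lit 1359811376) (nat_lit 380) (nat_lit 4924160817) (nat_lit 87) (nat_lit 5) (nat_lit 91) (nat_lit 5) (nat_lit 92) (nat_lit 5) (nat_lit 356) (nat_lit 283) (nat_lit 261))))) (XT.nd (nat_lit 234) (nat_lit 760) (nat_lit 0) (XT.nd (nat_lit 78) (nat_lit 304) (nat_lit 0) (XT.lf (nat_lit 0) (nat_lit 806081212) (nat_lit 228) (nat_lit 8428153560)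 (nat_lit 304) (nat_lit 1349797708) (nat_lit 84) (nat_lit 5) (nat_lit 87) (nat_lit 5) (nat_lit 88) (nat_lit 4) (nat_lit 357) (nat_lit 283) (nat_lit 260)) (XT.nd (nat_lit 78) (nat_lit 228) (nat_lit 0) (XT.lf (nat_lit 0) (nat_lit 2293308456) (nat_lit 304) (nat_lit 2667654563) (nat_lit 76) (nat_lit 5798419821) (nat_lit 83) (nat_lit 5) (nat_lit 87) (nat_lit 5) (nat_lit 84) (nat_lit 5) (nat_lit 358) (nat_lit 283) (nat_lit 259)) (XT.lf (nat_lit 0) (nat_lit 4625598297) (nat_lit 228) (nat_lit 1368964725) (nat_lit 304) (nat_lit 4945779718) (nat_lit 80) (nat_lit 5) (nat_lit 83) (nat_lit 5) (nat_lit 84) (nat_lit 5) (nat_lit 359) (nat_lit 283) (nat_lit 258)))) (XT.nd (nat_lit 156) (nat_lit 456) (nat_lit 0) (XT.nd (nat_lit 78) (nat_lit 76) (nat_lit 0) (XT.lf (nat_lit 0) (nat_lit 954482532) (nat_lit 228) (nat_lit 8843280051) (nat_lit 304) (nat_lit 1329270276) (nat_lit 77) (nat_lit 5) (nat_lit 80) (nat_lit 5) (nat_lit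 81) (nat_lit 4) (nat_lit 360) (nat_lit 283) (nat_lit 257)) (XT.lf (nat_lit 0) (nat_lit 2359319767) (nat_lit 304) (nat_lit 2891588966) (nat_lit 76) (nat_lit 6067441028) (nat_lit 76) (nat_lit 5) (nat_lit 80) (nat_lit 5) (nat_lit 77) (nat_lit 5) (nat_lit 361) (nat_lit 283) (nat_lit 256))) (XT.nd (nat_lit 78) (nat_lit 228) (nat_lit 0) (XT.lf (nat_lit 0) (nat_lit 4578947293) (nat_lit 228) (nat_lit 1531271011) (nat_lit 304) (nat_lit 5405468210) (nat_lit 73) (nat_lit 5) (nat_lit 76) (nat_lit 5) (nat_lit 77) (nat_lit 5) (nat_lit 362) (nat_lit 283) (nat_lit 255)) (XT.lf (nat_lit 0) (nat_lit 496492969) (nat_lit 228) (nat_lit 9468407299) (nat_lit 304) (nat_lit 1754330859) (nat_lit 70) (nat_lit 5) (nat_lit 73) (nat_lit 5) (nat_lit 74) (nat_lit 4) (nat_lit 363) (nat_lit 283) (nat_lit 254))))))) (XT.nd (nat_lit 1014) (nat_lit 1216) (nat_lit 0) (XT.nd (nat_lit 468) (nat_lit 760) (nat_lit 0) (XT.nd (nat_lit 234) (nat_lit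 456) (nat_lit 0) (XT.nd (nat_lit 78) (nat_lit 228) (nat_lit 0) (XT.lf (nat_lit 0) (nat_lit 1988209825) (nat_lit 304) (nat_lit 3772887611) (nat_lit 76) (nat_lit 6166599440) (nat_lit 69) (nat_lit 5) (nat_lit 73) (nat_lit 5) (nat_lit 70) (nat_lit 5) (nat_lit 364) (nat_lit 283) (nat_lit 253)) (XT.nd (nat_lit 78) (nat_lit 0) (nat_lit 0) (XT.lf (nat_lit 0) (nat_lit 3855523381) (nat_lit 228) (nat_lit 1926312492) (nat_lit 304) (nat_lit 6360860842) (nat_lit 66) (nat_lit 5) (nat_lit 69) (nat_lit 5) (nat_lit 70) (nat_lit 5) (nat_lit 365) (nat_lit 283) (nat_lit 252)) (XT.lf (nat_lit 0) (nat_lit 9684680790) (nat_lit 304) (nat_lit 696003118) (nat_lit 76) (nat_lit 1983622949) (nat_lit 66) (nat_lit 5) (nat_lit 70) (nat_lit 5) (nat_lit 67) (nat_lit 4) (nat_lit 366) (nat_lit 283) (nat_lit 251)))) (XT.nd (nat_lit 78) (nat_lit 228) (nat_lit 0) (XT.lf (nat_lit 0) (nat_lit 1117630193) (nat_lit 228) (nat_lit 5459808837) (nat_lit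 76) (nat_lit 6014008363) (nat_lit 63) (nat_lit 5) (nat_lit 66) (nat_lit 5) (nat_lit 64) (nat_lit 5) (nat_lit 367) (nat_lit 283) (nat_lit 250)) (XT.nd (nat_lit 78) (nat_lit 0) (nat_lit 0) (XT.lf (nat_lit 0) (nat_lit 2300953902) (nat_lit 228) (nat_lit 2642711620) (nat_lit 304) (nat_lit 7881899811) (nat_lit 60) (nat_lit 5) (nat_lit 63) (nat_lit 5) (nat_lit 64) (nat_lit 5) (nat_lit 368) (nat_lit 283) (nat_lit 249)) (XT.lf (nat_lit 0) (nat_lit 8893640720) (nat_lit 304) (nat_lit 2773665935) (nat_lit 76) (nat_lit 1399145481) (nat_lit 60) (nat_lit 5) (nat_lit 64) (nat_lit 5) (nat_lit 61) (nat_lit 4) (nat_lit 369) (nat_lit 283) (nat_lit 248))))) (XT.nd (nat_lit 234) (nat_lit 380) (nat_lit 0) (XT.nd (nat_lit 78) (nat_lit 228) (nat_lit 0) (XT.lf (nat_lit 0) (nat_lit 5186823879) (nat_lit 152) (nat_lit 7792990664) (nat_lit 228) (nat_lit 334239523) (nat_lit 58) (nat_lit 5) (nat_lit 60) (nat_lit 5) (nat_lit 61) (nat_lit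 4) (nat_lit 370) (nat_lit 283) (nat_lit 247)) (XT.nd (nat_lit 78) (nat_lit 152) (nat_lit 0) (XT.lf (nat_lit 0) (nat_lit 3518998351) (nat_lit 228) (nat_lit 258574778) (nat_lit 76) (nat_lit 9791381386) (nat_lit 57) (nat_lit 5) (nat_lit 60) (nat_lit 5) (nat_lit 58) (nat_lit 5) (nat_lit 371) (nat_lit 283) (nat_lit 246)) (XT.lf (nat_lit 0) (nat_lit 7504471494) (nat_lit 228) (nat_lit 5933055178) (nat_lit 76) (nat_lit 393193194) (nat_lit 55) (nat_lit 5) (nat_lit 58) (nat_lit 5) (nat_lit 56) (nat_lit 4) (nat_lit 372) (nat_lit 283) (nat_lit 245)))) (XT.nd (nat_lit 156) (nat_lit 152) (nat_lit 0) (XT.nd (nat_lit 78) (nat_lit 76) (nat_lit 0) (XT.lf (nat_lit 0) (nat_lit 2111643649) (nat_lit 152) (nat_lit 9502112152) (nat_lit 228) (nat_lit 2486472299) (nat_lit 53) (nat_lit 5) (nat_lit 55) (nat_lit 5) (nat_lit 56) (nat_lit 4) (nat_lit 373) (nat_lit 283) (nat_lit 244)) (XT.lf (nat_lit 0) (nat_lit 1444414156) (nat_lit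 228) (nat_lit 3967385437) (nat_lit 76) (nat_lit 8965477656) (nat_lit 52) (nat_lit 5) (nat_lit 55) (nat_lit 5) (nat_lit 53) (nat_lit 5) (nat_lit 374) (nat_lit 283) (nat_lit 243))) (XT.nd (nat_lit 78) (nat_lit 0) (nat_lit 0) (XT.lf (nat_lit 0) (nat_lit 4259792579) (nat_lit 152) (nat_lit 1170103184) (nat_lit 228) (nat_lit 9232420086) (nat_lit 50) (nat_lit 5) (nat_lit 52) (nat_lit 5) (nat_lit 53) (nat_lit 5) (nat_lit 375) (nat_lit 283) (nat_lit 242)) (XT.lf (nat_lit 0) (nat_lit 9552170467) (nat_lit 228) (nat_lit 2264237378) (nat_lit 76) (nat_lit 3138996301) (nat_lit 50) (nat_lit 5) (nat_lit 53) (nat_lit 5) (nat_lit 51) (nat_lit 4) (nat_lit 376) (nat_lit 283) (nat_lit 241)))))) (XT.nd (nat_lit 546) (nat_lit 456) (nat_lit 0) (XT.nd (nat_lit 234) (nat_lit 380) (nat_lit 0) (XT.nd (nat_lit 78) (nat_lit 228) (nat_lit 0) (XT.lf (nat_lit 0) (nat_lit 6135560948) (nat_lit 152) (nat_lit 7680708570) (nat_lit 228) (nat_lit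 1440485838) (nat_lit 48) (nat_lit 5) (nat_lit 50) (nat_lit 5) (nat_lit 51) (nat_lit 4) (nat_lit 377) (nat_lit 283) (nat_lit 240)) (XT.nd (nat_lit 78) (nat_lit 152) (nat_lit 0) (XT.lf (nat_lit 0) (nat_lit 2560424918) (nat_lit 228) (nat_lit 849250262) (nat_lit 76) (nat_lit 12157599803) (nat_lit 47) (nat_lit 5) (nat_lit 50) (nat_lit 5) (nat_lit 48) (nat_lit 5) (nat_lit 378) (nat_lit 283) (nat_lit 239)) (XT.lf (nat_lit 0) (nat_lit 6685886649) (nat_lit 228) (nat_lit 8177098631) (nat_lit 76) (nat_lit 1022706453) (nat_lit 45) (nat_lit 5) (nat_lit 48) (nat_lit 5) (nat_lit 46) (nat_lit 4) (nat_lit 379) (nat_lit 283) (nat_lit 238)))) (XT.nd (nat_lit 156) (nat_lit 228) (nat_lit 0) (XT.nd (nat_lit 78) (nat_lit 0) (nat_lit 0) (XT.lf (nat_lit 0) (nat_lit 208821863) (nat_lit 152) (nat_lit 10720247020) (nat_lit 228) (nat_lit 5284786683) (nat_lit 43) (nat_lit 5) (nat_lit 45) (nat_lit 5) (nat_lit 46) (nat_lit 4) (nat_lit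 380) (nat_lit 283) (nat_lit 237)) (XT.lf (nat_lit 0) (nat_lit 8926225178) (nat_lit 152) (nat_lit 6406050389) (nat_lit 228) (nat_lit 1218619773) (nat_lit 43) (nat_lit 5) (nat_lit 45) (nat_lit 5) (nat_lit 46) (nat_lit 4) (nat_lit 381) (nat_lit 283) (nat_lit 236))) (XT.nd (nat_lit 78) (nat_lit 0) (nat_lit 0) (XT.lf (nat_lit 0) (nat_lit 910172613) (nat_lit 152) (nat_lit 1961279072) (nat_lit 228) (nat_lit 14026954454) (nat_lit 40) (nat_lit 5) (nat_lit 42) (nat_lit 5) (nat_lit 43) (nat_lit 5) (nat_lit 382) (nat_lit 283) (nat_lit 235)) (XT.lf (nat_lit 0) (nat_lit 7114007984) (nat_lit 228) (nat_lit 7521063152) (nat_lit 76) (nat_lit 2619292689) (nat_lit 40) (nat_lit 5) (nat_lit 43) (nat_lit 5) (nat_lit 41) (nat_lit 4) (nat_lit 383) (nat_lit 283) (nat_lit 234))))) (XT.nd (nat_lit 234) (nat_lit 152) (nat_lit 0) (XT.nd (nat_lit 78) (nat_lit 228) (nat_lit 0) (XT.lf (nat_lit 0) (nat_lit 1118642009) (nat_lit 76) (nat_lit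 10348151789) (nat_lit 152) (nat_lit 6154729313) (nat_lit 39) (nat_lit 5) (nat_lit 40) (nat_lit 5) (nat_lit 41) (nat_lit 4) (nat_lit 384) (nat_lit 283) (nat_lit 233)) (XT.nd (nat_lit 78) (nat_lit 228) (nat_lit 0) (XT.lf (nat_lit 0) (nat_lit 10088644747) (nat_lit 76) (nat_lit 5890824389) (nat_lit 152) (nat_lit 2019359987) (nat_lit 39) (nat_lit 5) (nat_lit 40) (nat_lit 5) (nat_lit 41) (nat_lit 4) (nat_lit 385) (nat_lit 283) (nat_lit 232)) (XT.lf (nat_lit 0) (nat_lit 853852674) (nat_lit 152) (nat_lit 1304971180) (nat_lit 228) (nat_lit 16229120999) (nat_lit 36) (nat_lit 5) (nat_lit 38) (nat_lit 5) (nat_lit 39) (nat_lit 5) (nat_lit 386) (nat_lit 283) (nat_lit 231)))) (XT.nd (nat_lit 156) (nat_lit 152) (nat_lit 0) (XT.nd (nat_lit 78) (nat_lit 0) (nat_lit 0) (XT.lf (nat_lit 0) (nat_lit 6489765971) (nat_lit 228) (nat_lit 8878814130) (nat_lit 76) (nat_lit 3417524325) (nat_lit 36) (nat_lit 5) (nat_lit 39) (nat_lit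 5) (nat_lit 37) (nat_lit 4) (nat_lit 387) (nat_lit 283) (nat_lit 230)) (XT.lf (nat_lit 0) (nat_lit 10919354309) (nat_lit 228) (nat_lit 56209337) (nat_lit 76) (nat_lit 8221593486) (nat_lit 36) (nat_lit 5) (nat_lit 39) (nat_lit 5) (nat_lit 37) (nat_lit 4) (nat_lit 388) (nat_lit 283) (nat_lit 229))) (XT.nd (nat_lit 78) (nat_lit 76) (nat_lit 0) (XT.lf (nat_lit 0) (nat_lit 9132177122) (nat_lit 76) (nat_lit 6394522151) (nat_lit 152) (nat_lit 4092505671) (nat_lit 35) (nat_lit 5) (nat_lit 36) (nat_lit 5) (nat_lit 37) (nat_lit 4) (nat_lit 389) (nat_lit 283) (nat_lit 228)) (XT.lf (nat_lit 0) (nat_lit 171834899) (nat_lit 152) (nat_lit 1535837973) (nat_lit 76) (nat_lit 18347455035) (nat_lit 34) (nat_lit 5) (nat_lit 36) (nat_lit 5) (nat_lit 35) (nat_lit 5) (nat_lit 390) (nat_lit 283) (nat_lit 227))))))))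
noncomputable def xc64 : XT := (XT.nd (nat_lit 2028) (nat_lit 608) (nat_lit 0) (XT.nd (nat_lit 1014) (nat_lit 456) (nat_lit 0) (XT.nd (nat_lit 468) (nat_lit 380) (nat_lit 0) (XT.nd (nat_lit 234) (nat_lit 228) (nat_lit 0) (XT.nd (nat_lit 78) (nat_lit 76) (nat_lit 0) (XT.lf (nat_lit 0) (nat_lit 4545274275) (nat_lit 228) (nat_lit 12813708505) (nat_lit 76) (nat_lit 3142036249) (nat_lit 32) (nat_lit 5) (nat_lit 35) (nat_lit 5) (nat_lit 33) (nat_lit 4) (nat_lit 391) (nat_lit 283) (nat_lit 226)) (XT.nd (nat_lit 78) (nat_lit 76) (nat_lit 0) (XT.lf (nat_lit 0) (nat_lit 9041085585) (nat_lit 228) (nat_lit 3833388827) (nat_lit 76) (nat_lit 8086085934) (nat_lit 32) (nat_lit 5) (nat_lit 35) (nat_lit 5) (nat_lit 33) (nat_lit 4) (nat_lit 392) (nat_lit 283) (nat_lit 225)) (XT.lf (nat_lit 0) (nat_lit 5449730273) (nat_lit 76) (nat_lit 8234231564) (nat_lit 152) (nat_lit 7749568624) (nat_lit 31) (nat_lit 5) (nat_lit 32) (nat_lit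 5) (nat_lit 33) (nat_lit 4) (nat_lit 393) (nat_lit 283) (nat_lit 224)))) (XT.nd (nat_lit 78) (nat_lit 228) (nat_lit 0) (XT.lf (nat_lit 0) (nat_lit 15017684860) (nat_lit 76) (nat_lit 3447430028) (nat_lit 152) (nat_lit 3455613112) (nat_lit 31) (nat_lit 5) (nat_lit 32) (nat_lit 5) (nat_lit 33) (nat_lit 4) (nat_lit 394) (nat_lit 283) (nat_lit 223)) (XT.nd (nat_lit 78) (nat_lit 0) (nat_lit 0) (XT.lf (nat_lit 0) (nat_lit 946841104) (nat_lit 228) (nat_lit 20019923513) (nat_lit 76) (nat_lit 1455548929) (nat_lit 28) (nat_lit 5) (nat_lit 31) (nat_lit 5) (nat_lit 29) (nat_lit 4) (nat_lit 395) (nat_lit 283) (nat_lit 222)) (XT.lf (nat_lit 0) (nat_lit 5477647594) (nat_lit 228) (nat_lit 10948480147) (nat_lit 76) (nat_lit 6509827861) (nat_lit 28) (nat_lit 5) (nat_lit 31) (nat_lit 5) (nat_lit 29) (nat_lit 4) (nat_lit 396) (nat_lit 283) (nat_lit 221))))) (XT.nd (nat_lit 234) (nat_lit 304) (nat_lit 0) (XT.nd (nat_lit 78)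 (nat_lit 76) (nat_lit 0) (XT.lf (nat_lit 0) (nat_lit 10106711003) (nat_lit 228) (nat_lit 1673902597) (nat_lit 76) (nat_lit 11685530476) (nat_lit 28) (nat_lit 5) (nat_lit 31) (nat_lit 5) (nat_lit 29) (nat_lit 4) (nat_lit 397) (nat_lit 283) (nat_lit 220)) (XT.nd (nat_lit 78) (nat_lit 0) (nat_lit 0) (XT.lf (nat_lit 0) (nat_lit 7967385523) (nat_lit 76) (nat_lit 6947278006) (nat_lit 152) (nat_lit 9096381092) (nat_lit 27) (nat_lit 5) (nat_lit 28) (nat_lit 5) (nat_lit 29) (nat_lit 4) (nat_lit 398) (nat_lit 283) (nat_lit 219)) (XT.lf (nat_lit 0) (nat_lit 17865883359) (nat_lit 76) (nat_lit 1981731663) (nat_lit 152) (nat_lit 4725261076) (nat_lit 27) (nat_lit 5) (nat_lit 28) (nat_lit 5) (nat_lit 29) (nat_lit 4) (nat_lit 399) (nat_lit 283) (nat_lit 218)))) (XT.nd (nat_lit 156) (nat_lit 76) (nat_lit 0) (XT.nd (nat_lit 78) (nat_lit 76) (nat_lit 0) (XT.lf (nat_lit 0) (nat_lit 2870485529) (nat_lit 152) (nat_lit 22080404721)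 (nat_lit 152) (nat_lit 200008749) (nat_lit 25) (nat_lit 4) (nat_lit 27) (nat_lit 5) (nat_lit 27) (nat_lit 4) (nat_lit 400) (nat_lit 283) (nat_lit 217)) (XT.lf (nat_lit 0) (nat_lit 4426655608) (nat_lit 228) (nat_lit 12999886665) (nat_lit 76) (nat_lit 8316858876) (nat_lit 24) (nat_lit 5) (nat_lit 27) (nat_lit 5) (nat_lit 25) (nat_lit 4) (nat_lit 401) (nat_lit 283) (nat_lit 216))) (XT.nd (nat_lit 78) (nat_lit 76) (nat_lit 0) (XT.lf (nat_lit 0) (nat_lit 9153814006) (nat_lit 228) (nat_lit 3506280921) (nat_lit 76) (nat_lit 13694558585) (nat_lit 24) (nat_lit 5) (nat_lit 27) (nat_lit 5) (nat_lit 25) (nat_lit 4) (nat_lit 402) (nat_lit 283) (nat_lit 215)) (XT.lf (nat_lit 0) (nat_lit 6334225302) (nat_lit 76) (nat_lit 7716163009) (nat_lit 152) (nat_lit 12933032906) (nat_lit 23) (nat_lit 5) (nat_lit 24) (nat_lit 5) (nat_lit 25) (nat_lit 4) (nat_lit 403) (nat_lit 283) (nat_lit 214)))))) (XT.nd (nat_lit 468) (nat_lit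 228) (nat_lit 0) (XT.nd (nat_lit 234) (nat_lit 76) (nat_lit 0) (XT.nd (nat_lit 78) (nat_lit 152) (nat_lit 0) (XT.lf (nat_lit 0) (nat_lit 16480913843) (nat_lit 76) (nat_lit 2615449317) (nat_lit 152) (nat_lit 8534619328) (nat_lit 23) (nat_lit 5) (nat_lit 24) (nat_lit 5) (nat_lit 25) (nat_lit 4) (nat_lit 404) (nat_lit 283) (nat_lit 213)) (XT.nd (nat_lit 78) (nat_lit 152) (nat_lit 0) (XT.lf (nat_lit 0) (nat_lit 24286871812) (nat_lit 152) (nat_lit 1451165002) (nat_lit 0) (nat_lit 2560144619) (nat_lit 23) (nat_lit 5) (nat_lit 25) (nat_lit 4) (nat_lit 23) (nat_lit 4) (nat_lit 405) (nat_lit 283) (nat_lit 212)) (XT.lf (nat_lit 0) (nat_lit 713339410) (nat_lit 152) (nat_lit 20367087848) (nat_lit 76) (nat_lit 7902439095) (nat_lit 21) (nat_lit 5) (nat_lit 23) (nat_lit 5) (nat_lit 22) (nat_lit 4) (nat_lit 406) (nat_lit 283) (nat_lit 211)))) (XT.nd (nat_lit 78) (nat_lit 76) (nat_lit 0) (XT.lf (nat_lit 0) (nat_lit 5482682023)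 (nat_lit 152) (nat_lit 10771186090) (nat_lit 76) (nat_lit 13433529913) (nat_lit 21) (nat_lit 5) (nat_lit 23) (nat_lit 5) (nat_lit 22) (nat_lit 4) (nat_lit 407) (nat_lit 283) (nat_lit 210)) (XT.nd (nat_lit 78) (nat_lit 76) (nat_lit 0) (XT.lf (nat_lit 0) (nat_lit 10364792731) (nat_lit 152) (nat_lit 943864214) (nat_lit 76) (nat_lit 19105322931) (nat_lit 21) (nat_lit 5) (nat_lit 23) (nat_lit 5) (nat_lit 22) (nat_lit 4) (nat_lit 408) (nat_lit 283) (nat_lit 209)) (XT.lf (nat_lit 0) (nat_lit 9305039599) (nat_lit 76) (nat_lit 6148343590) (nat_lit 152) (nat_lit 15707180220) (nat_lit 20) (nat_lit 5) (nat_lit 21) (nat_lit 5) (nat_lit 22) (nat_lit 4) (nat_lit 409) (nat_lit 283) (nat_lit 208))))) (XT.nd (nat_lit 234) (nat_lit 152) (nat_lit 0) (XT.nd (nat_lit 78) (nat_lit 76) (nat_lit 0) (XT.lf (nat_lit 0) (nat_lit 19826483639) (nat_lit 76) (nat_lit 848585034) (nat_lit 152) (nat_lit 11255067238) (nat_lit 20) (nat_lit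 5) (nat_lit 21) (nat_lit 5) (nat_lit 22) (nat_lit 4) (nat_lit 410) (nat_lit 283) (nat_lit 207)) (XT.nd (nat_lit 78) (nat_lit 76) (nat_lit 0) (XT.lf (nat_lit 0) (nat_lit 26069238980) (nat_lit 152) (nat_lit 2156851510) (nat_lit 0) (nat_lit 4496234519) (nat_lit 20) (nat_lit 5) (nat_lit 22) (nat_lit 4) (nat_lit 20) (nat_lit 4) (nat_lit 411) (nat_lit 283) (nat_lit 206)) (XT.lf (nat_lit 0) (nat_lit 8187969793) (nat_lit 76) (nat_lit 23496722287) (nat_lit 76) (nat_lit 1851808290) (nat_lit 19) (nat_lit 4) (nat_lit 20) (nat_lit 5) (nat_lit 20) (nat_lit 4) (nat_lit 412) (nat_lit 283) (nat_lit 205)))) (XT.nd (nat_lit 156) (nat_lit 76) (nat_lit 0) (XT.nd (nat_lit 78) (nat_lit 0) (nat_lit 0) (XT.lf (nat_lit 0) (nat_lit 3027523937) (nat_lit 152) (nat_lit 15568855487) (nat_lit 76) (nat_lit 15778002089) (nat_lit 18) (nat_lit 5) (nat_lit 20) (nat_lit 5) (nat_lit 19) (nat_lit 4) (nat_lit 413) (nat_lit 283) (nat_lit 204))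 (XT.lf (nat_lit 0) (nat_lit 7989206930) (nat_lit 152) (nat_lit 5564420646) (nat_lit 76) (nat_lit 21684029716) (nat_lit 18) (nat_lit 5) (nat_lit 20) (nat_lit 5) (nat_lit 19) (nat_lit 4) (nat_lit 414) (nat_lit 283) (nat_lit 203))) (XT.nd (nat_lit 78) (nat_lit 0) (nat_lit 0) (XT.lf (nat_lit 0) (nat_lit 4784682794) (nat_lit 76) (nat_lit 8335022093) (nat_lit 152) (nat_lit 23006531361) (nat_lit 17) (nat_lit 5) (nat_lit 18) (nat_lit 5) (nat_lit 19) (nat_lit 4) (nat_lit 415) (nat_lit 283) (nat_lit 202)) (XT.lf (nat_lit 0) (nat_lit 15509972398) (nat_lit 76) (nat_lit 2924599630) (nat_lit 152) (nat_lit 18605990644) (nat_lit 17) (nat_lit 5) (nat_lit 18) (nat_lit 5) (nat_lit 19) (nat_lit 4) (nat_lit 416) (nat_lit 283) (nat_lit 201))))))) (XT.nd (nat_lit 1014) (nat_lit 228) (nat_lit 0) (XT.nd (nat_lit 468) (nat_lit 152) (nat_lit 0) (XT.nd (nat_lit 234) (nat_lit 152) (nat_lit 0) (XT.nd (nat_lit 78) (nat_lit 76) (nat_lit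 0) (XT.lf (nat_lit 0) (nat_lit 23909143694) (nat_lit 152) (nat_lit 11498239612) (nat_lit 0) (nat_lit 2574931444) (nat_lit 17) (nat_lit 5) (nat_lit 19) (nat_lit 4) (nat_lit 17) (nat_lit 4) (nat_lit 417) (nat_lit 283) (nat_lit 200)) (XT.nd (nat_lit 78) (nat_lit 76) (nat_lit 0) (XT.lf (nat_lit 0) (nat_lit 29552445846) (nat_lit 152) (nat_lit 1239977694) (nat_lit 0) (nat_lit 8159764563) (nat_lit 17) (nat_lit 5) (nat_lit 19) (nat_lit 4) (nat_lit 17) (nat_lit 4) (nat_lit 418) (nat_lit 283) (nat_lit 199)) (XT.lf (nat_lit 0) (nat_lit 9465987563) (nat_lit 76) (nat_lit 25966301785) (nat_lit 76) (nat_lit 4516854449) (nat_lit 16) (nat_lit 4) (nat_lit 17) (nat_lit 5) (nat_lit 17) (nat_lit 4) (nat_lit 419) (nat_lit 283) (nat_lit 198)))) (XT.nd (nat_lit 78) (nat_lit 76) (nat_lit 0) (XT.lf (nat_lit 0) (nat_lit 491443572) (nat_lit 152) (nat_lit 20506929554) (nat_lit 76) (nat_lit 19977822710) (nat_lit 15) (nat_lit 5) (nat_lit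 17) (nat_lit 5) (nat_lit 16) (nat_lit 4) (nat_lit 420) (nat_lit 283) (nat_lit 197)) (XT.nd (nat_lit 78) (nat_lit 76) (nat_lit 0) (XT.lf (nat_lit 0) (nat_lit 5536176500) (nat_lit 152) (nat_lit 10319629159) (nat_lit 76) (nat_lit 26177606151) (nat_lit 15) (nat_lit 5) (nat_lit 17) (nat_lit 5) (nat_lit 16) (nat_lit 4) (nat_lit 421) (nat_lit 283) (nat_lit 196)) (XT.lf (nat_lit 0) (nat_lit 133673698) (nat_lit 76) (nat_lit 10577503706) (nat_lit 152) (nat_lit 32411802108) (nat_lit 14) (nat_lit 5) (nat_lit 15) (nat_lit 5) (nat_lit 16) (nat_lit 4) (nat_lit 422) (nat_lit 283) (nat_lit 195))))) (XT.nd (nat_lit 234) (nat_lit 152) (nat_lit 0) (XT.nd (nat_lit 78) (nat_lit 0) (nat_lit 0) (XT.lf (nat_lit 0) (nat_lit 11070306888) (nat_lit 76) (nat_lit 5053219823) (nat_lit 152) (nat_lit 28119247525) (nat_lit 14) (nat_lit 5) (nat_lit 15) (nat_lit 5) (nat_lit 16) (nat_lit 4) (nat_lit 423) (nat_lit 283) (nat_lit 194)) (XT.nd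 (nat_lit 78) (nat_lit 0) (nat_lit 0) (XT.lf (nat_lit 0) (nat_lit 21682718195) (nat_lit 152) (nat_lit 23108301165) (nat_lit 0) (nat_lit 605612145) (nat_lit 14) (nat_lit 5) (nat_lit 16) (nat_lit 4) (nat_lit 14) (nat_lit 4) (nat_lit 424) (nat_lit 283) (nat_lit 193)) (XT.lf (nat_lit 0) (nat_lit 27437698331) (nat_lit 152) (nat_lit 12832102261) (nat_lit 0) (nat_lit 6314436287) (nat_lit 14) (nat_lit 5) (nat_lit 16) (nat_lit 4) (nat_lit 14) (nat_lit 4) (nat_lit 425) (nat_lit 283) (nat_lit 192)))) (XT.nd (nat_lit 156) (nat_lit 76) (nat_lit 0) (XT.nd (nat_lit 78) (nat_lit 76) (nat_lit 0) (XT.lf (nat_lit 0) (nat_lit 33344921102) (nat_lit 152) (nat_lit 2286316794) (nat_lit 0) (nat_lit 12176847412) (nat_lit 14) (nat_lit 5) (nat_lit 16) (nat_lit 4) (nat_lit 14) (nat_lit 4) (nat_lit 426) (nat_lit 283) (nat_lit 191)) (XT.lf (nat_lit 0) (nat_lit 8708198315) (nat_lit 76) (nat_lit 30785058373) (nat_lit 76) (nat_lit 9573478231)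 (nat_lit 13) (nat_lit 4) (nat_lit 14) (nat_lit 5) (nat_lit 14) (nat_lit 4) (nat_lit 427) (nat_lit 283) (nat_lit 190))) (XT.nd (nat_lit 78) (nat_lit 76) (nat_lit 0) (XT.lf (nat_lit 0) (nat_lit 20042212250) (nat_lit 76) (nat_lit 25787324446) (nat_lit 76) (nat_lit 4533505030) (nat_lit 13) (nat_lit 4) (nat_lit 14) (nat_lit 5) (nat_lit 14) (nat_lit 4) (nat_lit 428) (nat_lit 283) (nat_lit 189)) (XT.lf (nat_lit 0) (nat_lit 625620857) (nat_lit 152) (nat_lit 20024818078) (nat_lit 76) (nat_lit 31048187928) (nat_lit 12) (nat_lit 5) (nat_lit 14) (nat_lit 5) (nat_lit 13) (nat_lit 4) (nat_lit 429) (nat_lit 283) (nat_lit 188)))))) (XT.nd (nat_lit 468) (nat_lit 152) (nat_lit 0) (XT.nd (nat_lit 234) (nat_lit 0) (nat_lit 0) (XT.nd (nat_lit 78) (nat_lit 76) (nat_lit 0) (XT.lf (nat_lit 0) (nat_lit 5829748114) (nat_lit 152) (nat_lit 9500254314) (nat_lit 76) (nat_lit 37743492467) (nat_lit 12) (nat_lit 5) (nat_lit 14) (nat_lit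 5) (nat_lit 13) (nat_lit 4) (nat_lit 430) (nat_lit 283) (nat_lit 187)) (XT.nd (nat_lit 78) (nat_lit 0) (nat_lit 0) (XT.lf (nat_lit 0) (nat_lit 1331621592) (nat_lit 76) (nat_lit 9853067815) (nat_lit 152) (nat_lit 43305081107) (nat_lit 11) (nat_lit 5) (nat_lit 12) (nat_lit 5) (nat_lit 13) (nat_lit 4) (nat_lit 431) (nat_lit 283) (nat_lit 186)) (XT.lf (nat_lit 0) (nat_lit 12649127521) (nat_lit 76) (nat_lit 4129175175) (nat_lit 152) (nat_lit 39167893182) (nat_lit 11) (nat_lit 5) (nat_lit 12) (nat_lit 5) (nat_lit 13) (nat_lit 4) (nat_lit 432) (nat_lit 283) (nat_lit 185)))) (XT.nd (nat_lit 78) (nat_lit 0) (nat_lit 0) (XT.lf (nat_lit 0) (nat_lit 22539165069) (nat_lit 152) (nat_lit 33190588131) (nat_lit 0) (nat_lit 1716579708) (nat_lit 11) (nat_lit 5) (nat_lit 13) (nat_lit 4) (nat_lit 11) (nat_lit 4) (nat_lit 433) (nat_lit 283) (nat_lit 184)) (XT.nd (nat_lit 78) (nat_lit 0) (nat_lit 0) (XT.lf (nat_lit 0) (nat_lit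 28496707728) (nat_lit 152) (nat_lit 22854274780) (nat_lit 0) (nat_lit 7639777972) (nat_lit 11) (nat_lit 5) (nat_lit 13) (nat_lit 4) (nat_lit 11) (nat_lit 4) (nat_lit 434) (nat_lit 283) (nat_lit 183)) (XT.lf (nat_lit 0) (nat_lit 34616444135) (nat_lit 152) (nat_lit 12239404414) (nat_lit 0) (nat_lit 13726170306) (nat_lit 11) (nat_lit 5) (nat_lit 13) (nat_lit 4) (nat_lit 11) (nat_lit 4) (nat_lit 435) (nat_lit 283) (nat_lit 182))))) (XT.nd (nat_lit 234) (nat_lit 76) (nat_lit 0) (XT.nd (nat_lit 78) (nat_lit 76) (nat_lit 0) (XT.lf (nat_lit 0) (nat_lit 40903721634) (nat_lit 152) (nat_lit 1336701906) (nat_lit 0) (nat_lit 19981074919) (nat_lit 11) (nat_lit 5) (nat_lit 13) (nat_lit 4) (nat_lit 11) (nat_lit 4) (nat_lit 436) (nat_lit 283) (nat_lit 181)) (XT.nd (nat_lit 78) (nat_lit 0) (nat_lit 0) (XT.lf (nat_lit 0) (nat_lit 10059659569) (nat_lit 76) (nat_lit 37401073993) (nat_lit 76) (nat_lit 16446997292) (nat_lit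 10) (nat_lit 4) (nat_lit 11) (nat_lit 5) (nat_lit 11) (nat_lit 4) (nat_lit 437) (nat_lit 283) (nat_lit 180)) (XT.lf (nat_lit 0) (nat_lit 21795882065) (nat_lit 76) (nat_lit 32416659338) (nat_lit 76) (nat_lit 11432068086) (nat_lit 10) (nat_lit 4) (nat_lit 11) (nat_lit 5) (nat_lit 11) (nat_lit 4) (nat_lit 438) (nat_lit 283) (nat_lit 179)))) (XT.nd (nat_lit 156) (nat_lit 76) (nat_lit 0) (XT.nd (nat_lit 78) (nat_lit 0) (nat_lit 0) (XT.lf (nat_lit 0) (nat_lit 33855617542) (nat_lit 76) (nat_lit 27296322328) (nat_lit 76) (nat_lit 6282105300) (nat_lit 10) (nat_lit 4) (nat_lit 11) (nat_lit 5) (nat_lit 11) (nat_lit 4) (nat_lit 439) (nat_lit 283) (nat_lit 178)) (XT.lf (nat_lit 0) (nat_lit 46249403634) (nat_lit 76) (nat_lit 22035588883) (nat_lit 76) (nat_lit 992608965) (nat_lit 10) (nat_lit 4) (nat_lit 11) (nat_lit 5) (nat_lit 11) (nat_lit 4) (nat_lit 440) (nat_lit 283) (nat_lit 177))) (XT.nd (nat_lit 78) (nat_lit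 0) (nat_lit 0) (XT.lf (nat_lit 0) (nat_lit 4354382066) (nat_lit 152) (nat_lit 12231509458) (nat_lit 76) (nat_lit 54589717075) (nat_lit 9) (nat_lit 5) (nat_lit 11) (nat_lit 5) (nat_lit 10) (nat_lit 4) (nat_lit 441) (nat_lit 283) (nat_lit 176)) (XT.lf (nat_lit 0) (nat_lit 9828001372) (nat_lit 152) (nat_lit 1147174050) (nat_lit 76) (nat_lit 62155502185) (nat_lit 9) (nat_lit 5) (nat_lit 11) (nat_lit 5) (nat_lit 10) (nat_lit 4) (nat_lit 442) (nat_lit 283) (nat_lit 175))))))))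
noncomputable def xc65 : XT := (XT.nd (nat_lit 39780) (nat_lit 0) (nat_lit 2964) (XT.nd (nat_lit 38766) (nat_lit 0) (nat_lit 7296) (XT.nd (nat_lit 38220) (nat_lit 0) (nat_lit 10944) (XT.nd (nat_lit 234) (nat_lit 0) (nat_lit 0) (XT.nd (nat_lit 78) (nat_lit 0) (nat_lit 0) (XT.lf (nat_lit 0) (nat_lit 10447911670) (nat_lit 76) (nat_lit 5104921150) (nat_lit 152) (nat_lit 59588957294) (nat_lit 8) (nat_lit 5) (nat_lit 9) (nat_lit 5) (nat_lit 10) (nat_lit 4) (nat_lit 443) (nat_lit 283) (nat_lit 174)) (XT.nd (nat_lit 78) (nat_lit 0) (nat_lit 0) (XT.lf (nat_lit 0) (nat_lit 21456760035) (nat_lit 152) (nat_lit 54833374961) (nat_lit 0) (nat_lit 922881965) (nat_lit 8) (nat_lit 5) (nat_lit 10) (nat_lit 4) (nat_lit 8) (nat_lit 4) (nat_lit 444) (nat_lit 283) (nat_lit 173)) (XT.lf (nat_lit 0) (nat_lit 27575341280) (nat_lit 152) (nat_lit 44752539951) (nat_lit 0) (nat_lit 7017374743) (nat_lit 8) (nat_lit 5) (nat_lit 10) (nat_lit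 4) (nat_lit 8) (nat_lit 4) (nat_lit 445) (nat_lit 283) (nat_lit 172)))) (XT.nd (nat_lit 78) (nat_lit 0) (nat_lit 0) (XT.lf (nat_lit 0) (nat_lit 33864851265) (nat_lit 152) (nat_lit 34393493292) (nat_lit 0) (nat_lit 13283497867) (nat_lit 8) (nat_lit 5) (nat_lit 10) (nat_lit 4) (nat_lit 8) (nat_lit 4) (nat_lit 446) (nat_lit 283) (nat_lit 171)) (XT.nd (nat_lit 78) (nat_lit 0) (nat_lit 0) (XT.lf (nat_lit 0) (nat_lit 40330785678) (nat_lit 152) (nat_lit 23747183390) (nat_lit 0) (nat_lit 19726726589) (nat_lit 8) (nat_lit 5) (nat_lit 10) (nat_lit 4) (nat_lit 8) (nat_lit 4) (nat_lit 447) (nat_lit 283) (nat_lit 170)) (XT.lf (nat_lit 0) (nat_lit 46978794365) (nat_lit 152) (nat_lit 12804307644) (nat_lit 0) (nat_lit 26352690915) (nat_lit 8) (nat_lit 5) (nat_lit 10) (nat_lit 4) (nat_lit 8) (nat_lit 4) (nat_lit 448) (nat_lit 283) (nat_lit 169))))) (XT.nd (nat_lit 234) (nat_lit 1520) (nat_lit 0) (XT.nd (nat_lit 78) (nat_lit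 1140) (nat_lit 0) (XT.lf (nat_lit 0) (nat_lit 3638302943) (nat_lit 608) (nat_lit 80158209) (nat_lit 608) (nat_lit 80158209) (nat_lit 187) (nat_lit 4) (nat_lit 195) (nat_lit 5) (nat_lit 195) (nat_lit 4) (nat_lit 332) (nat_lit 284) (nat_lit 284)) (XT.nd (nat_lit 78) (nat_lit 532) (nat_lit 0) (XT.lf (nat_lit 0) (nat_lit 3362249107) (nat_lit 608) (nat_lit 2330108485) (nat_lit 0) (nat_lit 1980246195) (nat_lit 179) (nat_lit 5) (nat_lit 187) (nat_lit 4) (nat_lit 179) (nat_lit 4) (nat_lit 333) (nat_lit 284) (nat_lit 283)) (XT.lf (nat_lit 0) (nat_lit 3382122986) (nat_lit 532) (nat_lit 3546821429) (nat_lit 532) (nat_lit 823068117) (nat_lit 172) (nat_lit 4) (nat_lit 179) (nat_lit 5) (nat_lit 179) (nat_lit 4) (nat_lit 334) (nat_lit 284) (nat_lit 282)))) (XT.nd (nat_lit 156) (nat_lit 988) (nat_lit 0) (XT.nd (nat_lit 78) (nat_lit 0) (nat_lit 0) (XT.lf (nat_lit 0) (nat_lit 1366722398) (nat_lit 456) (nat_lit 1289999770)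 (nat_lit 532) (nat_lit 5178101416) (nat_lit 165) (nat_lit 5) (nat_lit 171) (nat_lit 5) (nat_lit 172) (nat_lit 4) (nat_lit 335) (nat_lit 284) (nat_lit 281)) (XT.lf (nat_lit 0) (nat_lit 6185389852) (nat_lit 532) (nat_lit 687378569) (nat_lit 0) (nat_lit 1048349034) (nat_lit 165) (nat_lit 5) (nat_lit 172) (nat_lit 4) (nat_lit 165) (nat_lit 4) (nat_lit 336) (nat_lit 284) (nat_lit 280))) (XT.nd (nat_lit 78) (nat_lit 456) (nat_lit 0) (XT.lf (nat_lit 0) (nat_lit 1746683602) (nat_lit 532) (nat_lit 2783400957) (nat_lit 76) (nat_lit 3480300641) (nat_lit 158) (nat_lit 5) (nat_lit 165) (nat_lit 5) (nat_lit 159) (nat_lit 4) (nat_lit 337) (nat_lit 284) (nat_lit 279)) (XT.lf (nat_lit 0) (nat_lit 3162729228) (nat_lit 456) (nat_lit 2083233126) (nat_lit 532) (nat_lit 2857502112) (nat_lit 152) (nat_lit 5) (nat_lit 158) (nat_lit 5) (nat_lit 159) (nat_lit 4) (nat_lit 338) (nat_lit 284) (nat_lit 278)))))) (XT.nd (nat_lit 468)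 (nat_lit 1824) (nat_lit 0) (XT.nd (nat_lit 234) (nat_lit 912) (nat_lit 0) (XT.nd (nat_lit 78) (nat_lit 380) (nat_lit 0) (XT.lf (nat_lit 0) (nat_lit 591525382) (nat_lit 532) (nat_lit 7158688123) (nat_lit 76) (nat_lit 450398235) (nat_lit 145) (nat_lit 5) (nat_lit 152) (nat_lit 5) (nat_lit 146) (nat_lit 4) (nat_lit 339) (nat_lit 284) (nat_lit 277)) (XT.nd (nat_lit 78) (nat_lit 380) (nat_lit 0) (XT.lf (nat_lit 0) (nat_lit 4069383174) (nat_lit 532) (nat_lit 1157826961) (nat_lit 76) (nat_lit 3073192533) (nat_lit 145) (nat_lit 5) (nat_lit 152) (nat_lit 5) (nat_lit 146) (nat_lit 4) (nat_lit 340) (nat_lit 284) (nat_lit 276)) (XT.lf (nat_lit 0) (nat_lit 5009571516) (nat_lit 380) (nat_lit 2604510394) (nat_lit 456) (nat_lit 790290231) (nat_lit 140) (nat_lit 5) (nat_lit 145) (nat_lit 5) (nat_lit 146) (nat_lit 4) (nat_lit 341) (nat_lit 284) (nat_lit 275)))) (XT.nd (nat_lit 78) (nat_lit 456) (nat_lit 0) (XT.lf (nat_lit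 0) (nat_lit 2654772601) (nat_lit 456) (nat_lit 5722853435) (nat_lit 76) (nat_lit 134451729) (nat_lit 134) (nat_lit 5) (nat_lit 140) (nat_lit 5) (nat_lit 135) (nat_lit 4) (nat_lit 342) (nat_lit 284) (nat_lit 274)) (XT.nd (nat_lit 78) (nat_lit 76) (nat_lit 0) (XT.lf (nat_lit 0) (nat_lit 468453031) (nat_lit 380) (nat_lit 5699808832) (nat_lit 456) (nat_lit 2455144081) (nat_lit 129) (nat_lit 5) (nat_lit 134) (nat_lit 5) (nat_lit 135) (nat_lit 4) (nat_lit 343) (nat_lit 284) (nat_lit 273)) (XT.lf (nat_lit 0) (nat_lit 1003518974) (nat_lit 456) (nat_lit 1897899838) (nat_lit 76) (nat_lit 5837157100) (nat_lit 128) (nat_lit 5) (nat_lit 134) (nat_lit 5) (nat_lit 129) (nat_lit 5) (nat_lit 344) (nat_lit 284) (nat_lit 272))))) (XT.nd (nat_lit 234) (nat_lit 1064) (nat_lit 0) (XT.nd (nat_lit 78) (nat_lit 380) (nat_lit 0) (XT.lf (nat_lit 0) (nat_lit 4479032938) (nat_lit 456) (nat_lit 4357893586) (nat_lit 76) (nat_lit 20722322)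 (nat_lit 123) (nat_lit 5) (nat_lit 129) (nat_lit 5) (nat_lit 124) (nat_lit 4) (nat_lit 345) (nat_lit 284) (nat_lit 271)) (XT.nd (nat_lit 78) (nat_lit 76) (nat_lit 0) (XT.lf (nat_lit 0) (nat_lit 2048099541) (nat_lit 304) (nat_lit 5998483947) (nat_lit 380) (nat_lit 934126108) (nat_lit 119) (nat_lit 5) (nat_lit 123) (nat_lit 5) (nat_lit 124) (nat_lit 4) (nat_lit 346) (nat_lit 284) (nat_lit 270)) (XT.lf (nat_lit 0) (nat_lit 2527582506) (nat_lit 380) (nat_lit 508109181) (nat_lit 76) (nat_lit 6072116107) (nat_lit 118) (nat_lit 5) (nat_lit 123) (nat_lit 5) (nat_lit 119) (nat_lit 5) (nat_lit 347) (nat_lit 284) (nat_lit 269)))) (XT.nd (nat_lit 156) (nat_lit 304) (nat_lit 0) (XT.nd (nat_lit 78) (nat_lit 380) (nat_lit 0) (XT.lf (nat_lit 0) (nat_lit 6056389830) (nat_lit 456) (nat_lit 3129201410) (nat_lit 76) (nat_lit 53434187) (nat_lit 113) (nat_lit 5) (nat_lit 119) (nat_lit 5) (nat_lit 114) (nat_lit 4) (nat_lit 348)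 (nat_lit 284) (nat_lit 268)) (XT.lf (nat_lit 0) (nat_lit 303049122) (nat_lit 380) (nat_lit 5886422956) (nat_lit 76) (nat_lit 3184887668) (nat_lit 108) (nat_lit 5) (nat_lit 113) (nat_lit 5) (nat_lit 109) (nat_lit 5) (nat_lit 349) (nat_lit 284) (nat_lit 267))) (XT.nd (nat_lit 78) (nat_lit 0) (nat_lit 0) (XT.lf (nat_lit 0) (nat_lit 727113441) (nat_lit 304) (nat_lit 3065190127) (nat_lit 380) (nat_lit 5721657015) (nat_lit 104) (nat_lit 5) (nat_lit 108) (nat_lit 5) (nat_lit 109) (nat_lit 5) (nat_lit 350) (nat_lit 284) (nat_lit 266)) (XT.lf (nat_lit 0) (nat_lit 7372633361) (nat_lit 380) (nat_lit 2109354139) (nat_lit 76) (nat_lit 176209664) (nat_lit 104) (nat_lit 5) (nat_lit 109) (nat_lit 5) (nat_lit 105) (nat_lit 4) (nat_lit 351) (nat_lit 284) (nat_lit 265))))))) (XT.nd (nat_lit 1014) (nat_lit 1672) (nat_lit 0) (XT.nd (nat_lit 468) (nat_lit 1368) (nat_lit 0) (XT.nd (nat_lit 234) (nat_lit 608) (nat_lit 0) (XT.nd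 (nat_lit 78) (nat_lit 304) (nat_lit 0) (XT.lf (nat_lit 0) (nat_lit 1231969742) (nat_lit 380) (nat_lit 5096343044) (nat_lit 76) (nat_lit 3478039314) (nat_lit 99) (nat_lit 5) (nat_lit 104) (nat_lit 5) (nat_lit 100) (nat_lit 5) (nat_lit 352) (nat_lit 284) (nat_lit 264)) (XT.nd (nat_lit 78) (nat_lit 0) (nat_lit 0) (XT.lf (nat_lit 0) (nat_lit 1721389318) (nat_lit 304) (nat_lit 3053196709) (nat_lit 380) (nat_lit 5184758232) (nat_lit 95) (nat_lit 5) (nat_lit 99) (nat_lit 5) (nat_lit 100) (nat_lit 5) (nat_lit 353) (nat_lit 284) (nat_lit 263)) (XT.lf (nat_lit 0) (nat_lit 8406707199) (nat_lit 380) (nat_lit 1379862250) (nat_lit 76) (nat_lit 330895169) (nat_lit 95) (nat_lit 5) (nat_lit 100) (nat_lit 5) (nat_lit 96) (nat_lit 4) (nat_lit 354) (nat_lit 284) (nat_lit 262)))) (XT.nd (nat_lit 78) (nat_lit 304) (nat_lit 0) (XT.lf (nat_lit 0) (nat_lit 1846025280) (nat_lit 304) (nat_lit 4639697904) (nat_lit 76) (nat_lit 3793649989)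 (nat_lit 91) (nat_lit 5) (nat_lit 95) (nat_lit 5) (nat_lit 92) (nat_lit 5) (nat_lit 355) (nat_lit 284) (nat_lit 261)) (XT.nd (nat_lit 78) (nat_lit 0) (nat_lit 0) (XT.lf (nat_lit 0) (nat_lit 2375423307) (nat_lit 304) (nat_lit 3067188313) (nat_lit 380) (nat_lit 5004026917) (nat_lit 87) (nat_lit 5) (nat_lit 91) (nat_lit 5) (nat_lit 92) (nat_lit 5) (nat_lit 356) (nat_lit 284) (nat_lit 260)) (XT.lf (nat_lit 0) (nat_lit 9130010821) (nat_lit 380) (nat_lit 1033142183) (nat_lit 76) (nat_lit 456312698) (nat_lit 87) (nat_lit 5) (nat_lit 92) (nat_lit 5) (nat_lit 88) (nat_lit 4) (nat_lit 357) (nat_lit 284) (nat_lit 259))))) (XT.nd (nat_lit 234) (nat_lit 836) (nat_lit 0) (XT.nd (nat_lit 78) (nat_lit 228) (nat_lit 0) (XT.lf (nat_lit 0) (nat_lit 2112413738) (nat_lit 304) (nat_lit 4614566602) (nat_lit 76) (nat_lit 4069209413) (nat_lit 83) (nat_lit 5) (nat_lit 87) (nat_lit 5) (nat_lit 84) (nat_lit 5) (nat_lit 358) (nat_lit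 284) (nat_lit 258)) (XT.nd (nat_lit 78) (nat_lit 0) (nat_lit 0) (XT.lf (nat_lit 0) (nat_lit 2587624103) (nat_lit 228) (nat_lit 3173702849) (nat_lit 304) (nat_lit 5217407049) (nat_lit 80) (nat_lit 5) (nat_lit 83) (nat_lit 5) (nat_lit 84) (nat_lit 5) (nat_lit 359) (nat_lit 284) (nat_lit 257)) (XT.lf (nat_lit 0) (nat_lit 9505539895) (nat_lit 304) (nat_lit 1174755498) (nat_lit 76) (nat_lit 486912026) (nat_lit 80) (nat_lit 5) (nat_lit 84) (nat_lit 5) (nat_lit 81) (nat_lit 4) (nat_lit 360) (nat_lit 284) (nat_lit 256)))) (XT.nd (nat_lit 156) (nat_lit 304) (nat_lit 0) (XT.nd (nat_lit 78) (nat_lit 228) (nat_lit 0) (XT.lf (nat_lit 0) (nat_lit 1989438709) (nat_lit 304) (nat_lit 5133163884) (nat_lit 76) (nat_lit 4237349598) (nat_lit 76) (nat_lit 5) (nat_lit 80) (nat_lit 5) (nat_lit 77) (nat_lit 5) (nat_lit 361) (nat_lit 284) (nat_lit 255)) (XT.lf (nat_lit 0) (nat_lit 2241521842) (nat_lit 228) (nat_lit 3444949715)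 (nat_lit 304) (nat_lit 5872445895) (nat_lit 73) (nat_lit 5) (nat_lit 76) (nat_lit 5) (nat_lit 77) (nat_lit 5) (nat_lit 362) (nat_lit 284) (nat_lit 254))) (XT.nd (nat_lit 78) (nat_lit 304) (nat_lit 0) (XT.lf (nat_lit 0) (nat_lit 9486844251) (nat_lit 304) (nat_lit 1925963149) (nat_lit 76) (nat_lit 351296113) (nat_lit 73) (nat_lit 5) (nat_lit 77) (nat_lit 5) (nat_lit 74) (nat_lit 4) (nat_lit 363) (nat_lit 284) (nat_lit 253)) (XT.lf (nat_lit 0) (nat_lit 1425386058) (nat_lit 304) (nat_lit 6324540055) (nat_lit 76) (nat_lit 4224308411) (nat_lit 69) (nat_lit 5) (nat_lit 73) (nat_lit 5) (nat_lit 70) (nat_lit 5) (nat_lit 364) (nat_lit 284) (nat_lit 252)))))) (XT.nd (nat_lit 546) (nat_lit 760) (nat_lit 0) (XT.nd (nat_lit 234) (nat_lit 456) (nat_lit 0) (XT.nd (nat_lit 78) (nat_lit 228) (nat_lit 0) (XT.lf (nat_lit 0) (nat_lit 1202943834) (nat_lit 228) (nat_lit 3960443223) (nat_lit 304) (nat_lit 7027527196) (nat_lit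 66) (nat_lit 5) (nat_lit 69) (nat_lit 5) (nat_lit 70) (nat_lit 5) (nat_lit 365) (nat_lit 284) (nat_lit 251)) (XT.nd (nat_lit 78) (nat_lit 228) (nat_lit 0) (XT.lf (nat_lit 0) (nat_lit 8987071189) (nat_lit 228) (nat_lit 29996171) (nat_lit 304) (nat_lit 3396942787) (nat_lit 66) (nat_lit 5) (nat_lit 69) (nat_lit 5) (nat_lit 70) (nat_lit 5) (nat_lit 366) (nat_lit 284) (nat_lit 250)) (XT.lf (nat_lit 0) (nat_lit 357182207) (nat_lit 228) (nat_lit 8337676117) (nat_lit 76) (nat_lit 3948223272) (nat_lit 63) (nat_lit 5) (nat_lit 66) (nat_lit 5) (nat_lit 64) (nat_lit 5) (nat_lit 367) (nat_lit 284) (nat_lit 249)))) (XT.nd (nat_lit 156) (nat_lit 228) (nat_lit 0) (XT.nd (nat_lit 78) (nat_lit 228) (nat_lit 0) (XT.lf (nat_lit 0) (nat_lit 4132165973) (nat_lit 228) (nat_lit 669893540) (nat_lit 76) (nat_lit 8076681467) (nat_lit 63) (nat_lit 5) (nat_lit 66) (nat_lit 5) (nat_lit 64) (nat_lit 5) (nat_lit 368) (nat_lit 284) (nat_lit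 248)) (XT.lf (nat_lit 0) (nat_lit 7275126301) (nat_lit 228) (nat_lit 758181860) (nat_lit 304) (nat_lit 5087794220) (nat_lit 60) (nat_lit 5) (nat_lit 63) (nat_lit 5) (nat_lit 64) (nat_lit 5) (nat_lit 369) (nat_lit 284) (nat_lit 247))) (XT.nd (nat_lit 78) (nat_lit 76) (nat_lit 0) (XT.lf (nat_lit 0) (nat_lit 2012983617) (nat_lit 152) (nat_lit 10040806672) (nat_lit 228) (nat_lit 1316894102) (nat_lit 58) (nat_lit 5) (nat_lit 60) (nat_lit 5) (nat_lit 61) (nat_lit 4) (nat_lit 370) (nat_lit 284) (nat_lit 246)) (XT.lf (nat_lit 0) (nat_lit 2527708966) (nat_lit 228) (nat_lit 3526587263) (nat_lit 76) (nat_lit 7572415078) (nat_lit 57) (nat_lit 5) (nat_lit 60) (nat_lit 5) (nat_lit 58) (nat_lit 5) (nat_lit 371) (nat_lit 284) (nat_lit 245))))) (XT.nd (nat_lit 234) (nat_lit 380) (nat_lit 0) (XT.nd (nat_lit 78) (nat_lit 228) (nat_lit 0) (XT.lf (nat_lit 0) (nat_lit 4522055717) (nat_lit 152) (nat_lit 1927785032) (nat_lit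 228) (nat_lit 7440544688) (nat_lit 55) (nat_lit 5) (nat_lit 57) (nat_lit 5) (nat_lit 58) (nat_lit 5) (nat_lit 372) (nat_lit 284) (nat_lit 244)) (XT.nd (nat_lit 78) (nat_lit 228) (nat_lit 0) (XT.lf (nat_lit 0) (nat_lit 10493469778) (nat_lit 228) (nat_lit 1392107224) (nat_lit 76) (nat_lit 2276294614) (nat_lit 55) (nat_lit 5) (nat_lit 58) (nat_lit 5) (nat_lit 56) (nat_lit 4) (nat_lit 373) (nat_lit 284) (nat_lit 243)) (XT.lf (nat_lit 0) (nat_lit 245014565) (nat_lit 228) (nat_lit 7595291146) (nat_lit 76) (nat_lit 6600179721) (nat_lit 52) (nat_lit 5) (nat_lit 55) (nat_lit 5) (nat_lit 53) (nat_lit 5) (nat_lit 374) (nat_lit 284) (nat_lit 242)))) (XT.nd (nat_lit 156) (nat_lit 228) (nat_lit 0) (XT.nd (nat_lit 78) (nat_lit 0) (nat_lit 0) (XT.lf (nat_lit 0) (nat_lit 514241590) (nat_lit 152) (nat_lit 3654278683) (nat_lit 228) (nat_lit 10558870622) (nat_lit 50) (nat_lit 5) (nat_lit 52) (nat_lit 5) (nat_lit 53) (nat_lit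 5) (nat_lit 375) (nat_lit 284) (nat_lit 241)) (XT.lf (nat_lit 0) (nat_lit 8241098893) (nat_lit 228) (nat_lit 6095702154) (nat_lit 76) (nat_lit 685176391) (nat_lit 50) (nat_lit 5) (nat_lit 53) (nat_lit 5) (nat_lit 51) (nat_lit 4) (nat_lit 376) (nat_lit 284) (nat_lit 240))) (XT.nd (nat_lit 78) (nat_lit 76) (nat_lit 0) (XT.lf (nat_lit 0) (nat_lit 2183562768) (nat_lit 152) (nat_lit 10258581425) (nat_lit 228) (nat_lit 2883083218) (nat_lit 48) (nat_lit 5) (nat_lit 50) (nat_lit 5) (nat_lit 51) (nat_lit 4) (nat_lit 377) (nat_lit 284) (nat_lit 239)) (XT.lf (nat_lit 0) (nat_lit 1120978041) (nat_lit 228) (nat_lit 4899347693) (nat_lit 76) (nat_lit 9616594049) (nat_lit 47) (nat_lit 5) (nat_lit 50) (nat_lit 5) (nat_lit 48) (nat_lit 5) (nat_lit 378) (nat_lit 284) (nat_lit 238))))))))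
noncomputable def xc66 : XT := (XT.nd (nat_lit 2028) (nat_lit 836) (nat_lit 0) (XT.nd (nat_lit 1014) (nat_lit 684) (nat_lit 0) (XT.nd (nat_lit 468) (nat_lit 608) (nat_lit 0) (XT.nd (nat_lit 234) (nat_lit 228) (nat_lit 0) (XT.nd (nat_lit 78) (nat_lit 152) (nat_lit 0) (XT.lf (nat_lit 0) (nat_lit 3545150211) (nat_lit 152) (nat_lit 1626870575) (nat_lit 228) (nat_lit 10785554859) (nat_lit 45) (nat_lit 5) (nat_lit 47) (nat_lit 5) (nat_lit 48) (nat_lit 5) (nat_lit 379) (nat_lit 284) (nat_lit 237)) (XT.nd (nat_lit 78) (nat_lit 152) (nat_lit 0) (XT.lf (nat_lit 0) (nat_lit 9373419051) (nat_lit 228) (nat_lit 4057308631) (nat_lit 76) (nat_lit 2856271668) (nat_lit 45) (nat_lit 5) (nat_lit 48) (nat_lit 5) (nat_lit 46) (nat_lit 4) (nat_lit 380) (nat_lit 284) (nat_lit 236)) (XT.lf (nat_lit 0) (nat_lit 4537394350) (nat_lit 152) (nat_lit 9175615463) (nat_lit 228) (nat_lit 2912943956) (nat_lit 43) (nat_lit 5) (nat_lit 45)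 (nat_lit 5) (nat_lit 46) (nat_lit 4) (nat_lit 381) (nat_lit 284) (nat_lit 235)))) (XT.nd (nat_lit 78) (nat_lit 152) (nat_lit 0) (XT.lf (nat_lit 0) (nat_lit 1178061651) (nat_lit 228) (nat_lit 3596391643) (nat_lit 76) (nat_lit 12200469539) (nat_lit 42) (nat_lit 5) (nat_lit 45) (nat_lit 5) (nat_lit 43) (nat_lit 5) (nat_lit 382) (nat_lit 284) (nat_lit 234)) (XT.nd (nat_lit 78) (nat_lit 0) (nat_lit 0) (XT.lf (nat_lit 0) (nat_lit 5140813687) (nat_lit 152) (nat_lit 195775874) (nat_lit 228) (nat_lit 11996817453) (nat_lit 40) (nat_lit 5) (nat_lit 42) (nat_lit 5) (nat_lit 43) (nat_lit 5) (nat_lit 383) (nat_lit 284) (nat_lit 233)) (XT.lf (nat_lit 0) (nat_lit 9654157361) (nat_lit 228) (nat_lit 3612956679) (nat_lit 76) (nat_lit 4434514280) (nat_lit 40) (nat_lit 5) (nat_lit 43) (nat_lit 5) (nat_lit 41) (nat_lit 4) (nat_lit 384) (nat_lit 284) (nat_lit 232))))) (XT.nd (nat_lit 234) (nat_lit 304) (nat_lit 0) (XT.nd (nat_lit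 78) (nat_lit 228) (nat_lit 0) (XT.lf (nat_lit 0) (nat_lit 5245412789) (nat_lit 76) (nat_lit 8863691604) (nat_lit 152) (nat_lit 3971567107) (nat_lit 39) (nat_lit 5) (nat_lit 40) (nat_lit 5) (nat_lit 41) (nat_lit 4) (nat_lit 385) (nat_lit 284) (nat_lit 231)) (XT.nd (nat_lit 78) (nat_lit 152) (nat_lit 0) (XT.lf (nat_lit 0) (nat_lit 214626640) (nat_lit 152) (nat_lit 4108129212) (nat_lit 76) (nat_lit 14148501908) (nat_lit 38) (nat_lit 5) (nat_lit 40) (nat_lit 5) (nat_lit 39) (nat_lit 5) (nat_lit 386) (nat_lit 284) (nat_lit 230)) (XT.lf (nat_lit 0) (nat_lit 4454110763) (nat_lit 228) (nat_lit 14016788225) (nat_lit 76) (nat_lit 401266954) (nat_lit 36) (nat_lit 5) (nat_lit 39) (nat_lit 5) (nat_lit 37) (nat_lit 4) (nat_lit 387) (nat_lit 284) (nat_lit 229)))) (XT.nd (nat_lit 156) (nat_lit 228) (nat_lit 0) (XT.nd (nat_lit 78) (nat_lit 76) (nat_lit 0) (XT.lf (nat_lit 0) (nat_lit 8862558659) (nat_lit 228) (nat_lit 5232162814)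 (nat_lit 76) (nat_lit 5189136114) (nat_lit 36) (nat_lit 5) (nat_lit 39) (nat_lit 5) (nat_lit 37) (nat_lit 4) (nat_lit 388) (nat_lit 284) (nat_lit 228)) (XT.lf (nat_lit 0) (nat_lit 3815604986) (nat_lit 76) (nat_lit 9582667792) (nat_lit 152) (nat_lit 6309786135) (nat_lit 35) (nat_lit 5) (nat_lit 36) (nat_lit 5) (nat_lit 37) (nat_lit 4) (nat_lit 389) (nat_lit 284) (nat_lit 227))) (XT.nd (nat_lit 78) (nat_lit 228) (nat_lit 0) (XT.lf (nat_lit 0) (nat_lit 13167941310) (nat_lit 76) (nat_lit 4913787529) (nat_lit 152) (nat_lit 2062916370) (nat_lit 35) (nat_lit 5) (nat_lit 36) (nat_lit 5) (nat_lit 37) (nat_lit 4) (nat_lit 390) (nat_lit 284) (nat_lit 226)) (XT.lf (nat_lit 0) (nat_lit 2153552108) (nat_lit 152) (nat_lit 93036270) (nat_lit 228) (nat_lit 18347672738) (nat_lit 32) (nat_lit 5) (nat_lit 34) (nat_lit 5) (nat_lit 35) (nat_lit 5) (nat_lit 391) (nat_lit 284) (nat_lit 225)))))) (XT.nd (nat_lit 468) (nat_lit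 380) (nat_lit 0) (XT.nd (nat_lit 234) (nat_lit 228) (nat_lit 0) (XT.nd (nat_lit 78) (nat_lit 76) (nat_lit 0) (XT.lf (nat_lit 0) (nat_lit 6721704610) (nat_lit 228) (nat_lit 9495432957) (nat_lit 76) (nat_lit 4837289797) (nat_lit 32) (nat_lit 5) (nat_lit 35) (nat_lit 5) (nat_lit 33) (nat_lit 4) (nat_lit 392) (nat_lit 284) (nat_lit 224)) (XT.nd (nat_lit 78) (nat_lit 76) (nat_lit 0) (XT.lf (nat_lit 0) (nat_lit 11292970683) (nat_lit 228) (nat_lit 353548935) (nat_lit 76) (nat_lit 9883030124) (nat_lit 32) (nat_lit 5) (nat_lit 35) (nat_lit 5) (nat_lit 33) (nat_lit 4) (nat_lit 393) (nat_lit 284) (nat_lit 223)) (XT.lf (nat_lit 0) (nat_lit 9172820193) (nat_lit 76) (nat_lit 6878841154) (nat_lit 152) (nat_lit 5965763649) (nat_lit 31) (nat_lit 5) (nat_lit 32) (nat_lit 5) (nat_lit 33) (nat_lit 4) (nat_lit 394) (nat_lit 284) (nat_lit 222)))) (XT.nd (nat_lit 78) (nat_lit 228) (nat_lit 0) (XT.lf (nat_lit 0) (nat_lit 18924135806)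 (nat_lit 76) (nat_lit 1995107922) (nat_lit 152) (nat_lit 1601716423) (nat_lit 31) (nat_lit 5) (nat_lit 32) (nat_lit 5) (nat_lit 33) (nat_lit 4) (nat_lit 395) (nat_lit 284) (nat_lit 221)) (XT.nd (nat_lit 78) (nat_lit 0) (nat_lit 0) (XT.lf (nat_lit 0) (nat_lit 2886999694) (nat_lit 228) (nat_lit 17118053504) (nat_lit 76) (nat_lit 3032214795) (nat_lit 28) (nat_lit 5) (nat_lit 31) (nat_lit 5) (nat_lit 29) (nat_lit 4) (nat_lit 396) (nat_lit 284) (nat_lit 220)) (XT.lf (nat_lit 0) (nat_lit 7498048242) (nat_lit 228) (nat_lit 7876480459) (nat_lit 76) (nat_lit 8193471627) (nat_lit 28) (nat_lit 5) (nat_lit 31) (nat_lit 5) (nat_lit 29) (nat_lit 4) (nat_lit 397) (nat_lit 284) (nat_lit 219))))) (XT.nd (nat_lit 234) (nat_lit 304) (nat_lit 0) (XT.nd (nat_lit 78) (nat_lit 0) (nat_lit 0) (XT.lf (nat_lit 0) (nat_lit 1608683268) (nat_lit 76) (nat_lit 10618703606) (nat_lit 152) (nat_lit 11887875730) (nat_lit 27) (nat_lit 5)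 (nat_lit 28) (nat_lit 5) (nat_lit 29) (nat_lit 4) (nat_lit 398) (nat_lit 284) (nat_lit 218)) (XT.nd (nat_lit 78) (nat_lit 0) (nat_lit 0) (XT.lf (nat_lit 0) (nat_lit 11475452046) (nat_lit 76) (nat_lit 5667600588) (nat_lit 152) (nat_lit 7534563239) (nat_lit 27) (nat_lit 5) (nat_lit 28) (nat_lit 5) (nat_lit 29) (nat_lit 4) (nat_lit 399) (nat_lit 284) (nat_lit 217)) (XT.lf (nat_lit 0) (nat_lit 21575689916) (nat_lit 76) (nat_lit 596430449) (nat_lit 152) (nat_lit 3085747758) (nat_lit 27) (nat_lit 5) (nat_lit 28) (nat_lit 5) (nat_lit 29) (nat_lit 4) (nat_lit 400) (nat_lit 284) (nat_lit 216)))) (XT.nd (nat_lit 156) (nat_lit 76) (nat_lit 0) (XT.nd (nat_lit 78) (nat_lit 0) (nat_lit 0) (XT.lf (nat_lit 0) (nat_lit 1538147685) (nat_lit 228) (nat_lit 19731265058) (nat_lit 76) (nat_lit 4583565063) (nat_lit 24) (nat_lit 5) (nat_lit 27) (nat_lit 5) (nat_lit 25) (nat_lit 4) (nat_lit 401) (nat_lit 284) (nat_lit 215)) (XT.lf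 (nat_lit 0) (nat_lit 6248908401) (nat_lit 228) (nat_lit 10267960419) (nat_lit 76) (nat_lit 9947856139) (nat_lit 24) (nat_lit 5) (nat_lit 27) (nat_lit 5) (nat_lit 25) (nat_lit 4) (nat_lit 402) (nat_lit 284) (nat_lit 214))) (XT.nd (nat_lit 78) (nat_lit 76) (nat_lit 0) (XT.lf (nat_lit 0) (nat_lit 11068674179) (nat_lit 228) (nat_lit 580476294) (nat_lit 76) (nat_lit 15446649223) (nat_lit 24) (nat_lit 5) (nat_lit 27) (nat_lit 5) (nat_lit 25) (nat_lit 4) (nat_lit 403) (nat_lit 284) (nat_lit 213)) (XT.lf (nat_lit 0) (nat_lit 9525529498) (nat_lit 76) (nat_lit 6567692182) (nat_lit 152) (nat_lit 11650784804) (nat_lit 23) (nat_lit 5) (nat_lit 24) (nat_lit 5) (nat_lit 25) (nat_lit 4) (nat_lit 404) (nat_lit 284) (nat_lit 212))))))) (XT.nd (nat_lit 1014) (nat_lit 380) (nat_lit 0) (XT.nd (nat_lit 468) (nat_lit 228) (nat_lit 0) (XT.nd (nat_lit 234) (nat_lit 76) (nat_lit 0) (XT.nd (nat_lit 78) (nat_lit 152) (nat_lit 0)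 (XT.lf (nat_lit 0) (nat_lit 19889202847) (nat_lit 76) (nat_lit 1354149965) (nat_lit 152) (nat_lit 7169066560) (nat_lit 23) (nat_lit 5) (nat_lit 24) (nat_lit 5) (nat_lit 25) (nat_lit 4) (nat_lit 405) (nat_lit 284) (nat_lit 211)) (XT.nd (nat_lit 78) (nat_lit 76) (nat_lit 0) (XT.lf (nat_lit 0) (nat_lit 1395121525) (nat_lit 76) (nat_lit 25174521938) (nat_lit 76) (nat_lit 2530596674) (nat_lit 22) (nat_lit 4) (nat_lit 23) (nat_lit 5) (nat_lit 23) (nat_lit 4) (nat_lit 406) (nat_lit 284) (nat_lit 210)) (XT.lf (nat_lit 0) (nat_lit 2273194884) (nat_lit 152) (nat_lit 18112702508) (nat_lit 76) (nat_lit 9420054544) (nat_lit 21) (nat_lit 5) (nat_lit 23) (nat_lit 5) (nat_lit 22) (nat_lit 4) (nat_lit 407) (nat_lit 284) (nat_lit 209)))) (XT.nd (nat_lit 78) (nat_lit 76) (nat_lit 0) (XT.lf (nat_lit 0) (nat_lit 7140808398) (nat_lit 152) (nat_lit 8312381891) (nat_lit 76) (nat_lit 15079780738) (nat_lit 21) (nat_lit 5) (nat_lit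 23) (nat_lit 5) (nat_lit 22) (nat_lit 4) (nat_lit 408) (nat_lit 284) (nat_lit 208)) (XT.nd (nat_lit 78) (nat_lit 0) (nat_lit 0) (XT.lf (nat_lit 0) (nat_lit 1763137430) (nat_lit 76) (nat_lit 10379689103) (nat_lit 152) (nat_lit 19139327454) (nat_lit 20) (nat_lit 5) (nat_lit 21) (nat_lit 5) (nat_lit 22) (nat_lit 4) (nat_lit 409) (nat_lit 284) (nat_lit 207)) (XT.lf (nat_lit 0) (nat_lit 12258623663) (nat_lit 76) (nat_lit 5091973835) (nat_lit 152) (nat_lit 14701548618) (nat_lit 20) (nat_lit 5) (nat_lit 21) (nat_lit 5) (nat_lit 22) (nat_lit 4) (nat_lit 410) (nat_lit 284) (nat_lit 206))))) (XT.nd (nat_lit 234) (nat_lit 152) (nat_lit 0) (XT.nd (nat_lit 78) (nat_lit 76) (nat_lit 0) (XT.lf (nat_lit 0) (nat_lit 22690356120) (nat_lit 152) (nat_lit 9831428407) (nat_lit 0) (nat_lit 324185166) (nat_lit 20) (nat_lit 5) (nat_lit 22) (nat_lit 4) (nat_lit 20) (nat_lit 4) (nat_lit 411) (nat_lit 284) (nat_lit 205)) (XT.nd (nat_lit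 78) (nat_lit 0) (nat_lit 0) (XT.lf (nat_lit 0) (nat_lit 335406972) (nat_lit 76) (nat_lit 27881693721) (nat_lit 76) (nat_lit 5445707683) (nat_lit 19) (nat_lit 4) (nat_lit 20) (nat_lit 5) (nat_lit 20) (nat_lit 4) (nat_lit 412) (nat_lit 284) (nat_lit 204)) (XT.lf (nat_lit 0) (nat_lit 10959023808) (nat_lit 76) (nat_lit 23023359048) (nat_lit 76) (nat_lit 519591376) (nat_lit 19) (nat_lit 4) (nat_lit 20) (nat_lit 5) (nat_lit 20) (nat_lit 4) (nat_lit 413) (nat_lit 284) (nat_lit 203)))) (XT.nd (nat_lit 156) (nat_lit 76) (nat_lit 0) (XT.nd (nat_lit 78) (nat_lit 0) (nat_lit 0) (XT.lf (nat_lit 0) (nat_lit 4439408635) (nat_lit 152) (nat_lit 13557575554) (nat_lit 76) (nat_lit 17368802214) (nat_lit 18) (nat_lit 5) (nat_lit 20) (nat_lit 5) (nat_lit 19) (nat_lit 4) (nat_lit 414) (nat_lit 284) (nat_lit 202)) (XT.lf (nat_lit 0) (nat_lit 9511464672) (nat_lit 152) (nat_lit 3325192491) (nat_lit 76) (nat_lit 23419463290) (nat_lit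 18) (nat_lit 5) (nat_lit 20) (nat_lit 5) (nat_lit 19) (nat_lit 4) (nat_lit 415) (nat_lit 284) (nat_lit 201))) (XT.nd (nat_lit 78) (nat_lit 0) (nat_lit 0) (XT.lf (nat_lit 0) (nat_lit 7310794240) (nat_lit 76) (nat_lit 7470629313) (nat_lit 152) (nat_lit 22390372353) (nat_lit 17) (nat_lit 5) (nat_lit 18) (nat_lit 5) (nat_lit 19) (nat_lit 4) (nat_lit 416) (nat_lit 284) (nat_lit 200)) (XT.lf (nat_lit 0) (nat_lit 18288447262) (nat_lit 76) (nat_lit 1930353693) (nat_lit 152) (nat_lit 17895864587) (nat_lit 17) (nat_lit 5) (nat_lit 18) (nat_lit 5) (nat_lit 19) (nat_lit 4) (nat_lit 417) (nat_lit 284) (nat_lit 199)))))) (XT.nd (nat_lit 546) (nat_lit 152) (nat_lit 0) (XT.nd (nat_lit 234) (nat_lit 152) (nat_lit 0) (XT.nd (nat_lit 78) (nat_lit 76) (nat_lit 0) (XT.lf (nat_lit 0) (nat_lit 25831847575) (nat_lit 152) (nat_lit 9571449898) (nat_lit 0) (nat_lit 3682150768) (nat_lit 17) (nat_lit 5) (nat_lit 19) (nat_lit 4) (nat_lit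 17) (nat_lit 4) (nat_lit 418) (nat_lit 284) (nat_lit 198)) (XT.nd (nat_lit 78) (nat_lit 0) (nat_lit 0) (XT.lf (nat_lit 0) (nat_lit 946869620) (nat_lit 76) (nat_lit 30671571462) (nat_lit 76) (nat_lit 8466761983) (nat_lit 16) (nat_lit 4) (nat_lit 17) (nat_lit 5) (nat_lit 17) (nat_lit 4) (nat_lit 419) (nat_lit 284) (nat_lit 197)) (XT.lf (nat_lit 0) (nat_lit 11933913765) (nat_lit 76) (nat_lit 25718570675) (nat_lit 76) (nat_lit 3460253748) (nat_lit 16) (nat_lit 4) (nat_lit 17) (nat_lit 5) (nat_lit 17) (nat_lit 4) (nat_lit 420) (nat_lit 284) (nat_lit 196)))) (XT.nd (nat_lit 156) (nat_lit 76) (nat_lit 0) (XT.nd (nat_lit 78) (nat_lit 0) (nat_lit 0) (XT.lf (nat_lit 0) (nat_lit 1640986925) (nat_lit 152) (nat_lit 18979062448) (nat_lit 76) (nat_lit 21551234572) (nat_lit 15) (nat_lit 5) (nat_lit 17) (nat_lit 5) (nat_lit 16) (nat_lit 4) (nat_lit 421) (nat_lit 284) (nat_lit 195)) (XT.lf (nat_lit 0) (nat_lit 6804009412)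 (nat_lit 152) (nat_lit 8548562701) (nat_lit 76) (nat_lit 27908640336) (nat_lit 15) (nat_lit 5) (nat_lit 17) (nat_lit 5) (nat_lit 16) (nat_lit 4) (nat_lit 422) (nat_lit 284) (nat_lit 194))) (XT.nd (nat_lit 78) (nat_lit 0) (nat_lit 0) (XT.lf (nat_lit 0) (nat_lit 2197940660) (nat_lit 76) (nat_lit 9924034395) (nat_lit 152) (nat_lit 32261865033) (nat_lit 14) (nat_lit 5) (nat_lit 15) (nat_lit 5) (nat_lit 16) (nat_lit 4) (nat_lit 423) (nat_lit 284) (nat_lit 193)) (XT.lf (nat_lit 0) (nat_lit 13402665367) (nat_lit 76) (nat_lit 4262297561) (nat_lit 152) (nat_lit 27873221905) (nat_lit 14) (nat_lit 5) (nat_lit 15) (nat_lit 5) (nat_lit 16) (nat_lit 4) (nat_lit 424) (nat_lit 284) (nat_lit 192))))) (XT.nd (nat_lit 234) (nat_lit 152) (nat_lit 0) (XT.nd (nat_lit 78) (nat_lit 0) (nat_lit 0) (XT.lf (nat_lit 0) (nat_lit 23368918657) (nat_lit 152) (nat_lit 21837412496) (nat_lit 0) (nat_lit 1520991111) (nat_lit 14) (nat_lit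 5) (nat_lit 16) (nat_lit 4) (nat_lit 14) (nat_lit 4) (nat_lit 425) (nat_lit 284) (nat_lit 191)) (XT.nd (nat_lit 78) (nat_lit 0) (nat_lit 0) (XT.lf (nat_lit 0) (nat_lit 29266381627) (nat_lit 152) (nat_lit 11310135519) (nat_lit 0) (nat_lit 7374947629) (nat_lit 14) (nat_lit 5) (nat_lit 16) (nat_lit 4) (nat_lit 14) (nat_lit 4) (nat_lit 426) (nat_lit 284) (nat_lit 190)) (XT.lf (nat_lit 0) (nat_lit 35321533149) (nat_lit 152) (nat_lit 503518133) (nat_lit 0) (nat_lit 13387859877) (nat_lit 14) (nat_lit 5) (nat_lit 16) (nat_lit 4) (nat_lit 14) (nat_lit 4) (nat_lit 427) (nat_lit 284) (nat_lit 189)))) (XT.nd (nat_lit 156) (nat_lit 76) (nat_lit 0) (XT.nd (nat_lit 78) (nat_lit 0) (nat_lit 0) (XT.lf (nat_lit 0) (nat_lit 10802681565) (nat_lit 76) (nat_lit 30840824551) (nat_lit 76) (nat_lit 8866142275) (nat_lit 13) (nat_lit 4) (nat_lit 14) (nat_lit 5) (nat_lit 14) (nat_lit 4) (nat_lit 428) (nat_lit 284) (nat_lit 188))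 (XT.lf (nat_lit 0) (nat_lit 22423320657) (nat_lit 76) (nat_lit 25718433914) (nat_lit 76) (nat_lit 3703937071) (nat_lit 13) (nat_lit 4) (nat_lit 14) (nat_lit 5) (nat_lit 14) (nat_lit 4) (nat_lit 429) (nat_lit 284) (nat_lit 187))) (XT.nd (nat_lit 78) (nat_lit 0) (nat_lit 0) (XT.lf (nat_lit 0) (nat_lit 1563546086) (nat_lit 152) (nat_lit 18879153206) (nat_lit 76) (nat_lit 32779197264) (nat_lit 12) (nat_lit 5) (nat_lit 14) (nat_lit 5) (nat_lit 13) (nat_lit 4) (nat_lit 430) (nat_lit 284) (nat_lit 186)) (XT.lf (nat_lit 0) (nat_lit 6897025609) (nat_lit 152) (nat_lit 8089718823) (nat_lit 76) (nat_lit 39652072675) (nat_lit 12) (nat_lit 5) (nat_lit 14) (nat_lit 5) (nat_lit 13) (nat_lit 4) (nat_lit 431) (nat_lit 284) (nat_lit 185))))))))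
noncomputable def xc67 : XT := (XT.nd (nat_lit 39624) (nat_lit 0) (nat_lit 4636) (XT.nd (nat_lit 1014) (nat_lit 0) (nat_lit 0) (XT.nd (nat_lit 468) (nat_lit 152) (nat_lit 0) (XT.nd (nat_lit 234) (nat_lit 76) (nat_lit 0) (XT.nd (nat_lit 78) (nat_lit 0) (nat_lit 0) (XT.lf (nat_lit 0) (nat_lit 3050490389) (nat_lit 76) (nat_lit 9352271761) (nat_lit 152) (nat_lit 43695117669) (nat_lit 11) (nat_lit 5) (nat_lit 12) (nat_lit 5) (nat_lit 13) (nat_lit 4) (nat_lit 432) (nat_lit 284) (nat_lit 184)) (XT.nd (nat_lit 78) (nat_lit 0) (nat_lit 0) (XT.lf (nat_lit 0) (nat_lit 14658620909) (nat_lit 76) (nat_lit 3479858112) (nat_lit 152) (nat_lit 39460293209) (nat_lit 11) (nat_lit 5) (nat_lit 12) (nat_lit 5) (nat_lit 13) (nat_lit 4) (nat_lit 433) (nat_lit 284) (nat_lit 183)) (XT.lf (nat_lit 0) (nat_lit 24054427051) (nat_lit 152) (nat_lit 32585920640) (nat_lit 0) (nat_lit 2504100935) (nat_lit 11) (nat_lit 5) (nat_lit 13) (nat_lit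 4) (nat_lit 11) (nat_lit 4) (nat_lit 434) (nat_lit 284) (nat_lit 182)))) (XT.nd (nat_lit 78) (nat_lit 76) (nat_lit 0) (XT.lf (nat_lit 0) (nat_lit 30166256562) (nat_lit 152) (nat_lit 21986131047) (nat_lit 0) (nat_lit 8583557559) (nat_lit 11) (nat_lit 5) (nat_lit 13) (nat_lit 4) (nat_lit 11) (nat_lit 4) (nat_lit 435) (nat_lit 284) (nat_lit 181)) (XT.nd (nat_lit 78) (nat_lit 76) (nat_lit 0) (XT.lf (nat_lit 0) (nat_lit 36445857462) (nat_lit 152) (nat_lit 11098070066) (nat_lit 0) (nat_lit 14831728472) (nat_lit 11) (nat_lit 5) (nat_lit 13) (nat_lit 4) (nat_lit 11) (nat_lit 4) (nat_lit 436) (nat_lit 284) (nat_lit 180)) (XT.lf (nat_lit 0) (nat_lit 89523061) (nat_lit 76) (nat_lit 42810054269) (nat_lit 76) (nat_lit 21165410730) (nat_lit 10) (nat_lit 4) (nat_lit 11) (nat_lit 5) (nat_lit 11) (nat_lit 4) (nat_lit 437) (nat_lit 284) (nat_lit 179))))) (XT.nd (nat_lit 234) (nat_lit 152) (nat_lit 0) (XT.nd (nat_lit 78)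 (nat_lit 0) (nat_lit 0) (XT.lf (nat_lit 0) (nat_lit 11811669846) (nat_lit 76) (nat_lit 37832344089) (nat_lit 76) (nat_lit 16158074773) (nat_lit 10) (nat_lit 4) (nat_lit 11) (nat_lit 5) (nat_lit 11) (nat_lit 4) (nat_lit 438) (nat_lit 284) (nat_lit 178)) (XT.nd (nat_lit 78) (nat_lit 0) (nat_lit 0) (XT.lf (nat_lit 0) (nat_lit 23857739584) (nat_lit 76) (nat_lit 32718516279) (nat_lit 76) (nat_lit 11015484073) (nat_lit 10) (nat_lit 4) (nat_lit 11) (nat_lit 5) (nat_lit 11) (nat_lit 4) (nat_lit 439) (nat_lit 284) (nat_lit 177)) (XT.lf (nat_lit 0) (nat_lit 36238257969) (nat_lit 76) (nat_lit 27464102446) (nat_lit 76) (nat_lit 5733145103) (nat_lit 10) (nat_lit 4) (nat_lit 11) (nat_lit 5) (nat_lit 11) (nat_lit 4) (nat_lit 440) (nat_lit 284) (nat_lit 176)))) (XT.nd (nat_lit 156) (nat_lit 76) (nat_lit 0) (XT.nd (nat_lit 78) (nat_lit 76) (nat_lit 0) (XT.lf (nat_lit 0) (nat_lit 48964042928) (nat_lit 76) (nat_lit 22064511353)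 (nat_lit 76) (nat_lit 306442229) (nat_lit 10) (nat_lit 4) (nat_lit 11) (nat_lit 5) (nat_lit 11) (nat_lit 4) (nat_lit 441) (nat_lit 284) (nat_lit 175)) (XT.lf (nat_lit 0) (nat_lit 5166542013) (nat_lit 152) (nat_lit 11296310956) (nat_lit 76) (nat_lit 56827500122) (nat_lit 9) (nat_lit 5) (nat_lit 11) (nat_lit 5) (nat_lit 10) (nat_lit 4) (nat_lit 442) (nat_lit 284) (nat_lit 174))) (XT.nd (nat_lit 78) (nat_lit 0) (nat_lit 0) (XT.lf (nat_lit 0) (nat_lit 84272455) (nat_lit 76) (nat_lit 10701057177) (nat_lit 152) (nat_lit 64519318015) (nat_lit 8) (nat_lit 5) (nat_lit 9) (nat_lit 5) (nat_lit 10) (nat_lit 4) (nat_lit 443) (nat_lit 284) (nat_lit 173)) (XT.lf (nat_lit 0) (nat_lit 12013172002) (nat_lit 76) (nat_lit 4660685053) (nat_lit 152) (nat_lit 60702480146) (nat_lit 8) (nat_lit 5) (nat_lit 9) (nat_lit 5) (nat_lit 10) (nat_lit 4) (nat_lit 444) (nat_lit 284) (nat_lit 172)))))) (XT.nd (nat_lit 38064) (nat_lit 0)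 (nat_lit 10944) (XT.nd (nat_lit 234) (nat_lit 0) (nat_lit 0) (XT.nd (nat_lit 78) (nat_lit 0) (nat_lit 0) (XT.lf (nat_lit 0) (nat_lit 22741415911) (nat_lit 152) (nat_lit 55249456617) (nat_lit 0) (nat_lit 1519235049) (nat_lit 8) (nat_lit 5) (nat_lit 10) (nat_lit 4) (nat_lit 8) (nat_lit 4) (nat_lit 445) (nat_lit 284) (nat_lit 171)) (XT.nd (nat_lit 78) (nat_lit 0) (nat_lit 0) (XT.lf (nat_lit 0) (nat_lit 29024886058) (nat_lit 152) (nat_lit 44901990331) (nat_lit 0) (nat_lit 7779999505) (nat_lit 8) (nat_lit 5) (nat_lit 10) (nat_lit 4) (nat_lit 8) (nat_lit 4) (nat_lit 446) (nat_lit 284) (nat_lit 170)) (XT.lf (nat_lit 0) (nat_lit 35484956550) (nat_lit 152) (nat_lit 34266923510) (nat_lit 0) (nat_lit 14218025637) (nat_lit 8) (nat_lit 5) (nat_lit 10) (nat_lit 4) (nat_lit 8) (nat_lit 4) (nat_lit 447) (nat_lit 284) (nat_lit 169)))) (XT.nd (nat_lit 37674) (nat_lit 0) (nat_lit 13604) (XT.lf (nat_lit 0) (nat_lit 42127272110)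 (nat_lit 152) (nat_lit 23334963376) (nat_lit 0) (nat_lit 20838938905) (nat_lit 8) (nat_lit 5) (nat_lit 10) (nat_lit 4) (nat_lit 8) (nat_lit 4) (nat_lit 448) (nat_lit 284) (nat_lit 168)) (XT.nd (nat_lit 78) (nat_lit 608) (nat_lit 0) (XT.lf (nat_lit 0) (nat_lit 914295681) (nat_lit 608) (nat_lit 1897980880) (nat_lit 0) (nat_lit 914295681) (nat_lit 195) (nat_lit 5) (nat_lit 203) (nat_lit 4) (nat_lit 195) (nat_lit 4) (nat_lit 330) (nat_lit 285) (nat_lit 285)) (XT.lf (nat_lit 0) (nat_lit 1647387826) (nat_lit 608) (nat_lit 3671364480) (nat_lit 608) (nat_lit 2205197591) (nat_lit 187) (nat_lit 4) (nat_lit 195) (nat_lit 5) (nat_lit 195) (nat_lit 4) (nat_lit 331) (nat_lit 285) (nat_lit 284))))) (XT.nd (nat_lit 234) (nat_lit 1444) (nat_lit 0) (XT.nd (nat_lit 78) (nat_lit 1140) (nat_lit 0) (XT.lf (nat_lit 0) (nat_lit 1232420117) (nat_lit 684) (nat_lit 387817050) (nat_lit 76) (nat_lit 5978104325) (nat_lit 186) (nat_lit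 5) (nat_lit 195) (nat_lit 5) (nat_lit 187) (nat_lit 4) (nat_lit 332) (nat_lit 285) (nat_lit 283)) (XT.nd (nat_lit 78) (nat_lit 608) (nat_lit 0) (XT.lf (nat_lit 0) (nat_lit 4690018978) (nat_lit 608) (nat_lit 2442733534) (nat_lit 0) (nat_lit 542802666) (nat_lit 179) (nat_lit 5) (nat_lit 187) (nat_lit 4) (nat_lit 179) (nat_lit 4) (nat_lit 333) (nat_lit 285) (nat_lit 282)) (XT.lf (nat_lit 0) (nat_lit 444053589) (nat_lit 608) (nat_lit 4548457816) (nat_lit 76) (nat_lit 2763782423) (nat_lit 171) (nat_lit 5) (nat_lit 179) (nat_lit 5) (nat_lit 172) (nat_lit 4) (nat_lit 334) (nat_lit 285) (nat_lit 281)))) (XT.nd (nat_lit 156) (nat_lit 988) (nat_lit 0) (XT.nd (nat_lit 78) (nat_lit 0) (nat_lit 0) (XT.lf (nat_lit 0) (nat_lit 1121174017) (nat_lit 456) (nat_lit 2738820593) (nat_lit 532) (nat_lit 3980342898) (nat_lit 165) (nat_lit 5) (nat_lit 171) (nat_lit 5) (nat_lit 172) (nat_lit 4) (nat_lit 335) (nat_lit 285) (nat_lit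 280)) (XT.lf (nat_lit 0) (nat_lit 6945032156) (nat_lit 456) (nat_lit 388730841) (nat_lit 532) (nat_lit 594550636) (nat_lit 165) (nat_lit 5) (nat_lit 171) (nat_lit 5) (nat_lit 172) (nat_lit 4) (nat_lit 336) (nat_lit 285) (nat_lit 279))) (XT.nd (nat_lit 78) (nat_lit 456) (nat_lit 0) (XT.lf (nat_lit 0) (nat_lit 2814526448) (nat_lit 532) (nat_lit 3155088573) (nat_lit 76) (nat_lit 2049202486) (nat_lit 158) (nat_lit 5) (nat_lit 165) (nat_lit 5) (nat_lit 159) (nat_lit 4) (nat_lit 337) (nat_lit 285) (nat_lit 278)) (XT.lf (nat_lit 0) (nat_lit 2728779315) (nat_lit 456) (nat_lit 3537748475) (nat_lit 532) (nat_lit 1846819588) (nat_lit 152) (nat_lit 5) (nat_lit 158) (nat_lit 5) (nat_lit 159) (nat_lit 4) (nat_lit 338) (nat_lit 285) (nat_lit 277))))))) (XT.nd (nat_lit 1014) (nat_lit 2660) (nat_lit 0) (XT.nd (nat_lit 468) (nat_lit 1824) (nat_lit 0) (XT.nd (nat_lit 234) (nat_lit 836) (nat_lit 0) (XT.nd (nat_lit 78) (nat_lit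 456) (nat_lit 0) (XT.lf (nat_lit 0) (nat_lit 528669995) (nat_lit 456) (nat_lit 1001610059) (nat_lit 532) (nat_lit 6681519743) (nat_lit 145) (nat_lit 5) (nat_lit 151) (nat_lit 5) (nat_lit 152) (nat_lit 5) (nat_lit 339) (nat_lit 285) (nat_lit 276)) (XT.nd (nat_lit 78) (nat_lit 456) (nat_lit 0) (XT.lf (nat_lit 0) (nat_lit 4956317711) (nat_lit 532) (nat_lit 1727440208) (nat_lit 76) (nat_lit 1629416953) (nat_lit 145) (nat_lit 5) (nat_lit 152) (nat_lit 5) (nat_lit 146) (nat_lit 4) (nat_lit 340) (nat_lit 285) (nat_lit 275)) (XT.lf (nat_lit 0) (nat_lit 34672101) (nat_lit 456) (nat_lit 4044565582) (nat_lit 76) (nat_lit 4339337222) (nat_lit 139) (nat_lit 5) (nat_lit 145) (nat_lit 5) (nat_lit 140) (nat_lit 5) (nat_lit 341) (nat_lit 285) (nat_lit 274)))) (XT.nd (nat_lit 78) (nat_lit 456) (nat_lit 0) (XT.lf (nat_lit 0) (nat_lit 2065553355) (nat_lit 380) (nat_lit 1349770053) (nat_lit 456) (nat_lit 5112225958) (nat_lit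 134) (nat_lit 5) (nat_lit 139) (nat_lit 5) (nat_lit 140) (nat_lit 5) (nat_lit 342) (nat_lit 285) (nat_lit 273)) (XT.nd (nat_lit 78) (nat_lit 456) (nat_lit 0) (XT.lf (nat_lit 0) (nat_lit 6871183698) (nat_lit 456) (nat_lit 320952668) (nat_lit 76) (nat_lit 1448496297) (nat_lit 134) (nat_lit 5) (nat_lit 140) (nat_lit 5) (nat_lit 135) (nat_lit 4) (nat_lit 343) (nat_lit 285) (nat_lit 272)) (XT.lf (nat_lit 0) (nat_lit 1632743353) (nat_lit 456) (nat_lit 2771959863) (nat_lit 76) (nat_lit 4352219129) (nat_lit 128) (nat_lit 5) (nat_lit 134) (nat_lit 5) (nat_lit 129) (nat_lit 5) (nat_lit 344) (nat_lit 285) (nat_lit 271))))) (XT.nd (nat_lit 234) (nat_lit 1064) (nat_lit 0) (XT.nd (nat_lit 78) (nat_lit 380) (nat_lit 0) (XT.lf (nat_lit 0) (nat_lit 3554656720) (nat_lit 380) (nat_lit 1505560457) (nat_lit 456) (nat_lit 3817243328) (nat_lit 123) (nat_lit 5) (nat_lit 128) (nat_lit 5) (nat_lit 129) (nat_lit 5) (nat_lit 345)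 (nat_lit 285) (nat_lit 270)) (XT.nd (nat_lit 78) (nat_lit 76) (nat_lit 0) (XT.lf (nat_lit 0) (nat_lit 1024370386) (nat_lit 304) (nat_lit 7540824108) (nat_lit 380) (nat_lit 437227278) (nat_lit 119) (nat_lit 5) (nat_lit 123) (nat_lit 5) (nat_lit 124) (nat_lit 4) (nat_lit 346) (nat_lit 285) (nat_lit 269)) (XT.lf (nat_lit 0) (nat_lit 2976736795) (nat_lit 380) (nat_lit 1611898215) (nat_lit 76) (nat_lit 4541905097) (nat_lit 118) (nat_lit 5) (nat_lit 123) (nat_lit 5) (nat_lit 119) (nat_lit 5) (nat_lit 347) (nat_lit 285) (nat_lit 268)))) (XT.nd (nat_lit 156) (nat_lit 304) (nat_lit 0) (XT.nd (nat_lit 78) (nat_lit 380) (nat_lit 0) (XT.lf (nat_lit 0) (nat_lit 4931561001) (nat_lit 380) (nat_lit 1525187828) (nat_lit 456) (nat_lit 2806494112) (nat_lit 113) (nat_lit 5) (nat_lit 118) (nat_lit 5) (nat_lit 119) (nat_lit 5) (nat_lit 348) (nat_lit 285) (nat_lit 267)) (XT.lf (nat_lit 0) (nat_lit 607877982) (nat_lit 380) (nat_lit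 7180520009) (nat_lit 76) (nat_lit 1612010097) (nat_lit 108) (nat_lit 5) (nat_lit 113) (nat_lit 5) (nat_lit 109) (nat_lit 5) (nat_lit 349) (nat_lit 285) (nat_lit 266))) (XT.nd (nat_lit 78) (nat_lit 304) (nat_lit 0) (XT.lf (nat_lit 0) (nat_lit 4053826501) (nat_lit 380) (nat_lit 633867045) (nat_lit 76) (nat_lit 4853634089) (nat_lit 108) (nat_lit 5) (nat_lit 113) (nat_lit 5) (nat_lit 109) (nat_lit 5) (nat_lit 350) (nat_lit 285) (nat_lit 265)) (XT.lf (nat_lit 0) (nat_lit 6124848497) (nat_lit 304) (nat_lit 1465605589) (nat_lit 380) (nat_lit 2096440159) (nat_lit 104) (nat_lit 5) (nat_lit 108) (nat_lit 5) (nat_lit 109) (nat_lit 5) (nat_lit 351) (nat_lit 285) (nat_lit 264)))))) (XT.nd (nat_lit 546) (nat_lit 1064) (nat_lit 0) (XT.nd (nat_lit 234) (nat_lit 912) (nat_lit 0) (XT.nd (nat_lit 78) (nat_lit 304) (nat_lit 0) (XT.lf (nat_lit 0) (nat_lit 1353185718) (nat_lit 380) (nat_lit 6647979817) (nat_lit 76) (nat_lit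 1835773496) (nat_lit 99) (nat_lit 5) (nat_lit 104) (nat_lit 5) (nat_lit 100) (nat_lit 5) (nat_lit 352) (nat_lit 285) (nat_lit 263)) (XT.nd (nat_lit 78) (nat_lit 0) (nat_lit 0) (XT.lf (nat_lit 0) (nat_lit 86073937) (nat_lit 304) (nat_lit 4759303751) (nat_lit 380) (nat_lit 5146083585) (nat_lit 95) (nat_lit 5) (nat_lit 99) (nat_lit 5) (nat_lit 100) (nat_lit 5) (nat_lit 353) (nat_lit 285) (nat_lit 262)) (XT.lf (nat_lit 0) (nat_lit 7054368191) (nat_lit 304) (nat_lit 1385700006) (nat_lit 380) (nat_lit 1710653203) (nat_lit 95) (nat_lit 5) (nat_lit 99) (nat_lit 5) (nat_lit 100) (nat_lit 5) (nat_lit 354) (nat_lit 285) (nat_lit 261)))) (XT.nd (nat_lit 156) (nat_lit 304) (nat_lit 0) (XT.nd (nat_lit 78) (nat_lit 304) (nat_lit 0) (XT.lf (nat_lit 0) (nat_lit 1781614673) (nat_lit 304) (nat_lit 6462950049) (nat_lit 76) (nat_lit 2070016466) (nat_lit 91) (nat_lit 5) (nat_lit 95) (nat_lit 5) (nat_lit 92) (nat_lit 5) (nat_lit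 355) (nat_lit 285) (nat_lit 260)) (XT.lf (nat_lit 0) (nat_lit 464074016) (nat_lit 304) (nat_lit 4862552353) (nat_lit 380) (nat_lit 5156782841) (nat_lit 87) (nat_lit 5) (nat_lit 91) (nat_lit 5) (nat_lit 92) (nat_lit 5) (nat_lit 356) (nat_lit 285) (nat_lit 259))) (XT.nd (nat_lit 78) (nat_lit 304) (nat_lit 0) (XT.lf (nat_lit 0) (nat_lit 7629280294) (nat_lit 304) (nat_lit 1347553541) (nat_lit 380) (nat_lit 1680533262) (nat_lit 87) (nat_lit 5) (nat_lit 91) (nat_lit 5) (nat_lit 92) (nat_lit 5) (nat_lit 357) (nat_lit 285) (nat_lit 258)) (XT.lf (nat_lit 0) (nat_lit 1859607453) (nat_lit 304) (nat_lit 6724012695) (nat_lit 76) (nat_lit 2252503908) (nat_lit 83) (nat_lit 5) (nat_lit 87) (nat_lit 5) (nat_lit 84) (nat_lit 5) (nat_lit 358) (nat_lit 285) (nat_lit 257))))) (XT.nd (nat_lit 234) (nat_lit 532) (nat_lit 0) (XT.nd (nat_lit 78) (nat_lit 304) (nat_lit 0) (XT.lf (nat_lit 0) (nat_lit 385404840) (nat_lit 228) (nat_lit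 5070149569) (nat_lit 304) (nat_lit 5564716583) (nat_lit 80) (nat_lit 5) (nat_lit 83) (nat_lit 5) (nat_lit 84) (nat_lit 5) (nat_lit 359) (nat_lit 285) (nat_lit 256)) (XT.nd (nat_lit 78) (nat_lit 304) (nat_lit 0) (XT.lf (nat_lit 0) (nat_lit 7745837809) (nat_lit 228) (nat_lit 1417810830) (nat_lit 304) (nat_lit 2046192631) (nat_lit 80) (nat_lit 5) (nat_lit 83) (nat_lit 5) (nat_lit 84) (nat_lit 5) (nat_lit 360) (nat_lit 285) (nat_lit 255)) (XT.lf (nat_lit 0) (nat_lit 1544725460) (nat_lit 304) (nat_lit 7543971104) (nat_lit 76) (nat_lit 2316043652) (nat_lit 76) (nat_lit 5) (nat_lit 80) (nat_lit 5) (nat_lit 77) (nat_lit 5) (nat_lit 361) (nat_lit 285) (nat_lit 254)))) (XT.nd (nat_lit 156) (nat_lit 304) (nat_lit 0) (XT.nd (nat_lit 78) (nat_lit 228) (nat_lit 0) (XT.lf (nat_lit 0) (nat_lit 5189728977) (nat_lit 304) (nat_lit 261801215) (nat_lit 76) (nat_lit 6153748337) (nat_lit 76) (nat_lit 5) (nat_lit 80) (nat_lit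 5) (nat_lit 77) (nat_lit 5) (nat_lit 362) (nat_lit 285) (nat_lit 253)) (XT.lf (nat_lit 0) (nat_lit 7284856871) (nat_lit 228) (nat_lit 1669175161) (nat_lit 304) (nat_lit 2857526464) (nat_lit 73) (nat_lit 5) (nat_lit 76) (nat_lit 5) (nat_lit 77) (nat_lit 5) (nat_lit 363) (nat_lit 285) (nat_lit 252))) (XT.nd (nat_lit 78) (nat_lit 0) (nat_lit 0) (XT.lf (nat_lit 0) (nat_lit 784520109) (nat_lit 304) (nat_lit 9052548487) (nat_lit 76) (nat_lit 2186957040) (nat_lit 69) (nat_lit 5) (nat_lit 73) (nat_lit 5) (nat_lit 70) (nat_lit 5) (nat_lit 364) (nat_lit 285) (nat_lit 251)) (XT.lf (nat_lit 0) (nat_lit 4481708324) (nat_lit 304) (nat_lit 1596272075) (nat_lit 76) (nat_lit 6163960163) (nat_lit 69) (nat_lit 5) (nat_lit 73) (nat_lit 5) (nat_lit 70) (nat_lit 5) (nat_lit 365) (nat_lit 285) (nat_lit 250))))))))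
noncomputable def xc68 : XT := (XT.nd (nat_lit 2028) (nat_lit 1368) (nat_lit 0) (XT.nd (nat_lit 1014) (nat_lit 988) (nat_lit 0) (XT.nd (nat_lit 468) (nat_lit 684) (nat_lit 0) (XT.nd (nat_lit 234) (nat_lit 456) (nat_lit 0) (XT.nd (nat_lit 78) (nat_lit 228) (nat_lit 0) (XT.lf (nat_lit 0) (nat_lit 6108820602) (nat_lit 228) (nat_lit 2182066524) (nat_lit 304) (nat_lit 4175494876) (nat_lit 66) (nat_lit 5) (nat_lit 69) (nat_lit 5) (nat_lit 70) (nat_lit 5) (nat_lit 366) (nat_lit 285) (nat_lit 249)) (XT.nd (nat_lit 78) (nat_lit 76) (nat_lit 0) (XT.lf (nat_lit 0) (nat_lit 1293668937) (nat_lit 152) (nat_lit 10909772687) (nat_lit 228) (nat_lit 494462742) (nat_lit 64) (nat_lit 5) (nat_lit 66) (nat_lit 5) (nat_lit 67) (nat_lit 4) (nat_lit 367) (nat_lit 285) (nat_lit 248)) (XT.lf (nat_lit 0) (nat_lit 3262079104) (nat_lit 228) (nat_lit 3778379641) (nat_lit 76) (nat_lit 5894099925) (nat_lit 63) (nat_lit 5) (nat_lit 66)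 (nat_lit 5) (nat_lit 64) (nat_lit 5) (nat_lit 368) (nat_lit 285) (nat_lit 247)))) (XT.nd (nat_lit 78) (nat_lit 228) (nat_lit 0) (XT.lf (nat_lit 0) (nat_lit 4058553009) (nat_lit 228) (nat_lit 3046476121) (nat_lit 304) (nat_lit 6073646035) (nat_lit 60) (nat_lit 5) (nat_lit 63) (nat_lit 5) (nat_lit 64) (nat_lit 5) (nat_lit 369) (nat_lit 285) (nat_lit 246)) (XT.nd (nat_lit 78) (nat_lit 228) (nat_lit 0) (XT.lf (nat_lit 0) (nat_lit 11057082517) (nat_lit 304) (nat_lit 1323966116) (nat_lit 76) (nat_lit 1049270461) (nat_lit 60) (nat_lit 5) (nat_lit 64) (nat_lit 5) (nat_lit 61) (nat_lit 4) (nat_lit 370) (nat_lit 285) (nat_lit 245)) (XT.lf (nat_lit 0) (nat_lit 1451871023) (nat_lit 228) (nat_lit 6985247098) (nat_lit 76) (nat_lit 5250744308) (nat_lit 57) (nat_lit 5) (nat_lit 60) (nat_lit 5) (nat_lit 58) (nat_lit 5) (nat_lit 371) (nat_lit 285) (nat_lit 244))))) (XT.nd (nat_lit 234) (nat_lit 380) (nat_lit 0) (XT.nd (nat_lit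 78) (nat_lit 152) (nat_lit 0) (XT.lf (nat_lit 0) (nat_lit 949389816) (nat_lit 152) (nat_lit 4364056807) (nat_lit 228) (nat_lit 8639914909) (nat_lit 55) (nat_lit 5) (nat_lit 57) (nat_lit 5) (nat_lit 58) (nat_lit 5) (nat_lit 372) (nat_lit 285) (nat_lit 243)) (XT.nd (nat_lit 78) (nat_lit 152) (nat_lit 0) (XT.lf (nat_lit 0) (nat_lit 9176228340) (nat_lit 152) (nat_lit 132659093) (nat_lit 228) (nat_lit 4917413971) (nat_lit 55) (nat_lit 5) (nat_lit 57) (nat_lit 5) (nat_lit 58) (nat_lit 5) (nat_lit 373) (nat_lit 285) (nat_lit 242)) (XT.lf (nat_lit 0) (nat_lit 3074170876) (nat_lit 152) (nat_lit 10368860837) (nat_lit 228) (nat_lit 1063848412) (nat_lit 53) (nat_lit 5) (nat_lit 55) (nat_lit 5) (nat_lit 56) (nat_lit 4) (nat_lit 374) (nat_lit 285) (nat_lit 241)))) (XT.nd (nat_lit 156) (nat_lit 152) (nat_lit 0) (XT.nd (nat_lit 78) (nat_lit 152) (nat_lit 0) (XT.lf (nat_lit 0) (nat_lit 2850258680) (nat_lit 228) (nat_lit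 3366243196) (nat_lit 76) (nat_lit 8578502610) (nat_lit 52) (nat_lit 5) (nat_lit 55) (nat_lit 5) (nat_lit 53) (nat_lit 5) (nat_lit 375) (nat_lit 285) (nat_lit 240)) (XT.lf (nat_lit 0) (nat_lit 4942880358) (nat_lit 152) (nat_lit 1915344883) (nat_lit 228) (nat_lit 8233311298) (nat_lit 50) (nat_lit 5) (nat_lit 52) (nat_lit 5) (nat_lit 53) (nat_lit 5) (nat_lit 376) (nat_lit 285) (nat_lit 239))) (XT.nd (nat_lit 78) (nat_lit 152) (nat_lit 0) (XT.lf (nat_lit 0) (nat_lit 10995534647) (nat_lit 228) (nat_lit 1935740118) (nat_lit 76) (nat_lit 2465430765) (nat_lit 50) (nat_lit 5) (nat_lit 53) (nat_lit 5) (nat_lit 51) (nat_lit 4) (nat_lit 377) (nat_lit 285) (nat_lit 238)) (XT.lf (nat_lit 0) (nat_lit 6549325955) (nat_lit 152) (nat_lit 8741596720) (nat_lit 228) (nat_lit 419101814) (nat_lit 48) (nat_lit 5) (nat_lit 50) (nat_lit 5) (nat_lit 51) (nat_lit 4) (nat_lit 378) (nat_lit 285) (nat_lit 237)))))) (XT.nd (nat_lit 468)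 (nat_lit 380) (nat_lit 0) (XT.nd (nat_lit 234) (nat_lit 380) (nat_lit 0) (XT.nd (nat_lit 78) (nat_lit 152) (nat_lit 0) (XT.lf (nat_lit 0) (nat_lit 3582476283) (nat_lit 228) (nat_lit 822348190) (nat_lit 76) (nat_lit 11627712375) (nat_lit 47) (nat_lit 5) (nat_lit 50) (nat_lit 5) (nat_lit 48) (nat_lit 5) (nat_lit 379) (nat_lit 285) (nat_lit 236)) (XT.nd (nat_lit 78) (nat_lit 0) (nat_lit 0) (XT.lf (nat_lit 0) (nat_lit 7725593976) (nat_lit 228) (nat_lit 8530726531) (nat_lit 76) (nat_lit 107394631) (nat_lit 45) (nat_lit 5) (nat_lit 48) (nat_lit 5) (nat_lit 46) (nat_lit 4) (nat_lit 380) (nat_lit 285) (nat_lit 235)) (XT.lf (nat_lit 0) (nat_lit 11998815987) (nat_lit 228) (nat_lit 64499699) (nat_lit 76) (nat_lit 4641350921) (nat_lit 45) (nat_lit 5) (nat_lit 48) (nat_lit 5) (nat_lit 46) (nat_lit 4) (nat_lit 381) (nat_lit 285) (nat_lit 234)))) (XT.nd (nat_lit 78) (nat_lit 228) (nat_lit 0) (XT.lf (nat_lit 0) (nat_lit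 8747705861) (nat_lit 152) (nat_lit 7691774710) (nat_lit 228) (nat_lit 615200473) (nat_lit 43) (nat_lit 5) (nat_lit 45) (nat_lit 5) (nat_lit 46) (nat_lit 4) (nat_lit 382) (nat_lit 285) (nat_lit 233)) (XT.nd (nat_lit 78) (nat_lit 0) (nat_lit 0) (XT.lf (nat_lit 0) (nat_lit 302902740) (nat_lit 152) (nat_lit 3183887485) (nat_lit 228) (nat_lit 13928614148) (nat_lit 40) (nat_lit 5) (nat_lit 42) (nat_lit 5) (nat_lit 43) (nat_lit 5) (nat_lit 383) (nat_lit 285) (nat_lit 232)) (XT.lf (nat_lit 0) (nat_lit 7753709201) (nat_lit 228) (nat_lit 8543094532) (nat_lit 76) (nat_lit 1488346731) (nat_lit 40) (nat_lit 5) (nat_lit 43) (nat_lit 5) (nat_lit 41) (nat_lit 4) (nat_lit 384) (nat_lit 285) (nat_lit 231))))) (XT.nd (nat_lit 234) (nat_lit 228) (nat_lit 0) (XT.nd (nat_lit 78) (nat_lit 76) (nat_lit 0) (XT.lf (nat_lit 0) (nat_lit 178584316) (nat_lit 76) (nat_lit 11960079795) (nat_lit 152) (nat_lit 6027634462) (nat_lit 39)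 (nat_lit 5) (nat_lit 40) (nat_lit 5) (nat_lit 41) (nat_lit 4) (nat_lit 385) (nat_lit 285) (nat_lit 230)) (XT.nd (nat_lit 78) (nat_lit 76) (nat_lit 0) (XT.lf (nat_lit 0) (nat_lit 9261019607) (nat_lit 76) (nat_lit 7437732489) (nat_lit 152) (nat_lit 1858831676) (nat_lit 39) (nat_lit 5) (nat_lit 40) (nat_lit 5) (nat_lit 41) (nat_lit 4) (nat_lit 386) (nat_lit 285) (nat_lit 229)) (XT.lf (nat_lit 0) (nat_lit 2345658040) (nat_lit 152) (nat_lit 442734167) (nat_lit 76) (nat_lit 16172778527) (nat_lit 38) (nat_lit 5) (nat_lit 40) (nat_lit 5) (nat_lit 39) (nat_lit 5) (nat_lit 387) (nat_lit 285) (nat_lit 228)))) (XT.nd (nat_lit 156) (nat_lit 76) (nat_lit 0) (XT.nd (nat_lit 78) (nat_lit 0) (nat_lit 0) (XT.lf (nat_lit 0) (nat_lit 6702393998) (nat_lit 228) (nat_lit 10638247464) (nat_lit 76) (nat_lit 2033776865) (nat_lit 36) (nat_lit 5) (nat_lit 39) (nat_lit 5) (nat_lit 37) (nat_lit 4) (nat_lit 388) (nat_lit 285) (nat_lit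 227)) (XT.lf (nat_lit 0) (nat_lit 11181503294) (nat_lit 228) (nat_lit 1700735070) (nat_lit 76) (nat_lit 6918083889) (nat_lit 36) (nat_lit 5) (nat_lit 39) (nat_lit 5) (nat_lit 37) (nat_lit 4) (nat_lit 389) (nat_lit 285) (nat_lit 226))) (XT.nd (nat_lit 78) (nat_lit 0) (nat_lit 0) (XT.lf (nat_lit 0) (nat_lit 7582305053) (nat_lit 76) (nat_lit 8246293179) (nat_lit 152) (nat_lit 4409405476) (nat_lit 35) (nat_lit 5) (nat_lit 36) (nat_lit 5) (nat_lit 37) (nat_lit 4) (nat_lit 390) (nat_lit 285) (nat_lit 225)) (XT.lf (nat_lit 0) (nat_lit 17108835779) (nat_lit 76) (nat_lit 3484643244) (nat_lit 152) (nat_lit 95993916) (nat_lit 35) (nat_lit 5) (nat_lit 36) (nat_lit 5) (nat_lit 37) (nat_lit 4) (nat_lit 391) (nat_lit 285) (nat_lit 224))))))) (XT.nd (nat_lit 1014) (nat_lit 456) (nat_lit 0) (XT.nd (nat_lit 468) (nat_lit 380) (nat_lit 0) (XT.nd (nat_lit 234) (nat_lit 228) (nat_lit 0) (XT.nd (nat_lit 78) (nat_lit 76) (nat_lit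 0) (XT.lf (nat_lit 0) (nat_lit 4293717409) (nat_lit 228) (nat_lit 15398167571) (nat_lit 76) (nat_lit 1460404190) (nat_lit 32) (nat_lit 5) (nat_lit 35) (nat_lit 5) (nat_lit 33) (nat_lit 4) (nat_lit 392) (nat_lit 285) (nat_lit 223)) (XT.nd (nat_lit 78) (nat_lit 76) (nat_lit 0) (XT.lf (nat_lit 0) (nat_lit 8846319369) (nat_lit 228) (nat_lit 6290158512) (nat_lit 76) (nat_lit 6491497435) (nat_lit 32) (nat_lit 5) (nat_lit 35) (nat_lit 5) (nat_lit 33) (nat_lit 4) (nat_lit 393) (nat_lit 285) (nat_lit 222)) (XT.lf (nat_lit 0) (nat_lit 3084517590) (nat_lit 76) (nat_lit 10443847456) (nat_lit 152) (nat_lit 8589788605) (nat_lit 31) (nat_lit 5) (nat_lit 32) (nat_lit 5) (nat_lit 33) (nat_lit 4) (nat_lit 394) (nat_lit 285) (nat_lit 221)))) (XT.nd (nat_lit 78) (nat_lit 228) (nat_lit 0) (XT.lf (nat_lit 0) (nat_lit 12803267323) (nat_lit 76) (nat_lit 5574774343) (nat_lit 152) (nat_lit 4244187935) (nat_lit 31) (nat_lit 5) (nat_lit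 32) (nat_lit 5) (nat_lit 33) (nat_lit 4) (nat_lit 395) (nat_lit 285) (nat_lit 220)) (XT.nd (nat_lit 78) (nat_lit 152) (nat_lit 0) (XT.lf (nat_lit 0) (nat_lit 191611477) (nat_lit 152) (nat_lit 394975903) (nat_lit 76) (nat_lit 22555849934) (nat_lit 30) (nat_lit 5) (nat_lit 32) (nat_lit 5) (nat_lit 31) (nat_lit 5) (nat_lit 396) (nat_lit 285) (nat_lit 219)) (XT.lf (nat_lit 0) (nat_lit 4775620578) (nat_lit 228) (nat_lit 14330183370) (nat_lit 76) (nat_lit 4568180199) (nat_lit 28) (nat_lit 5) (nat_lit 31) (nat_lit 5) (nat_lit 29) (nat_lit 4) (nat_lit 397) (nat_lit 285) (nat_lit 218))))) (XT.nd (nat_lit 234) (nat_lit 304) (nat_lit 0) (XT.nd (nat_lit 78) (nat_lit 76) (nat_lit 0) (XT.lf (nat_lit 0) (nat_lit 9472514828) (nat_lit 228) (nat_lit 4907520757) (nat_lit 76) (nat_lit 9842187388) (nat_lit 28) (nat_lit 5) (nat_lit 31) (nat_lit 5) (nat_lit 29) (nat_lit 4) (nat_lit 398) (nat_lit 285) (nat_lit 217)) (XT.nd (nat_lit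 78) (nat_lit 0) (nat_lit 0) (XT.lf (nat_lit 0) (nat_lit 4830773822) (nat_lit 76) (nat_lit 9492511550) (nat_lit 152) (nat_lit 10463240852) (nat_lit 27) (nat_lit 5) (nat_lit 28) (nat_lit 5) (nat_lit 29) (nat_lit 4) (nat_lit 399) (nat_lit 285) (nat_lit 216)) (XT.lf (nat_lit 0) (nat_lit 14901104011) (nat_lit 76) (nat_lit 4434955631) (nat_lit 152) (nat_lit 6031210670) (nat_lit 27) (nat_lit 5) (nat_lit 28) (nat_lit 5) (nat_lit 29) (nat_lit 4) (nat_lit 400) (nat_lit 285) (nat_lit 215)))) (XT.nd (nat_lit 156) (nat_lit 76) (nat_lit 0) (XT.nd (nat_lit 78) (nat_lit 228) (nat_lit 0) (XT.lf (nat_lit 0) (nat_lit 24474290162) (nat_lit 152) (nat_lit 758991612) (nat_lit 0) (nat_lit 732908737) (nat_lit 27) (nat_lit 5) (nat_lit 29) (nat_lit 4) (nat_lit 27) (nat_lit 4) (nat_lit 401) (nat_lit 285) (nat_lit 214)) (XT.lf (nat_lit 0) (nat_lit 3224537868) (nat_lit 228) (nat_lit 17292209955) (nat_lit 76) (nat_lit 6062325895) (nat_lit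 24) (nat_lit 5) (nat_lit 27) (nat_lit 5) (nat_lit 25) (nat_lit 4) (nat_lit 402) (nat_lit 285) (nat_lit 213))) (XT.nd (nat_lit 78) (nat_lit 76) (nat_lit 0) (XT.lf (nat_lit 0) (nat_lit 8028847258) (nat_lit 228) (nat_lit 7633287528) (nat_lit 76) (nat_lit 11548480056) (nat_lit 24) (nat_lit 5) (nat_lit 27) (nat_lit 5) (nat_lit 25) (nat_lit 4) (nat_lit 403) (nat_lit 285) (nat_lit 212)) (XT.lf (nat_lit 0) (nat_lit 2304071810) (nat_lit 76) (nat_lit 10664899678) (nat_lit 152) (nat_lit 14892385456) (nat_lit 23) (nat_lit 5) (nat_lit 24) (nat_lit 5) (nat_lit 25) (nat_lit 4) (nat_lit 404) (nat_lit 285) (nat_lit 211)))))) (XT.nd (nat_lit 546) (nat_lit 228) (nat_lit 0) (XT.nd (nat_lit 234) (nat_lit 152) (nat_lit 0) (XT.nd (nat_lit 78) (nat_lit 76) (nat_lit 0) (XT.lf (nat_lit 0) (nat_lit 12640287217) (nat_lit 76) (nat_lit 5463982333) (nat_lit 152) (nat_lit 10425947815) (nat_lit 23) (nat_lit 5) (nat_lit 24) (nat_lit 5)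 (nat_lit 25) (nat_lit 4) (nat_lit 405) (nat_lit 285) (nat_lit 210)) (XT.nd (nat_lit 78) (nat_lit 76) (nat_lit 0) (XT.lf (nat_lit 0) (nat_lit 23232472946) (nat_lit 76) (nat_lit 131919499) (nat_lit 152) (nat_lit 5855633185) (nat_lit 23) (nat_lit 5) (nat_lit 24) (nat_lit 5) (nat_lit 25) (nat_lit 4) (nat_lit 406) (nat_lit 285) (nat_lit 209)) (XT.lf (nat_lit 0) (nat_lit 4188948907) (nat_lit 76) (nat_lit 24656546623) (nat_lit 76) (nat_lit 1083142177) (nat_lit 22) (nat_lit 4) (nat_lit 23) (nat_lit 5) (nat_lit 23) (nat_lit 4) (nat_lit 407) (nat_lit 285) (nat_lit 208)))) (XT.nd (nat_lit 156) (nat_lit 76) (nat_lit 0) (XT.nd (nat_lit 78) (nat_lit 0) (nat_lit 0) (XT.lf (nat_lit 0) (nat_lit 3791532395) (nat_lit 152) (nat_lit 15955171174) (nat_lit 76) (nat_lit 10909690091) (nat_lit 21) (nat_lit 5) (nat_lit 23) (nat_lit 5) (nat_lit 22) (nat_lit 4) (nat_lit 408) (nat_lit 285) (nat_lit 207)) (XT.lf (nat_lit 0) (nat_lit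 8762937179) (nat_lit 152) (nat_lit 5939508291) (nat_lit 76) (nat_lit 16704051743) (nat_lit 21) (nat_lit 5) (nat_lit 23) (nat_lit 5) (nat_lit 22) (nat_lit 4) (nat_lit 409) (nat_lit 285) (nat_lit 206))) (XT.nd (nat_lit 78) (nat_lit 0) (nat_lit 0) (XT.lf (nat_lit 0) (nat_lit 4412568326) (nat_lit 76) (nat_lit 9486400103) (nat_lit 152) (nat_lit 18279675231) (nat_lit 20) (nat_lit 5) (nat_lit 21) (nat_lit 5) (nat_lit 22) (nat_lit 4) (nat_lit 410) (nat_lit 285) (nat_lit 205)) (XT.lf (nat_lit 0) (nat_lit 15147291861) (nat_lit 76) (nat_lit 4075141135) (nat_lit 152) (nat_lit 13750525129) (nat_lit 20) (nat_lit 5) (nat_lit 21) (nat_lit 5) (nat_lit 22) (nat_lit 4) (nat_lit 411) (nat_lit 285) (nat_lit 204))))) (XT.nd (nat_lit 234) (nat_lit 76) (nat_lit 0) (XT.nd (nat_lit 78) (nat_lit 152) (nat_lit 0) (XT.lf (nat_lit 0) (nat_lit 24693940984) (nat_lit 152) (nat_lit 7650236279) (nat_lit 0) (nat_lit 1447278647) (nat_lit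 20) (nat_lit 5) (nat_lit 22) (nat_lit 4) (nat_lit 20) (nat_lit 4) (nat_lit 412) (nat_lit 285) (nat_lit 203)) (XT.nd (nat_lit 78) (nat_lit 76) (nat_lit 0) (XT.lf (nat_lit 0) (nat_lit 2797328328) (nat_lit 76) (nat_lit 27574198020) (nat_lit 76) (nat_lit 4261728270) (nat_lit 19) (nat_lit 4) (nat_lit 20) (nat_lit 5) (nat_lit 20) (nat_lit 4) (nat_lit 413) (nat_lit 285) (nat_lit 202)) (XT.lf (nat_lit 0) (nat_lit 757845687) (nat_lit 152) (nat_lit 21837933694) (nat_lit 76) (nat_lit 12902741854) (nat_lit 18) (nat_lit 5) (nat_lit 20) (nat_lit 5) (nat_lit 19) (nat_lit 4) (nat_lit 414) (nat_lit 285) (nat_lit 201)))) (XT.nd (nat_lit 156) (nat_lit 76) (nat_lit 0) (XT.nd (nat_lit 78) (nat_lit 0) (nat_lit 0) (XT.lf (nat_lit 0) (nat_lit 5817815683) (nat_lit 152) (nat_lit 11628224399) (nat_lit 76) (nat_lit 18943179564) (nat_lit 18) (nat_lit 5) (nat_lit 20) (nat_lit 5) (nat_lit 19) (nat_lit 4) (nat_lit 415) (nat_lit 285)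 (nat_lit 200)) (XT.lf (nat_lit 0) (nat_lit 11005764718) (nat_lit 152) (nat_lit 1156910963) (nat_lit 76) (nat_lit 25144681444) (nat_lit 18) (nat_lit 5) (nat_lit 20) (nat_lit 5) (nat_lit 19) (nat_lit 4) (nat_lit 416) (nat_lit 285) (nat_lit 199))) (XT.nd (nat_lit 78) (nat_lit 0) (nat_lit 0) (XT.lf (nat_lit 0) (nat_lit 9775919710) (nat_lit 76) (nat_lit 6644278361) (nat_lit 152) (nat_lit 21830718692) (nat_lit 17) (nat_lit 5) (nat_lit 18) (nat_lit 5) (nat_lit 19) (nat_lit 4) (nat_lit 417) (nat_lit 285) (nat_lit 198)) (XT.lf (nat_lit 0) (nat_lit 21017490624) (nat_lit 76) (nat_lit 968390682) (nat_lit 152) (nat_lit 17237240689) (nat_lit 17) (nat_lit 5) (nat_lit 18) (nat_lit 5) (nat_lit 19) (nat_lit 4) (nat_lit 418) (nat_lit 285) (nat_lit 197))))))))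
noncomputable def xc69 : XT := (XT.nd (nat_lit 2028) (nat_lit 0) (nat_lit 0) (XT.nd (nat_lit 1014) (nat_lit 304) (nat_lit 0) (XT.nd (nat_lit 468) (nat_lit 152) (nat_lit 0) (XT.nd (nat_lit 234) (nat_lit 152) (nat_lit 0) (XT.nd (nat_lit 78) (nat_lit 76) (nat_lit 0) (XT.lf (nat_lit 0) (nat_lit 27743035984) (nat_lit 152) (nat_lit 7717263483) (nat_lit 0) (nat_lit 4763462101) (nat_lit 17) (nat_lit 5) (nat_lit 19) (nat_lit 4) (nat_lit 17) (nat_lit 4) (nat_lit 419) (nat_lit 285) (nat_lit 196)) (XT.nd (nat_lit 78) (nat_lit 0) (nat_lit 0) (XT.lf (nat_lit 0) (nat_lit 3095612189) (nat_lit 76) (nat_lit 30594902914) (nat_lit 76) (nat_lit 7563380052) (nat_lit 16) (nat_lit 4) (nat_lit 17) (nat_lit 5) (nat_lit 17) (nat_lit 4) (nat_lit 420) (nat_lit 285) (nat_lit 195)) (XT.lf (nat_lit 0) (nat_lit 14350510286) (nat_lit 76) (nat_lit 25522345570) (nat_lit 76) (nat_lit 2440386806) (nat_lit 16) (nat_lit 4) (nat_lit 17) (nat_lit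 5) (nat_lit 17) (nat_lit 4) (nat_lit 421) (nat_lit 285) (nat_lit 194)))) (XT.nd (nat_lit 78) (nat_lit 76) (nat_lit 0) (XT.lf (nat_lit 0) (nat_lit 2759874413) (nat_lit 152) (nat_lit 17528380600) (nat_lit 76) (nat_lit 23115932775) (nat_lit 15) (nat_lit 5) (nat_lit 17) (nat_lit 5) (nat_lit 16) (nat_lit 4) (nat_lit 422) (nat_lit 285) (nat_lit 193)) (XT.nd (nat_lit 78) (nat_lit 76) (nat_lit 0) (XT.lf (nat_lit 0) (nat_lit 8046632491) (nat_lit 152) (nat_lit 6843802377) (nat_lit 76) (nat_lit 29637318153) (nat_lit 15) (nat_lit 5) (nat_lit 17) (nat_lit 5) (nat_lit 16) (nat_lit 4) (nat_lit 423) (nat_lit 285) (nat_lit 192)) (XT.lf (nat_lit 0) (nat_lit 4205868465) (nat_lit 76) (nat_lit 9306688576) (nat_lit 152) (nat_lit 32171853949) (nat_lit 14) (nat_lit 5) (nat_lit 15) (nat_lit 5) (nat_lit 16) (nat_lit 4) (nat_lit 424) (nat_lit 285) (nat_lit 191))))) (XT.nd (nat_lit 234) (nat_lit 152) (nat_lit 0) (XT.nd (nat_lit 78)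 (nat_lit 0) (nat_lit 0) (XT.lf (nat_lit 0) (nat_lit 15690172110) (nat_lit 76) (nat_lit 3501752069) (nat_lit 152) (nat_lit 27682363188) (nat_lit 14) (nat_lit 5) (nat_lit 15) (nat_lit 5) (nat_lit 16) (nat_lit 4) (nat_lit 425) (nat_lit 285) (nat_lit 190)) (XT.nd (nat_lit 78) (nat_lit 0) (nat_lit 0) (XT.lf (nat_lit 0) (nat_lit 25046250631) (nat_lit 152) (nat_lit 20641146706) (nat_lit 0) (nat_lit 2412327886) (nat_lit 14) (nat_lit 5) (nat_lit 16) (nat_lit 4) (nat_lit 14) (nat_lit 4) (nat_lit 426) (nat_lit 285) (nat_lit 189)) (XT.lf (nat_lit 0) (nat_lit 31092202604) (nat_lit 152) (nat_lit 9851975347) (nat_lit 0) (nat_lit 8417270856) (nat_lit 14) (nat_lit 5) (nat_lit 16) (nat_lit 4) (nat_lit 14) (nat_lit 4) (nat_lit 427) (nat_lit 285) (nat_lit 188)))) (XT.nd (nat_lit 156) (nat_lit 76) (nat_lit 0) (XT.nd (nat_lit 78) (nat_lit 0) (nat_lit 0) (XT.lf (nat_lit 0) (nat_lit 1250896733) (nat_lit 76) (nat_lit 36062529637)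 (nat_lit 76) (nat_lit 13347783322) (nat_lit 13) (nat_lit 4) (nat_lit 14) (nat_lit 5) (nat_lit 14) (nat_lit 4) (nat_lit 428) (nat_lit 285) (nat_lit 187)) (XT.lf (nat_lit 0) (nat_lit 12854763992) (nat_lit 76) (nat_lit 30948078155) (nat_lit 76) (nat_lit 8194676921) (nat_lit 13) (nat_lit 4) (nat_lit 14) (nat_lit 5) (nat_lit 14) (nat_lit 4) (nat_lit 429) (nat_lit 285) (nat_lit 186))) (XT.nd (nat_lit 78) (nat_lit 76) (nat_lit 0) (XT.lf (nat_lit 0) (nat_lit 24773692101) (nat_lit 76) (nat_lit 25695840201) (nat_lit 76) (nat_lit 2904909919) (nat_lit 13) (nat_lit 4) (nat_lit 14) (nat_lit 5) (nat_lit 14) (nat_lit 4) (nat_lit 430) (nat_lit 285) (nat_lit 185)) (XT.lf (nat_lit 0) (nat_lit 2476845722) (nat_lit 152) (nat_lit 17799369432) (nat_lit 76) (nat_lit 34516238652) (nat_lit 12) (nat_lit 5) (nat_lit 14) (nat_lit 5) (nat_lit 13) (nat_lit 4) (nat_lit 431) (nat_lit 285) (nat_lit 184)))))) (XT.nd (nat_lit 468) (nat_lit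 228) (nat_lit 0) (XT.nd (nat_lit 234) (nat_lit 0) (nat_lit 0) (XT.nd (nat_lit 78) (nat_lit 76) (nat_lit 0) (XT.lf (nat_lit 0) (nat_lit 7945094876) (nat_lit 152) (nat_lit 6734198378) (nat_lit 76) (nat_lit 41573348904) (nat_lit 12) (nat_lit 5) (nat_lit 14) (nat_lit 5) (nat_lit 13) (nat_lit 4) (nat_lit 432) (nat_lit 285) (nat_lit 183)) (XT.nd (nat_lit 78) (nat_lit 0) (nat_lit 0) (XT.lf (nat_lit 0) (nat_lit 4724548365) (nat_lit 76) (nat_lit 8882167761) (nat_lit 152) (nat_lit 44149042298) (nat_lit 11) (nat_lit 5) (nat_lit 12) (nat_lit 5) (nat_lit 13) (nat_lit 4) (nat_lit 433) (nat_lit 285) (nat_lit 182)) (XT.lf (nat_lit 0) (nat_lit 16634829308) (nat_lit 76) (nat_lit 2855445939) (nat_lit 152) (nat_lit 39812132199) (nat_lit 11) (nat_lit 5) (nat_lit 12) (nat_lit 5) (nat_lit 13) (nat_lit 4) (nat_lit 434) (nat_lit 285) (nat_lit 181)))) (XT.nd (nat_lit 78) (nat_lit 0) (nat_lit 0) (XT.lf (nat_lit 0) (nat_lit 25566979866)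 (nat_lit 152) (nat_lit 32054981778) (nat_lit 0) (nat_lit 3272997020) (nat_lit 11) (nat_lit 5) (nat_lit 13) (nat_lit 4) (nat_lit 11) (nat_lit 4) (nat_lit 435) (nat_lit 285) (nat_lit 180)) (XT.nd (nat_lit 78) (nat_lit 0) (nat_lit 0) (XT.lf (nat_lit 0) (nat_lit 31839127757) (nat_lit 152) (nat_lit 21181135871) (nat_lit 0) (nat_lit 9514630361) (nat_lit 11) (nat_lit 5) (nat_lit 13) (nat_lit 4) (nat_lit 11) (nat_lit 4) (nat_lit 436) (nat_lit 285) (nat_lit 179)) (XT.lf (nat_lit 0) (nat_lit 38284751144) (nat_lit 152) (nat_lit 10009090703) (nat_lit 0) (nat_lit 15930627972) (nat_lit 11) (nat_lit 5) (nat_lit 13) (nat_lit 4) (nat_lit 11) (nat_lit 4) (nat_lit 437) (nat_lit 285) (nat_lit 178))))) (XT.nd (nat_lit 234) (nat_lit 152) (nat_lit 0) (XT.nd (nat_lit 78) (nat_lit 0) (nat_lit 0) (XT.lf (nat_lit 0) (nat_lit 1500189811) (nat_lit 76) (nat_lit 43423713058) (nat_lit 76) (nat_lit 21040826996) (nat_lit 10) (nat_lit 4)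 (nat_lit 11) (nat_lit 5) (nat_lit 11) (nat_lit 4) (nat_lit 438) (nat_lit 285) (nat_lit 177)) (XT.nd (nat_lit 78) (nat_lit 0) (nat_lit 0) (XT.lf (nat_lit 0) (nat_lit 13532991842) (nat_lit 76) (nat_lit 38316204860) (nat_lit 76) (nat_lit 15905393661) (nat_lit 10) (nat_lit 4) (nat_lit 11) (nat_lit 5) (nat_lit 11) (nat_lit 4) (nat_lit 439) (nat_lit 285) (nat_lit 176)) (XT.lf (nat_lit 0) (nat_lit 25900628957) (nat_lit 76) (nat_lit 33067926571) (nat_lit 76) (nat_lit 10630003590) (nat_lit 10) (nat_lit 4) (nat_lit 11) (nat_lit 5) (nat_lit 11) (nat_lit 4) (nat_lit 440) (nat_lit 285) (nat_lit 175)))) (XT.nd (nat_lit 156) (nat_lit 76) (nat_lit 0) (XT.nd (nat_lit 78) (nat_lit 76) (nat_lit 0) (XT.lf (nat_lit 0) (nat_lit 38613907829) (nat_lit 76) (nat_lit 27674292319) (nat_lit 76) (nat_lit 5210047219) (nat_lit 10) (nat_lit 4) (nat_lit 11) (nat_lit 5) (nat_lit 11) (nat_lit 4) (nat_lit 441) (nat_lit 285) (nat_lit 174))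 (XT.lf (nat_lit 0) (nat_lit 352201829) (nat_lit 152) (nat_lit 21774830840) (nat_lit 76) (nat_lit 51328178772) (nat_lit 9) (nat_lit 5) (nat_lit 11) (nat_lit 5) (nat_lit 10) (nat_lit 4) (nat_lit 442) (nat_lit 285) (nat_lit 173))) (XT.nd (nat_lit 78) (nat_lit 76) (nat_lit 0) (XT.lf (nat_lit 0) (nat_lit 5963944235) (nat_lit 152) (nat_lit 10407804878) (nat_lit 76) (nat_lit 59097968952) (nat_lit 9) (nat_lit 5) (nat_lit 11) (nat_lit 5) (nat_lit 10) (nat_lit 4) (nat_lit 443) (nat_lit 285) (nat_lit 172)) (XT.lf (nat_lit 0) (nat_lit 1302162747) (nat_lit 76) (nat_lit 10442104687) (nat_lit 152) (nat_lit 65800387005) (nat_lit 8) (nat_lit 5) (nat_lit 9) (nat_lit 5) (nat_lit 10) (nat_lit 4) (nat_lit 444) (nat_lit 285) (nat_lit 171))))))) (XT.nd (nat_lit 38454) (nat_lit 0) (nat_lit 7600) (XT.nd (nat_lit 37908) (nat_lit 0) (nat_lit 11856) (XT.nd (nat_lit 234) (nat_lit 0) (nat_lit 0) (XT.nd (nat_lit 78) (nat_lit 0) (nat_lit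 0) (XT.lf (nat_lit 0) (nat_lit 13553530383) (nat_lit 76) (nat_lit 4237414143) (nat_lit 152) (nat_lit 61888107414) (nat_lit 8) (nat_lit 5) (nat_lit 9) (nat_lit 5) (nat_lit 10) (nat_lit 4) (nat_lit 445) (nat_lit 285) (nat_lit 170)) (XT.nd (nat_lit 78) (nat_lit 0) (nat_lit 0) (XT.lf (nat_lit 0) (nat_lit 24027818136) (nat_lit 152) (nat_lit 55748565735) (nat_lit 0) (nat_lit 2100834934) (nat_lit 8) (nat_lit 5) (nat_lit 10) (nat_lit 4) (nat_lit 8) (nat_lit 4) (nat_lit 446) (nat_lit 285) (nat_lit 169)) (XT.lf (nat_lit 0) (nat_lit 30482195501) (nat_lit 152) (nat_lit 45124414526) (nat_lit 0) (nat_lit 8533810008) (nat_lit 8) (nat_lit 5) (nat_lit 10) (nat_lit 4) (nat_lit 8) (nat_lit 4) (nat_lit 447) (nat_lit 285) (nat_lit 168)))) (XT.nd (nat_lit 37518) (nat_lit 0) (nat_lit 14820) (XT.lf (nat_lit 0) (nat_lit 37118983753) (nat_lit 152) (nat_lit 34203052074) (nat_lit 0) (nat_lit 15149819336) (nat_lit 8) (nat_lit 5) (nat_lit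 10) (nat_lit 4) (nat_lit 8) (nat_lit 4) (nat_lit 448) (nat_lit 285) (nat_lit 167)) (XT.nd (nat_lit 78) (nat_lit 0) (nat_lit 0) (XT.lf (nat_lit 0) (nat_lit 149394397) (nat_lit 608) (nat_lit 1755286518) (nat_lit 608) (nat_lit 1755286518) (nat_lit 203) (nat_lit 4) (nat_lit 211) (nat_lit 5) (nat_lit 211) (nat_lit 4) (nat_lit 328) (nat_lit 286) (nat_lit 286)) (XT.lf (nat_lit 0) (nat_lit 5633773787) (nat_lit 608) (nat_lit 1653770084) (nat_lit 608) (nat_lit 98313631) (nat_lit 203) (nat_lit 4) (nat_lit 211) (nat_lit 5) (nat_lit 211) (nat_lit 4) (nat_lit 329) (nat_lit 286) (nat_lit 285))))) (XT.nd (nat_lit 234) (nat_lit 1672) (nat_lit 0) (XT.nd (nat_lit 78) (nat_lit 684) (nat_lit 0) (XT.lf (nat_lit 0) (nat_lit 3290413657) (nat_lit 608) (nat_lit 3850129231) (nat_lit 0) (nat_lit 314094871) (nat_lit 195) (nat_lit 5) (nat_lit 203) (nat_lit 4) (nat_lit 195) (nat_lit 4) (nat_lit 330) (nat_lit 286) (nat_lit 284)) (XT.nd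 (nat_lit 78) (nat_lit 76) (nat_lit 0) (XT.lf (nat_lit 0) (nat_lit 1538505900) (nat_lit 608) (nat_lit 5194100117) (nat_lit 608) (nat_lit 794318331) (nat_lit 187) (nat_lit 4) (nat_lit 195) (nat_lit 5) (nat_lit 195) (nat_lit 4) (nat_lit 331) (nat_lit 286) (nat_lit 283)) (XT.lf (nat_lit 0) (nat_lit 2569216091) (nat_lit 684) (nat_lit 566276032) (nat_lit 76) (nat_lit 4466853217) (nat_lit 186) (nat_lit 5) (nat_lit 195) (nat_lit 5) (nat_lit 187) (nat_lit 4) (nat_lit 332) (nat_lit 286) (nat_lit 282)))) (XT.nd (nat_lit 156) (nat_lit 532) (nat_lit 0) (XT.nd (nat_lit 78) (nat_lit 608) (nat_lit 0) (XT.lf (nat_lit 0) (nat_lit 5003771856) (nat_lit 532) (nat_lit 970270978) (nat_lit 608) (nat_lit 1707137901) (nat_lit 179) (nat_lit 5) (nat_lit 186) (nat_lit 5) (nat_lit 187) (nat_lit 4) (nat_lit 333) (nat_lit 286) (nat_lit 281)) (XT.lf (nat_lit 0) (nat_lit 1640427496) (nat_lit 608) (nat_lit 4850714114) (nat_lit 76) (nat_lit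 1272157795) (nat_lit 171) (nat_lit 5) (nat_lit 179) (nat_lit 5) (nat_lit 172) (nat_lit 4) (nat_lit 334) (nat_lit 286) (nat_lit 280))) (XT.nd (nat_lit 78) (nat_lit 76) (nat_lit 0) (XT.lf (nat_lit 0) (nat_lit 759157608) (nat_lit 456) (nat_lit 4249626247) (nat_lit 532) (nat_lit 2840022044) (nat_lit 165) (nat_lit 5) (nat_lit 171) (nat_lit 5) (nat_lit 172) (nat_lit 4) (nat_lit 335) (nat_lit 286) (nat_lit 279)) (XT.lf (nat_lit 0) (nat_lit 491336053) (nat_lit 532) (nat_lit 1412096441) (nat_lit 76) (nat_lit 6034538921) (nat_lit 164) (nat_lit 5) (nat_lit 171) (nat_lit 5) (nat_lit 165) (nat_lit 5) (nat_lit 336) (nat_lit 286) (nat_lit 278)))))) (XT.nd (nat_lit 546) (nat_lit 1976) (nat_lit 0) (XT.nd (nat_lit 234) (nat_lit 1292) (nat_lit 0) (XT.nd (nat_lit 78) (nat_lit 532) (nat_lit 0) (XT.lf (nat_lit 0) (nat_lit 3826899364) (nat_lit 532) (nat_lit 3647129390) (nat_lit 76) (nat_lit 556164720) (nat_lit 158) (nat_lit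 5) (nat_lit 165) (nat_lit 5) (nat_lit 159) (nat_lit 4) (nat_lit 337) (nat_lit 286) (nat_lit 277)) (XT.nd (nat_lit 78) (nat_lit 76) (nat_lit 0) (XT.lf (nat_lit 0) (nat_lit 2173678947) (nat_lit 456) (nat_lit 5058035293) (nat_lit 532) (nat_lit 894456041) (nat_lit 152) (nat_lit 5) (nat_lit 158) (nat_lit 5) (nat_lit 159) (nat_lit 4) (nat_lit 338) (nat_lit 286) (nat_lit 276)) (XT.lf (nat_lit 0) (nat_lit 2417411931) (nat_lit 532) (nat_lit 111296524) (nat_lit 76) (nat_lit 5697068575) (nat_lit 151) (nat_lit 5) (nat_lit 158) (nat_lit 5) (nat_lit 152) (nat_lit 5) (nat_lit 339) (nat_lit 286) (nat_lit 275)))) (XT.nd (nat_lit 156) (nat_lit 380) (nat_lit 0) (XT.nd (nat_lit 78) (nat_lit 456) (nat_lit 0) (XT.lf (nat_lit 0) (nat_lit 5786705086) (nat_lit 532) (nat_lit 2422145058) (nat_lit 76) (nat_lit 120032980) (nat_lit 145) (nat_lit 5) (nat_lit 152) (nat_lit 5) (nat_lit 146) (nat_lit 4) (nat_lit 340) (nat_lit 286) (nat_lit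 274)) (XT.lf (nat_lit 0) (nat_lit 785873092) (nat_lit 456) (nat_lit 4830291799) (nat_lit 76) (nat_lit 2819337790) (nat_lit 139) (nat_lit 5) (nat_lit 145) (nat_lit 5) (nat_lit 140) (nat_lit 5) (nat_lit 341) (nat_lit 286) (nat_lit 273))) (XT.nd (nat_lit 78) (nat_lit 0) (nat_lit 0) (XT.lf (nat_lit 0) (nat_lit 1211195299) (nat_lit 380) (nat_lit 2907599457) (nat_lit 456) (nat_lit 4427140525) (nat_lit 134) (nat_lit 5) (nat_lit 139) (nat_lit 5) (nat_lit 140) (nat_lit 5) (nat_lit 342) (nat_lit 286) (nat_lit 272)) (XT.lf (nat_lit 0) (nat_lit 7428498091) (nat_lit 380) (nat_lit 93095383) (nat_lit 456) (nat_lit 1139042434) (nat_lit 134) (nat_lit 5) (nat_lit 139) (nat_lit 5) (nat_lit 140) (nat_lit 5) (nat_lit 343) (nat_lit 286) (nat_lit 271))))) (XT.nd (nat_lit 234) (nat_lit 1140) (nat_lit 0) (XT.nd (nat_lit 78) (nat_lit 380) (nat_lit 0) (XT.lf (nat_lit 0) (nat_lit 2202181754) (nat_lit 456) (nat_lit 3779428553) (nat_lit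 76) (nat_lit 2796617508) (nat_lit 128) (nat_lit 5) (nat_lit 134) (nat_lit 5) (nat_lit 129) (nat_lit 5) (nat_lit 344) (nat_lit 286) (nat_lit 270)) (XT.nd (nat_lit 78) (nat_lit 0) (nat_lit 0) (XT.lf (nat_lit 0) (nat_lit 2474853677) (nat_lit 380) (nat_lit 3106800714) (nat_lit 456) (nat_lit 3318574940) (nat_lit 123) (nat_lit 5) (nat_lit 128) (nat_lit 5) (nat_lit 129) (nat_lit 5) (nat_lit 345) (nat_lit 286) (nat_lit 269)) (XT.lf (nat_lit 0) (nat_lit 8891194282) (nat_lit 380) (nat_lit 134344068) (nat_lit 456) (nat_lit 1507693) (nat_lit 123) (nat_lit 5) (nat_lit 128) (nat_lit 5) (nat_lit 129) (nat_lit 5) (nat_lit 346) (nat_lit 286) (nat_lit 268)))) (XT.nd (nat_lit 156) (nat_lit 380) (nat_lit 0) (XT.nd (nat_lit 78) (nat_lit 380) (nat_lit 0) (XT.lf (nat_lit 0) (nat_lit 3364377405) (nat_lit 380) (nat_lit 2854383004) (nat_lit 76) (nat_lit 2937486954) (nat_lit 118) (nat_lit 5) (nat_lit 123) (nat_lit 5) (nat_lit 119)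 (nat_lit 5) (nat_lit 347) (nat_lit 286) (nat_lit 267)) (XT.lf (nat_lit 0) (nat_lit 3612847358) (nat_lit 380) (nat_lit 3183001669) (nat_lit 456) (nat_lit 2494578103) (nat_lit 113) (nat_lit 5) (nat_lit 118) (nat_lit 5) (nat_lit 119) (nat_lit 5) (nat_lit 348) (nat_lit 286) (nat_lit 266))) (XT.nd (nat_lit 78) (nat_lit 0) (nat_lit 0) (XT.lf (nat_lit 0) (nat_lit 808684385) (nat_lit 304) (nat_lit 39827737) (nat_lit 380) (nat_lit 8580965594) (nat_lit 108) (nat_lit 5) (nat_lit 112) (nat_lit 5) (nat_lit 113) (nat_lit 5) (nat_lit 349) (nat_lit 286) (nat_lit 265)) (XT.lf (nat_lit 0) (nat_lit 4258819084) (nat_lit 380) (nat_lit 2124917551) (nat_lit 76) (nat_lit 3187748838) (nat_lit 108) (nat_lit 5) (nat_lit 113) (nat_lit 5) (nat_lit 109) (nat_lit 5) (nat_lit 350) (nat_lit 286) (nat_lit 264))))))))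
noncomputable def xc70 : XT := (XT.nd (nat_lit 2028) (nat_lit 1976) (nat_lit 0) (XT.nd (nat_lit 1014) (nat_lit 1748) (nat_lit 0) (XT.nd (nat_lit 468) (nat_lit 1368) (nat_lit 0) (XT.nd (nat_lit 234) (nat_lit 608) (nat_lit 0) (XT.nd (nat_lit 78) (nat_lit 380) (nat_lit 0) (XT.lf (nat_lit 0) (nat_lit 4553464700) (nat_lit 304) (nat_lit 3192645111) (nat_lit 380) (nat_lit 1972440788) (nat_lit 104) (nat_lit 5) (nat_lit 108) (nat_lit 5) (nat_lit 109) (nat_lit 5) (nat_lit 351) (nat_lit 286) (nat_lit 263)) (XT.nd (nat_lit 78) (nat_lit 0) (nat_lit 0) (XT.lf (nat_lit 0) (nat_lit 1407587706) (nat_lit 380) (nat_lit 8351254155) (nat_lit 76) (nat_lit 111750450) (nat_lit 99) (nat_lit 5) (nat_lit 104) (nat_lit 5) (nat_lit 100) (nat_lit 5) (nat_lit 352) (nat_lit 286) (nat_lit 262)) (XT.lf (nat_lit 0) (nat_lit 4865258433) (nat_lit 380) (nat_lit 1669139930) (nat_lit 76) (nat_lit 3491768675) (nat_lit 99) (nat_lit 5) (nat_lit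 104) (nat_lit 5) (nat_lit 100) (nat_lit 5) (nat_lit 353) (nat_lit 286) (nat_lit 261)))) (XT.nd (nat_lit 78) (nat_lit 304) (nat_lit 0) (XT.lf (nat_lit 0) (nat_lit 5216167993) (nat_lit 304) (nat_lit 3194225966) (nat_lit 380) (nat_lit 1776536213) (nat_lit 95) (nat_lit 5) (nat_lit 99) (nat_lit 5) (nat_lit 100) (nat_lit 5) (nat_lit 354) (nat_lit 286) (nat_lit 260)) (XT.nd (nat_lit 78) (nat_lit 0) (nat_lit 0) (XT.lf (nat_lit 0) (nat_lit 1647872530) (nat_lit 304) (nat_lit 8444023426) (nat_lit 76) (nat_lit 261002765) (nat_lit 91) (nat_lit 5) (nat_lit 95) (nat_lit 5) (nat_lit 92) (nat_lit 5) (nat_lit 355) (nat_lit 286) (nat_lit 259)) (XT.lf (nat_lit 0) (nat_lit 5156188713) (nat_lit 304) (nat_lit 1575375345) (nat_lit 76) (nat_lit 3791278518) (nat_lit 91) (nat_lit 5) (nat_lit 95) (nat_lit 5) (nat_lit 92) (nat_lit 5) (nat_lit 356) (nat_lit 286) (nat_lit 258))))) (XT.nd (nat_lit 234) (nat_lit 760) (nat_lit 0) (XT.nd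 (nat_lit 78) (nat_lit 304) (nat_lit 0) (XT.lf (nat_lit 0) (nat_lit 5509641176) (nat_lit 304) (nat_lit 3249545019) (nat_lit 380) (nat_lit 1939045100) (nat_lit 87) (nat_lit 5) (nat_lit 91) (nat_lit 5) (nat_lit 92) (nat_lit 5) (nat_lit 357) (nat_lit 286) (nat_lit 257)) (XT.nd (nat_lit 78) (nat_lit 0) (nat_lit 0) (XT.lf (nat_lit 0) (nat_lit 1534668703) (nat_lit 304) (nat_lit 8997836050) (nat_lit 76) (nat_lit 346715893) (nat_lit 83) (nat_lit 5) (nat_lit 87) (nat_lit 5) (nat_lit 84) (nat_lit 5) (nat_lit 358) (nat_lit 286) (nat_lit 256)) (XT.lf (nat_lit 0) (nat_lit 5096039863) (nat_lit 304) (nat_lit 1944288606) (nat_lit 76) (nat_lit 4024089687) (nat_lit 83) (nat_lit 5) (nat_lit 87) (nat_lit 5) (nat_lit 84) (nat_lit 5) (nat_lit 359) (nat_lit 286) (nat_lit 255)))) (XT.nd (nat_lit 156) (nat_lit 228) (nat_lit 0) (XT.nd (nat_lit 78) (nat_lit 304) (nat_lit 0) (XT.lf (nat_lit 0) (nat_lit 5329573765) (nat_lit 228) (nat_lit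 3425066575) (nat_lit 304) (nat_lit 2500845819) (nat_lit 80) (nat_lit 5) (nat_lit 83) (nat_lit 5) (nat_lit 84) (nat_lit 5) (nat_lit 360) (nat_lit 286) (nat_lit 254)) (XT.lf (nat_lit 0) (nat_lit 1024791434) (nat_lit 304) (nat_lit 10126117156) (nat_lit 76) (nat_lit 301844381) (nat_lit 76) (nat_lit 5) (nat_lit 80) (nat_lit 5) (nat_lit 77) (nat_lit 5) (nat_lit 361) (nat_lit 286) (nat_lit 253))) (XT.nd (nat_lit 78) (nat_lit 228) (nat_lit 0) (XT.lf (nat_lit 0) (nat_lit 4640200336) (nat_lit 304) (nat_lit 2891302290) (nat_lit 76) (nat_lit 4122688313) (nat_lit 76) (nat_lit 5) (nat_lit 80) (nat_lit 5) (nat_lit 77) (nat_lit 5) (nat_lit 362) (nat_lit 286) (nat_lit 252)) (XT.lf (nat_lit 0) (nat_lit 4556132811) (nat_lit 228) (nat_lit 3793407780) (nat_lit 304) (nat_lit 3512590672) (nat_lit 73) (nat_lit 5) (nat_lit 76) (nat_lit 5) (nat_lit 77) (nat_lit 5) (nat_lit 363) (nat_lit 286) (nat_lit 251)))))) (XT.nd (nat_lit 468)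 (nat_lit 760) (nat_lit 0) (XT.nd (nat_lit 234) (nat_lit 456) (nat_lit 0) (XT.nd (nat_lit 78) (nat_lit 228) (nat_lit 0) (XT.lf (nat_lit 0) (nat_lit 65051999) (nat_lit 304) (nat_lit 11959296605) (nat_lit 76) (nat_lit 52765118) (nat_lit 69) (nat_lit 5) (nat_lit 73) (nat_lit 5) (nat_lit 70) (nat_lit 5) (nat_lit 364) (nat_lit 286) (nat_lit 250)) (XT.nd (nat_lit 78) (nat_lit 228) (nat_lit 0) (XT.lf (nat_lit 0) (nat_lit 3733842785) (nat_lit 304) (nat_lit 4549363601) (nat_lit 76) (nat_lit 4012684683) (nat_lit 69) (nat_lit 5) (nat_lit 73) (nat_lit 5) (nat_lit 70) (nat_lit 5) (nat_lit 365) (nat_lit 286) (nat_lit 249)) (XT.lf (nat_lit 0) (nat_lit 3051067704) (nat_lit 228) (nat_lit 4434990572) (nat_lit 304) (nat_lit 5035993325) (nat_lit 66) (nat_lit 5) (nat_lit 69) (nat_lit 5) (nat_lit 70) (nat_lit 5) (nat_lit 366) (nat_lit 286) (nat_lit 248)))) (XT.nd (nat_lit 78) (nat_lit 456) (nat_lit 0) (XT.lf (nat_lit 0) (nat_lit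 10882327895) (nat_lit 228) (nat_lit 459244990) (nat_lit 304) (nat_lit 1413722173) (nat_lit 66) (nat_lit 5) (nat_lit 69) (nat_lit 5) (nat_lit 70) (nat_lit 5) (nat_lit 367) (nat_lit 286) (nat_lit 247)) (XT.nd (nat_lit 78) (nat_lit 228) (nat_lit 0) (XT.lf (nat_lit 0) (nat_lit 2310526471) (nat_lit 228) (nat_lit 7072120453) (nat_lit 76) (nat_lit 3611083799) (nat_lit 63) (nat_lit 5) (nat_lit 66) (nat_lit 5) (nat_lit 64) (nat_lit 5) (nat_lit 368) (nat_lit 286) (nat_lit 246)) (XT.lf (nat_lit 0) (nat_lit 654384353) (nat_lit 228) (nat_lit 5439891044) (nat_lit 304) (nat_lit 7145356911) (nat_lit 60) (nat_lit 5) (nat_lit 63) (nat_lit 5) (nat_lit 64) (nat_lit 5) (nat_lit 369) (nat_lit 286) (nat_lit 245))))) (XT.nd (nat_lit 234) (nat_lit 532) (nat_lit 0) (XT.nd (nat_lit 78) (nat_lit 228) (nat_lit 0) (XT.lf (nat_lit 0) (nat_lit 8669211020) (nat_lit 228) (nat_lit 1340705048) (nat_lit 304) (nat_lit 3482461344) (nat_lit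 60) (nat_lit 5) (nat_lit 63) (nat_lit 5) (nat_lit 64) (nat_lit 5) (nat_lit 370) (nat_lit 286) (nat_lit 244)) (XT.nd (nat_lit 78) (nat_lit 0) (nat_lit 0) (XT.lf (nat_lit 0) (nat_lit 290544470) (nat_lit 228) (nat_lit 10637576413) (nat_lit 76) (nat_lit 2824340429) (nat_lit 57) (nat_lit 5) (nat_lit 60) (nat_lit 5) (nat_lit 58) (nat_lit 5) (nat_lit 371) (nat_lit 286) (nat_lit 243)) (XT.lf (nat_lit 0) (nat_lit 4117543923) (nat_lit 228) (nat_lit 2764465984) (nat_lit 76) (nat_lit 7136995840) (nat_lit 57) (nat_lit 5) (nat_lit 60) (nat_lit 5) (nat_lit 58) (nat_lit 5) (nat_lit 372) (nat_lit 286) (nat_lit 242)))) (XT.nd (nat_lit 156) (nat_lit 380) (nat_lit 0) (XT.nd (nat_lit 78) (nat_lit 0) (nat_lit 0) (XT.lf (nat_lit 0) (nat_lit 5364775347) (nat_lit 152) (nat_lit 2695988715) (nat_lit 228) (nat_lit 6232755990) (nat_lit 55) (nat_lit 5) (nat_lit 57) (nat_lit 5) (nat_lit 58) (nat_lit 5) (nat_lit 373) (nat_lit 286) (nat_lit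 241)) (XT.lf (nat_lit 0) (nat_lit 12116167814) (nat_lit 228) (nat_lit 881763576) (nat_lit 76) (nat_lit 1578537183) (nat_lit 55) (nat_lit 5) (nat_lit 58) (nat_lit 5) (nat_lit 56) (nat_lit 4) (nat_lit 374) (nat_lit 286) (nat_lit 240))) (XT.nd (nat_lit 78) (nat_lit 152) (nat_lit 0) (XT.lf (nat_lit 0) (nat_lit 1447845306) (nat_lit 228) (nat_lit 7438063505) (nat_lit 76) (nat_lit 5980090304) (nat_lit 52) (nat_lit 5) (nat_lit 55) (nat_lit 5) (nat_lit 53) (nat_lit 5) (nat_lit 375) (nat_lit 286) (nat_lit 239)) (XT.lf (nat_lit 0) (nat_lit 748436202) (nat_lit 152) (nat_lit 4643288618) (nat_lit 228) (nat_lit 9772735902) (nat_lit 50) (nat_lit 5) (nat_lit 52) (nat_lit 5) (nat_lit 53) (nat_lit 5) (nat_lit 376) (nat_lit 286) (nat_lit 238))))))) (XT.nd (nat_lit 1014) (nat_lit 912) (nat_lit 0) (XT.nd (nat_lit 468) (nat_lit 532) (nat_lit 0) (XT.nd (nat_lit 234) (nat_lit 304) (nat_lit 0) (XT.nd (nat_lit 78) (nat_lit 228)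 (nat_lit 0) (XT.lf (nat_lit 0) (nat_lit 9251041895) (nat_lit 152) (nat_lit 230358099) (nat_lit 228) (nat_lit 5989665484) (nat_lit 50) (nat_lit 5) (nat_lit 52) (nat_lit 5) (nat_lit 53) (nat_lit 5) (nat_lit 377) (nat_lit 286) (nat_lit 237)) (XT.nd (nat_lit 78) (nat_lit 76) (nat_lit 0) (XT.lf (nat_lit 0) (nat_lit 2141513024) (nat_lit 152) (nat_lit 11567752286) (nat_lit 228) (nat_lit 2077151353) (nat_lit 48) (nat_lit 5) (nat_lit 50) (nat_lit 5) (nat_lit 51) (nat_lit 4) (nat_lit 378) (nat_lit 286) (nat_lit 236)) (XT.lf (nat_lit 0) (nat_lit 1933902934) (nat_lit 228) (nat_lit 5330418576) (nat_lit 76) (nat_lit 8845778173) (nat_lit 47) (nat_lit 5) (nat_lit 50) (nat_lit 5) (nat_lit 48) (nat_lit 5) (nat_lit 379) (nat_lit 286) (nat_lit 235)))) (XT.nd (nat_lit 78) (nat_lit 152) (nat_lit 0) (XT.lf (nat_lit 0) (nat_lit 3196870018) (nat_lit 152) (nat_lit 2812310117) (nat_lit 228) (nat_lit 10434139040) (nat_lit 45) (nat_lit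 5) (nat_lit 47) (nat_lit 5) (nat_lit 48) (nat_lit 5) (nat_lit 380) (nat_lit 286) (nat_lit 234)) (XT.nd (nat_lit 78) (nat_lit 152) (nat_lit 0) (XT.lf (nat_lit 0) (nat_lit 10233278655) (nat_lit 228) (nat_lit 4791960762) (nat_lit 76) (nat_lit 1760510744) (nat_lit 45) (nat_lit 5) (nat_lit 48) (nat_lit 5) (nat_lit 46) (nat_lit 4) (nat_lit 381) (nat_lit 286) (nat_lit 233)) (XT.lf (nat_lit 0) (nat_lit 3887767089) (nat_lit 152) (nat_lit 10718012992) (nat_lit 228) (nat_lit 2532035056) (nat_lit 43) (nat_lit 5) (nat_lit 45) (nat_lit 5) (nat_lit 46) (nat_lit 4) (nat_lit 382) (nat_lit 286) (nat_lit 232))))) (XT.nd (nat_lit 234) (nat_lit 304) (nat_lit 0) (XT.nd (nat_lit 78) (nat_lit 152) (nat_lit 0) (XT.lf (nat_lit 0) (nat_lit 1583053129) (nat_lit 228) (nat_lit 4665359937) (nat_lit 76) (nat_lit 11251412699) (nat_lit 42) (nat_lit 5) (nat_lit 45) (nat_lit 5) (nat_lit 43) (nat_lit 5) (nat_lit 383) (nat_lit 286) (nat_lit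 231)) (XT.nd (nat_lit 78) (nat_lit 0) (nat_lit 0) (XT.lf (nat_lit 0) (nat_lit 4158637608) (nat_lit 152) (nat_lit 1609873138) (nat_lit 228) (nat_lit 12103510118) (nat_lit 40) (nat_lit 5) (nat_lit 42) (nat_lit 5) (nat_lit 43) (nat_lit 5) (nat_lit 384) (nat_lit 286) (nat_lit 230)) (XT.lf (nat_lit 0) (nat_lit 10115607241) (nat_lit 228) (nat_lit 5016431180) (nat_lit 76) (nat_lit 3122271317) (nat_lit 40) (nat_lit 5) (nat_lit 43) (nat_lit 5) (nat_lit 41) (nat_lit 4) (nat_lit 385) (nat_lit 286) (nat_lit 229)))) (XT.nd (nat_lit 156) (nat_lit 152) (nat_lit 0) (XT.nd (nat_lit 78) (nat_lit 76) (nat_lit 0) (XT.lf (nat_lit 0) (nat_lit 3929810228) (nat_lit 76) (nat_lit 10676290088) (nat_lit 152) (nat_lit 4041587336) (nat_lit 39) (nat_lit 5) (nat_lit 40) (nat_lit 5) (nat_lit 41) (nat_lit 4) (nat_lit 386) (nat_lit 286) (nat_lit 228)) (XT.lf (nat_lit 0) (nat_lit 185475313) (nat_lit 152) (nat_lit 5878766601) (nat_lit 76)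 (nat_lit 12988267365) (nat_lit 38) (nat_lit 5) (nat_lit 40) (nat_lit 5) (nat_lit 39) (nat_lit 5) (nat_lit 387) (nat_lit 286) (nat_lit 227))) (XT.nd (nat_lit 78) (nat_lit 0) (nat_lit 0) (XT.lf (nat_lit 0) (nat_lit 3177136737) (nat_lit 152) (nat_lit 1272063920) (nat_lit 228) (nat_lit 15019350987) (nat_lit 36) (nat_lit 5) (nat_lit 38) (nat_lit 5) (nat_lit 39) (nat_lit 5) (nat_lit 388) (nat_lit 286) (nat_lit 226)) (XT.lf (nat_lit 0) (nat_lit 8896735599) (nat_lit 228) (nat_lit 7376431171) (nat_lit 76) (nat_lit 3622240357) (nat_lit 36) (nat_lit 5) (nat_lit 39) (nat_lit 5) (nat_lit 37) (nat_lit 4) (nat_lit 389) (nat_lit 286) (nat_lit 225)))))) (XT.nd (nat_lit 546) (nat_lit 532) (nat_lit 0) (XT.nd (nat_lit 234) (nat_lit 228) (nat_lit 0) (XT.nd (nat_lit 78) (nat_lit 76) (nat_lit 0) (XT.lf (nat_lit 0) (nat_lit 1759235705) (nat_lit 76) (nat_lit 11709836917) (nat_lit 152) (nat_lit 6866262895) (nat_lit 35) (nat_lit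 5) (nat_lit 36) (nat_lit 5) (nat_lit 37) (nat_lit 4) (nat_lit 390) (nat_lit 286) (nat_lit 224)) (XT.nd (nat_lit 78) (nat_lit 76) (nat_lit 0) (XT.lf (nat_lit 0) (nat_lit 11252353068) (nat_lit 76) (nat_lit 6963043226) (nat_lit 152) (nat_lit 2571969247) (nat_lit 35) (nat_lit 5) (nat_lit 36) (nat_lit 5) (nat_lit 37) (nat_lit 4) (nat_lit 391) (nat_lit 286) (nat_lit 223)) (XT.lf (nat_lit 0) (nat_lit 1778086806) (nat_lit 152) (nat_lit 307083508) (nat_lit 76) (nat_lit 19168368433) (nat_lit 34) (nat_lit 5) (nat_lit 36) (nat_lit 5) (nat_lit 35) (nat_lit 5) (nat_lit 392) (nat_lit 286) (nat_lit 222)))) (XT.nd (nat_lit 156) (nat_lit 76) (nat_lit 0) (XT.nd (nat_lit 78) (nat_lit 0) (nat_lit 0) (XT.lf (nat_lit 0) (nat_lit 6289483904) (nat_lit 228) (nat_lit 12471629653) (nat_lit 76) (nat_lit 2969351213) (nat_lit 32) (nat_lit 5) (nat_lit 35) (nat_lit 5) (nat_lit 33) (nat_lit 4) (nat_lit 393) (nat_lit 286) (nat_lit 221))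 (XT.lf (nat_lit 0) (nat_lit 10924286594) (nat_lit 228) (nat_lit 3189074000) (nat_lit 76) (nat_lit 8108703423) (nat_lit 32) (nat_lit 5) (nat_lit 35) (nat_lit 5) (nat_lit 33) (nat_lit 4) (nat_lit 394) (nat_lit 286) (nat_lit 220))) (XT.nd (nat_lit 78) (nat_lit 0) (nat_lit 0) (XT.lf (nat_lit 0) (nat_lit 6434589549) (nat_lit 76) (nat_lit 9290724001) (nat_lit 152) (nat_lit 7002289425) (nat_lit 31) (nat_lit 5) (nat_lit 32) (nat_lit 5) (nat_lit 33) (nat_lit 4) (nat_lit 395) (nat_lit 286) (nat_lit 219)) (XT.lf (nat_lit 0) (nat_lit 16350022073) (nat_lit 76) (nat_lit 4318290507) (nat_lit 152) (nat_lit 2580064216) (nat_lit 31) (nat_lit 5) (nat_lit 32) (nat_lit 5) (nat_lit 33) (nat_lit 4) (nat_lit 396) (nat_lit 286) (nat_lit 218))))) (XT.nd (nat_lit 234) (nat_lit 304) (nat_lit 0) (XT.nd (nat_lit 78) (nat_lit 0) (nat_lit 0) (XT.lf (nat_lit 0) (nat_lit 1937049193) (nat_lit 228) (nat_lit 21040650487) (nat_lit 76) (nat_lit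 806488463) (nat_lit 28) (nat_lit 5) (nat_lit 31) (nat_lit 5) (nat_lit 29) (nat_lit 4) (nat_lit 397) (nat_lit 286) (nat_lit 217)) (XT.nd (nat_lit 78) (nat_lit 0) (nat_lit 0) (XT.lf (nat_lit 0) (nat_lit 6617457292) (nat_lit 228) (nat_lit 11648191672) (nat_lit 76) (nat_lit 6067275715) (nat_lit 28) (nat_lit 5) (nat_lit 31) (nat_lit 5) (nat_lit 29) (nat_lit 4) (nat_lit 398) (nat_lit 286) (nat_lit 216)) (XT.lf (nat_lit 0) (nat_lit 11405785512) (nat_lit 228) (nat_lit 2033486963) (nat_lit 76) (nat_lit 11459831757) (nat_lit 28) (nat_lit 5) (nat_lit 31) (nat_lit 5) (nat_lit 29) (nat_lit 4) (nat_lit 399) (nat_lit 286) (nat_lit 215)))) (XT.nd (nat_lit 156) (nat_lit 228) (nat_lit 0) (XT.nd (nat_lit 78) (nat_lit 0) (nat_lit 0) (XT.lf (nat_lit 0) (nat_lit 7967336264) (nat_lit 76) (nat_lit 8415468475) (nat_lit 152) (nat_lit 9098119178) (nat_lit 27) (nat_lit 5) (nat_lit 28) (nat_lit 5) (nat_lit 29) (nat_lit 4) (nat_lit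 400) (nat_lit 286) (nat_lit 214)) (XT.lf (nat_lit 0) (nat_lit 18252641235) (nat_lit 76) (nat_lit 3245850493) (nat_lit 152) (nat_lit 4582031554) (nat_lit 27) (nat_lit 5) (nat_lit 28) (nat_lit 5) (nat_lit 29) (nat_lit 4) (nat_lit 401) (nat_lit 286) (nat_lit 213))) (XT.nd (nat_lit 78) (nat_lit 0) (nat_lit 0) (XT.lf (nat_lit 0) (nat_lit 78059752) (nat_lit 228) (nat_lit 24585167224) (nat_lit 76) (nat_lit 2034572730) (nat_lit 24) (nat_lit 5) (nat_lit 27) (nat_lit 5) (nat_lit 25) (nat_lit 4) (nat_lit 402) (nat_lit 286) (nat_lit 212)) (XT.lf (nat_lit 0) (nat_lit 4867362940) (nat_lit 228) (nat_lit 14953974600) (nat_lit 76) (nat_lit 7508456092) (nat_lit 24) (nat_lit 5) (nat_lit 27) (nat_lit 5) (nat_lit 25) (nat_lit 4) (nat_lit 403) (nat_lit 286) (nat_lit 211))))))))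
noncomputable def xc71 : XT := (XT.nd (nat_lit 2028) (nat_lit 380) (nat_lit 0) (XT.nd (nat_lit 1014) (nat_lit 380) (nat_lit 0) (XT.nd (nat_lit 468) (nat_lit 228) (nat_lit 0) (XT.nd (nat_lit 234) (nat_lit 152) (nat_lit 0) (XT.nd (nat_lit 78) (nat_lit 76) (nat_lit 0) (XT.lf (nat_lit 0) (nat_lit 9770769896) (nat_lit 228) (nat_lit 5088498140) (nat_lit 76) (nat_lit 13122371758) (nat_lit 24) (nat_lit 5) (nat_lit 27) (nat_lit 5) (nat_lit 25) (nat_lit 4) (nat_lit 404) (nat_lit 286) (nat_lit 210)) (XT.nd (nat_lit 78) (nat_lit 0) (nat_lit 0) (XT.lf (nat_lit 0) (nat_lit 5119787978) (nat_lit 76) (nat_lit 9721991703) (nat_lit 152) (nat_lit 13810651649) (nat_lit 23) (nat_lit 5) (nat_lit 24) (nat_lit 5) (nat_lit 25) (nat_lit 4) (nat_lit 405) (nat_lit 286) (nat_lit 209)) (XT.lf (nat_lit 0) (nat_lit 15686091963) (nat_lit 76) (nat_lit 4401829022) (nat_lit 152) (nat_lit 9254740452) (nat_lit 23) (nat_lit 5) (nat_lit 24) (nat_lit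 5) (nat_lit 25) (nat_lit 4) (nat_lit 406) (nat_lit 286) (nat_lit 208)))) (XT.nd (nat_lit 78) (nat_lit 152) (nat_lit 0) (XT.lf (nat_lit 0) (nat_lit 25474026929) (nat_lit 152) (nat_lit 3546190784) (nat_lit 0) (nat_lit 1033908042) (nat_lit 23) (nat_lit 5) (nat_lit 25) (nat_lit 4) (nat_lit 23) (nat_lit 4) (nat_lit 407) (nat_lit 286) (nat_lit 207)) (XT.nd (nat_lit 78) (nat_lit 0) (nat_lit 0) (XT.lf (nat_lit 0) (nat_lit 314038170) (nat_lit 152) (nat_lit 23878910228) (nat_lit 76) (nat_lit 6591407221) (nat_lit 21) (nat_lit 5) (nat_lit 23) (nat_lit 5) (nat_lit 22) (nat_lit 4) (nat_lit 408) (nat_lit 286) (nat_lit 206)) (XT.lf (nat_lit 0) (nat_lit 5272175967) (nat_lit 152) (nat_lit 13887957322) (nat_lit 76) (nat_lit 12374726019) (nat_lit 21) (nat_lit 5) (nat_lit 23) (nat_lit 5) (nat_lit 22) (nat_lit 4) (nat_lit 409) (nat_lit 286) (nat_lit 205))))) (XT.nd (nat_lit 234) (nat_lit 152) (nat_lit 0) (XT.nd (nat_lit 78)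 (nat_lit 76) (nat_lit 0) (XT.lf (nat_lit 0) (nat_lit 10352910343) (nat_lit 152) (nat_lit 3645976075) (nat_lit 76) (nat_lit 18309780311) (nat_lit 21) (nat_lit 5) (nat_lit 23) (nat_lit 5) (nat_lit 22) (nat_lit 4) (nat_lit 410) (nat_lit 286) (nat_lit 204)) (XT.nd (nat_lit 78) (nat_lit 0) (nat_lit 0) (XT.lf (nat_lit 0) (nat_lit 6992430315) (nat_lit 76) (nat_lit 8635465976) (nat_lit 152) (nat_lit 17476541267) (nat_lit 20) (nat_lit 5) (nat_lit 21) (nat_lit 5) (nat_lit 22) (nat_lit 4) (nat_lit 411) (nat_lit 286) (nat_lit 203)) (XT.lf (nat_lit 0) (nat_lit 17977909587) (nat_lit 76) (nat_lit 3094942815) (nat_lit 152) (nat_lit 12850881444) (nat_lit 20) (nat_lit 5) (nat_lit 21) (nat_lit 5) (nat_lit 22) (nat_lit 4) (nat_lit 412) (nat_lit 286) (nat_lit 202)))) (XT.nd (nat_lit 156) (nat_lit 76) (nat_lit 0) (XT.nd (nat_lit 78) (nat_lit 76) (nat_lit 0) (XT.lf (nat_lit 0) (nat_lit 26681695005) (nat_lit 152) (nat_lit 5545748664)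 (nat_lit 0) (nat_lit 2540153059) (nat_lit 20) (nat_lit 5) (nat_lit 22) (nat_lit 4) (nat_lit 20) (nat_lit 4) (nat_lit 413) (nat_lit 286) (nat_lit 201)) (XT.lf (nat_lit 0) (nat_lit 5192360580) (nat_lit 76) (nat_lit 27323144657) (nat_lit 76) (nat_lit 3119572914) (nat_lit 19) (nat_lit 4) (nat_lit 20) (nat_lit 5) (nat_lit 20) (nat_lit 4) (nat_lit 414) (nat_lit 286) (nat_lit 200))) (XT.nd (nat_lit 78) (nat_lit 0) (nat_lit 0) (XT.lf (nat_lit 0) (nat_lit 1989537164) (nat_lit 152) (nat_lit 20225034402) (nat_lit 76) (nat_lit 14312458365) (nat_lit 18) (nat_lit 5) (nat_lit 20) (nat_lit 5) (nat_lit 19) (nat_lit 4) (nat_lit 415) (nat_lit 286) (nat_lit 199)) (XT.lf (nat_lit 0) (nat_lit 7166093947) (nat_lit 152) (nat_lit 9775093168) (nat_lit 76) (nat_lit 20504323744) (nat_lit 18) (nat_lit 5) (nat_lit 20) (nat_lit 5) (nat_lit 19) (nat_lit 4) (nat_lit 416) (nat_lit 286) (nat_lit 198)))))) (XT.nd (nat_lit 468) (nat_lit 228)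 (nat_lit 0) (XT.nd (nat_lit 234) (nat_lit 76) (nat_lit 0) (XT.nd (nat_lit 78) (nat_lit 0) (nat_lit 0) (XT.lf (nat_lit 0) (nat_lit 965056111) (nat_lit 76) (nat_lit 11519715339) (nat_lit 152) (nat_lit 25907173353) (nat_lit 17) (nat_lit 5) (nat_lit 18) (nat_lit 5) (nat_lit 19) (nat_lit 4) (nat_lit 417) (nat_lit 286) (nat_lit 197)) (XT.nd (nat_lit 78) (nat_lit 0) (nat_lit 0) (XT.lf (nat_lit 0) (nat_lit 12186080742) (nat_lit 76) (nat_lit 5853438147) (nat_lit 152) (nat_lit 21324960801) (nat_lit 17) (nat_lit 5) (nat_lit 18) (nat_lit 5) (nat_lit 19) (nat_lit 4) (nat_lit 418) (nat_lit 286) (nat_lit 196)) (XT.lf (nat_lit 0) (nat_lit 23703241984) (nat_lit 76) (nat_lit 36113698) (nat_lit 152) (nat_lit 16627484655) (nat_lit 17) (nat_lit 5) (nat_lit 18) (nat_lit 5) (nat_lit 19) (nat_lit 4) (nat_lit 419) (nat_lit 286) (nat_lit 195)))) (XT.nd (nat_lit 78) (nat_lit 76) (nat_lit 0) (XT.lf (nat_lit 0) (nat_lit 29646335624)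 (nat_lit 152) (nat_lit 5930372573) (nat_lit 0) (nat_lit 5821482195) (nat_lit 17) (nat_lit 5) (nat_lit 19) (nat_lit 4) (nat_lit 17) (nat_lit 4) (nat_lit 420) (nat_lit 286) (nat_lit 194)) (XT.nd (nat_lit 78) (nat_lit 0) (nat_lit 0) (XT.lf (nat_lit 0) (nat_lit 5187101048) (nat_lit 76) (nat_lit 30573155608) (nat_lit 76) (nat_lit 6699335284) (nat_lit 16) (nat_lit 4) (nat_lit 17) (nat_lit 5) (nat_lit 17) (nat_lit 4) (nat_lit 421) (nat_lit 286) (nat_lit 193)) (XT.lf (nat_lit 0) (nat_lit 16721433840) (nat_lit 76) (nat_lit 25375788371) (nat_lit 76) (nat_lit 1454427372) (nat_lit 16) (nat_lit 4) (nat_lit 17) (nat_lit 5) (nat_lit 17) (nat_lit 4) (nat_lit 422) (nat_lit 286) (nat_lit 192))))) (XT.nd (nat_lit 234) (nat_lit 76) (nat_lit 0) (XT.nd (nat_lit 78) (nat_lit 76) (nat_lit 0) (XT.lf (nat_lit 0) (nat_lit 3850925787) (nat_lit 152) (nat_lit 16150137644) (nat_lit 76) (nat_lit 24674865716) (nat_lit 15) (nat_lit 5)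 (nat_lit 17) (nat_lit 5) (nat_lit 16) (nat_lit 4) (nat_lit 423) (nat_lit 286) (nat_lit 191)) (XT.nd (nat_lit 78) (nat_lit 76) (nat_lit 0) (XT.lf (nat_lit 0) (nat_lit 9266919953) (nat_lit 152) (nat_lit 5200481134) (nat_lit 76) (nat_lit 31366685230) (nat_lit 15) (nat_lit 5) (nat_lit 17) (nat_lit 5) (nat_lit 16) (nat_lit 4) (nat_lit 424) (nat_lit 286) (nat_lit 190)) (XT.lf (nat_lit 0) (nat_lit 6162555958) (nat_lit 76) (nat_lit 8723350962) (nat_lit 152) (nat_lit 32139868428) (nat_lit 14) (nat_lit 5) (nat_lit 15) (nat_lit 5) (nat_lit 16) (nat_lit 4) (nat_lit 425) (nat_lit 286) (nat_lit 189)))) (XT.nd (nat_lit 156) (nat_lit 76) (nat_lit 0) (XT.nd (nat_lit 78) (nat_lit 0) (nat_lit 0) (XT.lf (nat_lit 0) (nat_lit 17938072845) (nat_lit 76) (nat_lit 2769388834) (nat_lit 152) (nat_lit 27544735890) (nat_lit 14) (nat_lit 5) (nat_lit 15) (nat_lit 5) (nat_lit 16) (nat_lit 4) (nat_lit 426) (nat_lit 286) (nat_lit 188))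 (XT.lf (nat_lit 0) (nat_lit 26717860992) (nat_lit 152) (nat_lit 19515270197) (nat_lit 0) (nat_lit 3281857721) (nat_lit 14) (nat_lit 5) (nat_lit 16) (nat_lit 4) (nat_lit 14) (nat_lit 4) (nat_lit 427) (nat_lit 286) (nat_lit 187))) (XT.nd (nat_lit 78) (nat_lit 76) (nat_lit 0) (XT.lf (nat_lit 0) (nat_lit 32918388917) (nat_lit 152) (nat_lit 8453252171) (nat_lit 0) (nat_lit 9443730727) (nat_lit 14) (nat_lit 5) (nat_lit 16) (nat_lit 4) (nat_lit 14) (nat_lit 4) (nat_lit 428) (nat_lit 286) (nat_lit 186)) (XT.lf (nat_lit 0) (nat_lit 2966095460) (nat_lit 76) (nat_lit 36350258796) (nat_lit 76) (nat_lit 12838071558) (nat_lit 13) (nat_lit 4) (nat_lit 14) (nat_lit 5) (nat_lit 14) (nat_lit 4) (nat_lit 429) (nat_lit 286) (nat_lit 185))))))) (XT.nd (nat_lit 1014) (nat_lit 152) (nat_lit 0) (XT.nd (nat_lit 468) (nat_lit 76) (nat_lit 0) (XT.nd (nat_lit 234) (nat_lit 76) (nat_lit 0) (XT.nd (nat_lit 78) (nat_lit 76) (nat_lit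 0) (XT.lf (nat_lit 0) (nat_lit 14869214509) (nat_lit 76) (nat_lit 31105504257) (nat_lit 76) (nat_lit 7556881050) (nat_lit 13) (nat_lit 4) (nat_lit 14) (nat_lit 5) (nat_lit 14) (nat_lit 4) (nat_lit 430) (nat_lit 286) (nat_lit 184)) (XT.nd (nat_lit 78) (nat_lit 76) (nat_lit 0) (XT.lf (nat_lit 0) (nat_lit 27098269464) (nat_lit 76) (nat_lit 25718155948) (nat_lit 76) (nat_lit 2134158015) (nat_lit 13) (nat_lit 4) (nat_lit 14) (nat_lit 5) (nat_lit 14) (nat_lit 4) (nat_lit 431) (nat_lit 286) (nat_lit 183)) (XT.lf (nat_lit 0) (nat_lit 3367809831) (nat_lit 152) (nat_lit 16781688370) (nat_lit 76) (nat_lit 36262127800) (nat_lit 12) (nat_lit 5) (nat_lit 14) (nat_lit 5) (nat_lit 13) (nat_lit 4) (nat_lit 432) (nat_lit 286) (nat_lit 182)))) (XT.nd (nat_lit 78) (nat_lit 76) (nat_lit 0) (XT.lf (nat_lit 0) (nat_lit 8976320282) (nat_lit 152) (nat_lit 5429756227) (nat_lit 76) (nat_lit 43510260040) (nat_lit 12) (nat_lit 5)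 (nat_lit 14) (nat_lit 5) (nat_lit 13) (nat_lit 4) (nat_lit 433) (nat_lit 286) (nat_lit 181)) (XT.nd (nat_lit 78) (nat_lit 0) (nat_lit 0) (XT.lf (nat_lit 0) (nat_lit 6357983623) (nat_lit 76) (nat_lit 8441052292) (nat_lit 152) (nat_lit 44665775890) (nat_lit 11) (nat_lit 5) (nat_lit 12) (nat_lit 5) (nat_lit 13) (nat_lit 4) (nat_lit 434) (nat_lit 286) (nat_lit 180)) (XT.lf (nat_lit 0) (nat_lit 18582125456) (nat_lit 76) (nat_lit 2254137957) (nat_lit 152) (nat_lit 40222284828) (nat_lit 11) (nat_lit 5) (nat_lit 12) (nat_lit 5) (nat_lit 13) (nat_lit 4) (nat_lit 435) (nat_lit 286) (nat_lit 179))))) (XT.nd (nat_lit 234) (nat_lit 76) (nat_lit 0) (XT.nd (nat_lit 78) (nat_lit 0) (nat_lit 0) (XT.lf (nat_lit 0) (nat_lit 27079507220) (nat_lit 152) (nat_lit 31594709768) (nat_lit 0) (nat_lit 4025134576) (nat_lit 11) (nat_lit 5) (nat_lit 13) (nat_lit 4) (nat_lit 11) (nat_lit 4) (nat_lit 436) (nat_lit 286) (nat_lit 178))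 (XT.nd (nat_lit 78) (nat_lit 0) (nat_lit 0) (XT.lf (nat_lit 0) (nat_lit 33518105433) (nat_lit 152) (nat_lit 20436063671) (nat_lit 0) (nat_lit 10434969898) (nat_lit 11) (nat_lit 5) (nat_lit 13) (nat_lit 4) (nat_lit 11) (nat_lit 4) (nat_lit 437) (nat_lit 286) (nat_lit 177)) (XT.lf (nat_lit 0) (nat_lit 40136015857) (nat_lit 152) (nat_lit 8969066069) (nat_lit 0) (nat_lit 17024955186) (nat_lit 11) (nat_lit 5) (nat_lit 13) (nat_lit 4) (nat_lit 11) (nat_lit 4) (nat_lit 438) (nat_lit 286) (nat_lit 176)))) (XT.nd (nat_lit 156) (nat_lit 0) (nat_lit 0) (XT.nd (nat_lit 78) (nat_lit 0) (nat_lit 0) (XT.lf (nat_lit 0) (nat_lit 2872352690) (nat_lit 76) (nat_lit 44094279254) (nat_lit 76) (nat_lit 20956106801) (nat_lit 10) (nat_lit 4) (nat_lit 11) (nat_lit 5) (nat_lit 11) (nat_lit 4) (nat_lit 439) (nat_lit 286) (nat_lit 175)) (XT.lf (nat_lit 0) (nat_lit 15227483719) (nat_lit 76) (nat_lit 38851957805) (nat_lit 76) (nat_lit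 15687463233) (nat_lit 10) (nat_lit 4) (nat_lit 11) (nat_lit 5) (nat_lit 11) (nat_lit 4) (nat_lit 440) (nat_lit 286) (nat_lit 174))) (XT.nd (nat_lit 78) (nat_lit 0) (nat_lit 0) (XT.lf (nat_lit 0) (nat_lit 27928620759) (nat_lit 76) (nat_lit 33464106892) (nat_lit 76) (nat_lit 10274056865) (nat_lit 10) (nat_lit 4) (nat_lit 11) (nat_lit 5) (nat_lit 11) (nat_lit 4) (nat_lit 441) (nat_lit 286) (nat_lit 173)) (XT.lf (nat_lit 0) (nat_lit 40986861893) (nat_lit 76) (nat_lit 27926018684) (nat_lit 76) (nat_lit 4711157535) (nat_lit 10) (nat_lit 4) (nat_lit 11) (nat_lit 5) (nat_lit 11) (nat_lit 4) (nat_lit 442) (nat_lit 286) (nat_lit 172)))))) (XT.nd (nat_lit 37908) (nat_lit 0) (nat_lit 12388) (XT.nd (nat_lit 234) (nat_lit 0) (nat_lit 0) (XT.nd (nat_lit 78) (nat_lit 76) (nat_lit 0) (XT.lf (nat_lit 0) (nat_lit 986462993) (nat_lit 152) (nat_lit 21236429740) (nat_lit 76) (nat_lit 53417192898) (nat_lit 9) (nat_lit 5) (nat_lit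 11) (nat_lit 5) (nat_lit 10) (nat_lit 4) (nat_lit 443) (nat_lit 286) (nat_lit 171)) (XT.nd (nat_lit 78) (nat_lit 76) (nat_lit 0) (XT.lf (nat_lit 0) (nat_lit 6748391794) (nat_lit 152) (nat_lit 9563101136) (nat_lit 76) (nat_lit 61404081578) (nat_lit 9) (nat_lit 5) (nat_lit 11) (nat_lit 5) (nat_lit 10) (nat_lit 4) (nat_lit 444) (nat_lit 286) (nat_lit 170)) (XT.lf (nat_lit 0) (nat_lit 2486822989) (nat_lit 76) (nat_lit 10208677088) (nat_lit 152) (nat_lit 67157459648) (nat_lit 8) (nat_lit 5) (nat_lit 9) (nat_lit 5) (nat_lit 10) (nat_lit 4) (nat_lit 445) (nat_lit 286) (nat_lit 169)))) (XT.nd (nat_lit 37518) (nat_lit 0) (nat_lit 15428) (XT.nd (nat_lit 78) (nat_lit 0) (nat_lit 0) (XT.lf (nat_lit 0) (nat_lit 15072364800) (nat_lit 76) (nat_lit 3833768859) (nat_lit 152) (nat_lit 63145780765) (nat_lit 8) (nat_lit 5) (nat_lit 9) (nat_lit 5) (nat_lit 10) (nat_lit 4) (nat_lit 446) (nat_lit 286) (nat_lit 168)) (XT.lf (nat_lit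 0) (nat_lit 25318131186) (nat_lit 152) (nat_lit 56329143566) (nat_lit 0) (nat_lit 2669112913) (nat_lit 8) (nat_lit 5) (nat_lit 10) (nat_lit 4) (nat_lit 8) (nat_lit 4) (nat_lit 447) (nat_lit 286) (nat_lit 167))) (XT.nd (nat_lit 78) (nat_lit 1064) (nat_lit 0) (XT.lf (nat_lit 0) (nat_lit 2227869920) (nat_lit 1140) (nat_lit 685219284) (nat_lit 1140) (nat_lit 685219284) (nat_lit 225) (nat_lit 4) (nat_lit 240) (nat_lit 5) (nat_lit 240) (nat_lit 4) (nat_lit 326) (nat_lit 287) (nat_lit 287)) (XT.lf (nat_lit 0) (nat_lit 1986557852) (nat_lit 1064) (nat_lit 4886468913) (nat_lit 0) (nat_lit 384437705) (nat_lit 211) (nat_lit 5) (nat_lit 225) (nat_lit 4) (nat_lit 211) (nat_lit 4) (nat_lit 327) (nat_lit 287) (nat_lit 286))))) (XT.nd (nat_lit 234) (nat_lit 1824) (nat_lit 0) (XT.nd (nat_lit 78) (nat_lit 608) (nat_lit 0) (XT.lf (nat_lit 0) (nat_lit 246572898) (nat_lit 608) (nat_lit 5116222594) (nat_lit 608) (nat_lit 1958645994)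 (nat_lit 203) (nat_lit 4) (nat_lit 211) (nat_lit 5) (nat_lit 211) (nat_lit 4) (nat_lit 328) (nat_lit 287) (nat_lit 285)) (XT.nd (nat_lit 78) (nat_lit 532) (nat_lit 0) (XT.lf (nat_lit 0) (nat_lit 1377467927) (nat_lit 684) (nat_lit 1871468604) (nat_lit 76) (nat_lit 4139485195) (nat_lit 202) (nat_lit 5) (nat_lit 211) (nat_lit 5) (nat_lit 203) (nat_lit 4) (nat_lit 329) (nat_lit 287) (nat_lit 284)) (XT.lf (nat_lit 0) (nat_lit 3433772939) (nat_lit 532) (nat_lit 1279364166) (nat_lit 608) (nat_lit 2745612836) (nat_lit 195) (nat_lit 5) (nat_lit 202) (nat_lit 5) (nat_lit 203) (nat_lit 4) (nat_lit 330) (nat_lit 287) (nat_lit 283)))) (XT.nd (nat_lit 156) (nat_lit 1140) (nat_lit 0) (XT.nd (nat_lit 78) (nat_lit 0) (nat_lit 0) (XT.lf (nat_lit 0) (nat_lit 551529583) (nat_lit 684) (nat_lit 6217636096) (nat_lit 76) (nat_lit 763547958) (nat_lit 186) (nat_lit 5) (nat_lit 195) (nat_lit 5) (nat_lit 187) (nat_lit 4) (nat_lit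 331) (nat_lit 287) (nat_lit 282)) (XT.lf (nat_lit 0) (nat_lit 3854367928) (nat_lit 684) (nat_lit 854624657) (nat_lit 76) (nat_lit 2900307408) (nat_lit 186) (nat_lit 5) (nat_lit 195) (nat_lit 5) (nat_lit 187) (nat_lit 4) (nat_lit 332) (nat_lit 287) (nat_lit 281))) (XT.nd (nat_lit 78) (nat_lit 608) (nat_lit 0) (XT.lf (nat_lit 0) (nat_lit 4658693882) (nat_lit 532) (nat_lit 2553304011) (nat_lit 608) (nat_lit 477590823) (nat_lit 179) (nat_lit 5) (nat_lit 186) (nat_lit 5) (nat_lit 187) (nat_lit 4) (nat_lit 333) (nat_lit 287) (nat_lit 280)) (XT.lf (nat_lit 0) (nat_lit 2501445703) (nat_lit 532) (nat_lit 284448592) (nat_lit 608) (nat_lit 4987296413) (nat_lit 171) (nat_lit 5) (nat_lit 178) (nat_lit 5) (nat_lit 179) (nat_lit 5) (nat_lit 334) (nat_lit 287) (nat_lit 279))))))))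
noncomputable def xc72 : XT := (XT.nd (nat_lit 2028) (nat_lit 3116) (nat_lit 0) (XT.nd (nat_lit 1014) (nat_lit 2888) (nat_lit 0) (XT.nd (nat_lit 468) (nat_lit 2052) (nat_lit 0) (XT.nd (nat_lit 234) (nat_lit 988) (nat_lit 0) (XT.nd (nat_lit 78) (nat_lit 532) (nat_lit 0) (XT.lf (nat_lit 0) (nat_lit 280356845) (nat_lit 456) (nat_lit 5823736855) (nat_lit 532) (nat_lit 1756142459) (nat_lit 165) (nat_lit 5) (nat_lit 171) (nat_lit 5) (nat_lit 172) (nat_lit 4) (nat_lit 335) (nat_lit 287) (nat_lit 278)) (XT.nd (nat_lit 78) (nat_lit 456) (nat_lit 0) (XT.lf (nat_lit 0) (nat_lit 1511556291) (nat_lit 532) (nat_lit 1964284129) (nat_lit 76) (nat_lit 4474556239) (nat_lit 164) (nat_lit 5) (nat_lit 171) (nat_lit 5) (nat_lit 165) (nat_lit 5) (nat_lit 336) (nat_lit 287) (nat_lit 277)) (XT.lf (nat_lit 0) (nat_lit 3774470472) (nat_lit 456) (nat_lit 1020021546) (nat_lit 532) (nat_lit 3249736870) (nat_lit 158) (nat_lit 5) (nat_lit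 164) (nat_lit 5) (nat_lit 165) (nat_lit 5) (nat_lit 337) (nat_lit 287) (nat_lit 276)))) (XT.nd (nat_lit 78) (nat_lit 456) (nat_lit 0) (XT.lf (nat_lit 0) (nat_lit 412479) (nat_lit 532) (nat_lit 6645005341) (nat_lit 76) (nat_lit 1496526438) (nat_lit 151) (nat_lit 5) (nat_lit 158) (nat_lit 5) (nat_lit 152) (nat_lit 5) (nat_lit 338) (nat_lit 287) (nat_lit 275)) (XT.nd (nat_lit 78) (nat_lit 456) (nat_lit 0) (XT.lf (nat_lit 0) (nat_lit 3254471318) (nat_lit 532) (nat_lit 863449649) (nat_lit 76) (nat_lit 4124611434) (nat_lit 151) (nat_lit 5) (nat_lit 158) (nat_lit 5) (nat_lit 152) (nat_lit 5) (nat_lit 339) (nat_lit 287) (nat_lit 274)) (XT.lf (nat_lit 0) (nat_lit 5090287060) (nat_lit 456) (nat_lit 1485261056) (nat_lit 532) (nat_lit 1771564715) (nat_lit 145) (nat_lit 5) (nat_lit 151) (nat_lit 5) (nat_lit 152) (nat_lit 5) (nat_lit 340) (nat_lit 287) (nat_lit 273))))) (XT.nd (nat_lit 234) (nat_lit 1216) (nat_lit 0)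 (XT.nd (nat_lit 78) (nat_lit 380) (nat_lit 0) (XT.lf (nat_lit 0) (nat_lit 1479390539) (nat_lit 456) (nat_lit 5745069082) (nat_lit 76) (nat_lit 1230938542) (nat_lit 139) (nat_lit 5) (nat_lit 145) (nat_lit 5) (nat_lit 140) (nat_lit 5) (nat_lit 341) (nat_lit 287) (nat_lit 272)) (XT.nd (nat_lit 78) (nat_lit 0) (nat_lit 0) (XT.lf (nat_lit 0) (nat_lit 226761334) (nat_lit 380) (nat_lit 4537721838) (nat_lit 456) (nat_lit 3802807945) (nat_lit 134) (nat_lit 5) (nat_lit 139) (nat_lit 5) (nat_lit 140) (nat_lit 5) (nat_lit 342) (nat_lit 287) (nat_lit 271)) (XT.lf (nat_lit 0) (nat_lit 6394111871) (nat_lit 380) (nat_lit 1735441255) (nat_lit 456) (nat_lit 553595223) (nat_lit 134) (nat_lit 5) (nat_lit 139) (nat_lit 5) (nat_lit 140) (nat_lit 5) (nat_lit 343) (nat_lit 287) (nat_lit 270)))) (XT.nd (nat_lit 156) (nat_lit 380) (nat_lit 0) (XT.nd (nat_lit 78) (nat_lit 380) (nat_lit 0) (XT.lf (nat_lit 0) (nat_lit 2712331746)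 (nat_lit 456) (nat_lit 4921186220) (nat_lit 76) (nat_lit 1168992972) (nat_lit 128) (nat_lit 5) (nat_lit 134) (nat_lit 5) (nat_lit 129) (nat_lit 5) (nat_lit 344) (nat_lit 287) (nat_lit 269)) (XT.lf (nat_lit 0) (nat_lit 1259611870) (nat_lit 380) (nat_lit 4783985176) (nat_lit 456) (nat_lit 2882384270) (nat_lit 123) (nat_lit 5) (nat_lit 128) (nat_lit 5) (nat_lit 129) (nat_lit 5) (nat_lit 345) (nat_lit 287) (nat_lit 268))) (XT.nd (nat_lit 78) (nat_lit 304) (nat_lit 0) (XT.lf (nat_lit 0) (nat_lit 389887827) (nat_lit 456) (nat_lit 1431050483) (nat_lit 76) (nat_lit 7232845096) (nat_lit 122) (nat_lit 5) (nat_lit 128) (nat_lit 5) (nat_lit 123) (nat_lit 5) (nat_lit 346) (nat_lit 287) (nat_lit 267)) (XT.lf (nat_lit 0) (nat_lit 3690843051) (nat_lit 380) (nat_lit 4236649218) (nat_lit 76) (nat_lit 1257459757) (nat_lit 118) (nat_lit 5) (nat_lit 123) (nat_lit 5) (nat_lit 119) (nat_lit 5) (nat_lit 347) (nat_lit 287) (nat_lit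 266)))))) (XT.nd (nat_lit 468) (nat_lit 1444) (nat_lit 0) (XT.nd (nat_lit 234) (nat_lit 684) (nat_lit 0) (XT.nd (nat_lit 78) (nat_lit 380) (nat_lit 0) (XT.lf (nat_lit 0) (nat_lit 2153070396) (nat_lit 380) (nat_lit 4920392465) (nat_lit 456) (nat_lit 2247154603) (nat_lit 113) (nat_lit 5) (nat_lit 118) (nat_lit 5) (nat_lit 119) (nat_lit 5) (nat_lit 348) (nat_lit 287) (nat_lit 265)) (XT.nd (nat_lit 78) (nat_lit 304) (nat_lit 0) (XT.lf (nat_lit 0) (nat_lit 1048703431) (nat_lit 456) (nat_lit 748694422) (nat_lit 76) (nat_lit 7663489931) (nat_lit 112) (nat_lit 5) (nat_lit 118) (nat_lit 5) (nat_lit 113) (nat_lit 5) (nat_lit 349) (nat_lit 287) (nat_lit 264)) (XT.lf (nat_lit 0) (nat_lit 4400470981) (nat_lit 380) (nat_lit 3761529537) (nat_lit 76) (nat_lit 1442669615) (nat_lit 108) (nat_lit 5) (nat_lit 113) (nat_lit 5) (nat_lit 109) (nat_lit 5) (nat_lit 350) (nat_lit 287) (nat_lit 263)))) (XT.nd (nat_lit 78) (nat_lit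 380) (nat_lit 0) (XT.lf (nat_lit 0) (nat_lit 2835097953) (nat_lit 304) (nat_lit 5002911048) (nat_lit 380) (nat_lit 1915236714) (nat_lit 104) (nat_lit 5) (nat_lit 108) (nat_lit 5) (nat_lit 109) (nat_lit 5) (nat_lit 351) (nat_lit 287) (nat_lit 262)) (XT.nd (nat_lit 78) (nat_lit 304) (nat_lit 0) (XT.lf (nat_lit 0) (nat_lit 1414897523) (nat_lit 380) (nat_lit 311240306) (nat_lit 76) (nat_lit 8180613289) (nat_lit 103) (nat_lit 5) (nat_lit 108) (nat_lit 5) (nat_lit 104) (nat_lit 5) (nat_lit 352) (nat_lit 287) (nat_lit 261)) (XT.lf (nat_lit 0) (nat_lit 4820181497) (nat_lit 380) (nat_lit 3574336166) (nat_lit 76) (nat_lit 1669396142) (nat_lit 99) (nat_lit 5) (nat_lit 104) (nat_lit 5) (nat_lit 100) (nat_lit 5) (nat_lit 353) (nat_lit 287) (nat_lit 260))))) (XT.nd (nat_lit 234) (nat_lit 836) (nat_lit 0) (XT.nd (nat_lit 78) (nat_lit 304) (nat_lit 0) (XT.lf (nat_lit 0) (nat_lit 3224736972) (nat_lit 304) (nat_lit 5089677513)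 (nat_lit 380) (nat_lit 1911805410) (nat_lit 95) (nat_lit 5) (nat_lit 99) (nat_lit 5) (nat_lit 100) (nat_lit 5) (nat_lit 354) (nat_lit 287) (nat_lit 259)) (XT.nd (nat_lit 78) (nat_lit 228) (nat_lit 0) (XT.lf (nat_lit 0) (nat_lit 1462699009) (nat_lit 380) (nat_lit 202764418) (nat_lit 76) (nat_lit 8728355313) (nat_lit 94) (nat_lit 5) (nat_lit 99) (nat_lit 5) (nat_lit 95) (nat_lit 5) (nat_lit 355) (nat_lit 287) (nat_lit 258)) (XT.lf (nat_lit 0) (nat_lit 4921702492) (nat_lit 304) (nat_lit 3763884706) (nat_lit 76) (nat_lit 1879669312) (nat_lit 91) (nat_lit 5) (nat_lit 95) (nat_lit 5) (nat_lit 92) (nat_lit 5) (nat_lit 356) (nat_lit 287) (nat_lit 257)))) (XT.nd (nat_lit 156) (nat_lit 456) (nat_lit 0) (XT.nd (nat_lit 78) (nat_lit 76) (nat_lit 0) (XT.lf (nat_lit 0) (nat_lit 3230161918) (nat_lit 304) (nat_lit 5242242153) (nat_lit 380) (nat_lit 2269824145) (nat_lit 87) (nat_lit 5) (nat_lit 91) (nat_lit 5) (nat_lit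 92) (nat_lit 5) (nat_lit 357) (nat_lit 287) (nat_lit 256)) (XT.lf (nat_lit 0) (nat_lit 1158574936) (nat_lit 380) (nat_lit 518840326) (nat_lit 76) (nat_lit 9247464076) (nat_lit 86) (nat_lit 5) (nat_lit 91) (nat_lit 5) (nat_lit 87) (nat_lit 5) (nat_lit 358) (nat_lit 287) (nat_lit 255))) (XT.nd (nat_lit 78) (nat_lit 228) (nat_lit 0) (XT.lf (nat_lit 0) (nat_lit 4668712829) (nat_lit 304) (nat_lit 4431417277) (nat_lit 76) (nat_lit 2011496653) (nat_lit 83) (nat_lit 5) (nat_lit 87) (nat_lit 5) (nat_lit 84) (nat_lit 5) (nat_lit 359) (nat_lit 287) (nat_lit 254)) (XT.lf (nat_lit 0) (nat_lit 2746465345) (nat_lit 228) (nat_lit 5526918618) (nat_lit 304) (nat_lit 3030941216) (nat_lit 80) (nat_lit 5) (nat_lit 83) (nat_lit 5) (nat_lit 84) (nat_lit 5) (nat_lit 360) (nat_lit 287) (nat_lit 253))))))) (XT.nd (nat_lit 1014) (nat_lit 1216) (nat_lit 0) (XT.nd (nat_lit 468) (nat_lit 1064) (nat_lit 0) (XT.nd (nat_lit 234) (nat_lit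 304) (nat_lit 0) (XT.nd (nat_lit 78) (nat_lit 456) (nat_lit 0) (XT.lf (nat_lit 0) (nat_lit 460317996) (nat_lit 304) (nat_lit 1368830700) (nat_lit 76) (nat_lit 9673949643) (nat_lit 79) (nat_lit 5) (nat_lit 83) (nat_lit 5) (nat_lit 80) (nat_lit 5) (nat_lit 361) (nat_lit 287) (nat_lit 252)) (XT.nd (nat_lit 78) (nat_lit 228) (nat_lit 0) (XT.lf (nat_lit 0) (nat_lit 4015858588) (nat_lit 304) (nat_lit 5693019169) (nat_lit 76) (nat_lit 1997466072) (nat_lit 76) (nat_lit 5) (nat_lit 80) (nat_lit 5) (nat_lit 77) (nat_lit 5) (nat_lit 362) (nat_lit 287) (nat_lit 251)) (XT.lf (nat_lit 0) (nat_lit 1653131265) (nat_lit 228) (nat_lit 6016266388) (nat_lit 304) (nat_lit 4246571674) (nat_lit 73) (nat_lit 5) (nat_lit 76) (nat_lit 5) (nat_lit 77) (nat_lit 5) (nat_lit 363) (nat_lit 287) (nat_lit 250)))) (XT.nd (nat_lit 78) (nat_lit 304) (nat_lit 0) (XT.lf (nat_lit 0) (nat_lit 9246643482) (nat_lit 228) (nat_lit 2187546231) (nat_lit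 304) (nat_lit 697666425) (nat_lit 73) (nat_lit 5) (nat_lit 76) (nat_lit 5) (nat_lit 77) (nat_lit 5) (nat_lit 364) (nat_lit 287) (nat_lit 249)) (XT.nd (nat_lit 78) (nat_lit 0) (nat_lit 0) (XT.lf (nat_lit 0) (nat_lit 2907573532) (nat_lit 304) (nat_lit 7682384881) (nat_lit 76) (nat_lit 1763201403) (nat_lit 69) (nat_lit 5) (nat_lit 73) (nat_lit 5) (nat_lit 70) (nat_lit 5) (nat_lit 365) (nat_lit 287) (nat_lit 248)) (XT.lf (nat_lit 0) (nat_lit 6603692994) (nat_lit 304) (nat_lit 185174002) (nat_lit 76) (nat_lit 5792146129) (nat_lit 69) (nat_lit 5) (nat_lit 73) (nat_lit 5) (nat_lit 70) (nat_lit 5) (nat_lit 366) (nat_lit 287) (nat_lit 247))))) (XT.nd (nat_lit 234) (nat_lit 608) (nat_lit 0) (XT.nd (nat_lit 78) (nat_lit 228) (nat_lit 0) (XT.lf (nat_lit 0) (nat_lit 7599146021) (nat_lit 228) (nat_lit 2831842689) (nat_lit 304) (nat_lit 2384124048) (nat_lit 66) (nat_lit 5) (nat_lit 69) (nat_lit 5) (nat_lit 70) (nat_lit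 5) (nat_lit 367) (nat_lit 287) (nat_lit 246)) (XT.nd (nat_lit 78) (nat_lit 0) (nat_lit 0) (XT.lf (nat_lit 0) (nat_lit 1276676618) (nat_lit 228) (nat_lit 10553994002) (nat_lit 76) (nat_lit 1225638223) (nat_lit 63) (nat_lit 5) (nat_lit 66) (nat_lit 5) (nat_lit 64) (nat_lit 5) (nat_lit 368) (nat_lit 287) (nat_lit 245)) (XT.lf (nat_lit 0) (nat_lit 5028428262) (nat_lit 228) (nat_lit 2882977282) (nat_lit 76) (nat_lit 5391773594) (nat_lit 63) (nat_lit 5) (nat_lit 66) (nat_lit 5) (nat_lit 64) (nat_lit 5) (nat_lit 369) (nat_lit 287) (nat_lit 244)))) (XT.nd (nat_lit 156) (nat_lit 380) (nat_lit 0) (XT.nd (nat_lit 78) (nat_lit 0) (nat_lit 0) (XT.lf (nat_lit 0) (nat_lit 5032172602) (nat_lit 228) (nat_lit 3858267041) (nat_lit 304) (nat_lit 4667102014) (nat_lit 60) (nat_lit 5) (nat_lit 63) (nat_lit 5) (nat_lit 64) (nat_lit 5) (nat_lit 370) (nat_lit 287) (nat_lit 243)) (XT.lf (nat_lit 0) (nat_lit 12850442416) (nat_lit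 304) (nat_lit 662680227) (nat_lit 76) (nat_lit 306965301) (nat_lit 60) (nat_lit 5) (nat_lit 64) (nat_lit 5) (nat_lit 61) (nat_lit 4) (nat_lit 371) (nat_lit 287) (nat_lit 242))) (XT.nd (nat_lit 78) (nat_lit 152) (nat_lit 0) (XT.lf (nat_lit 0) (nat_lit 2845005241) (nat_lit 228) (nat_lit 6655404164) (nat_lit 76) (nat_lit 4587448509) (nat_lit 57) (nat_lit 5) (nat_lit 60) (nat_lit 5) (nat_lit 58) (nat_lit 5) (nat_lit 372) (nat_lit 287) (nat_lit 241)) (XT.lf (nat_lit 0) (nat_lit 1355061132) (nat_lit 152) (nat_lit 5370631326) (nat_lit 228) (nat_lit 7638563334) (nat_lit 55) (nat_lit 5) (nat_lit 57) (nat_lit 5) (nat_lit 58) (nat_lit 5) (nat_lit 373) (nat_lit 287) (nat_lit 240)))))) (XT.nd (nat_lit 546) (nat_lit 608) (nat_lit 0) (XT.nd (nat_lit 234) (nat_lit 380) (nat_lit 0) (XT.nd (nat_lit 78) (nat_lit 228) (nat_lit 0) (XT.lf (nat_lit 0) (nat_lit 9660796217) (nat_lit 152) (nat_lit 1081147954) (nat_lit 228) (nat_lit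 3906442067) (nat_lit 55) (nat_lit 5) (nat_lit 57) (nat_lit 5) (nat_lit 58) (nat_lit 5) (nat_lit 374) (nat_lit 287) (nat_lit 239)) (XT.nd (nat_lit 78) (nat_lit 76) (nat_lit 0) (XT.lf (nat_lit 0) (nat_lit 3225319884) (nat_lit 152) (nat_lit 11669470198) (nat_lit 228) (nat_lit 45781831) (nat_lit 53) (nat_lit 5) (nat_lit 55) (nat_lit 5) (nat_lit 56) (nat_lit 4) (nat_lit 375) (nat_lit 287) (nat_lit 238)) (XT.lf (nat_lit 0) (nat_lit 3868721396) (nat_lit 228) (nat_lit 3582504432) (nat_lit 76) (nat_lit 7788735721) (nat_lit 52) (nat_lit 5) (nat_lit 55) (nat_lit 5) (nat_lit 53) (nat_lit 5) (nat_lit 376) (nat_lit 287) (nat_lit 237)))) (XT.nd (nat_lit 156) (nat_lit 228) (nat_lit 0) (XT.nd (nat_lit 78) (nat_lit 0) (nat_lit 0) (XT.lf (nat_lit 0) (nat_lit 4809603002) (nat_lit 152) (nat_lit 3090891033) (nat_lit 228) (nat_lit 7647815889) (nat_lit 50) (nat_lit 5) (nat_lit 52) (nat_lit 5) (nat_lit 53) (nat_lit 5) (nat_lit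 377) (nat_lit 287) (nat_lit 236)) (XT.lf (nat_lit 0) (nat_lit 12058006940) (nat_lit 228) (nat_lit 2430036029) (nat_lit 76) (nat_lit 1377735065) (nat_lit 50) (nat_lit 5) (nat_lit 53) (nat_lit 5) (nat_lit 51) (nat_lit 4) (nat_lit 378) (nat_lit 287) (nat_lit 235))) (XT.nd (nat_lit 78) (nat_lit 0) (nat_lit 0) (XT.lf (nat_lit 0) (nat_lit 190782085) (nat_lit 228) (nat_lit 10052178688) (nat_lit 76) (nat_lit 5948393495) (nat_lit 47) (nat_lit 5) (nat_lit 50) (nat_lit 5) (nat_lit 48) (nat_lit 5) (nat_lit 379) (nat_lit 287) (nat_lit 234)) (XT.lf (nat_lit 0) (nat_lit 4213763997) (nat_lit 228) (nat_lit 1624791128) (nat_lit 76) (nat_lit 10687593306) (nat_lit 47) (nat_lit 5) (nat_lit 50) (nat_lit 5) (nat_lit 48) (nat_lit 5) (nat_lit 380) (nat_lit 287) (nat_lit 233))))) (XT.nd (nat_lit 234) (nat_lit 304) (nat_lit 0) (XT.nd (nat_lit 78) (nat_lit 152) (nat_lit 0) (XT.lf (nat_lit 0) (nat_lit 7120418673) (nat_lit 152) (nat_lit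 1262960580) (nat_lit 228) (nat_lit 8486840306) (nat_lit 45) (nat_lit 5) (nat_lit 47) (nat_lit 5) (nat_lit 48) (nat_lit 5) (nat_lit 381) (nat_lit 287) (nat_lit 232)) (XT.nd (nat_lit 78) (nat_lit 152) (nat_lit 0) (XT.lf (nat_lit 0) (nat_lit 12685546936) (nat_lit 228) (nat_lit 1170343429) (nat_lit 76) (nat_lit 3368509661) (nat_lit 45) (nat_lit 5) (nat_lit 48) (nat_lit 5) (nat_lit 46) (nat_lit 4) (nat_lit 382) (nat_lit 287) (nat_lit 231)) (XT.lf (nat_lit 0) (nat_lit 7732860806) (nat_lit 152) (nat_lit 9429719254) (nat_lit 228) (nat_lit 425262633) (nat_lit 43) (nat_lit 5) (nat_lit 45) (nat_lit 5) (nat_lit 46) (nat_lit 4) (nat_lit 383) (nat_lit 287) (nat_lit 230)))) (XT.nd (nat_lit 156) (nat_lit 76) (nat_lit 0) (XT.nd (nat_lit 78) (nat_lit 152) (nat_lit 0) (XT.lf (nat_lit 0) (nat_lit 3708351017) (nat_lit 228) (nat_lit 1143586917) (nat_lit 76) (nat_lit 13110031778) (nat_lit 42) (nat_lit 5) (nat_lit 45) (nat_lit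 5) (nat_lit 43) (nat_lit 5) (nat_lit 384) (nat_lit 287) (nat_lit 229)) (XT.lf (nat_lit 0) (nat_lit 7909231203) (nat_lit 152) (nat_lit 84476268) (nat_lit 228) (nat_lit 10352408187) (nat_lit 40) (nat_lit 5) (nat_lit 42) (nat_lit 5) (nat_lit 43) (nat_lit 5) (nat_lit 385) (nat_lit 287) (nat_lit 228))) (XT.nd (nat_lit 78) (nat_lit 76) (nat_lit 0) (XT.lf (nat_lit 0) (nat_lit 12426132452) (nat_lit 228) (nat_lit 1601125088) (nat_lit 76) (nat_lit 4713982800) (nat_lit 40) (nat_lit 5) (nat_lit 43) (nat_lit 5) (nat_lit 41) (nat_lit 4) (nat_lit 386) (nat_lit 287) (nat_lit 227)) (XT.lf (nat_lit 0) (nat_lit 7578544749) (nat_lit 76) (nat_lit 9448278196) (nat_lit 152) (nat_lit 2120346353) (nat_lit 39) (nat_lit 5) (nat_lit 40) (nat_lit 5) (nat_lit 41) (nat_lit 4) (nat_lit 387) (nat_lit 287) (nat_lit 226))))))))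
noncomputable def xc73 : XT := (XT.nd (nat_lit 2028) (nat_lit 760) (nat_lit 0) (XT.nd (nat_lit 1014) (nat_lit 532) (nat_lit 0) (XT.nd (nat_lit 468) (nat_lit 380) (nat_lit 0) (XT.nd (nat_lit 234) (nat_lit 304) (nat_lit 0) (XT.nd (nat_lit 78) (nat_lit 152) (nat_lit 0) (XT.lf (nat_lit 0) (nat_lit 2135342771) (nat_lit 152) (nat_lit 2587988290) (nat_lit 76) (nat_lit 14841978745) (nat_lit 38) (nat_lit 5) (nat_lit 40) (nat_lit 5) (nat_lit 39) (nat_lit 5) (nat_lit 388) (nat_lit 287) (nat_lit 225)) (XT.nd (nat_lit 78) (nat_lit 0) (nat_lit 0) (XT.lf (nat_lit 0) (nat_lit 6505295366) (nat_lit 228) (nat_lit 13290898859) (nat_lit 76) (nat_lit 198302732) (nat_lit 36) (nat_lit 5) (nat_lit 39) (nat_lit 5) (nat_lit 37) (nat_lit 4) (nat_lit 389) (nat_lit 287) (nat_lit 224)) (XT.lf (nat_lit 0) (nat_lit 11042485609) (nat_lit 228) (nat_lit 4222322356) (nat_lit 76) (nat_lit 5170675864) (nat_lit 36) (nat_lit 5) (nat_lit 39) (nat_lit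 5) (nat_lit 37) (nat_lit 4) (nat_lit 390) (nat_lit 287) (nat_lit 223)))) (XT.nd (nat_lit 78) (nat_lit 228) (nat_lit 0) (XT.lf (nat_lit 0) (nat_lit 5154322353) (nat_lit 76) (nat_lit 10575074988) (nat_lit 152) (nat_lit 5159902827) (nat_lit 35) (nat_lit 5) (nat_lit 36) (nat_lit 5) (nat_lit 37) (nat_lit 4) (nat_lit 391) (nat_lit 287) (nat_lit 222)) (XT.nd (nat_lit 78) (nat_lit 228) (nat_lit 0) (XT.lf (nat_lit 0) (nat_lit 14834884414) (nat_lit 76) (nat_lit 5729160701) (nat_lit 152) (nat_lit 792479825) (nat_lit 35) (nat_lit 5) (nat_lit 36) (nat_lit 5) (nat_lit 37) (nat_lit 4) (nat_lit 392) (nat_lit 287) (nat_lit 221)) (XT.lf (nat_lit 0) (nat_lit 2926811850) (nat_lit 152) (nat_lit 700148564) (nat_lit 228) (nat_lit 18209945335) (nat_lit 32) (nat_lit 5) (nat_lit 34) (nat_lit 5) (nat_lit 35) (nat_lit 5) (nat_lit 393) (nat_lit 287) (nat_lit 220))))) (XT.nd (nat_lit 234) (nat_lit 304) (nat_lit 0) (XT.nd (nat_lit 78)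 (nat_lit 76) (nat_lit 0) (XT.lf (nat_lit 0) (nat_lit 8237952541) (nat_lit 228) (nat_lit 9651808380) (nat_lit 76) (nat_lit 4439461909) (nat_lit 32) (nat_lit 5) (nat_lit 35) (nat_lit 5) (nat_lit 33) (nat_lit 4) (nat_lit 394) (nat_lit 287) (nat_lit 219)) (XT.nd (nat_lit 78) (nat_lit 76) (nat_lit 0) (XT.lf (nat_lit 0) (nat_lit 12960543463) (nat_lit 228) (nat_lit 183804315) (nat_lit 76) (nat_lit 9692770506) (nat_lit 32) (nat_lit 5) (nat_lit 35) (nat_lit 5) (nat_lit 33) (nat_lit 4) (nat_lit 395) (nat_lit 287) (nat_lit 218)) (XT.lf (nat_lit 0) (nat_lit 9698167749) (nat_lit 76) (nat_lit 8187186432) (nat_lit 152) (nat_lit 5473086887) (nat_lit 31) (nat_lit 5) (nat_lit 32) (nat_lit 5) (nat_lit 33) (nat_lit 4) (nat_lit 396) (nat_lit 287) (nat_lit 217)))) (XT.nd (nat_lit 156) (nat_lit 76) (nat_lit 0) (XT.nd (nat_lit 78) (nat_lit 228) (nat_lit 0) (XT.lf (nat_lit 0) (nat_lit 19821630030) (nat_lit 76) (nat_lit 3105839913)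 (nat_lit 152) (nat_lit 968853306) (nat_lit 31) (nat_lit 5) (nat_lit 32) (nat_lit 5) (nat_lit 33) (nat_lit 4) (nat_lit 397) (nat_lit 287) (nat_lit 216)) (XT.lf (nat_lit 0) (nat_lit 3644255908) (nat_lit 228) (nat_lit 18650610585) (nat_lit 76) (nat_lit 2153061863) (nat_lit 28) (nat_lit 5) (nat_lit 31) (nat_lit 5) (nat_lit 29) (nat_lit 4) (nat_lit 398) (nat_lit 287) (nat_lit 215))) (XT.nd (nat_lit 78) (nat_lit 76) (nat_lit 0) (XT.lf (nat_lit 0) (nat_lit 8417044350) (nat_lit 228) (nat_lit 9064375852) (nat_lit 76) (nat_lit 7533156847) (nat_lit 28) (nat_lit 5) (nat_lit 31) (nat_lit 5) (nat_lit 29) (nat_lit 4) (nat_lit 399) (nat_lit 287) (nat_lit 214)) (XT.lf (nat_lit 0) (nat_lit 768328042) (nat_lit 76) (nat_lit 12541447100) (nat_lit 152) (nat_lit 12289153103) (nat_lit 27) (nat_lit 5) (nat_lit 28) (nat_lit 5) (nat_lit 29) (nat_lit 4) (nat_lit 400) (nat_lit 287) (nat_lit 213)))))) (XT.nd (nat_lit 468) (nat_lit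 228) (nat_lit 0) (XT.nd (nat_lit 234) (nat_lit 76) (nat_lit 0) (XT.nd (nat_lit 78) (nat_lit 228) (nat_lit 0) (XT.lf (nat_lit 0) (nat_lit 11026263248) (nat_lit 76) (nat_lit 7384288057) (nat_lit 152) (nat_lit 7788426407) (nat_lit 27) (nat_lit 5) (nat_lit 28) (nat_lit 5) (nat_lit 29) (nat_lit 4) (nat_lit 401) (nat_lit 287) (nat_lit 212)) (XT.nd (nat_lit 78) (nat_lit 228) (nat_lit 0) (XT.lf (nat_lit 0) (nat_lit 21537994158) (nat_lit 76) (nat_lit 2096969237) (nat_lit 152) (nat_lit 3182952358) (nat_lit 27) (nat_lit 5) (nat_lit 28) (nat_lit 5) (nat_lit 29) (nat_lit 4) (nat_lit 402) (nat_lit 287) (nat_lit 211)) (XT.lf (nat_lit 0) (nat_lit 1581458764) (nat_lit 228) (nat_lit 22548934227) (nat_lit 76) (nat_lit 3323047213) (nat_lit 24) (nat_lit 5) (nat_lit 27) (nat_lit 5) (nat_lit 25) (nat_lit 4) (nat_lit 403) (nat_lit 287) (nat_lit 210)))) (XT.nd (nat_lit 78) (nat_lit 76) (nat_lit 0) (XT.lf (nat_lit 0) (nat_lit 6470720935)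 (nat_lit 228) (nat_lit 12709595767) (nat_lit 76) (nat_lit 8925396474) (nat_lit 24) (nat_lit 5) (nat_lit 27) (nat_lit 5) (nat_lit 25) (nat_lit 4) (nat_lit 404) (nat_lit 287) (nat_lit 209)) (XT.nd (nat_lit 78) (nat_lit 76) (nat_lit 0) (XT.lf (nat_lit 0) (nat_lit 11478783387) (nat_lit 228) (nat_lit 2626591850) (nat_lit 76) (nat_lit 14673020290) (nat_lit 24) (nat_lit 5) (nat_lit 27) (nat_lit 5) (nat_lit 25) (nat_lit 4) (nat_lit 405) (nat_lit 287) (nat_lit 208)) (XT.lf (nat_lit 0) (nat_lit 7862309898) (nat_lit 76) (nat_lit 8823289531) (nat_lit 152) (nat_lit 12784208288) (nat_lit 23) (nat_lit 5) (nat_lit 24) (nat_lit 5) (nat_lit 25) (nat_lit 4) (nat_lit 406) (nat_lit 287) (nat_lit 207))))) (XT.nd (nat_lit 234) (nat_lit 76) (nat_lit 0) (XT.nd (nat_lit 78) (nat_lit 152) (nat_lit 0) (XT.lf (nat_lit 0) (nat_lit 18670197325) (nat_lit 76) (nat_lit 3378192705) (nat_lit 152) (nat_lit 8133583724) (nat_lit 23) (nat_lit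 5) (nat_lit 24) (nat_lit 5) (nat_lit 25) (nat_lit 4) (nat_lit 407) (nat_lit 287) (nat_lit 206)) (XT.nd (nat_lit 78) (nat_lit 152) (nat_lit 0) (XT.lf (nat_lit 0) (nat_lit 27567316306) (nat_lit 152) (nat_lit 1183274644) (nat_lit 0) (nat_lit 2165060710) (nat_lit 23) (nat_lit 5) (nat_lit 25) (nat_lit 4) (nat_lit 23) (nat_lit 4) (nat_lit 408) (nat_lit 287) (nat_lit 205)) (XT.lf (nat_lit 0) (nat_lit 1650544364) (nat_lit 152) (nat_lit 22123560071) (nat_lit 76) (nat_lit 7893756453) (nat_lit 21) (nat_lit 5) (nat_lit 23) (nat_lit 5) (nat_lit 22) (nat_lit 4) (nat_lit 409) (nat_lit 287) (nat_lit 204)))) (XT.nd (nat_lit 156) (nat_lit 76) (nat_lit 0) (XT.nd (nat_lit 78) (nat_lit 0) (nat_lit 0) (XT.lf (nat_lit 0) (nat_lit 6718773333) (nat_lit 152) (nat_lit 11904870348) (nat_lit 76) (nat_lit 13818401796) (nat_lit 21) (nat_lit 5) (nat_lit 23) (nat_lit 5) (nat_lit 22) (nat_lit 4) (nat_lit 410) (nat_lit 287) (nat_lit 203))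 (XT.lf (nat_lit 0) (nat_lit 11914402592) (nat_lit 152) (nat_lit 1425524588) (nat_lit 76) (nat_lit 19900271774) (nat_lit 21) (nat_lit 5) (nat_lit 23) (nat_lit 5) (nat_lit 22) (nat_lit 4) (nat_lit 411) (nat_lit 287) (nat_lit 202))) (XT.nd (nat_lit 78) (nat_lit 0) (nat_lit 0) (XT.lf (nat_lit 0) (nat_lit 9509192517) (nat_lit 76) (nat_lit 7824187669) (nat_lit 152) (nat_lit 16726896303) (nat_lit 20) (nat_lit 5) (nat_lit 21) (nat_lit 5) (nat_lit 22) (nat_lit 4) (nat_lit 412) (nat_lit 287) (nat_lit 201)) (XT.lf (nat_lit 0) (nat_lit 20757042304) (nat_lit 76) (nat_lit 2148623832) (nat_lit 152) (nat_lit 11999571769) (nat_lit 20) (nat_lit 5) (nat_lit 21) (nat_lit 5) (nat_lit 22) (nat_lit 4) (nat_lit 413) (nat_lit 287) (nat_lit 200))))))) (XT.nd (nat_lit 1014) (nat_lit 304) (nat_lit 0) (XT.nd (nat_lit 468) (nat_lit 228) (nat_lit 0) (XT.nd (nat_lit 234) (nat_lit 76) (nat_lit 0) (XT.nd (nat_lit 78) (nat_lit 152) (nat_lit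 0) (XT.lf (nat_lit 0) (nat_lit 28657502431) (nat_lit 152) (nat_lit 3512107265) (nat_lit 0) (nat_lit 3605570633) (nat_lit 20) (nat_lit 5) (nat_lit 22) (nat_lit 4) (nat_lit 20) (nat_lit 4) (nat_lit 414) (nat_lit 287) (nat_lit 199)) (XT.nd (nat_lit 78) (nat_lit 76) (nat_lit 0) (XT.lf (nat_lit 0) (nat_lit 7526576494) (nat_lit 76) (nat_lit 27126457337) (nat_lit 76) (nat_lit 2016056506) (nat_lit 19) (nat_lit 4) (nat_lit 20) (nat_lit 5) (nat_lit 20) (nat_lit 4) (nat_lit 415) (nat_lit 287) (nat_lit 198)) (XT.lf (nat_lit 0) (nat_lit 3188780360) (nat_lit 152) (nat_lit 18693942751) (nat_lit 76) (nat_lit 15705762983) (nat_lit 18) (nat_lit 5) (nat_lit 20) (nat_lit 5) (nat_lit 19) (nat_lit 4) (nat_lit 416) (nat_lit 287) (nat_lit 197)))) (XT.nd (nat_lit 78) (nat_lit 76) (nat_lit 0) (XT.lf (nat_lit 0) (nat_lit 8487442862) (nat_lit 152) (nat_lit 7992770542) (nat_lit 76) (nat_lit 22055308666) (nat_lit 18) (nat_lit 5) (nat_lit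 20) (nat_lit 5) (nat_lit 19) (nat_lit 4) (nat_lit 417) (nat_lit 287) (nat_lit 196)) (XT.nd (nat_lit 78) (nat_lit 0) (nat_lit 0) (XT.lf (nat_lit 0) (nat_lit 3049234436) (nat_lit 76) (nat_lit 10903978095) (nat_lit 152) (nat_lit 25557515299) (nat_lit 17) (nat_lit 5) (nat_lit 18) (nat_lit 5) (nat_lit 19) (nat_lit 4) (nat_lit 418) (nat_lit 287) (nat_lit 195)) (XT.lf (nat_lit 0) (nat_lit 14547028836) (nat_lit 76) (nat_lit 5095712453) (nat_lit 152) (nat_lit 20870657921) (nat_lit 17) (nat_lit 5) (nat_lit 18) (nat_lit 5) (nat_lit 19) (nat_lit 4) (nat_lit 419) (nat_lit 287) (nat_lit 194))))) (XT.nd (nat_lit 234) (nat_lit 152) (nat_lit 0) (XT.nd (nat_lit 78) (nat_lit 76) (nat_lit 0) (XT.lf (nat_lit 0) (nat_lit 25490992929) (nat_lit 152) (nat_lit 15203528534) (nat_lit 0) (nat_lit 851991100) (nat_lit 17) (nat_lit 5) (nat_lit 19) (nat_lit 4) (nat_lit 17) (nat_lit 4) (nat_lit 420) (nat_lit 287) (nat_lit 193)) (XT.nd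 (nat_lit 78) (nat_lit 76) (nat_lit 0) (XT.lf (nat_lit 0) (nat_lit 31545253981) (nat_lit 152) (nat_lit 4205739858) (nat_lit 0) (nat_lit 6858711477) (nat_lit 17) (nat_lit 5) (nat_lit 19) (nat_lit 4) (nat_lit 17) (nat_lit 4) (nat_lit 421) (nat_lit 287) (nat_lit 192)) (XT.lf (nat_lit 0) (nat_lit 7226605580) (nat_lit 76) (nat_lit 30604692445) (nat_lit 76) (nat_lit 5871993946) (nat_lit 16) (nat_lit 4) (nat_lit 17) (nat_lit 5) (nat_lit 17) (nat_lit 4) (nat_lit 422) (nat_lit 287) (nat_lit 191)))) (XT.nd (nat_lit 156) (nat_lit 76) (nat_lit 0) (XT.nd (nat_lit 78) (nat_lit 76) (nat_lit 0) (XT.lf (nat_lit 0) (nat_lit 19052097730) (nat_lit 76) (nat_lit 25277200049) (nat_lit 76) (nat_lit 499689905) (nat_lit 16) (nat_lit 4) (nat_lit 17) (nat_lit 5) (nat_lit 17) (nat_lit 4) (nat_lit 423) (nat_lit 287) (nat_lit 190)) (XT.lf (nat_lit 0) (nat_lit 4916830733) (nat_lit 152) (nat_lit 14839850206) (nat_lit 76) (nat_lit 26230885991)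 (nat_lit 15) (nat_lit 5) (nat_lit 17) (nat_lit 5) (nat_lit 16) (nat_lit 4) (nat_lit 424) (nat_lit 287) (nat_lit 189))) (XT.nd (nat_lit 78) (nat_lit 76) (nat_lit 0) (XT.lf (nat_lit 0) (nat_lit 10467623835) (nat_lit 152) (nat_lit 3613979483) (nat_lit 76) (nat_lit 33099699674) (nat_lit 15) (nat_lit 5) (nat_lit 17) (nat_lit 5) (nat_lit 16) (nat_lit 4) (nat_lit 425) (nat_lit 287) (nat_lit 188)) (XT.lf (nat_lit 0) (nat_lit 8072865230) (nat_lit 76) (nat_lit 8172026446) (nat_lit 152) (nat_lit 32164163322) (nat_lit 14) (nat_lit 5) (nat_lit 15) (nat_lit 5) (nat_lit 16) (nat_lit 4) (nat_lit 426) (nat_lit 287) (nat_lit 187)))))) (XT.nd (nat_lit 546) (nat_lit 152) (nat_lit 0) (XT.nd (nat_lit 234) (nat_lit 152) (nat_lit 0) (XT.nd (nat_lit 78) (nat_lit 0) (nat_lit 0) (XT.lf (nat_lit 0) (nat_lit 20151392306) (nat_lit 76) (nat_lit 2063125795) (nat_lit 152) (nat_lit 27458552569) (nat_lit 14) (nat_lit 5) (nat_lit 15) (nat_lit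 5) (nat_lit 16) (nat_lit 4) (nat_lit 427) (nat_lit 287) (nat_lit 186)) (XT.nd (nat_lit 78) (nat_lit 0) (nat_lit 0) (XT.lf (nat_lit 0) (nat_lit 28386795109) (nat_lit 152) (nat_lit 18455793898) (nat_lit 0) (nat_lit 4131713206) (nat_lit 14) (nat_lit 5) (nat_lit 16) (nat_lit 4) (nat_lit 14) (nat_lit 4) (nat_lit 428) (nat_lit 287) (nat_lit 185)) (XT.lf (nat_lit 0) (nat_lit 34748074844) (nat_lit 152) (nat_lit 7109826042) (nat_lit 0) (nat_lit 10456556973) (nat_lit 14) (nat_lit 5) (nat_lit 16) (nat_lit 4) (nat_lit 14) (nat_lit 4) (nat_lit 429) (nat_lit 287) (nat_lit 184)))) (XT.nd (nat_lit 156) (nat_lit 76) (nat_lit 0) (XT.nd (nat_lit 78) (nat_lit 0) (nat_lit 0) (XT.lf (nat_lit 0) (nat_lit 4636444923) (nat_lit 76) (nat_lit 36692207100) (nat_lit 76) (nat_lit 12365314503) (nat_lit 13) (nat_lit 4) (nat_lit 14) (nat_lit 5) (nat_lit 14) (nat_lit 4) (nat_lit 430) (nat_lit 287) (nat_lit 183)) (XT.lf (nat_lit 0) (nat_lit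 16850598322) (nat_lit 76) (nat_lit 31311912628) (nat_lit 76) (nat_lit 6950675635) (nat_lit 13) (nat_lit 4) (nat_lit 14) (nat_lit 5) (nat_lit 14) (nat_lit 4) (nat_lit 431) (nat_lit 287) (nat_lit 182))) (XT.nd (nat_lit 78) (nat_lit 76) (nat_lit 0) (XT.lf (nat_lit 0) (nat_lit 29401807235) (nat_lit 76) (nat_lit 25784111542) (nat_lit 76) (nat_lit 1389530476) (nat_lit 13) (nat_lit 4) (nat_lit 14) (nat_lit 5) (nat_lit 14) (nat_lit 4) (nat_lit 432) (nat_lit 287) (nat_lit 181)) (XT.lf (nat_lit 0) (nat_lit 4238623310) (nat_lit 152) (nat_lit 15822548631) (nat_lit 76) (nat_lit 38019613643) (nat_lit 12) (nat_lit 5) (nat_lit 14) (nat_lit 5) (nat_lit 13) (nat_lit 4) (nat_lit 433) (nat_lit 287) (nat_lit 180))))) (XT.nd (nat_lit 234) (nat_lit 76) (nat_lit 0) (XT.nd (nat_lit 78) (nat_lit 76) (nat_lit 0) (XT.lf (nat_lit 0) (nat_lit 9992968322) (nat_lit 152) (nat_lit 4172658243) (nat_lit 76) (nat_lit 45465686297) (nat_lit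 12) (nat_lit 5) (nat_lit 14) (nat_lit 5) (nat_lit 13) (nat_lit 4) (nat_lit 434) (nat_lit 287) (nat_lit 179)) (XT.nd (nat_lit 78) (nat_lit 0) (nat_lit 0) (XT.lf (nat_lit 0) (nat_lit 7954792325) (nat_lit 76) (nat_lit 8027321375) (nat_lit 152) (nat_lit 45244378937) (nat_lit 11) (nat_lit 5) (nat_lit 12) (nat_lit 5) (nat_lit 13) (nat_lit 4) (nat_lit 435) (nat_lit 287) (nat_lit 178)) (XT.lf (nat_lit 0) (nat_lit 20504704941) (nat_lit 76) (nat_lit 1674225702) (nat_lit 152) (nat_lit 40689758975) (nat_lit 11) (nat_lit 5) (nat_lit 12) (nat_lit 5) (nat_lit 13) (nat_lit 4) (nat_lit 436) (nat_lit 287) (nat_lit 177)))) (XT.nd (nat_lit 156) (nat_lit 76) (nat_lit 0) (XT.nd (nat_lit 78) (nat_lit 0) (nat_lit 0) (XT.lf (nat_lit 0) (nat_lit 28594614615) (nat_lit 152) (nat_lit 31202253705) (nat_lit 0) (nat_lit 4762296989) (nat_lit 11) (nat_lit 5) (nat_lit 13) (nat_lit 4) (nat_lit 11) (nat_lit 4) (nat_lit 437) (nat_lit 287)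 (nat_lit 176)) (XT.lf (nat_lit 0) (nat_lit 35205903138) (nat_lit 152) (nat_lit 19747886013) (nat_lit 0) (nat_lit 11346473728) (nat_lit 11) (nat_lit 5) (nat_lit 13) (nat_lit 4) (nat_lit 11) (nat_lit 4) (nat_lit 438) (nat_lit 287) (nat_lit 175))) (XT.nd (nat_lit 78) (nat_lit 76) (nat_lit 0) (XT.lf (nat_lit 0) (nat_lit 42002479383) (nat_lit 152) (nat_lit 7974779247) (nat_lit 0) (nat_lit 18116727855) (nat_lit 11) (nat_lit 5) (nat_lit 13) (nat_lit 4) (nat_lit 11) (nat_lit 4) (nat_lit 439) (nat_lit 287) (nat_lit 174)) (XT.lf (nat_lit 0) (nat_lit 4209496204) (nat_lit 76) (nat_lit 44821250155) (nat_lit 76) (nat_lit 20909943172) (nat_lit 10) (nat_lit 4) (nat_lit 11) (nat_lit 5) (nat_lit 11) (nat_lit 4) (nat_lit 440) (nat_lit 287) (nat_lit 173))))))))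
noncomputable def xc74 : XT := (XT.nd (nat_lit 39234) (nat_lit 0) (nat_lit 4180) (XT.nd (nat_lit 38220) (nat_lit 0) (nat_lit 9956) (XT.nd (nat_lit 468) (nat_lit 0) (nat_lit 0) (XT.nd (nat_lit 234) (nat_lit 152) (nat_lit 0) (XT.nd (nat_lit 78) (nat_lit 0) (nat_lit 0) (XT.lf (nat_lit 0) (nat_lit 16898845059) (nat_lit 76) (nat_lit 39439014135) (nat_lit 76) (nat_lit 15502896030) (nat_lit 10) (nat_lit 4) (nat_lit 11) (nat_lit 5) (nat_lit 11) (nat_lit 4) (nat_lit 441) (nat_lit 287) (nat_lit 172)) (XT.nd (nat_lit 78) (nat_lit 0) (nat_lit 0) (XT.lf (nat_lit 0) (nat_lit 29945641351) (nat_lit 76) (nat_lit 33906377280) (nat_lit 76) (nat_lit 9946170707) (nat_lit 10) (nat_lit 4) (nat_lit 11) (nat_lit 5) (nat_lit 11) (nat_lit 4) (nat_lit 442) (nat_lit 287) (nat_lit 171)) (XT.lf (nat_lit 0) (nat_lit 43361285196) (nat_lit 76) (nat_lit 28218505245) (nat_lit 76) (nat_lit 4234911811) (nat_lit 10) (nat_lit 4) (nat_lit 11)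 (nat_lit 5) (nat_lit 11) (nat_lit 4) (nat_lit 443) (nat_lit 287) (nat_lit 170)))) (XT.nd (nat_lit 78) (nat_lit 76) (nat_lit 0) (XT.lf (nat_lit 0) (nat_lit 1603949340) (nat_lit 152) (nat_lit 20750281963) (nat_lit 76) (nat_lit 55537352915) (nat_lit 9) (nat_lit 5) (nat_lit 11) (nat_lit 5) (nat_lit 10) (nat_lit 4) (nat_lit 444) (nat_lit 287) (nat_lit 169)) (XT.nd (nat_lit 78) (nat_lit 76) (nat_lit 0) (XT.lf (nat_lit 0) (nat_lit 7521612924) (nat_lit 152) (nat_lit 8759469249) (nat_lit 76) (nat_lit 63748771238) (nat_lit 9) (nat_lit 5) (nat_lit 11) (nat_lit 5) (nat_lit 10) (nat_lit 4) (nat_lit 445) (nat_lit 287) (nat_lit 168)) (XT.lf (nat_lit 0) (nat_lit 3641261179) (nat_lit 76) (nat_lit 9999628946) (nat_lit 152) (nat_lit 68590659291) (nat_lit 8) (nat_lit 5) (nat_lit 9) (nat_lit 5) (nat_lit 10) (nat_lit 4) (nat_lit 446) (nat_lit 287) (nat_lit 167))))) (XT.nd (nat_lit 37440) (nat_lit 0) (nat_lit 14744) (XT.nd (nat_lit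 37284) (nat_lit 0) (nat_lit 17632) (XT.lf (nat_lit 0) (nat_lit 16572917783) (nat_lit 76) (nat_lit 3448482455) (nat_lit 152) (nat_lit 64475567638) (nat_lit 8) (nat_lit 5) (nat_lit 9) (nat_lit 5) (nat_lit 10) (nat_lit 4) (nat_lit 447) (nat_lit 287) (nat_lit 166)) (XT.nd (nat_lit 78) (nat_lit 0) (nat_lit 0) (XT.lf (nat_lit 0) (nat_lit 388212602) (nat_lit 1140) (nat_lit 2765219598) (nat_lit 0) (nat_lit 388212602) (nat_lit 240) (nat_lit 5) (nat_lit 255) (nat_lit 4) (nat_lit 240) (nat_lit 4) (nat_lit 324) (nat_lit 288) (nat_lit 288)) (XT.lf (nat_lit 0) (nat_lit 4104590431) (nat_lit 1140) (nat_lit 629500020) (nat_lit 0) (nat_lit 2404901167) (nat_lit 240) (nat_lit 5) (nat_lit 255) (nat_lit 4) (nat_lit 240) (nat_lit 4) (nat_lit 325) (nat_lit 288) (nat_lit 287)))) (XT.nd (nat_lit 156) (nat_lit 684) (nat_lit 0) (XT.nd (nat_lit 78) (nat_lit 988) (nat_lit 0) (XT.lf (nat_lit 0) (nat_lit 273703381) (nat_lit 1216) (nat_lit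 2794255150) (nat_lit 76) (nat_lit 4130084579) (nat_lit 224) (nat_lit 5) (nat_lit 240) (nat_lit 5) (nat_lit 225) (nat_lit 4) (nat_lit 326) (nat_lit 288) (nat_lit 286)) (XT.lf (nat_lit 0) (nat_lit 2257280843) (nat_lit 988) (nat_lit 1294085661) (nat_lit 1064) (nat_lit 3708752654) (nat_lit 211) (nat_lit 5) (nat_lit 224) (nat_lit 5) (nat_lit 225) (nat_lit 4) (nat_lit 327) (nat_lit 288) (nat_lit 285))) (XT.nd (nat_lit 78) (nat_lit 76) (nat_lit 0) (XT.lf (nat_lit 0) (nat_lit 89879587) (nat_lit 608) (nat_lit 6776997665) (nat_lit 608) (nat_lit 459085417) (nat_lit 203) (nat_lit 4) (nat_lit 211) (nat_lit 5) (nat_lit 211) (nat_lit 4) (nat_lit 328) (nat_lit 288) (nat_lit 284)) (XT.lf (nat_lit 0) (nat_lit 2801378084) (nat_lit 684) (nat_lit 2097281625) (nat_lit 76) (nat_lit 2495284536) (nat_lit 202) (nat_lit 5) (nat_lit 211) (nat_lit 5) (nat_lit 203) (nat_lit 4) (nat_lit 329) (nat_lit 288) (nat_lit 283)))))) (XT.nd (nat_lit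 468) (nat_lit 2432) (nat_lit 0) (XT.nd (nat_lit 234) (nat_lit 1140) (nat_lit 0) (XT.nd (nat_lit 78) (nat_lit 684) (nat_lit 0) (XT.lf (nat_lit 0) (nat_lit 3153773959) (nat_lit 532) (nat_lit 2935544314) (nat_lit 608) (nat_lit 1376426952) (nat_lit 195) (nat_lit 5) (nat_lit 202) (nat_lit 5) (nat_lit 203) (nat_lit 4) (nat_lit 330) (nat_lit 288) (nat_lit 282)) (XT.nd (nat_lit 78) (nat_lit 0) (nat_lit 0) (XT.lf (nat_lit 0) (nat_lit 966507869) (nat_lit 608) (nat_lit 871913403) (nat_lit 684) (nat_lit 5702598645) (nat_lit 186) (nat_lit 5) (nat_lit 194) (nat_lit 5) (nat_lit 195) (nat_lit 5) (nat_lit 331) (nat_lit 288) (nat_lit 281)) (XT.lf (nat_lit 0) (nat_lit 5088998576) (nat_lit 684) (nat_lit 1253114880) (nat_lit 76) (nat_lit 1277098073) (nat_lit 186) (nat_lit 5) (nat_lit 195) (nat_lit 5) (nat_lit 187) (nat_lit 4) (nat_lit 332) (nat_lit 288) (nat_lit 280)))) (XT.nd (nat_lit 78) (nat_lit 532) (nat_lit 0) (XT.lf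 (nat_lit 0) (nat_lit 685064036) (nat_lit 608) (nat_lit 3504894989) (nat_lit 76) (nat_lit 3510785600) (nat_lit 178) (nat_lit 5) (nat_lit 186) (nat_lit 5) (nat_lit 179) (nat_lit 5) (nat_lit 333) (nat_lit 288) (nat_lit 279)) (XT.nd (nat_lit 78) (nat_lit 0) (nat_lit 0) (XT.lf (nat_lit 0) (nat_lit 1963416659) (nat_lit 532) (nat_lit 1928369618) (nat_lit 608) (nat_lit 3893880162) (nat_lit 171) (nat_lit 5) (nat_lit 178) (nat_lit 5) (nat_lit 179) (nat_lit 5) (nat_lit 334) (nat_lit 288) (nat_lit 278)) (XT.lf (nat_lit 0) (nat_lit 7149915402) (nat_lit 608) (nat_lit 309487235) (nat_lit 76) (nat_lit 415144614) (nat_lit 171) (nat_lit 5) (nat_lit 179) (nat_lit 5) (nat_lit 172) (nat_lit 4) (nat_lit 335) (nat_lit 288) (nat_lit 277))))) (XT.nd (nat_lit 234) (nat_lit 912) (nat_lit 0) (XT.nd (nat_lit 78) (nat_lit 988) (nat_lit 0) (XT.lf (nat_lit 0) (nat_lit 2478603356) (nat_lit 532) (nat_lit 2634611852) (nat_lit 76) (nat_lit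 2852556471) (nat_lit 164) (nat_lit 5) (nat_lit 171) (nat_lit 5) (nat_lit 165) (nat_lit 5) (nat_lit 336) (nat_lit 288) (nat_lit 276)) (XT.nd (nat_lit 78) (nat_lit 532) (nat_lit 0) (XT.lf (nat_lit 0) (nat_lit 3041255816) (nat_lit 456) (nat_lit 2673166395) (nat_lit 532) (nat_lit 2346625633) (nat_lit 158) (nat_lit 5) (nat_lit 164) (nat_lit 5) (nat_lit 165) (nat_lit 5) (nat_lit 337) (nat_lit 288) (nat_lit 275)) (XT.lf (nat_lit 0) (nat_lit 688339000) (nat_lit 456) (nat_lit 135189093) (nat_lit 532) (nat_lit 7336874545) (nat_lit 151) (nat_lit 5) (nat_lit 157) (nat_lit 5) (nat_lit 158) (nat_lit 5) (nat_lit 338) (nat_lit 288) (nat_lit 274)))) (XT.nd (nat_lit 156) (nat_lit 456) (nat_lit 0) (XT.nd (nat_lit 78) (nat_lit 456) (nat_lit 0) (XT.lf (nat_lit 0) (nat_lit 4037107728) (nat_lit 532) (nat_lit 1738762855) (nat_lit 76) (nat_lit 2486362422) (nat_lit 151) (nat_lit 5) (nat_lit 158) (nat_lit 5) (nat_lit 152) (nat_lit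 5) (nat_lit 339) (nat_lit 288) (nat_lit 273)) (XT.lf (nat_lit 0) (nat_lit 4148484806) (nat_lit 456) (nat_lit 3162608013) (nat_lit 532) (nat_lit 1057160404) (nat_lit 145) (nat_lit 5) (nat_lit 151) (nat_lit 5) (nat_lit 152) (nat_lit 5) (nat_lit 340) (nat_lit 288) (nat_lit 272))) (XT.nd (nat_lit 78) (nat_lit 0) (nat_lit 0) (XT.lf (nat_lit 0) (nat_lit 1684267614) (nat_lit 380) (nat_lit 435751524) (nat_lit 456) (nat_lit 6358133934) (nat_lit 139) (nat_lit 5) (nat_lit 144) (nat_lit 5) (nat_lit 145) (nat_lit 5) (nat_lit 341) (nat_lit 288) (nat_lit 271)) (XT.lf (nat_lit 0) (nat_lit 5361494701) (nat_lit 456) (nat_lit 871268768) (nat_lit 76) (nat_lit 2358615812) (nat_lit 139) (nat_lit 5) (nat_lit 145) (nat_lit 5) (nat_lit 140) (nat_lit 5) (nat_lit 342) (nat_lit 288) (nat_lit 270))))))) (XT.nd (nat_lit 1014) (nat_lit 2356) (nat_lit 0) (XT.nd (nat_lit 468) (nat_lit 1444) (nat_lit 0) (XT.nd (nat_lit 234) (nat_lit 1140)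 (nat_lit 0) (XT.nd (nat_lit 78) (nat_lit 456) (nat_lit 0) (XT.lf (nat_lit 0) (nat_lit 5230244478) (nat_lit 380) (nat_lit 3451148458) (nat_lit 456) (nat_lit 27222750) (nat_lit 134) (nat_lit 5) (nat_lit 139) (nat_lit 5) (nat_lit 140) (nat_lit 5) (nat_lit 343) (nat_lit 288) (nat_lit 269)) (XT.nd (nat_lit 78) (nat_lit 0) (nat_lit 0) (XT.lf (nat_lit 0) (nat_lit 2626189484) (nat_lit 380) (nat_lit 542666042) (nat_lit 456) (nat_lit 5660780914) (nat_lit 128) (nat_lit 5) (nat_lit 133) (nat_lit 5) (nat_lit 134) (nat_lit 5) (nat_lit 344) (nat_lit 288) (nat_lit 268)) (XT.lf (nat_lit 0) (nat_lit 6447334398) (nat_lit 456) (nat_lit 90332762) (nat_lit 76) (nat_lit 2417045235) (nat_lit 128) (nat_lit 5) (nat_lit 134) (nat_lit 5) (nat_lit 129) (nat_lit 5) (nat_lit 345) (nat_lit 288) (nat_lit 267)))) (XT.nd (nat_lit 78) (nat_lit 684) (nat_lit 0) (XT.lf (nat_lit 0) (nat_lit 721426732) (nat_lit 456) (nat_lit 2863715991) (nat_lit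 76) (nat_lit 5498368827) (nat_lit 122) (nat_lit 5) (nat_lit 128) (nat_lit 5) (nat_lit 123) (nat_lit 5) (nat_lit 346) (nat_lit 288) (nat_lit 266)) (XT.nd (nat_lit 78) (nat_lit 380) (nat_lit 0) (XT.lf (nat_lit 0) (nat_lit 3451729088) (nat_lit 304) (nat_lit 509588380) (nat_lit 380) (nat_lit 5255214754) (nat_lit 118) (nat_lit 5) (nat_lit 122) (nat_lit 5) (nat_lit 123) (nat_lit 5) (nat_lit 347) (nat_lit 288) (nat_lit 265)) (XT.lf (nat_lit 0) (nat_lit 550954581) (nat_lit 380) (nat_lit 6738878324) (nat_lit 456) (nat_lit 2064007418) (nat_lit 113) (nat_lit 5) (nat_lit 118) (nat_lit 5) (nat_lit 119) (nat_lit 5) (nat_lit 348) (nat_lit 288) (nat_lit 264))))) (XT.nd (nat_lit 234) (nat_lit 760) (nat_lit 0) (XT.nd (nat_lit 78) (nat_lit 608) (nat_lit 0) (XT.lf (nat_lit 0) (nat_lit 1194654911) (nat_lit 456) (nat_lit 2433611852) (nat_lit 76) (nat_lit 5866818131) (nat_lit 112) (nat_lit 5) (nat_lit 118) (nat_lit 5) (nat_lit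 113) (nat_lit 5) (nat_lit 349) (nat_lit 288) (nat_lit 263)) (XT.nd (nat_lit 78) (nat_lit 304) (nat_lit 0) (XT.lf (nat_lit 0) (nat_lit 4091908713) (nat_lit 304) (nat_lit 390753410) (nat_lit 380) (nat_lit 5158135803) (nat_lit 108) (nat_lit 5) (nat_lit 112) (nat_lit 5) (nat_lit 113) (nat_lit 5) (nat_lit 350) (nat_lit 288) (nat_lit 262)) (XT.lf (nat_lit 0) (nat_lit 968246770) (nat_lit 304) (nat_lit 6897985185) (nat_lit 380) (nat_lit 1924777952) (nat_lit 104) (nat_lit 5) (nat_lit 108) (nat_lit 5) (nat_lit 109) (nat_lit 5) (nat_lit 351) (nat_lit 288) (nat_lit 261)))) (XT.nd (nat_lit 156) (nat_lit 380) (nat_lit 0) (XT.nd (nat_lit 78) (nat_lit 304) (nat_lit 0) (XT.lf (nat_lit 0) (nat_lit 1373438826) (nat_lit 380) (nat_lit 2262778918) (nat_lit 76) (nat_lit 6309279785) (nat_lit 103) (nat_lit 5) (nat_lit 108) (nat_lit 5) (nat_lit 104) (nat_lit 5) (nat_lit 352) (nat_lit 288) (nat_lit 260)) (XT.lf (nat_lit 0) (nat_lit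 4469503189) (nat_lit 304) (nat_lit 242104159) (nat_lit 380) (nat_lit 5393082212) (nat_lit 99) (nat_lit 5) (nat_lit 103) (nat_lit 5) (nat_lit 104) (nat_lit 5) (nat_lit 353) (nat_lit 288) (nat_lit 259))) (XT.nd (nat_lit 78) (nat_lit 76) (nat_lit 0) (XT.lf (nat_lit 0) (nat_lit 1078335043) (nat_lit 304) (nat_lit 7073710868) (nat_lit 380) (nat_lit 2116578990) (nat_lit 95) (nat_lit 5) (nat_lit 99) (nat_lit 5) (nat_lit 100) (nat_lit 5) (nat_lit 354) (nat_lit 288) (nat_lit 258)) (XT.lf (nat_lit 0) (nat_lit 1231231542) (nat_lit 380) (nat_lit 2435772276) (nat_lit 76) (nat_lit 6770214206) (nat_lit 94) (nat_lit 5) (nat_lit 99) (nat_lit 5) (nat_lit 95) (nat_lit 5) (nat_lit 355) (nat_lit 288) (nat_lit 257)))))) (XT.nd (nat_lit 546) (nat_lit 988) (nat_lit 0) (XT.nd (nat_lit 234) (nat_lit 760) (nat_lit 0) (XT.nd (nat_lit 78) (nat_lit 380) (nat_lit 0) (XT.lf (nat_lit 0) (nat_lit 4497186993) (nat_lit 228) (nat_lit 122492329)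 (nat_lit 304) (nat_lit 5991107253) (nat_lit 91) (nat_lit 5) (nat_lit 94) (nat_lit 5) (nat_lit 95) (nat_lit 5) (nat_lit 356) (nat_lit 288) (nat_lit 256)) (XT.nd (nat_lit 78) (nat_lit 76) (nat_lit 0) (XT.lf (nat_lit 0) (nat_lit 788850742) (nat_lit 304) (nat_lit 7327386133) (nat_lit 380) (nat_lit 2673159427) (nat_lit 87) (nat_lit 5) (nat_lit 91) (nat_lit 5) (nat_lit 92) (nat_lit 5) (nat_lit 357) (nat_lit 288) (nat_lit 255)) (XT.lf (nat_lit 0) (nat_lit 733739729) (nat_lit 380) (nat_lit 3048732420) (nat_lit 76) (nat_lit 7190585612) (nat_lit 86) (nat_lit 5) (nat_lit 91) (nat_lit 5) (nat_lit 87) (nat_lit 5) (nat_lit 358) (nat_lit 288) (nat_lit 254)))) (XT.nd (nat_lit 156) (nat_lit 532) (nat_lit 0) (XT.nd (nat_lit 78) (nat_lit 0) (nat_lit 0) (XT.lf (nat_lit 0) (nat_lit 4075433828) (nat_lit 228) (nat_lit 94974290) (nat_lit 304) (nat_lit 6991613687) (nat_lit 83) (nat_lit 5) (nat_lit 86) (nat_lit 5) (nat_lit 87)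 (nat_lit 5) (nat_lit 359) (nat_lit 288) (nat_lit 253)) (XT.lf (nat_lit 0) (nat_lit 7719514213) (nat_lit 304) (nat_lit 5632437) (nat_lit 76) (nat_lit 3631252697) (nat_lit 83) (nat_lit 5) (nat_lit 87) (nat_lit 5) (nat_lit 84) (nat_lit 5) (nat_lit 360) (nat_lit 288) (nat_lit 252))) (XT.nd (nat_lit 78) (nat_lit 304) (nat_lit 0) (XT.lf (nat_lit 0) (nat_lit 7342893258) (nat_lit 228) (nat_lit 4048045043) (nat_lit 304) (nat_lit 165218558) (nat_lit 80) (nat_lit 5) (nat_lit 83) (nat_lit 5) (nat_lit 84) (nat_lit 5) (nat_lit 361) (nat_lit 288) (nat_lit 251)) (XT.lf (nat_lit 0) (nat_lit 3090123121) (nat_lit 228) (nat_lit 228228943) (nat_lit 304) (nat_lit 8443364888) (nat_lit 76) (nat_lit 5) (nat_lit 79) (nat_lit 5) (nat_lit 80) (nat_lit 5) (nat_lit 362) (nat_lit 288) (nat_lit 250))))) (XT.nd (nat_lit 234) (nat_lit 456) (nat_lit 0) (XT.nd (nat_lit 78) (nat_lit 532) (nat_lit 0) (XT.lf (nat_lit 0) (nat_lit 6926723081)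 (nat_lit 304) (nat_lit 1398844619) (nat_lit 76) (nat_lit 3647140606) (nat_lit 76) (nat_lit 5) (nat_lit 80) (nat_lit 5) (nat_lit 77) (nat_lit 5) (nat_lit 363) (nat_lit 288) (nat_lit 249)) (XT.nd (nat_lit 78) (nat_lit 304) (nat_lit 0) (XT.lf (nat_lit 0) (nat_lit 6123916161) (nat_lit 228) (nat_lit 4527177892) (nat_lit 304) (nat_lit 1538724196) (nat_lit 73) (nat_lit 5) (nat_lit 76) (nat_lit 5) (nat_lit 77) (nat_lit 5) (nat_lit 364) (nat_lit 288) (nat_lit 248)) (XT.lf (nat_lit 0) (nat_lit 1409801290) (nat_lit 228) (nat_lit 598126853) (nat_lit 304) (nat_lit 10405696214) (nat_lit 69) (nat_lit 5) (nat_lit 72) (nat_lit 5) (nat_lit 73) (nat_lit 5) (nat_lit 365) (nat_lit 288) (nat_lit 247)))) (XT.nd (nat_lit 156) (nat_lit 228) (nat_lit 0) (XT.nd (nat_lit 78) (nat_lit 228) (nat_lit 0) (XT.lf (nat_lit 0) (nat_lit 5672310374) (nat_lit 304) (nat_lit 3543273411) (nat_lit 76) (nat_lit 3426855606) (nat_lit 69) (nat_lit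 5) (nat_lit 73) (nat_lit 5) (nat_lit 70) (nat_lit 5) (nat_lit 366) (nat_lit 288) (nat_lit 246)) (XT.lf (nat_lit 0) (nat_lit 4132218859) (nat_lit 228) (nat_lit 5308830259) (nat_lit 304) (nat_lit 3437255943) (nat_lit 66) (nat_lit 5) (nat_lit 69) (nat_lit 5) (nat_lit 70) (nat_lit 5) (nat_lit 367) (nat_lit 288) (nat_lit 245))) (XT.nd (nat_lit 78) (nat_lit 152) (nat_lit 0) (XT.lf (nat_lit 0) (nat_lit 182763217) (nat_lit 304) (nat_lit 1095656446) (nat_lit 76) (nat_lit 11843233933) (nat_lit 65) (nat_lit 5) (nat_lit 69) (nat_lit 5) (nat_lit 66) (nat_lit 5) (nat_lit 368) (nat_lit 288) (nat_lit 244)) (XT.lf (nat_lit 0) (nat_lit 3886419632) (nat_lit 228) (nat_lit 6597500438) (nat_lit 76) (nat_lit 2886055215) (nat_lit 63) (nat_lit 5) (nat_lit 66) (nat_lit 5) (nat_lit 64) (nat_lit 5) (nat_lit 369) (nat_lit 288) (nat_lit 243))))))))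
noncomputable def xc75 : XT := (XT.nd (nat_lit 2028) (nat_lit 1140) (nat_lit 0) (XT.nd (nat_lit 1014) (nat_lit 988) (nat_lit 0) (XT.nd (nat_lit 468) (nat_lit 760) (nat_lit 0) (XT.nd (nat_lit 234) (nat_lit 152) (nat_lit 0) (XT.nd (nat_lit 78) (nat_lit 228) (nat_lit 0) (XT.lf (nat_lit 0) (nat_lit 1202655306) (nat_lit 228) (nat_lit 6484732788) (nat_lit 304) (nat_lit 5938789286) (nat_lit 60) (nat_lit 5) (nat_lit 63) (nat_lit 5) (nat_lit 64) (nat_lit 5) (nat_lit 370) (nat_lit 288) (nat_lit 242)) (XT.nd (nat_lit 78) (nat_lit 228) (nat_lit 0) (XT.lf (nat_lit 0) (nat_lit 9291118475) (nat_lit 228) (nat_lit 2329354165) (nat_lit 304) (nat_lit 2269066621) (nat_lit 60) (nat_lit 5) (nat_lit 63) (nat_lit 5) (nat_lit 64) (nat_lit 5) (nat_lit 371) (nat_lit 288) (nat_lit 241)) (XT.lf (nat_lit 0) (nat_lit 1485592534) (nat_lit 228) (nat_lit 10745350589) (nat_lit 76) (nat_lit 1929308858) (nat_lit 57) (nat_lit 5) (nat_lit 60)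 (nat_lit 5) (nat_lit 58) (nat_lit 5) (nat_lit 372) (nat_lit 288) (nat_lit 240)))) (XT.nd (nat_lit 78) (nat_lit 152) (nat_lit 0) (XT.lf (nat_lit 0) (nat_lit 5329963690) (nat_lit 228) (nat_lit 2800678938) (nat_lit 76) (nat_lit 6307104076) (nat_lit 57) (nat_lit 5) (nat_lit 60) (nat_lit 5) (nat_lit 58) (nat_lit 5) (nat_lit 373) (nat_lit 288) (nat_lit 239)) (XT.nd (nat_lit 78) (nat_lit 0) (nat_lit 0) (XT.lf (nat_lit 0) (nat_lit 5410351422) (nat_lit 152) (nat_lit 3885419759) (nat_lit 228) (nat_lit 5427626445) (nat_lit 55) (nat_lit 5) (nat_lit 57) (nat_lit 5) (nat_lit 58) (nat_lit 5) (nat_lit 374) (nat_lit 288) (nat_lit 238)) (XT.lf (nat_lit 0) (nat_lit 13368190766) (nat_lit 228) (nat_lit 1174475656) (nat_lit 76) (nat_lit 475336609) (nat_lit 55) (nat_lit 5) (nat_lit 58) (nat_lit 5) (nat_lit 56) (nat_lit 4) (nat_lit 375) (nat_lit 288) (nat_lit 237))))) (XT.nd (nat_lit 234) (nat_lit 380) (nat_lit 0) (XT.nd (nat_lit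 78) (nat_lit 152) (nat_lit 0) (XT.lf (nat_lit 0) (nat_lit 2261959767) (nat_lit 228) (nat_lit 8106352441) (nat_lit 76) (nat_lit 4950570518) (nat_lit 52) (nat_lit 5) (nat_lit 55) (nat_lit 5) (nat_lit 53) (nat_lit 5) (nat_lit 376) (nat_lit 288) (nat_lit 236)) (XT.nd (nat_lit 78) (nat_lit 0) (nat_lit 0) (XT.lf (nat_lit 0) (nat_lit 157663882) (nat_lit 152) (nat_lit 6069600625) (nat_lit 228) (nat_lit 9401966984) (nat_lit 50) (nat_lit 5) (nat_lit 52) (nat_lit 5) (nat_lit 53) (nat_lit 5) (nat_lit 377) (nat_lit 288) (nat_lit 235)) (XT.lf (nat_lit 0) (nat_lit 8760766118) (nat_lit 152) (nat_lit 1589031806) (nat_lit 228) (nat_lit 5597957228) (nat_lit 50) (nat_lit 5) (nat_lit 52) (nat_lit 5) (nat_lit 53) (nat_lit 5) (nat_lit 378) (nat_lit 288) (nat_lit 234)))) (XT.nd (nat_lit 156) (nat_lit 152) (nat_lit 0) (XT.nd (nat_lit 78) (nat_lit 76) (nat_lit 0) (XT.lf (nat_lit 0) (nat_lit 1267971563) (nat_lit 152) (nat_lit 13326699252)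 (nat_lit 228) (nat_lit 1681215958) (nat_lit 48) (nat_lit 5) (nat_lit 50) (nat_lit 5) (nat_lit 51) (nat_lit 4) (nat_lit 379) (nat_lit 288) (nat_lit 233)) (XT.lf (nat_lit 0) (nat_lit 2353635620) (nat_lit 228) (nat_lit 6600792587) (nat_lit 76) (nat_lit 7657371307) (nat_lit 47) (nat_lit 5) (nat_lit 50) (nat_lit 5) (nat_lit 48) (nat_lit 5) (nat_lit 380) (nat_lit 288) (nat_lit 232))) (XT.nd (nat_lit 78) (nat_lit 0) (nat_lit 0) (XT.lf (nat_lit 0) (nat_lit 2009316332) (nat_lit 152) (nat_lit 4444476403) (nat_lit 228) (nat_lit 10504167130) (nat_lit 45) (nat_lit 5) (nat_lit 47) (nat_lit 5) (nat_lit 48) (nat_lit 5) (nat_lit 381) (nat_lit 288) (nat_lit 231)) (XT.lf (nat_lit 0) (nat_lit 10705162403) (nat_lit 228) (nat_lit 6374085347) (nat_lit 76) (nat_lit 234421843) (nat_lit 45) (nat_lit 5) (nat_lit 48) (nat_lit 5) (nat_lit 46) (nat_lit 4) (nat_lit 382) (nat_lit 288) (nat_lit 230)))))) (XT.nd (nat_lit 468) (nat_lit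 532) (nat_lit 0) (XT.nd (nat_lit 234) (nat_lit 76) (nat_lit 0) (XT.nd (nat_lit 78) (nat_lit 228) (nat_lit 0) (XT.lf (nat_lit 0) (nat_lit 2390420136) (nat_lit 152) (nat_lit 12720794040) (nat_lit 228) (nat_lit 2568032689) (nat_lit 43) (nat_lit 5) (nat_lit 45) (nat_lit 5) (nat_lit 46) (nat_lit 4) (nat_lit 383) (nat_lit 288) (nat_lit 229)) (XT.nd (nat_lit 78) (nat_lit 152) (nat_lit 0) (XT.lf (nat_lit 0) (nat_lit 1587814509) (nat_lit 228) (nat_lit 6591339446) (nat_lit 76) (nat_lit 9875430115) (nat_lit 42) (nat_lit 5) (nat_lit 45) (nat_lit 5) (nat_lit 43) (nat_lit 5) (nat_lit 384) (nat_lit 288) (nat_lit 228)) (XT.lf (nat_lit 0) (nat_lit 2318890701) (nat_lit 152) (nat_lit 3481533154) (nat_lit 228) (nat_lit 12640493299) (nat_lit 40) (nat_lit 5) (nat_lit 42) (nat_lit 5) (nat_lit 43) (nat_lit 5) (nat_lit 385) (nat_lit 288) (nat_lit 227)))) (XT.nd (nat_lit 78) (nat_lit 76) (nat_lit 0) (XT.lf (nat_lit 0) (nat_lit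 10181281319) (nat_lit 228) (nat_lit 7287213787) (nat_lit 76) (nat_lit 1369098346) (nat_lit 40) (nat_lit 5) (nat_lit 43) (nat_lit 5) (nat_lit 41) (nat_lit 4) (nat_lit 386) (nat_lit 288) (nat_lit 226)) (XT.nd (nat_lit 78) (nat_lit 0) (nat_lit 0) (XT.lf (nat_lit 0) (nat_lit 1746019871) (nat_lit 76) (nat_lit 12961524077) (nat_lit 152) (nat_lit 4538215752) (nat_lit 39) (nat_lit 5) (nat_lit 40) (nat_lit 5) (nat_lit 41) (nat_lit 4) (nat_lit 387) (nat_lit 288) (nat_lit 225)) (XT.lf (nat_lit 0) (nat_lit 11134056632) (nat_lit 76) (nat_lit 8272304735) (nat_lit 152) (nat_lit 258715341) (nat_lit 39) (nat_lit 5) (nat_lit 40) (nat_lit 5) (nat_lit 41) (nat_lit 4) (nat_lit 388) (nat_lit 288) (nat_lit 224))))) (XT.nd (nat_lit 234) (nat_lit 304) (nat_lit 0) (XT.nd (nat_lit 78) (nat_lit 0) (nat_lit 0) (XT.lf (nat_lit 0) (nat_lit 614475914) (nat_lit 152) (nat_lit 3423526099) (nat_lit 228) (nat_lit 16058689044) (nat_lit 36)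 (nat_lit 5) (nat_lit 38) (nat_lit 5) (nat_lit 39) (nat_lit 5) (nat_lit 389) (nat_lit 288) (nat_lit 223)) (XT.nd (nat_lit 78) (nat_lit 0) (nat_lit 0) (XT.lf (nat_lit 0) (nat_lit 8524578443) (nat_lit 228) (nat_lit 10412536747) (nat_lit 76) (nat_lit 1602085112) (nat_lit 36) (nat_lit 5) (nat_lit 39) (nat_lit 5) (nat_lit 37) (nat_lit 4) (nat_lit 390) (nat_lit 288) (nat_lit 222)) (XT.lf (nat_lit 0) (nat_lit 13144754562) (nat_lit 228) (nat_lit 1167352144) (nat_lit 76) (nat_lit 6682915846) (nat_lit 36) (nat_lit 5) (nat_lit 39) (nat_lit 5) (nat_lit 37) (nat_lit 4) (nat_lit 391) (nat_lit 288) (nat_lit 221)))) (XT.nd (nat_lit 156) (nat_lit 152) (nat_lit 0) (XT.nd (nat_lit 78) (nat_lit 76) (nat_lit 0) (XT.lf (nat_lit 0) (nat_lit 8459399358) (nat_lit 76) (nat_lit 9491575955) (nat_lit 152) (nat_lit 3512128553) (nat_lit 35) (nat_lit 5) (nat_lit 36) (nat_lit 5) (nat_lit 37) (nat_lit 4) (nat_lit 392) (nat_lit 288) (nat_lit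 220)) (XT.lf (nat_lit 0) (nat_lit 915592965) (nat_lit 152) (nat_lit 3616244161) (nat_lit 76) (nat_lit 17413779020) (nat_lit 34) (nat_lit 5) (nat_lit 36) (nat_lit 5) (nat_lit 35) (nat_lit 5) (nat_lit 393) (nat_lit 288) (nat_lit 219))) (XT.nd (nat_lit 78) (nat_lit 0) (nat_lit 0) (XT.lf (nat_lit 0) (nat_lit 5437365335) (nat_lit 228) (nat_lit 16369522647) (nat_lit 76) (nat_lit 633725252) (nat_lit 32) (nat_lit 5) (nat_lit 35) (nat_lit 5) (nat_lit 33) (nat_lit 4) (nat_lit 394) (nat_lit 288) (nat_lit 218)) (XT.lf (nat_lit 0) (nat_lit 10143856429) (nat_lit 228) (nat_lit 6930739422) (nat_lit 76) (nat_lit 5874399146) (nat_lit 32) (nat_lit 5) (nat_lit 35) (nat_lit 5) (nat_lit 33) (nat_lit 4) (nat_lit 395) (nat_lit 288) (nat_lit 217))))))) (XT.nd (nat_lit 1014) (nat_lit 456) (nat_lit 0) (XT.nd (nat_lit 468) (nat_lit 304) (nat_lit 0) (XT.nd (nat_lit 234) (nat_lit 228) (nat_lit 0) (XT.nd (nat_lit 78) (nat_lit 76) (nat_lit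 0) (XT.lf (nat_lit 0) (nat_lit 2788021042) (nat_lit 76) (nat_lit 12198590647) (nat_lit 152) (nat_lit 8486170975) (nat_lit 31) (nat_lit 5) (nat_lit 32) (nat_lit 5) (nat_lit 33) (nat_lit 4) (nat_lit 396) (nat_lit 288) (nat_lit 216)) (XT.nd (nat_lit 78) (nat_lit 76) (nat_lit 0) (XT.lf (nat_lit 0) (nat_lit 12883391709) (nat_lit 76) (nat_lit 7129890075) (nat_lit 152) (nat_lit 3997849556) (nat_lit 31) (nat_lit 5) (nat_lit 32) (nat_lit 5) (nat_lit 33) (nat_lit 4) (nat_lit 397) (nat_lit 288) (nat_lit 215)) (XT.lf (nat_lit 0) (nat_lit 582174236) (nat_lit 152) (nat_lit 1345998997) (nat_lit 76) (nat_lit 22638205418) (nat_lit 30) (nat_lit 5) (nat_lit 32) (nat_lit 5) (nat_lit 31) (nat_lit 5) (nat_lit 398) (nat_lit 288) (nat_lit 214)))) (XT.nd (nat_lit 78) (nat_lit 76) (nat_lit 0) (XT.lf (nat_lit 0) (nat_lit 5308014011) (nat_lit 228) (nat_lit 16362302135) (nat_lit 76) (nat_lit 3464122516) (nat_lit 28) (nat_lit 5) (nat_lit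 31) (nat_lit 5) (nat_lit 29) (nat_lit 4) (nat_lit 399) (nat_lit 288) (nat_lit 213)) (XT.nd (nat_lit 78) (nat_lit 76) (nat_lit 0) (XT.lf (nat_lit 0) (nat_lit 10178711434) (nat_lit 228) (nat_lit 6571426771) (nat_lit 76) (nat_lit 8969315433) (nat_lit 28) (nat_lit 5) (nat_lit 31) (nat_lit 5) (nat_lit 29) (nat_lit 4) (nat_lit 400) (nat_lit 288) (nat_lit 212)) (XT.lf (nat_lit 0) (nat_lit 3529151570) (nat_lit 76) (nat_lit 11671433743) (nat_lit 152) (nat_lit 11121287555) (nat_lit 27) (nat_lit 5) (nat_lit 28) (nat_lit 5) (nat_lit 29) (nat_lit 4) (nat_lit 401) (nat_lit 288) (nat_lit 211))))) (XT.nd (nat_lit 234) (nat_lit 76) (nat_lit 0) (XT.nd (nat_lit 78) (nat_lit 228) (nat_lit 0) (XT.lf (nat_lit 0) (nat_lit 14015083851) (nat_lit 76) (nat_lit 6395858669) (nat_lit 152) (nat_lit 6530292654) (nat_lit 27) (nat_lit 5) (nat_lit 28) (nat_lit 5) (nat_lit 29) (nat_lit 4) (nat_lit 402) (nat_lit 288) (nat_lit 210)) (XT.nd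 (nat_lit 78) (nat_lit 228) (nat_lit 0) (XT.lf (nat_lit 0) (nat_lit 24764748260) (nat_lit 76) (nat_lit 985161781) (nat_lit 152) (nat_lit 1830104477) (nat_lit 27) (nat_lit 5) (nat_lit 28) (nat_lit 5) (nat_lit 29) (nat_lit 4) (nat_lit 403) (nat_lit 288) (nat_lit 209)) (XT.lf (nat_lit 0) (nat_lit 3043792922) (nat_lit 228) (nat_lit 20610841020) (nat_lit 76) (nat_lit 4579716008) (nat_lit 24) (nat_lit 5) (nat_lit 27) (nat_lit 5) (nat_lit 25) (nat_lit 4) (nat_lit 404) (nat_lit 288) (nat_lit 208)))) (XT.nd (nat_lit 156) (nat_lit 76) (nat_lit 0) (XT.nd (nat_lit 78) (nat_lit 0) (nat_lit 0) (XT.lf (nat_lit 0) (nat_lit 8038522558) (nat_lit 228) (nat_lit 10552474675) (nat_lit 76) (nat_lit 10316437377) (nat_lit 24) (nat_lit 5) (nat_lit 27) (nat_lit 5) (nat_lit 25) (nat_lit 4) (nat_lit 405) (nat_lit 288) (nat_lit 207)) (XT.lf (nat_lit 0) (nat_lit 13156816787) (nat_lit 228) (nat_lit 240914882) (nat_lit 76) (nat_lit 16203773043)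 (nat_lit 24) (nat_lit 5) (nat_lit 27) (nat_lit 5) (nat_lit 25) (nat_lit 4) (nat_lit 406) (nat_lit 288) (nat_lit 206))) (XT.nd (nat_lit 78) (nat_lit 0) (nat_lit 0) (XT.lf (nat_lit 0) (nat_lit 10538492402) (nat_lit 76) (nat_lit 7965957937) (nat_lit 152) (nat_lit 11809677312) (nat_lit 23) (nat_lit 5) (nat_lit 24) (nat_lit 5) (nat_lit 25) (nat_lit 4) (nat_lit 407) (nat_lit 288) (nat_lit 205)) (XT.lf (nat_lit 0) (nat_lit 21599539367) (nat_lit 76) (nat_lit 2390188700) (nat_lit 152) (nat_lit 7059089075) (nat_lit 23) (nat_lit 5) (nat_lit 24) (nat_lit 5) (nat_lit 25) (nat_lit 4) (nat_lit 408) (nat_lit 288) (nat_lit 204)))))) (XT.nd (nat_lit 546) (nat_lit 228) (nat_lit 0) (XT.nd (nat_lit 234) (nat_lit 76) (nat_lit 0) (XT.nd (nat_lit 78) (nat_lit 76) (nat_lit 0) (XT.lf (nat_lit 0) (nat_lit 1130847865) (nat_lit 76) (nat_lit 28527132926) (nat_lit 76) (nat_lit 2147018221) (nat_lit 22) (nat_lit 4) (nat_lit 23) (nat_lit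 5) (nat_lit 23) (nat_lit 4) (nat_lit 409) (nat_lit 288) (nat_lit 203)) (XT.nd (nat_lit 78) (nat_lit 0) (nat_lit 0) (XT.lf (nat_lit 0) (nat_lit 2950965633) (nat_lit 152) (nat_lit 20457436103) (nat_lit 76) (nat_lit 9171767201) (nat_lit 21) (nat_lit 5) (nat_lit 23) (nat_lit 5) (nat_lit 22) (nat_lit 4) (nat_lit 410) (nat_lit 288) (nat_lit 202)) (XT.lf (nat_lit 0) (nat_lit 8134807347) (nat_lit 152) (nat_lit 10000044837) (nat_lit 76) (nat_lit 15243825747) (nat_lit 21) (nat_lit 5) (nat_lit 23) (nat_lit 5) (nat_lit 22) (nat_lit 4) (nat_lit 411) (nat_lit 288) (nat_lit 201)))) (XT.nd (nat_lit 156) (nat_lit 0) (nat_lit 0) (XT.nd (nat_lit 78) (nat_lit 0) (nat_lit 0) (XT.lf (nat_lit 0) (nat_lit 742283246) (nat_lit 76) (nat_lit 12715784581) (nat_lit 152) (nat_lit 20743560988) (nat_lit 20) (nat_lit 5) (nat_lit 21) (nat_lit 5) (nat_lit 22) (nat_lit 4) (nat_lit 412) (nat_lit 288) (nat_lit 200)) (XT.lf (nat_lit 0) (nat_lit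 11969026961) (nat_lit 76) (nat_lit 7050013039) (nat_lit 152) (nat_lit 16027891426) (nat_lit 20) (nat_lit 5) (nat_lit 21) (nat_lit 5) (nat_lit 22) (nat_lit 4) (nat_lit 413) (nat_lit 288) (nat_lit 199))) (XT.nd (nat_lit 78) (nat_lit 0) (nat_lit 0) (XT.lf (nat_lit 0) (nat_lit 23490975582) (nat_lit 76) (nat_lit 1233567731) (nat_lit 152) (nat_lit 11193722256) (nat_lit 20) (nat_lit 5) (nat_lit 21) (nat_lit 5) (nat_lit 22) (nat_lit 4) (nat_lit 414) (nat_lit 288) (nat_lit 198)) (XT.lf (nat_lit 0) (nat_lit 30625113803) (nat_lit 152) (nat_lit 1543746419) (nat_lit 0) (nat_lit 4646165862) (nat_lit 20) (nat_lit 5) (nat_lit 22) (nat_lit 4) (nat_lit 20) (nat_lit 4) (nat_lit 415) (nat_lit 288) (nat_lit 197))))) (XT.nd (nat_lit 234) (nat_lit 76) (nat_lit 0) (XT.nd (nat_lit 78) (nat_lit 76) (nat_lit 0) (XT.lf (nat_lit 0) (nat_lit 9805767224) (nat_lit 76) (nat_lit 26982213862) (nat_lit 76) (nat_lit 948153249) (nat_lit 19)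 (nat_lit 4) (nat_lit 20) (nat_lit 5) (nat_lit 20) (nat_lit 4) (nat_lit 416) (nat_lit 288) (nat_lit 196)) (XT.nd (nat_lit 78) (nat_lit 0) (nat_lit 0) (XT.lf (nat_lit 0) (nat_lit 4358585613) (nat_lit 152) (nat_lit 17239639266) (nat_lit 76) (nat_lit 17085533163) (nat_lit 18) (nat_lit 5) (nat_lit 20) (nat_lit 5) (nat_lit 19) (nat_lit 4) (nat_lit 417) (nat_lit 288) (nat_lit 195)) (XT.lf (nat_lit 0) (nat_lit 9784922306) (nat_lit 152) (nat_lit 6276124758) (nat_lit 76) (nat_lit 23599101218) (nat_lit 18) (nat_lit 5) (nat_lit 20) (nat_lit 5) (nat_lit 19) (nat_lit 4) (nat_lit 418) (nat_lit 288) (nat_lit 194)))) (XT.nd (nat_lit 156) (nat_lit 0) (nat_lit 0) (XT.nd (nat_lit 78) (nat_lit 0) (nat_lit 0) (XT.lf (nat_lit 0) (nat_lit 5077959694) (nat_lit 76) (nat_lit 10324952934) (nat_lit 152) (nat_lit 25262054638) (nat_lit 17) (nat_lit 5) (nat_lit 18) (nat_lit 5) (nat_lit 19) (nat_lit 4) (nat_lit 419) (nat_lit 288) (nat_lit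 193)) (XT.lf (nat_lit 0) (nat_lit 16864263221) (nat_lit 76) (nat_lit 4368831881) (nat_lit 152) (nat_lit 20465528998) (nat_lit 17) (nat_lit 5) (nat_lit 18) (nat_lit 5) (nat_lit 19) (nat_lit 4) (nat_lit 420) (nat_lit 288) (nat_lit 192))) (XT.nd (nat_lit 78) (nat_lit 0) (nat_lit 0) (XT.lf (nat_lit 0) (nat_lit 27235847268) (nat_lit 152) (nat_lit 13812504398) (nat_lit 0) (nat_lit 1715011820) (nat_lit 17) (nat_lit 5) (nat_lit 19) (nat_lit 4) (nat_lit 17) (nat_lit 4) (nat_lit 421) (nat_lit 288) (nat_lit 191)) (XT.lf (nat_lit 0) (nat_lit 33443188835) (nat_lit 152) (nat_lit 2538581965) (nat_lit 0) (nat_lit 7877541741) (nat_lit 17) (nat_lit 5) (nat_lit 19) (nat_lit 4) (nat_lit 17) (nat_lit 4) (nat_lit 422) (nat_lit 288) (nat_lit 190))))))))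
noncomputable def xc76 : XT := (XT.nd (nat_lit 39078) (nat_lit 0) (nat_lit 7904) (XT.nd (nat_lit 1014) (nat_lit 304) (nat_lit 0) (XT.nd (nat_lit 468) (nat_lit 152) (nat_lit 0) (XT.nd (nat_lit 234) (nat_lit 76) (nat_lit 0) (XT.nd (nat_lit 78) (nat_lit 76) (nat_lit 0) (XT.lf (nat_lit 0) (nat_lit 9219152169) (nat_lit 76) (nat_lit 30688015769) (nat_lit 76) (nat_lit 5078862223) (nat_lit 16) (nat_lit 4) (nat_lit 17) (nat_lit 5) (nat_lit 17) (nat_lit 4) (nat_lit 423) (nat_lit 288) (nat_lit 189)) (XT.nd (nat_lit 78) (nat_lit 0) (nat_lit 0) (XT.lf (nat_lit 0) (nat_lit 418058953) (nat_lit 152) (nat_lit 24802733144) (nat_lit 76) (nat_lit 20925407727) (nat_lit 15) (nat_lit 5) (nat_lit 17) (nat_lit 5) (nat_lit 16) (nat_lit 4) (nat_lit 424) (nat_lit 288) (nat_lit 188)) (XT.lf (nat_lit 0) (nat_lit 5960157290) (nat_lit 152) (nat_lit 13593282523) (nat_lit 76) (nat_lit 27786758092) (nat_lit 15) (nat_lit 5) (nat_lit 17)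 (nat_lit 5) (nat_lit 16) (nat_lit 4) (nat_lit 425) (nat_lit 288) (nat_lit 187)))) (XT.nd (nat_lit 78) (nat_lit 76) (nat_lit 0) (XT.lf (nat_lit 0) (nat_lit 11651382293) (nat_lit 152) (nat_lit 2079910334) (nat_lit 76) (nat_lit 34839239714) (nat_lit 15) (nat_lit 5) (nat_lit 17) (nat_lit 5) (nat_lit 16) (nat_lit 4) (nat_lit 426) (nat_lit 288) (nat_lit 186)) (XT.nd (nat_lit 78) (nat_lit 0) (nat_lit 0) (XT.lf (nat_lit 0) (nat_lit 9941436891) (nat_lit 76) (nat_lit 7650833157) (nat_lit 152) (nat_lit 32243141234) (nat_lit 14) (nat_lit 5) (nat_lit 15) (nat_lit 5) (nat_lit 16) (nat_lit 4) (nat_lit 427) (nat_lit 288) (nat_lit 185)) (XT.lf (nat_lit 0) (nat_lit 22334949322) (nat_lit 76) (nat_lit 1380986480) (nat_lit 152) (nat_lit 27422166440) (nat_lit 14) (nat_lit 5) (nat_lit 15) (nat_lit 5) (nat_lit 16) (nat_lit 4) (nat_lit 428) (nat_lit 288) (nat_lit 184))))) (XT.nd (nat_lit 234) (nat_lit 76) (nat_lit 0) (XT.nd (nat_lit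 78) (nat_lit 76) (nat_lit 0) (XT.lf (nat_lit 0) (nat_lit 30056005039) (nat_lit 152) (nat_lit 17458959274) (nat_lit 0) (nat_lit 4963930936) (nat_lit 14) (nat_lit 5) (nat_lit 16) (nat_lit 4) (nat_lit 14) (nat_lit 4) (nat_lit 429) (nat_lit 288) (nat_lit 183)) (XT.nd (nat_lit 78) (nat_lit 76) (nat_lit 0) (XT.lf (nat_lit 0) (nat_lit 36584309397) (nat_lit 152) (nat_lit 5817772822) (nat_lit 0) (nat_lit 11457890899) (nat_lit 14) (nat_lit 5) (nat_lit 16) (nat_lit 4) (nat_lit 14) (nat_lit 4) (nat_lit 430) (nat_lit 288) (nat_lit 182)) (XT.lf (nat_lit 0) (nat_lit 6266127958) (nat_lit 76) (nat_lit 37087384230) (nat_lit 76) (nat_lit 11927621659) (nat_lit 13) (nat_lit 4) (nat_lit 14) (nat_lit 5) (nat_lit 14) (nat_lit 4) (nat_lit 431) (nat_lit 288) (nat_lit 181)))) (XT.nd (nat_lit 156) (nat_lit 76) (nat_lit 0) (XT.nd (nat_lit 78) (nat_lit 0) (nat_lit 0) (XT.lf (nat_lit 0) (nat_lit 18803290725) (nat_lit 76) (nat_lit 31566232061)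 (nat_lit 76) (nat_lit 6374096604) (nat_lit 13) (nat_lit 4) (nat_lit 14) (nat_lit 5) (nat_lit 14) (nat_lit 4) (nat_lit 432) (nat_lit 288) (nat_lit 180)) (XT.lf (nat_lit 0) (nat_lit 31688885193) (nat_lit 76) (nat_lit 25892549504) (nat_lit 76) (nat_lit 668984061) (nat_lit 13) (nat_lit 4) (nat_lit 14) (nat_lit 5) (nat_lit 14) (nat_lit 4) (nat_lit 433) (nat_lit 288) (nat_lit 179))) (XT.nd (nat_lit 78) (nat_lit 0) (nat_lit 0) (XT.lf (nat_lit 0) (nat_lit 5091372720) (nat_lit 152) (nat_lit 14918593371) (nat_lit 76) (nat_lit 39791385018) (nat_lit 12) (nat_lit 5) (nat_lit 14) (nat_lit 5) (nat_lit 13) (nat_lit 4) (nat_lit 434) (nat_lit 288) (nat_lit 178)) (XT.lf (nat_lit 0) (nat_lit 10997214372) (nat_lit 152) (nat_lit 2959360594) (nat_lit 76) (nat_lit 47442455882) (nat_lit 12) (nat_lit 5) (nat_lit 14) (nat_lit 5) (nat_lit 13) (nat_lit 4) (nat_lit 435) (nat_lit 288) (nat_lit 177)))))) (XT.nd (nat_lit 468) (nat_lit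 152) (nat_lit 0) (XT.nd (nat_lit 234) (nat_lit 76) (nat_lit 0) (XT.nd (nat_lit 78) (nat_lit 0) (nat_lit 0) (XT.lf (nat_lit 0) (nat_lit 9518791164) (nat_lit 76) (nat_lit 7639464906) (nat_lit 152) (nat_lit 45884045841) (nat_lit 11) (nat_lit 5) (nat_lit 12) (nat_lit 5) (nat_lit 13) (nat_lit 4) (nat_lit 436) (nat_lit 288) (nat_lit 176)) (XT.nd (nat_lit 78) (nat_lit 0) (nat_lit 0) (XT.lf (nat_lit 0) (nat_lit 22406598584) (nat_lit 76) (nat_lit 1114087317) (nat_lit 152) (nat_lit 41213690128) (nat_lit 11) (nat_lit 5) (nat_lit 12) (nat_lit 5) (nat_lit 13) (nat_lit 4) (nat_lit 437) (nat_lit 288) (nat_lit 175)) (XT.lf (nat_lit 0) (nat_lit 30114836104) (nat_lit 152) (nat_lit 30874962512) (nat_lit 0) (nat_lit 5486189911) (nat_lit 11) (nat_lit 5) (nat_lit 13) (nat_lit 4) (nat_lit 11) (nat_lit 4) (nat_lit 438) (nat_lit 288) (nat_lit 174)))) (XT.nd (nat_lit 78) (nat_lit 76) (nat_lit 0) (XT.lf (nat_lit 0) (nat_lit 36905170572)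 (nat_lit 152) (nat_lit 19113760648) (nat_lit 0) (nat_lit 12250968924) (nat_lit 11) (nat_lit 5) (nat_lit 13) (nat_lit 4) (nat_lit 11) (nat_lit 4) (nat_lit 439) (nat_lit 288) (nat_lit 173)) (XT.nd (nat_lit 78) (nat_lit 76) (nat_lit 0) (XT.lf (nat_lit 0) (nat_lit 43886913318) (nat_lit 152) (nat_lit 7023185784) (nat_lit 0) (nat_lit 19207900548) (nat_lit 11) (nat_lit 5) (nat_lit 13) (nat_lit 4) (nat_lit 11) (nat_lit 4) (nat_lit 440) (nat_lit 288) (nat_lit 172)) (XT.lf (nat_lit 0) (nat_lit 5514943060) (nat_lit 76) (nat_lit 45604234841) (nat_lit 76) (nat_lit 20901133603) (nat_lit 10) (nat_lit 4) (nat_lit 11) (nat_lit 5) (nat_lit 11) (nat_lit 4) (nat_lit 441) (nat_lit 288) (nat_lit 171))))) (XT.nd (nat_lit 234) (nat_lit 152) (nat_lit 0) (XT.nd (nat_lit 78) (nat_lit 0) (nat_lit 0) (XT.lf (nat_lit 0) (nat_lit 18550627857) (nat_lit 76) (nat_lit 40076890560) (nat_lit 76) (nat_lit 15350402461) (nat_lit 10) (nat_lit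 4) (nat_lit 11) (nat_lit 5) (nat_lit 11) (nat_lit 4) (nat_lit 442) (nat_lit 288) (nat_lit 170)) (XT.nd (nat_lit 78) (nat_lit 0) (nat_lit 0) (XT.lf (nat_lit 0) (nat_lit 31955483841) (nat_lit 76) (nat_lit 34394156948) (nat_lit 76) (nat_lit 9644963158) (nat_lit 10) (nat_lit 4) (nat_lit 11) (nat_lit 5) (nat_lit 11) (nat_lit 4) (nat_lit 443) (nat_lit 288) (nat_lit 169)) (XT.lf (nat_lit 0) (nat_lit 45741223993) (nat_lit 76) (nat_lit 28551068510) (nat_lit 76) (nat_lit 3779830359) (nat_lit 10) (nat_lit 4) (nat_lit 11) (nat_lit 5) (nat_lit 11) (nat_lit 4) (nat_lit 444) (nat_lit 288) (nat_lit 168)))) (XT.nd (nat_lit 156) (nat_lit 76) (nat_lit 0) (XT.nd (nat_lit 78) (nat_lit 0) (nat_lit 0) (XT.lf (nat_lit 0) (nat_lit 2206212846) (nat_lit 152) (nat_lit 20314028363) (nat_lit 76) (nat_lit 57691402836) (nat_lit 9) (nat_lit 5) (nat_lit 11) (nat_lit 5) (nat_lit 10) (nat_lit 4) (nat_lit 445) (nat_lit 288) (nat_lit 167))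 (XT.lf (nat_lit 0) (nat_lit 8285266191) (nat_lit 152) (nat_lit 7994328997) (nat_lit 76) (nat_lit 66134952175) (nat_lit 9) (nat_lit 5) (nat_lit 11) (nat_lit 5) (nat_lit 10) (nat_lit 4) (nat_lit 446) (nat_lit 288) (nat_lit 166))) (XT.nd (nat_lit 37128) (nat_lit 0) (nat_lit 19760) (XT.lf (nat_lit 0) (nat_lit 4768345655) (nat_lit 76) (nat_lit 9813890174) (nat_lit 152) (nat_lit 70100236788) (nat_lit 8) (nat_lit 5) (nat_lit 9) (nat_lit 5) (nat_lit 10) (nat_lit 4) (nat_lit 447) (nat_lit 288) (nat_lit 165)) (XT.lf (nat_lit 0) (nat_lit 1473413875) (nat_lit 988) (nat_lit 542752543) (nat_lit 0) (nat_lit 1473413875) (nat_lit 268) (nat_lit 5) (nat_lit 281) (nat_lit 4) (nat_lit 268) (nat_lit 4) (nat_lit 322) (nat_lit 289) (nat_lit 289))))))) (XT.nd (nat_lit 1014) (nat_lit 4408) (nat_lit 0) (XT.nd (nat_lit 468) (nat_lit 3040) (nat_lit 0) (XT.nd (nat_lit 234) (nat_lit 2280) (nat_lit 0) (XT.nd (nat_lit 78) (nat_lit 1140)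 (nat_lit 0) (XT.lf (nat_lit 0) (nat_lit 3708884402) (nat_lit 988) (nat_lit 2562305603) (nat_lit 988) (nat_lit 759105263) (nat_lit 255) (nat_lit 4) (nat_lit 268) (nat_lit 5) (nat_lit 268) (nat_lit 4) (nat_lit 323) (nat_lit 289) (nat_lit 288)) (XT.nd (nat_lit 78) (nat_lit 0) (nat_lit 0) (XT.lf (nat_lit 0) (nat_lit 1494888948) (nat_lit 1064) (nat_lit 992189489) (nat_lit 1140) (nat_lit 4597462263) (nat_lit 240) (nat_lit 5) (nat_lit 254) (nat_lit 5) (nat_lit 255) (nat_lit 4) (nat_lit 324) (nat_lit 289) (nat_lit 287)) (XT.lf (nat_lit 0) (nat_lit 5757585513) (nat_lit 1140) (nat_lit 727403221) (nat_lit 0) (nat_lit 657032556) (nat_lit 240) (nat_lit 5) (nat_lit 255) (nat_lit 4) (nat_lit 240) (nat_lit 4) (nat_lit 325) (nat_lit 289) (nat_lit 286)))) (XT.nd (nat_lit 78) (nat_lit 1064) (nat_lit 0) (XT.lf (nat_lit 0) (nat_lit 1842810989) (nat_lit 1216) (nat_lit 2961766794) (nat_lit 76) (nat_lit 2397525042) (nat_lit 224)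 (nat_lit 5) (nat_lit 240) (nat_lit 5) (nat_lit 225) (nat_lit 4) (nat_lit 326) (nat_lit 289) (nat_lit 285)) (XT.nd (nat_lit 78) (nat_lit 76) (nat_lit 0) (XT.lf (nat_lit 0) (nat_lit 2038162797) (nat_lit 988) (nat_lit 3033902401) (nat_lit 1064) (nat_lit 2193610628) (nat_lit 211) (nat_lit 5) (nat_lit 224) (nat_lit 5) (nat_lit 225) (nat_lit 4) (nat_lit 327) (nat_lit 289) (nat_lit 284)) (XT.lf (nat_lit 0) (nat_lit 983253269) (nat_lit 1064) (nat_lit 189087314) (nat_lit 76) (nat_lit 6160482208) (nat_lit 210) (nat_lit 5) (nat_lit 224) (nat_lit 5) (nat_lit 211) (nat_lit 5) (nat_lit 328) (nat_lit 289) (nat_lit 283))))) (XT.nd (nat_lit 234) (nat_lit 1216) (nat_lit 0) (XT.nd (nat_lit 78) (nat_lit 1216) (nat_lit 0) (XT.lf (nat_lit 0) (nat_lit 4176579487) (nat_lit 684) (nat_lit 2428775042) (nat_lit 76) (nat_lit 797103710) (nat_lit 202) (nat_lit 5) (nat_lit 211) (nat_lit 5) (nat_lit 203) (nat_lit 4) (nat_lit 329) (nat_lit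 289) (nat_lit 282)) (XT.nd (nat_lit 78) (nat_lit 684) (nat_lit 0) (XT.lf (nat_lit 0) (nat_lit 2767438672) (nat_lit 532) (nat_lit 4649641615) (nat_lit 608) (nat_lit 58641816) (nat_lit 195) (nat_lit 5) (nat_lit 202) (nat_lit 5) (nat_lit 203) (nat_lit 4) (nat_lit 330) (nat_lit 289) (nat_lit 281)) (XT.lf (nat_lit 0) (nat_lit 500698945) (nat_lit 608) (nat_lit 2581950138) (nat_lit 684) (nat_lit 4469440395) (nat_lit 186) (nat_lit 5) (nat_lit 194) (nat_lit 5) (nat_lit 195) (nat_lit 5) (nat_lit 331) (nat_lit 289) (nat_lit 280)))) (XT.nd (nat_lit 156) (nat_lit 608) (nat_lit 0) (XT.nd (nat_lit 78) (nat_lit 608) (nat_lit 0) (XT.lf (nat_lit 0) (nat_lit 5865912155) (nat_lit 608) (nat_lit 412237361) (nat_lit 684) (nat_lit 1353820213) (nat_lit 186) (nat_lit 5) (nat_lit 194) (nat_lit 5) (nat_lit 195) (nat_lit 5) (nat_lit 332) (nat_lit 289) (nat_lit 279)) (XT.lf (nat_lit 0) (nat_lit 1787188303) (nat_lit 608) (nat_lit 4097190162)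 (nat_lit 76) (nat_lit 1830358747) (nat_lit 178) (nat_lit 5) (nat_lit 186) (nat_lit 5) (nat_lit 179) (nat_lit 5) (nat_lit 333) (nat_lit 289) (nat_lit 278))) (XT.nd (nat_lit 78) (nat_lit 76) (nat_lit 0) (XT.lf (nat_lit 0) (nat_lit 1310874338) (nat_lit 532) (nat_lit 3635723284) (nat_lit 608) (nat_lit 2854514043) (nat_lit 171) (nat_lit 5) (nat_lit 178) (nat_lit 5) (nat_lit 179) (nat_lit 5) (nat_lit 334) (nat_lit 289) (nat_lit 277)) (XT.lf (nat_lit 0) (nat_lit 263754501) (nat_lit 608) (nat_lit 1024279641) (nat_lit 76) (nat_lit 6603244060) (nat_lit 170) (nat_lit 5) (nat_lit 178) (nat_lit 5) (nat_lit 171) (nat_lit 5) (nat_lit 335) (nat_lit 289) (nat_lit 276)))))) (XT.nd (nat_lit 546) (nat_lit 2052) (nat_lit 0) (XT.nd (nat_lit 234) (nat_lit 1368) (nat_lit 0) (XT.nd (nat_lit 78) (nat_lit 532) (nat_lit 0) (XT.lf (nat_lit 0) (nat_lit 3393322240) (nat_lit 532) (nat_lit 3423665334) (nat_lit 76) (nat_lit 1167122334)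 (nat_lit 164) (nat_lit 5) (nat_lit 171) (nat_lit 5) (nat_lit 165) (nat_lit 5) (nat_lit 336) (nat_lit 289) (nat_lit 275)) (XT.nd (nat_lit 78) (nat_lit 76) (nat_lit 0) (XT.lf (nat_lit 0) (nat_lit 2188395616) (nat_lit 456) (nat_lit 4393645552) (nat_lit 532) (nat_lit 1498787446) (nat_lit 158) (nat_lit 5) (nat_lit 164) (nat_lit 5) (nat_lit 165) (nat_lit 5) (nat_lit 337) (nat_lit 289) (nat_lit 274)) (XT.lf (nat_lit 0) (nat_lit 1609581072) (nat_lit 532) (nat_lit 253382373) (nat_lit 76) (nat_lit 6318360538) (nat_lit 157) (nat_lit 5) (nat_lit 164) (nat_lit 5) (nat_lit 158) (nat_lit 5) (nat_lit 338) (nat_lit 289) (nat_lit 273)))) (XT.nd (nat_lit 156) (nat_lit 456) (nat_lit 0) (XT.nd (nat_lit 78) (nat_lit 456) (nat_lit 0) (XT.lf (nat_lit 0) (nat_lit 4766005018) (nat_lit 532) (nat_lit 2738000978) (nat_lit 76) (nat_lit 780890060) (nat_lit 151) (nat_lit 5) (nat_lit 158) (nat_lit 5) (nat_lit 152) (nat_lit 5) (nat_lit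 339) (nat_lit 289) (nat_lit 272)) (XT.lf (nat_lit 0) (nat_lit 3081720467) (nat_lit 456) (nat_lit 4911084639) (nat_lit 532) (nat_lit 399552967) (nat_lit 145) (nat_lit 5) (nat_lit 151) (nat_lit 5) (nat_lit 152) (nat_lit 5) (nat_lit 340) (nat_lit 289) (nat_lit 271))) (XT.nd (nat_lit 78) (nat_lit 0) (nat_lit 0) (XT.lf (nat_lit 0) (nat_lit 517298647) (nat_lit 380) (nat_lit 2199594069) (nat_lit 456) (nat_lit 5786637356) (nat_lit 139) (nat_lit 5) (nat_lit 144) (nat_lit 5) (nat_lit 145) (nat_lit 5) (nat_lit 341) (nat_lit 289) (nat_lit 270)) (XT.lf (nat_lit 0) (nat_lit 5905249463) (nat_lit 456) (nat_lit 2094210577) (nat_lit 76) (nat_lit 618913826) (nat_lit 139) (nat_lit 5) (nat_lit 145) (nat_lit 5) (nat_lit 140) (nat_lit 5) (nat_lit 342) (nat_lit 289) (nat_lit 269))))) (XT.nd (nat_lit 234) (nat_lit 1216) (nat_lit 0) (XT.nd (nat_lit 78) (nat_lit 380) (nat_lit 0) (XT.lf (nat_lit 0) (nat_lit 431938500) (nat_lit 456)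 (nat_lit 4805415924) (nat_lit 76) (nat_lit 3499578707) (nat_lit 133) (nat_lit 5) (nat_lit 139) (nat_lit 5) (nat_lit 134) (nat_lit 5) (nat_lit 343) (nat_lit 289) (nat_lit 268)) (XT.nd (nat_lit 78) (nat_lit 0) (nat_lit 0) (XT.lf (nat_lit 0) (nat_lit 1225113269) (nat_lit 380) (nat_lit 2354013075) (nat_lit 456) (nat_lit 5280292449) (nat_lit 128) (nat_lit 5) (nat_lit 133) (nat_lit 5) (nat_lit 134) (nat_lit 5) (nat_lit 344) (nat_lit 289) (nat_lit 267)) (XT.lf (nat_lit 0) (nat_lit 6805764475) (nat_lit 456) (nat_lit 1550692925) (nat_lit 76) (nat_lit 629613913) (nat_lit 128) (nat_lit 5) (nat_lit 134) (nat_lit 5) (nat_lit 129) (nat_lit 5) (nat_lit 345) (nat_lit 289) (nat_lit 266)))) (XT.nd (nat_lit 156) (nat_lit 456) (nat_lit 0) (XT.nd (nat_lit 78) (nat_lit 304) (nat_lit 0) (XT.lf (nat_lit 0) (nat_lit 993428136) (nat_lit 456) (nat_lit 4435085637) (nat_lit 76) (nat_lit 3687743114) (nat_lit 122) (nat_lit 5) (nat_lit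 128) (nat_lit 5) (nat_lit 123) (nat_lit 5) (nat_lit 346) (nat_lit 289) (nat_lit 265)) (XT.lf (nat_lit 0) (nat_lit 1802393641) (nat_lit 304) (nat_lit 2381839346) (nat_lit 380) (nat_lit 5066536681) (nat_lit 118) (nat_lit 5) (nat_lit 122) (nat_lit 5) (nat_lit 123) (nat_lit 5) (nat_lit 347) (nat_lit 289) (nat_lit 264))) (XT.nd (nat_lit 78) (nat_lit 456) (nat_lit 0) (XT.lf (nat_lit 0) (nat_lit 7456634332) (nat_lit 380) (nat_lit 1171583189) (nat_lit 76) (nat_lit 761562633) (nat_lit 118) (nat_lit 5) (nat_lit 123) (nat_lit 5) (nat_lit 119) (nat_lit 5) (nat_lit 348) (nat_lit 289) (nat_lit 263)) (XT.lf (nat_lit 0) (nat_lit 1278720524) (nat_lit 456) (nat_lit 4263320507) (nat_lit 76) (nat_lit 3990291101) (nat_lit 112) (nat_lit 5) (nat_lit 118) (nat_lit 5) (nat_lit 113) (nat_lit 5) (nat_lit 349) (nat_lit 289) (nat_lit 262))))))))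
noncomputable def xc77 : XT := (XT.nd (nat_lit 2028) (nat_lit 2128) (nat_lit 0) (XT.nd (nat_lit 1014) (nat_lit 1824) (nat_lit 0) (XT.nd (nat_lit 468) (nat_lit 1140) (nat_lit 0) (XT.nd (nat_lit 234) (nat_lit 684) (nat_lit 0) (XT.nd (nat_lit 78) (nat_lit 380) (nat_lit 0) (XT.lf (nat_lit 0) (nat_lit 2179814950) (nat_lit 304) (nat_lit 2336840760) (nat_lit 380) (nat_lit 5162908970) (nat_lit 108) (nat_lit 5) (nat_lit 112) (nat_lit 5) (nat_lit 113) (nat_lit 5) (nat_lit 350) (nat_lit 289) (nat_lit 261)) (XT.nd (nat_lit 78) (nat_lit 380) (nat_lit 0) (XT.lf (nat_lit 0) (nat_lit 7840884272) (nat_lit 380) (nat_lit 1028255771) (nat_lit 76) (nat_lit 962433703) (nat_lit 108) (nat_lit 5) (nat_lit 113) (nat_lit 5) (nat_lit 109) (nat_lit 5) (nat_lit 351) (nat_lit 289) (nat_lit 260)) (XT.lf (nat_lit 0) (nat_lit 1267464140) (nat_lit 380) (nat_lit 4365524225) (nat_lit 76) (nat_lit 4354348372) (nat_lit 103) (nat_lit 5) (nat_lit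 108) (nat_lit 5) (nat_lit 104) (nat_lit 5) (nat_lit 352) (nat_lit 289) (nat_lit 259)))) (XT.nd (nat_lit 78) (nat_lit 380) (nat_lit 0) (XT.lf (nat_lit 0) (nat_lit 2279711048) (nat_lit 304) (nat_lit 2274611230) (nat_lit 380) (nat_lit 5593761219) (nat_lit 99) (nat_lit 5) (nat_lit 103) (nat_lit 5) (nat_lit 104) (nat_lit 5) (nat_lit 353) (nat_lit 289) (nat_lit 258)) (XT.nd (nat_lit 78) (nat_lit 380) (nat_lit 0) (XT.lf (nat_lit 0) (nat_lit 7934920978) (nat_lit 380) (nat_lit 1201010819) (nat_lit 76) (nat_lit 1177897207) (nat_lit 99) (nat_lit 5) (nat_lit 104) (nat_lit 5) (nat_lit 100) (nat_lit 5) (nat_lit 354) (nat_lit 289) (nat_lit 257)) (XT.lf (nat_lit 0) (nat_lit 932334412) (nat_lit 380) (nat_lit 4826764299) (nat_lit 76) (nat_lit 4724663789) (nat_lit 94) (nat_lit 5) (nat_lit 99) (nat_lit 5) (nat_lit 95) (nat_lit 5) (nat_lit 355) (nat_lit 289) (nat_lit 256))))) (XT.nd (nat_lit 234) (nat_lit 532) (nat_lit 0)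 (XT.nd (nat_lit 78) (nat_lit 380) (nat_lit 0) (XT.lf (nat_lit 0) (nat_lit 2014224403) (nat_lit 228) (nat_lit 2253761994) (nat_lit 304) (nat_lit 6390942227) (nat_lit 91) (nat_lit 5) (nat_lit 94) (nat_lit 5) (nat_lit 95) (nat_lit 5) (nat_lit 356) (nat_lit 289) (nat_lit 255)) (XT.nd (nat_lit 78) (nat_lit 380) (nat_lit 0) (XT.lf (nat_lit 0) (nat_lit 7707833987) (nat_lit 304) (nat_lit 1780980532) (nat_lit 76) (nat_lit 1350438430) (nat_lit 91) (nat_lit 5) (nat_lit 95) (nat_lit 5) (nat_lit 92) (nat_lit 5) (nat_lit 357) (nat_lit 289) (nat_lit 254)) (XT.lf (nat_lit 0) (nat_lit 238274018) (nat_lit 380) (nat_lit 5743782030) (nat_lit 76) (nat_lit 5042387503) (nat_lit 86) (nat_lit 5) (nat_lit 91) (nat_lit 5) (nat_lit 87) (nat_lit 5) (nat_lit 358) (nat_lit 289) (nat_lit 253)))) (XT.nd (nat_lit 156) (nat_lit 304) (nat_lit 0) (XT.nd (nat_lit 78) (nat_lit 0) (nat_lit 0) (XT.lf (nat_lit 0) (nat_lit 1283207719) (nat_lit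 228) (nat_lit 2337209637) (nat_lit 304) (nat_lit 7594638162) (nat_lit 83) (nat_lit 5) (nat_lit 86) (nat_lit 5) (nat_lit 87) (nat_lit 5) (nat_lit 359) (nat_lit 289) (nat_lit 252)) (XT.lf (nat_lit 0) (nat_lit 7120541186) (nat_lit 304) (nat_lit 2872296386) (nat_lit 76) (nat_lit 1418076772) (nat_lit 83) (nat_lit 5) (nat_lit 87) (nat_lit 5) (nat_lit 84) (nat_lit 5) (nat_lit 360) (nat_lit 289) (nat_lit 251))) (XT.nd (nat_lit 78) (nat_lit 76) (nat_lit 0) (XT.lf (nat_lit 0) (nat_lit 4376640366) (nat_lit 228) (nat_lit 6360181834) (nat_lit 304) (nat_lit 875515422) (nat_lit 80) (nat_lit 5) (nat_lit 83) (nat_lit 5) (nat_lit 84) (nat_lit 5) (nat_lit 361) (nat_lit 289) (nat_lit 250)) (XT.lf (nat_lit 0) (nat_lit 2565689667) (nat_lit 304) (nat_lit 27618584) (nat_lit 76) (nat_lit 9226491891) (nat_lit 79) (nat_lit 5) (nat_lit 83) (nat_lit 5) (nat_lit 80) (nat_lit 5) (nat_lit 362) (nat_lit 289) (nat_lit 249)))))) (XT.nd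 (nat_lit 468) (nat_lit 836) (nat_lit 0) (XT.nd (nat_lit 234) (nat_lit 456) (nat_lit 0) (XT.nd (nat_lit 78) (nat_lit 304) (nat_lit 0) (XT.lf (nat_lit 0) (nat_lit 6124758212) (nat_lit 304) (nat_lit 4594564356) (nat_lit 76) (nat_lit 1312958501) (nat_lit 76) (nat_lit 5) (nat_lit 80) (nat_lit 5) (nat_lit 77) (nat_lit 5) (nat_lit 363) (nat_lit 289) (nat_lit 248)) (XT.nd (nat_lit 78) (nat_lit 76) (nat_lit 0) (XT.lf (nat_lit 0) (nat_lit 2822933504) (nat_lit 228) (nat_lit 6968936040) (nat_lit 304) (nat_lit 2459249450) (nat_lit 73) (nat_lit 5) (nat_lit 76) (nat_lit 5) (nat_lit 77) (nat_lit 5) (nat_lit 364) (nat_lit 289) (nat_lit 247)) (XT.lf (nat_lit 0) (nat_lit 1066380993) (nat_lit 304) (nat_lit 2012107911) (nat_lit 76) (nat_lit 9397880806) (nat_lit 72) (nat_lit 5) (nat_lit 76) (nat_lit 5) (nat_lit 73) (nat_lit 5) (nat_lit 365) (nat_lit 289) (nat_lit 246)))) (XT.nd (nat_lit 78) (nat_lit 228) (nat_lit 0) (XT.lf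 (nat_lit 0) (nat_lit 4661767858) (nat_lit 304) (nat_lit 7085702103) (nat_lit 76) (nat_lit 959793972) (nat_lit 69) (nat_lit 5) (nat_lit 73) (nat_lit 5) (nat_lit 70) (nat_lit 5) (nat_lit 366) (nat_lit 289) (nat_lit 245)) (XT.nd (nat_lit 78) (nat_lit 0) (nat_lit 0) (XT.lf (nat_lit 0) (nat_lit 478517053) (nat_lit 228) (nat_lit 7892372060) (nat_lit 304) (nat_lit 4574038071) (nat_lit 66) (nat_lit 5) (nat_lit 69) (nat_lit 5) (nat_lit 70) (nat_lit 5) (nat_lit 367) (nat_lit 289) (nat_lit 244)) (XT.lf (nat_lit 0) (nat_lit 8334556588) (nat_lit 228) (nat_lit 3879228414) (nat_lit 304) (nat_lit 975278152) (nat_lit 66) (nat_lit 5) (nat_lit 69) (nat_lit 5) (nat_lit 70) (nat_lit 5) (nat_lit 368) (nat_lit 289) (nat_lit 243))))) (XT.nd (nat_lit 234) (nat_lit 380) (nat_lit 0) (XT.nd (nat_lit 78) (nat_lit 228) (nat_lit 0) (XT.lf (nat_lit 0) (nat_lit 2660961293) (nat_lit 228) (nat_lit 10505200211) (nat_lit 76) (nat_lit 274106321)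 (nat_lit 63) (nat_lit 5) (nat_lit 66) (nat_lit 5) (nat_lit 64) (nat_lit 5) (nat_lit 369) (nat_lit 289) (nat_lit 242)) (XT.nd (nat_lit 78) (nat_lit 228) (nat_lit 0) (XT.lf (nat_lit 0) (nat_lit 6426843605) (nat_lit 228) (nat_lit 2767606257) (nat_lit 76) (nat_lit 4503080689) (nat_lit 63) (nat_lit 5) (nat_lit 66) (nat_lit 5) (nat_lit 64) (nat_lit 5) (nat_lit 370) (nat_lit 289) (nat_lit 241)) (XT.lf (nat_lit 0) (nat_lit 5227065737) (nat_lit 228) (nat_lit 5082516629) (nat_lit 304) (nat_lit 3652828252) (nat_lit 60) (nat_lit 5) (nat_lit 63) (nat_lit 5) (nat_lit 64) (nat_lit 5) (nat_lit 371) (nat_lit 289) (nat_lit 240)))) (XT.nd (nat_lit 156) (nat_lit 152) (nat_lit 0) (XT.nd (nat_lit 78) (nat_lit 152) (nat_lit 0) (XT.lf (nat_lit 0) (nat_lit 54138016) (nat_lit 304) (nat_lit 794299462) (nat_lit 76) (nat_lit 13387333122) (nat_lit 59) (nat_lit 5) (nat_lit 63) (nat_lit 5) (nat_lit 60) (nat_lit 5) (nat_lit 372) (nat_lit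 289) (nat_lit 239)) (XT.lf (nat_lit 0) (nat_lit 3859877098) (nat_lit 228) (nat_lit 7131412707) (nat_lit 76) (nat_lit 3523141630) (nat_lit 57) (nat_lit 5) (nat_lit 60) (nat_lit 5) (nat_lit 58) (nat_lit 5) (nat_lit 373) (nat_lit 289) (nat_lit 238))) (XT.nd (nat_lit 78) (nat_lit 0) (nat_lit 0) (XT.lf (nat_lit 0) (nat_lit 955596760) (nat_lit 152) (nat_lit 6805312581) (nat_lit 228) (nat_lit 7041123215) (nat_lit 55) (nat_lit 5) (nat_lit 57) (nat_lit 5) (nat_lit 58) (nat_lit 5) (nat_lit 374) (nat_lit 289) (nat_lit 237)) (XT.lf (nat_lit 0) (nat_lit 9356843750) (nat_lit 152) (nat_lit 2450157951) (nat_lit 228) (nat_lit 3290432815) (nat_lit 55) (nat_lit 5) (nat_lit 57) (nat_lit 5) (nat_lit 58) (nat_lit 5) (nat_lit 375) (nat_lit 289) (nat_lit 236))))))) (XT.nd (nat_lit 1014) (nat_lit 912) (nat_lit 0) (XT.nd (nat_lit 468) (nat_lit 608) (nat_lit 0) (XT.nd (nat_lit 234) (nat_lit 228) (nat_lit 0) (XT.nd (nat_lit 78) (nat_lit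 152) (nat_lit 0) (XT.lf (nat_lit 0) (nat_lit 562841540) (nat_lit 228) (nat_lit 12841665388) (nat_lit 76) (nat_lit 1997002118) (nat_lit 52) (nat_lit 5) (nat_lit 55) (nat_lit 5) (nat_lit 53) (nat_lit 5) (nat_lit 376) (nat_lit 289) (nat_lit 235)) (XT.nd (nat_lit 78) (nat_lit 152) (nat_lit 0) (XT.lf (nat_lit 0) (nat_lit 4505513616) (nat_lit 228) (nat_lit 4616953832) (nat_lit 76) (nat_lit 6590075509) (nat_lit 52) (nat_lit 5) (nat_lit 55) (nat_lit 5) (nat_lit 53) (nat_lit 5) (nat_lit 377) (nat_lit 289) (nat_lit 234)) (XT.lf (nat_lit 0) (nat_lit 3858388969) (nat_lit 152) (nat_lit 4703546936) (nat_lit 228) (nat_lit 7471120035) (nat_lit 50) (nat_lit 5) (nat_lit 52) (nat_lit 5) (nat_lit 53) (nat_lit 5) (nat_lit 378) (nat_lit 289) (nat_lit 233)))) (XT.nd (nat_lit 78) (nat_lit 228) (nat_lit 0) (XT.lf (nat_lit 0) (nat_lit 12611933927) (nat_lit 152) (nat_lit 133652559) (nat_lit 228) (nat_lit 3617443557) (nat_lit 50)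 (nat_lit 5) (nat_lit 52) (nat_lit 5) (nat_lit 53) (nat_lit 5) (nat_lit 379) (nat_lit 289) (nat_lit 232)) (XT.nd (nat_lit 78) (nat_lit 0) (nat_lit 0) (XT.lf (nat_lit 0) (nat_lit 396439380) (nat_lit 228) (nat_lit 11797864768) (nat_lit 76) (nat_lit 4506965024) (nat_lit 47) (nat_lit 5) (nat_lit 50) (nat_lit 5) (nat_lit 48) (nat_lit 5) (nat_lit 380) (nat_lit 289) (nat_lit 231)) (XT.lf (nat_lit 0) (nat_lit 4457546670) (nat_lit 228) (nat_lit 3261299669) (nat_lit 76) (nat_lit 9329760000) (nat_lit 47) (nat_lit 5) (nat_lit 50) (nat_lit 5) (nat_lit 48) (nat_lit 5) (nat_lit 381) (nat_lit 289) (nat_lit 230))))) (XT.nd (nat_lit 234) (nat_lit 304) (nat_lit 0) (XT.nd (nat_lit 78) (nat_lit 152) (nat_lit 0) (XT.lf (nat_lit 0) (nat_lit 5572430981) (nat_lit 152) (nat_lit 3082726524) (nat_lit 228) (nat_lit 8750776490) (nat_lit 45) (nat_lit 5) (nat_lit 47) (nat_lit 5) (nat_lit 48) (nat_lit 5) (nat_lit 382) (nat_lit 289) (nat_lit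 229)) (XT.nd (nat_lit 78) (nat_lit 152) (nat_lit 0) (XT.lf (nat_lit 0) (nat_lit 12989543150) (nat_lit 228) (nat_lit 3119455323) (nat_lit 76) (nat_lit 1664667793) (nat_lit 45) (nat_lit 5) (nat_lit 48) (nat_lit 5) (nat_lit 46) (nat_lit 4) (nat_lit 383) (nat_lit 289) (nat_lit 228)) (XT.lf (nat_lit 0) (nat_lit 5874202455) (nat_lit 152) (nat_lit 11629191587) (nat_lit 228) (nat_lit 647563335) (nat_lit 43) (nat_lit 5) (nat_lit 45) (nat_lit 5) (nat_lit 46) (nat_lit 4) (nat_lit 384) (nat_lit 289) (nat_lit 227)))) (XT.nd (nat_lit 156) (nat_lit 76) (nat_lit 0) (XT.nd (nat_lit 78) (nat_lit 152) (nat_lit 0) (XT.lf (nat_lit 0) (nat_lit 3536936044) (nat_lit 228) (nat_lit 3438074467) (nat_lit 76) (nat_lit 11563693672) (nat_lit 42) (nat_lit 5) (nat_lit 45) (nat_lit 5) (nat_lit 43) (nat_lit 5) (nat_lit 385) (nat_lit 289) (nat_lit 226)) (XT.lf (nat_lit 0) (nat_lit 5706609593) (nat_lit 152) (nat_lit 2145827067) (nat_lit 228)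 (nat_lit 11084908981) (nat_lit 40) (nat_lit 5) (nat_lit 42) (nat_lit 5) (nat_lit 43) (nat_lit 5) (nat_lit 386) (nat_lit 289) (nat_lit 225))) (XT.nd (nat_lit 78) (nat_lit 76) (nat_lit 0) (XT.lf (nat_lit 0) (nat_lit 12323461226) (nat_lit 228) (nat_lit 4242618961) (nat_lit 76) (nat_lit 2781093168) (nat_lit 40) (nat_lit 5) (nat_lit 43) (nat_lit 5) (nat_lit 41) (nat_lit 4) (nat_lit 387) (nat_lit 289) (nat_lit 224)) (XT.lf (nat_lit 0) (nat_lit 5029619439) (nat_lit 76) (nat_lit 11933455424) (nat_lit 152) (nat_lit 2805195814) (nat_lit 39) (nat_lit 5) (nat_lit 40) (nat_lit 5) (nat_lit 41) (nat_lit 4) (nat_lit 388) (nat_lit 289) (nat_lit 223)))))) (XT.nd (nat_lit 546) (nat_lit 380) (nat_lit 0) (XT.nd (nat_lit 234) (nat_lit 304) (nat_lit 0) (XT.nd (nat_lit 78) (nat_lit 152) (nat_lit 0) (XT.lf (nat_lit 0) (nat_lit 1518035976) (nat_lit 152) (nat_lit 5611463689) (nat_lit 76) (nat_lit 13071818966) (nat_lit 38) (nat_lit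 5) (nat_lit 40) (nat_lit 5) (nat_lit 39) (nat_lit 5) (nat_lit 389) (nat_lit 289) (nat_lit 222)) (XT.nd (nat_lit 78) (nat_lit 0) (nat_lit 0) (XT.lf (nat_lit 0) (nat_lit 3774728530) (nat_lit 152) (nat_lit 2142102832) (nat_lit 228) (nat_lit 14729633788) (nat_lit 36) (nat_lit 5) (nat_lit 38) (nat_lit 5) (nat_lit 39) (nat_lit 5) (nat_lit 390) (nat_lit 289) (nat_lit 221)) (XT.lf (nat_lit 0) (nat_lit 10499727819) (nat_lit 228) (nat_lit 7635942090) (nat_lit 76) (nat_lit 2967739613) (nat_lit 36) (nat_lit 5) (nat_lit 39) (nat_lit 5) (nat_lit 37) (nat_lit 4) (nat_lit 391) (nat_lit 289) (nat_lit 220)))) (XT.nd (nat_lit 156) (nat_lit 228) (nat_lit 0) (XT.nd (nat_lit 78) (nat_lit 0) (nat_lit 0) (XT.lf (nat_lit 0) (nat_lit 1832384448) (nat_lit 76) (nat_lit 13393658812) (nat_lit 152) (nat_lit 6347848357) (nat_lit 35) (nat_lit 5) (nat_lit 36) (nat_lit 5) (nat_lit 37) (nat_lit 4) (nat_lit 392) (nat_lit 289) (nat_lit 219))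 (XT.lf (nat_lit 0) (nat_lit 11682780108) (nat_lit 76) (nat_lit 8455980804) (nat_lit 152) (nat_lit 1918396021) (nat_lit 35) (nat_lit 5) (nat_lit 36) (nat_lit 5) (nat_lit 37) (nat_lit 4) (nat_lit 393) (nat_lit 289) (nat_lit 218))) (XT.nd (nat_lit 78) (nat_lit 152) (nat_lit 0) (XT.lf (nat_lit 0) (nat_lit 2560479102) (nat_lit 152) (nat_lit 809094530) (nat_lit 76) (nat_lit 19185546890) (nat_lit 34) (nat_lit 5) (nat_lit 36) (nat_lit 5) (nat_lit 35) (nat_lit 5) (nat_lit 394) (nat_lit 289) (nat_lit 217)) (XT.lf (nat_lit 0) (nat_lit 7210938054) (nat_lit 228) (nat_lit 13937673172) (nat_lit 76) (nat_lit 1916575242) (nat_lit 32) (nat_lit 5) (nat_lit 35) (nat_lit 5) (nat_lit 33) (nat_lit 4) (nat_lit 395) (nat_lit 289) (nat_lit 216))))) (XT.nd (nat_lit 234) (nat_lit 304) (nat_lit 0) (XT.nd (nat_lit 78) (nat_lit 76) (nat_lit 0) (XT.lf (nat_lit 0) (nat_lit 12011717519) (nat_lit 228) (nat_lit 4300860484) (nat_lit 76) (nat_lit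 7277658531) (nat_lit 32) (nat_lit 5) (nat_lit 35) (nat_lit 5) (nat_lit 33) (nat_lit 4) (nat_lit 396) (nat_lit 289) (nat_lit 215)) (XT.nd (nat_lit 78) (nat_lit 0) (nat_lit 0) (XT.lf (nat_lit 0) (nat_lit 5681641214) (nat_lit 76) (nat_lit 11299585308) (nat_lit 152) (nat_lit 7149076554) (nat_lit 31) (nat_lit 5) (nat_lit 32) (nat_lit 5) (nat_lit 33) (nat_lit 4) (nat_lit 397) (nat_lit 289) (nat_lit 214)) (XT.lf (nat_lit 0) (nat_lit 15998028937) (nat_lit 76) (nat_lit 6115667303) (nat_lit 152) (nat_lit 2572465090) (nat_lit 31) (nat_lit 5) (nat_lit 32) (nat_lit 5) (nat_lit 33) (nat_lit 4) (nat_lit 398) (nat_lit 289) (nat_lit 213)))) (XT.nd (nat_lit 156) (nat_lit 76) (nat_lit 0) (XT.nd (nat_lit 78) (nat_lit 0) (nat_lit 0) (XT.lf (nat_lit 0) (nat_lit 1317569289) (nat_lit 152) (nat_lit 765769625) (nat_lit 228) (nat_lit 23175234063) (nat_lit 28) (nat_lit 5) (nat_lit 30) (nat_lit 5) (nat_lit 31) (nat_lit 5) (nat_lit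 399) (nat_lit 289) (nat_lit 212)) (XT.lf (nat_lit 0) (nat_lit 6932454192) (nat_lit 228) (nat_lit 14168821339) (nat_lit 76) (nat_lit 4742962581) (nat_lit 28) (nat_lit 5) (nat_lit 31) (nat_lit 5) (nat_lit 29) (nat_lit 4) (nat_lit 400) (nat_lit 289) (nat_lit 211))) (XT.nd (nat_lit 78) (nat_lit 76) (nat_lit 0) (XT.lf (nat_lit 0) (nat_lit 11906596816) (nat_lit 228) (nat_lit 4162404660) (nat_lit 76) (nat_lit 10379090419) (nat_lit 28) (nat_lit 5) (nat_lit 31) (nat_lit 5) (nat_lit 29) (nat_lit 4) (nat_lit 401) (nat_lit 289) (nat_lit 210)) (XT.lf (nat_lit 0) (nat_lit 6215640393) (nat_lit 76) (nat_lit 10846860223) (nat_lit 152) (nat_lit 10006589729) (nat_lit 27) (nat_lit 5) (nat_lit 28) (nat_lit 5) (nat_lit 29) (nat_lit 4) (nat_lit 402) (nat_lit 289) (nat_lit 209))))))))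
noncomputable def xc78 : XT := (XT.nd (nat_lit 2028) (nat_lit 380) (nat_lit 0) (XT.nd (nat_lit 1014) (nat_lit 456) (nat_lit 0) (XT.nd (nat_lit 468) (nat_lit 228) (nat_lit 0) (XT.nd (nat_lit 234) (nat_lit 76) (nat_lit 0) (XT.nd (nat_lit 78) (nat_lit 228) (nat_lit 0) (XT.lf (nat_lit 0) (nat_lit 16940987121) (nat_lit 76) (nat_lit 5447232941) (nat_lit 152) (nat_lit 5320049538) (nat_lit 27) (nat_lit 5) (nat_lit 28) (nat_lit 5) (nat_lit 29) (nat_lit 4) (nat_lit 403) (nat_lit 289) (nat_lit 208)) (XT.nd (nat_lit 78) (nat_lit 228) (nat_lit 0) (XT.lf (nat_lit 0) (nat_lit 27848490610) (nat_lit 152) (nat_lit 428135038) (nat_lit 0) (nat_lit 90760060) (nat_lit 27) (nat_lit 5) (nat_lit 29) (nat_lit 4) (nat_lit 27) (nat_lit 4) (nat_lit 404) (nat_lit 289) (nat_lit 207)) (XT.lf (nat_lit 0) (nat_lit 4468776608) (nat_lit 228) (nat_lit 18764691527) (nat_lit 76) (nat_lit 5807669632) (nat_lit 24) (nat_lit 5) (nat_lit 27) (nat_lit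 5) (nat_lit 25) (nat_lit 4) (nat_lit 405) (nat_lit 289) (nat_lit 206)))) (XT.nd (nat_lit 78) (nat_lit 76) (nat_lit 0) (XT.lf (nat_lit 0) (nat_lit 9574503379) (nat_lit 228) (nat_lit 8476355008) (nat_lit 76) (nat_lit 11684728697) (nat_lit 24) (nat_lit 5) (nat_lit 27) (nat_lit 5) (nat_lit 25) (nat_lit 4) (nat_lit 406) (nat_lit 289) (nat_lit 205)) (XT.nd (nat_lit 78) (nat_lit 0) (nat_lit 0) (XT.lf (nat_lit 0) (nat_lit 2116155275) (nat_lit 76) (nat_lit 12712819584) (nat_lit 152) (nat_lit 15622032154) (nat_lit 23) (nat_lit 5) (nat_lit 24) (nat_lit 5) (nat_lit 25) (nat_lit 4) (nat_lit 407) (nat_lit 289) (nat_lit 204)) (XT.lf (nat_lit 0) (nat_lit 13154876420) (nat_lit 76) (nat_lit 7147315524) (nat_lit 152) (nat_lit 10883868446) (nat_lit 23) (nat_lit 5) (nat_lit 24) (nat_lit 5) (nat_lit 25) (nat_lit 4) (nat_lit 408) (nat_lit 289) (nat_lit 203))))) (XT.nd (nat_lit 234) (nat_lit 76) (nat_lit 0) (XT.nd (nat_lit 78)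 (nat_lit 152) (nat_lit 0) (XT.lf (nat_lit 0) (nat_lit 24480757826) (nat_lit 76) (nat_lit 1435077709) (nat_lit 152) (nat_lit 6028047005) (nat_lit 23) (nat_lit 5) (nat_lit 24) (nat_lit 5) (nat_lit 25) (nat_lit 4) (nat_lit 409) (nat_lit 289) (nat_lit 202)) (XT.nd (nat_lit 78) (nat_lit 76) (nat_lit 0) (XT.lf (nat_lit 0) (nat_lit 3402379786) (nat_lit 76) (nat_lit 28347709881) (nat_lit 76) (nat_lit 972787603) (nat_lit 22) (nat_lit 4) (nat_lit 23) (nat_lit 5) (nat_lit 23) (nat_lit 4) (nat_lit 410) (nat_lit 289) (nat_lit 201)) (XT.lf (nat_lit 0) (nat_lit 4218592480) (nat_lit 152) (nat_lit 18875070233) (nat_lit 76) (nat_lit 10428349244) (nat_lit 21) (nat_lit 5) (nat_lit 23) (nat_lit 5) (nat_lit 22) (nat_lit 4) (nat_lit 411) (nat_lit 289) (nat_lit 200)))) (XT.nd (nat_lit 156) (nat_lit 0) (nat_lit 0) (XT.nd (nat_lit 78) (nat_lit 76) (nat_lit 0) (XT.lf (nat_lit 0) (nat_lit 9523606788) (nat_lit 152) (nat_lit 8167920985)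 (nat_lit 76) (nat_lit 16653984235) (nat_lit 21) (nat_lit 5) (nat_lit 23) (nat_lit 5) (nat_lit 22) (nat_lit 4) (nat_lit 412) (nat_lit 289) (nat_lit 199)) (XT.lf (nat_lit 0) (nat_lit 2875773753) (nat_lit 76) (nat_lit 12117743303) (nat_lit 152) (nat_lit 20200031152) (nat_lit 20) (nat_lit 5) (nat_lit 21) (nat_lit 5) (nat_lit 22) (nat_lit 4) (nat_lit 413) (nat_lit 289) (nat_lit 198))) (XT.nd (nat_lit 78) (nat_lit 0) (nat_lit 0) (XT.lf (nat_lit 0) (nat_lit 14377827876) (nat_lit 76) (nat_lit 6310528173) (nat_lit 152) (nat_lit 15376847911) (nat_lit 20) (nat_lit 5) (nat_lit 21) (nat_lit 5) (nat_lit 22) (nat_lit 4) (nat_lit 414) (nat_lit 289) (nat_lit 197)) (XT.lf (nat_lit 0) (nat_lit 26185734078) (nat_lit 76) (nat_lit 347288105) (nat_lit 152) (nat_lit 10430621052) (nat_lit 20) (nat_lit 5) (nat_lit 21) (nat_lit 5) (nat_lit 22) (nat_lit 4) (nat_lit 415) (nat_lit 289) (nat_lit 196)))))) (XT.nd (nat_lit 468) (nat_lit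 228) (nat_lit 0) (XT.nd (nat_lit 234) (nat_lit 76) (nat_lit 0) (XT.nd (nat_lit 78) (nat_lit 76) (nat_lit 0) (XT.lf (nat_lit 0) (nat_lit 371881759) (nat_lit 76) (nat_lit 32219849307) (nat_lit 76) (nat_lit 5296146756) (nat_lit 19) (nat_lit 4) (nat_lit 20) (nat_lit 5) (nat_lit 20) (nat_lit 4) (nat_lit 416) (nat_lit 289) (nat_lit 195)) (XT.nd (nat_lit 78) (nat_lit 0) (nat_lit 0) (XT.lf (nat_lit 0) (nat_lit 85315251) (nat_lit 152) (nat_lit 26802461569) (nat_lit 76) (nat_lit 11949283724) (nat_lit 18) (nat_lit 5) (nat_lit 20) (nat_lit 5) (nat_lit 19) (nat_lit 4) (nat_lit 417) (nat_lit 289) (nat_lit 194)) (XT.lf (nat_lit 0) (nat_lit 5501824887) (nat_lit 152) (nat_lit 15857382910) (nat_lit 76) (nat_lit 18454539248) (nat_lit 18) (nat_lit 5) (nat_lit 20) (nat_lit 5) (nat_lit 19) (nat_lit 4) (nat_lit 418) (nat_lit 289) (nat_lit 193)))) (XT.nd (nat_lit 78) (nat_lit 76) (nat_lit 0) (XT.lf (nat_lit 0) (nat_lit 11061461922)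 (nat_lit 152) (nat_lit 4620286623) (nat_lit 76) (nat_lit 25138569488) (nat_lit 18) (nat_lit 5) (nat_lit 20) (nat_lit 5) (nat_lit 19) (nat_lit 4) (nat_lit 419) (nat_lit 289) (nat_lit 192)) (XT.nd (nat_lit 78) (nat_lit 0) (nat_lit 0) (XT.lf (nat_lit 0) (nat_lit 7056340736) (nat_lit 76) (nat_lit 9780573420) (nat_lit 152) (nat_lit 25018703985) (nat_lit 17) (nat_lit 5) (nat_lit 18) (nat_lit 5) (nat_lit 19) (nat_lit 4) (nat_lit 420) (nat_lit 289) (nat_lit 191)) (XT.lf (nat_lit 0) (nat_lit 19143047672) (nat_lit 76) (nat_lit 3670646253) (nat_lit 152) (nat_lit 20107444100) (nat_lit 17) (nat_lit 5) (nat_lit 18) (nat_lit 5) (nat_lit 19) (nat_lit 4) (nat_lit 421) (nat_lit 289) (nat_lit 190))))) (XT.nd (nat_lit 234) (nat_lit 152) (nat_lit 0) (XT.nd (nat_lit 78) (nat_lit 76) (nat_lit 0) (XT.lf (nat_lit 0) (nat_lit 28976784079) (nat_lit 152) (nat_lit 12485782356) (nat_lit 0) (nat_lit 2555849474) (nat_lit 17) (nat_lit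 5) (nat_lit 19) (nat_lit 4) (nat_lit 17) (nat_lit 4) (nat_lit 422) (nat_lit 289) (nat_lit 189)) (XT.nd (nat_lit 78) (nat_lit 76) (nat_lit 0) (XT.lf (nat_lit 0) (nat_lit 35343437308) (nat_lit 152) (nat_lit 924353818) (nat_lit 0) (nat_lit 8880263430) (nat_lit 17) (nat_lit 5) (nat_lit 19) (nat_lit 4) (nat_lit 17) (nat_lit 4) (nat_lit 423) (nat_lit 289) (nat_lit 188)) (XT.lf (nat_lit 0) (nat_lit 11169539932) (nat_lit 76) (nat_lit 30821760730) (nat_lit 76) (nat_lit 4317577848) (nat_lit 16) (nat_lit 4) (nat_lit 17) (nat_lit 5) (nat_lit 17) (nat_lit 4) (nat_lit 424) (nat_lit 289) (nat_lit 187)))) (XT.nd (nat_lit 156) (nat_lit 76) (nat_lit 0) (XT.nd (nat_lit 78) (nat_lit 0) (nat_lit 0) (XT.lf (nat_lit 0) (nat_lit 1300330464) (nat_lit 152) (nat_lit 23904326605) (nat_lit 76) (nat_lit 22299719008) (nat_lit 15) (nat_lit 5) (nat_lit 17) (nat_lit 5) (nat_lit 16) (nat_lit 4) (nat_lit 425) (nat_lit 289) (nat_lit 186))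 (XT.lf (nat_lit 0) (nat_lit 6983359817) (nat_lit 152) (nat_lit 12406431938) (nat_lit 76) (nat_lit 29345165738) (nat_lit 15) (nat_lit 5) (nat_lit 17) (nat_lit 5) (nat_lit 16) (nat_lit 4) (nat_lit 426) (nat_lit 289) (nat_lit 185))) (XT.nd (nat_lit 78) (nat_lit 76) (nat_lit 0) (XT.lf (nat_lit 0) (nat_lit 12820727459) (nat_lit 152) (nat_lit 594104672) (nat_lit 76) (nat_lit 36588110985) (nat_lit 15) (nat_lit 5) (nat_lit 17) (nat_lit 5) (nat_lit 16) (nat_lit 4) (nat_lit 427) (nat_lit 289) (nat_lit 184)) (XT.lf (nat_lit 0) (nat_lit 11772704510) (nat_lit 76) (nat_lit 7157995930) (nat_lit 152) (nat_lit 32375345465) (nat_lit 14) (nat_lit 5) (nat_lit 15) (nat_lit 5) (nat_lit 16) (nat_lit 4) (nat_lit 428) (nat_lit 289) (nat_lit 183))))))) (XT.nd (nat_lit 1014) (nat_lit 152) (nat_lit 0) (XT.nd (nat_lit 468) (nat_lit 76) (nat_lit 0) (XT.nd (nat_lit 234) (nat_lit 152) (nat_lit 0) (XT.nd (nat_lit 78) (nat_lit 0) (nat_lit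 0) (XT.lf (nat_lit 0) (nat_lit 24493371114) (nat_lit 76) (nat_lit 721093528) (nat_lit 152) (nat_lit 27434064437) (nat_lit 14) (nat_lit 5) (nat_lit 15) (nat_lit 5) (nat_lit 16) (nat_lit 4) (nat_lit 429) (nat_lit 289) (nat_lit 182)) (XT.nd (nat_lit 78) (nat_lit 0) (nat_lit 0) (XT.lf (nat_lit 0) (nat_lit 31728357333) (nat_lit 152) (nat_lit 16521225139) (nat_lit 0) (nat_lit 5780457813) (nat_lit 14) (nat_lit 5) (nat_lit 16) (nat_lit 4) (nat_lit 14) (nat_lit 4) (nat_lit 430) (nat_lit 289) (nat_lit 181)) (XT.lf (nat_lit 0) (nat_lit 38430064060) (nat_lit 152) (nat_lit 4573371139) (nat_lit 0) (nat_lit 12449791654) (nat_lit 14) (nat_lit 5) (nat_lit 16) (nat_lit 4) (nat_lit 14) (nat_lit 4) (nat_lit 431) (nat_lit 289) (nat_lit 180)))) (XT.nd (nat_lit 78) (nat_lit 76) (nat_lit 0) (XT.lf (nat_lit 0) (nat_lit 7859135538) (nat_lit 76) (nat_lit 37534920372) (nat_lit 76) (nat_lit 11523217979) (nat_lit 13) (nat_lit 4) (nat_lit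 14) (nat_lit 5) (nat_lit 14) (nat_lit 4) (nat_lit 432) (nat_lit 289) (nat_lit 179)) (XT.nd (nat_lit 78) (nat_lit 76) (nat_lit 0) (XT.lf (nat_lit 0) (nat_lit 20731490166) (nat_lit 76) (nat_lit 31867505058) (nat_lit 76) (nat_lit 5825288115) (nat_lit 13) (nat_lit 4) (nat_lit 14) (nat_lit 5) (nat_lit 14) (nat_lit 4) (nat_lit 433) (nat_lit 289) (nat_lit 178)) (XT.lf (nat_lit 0) (nat_lit 28849334) (nat_lit 152) (nat_lit 26013278571) (nat_lit 76) (nat_lit 33934780724) (nat_lit 12) (nat_lit 5) (nat_lit 14) (nat_lit 5) (nat_lit 13) (nat_lit 4) (nat_lit 434) (nat_lit 289) (nat_lit 177))))) (XT.nd (nat_lit 234) (nat_lit 0) (nat_lit 0) (XT.nd (nat_lit 78) (nat_lit 76) (nat_lit 0) (XT.lf (nat_lit 0) (nat_lit 5928052736) (nat_lit 152) (nat_lit 14066658554) (nat_lit 76) (nat_lit 41580077051) (nat_lit 12) (nat_lit 5) (nat_lit 14) (nat_lit 5) (nat_lit 13) (nat_lit 4) (nat_lit 435) (nat_lit 289) (nat_lit 176)) (XT.nd (nat_lit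 78) (nat_lit 76) (nat_lit 0) (XT.lf (nat_lit 0) (nat_lit 11991149089) (nat_lit 152) (nat_lit 1786498093) (nat_lit 76) (nat_lit 49443351385) (nat_lit 12) (nat_lit 5) (nat_lit 14) (nat_lit 5) (nat_lit 13) (nat_lit 4) (nat_lit 436) (nat_lit 289) (nat_lit 175)) (XT.lf (nat_lit 0) (nat_lit 11053629166) (nat_lit 76) (nat_lit 7276061323) (nat_lit 152) (nat_lit 46584099628) (nat_lit 11) (nat_lit 5) (nat_lit 12) (nat_lit 5) (nat_lit 13) (nat_lit 4) (nat_lit 437) (nat_lit 289) (nat_lit 174)))) (XT.nd (nat_lit 156) (nat_lit 0) (nat_lit 0) (XT.nd (nat_lit 78) (nat_lit 0) (nat_lit 0) (XT.lf (nat_lit 0) (nat_lit 24291684179) (nat_lit 76) (nat_lit 572182237) (nat_lit 152) (nat_lit 41793336184) (nat_lit 11) (nat_lit 5) (nat_lit 12) (nat_lit 5) (nat_lit 13) (nat_lit 4) (nat_lit 438) (nat_lit 289) (nat_lit 173)) (XT.lf (nat_lit 0) (nat_lit 31642640741) (nat_lit 152) (nat_lit 30610374547) (nat_lit 0) (nat_lit 6198446466)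 (nat_lit 11) (nat_lit 5) (nat_lit 13) (nat_lit 4) (nat_lit 11) (nat_lit 4) (nat_lit 439) (nat_lit 289) (nat_lit 172))) (XT.nd (nat_lit 78) (nat_lit 0) (nat_lit 0) (XT.lf (nat_lit 0) (nat_lit 38618500013) (nat_lit 152) (nat_lit 18531021195) (nat_lit 0) (nat_lit 13150217271) (nat_lit 11) (nat_lit 5) (nat_lit 13) (nat_lit 4) (nat_lit 11) (nat_lit 4) (nat_lit 440) (nat_lit 289) (nat_lit 171)) (XT.lf (nat_lit 0) (nat_lit 45792039479) (nat_lit 152) (nat_lit 6111403424) (nat_lit 0) (nat_lit 20300369875) (nat_lit 11) (nat_lit 5) (nat_lit 13) (nat_lit 4) (nat_lit 11) (nat_lit 4) (nat_lit 441) (nat_lit 289) (nat_lit 170)))))) (XT.nd (nat_lit 37440) (nat_lit 0) (nat_lit 15352) (XT.nd (nat_lit 234) (nat_lit 76) (nat_lit 0) (XT.nd (nat_lit 78) (nat_lit 0) (nat_lit 0) (XT.lf (nat_lit 0) (nat_lit 6791864600) (nat_lit 76) (nat_lit 46442950236) (nat_lit 76) (nat_lit 20928574941) (nat_lit 10) (nat_lit 4) (nat_lit 11) (nat_lit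 5) (nat_lit 11) (nat_lit 4) (nat_lit 442) (nat_lit 289) (nat_lit 169)) (XT.nd (nat_lit 78) (nat_lit 0) (nat_lit 0) (XT.lf (nat_lit 0) (nat_lit 20186246934) (nat_lit 76) (nat_lit 40765205384) (nat_lit 76) (nat_lit 15228785728) (nat_lit 10) (nat_lit 4) (nat_lit 11) (nat_lit 5) (nat_lit 11) (nat_lit 4) (nat_lit 443) (nat_lit 289) (nat_lit 168)) (XT.lf (nat_lit 0) (nat_lit 33961818493) (nat_lit 76) (nat_lit 34926960401) (nat_lit 76) (nat_lit 9369138454) (nat_lit 10) (nat_lit 4) (nat_lit 11) (nat_lit 5) (nat_lit 11) (nat_lit 4) (nat_lit 444) (nat_lit 289) (nat_lit 167)))) (XT.nd (nat_lit 156) (nat_lit 0) (nat_lit 0) (XT.nd (nat_lit 78) (nat_lit 76) (nat_lit 0) (XT.lf (nat_lit 0) (nat_lit 48130616186) (nat_lit 76) (nat_lit 28923113909) (nat_lit 76) (nat_lit 3344513038) (nat_lit 10) (nat_lit 4) (nat_lit 11) (nat_lit 5) (nat_lit 11) (nat_lit 4) (nat_lit 445) (nat_lit 289) (nat_lit 166)) (XT.lf (nat_lit 0) (nat_lit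 2794734066) (nat_lit 152) (nat_lit 19925464428) (nat_lit 76) (nat_lit 59882065114) (nat_lit 9) (nat_lit 5) (nat_lit 11) (nat_lit 5) (nat_lit 10) (nat_lit 4) (nat_lit 446) (nat_lit 289) (nat_lit 165))) (XT.nd (nat_lit 36972) (nat_lit 0) (nat_lit 20672) (XT.lf (nat_lit 0) (nat_lit 9040945375) (nat_lit 152) (nat_lit 7265241599) (nat_lit 76) (nat_lit 68565525200) (nat_lit 9) (nat_lit 5) (nat_lit 11) (nat_lit 5) (nat_lit 10) (nat_lit 4) (nat_lit 447) (nat_lit 289) (nat_lit 164)) (XT.lf (nat_lit 0) (nat_lit 1728454056) (nat_lit 836) (nat_lit 856970189) (nat_lit 836) (nat_lit 856970189) (nat_lit 281) (nat_lit 4) (nat_lit 292) (nat_lit 5) (nat_lit 292) (nat_lit 4) (nat_lit 320) (nat_lit 290) (nat_lit 290))))) (XT.nd (nat_lit 234) (nat_lit 3268) (nat_lit 0) (XT.nd (nat_lit 78) (nat_lit 1064) (nat_lit 0) (XT.lf (nat_lit 0) (nat_lit 1166186008) (nat_lit 912) (nat_lit 350661897) (nat_lit 988) (nat_lit 5414564725)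 (nat_lit 268) (nat_lit 5) (nat_lit 280) (nat_lit 5) (nat_lit 281) (nat_lit 4) (nat_lit 321) (nat_lit 290) (nat_lit 289)) (XT.nd (nat_lit 78) (nat_lit 1064) (nat_lit 0) (XT.lf (nat_lit 0) (nat_lit 4754539770) (nat_lit 988) (nat_lit 1132118626) (nat_lit 0) (nat_lit 1094043080) (nat_lit 268) (nat_lit 5) (nat_lit 281) (nat_lit 4) (nat_lit 268) (nat_lit 4) (nat_lit 322) (nat_lit 290) (nat_lit 288)) (XT.lf (nat_lit 0) (nat_lit 977056688) (nat_lit 1064) (nat_lit 3427751553) (nat_lit 76) (nat_lit 2628263574) (nat_lit 254) (nat_lit 5) (nat_lit 268) (nat_lit 5) (nat_lit 255) (nat_lit 4) (nat_lit 323) (nat_lit 290) (nat_lit 287)))) (XT.nd (nat_lit 156) (nat_lit 2128) (nat_lit 0) (XT.nd (nat_lit 78) (nat_lit 76) (nat_lit 0) (XT.lf (nat_lit 0) (nat_lit 1332267922) (nat_lit 1064) (nat_lit 2826911298) (nat_lit 1140) (nat_lit 2929445397) (nat_lit 240) (nat_lit 5) (nat_lit 254) (nat_lit 5) (nat_lit 255) (nat_lit 4) (nat_lit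 324) (nat_lit 290) (nat_lit 286)) (XT.lf (nat_lit 0) (nat_lit 224300717) (nat_lit 1140) (nat_lit 936675986) (nat_lit 76) (nat_lit 5986705152) (nat_lit 239) (nat_lit 5) (nat_lit 254) (nat_lit 5) (nat_lit 240) (nat_lit 5) (nat_lit 325) (nat_lit 290) (nat_lit 285))) (XT.nd (nat_lit 78) (nat_lit 988) (nat_lit 0) (XT.lf (nat_lit 0) (nat_lit 3364997513) (nat_lit 1216) (nat_lit 3230384945) (nat_lit 76) (nat_lit 613812417) (nat_lit 224) (nat_lit 5) (nat_lit 240) (nat_lit 5) (nat_lit 225) (nat_lit 4) (nat_lit 326) (nat_lit 290) (nat_lit 284)) (XT.lf (nat_lit 0) (nat_lit 1717332025) (nat_lit 988) (nat_lit 4828881678) (nat_lit 1064) (nat_lit 728038699) (nat_lit 211) (nat_lit 5) (nat_lit 224) (nat_lit 5) (nat_lit 225) (nat_lit 4) (nat_lit 327) (nat_lit 290) (nat_lit 283))))))))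
noncomputable def xc79 : XT := (XT.nd (nat_lit 2028) (nat_lit 4028) (nat_lit 0) (XT.nd (nat_lit 1014) (nat_lit 3116) (nat_lit 0) (XT.nd (nat_lit 468) (nat_lit 2584) (nat_lit 0) (XT.nd (nat_lit 234) (nat_lit 1216) (nat_lit 0) (XT.nd (nat_lit 78) (nat_lit 1216) (nat_lit 0) (XT.lf (nat_lit 0) (nat_lit 2375666810) (nat_lit 1064) (nat_lit 579011904) (nat_lit 76) (nat_lit 4387675702) (nat_lit 210) (nat_lit 5) (nat_lit 224) (nat_lit 5) (nat_lit 211) (nat_lit 5) (nat_lit 328) (nat_lit 290) (nat_lit 282)) (XT.nd (nat_lit 78) (nat_lit 608) (nat_lit 0) (XT.lf (nat_lit 0) (nat_lit 4538073447) (nat_lit 608) (nat_lit 975578173) (nat_lit 684) (nat_lit 1900038188) (nat_lit 202) (nat_lit 5) (nat_lit 210) (nat_lit 5) (nat_lit 211) (nat_lit 5) (nat_lit 329) (nat_lit 290) (nat_lit 281)) (XT.lf (nat_lit 0) (nat_lit 1185304158) (nat_lit 608) (nat_lit 5225880418) (nat_lit 76) (nat_lit 1077156098) (nat_lit 194) (nat_lit 5) (nat_lit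 202) (nat_lit 5) (nat_lit 195) (nat_lit 5) (nat_lit 330) (nat_lit 290) (nat_lit 280)))) (XT.nd (nat_lit 78) (nat_lit 1216) (nat_lit 0) (XT.lf (nat_lit 0) (nat_lit 4278535825) (nat_lit 608) (nat_lit 73581496) (nat_lit 76) (nat_lit 3214017598) (nat_lit 194) (nat_lit 5) (nat_lit 202) (nat_lit 5) (nat_lit 195) (nat_lit 5) (nat_lit 331) (nat_lit 290) (nat_lit 279)) (XT.nd (nat_lit 78) (nat_lit 608) (nat_lit 0) (XT.lf (nat_lit 0) (nat_lit 5244272388) (nat_lit 608) (nat_lit 2187725686) (nat_lit 684) (nat_lit 215313518) (nat_lit 186) (nat_lit 5) (nat_lit 194) (nat_lit 5) (nat_lit 195) (nat_lit 5) (nat_lit 332) (nat_lit 290) (nat_lit 278)) (XT.lf (nat_lit 0) (nat_lit 2839064517) (nat_lit 608) (nat_lit 4803706996) (nat_lit 76) (nat_lit 88944916) (nat_lit 178) (nat_lit 5) (nat_lit 186) (nat_lit 5) (nat_lit 179) (nat_lit 5) (nat_lit 333) (nat_lit 290) (nat_lit 277))))) (XT.nd (nat_lit 234) (nat_lit 1520) (nat_lit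 0) (XT.nd (nat_lit 78) (nat_lit 532) (nat_lit 0) (XT.lf (nat_lit 0) (nat_lit 543248556) (nat_lit 532) (nat_lit 5408001453) (nat_lit 608) (nat_lit 1868289871) (nat_lit 171) (nat_lit 5) (nat_lit 178) (nat_lit 5) (nat_lit 179) (nat_lit 5) (nat_lit 334) (nat_lit 290) (nat_lit 276)) (XT.nd (nat_lit 78) (nat_lit 456) (nat_lit 0) (XT.lf (nat_lit 0) (nat_lit 1191192308) (nat_lit 608) (nat_lit 1866308762) (nat_lit 76) (nat_lit 4853137616) (nat_lit 170) (nat_lit 5) (nat_lit 178) (nat_lit 5) (nat_lit 171) (nat_lit 5) (nat_lit 335) (nat_lit 290) (nat_lit 275)) (XT.lf (nat_lit 0) (nat_lit 3667403967) (nat_lit 456) (nat_lit 594826078) (nat_lit 532) (nat_lit 3743025792) (nat_lit 164) (nat_lit 5) (nat_lit 170) (nat_lit 5) (nat_lit 171) (nat_lit 5) (nat_lit 336) (nat_lit 290) (nat_lit 274)))) (XT.nd (nat_lit 156) (nat_lit 988) (nat_lit 0) (XT.nd (nat_lit 78) (nat_lit 76) (nat_lit 0) (XT.lf (nat_lit 0) (nat_lit 1215144655)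 (nat_lit 456) (nat_lit 6182962349) (nat_lit 532) (nat_lit 705481481) (nat_lit 158) (nat_lit 5) (nat_lit 164) (nat_lit 5) (nat_lit 165) (nat_lit 5) (nat_lit 337) (nat_lit 290) (nat_lit 273)) (XT.lf (nat_lit 0) (nat_lit 2349907658) (nat_lit 532) (nat_lit 1303133986) (nat_lit 76) (nat_lit 4551965446) (nat_lit 157) (nat_lit 5) (nat_lit 164) (nat_lit 5) (nat_lit 158) (nat_lit 5) (nat_lit 338) (nat_lit 290) (nat_lit 272))) (XT.nd (nat_lit 78) (nat_lit 532) (nat_lit 0) (XT.lf (nat_lit 0) (nat_lit 4438473877) (nat_lit 456) (nat_lit 1013064404) (nat_lit 532) (nat_lit 2858710931) (nat_lit 151) (nat_lit 5) (nat_lit 157) (nat_lit 5) (nat_lit 158) (nat_lit 5) (nat_lit 339) (nat_lit 290) (nat_lit 271)) (XT.lf (nat_lit 0) (nat_lit 197893732) (nat_lit 532) (nat_lit 6532326660) (nat_lit 76) (nat_lit 1689169849) (nat_lit 144) (nat_lit 5) (nat_lit 151) (nat_lit 5) (nat_lit 145) (nat_lit 5) (nat_lit 340) (nat_lit 290) (nat_lit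 270)))))) (XT.nd (nat_lit 468) (nat_lit 1444) (nat_lit 0) (XT.nd (nat_lit 234) (nat_lit 836) (nat_lit 0) (XT.nd (nat_lit 78) (nat_lit 836) (nat_lit 0) (XT.lf (nat_lit 0) (nat_lit 3265954621) (nat_lit 532) (nat_lit 763963072) (nat_lit 76) (nat_lit 4501770988) (nat_lit 144) (nat_lit 5) (nat_lit 151) (nat_lit 5) (nat_lit 145) (nat_lit 5) (nat_lit 341) (nat_lit 290) (nat_lit 269)) (XT.nd (nat_lit 78) (nat_lit 456) (nat_lit 0) (XT.lf (nat_lit 0) (nat_lit 5188756890) (nat_lit 380) (nat_lit 1216984323) (nat_lit 456) (nat_lit 2242271688) (nat_lit 139) (nat_lit 5) (nat_lit 144) (nat_lit 5) (nat_lit 145) (nat_lit 5) (nat_lit 342) (nat_lit 290) (nat_lit 268)) (XT.lf (nat_lit 0) (nat_lit 833498267) (nat_lit 456) (nat_lit 6266793956) (nat_lit 76) (nat_lit 1667969289) (nat_lit 133) (nat_lit 5) (nat_lit 139) (nat_lit 5) (nat_lit 134) (nat_lit 5) (nat_lit 343) (nat_lit 290) (nat_lit 267)))) (XT.nd (nat_lit 78) (nat_lit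 836) (nat_lit 0) (XT.lf (nat_lit 0) (nat_lit 3935034606) (nat_lit 456) (nat_lit 305248586) (nat_lit 76) (nat_lit 4651854871) (nat_lit 133) (nat_lit 5) (nat_lit 139) (nat_lit 5) (nat_lit 134) (nat_lit 5) (nat_lit 344) (nat_lit 290) (nat_lit 266)) (XT.nd (nat_lit 78) (nat_lit 456) (nat_lit 0) (XT.lf (nat_lit 0) (nat_lit 5860663838) (nat_lit 380) (nat_lit 1258526197) (nat_lit 456) (nat_lit 1900895750) (nat_lit 128) (nat_lit 5) (nat_lit 133) (nat_lit 5) (nat_lit 134) (nat_lit 5) (nat_lit 345) (nat_lit 290) (nat_lit 265)) (XT.lf (nat_lit 0) (nat_lit 1206129710) (nat_lit 456) (nat_lit 6146532463) (nat_lit 76) (nat_lit 1799385857) (nat_lit 122) (nat_lit 5) (nat_lit 128) (nat_lit 5) (nat_lit 123) (nat_lit 5) (nat_lit 346) (nat_lit 290) (nat_lit 264))))) (XT.nd (nat_lit 234) (nat_lit 684) (nat_lit 0) (XT.nd (nat_lit 78) (nat_lit 456) (nat_lit 0) (XT.lf (nat_lit 0) (nat_lit 11553180) (nat_lit 304) (nat_lit 4335903170)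 (nat_lit 380) (nat_lit 4940607769) (nat_lit 118) (nat_lit 5) (nat_lit 122) (nat_lit 5) (nat_lit 123) (nat_lit 5) (nat_lit 347) (nat_lit 290) (nat_lit 263)) (XT.nd (nat_lit 78) (nat_lit 456) (nat_lit 0) (XT.lf (nat_lit 0) (nat_lit 6391034669) (nat_lit 304) (nat_lit 1189609812) (nat_lit 380) (nat_lit 1847624932) (nat_lit 118) (nat_lit 5) (nat_lit 122) (nat_lit 5) (nat_lit 123) (nat_lit 5) (nat_lit 348) (nat_lit 290) (nat_lit 262)) (XT.lf (nat_lit 0) (nat_lit 1300973727) (nat_lit 456) (nat_lit 6239419163) (nat_lit 76) (nat_lit 2032269158) (nat_lit 112) (nat_lit 5) (nat_lit 118) (nat_lit 5) (nat_lit 113) (nat_lit 5) (nat_lit 349) (nat_lit 290) (nat_lit 261)))) (XT.nd (nat_lit 156) (nat_lit 380) (nat_lit 0) (XT.nd (nat_lit 78) (nat_lit 0) (nat_lit 0) (XT.lf (nat_lit 0) (nat_lit 119756680) (nat_lit 304) (nat_lit 4368580942) (nat_lit 380) (nat_lit 5233090960) (nat_lit 108) (nat_lit 5) (nat_lit 112) (nat_lit 5)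 (nat_lit 113) (nat_lit 5) (nat_lit 350) (nat_lit 290) (nat_lit 260)) (XT.lf (nat_lit 0) (nat_lit 6709646966) (nat_lit 304) (nat_lit 1063194493) (nat_lit 380) (nat_lit 2101804288) (nat_lit 108) (nat_lit 5) (nat_lit 112) (nat_lit 5) (nat_lit 113) (nat_lit 5) (nat_lit 351) (nat_lit 290) (nat_lit 259))) (XT.nd (nat_lit 78) (nat_lit 0) (nat_lit 0) (XT.lf (nat_lit 0) (nat_lit 1096880867) (nat_lit 380) (nat_lit 6621313578) (nat_lit 76) (nat_lit 2314110856) (nat_lit 103) (nat_lit 5) (nat_lit 108) (nat_lit 5) (nat_lit 104) (nat_lit 5) (nat_lit 352) (nat_lit 290) (nat_lit 258)) (XT.lf (nat_lit 0) (nat_lit 4332445648) (nat_lit 380) (nat_lit 63589019) (nat_lit 76) (nat_lit 5798571164) (nat_lit 103) (nat_lit 5) (nat_lit 108) (nat_lit 5) (nat_lit 104) (nat_lit 5) (nat_lit 353) (nat_lit 290) (nat_lit 257))))))) (XT.nd (nat_lit 1014) (nat_lit 1444) (nat_lit 0) (XT.nd (nat_lit 468) (nat_lit 1292) (nat_lit 0) (XT.nd (nat_lit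 234) (nat_lit 608) (nat_lit 0) (XT.nd (nat_lit 78) (nat_lit 380) (nat_lit 0) (XT.lf (nat_lit 0) (nat_lit 6737543499) (nat_lit 304) (nat_lit 934396212) (nat_lit 380) (nat_lit 2689659299) (nat_lit 99) (nat_lit 5) (nat_lit 103) (nat_lit 5) (nat_lit 104) (nat_lit 5) (nat_lit 354) (nat_lit 290) (nat_lit 256)) (XT.nd (nat_lit 78) (nat_lit 0) (nat_lit 0) (XT.lf (nat_lit 0) (nat_lit 565746447) (nat_lit 380) (nat_lit 7377829701) (nat_lit 76) (nat_lit 2589916687) (nat_lit 94) (nat_lit 5) (nat_lit 99) (nat_lit 5) (nat_lit 95) (nat_lit 5) (nat_lit 355) (nat_lit 290) (nat_lit 255)) (XT.lf (nat_lit 0) (nat_lit 3853950999) (nat_lit 380) (nat_lit 618397252) (nat_lit 76) (nat_lit 6237747431) (nat_lit 94) (nat_lit 5) (nat_lit 99) (nat_lit 5) (nat_lit 95) (nat_lit 5) (nat_lit 356) (nat_lit 290) (nat_lit 254)))) (XT.nd (nat_lit 78) (nat_lit 380) (nat_lit 0) (XT.lf (nat_lit 0) (nat_lit 6385142974) (nat_lit 228) (nat_lit 861683686)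 (nat_lit 304) (nat_lit 3645015417) (nat_lit 91) (nat_lit 5) (nat_lit 94) (nat_lit 5) (nat_lit 95) (nat_lit 5) (nat_lit 357) (nat_lit 290) (nat_lit 253)) (XT.nd (nat_lit 78) (nat_lit 76) (nat_lit 0) (XT.lf (nat_lit 0) (nat_lit 2469422821) (nat_lit 304) (nat_lit 8274774192) (nat_lit 380) (nat_lit 334788048) (nat_lit 87) (nat_lit 5) (nat_lit 91) (nat_lit 5) (nat_lit 92) (nat_lit 5) (nat_lit 358) (nat_lit 290) (nat_lit 252)) (XT.lf (nat_lit 0) (nat_lit 3014675110) (nat_lit 380) (nat_lit 1645841017) (nat_lit 76) (nat_lit 6610365655) (nat_lit 86) (nat_lit 5) (nat_lit 91) (nat_lit 5) (nat_lit 87) (nat_lit 5) (nat_lit 359) (nat_lit 290) (nat_lit 251))))) (XT.nd (nat_lit 234) (nat_lit 760) (nat_lit 0) (XT.nd (nat_lit 78) (nat_lit 304) (nat_lit 0) (XT.lf (nat_lit 0) (nat_lit 5550093185) (nat_lit 228) (nat_lit 908177576) (nat_lit 304) (nat_lit 5010177166) (nat_lit 83) (nat_lit 5) (nat_lit 86) (nat_lit 5) (nat_lit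 87) (nat_lit 5) (nat_lit 360) (nat_lit 290) (nat_lit 250)) (XT.nd (nat_lit 78) (nat_lit 76) (nat_lit 0) (XT.lf (nat_lit 0) (nat_lit 1237565399) (nat_lit 228) (nat_lit 8772227690) (nat_lit 304) (nat_lit 1662032014) (nat_lit 80) (nat_lit 5) (nat_lit 83) (nat_lit 5) (nat_lit 84) (nat_lit 5) (nat_lit 361) (nat_lit 290) (nat_lit 249)) (XT.lf (nat_lit 0) (nat_lit 1768771499) (nat_lit 304) (nat_lit 3259238444) (nat_lit 76) (nat_lit 6852287475) (nat_lit 79) (nat_lit 5) (nat_lit 83) (nat_lit 5) (nat_lit 80) (nat_lit 5) (nat_lit 362) (nat_lit 290) (nat_lit 248)))) (XT.nd (nat_lit 156) (nat_lit 532) (nat_lit 0) (XT.nd (nat_lit 78) (nat_lit 0) (nat_lit 0) (XT.lf (nat_lit 0) (nat_lit 4114819912) (nat_lit 228) (nat_lit 1143079457) (nat_lit 304) (nat_lit 6836987389) (nat_lit 76) (nat_lit 5) (nat_lit 79) (nat_lit 5) (nat_lit 80) (nat_lit 5) (nat_lit 363) (nat_lit 290) (nat_lit 247)) (XT.lf (nat_lit 0) (nat_lit 8862101937)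 (nat_lit 304) (nat_lit 646325693) (nat_lit 76) (nat_lit 2807194214) (nat_lit 76) (nat_lit 5) (nat_lit 80) (nat_lit 5) (nat_lit 77) (nat_lit 5) (nat_lit 364) (nat_lit 290) (nat_lit 246))) (XT.nd (nat_lit 78) (nat_lit 228) (nat_lit 0) (XT.lf (nat_lit 0) (nat_lit 60421042) (nat_lit 304) (nat_lit 5589073947) (nat_lit 76) (nat_lit 6892606362) (nat_lit 72) (nat_lit 5) (nat_lit 76) (nat_lit 5) (nat_lit 73) (nat_lit 5) (nat_lit 365) (nat_lit 290) (nat_lit 245)) (XT.lf (nat_lit 0) (nat_lit 1943718086) (nat_lit 228) (nat_lit 1643260385) (nat_lit 304) (nat_lit 9188091043) (nat_lit 69) (nat_lit 5) (nat_lit 72) (nat_lit 5) (nat_lit 73) (nat_lit 5) (nat_lit 366) (nat_lit 290) (nat_lit 244)))))) (XT.nd (nat_lit 546) (nat_lit 532) (nat_lit 0) (XT.nd (nat_lit 234) (nat_lit 608) (nat_lit 0) (XT.nd (nat_lit 78) (nat_lit 304) (nat_lit 0) (XT.lf (nat_lit 0) (nat_lit 7251921506) (nat_lit 304) (nat_lit 3299485714) (nat_lit 76)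 (nat_lit 2462659687) (nat_lit 69) (nat_lit 5) (nat_lit 73) (nat_lit 5) (nat_lit 70) (nat_lit 5) (nat_lit 367) (nat_lit 290) (nat_lit 243)) (XT.nd (nat_lit 78) (nat_lit 76) (nat_lit 0) (XT.lf (nat_lit 0) (nat_lit 4452456219) (nat_lit 228) (nat_lit 6586554141) (nat_lit 304) (nat_lit 2220875262) (nat_lit 66) (nat_lit 5) (nat_lit 69) (nat_lit 5) (nat_lit 70) (nat_lit 5) (nat_lit 368) (nat_lit 290) (nat_lit 242)) (XT.lf (nat_lit 0) (nat_lit 1385733191) (nat_lit 304) (nat_lit 1098219585) (nat_lit 76) (nat_lit 11029122881) (nat_lit 65) (nat_lit 5) (nat_lit 69) (nat_lit 5) (nat_lit 66) (nat_lit 5) (nat_lit 369) (nat_lit 290) (nat_lit 241)))) (XT.nd (nat_lit 156) (nat_lit 228) (nat_lit 0) (XT.nd (nat_lit 78) (nat_lit 228) (nat_lit 0) (XT.lf (nat_lit 0) (nat_lit 5094024485) (nat_lit 228) (nat_lit 6909852145) (nat_lit 76) (nat_lit 1768197295) (nat_lit 63) (nat_lit 5) (nat_lit 66) (nat_lit 5) (nat_lit 64) (nat_lit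 5) (nat_lit 370) (nat_lit 290) (nat_lit 240)) (XT.lf (nat_lit 0) (nat_lit 964798137) (nat_lit 228) (nat_lit 7948818553) (nat_lit 304) (nat_lit 5125239283) (nat_lit 60) (nat_lit 5) (nat_lit 63) (nat_lit 5) (nat_lit 64) (nat_lit 5) (nat_lit 371) (nat_lit 290) (nat_lit 239))) (XT.nd (nat_lit 78) (nat_lit 228) (nat_lit 0) (XT.lf (nat_lit 0) (nat_lit 9143261978) (nat_lit 228) (nat_lit 3729894435) (nat_lit 304) (nat_lit 1439739226) (nat_lit 60) (nat_lit 5) (nat_lit 63) (nat_lit 5) (nat_lit 64) (nat_lit 5) (nat_lit 372) (nat_lit 290) (nat_lit 238)) (XT.lf (nat_lit 0) (nat_lit 2301122464) (nat_lit 228) (nat_lit 11667366434) (nat_lit 76) (nat_lit 626278864) (nat_lit 57) (nat_lit 5) (nat_lit 60) (nat_lit 5) (nat_lit 58) (nat_lit 5) (nat_lit 373) (nat_lit 290) (nat_lit 237))))) (XT.nd (nat_lit 234) (nat_lit 380) (nat_lit 0) (XT.nd (nat_lit 78) (nat_lit 152) (nat_lit 0) (XT.lf (nat_lit 0) (nat_lit 6171654925) (nat_lit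 228) (nat_lit 3635016319) (nat_lit 76) (nat_lit 5076619371) (nat_lit 57) (nat_lit 5) (nat_lit 60) (nat_lit 5) (nat_lit 58) (nat_lit 5) (nat_lit 374) (nat_lit 290) (nat_lit 236)) (XT.nd (nat_lit 78) (nat_lit 0) (nat_lit 0) (XT.lf (nat_lit 0) (nat_lit 4658227561) (nat_lit 152) (nat_lit 5502846327) (nat_lit 228) (nat_lit 5019325432) (nat_lit 55) (nat_lit 5) (nat_lit 57) (nat_lit 5) (nat_lit 58) (nat_lit 5) (nat_lit 375) (nat_lit 290) (nat_lit 235)) (XT.lf (nat_lit 0) (nat_lit 13204503332) (nat_lit 152) (nat_lit 1060919358) (nat_lit 228) (nat_lit 1221154072) (nat_lit 55) (nat_lit 5) (nat_lit 57) (nat_lit 5) (nat_lit 58) (nat_lit 5) (nat_lit 376) (nat_lit 290) (nat_lit 234)))) (XT.nd (nat_lit 156) (nat_lit 152) (nat_lit 0) (XT.nd (nat_lit 78) (nat_lit 0) (nat_lit 0) (XT.lf (nat_lit 0) (nat_lit 2692052083) (nat_lit 228) (nat_lit 9603042358) (nat_lit 76) (nat_lit 3504473226) (nat_lit 52) (nat_lit 5) (nat_lit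 55) (nat_lit 5) (nat_lit 53) (nat_lit 5) (nat_lit 377) (nat_lit 290) (nat_lit 233)) (XT.lf (nat_lit 0) (nat_lit 6691480283) (nat_lit 228) (nat_lit 1237139154) (nat_lit 76) (nat_lit 8193176847) (nat_lit 52) (nat_lit 5) (nat_lit 55) (nat_lit 5) (nat_lit 53) (nat_lit 5) (nat_lit 378) (nat_lit 290) (nat_lit 232))) (XT.nd (nat_lit 78) (nat_lit 0) (nat_lit 0) (XT.lf (nat_lit 0) (nat_lit 7457970565) (nat_lit 152) (nat_lit 3385381305) (nat_lit 228) (nat_lit 5609377531) (nat_lit 50) (nat_lit 5) (nat_lit 52) (nat_lit 5) (nat_lit 53) (nat_lit 5) (nat_lit 379) (nat_lit 290) (nat_lit 231)) (XT.lf (nat_lit 0) (nat_lit 15105839821) (nat_lit 228) (nat_lit 434033155) (nat_lit 76) (nat_lit 1254146852) (nat_lit 50) (nat_lit 5) (nat_lit 53) (nat_lit 5) (nat_lit 51) (nat_lit 4) (nat_lit 380) (nat_lit 290) (nat_lit 230))))))))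
noncomputable def xc80 : XT := (XT.nd (nat_lit 2028) (nat_lit 836) (nat_lit 0) (XT.nd (nat_lit 1014) (nat_lit 836) (nat_lit 0) (XT.nd (nat_lit 468) (nat_lit 532) (nat_lit 0) (XT.nd (nat_lit 234) (nat_lit 228) (nat_lit 0) (XT.nd (nat_lit 78) (nat_lit 152) (nat_lit 0) (XT.lf (nat_lit 0) (nat_lit 2382412155) (nat_lit 228) (nat_lit 8717318483) (nat_lit 76) (nat_lit 6042822085) (nat_lit 47) (nat_lit 5) (nat_lit 50) (nat_lit 5) (nat_lit 48) (nat_lit 5) (nat_lit 381) (nat_lit 290) (nat_lit 229)) (XT.nd (nat_lit 78) (nat_lit 152) (nat_lit 0) (XT.lf (nat_lit 0) (nat_lit 6507855200) (nat_lit 228) (nat_lit 24689894) (nat_lit 76) (nat_lit 10969505334) (nat_lit 47) (nat_lit 5) (nat_lit 50) (nat_lit 5) (nat_lit 48) (nat_lit 5) (nat_lit 382) (nat_lit 290) (nat_lit 228)) (XT.lf (nat_lit 0) (nat_lit 9041362001) (nat_lit 152) (nat_lit 1765948097) (nat_lit 228) (nat_lit 7063525391) (nat_lit 45) (nat_lit 5) (nat_lit 47) (nat_lit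 5) (nat_lit 48) (nat_lit 5) (nat_lit 383) (nat_lit 290) (nat_lit 227)))) (XT.nd (nat_lit 78) (nat_lit 76) (nat_lit 0) (XT.lf (nat_lit 0) (nat_lit 35704285) (nat_lit 152) (nat_lit 15194397050) (nat_lit 228) (nat_lit 3020761782) (nat_lit 43) (nat_lit 5) (nat_lit 45) (nat_lit 5) (nat_lit 46) (nat_lit 4) (nat_lit 384) (nat_lit 290) (nat_lit 226)) (XT.nd (nat_lit 78) (nat_lit 0) (nat_lit 0) (XT.lf (nat_lit 0) (nat_lit 1192129125) (nat_lit 228) (nat_lit 9385242982) (nat_lit 76) (nat_lit 8062464192) (nat_lit 42) (nat_lit 5) (nat_lit 45) (nat_lit 5) (nat_lit 43) (nat_lit 5) (nat_lit 385) (nat_lit 290) (nat_lit 225)) (XT.lf (nat_lit 0) (nat_lit 5435378086) (nat_lit 228) (nat_lit 382572944) (nat_lit 76) (nat_lit 13222698603) (nat_lit 42) (nat_lit 5) (nat_lit 45) (nat_lit 5) (nat_lit 43) (nat_lit 5) (nat_lit 386) (nat_lit 290) (nat_lit 224))))) (XT.nd (nat_lit 234) (nat_lit 304) (nat_lit 0) (XT.nd (nat_lit 78) (nat_lit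 76) (nat_lit 0) (XT.lf (nat_lit 0) (nat_lit 9005484542) (nat_lit 152) (nat_lit 852720418) (nat_lit 228) (nat_lit 9593722518) (nat_lit 40) (nat_lit 5) (nat_lit 42) (nat_lit 5) (nat_lit 43) (nat_lit 5) (nat_lit 387) (nat_lit 290) (nat_lit 223)) (XT.nd (nat_lit 78) (nat_lit 76) (nat_lit 0) (XT.lf (nat_lit 0) (nat_lit 14424470057) (nat_lit 228) (nat_lit 1294007966) (nat_lit 76) (nat_lit 4156751311) (nat_lit 40) (nat_lit 5) (nat_lit 43) (nat_lit 5) (nat_lit 41) (nat_lit 4) (nat_lit 388) (nat_lit 290) (nat_lit 222)) (XT.lf (nat_lit 0) (nat_lit 8226241807) (nat_lit 76) (nat_lit 10955881393) (nat_lit 152) (nat_lit 1127483077) (nat_lit 39) (nat_lit 5) (nat_lit 40) (nat_lit 5) (nat_lit 41) (nat_lit 4) (nat_lit 389) (nat_lit 290) (nat_lit 221)))) (XT.nd (nat_lit 156) (nat_lit 76) (nat_lit 0) (XT.nd (nat_lit 78) (nat_lit 152) (nat_lit 0) (XT.lf (nat_lit 0) (nat_lit 3240750074) (nat_lit 152) (nat_lit 2789021050) (nat_lit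 76) (nat_lit 14726887449) (nat_lit 38) (nat_lit 5) (nat_lit 40) (nat_lit 5) (nat_lit 39) (nat_lit 5) (nat_lit 390) (nat_lit 290) (nat_lit 220)) (XT.lf (nat_lit 0) (nat_lit 6849435499) (nat_lit 152) (nat_lit 901691537) (nat_lit 228) (nat_lit 13464655116) (nat_lit 36) (nat_lit 5) (nat_lit 38) (nat_lit 5) (nat_lit 39) (nat_lit 5) (nat_lit 391) (nat_lit 290) (nat_lit 219))) (XT.nd (nat_lit 78) (nat_lit 76) (nat_lit 0) (XT.lf (nat_lit 0) (nat_lit 12435430393) (nat_lit 228) (nat_lit 4953369152) (nat_lit 76) (nat_lit 4298728582) (nat_lit 36) (nat_lit 5) (nat_lit 39) (nat_lit 5) (nat_lit 37) (nat_lit 4) (nat_lit 392) (nat_lit 290) (nat_lit 218)) (XT.lf (nat_lit 0) (nat_lit 4770461582) (nat_lit 76) (nat_lit 12513582723) (nat_lit 152) (nat_lit 4888675664) (nat_lit 35) (nat_lit 5) (nat_lit 36) (nat_lit 5) (nat_lit 37) (nat_lit 4) (nat_lit 393) (nat_lit 290) (nat_lit 217)))))) (XT.nd (nat_lit 468) (nat_lit 532) (nat_lit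 0) (XT.nd (nat_lit 234) (nat_lit 76) (nat_lit 0) (XT.nd (nat_lit 78) (nat_lit 228) (nat_lit 0) (XT.lf (nat_lit 0) (nat_lit 14832395162) (nat_lit 76) (nat_lit 7465110855) (nat_lit 152) (nat_lit 374386597) (nat_lit 35) (nat_lit 5) (nat_lit 36) (nat_lit 5) (nat_lit 37) (nat_lit 4) (nat_lit 394) (nat_lit 290) (nat_lit 216)) (XT.nd (nat_lit 78) (nat_lit 0) (nat_lit 0) (XT.lf (nat_lit 0) (nat_lit 1953010367) (nat_lit 152) (nat_lit 2227628556) (nat_lit 228) (nat_lit 19004512900) (nat_lit 32) (nat_lit 5) (nat_lit 34) (nat_lit 5) (nat_lit 35) (nat_lit 5) (nat_lit 395) (nat_lit 290) (nat_lit 215)) (XT.lf (nat_lit 0) (nat_lit 8945271436) (nat_lit 228) (nat_lit 11600656648) (nat_lit 76) (nat_lit 3165361247) (nat_lit 32) (nat_lit 5) (nat_lit 35) (nat_lit 5) (nat_lit 33) (nat_lit 4) (nat_lit 396) (nat_lit 290) (nat_lit 214)))) (XT.nd (nat_lit 78) (nat_lit 76) (nat_lit 0) (XT.lf (nat_lit 0) (nat_lit 13845860540) (nat_lit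 228) (nat_lit 1754986572) (nat_lit 76) (nat_lit 8652579304) (nat_lit 32) (nat_lit 5) (nat_lit 35) (nat_lit 5) (nat_lit 33) (nat_lit 4) (nat_lit 397) (nat_lit 290) (nat_lit 213)) (XT.nd (nat_lit 78) (nat_lit 0) (nat_lit 0) (XT.lf (nat_lit 0) (nat_lit 8500765671) (nat_lit 76) (nat_lit 10446223863) (nat_lit 152) (nat_lit 5863238217) (nat_lit 31) (nat_lit 5) (nat_lit 32) (nat_lit 5) (nat_lit 33) (nat_lit 4) (nat_lit 398) (nat_lit 290) (nat_lit 212)) (XT.lf (nat_lit 0) (nat_lit 19049499145) (nat_lit 76) (nat_lit 5141516929) (nat_lit 152) (nat_lit 1193026777) (nat_lit 31) (nat_lit 5) (nat_lit 32) (nat_lit 5) (nat_lit 33) (nat_lit 4) (nat_lit 399) (nat_lit 290) (nat_lit 211))))) (XT.nd (nat_lit 234) (nat_lit 304) (nat_lit 0) (XT.nd (nat_lit 78) (nat_lit 0) (nat_lit 0) (XT.lf (nat_lit 0) (nat_lit 3560781243) (nat_lit 228) (nat_lit 22045487008) (nat_lit 76) (nat_lit 367344020) (nat_lit 28) (nat_lit 5) (nat_lit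 31) (nat_lit 5) (nat_lit 29) (nat_lit 4) (nat_lit 400) (nat_lit 290) (nat_lit 210)) (XT.nd (nat_lit 78) (nat_lit 0) (nat_lit 0) (XT.lf (nat_lit 0) (nat_lit 8521519119) (nat_lit 228) (nat_lit 12063628781) (nat_lit 76) (nat_lit 5992722840) (nat_lit 28) (nat_lit 5) (nat_lit 31) (nat_lit 5) (nat_lit 29) (nat_lit 4) (nat_lit 401) (nat_lit 290) (nat_lit 209)) (XT.lf (nat_lit 0) (nat_lit 13604660061) (nat_lit 228) (nat_lit 1830716414) (nat_lit 76) (nat_lit 11765678066) (nat_lit 28) (nat_lit 5) (nat_lit 31) (nat_lit 5) (nat_lit 29) (nat_lit 4) (nat_lit 402) (nat_lit 290) (nat_lit 208)))) (XT.nd (nat_lit 156) (nat_lit 228) (nat_lit 0) (XT.nd (nat_lit 78) (nat_lit 0) (nat_lit 0) (XT.lf (nat_lit 0) (nat_lit 8834586066) (nat_lit 76) (nat_lit 10064983031) (nat_lit 152) (nat_lit 8941591407) (nat_lit 27) (nat_lit 5) (nat_lit 28) (nat_lit 5) (nat_lit 29) (nat_lit 4) (nat_lit 403) (nat_lit 290) (nat_lit 207)) (XT.lf (nat_lit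 0) (nat_lit 19810844366) (nat_lit 76) (nat_lit 4535617891) (nat_lit 152) (nat_lit 4154218000) (nat_lit 27) (nat_lit 5) (nat_lit 28) (nat_lit 5) (nat_lit 29) (nat_lit 4) (nat_lit 404) (nat_lit 290) (nat_lit 206))) (XT.nd (nat_lit 78) (nat_lit 0) (nat_lit 0) (XT.lf (nat_lit 0) (nat_lit 766426340) (nat_lit 228) (nat_lit 27270418131) (nat_lit 76) (nat_lit 1142777355) (nat_lit 24) (nat_lit 5) (nat_lit 27) (nat_lit 5) (nat_lit 25) (nat_lit 4) (nat_lit 405) (nat_lit 290) (nat_lit 205)) (XT.lf (nat_lit 0) (nat_lit 5859951696) (nat_lit 228) (nat_lit 17004628480) (nat_lit 76) (nat_lit 7009859137) (nat_lit 24) (nat_lit 5) (nat_lit 27) (nat_lit 5) (nat_lit 25) (nat_lit 4) (nat_lit 406) (nat_lit 290) (nat_lit 204))))))) (XT.nd (nat_lit 1014) (nat_lit 380) (nat_lit 0) (XT.nd (nat_lit 468) (nat_lit 228) (nat_lit 0) (XT.nd (nat_lit 234) (nat_lit 152) (nat_lit 0) (XT.nd (nat_lit 78) (nat_lit 76) (nat_lit 0) (XT.lf (nat_lit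 0) (nat_lit 11082235364) (nat_lit 228) (nat_lit 6475302170) (nat_lit 76) (nat_lit 13033289408) (nat_lit 24) (nat_lit 5) (nat_lit 27) (nat_lit 5) (nat_lit 25) (nat_lit 4) (nat_lit 407) (nat_lit 290) (nat_lit 203)) (XT.nd (nat_lit 78) (nat_lit 0) (nat_lit 0) (XT.lf (nat_lit 0) (nat_lit 4412872210) (nat_lit 76) (nat_lit 12067387520) (nat_lit 152) (nat_lit 14847878376) (nat_lit 23) (nat_lit 5) (nat_lit 24) (nat_lit 5) (nat_lit 25) (nat_lit 4) (nat_lit 408) (nat_lit 290) (nat_lit 202)) (XT.lf (nat_lit 0) (nat_lit 15717709390) (nat_lit 76) (nat_lit 6364825619) (nat_lit 152) (nat_lit 10003768245) (nat_lit 23) (nat_lit 5) (nat_lit 24) (nat_lit 5) (nat_lit 25) (nat_lit 4) (nat_lit 409) (nat_lit 290) (nat_lit 201)))) (XT.nd (nat_lit 78) (nat_lit 152) (nat_lit 0) (XT.lf (nat_lit 0) (nat_lit 27320216169) (nat_lit 76) (nat_lit 510256864) (nat_lit 152) (nat_lit 5037416323) (nat_lit 23) (nat_lit 5) (nat_lit 24) (nat_lit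 5) (nat_lit 25) (nat_lit 4) (nat_lit 410) (nat_lit 290) (nat_lit 200)) (XT.nd (nat_lit 78) (nat_lit 0) (nat_lit 0) (XT.lf (nat_lit 0) (nat_lit 162336056) (nat_lit 152) (nat_lit 28058355652) (nat_lit 76) (nat_lit 5449634566) (nat_lit 21) (nat_lit 5) (nat_lit 23) (nat_lit 5) (nat_lit 22) (nat_lit 4) (nat_lit 411) (nat_lit 290) (nat_lit 199)) (XT.lf (nat_lit 0) (nat_lit 5456563090) (nat_lit 152) (nat_lit 17371297877) (nat_lit 76) (nat_lit 11666290706) (nat_lit 21) (nat_lit 5) (nat_lit 23) (nat_lit 5) (nat_lit 22) (nat_lit 4) (nat_lit 412) (nat_lit 290) (nat_lit 198))))) (XT.nd (nat_lit 234) (nat_lit 152) (nat_lit 0) (XT.nd (nat_lit 78) (nat_lit 76) (nat_lit 0) (XT.lf (nat_lit 0) (nat_lit 10888356580) (nat_lit 152) (nat_lit 6403226127) (nat_lit 76) (nat_lit 18051750349) (nat_lit 21) (nat_lit 5) (nat_lit 23) (nat_lit 5) (nat_lit 22) (nat_lit 4) (nat_lit 413) (nat_lit 290) (nat_lit 197)) (XT.nd (nat_lit 78)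 (nat_lit 0) (nat_lit 0) (XT.lf (nat_lit 0) (nat_lit 4952076194) (nat_lit 76) (nat_lit 11557988944) (nat_lit 152) (nat_lit 19707119214) (nat_lit 20) (nat_lit 5) (nat_lit 21) (nat_lit 5) (nat_lit 22) (nat_lit 4) (nat_lit 414) (nat_lit 290) (nat_lit 196)) (XT.lf (nat_lit 0) (nat_lit 16741229924) (nat_lit 76) (nat_lit 5603449204) (nat_lit 152) (nat_lit 14771247647) (nat_lit 20) (nat_lit 5) (nat_lit 21) (nat_lit 5) (nat_lit 22) (nat_lit 4) (nat_lit 415) (nat_lit 290) (nat_lit 195)))) (XT.nd (nat_lit 156) (nat_lit 76) (nat_lit 0) (XT.nd (nat_lit 78) (nat_lit 76) (nat_lit 0) (XT.lf (nat_lit 0) (nat_lit 28339447261) (nat_lit 152) (nat_lit 9200056656) (nat_lit 0) (nat_lit 502577205) (nat_lit 20) (nat_lit 5) (nat_lit 22) (nat_lit 4) (nat_lit 20) (nat_lit 4) (nat_lit 416) (nat_lit 290) (nat_lit 194)) (XT.lf (nat_lit 0) (nat_lit 2262184088) (nat_lit 76) (nat_lit 32309705038) (nat_lit 76) (nat_lit 4422399081) (nat_lit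 19) (nat_lit 4) (nat_lit 20) (nat_lit 5) (nat_lit 20) (nat_lit 4) (nat_lit 417) (nat_lit 290) (nat_lit 193))) (XT.nd (nat_lit 78) (nat_lit 0) (nat_lit 0) (XT.lf (nat_lit 0) (nat_lit 1070866657) (nat_lit 152) (nat_lit 25762413538) (nat_lit 76) (nat_lit 13139257469) (nat_lit 18) (nat_lit 5) (nat_lit 20) (nat_lit 5) (nat_lit 19) (nat_lit 4) (nat_lit 418) (nat_lit 290) (nat_lit 192)) (XT.lf (nat_lit 0) (nat_lit 6621240748) (nat_lit 152) (nat_lit 14542694807) (nat_lit 76) (nat_lit 19815452351) (nat_lit 18) (nat_lit 5) (nat_lit 20) (nat_lit 5) (nat_lit 19) (nat_lit 4) (nat_lit 419) (nat_lit 290) (nat_lit 191)))))) (XT.nd (nat_lit 546) (nat_lit 152) (nat_lit 0) (XT.nd (nat_lit 234) (nat_lit 152) (nat_lit 0) (XT.nd (nat_lit 78) (nat_lit 76) (nat_lit 0) (XT.lf (nat_lit 0) (nat_lit 12319869969) (nat_lit 152) (nat_lit 3020633484) (nat_lit 76) (nat_lit 26676490577) (nat_lit 18) (nat_lit 5) (nat_lit 20) (nat_lit 5)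 (nat_lit 19) (nat_lit 4) (nat_lit 420) (nat_lit 290) (nat_lit 190)) (XT.nd (nat_lit 78) (nat_lit 0) (nat_lit 0) (XT.lf (nat_lit 0) (nat_lit 8989250915) (nat_lit 76) (nat_lit 9268892967) (nat_lit 152) (nat_lit 24825526495) (nat_lit 17) (nat_lit 5) (nat_lit 18) (nat_lit 5) (nat_lit 19) (nat_lit 4) (nat_lit 421) (nat_lit 290) (nat_lit 189)) (XT.lf (nat_lit 0) (nat_lit 21388426439) (nat_lit 76) (nat_lit 2999117431) (nat_lit 152) (nat_lit 19794416345) (nat_lit 17) (nat_lit 5) (nat_lit 18) (nat_lit 5) (nat_lit 19) (nat_lit 4) (nat_lit 422) (nat_lit 290) (nat_lit 188)))) (XT.nd (nat_lit 156) (nat_lit 76) (nat_lit 0) (XT.nd (nat_lit 78) (nat_lit 76) (nat_lit 0) (XT.lf (nat_lit 0) (nat_lit 30716915570) (nat_lit 152) (nat_lit 11219204754) (nat_lit 0) (nat_lit 3376598198) (nat_lit 17) (nat_lit 5) (nat_lit 19) (nat_lit 4) (nat_lit 17) (nat_lit 4) (nat_lit 423) (nat_lit 290) (nat_lit 187)) (XT.lf (nat_lit 0) (nat_lit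 654028576) (nat_lit 76) (nat_lit 36601462821) (nat_lit 76) (nat_lit 9221330882) (nat_lit 16) (nat_lit 4) (nat_lit 17) (nat_lit 5) (nat_lit 17) (nat_lit 4) (nat_lit 424) (nat_lit 290) (nat_lit 186))) (XT.nd (nat_lit 78) (nat_lit 76) (nat_lit 0) (XT.lf (nat_lit 0) (nat_lit 13082355603) (nat_lit 76) (nat_lit 31004689061) (nat_lit 76) (nat_lit 3585902203) (nat_lit 16) (nat_lit 4) (nat_lit 17) (nat_lit 5) (nat_lit 17) (nat_lit 4) (nat_lit 425) (nat_lit 290) (nat_lit 185)) (XT.lf (nat_lit 0) (nat_lit 2159144075) (nat_lit 152) (nat_lit 23073253431) (nat_lit 76) (nat_lit 23672404658) (nat_lit 15) (nat_lit 5) (nat_lit 17) (nat_lit 5) (nat_lit 16) (nat_lit 4) (nat_lit 426) (nat_lit 290) (nat_lit 184))))) (XT.nd (nat_lit 234) (nat_lit 76) (nat_lit 0) (XT.nd (nat_lit 78) (nat_lit 76) (nat_lit 0) (XT.lf (nat_lit 0) (nat_lit 7988786531) (nat_lit 152) (nat_lit 11275515214) (nat_lit 76) (nat_lit 30908718846) (nat_lit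 15) (nat_lit 5) (nat_lit 17) (nat_lit 5) (nat_lit 16) (nat_lit 4) (nat_lit 427) (nat_lit 290) (nat_lit 183)) (XT.nd (nat_lit 78) (nat_lit 0) (nat_lit 0) (XT.lf (nat_lit 0) (nat_lit 864266935) (nat_lit 76) (nat_lit 13122133821) (nat_lit 152) (nat_lit 37493094403) (nat_lit 14) (nat_lit 5) (nat_lit 15) (nat_lit 5) (nat_lit 16) (nat_lit 4) (nat_lit 428) (nat_lit 290) (nat_lit 182)) (XT.lf (nat_lit 0) (nat_lit 13570908278) (nat_lit 76) (nat_lit 6691840132) (nat_lit 152) (nat_lit 32559453406) (nat_lit 14) (nat_lit 5) (nat_lit 15) (nat_lit 5) (nat_lit 16) (nat_lit 4) (nat_lit 429) (nat_lit 290) (nat_lit 181)))) (XT.nd (nat_lit 156) (nat_lit 76) (nat_lit 0) (XT.nd (nat_lit 78) (nat_lit 0) (nat_lit 0) (XT.lf (nat_lit 0) (nat_lit 26631106843) (nat_lit 76) (nat_lit 81662571) (nat_lit 152) (nat_lit 27492860717) (nat_lit 14) (nat_lit 5) (nat_lit 15) (nat_lit 5) (nat_lit 16) (nat_lit 4) (nat_lit 430) (nat_lit 290) (nat_lit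 180)) (XT.lf (nat_lit 0) (nat_lit 33406640463) (nat_lit 152) (nat_lit 15639255226) (nat_lit 0) (nat_lit 6583157011) (nat_lit 14) (nat_lit 5) (nat_lit 16) (nat_lit 4) (nat_lit 14) (nat_lit 4) (nat_lit 431) (nat_lit 290) (nat_lit 179))) (XT.nd (nat_lit 78) (nat_lit 76) (nat_lit 0) (XT.lf (nat_lit 0) (nat_lit 40288240166) (nat_lit 152) (nat_lit 3373090072) (nat_lit 0) (nat_lit 13434242165) (nat_lit 14) (nat_lit 5) (nat_lit 16) (nat_lit 4) (nat_lit 14) (nat_lit 4) (nat_lit 432) (nat_lit 290) (nat_lit 178)) (XT.lf (nat_lit 0) (nat_lit 9419279235) (nat_lit 76) (nat_lit 38034061221) (nat_lit 76) (nat_lit 11150437443) (nat_lit 13) (nat_lit 4) (nat_lit 14) (nat_lit 5) (nat_lit 14) (nat_lit 4) (nat_lit 433) (nat_lit 290) (nat_lit 177))))))))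
noncomputable def xc81 : XT := (XT.nd (nat_lit 38766) (nat_lit 0) (nat_lit 6460) (XT.nd (nat_lit 1014) (nat_lit 76) (nat_lit 0) (XT.nd (nat_lit 468) (nat_lit 76) (nat_lit 0) (XT.nd (nat_lit 234) (nat_lit 76) (nat_lit 0) (XT.nd (nat_lit 78) (nat_lit 76) (nat_lit 0) (XT.lf (nat_lit 0) (nat_lit 22639230629) (nat_lit 76) (nat_lit 32214882868) (nat_lit 76) (nat_lit 5302496199) (nat_lit 13) (nat_lit 4) (nat_lit 14) (nat_lit 5) (nat_lit 14) (nat_lit 4) (nat_lit 434) (nat_lit 290) (nat_lit 176)) (XT.nd (nat_lit 78) (nat_lit 0) (nat_lit 0) (XT.lf (nat_lit 0) (nat_lit 693733100) (nat_lit 152) (nat_lit 25532033610) (nat_lit 76) (nat_lit 35530445972) (nat_lit 12) (nat_lit 5) (nat_lit 14) (nat_lit 5) (nat_lit 13) (nat_lit 4) (nat_lit 435) (nat_lit 290) (nat_lit 175)) (XT.lf (nat_lit 0) (nat_lit 6750572267) (nat_lit 152) (nat_lit 13263761885) (nat_lit 76) (nat_lit 43388277252) (nat_lit 12) (nat_lit 5) (nat_lit 14) (nat_lit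 5) (nat_lit 13) (nat_lit 4) (nat_lit 436) (nat_lit 290) (nat_lit 174)))) (XT.nd (nat_lit 78) (nat_lit 76) (nat_lit 0) (XT.lf (nat_lit 0) (nat_lit 12976784483) (nat_lit 152) (nat_lit 650873205) (nat_lit 76) (nat_lit 51471115898) (nat_lit 12) (nat_lit 5) (nat_lit 14) (nat_lit 5) (nat_lit 13) (nat_lit 4) (nat_lit 437) (nat_lit 290) (nat_lit 173)) (XT.nd (nat_lit 78) (nat_lit 0) (nat_lit 0) (XT.lf (nat_lit 0) (nat_lit 12562798854) (nat_lit 76) (nat_lit 6935772581) (nat_lit 152) (nat_lit 47343987036) (nat_lit 11) (nat_lit 5) (nat_lit 12) (nat_lit 5) (nat_lit 13) (nat_lit 4) (nat_lit 438) (nat_lit 290) (nat_lit 172)) (XT.lf (nat_lit 0) (nat_lit 26163697630) (nat_lit 76) (nat_lit 47046169) (nat_lit 152) (nat_lit 42428072599) (nat_lit 11) (nat_lit 5) (nat_lit 12) (nat_lit 5) (nat_lit 13) (nat_lit 4) (nat_lit 439) (nat_lit 290) (nat_lit 171))))) (XT.nd (nat_lit 234) (nat_lit 76) (nat_lit 0) (XT.nd (nat_lit 78)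 (nat_lit 0) (nat_lit 0) (XT.lf (nat_lit 0) (nat_lit 33180438724) (nat_lit 152) (nat_lit 30406207850) (nat_lit 0) (nat_lit 6900632170) (nat_lit 11) (nat_lit 5) (nat_lit 13) (nat_lit 4) (nat_lit 11) (nat_lit 4) (nat_lit 440) (nat_lit 290) (nat_lit 170)) (XT.nd (nat_lit 78) (nat_lit 0) (nat_lit 0) (XT.lf (nat_lit 0) (nat_lit 40348432451) (nat_lit 152) (nat_lit 17997167429) (nat_lit 0) (nat_lit 14045920206) (nat_lit 11) (nat_lit 5) (nat_lit 13) (nat_lit 4) (nat_lit 11) (nat_lit 4) (nat_lit 441) (nat_lit 290) (nat_lit 169)) (XT.lf (nat_lit 0) (nat_lit 47720536040) (nat_lit 152) (nat_lit 5236702417) (nat_lit 0) (nat_lit 21395979435) (nat_lit 11) (nat_lit 5) (nat_lit 13) (nat_lit 4) (nat_lit 11) (nat_lit 4) (nat_lit 442) (nat_lit 290) (nat_lit 168)))) (XT.nd (nat_lit 156) (nat_lit 0) (nat_lit 0) (XT.nd (nat_lit 78) (nat_lit 0) (nat_lit 0) (XT.lf (nat_lit 0) (nat_lit 8043290676) (nat_lit 76) (nat_lit 47337217488)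 (nat_lit 76) (nat_lit 20991258591) (nat_lit 10) (nat_lit 4) (nat_lit 11) (nat_lit 5) (nat_lit 11) (nat_lit 4) (nat_lit 443) (nat_lit 290) (nat_lit 167)) (XT.lf (nat_lit 0) (nat_lit 21808989815) (nat_lit 76) (nat_lit 41503674889) (nat_lit 76) (nat_lit 15136937069) (nat_lit 10) (nat_lit 4) (nat_lit 11) (nat_lit 5) (nat_lit 11) (nat_lit 4) (nat_lit 444) (nat_lit 290) (nat_lit 166))) (XT.nd (nat_lit 78) (nat_lit 0) (nat_lit 0) (XT.lf (nat_lit 0) (nat_lit 35968202633) (nat_lit 76) (nat_lit 35504393819) (nat_lit 76) (nat_lit 9117482286) (nat_lit 10) (nat_lit 4) (nat_lit 11) (nat_lit 5) (nat_lit 11) (nat_lit 4) (nat_lit 445) (nat_lit 290) (nat_lit 165)) (XT.lf (nat_lit 0) (nat_lit 50533301259) (nat_lit 76) (nat_lit 29334132187) (nat_lit 76) (nat_lit 2927634525) (nat_lit 10) (nat_lit 4) (nat_lit 11) (nat_lit 5) (nat_lit 11) (nat_lit 4) (nat_lit 446) (nat_lit 290) (nat_lit 164)))))) (XT.nd (nat_lit 37206) (nat_lit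 0) (nat_lit 14668) (XT.nd (nat_lit 36972) (nat_lit 0) (nat_lit 19684) (XT.nd (nat_lit 36816) (nat_lit 0) (nat_lit 21508) (XT.lf (nat_lit 0) (nat_lit 3370926766) (nat_lit 152) (nat_lit 19582531984) (nat_lit 76) (nat_lit 62112045961) (nat_lit 9) (nat_lit 5) (nat_lit 11) (nat_lit 5) (nat_lit 10) (nat_lit 4) (nat_lit 447) (nat_lit 290) (nat_lit 163)) (XT.nd (nat_lit 78) (nat_lit 0) (nat_lit 0) (XT.lf (nat_lit 0) (nat_lit 320962769) (nat_lit 836) (nat_lit 2758115966) (nat_lit 0) (nat_lit 320962769) (nat_lit 292) (nat_lit 5) (nat_lit 303) (nat_lit 4) (nat_lit 292) (nat_lit 4) (nat_lit 318) (nat_lit 291) (nat_lit 291)) (XT.lf (nat_lit 0) (nat_lit 3852409529) (nat_lit 836) (nat_lit 1107102624) (nat_lit 0) (nat_lit 1882003831) (nat_lit 292) (nat_lit 5) (nat_lit 303) (nat_lit 4) (nat_lit 292) (nat_lit 4) (nat_lit 319) (nat_lit 291) (nat_lit 290)))) (XT.nd (nat_lit 78) (nat_lit 912) (nat_lit 0) (XT.lf (nat_lit 0)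 (nat_lit 200789149) (nat_lit 912) (nat_lit 3475818964) (nat_lit 76) (nat_lit 3209681904) (nat_lit 280) (nat_lit 5) (nat_lit 292) (nat_lit 5) (nat_lit 281) (nat_lit 4) (nat_lit 320) (nat_lit 291) (nat_lit 289)) (XT.nd (nat_lit 78) (nat_lit 0) (nat_lit 0) (XT.lf (nat_lit 0) (nat_lit 1055463309) (nat_lit 912) (nat_lit 2292408906) (nat_lit 988) (nat_lit 3586108460) (nat_lit 268) (nat_lit 5) (nat_lit 280) (nat_lit 5) (nat_lit 281) (nat_lit 4) (nat_lit 321) (nat_lit 291) (nat_lit 288)) (XT.lf (nat_lit 0) (nat_lit 5705192218) (nat_lit 912) (nat_lit 821462878) (nat_lit 988) (nat_lit 458433498) (nat_lit 268) (nat_lit 5) (nat_lit 280) (nat_lit 5) (nat_lit 281) (nat_lit 4) (nat_lit 322) (nat_lit 291) (nat_lit 287))))) (XT.nd (nat_lit 234) (nat_lit 2812) (nat_lit 0) (XT.nd (nat_lit 78) (nat_lit 1140) (nat_lit 0) (XT.lf (nat_lit 0) (nat_lit 2653245523) (nat_lit 1064) (nat_lit 3637792723) (nat_lit 76) (nat_lit 747671081)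 (nat_lit 254) (nat_lit 5) (nat_lit 268) (nat_lit 5) (nat_lit 255) (nat_lit 4) (nat_lit 323) (nat_lit 291) (nat_lit 286)) (XT.nd (nat_lit 78) (nat_lit 76) (nat_lit 0) (XT.lf (nat_lit 0) (nat_lit 1072685603) (nat_lit 1064) (nat_lit 4713890993) (nat_lit 1140) (nat_lit 1309196685) (nat_lit 240) (nat_lit 5) (nat_lit 254) (nat_lit 5) (nat_lit 255) (nat_lit 4) (nat_lit 324) (nat_lit 291) (nat_lit 285)) (XT.lf (nat_lit 0) (nat_lit 1767067094) (nat_lit 1140) (nat_lit 1263979015) (nat_lit 76) (nat_lit 4124737816) (nat_lit 239) (nat_lit 5) (nat_lit 254) (nat_lit 5) (nat_lit 240) (nat_lit 5) (nat_lit 325) (nat_lit 291) (nat_lit 284)))) (XT.nd (nat_lit 156) (nat_lit 608) (nat_lit 0) (XT.nd (nat_lit 78) (nat_lit 1064) (nat_lit 0) (XT.lf (nat_lit 0) (nat_lit 3606635157) (nat_lit 1140) (nat_lit 1246944251) (nat_lit 1216) (nat_lit 2365386456) (nat_lit 224) (nat_lit 5) (nat_lit 239) (nat_lit 5) (nat_lit 240) (nat_lit 5)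 (nat_lit 326) (nat_lit 291) (nat_lit 283)) (XT.lf (nat_lit 0) (nat_lit 675794103) (nat_lit 1064) (nat_lit 5997973621) (nat_lit 76) (nat_lit 611889890) (nat_lit 210) (nat_lit 5) (nat_lit 224) (nat_lit 5) (nat_lit 211) (nat_lit 5) (nat_lit 327) (nat_lit 291) (nat_lit 282))) (XT.nd (nat_lit 78) (nat_lit 608) (nat_lit 0) (XT.lf (nat_lit 0) (nat_lit 3722031012) (nat_lit 1064) (nat_lit 1072140461) (nat_lit 76) (nat_lit 2560715766) (nat_lit 210) (nat_lit 5) (nat_lit 224) (nat_lit 5) (nat_lit 211) (nat_lit 5) (nat_lit 328) (nat_lit 291) (nat_lit 281)) (XT.lf (nat_lit 0) (nat_lit 3990495635) (nat_lit 608) (nat_lit 2822254647) (nat_lit 684) (nat_lit 614928862) (nat_lit 202) (nat_lit 5) (nat_lit 210) (nat_lit 5) (nat_lit 211) (nat_lit 5) (nat_lit 329) (nat_lit 291) (nat_lit 280))))))) (XT.nd (nat_lit 1014) (nat_lit 3420) (nat_lit 0) (XT.nd (nat_lit 468) (nat_lit 2356) (nat_lit 0) (XT.nd (nat_lit 234) (nat_lit 1140)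 (nat_lit 0) (XT.nd (nat_lit 78) (nat_lit 684) (nat_lit 0) (XT.lf (nat_lit 0) (nat_lit 1642915182) (nat_lit 532) (nat_lit 744161173) (nat_lit 608) (nat_lit 5116667194) (nat_lit 194) (nat_lit 5) (nat_lit 201) (nat_lit 5) (nat_lit 202) (nat_lit 5) (nat_lit 330) (nat_lit 291) (nat_lit 279)) (XT.nd (nat_lit 78) (nat_lit 684) (nat_lit 0) (XT.lf (nat_lit 0) (nat_lit 5432279063) (nat_lit 608) (nat_lit 746375446) (nat_lit 76) (nat_lit 1404359428) (nat_lit 194) (nat_lit 5) (nat_lit 202) (nat_lit 5) (nat_lit 195) (nat_lit 5) (nat_lit 331) (nat_lit 291) (nat_lit 278)) (XT.lf (nat_lit 0) (nat_lit 856362464) (nat_lit 684) (nat_lit 3160491498) (nat_lit 76) (nat_lit 3648520309) (nat_lit 185) (nat_lit 5) (nat_lit 194) (nat_lit 5) (nat_lit 186) (nat_lit 5) (nat_lit 332) (nat_lit 291) (nat_lit 277)))) (XT.nd (nat_lit 78) (nat_lit 608) (nat_lit 0) (XT.lf (nat_lit 0) (nat_lit 2109316366) (nat_lit 532) (nat_lit 1749108930)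 (nat_lit 608) (nat_lit 3892767412) (nat_lit 178) (nat_lit 5) (nat_lit 185) (nat_lit 5) (nat_lit 186) (nat_lit 5) (nat_lit 333) (nat_lit 291) (nat_lit 276)) (XT.nd (nat_lit 78) (nat_lit 608) (nat_lit 0) (XT.lf (nat_lit 0) (nat_lit 6909890840) (nat_lit 608) (nat_lit 333494238) (nat_lit 76) (nat_lit 597484021) (nat_lit 178) (nat_lit 5) (nat_lit 186) (nat_lit 5) (nat_lit 179) (nat_lit 5) (nat_lit 334) (nat_lit 291) (nat_lit 275)) (XT.lf (nat_lit 0) (nat_lit 2068521788) (nat_lit 608) (nat_lit 2825234407) (nat_lit 76) (nat_lit 3039221708) (nat_lit 170) (nat_lit 5) (nat_lit 178) (nat_lit 5) (nat_lit 171) (nat_lit 5) (nat_lit 335) (nat_lit 291) (nat_lit 274))))) (XT.nd (nat_lit 234) (nat_lit 1368) (nat_lit 0) (XT.nd (nat_lit 78) (nat_lit 532) (nat_lit 0) (XT.lf (nat_lit 0) (nat_lit 2644695665) (nat_lit 456) (nat_lit 2447761232) (nat_lit 532) (nat_lit 2936579918) (nat_lit 164) (nat_lit 5) (nat_lit 170) (nat_lit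 5) (nat_lit 171) (nat_lit 5) (nat_lit 336) (nat_lit 291) (nat_lit 273)) (XT.nd (nat_lit 78) (nat_lit 0) (nat_lit 0) (XT.lf (nat_lit 0) (nat_lit 33322265) (nat_lit 532) (nat_lit 8009021511) (nat_lit 76) (nat_lit 86993765) (nat_lit 157) (nat_lit 5) (nat_lit 164) (nat_lit 5) (nat_lit 158) (nat_lit 5) (nat_lit 337) (nat_lit 291) (nat_lit 272)) (XT.lf (nat_lit 0) (nat_lit 3038538005) (nat_lit 532) (nat_lit 2475265070) (nat_lit 76) (nat_lit 2717868083) (nat_lit 157) (nat_lit 5) (nat_lit 164) (nat_lit 5) (nat_lit 158) (nat_lit 5) (nat_lit 338) (nat_lit 291) (nat_lit 271)))) (XT.nd (nat_lit 156) (nat_lit 380) (nat_lit 0) (XT.nd (nat_lit 78) (nat_lit 532) (nat_lit 0) (XT.lf (nat_lit 0) (nat_lit 3198682143) (nat_lit 456) (nat_lit 2894222329) (nat_lit 532) (nat_lit 2245452215) (nat_lit 151) (nat_lit 5) (nat_lit 157) (nat_lit 5) (nat_lit 158) (nat_lit 5) (nat_lit 339) (nat_lit 291) (nat_lit 270)) (XT.lf (nat_lit 0)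 (nat_lit 560340410) (nat_lit 456) (nat_lit 174268541) (nat_lit 532) (nat_lit 7714673234) (nat_lit 144) (nat_lit 5) (nat_lit 150) (nat_lit 5) (nat_lit 151) (nat_lit 5) (nat_lit 340) (nat_lit 291) (nat_lit 269))) (XT.nd (nat_lit 78) (nat_lit 380) (nat_lit 0) (XT.lf (nat_lit 0) (nat_lit 3766416523) (nat_lit 532) (nat_lit 2163211321) (nat_lit 76) (nat_lit 2633063702) (nat_lit 144) (nat_lit 5) (nat_lit 151) (nat_lit 5) (nat_lit 145) (nat_lit 5) (nat_lit 341) (nat_lit 291) (nat_lit 268)) (XT.lf (nat_lit 0) (nat_lit 3717786943) (nat_lit 380) (nat_lit 3140705297) (nat_lit 456) (nat_lit 1821977495) (nat_lit 139) (nat_lit 5) (nat_lit 144) (nat_lit 5) (nat_lit 145) (nat_lit 5) (nat_lit 342) (nat_lit 291) (nat_lit 267)))))) (XT.nd (nat_lit 546) (nat_lit 1368) (nat_lit 0) (XT.nd (nat_lit 234) (nat_lit 1216) (nat_lit 0) (XT.nd (nat_lit 78) (nat_lit 380) (nat_lit 0) (XT.lf (nat_lit 0) (nat_lit 936699817) (nat_lit 380)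 (nat_lit 243984150) (nat_lit 456) (nat_lit 7621881729) (nat_lit 133) (nat_lit 5) (nat_lit 138) (nat_lit 5) (nat_lit 139) (nat_lit 5) (nat_lit 343) (nat_lit 291) (nat_lit 266)) (XT.nd (nat_lit 78) (nat_lit 380) (nat_lit 0) (XT.lf (nat_lit 0) (nat_lit 4246986663) (nat_lit 456) (nat_lit 1945739701) (nat_lit 76) (nat_lit 2734793614) (nat_lit 133) (nat_lit 5) (nat_lit 139) (nat_lit 5) (nat_lit 134) (nat_lit 5) (nat_lit 344) (nat_lit 291) (nat_lit 265)) (XT.lf (nat_lit 0) (nat_lit 4144188281) (nat_lit 380) (nat_lit 3238523591) (nat_lit 456) (nat_lit 1674228851) (nat_lit 128) (nat_lit 5) (nat_lit 133) (nat_lit 5) (nat_lit 134) (nat_lit 5) (nat_lit 345) (nat_lit 291) (nat_lit 264)))) (XT.nd (nat_lit 156) (nat_lit 760) (nat_lit 0) (XT.nd (nat_lit 78) (nat_lit 0) (nat_lit 0) (XT.lf (nat_lit 0) (nat_lit 1189664311) (nat_lit 380) (nat_lit 171703518) (nat_lit 456) (nat_lit 7829498907) (nat_lit 122) (nat_lit 5) (nat_lit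 127) (nat_lit 5) (nat_lit 128) (nat_lit 5) (nat_lit 346) (nat_lit 291) (nat_lit 263)) (XT.lf (nat_lit 0) (nat_lit 4469609052) (nat_lit 456) (nat_lit 1884844997) (nat_lit 76) (nat_lit 2973439749) (nat_lit 122) (nat_lit 5) (nat_lit 128) (nat_lit 5) (nat_lit 123) (nat_lit 5) (nat_lit 347) (nat_lit 291) (nat_lit 262))) (XT.nd (nat_lit 78) (nat_lit 456) (nat_lit 0) (XT.lf (nat_lit 0) (nat_lit 4414394161) (nat_lit 304) (nat_lit 3239101902) (nat_lit 380) (nat_lit 1816099936) (nat_lit 118) (nat_lit 5) (nat_lit 122) (nat_lit 5) (nat_lit 123) (nat_lit 5) (nat_lit 348) (nat_lit 291) (nat_lit 261)) (XT.lf (nat_lit 0) (nat_lit 1252384909) (nat_lit 380) (nat_lit 9136884) (nat_lit 456) (nat_lit 8354585451) (nat_lit 112) (nat_lit 5) (nat_lit 117) (nat_lit 5) (nat_lit 118) (nat_lit 5) (nat_lit 349) (nat_lit 291) (nat_lit 260))))) (XT.nd (nat_lit 234) (nat_lit 684) (nat_lit 0) (XT.nd (nat_lit 78) (nat_lit 684) (nat_lit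 0) (XT.lf (nat_lit 0) (nat_lit 4417774112) (nat_lit 456) (nat_lit 2049281427) (nat_lit 76) (nat_lit 3298767944) (nat_lit 112) (nat_lit 5) (nat_lit 118) (nat_lit 5) (nat_lit 113) (nat_lit 5) (nat_lit 350) (nat_lit 291) (nat_lit 259)) (XT.nd (nat_lit 78) (nat_lit 380) (nat_lit 0) (XT.lf (nat_lit 0) (nat_lit 4457754786) (nat_lit 304) (nat_lit 3195025273) (nat_lit 380) (nat_lit 2267761406) (nat_lit 108) (nat_lit 5) (nat_lit 112) (nat_lit 5) (nat_lit 113) (nat_lit 5) (nat_lit 351) (nat_lit 291) (nat_lit 258)) (XT.lf (nat_lit 0) (nat_lit 861539953) (nat_lit 380) (nat_lit 9032118054) (nat_lit 76) (nat_lit 186784506) (nat_lit 103) (nat_lit 5) (nat_lit 108) (nat_lit 5) (nat_lit 104) (nat_lit 5) (nat_lit 352) (nat_lit 291) (nat_lit 257)))) (XT.nd (nat_lit 156) (nat_lit 380) (nat_lit 0) (XT.nd (nat_lit 78) (nat_lit 304) (nat_lit 0) (XT.lf (nat_lit 0) (nat_lit 4068581064) (nat_lit 380) (nat_lit 2516165672) (nat_lit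 76) (nat_lit 3658866551) (nat_lit 103) (nat_lit 5) (nat_lit 108) (nat_lit 5) (nat_lit 104) (nat_lit 5) (nat_lit 353) (nat_lit 291) (nat_lit 256)) (XT.lf (nat_lit 0) (nat_lit 4194793117) (nat_lit 304) (nat_lit 3161146653) (nat_lit 380) (nat_lit 3056244866) (nat_lit 99) (nat_lit 5) (nat_lit 103) (nat_lit 5) (nat_lit 104) (nat_lit 5) (nat_lit 354) (nat_lit 291) (nat_lit 255))) (XT.nd (nat_lit 78) (nat_lit 0) (nat_lit 0) (XT.lf (nat_lit 0) (nat_lit 131147327) (nat_lit 380) (nat_lit 10091197570) (nat_lit 76) (nat_lit 364107588) (nat_lit 94) (nat_lit 5) (nat_lit 99) (nat_lit 5) (nat_lit 95) (nat_lit 5) (nat_lit 355) (nat_lit 291) (nat_lit 254)) (XT.lf (nat_lit 0) (nat_lit 3392084428) (nat_lit 380) (nat_lit 3372785975) (nat_lit 76) (nat_lit 3999015866) (nat_lit 94) (nat_lit 5) (nat_lit 99) (nat_lit 5) (nat_lit 95) (nat_lit 5) (nat_lit 356) (nat_lit 291) (nat_lit 253))))))))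
noncomputable def xc82 : XT := (XT.nd (nat_lit 2028) (nat_lit 1824) (nat_lit 0) (XT.nd (nat_lit 1014) (nat_lit 1368) (nat_lit 0) (XT.nd (nat_lit 468) (nat_lit 1064) (nat_lit 0) (XT.nd (nat_lit 234) (nat_lit 532) (nat_lit 0) (XT.nd (nat_lit 78) (nat_lit 380) (nat_lit 0) (XT.lf (nat_lit 0) (nat_lit 3535317826) (nat_lit 228) (nat_lit 3195774746) (nat_lit 304) (nat_lit 4216168654) (nat_lit 91) (nat_lit 5) (nat_lit 94) (nat_lit 5) (nat_lit 95) (nat_lit 5) (nat_lit 357) (nat_lit 291) (nat_lit 252)) (XT.nd (nat_lit 78) (nat_lit 380) (nat_lit 0) (XT.lf (nat_lit 0) (nat_lit 10156078973) (nat_lit 304) (nat_lit 501673957) (nat_lit 76) (nat_lit 478834970) (nat_lit 91) (nat_lit 5) (nat_lit 95) (nat_lit 5) (nat_lit 92) (nat_lit 5) (nat_lit 358) (nat_lit 291) (nat_lit 251)) (XT.lf (nat_lit 0) (nat_lit 2350492238) (nat_lit 380) (nat_lit 4718656244) (nat_lit 76) (nat_lit 4260465693) (nat_lit 86) (nat_lit 5) (nat_lit 91)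 (nat_lit 5) (nat_lit 87) (nat_lit 5) (nat_lit 359) (nat_lit 291) (nat_lit 250)))) (XT.nd (nat_lit 78) (nat_lit 304) (nat_lit 0) (XT.lf (nat_lit 0) (nat_lit 2376277890) (nat_lit 228) (nat_lit 3361966137) (nat_lit 304) (nat_lit 5790622747) (nat_lit 83) (nat_lit 5) (nat_lit 86) (nat_lit 5) (nat_lit 87) (nat_lit 5) (nat_lit 360) (nat_lit 291) (nat_lit 249)) (XT.nd (nat_lit 78) (nat_lit 304) (nat_lit 0) (XT.lf (nat_lit 0) (nat_lit 9229181816) (nat_lit 304) (nat_lit 2036543315) (nat_lit 76) (nat_lit 468347170) (nat_lit 83) (nat_lit 5) (nat_lit 87) (nat_lit 5) (nat_lit 84) (nat_lit 5) (nat_lit 361) (nat_lit 291) (nat_lit 248)) (XT.lf (nat_lit 0) (nat_lit 897197069) (nat_lit 304) (nat_lit 6667859636) (nat_lit 76) (nat_lit 4379096062) (nat_lit 79) (nat_lit 5) (nat_lit 83) (nat_lit 5) (nat_lit 80) (nat_lit 5) (nat_lit 362) (nat_lit 291) (nat_lit 247))))) (XT.nd (nat_lit 234) (nat_lit 608) (nat_lit 0) (XT.nd (nat_lit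 78) (nat_lit 228) (nat_lit 0) (XT.lf (nat_lit 0) (nat_lit 599312246) (nat_lit 228) (nat_lit 3728948252) (nat_lit 304) (nat_lit 7832233438) (nat_lit 76) (nat_lit 5) (nat_lit 79) (nat_lit 5) (nat_lit 80) (nat_lit 5) (nat_lit 363) (nat_lit 291) (nat_lit 246)) (XT.nd (nat_lit 78) (nat_lit 228) (nat_lit 0) (XT.lf (nat_lit 0) (nat_lit 7883542983) (nat_lit 304) (nat_lit 4241087550) (nat_lit 76) (nat_lit 258075698) (nat_lit 76) (nat_lit 5) (nat_lit 80) (nat_lit 5) (nat_lit 77) (nat_lit 5) (nat_lit 364) (nat_lit 291) (nat_lit 245)) (XT.lf (nat_lit 0) (nat_lit 3249206395) (nat_lit 228) (nat_lit 8317005795) (nat_lit 304) (nat_lit 1044769795) (nat_lit 73) (nat_lit 5) (nat_lit 76) (nat_lit 5) (nat_lit 77) (nat_lit 5) (nat_lit 365) (nat_lit 291) (nat_lit 244)))) (XT.nd (nat_lit 156) (nat_lit 304) (nat_lit 0) (XT.nd (nat_lit 78) (nat_lit 228) (nat_lit 0) (XT.lf (nat_lit 0) (nat_lit 2460216045) (nat_lit 304) (nat_lit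 1894357530) (nat_lit 76) (nat_lit 8490945419) (nat_lit 72) (nat_lit 5) (nat_lit 76) (nat_lit 5) (nat_lit 73) (nat_lit 5) (nat_lit 366) (nat_lit 291) (nat_lit 243)) (XT.lf (nat_lit 0) (nat_lit 5826551709) (nat_lit 228) (nat_lit 232937986) (nat_lit 304) (nat_lit 7027005308) (nat_lit 69) (nat_lit 5) (nat_lit 72) (nat_lit 5) (nat_lit 73) (nat_lit 5) (nat_lit 367) (nat_lit 291) (nat_lit 242))) (XT.nd (nat_lit 78) (nat_lit 76) (nat_lit 0) (XT.lf (nat_lit 0) (nat_lit 378149466) (nat_lit 228) (nat_lit 9404608021) (nat_lit 304) (nat_lit 3551479153) (nat_lit 66) (nat_lit 5) (nat_lit 69) (nat_lit 5) (nat_lit 70) (nat_lit 5) (nat_lit 368) (nat_lit 291) (nat_lit 241)) (XT.lf (nat_lit 0) (nat_lit 58754866) (nat_lit 304) (nat_lit 5270764433) (nat_lit 76) (nat_lit 8258969084) (nat_lit 65) (nat_lit 5) (nat_lit 69) (nat_lit 5) (nat_lit 66) (nat_lit 5) (nat_lit 369) (nat_lit 291) (nat_lit 240)))))) (XT.nd (nat_lit 468) (nat_lit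 760) (nat_lit 0) (XT.nd (nat_lit 234) (nat_lit 228) (nat_lit 0) (XT.nd (nat_lit 78) (nat_lit 228) (nat_lit 0) (XT.lf (nat_lit 0) (nat_lit 2588172362) (nat_lit 152) (nat_lit 1098593467) (nat_lit 228) (nat_lit 10163136817) (nat_lit 63) (nat_lit 5) (nat_lit 65) (nat_lit 5) (nat_lit 66) (nat_lit 5) (nat_lit 370) (nat_lit 291) (nat_lit 239)) (XT.nd (nat_lit 78) (nat_lit 228) (nat_lit 0) (XT.lf (nat_lit 0) (nat_lit 7464994295) (nat_lit 228) (nat_lit 3431122568) (nat_lit 76) (nat_lit 3221816108) (nat_lit 63) (nat_lit 5) (nat_lit 66) (nat_lit 5) (nat_lit 64) (nat_lit 5) (nat_lit 371) (nat_lit 291) (nat_lit 238)) (XT.lf (nat_lit 0) (nat_lit 4643629721) (nat_lit 228) (nat_lit 6726023214) (nat_lit 304) (nat_lit 3023973284) (nat_lit 60) (nat_lit 5) (nat_lit 63) (nat_lit 5) (nat_lit 64) (nat_lit 5) (nat_lit 372) (nat_lit 291) (nat_lit 237)))) (XT.nd (nat_lit 78) (nat_lit 152) (nat_lit 0) (XT.lf (nat_lit 0) (nat_lit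 692626855) (nat_lit 304) (nat_lit 1723471312) (nat_lit 76) (nat_lit 12261519043) (nat_lit 59) (nat_lit 5) (nat_lit 63) (nat_lit 5) (nat_lit 60) (nat_lit 5) (nat_lit 373) (nat_lit 291) (nat_lit 236)) (XT.nd (nat_lit 78) (nat_lit 0) (nat_lit 0) (XT.lf (nat_lit 0) (nat_lit 4502177025) (nat_lit 228) (nat_lit 8415116778) (nat_lit 76) (nat_lit 2050682270) (nat_lit 57) (nat_lit 5) (nat_lit 60) (nat_lit 5) (nat_lit 58) (nat_lit 5) (nat_lit 374) (nat_lit 291) (nat_lit 235)) (XT.lf (nat_lit 0) (nat_lit 8426727765) (nat_lit 228) (nat_lit 246716664) (nat_lit 76) (nat_lit 6593592748) (nat_lit 57) (nat_lit 5) (nat_lit 60) (nat_lit 5) (nat_lit 58) (nat_lit 5) (nat_lit 375) (nat_lit 291) (nat_lit 234))))) (XT.nd (nat_lit 234) (nat_lit 380) (nat_lit 0) (XT.nd (nat_lit 78) (nat_lit 228) (nat_lit 0) (XT.lf (nat_lit 0) (nat_lit 8261036786) (nat_lit 152) (nat_lit 4247792559) (nat_lit 228) (nat_lit 3065058858) (nat_lit 55)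 (nat_lit 5) (nat_lit 57) (nat_lit 5) (nat_lit 58) (nat_lit 5) (nat_lit 376) (nat_lit 291) (nat_lit 233)) (XT.nd (nat_lit 78) (nat_lit 0) (nat_lit 0) (XT.lf (nat_lit 0) (nat_lit 783779769) (nat_lit 228) (nat_lit 14808035059) (nat_lit 76) (nat_lit 298612297) (nat_lit 52) (nat_lit 5) (nat_lit 55) (nat_lit 5) (nat_lit 53) (nat_lit 5) (nat_lit 377) (nat_lit 291) (nat_lit 232)) (XT.lf (nat_lit 0) (nat_lit 4763882829) (nat_lit 228) (nat_lit 6475285771) (nat_lit 76) (nat_lit 4974072541) (nat_lit 52) (nat_lit 5) (nat_lit 55) (nat_lit 5) (nat_lit 53) (nat_lit 5) (nat_lit 378) (nat_lit 291) (nat_lit 231)))) (XT.nd (nat_lit 156) (nat_lit 228) (nat_lit 0) (XT.nd (nat_lit 78) (nat_lit 0) (nat_lit 0) (XT.lf (nat_lit 0) (nat_lit 2082745684) (nat_lit 152) (nat_lit 6762576511) (nat_lit 228) (nat_lit 7700970510) (nat_lit 50) (nat_lit 5) (nat_lit 52) (nat_lit 5) (nat_lit 53) (nat_lit 5) (nat_lit 379) (nat_lit 291) (nat_lit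 230)) (XT.lf (nat_lit 0) (nat_lit 10965553520) (nat_lit 152) (nat_lit 2111438889) (nat_lit 228) (nat_lit 3811520574) (nat_lit 50) (nat_lit 5) (nat_lit 52) (nat_lit 5) (nat_lit 53) (nat_lit 5) (nat_lit 380) (nat_lit 291) (nat_lit 229))) (XT.nd (nat_lit 78) (nat_lit 0) (nat_lit 0) (XT.lf (nat_lit 0) (nat_lit 207261189) (nat_lit 228) (nat_lit 14402716502) (nat_lit 76) (nat_lit 2630482860) (nat_lit 47) (nat_lit 5) (nat_lit 50) (nat_lit 5) (nat_lit 48) (nat_lit 5) (nat_lit 381) (nat_lit 291) (nat_lit 228)) (XT.lf (nat_lit 0) (nat_lit 4314643869) (nat_lit 228) (nat_lit 5741509139) (nat_lit 76) (nat_lit 7544351926) (nat_lit 47) (nat_lit 5) (nat_lit 50) (nat_lit 5) (nat_lit 48) (nat_lit 5) (nat_lit 382) (nat_lit 291) (nat_lit 227))))))) (XT.nd (nat_lit 1014) (nat_lit 836) (nat_lit 0) (XT.nd (nat_lit 468) (nat_lit 456) (nat_lit 0) (XT.nd (nat_lit 234) (nat_lit 228) (nat_lit 0) (XT.nd (nat_lit 78) (nat_lit 152)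 (nat_lit 0) (XT.lf (nat_lit 0) (nat_lit 3179653670) (nat_lit 152) (nat_lit 5360564437) (nat_lit 228) (nat_lit 9431293036) (nat_lit 45) (nat_lit 5) (nat_lit 47) (nat_lit 5) (nat_lit 48) (nat_lit 5) (nat_lit 383) (nat_lit 291) (nat_lit 226)) (XT.nd (nat_lit 78) (nat_lit 152) (nat_lit 0) (XT.lf (nat_lit 0) (nat_lit 12424826531) (nat_lit 152) (nat_lit 490563618) (nat_lit 228) (nat_lit 5437581785) (nat_lit 45) (nat_lit 5) (nat_lit 47) (nat_lit 5) (nat_lit 48) (nat_lit 5) (nat_lit 384) (nat_lit 291) (nat_lit 225)) (XT.lf (nat_lit 0) (nat_lit 3159302554) (nat_lit 152) (nat_lit 14302018224) (nat_lit 228) (nat_lit 1283379714) (nat_lit 43) (nat_lit 5) (nat_lit 45) (nat_lit 5) (nat_lit 46) (nat_lit 4) (nat_lit 385) (nat_lit 291) (nat_lit 224)))) (XT.nd (nat_lit 78) (nat_lit 152) (nat_lit 0) (XT.lf (nat_lit 0) (nat_lit 2968023059) (nat_lit 228) (nat_lit 6600155847) (nat_lit 76) (nat_lit 9578215905) (nat_lit 42) (nat_lit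 5) (nat_lit 45) (nat_lit 5) (nat_lit 43) (nat_lit 5) (nat_lit 386) (nat_lit 291) (nat_lit 223)) (XT.nd (nat_lit 78) (nat_lit 0) (nat_lit 0) (XT.lf (nat_lit 0) (nat_lit 2634686780) (nat_lit 152) (nat_lit 4678525529) (nat_lit 228) (nat_lit 12246793553) (nat_lit 40) (nat_lit 5) (nat_lit 42) (nat_lit 5) (nat_lit 43) (nat_lit 5) (nat_lit 387) (nat_lit 291) (nat_lit 222)) (XT.lf (nat_lit 0) (nat_lit 11826386968) (nat_lit 228) (nat_lit 7765092900) (nat_lit 76) (nat_lit 393424521) (nat_lit 40) (nat_lit 5) (nat_lit 43) (nat_lit 5) (nat_lit 41) (nat_lit 4) (nat_lit 388) (nat_lit 291) (nat_lit 221))))) (XT.nd (nat_lit 234) (nat_lit 304) (nat_lit 0) (XT.nd (nat_lit 78) (nat_lit 76) (nat_lit 0) (XT.lf (nat_lit 0) (nat_lit 1597668991) (nat_lit 76) (nat_lit 14906813942) (nat_lit 152) (nat_lit 3917188956) (nat_lit 39) (nat_lit 5) (nat_lit 40) (nat_lit 5) (nat_lit 41) (nat_lit 4) (nat_lit 389) (nat_lit 291) (nat_lit 220))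 (XT.nd (nat_lit 78) (nat_lit 0) (nat_lit 0) (XT.lf (nat_lit 0) (nat_lit 489677043) (nat_lit 152) (nat_lit 9531025943) (nat_lit 76) (nat_lit 10849303445) (nat_lit 38) (nat_lit 5) (nat_lit 40) (nat_lit 5) (nat_lit 39) (nat_lit 5) (nat_lit 390) (nat_lit 291) (nat_lit 219)) (XT.lf (nat_lit 0) (nat_lit 4918869002) (nat_lit 152) (nat_lit 53588514) (nat_lit 76) (nat_lit 16359111562) (nat_lit 38) (nat_lit 5) (nat_lit 40) (nat_lit 5) (nat_lit 39) (nat_lit 5) (nat_lit 391) (nat_lit 291) (nat_lit 218)))) (XT.nd (nat_lit 156) (nat_lit 152) (nat_lit 0) (XT.nd (nat_lit 78) (nat_lit 0) (nat_lit 0) (XT.lf (nat_lit 0) (nat_lit 9548238781) (nat_lit 228) (nat_lit 11961563589) (nat_lit 76) (nat_lit 295164104) (nat_lit 36) (nat_lit 5) (nat_lit 39) (nat_lit 5) (nat_lit 37) (nat_lit 4) (nat_lit 392) (nat_lit 291) (nat_lit 217)) (XT.lf (nat_lit 0) (nat_lit 14336168618) (nat_lit 228) (nat_lit 2357459716) (nat_lit 76) (nat_lit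 5598353820) (nat_lit 36) (nat_lit 5) (nat_lit 39) (nat_lit 5) (nat_lit 37) (nat_lit 4) (nat_lit 393) (nat_lit 291) (nat_lit 216))) (XT.nd (nat_lit 78) (nat_lit 76) (nat_lit 0) (XT.lf (nat_lit 0) (nat_lit 7631178975) (nat_lit 76) (nat_lit 11680689843) (nat_lit 152) (nat_lit 3480422045) (nat_lit 35) (nat_lit 5) (nat_lit 36) (nat_lit 5) (nat_lit 37) (nat_lit 4) (nat_lit 394) (nat_lit 291) (nat_lit 215)) (XT.lf (nat_lit 0) (nat_lit 1102073515) (nat_lit 152) (nat_lit 5402754736) (nat_lit 76) (nat_lit 16802614764) (nat_lit 34) (nat_lit 5) (nat_lit 36) (nat_lit 5) (nat_lit 35) (nat_lit 5) (nat_lit 395) (nat_lit 291) (nat_lit 214)))))) (XT.nd (nat_lit 546) (nat_lit 380) (nat_lit 0) (XT.nd (nat_lit 234) (nat_lit 228) (nat_lit 0) (XT.nd (nat_lit 78) (nat_lit 76) (nat_lit 0) (XT.lf (nat_lit 0) (nat_lit 4653662492) (nat_lit 152) (nat_lit 1114847966) (nat_lit 228) (nat_lit 18068018878) (nat_lit 32) (nat_lit 5) (nat_lit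 34) (nat_lit 5) (nat_lit 35) (nat_lit 5) (nat_lit 396) (nat_lit 291) (nat_lit 213)) (XT.nd (nat_lit 78) (nat_lit 76) (nat_lit 0) (XT.lf (nat_lit 0) (nat_lit 10644495108) (nat_lit 228) (nat_lit 9351686321) (nat_lit 76) (nat_lit 4383225984) (nat_lit 32) (nat_lit 5) (nat_lit 35) (nat_lit 5) (nat_lit 33) (nat_lit 4) (nat_lit 397) (nat_lit 291) (nat_lit 212)) (XT.lf (nat_lit 0) (nat_lit 727917666) (nat_lit 76) (nat_lit 14929505713) (nat_lit 152) (nat_lit 9281434168) (nat_lit 31) (nat_lit 5) (nat_lit 32) (nat_lit 5) (nat_lit 33) (nat_lit 4) (nat_lit 398) (nat_lit 291) (nat_lit 211)))) (XT.nd (nat_lit 156) (nat_lit 152) (nat_lit 0) (XT.nd (nat_lit 78) (nat_lit 76) (nat_lit 0) (XT.lf (nat_lit 0) (nat_lit 11252419068) (nat_lit 76) (nat_lit 9635707285) (nat_lit 152) (nat_lit 4624948698) (nat_lit 31) (nat_lit 5) (nat_lit 32) (nat_lit 5) (nat_lit 33) (nat_lit 4) (nat_lit 399) (nat_lit 291) (nat_lit 210)) (XT.lf (nat_lit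 0) (nat_lit 141365726) (nat_lit 152) (nat_lit 4061800948) (nat_lit 76) (nat_lit 21902103913) (nat_lit 30) (nat_lit 5) (nat_lit 32) (nat_lit 5) (nat_lit 31) (nat_lit 5) (nat_lit 400) (nat_lit 291) (nat_lit 209))) (XT.nd (nat_lit 78) (nat_lit 0) (nat_lit 0) (XT.lf (nat_lit 0) (nat_lit 5008470021) (nat_lit 228) (nat_lit 20250291233) (nat_lit 76) (nat_lit 1453579274) (nat_lit 28) (nat_lit 5) (nat_lit 31) (nat_lit 5) (nat_lit 29) (nat_lit 4) (nat_lit 401) (nat_lit 291) (nat_lit 208)) (XT.lf (nat_lit 0) (nat_lit 10078975702) (nat_lit 228) (nat_lit 10040527561) (nat_lit 76) (nat_lit 7216402519) (nat_lit 28) (nat_lit 5) (nat_lit 31) (nat_lit 5) (nat_lit 29) (nat_lit 4) (nat_lit 402) (nat_lit 291) (nat_lit 207))))) (XT.nd (nat_lit 234) (nat_lit 304) (nat_lit 0) (XT.nd (nat_lit 78) (nat_lit 0) (nat_lit 0) (XT.lf (nat_lit 0) (nat_lit 438461832) (nat_lit 76) (nat_lit 14842446979) (nat_lit 152) (nat_lit 12697894537)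 (nat_lit 27) (nat_lit 5) (nat_lit 28) (nat_lit 5) (nat_lit 29) (nat_lit 4) (nat_lit 403) (nat_lit 291) (nat_lit 206)) (XT.nd (nat_lit 78) (nat_lit 0) (nat_lit 0) (XT.lf (nat_lit 0) (nat_lit 11392466008) (nat_lit 76) (nat_lit 9323212097) (nat_lit 152) (nat_lit 7923010970) (nat_lit 27) (nat_lit 5) (nat_lit 28) (nat_lit 5) (nat_lit 29) (nat_lit 4) (nat_lit 404) (nat_lit 291) (nat_lit 205)) (XT.lf (nat_lit 0) (nat_lit 22631230241) (nat_lit 76) (nat_lit 3658365627) (nat_lit 152) (nat_lit 3029496794) (nat_lit 27) (nat_lit 5) (nat_lit 28) (nat_lit 5) (nat_lit 29) (nat_lit 4) (nat_lit 405) (nat_lit 291) (nat_lit 204)))) (XT.nd (nat_lit 156) (nat_lit 76) (nat_lit 0) (XT.nd (nat_lit 78) (nat_lit 0) (nat_lit 0) (XT.lf (nat_lit 0) (nat_lit 2009916013) (nat_lit 228) (nat_lit 25833187187) (nat_lit 76) (nat_lit 2175079526) (nat_lit 24) (nat_lit 5) (nat_lit 27) (nat_lit 5) (nat_lit 25) (nat_lit 4) (nat_lit 406) (nat_lit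 291) (nat_lit 203)) (XT.lf (nat_lit 0) (nat_lit 7220698677) (nat_lit 228) (nat_lit 15325113463) (nat_lit 76) (nat_lit 8189105251) (nat_lit 24) (nat_lit 5) (nat_lit 27) (nat_lit 5) (nat_lit 25) (nat_lit 4) (nat_lit 407) (nat_lit 291) (nat_lit 202))) (XT.nd (nat_lit 78) (nat_lit 76) (nat_lit 0) (XT.lf (nat_lit 0) (nat_lit 12565137794) (nat_lit 228) (nat_lit 4543683690) (nat_lit 76) (nat_lit 14365016576) (nat_lit 24) (nat_lit 5) (nat_lit 27) (nat_lit 5) (nat_lit 25) (nat_lit 4) (nat_lit 408) (nat_lit 291) (nat_lit 201)) (XT.lf (nat_lit 0) (nat_lit 6650293985) (nat_lit 76) (nat_lit 11461535970) (nat_lit 152) (nat_lit 14121842635) (nat_lit 23) (nat_lit 5) (nat_lit 24) (nat_lit 5) (nat_lit 25) (nat_lit 4) (nat_lit 409) (nat_lit 291) (nat_lit 200))))))))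
noncomputable def xc83 : XT := (XT.nd (nat_lit 2028) (nat_lit 228) (nat_lit 0) (XT.nd (nat_lit 1014) (nat_lit 304) (nat_lit 0) (XT.nd (nat_lit 468) (nat_lit 228) (nat_lit 0) (XT.nd (nat_lit 234) (nat_lit 76) (nat_lit 0) (XT.nd (nat_lit 78) (nat_lit 152) (nat_lit 0) (XT.lf (nat_lit 0) (nat_lit 18232964563) (nat_lit 76) (nat_lit 5616087692) (nat_lit 152) (nat_lit 9166529746) (nat_lit 23) (nat_lit 5) (nat_lit 24) (nat_lit 5) (nat_lit 25) (nat_lit 4) (nat_lit 410) (nat_lit 291) (nat_lit 199)) (XT.nd (nat_lit 78) (nat_lit 152) (nat_lit 0) (XT.lf (nat_lit 0) (nat_lit 29740989548) (nat_lit 152) (nat_lit 3701282952) (nat_lit 0) (nat_lit 379201864) (nat_lit 23) (nat_lit 5) (nat_lit 25) (nat_lit 4) (nat_lit 23) (nat_lit 4) (nat_lit 411) (nat_lit 291) (nat_lit 198)) (XT.lf (nat_lit 0) (nat_lit 1246247726) (nat_lit 152) (nat_lit 26890373833) (nat_lit 76) (nat_lit 6511270191) (nat_lit 21) (nat_lit 5) (nat_lit 23) (nat_lit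 5) (nat_lit 22) (nat_lit 4) (nat_lit 412) (nat_lit 291) (nat_lit 197)))) (XT.nd (nat_lit 78) (nat_lit 76) (nat_lit 0) (XT.lf (nat_lit 0) (nat_lit 6667873175) (nat_lit 152) (nat_lit 15941240223) (nat_lit 76) (nat_lit 12888266406) (nat_lit 21) (nat_lit 5) (nat_lit 23) (nat_lit 5) (nat_lit 22) (nat_lit 4) (nat_lit 413) (nat_lit 291) (nat_lit 196)) (XT.nd (nat_lit 78) (nat_lit 76) (nat_lit 0) (XT.lf (nat_lit 0) (nat_lit 12232107464) (nat_lit 152) (nat_lit 4700957288) (nat_lit 76) (nat_lit 19439892159) (nat_lit 21) (nat_lit 5) (nat_lit 23) (nat_lit 5) (nat_lit 22) (nat_lit 4) (nat_lit 414) (nat_lit 291) (nat_lit 195)) (XT.lf (nat_lit 0) (nat_lit 6976431890) (nat_lit 76) (nat_lit 11034442385) (nat_lit 152) (nat_lit 19262502013) (nat_lit 20) (nat_lit 5) (nat_lit 21) (nat_lit 5) (nat_lit 22) (nat_lit 4) (nat_lit 415) (nat_lit 291) (nat_lit 194))))) (XT.nd (nat_lit 234) (nat_lit 152) (nat_lit 0) (XT.nd (nat_lit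 78) (nat_lit 76) (nat_lit 0) (XT.lf (nat_lit 0) (nat_lit 19064625473) (nat_lit 76) (nat_lit 4926614596) (nat_lit 152) (nat_lit 14208724128) (nat_lit 20) (nat_lit 5) (nat_lit 21) (nat_lit 5) (nat_lit 22) (nat_lit 4) (nat_lit 416) (nat_lit 291) (nat_lit 193)) (XT.nd (nat_lit 78) (nat_lit 76) (nat_lit 0) (XT.lf (nat_lit 0) (nat_lit 30145303133) (nat_lit 152) (nat_lit 7687245762) (nat_lit 0) (nat_lit 1321975200) (nat_lit 20) (nat_lit 5) (nat_lit 22) (nat_lit 4) (nat_lit 20) (nat_lit 4) (nat_lit 417) (nat_lit 291) (nat_lit 192)) (XT.lf (nat_lit 0) (nat_lit 4101324826) (nat_lit 76) (nat_lit 32452584889) (nat_lit 76) (nat_lit 3581716281) (nat_lit 19) (nat_lit 4) (nat_lit 20) (nat_lit 5) (nat_lit 20) (nat_lit 4) (nat_lit 418) (nat_lit 291) (nat_lit 191)))) (XT.nd (nat_lit 156) (nat_lit 76) (nat_lit 0) (XT.nd (nat_lit 78) (nat_lit 0) (nat_lit 0) (XT.lf (nat_lit 0) (nat_lit 2029556845) (nat_lit 152) (nat_lit 24797024206)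 (nat_lit 76) (nat_lit 14317199198) (nat_lit 18) (nat_lit 5) (nat_lit 20) (nat_lit 5) (nat_lit 19) (nat_lit 4) (nat_lit 419) (nat_lit 291) (nat_lit 190)) (XT.lf (nat_lit 0) (nat_lit 7719454853) (nat_lit 152) (nat_lit 13291342896) (nat_lit 76) (nat_lit 21170851848) (nat_lit 18) (nat_lit 5) (nat_lit 20) (nat_lit 5) (nat_lit 19) (nat_lit 4) (nat_lit 420) (nat_lit 291) (nat_lit 189))) (XT.nd (nat_lit 78) (nat_lit 76) (nat_lit 0) (XT.lf (nat_lit 0) (nat_lit 13562841682) (nat_lit 152) (nat_lit 1472774085) (nat_lit 76) (nat_lit 28215558040) (nat_lit 18) (nat_lit 5) (nat_lit 20) (nat_lit 5) (nat_lit 19) (nat_lit 4) (nat_lit 421) (nat_lit 291) (nat_lit 188)) (XT.lf (nat_lit 0) (nat_lit 10881343332) (nat_lit 76) (nat_lit 8788078000) (nat_lit 152) (nat_lit 24680728136) (nat_lit 17) (nat_lit 5) (nat_lit 18) (nat_lit 5) (nat_lit 19) (nat_lit 4) (nat_lit 422) (nat_lit 291) (nat_lit 187)))))) (XT.nd (nat_lit 468) (nat_lit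 152) (nat_lit 0) (XT.nd (nat_lit 234) (nat_lit 76) (nat_lit 0) (XT.nd (nat_lit 78) (nat_lit 76) (nat_lit 0) (XT.lf (nat_lit 0) (nat_lit 23605239319) (nat_lit 76) (nat_lit 2352312550) (nat_lit 152) (nat_lit 19524594318) (nat_lit 17) (nat_lit 5) (nat_lit 18) (nat_lit 5) (nat_lit 19) (nat_lit 4) (nat_lit 423) (nat_lit 291) (nat_lit 186)) (XT.nd (nat_lit 78) (nat_lit 76) (nat_lit 0) (XT.lf (nat_lit 0) (nat_lit 32459261919) (nat_lit 152) (nat_lit 10008838608) (nat_lit 0) (nat_lit 4179256536) (nat_lit 17) (nat_lit 5) (nat_lit 19) (nat_lit 4) (nat_lit 17) (nat_lit 4) (nat_lit 424) (nat_lit 291) (nat_lit 185)) (XT.lf (nat_lit 0) (nat_lit 2205425621) (nat_lit 76) (nat_lit 36979385841) (nat_lit 76) (nat_lit 8661851410) (nat_lit 16) (nat_lit 4) (nat_lit 17) (nat_lit 5) (nat_lit 17) (nat_lit 4) (nat_lit 425) (nat_lit 291) (nat_lit 184)))) (XT.nd (nat_lit 78) (nat_lit 76) (nat_lit 0) (XT.lf (nat_lit 0) (nat_lit 14961987618)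 (nat_lit 76) (nat_lit 31235683262) (nat_lit 76) (nat_lit 2881712863) (nat_lit 16) (nat_lit 4) (nat_lit 17) (nat_lit 5) (nat_lit 17) (nat_lit 4) (nat_lit 426) (nat_lit 291) (nat_lit 183)) (XT.nd (nat_lit 78) (nat_lit 0) (nat_lit 0) (XT.lf (nat_lit 0) (nat_lit 2996662009) (nat_lit 152) (nat_lit 22306121246) (nat_lit 76) (nat_lit 25045875959) (nat_lit 15) (nat_lit 5) (nat_lit 17) (nat_lit 5) (nat_lit 16) (nat_lit 4) (nat_lit 427) (nat_lit 291) (nat_lit 182)) (XT.lf (nat_lit 0) (nat_lit 8978686643) (nat_lit 152) (nat_lit 10196955634) (nat_lit 76) (nat_lit 32479960179) (nat_lit 15) (nat_lit 5) (nat_lit 17) (nat_lit 5) (nat_lit 16) (nat_lit 4) (nat_lit 428) (nat_lit 291) (nat_lit 181))))) (XT.nd (nat_lit 234) (nat_lit 76) (nat_lit 0) (XT.nd (nat_lit 78) (nat_lit 0) (nat_lit 0) (XT.lf (nat_lit 0) (nat_lit 2293129539) (nat_lit 76) (nat_lit 12854734073) (nat_lit 152) (nat_lit 37853661581) (nat_lit 14) (nat_lit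 5) (nat_lit 15) (nat_lit 5) (nat_lit 16) (nat_lit 4) (nat_lit 429) (nat_lit 291) (nat_lit 180)) (XT.nd (nat_lit 78) (nat_lit 0) (nat_lit 0) (XT.lf (nat_lit 0) (nat_lit 15340107949) (nat_lit 76) (nat_lit 6250785857) (nat_lit 152) (nat_lit 32794270354) (nat_lit 14) (nat_lit 5) (nat_lit 15) (nat_lit 5) (nat_lit 16) (nat_lit 4) (nat_lit 430) (nat_lit 291) (nat_lit 179)) (XT.lf (nat_lit 0) (nat_lit 28218618140) (nat_lit 152) (nat_lit 27063468245) (nat_lit 0) (nat_lit 528485649) (nat_lit 14) (nat_lit 5) (nat_lit 16) (nat_lit 4) (nat_lit 14) (nat_lit 4) (nat_lit 431) (nat_lit 291) (nat_lit 178)))) (XT.nd (nat_lit 156) (nat_lit 76) (nat_lit 0) (XT.nd (nat_lit 78) (nat_lit 0) (nat_lit 0) (XT.lf (nat_lit 0) (nat_lit 35093571894) (nat_lit 152) (nat_lit 14809906473) (nat_lit 0) (nat_lit 7373813625) (nat_lit 14) (nat_lit 5) (nat_lit 16) (nat_lit 4) (nat_lit 14) (nat_lit 4) (nat_lit 432) (nat_lit 291) (nat_lit 177))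 (XT.lf (nat_lit 0) (nat_lit 42161675932) (nat_lit 152) (nat_lit 2213577523) (nat_lit 0) (nat_lit 14413154773) (nat_lit 14) (nat_lit 5) (nat_lit 16) (nat_lit 4) (nat_lit 14) (nat_lit 4) (nat_lit 433) (nat_lit 291) (nat_lit 176))) (XT.nd (nat_lit 78) (nat_lit 0) (nat_lit 0) (XT.lf (nat_lit 0) (nat_lit 10950203008) (nat_lit 76) (nat_lit 38584163308) (nat_lit 76) (nat_lit 10807717014) (nat_lit 13) (nat_lit 4) (nat_lit 14) (nat_lit 5) (nat_lit 14) (nat_lit 4) (nat_lit 434) (nat_lit 291) (nat_lit 175)) (XT.lf (nat_lit 0) (nat_lit 24530393370) (nat_lit 76) (nat_lit 32607620859) (nat_lit 76) (nat_lit 4804062782) (nat_lit 13) (nat_lit 4) (nat_lit 14) (nat_lit 5) (nat_lit 14) (nat_lit 4) (nat_lit 435) (nat_lit 291) (nat_lit 174))))))) (XT.nd (nat_lit 37596) (nat_lit 0) (nat_lit 13984) (XT.nd (nat_lit 468) (nat_lit 76) (nat_lit 0) (XT.nd (nat_lit 234) (nat_lit 0) (nat_lit 0) (XT.nd (nat_lit 78) (nat_lit 76) (nat_lit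 0) (XT.lf (nat_lit 0) (nat_lit 1340446014) (nat_lit 152) (nat_lit 25108774787) (nat_lit 76) (nat_lit 37140823323) (nat_lit 12) (nat_lit 5) (nat_lit 14) (nat_lit 5) (nat_lit 13) (nat_lit 4) (nat_lit 436) (nat_lit 291) (nat_lit 173)) (XT.nd (nat_lit 78) (nat_lit 76) (nat_lit 0) (XT.lf (nat_lit 0) (nat_lit 7560760231) (nat_lit 152) (nat_lit 12507092381) (nat_lit 76) (nat_lit 45218531367) (nat_lit 12) (nat_lit 5) (nat_lit 14) (nat_lit 5) (nat_lit 13) (nat_lit 4) (nat_lit 437) (nat_lit 291) (nat_lit 172)) (XT.lf (nat_lit 0) (nat_lit 459521261) (nat_lit 76) (nat_lit 13500955603) (nat_lit 152) (nat_lit 53073354825) (nat_lit 11) (nat_lit 5) (nat_lit 12) (nat_lit 5) (nat_lit 13) (nat_lit 4) (nat_lit 438) (nat_lit 291) (nat_lit 171)))) (XT.nd (nat_lit 78) (nat_lit 0) (nat_lit 0) (XT.lf (nat_lit 0) (nat_lit 14049646825) (nat_lit 76) (nat_lit 6617339414) (nat_lit 152) (nat_lit 48163273957) (nat_lit 11) (nat_lit 5)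 (nat_lit 12) (nat_lit 5) (nat_lit 13) (nat_lit 4) (nat_lit 439) (nat_lit 291) (nat_lit 170)) (XT.nd (nat_lit 78) (nat_lit 0) (nat_lit 0) (XT.lf (nat_lit 0) (nat_lit 27567977747) (nat_lit 152) (nat_lit 42659122125) (nat_lit 0) (nat_lit 453684444) (nat_lit 11) (nat_lit 5) (nat_lit 13) (nat_lit 4) (nat_lit 11) (nat_lit 4) (nat_lit 440) (nat_lit 291) (nat_lit 169)) (XT.lf (nat_lit 0) (nat_lit 34730587263) (nat_lit 152) (nat_lit 30260350976) (nat_lit 0) (nat_lit 7594249599) (nat_lit 11) (nat_lit 5) (nat_lit 13) (nat_lit 4) (nat_lit 11) (nat_lit 4) (nat_lit 441) (nat_lit 291) (nat_lit 168))))) (XT.nd (nat_lit 234) (nat_lit 0) (nat_lit 0) (XT.nd (nat_lit 78) (nat_lit 76) (nat_lit 0) (XT.lf (nat_lit 0) (nat_lit 42097463461) (nat_lit 152) (nat_lit 17509856132) (nat_lit 0) (nat_lit 14939723505) (nat_lit 11) (nat_lit 5) (nat_lit 13) (nat_lit 4) (nat_lit 11) (nat_lit 4) (nat_lit 442) (nat_lit 291) (nat_lit 167)) (XT.nd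 (nat_lit 78) (nat_lit 76) (nat_lit 0) (XT.lf (nat_lit 0) (nat_lit 49675043418) (nat_lit 152) (nat_lit 4396496384) (nat_lit 0) (nat_lit 22496524539) (nat_lit 11) (nat_lit 5) (nat_lit 13) (nat_lit 4) (nat_lit 11) (nat_lit 4) (nat_lit 443) (nat_lit 291) (nat_lit 166)) (XT.lf (nat_lit 0) (nat_lit 9272118982) (nat_lit 76) (nat_lit 48286958618) (nat_lit 76) (nat_lit 21088266027) (nat_lit 10) (nat_lit 4) (nat_lit 11) (nat_lit 5) (nat_lit 11) (nat_lit 4) (nat_lit 444) (nat_lit 291) (nat_lit 165)))) (XT.nd (nat_lit 156) (nat_lit 0) (nat_lit 0) (XT.nd (nat_lit 78) (nat_lit 0) (nat_lit 0) (XT.lf (nat_lit 0) (nat_lit 23422026097) (nat_lit 76) (nat_lit 42292109996) (nat_lit 76) (nat_lit 15073831276) (nat_lit 10) (nat_lit 4) (nat_lit 11) (nat_lit 5) (nat_lit 11) (nat_lit 4) (nat_lit 445) (nat_lit 291) (nat_lit 164)) (XT.lf (nat_lit 0) (nat_lit 37978090060) (nat_lit 76) (nat_lit 36126151712) (nat_lit 76) (nat_lit 8888857333)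 (nat_lit 10) (nat_lit 4) (nat_lit 11) (nat_lit 5) (nat_lit 11) (nat_lit 4) (nat_lit 446) (nat_lit 291) (nat_lit 163))) (XT.nd (nat_lit 36660) (nat_lit 0) (nat_lit 22952) (XT.lf (nat_lit 0) (nat_lit 52953029761) (nat_lit 76) (nat_lit 29783696034) (nat_lit 76) (nat_lit 2527939850) (nat_lit 10) (nat_lit 4) (nat_lit 11) (nat_lit 5) (nat_lit 11) (nat_lit 4) (nat_lit 447) (nat_lit 291) (nat_lit 162)) (XT.lf (nat_lit 0) (nat_lit 1522625914) (nat_lit 684) (nat_lit 316791146) (nat_lit 0) (nat_lit 1522625914) (nat_lit 312) (nat_lit 5) (nat_lit 321) (nat_lit 4) (nat_lit 312) (nat_lit 4) (nat_lit 316) (nat_lit 292) (nat_lit 292)))))) (XT.nd (nat_lit 546) (nat_lit 4560) (nat_lit 0) (XT.nd (nat_lit 234) (nat_lit 2888) (nat_lit 0) (XT.nd (nat_lit 78) (nat_lit 836) (nat_lit 0) (XT.lf (nat_lit 0) (nat_lit 3669465203) (nat_lit 684) (nat_lit 2591063159) (nat_lit 684) (nat_lit 500659755) (nat_lit 303) (nat_lit 4) (nat_lit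 312) (nat_lit 5) (nat_lit 312) (nat_lit 4) (nat_lit 317) (nat_lit 292) (nat_lit 291)) (XT.nd (nat_lit 78) (nat_lit 0) (nat_lit 0) (XT.lf (nat_lit 0) (nat_lit 1226663817) (nat_lit 760) (nat_lit 1407121941) (nat_lit 836) (nat_lit 4167485287) (nat_lit 292) (nat_lit 5) (nat_lit 302) (nat_lit 5) (nat_lit 303) (nat_lit 4) (nat_lit 318) (nat_lit 292) (nat_lit 290)) (XT.lf (nat_lit 0) (nat_lit 5647830693) (nat_lit 760) (nat_lit 134512983) (nat_lit 836) (nat_lit 1062274733) (nat_lit 292) (nat_lit 5) (nat_lit 302) (nat_lit 5) (nat_lit 303) (nat_lit 4) (nat_lit 319) (nat_lit 292) (nat_lit 289)))) (XT.nd (nat_lit 156) (nat_lit 1064) (nat_lit 0) (XT.nd (nat_lit 78) (nat_lit 912) (nat_lit 0) (XT.lf (nat_lit 0) (nat_lit 2038644718) (nat_lit 912) (nat_lit 3631786378) (nat_lit 76) (nat_lit 1220000350) (nat_lit 280) (nat_lit 5) (nat_lit 292) (nat_lit 5) (nat_lit 281) (nat_lit 4) (nat_lit 320) (nat_lit 292) (nat_lit 288))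 (XT.lf (nat_lit 0) (nat_lit 852676215) (nat_lit 912) (nat_lit 4283339406) (nat_lit 988) (nat_lit 1803649651) (nat_lit 268) (nat_lit 5) (nat_lit 280) (nat_lit 5) (nat_lit 281) (nat_lit 4) (nat_lit 321) (nat_lit 292) (nat_lit 287))) (XT.nd (nat_lit 78) (nat_lit 988) (nat_lit 0) (XT.lf (nat_lit 0) (nat_lit 1250896648) (nat_lit 988) (nat_lit 1544527798) (nat_lit 76) (nat_lit 4196434519) (nat_lit 267) (nat_lit 5) (nat_lit 280) (nat_lit 5) (nat_lit 268) (nat_lit 5) (nat_lit 322) (nat_lit 292) (nat_lit 286)) (XT.lf (nat_lit 0) (nat_lit 3091067483) (nat_lit 988) (nat_lit 1206266637) (nat_lit 1064) (nat_lit 2749749661) (nat_lit 254) (nat_lit 5) (nat_lit 267) (nat_lit 5) (nat_lit 268) (nat_lit 5) (nat_lit 323) (nat_lit 292) (nat_lit 285))))) (XT.nd (nat_lit 234) (nat_lit 2280) (nat_lit 0) (XT.nd (nat_lit 78) (nat_lit 1140) (nat_lit 0) (XT.lf (nat_lit 0) (nat_lit 259534379) (nat_lit 1140) (nat_lit 6392622223) (nat_lit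 76) (nat_lit 453760005) (nat_lit 239) (nat_lit 5) (nat_lit 254) (nat_lit 5) (nat_lit 240) (nat_lit 5) (nat_lit 324) (nat_lit 292) (nat_lit 284)) (XT.nd (nat_lit 78) (nat_lit 1140) (nat_lit 0) (XT.lf (nat_lit 0) (nat_lit 3265721457) (nat_lit 1140) (nat_lit 1689784984) (nat_lit 76) (nat_lit 2211422537) (nat_lit 239) (nat_lit 5) (nat_lit 254) (nat_lit 5) (nat_lit 240) (nat_lit 5) (nat_lit 325) (nat_lit 292) (nat_lit 283)) (XT.lf (nat_lit 0) (nat_lit 3129096490) (nat_lit 1140) (nat_lit 3175314306) (nat_lit 1216) (nat_lit 927176932) (nat_lit 224) (nat_lit 5) (nat_lit 239) (nat_lit 5) (nat_lit 240) (nat_lit 5) (nat_lit 326) (nat_lit 292) (nat_lit 282)))) (XT.nd (nat_lit 156) (nat_lit 1216) (nat_lit 0) (XT.nd (nat_lit 78) (nat_lit 0) (nat_lit 0) (XT.lf (nat_lit 0) (nat_lit 736102881) (nat_lit 988) (nat_lit 1295638880) (nat_lit 1064) (nat_lit 5267788589) (nat_lit 210) (nat_lit 5) (nat_lit 223) (nat_lit 5) (nat_lit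 224) (nat_lit 5) (nat_lit 327) (nat_lit 292) (nat_lit 281)) (XT.lf (nat_lit 0) (nat_lit 5023522310) (nat_lit 1064) (nat_lit 1668903875) (nat_lit 76) (nat_lit 678006027) (nat_lit 210) (nat_lit 5) (nat_lit 224) (nat_lit 5) (nat_lit 211) (nat_lit 5) (nat_lit 328) (nat_lit 292) (nat_lit 280))) (XT.nd (nat_lit 78) (nat_lit 532) (nat_lit 0) (XT.lf (nat_lit 0) (nat_lit 610375286) (nat_lit 684) (nat_lit 4112136507) (nat_lit 76) (nat_lit 2721981600) (nat_lit 201) (nat_lit 5) (nat_lit 210) (nat_lit 5) (nat_lit 202) (nat_lit 5) (nat_lit 329) (nat_lit 292) (nat_lit 279)) (XT.lf (nat_lit 0) (nat_lit 904733891) (nat_lit 532) (nat_lit 2648124431) (nat_lit 608) (nat_lit 3968983097) (nat_lit 194) (nat_lit 5) (nat_lit 201) (nat_lit 5) (nat_lit 202) (nat_lit 5) (nat_lit 330) (nat_lit 292) (nat_lit 278))))))))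
noncomputable def xc84 : XT := (XT.nd (nat_lit 2028) (nat_lit 3572) (nat_lit 0) (XT.nd (nat_lit 1014) (nat_lit 3344) (nat_lit 0) (XT.nd (nat_lit 468) (nat_lit 1976) (nat_lit 0) (XT.nd (nat_lit 234) (nat_lit 1064) (nat_lit 0) (XT.nd (nat_lit 78) (nat_lit 1216) (nat_lit 0) (XT.lf (nat_lit 0) (nat_lit 6070146544) (nat_lit 532) (nat_lit 474488426) (nat_lit 608) (nat_lit 1058113870) (nat_lit 194) (nat_lit 5) (nat_lit 201) (nat_lit 5) (nat_lit 202) (nat_lit 5) (nat_lit 331) (nat_lit 292) (nat_lit 277)) (XT.nd (nat_lit 78) (nat_lit 532) (nat_lit 0) (XT.lf (nat_lit 0) (nat_lit 1875953761) (nat_lit 684) (nat_lit 4032273541) (nat_lit 76) (nat_lit 1778150327) (nat_lit 185) (nat_lit 5) (nat_lit 194) (nat_lit 5) (nat_lit 186) (nat_lit 5) (nat_lit 332) (nat_lit 292) (nat_lit 276)) (XT.lf (nat_lit 0) (nat_lit 1176540227) (nat_lit 532) (nat_lit 3654293213) (nat_lit 608) (nat_lit 2942809463) (nat_lit 178) (nat_lit 5) (nat_lit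 185) (nat_lit 5) (nat_lit 186) (nat_lit 5) (nat_lit 333) (nat_lit 292) (nat_lit 275)))) (XT.nd (nat_lit 78) (nat_lit 1064) (nat_lit 0) (XT.lf (nat_lit 0) (nat_lit 6538259399) (nat_lit 532) (nat_lit 1300670957) (nat_lit 608) (nat_lit 25720427) (nat_lit 178) (nat_lit 5) (nat_lit 185) (nat_lit 5) (nat_lit 186) (nat_lit 5) (nat_lit 334) (nat_lit 292) (nat_lit 274)) (XT.nd (nat_lit 78) (nat_lit 456) (nat_lit 0) (XT.lf (nat_lit 0) (nat_lit 2896509540) (nat_lit 608) (nat_lit 3901894470) (nat_lit 76) (nat_lit 1159911360) (nat_lit 170) (nat_lit 5) (nat_lit 178) (nat_lit 5) (nat_lit 171) (nat_lit 5) (nat_lit 335) (nat_lit 292) (nat_lit 273)) (XT.lf (nat_lit 0) (nat_lit 1503211686) (nat_lit 456) (nat_lit 4370074175) (nat_lit 532) (nat_lit 2182531032) (nat_lit 164) (nat_lit 5) (nat_lit 170) (nat_lit 5) (nat_lit 171) (nat_lit 5) (nat_lit 336) (nat_lit 292) (nat_lit 272))))) (XT.nd (nat_lit 234) (nat_lit 988) (nat_lit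 0) (XT.nd (nat_lit 78) (nat_lit 912) (nat_lit 0) (XT.lf (nat_lit 0) (nat_lit 734723521) (nat_lit 532) (nat_lit 1099556218) (nat_lit 76) (nat_lit 6322784679) (nat_lit 163) (nat_lit 5) (nat_lit 170) (nat_lit 5) (nat_lit 164) (nat_lit 5) (nat_lit 337) (nat_lit 292) (nat_lit 271)) (XT.nd (nat_lit 78) (nat_lit 456) (nat_lit 0) (XT.lf (nat_lit 0) (nat_lit 3676073828) (nat_lit 532) (nat_lit 3770799817) (nat_lit 76) (nat_lit 814465838) (nat_lit 157) (nat_lit 5) (nat_lit 164) (nat_lit 5) (nat_lit 158) (nat_lit 5) (nat_lit 338) (nat_lit 292) (nat_lit 270)) (XT.lf (nat_lit 0) (nat_lit 1834322023) (nat_lit 456) (nat_lit 4848686199) (nat_lit 532) (nat_lit 1686464494) (nat_lit 151) (nat_lit 5) (nat_lit 157) (nat_lit 5) (nat_lit 158) (nat_lit 5) (nat_lit 339) (nat_lit 292) (nat_lit 269)))) (XT.nd (nat_lit 156) (nat_lit 456) (nat_lit 0) (XT.nd (nat_lit 78) (nat_lit 456) (nat_lit 0) (XT.lf (nat_lit 0) (nat_lit 1243225892)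 (nat_lit 532) (nat_lit 893932893) (nat_lit 76) (nat_lit 6344285438) (nat_lit 150) (nat_lit 5) (nat_lit 157) (nat_lit 5) (nat_lit 151) (nat_lit 5) (nat_lit 340) (nat_lit 292) (nat_lit 268)) (XT.lf (nat_lit 0) (nat_lit 4213743128) (nat_lit 532) (nat_lit 3691763104) (nat_lit 76) (nat_lit 691208705) (nat_lit 144) (nat_lit 5) (nat_lit 151) (nat_lit 5) (nat_lit 145) (nat_lit 5) (nat_lit 341) (nat_lit 292) (nat_lit 267))) (XT.nd (nat_lit 78) (nat_lit 76) (nat_lit 0) (XT.lf (nat_lit 0) (nat_lit 2116217949) (nat_lit 380) (nat_lit 5141612420) (nat_lit 456) (nat_lit 1458124393) (nat_lit 139) (nat_lit 5) (nat_lit 144) (nat_lit 5) (nat_lit 145) (nat_lit 5) (nat_lit 342) (nat_lit 292) (nat_lit 266)) (XT.lf (nat_lit 0) (nat_lit 1496053253) (nat_lit 456) (nat_lit 764150680) (nat_lit 76) (nat_lit 6579004095) (nat_lit 138) (nat_lit 5) (nat_lit 144) (nat_lit 5) (nat_lit 139) (nat_lit 5) (nat_lit 343) (nat_lit 292) (nat_lit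 265)))))) (XT.nd (nat_lit 468) (nat_lit 1748) (nat_lit 0) (XT.nd (nat_lit 234) (nat_lit 760) (nat_lit 0) (XT.nd (nat_lit 78) (nat_lit 456) (nat_lit 0) (XT.lf (nat_lit 0) (nat_lit 4503478556) (nat_lit 456) (nat_lit 3721699886) (nat_lit 76) (nat_lit 740770306) (nat_lit 133) (nat_lit 5) (nat_lit 139) (nat_lit 5) (nat_lit 134) (nat_lit 5) (nat_lit 344) (nat_lit 292) (nat_lit 264)) (XT.nd (nat_lit 78) (nat_lit 76) (nat_lit 0) (XT.lf (nat_lit 0) (nat_lit 2290809751) (nat_lit 380) (nat_lit 5299577812) (nat_lit 456) (nat_lit 1506465949) (nat_lit 128) (nat_lit 5) (nat_lit 133) (nat_lit 5) (nat_lit 134) (nat_lit 5) (nat_lit 345) (nat_lit 292) (nat_lit 263)) (XT.lf (nat_lit 0) (nat_lit 1483610692) (nat_lit 456) (nat_lit 769933704) (nat_lit 76) (nat_lit 6978472552) (nat_lit 127) (nat_lit 5) (nat_lit 133) (nat_lit 5) (nat_lit 128) (nat_lit 5) (nat_lit 346) (nat_lit 292) (nat_lit 262)))) (XT.nd (nat_lit 78) (nat_lit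 380) (nat_lit 0) (XT.lf (nat_lit 0) (nat_lit 4533805383) (nat_lit 456) (nat_lit 3922952600) (nat_lit 76) (nat_lit 914045297) (nat_lit 122) (nat_lit 5) (nat_lit 128) (nat_lit 5) (nat_lit 123) (nat_lit 5) (nat_lit 347) (nat_lit 292) (nat_lit 261)) (XT.nd (nat_lit 78) (nat_lit 76) (nat_lit 0) (XT.lf (nat_lit 0) (nat_lit 2294238572) (nat_lit 304) (nat_lit 5373547864) (nat_lit 380) (nat_lit 1846233577) (nat_lit 118) (nat_lit 5) (nat_lit 122) (nat_lit 5) (nat_lit 123) (nat_lit 5) (nat_lit 348) (nat_lit 292) (nat_lit 260)) (XT.lf (nat_lit 0) (nat_lit 1190580383) (nat_lit 380) (nat_lit 977221521) (nat_lit 76) (nat_lit 7493996274) (nat_lit 117) (nat_lit 5) (nat_lit 122) (nat_lit 5) (nat_lit 118) (nat_lit 5) (nat_lit 349) (nat_lit 292) (nat_lit 259))))) (XT.nd (nat_lit 234) (nat_lit 988) (nat_lit 0) (XT.nd (nat_lit 78) (nat_lit 380) (nat_lit 0) (XT.lf (nat_lit 0) (nat_lit 4287404335) (nat_lit 456) (nat_lit 4364717997)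 (nat_lit 76) (nat_lit 1161190817) (nat_lit 112) (nat_lit 5) (nat_lit 118) (nat_lit 5) (nat_lit 113) (nat_lit 5) (nat_lit 350) (nat_lit 292) (nat_lit 258)) (XT.nd (nat_lit 78) (nat_lit 76) (nat_lit 0) (XT.lf (nat_lit 0) (nat_lit 2055392457) (nat_lit 304) (nat_lit 5415767085) (nat_lit 380) (nat_lit 2498424532) (nat_lit 108) (nat_lit 5) (nat_lit 112) (nat_lit 5) (nat_lit 113) (nat_lit 5) (nat_lit 351) (nat_lit 292) (nat_lit 257)) (XT.lf (nat_lit 0) (nat_lit 595443469) (nat_lit 380) (nat_lit 1459696783) (nat_lit 76) (nat_lit 8075623952) (nat_lit 107) (nat_lit 5) (nat_lit 112) (nat_lit 5) (nat_lit 108) (nat_lit 5) (nat_lit 352) (nat_lit 292) (nat_lit 256)))) (XT.nd (nat_lit 156) (nat_lit 380) (nat_lit 0) (XT.nd (nat_lit 78) (nat_lit 304) (nat_lit 0) (XT.lf (nat_lit 0) (nat_lit 3740583987) (nat_lit 380) (nat_lit 5124647311) (nat_lit 76) (nat_lit 1430574808) (nat_lit 103) (nat_lit 5) (nat_lit 108) (nat_lit 5)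 (nat_lit 104) (nat_lit 5) (nat_lit 353) (nat_lit 292) (nat_lit 255)) (XT.lf (nat_lit 0) (nat_lit 1494239670) (nat_lit 304) (nat_lit 5480857357) (nat_lit 380) (nat_lit 3490879498) (nat_lit 99) (nat_lit 5) (nat_lit 103) (nat_lit 5) (nat_lit 104) (nat_lit 5) (nat_lit 354) (nat_lit 292) (nat_lit 254))) (XT.nd (nat_lit 78) (nat_lit 380) (nat_lit 0) (XT.lf (nat_lit 0) (nat_lit 8337597340) (nat_lit 304) (nat_lit 1967046712) (nat_lit 380) (nat_lit 336695045) (nat_lit 99) (nat_lit 5) (nat_lit 103) (nat_lit 5) (nat_lit 104) (nat_lit 5) (nat_lit 355) (nat_lit 292) (nat_lit 253)) (XT.lf (nat_lit 0) (nat_lit 2862621153) (nat_lit 380) (nat_lit 6290653286) (nat_lit 76) (nat_lit 1667653804) (nat_lit 94) (nat_lit 5) (nat_lit 99) (nat_lit 5) (nat_lit 95) (nat_lit 5) (nat_lit 356) (nat_lit 292) (nat_lit 252))))))) (XT.nd (nat_lit 1014) (nat_lit 1444) (nat_lit 0) (XT.nd (nat_lit 468) (nat_lit 1064) (nat_lit 0) (XT.nd (nat_lit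 234) (nat_lit 456) (nat_lit 0) (XT.nd (nat_lit 78) (nat_lit 380) (nat_lit 0) (XT.lf (nat_lit 0) (nat_lit 519943613) (nat_lit 228) (nat_lit 5626997873) (nat_lit 304) (nat_lit 4859014520) (nat_lit 91) (nat_lit 5) (nat_lit 94) (nat_lit 5) (nat_lit 95) (nat_lit 5) (nat_lit 357) (nat_lit 292) (nat_lit 251)) (XT.nd (nat_lit 78) (nat_lit 380) (nat_lit 0) (XT.lf (nat_lit 0) (nat_lit 7586088015) (nat_lit 228) (nat_lit 1955823792) (nat_lit 304) (nat_lit 1654283173) (nat_lit 91) (nat_lit 5) (nat_lit 94) (nat_lit 5) (nat_lit 95) (nat_lit 5) (nat_lit 358) (nat_lit 292) (nat_lit 250)) (XT.lf (nat_lit 0) (nat_lit 1614953409) (nat_lit 380) (nat_lit 7962962951) (nat_lit 76) (nat_lit 1813757706) (nat_lit 86) (nat_lit 5) (nat_lit 91) (nat_lit 5) (nat_lit 87) (nat_lit 5) (nat_lit 359) (nat_lit 292) (nat_lit 249)))) (XT.nd (nat_lit 78) (nat_lit 456) (nat_lit 0) (XT.lf (nat_lit 0) (nat_lit 4955265673) (nat_lit 380) (nat_lit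 952328166) (nat_lit 76) (nat_lit 5684766825) (nat_lit 86) (nat_lit 5) (nat_lit 91) (nat_lit 5) (nat_lit 87) (nat_lit 5) (nat_lit 360) (nat_lit 292) (nat_lit 248)) (XT.nd (nat_lit 78) (nat_lit 228) (nat_lit 0) (XT.lf (nat_lit 0) (nat_lit 6317141367) (nat_lit 228) (nat_lit 2090892013) (nat_lit 304) (nat_lit 3390688413) (nat_lit 83) (nat_lit 5) (nat_lit 86) (nat_lit 5) (nat_lit 87) (nat_lit 5) (nat_lit 361) (nat_lit 292) (nat_lit 247)) (XT.lf (nat_lit 0) (nat_lit 1754458584) (nat_lit 228) (nat_lit 10206162540) (nat_lit 304) (nat_lit 50786213) (nat_lit 80) (nat_lit 5) (nat_lit 83) (nat_lit 5) (nat_lit 84) (nat_lit 5) (nat_lit 362) (nat_lit 292) (nat_lit 246))))) (XT.nd (nat_lit 234) (nat_lit 760) (nat_lit 0) (XT.nd (nat_lit 78) (nat_lit 228) (nat_lit 0) (XT.lf (nat_lit 0) (nat_lit 3351942980) (nat_lit 304) (nat_lit 3038154547) (nat_lit 76) (nat_lit 5838554992) (nat_lit 79) (nat_lit 5) (nat_lit 83) (nat_lit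 5) (nat_lit 80) (nat_lit 5) (nat_lit 363) (nat_lit 292) (nat_lit 245)) (XT.nd (nat_lit 78) (nat_lit 0) (nat_lit 0) (XT.lf (nat_lit 0) (nat_lit 4409486013) (nat_lit 228) (nat_lit 2442191697) (nat_lit 304) (nat_lit 5600862865) (nat_lit 76) (nat_lit 5) (nat_lit 79) (nat_lit 5) (nat_lit 80) (nat_lit 5) (nat_lit 364) (nat_lit 292) (nat_lit 244)) (XT.lf (nat_lit 0) (nat_lit 10456955909) (nat_lit 304) (nat_lit 628982177) (nat_lit 76) (nat_lit 1597209028) (nat_lit 76) (nat_lit 5) (nat_lit 80) (nat_lit 5) (nat_lit 77) (nat_lit 5) (nat_lit 365) (nat_lit 292) (nat_lit 243)))) (XT.nd (nat_lit 156) (nat_lit 228) (nat_lit 0) (XT.nd (nat_lit 78) (nat_lit 228) (nat_lit 0) (XT.lf (nat_lit 0) (nat_lit 1273024173) (nat_lit 304) (nat_lit 5882392723) (nat_lit 76) (nat_lit 5763481189) (nat_lit 72) (nat_lit 5) (nat_lit 76) (nat_lit 5) (nat_lit 73) (nat_lit 5) (nat_lit 366) (nat_lit 292) (nat_lit 242)) (XT.lf (nat_lit 0) (nat_lit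 1723107504) (nat_lit 228) (nat_lit 3087806958) (nat_lit 304) (nat_lit 8350809421) (nat_lit 69) (nat_lit 5) (nat_lit 72) (nat_lit 5) (nat_lit 73) (nat_lit 5) (nat_lit 367) (nat_lit 292) (nat_lit 241))) (XT.nd (nat_lit 78) (nat_lit 228) (nat_lit 0) (XT.lf (nat_lit 0) (nat_lit 8481340238) (nat_lit 304) (nat_lit 3815978292) (nat_lit 76) (nat_lit 1113740296) (nat_lit 69) (nat_lit 5) (nat_lit 73) (nat_lit 5) (nat_lit 70) (nat_lit 5) (nat_lit 368) (nat_lit 292) (nat_lit 240)) (XT.lf (nat_lit 0) (nat_lit 4013073905) (nat_lit 228) (nat_lit 8275058730) (nat_lit 304) (nat_lit 1378969426) (nat_lit 66) (nat_lit 5) (nat_lit 69) (nat_lit 5) (nat_lit 70) (nat_lit 5) (nat_lit 369) (nat_lit 292) (nat_lit 239)))))) (XT.nd (nat_lit 546) (nat_lit 608) (nat_lit 0) (XT.nd (nat_lit 234) (nat_lit 608) (nat_lit 0) (XT.nd (nat_lit 78) (nat_lit 152) (nat_lit 0) (XT.lf (nat_lit 0) (nat_lit 2230014159) (nat_lit 304) (nat_lit 1866912638)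 (nat_lit 76) (nat_lit 9833372638) (nat_lit 65) (nat_lit 5) (nat_lit 69) (nat_lit 5) (nat_lit 66) (nat_lit 5) (nat_lit 370) (nat_lit 292) (nat_lit 238)) (XT.nd (nat_lit 78) (nat_lit 0) (nat_lit 0) (XT.lf (nat_lit 0) (nat_lit 5940034433) (nat_lit 228) (nat_lit 8010039844) (nat_lit 76) (nat_lit 250308878) (nat_lit 63) (nat_lit 5) (nat_lit 66) (nat_lit 5) (nat_lit 64) (nat_lit 5) (nat_lit 371) (nat_lit 292) (nat_lit 237)) (XT.lf (nat_lit 0) (nat_lit 9779762368) (nat_lit 228) (nat_lit 59624025) (nat_lit 76) (nat_lit 4638644872) (nat_lit 63) (nat_lit 5) (nat_lit 66) (nat_lit 5) (nat_lit 64) (nat_lit 5) (nat_lit 372) (nat_lit 292) (nat_lit 236)))) (XT.nd (nat_lit 156) (nat_lit 152) (nat_lit 0) (XT.nd (nat_lit 78) (nat_lit 228) (nat_lit 0) (XT.lf (nat_lit 0) (nat_lit 8223307771) (nat_lit 228) (nat_lit 5550426310) (nat_lit 304) (nat_lit 989116860) (nat_lit 60) (nat_lit 5) (nat_lit 63) (nat_lit 5) (nat_lit 64) (nat_lit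 5) (nat_lit 373) (nat_lit 292) (nat_lit 235)) (XT.lf (nat_lit 0) (nat_lit 1637873603) (nat_lit 152) (nat_lit 1114672402) (nat_lit 228) (nat_lit 12303571048) (nat_lit 57) (nat_lit 5) (nat_lit 59) (nat_lit 5) (nat_lit 60) (nat_lit 5) (nat_lit 374) (nat_lit 292) (nat_lit 234))) (XT.nd (nat_lit 78) (nat_lit 152) (nat_lit 0) (XT.lf (nat_lit 0) (nat_lit 6646876503) (nat_lit 228) (nat_lit 5272084704) (nat_lit 76) (nat_lit 3437129725) (nat_lit 57) (nat_lit 5) (nat_lit 60) (nat_lit 5) (nat_lit 58) (nat_lit 5) (nat_lit 375) (nat_lit 292) (nat_lit 233)) (XT.lf (nat_lit 0) (nat_lit 3103020889) (nat_lit 152) (nat_lit 7557437976) (nat_lit 228) (nat_lit 5004544657) (nat_lit 55) (nat_lit 5) (nat_lit 57) (nat_lit 5) (nat_lit 58) (nat_lit 5) (nat_lit 376) (nat_lit 292) (nat_lit 232))))) (XT.nd (nat_lit 234) (nat_lit 380) (nat_lit 0) (XT.nd (nat_lit 78) (nat_lit 228) (nat_lit 0) (XT.lf (nat_lit 0) (nat_lit 11773136340) (nat_lit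 152) (nat_lit 3036608976) (nat_lit 228) (nat_lit 1172991077) (nat_lit 55) (nat_lit 5) (nat_lit 57) (nat_lit 5) (nat_lit 58) (nat_lit 5) (nat_lit 377) (nat_lit 292) (nat_lit 231)) (XT.nd (nat_lit 78) (nat_lit 0) (nat_lit 0) (XT.lf (nat_lit 0) (nat_lit 2740370039) (nat_lit 228) (nat_lit 11935918968) (nat_lit 76) (nat_lit 1632294082) (nat_lit 52) (nat_lit 5) (nat_lit 55) (nat_lit 5) (nat_lit 53) (nat_lit 5) (nat_lit 378) (nat_lit 292) (nat_lit 230)) (XT.lf (nat_lit 0) (nat_lit 6783572981) (nat_lit 228) (nat_lit 3449780127) (nat_lit 76) (nat_lit 6409433956) (nat_lit 52) (nat_lit 5) (nat_lit 55) (nat_lit 5) (nat_lit 53) (nat_lit 5) (nat_lit 379) (nat_lit 292) (nat_lit 229)))) (XT.nd (nat_lit 156) (nat_lit 228) (nat_lit 0) (XT.nd (nat_lit 78) (nat_lit 0) (nat_lit 0) (XT.lf (nat_lit 0) (nat_lit 5333425955) (nat_lit 152) (nat_lit 5630013170) (nat_lit 228) (nat_lit 6023127506) (nat_lit 50) (nat_lit 5) (nat_lit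 52) (nat_lit 5) (nat_lit 53) (nat_lit 5) (nat_lit 380) (nat_lit 292) (nat_lit 228)) (XT.lf (nat_lit 0) (nat_lit 14389857894) (nat_lit 152) (nat_lit 878237749) (nat_lit 228) (nat_lit 2072592289) (nat_lit 50) (nat_lit 5) (nat_lit 52) (nat_lit 5) (nat_lit 53) (nat_lit 5) (nat_lit 381) (nat_lit 292) (nat_lit 227))) (XT.nd (nat_lit 78) (nat_lit 0) (nat_lit 0) (XT.lf (nat_lit 0) (nat_lit 2020041499) (nat_lit 228) (nat_lit 11691760231) (nat_lit 76) (nat_lit 3991188781) (nat_lit 47) (nat_lit 5) (nat_lit 50) (nat_lit 5) (nat_lit 48) (nat_lit 5) (nat_lit 382) (nat_lit 292) (nat_lit 226)) (XT.lf (nat_lit 0) (nat_lit 6198027336) (nat_lit 228) (nat_lit 2862261437) (nat_lit 76) (nat_lit 9015140189) (nat_lit 47) (nat_lit 5) (nat_lit 50) (nat_lit 5) (nat_lit 48) (nat_lit 5) (nat_lit 383) (nat_lit 292) (nat_lit 225))))))))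
noncomputable def xc85 : XT := (XT.nd (nat_lit 2028) (nat_lit 836) (nat_lit 0) (XT.nd (nat_lit 1014) (nat_lit 760) (nat_lit 0) (XT.nd (nat_lit 468) (nat_lit 456) (nat_lit 0) (XT.nd (nat_lit 234) (nat_lit 152) (nat_lit 0) (XT.nd (nat_lit 78) (nat_lit 228) (nat_lit 0) (XT.lf (nat_lit 0) (nat_lit 6296619658) (nat_lit 152) (nat_lit 4231708631) (nat_lit 228) (nat_lit 7929912053) (nat_lit 45) (nat_lit 5) (nat_lit 47) (nat_lit 5) (nat_lit 48) (nat_lit 5) (nat_lit 384) (nat_lit 292) (nat_lit 224)) (XT.nd (nat_lit 78) (nat_lit 228) (nat_lit 0) (XT.lf (nat_lit 0) (nat_lit 14991490675) (nat_lit 228) (nat_lit 3128709992) (nat_lit 76) (nat_lit 732255605) (nat_lit 45) (nat_lit 5) (nat_lit 48) (nat_lit 5) (nat_lit 46) (nat_lit 4) (nat_lit 385) (nat_lit 292) (nat_lit 223)) (XT.lf (nat_lit 0) (nat_lit 393360214) (nat_lit 228) (nat_lit 13062928463) (nat_lit 76) (nat_lit 5800030559) (nat_lit 42) (nat_lit 5) (nat_lit 45)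 (nat_lit 5) (nat_lit 43) (nat_lit 5) (nat_lit 386) (nat_lit 292) (nat_lit 222)))) (XT.nd (nat_lit 78) (nat_lit 152) (nat_lit 0) (XT.lf (nat_lit 0) (nat_lit 4697303226) (nat_lit 228) (nat_lit 3907554033) (nat_lit 76) (nat_lit 11066314374) (nat_lit 42) (nat_lit 5) (nat_lit 45) (nat_lit 5) (nat_lit 43) (nat_lit 5) (nat_lit 387) (nat_lit 292) (nat_lit 221)) (XT.nd (nat_lit 78) (nat_lit 0) (nat_lit 0) (XT.lf (nat_lit 0) (nat_lit 5575994594) (nat_lit 152) (nat_lit 3576593458) (nat_lit 228) (nat_lit 10945222645) (nat_lit 40) (nat_lit 5) (nat_lit 42) (nat_lit 5) (nat_lit 43) (nat_lit 5) (nat_lit 388) (nat_lit 292) (nat_lit 220)) (XT.lf (nat_lit 0) (nat_lit 13765567901) (nat_lit 228) (nat_lit 5183171007) (nat_lit 76) (nat_lit 1587796506) (nat_lit 40) (nat_lit 5) (nat_lit 43) (nat_lit 5) (nat_lit 41) (nat_lit 4) (nat_lit 389) (nat_lit 292) (nat_lit 219))))) (XT.nd (nat_lit 234) (nat_lit 152) (nat_lit 0) (XT.nd (nat_lit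 78) (nat_lit 228) (nat_lit 0) (XT.lf (nat_lit 0) (nat_lit 4432876930) (nat_lit 76) (nat_lit 14131775574) (nat_lit 152) (nat_lit 2422345260) (nat_lit 39) (nat_lit 5) (nat_lit 40) (nat_lit 5) (nat_lit 41) (nat_lit 4) (nat_lit 390) (nat_lit 292) (nat_lit 218)) (XT.nd (nat_lit 78) (nat_lit 152) (nat_lit 0) (XT.lf (nat_lit 0) (nat_lit 2039218253) (nat_lit 152) (nat_lit 7079963355) (nat_lit 76) (nat_lit 12330527684) (nat_lit 38) (nat_lit 5) (nat_lit 40) (nat_lit 5) (nat_lit 39) (nat_lit 5) (nat_lit 391) (nat_lit 292) (nat_lit 217)) (XT.lf (nat_lit 0) (nat_lit 2653865415) (nat_lit 152) (nat_lit 3928226738) (nat_lit 228) (nat_lit 15343612726) (nat_lit 36) (nat_lit 5) (nat_lit 38) (nat_lit 5) (nat_lit 39) (nat_lit 5) (nat_lit 392) (nat_lit 292) (nat_lit 216)))) (XT.nd (nat_lit 156) (nat_lit 76) (nat_lit 0) (XT.nd (nat_lit 78) (nat_lit 76) (nat_lit 0) (XT.lf (nat_lit 0) (nat_lit 11317865860) (nat_lit 228) (nat_lit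 9655837185) (nat_lit 76) (nat_lit 1440585416) (nat_lit 36) (nat_lit 5) (nat_lit 39) (nat_lit 5) (nat_lit 37) (nat_lit 4) (nat_lit 393) (nat_lit 292) (nat_lit 215)) (XT.lf (nat_lit 0) (nat_lit 161940923) (nat_lit 76) (nat_lit 16045849929) (nat_lit 152) (nat_lit 6709382700) (nat_lit 35) (nat_lit 5) (nat_lit 36) (nat_lit 5) (nat_lit 37) (nat_lit 4) (nat_lit 394) (nat_lit 292) (nat_lit 214))) (XT.nd (nat_lit 78) (nat_lit 76) (nat_lit 0) (XT.lf (nat_lit 0) (nat_lit 10421716328) (nat_lit 76) (nat_lit 10892171560) (nat_lit 152) (nat_lit 2119179236) (nat_lit 35) (nat_lit 5) (nat_lit 36) (nat_lit 5) (nat_lit 37) (nat_lit 4) (nat_lit 395) (nat_lit 292) (nat_lit 213)) (XT.lf (nat_lit 0) (nat_lit 2530334996) (nat_lit 152) (nat_lit 3049783328) (nat_lit 76) (nat_lit 18384397372) (nat_lit 34) (nat_lit 5) (nat_lit 36) (nat_lit 5) (nat_lit 35) (nat_lit 5) (nat_lit 396) (nat_lit 292) (nat_lit 212)))))) (XT.nd (nat_lit 468)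 (nat_lit 304) (nat_lit 0) (XT.nd (nat_lit 234) (nat_lit 228) (nat_lit 0) (XT.nd (nat_lit 78) (nat_lit 76) (nat_lit 0) (XT.lf (nat_lit 0) (nat_lit 7283669024) (nat_lit 152) (nat_lit 36398367) (nat_lit 228) (nat_lit 17189916727) (nat_lit 32) (nat_lit 5) (nat_lit 34) (nat_lit 5) (nat_lit 35) (nat_lit 5) (nat_lit 397) (nat_lit 292) (nat_lit 211)) (XT.nd (nat_lit 78) (nat_lit 76) (nat_lit 0) (XT.lf (nat_lit 0) (nat_lit 12312557956) (nat_lit 228) (nat_lit 7184324736) (nat_lit 76) (nat_lit 5573167386) (nat_lit 32) (nat_lit 5) (nat_lit 35) (nat_lit 5) (nat_lit 33) (nat_lit 4) (nat_lit 398) (nat_lit 292) (nat_lit 210)) (XT.lf (nat_lit 0) (nat_lit 3173668232) (nat_lit 76) (nat_lit 14286222639) (nat_lit 152) (nat_lit 8186880430) (nat_lit 31) (nat_lit 5) (nat_lit 32) (nat_lit 5) (nat_lit 33) (nat_lit 4) (nat_lit 399) (nat_lit 292) (nat_lit 209)))) (XT.nd (nat_lit 78) (nat_lit 228) (nat_lit 0) (XT.lf (nat_lit 0) (nat_lit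 13943305268) (nat_lit 76) (nat_lit 8865391857) (nat_lit 152) (nat_lit 3430690593) (nat_lit 31) (nat_lit 5) (nat_lit 32) (nat_lit 5) (nat_lit 33) (nat_lit 4) (nat_lit 400) (nat_lit 292) (nat_lit 208)) (XT.nd (nat_lit 78) (nat_lit 152) (nat_lit 0) (XT.lf (nat_lit 0) (nat_lit 1414533694) (nat_lit 152) (nat_lit 1873383580) (nat_lit 76) (nat_lit 23562196871) (nat_lit 30) (nat_lit 5) (nat_lit 32) (nat_lit 5) (nat_lit 31) (nat_lit 5) (nat_lit 401) (nat_lit 292) (nat_lit 207)) (XT.lf (nat_lit 0) (nat_lit 6422618306) (nat_lit 228) (nat_lit 18542256200) (nat_lit 76) (nat_lit 2510679851) (nat_lit 28) (nat_lit 5) (nat_lit 31) (nat_lit 5) (nat_lit 29) (nat_lit 4) (nat_lit 402) (nat_lit 292) (nat_lit 206))))) (XT.nd (nat_lit 234) (nat_lit 228) (nat_lit 0) (XT.nd (nat_lit 78) (nat_lit 76) (nat_lit 0) (XT.lf (nat_lit 0) (nat_lit 11608426706) (nat_lit 228) (nat_lit 8093642641) (nat_lit 76) (nat_lit 8416868574) (nat_lit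 28) (nat_lit 5) (nat_lit 31) (nat_lit 5) (nat_lit 29) (nat_lit 4) (nat_lit 403) (nat_lit 292) (nat_lit 205)) (XT.nd (nat_lit 78) (nat_lit 0) (nat_lit 0) (XT.lf (nat_lit 0) (nat_lit 2677676231) (nat_lit 76) (nat_lit 14274399587) (nat_lit 152) (nat_lit 11829483627) (nat_lit 27) (nat_lit 5) (nat_lit 28) (nat_lit 5) (nat_lit 29) (nat_lit 4) (nat_lit 404) (nat_lit 292) (nat_lit 204)) (XT.lf (nat_lit 0) (nat_lit 13895463818) (nat_lit 76) (nat_lit 8619101857) (nat_lit 152) (nat_lit 6947742322) (nat_lit 27) (nat_lit 5) (nat_lit 28) (nat_lit 5) (nat_lit 29) (nat_lit 4) (nat_lit 405) (nat_lit 292) (nat_lit 203)))) (XT.nd (nat_lit 156) (nat_lit 0) (nat_lit 0) (XT.nd (nat_lit 78) (nat_lit 228) (nat_lit 0) (XT.lf (nat_lit 0) (nat_lit 25408442711) (nat_lit 76) (nat_lit 2812964555) (nat_lit 152) (nat_lit 1942751623) (nat_lit 27) (nat_lit 5) (nat_lit 28) (nat_lit 5) (nat_lit 29) (nat_lit 4) (nat_lit 406) (nat_lit 292)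 (nat_lit 202)) (XT.lf (nat_lit 0) (nat_lit 3220648863) (nat_lit 228) (nat_lit 24482305257) (nat_lit 76) (nat_lit 3181060397) (nat_lit 24) (nat_lit 5) (nat_lit 27) (nat_lit 5) (nat_lit 25) (nat_lit 4) (nat_lit 407) (nat_lit 292) (nat_lit 201))) (XT.nd (nat_lit 78) (nat_lit 0) (nat_lit 0) (XT.lf (nat_lit 0) (nat_lit 8554247181) (nat_lit 228) (nat_lit 13720908084) (nat_lit 76) (nat_lit 9348107035) (nat_lit 24) (nat_lit 5) (nat_lit 27) (nat_lit 5) (nat_lit 25) (nat_lit 4) (nat_lit 408) (nat_lit 292) (nat_lit 200)) (XT.lf (nat_lit 0) (nat_lit 14026487601) (nat_lit 228) (nat_lit 2676150723) (nat_lit 76) (nat_lit 15682693895) (nat_lit 24) (nat_lit 5) (nat_lit 27) (nat_lit 5) (nat_lit 25) (nat_lit 4) (nat_lit 409) (nat_lit 292) (nat_lit 199))))))) (XT.nd (nat_lit 1014) (nat_lit 304) (nat_lit 0) (XT.nd (nat_lit 468) (nat_lit 304) (nat_lit 0) (XT.nd (nat_lit 234) (nat_lit 152) (nat_lit 0) (XT.nd (nat_lit 78) (nat_lit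 0) (nat_lit 0) (XT.lf (nat_lit 0) (nat_lit 8834000758) (nat_lit 76) (nat_lit 10893068753) (nat_lit 152) (nat_lit 13441273112) (nat_lit 23) (nat_lit 5) (nat_lit 24) (nat_lit 5) (nat_lit 25) (nat_lit 4) (nat_lit 410) (nat_lit 292) (nat_lit 198)) (XT.nd (nat_lit 78) (nat_lit 0) (nat_lit 0) (XT.lf (nat_lit 0) (nat_lit 20706359280) (nat_lit 76) (nat_lit 4898829259) (nat_lit 152) (nat_lit 8369462724) (nat_lit 23) (nat_lit 5) (nat_lit 24) (nat_lit 5) (nat_lit 25) (nat_lit 4) (nat_lit 411) (nat_lit 292) (nat_lit 197)) (XT.lf (nat_lit 0) (nat_lit 31651839624) (nat_lit 152) (nat_lit 1919807175) (nat_lit 0) (nat_lit 1233740119) (nat_lit 23) (nat_lit 5) (nat_lit 25) (nat_lit 4) (nat_lit 23) (nat_lit 4) (nat_lit 412) (nat_lit 292) (nat_lit 196)))) (XT.nd (nat_lit 78) (nat_lit 0) (nat_lit 0) (XT.lf (nat_lit 0) (nat_lit 2300735344) (nat_lit 152) (nat_lit 25802719426) (nat_lit 76) (nat_lit 7553197596) (nat_lit 21) (nat_lit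 5) (nat_lit 23) (nat_lit 5) (nat_lit 22) (nat_lit 4) (nat_lit 413) (nat_lit 292) (nat_lit 195)) (XT.nd (nat_lit 78) (nat_lit 0) (nat_lit 0) (XT.lf (nat_lit 0) (nat_lit 7855385280) (nat_lit 152) (nat_lit 14580287505) (nat_lit 76) (nat_lit 14096845757) (nat_lit 21) (nat_lit 5) (nat_lit 23) (nat_lit 5) (nat_lit 22) (nat_lit 4) (nat_lit 414) (nat_lit 292) (nat_lit 194)) (XT.lf (nat_lit 0) (nat_lit 13557785163) (nat_lit 152) (nat_lit 3056364721) (nat_lit 76) (nat_lit 20821080535) (nat_lit 21) (nat_lit 5) (nat_lit 23) (nat_lit 5) (nat_lit 22) (nat_lit 4) (nat_lit 415) (nat_lit 292) (nat_lit 193))))) (XT.nd (nat_lit 234) (nat_lit 228) (nat_lit 0) (XT.nd (nat_lit 78) (nat_lit 0) (nat_lit 0) (XT.lf (nat_lit 0) (nat_lit 8953840041) (nat_lit 76) (nat_lit 10545147420) (nat_lit 152) (nat_lit 18864007220) (nat_lit 20) (nat_lit 5) (nat_lit 21) (nat_lit 5) (nat_lit 22) (nat_lit 4) (nat_lit 416) (nat_lit 292) (nat_lit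 192)) (XT.nd (nat_lit 78) (nat_lit 0) (nat_lit 0) (XT.lf (nat_lit 0) (nat_lit 21353180931) (nat_lit 76) (nat_lit 4277977853) (nat_lit 152) (nat_lit 13687053955) (nat_lit 20) (nat_lit 5) (nat_lit 21) (nat_lit 5) (nat_lit 22) (nat_lit 4) (nat_lit 417) (nat_lit 292) (nat_lit 191)) (XT.lf (nat_lit 0) (nat_lit 31950475173) (nat_lit 152) (nat_lit 6231735702) (nat_lit 0) (nat_lit 2119783837) (nat_lit 20) (nat_lit 5) (nat_lit 22) (nat_lit 4) (nat_lit 20) (nat_lit 4) (nat_lit 418) (nat_lit 292) (nat_lit 190)))) (XT.nd (nat_lit 156) (nat_lit 76) (nat_lit 0) (XT.nd (nat_lit 78) (nat_lit 76) (nat_lit 0) (XT.lf (nat_lit 0) (nat_lit 5893961343) (nat_lit 76) (nat_lit 32647190525) (nat_lit 76) (nat_lit 2771687544) (nat_lit 19) (nat_lit 4) (nat_lit 20) (nat_lit 5) (nat_lit 20) (nat_lit 4) (nat_lit 419) (nat_lit 292) (nat_lit 189)) (XT.lf (nat_lit 0) (nat_lit 2963819164) (nat_lit 152) (nat_lit 23902456529) (nat_lit 76)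 (nat_lit 15485487919) (nat_lit 18) (nat_lit 5) (nat_lit 20) (nat_lit 5) (nat_lit 19) (nat_lit 4) (nat_lit 420) (nat_lit 292) (nat_lit 188))) (XT.nd (nat_lit 78) (nat_lit 76) (nat_lit 0) (XT.lf (nat_lit 0) (nat_lit 8798975987) (nat_lit 152) (nat_lit 12099327451) (nat_lit 76) (nat_lit 22523232496) (nat_lit 18) (nat_lit 5) (nat_lit 20) (nat_lit 5) (nat_lit 19) (nat_lit 4) (nat_lit 421) (nat_lit 292) (nat_lit 187)) (XT.lf (nat_lit 0) (nat_lit 28012354) (nat_lit 76) (nat_lit 14765224130) (nat_lit 152) (nat_lit 29730645865) (nat_lit 17) (nat_lit 5) (nat_lit 18) (nat_lit 5) (nat_lit 19) (nat_lit 4) (nat_lit 422) (nat_lit 292) (nat_lit 186)))))) (XT.nd (nat_lit 546) (nat_lit 152) (nat_lit 0) (XT.nd (nat_lit 234) (nat_lit 152) (nat_lit 0) (XT.nd (nat_lit 78) (nat_lit 0) (nat_lit 0) (XT.lf (nat_lit 0) (nat_lit 12737065270) (nat_lit 76) (nat_lit 8336401501) (nat_lit 152) (nat_lit 24582650449) (nat_lit 17) (nat_lit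 5) (nat_lit 18) (nat_lit 5) (nat_lit 19) (nat_lit 4) (nat_lit 423) (nat_lit 292) (nat_lit 185)) (XT.nd (nat_lit 78) (nat_lit 0) (nat_lit 0) (XT.lf (nat_lit 0) (nat_lit 25798135953) (nat_lit 76) (nat_lit 1728397617) (nat_lit 152) (nat_lit 19296254932) (nat_lit 17) (nat_lit 5) (nat_lit 18) (nat_lit 5) (nat_lit 19) (nat_lit 4) (nat_lit 424) (nat_lit 292) (nat_lit 184)) (XT.lf (nat_lit 0) (nat_lit 34206759148) (nat_lit 152) (nat_lit 8850962294) (nat_lit 0) (nat_lit 4965733668) (nat_lit 17) (nat_lit 5) (nat_lit 19) (nat_lit 4) (nat_lit 17) (nat_lit 4) (nat_lit 425) (nat_lit 292) (nat_lit 183)))) (XT.nd (nat_lit 156) (nat_lit 76) (nat_lit 0) (XT.nd (nat_lit 78) (nat_lit 0) (nat_lit 0) (XT.lf (nat_lit 0) (nat_lit 3715434358) (nat_lit 76) (nat_lit 37409984435) (nat_lit 76) (nat_lit 8133584228) (nat_lit 16) (nat_lit 4) (nat_lit 17) (nat_lit 5) (nat_lit 17) (nat_lit 4) (nat_lit 426) (nat_lit 292) (nat_lit 182))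 (XT.lf (nat_lit 0) (nat_lit 16812639449) (nat_lit 76) (nat_lit 31513741157) (nat_lit 76) (nat_lit 2202996555) (nat_lit 16) (nat_lit 4) (nat_lit 17) (nat_lit 5) (nat_lit 17) (nat_lit 4) (nat_lit 427) (nat_lit 292) (nat_lit 181))) (XT.nd (nat_lit 78) (nat_lit 0) (nat_lit 0) (XT.lf (nat_lit 0) (nat_lit 3814946836) (nat_lit 152) (nat_lit 21599746595) (nat_lit 76) (nat_lit 26422475314) (nat_lit 15) (nat_lit 5) (nat_lit 17) (nat_lit 5) (nat_lit 16) (nat_lit 4) (nat_lit 428) (nat_lit 292) (nat_lit 180)) (XT.lf (nat_lit 0) (nat_lit 9955217113) (nat_lit 152) (nat_lit 9167370819) (nat_lit 76) (nat_lit 34061371680) (nat_lit 15) (nat_lit 5) (nat_lit 17) (nat_lit 5) (nat_lit 16) (nat_lit 4) (nat_lit 429) (nat_lit 292) (nat_lit 179))))) (XT.nd (nat_lit 234) (nat_lit 76) (nat_lit 0) (XT.nd (nat_lit 78) (nat_lit 0) (nat_lit 0) (XT.lf (nat_lit 0) (nat_lit 3684323835) (nat_lit 76) (nat_lit 12617260096) (nat_lit 152) (nat_lit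 38268915453) (nat_lit 14) (nat_lit 5) (nat_lit 15) (nat_lit 5) (nat_lit 16) (nat_lit 4) (nat_lit 430) (nat_lit 292) (nat_lit 178)) (XT.nd (nat_lit 78) (nat_lit 0) (nat_lit 0) (XT.lf (nat_lit 0) (nat_lit 17084195081) (nat_lit 76) (nat_lit 5833342444) (nat_lit 152) (nat_lit 33078723732) (nat_lit 14) (nat_lit 5) (nat_lit 15) (nat_lit 5) (nat_lit 16) (nat_lit 4) (nat_lit 431) (nat_lit 292) (nat_lit 177)) (XT.lf (nat_lit 0) (nat_lit 29729965245) (nat_lit 152) (nat_lit 26614667041) (nat_lit 0) (nat_lit 1120225562) (nat_lit 14) (nat_lit 5) (nat_lit 16) (nat_lit 4) (nat_lit 14) (nat_lit 4) (nat_lit 432) (nat_lit 292) (nat_lit 176)))) (XT.nd (nat_lit 156) (nat_lit 76) (nat_lit 0) (XT.nd (nat_lit 78) (nat_lit 0) (nat_lit 0) (XT.lf (nat_lit 0) (nat_lit 36791804838) (nat_lit 152) (nat_lit 14030217986) (nat_lit 0) (nat_lit 8154140018) (nat_lit 14) (nat_lit 5) (nat_lit 16) (nat_lit 4) (nat_lit 14) (nat_lit 4) (nat_lit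 433) (nat_lit 292) (nat_lit 175)) (XT.lf (nat_lit 0) (nat_lit 44053153188) (nat_lit 152) (nat_lit 1091649236) (nat_lit 0) (nat_lit 15388376585) (nat_lit 14) (nat_lit 5) (nat_lit 16) (nat_lit 4) (nat_lit 14) (nat_lit 4) (nat_lit 434) (nat_lit 292) (nat_lit 174))) (XT.nd (nat_lit 78) (nat_lit 0) (nat_lit 0) (XT.lf (nat_lit 0) (nat_lit 12455394362) (nat_lit 76) (nat_lit 39184689669) (nat_lit 76) (nat_lit 10493590948) (nat_lit 13) (nat_lit 4) (nat_lit 14) (nat_lit 5) (nat_lit 14) (nat_lit 4) (nat_lit 435) (nat_lit 292) (nat_lit 173)) (XT.lf (nat_lit 0) (nat_lit 26408718048) (nat_lit 76) (nat_lit 33045074205) (nat_lit 76) (nat_lit 4328420028) (nat_lit 13) (nat_lit 4) (nat_lit 14) (nat_lit 5) (nat_lit 14) (nat_lit 4) (nat_lit 436) (nat_lit 292) (nat_lit 172))))))))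
noncomputable def xc86 : XT := (XT.nd (nat_lit 38454) (nat_lit 0) (nat_lit 6764) (XT.nd (nat_lit 37440) (nat_lit 0) (nat_lit 15200) (XT.nd (nat_lit 468) (nat_lit 76) (nat_lit 0) (XT.nd (nat_lit 234) (nat_lit 0) (nat_lit 0) (XT.nd (nat_lit 78) (nat_lit 76) (nat_lit 0) (XT.lf (nat_lit 0) (nat_lit 1970631041) (nat_lit 152) (nat_lit 24741084283) (nat_lit 76) (nat_lit 38768257534) (nat_lit 12) (nat_lit 5) (nat_lit 14) (nat_lit 5) (nat_lit 13) (nat_lit 4) (nat_lit 437) (nat_lit 292) (nat_lit 171)) (XT.nd (nat_lit 78) (nat_lit 76) (nat_lit 0) (XT.lf (nat_lit 0) (nat_lit 8360371045) (nat_lit 152) (nat_lit 11794000543) (nat_lit 76) (nat_lit 47073348970) (nat_lit 12) (nat_lit 5) (nat_lit 14) (nat_lit 5) (nat_lit 13) (nat_lit 4) (nat_lit 438) (nat_lit 292) (nat_lit 170)) (XT.lf (nat_lit 0) (nat_lit 1550941855) (nat_lit 76) (nat_lit 13394813062) (nat_lit 152) (nat_lit 54082028586) (nat_lit 11) (nat_lit 5) (nat_lit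 12) (nat_lit 5) (nat_lit 13) (nat_lit 4) (nat_lit 439) (nat_lit 292) (nat_lit 169)))) (XT.nd (nat_lit 78) (nat_lit 0) (nat_lit 0) (XT.lf (nat_lit 0) (nat_lit 15517383760) (nat_lit 76) (nat_lit 6319576869) (nat_lit 152) (nat_lit 49041641221) (nat_lit 11) (nat_lit 5) (nat_lit 12) (nat_lit 5) (nat_lit 13) (nat_lit 4) (nat_lit 440) (nat_lit 292) (nat_lit 168)) (XT.nd (nat_lit 78) (nat_lit 0) (nat_lit 0) (XT.lf (nat_lit 0) (nat_lit 28933595115) (nat_lit 152) (nat_lit 42911669469) (nat_lit 0) (nat_lit 939720670) (nat_lit 11) (nat_lit 5) (nat_lit 13) (nat_lit 4) (nat_lit 11) (nat_lit 4) (nat_lit 441) (nat_lit 292) (nat_lit 167)) (XT.lf (nat_lit 0) (nat_lit 36295396177) (nat_lit 152) (nat_lit 30170854399) (nat_lit 0) (nat_lit 8280742808) (nat_lit 11) (nat_lit 5) (nat_lit 13) (nat_lit 4) (nat_lit 11) (nat_lit 4) (nat_lit 442) (nat_lit 292) (nat_lit 166))))) (XT.nd (nat_lit 234) (nat_lit 0) (nat_lit 0) (XT.nd (nat_lit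 78) (nat_lit 76) (nat_lit 0) (XT.lf (nat_lit 0) (nat_lit 43868048817) (nat_lit 152) (nat_lit 17066892490) (nat_lit 0) (nat_lit 15833221736) (nat_lit 11) (nat_lit 5) (nat_lit 13) (nat_lit 4) (nat_lit 11) (nat_lit 4) (nat_lit 443) (nat_lit 292) (nat_lit 165)) (XT.nd (nat_lit 78) (nat_lit 76) (nat_lit 0) (XT.lf (nat_lit 0) (nat_lit 51658169917) (nat_lit 152) (nat_lit 3588333677) (nat_lit 0) (nat_lit 23603756707) (nat_lit 11) (nat_lit 5) (nat_lit 13) (nat_lit 4) (nat_lit 11) (nat_lit 4) (nat_lit 444) (nat_lit 292) (nat_lit 164)) (XT.lf (nat_lit 0) (nat_lit 10481123898) (nat_lit 76) (nat_lit 49292193455) (nat_lit 76) (nat_lit 21218764586) (nat_lit 10) (nat_lit 4) (nat_lit 11) (nat_lit 5) (nat_lit 11) (nat_lit 4) (nat_lit 445) (nat_lit 292) (nat_lit 163)))) (XT.nd (nat_lit 36582) (nat_lit 0) (nat_lit 22952) (XT.nd (nat_lit 78) (nat_lit 0) (nat_lit 0) (XT.lf (nat_lit 0) (nat_lit 25028416344) (nat_lit 76) (nat_lit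 43130413178) (nat_lit 76) (nat_lit 15038522504) (nat_lit 10) (nat_lit 4) (nat_lit 11) (nat_lit 5) (nat_lit 11) (nat_lit 4) (nat_lit 446) (nat_lit 292) (nat_lit 162)) (XT.lf (nat_lit 0) (nat_lit 39994840008) (nat_lit 76) (nat_lit 36792013818) (nat_lit 76) (nat_lit 8682199062) (nat_lit 10) (nat_lit 4) (nat_lit 11) (nat_lit 5) (nat_lit 11) (nat_lit 4) (nat_lit 447) (nat_lit 292) (nat_lit 161))) (XT.nd (nat_lit 78) (nat_lit 684) (nat_lit 0) (XT.lf (nat_lit 0) (nat_lit 2202463861) (nat_lit 532) (nat_lit 563163276) (nat_lit 532) (nat_lit 563163276) (nat_lit 321) (nat_lit 4) (nat_lit 328) (nat_lit 5) (nat_lit 328) (nat_lit 4) (nat_lit 314) (nat_lit 293) (nat_lit 293)) (XT.lf (nat_lit 0) (nat_lit 1864841423) (nat_lit 608) (nat_lit 146267145) (nat_lit 684) (nat_lit 4679046704) (nat_lit 312) (nat_lit 5) (nat_lit 320) (nat_lit 5) (nat_lit 321) (nat_lit 4) (nat_lit 315) (nat_lit 293) (nat_lit 292)))))) (XT.nd (nat_lit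 468) (nat_lit 4408) (nat_lit 0) (XT.nd (nat_lit 234) (nat_lit 1824) (nat_lit 0) (XT.nd (nat_lit 78) (nat_lit 1520) (nat_lit 0) (XT.lf (nat_lit 0) (nat_lit 5146977518) (nat_lit 684) (nat_lit 675253377) (nat_lit 0) (nat_lit 903458606) (nat_lit 312) (nat_lit 5) (nat_lit 321) (nat_lit 4) (nat_lit 312) (nat_lit 4) (nat_lit 316) (nat_lit 293) (nat_lit 291)) (XT.nd (nat_lit 78) (nat_lit 760) (nat_lit 0) (XT.lf (nat_lit 0) (nat_lit 1516992058) (nat_lit 760) (nat_lit 3193542901) (nat_lit 76) (nat_lit 2053391536) (nat_lit 302) (nat_lit 5) (nat_lit 312) (nat_lit 5) (nat_lit 303) (nat_lit 4) (nat_lit 317) (nat_lit 293) (nat_lit 290)) (XT.lf (nat_lit 0) (nat_lit 1075991219) (nat_lit 760) (nat_lit 3514862819) (nat_lit 836) (nat_lit 2214592030) (nat_lit 292) (nat_lit 5) (nat_lit 302) (nat_lit 5) (nat_lit 303) (nat_lit 4) (nat_lit 318) (nat_lit 293) (nat_lit 289)))) (XT.nd (nat_lit 78) (nat_lit 1748) (nat_lit 0) (XT.lf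 (nat_lit 0) (nat_lit 824388181) (nat_lit 836) (nat_lit 1401918960) (nat_lit 76) (nat_lit 4623748349) (nat_lit 291) (nat_lit 5) (nat_lit 302) (nat_lit 5) (nat_lit 292) (nat_lit 5) (nat_lit 319) (nat_lit 293) (nat_lit 288)) (XT.nd (nat_lit 78) (nat_lit 912) (nat_lit 0) (XT.lf (nat_lit 0) (nat_lit 3010023056) (nat_lit 836) (nat_lit 832658335) (nat_lit 912) (nat_lit 3054789525) (nat_lit 280) (nat_lit 5) (nat_lit 291) (nat_lit 5) (nat_lit 292) (nat_lit 5) (nat_lit 320) (nat_lit 293) (nat_lit 287)) (XT.lf (nat_lit 0) (nat_lit 557647532) (nat_lit 912) (nat_lit 6325193046) (nat_lit 988) (nat_lit 65630810) (nat_lit 268) (nat_lit 5) (nat_lit 280) (nat_lit 5) (nat_lit 281) (nat_lit 4) (nat_lit 321) (nat_lit 293) (nat_lit 286))))) (XT.nd (nat_lit 234) (nat_lit 2204) (nat_lit 0) (XT.nd (nat_lit 78) (nat_lit 2128) (nat_lit 0) (XT.lf (nat_lit 0) (nat_lit 2909085764) (nat_lit 988) (nat_lit 1907236866) (nat_lit 76) (nat_lit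 2185266095) (nat_lit 267) (nat_lit 5) (nat_lit 280) (nat_lit 5) (nat_lit 268) (nat_lit 5) (nat_lit 322) (nat_lit 293) (nat_lit 285)) (XT.nd (nat_lit 78) (nat_lit 1140) (nat_lit 0) (XT.lf (nat_lit 0) (nat_lit 2679385831) (nat_lit 988) (nat_lit 3227602674) (nat_lit 1064) (nat_lit 1151327105) (nat_lit 254) (nat_lit 5) (nat_lit 267) (nat_lit 5) (nat_lit 268) (nat_lit 5) (nat_lit 323) (nat_lit 293) (nat_lit 284)) (XT.lf (nat_lit 0) (nat_lit 228590460) (nat_lit 1064) (nat_lit 1544878672) (nat_lit 1140) (nat_lit 5344860642) (nat_lit 239) (nat_lit 5) (nat_lit 253) (nat_lit 5) (nat_lit 254) (nat_lit 5) (nat_lit 324) (nat_lit 293) (nat_lit 283)))) (XT.nd (nat_lit 156) (nat_lit 988) (nat_lit 0) (XT.nd (nat_lit 78) (nat_lit 1216) (nat_lit 0) (XT.lf (nat_lit 0) (nat_lit 4721573310) (nat_lit 1140) (nat_lit 2214465956) (nat_lit 76) (nat_lit 245087488) (nat_lit 239) (nat_lit 5) (nat_lit 254) (nat_lit 5) (nat_lit 240)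 (nat_lit 5) (nat_lit 325) (nat_lit 293) (nat_lit 282)) (XT.lf (nat_lit 0) (nat_lit 456406215) (nat_lit 1216) (nat_lit 4699751636) (nat_lit 76) (nat_lit 2090959941) (nat_lit 223) (nat_lit 5) (nat_lit 239) (nat_lit 5) (nat_lit 224) (nat_lit 5) (nat_lit 326) (nat_lit 293) (nat_lit 281))) (XT.nd (nat_lit 78) (nat_lit 0) (nat_lit 0) (XT.lf (nat_lit 0) (nat_lit 75395745) (nat_lit 988) (nat_lit 3273896388) (nat_lit 1064) (nat_lit 3966977656) (nat_lit 210) (nat_lit 5) (nat_lit 223) (nat_lit 5) (nat_lit 224) (nat_lit 5) (nat_lit 327) (nat_lit 293) (nat_lit 280)) (XT.lf (nat_lit 0) (nat_lit 5006434610) (nat_lit 988) (nat_lit 1287216836) (nat_lit 1064) (nat_lit 1094980268) (nat_lit 210) (nat_lit 5) (nat_lit 223) (nat_lit 5) (nat_lit 224) (nat_lit 5) (nat_lit 328) (nat_lit 293) (nat_lit 279))))))) (XT.nd (nat_lit 1014) (nat_lit 3420) (nat_lit 0) (XT.nd (nat_lit 468) (nat_lit 2508) (nat_lit 0) (XT.nd (nat_lit 234)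 (nat_lit 1216) (nat_lit 0) (XT.nd (nat_lit 78) (nat_lit 608) (nat_lit 0) (XT.lf (nat_lit 0) (nat_lit 1778012585) (nat_lit 684) (nat_lit 4900539168) (nat_lit 76) (nat_lit 785611267) (nat_lit 201) (nat_lit 5) (nat_lit 210) (nat_lit 5) (nat_lit 202) (nat_lit 5) (nat_lit 329) (nat_lit 293) (nat_lit 278)) (XT.nd (nat_lit 78) (nat_lit 76) (nat_lit 0) (XT.lf (nat_lit 0) (nat_lit 58148538) (nat_lit 532) (nat_lit 4614959816) (nat_lit 608) (nat_lit 2869858561) (nat_lit 194) (nat_lit 5) (nat_lit 201) (nat_lit 5) (nat_lit 202) (nat_lit 5) (nat_lit 330) (nat_lit 293) (nat_lit 277)) (XT.lf (nat_lit 0) (nat_lit 1293833) (nat_lit 608) (nat_lit 2442768467) (nat_lit 76) (nat_lit 5180999987) (nat_lit 193) (nat_lit 5) (nat_lit 201) (nat_lit 5) (nat_lit 194) (nat_lit 5) (nat_lit 331) (nat_lit 293) (nat_lit 276)))) (XT.nd (nat_lit 78) (nat_lit 608) (nat_lit 0) (XT.lf (nat_lit 0) (nat_lit 2691757254) (nat_lit 608) (nat_lit 158317409)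 (nat_lit 684) (nat_lit 4860281794) (nat_lit 185) (nat_lit 5) (nat_lit 193) (nat_lit 5) (nat_lit 194) (nat_lit 5) (nat_lit 332) (nat_lit 293) (nat_lit 275)) (XT.nd (nat_lit 78) (nat_lit 76) (nat_lit 0) (XT.lf (nat_lit 0) (nat_lit 129764139) (nat_lit 532) (nat_lit 5626502479) (nat_lit 608) (nat_lit 2042846175) (nat_lit 178) (nat_lit 5) (nat_lit 185) (nat_lit 5) (nat_lit 186) (nat_lit 5) (nat_lit 333) (nat_lit 293) (nat_lit 274)) (XT.lf (nat_lit 0) (nat_lit 820375299) (nat_lit 608) (nat_lit 2448940935) (nat_lit 76) (nat_lit 4621685245) (nat_lit 177) (nat_lit 5) (nat_lit 185) (nat_lit 5) (nat_lit 178) (nat_lit 5) (nat_lit 334) (nat_lit 293) (nat_lit 273))))) (XT.nd (nat_lit 234) (nat_lit 1444) (nat_lit 0) (XT.nd (nat_lit 78) (nat_lit 532) (nat_lit 0) (XT.lf (nat_lit 0) (nat_lit 2881502048) (nat_lit 532) (nat_lit 802087152) (nat_lit 608) (nat_lit 4302852722) (nat_lit 170) (nat_lit 5) (nat_lit 177) (nat_lit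 5) (nat_lit 178) (nat_lit 5) (nat_lit 335) (nat_lit 293) (nat_lit 272)) (XT.nd (nat_lit 78) (nat_lit 76) (nat_lit 0) (XT.lf (nat_lit 0) (nat_lit 241954617) (nat_lit 456) (nat_lit 6363444596) (nat_lit 532) (nat_lit 1480220257) (nat_lit 164) (nat_lit 5) (nat_lit 170) (nat_lit 5) (nat_lit 171) (nat_lit 5) (nat_lit 336) (nat_lit 293) (nat_lit 271)) (XT.lf (nat_lit 0) (nat_lit 1388460224) (nat_lit 532) (nat_lit 2438991506) (nat_lit 76) (nat_lit 4360284303) (nat_lit 163) (nat_lit 5) (nat_lit 170) (nat_lit 5) (nat_lit 164) (nat_lit 5) (nat_lit 337) (nat_lit 293) (nat_lit 270)))) (XT.nd (nat_lit 156) (nat_lit 532) (nat_lit 0) (XT.nd (nat_lit 78) (nat_lit 456) (nat_lit 0) (XT.lf (nat_lit 0) (nat_lit 3091454981) (nat_lit 456) (nat_lit 1182988828) (nat_lit 532) (nat_lit 4019253031) (nat_lit 157) (nat_lit 5) (nat_lit 163) (nat_lit 5) (nat_lit 164) (nat_lit 5) (nat_lit 338) (nat_lit 293) (nat_lit 269)) (XT.lf (nat_lit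 0) (nat_lit 344201355) (nat_lit 456) (nat_lit 6878163800) (nat_lit 532) (nat_lit 1181259332) (nat_lit 151) (nat_lit 5) (nat_lit 157) (nat_lit 5) (nat_lit 158) (nat_lit 5) (nat_lit 339) (nat_lit 293) (nat_lit 268))) (XT.nd (nat_lit 78) (nat_lit 456) (nat_lit 0) (XT.lf (nat_lit 0) (nat_lit 1705488621) (nat_lit 532) (nat_lit 2464313675) (nat_lit 76) (nat_lit 4346663171) (nat_lit 150) (nat_lit 5) (nat_lit 157) (nat_lit 5) (nat_lit 151) (nat_lit 5) (nat_lit 340) (nat_lit 293) (nat_lit 267)) (XT.lf (nat_lit 0) (nat_lit 3269449675) (nat_lit 456) (nat_lit 1351870636) (nat_lit 532) (nat_lit 4012078418) (nat_lit 144) (nat_lit 5) (nat_lit 150) (nat_lit 5) (nat_lit 151) (nat_lit 5) (nat_lit 341) (nat_lit 293) (nat_lit 266)))))) (XT.nd (nat_lit 546) (nat_lit 1444) (nat_lit 0) (XT.nd (nat_lit 234) (nat_lit 1140) (nat_lit 0) (XT.nd (nat_lit 78) (nat_lit 456) (nat_lit 0) (XT.lf (nat_lit 0) (nat_lit 382650480) (nat_lit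 380) (nat_lit 7221454057) (nat_lit 456) (nat_lit 1150394452) (nat_lit 139) (nat_lit 5) (nat_lit 144) (nat_lit 5) (nat_lit 145) (nat_lit 5) (nat_lit 342) (nat_lit 293) (nat_lit 265)) (XT.nd (nat_lit 78) (nat_lit 380) (nat_lit 0) (XT.lf (nat_lit 0) (nat_lit 1766341770) (nat_lit 456) (nat_lit 2580017076) (nat_lit 76) (nat_lit 4532267879) (nat_lit 138) (nat_lit 5) (nat_lit 144) (nat_lit 5) (nat_lit 139) (nat_lit 5) (nat_lit 343) (nat_lit 293) (nat_lit 264)) (XT.lf (nat_lit 0) (nat_lit 3359326847) (nat_lit 380) (nat_lit 1358465965) (nat_lit 456) (nat_lit 4289273393) (nat_lit 133) (nat_lit 5) (nat_lit 138) (nat_lit 5) (nat_lit 139) (nat_lit 5) (nat_lit 344) (nat_lit 293) (nat_lit 263)))) (XT.nd (nat_lit 156) (nat_lit 684) (nat_lit 0) (XT.nd (nat_lit 78) (nat_lit 76) (nat_lit 0) (XT.lf (nat_lit 0) (nat_lit 298908791) (nat_lit 380) (nat_lit 7443489781) (nat_lit 456) (nat_lit 1397460456) (nat_lit 128) (nat_lit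 5) (nat_lit 133) (nat_lit 5) (nat_lit 134) (nat_lit 5) (nat_lit 345) (nat_lit 293) (nat_lit 262)) (XT.lf (nat_lit 0) (nat_lit 1560575892) (nat_lit 456) (nat_lit 2846159291) (nat_lit 76) (nat_lit 4869171116) (nat_lit 127) (nat_lit 5) (nat_lit 133) (nat_lit 5) (nat_lit 128) (nat_lit 5) (nat_lit 346) (nat_lit 293) (nat_lit 261))) (XT.nd (nat_lit 78) (nat_lit 304) (nat_lit 0) (XT.lf (nat_lit 0) (nat_lit 3299657733) (nat_lit 380) (nat_lit 1252371207) (nat_lit 456) (nat_lit 4864443294) (nat_lit 122) (nat_lit 5) (nat_lit 127) (nat_lit 5) (nat_lit 128) (nat_lit 5) (nat_lit 347) (nat_lit 293) (nat_lit 260)) (XT.lf (nat_lit 0) (nat_lit 28715337) (nat_lit 304) (nat_lit 7594812750) (nat_lit 380) (nat_lit 1938052185) (nat_lit 118) (nat_lit 5) (nat_lit 122) (nat_lit 5) (nat_lit 123) (nat_lit 5) (nat_lit 348) (nat_lit 293) (nat_lit 259))))) (XT.nd (nat_lit 234) (nat_lit 988) (nat_lit 0) (XT.nd (nat_lit 78) (nat_lit 380)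 (nat_lit 0) (XT.lf (nat_lit 0) (nat_lit 1072051452) (nat_lit 380) (nat_lit 3329109729) (nat_lit 76) (nat_lit 5309094677) (nat_lit 117) (nat_lit 5) (nat_lit 122) (nat_lit 5) (nat_lit 118) (nat_lit 5) (nat_lit 349) (nat_lit 293) (nat_lit 258)) (XT.nd (nat_lit 78) (nat_lit 0) (nat_lit 0) (XT.lf (nat_lit 0) (nat_lit 3022327270) (nat_lit 380) (nat_lit 1084056545) (nat_lit 456) (nat_lit 5757277179) (nat_lit 112) (nat_lit 5) (nat_lit 117) (nat_lit 5) (nat_lit 118) (nat_lit 5) (nat_lit 350) (nat_lit 293) (nat_lit 257)) (XT.lf (nat_lit 0) (nat_lit 7232623083) (nat_lit 456) (nat_lit 489791365) (nat_lit 76) (nat_lit 2299257917) (nat_lit 112) (nat_lit 5) (nat_lit 118) (nat_lit 5) (nat_lit 113) (nat_lit 5) (nat_lit 351) (nat_lit 293) (nat_lit 256)))) (XT.nd (nat_lit 156) (nat_lit 304) (nat_lit 0) (XT.nd (nat_lit 78) (nat_lit 304) (nat_lit 0) (XT.lf (nat_lit 0) (nat_lit 278448260) (nat_lit 380) (nat_lit 4103074261)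 (nat_lit 76) (nat_lit 5802389143) (nat_lit 107) (nat_lit 5) (nat_lit 112) (nat_lit 5) (nat_lit 108) (nat_lit 5) (nat_lit 352) (nat_lit 293) (nat_lit 255)) (XT.lf (nat_lit 0) (nat_lit 2450947107) (nat_lit 304) (nat_lit 905929056) (nat_lit 380) (nat_lit 6994092481) (nat_lit 103) (nat_lit 5) (nat_lit 107) (nat_lit 5) (nat_lit 108) (nat_lit 5) (nat_lit 353) (nat_lit 293) (nat_lit 254))) (XT.nd (nat_lit 78) (nat_lit 304) (nat_lit 0) (XT.lf (nat_lit 0) (nat_lit 6542214115) (nat_lit 380) (nat_lit 1339811667) (nat_lit 76) (nat_lit 2640601833) (nat_lit 103) (nat_lit 5) (nat_lit 108) (nat_lit 5) (nat_lit 104) (nat_lit 5) (nat_lit 354) (nat_lit 293) (nat_lit 253)) (XT.lf (nat_lit 0) (nat_lit 5439028443) (nat_lit 304) (nat_lit 4393890513) (nat_lit 380) (nat_lit 866249410) (nat_lit 99) (nat_lit 5) (nat_lit 103) (nat_lit 5) (nat_lit 104) (nat_lit 5) (nat_lit 355) (nat_lit 293) (nat_lit 252))))))))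
noncomputable def xc87 : XT := (XT.nd (nat_lit 2028) (nat_lit 1976) (nat_lit 0) (XT.nd (nat_lit 1014) (nat_lit 1444) (nat_lit 0) (XT.nd (nat_lit 468) (nat_lit 1064) (nat_lit 0) (XT.nd (nat_lit 234) (nat_lit 608) (nat_lit 0) (XT.nd (nat_lit 78) (nat_lit 228) (nat_lit 0) (XT.lf (nat_lit 0) (nat_lit 1499064561) (nat_lit 304) (nat_lit 773469032) (nat_lit 380) (nat_lit 8608514803) (nat_lit 94) (nat_lit 5) (nat_lit 98) (nat_lit 5) (nat_lit 99) (nat_lit 5) (nat_lit 356) (nat_lit 293) (nat_lit 251)) (XT.nd (nat_lit 78) (nat_lit 228) (nat_lit 0) (XT.lf (nat_lit 0) (nat_lit 5519467273) (nat_lit 380) (nat_lit 2611637743) (nat_lit 76) (nat_lit 2936104560) (nat_lit 94) (nat_lit 5) (nat_lit 99) (nat_lit 5) (nat_lit 95) (nat_lit 5) (nat_lit 357) (nat_lit 293) (nat_lit 250)) (XT.lf (nat_lit 0) (nat_lit 4365358091) (nat_lit 228) (nat_lit 4498891113) (nat_lit 304) (nat_lit 2394716469) (nat_lit 91) (nat_lit 5) (nat_lit 94)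 (nat_lit 5) (nat_lit 95) (nat_lit 5) (nat_lit 358) (nat_lit 293) (nat_lit 249)))) (XT.nd (nat_lit 78) (nat_lit 228) (nat_lit 0) (XT.lf (nat_lit 0) (nat_lit 68128996) (nat_lit 304) (nat_lit 746462375) (nat_lit 380) (nat_lit 10642309045) (nat_lit 86) (nat_lit 5) (nat_lit 90) (nat_lit 5) (nat_lit 91) (nat_lit 5) (nat_lit 359) (nat_lit 293) (nat_lit 248)) (XT.nd (nat_lit 78) (nat_lit 228) (nat_lit 0) (XT.lf (nat_lit 0) (nat_lit 4123847320) (nat_lit 380) (nat_lit 4407786048) (nat_lit 76) (nat_lit 3126895836) (nat_lit 86) (nat_lit 5) (nat_lit 91) (nat_lit 5) (nat_lit 87) (nat_lit 5) (nat_lit 360) (nat_lit 293) (nat_lit 247)) (XT.lf (nat_lit 0) (nat_lit 2756449262) (nat_lit 228) (nat_lit 4762752910) (nat_lit 304) (nat_lit 4347420739) (nat_lit 83) (nat_lit 5) (nat_lit 86) (nat_lit 5) (nat_lit 87) (nat_lit 5) (nat_lit 361) (nat_lit 293) (nat_lit 246))))) (XT.nd (nat_lit 234) (nat_lit 532) (nat_lit 0) (XT.nd (nat_lit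 78) (nat_lit 532) (nat_lit 0) (XT.lf (nat_lit 0) (nat_lit 10154101305) (nat_lit 228) (nat_lit 860440238) (nat_lit 304) (nat_lit 1066494260) (nat_lit 83) (nat_lit 5) (nat_lit 86) (nat_lit 5) (nat_lit 87) (nat_lit 5) (nat_lit 362) (nat_lit 293) (nat_lit 245)) (XT.nd (nat_lit 78) (nat_lit 228) (nat_lit 0) (XT.lf (nat_lit 0) (nat_lit 2305827456) (nat_lit 304) (nat_lit 6845959356) (nat_lit 76) (nat_lit 3148303238) (nat_lit 79) (nat_lit 5) (nat_lit 83) (nat_lit 5) (nat_lit 80) (nat_lit 5) (nat_lit 363) (nat_lit 293) (nat_lit 244)) (XT.lf (nat_lit 0) (nat_lit 490163761) (nat_lit 228) (nat_lit 5255511888) (nat_lit 304) (nat_lit 6780108110) (nat_lit 76) (nat_lit 5) (nat_lit 79) (nat_lit 5) (nat_lit 80) (nat_lit 5) (nat_lit 364) (nat_lit 293) (nat_lit 243)))) (XT.nd (nat_lit 156) (nat_lit 228) (nat_lit 0) (XT.nd (nat_lit 78) (nat_lit 304) (nat_lit 0) (XT.lf (nat_lit 0) (nat_lit 8116277520) (nat_lit 228) (nat_lit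 1197119243) (nat_lit 304) (nat_lit 3444129041) (nat_lit 76) (nat_lit 5) (nat_lit 79) (nat_lit 5) (nat_lit 80) (nat_lit 5) (nat_lit 365) (nat_lit 293) (nat_lit 242)) (XT.lf (nat_lit 0) (nat_lit 5681296) (nat_lit 304) (nat_lit 10061801124) (nat_lit 76) (nat_lit 2928349009) (nat_lit 72) (nat_lit 5) (nat_lit 76) (nat_lit 5) (nat_lit 73) (nat_lit 5) (nat_lit 366) (nat_lit 293) (nat_lit 241))) (XT.nd (nat_lit 78) (nat_lit 228) (nat_lit 0) (XT.lf (nat_lit 0) (nat_lit 3505708464) (nat_lit 304) (nat_lit 2524231760) (nat_lit 76) (nat_lit 7209860945) (nat_lit 72) (nat_lit 5) (nat_lit 76) (nat_lit 5) (nat_lit 73) (nat_lit 5) (nat_lit 367) (nat_lit 293) (nat_lit 240)) (XT.lf (nat_lit 0) (nat_lit 5274780212) (nat_lit 228) (nat_lit 1844681905) (nat_lit 304) (nat_lit 6371381971) (nat_lit 69) (nat_lit 5) (nat_lit 72) (nat_lit 5) (nat_lit 73) (nat_lit 5) (nat_lit 368) (nat_lit 293) (nat_lit 239)))))) (XT.nd (nat_lit 468)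 (nat_lit 684) (nat_lit 0) (XT.nd (nat_lit 234) (nat_lit 304) (nat_lit 0) (XT.nd (nat_lit 78) (nat_lit 456) (nat_lit 0) (XT.lf (nat_lit 0) (nat_lit 10849431277) (nat_lit 304) (nat_lit 481068457) (nat_lit 76) (nat_lit 2418699871) (nat_lit 69) (nat_lit 5) (nat_lit 73) (nat_lit 5) (nat_lit 70) (nat_lit 5) (nat_lit 369) (nat_lit 293) (nat_lit 238)) (XT.nd (nat_lit 78) (nat_lit 152) (nat_lit 0) (XT.lf (nat_lit 0) (nat_lit 713684835) (nat_lit 304) (nat_lit 6471767948) (nat_lit 76) (nat_lit 6828146112) (nat_lit 65) (nat_lit 5) (nat_lit 69) (nat_lit 5) (nat_lit 66) (nat_lit 5) (nat_lit 370) (nat_lit 293) (nat_lit 237)) (XT.lf (nat_lit 0) (nat_lit 1463133800) (nat_lit 152) (nat_lit 2892803986) (nat_lit 228) (nat_lit 9929784790) (nat_lit 63) (nat_lit 5) (nat_lit 65) (nat_lit 5) (nat_lit 66) (nat_lit 5) (nat_lit 371) (nat_lit 293) (nat_lit 236)))) (XT.nd (nat_lit 78) (nat_lit 304) (nat_lit 0) (XT.lf (nat_lit 0) (nat_lit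 8148156091) (nat_lit 228) (nat_lit 4877105875) (nat_lit 76) (nat_lit 1539540747) (nat_lit 63) (nat_lit 5) (nat_lit 66) (nat_lit 5) (nat_lit 64) (nat_lit 5) (nat_lit 372) (nat_lit 293) (nat_lit 235)) (XT.nd (nat_lit 78) (nat_lit 76) (nat_lit 0) (XT.lf (nat_lit 0) (nat_lit 3277529250) (nat_lit 228) (nat_lit 8797928328) (nat_lit 304) (nat_lit 2776171460) (nat_lit 60) (nat_lit 5) (nat_lit 63) (nat_lit 5) (nat_lit 64) (nat_lit 5) (nat_lit 373) (nat_lit 293) (nat_lit 234)) (XT.lf (nat_lit 0) (nat_lit 965552139) (nat_lit 304) (nat_lit 3443326285) (nat_lit 76) (nat_lit 10737582576) (nat_lit 59) (nat_lit 5) (nat_lit 63) (nat_lit 5) (nat_lit 60) (nat_lit 5) (nat_lit 374) (nat_lit 293) (nat_lit 233))))) (XT.nd (nat_lit 234) (nat_lit 380) (nat_lit 0) (XT.nd (nat_lit 78) (nat_lit 152) (nat_lit 0) (XT.lf (nat_lit 0) (nat_lit 4775187159) (nat_lit 228) (nat_lit 10513166455) (nat_lit 76) (nat_lit 160628117) (nat_lit 57)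 (nat_lit 5) (nat_lit 60) (nat_lit 5) (nat_lit 58) (nat_lit 5) (nat_lit 375) (nat_lit 293) (nat_lit 232)) (XT.nd (nat_lit 78) (nat_lit 152) (nat_lit 0) (XT.lf (nat_lit 0) (nat_lit 8740555742) (nat_lit 228) (nat_lit 2229676430) (nat_lit 76) (nat_lit 4789114374) (nat_lit 57) (nat_lit 5) (nat_lit 60) (nat_lit 5) (nat_lit 58) (nat_lit 5) (nat_lit 376) (nat_lit 293) (nat_lit 231)) (XT.lf (nat_lit 0) (nat_lit 6365304185) (nat_lit 152) (nat_lit 6484532611) (nat_lit 228) (nat_lit 3228448427) (nat_lit 55) (nat_lit 5) (nat_lit 57) (nat_lit 5) (nat_lit 58) (nat_lit 5) (nat_lit 377) (nat_lit 293) (nat_lit 230)))) (XT.nd (nat_lit 156) (nat_lit 152) (nat_lit 0) (XT.nd (nat_lit 78) (nat_lit 152) (nat_lit 0) (XT.lf (nat_lit 0) (nat_lit 649030910) (nat_lit 228) (nat_lit 1210347147) (nat_lit 76) (nat_lit 14547631666) (nat_lit 54) (nat_lit 5) (nat_lit 57) (nat_lit 5) (nat_lit 55) (nat_lit 5) (nat_lit 378) (nat_lit 293) (nat_lit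 229)) (XT.lf (nat_lit 0) (nat_lit 4644691497) (nat_lit 228) (nat_lit 9168011860) (nat_lit 76) (nat_lit 2929941777) (nat_lit 52) (nat_lit 5) (nat_lit 55) (nat_lit 5) (nat_lit 53) (nat_lit 5) (nat_lit 379) (nat_lit 293) (nat_lit 228))) (XT.nd (nat_lit 78) (nat_lit 152) (nat_lit 0) (XT.lf (nat_lit 0) (nat_lit 8756119352) (nat_lit 228) (nat_lit 518336952) (nat_lit 76) (nat_lit 7814026560) (nat_lit 52) (nat_lit 5) (nat_lit 55) (nat_lit 5) (nat_lit 53) (nat_lit 5) (nat_lit 380) (nat_lit 293) (nat_lit 227)) (XT.lf (nat_lit 0) (nat_lit 8498611033) (nat_lit 152) (nat_lit 4540132685) (nat_lit 228) (nat_lit 4404526280) (nat_lit 50) (nat_lit 5) (nat_lit 52) (nat_lit 5) (nat_lit 53) (nat_lit 5) (nat_lit 381) (nat_lit 293) (nat_lit 226))))))) (XT.nd (nat_lit 1014) (nat_lit 912) (nat_lit 0) (XT.nd (nat_lit 468) (nat_lit 456) (nat_lit 0) (XT.nd (nat_lit 234) (nat_lit 380) (nat_lit 0) (XT.nd (nat_lit 78) (nat_lit 228)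 (nat_lit 0) (XT.lf (nat_lit 0) (nat_lit 17424726187) (nat_lit 228) (nat_lit 73401497) (nat_lit 76) (nat_lit 311336275) (nat_lit 50) (nat_lit 5) (nat_lit 53) (nat_lit 5) (nat_lit 51) (nat_lit 4) (nat_lit 382) (nat_lit 293) (nat_lit 225)) (XT.nd (nat_lit 78) (nat_lit 0) (nat_lit 0) (XT.lf (nat_lit 0) (nat_lit 3783501143) (nat_lit 228) (nat_lit 9079898498) (nat_lit 76) (nat_lit 5319135808) (nat_lit 47) (nat_lit 5) (nat_lit 50) (nat_lit 5) (nat_lit 48) (nat_lit 5) (nat_lit 383) (nat_lit 293) (nat_lit 224)) (XT.lf (nat_lit 0) (nat_lit 8037228737) (nat_lit 228) (nat_lit 71804484) (nat_lit 76) (nat_lit 10458615136) (nat_lit 47) (nat_lit 5) (nat_lit 50) (nat_lit 5) (nat_lit 48) (nat_lit 5) (nat_lit 384) (nat_lit 293) (nat_lit 223)))) (XT.nd (nat_lit 78) (nat_lit 228) (nat_lit 0) (XT.lf (nat_lit 0) (nat_lit 9333643781) (nat_lit 152) (nat_lit 3143019642) (nat_lit 228) (nat_lit 6485916895) (nat_lit 45) (nat_lit 5)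 (nat_lit 47) (nat_lit 5) (nat_lit 48) (nat_lit 5) (nat_lit 385) (nat_lit 293) (nat_lit 222)) (XT.nd (nat_lit 78) (nat_lit 228) (nat_lit 0) (XT.lf (nat_lit 0) (nat_lit 17037517689) (nat_lit 228) (nat_lit 420777807) (nat_lit 76) (nat_lit 1911425922) (nat_lit 45) (nat_lit 5) (nat_lit 48) (nat_lit 5) (nat_lit 46) (nat_lit 4) (nat_lit 386) (nat_lit 293) (nat_lit 221)) (XT.lf (nat_lit 0) (nat_lit 1997626531) (nat_lit 228) (nat_lit 10648402249) (nat_lit 76) (nat_lit 7139810108) (nat_lit 42) (nat_lit 5) (nat_lit 45) (nat_lit 5) (nat_lit 43) (nat_lit 5) (nat_lit 387) (nat_lit 293) (nat_lit 220))))) (XT.nd (nat_lit 234) (nat_lit 304) (nat_lit 0) (XT.nd (nat_lit 78) (nat_lit 152) (nat_lit 0) (XT.lf (nat_lit 0) (nat_lit 6384305342) (nat_lit 228) (nat_lit 1300106802) (nat_lit 76) (nat_lit 12530127720) (nat_lit 42) (nat_lit 5) (nat_lit 45) (nat_lit 5) (nat_lit 43) (nat_lit 5) (nat_lit 388) (nat_lit 293) (nat_lit 219))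 (XT.nd (nat_lit 78) (nat_lit 0) (nat_lit 0) (XT.lf (nat_lit 0) (nat_lit 8441235795) (nat_lit 152) (nat_lit 2512915829) (nat_lit 228) (nat_lit 9700410587) (nat_lit 40) (nat_lit 5) (nat_lit 42) (nat_lit 5) (nat_lit 43) (nat_lit 5) (nat_lit 389) (nat_lit 293) (nat_lit 218)) (XT.lf (nat_lit 0) (nat_lit 15671973834) (nat_lit 228) (nat_lit 2685376779) (nat_lit 76) (nat_lit 2750115337) (nat_lit 40) (nat_lit 5) (nat_lit 43) (nat_lit 5) (nat_lit 41) (nat_lit 4) (nat_lit 390) (nat_lit 293) (nat_lit 217)))) (XT.nd (nat_lit 156) (nat_lit 152) (nat_lit 0) (XT.nd (nat_lit 78) (nat_lit 76) (nat_lit 0) (XT.lf (nat_lit 0) (nat_lit 7193139956) (nat_lit 76) (nat_lit 13403647790) (nat_lit 152) (nat_lit 975212277) (nat_lit 39) (nat_lit 5) (nat_lit 40) (nat_lit 5) (nat_lit 41) (nat_lit 4) (nat_lit 391) (nat_lit 293) (nat_lit 216)) (XT.lf (nat_lit 0) (nat_lit 3547138979) (nat_lit 152) (nat_lit 4712483505) (nat_lit 76) (nat_lit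 13789844151) (nat_lit 38) (nat_lit 5) (nat_lit 40) (nat_lit 5) (nat_lit 39) (nat_lit 5) (nat_lit 392) (nat_lit 293) (nat_lit 215))) (XT.nd (nat_lit 78) (nat_lit 0) (nat_lit 0) (XT.lf (nat_lit 0) (nat_lit 5288067199) (nat_lit 152) (nat_lit 2920649959) (nat_lit 228) (nat_lit 14331562049) (nat_lit 36) (nat_lit 5) (nat_lit 38) (nat_lit 5) (nat_lit 39) (nat_lit 5) (nat_lit 393) (nat_lit 293) (nat_lit 214)) (XT.lf (nat_lit 0) (nat_lit 13055441157) (nat_lit 228) (nat_lit 7433896397) (nat_lit 76) (nat_lit 2555125807) (nat_lit 36) (nat_lit 5) (nat_lit 39) (nat_lit 5) (nat_lit 37) (nat_lit 4) (nat_lit 394) (nat_lit 293) (nat_lit 213)))))) (XT.nd (nat_lit 546) (nat_lit 532) (nat_lit 0) (XT.nd (nat_lit 234) (nat_lit 228) (nat_lit 0) (XT.nd (nat_lit 78) (nat_lit 76) (nat_lit 0) (XT.lf (nat_lit 0) (nat_lit 2653791368) (nat_lit 76) (nat_lit 15421459429) (nat_lit 152) (nat_lit 5487697704) (nat_lit 35) (nat_lit 5) (nat_lit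 36) (nat_lit 5) (nat_lit 37) (nat_lit 4) (nat_lit 395) (nat_lit 293) (nat_lit 212)) (XT.nd (nat_lit 78) (nat_lit 76) (nat_lit 0) (XT.lf (nat_lit 0) (nat_lit 13148923369) (nat_lit 76) (nat_lit 10145377485) (nat_lit 152) (nat_lit 801233762) (nat_lit 35) (nat_lit 5) (nat_lit 36) (nat_lit 5) (nat_lit 37) (nat_lit 4) (nat_lit 396) (nat_lit 293) (nat_lit 211)) (XT.lf (nat_lit 0) (nat_lit 3921354174) (nat_lit 152) (nat_lit 770597169) (nat_lit 76) (nat_lit 19951768831) (nat_lit 34) (nat_lit 5) (nat_lit 36) (nat_lit 5) (nat_lit 35) (nat_lit 5) (nat_lit 397) (nat_lit 293) (nat_lit 210)))) (XT.nd (nat_lit 156) (nat_lit 76) (nat_lit 0) (XT.nd (nat_lit 78) (nat_lit 0) (nat_lit 0) (XT.lf (nat_lit 0) (nat_lit 8848753688) (nat_lit 228) (nat_lit 15366130405) (nat_lit 76) (nat_lit 990857391) (nat_lit 32) (nat_lit 5) (nat_lit 35) (nat_lit 5) (nat_lit 33) (nat_lit 4) (nat_lit 398) (nat_lit 293) (nat_lit 209)) (XT.lf (nat_lit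 0) (nat_lit 13953240185) (nat_lit 228) (nat_lit 5092462476) (nat_lit 76) (nat_lit 6738047979) (nat_lit 32) (nat_lit 5) (nat_lit 35) (nat_lit 5) (nat_lit 33) (nat_lit 4) (nat_lit 399) (nat_lit 293) (nat_lit 208))) (XT.nd (nat_lit 78) (nat_lit 0) (nat_lit 0) (XT.lf (nat_lit 0) (nat_lit 5553648791) (nat_lit 76) (nat_lit 13686278592) (nat_lit 152) (nat_lit 7138305711) (nat_lit 31) (nat_lit 5) (nat_lit 32) (nat_lit 5) (nat_lit 33) (nat_lit 4) (nat_lit 400) (nat_lit 293) (nat_lit 207)) (XT.lf (nat_lit 0) (nat_lit 16579828224) (nat_lit 76) (nat_lit 8132780093) (nat_lit 152) (nat_lit 2277124775) (nat_lit 31) (nat_lit 5) (nat_lit 32) (nat_lit 5) (nat_lit 33) (nat_lit 4) (nat_lit 401) (nat_lit 293) (nat_lit 206))))) (XT.nd (nat_lit 234) (nat_lit 304) (nat_lit 0) (XT.nd (nat_lit 78) (nat_lit 0) (nat_lit 0) (XT.lf (nat_lit 0) (nat_lit 253004304) (nat_lit 152) (nat_lit 2402482829) (nat_lit 228) (nat_lit 24963942330)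 (nat_lit 28) (nat_lit 5) (nat_lit 30) (nat_lit 5) (nat_lit 31) (nat_lit 5) (nat_lit 402) (nat_lit 293) (nat_lit 205)) (XT.nd (nat_lit 78) (nat_lit 0) (nat_lit 0) (XT.lf (nat_lit 0) (nat_lit 7806638343) (nat_lit 228) (nat_lit 16915901801) (nat_lit 76) (nat_lit 3541314789) (nat_lit 28) (nat_lit 5) (nat_lit 31) (nat_lit 5) (nat_lit 29) (nat_lit 4) (nat_lit 403) (nat_lit 293) (nat_lit 204)) (XT.lf (nat_lit 0) (nat_lit 13113321728) (nat_lit 228) (nat_lit 6217401352) (nat_lit 76) (nat_lit 9596864478) (nat_lit 28) (nat_lit 5) (nat_lit 31) (nat_lit 5) (nat_lit 29) (nat_lit 4) (nat_lit 404) (nat_lit 293) (nat_lit 203)))) (XT.nd (nat_lit 156) (nat_lit 228) (nat_lit 0) (XT.nd (nat_lit 78) (nat_lit 0) (nat_lit 0) (XT.lf (nat_lit 0) (nat_lit 4856282081) (nat_lit 76) (nat_lit 13747479534) (nat_lit 152) (nat_lit 11006738061) (nat_lit 27) (nat_lit 5) (nat_lit 28) (nat_lit 5) (nat_lit 29) (nat_lit 4) (nat_lit 405) (nat_lit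 293) (nat_lit 202)) (XT.lf (nat_lit 0) (nat_lit 16349488473) (nat_lit 76) (nat_lit 7950342834) (nat_lit 152) (nat_lit 6012844423) (nat_lit 27) (nat_lit 5) (nat_lit 28) (nat_lit 5) (nat_lit 29) (nat_lit 4) (nat_lit 406) (nat_lit 293) (nat_lit 201))) (XT.nd (nat_lit 78) (nat_lit 228) (nat_lit 0) (XT.lf (nat_lit 0) (nat_lit 28148521954) (nat_lit 76) (nat_lit 1997031085) (nat_lit 152) (nat_lit 891004881) (nat_lit 27) (nat_lit 5) (nat_lit 28) (nat_lit 5) (nat_lit 29) (nat_lit 4) (nat_lit 407) (nat_lit 293) (nat_lit 200)) (XT.lf (nat_lit 0) (nat_lit 4401664002) (nat_lit 228) (nat_lit 23212930937) (nat_lit 76) (nat_lit 4163219031) (nat_lit 24) (nat_lit 5) (nat_lit 27) (nat_lit 5) (nat_lit 25) (nat_lit 4) (nat_lit 408) (nat_lit 293) (nat_lit 199))))))))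
noncomputable def xc88 : XT := (XT.nd (nat_lit 2028) (nat_lit 304) (nat_lit 0) (XT.nd (nat_lit 1014) (nat_lit 304) (nat_lit 0) (XT.nd (nat_lit 468) (nat_lit 228) (nat_lit 0) (XT.nd (nat_lit 234) (nat_lit 152) (nat_lit 0) (XT.nd (nat_lit 78) (nat_lit 76) (nat_lit 0) (XT.lf (nat_lit 0) (nat_lit 9863685929) (nat_lit 228) (nat_lit 12187056222) (nat_lit 76) (nat_lit 10489450074) (nat_lit 24) (nat_lit 5) (nat_lit 27) (nat_lit 5) (nat_lit 25) (nat_lit 4) (nat_lit 409) (nat_lit 293) (nat_lit 198)) (XT.nd (nat_lit 78) (nat_lit 76) (nat_lit 0) (XT.lf (nat_lit 0) (nat_lit 15469429154) (nat_lit 228) (nat_lit 867620580) (nat_lit 76) (nat_lit 16988999787) (nat_lit 24) (nat_lit 5) (nat_lit 27) (nat_lit 5) (nat_lit 25) (nat_lit 4) (nat_lit 410) (nat_lit 293) (nat_lit 197)) (XT.lf (nat_lit 0) (nat_lit 10969317655) (nat_lit 76) (nat_lit 10359918035) (nat_lit 152) (nat_lit 12803673525) (nat_lit 23) (nat_lit 5) (nat_lit 24)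 (nat_lit 5) (nat_lit 25) (nat_lit 4) (nat_lit 411) (nat_lit 293) (nat_lit 196)))) (XT.nd (nat_lit 78) (nat_lit 152) (nat_lit 0) (XT.lf (nat_lit 0) (nat_lit 23143372266) (nat_lit 76) (nat_lit 4210898234) (nat_lit 152) (nat_lit 7610024489) (nat_lit 23) (nat_lit 5) (nat_lit 24) (nat_lit 5) (nat_lit 25) (nat_lit 4) (nat_lit 412) (nat_lit 293) (nat_lit 195)) (XT.nd (nat_lit 78) (nat_lit 152) (nat_lit 0) (XT.lf (nat_lit 0) (nat_lit 33561542225) (nat_lit 152) (nat_lit 193525186) (nat_lit 0) (nat_lit 2065513563) (nat_lit 23) (nat_lit 5) (nat_lit 25) (nat_lit 4) (nat_lit 23) (nat_lit 4) (nat_lit 413) (nat_lit 293) (nat_lit 194)) (XT.lf (nat_lit 0) (nat_lit 3328471880) (nat_lit 152) (nat_lit 24791179723) (nat_lit 76) (nat_lit 8577785135) (nat_lit 21) (nat_lit 5) (nat_lit 23) (nat_lit 5) (nat_lit 22) (nat_lit 4) (nat_lit 414) (nat_lit 293) (nat_lit 193))))) (XT.nd (nat_lit 234) (nat_lit 152) (nat_lit 0) (XT.nd (nat_lit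 78) (nat_lit 76) (nat_lit 0) (XT.lf (nat_lit 0) (nat_lit 9021837591) (nat_lit 152) (nat_lit 13284083231) (nat_lit 76) (nat_lit 15294500266) (nat_lit 21) (nat_lit 5) (nat_lit 23) (nat_lit 5) (nat_lit 22) (nat_lit 4) (nat_lit 415) (nat_lit 293) (nat_lit 192)) (XT.nd (nat_lit 78) (nat_lit 76) (nat_lit 0) (XT.lf (nat_lit 0) (nat_lit 14868199060) (nat_lit 152) (nat_lit 1464936344) (nat_lit 76) (nat_lit 22197896578) (nat_lit 21) (nat_lit 5) (nat_lit 23) (nat_lit 5) (nat_lit 22) (nat_lit 4) (nat_lit 416) (nat_lit 293) (nat_lit 191)) (XT.lf (nat_lit 0) (nat_lit 10889073392) (nat_lit 76) (nat_lit 10088263802) (nat_lit 152) (nat_lit 18509605207) (nat_lit 20) (nat_lit 5) (nat_lit 21) (nat_lit 5) (nat_lit 22) (nat_lit 4) (nat_lit 417) (nat_lit 293) (nat_lit 190)))) (XT.nd (nat_lit 156) (nat_lit 152) (nat_lit 0) (XT.nd (nat_lit 78) (nat_lit 0) (nat_lit 0) (XT.lf (nat_lit 0) (nat_lit 23611852232) (nat_lit 76) (nat_lit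 3655600644) (nat_lit 152) (nat_lit 13204148846) (nat_lit 20) (nat_lit 5) (nat_lit 21) (nat_lit 5) (nat_lit 22) (nat_lit 4) (nat_lit 418) (nat_lit 293) (nat_lit 189)) (XT.lf (nat_lit 0) (nat_lit 33758092026) (nat_lit 152) (nat_lit 4829350952) (nat_lit 0) (nat_lit 2898005858) (nat_lit 20) (nat_lit 5) (nat_lit 22) (nat_lit 4) (nat_lit 20) (nat_lit 4) (nat_lit 419) (nat_lit 293) (nat_lit 188))) (XT.nd (nat_lit 78) (nat_lit 76) (nat_lit 0) (XT.lf (nat_lit 0) (nat_lit 7644535270) (nat_lit 76) (nat_lit 32892350504) (nat_lit 76) (nat_lit 1990025063) (nat_lit 19) (nat_lit 4) (nat_lit 20) (nat_lit 5) (nat_lit 20) (nat_lit 4) (nat_lit 420) (nat_lit 293) (nat_lit 187)) (XT.lf (nat_lit 0) (nat_lit 3875974020) (nat_lit 152) (nat_lit 23075107184) (nat_lit 76) (nat_lit 16646416723) (nat_lit 18) (nat_lit 5) (nat_lit 20) (nat_lit 5) (nat_lit 19) (nat_lit 4) (nat_lit 421) (nat_lit 293) (nat_lit 186)))))) (XT.nd (nat_lit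 468) (nat_lit 152) (nat_lit 0) (XT.nd (nat_lit 234) (nat_lit 76) (nat_lit 0) (XT.nd (nat_lit 78) (nat_lit 76) (nat_lit 0) (XT.lf (nat_lit 0) (nat_lit 9862207675) (nat_lit 152) (nat_lit 10962867430) (nat_lit 76) (nat_lit 23875011186) (nat_lit 18) (nat_lit 5) (nat_lit 20) (nat_lit 5) (nat_lit 19) (nat_lit 4) (nat_lit 422) (nat_lit 293) (nat_lit 185)) (XT.nd (nat_lit 78) (nat_lit 0) (nat_lit 0) (XT.lf (nat_lit 0) (nat_lit 1513592179) (nat_lit 76) (nat_lit 14513696545) (nat_lit 152) (nat_lit 29808488026) (nat_lit 17) (nat_lit 5) (nat_lit 18) (nat_lit 5) (nat_lit 19) (nat_lit 4) (nat_lit 423) (nat_lit 293) (nat_lit 184)) (XT.lf (nat_lit 0) (nat_lit 14560671844) (nat_lit 76) (nat_lit 7912236935) (nat_lit 152) (nat_lit 24529763734) (nat_lit 17) (nat_lit 5) (nat_lit 18) (nat_lit 5) (nat_lit 19) (nat_lit 4) (nat_lit 424) (nat_lit 293) (nat_lit 183)))) (XT.nd (nat_lit 78) (nat_lit 76) (nat_lit 0) (XT.lf (nat_lit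 0) (nat_lit 27971589367) (nat_lit 76) (nat_lit 1125631477) (nat_lit 152) (nat_lit 19107796728) (nat_lit 17) (nat_lit 5) (nat_lit 18) (nat_lit 5) (nat_lit 19) (nat_lit 4) (nat_lit 425) (nat_lit 293) (nat_lit 182)) (XT.nd (nat_lit 78) (nat_lit 76) (nat_lit 0) (XT.lf (nat_lit 0) (nat_lit 35962266637) (nat_lit 152) (nat_lit 7742052975) (nat_lit 0) (nat_lit 5737855302) (nat_lit 17) (nat_lit 5) (nat_lit 19) (nat_lit 4) (nat_lit 17) (nat_lit 4) (nat_lit 426) (nat_lit 293) (nat_lit 181)) (XT.lf (nat_lit 0) (nat_lit 5187860691) (nat_lit 76) (nat_lit 37892465906) (nat_lit 76) (nat_lit 7634710499) (nat_lit 16) (nat_lit 4) (nat_lit 17) (nat_lit 5) (nat_lit 17) (nat_lit 4) (nat_lit 427) (nat_lit 293) (nat_lit 180))))) (XT.nd (nat_lit 234) (nat_lit 76) (nat_lit 0) (XT.nd (nat_lit 78) (nat_lit 76) (nat_lit 0) (XT.lf (nat_lit 0) (nat_lit 18638342227) (nat_lit 76) (nat_lit 31837970807) (nat_lit 76) (nat_lit 1547842514)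 (nat_lit 16) (nat_lit 4) (nat_lit 17) (nat_lit 5) (nat_lit 17) (nat_lit 4) (nat_lit 428) (nat_lit 293) (nat_lit 179)) (XT.nd (nat_lit 78) (nat_lit 0) (nat_lit 0) (XT.lf (nat_lit 0) (nat_lit 4615967931) (nat_lit 152) (nat_lit 20951143378) (nat_lit 76) (nat_lit 27804482287) (nat_lit 15) (nat_lit 5) (nat_lit 17) (nat_lit 5) (nat_lit 16) (nat_lit 4) (nat_lit 429) (nat_lit 293) (nat_lit 178)) (XT.lf (nat_lit 0) (nat_lit 10920449054) (nat_lit 152) (nat_lit 8183561249) (nat_lit 76) (nat_lit 35655380513) (nat_lit 15) (nat_lit 5) (nat_lit 17) (nat_lit 5) (nat_lit 16) (nat_lit 4) (nat_lit 430) (nat_lit 293) (nat_lit 177)))) (XT.nd (nat_lit 156) (nat_lit 0) (nat_lit 0) (XT.nd (nat_lit 78) (nat_lit 0) (nat_lit 0) (XT.lf (nat_lit 0) (nat_lit 5041342767) (nat_lit 76) (nat_lit 12408431308) (nat_lit 152) (nat_lit 38737978322) (nat_lit 14) (nat_lit 5) (nat_lit 15) (nat_lit 5) (nat_lit 16) (nat_lit 4) (nat_lit 431) (nat_lit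 293) (nat_lit 176)) (XT.lf (nat_lit 0) (nat_lit 18806904640) (nat_lit 76) (nat_lit 5438103309) (nat_lit 152) (nat_lit 33411857681) (nat_lit 14) (nat_lit 5) (nat_lit 15) (nat_lit 5) (nat_lit 16) (nat_lit 4) (nat_lit 432) (nat_lit 293) (nat_lit 175))) (XT.nd (nat_lit 78) (nat_lit 0) (nat_lit 0) (XT.lf (nat_lit 0) (nat_lit 31248491180) (nat_lit 152) (nat_lit 26224771440) (nat_lit 0) (nat_lit 1696659498) (nat_lit 14) (nat_lit 5) (nat_lit 16) (nat_lit 4) (nat_lit 14) (nat_lit 4) (nat_lit 433) (nat_lit 293) (nat_lit 174)) (XT.lf (nat_lit 0) (nat_lit 38503934690) (nat_lit 152) (nat_lit 13297400630) (nat_lit 0) (nat_lit 8925780888) (nat_lit 14) (nat_lit 5) (nat_lit 16) (nat_lit 4) (nat_lit 14) (nat_lit 4) (nat_lit 434) (nat_lit 293) (nat_lit 173))))))) (XT.nd (nat_lit 37284) (nat_lit 0) (nat_lit 17404) (XT.nd (nat_lit 468) (nat_lit 76) (nat_lit 0) (XT.nd (nat_lit 234) (nat_lit 152) (nat_lit 0) (XT.nd (nat_lit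 78) (nat_lit 76) (nat_lit 0) (XT.lf (nat_lit 0) (nat_lit 45965403809) (nat_lit 152) (nat_lit 4278426) (nat_lit 0) (nat_lit 16361694552) (nat_lit 14) (nat_lit 5) (nat_lit 16) (nat_lit 4) (nat_lit 14) (nat_lit 4) (nat_lit 435) (nat_lit 293) (nat_lit 172)) (XT.nd (nat_lit 78) (nat_lit 0) (nat_lit 0) (XT.lf (nat_lit 0) (nat_lit 13938194909) (nat_lit 76) (nat_lit 39835205815) (nat_lit 76) (nat_lit 10206685437) (nat_lit 13) (nat_lit 4) (nat_lit 14) (nat_lit 5) (nat_lit 14) (nat_lit 4) (nat_lit 436) (nat_lit 293) (nat_lit 171)) (XT.lf (nat_lit 0) (nat_lit 28277813294) (nat_lit 76) (nat_lit 33526693864) (nat_lit 76) (nat_lit 3874085018) (nat_lit 13) (nat_lit 4) (nat_lit 14) (nat_lit 5) (nat_lit 14) (nat_lit 4) (nat_lit 437) (nat_lit 293) (nat_lit 170)))) (XT.nd (nat_lit 78) (nat_lit 76) (nat_lit 0) (XT.lf (nat_lit 0) (nat_lit 2585854834) (nat_lit 152) (nat_lit 24426710395) (nat_lit 76) (nat_lit 40415054447) (nat_lit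 12) (nat_lit 5) (nat_lit 14) (nat_lit 5) (nat_lit 13) (nat_lit 4) (nat_lit 438) (nat_lit 293) (nat_lit 169)) (XT.nd (nat_lit 78) (nat_lit 76) (nat_lit 0) (XT.lf (nat_lit 0) (nat_lit 9151089809) (nat_lit 152) (nat_lit 11121989086) (nat_lit 76) (nat_lit 48955208844) (nat_lit 12) (nat_lit 5) (nat_lit 14) (nat_lit 5) (nat_lit 13) (nat_lit 4) (nat_lit 439) (nat_lit 293) (nat_lit 168)) (XT.lf (nat_lit 0) (nat_lit 2613244412) (nat_lit 76) (nat_lit 13314829563) (nat_lit 152) (nat_lit 55154459390) (nat_lit 11) (nat_lit 5) (nat_lit 12) (nat_lit 5) (nat_lit 13) (nat_lit 4) (nat_lit 440) (nat_lit 293) (nat_lit 167))))) (XT.nd (nat_lit 234) (nat_lit 76) (nat_lit 0) (XT.nd (nat_lit 78) (nat_lit 0) (nat_lit 0) (XT.lf (nat_lit 0) (nat_lit 16969093915) (nat_lit 76) (nat_lit 6041370107) (nat_lit 152) (nat_lit 49978880697) (nat_lit 11) (nat_lit 5) (nat_lit 12) (nat_lit 5) (nat_lit 13) (nat_lit 4) (nat_lit 441) (nat_lit 293)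 (nat_lit 166)) (XT.nd (nat_lit 78) (nat_lit 0) (nat_lit 0) (XT.lf (nat_lit 0) (nat_lit 30309264422) (nat_lit 152) (nat_lit 43230760227) (nat_lit 0) (nat_lit 1413218816) (nat_lit 11) (nat_lit 5) (nat_lit 13) (nat_lit 4) (nat_lit 11) (nat_lit 4) (nat_lit 442) (nat_lit 293) (nat_lit 165)) (XT.lf (nat_lit 0) (nat_lit 37877133260) (nat_lit 152) (nat_lit 30135922433) (nat_lit 0) (nat_lit 8961501525) (nat_lit 11) (nat_lit 5) (nat_lit 13) (nat_lit 4) (nat_lit 11) (nat_lit 4) (nat_lit 443) (nat_lit 293) (nat_lit 164)))) (XT.nd (nat_lit 156) (nat_lit 76) (nat_lit 0) (XT.nd (nat_lit 78) (nat_lit 0) (nat_lit 0) (XT.lf (nat_lit 0) (nat_lit 45662609891) (nat_lit 152) (nat_lit 16666221984) (nat_lit 0) (nat_lit 16727962497) (nat_lit 11) (nat_lit 5) (nat_lit 13) (nat_lit 4) (nat_lit 11) (nat_lit 4) (nat_lit 444) (nat_lit 293) (nat_lit 163)) (XT.lf (nat_lit 0) (nat_lit 53672497160) (nat_lit 152) (nat_lit 2809889240) (nat_lit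 0) (nat_lit 24719387961) (nat_lit 11) (nat_lit 5) (nat_lit 13) (nat_lit 4) (nat_lit 11) (nat_lit 4) (nat_lit 445) (nat_lit 293) (nat_lit 162))) (XT.nd (nat_lit 78) (nat_lit 0) (nat_lit 0) (XT.lf (nat_lit 0) (nat_lit 11672964862) (nat_lit 76) (nat_lit 50353036813) (nat_lit 76) (nat_lit 21382003533) (nat_lit 10) (nat_lit 4) (nat_lit 11) (nat_lit 5) (nat_lit 11) (nat_lit 4) (nat_lit 446) (nat_lit 293) (nat_lit 161)) (XT.lf (nat_lit 0) (nat_lit 26631120529) (nat_lit 76) (nat_lit 44018575626) (nat_lit 76) (nat_lit 15030140324) (nat_lit 10) (nat_lit 4) (nat_lit 11) (nat_lit 5) (nat_lit 11) (nat_lit 4) (nat_lit 447) (nat_lit 293) (nat_lit 160)))))) (XT.nd (nat_lit 546) (nat_lit 4028) (nat_lit 0) (XT.nd (nat_lit 234) (nat_lit 2128) (nat_lit 0) (XT.nd (nat_lit 78) (nat_lit 608) (nat_lit 0) (XT.lf (nat_lit 0) (nat_lit 743618991) (nat_lit 532) (nat_lit 1812753992) (nat_lit 0) (nat_lit 743618991) (nat_lit 328) (nat_lit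 5) (nat_lit 335) (nat_lit 4) (nat_lit 328) (nat_lit 4) (nat_lit 312) (nat_lit 294) (nat_lit 294)) (XT.nd (nat_lit 78) (nat_lit 76) (nat_lit 0) (XT.lf (nat_lit 0) (nat_lit 313669692) (nat_lit 532) (nat_lit 4299321246) (nat_lit 532) (nat_lit 2015081005) (nat_lit 321) (nat_lit 4) (nat_lit 328) (nat_lit 5) (nat_lit 328) (nat_lit 4) (nat_lit 313) (nat_lit 294) (nat_lit 293)) (XT.lf (nat_lit 0) (nat_lit 1082668353) (nat_lit 608) (nat_lit 2304132456) (nat_lit 76) (nat_lit 3272089323) (nat_lit 320) (nat_lit 5) (nat_lit 328) (nat_lit 5) (nat_lit 321) (nat_lit 4) (nat_lit 314) (nat_lit 294) (nat_lit 292)))) (XT.nd (nat_lit 156) (nat_lit 1444) (nat_lit 0) (XT.nd (nat_lit 78) (nat_lit 76) (nat_lit 0) (XT.lf (nat_lit 0) (nat_lit 1761341917) (nat_lit 608) (nat_lit 2384671204) (nat_lit 684) (nat_lit 2546751853) (nat_lit 312) (nat_lit 5) (nat_lit 320) (nat_lit 5) (nat_lit 321) (nat_lit 4) (nat_lit 315) (nat_lit 294) (nat_lit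 291)) (XT.lf (nat_lit 0) (nat_lit 483280600) (nat_lit 684) (nat_lit 817592785) (nat_lit 76) (nat_lit 5429109479) (nat_lit 311) (nat_lit 5) (nat_lit 320) (nat_lit 5) (nat_lit 312) (nat_lit 5) (nat_lit 316) (nat_lit 294) (nat_lit 290))) (XT.nd (nat_lit 78) (nat_lit 760) (nat_lit 0) (XT.lf (nat_lit 0) (nat_lit 3381882620) (nat_lit 684) (nat_lit 104015935) (nat_lit 760) (nat_lit 3283791035) (nat_lit 302) (nat_lit 5) (nat_lit 311) (nat_lit 5) (nat_lit 312) (nat_lit 5) (nat_lit 317) (nat_lit 294) (nat_lit 289)) (XT.lf (nat_lit 0) (nat_lit 838183816) (nat_lit 760) (nat_lit 5670363231) (nat_lit 836) (nat_lit 304253479) (nat_lit 292) (nat_lit 5) (nat_lit 302) (nat_lit 5) (nat_lit 303) (nat_lit 4) (nat_lit 318) (nat_lit 294) (nat_lit 288))))) (XT.nd (nat_lit 234) (nat_lit 2128) (nat_lit 0) (XT.nd (nat_lit 78) (nat_lit 1824) (nat_lit 0) (XT.lf (nat_lit 0) (nat_lit 2650020829) (nat_lit 836) (nat_lit 1705951399) (nat_lit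 76) (nat_lit 2502361473) (nat_lit 291) (nat_lit 5) (nat_lit 302) (nat_lit 5) (nat_lit 292) (nat_lit 5) (nat_lit 319) (nat_lit 294) (nat_lit 287)) (XT.nd (nat_lit 78) (nat_lit 988) (nat_lit 0) (XT.lf (nat_lit 0) (nat_lit 2659829670) (nat_lit 836) (nat_lit 2959071187) (nat_lit 912) (nat_lit 1288380962) (nat_lit 280) (nat_lit 5) (nat_lit 291) (nat_lit 5) (nat_lit 292) (nat_lit 5) (nat_lit 320) (nat_lit 294) (nat_lit 286)) (XT.lf (nat_lit 0) (nat_lit 139407760) (nat_lit 912) (nat_lit 1472415957) (nat_lit 988) (nat_lit 5347688487) (nat_lit 267) (nat_lit 5) (nat_lit 279) (nat_lit 5) (nat_lit 280) (nat_lit 5) (nat_lit 321) (nat_lit 294) (nat_lit 285)))) (XT.nd (nat_lit 156) (nat_lit 1064) (nat_lit 0) (XT.nd (nat_lit 78) (nat_lit 1064) (nat_lit 0) (XT.lf (nat_lit 0) (nat_lit 4526528441) (nat_lit 988) (nat_lit 2363933767) (nat_lit 76) (nat_lit 123956369) (nat_lit 267) (nat_lit 5) (nat_lit 280) (nat_lit 5) (nat_lit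 268) (nat_lit 5) (nat_lit 322) (nat_lit 294) (nat_lit 284)) (XT.lf (nat_lit 0) (nat_lit 395773854) (nat_lit 1064) (nat_lit 4903452728) (nat_lit 76) (nat_lit 1773291544) (nat_lit 253) (nat_lit 5) (nat_lit 267) (nat_lit 5) (nat_lit 254) (nat_lit 5) (nat_lit 323) (nat_lit 294) (nat_lit 283))) (XT.nd (nat_lit 78) (nat_lit 1064) (nat_lit 0) (XT.lf (nat_lit 0) (nat_lit 3253047099) (nat_lit 1064) (nat_lit 351712587) (nat_lit 76) (nat_lit 3528834402) (nat_lit 253) (nat_lit 5) (nat_lit 267) (nat_lit 5) (nat_lit 254) (nat_lit 5) (nat_lit 324) (nat_lit 294) (nat_lit 282)) (XT.lf (nat_lit 0) (nat_lit 4341975297) (nat_lit 1064) (nat_lit 1811331081) (nat_lit 1140) (nat_lit 1044560931) (nat_lit 239) (nat_lit 5) (nat_lit 253) (nat_lit 5) (nat_lit 254) (nat_lit 5) (nat_lit 325) (nat_lit 294) (nat_lit 281))))))))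
noncomputable def xc89 : XT := (XT.nd (nat_lit 2028) (nat_lit 4332) (nat_lit 0) (XT.nd (nat_lit 1014) (nat_lit 3420) (nat_lit 0) (XT.nd (nat_lit 468) (nat_lit 2736) (nat_lit 0) (XT.nd (nat_lit 234) (nat_lit 1216) (nat_lit 0) (XT.nd (nat_lit 78) (nat_lit 1064) (nat_lit 0) (XT.lf (nat_lit 0) (nat_lit 1778435659) (nat_lit 1216) (nat_lit 5408641799) (nat_lit 76) (nat_lit 78371926) (nat_lit 223) (nat_lit 5) (nat_lit 239) (nat_lit 5) (nat_lit 224) (nat_lit 5) (nat_lit 326) (nat_lit 294) (nat_lit 280)) (XT.nd (nat_lit 78) (nat_lit 1064) (nat_lit 0) (XT.lf (nat_lit 0) (nat_lit 4630219067) (nat_lit 1216) (nat_lit 675394176) (nat_lit 76) (nat_lit 2030258638) (nat_lit 223) (nat_lit 5) (nat_lit 239) (nat_lit 5) (nat_lit 224) (nat_lit 5) (nat_lit 327) (nat_lit 294) (nat_lit 279)) (XT.lf (nat_lit 0) (nat_lit 116397426) (nat_lit 1064) (nat_lit 3208626672) (nat_lit 76) (nat_lit 4084598049) (nat_lit 209) (nat_lit 5) (nat_lit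 223) (nat_lit 5) (nat_lit 210) (nat_lit 5) (nat_lit 328) (nat_lit 294) (nat_lit 278)))) (XT.nd (nat_lit 78) (nat_lit 608) (nat_lit 0) (XT.lf (nat_lit 0) (nat_lit 1677481581) (nat_lit 608) (nat_lit 1235396583) (nat_lit 684) (nat_lit 4573648122) (nat_lit 201) (nat_lit 5) (nat_lit 209) (nat_lit 5) (nat_lit 210) (nat_lit 5) (nat_lit 329) (nat_lit 294) (nat_lit 277)) (XT.nd (nat_lit 78) (nat_lit 608) (nat_lit 0) (XT.lf (nat_lit 0) (nat_lit 5757433400) (nat_lit 684) (nat_lit 880065583) (nat_lit 76) (nat_lit 929380665) (nat_lit 201) (nat_lit 5) (nat_lit 210) (nat_lit 5) (nat_lit 202) (nat_lit 5) (nat_lit 330) (nat_lit 294) (nat_lit 276)) (XT.lf (nat_lit 0) (nat_lit 994517088) (nat_lit 608) (nat_lit 3473613123) (nat_lit 76) (nat_lit 3181965250) (nat_lit 193) (nat_lit 5) (nat_lit 201) (nat_lit 5) (nat_lit 194) (nat_lit 5) (nat_lit 331) (nat_lit 294) (nat_lit 275))))) (XT.nd (nat_lit 234) (nat_lit 1520) (nat_lit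 0) (XT.nd (nat_lit 78) (nat_lit 608) (nat_lit 0) (XT.lf (nat_lit 0) (nat_lit 1599961099) (nat_lit 608) (nat_lit 2196159210) (nat_lit 684) (nat_lit 3940715080) (nat_lit 185) (nat_lit 5) (nat_lit 193) (nat_lit 5) (nat_lit 194) (nat_lit 5) (nat_lit 332) (nat_lit 294) (nat_lit 274)) (XT.nd (nat_lit 78) (nat_lit 608) (nat_lit 0) (XT.lf (nat_lit 0) (nat_lit 6645452970) (nat_lit 684) (nat_lit 1011789951) (nat_lit 76) (nat_lit 170084125) (nat_lit 185) (nat_lit 5) (nat_lit 194) (nat_lit 5) (nat_lit 186) (nat_lit 5) (nat_lit 333) (nat_lit 294) (nat_lit 273)) (XT.lf (nat_lit 0) (nat_lit 1618793149) (nat_lit 608) (nat_lit 3688000880) (nat_lit 76) (nat_lit 2613573872) (nat_lit 177) (nat_lit 5) (nat_lit 185) (nat_lit 5) (nat_lit 178) (nat_lit 5) (nat_lit 334) (nat_lit 294) (nat_lit 272)))) (XT.nd (nat_lit 156) (nat_lit 988) (nat_lit 0) (XT.nd (nat_lit 78) (nat_lit 0) (nat_lit 0) (XT.lf (nat_lit 0) (nat_lit 1577501765)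 (nat_lit 532) (nat_lit 2857275428) (nat_lit 608) (nat_lit 3582475083) (nat_lit 170) (nat_lit 5) (nat_lit 177) (nat_lit 5) (nat_lit 178) (nat_lit 5) (nat_lit 335) (nat_lit 294) (nat_lit 271)) (XT.lf (nat_lit 0) (nat_lit 6997181883) (nat_lit 532) (nat_lit 306157843) (nat_lit 608) (nat_lit 814713770) (nat_lit 170) (nat_lit 5) (nat_lit 177) (nat_lit 5) (nat_lit 178) (nat_lit 5) (nat_lit 336) (nat_lit 294) (nat_lit 270))) (XT.nd (nat_lit 78) (nat_lit 456) (nat_lit 0) (XT.lf (nat_lit 0) (nat_lit 1993085722) (nat_lit 532) (nat_lit 3900646688) (nat_lit 76) (nat_lit 2327707311) (nat_lit 163) (nat_lit 5) (nat_lit 170) (nat_lit 5) (nat_lit 164) (nat_lit 5) (nat_lit 337) (nat_lit 294) (nat_lit 269)) (XT.lf (nat_lit 0) (nat_lit 1560693960) (nat_lit 456) (nat_lit 3270792926) (nat_lit 532) (nat_lit 3497365136) (nat_lit 157) (nat_lit 5) (nat_lit 163) (nat_lit 5) (nat_lit 164) (nat_lit 5) (nat_lit 338) (nat_lit 294) (nat_lit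 268)))))) (XT.nd (nat_lit 468) (nat_lit 1596) (nat_lit 0) (XT.nd (nat_lit 234) (nat_lit 836) (nat_lit 0) (XT.nd (nat_lit 78) (nat_lit 988) (nat_lit 0) (XT.lf (nat_lit 0) (nat_lit 7186967705) (nat_lit 456) (nat_lit 541924843) (nat_lit 532) (nat_lit 711425913) (nat_lit 157) (nat_lit 5) (nat_lit 163) (nat_lit 5) (nat_lit 164) (nat_lit 5) (nat_lit 339) (nat_lit 294) (nat_lit 267)) (XT.nd (nat_lit 78) (nat_lit 456) (nat_lit 0) (XT.lf (nat_lit 0) (nat_lit 2116414724) (nat_lit 532) (nat_lit 4163108372) (nat_lit 76) (nat_lit 2275015014) (nat_lit 150) (nat_lit 5) (nat_lit 157) (nat_lit 5) (nat_lit 151) (nat_lit 5) (nat_lit 340) (nat_lit 294) (nat_lit 266)) (XT.lf (nat_lit 0) (nat_lit 1497187797) (nat_lit 456) (nat_lit 3486837653) (nat_lit 532) (nat_lit 3688913895) (nat_lit 144) (nat_lit 5) (nat_lit 150) (nat_lit 5) (nat_lit 151) (nat_lit 5) (nat_lit 341) (nat_lit 294) (nat_lit 265)))) (XT.nd (nat_lit 78) (nat_lit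 836) (nat_lit 0) (XT.lf (nat_lit 0) (nat_lit 7334471901) (nat_lit 456) (nat_lit 583018997) (nat_lit 532) (nat_lit 878048988) (nat_lit 144) (nat_lit 5) (nat_lit 150) (nat_lit 5) (nat_lit 151) (nat_lit 5) (nat_lit 342) (nat_lit 294) (nat_lit 264)) (XT.nd (nat_lit 78) (nat_lit 380) (nat_lit 0) (XT.lf (nat_lit 0) (nat_lit 1982781560) (nat_lit 456) (nat_lit 4530764439) (nat_lit 76) (nat_lit 2407580354) (nat_lit 138) (nat_lit 5) (nat_lit 144) (nat_lit 5) (nat_lit 139) (nat_lit 5) (nat_lit 343) (nat_lit 294) (nat_lit 263)) (XT.lf (nat_lit 0) (nat_lit 1330535743) (nat_lit 380) (nat_lit 3554562957) (nat_lit 456) (nat_lit 4165960112) (nat_lit 133) (nat_lit 5) (nat_lit 138) (nat_lit 5) (nat_lit 139) (nat_lit 5) (nat_lit 344) (nat_lit 294) (nat_lit 262))))) (XT.nd (nat_lit 234) (nat_lit 760) (nat_lit 0) (XT.nd (nat_lit 78) (nat_lit 836) (nat_lit 0) (XT.lf (nat_lit 0) (nat_lit 7383253403) (nat_lit 380) (nat_lit 477839980)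 (nat_lit 456) (nat_lit 1324234994) (nat_lit 133) (nat_lit 5) (nat_lit 138) (nat_lit 5) (nat_lit 139) (nat_lit 5) (nat_lit 345) (nat_lit 294) (nat_lit 261)) (XT.nd (nat_lit 78) (nat_lit 380) (nat_lit 0) (XT.lf (nat_lit 0) (nat_lit 1580894900) (nat_lit 456) (nat_lit 5064041260) (nat_lit 76) (nat_lit 2677980053) (nat_lit 127) (nat_lit 5) (nat_lit 133) (nat_lit 5) (nat_lit 128) (nat_lit 5) (nat_lit 346) (nat_lit 294) (nat_lit 260)) (XT.lf (nat_lit 0) (nat_lit 998920547) (nat_lit 380) (nat_lit 3523115244) (nat_lit 456) (nat_lit 4942972569) (nat_lit 122) (nat_lit 5) (nat_lit 127) (nat_lit 5) (nat_lit 128) (nat_lit 5) (nat_lit 347) (nat_lit 294) (nat_lit 259)))) (XT.nd (nat_lit 156) (nat_lit 380) (nat_lit 0) (XT.nd (nat_lit 78) (nat_lit 380) (nat_lit 0) (XT.lf (nat_lit 0) (nat_lit 7271276681) (nat_lit 380) (nat_lit 274966768) (nat_lit 456) (nat_lit 2065308052) (nat_lit 122) (nat_lit 5) (nat_lit 127) (nat_lit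 5) (nat_lit 128) (nat_lit 5) (nat_lit 348) (nat_lit 294) (nat_lit 258)) (XT.lf (nat_lit 0) (nat_lit 893792742) (nat_lit 380) (nat_lit 5829773300) (nat_lit 76) (nat_lit 3038317742) (nat_lit 117) (nat_lit 5) (nat_lit 122) (nat_lit 5) (nat_lit 118) (nat_lit 5) (nat_lit 349) (nat_lit 294) (nat_lit 257))) (XT.nd (nat_lit 78) (nat_lit 0) (nat_lit 0) (XT.lf (nat_lit 0) (nat_lit 433741960) (nat_lit 380) (nat_lit 3442634179) (nat_lit 456) (nat_lit 6040480220) (nat_lit 112) (nat_lit 5) (nat_lit 117) (nat_lit 5) (nat_lit 118) (nat_lit 5) (nat_lit 350) (nat_lit 294) (nat_lit 256)) (XT.lf (nat_lit 0) (nat_lit 6929471329) (nat_lit 380) (nat_lit 24162860) (nat_lit 456) (nat_lit 3122717511) (nat_lit 112) (nat_lit 5) (nat_lit 117) (nat_lit 5) (nat_lit 118) (nat_lit 5) (nat_lit 351) (nat_lit 294) (nat_lit 255))))))) (XT.nd (nat_lit 1014) (nat_lit 1824) (nat_lit 0) (XT.nd (nat_lit 468) (nat_lit 1140) (nat_lit 0) (XT.nd (nat_lit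 234) (nat_lit 684) (nat_lit 0) (XT.nd (nat_lit 78) (nat_lit 380) (nat_lit 0) (XT.lf (nat_lit 0) (nat_lit 3336537713) (nat_lit 304) (nat_lit 6800049353) (nat_lit 380) (nat_lit 103672164) (nat_lit 108) (nat_lit 5) (nat_lit 112) (nat_lit 5) (nat_lit 113) (nat_lit 5) (nat_lit 352) (nat_lit 294) (nat_lit 254)) (XT.nd (nat_lit 78) (nat_lit 304) (nat_lit 0) (XT.lf (nat_lit 0) (nat_lit 2927587521) (nat_lit 380) (nat_lit 433343200) (nat_lit 76) (nat_lit 7047904424) (nat_lit 107) (nat_lit 5) (nat_lit 112) (nat_lit 5) (nat_lit 108) (nat_lit 5) (nat_lit 353) (nat_lit 294) (nat_lit 253)) (XT.lf (nat_lit 0) (nat_lit 6059693056) (nat_lit 380) (nat_lit 4304193304) (nat_lit 76) (nat_lit 218217641) (nat_lit 103) (nat_lit 5) (nat_lit 108) (nat_lit 5) (nat_lit 104) (nat_lit 5) (nat_lit 354) (nat_lit 294) (nat_lit 252)))) (XT.nd (nat_lit 78) (nat_lit 380) (nat_lit 0) (XT.lf (nat_lit 0) (nat_lit 2378899624) (nat_lit 304) (nat_lit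 6917477674) (nat_lit 380) (nat_lit 1463900607) (nat_lit 99) (nat_lit 5) (nat_lit 103) (nat_lit 5) (nat_lit 104) (nat_lit 5) (nat_lit 355) (nat_lit 294) (nat_lit 251)) (XT.nd (nat_lit 78) (nat_lit 304) (nat_lit 0) (XT.lf (nat_lit 0) (nat_lit 1647651851) (nat_lit 380) (nat_lit 1681859813) (nat_lit 76) (nat_lit 7613997225) (nat_lit 98) (nat_lit 5) (nat_lit 103) (nat_lit 5) (nat_lit 99) (nat_lit 5) (nat_lit 356) (nat_lit 294) (nat_lit 250)) (XT.lf (nat_lit 0) (nat_lit 4829136429) (nat_lit 380) (nat_lit 5900702580) (nat_lit 76) (nat_lit 401806005) (nat_lit 94) (nat_lit 5) (nat_lit 99) (nat_lit 5) (nat_lit 95) (nat_lit 5) (nat_lit 357) (nat_lit 294) (nat_lit 249))))) (XT.nd (nat_lit 234) (nat_lit 532) (nat_lit 0) (XT.nd (nat_lit 78) (nat_lit 380) (nat_lit 0) (XT.lf (nat_lit 0) (nat_lit 974745235) (nat_lit 228) (nat_lit 7143059337) (nat_lit 304) (nat_lit 3207291091) (nat_lit 91) (nat_lit 5) (nat_lit 94) (nat_lit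 5) (nat_lit 95) (nat_lit 5) (nat_lit 358) (nat_lit 294) (nat_lit 248)) (XT.nd (nat_lit 78) (nat_lit 380) (nat_lit 0) (XT.lf (nat_lit 0) (nat_lit 8106287887) (nat_lit 228) (nat_lit 3411389475) (nat_lit 304) (nat_lit 6318085) (nat_lit 91) (nat_lit 5) (nat_lit 94) (nat_lit 5) (nat_lit 95) (nat_lit 5) (nat_lit 359) (nat_lit 294) (nat_lit 247)) (XT.lf (nat_lit 0) (nat_lit 3220420249) (nat_lit 380) (nat_lit 8039484826) (nat_lit 76) (nat_lit 468210402) (nat_lit 86) (nat_lit 5) (nat_lit 91) (nat_lit 5) (nat_lit 87) (nat_lit 5) (nat_lit 360) (nat_lit 294) (nat_lit 246)))) (XT.nd (nat_lit 156) (nat_lit 304) (nat_lit 0) (XT.nd (nat_lit 78) (nat_lit 228) (nat_lit 0) (XT.lf (nat_lit 0) (nat_lit 6566768422) (nat_lit 380) (nat_lit 963748735) (nat_lit 76) (nat_lit 4407172124) (nat_lit 86) (nat_lit 5) (nat_lit 91) (nat_lit 5) (nat_lit 87) (nat_lit 5) (nat_lit 361) (nat_lit 294) (nat_lit 245)) (XT.lf (nat_lit 0) (nat_lit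 6380352155) (nat_lit 228) (nat_lit 3650122356) (nat_lit 304) (nat_lit 2122586269) (nat_lit 83) (nat_lit 5) (nat_lit 86) (nat_lit 5) (nat_lit 87) (nat_lit 5) (nat_lit 362) (nat_lit 294) (nat_lit 244))) (XT.nd (nat_lit 78) (nat_lit 0) (nat_lit 0) (XT.lf (nat_lit 0) (nat_lit 1183238889) (nat_lit 304) (nat_lit 10839124127) (nat_lit 76) (nat_lit 352678761) (nat_lit 79) (nat_lit 5) (nat_lit 83) (nat_lit 5) (nat_lit 80) (nat_lit 5) (nat_lit 363) (nat_lit 294) (nat_lit 243)) (XT.lf (nat_lit 0) (nat_lit 4596810654) (nat_lit 304) (nat_lit 3546582714) (nat_lit 76) (nat_lit 4458139204) (nat_lit 79) (nat_lit 5) (nat_lit 83) (nat_lit 5) (nat_lit 80) (nat_lit 5) (nat_lit 364) (nat_lit 294) (nat_lit 242)))))) (XT.nd (nat_lit 546) (nat_lit 760) (nat_lit 0) (XT.nd (nat_lit 234) (nat_lit 532) (nat_lit 0) (XT.nd (nat_lit 78) (nat_lit 304) (nat_lit 0) (XT.lf (nat_lit 0) (nat_lit 3975263748) (nat_lit 228) (nat_lit 4133237239)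 (nat_lit 304) (nat_lit 4726463091) (nat_lit 76) (nat_lit 5) (nat_lit 79) (nat_lit 5) (nat_lit 80) (nat_lit 5) (nat_lit 365) (nat_lit 294) (nat_lit 241)) (XT.nd (nat_lit 78) (nat_lit 304) (nat_lit 0) (XT.lf (nat_lit 0) (nat_lit 11719546617) (nat_lit 304) (nat_lit 1346609085) (nat_lit 76) (nat_lit 9439514) (nat_lit 76) (nat_lit 5) (nat_lit 80) (nat_lit 5) (nat_lit 77) (nat_lit 5) (nat_lit 366) (nat_lit 294) (nat_lit 240)) (XT.lf (nat_lit 0) (nat_lit 2136428013) (nat_lit 304) (nat_lit 6931972881) (nat_lit 76) (nat_lit 4252583286) (nat_lit 72) (nat_lit 5) (nat_lit 76) (nat_lit 5) (nat_lit 73) (nat_lit 5) (nat_lit 367) (nat_lit 294) (nat_lit 239)))) (XT.nd (nat_lit 156) (nat_lit 304) (nat_lit 0) (XT.nd (nat_lit 78) (nat_lit 0) (nat_lit 0) (XT.lf (nat_lit 0) (nat_lit 746335343) (nat_lit 228) (nat_lit 4940239264) (nat_lit 304) (nat_lit 7887368289) (nat_lit 69) (nat_lit 5) (nat_lit 72) (nat_lit 5) (nat_lit 73)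 (nat_lit 5) (nat_lit 368) (nat_lit 294) (nat_lit 238)) (XT.lf (nat_lit 0) (nat_lit 8732089962) (nat_lit 228) (nat_lit 640941147) (nat_lit 304) (nat_lit 4460580049) (nat_lit 69) (nat_lit 5) (nat_lit 72) (nat_lit 5) (nat_lit 73) (nat_lit 5) (nat_lit 369) (nat_lit 294) (nat_lit 237))) (XT.nd (nat_lit 78) (nat_lit 76) (nat_lit 0) (XT.lf (nat_lit 0) (nat_lit 2810727029) (nat_lit 228) (nat_lit 10383524241) (nat_lit 304) (nat_lit 906107611) (nat_lit 66) (nat_lit 5) (nat_lit 69) (nat_lit 5) (nat_lit 70) (nat_lit 5) (nat_lit 370) (nat_lit 294) (nat_lit 236)) (XT.lf (nat_lit 0) (nat_lit 2720492142) (nat_lit 304) (nat_lit 3406209523) (nat_lit 76) (nat_lit 8247048977) (nat_lit 65) (nat_lit 5) (nat_lit 69) (nat_lit 5) (nat_lit 66) (nat_lit 5) (nat_lit 371) (nat_lit 294) (nat_lit 235))))) (XT.nd (nat_lit 234) (nat_lit 380) (nat_lit 0) (XT.nd (nat_lit 78) (nat_lit 228) (nat_lit 0) (XT.lf (nat_lit 0) (nat_lit 4734781322)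 (nat_lit 152) (nat_lit 1710431410) (nat_lit 228) (nat_lit 8209649521) (nat_lit 63) (nat_lit 5) (nat_lit 65) (nat_lit 5) (nat_lit 66) (nat_lit 5) (nat_lit 372) (nat_lit 294) (nat_lit 234)) (XT.nd (nat_lit 78) (nat_lit 228) (nat_lit 0) (XT.lf (nat_lit 0) (nat_lit 10305995651) (nat_lit 228) (nat_lit 1843821385) (nat_lit 76) (nat_lit 2793873452) (nat_lit 63) (nat_lit 5) (nat_lit 66) (nat_lit 5) (nat_lit 64) (nat_lit 5) (nat_lit 373) (nat_lit 294) (nat_lit 233)) (XT.lf (nat_lit 0) (nat_lit 6524280268) (nat_lit 228) (nat_lit 7801370556) (nat_lit 304) (nat_lit 914253802) (nat_lit 60) (nat_lit 5) (nat_lit 63) (nat_lit 5) (nat_lit 64) (nat_lit 5) (nat_lit 374) (nat_lit 294) (nat_lit 232)))) (XT.nd (nat_lit 156) (nat_lit 152) (nat_lit 0) (XT.nd (nat_lit 78) (nat_lit 152) (nat_lit 0) (XT.lf (nat_lit 0) (nat_lit 2846212771) (nat_lit 304) (nat_lit 452451369) (nat_lit 76) (nat_lit 12246040944) (nat_lit 59) (nat_lit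 5) (nat_lit 63) (nat_lit 5) (nat_lit 60) (nat_lit 5) (nat_lit 375) (nat_lit 294) (nat_lit 231)) (XT.lf (nat_lit 0) (nat_lit 6757542720) (nat_lit 228) (nat_lit 7721211143) (nat_lit 76) (nat_lit 1377942841) (nat_lit 57) (nat_lit 5) (nat_lit 60) (nat_lit 5) (nat_lit 58) (nat_lit 5) (nat_lit 376) (nat_lit 294) (nat_lit 230))) (XT.nd (nat_lit 78) (nat_lit 0) (nat_lit 0) (XT.lf (nat_lit 0) (nat_lit 734613182) (nat_lit 152) (nat_lit 10060754712) (nat_lit 228) (nat_lit 5382416642) (nat_lit 55) (nat_lit 5) (nat_lit 57) (nat_lit 5) (nat_lit 58) (nat_lit 5) (nat_lit 377) (nat_lit 294) (nat_lit 229)) (XT.lf (nat_lit 0) (nat_lit 9543531356) (nat_lit 152) (nat_lit 5454044077) (nat_lit 228) (nat_lit 1509642940) (nat_lit 55) (nat_lit 5) (nat_lit 57) (nat_lit 5) (nat_lit 58) (nat_lit 5) (nat_lit 378) (nat_lit 294) (nat_lit 228))))))))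
noncomputable def xc90 : XT := (XT.nd (nat_lit 2028) (nat_lit 988) (nat_lit 0) (XT.nd (nat_lit 1014) (nat_lit 912) (nat_lit 0) (XT.nd (nat_lit 468) (nat_lit 532) (nat_lit 0) (XT.nd (nat_lit 234) (nat_lit 228) (nat_lit 0) (XT.nd (nat_lit 78) (nat_lit 152) (nat_lit 0) (XT.lf (nat_lit 0) (nat_lit 1722122224) (nat_lit 152) (nat_lit 691311274) (nat_lit 228) (nat_lit 14432921931) (nat_lit 52) (nat_lit 5) (nat_lit 54) (nat_lit 5) (nat_lit 55) (nat_lit 5) (nat_lit 379) (nat_lit 294) (nat_lit 227)) (XT.nd (nat_lit 78) (nat_lit 152) (nat_lit 0) (XT.lf (nat_lit 0) (nat_lit 6501546010) (nat_lit 228) (nat_lit 6496511848) (nat_lit 76) (nat_lit 4194839628) (nat_lit 52) (nat_lit 5) (nat_lit 55) (nat_lit 5) (nat_lit 53) (nat_lit 5) (nat_lit 380) (nat_lit 294) (nat_lit 226)) (XT.lf (nat_lit 0) (nat_lit 2373140257) (nat_lit 152) (nat_lit 8335963846) (nat_lit 228) (nat_lit 6840837232) (nat_lit 50) (nat_lit 5) (nat_lit 52)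 (nat_lit 5) (nat_lit 53) (nat_lit 5) (nat_lit 381) (nat_lit 294) (nat_lit 225)))) (XT.nd (nat_lit 78) (nat_lit 228) (nat_lit 0) (XT.lf (nat_lit 0) (nat_lit 11586241905) (nat_lit 152) (nat_lit 3489814957) (nat_lit 228) (nat_lit 2840653914) (nat_lit 50) (nat_lit 5) (nat_lit 52) (nat_lit 5) (nat_lit 53) (nat_lit 5) (nat_lit 382) (nat_lit 294) (nat_lit 224)) (XT.nd (nat_lit 78) (nat_lit 0) (nat_lit 0) (XT.lf (nat_lit 0) (nat_lit 1263964973) (nat_lit 228) (nat_lit 15540736897) (nat_lit 76) (nat_lit 1489139270) (nat_lit 47) (nat_lit 5) (nat_lit 50) (nat_lit 5) (nat_lit 48) (nat_lit 5) (nat_lit 383) (nat_lit 294) (nat_lit 223)) (XT.lf (nat_lit 0) (nat_lit 5502113538) (nat_lit 228) (nat_lit 6559747108) (nat_lit 76) (nat_lit 6617564971) (nat_lit 47) (nat_lit 5) (nat_lit 50) (nat_lit 5) (nat_lit 48) (nat_lit 5) (nat_lit 384) (nat_lit 294) (nat_lit 222))))) (XT.nd (nat_lit 234) (nat_lit 228) (nat_lit 0) (XT.nd (nat_lit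 78) (nat_lit 152) (nat_lit 0) (XT.lf (nat_lit 0) (nat_lit 2689739880) (nat_lit 152) (nat_lit 7172817804) (nat_lit 228) (nat_lit 9214173687) (nat_lit 45) (nat_lit 5) (nat_lit 47) (nat_lit 5) (nat_lit 48) (nat_lit 5) (nat_lit 385) (nat_lit 294) (nat_lit 221)) (XT.nd (nat_lit 78) (nat_lit 152) (nat_lit 0) (XT.lf (nat_lit 0) (nat_lit 12298284571) (nat_lit 152) (nat_lit 2091452707) (nat_lit 228) (nat_lit 5095149393) (nat_lit 45) (nat_lit 5) (nat_lit 47) (nat_lit 5) (nat_lit 48) (nat_lit 5) (nat_lit 386) (nat_lit 294) (nat_lit 220)) (XT.lf (nat_lit 0) (nat_lit 2251492667) (nat_lit 152) (nat_lit 16823442438) (nat_lit 228) (nat_lit 829693240) (nat_lit 43) (nat_lit 5) (nat_lit 45) (nat_lit 5) (nat_lit 46) (nat_lit 4) (nat_lit 387) (nat_lit 294) (nat_lit 219)))) (XT.nd (nat_lit 156) (nat_lit 0) (nat_lit 0) (XT.nd (nat_lit 78) (nat_lit 152) (nat_lit 0) (XT.lf (nat_lit 0) (nat_lit 3558606802) (nat_lit 228) (nat_lit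 8322539897) (nat_lit 76) (nat_lit 8452862581) (nat_lit 42) (nat_lit 5) (nat_lit 45) (nat_lit 5) (nat_lit 43) (nat_lit 5) (nat_lit 388) (nat_lit 294) (nat_lit 218)) (XT.lf (nat_lit 0) (nat_lit 1253619043) (nat_lit 152) (nat_lit 6791597542) (nat_lit 228) (nat_lit 12731315654) (nat_lit 40) (nat_lit 5) (nat_lit 42) (nat_lit 5) (nat_lit 43) (nat_lit 5) (nat_lit 389) (nat_lit 294) (nat_lit 217))) (XT.nd (nat_lit 78) (nat_lit 0) (nat_lit 0) (XT.lf (nat_lit 0) (nat_lit 11237560213) (nat_lit 152) (nat_lit 1484546651) (nat_lit 228) (nat_lit 8508560487) (nat_lit 40) (nat_lit 5) (nat_lit 42) (nat_lit 5) (nat_lit 43) (nat_lit 5) (nat_lit 390) (nat_lit 294) (nat_lit 216)) (XT.lf (nat_lit 0) (nat_lit 17549842442) (nat_lit 228) (nat_lit 264958388) (nat_lit 76) (nat_lit 3883316258) (nat_lit 40) (nat_lit 5) (nat_lit 43) (nat_lit 5) (nat_lit 41) (nat_lit 4) (nat_lit 391) (nat_lit 294) (nat_lit 215)))))) (XT.nd (nat_lit 468)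 (nat_lit 456) (nat_lit 0) (XT.nd (nat_lit 234) (nat_lit 152) (nat_lit 0) (XT.nd (nat_lit 78) (nat_lit 152) (nat_lit 0) (XT.lf (nat_lit 0) (nat_lit 419738154) (nat_lit 152) (nat_lit 12295833651) (nat_lit 76) (nat_lit 9461417753) (nat_lit 38) (nat_lit 5) (nat_lit 40) (nat_lit 5) (nat_lit 39) (nat_lit 5) (nat_lit 392) (nat_lit 294) (nat_lit 214)) (XT.nd (nat_lit 78) (nat_lit 152) (nat_lit 0) (XT.lf (nat_lit 0) (nat_lit 5017248293) (nat_lit 152) (nat_lit 2422074854) (nat_lit 76) (nat_lit 15230404058) (nat_lit 38) (nat_lit 5) (nat_lit 40) (nat_lit 5) (nat_lit 39) (nat_lit 5) (nat_lit 393) (nat_lit 294) (nat_lit 213)) (XT.lf (nat_lit 0) (nat_lit 7854651360) (nat_lit 152) (nat_lit 1947449795) (nat_lit 228) (nat_lit 13373669284) (nat_lit 36) (nat_lit 5) (nat_lit 38) (nat_lit 5) (nat_lit 39) (nat_lit 5) (nat_lit 394) (nat_lit 294) (nat_lit 212)))) (XT.nd (nat_lit 78) (nat_lit 152) (nat_lit 0) (XT.lf (nat_lit 0)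 (nat_lit 14764890536) (nat_lit 228) (nat_lit 5289474414) (nat_lit 76) (nat_lit 3641604097) (nat_lit 36) (nat_lit 5) (nat_lit 39) (nat_lit 5) (nat_lit 37) (nat_lit 4) (nat_lit 395) (nat_lit 294) (nat_lit 211)) (XT.nd (nat_lit 78) (nat_lit 76) (nat_lit 0) (XT.lf (nat_lit 0) (nat_lit 5077633799) (nat_lit 76) (nat_lit 14841812705) (nat_lit 152) (nat_lit 4311046256) (nat_lit 35) (nat_lit 5) (nat_lit 36) (nat_lit 5) (nat_lit 37) (nat_lit 4) (nat_lit 396) (nat_lit 294) (nat_lit 210)) (XT.lf (nat_lit 0) (nat_lit 467638209) (nat_lit 152) (nat_lit 8965445841) (nat_lit 76) (nat_lit 15346980817) (nat_lit 34) (nat_lit 5) (nat_lit 36) (nat_lit 5) (nat_lit 35) (nat_lit 5) (nat_lit 397) (nat_lit 294) (nat_lit 209))))) (XT.nd (nat_lit 234) (nat_lit 304) (nat_lit 0) (XT.nd (nat_lit 78) (nat_lit 0) (nat_lit 0) (XT.lf (nat_lit 0) (nat_lit 1469554158) (nat_lit 152) (nat_lit 3823183380) (nat_lit 228) (nat_lit 20052420184) (nat_lit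 32) (nat_lit 5) (nat_lit 34) (nat_lit 5) (nat_lit 35) (nat_lit 5) (nat_lit 398) (nat_lit 294) (nat_lit 208)) (XT.nd (nat_lit 78) (nat_lit 0) (nat_lit 0) (XT.lf (nat_lit 0) (nat_lit 10348493473) (nat_lit 228) (nat_lit 13586927907) (nat_lit 76) (nat_lit 1989209881) (nat_lit 32) (nat_lit 5) (nat_lit 35) (nat_lit 5) (nat_lit 33) (nat_lit 4) (nat_lit 399) (nat_lit 294) (nat_lit 207)) (XT.lf (nat_lit 0) (nat_lit 15570164745) (nat_lit 228) (nat_lit 3070298088) (nat_lit 76) (nat_lit 7880603757) (nat_lit 32) (nat_lit 5) (nat_lit 35) (nat_lit 5) (nat_lit 33) (nat_lit 4) (nat_lit 400) (nat_lit 294) (nat_lit 206)))) (XT.nd (nat_lit 156) (nat_lit 228) (nat_lit 0) (XT.nd (nat_lit 78) (nat_lit 0) (nat_lit 0) (XT.lf (nat_lit 0) (nat_lit 7873873593) (nat_lit 76) (nat_lit 13127378096) (nat_lit 152) (nat_lit 6132565042) (nat_lit 31) (nat_lit 5) (nat_lit 32) (nat_lit 5) (nat_lit 33) (nat_lit 4) (nat_lit 401) (nat_lit 294)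 (nat_lit 205)) (XT.lf (nat_lit 0) (nat_lit 19168111748) (nat_lit 76) (nat_lit 7435512181) (nat_lit 152) (nat_lit 1161079450) (nat_lit 31) (nat_lit 5) (nat_lit 32) (nat_lit 5) (nat_lit 33) (nat_lit 4) (nat_lit 402) (nat_lit 294) (nat_lit 204))) (XT.nd (nat_lit 78) (nat_lit 0) (nat_lit 0) (XT.lf (nat_lit 0) (nat_lit 2354092330) (nat_lit 152) (nat_lit 1528608600) (nat_lit 228) (nat_lit 24530665708) (nat_lit 28) (nat_lit 5) (nat_lit 30) (nat_lit 5) (nat_lit 31) (nat_lit 5) (nat_lit 403) (nat_lit 294) (nat_lit 203)) (XT.lf (nat_lit 0) (nat_lit 9163791107) (nat_lit 228) (nat_lit 15366048206) (nat_lit 76) (nat_lit 4548029812) (nat_lit 28) (nat_lit 5) (nat_lit 31) (nat_lit 5) (nat_lit 29) (nat_lit 4) (nat_lit 404) (nat_lit 294) (nat_lit 202))))))) (XT.nd (nat_lit 1014) (nat_lit 380) (nat_lit 0) (XT.nd (nat_lit 468) (nat_lit 304) (nat_lit 0) (XT.nd (nat_lit 234) (nat_lit 228) (nat_lit 0) (XT.nd (nat_lit 78) (nat_lit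 76) (nat_lit 0) (XT.lf (nat_lit 0) (nat_lit 14596967606) (nat_lit 228) (nat_lit 4406514995) (nat_lit 76) (nat_lit 10759018548) (nat_lit 28) (nat_lit 5) (nat_lit 31) (nat_lit 5) (nat_lit 29) (nat_lit 4) (nat_lit 405) (nat_lit 294) (nat_lit 201)) (XT.nd (nat_lit 78) (nat_lit 0) (nat_lit 0) (XT.lf (nat_lit 0) (nat_lit 6979796505) (nat_lit 76) (nat_lit 13259581513) (nat_lit 152) (nat_lit 10226910912) (nat_lit 27) (nat_lit 5) (nat_lit 28) (nat_lit 5) (nat_lit 29) (nat_lit 4) (nat_lit 406) (nat_lit 294) (nat_lit 200)) (XT.lf (nat_lit 0) (nat_lit 18760192507) (nat_lit 76) (nat_lit 7314753695) (nat_lit 152) (nat_lit 5115531415) (nat_lit 27) (nat_lit 5) (nat_lit 28) (nat_lit 5) (nat_lit 29) (nat_lit 4) (nat_lit 407) (nat_lit 294) (nat_lit 199)))) (XT.nd (nat_lit 78) (nat_lit 152) (nat_lit 0) (XT.lf (nat_lit 0) (nat_lit 126065097) (nat_lit 152) (nat_lit 1080963692) (nat_lit 76) (nat_lit 30729930165) (nat_lit 26)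 (nat_lit 5) (nat_lit 28) (nat_lit 5) (nat_lit 27) (nat_lit 5) (nat_lit 408) (nat_lit 294) (nat_lit 198)) (XT.nd (nat_lit 78) (nat_lit 0) (nat_lit 0) (XT.lf (nat_lit 0) (nat_lit 5555860847) (nat_lit 228) (nat_lit 22020504200) (nat_lit 76) (nat_lit 5123940677) (nat_lit 24) (nat_lit 5) (nat_lit 27) (nat_lit 5) (nat_lit 25) (nat_lit 4) (nat_lit 409) (nat_lit 294) (nat_lit 197)) (XT.lf (nat_lit 0) (nat_lit 11151972163) (nat_lit 228) (nat_lit 10718867264) (nat_lit 76) (nat_lit 11615614231) (nat_lit 24) (nat_lit 5) (nat_lit 27) (nat_lit 5) (nat_lit 25) (nat_lit 4) (nat_lit 410) (nat_lit 294) (nat_lit 196))))) (XT.nd (nat_lit 234) (nat_lit 228) (nat_lit 0) (XT.nd (nat_lit 78) (nat_lit 0) (nat_lit 0) (XT.lf (nat_lit 0) (nat_lit 904387638) (nat_lit 76) (nat_lit 16001289428) (nat_lit 152) (nat_lit 17390820966) (nat_lit 23) (nat_lit 5) (nat_lit 24) (nat_lit 5) (nat_lit 25) (nat_lit 4) (nat_lit 411) (nat_lit 294) (nat_lit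 195)) (XT.nd (nat_lit 78) (nat_lit 0) (nat_lit 0) (XT.lf (nat_lit 0) (nat_lit 13061331367) (nat_lit 76) (nat_lit 9860137029) (nat_lit 152) (nat_lit 12206694296) (nat_lit 23) (nat_lit 5) (nat_lit 24) (nat_lit 5) (nat_lit 25) (nat_lit 4) (nat_lit 412) (nat_lit 294) (nat_lit 194)) (XT.lf (nat_lit 0) (nat_lit 25549260019) (nat_lit 76) (nat_lit 3550255718) (nat_lit 152) (nat_lit 6885811210) (nat_lit 23) (nat_lit 5) (nat_lit 24) (nat_lit 5) (nat_lit 25) (nat_lit 4) (nat_lit 413) (nat_lit 294) (nat_lit 193)))) (XT.nd (nat_lit 156) (nat_lit 76) (nat_lit 0) (XT.nd (nat_lit 78) (nat_lit 76) (nat_lit 0) (XT.lf (nat_lit 0) (nat_lit 1511641032) (nat_lit 76) (nat_lit 33976309300) (nat_lit 76) (nat_lit 1379507449) (nat_lit 22) (nat_lit 4) (nat_lit 23) (nat_lit 5) (nat_lit 23) (nat_lit 4) (nat_lit 414) (nat_lit 294) (nat_lit 192)) (XT.lf (nat_lit 0) (nat_lit 4332006379) (nat_lit 152) (nat_lit 23851795795) (nat_lit 76)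 (nat_lit 9587302316) (nat_lit 21) (nat_lit 5) (nat_lit 23) (nat_lit 5) (nat_lit 22) (nat_lit 4) (nat_lit 415) (nat_lit 294) (nat_lit 191))) (XT.nd (nat_lit 78) (nat_lit 76) (nat_lit 0) (XT.lf (nat_lit 0) (nat_lit 10169852275) (nat_lit 152) (nat_lit 12048509302) (nat_lit 76) (nat_lit 16483610641) (nat_lit 21) (nat_lit 5) (nat_lit 23) (nat_lit 5) (nat_lit 22) (nat_lit 4) (nat_lit 416) (nat_lit 294) (nat_lit 190)) (XT.lf (nat_lit 0) (nat_lit 79161679) (nat_lit 76) (nat_lit 16087649697) (nat_lit 152) (nat_lit 23494437957) (nat_lit 20) (nat_lit 5) (nat_lit 21) (nat_lit 5) (nat_lit 22) (nat_lit 4) (nat_lit 417) (nat_lit 294) (nat_lit 189)))))) (XT.nd (nat_lit 546) (nat_lit 152) (nat_lit 0) (XT.nd (nat_lit 234) (nat_lit 228) (nat_lit 0) (XT.nd (nat_lit 78) (nat_lit 0) (nat_lit 0) (XT.lf (nat_lit 0) (nat_lit 12786693043) (nat_lit 76) (nat_lit 9662060702) (nat_lit 152) (nat_lit 18197401395) (nat_lit 20) (nat_lit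 5) (nat_lit 21) (nat_lit 5) (nat_lit 22) (nat_lit 4) (nat_lit 418) (nat_lit 294) (nat_lit 188)) (XT.nd (nat_lit 78) (nat_lit 0) (nat_lit 0) (XT.lf (nat_lit 0) (nat_lit 25845399497) (nat_lit 76) (nat_lit 3057646320) (nat_lit 152) (nat_lit 12758048099) (nat_lit 20) (nat_lit 5) (nat_lit 21) (nat_lit 5) (nat_lit 22) (nat_lit 4) (nat_lit 419) (nat_lit 294) (nat_lit 187)) (XT.lf (nat_lit 0) (nat_lit 35571195422) (nat_lit 152) (nat_lit 3476129095) (nat_lit 0) (nat_lit 3658551939) (nat_lit 20) (nat_lit 5) (nat_lit 22) (nat_lit 4) (nat_lit 20) (nat_lit 4) (nat_lit 420) (nat_lit 294) (nat_lit 186)))) (XT.nd (nat_lit 156) (nat_lit 76) (nat_lit 0) (XT.nd (nat_lit 78) (nat_lit 76) (nat_lit 0) (XT.lf (nat_lit 0) (nat_lit 9357286435) (nat_lit 76) (nat_lit 33187014566) (nat_lit 76) (nat_lit 1234556517) (nat_lit 19) (nat_lit 4) (nat_lit 20) (nat_lit 5) (nat_lit 20) (nat_lit 4) (nat_lit 421) (nat_lit 294) (nat_lit 185))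 (XT.lf (nat_lit 0) (nat_lit 4768236161) (nat_lit 152) (nat_lit 22311593560) (nat_lit 76) (nat_lit 17802199240) (nat_lit 18) (nat_lit 5) (nat_lit 20) (nat_lit 5) (nat_lit 19) (nat_lit 4) (nat_lit 422) (nat_lit 294) (nat_lit 184))) (XT.nd (nat_lit 78) (nat_lit 76) (nat_lit 0) (XT.lf (nat_lit 0) (nat_lit 10911455382) (nat_lit 152) (nat_lit 9878387589) (nat_lit 76) (nat_lit 25228533381) (nat_lit 18) (nat_lit 5) (nat_lit 20) (nat_lit 5) (nat_lit 19) (nat_lit 4) (nat_lit 423) (nat_lit 294) (nat_lit 183)) (XT.lf (nat_lit 0) (nat_lit 2958509280) (nat_lit 76) (nat_lit 14294489372) (nat_lit 152) (nat_lit 29935396814) (nat_lit 17) (nat_lit 5) (nat_lit 18) (nat_lit 5) (nat_lit 19) (nat_lit 4) (nat_lit 424) (nat_lit 294) (nat_lit 182))))) (XT.nd (nat_lit 234) (nat_lit 152) (nat_lit 0) (XT.nd (nat_lit 78) (nat_lit 0) (nat_lit 0) (XT.lf (nat_lit 0) (nat_lit 16356238927) (nat_lit 76) (nat_lit 7514052520) (nat_lit 152)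 (nat_lit 24520660672) (nat_lit 17) (nat_lit 5) (nat_lit 18) (nat_lit 5) (nat_lit 19) (nat_lit 4) (nat_lit 425) (nat_lit 294) (nat_lit 181)) (XT.nd (nat_lit 78) (nat_lit 0) (nat_lit 0) (XT.lf (nat_lit 0) (nat_lit 30129908823) (nat_lit 76) (nat_lit 542360107) (nat_lit 152) (nat_lit 18957733568) (nat_lit 17) (nat_lit 5) (nat_lit 18) (nat_lit 5) (nat_lit 19) (nat_lit 4) (nat_lit 426) (nat_lit 294) (nat_lit 180)) (XT.lf (nat_lit 0) (nat_lit 37728574276) (nat_lit 152) (nat_lit 6678774752) (nat_lit 0) (nat_lit 6497369248) (nat_lit 17) (nat_lit 5) (nat_lit 19) (nat_lit 4) (nat_lit 17) (nat_lit 4) (nat_lit 427) (nat_lit 294) (nat_lit 179)))) (XT.nd (nat_lit 156) (nat_lit 76) (nat_lit 0) (XT.nd (nat_lit 78) (nat_lit 0) (nat_lit 0) (XT.lf (nat_lit 0) (nat_lit 6626334954) (nat_lit 76) (nat_lit 38426149996) (nat_lit 76) (nat_lit 7163514981) (nat_lit 16) (nat_lit 4) (nat_lit 17) (nat_lit 5) (nat_lit 17) (nat_lit 4)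 (nat_lit 428) (nat_lit 294) (nat_lit 178)) (XT.lf (nat_lit 0) (nat_lit 20442966709) (nat_lit 76) (nat_lit 32207585769) (nat_lit 76) (nat_lit 914436204) (nat_lit 16) (nat_lit 4) (nat_lit 17) (nat_lit 5) (nat_lit 17) (nat_lit 4) (nat_lit 429) (nat_lit 294) (nat_lit 177))) (XT.nd (nat_lit 78) (nat_lit 0) (nat_lit 0) (XT.lf (nat_lit 0) (nat_lit 5401607578) (nat_lit 152) (nat_lit 20357511957) (nat_lit 76) (nat_lit 29194119361) (nat_lit 15) (nat_lit 5) (nat_lit 17) (nat_lit 5) (nat_lit 16) (nat_lit 4) (nat_lit 430) (nat_lit 294) (nat_lit 176)) (XT.lf (nat_lit 0) (nat_lit 11876373796) (nat_lit 152) (nat_lit 7242499424) (nat_lit 76) (nat_lit 37264364846) (nat_lit 15) (nat_lit 5) (nat_lit 17) (nat_lit 5) (nat_lit 16) (nat_lit 4) (nat_lit 431) (nat_lit 294) (nat_lit 175))))))))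
noncomputable def xc91 : XT := (XT.nd (nat_lit 38220) (nat_lit 0) (nat_lit 8816) (XT.nd (nat_lit 1014) (nat_lit 0) (nat_lit 0) (XT.nd (nat_lit 468) (nat_lit 152) (nat_lit 0) (XT.nd (nat_lit 234) (nat_lit 76) (nat_lit 0) (XT.nd (nat_lit 78) (nat_lit 0) (nat_lit 0) (XT.lf (nat_lit 0) (nat_lit 6367518687) (nat_lit 76) (nat_lit 12227053753) (nat_lit 152) (nat_lit 39260090718) (nat_lit 14) (nat_lit 5) (nat_lit 15) (nat_lit 5) (nat_lit 16) (nat_lit 4) (nat_lit 432) (nat_lit 294) (nat_lit 174)) (XT.nd (nat_lit 78) (nat_lit 0) (nat_lit 0) (XT.lf (nat_lit 0) (nat_lit 20511825989) (nat_lit 76) (nat_lit 5063741074) (nat_lit 152) (nat_lit 33792828020) (nat_lit 14) (nat_lit 5) (nat_lit 15) (nat_lit 5) (nat_lit 16) (nat_lit 4) (nat_lit 433) (nat_lit 294) (nat_lit 173)) (XT.lf (nat_lit 0) (nat_lit 32776601941) (nat_lit 152) (nat_lit 25891394296) (nat_lit 0) (nat_lit 2259225951) (nat_lit 14) (nat_lit 5) (nat_lit 16) (nat_lit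 4) (nat_lit 14) (nat_lit 4) (nat_lit 434) (nat_lit 294) (nat_lit 172)))) (XT.nd (nat_lit 78) (nat_lit 76) (nat_lit 0) (XT.lf (nat_lit 0) (nat_lit 40232505182) (nat_lit 152) (nat_lit 12608827225) (nat_lit 0) (nat_lit 9690318071) (nat_lit 14) (nat_lit 5) (nat_lit 16) (nat_lit 4) (nat_lit 14) (nat_lit 4) (nat_lit 435) (nat_lit 294) (nat_lit 171)) (XT.nd (nat_lit 78) (nat_lit 0) (nat_lit 0) (XT.lf (nat_lit 0) (nat_lit 1072339222) (nat_lit 76) (nat_lit 46839084635) (nat_lit 76) (nat_lit 16272809056) (nat_lit 13) (nat_lit 4) (nat_lit 14) (nat_lit 5) (nat_lit 14) (nat_lit 4) (nat_lit 436) (nat_lit 294) (nat_lit 170)) (XT.lf (nat_lit 0) (nat_lit 15401810372) (nat_lit 76) (nat_lit 40535376003) (nat_lit 76) (nat_lit 9945713562) (nat_lit 13) (nat_lit 4) (nat_lit 14) (nat_lit 5) (nat_lit 14) (nat_lit 4) (nat_lit 437) (nat_lit 294) (nat_lit 169))))) (XT.nd (nat_lit 234) (nat_lit 76) (nat_lit 0) (XT.nd (nat_lit 78)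 (nat_lit 76) (nat_lit 0) (XT.lf (nat_lit 0) (nat_lit 30141166738) (nat_lit 76) (nat_lit 34052022848) (nat_lit 76) (nat_lit 3439654716) (nat_lit 13) (nat_lit 4) (nat_lit 14) (nat_lit 5) (nat_lit 14) (nat_lit 4) (nat_lit 438) (nat_lit 294) (nat_lit 168)) (XT.nd (nat_lit 78) (nat_lit 0) (nat_lit 0) (XT.lf (nat_lit 0) (nat_lit 3187612646) (nat_lit 152) (nat_lit 24163558820) (nat_lit 76) (nat_lit 42083486084) (nat_lit 12) (nat_lit 5) (nat_lit 14) (nat_lit 5) (nat_lit 13) (nat_lit 4) (nat_lit 439) (nat_lit 294) (nat_lit 167)) (XT.lf (nat_lit 0) (nat_lit 9934537228) (nat_lit 152) (nat_lit 10488704209) (nat_lit 76) (nat_lit 50866564142) (nat_lit 12) (nat_lit 5) (nat_lit 14) (nat_lit 5) (nat_lit 13) (nat_lit 4) (nat_lit 440) (nat_lit 294) (nat_lit 166)))) (XT.nd (nat_lit 156) (nat_lit 0) (nat_lit 0) (XT.nd (nat_lit 78) (nat_lit 0) (nat_lit 0) (XT.lf (nat_lit 0) (nat_lit 3649106446) (nat_lit 76) (nat_lit 13260105452)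 (nat_lit 152) (nat_lit 56290637093) (nat_lit 11) (nat_lit 5) (nat_lit 12) (nat_lit 5) (nat_lit 13) (nat_lit 4) (nat_lit 441) (nat_lit 294) (nat_lit 165)) (XT.lf (nat_lit 0) (nat_lit 18407744112) (nat_lit 76) (nat_lit 5781670435) (nat_lit 152) (nat_lit 50974891702) (nat_lit 11) (nat_lit 5) (nat_lit 12) (nat_lit 5) (nat_lit 13) (nat_lit 4) (nat_lit 442) (nat_lit 294) (nat_lit 164))) (XT.nd (nat_lit 78) (nat_lit 0) (nat_lit 0) (XT.lf (nat_lit 0) (nat_lit 31697061964) (nat_lit 152) (nat_lit 43615005754) (nat_lit 0) (nat_lit 1875359489) (nat_lit 11) (nat_lit 5) (nat_lit 13) (nat_lit 4) (nat_lit 11) (nat_lit 4) (nat_lit 443) (nat_lit 294) (nat_lit 163)) (XT.lf (nat_lit 0) (nat_lit 39478029402) (nat_lit 152) (nat_lit 30153905659) (nat_lit 0) (nat_lit 9637865123) (nat_lit 11) (nat_lit 5) (nat_lit 13) (nat_lit 4) (nat_lit 11) (nat_lit 4) (nat_lit 444) (nat_lit 294) (nat_lit 162)))))) (XT.nd (nat_lit 36660) (nat_lit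 0) (nat_lit 20368) (XT.nd (nat_lit 36426) (nat_lit 0) (nat_lit 23484) (XT.nd (nat_lit 78) (nat_lit 0) (nat_lit 0) (XT.lf (nat_lit 0) (nat_lit 47483538813) (nat_lit 152) (nat_lit 16305922773) (nat_lit 0) (nat_lit 17625450452) (nat_lit 11) (nat_lit 5) (nat_lit 13) (nat_lit 4) (nat_lit 11) (nat_lit 4) (nat_lit 445) (nat_lit 294) (nat_lit 161)) (XT.nd (nat_lit 36270) (nat_lit 0) (nat_lit 24624) (XT.lf (nat_lit 0) (nat_lit 55720585303) (nat_lit 152) (nat_lit 2058956917) (nat_lit 0) (nat_lit 25845094920) (nat_lit 11) (nat_lit 5) (nat_lit 13) (nat_lit 4) (nat_lit 11) (nat_lit 4) (nat_lit 446) (nat_lit 294) (nat_lit 160)) (XT.lf (nat_lit 0) (nat_lit 903873067) (nat_lit 380) (nat_lit 1185918556) (nat_lit 380) (nat_lit 1185918556) (nat_lit 335) (nat_lit 4) (nat_lit 340) (nat_lit 5) (nat_lit 340) (nat_lit 4) (nat_lit 310) (nat_lit 295) (nat_lit 295)))) (XT.nd (nat_lit 78) (nat_lit 1064) (nat_lit 0) (XT.lf (nat_lit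 0) (nat_lit 728710950) (nat_lit 456) (nat_lit 944067243) (nat_lit 76) (nat_lit 4902366563) (nat_lit 334) (nat_lit 5) (nat_lit 340) (nat_lit 5) (nat_lit 335) (nat_lit 4) (nat_lit 311) (nat_lit 295) (nat_lit 294)) (XT.nd (nat_lit 78) (nat_lit 608) (nat_lit 0) (XT.lf (nat_lit 0) (nat_lit 2927929352) (nat_lit 456) (nat_lit 867167826) (nat_lit 532) (nat_lit 2806301612) (nat_lit 328) (nat_lit 5) (nat_lit 334) (nat_lit 5) (nat_lit 335) (nat_lit 4) (nat_lit 312) (nat_lit 295) (nat_lit 293)) (XT.lf (nat_lit 0) (nat_lit 224216919) (nat_lit 608) (nat_lit 6399556315) (nat_lit 76) (nat_lit 7537066) (nat_lit 320) (nat_lit 5) (nat_lit 328) (nat_lit 5) (nat_lit 321) (nat_lit 4) (nat_lit 313) (nat_lit 295) (nat_lit 292))))) (XT.nd (nat_lit 234) (nat_lit 2432) (nat_lit 0) (XT.nd (nat_lit 78) (nat_lit 684) (nat_lit 0) (XT.lf (nat_lit 0) (nat_lit 3231528024) (nat_lit 608) (nat_lit 2447830278) (nat_lit 76) (nat_lit 983784439)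 (nat_lit 320) (nat_lit 5) (nat_lit 328) (nat_lit 5) (nat_lit 321) (nat_lit 4) (nat_lit 314) (nat_lit 295) (nat_lit 291)) (XT.nd (nat_lit 78) (nat_lit 76) (nat_lit 0) (XT.lf (nat_lit 0) (nat_lit 1575994712) (nat_lit 608) (nat_lit 4667468482) (nat_lit 684) (nat_lit 455156732) (nat_lit 312) (nat_lit 5) (nat_lit 320) (nat_lit 5) (nat_lit 321) (nat_lit 4) (nat_lit 315) (nat_lit 295) (nat_lit 290)) (XT.lf (nat_lit 0) (nat_lit 2484978898) (nat_lit 684) (nat_lit 1067593797) (nat_lit 76) (nat_lit 3184191027) (nat_lit 311) (nat_lit 5) (nat_lit 320) (nat_lit 5) (nat_lit 312) (nat_lit 5) (nat_lit 316) (nat_lit 295) (nat_lit 289)))) (XT.nd (nat_lit 156) (nat_lit 912) (nat_lit 0) (XT.nd (nat_lit 78) (nat_lit 836) (nat_lit 0) (XT.lf (nat_lit 0) (nat_lit 3088592279) (nat_lit 684) (nat_lit 2348532600) (nat_lit 760) (nat_lit 1340914687) (nat_lit 302) (nat_lit 5) (nat_lit 311) (nat_lit 5) (nat_lit 312) (nat_lit 5) (nat_lit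 317) (nat_lit 295) (nat_lit 288)) (XT.lf (nat_lit 0) (nat_lit 487063911) (nat_lit 760) (nat_lit 1057760845) (nat_lit 836) (nat_lit 5277759687) (nat_lit 291) (nat_lit 5) (nat_lit 301) (nat_lit 5) (nat_lit 302) (nat_lit 5) (nat_lit 318) (nat_lit 295) (nat_lit 287))) (XT.nd (nat_lit 78) (nat_lit 912) (nat_lit 0) (XT.lf (nat_lit 0) (nat_lit 4436947230) (nat_lit 836) (nat_lit 2098939459) (nat_lit 76) (nat_lit 333879926) (nat_lit 291) (nat_lit 5) (nat_lit 302) (nat_lit 5) (nat_lit 292) (nat_lit 5) (nat_lit 319) (nat_lit 295) (nat_lit 286)) (XT.lf (nat_lit 0) (nat_lit 428141948) (nat_lit 912) (nat_lit 4704350494) (nat_lit 76) (nat_lit 1787613184) (nat_lit 279) (nat_lit 5) (nat_lit 291) (nat_lit 5) (nat_lit 280) (nat_lit 5) (nat_lit 320) (nat_lit 295) (nat_lit 285))))))) (XT.nd (nat_lit 1014) (nat_lit 4408) (nat_lit 0) (XT.nd (nat_lit 468) (nat_lit 2888) (nat_lit 0) (XT.nd (nat_lit 234) (nat_lit 2280) (nat_lit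 0) (XT.nd (nat_lit 78) (nat_lit 1976) (nat_lit 0) (XT.lf (nat_lit 0) (nat_lit 3257618723) (nat_lit 912) (nat_lit 371329885) (nat_lit 76) (nat_lit 3344429497) (nat_lit 279) (nat_lit 5) (nat_lit 291) (nat_lit 5) (nat_lit 280) (nat_lit 5) (nat_lit 321) (nat_lit 295) (nat_lit 284)) (XT.nd (nat_lit 78) (nat_lit 1064) (nat_lit 0) (XT.lf (nat_lit 0) (nat_lit 4095254186) (nat_lit 912) (nat_lit 2028886690) (nat_lit 988) (nat_lit 905633764) (nat_lit 267) (nat_lit 5) (nat_lit 279) (nat_lit 5) (nat_lit 280) (nat_lit 5) (nat_lit 322) (nat_lit 295) (nat_lit 283)) (XT.lf (nat_lit 0) (nat_lit 1549381062) (nat_lit 988) (nat_lit 332962908) (nat_lit 1064) (nat_lit 5207060376) (nat_lit 253) (nat_lit 5) (nat_lit 266) (nat_lit 5) (nat_lit 267) (nat_lit 5) (nat_lit 323) (nat_lit 295) (nat_lit 282)))) (XT.nd (nat_lit 78) (nat_lit 2280) (nat_lit 0) (XT.lf (nat_lit 0) (nat_lit 4694805792) (nat_lit 1064) (nat_lit 1024162321) (nat_lit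 76) (nat_lit 1432897432) (nat_lit 253) (nat_lit 5) (nat_lit 267) (nat_lit 5) (nat_lit 254) (nat_lit 5) (nat_lit 324) (nat_lit 295) (nat_lit 281)) (XT.nd (nat_lit 78) (nat_lit 1140) (nat_lit 0) (XT.lf (nat_lit 0) (nat_lit 323660776) (nat_lit 1140) (nat_lit 3603326710) (nat_lit 76) (nat_lit 3290516692) (nat_lit 238) (nat_lit 5) (nat_lit 253) (nat_lit 5) (nat_lit 239) (nat_lit 5) (nat_lit 325) (nat_lit 295) (nat_lit 280)) (XT.lf (nat_lit 0) (nat_lit 1045880420) (nat_lit 1140) (nat_lit 2031809710) (nat_lit 1216) (nat_lit 4208589842) (nat_lit 223) (nat_lit 5) (nat_lit 238) (nat_lit 5) (nat_lit 239) (nat_lit 5) (nat_lit 326) (nat_lit 295) (nat_lit 279))))) (XT.nd (nat_lit 234) (nat_lit 1216) (nat_lit 0) (XT.nd (nat_lit 78) (nat_lit 1672) (nat_lit 0) (XT.lf (nat_lit 0) (nat_lit 5831233913) (nat_lit 1140) (nat_lit 39890369) (nat_lit 1216) (nat_lit 1487364999) (nat_lit 223) (nat_lit 5) (nat_lit 238) (nat_lit 5)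 (nat_lit 239) (nat_lit 5) (nat_lit 327) (nat_lit 295) (nat_lit 278)) (XT.nd (nat_lit 78) (nat_lit 608) (nat_lit 0) (XT.lf (nat_lit 0) (nat_lit 1263245703) (nat_lit 1064) (nat_lit 4151227893) (nat_lit 76) (nat_lit 2018878861) (nat_lit 209) (nat_lit 5) (nat_lit 223) (nat_lit 5) (nat_lit 210) (nat_lit 5) (nat_lit 328) (nat_lit 295) (nat_lit 277)) (XT.lf (nat_lit 0) (nat_lit 676836119) (nat_lit 608) (nat_lit 3335554386) (nat_lit 684) (nat_lit 3499319422) (nat_lit 201) (nat_lit 5) (nat_lit 209) (nat_lit 5) (nat_lit 210) (nat_lit 5) (nat_lit 329) (nat_lit 295) (nat_lit 276)))) (XT.nd (nat_lit 156) (nat_lit 608) (nat_lit 0) (XT.nd (nat_lit 78) (nat_lit 608) (nat_lit 0) (XT.lf (nat_lit 0) (nat_lit 5657413109) (nat_lit 608) (nat_lit 1153435862) (nat_lit 684) (nat_lit 782629503) (nat_lit 201) (nat_lit 5) (nat_lit 209) (nat_lit 5) (nat_lit 210) (nat_lit 5) (nat_lit 330) (nat_lit 295) (nat_lit 275)) (XT.lf (nat_lit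 0) (nat_lit 1943071370) (nat_lit 608) (nat_lit 4615865764) (nat_lit 76) (nat_lit 1119238237) (nat_lit 193) (nat_lit 5) (nat_lit 201) (nat_lit 5) (nat_lit 194) (nat_lit 5) (nat_lit 331) (nat_lit 295) (nat_lit 274))) (XT.nd (nat_lit 78) (nat_lit 0) (nat_lit 0) (XT.lf (nat_lit 0) (nat_lit 395717459) (nat_lit 608) (nat_lit 4301767035) (nat_lit 684) (nat_lit 3068876051) (nat_lit 185) (nat_lit 5) (nat_lit 193) (nat_lit 5) (nat_lit 194) (nat_lit 5) (nat_lit 332) (nat_lit 295) (nat_lit 273)) (XT.lf (nat_lit 0) (nat_lit 5574896475) (nat_lit 608) (nat_lit 1935309943) (nat_lit 684) (nat_lit 347772789) (nat_lit 185) (nat_lit 5) (nat_lit 193) (nat_lit 5) (nat_lit 194) (nat_lit 5) (nat_lit 333) (nat_lit 295) (nat_lit 272)))))) (XT.nd (nat_lit 546) (nat_lit 1748) (nat_lit 0) (XT.nd (nat_lit 234) (nat_lit 1520) (nat_lit 0) (XT.nd (nat_lit 78) (nat_lit 532) (nat_lit 0) (XT.lf (nat_lit 0) (nat_lit 2370732668) (nat_lit 608)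 (nat_lit 5044406653) (nat_lit 76) (nat_lit 537643805) (nat_lit 177) (nat_lit 5) (nat_lit 185) (nat_lit 5) (nat_lit 178) (nat_lit 5) (nat_lit 334) (nat_lit 295) (nat_lit 271)) (XT.nd (nat_lit 78) (nat_lit 0) (nat_lit 0) (XT.lf (nat_lit 0) (nat_lit 154993464) (nat_lit 532) (nat_lit 4984364753) (nat_lit 608) (nat_lit 2911756286) (nat_lit 170) (nat_lit 5) (nat_lit 177) (nat_lit 5) (nat_lit 178) (nat_lit 5) (nat_lit 335) (nat_lit 295) (nat_lit 270)) (XT.lf (nat_lit 0) (nat_lit 5536705239) (nat_lit 532) (nat_lit 2438147164) (nat_lit 608) (nat_lit 178080856) (nat_lit 170) (nat_lit 5) (nat_lit 177) (nat_lit 5) (nat_lit 178) (nat_lit 5) (nat_lit 336) (nat_lit 295) (nat_lit 269)))) (XT.nd (nat_lit 156) (nat_lit 988) (nat_lit 0) (XT.nd (nat_lit 78) (nat_lit 0) (nat_lit 0) (XT.lf (nat_lit 0) (nat_lit 2549128330) (nat_lit 532) (nat_lit 5485798937) (nat_lit 76) (nat_lit 223277665) (nat_lit 163) (nat_lit 5) (nat_lit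 170) (nat_lit 5) (nat_lit 164) (nat_lit 5) (nat_lit 337) (nat_lit 295) (nat_lit 268)) (XT.lf (nat_lit 0) (nat_lit 5340616653) (nat_lit 532) (nat_lit 93005456) (nat_lit 76) (nat_lit 2933425831) (nat_lit 163) (nat_lit 5) (nat_lit 170) (nat_lit 5) (nat_lit 164) (nat_lit 5) (nat_lit 338) (nat_lit 295) (nat_lit 267))) (XT.nd (nat_lit 78) (nat_lit 532) (nat_lit 0) (XT.lf (nat_lit 0) (nat_lit 5493698346) (nat_lit 456) (nat_lit 2712068510) (nat_lit 532) (nat_lit 273737829) (nat_lit 157) (nat_lit 5) (nat_lit 163) (nat_lit 5) (nat_lit 164) (nat_lit 5) (nat_lit 339) (nat_lit 295) (nat_lit 266)) (XT.lf (nat_lit 0) (nat_lit 2476363262) (nat_lit 532) (nat_lit 5991801368) (nat_lit 76) (nat_lit 127530787) (nat_lit 150) (nat_lit 5) (nat_lit 157) (nat_lit 5) (nat_lit 151) (nat_lit 5) (nat_lit 340) (nat_lit 295) (nat_lit 265))))) (XT.nd (nat_lit 234) (nat_lit 836) (nat_lit 0) (XT.nd (nat_lit 78) (nat_lit 912) (nat_lit 0)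 (XT.lf (nat_lit 0) (nat_lit 5299305501) (nat_lit 532) (nat_lit 398472151) (nat_lit 76) (nat_lit 3017679775) (nat_lit 150) (nat_lit 5) (nat_lit 157) (nat_lit 5) (nat_lit 151) (nat_lit 5) (nat_lit 341) (nat_lit 295) (nat_lit 264)) (XT.nd (nat_lit 78) (nat_lit 456) (nat_lit 0) (XT.lf (nat_lit 0) (nat_lit 5393500261) (nat_lit 456) (nat_lit 2805610007) (nat_lit 532) (nat_lit 639977639) (nat_lit 144) (nat_lit 5) (nat_lit 150) (nat_lit 5) (nat_lit 151) (nat_lit 5) (nat_lit 342) (nat_lit 295) (nat_lit 263)) (XT.lf (nat_lit 0) (nat_lit 2145561745) (nat_lit 456) (nat_lit 6618097303) (nat_lit 76) (nat_lit 203084999) (nat_lit 138) (nat_lit 5) (nat_lit 144) (nat_lit 5) (nat_lit 139) (nat_lit 5) (nat_lit 343) (nat_lit 295) (nat_lit 262)))) (XT.nd (nat_lit 156) (nat_lit 456) (nat_lit 0) (XT.nd (nat_lit 78) (nat_lit 380) (nat_lit 0) (XT.lf (nat_lit 0) (nat_lit 5006320108) (nat_lit 456) (nat_lit 820095345) (nat_lit 76)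 (nat_lit 3271526228) (nat_lit 138) (nat_lit 5) (nat_lit 144) (nat_lit 5) (nat_lit 139) (nat_lit 5) (nat_lit 344) (nat_lit 295) (nat_lit 261)) (XT.lf (nat_lit 0) (nat_lit 5179332156) (nat_lit 380) (nat_lit 2766656192) (nat_lit 456) (nat_lit 1287330565) (nat_lit 133) (nat_lit 5) (nat_lit 138) (nat_lit 5) (nat_lit 139) (nat_lit 5) (nat_lit 345) (nat_lit 295) (nat_lit 260))) (XT.nd (nat_lit 78) (nat_lit 0) (nat_lit 0) (XT.lf (nat_lit 0) (nat_lit 1544585469) (nat_lit 456) (nat_lit 7425517569) (nat_lit 76) (nat_lit 402984727) (nat_lit 127) (nat_lit 5) (nat_lit 133) (nat_lit 5) (nat_lit 128) (nat_lit 5) (nat_lit 346) (nat_lit 295) (nat_lit 259)) (XT.lf (nat_lit 0) (nat_lit 4448749307) (nat_lit 456) (nat_lit 1418902227) (nat_lit 76) (nat_lit 3648654048) (nat_lit 127) (nat_lit 5) (nat_lit 133) (nat_lit 5) (nat_lit 128) (nat_lit 5) (nat_lit 347) (nat_lit 295) (nat_lit 258))))))))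
noncomputable def xc92 : XT := (XT.nd (nat_lit 2028) (nat_lit 2356) (nat_lit 0) (XT.nd (nat_lit 1014) (nat_lit 2052) (nat_lit 0) (XT.nd (nat_lit 468) (nat_lit 1292) (nat_lit 0) (XT.nd (nat_lit 234) (nat_lit 760) (nat_lit 0) (XT.nd (nat_lit 78) (nat_lit 380) (nat_lit 0) (XT.lf (nat_lit 0) (nat_lit 4788722354) (nat_lit 380) (nat_lit 2643395521) (nat_lit 456) (nat_lit 2231971900) (nat_lit 122) (nat_lit 5) (nat_lit 127) (nat_lit 5) (nat_lit 128) (nat_lit 5) (nat_lit 348) (nat_lit 295) (nat_lit 257)) (XT.nd (nat_lit 78) (nat_lit 0) (nat_lit 0) (XT.lf (nat_lit 0) (nat_lit 655648491) (nat_lit 380) (nat_lit 8481397283) (nat_lit 76) (nat_lit 679681295) (nat_lit 117) (nat_lit 5) (nat_lit 122) (nat_lit 5) (nat_lit 118) (nat_lit 5) (nat_lit 349) (nat_lit 295) (nat_lit 256)) (XT.lf (nat_lit 0) (nat_lit 3607979097) (nat_lit 380) (nat_lit 2262665418) (nat_lit 76) (nat_lit 4101977246) (nat_lit 117) (nat_lit 5) (nat_lit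 122) (nat_lit 5) (nat_lit 118) (nat_lit 5) (nat_lit 350) (nat_lit 295) (nat_lit 255)))) (XT.nd (nat_lit 78) (nat_lit 380) (nat_lit 0) (XT.lf (nat_lit 0) (nat_lit 4152069016) (nat_lit 380) (nat_lit 2485315746) (nat_lit 456) (nat_lit 3496182021) (nat_lit 112) (nat_lit 5) (nat_lit 117) (nat_lit 5) (nat_lit 118) (nat_lit 5) (nat_lit 351) (nat_lit 295) (nat_lit 254)) (XT.nd (nat_lit 78) (nat_lit 76) (nat_lit 0) (XT.lf (nat_lit 0) (nat_lit 433345429) (nat_lit 304) (nat_lit 9310409033) (nat_lit 380) (nat_lit 556031046) (nat_lit 108) (nat_lit 5) (nat_lit 112) (nat_lit 5) (nat_lit 113) (nat_lit 5) (nat_lit 352) (nat_lit 295) (nat_lit 253)) (XT.lf (nat_lit 0) (nat_lit 2459171099) (nat_lit 380) (nat_lit 3427453998) (nat_lit 76) (nat_lit 4582626228) (nat_lit 107) (nat_lit 5) (nat_lit 112) (nat_lit 5) (nat_lit 108) (nat_lit 5) (nat_lit 353) (nat_lit 295) (nat_lit 252))))) (XT.nd (nat_lit 234) (nat_lit 608) (nat_lit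 0) (XT.nd (nat_lit 78) (nat_lit 380) (nat_lit 0) (XT.lf (nat_lit 0) (nat_lit 3191024603) (nat_lit 304) (nat_lit 2344258528) (nat_lit 380) (nat_lit 5108929393) (nat_lit 103) (nat_lit 5) (nat_lit 107) (nat_lit 5) (nat_lit 108) (nat_lit 5) (nat_lit 354) (nat_lit 295) (nat_lit 251)) (XT.nd (nat_lit 78) (nat_lit 380) (nat_lit 0) (XT.lf (nat_lit 0) (nat_lit 8702677364) (nat_lit 380) (nat_lit 828964984) (nat_lit 76) (nat_lit 1292834952) (nat_lit 103) (nat_lit 5) (nat_lit 108) (nat_lit 5) (nat_lit 104) (nat_lit 5) (nat_lit 355) (nat_lit 295) (nat_lit 250)) (XT.lf (nat_lit 0) (nat_lit 970613082) (nat_lit 380) (nat_lit 4999386165) (nat_lit 76) (nat_lit 5038869556) (nat_lit 98) (nat_lit 5) (nat_lit 103) (nat_lit 5) (nat_lit 99) (nat_lit 5) (nat_lit 356) (nat_lit 295) (nat_lit 249)))) (XT.nd (nat_lit 156) (nat_lit 304) (nat_lit 0) (XT.nd (nat_lit 78) (nat_lit 0) (nat_lit 0) (XT.lf (nat_lit 0) (nat_lit 1816667516)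 (nat_lit 304) (nat_lit 2275554242) (nat_lit 380) (nat_lit 7106590586) (nat_lit 94) (nat_lit 5) (nat_lit 98) (nat_lit 5) (nat_lit 99) (nat_lit 5) (nat_lit 357) (nat_lit 295) (nat_lit 248)) (XT.lf (nat_lit 0) (nat_lit 7326809973) (nat_lit 380) (nat_lit 2538198103) (nat_lit 76) (nat_lit 1528888130) (nat_lit 94) (nat_lit 5) (nat_lit 99) (nat_lit 5) (nat_lit 95) (nat_lit 5) (nat_lit 358) (nat_lit 295) (nat_lit 247))) (XT.nd (nat_lit 78) (nat_lit 76) (nat_lit 0) (XT.lf (nat_lit 0) (nat_lit 4508811917) (nat_lit 228) (nat_lit 6170488620) (nat_lit 304) (nat_lit 914927418) (nat_lit 91) (nat_lit 5) (nat_lit 94) (nat_lit 5) (nat_lit 95) (nat_lit 5) (nat_lit 359) (nat_lit 295) (nat_lit 246)) (XT.lf (nat_lit 0) (nat_lit 2267379126) (nat_lit 304) (nat_lit 71162263) (nat_lit 76) (nat_lit 9461943377) (nat_lit 90) (nat_lit 5) (nat_lit 94) (nat_lit 5) (nat_lit 91) (nat_lit 5) (nat_lit 360) (nat_lit 295) (nat_lit 245))))))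 (XT.nd (nat_lit 468) (nat_lit 988) (nat_lit 0) (XT.nd (nat_lit 234) (nat_lit 456) (nat_lit 0) (XT.nd (nat_lit 78) (nat_lit 304) (nat_lit 0) (XT.lf (nat_lit 0) (nat_lit 5568688859) (nat_lit 380) (nat_lit 4808561707) (nat_lit 76) (nat_lit 1634168765) (nat_lit 86) (nat_lit 5) (nat_lit 91) (nat_lit 5) (nat_lit 87) (nat_lit 5) (nat_lit 361) (nat_lit 295) (nat_lit 244)) (XT.nd (nat_lit 78) (nat_lit 76) (nat_lit 0) (XT.lf (nat_lit 0) (nat_lit 2425650290) (nat_lit 228) (nat_lit 6547511807) (nat_lit 304) (nat_lit 3255415046) (nat_lit 83) (nat_lit 5) (nat_lit 86) (nat_lit 5) (nat_lit 87) (nat_lit 5) (nat_lit 362) (nat_lit 295) (nat_lit 243)) (XT.lf (nat_lit 0) (nat_lit 33132442) (nat_lit 304) (nat_lit 2542717461) (nat_lit 76) (nat_lit 9876225212) (nat_lit 82) (nat_lit 5) (nat_lit 86) (nat_lit 5) (nat_lit 83) (nat_lit 5) (nat_lit 363) (nat_lit 295) (nat_lit 242)))) (XT.nd (nat_lit 78) (nat_lit 228) (nat_lit 0) (XT.lf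 (nat_lit 0) (nat_lit 3375831565) (nat_lit 304) (nat_lit 7761622684) (nat_lit 76) (nat_lit 1543246376) (nat_lit 79) (nat_lit 5) (nat_lit 83) (nat_lit 5) (nat_lit 80) (nat_lit 5) (nat_lit 364) (nat_lit 295) (nat_lit 241)) (XT.nd (nat_lit 78) (nat_lit 228) (nat_lit 0) (XT.lf (nat_lit 0) (nat_lit 6828982458) (nat_lit 304) (nat_lit 349412072) (nat_lit 76) (nat_lit 5737502072) (nat_lit 79) (nat_lit 5) (nat_lit 83) (nat_lit 5) (nat_lit 80) (nat_lit 5) (nat_lit 365) (nat_lit 295) (nat_lit 240)) (XT.lf (nat_lit 0) (nat_lit 7365701861) (nat_lit 228) (nat_lit 3050768143) (nat_lit 304) (nat_lit 2740772525) (nat_lit 76) (nat_lit 5) (nat_lit 79) (nat_lit 5) (nat_lit 80) (nat_lit 5) (nat_lit 366) (nat_lit 295) (nat_lit 239))))) (XT.nd (nat_lit 234) (nat_lit 456) (nat_lit 0) (XT.nd (nat_lit 78) (nat_lit 228) (nat_lit 0) (XT.lf (nat_lit 0) (nat_lit 685313088) (nat_lit 304) (nat_lit 11537591317) (nat_lit 76) (nat_lit 1182936357)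 (nat_lit 72) (nat_lit 5) (nat_lit 76) (nat_lit 5) (nat_lit 73) (nat_lit 5) (nat_lit 367) (nat_lit 295) (nat_lit 238)) (XT.nd (nat_lit 78) (nat_lit 228) (nat_lit 0) (XT.lf (nat_lit 0) (nat_lit 4208793337) (nat_lit 304) (nat_lit 3905242392) (nat_lit 76) (nat_lit 5545571103) (nat_lit 72) (nat_lit 5) (nat_lit 76) (nat_lit 5) (nat_lit 73) (nat_lit 5) (nat_lit 368) (nat_lit 295) (nat_lit 237)) (XT.lf (nat_lit 0) (nat_lit 3971702435) (nat_lit 228) (nat_lit 3866037496) (nat_lit 304) (nat_lit 6083267609) (nat_lit 69) (nat_lit 5) (nat_lit 72) (nat_lit 5) (nat_lit 73) (nat_lit 5) (nat_lit 369) (nat_lit 295) (nat_lit 236)))) (XT.nd (nat_lit 156) (nat_lit 152) (nat_lit 0) (XT.nd (nat_lit 78) (nat_lit 304) (nat_lit 0) (XT.lf (nat_lit 0) (nat_lit 11582166020) (nat_lit 304) (nat_lit 2091541140) (nat_lit 76) (nat_lit 516358866) (nat_lit 69) (nat_lit 5) (nat_lit 73) (nat_lit 5) (nat_lit 70) (nat_lit 5) (nat_lit 370) (nat_lit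 295) (nat_lit 235)) (XT.lf (nat_lit 0) (nat_lit 1012490698) (nat_lit 304) (nat_lit 8454581034) (nat_lit 76) (nat_lit 4998065872) (nat_lit 65) (nat_lit 5) (nat_lit 69) (nat_lit 5) (nat_lit 66) (nat_lit 5) (nat_lit 371) (nat_lit 295) (nat_lit 234))) (XT.nd (nat_lit 78) (nat_lit 152) (nat_lit 0) (XT.lf (nat_lit 0) (nat_lit 4673533772) (nat_lit 304) (nat_lit 435805118) (nat_lit 76) (nat_lit 9638827004) (nat_lit 65) (nat_lit 5) (nat_lit 69) (nat_lit 5) (nat_lit 66) (nat_lit 5) (nat_lit 372) (nat_lit 295) (nat_lit 233)) (XT.lf (nat_lit 0) (nat_lit 7919292014) (nat_lit 152) (nat_lit 565442444) (nat_lit 228) (nat_lit 6553753304) (nat_lit 63) (nat_lit 5) (nat_lit 65) (nat_lit 5) (nat_lit 66) (nat_lit 5) (nat_lit 373) (nat_lit 295) (nat_lit 232))))))) (XT.nd (nat_lit 1014) (nat_lit 988) (nat_lit 0) (XT.nd (nat_lit 468) (nat_lit 684) (nat_lit 0) (XT.nd (nat_lit 234) (nat_lit 228) (nat_lit 0) (XT.nd (nat_lit 78) (nat_lit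 228) (nat_lit 0) (XT.lf (nat_lit 0) (nat_lit 1119790879) (nat_lit 228) (nat_lit 11309706940) (nat_lit 304) (nat_lit 2907456822) (nat_lit 60) (nat_lit 5) (nat_lit 63) (nat_lit 5) (nat_lit 64) (nat_lit 5) (nat_lit 374) (nat_lit 295) (nat_lit 231)) (XT.nd (nat_lit 78) (nat_lit 152) (nat_lit 0) (XT.lf (nat_lit 0) (nat_lit 874455410) (nat_lit 304) (nat_lit 5963987960) (nat_lit 76) (nat_lit 8804415638) (nat_lit 59) (nat_lit 5) (nat_lit 63) (nat_lit 5) (nat_lit 60) (nat_lit 5) (nat_lit 375) (nat_lit 295) (nat_lit 230)) (XT.lf (nat_lit 0) (nat_lit 2499301889) (nat_lit 152) (nat_lit 2201721336) (nat_lit 228) (nat_lit 11256375746) (nat_lit 57) (nat_lit 5) (nat_lit 59) (nat_lit 5) (nat_lit 60) (nat_lit 5) (nat_lit 376) (nat_lit 295) (nat_lit 229)))) (XT.nd (nat_lit 78) (nat_lit 228) (nat_lit 0) (XT.lf (nat_lit 0) (nat_lit 8693797087) (nat_lit 228) (nat_lit 5023871791) (nat_lit 76) (nat_lit 2562174784) (nat_lit 57)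 (nat_lit 5) (nat_lit 60) (nat_lit 5) (nat_lit 58) (nat_lit 5) (nat_lit 377) (nat_lit 295) (nat_lit 228)) (XT.nd (nat_lit 78) (nat_lit 76) (nat_lit 0) (XT.lf (nat_lit 0) (nat_lit 3656911816) (nat_lit 152) (nat_lit 9173233166) (nat_lit 228) (nat_lit 3781113471) (nat_lit 55) (nat_lit 5) (nat_lit 57) (nat_lit 5) (nat_lit 58) (nat_lit 5) (nat_lit 378) (nat_lit 295) (nat_lit 227)) (XT.lf (nat_lit 0) (nat_lit 153446573) (nat_lit 228) (nat_lit 4307966223) (nat_lit 76) (nat_lit 12490627853) (nat_lit 54) (nat_lit 5) (nat_lit 57) (nat_lit 5) (nat_lit 55) (nat_lit 5) (nat_lit 379) (nat_lit 295) (nat_lit 226))))) (XT.nd (nat_lit 234) (nat_lit 380) (nat_lit 0) (XT.nd (nat_lit 78) (nat_lit 152) (nat_lit 0) (XT.lf (nat_lit 0) (nat_lit 4146480931) (nat_lit 228) (nat_lit 12710396731) (nat_lit 76) (nat_lit 444562115) (nat_lit 52) (nat_lit 5) (nat_lit 55) (nat_lit 5) (nat_lit 53) (nat_lit 5) (nat_lit 380) (nat_lit 295) (nat_lit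 225)) (XT.nd (nat_lit 78) (nat_lit 152) (nat_lit 0) (XT.lf (nat_lit 0) (nat_lit 8315513842) (nat_lit 228) (nat_lit 3914010307) (nat_lit 76) (nat_lit 5430119822) (nat_lit 52) (nat_lit 5) (nat_lit 55) (nat_lit 5) (nat_lit 53) (nat_lit 5) (nat_lit 381) (nat_lit 295) (nat_lit 224)) (XT.lf (nat_lit 0) (nat_lit 5194501980) (nat_lit 152) (nat_lit 7434079938) (nat_lit 228) (nat_lit 5399452490) (nat_lit 50) (nat_lit 5) (nat_lit 52) (nat_lit 5) (nat_lit 53) (nat_lit 5) (nat_lit 382) (nat_lit 295) (nat_lit 223)))) (XT.nd (nat_lit 156) (nat_lit 152) (nat_lit 0) (XT.nd (nat_lit 78) (nat_lit 228) (nat_lit 0) (XT.lf (nat_lit 0) (nat_lit 14603894711) (nat_lit 152) (nat_lit 2476098897) (nat_lit 228) (nat_lit 1327223183) (nat_lit 50) (nat_lit 5) (nat_lit 52) (nat_lit 5) (nat_lit 53) (nat_lit 5) (nat_lit 383) (nat_lit 295) (nat_lit 222)) (XT.lf (nat_lit 0) (nat_lit 2860240583) (nat_lit 228) (nat_lit 13295747017) (nat_lit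 76) (nat_lit 2639498000) (nat_lit 47) (nat_lit 5) (nat_lit 50) (nat_lit 5) (nat_lit 48) (nat_lit 5) (nat_lit 384) (nat_lit 295) (nat_lit 221))) (XT.nd (nat_lit 78) (nat_lit 152) (nat_lit 0) (XT.lf (nat_lit 0) (nat_lit 7180144575) (nat_lit 228) (nat_lit 4124294874) (nat_lit 76) (nat_lit 7889572068) (nat_lit 47) (nat_lit 5) (nat_lit 50) (nat_lit 5) (nat_lit 48) (nat_lit 5) (nat_lit 385) (nat_lit 295) (nat_lit 220)) (XT.lf (nat_lit 0) (nat_lit 5376870403) (nat_lit 152) (nat_lit 6275519305) (nat_lit 228) (nat_lit 7951428986) (nat_lit 45) (nat_lit 5) (nat_lit 47) (nat_lit 5) (nat_lit 48) (nat_lit 5) (nat_lit 386) (nat_lit 295) (nat_lit 219)))))) (XT.nd (nat_lit 546) (nat_lit 456) (nat_lit 0) (XT.nd (nat_lit 234) (nat_lit 304) (nat_lit 0) (XT.nd (nat_lit 78) (nat_lit 228) (nat_lit 0) (XT.lf (nat_lit 0) (nat_lit 15197755755) (nat_lit 152) (nat_lit 1074115672) (nat_lit 228) (nat_lit 3753664155) (nat_lit 45) (nat_lit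 5) (nat_lit 47) (nat_lit 5) (nat_lit 48) (nat_lit 5) (nat_lit 387) (nat_lit 295) (nat_lit 218)) (XT.nd (nat_lit 78) (nat_lit 0) (nat_lit 0) (XT.lf (nat_lit 0) (nat_lit 619423504) (nat_lit 228) (nat_lit 15606248537) (nat_lit 76) (nat_lit 4232259292) (nat_lit 42) (nat_lit 5) (nat_lit 45) (nat_lit 5) (nat_lit 43) (nat_lit 5) (nat_lit 388) (nat_lit 295) (nat_lit 217)) (XT.lf (nat_lit 0) (nat_lit 5080249986) (nat_lit 228) (nat_lit 6078753544) (nat_lit 76) (nat_lit 9742227674) (nat_lit 42) (nat_lit 5) (nat_lit 45) (nat_lit 5) (nat_lit 43) (nat_lit 5) (nat_lit 389) (nat_lit 295) (nat_lit 216)))) (XT.nd (nat_lit 156) (nat_lit 152) (nat_lit 0) (XT.nd (nat_lit 78) (nat_lit 0) (nat_lit 0) (XT.lf (nat_lit 0) (nat_lit 3760244453) (nat_lit 152) (nat_lit 5923737067) (nat_lit 228) (nat_lit 11673582874) (nat_lit 40) (nat_lit 5) (nat_lit 42) (nat_lit 5) (nat_lit 43) (nat_lit 5) (nat_lit 390) (nat_lit 295) (nat_lit 215))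 (XT.lf (nat_lit 0) (nat_lit 13971790746) (nat_lit 152) (nat_lit 488686545) (nat_lit 228) (nat_lit 7366077254) (nat_lit 40) (nat_lit 5) (nat_lit 42) (nat_lit 5) (nat_lit 43) (nat_lit 5) (nat_lit 391) (nat_lit 295) (nat_lit 214))) (XT.nd (nat_lit 78) (nat_lit 76) (nat_lit 0) (XT.lf (nat_lit 0) (nat_lit 2125991847) (nat_lit 76) (nat_lit 17297683318) (nat_lit 152) (nat_lit 2884643361) (nat_lit 39) (nat_lit 5) (nat_lit 40) (nat_lit 5) (nat_lit 41) (nat_lit 4) (nat_lit 392) (nat_lit 295) (nat_lit 213)) (XT.lf (nat_lit 0) (nat_lit 1756306167) (nat_lit 152) (nat_lit 10303754140) (nat_lit 76) (nat_lit 10742216192) (nat_lit 38) (nat_lit 5) (nat_lit 40) (nat_lit 5) (nat_lit 39) (nat_lit 5) (nat_lit 393) (nat_lit 295) (nat_lit 212))))) (XT.nd (nat_lit 234) (nat_lit 304) (nat_lit 0) (XT.nd (nat_lit 78) (nat_lit 152) (nat_lit 0) (XT.lf (nat_lit 0) (nat_lit 6453179207) (nat_lit 152) (nat_lit 202548245) (nat_lit 76) (nat_lit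 16655234535) (nat_lit 38) (nat_lit 5) (nat_lit 40) (nat_lit 5) (nat_lit 39) (nat_lit 5) (nat_lit 394) (nat_lit 295) (nat_lit 211)) (XT.nd (nat_lit 78) (nat_lit 0) (nat_lit 0) (XT.lf (nat_lit 0) (nat_lit 10360007316) (nat_lit 152) (nat_lit 1005949014) (nat_lit 228) (nat_lit 12466707409) (nat_lit 36) (nat_lit 5) (nat_lit 38) (nat_lit 5) (nat_lit 39) (nat_lit 5) (nat_lit 395) (nat_lit 295) (nat_lit 210)) (XT.lf (nat_lit 0) (nat_lit 16449977081) (nat_lit 228) (nat_lit 3216620447) (nat_lit 76) (nat_lit 4702708677) (nat_lit 36) (nat_lit 5) (nat_lit 39) (nat_lit 5) (nat_lit 37) (nat_lit 4) (nat_lit 396) (nat_lit 295) (nat_lit 209)))) (XT.nd (nat_lit 156) (nat_lit 152) (nat_lit 0) (XT.nd (nat_lit 78) (nat_lit 76) (nat_lit 0) (XT.lf (nat_lit 0) (nat_lit 7439623187) (nat_lit 76) (nat_lit 14304608319) (nat_lit 152) (nat_lit 3176090360) (nat_lit 35) (nat_lit 5) (nat_lit 36) (nat_lit 5) (nat_lit 37) (nat_lit 4) (nat_lit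 397) (nat_lit 295) (nat_lit 208)) (XT.lf (nat_lit 0) (nat_lit 1685178505) (nat_lit 152) (nat_lit 7064901500) (nat_lit 76) (nat_lit 16737027322) (nat_lit 34) (nat_lit 5) (nat_lit 36) (nat_lit 5) (nat_lit 35) (nat_lit 5) (nat_lit 398) (nat_lit 295) (nat_lit 207))) (XT.nd (nat_lit 78) (nat_lit 0) (nat_lit 0) (XT.lf (nat_lit 0) (nat_lit 3661878816) (nat_lit 152) (nat_lit 2978748454) (nat_lit 228) (nat_lit 19428965207) (nat_lit 32) (nat_lit 5) (nat_lit 34) (nat_lit 5) (nat_lit 35) (nat_lit 5) (nat_lit 399) (nat_lit 295) (nat_lit 206)) (XT.lf (nat_lit 0) (nat_lit 11822372893) (nat_lit 228) (nat_lit 11882945199) (nat_lit 76) (nat_lit 2961909807) (nat_lit 32) (nat_lit 5) (nat_lit 35) (nat_lit 5) (nat_lit 33) (nat_lit 4) (nat_lit 400) (nat_lit 295) (nat_lit 205))))))))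
noncomputable def xc93 : XT := (XT.nd (nat_lit 2028) (nat_lit 456) (nat_lit 0) (XT.nd (nat_lit 1014) (nat_lit 456) (nat_lit 0) (XT.nd (nat_lit 468) (nat_lit 380) (nat_lit 0) (XT.nd (nat_lit 234) (nat_lit 228) (nat_lit 0) (XT.nd (nat_lit 78) (nat_lit 76) (nat_lit 0) (XT.lf (nat_lit 0) (nat_lit 17166808149) (nat_lit 228) (nat_lit 1112319122) (nat_lit 76) (nat_lit 9003452578) (nat_lit 32) (nat_lit 5) (nat_lit 35) (nat_lit 5) (nat_lit 33) (nat_lit 4) (nat_lit 401) (nat_lit 295) (nat_lit 204)) (XT.nd (nat_lit 78) (nat_lit 0) (nat_lit 0) (XT.lf (nat_lit 0) (nat_lit 10140078808) (nat_lit 76) (nat_lit 12607363211) (nat_lit 152) (nat_lit 5166678820) (nat_lit 31) (nat_lit 5) (nat_lit 32) (nat_lit 5) (nat_lit 33) (nat_lit 4) (nat_lit 402) (nat_lit 295) (nat_lit 203)) (XT.lf (nat_lit 0) (nat_lit 21714018214) (nat_lit 76) (nat_lit 6771357908) (nat_lit 152) (nat_lit 79539821) (nat_lit 31) (nat_lit 5) (nat_lit 32) (nat_lit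 5) (nat_lit 33) (nat_lit 4) (nat_lit 403) (nat_lit 295) (nat_lit 202)))) (XT.nd (nat_lit 78) (nat_lit 0) (nat_lit 0) (XT.lf (nat_lit 0) (nat_lit 4398037654) (nat_lit 152) (nat_lit 682819470) (nat_lit 228) (nat_lit 24152253609) (nat_lit 28) (nat_lit 5) (nat_lit 30) (nat_lit 5) (nat_lit 31) (nat_lit 5) (nat_lit 404) (nat_lit 295) (nat_lit 201)) (XT.nd (nat_lit 78) (nat_lit 0) (nat_lit 0) (XT.lf (nat_lit 0) (nat_lit 10497196322) (nat_lit 228) (nat_lit 13887798199) (nat_lit 76) (nat_lit 5533255304) (nat_lit 28) (nat_lit 5) (nat_lit 31) (nat_lit 5) (nat_lit 29) (nat_lit 4) (nat_lit 405) (nat_lit 295) (nat_lit 200)) (XT.lf (nat_lit 0) (nat_lit 16062538267) (nat_lit 228) (nat_lit 2655961462) (nat_lit 76) (nat_lit 11905851820) (nat_lit 28) (nat_lit 5) (nat_lit 31) (nat_lit 5) (nat_lit 29) (nat_lit 4) (nat_lit 406) (nat_lit 295) (nat_lit 199))))) (XT.nd (nat_lit 234) (nat_lit 76) (nat_lit 0) (XT.nd (nat_lit 78)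 (nat_lit 228) (nat_lit 0) (XT.lf (nat_lit 0) (nat_lit 9053481060) (nat_lit 76) (nat_lit 12808728741) (nat_lit 152) (nat_lit 9487409171) (nat_lit 27) (nat_lit 5) (nat_lit 28) (nat_lit 5) (nat_lit 29) (nat_lit 4) (nat_lit 407) (nat_lit 295) (nat_lit 198)) (XT.nd (nat_lit 78) (nat_lit 228) (nat_lit 0) (XT.lf (nat_lit 0) (nat_lit 21132989215) (nat_lit 76) (nat_lit 6710273764) (nat_lit 152) (nat_lit 4253163310) (nat_lit 27) (nat_lit 5) (nat_lit 28) (nat_lit 5) (nat_lit 29) (nat_lit 4) (nat_lit 408) (nat_lit 295) (nat_lit 197)) (XT.lf (nat_lit 0) (nat_lit 676499375) (nat_lit 152) (nat_lit 426852024) (nat_lit 228) (nat_lit 31762338128) (nat_lit 24) (nat_lit 5) (nat_lit 26) (nat_lit 5) (nat_lit 27) (nat_lit 5) (nat_lit 409) (nat_lit 295) (nat_lit 196)))) (XT.nd (nat_lit 156) (nat_lit 76) (nat_lit 0) (XT.nd (nat_lit 78) (nat_lit 0) (nat_lit 0) (XT.lf (nat_lit 0) (nat_lit 6686008183) (nat_lit 228) (nat_lit 20900730350)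 (nat_lit 76) (nat_lit 6065504194) (nat_lit 24) (nat_lit 5) (nat_lit 27) (nat_lit 5) (nat_lit 25) (nat_lit 4) (nat_lit 410) (nat_lit 295) (nat_lit 195)) (XT.lf (nat_lit 0) (nat_lit 12421940561) (nat_lit 228) (nat_lit 9311900295) (nat_lit 76) (nat_lit 12728981004) (nat_lit 24) (nat_lit 5) (nat_lit 27) (nat_lit 5) (nat_lit 25) (nat_lit 4) (nat_lit 411) (nat_lit 295) (nat_lit 194))) (XT.nd (nat_lit 78) (nat_lit 0) (nat_lit 0) (XT.lf (nat_lit 0) (nat_lit 2643105852) (nat_lit 76) (nat_lit 15694358648) (nat_lit 152) (nat_lit 16960031581) (nat_lit 23) (nat_lit 5) (nat_lit 24) (nat_lit 5) (nat_lit 25) (nat_lit 4) (nat_lit 412) (nat_lit 295) (nat_lit 193)) (XT.lf (nat_lit 0) (nat_lit 15114905856) (nat_lit 76) (nat_lit 9391893118) (nat_lit 152) (nat_lit 11648124238) (nat_lit 23) (nat_lit 5) (nat_lit 24) (nat_lit 5) (nat_lit 25) (nat_lit 4) (nat_lit 413) (nat_lit 295) (nat_lit 192)))))) (XT.nd (nat_lit 468) (nat_lit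 228) (nat_lit 0) (XT.nd (nat_lit 234) (nat_lit 76) (nat_lit 0) (XT.nd (nat_lit 78) (nat_lit 152) (nat_lit 0) (XT.lf (nat_lit 0) (nat_lit 27929072332) (nat_lit 76) (nat_lit 2914969193) (nat_lit 152) (nat_lit 6194549733) (nat_lit 23) (nat_lit 5) (nat_lit 24) (nat_lit 5) (nat_lit 25) (nat_lit 4) (nat_lit 414) (nat_lit 295) (nat_lit 191)) (XT.nd (nat_lit 78) (nat_lit 76) (nat_lit 0) (XT.lf (nat_lit 0) (nat_lit 3173484796) (nat_lit 76) (nat_lit 34247721320) (nat_lit 76) (nat_lit 526071942) (nat_lit 22) (nat_lit 4) (nat_lit 23) (nat_lit 5) (nat_lit 23) (nat_lit 4) (nat_lit 415) (nat_lit 295) (nat_lit 190)) (XT.lf (nat_lit 0) (nat_lit 5313771964) (nat_lit 152) (nat_lit 22980848284) (nat_lit 76) (nat_lit 10583926596) (nat_lit 21) (nat_lit 5) (nat_lit 23) (nat_lit 5) (nat_lit 22) (nat_lit 4) (nat_lit 416) (nat_lit 295) (nat_lit 189)))) (XT.nd (nat_lit 78) (nat_lit 76) (nat_lit 0) (XT.lf (nat_lit 0) (nat_lit 11301943371)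 (nat_lit 152) (nat_lit 10869671974) (nat_lit 76) (nat_lit 17666473533) (nat_lit 21) (nat_lit 5) (nat_lit 23) (nat_lit 5) (nat_lit 22) (nat_lit 4) (nat_lit 417) (nat_lit 295) (nat_lit 188)) (XT.nd (nat_lit 78) (nat_lit 0) (nat_lit 0) (XT.lf (nat_lit 0) (nat_lit 1606728228) (nat_lit 76) (nat_lit 15862656844) (nat_lit 152) (nat_lit 23357045883) (nat_lit 20) (nat_lit 5) (nat_lit 21) (nat_lit 5) (nat_lit 22) (nat_lit 4) (nat_lit 418) (nat_lit 295) (nat_lit 187)) (XT.lf (nat_lit 0) (nat_lit 14651062474) (nat_lit 76) (nat_lit 9264910539) (nat_lit 152) (nat_lit 17925629056) (nat_lit 20) (nat_lit 5) (nat_lit 21) (nat_lit 5) (nat_lit 22) (nat_lit 4) (nat_lit 419) (nat_lit 295) (nat_lit 186))))) (XT.nd (nat_lit 234) (nat_lit 152) (nat_lit 0) (XT.nd (nat_lit 78) (nat_lit 76) (nat_lit 0) (XT.lf (nat_lit 0) (nat_lit 28058400938) (nat_lit 76) (nat_lit 2482373783) (nat_lit 152) (nat_lit 12346911502) (nat_lit 20) (nat_lit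 5) (nat_lit 21) (nat_lit 5) (nat_lit 22) (nat_lit 4) (nat_lit 420) (nat_lit 295) (nat_lit 185)) (XT.nd (nat_lit 78) (nat_lit 76) (nat_lit 0) (XT.lf (nat_lit 0) (nat_lit 37392747945) (nat_lit 152) (nat_lit 2168307788) (nat_lit 0) (nat_lit 4403246668) (nat_lit 20) (nat_lit 5) (nat_lit 22) (nat_lit 4) (nat_lit 20) (nat_lit 4) (nat_lit 421) (nat_lit 295) (nat_lit 184)) (XT.lf (nat_lit 0) (nat_lit 11036266040) (nat_lit 76) (nat_lit 33530248292) (nat_lit 76) (nat_lit 503217967) (nat_lit 19) (nat_lit 4) (nat_lit 20) (nat_lit 5) (nat_lit 20) (nat_lit 4) (nat_lit 422) (nat_lit 295) (nat_lit 183)))) (XT.nd (nat_lit 156) (nat_lit 76) (nat_lit 0) (XT.nd (nat_lit 78) (nat_lit 0) (nat_lit 0) (XT.lf (nat_lit 0) (nat_lit 5642721573) (nat_lit 152) (nat_lit 21608741499) (nat_lit 76) (nat_lit 18954975760) (nat_lit 18) (nat_lit 5) (nat_lit 20) (nat_lit 5) (nat_lit 19) (nat_lit 4) (nat_lit 423) (nat_lit 295) (nat_lit 182))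 (XT.lf (nat_lit 0) (nat_lit 11948933341) (nat_lit 152) (nat_lit 8842506335) (nat_lit 76) (nat_lit 26586079230) (nat_lit 18) (nat_lit 5) (nat_lit 20) (nat_lit 5) (nat_lit 19) (nat_lit 4) (nat_lit 424) (nat_lit 295) (nat_lit 181))) (XT.nd (nat_lit 78) (nat_lit 0) (nat_lit 0) (XT.lf (nat_lit 0) (nat_lit 4366436333) (nat_lit 76) (nat_lit 14106283739) (nat_lit 152) (nat_lit 30110161657) (nat_lit 17) (nat_lit 5) (nat_lit 18) (nat_lit 5) (nat_lit 19) (nat_lit 4) (nat_lit 425) (nat_lit 295) (nat_lit 180)) (XT.lf (nat_lit 0) (nat_lit 18127675390) (nat_lit 76) (nat_lit 7140405830) (nat_lit 152) (nat_lit 24554050335) (nat_lit 17) (nat_lit 5) (nat_lit 18) (nat_lit 5) (nat_lit 19) (nat_lit 4) (nat_lit 426) (nat_lit 295) (nat_lit 179))))))) (XT.nd (nat_lit 1014) (nat_lit 152) (nat_lit 0) (XT.nd (nat_lit 468) (nat_lit 152) (nat_lit 0) (XT.nd (nat_lit 234) (nat_lit 76) (nat_lit 0) (XT.nd (nat_lit 78) (nat_lit 76) (nat_lit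 0) (XT.lf (nat_lit 0) (nat_lit 32254484223) (nat_lit 152) (nat_lit 18821920940) (nat_lit 0) (nat_lit 22540171) (nat_lit 17) (nat_lit 5) (nat_lit 19) (nat_lit 4) (nat_lit 17) (nat_lit 4) (nat_lit 427) (nat_lit 295) (nat_lit 178)) (XT.nd (nat_lit 78) (nat_lit 76) (nat_lit 0) (XT.lf (nat_lit 0) (nat_lit 39508409297) (nat_lit 152) (nat_lit 5657967468) (nat_lit 0) (nat_lit 7245950695) (nat_lit 17) (nat_lit 5) (nat_lit 19) (nat_lit 4) (nat_lit 17) (nat_lit 4) (nat_lit 428) (nat_lit 295) (nat_lit 177)) (XT.lf (nat_lit 0) (nat_lit 8034323270) (nat_lit 76) (nat_lit 39010464436) (nat_lit 76) (nat_lit 6718380056) (nat_lit 16) (nat_lit 4) (nat_lit 17) (nat_lit 5) (nat_lit 17) (nat_lit 4) (nat_lit 429) (nat_lit 295) (nat_lit 176)))) (XT.nd (nat_lit 78) (nat_lit 76) (nat_lit 0) (XT.lf (nat_lit 0) (nat_lit 22230234611) (nat_lit 76) (nat_lit 32621900662) (nat_lit 76) (nat_lit 301053393) (nat_lit 16) (nat_lit 4) (nat_lit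 17) (nat_lit 5) (nat_lit 17) (nat_lit 4) (nat_lit 430) (nat_lit 295) (nat_lit 175)) (XT.nd (nat_lit 78) (nat_lit 0) (nat_lit 0) (XT.lf (nat_lit 0) (nat_lit 6173666748) (nat_lit 152) (nat_lit 19816228905) (nat_lit 76) (nat_lit 30593557425) (nat_lit 15) (nat_lit 5) (nat_lit 17) (nat_lit 5) (nat_lit 16) (nat_lit 4) (nat_lit 431) (nat_lit 295) (nat_lit 174)) (XT.lf (nat_lit 0) (nat_lit 12824908644) (nat_lit 152) (nat_lit 6341319639) (nat_lit 76) (nat_lit 38890659368) (nat_lit 15) (nat_lit 5) (nat_lit 17) (nat_lit 5) (nat_lit 16) (nat_lit 4) (nat_lit 432) (nat_lit 295) (nat_lit 173))))) (XT.nd (nat_lit 234) (nat_lit 76) (nat_lit 0) (XT.nd (nat_lit 78) (nat_lit 0) (nat_lit 0) (XT.lf (nat_lit 0) (nat_lit 7666033773) (nat_lit 76) (nat_lit 12072015527) (nat_lit 152) (nat_lit 39834606651) (nat_lit 14) (nat_lit 5) (nat_lit 15) (nat_lit 5) (nat_lit 16) (nat_lit 4) (nat_lit 433) (nat_lit 295) (nat_lit 172)) (XT.nd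 (nat_lit 78) (nat_lit 0) (nat_lit 0) (XT.lf (nat_lit 0) (nat_lit 22202413317) (nat_lit 76) (nat_lit 4709002977) (nat_lit 152) (nat_lit 34220897532) (nat_lit 14) (nat_lit 5) (nat_lit 15) (nat_lit 5) (nat_lit 16) (nat_lit 4) (nat_lit 434) (nat_lit 295) (nat_lit 171)) (XT.lf (nat_lit 0) (nat_lit 34316649953) (nat_lit 152) (nat_lit 25612315324) (nat_lit 0) (nat_lit 2809297639) (nat_lit 14) (nat_lit 5) (nat_lit 16) (nat_lit 4) (nat_lit 14) (nat_lit 4) (nat_lit 435) (nat_lit 295) (nat_lit 170)))) (XT.nd (nat_lit 156) (nat_lit 0) (nat_lit 0) (XT.nd (nat_lit 78) (nat_lit 76) (nat_lit 0) (XT.lf (nat_lit 0) (nat_lit 41980014273) (nat_lit 152) (nat_lit 11962023303) (nat_lit 0) (nat_lit 10449275097) (nat_lit 14) (nat_lit 5) (nat_lit 16) (nat_lit 4) (nat_lit 14) (nat_lit 4) (nat_lit 436) (nat_lit 295) (nat_lit 169)) (XT.lf (nat_lit 0) (nat_lit 2119528443) (nat_lit 76) (nat_lit 47763785342) (nat_lit 76) (nat_lit 16210340475)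 (nat_lit 13) (nat_lit 4) (nat_lit 14) (nat_lit 5) (nat_lit 14) (nat_lit 4) (nat_lit 437) (nat_lit 295) (nat_lit 168))) (XT.nd (nat_lit 78) (nat_lit 0) (nat_lit 0) (XT.lf (nat_lit 0) (nat_lit 16849320067) (nat_lit 76) (nat_lit 41284959776) (nat_lit 76) (nat_lit 9709470548) (nat_lit 13) (nat_lit 4) (nat_lit 14) (nat_lit 5) (nat_lit 14) (nat_lit 4) (nat_lit 438) (nat_lit 295) (nat_lit 167)) (XT.lf (nat_lit 0) (nat_lit 32002154539) (nat_lit 76) (nat_lit 34620692750) (nat_lit 76) (nat_lit 3023801231) (nat_lit 13) (nat_lit 4) (nat_lit 14) (nat_lit 5) (nat_lit 14) (nat_lit 4) (nat_lit 439) (nat_lit 295) (nat_lit 166)))))) (XT.nd (nat_lit 36582) (nat_lit 0) (nat_lit 23484) (XT.nd (nat_lit 234) (nat_lit 0) (nat_lit 0) (XT.nd (nat_lit 78) (nat_lit 76) (nat_lit 0) (XT.lf (nat_lit 0) (nat_lit 3777332991) (nat_lit 152) (nat_lit 23949684469) (nat_lit 76) (nat_lit 43775795553) (nat_lit 12) (nat_lit 5) (nat_lit 14) (nat_lit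 5) (nat_lit 13) (nat_lit 4) (nat_lit 440) (nat_lit 295) (nat_lit 165)) (XT.nd (nat_lit 78) (nat_lit 76) (nat_lit 0) (XT.lf (nat_lit 0) (nat_lit 10712274283) (nat_lit 152) (nat_lit 9891927359) (nat_lit 76) (nat_lit 52809847364) (nat_lit 12) (nat_lit 5) (nat_lit 14) (nat_lit 5) (nat_lit 13) (nat_lit 4) (nat_lit 441) (nat_lit 295) (nat_lit 164)) (XT.lf (nat_lit 0) (nat_lit 4661081950) (nat_lit 76) (nat_lit 13229810775) (nat_lit 152) (nat_lit 57490661628) (nat_lit 11) (nat_lit 5) (nat_lit 12) (nat_lit 5) (nat_lit 13) (nat_lit 4) (nat_lit 442) (nat_lit 295) (nat_lit 163)))) (XT.nd (nat_lit 156) (nat_lit 0) (nat_lit 0) (XT.nd (nat_lit 78) (nat_lit 0) (nat_lit 0) (XT.lf (nat_lit 0) (nat_lit 19836192271) (nat_lit 76) (nat_lit 5539491577) (nat_lit 152) (nat_lit 52029677697) (nat_lit 11) (nat_lit 5) (nat_lit 12) (nat_lit 5) (nat_lit 13) (nat_lit 4) (nat_lit 443) (nat_lit 295) (nat_lit 162)) (XT.lf (nat_lit 0) (nat_lit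 33099024448) (nat_lit 152) (nat_lit 44063170056) (nat_lit 0) (nat_lit 2327269354) (nat_lit 11) (nat_lit 5) (nat_lit 13) (nat_lit 4) (nat_lit 11) (nat_lit 4) (nat_lit 444) (nat_lit 295) (nat_lit 161))) (XT.nd (nat_lit 78) (nat_lit 0) (nat_lit 0) (XT.lf (nat_lit 0) (nat_lit 41100283513) (nat_lit 152) (nat_lit 30223293829) (nat_lit 0) (nat_lit 10311126397) (nat_lit 11) (nat_lit 5) (nat_lit 13) (nat_lit 4) (nat_lit 11) (nat_lit 4) (nat_lit 445) (nat_lit 295) (nat_lit 160)) (XT.lf (nat_lit 0) (nat_lit 49333203453) (nat_lit 152) (nat_lit 15984198514) (nat_lit 0) (nat_lit 18527151170) (nat_lit 11) (nat_lit 5) (nat_lit 13) (nat_lit 4) (nat_lit 11) (nat_lit 4) (nat_lit 446) (nat_lit 295) (nat_lit 159))))) (XT.nd (nat_lit 234) (nat_lit 1064) (nat_lit 0) (XT.nd (nat_lit 78) (nat_lit 456) (nat_lit 0) (XT.lf (nat_lit 0) (nat_lit 230129932) (nat_lit 380) (nat_lit 2795857626) (nat_lit 0) (nat_lit 230129932) (nat_lit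 340) (nat_lit 5) (nat_lit 345) (nat_lit 4) (nat_lit 340) (nat_lit 4) (nat_lit 308) (nat_lit 296) (nat_lit 296)) (XT.nd (nat_lit 78) (nat_lit 456) (nat_lit 0) (XT.lf (nat_lit 0) (nat_lit 3540687118) (nat_lit 380) (nat_lit 1945618494) (nat_lit 0) (nat_lit 1044636132) (nat_lit 340) (nat_lit 5) (nat_lit 345) (nat_lit 4) (nat_lit 340) (nat_lit 4) (nat_lit 309) (nat_lit 296) (nat_lit 295)) (XT.lf (nat_lit 0) (nat_lit 67168683) (nat_lit 456) (nat_lit 4783049031) (nat_lit 76) (nat_lit 1702875086) (nat_lit 334) (nat_lit 5) (nat_lit 340) (nat_lit 5) (nat_lit 335) (nat_lit 4) (nat_lit 310) (nat_lit 296) (nat_lit 294)))) (XT.nd (nat_lit 156) (nat_lit 608) (nat_lit 0) (XT.nd (nat_lit 78) (nat_lit 456) (nat_lit 0) (XT.lf (nat_lit 0) (nat_lit 3068403244) (nat_lit 456) (nat_lit 1043310321) (nat_lit 76) (nat_lit 2466078149) (nat_lit 334) (nat_lit 5) (nat_lit 340) (nat_lit 5) (nat_lit 335) (nat_lit 4) (nat_lit 311) (nat_lit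 296) (nat_lit 293)) (XT.lf (nat_lit 0) (nat_lit 2790005837) (nat_lit 456) (nat_lit 3291971988) (nat_lit 532) (nat_lit 523717896) (nat_lit 328) (nat_lit 5) (nat_lit 334) (nat_lit 5) (nat_lit 335) (nat_lit 4) (nat_lit 312) (nat_lit 296) (nat_lit 292))) (XT.nd (nat_lit 78) (nat_lit 0) (nat_lit 0) (XT.lf (nat_lit 0) (nat_lit 26959416) (nat_lit 532) (nat_lit 2382366968) (nat_lit 608) (nat_lit 4227272440) (nat_lit 320) (nat_lit 5) (nat_lit 327) (nat_lit 5) (nat_lit 328) (nat_lit 5) (nat_lit 313) (nat_lit 296) (nat_lit 291)) (XT.lf (nat_lit 0) (nat_lit 3984025112) (nat_lit 532) (nat_lit 1373284532) (nat_lit 608) (nat_lit 1312961513) (nat_lit 320) (nat_lit 5) (nat_lit 327) (nat_lit 5) (nat_lit 328) (nat_lit 5) (nat_lit 314) (nat_lit 296) (nat_lit 290))))))))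
noncomputable def xc94 : XT := (XT.nd (nat_lit 2028) (nat_lit 5624) (nat_lit 0) (XT.nd (nat_lit 1014) (nat_lit 5548) (nat_lit 0) (XT.nd (nat_lit 468) (nat_lit 4256) (nat_lit 0) (XT.nd (nat_lit 234) (nat_lit 1672) (nat_lit 0) (XT.nd (nat_lit 78) (nat_lit 760) (nat_lit 0) (XT.lf (nat_lit 0) (nat_lit 1290057831) (nat_lit 608) (nat_lit 279016235) (nat_lit 684) (nat_lit 5138110014) (nat_lit 311) (nat_lit 5) (nat_lit 319) (nat_lit 5) (nat_lit 320) (nat_lit 5) (nat_lit 315) (nat_lit 296) (nat_lit 289)) (XT.nd (nat_lit 78) (nat_lit 760) (nat_lit 0) (XT.lf (nat_lit 0) (nat_lit 4449993188) (nat_lit 684) (nat_lit 1401354180) (nat_lit 76) (nat_lit 895414251) (nat_lit 311) (nat_lit 5) (nat_lit 320) (nat_lit 5) (nat_lit 312) (nat_lit 5) (nat_lit 316) (nat_lit 296) (nat_lit 288)) (XT.lf (nat_lit 0) (nat_lit 551677572) (nat_lit 760) (nat_lit 4084004733) (nat_lit 76) (nat_lit 2153743094) (nat_lit 301) (nat_lit 5) (nat_lit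 311) (nat_lit 5) (nat_lit 302) (nat_lit 5) (nat_lit 317) (nat_lit 296) (nat_lit 287)))) (XT.nd (nat_lit 78) (nat_lit 912) (nat_lit 0) (XT.lf (nat_lit 0) (nat_lit 33694377) (nat_lit 760) (nat_lit 3327435160) (nat_lit 836) (nat_lit 3474007985) (nat_lit 291) (nat_lit 5) (nat_lit 301) (nat_lit 5) (nat_lit 302) (nat_lit 5) (nat_lit 318) (nat_lit 296) (nat_lit 286)) (XT.nd (nat_lit 78) (nat_lit 912) (nat_lit 0) (XT.lf (nat_lit 0) (nat_lit 4284117117) (nat_lit 760) (nat_lit 1921078237) (nat_lit 836) (nat_lit 678614871) (nat_lit 291) (nat_lit 5) (nat_lit 301) (nat_lit 5) (nat_lit 302) (nat_lit 5) (nat_lit 319) (nat_lit 296) (nat_lit 285)) (XT.lf (nat_lit 0) (nat_lit 1665225997) (nat_lit 836) (nat_lit 419248273) (nat_lit 912) (nat_lit 4851124357) (nat_lit 279) (nat_lit 5) (nat_lit 290) (nat_lit 5) (nat_lit 291) (nat_lit 5) (nat_lit 320) (nat_lit 296) (nat_lit 284))))) (XT.nd (nat_lit 234) (nat_lit 2280) (nat_lit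 0) (XT.nd (nat_lit 78) (nat_lit 1976) (nat_lit 0) (XT.lf (nat_lit 0) (nat_lit 4866962841) (nat_lit 912) (nat_lit 970928017) (nat_lit 76) (nat_lit 1152434582) (nat_lit 279) (nat_lit 5) (nat_lit 291) (nat_lit 5) (nat_lit 280) (nat_lit 5) (nat_lit 321) (nat_lit 296) (nat_lit 283)) (XT.nd (nat_lit 78) (nat_lit 988) (nat_lit 0) (XT.lf (nat_lit 0) (nat_lit 624901284) (nat_lit 988) (nat_lit 3607844646) (nat_lit 76) (nat_lit 2815273935) (nat_lit 266) (nat_lit 5) (nat_lit 279) (nat_lit 5) (nat_lit 267) (nat_lit 5) (nat_lit 322) (nat_lit 296) (nat_lit 282)) (XT.lf (nat_lit 0) (nat_lit 816025610) (nat_lit 988) (nat_lit 2530846434) (nat_lit 1064) (nat_lit 3762007299) (nat_lit 253) (nat_lit 5) (nat_lit 266) (nat_lit 5) (nat_lit 267) (nat_lit 5) (nat_lit 323) (nat_lit 296) (nat_lit 281)))) (XT.nd (nat_lit 156) (nat_lit 1140) (nat_lit 0) (XT.nd (nat_lit 78) (nat_lit 1140) (nat_lit 0) (XT.lf (nat_lit 0) (nat_lit 5372164773)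 (nat_lit 988) (nat_lit 732685900) (nat_lit 1064) (nat_lit 1068164068) (nat_lit 253) (nat_lit 5) (nat_lit 266) (nat_lit 5) (nat_lit 267) (nat_lit 5) (nat_lit 324) (nat_lit 296) (nat_lit 280)) (XT.lf (nat_lit 0) (nat_lit 1630708101) (nat_lit 1140) (nat_lit 4461485456) (nat_lit 76) (nat_lit 1147739096) (nat_lit 238) (nat_lit 5) (nat_lit 253) (nat_lit 5) (nat_lit 239) (nat_lit 5) (nat_lit 325) (nat_lit 296) (nat_lit 279))) (XT.nd (nat_lit 78) (nat_lit 0) (nat_lit 0) (XT.lf (nat_lit 0) (nat_lit 132615777) (nat_lit 1140) (nat_lit 4204495244) (nat_lit 1216) (nat_lit 2973062552) (nat_lit 223) (nat_lit 5) (nat_lit 238) (nat_lit 5) (nat_lit 239) (nat_lit 5) (nat_lit 326) (nat_lit 296) (nat_lit 278)) (XT.lf (nat_lit 0) (nat_lit 4881049993) (nat_lit 1140) (nat_lit 2211424198) (nat_lit 1216) (nat_lit 291086097) (nat_lit 223) (nat_lit 5) (nat_lit 238) (nat_lit 5) (nat_lit 239) (nat_lit 5) (nat_lit 327) (nat_lit 296)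 (nat_lit 277)))))) (XT.nd (nat_lit 468) (nat_lit 2584) (nat_lit 0) (XT.nd (nat_lit 234) (nat_lit 1216) (nat_lit 0) (XT.nd (nat_lit 78) (nat_lit 684) (nat_lit 0) (XT.lf (nat_lit 0) (nat_lit 2258769041) (nat_lit 988) (nat_lit 110224174) (nat_lit 1064) (nat_lit 5091134149) (nat_lit 209) (nat_lit 5) (nat_lit 222) (nat_lit 5) (nat_lit 223) (nat_lit 5) (nat_lit 328) (nat_lit 296) (nat_lit 276)) (XT.nd (nat_lit 78) (nat_lit 684) (nat_lit 0) (XT.lf (nat_lit 0) (nat_lit 5073953748) (nat_lit 1064) (nat_lit 422838438) (nat_lit 76) (nat_lit 2043050457) (nat_lit 209) (nat_lit 5) (nat_lit 223) (nat_lit 5) (nat_lit 210) (nat_lit 5) (nat_lit 329) (nat_lit 296) (nat_lit 275)) (XT.lf (nat_lit 0) (nat_lit 205426262) (nat_lit 684) (nat_lit 3112564412) (nat_lit 76) (nat_lit 4304793042) (nat_lit 200) (nat_lit 5) (nat_lit 209) (nat_lit 5) (nat_lit 201) (nat_lit 5) (nat_lit 330) (nat_lit 296) (nat_lit 274)))) (XT.nd (nat_lit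 78) (nat_lit 684) (nat_lit 0) (XT.lf (nat_lit 0) (nat_lit 1828613325) (nat_lit 532) (nat_lit 1029064183) (nat_lit 608) (nat_lit 4851352286) (nat_lit 193) (nat_lit 5) (nat_lit 200) (nat_lit 5) (nat_lit 201) (nat_lit 5) (nat_lit 331) (nat_lit 296) (nat_lit 273)) (XT.nd (nat_lit 78) (nat_lit 684) (nat_lit 0) (XT.lf (nat_lit 0) (nat_lit 5563817895) (nat_lit 608) (nat_lit 904033870) (nat_lit 76) (nat_lit 1330840068) (nat_lit 193) (nat_lit 5) (nat_lit 201) (nat_lit 5) (nat_lit 194) (nat_lit 5) (nat_lit 332) (nat_lit 296) (nat_lit 272)) (XT.lf (nat_lit 0) (nat_lit 433501727) (nat_lit 684) (nat_lit 3675723283) (nat_lit 76) (nat_lit 3782269489) (nat_lit 184) (nat_lit 5) (nat_lit 193) (nat_lit 5) (nat_lit 185) (nat_lit 5) (nat_lit 333) (nat_lit 296) (nat_lit 271))))) (XT.nd (nat_lit 234) (nat_lit 1444) (nat_lit 0) (XT.nd (nat_lit 78) (nat_lit 608) (nat_lit 0) (XT.lf (nat_lit 0) (nat_lit 1452695186) (nat_lit 532)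 (nat_lit 1639919613) (nat_lit 608) (nat_lit 4895187759) (nat_lit 177) (nat_lit 5) (nat_lit 184) (nat_lit 5) (nat_lit 185) (nat_lit 5) (nat_lit 334) (nat_lit 296) (nat_lit 270)) (XT.nd (nat_lit 78) (nat_lit 608) (nat_lit 0) (XT.lf (nat_lit 0) (nat_lit 5811283174) (nat_lit 608) (nat_lit 1360195269) (nat_lit 76) (nat_lit 916179692) (nat_lit 177) (nat_lit 5) (nat_lit 185) (nat_lit 5) (nat_lit 178) (nat_lit 5) (nat_lit 335) (nat_lit 296) (nat_lit 269)) (XT.lf (nat_lit 0) (nat_lit 402462284) (nat_lit 608) (nat_lit 4237227072) (nat_lit 76) (nat_lit 3551057118) (nat_lit 169) (nat_lit 5) (nat_lit 177) (nat_lit 5) (nat_lit 170) (nat_lit 5) (nat_lit 336) (nat_lit 296) (nat_lit 268)))) (XT.nd (nat_lit 156) (nat_lit 988) (nat_lit 0) (XT.nd (nat_lit 78) (nat_lit 0) (nat_lit 0) (XT.lf (nat_lit 0) (nat_lit 1082490367) (nat_lit 456) (nat_lit 1993748675) (nat_lit 532) (nat_lit 5221249796) (nat_lit 163) (nat_lit 5) (nat_lit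 169) (nat_lit 5) (nat_lit 170) (nat_lit 5) (nat_lit 337) (nat_lit 296) (nat_lit 267)) (XT.lf (nat_lit 0) (nat_lit 5817581170) (nat_lit 532) (nat_lit 1840022777) (nat_lit 76) (nat_lit 750254927) (nat_lit 163) (nat_lit 5) (nat_lit 170) (nat_lit 5) (nat_lit 164) (nat_lit 5) (nat_lit 338) (nat_lit 296) (nat_lit 266))) (XT.nd (nat_lit 78) (nat_lit 456) (nat_lit 0) (XT.lf (nat_lit 0) (nat_lit 111195667) (nat_lit 532) (nat_lit 4847562892) (nat_lit 76) (nat_lit 3562973087) (nat_lit 156) (nat_lit 5) (nat_lit 163) (nat_lit 5) (nat_lit 157) (nat_lit 5) (nat_lit 339) (nat_lit 296) (nat_lit 265)) (XT.lf (nat_lit 0) (nat_lit 666800490) (nat_lit 456) (nat_lit 2139413616) (nat_lit 532) (nat_lit 5833142285) (nat_lit 150) (nat_lit 5) (nat_lit 156) (nat_lit 5) (nat_lit 157) (nat_lit 5) (nat_lit 340) (nat_lit 296) (nat_lit 264))))))) (XT.nd (nat_lit 1014) (nat_lit 2356) (nat_lit 0) (XT.nd (nat_lit 468) (nat_lit 1900) (nat_lit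 0) (XT.nd (nat_lit 234) (nat_lit 456) (nat_lit 0) (XT.nd (nat_lit 78) (nat_lit 912) (nat_lit 0) (XT.lf (nat_lit 0) (nat_lit 5579196233) (nat_lit 532) (nat_lit 2395313203) (nat_lit 76) (nat_lit 786127886) (nat_lit 150) (nat_lit 5) (nat_lit 157) (nat_lit 5) (nat_lit 151) (nat_lit 5) (nat_lit 341) (nat_lit 296) (nat_lit 263)) (XT.nd (nat_lit 78) (nat_lit 456) (nat_lit 0) (XT.lf (nat_lit 0) (nat_lit 3320625619) (nat_lit 456) (nat_lit 5109911041) (nat_lit 532) (nat_lit 455204604) (nat_lit 144) (nat_lit 5) (nat_lit 150) (nat_lit 5) (nat_lit 151) (nat_lit 5) (nat_lit 342) (nat_lit 296) (nat_lit 262)) (XT.lf (nat_lit 0) (nat_lit 150644442) (nat_lit 380) (nat_lit 2124603103) (nat_lit 456) (nat_lit 6739659434) (nat_lit 138) (nat_lit 5) (nat_lit 143) (nat_lit 5) (nat_lit 144) (nat_lit 5) (nat_lit 343) (nat_lit 296) (nat_lit 261)))) (XT.nd (nat_lit 78) (nat_lit 456) (nat_lit 0) (XT.lf (nat_lit 0) (nat_lit 5087651996)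 (nat_lit 456) (nat_lit 3082084856) (nat_lit 76) (nat_lit 977836251) (nat_lit 138) (nat_lit 5) (nat_lit 144) (nat_lit 5) (nat_lit 139) (nat_lit 5) (nat_lit 344) (nat_lit 296) (nat_lit 260)) (XT.nd (nat_lit 78) (nat_lit 76) (nat_lit 0) (XT.lf (nat_lit 0) (nat_lit 2836432722) (nat_lit 380) (nat_lit 5141248728) (nat_lit 456) (nat_lit 1306775404) (nat_lit 133) (nat_lit 5) (nat_lit 138) (nat_lit 5) (nat_lit 139) (nat_lit 5) (nat_lit 345) (nat_lit 296) (nat_lit 259)) (XT.lf (nat_lit 0) (nat_lit 1475865837) (nat_lit 456) (nat_lit 515693500) (nat_lit 76) (nat_lit 7434177960) (nat_lit 132) (nat_lit 5) (nat_lit 138) (nat_lit 5) (nat_lit 133) (nat_lit 5) (nat_lit 346) (nat_lit 296) (nat_lit 258))))) (XT.nd (nat_lit 234) (nat_lit 1064) (nat_lit 0) (XT.nd (nat_lit 78) (nat_lit 456) (nat_lit 0) (XT.lf (nat_lit 0) (nat_lit 4329202218) (nat_lit 456) (nat_lit 3961816813) (nat_lit 76) (nat_lit 1279476787) (nat_lit 127) (nat_lit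 5) (nat_lit 133) (nat_lit 5) (nat_lit 128) (nat_lit 5) (nat_lit 347) (nat_lit 296) (nat_lit 257)) (XT.nd (nat_lit 78) (nat_lit 76) (nat_lit 0) (XT.lf (nat_lit 0) (nat_lit 2159769057) (nat_lit 380) (nat_lit 5101727229) (nat_lit 456) (nat_lit 2458331378) (nat_lit 122) (nat_lit 5) (nat_lit 127) (nat_lit 5) (nat_lit 128) (nat_lit 5) (nat_lit 348) (nat_lit 296) (nat_lit 256)) (XT.lf (nat_lit 0) (nat_lit 388492099) (nat_lit 456) (nat_lit 1401435847) (nat_lit 76) (nat_lit 8083973243) (nat_lit 121) (nat_lit 5) (nat_lit 127) (nat_lit 5) (nat_lit 122) (nat_lit 5) (nat_lit 349) (nat_lit 296) (nat_lit 255)))) (XT.nd (nat_lit 156) (nat_lit 380) (nat_lit 0) (XT.nd (nat_lit 78) (nat_lit 380) (nat_lit 0) (XT.lf (nat_lit 0) (nat_lit 3284417532) (nat_lit 380) (nat_lit 5102828443) (nat_lit 76) (nat_lit 1644256172) (nat_lit 117) (nat_lit 5) (nat_lit 122) (nat_lit 5) (nat_lit 118) (nat_lit 5) (nat_lit 350) (nat_lit 296) (nat_lit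 254)) (XT.lf (nat_lit 0) (nat_lit 1220465202) (nat_lit 380) (nat_lit 5040591520) (nat_lit 456) (nat_lit 3932987140) (nat_lit 112) (nat_lit 5) (nat_lit 117) (nat_lit 5) (nat_lit 118) (nat_lit 5) (nat_lit 351) (nat_lit 296) (nat_lit 253))) (XT.nd (nat_lit 78) (nat_lit 380) (nat_lit 0) (XT.lf (nat_lit 0) (nat_lit 7769245655) (nat_lit 380) (nat_lit 1560160393) (nat_lit 456) (nat_lit 1032010450) (nat_lit 112) (nat_lit 5) (nat_lit 117) (nat_lit 5) (nat_lit 118) (nat_lit 5) (nat_lit 352) (nat_lit 296) (nat_lit 252)) (XT.lf (nat_lit 0) (nat_lit 1927657600) (nat_lit 380) (nat_lit 6581828308) (nat_lit 76) (nat_lit 2023490872) (nat_lit 107) (nat_lit 5) (nat_lit 112) (nat_lit 5) (nat_lit 108) (nat_lit 5) (nat_lit 353) (nat_lit 296) (nat_lit 251)))))) (XT.nd (nat_lit 546) (nat_lit 1064) (nat_lit 0) (XT.nd (nat_lit 234) (nat_lit 608) (nat_lit 0) (XT.nd (nat_lit 78) (nat_lit 684) (nat_lit 0) (XT.lf (nat_lit 0) (nat_lit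 4949639343) (nat_lit 380) (nat_lit 59307020) (nat_lit 76) (nat_lit 5700627694) (nat_lit 107) (nat_lit 5) (nat_lit 112) (nat_lit 5) (nat_lit 108) (nat_lit 5) (nat_lit 354) (nat_lit 296) (nat_lit 250)) (XT.nd (nat_lit 78) (nat_lit 380) (nat_lit 0) (XT.lf (nat_lit 0) (nat_lit 6723696817) (nat_lit 304) (nat_lit 1356986784) (nat_lit 380) (nat_lit 2810257550) (nat_lit 103) (nat_lit 5) (nat_lit 107) (nat_lit 5) (nat_lit 108) (nat_lit 5) (nat_lit 355) (nat_lit 296) (nat_lit 249)) (XT.lf (nat_lit 0) (nat_lit 226415773) (nat_lit 380) (nat_lit 8485665454) (nat_lit 76) (nat_lit 2365536320) (nat_lit 98) (nat_lit 5) (nat_lit 103) (nat_lit 5) (nat_lit 99) (nat_lit 5) (nat_lit 356) (nat_lit 296) (nat_lit 248)))) (XT.nd (nat_lit 156) (nat_lit 304) (nat_lit 0) (XT.nd (nat_lit 78) (nat_lit 304) (nat_lit 0) (XT.lf (nat_lit 0) (nat_lit 3308156166) (nat_lit 380) (nat_lit 1738170277) (nat_lit 76) (nat_lit 6222441507) (nat_lit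 98) (nat_lit 5) (nat_lit 103) (nat_lit 5) (nat_lit 99) (nat_lit 5) (nat_lit 357) (nat_lit 296) (nat_lit 247)) (XT.lf (nat_lit 0) (nat_lit 5248921902) (nat_lit 304) (nat_lit 1239724571) (nat_lit 380) (nat_lit 4976838775) (nat_lit 94) (nat_lit 5) (nat_lit 98) (nat_lit 5) (nat_lit 99) (nat_lit 5) (nat_lit 358) (nat_lit 296) (nat_lit 246))) (XT.nd (nat_lit 78) (nat_lit 76) (nat_lit 0) (XT.lf (nat_lit 0) (nat_lit 736367443) (nat_lit 228) (nat_lit 9035064380) (nat_lit 304) (nat_lit 1896486524) (nat_lit 91) (nat_lit 5) (nat_lit 94) (nat_lit 5) (nat_lit 95) (nat_lit 5) (nat_lit 359) (nat_lit 296) (nat_lit 245)) (XT.lf (nat_lit 0) (nat_lit 1283547648) (nat_lit 304) (nat_lit 3940362581) (nat_lit 76) (nat_lit 6651200382) (nat_lit 90) (nat_lit 5) (nat_lit 94) (nat_lit 5) (nat_lit 91) (nat_lit 5) (nat_lit 360) (nat_lit 296) (nat_lit 244))))) (XT.nd (nat_lit 234) (nat_lit 532) (nat_lit 0) (XT.nd (nat_lit 78) (nat_lit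 228) (nat_lit 0) (XT.lf (nat_lit 0) (nat_lit 3240972370) (nat_lit 304) (nat_lit 1268818992) (nat_lit 380) (nat_lit 7578515122) (nat_lit 86) (nat_lit 5) (nat_lit 90) (nat_lit 5) (nat_lit 91) (nat_lit 5) (nat_lit 361) (nat_lit 296) (nat_lit 243)) (XT.nd (nat_lit 78) (nat_lit 228) (nat_lit 0) (XT.lf (nat_lit 0) (nat_lit 7858151261) (nat_lit 380) (nat_lit 1680024078) (nat_lit 76) (nat_lit 2768981415) (nat_lit 86) (nat_lit 5) (nat_lit 91) (nat_lit 5) (nat_lit 87) (nat_lit 5) (nat_lit 362) (nat_lit 296) (nat_lit 242)) (XT.lf (nat_lit 0) (nat_lit 5739128059) (nat_lit 228) (nat_lit 5594964781) (nat_lit 304) (nat_lit 1197683613) (nat_lit 83) (nat_lit 5) (nat_lit 86) (nat_lit 5) (nat_lit 87) (nat_lit 5) (nat_lit 363) (nat_lit 296) (nat_lit 241)))) (XT.nd (nat_lit 156) (nat_lit 228) (nat_lit 0) (XT.nd (nat_lit 78) (nat_lit 0) (nat_lit 0) (XT.lf (nat_lit 0) (nat_lit 580332477) (nat_lit 228) (nat_lit 1511153405) (nat_lit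 304) (nat_lit 10671576778) (nat_lit 79) (nat_lit 5) (nat_lit 82) (nat_lit 5) (nat_lit 83) (nat_lit 5) (nat_lit 364) (nat_lit 296) (nat_lit 240)) (XT.lf (nat_lit 0) (nat_lit 5510375914) (nat_lit 304) (nat_lit 4787123672) (nat_lit 76) (nat_lit 2701794924) (nat_lit 79) (nat_lit 5) (nat_lit 83) (nat_lit 5) (nat_lit 80) (nat_lit 5) (nat_lit 365) (nat_lit 296) (nat_lit 239))) (XT.nd (nat_lit 78) (nat_lit 0) (nat_lit 0) (XT.lf (nat_lit 0) (nat_lit 2808846067) (nat_lit 228) (nat_lit 6226054174) (nat_lit 304) (nat_lit 4207636905) (nat_lit 76) (nat_lit 5) (nat_lit 79) (nat_lit 5) (nat_lit 80) (nat_lit 5) (nat_lit 366) (nat_lit 296) (nat_lit 238)) (XT.lf (nat_lit 0) (nat_lit 10670073992) (nat_lit 228) (nat_lit 2005081070) (nat_lit 304) (nat_lit 817637553) (nat_lit 76) (nat_lit 5) (nat_lit 79) (nat_lit 5) (nat_lit 80) (nat_lit 5) (nat_lit 367) (nat_lit 296) (nat_lit 237))))))))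
noncomputable def xc95 : XT := (XT.nd (nat_lit 2028) (nat_lit 1444) (nat_lit 0) (XT.nd (nat_lit 1014) (nat_lit 1140) (nat_lit 0) (XT.nd (nat_lit 468) (nat_lit 684) (nat_lit 0) (XT.nd (nat_lit 234) (nat_lit 456) (nat_lit 0) (XT.nd (nat_lit 78) (nat_lit 228) (nat_lit 0) (XT.lf (nat_lit 0) (nat_lit 2655651591) (nat_lit 304) (nat_lit 8743243643) (nat_lit 76) (nat_lit 2349890775) (nat_lit 72) (nat_lit 5) (nat_lit 76) (nat_lit 5) (nat_lit 73) (nat_lit 5) (nat_lit 368) (nat_lit 296) (nat_lit 236)) (XT.nd (nat_lit 78) (nat_lit 228) (nat_lit 0) (XT.lf (nat_lit 0) (nat_lit 6228046565) (nat_lit 304) (nat_lit 973394408) (nat_lit 76) (nat_lit 6810449234) (nat_lit 72) (nat_lit 5) (nat_lit 76) (nat_lit 5) (nat_lit 73) (nat_lit 5) (nat_lit 369) (nat_lit 296) (nat_lit 235)) (XT.lf (nat_lit 0) (nat_lit 7109966555) (nat_lit 228) (nat_lit 2829780948) (nat_lit 304) (nat_lit 4342189684) (nat_lit 69) (nat_lit 5) (nat_lit 72)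 (nat_lit 5) (nat_lit 73) (nat_lit 5) (nat_lit 370) (nat_lit 296) (nat_lit 234)))) (XT.nd (nat_lit 78) (nat_lit 228) (nat_lit 0) (XT.lf (nat_lit 0) (nat_lit 837529248) (nat_lit 228) (nat_lit 12923406371) (nat_lit 304) (nat_lit 799219155) (nat_lit 66) (nat_lit 5) (nat_lit 69) (nat_lit 5) (nat_lit 70) (nat_lit 5) (nat_lit 371) (nat_lit 296) (nat_lit 233)) (XT.nd (nat_lit 78) (nat_lit 152) (nat_lit 0) (XT.lf (nat_lit 0) (nat_lit 2859784706) (nat_lit 304) (nat_lit 5725120708) (nat_lit 76) (nat_lit 6259043341) (nat_lit 65) (nat_lit 5) (nat_lit 69) (nat_lit 5) (nat_lit 66) (nat_lit 5) (nat_lit 372) (nat_lit 296) (nat_lit 232)) (XT.lf (nat_lit 0) (nat_lit 2496038851) (nat_lit 152) (nat_lit 4105693693) (nat_lit 228) (nat_lit 8534621651) (nat_lit 63) (nat_lit 5) (nat_lit 65) (nat_lit 5) (nat_lit 66) (nat_lit 5) (nat_lit 373) (nat_lit 296) (nat_lit 231))))) (XT.nd (nat_lit 234) (nat_lit 380) (nat_lit 0) (XT.nd (nat_lit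 78) (nat_lit 304) (nat_lit 0) (XT.lf (nat_lit 0) (nat_lit 10484705415) (nat_lit 228) (nat_lit 4417390896) (nat_lit 76) (nat_lit 534584291) (nat_lit 63) (nat_lit 5) (nat_lit 66) (nat_lit 5) (nat_lit 64) (nat_lit 5) (nat_lit 374) (nat_lit 296) (nat_lit 230)) (XT.nd (nat_lit 78) (nat_lit 76) (nat_lit 0) (XT.lf (nat_lit 0) (nat_lit 4034639613) (nat_lit 228) (nat_lit 10495466093) (nat_lit 304) (nat_lit 1214544407) (nat_lit 60) (nat_lit 5) (nat_lit 63) (nat_lit 5) (nat_lit 64) (nat_lit 5) (nat_lit 375) (nat_lit 296) (nat_lit 229)) (XT.lf (nat_lit 0) (nat_lit 2595251454) (nat_lit 304) (nat_lit 3311299425) (nat_lit 76) (nat_lit 10154208927) (nat_lit 59) (nat_lit 5) (nat_lit 63) (nat_lit 5) (nat_lit 60) (nat_lit 5) (nat_lit 376) (nat_lit 296) (nat_lit 228)))) (XT.nd (nat_lit 156) (nat_lit 228) (nat_lit 0) (XT.nd (nat_lit 78) (nat_lit 0) (nat_lit 0) (XT.lf (nat_lit 0) (nat_lit 5378128255) (nat_lit 152) (nat_lit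 1136084158) (nat_lit 228) (nat_lit 9871211636) (nat_lit 57) (nat_lit 5) (nat_lit 59) (nat_lit 5) (nat_lit 60) (nat_lit 5) (nat_lit 377) (nat_lit 296) (nat_lit 227)) (XT.lf (nat_lit 0) (nat_lit 10588627482) (nat_lit 228) (nat_lit 2413747444) (nat_lit 76) (nat_lit 3716326914) (nat_lit 57) (nat_lit 5) (nat_lit 60) (nat_lit 5) (nat_lit 58) (nat_lit 5) (nat_lit 378) (nat_lit 296) (nat_lit 226))) (XT.nd (nat_lit 78) (nat_lit 76) (nat_lit 0) (XT.lf (nat_lit 0) (nat_lit 6500392607) (nat_lit 152) (nat_lit 8327359197) (nat_lit 228) (nat_lit 2232961740) (nat_lit 55) (nat_lit 5) (nat_lit 57) (nat_lit 5) (nat_lit 58) (nat_lit 5) (nat_lit 379) (nat_lit 296) (nat_lit 225)) (XT.lf (nat_lit 0) (nat_lit 1739760285) (nat_lit 228) (nat_lit 1751104309) (nat_lit 76) (nat_lit 13921813168) (nat_lit 54) (nat_lit 5) (nat_lit 57) (nat_lit 5) (nat_lit 55) (nat_lit 5) (nat_lit 380) (nat_lit 296) (nat_lit 224)))))) (XT.nd (nat_lit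 468) (nat_lit 608) (nat_lit 0) (XT.nd (nat_lit 234) (nat_lit 228) (nat_lit 0) (XT.nd (nat_lit 78) (nat_lit 152) (nat_lit 0) (XT.lf (nat_lit 0) (nat_lit 5842643759) (nat_lit 228) (nat_lit 10395206792) (nat_lit 76) (nat_lit 1535020343) (nat_lit 52) (nat_lit 5) (nat_lit 55) (nat_lit 5) (nat_lit 53) (nat_lit 5) (nat_lit 381) (nat_lit 296) (nat_lit 223)) (XT.nd (nat_lit 78) (nat_lit 152) (nat_lit 0) (XT.lf (nat_lit 0) (nat_lit 10090967994) (nat_lit 228) (nat_lit 1413467663) (nat_lit 76) (nat_lit 6638772315) (nat_lit 52) (nat_lit 5) (nat_lit 55) (nat_lit 5) (nat_lit 53) (nat_lit 5) (nat_lit 382) (nat_lit 296) (nat_lit 222)) (XT.lf (nat_lit 0) (nat_lit 7942633689) (nat_lit 152) (nat_lit 6571266891) (nat_lit 228) (nat_lit 4009348348) (nat_lit 50) (nat_lit 5) (nat_lit 52) (nat_lit 5) (nat_lit 53) (nat_lit 5) (nat_lit 383) (nat_lit 296) (nat_lit 221)))) (XT.nd (nat_lit 78) (nat_lit 152) (nat_lit 0) (XT.lf (nat_lit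 0) (nat_lit 137112589) (nat_lit 228) (nat_lit 1357675537) (nat_lit 76) (nat_lit 17420307258) (nat_lit 49) (nat_lit 5) (nat_lit 52) (nat_lit 5) (nat_lit 50) (nat_lit 5) (nat_lit 384) (nat_lit 296) (nat_lit 220)) (XT.nd (nat_lit 78) (nat_lit 0) (nat_lit 0) (XT.lf (nat_lit 0) (nat_lit 4414948413) (nat_lit 228) (nat_lit 11139042101) (nat_lit 76) (nat_lit 3760896676) (nat_lit 47) (nat_lit 5) (nat_lit 50) (nat_lit 5) (nat_lit 48) (nat_lit 5) (nat_lit 385) (nat_lit 296) (nat_lit 219)) (XT.lf (nat_lit 0) (nat_lit 8821666013) (nat_lit 228) (nat_lit 1766880685) (nat_lit 76) (nat_lit 9138117226) (nat_lit 47) (nat_lit 5) (nat_lit 50) (nat_lit 5) (nat_lit 48) (nat_lit 5) (nat_lit 386) (nat_lit 296) (nat_lit 218))))) (XT.nd (nat_lit 234) (nat_lit 228) (nat_lit 0) (XT.nd (nat_lit 78) (nat_lit 228) (nat_lit 0) (XT.lf (nat_lit 0) (nat_lit 7994994619) (nat_lit 152) (nat_lit 5415162927) (nat_lit 228) (nat_lit 6739156594)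 (nat_lit 45) (nat_lit 5) (nat_lit 47) (nat_lit 5) (nat_lit 48) (nat_lit 5) (nat_lit 387) (nat_lit 296) (nat_lit 217)) (XT.nd (nat_lit 78) (nat_lit 228) (nat_lit 0) (XT.lf (nat_lit 0) (nat_lit 18038948723) (nat_lit 152) (nat_lit 88259573) (nat_lit 228) (nat_lit 2457715573) (nat_lit 45) (nat_lit 5) (nat_lit 47) (nat_lit 5) (nat_lit 48) (nat_lit 5) (nat_lit 388) (nat_lit 296) (nat_lit 216)) (XT.lf (nat_lit 0) (nat_lit 2011680947) (nat_lit 228) (nat_lit 13653598566) (nat_lit 76) (nat_lit 5364837960) (nat_lit 42) (nat_lit 5) (nat_lit 45) (nat_lit 5) (nat_lit 43) (nat_lit 5) (nat_lit 389) (nat_lit 296) (nat_lit 215)))) (XT.nd (nat_lit 156) (nat_lit 76) (nat_lit 0) (XT.nd (nat_lit 78) (nat_lit 152) (nat_lit 0) (XT.lf (nat_lit 0) (nat_lit 6566322280) (nat_lit 228) (nat_lit 3910788551) (nat_lit 76) (nat_lit 11010815756) (nat_lit 42) (nat_lit 5) (nat_lit 45) (nat_lit 5) (nat_lit 43) (nat_lit 5) (nat_lit 390) (nat_lit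 296) (nat_lit 214)) (XT.lf (nat_lit 0) (nat_lit 6200336958) (nat_lit 152) (nat_lit 5091355485) (nat_lit 228) (nat_lit 10666761188) (nat_lit 40) (nat_lit 5) (nat_lit 42) (nat_lit 5) (nat_lit 43) (nat_lit 5) (nat_lit 391) (nat_lit 296) (nat_lit 213))) (XT.nd (nat_lit 78) (nat_lit 76) (nat_lit 0) (XT.lf (nat_lit 0) (nat_lit 16177706640) (nat_lit 228) (nat_lit 5796817525) (nat_lit 76) (nat_lit 468011991) (nat_lit 40) (nat_lit 5) (nat_lit 43) (nat_lit 5) (nat_lit 41) (nat_lit 4) (nat_lit 392) (nat_lit 296) (nat_lit 212)) (XT.lf (nat_lit 0) (nat_lit 4456083578) (nat_lit 76) (nat_lit 16822818583) (nat_lit 152) (nat_lit 1660186949) (nat_lit 39) (nat_lit 5) (nat_lit 40) (nat_lit 5) (nat_lit 41) (nat_lit 4) (nat_lit 393) (nat_lit 296) (nat_lit 211))))))) (XT.nd (nat_lit 1014) (nat_lit 608) (nat_lit 0) (XT.nd (nat_lit 468) (nat_lit 456) (nat_lit 0) (XT.nd (nat_lit 234) (nat_lit 152) (nat_lit 0) (XT.nd (nat_lit 78)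 (nat_lit 152) (nat_lit 0) (XT.lf (nat_lit 0) (nat_lit 3056969590) (nat_lit 152) (nat_lit 8387440692) (nat_lit 76) (nat_lit 12004209236) (nat_lit 38) (nat_lit 5) (nat_lit 40) (nat_lit 5) (nat_lit 39) (nat_lit 5) (nat_lit 394) (nat_lit 296) (nat_lit 210)) (XT.nd (nat_lit 78) (nat_lit 0) (nat_lit 0) (XT.lf (nat_lit 0) (nat_lit 1990831436) (nat_lit 152) (nat_lit 5886705709) (nat_lit 228) (nat_lit 16095553106) (nat_lit 36) (nat_lit 5) (nat_lit 38) (nat_lit 5) (nat_lit 39) (nat_lit 5) (nat_lit 395) (nat_lit 296) (nat_lit 209)) (XT.lf (nat_lit 0) (nat_lit 12810232943) (nat_lit 152) (nat_lit 93602953) (nat_lit 228) (nat_lit 11607631099) (nat_lit 36) (nat_lit 5) (nat_lit 38) (nat_lit 5) (nat_lit 39) (nat_lit 5) (nat_lit 396) (nat_lit 296) (nat_lit 208)))) (XT.nd (nat_lit 78) (nat_lit 152) (nat_lit 0) (XT.lf (nat_lit 0) (nat_lit 18114312315) (nat_lit 228) (nat_lit 1209680283) (nat_lit 76) (nat_lit 5741005940) (nat_lit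 36) (nat_lit 5) (nat_lit 39) (nat_lit 5) (nat_lit 37) (nat_lit 4) (nat_lit 397) (nat_lit 296) (nat_lit 207)) (XT.nd (nat_lit 78) (nat_lit 76) (nat_lit 0) (XT.lf (nat_lit 0) (nat_lit 9745628711) (nat_lit 76) (nat_lit 13807684954) (nat_lit 152) (nat_lit 2079661050) (nat_lit 35) (nat_lit 5) (nat_lit 36) (nat_lit 5) (nat_lit 37) (nat_lit 4) (nat_lit 398) (nat_lit 296) (nat_lit 206)) (XT.lf (nat_lit 0) (nat_lit 2870158548) (nat_lit 152) (nat_lit 5231879446) (nat_lit 76) (nat_lit 18115410250) (nat_lit 34) (nat_lit 5) (nat_lit 36) (nat_lit 5) (nat_lit 35) (nat_lit 5) (nat_lit 399) (nat_lit 296) (nat_lit 205))))) (XT.nd (nat_lit 234) (nat_lit 228) (nat_lit 0) (XT.nd (nat_lit 78) (nat_lit 76) (nat_lit 0) (XT.lf (nat_lit 0) (nat_lit 5796655562) (nat_lit 152) (nat_lit 2164038490) (nat_lit 228) (nat_lit 18857128175) (nat_lit 32) (nat_lit 5) (nat_lit 34) (nat_lit 5) (nat_lit 35) (nat_lit 5) (nat_lit 400) (nat_lit 296)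 (nat_lit 204)) (XT.nd (nat_lit 78) (nat_lit 76) (nat_lit 0) (XT.lf (nat_lit 0) (nat_lit 13273683364) (nat_lit 228) (nat_lit 10249056945) (nat_lit 76) (nat_lit 3911379439) (nat_lit 32) (nat_lit 5) (nat_lit 35) (nat_lit 5) (nat_lit 33) (nat_lit 4) (nat_lit 401) (nat_lit 296) (nat_lit 203)) (XT.lf (nat_lit 0) (nat_lit 802372965) (nat_lit 76) (nat_lit 17951850661) (nat_lit 152) (nat_lit 9314442048) (nat_lit 31) (nat_lit 5) (nat_lit 32) (nat_lit 5) (nat_lit 33) (nat_lit 4) (nat_lit 402) (nat_lit 296) (nat_lit 202)))) (XT.nd (nat_lit 156) (nat_lit 152) (nat_lit 0) (XT.nd (nat_lit 78) (nat_lit 76) (nat_lit 0) (XT.lf (nat_lit 0) (nat_lit 12357740506) (nat_lit 76) (nat_lit 12124205818) (nat_lit 152) (nat_lit 4237822862) (nat_lit 31) (nat_lit 5) (nat_lit 32) (nat_lit 5) (nat_lit 33) (nat_lit 4) (nat_lit 403) (nat_lit 296) (nat_lit 201)) (XT.lf (nat_lit 0) (nat_lit 951426425) (nat_lit 152) (nat_lit 5177175077) (nat_lit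 76) (nat_lit 23262132303) (nat_lit 30) (nat_lit 5) (nat_lit 32) (nat_lit 5) (nat_lit 31) (nat_lit 5) (nat_lit 404) (nat_lit 296) (nat_lit 200))) (XT.nd (nat_lit 78) (nat_lit 0) (nat_lit 0) (XT.lf (nat_lit 0) (nat_lit 6254183882) (nat_lit 228) (nat_lit 23690615700) (nat_lit 76) (nat_lit 134482656) (nat_lit 28) (nat_lit 5) (nat_lit 31) (nat_lit 5) (nat_lit 29) (nat_lit 4) (nat_lit 405) (nat_lit 296) (nat_lit 199)) (XT.lf (nat_lit 0) (nat_lit 11809841952) (nat_lit 228) (nat_lit 12476520510) (nat_lit 76) (nat_lit 6499313853) (nat_lit 28) (nat_lit 5) (nat_lit 31) (nat_lit 5) (nat_lit 29) (nat_lit 4) (nat_lit 406) (nat_lit 296) (nat_lit 198)))))) (XT.nd (nat_lit 546) (nat_lit 228) (nat_lit 0) (XT.nd (nat_lit 234) (nat_lit 304) (nat_lit 0) (XT.nd (nat_lit 78) (nat_lit 76) (nat_lit 0) (XT.lf (nat_lit 0) (nat_lit 17513084066) (nat_lit 228) (nat_lit 960968816) (nat_lit 76) (nat_lit 13039785520) (nat_lit 28) (nat_lit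 5) (nat_lit 31) (nat_lit 5) (nat_lit 29) (nat_lit 4) (nat_lit 407) (nat_lit 296) (nat_lit 197)) (XT.nd (nat_lit 78) (nat_lit 0) (nat_lit 0) (XT.lf (nat_lit 0) (nat_lit 11082358242) (nat_lit 76) (nat_lit 12393065806) (nat_lit 152) (nat_lit 8785784798) (nat_lit 27) (nat_lit 5) (nat_lit 28) (nat_lit 5) (nat_lit 29) (nat_lit 4) (nat_lit 408) (nat_lit 296) (nat_lit 196)) (XT.lf (nat_lit 0) (nat_lit 23473068940) (nat_lit 76) (nat_lit 6134955960) (nat_lit 152) (nat_lit 3423237192) (nat_lit 27) (nat_lit 5) (nat_lit 28) (nat_lit 5) (nat_lit 29) (nat_lit 4) (nat_lit 409) (nat_lit 296) (nat_lit 195)))) (XT.nd (nat_lit 156) (nat_lit 76) (nat_lit 0) (XT.nd (nat_lit 78) (nat_lit 0) (nat_lit 0) (XT.lf (nat_lit 0) (nat_lit 2067634917) (nat_lit 228) (nat_lit 31422106613) (nat_lit 76) (nat_lit 333820063) (nat_lit 24) (nat_lit 5) (nat_lit 27) (nat_lit 5) (nat_lit 25) (nat_lit 4) (nat_lit 410) (nat_lit 296) (nat_lit 194))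 (XT.lf (nat_lit 0) (nat_lit 7794752733) (nat_lit 228) (nat_lit 19849564895) (nat_lit 76) (nat_lit 6990089073) (nat_lit 24) (nat_lit 5) (nat_lit 27) (nat_lit 5) (nat_lit 25) (nat_lit 4) (nat_lit 411) (nat_lit 296) (nat_lit 193))) (XT.nd (nat_lit 78) (nat_lit 76) (nat_lit 0) (XT.lf (nat_lit 0) (nat_lit 13676311694) (nat_lit 228) (nat_lit 7961949182) (nat_lit 76) (nat_lit 13831840486) (nat_lit 24) (nat_lit 5) (nat_lit 27) (nat_lit 5) (nat_lit 25) (nat_lit 4) (nat_lit 412) (nat_lit 296) (nat_lit 192)) (XT.lf (nat_lit 0) (nat_lit 4335733540) (nat_lit 76) (nat_lit 15423395211) (nat_lit 152) (nat_lit 16570996715) (nat_lit 23) (nat_lit 5) (nat_lit 24) (nat_lit 5) (nat_lit 25) (nat_lit 4) (nat_lit 413) (nat_lit 296) (nat_lit 191))))) (XT.nd (nat_lit 234) (nat_lit 76) (nat_lit 0) (XT.nd (nat_lit 78) (nat_lit 152) (nat_lit 0) (XT.lf (nat_lit 0) (nat_lit 17134697219) (nat_lit 76) (nat_lit 8953461371) (nat_lit 152)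 (nat_lit 11125882710) (nat_lit 23) (nat_lit 5) (nat_lit 24) (nat_lit 5) (nat_lit 25) (nat_lit 4) (nat_lit 414) (nat_lit 296) (nat_lit 190)) (XT.nd (nat_lit 78) (nat_lit 152) (nat_lit 0) (XT.lf (nat_lit 0) (nat_lit 30287667014) (nat_lit 76) (nat_lit 2303206093) (nat_lit 152) (nat_lit 5534089861) (nat_lit 23) (nat_lit 5) (nat_lit 24) (nat_lit 5) (nat_lit 25) (nat_lit 4) (nat_lit 415) (nat_lit 296) (nat_lit 189)) (XT.lf (nat_lit 0) (nat_lit 295714952) (nat_lit 152) (nat_lit 34271505820) (nat_lit 76) (nat_lit 4493689380) (nat_lit 21) (nat_lit 5) (nat_lit 23) (nat_lit 5) (nat_lit 22) (nat_lit 4) (nat_lit 416) (nat_lit 296) (nat_lit 188)))) (XT.nd (nat_lit 156) (nat_lit 76) (nat_lit 0) (XT.nd (nat_lit 78) (nat_lit 0) (nat_lit 0) (XT.lf (nat_lit 0) (nat_lit 6276093403) (nat_lit 152) (nat_lit 22174844018) (nat_lit 76) (nat_lit 11569749805) (nat_lit 21) (nat_lit 5) (nat_lit 23) (nat_lit 5) (nat_lit 22) (nat_lit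 4) (nat_lit 417) (nat_lit 296) (nat_lit 187)) (XT.lf (nat_lit 0) (nat_lit 12420524274) (nat_lit 152) (nat_lit 9743888624) (nat_lit 76) (nat_lit 18845307944) (nat_lit 21) (nat_lit 5) (nat_lit 23) (nat_lit 5) (nat_lit 22) (nat_lit 4) (nat_lit 418) (nat_lit 296) (nat_lit 186))) (XT.nd (nat_lit 78) (nat_lit 0) (nat_lit 0) (XT.lf (nat_lit 0) (nat_lit 3092569531) (nat_lit 76) (nat_lit 15671534624) (nat_lit 152) (nat_lit 23263879220) (nat_lit 20) (nat_lit 5) (nat_lit 21) (nat_lit 5) (nat_lit 22) (nat_lit 4) (nat_lit 419) (nat_lit 296) (nat_lit 185)) (XT.lf (nat_lit 0) (nat_lit 16486360810) (nat_lit 76) (nat_lit 8895283170) (nat_lit 152) (nat_lit 17692642549) (nat_lit 20) (nat_lit 5) (nat_lit 21) (nat_lit 5) (nat_lit 22) (nat_lit 4) (nat_lit 420) (nat_lit 296) (nat_lit 184))))))))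
noncomputable def xc96 : XT := (XT.nd (nat_lit 37908) (nat_lit 0) (nat_lit 13832) (XT.nd (nat_lit 1014) (nat_lit 304) (nat_lit 0) (XT.nd (nat_lit 468) (nat_lit 152) (nat_lit 0) (XT.nd (nat_lit 234) (nat_lit 76) (nat_lit 0) (XT.nd (nat_lit 78) (nat_lit 152) (nat_lit 0) (XT.lf (nat_lit 0) (nat_lit 30255266036) (nat_lit 76) (nat_lit 1928131710) (nat_lit 152) (nat_lit 11969012654) (nat_lit 20) (nat_lit 5) (nat_lit 21) (nat_lit 5) (nat_lit 22) (nat_lit 4) (nat_lit 421) (nat_lit 296) (nat_lit 183)) (XT.nd (nat_lit 78) (nat_lit 152) (nat_lit 0) (XT.lf (nat_lit 0) (nat_lit 39225640441) (nat_lit 152) (nat_lit 902312456) (nat_lit 0) (nat_lit 5133834191) (nat_lit 20) (nat_lit 5) (nat_lit 22) (nat_lit 4) (nat_lit 20) (nat_lit 4) (nat_lit 422) (nat_lit 296) (nat_lit 182)) (XT.lf (nat_lit 0) (nat_lit 201933973) (nat_lit 152) (nat_lit 33717255010) (nat_lit 76) (nat_lit 12481376019) (nat_lit 18) (nat_lit 5) (nat_lit 20)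 (nat_lit 5) (nat_lit 19) (nat_lit 4) (nat_lit 423) (nat_lit 296) (nat_lit 181)))) (XT.nd (nat_lit 78) (nat_lit 76) (nat_lit 0) (XT.lf (nat_lit 0) (nat_lit 6501453994) (nat_lit 152) (nat_lit 20963573762) (nat_lit 76) (nat_lit 20106819060) (nat_lit 18) (nat_lit 5) (nat_lit 20) (nat_lit 5) (nat_lit 19) (nat_lit 4) (nat_lit 424) (nat_lit 296) (nat_lit 180)) (XT.nd (nat_lit 78) (nat_lit 76) (nat_lit 0) (XT.lf (nat_lit 0) (nat_lit 12976771026) (nat_lit 152) (nat_lit 7852024261) (nat_lit 76) (nat_lit 27949869400) (nat_lit 18) (nat_lit 5) (nat_lit 20) (nat_lit 5) (nat_lit 19) (nat_lit 4) (nat_lit 425) (nat_lit 296) (nat_lit 179)) (XT.lf (nat_lit 0) (nat_lit 5740875341) (nat_lit 76) (nat_lit 13947852576) (nat_lit 152) (nat_lit 30331689655) (nat_lit 17) (nat_lit 5) (nat_lit 18) (nat_lit 5) (nat_lit 19) (nat_lit 4) (nat_lit 426) (nat_lit 296) (nat_lit 178))))) (XT.nd (nat_lit 234) (nat_lit 152) (nat_lit 0) (XT.nd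 (nat_lit 78) (nat_lit 0) (nat_lit 0) (XT.lf (nat_lit 0) (nat_lit 19878734699) (nat_lit 76) (nat_lit 6789938708) (nat_lit 152) (nat_lit 24628752572) (nat_lit 17) (nat_lit 5) (nat_lit 18) (nat_lit 5) (nat_lit 19) (nat_lit 4) (nat_lit 427) (nat_lit 296) (nat_lit 177)) (XT.nd (nat_lit 78) (nat_lit 0) (nat_lit 0) (XT.lf (nat_lit 0) (nat_lit 33851223403) (nat_lit 152) (nat_lit 18200976115) (nat_lit 0) (nat_lit 560750716) (nat_lit 17) (nat_lit 5) (nat_lit 19) (nat_lit 4) (nat_lit 17) (nat_lit 4) (nat_lit 428) (nat_lit 296) (nat_lit 176)) (XT.lf (nat_lit 0) (nat_lit 41304442793) (nat_lit 152) (nat_lit 4676636148) (nat_lit 0) (nat_lit 7985207216) (nat_lit 17) (nat_lit 5) (nat_lit 19) (nat_lit 4) (nat_lit 17) (nat_lit 4) (nat_lit 429) (nat_lit 296) (nat_lit 175)))) (XT.nd (nat_lit 156) (nat_lit 0) (nat_lit 0) (XT.nd (nat_lit 78) (nat_lit 76) (nat_lit 0) (XT.lf (nat_lit 0) (nat_lit 9415138308) (nat_lit 76) (nat_lit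 39644940815) (nat_lit 76) (nat_lit 6297780102) (nat_lit 16) (nat_lit 4) (nat_lit 17) (nat_lit 5) (nat_lit 17) (nat_lit 4) (nat_lit 430) (nat_lit 296) (nat_lit 174)) (XT.lf (nat_lit 0) (nat_lit 288209513) (nat_lit 152) (nat_lit 32789207183) (nat_lit 76) (nat_lit 23712609493) (nat_lit 15) (nat_lit 5) (nat_lit 17) (nat_lit 5) (nat_lit 16) (nat_lit 4) (nat_lit 431) (nat_lit 296) (nat_lit 173))) (XT.nd (nat_lit 78) (nat_lit 0) (nat_lit 0) (XT.lf (nat_lit 0) (nat_lit 6933870570) (nat_lit 152) (nat_lit 19324837357) (nat_lit 76) (nat_lit 32004921017) (nat_lit 15) (nat_lit 5) (nat_lit 17) (nat_lit 5) (nat_lit 16) (nat_lit 4) (nat_lit 432) (nat_lit 296) (nat_lit 172)) (XT.lf (nat_lit 0) (nat_lit 13767902329) (nat_lit 152) (nat_lit 5477308340) (nat_lit 76) (nat_lit 40536560575) (nat_lit 15) (nat_lit 5) (nat_lit 17) (nat_lit 5) (nat_lit 16) (nat_lit 4) (nat_lit 433) (nat_lit 296) (nat_lit 171)))))) (XT.nd (nat_lit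 468) (nat_lit 152) (nat_lit 0) (XT.nd (nat_lit 234) (nat_lit 76) (nat_lit 0) (XT.nd (nat_lit 78) (nat_lit 0) (nat_lit 0) (XT.lf (nat_lit 0) (nat_lit 8939929881) (nat_lit 76) (nat_lit 11942282469) (nat_lit 152) (nat_lit 40460989192) (nat_lit 14) (nat_lit 5) (nat_lit 15) (nat_lit 5) (nat_lit 16) (nat_lit 4) (nat_lit 434) (nat_lit 296) (nat_lit 170)) (XT.nd (nat_lit 78) (nat_lit 0) (nat_lit 0) (XT.lf (nat_lit 0) (nat_lit 23881995518) (nat_lit 76) (nat_lit 4372706539) (nat_lit 152) (nat_lit 34695431585) (nat_lit 14) (nat_lit 5) (nat_lit 15) (nat_lit 5) (nat_lit 16) (nat_lit 4) (nat_lit 435) (nat_lit 296) (nat_lit 169)) (XT.lf (nat_lit 0) (nat_lit 35870939681) (nat_lit 152) (nat_lit 25385472416) (nat_lit 0) (nat_lit 3348185776) (nat_lit 14) (nat_lit 5) (nat_lit 16) (nat_lit 4) (nat_lit 14) (nat_lit 4) (nat_lit 436) (nat_lit 296) (nat_lit 168)))) (XT.nd (nat_lit 78) (nat_lit 76) (nat_lit 0) (XT.lf (nat_lit 0)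 (nat_lit 43748919778) (nat_lit 152) (nat_lit 11354658403) (nat_lit 0) (nat_lit 11204121513) (nat_lit 14) (nat_lit 5) (nat_lit 16) (nat_lit 4) (nat_lit 14) (nat_lit 4) (nat_lit 437) (nat_lit 296) (nat_lit 167)) (XT.nd (nat_lit 78) (nat_lit 0) (nat_lit 0) (XT.lf (nat_lit 0) (nat_lit 3139867096) (nat_lit 76) (nat_lit 48743808119) (nat_lit 76) (nat_lit 16177607563) (nat_lit 13) (nat_lit 4) (nat_lit 14) (nat_lit 5) (nat_lit 14) (nat_lit 4) (nat_lit 438) (nat_lit 296) (nat_lit 166)) (XT.lf (nat_lit 0) (nat_lit 18283685882) (nat_lit 76) (nat_lit 42083808779) (nat_lit 76) (nat_lit 9496829300) (nat_lit 13) (nat_lit 4) (nat_lit 14) (nat_lit 5) (nat_lit 14) (nat_lit 4) (nat_lit 439) (nat_lit 296) (nat_lit 165))))) (XT.nd (nat_lit 234) (nat_lit 76) (nat_lit 0) (XT.nd (nat_lit 78) (nat_lit 76) (nat_lit 0) (XT.lf (nat_lit 0) (nat_lit 33864050450) (nat_lit 76) (nat_lit 35232420532) (nat_lit 76) (nat_lit 2625267340) (nat_lit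 13) (nat_lit 4) (nat_lit 14) (nat_lit 5) (nat_lit 14) (nat_lit 4) (nat_lit 440) (nat_lit 296) (nat_lit 164)) (XT.nd (nat_lit 78) (nat_lit 0) (nat_lit 0) (XT.lf (nat_lit 0) (nat_lit 4356382047) (nat_lit 152) (nat_lit 23783283763) (nat_lit 76) (nat_lit 45494201748) (nat_lit 12) (nat_lit 5) (nat_lit 14) (nat_lit 5) (nat_lit 13) (nat_lit 4) (nat_lit 441) (nat_lit 296) (nat_lit 163)) (XT.lf (nat_lit 0) (nat_lit 11485806654) (nat_lit 152) (nat_lit 9329567471) (nat_lit 76) (nat_lit 54787475142) (nat_lit 12) (nat_lit 5) (nat_lit 14) (nat_lit 5) (nat_lit 13) (nat_lit 4) (nat_lit 442) (nat_lit 296) (nat_lit 162)))) (XT.nd (nat_lit 156) (nat_lit 0) (nat_lit 0) (XT.nd (nat_lit 78) (nat_lit 0) (nat_lit 0) (XT.lf (nat_lit 0) (nat_lit 5651609394) (nat_lit 76) (nat_lit 13223181826) (nat_lit 152) (nat_lit 58754739966) (nat_lit 11) (nat_lit 5) (nat_lit 12) (nat_lit 5) (nat_lit 13) (nat_lit 4) (nat_lit 443) (nat_lit 296)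 (nat_lit 161)) (XT.lf (nat_lit 0) (nat_lit 21257195501) (nat_lit 76) (nat_lit 5313906157) (nat_lit 152) (nat_lit 53143343261) (nat_lit 11) (nat_lit 5) (nat_lit 12) (nat_lit 5) (nat_lit 13) (nat_lit 4) (nat_lit 444) (nat_lit 296) (nat_lit 160))) (XT.nd (nat_lit 78) (nat_lit 0) (nat_lit 0) (XT.lf (nat_lit 0) (nat_lit 34517153656) (nat_lit 152) (nat_lit 44574163216) (nat_lit 0) (nat_lit 2770024639) (nat_lit 11) (nat_lit 5) (nat_lit 13) (nat_lit 4) (nat_lit 11) (nat_lit 4) (nat_lit 445) (nat_lit 296) (nat_lit 159)) (XT.lf (nat_lit 0) (nat_lit 42746067236) (nat_lit 152) (nat_lit 30342709204) (nat_lit 0) (nat_lit 10982535145) (nat_lit 11) (nat_lit 5) (nat_lit 13) (nat_lit 4) (nat_lit 11) (nat_lit 4) (nat_lit 446) (nat_lit 296) (nat_lit 158))))))) (XT.nd (nat_lit 1014) (nat_lit 8208) (nat_lit 0) (XT.nd (nat_lit 468) (nat_lit 2508) (nat_lit 0) (XT.nd (nat_lit 234) (nat_lit 456) (nat_lit 0) (XT.nd (nat_lit 78)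 (nat_lit 380) (nat_lit 0) (XT.lf (nat_lit 0) (nat_lit 138280003) (nat_lit 228) (nat_lit 1551176841) (nat_lit 228) (nat_lit 1551176841) (nat_lit 345) (nat_lit 4) (nat_lit 348) (nat_lit 5) (nat_lit 348) (nat_lit 4) (nat_lit 306) (nat_lit 297) (nat_lit 297)) (XT.nd (nat_lit 78) (nat_lit 380) (nat_lit 0) (XT.lf (nat_lit 0) (nat_lit 3814643430) (nat_lit 228) (nat_lit 2664666989) (nat_lit 228) (nat_lit 16606497) (nat_lit 345) (nat_lit 4) (nat_lit 348) (nat_lit 5) (nat_lit 348) (nat_lit 4) (nat_lit 307) (nat_lit 297) (nat_lit 296)) (XT.lf (nat_lit 0) (nat_lit 863745405) (nat_lit 304) (nat_lit 2132677457) (nat_lit 380) (nat_lit 3516929063) (nat_lit 340) (nat_lit 5) (nat_lit 344) (nat_lit 5) (nat_lit 345) (nat_lit 4) (nat_lit 308) (nat_lit 297) (nat_lit 295)))) (XT.nd (nat_lit 78) (nat_lit 456) (nat_lit 0) (XT.lf (nat_lit 0) (nat_lit 4500022148) (nat_lit 304) (nat_lit 1517251813) (nat_lit 380) (nat_lit 516643723)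 (nat_lit 340) (nat_lit 5) (nat_lit 344) (nat_lit 5) (nat_lit 345) (nat_lit 4) (nat_lit 309) (nat_lit 297) (nat_lit 294)) (XT.nd (nat_lit 78) (nat_lit 0) (nat_lit 0) (XT.lf (nat_lit 0) (nat_lit 1627173387) (nat_lit 380) (nat_lit 804582076) (nat_lit 456) (nat_lit 4125490184) (nat_lit 334) (nat_lit 5) (nat_lit 339) (nat_lit 5) (nat_lit 340) (nat_lit 5) (nat_lit 310) (nat_lit 297) (nat_lit 293)) (XT.lf (nat_lit 0) (nat_lit 5365111760) (nat_lit 380) (nat_lit 8742324) (nat_lit 456) (nat_lit 1209930179) (nat_lit 334) (nat_lit 5) (nat_lit 339) (nat_lit 5) (nat_lit 340) (nat_lit 5) (nat_lit 311) (nat_lit 297) (nat_lit 292))))) (XT.nd (nat_lit 234) (nat_lit 1368) (nat_lit 0) (XT.nd (nat_lit 78) (nat_lit 608) (nat_lit 0) (XT.lf (nat_lit 0) (nat_lit 1688379421) (nat_lit 532) (nat_lit 4054265567) (nat_lit 76) (nat_lit 870174351) (nat_lit 327) (nat_lit 5) (nat_lit 334) (nat_lit 5) (nat_lit 328) (nat_lit 5) (nat_lit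 312) (nat_lit 297) (nat_lit 291)) (XT.nd (nat_lit 78) (nat_lit 608) (nat_lit 0) (XT.lf (nat_lit 0) (nat_lit 4561537565) (nat_lit 532) (nat_lit 252818266) (nat_lit 76) (nat_lit 1830765633) (nat_lit 327) (nat_lit 5) (nat_lit 334) (nat_lit 5) (nat_lit 328) (nat_lit 5) (nat_lit 313) (nat_lit 297) (nat_lit 290)) (XT.lf (nat_lit 0) (nat_lit 763170374) (nat_lit 608) (nat_lit 3023934101) (nat_lit 76) (nat_lit 2893046750) (nat_lit 319) (nat_lit 5) (nat_lit 327) (nat_lit 5) (nat_lit 320) (nat_lit 5) (nat_lit 314) (nat_lit 297) (nat_lit 289)))) (XT.nd (nat_lit 156) (nat_lit 760) (nat_lit 0) (XT.nd (nat_lit 78) (nat_lit 0) (nat_lit 0) (XT.lf (nat_lit 0) (nat_lit 896812156) (nat_lit 608) (nat_lit 2671572658) (nat_lit 684) (nat_lit 3149891680) (nat_lit 311) (nat_lit 5) (nat_lit 319) (nat_lit 5) (nat_lit 320) (nat_lit 5) (nat_lit 315) (nat_lit 297) (nat_lit 288)) (XT.lf (nat_lit 0) (nat_lit 4926286418) (nat_lit 608)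 (nat_lit 1467864063) (nat_lit 684) (nat_lit 365411514) (nat_lit 311) (nat_lit 5) (nat_lit 319) (nat_lit 5) (nat_lit 320) (nat_lit 5) (nat_lit 316) (nat_lit 297) (nat_lit 287))) (XT.nd (nat_lit 78) (nat_lit 0) (nat_lit 0) (XT.lf (nat_lit 0) (nat_lit 2223124742) (nat_lit 684) (nat_lit 159606457) (nat_lit 760) (nat_lit 4420866375) (nat_lit 301) (nat_lit 5) (nat_lit 310) (nat_lit 5) (nat_lit 311) (nat_lit 5) (nat_lit 317) (nat_lit 297) (nat_lit 286)) (XT.lf (nat_lit 0) (nat_lit 5145894615) (nat_lit 760) (nat_lit 497892639) (nat_lit 76) (nat_lit 1206959930) (nat_lit 301) (nat_lit 5) (nat_lit 311) (nat_lit 5) (nat_lit 302) (nat_lit 5) (nat_lit 318) (nat_lit 297) (nat_lit 285)))))) (XT.nd (nat_lit 468) (nat_lit 4484) (nat_lit 0) (XT.nd (nat_lit 234) (nat_lit 2052) (nat_lit 0) (XT.nd (nat_lit 78) (nat_lit 836) (nat_lit 0) (XT.lf (nat_lit 0) (nat_lit 1020374617) (nat_lit 836) (nat_lit 3203943471) (nat_lit 76) (nat_lit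 2676299904) (nat_lit 290) (nat_lit 5) (nat_lit 301) (nat_lit 5) (nat_lit 291) (nat_lit 5) (nat_lit 319) (nat_lit 297) (nat_lit 284)) (XT.nd (nat_lit 78) (nat_lit 0) (nat_lit 0) (XT.lf (nat_lit 0) (nat_lit 1006091655) (nat_lit 836) (nat_lit 2715118227) (nat_lit 912) (nat_lit 3232515851) (nat_lit 279) (nat_lit 5) (nat_lit 290) (nat_lit 5) (nat_lit 291) (nat_lit 5) (nat_lit 320) (nat_lit 297) (nat_lit 283)) (XT.lf (nat_lit 0) (nat_lit 5336749804) (nat_lit 836) (nat_lit 1113879708) (nat_lit 912) (nat_lit 559458487) (nat_lit 279) (nat_lit 5) (nat_lit 290) (nat_lit 5) (nat_lit 291) (nat_lit 5) (nat_lit 321) (nat_lit 297) (nat_lit 282)))) (XT.nd (nat_lit 78) (nat_lit 1064) (nat_lit 0) (XT.lf (nat_lit 0) (nat_lit 2099340807) (nat_lit 988) (nat_lit 4385476392) (nat_lit 76) (nat_lit 584323538) (nat_lit 266) (nat_lit 5) (nat_lit 279) (nat_lit 5) (nat_lit 267) (nat_lit 5) (nat_lit 322) (nat_lit 297) (nat_lit 281))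 (XT.nd (nat_lit 78) (nat_lit 1064) (nat_lit 0) (XT.lf (nat_lit 0) (nat_lit 4773384579) (nat_lit 988) (nat_lit 13466966) (nat_lit 76) (nat_lit 2344626185) (nat_lit 266) (nat_lit 5) (nat_lit 279) (nat_lit 5) (nat_lit 267) (nat_lit 5) (nat_lit 323) (nat_lit 297) (nat_lit 280)) (XT.lf (nat_lit 0) (nat_lit 289381112) (nat_lit 1064) (nat_lit 2692851159) (nat_lit 76) (nat_lit 4214515977) (nat_lit 252) (nat_lit 5) (nat_lit 266) (nat_lit 5) (nat_lit 253) (nat_lit 5) (nat_lit 324) (nat_lit 297) (nat_lit 279))))) (XT.nd (nat_lit 234) (nat_lit 2204) (nat_lit 0) (XT.nd (nat_lit 78) (nat_lit 1216) (nat_lit 0) (XT.lf (nat_lit 0) (nat_lit 1833756015) (nat_lit 1064) (nat_lit 1074680741) (nat_lit 1140) (nat_lit 4356726885) (nat_lit 238) (nat_lit 5) (nat_lit 252) (nat_lit 5) (nat_lit 253) (nat_lit 5) (nat_lit 325) (nat_lit 297) (nat_lit 278)) (XT.nd (nat_lit 78) (nat_lit 1216) (nat_lit 0) (XT.lf (nat_lit 0) (nat_lit 5565518313)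 (nat_lit 1140) (nat_lit 865762565) (nat_lit 76) (nat_lit 905638601) (nat_lit 238) (nat_lit 5) (nat_lit 253) (nat_lit 5) (nat_lit 239) (nat_lit 5) (nat_lit 326) (nat_lit 297) (nat_lit 277)) (XT.lf (nat_lit 0) (nat_lit 846873116) (nat_lit 1216) (nat_lit 3590409301) (nat_lit 76) (nat_lit 2974172444) (nat_lit 222) (nat_lit 5) (nat_lit 238) (nat_lit 5) (nat_lit 223) (nat_lit 5) (nat_lit 327) (nat_lit 297) (nat_lit 276)))) (XT.nd (nat_lit 156) (nat_lit 1216) (nat_lit 0) (XT.nd (nat_lit 78) (nat_lit 0) (nat_lit 0) (XT.lf (nat_lit 0) (nat_lit 1110103174) (nat_lit 988) (nat_lit 2343853980) (nat_lit 1064) (nat_lit 4035432576) (nat_lit 209) (nat_lit 5) (nat_lit 222) (nat_lit 5) (nat_lit 223) (nat_lit 5) (nat_lit 328) (nat_lit 297) (nat_lit 275)) (XT.lf (nat_lit 0) (nat_lit 5953763558) (nat_lit 988) (nat_lit 149568857) (nat_lit 1064) (nat_lit 1467471496) (nat_lit 209) (nat_lit 5) (nat_lit 222) (nat_lit 5) (nat_lit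 223) (nat_lit 5) (nat_lit 329) (nat_lit 297) (nat_lit 274))) (XT.nd (nat_lit 78) (nat_lit 532) (nat_lit 0) (XT.lf (nat_lit 0) (nat_lit 1135862317) (nat_lit 684) (nat_lit 4406571354) (nat_lit 76) (nat_lit 2112507893) (nat_lit 200) (nat_lit 5) (nat_lit 209) (nat_lit 5) (nat_lit 201) (nat_lit 5) (nat_lit 330) (nat_lit 297) (nat_lit 273)) (XT.lf (nat_lit 0) (nat_lit 472530903) (nat_lit 532) (nat_lit 3268336392) (nat_lit 608) (nat_lit 4001766417) (nat_lit 193) (nat_lit 5) (nat_lit 200) (nat_lit 5) (nat_lit 201) (nat_lit 5) (nat_lit 331) (nat_lit 297) (nat_lit 272))))))))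
noncomputable def xc97 : XT := (XT.nd (nat_lit 2028) (nat_lit 3648) (nat_lit 0) (XT.nd (nat_lit 1014) (nat_lit 3040) (nat_lit 0) (XT.nd (nat_lit 468) (nat_lit 2356) (nat_lit 0) (XT.nd (nat_lit 234) (nat_lit 1140) (nat_lit 0) (XT.nd (nat_lit 78) (nat_lit 684) (nat_lit 0) (XT.lf (nat_lit 0) (nat_lit 5516750141) (nat_lit 532) (nat_lit 883656765) (nat_lit 608) (nat_lit 1433314716) (nat_lit 193) (nat_lit 5) (nat_lit 200) (nat_lit 5) (nat_lit 201) (nat_lit 5) (nat_lit 332) (nat_lit 297) (nat_lit 271)) (XT.nd (nat_lit 78) (nat_lit 0) (nat_lit 0) (XT.lf (nat_lit 0) (nat_lit 1163645931) (nat_lit 684) (nat_lit 5187915511) (nat_lit 76) (nat_lit 1576431153) (nat_lit 184) (nat_lit 5) (nat_lit 193) (nat_lit 5) (nat_lit 185) (nat_lit 5) (nat_lit 333) (nat_lit 297) (nat_lit 270)) (XT.lf (nat_lit 0) (nat_lit 3776474439) (nat_lit 684) (nat_lit 123393242) (nat_lit 76) (nat_lit 4125846994) (nat_lit 184) (nat_lit 5) (nat_lit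 193) (nat_lit 5) (nat_lit 185) (nat_lit 5) (nat_lit 334) (nat_lit 297) (nat_lit 269)))) (XT.nd (nat_lit 78) (nat_lit 608) (nat_lit 0) (XT.lf (nat_lit 0) (nat_lit 5122969920) (nat_lit 532) (nat_lit 1330263634) (nat_lit 608) (nat_lit 1673618718) (nat_lit 177) (nat_lit 5) (nat_lit 184) (nat_lit 5) (nat_lit 185) (nat_lit 5) (nat_lit 335) (nat_lit 297) (nat_lit 268)) (XT.nd (nat_lit 78) (nat_lit 0) (nat_lit 0) (XT.lf (nat_lit 0) (nat_lit 932892889) (nat_lit 608) (nat_lit 5982590612) (nat_lit 76) (nat_lit 1316123521) (nat_lit 169) (nat_lit 5) (nat_lit 177) (nat_lit 5) (nat_lit 170) (nat_lit 5) (nat_lit 336) (nat_lit 297) (nat_lit 267)) (XT.lf (nat_lit 0) (nat_lit 3565679372) (nat_lit 608) (nat_lit 719374209) (nat_lit 76) (nat_lit 4054548155) (nat_lit 169) (nat_lit 5) (nat_lit 177) (nat_lit 5) (nat_lit 170) (nat_lit 5) (nat_lit 337) (nat_lit 297) (nat_lit 266))))) (XT.nd (nat_lit 234) (nat_lit 1368) (nat_lit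 0) (XT.nd (nat_lit 78) (nat_lit 532) (nat_lit 0) (XT.lf (nat_lit 0) (nat_lit 4724199756) (nat_lit 456) (nat_lit 1538382977) (nat_lit 532) (nat_lit 2188744184) (nat_lit 163) (nat_lit 5) (nat_lit 169) (nat_lit 5) (nat_lit 170) (nat_lit 5) (nat_lit 338) (nat_lit 297) (nat_lit 265)) (XT.nd (nat_lit 78) (nat_lit 0) (nat_lit 0) (XT.lf (nat_lit 0) (nat_lit 441563910) (nat_lit 532) (nat_lit 6841304837) (nat_lit 76) (nat_lit 1284135769) (nat_lit 156) (nat_lit 5) (nat_lit 163) (nat_lit 5) (nat_lit 157) (nat_lit 5) (nat_lit 339) (nat_lit 297) (nat_lit 264)) (XT.lf (nat_lit 0) (nat_lit 3101184467) (nat_lit 532) (nat_lit 1375068356) (nat_lit 76) (nat_lit 4209458490) (nat_lit 156) (nat_lit 5) (nat_lit 163) (nat_lit 5) (nat_lit 157) (nat_lit 5) (nat_lit 340) (nat_lit 297) (nat_lit 263)))) (XT.nd (nat_lit 156) (nat_lit 456) (nat_lit 0) (XT.nd (nat_lit 78) (nat_lit 456) (nat_lit 0) (XT.lf (nat_lit 0) (nat_lit 4269256110)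 (nat_lit 456) (nat_lit 1555244174) (nat_lit 532) (nat_lit 2984001480) (nat_lit 150) (nat_lit 5) (nat_lit 156) (nat_lit 5) (nat_lit 157) (nat_lit 5) (nat_lit 341) (nat_lit 297) (nat_lit 262)) (XT.lf (nat_lit 0) (nat_lit 1114036725) (nat_lit 456) (nat_lit 7497935566) (nat_lit 532) (nat_lit 323568432) (nat_lit 144) (nat_lit 5) (nat_lit 150) (nat_lit 5) (nat_lit 151) (nat_lit 5) (nat_lit 342) (nat_lit 297) (nat_lit 261))) (XT.nd (nat_lit 78) (nat_lit 380) (nat_lit 0) (XT.lf (nat_lit 0) (nat_lit 2375350080) (nat_lit 532) (nat_lit 2144723604) (nat_lit 76) (nat_lit 4545481615) (nat_lit 143) (nat_lit 5) (nat_lit 150) (nat_lit 5) (nat_lit 144) (nat_lit 5) (nat_lit 343) (nat_lit 297) (nat_lit 260)) (XT.lf (nat_lit 0) (nat_lit 3702876442) (nat_lit 380) (nat_lit 1427218364) (nat_lit 456) (nat_lit 4069873762) (nat_lit 138) (nat_lit 5) (nat_lit 143) (nat_lit 5) (nat_lit 144) (nat_lit 5) (nat_lit 344) (nat_lit 297) (nat_lit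 259)))))) (XT.nd (nat_lit 468) (nat_lit 1444) (nat_lit 0) (XT.nd (nat_lit 234) (nat_lit 760) (nat_lit 0) (XT.nd (nat_lit 78) (nat_lit 456) (nat_lit 0) (XT.lf (nat_lit 0) (nat_lit 352507907) (nat_lit 380) (nat_lit 7603692474) (nat_lit 456) (nat_lit 1382586501) (nat_lit 133) (nat_lit 5) (nat_lit 138) (nat_lit 5) (nat_lit 139) (nat_lit 5) (nat_lit 345) (nat_lit 297) (nat_lit 258)) (XT.nd (nat_lit 78) (nat_lit 380) (nat_lit 0) (XT.lf (nat_lit 0) (nat_lit 1375375788) (nat_lit 456) (nat_lit 3087587638) (nat_lit 76) (nat_lit 5017926392) (nat_lit 132) (nat_lit 5) (nat_lit 138) (nat_lit 5) (nat_lit 133) (nat_lit 5) (nat_lit 346) (nat_lit 297) (nat_lit 257)) (XT.lf (nat_lit 0) (nat_lit 2964488243) (nat_lit 380) (nat_lit 1200741853) (nat_lit 456) (nat_lit 5462338124) (nat_lit 127) (nat_lit 5) (nat_lit 132) (nat_lit 5) (nat_lit 133) (nat_lit 5) (nat_lit 347) (nat_lit 297) (nat_lit 256)))) (XT.nd (nat_lit 78) (nat_lit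 760) (nat_lit 0) (XT.lf (nat_lit 0) (nat_lit 7040169042) (nat_lit 456) (nat_lit 605823280) (nat_lit 76) (nat_lit 2132643368) (nat_lit 127) (nat_lit 5) (nat_lit 133) (nat_lit 5) (nat_lit 128) (nat_lit 5) (nat_lit 348) (nat_lit 297) (nat_lit 255)) (XT.nd (nat_lit 78) (nat_lit 304) (nat_lit 0) (XT.lf (nat_lit 0) (nat_lit 82923591) (nat_lit 456) (nat_lit 4269225436) (nat_lit 76) (nat_lit 5581582072) (nat_lit 121) (nat_lit 5) (nat_lit 127) (nat_lit 5) (nat_lit 122) (nat_lit 5) (nat_lit 349) (nat_lit 297) (nat_lit 254)) (XT.lf (nat_lit 0) (nat_lit 1986840041) (nat_lit 304) (nat_lit 923274364) (nat_lit 380) (nat_lit 7183293390) (nat_lit 117) (nat_lit 5) (nat_lit 121) (nat_lit 5) (nat_lit 122) (nat_lit 5) (nat_lit 350) (nat_lit 297) (nat_lit 253))))) (XT.nd (nat_lit 234) (nat_lit 684) (nat_lit 0) (XT.nd (nat_lit 78) (nat_lit 760) (nat_lit 0) (XT.lf (nat_lit 0) (nat_lit 5842276654) (nat_lit 380) (nat_lit 1831452217)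 (nat_lit 76) (nat_lit 2583568246) (nat_lit 117) (nat_lit 5) (nat_lit 122) (nat_lit 5) (nat_lit 118) (nat_lit 5) (nat_lit 351) (nat_lit 297) (nat_lit 252)) (XT.nd (nat_lit 78) (nat_lit 380) (nat_lit 0) (XT.lf (nat_lit 0) (nat_lit 4647967089) (nat_lit 380) (nat_lit 4221212348) (nat_lit 456) (nat_lit 1556746626) (nat_lit 112) (nat_lit 5) (nat_lit 117) (nat_lit 5) (nat_lit 118) (nat_lit 5) (nat_lit 352) (nat_lit 297) (nat_lit 251)) (XT.lf (nat_lit 0) (nat_lit 694465498) (nat_lit 304) (nat_lit 644310602) (nat_lit 380) (nat_lit 9261105282) (nat_lit 107) (nat_lit 5) (nat_lit 111) (nat_lit 5) (nat_lit 112) (nat_lit 5) (nat_lit 353) (nat_lit 297) (nat_lit 250)))) (XT.nd (nat_lit 156) (nat_lit 380) (nat_lit 0) (XT.nd (nat_lit 78) (nat_lit 304) (nat_lit 0) (XT.lf (nat_lit 0) (nat_lit 4331791319) (nat_lit 380) (nat_lit 3409408790) (nat_lit 76) (nat_lit 3036159365) (nat_lit 107) (nat_lit 5) (nat_lit 112) (nat_lit 5)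 (nat_lit 108) (nat_lit 5) (nat_lit 354) (nat_lit 297) (nat_lit 249)) (XT.lf (nat_lit 0) (nat_lit 3274534416) (nat_lit 304) (nat_lit 4133035975) (nat_lit 380) (nat_lit 3552825603) (nat_lit 103) (nat_lit 5) (nat_lit 107) (nat_lit 5) (nat_lit 108) (nat_lit 5) (nat_lit 355) (nat_lit 297) (nat_lit 248))) (XT.nd (nat_lit 78) (nat_lit 380) (nat_lit 0) (XT.lf (nat_lit 0) (nat_lit 10165054695) (nat_lit 304) (nat_lit 400807425) (nat_lit 380) (nat_lit 583376923) (nat_lit 103) (nat_lit 5) (nat_lit 107) (nat_lit 5) (nat_lit 108) (nat_lit 5) (nat_lit 356) (nat_lit 297) (nat_lit 247)) (XT.lf (nat_lit 0) (nat_lit 2474397268) (nat_lit 380) (nat_lit 5428393210) (nat_lit 76) (nat_lit 3438838201) (nat_lit 98) (nat_lit 5) (nat_lit 103) (nat_lit 5) (nat_lit 99) (nat_lit 5) (nat_lit 357) (nat_lit 297) (nat_lit 246))))))) (XT.nd (nat_lit 1014) (nat_lit 1444) (nat_lit 0) (XT.nd (nat_lit 468) (nat_lit 1064) (nat_lit 0) (XT.nd (nat_lit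 234) (nat_lit 532) (nat_lit 0) (XT.nd (nat_lit 78) (nat_lit 304) (nat_lit 0) (XT.lf (nat_lit 0) (nat_lit 1453426993) (nat_lit 304) (nat_lit 4143856758) (nat_lit 380) (nat_lit 5942800533) (nat_lit 94) (nat_lit 5) (nat_lit 98) (nat_lit 5) (nat_lit 99) (nat_lit 5) (nat_lit 358) (nat_lit 297) (nat_lit 245)) (XT.nd (nat_lit 78) (nat_lit 304) (nat_lit 0) (XT.lf (nat_lit 0) (nat_lit 8590247002) (nat_lit 304) (nat_lit 236199654) (nat_lit 380) (nat_lit 2917689297) (nat_lit 94) (nat_lit 5) (nat_lit 98) (nat_lit 5) (nat_lit 99) (nat_lit 5) (nat_lit 359) (nat_lit 297) (nat_lit 244)) (XT.lf (nat_lit 0) (nat_lit 227973036) (nat_lit 304) (nat_lit 7989693880) (nat_lit 76) (nat_lit 3735594097) (nat_lit 90) (nat_lit 5) (nat_lit 94) (nat_lit 5) (nat_lit 91) (nat_lit 5) (nat_lit 360) (nat_lit 297) (nat_lit 243)))) (XT.nd (nat_lit 78) (nat_lit 532) (nat_lit 0) (XT.lf (nat_lit 0) (nat_lit 3402866363) (nat_lit 304) (nat_lit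 902237092) (nat_lit 76) (nat_lit 7862903000) (nat_lit 90) (nat_lit 5) (nat_lit 94) (nat_lit 5) (nat_lit 91) (nat_lit 5) (nat_lit 361) (nat_lit 297) (nat_lit 242)) (XT.nd (nat_lit 78) (nat_lit 228) (nat_lit 0) (XT.lf (nat_lit 0) (nat_lit 6463593434) (nat_lit 304) (nat_lit 231740952) (nat_lit 380) (nat_lit 5693207888) (nat_lit 86) (nat_lit 5) (nat_lit 90) (nat_lit 5) (nat_lit 91) (nat_lit 5) (nat_lit 362) (nat_lit 297) (nat_lit 241)) (XT.lf (nat_lit 0) (nat_lit 1381455051) (nat_lit 228) (nat_lit 8726287332) (nat_lit 304) (nat_lit 2507334134) (nat_lit 83) (nat_lit 5) (nat_lit 86) (nat_lit 5) (nat_lit 87) (nat_lit 5) (nat_lit 363) (nat_lit 297) (nat_lit 240))))) (XT.nd (nat_lit 234) (nat_lit 760) (nat_lit 0) (XT.nd (nat_lit 78) (nat_lit 228) (nat_lit 0) (XT.lf (nat_lit 0) (nat_lit 782478479) (nat_lit 304) (nat_lit 3889417083) (nat_lit 76) (nat_lit 8175600272) (nat_lit 82) (nat_lit 5) (nat_lit 86) (nat_lit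 5) (nat_lit 83) (nat_lit 5) (nat_lit 364) (nat_lit 297) (nat_lit 239)) (XT.nd (nat_lit 78) (nat_lit 0) (nat_lit 0) (XT.lf (nat_lit 0) (nat_lit 3662550330) (nat_lit 228) (nat_lit 455141274) (nat_lit 304) (nat_lit 8968554198) (nat_lit 79) (nat_lit 5) (nat_lit 82) (nat_lit 5) (nat_lit 83) (nat_lit 5) (nat_lit 365) (nat_lit 297) (nat_lit 238)) (XT.lf (nat_lit 0) (nat_lit 7592238612) (nat_lit 304) (nat_lit 1907504568) (nat_lit 76) (nat_lit 3831252162) (nat_lit 79) (nat_lit 5) (nat_lit 83) (nat_lit 5) (nat_lit 80) (nat_lit 5) (nat_lit 366) (nat_lit 297) (nat_lit 237)))) (XT.nd (nat_lit 156) (nat_lit 228) (nat_lit 0) (XT.nd (nat_lit 78) (nat_lit 304) (nat_lit 0) (XT.lf (nat_lit 0) (nat_lit 5886704725) (nat_lit 228) (nat_lit 5308748308) (nat_lit 304) (nat_lit 2386916355) (nat_lit 76) (nat_lit 5) (nat_lit 79) (nat_lit 5) (nat_lit 80) (nat_lit 5) (nat_lit 367) (nat_lit 297) (nat_lit 236)) (XT.lf (nat_lit 0) (nat_lit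 45586620) (nat_lit 228) (nat_lit 982475559) (nat_lit 304) (nat_lit 12813428076) (nat_lit 72) (nat_lit 5) (nat_lit 75) (nat_lit 5) (nat_lit 76) (nat_lit 5) (nat_lit 368) (nat_lit 297) (nat_lit 235))) (XT.nd (nat_lit 78) (nat_lit 228) (nat_lit 0) (XT.lf (nat_lit 0) (nat_lit 4573174952) (nat_lit 304) (nat_lit 6045341675) (nat_lit 76) (nat_lit 3486903031) (nat_lit 72) (nat_lit 5) (nat_lit 76) (nat_lit 5) (nat_lit 73) (nat_lit 5) (nat_lit 369) (nat_lit 297) (nat_lit 234)) (XT.lf (nat_lit 0) (nat_lit 1908627843) (nat_lit 228) (nat_lit 6308931107) (nat_lit 304) (nat_lit 6159933739) (nat_lit 69) (nat_lit 5) (nat_lit 72) (nat_lit 5) (nat_lit 73) (nat_lit 5) (nat_lit 370) (nat_lit 297) (nat_lit 233)))))) (XT.nd (nat_lit 546) (nat_lit 684) (nat_lit 0) (XT.nd (nat_lit 234) (nat_lit 456) (nat_lit 0) (XT.nd (nat_lit 78) (nat_lit 304) (nat_lit 0) (XT.lf (nat_lit 0) (nat_lit 10169069159) (nat_lit 228) (nat_lit 1828579860)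 (nat_lit 304) (nat_lit 2659300550) (nat_lit 69) (nat_lit 5) (nat_lit 72) (nat_lit 5) (nat_lit 73) (nat_lit 5) (nat_lit 371) (nat_lit 297) (nat_lit 232)) (XT.nd (nat_lit 78) (nat_lit 0) (nat_lit 0) (XT.lf (nat_lit 0) (nat_lit 956867091) (nat_lit 304) (nat_lit 11230179816) (nat_lit 76) (nat_lit 2756613030) (nat_lit 65) (nat_lit 5) (nat_lit 69) (nat_lit 5) (nat_lit 66) (nat_lit 5) (nat_lit 372) (nat_lit 297) (nat_lit 231)) (XT.lf (nat_lit 0) (nat_lit 4658198934) (nat_lit 304) (nat_lit 3085018586) (nat_lit 76) (nat_lit 7494072152) (nat_lit 65) (nat_lit 5) (nat_lit 69) (nat_lit 5) (nat_lit 66) (nat_lit 5) (nat_lit 373) (nat_lit 297) (nat_lit 230)))) (XT.nd (nat_lit 156) (nat_lit 304) (nat_lit 0) (XT.nd (nat_lit 78) (nat_lit 0) (nat_lit 0) (XT.lf (nat_lit 0) (nat_lit 5355208547) (nat_lit 152) (nat_lit 3134078791) (nat_lit 228) (nat_lit 7049890920) (nat_lit 63) (nat_lit 5) (nat_lit 65) (nat_lit 5) (nat_lit 66)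 (nat_lit 5) (nat_lit 374) (nat_lit 297) (nat_lit 229)) (XT.lf (nat_lit 0) (nat_lit 12449757807) (nat_lit 228) (nat_lit 1807163745) (nat_lit 76) (nat_lit 1592779588) (nat_lit 63) (nat_lit 5) (nat_lit 66) (nat_lit 5) (nat_lit 64) (nat_lit 5) (nat_lit 375) (nat_lit 297) (nat_lit 228))) (XT.nd (nat_lit 78) (nat_lit 0) (nat_lit 0) (XT.lf (nat_lit 0) (nat_lit 418636596) (nat_lit 304) (nat_lit 9300151474) (nat_lit 76) (nat_lit 6448673979) (nat_lit 59) (nat_lit 5) (nat_lit 63) (nat_lit 5) (nat_lit 60) (nat_lit 5) (nat_lit 376) (nat_lit 297) (nat_lit 227)) (XT.lf (nat_lit 0) (nat_lit 4270396566) (nat_lit 304) (nat_lit 741576127) (nat_lit 76) (nat_lit 11482174642) (nat_lit 59) (nat_lit 5) (nat_lit 63) (nat_lit 5) (nat_lit 60) (nat_lit 5) (nat_lit 377) (nat_lit 297) (nat_lit 226))))) (XT.nd (nat_lit 234) (nat_lit 380) (nat_lit 0) (XT.nd (nat_lit 78) (nat_lit 152) (nat_lit 0) (XT.lf (nat_lit 0) (nat_lit 8182367105)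 (nat_lit 152) (nat_lit 103441433) (nat_lit 228) (nat_lit 8543391549) (nat_lit 57) (nat_lit 5) (nat_lit 59) (nat_lit 5) (nat_lit 60) (nat_lit 5) (nat_lit 378) (nat_lit 297) (nat_lit 225)) (XT.nd (nat_lit 78) (nat_lit 0) (nat_lit 0) (XT.lf (nat_lit 0) (nat_lit 118509642) (nat_lit 152) (nat_lit 12329133102) (nat_lit 228) (nat_lit 4725892477) (nat_lit 55) (nat_lit 5) (nat_lit 57) (nat_lit 5) (nat_lit 58) (nat_lit 5) (nat_lit 379) (nat_lit 297) (nat_lit 224)) (XT.lf (nat_lit 0) (nat_lit 9272248042) (nat_lit 152) (nat_lit 7520463067) (nat_lit 228) (nat_lit 733747241) (nat_lit 55) (nat_lit 5) (nat_lit 57) (nat_lit 5) (nat_lit 58) (nat_lit 5) (nat_lit 380) (nat_lit 297) (nat_lit 223)))) (XT.nd (nat_lit 156) (nat_lit 152) (nat_lit 0) (XT.nd (nat_lit 78) (nat_lit 0) (nat_lit 0) (XT.lf (nat_lit 0) (nat_lit 742764288) (nat_lit 152) (nat_lit 2547242383) (nat_lit 228) (nat_lit 14599664161) (nat_lit 52) (nat_lit 5) (nat_lit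 54) (nat_lit 5) (nat_lit 55) (nat_lit 5) (nat_lit 381) (nat_lit 297) (nat_lit 222)) (XT.lf (nat_lit 0) (nat_lit 7499465535) (nat_lit 228) (nat_lit 8165351390) (nat_lit 76) (nat_lit 2596361145) (nat_lit 52) (nat_lit 5) (nat_lit 55) (nat_lit 5) (nat_lit 53) (nat_lit 5) (nat_lit 382) (nat_lit 297) (nat_lit 221))) (XT.nd (nat_lit 78) (nat_lit 0) (nat_lit 0) (XT.lf (nat_lit 0) (nat_lit 1031946469) (nat_lit 152) (nat_lit 10810061007) (nat_lit 228) (nat_lit 6801627348) (nat_lit 50) (nat_lit 5) (nat_lit 52) (nat_lit 5) (nat_lit 53) (nat_lit 5) (nat_lit 383) (nat_lit 297) (nat_lit 220)) (XT.lf (nat_lit 0) (nat_lit 10624400917) (nat_lit 152) (nat_lit 5744900849) (nat_lit 228) (nat_lit 2666637266) (nat_lit 50) (nat_lit 5) (nat_lit 52) (nat_lit 5) (nat_lit 53) (nat_lit 5) (nat_lit 384) (nat_lit 297) (nat_lit 219))))))))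
noncomputable def xc98 : XT := (XT.nd (nat_lit 2028) (nat_lit 988) (nat_lit 0) (XT.nd (nat_lit 1014) (nat_lit 684) (nat_lit 0) (XT.nd (nat_lit 468) (nat_lit 456) (nat_lit 0) (XT.nd (nat_lit 234) (nat_lit 228) (nat_lit 0) (XT.nd (nat_lit 78) (nat_lit 152) (nat_lit 0) (XT.lf (nat_lit 0) (nat_lit 1021956056) (nat_lit 152) (nat_lit 521756973) (nat_lit 228) (nat_lit 17896376178) (nat_lit 47) (nat_lit 5) (nat_lit 49) (nat_lit 5) (nat_lit 50) (nat_lit 5) (nat_lit 385) (nat_lit 297) (nat_lit 218)) (XT.nd (nat_lit 78) (nat_lit 152) (nat_lit 0) (XT.lf (nat_lit 0) (nat_lit 5931976575) (nat_lit 228) (nat_lit 9064336630) (nat_lit 76) (nat_lit 4856109979) (nat_lit 47) (nat_lit 5) (nat_lit 50) (nat_lit 5) (nat_lit 48) (nat_lit 5) (nat_lit 386) (nat_lit 297) (nat_lit 217)) (XT.lf (nat_lit 0) (nat_lit 529153867) (nat_lit 152) (nat_lit 9906500821) (nat_lit 228) (nat_lit 9841966633) (nat_lit 45) (nat_lit 5) (nat_lit 47)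 (nat_lit 5) (nat_lit 48) (nat_lit 5) (nat_lit 387) (nat_lit 297) (nat_lit 216)))) (XT.nd (nat_lit 78) (nat_lit 228) (nat_lit 0) (XT.lf (nat_lit 0) (nat_lit 10550631152) (nat_lit 152) (nat_lit 4589191049) (nat_lit 228) (nat_lit 5573798761) (nat_lit 45) (nat_lit 5) (nat_lit 47) (nat_lit 5) (nat_lit 48) (nat_lit 5) (nat_lit 388) (nat_lit 297) (nat_lit 215)) (XT.nd (nat_lit 78) (nat_lit 228) (nat_lit 0) (XT.lf (nat_lit 0) (nat_lit 19968074272) (nat_lit 228) (nat_lit 343366044) (nat_lit 76) (nat_lit 851778219) (nat_lit 45) (nat_lit 5) (nat_lit 48) (nat_lit 5) (nat_lit 46) (nat_lit 4) (nat_lit 389) (nat_lit 297) (nat_lit 214)) (XT.lf (nat_lit 0) (nat_lit 3366851564) (nat_lit 228) (nat_lit 11781335067) (nat_lit 76) (nat_lit 6473667809) (nat_lit 42) (nat_lit 5) (nat_lit 45) (nat_lit 5) (nat_lit 43) (nat_lit 5) (nat_lit 390) (nat_lit 297) (nat_lit 213))))) (XT.nd (nat_lit 234) (nat_lit 304) (nat_lit 0) (XT.nd (nat_lit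 78) (nat_lit 152) (nat_lit 0) (XT.lf (nat_lit 0) (nat_lit 8020418927) (nat_lit 228) (nat_lit 1812703028) (nat_lit 76) (nat_lit 12261416647) (nat_lit 42) (nat_lit 5) (nat_lit 45) (nat_lit 5) (nat_lit 43) (nat_lit 5) (nat_lit 391) (nat_lit 297) (nat_lit 212)) (XT.nd (nat_lit 78) (nat_lit 0) (nat_lit 0) (XT.lf (nat_lit 0) (nat_lit 8580036549) (nat_lit 152) (nat_lit 4291985965) (nat_lit 228) (nat_lit 9707633877) (nat_lit 40) (nat_lit 5) (nat_lit 42) (nat_lit 5) (nat_lit 43) (nat_lit 5) (nat_lit 392) (nat_lit 297) (nat_lit 211)) (XT.lf (nat_lit 0) (nat_lit 17877340328) (nat_lit 228) (nat_lit 3813354997) (nat_lit 76) (nat_lit 1388393211) (nat_lit 40) (nat_lit 5) (nat_lit 43) (nat_lit 5) (nat_lit 41) (nat_lit 4) (nat_lit 393) (nat_lit 297) (nat_lit 210)))) (XT.nd (nat_lit 156) (nat_lit 152) (nat_lit 0) (XT.nd (nat_lit 78) (nat_lit 76) (nat_lit 0) (XT.lf (nat_lit 0) (nat_lit 6725982482) (nat_lit 76) (nat_lit 16390755817)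 (nat_lit 152) (nat_lit 474253362) (nat_lit 39) (nat_lit 5) (nat_lit 40) (nat_lit 5) (nat_lit 41) (nat_lit 4) (nat_lit 394) (nat_lit 297) (nat_lit 209)) (XT.lf (nat_lit 0) (nat_lit 4325014088) (nat_lit 152) (nat_lit 6541386400) (nat_lit 76) (nat_lit 13250117923) (nat_lit 38) (nat_lit 5) (nat_lit 40) (nat_lit 5) (nat_lit 39) (nat_lit 5) (nat_lit 395) (nat_lit 297) (nat_lit 208))) (XT.nd (nat_lit 78) (nat_lit 0) (nat_lit 0) (XT.lf (nat_lit 0) (nat_lit 4127668426) (nat_lit 152) (nat_lit 5148234520) (nat_lit 228) (nat_lit 15381257047) (nat_lit 36) (nat_lit 5) (nat_lit 38) (nat_lit 5) (nat_lit 39) (nat_lit 5) (nat_lit 396) (nat_lit 297) (nat_lit 207)) (XT.lf (nat_lit 0) (nat_lit 14426758116) (nat_lit 228) (nat_lit 10009170742) (nat_lit 76) (nat_lit 776553782) (nat_lit 36) (nat_lit 5) (nat_lit 39) (nat_lit 5) (nat_lit 37) (nat_lit 4) (nat_lit 397) (nat_lit 297) (nat_lit 206)))))) (XT.nd (nat_lit 468) (nat_lit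 304) (nat_lit 0) (XT.nd (nat_lit 234) (nat_lit 228) (nat_lit 0) (XT.nd (nat_lit 78) (nat_lit 76) (nat_lit 0) (XT.lf (nat_lit 0) (nat_lit 751384309) (nat_lit 76) (nat_lit 19017205291) (nat_lit 152) (nat_lit 6014786708) (nat_lit 35) (nat_lit 5) (nat_lit 36) (nat_lit 5) (nat_lit 37) (nat_lit 4) (nat_lit 398) (nat_lit 297) (nat_lit 205)) (XT.nd (nat_lit 78) (nat_lit 76) (nat_lit 0) (XT.lf (nat_lit 0) (nat_lit 12001252195) (nat_lit 76) (nat_lit 13349013613) (nat_lit 152) (nat_lit 1018748005) (nat_lit 35) (nat_lit 5) (nat_lit 36) (nat_lit 5) (nat_lit 37) (nat_lit 4) (nat_lit 399) (nat_lit 297) (nat_lit 204)) (XT.lf (nat_lit 0) (nat_lit 4025567373) (nat_lit 152) (nat_lit 3461256323) (nat_lit 76) (nat_lit 19484843063) (nat_lit 34) (nat_lit 5) (nat_lit 36) (nat_lit 5) (nat_lit 35) (nat_lit 5) (nat_lit 400) (nat_lit 297) (nat_lit 203)))) (XT.nd (nat_lit 78) (nat_lit 76) (nat_lit 0) (XT.lf (nat_lit 0) (nat_lit 7879236898)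 (nat_lit 152) (nat_lit 1376784683) (nat_lit 228) (nat_lit 18334420879) (nat_lit 32) (nat_lit 5) (nat_lit 34) (nat_lit 5) (nat_lit 35) (nat_lit 5) (nat_lit 401) (nat_lit 297) (nat_lit 202)) (XT.nd (nat_lit 78) (nat_lit 76) (nat_lit 0) (XT.lf (nat_lit 0) (nat_lit 14705581567) (nat_lit 228) (nat_lit 8680407803) (nat_lit 76) (nat_lit 4839930491) (nat_lit 32) (nat_lit 5) (nat_lit 35) (nat_lit 5) (nat_lit 33) (nat_lit 4) (nat_lit 402) (nat_lit 297) (nat_lit 201)) (XT.lf (nat_lit 0) (nat_lit 2684171663) (nat_lit 76) (nat_lit 17654116579) (nat_lit 152) (nat_lit 8541587617) (nat_lit 31) (nat_lit 5) (nat_lit 32) (nat_lit 5) (nat_lit 33) (nat_lit 4) (nat_lit 403) (nat_lit 297) (nat_lit 200))))) (XT.nd (nat_lit 234) (nat_lit 76) (nat_lit 0) (XT.nd (nat_lit 78) (nat_lit 228) (nat_lit 0) (XT.lf (nat_lit 0) (nat_lit 14532091662) (nat_lit 76) (nat_lit 11676000340) (nat_lit 152) (nat_lit 3343319011) (nat_lit 31) (nat_lit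 5) (nat_lit 32) (nat_lit 5) (nat_lit 33) (nat_lit 4) (nat_lit 404) (nat_lit 297) (nat_lit 199)) (XT.nd (nat_lit 78) (nat_lit 152) (nat_lit 0) (XT.lf (nat_lit 0) (nat_lit 1952496100) (nat_lit 152) (nat_lit 3561859675) (nat_lit 76) (nat_lit 24728735125) (nat_lit 30) (nat_lit 5) (nat_lit 32) (nat_lit 5) (nat_lit 31) (nat_lit 5) (nat_lit 405) (nat_lit 297) (nat_lit 198)) (XT.lf (nat_lit 0) (nat_lit 7410479049) (nat_lit 228) (nat_lit 22626662681) (nat_lit 76) (nat_lit 915275281) (nat_lit 28) (nat_lit 5) (nat_lit 31) (nat_lit 5) (nat_lit 29) (nat_lit 4) (nat_lit 406) (nat_lit 297) (nat_lit 197)))) (XT.nd (nat_lit 156) (nat_lit 0) (nat_lit 0) (XT.nd (nat_lit 78) (nat_lit 76) (nat_lit 0) (XT.lf (nat_lit 0) (nat_lit 13104593182) (nat_lit 228) (nat_lit 11127834097) (nat_lit 76) (nat_lit 7448427390) (nat_lit 28) (nat_lit 5) (nat_lit 31) (nat_lit 5) (nat_lit 29) (nat_lit 4) (nat_lit 407) (nat_lit 297) (nat_lit 196))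 (XT.lf (nat_lit 0) (nat_lit 696593249) (nat_lit 76) (nat_lit 18261643470) (nat_lit 152) (nat_lit 13473250967) (nat_lit 27) (nat_lit 5) (nat_lit 28) (nat_lit 5) (nat_lit 29) (nat_lit 4) (nat_lit 408) (nat_lit 297) (nat_lit 195))) (XT.nd (nat_lit 78) (nat_lit 0) (nat_lit 0) (XT.lf (nat_lit 0) (nat_lit 13071227094) (nat_lit 76) (nat_lit 12010851938) (nat_lit 152) (nat_lit 8119726287) (nat_lit 27) (nat_lit 5) (nat_lit 28) (nat_lit 5) (nat_lit 29) (nat_lit 4) (nat_lit 409) (nat_lit 297) (nat_lit 194)) (XT.lf (nat_lit 0) (nat_lit 25785414508) (nat_lit 76) (nat_lit 5586960133) (nat_lit 152) (nat_lit 2623378914) (nat_lit 27) (nat_lit 5) (nat_lit 28) (nat_lit 5) (nat_lit 29) (nat_lit 4) (nat_lit 410) (nat_lit 297) (nat_lit 193))))))) (XT.nd (nat_lit 1014) (nat_lit 380) (nat_lit 0) (XT.nd (nat_lit 468) (nat_lit 304) (nat_lit 0) (XT.nd (nat_lit 234) (nat_lit 76) (nat_lit 0) (XT.nd (nat_lit 78) (nat_lit 0) (nat_lit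 0) (XT.lf (nat_lit 0) (nat_lit 3011376881) (nat_lit 228) (nat_lit 30735461690) (nat_lit 76) (nat_lit 1064824717) (nat_lit 24) (nat_lit 5) (nat_lit 27) (nat_lit 5) (nat_lit 25) (nat_lit 4) (nat_lit 411) (nat_lit 297) (nat_lit 192)) (XT.nd (nat_lit 78) (nat_lit 0) (nat_lit 0) (XT.lf (nat_lit 0) (nat_lit 8884627273) (nat_lit 228) (nat_lit 18863199297) (nat_lit 76) (nat_lit 7899782087) (nat_lit 24) (nat_lit 5) (nat_lit 27) (nat_lit 5) (nat_lit 25) (nat_lit 4) (nat_lit 412) (nat_lit 297) (nat_lit 191)) (XT.lf (nat_lit 0) (nat_lit 14917700034) (nat_lit 228) (nat_lit 6665028487) (nat_lit 76) (nat_lit 14926397974) (nat_lit 24) (nat_lit 5) (nat_lit 27) (nat_lit 5) (nat_lit 25) (nat_lit 4) (nat_lit 413) (nat_lit 297) (nat_lit 190)))) (XT.nd (nat_lit 78) (nat_lit 0) (nat_lit 0) (XT.lf (nat_lit 0) (nat_lit 5986528058) (nat_lit 76) (nat_lit 15186884892) (nat_lit 152) (nat_lit 16221830253) (nat_lit 23) (nat_lit 5) (nat_lit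 24) (nat_lit 5) (nat_lit 25) (nat_lit 4) (nat_lit 414) (nat_lit 297) (nat_lit 189)) (XT.nd (nat_lit 78) (nat_lit 0) (nat_lit 0) (XT.lf (nat_lit 0) (nat_lit 19125167759) (nat_lit 76) (nat_lit 8543218440) (nat_lit 152) (nat_lit 10638012236) (nat_lit 23) (nat_lit 5) (nat_lit 24) (nat_lit 5) (nat_lit 25) (nat_lit 4) (nat_lit 415) (nat_lit 297) (nat_lit 188)) (XT.lf (nat_lit 0) (nat_lit 32629723843) (nat_lit 76) (nat_lit 1713227740) (nat_lit 152) (nat_lit 4902397066) (nat_lit 23) (nat_lit 5) (nat_lit 24) (nat_lit 5) (nat_lit 25) (nat_lit 4) (nat_lit 416) (nat_lit 297) (nat_lit 187))))) (XT.nd (nat_lit 234) (nat_lit 152) (nat_lit 0) (XT.nd (nat_lit 78) (nat_lit 0) (nat_lit 0) (XT.lf (nat_lit 0) (nat_lit 1084109003) (nat_lit 152) (nat_lit 33847777485) (nat_lit 76) (nat_lit 5277340266) (nat_lit 21) (nat_lit 5) (nat_lit 23) (nat_lit 5) (nat_lit 22) (nat_lit 4) (nat_lit 417) (nat_lit 297) (nat_lit 186)) (XT.nd (nat_lit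 78) (nat_lit 0) (nat_lit 0) (XT.lf (nat_lit 0) (nat_lit 7221194265) (nat_lit 152) (nat_lit 21430503406) (nat_lit 76) (nat_lit 12546784245) (nat_lit 21) (nat_lit 5) (nat_lit 23) (nat_lit 5) (nat_lit 22) (nat_lit 4) (nat_lit 418) (nat_lit 297) (nat_lit 185)) (XT.lf (nat_lit 0) (nat_lit 13527914817) (nat_lit 152) (nat_lit 8667675252) (nat_lit 76) (nat_lit 20022261304) (nat_lit 21) (nat_lit 5) (nat_lit 23) (nat_lit 5) (nat_lit 22) (nat_lit 4) (nat_lit 419) (nat_lit 297) (nat_lit 184)))) (XT.nd (nat_lit 156) (nat_lit 76) (nat_lit 0) (XT.nd (nat_lit 78) (nat_lit 0) (nat_lit 0) (XT.lf (nat_lit 0) (nat_lit 4540459687) (nat_lit 76) (nat_lit 15512967375) (nat_lit 152) (nat_lit 23213489404) (nat_lit 20) (nat_lit 5) (nat_lit 21) (nat_lit 5) (nat_lit 22) (nat_lit 4) (nat_lit 420) (nat_lit 297) (nat_lit 183)) (XT.lf (nat_lit 0) (nat_lit 18296595392) (nat_lit 76) (nat_lit 8551740416) (nat_lit 152) (nat_lit 17496910959)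 (nat_lit 20) (nat_lit 5) (nat_lit 21) (nat_lit 5) (nat_lit 22) (nat_lit 4) (nat_lit 421) (nat_lit 297) (nat_lit 182))) (XT.nd (nat_lit 78) (nat_lit 76) (nat_lit 0) (XT.lf (nat_lit 0) (nat_lit 32440248054) (nat_lit 76) (nat_lit 1393353089) (nat_lit 152) (nat_lit 11622732678) (nat_lit 20) (nat_lit 5) (nat_lit 21) (nat_lit 5) (nat_lit 22) (nat_lit 4) (nat_lit 422) (nat_lit 297) (nat_lit 181)) (XT.lf (nat_lit 0) (nat_lit 331728551) (nat_lit 76) (nat_lit 40744159312) (nat_lit 76) (nat_lit 5523443784) (nat_lit 19) (nat_lit 4) (nat_lit 20) (nat_lit 5) (nat_lit 20) (nat_lit 4) (nat_lit 423) (nat_lit 297) (nat_lit 180)))))) (XT.nd (nat_lit 546) (nat_lit 228) (nat_lit 0) (XT.nd (nat_lit 234) (nat_lit 76) (nat_lit 0) (XT.nd (nat_lit 78) (nat_lit 0) (nat_lit 0) (XT.lf (nat_lit 0) (nat_lit 877361677) (nat_lit 152) (nat_lit 33473015396) (nat_lit 76) (nat_lit 13422025093) (nat_lit 18) (nat_lit 5) (nat_lit 20) (nat_lit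 5) (nat_lit 19) (nat_lit 4) (nat_lit 424) (nat_lit 297) (nat_lit 179)) (XT.nd (nat_lit 78) (nat_lit 0) (nat_lit 0) (XT.lf (nat_lit 0) (nat_lit 7346371094) (nat_lit 152) (nat_lit 20373299165) (nat_lit 76) (nat_lit 21259739936) (nat_lit 18) (nat_lit 5) (nat_lit 20) (nat_lit 5) (nat_lit 19) (nat_lit 4) (nat_lit 425) (nat_lit 297) (nat_lit 178)) (XT.lf (nat_lit 0) (nat_lit 13997019282) (nat_lit 152) (nat_lit 6903913329) (nat_lit 76) (nat_lit 29322070632) (nat_lit 18) (nat_lit 5) (nat_lit 20) (nat_lit 5) (nat_lit 19) (nat_lit 4) (nat_lit 426) (nat_lit 297) (nat_lit 177)))) (XT.nd (nat_lit 156) (nat_lit 0) (nat_lit 0) (XT.nd (nat_lit 78) (nat_lit 0) (nat_lit 0) (XT.lf (nat_lit 0) (nat_lit 7085168637) (nat_lit 76) (nat_lit 13818055826) (nat_lit 152) (nat_lit 30599000274) (nat_lit 17) (nat_lit 5) (nat_lit 18) (nat_lit 5) (nat_lit 19) (nat_lit 4) (nat_lit 427) (nat_lit 297) (nat_lit 176)) (XT.lf (nat_lit 0) (nat_lit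 21613025901) (nat_lit 76) (nat_lit 6461372474) (nat_lit 152) (nat_lit 24743692750) (nat_lit 17) (nat_lit 5) (nat_lit 18) (nat_lit 5) (nat_lit 19) (nat_lit 4) (nat_lit 428) (nat_lit 297) (nat_lit 175))) (XT.nd (nat_lit 78) (nat_lit 0) (nat_lit 0) (XT.lf (nat_lit 0) (nat_lit 35459751578) (nat_lit 152) (nat_lit 17629461376) (nat_lit 0) (nat_lit 1084250907) (nat_lit 17) (nat_lit 5) (nat_lit 19) (nat_lit 4) (nat_lit 17) (nat_lit 4) (nat_lit 429) (nat_lit 297) (nat_lit 174)) (XT.lf (nat_lit 0) (nat_lit 43119295953) (nat_lit 152) (nat_lit 3731941036) (nat_lit 0) (nat_lit 8716683500) (nat_lit 17) (nat_lit 5) (nat_lit 19) (nat_lit 4) (nat_lit 17) (nat_lit 4) (nat_lit 430) (nat_lit 297) (nat_lit 173))))) (XT.nd (nat_lit 234) (nat_lit 76) (nat_lit 0) (XT.nd (nat_lit 78) (nat_lit 76) (nat_lit 0) (XT.lf (nat_lit 0) (nat_lit 10771949456) (nat_lit 76) (nat_lit 40329210754) (nat_lit 76) (nat_lit 5900276181) (nat_lit 16)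 (nat_lit 4) (nat_lit 17) (nat_lit 5) (nat_lit 17) (nat_lit 4) (nat_lit 431) (nat_lit 297) (nat_lit 172)) (XT.nd (nat_lit 78) (nat_lit 0) (nat_lit 0) (XT.lf (nat_lit 0) (nat_lit 855102225) (nat_lit 152) (nat_lit 32718632510) (nat_lit 76) (nat_lit 24903169205) (nat_lit 15) (nat_lit 5) (nat_lit 17) (nat_lit 5) (nat_lit 16) (nat_lit 4) (nat_lit 432) (nat_lit 297) (nat_lit 171)) (XT.lf (nat_lit 0) (nat_lit 7683873509) (nat_lit 152) (nat_lit 18881037926) (nat_lit 76) (nat_lit 33430293334) (nat_lit 15) (nat_lit 5) (nat_lit 17) (nat_lit 5) (nat_lit 16) (nat_lit 4) (nat_lit 433) (nat_lit 297) (nat_lit 170)))) (XT.nd (nat_lit 156) (nat_lit 0) (nat_lit 0) (XT.nd (nat_lit 78) (nat_lit 76) (nat_lit 0) (XT.lf (nat_lit 0) (nat_lit 14707140197) (nat_lit 152) (nat_lit 4647895016) (nat_lit 76) (nat_lit 42204331845) (nat_lit 15) (nat_lit 5) (nat_lit 17) (nat_lit 5) (nat_lit 16) (nat_lit 4) (nat_lit 434) (nat_lit 297) (nat_lit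 169)) (XT.lf (nat_lit 0) (nat_lit 10192117876) (nat_lit 76) (nat_lit 11836894121) (nat_lit 152) (nat_lit 41138806370) (nat_lit 14) (nat_lit 5) (nat_lit 15) (nat_lit 5) (nat_lit 16) (nat_lit 4) (nat_lit 435) (nat_lit 297) (nat_lit 168))) (XT.nd (nat_lit 78) (nat_lit 0) (nat_lit 0) (XT.lf (nat_lit 0) (nat_lit 25553785577) (nat_lit 76) (nat_lit 4053735480) (nat_lit 152) (nat_lit 35215894050) (nat_lit 14) (nat_lit 5) (nat_lit 15) (nat_lit 5) (nat_lit 16) (nat_lit 4) (nat_lit 436) (nat_lit 297) (nat_lit 167)) (XT.lf (nat_lit 0) (nat_lit 37441732994) (nat_lit 152) (nat_lit 25208953483) (nat_lit 0) (nat_lit 3877144129) (nat_lit 14) (nat_lit 5) (nat_lit 16) (nat_lit 4) (nat_lit 14) (nat_lit 4) (nat_lit 437) (nat_lit 297) (nat_lit 166))))))))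
noncomputable def xc99 : XT := (XT.nd (nat_lit 37752) (nat_lit 0) (nat_lit 8816) (XT.nd (nat_lit 36738) (nat_lit 0) (nat_lit 20368) (XT.nd (nat_lit 468) (nat_lit 76) (nat_lit 0) (XT.nd (nat_lit 234) (nat_lit 76) (nat_lit 0) (XT.nd (nat_lit 78) (nat_lit 76) (nat_lit 0) (XT.lf (nat_lit 0) (nat_lit 45541644772) (nat_lit 152) (nat_lit 10784537858) (nat_lit 0) (nat_lit 11956276984) (nat_lit 14) (nat_lit 5) (nat_lit 16) (nat_lit 4) (nat_lit 14) (nat_lit 4) (nat_lit 438) (nat_lit 297) (nat_lit 165)) (XT.nd (nat_lit 78) (nat_lit 0) (nat_lit 0) (XT.lf (nat_lit 0) (nat_lit 4135894384) (nat_lit 76) (nat_lit 49779229362) (nat_lit 76) (nat_lit 16173687862) (nat_lit 13) (nat_lit 4) (nat_lit 14) (nat_lit 5) (nat_lit 14) (nat_lit 4) (nat_lit 439) (nat_lit 297) (nat_lit 164)) (XT.lf (nat_lit 0) (nat_lit 19707760803) (nat_lit 76) (nat_lit 42931863820) (nat_lit 76) (nat_lit 9306736191) (nat_lit 13) (nat_lit 4) (nat_lit 14)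 (nat_lit 5) (nat_lit 14) (nat_lit 4) (nat_lit 440) (nat_lit 297) (nat_lit 163)))) (XT.nd (nat_lit 78) (nat_lit 76) (nat_lit 0) (XT.lf (nat_lit 0) (nat_lit 35730034434) (nat_lit 76) (nat_lit 35887005553) (nat_lit 76) (nat_lit 2242862265) (nat_lit 13) (nat_lit 4) (nat_lit 14) (nat_lit 5) (nat_lit 14) (nat_lit 4) (nat_lit 441) (nat_lit 297) (nat_lit 162)) (XT.nd (nat_lit 78) (nat_lit 0) (nat_lit 0) (XT.lf (nat_lit 0) (nat_lit 4926067822) (nat_lit 152) (nat_lit 23662687413) (nat_lit 76) (nat_lit 47240903875) (nat_lit 12) (nat_lit 5) (nat_lit 14) (nat_lit 5) (nat_lit 13) (nat_lit 4) (nat_lit 442) (nat_lit 297) (nat_lit 161)) (XT.lf (nat_lit 0) (nat_lit 12256588924) (nat_lit 152) (nat_lit 8799653658) (nat_lit 76) (nat_lit 56801852867) (nat_lit 12) (nat_lit 5) (nat_lit 14) (nat_lit 5) (nat_lit 13) (nat_lit 4) (nat_lit 443) (nat_lit 297) (nat_lit 160))))) (XT.nd (nat_lit 35958) (nat_lit 0) (nat_lit 25308) (XT.nd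 (nat_lit 78) (nat_lit 0) (nat_lit 0) (XT.lf (nat_lit 0) (nat_lit 6623019289) (nat_lit 76) (nat_lit 13239517895) (nat_lit 152) (nat_lit 60083183362) (nat_lit 11) (nat_lit 5) (nat_lit 12) (nat_lit 5) (nat_lit 13) (nat_lit 4) (nat_lit 444) (nat_lit 297) (nat_lit 159)) (XT.nd (nat_lit 78) (nat_lit 0) (nat_lit 0) (XT.lf (nat_lit 0) (nat_lit 22673417787) (nat_lit 76) (nat_lit 5104042384) (nat_lit 152) (nat_lit 54316091322) (nat_lit 11) (nat_lit 5) (nat_lit 12) (nat_lit 5) (nat_lit 13) (nat_lit 4) (nat_lit 445) (nat_lit 297) (nat_lit 158)) (XT.lf (nat_lit 0) (nat_lit 35953420905) (nat_lit 152) (nat_lit 45147035259) (nat_lit 0) (nat_lit 3204654461) (nat_lit 11) (nat_lit 5) (nat_lit 13) (nat_lit 4) (nat_lit 11) (nat_lit 4) (nat_lit 446) (nat_lit 297) (nat_lit 157)))) (XT.nd (nat_lit 156) (nat_lit 304) (nat_lit 0) (XT.nd (nat_lit 78) (nat_lit 228) (nat_lit 0) (XT.lf (nat_lit 0) (nat_lit 3194022129) (nat_lit 76)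 (nat_lit 17959398) (nat_lit 76) (nat_lit 17959398) (nat_lit 351) (nat_lit 4) (nat_lit 352) (nat_lit 5) (nat_lit 352) (nat_lit 4) (nat_lit 304) (nat_lit 298) (nat_lit 298)) (XT.lf (nat_lit 0) (nat_lit 3016689153) (nat_lit 228) (nat_lit 3163711938) (nat_lit 0) (nat_lit 289186847) (nat_lit 348) (nat_lit 5) (nat_lit 351) (nat_lit 4) (nat_lit 348) (nat_lit 4) (nat_lit 305) (nat_lit 298) (nat_lit 297))) (XT.nd (nat_lit 78) (nat_lit 76) (nat_lit 0) (XT.lf (nat_lit 0) (nat_lit 241954256) (nat_lit 228) (nat_lit 5808319274) (nat_lit 228) (nat_lit 432756476) (nat_lit 345) (nat_lit 4) (nat_lit 348) (nat_lit 5) (nat_lit 348) (nat_lit 4) (nat_lit 306) (nat_lit 298) (nat_lit 296)) (XT.lf (nat_lit 0) (nat_lit 2546099788) (nat_lit 304) (nat_lit 2777912743) (nat_lit 76) (nat_lit 1174629458) (nat_lit 344) (nat_lit 5) (nat_lit 348) (nat_lit 5) (nat_lit 345) (nat_lit 4) (nat_lit 307) (nat_lit 298) (nat_lit 295)))))) (XT.nd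 (nat_lit 468) (nat_lit 3572) (nat_lit 0) (XT.nd (nat_lit 234) (nat_lit 608) (nat_lit 0) (XT.nd (nat_lit 78) (nat_lit 456) (nat_lit 0) (XT.lf (nat_lit 0) (nat_lit 730592196) (nat_lit 304) (nat_lit 4773416914) (nat_lit 380) (nat_lit 1013778687) (nat_lit 340) (nat_lit 5) (nat_lit 344) (nat_lit 5) (nat_lit 345) (nat_lit 4) (nat_lit 308) (nat_lit 298) (nat_lit 294)) (XT.nd (nat_lit 78) (nat_lit 380) (nat_lit 0) (XT.lf (nat_lit 0) (nat_lit 1894878262) (nat_lit 380) (nat_lit 2225124914) (nat_lit 76) (nat_lit 2419431040) (nat_lit 339) (nat_lit 5) (nat_lit 344) (nat_lit 5) (nat_lit 340) (nat_lit 5) (nat_lit 309) (nat_lit 298) (nat_lit 293)) (XT.lf (nat_lit 0) (nat_lit 1392866928) (nat_lit 380) (nat_lit 3386751896) (nat_lit 456) (nat_lit 1784667302) (nat_lit 334) (nat_lit 5) (nat_lit 339) (nat_lit 5) (nat_lit 340) (nat_lit 5) (nat_lit 310) (nat_lit 298) (nat_lit 292)))) (XT.nd (nat_lit 78) (nat_lit 532) (nat_lit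 0) (XT.lf (nat_lit 0) (nat_lit 1058116832) (nat_lit 456) (nat_lit 1505171133) (nat_lit 76) (nat_lit 4028793752) (nat_lit 333) (nat_lit 5) (nat_lit 339) (nat_lit 5) (nat_lit 334) (nat_lit 5) (nat_lit 311) (nat_lit 298) (nat_lit 291)) (XT.nd (nat_lit 78) (nat_lit 76) (nat_lit 0) (XT.lf (nat_lit 0) (nat_lit 2229333481) (nat_lit 456) (nat_lit 1642471456) (nat_lit 532) (nat_lit 2750853335) (nat_lit 327) (nat_lit 5) (nat_lit 333) (nat_lit 5) (nat_lit 334) (nat_lit 5) (nat_lit 312) (nat_lit 298) (nat_lit 290)) (XT.lf (nat_lit 0) (nat_lit 30088035) (nat_lit 532) (nat_lit 617212725) (nat_lit 76) (nat_lit 6009435040) (nat_lit 326) (nat_lit 5) (nat_lit 333) (nat_lit 5) (nat_lit 327) (nat_lit 5) (nat_lit 313) (nat_lit 298) (nat_lit 289))))) (XT.nd (nat_lit 234) (nat_lit 2356) (nat_lit 0) (XT.nd (nat_lit 78) (nat_lit 684) (nat_lit 0) (XT.lf (nat_lit 0) (nat_lit 2778933551) (nat_lit 608) (nat_lit 3456336288) (nat_lit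 76) (nat_lit 457667337) (nat_lit 319) (nat_lit 5) (nat_lit 327) (nat_lit 5) (nat_lit 320) (nat_lit 5) (nat_lit 314) (nat_lit 298) (nat_lit 288)) (XT.nd (nat_lit 78) (nat_lit 76) (nat_lit 0) (XT.lf (nat_lit 0) (nat_lit 420887043) (nat_lit 608) (nat_lit 5112646829) (nat_lit 684) (nat_lit 1199100356) (nat_lit 311) (nat_lit 5) (nat_lit 319) (nat_lit 5) (nat_lit 320) (nat_lit 5) (nat_lit 315) (nat_lit 298) (nat_lit 287)) (XT.lf (nat_lit 0) (nat_lit 1508922604) (nat_lit 684) (nat_lit 2373654578) (nat_lit 76) (nat_lit 2892301273) (nat_lit 310) (nat_lit 5) (nat_lit 319) (nat_lit 5) (nat_lit 311) (nat_lit 5) (nat_lit 316) (nat_lit 298) (nat_lit 286)))) (XT.nd (nat_lit 156) (nat_lit 1596) (nat_lit 0) (XT.nd (nat_lit 78) (nat_lit 76) (nat_lit 0) (XT.lf (nat_lit 0) (nat_lit 1633893890) (nat_lit 684) (nat_lit 2566181998) (nat_lit 760) (nat_lit 2620277369) (nat_lit 301) (nat_lit 5) (nat_lit 310) (nat_lit 5) (nat_lit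 311) (nat_lit 5) (nat_lit 317) (nat_lit 298) (nat_lit 285)) (XT.lf (nat_lit 0) (nat_lit 38213901) (nat_lit 760) (nat_lit 1127274679) (nat_lit 76) (nat_lit 5703702335) (nat_lit 300) (nat_lit 5) (nat_lit 310) (nat_lit 5) (nat_lit 301) (nat_lit 5) (nat_lit 318) (nat_lit 298) (nat_lit 284))) (XT.nd (nat_lit 78) (nat_lit 836) (nat_lit 0) (XT.lf (nat_lit 0) (nat_lit 2670062727) (nat_lit 836) (nat_lit 3905102529) (nat_lit 76) (nat_lit 345252829) (nat_lit 290) (nat_lit 5) (nat_lit 301) (nat_lit 5) (nat_lit 291) (nat_lit 5) (nat_lit 319) (nat_lit 298) (nat_lit 283)) (XT.lf (nat_lit 0) (nat_lit 255827550) (nat_lit 836) (nat_lit 5066425772) (nat_lit 912) (nat_lit 1652775230) (nat_lit 279) (nat_lit 5) (nat_lit 290) (nat_lit 5) (nat_lit 291) (nat_lit 5) (nat_lit 320) (nat_lit 298) (nat_lit 282))))))) (XT.nd (nat_lit 1014) (nat_lit 4332) (nat_lit 0) (XT.nd (nat_lit 468) (nat_lit 4104) (nat_lit 0) (XT.nd (nat_lit 234)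 (nat_lit 2128) (nat_lit 0) (XT.nd (nat_lit 78) (nat_lit 912) (nat_lit 0) (XT.lf (nat_lit 0) (nat_lit 959375987) (nat_lit 912) (nat_lit 2489696308) (nat_lit 76) (nat_lit 3583295093) (nat_lit 278) (nat_lit 5) (nat_lit 290) (nat_lit 5) (nat_lit 279) (nat_lit 5) (nat_lit 321) (nat_lit 298) (nat_lit 281)) (XT.nd (nat_lit 78) (nat_lit 0) (nat_lit 0) (XT.lf (nat_lit 0) (nat_lit 1816834105) (nat_lit 912) (nat_lit 1736503556) (nat_lit 988) (nat_lit 3539578450) (nat_lit 266) (nat_lit 5) (nat_lit 278) (nat_lit 5) (nat_lit 279) (nat_lit 5) (nat_lit 322) (nat_lit 298) (nat_lit 280)) (XT.lf (nat_lit 0) (nat_lit 6171773707) (nat_lit 988) (nat_lit 922270762) (nat_lit 76) (nat_lit 62915412) (nat_lit 266) (nat_lit 5) (nat_lit 279) (nat_lit 5) (nat_lit 267) (nat_lit 5) (nat_lit 323) (nat_lit 298) (nat_lit 279)))) (XT.nd (nat_lit 78) (nat_lit 1064) (nat_lit 0) (XT.lf (nat_lit 0) (nat_lit 1587971577) (nat_lit 1064) (nat_lit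 3693951957) (nat_lit 76) (nat_lit 1941373067) (nat_lit 252) (nat_lit 5) (nat_lit 266) (nat_lit 5) (nat_lit 253) (nat_lit 5) (nat_lit 324) (nat_lit 298) (nat_lit 278)) (XT.nd (nat_lit 78) (nat_lit 0) (nat_lit 0) (XT.lf (nat_lit 0) (nat_lit 777726361) (nat_lit 1064) (nat_lit 3381743741) (nat_lit 1140) (nat_lit 3133703882) (nat_lit 238) (nat_lit 5) (nat_lit 252) (nat_lit 5) (nat_lit 253) (nat_lit 5) (nat_lit 325) (nat_lit 298) (nat_lit 277)) (XT.lf (nat_lit 0) (nat_lit 5390287010) (nat_lit 1064) (nat_lit 1380742726) (nat_lit 1140) (nat_lit 595299992) (nat_lit 238) (nat_lit 5) (nat_lit 252) (nat_lit 5) (nat_lit 253) (nat_lit 5) (nat_lit 326) (nat_lit 298) (nat_lit 276))))) (XT.nd (nat_lit 234) (nat_lit 1900) (nat_lit 0) (XT.nd (nat_lit 78) (nat_lit 988) (nat_lit 0) (XT.lf (nat_lit 0) (nat_lit 1939485446) (nat_lit 1216) (nat_lit 4786002253) (nat_lit 76) (nat_lit 716886698) (nat_lit 222) (nat_lit 5) (nat_lit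 238) (nat_lit 5) (nat_lit 223) (nat_lit 5) (nat_lit 327) (nat_lit 298) (nat_lit 275)) (XT.nd (nat_lit 78) (nat_lit 988) (nat_lit 0) (XT.lf (nat_lit 0) (nat_lit 4500681546) (nat_lit 1216) (nat_lit 141670485) (nat_lit 76) (nat_lit 2879365217) (nat_lit 222) (nat_lit 5) (nat_lit 238) (nat_lit 5) (nat_lit 223) (nat_lit 5) (nat_lit 328) (nat_lit 298) (nat_lit 274)) (XT.lf (nat_lit 0) (nat_lit 4664990197) (nat_lit 988) (nat_lit 2449157909) (nat_lit 1064) (nat_lit 490091013) (nat_lit 209) (nat_lit 5) (nat_lit 222) (nat_lit 5) (nat_lit 223) (nat_lit 5) (nat_lit 329) (nat_lit 298) (nat_lit 273)))) (XT.nd (nat_lit 156) (nat_lit 1216) (nat_lit 0) (XT.nd (nat_lit 78) (nat_lit 0) (nat_lit 0) (XT.lf (nat_lit 0) (nat_lit 1877035193) (nat_lit 608) (nat_lit 149162228) (nat_lit 684) (nat_lit 5663965372) (nat_lit 200) (nat_lit 5) (nat_lit 208) (nat_lit 5) (nat_lit 209) (nat_lit 5) (nat_lit 330) (nat_lit 298) (nat_lit 272))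 (XT.lf (nat_lit 0) (nat_lit 4592011963) (nat_lit 684) (nat_lit 976388427) (nat_lit 76) (nat_lit 2210658112) (nat_lit 200) (nat_lit 5) (nat_lit 209) (nat_lit 5) (nat_lit 201) (nat_lit 5) (nat_lit 331) (nat_lit 298) (nat_lit 271))) (XT.nd (nat_lit 78) (nat_lit 684) (nat_lit 0) (XT.lf (nat_lit 0) (nat_lit 4014161603) (nat_lit 532) (nat_lit 3195241490) (nat_lit 608) (nat_lit 662034809) (nat_lit 193) (nat_lit 5) (nat_lit 200) (nat_lit 5) (nat_lit 201) (nat_lit 5) (nat_lit 332) (nat_lit 298) (nat_lit 270)) (XT.lf (nat_lit 0) (nat_lit 1142898132) (nat_lit 608) (nat_lit 714049862) (nat_lit 684) (nat_lit 6110451766) (nat_lit 184) (nat_lit 5) (nat_lit 192) (nat_lit 5) (nat_lit 193) (nat_lit 5) (nat_lit 333) (nat_lit 298) (nat_lit 269)))))) (XT.nd (nat_lit 546) (nat_lit 2204) (nat_lit 0) (XT.nd (nat_lit 234) (nat_lit 988) (nat_lit 0) (XT.nd (nat_lit 78) (nat_lit 1140) (nat_lit 0) (XT.lf (nat_lit 0) (nat_lit 4431533620)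 (nat_lit 684) (nat_lit 1787628958) (nat_lit 76) (nat_lit 1847131292) (nat_lit 184) (nat_lit 5) (nat_lit 193) (nat_lit 5) (nat_lit 185) (nat_lit 5) (nat_lit 334) (nat_lit 298) (nat_lit 268)) (XT.nd (nat_lit 78) (nat_lit 608) (nat_lit 0) (XT.lf (nat_lit 0) (nat_lit 3391437537) (nat_lit 532) (nat_lit 3669745601) (nat_lit 608) (nat_lit 1107685637) (nat_lit 177) (nat_lit 5) (nat_lit 184) (nat_lit 5) (nat_lit 185) (nat_lit 5) (nat_lit 335) (nat_lit 298) (nat_lit 267)) (XT.lf (nat_lit 0) (nat_lit 413435853) (nat_lit 532) (nat_lit 1013455540) (nat_lit 608) (nat_lit 6848418306) (nat_lit 169) (nat_lit 5) (nat_lit 176) (nat_lit 5) (nat_lit 177) (nat_lit 5) (nat_lit 336) (nat_lit 298) (nat_lit 266)))) (XT.nd (nat_lit 156) (nat_lit 532) (nat_lit 0) (XT.nd (nat_lit 78) (nat_lit 456) (nat_lit 0) (XT.lf (nat_lit 0) (nat_lit 4020242024) (nat_lit 608) (nat_lit 2623262820) (nat_lit 76) (nat_lit 1741004627) (nat_lit 169)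 (nat_lit 5) (nat_lit 177) (nat_lit 5) (nat_lit 170) (nat_lit 5) (nat_lit 337) (nat_lit 298) (nat_lit 265)) (XT.lf (nat_lit 0) (nat_lit 2748409436) (nat_lit 456) (nat_lit 3920914417) (nat_lit 532) (nat_lit 1828366789) (nat_lit 163) (nat_lit 5) (nat_lit 169) (nat_lit 5) (nat_lit 170) (nat_lit 5) (nat_lit 338) (nat_lit 298) (nat_lit 264))) (XT.nd (nat_lit 78) (nat_lit 456) (nat_lit 0) (XT.lf (nat_lit 0) (nat_lit 736999010) (nat_lit 532) (nat_lit 354488386) (nat_lit 76) (nat_lit 7523534337) (nat_lit 162) (nat_lit 5) (nat_lit 169) (nat_lit 5) (nat_lit 163) (nat_lit 5) (nat_lit 339) (nat_lit 298) (nat_lit 263)) (XT.lf (nat_lit 0) (nat_lit 3354473866) (nat_lit 532) (nat_lit 3533998911) (nat_lit 76) (nat_lit 1846539657) (nat_lit 156) (nat_lit 5) (nat_lit 163) (nat_lit 5) (nat_lit 157) (nat_lit 5) (nat_lit 340) (nat_lit 298) (nat_lit 262))))) (XT.nd (nat_lit 234) (nat_lit 1216) (nat_lit 0) (XT.nd (nat_lit 78) (nat_lit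 532) (nat_lit 0) (XT.lf (nat_lit 0) (nat_lit 2033600394) (nat_lit 456) (nat_lit 3995374651) (nat_lit 532) (nat_lit 2830311242) (nat_lit 150) (nat_lit 5) (nat_lit 156) (nat_lit 5) (nat_lit 157) (nat_lit 5) (nat_lit 341) (nat_lit 298) (nat_lit 261)) (XT.nd (nat_lit 78) (nat_lit 532) (nat_lit 0) (XT.lf (nat_lit 0) (nat_lit 7774138021) (nat_lit 456) (nat_lit 990767697) (nat_lit 532) (nat_lit 222984176) (nat_lit 150) (nat_lit 5) (nat_lit 156) (nat_lit 5) (nat_lit 157) (nat_lit 5) (nat_lit 342) (nat_lit 298) (nat_lit 260)) (XT.lf (nat_lit 0) (nat_lit 2425714970) (nat_lit 532) (nat_lit 4574461455) (nat_lit 76) (nat_lit 2119164092) (nat_lit 143) (nat_lit 5) (nat_lit 150) (nat_lit 5) (nat_lit 144) (nat_lit 5) (nat_lit 343) (nat_lit 298) (nat_lit 259)))) (XT.nd (nat_lit 156) (nat_lit 836) (nat_lit 0) (XT.nd (nat_lit 78) (nat_lit 0) (nat_lit 0) (XT.lf (nat_lit 0) (nat_lit 1191351186) (nat_lit 380) (nat_lit 3939028917)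 (nat_lit 456) (nat_lit 4124892919) (nat_lit 138) (nat_lit 5) (nat_lit 143) (nat_lit 5) (nat_lit 144) (nat_lit 5) (nat_lit 344) (nat_lit 298) (nat_lit 258)) (XT.lf (nat_lit 0) (nat_lit 7158022182) (nat_lit 380) (nat_lit 752603646) (nat_lit 456) (nat_lit 1484857660) (nat_lit 138) (nat_lit 5) (nat_lit 143) (nat_lit 5) (nat_lit 144) (nat_lit 5) (nat_lit 345) (nat_lit 298) (nat_lit 257))) (XT.nd (nat_lit 78) (nat_lit 380) (nat_lit 0) (XT.lf (nat_lit 0) (nat_lit 1220316332) (nat_lit 456) (nat_lit 5804373664) (nat_lit 76) (nat_lit 2514584860) (nat_lit 132) (nat_lit 5) (nat_lit 138) (nat_lit 5) (nat_lit 133) (nat_lit 5) (nat_lit 346) (nat_lit 298) (nat_lit 256)) (XT.lf (nat_lit 0) (nat_lit 160592950) (nat_lit 380) (nat_lit 3797968226) (nat_lit 456) (nat_lit 5728955333) (nat_lit 127) (nat_lit 5) (nat_lit 132) (nat_lit 5) (nat_lit 133) (nat_lit 5) (nat_lit 347) (nat_lit 298) (nat_lit 255))))))))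
noncomputable def xc100 : XT := (XT.nd (nat_lit 2028) (nat_lit 2356) (nat_lit 0) (XT.nd (nat_lit 1014) (nat_lit 2204) (nat_lit 0) (XT.nd (nat_lit 468) (nat_lit 1292) (nat_lit 0) (XT.nd (nat_lit 234) (nat_lit 760) (nat_lit 0) (XT.nd (nat_lit 78) (nat_lit 456) (nat_lit 0) (XT.lf (nat_lit 0) (nat_lit 6358375063) (nat_lit 380) (nat_lit 429969892) (nat_lit 456) (nat_lit 3051608213) (nat_lit 127) (nat_lit 5) (nat_lit 132) (nat_lit 5) (nat_lit 133) (nat_lit 5) (nat_lit 348) (nat_lit 298) (nat_lit 254)) (XT.nd (nat_lit 78) (nat_lit 76) (nat_lit 0) (XT.lf (nat_lit 0) (nat_lit 2704147218) (nat_lit 380) (nat_lit 7006146401) (nat_lit 456) (nat_lit 286479810) (nat_lit 122) (nat_lit 5) (nat_lit 127) (nat_lit 5) (nat_lit 128) (nat_lit 5) (nat_lit 349) (nat_lit 298) (nat_lit 253)) (XT.lf (nat_lit 0) (nat_lit 2503730543) (nat_lit 456) (nat_lit 1104536609) (nat_lit 76) (nat_lit 6549556008) (nat_lit 121) (nat_lit 5) (nat_lit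 127) (nat_lit 5) (nat_lit 122) (nat_lit 5) (nat_lit 350) (nat_lit 298) (nat_lit 252)))) (XT.nd (nat_lit 78) (nat_lit 456) (nat_lit 0) (XT.lf (nat_lit 0) (nat_lit 5306928817) (nat_lit 304) (nat_lit 69713543) (nat_lit 380) (nat_lit 4946860548) (nat_lit 117) (nat_lit 5) (nat_lit 121) (nat_lit 5) (nat_lit 122) (nat_lit 5) (nat_lit 351) (nat_lit 298) (nat_lit 251)) (XT.nd (nat_lit 78) (nat_lit 76) (nat_lit 0) (XT.lf (nat_lit 0) (nat_lit 1368185446) (nat_lit 380) (nat_lit 6980662532) (nat_lit 456) (nat_lit 2144937327) (nat_lit 112) (nat_lit 5) (nat_lit 117) (nat_lit 5) (nat_lit 118) (nat_lit 5) (nat_lit 352) (nat_lit 298) (nat_lit 250)) (XT.lf (nat_lit 0) (nat_lit 733013681) (nat_lit 456) (nat_lit 2692552353) (nat_lit 76) (nat_lit 7243227512) (nat_lit 111) (nat_lit 5) (nat_lit 117) (nat_lit 5) (nat_lit 112) (nat_lit 5) (nat_lit 353) (nat_lit 298) (nat_lit 249))))) (XT.nd (nat_lit 234) (nat_lit 684) (nat_lit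 0) (XT.nd (nat_lit 78) (nat_lit 304) (nat_lit 0) (XT.lf (nat_lit 0) (nat_lit 3650525110) (nat_lit 380) (nat_lit 6924476362) (nat_lit 76) (nat_lit 273546751) (nat_lit 107) (nat_lit 5) (nat_lit 112) (nat_lit 5) (nat_lit 108) (nat_lit 5) (nat_lit 354) (nat_lit 298) (nat_lit 248)) (XT.nd (nat_lit 78) (nat_lit 304) (nat_lit 0) (XT.lf (nat_lit 0) (nat_lit 6673361602) (nat_lit 380) (nat_lit 335261260) (nat_lit 76) (nat_lit 4024561297) (nat_lit 107) (nat_lit 5) (nat_lit 112) (nat_lit 5) (nat_lit 108) (nat_lit 5) (nat_lit 355) (nat_lit 298) (nat_lit 247)) (XT.lf (nat_lit 0) (nat_lit 6518058773) (nat_lit 304) (nat_lit 3289173693) (nat_lit 380) (nat_lit 1415538183) (nat_lit 103) (nat_lit 5) (nat_lit 107) (nat_lit 5) (nat_lit 108) (nat_lit 5) (nat_lit 356) (nat_lit 298) (nat_lit 246)))) (XT.nd (nat_lit 156) (nat_lit 304) (nat_lit 0) (XT.nd (nat_lit 78) (nat_lit 0) (nat_lit 0) (XT.lf (nat_lit 0) (nat_lit 1572753616)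 (nat_lit 380) (nat_lit 9292675477) (nat_lit 76) (nat_lit 552552988) (nat_lit 98) (nat_lit 5) (nat_lit 103) (nat_lit 5) (nat_lit 99) (nat_lit 5) (nat_lit 357) (nat_lit 298) (nat_lit 245)) (XT.lf (nat_lit 0) (nat_lit 4661164789) (nat_lit 380) (nat_lit 2469516091) (nat_lit 76) (nat_lit 4486800963) (nat_lit 98) (nat_lit 5) (nat_lit 103) (nat_lit 5) (nat_lit 99) (nat_lit 5) (nat_lit 358) (nat_lit 298) (nat_lit 244))) (XT.nd (nat_lit 78) (nat_lit 0) (nat_lit 0) (XT.lf (nat_lit 0) (nat_lit 4588153533) (nat_lit 304) (nat_lit 3257767942) (nat_lit 380) (nat_lit 3976953830) (nat_lit 94) (nat_lit 5) (nat_lit 98) (nat_lit 5) (nat_lit 99) (nat_lit 5) (nat_lit 359) (nat_lit 298) (nat_lit 243)) (XT.lf (nat_lit 0) (nat_lit 11118446920) (nat_lit 380) (nat_lit 192941174) (nat_lit 76) (nat_lit 723294634) (nat_lit 94) (nat_lit 5) (nat_lit 99) (nat_lit 5) (nat_lit 95) (nat_lit 5) (nat_lit 360) (nat_lit 298) (nat_lit 242))))))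 (XT.nd (nat_lit 468) (nat_lit 1064) (nat_lit 0) (XT.nd (nat_lit 234) (nat_lit 532) (nat_lit 0) (XT.nd (nat_lit 78) (nat_lit 304) (nat_lit 0) (XT.lf (nat_lit 0) (nat_lit 2255018330) (nat_lit 304) (nat_lit 5164980457) (nat_lit 76) (nat_lit 4830347947) (nat_lit 90) (nat_lit 5) (nat_lit 94) (nat_lit 5) (nat_lit 91) (nat_lit 5) (nat_lit 361) (nat_lit 298) (nat_lit 241)) (XT.nd (nat_lit 78) (nat_lit 0) (nat_lit 0) (XT.lf (nat_lit 0) (nat_lit 2086561879) (nat_lit 304) (nat_lit 3399812932) (nat_lit 380) (nat_lit 6986349623) (nat_lit 86) (nat_lit 5) (nat_lit 90) (nat_lit 5) (nat_lit 91) (nat_lit 5) (nat_lit 362) (nat_lit 298) (nat_lit 240)) (XT.lf (nat_lit 0) (nat_lit 8836198200) (nat_lit 380) (nat_lit 3105332269) (nat_lit 76) (nat_lit 759614036) (nat_lit 86) (nat_lit 5) (nat_lit 91) (nat_lit 5) (nat_lit 87) (nat_lit 5) (nat_lit 363) (nat_lit 298) (nat_lit 239)))) (XT.nd (nat_lit 78) (nat_lit 304) (nat_lit 0) (XT.lf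 (nat_lit 0) (nat_lit 4388605837) (nat_lit 228) (nat_lit 7936603463) (nat_lit 304) (nat_lit 610063423) (nat_lit 83) (nat_lit 5) (nat_lit 86) (nat_lit 5) (nat_lit 87) (nat_lit 5) (nat_lit 364) (nat_lit 298) (nat_lit 238)) (XT.nd (nat_lit 78) (nat_lit 228) (nat_lit 0) (XT.lf (nat_lit 0) (nat_lit 2683623063) (nat_lit 304) (nat_lit 1088621500) (nat_lit 76) (nat_lit 9403564578) (nat_lit 82) (nat_lit 5) (nat_lit 86) (nat_lit 5) (nat_lit 83) (nat_lit 5) (nat_lit 365) (nat_lit 298) (nat_lit 237)) (XT.lf (nat_lit 0) (nat_lit 6097445538) (nat_lit 304) (nat_lit 6766722498) (nat_lit 76) (nat_lit 558219745) (nat_lit 79) (nat_lit 5) (nat_lit 83) (nat_lit 5) (nat_lit 80) (nat_lit 5) (nat_lit 366) (nat_lit 298) (nat_lit 236))))) (XT.nd (nat_lit 234) (nat_lit 532) (nat_lit 0) (XT.nd (nat_lit 78) (nat_lit 304) (nat_lit 0) (XT.lf (nat_lit 0) (nat_lit 902569560) (nat_lit 228) (nat_lit 8732645790) (nat_lit 304) (nat_lit 4040516965)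 (nat_lit 76) (nat_lit 5) (nat_lit 79) (nat_lit 5) (nat_lit 80) (nat_lit 5) (nat_lit 367) (nat_lit 298) (nat_lit 235)) (XT.nd (nat_lit 78) (nat_lit 304) (nat_lit 0) (XT.lf (nat_lit 0) (nat_lit 8885054643) (nat_lit 228) (nat_lit 4427302403) (nat_lit 304) (nat_lit 623337063) (nat_lit 76) (nat_lit 5) (nat_lit 79) (nat_lit 5) (nat_lit 80) (nat_lit 5) (nat_lit 368) (nat_lit 298) (nat_lit 234)) (XT.lf (nat_lit 0) (nat_lit 2833500655) (nat_lit 304) (nat_lit 11326073383) (nat_lit 76) (nat_lit 43248933) (nat_lit 72) (nat_lit 5) (nat_lit 76) (nat_lit 5) (nat_lit 73) (nat_lit 5) (nat_lit 369) (nat_lit 298) (nat_lit 233)))) (XT.nd (nat_lit 156) (nat_lit 304) (nat_lit 0) (XT.nd (nat_lit 78) (nat_lit 228) (nat_lit 0) (XT.lf (nat_lit 0) (nat_lit 6442723686) (nat_lit 304) (nat_lit 3436430196) (nat_lit 76) (nat_lit 4596803300) (nat_lit 72) (nat_lit 5) (nat_lit 76) (nat_lit 5) (nat_lit 73) (nat_lit 5) (nat_lit 370) (nat_lit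 298) (nat_lit 232)) (XT.lf (nat_lit 0) (nat_lit 4728802802) (nat_lit 228) (nat_lit 5443738344) (nat_lit 304) (nat_lit 4584387261) (nat_lit 69) (nat_lit 5) (nat_lit 72) (nat_lit 5) (nat_lit 73) (nat_lit 5) (nat_lit 371) (nat_lit 298) (nat_lit 231))) (XT.nd (nat_lit 78) (nat_lit 304) (nat_lit 0) (XT.lf (nat_lit 0) (nat_lit 13156584073) (nat_lit 228) (nat_lit 859689007) (nat_lit 304) (nat_lit 1030007246) (nat_lit 69) (nat_lit 5) (nat_lit 72) (nat_lit 5) (nat_lit 73) (nat_lit 5) (nat_lit 372) (nat_lit 298) (nat_lit 230)) (XT.lf (nat_lit 0) (nat_lit 2648311635) (nat_lit 304) (nat_lit 8837128179) (nat_lit 76) (nat_lit 3856066286) (nat_lit 65) (nat_lit 5) (nat_lit 69) (nat_lit 5) (nat_lit 66) (nat_lit 5) (nat_lit 373) (nat_lit 298) (nat_lit 229))))))) (XT.nd (nat_lit 1014) (nat_lit 988) (nat_lit 0) (XT.nd (nat_lit 468) (nat_lit 760) (nat_lit 0) (XT.nd (nat_lit 234) (nat_lit 228) (nat_lit 0) (XT.nd (nat_lit 78)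 (nat_lit 380) (nat_lit 0) (XT.lf (nat_lit 0) (nat_lit 6412254156) (nat_lit 304) (nat_lit 527125423) (nat_lit 76) (nat_lit 8706034961) (nat_lit 65) (nat_lit 5) (nat_lit 69) (nat_lit 5) (nat_lit 66) (nat_lit 5) (nat_lit 374) (nat_lit 298) (nat_lit 228)) (XT.nd (nat_lit 78) (nat_lit 228) (nat_lit 0) (XT.lf (nat_lit 0) (nat_lit 8140323781) (nat_lit 152) (nat_lit 2196160619) (nat_lit 228) (nat_lit 5620545550) (nat_lit 63) (nat_lit 5) (nat_lit 65) (nat_lit 5) (nat_lit 66) (nat_lit 5) (nat_lit 375) (nat_lit 298) (nat_lit 227)) (XT.lf (nat_lit 0) (nat_lit 738332745) (nat_lit 228) (nat_lit 13647780234) (nat_lit 304) (nat_lit 1891661186) (nat_lit 60) (nat_lit 5) (nat_lit 63) (nat_lit 5) (nat_lit 64) (nat_lit 5) (nat_lit 376) (nat_lit 298) (nat_lit 226)))) (XT.nd (nat_lit 78) (nat_lit 152) (nat_lit 0) (XT.lf (nat_lit 0) (nat_lit 1981960323) (nat_lit 304) (nat_lit 6987833416) (nat_lit 76) (nat_lit 7635667642) (nat_lit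 59) (nat_lit 5) (nat_lit 63) (nat_lit 5) (nat_lit 60) (nat_lit 5) (nat_lit 377) (nat_lit 298) (nat_lit 225)) (XT.nd (nat_lit 78) (nat_lit 0) (nat_lit 0) (XT.lf (nat_lit 0) (nat_lit 1786892483) (nat_lit 152) (nat_lit 4134389411) (nat_lit 228) (nat_lit 11021519679) (nat_lit 57) (nat_lit 5) (nat_lit 59) (nat_lit 5) (nat_lit 60) (nat_lit 5) (nat_lit 378) (nat_lit 298) (nat_lit 224)) (XT.lf (nat_lit 0) (nat_lit 10028715177) (nat_lit 228) (nat_lit 6378653643) (nat_lit 76) (nat_lit 881404502) (nat_lit 57) (nat_lit 5) (nat_lit 60) (nat_lit 5) (nat_lit 58) (nat_lit 5) (nat_lit 379) (nat_lit 298) (nat_lit 223))))) (XT.nd (nat_lit 234) (nat_lit 380) (nat_lit 0) (XT.nd (nat_lit 78) (nat_lit 228) (nat_lit 0) (XT.lf (nat_lit 0) (nat_lit 2623854891) (nat_lit 152) (nat_lit 11673068352) (nat_lit 228) (nat_lit 3347083474) (nat_lit 55) (nat_lit 5) (nat_lit 57) (nat_lit 5) (nat_lit 58) (nat_lit 5) (nat_lit 380) (nat_lit 298)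 (nat_lit 222)) (XT.nd (nat_lit 78) (nat_lit 152) (nat_lit 0) (XT.lf (nat_lit 0) (nat_lit 706476937) (nat_lit 228) (nat_lit 6036408958) (nat_lit 76) (nat_lit 11265726805) (nat_lit 54) (nat_lit 5) (nat_lit 57) (nat_lit 5) (nat_lit 55) (nat_lit 5) (nat_lit 381) (nat_lit 298) (nat_lit 221)) (XT.lf (nat_lit 0) (nat_lit 3199110416) (nat_lit 152) (nat_lit 1618323288) (nat_lit 228) (nat_lit 13565645375) (nat_lit 52) (nat_lit 5) (nat_lit 54) (nat_lit 5) (nat_lit 55) (nat_lit 5) (nat_lit 382) (nat_lit 298) (nat_lit 220)))) (XT.nd (nat_lit 156) (nat_lit 228) (nat_lit 0) (XT.nd (nat_lit 78) (nat_lit 152) (nat_lit 0) (XT.lf (nat_lit 0) (nat_lit 9120945367) (nat_lit 228) (nat_lit 6014504971) (nat_lit 76) (nat_lit 3631260361) (nat_lit 52) (nat_lit 5) (nat_lit 55) (nat_lit 5) (nat_lit 53) (nat_lit 5) (nat_lit 383) (nat_lit 298) (nat_lit 219)) (XT.lf (nat_lit 0) (nat_lit 3435223521) (nat_lit 152) (nat_lit 10140669586)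 (nat_lit 228) (nat_lit 5585296040) (nat_lit 50) (nat_lit 5) (nat_lit 52) (nat_lit 5) (nat_lit 53) (nat_lit 5) (nat_lit 384) (nat_lit 298) (nat_lit 218))) (XT.nd (nat_lit 78) (nat_lit 228) (nat_lit 0) (XT.lf (nat_lit 0) (nat_lit 13246354942) (nat_lit 152) (nat_lit 4952497146) (nat_lit 228) (nat_lit 1367626551) (nat_lit 50) (nat_lit 5) (nat_lit 52) (nat_lit 5) (nat_lit 53) (nat_lit 5) (nat_lit 385) (nat_lit 298) (nat_lit 217)) (XT.lf (nat_lit 0) (nat_lit 2929110654) (nat_lit 228) (nat_lit 16626795959) (nat_lit 76) (nat_lit 426850323) (nat_lit 47) (nat_lit 5) (nat_lit 50) (nat_lit 5) (nat_lit 48) (nat_lit 5) (nat_lit 386) (nat_lit 298) (nat_lit 216)))))) (XT.nd (nat_lit 546) (nat_lit 456) (nat_lit 0) (XT.nd (nat_lit 234) (nat_lit 380) (nat_lit 0) (XT.nd (nat_lit 78) (nat_lit 152) (nat_lit 0) (XT.lf (nat_lit 0) (nat_lit 7415035041) (nat_lit 228) (nat_lit 7065669374) (nat_lit 76) (nat_lit 5927786684) (nat_lit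 47) (nat_lit 5) (nat_lit 50) (nat_lit 5) (nat_lit 48) (nat_lit 5) (nat_lit 387) (nat_lit 298) (nat_lit 215)) (XT.nd (nat_lit 78) (nat_lit 0) (nat_lit 0) (XT.lf (nat_lit 0) (nat_lit 2793365080) (nat_lit 152) (nat_lit 9244058208) (nat_lit 228) (nat_lit 8809524146) (nat_lit 45) (nat_lit 5) (nat_lit 47) (nat_lit 5) (nat_lit 48) (nat_lit 5) (nat_lit 388) (nat_lit 298) (nat_lit 214)) (XT.lf (nat_lit 0) (nat_lit 13050001151) (nat_lit 152) (nat_lit 3795179754) (nat_lit 228) (nat_lit 4451982155) (nat_lit 45) (nat_lit 5) (nat_lit 47) (nat_lit 5) (nat_lit 48) (nat_lit 5) (nat_lit 389) (nat_lit 298) (nat_lit 213)))) (XT.nd (nat_lit 156) (nat_lit 152) (nat_lit 0) (XT.nd (nat_lit 78) (nat_lit 0) (nat_lit 0) (XT.lf (nat_lit 0) (nat_lit 46627949) (nat_lit 228) (nat_lit 19931648184) (nat_lit 76) (nat_lit 1782273218) (nat_lit 42) (nat_lit 5) (nat_lit 45) (nat_lit 5) (nat_lit 43) (nat_lit 5) (nat_lit 390) (nat_lit 298) (nat_lit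 212)) (XT.lf (nat_lit 0) (nat_lit 4688349323) (nat_lit 228) (nat_lit 9983892420) (nat_lit 76) (nat_lit 7561350094) (nat_lit 42) (nat_lit 5) (nat_lit 45) (nat_lit 5) (nat_lit 43) (nat_lit 5) (nat_lit 391) (nat_lit 298) (nat_lit 211))) (XT.nd (nat_lit 78) (nat_lit 0) (nat_lit 0) (XT.lf (nat_lit 0) (nat_lit 225552860) (nat_lit 152) (nat_lit 9222590683) (nat_lit 228) (nat_lit 13273323225) (nat_lit 40) (nat_lit 5) (nat_lit 42) (nat_lit 5) (nat_lit 43) (nat_lit 5) (nat_lit 392) (nat_lit 298) (nat_lit 210)) (XT.lf (nat_lit 0) (nat_lit 10905200378) (nat_lit 152) (nat_lit 3523290379) (nat_lit 228) (nat_lit 8793160049) (nat_lit 40) (nat_lit 5) (nat_lit 42) (nat_lit 5) (nat_lit 43) (nat_lit 5) (nat_lit 393) (nat_lit 298) (nat_lit 209))))) (XT.nd (nat_lit 234) (nat_lit 304) (nat_lit 0) (XT.nd (nat_lit 78) (nat_lit 152) (nat_lit 0) (XT.lf (nat_lit 0) (nat_lit 19558257096) (nat_lit 228) (nat_lit 1894230287) (nat_lit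 76) (nat_lit 2284358194) (nat_lit 40) (nat_lit 5) (nat_lit 43) (nat_lit 5) (nat_lit 41) (nat_lit 4) (nat_lit 394) (nat_lit 298) (nat_lit 208)) (XT.nd (nat_lit 78) (nat_lit 0) (nat_lit 0) (XT.lf (nat_lit 0) (nat_lit 663124274) (nat_lit 152) (nat_lit 15329683768) (nat_lit 76) (nat_lit 8271530264) (nat_lit 38) (nat_lit 5) (nat_lit 40) (nat_lit 5) (nat_lit 39) (nat_lit 5) (nat_lit 395) (nat_lit 298) (nat_lit 207)) (XT.lf (nat_lit 0) (nat_lit 5563573457) (nat_lit 152) (nat_lit 4760365751) (nat_lit 76) (nat_lit 14482556337) (nat_lit 38) (nat_lit 5) (nat_lit 40) (nat_lit 5) (nat_lit 39) (nat_lit 5) (nat_lit 396) (nat_lit 298) (nat_lit 206)))) (XT.nd (nat_lit 156) (nat_lit 152) (nat_lit 0) (XT.nd (nat_lit 78) (nat_lit 0) (nat_lit 0) (XT.lf (nat_lit 0) (nat_lit 6209375796) (nat_lit 152) (nat_lit 4440138092) (nat_lit 228) (nat_lit 14714254140) (nat_lit 36) (nat_lit 5) (nat_lit 38) (nat_lit 5) (nat_lit 39) (nat_lit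 5) (nat_lit 397) (nat_lit 298) (nat_lit 205)) (XT.lf (nat_lit 0) (nat_lit 15931041587) (nat_lit 228) (nat_lit 8384501411) (nat_lit 76) (nat_lit 1620930137) (nat_lit 36) (nat_lit 5) (nat_lit 39) (nat_lit 5) (nat_lit 37) (nat_lit 4) (nat_lit 398) (nat_lit 298) (nat_lit 204))) (XT.nd (nat_lit 78) (nat_lit 76) (nat_lit 0) (XT.lf (nat_lit 0) (nat_lit 2679998287) (nat_lit 76) (nat_lit 18740243886) (nat_lit 152) (nat_lit 5104644993) (nat_lit 35) (nat_lit 5) (nat_lit 36) (nat_lit 5) (nat_lit 37) (nat_lit 4) (nat_lit 399) (nat_lit 298) (nat_lit 203)) (XT.lf (nat_lit 0) (nat_lit 9324671) (nat_lit 152) (nat_lit 12917271438) (nat_lit 76) (nat_lit 14202426704) (nat_lit 34) (nat_lit 5) (nat_lit 36) (nat_lit 5) (nat_lit 35) (nat_lit 5) (nat_lit 400) (nat_lit 298) (nat_lit 202))))))))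
noncomputable def xc101 : XT := (XT.nd (nat_lit 2028) (nat_lit 532) (nat_lit 0) (XT.nd (nat_lit 1014) (nat_lit 456) (nat_lit 0) (XT.nd (nat_lit 468) (nat_lit 456) (nat_lit 0) (XT.nd (nat_lit 234) (nat_lit 152) (nat_lit 0) (XT.nd (nat_lit 78) (nat_lit 152) (nat_lit 0) (XT.lf (nat_lit 0) (nat_lit 5154256036) (nat_lit 152) (nat_lit 1748165455) (nat_lit 76) (nat_lit 20847944774) (nat_lit 34) (nat_lit 5) (nat_lit 36) (nat_lit 5) (nat_lit 35) (nat_lit 5) (nat_lit 401) (nat_lit 298) (nat_lit 201)) (XT.nd (nat_lit 78) (nat_lit 0) (nat_lit 0) (XT.lf (nat_lit 0) (nat_lit 9914729537) (nat_lit 152) (nat_lit 614831590) (nat_lit 228) (nat_lit 17858512191) (nat_lit 32) (nat_lit 5) (nat_lit 34) (nat_lit 5) (nat_lit 35) (nat_lit 5) (nat_lit 402) (nat_lit 298) (nat_lit 200)) (XT.lf (nat_lit 0) (nat_lit 16121098814) (nat_lit 228) (nat_lit 7172396199) (nat_lit 76) (nat_lit 5749771321) (nat_lit 32) (nat_lit 5) (nat_lit 35)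 (nat_lit 5) (nat_lit 33) (nat_lit 4) (nat_lit 403) (nat_lit 298) (nat_lit 199)))) (XT.nd (nat_lit 78) (nat_lit 76) (nat_lit 0) (XT.lf (nat_lit 0) (nat_lit 4515783163) (nat_lit 76) (nat_lit 17395456918) (nat_lit 152) (nat_lit 7805953172) (nat_lit 31) (nat_lit 5) (nat_lit 32) (nat_lit 5) (nat_lit 33) (nat_lit 4) (nat_lit 404) (nat_lit 298) (nat_lit 198)) (XT.nd (nat_lit 78) (nat_lit 76) (nat_lit 0) (XT.lf (nat_lit 0) (nat_lit 16668138246) (nat_lit 76) (nat_lit 11260956897) (nat_lit 152) (nat_lit 2480626277) (nat_lit 31) (nat_lit 5) (nat_lit 32) (nat_lit 5) (nat_lit 33) (nat_lit 4) (nat_lit 405) (nat_lit 298) (nat_lit 197)) (XT.lf (nat_lit 0) (nat_lit 2927770843) (nat_lit 152) (nat_lit 1999726254) (nat_lit 76) (nat_lit 26195207277) (nat_lit 30) (nat_lit 5) (nat_lit 32) (nat_lit 5) (nat_lit 31) (nat_lit 5) (nat_lit 406) (nat_lit 298) (nat_lit 196))))) (XT.nd (nat_lit 234) (nat_lit 228) (nat_lit 0) (XT.nd (nat_lit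 78) (nat_lit 76) (nat_lit 0) (XT.lf (nat_lit 0) (nat_lit 8545857471) (nat_lit 228) (nat_lit 21632664475) (nat_lit 76) (nat_lit 1674902589) (nat_lit 28) (nat_lit 5) (nat_lit 31) (nat_lit 5) (nat_lit 29) (nat_lit 4) (nat_lit 407) (nat_lit 298) (nat_lit 195)) (XT.nd (nat_lit 78) (nat_lit 76) (nat_lit 0) (XT.lf (nat_lit 0) (nat_lit 14384200929) (nat_lit 228) (nat_lit 9837593307) (nat_lit 76) (nat_lit 8382723949) (nat_lit 28) (nat_lit 5) (nat_lit 31) (nat_lit 5) (nat_lit 29) (nat_lit 4) (nat_lit 408) (nat_lit 298) (nat_lit 194)) (XT.lf (nat_lit 0) (nat_lit 2325644546) (nat_lit 76) (nat_lit 18077448267) (nat_lit 152) (nat_lit 12974893102) (nat_lit 27) (nat_lit 5) (nat_lit 28) (nat_lit 5) (nat_lit 29) (nat_lit 4) (nat_lit 409) (nat_lit 298) (nat_lit 193)))) (XT.nd (nat_lit 156) (nat_lit 228) (nat_lit 0) (XT.nd (nat_lit 78) (nat_lit 0) (nat_lit 0) (XT.lf (nat_lit 0) (nat_lit 15024677985) (nat_lit 76) (nat_lit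 11660454674) (nat_lit 152) (nat_lit 7487050703) (nat_lit 27) (nat_lit 5) (nat_lit 28) (nat_lit 5) (nat_lit 29) (nat_lit 4) (nat_lit 410) (nat_lit 298) (nat_lit 192)) (XT.lf (nat_lit 0) (nat_lit 28074815854) (nat_lit 76) (nat_lit 5064546780) (nat_lit 152) (nat_lit 1851335260) (nat_lit 27) (nat_lit 5) (nat_lit 28) (nat_lit 5) (nat_lit 29) (nat_lit 4) (nat_lit 411) (nat_lit 298) (nat_lit 191))) (XT.nd (nat_lit 78) (nat_lit 0) (nat_lit 0) (XT.lf (nat_lit 0) (nat_lit 3932817176) (nat_lit 228) (nat_lit 30121746370) (nat_lit 76) (nat_lit 1776371732) (nat_lit 24) (nat_lit 5) (nat_lit 27) (nat_lit 5) (nat_lit 25) (nat_lit 4) (nat_lit 412) (nat_lit 298) (nat_lit 190)) (XT.lf (nat_lit 0) (nat_lit 9958058313) (nat_lit 228) (nat_lit 17938047537) (nat_lit 76) (nat_lit 8796583582) (nat_lit 24) (nat_lit 5) (nat_lit 27) (nat_lit 5) (nat_lit 25) (nat_lit 4) (nat_lit 413) (nat_lit 298) (nat_lit 189)))))) (XT.nd (nat_lit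 468) (nat_lit 228) (nat_lit 0) (XT.nd (nat_lit 234) (nat_lit 152) (nat_lit 0) (XT.nd (nat_lit 78) (nat_lit 76) (nat_lit 0) (XT.lf (nat_lit 0) (nat_lit 16148621541) (nat_lit 228) (nat_lit 5417360179) (nat_lit 76) (nat_lit 16014780236) (nat_lit 24) (nat_lit 5) (nat_lit 27) (nat_lit 5) (nat_lit 25) (nat_lit 4) (nat_lit 414) (nat_lit 298) (nat_lit 188)) (XT.nd (nat_lit 78) (nat_lit 0) (nat_lit 0) (XT.lf (nat_lit 0) (nat_lit 7599550718) (nat_lit 76) (nat_lit 14983416903) (nat_lit 152) (nat_lit 15910769669) (nat_lit 23) (nat_lit 5) (nat_lit 24) (nat_lit 5) (nat_lit 25) (nat_lit 4) (nat_lit 415) (nat_lit 298) (nat_lit 187)) (XT.lf (nat_lit 0) (nat_lit 21090599314) (nat_lit 76) (nat_lit 8159636803) (nat_lit 152) (nat_lit 10182671544) (nat_lit 23) (nat_lit 5) (nat_lit 24) (nat_lit 5) (nat_lit 25) (nat_lit 4) (nat_lit 416) (nat_lit 298) (nat_lit 186)))) (XT.nd (nat_lit 78) (nat_lit 152) (nat_lit 0) (XT.lf (nat_lit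 0) (nat_lit 34959757814) (nat_lit 76) (nat_lit 1143383611) (nat_lit 152) (nat_lit 4297545619) (nat_lit 23) (nat_lit 5) (nat_lit 24) (nat_lit 5) (nat_lit 25) (nat_lit 4) (nat_lit 417) (nat_lit 298) (nat_lit 185)) (XT.nd (nat_lit 78) (nat_lit 0) (nat_lit 0) (XT.lf (nat_lit 0) (nat_lit 1851407088) (nat_lit 152) (nat_lit 33494680779) (nat_lit 76) (nat_lit 6047254597) (nat_lit 21) (nat_lit 5) (nat_lit 23) (nat_lit 5) (nat_lit 22) (nat_lit 4) (nat_lit 418) (nat_lit 298) (nat_lit 184)) (XT.lf (nat_lit 0) (nat_lit 8151203700) (nat_lit 152) (nat_lit 20744748576) (nat_lit 76) (nat_lit 13516968474) (nat_lit 21) (nat_lit 5) (nat_lit 23) (nat_lit 5) (nat_lit 22) (nat_lit 4) (nat_lit 419) (nat_lit 298) (nat_lit 183))))) (XT.nd (nat_lit 234) (nat_lit 152) (nat_lit 0) (XT.nd (nat_lit 78) (nat_lit 76) (nat_lit 0) (XT.lf (nat_lit 0) (nat_lit 14626347997) (nat_lit 152) (nat_lit 7637734700) (nat_lit 76) (nat_lit 21199415262)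 (nat_lit 21) (nat_lit 5) (nat_lit 23) (nat_lit 5) (nat_lit 22) (nat_lit 4) (nat_lit 420) (nat_lit 298) (nat_lit 182)) (XT.nd (nat_lit 78) (nat_lit 0) (nat_lit 0) (XT.lf (nat_lit 0) (nat_lit 5953997514) (nat_lit 76) (nat_lit 15385733824) (nat_lit 152) (nat_lit 23204543730) (nat_lit 20) (nat_lit 5) (nat_lit 21) (nat_lit 5) (nat_lit 22) (nat_lit 4) (nat_lit 421) (nat_lit 298) (nat_lit 181)) (XT.lf (nat_lit 0) (nat_lit 20085613677) (nat_lit 76) (nat_lit 8232930907) (nat_lit 152) (nat_lit 17337012117) (nat_lit 20) (nat_lit 5) (nat_lit 21) (nat_lit 5) (nat_lit 22) (nat_lit 4) (nat_lit 422) (nat_lit 298) (nat_lit 180)))) (XT.nd (nat_lit 156) (nat_lit 76) (nat_lit 0) (XT.nd (nat_lit 78) (nat_lit 76) (nat_lit 0) (XT.lf (nat_lit 0) (nat_lit 34617455906) (nat_lit 76) (nat_lit 876550069) (nat_lit 152) (nat_lit 11306554298) (nat_lit 20) (nat_lit 5) (nat_lit 21) (nat_lit 5) (nat_lit 22) (nat_lit 4) (nat_lit 423) (nat_lit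 298) (nat_lit 179)) (XT.lf (nat_lit 0) (nat_lit 1547832639) (nat_lit 76) (nat_lit 41403738209) (nat_lit 76) (nat_lit 5026339861) (nat_lit 19) (nat_lit 4) (nat_lit 20) (nat_lit 5) (nat_lit 20) (nat_lit 4) (nat_lit 424) (nat_lit 298) (nat_lit 178))) (XT.nd (nat_lit 78) (nat_lit 0) (nat_lit 0) (XT.lf (nat_lit 0) (nat_lit 1534627653) (nat_lit 152) (nat_lit 33293534198) (nat_lit 76) (nat_lit 14358390995) (nat_lit 18) (nat_lit 5) (nat_lit 20) (nat_lit 5) (nat_lit 19) (nat_lit 4) (nat_lit 425) (nat_lit 298) (nat_lit 177)) (XT.lf (nat_lit 0) (nat_lit 8179330310) (nat_lit 152) (nat_lit 19835302354) (nat_lit 76) (nat_lit 22415692473) (nat_lit 18) (nat_lit 5) (nat_lit 20) (nat_lit 5) (nat_lit 19) (nat_lit 4) (nat_lit 426) (nat_lit 298) (nat_lit 176))))))) (XT.nd (nat_lit 1014) (nat_lit 228) (nat_lit 0) (XT.nd (nat_lit 468) (nat_lit 152) (nat_lit 0) (XT.nd (nat_lit 234) (nat_lit 76) (nat_lit 0) (XT.nd (nat_lit 78)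 (nat_lit 76) (nat_lit 0) (XT.lf (nat_lit 0) (nat_lit 15011656155) (nat_lit 152) (nat_lit 5995306665) (nat_lit 76) (nat_lit 30704801041) (nat_lit 18) (nat_lit 5) (nat_lit 20) (nat_lit 5) (nat_lit 19) (nat_lit 4) (nat_lit 427) (nat_lit 298) (nat_lit 175)) (XT.nd (nat_lit 78) (nat_lit 0) (nat_lit 0) (XT.lf (nat_lit 0) (nat_lit 8402509289) (nat_lit 76) (nat_lit 13715835952) (nat_lit 152) (nat_lit 30911220380) (nat_lit 17) (nat_lit 5) (nat_lit 18) (nat_lit 5) (nat_lit 19) (nat_lit 4) (nat_lit 428) (nat_lit 298) (nat_lit 174)) (XT.lf (nat_lit 0) (nat_lit 23334024050) (nat_lit 76) (nat_lit 6153503406) (nat_lit 152) (nat_lit 24897896832) (nat_lit 17) (nat_lit 5) (nat_lit 18) (nat_lit 5) (nat_lit 19) (nat_lit 4) (nat_lit 429) (nat_lit 298) (nat_lit 173)))) (XT.nd (nat_lit 78) (nat_lit 76) (nat_lit 0) (XT.lf (nat_lit 0) (nat_lit 37082495461) (nat_lit 152) (nat_lit 17104952793) (nat_lit 0) (nat_lit 1594370733) (nat_lit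 17) (nat_lit 5) (nat_lit 19) (nat_lit 4) (nat_lit 17) (nat_lit 4) (nat_lit 430) (nat_lit 298) (nat_lit 172)) (XT.nd (nat_lit 78) (nat_lit 76) (nat_lit 0) (XT.lf (nat_lit 0) (nat_lit 44955546032) (nat_lit 152) (nat_lit 2821188176) (nat_lit 0) (nat_lit 9441865848) (nat_lit 17) (nat_lit 5) (nat_lit 19) (nat_lit 4) (nat_lit 17) (nat_lit 4) (nat_lit 431) (nat_lit 298) (nat_lit 171)) (XT.lf (nat_lit 0) (nat_lit 12107792451) (nat_lit 76) (nat_lit 41063002350) (nat_lit 76) (nat_lit 5524511045) (nat_lit 16) (nat_lit 4) (nat_lit 17) (nat_lit 5) (nat_lit 17) (nat_lit 4) (nat_lit 432) (nat_lit 298) (nat_lit 170))))) (XT.nd (nat_lit 234) (nat_lit 76) (nat_lit 0) (XT.nd (nat_lit 78) (nat_lit 0) (nat_lit 0) (XT.lf (nat_lit 0) (nat_lit 1406956089) (nat_lit 152) (nat_lit 32706458911) (nat_lit 76) (nat_lit 26101938734) (nat_lit 15) (nat_lit 5) (nat_lit 17) (nat_lit 5) (nat_lit 16) (nat_lit 4) (nat_lit 433) (nat_lit 298)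 (nat_lit 169)) (XT.nd (nat_lit 78) (nat_lit 0) (nat_lit 0) (XT.lf (nat_lit 0) (nat_lit 8425264275) (nat_lit 152) (nat_lit 18482680156) (nat_lit 76) (nat_lit 34871721020) (nat_lit 15) (nat_lit 5) (nat_lit 17) (nat_lit 5) (nat_lit 16) (nat_lit 4) (nat_lit 434) (nat_lit 298) (nat_lit 168)) (XT.lf (nat_lit 0) (nat_lit 15644349122) (nat_lit 152) (nat_lit 3850643606) (nat_lit 76) (nat_lit 43896208292) (nat_lit 15) (nat_lit 5) (nat_lit 17) (nat_lit 5) (nat_lit 16) (nat_lit 4) (nat_lit 435) (nat_lit 298) (nat_lit 167)))) (XT.nd (nat_lit 156) (nat_lit 0) (nat_lit 0) (XT.nd (nat_lit 78) (nat_lit 0) (nat_lit 0) (XT.lf (nat_lit 0) (nat_lit 11425386454) (nat_lit 76) (nat_lit 11754959920) (nat_lit 152) (nat_lit 41867727374) (nat_lit 14) (nat_lit 5) (nat_lit 15) (nat_lit 5) (nat_lit 16) (nat_lit 4) (nat_lit 436) (nat_lit 298) (nat_lit 166)) (XT.lf (nat_lit 0) (nat_lit 27220889475) (nat_lit 76) (nat_lit 3751035870) (nat_lit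 152) (nat_lit 35781843505) (nat_lit 14) (nat_lit 5) (nat_lit 15) (nat_lit 5) (nat_lit 16) (nat_lit 4) (nat_lit 437) (nat_lit 298) (nat_lit 165))) (XT.nd (nat_lit 78) (nat_lit 0) (nat_lit 0) (XT.lf (nat_lit 0) (nat_lit 39031254304) (nat_lit 152) (nat_lit 25080988789) (nat_lit 0) (nat_lit 4397372847) (nat_lit 14) (nat_lit 5) (nat_lit 16) (nat_lit 4) (nat_lit 14) (nat_lit 4) (nat_lit 438) (nat_lit 298) (nat_lit 164)) (XT.lf (nat_lit 0) (nat_lit 47360582776) (nat_lit 152) (nat_lit 10249595063) (nat_lit 0) (nat_lit 12707115190) (nat_lit 14) (nat_lit 5) (nat_lit 16) (nat_lit 4) (nat_lit 14) (nat_lit 4) (nat_lit 439) (nat_lit 298) (nat_lit 163)))))) (XT.nd (nat_lit 36114) (nat_lit 0) (nat_lit 24928) (XT.nd (nat_lit 234) (nat_lit 152) (nat_lit 0) (XT.nd (nat_lit 78) (nat_lit 0) (nat_lit 0) (XT.lf (nat_lit 0) (nat_lit 5110033685) (nat_lit 76) (nat_lit 50870218648) (nat_lit 76) (nat_lit 16197735403) (nat_lit 13)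 (nat_lit 4) (nat_lit 14) (nat_lit 5) (nat_lit 14) (nat_lit 4) (nat_lit 440) (nat_lit 298) (nat_lit 162)) (XT.nd (nat_lit 78) (nat_lit 0) (nat_lit 0) (XT.lf (nat_lit 0) (nat_lit 21124296996) (nat_lit 76) (nat_lit 43829152166) (nat_lit 76) (nat_lit 9138207116) (nat_lit 13) (nat_lit 4) (nat_lit 14) (nat_lit 5) (nat_lit 14) (nat_lit 4) (nat_lit 441) (nat_lit 298) (nat_lit 161)) (XT.lf (nat_lit 0) (nat_lit 37603200874) (nat_lit 76) (nat_lit 36584326818) (nat_lit 76) (nat_lit 1875457687) (nat_lit 13) (nat_lit 4) (nat_lit 14) (nat_lit 5) (nat_lit 14) (nat_lit 4) (nat_lit 442) (nat_lit 298) (nat_lit 160)))) (XT.nd (nat_lit 156) (nat_lit 76) (nat_lit 0) (XT.nd (nat_lit 78) (nat_lit 0) (nat_lit 0) (XT.lf (nat_lit 0) (nat_lit 5487644099) (nat_lit 152) (nat_lit 23586353630) (nat_lit 76) (nat_lit 49018085817) (nat_lit 12) (nat_lit 5) (nat_lit 14) (nat_lit 5) (nat_lit 13) (nat_lit 4) (nat_lit 443) (nat_lit 298) (nat_lit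 159)) (XT.lf (nat_lit 0) (nat_lit 13026028575) (nat_lit 152) (nat_lit 8300328311) (nat_lit 76) (nat_lit 58855379158) (nat_lit 12) (nat_lit 5) (nat_lit 14) (nat_lit 5) (nat_lit 13) (nat_lit 4) (nat_lit 444) (nat_lit 298) (nat_lit 158))) (XT.nd (nat_lit 78) (nat_lit 0) (nat_lit 0) (XT.lf (nat_lit 0) (nat_lit 7577541345) (nat_lit 76) (nat_lit 13278178230) (nat_lit 152) (nat_lit 61476404847) (nat_lit 11) (nat_lit 5) (nat_lit 12) (nat_lit 5) (nat_lit 13) (nat_lit 4) (nat_lit 445) (nat_lit 298) (nat_lit 157)) (XT.lf (nat_lit 0) (nat_lit 24087437289) (nat_lit 76) (nat_lit 4909080936) (nat_lit 152) (nat_lit 55548220649) (nat_lit 11) (nat_lit 5) (nat_lit 12) (nat_lit 5) (nat_lit 13) (nat_lit 4) (nat_lit 446) (nat_lit 298) (nat_lit 156))))) (XT.nd (nat_lit 234) (nat_lit 836) (nat_lit 0) (XT.nd (nat_lit 78) (nat_lit 152) (nat_lit 0) (XT.lf (nat_lit 0) (nat_lit 1565764187) (nat_lit 76) (nat_lit 91627810) (nat_lit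 0) (nat_lit 1565764187) (nat_lit 352) (nat_lit 5) (nat_lit 353) (nat_lit 0) (nat_lit 352) (nat_lit 4) (nat_lit 302) (nat_lit 299) (nat_lit 299)) (XT.nd (nat_lit 78) (nat_lit 76) (nat_lit 0) (XT.lf (nat_lit 0) (nat_lit 3067732793) (nat_lit 76) (nat_lit 3138996193) (nat_lit 76) (nat_lit 245388997) (nat_lit 351) (nat_lit 4) (nat_lit 352) (nat_lit 5) (nat_lit 352) (nat_lit 4) (nat_lit 303) (nat_lit 299) (nat_lit 298)) (XT.lf (nat_lit 0) (nat_lit 2744518089) (nat_lit 152) (nat_lit 131562849) (nat_lit 76) (nat_lit 3584779719) (nat_lit 350) (nat_lit 5) (nat_lit 352) (nat_lit 5) (nat_lit 351) (nat_lit 4) (nat_lit 304) (nat_lit 299) (nat_lit 297)))) (XT.nd (nat_lit 156) (nat_lit 380) (nat_lit 0) (XT.nd (nat_lit 78) (nat_lit 304) (nat_lit 0) (XT.lf (nat_lit 0) (nat_lit 3215590990) (nat_lit 152) (nat_lit 2521368550) (nat_lit 228) (nat_lit 735459175) (nat_lit 348) (nat_lit 5) (nat_lit 350) (nat_lit 5) (nat_lit 351)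 (nat_lit 4) (nat_lit 305) (nat_lit 299) (nat_lit 296)) (XT.lf (nat_lit 0) (nat_lit 95661233) (nat_lit 228) (nat_lit 2084193655) (nat_lit 304) (nat_lit 4307228276) (nat_lit 344) (nat_lit 5) (nat_lit 347) (nat_lit 5) (nat_lit 348) (nat_lit 5) (nat_lit 306) (nat_lit 299) (nat_lit 295))) (XT.nd (nat_lit 78) (nat_lit 380) (nat_lit 0) (XT.lf (nat_lit 0) (nat_lit 3543379353) (nat_lit 228) (nat_lit 1548219011) (nat_lit 304) (nat_lit 1412803739) (nat_lit 344) (nat_lit 5) (nat_lit 347) (nat_lit 5) (nat_lit 348) (nat_lit 5) (nat_lit 307) (nat_lit 299) (nat_lit 294)) (XT.lf (nat_lit 0) (nat_lit 501941259) (nat_lit 304) (nat_lit 933656532) (nat_lit 380) (nat_lit 5089395210) (nat_lit 339) (nat_lit 5) (nat_lit 343) (nat_lit 5) (nat_lit 344) (nat_lit 5) (nat_lit 308) (nat_lit 299) (nat_lit 293))))))))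
noncomputable def xc102 : XT := (XT.nd (nat_lit 2028) (nat_lit 7144) (nat_lit 0) (XT.nd (nat_lit 1014) (nat_lit 7144) (nat_lit 0) (XT.nd (nat_lit 468) (nat_lit 3116) (nat_lit 0) (XT.nd (nat_lit 234) (nat_lit 1064) (nat_lit 0) (XT.nd (nat_lit 78) (nat_lit 456) (nat_lit 0) (XT.lf (nat_lit 0) (nat_lit 4050798703) (nat_lit 304) (nat_lit 215444928) (nat_lit 380) (nat_lit 2281915921) (nat_lit 339) (nat_lit 5) (nat_lit 343) (nat_lit 5) (nat_lit 344) (nat_lit 5) (nat_lit 309) (nat_lit 299) (nat_lit 292)) (XT.nd (nat_lit 78) (nat_lit 0) (nat_lit 0) (XT.lf (nat_lit 0) (nat_lit 511219928) (nat_lit 456) (nat_lit 5495617839) (nat_lit 76) (nat_lit 567733111) (nat_lit 333) (nat_lit 5) (nat_lit 339) (nat_lit 5) (nat_lit 334) (nat_lit 5) (nat_lit 310) (nat_lit 299) (nat_lit 291)) (XT.lf (nat_lit 0) (nat_lit 3269947630) (nat_lit 456) (nat_lit 1879807474) (nat_lit 76) (nat_lit 1453633693) (nat_lit 333) (nat_lit 5) (nat_lit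 339) (nat_lit 5) (nat_lit 334) (nat_lit 5) (nat_lit 311) (nat_lit 299) (nat_lit 290)))) (XT.nd (nat_lit 78) (nat_lit 608) (nat_lit 0) (XT.lf (nat_lit 0) (nat_lit 1814285053) (nat_lit 456) (nat_lit 4217563754) (nat_lit 532) (nat_lit 603728458) (nat_lit 327) (nat_lit 5) (nat_lit 333) (nat_lit 5) (nat_lit 334) (nat_lit 5) (nat_lit 312) (nat_lit 299) (nat_lit 289)) (XT.nd (nat_lit 78) (nat_lit 532) (nat_lit 0) (XT.lf (nat_lit 0) (nat_lit 2088084124) (nat_lit 532) (nat_lit 1098810769) (nat_lit 76) (nat_lit 3483612596) (nat_lit 326) (nat_lit 5) (nat_lit 333) (nat_lit 5) (nat_lit 327) (nat_lit 5) (nat_lit 313) (nat_lit 299) (nat_lit 288)) (XT.lf (nat_lit 0) (nat_lit 2717371941) (nat_lit 532) (nat_lit 2064180195) (nat_lit 608) (nat_lit 1926871412) (nat_lit 319) (nat_lit 5) (nat_lit 326) (nat_lit 5) (nat_lit 327) (nat_lit 5) (nat_lit 314) (nat_lit 299) (nat_lit 287))))) (XT.nd (nat_lit 234) (nat_lit 1748) (nat_lit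 0) (XT.nd (nat_lit 78) (nat_lit 1292) (nat_lit 0) (XT.lf (nat_lit 0) (nat_lit 711781685) (nat_lit 608) (nat_lit 150776668) (nat_lit 76) (nat_lit 5887211474) (nat_lit 318) (nat_lit 5) (nat_lit 326) (nat_lit 5) (nat_lit 319) (nat_lit 5) (nat_lit 315) (nat_lit 299) (nat_lit 286)) (XT.nd (nat_lit 78) (nat_lit 684) (nat_lit 0) (XT.lf (nat_lit 0) (nat_lit 3342426714) (nat_lit 684) (nat_lit 3002560675) (nat_lit 76) (nat_lit 448349077) (nat_lit 310) (nat_lit 5) (nat_lit 319) (nat_lit 5) (nat_lit 311) (nat_lit 5) (nat_lit 316) (nat_lit 299) (nat_lit 285)) (XT.lf (nat_lit 0) (nat_lit 958961830) (nat_lit 684) (nat_lit 5025222649) (nat_lit 760) (nat_lit 856156062) (nat_lit 301) (nat_lit 5) (nat_lit 310) (nat_lit 5) (nat_lit 311) (nat_lit 5) (nat_lit 317) (nat_lit 299) (nat_lit 284)))) (XT.nd (nat_lit 156) (nat_lit 912) (nat_lit 0) (XT.nd (nat_lit 78) (nat_lit 760) (nat_lit 0) (XT.lf (nat_lit 0) (nat_lit 1725479515)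 (nat_lit 760) (nat_lit 1872574484) (nat_lit 76) (nat_lit 3291933094) (nat_lit 300) (nat_lit 5) (nat_lit 310) (nat_lit 5) (nat_lit 301) (nat_lit 5) (nat_lit 318) (nat_lit 299) (nat_lit 283)) (XT.lf (nat_lit 0) (nat_lit 2225574227) (nat_lit 760) (nat_lit 2079548822) (nat_lit 836) (nat_lit 2637700756) (nat_lit 290) (nat_lit 5) (nat_lit 300) (nat_lit 5) (nat_lit 301) (nat_lit 5) (nat_lit 319) (nat_lit 299) (nat_lit 282))) (XT.nd (nat_lit 78) (nat_lit 912) (nat_lit 0) (XT.lf (nat_lit 0) (nat_lit 6419827325) (nat_lit 760) (nat_lit 479419834) (nat_lit 836) (nat_lit 99971229) (nat_lit 290) (nat_lit 5) (nat_lit 300) (nat_lit 5) (nat_lit 301) (nat_lit 5) (nat_lit 320) (nat_lit 299) (nat_lit 281)) (XT.lf (nat_lit 0) (nat_lit 2431731480) (nat_lit 912) (nat_lit 3405032643) (nat_lit 76) (nat_lit 1220889440) (nat_lit 278) (nat_lit 5) (nat_lit 290) (nat_lit 5) (nat_lit 279) (nat_lit 5) (nat_lit 321) (nat_lit 299) (nat_lit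 280)))))) (XT.nd (nat_lit 468) (nat_lit 2888) (nat_lit 0) (XT.nd (nat_lit 234) (nat_lit 2280) (nat_lit 0) (XT.nd (nat_lit 78) (nat_lit 1064) (nat_lit 0) (XT.lf (nat_lit 0) (nat_lit 849649096) (nat_lit 912) (nat_lit 4128103499) (nat_lit 988) (nat_lit 2141926456) (nat_lit 266) (nat_lit 5) (nat_lit 278) (nat_lit 5) (nat_lit 279) (nat_lit 5) (nat_lit 322) (nat_lit 299) (nat_lit 279)) (XT.nd (nat_lit 78) (nat_lit 988) (nat_lit 0) (XT.lf (nat_lit 0) (nat_lit 365551213) (nat_lit 988) (nat_lit 1953010227) (nat_lit 76) (nat_lit 4866244747) (nat_lit 265) (nat_lit 5) (nat_lit 278) (nat_lit 5) (nat_lit 266) (nat_lit 5) (nat_lit 323) (nat_lit 299) (nat_lit 278)) (XT.lf (nat_lit 0) (nat_lit 2454279865) (nat_lit 988) (nat_lit 399142684) (nat_lit 1064) (nat_lit 4399453383) (nat_lit 252) (nat_lit 5) (nat_lit 265) (nat_lit 5) (nat_lit 266) (nat_lit 5) (nat_lit 324) (nat_lit 299) (nat_lit 277)))) (XT.nd (nat_lit 78) (nat_lit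 2280) (nat_lit 0) (XT.lf (nat_lit 0) (nat_lit 5377291866) (nat_lit 1064) (nat_lit 371579435) (nat_lit 76) (nat_lit 1575345139) (nat_lit 252) (nat_lit 5) (nat_lit 266) (nat_lit 5) (nat_lit 253) (nat_lit 5) (nat_lit 325) (nat_lit 299) (nat_lit 276)) (XT.nd (nat_lit 78) (nat_lit 1140) (nat_lit 0) (XT.lf (nat_lit 0) (nat_lit 540297743) (nat_lit 1140) (nat_lit 3203288540) (nat_lit 76) (nat_lit 3654836804) (nat_lit 237) (nat_lit 5) (nat_lit 252) (nat_lit 5) (nat_lit 238) (nat_lit 5) (nat_lit 326) (nat_lit 299) (nat_lit 275)) (XT.lf (nat_lit 0) (nat_lit 1372691892) (nat_lit 1140) (nat_lit 1636424158) (nat_lit 1216) (nat_lit 4466841897) (nat_lit 222) (nat_lit 5) (nat_lit 237) (nat_lit 5) (nat_lit 238) (nat_lit 5) (nat_lit 327) (nat_lit 299) (nat_lit 274))))) (XT.nd (nat_lit 234) (nat_lit 1216) (nat_lit 0) (XT.nd (nat_lit 78) (nat_lit 1672) (nat_lit 0) (XT.lf (nat_lit 0) (nat_lit 5520390627) (nat_lit 1216) (nat_lit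 1476717179) (nat_lit 76) (nat_lit 559721066) (nat_lit 222) (nat_lit 5) (nat_lit 238) (nat_lit 5) (nat_lit 223) (nat_lit 5) (nat_lit 328) (nat_lit 299) (nat_lit 273)) (XT.nd (nat_lit 78) (nat_lit 608) (nat_lit 0) (XT.lf (nat_lit 0) (nat_lit 437763422) (nat_lit 1064) (nat_lit 4374881361) (nat_lit 76) (nat_lit 2828004840) (nat_lit 208) (nat_lit 5) (nat_lit 222) (nat_lit 5) (nat_lit 209) (nat_lit 5) (nat_lit 329) (nat_lit 299) (nat_lit 272)) (XT.lf (nat_lit 0) (nat_lit 374470765) (nat_lit 608) (nat_lit 2522685602) (nat_lit 684) (nat_lit 4830723408) (nat_lit 200) (nat_lit 5) (nat_lit 208) (nat_lit 5) (nat_lit 209) (nat_lit 5) (nat_lit 330) (nat_lit 299) (nat_lit 271)))) (XT.nd (nat_lit 156) (nat_lit 608) (nat_lit 0) (XT.nd (nat_lit 78) (nat_lit 608) (nat_lit 0) (XT.lf (nat_lit 0) (nat_lit 5289851023) (nat_lit 608) (nat_lit 119203044) (nat_lit 684) (nat_lit 2409365959) (nat_lit 200) (nat_lit 5) (nat_lit 208)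 (nat_lit 5) (nat_lit 209) (nat_lit 5) (nat_lit 331) (nat_lit 299) (nat_lit 270)) (XT.lf (nat_lit 0) (nat_lit 64909025) (nat_lit 608) (nat_lit 5513883132) (nat_lit 76) (nat_lit 2333453806) (nat_lit 192) (nat_lit 5) (nat_lit 200) (nat_lit 5) (nat_lit 193) (nat_lit 5) (nat_lit 332) (nat_lit 299) (nat_lit 269))) (XT.nd (nat_lit 78) (nat_lit 608) (nat_lit 0) (XT.lf (nat_lit 0) (nat_lit 2528951857) (nat_lit 608) (nat_lit 575288851) (nat_lit 76) (nat_lit 4905061577) (nat_lit 192) (nat_lit 5) (nat_lit 200) (nat_lit 5) (nat_lit 193) (nat_lit 5) (nat_lit 333) (nat_lit 299) (nat_lit 268)) (XT.lf (nat_lit 0) (nat_lit 4535089435) (nat_lit 608) (nat_lit 514254420) (nat_lit 684) (nat_lit 3060502368) (nat_lit 184) (nat_lit 5) (nat_lit 192) (nat_lit 5) (nat_lit 193) (nat_lit 5) (nat_lit 334) (nat_lit 299) (nat_lit 267))))))) (XT.nd (nat_lit 1014) (nat_lit 3192) (nat_lit 0) (XT.nd (nat_lit 468) (nat_lit 1824) (nat_lit 0)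 (XT.nd (nat_lit 234) (nat_lit 988) (nat_lit 0) (XT.nd (nat_lit 78) (nat_lit 608) (nat_lit 0) (XT.lf (nat_lit 0) (nat_lit 1540604345) (nat_lit 532) (nat_lit 6086076644) (nat_lit 608) (nat_lit 587332833) (nat_lit 177) (nat_lit 5) (nat_lit 184) (nat_lit 5) (nat_lit 185) (nat_lit 5) (nat_lit 335) (nat_lit 299) (nat_lit 266)) (XT.nd (nat_lit 78) (nat_lit 532) (nat_lit 0) (XT.lf (nat_lit 0) (nat_lit 1903780573) (nat_lit 608) (nat_lit 1528431096) (nat_lit 76) (nat_lit 4889114293) (nat_lit 176) (nat_lit 5) (nat_lit 184) (nat_lit 5) (nat_lit 177) (nat_lit 5) (nat_lit 336) (nat_lit 299) (nat_lit 265)) (XT.lf (nat_lit 0) (nat_lit 3774044276) (nat_lit 532) (nat_lit 662240212) (nat_lit 608) (nat_lit 3996087990) (nat_lit 169) (nat_lit 5) (nat_lit 176) (nat_lit 5) (nat_lit 177) (nat_lit 5) (nat_lit 337) (nat_lit 299) (nat_lit 264)))) (XT.nd (nat_lit 78) (nat_lit 532) (nat_lit 0) (XT.lf (nat_lit 0) (nat_lit 646314821)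 (nat_lit 456) (nat_lit 6384489671) (nat_lit 532) (nat_lit 1516406731) (nat_lit 163) (nat_lit 5) (nat_lit 169) (nat_lit 5) (nat_lit 170) (nat_lit 5) (nat_lit 338) (nat_lit 299) (nat_lit 263)) (XT.nd (nat_lit 78) (nat_lit 456) (nat_lit 0) (XT.lf (nat_lit 0) (nat_lit 1015097490) (nat_lit 532) (nat_lit 2541732870) (nat_lit 76) (nat_lit 5108474748) (nat_lit 162) (nat_lit 5) (nat_lit 169) (nat_lit 5) (nat_lit 163) (nat_lit 5) (nat_lit 339) (nat_lit 299) (nat_lit 262)) (XT.lf (nat_lit 0) (nat_lit 2956574387) (nat_lit 456) (nat_lit 609175306) (nat_lit 532) (nat_lit 5221569757) (nat_lit 156) (nat_lit 5) (nat_lit 162) (nat_lit 5) (nat_lit 163) (nat_lit 5) (nat_lit 340) (nat_lit 299) (nat_lit 261))))) (XT.nd (nat_lit 234) (nat_lit 836) (nat_lit 0) (XT.nd (nat_lit 78) (nat_lit 988) (nat_lit 0) (XT.lf (nat_lit 0) (nat_lit 6188318600) (nat_lit 532) (nat_lit 329108264) (nat_lit 76) (nat_lit 2395742818) (nat_lit 156)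 (nat_lit 5) (nat_lit 163) (nat_lit 5) (nat_lit 157) (nat_lit 5) (nat_lit 341) (nat_lit 299) (nat_lit 260)) (XT.nd (nat_lit 78) (nat_lit 532) (nat_lit 0) (XT.lf (nat_lit 0) (nat_lit 5373059113) (nat_lit 456) (nat_lit 3521902103) (nat_lit 532) (nat_lit 147708590) (nat_lit 150) (nat_lit 5) (nat_lit 156) (nat_lit 5) (nat_lit 157) (nat_lit 5) (nat_lit 342) (nat_lit 299) (nat_lit 259)) (XT.lf (nat_lit 0) (nat_lit 2028760653) (nat_lit 456) (nat_lit 400022746) (nat_lit 532) (nat_lit 6747454316) (nat_lit 143) (nat_lit 5) (nat_lit 149) (nat_lit 5) (nat_lit 150) (nat_lit 5) (nat_lit 343) (nat_lit 299) (nat_lit 258)))) (XT.nd (nat_lit 156) (nat_lit 456) (nat_lit 0) (XT.nd (nat_lit 78) (nat_lit 380) (nat_lit 0) (XT.lf (nat_lit 0) (nat_lit 5092969452) (nat_lit 532) (nat_lit 1432890497) (nat_lit 76) (nat_lit 2787541001) (nat_lit 143) (nat_lit 5) (nat_lit 150) (nat_lit 5) (nat_lit 144) (nat_lit 5) (nat_lit 344) (nat_lit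 299) (nat_lit 257)) (XT.lf (nat_lit 0) (nat_lit 4473751379) (nat_lit 380) (nat_lit 3360664572) (nat_lit 456) (nat_lit 1620375324) (nat_lit 138) (nat_lit 5) (nat_lit 143) (nat_lit 5) (nat_lit 144) (nat_lit 5) (nat_lit 345) (nat_lit 299) (nat_lit 256))) (XT.nd (nat_lit 78) (nat_lit 0) (nat_lit 0) (XT.lf (nat_lit 0) (nat_lit 931729967) (nat_lit 380) (nat_lit 79587051) (nat_lit 456) (nat_lit 8589603455) (nat_lit 132) (nat_lit 5) (nat_lit 137) (nat_lit 5) (nat_lit 138) (nat_lit 5) (nat_lit 346) (nat_lit 299) (nat_lit 255)) (XT.lf (nat_lit 0) (nat_lit 3723314557) (nat_lit 456) (nat_lit 2738044222) (nat_lit 76) (nat_lit 3288605301) (nat_lit 132) (nat_lit 5) (nat_lit 138) (nat_lit 5) (nat_lit 133) (nat_lit 5) (nat_lit 347) (nat_lit 299) (nat_lit 254)))))) (XT.nd (nat_lit 546) (nat_lit 1292) (nat_lit 0) (XT.nd (nat_lit 234) (nat_lit 1064) (nat_lit 0) (XT.nd (nat_lit 78) (nat_lit 456) (nat_lit 0) (XT.lf (nat_lit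 0) (nat_lit 3374102169) (nat_lit 380) (nat_lit 3128611918) (nat_lit 456) (nat_lit 3401212289) (nat_lit 127) (nat_lit 5) (nat_lit 132) (nat_lit 5) (nat_lit 133) (nat_lit 5) (nat_lit 348) (nat_lit 299) (nat_lit 253)) (XT.nd (nat_lit 78) (nat_lit 456) (nat_lit 0) (XT.lf (nat_lit 0) (nat_lit 9349801855) (nat_lit 456) (nat_lit 401790122) (nat_lit 76) (nat_lit 311414184) (nat_lit 127) (nat_lit 5) (nat_lit 133) (nat_lit 5) (nat_lit 128) (nat_lit 5) (nat_lit 349) (nat_lit 299) (nat_lit 252)) (XT.lf (nat_lit 0) (nat_lit 2058566516) (nat_lit 456) (nat_lit 4311708766) (nat_lit 76) (nat_lit 3854719575) (nat_lit 121) (nat_lit 5) (nat_lit 127) (nat_lit 5) (nat_lit 122) (nat_lit 5) (nat_lit 350) (nat_lit 299) (nat_lit 251)))) (XT.nd (nat_lit 156) (nat_lit 760) (nat_lit 0) (XT.nd (nat_lit 78) (nat_lit 0) (nat_lit 0) (XT.lf (nat_lit 0) (nat_lit 2005203409) (nat_lit 304) (nat_lit 2872412117) (nat_lit 380) (nat_lit 5514687501)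 (nat_lit 117) (nat_lit 5) (nat_lit 121) (nat_lit 5) (nat_lit 122) (nat_lit 5) (nat_lit 351) (nat_lit 299) (nat_lit 250)) (XT.lf (nat_lit 0) (nat_lit 7787883620) (nat_lit 380) (nat_lit 2032514087) (nat_lit 76) (nat_lit 744058014) (nat_lit 117) (nat_lit 5) (nat_lit 122) (nat_lit 5) (nat_lit 118) (nat_lit 5) (nat_lit 352) (nat_lit 299) (nat_lit 249))) (XT.nd (nat_lit 78) (nat_lit 304) (nat_lit 0) (XT.lf (nat_lit 0) (nat_lit 71858329) (nat_lit 456) (nat_lit 6229264777) (nat_lit 76) (nat_lit 4439789860) (nat_lit 111) (nat_lit 5) (nat_lit 117) (nat_lit 5) (nat_lit 112) (nat_lit 5) (nat_lit 353) (nat_lit 299) (nat_lit 248)) (XT.lf (nat_lit 0) (nat_lit 289471231) (nat_lit 304) (nat_lit 2641162676) (nat_lit 380) (nat_lit 7991806948) (nat_lit 107) (nat_lit 5) (nat_lit 111) (nat_lit 5) (nat_lit 112) (nat_lit 5) (nat_lit 354) (nat_lit 299) (nat_lit 247))))) (XT.nd (nat_lit 234) (nat_lit 912) (nat_lit 0) (XT.nd (nat_lit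 78) (nat_lit 380) (nat_lit 0) (XT.lf (nat_lit 0) (nat_lit 5907241392) (nat_lit 380) (nat_lit 4048298232) (nat_lit 76) (nat_lit 1152934854) (nat_lit 107) (nat_lit 5) (nat_lit 112) (nat_lit 5) (nat_lit 108) (nat_lit 5) (nat_lit 355) (nat_lit 299) (nat_lit 246)) (XT.nd (nat_lit 78) (nat_lit 76) (nat_lit 0) (XT.lf (nat_lit 0) (nat_lit 2701486359) (nat_lit 304) (nat_lit 6282705137) (nat_lit 380) (nat_lit 2315587593) (nat_lit 103) (nat_lit 5) (nat_lit 107) (nat_lit 5) (nat_lit 108) (nat_lit 5) (nat_lit 356) (nat_lit 299) (nat_lit 245)) (XT.lf (nat_lit 0) (nat_lit 644238801) (nat_lit 380) (nat_lit 1824809935) (nat_lit 76) (nat_lit 9027592095) (nat_lit 102) (nat_lit 5) (nat_lit 107) (nat_lit 5) (nat_lit 103) (nat_lit 5) (nat_lit 357) (nat_lit 299) (nat_lit 244)))) (XT.nd (nat_lit 156) (nat_lit 304) (nat_lit 0) (XT.nd (nat_lit 78) (nat_lit 304) (nat_lit 0) (XT.lf (nat_lit 0) (nat_lit 3670941665) (nat_lit 380) (nat_lit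 6540650968) (nat_lit 76) (nat_lit 1486408816) (nat_lit 98) (nat_lit 5) (nat_lit 103) (nat_lit 5) (nat_lit 99) (nat_lit 5) (nat_lit 358) (nat_lit 299) (nat_lit 243)) (XT.lf (nat_lit 0) (nat_lit 406866767) (nat_lit 304) (nat_lit 6389311434) (nat_lit 380) (nat_lit 5109011644) (nat_lit 94) (nat_lit 5) (nat_lit 98) (nat_lit 5) (nat_lit 99) (nat_lit 5) (nat_lit 359) (nat_lit 299) (nat_lit 242))) (XT.nd (nat_lit 78) (nat_lit 304) (nat_lit 0) (XT.lf (nat_lit 0) (nat_lit 7639478722) (nat_lit 304) (nat_lit 2403097815) (nat_lit 380) (nat_lit 2075213600) (nat_lit 94) (nat_lit 5) (nat_lit 98) (nat_lit 5) (nat_lit 99) (nat_lit 5) (nat_lit 360) (nat_lit 299) (nat_lit 241)) (XT.lf (nat_lit 0) (nat_lit 1034090079) (nat_lit 304) (nat_lit 9614225496) (nat_lit 76) (nat_lit 1688018317) (nat_lit 90) (nat_lit 5) (nat_lit 94) (nat_lit 5) (nat_lit 91) (nat_lit 5) (nat_lit 361) (nat_lit 299) (nat_lit 240))))))))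
noncomputable def xc103 : XT := (XT.nd (nat_lit 2028) (nat_lit 1748) (nat_lit 0) (XT.nd (nat_lit 1014) (nat_lit 1368) (nat_lit 0) (XT.nd (nat_lit 468) (nat_lit 1064) (nat_lit 0) (XT.nd (nat_lit 234) (nat_lit 532) (nat_lit 0) (XT.nd (nat_lit 78) (nat_lit 304) (nat_lit 0) (XT.lf (nat_lit 0) (nat_lit 4226906888) (nat_lit 304) (nat_lit 2431434971) (nat_lit 76) (nat_lit 5901534213) (nat_lit 90) (nat_lit 5) (nat_lit 94) (nat_lit 5) (nat_lit 91) (nat_lit 5) (nat_lit 362) (nat_lit 299) (nat_lit 239)) (XT.nd (nat_lit 78) (nat_lit 0) (nat_lit 0) (XT.lf (nat_lit 0) (nat_lit 5009335058) (nat_lit 304) (nat_lit 2517899528) (nat_lit 380) (nat_lit 5262554475) (nat_lit 86) (nat_lit 5) (nat_lit 90) (nat_lit 5) (nat_lit 91) (nat_lit 5) (nat_lit 363) (nat_lit 299) (nat_lit 238)) (XT.lf (nat_lit 0) (nat_lit 10932086527) (nat_lit 380) (nat_lit 375350969) (nat_lit 76) (nat_lit 1719012368) (nat_lit 86) (nat_lit 5) (nat_lit 91)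 (nat_lit 5) (nat_lit 87) (nat_lit 5) (nat_lit 364) (nat_lit 299) (nat_lit 237)))) (XT.nd (nat_lit 78) (nat_lit 228) (nat_lit 0) (XT.lf (nat_lit 0) (nat_lit 1206877150) (nat_lit 304) (nat_lit 5964523656) (nat_lit 76) (nat_lit 6096663182) (nat_lit 82) (nat_lit 5) (nat_lit 86) (nat_lit 5) (nat_lit 83) (nat_lit 5) (nat_lit 365) (nat_lit 299) (nat_lit 236)) (XT.nd (nat_lit 78) (nat_lit 0) (nat_lit 0) (XT.lf (nat_lit 0) (nat_lit 1661137547) (nat_lit 228) (nat_lit 2888846354) (nat_lit 304) (nat_lit 8966787347) (nat_lit 79) (nat_lit 5) (nat_lit 82) (nat_lit 5) (nat_lit 83) (nat_lit 5) (nat_lit 366) (nat_lit 299) (nat_lit 235)) (XT.lf (nat_lit 0) (nat_lit 8034284952) (nat_lit 304) (nat_lit 4203037879) (nat_lit 76) (nat_lit 1534403955) (nat_lit 79) (nat_lit 5) (nat_lit 83) (nat_lit 5) (nat_lit 80) (nat_lit 5) (nat_lit 367) (nat_lit 299) (nat_lit 234))))) (XT.nd (nat_lit 234) (nat_lit 532) (nat_lit 0) (XT.nd (nat_lit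 78) (nat_lit 304) (nat_lit 0) (XT.lf (nat_lit 0) (nat_lit 3669208565) (nat_lit 228) (nat_lit 7984228704) (nat_lit 304) (nat_lit 2379997733) (nat_lit 76) (nat_lit 5) (nat_lit 79) (nat_lit 5) (nat_lit 80) (nat_lit 5) (nat_lit 368) (nat_lit 299) (nat_lit 233)) (XT.nd (nat_lit 78) (nat_lit 228) (nat_lit 0) (XT.lf (nat_lit 0) (nat_lit 1066575435) (nat_lit 304) (nat_lit 2501808283) (nat_lit 76) (nat_lit 10734029379) (nat_lit 75) (nat_lit 5) (nat_lit 79) (nat_lit 5) (nat_lit 76) (nat_lit 5) (nat_lit 369) (nat_lit 299) (nat_lit 232)) (XT.lf (nat_lit 0) (nat_lit 4600402262) (nat_lit 304) (nat_lit 8956853906) (nat_lit 76) (nat_lit 1020559194) (nat_lit 72) (nat_lit 5) (nat_lit 76) (nat_lit 5) (nat_lit 73) (nat_lit 5) (nat_lit 370) (nat_lit 299) (nat_lit 231)))) (XT.nd (nat_lit 156) (nat_lit 304) (nat_lit 0) (XT.nd (nat_lit 78) (nat_lit 228) (nat_lit 0) (XT.lf (nat_lit 0) (nat_lit 8268914706) (nat_lit 304) (nat_lit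 909424385) (nat_lit 76) (nat_lit 5682292635) (nat_lit 72) (nat_lit 5) (nat_lit 76) (nat_lit 5) (nat_lit 73) (nat_lit 5) (nat_lit 371) (nat_lit 299) (nat_lit 230)) (XT.lf (nat_lit 0) (nat_lit 7474980322) (nat_lit 228) (nat_lit 4613120157) (nat_lit 304) (nat_lit 3062625364) (nat_lit 69) (nat_lit 5) (nat_lit 72) (nat_lit 5) (nat_lit 73) (nat_lit 5) (nat_lit 372) (nat_lit 299) (nat_lit 229))) (XT.nd (nat_lit 78) (nat_lit 0) (nat_lit 0) (XT.lf (nat_lit 0) (nat_lit 546320983) (nat_lit 304) (nat_lit 14814022749) (nat_lit 76) (nat_lit 89470613) (nat_lit 65) (nat_lit 5) (nat_lit 69) (nat_lit 5) (nat_lit 66) (nat_lit 5) (nat_lit 373) (nat_lit 299) (nat_lit 228)) (XT.lf (nat_lit 0) (nat_lit 4295051522) (nat_lit 304) (nat_lit 6528995693) (nat_lit 76) (nat_lit 4930137251) (nat_lit 65) (nat_lit 5) (nat_lit 69) (nat_lit 5) (nat_lit 66) (nat_lit 5) (nat_lit 374) (nat_lit 299) (nat_lit 227)))))) (XT.nd (nat_lit 468) (nat_lit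 760) (nat_lit 0) (XT.nd (nat_lit 234) (nat_lit 228) (nat_lit 0) (XT.nd (nat_lit 78) (nat_lit 228) (nat_lit 0) (XT.lf (nat_lit 0) (nat_lit 1994273684) (nat_lit 152) (nat_lit 6151159573) (nat_lit 228) (nat_lit 7922587238) (nat_lit 63) (nat_lit 5) (nat_lit 65) (nat_lit 5) (nat_lit 66) (nat_lit 5) (nat_lit 375) (nat_lit 299) (nat_lit 226)) (XT.nd (nat_lit 78) (nat_lit 228) (nat_lit 0) (XT.lf (nat_lit 0) (nat_lit 10858337791) (nat_lit 152) (nat_lit 1289342511) (nat_lit 228) (nat_lit 4242510869) (nat_lit 63) (nat_lit 5) (nat_lit 65) (nat_lit 5) (nat_lit 66) (nat_lit 5) (nat_lit 376) (nat_lit 299) (nat_lit 225)) (XT.lf (nat_lit 0) (nat_lit 3245878606) (nat_lit 228) (nat_lit 13062166757) (nat_lit 304) (nat_lit 412849966) (nat_lit 60) (nat_lit 5) (nat_lit 63) (nat_lit 5) (nat_lit 64) (nat_lit 5) (nat_lit 377) (nat_lit 299) (nat_lit 224)))) (XT.nd (nat_lit 78) (nat_lit 152) (nat_lit 0) (XT.lf (nat_lit 0) (nat_lit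 3503163529) (nat_lit 304) (nat_lit 4754898334) (nat_lit 76) (nat_lit 8801238232) (nat_lit 59) (nat_lit 5) (nat_lit 63) (nat_lit 5) (nat_lit 60) (nat_lit 5) (nat_lit 378) (nat_lit 299) (nat_lit 223)) (XT.nd (nat_lit 78) (nat_lit 0) (nat_lit 0) (XT.lf (nat_lit 0) (nat_lit 4259122576) (nat_lit 152) (nat_lit 3282216378) (nat_lit 228) (nat_lit 9866015082) (nat_lit 57) (nat_lit 5) (nat_lit 59) (nat_lit 5) (nat_lit 60) (nat_lit 5) (nat_lit 379) (nat_lit 299) (nat_lit 222)) (XT.lf (nat_lit 0) (nat_lit 11739093604) (nat_lit 228) (nat_lit 4188487985) (nat_lit 76) (nat_lit 1837123768) (nat_lit 57) (nat_lit 5) (nat_lit 60) (nat_lit 5) (nat_lit 58) (nat_lit 5) (nat_lit 380) (nat_lit 299) (nat_lit 221))))) (XT.nd (nat_lit 234) (nat_lit 380) (nat_lit 0) (XT.nd (nat_lit 78) (nat_lit 228) (nat_lit 0) (XT.lf (nat_lit 0) (nat_lit 5060747518) (nat_lit 152) (nat_lit 11056214740) (nat_lit 228) (nat_lit 2014198044) (nat_lit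 55) (nat_lit 5) (nat_lit 57) (nat_lit 5) (nat_lit 58) (nat_lit 5) (nat_lit 381) (nat_lit 299) (nat_lit 220)) (XT.nd (nat_lit 78) (nat_lit 152) (nat_lit 0) (XT.lf (nat_lit 0) (nat_lit 2092068457) (nat_lit 228) (nat_lit 3900446995) (nat_lit 76) (nat_lit 12515015874) (nat_lit 54) (nat_lit 5) (nat_lit 57) (nat_lit 5) (nat_lit 55) (nat_lit 5) (nat_lit 382) (nat_lit 299) (nat_lit 219)) (XT.lf (nat_lit 0) (nat_lit 5589421743) (nat_lit 152) (nat_lit 719247041) (nat_lit 228) (nat_lit 12585105346) (nat_lit 52) (nat_lit 5) (nat_lit 54) (nat_lit 5) (nat_lit 55) (nat_lit 5) (nat_lit 383) (nat_lit 299) (nat_lit 218)))) (XT.nd (nat_lit 156) (nat_lit 228) (nat_lit 0) (XT.nd (nat_lit 78) (nat_lit 152) (nat_lit 0) (XT.lf (nat_lit 0) (nat_lit 10710905017) (nat_lit 228) (nat_lit 3936662280) (nat_lit 76) (nat_lit 4642270357) (nat_lit 52) (nat_lit 5) (nat_lit 55) (nat_lit 5) (nat_lit 53) (nat_lit 5) (nat_lit 384) (nat_lit 299)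 (nat_lit 217)) (XT.lf (nat_lit 0) (nat_lit 5774418088) (nat_lit 152) (nat_lit 9508238480) (nat_lit 228) (nat_lit 4414010423) (nat_lit 50) (nat_lit 5) (nat_lit 52) (nat_lit 5) (nat_lit 53) (nat_lit 5) (nat_lit 385) (nat_lit 299) (nat_lit 216))) (XT.nd (nat_lit 78) (nat_lit 228) (nat_lit 0) (XT.lf (nat_lit 0) (nat_lit 15814753223) (nat_lit 152) (nat_lit 4191701970) (nat_lit 228) (nat_lit 108806320) (nat_lit 50) (nat_lit 5) (nat_lit 52) (nat_lit 5) (nat_lit 53) (nat_lit 5) (nat_lit 386) (nat_lit 299) (nat_lit 215)) (XT.lf (nat_lit 0) (nat_lit 4284070546) (nat_lit 228) (nat_lit 14921136387) (nat_lit 76) (nat_lit 1338678556) (nat_lit 47) (nat_lit 5) (nat_lit 50) (nat_lit 5) (nat_lit 48) (nat_lit 5) (nat_lit 387) (nat_lit 299) (nat_lit 214))))))) (XT.nd (nat_lit 1014) (nat_lit 836) (nat_lit 0) (XT.nd (nat_lit 468) (nat_lit 380) (nat_lit 0) (XT.nd (nat_lit 234) (nat_lit 380) (nat_lit 0) (XT.nd (nat_lit 78) (nat_lit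 152) (nat_lit 0) (XT.lf (nat_lit 0) (nat_lit 8867667231) (nat_lit 228) (nat_lit 5137383678) (nat_lit 76) (nat_lit 6978457880) (nat_lit 47) (nat_lit 5) (nat_lit 50) (nat_lit 5) (nat_lit 48) (nat_lit 5) (nat_lit 388) (nat_lit 299) (nat_lit 213)) (XT.nd (nat_lit 78) (nat_lit 0) (nat_lit 0) (XT.lf (nat_lit 0) (nat_lit 4996438910) (nat_lit 152) (nat_lit 8616829443) (nat_lit 228) (nat_lit 7822323881) (nat_lit 45) (nat_lit 5) (nat_lit 47) (nat_lit 5) (nat_lit 48) (nat_lit 5) (nat_lit 389) (nat_lit 299) (nat_lit 212)) (XT.lf (nat_lit 0) (nat_lit 15499047669) (nat_lit 152) (nat_lit 3030830766) (nat_lit 228) (nat_lit 3370506678) (nat_lit 45) (nat_lit 5) (nat_lit 47) (nat_lit 5) (nat_lit 48) (nat_lit 5) (nat_lit 390) (nat_lit 299) (nat_lit 211)))) (XT.nd (nat_lit 78) (nat_lit 152) (nat_lit 0) (XT.lf (nat_lit 0) (nat_lit 1232970683) (nat_lit 228) (nat_lit 18441361999) (nat_lit 76) (nat_lit 2703190201) (nat_lit 42)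 (nat_lit 5) (nat_lit 45) (nat_lit 5) (nat_lit 43) (nat_lit 5) (nat_lit 391) (nat_lit 299) (nat_lit 210)) (XT.nd (nat_lit 78) (nat_lit 152) (nat_lit 0) (XT.lf (nat_lit 0) (nat_lit 5979430770) (nat_lit 228) (nat_lit 8255995959) (nat_lit 76) (nat_lit 8630373884) (nat_lit 42) (nat_lit 5) (nat_lit 45) (nat_lit 5) (nat_lit 43) (nat_lit 5) (nat_lit 392) (nat_lit 299) (nat_lit 209)) (XT.lf (nat_lit 0) (nat_lit 2239856078) (nat_lit 152) (nat_lit 8627952709) (nat_lit 228) (nat_lit 12500937636) (nat_lit 40) (nat_lit 5) (nat_lit 42) (nat_lit 5) (nat_lit 43) (nat_lit 5) (nat_lit 393) (nat_lit 299) (nat_lit 208))))) (XT.nd (nat_lit 234) (nat_lit 228) (nat_lit 0) (XT.nd (nat_lit 78) (nat_lit 152) (nat_lit 0) (XT.lf (nat_lit 0) (nat_lit 13181421081) (nat_lit 152) (nat_lit 2783051523) (nat_lit 228) (nat_lit 7920464283) (nat_lit 40) (nat_lit 5) (nat_lit 42) (nat_lit 5) (nat_lit 43) (nat_lit 5) (nat_lit 394) (nat_lit 299)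 (nat_lit 207)) (XT.nd (nat_lit 78) (nat_lit 152) (nat_lit 0) (XT.lf (nat_lit 0) (nat_lit 21223896843) (nat_lit 228) (nat_lit 34264510) (nat_lit 76) (nat_lit 3158161054) (nat_lit 40) (nat_lit 5) (nat_lit 43) (nat_lit 5) (nat_lit 41) (nat_lit 4) (nat_lit 395) (nat_lit 299) (nat_lit 206)) (XT.lf (nat_lit 0) (nat_lit 1759531542) (nat_lit 152) (nat_lit 13869902202) (nat_lit 76) (nat_lit 9330292556) (nat_lit 38) (nat_lit 5) (nat_lit 40) (nat_lit 5) (nat_lit 39) (nat_lit 5) (nat_lit 396) (nat_lit 299) (nat_lit 205)))) (XT.nd (nat_lit 156) (nat_lit 76) (nat_lit 0) (XT.nd (nat_lit 78) (nat_lit 152) (nat_lit 0) (XT.lf (nat_lit 0) (nat_lit 6775639437) (nat_lit 152) (nat_lit 3039417423) (nat_lit 76) (nat_lit 15704039225) (nat_lit 38) (nat_lit 5) (nat_lit 40) (nat_lit 5) (nat_lit 39) (nat_lit 5) (nat_lit 397) (nat_lit 299) (nat_lit 204)) (XT.lf (nat_lit 0) (nat_lit 8241144220) (nat_lit 152) (nat_lit 3760312295) (nat_lit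 228) (nat_lit 14092018253) (nat_lit 36) (nat_lit 5) (nat_lit 38) (nat_lit 5) (nat_lit 39) (nat_lit 5) (nat_lit 398) (nat_lit 299) (nat_lit 203))) (XT.nd (nat_lit 78) (nat_lit 76) (nat_lit 0) (XT.lf (nat_lit 0) (nat_lit 17418946186) (nat_lit 228) (nat_lit 6821591686) (nat_lit 76) (nat_lit 2443504446) (nat_lit 36) (nat_lit 5) (nat_lit 39) (nat_lit 5) (nat_lit 37) (nat_lit 4) (nat_lit 399) (nat_lit 299) (nat_lit 202)) (XT.lf (nat_lit 0) (nat_lit 4557054328) (nat_lit 76) (nat_lit 18503622319) (nat_lit 152) (nat_lit 4229803084) (nat_lit 35) (nat_lit 5) (nat_lit 36) (nat_lit 5) (nat_lit 37) (nat_lit 4) (nat_lit 400) (nat_lit 299) (nat_lit 201)))))) (XT.nd (nat_lit 546) (nat_lit 456) (nat_lit 0) (XT.nd (nat_lit 234) (nat_lit 152) (nat_lit 0) (XT.nd (nat_lit 78) (nat_lit 152) (nat_lit 0) (XT.lf (nat_lit 0) (nat_lit 988169111) (nat_lit 152) (nat_lit 11540781273) (nat_lit 76) (nat_lit 15384379524) (nat_lit 34) (nat_lit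 5) (nat_lit 36) (nat_lit 5) (nat_lit 35) (nat_lit 5) (nat_lit 401) (nat_lit 299) (nat_lit 200)) (XT.nd (nat_lit 78) (nat_lit 152) (nat_lit 0) (XT.lf (nat_lit 0) (nat_lit 6258946533) (nat_lit 152) (nat_lit 87980993) (nat_lit 76) (nat_lit 22207247213) (nat_lit 34) (nat_lit 5) (nat_lit 36) (nat_lit 5) (nat_lit 35) (nat_lit 5) (nat_lit 402) (nat_lit 299) (nat_lit 199)) (XT.lf (nat_lit 0) (nat_lit 11785331200) (nat_lit 228) (nat_lit 17304540306) (nat_lit 76) (nat_lit 121452730) (nat_lit 32) (nat_lit 5) (nat_lit 35) (nat_lit 5) (nat_lit 33) (nat_lit 4) (nat_lit 403) (nat_lit 299) (nat_lit 198)))) (XT.nd (nat_lit 156) (nat_lit 76) (nat_lit 0) (XT.nd (nat_lit 78) (nat_lit 76) (nat_lit 0) (XT.lf (nat_lit 0) (nat_lit 17523149913) (nat_lit 228) (nat_lit 5720659009) (nat_lit 76) (nat_lit 6643013745) (nat_lit 32) (nat_lit 5) (nat_lit 35) (nat_lit 5) (nat_lit 33) (nat_lit 4) (nat_lit 404) (nat_lit 299) (nat_lit 197))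 (XT.lf (nat_lit 0) (nat_lit 6301823488) (nat_lit 76) (nat_lit 17174288147) (nat_lit 152) (nat_lit 7105187781) (nat_lit 31) (nat_lit 5) (nat_lit 32) (nat_lit 5) (nat_lit 33) (nat_lit 4) (nat_lit 405) (nat_lit 299) (nat_lit 196))) (XT.nd (nat_lit 78) (nat_lit 76) (nat_lit 0) (XT.lf (nat_lit 0) (nat_lit 18770674462) (nat_lit 76) (nat_lit 10877394847) (nat_lit 152) (nat_lit 1647332458) (nat_lit 31) (nat_lit 5) (nat_lit 32) (nat_lit 5) (nat_lit 33) (nat_lit 4) (nat_lit 406) (nat_lit 299) (nat_lit 195)) (XT.lf (nat_lit 0) (nat_lit 3879681507) (nat_lit 152) (nat_lit 486535638) (nat_lit 76) (nat_lit 27664078009) (nat_lit 30) (nat_lit 5) (nat_lit 32) (nat_lit 5) (nat_lit 31) (nat_lit 5) (nat_lit 407) (nat_lit 299) (nat_lit 194))))) (XT.nd (nat_lit 234) (nat_lit 228) (nat_lit 0) (XT.nd (nat_lit 78) (nat_lit 76) (nat_lit 0) (XT.lf (nat_lit 0) (nat_lit 9662883634) (nat_lit 228) (nat_lit 20704871776) (nat_lit 76) (nat_lit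 2415289218) (nat_lit 28) (nat_lit 5) (nat_lit 31) (nat_lit 5) (nat_lit 29) (nat_lit 4) (nat_lit 408) (nat_lit 299) (nat_lit 193)) (XT.nd (nat_lit 78) (nat_lit 76) (nat_lit 0) (XT.lf (nat_lit 0) (nat_lit 15651309907) (nat_lit 228) (nat_lit 8601873890) (nat_lit 76) (nat_lit 9304244067) (nat_lit 28) (nat_lit 5) (nat_lit 31) (nat_lit 5) (nat_lit 29) (nat_lit 4) (nat_lit 409) (nat_lit 299) (nat_lit 192)) (XT.lf (nat_lit 0) (nat_lit 3911252793) (nat_lit 76) (nat_lit 17929749558) (nat_lit 152) (nat_lit 12513394873) (nat_lit 27) (nat_lit 5) (nat_lit 28) (nat_lit 5) (nat_lit 29) (nat_lit 4) (nat_lit 410) (nat_lit 299) (nat_lit 191)))) (XT.nd (nat_lit 156) (nat_lit 228) (nat_lit 0) (XT.nd (nat_lit 78) (nat_lit 0) (nat_lit 0) (XT.lf (nat_lit 0) (nat_lit 16947106587) (nat_lit 76) (nat_lit 11340343890) (nat_lit 152) (nat_lit 6885696183) (nat_lit 27) (nat_lit 5) (nat_lit 28) (nat_lit 5) (nat_lit 29) (nat_lit 4) (nat_lit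 411) (nat_lit 299) (nat_lit 190)) (XT.lf (nat_lit 0) (nat_lit 30345883886) (nat_lit 76) (nat_lit 4566071121) (nat_lit 152) (nat_lit 1104966540) (nat_lit 27) (nat_lit 5) (nat_lit 28) (nat_lit 5) (nat_lit 29) (nat_lit 4) (nat_lit 412) (nat_lit 299) (nat_lit 189))) (XT.nd (nat_lit 78) (nat_lit 0) (nat_lit 0) (XT.lf (nat_lit 0) (nat_lit 4834192198) (nat_lit 228) (nat_lit 29577779598) (nat_lit 76) (nat_lit 2470253207) (nat_lit 24) (nat_lit 5) (nat_lit 27) (nat_lit 5) (nat_lit 25) (nat_lit 4) (nat_lit 413) (nat_lit 299) (nat_lit 188)) (XT.lf (nat_lit 0) (nat_lit 11017373369) (nat_lit 228) (nat_lit 17070733465) (nat_lit 76) (nat_lit 9682413441) (nat_lit 24) (nat_lit 5) (nat_lit 27) (nat_lit 5) (nat_lit 25) (nat_lit 4) (nat_lit 414) (nat_lit 299) (nat_lit 187))))))))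
noncomputable def xc104 : XT := (XT.nd (nat_lit 2028) (nat_lit 228) (nat_lit 0) (XT.nd (nat_lit 1014) (nat_lit 304) (nat_lit 0) (XT.nd (nat_lit 468) (nat_lit 228) (nat_lit 0) (XT.nd (nat_lit 234) (nat_lit 152) (nat_lit 0) (XT.nd (nat_lit 78) (nat_lit 76) (nat_lit 0) (XT.lf (nat_lit 0) (nat_lit 17371500874) (nat_lit 228) (nat_lit 4215361083) (nat_lit 76) (nat_lit 17099041461) (nat_lit 24) (nat_lit 5) (nat_lit 27) (nat_lit 5) (nat_lit 25) (nat_lit 4) (nat_lit 415) (nat_lit 299) (nat_lit 186)) (XT.nd (nat_lit 78) (nat_lit 0) (nat_lit 0) (XT.lf (nat_lit 0) (nat_lit 9178679495) (nat_lit 76) (nat_lit 14811678449) (nat_lit 152) (nat_lit 15636169401) (nat_lit 23) (nat_lit 5) (nat_lit 24) (nat_lit 5) (nat_lit 25) (nat_lit 4) (nat_lit 416) (nat_lit 299) (nat_lit 185)) (XT.lf (nat_lit 0) (nat_lit 23035105891) (nat_lit 76) (nat_lit 7801279343) (nat_lit 152) (nat_lit 9758129012) (nat_lit 23) (nat_lit 5) (nat_lit 24)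 (nat_lit 5) (nat_lit 25) (nat_lit 4) (nat_lit 417) (nat_lit 299) (nat_lit 184)))) (XT.nd (nat_lit 78) (nat_lit 152) (nat_lit 0) (XT.lf (nat_lit 0) (nat_lit 37282131710) (nat_lit 76) (nat_lit 592105931) (nat_lit 152) (nat_lit 3717712106) (nat_lit 23) (nat_lit 5) (nat_lit 24) (nat_lit 5) (nat_lit 25) (nat_lit 4) (nat_lit 418) (nat_lit 299) (nat_lit 183)) (XT.nd (nat_lit 78) (nat_lit 0) (nat_lit 0) (XT.lf (nat_lit 0) (nat_lit 2599545036) (nat_lit 152) (nat_lit 33209550393) (nat_lit 76) (nat_lit 6805158353) (nat_lit 21) (nat_lit 5) (nat_lit 23) (nat_lit 5) (nat_lit 22) (nat_lit 4) (nat_lit 419) (nat_lit 299) (nat_lit 182)) (XT.lf (nat_lit 0) (nat_lit 9068162855) (nat_lit 152) (nat_lit 20114692189) (nat_lit 76) (nat_lit 14482172788) (nat_lit 21) (nat_lit 5) (nat_lit 23) (nat_lit 5) (nat_lit 22) (nat_lit 4) (nat_lit 420) (nat_lit 299) (nat_lit 181))))) (XT.nd (nat_lit 234) (nat_lit 152) (nat_lit 0) (XT.nd (nat_lit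 78) (nat_lit 76) (nat_lit 0) (XT.lf (nat_lit 0) (nat_lit 15717976343) (nat_lit 152) (nat_lit 6650945534) (nat_lit 76) (nat_lit 22378791176) (nat_lit 21) (nat_lit 5) (nat_lit 23) (nat_lit 5) (nat_lit 22) (nat_lit 4) (nat_lit 421) (nat_lit 299) (nat_lit 180)) (XT.nd (nat_lit 78) (nat_lit 0) (nat_lit 0) (XT.lf (nat_lit 0) (nat_lit 7336617850) (nat_lit 76) (nat_lit 15288702227) (nat_lit 152) (nat_lit 23235819682) (nat_lit 20) (nat_lit 5) (nat_lit 21) (nat_lit 5) (nat_lit 22) (nat_lit 4) (nat_lit 422) (nat_lit 299) (nat_lit 179)) (XT.lf (nat_lit 0) (nat_lit 21857114525) (nat_lit 76) (nat_lit 7937585230) (nat_lit 152) (nat_lit 17211626985) (nat_lit 20) (nat_lit 5) (nat_lit 21) (nat_lit 5) (nat_lit 22) (nat_lit 4) (nat_lit 423) (nat_lit 299) (nat_lit 178)))) (XT.nd (nat_lit 156) (nat_lit 76) (nat_lit 0) (XT.nd (nat_lit 78) (nat_lit 76) (nat_lit 0) (XT.lf (nat_lit 0) (nat_lit 36790865446) (nat_lit 76) (nat_lit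 376309092) (nat_lit 152) (nat_lit 11019056272) (nat_lit 20) (nat_lit 5) (nat_lit 21) (nat_lit 5) (nat_lit 22) (nat_lit 4) (nat_lit 424) (nat_lit 299) (nat_lit 177)) (XT.lf (nat_lit 0) (nat_lit 2731181777) (nat_lit 76) (nat_lit 42115408389) (nat_lit 76) (nat_lit 4552370668) (nat_lit 19) (nat_lit 4) (nat_lit 20) (nat_lit 5) (nat_lit 20) (nat_lit 4) (nat_lit 425) (nat_lit 299) (nat_lit 176))) (XT.nd (nat_lit 78) (nat_lit 0) (nat_lit 0) (XT.lf (nat_lit 0) (nat_lit 2175392777) (nat_lit 152) (nat_lit 33176616160) (nat_lit 76) (nat_lit 15292211016) (nat_lit 18) (nat_lit 5) (nat_lit 20) (nat_lit 5) (nat_lit 19) (nat_lit 4) (nat_lit 426) (nat_lit 299) (nat_lit 175)) (XT.lf (nat_lit 0) (nat_lit 9002114389) (nat_lit 152) (nat_lit 19347134178) (nat_lit 76) (nat_lit 23576579063) (nat_lit 18) (nat_lit 5) (nat_lit 20) (nat_lit 5) (nat_lit 19) (nat_lit 4) (nat_lit 427) (nat_lit 299) (nat_lit 174)))))) (XT.nd (nat_lit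 468) (nat_lit 152) (nat_lit 0) (XT.nd (nat_lit 234) (nat_lit 76) (nat_lit 0) (XT.nd (nat_lit 78) (nat_lit 76) (nat_lit 0) (XT.lf (nat_lit 0) (nat_lit 16022592412) (nat_lit 152) (nat_lit 5123488926) (nat_lit 76) (nat_lit 32100135185) (nat_lit 18) (nat_lit 5) (nat_lit 20) (nat_lit 5) (nat_lit 19) (nat_lit 4) (nat_lit 428) (nat_lit 299) (nat_lit 173)) (XT.nd (nat_lit 78) (nat_lit 0) (nat_lit 0) (XT.lf (nat_lit 0) (nat_lit 9695950949) (nat_lit 76) (nat_lit 13640213709) (nat_lit 152) (nat_lit 31267579611) (nat_lit 17) (nat_lit 5) (nat_lit 18) (nat_lit 5) (nat_lit 19) (nat_lit 4) (nat_lit 429) (nat_lit 299) (nat_lit 172)) (XT.lf (nat_lit 0) (nat_lit 25045080092) (nat_lit 76) (nat_lit 5865198487) (nat_lit 152) (nat_lit 25090486766) (nat_lit 17) (nat_lit 5) (nat_lit 18) (nat_lit 5) (nat_lit 19) (nat_lit 4) (nat_lit 430) (nat_lit 299) (nat_lit 171)))) (XT.nd (nat_lit 78) (nat_lit 76) (nat_lit 0) (XT.lf (nat_lit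 0) (nat_lit 38721835568) (nat_lit 152) (nat_lit 16625177987) (nat_lit 0) (nat_lit 2092378402) (nat_lit 17) (nat_lit 5) (nat_lit 19) (nat_lit 4) (nat_lit 17) (nat_lit 4) (nat_lit 431) (nat_lit 299) (nat_lit 170)) (XT.nd (nat_lit 78) (nat_lit 76) (nat_lit 0) (XT.lf (nat_lit 0) (nat_lit 46815732066) (nat_lit 152) (nat_lit 1941820530) (nat_lit 0) (nat_lit 10162186432) (nat_lit 17) (nat_lit 5) (nat_lit 19) (nat_lit 4) (nat_lit 17) (nat_lit 4) (nat_lit 432) (nat_lit 299) (nat_lit 169)) (XT.lf (nat_lit 0) (nat_lit 13425578503) (nat_lit 76) (nat_lit 41846136905) (nat_lit 76) (nat_lit 5169204410) (nat_lit 16) (nat_lit 4) (nat_lit 17) (nat_lit 5) (nat_lit 17) (nat_lit 4) (nat_lit 433) (nat_lit 299) (nat_lit 168))))) (XT.nd (nat_lit 234) (nat_lit 76) (nat_lit 0) (XT.nd (nat_lit 78) (nat_lit 0) (nat_lit 0) (XT.lf (nat_lit 0) (nat_lit 1945159491) (nat_lit 152) (nat_lit 32750964419) (nat_lit 76) (nat_lit 27310743387)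 (nat_lit 15) (nat_lit 5) (nat_lit 17) (nat_lit 5) (nat_lit 16) (nat_lit 4) (nat_lit 434) (nat_lit 299) (nat_lit 167)) (XT.nd (nat_lit 78) (nat_lit 0) (nat_lit 0) (XT.lf (nat_lit 0) (nat_lit 9159570474) (nat_lit 152) (nat_lit 18127754483) (nat_lit 76) (nat_lit 36331218759) (nat_lit 15) (nat_lit 5) (nat_lit 17) (nat_lit 5) (nat_lit 16) (nat_lit 4) (nat_lit 435) (nat_lit 299) (nat_lit 166)) (XT.lf (nat_lit 0) (nat_lit 16581202189) (nat_lit 152) (nat_lit 3083244393) (nat_lit 76) (nat_lit 45614401442) (nat_lit 15) (nat_lit 5) (nat_lit 17) (nat_lit 5) (nat_lit 16) (nat_lit 4) (nat_lit 436) (nat_lit 299) (nat_lit 165)))) (XT.nd (nat_lit 156) (nat_lit 0) (nat_lit 0) (XT.nd (nat_lit 78) (nat_lit 0) (nat_lit 0) (XT.lf (nat_lit 0) (nat_lit 12642410505) (nat_lit 76) (nat_lit 11695655636) (nat_lit 152) (nat_lit 42647519034) (nat_lit 14) (nat_lit 5) (nat_lit 15) (nat_lit 5) (nat_lit 16) (nat_lit 4) (nat_lit 437) (nat_lit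 299) (nat_lit 164)) (XT.lf (nat_lit 0) (nat_lit 28886314662) (nat_lit 76) (nat_lit 3463612498) (nat_lit 152) (nat_lit 36392929721) (nat_lit 14) (nat_lit 5) (nat_lit 15) (nat_lit 5) (nat_lit 16) (nat_lit 4) (nat_lit 438) (nat_lit 299) (nat_lit 163))) (XT.nd (nat_lit 78) (nat_lit 0) (nat_lit 0) (XT.lf (nat_lit 0) (nat_lit 40641695488) (nat_lit 152) (nat_lit 24999943763) (nat_lit 0) (nat_lit 4910022087) (nat_lit 14) (nat_lit 5) (nat_lit 16) (nat_lit 4) (nat_lit 14) (nat_lit 4) (nat_lit 439) (nat_lit 299) (nat_lit 162)) (XT.lf (nat_lit 0) (nat_lit 49208102740) (nat_lit 152) (nat_lit 9747884187) (nat_lit 0) (nat_lit 13457967534) (nat_lit 14) (nat_lit 5) (nat_lit 16) (nat_lit 4) (nat_lit 14) (nat_lit 4) (nat_lit 440) (nat_lit 299) (nat_lit 161))))))) (XT.nd (nat_lit 36426) (nat_lit 0) (nat_lit 21128) (XT.nd (nat_lit 35880) (nat_lit 0) (nat_lit 25536) (XT.nd (nat_lit 234) (nat_lit 152) (nat_lit 0) (XT.nd (nat_lit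 78) (nat_lit 0) (nat_lit 0) (XT.lf (nat_lit 0) (nat_lit 6064600103) (nat_lit 76) (nat_lit 52017036306) (nat_lit 76) (nat_lit 16248977018) (nat_lit 13) (nat_lit 4) (nat_lit 14) (nat_lit 5) (nat_lit 14) (nat_lit 4) (nat_lit 441) (nat_lit 299) (nat_lit 160)) (XT.nd (nat_lit 78) (nat_lit 0) (nat_lit 0) (XT.lf (nat_lit 0) (nat_lit 22535953485) (nat_lit 76) (nat_lit 44775785079) (nat_lit 76) (nat_lit 8990323770) (nat_lit 13) (nat_lit 4) (nat_lit 14) (nat_lit 5) (nat_lit 14) (nat_lit 4) (nat_lit 442) (nat_lit 299) (nat_lit 159)) (XT.lf (nat_lit 0) (nat_lit 39486566395) (nat_lit 76) (nat_lit 37324340456) (nat_lit 76) (nat_lit 1521983980) (nat_lit 13) (nat_lit 4) (nat_lit 14) (nat_lit 5) (nat_lit 14) (nat_lit 4) (nat_lit 443) (nat_lit 299) (nat_lit 158)))) (XT.nd (nat_lit 78) (nat_lit 76) (nat_lit 0) (XT.lf (nat_lit 0) (nat_lit 6042314183) (nat_lit 152) (nat_lit 23552861757) (nat_lit 76) (nat_lit 50827920338) (nat_lit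 12) (nat_lit 5) (nat_lit 14) (nat_lit 5) (nat_lit 13) (nat_lit 4) (nat_lit 444) (nat_lit 299) (nat_lit 157)) (XT.nd (nat_lit 78) (nat_lit 76) (nat_lit 0) (XT.lf (nat_lit 0) (nat_lit 13795489783) (nat_lit 152) (nat_lit 7829840604) (nat_lit 76) (nat_lit 60950450189) (nat_lit 12) (nat_lit 5) (nat_lit 14) (nat_lit 5) (nat_lit 13) (nat_lit 4) (nat_lit 445) (nat_lit 299) (nat_lit 156)) (XT.lf (nat_lit 0) (nat_lit 8517311243) (nat_lit 76) (nat_lit 13338579189) (nat_lit 152) (nat_lit 62934916979) (nat_lit 11) (nat_lit 5) (nat_lit 12) (nat_lit 5) (nat_lit 13) (nat_lit 4) (nat_lit 446) (nat_lit 299) (nat_lit 155))))) (XT.nd (nat_lit 234) (nat_lit 380) (nat_lit 0) (XT.nd (nat_lit 78) (nat_lit 76) (nat_lit 0) (XT.lf (nat_lit 0) (nat_lit 1073741823) (nat_lit 0) (nat_lit 0) (nat_lit 0) (nat_lit 0) (nat_lit 353) (nat_lit 0) (nat_lit 1) (nat_lit 0) (nat_lit 1) (nat_lit 0) (nat_lit 300) (nat_lit 300) (nat_lit 300)) (XT.nd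 (nat_lit 78) (nat_lit 0) (nat_lit 0) (XT.lf (nat_lit 0) (nat_lit 3040318811) (nat_lit 76) (nat_lit 3343202198) (nat_lit 0) (nat_lit 59903398) (nat_lit 352) (nat_lit 5) (nat_lit 353) (nat_lit 0) (nat_lit 352) (nat_lit 4) (nat_lit 301) (nat_lit 300) (nat_lit 299)) (XT.lf (nat_lit 0) (nat_lit 6053785148) (nat_lit 76) (nat_lit 214595067) (nat_lit 0) (nat_lit 179762539) (nat_lit 352) (nat_lit 5) (nat_lit 353) (nat_lit 0) (nat_lit 352) (nat_lit 4) (nat_lit 302) (nat_lit 300) (nat_lit 298)))) (XT.nd (nat_lit 156) (nat_lit 228) (nat_lit 0) (XT.nd (nat_lit 78) (nat_lit 0) (nat_lit 0) (XT.lf (nat_lit 0) (nat_lit 2565120969) (nat_lit 152) (nat_lit 3476154416) (nat_lit 76) (nat_lit 413713772) (nat_lit 350) (nat_lit 5) (nat_lit 352) (nat_lit 5) (nat_lit 351) (nat_lit 4) (nat_lit 303) (nat_lit 300) (nat_lit 297)) (XT.lf (nat_lit 0) (nat_lit 5494505150) (nat_lit 152) (nat_lit 257006835) (nat_lit 76) (nat_lit 713899474)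 (nat_lit 350) (nat_lit 5) (nat_lit 352) (nat_lit 5) (nat_lit 351) (nat_lit 4) (nat_lit 304) (nat_lit 300) (nat_lit 296))) (XT.nd (nat_lit 78) (nat_lit 0) (nat_lit 0) (XT.lf (nat_lit 0) (nat_lit 1914490650) (nat_lit 228) (nat_lit 3440842770) (nat_lit 76) (nat_lit 1122818260) (nat_lit 347) (nat_lit 5) (nat_lit 350) (nat_lit 5) (nat_lit 348) (nat_lit 5) (nat_lit 305) (nat_lit 300) (nat_lit 295)) (XT.lf (nat_lit 0) (nat_lit 4761113779) (nat_lit 228) (nat_lit 128530798) (nat_lit 76) (nat_lit 1604661354) (nat_lit 347) (nat_lit 5) (nat_lit 350) (nat_lit 5) (nat_lit 348) (nat_lit 5) (nat_lit 306) (nat_lit 300) (nat_lit 294)))))) (XT.nd (nat_lit 546) (nat_lit 2812) (nat_lit 0) (XT.nd (nat_lit 234) (nat_lit 912) (nat_lit 0) (XT.nd (nat_lit 78) (nat_lit 380) (nat_lit 0) (XT.lf (nat_lit 0) (nat_lit 1084553901) (nat_lit 304) (nat_lit 3238235039) (nat_lit 76) (nat_lit 2190189207) (nat_lit 343) (nat_lit 5) (nat_lit 347)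 (nat_lit 5) (nat_lit 344) (nat_lit 5) (nat_lit 307) (nat_lit 300) (nat_lit 293)) (XT.nd (nat_lit 78) (nat_lit 76) (nat_lit 0) (XT.lf (nat_lit 0) (nat_lit 173623446) (nat_lit 304) (nat_lit 3677397324) (nat_lit 380) (nat_lit 2683837450) (nat_lit 339) (nat_lit 5) (nat_lit 343) (nat_lit 5) (nat_lit 344) (nat_lit 5) (nat_lit 308) (nat_lit 300) (nat_lit 292)) (XT.lf (nat_lit 0) (nat_lit 70657052) (nat_lit 380) (nat_lit 2868613790) (nat_lit 76) (nat_lit 3620297292) (nat_lit 338) (nat_lit 5) (nat_lit 343) (nat_lit 5) (nat_lit 339) (nat_lit 5) (nat_lit 309) (nat_lit 300) (nat_lit 291)))) (XT.nd (nat_lit 156) (nat_lit 532) (nat_lit 0) (XT.nd (nat_lit 78) (nat_lit 0) (nat_lit 0) (XT.lf (nat_lit 0) (nat_lit 652103878) (nat_lit 380) (nat_lit 2108337254) (nat_lit 456) (nat_lit 3826705029) (nat_lit 333) (nat_lit 5) (nat_lit 338) (nat_lit 5) (nat_lit 339) (nat_lit 5) (nat_lit 310) (nat_lit 300) (nat_lit 290)) (XT.lf (nat_lit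 0) (nat_lit 4275028676) (nat_lit 380) (nat_lit 1187491195) (nat_lit 456) (nat_lit 1155201985) (nat_lit 333) (nat_lit 5) (nat_lit 338) (nat_lit 5) (nat_lit 339) (nat_lit 5) (nat_lit 311) (nat_lit 300) (nat_lit 289))) (XT.nd (nat_lit 78) (nat_lit 0) (nat_lit 0) (XT.lf (nat_lit 0) (nat_lit 1305128367) (nat_lit 456) (nat_lit 177132116) (nat_lit 532) (nat_lit 5169096521) (nat_lit 326) (nat_lit 5) (nat_lit 332) (nat_lit 5) (nat_lit 333) (nat_lit 5) (nat_lit 312) (nat_lit 300) (nat_lit 288)) (XT.lf (nat_lit 0) (nat_lit 4114734450) (nat_lit 532) (nat_lit 1659878136) (nat_lit 76) (nat_lit 912980628) (nat_lit 326) (nat_lit 5) (nat_lit 333) (nat_lit 5) (nat_lit 327) (nat_lit 5) (nat_lit 313) (nat_lit 300) (nat_lit 287))))) (XT.nd (nat_lit 234) (nat_lit 1596) (nat_lit 0) (XT.nd (nat_lit 78) (nat_lit 608) (nat_lit 0) (XT.lf (nat_lit 0) (nat_lit 30205535) (nat_lit 608) (nat_lit 4613944940) (nat_lit 76) (nat_lit 2082911466)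 (nat_lit 318) (nat_lit 5) (nat_lit 326) (nat_lit 5) (nat_lit 319) (nat_lit 5) (nat_lit 314) (nat_lit 300) (nat_lit 286)) (XT.nd (nat_lit 78) (nat_lit 608) (nat_lit 0) (XT.lf (nat_lit 0) (nat_lit 2587259510) (nat_lit 608) (nat_lit 823909205) (nat_lit 76) (nat_lit 3358052636) (nat_lit 318) (nat_lit 5) (nat_lit 326) (nat_lit 5) (nat_lit 319) (nat_lit 5) (nat_lit 315) (nat_lit 300) (nat_lit 285)) (XT.lf (nat_lit 0) (nat_lit 3077368058) (nat_lit 608) (nat_lit 2086522270) (nat_lit 684) (nat_lit 1650565496) (nat_lit 310) (nat_lit 5) (nat_lit 318) (nat_lit 5) (nat_lit 319) (nat_lit 5) (nat_lit 316) (nat_lit 300) (nat_lit 284)))) (XT.nd (nat_lit 156) (nat_lit 836) (nat_lit 0) (XT.nd (nat_lit 78) (nat_lit 0) (nat_lit 0) (XT.lf (nat_lit 0) (nat_lit 182360402) (nat_lit 684) (nat_lit 680180786) (nat_lit 760) (nat_lit 6000587789) (nat_lit 300) (nat_lit 5) (nat_lit 309) (nat_lit 5) (nat_lit 310) (nat_lit 5) (nat_lit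 317) (nat_lit 300) (nat_lit 283)) (XT.lf (nat_lit 0) (nat_lit 3379736294) (nat_lit 760) (nat_lit 2706105102) (nat_lit 76) (nat_lit 828162634) (nat_lit 300) (nat_lit 5) (nat_lit 310) (nat_lit 5) (nat_lit 301) (nat_lit 5) (nat_lit 318) (nat_lit 300) (nat_lit 282))) (XT.nd (nat_lit 78) (nat_lit 76) (nat_lit 0) (XT.lf (nat_lit 0) (nat_lit 1343323673) (nat_lit 760) (nat_lit 4567579823) (nat_lit 836) (nat_lit 1057433658) (nat_lit 290) (nat_lit 5) (nat_lit 300) (nat_lit 5) (nat_lit 301) (nat_lit 5) (nat_lit 319) (nat_lit 300) (nat_lit 281)) (XT.lf (nat_lit 0) (nat_lit 1411851889) (nat_lit 836) (nat_lit 1533406648) (nat_lit 76) (nat_lit 4080272759) (nat_lit 289) (nat_lit 5) (nat_lit 300) (nat_lit 5) (nat_lit 290) (nat_lit 5) (nat_lit 320) (nat_lit 300) (nat_lit 280))))))))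
noncomputable def xc105 : XT := (XT.nd (nat_lit 2028) (nat_lit 5168) (nat_lit 0) (XT.nd (nat_lit 1014) (nat_lit 4180) (nat_lit 0) (XT.nd (nat_lit 468) (nat_lit 3420) (nat_lit 0) (XT.nd (nat_lit 234) (nat_lit 2128) (nat_lit 0) (XT.nd (nat_lit 78) (nat_lit 988) (nat_lit 0) (XT.lf (nat_lit 0) (nat_lit 2659258802) (nat_lit 836) (nat_lit 1222302280) (nat_lit 912) (nat_lit 3204216388) (nat_lit 278) (nat_lit 5) (nat_lit 289) (nat_lit 5) (nat_lit 290) (nat_lit 5) (nat_lit 321) (nat_lit 300) (nat_lit 279)) (XT.nd (nat_lit 78) (nat_lit 988) (nat_lit 0) (XT.lf (nat_lit 0) (nat_lit 6370147485) (nat_lit 912) (nat_lit 208682088) (nat_lit 76) (nat_lit 570733852) (nat_lit 278) (nat_lit 5) (nat_lit 290) (nat_lit 5) (nat_lit 279) (nat_lit 5) (nat_lit 322) (nat_lit 300) (nat_lit 278)) (XT.lf (nat_lit 0) (nat_lit 1662278968) (nat_lit 988) (nat_lit 3090992681) (nat_lit 76) (nat_lit 2462237127) (nat_lit 265) (nat_lit 5) (nat_lit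 278) (nat_lit 5) (nat_lit 266) (nat_lit 5) (nat_lit 323) (nat_lit 300) (nat_lit 277)))) (XT.nd (nat_lit 78) (nat_lit 1140) (nat_lit 0) (XT.lf (nat_lit 0) (nat_lit 1261492405) (nat_lit 988) (nat_lit 2841144412) (nat_lit 1064) (nat_lit 3182401357) (nat_lit 252) (nat_lit 5) (nat_lit 265) (nat_lit 5) (nat_lit 266) (nat_lit 5) (nat_lit 324) (nat_lit 300) (nat_lit 276)) (XT.nd (nat_lit 78) (nat_lit 1140) (nat_lit 0) (XT.lf (nat_lit 0) (nat_lit 5744537130) (nat_lit 988) (nat_lit 831226584) (nat_lit 1064) (nat_lit 782170492) (nat_lit 252) (nat_lit 5) (nat_lit 265) (nat_lit 5) (nat_lit 266) (nat_lit 5) (nat_lit 325) (nat_lit 300) (nat_lit 275)) (XT.lf (nat_lit 0) (nat_lit 1627124518) (nat_lit 1140) (nat_lit 4539750031) (nat_lit 76) (nat_lit 1266617720) (nat_lit 237) (nat_lit 5) (nat_lit 252) (nat_lit 5) (nat_lit 238) (nat_lit 5) (nat_lit 326) (nat_lit 300) (nat_lit 274))))) (XT.nd (nat_lit 234) (nat_lit 1216) (nat_lit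 0) (XT.nd (nat_lit 78) (nat_lit 2204) (nat_lit 0) (XT.lf (nat_lit 0) (nat_lit 4048851286) (nat_lit 1140) (nat_lit 22362272) (nat_lit 76) (nat_lit 3441256746) (nat_lit 237) (nat_lit 5) (nat_lit 252) (nat_lit 5) (nat_lit 238) (nat_lit 5) (nat_lit 327) (nat_lit 300) (nat_lit 273)) (XT.nd (nat_lit 78) (nat_lit 1064) (nat_lit 0) (XT.lf (nat_lit 0) (nat_lit 4658769877) (nat_lit 1140) (nat_lit 1862437427) (nat_lit 1216) (nat_lit 1073331025) (nat_lit 222) (nat_lit 5) (nat_lit 237) (nat_lit 5) (nat_lit 238) (nat_lit 5) (nat_lit 328) (nat_lit 300) (nat_lit 272)) (XT.lf (nat_lit 0) (nat_lit 1316839532) (nat_lit 1064) (nat_lit 5925223155) (nat_lit 76) (nat_lit 438003624) (nat_lit 208) (nat_lit 5) (nat_lit 222) (nat_lit 5) (nat_lit 209) (nat_lit 5) (nat_lit 329) (nat_lit 300) (nat_lit 271)))) (XT.nd (nat_lit 156) (nat_lit 608) (nat_lit 0) (XT.nd (nat_lit 78) (nat_lit 608) (nat_lit 0) (XT.lf (nat_lit 0) (nat_lit 3740702272)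 (nat_lit 1064) (nat_lit 1215120525) (nat_lit 76) (nat_lit 2812566608) (nat_lit 208) (nat_lit 5) (nat_lit 222) (nat_lit 5) (nat_lit 209) (nat_lit 5) (nat_lit 330) (nat_lit 300) (nat_lit 270)) (XT.lf (nat_lit 0) (nat_lit 3644447387) (nat_lit 608) (nat_lit 2564935053) (nat_lit 684) (nat_lit 1650869990) (nat_lit 200) (nat_lit 5) (nat_lit 208) (nat_lit 5) (nat_lit 209) (nat_lit 5) (nat_lit 331) (nat_lit 300) (nat_lit 269))) (XT.nd (nat_lit 78) (nat_lit 0) (nat_lit 0) (XT.lf (nat_lit 0) (nat_lit 661706819) (nat_lit 532) (nat_lit 76381177) (nat_lit 608) (nat_lit 7217911859) (nat_lit 192) (nat_lit 5) (nat_lit 199) (nat_lit 5) (nat_lit 200) (nat_lit 5) (nat_lit 332) (nat_lit 300) (nat_lit 268)) (XT.lf (nat_lit 0) (nat_lit 3171265486) (nat_lit 608) (nat_lit 2386920075) (nat_lit 76) (nat_lit 2495820597) (nat_lit 192) (nat_lit 5) (nat_lit 200) (nat_lit 5) (nat_lit 193) (nat_lit 5) (nat_lit 333) (nat_lit 300) (nat_lit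 267)))))) (XT.nd (nat_lit 468) (nat_lit 1900) (nat_lit 0) (XT.nd (nat_lit 234) (nat_lit 1064) (nat_lit 0) (XT.nd (nat_lit 78) (nat_lit 608) (nat_lit 0) (XT.lf (nat_lit 0) (nat_lit 2655760945) (nat_lit 608) (nat_lit 2988577772) (nat_lit 684) (nat_lit 2511654266) (nat_lit 184) (nat_lit 5) (nat_lit 192) (nat_lit 5) (nat_lit 193) (nat_lit 5) (nat_lit 334) (nat_lit 300) (nat_lit 266)) (XT.nd (nat_lit 78) (nat_lit 608) (nat_lit 0) (XT.lf (nat_lit 0) (nat_lit 7836289031) (nat_lit 608) (nat_lit 321163872) (nat_lit 684) (nat_lit 104657009) (nat_lit 184) (nat_lit 5) (nat_lit 192) (nat_lit 5) (nat_lit 193) (nat_lit 5) (nat_lit 335) (nat_lit 300) (nat_lit 265)) (XT.lf (nat_lit 0) (nat_lit 2341253343) (nat_lit 608) (nat_lit 3584926785) (nat_lit 76) (nat_lit 2444197602) (nat_lit 176) (nat_lit 5) (nat_lit 184) (nat_lit 5) (nat_lit 177) (nat_lit 5) (nat_lit 336) (nat_lit 300) (nat_lit 264)))) (XT.nd (nat_lit 78) (nat_lit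 532) (nat_lit 0) (XT.lf (nat_lit 0) (nat_lit 1645069434) (nat_lit 532) (nat_lit 3180571323) (nat_lit 608) (nat_lit 3657247705) (nat_lit 169) (nat_lit 5) (nat_lit 176) (nat_lit 5) (nat_lit 177) (nat_lit 5) (nat_lit 337) (nat_lit 300) (nat_lit 263)) (XT.nd (nat_lit 78) (nat_lit 532) (nat_lit 0) (XT.lf (nat_lit 0) (nat_lit 7043270268) (nat_lit 532) (nat_lit 322394915) (nat_lit 608) (nat_lit 1233717010) (nat_lit 169) (nat_lit 5) (nat_lit 176) (nat_lit 5) (nat_lit 177) (nat_lit 5) (nat_lit 338) (nat_lit 300) (nat_lit 262)) (XT.lf (nat_lit 0) (nat_lit 1246799652) (nat_lit 532) (nat_lit 4858905356) (nat_lit 76) (nat_lit 2613072647) (nat_lit 162) (nat_lit 5) (nat_lit 169) (nat_lit 5) (nat_lit 163) (nat_lit 5) (nat_lit 339) (nat_lit 300) (nat_lit 261))))) (XT.nd (nat_lit 234) (nat_lit 988) (nat_lit 0) (XT.nd (nat_lit 78) (nat_lit 456) (nat_lit 0) (XT.lf (nat_lit 0) (nat_lit 561916082) (nat_lit 456) (nat_lit 3186337087)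 (nat_lit 532) (nat_lit 5094033199) (nat_lit 156) (nat_lit 5) (nat_lit 162) (nat_lit 5) (nat_lit 163) (nat_lit 5) (nat_lit 340) (nat_lit 300) (nat_lit 260)) (XT.nd (nat_lit 78) (nat_lit 456) (nat_lit 0) (XT.lf (nat_lit 0) (nat_lit 6183139552) (nat_lit 456) (nat_lit 138484839) (nat_lit 532) (nat_lit 2648006013) (nat_lit 156) (nat_lit 5) (nat_lit 162) (nat_lit 5) (nat_lit 163) (nat_lit 5) (nat_lit 341) (nat_lit 300) (nat_lit 259)) (XT.lf (nat_lit 0) (nat_lit 2837233942) (nat_lit 456) (nat_lit 6140320497) (nat_lit 532) (nat_lit 123114820) (nat_lit 150) (nat_lit 5) (nat_lit 156) (nat_lit 5) (nat_lit 157) (nat_lit 5) (nat_lit 342) (nat_lit 300) (nat_lit 258)))) (XT.nd (nat_lit 156) (nat_lit 456) (nat_lit 0) (XT.nd (nat_lit 78) (nat_lit 456) (nat_lit 0) (XT.lf (nat_lit 0) (nat_lit 2408570358) (nat_lit 532) (nat_lit 635392968) (nat_lit 76) (nat_lit 6191612914) (nat_lit 149) (nat_lit 5) (nat_lit 156) (nat_lit 5)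 (nat_lit 150) (nat_lit 5) (nat_lit 343) (nat_lit 300) (nat_lit 257)) (XT.lf (nat_lit 0) (nat_lit 5016601847) (nat_lit 532) (nat_lit 4174635120) (nat_lit 76) (nat_lit 183203027) (nat_lit 143) (nat_lit 5) (nat_lit 150) (nat_lit 5) (nat_lit 144) (nat_lit 5) (nat_lit 344) (nat_lit 300) (nat_lit 256))) (XT.nd (nat_lit 78) (nat_lit 76) (nat_lit 0) (XT.lf (nat_lit 0) (nat_lit 1646846692) (nat_lit 380) (nat_lit 6060291435) (nat_lit 456) (nat_lit 1810234916) (nat_lit 138) (nat_lit 5) (nat_lit 143) (nat_lit 5) (nat_lit 144) (nat_lit 5) (nat_lit 345) (nat_lit 300) (nat_lit 255)) (XT.lf (nat_lit 0) (nat_lit 792629785) (nat_lit 456) (nat_lit 2004299476) (nat_lit 76) (nat_lit 6867618240) (nat_lit 137) (nat_lit 5) (nat_lit 143) (nat_lit 5) (nat_lit 138) (nat_lit 5) (nat_lit 346) (nat_lit 300) (nat_lit 254))))))) (XT.nd (nat_lit 1014) (nat_lit 2204) (nat_lit 0) (XT.nd (nat_lit 468) (nat_lit 1444) (nat_lit 0) (XT.nd (nat_lit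 234) (nat_lit 760) (nat_lit 0) (XT.nd (nat_lit 78) (nat_lit 380) (nat_lit 0) (XT.lf (nat_lit 0) (nat_lit 3435420708) (nat_lit 456) (nat_lit 5782399928) (nat_lit 76) (nat_lit 597860779) (nat_lit 132) (nat_lit 5) (nat_lit 138) (nat_lit 5) (nat_lit 133) (nat_lit 5) (nat_lit 347) (nat_lit 300) (nat_lit 253)) (XT.nd (nat_lit 78) (nat_lit 0) (nat_lit 0) (XT.lf (nat_lit 0) (nat_lit 238921627) (nat_lit 380) (nat_lit 5923196959) (nat_lit 456) (nat_lit 3809119874) (nat_lit 127) (nat_lit 5) (nat_lit 132) (nat_lit 5) (nat_lit 133) (nat_lit 5) (nat_lit 348) (nat_lit 300) (nat_lit 252)) (XT.lf (nat_lit 0) (nat_lit 6499824649) (nat_lit 380) (nat_lit 2484139278) (nat_lit 456) (nat_lit 1147124892) (nat_lit 127) (nat_lit 5) (nat_lit 132) (nat_lit 5) (nat_lit 133) (nat_lit 5) (nat_lit 349) (nat_lit 300) (nat_lit 251)))) (XT.nd (nat_lit 78) (nat_lit 304) (nat_lit 0) (XT.lf (nat_lit 0) (nat_lit 1555134626) (nat_lit 456) (nat_lit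 7676249221) (nat_lit 76) (nat_lit 1064170697) (nat_lit 121) (nat_lit 5) (nat_lit 127) (nat_lit 5) (nat_lit 122) (nat_lit 5) (nat_lit 350) (nat_lit 300) (nat_lit 250)) (XT.nd (nat_lit 78) (nat_lit 304) (nat_lit 0) (XT.lf (nat_lit 0) (nat_lit 4333428197) (nat_lit 456) (nat_lit 1427713063) (nat_lit 76) (nat_lit 4702956288) (nat_lit 121) (nat_lit 5) (nat_lit 127) (nat_lit 5) (nat_lit 122) (nat_lit 5) (nat_lit 351) (nat_lit 300) (nat_lit 249)) (XT.lf (nat_lit 0) (nat_lit 5049163861) (nat_lit 304) (nat_lit 2152107610) (nat_lit 380) (nat_lit 3436263333) (nat_lit 117) (nat_lit 5) (nat_lit 121) (nat_lit 5) (nat_lit 122) (nat_lit 5) (nat_lit 352) (nat_lit 300) (nat_lit 248))))) (XT.nd (nat_lit 234) (nat_lit 684) (nat_lit 0) (XT.nd (nat_lit 78) (nat_lit 380) (nat_lit 0) (XT.lf (nat_lit 0) (nat_lit 877605951) (nat_lit 380) (nat_lit 9273786988) (nat_lit 456) (nat_lit 664918240) (nat_lit 112) (nat_lit 5) (nat_lit 117)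 (nat_lit 5) (nat_lit 118) (nat_lit 5) (nat_lit 353) (nat_lit 300) (nat_lit 247)) (XT.nd (nat_lit 78) (nat_lit 304) (nat_lit 0) (XT.lf (nat_lit 0) (nat_lit 2183574509) (nat_lit 456) (nat_lit 3448034439) (nat_lit 76) (nat_lit 5367130418) (nat_lit 111) (nat_lit 5) (nat_lit 117) (nat_lit 5) (nat_lit 112) (nat_lit 5) (nat_lit 354) (nat_lit 300) (nat_lit 246)) (XT.lf (nat_lit 0) (nat_lit 3237164549) (nat_lit 304) (nat_lit 1857756853) (nat_lit 380) (nat_lit 6091819902) (nat_lit 107) (nat_lit 5) (nat_lit 111) (nat_lit 5) (nat_lit 112) (nat_lit 5) (nat_lit 355) (nat_lit 300) (nat_lit 245)))) (XT.nd (nat_lit 156) (nat_lit 380) (nat_lit 0) (XT.nd (nat_lit 78) (nat_lit 304) (nat_lit 0) (XT.lf (nat_lit 0) (nat_lit 8108401067) (nat_lit 380) (nat_lit 1262863947) (nat_lit 76) (nat_lit 2008695207) (nat_lit 107) (nat_lit 5) (nat_lit 112) (nat_lit 5) (nat_lit 108) (nat_lit 5) (nat_lit 356) (nat_lit 300) (nat_lit 244)) (XT.lf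 (nat_lit 0) (nat_lit 5660915326) (nat_lit 304) (nat_lit 5585463360) (nat_lit 380) (nat_lit 331594303) (nat_lit 103) (nat_lit 5) (nat_lit 107) (nat_lit 5) (nat_lit 108) (nat_lit 5) (nat_lit 357) (nat_lit 300) (nat_lit 243))) (XT.nd (nat_lit 78) (nat_lit 0) (nat_lit 0) (XT.lf (nat_lit 0) (nat_lit 973861670) (nat_lit 304) (nat_lit 1653813705) (nat_lit 380) (nat_lit 9153980299) (nat_lit 98) (nat_lit 5) (nat_lit 102) (nat_lit 5) (nat_lit 103) (nat_lit 5) (nat_lit 358) (nat_lit 300) (nat_lit 242)) (XT.lf (nat_lit 0) (nat_lit 5714339252) (nat_lit 380) (nat_lit 3880046317) (nat_lit 76) (nat_lit 2395624739) (nat_lit 98) (nat_lit 5) (nat_lit 103) (nat_lit 5) (nat_lit 99) (nat_lit 5) (nat_lit 359) (nat_lit 300) (nat_lit 241)))))) (XT.nd (nat_lit 546) (nat_lit 988) (nat_lit 0) (XT.nd (nat_lit 234) (nat_lit 608) (nat_lit 0) (XT.nd (nat_lit 78) (nat_lit 304) (nat_lit 0) (XT.lf (nat_lit 0) (nat_lit 3247888870) (nat_lit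 304) (nat_lit 5656327509) (nat_lit 380) (nat_lit 3300098649) (nat_lit 94) (nat_lit 5) (nat_lit 98) (nat_lit 5) (nat_lit 99) (nat_lit 5) (nat_lit 360) (nat_lit 300) (nat_lit 240)) (XT.nd (nat_lit 78) (nat_lit 304) (nat_lit 0) (XT.lf (nat_lit 0) (nat_lit 10615086482) (nat_lit 304) (nat_lit 1577459422) (nat_lit 380) (nat_lit 232437635) (nat_lit 94) (nat_lit 5) (nat_lit 98) (nat_lit 5) (nat_lit 99) (nat_lit 5) (nat_lit 361) (nat_lit 300) (nat_lit 239)) (XT.lf (nat_lit 0) (nat_lit 2913887547) (nat_lit 304) (nat_lit 7098288281) (nat_lit 76) (nat_lit 2637955787) (nat_lit 90) (nat_lit 5) (nat_lit 94) (nat_lit 5) (nat_lit 91) (nat_lit 5) (nat_lit 362) (nat_lit 300) (nat_lit 238)))) (XT.nd (nat_lit 156) (nat_lit 304) (nat_lit 0) (XT.nd (nat_lit 78) (nat_lit 0) (nat_lit 0) (XT.lf (nat_lit 0) (nat_lit 222650162) (nat_lit 304) (nat_lit 5928131138) (nat_lit 380) (nat_lit 6731174134) (nat_lit 86) (nat_lit 5) (nat_lit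 90) (nat_lit 5) (nat_lit 91) (nat_lit 5) (nat_lit 363) (nat_lit 300) (nat_lit 237)) (XT.lf (nat_lit 0) (nat_lit 7855605611) (nat_lit 304) (nat_lit 1666009053) (nat_lit 380) (nat_lit 3598029717) (nat_lit 86) (nat_lit 5) (nat_lit 90) (nat_lit 5) (nat_lit 91) (nat_lit 5) (nat_lit 364) (nat_lit 300) (nat_lit 236))) (XT.nd (nat_lit 78) (nat_lit 76) (nat_lit 0) (XT.lf (nat_lit 0) (nat_lit 2319736322) (nat_lit 228) (nat_lit 10688318361) (nat_lit 304) (nat_lit 355989811) (nat_lit 83) (nat_lit 5) (nat_lit 86) (nat_lit 5) (nat_lit 87) (nat_lit 5) (nat_lit 365) (nat_lit 300) (nat_lit 235)) (XT.lf (nat_lit 0) (nat_lit 2961417714) (nat_lit 304) (nat_lit 3473553621) (nat_lit 76) (nat_lit 7178869398) (nat_lit 82) (nat_lit 5) (nat_lit 86) (nat_lit 5) (nat_lit 83) (nat_lit 5) (nat_lit 366) (nat_lit 300) (nat_lit 234))))) (XT.nd (nat_lit 234) (nat_lit 532) (nat_lit 0) (XT.nd (nat_lit 78) (nat_lit 228) (nat_lit 0) (XT.lf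 (nat_lit 0) (nat_lit 4354701872) (nat_lit 228) (nat_lit 2025480378) (nat_lit 304) (nat_lit 7490586854) (nat_lit 79) (nat_lit 5) (nat_lit 82) (nat_lit 5) (nat_lit 83) (nat_lit 5) (nat_lit 367) (nat_lit 300) (nat_lit 233)) (XT.nd (nat_lit 78) (nat_lit 228) (nat_lit 0) (XT.lf (nat_lit 0) (nat_lit 9928547592) (nat_lit 304) (nat_lit 1721261833) (nat_lit 76) (nat_lit 2484798048) (nat_lit 79) (nat_lit 5) (nat_lit 83) (nat_lit 5) (nat_lit 80) (nat_lit 5) (nat_lit 368) (nat_lit 300) (nat_lit 232)) (XT.lf (nat_lit 0) (nat_lit 6361584679) (nat_lit 228) (nat_lit 7271359996) (nat_lit 304) (nat_lit 771941788) (nat_lit 76) (nat_lit 5) (nat_lit 79) (nat_lit 5) (nat_lit 80) (nat_lit 5) (nat_lit 369) (nat_lit 300) (nat_lit 231)))) (XT.nd (nat_lit 156) (nat_lit 228) (nat_lit 0) (XT.nd (nat_lit 78) (nat_lit 228) (nat_lit 0) (XT.lf (nat_lit 0) (nat_lit 2697294683) (nat_lit 304) (nat_lit 37340696) (nat_lit 76) (nat_lit 11948271559)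 (nat_lit 75) (nat_lit 5) (nat_lit 79) (nat_lit 5) (nat_lit 76) (nat_lit 5) (nat_lit 370) (nat_lit 300) (nat_lit 230)) (XT.lf (nat_lit 0) (nat_lit 6323763174) (nat_lit 304) (nat_lit 6672065623) (nat_lit 76) (nat_lit 1971161637) (nat_lit 72) (nat_lit 5) (nat_lit 76) (nat_lit 5) (nat_lit 73) (nat_lit 5) (nat_lit 371) (nat_lit 300) (nat_lit 229))) (XT.nd (nat_lit 78) (nat_lit 0) (nat_lit 0) (XT.lf (nat_lit 0) (nat_lit 1573110220) (nat_lit 228) (nat_lit 8498167258) (nat_lit 304) (nat_lit 5187962859) (nat_lit 69) (nat_lit 5) (nat_lit 72) (nat_lit 5) (nat_lit 73) (nat_lit 5) (nat_lit 372) (nat_lit 300) (nat_lit 228)) (XT.lf (nat_lit 0) (nat_lit 10154044922) (nat_lit 228) (nat_lit 3814639091) (nat_lit 304) (nat_lit 1590460846) (nat_lit 69) (nat_lit 5) (nat_lit 72) (nat_lit 5) (nat_lit 73) (nat_lit 5) (nat_lit 373) (nat_lit 300) (nat_lit 227))))))))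
noncomputable def xc106 : XT := (XT.nd (nat_lit 2028) (nat_lit 1292) (nat_lit 0) (XT.nd (nat_lit 1014) (nat_lit 1064) (nat_lit 0) (XT.nd (nat_lit 468) (nat_lit 684) (nat_lit 0) (XT.nd (nat_lit 234) (nat_lit 304) (nat_lit 0) (XT.nd (nat_lit 78) (nat_lit 152) (nat_lit 0) (XT.lf (nat_lit 0) (nat_lit 2084351911) (nat_lit 304) (nat_lit 12760146024) (nat_lit 76) (nat_lit 1022629466) (nat_lit 65) (nat_lit 5) (nat_lit 69) (nat_lit 5) (nat_lit 66) (nat_lit 5) (nat_lit 374) (nat_lit 300) (nat_lit 226)) (XT.nd (nat_lit 78) (nat_lit 152) (nat_lit 0) (XT.lf (nat_lit 0) (nat_lit 5901224716) (nat_lit 304) (nat_lit 4299334100) (nat_lit 76) (nat_lit 5981414896) (nat_lit 65) (nat_lit 5) (nat_lit 69) (nat_lit 5) (nat_lit 66) (nat_lit 5) (nat_lit 375) (nat_lit 300) (nat_lit 225)) (XT.lf (nat_lit 0) (nat_lit 4455853639) (nat_lit 152) (nat_lit 5391322587) (nat_lit 228) (nat_lit 6658661896) (nat_lit 63) (nat_lit 5) (nat_lit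 65) (nat_lit 5) (nat_lit 66) (nat_lit 5) (nat_lit 376) (nat_lit 300) (nat_lit 224)))) (XT.nd (nat_lit 78) (nat_lit 304) (nat_lit 0) (XT.lf (nat_lit 0) (nat_lit 13515885734) (nat_lit 152) (nat_lit 411156986) (nat_lit 228) (nat_lit 2911919244) (nat_lit 63) (nat_lit 5) (nat_lit 65) (nat_lit 5) (nat_lit 66) (nat_lit 5) (nat_lit 377) (nat_lit 300) (nat_lit 223)) (XT.nd (nat_lit 78) (nat_lit 0) (nat_lit 0) (XT.lf (nat_lit 0) (nat_lit 1002231726) (nat_lit 304) (nat_lit 11503752336) (nat_lit 76) (nat_lit 4673626652) (nat_lit 59) (nat_lit 5) (nat_lit 63) (nat_lit 5) (nat_lit 60) (nat_lit 5) (nat_lit 378) (nat_lit 300) (nat_lit 222)) (XT.lf (nat_lit 0) (nat_lit 4986092723) (nat_lit 304) (nat_lit 2595188715) (nat_lit 76) (nat_lit 9948016975) (nat_lit 59) (nat_lit 5) (nat_lit 63) (nat_lit 5) (nat_lit 60) (nat_lit 5) (nat_lit 379) (nat_lit 300) (nat_lit 221))))) (XT.nd (nat_lit 234) (nat_lit 380) (nat_lit 0) (XT.nd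 (nat_lit 78) (nat_lit 152) (nat_lit 0) (XT.lf (nat_lit 0) (nat_lit 6666680700) (nat_lit 152) (nat_lit 2460516298) (nat_lit 228) (nat_lit 8761156447) (nat_lit 57) (nat_lit 5) (nat_lit 59) (nat_lit 5) (nat_lit 60) (nat_lit 5) (nat_lit 380) (nat_lit 300) (nat_lit 220)) (XT.nd (nat_lit 78) (nat_lit 152) (nat_lit 0) (XT.lf (nat_lit 0) (nat_lit 13419871343) (nat_lit 228) (nat_lit 2069326650) (nat_lit 76) (nat_lit 2768170304) (nat_lit 57) (nat_lit 5) (nat_lit 60) (nat_lit 5) (nat_lit 58) (nat_lit 5) (nat_lit 381) (nat_lit 300) (nat_lit 219)) (XT.lf (nat_lit 0) (nat_lit 7435377918) (nat_lit 152) (nat_lit 10476367897) (nat_lit 228) (nat_lit 723603216) (nat_lit 55) (nat_lit 5) (nat_lit 57) (nat_lit 5) (nat_lit 58) (nat_lit 5) (nat_lit 382) (nat_lit 300) (nat_lit 218)))) (XT.nd (nat_lit 156) (nat_lit 152) (nat_lit 0) (XT.nd (nat_lit 78) (nat_lit 152) (nat_lit 0) (XT.lf (nat_lit 0) (nat_lit 3440905742) (nat_lit 228)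 (nat_lit 1833414564) (nat_lit 76) (nat_lit 13749470277) (nat_lit 54) (nat_lit 5) (nat_lit 57) (nat_lit 5) (nat_lit 55) (nat_lit 5) (nat_lit 383) (nat_lit 300) (nat_lit 217)) (XT.lf (nat_lit 0) (nat_lit 7768799133) (nat_lit 228) (nat_lit 11503858943) (nat_lit 76) (nat_lit 149429939) (nat_lit 52) (nat_lit 5) (nat_lit 55) (nat_lit 5) (nat_lit 53) (nat_lit 5) (nat_lit 384) (nat_lit 300) (nat_lit 216))) (XT.nd (nat_lit 78) (nat_lit 152) (nat_lit 0) (XT.lf (nat_lit 0) (nat_lit 12273000657) (nat_lit 228) (nat_lit 1926118694) (nat_lit 76) (nat_lit 5631828020) (nat_lit 52) (nat_lit 5) (nat_lit 55) (nat_lit 5) (nat_lit 53) (nat_lit 5) (nat_lit 385) (nat_lit 300) (nat_lit 215)) (XT.lf (nat_lit 0) (nat_lit 8055425031) (nat_lit 152) (nat_lit 8910602052) (nat_lit 228) (nat_lit 3284441389) (nat_lit 50) (nat_lit 5) (nat_lit 52) (nat_lit 5) (nat_lit 53) (nat_lit 5) (nat_lit 386) (nat_lit 300) (nat_lit 214)))))) (XT.nd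 (nat_lit 468) (nat_lit 456) (nat_lit 0) (XT.nd (nat_lit 234) (nat_lit 380) (nat_lit 0) (XT.nd (nat_lit 78) (nat_lit 152) (nat_lit 0) (XT.lf (nat_lit 0) (nat_lit 1091440068) (nat_lit 228) (nat_lit 2357823028) (nat_lit 76) (nat_lit 17233117260) (nat_lit 49) (nat_lit 5) (nat_lit 52) (nat_lit 5) (nat_lit 50) (nat_lit 5) (nat_lit 387) (nat_lit 300) (nat_lit 213)) (XT.nd (nat_lit 78) (nat_lit 0) (nat_lit 0) (XT.lf (nat_lit 0) (nat_lit 5606943283) (nat_lit 228) (nat_lit 13290852247) (nat_lit 76) (nat_lit 2226254055) (nat_lit 47) (nat_lit 5) (nat_lit 50) (nat_lit 5) (nat_lit 48) (nat_lit 5) (nat_lit 388) (nat_lit 300) (nat_lit 212)) (XT.lf (nat_lit 0) (nat_lit 10293260956) (nat_lit 228) (nat_lit 3274108847) (nat_lit 76) (nat_lit 8010544764) (nat_lit 47) (nat_lit 5) (nat_lit 50) (nat_lit 5) (nat_lit 48) (nat_lit 5) (nat_lit 389) (nat_lit 300) (nat_lit 211)))) (XT.nd (nat_lit 78) (nat_lit 228) (nat_lit 0) (XT.lf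 (nat_lit 0) (nat_lit 7143950023) (nat_lit 152) (nat_lit 8022708715) (nat_lit 228) (nat_lit 6877348023) (nat_lit 45) (nat_lit 5) (nat_lit 47) (nat_lit 5) (nat_lit 48) (nat_lit 5) (nat_lit 390) (nat_lit 300) (nat_lit 210)) (XT.nd (nat_lit 78) (nat_lit 228) (nat_lit 0) (XT.lf (nat_lit 0) (nat_lit 17903453998) (nat_lit 152) (nat_lit 2293963834) (nat_lit 228) (nat_lit 2326334914) (nat_lit 45) (nat_lit 5) (nat_lit 47) (nat_lit 5) (nat_lit 48) (nat_lit 5) (nat_lit 391) (nat_lit 300) (nat_lit 209)) (XT.lf (nat_lit 0) (nat_lit 2386883072) (nat_lit 228) (nat_lit 17026240496) (nat_lit 76) (nat_lit 3601939585) (nat_lit 42) (nat_lit 5) (nat_lit 45) (nat_lit 5) (nat_lit 43) (nat_lit 5) (nat_lit 392) (nat_lit 300) (nat_lit 208))))) (XT.nd (nat_lit 234) (nat_lit 304) (nat_lit 0) (XT.nd (nat_lit 78) (nat_lit 152) (nat_lit 0) (XT.lf (nat_lit 0) (nat_lit 7243205216) (nat_lit 228) (nat_lit 6592644418) (nat_lit 76) (nat_lit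 9683123623) (nat_lit 42) (nat_lit 5) (nat_lit 45) (nat_lit 5) (nat_lit 43) (nat_lit 5) (nat_lit 393) (nat_lit 300) (nat_lit 207)) (XT.nd (nat_lit 78) (nat_lit 0) (nat_lit 0) (XT.lf (nat_lit 0) (nat_lit 4199347578) (nat_lit 152) (nat_lit 8065492682) (nat_lit 228) (nat_lit 11772576864) (nat_lit 40) (nat_lit 5) (nat_lit 42) (nat_lit 5) (nat_lit 43) (nat_lit 5) (nat_lit 394) (nat_lit 300) (nat_lit 206)) (XT.lf (nat_lit 0) (nat_lit 15414044119) (nat_lit 152) (nat_lit 2069165779) (nat_lit 228) (nat_lit 7086826851) (nat_lit 40) (nat_lit 5) (nat_lit 42) (nat_lit 5) (nat_lit 43) (nat_lit 5) (nat_lit 395) (nat_lit 300) (nat_lit 205)))) (XT.nd (nat_lit 156) (nat_lit 152) (nat_lit 0) (XT.nd (nat_lit 78) (nat_lit 76) (nat_lit 0) (XT.lf (nat_lit 0) (nat_lit 1806724194) (nat_lit 76) (nat_lit 21088216109) (nat_lit 152) (nat_lit 2222595231) (nat_lit 39) (nat_lit 5) (nat_lit 40) (nat_lit 5) (nat_lit 41) (nat_lit 4) (nat_lit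 396) (nat_lit 300) (nat_lit 204)) (XT.lf (nat_lit 0) (nat_lit 2827034747) (nat_lit 152) (nat_lit 12476524219) (nat_lit 76) (nat_lit 10374285021) (nat_lit 38) (nat_lit 5) (nat_lit 40) (nat_lit 5) (nat_lit 39) (nat_lit 5) (nat_lit 397) (nat_lit 300) (nat_lit 203))) (XT.nd (nat_lit 78) (nat_lit 152) (nat_lit 0) (XT.lf (nat_lit 0) (nat_lit 7964071007) (nat_lit 152) (nat_lit 1373828054) (nat_lit 76) (nat_lit 16916989225) (nat_lit 38) (nat_lit 5) (nat_lit 40) (nat_lit 5) (nat_lit 39) (nat_lit 5) (nat_lit 398) (nat_lit 300) (nat_lit 202)) (XT.lf (nat_lit 0) (nat_lit 10227927185) (nat_lit 152) (nat_lit 3106762968) (nat_lit 228) (nat_lit 13512173926) (nat_lit 36) (nat_lit 5) (nat_lit 38) (nat_lit 5) (nat_lit 39) (nat_lit 5) (nat_lit 399) (nat_lit 300) (nat_lit 201))))))) (XT.nd (nat_lit 1014) (nat_lit 608) (nat_lit 0) (XT.nd (nat_lit 468) (nat_lit 380) (nat_lit 0) (XT.nd (nat_lit 234) (nat_lit 152) (nat_lit 0)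 (XT.nd (nat_lit 78) (nat_lit 152) (nat_lit 0) (XT.lf (nat_lit 0) (nat_lit 18893511320) (nat_lit 228) (nat_lit 5315951222) (nat_lit 76) (nat_lit 3246328295) (nat_lit 36) (nat_lit 5) (nat_lit 39) (nat_lit 5) (nat_lit 37) (nat_lit 4) (nat_lit 400) (nat_lit 300) (nat_lit 200)) (XT.nd (nat_lit 78) (nat_lit 76) (nat_lit 0) (XT.lf (nat_lit 0) (nat_lit 6387286641) (nat_lit 76) (nat_lit 18305758150) (nat_lit 152) (nat_lit 3387726248) (nat_lit 35) (nat_lit 5) (nat_lit 36) (nat_lit 5) (nat_lit 37) (nat_lit 4) (nat_lit 401) (nat_lit 300) (nat_lit 199)) (XT.lf (nat_lit 0) (nat_lit 1940205268) (nat_lit 152) (nat_lit 10224257696) (nat_lit 76) (nat_lit 16558400323) (nat_lit 34) (nat_lit 5) (nat_lit 36) (nat_lit 5) (nat_lit 35) (nat_lit 5) (nat_lit 402) (nat_lit 300) (nat_lit 198)))) (XT.nd (nat_lit 78) (nat_lit 0) (nat_lit 0) (XT.lf (nat_lit 0) (nat_lit 1554021626) (nat_lit 152) (nat_lit 5803156833) (nat_lit 228) (nat_lit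 22026118504) (nat_lit 32) (nat_lit 5) (nat_lit 34) (nat_lit 5) (nat_lit 35) (nat_lit 5) (nat_lit 403) (nat_lit 300) (nat_lit 197)) (XT.nd (nat_lit 78) (nat_lit 0) (nat_lit 0) (XT.lf (nat_lit 0) (nat_lit 13030559228) (nat_lit 228) (nat_lit 16205318189) (nat_lit 76) (nat_lit 824852898) (nat_lit 32) (nat_lit 5) (nat_lit 35) (nat_lit 5) (nat_lit 33) (nat_lit 4) (nat_lit 404) (nat_lit 300) (nat_lit 196)) (XT.lf (nat_lit 0) (nat_lit 18914541587) (nat_lit 228) (nat_lit 4321057103) (nat_lit 76) (nat_lit 7521679484) (nat_lit 32) (nat_lit 5) (nat_lit 35) (nat_lit 5) (nat_lit 33) (nat_lit 4) (nat_lit 405) (nat_lit 300) (nat_lit 195))))) (XT.nd (nat_lit 234) (nat_lit 76) (nat_lit 0) (XT.nd (nat_lit 78) (nat_lit 228) (nat_lit 0) (XT.lf (nat_lit 0) (nat_lit 8046695734) (nat_lit 76) (nat_lit 16989137415) (nat_lit 152) (nat_lit 6437069039) (nat_lit 31) (nat_lit 5) (nat_lit 32) (nat_lit 5) (nat_lit 33) (nat_lit 4) (nat_lit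 406) (nat_lit 300) (nat_lit 194)) (XT.nd (nat_lit 78) (nat_lit 228) (nat_lit 0) (XT.lf (nat_lit 0) (nat_lit 20844297163) (nat_lit 76) (nat_lit 10523736716) (nat_lit 152) (nat_lit 841146241) (nat_lit 31) (nat_lit 5) (nat_lit 32) (nat_lit 5) (nat_lit 33) (nat_lit 4) (nat_lit 407) (nat_lit 300) (nat_lit 193)) (XT.lf (nat_lit 0) (nat_lit 1001282211) (nat_lit 152) (nat_lit 3818890631) (nat_lit 228) (nat_lit 28146149762) (nat_lit 28) (nat_lit 5) (nat_lit 30) (nat_lit 5) (nat_lit 31) (nat_lit 5) (nat_lit 408) (nat_lit 300) (nat_lit 192)))) (XT.nd (nat_lit 156) (nat_lit 76) (nat_lit 0) (XT.nd (nat_lit 78) (nat_lit 0) (nat_lit 0) (XT.lf (nat_lit 0) (nat_lit 10764015725) (nat_lit 228) (nat_lit 19839758496) (nat_lit 76) (nat_lit 3138270613) (nat_lit 28) (nat_lit 5) (nat_lit 31) (nat_lit 5) (nat_lit 29) (nat_lit 4) (nat_lit 409) (nat_lit 300) (nat_lit 191)) (XT.lf (nat_lit 0) (nat_lit 16908466275) (nat_lit 228) (nat_lit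 7416959783) (nat_lit 76) (nat_lit 10214946843) (nat_lit 28) (nat_lit 5) (nat_lit 31) (nat_lit 5) (nat_lit 29) (nat_lit 4) (nat_lit 410) (nat_lit 300) (nat_lit 190))) (XT.nd (nat_lit 78) (nat_lit 0) (nat_lit 0) (XT.lf (nat_lit 0) (nat_lit 5457413933) (nat_lit 76) (nat_lit 17817229983) (nat_lit 152) (nat_lit 12086887942) (nat_lit 27) (nat_lit 5) (nat_lit 28) (nat_lit 5) (nat_lit 29) (nat_lit 4) (nat_lit 411) (nat_lit 300) (nat_lit 189)) (XT.lf (nat_lit 0) (nat_lit 18842727121) (nat_lit 76) (nat_lit 11049086185) (nat_lit 152) (nat_lit 6313714858) (nat_lit 27) (nat_lit 5) (nat_lit 28) (nat_lit 5) (nat_lit 29) (nat_lit 4) (nat_lit 412) (nat_lit 300) (nat_lit 188)))))) (XT.nd (nat_lit 546) (nat_lit 304) (nat_lit 0) (XT.nd (nat_lit 234) (nat_lit 76) (nat_lit 0) (XT.nd (nat_lit 78) (nat_lit 228) (nat_lit 0) (XT.lf (nat_lit 0) (nat_lit 32603063641) (nat_lit 76) (nat_lit 4089977505) (nat_lit 152) (nat_lit 382239603)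 (nat_lit 27) (nat_lit 5) (nat_lit 28) (nat_lit 5) (nat_lit 29) (nat_lit 4) (nat_lit 413) (nat_lit 300) (nat_lit 187)) (XT.nd (nat_lit 78) (nat_lit 0) (nat_lit 0) (XT.lf (nat_lit 0) (nat_lit 5717638650) (nat_lit 228) (nat_lit 29100593085) (nat_lit 76) (nat_lit 3148178621) (nat_lit 24) (nat_lit 5) (nat_lit 27) (nat_lit 5) (nat_lit 25) (nat_lit 4) (nat_lit 414) (nat_lit 300) (nat_lit 186)) (XT.lf (nat_lit 0) (nat_lit 12064807858) (nat_lit 228) (nat_lit 16258078866) (nat_lit 76) (nat_lit 10559116735) (nat_lit 24) (nat_lit 5) (nat_lit 27) (nat_lit 5) (nat_lit 25) (nat_lit 4) (nat_lit 415) (nat_lit 300) (nat_lit 185)))) (XT.nd (nat_lit 156) (nat_lit 0) (nat_lit 0) (XT.nd (nat_lit 78) (nat_lit 76) (nat_lit 0) (XT.lf (nat_lit 0) (nat_lit 18588678219) (nat_lit 228) (nat_lit 3055631038) (nat_lit 76) (nat_lit 18181168909) (nat_lit 24) (nat_lit 5) (nat_lit 27) (nat_lit 5) (nat_lit 25) (nat_lit 4) (nat_lit 416) (nat_lit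 300) (nat_lit 184)) (XT.lf (nat_lit 0) (nat_lit 10727621042) (nat_lit 76) (nat_lit 14670449613) (nat_lit 152) (nat_lit 15396494601) (nat_lit 23) (nat_lit 5) (nat_lit 24) (nat_lit 5) (nat_lit 25) (nat_lit 4) (nat_lit 417) (nat_lit 300) (nat_lit 183))) (XT.nd (nat_lit 78) (nat_lit 0) (nat_lit 0) (XT.lf (nat_lit 0) (nat_lit 24962645633) (nat_lit 76) (nat_lit 7466794239) (nat_lit 152) (nat_lit 9362756492) (nat_lit 23) (nat_lit 5) (nat_lit 24) (nat_lit 5) (nat_lit 25) (nat_lit 4) (nat_lit 418) (nat_lit 300) (nat_lit 182)) (XT.lf (nat_lit 0) (nat_lit 39601068055) (nat_lit 76) (nat_lit 57904561) (nat_lit 152) (nat_lit 3161169305) (nat_lit 23) (nat_lit 5) (nat_lit 24) (nat_lit 5) (nat_lit 25) (nat_lit 4) (nat_lit 419) (nat_lit 300) (nat_lit 181))))) (XT.nd (nat_lit 234) (nat_lit 152) (nat_lit 0) (XT.nd (nat_lit 78) (nat_lit 0) (nat_lit 0) (XT.lf (nat_lit 0) (nat_lit 3330369293) (nat_lit 152) (nat_lit 32989915698)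 (nat_lit 76) (nat_lit 7552706560) (nat_lit 21) (nat_lit 5) (nat_lit 23) (nat_lit 5) (nat_lit 22) (nat_lit 4) (nat_lit 420) (nat_lit 300) (nat_lit 180)) (XT.nd (nat_lit 78) (nat_lit 0) (nat_lit 0) (XT.lf (nat_lit 0) (nat_lit 9974030951) (nat_lit 152) (nat_lit 19537626929) (nat_lit 76) (nat_lit 15444204434) (nat_lit 21) (nat_lit 5) (nat_lit 23) (nat_lit 5) (nat_lit 22) (nat_lit 4) (nat_lit 421) (nat_lit 300) (nat_lit 179)) (XT.lf (nat_lit 0) (nat_lit 16804877974) (nat_lit 152) (nat_lit 5704351544) (nat_lit 76) (nat_lit 23562355360) (nat_lit 21) (nat_lit 5) (nat_lit 23) (nat_lit 5) (nat_lit 22) (nat_lit 4) (nat_lit 422) (nat_lit 300) (nat_lit 178)))) (XT.nd (nat_lit 156) (nat_lit 76) (nat_lit 0) (XT.nd (nat_lit 78) (nat_lit 0) (nat_lit 0) (XT.lf (nat_lit 0) (nat_lit 8691602248) (nat_lit 76) (nat_lit 15220825814) (nat_lit 152) (nat_lit 23306199617) (nat_lit 20) (nat_lit 5) (nat_lit 21) (nat_lit 5) (nat_lit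 22) (nat_lit 4) (nat_lit 423) (nat_lit 300) (nat_lit 177)) (XT.lf (nat_lit 0) (nat_lit 23614658895) (nat_lit 76) (nat_lit 7664511351) (nat_lit 152) (nat_lit 17119534382) (nat_lit 20) (nat_lit 5) (nat_lit 21) (nat_lit 5) (nat_lit 22) (nat_lit 4) (nat_lit 424) (nat_lit 300) (nat_lit 176))) (XT.nd (nat_lit 78) (nat_lit 76) (nat_lit 0) (XT.lf (nat_lit 0) (nat_lit 38856661493) (nat_lit 152) (nat_lit 10651239455) (nat_lit 0) (nat_lit 106592313) (nat_lit 20) (nat_lit 5) (nat_lit 22) (nat_lit 4) (nat_lit 20) (nat_lit 4) (nat_lit 425) (nat_lit 300) (nat_lit 175)) (XT.lf (nat_lit 0) (nat_lit 3884767866) (nat_lit 76) (nat_lit 42878878213) (nat_lit 76) (nat_lit 4100046143) (nat_lit 19) (nat_lit 4) (nat_lit 20) (nat_lit 5) (nat_lit 20) (nat_lit 4) (nat_lit 426) (nat_lit 300) (nat_lit 174))))))))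
noncomputable def xc107 : XT := (XT.nd (nat_lit 37518) (nat_lit 0) (nat_lit 13680) (XT.nd (nat_lit 1014) (nat_lit 152) (nat_lit 0) (XT.nd (nat_lit 468) (nat_lit 228) (nat_lit 0) (XT.nd (nat_lit 234) (nat_lit 76) (nat_lit 0) (XT.nd (nat_lit 78) (nat_lit 0) (nat_lit 0) (XT.lf (nat_lit 0) (nat_lit 2801241132) (nat_lit 152) (nat_lit 33120237706) (nat_lit 76) (nat_lit 16225167459) (nat_lit 18) (nat_lit 5) (nat_lit 20) (nat_lit 5) (nat_lit 19) (nat_lit 4) (nat_lit 427) (nat_lit 300) (nat_lit 173)) (XT.nd (nat_lit 78) (nat_lit 0) (nat_lit 0) (XT.lf (nat_lit 0) (nat_lit 9816436628) (nat_lit 152) (nat_lit 18906502632) (nat_lit 76) (nat_lit 24744255185) (nat_lit 18) (nat_lit 5) (nat_lit 20) (nat_lit 5) (nat_lit 19) (nat_lit 4) (nat_lit 428) (nat_lit 300) (nat_lit 172)) (XT.lf (nat_lit 0) (nat_lit 17031676794) (nat_lit 152) (nat_lit 4285887214) (nat_lit 76) (nat_lit 33510108901) (nat_lit 18) (nat_lit 5) (nat_lit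 20) (nat_lit 5) (nat_lit 19) (nat_lit 4) (nat_lit 429) (nat_lit 300) (nat_lit 171)))) (XT.nd (nat_lit 78) (nat_lit 0) (nat_lit 0) (XT.lf (nat_lit 0) (nat_lit 10968417167) (nat_lit 76) (nat_lit 13590284177) (nat_lit 152) (nat_lit 31667406057) (nat_lit 17) (nat_lit 5) (nat_lit 18) (nat_lit 5) (nat_lit 19) (nat_lit 4) (nat_lit 430) (nat_lit 300) (nat_lit 170)) (XT.nd (nat_lit 78) (nat_lit 0) (nat_lit 0) (XT.lf (nat_lit 0) (nat_lit 26749430253) (nat_lit 76) (nat_lit 5595391391) (nat_lit 152) (nat_lit 25320676182) (nat_lit 17) (nat_lit 5) (nat_lit 18) (nat_lit 5) (nat_lit 19) (nat_lit 4) (nat_lit 431) (nat_lit 300) (nat_lit 169)) (XT.lf (nat_lit 0) (nat_lit 40380111658) (nat_lit 152) (nat_lit 16188007801) (nat_lit 0) (nat_lit 2579484325) (nat_lit 17) (nat_lit 5) (nat_lit 19) (nat_lit 4) (nat_lit 17) (nat_lit 4) (nat_lit 432) (nat_lit 300) (nat_lit 168))))) (XT.nd (nat_lit 234) (nat_lit 76) (nat_lit 0) (XT.nd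 (nat_lit 78) (nat_lit 152) (nat_lit 0) (XT.lf (nat_lit 0) (nat_lit 48702360361) (nat_lit 152) (nat_lit 1091409588) (nat_lit 0) (nat_lit 10879027337) (nat_lit 17) (nat_lit 5) (nat_lit 19) (nat_lit 4) (nat_lit 17) (nat_lit 4) (nat_lit 433) (nat_lit 300) (nat_lit 167)) (XT.nd (nat_lit 78) (nat_lit 76) (nat_lit 0) (XT.lf (nat_lit 0) (nat_lit 14728102931) (nat_lit 76) (nat_lit 42678525900) (nat_lit 76) (nat_lit 4833148516) (nat_lit 16) (nat_lit 4) (nat_lit 17) (nat_lit 5) (nat_lit 17) (nat_lit 4) (nat_lit 434) (nat_lit 300) (nat_lit 166)) (XT.lf (nat_lit 0) (nat_lit 2471036869) (nat_lit 152) (nat_lit 32850574829) (nat_lit 76) (nat_lit 28531372590) (nat_lit 15) (nat_lit 5) (nat_lit 17) (nat_lit 5) (nat_lit 16) (nat_lit 4) (nat_lit 435) (nat_lit 300) (nat_lit 165)))) (XT.nd (nat_lit 156) (nat_lit 76) (nat_lit 0) (XT.nd (nat_lit 78) (nat_lit 0) (nat_lit 0) (XT.lf (nat_lit 0) (nat_lit 9888263019) (nat_lit 152)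 (nat_lit 17814384670) (nat_lit 76) (nat_lit 37810773672) (nat_lit 15) (nat_lit 5) (nat_lit 17) (nat_lit 5) (nat_lit 16) (nat_lit 4) (nat_lit 436) (nat_lit 300) (nat_lit 164)) (XT.lf (nat_lit 0) (nat_lit 17519323139) (nat_lit 152) (nat_lit 2343506338) (nat_lit 76) (nat_lit 47361103728) (nat_lit 15) (nat_lit 5) (nat_lit 17) (nat_lit 5) (nat_lit 16) (nat_lit 4) (nat_lit 437) (nat_lit 300) (nat_lit 163))) (XT.nd (nat_lit 78) (nat_lit 0) (nat_lit 0) (XT.lf (nat_lit 0) (nat_lit 13845759036) (nat_lit 76) (nat_lit 11658220015) (nat_lit 152) (nat_lit 43478042577) (nat_lit 14) (nat_lit 5) (nat_lit 15) (nat_lit 5) (nat_lit 16) (nat_lit 4) (nat_lit 438) (nat_lit 300) (nat_lit 162)) (XT.lf (nat_lit 0) (nat_lit 30552978098) (nat_lit 76) (nat_lit 3190525446) (nat_lit 152) (nat_lit 37048890401) (nat_lit 14) (nat_lit 5) (nat_lit 15) (nat_lit 5) (nat_lit 16) (nat_lit 4) (nat_lit 439) (nat_lit 300) (nat_lit 161)))))) (XT.nd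 (nat_lit 468) (nat_lit 0) (nat_lit 0) (XT.nd (nat_lit 234) (nat_lit 76) (nat_lit 0) (XT.nd (nat_lit 78) (nat_lit 76) (nat_lit 0) (XT.lf (nat_lit 0) (nat_lit 42275220605) (nat_lit 152) (nat_lit 24964312243) (nat_lit 0) (nat_lit 5416195456) (nat_lit 14) (nat_lit 5) (nat_lit 16) (nat_lit 4) (nat_lit 14) (nat_lit 4) (nat_lit 440) (nat_lit 300) (nat_lit 160)) (XT.nd (nat_lit 78) (nat_lit 76) (nat_lit 0) (XT.lf (nat_lit 0) (nat_lit 51086553834) (nat_lit 152) (nat_lit 9277573302) (nat_lit 0) (nat_lit 14210126664) (nat_lit 14) (nat_lit 5) (nat_lit 16) (nat_lit 4) (nat_lit 14) (nat_lit 4) (nat_lit 441) (nat_lit 300) (nat_lit 159)) (XT.lf (nat_lit 0) (nat_lit 7001807601) (nat_lit 76) (nat_lit 53220031229) (nat_lit 76) (nat_lit 16326708892) (nat_lit 13) (nat_lit 4) (nat_lit 14) (nat_lit 5) (nat_lit 14) (nat_lit 4) (nat_lit 442) (nat_lit 300) (nat_lit 158)))) (XT.nd (nat_lit 78) (nat_lit 76) (nat_lit 0) (XT.lf (nat_lit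 0) (nat_lit 23945303444) (nat_lit 76) (nat_lit 45771955557) (nat_lit 76) (nat_lit 8862230146) (nat_lit 13) (nat_lit 4) (nat_lit 14) (nat_lit 5) (nat_lit 14) (nat_lit 4) (nat_lit 443) (nat_lit 300) (nat_lit 157)) (XT.nd (nat_lit 78) (nat_lit 76) (nat_lit 0) (XT.lf (nat_lit 0) (nat_lit 41383077323) (nat_lit 76) (nat_lit 38107077394) (nat_lit 76) (nat_lit 1181426668) (nat_lit 13) (nat_lit 4) (nat_lit 14) (nat_lit 5) (nat_lit 14) (nat_lit 4) (nat_lit 444) (nat_lit 300) (nat_lit 156)) (XT.lf (nat_lit 0) (nat_lit 6591234434) (nat_lit 152) (nat_lit 23560906294) (nat_lit 76) (nat_lit 52672573149) (nat_lit 12) (nat_lit 5) (nat_lit 14) (nat_lit 5) (nat_lit 13) (nat_lit 4) (nat_lit 445) (nat_lit 300) (nat_lit 155))))) (XT.nd (nat_lit 35724) (nat_lit 0) (nat_lit 25080) (XT.nd (nat_lit 35568) (nat_lit 0) (nat_lit 25612) (XT.lf (nat_lit 0) (nat_lit 14566297026) (nat_lit 152) (nat_lit 7386540370) (nat_lit 76) (nat_lit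 63089463889) (nat_lit 12) (nat_lit 5) (nat_lit 14) (nat_lit 5) (nat_lit 13) (nat_lit 4) (nat_lit 446) (nat_lit 300) (nat_lit 154)) (XT.nd (nat_lit 78) (nat_lit 228) (nat_lit 0) (XT.lf (nat_lit 0) (nat_lit 1505255882) (nat_lit 0) (nat_lit 1505255882) (nat_lit 76) (nat_lit 212624195) (nat_lit 352) (nat_lit 5) (nat_lit 352) (nat_lit 3) (nat_lit 353) (nat_lit 0) (nat_lit 301) (nat_lit 301) (nat_lit 298)) (XT.lf (nat_lit 0) (nat_lit 2474518831) (nat_lit 228) (nat_lit 360391874) (nat_lit 228) (nat_lit 3617172266) (nat_lit 349) (nat_lit 3) (nat_lit 352) (nat_lit 3) (nat_lit 352) (nat_lit 5) (nat_lit 302) (nat_lit 301) (nat_lit 297)))) (XT.nd (nat_lit 156) (nat_lit 304) (nat_lit 0) (XT.nd (nat_lit 78) (nat_lit 228) (nat_lit 0) (XT.lf (nat_lit 76) (nat_lit 2799331207) (nat_lit 0) (nat_lit 2567219637) (nat_lit 228) (nat_lit 1094135700) (nat_lit 350) (nat_lit 5) (nat_lit 349) (nat_lit 3) (nat_lit 352) (nat_lit 5)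 (nat_lit 303) (nat_lit 301) (nat_lit 296)) (XT.lf (nat_lit 0) (nat_lit 1731272065) (nat_lit 228) (nat_lit 486392745) (nat_lit 304) (nat_lit 4254730012) (nat_lit 346) (nat_lit 5) (nat_lit 349) (nat_lit 3) (nat_lit 350) (nat_lit 5) (nat_lit 304) (nat_lit 301) (nat_lit 295))) (XT.nd (nat_lit 78) (nat_lit 304) (nat_lit 0) (XT.lf (nat_lit 76) (nat_lit 2768642931) (nat_lit 0) (nat_lit 1769077043) (nat_lit 304) (nat_lit 1949006883) (nat_lit 347) (nat_lit 5) (nat_lit 346) (nat_lit 5) (nat_lit 350) (nat_lit 5) (nat_lit 305) (nat_lit 301) (nat_lit 294)) (XT.lf (nat_lit 0) (nat_lit 806815706) (nat_lit 304) (nat_lit 439061602) (nat_lit 380) (nat_lit 5258540572) (nat_lit 342) (nat_lit 5) (nat_lit 346) (nat_lit 5) (nat_lit 347) (nat_lit 5) (nat_lit 306) (nat_lit 301) (nat_lit 293))))))) (XT.nd (nat_lit 1014) (nat_lit 7372) (nat_lit 0) (XT.nd (nat_lit 468) (nat_lit 2812) (nat_lit 0) (XT.nd (nat_lit 234) (nat_lit 912)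 (nat_lit 0) (XT.nd (nat_lit 78) (nat_lit 304) (nat_lit 0) (XT.lf (nat_lit 76) (nat_lit 2917655588) (nat_lit 0) (nat_lit 612714660) (nat_lit 380) (nat_lit 2994096777) (nat_lit 343) (nat_lit 5) (nat_lit 342) (nat_lit 5) (nat_lit 347) (nat_lit 5) (nat_lit 307) (nat_lit 301) (nat_lit 292)) (XT.nd (nat_lit 78) (nat_lit 380) (nat_lit 0) (XT.lf (nat_lit 0) (nat_lit 6239560123) (nat_lit 304) (nat_lit 222662958) (nat_lit 76) (nat_lit 85906041) (nat_lit 343) (nat_lit 5) (nat_lit 347) (nat_lit 5) (nat_lit 344) (nat_lit 5) (nat_lit 308) (nat_lit 301) (nat_lit 291)) (XT.lf (nat_lit 0) (nat_lit 2348271761) (nat_lit 380) (nat_lit 3336431739) (nat_lit 76) (nat_lit 889049726) (nat_lit 338) (nat_lit 5) (nat_lit 343) (nat_lit 5) (nat_lit 339) (nat_lit 5) (nat_lit 309) (nat_lit 301) (nat_lit 290)))) (XT.nd (nat_lit 78) (nat_lit 532) (nat_lit 0) (XT.lf (nat_lit 0) (nat_lit 144326089) (nat_lit 380) (nat_lit 4841179637) (nat_lit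 456) (nat_lit 1617460336) (nat_lit 333) (nat_lit 5) (nat_lit 338) (nat_lit 5) (nat_lit 339) (nat_lit 5) (nat_lit 310) (nat_lit 301) (nat_lit 289)) (XT.nd (nat_lit 78) (nat_lit 456) (nat_lit 0) (XT.lf (nat_lit 0) (nat_lit 986391314) (nat_lit 456) (nat_lit 2907171626) (nat_lit 76) (nat_lit 2741142308) (nat_lit 332) (nat_lit 5) (nat_lit 338) (nat_lit 5) (nat_lit 333) (nat_lit 5) (nat_lit 311) (nat_lit 301) (nat_lit 288)) (XT.lf (nat_lit 0) (nat_lit 687642988) (nat_lit 456) (nat_lit 2862021129) (nat_lit 532) (nat_lit 3119945928) (nat_lit 326) (nat_lit 5) (nat_lit 332) (nat_lit 5) (nat_lit 333) (nat_lit 5) (nat_lit 312) (nat_lit 301) (nat_lit 287))))) (XT.nd (nat_lit 234) (nat_lit 2204) (nat_lit 0) (XT.nd (nat_lit 78) (nat_lit 608) (nat_lit 0) (XT.lf (nat_lit 0) (nat_lit 4389888629) (nat_lit 456) (nat_lit 1738634057) (nat_lit 532) (nat_lit 578983834) (nat_lit 326) (nat_lit 5) (nat_lit 332) (nat_lit 5) (nat_lit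 333) (nat_lit 5) (nat_lit 313) (nat_lit 301) (nat_lit 286)) (XT.nd (nat_lit 78) (nat_lit 0) (nat_lit 0) (XT.lf (nat_lit 0) (nat_lit 1404342855) (nat_lit 532) (nat_lit 518590931) (nat_lit 608) (nat_lit 4825382472) (nat_lit 318) (nat_lit 5) (nat_lit 325) (nat_lit 5) (nat_lit 326) (nat_lit 5) (nat_lit 314) (nat_lit 301) (nat_lit 285)) (XT.lf (nat_lit 0) (nat_lit 4432285349) (nat_lit 608) (nat_lit 1579745797) (nat_lit 76) (nat_lit 779923002) (nat_lit 318) (nat_lit 5) (nat_lit 326) (nat_lit 5) (nat_lit 319) (nat_lit 5) (nat_lit 315) (nat_lit 301) (nat_lit 284)))) (XT.nd (nat_lit 156) (nat_lit 1520) (nat_lit 0) (XT.nd (nat_lit 78) (nat_lit 0) (nat_lit 0) (XT.lf (nat_lit 0) (nat_lit 118668031) (nat_lit 684) (nat_lit 4563875769) (nat_lit 76) (nat_lit 2156131240) (nat_lit 309) (nat_lit 5) (nat_lit 318) (nat_lit 5) (nat_lit 310) (nat_lit 5) (nat_lit 316) (nat_lit 301) (nat_lit 283)) (XT.lf (nat_lit 0) (nat_lit 2556818171)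 (nat_lit 684) (nat_lit 694314775) (nat_lit 76) (nat_lit 3637065086) (nat_lit 309) (nat_lit 5) (nat_lit 318) (nat_lit 5) (nat_lit 310) (nat_lit 5) (nat_lit 317) (nat_lit 301) (nat_lit 282))) (XT.nd (nat_lit 78) (nat_lit 836) (nat_lit 0) (XT.lf (nat_lit 0) (nat_lit 3295604573) (nat_lit 684) (nat_lit 1723391427) (nat_lit 760) (nat_lit 1921769725) (nat_lit 300) (nat_lit 5) (nat_lit 309) (nat_lit 5) (nat_lit 310) (nat_lit 5) (nat_lit 318) (nat_lit 301) (nat_lit 281)) (XT.lf (nat_lit 0) (nat_lit 365309635) (nat_lit 760) (nat_lit 114603094) (nat_lit 836) (nat_lit 6516995363) (nat_lit 289) (nat_lit 5) (nat_lit 299) (nat_lit 5) (nat_lit 300) (nat_lit 5) (nat_lit 319) (nat_lit 301) (nat_lit 280)))))) (XT.nd (nat_lit 546) (nat_lit 3420) (nat_lit 0) (XT.nd (nat_lit 234) (nat_lit 3040) (nat_lit 0) (XT.nd (nat_lit 78) (nat_lit 912) (nat_lit 0) (XT.lf (nat_lit 0) (nat_lit 2889056406) (nat_lit 836) (nat_lit 2580144179)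 (nat_lit 76) (nat_lit 1585820483) (nat_lit 289) (nat_lit 5) (nat_lit 300) (nat_lit 5) (nat_lit 290) (nat_lit 5) (nat_lit 320) (nat_lit 301) (nat_lit 279)) (XT.nd (nat_lit 78) (nat_lit 76) (nat_lit 0) (XT.lf (nat_lit 0) (nat_lit 1560904452) (nat_lit 836) (nat_lit 3750015813) (nat_lit 912) (nat_lit 1805819762) (nat_lit 278) (nat_lit 5) (nat_lit 289) (nat_lit 5) (nat_lit 290) (nat_lit 5) (nat_lit 321) (nat_lit 301) (nat_lit 278)) (XT.lf (nat_lit 0) (nat_lit 564365870) (nat_lit 912) (nat_lit 1368955602) (nat_lit 76) (nat_lit 5248337372) (nat_lit 277) (nat_lit 5) (nat_lit 289) (nat_lit 5) (nat_lit 278) (nat_lit 5) (nat_lit 322) (nat_lit 301) (nat_lit 277)))) (XT.nd (nat_lit 156) (nat_lit 2128) (nat_lit 0) (XT.nd (nat_lit 78) (nat_lit 0) (nat_lit 0) (XT.lf (nat_lit 0) (nat_lit 2922253150) (nat_lit 912) (nat_lit 2502664) (nat_lit 988) (nat_lit 4324640735) (nat_lit 265) (nat_lit 5) (nat_lit 277) (nat_lit 5) (nat_lit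 278) (nat_lit 5) (nat_lit 323) (nat_lit 301) (nat_lit 276)) (XT.lf (nat_lit 0) (nat_lit 5317965620) (nat_lit 988) (nat_lit 29861608) (nat_lit 76) (nat_lit 1972546412) (nat_lit 265) (nat_lit 5) (nat_lit 278) (nat_lit 5) (nat_lit 266) (nat_lit 5) (nat_lit 324) (nat_lit 301) (nat_lit 275))) (XT.nd (nat_lit 78) (nat_lit 1064) (nat_lit 0) (XT.lf (nat_lit 0) (nat_lit 355123503) (nat_lit 1064) (nat_lit 2975542607) (nat_lit 76) (nat_lit 4063568272) (nat_lit 251) (nat_lit 5) (nat_lit 265) (nat_lit 5) (nat_lit 252) (nat_lit 5) (nat_lit 325) (nat_lit 301) (nat_lit 274)) (XT.lf (nat_lit 0) (nat_lit 1478881847) (nat_lit 1064) (nat_lit 1210500659) (nat_lit 1140) (nat_lit 4782007998) (nat_lit 237) (nat_lit 5) (nat_lit 251) (nat_lit 5) (nat_lit 252) (nat_lit 5) (nat_lit 326) (nat_lit 301) (nat_lit 273))))) (XT.nd (nat_lit 234) (nat_lit 1216) (nat_lit 0) (XT.nd (nat_lit 78) (nat_lit 2204) (nat_lit 0) (XT.lf (nat_lit 0)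 (nat_lit 5066564089) (nat_lit 1140) (nat_lit 1494364936) (nat_lit 76) (nat_lit 990805414) (nat_lit 237) (nat_lit 5) (nat_lit 252) (nat_lit 5) (nat_lit 238) (nat_lit 5) (nat_lit 327) (nat_lit 301) (nat_lit 272)) (XT.nd (nat_lit 78) (nat_lit 1064) (nat_lit 0) (XT.lf (nat_lit 0) (nat_lit 3126894112) (nat_lit 1140) (nat_lit 4365350074) (nat_lit 1216) (nat_lit 142987238) (nat_lit 222) (nat_lit 5) (nat_lit 237) (nat_lit 5) (nat_lit 238) (nat_lit 5) (nat_lit 328) (nat_lit 301) (nat_lit 271)) (XT.lf (nat_lit 0) (nat_lit 115331611) (nat_lit 988) (nat_lit 2061958072) (nat_lit 1064) (nat_lit 5544780646) (nat_lit 208) (nat_lit 5) (nat_lit 221) (nat_lit 5) (nat_lit 222) (nat_lit 5) (nat_lit 329) (nat_lit 301) (nat_lit 270)))) (XT.nd (nat_lit 156) (nat_lit 608) (nat_lit 0) (XT.nd (nat_lit 78) (nat_lit 608) (nat_lit 0) (XT.lf (nat_lit 0) (nat_lit 4550331074) (nat_lit 1064) (nat_lit 2907827154) (nat_lit 76) (nat_lit 353786084)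 (nat_lit 208) (nat_lit 5) (nat_lit 222) (nat_lit 5) (nat_lit 209) (nat_lit 5) (nat_lit 330) (nat_lit 301) (nat_lit 269)) (XT.lf (nat_lit 0) (nat_lit 1887344748) (nat_lit 608) (nat_lit 5084678530) (nat_lit 684) (nat_lit 933219182) (nat_lit 200) (nat_lit 5) (nat_lit 208) (nat_lit 5) (nat_lit 209) (nat_lit 5) (nat_lit 331) (nat_lit 301) (nat_lit 268))) (XT.nd (nat_lit 78) (nat_lit 532) (nat_lit 0) (XT.lf (nat_lit 0) (nat_lit 1405550134) (nat_lit 684) (nat_lit 1190627635) (nat_lit 76) (nat_lit 5405714723) (nat_lit 199) (nat_lit 5) (nat_lit 208) (nat_lit 5) (nat_lit 200) (nat_lit 5) (nat_lit 332) (nat_lit 301) (nat_lit 267)) (XT.lf (nat_lit 0) (nat_lit 3773463892) (nat_lit 608) (nat_lit 4315880577) (nat_lit 76) (nat_lit 12535561) (nat_lit 192) (nat_lit 5) (nat_lit 200) (nat_lit 5) (nat_lit 193) (nat_lit 5) (nat_lit 333) (nat_lit 301) (nat_lit 266))))))))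
noncomputable def xc108 : XT := (XT.nd (nat_lit 2028) (nat_lit 3648) (nat_lit 0) (XT.nd (nat_lit 1014) (nat_lit 2964) (nat_lit 0) (XT.nd (nat_lit 468) (nat_lit 1900) (nat_lit 0) (XT.nd (nat_lit 234) (nat_lit 1064) (nat_lit 0) (XT.nd (nat_lit 78) (nat_lit 608) (nat_lit 0) (XT.lf (nat_lit 0) (nat_lit 657689712) (nat_lit 608) (nat_lit 5541239257) (nat_lit 684) (nat_lit 2006388771) (nat_lit 184) (nat_lit 5) (nat_lit 192) (nat_lit 5) (nat_lit 193) (nat_lit 5) (nat_lit 334) (nat_lit 301) (nat_lit 265)) (XT.nd (nat_lit 78) (nat_lit 532) (nat_lit 0) (XT.lf (nat_lit 0) (nat_lit 364632819) (nat_lit 684) (nat_lit 2507475374) (nat_lit 76) (nat_lit 5440077044) (nat_lit 183) (nat_lit 5) (nat_lit 192) (nat_lit 5) (nat_lit 184) (nat_lit 5) (nat_lit 335) (nat_lit 301) (nat_lit 264)) (XT.lf (nat_lit 0) (nat_lit 2655913508) (nat_lit 532) (nat_lit 80578830) (nat_lit 608) (nat_lit 5686111514) (nat_lit 176) (nat_lit 5) (nat_lit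 183) (nat_lit 5) (nat_lit 184) (nat_lit 5) (nat_lit 336) (nat_lit 301) (nat_lit 263)))) (XT.nd (nat_lit 78) (nat_lit 1064) (nat_lit 0) (XT.lf (nat_lit 0) (nat_lit 5177445656) (nat_lit 608) (nat_lit 598054943) (nat_lit 76) (nat_lit 2760937126) (nat_lit 176) (nat_lit 5) (nat_lit 184) (nat_lit 5) (nat_lit 177) (nat_lit 5) (nat_lit 337) (nat_lit 301) (nat_lit 262)) (XT.nd (nat_lit 78) (nat_lit 532) (nat_lit 0) (XT.lf (nat_lit 0) (nat_lit 4758503714) (nat_lit 532) (nat_lit 2926753022) (nat_lit 608) (nat_lit 968660651) (nat_lit 169) (nat_lit 5) (nat_lit 176) (nat_lit 5) (nat_lit 177) (nat_lit 5) (nat_lit 338) (nat_lit 301) (nat_lit 261)) (XT.lf (nat_lit 0) (nat_lit 1432307954) (nat_lit 532) (nat_lit 7308030559) (nat_lit 76) (nat_lit 35147586) (nat_lit 162) (nat_lit 5) (nat_lit 169) (nat_lit 5) (nat_lit 163) (nat_lit 5) (nat_lit 339) (nat_lit 301) (nat_lit 260))))) (XT.nd (nat_lit 234) (nat_lit 988) (nat_lit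 0) (XT.nd (nat_lit 78) (nat_lit 912) (nat_lit 0) (XT.lf (nat_lit 0) (nat_lit 3902942742) (nat_lit 532) (nat_lit 1928035689) (nat_lit 76) (nat_lit 3068958817) (nat_lit 162) (nat_lit 5) (nat_lit 169) (nat_lit 5) (nat_lit 163) (nat_lit 5) (nat_lit 340) (nat_lit 301) (nat_lit 259)) (XT.nd (nat_lit 78) (nat_lit 456) (nat_lit 0) (XT.lf (nat_lit 0) (nat_lit 3625247287) (nat_lit 456) (nat_lit 2807203193) (nat_lit 532) (nat_lit 2596164063) (nat_lit 156) (nat_lit 5) (nat_lit 162) (nat_lit 5) (nat_lit 163) (nat_lit 5) (nat_lit 341) (nat_lit 301) (nat_lit 258)) (XT.lf (nat_lit 0) (nat_lit 164446740) (nat_lit 456) (nat_lit 8848310818) (nat_lit 532) (nat_lit 149181376) (nat_lit 150) (nat_lit 5) (nat_lit 156) (nat_lit 5) (nat_lit 157) (nat_lit 5) (nat_lit 342) (nat_lit 301) (nat_lit 257)))) (XT.nd (nat_lit 156) (nat_lit 456) (nat_lit 0) (XT.nd (nat_lit 78) (nat_lit 456) (nat_lit 0) (XT.lf (nat_lit 0) (nat_lit 2358910308)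 (nat_lit 532) (nat_lit 3398814967) (nat_lit 76) (nat_lit 3539867103) (nat_lit 149) (nat_lit 5) (nat_lit 156) (nat_lit 5) (nat_lit 150) (nat_lit 5) (nat_lit 343) (nat_lit 301) (nat_lit 256)) (XT.lf (nat_lit 0) (nat_lit 2353910011) (nat_lit 456) (nat_lit 2560461270) (nat_lit 532) (nat_lit 4523677383) (nat_lit 143) (nat_lit 5) (nat_lit 149) (nat_lit 5) (nat_lit 150) (nat_lit 5) (nat_lit 344) (nat_lit 301) (nat_lit 255))) (XT.nd (nat_lit 78) (nat_lit 456) (nat_lit 0) (XT.lf (nat_lit 0) (nat_lit 7541419410) (nat_lit 532) (nat_lit 1299303306) (nat_lit 76) (nat_lit 742178611) (nat_lit 143) (nat_lit 5) (nat_lit 150) (nat_lit 5) (nat_lit 144) (nat_lit 5) (nat_lit 345) (nat_lit 301) (nat_lit 254)) (XT.lf (nat_lit 0) (nat_lit 530141411) (nat_lit 456) (nat_lit 5069176988) (nat_lit 76) (nat_lit 4131910798) (nat_lit 137) (nat_lit 5) (nat_lit 143) (nat_lit 5) (nat_lit 138) (nat_lit 5) (nat_lit 346) (nat_lit 301) (nat_lit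 253)))))) (XT.nd (nat_lit 468) (nat_lit 1444) (nat_lit 0) (XT.nd (nat_lit 234) (nat_lit 760) (nat_lit 0) (XT.nd (nat_lit 78) (nat_lit 380) (nat_lit 0) (XT.lf (nat_lit 0) (nat_lit 884424047) (nat_lit 380) (nat_lit 2230097368) (nat_lit 456) (nat_lit 6769607723) (nat_lit 132) (nat_lit 5) (nat_lit 137) (nat_lit 5) (nat_lit 138) (nat_lit 5) (nat_lit 347) (nat_lit 301) (nat_lit 252)) (XT.nd (nat_lit 78) (nat_lit 380) (nat_lit 0) (XT.lf (nat_lit 0) (nat_lit 5795578409) (nat_lit 456) (nat_lit 2990391388) (nat_lit 76) (nat_lit 1255098913) (nat_lit 132) (nat_lit 5) (nat_lit 138) (nat_lit 5) (nat_lit 133) (nat_lit 5) (nat_lit 348) (nat_lit 301) (nat_lit 251)) (XT.lf (nat_lit 0) (nat_lit 3182496475) (nat_lit 380) (nat_lit 5384066657) (nat_lit 456) (nat_lit 1635894668) (nat_lit 127) (nat_lit 5) (nat_lit 132) (nat_lit 5) (nat_lit 133) (nat_lit 5) (nat_lit 349) (nat_lit 301) (nat_lit 250)))) (XT.nd (nat_lit 78) (nat_lit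 684) (nat_lit 0) (XT.lf (nat_lit 0) (nat_lit 1019052835) (nat_lit 456) (nat_lit 833372408) (nat_lit 76) (nat_lit 8516356894) (nat_lit 126) (nat_lit 5) (nat_lit 132) (nat_lit 5) (nat_lit 127) (nat_lit 5) (nat_lit 350) (nat_lit 301) (nat_lit 249)) (XT.nd (nat_lit 78) (nat_lit 304) (nat_lit 0) (XT.lf (nat_lit 0) (nat_lit 3750433990) (nat_lit 456) (nat_lit 4980957118) (nat_lit 76) (nat_lit 1807353222) (nat_lit 121) (nat_lit 5) (nat_lit 127) (nat_lit 5) (nat_lit 122) (nat_lit 5) (nat_lit 351) (nat_lit 301) (nat_lit 248)) (XT.lf (nat_lit 0) (nat_lit 1397086253) (nat_lit 304) (nat_lit 5165837860) (nat_lit 380) (nat_lit 4150929540) (nat_lit 117) (nat_lit 5) (nat_lit 121) (nat_lit 5) (nat_lit 122) (nat_lit 5) (nat_lit 352) (nat_lit 301) (nat_lit 247))))) (XT.nd (nat_lit 234) (nat_lit 988) (nat_lit 0) (XT.nd (nat_lit 78) (nat_lit 456) (nat_lit 0) (XT.lf (nat_lit 0) (nat_lit 8013160550) (nat_lit 304) (nat_lit 1456489039)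 (nat_lit 380) (nat_lit 1424293459) (nat_lit 117) (nat_lit 5) (nat_lit 121) (nat_lit 5) (nat_lit 122) (nat_lit 5) (nat_lit 353) (nat_lit 301) (nat_lit 246)) (XT.nd (nat_lit 78) (nat_lit 0) (nat_lit 0) (XT.lf (nat_lit 0) (nat_lit 1376615332) (nat_lit 456) (nat_lit 7348624511) (nat_lit 76) (nat_lit 2353232940) (nat_lit 111) (nat_lit 5) (nat_lit 117) (nat_lit 5) (nat_lit 112) (nat_lit 5) (nat_lit 354) (nat_lit 301) (nat_lit 245)) (XT.lf (nat_lit 0) (nat_lit 4237544775) (nat_lit 456) (nat_lit 753748749) (nat_lit 76) (nat_lit 6276703914) (nat_lit 111) (nat_lit 5) (nat_lit 117) (nat_lit 5) (nat_lit 112) (nat_lit 5) (nat_lit 355) (nat_lit 301) (nat_lit 244)))) (XT.nd (nat_lit 156) (nat_lit 380) (nat_lit 0) (XT.nd (nat_lit 78) (nat_lit 304) (nat_lit 0) (XT.lf (nat_lit 0) (nat_lit 6104577516) (nat_lit 304) (nat_lit 1100367960) (nat_lit 380) (nat_lit 4257663145) (nat_lit 107) (nat_lit 5) (nat_lit 111) (nat_lit 5)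 (nat_lit 112) (nat_lit 5) (nat_lit 356) (nat_lit 301) (nat_lit 243)) (XT.lf (nat_lit 0) (nat_lit 1467910599) (nat_lit 304) (nat_lit 8805612813) (nat_lit 380) (nat_lit 1389189576) (nat_lit 103) (nat_lit 5) (nat_lit 107) (nat_lit 5) (nat_lit 108) (nat_lit 5) (nat_lit 357) (nat_lit 301) (nat_lit 242))) (XT.nd (nat_lit 78) (nat_lit 304) (nat_lit 0) (XT.lf (nat_lit 0) (nat_lit 1562936232) (nat_lit 380) (nat_lit 3339429626) (nat_lit 76) (nat_lit 6965177301) (nat_lit 102) (nat_lit 5) (nat_lit 107) (nat_lit 5) (nat_lit 103) (nat_lit 5) (nat_lit 358) (nat_lit 301) (nat_lit 241)) (XT.lf (nat_lit 0) (nat_lit 3727955189) (nat_lit 304) (nat_lit 847281161) (nat_lit 380) (nat_lit 7502901147) (nat_lit 98) (nat_lit 5) (nat_lit 102) (nat_lit 5) (nat_lit 103) (nat_lit 5) (nat_lit 359) (nat_lit 301) (nat_lit 240))))))) (XT.nd (nat_lit 1014) (nat_lit 1672) (nat_lit 0) (XT.nd (nat_lit 468) (nat_lit 1064) (nat_lit 0) (XT.nd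 (nat_lit 234) (nat_lit 304) (nat_lit 0) (XT.nd (nat_lit 78) (nat_lit 608) (nat_lit 0) (XT.lf (nat_lit 0) (nat_lit 7708061198) (nat_lit 380) (nat_lit 1303616921) (nat_lit 76) (nat_lit 3282484205) (nat_lit 98) (nat_lit 5) (nat_lit 103) (nat_lit 5) (nat_lit 99) (nat_lit 5) (nat_lit 360) (nat_lit 301) (nat_lit 239)) (XT.nd (nat_lit 78) (nat_lit 304) (nat_lit 0) (XT.lf (nat_lit 0) (nat_lit 6011756020) (nat_lit 304) (nat_lit 4954433521) (nat_lit 380) (nat_lit 1549555615) (nat_lit 94) (nat_lit 5) (nat_lit 98) (nat_lit 5) (nat_lit 99) (nat_lit 5) (nat_lit 361) (nat_lit 301) (nat_lit 238)) (XT.lf (nat_lit 0) (nat_lit 777899479) (nat_lit 228) (nat_lit 755474788) (nat_lit 304) (nat_lit 11210579517) (nat_lit 90) (nat_lit 5) (nat_lit 93) (nat_lit 5) (nat_lit 94) (nat_lit 5) (nat_lit 362) (nat_lit 301) (nat_lit 237)))) (XT.nd (nat_lit 78) (nat_lit 304) (nat_lit 0) (XT.lf (nat_lit 0) (nat_lit 4743951704) (nat_lit 304)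 (nat_lit 4667854913) (nat_lit 76) (nat_lit 3564768060) (nat_lit 90) (nat_lit 5) (nat_lit 94) (nat_lit 5) (nat_lit 91) (nat_lit 5) (nat_lit 363) (nat_lit 301) (nat_lit 236)) (XT.nd (nat_lit 78) (nat_lit 0) (nat_lit 0) (XT.lf (nat_lit 0) (nat_lit 2846796172) (nat_lit 304) (nat_lit 5205560062) (nat_lit 380) (nat_lit 5163787618) (nat_lit 86) (nat_lit 5) (nat_lit 90) (nat_lit 5) (nat_lit 91) (nat_lit 5) (nat_lit 364) (nat_lit 301) (nat_lit 235)) (XT.lf (nat_lit 0) (nat_lit 10632503396) (nat_lit 304) (nat_lit 841799995) (nat_lit 380) (nat_lit 1988182511) (nat_lit 86) (nat_lit 5) (nat_lit 90) (nat_lit 5) (nat_lit 91) (nat_lit 5) (nat_lit 365) (nat_lit 301) (nat_lit 234))))) (XT.nd (nat_lit 234) (nat_lit 532) (nat_lit 0) (XT.nd (nat_lit 78) (nat_lit 228) (nat_lit 0) (XT.lf (nat_lit 0) (nat_lit 1308771215) (nat_lit 304) (nat_lit 8779971267) (nat_lit 76) (nat_lit 3625586199) (nat_lit 82) (nat_lit 5) (nat_lit 86)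 (nat_lit 5) (nat_lit 83) (nat_lit 5) (nat_lit 366) (nat_lit 301) (nat_lit 233)) (XT.nd (nat_lit 78) (nat_lit 228) (nat_lit 0) (XT.lf (nat_lit 0) (nat_lit 4669955080) (nat_lit 304) (nat_lit 1061117996) (nat_lit 76) (nat_lit 8241917939) (nat_lit 82) (nat_lit 5) (nat_lit 86) (nat_lit 5) (nat_lit 83) (nat_lit 5) (nat_lit 367) (nat_lit 301) (nat_lit 232)) (XT.lf (nat_lit 0) (nat_lit 6977312198) (nat_lit 228) (nat_lit 1190749109) (nat_lit 304) (nat_lit 6070282201) (nat_lit 79) (nat_lit 5) (nat_lit 82) (nat_lit 5) (nat_lit 83) (nat_lit 5) (nat_lit 368) (nat_lit 301) (nat_lit 231)))) (XT.nd (nat_lit 156) (nat_lit 228) (nat_lit 0) (XT.nd (nat_lit 78) (nat_lit 76) (nat_lit 0) (XT.lf (nat_lit 0) (nat_lit 698903372) (nat_lit 228) (nat_lit 11092550625) (nat_lit 304) (nat_lit 2719604801) (nat_lit 76) (nat_lit 5) (nat_lit 79) (nat_lit 5) (nat_lit 80) (nat_lit 5) (nat_lit 369) (nat_lit 301) (nat_lit 230)) (XT.lf (nat_lit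 0) (nat_lit 772572490) (nat_lit 304) (nat_lit 5811402670) (nat_lit 76) (nat_lit 8206123544) (nat_lit 75) (nat_lit 5) (nat_lit 79) (nat_lit 5) (nat_lit 76) (nat_lit 5) (nat_lit 370) (nat_lit 301) (nat_lit 229))) (XT.nd (nat_lit 78) (nat_lit 0) (nat_lit 0) (XT.lf (nat_lit 0) (nat_lit 2402156704) (nat_lit 228) (nat_lit 1906096622) (nat_lit 304) (nat_lit 10768658147) (nat_lit 72) (nat_lit 5) (nat_lit 75) (nat_lit 5) (nat_lit 76) (nat_lit 5) (nat_lit 371) (nat_lit 301) (nat_lit 228)) (XT.lf (nat_lit 0) (nat_lit 8007819403) (nat_lit 304) (nat_lit 4465314687) (nat_lit 76) (nat_lit 2897471212) (nat_lit 72) (nat_lit 5) (nat_lit 76) (nat_lit 5) (nat_lit 73) (nat_lit 5) (nat_lit 372) (nat_lit 301) (nat_lit 227)))))) (XT.nd (nat_lit 546) (nat_lit 684) (nat_lit 0) (XT.nd (nat_lit 234) (nat_lit 456) (nat_lit 0) (XT.nd (nat_lit 78) (nat_lit 304) (nat_lit 0) (XT.lf (nat_lit 0) (nat_lit 4003619246) (nat_lit 228) (nat_lit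 7843525217) (nat_lit 304) (nat_lit 3825113125) (nat_lit 69) (nat_lit 5) (nat_lit 72) (nat_lit 5) (nat_lit 73) (nat_lit 5) (nat_lit 373) (nat_lit 301) (nat_lit 226)) (XT.nd (nat_lit 78) (nat_lit 304) (nat_lit 0) (XT.lf (nat_lit 0) (nat_lit 12772565026) (nat_lit 228) (nat_lit 3045984032) (nat_lit 304) (nat_lit 163913875) (nat_lit 69) (nat_lit 5) (nat_lit 72) (nat_lit 5) (nat_lit 73) (nat_lit 5) (nat_lit 374) (nat_lit 301) (nat_lit 225)) (XT.lf (nat_lit 0) (nat_lit 3581175332) (nat_lit 304) (nat_lit 10788065487) (nat_lit 76) (nat_lit 1930370027) (nat_lit 65) (nat_lit 5) (nat_lit 69) (nat_lit 5) (nat_lit 66) (nat_lit 5) (nat_lit 375) (nat_lit 301) (nat_lit 224)))) (XT.nd (nat_lit 156) (nat_lit 304) (nat_lit 0) (XT.nd (nat_lit 78) (nat_lit 152) (nat_lit 0) (XT.lf (nat_lit 0) (nat_lit 7470778801) (nat_lit 304) (nat_lit 2142018087) (nat_lit 76) (nat_lit 7012373535) (nat_lit 65) (nat_lit 5) (nat_lit 69) (nat_lit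 5) (nat_lit 66) (nat_lit 5) (nat_lit 376) (nat_lit 301) (nat_lit 223)) (XT.lf (nat_lit 0) (nat_lit 6853410616) (nat_lit 152) (nat_lit 4662901294) (nat_lit 228) (nat_lit 5443016947) (nat_lit 63) (nat_lit 5) (nat_lit 65) (nat_lit 5) (nat_lit 66) (nat_lit 5) (nat_lit 377) (nat_lit 301) (nat_lit 222))) (XT.nd (nat_lit 78) (nat_lit 304) (nat_lit 0) (XT.lf (nat_lit 0) (nat_lit 15682799811) (nat_lit 228) (nat_lit 1188591826) (nat_lit 76) (nat_lit 432141786) (nat_lit 63) (nat_lit 5) (nat_lit 66) (nat_lit 5) (nat_lit 64) (nat_lit 5) (nat_lit 378) (nat_lit 301) (nat_lit 221)) (XT.lf (nat_lit 0) (nat_lit 2370001869) (nat_lit 304) (nat_lit 9613567266) (nat_lit 76) (nat_lit 5670866128) (nat_lit 59) (nat_lit 5) (nat_lit 63) (nat_lit 5) (nat_lit 60) (nat_lit 5) (nat_lit 379) (nat_lit 301) (nat_lit 220))))) (XT.nd (nat_lit 234) (nat_lit 532) (nat_lit 0) (XT.nd (nat_lit 78) (nat_lit 152) (nat_lit 0) (XT.lf (nat_lit 0)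 (nat_lit 6434416467) (nat_lit 304) (nat_lit 502852493) (nat_lit 76) (nat_lit 11078526103) (nat_lit 59) (nat_lit 5) (nat_lit 63) (nat_lit 5) (nat_lit 60) (nat_lit 5) (nat_lit 380) (nat_lit 301) (nat_lit 219)) (XT.nd (nat_lit 78) (nat_lit 0) (nat_lit 0) (XT.lf (nat_lit 0) (nat_lit 9015596613) (nat_lit 152) (nat_lit 1666986541) (nat_lit 228) (nat_lit 7703565948) (nat_lit 57) (nat_lit 5) (nat_lit 59) (nat_lit 5) (nat_lit 60) (nat_lit 5) (nat_lit 381) (nat_lit 301) (nat_lit 218)) (XT.lf (nat_lit 0) (nat_lit 15074805056) (nat_lit 228) (nat_lit 15452095) (nat_lit 76) (nat_lit 3676866108) (nat_lit 57) (nat_lit 5) (nat_lit 60) (nat_lit 5) (nat_lit 58) (nat_lit 5) (nat_lit 382) (nat_lit 301) (nat_lit 217)))) (XT.nd (nat_lit 156) (nat_lit 152) (nat_lit 0) (XT.nd (nat_lit 78) (nat_lit 152) (nat_lit 0) (XT.lf (nat_lit 0) (nat_lit 517849123) (nat_lit 228) (nat_lit 9408373004) (nat_lit 76) (nat_lit 9230570576) (nat_lit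 54) (nat_lit 5) (nat_lit 57) (nat_lit 5) (nat_lit 55) (nat_lit 5) (nat_lit 383) (nat_lit 301) (nat_lit 216)) (XT.lf (nat_lit 0) (nat_lit 173644095) (nat_lit 152) (nat_lit 4584407243) (nat_lit 228) (nat_lit 14799673050) (nat_lit 52) (nat_lit 5) (nat_lit 54) (nat_lit 5) (nat_lit 55) (nat_lit 5) (nat_lit 384) (nat_lit 301) (nat_lit 215))) (XT.nd (nat_lit 78) (nat_lit 152) (nat_lit 0) (XT.lf (nat_lit 0) (nat_lit 9206492708) (nat_lit 228) (nat_lit 9782330581) (nat_lit 76) (nat_lit 979436674) (nat_lit 52) (nat_lit 5) (nat_lit 55) (nat_lit 5) (nat_lit 53) (nat_lit 5) (nat_lit 385) (nat_lit 301) (nat_lit 214)) (XT.lf (nat_lit 0) (nat_lit 22997113) (nat_lit 152) (nat_lit 13787957927) (nat_lit 228) (nat_lit 6579486262) (nat_lit 50) (nat_lit 5) (nat_lit 52) (nat_lit 5) (nat_lit 53) (nat_lit 5) (nat_lit 386) (nat_lit 301) (nat_lit 213))))))))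
noncomputable def xc109 : XT := (XT.nd (nat_lit 2028) (nat_lit 988) (nat_lit 0) (XT.nd (nat_lit 1014) (nat_lit 684) (nat_lit 0) (XT.nd (nat_lit 468) (nat_lit 684) (nat_lit 0) (XT.nd (nat_lit 234) (nat_lit 152) (nat_lit 0) (XT.nd (nat_lit 78) (nat_lit 228) (nat_lit 0) (XT.lf (nat_lit 0) (nat_lit 10283867310) (nat_lit 152) (nat_lit 8345717660) (nat_lit 228) (nat_lit 2193428634) (nat_lit 50) (nat_lit 5) (nat_lit 52) (nat_lit 5) (nat_lit 53) (nat_lit 5) (nat_lit 387) (nat_lit 301) (nat_lit 212)) (XT.nd (nat_lit 78) (nat_lit 152) (nat_lit 0) (XT.lf (nat_lit 0) (nat_lit 2256546056) (nat_lit 228) (nat_lit 476796743) (nat_lit 76) (nat_lit 18535225511) (nat_lit 49) (nat_lit 5) (nat_lit 52) (nat_lit 5) (nat_lit 50) (nat_lit 5) (nat_lit 388) (nat_lit 301) (nat_lit 211)) (XT.lf (nat_lit 0) (nat_lit 6900941589) (nat_lit 228) (nat_lit 11730940591) (nat_lit 76) (nat_lit 3091811722) (nat_lit 47) (nat_lit 5) (nat_lit 50)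 (nat_lit 5) (nat_lit 48) (nat_lit 5) (nat_lit 389) (nat_lit 301) (nat_lit 210)))) (XT.nd (nat_lit 78) (nat_lit 152) (nat_lit 0) (XT.lf (nat_lit 0) (nat_lit 11695058793) (nat_lit 228) (nat_lit 1470742575) (nat_lit 76) (nat_lit 9026366006) (nat_lit 47) (nat_lit 5) (nat_lit 50) (nat_lit 5) (nat_lit 48) (nat_lit 5) (nat_lit 390) (nat_lit 301) (nat_lit 209)) (XT.nd (nat_lit 78) (nat_lit 0) (nat_lit 0) (XT.lf (nat_lit 0) (nat_lit 9241215027) (nat_lit 152) (nat_lit 7459708563) (nat_lit 228) (nat_lit 5971739372) (nat_lit 45) (nat_lit 5) (nat_lit 47) (nat_lit 5) (nat_lit 48) (nat_lit 5) (nat_lit 391) (nat_lit 301) (nat_lit 208)) (XT.lf (nat_lit 0) (nat_lit 20268661019) (nat_lit 152) (nat_lit 1582509532) (nat_lit 228) (nat_lit 1316582153) (nat_lit 45) (nat_lit 5) (nat_lit 47) (nat_lit 5) (nat_lit 48) (nat_lit 5) (nat_lit 392) (nat_lit 301) (nat_lit 207))))) (XT.nd (nat_lit 234) (nat_lit 304) (nat_lit 0) (XT.nd (nat_lit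 78) (nat_lit 152) (nat_lit 0) (XT.lf (nat_lit 0) (nat_lit 3511296868) (nat_lit 228) (nat_lit 15681657401) (nat_lit 76) (nat_lit 4480714784) (nat_lit 42) (nat_lit 5) (nat_lit 45) (nat_lit 5) (nat_lit 43) (nat_lit 5) (nat_lit 393) (nat_lit 301) (nat_lit 206)) (XT.nd (nat_lit 78) (nat_lit 152) (nat_lit 0) (XT.lf (nat_lit 0) (nat_lit 8482644386) (nat_lit 228) (nat_lit 4989093352) (nat_lit 76) (nat_lit 10721886275) (nat_lit 42) (nat_lit 5) (nat_lit 45) (nat_lit 5) (nat_lit 43) (nat_lit 5) (nat_lit 394) (nat_lit 301) (nat_lit 205)) (XT.lf (nat_lit 0) (nat_lit 6108998302) (nat_lit 152) (nat_lit 7533304753) (nat_lit 228) (nat_lit 11085704306) (nat_lit 40) (nat_lit 5) (nat_lit 42) (nat_lit 5) (nat_lit 43) (nat_lit 5) (nat_lit 395) (nat_lit 301) (nat_lit 204)))) (XT.nd (nat_lit 156) (nat_lit 228) (nat_lit 0) (XT.nd (nat_lit 78) (nat_lit 76) (nat_lit 0) (XT.lf (nat_lit 0) (nat_lit 17608184177) (nat_lit 152) (nat_lit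 1379636180) (nat_lit 228) (nat_lit 6289674507) (nat_lit 40) (nat_lit 5) (nat_lit 42) (nat_lit 5) (nat_lit 43) (nat_lit 5) (nat_lit 396) (nat_lit 301) (nat_lit 203)) (XT.lf (nat_lit 0) (nat_lit 3597865339) (nat_lit 76) (nat_lit 20959201295) (nat_lit 152) (nat_lit 1284504037) (nat_lit 39) (nat_lit 5) (nat_lit 40) (nat_lit 5) (nat_lit 41) (nat_lit 4) (nat_lit 397) (nat_lit 301) (nat_lit 202))) (XT.nd (nat_lit 78) (nat_lit 152) (nat_lit 0) (XT.lf (nat_lit 0) (nat_lit 3868314126) (nat_lit 152) (nat_lit 11145216167) (nat_lit 76) (nat_lit 11405735730) (nat_lit 38) (nat_lit 5) (nat_lit 40) (nat_lit 5) (nat_lit 39) (nat_lit 5) (nat_lit 398) (nat_lit 301) (nat_lit 201)) (XT.lf (nat_lit 0) (nat_lit 245677149) (nat_lit 152) (nat_lit 8888287624) (nat_lit 228) (nat_lit 17880428166) (nat_lit 36) (nat_lit 5) (nat_lit 38) (nat_lit 5) (nat_lit 39) (nat_lit 5) (nat_lit 399) (nat_lit 301) (nat_lit 200)))))) (XT.nd (nat_lit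 468) (nat_lit 380) (nat_lit 0) (XT.nd (nat_lit 234) (nat_lit 228) (nat_lit 0) (XT.nd (nat_lit 78) (nat_lit 76) (nat_lit 0) (XT.lf (nat_lit 0) (nat_lit 12174456431) (nat_lit 152) (nat_lit 2477599286) (nat_lit 228) (nat_lit 12972487891) (nat_lit 36) (nat_lit 5) (nat_lit 38) (nat_lit 5) (nat_lit 39) (nat_lit 5) (nat_lit 400) (nat_lit 301) (nat_lit 199)) (XT.nd (nat_lit 78) (nat_lit 76) (nat_lit 0) (XT.lf (nat_lit 0) (nat_lit 20357664901) (nat_lit 228) (nat_lit 3863319084) (nat_lit 76) (nat_lit 4031359501) (nat_lit 36) (nat_lit 5) (nat_lit 39) (nat_lit 5) (nat_lit 37) (nat_lit 4) (nat_lit 401) (nat_lit 301) (nat_lit 198)) (XT.lf (nat_lit 0) (nat_lit 8175210909) (nat_lit 76) (nat_lit 18145181778) (nat_lit 152) (nat_lit 2576010002) (nat_lit 35) (nat_lit 5) (nat_lit 36) (nat_lit 5) (nat_lit 37) (nat_lit 4) (nat_lit 402) (nat_lit 301) (nat_lit 197)))) (XT.nd (nat_lit 78) (nat_lit 152) (nat_lit 0) (XT.lf (nat_lit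 0) (nat_lit 2867853488) (nat_lit 152) (nat_lit 8963686893) (nat_lit 76) (nat_lit 17726741939) (nat_lit 34) (nat_lit 5) (nat_lit 36) (nat_lit 5) (nat_lit 35) (nat_lit 5) (nat_lit 403) (nat_lit 301) (nat_lit 196)) (XT.nd (nat_lit 78) (nat_lit 0) (nat_lit 0) (XT.lf (nat_lit 0) (nat_lit 3152575137) (nat_lit 152) (nat_lit 5284355310) (nat_lit 228) (nat_lit 21801916069) (nat_lit 32) (nat_lit 5) (nat_lit 34) (nat_lit 5) (nat_lit 35) (nat_lit 5) (nat_lit 404) (nat_lit 301) (nat_lit 195)) (XT.lf (nat_lit 0) (nat_lit 14261958701) (nat_lit 228) (nat_lit 15166019797) (nat_lit 76) (nat_lit 1509186181) (nat_lit 32) (nat_lit 5) (nat_lit 35) (nat_lit 5) (nat_lit 33) (nat_lit 4) (nat_lit 405) (nat_lit 301) (nat_lit 194))))) (XT.nd (nat_lit 234) (nat_lit 304) (nat_lit 0) (XT.nd (nat_lit 78) (nat_lit 76) (nat_lit 0) (XT.lf (nat_lit 0) (nat_lit 20297980453) (nat_lit 228) (nat_lit 2969661693) (nat_lit 76) (nat_lit 8387706272)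 (nat_lit 32) (nat_lit 5) (nat_lit 35) (nat_lit 5) (nat_lit 33) (nat_lit 4) (nat_lit 406) (nat_lit 301) (nat_lit 193)) (XT.nd (nat_lit 78) (nat_lit 0) (nat_lit 0) (XT.lf (nat_lit 0) (nat_lit 9754603856) (nat_lit 76) (nat_lit 16838636804) (nat_lit 152) (nat_lit 5799495489) (nat_lit 31) (nat_lit 5) (nat_lit 32) (nat_lit 5) (nat_lit 33) (nat_lit 4) (nat_lit 407) (nat_lit 301) (nat_lit 192)) (XT.lf (nat_lit 0) (nat_lit 22893419525) (nat_lit 76) (nat_lit 10198502473) (nat_lit 152) (nat_lit 59889734) (nat_lit 31) (nat_lit 5) (nat_lit 32) (nat_lit 5) (nat_lit 33) (nat_lit 4) (nat_lit 408) (nat_lit 301) (nat_lit 191)))) (XT.nd (nat_lit 156) (nat_lit 76) (nat_lit 0) (XT.nd (nat_lit 78) (nat_lit 0) (nat_lit 0) (XT.lf (nat_lit 0) (nat_lit 2456890876) (nat_lit 152) (nat_lit 3289312306) (nat_lit 228) (nat_lit 28185517059) (nat_lit 28) (nat_lit 5) (nat_lit 30) (nat_lit 5) (nat_lit 31) (nat_lit 5) (nat_lit 409) (nat_lit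 301) (nat_lit 190)) (XT.lf (nat_lit 0) (nat_lit 11851612965) (nat_lit 228) (nat_lit 19034009189) (nat_lit 76) (nat_lit 3845598784) (nat_lit 28) (nat_lit 5) (nat_lit 31) (nat_lit 5) (nat_lit 29) (nat_lit 4) (nat_lit 410) (nat_lit 301) (nat_lit 189))) (XT.nd (nat_lit 78) (nat_lit 76) (nat_lit 0) (XT.lf (nat_lit 0) (nat_lit 18158124892) (nat_lit 228) (nat_lit 6279330652) (nat_lit 76) (nat_lit 11116715688) (nat_lit 28) (nat_lit 5) (nat_lit 31) (nat_lit 5) (nat_lit 29) (nat_lit 4) (nat_lit 411) (nat_lit 301) (nat_lit 188)) (XT.lf (nat_lit 0) (nat_lit 6967939590) (nat_lit 76) (nat_lit 17738671133) (nat_lit 152) (nat_lit 11693618647) (nat_lit 27) (nat_lit 5) (nat_lit 28) (nat_lit 5) (nat_lit 29) (nat_lit 4) (nat_lit 412) (nat_lit 301) (nat_lit 187))))))) (XT.nd (nat_lit 1014) (nat_lit 456) (nat_lit 0) (XT.nd (nat_lit 468) (nat_lit 228) (nat_lit 0) (XT.nd (nat_lit 234) (nat_lit 76) (nat_lit 0) (XT.nd (nat_lit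 78) (nat_lit 228) (nat_lit 0) (XT.lf (nat_lit 0) (nat_lit 20715584894) (nat_lit 76) (nat_lit 10785339597) (nat_lit 152) (nat_lit 5769266174) (nat_lit 27) (nat_lit 5) (nat_lit 28) (nat_lit 5) (nat_lit 29) (nat_lit 4) (nat_lit 413) (nat_lit 301) (nat_lit 186)) (XT.nd (nat_lit 78) (nat_lit 152) (nat_lit 0) (XT.lf (nat_lit 0) (nat_lit 312558248) (nat_lit 152) (nat_lit 3319079663) (nat_lit 76) (nat_lit 34534932300) (nat_lit 26) (nat_lit 5) (nat_lit 28) (nat_lit 5) (nat_lit 27) (nat_lit 5) (nat_lit 414) (nat_lit 301) (nat_lit 185)) (XT.lf (nat_lit 0) (nat_lit 6585200128) (nat_lit 228) (nat_lit 28687420000) (nat_lit 76) (nat_lit 3811780184) (nat_lit 24) (nat_lit 5) (nat_lit 27) (nat_lit 5) (nat_lit 25) (nat_lit 4) (nat_lit 415) (nat_lit 301) (nat_lit 184)))) (XT.nd (nat_lit 78) (nat_lit 76) (nat_lit 0) (XT.lf (nat_lit 0) (nat_lit 13102511627) (nat_lit 228) (nat_lit 15497092225) (nat_lit 76) (nat_lit 11428469077)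 (nat_lit 24) (nat_lit 5) (nat_lit 27) (nat_lit 5) (nat_lit 25) (nat_lit 4) (nat_lit 416) (nat_lit 301) (nat_lit 183)) (XT.nd (nat_lit 78) (nat_lit 76) (nat_lit 0) (XT.lf (nat_lit 0) (nat_lit 19802415781) (nat_lit 228) (nat_lit 1934941711) (nat_lit 76) (nat_lit 19263088287) (nat_lit 24) (nat_lit 5) (nat_lit 27) (nat_lit 5) (nat_lit 25) (nat_lit 4) (nat_lit 417) (nat_lit 301) (nat_lit 182)) (XT.lf (nat_lit 0) (nat_lit 12249922067) (nat_lit 76) (nat_lit 14558598554) (nat_lit 152) (nat_lit 15190315275) (nat_lit 23) (nat_lit 5) (nat_lit 24) (nat_lit 5) (nat_lit 25) (nat_lit 4) (nat_lit 418) (nat_lit 301) (nat_lit 181))))) (XT.nd (nat_lit 234) (nat_lit 76) (nat_lit 0) (XT.nd (nat_lit 78) (nat_lit 152) (nat_lit 0) (XT.lf (nat_lit 0) (nat_lit 26877032180) (nat_lit 76) (nat_lit 7154910156) (nat_lit 152) (nat_lit 8995023493) (nat_lit 23) (nat_lit 5) (nat_lit 24) (nat_lit 5) (nat_lit 25) (nat_lit 4) (nat_lit 419)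 (nat_lit 301) (nat_lit 180)) (XT.nd (nat_lit 78) (nat_lit 152) (nat_lit 0) (XT.lf (nat_lit 0) (nat_lit 41464450570) (nat_lit 152) (nat_lit 2170070515) (nat_lit 0) (nat_lit 451649123) (nat_lit 23) (nat_lit 5) (nat_lit 25) (nat_lit 4) (nat_lit 23) (nat_lit 4) (nat_lit 420) (nat_lit 301) (nat_lit 179)) (XT.lf (nat_lit 0) (nat_lit 4045642712) (nat_lit 152) (nat_lit 32833490813) (nat_lit 76) (nat_lit 8291488206) (nat_lit 21) (nat_lit 5) (nat_lit 23) (nat_lit 5) (nat_lit 22) (nat_lit 4) (nat_lit 421) (nat_lit 301) (nat_lit 178)))) (XT.nd (nat_lit 156) (nat_lit 76) (nat_lit 0) (XT.nd (nat_lit 78) (nat_lit 0) (nat_lit 0) (XT.lf (nat_lit 0) (nat_lit 10870691044) (nat_lit 152) (nat_lit 19011015585) (nat_lit 76) (nat_lit 16404812557) (nat_lit 21) (nat_lit 5) (nat_lit 23) (nat_lit 5) (nat_lit 22) (nat_lit 4) (nat_lit 422) (nat_lit 301) (nat_lit 177)) (XT.lf (nat_lit 0) (nat_lit 17889062337) (nat_lit 152) (nat_lit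 4795151847) (nat_lit 76) (nat_lit 24752024069) (nat_lit 21) (nat_lit 5) (nat_lit 23) (nat_lit 5) (nat_lit 22) (nat_lit 4) (nat_lit 423) (nat_lit 301) (nat_lit 176))) (XT.nd (nat_lit 78) (nat_lit 0) (nat_lit 0) (XT.lf (nat_lit 0) (nat_lit 10022089086) (nat_lit 76) (nat_lit 15181138514) (nat_lit 152) (nat_lit 23414665787) (nat_lit 20) (nat_lit 5) (nat_lit 21) (nat_lit 5) (nat_lit 22) (nat_lit 4) (nat_lit 424) (nat_lit 301) (nat_lit 175)) (XT.lf (nat_lit 0) (nat_lit 25361679993) (nat_lit 76) (nat_lit 7412590308) (nat_lit 152) (nat_lit 17059606026) (nat_lit 20) (nat_lit 5) (nat_lit 21) (nat_lit 5) (nat_lit 22) (nat_lit 4) (nat_lit 425) (nat_lit 301) (nat_lit 174)))))) (XT.nd (nat_lit 546) (nat_lit 228) (nat_lit 0) (XT.nd (nat_lit 234) (nat_lit 76) (nat_lit 0) (XT.nd (nat_lit 78) (nat_lit 152) (nat_lit 0) (XT.lf (nat_lit 0) (nat_lit 40567367985) (nat_lit 152) (nat_lit 9950641812) (nat_lit 0) (nat_lit 568482926)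 (nat_lit 20) (nat_lit 5) (nat_lit 22) (nat_lit 4) (nat_lit 20) (nat_lit 4) (nat_lit 426) (nat_lit 301) (nat_lit 173)) (XT.nd (nat_lit 78) (nat_lit 76) (nat_lit 0) (XT.lf (nat_lit 0) (nat_lit 5011444407) (nat_lit 76) (nat_lit 43693953743) (nat_lit 76) (nat_lit 3667956902) (nat_lit 19) (nat_lit 4) (nat_lit 20) (nat_lit 5) (nat_lit 20) (nat_lit 4) (nat_lit 427) (nat_lit 301) (nat_lit 172)) (XT.lf (nat_lit 0) (nat_lit 3413684976) (nat_lit 152) (nat_lit 33122538457) (nat_lit 76) (nat_lit 17158892143) (nat_lit 18) (nat_lit 5) (nat_lit 20) (nat_lit 5) (nat_lit 19) (nat_lit 4) (nat_lit 428) (nat_lit 301) (nat_lit 171)))) (XT.nd (nat_lit 156) (nat_lit 76) (nat_lit 0) (XT.nd (nat_lit 78) (nat_lit 0) (nat_lit 0) (XT.lf (nat_lit 0) (nat_lit 10623945853) (nat_lit 152) (nat_lit 18511264332) (nat_lit 76) (nat_lit 25920533968) (nat_lit 18) (nat_lit 5) (nat_lit 20) (nat_lit 5) (nat_lit 19) (nat_lit 4) (nat_lit 429) (nat_lit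 301) (nat_lit 170)) (XT.lf (nat_lit 0) (nat_lit 18040701007) (nat_lit 152) (nat_lit 3480062491) (nat_lit 76) (nat_lit 34936723941) (nat_lit 18) (nat_lit 5) (nat_lit 20) (nat_lit 5) (nat_lit 19) (nat_lit 4) (nat_lit 430) (nat_lit 301) (nat_lit 169))) (XT.nd (nat_lit 78) (nat_lit 0) (nat_lit 0) (XT.lf (nat_lit 0) (nat_lit 12222710223) (nat_lit 76) (nat_lit 13565213041) (nat_lit 152) (nat_lit 32110122233) (nat_lit 17) (nat_lit 5) (nat_lit 18) (nat_lit 5) (nat_lit 19) (nat_lit 4) (nat_lit 431) (nat_lit 301) (nat_lit 168)) (XT.lf (nat_lit 0) (nat_lit 28450204948) (nat_lit 76) (nat_lit 5343078704) (nat_lit 152) (nat_lit 25587766364) (nat_lit 17) (nat_lit 5) (nat_lit 18) (nat_lit 5) (nat_lit 19) (nat_lit 4) (nat_lit 432) (nat_lit 301) (nat_lit 167))))) (XT.nd (nat_lit 234) (nat_lit 152) (nat_lit 0) (XT.nd (nat_lit 78) (nat_lit 76) (nat_lit 0) (XT.lf (nat_lit 0) (nat_lit 42059627952) (nat_lit 152) (nat_lit 15791448464)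 (nat_lit 0) (nat_lit 3056844886) (nat_lit 17) (nat_lit 5) (nat_lit 19) (nat_lit 4) (nat_lit 17) (nat_lit 4) (nat_lit 433) (nat_lit 301) (nat_lit 166)) (XT.nd (nat_lit 78) (nat_lit 76) (nat_lit 0) (XT.lf (nat_lit 0) (nat_lit 50617909758) (nat_lit 152) (nat_lit 267647437) (nat_lit 0) (nat_lit 11593724401) (nat_lit 17) (nat_lit 5) (nat_lit 19) (nat_lit 4) (nat_lit 17) (nat_lit 4) (nat_lit 434) (nat_lit 301) (nat_lit 165)) (XT.lf (nat_lit 0) (nat_lit 16018053355) (nat_lit 76) (nat_lit 43560168214) (nat_lit 76) (nat_lit 4515203933) (nat_lit 16) (nat_lit 4) (nat_lit 17) (nat_lit 5) (nat_lit 17) (nat_lit 4) (nat_lit 435) (nat_lit 301) (nat_lit 164)))) (XT.nd (nat_lit 156) (nat_lit 76) (nat_lit 0) (XT.nd (nat_lit 78) (nat_lit 0) (nat_lit 0) (XT.lf (nat_lit 0) (nat_lit 2985852859) (nat_lit 152) (nat_lit 33003856688) (nat_lit 76) (nat_lit 29765584011) (nat_lit 15) (nat_lit 5) (nat_lit 17) (nat_lit 5) (nat_lit 16)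 (nat_lit 4) (nat_lit 436) (nat_lit 301) (nat_lit 163)) (XT.lf (nat_lit 0) (nat_lit 10612760311) (nat_lit 152) (nat_lit 17540820689) (nat_lit 76) (nat_lit 39312349546) (nat_lit 15) (nat_lit 5) (nat_lit 17) (nat_lit 5) (nat_lit 16) (nat_lit 4) (nat_lit 437) (nat_lit 301) (nat_lit 162))) (XT.nd (nat_lit 78) (nat_lit 76) (nat_lit 0) (XT.lf (nat_lit 0) (nat_lit 18460290602) (nat_lit 152) (nat_lit 1629349857) (nat_lit 76) (nat_lit 49138492824) (nat_lit 15) (nat_lit 5) (nat_lit 17) (nat_lit 5) (nat_lit 16) (nat_lit 4) (nat_lit 438) (nat_lit 301) (nat_lit 161)) (XT.lf (nat_lit 0) (nat_lit 15037902678) (nat_lit 76) (nat_lit 11641951638) (nat_lit 152) (nat_lit 44359250639) (nat_lit 14) (nat_lit 5) (nat_lit 15) (nat_lit 5) (nat_lit 16) (nat_lit 4) (nat_lit 439) (nat_lit 301) (nat_lit 160))))))))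
noncomputable def xc110 : XT := (XT.nd (nat_lit 37596) (nat_lit 0) (nat_lit 9500) (XT.nd (nat_lit 36582) (nat_lit 0) (nat_lit 21052) (XT.nd (nat_lit 468) (nat_lit 76) (nat_lit 0) (XT.nd (nat_lit 234) (nat_lit 76) (nat_lit 0) (XT.nd (nat_lit 78) (nat_lit 0) (nat_lit 0) (XT.lf (nat_lit 0) (nat_lit 32223713917) (nat_lit 76) (nat_lit 2930886863) (nat_lit 152) (nat_lit 37749548166) (nat_lit 14) (nat_lit 5) (nat_lit 15) (nat_lit 5) (nat_lit 16) (nat_lit 4) (nat_lit 440) (nat_lit 301) (nat_lit 159)) (XT.nd (nat_lit 78) (nat_lit 0) (nat_lit 0) (XT.lf (nat_lit 0) (nat_lit 43933970439) (nat_lit 152) (nat_lit 24972710144) (nat_lit 0) (nat_lit 5916953266) (nat_lit 14) (nat_lit 5) (nat_lit 16) (nat_lit 4) (nat_lit 14) (nat_lit 4) (nat_lit 441) (nat_lit 301) (nat_lit 158)) (XT.lf (nat_lit 0) (nat_lit 52998270076) (nat_lit 152) (nat_lit 8836937912) (nat_lit 0) (nat_lit 14964849828) (nat_lit 14) (nat_lit 5) (nat_lit 16)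 (nat_lit 4) (nat_lit 14) (nat_lit 4) (nat_lit 442) (nat_lit 301) (nat_lit 157)))) (XT.nd (nat_lit 78) (nat_lit 0) (nat_lit 0) (XT.lf (nat_lit 0) (nat_lit 7923775765) (nat_lit 76) (nat_lit 54479638890) (nat_lit 76) (nat_lit 16430293327) (nat_lit 13) (nat_lit 4) (nat_lit 14) (nat_lit 5) (nat_lit 14) (nat_lit 4) (nat_lit 443) (nat_lit 301) (nat_lit 156)) (XT.nd (nat_lit 78) (nat_lit 0) (nat_lit 0) (XT.lf (nat_lit 0) (nat_lit 25354841126) (nat_lit 76) (nat_lit 46817936286) (nat_lit 76) (nat_lit 8753129253) (nat_lit 13) (nat_lit 4) (nat_lit 14) (nat_lit 5) (nat_lit 14) (nat_lit 4) (nat_lit 444) (nat_lit 301) (nat_lit 155)) (XT.lf (nat_lit 0) (nat_lit 43295616807) (nat_lit 76) (nat_lit 38932641232) (nat_lit 76) (nat_lit 852823062) (nat_lit 13) (nat_lit 4) (nat_lit 14) (nat_lit 5) (nat_lit 14) (nat_lit 4) (nat_lit 445) (nat_lit 301) (nat_lit 154))))) (XT.nd (nat_lit 35802) (nat_lit 0) (nat_lit 25080) (XT.nd (nat_lit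 35646) (nat_lit 0) (nat_lit 25384) (XT.lf (nat_lit 0) (nat_lit 7135517632) (nat_lit 152) (nat_lit 23609291296) (nat_lit 76) (nat_lit 54554206843) (nat_lit 12) (nat_lit 5) (nat_lit 14) (nat_lit 5) (nat_lit 13) (nat_lit 4) (nat_lit 446) (nat_lit 301) (nat_lit 153)) (XT.nd (nat_lit 78) (nat_lit 228) (nat_lit 0) (XT.lf (nat_lit 0) (nat_lit 2655139273) (nat_lit 228) (nat_lit 287310620) (nat_lit 228) (nat_lit 287310620) (nat_lit 349) (nat_lit 3) (nat_lit 352) (nat_lit 3) (nat_lit 352) (nat_lit 5) (nat_lit 302) (nat_lit 302) (nat_lit 296)) (XT.lf (nat_lit 0) (nat_lit 1643251614) (nat_lit 228) (nat_lit 3933614397) (nat_lit 304) (nat_lit 892545174) (nat_lit 346) (nat_lit 5) (nat_lit 349) (nat_lit 3) (nat_lit 350) (nat_lit 5) (nat_lit 303) (nat_lit 302) (nat_lit 295)))) (XT.nd (nat_lit 156) (nat_lit 0) (nat_lit 0) (XT.nd (nat_lit 78) (nat_lit 304) (nat_lit 0) (XT.lf (nat_lit 0) (nat_lit 4393936963) (nat_lit 228)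 (nat_lit 797922490) (nat_lit 304) (nat_lit 1290617351) (nat_lit 346) (nat_lit 5) (nat_lit 349) (nat_lit 3) (nat_lit 350) (nat_lit 5) (nat_lit 304) (nat_lit 302) (nat_lit 294)) (XT.lf (nat_lit 0) (nat_lit 634087212) (nat_lit 304) (nat_lit 4082307514) (nat_lit 380) (nat_lit 1781951595) (nat_lit 342) (nat_lit 5) (nat_lit 346) (nat_lit 5) (nat_lit 347) (nat_lit 5) (nat_lit 305) (nat_lit 302) (nat_lit 293))) (XT.nd (nat_lit 78) (nat_lit 0) (nat_lit 0) (XT.lf (nat_lit 0) (nat_lit 3300736817) (nat_lit 304) (nat_lit 850745691) (nat_lit 380) (nat_lit 2365592633) (nat_lit 342) (nat_lit 5) (nat_lit 346) (nat_lit 5) (nat_lit 347) (nat_lit 5) (nat_lit 306) (nat_lit 302) (nat_lit 292)) (XT.lf (nat_lit 76) (nat_lit 2469334346) (nat_lit 0) (nat_lit 3500996174) (nat_lit 380) (nat_lit 568476304) (nat_lit 343) (nat_lit 5) (nat_lit 342) (nat_lit 5) (nat_lit 347) (nat_lit 5) (nat_lit 307) (nat_lit 302) (nat_lit 291)))))) (XT.nd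 (nat_lit 468) (nat_lit 2736) (nat_lit 0) (XT.nd (nat_lit 234) (nat_lit 456) (nat_lit 0) (XT.nd (nat_lit 78) (nat_lit 456) (nat_lit 0) (XT.lf (nat_lit 0) (nat_lit 2025878459) (nat_lit 380) (nat_lit 733474683) (nat_lit 456) (nat_lit 3804061173) (nat_lit 337) (nat_lit 5) (nat_lit 342) (nat_lit 5) (nat_lit 343) (nat_lit 5) (nat_lit 308) (nat_lit 302) (nat_lit 290)) (XT.nd (nat_lit 78) (nat_lit 456) (nat_lit 0) (XT.lf (nat_lit 76) (nat_lit 2693058642) (nat_lit 0) (nat_lit 1922871929) (nat_lit 456) (nat_lit 1974900188) (nat_lit 338) (nat_lit 5) (nat_lit 337) (nat_lit 5) (nat_lit 343) (nat_lit 5) (nat_lit 309) (nat_lit 302) (nat_lit 289)) (XT.lf (nat_lit 0) (nat_lit 563760150) (nat_lit 456) (nat_lit 445809158) (nat_lit 532) (nat_lit 5612056859) (nat_lit 331) (nat_lit 5) (nat_lit 337) (nat_lit 5) (nat_lit 338) (nat_lit 5) (nat_lit 310) (nat_lit 302) (nat_lit 288)))) (XT.nd (nat_lit 78) (nat_lit 532) (nat_lit 0)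 (XT.lf (nat_lit 0) (nat_lit 3076218906) (nat_lit 456) (nat_lit 3560623784) (nat_lit 76) (nat_lit 17904493) (nat_lit 332) (nat_lit 5) (nat_lit 338) (nat_lit 5) (nat_lit 333) (nat_lit 5) (nat_lit 311) (nat_lit 302) (nat_lit 287)) (XT.nd (nat_lit 78) (nat_lit 532) (nat_lit 0) (XT.lf (nat_lit 0) (nat_lit 5588501210) (nat_lit 456) (nat_lit 8211115) (nat_lit 76) (nat_lit 1094521174) (nat_lit 332) (nat_lit 5) (nat_lit 338) (nat_lit 5) (nat_lit 333) (nat_lit 5) (nat_lit 312) (nat_lit 302) (nat_lit 286)) (XT.lf (nat_lit 0) (nat_lit 1366241110) (nat_lit 532) (nat_lit 3078706411) (nat_lit 76) (nat_lit 2285134239) (nat_lit 325) (nat_lit 5) (nat_lit 332) (nat_lit 5) (nat_lit 326) (nat_lit 5) (nat_lit 313) (nat_lit 302) (nat_lit 285))))) (XT.nd (nat_lit 234) (nat_lit 1520) (nat_lit 0) (XT.nd (nat_lit 78) (nat_lit 684) (nat_lit 0) (XT.lf (nat_lit 0) (nat_lit 593100489) (nat_lit 532) (nat_lit 3213396633) (nat_lit 608)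 (nat_lit 2965785723) (nat_lit 318) (nat_lit 5) (nat_lit 325) (nat_lit 5) (nat_lit 326) (nat_lit 5) (nat_lit 314) (nat_lit 302) (nat_lit 284)) (XT.nd (nat_lit 78) (nat_lit 684) (nat_lit 0) (XT.lf (nat_lit 0) (nat_lit 4380365579) (nat_lit 532) (nat_lit 1886237449) (nat_lit 608) (nat_lit 550841103) (nat_lit 318) (nat_lit 5) (nat_lit 325) (nat_lit 5) (nat_lit 326) (nat_lit 5) (nat_lit 315) (nat_lit 302) (nat_lit 283)) (XT.lf (nat_lit 0) (nat_lit 1367497345) (nat_lit 608) (nat_lit 461522859) (nat_lit 684) (nat_lit 5036561941) (nat_lit 309) (nat_lit 5) (nat_lit 317) (nat_lit 5) (nat_lit 318) (nat_lit 5) (nat_lit 316) (nat_lit 302) (nat_lit 282)))) (XT.nd (nat_lit 156) (nat_lit 836) (nat_lit 0) (XT.nd (nat_lit 78) (nat_lit 684) (nat_lit 0) (XT.lf (nat_lit 0) (nat_lit 4222932830) (nat_lit 684) (nat_lit 1653662535) (nat_lit 76) (nat_lit 1039879020) (nat_lit 309) (nat_lit 5) (nat_lit 318) (nat_lit 5) (nat_lit 310)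 (nat_lit 5) (nat_lit 317) (nat_lit 302) (nat_lit 281)) (XT.lf (nat_lit 0) (nat_lit 2287878697) (nat_lit 684) (nat_lit 4348903265) (nat_lit 760) (nat_lit 333750872) (nat_lit 300) (nat_lit 5) (nat_lit 309) (nat_lit 5) (nat_lit 310) (nat_lit 5) (nat_lit 318) (nat_lit 302) (nat_lit 280))) (XT.nd (nat_lit 78) (nat_lit 760) (nat_lit 0) (XT.lf (nat_lit 0) (nat_lit 1995229314) (nat_lit 760) (nat_lit 723807967) (nat_lit 76) (nat_lit 4308469947) (nat_lit 299) (nat_lit 5) (nat_lit 309) (nat_lit 5) (nat_lit 300) (nat_lit 5) (nat_lit 319) (nat_lit 302) (nat_lit 279)) (XT.lf (nat_lit 0) (nat_lit 3358423242) (nat_lit 760) (nat_lit 985938077) (nat_lit 836) (nat_lit 2743096658) (nat_lit 289) (nat_lit 5) (nat_lit 299) (nat_lit 5) (nat_lit 300) (nat_lit 5) (nat_lit 320) (nat_lit 302) (nat_lit 278))))))) (XT.nd (nat_lit 1014) (nat_lit 4180) (nat_lit 0) (XT.nd (nat_lit 468) (nat_lit 4484) (nat_lit 0) (XT.nd (nat_lit 234) (nat_lit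 1064) (nat_lit 0) (XT.nd (nat_lit 78) (nat_lit 988) (nat_lit 0) (XT.lf (nat_lit 0) (nat_lit 368926733) (nat_lit 836) (nat_lit 6340161744) (nat_lit 912) (nat_lit 441838894) (nat_lit 278) (nat_lit 5) (nat_lit 289) (nat_lit 5) (nat_lit 290) (nat_lit 5) (nat_lit 321) (nat_lit 302) (nat_lit 277)) (XT.nd (nat_lit 78) (nat_lit 912) (nat_lit 0) (XT.lf (nat_lit 0) (nat_lit 1865919449) (nat_lit 912) (nat_lit 2637996567) (nat_lit 76) (nat_lit 2712645411) (nat_lit 277) (nat_lit 5) (nat_lit 289) (nat_lit 5) (nat_lit 278) (nat_lit 5) (nat_lit 322) (nat_lit 302) (nat_lit 276)) (XT.lf (nat_lit 0) (nat_lit 1598483108) (nat_lit 912) (nat_lit 2580333331) (nat_lit 988) (nat_lit 3106940733) (nat_lit 265) (nat_lit 5) (nat_lit 277) (nat_lit 5) (nat_lit 278) (nat_lit 5) (nat_lit 323) (nat_lit 302) (nat_lit 275)))) (XT.nd (nat_lit 78) (nat_lit 1064) (nat_lit 0) (XT.lf (nat_lit 0) (nat_lit 5958046595) (nat_lit 912) (nat_lit 560610496)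 (nat_lit 988) (nat_lit 839710529) (nat_lit 265) (nat_lit 5) (nat_lit 277) (nat_lit 5) (nat_lit 278) (nat_lit 5) (nat_lit 324) (nat_lit 302) (nat_lit 274)) (XT.nd (nat_lit 78) (nat_lit 0) (nat_lit 0) (XT.lf (nat_lit 0) (nat_lit 1442542972) (nat_lit 1064) (nat_lit 4447456417) (nat_lit 76) (nat_lit 1543501794) (nat_lit 251) (nat_lit 5) (nat_lit 265) (nat_lit 5) (nat_lit 252) (nat_lit 5) (nat_lit 325) (nat_lit 302) (nat_lit 273)) (XT.lf (nat_lit 0) (nat_lit 3729933854) (nat_lit 1064) (nat_lit 51140668) (nat_lit 76) (nat_lit 3731018370) (nat_lit 251) (nat_lit 5) (nat_lit 265) (nat_lit 5) (nat_lit 252) (nat_lit 5) (nat_lit 326) (nat_lit 302) (nat_lit 272))))) (XT.nd (nat_lit 234) (nat_lit 2204) (nat_lit 0) (XT.nd (nat_lit 78) (nat_lit 1216) (nat_lit 0) (XT.lf (nat_lit 0) (nat_lit 4507370753) (nat_lit 1064) (nat_lit 1557549940) (nat_lit 1140) (nat_lit 1528810658) (nat_lit 237) (nat_lit 5) (nat_lit 251) (nat_lit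 5) (nat_lit 252) (nat_lit 5) (nat_lit 327) (nat_lit 302) (nat_lit 271)) (XT.nd (nat_lit 78) (nat_lit 0) (nat_lit 0) (XT.lf (nat_lit 0) (nat_lit 735123550) (nat_lit 1216) (nat_lit 6197517480) (nat_lit 76) (nat_lit 746251095) (nat_lit 221) (nat_lit 5) (nat_lit 237) (nat_lit 5) (nat_lit 222) (nat_lit 5) (nat_lit 328) (nat_lit 302) (nat_lit 270)) (XT.lf (nat_lit 0) (nat_lit 3020780649) (nat_lit 1216) (nat_lit 1606933325) (nat_lit 76) (nat_lit 3138956959) (nat_lit 221) (nat_lit 5) (nat_lit 237) (nat_lit 5) (nat_lit 222) (nat_lit 5) (nat_lit 329) (nat_lit 302) (nat_lit 269)))) (XT.nd (nat_lit 156) (nat_lit 608) (nat_lit 0) (XT.nd (nat_lit 78) (nat_lit 608) (nat_lit 0) (XT.lf (nat_lit 0) (nat_lit 3124272711) (nat_lit 988) (nat_lit 2220219976) (nat_lit 1064) (nat_lit 2513557594) (nat_lit 208) (nat_lit 5) (nat_lit 221) (nat_lit 5) (nat_lit 222) (nat_lit 5) (nat_lit 330) (nat_lit 302) (nat_lit 268)) (XT.lf (nat_lit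 0) (nat_lit 17007774) (nat_lit 608) (nat_lit 7680635194) (nat_lit 684) (nat_lit 255786461) (nat_lit 200) (nat_lit 5) (nat_lit 208) (nat_lit 5) (nat_lit 209) (nat_lit 5) (nat_lit 331) (nat_lit 302) (nat_lit 267))) (XT.nd (nat_lit 78) (nat_lit 532) (nat_lit 0) (XT.lf (nat_lit 0) (nat_lit 2040808375) (nat_lit 684) (nat_lit 3145208140) (nat_lit 76) (nat_lit 2864759571) (nat_lit 199) (nat_lit 5) (nat_lit 208) (nat_lit 5) (nat_lit 200) (nat_lit 5) (nat_lit 332) (nat_lit 302) (nat_lit 266)) (XT.lf (nat_lit 0) (nat_lit 1763390539) (nat_lit 532) (nat_lit 2597652957) (nat_lit 608) (nat_lit 3791173129) (nat_lit 192) (nat_lit 5) (nat_lit 199) (nat_lit 5) (nat_lit 200) (nat_lit 5) (nat_lit 333) (nat_lit 302) (nat_lit 265)))))) (XT.nd (nat_lit 546) (nat_lit 1900) (nat_lit 0) (XT.nd (nat_lit 234) (nat_lit 1064) (nat_lit 0) (XT.nd (nat_lit 78) (nat_lit 1216) (nat_lit 0) (XT.lf (nat_lit 0) (nat_lit 6727641987) (nat_lit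 608) (nat_lit 1432363310) (nat_lit 76) (nat_lit 97437019) (nat_lit 192) (nat_lit 5) (nat_lit 200) (nat_lit 5) (nat_lit 193) (nat_lit 5) (nat_lit 334) (nat_lit 302) (nat_lit 264)) (XT.nd (nat_lit 78) (nat_lit 532) (nat_lit 0) (XT.lf (nat_lit 0) (nat_lit 790401284) (nat_lit 684) (nat_lit 4712545264) (nat_lit 76) (nat_lit 2862492148) (nat_lit 183) (nat_lit 5) (nat_lit 192) (nat_lit 5) (nat_lit 184) (nat_lit 5) (nat_lit 335) (nat_lit 302) (nat_lit 263)) (XT.lf (nat_lit 0) (nat_lit 377725885) (nat_lit 532) (nat_lit 2736093637) (nat_lit 608) (nat_lit 5363511144) (nat_lit 176) (nat_lit 5) (nat_lit 183) (nat_lit 5) (nat_lit 184) (nat_lit 5) (nat_lit 336) (nat_lit 302) (nat_lit 262)))) (XT.nd (nat_lit 156) (nat_lit 532) (nat_lit 0) (XT.nd (nat_lit 78) (nat_lit 532) (nat_lit 0) (XT.lf (nat_lit 0) (nat_lit 5503182223) (nat_lit 608) (nat_lit 2934602328) (nat_lit 76) (nat_lit 154947238) (nat_lit 176) (nat_lit 5) (nat_lit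 184) (nat_lit 5) (nat_lit 177) (nat_lit 5) (nat_lit 337) (nat_lit 302) (nat_lit 261)) (XT.lf (nat_lit 0) (nat_lit 2346580952) (nat_lit 532) (nat_lit 5615922441) (nat_lit 608) (nat_lit 749181718) (nat_lit 169) (nat_lit 5) (nat_lit 176) (nat_lit 5) (nat_lit 177) (nat_lit 5) (nat_lit 338) (nat_lit 302) (nat_lit 260))) (XT.nd (nat_lit 78) (nat_lit 456) (nat_lit 0) (XT.lf (nat_lit 0) (nat_lit 1607948560) (nat_lit 608) (nat_lit 1061182027) (nat_lit 76) (nat_lit 6165264482) (nat_lit 168) (nat_lit 5) (nat_lit 176) (nat_lit 5) (nat_lit 169) (nat_lit 5) (nat_lit 339) (nat_lit 302) (nat_lit 259)) (XT.lf (nat_lit 0) (nat_lit 4017742339) (nat_lit 532) (nat_lit 4540245429) (nat_lit 76) (nat_lit 402701034) (nat_lit 162) (nat_lit 5) (nat_lit 169) (nat_lit 5) (nat_lit 163) (nat_lit 5) (nat_lit 340) (nat_lit 302) (nat_lit 258))))) (XT.nd (nat_lit 234) (nat_lit 912) (nat_lit 0) (XT.nd (nat_lit 78) (nat_lit 532) (nat_lit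 0) (XT.lf (nat_lit 0) (nat_lit 932341875) (nat_lit 456) (nat_lit 5565064153) (nat_lit 532) (nat_lit 2593472238) (nat_lit 156) (nat_lit 5) (nat_lit 162) (nat_lit 5) (nat_lit 163) (nat_lit 5) (nat_lit 341) (nat_lit 302) (nat_lit 257)) (XT.nd (nat_lit 78) (nat_lit 532) (nat_lit 0) (XT.lf (nat_lit 0) (nat_lit 6605598373) (nat_lit 456) (nat_lit 2443946383) (nat_lit 532) (nat_lit 175519310) (nat_lit 156) (nat_lit 5) (nat_lit 162) (nat_lit 5) (nat_lit 163) (nat_lit 5) (nat_lit 342) (nat_lit 302) (nat_lit 256)) (XT.lf (nat_lit 0) (nat_lit 2260258169) (nat_lit 532) (nat_lit 6303508411) (nat_lit 76) (nat_lit 799158787) (nat_lit 149) (nat_lit 5) (nat_lit 156) (nat_lit 5) (nat_lit 150) (nat_lit 5) (nat_lit 343) (nat_lit 302) (nat_lit 255)))) (XT.nd (nat_lit 156) (nat_lit 456) (nat_lit 0) (XT.nd (nat_lit 78) (nat_lit 456) (nat_lit 0) (XT.lf (nat_lit 0) (nat_lit 4770373336) (nat_lit 532) (nat_lit 624632323) (nat_lit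 76) (nat_lit 4109751339) (nat_lit 149) (nat_lit 5) (nat_lit 156) (nat_lit 5) (nat_lit 150) (nat_lit 5) (nat_lit 344) (nat_lit 302) (nat_lit 254)) (XT.lf (nat_lit 0) (nat_lit 5272476884) (nat_lit 456) (nat_lit 2089221884) (nat_lit 532) (nat_lit 2288997107) (nat_lit 143) (nat_lit 5) (nat_lit 149) (nat_lit 5) (nat_lit 150) (nat_lit 5) (nat_lit 345) (nat_lit 302) (nat_lit 253))) (XT.nd (nat_lit 78) (nat_lit 0) (nat_lit 0) (XT.lf (nat_lit 0) (nat_lit 214666181) (nat_lit 456) (nat_lit 8283762023) (nat_lit 76) (nat_lit 1302864316) (nat_lit 137) (nat_lit 5) (nat_lit 143) (nat_lit 5) (nat_lit 138) (nat_lit 5) (nat_lit 346) (nat_lit 302) (nat_lit 252)) (XT.lf (nat_lit 0) (nat_lit 2768969064) (nat_lit 456) (nat_lit 2375044327) (nat_lit 76) (nat_lit 4811094684) (nat_lit 137) (nat_lit 5) (nat_lit 143) (nat_lit 5) (nat_lit 138) (nat_lit 5) (nat_lit 347) (nat_lit 302) (nat_lit 251))))))))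
noncomputable def xc111 : XT := (XT.nd (nat_lit 2028) (nat_lit 2736) (nat_lit 0) (XT.nd (nat_lit 1014) (nat_lit 1976) (nat_lit 0) (XT.nd (nat_lit 468) (nat_lit 1444) (nat_lit 0) (XT.nd (nat_lit 234) (nat_lit 684) (nat_lit 0) (XT.nd (nat_lit 78) (nat_lit 456) (nat_lit 0) (XT.lf (nat_lit 0) (nat_lit 3729260739) (nat_lit 380) (nat_lit 1663965649) (nat_lit 456) (nat_lit 4720538161) (nat_lit 132) (nat_lit 5) (nat_lit 137) (nat_lit 5) (nat_lit 138) (nat_lit 5) (nat_lit 348) (nat_lit 302) (nat_lit 250)) (XT.nd (nat_lit 78) (nat_lit 456) (nat_lit 0) (XT.lf (nat_lit 0) (nat_lit 8096974350) (nat_lit 456) (nat_lit 284853305) (nat_lit 76) (nat_lit 1895355623) (nat_lit 132) (nat_lit 5) (nat_lit 138) (nat_lit 5) (nat_lit 133) (nat_lit 5) (nat_lit 349) (nat_lit 302) (nat_lit 249)) (XT.lf (nat_lit 0) (nat_lit 462020393) (nat_lit 456) (nat_lit 4403225309) (nat_lit 76) (nat_lit 5579130890) (nat_lit 126) (nat_lit 5) (nat_lit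 132) (nat_lit 5) (nat_lit 127) (nat_lit 5) (nat_lit 350) (nat_lit 302) (nat_lit 248)))) (XT.nd (nat_lit 78) (nat_lit 304) (nat_lit 0) (XT.lf (nat_lit 0) (nat_lit 1908120805) (nat_lit 380) (nat_lit 1212381598) (nat_lit 456) (nat_lit 7496034829) (nat_lit 121) (nat_lit 5) (nat_lit 126) (nat_lit 5) (nat_lit 127) (nat_lit 5) (nat_lit 351) (nat_lit 302) (nat_lit 247)) (XT.nd (nat_lit 78) (nat_lit 304) (nat_lit 0) (XT.lf (nat_lit 0) (nat_lit 5888251304) (nat_lit 456) (nat_lit 2372746488) (nat_lit 76) (nat_lit 2532002138) (nat_lit 121) (nat_lit 5) (nat_lit 127) (nat_lit 5) (nat_lit 122) (nat_lit 5) (nat_lit 352) (nat_lit 302) (nat_lit 246)) (XT.lf (nat_lit 0) (nat_lit 4169602504) (nat_lit 304) (nat_lit 4582772414) (nat_lit 380) (nat_lit 2222003276) (nat_lit 117) (nat_lit 5) (nat_lit 121) (nat_lit 5) (nat_lit 122) (nat_lit 5) (nat_lit 353) (nat_lit 302) (nat_lit 245))))) (XT.nd (nat_lit 234) (nat_lit 684) (nat_lit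 0) (XT.nd (nat_lit 78) (nat_lit 684) (nat_lit 0) (XT.lf (nat_lit 0) (nat_lit 516346240) (nat_lit 380) (nat_lit 262079131) (nat_lit 76) (nat_lit 10383066560) (nat_lit 116) (nat_lit 5) (nat_lit 121) (nat_lit 5) (nat_lit 117) (nat_lit 5) (nat_lit 354) (nat_lit 302) (nat_lit 244)) (XT.nd (nat_lit 78) (nat_lit 304) (nat_lit 0) (XT.lf (nat_lit 0) (nat_lit 3348460425) (nat_lit 456) (nat_lit 4852843709) (nat_lit 76) (nat_lit 3150586805) (nat_lit 111) (nat_lit 5) (nat_lit 117) (nat_lit 5) (nat_lit 112) (nat_lit 5) (nat_lit 355) (nat_lit 302) (nat_lit 243)) (XT.lf (nat_lit 0) (nat_lit 1897797416) (nat_lit 304) (nat_lit 4359433611) (nat_lit 380) (nat_lit 5291039607) (nat_lit 107) (nat_lit 5) (nat_lit 111) (nat_lit 5) (nat_lit 112) (nat_lit 5) (nat_lit 356) (nat_lit 302) (nat_lit 242)))) (XT.nd (nat_lit 156) (nat_lit 304) (nat_lit 0) (XT.nd (nat_lit 78) (nat_lit 380) (nat_lit 0) (XT.lf (nat_lit 0) (nat_lit 8898986432)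 (nat_lit 304) (nat_lit 366933907) (nat_lit 380) (nat_lit 2484260649) (nat_lit 107) (nat_lit 5) (nat_lit 111) (nat_lit 5) (nat_lit 112) (nat_lit 5) (nat_lit 357) (nat_lit 302) (nat_lit 241)) (XT.lf (nat_lit 0) (nat_lit 439593593) (nat_lit 380) (nat_lit 7815186618) (nat_lit 76) (nat_lit 3702044745) (nat_lit 102) (nat_lit 5) (nat_lit 107) (nat_lit 5) (nat_lit 103) (nat_lit 5) (nat_lit 358) (nat_lit 302) (nat_lit 240))) (XT.nd (nat_lit 78) (nat_lit 304) (nat_lit 0) (XT.lf (nat_lit 0) (nat_lit 3398695699) (nat_lit 380) (nat_lit 845723689) (nat_lit 76) (nat_lit 7924604383) (nat_lit 102) (nat_lit 5) (nat_lit 107) (nat_lit 5) (nat_lit 103) (nat_lit 5) (nat_lit 359) (nat_lit 302) (nat_lit 239)) (XT.lf (nat_lit 0) (nat_lit 6408252389) (nat_lit 304) (nat_lit 65698977) (nat_lit 380) (nat_lit 5912832595) (nat_lit 98) (nat_lit 5) (nat_lit 102) (nat_lit 5) (nat_lit 103) (nat_lit 5) (nat_lit 360) (nat_lit 302) (nat_lit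 238)))))) (XT.nd (nat_lit 468) (nat_lit 1064) (nat_lit 0) (XT.nd (nat_lit 234) (nat_lit 304) (nat_lit 0) (XT.nd (nat_lit 78) (nat_lit 304) (nat_lit 0) (XT.lf (nat_lit 0) (nat_lit 1219319162) (nat_lit 304) (nat_lit 8449389480) (nat_lit 380) (nat_lit 2941567332) (nat_lit 94) (nat_lit 5) (nat_lit 98) (nat_lit 5) (nat_lit 99) (nat_lit 5) (nat_lit 361) (nat_lit 302) (nat_lit 237)) (XT.nd (nat_lit 78) (nat_lit 228) (nat_lit 0) (XT.lf (nat_lit 0) (nat_lit 144457220) (nat_lit 380) (nat_lit 4135599234) (nat_lit 76) (nat_lit 8559559211) (nat_lit 93) (nat_lit 5) (nat_lit 98) (nat_lit 5) (nat_lit 94) (nat_lit 5) (nat_lit 362) (nat_lit 302) (nat_lit 236)) (XT.lf (nat_lit 0) (nat_lit 3263786353) (nat_lit 304) (nat_lit 9751165680) (nat_lit 76) (nat_lit 60029339) (nat_lit 90) (nat_lit 5) (nat_lit 94) (nat_lit 5) (nat_lit 91) (nat_lit 5) (nat_lit 363) (nat_lit 302) (nat_lit 235)))) (XT.nd (nat_lit 78) (nat_lit 304) (nat_lit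 0) (XT.lf (nat_lit 0) (nat_lit 6528882688) (nat_lit 304) (nat_lit 2316249486) (nat_lit 76) (nat_lit 4470724768) (nat_lit 90) (nat_lit 5) (nat_lit 94) (nat_lit 5) (nat_lit 91) (nat_lit 5) (nat_lit 364) (nat_lit 302) (nat_lit 234)) (XT.nd (nat_lit 78) (nat_lit 0) (nat_lit 0) (XT.lf (nat_lit 0) (nat_lit 5399413278) (nat_lit 304) (nat_lit 4512999359) (nat_lit 380) (nat_lit 3650945812) (nat_lit 86) (nat_lit 5) (nat_lit 90) (nat_lit 5) (nat_lit 91) (nat_lit 5) (nat_lit 365) (nat_lit 302) (nat_lit 233)) (XT.lf (nat_lit 0) (nat_lit 13346831139) (nat_lit 304) (nat_lit 43046708) (nat_lit 380) (nat_lit 428647953) (nat_lit 86) (nat_lit 5) (nat_lit 90) (nat_lit 5) (nat_lit 91) (nat_lit 5) (nat_lit 366) (nat_lit 302) (nat_lit 232))))) (XT.nd (nat_lit 234) (nat_lit 532) (nat_lit 0) (XT.nd (nat_lit 78) (nat_lit 228) (nat_lit 0) (XT.lf (nat_lit 0) (nat_lit 2920553609) (nat_lit 304) (nat_lit 6600028431) (nat_lit 76) (nat_lit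 4557346463) (nat_lit 82) (nat_lit 5) (nat_lit 86) (nat_lit 5) (nat_lit 83) (nat_lit 5) (nat_lit 367) (nat_lit 302) (nat_lit 231)) (XT.nd (nat_lit 78) (nat_lit 0) (nat_lit 0) (XT.lf (nat_lit 0) (nat_lit 1304684225) (nat_lit 228) (nat_lit 5044628655) (nat_lit 304) (nat_lit 7996054693) (nat_lit 79) (nat_lit 5) (nat_lit 82) (nat_lit 5) (nat_lit 83) (nat_lit 5) (nat_lit 368) (nat_lit 302) (nat_lit 230)) (XT.lf (nat_lit 0) (nat_lit 9535551603) (nat_lit 228) (nat_lit 382381018) (nat_lit 304) (nat_lit 4701799416) (nat_lit 79) (nat_lit 5) (nat_lit 82) (nat_lit 5) (nat_lit 83) (nat_lit 5) (nat_lit 369) (nat_lit 302) (nat_lit 229)))) (XT.nd (nat_lit 156) (nat_lit 228) (nat_lit 0) (XT.nd (nat_lit 78) (nat_lit 76) (nat_lit 0) (XT.lf (nat_lit 0) (nat_lit 3083040649) (nat_lit 228) (nat_lit 10553750282) (nat_lit 304) (nat_lit 1264252907) (nat_lit 76) (nat_lit 5) (nat_lit 79) (nat_lit 5) (nat_lit 80) (nat_lit 5) (nat_lit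 370) (nat_lit 302) (nat_lit 228)) (XT.lf (nat_lit 0) (nat_lit 2258806755) (nat_lit 304) (nat_lit 3661722525) (nat_lit 76) (nat_lit 9268816129) (nat_lit 75) (nat_lit 5) (nat_lit 79) (nat_lit 5) (nat_lit 76) (nat_lit 5) (nat_lit 371) (nat_lit 302) (nat_lit 227))) (XT.nd (nat_lit 78) (nat_lit 0) (nat_lit 0) (XT.lf (nat_lit 0) (nat_lit 4775459099) (nat_lit 228) (nat_lit 1104606508) (nat_lit 304) (nat_lit 9605328169) (nat_lit 72) (nat_lit 5) (nat_lit 75) (nat_lit 5) (nat_lit 76) (nat_lit 5) (nat_lit 372) (nat_lit 302) (nat_lit 226)) (XT.lf (nat_lit 0) (nat_lit 9656615900) (nat_lit 304) (nat_lit 2330527871) (nat_lit 76) (nat_lit 3801790698) (nat_lit 72) (nat_lit 5) (nat_lit 76) (nat_lit 5) (nat_lit 73) (nat_lit 5) (nat_lit 373) (nat_lit 302) (nat_lit 225))))))) (XT.nd (nat_lit 1014) (nat_lit 1216) (nat_lit 0) (XT.nd (nat_lit 468) (nat_lit 608) (nat_lit 0) (XT.nd (nat_lit 234) (nat_lit 380) (nat_lit 0) (XT.nd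 (nat_lit 78) (nat_lit 304) (nat_lit 0) (XT.lf (nat_lit 0) (nat_lit 6370231470) (nat_lit 228) (nat_lit 7221457933) (nat_lit 304) (nat_lit 2508545357) (nat_lit 69) (nat_lit 5) (nat_lit 72) (nat_lit 5) (nat_lit 73) (nat_lit 5) (nat_lit 374) (nat_lit 302) (nat_lit 224)) (XT.nd (nat_lit 78) (nat_lit 228) (nat_lit 0) (XT.lf (nat_lit 0) (nat_lit 1196978681) (nat_lit 304) (nat_lit 1095896723) (nat_lit 76) (nat_lit 14127747659) (nat_lit 68) (nat_lit 5) (nat_lit 72) (nat_lit 5) (nat_lit 69) (nat_lit 5) (nat_lit 375) (nat_lit 302) (nat_lit 223)) (XT.lf (nat_lit 0) (nat_lit 5040569177) (nat_lit 304) (nat_lit 8892002563) (nat_lit 76) (nat_lit 2814995878) (nat_lit 65) (nat_lit 5) (nat_lit 69) (nat_lit 5) (nat_lit 66) (nat_lit 5) (nat_lit 376) (nat_lit 302) (nat_lit 222)))) (XT.nd (nat_lit 78) (nat_lit 380) (nat_lit 0) (XT.lf (nat_lit 0) (nat_lit 9007483316) (nat_lit 304) (nat_lit 51225340) (nat_lit 76) (nat_lit 8025380420)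 (nat_lit 65) (nat_lit 5) (nat_lit 69) (nat_lit 5) (nat_lit 66) (nat_lit 5) (nat_lit 377) (nat_lit 302) (nat_lit 221)) (XT.nd (nat_lit 78) (nat_lit 228) (nat_lit 0) (XT.lf (nat_lit 0) (nat_lit 9192938252) (nat_lit 152) (nat_lit 3963726243) (nat_lit 228) (nat_lit 4272152675) (nat_lit 63) (nat_lit 5) (nat_lit 65) (nat_lit 5) (nat_lit 66) (nat_lit 5) (nat_lit 378) (nat_lit 302) (nat_lit 220)) (XT.lf (nat_lit 0) (nat_lit 895309769) (nat_lit 228) (nat_lit 16531559725) (nat_lit 304) (nat_lit 357129687) (nat_lit 60) (nat_lit 5) (nat_lit 63) (nat_lit 5) (nat_lit 64) (nat_lit 5) (nat_lit 379) (nat_lit 302) (nat_lit 219))))) (XT.nd (nat_lit 234) (nat_lit 380) (nat_lit 0) (XT.nd (nat_lit 78) (nat_lit 152) (nat_lit 0) (XT.lf (nat_lit 0) (nat_lit 3702015482) (nat_lit 304) (nat_lit 7794991873) (nat_lit 76) (nat_lit 6648825721) (nat_lit 59) (nat_lit 5) (nat_lit 63) (nat_lit 5) (nat_lit 60) (nat_lit 5) (nat_lit 380) (nat_lit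 302) (nat_lit 218)) (XT.nd (nat_lit 78) (nat_lit 0) (nat_lit 0) (XT.lf (nat_lit 0) (nat_lit 1558079669) (nat_lit 152) (nat_lit 6308534426) (nat_lit 228) (nat_lit 10652083906) (nat_lit 57) (nat_lit 5) (nat_lit 59) (nat_lit 5) (nat_lit 60) (nat_lit 5) (nat_lit 381) (nat_lit 302) (nat_lit 217)) (XT.lf (nat_lit 0) (nat_lit 11311623464) (nat_lit 152) (nat_lit 899440057) (nat_lit 228) (nat_lit 6690045542) (nat_lit 57) (nat_lit 5) (nat_lit 59) (nat_lit 5) (nat_lit 60) (nat_lit 5) (nat_lit 382) (nat_lit 302) (nat_lit 216)))) (XT.nd (nat_lit 156) (nat_lit 152) (nat_lit 0) (XT.nd (nat_lit 78) (nat_lit 76) (nat_lit 0) (XT.lf (nat_lit 0) (nat_lit 2017951767) (nat_lit 152) (nat_lit 14708943499) (nat_lit 228) (nat_lit 2566873078) (nat_lit 55) (nat_lit 5) (nat_lit 57) (nat_lit 5) (nat_lit 58) (nat_lit 5) (nat_lit 383) (nat_lit 302) (nat_lit 215)) (XT.lf (nat_lit 0) (nat_lit 1710325617) (nat_lit 228) (nat_lit 7691912860)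 (nat_lit 76) (nat_lit 10293597971) (nat_lit 54) (nat_lit 5) (nat_lit 57) (nat_lit 5) (nat_lit 55) (nat_lit 5) (nat_lit 384) (nat_lit 302) (nat_lit 214))) (XT.nd (nat_lit 78) (nat_lit 0) (nat_lit 0) (XT.lf (nat_lit 0) (nat_lit 2157969543) (nat_lit 152) (nat_lit 3904508995) (nat_lit 228) (nat_lit 14046785453) (nat_lit 52) (nat_lit 5) (nat_lit 54) (nat_lit 5) (nat_lit 55) (nat_lit 5) (nat_lit 385) (nat_lit 302) (nat_lit 213)) (XT.lf (nat_lit 0) (nat_lit 10618166423) (nat_lit 228) (nat_lit 8127790196) (nat_lit 76) (nat_lit 1786955165) (nat_lit 52) (nat_lit 5) (nat_lit 55) (nat_lit 5) (nat_lit 53) (nat_lit 5) (nat_lit 386) (nat_lit 302) (nat_lit 212)))))) (XT.nd (nat_lit 546) (nat_lit 684) (nat_lit 0) (XT.nd (nat_lit 234) (nat_lit 152) (nat_lit 0) (XT.nd (nat_lit 78) (nat_lit 228) (nat_lit 0) (XT.lf (nat_lit 0) (nat_lit 1952599189) (nat_lit 152) (nat_lit 13393633118) (nat_lit 228) (nat_lit 5621971824) (nat_lit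 50) (nat_lit 5) (nat_lit 52) (nat_lit 5) (nat_lit 53) (nat_lit 5) (nat_lit 387) (nat_lit 302) (nat_lit 211)) (XT.nd (nat_lit 78) (nat_lit 228) (nat_lit 0) (XT.lf (nat_lit 0) (nat_lit 12465113584) (nat_lit 152) (nat_lit 7811658561) (nat_lit 228) (nat_lit 1137970304) (nat_lit 50) (nat_lit 5) (nat_lit 52) (nat_lit 5) (nat_lit 53) (nat_lit 5) (nat_lit 388) (nat_lit 302) (nat_lit 210)) (XT.lf (nat_lit 0) (nat_lit 1375461474) (nat_lit 152) (nat_lit 2029363270) (nat_lit 228) (nat_lit 18469088515) (nat_lit 47) (nat_lit 5) (nat_lit 49) (nat_lit 5) (nat_lit 50) (nat_lit 5) (nat_lit 389) (nat_lit 302) (nat_lit 209)))) (XT.nd (nat_lit 156) (nat_lit 0) (nat_lit 0) (XT.nd (nat_lit 78) (nat_lit 152) (nat_lit 0) (XT.lf (nat_lit 0) (nat_lit 8169134893) (nat_lit 228) (nat_lit 10236665374) (nat_lit 76) (nat_lit 3937483451) (nat_lit 47) (nat_lit 5) (nat_lit 50) (nat_lit 5) (nat_lit 48) (nat_lit 5) (nat_lit 390) (nat_lit 302)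 (nat_lit 208)) (XT.lf (nat_lit 0) (nat_lit 283089768) (nat_lit 152) (nat_lit 12795799357) (nat_lit 228) (nat_lit 9747776195) (nat_lit 45) (nat_lit 5) (nat_lit 47) (nat_lit 5) (nat_lit 48) (nat_lit 5) (nat_lit 391) (nat_lit 302) (nat_lit 207))) (XT.nd (nat_lit 78) (nat_lit 0) (nat_lit 0) (XT.lf (nat_lit 0) (nat_lit 11293309149) (nat_lit 152) (nat_lit 6925953007) (nat_lit 228) (nat_lit 5102791739) (nat_lit 45) (nat_lit 5) (nat_lit 47) (nat_lit 5) (nat_lit 48) (nat_lit 5) (nat_lit 392) (nat_lit 302) (nat_lit 206)) (XT.lf (nat_lit 0) (nat_lit 22599883637) (nat_lit 152) (nat_lit 894502475) (nat_lit 228) (nat_lit 338506983) (nat_lit 45) (nat_lit 5) (nat_lit 47) (nat_lit 5) (nat_lit 48) (nat_lit 5) (nat_lit 393) (nat_lit 302) (nat_lit 205))))) (XT.nd (nat_lit 234) (nat_lit 304) (nat_lit 0) (XT.nd (nat_lit 78) (nat_lit 152) (nat_lit 0) (XT.lf (nat_lit 0) (nat_lit 4609007632) (nat_lit 228) (nat_lit 14403242658)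 (nat_lit 76) (nat_lit 5341610930) (nat_lit 42) (nat_lit 5) (nat_lit 45) (nat_lit 5) (nat_lit 43) (nat_lit 5) (nat_lit 394) (nat_lit 302) (nat_lit 204)) (XT.nd (nat_lit 78) (nat_lit 152) (nat_lit 0) (XT.lf (nat_lit 0) (nat_lit 9700591540) (nat_lit 228) (nat_lit 3440839488) (nat_lit 76) (nat_lit 11748858108) (nat_lit 42) (nat_lit 5) (nat_lit 45) (nat_lit 5) (nat_lit 43) (nat_lit 5) (nat_lit 395) (nat_lit 302) (nat_lit 203)) (XT.lf (nat_lit 0) (nat_lit 7973548576) (nat_lit 152) (nat_lit 7029590719) (nat_lit 228) (nat_lit 10437928688) (nat_lit 40) (nat_lit 5) (nat_lit 42) (nat_lit 5) (nat_lit 43) (nat_lit 5) (nat_lit 396) (nat_lit 302) (nat_lit 202)))) (XT.nd (nat_lit 156) (nat_lit 228) (nat_lit 0) (XT.nd (nat_lit 78) (nat_lit 76) (nat_lit 0) (XT.lf (nat_lit 0) (nat_lit 19768740698) (nat_lit 152) (nat_lit 712565871) (nat_lit 228) (nat_lit 5526571783) (nat_lit 40) (nat_lit 5) (nat_lit 42) (nat_lit 5) (nat_lit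 43) (nat_lit 5) (nat_lit 397) (nat_lit 302) (nat_lit 201)) (XT.lf (nat_lit 0) (nat_lit 5343033289) (nat_lit 76) (nat_lit 20870038512) (nat_lit 152) (nat_lit 375947962) (nat_lit 39) (nat_lit 5) (nat_lit 40) (nat_lit 5) (nat_lit 41) (nat_lit 4) (nat_lit 398) (nat_lit 302) (nat_lit 200))) (XT.nd (nat_lit 78) (nat_lit 152) (nat_lit 0) (XT.lf (nat_lit 0) (nat_lit 4885926692) (nat_lit 152) (nat_lit 9871877508) (nat_lit 76) (nat_lit 12426786262) (nat_lit 38) (nat_lit 5) (nat_lit 40) (nat_lit 5) (nat_lit 39) (nat_lit 5) (nat_lit 399) (nat_lit 302) (nat_lit 199)) (XT.lf (nat_lit 0) (nat_lit 1844980890) (nat_lit 152) (nat_lit 8453609484) (nat_lit 228) (nat_lit 17499315522) (nat_lit 36) (nat_lit 5) (nat_lit 38) (nat_lit 5) (nat_lit 39) (nat_lit 5) (nat_lit 400) (nat_lit 302) (nat_lit 198))))))))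
noncomputable def xc112 : XT := (XT.nd (nat_lit 2028) (nat_lit 532) (nat_lit 0) (XT.nd (nat_lit 1014) (nat_lit 532) (nat_lit 0) (XT.nd (nat_lit 468) (nat_lit 380) (nat_lit 0) (XT.nd (nat_lit 234) (nat_lit 228) (nat_lit 0) (XT.nd (nat_lit 78) (nat_lit 76) (nat_lit 0) (XT.lf (nat_lit 0) (nat_lit 14085256558) (nat_lit 152) (nat_lit 1871027490) (nat_lit 228) (nat_lit 12470861083) (nat_lit 36) (nat_lit 5) (nat_lit 38) (nat_lit 5) (nat_lit 39) (nat_lit 5) (nat_lit 401) (nat_lit 302) (nat_lit 197)) (XT.nd (nat_lit 78) (nat_lit 76) (nat_lit 0) (XT.lf (nat_lit 0) (nat_lit 21814231629) (nat_lit 228) (nat_lit 2459649730) (nat_lit 76) (nat_lit 4800468216) (nat_lit 36) (nat_lit 5) (nat_lit 39) (nat_lit 5) (nat_lit 37) (nat_lit 4) (nat_lit 402) (nat_lit 302) (nat_lit 196)) (XT.lf (nat_lit 0) (nat_lit 9925138428) (nat_lit 76) (nat_lit 18020530617) (nat_lit 152) (nat_lit 1792372182) (nat_lit 35) (nat_lit 5) (nat_lit 36)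 (nat_lit 5) (nat_lit 37) (nat_lit 4) (nat_lit 403) (nat_lit 302) (nat_lit 195)))) (XT.nd (nat_lit 78) (nat_lit 152) (nat_lit 0) (XT.lf (nat_lit 0) (nat_lit 3773421623) (nat_lit 152) (nat_lit 7755268312) (nat_lit 76) (nat_lit 18891581813) (nat_lit 34) (nat_lit 5) (nat_lit 36) (nat_lit 5) (nat_lit 35) (nat_lit 5) (nat_lit 404) (nat_lit 302) (nat_lit 194)) (XT.nd (nat_lit 78) (nat_lit 0) (nat_lit 0) (XT.lf (nat_lit 0) (nat_lit 4709997959) (nat_lit 152) (nat_lit 4789764819) (nat_lit 228) (nat_lit 21621789377) (nat_lit 32) (nat_lit 5) (nat_lit 34) (nat_lit 5) (nat_lit 35) (nat_lit 5) (nat_lit 405) (nat_lit 302) (nat_lit 193)) (XT.lf (nat_lit 0) (nat_lit 15482053013) (nat_lit 228) (nat_lit 14183109979) (nat_lit 76) (nat_lit 2176186430) (nat_lit 32) (nat_lit 5) (nat_lit 35) (nat_lit 5) (nat_lit 33) (nat_lit 4) (nat_lit 406) (nat_lit 302) (nat_lit 192))))) (XT.nd (nat_lit 234) (nat_lit 228) (nat_lit 0) (XT.nd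 (nat_lit 78) (nat_lit 152) (nat_lit 0) (XT.lf (nat_lit 0) (nat_lit 21676080596) (nat_lit 228) (nat_lit 1662741435) (nat_lit 76) (nat_lit 9242953639) (nat_lit 32) (nat_lit 5) (nat_lit 35) (nat_lit 5) (nat_lit 33) (nat_lit 4) (nat_lit 407) (nat_lit 302) (nat_lit 191)) (XT.nd (nat_lit 78) (nat_lit 76) (nat_lit 0) (XT.lf (nat_lit 0) (nat_lit 11429565707) (nat_lit 76) (nat_lit 16721517904) (nat_lit 152) (nat_lit 5190479485) (nat_lit 31) (nat_lit 5) (nat_lit 32) (nat_lit 5) (nat_lit 33) (nat_lit 4) (nat_lit 408) (nat_lit 302) (nat_lit 190)) (XT.lf (nat_lit 0) (nat_lit 684878173) (nat_lit 152) (nat_lit 9208510046) (nat_lit 76) (nat_lit 24230489889) (nat_lit 30) (nat_lit 5) (nat_lit 32) (nat_lit 5) (nat_lit 31) (nat_lit 5) (nat_lit 409) (nat_lit 302) (nat_lit 189)))) (XT.nd (nat_lit 156) (nat_lit 76) (nat_lit 0) (XT.nd (nat_lit 78) (nat_lit 0) (nat_lit 0) (XT.lf (nat_lit 0) (nat_lit 3874334239) (nat_lit 152) (nat_lit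 2780823192) (nat_lit 228) (nat_lit 28272276655) (nat_lit 28) (nat_lit 5) (nat_lit 30) (nat_lit 5) (nat_lit 31) (nat_lit 5) (nat_lit 410) (nat_lit 302) (nat_lit 188)) (XT.lf (nat_lit 0) (nat_lit 12927942546) (nat_lit 228) (nat_lit 18284507208) (nat_lit 76) (nat_lit 4538947756) (nat_lit 28) (nat_lit 5) (nat_lit 31) (nat_lit 5) (nat_lit 29) (nat_lit 4) (nat_lit 411) (nat_lit 302) (nat_lit 187))) (XT.nd (nat_lit 78) (nat_lit 76) (nat_lit 0) (XT.lf (nat_lit 0) (nat_lit 19402656204) (nat_lit 228) (nat_lit 5185650128) (nat_lit 76) (nat_lit 12011363769) (nat_lit 28) (nat_lit 5) (nat_lit 31) (nat_lit 5) (nat_lit 29) (nat_lit 4) (nat_lit 412) (nat_lit 302) (nat_lit 186)) (XT.lf (nat_lit 0) (nat_lit 8446469001) (nat_lit 76) (nat_lit 17692948573) (nat_lit 152) (nat_lit 11331941645) (nat_lit 27) (nat_lit 5) (nat_lit 28) (nat_lit 5) (nat_lit 29) (nat_lit 4) (nat_lit 413) (nat_lit 302) (nat_lit 185)))))) (XT.nd (nat_lit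 468) (nat_lit 228) (nat_lit 0) (XT.nd (nat_lit 234) (nat_lit 76) (nat_lit 0) (XT.nd (nat_lit 78) (nat_lit 228) (nat_lit 0) (XT.lf (nat_lit 0) (nat_lit 22569568192) (nat_lit 76) (nat_lit 10547848626) (nat_lit 152) (nat_lit 5250610604) (nat_lit 27) (nat_lit 5) (nat_lit 28) (nat_lit 5) (nat_lit 29) (nat_lit 4) (nat_lit 414) (nat_lit 302) (nat_lit 184)) (XT.nd (nat_lit 78) (nat_lit 152) (nat_lit 0) (XT.lf (nat_lit 0) (nat_lit 980415910) (nat_lit 152) (nat_lit 2208811909) (nat_lit 76) (nat_lit 36102467221) (nat_lit 26) (nat_lit 5) (nat_lit 28) (nat_lit 5) (nat_lit 27) (nat_lit 5) (nat_lit 415) (nat_lit 302) (nat_lit 183)) (XT.lf (nat_lit 0) (nat_lit 7438833348) (nat_lit 228) (nat_lit 28335684341) (nat_lit 76) (nat_lit 4462617900) (nat_lit 24) (nat_lit 5) (nat_lit 27) (nat_lit 5) (nat_lit 25) (nat_lit 4) (nat_lit 416) (nat_lit 302) (nat_lit 182)))) (XT.nd (nat_lit 78) (nat_lit 76) (nat_lit 0) (XT.lf (nat_lit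 0) (nat_lit 14132555146) (nat_lit 228) (nat_lit 14784958139) (nat_lit 76) (nat_lit 12292181703) (nat_lit 24) (nat_lit 5) (nat_lit 27) (nat_lit 5) (nat_lit 25) (nat_lit 4) (nat_lit 417) (nat_lit 302) (nat_lit 181)) (XT.nd (nat_lit 78) (nat_lit 76) (nat_lit 0) (XT.lf (nat_lit 0) (nat_lit 21014903954) (nat_lit 228) (nat_lit 850226027) (nat_lit 76) (nat_lit 20346668852) (nat_lit 24) (nat_lit 5) (nat_lit 27) (nat_lit 5) (nat_lit 25) (nat_lit 4) (nat_lit 418) (nat_lit 302) (nat_lit 180)) (XT.lf (nat_lit 0) (nat_lit 13748980096) (nat_lit 76) (nat_lit 14475076986) (nat_lit 152) (nat_lit 15016300758) (nat_lit 23) (nat_lit 5) (nat_lit 24) (nat_lit 5) (nat_lit 25) (nat_lit 4) (nat_lit 419) (nat_lit 302) (nat_lit 179))))) (XT.nd (nat_lit 234) (nat_lit 76) (nat_lit 0) (XT.nd (nat_lit 78) (nat_lit 152) (nat_lit 0) (XT.lf (nat_lit 0) (nat_lit 28781945444) (nat_lit 76) (nat_lit 6864431709) (nat_lit 152) (nat_lit 8653491698)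 (nat_lit 23) (nat_lit 5) (nat_lit 24) (nat_lit 5) (nat_lit 25) (nat_lit 4) (nat_lit 420) (nat_lit 302) (nat_lit 178)) (XT.nd (nat_lit 78) (nat_lit 152) (nat_lit 0) (XT.lf (nat_lit 0) (nat_lit 43289289062) (nat_lit 152) (nat_lit 1155898189) (nat_lit 0) (nat_lit 946042217) (nat_lit 23) (nat_lit 5) (nat_lit 25) (nat_lit 4) (nat_lit 23) (nat_lit 4) (nat_lit 421) (nat_lit 302) (nat_lit 177)) (XT.lf (nat_lit 0) (nat_lit 4747050018) (nat_lit 152) (nat_lit 32738165293) (nat_lit 76) (nat_lit 9023030900) (nat_lit 21) (nat_lit 5) (nat_lit 23) (nat_lit 5) (nat_lit 22) (nat_lit 4) (nat_lit 422) (nat_lit 302) (nat_lit 176)))) (XT.nd (nat_lit 156) (nat_lit 76) (nat_lit 0) (XT.nd (nat_lit 78) (nat_lit 0) (nat_lit 0) (XT.lf (nat_lit 0) (nat_lit 11759955489) (nat_lit 152) (nat_lit 18532481738) (nat_lit 76) (nat_lit 17365692902) (nat_lit 21) (nat_lit 5) (nat_lit 23) (nat_lit 5) (nat_lit 22) (nat_lit 4) (nat_lit 423) (nat_lit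 302) (nat_lit 175)) (XT.lf (nat_lit 0) (nat_lit 18972475676) (nat_lit 152) (nat_lit 3920691534) (nat_lit 76) (nat_lit 25949668256) (nat_lit 21) (nat_lit 5) (nat_lit 23) (nat_lit 5) (nat_lit 22) (nat_lit 4) (nat_lit 424) (nat_lit 302) (nat_lit 174))) (XT.nd (nat_lit 78) (nat_lit 0) (nat_lit 0) (XT.lf (nat_lit 0) (nat_lit 11331083148) (nat_lit 76) (nat_lit 15168750938) (nat_lit 152) (nat_lit 23560295676) (nat_lit 20) (nat_lit 5) (nat_lit 21) (nat_lit 5) (nat_lit 22) (nat_lit 4) (nat_lit 425) (nat_lit 302) (nat_lit 173)) (XT.lf (nat_lit 0) (nat_lit 27101492907) (nat_lit 76) (nat_lit 7180772162) (nat_lit 152) (nat_lit 17030801892) (nat_lit 20) (nat_lit 5) (nat_lit 21) (nat_lit 5) (nat_lit 22) (nat_lit 4) (nat_lit 426) (nat_lit 302) (nat_lit 172))))))) (XT.nd (nat_lit 1014) (nat_lit 152) (nat_lit 0) (XT.nd (nat_lit 468) (nat_lit 152) (nat_lit 0) (XT.nd (nat_lit 234) (nat_lit 76) (nat_lit 0) (XT.nd (nat_lit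 78) (nat_lit 152) (nat_lit 0) (XT.lf (nat_lit 0) (nat_lit 42298110060) (nat_lit 152) (nat_lit 9287586151) (nat_lit 0) (nat_lit 1017899413) (nat_lit 20) (nat_lit 5) (nat_lit 22) (nat_lit 4) (nat_lit 20) (nat_lit 4) (nat_lit 427) (nat_lit 302) (nat_lit 171)) (XT.nd (nat_lit 78) (nat_lit 76) (nat_lit 0) (XT.lf (nat_lit 0) (nat_lit 6113935449) (nat_lit 76) (nat_lit 44560535559) (nat_lit 76) (nat_lit 3254769456) (nat_lit 19) (nat_lit 4) (nat_lit 20) (nat_lit 5) (nat_lit 20) (nat_lit 4) (nat_lit 428) (nat_lit 302) (nat_lit 170)) (XT.lf (nat_lit 0) (nat_lit 4014169434) (nat_lit 152) (nat_lit 33181813272) (nat_lit 76) (nat_lit 18094970681) (nat_lit 18) (nat_lit 5) (nat_lit 20) (nat_lit 5) (nat_lit 19) (nat_lit 4) (nat_lit 429) (nat_lit 302) (nat_lit 169)))) (XT.nd (nat_lit 78) (nat_lit 76) (nat_lit 0) (XT.lf (nat_lit 0) (nat_lit 11426231130) (nat_lit 152) (nat_lit 18159416496) (nat_lit 76) (nat_lit 27107190543)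 (nat_lit 18) (nat_lit 5) (nat_lit 20) (nat_lit 5) (nat_lit 19) (nat_lit 4) (nat_lit 430) (nat_lit 302) (nat_lit 168)) (XT.nd (nat_lit 78) (nat_lit 76) (nat_lit 0) (XT.lf (nat_lit 0) (nat_lit 19051404466) (nat_lit 152) (nat_lit 2703701487) (nat_lit 76) (nat_lit 36381952414) (nat_lit 18) (nat_lit 5) (nat_lit 20) (nat_lit 5) (nat_lit 19) (nat_lit 4) (nat_lit 431) (nat_lit 302) (nat_lit 167)) (XT.lf (nat_lit 0) (nat_lit 13461519479) (nat_lit 76) (nat_lit 13564233094) (nat_lit 152) (nat_lit 32595241333) (nat_lit 17) (nat_lit 5) (nat_lit 18) (nat_lit 5) (nat_lit 19) (nat_lit 4) (nat_lit 432) (nat_lit 302) (nat_lit 166))))) (XT.nd (nat_lit 234) (nat_lit 76) (nat_lit 0) (XT.nd (nat_lit 78) (nat_lit 76) (nat_lit 0) (XT.lf (nat_lit 0) (nat_lit 30150437260) (nat_lit 76) (nat_lit 5107316367) (nat_lit 152) (nat_lit 25891142495) (nat_lit 17) (nat_lit 5) (nat_lit 18) (nat_lit 5) (nat_lit 19) (nat_lit 4) (nat_lit 433)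 (nat_lit 302) (nat_lit 165)) (XT.nd (nat_lit 78) (nat_lit 76) (nat_lit 0) (XT.lf (nat_lit 0) (nat_lit 43762658136) (nat_lit 152) (nat_lit 15433634211) (nat_lit 0) (nat_lit 3525566003) (nat_lit 17) (nat_lit 5) (nat_lit 19) (nat_lit 4) (nat_lit 17) (nat_lit 4) (nat_lit 434) (nat_lit 302) (nat_lit 164)) (XT.lf (nat_lit 0) (nat_lit 542241809) (nat_lit 76) (nat_lit 52027807258) (nat_lit 76) (nat_lit 11770541413) (nat_lit 16) (nat_lit 4) (nat_lit 17) (nat_lit 5) (nat_lit 17) (nat_lit 4) (nat_lit 435) (nat_lit 302) (nat_lit 163)))) (XT.nd (nat_lit 156) (nat_lit 0) (nat_lit 0) (XT.nd (nat_lit 78) (nat_lit 76) (nat_lit 0) (XT.lf (nat_lit 0) (nat_lit 17298017460) (nat_lit 76) (nat_lit 44491147581) (nat_lit 76) (nat_lit 4214295607) (nat_lit 16) (nat_lit 4) (nat_lit 17) (nat_lit 5) (nat_lit 17) (nat_lit 4) (nat_lit 436) (nat_lit 302) (nat_lit 162)) (XT.lf (nat_lit 0) (nat_lit 3490816214) (nat_lit 152) (nat_lit 33209510718)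 (nat_lit 76) (nat_lit 31015107515) (nat_lit 15) (nat_lit 5) (nat_lit 17) (nat_lit 5) (nat_lit 16) (nat_lit 4) (nat_lit 437) (nat_lit 302) (nat_lit 161))) (XT.nd (nat_lit 78) (nat_lit 0) (nat_lit 0) (XT.lf (nat_lit 0) (nat_lit 11334432216) (nat_lit 152) (nat_lit 17305432037) (nat_lit 76) (nat_lit 40837890890) (nat_lit 15) (nat_lit 5) (nat_lit 17) (nat_lit 5) (nat_lit 16) (nat_lit 4) (nat_lit 438) (nat_lit 302) (nat_lit 160)) (XT.lf (nat_lit 0) (nat_lit 19405642131) (nat_lit 152) (nat_lit 938799991) (nat_lit 76) (nat_lit 50948735821) (nat_lit 15) (nat_lit 5) (nat_lit 17) (nat_lit 5) (nat_lit 16) (nat_lit 4) (nat_lit 439) (nat_lit 302) (nat_lit 159)))))) (XT.nd (nat_lit 36270) (nat_lit 0) (nat_lit 24168) (XT.nd (nat_lit 234) (nat_lit 76) (nat_lit 0) (XT.nd (nat_lit 78) (nat_lit 0) (nat_lit 0) (XT.lf (nat_lit 0) (nat_lit 16221220803) (nat_lit 76) (nat_lit 11646205967) (nat_lit 152) (nat_lit 45291184520) (nat_lit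 14) (nat_lit 5) (nat_lit 15) (nat_lit 5) (nat_lit 16) (nat_lit 4) (nat_lit 440) (nat_lit 302) (nat_lit 158)) (XT.nd (nat_lit 78) (nat_lit 0) (nat_lit 0) (XT.lf (nat_lit 0) (nat_lit 33901280718) (nat_lit 76) (nat_lit 2683857915) (nat_lit 152) (nat_lit 38494807779) (nat_lit 14) (nat_lit 5) (nat_lit 15) (nat_lit 5) (nat_lit 16) (nat_lit 4) (nat_lit 441) (nat_lit 302) (nat_lit 157)) (XT.lf (nat_lit 0) (nat_lit 45620066860) (nat_lit 152) (nat_lit 25023869517) (nat_lit 0) (nat_lit 6413315616) (nat_lit 14) (nat_lit 5) (nat_lit 16) (nat_lit 4) (nat_lit 14) (nat_lit 4) (nat_lit 442) (nat_lit 302) (nat_lit 156)))) (XT.nd (nat_lit 156) (nat_lit 0) (nat_lit 0) (XT.nd (nat_lit 78) (nat_lit 76) (nat_lit 0) (XT.lf (nat_lit 0) (nat_lit 54945574788) (nat_lit 152) (nat_lit 8424354855) (nat_lit 0) (nat_lit 15723362072) (nat_lit 14) (nat_lit 5) (nat_lit 16) (nat_lit 4) (nat_lit 14) (nat_lit 4) (nat_lit 443) (nat_lit 302)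 (nat_lit 155)) (XT.lf (nat_lit 0) (nat_lit 8832536202) (nat_lit 76) (nat_lit 55796379573) (nat_lit 76) (nat_lit 16559155721) (nat_lit 13) (nat_lit 4) (nat_lit 14) (nat_lit 5) (nat_lit 14) (nat_lit 4) (nat_lit 444) (nat_lit 302) (nat_lit 154))) (XT.nd (nat_lit 35802) (nat_lit 0) (nat_lit 25308) (XT.lf (nat_lit 0) (nat_lit 26766988461) (nat_lit 76) (nat_lit 47914077789) (nat_lit 76) (nat_lit 8662280018) (nat_lit 13) (nat_lit 4) (nat_lit 14) (nat_lit 5) (nat_lit 14) (nat_lit 4) (nat_lit 445) (nat_lit 302) (nat_lit 153)) (XT.lf (nat_lit 0) (nat_lit 1088337023) (nat_lit 0) (nat_lit 1088337023) (nat_lit 228) (nat_lit 1063746346) (nat_lit 346) (nat_lit 5) (nat_lit 346) (nat_lit 3) (nat_lit 349) (nat_lit 3) (nat_lit 303) (nat_lit 303) (nat_lit 294))))) (XT.nd (nat_lit 234) (nat_lit 760) (nat_lit 0) (XT.nd (nat_lit 78) (nat_lit 0) (nat_lit 0) (XT.lf (nat_lit 0) (nat_lit 541628549) (nat_lit 380) (nat_lit 1197547707)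 (nat_lit 380) (nat_lit 4756319574) (nat_lit 341) (nat_lit 3) (nat_lit 346) (nat_lit 3) (nat_lit 346) (nat_lit 5) (nat_lit 304) (nat_lit 303) (nat_lit 293)) (XT.nd (nat_lit 78) (nat_lit 0) (nat_lit 0) (XT.lf (nat_lit 76) (nat_lit 1966062796) (nat_lit 0) (nat_lit 1197129863) (nat_lit 380) (nat_lit 3349445262) (nat_lit 342) (nat_lit 5) (nat_lit 341) (nat_lit 3) (nat_lit 346) (nat_lit 5) (nat_lit 305) (nat_lit 303) (nat_lit 292)) (XT.lf (nat_lit 76) (nat_lit 5196146974) (nat_lit 0) (nat_lit 578093433) (nat_lit 380) (nat_lit 758858104) (nat_lit 342) (nat_lit 5) (nat_lit 341) (nat_lit 3) (nat_lit 346) (nat_lit 5) (nat_lit 306) (nat_lit 303) (nat_lit 291)))) (XT.nd (nat_lit 156) (nat_lit 456) (nat_lit 0) (XT.nd (nat_lit 78) (nat_lit 0) (nat_lit 0) (XT.lf (nat_lit 0) (nat_lit 1792760578) (nat_lit 380) (nat_lit 4622726070) (nat_lit 456) (nat_lit 140640315) (nat_lit 337) (nat_lit 5) (nat_lit 342) (nat_lit 5) (nat_lit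 343) (nat_lit 5) (nat_lit 307) (nat_lit 303) (nat_lit 290)) (XT.lf (nat_lit 0) (nat_lit 4328438672) (nat_lit 380) (nat_lit 1320009170) (nat_lit 456) (nat_lit 933608490) (nat_lit 337) (nat_lit 5) (nat_lit 342) (nat_lit 5) (nat_lit 343) (nat_lit 5) (nat_lit 308) (nat_lit 303) (nat_lit 289))) (XT.nd (nat_lit 78) (nat_lit 0) (nat_lit 0) (XT.lf (nat_lit 0) (nat_lit 250202668) (nat_lit 456) (nat_lit 4546241414) (nat_lit 532) (nat_lit 1814578099) (nat_lit 331) (nat_lit 5) (nat_lit 337) (nat_lit 5) (nat_lit 338) (nat_lit 5) (nat_lit 309) (nat_lit 303) (nat_lit 288)) (XT.lf (nat_lit 0) (nat_lit 2704715870) (nat_lit 456) (nat_lit 1140964886) (nat_lit 532) (nat_lit 2796988962) (nat_lit 331) (nat_lit 5) (nat_lit 337) (nat_lit 5) (nat_lit 338) (nat_lit 5) (nat_lit 310) (nat_lit 303) (nat_lit 287))))))))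
noncomputable def xc113 : XT := (XT.nd (nat_lit 2028) (nat_lit 6840) (nat_lit 0) (XT.nd (nat_lit 1014) (nat_lit 6232) (nat_lit 0) (XT.nd (nat_lit 468) (nat_lit 3344) (nat_lit 0) (XT.nd (nat_lit 234) (nat_lit 1140) (nat_lit 0) (XT.nd (nat_lit 78) (nat_lit 532) (nat_lit 0) (XT.lf (nat_lit 76) (nat_lit 2357882619) (nat_lit 0) (nat_lit 2807756256) (nat_lit 532) (nat_lit 1511749737) (nat_lit 332) (nat_lit 5) (nat_lit 331) (nat_lit 5) (nat_lit 338) (nat_lit 5) (nat_lit 311) (nat_lit 303) (nat_lit 286)) (XT.nd (nat_lit 78) (nat_lit 0) (nat_lit 0) (XT.lf (nat_lit 0) (nat_lit 890849619) (nat_lit 532) (nat_lit 793251733) (nat_lit 608) (nat_lit 5031175934) (nat_lit 324) (nat_lit 5) (nat_lit 331) (nat_lit 5) (nat_lit 332) (nat_lit 5) (nat_lit 312) (nat_lit 303) (nat_lit 285)) (XT.lf (nat_lit 76) (nat_lit 2824641770) (nat_lit 0) (nat_lit 451476151) (nat_lit 608) (nat_lit 3479602634) (nat_lit 325) (nat_lit 5) (nat_lit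 324) (nat_lit 5) (nat_lit 332) (nat_lit 5) (nat_lit 313) (nat_lit 303) (nat_lit 284)))) (XT.nd (nat_lit 78) (nat_lit 1216) (nat_lit 0) (XT.lf (nat_lit 0) (nat_lit 5665007203) (nat_lit 532) (nat_lit 294425974) (nat_lit 76) (nat_lit 840075493) (nat_lit 325) (nat_lit 5) (nat_lit 332) (nat_lit 5) (nat_lit 326) (nat_lit 5) (nat_lit 314) (nat_lit 303) (nat_lit 283)) (XT.nd (nat_lit 78) (nat_lit 608) (nat_lit 0) (XT.lf (nat_lit 0) (nat_lit 1211710572) (nat_lit 608) (nat_lit 3398559623) (nat_lit 76) (nat_lit 2235386290) (nat_lit 317) (nat_lit 5) (nat_lit 325) (nat_lit 5) (nat_lit 318) (nat_lit 5) (nat_lit 315) (nat_lit 303) (nat_lit 282)) (XT.lf (nat_lit 0) (nat_lit 353257244) (nat_lit 608) (nat_lit 3178174097) (nat_lit 684) (nat_lit 3363728177) (nat_lit 309) (nat_lit 5) (nat_lit 317) (nat_lit 5) (nat_lit 318) (nat_lit 5) (nat_lit 316) (nat_lit 303) (nat_lit 281))))) (XT.nd (nat_lit 234) (nat_lit 2584) (nat_lit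 0) (XT.nd (nat_lit 78) (nat_lit 760) (nat_lit 0) (XT.lf (nat_lit 0) (nat_lit 4231671256) (nat_lit 608) (nat_lit 1644726898) (nat_lit 684) (nat_lit 1071162873) (nat_lit 309) (nat_lit 5) (nat_lit 317) (nat_lit 5) (nat_lit 318) (nat_lit 5) (nat_lit 317) (nat_lit 303) (nat_lit 280)) (XT.nd (nat_lit 78) (nat_lit 0) (nat_lit 0) (XT.lf (nat_lit 0) (nat_lit 1179906112) (nat_lit 684) (nat_lit 19230841) (nat_lit 760) (nat_lit 5804079809) (nat_lit 299) (nat_lit 5) (nat_lit 308) (nat_lit 5) (nat_lit 309) (nat_lit 5) (nat_lit 318) (nat_lit 303) (nat_lit 279)) (XT.lf (nat_lit 0) (nat_lit 3484329578) (nat_lit 760) (nat_lit 1895867552) (nat_lit 76) (nat_lit 1681053451) (nat_lit 299) (nat_lit 5) (nat_lit 309) (nat_lit 5) (nat_lit 300) (nat_lit 5) (nat_lit 319) (nat_lit 303) (nat_lit 278)))) (XT.nd (nat_lit 156) (nat_lit 1748) (nat_lit 0) (XT.nd (nat_lit 78) (nat_lit 76) (nat_lit 0) (XT.lf (nat_lit 0) (nat_lit 2134935893)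 (nat_lit 760) (nat_lit 3650755051) (nat_lit 836) (nat_lit 1336979839) (nat_lit 289) (nat_lit 5) (nat_lit 299) (nat_lit 5) (nat_lit 300) (nat_lit 5) (nat_lit 320) (nat_lit 303) (nat_lit 277)) (XT.lf (nat_lit 0) (nat_lit 898281162) (nat_lit 836) (nat_lit 926240236) (nat_lit 76) (nat_lit 5362790358) (nat_lit 288) (nat_lit 5) (nat_lit 299) (nat_lit 5) (nat_lit 289) (nat_lit 5) (nat_lit 321) (nat_lit 303) (nat_lit 276))) (XT.nd (nat_lit 78) (nat_lit 912) (nat_lit 0) (XT.lf (nat_lit 0) (nat_lit 3135940458) (nat_lit 912) (nat_lit 4003770799) (nat_lit 76) (nat_lit 114984704) (nat_lit 277) (nat_lit 5) (nat_lit 289) (nat_lit 5) (nat_lit 278) (nat_lit 5) (nat_lit 322) (nat_lit 303) (nat_lit 275)) (XT.lf (nat_lit 0) (nat_lit 176913043) (nat_lit 912) (nat_lit 5224503998) (nat_lit 988) (nat_lit 1923929560) (nat_lit 265) (nat_lit 5) (nat_lit 277) (nat_lit 5) (nat_lit 278) (nat_lit 5) (nat_lit 323) (nat_lit 303) (nat_lit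 274)))))) (XT.nd (nat_lit 468) (nat_lit 2888) (nat_lit 0) (XT.nd (nat_lit 234) (nat_lit 2280) (nat_lit 0) (XT.nd (nat_lit 78) (nat_lit 988) (nat_lit 0) (XT.lf (nat_lit 0) (nat_lit 303204474) (nat_lit 988) (nat_lit 2893256456) (nat_lit 76) (nat_lit 4202429463) (nat_lit 264) (nat_lit 5) (nat_lit 277) (nat_lit 5) (nat_lit 265) (nat_lit 5) (nat_lit 324) (nat_lit 303) (nat_lit 273)) (XT.nd (nat_lit 78) (nat_lit 0) (nat_lit 0) (XT.lf (nat_lit 0) (nat_lit 1442554135) (nat_lit 988) (nat_lit 1063974487) (nat_lit 1064) (nat_lit 4969159029) (nat_lit 251) (nat_lit 5) (nat_lit 264) (nat_lit 5) (nat_lit 265) (nat_lit 5) (nat_lit 325) (nat_lit 303) (nat_lit 272)) (XT.lf (nat_lit 0) (nat_lit 4751990761) (nat_lit 1064) (nat_lit 1654988637) (nat_lit 76) (nat_lit 1148586507) (nat_lit 251) (nat_lit 5) (nat_lit 265) (nat_lit 5) (nat_lit 252) (nat_lit 5) (nat_lit 326) (nat_lit 303) (nat_lit 271)))) (XT.nd (nat_lit 78) (nat_lit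 1216) (nat_lit 0) (XT.lf (nat_lit 0) (nat_lit 2843483039) (nat_lit 1064) (nat_lit 4196722420) (nat_lit 1140) (nat_lit 598429917) (nat_lit 237) (nat_lit 5) (nat_lit 251) (nat_lit 5) (nat_lit 252) (nat_lit 5) (nat_lit 327) (nat_lit 303) (nat_lit 270)) (XT.nd (nat_lit 78) (nat_lit 1140) (nat_lit 0) (XT.lf (nat_lit 0) (nat_lit 1595251920) (nat_lit 1140) (nat_lit 285812444) (nat_lit 76) (nat_lit 5844052652) (nat_lit 236) (nat_lit 5) (nat_lit 251) (nat_lit 5) (nat_lit 237) (nat_lit 5) (nat_lit 328) (nat_lit 303) (nat_lit 269)) (XT.lf (nat_lit 0) (nat_lit 3830171047) (nat_lit 1216) (nat_lit 3436609615) (nat_lit 76) (nat_lit 547662785) (nat_lit 221) (nat_lit 5) (nat_lit 237) (nat_lit 5) (nat_lit 222) (nat_lit 5) (nat_lit 329) (nat_lit 303) (nat_lit 268))))) (XT.nd (nat_lit 234) (nat_lit 1216) (nat_lit 0) (XT.nd (nat_lit 78) (nat_lit 684) (nat_lit 0) (XT.lf (nat_lit 0) (nat_lit 1229860982) (nat_lit 988) (nat_lit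 4876854378) (nat_lit 1064) (nat_lit 1800547208) (nat_lit 208) (nat_lit 5) (nat_lit 221) (nat_lit 5) (nat_lit 222) (nat_lit 5) (nat_lit 330) (nat_lit 303) (nat_lit 267)) (XT.nd (nat_lit 78) (nat_lit 608) (nat_lit 0) (XT.lf (nat_lit 0) (nat_lit 416754520) (nat_lit 1064) (nat_lit 1956732876) (nat_lit 76) (nat_lit 5629992208) (nat_lit 207) (nat_lit 5) (nat_lit 221) (nat_lit 5) (nat_lit 208) (nat_lit 5) (nat_lit 331) (nat_lit 303) (nat_lit 266)) (XT.lf (nat_lit 0) (nat_lit 2638057068) (nat_lit 684) (nat_lit 5216654862) (nat_lit 76) (nat_lit 248172238) (nat_lit 199) (nat_lit 5) (nat_lit 208) (nat_lit 5) (nat_lit 200) (nat_lit 5) (nat_lit 332) (nat_lit 303) (nat_lit 265)))) (XT.nd (nat_lit 156) (nat_lit 684) (nat_lit 0) (XT.nd (nat_lit 78) (nat_lit 532) (nat_lit 0) (XT.lf (nat_lit 0) (nat_lit 4914048228) (nat_lit 684) (nat_lit 370314963) (nat_lit 76) (nat_lit 2921310819) (nat_lit 199) (nat_lit 5) (nat_lit 208)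 (nat_lit 5) (nat_lit 200) (nat_lit 5) (nat_lit 333) (nat_lit 303) (nat_lit 264)) (XT.lf (nat_lit 0) (nat_lit 4657411780) (nat_lit 532) (nat_lit 2591885835) (nat_lit 608) (nat_lit 1062563902) (nat_lit 192) (nat_lit 5) (nat_lit 199) (nat_lit 5) (nat_lit 200) (nat_lit 5) (nat_lit 334) (nat_lit 303) (nat_lit 263))) (XT.nd (nat_lit 78) (nat_lit 0) (nat_lit 0) (XT.lf (nat_lit 0) (nat_lit 1175062650) (nat_lit 684) (nat_lit 7041951286) (nat_lit 76) (nat_lit 204933065) (nat_lit 183) (nat_lit 5) (nat_lit 192) (nat_lit 5) (nat_lit 184) (nat_lit 5) (nat_lit 335) (nat_lit 303) (nat_lit 262)) (XT.lf (nat_lit 0) (nat_lit 3469081077) (nat_lit 684) (nat_lit 1986878196) (nat_lit 76) (nat_lit 3078781225) (nat_lit 183) (nat_lit 5) (nat_lit 192) (nat_lit 5) (nat_lit 184) (nat_lit 5) (nat_lit 336) (nat_lit 303) (nat_lit 261))))))) (XT.nd (nat_lit 1014) (nat_lit 2964) (nat_lit 0) (XT.nd (nat_lit 468) (nat_lit 1824) (nat_lit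 0) (XT.nd (nat_lit 234) (nat_lit 912) (nat_lit 0) (XT.nd (nat_lit 78) (nat_lit 608) (nat_lit 0) (XT.lf (nat_lit 0) (nat_lit 3227992819) (nat_lit 532) (nat_lit 2584169468) (nat_lit 608) (nat_lit 2839386740) (nat_lit 176) (nat_lit 5) (nat_lit 183) (nat_lit 5) (nat_lit 184) (nat_lit 5) (nat_lit 337) (nat_lit 303) (nat_lit 260)) (XT.nd (nat_lit 78) (nat_lit 608) (nat_lit 0) (XT.lf (nat_lit 0) (nat_lit 8199518075) (nat_lit 608) (nat_lit 190808069) (nat_lit 76) (nat_lit 382353577) (nat_lit 176) (nat_lit 5) (nat_lit 184) (nat_lit 5) (nat_lit 177) (nat_lit 5) (nat_lit 338) (nat_lit 303) (nat_lit 259)) (XT.lf (nat_lit 0) (nat_lit 1754274340) (nat_lit 608) (nat_lit 3692811142) (nat_lit 76) (nat_lit 3449058575) (nat_lit 168) (nat_lit 5) (nat_lit 176) (nat_lit 5) (nat_lit 169) (nat_lit 5) (nat_lit 339) (nat_lit 303) (nat_lit 258)))) (XT.nd (nat_lit 78) (nat_lit 456) (nat_lit 0) (XT.lf (nat_lit 0) (nat_lit 1713059503)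 (nat_lit 456) (nat_lit 2397335946) (nat_lit 532) (nat_lit 4913669370) (nat_lit 162) (nat_lit 5) (nat_lit 168) (nat_lit 5) (nat_lit 169) (nat_lit 5) (nat_lit 340) (nat_lit 303) (nat_lit 257)) (XT.nd (nat_lit 78) (nat_lit 456) (nat_lit 0) (XT.lf (nat_lit 0) (nat_lit 6534791856) (nat_lit 532) (nat_lit 1860894260) (nat_lit 76) (nat_lit 760242543) (nat_lit 162) (nat_lit 5) (nat_lit 169) (nat_lit 5) (nat_lit 163) (nat_lit 5) (nat_lit 341) (nat_lit 303) (nat_lit 256)) (XT.lf (nat_lit 0) (nat_lit 3748267149) (nat_lit 456) (nat_lit 5297576363) (nat_lit 532) (nat_lit 245519439) (nat_lit 156) (nat_lit 5) (nat_lit 162) (nat_lit 5) (nat_lit 163) (nat_lit 5) (nat_lit 342) (nat_lit 303) (nat_lit 255))))) (XT.nd (nat_lit 234) (nat_lit 836) (nat_lit 0) (XT.nd (nat_lit 78) (nat_lit 456) (nat_lit 0) (XT.lf (nat_lit 0) (nat_lit 59092541) (nat_lit 456) (nat_lit 2073365658) (nat_lit 532) (nat_lit 7298576182) (nat_lit 149) (nat_lit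 5) (nat_lit 155) (nat_lit 5) (nat_lit 156) (nat_lit 5) (nat_lit 343) (nat_lit 303) (nat_lit 254)) (XT.nd (nat_lit 78) (nat_lit 456) (nat_lit 0) (XT.lf (nat_lit 0) (nat_lit 4600586029) (nat_lit 532) (nat_lit 3700237845) (nat_lit 76) (nat_lit 1273316291) (nat_lit 149) (nat_lit 5) (nat_lit 156) (nat_lit 5) (nat_lit 150) (nat_lit 5) (nat_lit 344) (nat_lit 303) (nat_lit 253)) (XT.lf (nat_lit 0) (nat_lit 2108823941) (nat_lit 456) (nat_lit 5031262108) (nat_lit 532) (nat_lit 2581561866) (nat_lit 143) (nat_lit 5) (nat_lit 149) (nat_lit 5) (nat_lit 150) (nat_lit 5) (nat_lit 345) (nat_lit 303) (nat_lit 252)))) (XT.nd (nat_lit 156) (nat_lit 380) (nat_lit 0) (XT.nd (nat_lit 78) (nat_lit 456) (nat_lit 0) (XT.lf (nat_lit 0) (nat_lit 8115116807) (nat_lit 456) (nat_lit 1635305813) (nat_lit 532) (nat_lit 123346539) (nat_lit 143) (nat_lit 5) (nat_lit 149) (nat_lit 5) (nat_lit 150) (nat_lit 5) (nat_lit 346) (nat_lit 303)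 (nat_lit 251)) (XT.lf (nat_lit 0) (nat_lit 2379284234) (nat_lit 456) (nat_lit 5768966175) (nat_lit 76) (nat_lit 1881005160) (nat_lit 137) (nat_lit 5) (nat_lit 143) (nat_lit 5) (nat_lit 138) (nat_lit 5) (nat_lit 347) (nat_lit 303) (nat_lit 250))) (XT.nd (nat_lit 78) (nat_lit 0) (nat_lit 0) (XT.lf (nat_lit 0) (nat_lit 241235709) (nat_lit 380) (nat_lit 4708439844) (nat_lit 456) (nat_lit 5239865006) (nat_lit 132) (nat_lit 5) (nat_lit 137) (nat_lit 5) (nat_lit 138) (nat_lit 5) (nat_lit 348) (nat_lit 303) (nat_lit 249)) (XT.lf (nat_lit 0) (nat_lit 6497660355) (nat_lit 380) (nat_lit 1117188755) (nat_lit 456) (nat_lit 2739279582) (nat_lit 132) (nat_lit 5) (nat_lit 137) (nat_lit 5) (nat_lit 138) (nat_lit 5) (nat_lit 349) (nat_lit 303) (nat_lit 248)))))) (XT.nd (nat_lit 546) (nat_lit 1368) (nat_lit 0) (XT.nd (nat_lit 234) (nat_lit 760) (nat_lit 0) (XT.nd (nat_lit 78) (nat_lit 456) (nat_lit 0) (XT.lf (nat_lit 0)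 (nat_lit 2387990438) (nat_lit 380) (nat_lit 7980247711) (nat_lit 456) (nat_lit 155192500) (nat_lit 127) (nat_lit 5) (nat_lit 132) (nat_lit 5) (nat_lit 133) (nat_lit 5) (nat_lit 350) (nat_lit 303) (nat_lit 247)) (XT.nd (nat_lit 78) (nat_lit 380) (nat_lit 0) (XT.lf (nat_lit 0) (nat_lit 2468634364) (nat_lit 456) (nat_lit 1885555004) (nat_lit 76) (nat_lit 6342588320) (nat_lit 126) (nat_lit 5) (nat_lit 132) (nat_lit 5) (nat_lit 127) (nat_lit 5) (nat_lit 351) (nat_lit 303) (nat_lit 246)) (XT.lf (nat_lit 0) (nat_lit 4589153386) (nat_lit 380) (nat_lit 584897554) (nat_lit 456) (nat_lit 5701070230) (nat_lit 121) (nat_lit 5) (nat_lit 126) (nat_lit 5) (nat_lit 127) (nat_lit 5) (nat_lit 352) (nat_lit 303) (nat_lit 245)))) (XT.nd (nat_lit 156) (nat_lit 456) (nat_lit 0) (XT.nd (nat_lit 78) (nat_lit 0) (nat_lit 0) (XT.lf (nat_lit 0) (nat_lit 158503657) (nat_lit 304) (nat_lit 7816962361) (nat_lit 380) (nat_lit 3082925170)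 (nat_lit 117) (nat_lit 5) (nat_lit 121) (nat_lit 5) (nat_lit 122) (nat_lit 5) (nat_lit 353) (nat_lit 303) (nat_lit 244)) (XT.lf (nat_lit 0) (nat_lit 6868546422) (nat_lit 304) (nat_lit 4024581553) (nat_lit 380) (nat_lit 353085893) (nat_lit 117) (nat_lit 5) (nat_lit 121) (nat_lit 5) (nat_lit 122) (nat_lit 5) (nat_lit 354) (nat_lit 303) (nat_lit 243))) (XT.nd (nat_lit 78) (nat_lit 0) (nat_lit 0) (XT.lf (nat_lit 0) (nat_lit 2311717517) (nat_lit 380) (nat_lit 84872202) (nat_lit 456) (nat_lit 9042814446) (nat_lit 111) (nat_lit 5) (nat_lit 116) (nat_lit 5) (nat_lit 117) (nat_lit 5) (nat_lit 355) (nat_lit 303) (nat_lit 242)) (XT.lf (nat_lit 0) (nat_lit 5268639596) (nat_lit 456) (nat_lit 2438112744) (nat_lit 76) (nat_lit 3930142469) (nat_lit 111) (nat_lit 5) (nat_lit 117) (nat_lit 5) (nat_lit 112) (nat_lit 5) (nat_lit 356) (nat_lit 303) (nat_lit 241))))) (XT.nd (nat_lit 234) (nat_lit 684) (nat_lit 0) (XT.nd (nat_lit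 78) (nat_lit 380) (nat_lit 0) (XT.lf (nat_lit 0) (nat_lit 4489946475) (nat_lit 304) (nat_lit 3746095170) (nat_lit 380) (nat_lit 3604011192) (nat_lit 107) (nat_lit 5) (nat_lit 111) (nat_lit 5) (nat_lit 112) (nat_lit 5) (nat_lit 357) (nat_lit 303) (nat_lit 240)) (XT.nd (nat_lit 78) (nat_lit 380) (nat_lit 0) (XT.lf (nat_lit 0) (nat_lit 11286135462) (nat_lit 380) (nat_lit 425594373) (nat_lit 76) (nat_lit 337783529) (nat_lit 107) (nat_lit 5) (nat_lit 112) (nat_lit 5) (nat_lit 108) (nat_lit 5) (nat_lit 358) (nat_lit 303) (nat_lit 239)) (XT.lf (nat_lit 0) (nat_lit 2189549731) (nat_lit 380) (nat_lit 5531303550) (nat_lit 76) (nat_lit 4541719450) (nat_lit 102) (nat_lit 5) (nat_lit 107) (nat_lit 5) (nat_lit 103) (nat_lit 5) (nat_lit 359) (nat_lit 303) (nat_lit 238)))) (XT.nd (nat_lit 156) (nat_lit 380) (nat_lit 0) (XT.nd (nat_lit 78) (nat_lit 0) (nat_lit 0) (XT.lf (nat_lit 0) (nat_lit 1605217165) (nat_lit 304) (nat_lit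 3597052580) (nat_lit 380) (nat_lit 7279947293) (nat_lit 98) (nat_lit 5) (nat_lit 102) (nat_lit 5) (nat_lit 103) (nat_lit 5) (nat_lit 360) (nat_lit 303) (nat_lit 237)) (XT.lf (nat_lit 0) (nat_lit 8335174535) (nat_lit 380) (nat_lit 3692915402) (nat_lit 76) (nat_lit 679482500) (nat_lit 98) (nat_lit 5) (nat_lit 103) (nat_lit 5) (nat_lit 99) (nat_lit 5) (nat_lit 361) (nat_lit 303) (nat_lit 236))) (XT.nd (nat_lit 78) (nat_lit 76) (nat_lit 0) (XT.lf (nat_lit 0) (nat_lit 3696060354) (nat_lit 304) (nat_lit 7905248507) (nat_lit 380) (nat_lit 1337217763) (nat_lit 94) (nat_lit 5) (nat_lit 98) (nat_lit 5) (nat_lit 99) (nat_lit 5) (nat_lit 362) (nat_lit 303) (nat_lit 235)) (XT.lf (nat_lit 0) (nat_lit 1760021940) (nat_lit 380) (nat_lit 1857775005) (nat_lit 76) (nat_lit 9557933659) (nat_lit 93) (nat_lit 5) (nat_lit 98) (nat_lit 5) (nat_lit 94) (nat_lit 5) (nat_lit 363) (nat_lit 303) (nat_lit 234))))))))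
noncomputable def xc114 : XT := (XT.nd (nat_lit 2028) (nat_lit 1824) (nat_lit 0) (XT.nd (nat_lit 1014) (nat_lit 1140) (nat_lit 0) (XT.nd (nat_lit 468) (nat_lit 1064) (nat_lit 0) (XT.nd (nat_lit 234) (nat_lit 532) (nat_lit 0) (XT.nd (nat_lit 78) (nat_lit 304) (nat_lit 0) (XT.lf (nat_lit 0) (nat_lit 4956469297) (nat_lit 304) (nat_lit 7624631646) (nat_lit 76) (nat_lit 837571643) (nat_lit 90) (nat_lit 5) (nat_lit 94) (nat_lit 5) (nat_lit 91) (nat_lit 5) (nat_lit 364) (nat_lit 303) (nat_lit 233)) (XT.nd (nat_lit 78) (nat_lit 304) (nat_lit 0) (XT.lf (nat_lit 0) (nat_lit 8273068929) (nat_lit 304) (nat_lit 37126287) (nat_lit 76) (nat_lit 5357993524) (nat_lit 90) (nat_lit 5) (nat_lit 94) (nat_lit 5) (nat_lit 91) (nat_lit 5) (nat_lit 365) (nat_lit 303) (nat_lit 232)) (XT.lf (nat_lit 0) (nat_lit 7886980765) (nat_lit 304) (nat_lit 3848382266) (nat_lit 380) (nat_lit 2188454737) (nat_lit 86) (nat_lit 5) (nat_lit 90)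 (nat_lit 5) (nat_lit 91) (nat_lit 5) (nat_lit 366) (nat_lit 303) (nat_lit 231)))) (XT.nd (nat_lit 78) (nat_lit 228) (nat_lit 0) (XT.lf (nat_lit 0) (nat_lit 1088589175) (nat_lit 304) (nat_lit 12351845173) (nat_lit 76) (nat_lit 746494713) (nat_lit 82) (nat_lit 5) (nat_lit 86) (nat_lit 5) (nat_lit 83) (nat_lit 5) (nat_lit 367) (nat_lit 303) (nat_lit 230)) (XT.nd (nat_lit 78) (nat_lit 228) (nat_lit 0) (XT.lf (nat_lit 0) (nat_lit 4490420435) (nat_lit 304) (nat_lit 4494945135) (nat_lit 76) (nat_lit 5469816389) (nat_lit 82) (nat_lit 5) (nat_lit 86) (nat_lit 5) (nat_lit 83) (nat_lit 5) (nat_lit 368) (nat_lit 303) (nat_lit 229)) (XT.lf (nat_lit 0) (nat_lit 3624329644) (nat_lit 228) (nat_lit 4376462112) (nat_lit 304) (nat_lit 6730507934) (nat_lit 79) (nat_lit 5) (nat_lit 82) (nat_lit 5) (nat_lit 83) (nat_lit 5) (nat_lit 369) (nat_lit 303) (nat_lit 228))))) (XT.nd (nat_lit 234) (nat_lit 760) (nat_lit 0) (XT.nd (nat_lit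 78) (nat_lit 304) (nat_lit 0) (XT.lf (nat_lit 0) (nat_lit 11637778899) (nat_lit 304) (nat_lit 2983350757) (nat_lit 76) (nat_lit 393943614) (nat_lit 79) (nat_lit 5) (nat_lit 83) (nat_lit 5) (nat_lit 80) (nat_lit 5) (nat_lit 370) (nat_lit 303) (nat_lit 227)) (XT.nd (nat_lit 78) (nat_lit 0) (nat_lit 0) (XT.lf (nat_lit 0) (nat_lit 143673513) (nat_lit 304) (nat_lit 9903693672) (nat_lit 76) (nat_lit 5257922075) (nat_lit 75) (nat_lit 5) (nat_lit 79) (nat_lit 5) (nat_lit 76) (nat_lit 5) (nat_lit 371) (nat_lit 303) (nat_lit 226)) (XT.lf (nat_lit 0) (nat_lit 3705642585) (nat_lit 304) (nat_lit 1580960358) (nat_lit 76) (nat_lit 10316518543) (nat_lit 75) (nat_lit 5) (nat_lit 79) (nat_lit 5) (nat_lit 76) (nat_lit 5) (nat_lit 372) (nat_lit 303) (nat_lit 225)))) (XT.nd (nat_lit 156) (nat_lit 532) (nat_lit 0) (XT.nd (nat_lit 78) (nat_lit 0) (nat_lit 0) (XT.lf (nat_lit 0) (nat_lit 7087860108) (nat_lit 228) (nat_lit 328363034)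 (nat_lit 304) (nat_lit 8492423143) (nat_lit 72) (nat_lit 5) (nat_lit 75) (nat_lit 5) (nat_lit 76) (nat_lit 5) (nat_lit 373) (nat_lit 303) (nat_lit 224)) (XT.lf (nat_lit 0) (nat_lit 11274019074) (nat_lit 304) (nat_lit 261932766) (nat_lit 76) (nat_lit 4686317931) (nat_lit 72) (nat_lit 5) (nat_lit 76) (nat_lit 5) (nat_lit 73) (nat_lit 5) (nat_lit 374) (nat_lit 303) (nat_lit 223))) (XT.nd (nat_lit 78) (nat_lit 304) (nat_lit 0) (XT.lf (nat_lit 0) (nat_lit 8678883561) (nat_lit 228) (nat_lit 6629945351) (nat_lit 304) (nat_lit 1234644246) (nat_lit 69) (nat_lit 5) (nat_lit 72) (nat_lit 5) (nat_lit 73) (nat_lit 5) (nat_lit 375) (nat_lit 303) (nat_lit 222)) (XT.lf (nat_lit 0) (nat_lit 972083443) (nat_lit 228) (nat_lit 1554450364) (nat_lit 304) (nat_lit 14347439550) (nat_lit 65) (nat_lit 5) (nat_lit 68) (nat_lit 5) (nat_lit 69) (nat_lit 5) (nat_lit 376) (nat_lit 303) (nat_lit 221)))))) (XT.nd (nat_lit 468) (nat_lit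 532) (nat_lit 0) (XT.nd (nat_lit 234) (nat_lit 456) (nat_lit 0) (XT.nd (nat_lit 78) (nat_lit 152) (nat_lit 0) (XT.lf (nat_lit 0) (nat_lit 6466136884) (nat_lit 304) (nat_lit 7066477892) (nat_lit 76) (nat_lit 3678703695) (nat_lit 65) (nat_lit 5) (nat_lit 69) (nat_lit 5) (nat_lit 66) (nat_lit 5) (nat_lit 377) (nat_lit 303) (nat_lit 220)) (XT.nd (nat_lit 78) (nat_lit 0) (nat_lit 0) (XT.lf (nat_lit 0) (nat_lit 2017959982) (nat_lit 152) (nat_lit 8516379322) (nat_lit 228) (nat_lit 7024140824) (nat_lit 63) (nat_lit 5) (nat_lit 65) (nat_lit 5) (nat_lit 66) (nat_lit 5) (nat_lit 378) (nat_lit 303) (nat_lit 219)) (XT.lf (nat_lit 0) (nat_lit 11480155674) (nat_lit 152) (nat_lit 3291741538) (nat_lit 228) (nat_lit 3142748417) (nat_lit 63) (nat_lit 5) (nat_lit 65) (nat_lit 5) (nat_lit 66) (nat_lit 5) (nat_lit 379) (nat_lit 303) (nat_lit 218)))) (XT.nd (nat_lit 78) (nat_lit 152) (nat_lit 0) (XT.lf (nat_lit 0) (nat_lit 863522293)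 (nat_lit 304) (nat_lit 15346200165) (nat_lit 76) (nat_lit 2070781178) (nat_lit 59) (nat_lit 5) (nat_lit 63) (nat_lit 5) (nat_lit 60) (nat_lit 5) (nat_lit 380) (nat_lit 303) (nat_lit 217)) (XT.nd (nat_lit 78) (nat_lit 152) (nat_lit 0) (XT.lf (nat_lit 0) (nat_lit 5001607906) (nat_lit 304) (nat_lit 6042808628) (nat_lit 76) (nat_lit 7609751149) (nat_lit 59) (nat_lit 5) (nat_lit 63) (nat_lit 5) (nat_lit 60) (nat_lit 5) (nat_lit 381) (nat_lit 303) (nat_lit 216)) (XT.lf (nat_lit 0) (nat_lit 3571384149) (nat_lit 152) (nat_lit 5704046691) (nat_lit 228) (nat_lit 9763270322) (nat_lit 57) (nat_lit 5) (nat_lit 59) (nat_lit 5) (nat_lit 60) (nat_lit 5) (nat_lit 382) (nat_lit 303) (nat_lit 215))))) (XT.nd (nat_lit 234) (nat_lit 304) (nat_lit 0) (XT.nd (nat_lit 78) (nat_lit 228) (nat_lit 0) (XT.lf (nat_lit 0) (nat_lit 13560255750) (nat_lit 152) (nat_lit 155798242) (nat_lit 228) (nat_lit 5717566227) (nat_lit 57) (nat_lit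 5) (nat_lit 59) (nat_lit 5) (nat_lit 60) (nat_lit 5) (nat_lit 383) (nat_lit 303) (nat_lit 214)) (XT.nd (nat_lit 78) (nat_lit 76) (nat_lit 0) (XT.lf (nat_lit 0) (nat_lit 3995904005) (nat_lit 152) (nat_lit 14363915185) (nat_lit 228) (nat_lit 1478476887) (nat_lit 55) (nat_lit 5) (nat_lit 57) (nat_lit 5) (nat_lit 58) (nat_lit 5) (nat_lit 384) (nat_lit 303) (nat_lit 213)) (XT.lf (nat_lit 0) (nat_lit 2871015177) (nat_lit 228) (nat_lit 6038693118) (nat_lit 76) (nat_lit 11343390243) (nat_lit 54) (nat_lit 5) (nat_lit 57) (nat_lit 5) (nat_lit 55) (nat_lit 5) (nat_lit 385) (nat_lit 303) (nat_lit 212)))) (XT.nd (nat_lit 156) (nat_lit 152) (nat_lit 0) (XT.nd (nat_lit 78) (nat_lit 0) (nat_lit 0) (XT.lf (nat_lit 0) (nat_lit 4088215393) (nat_lit 152) (nat_lit 3251137652) (nat_lit 228) (nat_lit 13340016910) (nat_lit 52) (nat_lit 5) (nat_lit 54) (nat_lit 5) (nat_lit 55) (nat_lit 5) (nat_lit 386) (nat_lit 303) (nat_lit 211))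 (XT.lf (nat_lit 0) (nat_lit 12007009213) (nat_lit 228) (nat_lit 6535437359) (nat_lit 76) (nat_lit 2574031056) (nat_lit 52) (nat_lit 5) (nat_lit 55) (nat_lit 5) (nat_lit 53) (nat_lit 5) (nat_lit 387) (nat_lit 303) (nat_lit 210))) (XT.nd (nat_lit 78) (nat_lit 0) (nat_lit 0) (XT.lf (nat_lit 0) (nat_lit 3829361878) (nat_lit 152) (nat_lit 13033858977) (nat_lit 228) (nat_lit 4702027882) (nat_lit 50) (nat_lit 5) (nat_lit 52) (nat_lit 5) (nat_lit 53) (nat_lit 5) (nat_lit 388) (nat_lit 303) (nat_lit 209)) (XT.lf (nat_lit 0) (nat_lit 14604294869) (nat_lit 152) (nat_lit 7306607217) (nat_lit 228) (nat_lit 115213202) (nat_lit 50) (nat_lit 5) (nat_lit 52) (nat_lit 5) (nat_lit 53) (nat_lit 5) (nat_lit 389) (nat_lit 303) (nat_lit 208))))))) (XT.nd (nat_lit 1014) (nat_lit 760) (nat_lit 0) (XT.nd (nat_lit 468) (nat_lit 456) (nat_lit 0) (XT.nd (nat_lit 234) (nat_lit 228) (nat_lit 0) (XT.nd (nat_lit 78) (nat_lit 152) (nat_lit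 0) (XT.lf (nat_lit 0) (nat_lit 3185351942) (nat_lit 152) (nat_lit 1344708333) (nat_lit 228) (nat_lit 17969099939) (nat_lit 47) (nat_lit 5) (nat_lit 49) (nat_lit 5) (nat_lit 50) (nat_lit 5) (nat_lit 390) (nat_lit 303) (nat_lit 207)) (XT.nd (nat_lit 78) (nat_lit 152) (nat_lit 0) (XT.lf (nat_lit 0) (nat_lit 9414458781) (nat_lit 228) (nat_lit 8803541530) (nat_lit 76) (nat_lit 4765304794) (nat_lit 47) (nat_lit 5) (nat_lit 50) (nat_lit 5) (nat_lit 48) (nat_lit 5) (nat_lit 391) (nat_lit 303) (nat_lit 206)) (XT.lf (nat_lit 0) (nat_lit 2014745248) (nat_lit 152) (nat_lit 12444190995) (nat_lit 228) (nat_lit 9022636846) (nat_lit 45) (nat_lit 5) (nat_lit 47) (nat_lit 5) (nat_lit 48) (nat_lit 5) (nat_lit 392) (nat_lit 303) (nat_lit 205)))) (XT.nd (nat_lit 78) (nat_lit 228) (nat_lit 0) (XT.lf (nat_lit 0) (nat_lit 13305082004) (nat_lit 152) (nat_lit 6419671071) (nat_lit 228) (nat_lit 4267940895) (nat_lit 45) (nat_lit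 5) (nat_lit 47) (nat_lit 5) (nat_lit 48) (nat_lit 5) (nat_lit 393) (nat_lit 303) (nat_lit 204)) (XT.nd (nat_lit 78) (nat_lit 0) (nat_lit 0) (XT.lf (nat_lit 0) (nat_lit 384048397) (nat_lit 152) (nat_lit 218227912) (nat_lit 228) (nat_lit 23917140518) (nat_lit 42) (nat_lit 5) (nat_lit 44) (nat_lit 5) (nat_lit 45) (nat_lit 5) (nat_lit 394) (nat_lit 303) (nat_lit 203)) (XT.lf (nat_lit 0) (nat_lit 5682683514) (nat_lit 228) (nat_lit 13186867448) (nat_lit 76) (nat_lit 6186631340) (nat_lit 42) (nat_lit 5) (nat_lit 45) (nat_lit 5) (nat_lit 43) (nat_lit 5) (nat_lit 395) (nat_lit 303) (nat_lit 202))))) (XT.nd (nat_lit 234) (nat_lit 304) (nat_lit 0) (XT.nd (nat_lit 78) (nat_lit 152) (nat_lit 0) (XT.lf (nat_lit 0) (nat_lit 10899770115) (nat_lit 228) (nat_lit 1943605945) (nat_lit 76) (nat_lit 12766151116) (nat_lit 42) (nat_lit 5) (nat_lit 45) (nat_lit 5) (nat_lit 43) (nat_lit 5) (nat_lit 396) (nat_lit 303) (nat_lit 201))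 (XT.nd (nat_lit 78) (nat_lit 0) (nat_lit 0) (XT.lf (nat_lit 0) (nat_lit 9797522990) (nat_lit 152) (nat_lit 6552653786) (nat_lit 228) (nat_lit 9826995715) (nat_lit 40) (nat_lit 5) (nat_lit 42) (nat_lit 5) (nat_lit 43) (nat_lit 5) (nat_lit 397) (nat_lit 303) (nat_lit 200)) (XT.lf (nat_lit 0) (nat_lit 21900412585) (nat_lit 152) (nat_lit 66151920) (nat_lit 228) (nat_lit 4795212787) (nat_lit 40) (nat_lit 5) (nat_lit 42) (nat_lit 5) (nat_lit 43) (nat_lit 5) (nat_lit 398) (nat_lit 303) (nat_lit 199)))) (XT.nd (nat_lit 156) (nat_lit 152) (nat_lit 0) (XT.nd (nat_lit 78) (nat_lit 0) (nat_lit 0) (XT.lf (nat_lit 0) (nat_lit 495633801) (nat_lit 152) (nat_lit 20318774739) (nat_lit 76) (nat_lit 6545933733) (nat_lit 38) (nat_lit 5) (nat_lit 40) (nat_lit 5) (nat_lit 39) (nat_lit 5) (nat_lit 399) (nat_lit 303) (nat_lit 198)) (XT.lf (nat_lit 0) (nat_lit 5882314222) (nat_lit 152) (nat_lit 8652626967) (nat_lit 76) (nat_lit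 13439497909) (nat_lit 38) (nat_lit 5) (nat_lit 40) (nat_lit 5) (nat_lit 39) (nat_lit 5) (nat_lit 400) (nat_lit 303) (nat_lit 197))) (XT.nd (nat_lit 78) (nat_lit 0) (nat_lit 0) (XT.lf (nat_lit 0) (nat_lit 3400880253) (nat_lit 152) (nat_lit 8046150026) (nat_lit 228) (nat_lit 17159439216) (nat_lit 36) (nat_lit 5) (nat_lit 38) (nat_lit 5) (nat_lit 39) (nat_lit 5) (nat_lit 401) (nat_lit 303) (nat_lit 196)) (XT.lf (nat_lit 0) (nat_lit 15964658853) (nat_lit 152) (nat_lit 1285344972) (nat_lit 228) (nat_lit 12005321117) (nat_lit 36) (nat_lit 5) (nat_lit 38) (nat_lit 5) (nat_lit 39) (nat_lit 5) (nat_lit 402) (nat_lit 303) (nat_lit 195)))))) (XT.nd (nat_lit 546) (nat_lit 380) (nat_lit 0) (XT.nd (nat_lit 234) (nat_lit 228) (nat_lit 0) (XT.nd (nat_lit 78) (nat_lit 152) (nat_lit 0) (XT.lf (nat_lit 0) (nat_lit 23265940867) (nat_lit 228) (nat_lit 1101099767) (nat_lit 76) (nat_lit 5555442702) (nat_lit 36) (nat_lit 5) (nat_lit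 39) (nat_lit 5) (nat_lit 37) (nat_lit 4) (nat_lit 403) (nat_lit 303) (nat_lit 194)) (XT.nd (nat_lit 78) (nat_lit 76) (nat_lit 0) (XT.lf (nat_lit 0) (nat_lit 11641189492) (nat_lit 76) (nat_lit 17930543638) (nat_lit 152) (nat_lit 1034645449) (nat_lit 35) (nat_lit 5) (nat_lit 36) (nat_lit 5) (nat_lit 37) (nat_lit 4) (nat_lit 404) (nat_lit 303) (nat_lit 193)) (XT.lf (nat_lit 0) (nat_lit 4659112283) (nat_lit 152) (nat_lit 6595401914) (nat_lit 76) (nat_lit 20055027934) (nat_lit 34) (nat_lit 5) (nat_lit 36) (nat_lit 5) (nat_lit 35) (nat_lit 5) (nat_lit 405) (nat_lit 303) (nat_lit 192)))) (XT.nd (nat_lit 156) (nat_lit 76) (nat_lit 0) (XT.nd (nat_lit 78) (nat_lit 0) (nat_lit 0) (XT.lf (nat_lit 0) (nat_lit 6230170145) (nat_lit 152) (nat_lit 4317828440) (nat_lit 228) (nat_lit 21484144469) (nat_lit 32) (nat_lit 5) (nat_lit 34) (nat_lit 5) (nat_lit 35) (nat_lit 5) (nat_lit 406) (nat_lit 303) (nat_lit 191)) (XT.lf (nat_lit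 0) (nat_lit 16693272593) (nat_lit 228) (nat_lit 13253253659) (nat_lit 76) (nat_lit 2827507148) (nat_lit 32) (nat_lit 5) (nat_lit 35) (nat_lit 5) (nat_lit 33) (nat_lit 4) (nat_lit 407) (nat_lit 303) (nat_lit 190))) (XT.nd (nat_lit 78) (nat_lit 76) (nat_lit 0) (XT.lf (nat_lit 0) (nat_lit 23051370770) (nat_lit 228) (nat_lit 396750261) (nat_lit 76) (nat_lit 10089208389) (nat_lit 32) (nat_lit 5) (nat_lit 35) (nat_lit 5) (nat_lit 33) (nat_lit 4) (nat_lit 408) (nat_lit 303) (nat_lit 189)) (XT.lf (nat_lit 0) (nat_lit 13075425375) (nat_lit 76) (nat_lit 16636606740) (nat_lit 152) (nat_lit 4608140454) (nat_lit 31) (nat_lit 5) (nat_lit 32) (nat_lit 5) (nat_lit 33) (nat_lit 4) (nat_lit 409) (nat_lit 303) (nat_lit 188))))) (XT.nd (nat_lit 234) (nat_lit 152) (nat_lit 0) (XT.nd (nat_lit 78) (nat_lit 152) (nat_lit 0) (XT.lf (nat_lit 0) (nat_lit 1407998630) (nat_lit 152) (nat_lit 8205624090) (nat_lit 76) (nat_lit 25512757890)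 (nat_lit 30) (nat_lit 5) (nat_lit 32) (nat_lit 5) (nat_lit 31) (nat_lit 5) (nat_lit 410) (nat_lit 303) (nat_lit 187)) (XT.nd (nat_lit 78) (nat_lit 0) (nat_lit 0) (XT.lf (nat_lit 0) (nat_lit 5257164923) (nat_lit 152) (nat_lit 2291933359) (nat_lit 228) (nat_lit 28405197603) (nat_lit 28) (nat_lit 5) (nat_lit 30) (nat_lit 5) (nat_lit 31) (nat_lit 5) (nat_lit 411) (nat_lit 303) (nat_lit 186)) (XT.lf (nat_lit 0) (nat_lit 13995186227) (nat_lit 228) (nat_lit 17588323547) (nat_lit 76) (nat_lit 5219918724) (nat_lit 28) (nat_lit 5) (nat_lit 31) (nat_lit 5) (nat_lit 29) (nat_lit 4) (nat_lit 412) (nat_lit 303) (nat_lit 185)))) (XT.nd (nat_lit 156) (nat_lit 76) (nat_lit 0) (XT.nd (nat_lit 78) (nat_lit 76) (nat_lit 0) (XT.lf (nat_lit 0) (nat_lit 20644352787) (nat_lit 228) (nat_lit 4132754703) (nat_lit 76) (nat_lit 12900639182) (nat_lit 28) (nat_lit 5) (nat_lit 31) (nat_lit 5) (nat_lit 29) (nat_lit 4) (nat_lit 413) (nat_lit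 303) (nat_lit 184)) (XT.lf (nat_lit 0) (nat_lit 9896480305) (nat_lit 76) (nat_lit 17679027168) (nat_lit 152) (nat_lit 11000313918) (nat_lit 27) (nat_lit 5) (nat_lit 28) (nat_lit 5) (nat_lit 29) (nat_lit 4) (nat_lit 414) (nat_lit 303) (nat_lit 183))) (XT.nd (nat_lit 78) (nat_lit 76) (nat_lit 0) (XT.lf (nat_lit 0) (nat_lit 24408419542) (nat_lit 76) (nat_lit 10335439558) (nat_lit 152) (nat_lit 4756103702) (nat_lit 27) (nat_lit 5) (nat_lit 28) (nat_lit 5) (nat_lit 29) (nat_lit 4) (nat_lit 415) (nat_lit 303) (nat_lit 182)) (XT.lf (nat_lit 0) (nat_lit 1630509804) (nat_lit 152) (nat_lit 1134685896) (nat_lit 76) (nat_lit 37686518665) (nat_lit 26) (nat_lit 5) (nat_lit 28) (nat_lit 5) (nat_lit 27) (nat_lit 5) (nat_lit 416) (nat_lit 303) (nat_lit 181))))))))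
noncomputable def xc115 : XT := (XT.nd (nat_lit 2028) (nat_lit 76) (nat_lit 0) (XT.nd (nat_lit 1014) (nat_lit 380) (nat_lit 0) (XT.nd (nat_lit 468) (nat_lit 304) (nat_lit 0) (XT.nd (nat_lit 234) (nat_lit 0) (nat_lit 0) (XT.nd (nat_lit 78) (nat_lit 76) (nat_lit 0) (XT.lf (nat_lit 0) (nat_lit 8280414048) (nat_lit 228) (nat_lit 28042990936) (nat_lit 76) (nat_lit 5102184353) (nat_lit 24) (nat_lit 5) (nat_lit 27) (nat_lit 5) (nat_lit 25) (nat_lit 4) (nat_lit 417) (nat_lit 303) (nat_lit 180)) (XT.nd (nat_lit 78) (nat_lit 76) (nat_lit 0) (XT.lf (nat_lit 0) (nat_lit 15156935393) (nat_lit 228) (nat_lit 14119027334) (nat_lit 76) (nat_lit 13151906296) (nat_lit 24) (nat_lit 5) (nat_lit 27) (nat_lit 5) (nat_lit 25) (nat_lit 4) (nat_lit 418) (nat_lit 303) (nat_lit 179)) (XT.lf (nat_lit 0) (nat_lit 205440690) (nat_lit 76) (nat_lit 22024801313) (nat_lit 152) (nat_lit 21230262410) (nat_lit 23) (nat_lit 5) (nat_lit 24)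 (nat_lit 5) (nat_lit 25) (nat_lit 4) (nat_lit 419) (nat_lit 303) (nat_lit 178)))) (XT.nd (nat_lit 78) (nat_lit 0) (nat_lit 0) (XT.lf (nat_lit 0) (nat_lit 15228053673) (nat_lit 76) (nat_lit 14418915944) (nat_lit 152) (nat_lit 14873214538) (nat_lit 23) (nat_lit 5) (nat_lit 24) (nat_lit 5) (nat_lit 25) (nat_lit 4) (nat_lit 420) (nat_lit 303) (nat_lit 177)) (XT.nd (nat_lit 78) (nat_lit 0) (nat_lit 0) (XT.lf (nat_lit 0) (nat_lit 30680941840) (nat_lit 76) (nat_lit 6594235192) (nat_lit 152) (nat_lit 8336809806) (nat_lit 23) (nat_lit 5) (nat_lit 24) (nat_lit 5) (nat_lit 25) (nat_lit 4) (nat_lit 421) (nat_lit 303) (nat_lit 176)) (XT.lf (nat_lit 0) (nat_lit 45135526387) (nat_lit 152) (nat_lit 173255462) (nat_lit 0) (nat_lit 1427664714) (nat_lit 23) (nat_lit 5) (nat_lit 25) (nat_lit 4) (nat_lit 23) (nat_lit 4) (nat_lit 422) (nat_lit 303) (nat_lit 175))))) (XT.nd (nat_lit 234) (nat_lit 152) (nat_lit 0) (XT.nd (nat_lit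 78) (nat_lit 0) (nat_lit 0) (XT.lf (nat_lit 0) (nat_lit 5436202988) (nat_lit 152) (nat_lit 32701995384) (nat_lit 76) (nat_lit 9748805292) (nat_lit 21) (nat_lit 5) (nat_lit 23) (nat_lit 5) (nat_lit 22) (nat_lit 4) (nat_lit 423) (nat_lit 303) (nat_lit 174)) (XT.nd (nat_lit 78) (nat_lit 0) (nat_lit 0) (XT.lf (nat_lit 0) (nat_lit 12643571113) (nat_lit 152) (nat_lit 18099800979) (nat_lit 76) (nat_lit 18328492296) (nat_lit 21) (nat_lit 5) (nat_lit 23) (nat_lit 5) (nat_lit 22) (nat_lit 4) (nat_lit 424) (nat_lit 303) (nat_lit 173)) (XT.lf (nat_lit 0) (nat_lit 20057006219) (nat_lit 152) (nat_lit 3078452851) (nat_lit 76) (nat_lit 27157118116) (nat_lit 21) (nat_lit 5) (nat_lit 23) (nat_lit 5) (nat_lit 22) (nat_lit 4) (nat_lit 425) (nat_lit 303) (nat_lit 172)))) (XT.nd (nat_lit 156) (nat_lit 76) (nat_lit 0) (XT.nd (nat_lit 78) (nat_lit 0) (nat_lit 0) (XT.lf (nat_lit 0) (nat_lit 12621464685) (nat_lit 76) (nat_lit 15182846616)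 (nat_lit 152) (nat_lit 23742257638) (nat_lit 20) (nat_lit 5) (nat_lit 21) (nat_lit 5) (nat_lit 22) (nat_lit 4) (nat_lit 426) (nat_lit 303) (nat_lit 171)) (XT.lf (nat_lit 0) (nat_lit 28837303755) (nat_lit 76) (nat_lit 6968072172) (nat_lit 152) (nat_lit 17032165844) (nat_lit 20) (nat_lit 5) (nat_lit 21) (nat_lit 5) (nat_lit 22) (nat_lit 4) (nat_lit 427) (nat_lit 303) (nat_lit 170))) (XT.nd (nat_lit 78) (nat_lit 76) (nat_lit 0) (XT.lf (nat_lit 0) (nat_lit 44051284709) (nat_lit 152) (nat_lit 8659837155) (nat_lit 0) (nat_lit 1455979046) (nat_lit 20) (nat_lit 5) (nat_lit 22) (nat_lit 4) (nat_lit 20) (nat_lit 4) (nat_lit 428) (nat_lit 303) (nat_lit 169)) (XT.lf (nat_lit 0) (nat_lit 7194844048) (nat_lit 76) (nat_lit 45478615840) (nat_lit 76) (nat_lit 2859221709) (nat_lit 19) (nat_lit 4) (nat_lit 20) (nat_lit 5) (nat_lit 20) (nat_lit 4) (nat_lit 429) (nat_lit 303) (nat_lit 168)))))) (XT.nd (nat_lit 468) (nat_lit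 228) (nat_lit 0) (XT.nd (nat_lit 234) (nat_lit 76) (nat_lit 0) (XT.nd (nat_lit 78) (nat_lit 0) (nat_lit 0) (XT.lf (nat_lit 0) (nat_lit 4604076946) (nat_lit 152) (nat_lit 33296504791) (nat_lit 76) (nat_lit 19034946555) (nat_lit 18) (nat_lit 5) (nat_lit 20) (nat_lit 5) (nat_lit 19) (nat_lit 4) (nat_lit 430) (nat_lit 303) (nat_lit 167)) (XT.nd (nat_lit 78) (nat_lit 0) (nat_lit 0) (XT.lf (nat_lit 0) (nat_lit 12224826248) (nat_lit 152) (nat_lit 17849089399) (nat_lit 76) (nat_lit 28305966215) (nat_lit 18) (nat_lit 5) (nat_lit 20) (nat_lit 5) (nat_lit 19) (nat_lit 4) (nat_lit 431) (nat_lit 303) (nat_lit 166)) (XT.lf (nat_lit 0) (nat_lit 20065478817) (nat_lit 152) (nat_lit 1954609044) (nat_lit 76) (nat_lit 37847741040) (nat_lit 18) (nat_lit 5) (nat_lit 20) (nat_lit 5) (nat_lit 19) (nat_lit 4) (nat_lit 432) (nat_lit 303) (nat_lit 165)))) (XT.nd (nat_lit 78) (nat_lit 0) (nat_lit 0) (XT.lf (nat_lit 0) (nat_lit 14687429301)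 (nat_lit 76) (nat_lit 13586640963) (nat_lit 152) (nat_lit 33122363757) (nat_lit 17) (nat_lit 5) (nat_lit 18) (nat_lit 5) (nat_lit 19) (nat_lit 4) (nat_lit 433) (nat_lit 303) (nat_lit 164)) (XT.nd (nat_lit 78) (nat_lit 0) (nat_lit 0) (XT.lf (nat_lit 0) (nat_lit 31853070997) (nat_lit 76) (nat_lit 4887216321) (nat_lit 152) (nat_lit 26230270152) (nat_lit 17) (nat_lit 5) (nat_lit 18) (nat_lit 5) (nat_lit 19) (nat_lit 4) (nat_lit 434) (nat_lit 303) (nat_lit 163)) (XT.lf (nat_lit 0) (nat_lit 45491450168) (nat_lit 152) (nat_lit 15112820345) (nat_lit 0) (nat_lit 3986706507) (nat_lit 17) (nat_lit 5) (nat_lit 19) (nat_lit 4) (nat_lit 17) (nat_lit 4) (nat_lit 435) (nat_lit 303) (nat_lit 162))))) (XT.nd (nat_lit 234) (nat_lit 76) (nat_lit 0) (XT.nd (nat_lit 78) (nat_lit 76) (nat_lit 0) (XT.lf (nat_lit 0) (nat_lit 1334647418) (nat_lit 76) (nat_lit 53223762176) (nat_lit 76) (nat_lit 11700002855) (nat_lit 16) (nat_lit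 4) (nat_lit 17) (nat_lit 5) (nat_lit 17) (nat_lit 4) (nat_lit 436) (nat_lit 303) (nat_lit 161)) (XT.nd (nat_lit 78) (nat_lit 76) (nat_lit 0) (XT.lf (nat_lit 0) (nat_lit 18570490367) (nat_lit 76) (nat_lit 45471630261) (nat_lit 76) (nat_lit 3929409136) (nat_lit 16) (nat_lit 4) (nat_lit 17) (nat_lit 5) (nat_lit 17) (nat_lit 4) (nat_lit 437) (nat_lit 303) (nat_lit 160)) (XT.lf (nat_lit 0) (nat_lit 3987083512) (nat_lit 152) (nat_lit 33466365677) (nat_lit 76) (nat_lit 32281648952) (nat_lit 15) (nat_lit 5) (nat_lit 17) (nat_lit 5) (nat_lit 16) (nat_lit 4) (nat_lit 438) (nat_lit 303) (nat_lit 159)))) (XT.nd (nat_lit 156) (nat_lit 76) (nat_lit 0) (XT.nd (nat_lit 78) (nat_lit 0) (nat_lit 0) (XT.lf (nat_lit 0) (nat_lit 12054603835) (nat_lit 152) (nat_lit 17106701443) (nat_lit 76) (nat_lit 42389326851) (nat_lit 15) (nat_lit 5) (nat_lit 17) (nat_lit 5) (nat_lit 16) (nat_lit 4) (nat_lit 439) (nat_lit 303) (nat_lit 158))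 (XT.lf (nat_lit 0) (nat_lit 20356878048) (nat_lit 152) (nat_lit 269979957) (nat_lit 76) (nat_lit 52793993269) (nat_lit 15) (nat_lit 5) (nat_lit 17) (nat_lit 5) (nat_lit 16) (nat_lit 4) (nat_lit 440) (nat_lit 303) (nat_lit 157))) (XT.nd (nat_lit 78) (nat_lit 0) (nat_lit 0) (XT.lf (nat_lit 0) (nat_lit 17398008284) (nat_lit 76) (nat_lit 11670392579) (nat_lit 152) (nat_lit 46273971674) (nat_lit 14) (nat_lit 5) (nat_lit 15) (nat_lit 5) (nat_lit 16) (nat_lit 4) (nat_lit 441) (nat_lit 303) (nat_lit 156)) (XT.lf (nat_lit 0) (nat_lit 35588368515) (nat_lit 76) (nat_lit 2448645917) (nat_lit 152) (nat_lit 39284653584) (nat_lit 14) (nat_lit 5) (nat_lit 15) (nat_lit 5) (nat_lit 16) (nat_lit 4) (nat_lit 442) (nat_lit 303) (nat_lit 155))))))) (XT.nd (nat_lit 36816) (nat_lit 0) (nat_lit 16948) (XT.nd (nat_lit 36270) (nat_lit 0) (nat_lit 23636) (XT.nd (nat_lit 36036) (nat_lit 0) (nat_lit 24548) (XT.nd (nat_lit 78) (nat_lit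 76) (nat_lit 0) (XT.lf (nat_lit 0) (nat_lit 47335617030) (nat_lit 152) (nat_lit 25116632986) (nat_lit 0) (nat_lit 6906265326) (nat_lit 14) (nat_lit 5) (nat_lit 16) (nat_lit 4) (nat_lit 14) (nat_lit 4) (nat_lit 443) (nat_lit 303) (nat_lit 154)) (XT.nd (nat_lit 78) (nat_lit 76) (nat_lit 0) (XT.lf (nat_lit 0) (nat_lit 56930784910) (nat_lit 152) (nat_lit 8038296552) (nat_lit 0) (nat_lit 16486859286) (nat_lit 14) (nat_lit 5) (nat_lit 16) (nat_lit 4) (nat_lit 14) (nat_lit 4) (nat_lit 444) (nat_lit 303) (nat_lit 153)) (XT.lf (nat_lit 0) (nat_lit 9730038599) (nat_lit 76) (nat_lit 57170856799) (nat_lit 76) (nat_lit 16712781740) (nat_lit 13) (nat_lit 4) (nat_lit 14) (nat_lit 5) (nat_lit 14) (nat_lit 4) (nat_lit 445) (nat_lit 303) (nat_lit 152)))) (XT.nd (nat_lit 78) (nat_lit 380) (nat_lit 0) (XT.lf (nat_lit 0) (nat_lit 1559058439) (nat_lit 380) (nat_lit 848254908) (nat_lit 380) (nat_lit 848254908) (nat_lit 341)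 (nat_lit 3) (nat_lit 346) (nat_lit 3) (nat_lit 346) (nat_lit 5) (nat_lit 304) (nat_lit 304) (nat_lit 292)) (XT.nd (nat_lit 78) (nat_lit 380) (nat_lit 0) (XT.lf (nat_lit 76) (nat_lit 1431070266) (nat_lit 0) (nat_lit 4253839051) (nat_lit 380) (nat_lit 845076149) (nat_lit 342) (nat_lit 5) (nat_lit 341) (nat_lit 3) (nat_lit 346) (nat_lit 5) (nat_lit 305) (nat_lit 304) (nat_lit 291)) (XT.lf (nat_lit 0) (nat_lit 1662482601) (nat_lit 380) (nat_lit 1932445029) (nat_lit 456) (nat_lit 2956544128) (nat_lit 336) (nat_lit 5) (nat_lit 341) (nat_lit 3) (nat_lit 342) (nat_lit 5) (nat_lit 306) (nat_lit 304) (nat_lit 290))))) (XT.nd (nat_lit 234) (nat_lit 456) (nat_lit 0) (XT.nd (nat_lit 78) (nat_lit 456) (nat_lit 0) (XT.lf (nat_lit 76) (nat_lit 1293920395) (nat_lit 0) (nat_lit 2850292306) (nat_lit 456) (nat_lit 2431779392) (nat_lit 337) (nat_lit 5) (nat_lit 336) (nat_lit 5) (nat_lit 342) (nat_lit 5) (nat_lit 307) (nat_lit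 304) (nat_lit 289)) (XT.nd (nat_lit 78) (nat_lit 0) (nat_lit 0) (XT.lf (nat_lit 0) (nat_lit 21681776) (nat_lit 456) (nat_lit 1998597042) (nat_lit 532) (nat_lit 4583318101) (nat_lit 330) (nat_lit 5) (nat_lit 336) (nat_lit 5) (nat_lit 337) (nat_lit 5) (nat_lit 308) (nat_lit 304) (nat_lit 288)) (XT.lf (nat_lit 76) (nat_lit 1333403790) (nat_lit 0) (nat_lit 1086820734) (nat_lit 532) (nat_lit 4213580749) (nat_lit 331) (nat_lit 5) (nat_lit 330) (nat_lit 5) (nat_lit 337) (nat_lit 5) (nat_lit 309) (nat_lit 304) (nat_lit 287)))) (XT.nd (nat_lit 156) (nat_lit 0) (nat_lit 0) (XT.nd (nat_lit 78) (nat_lit 456) (nat_lit 0) (XT.lf (nat_lit 76) (nat_lit 4754922404) (nat_lit 0) (nat_lit 65718581) (nat_lit 532) (nat_lit 1846486531) (nat_lit 331) (nat_lit 5) (nat_lit 330) (nat_lit 5) (nat_lit 337) (nat_lit 5) (nat_lit 310) (nat_lit 304) (nat_lit 286)) (XT.lf (nat_lit 0) (nat_lit 516412387) (nat_lit 532) (nat_lit 5163197034)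 (nat_lit 608) (nat_lit 1023678426) (nat_lit 324) (nat_lit 5) (nat_lit 331) (nat_lit 5) (nat_lit 332) (nat_lit 5) (nat_lit 311) (nat_lit 304) (nat_lit 285))) (XT.nd (nat_lit 78) (nat_lit 0) (nat_lit 0) (XT.lf (nat_lit 0) (nat_lit 2847060561) (nat_lit 532) (nat_lit 1678223159) (nat_lit 608) (nat_lit 2216777799) (nat_lit 324) (nat_lit 5) (nat_lit 331) (nat_lit 5) (nat_lit 332) (nat_lit 5) (nat_lit 312) (nat_lit 304) (nat_lit 284)) (XT.lf (nat_lit 76) (nat_lit 1895571397) (nat_lit 0) (nat_lit 3286611625) (nat_lit 608) (nat_lit 1601872169) (nat_lit 325) (nat_lit 5) (nat_lit 324) (nat_lit 5) (nat_lit 332) (nat_lit 5) (nat_lit 313) (nat_lit 304) (nat_lit 283)))))) (XT.nd (nat_lit 546) (nat_lit 3952) (nat_lit 0) (XT.nd (nat_lit 234) (nat_lit 2128) (nat_lit 0) (XT.nd (nat_lit 78) (nat_lit 0) (nat_lit 0) (XT.lf (nat_lit 0) (nat_lit 679704099) (nat_lit 608) (nat_lit 1277226091) (nat_lit 684) (nat_lit 4872212824)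 (nat_lit 316) (nat_lit 5) (nat_lit 324) (nat_lit 5) (nat_lit 325) (nat_lit 5) (nat_lit 314) (nat_lit 304) (nat_lit 282)) (XT.nd (nat_lit 78) (nat_lit 0) (nat_lit 76) (XT.lf (nat_lit 76) (nat_lit 2421396595) (nat_lit 0) (nat_lit 519188034) (nat_lit 684) (nat_lit 3936316955) (nat_lit 317) (nat_lit 5) (nat_lit 316) (nat_lit 5) (nat_lit 325) (nat_lit 5) (nat_lit 315) (nat_lit 304) (nat_lit 281)) (XT.lf (nat_lit 0) (nat_lit 5213431398) (nat_lit 608) (nat_lit 732457225) (nat_lit 76) (nat_lit 981963108) (nat_lit 317) (nat_lit 5) (nat_lit 325) (nat_lit 5) (nat_lit 318) (nat_lit 5) (nat_lit 316) (nat_lit 304) (nat_lit 280)))) (XT.nd (nat_lit 156) (nat_lit 1520) (nat_lit 0) (XT.nd (nat_lit 78) (nat_lit 0) (nat_lit 0) (XT.lf (nat_lit 0) (nat_lit 521577548) (nat_lit 684) (nat_lit 3881974233) (nat_lit 76) (nat_lit 2577931854) (nat_lit 308) (nat_lit 5) (nat_lit 317) (nat_lit 5) (nat_lit 309) (nat_lit 5) (nat_lit 317)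 (nat_lit 304) (nat_lit 279)) (XT.lf (nat_lit 0) (nat_lit 2722707248) (nat_lit 684) (nat_lit 46099851) (nat_lit 76) (nat_lit 4269508831) (nat_lit 308) (nat_lit 5) (nat_lit 317) (nat_lit 5) (nat_lit 309) (nat_lit 5) (nat_lit 318) (nat_lit 304) (nat_lit 278))) (XT.nd (nat_lit 78) (nat_lit 836) (nat_lit 0) (XT.lf (nat_lit 0) (nat_lit 3929095110) (nat_lit 684) (nat_lit 1025768302) (nat_lit 760) (nat_lit 2143113765) (nat_lit 299) (nat_lit 5) (nat_lit 308) (nat_lit 5) (nat_lit 309) (nat_lit 5) (nat_lit 319) (nat_lit 304) (nat_lit 277)) (XT.lf (nat_lit 0) (nat_lit 36867035) (nat_lit 836) (nat_lit 6342158662) (nat_lit 76) (nat_lit 782120134) (nat_lit 288) (nat_lit 5) (nat_lit 299) (nat_lit 5) (nat_lit 289) (nat_lit 5) (nat_lit 320) (nat_lit 304) (nat_lit 276))))) (XT.nd (nat_lit 234) (nat_lit 3116) (nat_lit 0) (XT.nd (nat_lit 78) (nat_lit 836) (nat_lit 0) (XT.lf (nat_lit 0) (nat_lit 2211469332) (nat_lit 836) (nat_lit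 2320725466) (nat_lit 76) (nat_lit 2694276784) (nat_lit 288) (nat_lit 5) (nat_lit 299) (nat_lit 5) (nat_lit 289) (nat_lit 5) (nat_lit 321) (nat_lit 304) (nat_lit 275)) (XT.nd (nat_lit 78) (nat_lit 0) (nat_lit 0) (XT.lf (nat_lit 0) (nat_lit 1802905233) (nat_lit 836) (nat_lit 2597603142) (nat_lit 912) (nat_lit 2894838302) (nat_lit 277) (nat_lit 5) (nat_lit 288) (nat_lit 5) (nat_lit 289) (nat_lit 5) (nat_lit 322) (nat_lit 304) (nat_lit 274)) (XT.lf (nat_lit 0) (nat_lit 6044716535) (nat_lit 836) (nat_lit 567278870) (nat_lit 912) (nat_lit 755652941) (nat_lit 277) (nat_lit 5) (nat_lit 288) (nat_lit 5) (nat_lit 289) (nat_lit 5) (nat_lit 323) (nat_lit 304) (nat_lit 273)))) (XT.nd (nat_lit 156) (nat_lit 2128) (nat_lit 0) (XT.nd (nat_lit 78) (nat_lit 0) (nat_lit 0) (XT.lf (nat_lit 0) (nat_lit 1397708037) (nat_lit 988) (nat_lit 4495416358) (nat_lit 76) (nat_lit 1549289653) (nat_lit 264) (nat_lit 5) (nat_lit 277) (nat_lit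 5) (nat_lit 265) (nat_lit 5) (nat_lit 324) (nat_lit 304) (nat_lit 272)) (XT.lf (nat_lit 0) (nat_lit 3555685468) (nat_lit 988) (nat_lit 214596480) (nat_lit 76) (nat_lit 3750318443) (nat_lit 264) (nat_lit 5) (nat_lit 277) (nat_lit 5) (nat_lit 265) (nat_lit 5) (nat_lit 325) (nat_lit 304) (nat_lit 271))) (XT.nd (nat_lit 78) (nat_lit 1140) (nat_lit 0) (XT.lf (nat_lit 0) (nat_lit 4224176098) (nat_lit 988) (nat_lit 1532788373) (nat_lit 1064) (nat_lit 1844867515) (nat_lit 251) (nat_lit 5) (nat_lit 264) (nat_lit 5) (nat_lit 265) (nat_lit 5) (nat_lit 326) (nat_lit 304) (nat_lit 270)) (XT.lf (nat_lit 0) (nat_lit 290988396) (nat_lit 1140) (nat_lit 6615372319) (nat_lit 76) (nat_lit 780330864) (nat_lit 236) (nat_lit 5) (nat_lit 251) (nat_lit 5) (nat_lit 237) (nat_lit 5) (nat_lit 327) (nat_lit 304) (nat_lit 269))))))))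
noncomputable def xc116 : XT := (XT.nd (nat_lit 2028) (nat_lit 4408) (nat_lit 0) (XT.nd (nat_lit 1014) (nat_lit 3572) (nat_lit 0) (XT.nd (nat_lit 468) (nat_lit 2356) (nat_lit 0) (XT.nd (nat_lit 234) (nat_lit 1672) (nat_lit 0) (XT.nd (nat_lit 78) (nat_lit 1140) (nat_lit 0) (XT.lf (nat_lit 0) (nat_lit 2443411362) (nat_lit 1140) (nat_lit 2138904933) (nat_lit 76) (nat_lit 3191597275) (nat_lit 236) (nat_lit 5) (nat_lit 251) (nat_lit 5) (nat_lit 237) (nat_lit 5) (nat_lit 328) (nat_lit 304) (nat_lit 268)) (XT.nd (nat_lit 78) (nat_lit 0) (nat_lit 0) (XT.lf (nat_lit 0) (nat_lit 2466537340) (nat_lit 1140) (nat_lit 2159278438) (nat_lit 1216) (nat_lit 3239024406) (nat_lit 221) (nat_lit 5) (nat_lit 236) (nat_lit 5) (nat_lit 237) (nat_lit 5) (nat_lit 329) (nat_lit 304) (nat_lit 267)) (XT.lf (nat_lit 0) (nat_lit 6841667554) (nat_lit 1216) (nat_lit 762034806) (nat_lit 76) (nat_lit 355801744) (nat_lit 221) (nat_lit 5)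 (nat_lit 237) (nat_lit 5) (nat_lit 222) (nat_lit 5) (nat_lit 330) (nat_lit 304) (nat_lit 266)))) (XT.nd (nat_lit 78) (nat_lit 608) (nat_lit 0) (XT.lf (nat_lit 0) (nat_lit 1050750663) (nat_lit 1064) (nat_lit 4050021374) (nat_lit 76) (nat_lit 2955836636) (nat_lit 207) (nat_lit 5) (nat_lit 221) (nat_lit 5) (nat_lit 208) (nat_lit 5) (nat_lit 331) (nat_lit 304) (nat_lit 265)) (XT.nd (nat_lit 78) (nat_lit 0) (nat_lit 0) (XT.lf (nat_lit 0) (nat_lit 726781296) (nat_lit 608) (nat_lit 2495020447) (nat_lit 684) (nat_lit 4935741021) (nat_lit 199) (nat_lit 5) (nat_lit 207) (nat_lit 5) (nat_lit 208) (nat_lit 5) (nat_lit 332) (nat_lit 304) (nat_lit 264)) (XT.lf (nat_lit 0) (nat_lit 5447311015) (nat_lit 684) (nat_lit 2587475459) (nat_lit 76) (nat_lit 227081931) (nat_lit 199) (nat_lit 5) (nat_lit 208) (nat_lit 5) (nat_lit 200) (nat_lit 5) (nat_lit 333) (nat_lit 304) (nat_lit 263))))) (XT.nd (nat_lit 234) (nat_lit 1140)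 (nat_lit 0) (XT.nd (nat_lit 78) (nat_lit 684) (nat_lit 0) (XT.lf (nat_lit 0) (nat_lit 2369352964) (nat_lit 532) (nat_lit 5365486783) (nat_lit 608) (nat_lit 634668505) (nat_lit 192) (nat_lit 5) (nat_lit 199) (nat_lit 5) (nat_lit 200) (nat_lit 5) (nat_lit 334) (nat_lit 304) (nat_lit 262)) (XT.nd (nat_lit 78) (nat_lit 608) (nat_lit 0) (XT.lf (nat_lit 0) (nat_lit 1553817390) (nat_lit 608) (nat_lit 1021242333) (nat_lit 76) (nat_lit 5905653875) (nat_lit 191) (nat_lit 5) (nat_lit 199) (nat_lit 5) (nat_lit 192) (nat_lit 5) (nat_lit 335) (nat_lit 304) (nat_lit 261)) (XT.lf (nat_lit 0) (nat_lit 3787953126) (nat_lit 684) (nat_lit 4469672518) (nat_lit 76) (nat_lit 337696894) (nat_lit 183) (nat_lit 5) (nat_lit 192) (nat_lit 5) (nat_lit 184) (nat_lit 5) (nat_lit 336) (nat_lit 304) (nat_lit 260)))) (XT.nd (nat_lit 156) (nat_lit 608) (nat_lit 0) (XT.nd (nat_lit 78) (nat_lit 0) (nat_lit 0) (XT.lf (nat_lit 0) (nat_lit 669034127)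 (nat_lit 532) (nat_lit 5413112291) (nat_lit 608) (nat_lit 2631469697) (nat_lit 176) (nat_lit 5) (nat_lit 183) (nat_lit 5) (nat_lit 184) (nat_lit 5) (nat_lit 337) (nat_lit 304) (nat_lit 259)) (XT.lf (nat_lit 0) (nat_lit 6000801269) (nat_lit 532) (nat_lit 2441120531) (nat_lit 608) (nat_lit 393670296) (nat_lit 176) (nat_lit 5) (nat_lit 183) (nat_lit 5) (nat_lit 184) (nat_lit 5) (nat_lit 338) (nat_lit 304) (nat_lit 258))) (XT.nd (nat_lit 78) (nat_lit 0) (nat_lit 0) (XT.lf (nat_lit 0) (nat_lit 1856959076) (nat_lit 608) (nat_lit 6458018632) (nat_lit 76) (nat_lit 646242933) (nat_lit 168) (nat_lit 5) (nat_lit 176) (nat_lit 5) (nat_lit 169) (nat_lit 5) (nat_lit 339) (nat_lit 304) (nat_lit 257)) (XT.lf (nat_lit 0) (nat_lit 4173641849) (nat_lit 608) (nat_lit 1111703214) (nat_lit 76) (nat_lit 3804995848) (nat_lit 168) (nat_lit 5) (nat_lit 176) (nat_lit 5) (nat_lit 169) (nat_lit 5) (nat_lit 340) (nat_lit 304) (nat_lit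 256)))))) (XT.nd (nat_lit 468) (nat_lit 1672) (nat_lit 0) (XT.nd (nat_lit 234) (nat_lit 912) (nat_lit 0) (XT.nd (nat_lit 78) (nat_lit 532) (nat_lit 0) (XT.lf (nat_lit 0) (nat_lit 4429952450) (nat_lit 456) (nat_lit 2127182415) (nat_lit 532) (nat_lit 2666312868) (nat_lit 162) (nat_lit 5) (nat_lit 168) (nat_lit 5) (nat_lit 169) (nat_lit 5) (nat_lit 341) (nat_lit 304) (nat_lit 255)) (XT.nd (nat_lit 78) (nat_lit 76) (nat_lit 0) (XT.lf (nat_lit 0) (nat_lit 751884847) (nat_lit 456) (nat_lit 8245125694) (nat_lit 532) (nat_lit 364022181) (nat_lit 156) (nat_lit 5) (nat_lit 162) (nat_lit 5) (nat_lit 163) (nat_lit 5) (nat_lit 342) (nat_lit 304) (nat_lit 254)) (XT.lf (nat_lit 0) (nat_lit 1993940249) (nat_lit 532) (nat_lit 3032927419) (nat_lit 76) (nat_lit 4474555021) (nat_lit 155) (nat_lit 5) (nat_lit 162) (nat_lit 5) (nat_lit 156) (nat_lit 5) (nat_lit 343) (nat_lit 304) (nat_lit 253)))) (XT.nd (nat_lit 78) (nat_lit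 456) (nat_lit 0) (XT.lf (nat_lit 0) (nat_lit 2708679705) (nat_lit 456) (nat_lit 1689797443) (nat_lit 532) (nat_lit 5247973163) (nat_lit 149) (nat_lit 5) (nat_lit 155) (nat_lit 5) (nat_lit 156) (nat_lit 5) (nat_lit 344) (nat_lit 304) (nat_lit 252)) (XT.nd (nat_lit 78) (nat_lit 456) (nat_lit 0) (XT.lf (nat_lit 0) (nat_lit 6880671774) (nat_lit 532) (nat_lit 1179162957) (nat_lit 76) (nat_lit 1735856190) (nat_lit 149) (nat_lit 5) (nat_lit 156) (nat_lit 5) (nat_lit 150) (nat_lit 5) (nat_lit 345) (nat_lit 304) (nat_lit 251)) (XT.lf (nat_lit 0) (nat_lit 4778365957) (nat_lit 456) (nat_lit 4680653634) (nat_lit 532) (nat_lit 489765536) (nat_lit 143) (nat_lit 5) (nat_lit 149) (nat_lit 5) (nat_lit 150) (nat_lit 5) (nat_lit 346) (nat_lit 304) (nat_lit 250))))) (XT.nd (nat_lit 234) (nat_lit 836) (nat_lit 0) (XT.nd (nat_lit 78) (nat_lit 380) (nat_lit 0) (XT.lf (nat_lit 0) (nat_lit 777740635) (nat_lit 380) (nat_lit 1170132192)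 (nat_lit 456) (nat_lit 8158681191) (nat_lit 137) (nat_lit 5) (nat_lit 142) (nat_lit 5) (nat_lit 143) (nat_lit 5) (nat_lit 347) (nat_lit 304) (nat_lit 249)) (XT.nd (nat_lit 78) (nat_lit 380) (nat_lit 0) (XT.lf (nat_lit 0) (nat_lit 4484952580) (nat_lit 456) (nat_lit 3337351675) (nat_lit 76) (nat_lit 2445546272) (nat_lit 137) (nat_lit 5) (nat_lit 143) (nat_lit 5) (nat_lit 138) (nat_lit 5) (nat_lit 348) (nat_lit 304) (nat_lit 248)) (XT.lf (nat_lit 0) (nat_lit 2827620153) (nat_lit 380) (nat_lit 4270376668) (nat_lit 456) (nat_lit 3336017536) (nat_lit 132) (nat_lit 5) (nat_lit 137) (nat_lit 5) (nat_lit 138) (nat_lit 5) (nat_lit 349) (nat_lit 304) (nat_lit 247)))) (XT.nd (nat_lit 156) (nat_lit 380) (nat_lit 0) (XT.nd (nat_lit 78) (nat_lit 456) (nat_lit 0) (XT.lf (nat_lit 0) (nat_lit 9196616741) (nat_lit 380) (nat_lit 588261339) (nat_lit 456) (nat_lit 820444940) (nat_lit 132) (nat_lit 5) (nat_lit 137) (nat_lit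 5) (nat_lit 138) (nat_lit 5) (nat_lit 350) (nat_lit 304) (nat_lit 246)) (XT.lf (nat_lit 0) (nat_lit 1777982938) (nat_lit 456) (nat_lit 5805377475) (nat_lit 76) (nat_lit 3196663716) (nat_lit 126) (nat_lit 5) (nat_lit 132) (nat_lit 5) (nat_lit 127) (nat_lit 5) (nat_lit 351) (nat_lit 304) (nat_lit 245))) (XT.nd (nat_lit 78) (nat_lit 0) (nat_lit 0) (XT.lf (nat_lit 0) (nat_lit 566594235) (nat_lit 380) (nat_lit 3859906774) (nat_lit 456) (nat_lit 6533584057) (nat_lit 121) (nat_lit 5) (nat_lit 126) (nat_lit 5) (nat_lit 127) (nat_lit 5) (nat_lit 352) (nat_lit 304) (nat_lit 244)) (XT.lf (nat_lit 0) (nat_lit 7176921735) (nat_lit 456) (nat_lit 3945125108) (nat_lit 76) (nat_lit 22848265) (nat_lit 121) (nat_lit 5) (nat_lit 127) (nat_lit 5) (nat_lit 122) (nat_lit 5) (nat_lit 353) (nat_lit 304) (nat_lit 243))))))) (XT.nd (nat_lit 1014) (nat_lit 1748) (nat_lit 0) (XT.nd (nat_lit 468) (nat_lit 1216) (nat_lit 0) (XT.nd (nat_lit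 234) (nat_lit 684) (nat_lit 0) (XT.nd (nat_lit 78) (nat_lit 456) (nat_lit 0) (XT.lf (nat_lit 0) (nat_lit 2662147935) (nat_lit 304) (nat_lit 7376059549) (nat_lit 380) (nat_lit 1296211487) (nat_lit 117) (nat_lit 5) (nat_lit 121) (nat_lit 5) (nat_lit 122) (nat_lit 5) (nat_lit 354) (nat_lit 304) (nat_lit 242)) (XT.nd (nat_lit 78) (nat_lit 380) (nat_lit 0) (XT.lf (nat_lit 0) (nat_lit 1432283691) (nat_lit 380) (nat_lit 2042832553) (nat_lit 76) (nat_lit 8053961855) (nat_lit 116) (nat_lit 5) (nat_lit 121) (nat_lit 5) (nat_lit 117) (nat_lit 5) (nat_lit 355) (nat_lit 304) (nat_lit 241)) (XT.lf (nat_lit 0) (nat_lit 4234370741) (nat_lit 456) (nat_lit 6914932971) (nat_lit 76) (nat_lit 579372973) (nat_lit 111) (nat_lit 5) (nat_lit 117) (nat_lit 5) (nat_lit 112) (nat_lit 5) (nat_lit 356) (nat_lit 304) (nat_lit 240)))) (XT.nd (nat_lit 78) (nat_lit 684) (nat_lit 0) (XT.lf (nat_lit 0) (nat_lit 7141964462) (nat_lit 456)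 (nat_lit 97912478) (nat_lit 76) (nat_lit 4693760816) (nat_lit 111) (nat_lit 5) (nat_lit 117) (nat_lit 5) (nat_lit 112) (nat_lit 5) (nat_lit 357) (nat_lit 304) (nat_lit 239)) (XT.nd (nat_lit 78) (nat_lit 380) (nat_lit 0) (XT.lf (nat_lit 0) (nat_lit 7014328285) (nat_lit 304) (nat_lit 3157072192) (nat_lit 380) (nat_lit 1972326077) (nat_lit 107) (nat_lit 5) (nat_lit 111) (nat_lit 5) (nat_lit 112) (nat_lit 5) (nat_lit 358) (nat_lit 304) (nat_lit 238)) (XT.lf (nat_lit 0) (nat_lit 910906525) (nat_lit 380) (nat_lit 10405624424) (nat_lit 76) (nat_lit 1043410232) (nat_lit 102) (nat_lit 5) (nat_lit 107) (nat_lit 5) (nat_lit 103) (nat_lit 5) (nat_lit 359) (nat_lit 304) (nat_lit 237))))) (XT.nd (nat_lit 234) (nat_lit 912) (nat_lit 0) (XT.nd (nat_lit 78) (nat_lit 304) (nat_lit 0) (XT.lf (nat_lit 0) (nat_lit 3892306947) (nat_lit 380) (nat_lit 3323466932) (nat_lit 76) (nat_lit 5364759008) (nat_lit 102) (nat_lit 5) (nat_lit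 107) (nat_lit 5) (nat_lit 103) (nat_lit 5) (nat_lit 360) (nat_lit 304) (nat_lit 236)) (XT.nd (nat_lit 78) (nat_lit 0) (nat_lit 0) (XT.lf (nat_lit 0) (nat_lit 4003877093) (nat_lit 304) (nat_lit 2966444273) (nat_lit 380) (nat_lit 5837221216) (nat_lit 98) (nat_lit 5) (nat_lit 102) (nat_lit 5) (nat_lit 103) (nat_lit 5) (nat_lit 361) (nat_lit 304) (nat_lit 235)) (XT.lf (nat_lit 0) (nat_lit 10157154659) (nat_lit 380) (nat_lit 1480843373) (nat_lit 76) (nat_lit 1402885132) (nat_lit 98) (nat_lit 5) (nat_lit 103) (nat_lit 5) (nat_lit 99) (nat_lit 5) (nat_lit 362) (nat_lit 304) (nat_lit 234)))) (XT.nd (nat_lit 156) (nat_lit 304) (nat_lit 0) (XT.nd (nat_lit 78) (nat_lit 228) (nat_lit 0) (XT.lf (nat_lit 0) (nat_lit 213844401) (nat_lit 380) (nat_lit 7174566297) (nat_lit 76) (nat_lit 5891024711) (nat_lit 93) (nat_lit 5) (nat_lit 98) (nat_lit 5) (nat_lit 94) (nat_lit 5) (nat_lit 363) (nat_lit 304) (nat_lit 233)) (XT.lf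 (nat_lit 0) (nat_lit 357481259) (nat_lit 228) (nat_lit 2977517420) (nat_lit 304) (nat_lit 10189644244) (nat_lit 90) (nat_lit 5) (nat_lit 93) (nat_lit 5) (nat_lit 94) (nat_lit 5) (nat_lit 364) (nat_lit 304) (nat_lit 232))) (XT.nd (nat_lit 78) (nat_lit 304) (nat_lit 0) (XT.lf (nat_lit 0) (nat_lit 6608386444) (nat_lit 304) (nat_lit 5573166048) (nat_lit 76) (nat_lit 1593909484) (nat_lit 90) (nat_lit 5) (nat_lit 94) (nat_lit 5) (nat_lit 91) (nat_lit 5) (nat_lit 365) (nat_lit 304) (nat_lit 231)) (XT.lf (nat_lit 0) (nat_lit 2218848471) (nat_lit 304) (nat_lit 7783181326) (nat_lit 380) (nat_lit 4031127081) (nat_lit 86) (nat_lit 5) (nat_lit 90) (nat_lit 5) (nat_lit 91) (nat_lit 5) (nat_lit 366) (nat_lit 304) (nat_lit 230)))))) (XT.nd (nat_lit 546) (nat_lit 684) (nat_lit 0) (XT.nd (nat_lit 234) (nat_lit 760) (nat_lit 0) (XT.nd (nat_lit 78) (nat_lit 304) (nat_lit 0) (XT.lf (nat_lit 0) (nat_lit 10315677179) (nat_lit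 304) (nat_lit 3209750338) (nat_lit 380) (nat_lit 772329276) (nat_lit 86) (nat_lit 5) (nat_lit 90) (nat_lit 5) (nat_lit 91) (nat_lit 5) (nat_lit 367) (nat_lit 304) (nat_lit 229)) (XT.nd (nat_lit 78) (nat_lit 0) (nat_lit 0) (XT.lf (nat_lit 0) (nat_lit 2560324732) (nat_lit 304) (nat_lit 10486396500) (nat_lit 76) (nat_lit 1522044440) (nat_lit 82) (nat_lit 5) (nat_lit 86) (nat_lit 5) (nat_lit 83) (nat_lit 5) (nat_lit 368) (nat_lit 304) (nat_lit 228)) (XT.lf (nat_lit 0) (nat_lit 6022296040) (nat_lit 304) (nat_lit 2458915792) (nat_lit 76) (nat_lit 6365129216) (nat_lit 82) (nat_lit 5) (nat_lit 86) (nat_lit 5) (nat_lit 83) (nat_lit 5) (nat_lit 369) (nat_lit 304) (nat_lit 227)))) (XT.nd (nat_lit 156) (nat_lit 532) (nat_lit 0) (XT.nd (nat_lit 78) (nat_lit 0) (nat_lit 0) (XT.lf (nat_lit 0) (nat_lit 5882654116) (nat_lit 228) (nat_lit 3735293535) (nat_lit 304) (nat_lit 5513412522) (nat_lit 79) (nat_lit 5) (nat_lit 82)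 (nat_lit 5) (nat_lit 83) (nat_lit 5) (nat_lit 370) (nat_lit 304) (nat_lit 226)) (XT.lf (nat_lit 0) (nat_lit 13331142872) (nat_lit 304) (nat_lit 952416610) (nat_lit 76) (nat_lit 1141090966) (nat_lit 79) (nat_lit 5) (nat_lit 83) (nat_lit 5) (nat_lit 80) (nat_lit 5) (nat_lit 371) (nat_lit 304) (nat_lit 225))) (XT.nd (nat_lit 78) (nat_lit 228) (nat_lit 0) (XT.lf (nat_lit 0) (nat_lit 1486888212) (nat_lit 304) (nat_lit 8073994926) (nat_lit 76) (nat_lit 6162881028) (nat_lit 75) (nat_lit 5) (nat_lit 79) (nat_lit 5) (nat_lit 76) (nat_lit 5) (nat_lit 372) (nat_lit 304) (nat_lit 224)) (XT.lf (nat_lit 0) (nat_lit 445161175) (nat_lit 228) (nat_lit 4675837123) (nat_lit 304) (nat_lit 10910589649) (nat_lit 72) (nat_lit 5) (nat_lit 75) (nat_lit 5) (nat_lit 76) (nat_lit 5) (nat_lit 373) (nat_lit 304) (nat_lit 223))))) (XT.nd (nat_lit 234) (nat_lit 380) (nat_lit 0) (XT.nd (nat_lit 78) (nat_lit 304) (nat_lit 0) (XT.lf (nat_lit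 0) (nat_lit 8924492404) (nat_lit 304) (nat_lit 7005934429) (nat_lit 76) (nat_lit 416418382) (nat_lit 72) (nat_lit 5) (nat_lit 76) (nat_lit 5) (nat_lit 73) (nat_lit 5) (nat_lit 374) (nat_lit 304) (nat_lit 222)) (XT.nd (nat_lit 78) (nat_lit 76) (nat_lit 0) (XT.lf (nat_lit 0) (nat_lit 1780708960) (nat_lit 228) (nat_lit 11100136967) (nat_lit 304) (nat_lit 3789560953) (nat_lit 69) (nat_lit 5) (nat_lit 72) (nat_lit 5) (nat_lit 73) (nat_lit 5) (nat_lit 375) (nat_lit 304) (nat_lit 221)) (XT.lf (nat_lit 0) (nat_lit 26218) (nat_lit 304) (nat_lit 6067052386) (nat_lit 76) (nat_lit 10935212978) (nat_lit 68) (nat_lit 5) (nat_lit 72) (nat_lit 5) (nat_lit 69) (nat_lit 5) (nat_lit 376) (nat_lit 304) (nat_lit 220)))) (XT.nd (nat_lit 156) (nat_lit 152) (nat_lit 0) (XT.nd (nat_lit 78) (nat_lit 0) (nat_lit 0) (XT.lf (nat_lit 0) (nat_lit 3002680461) (nat_lit 228) (nat_lit 829465718) (nat_lit 304) (nat_lit 13510719212) (nat_lit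 65) (nat_lit 5) (nat_lit 68) (nat_lit 5) (nat_lit 69) (nat_lit 5) (nat_lit 377) (nat_lit 304) (nat_lit 219)) (XT.lf (nat_lit 0) (nat_lit 7861318683) (nat_lit 304) (nat_lit 5306293185) (nat_lit 76) (nat_lit 4523590153) (nat_lit 65) (nat_lit 5) (nat_lit 69) (nat_lit 5) (nat_lit 66) (nat_lit 5) (nat_lit 378) (nat_lit 304) (nat_lit 218))) (XT.nd (nat_lit 78) (nat_lit 0) (nat_lit 0) (XT.lf (nat_lit 0) (nat_lit 4031342737) (nat_lit 152) (nat_lit 8004010029) (nat_lit 228) (nat_lit 6013924429) (nat_lit 63) (nat_lit 5) (nat_lit 65) (nat_lit 5) (nat_lit 66) (nat_lit 5) (nat_lit 379) (nat_lit 304) (nat_lit 217)) (XT.lf (nat_lit 0) (nat_lit 13720525349) (nat_lit 152) (nat_lit 2644997985) (nat_lit 228) (nat_lit 2051651627) (nat_lit 63) (nat_lit 5) (nat_lit 65) (nat_lit 5) (nat_lit 66) (nat_lit 5) (nat_lit 380) (nat_lit 304) (nat_lit 216))))))))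
noncomputable def xc117 : XT := (XT.nd (nat_lit 2028) (nat_lit 1216) (nat_lit 0) (XT.nd (nat_lit 1014) (nat_lit 836) (nat_lit 0) (XT.nd (nat_lit 468) (nat_lit 684) (nat_lit 0) (XT.nd (nat_lit 234) (nat_lit 228) (nat_lit 0) (XT.nd (nat_lit 78) (nat_lit 152) (nat_lit 0) (XT.lf (nat_lit 0) (nat_lit 2043342487) (nat_lit 304) (nat_lit 13878398791) (nat_lit 76) (nat_lit 2872186803) (nat_lit 59) (nat_lit 5) (nat_lit 63) (nat_lit 5) (nat_lit 60) (nat_lit 5) (nat_lit 381) (nat_lit 304) (nat_lit 215)) (XT.nd (nat_lit 78) (nat_lit 152) (nat_lit 0) (XT.lf (nat_lit 0) (nat_lit 6271961507) (nat_lit 304) (nat_lit 4352066304) (nat_lit 76) (nat_lit 8555793382) (nat_lit 59) (nat_lit 5) (nat_lit 63) (nat_lit 5) (nat_lit 60) (nat_lit 5) (nat_lit 382) (nat_lit 304) (nat_lit 214)) (XT.lf (nat_lit 0) (nat_lit 5532199054) (nat_lit 152) (nat_lit 5126988464) (nat_lit 228) (nat_lit 8917158061) (nat_lit 57) (nat_lit 5) (nat_lit 59)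 (nat_lit 5) (nat_lit 60) (nat_lit 5) (nat_lit 383) (nat_lit 304) (nat_lit 213)))) (XT.nd (nat_lit 78) (nat_lit 228) (nat_lit 0) (XT.lf (nat_lit 0) (nat_lit 15206270446) (nat_lit 228) (nat_lit 4222782033) (nat_lit 76) (nat_lit 554872743) (nat_lit 57) (nat_lit 5) (nat_lit 60) (nat_lit 5) (nat_lit 58) (nat_lit 5) (nat_lit 384) (nat_lit 304) (nat_lit 212)) (XT.nd (nat_lit 78) (nat_lit 76) (nat_lit 0) (XT.lf (nat_lit 0) (nat_lit 5923127421) (nat_lit 152) (nat_lit 14053672665) (nat_lit 228) (nat_lit 424327675) (nat_lit 55) (nat_lit 5) (nat_lit 57) (nat_lit 5) (nat_lit 58) (nat_lit 5) (nat_lit 385) (nat_lit 304) (nat_lit 211)) (XT.lf (nat_lit 0) (nat_lit 4002842486) (nat_lit 228) (nat_lit 4444024778) (nat_lit 76) (nat_lit 12382140751) (nat_lit 54) (nat_lit 5) (nat_lit 57) (nat_lit 5) (nat_lit 55) (nat_lit 5) (nat_lit 386) (nat_lit 304) (nat_lit 210))))) (XT.nd (nat_lit 234) (nat_lit 380) (nat_lit 0) (XT.nd (nat_lit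 78) (nat_lit 152) (nat_lit 0) (XT.lf (nat_lit 0) (nat_lit 5969280899) (nat_lit 152) (nat_lit 2622395400) (nat_lit 228) (nat_lit 12676807005) (nat_lit 52) (nat_lit 5) (nat_lit 54) (nat_lit 5) (nat_lit 55) (nat_lit 5) (nat_lit 387) (nat_lit 304) (nat_lit 209)) (XT.nd (nat_lit 78) (nat_lit 152) (nat_lit 0) (XT.lf (nat_lit 0) (nat_lit 13376077815) (nat_lit 228) (nat_lit 5000718556) (nat_lit 76) (nat_lit 3342615205) (nat_lit 52) (nat_lit 5) (nat_lit 55) (nat_lit 5) (nat_lit 53) (nat_lit 5) (nat_lit 388) (nat_lit 304) (nat_lit 208)) (XT.lf (nat_lit 0) (nat_lit 5658056208) (nat_lit 152) (nat_lit 12707009599) (nat_lit 228) (nat_lit 3816975893) (nat_lit 50) (nat_lit 5) (nat_lit 52) (nat_lit 5) (nat_lit 53) (nat_lit 5) (nat_lit 389) (nat_lit 304) (nat_lit 207)))) (XT.nd (nat_lit 156) (nat_lit 152) (nat_lit 0) (XT.nd (nat_lit 78) (nat_lit 152) (nat_lit 0) (XT.lf (nat_lit 0) (nat_lit 860432158) (nat_lit 228) (nat_lit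 5959728144) (nat_lit 76) (nat_lit 15837199455) (nat_lit 49) (nat_lit 5) (nat_lit 52) (nat_lit 5) (nat_lit 50) (nat_lit 5) (nat_lit 390) (nat_lit 304) (nat_lit 206)) (XT.lf (nat_lit 0) (nat_lit 4948012721) (nat_lit 152) (nat_lit 682310556) (nat_lit 228) (nat_lit 17514619133) (nat_lit 47) (nat_lit 5) (nat_lit 49) (nat_lit 5) (nat_lit 50) (nat_lit 5) (nat_lit 391) (nat_lit 304) (nat_lit 205))) (XT.nd (nat_lit 78) (nat_lit 152) (nat_lit 0) (XT.lf (nat_lit 0) (nat_lit 10639723952) (nat_lit 228) (nat_lit 7427319936) (nat_lit 76) (nat_lit 5577221276) (nat_lit 47) (nat_lit 5) (nat_lit 50) (nat_lit 5) (nat_lit 48) (nat_lit 5) (nat_lit 392) (nat_lit 304) (nat_lit 204)) (XT.lf (nat_lit 0) (nat_lit 3699433800) (nat_lit 152) (nat_lit 12124254078) (nat_lit 228) (nat_lit 8334156149) (nat_lit 45) (nat_lit 5) (nat_lit 47) (nat_lit 5) (nat_lit 48) (nat_lit 5) (nat_lit 393) (nat_lit 304) (nat_lit 203)))))) (XT.nd (nat_lit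 468) (nat_lit 456) (nat_lit 0) (XT.nd (nat_lit 234) (nat_lit 152) (nat_lit 0) (XT.nd (nat_lit 78) (nat_lit 228) (nat_lit 0) (XT.lf (nat_lit 0) (nat_lit 15281172517) (nat_lit 152) (nat_lit 5939190672) (nat_lit 228) (nat_lit 3464756013) (nat_lit 45) (nat_lit 5) (nat_lit 47) (nat_lit 5) (nat_lit 48) (nat_lit 5) (nat_lit 394) (nat_lit 304) (nat_lit 202)) (XT.nd (nat_lit 78) (nat_lit 0) (nat_lit 0) (XT.lf (nat_lit 0) (nat_lit 1526344755) (nat_lit 228) (nat_lit 23256810084) (nat_lit 76) (nat_lit 444438679) (nat_lit 42) (nat_lit 5) (nat_lit 45) (nat_lit 5) (nat_lit 43) (nat_lit 5) (nat_lit 395) (nat_lit 304) (nat_lit 201)) (XT.lf (nat_lit 0) (nat_lit 6734873562) (nat_lit 228) (nat_lit 12028630046) (nat_lit 76) (nat_lit 7017693644) (nat_lit 42) (nat_lit 5) (nat_lit 45) (nat_lit 5) (nat_lit 43) (nat_lit 5) (nat_lit 396) (nat_lit 304) (nat_lit 200)))) (XT.nd (nat_lit 78) (nat_lit 152) (nat_lit 0) (XT.lf (nat_lit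 0) (nat_lit 12082791901) (nat_lit 228) (nat_lit 493328273) (nat_lit 76) (nat_lit 13775799109) (nat_lit 42) (nat_lit 5) (nat_lit 45) (nat_lit 5) (nat_lit 43) (nat_lit 5) (nat_lit 397) (nat_lit 304) (nat_lit 199)) (XT.nd (nat_lit 78) (nat_lit 0) (nat_lit 0) (XT.lf (nat_lit 0) (nat_lit 11585244472) (nat_lit 152) (nat_lit 6100892694) (nat_lit 228) (nat_lit 9250780199) (nat_lit 40) (nat_lit 5) (nat_lit 42) (nat_lit 5) (nat_lit 43) (nat_lit 5) (nat_lit 398) (nat_lit 304) (nat_lit 198)) (XT.lf (nat_lit 0) (nat_lit 23451787378) (nat_lit 228) (nat_lit 3537488693) (nat_lit 76) (nat_lit 550367132) (nat_lit 40) (nat_lit 5) (nat_lit 43) (nat_lit 5) (nat_lit 41) (nat_lit 4) (nat_lit 399) (nat_lit 304) (nat_lit 197))))) (XT.nd (nat_lit 234) (nat_lit 152) (nat_lit 0) (XT.nd (nat_lit 78) (nat_lit 152) (nat_lit 0) (XT.lf (nat_lit 0) (nat_lit 1335560805) (nat_lit 152) (nat_lit 19457069179) (nat_lit 76) (nat_lit 7363581706)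 (nat_lit 38) (nat_lit 5) (nat_lit 40) (nat_lit 5) (nat_lit 39) (nat_lit 5) (nat_lit 400) (nat_lit 304) (nat_lit 196)) (XT.nd (nat_lit 78) (nat_lit 152) (nat_lit 0) (XT.lf (nat_lit 0) (nat_lit 6859810823) (nat_lit 152) (nat_lit 7483789463) (nat_lit 76) (nat_lit 14445857565) (nat_lit 38) (nat_lit 5) (nat_lit 40) (nat_lit 5) (nat_lit 39) (nat_lit 5) (nat_lit 401) (nat_lit 304) (nat_lit 195)) (XT.lf (nat_lit 0) (nat_lit 4917318892) (nat_lit 152) (nat_lit 7664414777) (nat_lit 228) (nat_lit 16859012880) (nat_lit 36) (nat_lit 5) (nat_lit 38) (nat_lit 5) (nat_lit 39) (nat_lit 5) (nat_lit 402) (nat_lit 304) (nat_lit 194)))) (XT.nd (nat_lit 156) (nat_lit 76) (nat_lit 0) (XT.nd (nat_lit 78) (nat_lit 76) (nat_lit 0) (XT.lf (nat_lit 0) (nat_lit 17816814377) (nat_lit 152) (nat_lit 718934690) (nat_lit 228) (nat_lit 11574015205) (nat_lit 36) (nat_lit 5) (nat_lit 38) (nat_lit 5) (nat_lit 39) (nat_lit 5) (nat_lit 403) (nat_lit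 304) (nat_lit 193)) (XT.lf (nat_lit 0) (nat_lit 220283065) (nat_lit 76) (nat_lit 24497268548) (nat_lit 152) (nat_lit 6079829224) (nat_lit 35) (nat_lit 5) (nat_lit 36) (nat_lit 5) (nat_lit 37) (nat_lit 4) (nat_lit 404) (nat_lit 304) (nat_lit 192))) (XT.nd (nat_lit 78) (nat_lit 76) (nat_lit 0) (XT.lf (nat_lit 0) (nat_lit 13327306042) (nat_lit 76) (nat_lit 17874056235) (nat_lit 152) (nat_lit 300770214) (nat_lit 35) (nat_lit 5) (nat_lit 36) (nat_lit 5) (nat_lit 37) (nat_lit 4) (nat_lit 405) (nat_lit 304) (nat_lit 191)) (XT.lf (nat_lit 0) (nat_lit 5527029690) (nat_lit 152) (nat_lit 5480676123) (nat_lit 76) (nat_lit 21219124495) (nat_lit 34) (nat_lit 5) (nat_lit 36) (nat_lit 5) (nat_lit 35) (nat_lit 5) (nat_lit 406) (nat_lit 304) (nat_lit 190))))))) (XT.nd (nat_lit 1014) (nat_lit 456) (nat_lit 0) (XT.nd (nat_lit 468) (nat_lit 304) (nat_lit 0) (XT.nd (nat_lit 234) (nat_lit 228) (nat_lit 0) (XT.nd (nat_lit 78)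 (nat_lit 76) (nat_lit 0) (XT.lf (nat_lit 0) (nat_lit 7716794589) (nat_lit 152) (nat_lit 3867073611) (nat_lit 228) (nat_lit 21387506968) (nat_lit 32) (nat_lit 5) (nat_lit 34) (nat_lit 5) (nat_lit 35) (nat_lit 5) (nat_lit 407) (nat_lit 304) (nat_lit 189)) (XT.nd (nat_lit 78) (nat_lit 76) (nat_lit 0) (XT.lf (nat_lit 0) (nat_lit 17897961797) (nat_lit 228) (nat_lit 12373304262) (nat_lit 76) (nat_lit 3464726674) (nat_lit 32) (nat_lit 5) (nat_lit 35) (nat_lit 5) (nat_lit 33) (nat_lit 4) (nat_lit 408) (nat_lit 304) (nat_lit 188)) (XT.lf (nat_lit 0) (nat_lit 848236275) (nat_lit 76) (nat_lit 23586218729) (nat_lit 152) (nat_lit 10088107287) (nat_lit 31) (nat_lit 5) (nat_lit 32) (nat_lit 5) (nat_lit 33) (nat_lit 4) (nat_lit 409) (nat_lit 304) (nat_lit 187)))) (XT.nd (nat_lit 78) (nat_lit 228) (nat_lit 0) (XT.lf (nat_lit 0) (nat_lit 14695864871) (nat_lit 76) (nat_lit 16582818996) (nat_lit 152) (nat_lit 4050698537)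 (nat_lit 31) (nat_lit 5) (nat_lit 32) (nat_lit 5) (nat_lit 33) (nat_lit 4) (nat_lit 410) (nat_lit 304) (nat_lit 186)) (XT.nd (nat_lit 78) (nat_lit 152) (nat_lit 0) (XT.lf (nat_lit 0) (nat_lit 2112482072) (nat_lit 152) (nat_lit 7246079496) (nat_lit 76) (nat_lit 26801614378) (nat_lit 30) (nat_lit 5) (nat_lit 32) (nat_lit 5) (nat_lit 31) (nat_lit 5) (nat_lit 411) (nat_lit 304) (nat_lit 185)) (XT.lf (nat_lit 0) (nat_lit 6608772469) (nat_lit 152) (nat_lit 1821230026) (nat_lit 228) (nat_lit 28583164303) (nat_lit 28) (nat_lit 5) (nat_lit 30) (nat_lit 5) (nat_lit 31) (nat_lit 5) (nat_lit 412) (nat_lit 304) (nat_lit 184))))) (XT.nd (nat_lit 234) (nat_lit 228) (nat_lit 0) (XT.nd (nat_lit 78) (nat_lit 76) (nat_lit 0) (XT.lf (nat_lit 0) (nat_lit 15055446568) (nat_lit 228) (nat_lit 16942706332) (nat_lit 76) (nat_lit 5890044926) (nat_lit 28) (nat_lit 5) (nat_lit 31) (nat_lit 5) (nat_lit 29) (nat_lit 4) (nat_lit 413)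 (nat_lit 304) (nat_lit 183)) (XT.nd (nat_lit 78) (nat_lit 76) (nat_lit 0) (XT.lf (nat_lit 0) (nat_lit 21885435559) (nat_lit 228) (nat_lit 3117643246) (nat_lit 76) (nat_lit 13786229853) (nat_lit 28) (nat_lit 5) (nat_lit 31) (nat_lit 5) (nat_lit 29) (nat_lit 4) (nat_lit 414) (nat_lit 304) (nat_lit 182)) (XT.lf (nat_lit 0) (nat_lit 11321301223) (nat_lit 76) (nat_lit 17695956695) (nat_lit 152) (nat_lit 10697289141) (nat_lit 27) (nat_lit 5) (nat_lit 28) (nat_lit 5) (nat_lit 29) (nat_lit 4) (nat_lit 415) (nat_lit 304) (nat_lit 181)))) (XT.nd (nat_lit 156) (nat_lit 152) (nat_lit 0) (XT.nd (nat_lit 78) (nat_lit 76) (nat_lit 0) (XT.lf (nat_lit 0) (nat_lit 26235746410) (nat_lit 76) (nat_lit 10147016057) (nat_lit 152) (nat_lit 4284190508) (nat_lit 27) (nat_lit 5) (nat_lit 28) (nat_lit 5) (nat_lit 29) (nat_lit 4) (nat_lit 416) (nat_lit 304) (nat_lit 180)) (XT.lf (nat_lit 0) (nat_lit 2264476863) (nat_lit 152) (nat_lit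 93799175) (nat_lit 76) (nat_lit 39289333499) (nat_lit 26) (nat_lit 5) (nat_lit 28) (nat_lit 5) (nat_lit 27) (nat_lit 5) (nat_lit 417) (nat_lit 304) (nat_lit 179))) (XT.nd (nat_lit 78) (nat_lit 0) (nat_lit 0) (XT.lf (nat_lit 0) (nat_lit 9111742579) (nat_lit 228) (nat_lit 27807116054) (nat_lit 76) (nat_lit 5731909245) (nat_lit 24) (nat_lit 5) (nat_lit 27) (nat_lit 5) (nat_lit 25) (nat_lit 4) (nat_lit 418) (nat_lit 304) (nat_lit 178)) (XT.lf (nat_lit 0) (nat_lit 16177581424) (nat_lit 228) (nat_lit 13496807270) (nat_lit 76) (nat_lit 14009239564) (nat_lit 24) (nat_lit 5) (nat_lit 27) (nat_lit 5) (nat_lit 25) (nat_lit 4) (nat_lit 419) (nat_lit 304) (nat_lit 177)))))) (XT.nd (nat_lit 546) (nat_lit 228) (nat_lit 0) (XT.nd (nat_lit 234) (nat_lit 152) (nat_lit 0) (XT.nd (nat_lit 78) (nat_lit 0) (nat_lit 0) (XT.lf (nat_lit 0) (nat_lit 1247141943) (nat_lit 76) (nat_lit 22209415885) (nat_lit 152) (nat_lit 21290883639)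 (nat_lit 23) (nat_lit 5) (nat_lit 24) (nat_lit 5) (nat_lit 25) (nat_lit 4) (nat_lit 420) (nat_lit 304) (nat_lit 176)) (XT.nd (nat_lit 78) (nat_lit 0) (nat_lit 0) (XT.lf (nat_lit 0) (nat_lit 16690272013) (nat_lit 76) (nat_lit 14389221803) (nat_lit 152) (nat_lit 14759909379) (nat_lit 23) (nat_lit 5) (nat_lit 24) (nat_lit 5) (nat_lit 25) (nat_lit 4) (nat_lit 421) (nat_lit 304) (nat_lit 175)) (XT.lf (nat_lit 0) (nat_lit 32577464008) (nat_lit 76) (nat_lit 6343264560) (nat_lit 152) (nat_lit 8043708667) (nat_lit 23) (nat_lit 5) (nat_lit 24) (nat_lit 5) (nat_lit 25) (nat_lit 4) (nat_lit 422) (nat_lit 304) (nat_lit 174)))) (XT.nd (nat_lit 156) (nat_lit 0) (nat_lit 0) (XT.nd (nat_lit 78) (nat_lit 76) (nat_lit 0) (XT.lf (nat_lit 0) (nat_lit 796001083) (nat_lit 76) (nat_lit 46217369290) (nat_lit 76) (nat_lit 1109368550) (nat_lit 22) (nat_lit 4) (nat_lit 23) (nat_lit 5) (nat_lit 23) (nat_lit 4) (nat_lit 423) (nat_lit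 304) (nat_lit 173)) (XT.lf (nat_lit 0) (nat_lit 6114645349) (nat_lit 152) (nat_lit 32723195816) (nat_lit 76) (nat_lit 10470229263) (nat_lit 21) (nat_lit 5) (nat_lit 23) (nat_lit 5) (nat_lit 22) (nat_lit 4) (nat_lit 424) (nat_lit 304) (nat_lit 172))) (XT.nd (nat_lit 78) (nat_lit 0) (nat_lit 0) (XT.lf (nat_lit 0) (nat_lit 13523224142) (nat_lit 152) (nat_lit 17710892649) (nat_lit 76) (nat_lit 19294812902) (nat_lit 21) (nat_lit 5) (nat_lit 23) (nat_lit 5) (nat_lit 22) (nat_lit 4) (nat_lit 425) (nat_lit 304) (nat_lit 171)) (XT.lf (nat_lit 0) (nat_lit 21144489119) (nat_lit 152) (nat_lit 2266046865) (nat_lit 76) (nat_lit 28376167424) (nat_lit 21) (nat_lit 5) (nat_lit 23) (nat_lit 5) (nat_lit 22) (nat_lit 4) (nat_lit 426) (nat_lit 304) (nat_lit 170))))) (XT.nd (nat_lit 234) (nat_lit 152) (nat_lit 0) (XT.nd (nat_lit 78) (nat_lit 0) (nat_lit 0) (XT.lf (nat_lit 0) (nat_lit 13895998005) (nat_lit 76) (nat_lit 15222678466)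 (nat_lit 152) (nat_lit 23959806819) (nat_lit 20) (nat_lit 5) (nat_lit 21) (nat_lit 5) (nat_lit 22) (nat_lit 4) (nat_lit 427) (nat_lit 304) (nat_lit 169)) (XT.nd (nat_lit 78) (nat_lit 0) (nat_lit 0) (XT.lf (nat_lit 0) (nat_lit 30572218381) (nat_lit 76) (nat_lit 6773567202) (nat_lit 152) (nat_lit 17062821549) (nat_lit 20) (nat_lit 5) (nat_lit 21) (nat_lit 5) (nat_lit 22) (nat_lit 4) (nat_lit 428) (nat_lit 304) (nat_lit 168)) (XT.lf (nat_lit 0) (nat_lit 45829257737) (nat_lit 152) (nat_lit 8065285413) (nat_lit 0) (nat_lit 1883806453) (nat_lit 20) (nat_lit 5) (nat_lit 22) (nat_lit 4) (nat_lit 20) (nat_lit 4) (nat_lit 429) (nat_lit 304) (nat_lit 167)))) (XT.nd (nat_lit 156) (nat_lit 0) (nat_lit 0) (XT.nd (nat_lit 78) (nat_lit 76) (nat_lit 0) (XT.lf (nat_lit 0) (nat_lit 8256660277) (nat_lit 76) (nat_lit 46448275675) (nat_lit 76) (nat_lit 2480118700) (nat_lit 19) (nat_lit 4) (nat_lit 20) (nat_lit 5) (nat_lit 20)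 (nat_lit 4) (nat_lit 430) (nat_lit 304) (nat_lit 166)) (XT.lf (nat_lit 0) (nat_lit 5184731471) (nat_lit 152) (nat_lit 33465196448) (nat_lit 76) (nat_lit 19980325005) (nat_lit 18) (nat_lit 5) (nat_lit 20) (nat_lit 5) (nat_lit 19) (nat_lit 4) (nat_lit 431) (nat_lit 304) (nat_lit 165))) (XT.nd (nat_lit 78) (nat_lit 0) (nat_lit 0) (XT.lf (nat_lit 0) (nat_lit 13021213964) (nat_lit 152) (nat_lit 17578539278) (nat_lit 76) (nat_lit 29518572438) (nat_lit 18) (nat_lit 5) (nat_lit 20) (nat_lit 5) (nat_lit 19) (nat_lit 4) (nat_lit 432) (nat_lit 304) (nat_lit 164)) (XT.lf (nat_lit 0) (nat_lit 21084572238) (nat_lit 152) (nat_lit 1230700905) (nat_lit 76) (nat_lit 39336015248) (nat_lit 18) (nat_lit 5) (nat_lit 20) (nat_lit 5) (nat_lit 19) (nat_lit 4) (nat_lit 433) (nat_lit 304) (nat_lit 163))))))))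
noncomputable def xc118 : XT := (XT.nd (nat_lit 37908) (nat_lit 0) (nat_lit 10260) (XT.nd (nat_lit 36894) (nat_lit 0) (nat_lit 22268) (XT.nd (nat_lit 468) (nat_lit 76) (nat_lit 0) (XT.nd (nat_lit 234) (nat_lit 152) (nat_lit 0) (XT.nd (nat_lit 78) (nat_lit 0) (nat_lit 0) (XT.lf (nat_lit 0) (nat_lit 15902926567) (nat_lit 76) (nat_lit 13631794038) (nat_lit 152) (nat_lit 33691173876) (nat_lit 17) (nat_lit 5) (nat_lit 18) (nat_lit 5) (nat_lit 19) (nat_lit 4) (nat_lit 434) (nat_lit 304) (nat_lit 162)) (XT.nd (nat_lit 78) (nat_lit 0) (nat_lit 0) (XT.lf (nat_lit 0) (nat_lit 33560968357) (nat_lit 76) (nat_lit 4681943341) (nat_lit 152) (nat_lit 26604692049) (nat_lit 17) (nat_lit 5) (nat_lit 18) (nat_lit 5) (nat_lit 19) (nat_lit 4) (nat_lit 435) (nat_lit 304) (nat_lit 161)) (XT.lf (nat_lit 0) (nat_lit 47248230895) (nat_lit 152) (nat_lit 14827376703) (nat_lit 0) (nat_lit 4441281331) (nat_lit 17) (nat_lit 5) (nat_lit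 19) (nat_lit 4) (nat_lit 17) (nat_lit 4) (nat_lit 436) (nat_lit 304) (nat_lit 160)))) (XT.nd (nat_lit 78) (nat_lit 76) (nat_lit 0) (XT.lf (nat_lit 0) (nat_lit 2106271679) (nat_lit 76) (nat_lit 54476541305) (nat_lit 76) (nat_lit 11651667660) (nat_lit 16) (nat_lit 4) (nat_lit 17) (nat_lit 5) (nat_lit 17) (nat_lit 4) (nat_lit 437) (nat_lit 304) (nat_lit 159)) (XT.nd (nat_lit 78) (nat_lit 76) (nat_lit 0) (XT.lf (nat_lit 0) (nat_lit 19837881620) (nat_lit 76) (nat_lit 46501862921) (nat_lit 76) (nat_lit 3659587253) (nat_lit 16) (nat_lit 4) (nat_lit 17) (nat_lit 5) (nat_lit 17) (nat_lit 4) (nat_lit 438) (nat_lit 304) (nat_lit 158)) (XT.lf (nat_lit 0) (nat_lit 4475762669) (nat_lit 152) (nat_lit 33773372613) (nat_lit 76) (nat_lit 33566893794) (nat_lit 15) (nat_lit 5) (nat_lit 17) (nat_lit 5) (nat_lit 16) (nat_lit 4) (nat_lit 439) (nat_lit 304) (nat_lit 157))))) (XT.nd (nat_lit 234) (nat_lit 0) (nat_lit 0) (XT.nd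 (nat_lit 78) (nat_lit 76) (nat_lit 0) (XT.lf (nat_lit 0) (nat_lit 12774559088) (nat_lit 152) (nat_lit 16943218958) (nat_lit 76) (nat_lit 43968574981) (nat_lit 15) (nat_lit 5) (nat_lit 17) (nat_lit 5) (nat_lit 16) (nat_lit 4) (nat_lit 440) (nat_lit 304) (nat_lit 156)) (XT.nd (nat_lit 78) (nat_lit 0) (nat_lit 0) (XT.lf (nat_lit 0) (nat_lit 386435695) (nat_lit 76) (nat_lit 20932744067) (nat_lit 152) (nat_lit 54293702051) (nat_lit 14) (nat_lit 5) (nat_lit 15) (nat_lit 5) (nat_lit 16) (nat_lit 4) (nat_lit 441) (nat_lit 304) (nat_lit 155)) (XT.lf (nat_lit 0) (nat_lit 18570481907) (nat_lit 76) (nat_lit 11713972575) (nat_lit 152) (nat_lit 47307823418) (nat_lit 14) (nat_lit 5) (nat_lit 15) (nat_lit 5) (nat_lit 16) (nat_lit 4) (nat_lit 442) (nat_lit 304) (nat_lit 154)))) (XT.nd (nat_lit 156) (nat_lit 0) (nat_lit 0) (XT.nd (nat_lit 78) (nat_lit 0) (nat_lit 0) (XT.lf (nat_lit 0) (nat_lit 37287605372) (nat_lit 76)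 (nat_lit 2224501624) (nat_lit 152) (nat_lit 40119147166) (nat_lit 14) (nat_lit 5) (nat_lit 15) (nat_lit 5) (nat_lit 16) (nat_lit 4) (nat_lit 443) (nat_lit 304) (nat_lit 153)) (XT.lf (nat_lit 0) (nat_lit 49082717462) (nat_lit 152) (nat_lit 25249948531) (nat_lit 0) (nat_lit 7396750715) (nat_lit 14) (nat_lit 5) (nat_lit 16) (nat_lit 4) (nat_lit 14) (nat_lit 4) (nat_lit 444) (nat_lit 304) (nat_lit 152))) (XT.nd (nat_lit 35958) (nat_lit 0) (nat_lit 24472) (XT.lf (nat_lit 0) (nat_lit 58956215176) (nat_lit 152) (nat_lit 7677325599) (nat_lit 0) (nat_lit 17256511112) (nat_lit 14) (nat_lit 5) (nat_lit 16) (nat_lit 4) (nat_lit 14) (nat_lit 4) (nat_lit 445) (nat_lit 304) (nat_lit 151)) (XT.lf (nat_lit 0) (nat_lit 402227166) (nat_lit 0) (nat_lit 402227166) (nat_lit 380) (nat_lit 2470658313) (nat_lit 336) (nat_lit 5) (nat_lit 336) (nat_lit 3) (nat_lit 341) (nat_lit 3) (nat_lit 305) (nat_lit 305) (nat_lit 290)))))) (XT.nd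 (nat_lit 468) (nat_lit 1216) (nat_lit 0) (XT.nd (nat_lit 234) (nat_lit 532) (nat_lit 0) (XT.nd (nat_lit 78) (nat_lit 456) (nat_lit 0) (XT.lf (nat_lit 0) (nat_lit 3967111133) (nat_lit 0) (nat_lit 78345026) (nat_lit 380) (nat_lit 2527705653) (nat_lit 336) (nat_lit 5) (nat_lit 336) (nat_lit 3) (nat_lit 341) (nat_lit 3) (nat_lit 306) (nat_lit 305) (nat_lit 289)) (XT.nd (nat_lit 78) (nat_lit 456) (nat_lit 0) (XT.lf (nat_lit 76) (nat_lit 582321494) (nat_lit 0) (nat_lit 5891115059) (nat_lit 456) (nat_lit 125914694) (nat_lit 337) (nat_lit 5) (nat_lit 336) (nat_lit 5) (nat_lit 342) (nat_lit 5) (nat_lit 307) (nat_lit 305) (nat_lit 288)) (XT.lf (nat_lit 0) (nat_lit 2237002280) (nat_lit 456) (nat_lit 2781297104) (nat_lit 532) (nat_lit 1609411539) (nat_lit 330) (nat_lit 5) (nat_lit 336) (nat_lit 5) (nat_lit 337) (nat_lit 5) (nat_lit 308) (nat_lit 305) (nat_lit 287)))) (XT.nd (nat_lit 78) (nat_lit 532) (nat_lit 0) (XT.lf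 (nat_lit 76) (nat_lit 509800588) (nat_lit 0) (nat_lit 4073605649) (nat_lit 532) (nat_lit 2076129008) (nat_lit 331) (nat_lit 5) (nat_lit 330) (nat_lit 5) (nat_lit 337) (nat_lit 5) (nat_lit 309) (nat_lit 305) (nat_lit 286)) (XT.nd (nat_lit 78) (nat_lit 0) (nat_lit 0) (XT.lf (nat_lit 0) (nat_lit 241640531) (nat_lit 532) (nat_lit 2789840939) (nat_lit 608) (nat_lit 3662650347) (nat_lit 323) (nat_lit 5) (nat_lit 330) (nat_lit 5) (nat_lit 331) (nat_lit 5) (nat_lit 310) (nat_lit 305) (nat_lit 285)) (XT.lf (nat_lit 76) (nat_lit 611966989) (nat_lit 0) (nat_lit 1895108105) (nat_lit 608) (nat_lit 4224574957) (nat_lit 324) (nat_lit 5) (nat_lit 323) (nat_lit 5) (nat_lit 331) (nat_lit 5) (nat_lit 311) (nat_lit 305) (nat_lit 284))))) (XT.nd (nat_lit 234) (nat_lit 684) (nat_lit 0) (XT.nd (nat_lit 78) (nat_lit 532) (nat_lit 0) (XT.lf (nat_lit 76) (nat_lit 4123242441) (nat_lit 0) (nat_lit 661406684) (nat_lit 608) (nat_lit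 1987412849) (nat_lit 324) (nat_lit 5) (nat_lit 323) (nat_lit 5) (nat_lit 331) (nat_lit 5) (nat_lit 312) (nat_lit 305) (nat_lit 283)) (XT.nd (nat_lit 78) (nat_lit 0) (nat_lit 0) (XT.lf (nat_lit 0) (nat_lit 243078366) (nat_lit 608) (nat_lit 5931737849) (nat_lit 684) (nat_lit 640894813) (nat_lit 316) (nat_lit 5) (nat_lit 324) (nat_lit 5) (nat_lit 325) (nat_lit 5) (nat_lit 313) (nat_lit 305) (nat_lit 282)) (XT.lf (nat_lit 0) (nat_lit 2453877656) (nat_lit 608) (nat_lit 2361672802) (nat_lit 684) (nat_lit 2046014130) (nat_lit 316) (nat_lit 5) (nat_lit 324) (nat_lit 5) (nat_lit 325) (nat_lit 5) (nat_lit 314) (nat_lit 305) (nat_lit 281)))) (XT.nd (nat_lit 156) (nat_lit 684) (nat_lit 0) (XT.nd (nat_lit 78) (nat_lit 0) (nat_lit 0) (XT.lf (nat_lit 76) (nat_lit 1289825673) (nat_lit 0) (nat_lit 3375687506) (nat_lit 684) (nat_lit 2245328223) (nat_lit 317) (nat_lit 5) (nat_lit 316) (nat_lit 5) (nat_lit 325) (nat_lit 5)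 (nat_lit 315) (nat_lit 305) (nat_lit 280)) (XT.lf (nat_lit 76) (nat_lit 5048941823) (nat_lit 0) (nat_lit 1842302516) (nat_lit 684) (nat_lit 72000383) (nat_lit 317) (nat_lit 5) (nat_lit 316) (nat_lit 5) (nat_lit 325) (nat_lit 5) (nat_lit 316) (nat_lit 305) (nat_lit 279))) (XT.nd (nat_lit 78) (nat_lit 0) (nat_lit 76) (XT.lf (nat_lit 76) (nat_lit 1868817099) (nat_lit 0) (nat_lit 198704254) (nat_lit 760) (nat_lit 4950851855) (nat_lit 308) (nat_lit 5) (nat_lit 307) (nat_lit 5) (nat_lit 317) (nat_lit 5) (nat_lit 317) (nat_lit 305) (nat_lit 278)) (XT.lf (nat_lit 0) (nat_lit 4230890597) (nat_lit 684) (nat_lit 1337597499) (nat_lit 76) (nat_lit 1507886557) (nat_lit 308) (nat_lit 5) (nat_lit 317) (nat_lit 5) (nat_lit 309) (nat_lit 5) (nat_lit 318) (nat_lit 305) (nat_lit 277))))))) (XT.nd (nat_lit 1014) (nat_lit 4408) (nat_lit 0) (XT.nd (nat_lit 468) (nat_lit 4332) (nat_lit 0) (XT.nd (nat_lit 234) (nat_lit 1824) (nat_lit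 0) (XT.nd (nat_lit 78) (nat_lit 836) (nat_lit 0) (XT.lf (nat_lit 0) (nat_lit 2586321484) (nat_lit 684) (nat_lit 3829011510) (nat_lit 760) (nat_lit 722169593) (nat_lit 299) (nat_lit 5) (nat_lit 308) (nat_lit 5) (nat_lit 309) (nat_lit 5) (nat_lit 319) (nat_lit 305) (nat_lit 276)) (XT.nd (nat_lit 78) (nat_lit 760) (nat_lit 0) (XT.lf (nat_lit 0) (nat_lit 1380065486) (nat_lit 760) (nat_lit 610754195) (nat_lit 76) (nat_lit 5210975584) (nat_lit 298) (nat_lit 5) (nat_lit 308) (nat_lit 5) (nat_lit 299) (nat_lit 5) (nat_lit 320) (nat_lit 305) (nat_lit 275)) (XT.lf (nat_lit 0) (nat_lit 3457863307) (nat_lit 760) (nat_lit 38427277) (nat_lit 836) (nat_lit 3772614030) (nat_lit 288) (nat_lit 5) (nat_lit 298) (nat_lit 5) (nat_lit 299) (nat_lit 5) (nat_lit 321) (nat_lit 305) (nat_lit 274)))) (XT.nd (nat_lit 78) (nat_lit 988) (nat_lit 0) (XT.lf (nat_lit 0) (nat_lit 257147836) (nat_lit 836) (nat_lit 5380368652) (nat_lit 912)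 (nat_lit 1701728957) (nat_lit 277) (nat_lit 5) (nat_lit 288) (nat_lit 5) (nat_lit 289) (nat_lit 5) (nat_lit 322) (nat_lit 305) (nat_lit 273)) (XT.nd (nat_lit 78) (nat_lit 912) (nat_lit 0) (XT.lf (nat_lit 0) (nat_lit 396694540) (nat_lit 912) (nat_lit 2942860170) (nat_lit 76) (nat_lit 4072862560) (nat_lit 276) (nat_lit 5) (nat_lit 288) (nat_lit 5) (nat_lit 277) (nat_lit 5) (nat_lit 323) (nat_lit 305) (nat_lit 272)) (XT.lf (nat_lit 0) (nat_lit 1277254473) (nat_lit 912) (nat_lit 1195378535) (nat_lit 988) (nat_lit 5016241043) (nat_lit 264) (nat_lit 5) (nat_lit 276) (nat_lit 5) (nat_lit 277) (nat_lit 5) (nat_lit 324) (nat_lit 305) (nat_lit 271))))) (XT.nd (nat_lit 234) (nat_lit 3268) (nat_lit 0) (XT.nd (nat_lit 78) (nat_lit 1064) (nat_lit 0) (XT.lf (nat_lit 0) (nat_lit 4588556618) (nat_lit 988) (nat_lit 1945368490) (nat_lit 76) (nat_lit 1034424746) (nat_lit 264) (nat_lit 5) (nat_lit 277) (nat_lit 5) (nat_lit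 265) (nat_lit 5) (nat_lit 325) (nat_lit 305) (nat_lit 270)) (XT.nd (nat_lit 78) (nat_lit 76) (nat_lit 0) (XT.lf (nat_lit 0) (nat_lit 2433154316) (nat_lit 988) (nat_lit 4309791985) (nat_lit 1064) (nat_lit 908068865) (nat_lit 251) (nat_lit 5) (nat_lit 264) (nat_lit 5) (nat_lit 265) (nat_lit 5) (nat_lit 326) (nat_lit 305) (nat_lit 269)) (XT.lf (nat_lit 0) (nat_lit 1162119668) (nat_lit 1064) (nat_lit 816732336) (nat_lit 76) (nat_lit 5758199697) (nat_lit 250) (nat_lit 5) (nat_lit 264) (nat_lit 5) (nat_lit 251) (nat_lit 5) (nat_lit 327) (nat_lit 305) (nat_lit 268)))) (XT.nd (nat_lit 156) (nat_lit 1064) (nat_lit 0) (XT.nd (nat_lit 78) (nat_lit 1140) (nat_lit 0) (XT.lf (nat_lit 0) (nat_lit 3258714483) (nat_lit 1140) (nat_lit 4101040357) (nat_lit 76) (nat_lit 466218439) (nat_lit 236) (nat_lit 5) (nat_lit 251) (nat_lit 5) (nat_lit 237) (nat_lit 5) (nat_lit 328) (nat_lit 305) (nat_lit 267)) (XT.lf (nat_lit 0) (nat_lit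 439279584) (nat_lit 1140) (nat_lit 4954468816) (nat_lit 1216) (nat_lit 2524596630) (nat_lit 221) (nat_lit 5) (nat_lit 236) (nat_lit 5) (nat_lit 237) (nat_lit 5) (nat_lit 329) (nat_lit 305) (nat_lit 266))) (XT.nd (nat_lit 78) (nat_lit 1064) (nat_lit 0) (XT.lf (nat_lit 0) (nat_lit 5148491830) (nat_lit 1140) (nat_lit 2430305648) (nat_lit 1216) (nat_lit 435158873) (nat_lit 221) (nat_lit 5) (nat_lit 236) (nat_lit 5) (nat_lit 237) (nat_lit 5) (nat_lit 330) (nat_lit 305) (nat_lit 265)) (XT.lf (nat_lit 0) (nat_lit 1648882837) (nat_lit 1064) (nat_lit 6259858979) (nat_lit 76) (nat_lit 204280939) (nat_lit 207) (nat_lit 5) (nat_lit 221) (nat_lit 5) (nat_lit 208) (nat_lit 5) (nat_lit 331) (nat_lit 305) (nat_lit 264)))))) (XT.nd (nat_lit 546) (nat_lit 2052) (nat_lit 0) (XT.nd (nat_lit 234) (nat_lit 1748) (nat_lit 0) (XT.nd (nat_lit 78) (nat_lit 608) (nat_lit 0) (XT.lf (nat_lit 0) (nat_lit 3786698738) (nat_lit 1064)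 (nat_lit 1522945278) (nat_lit 76) (nat_lit 2905331228) (nat_lit 207) (nat_lit 5) (nat_lit 221) (nat_lit 5) (nat_lit 208) (nat_lit 5) (nat_lit 332) (nat_lit 305) (nat_lit 263)) (XT.nd (nat_lit 78) (nat_lit 0) (nat_lit 0) (XT.lf (nat_lit 0) (nat_lit 3371195034) (nat_lit 608) (nat_lit 2598126776) (nat_lit 684) (nat_lit 2351286381) (nat_lit 199) (nat_lit 5) (nat_lit 207) (nat_lit 5) (nat_lit 208) (nat_lit 5) (nat_lit 333) (nat_lit 305) (nat_lit 262)) (XT.lf (nat_lit 0) (nat_lit 8184122969) (nat_lit 684) (nat_lit 39330047) (nat_lit 76) (nat_lit 206996967) (nat_lit 199) (nat_lit 5) (nat_lit 208) (nat_lit 5) (nat_lit 200) (nat_lit 5) (nat_lit 334) (nat_lit 305) (nat_lit 261)))) (XT.nd (nat_lit 156) (nat_lit 532) (nat_lit 0) (XT.nd (nat_lit 78) (nat_lit 608) (nat_lit 0) (XT.lf (nat_lit 0) (nat_lit 1909437674) (nat_lit 608) (nat_lit 3521137788) (nat_lit 76) (nat_lit 3111741137) (nat_lit 191) (nat_lit 5) (nat_lit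 199) (nat_lit 5) (nat_lit 192) (nat_lit 5) (nat_lit 335) (nat_lit 305) (nat_lit 260)) (XT.lf (nat_lit 0) (nat_lit 1553917003) (nat_lit 608) (nat_lit 2537558930) (nat_lit 684) (nat_lit 4567030941) (nat_lit 183) (nat_lit 5) (nat_lit 191) (nat_lit 5) (nat_lit 192) (nat_lit 5) (nat_lit 336) (nat_lit 305) (nat_lit 259))) (XT.nd (nat_lit 78) (nat_lit 532) (nat_lit 0) (XT.lf (nat_lit 0) (nat_lit 6331263317) (nat_lit 684) (nat_lit 1980011815) (nat_lit 76) (nat_lit 467175372) (nat_lit 183) (nat_lit 5) (nat_lit 192) (nat_lit 5) (nat_lit 184) (nat_lit 5) (nat_lit 337) (nat_lit 305) (nat_lit 258)) (XT.lf (nat_lit 0) (nat_lit 3287132981) (nat_lit 532) (nat_lit 5361356126) (nat_lit 608) (nat_lit 253231218) (nat_lit 176) (nat_lit 5) (nat_lit 183) (nat_lit 5) (nat_lit 184) (nat_lit 5) (nat_lit 338) (nat_lit 305) (nat_lit 257))))) (XT.nd (nat_lit 234) (nat_lit 988) (nat_lit 0) (XT.nd (nat_lit 78) (nat_lit 988) (nat_lit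 0) (XT.lf (nat_lit 0) (nat_lit 1941494198) (nat_lit 608) (nat_lit 345342494) (nat_lit 76) (nat_lit 6742082941) (nat_lit 175) (nat_lit 5) (nat_lit 183) (nat_lit 5) (nat_lit 176) (nat_lit 5) (nat_lit 339) (nat_lit 305) (nat_lit 256)) (XT.nd (nat_lit 78) (nat_lit 456) (nat_lit 0) (XT.lf (nat_lit 0) (nat_lit 4210472973) (nat_lit 608) (nat_lit 4038271557) (nat_lit 76) (nat_lit 910742372) (nat_lit 168) (nat_lit 5) (nat_lit 176) (nat_lit 5) (nat_lit 169) (nat_lit 5) (nat_lit 340) (nat_lit 305) (nat_lit 255)) (XT.lf (nat_lit 0) (nat_lit 1420022069) (nat_lit 456) (nat_lit 5123357917) (nat_lit 532) (nat_lit 2750746737) (nat_lit 162) (nat_lit 5) (nat_lit 168) (nat_lit 5) (nat_lit 169) (nat_lit 5) (nat_lit 341) (nat_lit 305) (nat_lit 254)))) (XT.nd (nat_lit 156) (nat_lit 456) (nat_lit 0) (XT.nd (nat_lit 78) (nat_lit 532) (nat_lit 0) (XT.lf (nat_lit 0) (nat_lit 7075341514) (nat_lit 456) (nat_lit 1868560702) (nat_lit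 532) (nat_lit 489005069) (nat_lit 162) (nat_lit 5) (nat_lit 168) (nat_lit 5) (nat_lit 169) (nat_lit 5) (nat_lit 342) (nat_lit 305) (nat_lit 253)) (XT.lf (nat_lit 0) (nat_lit 1808966428) (nat_lit 532) (nat_lit 6267672140) (nat_lit 76) (nat_lit 1498581730) (nat_lit 155) (nat_lit 5) (nat_lit 162) (nat_lit 5) (nat_lit 156) (nat_lit 5) (nat_lit 343) (nat_lit 305) (nat_lit 252))) (XT.nd (nat_lit 78) (nat_lit 456) (nat_lit 0) (XT.lf (nat_lit 0) (nat_lit 4166955341) (nat_lit 532) (nat_lit 603385153) (nat_lit 76) (nat_lit 4951317565) (nat_lit 155) (nat_lit 5) (nat_lit 162) (nat_lit 5) (nat_lit 156) (nat_lit 5) (nat_lit 344) (nat_lit 305) (nat_lit 251)) (XT.lf (nat_lit 0) (nat_lit 5285759105) (nat_lit 456) (nat_lit 1320311156) (nat_lit 532) (nat_lit 3266134098) (nat_lit 149) (nat_lit 5) (nat_lit 155) (nat_lit 5) (nat_lit 156) (nat_lit 5) (nat_lit 345) (nat_lit 305) (nat_lit 250))))))))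
noncomputable def xc119 : XT := (XT.nd (nat_lit 2028) (nat_lit 2964) (nat_lit 0) (XT.nd (nat_lit 1014) (nat_lit 2128) (nat_lit 0) (XT.nd (nat_lit 468) (nat_lit 1444) (nat_lit 0) (XT.nd (nat_lit 234) (nat_lit 836) (nat_lit 0) (XT.nd (nat_lit 78) (nat_lit 456) (nat_lit 0) (XT.lf (nat_lit 0) (nat_lit 1291656777) (nat_lit 456) (nat_lit 7826956032) (nat_lit 532) (nat_lit 908672828) (nat_lit 143) (nat_lit 5) (nat_lit 149) (nat_lit 5) (nat_lit 150) (nat_lit 5) (nat_lit 346) (nat_lit 305) (nat_lit 249)) (XT.nd (nat_lit 78) (nat_lit 380) (nat_lit 0) (XT.lf (nat_lit 0) (nat_lit 1510205204) (nat_lit 532) (nat_lit 2822862402) (nat_lit 76) (nat_lit 5852927939) (nat_lit 142) (nat_lit 5) (nat_lit 149) (nat_lit 5) (nat_lit 143) (nat_lit 5) (nat_lit 347) (nat_lit 305) (nat_lit 248)) (XT.lf (nat_lit 0) (nat_lit 3274404602) (nat_lit 380) (nat_lit 702106680) (nat_lit 456) (nat_lit 6372915798) (nat_lit 137) (nat_lit 5) (nat_lit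 142) (nat_lit 5) (nat_lit 143) (nat_lit 5) (nat_lit 348) (nat_lit 305) (nat_lit 247)))) (XT.nd (nat_lit 78) (nat_lit 836) (nat_lit 0) (XT.lf (nat_lit 0) (nat_lit 6537014418) (nat_lit 456) (nat_lit 982308228) (nat_lit 76) (nat_lit 2997855970) (nat_lit 137) (nat_lit 5) (nat_lit 143) (nat_lit 5) (nat_lit 138) (nat_lit 5) (nat_lit 349) (nat_lit 305) (nat_lit 246)) (XT.nd (nat_lit 78) (nat_lit 456) (nat_lit 0) (XT.lf (nat_lit 0) (nat_lit 5343542519) (nat_lit 380) (nat_lit 3852426726) (nat_lit 456) (nat_lit 1493366965) (nat_lit 132) (nat_lit 5) (nat_lit 137) (nat_lit 5) (nat_lit 138) (nat_lit 5) (nat_lit 350) (nat_lit 305) (nat_lit 245)) (XT.lf (nat_lit 0) (nat_lit 974341099) (nat_lit 380) (nat_lit 55797886) (nat_lit 456) (nat_lit 9836744483) (nat_lit 126) (nat_lit 5) (nat_lit 131) (nat_lit 5) (nat_lit 132) (nat_lit 5) (nat_lit 351) (nat_lit 305) (nat_lit 244))))) (XT.nd (nat_lit 234) (nat_lit 1064) (nat_lit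 0) (XT.nd (nat_lit 78) (nat_lit 380) (nat_lit 0) (XT.lf (nat_lit 0) (nat_lit 3654974042) (nat_lit 456) (nat_lit 3554626571) (nat_lit 76) (nat_lit 3838064474) (nat_lit 126) (nat_lit 5) (nat_lit 132) (nat_lit 5) (nat_lit 127) (nat_lit 5) (nat_lit 352) (nat_lit 305) (nat_lit 243)) (XT.nd (nat_lit 78) (nat_lit 0) (nat_lit 0) (XT.lf (nat_lit 0) (nat_lit 2984730641) (nat_lit 380) (nat_lit 3368182160) (nat_lit 456) (nat_lit 4881146685) (nat_lit 121) (nat_lit 5) (nat_lit 126) (nat_lit 5) (nat_lit 127) (nat_lit 5) (nat_lit 353) (nat_lit 305) (nat_lit 242)) (XT.lf (nat_lit 0) (nat_lit 9139274663) (nat_lit 456) (nat_lit 1684714940) (nat_lit 76) (nat_lit 601851071) (nat_lit 121) (nat_lit 5) (nat_lit 127) (nat_lit 5) (nat_lit 122) (nat_lit 5) (nat_lit 354) (nat_lit 305) (nat_lit 241)))) (XT.nd (nat_lit 156) (nat_lit 304) (nat_lit 0) (XT.nd (nat_lit 78) (nat_lit 380) (nat_lit 0) (XT.lf (nat_lit 0) (nat_lit 427717342)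 (nat_lit 380) (nat_lit 6528664598) (nat_lit 76) (nat_lit 4665418631) (nat_lit 116) (nat_lit 5) (nat_lit 121) (nat_lit 5) (nat_lit 117) (nat_lit 5) (nat_lit 355) (nat_lit 305) (nat_lit 240)) (XT.lf (nat_lit 0) (nat_lit 221506601) (nat_lit 380) (nat_lit 2942052145) (nat_lit 456) (nat_lit 8659836573) (nat_lit 111) (nat_lit 5) (nat_lit 116) (nat_lit 5) (nat_lit 117) (nat_lit 5) (nat_lit 356) (nat_lit 305) (nat_lit 239))) (XT.nd (nat_lit 78) (nat_lit 304) (nat_lit 0) (XT.lf (nat_lit 0) (nat_lit 6026708347) (nat_lit 456) (nat_lit 4779328874) (nat_lit 76) (nat_lit 1223661029) (nat_lit 111) (nat_lit 5) (nat_lit 117) (nat_lit 5) (nat_lit 112) (nat_lit 5) (nat_lit 357) (nat_lit 305) (nat_lit 238)) (XT.lf (nat_lit 0) (nat_lit 2217224024) (nat_lit 304) (nat_lit 6777115097) (nat_lit 380) (nat_lit 3247310373) (nat_lit 107) (nat_lit 5) (nat_lit 111) (nat_lit 5) (nat_lit 112) (nat_lit 5) (nat_lit 358) (nat_lit 305) (nat_lit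 237)))))) (XT.nd (nat_lit 468) (nat_lit 1064) (nat_lit 0) (XT.nd (nat_lit 234) (nat_lit 684) (nat_lit 0) (XT.nd (nat_lit 78) (nat_lit 380) (nat_lit 0) (XT.lf (nat_lit 0) (nat_lit 9477263946) (nat_lit 304) (nat_lit 2590642088) (nat_lit 380) (nat_lit 391562358) (nat_lit 107) (nat_lit 5) (nat_lit 111) (nat_lit 5) (nat_lit 112) (nat_lit 5) (nat_lit 359) (nat_lit 305) (nat_lit 236)) (XT.nd (nat_lit 78) (nat_lit 0) (nat_lit 0) (XT.lf (nat_lit 0) (nat_lit 2527622773) (nat_lit 380) (nat_lit 8413156531) (nat_lit 76) (nat_lit 1741496981) (nat_lit 102) (nat_lit 5) (nat_lit 107) (nat_lit 5) (nat_lit 103) (nat_lit 5) (nat_lit 360) (nat_lit 305) (nat_lit 235)) (XT.lf (nat_lit 0) (nat_lit 5552172322) (nat_lit 380) (nat_lit 1185659653) (nat_lit 76) (nat_lit 6173065314) (nat_lit 102) (nat_lit 5) (nat_lit 107) (nat_lit 5) (nat_lit 103) (nat_lit 5) (nat_lit 361) (nat_lit 305) (nat_lit 234)))) (XT.nd (nat_lit 78) (nat_lit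 380) (nat_lit 0) (XT.lf (nat_lit 0) (nat_lit 6339568308) (nat_lit 304) (nat_lit 2359311779) (nat_lit 380) (nat_lit 4446568699) (nat_lit 98) (nat_lit 5) (nat_lit 102) (nat_lit 5) (nat_lit 103) (nat_lit 5) (nat_lit 362) (nat_lit 305) (nat_lit 233)) (XT.nd (nat_lit 78) (nat_lit 76) (nat_lit 0) (XT.lf (nat_lit 0) (nat_lit 677469039) (nat_lit 304) (nat_lit 11272602474) (nat_lit 380) (nat_lit 1436676932) (nat_lit 94) (nat_lit 5) (nat_lit 98) (nat_lit 5) (nat_lit 99) (nat_lit 5) (nat_lit 363) (nat_lit 305) (nat_lit 232)) (XT.lf (nat_lit 0) (nat_lit 1694764347) (nat_lit 380) (nat_lit 5191731666) (nat_lit 76) (nat_lit 6746413225) (nat_lit 93) (nat_lit 5) (nat_lit 98) (nat_lit 5) (nat_lit 94) (nat_lit 5) (nat_lit 364) (nat_lit 305) (nat_lit 231))))) (XT.nd (nat_lit 234) (nat_lit 532) (nat_lit 0) (XT.nd (nat_lit 78) (nat_lit 304) (nat_lit 0) (XT.lf (nat_lit 0) (nat_lit 2544727595) (nat_lit 228) (nat_lit 2342800982)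 (nat_lit 304) (nat_lit 8998624774) (nat_lit 90) (nat_lit 5) (nat_lit 93) (nat_lit 5) (nat_lit 94) (nat_lit 5) (nat_lit 365) (nat_lit 305) (nat_lit 230)) (XT.nd (nat_lit 78) (nat_lit 304) (nat_lit 0) (XT.lf (nat_lit 0) (nat_lit 8223569951) (nat_lit 304) (nat_lit 3591049551) (nat_lit 76) (nat_lit 2330962976) (nat_lit 90) (nat_lit 5) (nat_lit 94) (nat_lit 5) (nat_lit 91) (nat_lit 5) (nat_lit 366) (nat_lit 305) (nat_lit 229)) (XT.lf (nat_lit 0) (nat_lit 4413653722) (nat_lit 304) (nat_lit 7284556964) (nat_lit 380) (nat_lit 2713440405) (nat_lit 86) (nat_lit 5) (nat_lit 90) (nat_lit 5) (nat_lit 91) (nat_lit 5) (nat_lit 367) (nat_lit 305) (nat_lit 228)))) (XT.nd (nat_lit 156) (nat_lit 228) (nat_lit 0) (XT.nd (nat_lit 78) (nat_lit 228) (nat_lit 0) (XT.lf (nat_lit 0) (nat_lit 589487801) (nat_lit 380) (nat_lit 1999806452) (nat_lit 76) (nat_lit 12095959252) (nat_lit 85) (nat_lit 5) (nat_lit 90) (nat_lit 5) (nat_lit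 86) (nat_lit 5) (nat_lit 368) (nat_lit 305) (nat_lit 227)) (XT.lf (nat_lit 0) (nat_lit 3993603399) (nat_lit 304) (nat_lit 8693340146) (nat_lit 76) (nat_lit 2277626487) (nat_lit 82) (nat_lit 5) (nat_lit 86) (nat_lit 5) (nat_lit 83) (nat_lit 5) (nat_lit 369) (nat_lit 305) (nat_lit 226))) (XT.nd (nat_lit 78) (nat_lit 228) (nat_lit 0) (XT.lf (nat_lit 0) (nat_lit 7519925042) (nat_lit 304) (nat_lit 486422829) (nat_lit 76) (nat_lit 7245326504) (nat_lit 82) (nat_lit 5) (nat_lit 86) (nat_lit 5) (nat_lit 83) (nat_lit 5) (nat_lit 370) (nat_lit 305) (nat_lit 225)) (XT.lf (nat_lit 0) (nat_lit 8085332799) (nat_lit 228) (nat_lit 3119232406) (nat_lit 304) (nat_lit 4341261263) (nat_lit 79) (nat_lit 5) (nat_lit 82) (nat_lit 5) (nat_lit 83) (nat_lit 5) (nat_lit 371) (nat_lit 305) (nat_lit 224))))))) (XT.nd (nat_lit 1014) (nat_lit 1292) (nat_lit 0) (XT.nd (nat_lit 468) (nat_lit 836) (nat_lit 0) (XT.nd (nat_lit 234) (nat_lit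 304) (nat_lit 0) (XT.nd (nat_lit 78) (nat_lit 304) (nat_lit 0) (XT.lf (nat_lit 0) (nat_lit 1037978637) (nat_lit 228) (nat_lit 13970142477) (nat_lit 304) (nat_lit 840440893) (nat_lit 76) (nat_lit 5) (nat_lit 79) (nat_lit 5) (nat_lit 80) (nat_lit 5) (nat_lit 372) (nat_lit 305) (nat_lit 223)) (XT.nd (nat_lit 78) (nat_lit 228) (nat_lit 0) (XT.lf (nat_lit 0) (nat_lit 2793540756) (nat_lit 304) (nat_lit 6311492787) (nat_lit 76) (nat_lit 7052095191) (nat_lit 75) (nat_lit 5) (nat_lit 79) (nat_lit 5) (nat_lit 76) (nat_lit 5) (nat_lit 373) (nat_lit 305) (nat_lit 222)) (XT.lf (nat_lit 0) (nat_lit 2443583860) (nat_lit 228) (nat_lit 4075413353) (nat_lit 304) (nat_lit 9955734507) (nat_lit 72) (nat_lit 5) (nat_lit 75) (nat_lit 5) (nat_lit 76) (nat_lit 5) (nat_lit 374) (nat_lit 305) (nat_lit 221)))) (XT.nd (nat_lit 78) (nat_lit 304) (nat_lit 0) (XT.lf (nat_lit 0) (nat_lit 10407265057) (nat_lit 304) (nat_lit 5259072011)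 (nat_lit 76) (nat_lit 1134003343) (nat_lit 72) (nat_lit 5) (nat_lit 76) (nat_lit 5) (nat_lit 73) (nat_lit 5) (nat_lit 375) (nat_lit 305) (nat_lit 220)) (XT.nd (nat_lit 78) (nat_lit 76) (nat_lit 0) (XT.lf (nat_lit 0) (nat_lit 3771984009) (nat_lit 228) (nat_lit 10693563559) (nat_lit 304) (nat_lit 2668577574) (nat_lit 69) (nat_lit 5) (nat_lit 72) (nat_lit 5) (nat_lit 73) (nat_lit 5) (nat_lit 376) (nat_lit 305) (nat_lit 219)) (XT.lf (nat_lit 0) (nat_lit 1175344815) (nat_lit 304) (nat_lit 4343841318) (nat_lit 76) (nat_lit 11957494589) (nat_lit 68) (nat_lit 5) (nat_lit 72) (nat_lit 5) (nat_lit 69) (nat_lit 5) (nat_lit 377) (nat_lit 305) (nat_lit 218))))) (XT.nd (nat_lit 234) (nat_lit 456) (nat_lit 0) (XT.nd (nat_lit 78) (nat_lit 152) (nat_lit 0) (XT.lf (nat_lit 0) (nat_lit 4979304860) (nat_lit 228) (nat_lit 127025571) (nat_lit 304) (nat_lit 12721636487) (nat_lit 65) (nat_lit 5) (nat_lit 68) (nat_lit 5) (nat_lit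 69) (nat_lit 5) (nat_lit 378) (nat_lit 305) (nat_lit 217)) (XT.nd (nat_lit 78) (nat_lit 152) (nat_lit 0) (XT.lf (nat_lit 0) (nat_lit 9229402275) (nat_lit 304) (nat_lit 3606514081) (nat_lit 76) (nat_lit 5351658445) (nat_lit 65) (nat_lit 5) (nat_lit 69) (nat_lit 5) (nat_lit 66) (nat_lit 5) (nat_lit 379) (nat_lit 305) (nat_lit 216)) (XT.lf (nat_lit 0) (nat_lit 5993025743) (nat_lit 152) (nat_lit 7520348001) (nat_lit 228) (nat_lit 5043488529) (nat_lit 63) (nat_lit 5) (nat_lit 65) (nat_lit 5) (nat_lit 66) (nat_lit 5) (nat_lit 380) (nat_lit 305) (nat_lit 215)))) (XT.nd (nat_lit 156) (nat_lit 152) (nat_lit 0) (XT.nd (nat_lit 78) (nat_lit 304) (nat_lit 0) (XT.lf (nat_lit 0) (nat_lit 15919269967) (nat_lit 152) (nat_lit 2021646635) (nat_lit 228) (nat_lit 995867551) (nat_lit 63) (nat_lit 5) (nat_lit 65) (nat_lit 5) (nat_lit 66) (nat_lit 5) (nat_lit 381) (nat_lit 305) (nat_lit 214)) (XT.lf (nat_lit 0) (nat_lit 3192317871)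 (nat_lit 304) (nat_lit 12477249218) (nat_lit 76) (nat_lit 3655196775) (nat_lit 59) (nat_lit 5) (nat_lit 63) (nat_lit 5) (nat_lit 60) (nat_lit 5) (nat_lit 382) (nat_lit 305) (nat_lit 213))) (XT.nd (nat_lit 78) (nat_lit 152) (nat_lit 0) (XT.lf (nat_lit 0) (nat_lit 7516115605) (nat_lit 304) (nat_lit 2718063695) (nat_lit 76) (nat_lit 9489015114) (nat_lit 59) (nat_lit 5) (nat_lit 63) (nat_lit 5) (nat_lit 60) (nat_lit 5) (nat_lit 383) (nat_lit 305) (nat_lit 212)) (XT.lf (nat_lit 0) (nat_lit 7445429971) (nat_lit 152) (nat_lit 4575567061) (nat_lit 228) (nat_lit 8111046288) (nat_lit 57) (nat_lit 5) (nat_lit 59) (nat_lit 5) (nat_lit 60) (nat_lit 5) (nat_lit 384) (nat_lit 305) (nat_lit 211)))))) (XT.nd (nat_lit 546) (nat_lit 684) (nat_lit 0) (XT.nd (nat_lit 234) (nat_lit 380) (nat_lit 0) (XT.nd (nat_lit 78) (nat_lit 228) (nat_lit 0) (XT.lf (nat_lit 0) (nat_lit 16680723609) (nat_lit 228) (nat_lit 2629000970) (nat_lit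 76) (nat_lit 1242848497) (nat_lit 57) (nat_lit 5) (nat_lit 60) (nat_lit 5) (nat_lit 58) (nat_lit 5) (nat_lit 385) (nat_lit 305) (nat_lit 210)) (XT.nd (nat_lit 78) (nat_lit 0) (nat_lit 0) (XT.lf (nat_lit 0) (nat_lit 586710723) (nat_lit 228) (nat_lit 13184033131) (nat_lit 76) (nat_lit 7211783117) (nat_lit 54) (nat_lit 5) (nat_lit 57) (nat_lit 5) (nat_lit 55) (nat_lit 5) (nat_lit 386) (nat_lit 305) (nat_lit 209)) (XT.lf (nat_lit 0) (nat_lit 5108597336) (nat_lit 228) (nat_lit 2903456244) (nat_lit 76) (nat_lit 13411959956) (nat_lit 54) (nat_lit 5) (nat_lit 57) (nat_lit 5) (nat_lit 55) (nat_lit 5) (nat_lit 387) (nat_lit 305) (nat_lit 208)))) (XT.nd (nat_lit 156) (nat_lit 228) (nat_lit 0) (XT.nd (nat_lit 78) (nat_lit 0) (nat_lit 0) (XT.lf (nat_lit 0) (nat_lit 7805837924) (nat_lit 152) (nat_lit 2016482116) (nat_lit 228) (nat_lit 12054744910) (nat_lit 52) (nat_lit 5) (nat_lit 54) (nat_lit 5) (nat_lit 55) (nat_lit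 5) (nat_lit 388) (nat_lit 305) (nat_lit 207)) (XT.lf (nat_lit 0) (nat_lit 14728305881) (nat_lit 228) (nat_lit 3519312153) (nat_lit 76) (nat_lit 4094569801) (nat_lit 52) (nat_lit 5) (nat_lit 55) (nat_lit 5) (nat_lit 53) (nat_lit 5) (nat_lit 389) (nat_lit 305) (nat_lit 206))) (XT.nd (nat_lit 78) (nat_lit 76) (nat_lit 0) (XT.lf (nat_lit 0) (nat_lit 7443231463) (nat_lit 152) (nat_lit 12411563137) (nat_lit 228) (nat_lit 2964275418) (nat_lit 50) (nat_lit 5) (nat_lit 52) (nat_lit 5) (nat_lit 53) (nat_lit 5) (nat_lit 390) (nat_lit 305) (nat_lit 205)) (XT.lf (nat_lit 0) (nat_lit 1806959691) (nat_lit 228) (nat_lit 4551559706) (nat_lit 76) (nat_lit 16950685564) (nat_lit 49) (nat_lit 5) (nat_lit 52) (nat_lit 5) (nat_lit 50) (nat_lit 5) (nat_lit 391) (nat_lit 305) (nat_lit 204))))) (XT.nd (nat_lit 234) (nat_lit 380) (nat_lit 0) (XT.nd (nat_lit 78) (nat_lit 152) (nat_lit 0) (XT.lf (nat_lit 0) (nat_lit 6667854951) (nat_lit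 152) (nat_lit 40380939) (nat_lit 228) (nat_lit 17103537955) (nat_lit 47) (nat_lit 5) (nat_lit 49) (nat_lit 5) (nat_lit 50) (nat_lit 5) (nat_lit 392) (nat_lit 305) (nat_lit 203)) (XT.nd (nat_lit 78) (nat_lit 152) (nat_lit 0) (XT.lf (nat_lit 0) (nat_lit 11847624699) (nat_lit 228) (nat_lit 6103973222) (nat_lit 76) (nat_lit 6375094365) (nat_lit 47) (nat_lit 5) (nat_lit 50) (nat_lit 5) (nat_lit 48) (nat_lit 5) (nat_lit 393) (nat_lit 305) (nat_lit 202)) (XT.lf (nat_lit 0) (nat_lit 5341424632) (nat_lit 152) (nat_lit 11834515165) (nat_lit 228) (nat_lit 7680080727) (nat_lit 45) (nat_lit 5) (nat_lit 47) (nat_lit 5) (nat_lit 48) (nat_lit 5) (nat_lit 394) (nat_lit 305) (nat_lit 201)))) (XT.nd (nat_lit 156) (nat_lit 152) (nat_lit 0) (XT.nd (nat_lit 78) (nat_lit 228) (nat_lit 0) (XT.lf (nat_lit 0) (nat_lit 17226023049) (nat_lit 152) (nat_lit 5482932863) (nat_lit 228) (nat_lit 2690931600) (nat_lit 45) (nat_lit 5) (nat_lit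 47) (nat_lit 5) (nat_lit 48) (nat_lit 5) (nat_lit 395) (nat_lit 305) (nat_lit 200)) (XT.lf (nat_lit 0) (nat_lit 2428163780) (nat_lit 228) (nat_lit 22445928536) (nat_lit 76) (nat_lit 1084435299) (nat_lit 42) (nat_lit 5) (nat_lit 45) (nat_lit 5) (nat_lit 43) (nat_lit 5) (nat_lit 396) (nat_lit 305) (nat_lit 199))) (XT.nd (nat_lit 78) (nat_lit 152) (nat_lit 0) (XT.lf (nat_lit 0) (nat_lit 7768015577) (nat_lit 228) (nat_lit 10924842491) (nat_lit 76) (nat_lit 7836635580) (nat_lit 42) (nat_lit 5) (nat_lit 45) (nat_lit 5) (nat_lit 43) (nat_lit 5) (nat_lit 397) (nat_lit 305) (nat_lit 198)) (XT.lf (nat_lit 0) (nat_lit 932046309) (nat_lit 152) (nat_lit 12329077881) (nat_lit 228) (nat_lit 13856676586) (nat_lit 40) (nat_lit 5) (nat_lit 42) (nat_lit 5) (nat_lit 43) (nat_lit 5) (nat_lit 398) (nat_lit 305) (nat_lit 197))))))))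
noncomputable def xc120 : XT := (XT.nd (nat_lit 2028) (nat_lit 608) (nat_lit 0) (XT.nd (nat_lit 1014) (nat_lit 684) (nat_lit 0) (XT.nd (nat_lit 468) (nat_lit 380) (nat_lit 0) (XT.nd (nat_lit 234) (nat_lit 152) (nat_lit 0) (XT.nd (nat_lit 78) (nat_lit 152) (nat_lit 0) (XT.lf (nat_lit 0) (nat_lit 13340847610) (nat_lit 152) (nat_lit 5672796177) (nat_lit 228) (nat_lit 8707278637) (nat_lit 40) (nat_lit 5) (nat_lit 42) (nat_lit 5) (nat_lit 43) (nat_lit 5) (nat_lit 399) (nat_lit 305) (nat_lit 196)) (XT.nd (nat_lit 78) (nat_lit 152) (nat_lit 0) (XT.lf (nat_lit 0) (nat_lit 24934755560) (nat_lit 228) (nat_lit 2258881536) (nat_lit 76) (nat_lit 1148623855) (nat_lit 40) (nat_lit 5) (nat_lit 43) (nat_lit 5) (nat_lit 41) (nat_lit 4) (nat_lit 400) (nat_lit 305) (nat_lit 195)) (XT.lf (nat_lit 0) (nat_lit 2153323915) (nat_lit 152) (nat_lit 18653969301) (nat_lit 76) (nat_lit 8170095680) (nat_lit 38) (nat_lit 5) (nat_lit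 40) (nat_lit 5) (nat_lit 39) (nat_lit 5) (nat_lit 401) (nat_lit 305) (nat_lit 194)))) (XT.nd (nat_lit 78) (nat_lit 152) (nat_lit 0) (XT.lf (nat_lit 0) (nat_lit 7820650085) (nat_lit 152) (nat_lit 6361883774) (nat_lit 76) (nat_lit 15447783315) (nat_lit 38) (nat_lit 5) (nat_lit 40) (nat_lit 5) (nat_lit 39) (nat_lit 5) (nat_lit 402) (nat_lit 305) (nat_lit 193)) (XT.nd (nat_lit 78) (nat_lit 0) (nat_lit 0) (XT.lf (nat_lit 0) (nat_lit 6398057642) (nat_lit 152) (nat_lit 7306997093) (nat_lit 228) (nat_lit 16596370115) (nat_lit 36) (nat_lit 5) (nat_lit 38) (nat_lit 5) (nat_lit 39) (nat_lit 5) (nat_lit 403) (nat_lit 305) (nat_lit 192)) (XT.lf (nat_lit 0) (nat_lit 19645706365) (nat_lit 152) (nat_lit 170259889) (nat_lit 228) (nat_lit 11175203475) (nat_lit 36) (nat_lit 5) (nat_lit 38) (nat_lit 5) (nat_lit 39) (nat_lit 5) (nat_lit 404) (nat_lit 305) (nat_lit 191))))) (XT.nd (nat_lit 234) (nat_lit 228) (nat_lit 0) (XT.nd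 (nat_lit 78) (nat_lit 76) (nat_lit 0) (XT.lf (nat_lit 0) (nat_lit 1524834145) (nat_lit 76) (nat_lit 24655095623) (nat_lit 152) (nat_lit 5519588568) (nat_lit 35) (nat_lit 5) (nat_lit 36) (nat_lit 5) (nat_lit 37) (nat_lit 4) (nat_lit 405) (nat_lit 305) (nat_lit 190)) (XT.nd (nat_lit 78) (nat_lit 0) (nat_lit 0) (XT.lf (nat_lit 0) (nat_lit 403187822) (nat_lit 152) (nat_lit 17442736186) (nat_lit 76) (nat_lit 14580004430) (nat_lit 34) (nat_lit 5) (nat_lit 36) (nat_lit 5) (nat_lit 35) (nat_lit 5) (nat_lit 406) (nat_lit 305) (nat_lit 189)) (XT.lf (nat_lit 0) (nat_lit 6379186173) (nat_lit 152) (nat_lit 4407856471) (nat_lit 76) (nat_lit 22385857266) (nat_lit 34) (nat_lit 5) (nat_lit 36) (nat_lit 5) (nat_lit 35) (nat_lit 5) (nat_lit 407) (nat_lit 305) (nat_lit 188)))) (XT.nd (nat_lit 156) (nat_lit 76) (nat_lit 0) (XT.nd (nat_lit 78) (nat_lit 0) (nat_lit 0) (XT.lf (nat_lit 0) (nat_lit 9173408559) (nat_lit 152) (nat_lit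 3436107138) (nat_lit 228) (nat_lit 21330516064) (nat_lit 32) (nat_lit 5) (nat_lit 34) (nat_lit 5) (nat_lit 35) (nat_lit 5) (nat_lit 408) (nat_lit 305) (nat_lit 187)) (XT.lf (nat_lit 0) (nat_lit 19098385452) (nat_lit 228) (nat_lit 11540292807) (nat_lit 76) (nat_lit 4089353092) (nat_lit 32) (nat_lit 5) (nat_lit 35) (nat_lit 5) (nat_lit 33) (nat_lit 4) (nat_lit 409) (nat_lit 305) (nat_lit 186))) (XT.nd (nat_lit 78) (nat_lit 0) (nat_lit 0) (XT.lf (nat_lit 0) (nat_lit 2066087960) (nat_lit 76) (nat_lit 23757022819) (nat_lit 152) (nat_lit 9715327078) (nat_lit 31) (nat_lit 5) (nat_lit 32) (nat_lit 5) (nat_lit 33) (nat_lit 4) (nat_lit 410) (nat_lit 305) (nat_lit 185)) (XT.lf (nat_lit 0) (nat_lit 16294415183) (nat_lit 76) (nat_lit 16559155534) (nat_lit 152) (nat_lit 3516468593) (nat_lit 31) (nat_lit 5) (nat_lit 32) (nat_lit 5) (nat_lit 33) (nat_lit 4) (nat_lit 411) (nat_lit 305) (nat_lit 184)))))) (XT.nd (nat_lit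 468) (nat_lit 380) (nat_lit 0) (XT.nd (nat_lit 234) (nat_lit 76) (nat_lit 0) (XT.nd (nat_lit 78) (nat_lit 152) (nat_lit 0) (XT.lf (nat_lit 0) (nat_lit 2800084533) (nat_lit 152) (nat_lit 6326961441) (nat_lit 76) (nat_lit 28099087027) (nat_lit 30) (nat_lit 5) (nat_lit 32) (nat_lit 5) (nat_lit 31) (nat_lit 5) (nat_lit 412) (nat_lit 305) (nat_lit 183)) (XT.nd (nat_lit 78) (nat_lit 0) (nat_lit 0) (XT.lf (nat_lit 0) (nat_lit 7932393922) (nat_lit 152) (nat_lit 1367372881) (nat_lit 228) (nat_lit 28805171224) (nat_lit 28) (nat_lit 5) (nat_lit 30) (nat_lit 5) (nat_lit 31) (nat_lit 5) (nat_lit 413) (nat_lit 305) (nat_lit 182)) (XT.lf (nat_lit 0) (nat_lit 16110752866) (nat_lit 228) (nat_lit 16345070922) (nat_lit 76) (nat_lit 6550796269) (nat_lit 28) (nat_lit 5) (nat_lit 31) (nat_lit 5) (nat_lit 29) (nat_lit 4) (nat_lit 414) (nat_lit 305) (nat_lit 181)))) (XT.nd (nat_lit 78) (nat_lit 76) (nat_lit 0) (XT.lf (nat_lit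 0) (nat_lit 23128059696) (nat_lit 228) (nat_lit 2137467106) (nat_lit 76) (nat_lit 14669768201) (nat_lit 28) (nat_lit 5) (nat_lit 31) (nat_lit 5) (nat_lit 29) (nat_lit 4) (nat_lit 415) (nat_lit 305) (nat_lit 180)) (XT.nd (nat_lit 78) (nat_lit 0) (nat_lit 0) (XT.lf (nat_lit 0) (nat_lit 12724119173) (nat_lit 76) (nat_lit 17742867738) (nat_lit 152) (nat_lit 10421512374) (nat_lit 27) (nat_lit 5) (nat_lit 28) (nat_lit 5) (nat_lit 29) (nat_lit 4) (nat_lit 416) (nat_lit 305) (nat_lit 179)) (XT.lf (nat_lit 0) (nat_lit 28055031339) (nat_lit 76) (nat_lit 9981555026) (nat_lit 152) (nat_lit 3833400261) (nat_lit 27) (nat_lit 5) (nat_lit 28) (nat_lit 5) (nat_lit 29) (nat_lit 4) (nat_lit 417) (nat_lit 305) (nat_lit 178))))) (XT.nd (nat_lit 234) (nat_lit 152) (nat_lit 0) (XT.nd (nat_lit 78) (nat_lit 0) (nat_lit 0) (XT.lf (nat_lit 0) (nat_lit 934851237) (nat_lit 152) (nat_lit 1958013693) (nat_lit 228) (nat_lit 39987260584)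 (nat_lit 24) (nat_lit 5) (nat_lit 26) (nat_lit 5) (nat_lit 27) (nat_lit 5) (nat_lit 418) (nat_lit 305) (nat_lit 177)) (XT.nd (nat_lit 78) (nat_lit 0) (nat_lit 0) (XT.lf (nat_lit 0) (nat_lit 9934549196) (nat_lit 228) (nat_lit 27625998580) (nat_lit 76) (nat_lit 6353163686) (nat_lit 24) (nat_lit 5) (nat_lit 27) (nat_lit 5) (nat_lit 25) (nat_lit 4) (nat_lit 419) (nat_lit 305) (nat_lit 176)) (XT.lf (nat_lit 0) (nat_lit 17196359682) (nat_lit 228) (nat_lit 12915953279) (nat_lit 76) (nat_lit 14865727589) (nat_lit 24) (nat_lit 5) (nat_lit 27) (nat_lit 5) (nat_lit 25) (nat_lit 4) (nat_lit 420) (nat_lit 305) (nat_lit 175)))) (XT.nd (nat_lit 156) (nat_lit 76) (nat_lit 0) (XT.nd (nat_lit 78) (nat_lit 0) (nat_lit 0) (XT.lf (nat_lit 0) (nat_lit 2260650114) (nat_lit 76) (nat_lit 22426900673) (nat_lit 152) (nat_lit 21386404715) (nat_lit 23) (nat_lit 5) (nat_lit 24) (nat_lit 5) (nat_lit 25) (nat_lit 4) (nat_lit 421) (nat_lit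 305) (nat_lit 174)) (XT.lf (nat_lit 0) (nat_lit 18138644166) (nat_lit 76) (nat_lit 14385172546) (nat_lit 152) (nat_lit 14675322745) (nat_lit 23) (nat_lit 5) (nat_lit 24) (nat_lit 5) (nat_lit 25) (nat_lit 4) (nat_lit 422) (nat_lit 305) (nat_lit 173))) (XT.nd (nat_lit 78) (nat_lit 76) (nat_lit 0) (XT.lf (nat_lit 0) (nat_lit 34474850057) (nat_lit 76) (nat_lit 6110527631) (nat_lit 152) (nat_lit 7772996709) (nat_lit 23) (nat_lit 5) (nat_lit 24) (nat_lit 5) (nat_lit 25) (nat_lit 4) (nat_lit 423) (nat_lit 305) (nat_lit 172)) (XT.lf (nat_lit 0) (nat_lit 1741745361) (nat_lit 76) (nat_lit 47177386418) (nat_lit 76) (nat_lit 632345847) (nat_lit 22) (nat_lit 4) (nat_lit 23) (nat_lit 5) (nat_lit 23) (nat_lit 4) (nat_lit 424) (nat_lit 305) (nat_lit 171))))))) (XT.nd (nat_lit 1014) (nat_lit 228) (nat_lit 0) (XT.nd (nat_lit 468) (nat_lit 228) (nat_lit 0) (XT.nd (nat_lit 234) (nat_lit 76) (nat_lit 0) (XT.nd (nat_lit 78)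 (nat_lit 0) (nat_lit 0) (XT.lf (nat_lit 0) (nat_lit 6783857423) (nat_lit 152) (nat_lit 32800132119) (nat_lit 76) (nat_lit 11188671905) (nat_lit 21) (nat_lit 5) (nat_lit 23) (nat_lit 5) (nat_lit 22) (nat_lit 4) (nat_lit 425) (nat_lit 305) (nat_lit 170)) (XT.nd (nat_lit 78) (nat_lit 0) (nat_lit 0) (XT.lf (nat_lit 0) (nat_lit 14400544860) (nat_lit 152) (nat_lit 17363812078) (nat_lit 76) (nat_lit 20266216284) (nat_lit 21) (nat_lit 5) (nat_lit 23) (nat_lit 5) (nat_lit 22) (nat_lit 4) (nat_lit 426) (nat_lit 305) (nat_lit 169)) (XT.lf (nat_lit 0) (nat_lit 22236711165) (nat_lit 152) (nat_lit 1481205600) (nat_lit 76) (nat_lit 29608577684) (nat_lit 21) (nat_lit 5) (nat_lit 23) (nat_lit 5) (nat_lit 22) (nat_lit 4) (nat_lit 427) (nat_lit 305) (nat_lit 168)))) (XT.nd (nat_lit 78) (nat_lit 0) (nat_lit 0) (XT.lf (nat_lit 0) (nat_lit 15157339610) (nat_lit 76) (nat_lit 15287565486) (nat_lit 152) (nat_lit 24212281344) (nat_lit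 20) (nat_lit 5) (nat_lit 21) (nat_lit 5) (nat_lit 22) (nat_lit 4) (nat_lit 428) (nat_lit 305) (nat_lit 167)) (XT.nd (nat_lit 78) (nat_lit 0) (nat_lit 0) (XT.lf (nat_lit 0) (nat_lit 32309250626) (nat_lit 76) (nat_lit 6596392340) (nat_lit 152) (nat_lit 17121968643) (nat_lit 20) (nat_lit 5) (nat_lit 21) (nat_lit 5) (nat_lit 22) (nat_lit 4) (nat_lit 429) (nat_lit 305) (nat_lit 166)) (XT.lf (nat_lit 0) (nat_lit 47634368749) (nat_lit 152) (nat_lit 7501940123) (nat_lit 0) (nat_lit 2302417013) (nat_lit 20) (nat_lit 5) (nat_lit 22) (nat_lit 4) (nat_lit 20) (nat_lit 4) (nat_lit 430) (nat_lit 305) (nat_lit 165))))) (XT.nd (nat_lit 234) (nat_lit 76) (nat_lit 0) (XT.nd (nat_lit 78) (nat_lit 76) (nat_lit 0) (XT.lf (nat_lit 0) (nat_lit 9301768802) (nat_lit 76) (nat_lit 47469682623) (nat_lit 76) (nat_lit 2116328596) (nat_lit 19) (nat_lit 4) (nat_lit 20) (nat_lit 5) (nat_lit 20) (nat_lit 4) (nat_lit 431) (nat_lit 305)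 (nat_lit 164)) (XT.nd (nat_lit 78) (nat_lit 0) (nat_lit 0) (XT.lf (nat_lit 0) (nat_lit 5757402472) (nat_lit 152) (nat_lit 33686605930) (nat_lit 76) (nat_lit 20932576733) (nat_lit 18) (nat_lit 5) (nat_lit 20) (nat_lit 5) (nat_lit 19) (nat_lit 4) (nat_lit 432) (nat_lit 305) (nat_lit 163)) (XT.lf (nat_lit 0) (nat_lit 13816830050) (nat_lit 152) (nat_lit 17346141660) (nat_lit 76) (nat_lit 30746694638) (nat_lit 18) (nat_lit 5) (nat_lit 20) (nat_lit 5) (nat_lit 19) (nat_lit 4) (nat_lit 433) (nat_lit 305) (nat_lit 162)))) (XT.nd (nat_lit 156) (nat_lit 0) (nat_lit 0) (XT.nd (nat_lit 78) (nat_lit 76) (nat_lit 0) (XT.lf (nat_lit 0) (nat_lit 22110293548) (nat_lit 152) (nat_lit 529996887) (nat_lit 76) (nat_lit 40848683110) (nat_lit 18) (nat_lit 5) (nat_lit 20) (nat_lit 5) (nat_lit 19) (nat_lit 4) (nat_lit 434) (nat_lit 305) (nat_lit 161)) (XT.lf (nat_lit 0) (nat_lit 17110407791) (nat_lit 76) (nat_lit 13699107598) (nat_lit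 152) (nat_lit 34301437046) (nat_lit 17) (nat_lit 5) (nat_lit 18) (nat_lit 5) (nat_lit 19) (nat_lit 4) (nat_lit 435) (nat_lit 305) (nat_lit 160))) (XT.nd (nat_lit 78) (nat_lit 0) (nat_lit 0) (XT.lf (nat_lit 0) (nat_lit 35276917240) (nat_lit 76) (nat_lit 4490712067) (nat_lit 152) (nat_lit 27014024999) (nat_lit 17) (nat_lit 5) (nat_lit 18) (nat_lit 5) (nat_lit 19) (nat_lit 4) (nat_lit 436) (nat_lit 305) (nat_lit 159)) (XT.lf (nat_lit 0) (nat_lit 49035210502) (nat_lit 152) (nat_lit 14575781516) (nat_lit 0) (nat_lit 4890264544) (nat_lit 17) (nat_lit 5) (nat_lit 19) (nat_lit 4) (nat_lit 17) (nat_lit 4) (nat_lit 437) (nat_lit 305) (nat_lit 158)))))) (XT.nd (nat_lit 546) (nat_lit 0) (nat_lit 0) (XT.nd (nat_lit 234) (nat_lit 76) (nat_lit 0) (XT.nd (nat_lit 78) (nat_lit 76) (nat_lit 0) (XT.lf (nat_lit 0) (nat_lit 2859048704) (nat_lit 76) (nat_lit 55786647012) (nat_lit 76) (nat_lit 11624805887) (nat_lit 16) (nat_lit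 4) (nat_lit 17) (nat_lit 5) (nat_lit 17) (nat_lit 4) (nat_lit 438) (nat_lit 305) (nat_lit 157)) (XT.nd (nat_lit 78) (nat_lit 76) (nat_lit 0) (XT.lf (nat_lit 0) (nat_lit 21102521831) (nat_lit 76) (nat_lit 47582170719) (nat_lit 76) (nat_lit 3403926519) (nat_lit 16) (nat_lit 4) (nat_lit 17) (nat_lit 5) (nat_lit 17) (nat_lit 4) (nat_lit 439) (nat_lit 305) (nat_lit 156)) (XT.lf (nat_lit 0) (nat_lit 4957916266) (nat_lit 152) (nat_lit 34129599493) (nat_lit 76) (nat_lit 34872510631) (nat_lit 15) (nat_lit 5) (nat_lit 17) (nat_lit 5) (nat_lit 16) (nat_lit 4) (nat_lit 440) (nat_lit 305) (nat_lit 155)))) (XT.nd (nat_lit 156) (nat_lit 0) (nat_lit 0) (XT.nd (nat_lit 78) (nat_lit 76) (nat_lit 0) (XT.lf (nat_lit 0) (nat_lit 13495544129) (nat_lit 152) (nat_lit 16813676401) (nat_lit 76) (nat_lit 45577544874) (nat_lit 15) (nat_lit 5) (nat_lit 17) (nat_lit 5) (nat_lit 16) (nat_lit 4) (nat_lit 441) (nat_lit 305) (nat_lit 154))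 (XT.lf (nat_lit 0) (nat_lit 1029614567) (nat_lit 76) (nat_lit 21263122718) (nat_lit 152) (nat_lit 55578467087) (nat_lit 14) (nat_lit 5) (nat_lit 15) (nat_lit 5) (nat_lit 16) (nat_lit 4) (nat_lit 442) (nat_lit 305) (nat_lit 153))) (XT.nd (nat_lit 78) (nat_lit 0) (nat_lit 0) (XT.lf (nat_lit 0) (nat_lit 19740786462) (nat_lit 76) (nat_lit 11776456149) (nat_lit 152) (nat_lit 48393032853) (nat_lit 14) (nat_lit 5) (nat_lit 15) (nat_lit 5) (nat_lit 16) (nat_lit 4) (nat_lit 443) (nat_lit 305) (nat_lit 152)) (XT.lf (nat_lit 0) (nat_lit 39001563725) (nat_lit 76) (nat_lit 2010716669) (nat_lit 152) (nat_lit 40998425204) (nat_lit 14) (nat_lit 5) (nat_lit 15) (nat_lit 5) (nat_lit 16) (nat_lit 4) (nat_lit 444) (nat_lit 305) (nat_lit 151))))) (XT.nd (nat_lit 36192) (nat_lit 0) (nat_lit 23408) (XT.nd (nat_lit 36036) (nat_lit 0) (nat_lit 23940) (XT.lf (nat_lit 0) (nat_lit 50863457936) (nat_lit 152) (nat_lit 25422864609)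 (nat_lit 0) (nat_lit 7885688234) (nat_lit 14) (nat_lit 5) (nat_lit 16) (nat_lit 4) (nat_lit 14) (nat_lit 4) (nat_lit 445) (nat_lit 305) (nat_lit 150)) (XT.nd (nat_lit 78) (nat_lit 532) (nat_lit 0) (XT.lf (nat_lit 0) (nat_lit 1608906114) (nat_lit 0) (nat_lit 1608906114) (nat_lit 380) (nat_lit 80960930) (nat_lit 336) (nat_lit 5) (nat_lit 336) (nat_lit 3) (nat_lit 341) (nat_lit 3) (nat_lit 306) (nat_lit 306) (nat_lit 288)) (XT.lf (nat_lit 0) (nat_lit 2138023257) (nat_lit 532) (nat_lit 240717484) (nat_lit 532) (nat_lit 4246146574) (nat_lit 329) (nat_lit 3) (nat_lit 336) (nat_lit 3) (nat_lit 336) (nat_lit 5) (nat_lit 307) (nat_lit 306) (nat_lit 287)))) (XT.nd (nat_lit 156) (nat_lit 0) (nat_lit 76) (XT.nd (nat_lit 78) (nat_lit 532) (nat_lit 0) (XT.lf (nat_lit 76) (nat_lit 3003206242) (nat_lit 0) (nat_lit 1439644620) (nat_lit 532) (nat_lit 2212080594) (nat_lit 330) (nat_lit 5) (nat_lit 329) (nat_lit 3) (nat_lit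 336) (nat_lit 5) (nat_lit 308) (nat_lit 306) (nat_lit 286)) (XT.lf (nat_lit 0) (nat_lit 42322063) (nat_lit 532) (nat_lit 385375566) (nat_lit 608) (nat_lit 6260822725) (nat_lit 322) (nat_lit 5) (nat_lit 329) (nat_lit 3) (nat_lit 330) (nat_lit 5) (nat_lit 309) (nat_lit 306) (nat_lit 285))) (XT.nd (nat_lit 78) (nat_lit 0) (nat_lit 0) (XT.lf (nat_lit 0) (nat_lit 2269276329) (nat_lit 532) (nat_lit 3762356433) (nat_lit 608) (nat_lit 692441938) (nat_lit 323) (nat_lit 5) (nat_lit 330) (nat_lit 5) (nat_lit 331) (nat_lit 5) (nat_lit 310) (nat_lit 306) (nat_lit 284)) (XT.lf (nat_lit 0) (nat_lit 4487686903) (nat_lit 532) (nat_lit 396531767) (nat_lit 608) (nat_lit 1878831010) (nat_lit 323) (nat_lit 5) (nat_lit 330) (nat_lit 5) (nat_lit 331) (nat_lit 5) (nat_lit 311) (nat_lit 306) (nat_lit 283))))))))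
noncomputable def xc121 : XT := (XT.nd (nat_lit 2028) (nat_lit 6764) (nat_lit 0) (XT.nd (nat_lit 1014) (nat_lit 7068) (nat_lit 0) (XT.nd (nat_lit 468) (nat_lit 2356) (nat_lit 0) (XT.nd (nat_lit 234) (nat_lit 608) (nat_lit 0) (XT.nd (nat_lit 78) (nat_lit 608) (nat_lit 0) (XT.lf (nat_lit 76) (nat_lit 3083046042) (nat_lit 0) (nat_lit 3638155395) (nat_lit 608) (nat_lit 83626638) (nat_lit 324) (nat_lit 5) (nat_lit 323) (nat_lit 5) (nat_lit 331) (nat_lit 5) (nat_lit 312) (nat_lit 306) (nat_lit 282)) (XT.nd (nat_lit 78) (nat_lit 0) (nat_lit 0) (XT.lf (nat_lit 0) (nat_lit 2055441496) (nat_lit 608) (nat_lit 242133059) (nat_lit 684) (nat_lit 4552023885) (nat_lit 315) (nat_lit 5) (nat_lit 323) (nat_lit 5) (nat_lit 324) (nat_lit 5) (nat_lit 313) (nat_lit 306) (nat_lit 281)) (XT.lf (nat_lit 76) (nat_lit 3359450900) (nat_lit 0) (nat_lit 852130380) (nat_lit 684) (nat_lit 2685551399) (nat_lit 316) (nat_lit 5) (nat_lit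 315) (nat_lit 5) (nat_lit 324) (nat_lit 5) (nat_lit 314) (nat_lit 306) (nat_lit 280)))) (XT.nd (nat_lit 78) (nat_lit 684) (nat_lit 0) (XT.lf (nat_lit 76) (nat_lit 73968366) (nat_lit 0) (nat_lit 6292119526) (nat_lit 684) (nat_lit 582075172) (nat_lit 317) (nat_lit 5) (nat_lit 316) (nat_lit 5) (nat_lit 325) (nat_lit 5) (nat_lit 315) (nat_lit 306) (nat_lit 279)) (XT.nd (nat_lit 78) (nat_lit 0) (nat_lit 0) (XT.lf (nat_lit 0) (nat_lit 1523406818) (nat_lit 684) (nat_lit 3207623077) (nat_lit 760) (nat_lit 2270218874) (nat_lit 307) (nat_lit 5) (nat_lit 316) (nat_lit 5) (nat_lit 317) (nat_lit 5) (nat_lit 316) (nat_lit 306) (nat_lit 278)) (XT.lf (nat_lit 76) (nat_lit 524449893) (nat_lit 0) (nat_lit 3088427710) (nat_lit 760) (nat_lit 3444974603) (nat_lit 308) (nat_lit 5) (nat_lit 307) (nat_lit 5) (nat_lit 317) (nat_lit 5) (nat_lit 317) (nat_lit 306) (nat_lit 277))))) (XT.nd (nat_lit 234) (nat_lit 1672) (nat_lit 0)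 (XT.nd (nat_lit 78) (nat_lit 684) (nat_lit 0) (XT.lf (nat_lit 76) (nat_lit 4385751660) (nat_lit 0) (nat_lit 1340799778) (nat_lit 760) (nat_lit 1390828349) (nat_lit 308) (nat_lit 5) (nat_lit 307) (nat_lit 5) (nat_lit 317) (nat_lit 5) (nat_lit 318) (nat_lit 306) (nat_lit 276)) (XT.nd (nat_lit 78) (nat_lit 0) (nat_lit 0) (XT.lf (nat_lit 0) (nat_lit 657100187) (nat_lit 760) (nat_lit 6033933740) (nat_lit 76) (nat_lit 489128589) (nat_lit 298) (nat_lit 5) (nat_lit 308) (nat_lit 5) (nat_lit 299) (nat_lit 5) (nat_lit 319) (nat_lit 306) (nat_lit 275)) (XT.lf (nat_lit 0) (nat_lit 2711843512) (nat_lit 760) (nat_lit 2125250435) (nat_lit 76) (nat_lit 2408187258) (nat_lit 298) (nat_lit 5) (nat_lit 308) (nat_lit 5) (nat_lit 299) (nat_lit 5) (nat_lit 320) (nat_lit 306) (nat_lit 274)))) (XT.nd (nat_lit 156) (nat_lit 912) (nat_lit 0) (XT.nd (nat_lit 78) (nat_lit 0) (nat_lit 0) (XT.lf (nat_lit 0) (nat_lit 1888667107) (nat_lit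 760) (nat_lit 2891890609) (nat_lit 836) (nat_lit 2533289506) (nat_lit 288) (nat_lit 5) (nat_lit 298) (nat_lit 5) (nat_lit 299) (nat_lit 5) (nat_lit 321) (nat_lit 306) (nat_lit 273)) (XT.lf (nat_lit 0) (nat_lit 6018165994) (nat_lit 760) (nat_lit 850253780) (nat_lit 836) (nat_lit 517399626) (nat_lit 288) (nat_lit 5) (nat_lit 298) (nat_lit 5) (nat_lit 299) (nat_lit 5) (nat_lit 322) (nat_lit 306) (nat_lit 272))) (XT.nd (nat_lit 78) (nat_lit 0) (nat_lit 0) (XT.lf (nat_lit 0) (nat_lit 1504912152) (nat_lit 912) (nat_lit 4670243044) (nat_lit 76) (nat_lit 1285113212) (nat_lit 276) (nat_lit 5) (nat_lit 288) (nat_lit 5) (nat_lit 277) (nat_lit 5) (nat_lit 323) (nat_lit 306) (nat_lit 271)) (XT.lf (nat_lit 0) (nat_lit 3538197232) (nat_lit 912) (nat_lit 499622973) (nat_lit 76) (nat_lit 3500212433) (nat_lit 276) (nat_lit 5) (nat_lit 288) (nat_lit 5) (nat_lit 277) (nat_lit 5) (nat_lit 324) (nat_lit 306) (nat_lit 270))))))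 (XT.nd (nat_lit 468) (nat_lit 2812) (nat_lit 0) (XT.nd (nat_lit 234) (nat_lit 2280) (nat_lit 0) (XT.nd (nat_lit 78) (nat_lit 1064) (nat_lit 0) (XT.lf (nat_lit 0) (nat_lit 3822276256) (nat_lit 912) (nat_lit 1787080119) (nat_lit 988) (nat_lit 2009522036) (nat_lit 264) (nat_lit 5) (nat_lit 276) (nat_lit 5) (nat_lit 277) (nat_lit 5) (nat_lit 325) (nat_lit 306) (nat_lit 269)) (XT.nd (nat_lit 78) (nat_lit 76) (nat_lit 0) (XT.lf (nat_lit 0) (nat_lit 537545422) (nat_lit 988) (nat_lit 7161991713) (nat_lit 1064) (nat_lit 3959104) (nat_lit 251) (nat_lit 5) (nat_lit 264) (nat_lit 5) (nat_lit 265) (nat_lit 5) (nat_lit 326) (nat_lit 306) (nat_lit 268)) (XT.lf (nat_lit 0) (nat_lit 2020079381) (nat_lit 1064) (nat_lit 2798428018) (nat_lit 76) (nat_lit 2971644620) (nat_lit 250) (nat_lit 5) (nat_lit 264) (nat_lit 5) (nat_lit 251) (nat_lit 5) (nat_lit 327) (nat_lit 306) (nat_lit 267)))) (XT.nd (nat_lit 78) (nat_lit 1216)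 (nat_lit 0) (XT.lf (nat_lit 0) (nat_lit 1683834908) (nat_lit 1064) (nat_lit 2380925690) (nat_lit 1140) (nat_lit 3815894428) (nat_lit 236) (nat_lit 5) (nat_lit 250) (nat_lit 5) (nat_lit 251) (nat_lit 5) (nat_lit 328) (nat_lit 306) (nat_lit 266)) (XT.nd (nat_lit 78) (nat_lit 1216) (nat_lit 0) (XT.lf (nat_lit 0) (nat_lit 6145613853) (nat_lit 1140) (nat_lit 1667003860) (nat_lit 76) (nat_lit 162057805) (nat_lit 236) (nat_lit 5) (nat_lit 251) (nat_lit 5) (nat_lit 237) (nat_lit 5) (nat_lit 329) (nat_lit 306) (nat_lit 265)) (XT.lf (nat_lit 0) (nat_lit 211986585) (nat_lit 1216) (nat_lit 5089217255) (nat_lit 76) (nat_lit 2770329154) (nat_lit 220) (nat_lit 5) (nat_lit 236) (nat_lit 5) (nat_lit 221) (nat_lit 5) (nat_lit 330) (nat_lit 306) (nat_lit 264))))) (XT.nd (nat_lit 234) (nat_lit 1216) (nat_lit 0) (XT.nd (nat_lit 78) (nat_lit 1596) (nat_lit 0) (XT.lf (nat_lit 0) (nat_lit 2241677498) (nat_lit 1216) (nat_lit 433310101)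 (nat_lit 76) (nat_lit 5496883429) (nat_lit 220) (nat_lit 5) (nat_lit 236) (nat_lit 5) (nat_lit 221) (nat_lit 5) (nat_lit 331) (nat_lit 306) (nat_lit 263)) (XT.nd (nat_lit 78) (nat_lit 608) (nat_lit 0) (XT.lf (nat_lit 0) (nat_lit 4324005201) (nat_lit 1064) (nat_lit 3876221023) (nat_lit 76) (nat_lit 75282660) (nat_lit 207) (nat_lit 5) (nat_lit 221) (nat_lit 5) (nat_lit 208) (nat_lit 5) (nat_lit 332) (nat_lit 306) (nat_lit 262)) (XT.lf (nat_lit 0) (nat_lit 946371068) (nat_lit 608) (nat_lit 5512206194) (nat_lit 684) (nat_lit 1924026217) (nat_lit 199) (nat_lit 5) (nat_lit 207) (nat_lit 5) (nat_lit 208) (nat_lit 5) (nat_lit 333) (nat_lit 306) (nat_lit 261)))) (XT.nd (nat_lit 156) (nat_lit 608) (nat_lit 0) (XT.nd (nat_lit 78) (nat_lit 532) (nat_lit 0) (XT.lf (nat_lit 0) (nat_lit 150841631) (nat_lit 684) (nat_lit 2550339464) (nat_lit 76) (nat_lit 5792027787) (nat_lit 198) (nat_lit 5) (nat_lit 207) (nat_lit 5)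 (nat_lit 199) (nat_lit 5) (nat_lit 334) (nat_lit 306) (nat_lit 260)) (XT.lf (nat_lit 0) (nat_lit 2226939837) (nat_lit 608) (nat_lit 6146774671) (nat_lit 76) (nat_lit 233554159) (nat_lit 191) (nat_lit 5) (nat_lit 199) (nat_lit 5) (nat_lit 192) (nat_lit 5) (nat_lit 335) (nat_lit 306) (nat_lit 259))) (XT.nd (nat_lit 78) (nat_lit 608) (nat_lit 0) (XT.lf (nat_lit 0) (nat_lit 4370708010) (nat_lit 608) (nat_lit 1126311640) (nat_lit 76) (nat_lit 3227605268) (nat_lit 191) (nat_lit 5) (nat_lit 199) (nat_lit 5) (nat_lit 192) (nat_lit 5) (nat_lit 336) (nat_lit 306) (nat_lit 258)) (XT.lf (nat_lit 0) (nat_lit 4076480478) (nat_lit 608) (nat_lit 2495508202) (nat_lit 684) (nat_lit 2273752422) (nat_lit 183) (nat_lit 5) (nat_lit 191) (nat_lit 5) (nat_lit 192) (nat_lit 5) (nat_lit 337) (nat_lit 306) (nat_lit 257))))))) (XT.nd (nat_lit 1014) (nat_lit 2888) (nat_lit 0) (XT.nd (nat_lit 468) (nat_lit 2204) (nat_lit 0) (XT.nd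 (nat_lit 234) (nat_lit 532) (nat_lit 0) (XT.nd (nat_lit 78) (nat_lit 608) (nat_lit 0) (XT.lf (nat_lit 0) (nat_lit 442356645) (nat_lit 532) (nat_lit 8373295281) (nat_lit 608) (nat_lit 155582722) (nat_lit 176) (nat_lit 5) (nat_lit 183) (nat_lit 5) (nat_lit 184) (nat_lit 5) (nat_lit 338) (nat_lit 306) (nat_lit 256)) (XT.nd (nat_lit 78) (nat_lit 532) (nat_lit 0) (XT.lf (nat_lit 0) (nat_lit 2015195736) (nat_lit 608) (nat_lit 3284795072) (nat_lit 76) (nat_lit 3799092114) (nat_lit 175) (nat_lit 5) (nat_lit 183) (nat_lit 5) (nat_lit 176) (nat_lit 5) (nat_lit 339) (nat_lit 306) (nat_lit 255)) (XT.lf (nat_lit 0) (nat_lit 2108472831) (nat_lit 532) (nat_lit 2116324604) (nat_lit 608) (nat_lit 5006649486) (nat_lit 168) (nat_lit 5) (nat_lit 175) (nat_lit 5) (nat_lit 176) (nat_lit 5) (nat_lit 340) (nat_lit 306) (nat_lit 254)))) (XT.nd (nat_lit 78) (nat_lit 532) (nat_lit 0) (XT.lf (nat_lit 0) (nat_lit 6502688872) (nat_lit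 608) (nat_lit 1695956952) (nat_lit 76) (nat_lit 1169106354) (nat_lit 168) (nat_lit 5) (nat_lit 176) (nat_lit 5) (nat_lit 169) (nat_lit 5) (nat_lit 341) (nat_lit 306) (nat_lit 253)) (XT.nd (nat_lit 78) (nat_lit 76) (nat_lit 0) (XT.lf (nat_lit 0) (nat_lit 3901933887) (nat_lit 456) (nat_lit 4964012844) (nat_lit 532) (nat_lit 641718474) (nat_lit 162) (nat_lit 5) (nat_lit 168) (nat_lit 5) (nat_lit 169) (nat_lit 5) (nat_lit 342) (nat_lit 306) (nat_lit 252)) (XT.lf (nat_lit 0) (nat_lit 1592352925) (nat_lit 532) (nat_lit 12256983) (nat_lit 76) (nat_lit 8047432451) (nat_lit 161) (nat_lit 5) (nat_lit 168) (nat_lit 5) (nat_lit 162) (nat_lit 5) (nat_lit 343) (nat_lit 306) (nat_lit 251))))) (XT.nd (nat_lit 234) (nat_lit 1292) (nat_lit 0) (XT.nd (nat_lit 78) (nat_lit 456) (nat_lit 0) (XT.lf (nat_lit 0) (nat_lit 3914882882) (nat_lit 532) (nat_lit 4008585713) (nat_lit 76) (nat_lit 1876088593) (nat_lit 155) (nat_lit 5)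 (nat_lit 162) (nat_lit 5) (nat_lit 156) (nat_lit 5) (nat_lit 344) (nat_lit 306) (nat_lit 250)) (XT.nd (nat_lit 78) (nat_lit 0) (nat_lit 0) (XT.lf (nat_lit 0) (nat_lit 1789269739) (nat_lit 456) (nat_lit 4511784555) (nat_lit 532) (nat_lit 3650650413) (nat_lit 149) (nat_lit 5) (nat_lit 155) (nat_lit 5) (nat_lit 156) (nat_lit 5) (nat_lit 345) (nat_lit 306) (nat_lit 249)) (XT.lf (nat_lit 0) (nat_lit 7796880667) (nat_lit 456) (nat_lit 963860344) (nat_lit 532) (nat_lit 1347643185) (nat_lit 149) (nat_lit 5) (nat_lit 155) (nat_lit 5) (nat_lit 156) (nat_lit 5) (nat_lit 346) (nat_lit 306) (nat_lit 248)))) (XT.nd (nat_lit 156) (nat_lit 760) (nat_lit 0) (XT.nd (nat_lit 78) (nat_lit 0) (nat_lit 0) (XT.lf (nat_lit 0) (nat_lit 1028757503) (nat_lit 532) (nat_lit 6563632829) (nat_lit 76) (nat_lit 2676373475) (nat_lit 142) (nat_lit 5) (nat_lit 149) (nat_lit 5) (nat_lit 143) (nat_lit 5) (nat_lit 347) (nat_lit 306) (nat_lit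 247)) (XT.lf (nat_lit 0) (nat_lit 3445246401) (nat_lit 532) (nat_lit 553113190) (nat_lit 76) (nat_lit 6435341740) (nat_lit 142) (nat_lit 5) (nat_lit 149) (nat_lit 5) (nat_lit 143) (nat_lit 5) (nat_lit 348) (nat_lit 306) (nat_lit 246))) (XT.nd (nat_lit 78) (nat_lit 380) (nat_lit 0) (XT.lf (nat_lit 0) (nat_lit 5703989127) (nat_lit 380) (nat_lit 248922094) (nat_lit 456) (nat_lit 4650137933) (nat_lit 137) (nat_lit 5) (nat_lit 142) (nat_lit 5) (nat_lit 143) (nat_lit 5) (nat_lit 349) (nat_lit 306) (nat_lit 245)) (XT.lf (nat_lit 0) (nat_lit 1328371374) (nat_lit 380) (nat_lit 7224962749) (nat_lit 456) (nat_lit 2223639397) (nat_lit 132) (nat_lit 5) (nat_lit 137) (nat_lit 5) (nat_lit 138) (nat_lit 5) (nat_lit 350) (nat_lit 306) (nat_lit 244)))))) (XT.nd (nat_lit 546) (nat_lit 1292) (nat_lit 0) (XT.nd (nat_lit 234) (nat_lit 1140) (nat_lit 0) (XT.nd (nat_lit 78) (nat_lit 380) (nat_lit 0) (XT.lf (nat_lit 0) (nat_lit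 287324097) (nat_lit 456) (nat_lit 3163058927) (nat_lit 76) (nat_lit 7505162322) (nat_lit 131) (nat_lit 5) (nat_lit 137) (nat_lit 5) (nat_lit 132) (nat_lit 5) (nat_lit 351) (nat_lit 306) (nat_lit 243)) (XT.nd (nat_lit 78) (nat_lit 0) (nat_lit 0) (XT.lf (nat_lit 0) (nat_lit 2831026250) (nat_lit 456) (nat_lit 7834482469) (nat_lit 76) (nat_lit 473262131) (nat_lit 126) (nat_lit 5) (nat_lit 132) (nat_lit 5) (nat_lit 127) (nat_lit 5) (nat_lit 352) (nat_lit 306) (nat_lit 242)) (XT.lf (nat_lit 0) (nat_lit 5483589816) (nat_lit 456) (nat_lit 1375553022) (nat_lit 76) (nat_lit 4467393275) (nat_lit 126) (nat_lit 5) (nat_lit 132) (nat_lit 5) (nat_lit 127) (nat_lit 5) (nat_lit 353) (nat_lit 306) (nat_lit 241)))) (XT.nd (nat_lit 156) (nat_lit 456) (nat_lit 0) (XT.nd (nat_lit 78) (nat_lit 304) (nat_lit 0) (XT.lf (nat_lit 0) (nat_lit 5337575962) (nat_lit 380) (nat_lit 2896580045) (nat_lit 456) (nat_lit 3285244491) (nat_lit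 121) (nat_lit 5) (nat_lit 126) (nat_lit 5) (nat_lit 127) (nat_lit 5) (nat_lit 354) (nat_lit 306) (nat_lit 240)) (XT.lf (nat_lit 0) (nat_lit 517046186) (nat_lit 304) (nat_lit 10548134610) (nat_lit 380) (nat_lit 652950156) (nat_lit 117) (nat_lit 5) (nat_lit 121) (nat_lit 5) (nat_lit 122) (nat_lit 5) (nat_lit 355) (nat_lit 306) (nat_lit 239))) (XT.nd (nat_lit 78) (nat_lit 380) (nat_lit 0) (XT.lf (nat_lit 0) (nat_lit 2077614190) (nat_lit 380) (nat_lit 4470833526) (nat_lit 76) (nat_lit 5372015372) (nat_lit 116) (nat_lit 5) (nat_lit 121) (nat_lit 5) (nat_lit 117) (nat_lit 5) (nat_lit 356) (nat_lit 306) (nat_lit 238)) (XT.lf (nat_lit 0) (nat_lit 2459747800) (nat_lit 380) (nat_lit 2409552988) (nat_lit 456) (nat_lit 7259617409) (nat_lit 111) (nat_lit 5) (nat_lit 116) (nat_lit 5) (nat_lit 117) (nat_lit 5) (nat_lit 357) (nat_lit 306) (nat_lit 237))))) (XT.nd (nat_lit 234) (nat_lit 912) (nat_lit 0) (XT.nd (nat_lit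 78) (nat_lit 380) (nat_lit 0) (XT.lf (nat_lit 0) (nat_lit 7777220676) (nat_lit 456) (nat_lit 2714157430) (nat_lit 76) (nat_lit 1851290708) (nat_lit 111) (nat_lit 5) (nat_lit 117) (nat_lit 5) (nat_lit 112) (nat_lit 5) (nat_lit 358) (nat_lit 306) (nat_lit 236)) (XT.nd (nat_lit 78) (nat_lit 76) (nat_lit 0) (XT.lf (nat_lit 0) (nat_lit 4470639591) (nat_lit 304) (nat_lit 6338542851) (nat_lit 380) (nat_lit 1752561237) (nat_lit 107) (nat_lit 5) (nat_lit 111) (nat_lit 5) (nat_lit 112) (nat_lit 5) (nat_lit 359) (nat_lit 306) (nat_lit 235)) (XT.lf (nat_lit 0) (nat_lit 1120191374) (nat_lit 380) (nat_lit 913668241) (nat_lit 76) (nat_lit 10753281518) (nat_lit 106) (nat_lit 5) (nat_lit 111) (nat_lit 5) (nat_lit 107) (nat_lit 5) (nat_lit 360) (nat_lit 306) (nat_lit 234)))) (XT.nd (nat_lit 156) (nat_lit 304) (nat_lit 0) (XT.nd (nat_lit 78) (nat_lit 304) (nat_lit 0) (XT.lf (nat_lit 0) (nat_lit 4101603075) (nat_lit 380)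 (nat_lit 6493210171) (nat_lit 76) (nat_lit 2422250177) (nat_lit 102) (nat_lit 5) (nat_lit 107) (nat_lit 5) (nat_lit 103) (nat_lit 5) (nat_lit 361) (nat_lit 306) (nat_lit 233)) (XT.lf (nat_lit 0) (nat_lit 905509290) (nat_lit 304) (nat_lit 6276448645) (nat_lit 380) (nat_lit 6071654512) (nat_lit 98) (nat_lit 5) (nat_lit 102) (nat_lit 5) (nat_lit 103) (nat_lit 5) (nat_lit 362) (nat_lit 306) (nat_lit 232))) (XT.nd (nat_lit 78) (nat_lit 304) (nat_lit 0) (XT.lf (nat_lit 0) (nat_lit 8618147197) (nat_lit 304) (nat_lit 1773925780) (nat_lit 380) (nat_lit 3104078161) (nat_lit 98) (nat_lit 5) (nat_lit 102) (nat_lit 5) (nat_lit 103) (nat_lit 5) (nat_lit 363) (nat_lit 306) (nat_lit 231)) (XT.lf (nat_lit 0) (nat_lit 2802697956) (nat_lit 304) (nat_lit 10922744238) (nat_lit 380) (nat_lit 19728554) (nat_lit 94) (nat_lit 5) (nat_lit 98) (nat_lit 5) (nat_lit 99) (nat_lit 5) (nat_lit 364) (nat_lit 306) (nat_lit 230))))))))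
noncomputable def xc122 : XT := (XT.nd (nat_lit 2028) (nat_lit 1900) (nat_lit 0) (XT.nd (nat_lit 1014) (nat_lit 1292) (nat_lit 0) (XT.nd (nat_lit 468) (nat_lit 988) (nat_lit 0) (XT.nd (nat_lit 234) (nat_lit 608) (nat_lit 0) (XT.nd (nat_lit 78) (nat_lit 228) (nat_lit 0) (XT.lf (nat_lit 0) (nat_lit 3135469295) (nat_lit 380) (nat_lit 3275590300) (nat_lit 76) (nat_lit 7588505662) (nat_lit 93) (nat_lit 5) (nat_lit 98) (nat_lit 5) (nat_lit 94) (nat_lit 5) (nat_lit 365) (nat_lit 306) (nat_lit 229)) (XT.nd (nat_lit 78) (nat_lit 0) (nat_lit 0) (XT.lf (nat_lit 0) (nat_lit 4672650060) (nat_lit 228) (nat_lit 1730606022) (nat_lit 304) (nat_lit 7857791929) (nat_lit 90) (nat_lit 5) (nat_lit 93) (nat_lit 5) (nat_lit 94) (nat_lit 5) (nat_lit 366) (nat_lit 306) (nat_lit 228)) (XT.lf (nat_lit 0) (nat_lit 9805871276) (nat_lit 304) (nat_lit 1672848831) (nat_lit 76) (nat_lit 3050563095) (nat_lit 90) (nat_lit 5) (nat_lit 94)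 (nat_lit 5) (nat_lit 91) (nat_lit 5) (nat_lit 367) (nat_lit 306) (nat_lit 227)))) (XT.nd (nat_lit 78) (nat_lit 304) (nat_lit 0) (XT.lf (nat_lit 0) (nat_lit 6552133460) (nat_lit 304) (nat_lit 6813000544) (nat_lit 380) (nat_lit 1438805831) (nat_lit 86) (nat_lit 5) (nat_lit 90) (nat_lit 5) (nat_lit 91) (nat_lit 5) (nat_lit 368) (nat_lit 306) (nat_lit 226)) (XT.nd (nat_lit 78) (nat_lit 228) (nat_lit 0) (XT.lf (nat_lit 0) (nat_lit 1898023508) (nat_lit 380) (nat_lit 85921178) (nat_lit 76) (nat_lit 13102592791) (nat_lit 85) (nat_lit 5) (nat_lit 90) (nat_lit 5) (nat_lit 86) (nat_lit 5) (nat_lit 369) (nat_lit 306) (nat_lit 225)) (XT.lf (nat_lit 0) (nat_lit 5392013560) (nat_lit 304) (nat_lit 6967479732) (nat_lit 76) (nat_lit 3015123642) (nat_lit 82) (nat_lit 5) (nat_lit 86) (nat_lit 5) (nat_lit 83) (nat_lit 5) (nat_lit 370) (nat_lit 306) (nat_lit 224))))) (XT.nd (nat_lit 234) (nat_lit 456) (nat_lit 0) (XT.nd (nat_lit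 78) (nat_lit 304) (nat_lit 0) (XT.lf (nat_lit 0) (nat_lit 1456196847) (nat_lit 228) (nat_lit 7544685023) (nat_lit 304) (nat_lit 6670165326) (nat_lit 79) (nat_lit 5) (nat_lit 82) (nat_lit 5) (nat_lit 83) (nat_lit 5) (nat_lit 371) (nat_lit 306) (nat_lit 223)) (XT.nd (nat_lit 78) (nat_lit 304) (nat_lit 0) (XT.lf (nat_lit 0) (nat_lit 10237779728) (nat_lit 228) (nat_lit 2526486505) (nat_lit 304) (nat_lit 3210726517) (nat_lit 79) (nat_lit 5) (nat_lit 82) (nat_lit 5) (nat_lit 83) (nat_lit 5) (nat_lit 372) (nat_lit 306) (nat_lit 222)) (XT.lf (nat_lit 0) (nat_lit 376525189) (nat_lit 304) (nat_lit 13300247648) (nat_lit 76) (nat_lit 2610264251) (nat_lit 75) (nat_lit 5) (nat_lit 79) (nat_lit 5) (nat_lit 76) (nat_lit 5) (nat_lit 373) (nat_lit 306) (nat_lit 221)))) (XT.nd (nat_lit 156) (nat_lit 228) (nat_lit 0) (XT.nd (nat_lit 78) (nat_lit 228) (nat_lit 0) (XT.lf (nat_lit 0) (nat_lit 4066946279) (nat_lit 304) (nat_lit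 4611194827) (nat_lit 76) (nat_lit 7927554485) (nat_lit 75) (nat_lit 5) (nat_lit 79) (nat_lit 5) (nat_lit 76) (nat_lit 5) (nat_lit 374) (nat_lit 306) (nat_lit 220)) (XT.lf (nat_lit 0) (nat_lit 4388008210) (nat_lit 228) (nat_lit 3499496016) (nat_lit 304) (nat_lit 9045835677) (nat_lit 72) (nat_lit 5) (nat_lit 75) (nat_lit 5) (nat_lit 76) (nat_lit 5) (nat_lit 375) (nat_lit 306) (nat_lit 219))) (XT.nd (nat_lit 78) (nat_lit 228) (nat_lit 0) (XT.lf (nat_lit 0) (nat_lit 11864772744) (nat_lit 304) (nat_lit 3572145848) (nat_lit 76) (nat_lit 1832640663) (nat_lit 72) (nat_lit 5) (nat_lit 76) (nat_lit 5) (nat_lit 73) (nat_lit 5) (nat_lit 376) (nat_lit 306) (nat_lit 218)) (XT.lf (nat_lit 0) (nat_lit 5711756574) (nat_lit 228) (nat_lit 10317247725) (nat_lit 304) (nat_lit 1584839815) (nat_lit 69) (nat_lit 5) (nat_lit 72) (nat_lit 5) (nat_lit 73) (nat_lit 5) (nat_lit 377) (nat_lit 306) (nat_lit 217)))))) (XT.nd (nat_lit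 468) (nat_lit 532) (nat_lit 0) (XT.nd (nat_lit 234) (nat_lit 456) (nat_lit 0) (XT.nd (nat_lit 78) (nat_lit 228) (nat_lit 0) (XT.lf (nat_lit 0) (nat_lit 2318454919) (nat_lit 304) (nat_lit 2678301492) (nat_lit 76) (nat_lit 12970593280) (nat_lit 68) (nat_lit 5) (nat_lit 72) (nat_lit 5) (nat_lit 69) (nat_lit 5) (nat_lit 378) (nat_lit 306) (nat_lit 216)) (XT.nd (nat_lit 78) (nat_lit 0) (nat_lit 0) (XT.lf (nat_lit 0) (nat_lit 6357528715) (nat_lit 304) (nat_lit 11428041038) (nat_lit 76) (nat_lit 543911494) (nat_lit 65) (nat_lit 5) (nat_lit 69) (nat_lit 5) (nat_lit 66) (nat_lit 5) (nat_lit 379) (nat_lit 306) (nat_lit 215)) (XT.lf (nat_lit 0) (nat_lit 10573532935) (nat_lit 304) (nat_lit 1962453967) (nat_lit 76) (nat_lit 6164824456) (nat_lit 65) (nat_lit 5) (nat_lit 69) (nat_lit 5) (nat_lit 66) (nat_lit 5) (nat_lit 380) (nat_lit 306) (nat_lit 214)))) (XT.nd (nat_lit 78) (nat_lit 304) (nat_lit 0) (XT.lf (nat_lit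 0) (nat_lit 7907893076) (nat_lit 152) (nat_lit 7063724178) (nat_lit 228) (nat_lit 4110003258) (nat_lit 63) (nat_lit 5) (nat_lit 65) (nat_lit 5) (nat_lit 66) (nat_lit 5) (nat_lit 381) (nat_lit 306) (nat_lit 213)) (XT.nd (nat_lit 78) (nat_lit 228) (nat_lit 0) (XT.lf (nat_lit 0) (nat_lit 26914866) (nat_lit 228) (nat_lit 1392746018) (nat_lit 76) (nat_lit 18054201763) (nat_lit 62) (nat_lit 5) (nat_lit 65) (nat_lit 5) (nat_lit 63) (nat_lit 5) (nat_lit 382) (nat_lit 306) (nat_lit 212)) (XT.lf (nat_lit 0) (nat_lit 4313325517) (nat_lit 304) (nat_lit 11138397181) (nat_lit 76) (nat_lit 4421695329) (nat_lit 59) (nat_lit 5) (nat_lit 63) (nat_lit 5) (nat_lit 60) (nat_lit 5) (nat_lit 383) (nat_lit 306) (nat_lit 211))))) (XT.nd (nat_lit 234) (nat_lit 380) (nat_lit 0) (XT.nd (nat_lit 78) (nat_lit 152) (nat_lit 0) (XT.lf (nat_lit 0) (nat_lit 8736975878) (nat_lit 304) (nat_lit 1136334234) (nat_lit 76) (nat_lit 10411396878)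 (nat_lit 59) (nat_lit 5) (nat_lit 63) (nat_lit 5) (nat_lit 60) (nat_lit 5) (nat_lit 384) (nat_lit 306) (nat_lit 210)) (XT.nd (nat_lit 78) (nat_lit 0) (nat_lit 0) (XT.lf (nat_lit 0) (nat_lit 9315757660) (nat_lit 152) (nat_lit 4048086164) (nat_lit 228) (nat_lit 7342381715) (nat_lit 57) (nat_lit 5) (nat_lit 59) (nat_lit 5) (nat_lit 60) (nat_lit 5) (nat_lit 385) (nat_lit 306) (nat_lit 209)) (XT.lf (nat_lit 0) (nat_lit 18140957788) (nat_lit 228) (nat_lit 1086168177) (nat_lit 76) (nat_lit 1912926459) (nat_lit 57) (nat_lit 5) (nat_lit 60) (nat_lit 5) (nat_lit 58) (nat_lit 5) (nat_lit 386) (nat_lit 306) (nat_lit 208)))) (XT.nd (nat_lit 156) (nat_lit 152) (nat_lit 0) (XT.nd (nat_lit 78) (nat_lit 0) (nat_lit 0) (XT.lf (nat_lit 0) (nat_lit 1561272798) (nat_lit 228) (nat_lit 11954418905) (nat_lit 76) (nat_lit 8067316205) (nat_lit 54) (nat_lit 5) (nat_lit 57) (nat_lit 5) (nat_lit 55) (nat_lit 5) (nat_lit 387) (nat_lit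 306) (nat_lit 207)) (XT.lf (nat_lit 0) (nat_lit 6190943366) (nat_lit 228) (nat_lit 1412758747) (nat_lit 76) (nat_lit 14434881468) (nat_lit 54) (nat_lit 5) (nat_lit 57) (nat_lit 5) (nat_lit 55) (nat_lit 5) (nat_lit 388) (nat_lit 306) (nat_lit 206))) (XT.nd (nat_lit 78) (nat_lit 0) (nat_lit 0) (XT.lf (nat_lit 0) (nat_lit 9602345607) (nat_lit 152) (nat_lit 1431689422) (nat_lit 228) (nat_lit 11471560879) (nat_lit 52) (nat_lit 5) (nat_lit 54) (nat_lit 5) (nat_lit 55) (nat_lit 5) (nat_lit 389) (nat_lit 306) (nat_lit 205)) (XT.lf (nat_lit 0) (nat_lit 16066512613) (nat_lit 228) (nat_lit 2087114196) (nat_lit 76) (nat_lit 4831674158) (nat_lit 52) (nat_lit 5) (nat_lit 55) (nat_lit 5) (nat_lit 53) (nat_lit 5) (nat_lit 390) (nat_lit 306) (nat_lit 204))))))) (XT.nd (nat_lit 1014) (nat_lit 836) (nat_lit 0) (XT.nd (nat_lit 468) (nat_lit 532) (nat_lit 0) (XT.nd (nat_lit 234) (nat_lit 152) (nat_lit 0) (XT.nd (nat_lit 78)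 (nat_lit 228) (nat_lit 0) (XT.lf (nat_lit 0) (nat_lit 9189229480) (nat_lit 152) (nat_lit 12146096146) (nat_lit 228) (nat_lit 2141515726) (nat_lit 50) (nat_lit 5) (nat_lit 52) (nat_lit 5) (nat_lit 53) (nat_lit 5) (nat_lit 391) (nat_lit 306) (nat_lit 203)) (XT.nd (nat_lit 78) (nat_lit 152) (nat_lit 0) (XT.lf (nat_lit 0) (nat_lit 2729030268) (nat_lit 228) (nat_lit 3192244227) (nat_lit 76) (nat_lit 18060931199) (nat_lit 49) (nat_lit 5) (nat_lit 52) (nat_lit 5) (nat_lit 50) (nat_lit 5) (nat_lit 392) (nat_lit 306) (nat_lit 202)) (XT.lf (nat_lit 0) (nat_lit 7771907456) (nat_lit 228) (nat_lit 16156704309) (nat_lit 76) (nat_lit 571409977) (nat_lit 47) (nat_lit 5) (nat_lit 50) (nat_lit 5) (nat_lit 48) (nat_lit 5) (nat_lit 393) (nat_lit 306) (nat_lit 201)))) (XT.nd (nat_lit 78) (nat_lit 152) (nat_lit 0) (XT.lf (nat_lit 0) (nat_lit 13040746935) (nat_lit 228) (nat_lit 4829682379) (nat_lit 76) (nat_lit 7160707126) (nat_lit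 47) (nat_lit 5) (nat_lit 50) (nat_lit 5) (nat_lit 48) (nat_lit 5) (nat_lit 394) (nat_lit 306) (nat_lit 200)) (XT.nd (nat_lit 78) (nat_lit 0) (nat_lit 0) (XT.lf (nat_lit 0) (nat_lit 6944789077) (nat_lit 152) (nat_lit 11573595737) (nat_lit 228) (nat_lit 7058282088) (nat_lit 45) (nat_lit 5) (nat_lit 47) (nat_lit 5) (nat_lit 48) (nat_lit 5) (nat_lit 395) (nat_lit 306) (nat_lit 199)) (XT.lf (nat_lit 0) (nat_lit 19143892776) (nat_lit 152) (nat_lit 5049406400) (nat_lit 228) (nat_lit 1944279876) (nat_lit 45) (nat_lit 5) (nat_lit 47) (nat_lit 5) (nat_lit 48) (nat_lit 5) (nat_lit 396) (nat_lit 306) (nat_lit 198))))) (XT.nd (nat_lit 234) (nat_lit 152) (nat_lit 0) (XT.nd (nat_lit 78) (nat_lit 152) (nat_lit 0) (XT.lf (nat_lit 0) (nat_lit 3307897827) (nat_lit 228) (nat_lit 21697319542) (nat_lit 76) (nat_lit 1707658771) (nat_lit 42) (nat_lit 5) (nat_lit 45) (nat_lit 5) (nat_lit 43) (nat_lit 5) (nat_lit 397) (nat_lit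 306) (nat_lit 197)) (XT.nd (nat_lit 78) (nat_lit 152) (nat_lit 0) (XT.lf (nat_lit 0) (nat_lit 8784443552) (nat_lit 228) (nat_lit 9872018008) (nat_lit 76) (nat_lit 8645220485) (nat_lit 42) (nat_lit 5) (nat_lit 45) (nat_lit 5) (nat_lit 43) (nat_lit 5) (nat_lit 398) (nat_lit 306) (nat_lit 196)) (XT.lf (nat_lit 0) (nat_lit 2327042459) (nat_lit 152) (nat_lit 12105626628) (nat_lit 228) (nat_lit 13475265265) (nat_lit 40) (nat_lit 5) (nat_lit 42) (nat_lit 5) (nat_lit 43) (nat_lit 5) (nat_lit 399) (nat_lit 306) (nat_lit 195)))) (XT.nd (nat_lit 156) (nat_lit 152) (nat_lit 0) (XT.nd (nat_lit 78) (nat_lit 0) (nat_lit 0) (XT.lf (nat_lit 0) (nat_lit 15068291252) (nat_lit 152) (nat_lit 5266937743) (nat_lit 228) (nat_lit 8194602221) (nat_lit 40) (nat_lit 5) (nat_lit 42) (nat_lit 5) (nat_lit 43) (nat_lit 5) (nat_lit 400) (nat_lit 306) (nat_lit 194)) (XT.lf (nat_lit 0) (nat_lit 26417471203) (nat_lit 228) (nat_lit 1021405434)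 (nat_lit 76) (nat_lit 1731433696) (nat_lit 40) (nat_lit 5) (nat_lit 43) (nat_lit 5) (nat_lit 41) (nat_lit 4) (nat_lit 401) (nat_lit 306) (nat_lit 193))) (XT.nd (nat_lit 78) (nat_lit 0) (nat_lit 0) (XT.lf (nat_lit 0) (nat_lit 2950976969) (nat_lit 152) (nat_lit 17906385105) (nat_lit 76) (nat_lit 8967188863) (nat_lit 38) (nat_lit 5) (nat_lit 40) (nat_lit 5) (nat_lit 39) (nat_lit 5) (nat_lit 402) (nat_lit 306) (nat_lit 192)) (XT.lf (nat_lit 0) (nat_lit 8766971857) (nat_lit 152) (nat_lit 5283610894) (nat_lit 76) (nat_lit 16447129739) (nat_lit 38) (nat_lit 5) (nat_lit 40) (nat_lit 5) (nat_lit 39) (nat_lit 5) (nat_lit 403) (nat_lit 306) (nat_lit 191)))))) (XT.nd (nat_lit 546) (nat_lit 380) (nat_lit 0) (XT.nd (nat_lit 234) (nat_lit 228) (nat_lit 0) (XT.nd (nat_lit 78) (nat_lit 76) (nat_lit 0) (XT.lf (nat_lit 0) (nat_lit 7846686319) (nat_lit 152) (nat_lit 6972573178) (nat_lit 228) (nat_lit 16369958125) (nat_lit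 36) (nat_lit 5) (nat_lit 38) (nat_lit 5) (nat_lit 39) (nat_lit 5) (nat_lit 404) (nat_lit 306) (nat_lit 190)) (XT.nd (nat_lit 78) (nat_lit 76) (nat_lit 0) (XT.lf (nat_lit 0) (nat_lit 21096502207) (nat_lit 228) (nat_lit 10448592928) (nat_lit 76) (nat_lit 355074211) (nat_lit 36) (nat_lit 5) (nat_lit 39) (nat_lit 5) (nat_lit 37) (nat_lit 4) (nat_lit 405) (nat_lit 306) (nat_lit 189)) (XT.lf (nat_lit 0) (nat_lit 2794014543) (nat_lit 76) (nat_lit 24850784892) (nat_lit 152) (nat_lit 4985171010) (nat_lit 35) (nat_lit 5) (nat_lit 36) (nat_lit 5) (nat_lit 37) (nat_lit 4) (nat_lit 406) (nat_lit 306) (nat_lit 188)))) (XT.nd (nat_lit 156) (nat_lit 152) (nat_lit 0) (XT.nd (nat_lit 78) (nat_lit 0) (nat_lit 0) (XT.lf (nat_lit 0) (nat_lit 1081638401) (nat_lit 152) (nat_lit 16764814451) (nat_lit 76) (nat_lit 15532122074) (nat_lit 34) (nat_lit 5) (nat_lit 36) (nat_lit 5) (nat_lit 35) (nat_lit 5) (nat_lit 407) (nat_lit 306)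 (nat_lit 187)) (XT.lf (nat_lit 0) (nat_lit 7217508306) (nat_lit 152) (nat_lit 3373874863) (nat_lit 76) (nat_lit 23557158724) (nat_lit 34) (nat_lit 5) (nat_lit 36) (nat_lit 5) (nat_lit 35) (nat_lit 5) (nat_lit 408) (nat_lit 306) (nat_lit 186))) (XT.nd (nat_lit 78) (nat_lit 0) (nat_lit 0) (XT.lf (nat_lit 0) (nat_lit 10603394615) (nat_lit 152) (nat_lit 3023610486) (nat_lit 228) (nat_lit 21311918856) (nat_lit 32) (nat_lit 5) (nat_lit 34) (nat_lit 5) (nat_lit 35) (nat_lit 5) (nat_lit 409) (nat_lit 306) (nat_lit 185)) (XT.lf (nat_lit 0) (nat_lit 20296735076) (nat_lit 228) (nat_lit 10751417622) (nat_lit 76) (nat_lit 4702828875) (nat_lit 32) (nat_lit 5) (nat_lit 35) (nat_lit 5) (nat_lit 33) (nat_lit 4) (nat_lit 410) (nat_lit 306) (nat_lit 184))))) (XT.nd (nat_lit 234) (nat_lit 228) (nat_lit 0) (XT.nd (nat_lit 78) (nat_lit 76) (nat_lit 0) (XT.lf (nat_lit 0) (nat_lit 3252026293) (nat_lit 76) (nat_lit 23963764541)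 (nat_lit 152) (nat_lit 9370135531) (nat_lit 31) (nat_lit 5) (nat_lit 32) (nat_lit 5) (nat_lit 33) (nat_lit 4) (nat_lit 411) (nat_lit 306) (nat_lit 183)) (XT.nd (nat_lit 78) (nat_lit 76) (nat_lit 0) (XT.lf (nat_lit 0) (nat_lit 17874466759) (nat_lit 76) (nat_lit 16564698198) (nat_lit 152) (nat_lit 3003854534) (nat_lit 31) (nat_lit 5) (nat_lit 32) (nat_lit 5) (nat_lit 33) (nat_lit 4) (nat_lit 412) (nat_lit 306) (nat_lit 182)) (XT.lf (nat_lit 0) (nat_lit 3472481826) (nat_lit 152) (nat_lit 5445509619) (nat_lit 76) (nat_lit 29407159287) (nat_lit 30) (nat_lit 5) (nat_lit 32) (nat_lit 5) (nat_lit 31) (nat_lit 5) (nat_lit 413) (nat_lit 306) (nat_lit 181)))) (XT.nd (nat_lit 156) (nat_lit 76) (nat_lit 0) (XT.nd (nat_lit 78) (nat_lit 0) (nat_lit 0) (XT.lf (nat_lit 0) (nat_lit 9231123849) (nat_lit 152) (nat_lit 929089660) (nat_lit 228) (nat_lit 29070317963) (nat_lit 28) (nat_lit 5) (nat_lit 30) (nat_lit 5) (nat_lit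 31) (nat_lit 5) (nat_lit 414) (nat_lit 306) (nat_lit 180)) (XT.lf (nat_lit 0) (nat_lit 17163066782) (nat_lit 228) (nat_lit 15792990586) (nat_lit 76) (nat_lit 7203583703) (nat_lit 28) (nat_lit 5) (nat_lit 31) (nat_lit 5) (nat_lit 29) (nat_lit 4) (nat_lit 415) (nat_lit 306) (nat_lit 179))) (XT.nd (nat_lit 78) (nat_lit 76) (nat_lit 0) (XT.lf (nat_lit 0) (nat_lit 24374320253) (nat_lit 228) (nat_lit 1189520766) (nat_lit 76) (nat_lit 15552835564) (nat_lit 28) (nat_lit 5) (nat_lit 31) (nat_lit 5) (nat_lit 29) (nat_lit 4) (nat_lit 416) (nat_lit 306) (nat_lit 178)) (XT.lf (nat_lit 0) (nat_lit 14107990843) (nat_lit 76) (nat_lit 17818967835) (nat_lit 152) (nat_lit 10171715063) (nat_lit 27) (nat_lit 5) (nat_lit 28) (nat_lit 5) (nat_lit 29) (nat_lit 4) (nat_lit 417) (nat_lit 306) (nat_lit 177))))))))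
noncomputable def xc123 : XT := (XT.nd (nat_lit 2028) (nat_lit 0) (nat_lit 0) (XT.nd (nat_lit 1014) (nat_lit 456) (nat_lit 0) (XT.nd (nat_lit 468) (nat_lit 228) (nat_lit 0) (XT.nd (nat_lit 234) (nat_lit 76) (nat_lit 0) (XT.nd (nat_lit 78) (nat_lit 228) (nat_lit 0) (XT.lf (nat_lit 0) (nat_lit 29869641595) (nat_lit 76) (nat_lit 9838102712) (nat_lit 152) (nat_lit 3402341412) (nat_lit 27) (nat_lit 5) (nat_lit 28) (nat_lit 5) (nat_lit 29) (nat_lit 4) (nat_lit 418) (nat_lit 306) (nat_lit 176)) (XT.nd (nat_lit 78) (nat_lit 0) (nat_lit 0) (XT.lf (nat_lit 0) (nat_lit 1936963302) (nat_lit 152) (nat_lit 1571861814) (nat_lit 228) (nat_lit 40641735906) (nat_lit 24) (nat_lit 5) (nat_lit 26) (nat_lit 5) (nat_lit 27) (nat_lit 5) (nat_lit 419) (nat_lit 306) (nat_lit 175)) (XT.lf (nat_lit 0) (nat_lit 10750499084) (nat_lit 228) (nat_lit 27497731733) (nat_lit 76) (nat_lit 6967264265) (nat_lit 24) (nat_lit 5) (nat_lit 27)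 (nat_lit 5) (nat_lit 25) (nat_lit 4) (nat_lit 420) (nat_lit 306) (nat_lit 174)))) (XT.nd (nat_lit 78) (nat_lit 76) (nat_lit 0) (XT.lf (nat_lit 0) (nat_lit 18215079029) (nat_lit 228) (nat_lit 12374260222) (nat_lit 76) (nat_lit 15722869969) (nat_lit 24) (nat_lit 5) (nat_lit 27) (nat_lit 5) (nat_lit 25) (nat_lit 4) (nat_lit 421) (nat_lit 306) (nat_lit 173)) (XT.nd (nat_lit 78) (nat_lit 0) (nat_lit 0) (XT.lf (nat_lit 0) (nat_lit 3248531747) (nat_lit 76) (nat_lit 22676672828) (nat_lit 152) (nat_lit 21515973639) (nat_lit 23) (nat_lit 5) (nat_lit 24) (nat_lit 5) (nat_lit 25) (nat_lit 4) (nat_lit 422) (nat_lit 306) (nat_lit 172)) (XT.lf (nat_lit 0) (nat_lit 19576067695) (nat_lit 76) (nat_lit 14406014262) (nat_lit 152) (nat_lit 14618472507) (nat_lit 23) (nat_lit 5) (nat_lit 24) (nat_lit 5) (nat_lit 25) (nat_lit 4) (nat_lit 423) (nat_lit 306) (nat_lit 171))))) (XT.nd (nat_lit 234) (nat_lit 76) (nat_lit 0) (XT.nd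 (nat_lit 78) (nat_lit 152) (nat_lit 0) (XT.lf (nat_lit 0) (nat_lit 36376342358) (nat_lit 76) (nat_lit 5895092527) (nat_lit 152) (nat_lit 7523555619) (nat_lit 23) (nat_lit 5) (nat_lit 24) (nat_lit 5) (nat_lit 25) (nat_lit 4) (nat_lit 424) (nat_lit 306) (nat_lit 170)) (XT.nd (nat_lit 78) (nat_lit 76) (nat_lit 0) (XT.lf (nat_lit 0) (nat_lit 2662943187) (nat_lit 76) (nat_lit 48190687131) (nat_lit 76) (nat_lit 170305986) (nat_lit 22) (nat_lit 4) (nat_lit 23) (nat_lit 5) (nat_lit 23) (nat_lit 4) (nat_lit 425) (nat_lit 306) (nat_lit 169)) (XT.lf (nat_lit 0) (nat_lit 7445260519) (nat_lit 152) (nat_lit 32931313412) (nat_lit 76) (nat_lit 11905457300) (nat_lit 21) (nat_lit 5) (nat_lit 23) (nat_lit 5) (nat_lit 22) (nat_lit 4) (nat_lit 426) (nat_lit 306) (nat_lit 168)))) (XT.nd (nat_lit 156) (nat_lit 76) (nat_lit 0) (XT.nd (nat_lit 78) (nat_lit 0) (nat_lit 0) (XT.lf (nat_lit 0) (nat_lit 15277112053) (nat_lit 152) (nat_lit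 17056743265) (nat_lit 76) (nat_lit 21244227275) (nat_lit 21) (nat_lit 5) (nat_lit 23) (nat_lit 5) (nat_lit 22) (nat_lit 4) (nat_lit 427) (nat_lit 306) (nat_lit 167)) (XT.lf (nat_lit 0) (nat_lit 23335415265) (nat_lit 152) (nat_lit 721774608) (nat_lit 76) (nat_lit 30856082104) (nat_lit 21) (nat_lit 5) (nat_lit 23) (nat_lit 5) (nat_lit 22) (nat_lit 4) (nat_lit 428) (nat_lit 306) (nat_lit 166))) (XT.nd (nat_lit 78) (nat_lit 0) (nat_lit 0) (XT.lf (nat_lit 0) (nat_lit 16408045908) (nat_lit 76) (nat_lit 15376889656) (nat_lit 152) (nat_lit 24499098762) (nat_lit 20) (nat_lit 5) (nat_lit 21) (nat_lit 5) (nat_lit 22) (nat_lit 4) (nat_lit 429) (nat_lit 306) (nat_lit 165)) (XT.lf (nat_lit 0) (nat_lit 34051330194) (nat_lit 76) (nat_lit 6435737708) (nat_lit 152) (nat_lit 17208879137) (nat_lit 20) (nat_lit 5) (nat_lit 21) (nat_lit 5) (nat_lit 22) (nat_lit 4) (nat_lit 430) (nat_lit 306) (nat_lit 164)))))) (XT.nd (nat_lit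 468) (nat_lit 228) (nat_lit 0) (XT.nd (nat_lit 234) (nat_lit 76) (nat_lit 0) (XT.nd (nat_lit 78) (nat_lit 152) (nat_lit 0) (XT.lf (nat_lit 0) (nat_lit 49468935941) (nat_lit 152) (nat_lit 6967922209) (nat_lit 0) (nat_lit 2712800078) (nat_lit 20) (nat_lit 5) (nat_lit 22) (nat_lit 4) (nat_lit 20) (nat_lit 4) (nat_lit 431) (nat_lit 306) (nat_lit 163)) (XT.nd (nat_lit 78) (nat_lit 76) (nat_lit 0) (XT.lf (nat_lit 0) (nat_lit 10332456060) (nat_lit 76) (nat_lit 48543088473) (nat_lit 76) (nat_lit 1766778897) (nat_lit 19) (nat_lit 4) (nat_lit 20) (nat_lit 5) (nat_lit 20) (nat_lit 4) (nat_lit 432) (nat_lit 306) (nat_lit 162)) (XT.lf (nat_lit 0) (nat_lit 6323308689) (nat_lit 152) (nat_lit 33959579063) (nat_lit 76) (nat_lit 21893141439) (nat_lit 18) (nat_lit 5) (nat_lit 20) (nat_lit 5) (nat_lit 19) (nat_lit 4) (nat_lit 433) (nat_lit 306) (nat_lit 161)))) (XT.nd (nat_lit 78) (nat_lit 76) (nat_lit 0) (XT.lf (nat_lit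 0) (nat_lit 14613067129) (nat_lit 152) (nat_lit 17150385089) (nat_lit 76) (nat_lit 31991995869) (nat_lit 18) (nat_lit 5) (nat_lit 20) (nat_lit 5) (nat_lit 19) (nat_lit 4) (nat_lit 434) (nat_lit 306) (nat_lit 160)) (XT.nd (nat_lit 78) (nat_lit 0) (nat_lit 0) (XT.lf (nat_lit 0) (nat_lit 152358621) (nat_lit 76) (nat_lit 22993322062) (nat_lit 152) (nat_lit 42236745073) (nat_lit 17) (nat_lit 5) (nat_lit 18) (nat_lit 5) (nat_lit 19) (nat_lit 4) (nat_lit 435) (nat_lit 306) (nat_lit 159)) (XT.lf (nat_lit 0) (nat_lit 18312185881) (nat_lit 76) (nat_lit 13788052114) (nat_lit 152) (nat_lit 34952996845) (nat_lit 17) (nat_lit 5) (nat_lit 18) (nat_lit 5) (nat_lit 19) (nat_lit 4) (nat_lit 436) (nat_lit 306) (nat_lit 158))))) (XT.nd (nat_lit 234) (nat_lit 152) (nat_lit 0) (XT.nd (nat_lit 78) (nat_lit 76) (nat_lit 0) (XT.lf (nat_lit 0) (nat_lit 37003638210) (nat_lit 76) (nat_lit 4312784194) (nat_lit 152) (nat_lit 27457957096)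 (nat_lit 17) (nat_lit 5) (nat_lit 18) (nat_lit 5) (nat_lit 19) (nat_lit 4) (nat_lit 437) (nat_lit 306) (nat_lit 157)) (XT.nd (nat_lit 78) (nat_lit 76) (nat_lit 0) (XT.lf (nat_lit 0) (nat_lit 50854586811) (nat_lit 152) (nat_lit 14356615629) (nat_lit 0) (nat_lit 5334592211) (nat_lit 17) (nat_lit 5) (nat_lit 19) (nat_lit 4) (nat_lit 17) (nat_lit 4) (nat_lit 438) (nat_lit 306) (nat_lit 156)) (XT.lf (nat_lit 0) (nat_lit 3594823818) (nat_lit 76) (nat_lit 57154665753) (nat_lit 76) (nat_lit 11618745838) (nat_lit 16) (nat_lit 4) (nat_lit 17) (nat_lit 5) (nat_lit 17) (nat_lit 4) (nat_lit 439) (nat_lit 306) (nat_lit 155)))) (XT.nd (nat_lit 156) (nat_lit 76) (nat_lit 0) (XT.nd (nat_lit 78) (nat_lit 76) (nat_lit 0) (XT.lf (nat_lit 0) (nat_lit 22366668994) (nat_lit 76) (nat_lit 48712955579) (nat_lit 76) (nat_lit 3161574193) (nat_lit 16) (nat_lit 4) (nat_lit 17) (nat_lit 5) (nat_lit 17) (nat_lit 4) (nat_lit 440) (nat_lit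 306) (nat_lit 154)) (XT.lf (nat_lit 0) (nat_lit 5434564695) (nat_lit 152) (nat_lit 34534226190) (nat_lit 76) (nat_lit 36200154536) (nat_lit 15) (nat_lit 5) (nat_lit 17) (nat_lit 5) (nat_lit 16) (nat_lit 4) (nat_lit 441) (nat_lit 306) (nat_lit 153))) (XT.nd (nat_lit 78) (nat_lit 76) (nat_lit 0) (XT.lf (nat_lit 0) (nat_lit 14218770590) (nat_lit 152) (nat_lit 16716862143) (nat_lit 76) (nat_lit 47218141692) (nat_lit 15) (nat_lit 5) (nat_lit 17) (nat_lit 5) (nat_lit 16) (nat_lit 4) (nat_lit 442) (nat_lit 306) (nat_lit 152)) (XT.lf (nat_lit 0) (nat_lit 1655833196) (nat_lit 76) (nat_lit 21620496396) (nat_lit 152) (nat_lit 56921524723) (nat_lit 14) (nat_lit 5) (nat_lit 15) (nat_lit 5) (nat_lit 16) (nat_lit 4) (nat_lit 443) (nat_lit 306) (nat_lit 151))))))) (XT.nd (nat_lit 37050) (nat_lit 0) (nat_lit 15656) (XT.nd (nat_lit 36504) (nat_lit 0) (nat_lit 22192) (XT.nd (nat_lit 36270) (nat_lit 0) (nat_lit 23408) (XT.nd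 (nat_lit 78) (nat_lit 0) (nat_lit 0) (XT.lf (nat_lit 0) (nat_lit 20911000534) (nat_lit 76) (nat_lit 11857400316) (nat_lit 152) (nat_lit 49529972988) (nat_lit 14) (nat_lit 5) (nat_lit 15) (nat_lit 5) (nat_lit 16) (nat_lit 4) (nat_lit 444) (nat_lit 306) (nat_lit 150)) (XT.nd (nat_lit 36114) (nat_lit 0) (nat_lit 23940) (XT.lf (nat_lit 0) (nat_lit 40732766440) (nat_lit 76) (nat_lit 1806621162) (nat_lit 152) (nat_lit 41922697523) (nat_lit 14) (nat_lit 5) (nat_lit 15) (nat_lit 5) (nat_lit 16) (nat_lit 4) (nat_lit 445) (nat_lit 306) (nat_lit 149)) (XT.lf (nat_lit 0) (nat_lit 2195303350) (nat_lit 532) (nat_lit 565738196) (nat_lit 532) (nat_lit 565738196) (nat_lit 329) (nat_lit 3) (nat_lit 336) (nat_lit 3) (nat_lit 336) (nat_lit 5) (nat_lit 307) (nat_lit 307) (nat_lit 286)))) (XT.nd (nat_lit 78) (nat_lit 532) (nat_lit 0) (XT.lf (nat_lit 76) (nat_lit 2072152985) (nat_lit 0) (nat_lit 4571416906) (nat_lit 532) (nat_lit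 41639962) (nat_lit 330) (nat_lit 5) (nat_lit 329) (nat_lit 3) (nat_lit 336) (nat_lit 5) (nat_lit 308) (nat_lit 307) (nat_lit 285)) (XT.nd (nat_lit 78) (nat_lit 0) (nat_lit 0) (XT.lf (nat_lit 0) (nat_lit 2128071871) (nat_lit 532) (nat_lit 1390370058) (nat_lit 608) (nat_lit 3201048454) (nat_lit 322) (nat_lit 5) (nat_lit 329) (nat_lit 3) (nat_lit 330) (nat_lit 5) (nat_lit 309) (nat_lit 307) (nat_lit 284)) (XT.lf (nat_lit 76) (nat_lit 1921139008) (nat_lit 0) (nat_lit 2375924010) (nat_lit 608) (nat_lit 2459766631) (nat_lit 323) (nat_lit 5) (nat_lit 322) (nat_lit 5) (nat_lit 330) (nat_lit 5) (nat_lit 310) (nat_lit 307) (nat_lit 283))))) (XT.nd (nat_lit 234) (nat_lit 684) (nat_lit 0) (XT.nd (nat_lit 78) (nat_lit 532) (nat_lit 0) (XT.lf (nat_lit 76) (nat_lit 5316000690) (nat_lit 0) (nat_lit 1147723594) (nat_lit 608) (nat_lit 333677512) (nat_lit 323) (nat_lit 5) (nat_lit 322) (nat_lit 5) (nat_lit 330) (nat_lit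 5) (nat_lit 311) (nat_lit 307) (nat_lit 282)) (XT.nd (nat_lit 78) (nat_lit 0) (nat_lit 0) (XT.lf (nat_lit 0) (nat_lit 1760596738) (nat_lit 608) (nat_lit 4893575836) (nat_lit 684) (nat_lit 186350047) (nat_lit 315) (nat_lit 5) (nat_lit 323) (nat_lit 5) (nat_lit 324) (nat_lit 5) (nat_lit 312) (nat_lit 307) (nat_lit 281)) (XT.lf (nat_lit 0) (nat_lit 3859750908) (nat_lit 608) (nat_lit 1437972843) (nat_lit 684) (nat_lit 1588734477) (nat_lit 315) (nat_lit 5) (nat_lit 323) (nat_lit 5) (nat_lit 324) (nat_lit 5) (nat_lit 313) (nat_lit 307) (nat_lit 280)))) (XT.nd (nat_lit 156) (nat_lit 0) (nat_lit 0) (XT.nd (nat_lit 78) (nat_lit 684) (nat_lit 0) (XT.lf (nat_lit 76) (nat_lit 2116797313) (nat_lit 0) (nat_lit 3849981139) (nat_lit 684) (nat_lit 968727086) (nat_lit 316) (nat_lit 5) (nat_lit 315) (nat_lit 5) (nat_lit 324) (nat_lit 5) (nat_lit 314) (nat_lit 307) (nat_lit 279)) (XT.lf (nat_lit 0) (nat_lit 1068703052) (nat_lit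 684) (nat_lit 1236025576) (nat_lit 760) (nat_lit 4682834574) (nat_lit 306) (nat_lit 5) (nat_lit 315) (nat_lit 5) (nat_lit 316) (nat_lit 5) (nat_lit 315) (nat_lit 307) (nat_lit 278))) (XT.nd (nat_lit 78) (nat_lit 0) (nat_lit 76) (XT.lf (nat_lit 76) (nat_lit 2446740701) (nat_lit 0) (nat_lit 652240265) (nat_lit 760) (nat_lit 3943451787) (nat_lit 307) (nat_lit 5) (nat_lit 306) (nat_lit 5) (nat_lit 316) (nat_lit 5) (nat_lit 316) (nat_lit 307) (nat_lit 277)) (XT.lf (nat_lit 0) (nat_lit 5142458079) (nat_lit 684) (nat_lit 891002159) (nat_lit 760) (nat_lit 1066991038) (nat_lit 307) (nat_lit 5) (nat_lit 316) (nat_lit 5) (nat_lit 317) (nat_lit 5) (nat_lit 317) (nat_lit 307) (nat_lit 276)))))) (XT.nd (nat_lit 546) (nat_lit 4256) (nat_lit 0) (XT.nd (nat_lit 234) (nat_lit 1596) (nat_lit 0) (XT.nd (nat_lit 78) (nat_lit 0) (nat_lit 0) (XT.lf (nat_lit 0) (nat_lit 51190437) (nat_lit 760) (nat_lit 4232416283) (nat_lit 836)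 (nat_lit 2877670250) (nat_lit 297) (nat_lit 5) (nat_lit 307) (nat_lit 5) (nat_lit 308) (nat_lit 5) (nat_lit 318) (nat_lit 307) (nat_lit 275)) (XT.nd (nat_lit 78) (nat_lit 0) (nat_lit 0) (XT.lf (nat_lit 0) (nat_lit 2022851268) (nat_lit 760) (nat_lit 408661307) (nat_lit 836) (nat_lit 4793652151) (nat_lit 297) (nat_lit 5) (nat_lit 307) (nat_lit 5) (nat_lit 308) (nat_lit 5) (nat_lit 319) (nat_lit 307) (nat_lit 274)) (XT.lf (nat_lit 76) (nat_lit 3553405545) (nat_lit 0) (nat_lit 468849760) (nat_lit 836) (nat_lit 3269719630) (nat_lit 298) (nat_lit 5) (nat_lit 297) (nat_lit 5) (nat_lit 308) (nat_lit 5) (nat_lit 320) (nat_lit 307) (nat_lit 273)))) (XT.nd (nat_lit 156) (nat_lit 836) (nat_lit 0) (XT.nd (nat_lit 78) (nat_lit 76) (nat_lit 0) (XT.lf (nat_lit 0) (nat_lit 223993289) (nat_lit 760) (nat_lit 5814985139) (nat_lit 836) (nat_lit 1323152688) (nat_lit 288) (nat_lit 5) (nat_lit 298) (nat_lit 5) (nat_lit 299) (nat_lit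 5) (nat_lit 321) (nat_lit 307) (nat_lit 272)) (XT.lf (nat_lit 0) (nat_lit 648097688) (nat_lit 836) (nat_lit 3111066952) (nat_lit 76) (nat_lit 3675701215) (nat_lit 287) (nat_lit 5) (nat_lit 298) (nat_lit 5) (nat_lit 288) (nat_lit 5) (nat_lit 322) (nat_lit 307) (nat_lit 271))) (XT.nd (nat_lit 78) (nat_lit 0) (nat_lit 0) (XT.lf (nat_lit 0) (nat_lit 996255529) (nat_lit 836) (nat_lit 1603875654) (nat_lit 912) (nat_lit 4910867780) (nat_lit 276) (nat_lit 5) (nat_lit 287) (nat_lit 5) (nat_lit 288) (nat_lit 5) (nat_lit 323) (nat_lit 307) (nat_lit 270)) (XT.lf (nat_lit 0) (nat_lit 4588507919) (nat_lit 912) (nat_lit 2352561013) (nat_lit 76) (nat_lit 649068546) (nat_lit 276) (nat_lit 5) (nat_lit 288) (nat_lit 5) (nat_lit 277) (nat_lit 5) (nat_lit 324) (nat_lit 307) (nat_lit 269))))) (XT.nd (nat_lit 234) (nat_lit 2280) (nat_lit 0) (XT.nd (nat_lit 78) (nat_lit 1064) (nat_lit 0) (XT.lf (nat_lit 0) (nat_lit 1908839905)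 (nat_lit 912) (nat_lit 4703802086) (nat_lit 988) (nat_lit 1059778262) (nat_lit 264) (nat_lit 5) (nat_lit 276) (nat_lit 5) (nat_lit 277) (nat_lit 5) (nat_lit 325) (nat_lit 307) (nat_lit 268)) (XT.nd (nat_lit 78) (nat_lit 988) (nat_lit 0) (XT.lf (nat_lit 0) (nat_lit 888479501) (nat_lit 988) (nat_lit 1467173845) (nat_lit 76) (nat_lit 5402302218) (nat_lit 263) (nat_lit 5) (nat_lit 276) (nat_lit 5) (nat_lit 264) (nat_lit 5) (nat_lit 326) (nat_lit 307) (nat_lit 267)) (XT.lf (nat_lit 0) (nat_lit 2847592985) (nat_lit 1064) (nat_lit 4888678611) (nat_lit 76) (nat_lit 110308059) (nat_lit 250) (nat_lit 5) (nat_lit 264) (nat_lit 5) (nat_lit 251) (nat_lit 5) (nat_lit 327) (nat_lit 307) (nat_lit 266)))) (XT.nd (nat_lit 156) (nat_lit 1216) (nat_lit 0) (XT.nd (nat_lit 78) (nat_lit 1064) (nat_lit 0) (XT.lf (nat_lit 0) (nat_lit 4849216995) (nat_lit 1064) (nat_lit 462758012) (nat_lit 76) (nat_lit 2626422693) (nat_lit 250)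 (nat_lit 5) (nat_lit 264) (nat_lit 5) (nat_lit 251) (nat_lit 5) (nat_lit 328) (nat_lit 307) (nat_lit 265)) (XT.lf (nat_lit 0) (nat_lit 4130251009) (nat_lit 1064) (nat_lit 2767381558) (nat_lit 1140) (nat_lit 1135781398) (nat_lit 236) (nat_lit 5) (nat_lit 250) (nat_lit 5) (nat_lit 251) (nat_lit 5) (nat_lit 329) (nat_lit 307) (nat_lit 264))) (XT.nd (nat_lit 78) (nat_lit 0) (nat_lit 0) (XT.lf (nat_lit 0) (nat_lit 697621969) (nat_lit 1140) (nat_lit 120509996) (nat_lit 1216) (nat_lit 7314169087) (nat_lit 220) (nat_lit 5) (nat_lit 235) (nat_lit 5) (nat_lit 236) (nat_lit 5) (nat_lit 330) (nat_lit 307) (nat_lit 263)) (XT.lf (nat_lit 0) (nat_lit 2821399459) (nat_lit 1216) (nat_lit 2801301683) (nat_lit 76) (nat_lit 2610751367) (nat_lit 220) (nat_lit 5) (nat_lit 236) (nat_lit 5) (nat_lit 221) (nat_lit 5) (nat_lit 331) (nat_lit 307) (nat_lit 262))))))))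
noncomputable def xc124 : XT := (XT.nd (nat_lit 2028) (nat_lit 4332) (nat_lit 0) (XT.nd (nat_lit 1014) (nat_lit 2964) (nat_lit 0) (XT.nd (nat_lit 468) (nat_lit 2128) (nat_lit 0) (XT.nd (nat_lit 234) (nat_lit 1140) (nat_lit 0) (XT.nd (nat_lit 78) (nat_lit 684) (nat_lit 0) (XT.lf (nat_lit 0) (nat_lit 1961472879) (nat_lit 988) (nat_lit 2893546012) (nat_lit 1064) (nat_lit 3483552840) (nat_lit 207) (nat_lit 5) (nat_lit 220) (nat_lit 5) (nat_lit 221) (nat_lit 5) (nat_lit 332) (nat_lit 307) (nat_lit 261)) (XT.nd (nat_lit 78) (nat_lit 684) (nat_lit 0) (XT.lf (nat_lit 0) (nat_lit 6878325935) (nat_lit 988) (nat_lit 50820429) (nat_lit 1064) (nat_lit 1518352831) (nat_lit 207) (nat_lit 5) (nat_lit 220) (nat_lit 5) (nat_lit 221) (nat_lit 5) (nat_lit 333) (nat_lit 307) (nat_lit 260)) (XT.lf (nat_lit 0) (nat_lit 508776520) (nat_lit 684) (nat_lit 5189516197) (nat_lit 76) (nat_lit 2860907975) (nat_lit 198) (nat_lit 5) (nat_lit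 207) (nat_lit 5) (nat_lit 199) (nat_lit 5) (nat_lit 334) (nat_lit 307) (nat_lit 259)))) (XT.nd (nat_lit 78) (nat_lit 1140) (nat_lit 0) (XT.lf (nat_lit 0) (nat_lit 2535806202) (nat_lit 684) (nat_lit 247477393) (nat_lit 76) (nat_lit 5891466810) (nat_lit 198) (nat_lit 5) (nat_lit 207) (nat_lit 5) (nat_lit 199) (nat_lit 5) (nat_lit 335) (nat_lit 307) (nat_lit 258)) (XT.nd (nat_lit 78) (nat_lit 608) (nat_lit 0) (XT.lf (nat_lit 0) (nat_lit 4627716193) (nat_lit 608) (nat_lit 3903546570) (nat_lit 76) (nat_lit 262416994) (nat_lit 191) (nat_lit 5) (nat_lit 199) (nat_lit 5) (nat_lit 192) (nat_lit 5) (nat_lit 336) (nat_lit 307) (nat_lit 257)) (XT.lf (nat_lit 0) (nat_lit 1220641759) (nat_lit 608) (nat_lit 5558909553) (nat_lit 684) (nat_lit 2136744843) (nat_lit 183) (nat_lit 5) (nat_lit 191) (nat_lit 5) (nat_lit 192) (nat_lit 5) (nat_lit 337) (nat_lit 307) (nat_lit 256))))) (XT.nd (nat_lit 234) (nat_lit 1520) (nat_lit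 0) (XT.nd (nat_lit 78) (nat_lit 608) (nat_lit 0) (XT.lf (nat_lit 0) (nat_lit 6532591430) (nat_lit 608) (nat_lit 2458979823) (nat_lit 684) (nat_lit 51184103) (nat_lit 183) (nat_lit 5) (nat_lit 191) (nat_lit 5) (nat_lit 192) (nat_lit 5) (nat_lit 338) (nat_lit 307) (nat_lit 255)) (XT.nd (nat_lit 78) (nat_lit 0) (nat_lit 0) (XT.lf (nat_lit 0) (nat_lit 2047667335) (nat_lit 608) (nat_lit 6360172218) (nat_lit 76) (nat_lit 764846084) (nat_lit 175) (nat_lit 5) (nat_lit 183) (nat_lit 5) (nat_lit 176) (nat_lit 5) (nat_lit 339) (nat_lit 307) (nat_lit 254)) (XT.lf (nat_lit 0) (nat_lit 4216224890) (nat_lit 608) (nat_lit 1030880961) (nat_lit 76) (nat_lit 4059190079) (nat_lit 175) (nat_lit 5) (nat_lit 183) (nat_lit 5) (nat_lit 176) (nat_lit 5) (nat_lit 340) (nat_lit 307) (nat_lit 253)))) (XT.nd (nat_lit 156) (nat_lit 532) (nat_lit 0) (XT.nd (nat_lit 78) (nat_lit 456) (nat_lit 0) (XT.lf (nat_lit 0) (nat_lit 4501121666)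 (nat_lit 532) (nat_lit 1951037746) (nat_lit 608) (nat_lit 2991715016) (nat_lit 168) (nat_lit 5) (nat_lit 175) (nat_lit 5) (nat_lit 176) (nat_lit 5) (nat_lit 341) (nat_lit 307) (nat_lit 252)) (XT.lf (nat_lit 0) (nat_lit 586662142) (nat_lit 456) (nat_lit 8158316843) (nat_lit 532) (nat_lit 840935728) (nat_lit 162) (nat_lit 5) (nat_lit 168) (nat_lit 5) (nat_lit 169) (nat_lit 5) (nat_lit 342) (nat_lit 307) (nat_lit 251))) (XT.nd (nat_lit 78) (nat_lit 456) (nat_lit 0) (XT.lf (nat_lit 0) (nat_lit 1377364410) (nat_lit 532) (nat_lit 3426584438) (nat_lit 76) (nat_lit 4927003531) (nat_lit 161) (nat_lit 5) (nat_lit 168) (nat_lit 5) (nat_lit 162) (nat_lit 5) (nat_lit 343) (nat_lit 307) (nat_lit 250)) (XT.lf (nat_lit 0) (nat_lit 2305138583) (nat_lit 456) (nat_lit 1323586568) (nat_lit 532) (nat_lit 6251890046) (nat_lit 155) (nat_lit 5) (nat_lit 161) (nat_lit 5) (nat_lit 162) (nat_lit 5) (nat_lit 344) (nat_lit 307) (nat_lit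 249)))))) (XT.nd (nat_lit 468) (nat_lit 1596) (nat_lit 0) (XT.nd (nat_lit 234) (nat_lit 836) (nat_lit 0) (XT.nd (nat_lit 78) (nat_lit 532) (nat_lit 0) (XT.lf (nat_lit 0) (nat_lit 5966203871) (nat_lit 532) (nat_lit 1822201197) (nat_lit 76) (nat_lit 2245830965) (nat_lit 155) (nat_lit 5) (nat_lit 162) (nat_lit 5) (nat_lit 156) (nat_lit 5) (nat_lit 345) (nat_lit 307) (nat_lit 248)) (XT.nd (nat_lit 78) (nat_lit 76) (nat_lit 0) (XT.lf (nat_lit 0) (nat_lit 4126975781) (nat_lit 456) (nat_lit 4262613677) (nat_lit 532) (nat_lit 1802427270) (nat_lit 149) (nat_lit 5) (nat_lit 155) (nat_lit 5) (nat_lit 156) (nat_lit 5) (nat_lit 346) (nat_lit 307) (nat_lit 247)) (XT.lf (nat_lit 0) (nat_lit 502644924) (nat_lit 532) (nat_lit 111730828) (nat_lit 76) (nat_lit 9740569298) (nat_lit 148) (nat_lit 5) (nat_lit 155) (nat_lit 5) (nat_lit 149) (nat_lit 5) (nat_lit 347) (nat_lit 307) (nat_lit 246)))) (XT.nd (nat_lit 78) (nat_lit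 380) (nat_lit 0) (XT.lf (nat_lit 0) (nat_lit 2894314442) (nat_lit 532) (nat_lit 4474682509) (nat_lit 76) (nat_lit 3151641342) (nat_lit 142) (nat_lit 5) (nat_lit 149) (nat_lit 5) (nat_lit 143) (nat_lit 5) (nat_lit 348) (nat_lit 307) (nat_lit 245)) (XT.nd (nat_lit 78) (nat_lit 0) (nat_lit 0) (XT.lf (nat_lit 0) (nat_lit 1682404055) (nat_lit 380) (nat_lit 3663628554) (nat_lit 456) (nat_lit 5345642721) (nat_lit 137) (nat_lit 5) (nat_lit 142) (nat_lit 5) (nat_lit 143) (nat_lit 5) (nat_lit 349) (nat_lit 307) (nat_lit 244)) (XT.lf (nat_lit 0) (nat_lit 7883830250) (nat_lit 456) (nat_lit 2796744398) (nat_lit 76) (nat_lit 186914306) (nat_lit 137) (nat_lit 5) (nat_lit 143) (nat_lit 5) (nat_lit 138) (nat_lit 5) (nat_lit 350) (nat_lit 307) (nat_lit 243))))) (XT.nd (nat_lit 234) (nat_lit 760) (nat_lit 0) (XT.nd (nat_lit 78) (nat_lit 456) (nat_lit 0) (XT.lf (nat_lit 0) (nat_lit 3593017695) (nat_lit 380) (nat_lit 6941988240)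 (nat_lit 456) (nat_lit 512474419) (nat_lit 132) (nat_lit 5) (nat_lit 137) (nat_lit 5) (nat_lit 138) (nat_lit 5) (nat_lit 351) (nat_lit 307) (nat_lit 242)) (XT.nd (nat_lit 78) (nat_lit 380) (nat_lit 0) (XT.lf (nat_lit 0) (nat_lit 1988352977) (nat_lit 456) (nat_lit 1063283184) (nat_lit 76) (nat_lit 8180813341) (nat_lit 131) (nat_lit 5) (nat_lit 137) (nat_lit 5) (nat_lit 132) (nat_lit 5) (nat_lit 352) (nat_lit 307) (nat_lit 241)) (XT.lf (nat_lit 0) (nat_lit 4584856603) (nat_lit 456) (nat_lit 5850378743) (nat_lit 76) (nat_lit 986670546) (nat_lit 126) (nat_lit 5) (nat_lit 132) (nat_lit 5) (nat_lit 127) (nat_lit 5) (nat_lit 353) (nat_lit 307) (nat_lit 240)))) (XT.nd (nat_lit 156) (nat_lit 380) (nat_lit 0) (XT.nd (nat_lit 78) (nat_lit 0) (nat_lit 0) (XT.lf (nat_lit 0) (nat_lit 752364842) (nat_lit 380) (nat_lit 6523255699) (nat_lit 456) (nat_lit 4340952859) (nat_lit 121) (nat_lit 5) (nat_lit 126) (nat_lit 5) (nat_lit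 127) (nat_lit 5) (nat_lit 354) (nat_lit 307) (nat_lit 239)) (XT.lf (nat_lit 0) (nat_lit 7631083769) (nat_lit 380) (nat_lit 2443702180) (nat_lit 456) (nat_lit 1741482479) (nat_lit 121) (nat_lit 5) (nat_lit 126) (nat_lit 5) (nat_lit 127) (nat_lit 5) (nat_lit 355) (nat_lit 307) (nat_lit 238))) (XT.nd (nat_lit 78) (nat_lit 0) (nat_lit 0) (XT.lf (nat_lit 0) (nat_lit 929968804) (nat_lit 380) (nat_lit 9342602932) (nat_lit 76) (nat_lit 1748761653) (nat_lit 116) (nat_lit 5) (nat_lit 121) (nat_lit 5) (nat_lit 117) (nat_lit 5) (nat_lit 356) (nat_lit 307) (nat_lit 237)) (XT.lf (nat_lit 0) (nat_lit 3683033697) (nat_lit 380) (nat_lit 2480638605) (nat_lit 76) (nat_lit 6067282894) (nat_lit 116) (nat_lit 5) (nat_lit 121) (nat_lit 5) (nat_lit 117) (nat_lit 5) (nat_lit 357) (nat_lit 307) (nat_lit 236))))))) (XT.nd (nat_lit 1014) (nat_lit 1748) (nat_lit 0) (XT.nd (nat_lit 468) (nat_lit 1216) (nat_lit 0) (XT.nd (nat_lit 234)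 (nat_lit 684) (nat_lit 0) (XT.nd (nat_lit 78) (nat_lit 304) (nat_lit 0) (XT.lf (nat_lit 0) (nat_lit 4637033495) (nat_lit 380) (nat_lit 1896713062) (nat_lit 456) (nat_lit 5912683279) (nat_lit 111) (nat_lit 5) (nat_lit 116) (nat_lit 5) (nat_lit 117) (nat_lit 5) (nat_lit 358) (nat_lit 307) (nat_lit 235)) (XT.nd (nat_lit 78) (nat_lit 304) (nat_lit 0) (XT.lf (nat_lit 0) (nat_lit 9490140538) (nat_lit 456) (nat_lit 713810722) (nat_lit 76) (nat_lit 2463828060) (nat_lit 111) (nat_lit 5) (nat_lit 117) (nat_lit 5) (nat_lit 112) (nat_lit 5) (nat_lit 359) (nat_lit 307) (nat_lit 234)) (XT.lf (nat_lit 0) (nat_lit 6666120686) (nat_lit 304) (nat_lit 5923660303) (nat_lit 380) (nat_lit 304366609) (nat_lit 107) (nat_lit 5) (nat_lit 111) (nat_lit 5) (nat_lit 112) (nat_lit 5) (nat_lit 360) (nat_lit 307) (nat_lit 233)))) (XT.nd (nat_lit 78) (nat_lit 304) (nat_lit 0) (XT.lf (nat_lit 0) (nat_lit 1111072608) (nat_lit 304) (nat_lit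 1482032009) (nat_lit 380) (nat_lit 10533756378) (nat_lit 102) (nat_lit 5) (nat_lit 106) (nat_lit 5) (nat_lit 107) (nat_lit 5) (nat_lit 361) (nat_lit 307) (nat_lit 232)) (XT.nd (nat_lit 78) (nat_lit 304) (nat_lit 0) (XT.lf (nat_lit 0) (nat_lit 5636802754) (nat_lit 380) (nat_lit 4640366684) (nat_lit 76) (nat_lit 3087347023) (nat_lit 102) (nat_lit 5) (nat_lit 107) (nat_lit 5) (nat_lit 103) (nat_lit 5) (nat_lit 362) (nat_lit 307) (nat_lit 231)) (XT.lf (nat_lit 0) (nat_lit 2960239461) (nat_lit 304) (nat_lit 5827688364) (nat_lit 380) (nat_lit 4820903566) (nat_lit 98) (nat_lit 5) (nat_lit 102) (nat_lit 5) (nat_lit 103) (nat_lit 5) (nat_lit 363) (nat_lit 307) (nat_lit 230))))) (XT.nd (nat_lit 234) (nat_lit 836) (nat_lit 0) (XT.nd (nat_lit 78) (nat_lit 380) (nat_lit 0) (XT.lf (nat_lit 0) (nat_lit 10845201217) (nat_lit 304) (nat_lit 1208644776) (nat_lit 380) (nat_lit 1806034893) (nat_lit 98) (nat_lit 5) (nat_lit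 102) (nat_lit 5) (nat_lit 103) (nat_lit 5) (nat_lit 364) (nat_lit 307) (nat_lit 229)) (XT.nd (nat_lit 78) (nat_lit 0) (nat_lit 0) (XT.lf (nat_lit 0) (nat_lit 1329456712) (nat_lit 380) (nat_lit 9259004734) (nat_lit 76) (nat_lit 3527971974) (nat_lit 93) (nat_lit 5) (nat_lit 98) (nat_lit 5) (nat_lit 94) (nat_lit 5) (nat_lit 365) (nat_lit 307) (nat_lit 228)) (XT.lf (nat_lit 0) (nat_lit 4539611625) (nat_lit 380) (nat_lit 1420899844) (nat_lit 76) (nat_lit 8419139473) (nat_lit 93) (nat_lit 5) (nat_lit 98) (nat_lit 5) (nat_lit 94) (nat_lit 5) (nat_lit 366) (nat_lit 307) (nat_lit 227)))) (XT.nd (nat_lit 156) (nat_lit 304) (nat_lit 0) (XT.nd (nat_lit 78) (nat_lit 304) (nat_lit 0) (XT.lf (nat_lit 0) (nat_lit 6746641077) (nat_lit 228) (nat_lit 1139222299) (nat_lit 304) (nat_lit 6763719306) (nat_lit 90) (nat_lit 5) (nat_lit 93) (nat_lit 5) (nat_lit 94) (nat_lit 5) (nat_lit 367) (nat_lit 307) (nat_lit 226)) (XT.lf (nat_lit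 0) (nat_lit 190314841) (nat_lit 304) (nat_lit 11170487649) (nat_lit 380) (nat_lit 3565972012) (nat_lit 86) (nat_lit 5) (nat_lit 90) (nat_lit 5) (nat_lit 91) (nat_lit 5) (nat_lit 368) (nat_lit 307) (nat_lit 225))) (XT.nd (nat_lit 78) (nat_lit 304) (nat_lit 0) (XT.lf (nat_lit 0) (nat_lit 8639610959) (nat_lit 304) (nat_lit 6366911599) (nat_lit 380) (nat_lit 203774336) (nat_lit 86) (nat_lit 5) (nat_lit 90) (nat_lit 5) (nat_lit 91) (nat_lit 5) (nat_lit 369) (nat_lit 307) (nat_lit 224)) (XT.lf (nat_lit 0) (nat_lit 1807339602) (nat_lit 228) (nat_lit 1381748806) (nat_lit 304) (nat_lit 12312504831) (nat_lit 82) (nat_lit 5) (nat_lit 85) (nat_lit 5) (nat_lit 86) (nat_lit 5) (nat_lit 370) (nat_lit 307) (nat_lit 223)))))) (XT.nd (nat_lit 546) (nat_lit 988) (nat_lit 0) (XT.nd (nat_lit 234) (nat_lit 532) (nat_lit 0) (XT.nd (nat_lit 78) (nat_lit 228) (nat_lit 0) (XT.lf (nat_lit 0) (nat_lit 6758979037) (nat_lit 304) (nat_lit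 5303885953) (nat_lit 76) (nat_lit 3736332711) (nat_lit 82) (nat_lit 5) (nat_lit 86) (nat_lit 5) (nat_lit 83) (nat_lit 5) (nat_lit 371) (nat_lit 307) (nat_lit 222)) (XT.nd (nat_lit 78) (nat_lit 0) (nat_lit 0) (XT.lf (nat_lit 0) (nat_lit 3354141922) (nat_lit 228) (nat_lit 7104692687) (nat_lit 304) (nat_lit 5646219234) (nat_lit 79) (nat_lit 5) (nat_lit 82) (nat_lit 5) (nat_lit 83) (nat_lit 5) (nat_lit 372) (nat_lit 307) (nat_lit 221)) (XT.lf (nat_lit 0) (nat_lit 12345164741) (nat_lit 228) (nat_lit 1955355967) (nat_lit 304) (nat_lit 2118649233) (nat_lit 79) (nat_lit 5) (nat_lit 82) (nat_lit 5) (nat_lit 83) (nat_lit 5) (nat_lit 373) (nat_lit 307) (nat_lit 220)))) (XT.nd (nat_lit 156) (nat_lit 228) (nat_lit 0) (XT.nd (nat_lit 78) (nat_lit 0) (nat_lit 0) (XT.lf (nat_lit 0) (nat_lit 1542771721) (nat_lit 304) (nat_lit 11864650472) (nat_lit 76) (nat_lit 3333131827) (nat_lit 75) (nat_lit 5) (nat_lit 79) (nat_lit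 5) (nat_lit 76) (nat_lit 5) (nat_lit 374) (nat_lit 307) (nat_lit 219)) (XT.lf (nat_lit 0) (nat_lit 5310266101) (nat_lit 304) (nat_lit 2968361152) (nat_lit 76) (nat_lit 8791167187) (nat_lit 75) (nat_lit 5) (nat_lit 79) (nat_lit 5) (nat_lit 76) (nat_lit 5) (nat_lit 375) (nat_lit 307) (nat_lit 218))) (XT.nd (nat_lit 78) (nat_lit 0) (nat_lit 0) (XT.lf (nat_lit 0) (nat_lit 6283355531) (nat_lit 228) (nat_lit 2946379532) (nat_lit 304) (nat_lit 8178016793) (nat_lit 72) (nat_lit 5) (nat_lit 75) (nat_lit 5) (nat_lit 76) (nat_lit 5) (nat_lit 376) (nat_lit 307) (nat_lit 217)) (XT.lf (nat_lit 0) (nat_lit 13300261346) (nat_lit 304) (nat_lit 1940505130) (nat_lit 76) (nat_lit 2514085355) (nat_lit 72) (nat_lit 5) (nat_lit 76) (nat_lit 5) (nat_lit 73) (nat_lit 5) (nat_lit 377) (nat_lit 307) (nat_lit 216))))) (XT.nd (nat_lit 234) (nat_lit 456) (nat_lit 0) (XT.nd (nat_lit 78) (nat_lit 304) (nat_lit 0) (XT.lf (nat_lit 0) (nat_lit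 7604867256) (nat_lit 228) (nat_lit 9969660112) (nat_lit 304) (nat_lit 535396522) (nat_lit 69) (nat_lit 5) (nat_lit 72) (nat_lit 5) (nat_lit 73) (nat_lit 5) (nat_lit 378) (nat_lit 307) (nat_lit 215)) (XT.nd (nat_lit 78) (nat_lit 228) (nat_lit 0) (XT.lf (nat_lit 0) (nat_lit 3432263218) (nat_lit 304) (nat_lit 1065884899) (nat_lit 76) (nat_lit 13976521196) (nat_lit 68) (nat_lit 5) (nat_lit 72) (nat_lit 5) (nat_lit 69) (nat_lit 5) (nat_lit 379) (nat_lit 307) (nat_lit 214)) (XT.lf (nat_lit 0) (nat_lit 7584418258) (nat_lit 304) (nat_lit 10069663301) (nat_lit 76) (nat_lit 1193836856) (nat_lit 65) (nat_lit 5) (nat_lit 69) (nat_lit 5) (nat_lit 66) (nat_lit 5) (nat_lit 380) (nat_lit 307) (nat_lit 213)))) (XT.nd (nat_lit 156) (nat_lit 304) (nat_lit 0) (XT.nd (nat_lit 78) (nat_lit 152) (nat_lit 0) (XT.lf (nat_lit 0) (nat_lit 11896723080) (nat_lit 304) (nat_lit 369658685) (nat_lit 76) (nat_lit 6964922604) (nat_lit 65)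 (nat_lit 5) (nat_lit 69) (nat_lit 5) (nat_lit 66) (nat_lit 5) (nat_lit 381) (nat_lit 307) (nat_lit 212)) (XT.lf (nat_lit 0) (nat_lit 9780605937) (nat_lit 152) (nat_lit 6632564679) (nat_lit 228) (nat_lit 3210784808) (nat_lit 63) (nat_lit 5) (nat_lit 65) (nat_lit 5) (nat_lit 66) (nat_lit 5) (nat_lit 382) (nat_lit 307) (nat_lit 211))) (XT.nd (nat_lit 78) (nat_lit 0) (nat_lit 0) (XT.lf (nat_lit 0) (nat_lit 176449423) (nat_lit 228) (nat_lit 826333619) (nat_lit 304) (nat_lit 19025721712) (nat_lit 59) (nat_lit 5) (nat_lit 62) (nat_lit 5) (nat_lit 63) (nat_lit 5) (nat_lit 383) (nat_lit 307) (nat_lit 210)) (XT.lf (nat_lit 0) (nat_lit 5409110530) (nat_lit 304) (nat_lit 9857722522) (nat_lit 76) (nat_lit 5173483384) (nat_lit 59) (nat_lit 5) (nat_lit 63) (nat_lit 5) (nat_lit 60) (nat_lit 5) (nat_lit 384) (nat_lit 307) (nat_lit 209))))))))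
noncomputable def xc125 : XT := (XT.nd (nat_lit 2028) (nat_lit 1140) (nat_lit 0) (XT.nd (nat_lit 1014) (nat_lit 988) (nat_lit 0) (XT.nd (nat_lit 468) (nat_lit 532) (nat_lit 0) (XT.nd (nat_lit 234) (nat_lit 228) (nat_lit 0) (XT.nd (nat_lit 78) (nat_lit 152) (nat_lit 0) (XT.lf (nat_lit 0) (nat_lit 405276942) (nat_lit 152) (nat_lit 9535942087) (nat_lit 228) (nat_lit 10923461685) (nat_lit 57) (nat_lit 5) (nat_lit 59) (nat_lit 5) (nat_lit 60) (nat_lit 5) (nat_lit 385) (nat_lit 307) (nat_lit 208)) (XT.nd (nat_lit 78) (nat_lit 152) (nat_lit 0) (XT.lf (nat_lit 0) (nat_lit 11147652663) (nat_lit 152) (nat_lit 3542940089) (nat_lit 228) (nat_lit 6608749913) (nat_lit 57) (nat_lit 5) (nat_lit 59) (nat_lit 5) (nat_lit 60) (nat_lit 5) (nat_lit 386) (nat_lit 307) (nat_lit 207)) (XT.lf (nat_lit 0) (nat_lit 418014185) (nat_lit 152) (nat_lit 19175905851) (nat_lit 228) (nat_lit 2152785905) (nat_lit 55) (nat_lit 5) (nat_lit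 57) (nat_lit 5) (nat_lit 58) (nat_lit 5) (nat_lit 387) (nat_lit 307) (nat_lit 206)))) (XT.nd (nat_lit 78) (nat_lit 152) (nat_lit 0) (XT.lf (nat_lit 0) (nat_lit 2510138273) (nat_lit 228) (nat_lit 10781205662) (nat_lit 76) (nat_lit 8911823762) (nat_lit 54) (nat_lit 5) (nat_lit 57) (nat_lit 5) (nat_lit 55) (nat_lit 5) (nat_lit 388) (nat_lit 307) (nat_lit 205)) (XT.nd (nat_lit 78) (nat_lit 0) (nat_lit 0) (XT.lf (nat_lit 0) (nat_lit 32726034) (nat_lit 152) (nat_lit 7220014867) (nat_lit 228) (nat_lit 15420456335) (nat_lit 52) (nat_lit 5) (nat_lit 54) (nat_lit 5) (nat_lit 55) (nat_lit 5) (nat_lit 389) (nat_lit 307) (nat_lit 204)) (XT.lf (nat_lit 0) (nat_lit 11363064241) (nat_lit 152) (nat_lit 866395069) (nat_lit 228) (nat_lit 10925118227) (nat_lit 52) (nat_lit 5) (nat_lit 54) (nat_lit 5) (nat_lit 55) (nat_lit 5) (nat_lit 390) (nat_lit 307) (nat_lit 203))))) (XT.nd (nat_lit 234) (nat_lit 304) (nat_lit 0) (XT.nd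 (nat_lit 78) (nat_lit 228) (nat_lit 0) (XT.lf (nat_lit 0) (nat_lit 17393410956) (nat_lit 228) (nat_lit 700225009) (nat_lit 76) (nat_lit 5555630192) (nat_lit 52) (nat_lit 5) (nat_lit 55) (nat_lit 5) (nat_lit 53) (nat_lit 5) (nat_lit 391) (nat_lit 307) (nat_lit 202)) (XT.nd (nat_lit 78) (nat_lit 76) (nat_lit 0) (XT.lf (nat_lit 0) (nat_lit 10900198167) (nat_lit 152) (nat_lit 11909278271) (nat_lit 228) (nat_lit 1346407860) (nat_lit 50) (nat_lit 5) (nat_lit 52) (nat_lit 5) (nat_lit 53) (nat_lit 5) (nat_lit 392) (nat_lit 307) (nat_lit 201)) (XT.lf (nat_lit 0) (nat_lit 3628944145) (nat_lit 228) (nat_lit 1878017898) (nat_lit 76) (nat_lit 19169942723) (nat_lit 49) (nat_lit 5) (nat_lit 52) (nat_lit 5) (nat_lit 50) (nat_lit 5) (nat_lit 393) (nat_lit 307) (nat_lit 200)))) (XT.nd (nat_lit 156) (nat_lit 152) (nat_lit 0) (XT.nd (nat_lit 78) (nat_lit 0) (nat_lit 0) (XT.lf (nat_lit 0) (nat_lit 8818359334) (nat_lit 228)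 (nat_lit 15226444235) (nat_lit 76) (nat_lit 1165600752) (nat_lit 47) (nat_lit 5) (nat_lit 50) (nat_lit 5) (nat_lit 48) (nat_lit 5) (nat_lit 394) (nat_lit 307) (nat_lit 199)) (XT.lf (nat_lit 0) (nat_lit 14221575804) (nat_lit 228) (nat_lit 3600824109) (nat_lit 76) (nat_lit 7935769579) (nat_lit 47) (nat_lit 5) (nat_lit 50) (nat_lit 5) (nat_lit 48) (nat_lit 5) (nat_lit 395) (nat_lit 307) (nat_lit 198))) (XT.nd (nat_lit 78) (nat_lit 0) (nat_lit 0) (XT.lf (nat_lit 0) (nat_lit 8513413366) (nat_lit 152) (nat_lit 11340207057) (nat_lit 228) (nat_lit 6466749316) (nat_lit 45) (nat_lit 5) (nat_lit 47) (nat_lit 5) (nat_lit 48) (nat_lit 5) (nat_lit 396) (nat_lit 307) (nat_lit 197)) (XT.lf (nat_lit 0) (nat_lit 21038870352) (nat_lit 152) (nat_lit 4637202618) (nat_lit 228) (nat_lit 1222723579) (nat_lit 45) (nat_lit 5) (nat_lit 47) (nat_lit 5) (nat_lit 48) (nat_lit 5) (nat_lit 397) (nat_lit 307) (nat_lit 196)))))) (XT.nd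 (nat_lit 468) (nat_lit 456) (nat_lit 0) (XT.nd (nat_lit 234) (nat_lit 152) (nat_lit 0) (XT.nd (nat_lit 78) (nat_lit 152) (nat_lit 0) (XT.lf (nat_lit 0) (nat_lit 4167705158) (nat_lit 228) (nat_lit 21007880140) (nat_lit 76) (nat_lit 2315670902) (nat_lit 42) (nat_lit 5) (nat_lit 45) (nat_lit 5) (nat_lit 43) (nat_lit 5) (nat_lit 398) (nat_lit 307) (nat_lit 195)) (XT.nd (nat_lit 78) (nat_lit 152) (nat_lit 0) (XT.lf (nat_lit 0) (nat_lit 9786394719) (nat_lit 228) (nat_lit 8866859142) (nat_lit 76) (nat_lit 9445142505) (nat_lit 42) (nat_lit 5) (nat_lit 45) (nat_lit 5) (nat_lit 43) (nat_lit 5) (nat_lit 399) (nat_lit 307) (nat_lit 194)) (XT.lf (nat_lit 0) (nat_lit 3685415105) (nat_lit 152) (nat_lit 11909531039) (nat_lit 228) (nat_lit 13128169072) (nat_lit 40) (nat_lit 5) (nat_lit 42) (nat_lit 5) (nat_lit 43) (nat_lit 5) (nat_lit 400) (nat_lit 307) (nat_lit 193)))) (XT.nd (nat_lit 78) (nat_lit 152) (nat_lit 0) (XT.lf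 (nat_lit 0) (nat_lit 16771370448) (nat_lit 152) (nat_lit 4881970741) (nat_lit 228) (nat_lit 7710970239) (nat_lit 40) (nat_lit 5) (nat_lit 42) (nat_lit 5) (nat_lit 43) (nat_lit 5) (nat_lit 401) (nat_lit 307) (nat_lit 192)) (XT.nd (nat_lit 78) (nat_lit 76) (nat_lit 0) (XT.lf (nat_lit 0) (nat_lit 181816584) (nat_lit 76) (nat_lit 27722426228) (nat_lit 152) (nat_lit 2120181383) (nat_lit 39) (nat_lit 5) (nat_lit 40) (nat_lit 5) (nat_lit 41) (nat_lit 4) (nat_lit 402) (nat_lit 307) (nat_lit 191)) (XT.lf (nat_lit 0) (nat_lit 3730479356) (nat_lit 152) (nat_lit 17211412199) (nat_lit 76) (nat_lit 9756508340) (nat_lit 38) (nat_lit 5) (nat_lit 40) (nat_lit 5) (nat_lit 39) (nat_lit 5) (nat_lit 403) (nat_lit 307) (nat_lit 190))))) (XT.nd (nat_lit 234) (nat_lit 304) (nat_lit 0) (XT.nd (nat_lit 78) (nat_lit 152) (nat_lit 0) (XT.lf (nat_lit 0) (nat_lit 9700828660) (nat_lit 152) (nat_lit 4245843047) (nat_lit 76) (nat_lit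 17445692963) (nat_lit 38) (nat_lit 5) (nat_lit 40) (nat_lit 5) (nat_lit 39) (nat_lit 5) (nat_lit 404) (nat_lit 307) (nat_lit 189)) (XT.nd (nat_lit 78) (nat_lit 0) (nat_lit 0) (XT.lf (nat_lit 0) (nat_lit 9266634885) (nat_lit 152) (nat_lit 6659897393) (nat_lit 228) (nat_lit 16178331737) (nat_lit 36) (nat_lit 5) (nat_lit 38) (nat_lit 5) (nat_lit 39) (nat_lit 5) (nat_lit 405) (nat_lit 307) (nat_lit 188)) (XT.lf (nat_lit 0) (nat_lit 22377660735) (nat_lit 228) (nat_lit 9597427665) (nat_lit 76) (nat_lit 862493184) (nat_lit 36) (nat_lit 5) (nat_lit 39) (nat_lit 5) (nat_lit 37) (nat_lit 4) (nat_lit 406) (nat_lit 307) (nat_lit 187)))) (XT.nd (nat_lit 156) (nat_lit 152) (nat_lit 0) (XT.nd (nat_lit 78) (nat_lit 76) (nat_lit 0) (XT.lf (nat_lit 0) (nat_lit 4031040158) (nat_lit 76) (nat_lit 25083570576) (nat_lit 152) (nat_lit 4474904088) (nat_lit 35) (nat_lit 5) (nat_lit 36) (nat_lit 5) (nat_lit 37) (nat_lit 4) (nat_lit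 407) (nat_lit 307) (nat_lit 186)) (XT.lf (nat_lit 0) (nat_lit 1742190997) (nat_lit 152) (nat_lit 16135509076) (nat_lit 76) (nat_lit 16483256357) (nat_lit 34) (nat_lit 5) (nat_lit 36) (nat_lit 5) (nat_lit 35) (nat_lit 5) (nat_lit 408) (nat_lit 307) (nat_lit 185))) (XT.nd (nat_lit 78) (nat_lit 152) (nat_lit 0) (XT.lf (nat_lit 0) (nat_lit 8043842724) (nat_lit 152) (nat_lit 2375819450) (nat_lit 76) (nat_lit 24734912923) (nat_lit 34) (nat_lit 5) (nat_lit 36) (nat_lit 5) (nat_lit 35) (nat_lit 5) (nat_lit 409) (nat_lit 307) (nat_lit 184)) (XT.lf (nat_lit 0) (nat_lit 12009990939) (nat_lit 152) (nat_lit 2628335327) (nat_lit 228) (nat_lit 21330565054) (nat_lit 32) (nat_lit 5) (nat_lit 34) (nat_lit 5) (nat_lit 35) (nat_lit 5) (nat_lit 410) (nat_lit 307) (nat_lit 183))))))) (XT.nd (nat_lit 1014) (nat_lit 456) (nat_lit 0) (XT.nd (nat_lit 468) (nat_lit 380) (nat_lit 0) (XT.nd (nat_lit 234) (nat_lit 228) (nat_lit 0)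 (XT.nd (nat_lit 78) (nat_lit 76) (nat_lit 0) (XT.lf (nat_lit 0) (nat_lit 21495134781) (nat_lit 228) (nat_lit 10004034646) (nat_lit 76) (nat_lit 5306535281) (nat_lit 32) (nat_lit 5) (nat_lit 35) (nat_lit 5) (nat_lit 33) (nat_lit 4) (nat_lit 411) (nat_lit 307) (nat_lit 182)) (XT.nd (nat_lit 78) (nat_lit 0) (nat_lit 0) (XT.lf (nat_lit 0) (nat_lit 4409023122) (nat_lit 76) (nat_lit 24205753203) (nat_lit 152) (nat_lit 9051134630) (nat_lit 31) (nat_lit 5) (nat_lit 32) (nat_lit 5) (nat_lit 33) (nat_lit 4) (nat_lit 412) (nat_lit 307) (nat_lit 181)) (XT.lf (nat_lit 0) (nat_lit 19439279441) (nat_lit 76) (nat_lit 16598605868) (nat_lit 152) (nat_lit 2511343989) (nat_lit 31) (nat_lit 5) (nat_lit 32) (nat_lit 5) (nat_lit 33) (nat_lit 4) (nat_lit 413) (nat_lit 307) (nat_lit 180)))) (XT.nd (nat_lit 78) (nat_lit 152) (nat_lit 0) (XT.lf (nat_lit 0) (nat_lit 4131274773) (nat_lit 152) (nat_lit 4599108987) (nat_lit 76) (nat_lit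 30727775091) (nat_lit 30) (nat_lit 5) (nat_lit 32) (nat_lit 5) (nat_lit 31) (nat_lit 5) (nat_lit 414) (nat_lit 307) (nat_lit 179)) (XT.nd (nat_lit 78) (nat_lit 0) (nat_lit 0) (XT.lf (nat_lit 0) (nat_lit 10507923820) (nat_lit 152) (nat_lit 505171976) (nat_lit 228) (nat_lit 29377804638) (nat_lit 28) (nat_lit 5) (nat_lit 30) (nat_lit 5) (nat_lit 31) (nat_lit 5) (nat_lit 415) (nat_lit 307) (nat_lit 178)) (XT.lf (nat_lit 0) (nat_lit 18214287685) (nat_lit 228) (nat_lit 15284187728) (nat_lit 76) (nat_lit 7849763366) (nat_lit 28) (nat_lit 5) (nat_lit 31) (nat_lit 5) (nat_lit 29) (nat_lit 4) (nat_lit 416) (nat_lit 307) (nat_lit 177))))) (XT.nd (nat_lit 234) (nat_lit 304) (nat_lit 0) (XT.nd (nat_lit 78) (nat_lit 76) (nat_lit 0) (XT.lf (nat_lit 0) (nat_lit 25626257530) (nat_lit 228) (nat_lit 271233014) (nat_lit 76) (nat_lit 16436966409) (nat_lit 28) (nat_lit 5) (nat_lit 31) (nat_lit 5) (nat_lit 29) (nat_lit 4) (nat_lit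 417) (nat_lit 307) (nat_lit 176)) (XT.nd (nat_lit 78) (nat_lit 0) (nat_lit 0) (XT.lf (nat_lit 0) (nat_lit 15475851263) (nat_lit 76) (nat_lit 17923537875) (nat_lit 152) (nat_lit 9946710344) (nat_lit 27) (nat_lit 5) (nat_lit 28) (nat_lit 5) (nat_lit 29) (nat_lit 4) (nat_lit 418) (nat_lit 307) (nat_lit 175)) (XT.lf (nat_lit 0) (nat_lit 31682838313) (nat_lit 76) (nat_lit 9715771040) (nat_lit 152) (nat_lit 2989696925) (nat_lit 27) (nat_lit 5) (nat_lit 28) (nat_lit 5) (nat_lit 29) (nat_lit 4) (nat_lit 419) (nat_lit 307) (nat_lit 174)))) (XT.nd (nat_lit 156) (nat_lit 76) (nat_lit 0) (XT.nd (nat_lit 78) (nat_lit 0) (nat_lit 0) (XT.lf (nat_lit 0) (nat_lit 2913223325) (nat_lit 152) (nat_lit 1199664016) (nat_lit 228) (nat_lit 41347138896) (nat_lit 24) (nat_lit 5) (nat_lit 26) (nat_lit 5) (nat_lit 27) (nat_lit 5) (nat_lit 420) (nat_lit 307) (nat_lit 173)) (XT.lf (nat_lit 0) (nat_lit 11561197121) (nat_lit 228) (nat_lit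 27420555282) (nat_lit 76) (nat_lit 7575476904) (nat_lit 24) (nat_lit 5) (nat_lit 27) (nat_lit 5) (nat_lit 25) (nat_lit 4) (nat_lit 421) (nat_lit 307) (nat_lit 172))) (XT.nd (nat_lit 78) (nat_lit 76) (nat_lit 0) (XT.lf (nat_lit 0) (nat_lit 19235495539) (nat_lit 228) (nat_lit 11869654628) (nat_lit 76) (nat_lit 16582123749) (nat_lit 24) (nat_lit 5) (nat_lit 27) (nat_lit 5) (nat_lit 25) (nat_lit 4) (nat_lit 422) (nat_lit 307) (nat_lit 171)) (XT.lf (nat_lit 0) (nat_lit 4213234498) (nat_lit 76) (nat_lit 22958222080) (nat_lit 152) (nat_lit 21678821857) (nat_lit 23) (nat_lit 5) (nat_lit 24) (nat_lit 5) (nat_lit 25) (nat_lit 4) (nat_lit 423) (nat_lit 307) (nat_lit 170)))))) (XT.nd (nat_lit 546) (nat_lit 228) (nat_lit 0) (XT.nd (nat_lit 234) (nat_lit 76) (nat_lit 0) (XT.nd (nat_lit 78) (nat_lit 152) (nat_lit 0) (XT.lf (nat_lit 0) (nat_lit 21005336909) (nat_lit 76) (nat_lit 14451057861) (nat_lit 152) (nat_lit 14588452904)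 (nat_lit 23) (nat_lit 5) (nat_lit 24) (nat_lit 5) (nat_lit 25) (nat_lit 4) (nat_lit 424) (nat_lit 307) (nat_lit 169)) (XT.nd (nat_lit 78) (nat_lit 152) (nat_lit 0) (XT.lf (nat_lit 0) (nat_lit 38285095914) (nat_lit 76) (nat_lit 5696084305) (nat_lit 152) (nat_lit 7294336290) (nat_lit 23) (nat_lit 5) (nat_lit 24) (nat_lit 5) (nat_lit 25) (nat_lit 4) (nat_lit 425) (nat_lit 307) (nat_lit 168)) (XT.lf (nat_lit 0) (nat_lit 272558662) (nat_lit 152) (nat_lit 48982153538) (nat_lit 76) (nat_lit 3286584954) (nat_lit 21) (nat_lit 5) (nat_lit 23) (nat_lit 5) (nat_lit 22) (nat_lit 4) (nat_lit 426) (nat_lit 307) (nat_lit 167)))) (XT.nd (nat_lit 156) (nat_lit 76) (nat_lit 0) (XT.nd (nat_lit 78) (nat_lit 0) (nat_lit 0) (XT.lf (nat_lit 0) (nat_lit 8100221099) (nat_lit 152) (nat_lit 33115385654) (nat_lit 76) (nat_lit 12621868108) (nat_lit 21) (nat_lit 5) (nat_lit 23) (nat_lit 5) (nat_lit 22) (nat_lit 4) (nat_lit 427) (nat_lit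 307) (nat_lit 166)) (XT.lf (nat_lit 0) (nat_lit 16154457225) (nat_lit 152) (nat_lit 16787992009) (nat_lit 76) (nat_lit 22230337675) (nat_lit 21) (nat_lit 5) (nat_lit 23) (nat_lit 5) (nat_lit 22) (nat_lit 4) (nat_lit 428) (nat_lit 307) (nat_lit 165))) (XT.nd (nat_lit 78) (nat_lit 0) (nat_lit 0) (XT.lf (nat_lit 0) (nat_lit 14578530) (nat_lit 76) (nat_lit 24427866330) (nat_lit 152) (nat_lit 32105951012) (nat_lit 20) (nat_lit 5) (nat_lit 21) (nat_lit 5) (nat_lit 22) (nat_lit 4) (nat_lit 429) (nat_lit 307) (nat_lit 164)) (XT.lf (nat_lit 0) (nat_lit 17650580536) (nat_lit 76) (nat_lit 15490093042) (nat_lit 152) (nat_lit 24819752729) (nat_lit 20) (nat_lit 5) (nat_lit 21) (nat_lit 5) (nat_lit 22) (nat_lit 4) (nat_lit 430) (nat_lit 307) (nat_lit 163))))) (XT.nd (nat_lit 234) (nat_lit 152) (nat_lit 0) (XT.nd (nat_lit 78) (nat_lit 76) (nat_lit 0) (XT.lf (nat_lit 0) (nat_lit 35801310149) (nat_lit 76) (nat_lit 6290845467)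 (nat_lit 152) (nat_lit 17322894059) (nat_lit 20) (nat_lit 5) (nat_lit 21) (nat_lit 5) (nat_lit 22) (nat_lit 4) (nat_lit 431) (nat_lit 307) (nat_lit 162)) (XT.nd (nat_lit 78) (nat_lit 76) (nat_lit 0) (XT.lf (nat_lit 0) (nat_lit 51335260716) (nat_lit 152) (nat_lit 6461457833) (nat_lit 0) (nat_lit 3115902012) (nat_lit 20) (nat_lit 5) (nat_lit 22) (nat_lit 4) (nat_lit 20) (nat_lit 4) (nat_lit 432) (nat_lit 307) (nat_lit 161)) (XT.lf (nat_lit 0) (nat_lit 11350917059) (nat_lit 76) (nat_lit 49668827230) (nat_lit 76) (nat_lit 1430452868) (nat_lit 19) (nat_lit 4) (nat_lit 20) (nat_lit 5) (nat_lit 20) (nat_lit 4) (nat_lit 433) (nat_lit 307) (nat_lit 160)))) (XT.nd (nat_lit 156) (nat_lit 76) (nat_lit 0) (XT.nd (nat_lit 78) (nat_lit 0) (nat_lit 0) (XT.lf (nat_lit 0) (nat_lit 6883621715) (nat_lit 152) (nat_lit 34283084085) (nat_lit 76) (nat_lit 22863431209) (nat_lit 18) (nat_lit 5) (nat_lit 20) (nat_lit 5) (nat_lit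 19) (nat_lit 4) (nat_lit 434) (nat_lit 307) (nat_lit 159)) (XT.lf (nat_lit 0) (nat_lit 15411278332) (nat_lit 152) (nat_lit 16989865234) (nat_lit 76) (nat_lit 33256120335) (nat_lit 18) (nat_lit 5) (nat_lit 20) (nat_lit 5) (nat_lit 19) (nat_lit 4) (nat_lit 435) (nat_lit 307) (nat_lit 158))) (XT.nd (nat_lit 78) (nat_lit 0) (nat_lit 0) (XT.lf (nat_lit 0) (nat_lit 825342833) (nat_lit 76) (nat_lit 23370472489) (nat_lit 152) (nat_lit 43137358773) (nat_lit 17) (nat_lit 5) (nat_lit 18) (nat_lit 5) (nat_lit 19) (nat_lit 4) (nat_lit 436) (nat_lit 307) (nat_lit 157)) (XT.lf (nat_lit 0) (nat_lit 19510496558) (nat_lit 76) (nat_lit 13898150730) (nat_lit 152) (nat_lit 35645772525) (nat_lit 17) (nat_lit 5) (nat_lit 18) (nat_lit 5) (nat_lit 19) (nat_lit 4) (nat_lit 437) (nat_lit 307) (nat_lit 156))))))))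
noncomputable def xc126 : XT := (XT.nd (nat_lit 38142) (nat_lit 0) (nat_lit 8892) (XT.nd (nat_lit 37128) (nat_lit 0) (nat_lit 19912) (XT.nd (nat_lit 468) (nat_lit 76) (nat_lit 0) (XT.nd (nat_lit 234) (nat_lit 76) (nat_lit 0) (XT.nd (nat_lit 78) (nat_lit 76) (nat_lit 0) (XT.lf (nat_lit 0) (nat_lit 38743791143) (nat_lit 76) (nat_lit 4147465829) (nat_lit 152) (nat_lit 27936245104) (nat_lit 17) (nat_lit 5) (nat_lit 18) (nat_lit 5) (nat_lit 19) (nat_lit 4) (nat_lit 438) (nat_lit 307) (nat_lit 155)) (XT.nd (nat_lit 78) (nat_lit 76) (nat_lit 0) (XT.lf (nat_lit 0) (nat_lit 52708549416) (nat_lit 152) (nat_lit 14168557068) (nat_lit 0) (nat_lit 5775165118) (nat_lit 17) (nat_lit 5) (nat_lit 19) (nat_lit 4) (nat_lit 17) (nat_lit 4) (nat_lit 439) (nat_lit 307) (nat_lit 154)) (XT.lf (nat_lit 0) (nat_lit 4315359317) (nat_lit 76) (nat_lit 58581266637) (nat_lit 76) (nat_lit 11632871202) (nat_lit 16) (nat_lit 4) (nat_lit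 17) (nat_lit 5) (nat_lit 17) (nat_lit 4) (nat_lit 440) (nat_lit 307) (nat_lit 153)))) (XT.nd (nat_lit 78) (nat_lit 76) (nat_lit 0) (XT.lf (nat_lit 0) (nat_lit 23632514485) (nat_lit 76) (nat_lit 49894694645) (nat_lit 76) (nat_lit 2931725292) (nat_lit 16) (nat_lit 4) (nat_lit 17) (nat_lit 5) (nat_lit 17) (nat_lit 4) (nat_lit 441) (nat_lit 307) (nat_lit 152)) (XT.nd (nat_lit 78) (nat_lit 0) (nat_lit 0) (XT.lf (nat_lit 0) (nat_lit 5906689147) (nat_lit 152) (nat_lit 34986539820) (nat_lit 76) (nat_lit 37551470310) (nat_lit 15) (nat_lit 5) (nat_lit 17) (nat_lit 5) (nat_lit 16) (nat_lit 4) (nat_lit 442) (nat_lit 307) (nat_lit 151)) (XT.lf (nat_lit 0) (nat_lit 14945418670) (nat_lit 152) (nat_lit 16651656205) (nat_lit 76) (nat_lit 48892269572) (nat_lit 15) (nat_lit 5) (nat_lit 17) (nat_lit 5) (nat_lit 16) (nat_lit 4) (nat_lit 443) (nat_lit 307) (nat_lit 150))))) (XT.nd (nat_lit 36348) (nat_lit 0) (nat_lit 22800)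 (XT.nd (nat_lit 78) (nat_lit 0) (nat_lit 0) (XT.lf (nat_lit 0) (nat_lit 2266663995) (nat_lit 76) (nat_lit 22004694281) (nat_lit 152) (nat_lit 58323490027) (nat_lit 14) (nat_lit 5) (nat_lit 15) (nat_lit 5) (nat_lit 16) (nat_lit 4) (nat_lit 444) (nat_lit 307) (nat_lit 149)) (XT.nd (nat_lit 36192) (nat_lit 0) (nat_lit 23408) (XT.lf (nat_lit 0) (nat_lit 22083142010) (nat_lit 76) (nat_lit 11956406785) (nat_lit 152) (nat_lit 50719095054) (nat_lit 14) (nat_lit 5) (nat_lit 15) (nat_lit 5) (nat_lit 16) (nat_lit 4) (nat_lit 445) (nat_lit 307) (nat_lit 148)) (XT.lf (nat_lit 0) (nat_lit 518782722) (nat_lit 0) (nat_lit 518782722) (nat_lit 532) (nat_lit 2321504215) (nat_lit 322) (nat_lit 5) (nat_lit 322) (nat_lit 3) (nat_lit 329) (nat_lit 3) (nat_lit 308) (nat_lit 308) (nat_lit 284)))) (XT.nd (nat_lit 156) (nat_lit 608) (nat_lit 0) (XT.nd (nat_lit 78) (nat_lit 0) (nat_lit 0) (XT.lf (nat_lit 0) (nat_lit 4192951890) (nat_lit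 532) (nat_lit 2470448798) (nat_lit 608) (nat_lit 90585528) (nat_lit 322) (nat_lit 5) (nat_lit 329) (nat_lit 3) (nat_lit 330) (nat_lit 5) (nat_lit 309) (nat_lit 308) (nat_lit 283)) (XT.lf (nat_lit 76) (nat_lit 797646415) (nat_lit 0) (nat_lit 5513589571) (nat_lit 608) (nat_lit 481655393) (nat_lit 323) (nat_lit 5) (nat_lit 322) (nat_lit 5) (nat_lit 330) (nat_lit 5) (nat_lit 310) (nat_lit 308) (nat_lit 282))) (XT.nd (nat_lit 78) (nat_lit 0) (nat_lit 0) (XT.lf (nat_lit 0) (nat_lit 1572967166) (nat_lit 608) (nat_lit 2678868323) (nat_lit 684) (nat_lit 2582377272) (nat_lit 314) (nat_lit 5) (nat_lit 322) (nat_lit 5) (nat_lit 323) (nat_lit 5) (nat_lit 311) (nat_lit 308) (nat_lit 281)) (XT.lf (nat_lit 76) (nat_lit 702369178) (nat_lit 0) (nat_lit 2906321488) (nat_lit 684) (nat_lit 3270148776) (nat_lit 315) (nat_lit 5) (nat_lit 314) (nat_lit 5) (nat_lit 323) (nat_lit 5) (nat_lit 312) (nat_lit 308) (nat_lit 280))))))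 (XT.nd (nat_lit 468) (nat_lit 1520) (nat_lit 0) (XT.nd (nat_lit 234) (nat_lit 760) (nat_lit 0) (XT.nd (nat_lit 78) (nat_lit 608) (nat_lit 0) (XT.lf (nat_lit 76) (nat_lit 4196817782) (nat_lit 0) (nat_lit 1459956615) (nat_lit 684) (nat_lit 1269572467) (nat_lit 315) (nat_lit 5) (nat_lit 314) (nat_lit 5) (nat_lit 323) (nat_lit 5) (nat_lit 313) (nat_lit 308) (nat_lit 279)) (XT.nd (nat_lit 78) (nat_lit 0) (nat_lit 0) (XT.lf (nat_lit 0) (nat_lit 709504873) (nat_lit 684) (nat_lit 6192768451) (nat_lit 760) (nat_lit 74836460) (nat_lit 306) (nat_lit 5) (nat_lit 315) (nat_lit 5) (nat_lit 316) (nat_lit 5) (nat_lit 314) (nat_lit 308) (nat_lit 278)) (XT.lf (nat_lit 0) (nat_lit 2692403953) (nat_lit 684) (nat_lit 2641836330) (nat_lit 760) (nat_lit 1695752972) (nat_lit 306) (nat_lit 5) (nat_lit 315) (nat_lit 5) (nat_lit 316) (nat_lit 5) (nat_lit 315) (nat_lit 308) (nat_lit 277)))) (XT.nd (nat_lit 78) (nat_lit 760) (nat_lit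 0) (XT.lf (nat_lit 76) (nat_lit 990733013) (nat_lit 0) (nat_lit 3683362814) (nat_lit 760) (nat_lit 2412259836) (nat_lit 307) (nat_lit 5) (nat_lit 306) (nat_lit 5) (nat_lit 316) (nat_lit 5) (nat_lit 316) (nat_lit 308) (nat_lit 276)) (XT.nd (nat_lit 78) (nat_lit 760) (nat_lit 0) (XT.lf (nat_lit 76) (nat_lit 4742644544) (nat_lit 0) (nat_lit 1930677812) (nat_lit 760) (nat_lit 472413596) (nat_lit 307) (nat_lit 5) (nat_lit 306) (nat_lit 5) (nat_lit 316) (nat_lit 5) (nat_lit 317) (nat_lit 308) (nat_lit 275)) (XT.lf (nat_lit 76) (nat_lit 1368331711) (nat_lit 0) (nat_lit 73357917) (nat_lit 836) (nat_lit 5766458635) (nat_lit 297) (nat_lit 5) (nat_lit 296) (nat_lit 5) (nat_lit 307) (nat_lit 5) (nat_lit 318) (nat_lit 308) (nat_lit 274))))) (XT.nd (nat_lit 234) (nat_lit 1596) (nat_lit 0) (XT.nd (nat_lit 78) (nat_lit 0) (nat_lit 0) (XT.lf (nat_lit 0) (nat_lit 3380347699) (nat_lit 760) (nat_lit 2037888687) (nat_lit 836)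 (nat_lit 1854821056) (nat_lit 297) (nat_lit 5) (nat_lit 307) (nat_lit 5) (nat_lit 308) (nat_lit 5) (nat_lit 319) (nat_lit 308) (nat_lit 273)) (XT.nd (nat_lit 78) (nat_lit 0) (nat_lit 0) (XT.lf (nat_lit 76) (nat_lit 1869441977) (nat_lit 0) (nat_lit 3462765581) (nat_lit 836) (nat_lit 2009116849) (nat_lit 298) (nat_lit 5) (nat_lit 297) (nat_lit 5) (nat_lit 308) (nat_lit 5) (nat_lit 320) (nat_lit 308) (nat_lit 272)) (XT.lf (nat_lit 76) (nat_lit 5891794392) (nat_lit 0) (nat_lit 1409184331) (nat_lit 836) (nat_lit 111969966) (nat_lit 298) (nat_lit 5) (nat_lit 297) (nat_lit 5) (nat_lit 308) (nat_lit 5) (nat_lit 321) (nat_lit 308) (nat_lit 271)))) (XT.nd (nat_lit 156) (nat_lit 836) (nat_lit 0) (XT.nd (nat_lit 78) (nat_lit 0) (nat_lit 0) (XT.lf (nat_lit 0) (nat_lit 1776823750) (nat_lit 836) (nat_lit 4958806205) (nat_lit 76) (nat_lit 751496706) (nat_lit 287) (nat_lit 5) (nat_lit 298) (nat_lit 5) (nat_lit 288) (nat_lit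 5) (nat_lit 322) (nat_lit 308) (nat_lit 270)) (XT.lf (nat_lit 0) (nat_lit 3689945435) (nat_lit 836) (nat_lit 893355043) (nat_lit 76) (nat_lit 2981153679) (nat_lit 287) (nat_lit 5) (nat_lit 298) (nat_lit 5) (nat_lit 288) (nat_lit 5) (nat_lit 323) (nat_lit 308) (nat_lit 269))) (XT.nd (nat_lit 78) (nat_lit 0) (nat_lit 0) (XT.lf (nat_lit 0) (nat_lit 3314529819) (nat_lit 836) (nat_lit 2319976279) (nat_lit 912) (nat_lit 2010427306) (nat_lit 276) (nat_lit 5) (nat_lit 287) (nat_lit 5) (nat_lit 288) (nat_lit 5) (nat_lit 324) (nat_lit 308) (nat_lit 268)) (XT.lf (nat_lit 0) (nat_lit 7590192192) (nat_lit 912) (nat_lit 106435682) (nat_lit 76) (nat_lit 32667229) (nat_lit 276) (nat_lit 5) (nat_lit 288) (nat_lit 5) (nat_lit 277) (nat_lit 5) (nat_lit 325) (nat_lit 308) (nat_lit 267))))))) (XT.nd (nat_lit 1014) (nat_lit 3876) (nat_lit 0) (XT.nd (nat_lit 468) (nat_lit 2888) (nat_lit 0) (XT.nd (nat_lit 234) (nat_lit 2280)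 (nat_lit 0) (XT.nd (nat_lit 78) (nat_lit 988) (nat_lit 0) (XT.lf (nat_lit 0) (nat_lit 1762639364) (nat_lit 988) (nat_lit 3573150131) (nat_lit 76) (nat_lit 2479655930) (nat_lit 263) (nat_lit 5) (nat_lit 276) (nat_lit 5) (nat_lit 264) (nat_lit 5) (nat_lit 326) (nat_lit 308) (nat_lit 266)) (XT.nd (nat_lit 78) (nat_lit 0) (nat_lit 0) (XT.lf (nat_lit 0) (nat_lit 788512982) (nat_lit 988) (nat_lit 2884599099) (nat_lit 1064) (nat_lit 4232439982) (nat_lit 250) (nat_lit 5) (nat_lit 263) (nat_lit 5) (nat_lit 264) (nat_lit 5) (nat_lit 327) (nat_lit 308) (nat_lit 265)) (XT.lf (nat_lit 0) (nat_lit 5309705456) (nat_lit 988) (nat_lit 314234214) (nat_lit 1064) (nat_lit 2374976972) (nat_lit 250) (nat_lit 5) (nat_lit 263) (nat_lit 5) (nat_lit 264) (nat_lit 5) (nat_lit 328) (nat_lit 308) (nat_lit 264)))) (XT.nd (nat_lit 78) (nat_lit 1216) (nat_lit 0) (XT.lf (nat_lit 0) (nat_lit 1839990688) (nat_lit 1064) (nat_lit 5781999917)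 (nat_lit 1140) (nat_lit 473475223) (nat_lit 236) (nat_lit 5) (nat_lit 250) (nat_lit 5) (nat_lit 251) (nat_lit 5) (nat_lit 329) (nat_lit 308) (nat_lit 263)) (XT.nd (nat_lit 78) (nat_lit 1140) (nat_lit 0) (XT.lf (nat_lit 0) (nat_lit 1435740087) (nat_lit 1140) (nat_lit 1697108953) (nat_lit 76) (nat_lit 5062286823) (nat_lit 235) (nat_lit 5) (nat_lit 250) (nat_lit 5) (nat_lit 236) (nat_lit 5) (nat_lit 330) (nat_lit 308) (nat_lit 262)) (XT.lf (nat_lit 0) (nat_lit 3007788439) (nat_lit 1140) (nat_lit 364433667) (nat_lit 1216) (nat_lit 4926088896) (nat_lit 220) (nat_lit 5) (nat_lit 235) (nat_lit 5) (nat_lit 236) (nat_lit 5) (nat_lit 331) (nat_lit 308) (nat_lit 261))))) (XT.nd (nat_lit 234) (nat_lit 1216) (nat_lit 0) (XT.nd (nat_lit 78) (nat_lit 1672) (nat_lit 0) (XT.lf (nat_lit 0) (nat_lit 5359668813) (nat_lit 1216) (nat_lit 584848614) (nat_lit 76) (nat_lit 2460317511) (nat_lit 220) (nat_lit 5) (nat_lit 236) (nat_lit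 5) (nat_lit 221) (nat_lit 5) (nat_lit 332) (nat_lit 308) (nat_lit 260)) (XT.nd (nat_lit 78) (nat_lit 684) (nat_lit 0) (XT.lf (nat_lit 0) (nat_lit 4298255341) (nat_lit 988) (nat_lit 3106473548) (nat_lit 1064) (nat_lit 1109924497) (nat_lit 207) (nat_lit 5) (nat_lit 220) (nat_lit 5) (nat_lit 221) (nat_lit 5) (nat_lit 333) (nat_lit 308) (nat_lit 259)) (XT.lf (nat_lit 0) (nat_lit 672284421) (nat_lit 608) (nat_lit 159799328) (nat_lit 684) (nat_lit 7796485761) (nat_lit 198) (nat_lit 5) (nat_lit 206) (nat_lit 5) (nat_lit 207) (nat_lit 5) (nat_lit 334) (nat_lit 308) (nat_lit 258)))) (XT.nd (nat_lit 156) (nat_lit 684) (nat_lit 0) (XT.nd (nat_lit 78) (nat_lit 532) (nat_lit 0) (XT.lf (nat_lit 0) (nat_lit 2835145953) (nat_lit 684) (nat_lit 3035131532) (nat_lit 76) (nat_lit 2874578117) (nat_lit 198) (nat_lit 5) (nat_lit 207) (nat_lit 5) (nat_lit 199) (nat_lit 5) (nat_lit 335) (nat_lit 308) (nat_lit 257)) (XT.lf (nat_lit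 0) (nat_lit 2027447644) (nat_lit 532) (nat_lit 2847714178) (nat_lit 608) (nat_lit 3990196803) (nat_lit 191) (nat_lit 5) (nat_lit 198) (nat_lit 5) (nat_lit 199) (nat_lit 5) (nat_lit 336) (nat_lit 308) (nat_lit 256))) (XT.nd (nat_lit 78) (nat_lit 684) (nat_lit 0) (XT.lf (nat_lit 0) (nat_lit 6966536520) (nat_lit 608) (nat_lit 1732377596) (nat_lit 76) (nat_lit 290891078) (nat_lit 191) (nat_lit 5) (nat_lit 199) (nat_lit 5) (nat_lit 192) (nat_lit 5) (nat_lit 337) (nat_lit 308) (nat_lit 255)) (XT.lf (nat_lit 0) (nat_lit 22758980) (nat_lit 684) (nat_lit 5594538888) (nat_lit 76) (nat_lit 3500113508) (nat_lit 182) (nat_lit 5) (nat_lit 191) (nat_lit 5) (nat_lit 183) (nat_lit 5) (nat_lit 338) (nat_lit 308) (nat_lit 254)))))) (XT.nd (nat_lit 546) (nat_lit 1824) (nat_lit 0) (XT.nd (nat_lit 234) (nat_lit 988) (nat_lit 0) (XT.nd (nat_lit 78) (nat_lit 1064) (nat_lit 0) (XT.lf (nat_lit 0) (nat_lit 2065454476) (nat_lit 684)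 (nat_lit 341438527) (nat_lit 76) (nat_lit 6842103578) (nat_lit 182) (nat_lit 5) (nat_lit 191) (nat_lit 5) (nat_lit 183) (nat_lit 5) (nat_lit 339) (nat_lit 308) (nat_lit 253)) (XT.nd (nat_lit 78) (nat_lit 532) (nat_lit 0) (XT.lf (nat_lit 0) (nat_lit 4187323842) (nat_lit 608) (nat_lit 4267037615) (nat_lit 76) (nat_lit 929660595) (nat_lit 175) (nat_lit 5) (nat_lit 183) (nat_lit 5) (nat_lit 176) (nat_lit 5) (nat_lit 340) (nat_lit 308) (nat_lit 252)) (XT.lf (nat_lit 0) (nat_lit 1178608764) (nat_lit 532) (nat_lit 5193128000) (nat_lit 608) (nat_lit 3151423544) (nat_lit 168) (nat_lit 5) (nat_lit 175) (nat_lit 5) (nat_lit 176) (nat_lit 5) (nat_lit 341) (nat_lit 308) (nat_lit 251)))) (XT.nd (nat_lit 156) (nat_lit 456) (nat_lit 0) (XT.nd (nat_lit 78) (nat_lit 532) (nat_lit 0) (XT.lf (nat_lit 0) (nat_lit 6831833183) (nat_lit 532) (nat_lit 1793924995) (nat_lit 608) (nat_lit 1040620058) (nat_lit 168) (nat_lit 5) (nat_lit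 175) (nat_lit 5) (nat_lit 176) (nat_lit 5) (nat_lit 342) (nat_lit 308) (nat_lit 250)) (XT.lf (nat_lit 0) (nat_lit 1117181411) (nat_lit 532) (nat_lit 6988122332) (nat_lit 76) (nat_lit 1708114513) (nat_lit 161) (nat_lit 5) (nat_lit 168) (nat_lit 5) (nat_lit 162) (nat_lit 5) (nat_lit 343) (nat_lit 308) (nat_lit 249))) (XT.nd (nat_lit 78) (nat_lit 456) (nat_lit 0) (XT.lf (nat_lit 0) (nat_lit 3327853533) (nat_lit 532) (nat_lit 1322797777) (nat_lit 76) (nat_lit 5313662959) (nat_lit 161) (nat_lit 5) (nat_lit 168) (nat_lit 5) (nat_lit 162) (nat_lit 5) (nat_lit 344) (nat_lit 308) (nat_lit 248)) (XT.lf (nat_lit 0) (nat_lit 4559243756) (nat_lit 456) (nat_lit 1052907585) (nat_lit 532) (nat_lit 4507391364) (nat_lit 155) (nat_lit 5) (nat_lit 161) (nat_lit 5) (nat_lit 162) (nat_lit 5) (nat_lit 345) (nat_lit 308) (nat_lit 247))))) (XT.nd (nat_lit 234) (nat_lit 836) (nat_lit 0) (XT.nd (nat_lit 78) (nat_lit 532) (nat_lit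 0) (XT.lf (nat_lit 0) (nat_lit 303282292) (nat_lit 456) (nat_lit 7667685225) (nat_lit 532) (nat_lit 2308304781) (nat_lit 149) (nat_lit 5) (nat_lit 155) (nat_lit 5) (nat_lit 156) (nat_lit 5) (nat_lit 346) (nat_lit 308) (nat_lit 246)) (XT.nd (nat_lit 78) (nat_lit 532) (nat_lit 0) (XT.lf (nat_lit 0) (nat_lit 6403700457) (nat_lit 456) (nat_lit 4028040947) (nat_lit 532) (nat_lit 11139869) (nat_lit 149) (nat_lit 5) (nat_lit 155) (nat_lit 5) (nat_lit 156) (nat_lit 5) (nat_lit 347) (nat_lit 308) (nat_lit 245)) (XT.lf (nat_lit 0) (nat_lit 2051228201) (nat_lit 456) (nat_lit 242864792) (nat_lit 532) (nat_lit 8317095170) (nat_lit 142) (nat_lit 5) (nat_lit 148) (nat_lit 5) (nat_lit 149) (nat_lit 5) (nat_lit 348) (nat_lit 308) (nat_lit 244)))) (XT.nd (nat_lit 156) (nat_lit 456) (nat_lit 0) (XT.nd (nat_lit 78) (nat_lit 380) (nat_lit 0) (XT.lf (nat_lit 0) (nat_lit 4710519137) (nat_lit 532) (nat_lit 2454281355) (nat_lit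 76) (nat_lit 3618493969) (nat_lit 142) (nat_lit 5) (nat_lit 149) (nat_lit 5) (nat_lit 143) (nat_lit 5) (nat_lit 349) (nat_lit 308) (nat_lit 243)) (XT.lf (nat_lit 0) (nat_lit 3866393869) (nat_lit 380) (nat_lit 3339533503) (nat_lit 456) (nat_lit 3754462587) (nat_lit 137) (nat_lit 5) (nat_lit 142) (nat_lit 5) (nat_lit 143) (nat_lit 5) (nat_lit 350) (nat_lit 308) (nat_lit 242))) (XT.nd (nat_lit 78) (nat_lit 456) (nat_lit 0) (XT.lf (nat_lit 0) (nat_lit 9774408940) (nat_lit 456) (nat_lit 762800699) (nat_lit 76) (nat_lit 605662441) (nat_lit 137) (nat_lit 5) (nat_lit 143) (nat_lit 5) (nat_lit 138) (nat_lit 5) (nat_lit 351) (nat_lit 308) (nat_lit 241)) (XT.lf (nat_lit 0) (nat_lit 1125567262) (nat_lit 456) (nat_lit 5542277378) (nat_lit 76) (nat_lit 4660957776) (nat_lit 131) (nat_lit 5) (nat_lit 137) (nat_lit 5) (nat_lit 132) (nat_lit 5) (nat_lit 352) (nat_lit 308) (nat_lit 240))))))))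
noncomputable def xc127 : XT := (XT.nd (nat_lit 2028) (nat_lit 2584) (nat_lit 0) (XT.nd (nat_lit 1014) (nat_lit 1976) (nat_lit 0) (XT.nd (nat_lit 468) (nat_lit 1368) (nat_lit 0) (XT.nd (nat_lit 234) (nat_lit 380) (nat_lit 0) (XT.nd (nat_lit 78) (nat_lit 380) (nat_lit 0) (XT.lf (nat_lit 0) (nat_lit 992877555) (nat_lit 380) (nat_lit 2659928104) (nat_lit 456) (nat_lit 7867540160) (nat_lit 126) (nat_lit 5) (nat_lit 131) (nat_lit 5) (nat_lit 132) (nat_lit 5) (nat_lit 353) (nat_lit 308) (nat_lit 239)) (XT.nd (nat_lit 78) (nat_lit 380) (nat_lit 0) (XT.lf (nat_lit 0) (nat_lit 6295500204) (nat_lit 456) (nat_lit 3934139515) (nat_lit 76) (nat_lit 1486824484) (nat_lit 126) (nat_lit 5) (nat_lit 132) (nat_lit 5) (nat_lit 127) (nat_lit 5) (nat_lit 354) (nat_lit 308) (nat_lit 238)) (XT.lf (nat_lit 0) (nat_lit 2846179018) (nat_lit 380) (nat_lit 6194899714) (nat_lit 456) (nat_lit 2876696642) (nat_lit 121) (nat_lit 5) (nat_lit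 126) (nat_lit 5) (nat_lit 127) (nat_lit 5) (nat_lit 355) (nat_lit 308) (nat_lit 237)))) (XT.nd (nat_lit 78) (nat_lit 380) (nat_lit 0) (XT.lf (nat_lit 0) (nat_lit 9870932040) (nat_lit 380) (nat_lit 2008223288) (nat_lit 456) (nat_lit 245683455) (nat_lit 121) (nat_lit 5) (nat_lit 126) (nat_lit 5) (nat_lit 127) (nat_lit 5) (nat_lit 356) (nat_lit 308) (nat_lit 236)) (XT.nd (nat_lit 78) (nat_lit 0) (nat_lit 0) (XT.lf (nat_lit 0) (nat_lit 2456014549) (nat_lit 380) (nat_lit 7560434489) (nat_lit 76) (nat_lit 2319775048) (nat_lit 116) (nat_lit 5) (nat_lit 121) (nat_lit 5) (nat_lit 117) (nat_lit 5) (nat_lit 357) (nat_lit 308) (nat_lit 235)) (XT.lf (nat_lit 0) (nat_lit 5248036049) (nat_lit 380) (nat_lit 552682490) (nat_lit 76) (nat_lit 6752748512) (nat_lit 116) (nat_lit 5) (nat_lit 121) (nat_lit 5) (nat_lit 117) (nat_lit 5) (nat_lit 358) (nat_lit 308) (nat_lit 234))))) (XT.nd (nat_lit 234) (nat_lit 608) (nat_lit 0)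 (XT.nd (nat_lit 78) (nat_lit 380) (nat_lit 0) (XT.lf (nat_lit 0) (nat_lit 6758888642) (nat_lit 380) (nat_lit 1402076594) (nat_lit 456) (nat_lit 4615162607) (nat_lit 111) (nat_lit 5) (nat_lit 116) (nat_lit 5) (nat_lit 117) (nat_lit 5) (nat_lit 359) (nat_lit 308) (nat_lit 233)) (XT.nd (nat_lit 78) (nat_lit 76) (nat_lit 0) (XT.lf (nat_lit 0) (nat_lit 1251464775) (nat_lit 304) (nat_lit 9930077787) (nat_lit 380) (nat_lit 1823332603) (nat_lit 107) (nat_lit 5) (nat_lit 111) (nat_lit 5) (nat_lit 112) (nat_lit 5) (nat_lit 360) (nat_lit 308) (nat_lit 232)) (XT.lf (nat_lit 0) (nat_lit 1079636551) (nat_lit 380) (nat_lit 4440524219) (nat_lit 76) (nat_lit 7718596843) (nat_lit 106) (nat_lit 5) (nat_lit 111) (nat_lit 5) (nat_lit 107) (nat_lit 5) (nat_lit 361) (nat_lit 308) (nat_lit 231)))) (XT.nd (nat_lit 156) (nat_lit 304) (nat_lit 0) (XT.nd (nat_lit 78) (nat_lit 0) (nat_lit 0) (XT.lf (nat_lit 0) (nat_lit 3096407992)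 (nat_lit 304) (nat_lit 939871760) (nat_lit 380) (nat_lit 9442751518) (nat_lit 102) (nat_lit 5) (nat_lit 106) (nat_lit 5) (nat_lit 107) (nat_lit 5) (nat_lit 362) (nat_lit 308) (nat_lit 230)) (XT.lf (nat_lit 0) (nat_lit 7136995145) (nat_lit 380) (nat_lit 2849480793) (nat_lit 76) (nat_lit 3738388906) (nat_lit 102) (nat_lit 5) (nat_lit 107) (nat_lit 5) (nat_lit 103) (nat_lit 5) (nat_lit 363) (nat_lit 308) (nat_lit 229))) (XT.nd (nat_lit 78) (nat_lit 0) (nat_lit 0) (XT.lf (nat_lit 0) (nat_lit 4960221018) (nat_lit 304) (nat_lit 5402034766) (nat_lit 380) (nat_lit 3614884447) (nat_lit 98) (nat_lit 5) (nat_lit 102) (nat_lit 5) (nat_lit 103) (nat_lit 5) (nat_lit 364) (nat_lit 308) (nat_lit 228)) (XT.lf (nat_lit 0) (nat_lit 13026066353) (nat_lit 304) (nat_lit 661909703) (nat_lit 380) (nat_lit 548908924) (nat_lit 98) (nat_lit 5) (nat_lit 102) (nat_lit 5) (nat_lit 103) (nat_lit 5) (nat_lit 365) (nat_lit 308) (nat_lit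 227)))))) (XT.nd (nat_lit 468) (nat_lit 760) (nat_lit 0) (XT.nd (nat_lit 234) (nat_lit 608) (nat_lit 0) (XT.nd (nat_lit 78) (nat_lit 228) (nat_lit 0) (XT.lf (nat_lit 0) (nat_lit 2641261046) (nat_lit 380) (nat_lit 7640698988) (nat_lit 76) (nat_lit 4219227289) (nat_lit 93) (nat_lit 5) (nat_lit 98) (nat_lit 5) (nat_lit 94) (nat_lit 5) (nat_lit 366) (nat_lit 308) (nat_lit 226)) (XT.nd (nat_lit 78) (nat_lit 0) (nat_lit 0) (XT.lf (nat_lit 0) (nat_lit 384833014) (nat_lit 228) (nat_lit 5529540611) (nat_lit 304) (nat_lit 8858945093) (nat_lit 90) (nat_lit 5) (nat_lit 93) (nat_lit 5) (nat_lit 94) (nat_lit 5) (nat_lit 367) (nat_lit 308) (nat_lit 225)) (XT.lf (nat_lit 0) (nat_lit 8771843133) (nat_lit 228) (nat_lit 567025225) (nat_lit 304) (nat_lit 5713160831) (nat_lit 90) (nat_lit 5) (nat_lit 93) (nat_lit 5) (nat_lit 94) (nat_lit 5) (nat_lit 368) (nat_lit 308) (nat_lit 224)))) (XT.nd (nat_lit 78) (nat_lit 304) (nat_lit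 0) (XT.lf (nat_lit 0) (nat_lit 2031862631) (nat_lit 304) (nat_lit 10874069307) (nat_lit 380) (nat_lit 2431984503) (nat_lit 86) (nat_lit 5) (nat_lit 90) (nat_lit 5) (nat_lit 91) (nat_lit 5) (nat_lit 369) (nat_lit 308) (nat_lit 223)) (XT.nd (nat_lit 78) (nat_lit 228) (nat_lit 0) (XT.lf (nat_lit 0) (nat_lit 975519688) (nat_lit 380) (nat_lit 4959409614) (nat_lit 76) (nat_lit 9695796087) (nat_lit 85) (nat_lit 5) (nat_lit 90) (nat_lit 5) (nat_lit 86) (nat_lit 5) (nat_lit 370) (nat_lit 308) (nat_lit 222)) (XT.lf (nat_lit 0) (nat_lit 3650229520) (nat_lit 228) (nat_lit 798629787) (nat_lit 304) (nat_lit 11482371801) (nat_lit 82) (nat_lit 5) (nat_lit 85) (nat_lit 5) (nat_lit 86) (nat_lit 5) (nat_lit 371) (nat_lit 308) (nat_lit 221))))) (XT.nd (nat_lit 234) (nat_lit 532) (nat_lit 0) (XT.nd (nat_lit 78) (nat_lit 228) (nat_lit 0) (XT.lf (nat_lit 0) (nat_lit 8097769777) (nat_lit 304) (nat_lit 3697880303) (nat_lit 76)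 (nat_lit 4442970114) (nat_lit 82) (nat_lit 5) (nat_lit 86) (nat_lit 5) (nat_lit 83) (nat_lit 5) (nat_lit 372) (nat_lit 308) (nat_lit 220)) (XT.nd (nat_lit 78) (nat_lit 0) (nat_lit 0) (XT.lf (nat_lit 0) (nat_lit 5202583288) (nat_lit 228) (nat_lit 6689750815) (nat_lit 304) (nat_lit 4661820296) (nat_lit 79) (nat_lit 5) (nat_lit 82) (nat_lit 5) (nat_lit 83) (nat_lit 5) (nat_lit 373) (nat_lit 308) (nat_lit 219)) (XT.lf (nat_lit 0) (nat_lit 14412429497) (nat_lit 228) (nat_lit 1404227663) (nat_lit 304) (nat_lit 1062028599) (nat_lit 79) (nat_lit 5) (nat_lit 82) (nat_lit 5) (nat_lit 83) (nat_lit 5) (nat_lit 374) (nat_lit 308) (nat_lit 218)))) (XT.nd (nat_lit 156) (nat_lit 228) (nat_lit 0) (XT.nd (nat_lit 78) (nat_lit 0) (nat_lit 0) (XT.lf (nat_lit 0) (nat_lit 2677706751) (nat_lit 304) (nat_lit 10491299190) (nat_lit 76) (nat_lit 4040685071) (nat_lit 75) (nat_lit 5) (nat_lit 79) (nat_lit 5) (nat_lit 76) (nat_lit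 5) (nat_lit 375) (nat_lit 308) (nat_lit 217)) (XT.lf (nat_lit 0) (nat_lit 6526517655) (nat_lit 304) (nat_lit 1378488883) (nat_lit 76) (nat_lit 9644765589) (nat_lit 75) (nat_lit 5) (nat_lit 79) (nat_lit 5) (nat_lit 76) (nat_lit 5) (nat_lit 376) (nat_lit 308) (nat_lit 216))) (XT.nd (nat_lit 78) (nat_lit 0) (nat_lit 0) (XT.lf (nat_lit 0) (nat_lit 8134319269) (nat_lit 228) (nat_lit 2414447263) (nat_lit 304) (nat_lit 7349557736) (nat_lit 72) (nat_lit 5) (nat_lit 75) (nat_lit 5) (nat_lit 76) (nat_lit 5) (nat_lit 377) (nat_lit 308) (nat_lit 215)) (XT.lf (nat_lit 0) (nat_lit 14716844282) (nat_lit 304) (nat_lit 359729717) (nat_lit 76) (nat_lit 3180011707) (nat_lit 72) (nat_lit 5) (nat_lit 76) (nat_lit 5) (nat_lit 73) (nat_lit 5) (nat_lit 378) (nat_lit 308) (nat_lit 214))))))) (XT.nd (nat_lit 1014) (nat_lit 1064) (nat_lit 0) (XT.nd (nat_lit 468) (nat_lit 532) (nat_lit 0) (XT.nd (nat_lit 234) (nat_lit 456) (nat_lit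 0) (XT.nd (nat_lit 78) (nat_lit 228) (nat_lit 0) (XT.lf (nat_lit 0) (nat_lit 473141989) (nat_lit 304) (nat_lit 9171445593) (nat_lit 76) (nat_lit 8978015510) (nat_lit 68) (nat_lit 5) (nat_lit 72) (nat_lit 5) (nat_lit 69) (nat_lit 5) (nat_lit 379) (nat_lit 308) (nat_lit 213)) (XT.nd (nat_lit 78) (nat_lit 0) (nat_lit 0) (XT.lf (nat_lit 0) (nat_lit 507638372) (nat_lit 228) (nat_lit 4016782635) (nat_lit 304) (nat_lit 14474460883) (nat_lit 65) (nat_lit 5) (nat_lit 68) (nat_lit 5) (nat_lit 69) (nat_lit 5) (nat_lit 380) (nat_lit 308) (nat_lit 212)) (XT.lf (nat_lit 0) (nat_lit 8788634453) (nat_lit 304) (nat_lit 8768191161) (nat_lit 76) (nat_lit 1826888287) (nat_lit 65) (nat_lit 5) (nat_lit 69) (nat_lit 5) (nat_lit 66) (nat_lit 5) (nat_lit 381) (nat_lit 308) (nat_lit 211)))) (XT.nd (nat_lit 78) (nat_lit 304) (nat_lit 0) (XT.lf (nat_lit 0) (nat_lit 1199514756) (nat_lit 152) (nat_lit 12013877036) (nat_lit 228) (nat_lit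 6565727088) (nat_lit 63) (nat_lit 5) (nat_lit 65) (nat_lit 5) (nat_lit 66) (nat_lit 5) (nat_lit 382) (nat_lit 308) (nat_lit 210)) (XT.nd (nat_lit 78) (nat_lit 304) (nat_lit 0) (XT.lf (nat_lit 0) (nat_lit 11615617167) (nat_lit 152) (nat_lit 6225385314) (nat_lit 228) (nat_lit 2343286553) (nat_lit 63) (nat_lit 5) (nat_lit 65) (nat_lit 5) (nat_lit 66) (nat_lit 5) (nat_lit 383) (nat_lit 308) (nat_lit 209)) (XT.lf (nat_lit 0) (nat_lit 1727155056) (nat_lit 228) (nat_lit 238056404) (nat_lit 304) (nat_lit 18635874618) (nat_lit 59) (nat_lit 5) (nat_lit 62) (nat_lit 5) (nat_lit 63) (nat_lit 5) (nat_lit 384) (nat_lit 308) (nat_lit 208))))) (XT.nd (nat_lit 234) (nat_lit 380) (nat_lit 0) (XT.nd (nat_lit 78) (nat_lit 152) (nat_lit 0) (XT.lf (nat_lit 0) (nat_lit 6482294627) (nat_lit 304) (nat_lit 8631325275) (nat_lit 76) (nat_lit 5912284073) (nat_lit 59) (nat_lit 5) (nat_lit 63) (nat_lit 5) (nat_lit 60) (nat_lit 5) (nat_lit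 385) (nat_lit 308) (nat_lit 207)) (XT.nd (nat_lit 78) (nat_lit 0) (nat_lit 0) (XT.lf (nat_lit 0) (nat_lit 1924641341) (nat_lit 152) (nat_lit 9213681845) (nat_lit 228) (nat_lit 10325045873) (nat_lit 57) (nat_lit 5) (nat_lit 59) (nat_lit 5) (nat_lit 60) (nat_lit 5) (nat_lit 386) (nat_lit 308) (nat_lit 206)) (XT.lf (nat_lit 0) (nat_lit 12945389127) (nat_lit 152) (nat_lit 3058608384) (nat_lit 228) (nat_lit 5907867107) (nat_lit 57) (nat_lit 5) (nat_lit 59) (nat_lit 5) (nat_lit 60) (nat_lit 5) (nat_lit 387) (nat_lit 308) (nat_lit 205)))) (XT.nd (nat_lit 156) (nat_lit 152) (nat_lit 0) (XT.nd (nat_lit 78) (nat_lit 76) (nat_lit 0) (XT.lf (nat_lit 0) (nat_lit 1900092542) (nat_lit 152) (nat_lit 19148552142) (nat_lit 228) (nat_lit 1324185595) (nat_lit 55) (nat_lit 5) (nat_lit 57) (nat_lit 5) (nat_lit 58) (nat_lit 5) (nat_lit 388) (nat_lit 308) (nat_lit 204)) (XT.lf (nat_lit 0) (nat_lit 3435689656) (nat_lit 228) (nat_lit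 9660730238) (nat_lit 76) (nat_lit 9747081266) (nat_lit 54) (nat_lit 5) (nat_lit 57) (nat_lit 5) (nat_lit 55) (nat_lit 5) (nat_lit 389) (nat_lit 308) (nat_lit 203))) (XT.nd (nat_lit 78) (nat_lit 0) (nat_lit 0) (XT.lf (nat_lit 0) (nat_lit 1463463413) (nat_lit 152) (nat_lit 6846086153) (nat_lit 228) (nat_lit 15018420045) (nat_lit 52) (nat_lit 5) (nat_lit 54) (nat_lit 5) (nat_lit 55) (nat_lit 5) (nat_lit 390) (nat_lit 308) (nat_lit 202)) (XT.lf (nat_lit 0) (nat_lit 13092068399) (nat_lit 152) (nat_lit 319057639) (nat_lit 228) (nat_lit 10413405774) (nat_lit 52) (nat_lit 5) (nat_lit 54) (nat_lit 5) (nat_lit 55) (nat_lit 5) (nat_lit 391) (nat_lit 308) (nat_lit 201)))))) (XT.nd (nat_lit 546) (nat_lit 532) (nat_lit 0) (XT.nd (nat_lit 234) (nat_lit 304) (nat_lit 0) (XT.nd (nat_lit 78) (nat_lit 76) (nat_lit 0) (XT.lf (nat_lit 0) (nat_lit 657901501) (nat_lit 152) (nat_lit 18060038014) (nat_lit 228) (nat_lit 5616490256)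 (nat_lit 50) (nat_lit 5) (nat_lit 52) (nat_lit 5) (nat_lit 53) (nat_lit 5) (nat_lit 392) (nat_lit 308) (nat_lit 200)) (XT.nd (nat_lit 78) (nat_lit 76) (nat_lit 0) (XT.lf (nat_lit 0) (nat_lit 12580104294) (nat_lit 152) (nat_lit 11699867243) (nat_lit 228) (nat_lit 576777156) (nat_lit 50) (nat_lit 5) (nat_lit 52) (nat_lit 5) (nat_lit 53) (nat_lit 5) (nat_lit 393) (nat_lit 308) (nat_lit 199)) (XT.lf (nat_lit 0) (nat_lit 4508896426) (nat_lit 228) (nat_lit 605304182) (nat_lit 76) (nat_lit 20279665934) (nat_lit 49) (nat_lit 5) (nat_lit 52) (nat_lit 5) (nat_lit 50) (nat_lit 5) (nat_lit 394) (nat_lit 308) (nat_lit 198)))) (XT.nd (nat_lit 156) (nat_lit 152) (nat_lit 0) (XT.nd (nat_lit 78) (nat_lit 0) (nat_lit 0) (XT.lf (nat_lit 0) (nat_lit 9849518329) (nat_lit 228) (nat_lit 14349500919) (nat_lit 76) (nat_lit 1744492307) (nat_lit 47) (nat_lit 5) (nat_lit 50) (nat_lit 5) (nat_lit 48) (nat_lit 5) (nat_lit 395) (nat_lit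 308) (nat_lit 197)) (XT.lf (nat_lit 0) (nat_lit 15392502898) (nat_lit 228) (nat_lit 2413958888) (nat_lit 76) (nat_lit 8701923766) (nat_lit 47) (nat_lit 5) (nat_lit 50) (nat_lit 5) (nat_lit 48) (nat_lit 5) (nat_lit 396) (nat_lit 308) (nat_lit 196))) (XT.nd (nat_lit 78) (nat_lit 0) (nat_lit 0) (XT.lf (nat_lit 0) (nat_lit 10051010712) (nat_lit 152) (nat_lit 11133145333) (nat_lit 228) (nat_lit 5903582190) (nat_lit 45) (nat_lit 5) (nat_lit 47) (nat_lit 5) (nat_lit 48) (nat_lit 5) (nat_lit 397) (nat_lit 308) (nat_lit 195)) (XT.lf (nat_lit 0) (nat_lit 22914885924) (nat_lit 152) (nat_lit 4244990604) (nat_lit 228) (nat_lit 524289165) (nat_lit 45) (nat_lit 5) (nat_lit 47) (nat_lit 5) (nat_lit 48) (nat_lit 5) (nat_lit 398) (nat_lit 308) (nat_lit 194))))) (XT.nd (nat_lit 234) (nat_lit 152) (nat_lit 0) (XT.nd (nat_lit 78) (nat_lit 152) (nat_lit 0) (XT.lf (nat_lit 0) (nat_lit 5009646857) (nat_lit 228) (nat_lit 20374699645)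 (nat_lit 76) (nat_lit 2909961811) (nat_lit 42) (nat_lit 5) (nat_lit 45) (nat_lit 5) (nat_lit 43) (nat_lit 5) (nat_lit 399) (nat_lit 308) (nat_lit 193)) (XT.nd (nat_lit 78) (nat_lit 152) (nat_lit 0) (XT.lf (nat_lit 0) (nat_lit 10776016216) (nat_lit 228) (nat_lit 7906246568) (nat_lit 76) (nat_lit 10238031520) (nat_lit 42) (nat_lit 5) (nat_lit 45) (nat_lit 5) (nat_lit 43) (nat_lit 5) (nat_lit 400) (nat_lit 308) (nat_lit 192)) (XT.lf (nat_lit 0) (nat_lit 5010570237) (nat_lit 152) (nat_lit 11739656645) (nat_lit 228) (nat_lit 12813790796) (nat_lit 40) (nat_lit 5) (nat_lit 42) (nat_lit 5) (nat_lit 43) (nat_lit 5) (nat_lit 401) (nat_lit 308) (nat_lit 191)))) (XT.nd (nat_lit 156) (nat_lit 76) (nat_lit 0) (XT.nd (nat_lit 78) (nat_lit 76) (nat_lit 0) (XT.lf (nat_lit 0) (nat_lit 18453727755) (nat_lit 152) (nat_lit 4516623723) (nat_lit 228) (nat_lit 7254703862) (nat_lit 40) (nat_lit 5) (nat_lit 42) (nat_lit 5) (nat_lit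 43) (nat_lit 5) (nat_lit 402) (nat_lit 308) (nat_lit 190)) (XT.lf (nat_lit 0) (nat_lit 1370042306) (nat_lit 76) (nat_lit 28035444735) (nat_lit 152) (nat_lit 1499587993) (nat_lit 39) (nat_lit 5) (nat_lit 40) (nat_lit 5) (nat_lit 41) (nat_lit 4) (nat_lit 403) (nat_lit 308) (nat_lit 189))) (XT.nd (nat_lit 78) (nat_lit 0) (nat_lit 0) (XT.lf (nat_lit 0) (nat_lit 4493702132) (nat_lit 152) (nat_lit 16566321386) (nat_lit 76) (nat_lit 10539639834) (nat_lit 38) (nat_lit 5) (nat_lit 40) (nat_lit 5) (nat_lit 39) (nat_lit 5) (nat_lit 404) (nat_lit 308) (nat_lit 188)) (XT.lf (nat_lit 0) (nat_lit 10624191768) (nat_lit 152) (nat_lit 3245613311) (nat_lit 76) (nat_lit 18445215445) (nat_lit 38) (nat_lit 5) (nat_lit 40) (nat_lit 5) (nat_lit 39) (nat_lit 5) (nat_lit 405) (nat_lit 308) (nat_lit 187))))))))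
noncomputable def xc128 : XT := (XT.nd (nat_lit 2028) (nat_lit 380) (nat_lit 0) (XT.nd (nat_lit 1014) (nat_lit 532) (nat_lit 0) (XT.nd (nat_lit 468) (nat_lit 380) (nat_lit 0) (XT.nd (nat_lit 234) (nat_lit 228) (nat_lit 0) (XT.nd (nat_lit 78) (nat_lit 76) (nat_lit 0) (XT.lf (nat_lit 0) (nat_lit 10661184008) (nat_lit 152) (nat_lit 6367797830) (nat_lit 228) (nat_lit 16020147772) (nat_lit 36) (nat_lit 5) (nat_lit 38) (nat_lit 5) (nat_lit 39) (nat_lit 5) (nat_lit 406) (nat_lit 308) (nat_lit 186)) (XT.nd (nat_lit 78) (nat_lit 76) (nat_lit 0) (XT.lf (nat_lit 0) (nat_lit 23660041044) (nat_lit 228) (nat_lit 8787581571) (nat_lit 76) (nat_lit 1356618283) (nat_lit 36) (nat_lit 5) (nat_lit 39) (nat_lit 5) (nat_lit 37) (nat_lit 4) (nat_lit 407) (nat_lit 308) (nat_lit 185)) (XT.lf (nat_lit 0) (nat_lit 5238977846) (nat_lit 76) (nat_lit 25352773081) (nat_lit 152) (nat_lit 3987205643) (nat_lit 35) (nat_lit 5) (nat_lit 36)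 (nat_lit 5) (nat_lit 37) (nat_lit 4) (nat_lit 408) (nat_lit 308) (nat_lit 184)))) (XT.nd (nat_lit 78) (nat_lit 152) (nat_lit 0) (XT.lf (nat_lit 0) (nat_lit 2386504464) (nat_lit 152) (nat_lit 15552320311) (nat_lit 76) (nat_lit 17435073890) (nat_lit 34) (nat_lit 5) (nat_lit 36) (nat_lit 5) (nat_lit 35) (nat_lit 5) (nat_lit 409) (nat_lit 308) (nat_lit 183)) (XT.nd (nat_lit 78) (nat_lit 152) (nat_lit 0) (XT.lf (nat_lit 0) (nat_lit 8859961634) (nat_lit 152) (nat_lit 1410925066) (nat_lit 76) (nat_lit 25920960158) (nat_lit 34) (nat_lit 5) (nat_lit 36) (nat_lit 5) (nat_lit 35) (nat_lit 5) (nat_lit 410) (nat_lit 308) (nat_lit 182)) (XT.lf (nat_lit 0) (nat_lit 13396301116) (nat_lit 152) (nat_lit 2249099353) (nat_lit 228) (nat_lit 21385402009) (nat_lit 32) (nat_lit 5) (nat_lit 34) (nat_lit 5) (nat_lit 35) (nat_lit 5) (nat_lit 411) (nat_lit 308) (nat_lit 181))))) (XT.nd (nat_lit 234) (nat_lit 304) (nat_lit 0) (XT.nd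 (nat_lit 78) (nat_lit 76) (nat_lit 0) (XT.lf (nat_lit 0) (nat_lit 22695646900) (nat_lit 228) (nat_lit 9295648280) (nat_lit 76) (nat_lit 5901796509) (nat_lit 32) (nat_lit 5) (nat_lit 35) (nat_lit 5) (nat_lit 33) (nat_lit 4) (nat_lit 412) (nat_lit 308) (nat_lit 180)) (XT.nd (nat_lit 78) (nat_lit 0) (nat_lit 0) (XT.lf (nat_lit 0) (nat_lit 5539913893) (nat_lit 76) (nat_lit 24482378929) (nat_lit 152) (nat_lit 8757012182) (nat_lit 31) (nat_lit 5) (nat_lit 32) (nat_lit 5) (nat_lit 33) (nat_lit 4) (nat_lit 413) (nat_lit 308) (nat_lit 179)) (XT.lf (nat_lit 0) (nat_lit 20991991880) (nat_lit 76) (nat_lit 16660110772) (nat_lit 152) (nat_lit 2037503253) (nat_lit 31) (nat_lit 5) (nat_lit 32) (nat_lit 5) (nat_lit 33) (nat_lit 4) (nat_lit 414) (nat_lit 308) (nat_lit 178)))) (XT.nd (nat_lit 156) (nat_lit 76) (nat_lit 0) (XT.nd (nat_lit 78) (nat_lit 152) (nat_lit 0) (XT.lf (nat_lit 0) (nat_lit 4777994137) (nat_lit 152)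 (nat_lit 3785281030) (nat_lit 76) (nat_lit 32062843358) (nat_lit 30) (nat_lit 5) (nat_lit 32) (nat_lit 5) (nat_lit 31) (nat_lit 5) (nat_lit 415) (nat_lit 308) (nat_lit 177)) (XT.lf (nat_lit 0) (nat_lit 11765631376) (nat_lit 152) (nat_lit 94471377) (nat_lit 228) (nat_lit 29726927575) (nat_lit 28) (nat_lit 5) (nat_lit 30) (nat_lit 5) (nat_lit 31) (nat_lit 5) (nat_lit 416) (nat_lit 308) (nat_lit 176))) (XT.nd (nat_lit 78) (nat_lit 76) (nat_lit 0) (XT.lf (nat_lit 0) (nat_lit 19266257742) (nat_lit 228) (nat_lit 14816525618) (nat_lit 76) (nat_lit 8490640518) (nat_lit 28) (nat_lit 5) (nat_lit 31) (nat_lit 5) (nat_lit 29) (nat_lit 4) (nat_lit 417) (nat_lit 308) (nat_lit 175)) (XT.lf (nat_lit 0) (nat_lit 632177453) (nat_lit 76) (nat_lit 26259761598) (nat_lit 152) (nat_lit 16697551766) (nat_lit 27) (nat_lit 5) (nat_lit 28) (nat_lit 5) (nat_lit 29) (nat_lit 4) (nat_lit 418) (nat_lit 308) (nat_lit 174)))))) (XT.nd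 (nat_lit 468) (nat_lit 228) (nat_lit 0) (XT.nd (nat_lit 234) (nat_lit 76) (nat_lit 0) (XT.nd (nat_lit 78) (nat_lit 228) (nat_lit 0) (XT.lf (nat_lit 0) (nat_lit 16830522403) (nat_lit 76) (nat_lit 18055928717) (nat_lit 152) (nat_lit 9745388616) (nat_lit 27) (nat_lit 5) (nat_lit 28) (nat_lit 5) (nat_lit 29) (nat_lit 4) (nat_lit 419) (nat_lit 308) (nat_lit 173)) (XT.nd (nat_lit 78) (nat_lit 228) (nat_lit 0) (XT.lf (nat_lit 0) (nat_lit 33497785212) (nat_lit 76) (nat_lit 9613734177) (nat_lit 152) (nat_lit 2594219835) (nat_lit 27) (nat_lit 5) (nat_lit 28) (nat_lit 5) (nat_lit 29) (nat_lit 4) (nat_lit 420) (nat_lit 308) (nat_lit 172)) (XT.lf (nat_lit 0) (nat_lit 3866065519) (nat_lit 152) (nat_lit 840372900) (nat_lit 228) (nat_lit 42103201016) (nat_lit 24) (nat_lit 5) (nat_lit 26) (nat_lit 5) (nat_lit 27) (nat_lit 5) (nat_lit 421) (nat_lit 308) (nat_lit 171)))) (XT.nd (nat_lit 78) (nat_lit 76) (nat_lit 0) (XT.lf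 (nat_lit 0) (nat_lit 12368192394) (nat_lit 228) (nat_lit 27392848250) (nat_lit 76) (nat_lit 8179020513) (nat_lit 24) (nat_lit 5) (nat_lit 27) (nat_lit 5) (nat_lit 25) (nat_lit 4) (nat_lit 422) (nat_lit 308) (nat_lit 170)) (XT.nd (nat_lit 78) (nat_lit 76) (nat_lit 0) (XT.lf (nat_lit 0) (nat_lit 20259317065) (nat_lit 228) (nat_lit 11400187286) (nat_lit 76) (nat_lit 17444907171) (nat_lit 24) (nat_lit 5) (nat_lit 27) (nat_lit 5) (nat_lit 25) (nat_lit 4) (nat_lit 423) (nat_lit 308) (nat_lit 169)) (XT.lf (nat_lit 0) (nat_lit 5157094818) (nat_lit 76) (nat_lit 23271107744) (nat_lit 152) (nat_lit 21874260514) (nat_lit 23) (nat_lit 5) (nat_lit 24) (nat_lit 5) (nat_lit 25) (nat_lit 4) (nat_lit 424) (nat_lit 308) (nat_lit 168))))) (XT.nd (nat_lit 234) (nat_lit 76) (nat_lit 0) (XT.nd (nat_lit 78) (nat_lit 152) (nat_lit 0) (XT.lf (nat_lit 0) (nat_lit 22429150691) (nat_lit 76) (nat_lit 14519676006) (nat_lit 152) (nat_lit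 14584430765) (nat_lit 23) (nat_lit 5) (nat_lit 24) (nat_lit 5) (nat_lit 25) (nat_lit 4) (nat_lit 425) (nat_lit 308) (nat_lit 167)) (XT.nd (nat_lit 78) (nat_lit 152) (nat_lit 0) (XT.lf (nat_lit 0) (nat_lit 40204186340) (nat_lit 76) (nat_lit 5512681794) (nat_lit 152) (nat_lit 7084354994) (nat_lit 23) (nat_lit 5) (nat_lit 24) (nat_lit 5) (nat_lit 25) (nat_lit 4) (nat_lit 426) (nat_lit 308) (nat_lit 166)) (XT.lf (nat_lit 0) (nat_lit 699767232) (nat_lit 152) (nat_lit 49671164590) (nat_lit 76) (nat_lit 3733966084) (nat_lit 21) (nat_lit 5) (nat_lit 23) (nat_lit 5) (nat_lit 22) (nat_lit 4) (nat_lit 427) (nat_lit 308) (nat_lit 165)))) (XT.nd (nat_lit 156) (nat_lit 76) (nat_lit 0) (XT.nd (nat_lit 78) (nat_lit 0) (nat_lit 0) (XT.lf (nat_lit 0) (nat_lit 8750054732) (nat_lit 152) (nat_lit 33351125327) (nat_lit 76) (nat_lit 13339148989) (nat_lit 21) (nat_lit 5) (nat_lit 23) (nat_lit 5) (nat_lit 22) (nat_lit 4) (nat_lit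 428) (nat_lit 308) (nat_lit 164)) (XT.lf (nat_lit 0) (nat_lit 17034068612) (nat_lit 152) (nat_lit 16555979442) (nat_lit 76) (nat_lit 23226009783) (nat_lit 21) (nat_lit 5) (nat_lit 23) (nat_lit 5) (nat_lit 22) (nat_lit 4) (nat_lit 429) (nat_lit 308) (nat_lit 163))) (XT.nd (nat_lit 78) (nat_lit 0) (nat_lit 0) (XT.lf (nat_lit 0) (nat_lit 743455935) (nat_lit 76) (nat_lit 24822737948) (nat_lit 152) (nat_lit 32666878090) (nat_lit 20) (nat_lit 5) (nat_lit 21) (nat_lit 5) (nat_lit 22) (nat_lit 4) (nat_lit 430) (nat_lit 308) (nat_lit 162)) (XT.lf (nat_lit 0) (nat_lit 18887321301) (nat_lit 76) (nat_lit 15626675084) (nat_lit 152) (nat_lit 25173809921) (nat_lit 20) (nat_lit 5) (nat_lit 21) (nat_lit 5) (nat_lit 22) (nat_lit 4) (nat_lit 431) (nat_lit 308) (nat_lit 161))))))) (XT.nd (nat_lit 37284) (nat_lit 0) (nat_lit 20596) (XT.nd (nat_lit 468) (nat_lit 152) (nat_lit 0) (XT.nd (nat_lit 234) (nat_lit 152) (nat_lit 0)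 (XT.nd (nat_lit 78) (nat_lit 76) (nat_lit 0) (XT.lf (nat_lit 0) (nat_lit 37561974064) (nat_lit 76) (nat_lit 6161006996) (nat_lit 152) (nat_lit 17463420307) (nat_lit 20) (nat_lit 5) (nat_lit 21) (nat_lit 5) (nat_lit 22) (nat_lit 4) (nat_lit 432) (nat_lit 308) (nat_lit 160)) (XT.nd (nat_lit 78) (nat_lit 76) (nat_lit 0) (XT.lf (nat_lit 0) (nat_lit 53235632136) (nat_lit 152) (nat_lit 5980872270) (nat_lit 0) (nat_lit 3512629079) (nat_lit 20) (nat_lit 5) (nat_lit 22) (nat_lit 4) (nat_lit 20) (nat_lit 4) (nat_lit 433) (nat_lit 308) (nat_lit 159)) (XT.lf (nat_lit 0) (nat_lit 12359261817) (nat_lit 76) (nat_lit 50847313296) (nat_lit 76) (nat_lit 1106386157) (nat_lit 19) (nat_lit 4) (nat_lit 20) (nat_lit 5) (nat_lit 20) (nat_lit 4) (nat_lit 434) (nat_lit 308) (nat_lit 158)))) (XT.nd (nat_lit 78) (nat_lit 76) (nat_lit 0) (XT.lf (nat_lit 0) (nat_lit 7439469385) (nat_lit 152) (nat_lit 34656206308) (nat_lit 76) (nat_lit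 23844833747) (nat_lit 18) (nat_lit 5) (nat_lit 20) (nat_lit 5) (nat_lit 19) (nat_lit 4) (nat_lit 435) (nat_lit 308) (nat_lit 157)) (XT.nd (nat_lit 78) (nat_lit 76) (nat_lit 0) (XT.lf (nat_lit 0) (nat_lit 16212780778) (nat_lit 152) (nat_lit 16863279347) (nat_lit 76) (nat_lit 34540696761) (nat_lit 18) (nat_lit 5) (nat_lit 20) (nat_lit 5) (nat_lit 19) (nat_lit 4) (nat_lit 436) (nat_lit 308) (nat_lit 156)) (XT.lf (nat_lit 0) (nat_lit 1480146904) (nat_lit 76) (nat_lit 23776884773) (nat_lit 152) (nat_lit 44086028831) (nat_lit 17) (nat_lit 5) (nat_lit 18) (nat_lit 5) (nat_lit 19) (nat_lit 4) (nat_lit 437) (nat_lit 308) (nat_lit 155))))) (XT.nd (nat_lit 234) (nat_lit 152) (nat_lit 0) (XT.nd (nat_lit 78) (nat_lit 0) (nat_lit 0) (XT.lf (nat_lit 0) (nat_lit 20707504451) (nat_lit 76) (nat_lit 14028976912) (nat_lit 152) (nat_lit 36379756666) (nat_lit 17) (nat_lit 5) (nat_lit 18) (nat_lit 5) (nat_lit 19) (nat_lit 4)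 (nat_lit 438) (nat_lit 308) (nat_lit 154)) (XT.nd (nat_lit 78) (nat_lit 0) (nat_lit 0) (XT.lf (nat_lit 0) (nat_lit 40499981573) (nat_lit 76) (nat_lit 3994105008) (nat_lit 152) (nat_lit 28448712036) (nat_lit 17) (nat_lit 5) (nat_lit 18) (nat_lit 5) (nat_lit 19) (nat_lit 4) (nat_lit 439) (nat_lit 308) (nat_lit 153)) (XT.lf (nat_lit 0) (nat_lit 54599283701) (nat_lit 152) (nat_lit 14010375935) (nat_lit 0) (nat_lit 6212851348) (nat_lit 17) (nat_lit 5) (nat_lit 19) (nat_lit 4) (nat_lit 17) (nat_lit 4) (nat_lit 440) (nat_lit 308) (nat_lit 152)))) (XT.nd (nat_lit 156) (nat_lit 76) (nat_lit 0) (XT.nd (nat_lit 78) (nat_lit 0) (nat_lit 0) (XT.lf (nat_lit 0) (nat_lit 5022339924) (nat_lit 76) (nat_lit 60067200169) (nat_lit 76) (nat_lit 11666618380) (nat_lit 16) (nat_lit 4) (nat_lit 17) (nat_lit 5) (nat_lit 17) (nat_lit 4) (nat_lit 441) (nat_lit 308) (nat_lit 151)) (XT.lf (nat_lit 0) (nat_lit 24902188781) (nat_lit 76)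 (nat_lit 51127938915) (nat_lit 76) (nat_lit 2713619809) (nat_lit 16) (nat_lit 4) (nat_lit 17) (nat_lit 5) (nat_lit 17) (nat_lit 4) (nat_lit 442) (nat_lit 308) (nat_lit 150))) (XT.nd (nat_lit 78) (nat_lit 0) (nat_lit 0) (XT.lf (nat_lit 0) (nat_lit 6375234445) (nat_lit 152) (nat_lit 35485930382) (nat_lit 76) (nat_lit 38928095613) (nat_lit 15) (nat_lit 5) (nat_lit 17) (nat_lit 5) (nat_lit 16) (nat_lit 4) (nat_lit 443) (nat_lit 308) (nat_lit 149)) (XT.lf (nat_lit 0) (nat_lit 15676640088) (nat_lit 152) (nat_lit 16617025665) (nat_lit 76) (nat_lit 50601834934) (nat_lit 15) (nat_lit 5) (nat_lit 17) (nat_lit 5) (nat_lit 16) (nat_lit 4) (nat_lit 444) (nat_lit 308) (nat_lit 148)))))) (XT.nd (nat_lit 468) (nat_lit 1444) (nat_lit 0) (XT.nd (nat_lit 234) (nat_lit 608) (nat_lit 0) (XT.nd (nat_lit 78) (nat_lit 684) (nat_lit 0) (XT.lf (nat_lit 0) (nat_lit 1567224154) (nat_lit 0) (nat_lit 1567224154) (nat_lit 532) (nat_lit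 261118734) (nat_lit 322) (nat_lit 5) (nat_lit 322) (nat_lit 3) (nat_lit 329) (nat_lit 3) (nat_lit 309) (nat_lit 309) (nat_lit 282)) (XT.nd (nat_lit 78) (nat_lit 0) (nat_lit 0) (XT.lf (nat_lit 0) (nat_lit 1467958964) (nat_lit 684) (nat_lit 427645774) (nat_lit 684) (nat_lit 4935791502) (nat_lit 313) (nat_lit 3) (nat_lit 322) (nat_lit 3) (nat_lit 322) (nat_lit 5) (nat_lit 310) (nat_lit 309) (nat_lit 281)) (XT.lf (nat_lit 76) (nat_lit 2909885065) (nat_lit 0) (nat_lit 547877523) (nat_lit 684) (nat_lit 3416519631) (nat_lit 314) (nat_lit 5) (nat_lit 313) (nat_lit 3) (nat_lit 322) (nat_lit 5) (nat_lit 311) (nat_lit 309) (nat_lit 280)))) (XT.nd (nat_lit 78) (nat_lit 684) (nat_lit 0) (XT.lf (nat_lit 0) (nat_lit 5444350661) (nat_lit 608) (nat_lit 612435510) (nat_lit 684) (nat_lit 863636495) (nat_lit 314) (nat_lit 5) (nat_lit 322) (nat_lit 5) (nat_lit 323) (nat_lit 5) (nat_lit 312) (nat_lit 309) (nat_lit 279)) (XT.nd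 (nat_lit 78) (nat_lit 0) (nat_lit 0) (XT.lf (nat_lit 0) (nat_lit 471574528) (nat_lit 684) (nat_lit 4124667012) (nat_lit 760) (nat_lit 2372855561) (nat_lit 305) (nat_lit 5) (nat_lit 314) (nat_lit 5) (nat_lit 315) (nat_lit 5) (nat_lit 313) (nat_lit 309) (nat_lit 278)) (XT.lf (nat_lit 0) (nat_lit 2382033251) (nat_lit 684) (nat_lit 658340417) (nat_lit 760) (nat_lit 3980471912) (nat_lit 305) (nat_lit 5) (nat_lit 314) (nat_lit 5) (nat_lit 315) (nat_lit 5) (nat_lit 314) (nat_lit 309) (nat_lit 277))))) (XT.nd (nat_lit 234) (nat_lit 760) (nat_lit 0) (XT.nd (nat_lit 78) (nat_lit 684) (nat_lit 0) (XT.lf (nat_lit 76) (nat_lit 2928169122) (nat_lit 0) (nat_lit 1379691488) (nat_lit 760) (nat_lit 2767615867) (nat_lit 306) (nat_lit 5) (nat_lit 305) (nat_lit 5) (nat_lit 315) (nat_lit 5) (nat_lit 315) (nat_lit 309) (nat_lit 276)) (XT.nd (nat_lit 78) (nat_lit 760) (nat_lit 0) (XT.lf (nat_lit 0) (nat_lit 6233183987) (nat_lit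 684) (nat_lit 541958810) (nat_lit 760) (nat_lit 358421393) (nat_lit 306) (nat_lit 5) (nat_lit 315) (nat_lit 5) (nat_lit 316) (nat_lit 5) (nat_lit 316) (nat_lit 309) (nat_lit 275)) (XT.lf (nat_lit 0) (nat_lit 980653255) (nat_lit 760) (nat_lit 4025511981) (nat_lit 836) (nat_lit 2187667637) (nat_lit 296) (nat_lit 5) (nat_lit 306) (nat_lit 5) (nat_lit 307) (nat_lit 5) (nat_lit 317) (nat_lit 309) (nat_lit 274)))) (XT.nd (nat_lit 156) (nat_lit 760) (nat_lit 0) (XT.nd (nat_lit 78) (nat_lit 0) (nat_lit 0) (XT.lf (nat_lit 0) (nat_lit 2840187539) (nat_lit 760) (nat_lit 306336314) (nat_lit 836) (nat_lit 4110976952) (nat_lit 296) (nat_lit 5) (nat_lit 306) (nat_lit 5) (nat_lit 307) (nat_lit 5) (nat_lit 318) (nat_lit 309) (nat_lit 273)) (XT.lf (nat_lit 76) (nat_lit 3552334780) (nat_lit 0) (nat_lit 1173863650) (nat_lit 836) (nat_lit 2597821400) (nat_lit 297) (nat_lit 5) (nat_lit 296) (nat_lit 5) (nat_lit 307) (nat_lit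 5) (nat_lit 319) (nat_lit 309) (nat_lit 272))) (XT.nd (nat_lit 78) (nat_lit 836) (nat_lit 0) (XT.lf (nat_lit 76) (nat_lit 90986611) (nat_lit 0) (nat_lit 6528248597) (nat_lit 836) (nat_lit 774845822) (nat_lit 298) (nat_lit 5) (nat_lit 297) (nat_lit 5) (nat_lit 308) (nat_lit 5) (nat_lit 320) (nat_lit 309) (nat_lit 271)) (XT.lf (nat_lit 0) (nat_lit 1070319121) (nat_lit 836) (nat_lit 3384811669) (nat_lit 912) (nat_lit 3011181175) (nat_lit 286) (nat_lit 5) (nat_lit 297) (nat_lit 5) (nat_lit 298) (nat_lit 5) (nat_lit 321) (nat_lit 309) (nat_lit 270))))))))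
noncomputable def xc129 : XT := (XT.nd (nat_lit 2028) (nat_lit 5320) (nat_lit 0) (XT.nd (nat_lit 1014) (nat_lit 4332) (nat_lit 0) (XT.nd (nat_lit 468) (nat_lit 4332) (nat_lit 0) (XT.nd (nat_lit 234) (nat_lit 988) (nat_lit 0) (XT.nd (nat_lit 78) (nat_lit 760) (nat_lit 0) (XT.lf (nat_lit 76) (nat_lit 612618733) (nat_lit 0) (nat_lit 2289248074) (nat_lit 912) (nat_lit 4640269709) (nat_lit 287) (nat_lit 5) (nat_lit 286) (nat_lit 5) (nat_lit 298) (nat_lit 5) (nat_lit 322) (nat_lit 309) (nat_lit 269)) (XT.nd (nat_lit 78) (nat_lit 760) (nat_lit 0) (XT.lf (nat_lit 76) (nat_lit 4757092348) (nat_lit 0) (nat_lit 7481641) (nat_lit 912) (nat_lit 2856428709) (nat_lit 287) (nat_lit 5) (nat_lit 286) (nat_lit 5) (nat_lit 298) (nat_lit 5) (nat_lit 323) (nat_lit 309) (nat_lit 268)) (XT.lf (nat_lit 0) (nat_lit 1283265989) (nat_lit 836) (nat_lit 5378619762) (nat_lit 912) (nat_lit 1041039144) (nat_lit 276) (nat_lit 5) (nat_lit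 287) (nat_lit 5) (nat_lit 288) (nat_lit 5) (nat_lit 324) (nat_lit 309) (nat_lit 267)))) (XT.nd (nat_lit 78) (nat_lit 912) (nat_lit 0) (XT.lf (nat_lit 0) (nat_lit 786420799) (nat_lit 912) (nat_lit 2224852780) (nat_lit 76) (nat_lit 4776627477) (nat_lit 275) (nat_lit 5) (nat_lit 287) (nat_lit 5) (nat_lit 276) (nat_lit 5) (nat_lit 325) (nat_lit 309) (nat_lit 266)) (XT.nd (nat_lit 78) (nat_lit 0) (nat_lit 0) (XT.lf (nat_lit 0) (nat_lit 2083770395) (nat_lit 912) (nat_lit 530158739) (nat_lit 988) (nat_lit 5262251039) (nat_lit 263) (nat_lit 5) (nat_lit 275) (nat_lit 5) (nat_lit 276) (nat_lit 5) (nat_lit 326) (nat_lit 309) (nat_lit 265)) (XT.lf (nat_lit 0) (nat_lit 4485808377) (nat_lit 988) (nat_lit 1462562775) (nat_lit 76) (nat_lit 2019096105) (nat_lit 263) (nat_lit 5) (nat_lit 276) (nat_lit 5) (nat_lit 264) (nat_lit 5) (nat_lit 327) (nat_lit 309) (nat_lit 264))))) (XT.nd (nat_lit 234) (nat_lit 2204) (nat_lit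 0) (XT.nd (nat_lit 78) (nat_lit 1140) (nat_lit 0) (XT.lf (nat_lit 0) (nat_lit 3008207272) (nat_lit 988) (nat_lit 3388722240) (nat_lit 1064) (nat_lit 1665115500) (nat_lit 250) (nat_lit 5) (nat_lit 263) (nat_lit 5) (nat_lit 264) (nat_lit 5) (nat_lit 328) (nat_lit 309) (nat_lit 263)) (XT.nd (nat_lit 78) (nat_lit 1064) (nat_lit 0) (XT.lf (nat_lit 0) (nat_lit 166287266) (nat_lit 1064) (nat_lit 561117293) (nat_lit 76) (nat_lit 7433106780) (nat_lit 249) (nat_lit 5) (nat_lit 263) (nat_lit 5) (nat_lit 250) (nat_lit 5) (nat_lit 329) (nat_lit 309) (nat_lit 262)) (XT.lf (nat_lit 0) (nat_lit 2029377530) (nat_lit 1140) (nat_lit 4193884985) (nat_lit 76) (nat_lit 2037909010) (nat_lit 235) (nat_lit 5) (nat_lit 250) (nat_lit 5) (nat_lit 236) (nat_lit 5) (nat_lit 330) (nat_lit 309) (nat_lit 261)))) (XT.nd (nat_lit 156) (nat_lit 1064) (nat_lit 0) (XT.nd (nat_lit 78) (nat_lit 0) (nat_lit 0) (XT.lf (nat_lit 0) (nat_lit 439749690)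 (nat_lit 1140) (nat_lit 3477795207) (nat_lit 1216) (nat_lit 4448270739) (nat_lit 220) (nat_lit 5) (nat_lit 235) (nat_lit 5) (nat_lit 236) (nat_lit 5) (nat_lit 331) (nat_lit 309) (nat_lit 260)) (XT.lf (nat_lit 0) (nat_lit 5255848289) (nat_lit 1140) (nat_lit 601880364) (nat_lit 1216) (nat_lit 2616047769) (nat_lit 220) (nat_lit 5) (nat_lit 235) (nat_lit 5) (nat_lit 236) (nat_lit 5) (nat_lit 332) (nat_lit 309) (nat_lit 259))) (XT.nd (nat_lit 78) (nat_lit 76) (nat_lit 0) (XT.lf (nat_lit 0) (nat_lit 1597207662) (nat_lit 988) (nat_lit 6251383674) (nat_lit 1064) (nat_lit 736647866) (nat_lit 207) (nat_lit 5) (nat_lit 220) (nat_lit 5) (nat_lit 221) (nat_lit 5) (nat_lit 333) (nat_lit 309) (nat_lit 258)) (XT.lf (nat_lit 0) (nat_lit 1169384568) (nat_lit 1064) (nat_lit 2137355981) (nat_lit 76) (nat_lit 5393185241) (nat_lit 206) (nat_lit 5) (nat_lit 220) (nat_lit 5) (nat_lit 207) (nat_lit 5) (nat_lit 334) (nat_lit 309)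 (nat_lit 257)))))) (XT.nd (nat_lit 468) (nat_lit 1976) (nat_lit 0) (XT.nd (nat_lit 234) (nat_lit 1216) (nat_lit 0) (XT.nd (nat_lit 78) (nat_lit 532) (nat_lit 0) (XT.lf (nat_lit 0) (nat_lit 2865482464) (nat_lit 608) (nat_lit 236042983) (nat_lit 684) (nat_lit 5716830924) (nat_lit 198) (nat_lit 5) (nat_lit 206) (nat_lit 5) (nat_lit 207) (nat_lit 5) (nat_lit 335) (nat_lit 309) (nat_lit 256)) (XT.nd (nat_lit 78) (nat_lit 532) (nat_lit 0) (XT.lf (nat_lit 0) (nat_lit 5098639523) (nat_lit 684) (nat_lit 948722805) (nat_lit 76) (nat_lit 2892800476) (nat_lit 198) (nat_lit 5) (nat_lit 207) (nat_lit 5) (nat_lit 199) (nat_lit 5) (nat_lit 336) (nat_lit 309) (nat_lit 255)) (XT.lf (nat_lit 0) (nat_lit 4244386074) (nat_lit 532) (nat_lit 2912746006) (nat_lit 608) (nat_lit 1908479638) (nat_lit 191) (nat_lit 5) (nat_lit 198) (nat_lit 5) (nat_lit 199) (nat_lit 5) (nat_lit 337) (nat_lit 309) (nat_lit 254)))) (XT.nd (nat_lit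 78) (nat_lit 532) (nat_lit 0) (XT.lf (nat_lit 0) (nat_lit 56177494) (nat_lit 684) (nat_lit 8816156013) (nat_lit 76) (nat_lit 323240177) (nat_lit 182) (nat_lit 5) (nat_lit 191) (nat_lit 5) (nat_lit 183) (nat_lit 5) (nat_lit 338) (nat_lit 309) (nat_lit 253)) (XT.nd (nat_lit 78) (nat_lit 532) (nat_lit 0) (XT.lf (nat_lit 0) (nat_lit 2078922675) (nat_lit 684) (nat_lit 3584196855) (nat_lit 76) (nat_lit 3664652400) (nat_lit 182) (nat_lit 5) (nat_lit 191) (nat_lit 5) (nat_lit 183) (nat_lit 5) (nat_lit 339) (nat_lit 309) (nat_lit 252)) (XT.lf (nat_lit 0) (nat_lit 1798142672) (nat_lit 532) (nat_lit 2342172834) (nat_lit 608) (nat_lit 5324310303) (nat_lit 175) (nat_lit 5) (nat_lit 182) (nat_lit 5) (nat_lit 183) (nat_lit 5) (nat_lit 340) (nat_lit 309) (nat_lit 251))))) (XT.nd (nat_lit 234) (nat_lit 1368) (nat_lit 0) (XT.nd (nat_lit 78) (nat_lit 608) (nat_lit 0) (XT.lf (nat_lit 0) (nat_lit 6271871343) (nat_lit 608)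 (nat_lit 2242216460) (nat_lit 76) (nat_lit 1091275673) (nat_lit 175) (nat_lit 5) (nat_lit 183) (nat_lit 5) (nat_lit 176) (nat_lit 5) (nat_lit 341) (nat_lit 309) (nat_lit 250)) (XT.nd (nat_lit 78) (nat_lit 76) (nat_lit 0) (XT.lf (nat_lit 0) (nat_lit 3345693111) (nat_lit 532) (nat_lit 5139558847) (nat_lit 608) (nat_lit 1264561971) (nat_lit 168) (nat_lit 5) (nat_lit 175) (nat_lit 5) (nat_lit 176) (nat_lit 5) (nat_lit 342) (nat_lit 309) (nat_lit 249)) (XT.lf (nat_lit 0) (nat_lit 835232059) (nat_lit 608) (nat_lit 800811438) (nat_lit 76) (nat_lit 8262758889) (nat_lit 167) (nat_lit 5) (nat_lit 175) (nat_lit 5) (nat_lit 168) (nat_lit 5) (nat_lit 343) (nat_lit 309) (nat_lit 248)))) (XT.nd (nat_lit 156) (nat_lit 456) (nat_lit 0) (XT.nd (nat_lit 78) (nat_lit 456) (nat_lit 0) (XT.lf (nat_lit 0) (nat_lit 3004258203) (nat_lit 532) (nat_lit 5055451251) (nat_lit 76) (nat_lit 1991250495) (nat_lit 161) (nat_lit 5) (nat_lit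 168) (nat_lit 5) (nat_lit 162) (nat_lit 5) (nat_lit 344) (nat_lit 309) (nat_lit 247)) (XT.lf (nat_lit 0) (nat_lit 731713897) (nat_lit 456) (nat_lit 4502583049) (nat_lit 532) (nat_lit 4973531027) (nat_lit 155) (nat_lit 5) (nat_lit 161) (nat_lit 5) (nat_lit 162) (nat_lit 5) (nat_lit 345) (nat_lit 309) (nat_lit 246))) (XT.nd (nat_lit 78) (nat_lit 456) (nat_lit 0) (XT.lf (nat_lit 0) (nat_lit 6755546958) (nat_lit 456) (nat_lit 791925692) (nat_lit 532) (nat_lit 2821465604) (nat_lit 155) (nat_lit 5) (nat_lit 161) (nat_lit 5) (nat_lit 162) (nat_lit 5) (nat_lit 346) (nat_lit 309) (nat_lit 245)) (XT.lf (nat_lit 0) (nat_lit 2402589889) (nat_lit 456) (nat_lit 7545821471) (nat_lit 532) (nat_lit 585942061) (nat_lit 149) (nat_lit 5) (nat_lit 155) (nat_lit 5) (nat_lit 156) (nat_lit 5) (nat_lit 347) (nat_lit 309) (nat_lit 244))))))) (XT.nd (nat_lit 1014) (nat_lit 2432) (nat_lit 0) (XT.nd (nat_lit 468) (nat_lit 1520) (nat_lit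 0) (XT.nd (nat_lit 234) (nat_lit 836) (nat_lit 0) (XT.nd (nat_lit 78) (nat_lit 456) (nat_lit 0) (XT.lf (nat_lit 0) (nat_lit 1694236303) (nat_lit 532) (nat_lit 2095892445) (nat_lit 76) (nat_lit 6913795953) (nat_lit 148) (nat_lit 5) (nat_lit 155) (nat_lit 5) (nat_lit 149) (nat_lit 5) (nat_lit 348) (nat_lit 309) (nat_lit 243)) (XT.nd (nat_lit 78) (nat_lit 0) (nat_lit 0) (XT.lf (nat_lit 0) (nat_lit 4039516290) (nat_lit 532) (nat_lit 6722469082) (nat_lit 76) (nat_lit 116190204) (nat_lit 142) (nat_lit 5) (nat_lit 149) (nat_lit 5) (nat_lit 143) (nat_lit 5) (nat_lit 349) (nat_lit 309) (nat_lit 242)) (XT.lf (nat_lit 0) (nat_lit 6481936758) (nat_lit 532) (nat_lit 496953410) (nat_lit 76) (nat_lit 4077980437) (nat_lit 142) (nat_lit 5) (nat_lit 149) (nat_lit 5) (nat_lit 143) (nat_lit 5) (nat_lit 350) (nat_lit 309) (nat_lit 241)))) (XT.nd (nat_lit 78) (nat_lit 456) (nat_lit 0) (XT.lf (nat_lit 0) (nat_lit 5993430734)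 (nat_lit 380) (nat_lit 3030629201) (nat_lit 456) (nat_lit 2216093150) (nat_lit 137) (nat_lit 5) (nat_lit 142) (nat_lit 5) (nat_lit 143) (nat_lit 5) (nat_lit 351) (nat_lit 309) (nat_lit 240)) (XT.nd (nat_lit 78) (nat_lit 0) (nat_lit 0) (XT.lf (nat_lit 0) (nat_lit 205466610) (nat_lit 456) (nat_lit 10196400690) (nat_lit 76) (nat_lit 1027139945) (nat_lit 131) (nat_lit 5) (nat_lit 137) (nat_lit 5) (nat_lit 132) (nat_lit 5) (nat_lit 352) (nat_lit 309) (nat_lit 239)) (XT.lf (nat_lit 0) (nat_lit 2708128404) (nat_lit 456) (nat_lit 3700114032) (nat_lit 76) (nat_lit 5213054303) (nat_lit 131) (nat_lit 5) (nat_lit 137) (nat_lit 5) (nat_lit 132) (nat_lit 5) (nat_lit 353) (nat_lit 309) (nat_lit 238))))) (XT.nd (nat_lit 234) (nat_lit 760) (nat_lit 0) (XT.nd (nat_lit 78) (nat_lit 380) (nat_lit 0) (XT.lf (nat_lit 0) (nat_lit 3011405044) (nat_lit 380) (nat_lit 2273785398) (nat_lit 456) (nat_lit 6534202193) (nat_lit 126)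 (nat_lit 5) (nat_lit 131) (nat_lit 5) (nat_lit 132) (nat_lit 5) (nat_lit 354) (nat_lit 309) (nat_lit 237)) (XT.nd (nat_lit 78) (nat_lit 380) (nat_lit 0) (XT.lf (nat_lit 0) (nat_lit 7967160858) (nat_lit 456) (nat_lit 2080488152) (nat_lit 76) (nat_lit 1974971327) (nat_lit 126) (nat_lit 5) (nat_lit 132) (nat_lit 5) (nat_lit 127) (nat_lit 5) (nat_lit 355) (nat_lit 309) (nat_lit 236)) (XT.lf (nat_lit 0) (nat_lit 4883909785) (nat_lit 380) (nat_lit 5886775873) (nat_lit 456) (nat_lit 1460042689) (nat_lit 121) (nat_lit 5) (nat_lit 126) (nat_lit 5) (nat_lit 127) (nat_lit 5) (nat_lit 356) (nat_lit 309) (nat_lit 235)))) (XT.nd (nat_lit 156) (nat_lit 380) (nat_lit 0) (XT.nd (nat_lit 78) (nat_lit 304) (nat_lit 0) (XT.lf (nat_lit 0) (nat_lit 1182589655) (nat_lit 456) (nat_lit 394355162) (nat_lit 76) (nat_lit 10868009476) (nat_lit 120) (nat_lit 5) (nat_lit 126) (nat_lit 5) (nat_lit 121) (nat_lit 5) (nat_lit 357) (nat_lit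 309) (nat_lit 234)) (XT.lf (nat_lit 0) (nat_lit 3941841918) (nat_lit 380) (nat_lit 5843193861) (nat_lit 76) (nat_lit 2878151922) (nat_lit 116) (nat_lit 5) (nat_lit 121) (nat_lit 5) (nat_lit 117) (nat_lit 5) (nat_lit 358) (nat_lit 309) (nat_lit 233))) (XT.nd (nat_lit 78) (nat_lit 0) (nat_lit 0) (XT.lf (nat_lit 0) (nat_lit 1344401898) (nat_lit 380) (nat_lit 5445014884) (nat_lit 456) (nat_lit 6098399489) (nat_lit 111) (nat_lit 5) (nat_lit 116) (nat_lit 5) (nat_lit 117) (nat_lit 5) (nat_lit 359) (nat_lit 309) (nat_lit 232)) (XT.lf (nat_lit 0) (nat_lit 8830581819) (nat_lit 380) (nat_lit 924261561) (nat_lit 456) (nat_lit 3363381676) (nat_lit 111) (nat_lit 5) (nat_lit 116) (nat_lit 5) (nat_lit 117) (nat_lit 5) (nat_lit 360) (nat_lit 309) (nat_lit 231)))))) (XT.nd (nat_lit 546) (nat_lit 1064) (nat_lit 0) (XT.nd (nat_lit 234) (nat_lit 684) (nat_lit 0) (XT.nd (nat_lit 78) (nat_lit 380) (nat_lit 0) (XT.lf (nat_lit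 0) (nat_lit 3175446874) (nat_lit 304) (nat_lit 9674283878) (nat_lit 380) (nat_lit 504614092) (nat_lit 107) (nat_lit 5) (nat_lit 111) (nat_lit 5) (nat_lit 112) (nat_lit 5) (nat_lit 361) (nat_lit 309) (nat_lit 230)) (XT.nd (nat_lit 78) (nat_lit 304) (nat_lit 0) (XT.lf (nat_lit 0) (nat_lit 2419421907) (nat_lit 380) (nat_lit 2715572381) (nat_lit 76) (nat_lit 8461049706) (nat_lit 106) (nat_lit 5) (nat_lit 111) (nat_lit 5) (nat_lit 107) (nat_lit 5) (nat_lit 362) (nat_lit 309) (nat_lit 229)) (XT.lf (nat_lit 0) (nat_lit 5029250468) (nat_lit 304) (nat_lit 415121160) (nat_lit 380) (nat_lit 8399785076) (nat_lit 102) (nat_lit 5) (nat_lit 106) (nat_lit 5) (nat_lit 107) (nat_lit 5) (nat_lit 363) (nat_lit 309) (nat_lit 228)))) (XT.nd (nat_lit 156) (nat_lit 380) (nat_lit 0) (XT.nd (nat_lit 78) (nat_lit 304) (nat_lit 0) (XT.lf (nat_lit 0) (nat_lit 8605783394) (nat_lit 380) (nat_lit 1115663782) (nat_lit 76) (nat_lit 4376906369)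 (nat_lit 102) (nat_lit 5) (nat_lit 107) (nat_lit 5) (nat_lit 103) (nat_lit 5) (nat_lit 364) (nat_lit 309) (nat_lit 227)) (XT.lf (nat_lit 0) (nat_lit 6910492794) (nat_lit 304) (nat_lit 4998081812) (nat_lit 380) (nat_lit 2450217372) (nat_lit 98) (nat_lit 5) (nat_lit 102) (nat_lit 5) (nat_lit 103) (nat_lit 5) (nat_lit 365) (nat_lit 309) (nat_lit 226))) (XT.nd (nat_lit 78) (nat_lit 0) (nat_lit 0) (XT.lf (nat_lit 0) (nat_lit 542558097) (nat_lit 304) (nat_lit 120226817) (nat_lit 380) (nat_lit 13964291257) (nat_lit 93) (nat_lit 5) (nat_lit 97) (nat_lit 5) (nat_lit 98) (nat_lit 5) (nat_lit 366) (nat_lit 309) (nat_lit 225)) (XT.lf (nat_lit 0) (nat_lit 3919406063) (nat_lit 380) (nat_lit 6082686583) (nat_lit 76) (nat_lit 4897614981) (nat_lit 93) (nat_lit 5) (nat_lit 98) (nat_lit 5) (nat_lit 94) (nat_lit 5) (nat_lit 367) (nat_lit 309) (nat_lit 224))))) (XT.nd (nat_lit 234) (nat_lit 532) (nat_lit 0) (XT.nd (nat_lit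 78) (nat_lit 304) (nat_lit 0) (XT.lf (nat_lit 0) (nat_lit 2166089484) (nat_lit 228) (nat_lit 5106714458) (nat_lit 304) (nat_lit 7907752228) (nat_lit 90) (nat_lit 5) (nat_lit 93) (nat_lit 5) (nat_lit 94) (nat_lit 5) (nat_lit 368) (nat_lit 309) (nat_lit 223)) (XT.nd (nat_lit 78) (nat_lit 304) (nat_lit 0) (XT.lf (nat_lit 0) (nat_lit 10753164912) (nat_lit 228) (nat_lit 12470572) (nat_lit 304) (nat_lit 4703039911) (nat_lit 90) (nat_lit 5) (nat_lit 93) (nat_lit 5) (nat_lit 94) (nat_lit 5) (nat_lit 369) (nat_lit 309) (nat_lit 222)) (XT.lf (nat_lit 0) (nat_lit 3823272223) (nat_lit 304) (nat_lit 10605010990) (nat_lit 380) (nat_lit 1335213931) (nat_lit 86) (nat_lit 5) (nat_lit 90) (nat_lit 5) (nat_lit 91) (nat_lit 5) (nat_lit 370) (nat_lit 309) (nat_lit 221)))) (XT.nd (nat_lit 156) (nat_lit 228) (nat_lit 0) (XT.nd (nat_lit 78) (nat_lit 228) (nat_lit 0) (XT.lf (nat_lit 0) (nat_lit 2118284754) (nat_lit 380) (nat_lit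 3405506135) (nat_lit 76) (nat_lit 10541978482) (nat_lit 85) (nat_lit 5) (nat_lit 90) (nat_lit 5) (nat_lit 86) (nat_lit 5) (nat_lit 371) (nat_lit 309) (nat_lit 220)) (XT.lf (nat_lit 0) (nat_lit 5445729176) (nat_lit 228) (nat_lit 233870155) (nat_lit 304) (nat_lit 10696191457) (nat_lit 82) (nat_lit 5) (nat_lit 85) (nat_lit 5) (nat_lit 86) (nat_lit 5) (nat_lit 372) (nat_lit 309) (nat_lit 219))) (XT.nd (nat_lit 78) (nat_lit 228) (nat_lit 0) (XT.lf (nat_lit 0) (nat_lit 9411511965) (nat_lit 304) (nat_lit 2145019722) (nat_lit 76) (nat_lit 5136677184) (nat_lit 82) (nat_lit 5) (nat_lit 86) (nat_lit 5) (nat_lit 83) (nat_lit 5) (nat_lit 373) (nat_lit 309) (nat_lit 218)) (XT.lf (nat_lit 0) (nat_lit 7006146042) (nat_lit 228) (nat_lit 6298415201) (nat_lit 304) (nat_lit 3714121399) (nat_lit 79) (nat_lit 5) (nat_lit 82) (nat_lit 5) (nat_lit 83) (nat_lit 5) (nat_lit 374) (nat_lit 309) (nat_lit 217))))))))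
noncomputable def xc130 : XT := (XT.nd (nat_lit 2028) (nat_lit 1444) (nat_lit 0) (XT.nd (nat_lit 1014) (nat_lit 1140) (nat_lit 0) (XT.nd (nat_lit 468) (nat_lit 836) (nat_lit 0) (XT.nd (nat_lit 234) (nat_lit 304) (nat_lit 0) (XT.nd (nat_lit 78) (nat_lit 532) (nat_lit 0) (XT.lf (nat_lit 0) (nat_lit 16444302630) (nat_lit 228) (nat_lit 871569892) (nat_lit 304) (nat_lit 38012267) (nat_lit 79) (nat_lit 5) (nat_lit 82) (nat_lit 5) (nat_lit 83) (nat_lit 5) (nat_lit 375) (nat_lit 309) (nat_lit 216)) (XT.nd (nat_lit 78) (nat_lit 228) (nat_lit 0) (XT.lf (nat_lit 0) (nat_lit 3784196760) (nat_lit 304) (nat_lit 9176015735) (nat_lit 76) (nat_lit 4734588523) (nat_lit 75) (nat_lit 5) (nat_lit 79) (nat_lit 5) (nat_lit 76) (nat_lit 5) (nat_lit 376) (nat_lit 309) (nat_lit 215)) (XT.lf (nat_lit 0) (nat_lit 165940597) (nat_lit 228) (nat_lit 7554238395) (nat_lit 304) (nat_lit 10325765898) (nat_lit 72) (nat_lit 5) (nat_lit 75)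 (nat_lit 5) (nat_lit 76) (nat_lit 5) (nat_lit 377) (nat_lit 309) (nat_lit 214)))) (XT.nd (nat_lit 78) (nat_lit 304) (nat_lit 0) (XT.lf (nat_lit 0) (nat_lit 9945379739) (nat_lit 228) (nat_lit 1902166143) (nat_lit 304) (nat_lit 6557885395) (nat_lit 72) (nat_lit 5) (nat_lit 75) (nat_lit 5) (nat_lit 76) (nat_lit 5) (nat_lit 378) (nat_lit 309) (nat_lit 213)) (XT.nd (nat_lit 78) (nat_lit 76) (nat_lit 0) (XT.lf (nat_lit 0) (nat_lit 1197756743) (nat_lit 228) (nat_lit 14931268561) (nat_lit 304) (nat_lit 2645775344) (nat_lit 69) (nat_lit 5) (nat_lit 72) (nat_lit 5) (nat_lit 73) (nat_lit 5) (nat_lit 379) (nat_lit 309) (nat_lit 212)) (XT.lf (nat_lit 0) (nat_lit 1442977184) (nat_lit 304) (nat_lit 7897468605) (nat_lit 76) (nat_lit 9811824609) (nat_lit 68) (nat_lit 5) (nat_lit 72) (nat_lit 5) (nat_lit 69) (nat_lit 5) (nat_lit 380) (nat_lit 309) (nat_lit 211))))) (XT.nd (nat_lit 234) (nat_lit 456) (nat_lit 0) (XT.nd (nat_lit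 78) (nat_lit 152) (nat_lit 0) (XT.lf (nat_lit 0) (nat_lit 2056800424) (nat_lit 228) (nat_lit 3545905048) (nat_lit 304) (nat_lit 13937534710) (nat_lit 65) (nat_lit 5) (nat_lit 68) (nat_lit 5) (nat_lit 69) (nat_lit 5) (nat_lit 381) (nat_lit 309) (nat_lit 210)) (XT.nd (nat_lit 78) (nat_lit 152) (nat_lit 0) (XT.lf (nat_lit 0) (nat_lit 9972911497) (nat_lit 304) (nat_lit 7519725877) (nat_lit 76) (nat_lit 2444647452) (nat_lit 65) (nat_lit 5) (nat_lit 69) (nat_lit 5) (nat_lit 66) (nat_lit 5) (nat_lit 382) (nat_lit 309) (nat_lit 209)) (XT.lf (nat_lit 0) (nat_lit 2732192482) (nat_lit 152) (nat_lit 11785792080) (nat_lit 228) (nat_lit 5826949580) (nat_lit 63) (nat_lit 5) (nat_lit 65) (nat_lit 5) (nat_lit 66) (nat_lit 5) (nat_lit 383) (nat_lit 309) (nat_lit 208)))) (XT.nd (nat_lit 156) (nat_lit 152) (nat_lit 0) (XT.nd (nat_lit 78) (nat_lit 304) (nat_lit 0) (XT.lf (nat_lit 0) (nat_lit 13417184986) (nat_lit 152) (nat_lit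 5840786419) (nat_lit 228) (nat_lit 1505090664) (nat_lit 63) (nat_lit 5) (nat_lit 65) (nat_lit 5) (nat_lit 66) (nat_lit 5) (nat_lit 384) (nat_lit 309) (nat_lit 207)) (XT.lf (nat_lit 0) (nat_lit 2906190209) (nat_lit 304) (nat_lit 17959996888) (nat_lit 76) (nat_lit 326184841) (nat_lit 59) (nat_lit 5) (nat_lit 63) (nat_lit 5) (nat_lit 60) (nat_lit 5) (nat_lit 385) (nat_lit 309) (nat_lit 206))) (XT.nd (nat_lit 78) (nat_lit 152) (nat_lit 0) (XT.lf (nat_lit 0) (nat_lit 7535384242) (nat_lit 304) (nat_lit 7455512537) (nat_lit 76) (nat_lit 6639747975) (nat_lit 59) (nat_lit 5) (nat_lit 63) (nat_lit 5) (nat_lit 60) (nat_lit 5) (nat_lit 386) (nat_lit 309) (nat_lit 205)) (XT.lf (nat_lit 0) (nat_lit 3403066876) (nat_lit 152) (nat_lit 8916674914) (nat_lit 228) (nat_lit 9761840643) (nat_lit 57) (nat_lit 5) (nat_lit 59) (nat_lit 5) (nat_lit 60) (nat_lit 5) (nat_lit 387) (nat_lit 309) (nat_lit 204)))))) (XT.nd (nat_lit 468)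 (nat_lit 608) (nat_lit 0) (XT.nd (nat_lit 234) (nat_lit 304) (nat_lit 0) (XT.nd (nat_lit 78) (nat_lit 228) (nat_lit 0) (XT.lf (nat_lit 0) (nat_lit 14713057884) (nat_lit 152) (nat_lit 2593650727) (nat_lit 228) (nat_lit 5237572434) (nat_lit 57) (nat_lit 5) (nat_lit 59) (nat_lit 5) (nat_lit 60) (nat_lit 5) (nat_lit 388) (nat_lit 309) (nat_lit 203)) (XT.nd (nat_lit 78) (nat_lit 76) (nat_lit 0) (XT.lf (nat_lit 0) (nat_lit 3342275761) (nat_lit 152) (nat_lit 19154971299) (nat_lit 228) (nat_lit 521999686) (nat_lit 55) (nat_lit 5) (nat_lit 57) (nat_lit 5) (nat_lit 58) (nat_lit 5) (nat_lit 389) (nat_lit 309) (nat_lit 202)) (XT.lf (nat_lit 0) (nat_lit 4340199911) (nat_lit 228) (nat_lit 8589526984) (nat_lit 76) (nat_lit 10574796552) (nat_lit 54) (nat_lit 5) (nat_lit 57) (nat_lit 5) (nat_lit 55) (nat_lit 5) (nat_lit 390) (nat_lit 309) (nat_lit 201)))) (XT.nd (nat_lit 78) (nat_lit 152) (nat_lit 0) (XT.lf (nat_lit 0)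 (nat_lit 2855049093) (nat_lit 152) (nat_lit 6494838366) (nat_lit 228) (nat_lit 14653957113) (nat_lit 52) (nat_lit 5) (nat_lit 54) (nat_lit 5) (nat_lit 55) (nat_lit 5) (nat_lit 391) (nat_lit 309) (nat_lit 200)) (XT.nd (nat_lit 78) (nat_lit 152) (nat_lit 0) (XT.lf (nat_lit 0) (nat_lit 14583506735) (nat_lit 228) (nat_lit 9724778104) (nat_lit 76) (nat_lit 207655711) (nat_lit 52) (nat_lit 5) (nat_lit 55) (nat_lit 5) (nat_lit 53) (nat_lit 5) (nat_lit 392) (nat_lit 309) (nat_lit 199)) (XT.lf (nat_lit 0) (nat_lit 1991133868) (nat_lit 152) (nat_lit 18051655294) (nat_lit 228) (nat_lit 4998554925) (nat_lit 50) (nat_lit 5) (nat_lit 52) (nat_lit 5) (nat_lit 53) (nat_lit 5) (nat_lit 393) (nat_lit 309) (nat_lit 198))))) (XT.nd (nat_lit 234) (nat_lit 380) (nat_lit 0) (XT.nd (nat_lit 78) (nat_lit 152) (nat_lit 0) (XT.lf (nat_lit 0) (nat_lit 166137378) (nat_lit 228) (nat_lit 11348889133) (nat_lit 76) (nat_lit 14064930559)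 (nat_lit 49) (nat_lit 5) (nat_lit 52) (nat_lit 5) (nat_lit 50) (nat_lit 5) (nat_lit 394) (nat_lit 309) (nat_lit 197)) (XT.nd (nat_lit 78) (nat_lit 0) (nat_lit 0) (XT.lf (nat_lit 0) (nat_lit 641822052) (nat_lit 152) (nat_lit 4735331435) (nat_lit 228) (nat_lit 20756338717) (nat_lit 47) (nat_lit 5) (nat_lit 49) (nat_lit 5) (nat_lit 50) (nat_lit 5) (nat_lit 395) (nat_lit 309) (nat_lit 196)) (XT.lf (nat_lit 0) (nat_lit 10867605646) (nat_lit 228) (nat_lit 13522811244) (nat_lit 76) (nat_lit 2309527174) (nat_lit 47) (nat_lit 5) (nat_lit 50) (nat_lit 5) (nat_lit 48) (nat_lit 5) (nat_lit 396) (nat_lit 309) (nat_lit 195)))) (XT.nd (nat_lit 156) (nat_lit 228) (nat_lit 0) (XT.nd (nat_lit 78) (nat_lit 152) (nat_lit 0) (XT.lf (nat_lit 0) (nat_lit 16555833098) (nat_lit 228) (nat_lit 1265819691) (nat_lit 76) (nat_lit 9460748564) (nat_lit 47) (nat_lit 5) (nat_lit 50) (nat_lit 5) (nat_lit 48) (nat_lit 5) (nat_lit 397) (nat_lit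 309) (nat_lit 194)) (XT.lf (nat_lit 0) (nat_lit 11561132743) (nat_lit 152) (nat_lit 10951287176) (nat_lit 228) (nat_lit 5366984683) (nat_lit 45) (nat_lit 5) (nat_lit 47) (nat_lit 5) (nat_lit 48) (nat_lit 5) (nat_lit 398) (nat_lit 309) (nat_lit 193))) (XT.nd (nat_lit 78) (nat_lit 152) (nat_lit 0) (XT.lf (nat_lit 0) (nat_lit 149915986) (nat_lit 228) (nat_lit 3720082792) (nat_lit 76) (nat_lit 24624292666) (nat_lit 44) (nat_lit 5) (nat_lit 47) (nat_lit 5) (nat_lit 45) (nat_lit 5) (nat_lit 399) (nat_lit 309) (nat_lit 192)) (XT.lf (nat_lit 0) (nat_lit 5835693209) (nat_lit 228) (nat_lit 19795049033) (nat_lit 76) (nat_lit 3491954587) (nat_lit 42) (nat_lit 5) (nat_lit 45) (nat_lit 5) (nat_lit 43) (nat_lit 5) (nat_lit 400) (nat_lit 309) (nat_lit 191))))))) (XT.nd (nat_lit 1014) (nat_lit 684) (nat_lit 0) (XT.nd (nat_lit 468) (nat_lit 456) (nat_lit 0) (XT.nd (nat_lit 234) (nat_lit 152) (nat_lit 0) (XT.nd (nat_lit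 78) (nat_lit 152) (nat_lit 0) (XT.lf (nat_lit 0) (nat_lit 11755371407) (nat_lit 228) (nat_lit 6987228527) (nat_lit 76) (nat_lit 11025457827) (nat_lit 42) (nat_lit 5) (nat_lit 45) (nat_lit 5) (nat_lit 43) (nat_lit 5) (nat_lit 401) (nat_lit 309) (nat_lit 190)) (XT.nd (nat_lit 78) (nat_lit 0) (nat_lit 0) (XT.lf (nat_lit 0) (nat_lit 6305757434) (nat_lit 152) (nat_lit 11594947179) (nat_lit 228) (nat_lit 12530636088) (nat_lit 40) (nat_lit 5) (nat_lit 42) (nat_lit 5) (nat_lit 43) (nat_lit 5) (nat_lit 402) (nat_lit 309) (nat_lit 189)) (XT.lf (nat_lit 0) (nat_lit 20118863947) (nat_lit 152) (nat_lit 4169696061) (nat_lit 228) (nat_lit 6824220287) (nat_lit 40) (nat_lit 5) (nat_lit 42) (nat_lit 5) (nat_lit 43) (nat_lit 5) (nat_lit 403) (nat_lit 309) (nat_lit 188)))) (XT.nd (nat_lit 78) (nat_lit 76) (nat_lit 0) (XT.lf (nat_lit 0) (nat_lit 2526018893) (nat_lit 76) (nat_lit 28387626674) (nat_lit 152) (nat_lit 899652614)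 (nat_lit 39) (nat_lit 5) (nat_lit 40) (nat_lit 5) (nat_lit 41) (nat_lit 4) (nat_lit 404) (nat_lit 309) (nat_lit 187)) (XT.nd (nat_lit 78) (nat_lit 0) (nat_lit 0) (XT.lf (nat_lit 0) (nat_lit 5242433826) (nat_lit 152) (nat_lit 15968548865) (nat_lit 76) (nat_lit 11318112227) (nat_lit 38) (nat_lit 5) (nat_lit 40) (nat_lit 5) (nat_lit 39) (nat_lit 5) (nat_lit 405) (nat_lit 309) (nat_lit 186)) (XT.lf (nat_lit 0) (nat_lit 11538956968) (nat_lit 152) (nat_lit 2280105824) (nat_lit 76) (nat_lit 19447390546) (nat_lit 38) (nat_lit 5) (nat_lit 40) (nat_lit 5) (nat_lit 39) (nat_lit 5) (nat_lit 406) (nat_lit 309) (nat_lit 185))))) (XT.nd (nat_lit 234) (nat_lit 228) (nat_lit 0) (XT.nd (nat_lit 78) (nat_lit 76) (nat_lit 0) (XT.lf (nat_lit 0) (nat_lit 12033475063) (nat_lit 152) (nat_lit 6095172151) (nat_lit 228) (nat_lit 15894159767) (nat_lit 36) (nat_lit 5) (nat_lit 38) (nat_lit 5) (nat_lit 39) (nat_lit 5) (nat_lit 407)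 (nat_lit 309) (nat_lit 184)) (XT.nd (nat_lit 78) (nat_lit 76) (nat_lit 0) (XT.lf (nat_lit 0) (nat_lit 24945815965) (nat_lit 228) (nat_lit 8016456521) (nat_lit 76) (nat_lit 1838687652) (nat_lit 36) (nat_lit 5) (nat_lit 39) (nat_lit 5) (nat_lit 37) (nat_lit 4) (nat_lit 408) (nat_lit 309) (nat_lit 183)) (XT.lf (nat_lit 0) (nat_lit 6420755046) (nat_lit 76) (nat_lit 25657795323) (nat_lit 152) (nat_lit 3520578465) (nat_lit 35) (nat_lit 5) (nat_lit 36) (nat_lit 5) (nat_lit 37) (nat_lit 4) (nat_lit 409) (nat_lit 309) (nat_lit 182)))) (XT.nd (nat_lit 156) (nat_lit 152) (nat_lit 0) (XT.nd (nat_lit 78) (nat_lit 0) (nat_lit 0) (XT.lf (nat_lit 0) (nat_lit 3016161373) (nat_lit 152) (nat_lit 15012900631) (nat_lit 76) (nat_lit 18389193920) (nat_lit 34) (nat_lit 5) (nat_lit 36) (nat_lit 5) (nat_lit 35) (nat_lit 5) (nat_lit 410) (nat_lit 309) (nat_lit 181)) (XT.lf (nat_lit 0) (nat_lit 9667568031) (nat_lit 152) (nat_lit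 476564187) (nat_lit 76) (nat_lit 27117101402) (nat_lit 34) (nat_lit 5) (nat_lit 36) (nat_lit 5) (nat_lit 35) (nat_lit 5) (nat_lit 411) (nat_lit 309) (nat_lit 180))) (XT.nd (nat_lit 78) (nat_lit 0) (nat_lit 0) (XT.lf (nat_lit 0) (nat_lit 14765303401) (nat_lit 152) (nat_lit 1884782312) (nat_lit 228) (nat_lit 21475470059) (nat_lit 32) (nat_lit 5) (nat_lit 34) (nat_lit 5) (nat_lit 35) (nat_lit 5) (nat_lit 412) (nat_lit 309) (nat_lit 179)) (XT.lf (nat_lit 0) (nat_lit 23900277336) (nat_lit 228) (nat_lit 8623902775) (nat_lit 76) (nat_lit 6489883650) (nat_lit 32) (nat_lit 5) (nat_lit 35) (nat_lit 5) (nat_lit 33) (nat_lit 4) (nat_lit 413) (nat_lit 309) (nat_lit 178)))))) (XT.nd (nat_lit 546) (nat_lit 304) (nat_lit 0) (XT.nd (nat_lit 234) (nat_lit 228) (nat_lit 0) (XT.nd (nat_lit 78) (nat_lit 76) (nat_lit 0) (XT.lf (nat_lit 0) (nat_lit 6647406509) (nat_lit 76) (nat_lit 24793109256) (nat_lit 152) (nat_lit 8486537056)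 (nat_lit 31) (nat_lit 5) (nat_lit 32) (nat_lit 5) (nat_lit 33) (nat_lit 4) (nat_lit 414) (nat_lit 309) (nat_lit 177)) (XT.nd (nat_lit 78) (nat_lit 76) (nat_lit 0) (XT.lf (nat_lit 0) (nat_lit 22535630471) (nat_lit 76) (nat_lit 16748515027) (nat_lit 152) (nat_lit 1580972534) (nat_lit 31) (nat_lit 5) (nat_lit 32) (nat_lit 5) (nat_lit 33) (nat_lit 4) (nat_lit 415) (nat_lit 309) (nat_lit 176)) (XT.lf (nat_lit 0) (nat_lit 5414105308) (nat_lit 152) (nat_lit 3001675519) (nat_lit 76) (nat_lit 33414242292) (nat_lit 30) (nat_lit 5) (nat_lit 32) (nat_lit 5) (nat_lit 31) (nat_lit 5) (nat_lit 416) (nat_lit 309) (nat_lit 175)))) (XT.nd (nat_lit 156) (nat_lit 76) (nat_lit 0) (XT.nd (nat_lit 78) (nat_lit 0) (nat_lit 0) (XT.lf (nat_lit 0) (nat_lit 12705787395) (nat_lit 228) (nat_lit 29815894160) (nat_lit 76) (nat_lit 298170205) (nat_lit 28) (nat_lit 5) (nat_lit 31) (nat_lit 5) (nat_lit 29) (nat_lit 4) (nat_lit 417) (nat_lit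 309) (nat_lit 174)) (XT.lf (nat_lit 0) (nat_lit 20320766755) (nat_lit 228) (nat_lit 14388000609) (nat_lit 76) (nat_lit 9127473270) (nat_lit 28) (nat_lit 5) (nat_lit 31) (nat_lit 5) (nat_lit 29) (nat_lit 4) (nat_lit 418) (nat_lit 309) (nat_lit 173))) (XT.nd (nat_lit 78) (nat_lit 0) (nat_lit 0) (XT.lf (nat_lit 0) (nat_lit 1515604527) (nat_lit 76) (nat_lit 26654044451) (nat_lit 152) (nat_lit 16713310321) (nat_lit 27) (nat_lit 5) (nat_lit 28) (nat_lit 5) (nat_lit 29) (nat_lit 4) (nat_lit 419) (nat_lit 309) (nat_lit 172)) (XT.lf (nat_lit 0) (nat_lit 18174721327) (nat_lit 76) (nat_lit 18215558040) (nat_lit 152) (nat_lit 9566713382) (nat_lit 27) (nat_lit 5) (nat_lit 28) (nat_lit 5) (nat_lit 29) (nat_lit 4) (nat_lit 420) (nat_lit 309) (nat_lit 171))))) (XT.nd (nat_lit 234) (nat_lit 76) (nat_lit 0) (XT.nd (nat_lit 78) (nat_lit 228) (nat_lit 0) (XT.lf (nat_lit 0) (nat_lit 35317556877) (nat_lit 76) (nat_lit 9531225291)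 (nat_lit 152) (nat_lit 2214729059) (nat_lit 27) (nat_lit 5) (nat_lit 28) (nat_lit 5) (nat_lit 29) (nat_lit 4) (nat_lit 421) (nat_lit 309) (nat_lit 170)) (XT.nd (nat_lit 78) (nat_lit 0) (nat_lit 0) (XT.lf (nat_lit 0) (nat_lit 4797812866) (nat_lit 152) (nat_lit 492993798) (nat_lit 228) (nat_lit 42909748788) (nat_lit 24) (nat_lit 5) (nat_lit 26) (nat_lit 5) (nat_lit 27) (nat_lit 5) (nat_lit 422) (nat_lit 309) (nat_lit 169)) (XT.lf (nat_lit 0) (nat_lit 13172982495) (nat_lit 228) (nat_lit 27413122065) (nat_lit 76) (nat_lit 8779070458) (nat_lit 24) (nat_lit 5) (nat_lit 27) (nat_lit 5) (nat_lit 25) (nat_lit 4) (nat_lit 423) (nat_lit 309) (nat_lit 168)))) (XT.nd (nat_lit 156) (nat_lit 0) (nat_lit 0) (XT.nd (nat_lit 78) (nat_lit 76) (nat_lit 0) (XT.lf (nat_lit 0) (nat_lit 21288207576) (nat_lit 228) (nat_lit 10964026271) (nat_lit 76) (nat_lit 18312603250) (nat_lit 24) (nat_lit 5) (nat_lit 27) (nat_lit 5) (nat_lit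 25) (nat_lit 4) (nat_lit 424) (nat_lit 309) (nat_lit 167)) (XT.lf (nat_lit 0) (nat_lit 6082345211) (nat_lit 76) (nat_lit 23614955937) (nat_lit 152) (nat_lit 22101676945) (nat_lit 23) (nat_lit 5) (nat_lit 24) (nat_lit 5) (nat_lit 25) (nat_lit 4) (nat_lit 425) (nat_lit 309) (nat_lit 166))) (XT.nd (nat_lit 78) (nat_lit 0) (nat_lit 0) (XT.lf (nat_lit 0) (nat_lit 23850119919) (nat_lit 76) (nat_lit 14611300229) (nat_lit 152) (nat_lit 14605641956) (nat_lit 23) (nat_lit 5) (nat_lit 24) (nat_lit 5) (nat_lit 25) (nat_lit 4) (nat_lit 426) (nat_lit 309) (nat_lit 165)) (XT.lf (nat_lit 0) (nat_lit 42136617471) (nat_lit 76) (nat_lit 5344114619) (nat_lit 152) (nat_lit 6892689787) (nat_lit 23) (nat_lit 5) (nat_lit 24) (nat_lit 5) (nat_lit 25) (nat_lit 4) (nat_lit 427) (nat_lit 309) (nat_lit 164))))))))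
noncomputable def xc131 : XT := (XT.nd (nat_lit 38376) (nat_lit 0) (nat_lit 11096) (XT.nd (nat_lit 1014) (nat_lit 152) (nat_lit 0) (XT.nd (nat_lit 468) (nat_lit 228) (nat_lit 0) (XT.nd (nat_lit 234) (nat_lit 76) (nat_lit 0) (XT.nd (nat_lit 78) (nat_lit 0) (nat_lit 0) (XT.lf (nat_lit 0) (nat_lit 1115737919) (nat_lit 152) (nat_lit 50425647201) (nat_lit 76) (nat_lit 4174747045) (nat_lit 21) (nat_lit 5) (nat_lit 23) (nat_lit 5) (nat_lit 22) (nat_lit 4) (nat_lit 428) (nat_lit 309) (nat_lit 163)) (XT.nd (nat_lit 78) (nat_lit 0) (nat_lit 0) (XT.lf (nat_lit 0) (nat_lit 9396029840) (nat_lit 152) (nat_lit 33637433526) (nat_lit 76) (nat_lit 14058509844) (nat_lit 21) (nat_lit 5) (nat_lit 23) (nat_lit 5) (nat_lit 22) (nat_lit 4) (nat_lit 429) (nat_lit 309) (nat_lit 162)) (XT.lf (nat_lit 0) (nat_lit 17917395006) (nat_lit 152) (nat_lit 16359235951) (nat_lit 76) (nat_lit 24232679772) (nat_lit 21) (nat_lit 5) (nat_lit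 23) (nat_lit 5) (nat_lit 22) (nat_lit 4) (nat_lit 430) (nat_lit 309) (nat_lit 161)))) (XT.nd (nat_lit 78) (nat_lit 0) (nat_lit 0) (XT.lf (nat_lit 0) (nat_lit 1452384224) (nat_lit 76) (nat_lit 25248856252) (nat_lit 152) (nat_lit 33267723860) (nat_lit 20) (nat_lit 5) (nat_lit 21) (nat_lit 5) (nat_lit 22) (nat_lit 4) (nat_lit 431) (nat_lit 309) (nat_lit 160)) (XT.nd (nat_lit 78) (nat_lit 0) (nat_lit 0) (XT.lf (nat_lit 0) (nat_lit 20120566776) (nat_lit 76) (nat_lit 15786190060) (nat_lit 152) (nat_lit 25560907157) (nat_lit 20) (nat_lit 5) (nat_lit 21) (nat_lit 5) (nat_lit 22) (nat_lit 4) (nat_lit 432) (nat_lit 309) (nat_lit 159)) (XT.lf (nat_lit 0) (nat_lit 39336042835) (nat_lit 76) (nat_lit 6045560239) (nat_lit 152) (nat_lit 17629927711) (nat_lit 20) (nat_lit 5) (nat_lit 21) (nat_lit 5) (nat_lit 22) (nat_lit 4) (nat_lit 433) (nat_lit 309) (nat_lit 158))))) (XT.nd (nat_lit 234) (nat_lit 76) (nat_lit 0) (XT.nd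 (nat_lit 78) (nat_lit 152) (nat_lit 0) (XT.lf (nat_lit 0) (nat_lit 55172331224) (nat_lit 152) (nat_lit 5524584140) (nat_lit 0) (nat_lit 3903850167) (nat_lit 20) (nat_lit 5) (nat_lit 22) (nat_lit 4) (nat_lit 20) (nat_lit 4) (nat_lit 434) (nat_lit 309) (nat_lit 157)) (XT.nd (nat_lit 78) (nat_lit 76) (nat_lit 0) (XT.lf (nat_lit 0) (nat_lit 13359521476) (nat_lit 76) (nat_lit 52079039840) (nat_lit 76) (nat_lit 793663616) (nat_lit 19) (nat_lit 4) (nat_lit 20) (nat_lit 5) (nat_lit 20) (nat_lit 4) (nat_lit 435) (nat_lit 309) (nat_lit 156)) (XT.lf (nat_lit 0) (nat_lit 7991938996) (nat_lit 152) (nat_lit 35078143135) (nat_lit 76) (nat_lit 24838715474) (nat_lit 18) (nat_lit 5) (nat_lit 20) (nat_lit 5) (nat_lit 19) (nat_lit 4) (nat_lit 436) (nat_lit 309) (nat_lit 155)))) (XT.nd (nat_lit 156) (nat_lit 0) (nat_lit 0) (XT.nd (nat_lit 78) (nat_lit 76) (nat_lit 0) (XT.lf (nat_lit 0) (nat_lit 17018858890) (nat_lit 152) (nat_lit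 16769421065) (nat_lit 76) (nat_lit 35847341660) (nat_lit 18) (nat_lit 5) (nat_lit 20) (nat_lit 5) (nat_lit 19) (nat_lit 4) (nat_lit 437) (nat_lit 309) (nat_lit 154)) (XT.lf (nat_lit 0) (nat_lit 2118428007) (nat_lit 76) (nat_lit 24212406520) (nat_lit 152) (nat_lit 45082989275) (nat_lit 17) (nat_lit 5) (nat_lit 18) (nat_lit 5) (nat_lit 19) (nat_lit 4) (nat_lit 438) (nat_lit 309) (nat_lit 153))) (XT.nd (nat_lit 78) (nat_lit 0) (nat_lit 0) (XT.lf (nat_lit 0) (nat_lit 21905308901) (nat_lit 76) (nat_lit 14180152242) (nat_lit 152) (nat_lit 37155013035) (nat_lit 17) (nat_lit 5) (nat_lit 18) (nat_lit 5) (nat_lit 19) (nat_lit 4) (nat_lit 439) (nat_lit 309) (nat_lit 152)) (XT.lf (nat_lit 0) (nat_lit 42274766764) (nat_lit 76) (nat_lit 3852089345) (nat_lit 152) (nat_lit 28995244920) (nat_lit 17) (nat_lit 5) (nat_lit 18) (nat_lit 5) (nat_lit 19) (nat_lit 4) (nat_lit 440) (nat_lit 309) (nat_lit 151)))))) (XT.nd (nat_lit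 36816) (nat_lit 0) (nat_lit 21280) (XT.nd (nat_lit 234) (nat_lit 76) (nat_lit 0) (XT.nd (nat_lit 78) (nat_lit 76) (nat_lit 0) (XT.lf (nat_lit 0) (nat_lit 56528974723) (nat_lit 152) (nat_lit 13880929607) (nat_lit 0) (nat_lit 6648488727) (nat_lit 17) (nat_lit 5) (nat_lit 19) (nat_lit 4) (nat_lit 17) (nat_lit 4) (nat_lit 441) (nat_lit 309) (nat_lit 150)) (XT.nd (nat_lit 78) (nat_lit 0) (nat_lit 0) (XT.lf (nat_lit 0) (nat_lit 5717377947) (nat_lit 76) (nat_lit 61613297174) (nat_lit 76) (nat_lit 11719473978) (nat_lit 16) (nat_lit 4) (nat_lit 17) (nat_lit 5) (nat_lit 17) (nat_lit 4) (nat_lit 442) (nat_lit 309) (nat_lit 149)) (XT.lf (nat_lit 0) (nat_lit 26177766897) (nat_lit 76) (nat_lit 52413312034) (nat_lit 76) (nat_lit 2506540100) (nat_lit 16) (nat_lit 4) (nat_lit 17) (nat_lit 5) (nat_lit 17) (nat_lit 4) (nat_lit 443) (nat_lit 309) (nat_lit 148)))) (XT.nd (nat_lit 36426) (nat_lit 0) (nat_lit 22648) (XT.lf (nat_lit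 0) (nat_lit 6841111728) (nat_lit 152) (nat_lit 36031886715) (nat_lit 76) (nat_lit 40331663991) (nat_lit 15) (nat_lit 5) (nat_lit 17) (nat_lit 5) (nat_lit 16) (nat_lit 4) (nat_lit 444) (nat_lit 309) (nat_lit 147)) (XT.nd (nat_lit 78) (nat_lit 0) (nat_lit 0) (XT.lf (nat_lit 0) (nat_lit 1704875474) (nat_lit 684) (nat_lit 865736036) (nat_lit 684) (nat_lit 865736036) (nat_lit 313) (nat_lit 3) (nat_lit 322) (nat_lit 3) (nat_lit 322) (nat_lit 5) (nat_lit 310) (nat_lit 310) (nat_lit 280)) (XT.lf (nat_lit 76) (nat_lit 1560602697) (nat_lit 0) (nat_lit 3788881054) (nat_lit 684) (nat_lit 1567639152) (nat_lit 314) (nat_lit 5) (nat_lit 313) (nat_lit 3) (nat_lit 322) (nat_lit 5) (nat_lit 311) (nat_lit 310) (nat_lit 279))))) (XT.nd (nat_lit 234) (nat_lit 684) (nat_lit 0) (XT.nd (nat_lit 78) (nat_lit 0) (nat_lit 0) (XT.lf (nat_lit 0) (nat_lit 320384402) (nat_lit 684) (nat_lit 2019296365) (nat_lit 760) (nat_lit 4624866974)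 (nat_lit 304) (nat_lit 5) (nat_lit 313) (nat_lit 3) (nat_lit 314) (nat_lit 5) (nat_lit 312) (nat_lit 310) (nat_lit 278)) (XT.nd (nat_lit 78) (nat_lit 0) (nat_lit 76) (XT.lf (nat_lit 76) (nat_lit 1390826994) (nat_lit 0) (nat_lit 783952368) (nat_lit 760) (nat_lit 4839986924) (nat_lit 305) (nat_lit 5) (nat_lit 304) (nat_lit 5) (nat_lit 314) (nat_lit 5) (nat_lit 313) (nat_lit 310) (nat_lit 277)) (XT.lf (nat_lit 0) (nat_lit 4043173942) (nat_lit 684) (nat_lit 2170247301) (nat_lit 760) (nat_lit 854390723) (nat_lit 305) (nat_lit 5) (nat_lit 314) (nat_lit 5) (nat_lit 315) (nat_lit 5) (nat_lit 314) (nat_lit 310) (nat_lit 276)))) (XT.nd (nat_lit 156) (nat_lit 0) (nat_lit 0) (XT.nd (nat_lit 78) (nat_lit 760) (nat_lit 0) (XT.lf (nat_lit 76) (nat_lit 1366199643) (nat_lit 0) (nat_lit 4554264417) (nat_lit 760) (nat_lit 1203469167) (nat_lit 306) (nat_lit 5) (nat_lit 305) (nat_lit 5) (nat_lit 315) (nat_lit 5) (nat_lit 315)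 (nat_lit 310) (nat_lit 275)) (XT.lf (nat_lit 0) (nat_lit 614175960) (nat_lit 760) (nat_lit 2175298623) (nat_lit 836) (nat_lit 4393486366) (nat_lit 295) (nat_lit 5) (nat_lit 305) (nat_lit 5) (nat_lit 306) (nat_lit 5) (nat_lit 316) (nat_lit 310) (nat_lit 274))) (XT.nd (nat_lit 78) (nat_lit 0) (nat_lit 76) (XT.lf (nat_lit 76) (nat_lit 1492234058) (nat_lit 0) (nat_lit 919057213) (nat_lit 836) (nat_lit 4833700508) (nat_lit 296) (nat_lit 5) (nat_lit 295) (nat_lit 5) (nat_lit 306) (nat_lit 5) (nat_lit 317) (nat_lit 310) (nat_lit 273)) (XT.lf (nat_lit 0) (nat_lit 4230731589) (nat_lit 760) (nat_lit 2045140957) (nat_lit 836) (nat_lit 1034020414) (nat_lit 296) (nat_lit 5) (nat_lit 306) (nat_lit 5) (nat_lit 307) (nat_lit 5) (nat_lit 318) (nat_lit 310) (nat_lit 272))))))) (XT.nd (nat_lit 1014) (nat_lit 5624) (nat_lit 0) (XT.nd (nat_lit 468) (nat_lit 3800) (nat_lit 0) (XT.nd (nat_lit 234) (nat_lit 0) (nat_lit 76) (XT.nd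 (nat_lit 78) (nat_lit 836) (nat_lit 0) (XT.lf (nat_lit 76) (nat_lit 1758731008) (nat_lit 0) (nat_lit 4310421296) (nat_lit 836) (nat_lit 1308716928) (nat_lit 297) (nat_lit 5) (nat_lit 296) (nat_lit 5) (nat_lit 307) (nat_lit 5) (nat_lit 319) (nat_lit 310) (nat_lit 271)) (XT.nd (nat_lit 78) (nat_lit 0) (nat_lit 0) (XT.lf (nat_lit 0) (nat_lit 464801206) (nat_lit 836) (nat_lit 1774842568) (nat_lit 912) (nat_lit 5209348878) (nat_lit 285) (nat_lit 5) (nat_lit 296) (nat_lit 5) (nat_lit 297) (nat_lit 5) (nat_lit 320) (nat_lit 310) (nat_lit 270)) (XT.lf (nat_lit 76) (nat_lit 2174384130) (nat_lit 0) (nat_lit 52661037) (nat_lit 912) (nat_lit 5296016035) (nat_lit 286) (nat_lit 5) (nat_lit 285) (nat_lit 5) (nat_lit 297) (nat_lit 5) (nat_lit 321) (nat_lit 310) (nat_lit 269)))) (XT.nd (nat_lit 78) (nat_lit 0) (nat_lit 0) (XT.lf (nat_lit 0) (nat_lit 4023842793) (nat_lit 836) (nat_lit 1383108787) (nat_lit 912) (nat_lit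 2193002923) (nat_lit 286) (nat_lit 5) (nat_lit 297) (nat_lit 5) (nat_lit 298) (nat_lit 5) (nat_lit 322) (nat_lit 310) (nat_lit 268)) (XT.nd (nat_lit 78) (nat_lit 0) (nat_lit 0) (XT.lf (nat_lit 76) (nat_lit 2713624456) (nat_lit 0) (nat_lit 3131642209) (nat_lit 912) (nat_lit 1834818003) (nat_lit 287) (nat_lit 5) (nat_lit 286) (nat_lit 5) (nat_lit 298) (nat_lit 5) (nat_lit 323) (nat_lit 310) (nat_lit 267)) (XT.lf (nat_lit 76) (nat_lit 6921773236) (nat_lit 0) (nat_lit 758887345) (nat_lit 912) (nat_lit 83228562) (nat_lit 287) (nat_lit 5) (nat_lit 286) (nat_lit 5) (nat_lit 298) (nat_lit 5) (nat_lit 324) (nat_lit 310) (nat_lit 266))))) (XT.nd (nat_lit 234) (nat_lit 2128) (nat_lit 0) (XT.nd (nat_lit 78) (nat_lit 912) (nat_lit 0) (XT.lf (nat_lit 0) (nat_lit 1683365505) (nat_lit 912) (nat_lit 4450914470) (nat_lit 76) (nat_lit 1715597706) (nat_lit 275) (nat_lit 5) (nat_lit 287) (nat_lit 5) (nat_lit 276) (nat_lit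 5) (nat_lit 325) (nat_lit 310) (nat_lit 265)) (XT.nd (nat_lit 78) (nat_lit 912) (nat_lit 0) (XT.lf (nat_lit 0) (nat_lit 3465073587) (nat_lit 912) (nat_lit 203222747) (nat_lit 76) (nat_lit 4271257113) (nat_lit 275) (nat_lit 5) (nat_lit 287) (nat_lit 5) (nat_lit 276) (nat_lit 5) (nat_lit 326) (nat_lit 310) (nat_lit 264)) (XT.lf (nat_lit 0) (nat_lit 4214184853) (nat_lit 912) (nat_lit 1075768401) (nat_lit 988) (nat_lit 2742319246) (nat_lit 263) (nat_lit 5) (nat_lit 275) (nat_lit 5) (nat_lit 276) (nat_lit 5) (nat_lit 327) (nat_lit 310) (nat_lit 263)))) (XT.nd (nat_lit 156) (nat_lit 1064) (nat_lit 0) (XT.nd (nat_lit 78) (nat_lit 76) (nat_lit 0) (XT.lf (nat_lit 0) (nat_lit 595655839) (nat_lit 988) (nat_lit 6547456868) (nat_lit 1064) (nat_lit 985497743) (nat_lit 250) (nat_lit 5) (nat_lit 263) (nat_lit 5) (nat_lit 264) (nat_lit 5) (nat_lit 328) (nat_lit 310) (nat_lit 262)) (XT.lf (nat_lit 0) (nat_lit 808474772)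 (nat_lit 1064) (nat_lit 3067359196) (nat_lit 76) (nat_lit 4351791991) (nat_lit 249) (nat_lit 5) (nat_lit 263) (nat_lit 5) (nat_lit 250) (nat_lit 5) (nat_lit 329) (nat_lit 310) (nat_lit 261))) (XT.nd (nat_lit 78) (nat_lit 0) (nat_lit 0) (XT.lf (nat_lit 0) (nat_lit 1511354146) (nat_lit 1064) (nat_lit 1091999862) (nat_lit 1140) (nat_lit 5726998001) (nat_lit 235) (nat_lit 5) (nat_lit 249) (nat_lit 5) (nat_lit 250) (nat_lit 5) (nat_lit 330) (nat_lit 310) (nat_lit 260)) (XT.lf (nat_lit 0) (nat_lit 4453856394) (nat_lit 1140) (nat_lit 2203982300) (nat_lit 76) (nat_lit 1778306337) (nat_lit 235) (nat_lit 5) (nat_lit 250) (nat_lit 5) (nat_lit 236) (nat_lit 5) (nat_lit 331) (nat_lit 310) (nat_lit 259)))))) (XT.nd (nat_lit 546) (nat_lit 2204) (nat_lit 0) (XT.nd (nat_lit 234) (nat_lit 1216) (nat_lit 0) (XT.nd (nat_lit 78) (nat_lit 1064) (nat_lit 0) (XT.lf (nat_lit 0) (nat_lit 2547919070) (nat_lit 1140) (nat_lit 3802045265)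 (nat_lit 1216) (nat_lit 2195482168) (nat_lit 220) (nat_lit 5) (nat_lit 235) (nat_lit 5) (nat_lit 236) (nat_lit 5) (nat_lit 332) (nat_lit 310) (nat_lit 258)) (XT.nd (nat_lit 78) (nat_lit 1064) (nat_lit 0) (XT.lf (nat_lit 0) (nat_lit 7447481883) (nat_lit 1140) (nat_lit 833447650) (nat_lit 1216) (nat_lit 377794548) (nat_lit 220) (nat_lit 5) (nat_lit 235) (nat_lit 5) (nat_lit 236) (nat_lit 5) (nat_lit 333) (nat_lit 310) (nat_lit 257)) (XT.lf (nat_lit 0) (nat_lit 1479649286) (nat_lit 1064) (nat_lit 5059753065) (nat_lit 76) (nat_lit 2235169263) (nat_lit 206) (nat_lit 5) (nat_lit 220) (nat_lit 5) (nat_lit 207) (nat_lit 5) (nat_lit 334) (nat_lit 310) (nat_lit 256)))) (XT.nd (nat_lit 156) (nat_lit 608) (nat_lit 0) (XT.nd (nat_lit 78) (nat_lit 608) (nat_lit 0) (XT.lf (nat_lit 0) (nat_lit 3363292023) (nat_lit 1064) (nat_lit 132907847) (nat_lit 76) (nat_lit 5398273625) (nat_lit 206) (nat_lit 5) (nat_lit 220) (nat_lit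 5) (nat_lit 207) (nat_lit 5) (nat_lit 335) (nat_lit 310) (nat_lit 255)) (XT.lf (nat_lit 0) (nat_lit 4999735665) (nat_lit 608) (nat_lit 310472443) (nat_lit 684) (nat_lit 3707593642) (nat_lit 198) (nat_lit 5) (nat_lit 206) (nat_lit 5) (nat_lit 207) (nat_lit 5) (nat_lit 336) (nat_lit 310) (nat_lit 254))) (XT.nd (nat_lit 78) (nat_lit 76) (nat_lit 0) (XT.lf (nat_lit 0) (nat_lit 1096683157) (nat_lit 532) (nat_lit 6218845411) (nat_lit 608) (nat_lit 1829332676) (nat_lit 191) (nat_lit 5) (nat_lit 198) (nat_lit 5) (nat_lit 199) (nat_lit 5) (nat_lit 337) (nat_lit 310) (nat_lit 253)) (XT.lf (nat_lit 0) (nat_lit 107185157) (nat_lit 608) (nat_lit 2872632291) (nat_lit 76) (nat_lit 6295795318) (nat_lit 190) (nat_lit 5) (nat_lit 198) (nat_lit 5) (nat_lit 191) (nat_lit 5) (nat_lit 338) (nat_lit 310) (nat_lit 252))))) (XT.nd (nat_lit 234) (nat_lit 1064) (nat_lit 0) (XT.nd (nat_lit 78) (nat_lit 532) (nat_lit 0) (XT.lf (nat_lit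 0) (nat_lit 2053475368) (nat_lit 684) (nat_lit 6965904578) (nat_lit 76) (nat_lit 390738825) (nat_lit 182) (nat_lit 5) (nat_lit 191) (nat_lit 5) (nat_lit 183) (nat_lit 5) (nat_lit 339) (nat_lit 310) (nat_lit 251)) (XT.nd (nat_lit 78) (nat_lit 532) (nat_lit 0) (XT.lf (nat_lit 0) (nat_lit 4078778267) (nat_lit 684) (nat_lit 1638580901) (nat_lit 76) (nat_lit 3830709878) (nat_lit 182) (nat_lit 5) (nat_lit 191) (nat_lit 5) (nat_lit 183) (nat_lit 5) (nat_lit 340) (nat_lit 310) (nat_lit 250)) (XT.lf (nat_lit 0) (nat_lit 3885099970) (nat_lit 532) (nat_lit 2280023790) (nat_lit 608) (nat_lit 3525052563) (nat_lit 175) (nat_lit 5) (nat_lit 182) (nat_lit 5) (nat_lit 183) (nat_lit 5) (nat_lit 341) (nat_lit 310) (nat_lit 249)))) (XT.nd (nat_lit 156) (nat_lit 456) (nat_lit 0) (XT.nd (nat_lit 78) (nat_lit 608) (nat_lit 0) (XT.lf (nat_lit 0) (nat_lit 8306504800) (nat_lit 608) (nat_lit 280232050) (nat_lit 76) (nat_lit 1250062826)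 (nat_lit 175) (nat_lit 5) (nat_lit 183) (nat_lit 5) (nat_lit 176) (nat_lit 5) (nat_lit 342) (nat_lit 310) (nat_lit 248)) (XT.lf (nat_lit 0) (nat_lit 554136338) (nat_lit 608) (nat_lit 4536668882) (nat_lit 76) (nat_lit 4895688162) (nat_lit 167) (nat_lit 5) (nat_lit 175) (nat_lit 5) (nat_lit 168) (nat_lit 5) (nat_lit 343) (nat_lit 310) (nat_lit 247))) (XT.nd (nat_lit 78) (nat_lit 0) (nat_lit 0) (XT.lf (nat_lit 0) (nat_lit 1185734346) (nat_lit 456) (nat_lit 1463834936) (nat_lit 532) (nat_lit 7491301277) (nat_lit 161) (nat_lit 5) (nat_lit 167) (nat_lit 5) (nat_lit 168) (nat_lit 5) (nat_lit 344) (nat_lit 310) (nat_lit 246)) (XT.lf (nat_lit 0) (nat_lit 4841545295) (nat_lit 532) (nat_lit 3187777668) (nat_lit 76) (nat_lit 2269568976) (nat_lit 161) (nat_lit 5) (nat_lit 168) (nat_lit 5) (nat_lit 162) (nat_lit 5) (nat_lit 345) (nat_lit 310) (nat_lit 245))))))))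
noncomputable def xc132 : XT := (XT.nd (nat_lit 2028) (nat_lit 2964) (nat_lit 0) (XT.nd (nat_lit 1014) (nat_lit 2280) (nat_lit 0) (XT.nd (nat_lit 468) (nat_lit 1596) (nat_lit 0) (XT.nd (nat_lit 234) (nat_lit 836) (nat_lit 0) (XT.nd (nat_lit 78) (nat_lit 532) (nat_lit 0) (XT.lf (nat_lit 0) (nat_lit 2753205012) (nat_lit 456) (nat_lit 4353612851) (nat_lit 532) (nat_lit 3354632588) (nat_lit 155) (nat_lit 5) (nat_lit 161) (nat_lit 5) (nat_lit 162) (nat_lit 5) (nat_lit 346) (nat_lit 310) (nat_lit 244)) (XT.nd (nat_lit 78) (nat_lit 532) (nat_lit 0) (XT.lf (nat_lit 0) (nat_lit 8899514044) (nat_lit 456) (nat_lit 539909006) (nat_lit 532) (nat_lit 1189503388) (nat_lit 155) (nat_lit 5) (nat_lit 161) (nat_lit 5) (nat_lit 162) (nat_lit 5) (nat_lit 347) (nat_lit 310) (nat_lit 243)) (XT.lf (nat_lit 0) (nat_lit 1064068636) (nat_lit 532) (nat_lit 6365688334) (nat_lit 76) (nat_lit 3370076516) (nat_lit 148) (nat_lit 5) (nat_lit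 155) (nat_lit 5) (nat_lit 149) (nat_lit 5) (nat_lit 348) (nat_lit 310) (nat_lit 242)))) (XT.nd (nat_lit 78) (nat_lit 836) (nat_lit 0) (XT.lf (nat_lit 0) (nat_lit 3352647960) (nat_lit 532) (nat_lit 212918055) (nat_lit 76) (nat_lit 7410229262) (nat_lit 148) (nat_lit 5) (nat_lit 155) (nat_lit 5) (nat_lit 149) (nat_lit 5) (nat_lit 349) (nat_lit 310) (nat_lit 241)) (XT.nd (nat_lit 78) (nat_lit 380) (nat_lit 0) (XT.lf (nat_lit 0) (nat_lit 5743325125) (nat_lit 532) (nat_lit 4952340839) (nat_lit 76) (nat_lit 460386249) (nat_lit 142) (nat_lit 5) (nat_lit 149) (nat_lit 5) (nat_lit 143) (nat_lit 5) (nat_lit 350) (nat_lit 310) (nat_lit 240)) (XT.lf (nat_lit 0) (nat_lit 1430421850) (nat_lit 380) (nat_lit 6796250620) (nat_lit 456) (nat_lit 3114434826) (nat_lit 137) (nat_lit 5) (nat_lit 142) (nat_lit 5) (nat_lit 143) (nat_lit 5) (nat_lit 351) (nat_lit 310) (nat_lit 239))))) (XT.nd (nat_lit 234) (nat_lit 1140) (nat_lit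 0) (XT.nd (nat_lit 78) (nat_lit 456) (nat_lit 0) (XT.lf (nat_lit 0) (nat_lit 8068836492) (nat_lit 380) (nat_lit 2735941227) (nat_lit 456) (nat_lit 726346974) (nat_lit 137) (nat_lit 5) (nat_lit 142) (nat_lit 5) (nat_lit 143) (nat_lit 5) (nat_lit 352) (nat_lit 310) (nat_lit 238)) (XT.nd (nat_lit 78) (nat_lit 0) (nat_lit 0) (XT.lf (nat_lit 0) (nat_lit 1715314224) (nat_lit 456) (nat_lit 8552359053) (nat_lit 76) (nat_lit 1458214137) (nat_lit 131) (nat_lit 5) (nat_lit 137) (nat_lit 5) (nat_lit 132) (nat_lit 5) (nat_lit 353) (nat_lit 310) (nat_lit 237)) (XT.lf (nat_lit 0) (nat_lit 4249259261) (nat_lit 456) (nat_lit 1917977978) (nat_lit 76) (nat_lit 5758047868) (nat_lit 131) (nat_lit 5) (nat_lit 137) (nat_lit 5) (nat_lit 132) (nat_lit 5) (nat_lit 354) (nat_lit 310) (nat_lit 236)))) (XT.nd (nat_lit 156) (nat_lit 760) (nat_lit 0) (XT.nd (nat_lit 78) (nat_lit 0) (nat_lit 0) (XT.lf (nat_lit 0) (nat_lit 4976326478)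 (nat_lit 380) (nat_lit 1902805304) (nat_lit 456) (nat_lit 5250952011) (nat_lit 126) (nat_lit 5) (nat_lit 131) (nat_lit 5) (nat_lit 132) (nat_lit 5) (nat_lit 355) (nat_lit 310) (nat_lit 235)) (XT.lf (nat_lit 0) (nat_lit 9603852796) (nat_lit 456) (nat_lit 284409490) (nat_lit 76) (nat_lit 2452301443) (nat_lit 126) (nat_lit 5) (nat_lit 132) (nat_lit 5) (nat_lit 127) (nat_lit 5) (nat_lit 356) (nat_lit 310) (nat_lit 234))) (XT.nd (nat_lit 78) (nat_lit 380) (nat_lit 0) (XT.lf (nat_lit 0) (nat_lit 6870699862) (nat_lit 380) (nat_lit 5597764263) (nat_lit 456) (nat_lit 87164875) (nat_lit 121) (nat_lit 5) (nat_lit 126) (nat_lit 5) (nat_lit 127) (nat_lit 5) (nat_lit 357) (nat_lit 310) (nat_lit 233)) (XT.lf (nat_lit 0) (nat_lit 1436085930) (nat_lit 304) (nat_lit 1144363217) (nat_lit 380) (nat_lit 10196245721) (nat_lit 116) (nat_lit 5) (nat_lit 120) (nat_lit 5) (nat_lit 121) (nat_lit 5) (nat_lit 358) (nat_lit 310) (nat_lit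 232)))))) (XT.nd (nat_lit 468) (nat_lit 1216) (nat_lit 0) (XT.nd (nat_lit 234) (nat_lit 684) (nat_lit 0) (XT.nd (nat_lit 78) (nat_lit 380) (nat_lit 0) (XT.lf (nat_lit 0) (nat_lit 5391181097) (nat_lit 380) (nat_lit 4186032647) (nat_lit 76) (nat_lit 3425221923) (nat_lit 116) (nat_lit 5) (nat_lit 121) (nat_lit 5) (nat_lit 117) (nat_lit 5) (nat_lit 359) (nat_lit 310) (nat_lit 231)) (XT.nd (nat_lit 78) (nat_lit 0) (nat_lit 0) (XT.lf (nat_lit 0) (nat_lit 3199225720) (nat_lit 380) (nat_lit 5103630058) (nat_lit 456) (nat_lit 4931607969) (nat_lit 111) (nat_lit 5) (nat_lit 116) (nat_lit 5) (nat_lit 117) (nat_lit 5) (nat_lit 360) (nat_lit 310) (nat_lit 230)) (XT.lf (nat_lit 0) (nat_lit 10857141764) (nat_lit 380) (nat_lit 461955162) (nat_lit 456) (nat_lit 2153852540) (nat_lit 111) (nat_lit 5) (nat_lit 116) (nat_lit 5) (nat_lit 117) (nat_lit 5) (nat_lit 361) (nat_lit 310) (nat_lit 229)))) (XT.nd (nat_lit 78) (nat_lit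 304) (nat_lit 0) (XT.lf (nat_lit 0) (nat_lit 759706485) (nat_lit 380) (nat_lit 8675222551) (nat_lit 76) (nat_lit 4281481138) (nat_lit 106) (nat_lit 5) (nat_lit 111) (nat_lit 5) (nat_lit 107) (nat_lit 5) (nat_lit 362) (nat_lit 310) (nat_lit 228)) (XT.nd (nat_lit 78) (nat_lit 304) (nat_lit 0) (XT.lf (nat_lit 0) (nat_lit 3724350930) (nat_lit 380) (nat_lit 1045538407) (nat_lit 76) (nat_lit 9196448693) (nat_lit 106) (nat_lit 5) (nat_lit 111) (nat_lit 5) (nat_lit 107) (nat_lit 5) (nat_lit 363) (nat_lit 310) (nat_lit 227)) (XT.lf (nat_lit 0) (nat_lit 6821727031) (nat_lit 380) (nat_lit 7308931242) (nat_lit 76) (nat_lit 91803481) (nat_lit 102) (nat_lit 5) (nat_lit 107) (nat_lit 5) (nat_lit 103) (nat_lit 5) (nat_lit 364) (nat_lit 310) (nat_lit 226))))) (XT.nd (nat_lit 234) (nat_lit 532) (nat_lit 0) (XT.nd (nat_lit 78) (nat_lit 380) (nat_lit 0) (XT.lf (nat_lit 0) (nat_lit 576991576) (nat_lit 304) (nat_lit 9475166437)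 (nat_lit 380) (nat_lit 4432918624) (nat_lit 98) (nat_lit 5) (nat_lit 102) (nat_lit 5) (nat_lit 103) (nat_lit 5) (nat_lit 365) (nat_lit 310) (nat_lit 225)) (XT.nd (nat_lit 78) (nat_lit 380) (nat_lit 0) (XT.lf (nat_lit 0) (nat_lit 8815861255) (nat_lit 304) (nat_lit 4614501789) (nat_lit 380) (nat_lit 1323692215) (nat_lit 98) (nat_lit 5) (nat_lit 102) (nat_lit 5) (nat_lit 103) (nat_lit 5) (nat_lit 366) (nat_lit 310) (nat_lit 224)) (XT.lf (nat_lit 0) (nat_lit 1845465655) (nat_lit 380) (nat_lit 12770685217) (nat_lit 76) (nat_lit 414321530) (nat_lit 93) (nat_lit 5) (nat_lit 98) (nat_lit 5) (nat_lit 94) (nat_lit 5) (nat_lit 367) (nat_lit 310) (nat_lit 223)))) (XT.nd (nat_lit 156) (nat_lit 304) (nat_lit 0) (XT.nd (nat_lit 78) (nat_lit 228) (nat_lit 0) (XT.lf (nat_lit 0) (nat_lit 5167073253) (nat_lit 380) (nat_lit 4580528312) (nat_lit 76) (nat_lit 5564678103) (nat_lit 93) (nat_lit 5) (nat_lit 98) (nat_lit 5) (nat_lit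 94) (nat_lit 5) (nat_lit 368) (nat_lit 310) (nat_lit 222)) (XT.lf (nat_lit 0) (nat_lit 3899194969) (nat_lit 228) (nat_lit 4704998018) (nat_lit 304) (nat_lit 6997882130) (nat_lit 90) (nat_lit 5) (nat_lit 93) (nat_lit 5) (nat_lit 94) (nat_lit 5) (nat_lit 369) (nat_lit 310) (nat_lit 221))) (XT.nd (nat_lit 78) (nat_lit 304) (nat_lit 0) (XT.lf (nat_lit 0) (nat_lit 12174441406) (nat_lit 304) (nat_lit 3209584047) (nat_lit 76) (nat_lit 515648118) (nat_lit 90) (nat_lit 5) (nat_lit 94) (nat_lit 5) (nat_lit 91) (nat_lit 5) (nat_lit 370) (nat_lit 310) (nat_lit 220)) (XT.lf (nat_lit 0) (nat_lit 5569088980) (nat_lit 304) (nat_lit 10362052454) (nat_lit 380) (nat_lit 272687536) (nat_lit 86) (nat_lit 5) (nat_lit 90) (nat_lit 5) (nat_lit 91) (nat_lit 5) (nat_lit 371) (nat_lit 310) (nat_lit 219))))))) (XT.nd (nat_lit 1014) (nat_lit 1216) (nat_lit 0) (XT.nd (nat_lit 468) (nat_lit 912) (nat_lit 0) (XT.nd (nat_lit 234) (nat_lit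 532) (nat_lit 0) (XT.nd (nat_lit 78) (nat_lit 228) (nat_lit 0) (XT.lf (nat_lit 0) (nat_lit 3231413346) (nat_lit 380) (nat_lit 1902726679) (nat_lit 76) (nat_lit 11381669369) (nat_lit 85) (nat_lit 5) (nat_lit 90) (nat_lit 5) (nat_lit 86) (nat_lit 5) (nat_lit 372) (nat_lit 310) (nat_lit 218)) (XT.nd (nat_lit 78) (nat_lit 0) (nat_lit 0) (XT.lf (nat_lit 0) (nat_lit 6887292246) (nat_lit 304) (nat_lit 9640311031) (nat_lit 76) (nat_lit 307909412) (nat_lit 82) (nat_lit 5) (nat_lit 86) (nat_lit 5) (nat_lit 83) (nat_lit 5) (nat_lit 373) (nat_lit 310) (nat_lit 217)) (XT.lf (nat_lit 0) (nat_lit 10703197596) (nat_lit 304) (nat_lit 641082076) (nat_lit 76) (nat_lit 5819025183) (nat_lit 82) (nat_lit 5) (nat_lit 86) (nat_lit 5) (nat_lit 83) (nat_lit 5) (nat_lit 374) (nat_lit 310) (nat_lit 216)))) (XT.nd (nat_lit 78) (nat_lit 304) (nat_lit 0) (XT.lf (nat_lit 0) (nat_lit 8769243286) (nat_lit 228) (nat_lit 5929324355) (nat_lit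 304) (nat_lit 2800421556) (nat_lit 79) (nat_lit 5) (nat_lit 82) (nat_lit 5) (nat_lit 83) (nat_lit 5) (nat_lit 375) (nat_lit 310) (nat_lit 215)) (XT.nd (nat_lit 78) (nat_lit 0) (nat_lit 0) (XT.lf (nat_lit 0) (nat_lit 602756721) (nat_lit 228) (nat_lit 340493023) (nat_lit 304) (nat_lit 16901429301) (nat_lit 75) (nat_lit 5) (nat_lit 78) (nat_lit 5) (nat_lit 79) (nat_lit 5) (nat_lit 376) (nat_lit 310) (nat_lit 214)) (XT.lf (nat_lit 0) (nat_lit 4864975756) (nat_lit 304) (nat_lit 7914843733) (nat_lit 76) (nat_lit 5416434738) (nat_lit 75) (nat_lit 5) (nat_lit 79) (nat_lit 5) (nat_lit 76) (nat_lit 5) (nat_lit 377) (nat_lit 310) (nat_lit 213))))) (XT.nd (nat_lit 234) (nat_lit 456) (nat_lit 0) (XT.nd (nat_lit 78) (nat_lit 228) (nat_lit 0) (XT.lf (nat_lit 0) (nat_lit 1692308030) (nat_lit 228) (nat_lit 7213181529) (nat_lit 304) (nat_lit 9652860163) (nat_lit 72) (nat_lit 5) (nat_lit 75) (nat_lit 5) (nat_lit 76) (nat_lit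 5) (nat_lit 378) (nat_lit 310) (nat_lit 212)) (XT.nd (nat_lit 78) (nat_lit 228) (nat_lit 0) (XT.lf (nat_lit 0) (nat_lit 11720818038) (nat_lit 228) (nat_lit 1408081595) (nat_lit 304) (nat_lit 5800564955) (nat_lit 72) (nat_lit 5) (nat_lit 75) (nat_lit 5) (nat_lit 76) (nat_lit 5) (nat_lit 379) (nat_lit 310) (nat_lit 211)) (XT.lf (nat_lit 0) (nat_lit 2718893007) (nat_lit 228) (nat_lit 14812382034) (nat_lit 304) (nat_lit 1778876699) (nat_lit 69) (nat_lit 5) (nat_lit 72) (nat_lit 5) (nat_lit 73) (nat_lit 5) (nat_lit 380) (nat_lit 310) (nat_lit 210)))) (XT.nd (nat_lit 156) (nat_lit 152) (nat_lit 0) (XT.nd (nat_lit 78) (nat_lit 228) (nat_lit 0) (XT.lf (nat_lit 0) (nat_lit 2387049735) (nat_lit 304) (nat_lit 6674198154) (nat_lit 76) (nat_lit 10638245173) (nat_lit 68) (nat_lit 5) (nat_lit 72) (nat_lit 5) (nat_lit 69) (nat_lit 5) (nat_lit 381) (nat_lit 310) (nat_lit 209)) (XT.lf (nat_lit 0) (nat_lit 3564383314) (nat_lit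 228) (nat_lit 3094848825) (nat_lit 304) (nat_lit 13440249309) (nat_lit 65) (nat_lit 5) (nat_lit 68) (nat_lit 5) (nat_lit 69) (nat_lit 5) (nat_lit 382) (nat_lit 310) (nat_lit 208))) (XT.nd (nat_lit 78) (nat_lit 152) (nat_lit 0) (XT.lf (nat_lit 0) (nat_lit 11139869613) (nat_lit 304) (nat_lit 6320573550) (nat_lit 76) (nat_lit 3048623614) (nat_lit 65) (nat_lit 5) (nat_lit 69) (nat_lit 5) (nat_lit 66) (nat_lit 5) (nat_lit 383) (nat_lit 310) (nat_lit 207)) (XT.lf (nat_lit 0) (nat_lit 4224934279) (nat_lit 152) (nat_lit 11584646954) (nat_lit 228) (nat_lit 5119724587) (nat_lit 63) (nat_lit 5) (nat_lit 65) (nat_lit 5) (nat_lit 66) (nat_lit 5) (nat_lit 384) (nat_lit 310) (nat_lit 206)))))) (XT.nd (nat_lit 546) (nat_lit 532) (nat_lit 0) (XT.nd (nat_lit 234) (nat_lit 380) (nat_lit 0) (XT.nd (nat_lit 78) (nat_lit 304) (nat_lit 0) (XT.lf (nat_lit 0) (nat_lit 15189385995) (nat_lit 152) (nat_lit 5477447985) (nat_lit 228)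 (nat_lit 693900198) (nat_lit 63) (nat_lit 5) (nat_lit 65) (nat_lit 5) (nat_lit 66) (nat_lit 5) (nat_lit 385) (nat_lit 310) (nat_lit 205)) (XT.nd (nat_lit 78) (nat_lit 0) (nat_lit 0) (XT.lf (nat_lit 0) (nat_lit 3826988319) (nat_lit 304) (nat_lit 17105833206) (nat_lit 76) (nat_lit 870043570) (nat_lit 59) (nat_lit 5) (nat_lit 63) (nat_lit 5) (nat_lit 60) (nat_lit 5) (nat_lit 386) (nat_lit 310) (nat_lit 204)) (XT.lf (nat_lit 0) (nat_lit 8570778200) (nat_lit 304) (nat_lit 6326786079) (nat_lit 76) (nat_lit 7357458068) (nat_lit 59) (nat_lit 5) (nat_lit 63) (nat_lit 5) (nat_lit 60) (nat_lit 5) (nat_lit 387) (nat_lit 310) (nat_lit 203)))) (XT.nd (nat_lit 156) (nat_lit 228) (nat_lit 0) (XT.nd (nat_lit 78) (nat_lit 0) (nat_lit 0) (XT.lf (nat_lit 0) (nat_lit 4844291973) (nat_lit 152) (nat_lit 8643674280) (nat_lit 228) (nat_lit 9231850536) (nat_lit 57) (nat_lit 5) (nat_lit 59) (nat_lit 5) (nat_lit 60) (nat_lit 5) (nat_lit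 388) (nat_lit 310) (nat_lit 202)) (XT.lf (nat_lit 0) (nat_lit 16454578834) (nat_lit 152) (nat_lit 2146702111) (nat_lit 228) (nat_lit 4595820650) (nat_lit 57) (nat_lit 5) (nat_lit 59) (nat_lit 5) (nat_lit 60) (nat_lit 5) (nat_lit 389) (nat_lit 310) (nat_lit 201))) (XT.nd (nat_lit 78) (nat_lit 0) (nat_lit 0) (XT.lf (nat_lit 0) (nat_lit 250928665) (nat_lit 228) (nat_lit 18940728149) (nat_lit 76) (nat_lit 4494746899) (nat_lit 54) (nat_lit 5) (nat_lit 57) (nat_lit 5) (nat_lit 55) (nat_lit 5) (nat_lit 390) (nat_lit 310) (nat_lit 200)) (XT.lf (nat_lit 0) (nat_lit 5225839564) (nat_lit 228) (nat_lit 7564316044) (nat_lit 76) (nat_lit 11396614723) (nat_lit 54) (nat_lit 5) (nat_lit 57) (nat_lit 5) (nat_lit 55) (nat_lit 5) (nat_lit 391) (nat_lit 310) (nat_lit 199))))) (XT.nd (nat_lit 234) (nat_lit 228) (nat_lit 0) (XT.nd (nat_lit 78) (nat_lit 152) (nat_lit 0) (XT.lf (nat_lit 0) (nat_lit 4211019896) (nat_lit 152) (nat_lit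 6165006007) (nat_lit 228) (nat_lit 14325345519) (nat_lit 52) (nat_lit 5) (nat_lit 54) (nat_lit 5) (nat_lit 55) (nat_lit 5) (nat_lit 392) (nat_lit 310) (nat_lit 198)) (XT.nd (nat_lit 78) (nat_lit 152) (nat_lit 0) (XT.lf (nat_lit 0) (nat_lit 15749832656) (nat_lit 228) (nat_lit 8766167760) (nat_lit 76) (nat_lit 713340880) (nat_lit 52) (nat_lit 5) (nat_lit 55) (nat_lit 5) (nat_lit 53) (nat_lit 5) (nat_lit 393) (nat_lit 310) (nat_lit 197)) (XT.lf (nat_lit 0) (nat_lit 3288963201) (nat_lit 152) (nat_lit 18074603897) (nat_lit 228) (nat_lit 4407225835) (nat_lit 50) (nat_lit 5) (nat_lit 52) (nat_lit 5) (nat_lit 53) (nat_lit 5) (nat_lit 394) (nat_lit 310) (nat_lit 196)))) (XT.nd (nat_lit 156) (nat_lit 0) (nat_lit 0) (XT.nd (nat_lit 78) (nat_lit 152) (nat_lit 0) (XT.lf (nat_lit 0) (nat_lit 876772551) (nat_lit 228) (nat_lit 10473082893) (nat_lit 76) (nat_lit 14976136021) (nat_lit 49) (nat_lit 5) (nat_lit 52) (nat_lit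 5) (nat_lit 50) (nat_lit 5) (nat_lit 395) (nat_lit 310) (nat_lit 195)) (XT.lf (nat_lit 0) (nat_lit 1865425384) (nat_lit 152) (nat_lit 4369717752) (nat_lit 228) (nat_lit 20661264470) (nat_lit 47) (nat_lit 5) (nat_lit 49) (nat_lit 5) (nat_lit 50) (nat_lit 5) (nat_lit 396) (nat_lit 310) (nat_lit 194))) (XT.nd (nat_lit 78) (nat_lit 0) (nat_lit 0) (XT.lf (nat_lit 0) (nat_lit 11874755284) (nat_lit 228) (nat_lit 12743487849) (nat_lit 76) (nat_lit 2862082003) (nat_lit 47) (nat_lit 5) (nat_lit 50) (nat_lit 5) (nat_lit 48) (nat_lit 5) (nat_lit 397) (nat_lit 310) (nat_lit 193)) (XT.lf (nat_lit 0) (nat_lit 17713791071) (nat_lit 228) (nat_lit 153301338) (nat_lit 76) (nat_lit 10213764238) (nat_lit 47) (nat_lit 5) (nat_lit 50) (nat_lit 5) (nat_lit 48) (nat_lit 5) (nat_lit 398) (nat_lit 310) (nat_lit 192))))))))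
noncomputable def xc133 : XT := (XT.nd (nat_lit 2028) (nat_lit 608) (nat_lit 0) (XT.nd (nat_lit 1014) (nat_lit 760) (nat_lit 0) (XT.nd (nat_lit 468) (nat_lit 456) (nat_lit 0) (XT.nd (nat_lit 234) (nat_lit 152) (nat_lit 0) (XT.nd (nat_lit 78) (nat_lit 228) (nat_lit 0) (XT.lf (nat_lit 0) (nat_lit 13047180326) (nat_lit 152) (nat_lit 10793585319) (nat_lit 228) (nat_lit 4855258837) (nat_lit 45) (nat_lit 5) (nat_lit 47) (nat_lit 5) (nat_lit 48) (nat_lit 5) (nat_lit 399) (nat_lit 310) (nat_lit 191)) (XT.nd (nat_lit 78) (nat_lit 152) (nat_lit 0) (XT.lf (nat_lit 0) (nat_lit 794809482) (nat_lit 228) (nat_lit 2712744386) (nat_lit 76) (nat_lit 25822191308) (nat_lit 44) (nat_lit 5) (nat_lit 47) (nat_lit 5) (nat_lit 45) (nat_lit 5) (nat_lit 400) (nat_lit 310) (nat_lit 190)) (XT.lf (nat_lit 0) (nat_lit 6647729739) (nat_lit 228) (nat_lit 19266370953) (nat_lit 76) (nat_lit 4063009692) (nat_lit 42) (nat_lit 5) (nat_lit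 45) (nat_lit 5) (nat_lit 43) (nat_lit 5) (nat_lit 401) (nat_lit 310) (nat_lit 189)))) (XT.nd (nat_lit 78) (nat_lit 152) (nat_lit 0) (XT.lf (nat_lit 0) (nat_lit 12726445883) (nat_lit 228) (nat_lit 6107010868) (nat_lit 76) (nat_lit 11808936578) (nat_lit 42) (nat_lit 5) (nat_lit 45) (nat_lit 5) (nat_lit 43) (nat_lit 5) (nat_lit 402) (nat_lit 310) (nat_lit 188)) (XT.nd (nat_lit 78) (nat_lit 0) (nat_lit 0) (XT.lf (nat_lit 0) (nat_lit 7574080021) (nat_lit 152) (nat_lit 11474420474) (nat_lit 228) (nat_lit 12277307898) (nat_lit 40) (nat_lit 5) (nat_lit 42) (nat_lit 5) (nat_lit 43) (nat_lit 5) (nat_lit 403) (nat_lit 310) (nat_lit 187)) (XT.lf (nat_lit 0) (nat_lit 21770148179) (nat_lit 152) (nat_lit 3840053816) (nat_lit 228) (nat_lit 6418027214) (nat_lit 40) (nat_lit 5) (nat_lit 42) (nat_lit 5) (nat_lit 43) (nat_lit 5) (nat_lit 404) (nat_lit 310) (nat_lit 186))))) (XT.nd (nat_lit 234) (nat_lit 304) (nat_lit 0) (XT.nd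 (nat_lit 78) (nat_lit 76) (nat_lit 0) (XT.lf (nat_lit 0) (nat_lit 3652676374) (nat_lit 76) (nat_lit 28778437863) (nat_lit 152) (nat_lit 318740392) (nat_lit 39) (nat_lit 5) (nat_lit 40) (nat_lit 5) (nat_lit 41) (nat_lit 4) (nat_lit 405) (nat_lit 310) (nat_lit 185)) (XT.nd (nat_lit 78) (nat_lit 0) (nat_lit 0) (XT.lf (nat_lit 0) (nat_lit 5978385914) (nat_lit 152) (nat_lit 15415686995) (nat_lit 76) (nat_lit 12093401844) (nat_lit 38) (nat_lit 5) (nat_lit 40) (nat_lit 5) (nat_lit 39) (nat_lit 5) (nat_lit 406) (nat_lit 310) (nat_lit 184)) (XT.lf (nat_lit 0) (nat_lit 12446950020) (nat_lit 152) (nat_lit 1346646536) (nat_lit 76) (nat_lit 20453866874) (nat_lit 38) (nat_lit 5) (nat_lit 40) (nat_lit 5) (nat_lit 39) (nat_lit 5) (nat_lit 407) (nat_lit 310) (nat_lit 183)))) (XT.nd (nat_lit 156) (nat_lit 152) (nat_lit 0) (XT.nd (nat_lit 78) (nat_lit 0) (nat_lit 0) (XT.lf (nat_lit 0) (nat_lit 13386519596) (nat_lit 152)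 (nat_lit 5840983660) (nat_lit 228) (nat_lit 15799213010) (nat_lit 36) (nat_lit 5) (nat_lit 38) (nat_lit 5) (nat_lit 39) (nat_lit 5) (nat_lit 408) (nat_lit 310) (nat_lit 182)) (XT.lf (nat_lit 0) (nat_lit 26237100887) (nat_lit 228) (nat_lit 7281596746) (nat_lit 76) (nat_lit 2309882611) (nat_lit 36) (nat_lit 5) (nat_lit 39) (nat_lit 5) (nat_lit 37) (nat_lit 4) (nat_lit 409) (nat_lit 310) (nat_lit 181))) (XT.nd (nat_lit 78) (nat_lit 76) (nat_lit 0) (XT.lf (nat_lit 0) (nat_lit 7579168879) (nat_lit 76) (nat_lit 25998119295) (nat_lit 152) (nat_lit 3073605238) (nat_lit 35) (nat_lit 5) (nat_lit 36) (nat_lit 5) (nat_lit 37) (nat_lit 4) (nat_lit 410) (nat_lit 310) (nat_lit 180)) (XT.lf (nat_lit 0) (nat_lit 3632672960) (nat_lit 152) (nat_lit 14515046262) (nat_lit 76) (nat_lit 19347192494) (nat_lit 34) (nat_lit 5) (nat_lit 36) (nat_lit 5) (nat_lit 35) (nat_lit 5) (nat_lit 411) (nat_lit 310) (nat_lit 179)))))) (XT.nd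 (nat_lit 468) (nat_lit 456) (nat_lit 0) (XT.nd (nat_lit 234) (nat_lit 152) (nat_lit 0) (XT.nd (nat_lit 78) (nat_lit 0) (nat_lit 0) (XT.lf (nat_lit 0) (nat_lit 438314692) (nat_lit 152) (nat_lit 10034199308) (nat_lit 228) (nat_lit 27891001214) (nat_lit 32) (nat_lit 5) (nat_lit 34) (nat_lit 5) (nat_lit 35) (nat_lit 5) (nat_lit 412) (nat_lit 310) (nat_lit 178)) (XT.nd (nat_lit 78) (nat_lit 0) (nat_lit 0) (XT.lf (nat_lit 0) (nat_lit 16119859498) (nat_lit 152) (nat_lit 1534322274) (nat_lit 228) (nat_lit 21599898162) (nat_lit 32) (nat_lit 5) (nat_lit 34) (nat_lit 5) (nat_lit 35) (nat_lit 5) (nat_lit 413) (nat_lit 310) (nat_lit 177)) (XT.lf (nat_lit 0) (nat_lit 25110980660) (nat_lit 228) (nat_lit 7986574091) (nat_lit 76) (nat_lit 7072018416) (nat_lit 32) (nat_lit 5) (nat_lit 35) (nat_lit 5) (nat_lit 33) (nat_lit 4) (nat_lit 414) (nat_lit 310) (nat_lit 176)))) (XT.nd (nat_lit 78) (nat_lit 76) (nat_lit 0) (XT.lf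 (nat_lit 0) (nat_lit 7734089709) (nat_lit 76) (nat_lit 25137485963) (nat_lit 152) (nat_lit 8238554706) (nat_lit 31) (nat_lit 5) (nat_lit 32) (nat_lit 5) (nat_lit 33) (nat_lit 4) (nat_lit 415) (nat_lit 310) (nat_lit 175)) (XT.nd (nat_lit 78) (nat_lit 76) (nat_lit 0) (XT.lf (nat_lit 0) (nat_lit 24073117836) (nat_lit 76) (nat_lit 16863187399) (nat_lit 152) (nat_lit 1140461456) (nat_lit 31) (nat_lit 5) (nat_lit 32) (nat_lit 5) (nat_lit 33) (nat_lit 4) (nat_lit 416) (nat_lit 310) (nat_lit 174)) (XT.lf (nat_lit 0) (nat_lit 6041012722) (nat_lit 152) (nat_lit 2246062723) (nat_lit 76) (nat_lit 34783823519) (nat_lit 30) (nat_lit 5) (nat_lit 32) (nat_lit 5) (nat_lit 31) (nat_lit 5) (nat_lit 417) (nat_lit 310) (nat_lit 173))))) (XT.nd (nat_lit 234) (nat_lit 228) (nat_lit 0) (XT.nd (nat_lit 78) (nat_lit 76) (nat_lit 0) (XT.lf (nat_lit 0) (nat_lit 13549603037) (nat_lit 228) (nat_lit 29862777998) (nat_lit 76) (nat_lit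 678099327) (nat_lit 28) (nat_lit 5) (nat_lit 31) (nat_lit 5) (nat_lit 29) (nat_lit 4) (nat_lit 418) (nat_lit 310) (nat_lit 172)) (XT.nd (nat_lit 78) (nat_lit 76) (nat_lit 0) (XT.lf (nat_lit 0) (nat_lit 21379556767) (nat_lit 228) (nat_lit 13996734815) (nat_lit 76) (nat_lit 9761476125) (nat_lit 28) (nat_lit 5) (nat_lit 31) (nat_lit 5) (nat_lit 29) (nat_lit 4) (nat_lit 419) (nat_lit 310) (nat_lit 171)) (XT.lf (nat_lit 0) (nat_lit 2375910771) (nat_lit 76) (nat_lit 27082744874) (nat_lit 152) (nat_lit 16757392260) (nat_lit 27) (nat_lit 5) (nat_lit 28) (nat_lit 5) (nat_lit 29) (nat_lit 4) (nat_lit 420) (nat_lit 310) (nat_lit 170)))) (XT.nd (nat_lit 156) (nat_lit 228) (nat_lit 0) (XT.nd (nat_lit 78) (nat_lit 0) (nat_lit 0) (XT.lf (nat_lit 0) (nat_lit 19511067927) (nat_lit 76) (nat_lit 18401907392) (nat_lit 152) (nat_lit 9409717337) (nat_lit 27) (nat_lit 5) (nat_lit 28) (nat_lit 5) (nat_lit 29) (nat_lit 4) (nat_lit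 421) (nat_lit 310) (nat_lit 169)) (XT.lf (nat_lit 0) (nat_lit 37145146651) (nat_lit 76) (nat_lit 9467533517) (nat_lit 152) (nat_lit 1850105449) (nat_lit 27) (nat_lit 5) (nat_lit 28) (nat_lit 5) (nat_lit 29) (nat_lit 4) (nat_lit 422) (nat_lit 310) (nat_lit 168))) (XT.nd (nat_lit 78) (nat_lit 0) (nat_lit 0) (XT.lf (nat_lit 0) (nat_lit 5710684364) (nat_lit 152) (nat_lit 156581531) (nat_lit 228) (nat_lit 43766700731) (nat_lit 24) (nat_lit 5) (nat_lit 26) (nat_lit 5) (nat_lit 27) (nat_lit 5) (nat_lit 423) (nat_lit 310) (nat_lit 167)) (XT.lf (nat_lit 0) (nat_lit 13977017600) (nat_lit 228) (nat_lit 27480014142) (nat_lit 76) (nat_lit 9376761857) (nat_lit 24) (nat_lit 5) (nat_lit 27) (nat_lit 5) (nat_lit 25) (nat_lit 4) (nat_lit 424) (nat_lit 310) (nat_lit 166))))))) (XT.nd (nat_lit 1014) (nat_lit 152) (nat_lit 0) (XT.nd (nat_lit 468) (nat_lit 228) (nat_lit 0) (XT.nd (nat_lit 234) (nat_lit 152) (nat_lit 0) (XT.nd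 (nat_lit 78) (nat_lit 76) (nat_lit 0) (XT.lf (nat_lit 0) (nat_lit 22323791309) (nat_lit 228) (nat_lit 10559450375) (nat_lit 76) (nat_lit 19186563179) (nat_lit 24) (nat_lit 5) (nat_lit 27) (nat_lit 5) (nat_lit 25) (nat_lit 4) (nat_lit 425) (nat_lit 310) (nat_lit 165)) (XT.nd (nat_lit 78) (nat_lit 0) (nat_lit 0) (XT.lf (nat_lit 0) (nat_lit 6991121108) (nat_lit 76) (nat_lit 23989456986) (nat_lit 152) (nat_lit 22360531397) (nat_lit 23) (nat_lit 5) (nat_lit 24) (nat_lit 5) (nat_lit 25) (nat_lit 4) (nat_lit 426) (nat_lit 310) (nat_lit 164)) (XT.lf (nat_lit 0) (nat_lit 25270774527) (nat_lit 76) (nat_lit 14725418237) (nat_lit 152) (nat_lit 14651388052) (nat_lit 23) (nat_lit 5) (nat_lit 24) (nat_lit 5) (nat_lit 25) (nat_lit 4) (nat_lit 427) (nat_lit 310) (nat_lit 163)))) (XT.nd (nat_lit 78) (nat_lit 152) (nat_lit 0) (XT.lf (nat_lit 0) (nat_lit 44085328627) (nat_lit 76) (nat_lit 5189660389) (nat_lit 152) (nat_lit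 6718477119) (nat_lit 23) (nat_lit 5) (nat_lit 24) (nat_lit 5) (nat_lit 25) (nat_lit 4) (nat_lit 428) (nat_lit 310) (nat_lit 162)) (XT.nd (nat_lit 78) (nat_lit 0) (nat_lit 0) (XT.lf (nat_lit 0) (nat_lit 1521514393) (nat_lit 152) (nat_lit 51244993743) (nat_lit 76) (nat_lit 4609879151) (nat_lit 21) (nat_lit 5) (nat_lit 23) (nat_lit 5) (nat_lit 22) (nat_lit 4) (nat_lit 429) (nat_lit 310) (nat_lit 161)) (XT.lf (nat_lit 0) (nat_lit 10039371255) (nat_lit 152) (nat_lit 33973330440) (nat_lit 76) (nat_lit 14781128922) (nat_lit 21) (nat_lit 5) (nat_lit 23) (nat_lit 5) (nat_lit 22) (nat_lit 4) (nat_lit 430) (nat_lit 310) (nat_lit 160))))) (XT.nd (nat_lit 234) (nat_lit 152) (nat_lit 0) (XT.nd (nat_lit 78) (nat_lit 76) (nat_lit 0) (XT.lf (nat_lit 0) (nat_lit 18805849400) (nat_lit 152) (nat_lit 16196395465) (nat_lit 76) (nat_lit 25251760924) (nat_lit 21) (nat_lit 5) (nat_lit 23) (nat_lit 5) (nat_lit 22) (nat_lit 4) (nat_lit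 431) (nat_lit 310) (nat_lit 159)) (XT.nd (nat_lit 78) (nat_lit 0) (nat_lit 0) (XT.lf (nat_lit 0) (nat_lit 2143165300) (nat_lit 76) (nat_lit 25706044972) (nat_lit 152) (nat_lit 33908360370) (nat_lit 20) (nat_lit 5) (nat_lit 21) (nat_lit 5) (nat_lit 22) (nat_lit 4) (nat_lit 432) (nat_lit 310) (nat_lit 158)) (XT.lf (nat_lit 0) (nat_lit 21352542565) (nat_lit 76) (nat_lit 15968244725) (nat_lit 152) (nat_lit 25980748736) (nat_lit 20) (nat_lit 5) (nat_lit 21) (nat_lit 5) (nat_lit 22) (nat_lit 4) (nat_lit 433) (nat_lit 310) (nat_lit 157)))) (XT.nd (nat_lit 156) (nat_lit 152) (nat_lit 0) (XT.nd (nat_lit 78) (nat_lit 0) (nat_lit 0) (XT.lf (nat_lit 0) (nat_lit 41126181194) (nat_lit 76) (nat_lit 5943887205) (nat_lit 152) (nat_lit 17821946285) (nat_lit 20) (nat_lit 5) (nat_lit 21) (nat_lit 5) (nat_lit 22) (nat_lit 4) (nat_lit 434) (nat_lit 310) (nat_lit 156)) (XT.lf (nat_lit 0) (nat_lit 57147635126) (nat_lit 152) (nat_lit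 5091099968) (nat_lit 0) (nat_lit 4290399375) (nat_lit 20) (nat_lit 5) (nat_lit 22) (nat_lit 4) (nat_lit 20) (nat_lit 4) (nat_lit 435) (nat_lit 310) (nat_lit 155))) (XT.nd (nat_lit 78) (nat_lit 76) (nat_lit 0) (XT.lf (nat_lit 0) (nat_lit 14353654094) (nat_lit 76) (nat_lit 53364577350) (nat_lit 76) (nat_lit 491416284) (nat_lit 19) (nat_lit 4) (nat_lit 20) (nat_lit 5) (nat_lit 20) (nat_lit 4) (nat_lit 436) (nat_lit 310) (nat_lit 154)) (XT.lf (nat_lit 0) (nat_lit 8542080359) (nat_lit 152) (nat_lit 35548199407) (nat_lit 76) (nat_lit 25846424507) (nat_lit 18) (nat_lit 5) (nat_lit 20) (nat_lit 5) (nat_lit 19) (nat_lit 4) (nat_lit 437) (nat_lit 310) (nat_lit 153)))))) (XT.nd (nat_lit 36972) (nat_lit 0) (nat_lit 21128) (XT.nd (nat_lit 234) (nat_lit 76) (nat_lit 0) (XT.nd (nat_lit 78) (nat_lit 76) (nat_lit 0) (XT.lf (nat_lit 0) (nat_lit 17830767563) (nat_lit 152) (nat_lit 16707175520) (nat_lit 76) (nat_lit 37177662461)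 (nat_lit 18) (nat_lit 5) (nat_lit 20) (nat_lit 5) (nat_lit 19) (nat_lit 4) (nat_lit 438) (nat_lit 310) (nat_lit 152)) (XT.nd (nat_lit 78) (nat_lit 0) (nat_lit 0) (XT.lf (nat_lit 0) (nat_lit 2741766591) (nat_lit 76) (nat_lit 24676939903) (nat_lit 152) (nat_lit 46128550476) (nat_lit 17) (nat_lit 5) (nat_lit 18) (nat_lit 5) (nat_lit 19) (nat_lit 4) (nat_lit 439) (nat_lit 310) (nat_lit 151)) (XT.lf (nat_lit 0) (nat_lit 23105949472) (nat_lit 76) (nat_lit 14351344370) (nat_lit 152) (nat_lit 37971674614) (nat_lit 17) (nat_lit 5) (nat_lit 18) (nat_lit 5) (nat_lit 19) (nat_lit 4) (nat_lit 440) (nat_lit 310) (nat_lit 150)))) (XT.nd (nat_lit 156) (nat_lit 76) (nat_lit 0) (XT.nd (nat_lit 78) (nat_lit 0) (nat_lit 0) (XT.lf (nat_lit 0) (nat_lit 44070661519) (nat_lit 76) (nat_lit 3720843832) (nat_lit 152) (nat_lit 29575792741) (nat_lit 17) (nat_lit 5) (nat_lit 18) (nat_lit 5) (nat_lit 19) (nat_lit 4) (nat_lit 441) (nat_lit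 310) (nat_lit 149)) (XT.lf (nat_lit 0) (nat_lit 58499810984) (nat_lit 152) (nat_lit 13779158224) (nat_lit 0) (nat_lit 7082887153) (nat_lit 17) (nat_lit 5) (nat_lit 19) (nat_lit 4) (nat_lit 17) (nat_lit 4) (nat_lit 442) (nat_lit 310) (nat_lit 148))) (XT.nd (nat_lit 78) (nat_lit 0) (nat_lit 0) (XT.lf (nat_lit 0) (nat_lit 6402018172) (nat_lit 76) (nat_lit 63220467887) (nat_lit 76) (nat_lit 11790972466) (nat_lit 16) (nat_lit 4) (nat_lit 17) (nat_lit 5) (nat_lit 17) (nat_lit 4) (nat_lit 443) (nat_lit 310) (nat_lit 147)) (XT.lf (nat_lit 0) (nat_lit 27461273580) (nat_lit 76) (nat_lit 53751509257) (nat_lit 76) (nat_lit 2309808408) (nat_lit 16) (nat_lit 4) (nat_lit 17) (nat_lit 5) (nat_lit 17) (nat_lit 4) (nat_lit 444) (nat_lit 310) (nat_lit 146))))) (XT.nd (nat_lit 234) (nat_lit 760) (nat_lit 0) (XT.nd (nat_lit 78) (nat_lit 0) (nat_lit 0) (XT.lf (nat_lit 0) (nat_lit 64269561) (nat_lit 0) (nat_lit 64269561) (nat_lit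 684) (nat_lit 3353170603) (nat_lit 304) (nat_lit 5) (nat_lit 304) (nat_lit 3) (nat_lit 313) (nat_lit 3) (nat_lit 311) (nat_lit 311) (nat_lit 278)) (XT.nd (nat_lit 78) (nat_lit 0) (nat_lit 0) (XT.lf (nat_lit 0) (nat_lit 2077743513) (nat_lit 684) (nat_lit 3530621063) (nat_lit 760) (nat_lit 1403167016) (nat_lit 304) (nat_lit 5) (nat_lit 313) (nat_lit 3) (nat_lit 314) (nat_lit 5) (nat_lit 312) (nat_lit 311) (nat_lit 277)) (XT.lf (nat_lit 0) (nat_lit 3884271512) (nat_lit 684) (nat_lit 166211595) (nat_lit 760) (nat_lit 3012738314) (nat_lit 304) (nat_lit 5) (nat_lit 313) (nat_lit 3) (nat_lit 314) (nat_lit 5) (nat_lit 313) (nat_lit 311) (nat_lit 276)))) (XT.nd (nat_lit 156) (nat_lit 0) (nat_lit 76) (XT.nd (nat_lit 78) (nat_lit 760) (nat_lit 0) (XT.lf (nat_lit 76) (nat_lit 3327454056) (nat_lit 0) (nat_lit 2381536636) (nat_lit 760) (nat_lit 1408620920) (nat_lit 305) (nat_lit 5) (nat_lit 304) (nat_lit 5) (nat_lit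 314) (nat_lit 5) (nat_lit 314) (nat_lit 311) (nat_lit 275)) (XT.lf (nat_lit 0) (nat_lit 341336859) (nat_lit 760) (nat_lit 285898813) (nat_lit 836) (nat_lit 6548305338) (nat_lit 294) (nat_lit 5) (nat_lit 304) (nat_lit 5) (nat_lit 305) (nat_lit 5) (nat_lit 315) (nat_lit 311) (nat_lit 274))) (XT.nd (nat_lit 78) (nat_lit 0) (nat_lit 0) (XT.lf (nat_lit 0) (nat_lit 2094512349) (nat_lit 760) (nat_lit 3909787128) (nat_lit 836) (nat_lit 1231183110) (nat_lit 295) (nat_lit 5) (nat_lit 305) (nat_lit 5) (nat_lit 306) (nat_lit 5) (nat_lit 316) (nat_lit 311) (nat_lit 273)) (XT.lf (nat_lit 0) (nat_lit 3846093524) (nat_lit 760) (nat_lit 290302312) (nat_lit 836) (nat_lit 3162514036) (nat_lit 295) (nat_lit 5) (nat_lit 305) (nat_lit 5) (nat_lit 306) (nat_lit 5) (nat_lit 317) (nat_lit 311) (nat_lit 272))))))))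
noncomputable def xc134 : XT := (XT.nd (nat_lit 2028) (nat_lit 5852) (nat_lit 0) (XT.nd (nat_lit 1014) (nat_lit 6232) (nat_lit 0) (XT.nd (nat_lit 468) (nat_lit 2736) (nat_lit 0) (XT.nd (nat_lit 234) (nat_lit 0) (nat_lit 0) (XT.nd (nat_lit 78) (nat_lit 760) (nat_lit 0) (XT.lf (nat_lit 76) (nat_lit 3468136200) (nat_lit 0) (nat_lit 2153952484) (nat_lit 836) (nat_lit 1743055266) (nat_lit 296) (nat_lit 5) (nat_lit 295) (nat_lit 5) (nat_lit 306) (nat_lit 5) (nat_lit 318) (nat_lit 311) (nat_lit 271)) (XT.nd (nat_lit 78) (nat_lit 760) (nat_lit 0) (XT.lf (nat_lit 76) (nat_lit 7308337855) (nat_lit 0) (nat_lit 85921358) (nat_lit 836) (nat_lit 40877196) (nat_lit 296) (nat_lit 5) (nat_lit 295) (nat_lit 5) (nat_lit 306) (nat_lit 5) (nat_lit 319) (nat_lit 311) (nat_lit 270)) (XT.lf (nat_lit 0) (nat_lit 1676717333) (nat_lit 836) (nat_lit 3751189700) (nat_lit 912) (nat_lit 2078949719) (nat_lit 285) (nat_lit 5) (nat_lit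 296) (nat_lit 5) (nat_lit 297) (nat_lit 5) (nat_lit 320) (nat_lit 311) (nat_lit 269)))) (XT.nd (nat_lit 78) (nat_lit 0) (nat_lit 0) (XT.lf (nat_lit 76) (nat_lit 139255826) (nat_lit 0) (nat_lit 3251888081) (nat_lit 912) (nat_lit 4191242166) (nat_lit 286) (nat_lit 5) (nat_lit 285) (nat_lit 5) (nat_lit 297) (nat_lit 5) (nat_lit 321) (nat_lit 311) (nat_lit 268)) (XT.nd (nat_lit 78) (nat_lit 0) (nat_lit 76) (XT.lf (nat_lit 76) (nat_lit 4184980901) (nat_lit 0) (nat_lit 953847559) (nat_lit 912) (nat_lit 2521949792) (nat_lit 286) (nat_lit 5) (nat_lit 285) (nat_lit 5) (nat_lit 297) (nat_lit 5) (nat_lit 322) (nat_lit 311) (nat_lit 267)) (XT.lf (nat_lit 76) (nat_lit 569013691) (nat_lit 0) (nat_lit 6334727072) (nat_lit 912) (nat_lit 838887742) (nat_lit 287) (nat_lit 5) (nat_lit 286) (nat_lit 5) (nat_lit 298) (nat_lit 5) (nat_lit 323) (nat_lit 311) (nat_lit 266))))) (XT.nd (nat_lit 234) (nat_lit 1900) (nat_lit 0) (XT.nd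 (nat_lit 78) (nat_lit 0) (nat_lit 0) (XT.lf (nat_lit 0) (nat_lit 868477334) (nat_lit 912) (nat_lit 3077646413) (nat_lit 988) (nat_lit 3880861779) (nat_lit 274) (nat_lit 5) (nat_lit 286) (nat_lit 5) (nat_lit 287) (nat_lit 5) (nat_lit 324) (nat_lit 311) (nat_lit 265)) (XT.nd (nat_lit 78) (nat_lit 0) (nat_lit 76) (XT.lf (nat_lit 76) (nat_lit 1116039197) (nat_lit 0) (nat_lit 1452832219) (nat_lit 988) (nat_lit 5346038565) (nat_lit 275) (nat_lit 5) (nat_lit 274) (nat_lit 5) (nat_lit 287) (nat_lit 5) (nat_lit 325) (nat_lit 311) (nat_lit 264)) (XT.lf (nat_lit 0) (nat_lit 4311594784) (nat_lit 912) (nat_lit 2556892761) (nat_lit 76) (nat_lit 1137289726) (nat_lit 275) (nat_lit 5) (nat_lit 287) (nat_lit 5) (nat_lit 276) (nat_lit 5) (nat_lit 326) (nat_lit 311) (nat_lit 263)))) (XT.nd (nat_lit 156) (nat_lit 1064) (nat_lit 0) (XT.nd (nat_lit 78) (nat_lit 0) (nat_lit 0) (XT.lf (nat_lit 0) (nat_lit 1794185912) (nat_lit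 912) (nat_lit 4294735543) (nat_lit 988) (nat_lit 2011022803) (nat_lit 263) (nat_lit 5) (nat_lit 275) (nat_lit 5) (nat_lit 276) (nat_lit 5) (nat_lit 327) (nat_lit 311) (nat_lit 262)) (XT.lf (nat_lit 0) (nat_lit 6289805748) (nat_lit 912) (nat_lit 1607339126) (nat_lit 988) (nat_lit 300506135) (nat_lit 263) (nat_lit 5) (nat_lit 275) (nat_lit 5) (nat_lit 276) (nat_lit 5) (nat_lit 328) (nat_lit 311) (nat_lit 261))) (XT.nd (nat_lit 78) (nat_lit 0) (nat_lit 0) (XT.lf (nat_lit 0) (nat_lit 1422294917) (nat_lit 1064) (nat_lit 5689372851) (nat_lit 76) (nat_lit 1186554890) (nat_lit 249) (nat_lit 5) (nat_lit 263) (nat_lit 5) (nat_lit 250) (nat_lit 5) (nat_lit 329) (nat_lit 311) (nat_lit 260)) (XT.lf (nat_lit 0) (nat_lit 3179865000) (nat_lit 1064) (nat_lit 1159561530) (nat_lit 76) (nat_lit 4062660415) (nat_lit 249) (nat_lit 5) (nat_lit 263) (nat_lit 5) (nat_lit 250) (nat_lit 5) (nat_lit 330) (nat_lit 311) (nat_lit 259))))))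 (XT.nd (nat_lit 468) (nat_lit 2356) (nat_lit 0) (XT.nd (nat_lit 234) (nat_lit 1672) (nat_lit 0) (XT.nd (nat_lit 78) (nat_lit 1140) (nat_lit 0) (XT.lf (nat_lit 0) (nat_lit 3536907149) (nat_lit 1064) (nat_lit 1442355292) (nat_lit 1140) (nat_lit 3530169084) (nat_lit 235) (nat_lit 5) (nat_lit 249) (nat_lit 5) (nat_lit 250) (nat_lit 5) (nat_lit 331) (nat_lit 311) (nat_lit 258)) (XT.nd (nat_lit 78) (nat_lit 1140) (nat_lit 0) (XT.lf (nat_lit 0) (nat_lit 6815389457) (nat_lit 1140) (nat_lit 275833473) (nat_lit 76) (nat_lit 1529327368) (nat_lit 235) (nat_lit 5) (nat_lit 250) (nat_lit 5) (nat_lit 236) (nat_lit 5) (nat_lit 332) (nat_lit 311) (nat_lit 257)) (XT.lf (nat_lit 0) (nat_lit 4599073288) (nat_lit 1140) (nat_lit 4123398735) (nat_lit 1216) (nat_lit 12089687) (nat_lit 220) (nat_lit 5) (nat_lit 235) (nat_lit 5) (nat_lit 236) (nat_lit 5) (nat_lit 333) (nat_lit 311) (nat_lit 256)))) (XT.nd (nat_lit 78) (nat_lit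 608) (nat_lit 0) (XT.lf (nat_lit 0) (nat_lit 731942550) (nat_lit 988) (nat_lit 1034690124) (nat_lit 1064) (nat_lit 7085835022) (nat_lit 206) (nat_lit 5) (nat_lit 219) (nat_lit 5) (nat_lit 220) (nat_lit 5) (nat_lit 334) (nat_lit 311) (nat_lit 255)) (XT.nd (nat_lit 78) (nat_lit 608) (nat_lit 0) (XT.lf (nat_lit 0) (nat_lit 3619986258) (nat_lit 1064) (nat_lit 3203226421) (nat_lit 76) (nat_lit 2150081454) (nat_lit 206) (nat_lit 5) (nat_lit 220) (nat_lit 5) (nat_lit 207) (nat_lit 5) (nat_lit 335) (nat_lit 311) (nat_lit 254)) (XT.lf (nat_lit 0) (nat_lit 1849010268) (nat_lit 608) (nat_lit 3667854813) (nat_lit 684) (nat_lit 3581273843) (nat_lit 198) (nat_lit 5) (nat_lit 206) (nat_lit 5) (nat_lit 207) (nat_lit 5) (nat_lit 336) (nat_lit 311) (nat_lit 253))))) (XT.nd (nat_lit 234) (nat_lit 1748) (nat_lit 0) (XT.nd (nat_lit 78) (nat_lit 608) (nat_lit 0) (XT.lf (nat_lit 0) (nat_lit 7080436310) (nat_lit 608) (nat_lit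 383268727) (nat_lit 684) (nat_lit 1763262765) (nat_lit 198) (nat_lit 5) (nat_lit 206) (nat_lit 5) (nat_lit 207) (nat_lit 5) (nat_lit 337) (nat_lit 311) (nat_lit 252)) (XT.nd (nat_lit 78) (nat_lit 0) (nat_lit 0) (XT.lf (nat_lit 0) (nat_lit 127856704) (nat_lit 608) (nat_lit 6257594445) (nat_lit 76) (nat_lit 2973586504) (nat_lit 190) (nat_lit 5) (nat_lit 198) (nat_lit 5) (nat_lit 191) (nat_lit 5) (nat_lit 338) (nat_lit 311) (nat_lit 251)) (XT.lf (nat_lit 0) (nat_lit 2028169242) (nat_lit 608) (nat_lit 1003552250) (nat_lit 76) (nat_lit 6463215197) (nat_lit 190) (nat_lit 5) (nat_lit 198) (nat_lit 5) (nat_lit 191) (nat_lit 5) (nat_lit 339) (nat_lit 311) (nat_lit 250)))) (XT.nd (nat_lit 156) (nat_lit 608) (nat_lit 0) (XT.nd (nat_lit 78) (nat_lit 532) (nat_lit 0) (XT.lf (nat_lit 0) (nat_lit 3996135854) (nat_lit 684) (nat_lit 5181540104) (nat_lit 76) (nat_lit 456944394) (nat_lit 182) (nat_lit 5) (nat_lit 191) (nat_lit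 5) (nat_lit 183) (nat_lit 5) (nat_lit 340) (nat_lit 311) (nat_lit 249)) (XT.lf (nat_lit 0) (nat_lit 252471415) (nat_lit 532) (nat_lit 5777365289) (nat_lit 608) (nat_lit 3748483177) (nat_lit 175) (nat_lit 5) (nat_lit 182) (nat_lit 5) (nat_lit 183) (nat_lit 5) (nat_lit 341) (nat_lit 311) (nat_lit 248))) (XT.nd (nat_lit 78) (nat_lit 608) (nat_lit 0) (XT.lf (nat_lit 0) (nat_lit 5917962723) (nat_lit 532) (nat_lit 2223611394) (nat_lit 608) (nat_lit 1784270961) (nat_lit 175) (nat_lit 5) (nat_lit 182) (nat_lit 5) (nat_lit 183) (nat_lit 5) (nat_lit 342) (nat_lit 311) (nat_lit 247)) (XT.lf (nat_lit 0) (nat_lit 229578133) (nat_lit 608) (nat_lit 8423760424) (nat_lit 76) (nat_lit 1424551429) (nat_lit 167) (nat_lit 5) (nat_lit 175) (nat_lit 5) (nat_lit 168) (nat_lit 5) (nat_lit 343) (nat_lit 311) (nat_lit 246))))))) (XT.nd (nat_lit 1014) (nat_lit 2736) (nat_lit 0) (XT.nd (nat_lit 468) (nat_lit 1672) (nat_lit 0) (XT.nd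 (nat_lit 234) (nat_lit 988) (nat_lit 0) (XT.nd (nat_lit 78) (nat_lit 456) (nat_lit 0) (XT.lf (nat_lit 0) (nat_lit 2296859708) (nat_lit 608) (nat_lit 2743223143) (nat_lit 76) (nat_lit 5193040326) (nat_lit 167) (nat_lit 5) (nat_lit 175) (nat_lit 5) (nat_lit 168) (nat_lit 5) (nat_lit 344) (nat_lit 311) (nat_lit 245)) (XT.nd (nat_lit 78) (nat_lit 0) (nat_lit 0) (XT.lf (nat_lit 0) (nat_lit 3131935066) (nat_lit 456) (nat_lit 1291311969) (nat_lit 532) (nat_lit 5969876319) (nat_lit 161) (nat_lit 5) (nat_lit 167) (nat_lit 5) (nat_lit 168) (nat_lit 5) (nat_lit 345) (nat_lit 311) (nat_lit 244)) (XT.lf (nat_lit 0) (nat_lit 6633656905) (nat_lit 532) (nat_lit 1379992088) (nat_lit 76) (nat_lit 2543689569) (nat_lit 161) (nat_lit 5) (nat_lit 168) (nat_lit 5) (nat_lit 162) (nat_lit 5) (nat_lit 346) (nat_lit 311) (nat_lit 243)))) (XT.nd (nat_lit 78) (nat_lit 532) (nat_lit 0) (XT.lf (nat_lit 0) (nat_lit 4720559102) (nat_lit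 456) (nat_lit 4216479046) (nat_lit 532) (nat_lit 1788663620) (nat_lit 155) (nat_lit 5) (nat_lit 161) (nat_lit 5) (nat_lit 162) (nat_lit 5) (nat_lit 347) (nat_lit 311) (nat_lit 242)) (XT.nd (nat_lit 78) (nat_lit 0) (nat_lit 0) (XT.lf (nat_lit 0) (nat_lit 94788153) (nat_lit 456) (nat_lit 291334030) (nat_lit 532) (nat_lit 10513383653) (nat_lit 148) (nat_lit 5) (nat_lit 154) (nat_lit 5) (nat_lit 155) (nat_lit 5) (nat_lit 348) (nat_lit 311) (nat_lit 241)) (XT.lf (nat_lit 0) (nat_lit 2656752412) (nat_lit 532) (nat_lit 4667483097) (nat_lit 76) (nat_lit 3751780199) (nat_lit 148) (nat_lit 5) (nat_lit 155) (nat_lit 5) (nat_lit 149) (nat_lit 5) (nat_lit 349) (nat_lit 311) (nat_lit 240))))) (XT.nd (nat_lit 234) (nat_lit 836) (nat_lit 0) (XT.nd (nat_lit 78) (nat_lit 380) (nat_lit 0) (XT.lf (nat_lit 0) (nat_lit 1646984346) (nat_lit 456) (nat_lit 3337377511) (nat_lit 532) (nat_lit 6273812147) (nat_lit 142) (nat_lit 5)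 (nat_lit 148) (nat_lit 5) (nat_lit 149) (nat_lit 5) (nat_lit 350) (nat_lit 311) (nat_lit 239)) (XT.nd (nat_lit 78) (nat_lit 380) (nat_lit 0) (XT.lf (nat_lit 0) (nat_lit 7407399170) (nat_lit 532) (nat_lit 3242298267) (nat_lit 76) (nat_lit 795350008) (nat_lit 142) (nat_lit 5) (nat_lit 149) (nat_lit 5) (nat_lit 143) (nat_lit 5) (nat_lit 351) (nat_lit 311) (nat_lit 238)) (XT.lf (nat_lit 0) (nat_lit 3313725609) (nat_lit 380) (nat_lit 6625762556) (nat_lit 456) (nat_lit 1696965958) (nat_lit 137) (nat_lit 5) (nat_lit 142) (nat_lit 5) (nat_lit 143) (nat_lit 5) (nat_lit 352) (nat_lit 311) (nat_lit 237)))) (XT.nd (nat_lit 156) (nat_lit 380) (nat_lit 0) (XT.nd (nat_lit 78) (nat_lit 380) (nat_lit 0) (XT.lf (nat_lit 0) (nat_lit 704732126) (nat_lit 456) (nat_lit 1742699486) (nat_lit 76) (nat_lit 9385840526) (nat_lit 136) (nat_lit 5) (nat_lit 142) (nat_lit 5) (nat_lit 137) (nat_lit 5) (nat_lit 353) (nat_lit 311) (nat_lit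 236)) (XT.lf (nat_lit 0) (nat_lit 3184139675) (nat_lit 456) (nat_lit 6970930335) (nat_lit 76) (nat_lit 1879243994) (nat_lit 131) (nat_lit 5) (nat_lit 137) (nat_lit 5) (nat_lit 132) (nat_lit 5) (nat_lit 354) (nat_lit 311) (nat_lit 235))) (XT.nd (nat_lit 78) (nat_lit 380) (nat_lit 0) (XT.lf (nat_lit 0) (nat_lit 5752820558) (nat_lit 456) (nat_lit 191051794) (nat_lit 76) (nat_lit 6297083899) (nat_lit 131) (nat_lit 5) (nat_lit 137) (nat_lit 5) (nat_lit 132) (nat_lit 5) (nat_lit 355) (nat_lit 311) (nat_lit 234)) (XT.lf (nat_lit 0) (nat_lit 6892587037) (nat_lit 380) (nat_lit 1545907320) (nat_lit 456) (nat_lit 4014120832) (nat_lit 126) (nat_lit 5) (nat_lit 131) (nat_lit 5) (nat_lit 132) (nat_lit 5) (nat_lit 356) (nat_lit 311) (nat_lit 233)))))) (XT.nd (nat_lit 546) (nat_lit 1216) (nat_lit 0) (XT.nd (nat_lit 234) (nat_lit 760) (nat_lit 0) (XT.nd (nat_lit 78) (nat_lit 380) (nat_lit 0) (XT.lf (nat_lit 0) (nat_lit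 1487900714) (nat_lit 380) (nat_lit 9735815006) (nat_lit 456) (nat_lit 1446353802) (nat_lit 121) (nat_lit 5) (nat_lit 126) (nat_lit 5) (nat_lit 127) (nat_lit 5) (nat_lit 357) (nat_lit 311) (nat_lit 232)) (XT.nd (nat_lit 78) (nat_lit 304) (nat_lit 0) (XT.lf (nat_lit 0) (nat_lit 1221270422) (nat_lit 456) (nat_lit 4093207646) (nat_lit 76) (nat_lit 7577851597) (nat_lit 120) (nat_lit 5) (nat_lit 126) (nat_lit 5) (nat_lit 121) (nat_lit 5) (nat_lit 358) (nat_lit 311) (nat_lit 231)) (XT.lf (nat_lit 0) (nat_lit 3223306166) (nat_lit 304) (nat_lit 722485586) (nat_lit 380) (nat_lit 9174871769) (nat_lit 116) (nat_lit 5) (nat_lit 120) (nat_lit 5) (nat_lit 121) (nat_lit 5) (nat_lit 359) (nat_lit 311) (nat_lit 230)))) (XT.nd (nat_lit 156) (nat_lit 380) (nat_lit 0) (XT.nd (nat_lit 78) (nat_lit 380) (nat_lit 0) (XT.lf (nat_lit 0) (nat_lit 6807590790) (nat_lit 380) (nat_lit 2584347126) (nat_lit 76) (nat_lit 3962256498) (nat_lit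 116) (nat_lit 5) (nat_lit 121) (nat_lit 5) (nat_lit 117) (nat_lit 5) (nat_lit 360) (nat_lit 311) (nat_lit 229)) (XT.lf (nat_lit 0) (nat_lit 5005535006) (nat_lit 380) (nat_lit 4780977557) (nat_lit 456) (nat_lit 3807293503) (nat_lit 111) (nat_lit 5) (nat_lit 116) (nat_lit 5) (nat_lit 117) (nat_lit 5) (nat_lit 361) (nat_lit 311) (nat_lit 228))) (XT.nd (nat_lit 78) (nat_lit 380) (nat_lit 0) (XT.lf (nat_lit 0) (nat_lit 12843373021) (nat_lit 380) (nat_lit 13909542) (nat_lit 456) (nat_lit 983261605) (nat_lit 111) (nat_lit 5) (nat_lit 116) (nat_lit 5) (nat_lit 117) (nat_lit 5) (nat_lit 362) (nat_lit 311) (nat_lit 227)) (XT.lf (nat_lit 0) (nat_lit 1978950462) (nat_lit 380) (nat_lit 7234992678) (nat_lit 76) (nat_lit 4877466830) (nat_lit 106) (nat_lit 5) (nat_lit 111) (nat_lit 5) (nat_lit 107) (nat_lit 5) (nat_lit 363) (nat_lit 311) (nat_lit 226))))) (XT.nd (nat_lit 234) (nat_lit 608) (nat_lit 0) (XT.nd (nat_lit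 78) (nat_lit 304) (nat_lit 0) (XT.lf (nat_lit 0) (nat_lit 585478040) (nat_lit 304) (nat_lit 4417836034) (nat_lit 380) (nat_lit 9346415639) (nat_lit 102) (nat_lit 5) (nat_lit 106) (nat_lit 5) (nat_lit 107) (nat_lit 5) (nat_lit 364) (nat_lit 311) (nat_lit 225)) (XT.nd (nat_lit 78) (nat_lit 304) (nat_lit 0) (XT.lf (nat_lit 0) (nat_lit 8174587310) (nat_lit 380) (nat_lit 5863280646) (nat_lit 76) (nat_lit 576256853) (nat_lit 102) (nat_lit 5) (nat_lit 107) (nat_lit 5) (nat_lit 103) (nat_lit 5) (nat_lit 365) (nat_lit 311) (nat_lit 224)) (XT.lf (nat_lit 0) (nat_lit 2242897126) (nat_lit 304) (nat_lit 9241438442) (nat_lit 380) (nat_lit 3400826884) (nat_lit 98) (nat_lit 5) (nat_lit 102) (nat_lit 5) (nat_lit 103) (nat_lit 5) (nat_lit 366) (nat_lit 311) (nat_lit 223)))) (XT.nd (nat_lit 156) (nat_lit 228) (nat_lit 0) (XT.nd (nat_lit 78) (nat_lit 380) (nat_lit 0) (XT.lf (nat_lit 0) (nat_lit 10680915542) (nat_lit 304)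 (nat_lit 4250040737) (nat_lit 380) (nat_lit 232258031) (nat_lit 98) (nat_lit 5) (nat_lit 102) (nat_lit 5) (nat_lit 103) (nat_lit 5) (nat_lit 367) (nat_lit 311) (nat_lit 222)) (XT.lf (nat_lit 0) (nat_lit 2997999536) (nat_lit 380) (nat_lit 11518234057) (nat_lit 76) (nat_lit 931736295) (nat_lit 93) (nat_lit 5) (nat_lit 98) (nat_lit 5) (nat_lit 94) (nat_lit 5) (nat_lit 368) (nat_lit 311) (nat_lit 221))) (XT.nd (nat_lit 78) (nat_lit 228) (nat_lit 0) (XT.lf (nat_lit 0) (nat_lit 6387298956) (nat_lit 380) (nat_lit 3130010456) (nat_lit 76) (nat_lit 6221895261) (nat_lit 93) (nat_lit 5) (nat_lit 98) (nat_lit 5) (nat_lit 94) (nat_lit 5) (nat_lit 369) (nat_lit 311) (nat_lit 220)) (XT.lf (nat_lit 0) (nat_lit 5588536546) (nat_lit 228) (nat_lit 4323084641) (nat_lit 304) (nat_lit 6126564314) (nat_lit 90) (nat_lit 5) (nat_lit 93) (nat_lit 5) (nat_lit 94) (nat_lit 5) (nat_lit 370) (nat_lit 311) (nat_lit 219))))))))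
noncomputable def xc135 : XT := (XT.nd (nat_lit 2028) (nat_lit 1672) (nat_lit 0) (XT.nd (nat_lit 1014) (nat_lit 1216) (nat_lit 0) (XT.nd (nat_lit 468) (nat_lit 1064) (nat_lit 0) (XT.nd (nat_lit 234) (nat_lit 456) (nat_lit 0) (XT.nd (nat_lit 78) (nat_lit 380) (nat_lit 0) (XT.lf (nat_lit 0) (nat_lit 13563296411) (nat_lit 304) (nat_lit 1753163227) (nat_lit 76) (nat_lit 1029036462) (nat_lit 90) (nat_lit 5) (nat_lit 94) (nat_lit 5) (nat_lit 91) (nat_lit 5) (nat_lit 371) (nat_lit 311) (nat_lit 218)) (XT.nd (nat_lit 78) (nat_lit 0) (nat_lit 0) (XT.lf (nat_lit 0) (nat_lit 743622344) (nat_lit 380) (nat_lit 9392883634) (nat_lit 76) (nat_lit 6522515889) (nat_lit 85) (nat_lit 5) (nat_lit 90) (nat_lit 5) (nat_lit 86) (nat_lit 5) (nat_lit 372) (nat_lit 311) (nat_lit 217)) (XT.lf (nat_lit 0) (nat_lit 4317685608) (nat_lit 380) (nat_lit 446994228) (nat_lit 76) (nat_lit 12216503871) (nat_lit 85) (nat_lit 5) (nat_lit 90)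 (nat_lit 5) (nat_lit 86) (nat_lit 5) (nat_lit 373) (nat_lit 311) (nat_lit 216)))) (XT.nd (nat_lit 78) (nat_lit 228) (nat_lit 0) (XT.lf (nat_lit 0) (nat_lit 8073853026) (nat_lit 304) (nat_lit 8406910422) (nat_lit 76) (nat_lit 830008522) (nat_lit 82) (nat_lit 5) (nat_lit 86) (nat_lit 5) (nat_lit 83) (nat_lit 5) (nat_lit 374) (nat_lit 311) (nat_lit 215)) (XT.nd (nat_lit 78) (nat_lit 0) (nat_lit 0) (XT.lf (nat_lit 0) (nat_lit 834226298) (nat_lit 228) (nat_lit 11149486331) (nat_lit 304) (nat_lit 5665312839) (nat_lit 79) (nat_lit 5) (nat_lit 82) (nat_lit 5) (nat_lit 83) (nat_lit 5) (nat_lit 375) (nat_lit 311) (nat_lit 214)) (XT.lf (nat_lit 0) (nat_lit 10496089896) (nat_lit 228) (nat_lit 5581194752) (nat_lit 304) (nat_lit 1918156999) (nat_lit 79) (nat_lit 5) (nat_lit 82) (nat_lit 5) (nat_lit 83) (nat_lit 5) (nat_lit 376) (nat_lit 311) (nat_lit 213))))) (XT.nd (nat_lit 234) (nat_lit 532) (nat_lit 0) (XT.nd (nat_lit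 78) (nat_lit 228) (nat_lit 0) (XT.lf (nat_lit 0) (nat_lit 1907256692) (nat_lit 304) (nat_lit 16264107344) (nat_lit 76) (nat_lit 180221738) (nat_lit 75) (nat_lit 5) (nat_lit 79) (nat_lit 5) (nat_lit 76) (nat_lit 5) (nat_lit 377) (nat_lit 311) (nat_lit 212)) (XT.nd (nat_lit 78) (nat_lit 228) (nat_lit 0) (XT.lf (nat_lit 0) (nat_lit 5922653837) (nat_lit 304) (nat_lit 6704035228) (nat_lit 76) (nat_lit 6087749119) (nat_lit 75) (nat_lit 5) (nat_lit 79) (nat_lit 5) (nat_lit 76) (nat_lit 5) (nat_lit 378) (nat_lit 311) (nat_lit 211)) (XT.lf (nat_lit 0) (nat_lit 3177132521) (nat_lit 228) (nat_lit 6894480342) (nat_lit 304) (nat_lit 9016177034) (nat_lit 72) (nat_lit 5) (nat_lit 75) (nat_lit 5) (nat_lit 76) (nat_lit 5) (nat_lit 379) (nat_lit 311) (nat_lit 210)))) (XT.nd (nat_lit 156) (nat_lit 304) (nat_lit 0) (XT.nd (nat_lit 78) (nat_lit 228) (nat_lit 0) (XT.lf (nat_lit 0) (nat_lit 13464729230) (nat_lit 228) (nat_lit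 930812748) (nat_lit 304) (nat_lit 5075291677) (nat_lit 72) (nat_lit 5) (nat_lit 75) (nat_lit 5) (nat_lit 76) (nat_lit 5) (nat_lit 380) (nat_lit 311) (nat_lit 209)) (XT.lf (nat_lit 0) (nat_lit 4200406598) (nat_lit 228) (nat_lit 14722466962) (nat_lit 304) (nat_lit 940290972) (nat_lit 69) (nat_lit 5) (nat_lit 72) (nat_lit 5) (nat_lit 73) (nat_lit 5) (nat_lit 381) (nat_lit 311) (nat_lit 208))) (XT.nd (nat_lit 78) (nat_lit 228) (nat_lit 0) (XT.lf (nat_lit 0) (nat_lit 3307735820) (nat_lit 304) (nat_lit 5498050727) (nat_lit 76) (nat_lit 11458915599) (nat_lit 68) (nat_lit 5) (nat_lit 72) (nat_lit 5) (nat_lit 69) (nat_lit 5) (nat_lit 382) (nat_lit 311) (nat_lit 207)) (XT.lf (nat_lit 0) (nat_lit 5034194328) (nat_lit 228) (nat_lit 2662259871) (nat_lit 304) (nat_lit 12980593708) (nat_lit 65) (nat_lit 5) (nat_lit 68) (nat_lit 5) (nat_lit 69) (nat_lit 5) (nat_lit 383) (nat_lit 311) (nat_lit 206)))))) (XT.nd (nat_lit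 468) (nat_lit 608) (nat_lit 0) (XT.nd (nat_lit 234) (nat_lit 380) (nat_lit 0) (XT.nd (nat_lit 78) (nat_lit 228) (nat_lit 0) (XT.lf (nat_lit 0) (nat_lit 12292022879) (nat_lit 304) (nat_lit 5167232794) (nat_lit 76) (nat_lit 3640258342) (nat_lit 65) (nat_lit 5) (nat_lit 69) (nat_lit 5) (nat_lit 66) (nat_lit 5) (nat_lit 384) (nat_lit 311) (nat_lit 205)) (XT.nd (nat_lit 78) (nat_lit 76) (nat_lit 0) (XT.lf (nat_lit 0) (nat_lit 5681474016) (nat_lit 152) (nat_lit 11409310609) (nat_lit 228) (nat_lit 4441915173) (nat_lit 63) (nat_lit 5) (nat_lit 65) (nat_lit 5) (nat_lit 66) (nat_lit 5) (nat_lit 385) (nat_lit 311) (nat_lit 204)) (XT.lf (nat_lit 0) (nat_lit 90663987) (nat_lit 228) (nat_lit 5042545545) (nat_lit 76) (nat_lit 16844547970) (nat_lit 62) (nat_lit 5) (nat_lit 65) (nat_lit 5) (nat_lit 63) (nat_lit 5) (nat_lit 386) (nat_lit 311) (nat_lit 203)))) (XT.nd (nat_lit 78) (nat_lit 152) (nat_lit 0) (XT.lf (nat_lit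 0) (nat_lit 4727557610) (nat_lit 304) (nat_lit 16306006422) (nat_lit 76) (nat_lit 1399560075) (nat_lit 59) (nat_lit 5) (nat_lit 63) (nat_lit 5) (nat_lit 60) (nat_lit 5) (nat_lit 387) (nat_lit 311) (nat_lit 202)) (XT.nd (nat_lit 78) (nat_lit 152) (nat_lit 0) (XT.lf (nat_lit 0) (nat_lit 9590774984) (nat_lit 304) (nat_lit 5241830652) (nat_lit 76) (nat_lit 8066934429) (nat_lit 59) (nat_lit 5) (nat_lit 63) (nat_lit 5) (nat_lit 60) (nat_lit 5) (nat_lit 388) (nat_lit 311) (nat_lit 201)) (XT.lf (nat_lit 0) (nat_lit 6251882104) (nat_lit 152) (nat_lit 8393510588) (nat_lit 228) (nat_lit 8733195415) (nat_lit 57) (nat_lit 5) (nat_lit 59) (nat_lit 5) (nat_lit 60) (nat_lit 5) (nat_lit 389) (nat_lit 311) (nat_lit 200))))) (XT.nd (nat_lit 234) (nat_lit 380) (nat_lit 0) (XT.nd (nat_lit 78) (nat_lit 228) (nat_lit 0) (XT.lf (nat_lit 0) (nat_lit 18173712677) (nat_lit 152) (nat_lit 1716468301) (nat_lit 228) (nat_lit 3980675233)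 (nat_lit 57) (nat_lit 5) (nat_lit 59) (nat_lit 5) (nat_lit 60) (nat_lit 5) (nat_lit 390) (nat_lit 311) (nat_lit 199)) (XT.nd (nat_lit 78) (nat_lit 0) (nat_lit 0) (XT.lf (nat_lit 0) (nat_lit 991887258) (nat_lit 228) (nat_lit 18263419168) (nat_lit 76) (nat_lit 5119467242) (nat_lit 54) (nat_lit 5) (nat_lit 57) (nat_lit 5) (nat_lit 55) (nat_lit 5) (nat_lit 391) (nat_lit 311) (nat_lit 198)) (XT.lf (nat_lit 0) (nat_lit 6094683424) (nat_lit 228) (nat_lit 6581992297) (nat_lit 76) (nat_lit 12214122811) (nat_lit 54) (nat_lit 5) (nat_lit 57) (nat_lit 5) (nat_lit 55) (nat_lit 5) (nat_lit 392) (nat_lit 311) (nat_lit 197)))) (XT.nd (nat_lit 156) (nat_lit 228) (nat_lit 0) (XT.nd (nat_lit 78) (nat_lit 0) (nat_lit 0) (XT.lf (nat_lit 0) (nat_lit 5534748297) (nat_lit 152) (nat_lit 5855397312) (nat_lit 228) (nat_lit 14030975139) (nat_lit 52) (nat_lit 5) (nat_lit 54) (nat_lit 5) (nat_lit 55) (nat_lit 5) (nat_lit 393) (nat_lit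 311) (nat_lit 196)) (XT.lf (nat_lit 0) (nat_lit 16909311065) (nat_lit 228) (nat_lit 7850574523) (nat_lit 76) (nat_lit 1205525815) (nat_lit 52) (nat_lit 5) (nat_lit 55) (nat_lit 5) (nat_lit 53) (nat_lit 5) (nat_lit 394) (nat_lit 311) (nat_lit 195))) (XT.nd (nat_lit 78) (nat_lit 76) (nat_lit 0) (XT.lf (nat_lit 0) (nat_lit 4554655678) (nat_lit 152) (nat_lit 18128010780) (nat_lit 228) (nat_lit 3840709707) (nat_lit 50) (nat_lit 5) (nat_lit 52) (nat_lit 5) (nat_lit 53) (nat_lit 5) (nat_lit 395) (nat_lit 311) (nat_lit 194)) (XT.lf (nat_lit 0) (nat_lit 1568219521) (nat_lit 228) (nat_lit 9640821507) (nat_lit 76) (nat_lit 15886592262) (nat_lit 49) (nat_lit 5) (nat_lit 52) (nat_lit 5) (nat_lit 50) (nat_lit 5) (nat_lit 396) (nat_lit 311) (nat_lit 193))))))) (XT.nd (nat_lit 1014) (nat_lit 684) (nat_lit 0) (XT.nd (nat_lit 468) (nat_lit 456) (nat_lit 0) (XT.nd (nat_lit 234) (nat_lit 228) (nat_lit 0) (XT.nd (nat_lit 78)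 (nat_lit 152) (nat_lit 0) (XT.lf (nat_lit 0) (nat_lit 3056602274) (nat_lit 152) (nat_lit 4022278202) (nat_lit 228) (nat_lit 20604540610) (nat_lit 47) (nat_lit 5) (nat_lit 49) (nat_lit 5) (nat_lit 50) (nat_lit 5) (nat_lit 397) (nat_lit 311) (nat_lit 192)) (XT.nd (nat_lit 78) (nat_lit 152) (nat_lit 0) (XT.lf (nat_lit 0) (nat_lit 12873020254) (nat_lit 228) (nat_lit 12008809044) (nat_lit 76) (nat_lit 3403471859) (nat_lit 47) (nat_lit 5) (nat_lit 50) (nat_lit 5) (nat_lit 48) (nat_lit 5) (nat_lit 398) (nat_lit 311) (nat_lit 191)) (XT.lf (nat_lit 0) (nat_lit 944989716) (nat_lit 152) (nat_lit 17932621538) (nat_lit 228) (nat_lit 10026530875) (nat_lit 45) (nat_lit 5) (nat_lit 47) (nat_lit 5) (nat_lit 48) (nat_lit 5) (nat_lit 399) (nat_lit 311) (nat_lit 190)))) (XT.nd (nat_lit 78) (nat_lit 228) (nat_lit 0) (XT.lf (nat_lit 0) (nat_lit 14512413816) (nat_lit 152) (nat_lit 10659064599) (nat_lit 228) (nat_lit 4366798978)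 (nat_lit 45) (nat_lit 5) (nat_lit 47) (nat_lit 5) (nat_lit 48) (nat_lit 5) (nat_lit 400) (nat_lit 311) (nat_lit 189)) (XT.nd (nat_lit 78) (nat_lit 152) (nat_lit 0) (XT.lf (nat_lit 0) (nat_lit 1422288432) (nat_lit 228) (nat_lit 1739417614) (nat_lit 76) (nat_lit 27029668681) (nat_lit 44) (nat_lit 5) (nat_lit 47) (nat_lit 5) (nat_lit 45) (nat_lit 5) (nat_lit 401) (nat_lit 311) (nat_lit 188)) (XT.lf (nat_lit 0) (nat_lit 7447562925) (nat_lit 228) (nat_lit 18786270319) (nat_lit 76) (nat_lit 4624429125) (nat_lit 42) (nat_lit 5) (nat_lit 45) (nat_lit 5) (nat_lit 43) (nat_lit 5) (nat_lit 402) (nat_lit 311) (nat_lit 187))))) (XT.nd (nat_lit 234) (nat_lit 304) (nat_lit 0) (XT.nd (nat_lit 78) (nat_lit 152) (nat_lit 0) (XT.lf (nat_lit 0) (nat_lit 13691153137) (nat_lit 228) (nat_lit 5262947638) (nat_lit 76) (nat_lit 12589931998) (nat_lit 42) (nat_lit 5) (nat_lit 45) (nat_lit 5) (nat_lit 43) (nat_lit 5) (nat_lit 403)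 (nat_lit 311) (nat_lit 186)) (XT.nd (nat_lit 78) (nat_lit 0) (nat_lit 0) (XT.lf (nat_lit 0) (nat_lit 8818504668) (nat_lit 152) (nat_lit 11377164616) (nat_lit 228) (nat_lit 12052501230) (nat_lit 40) (nat_lit 5) (nat_lit 42) (nat_lit 5) (nat_lit 43) (nat_lit 5) (nat_lit 404) (nat_lit 311) (nat_lit 185)) (XT.lf (nat_lit 0) (nat_lit 23410827621) (nat_lit 152) (nat_lit 3526625845) (nat_lit 228) (nat_lit 6034717637) (nat_lit 40) (nat_lit 5) (nat_lit 42) (nat_lit 5) (nat_lit 43) (nat_lit 5) (nat_lit 405) (nat_lit 311) (nat_lit 184)))) (XT.nd (nat_lit 156) (nat_lit 152) (nat_lit 0) (XT.nd (nat_lit 78) (nat_lit 0) (nat_lit 0) (XT.lf (nat_lit 0) (nat_lit 239928105) (nat_lit 152) (nat_lit 28965075296) (nat_lit 76) (nat_lit 4510458036) (nat_lit 38) (nat_lit 5) (nat_lit 40) (nat_lit 5) (nat_lit 39) (nat_lit 5) (nat_lit 406) (nat_lit 311) (nat_lit 183)) (XT.lf (nat_lit 0) (nat_lit 6703198019) (nat_lit 152) (nat_lit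 14905475602) (nat_lit 76) (nat_lit 12866936532) (nat_lit 38) (nat_lit 5) (nat_lit 40) (nat_lit 5) (nat_lit 39) (nat_lit 5) (nat_lit 407) (nat_lit 311) (nat_lit 182))) (XT.nd (nat_lit 78) (nat_lit 152) (nat_lit 0) (XT.lf (nat_lit 0) (nat_lit 13349931849) (nat_lit 152) (nat_lit 442694474) (nat_lit 76) (nat_lit 21466252427) (nat_lit 38) (nat_lit 5) (nat_lit 40) (nat_lit 5) (nat_lit 39) (nat_lit 5) (nat_lit 408) (nat_lit 311) (nat_lit 181)) (XT.lf (nat_lit 0) (nat_lit 14723208295) (nat_lit 152) (nat_lit 5604257608) (nat_lit 228) (nat_lit 15734239876) (nat_lit 36) (nat_lit 5) (nat_lit 38) (nat_lit 5) (nat_lit 39) (nat_lit 5) (nat_lit 409) (nat_lit 311) (nat_lit 180)))))) (XT.nd (nat_lit 546) (nat_lit 304) (nat_lit 0) (XT.nd (nat_lit 234) (nat_lit 228) (nat_lit 0) (XT.nd (nat_lit 78) (nat_lit 152) (nat_lit 0) (XT.lf (nat_lit 0) (nat_lit 27535959077) (nat_lit 228) (nat_lit 6580680457) (nat_lit 76) (nat_lit 2771331347)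 (nat_lit 36) (nat_lit 5) (nat_lit 39) (nat_lit 5) (nat_lit 37) (nat_lit 4) (nat_lit 410) (nat_lit 311) (nat_lit 179)) (XT.nd (nat_lit 78) (nat_lit 76) (nat_lit 0) (XT.lf (nat_lit 0) (nat_lit 8716894763) (nat_lit 76) (nat_lit 26373302870) (nat_lit 152) (nat_lit 2644943774) (nat_lit 35) (nat_lit 5) (nat_lit 36) (nat_lit 5) (nat_lit 37) (nat_lit 4) (nat_lit 411) (nat_lit 311) (nat_lit 178)) (XT.lf (nat_lit 0) (nat_lit 4237483808) (nat_lit 152) (nat_lit 14056689195) (nat_lit 76) (nat_lit 20310606437) (nat_lit 34) (nat_lit 5) (nat_lit 36) (nat_lit 5) (nat_lit 35) (nat_lit 5) (nat_lit 412) (nat_lit 311) (nat_lit 177)))) (XT.nd (nat_lit 156) (nat_lit 76) (nat_lit 0) (XT.nd (nat_lit 78) (nat_lit 0) (nat_lit 0) (XT.lf (nat_lit 0) (nat_lit 1336509759) (nat_lit 152) (nat_lit 9940076250) (nat_lit 228) (nat_lit 28223036106) (nat_lit 32) (nat_lit 5) (nat_lit 34) (nat_lit 5) (nat_lit 35) (nat_lit 5) (nat_lit 413) (nat_lit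 311) (nat_lit 176)) (XT.lf (nat_lit 0) (nat_lit 17462722881) (nat_lit 152) (nat_lit 1196712100) (nat_lit 228) (nat_lit 21757899821) (nat_lit 32) (nat_lit 5) (nat_lit 34) (nat_lit 5) (nat_lit 35) (nat_lit 5) (nat_lit 414) (nat_lit 311) (nat_lit 175))) (XT.nd (nat_lit 78) (nat_lit 76) (nat_lit 0) (XT.lf (nat_lit 0) (nat_lit 26329664970) (nat_lit 228) (nat_lit 7381562240) (nat_lit 76) (nat_lit 7649376683) (nat_lit 32) (nat_lit 5) (nat_lit 35) (nat_lit 5) (nat_lit 33) (nat_lit 4) (nat_lit 415) (nat_lit 311) (nat_lit 174)) (XT.lf (nat_lit 0) (nat_lit 8802440993) (nat_lit 76) (nat_lit 25515122115) (nat_lit 152) (nat_lit 8011982944) (nat_lit 31) (nat_lit 5) (nat_lit 32) (nat_lit 5) (nat_lit 33) (nat_lit 4) (nat_lit 416) (nat_lit 311) (nat_lit 173))))) (XT.nd (nat_lit 234) (nat_lit 76) (nat_lit 0) (XT.nd (nat_lit 78) (nat_lit 228) (nat_lit 0) (XT.lf (nat_lit 0) (nat_lit 25607280878) (nat_lit 76) (nat_lit 17003560277)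 (nat_lit 152) (nat_lit 714744811) (nat_lit 31) (nat_lit 5) (nat_lit 32) (nat_lit 5) (nat_lit 33) (nat_lit 4) (nat_lit 417) (nat_lit 311) (nat_lit 172)) (XT.nd (nat_lit 78) (nat_lit 152) (nat_lit 0) (XT.lf (nat_lit 0) (nat_lit 6660064063) (nat_lit 152) (nat_lit 1516326062) (nat_lit 76) (nat_lit 36173416043) (nat_lit 30) (nat_lit 5) (nat_lit 32) (nat_lit 5) (nat_lit 31) (nat_lit 5) (nat_lit 418) (nat_lit 311) (nat_lit 171)) (XT.lf (nat_lit 0) (nat_lit 14392175603) (nat_lit 228) (nat_lit 29959723655) (nat_lit 76) (nat_lit 1048130323) (nat_lit 28) (nat_lit 5) (nat_lit 31) (nat_lit 5) (nat_lit 29) (nat_lit 4) (nat_lit 419) (nat_lit 311) (nat_lit 170)))) (XT.nd (nat_lit 156) (nat_lit 0) (nat_lit 0) (XT.nd (nat_lit 78) (nat_lit 76) (nat_lit 0) (XT.lf (nat_lit 0) (nat_lit 22444326456) (nat_lit 228) (nat_lit 13640969206) (nat_lit 76) (nat_lit 10393823337) (nat_lit 28) (nat_lit 5) (nat_lit 31) (nat_lit 5) (nat_lit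 29) (nat_lit 4) (nat_lit 420) (nat_lit 311) (nat_lit 169)) (XT.lf (nat_lit 0) (nat_lit 3215251162) (nat_lit 76) (nat_lit 27545598687) (nat_lit 152) (nat_lit 16829048545) (nat_lit 27) (nat_lit 5) (nat_lit 28) (nat_lit 5) (nat_lit 29) (nat_lit 4) (nat_lit 421) (nat_lit 311) (nat_lit 168))) (XT.nd (nat_lit 78) (nat_lit 0) (nat_lit 0) (XT.lf (nat_lit 0) (nat_lit 20842092263) (nat_lit 76) (nat_lit 18614519436) (nat_lit 152) (nat_lit 9273498680) (nat_lit 27) (nat_lit 5) (nat_lit 28) (nat_lit 5) (nat_lit 29) (nat_lit 4) (nat_lit 422) (nat_lit 311) (nat_lit 167)) (XT.lf (nat_lit 0) (nat_lit 38983474156) (nat_lit 76) (nat_lit 9422001097) (nat_lit 152) (nat_lit 1499288052) (nat_lit 27) (nat_lit 5) (nat_lit 28) (nat_lit 5) (nat_lit 29) (nat_lit 4) (nat_lit 423) (nat_lit 311) (nat_lit 166))))))))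
noncomputable def xc136 : XT := (XT.nd (nat_lit 38532) (nat_lit 0) (nat_lit 12084) (XT.nd (nat_lit 1014) (nat_lit 304) (nat_lit 0) (XT.nd (nat_lit 468) (nat_lit 228) (nat_lit 0) (XT.nd (nat_lit 234) (nat_lit 76) (nat_lit 0) (XT.nd (nat_lit 78) (nat_lit 0) (nat_lit 0) (XT.lf (nat_lit 0) (nat_lit 6438671066) (nat_lit 228) (nat_lit 44505933733) (nat_lit 76) (nat_lit 166449987) (nat_lit 24) (nat_lit 5) (nat_lit 27) (nat_lit 5) (nat_lit 25) (nat_lit 4) (nat_lit 424) (nat_lit 311) (nat_lit 165)) (XT.nd (nat_lit 78) (nat_lit 0) (nat_lit 0) (XT.lf (nat_lit 0) (nat_lit 14781704347) (nat_lit 228) (nat_lit 27592281862) (nat_lit 76) (nat_lit 9973192704) (nat_lit 24) (nat_lit 5) (nat_lit 27) (nat_lit 5) (nat_lit 25) (nat_lit 4) (nat_lit 425) (nat_lit 311) (nat_lit 164)) (XT.lf (nat_lit 0) (nat_lit 23367656717) (nat_lit 228) (nat_lit 10184842911) (nat_lit 76) (nat_lit 20068109580) (nat_lit 24) (nat_lit 5) (nat_lit 27)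 (nat_lit 5) (nat_lit 25) (nat_lit 4) (nat_lit 426) (nat_lit 311) (nat_lit 163)))) (XT.nd (nat_lit 78) (nat_lit 0) (nat_lit 0) (XT.lf (nat_lit 0) (nat_lit 7885467373) (nat_lit 76) (nat_lit 24394363027) (nat_lit 152) (nat_lit 22650353978) (nat_lit 23) (nat_lit 5) (nat_lit 24) (nat_lit 5) (nat_lit 25) (nat_lit 4) (nat_lit 427) (nat_lit 311) (nat_lit 162)) (XT.nd (nat_lit 78) (nat_lit 0) (nat_lit 0) (XT.lf (nat_lit 0) (nat_lit 26693570221) (nat_lit 76) (nat_lit 14861571396) (nat_lit 152) (nat_lit 14721033227) (nat_lit 23) (nat_lit 5) (nat_lit 24) (nat_lit 5) (nat_lit 25) (nat_lit 4) (nat_lit 428) (nat_lit 311) (nat_lit 161)) (XT.lf (nat_lit 0) (nat_lit 46053201552) (nat_lit 76) (nat_lit 5048642058) (nat_lit 152) (nat_lit 6560908649) (nat_lit 23) (nat_lit 5) (nat_lit 24) (nat_lit 5) (nat_lit 25) (nat_lit 4) (nat_lit 429) (nat_lit 311) (nat_lit 160))))) (XT.nd (nat_lit 234) (nat_lit 76) (nat_lit 0) (XT.nd (nat_lit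 78) (nat_lit 0) (nat_lit 0) (XT.lf (nat_lit 0) (nat_lit 1918092369) (nat_lit 152) (nat_lit 52128725990) (nat_lit 76) (nat_lit 5040276285) (nat_lit 21) (nat_lit 5) (nat_lit 23) (nat_lit 5) (nat_lit 22) (nat_lit 4) (nat_lit 430) (nat_lit 311) (nat_lit 159)) (XT.nd (nat_lit 78) (nat_lit 0) (nat_lit 0) (XT.lf (nat_lit 0) (nat_lit 10681263601) (nat_lit 152) (nat_lit 34357950194) (nat_lit 76) (nat_lit 15508155759) (nat_lit 21) (nat_lit 5) (nat_lit 23) (nat_lit 5) (nat_lit 22) (nat_lit 4) (nat_lit 431) (nat_lit 311) (nat_lit 158)) (XT.lf (nat_lit 0) (nat_lit 19700812462) (nat_lit 152) (nat_lit 16066190087) (nat_lit 76) (nat_lit 26284646732) (nat_lit 21) (nat_lit 5) (nat_lit 23) (nat_lit 5) (nat_lit 22) (nat_lit 4) (nat_lit 432) (nat_lit 311) (nat_lit 157)))) (XT.nd (nat_lit 156) (nat_lit 0) (nat_lit 0) (XT.nd (nat_lit 78) (nat_lit 0) (nat_lit 0) (XT.lf (nat_lit 0) (nat_lit 2817517332) (nat_lit 76) (nat_lit 26194186480)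 (nat_lit 152) (nat_lit 34588731923) (nat_lit 20) (nat_lit 5) (nat_lit 21) (nat_lit 5) (nat_lit 22) (nat_lit 4) (nat_lit 433) (nat_lit 311) (nat_lit 156)) (XT.lf (nat_lit 0) (nat_lit 22585407263) (nat_lit 76) (nat_lit 16172496105) (nat_lit 152) (nat_lit 26433103957) (nat_lit 20) (nat_lit 5) (nat_lit 21) (nat_lit 5) (nat_lit 22) (nat_lit 4) (nat_lit 434) (nat_lit 311) (nat_lit 155))) (XT.nd (nat_lit 78) (nat_lit 0) (nat_lit 0) (XT.lf (nat_lit 0) (nat_lit 42935003931) (nat_lit 76) (nat_lit 5855411625) (nat_lit 152) (nat_lit 18039063662) (nat_lit 20) (nat_lit 5) (nat_lit 21) (nat_lit 5) (nat_lit 22) (nat_lit 4) (nat_lit 435) (nat_lit 311) (nat_lit 154)) (XT.lf (nat_lit 0) (nat_lit 59163821146) (nat_lit 152) (nat_lit 4679009048) (nat_lit 0) (nat_lit 4673078463) (nat_lit 20) (nat_lit 5) (nat_lit 22) (nat_lit 4) (nat_lit 20) (nat_lit 4) (nat_lit 436) (nat_lit 311) (nat_lit 153)))))) (XT.nd (nat_lit 468) (nat_lit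 76) (nat_lit 0) (XT.nd (nat_lit 234) (nat_lit 76) (nat_lit 0) (XT.nd (nat_lit 78) (nat_lit 76) (nat_lit 0) (XT.lf (nat_lit 0) (nat_lit 15343550147) (nat_lit 76) (nat_lit 54704572372) (nat_lit 76) (nat_lit 198818552) (nat_lit 19) (nat_lit 4) (nat_lit 20) (nat_lit 5) (nat_lit 20) (nat_lit 4) (nat_lit 437) (nat_lit 311) (nat_lit 152)) (XT.nd (nat_lit 78) (nat_lit 0) (nat_lit 0) (XT.lf (nat_lit 0) (nat_lit 9090908698) (nat_lit 152) (nat_lit 36065783081) (nat_lit 76) (nat_lit 26869293506) (nat_lit 18) (nat_lit 5) (nat_lit 20) (nat_lit 5) (nat_lit 19) (nat_lit 4) (nat_lit 438) (nat_lit 311) (nat_lit 151)) (XT.lf (nat_lit 0) (nat_lit 18649735180) (nat_lit 152) (nat_lit 16675514759) (nat_lit 76) (nat_lit 38533260552) (nat_lit 18) (nat_lit 5) (nat_lit 20) (nat_lit 5) (nat_lit 19) (nat_lit 4) (nat_lit 439) (nat_lit 311) (nat_lit 150)))) (XT.nd (nat_lit 78) (nat_lit 0) (nat_lit 0) (XT.lf (nat_lit 0) (nat_lit 3351671341)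 (nat_lit 76) (nat_lit 25170439906) (nat_lit 152) (nat_lit 47223097463) (nat_lit 17) (nat_lit 5) (nat_lit 18) (nat_lit 5) (nat_lit 19) (nat_lit 4) (nat_lit 440) (nat_lit 311) (nat_lit 149)) (XT.nd (nat_lit 78) (nat_lit 0) (nat_lit 0) (XT.lf (nat_lit 0) (nat_lit 24311411211) (nat_lit 76) (nat_lit 14542265095) (nat_lit 152) (nat_lit 38829941816) (nat_lit 17) (nat_lit 5) (nat_lit 18) (nat_lit 5) (nat_lit 19) (nat_lit 4) (nat_lit 441) (nat_lit 311) (nat_lit 148)) (XT.lf (nat_lit 0) (nat_lit 45890143747) (nat_lit 76) (nat_lit 3599828753) (nat_lit 152) (nat_lit 30190364546) (nat_lit 17) (nat_lit 5) (nat_lit 18) (nat_lit 5) (nat_lit 19) (nat_lit 4) (nat_lit 442) (nat_lit 311) (nat_lit 147))))) (XT.nd (nat_lit 36738) (nat_lit 0) (nat_lit 21128) (XT.nd (nat_lit 78) (nat_lit 76) (nat_lit 0) (XT.lf (nat_lit 0) (nat_lit 60513988101) (nat_lit 152) (nat_lit 13704080458) (nat_lit 0) (nat_lit 7516830799) (nat_lit 17) (nat_lit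 5) (nat_lit 19) (nat_lit 4) (nat_lit 17) (nat_lit 4) (nat_lit 443) (nat_lit 311) (nat_lit 146)) (XT.nd (nat_lit 36582) (nat_lit 0) (nat_lit 21888) (XT.lf (nat_lit 0) (nat_lit 7077742480) (nat_lit 76) (nat_lit 64889701207) (nat_lit 76) (nat_lit 11880693975) (nat_lit 16) (nat_lit 4) (nat_lit 17) (nat_lit 5) (nat_lit 17) (nat_lit 4) (nat_lit 444) (nat_lit 311) (nat_lit 145)) (XT.lf (nat_lit 0) (nat_lit 959057902) (nat_lit 0) (nat_lit 959057902) (nat_lit 684) (nat_lit 1612656355) (nat_lit 304) (nat_lit 5) (nat_lit 304) (nat_lit 3) (nat_lit 313) (nat_lit 3) (nat_lit 312) (nat_lit 312) (nat_lit 276)))) (XT.nd (nat_lit 156) (nat_lit 0) (nat_lit 0) (XT.nd (nat_lit 78) (nat_lit 760) (nat_lit 0) (XT.lf (nat_lit 0) (nat_lit 5333641389) (nat_lit 0) (nat_lit 259683655) (nat_lit 684) (nat_lit 1521426393) (nat_lit 304) (nat_lit 5) (nat_lit 304) (nat_lit 3) (nat_lit 313) (nat_lit 3) (nat_lit 313) (nat_lit 312) (nat_lit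 275)) (XT.lf (nat_lit 0) (nat_lit 192515196) (nat_lit 760) (nat_lit 5507486265) (nat_lit 836) (nat_lit 1470646583) (nat_lit 294) (nat_lit 5) (nat_lit 304) (nat_lit 5) (nat_lit 305) (nat_lit 5) (nat_lit 314) (nat_lit 312) (nat_lit 274))) (XT.nd (nat_lit 78) (nat_lit 0) (nat_lit 0) (XT.lf (nat_lit 0) (nat_lit 1882903103) (nat_lit 760) (nat_lit 2034773888) (nat_lit 836) (nat_lit 3311488056) (nat_lit 294) (nat_lit 5) (nat_lit 304) (nat_lit 5) (nat_lit 305) (nat_lit 5) (nat_lit 315) (nat_lit 312) (nat_lit 273)) (XT.lf (nat_lit 76) (nat_lit 1536617565) (nat_lit 0) (nat_lit 2038925224) (nat_lit 836) (nat_lit 3715410339) (nat_lit 295) (nat_lit 5) (nat_lit 294) (nat_lit 5) (nat_lit 305) (nat_lit 5) (nat_lit 316) (nat_lit 312) (nat_lit 272))))))) (XT.nd (nat_lit 1014) (nat_lit 6612) (nat_lit 0) (XT.nd (nat_lit 468) (nat_lit 1672) (nat_lit 0) (XT.nd (nat_lit 234) (nat_lit 0) (nat_lit 0) (XT.nd (nat_lit 78) (nat_lit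 760) (nat_lit 0) (XT.lf (nat_lit 76) (nat_lit 5221722310) (nat_lit 0) (nat_lit 56059712) (nat_lit 836) (nat_lit 2078108192) (nat_lit 295) (nat_lit 5) (nat_lit 294) (nat_lit 5) (nat_lit 305) (nat_lit 5) (nat_lit 317) (nat_lit 312) (nat_lit 271)) (XT.nd (nat_lit 78) (nat_lit 836) (nat_lit 0) (XT.lf (nat_lit 76) (nat_lit 1569926172) (nat_lit 0) (nat_lit 5435665930) (nat_lit 836) (nat_lit 418006425) (nat_lit 296) (nat_lit 5) (nat_lit 295) (nat_lit 5) (nat_lit 306) (nat_lit 5) (nat_lit 318) (nat_lit 312) (nat_lit 270)) (XT.lf (nat_lit 0) (nat_lit 1230088259) (nat_lit 836) (nat_lit 2114079562) (nat_lit 912) (nat_lit 4149950612) (nat_lit 284) (nat_lit 5) (nat_lit 295) (nat_lit 5) (nat_lit 296) (nat_lit 5) (nat_lit 319) (nat_lit 312) (nat_lit 269)))) (XT.nd (nat_lit 78) (nat_lit 0) (nat_lit 76) (XT.lf (nat_lit 76) (nat_lit 1731334796) (nat_lit 0) (nat_lit 1147328356) (nat_lit 912) (nat_lit 4689236742) (nat_lit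 285) (nat_lit 5) (nat_lit 284) (nat_lit 5) (nat_lit 296) (nat_lit 5) (nat_lit 320) (nat_lit 312) (nat_lit 268)) (XT.nd (nat_lit 78) (nat_lit 0) (nat_lit 0) (XT.lf (nat_lit 0) (nat_lit 4553290750) (nat_lit 836) (nat_lit 1956321227) (nat_lit 912) (nat_lit 1135036693) (nat_lit 285) (nat_lit 5) (nat_lit 296) (nat_lit 5) (nat_lit 297) (nat_lit 5) (nat_lit 321) (nat_lit 312) (nat_lit 267)) (XT.lf (nat_lit 76) (nat_lit 2032137625) (nat_lit 0) (nat_lit 4222849277) (nat_lit 912) (nat_lit 1469458340) (nat_lit 286) (nat_lit 5) (nat_lit 285) (nat_lit 5) (nat_lit 297) (nat_lit 5) (nat_lit 322) (nat_lit 312) (nat_lit 266))))) (XT.nd (nat_lit 234) (nat_lit 836) (nat_lit 0) (XT.nd (nat_lit 78) (nat_lit 0) (nat_lit 76) (XT.lf (nat_lit 0) (nat_lit 163717008) (nat_lit 912) (nat_lit 1665058343) (nat_lit 988) (nat_lit 5978853423) (nat_lit 273) (nat_lit 5) (nat_lit 285) (nat_lit 5) (nat_lit 286) (nat_lit 5) (nat_lit 323) (nat_lit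 312) (nat_lit 265)) (XT.nd (nat_lit 78) (nat_lit 0) (nat_lit 0) (XT.lf (nat_lit 0) (nat_lit 1795002411) (nat_lit 912) (nat_lit 5419700846) (nat_lit 988) (nat_lit 678854561) (nat_lit 274) (nat_lit 5) (nat_lit 286) (nat_lit 5) (nat_lit 287) (nat_lit 5) (nat_lit 324) (nat_lit 312) (nat_lit 264)) (XT.lf (nat_lit 0) (nat_lit 3459770463) (nat_lit 912) (nat_lit 1266270375) (nat_lit 988) (nat_lit 3256532200) (nat_lit 274) (nat_lit 5) (nat_lit 286) (nat_lit 5) (nat_lit 287) (nat_lit 5) (nat_lit 325) (nat_lit 312) (nat_lit 263)))) (XT.nd (nat_lit 156) (nat_lit 912) (nat_lit 0) (XT.nd (nat_lit 78) (nat_lit 0) (nat_lit 76) (XT.lf (nat_lit 76) (nat_lit 3034562024) (nat_lit 0) (nat_lit 2120018823) (nat_lit 988) (nat_lit 2920318212) (nat_lit 275) (nat_lit 5) (nat_lit 274) (nat_lit 5) (nat_lit 287) (nat_lit 5) (nat_lit 326) (nat_lit 312) (nat_lit 262)) (XT.lf (nat_lit 0) (nat_lit 6870698792) (nat_lit 912) (nat_lit 722440017)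 (nat_lit 76) (nat_lit 577784220) (nat_lit 275) (nat_lit 5) (nat_lit 287) (nat_lit 5) (nat_lit 276) (nat_lit 5) (nat_lit 327) (nat_lit 312) (nat_lit 261))) (XT.nd (nat_lit 78) (nat_lit 0) (nat_lit 0) (XT.lf (nat_lit 0) (nat_lit 371812433) (nat_lit 988) (nat_lit 4532765621) (nat_lit 76) (nat_lit 3364867149) (nat_lit 262) (nat_lit 5) (nat_lit 275) (nat_lit 5) (nat_lit 263) (nat_lit 5) (nat_lit 328) (nat_lit 312) (nat_lit 260)) (XT.lf (nat_lit 0) (nat_lit 2029282006) (nat_lit 988) (nat_lit 76421468) (nat_lit 76) (nat_lit 6266029707) (nat_lit 262) (nat_lit 5) (nat_lit 275) (nat_lit 5) (nat_lit 263) (nat_lit 5) (nat_lit 329) (nat_lit 312) (nat_lit 259)))))) (XT.nd (nat_lit 546) (nat_lit 2356) (nat_lit 0) (XT.nd (nat_lit 234) (nat_lit 2204) (nat_lit 0) (XT.nd (nat_lit 78) (nat_lit 1064) (nat_lit 0) (XT.lf (nat_lit 0) (nat_lit 3743736565) (nat_lit 1064) (nat_lit 3918482733) (nat_lit 76) (nat_lit 814690046) (nat_lit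 249) (nat_lit 5) (nat_lit 263) (nat_lit 5) (nat_lit 250) (nat_lit 5) (nat_lit 330) (nat_lit 312) (nat_lit 258)) (XT.nd (nat_lit 78) (nat_lit 0) (nat_lit 0) (XT.lf (nat_lit 0) (nat_lit 704418038) (nat_lit 1064) (nat_lit 4790014985) (nat_lit 1140) (nat_lit 3091299804) (nat_lit 235) (nat_lit 5) (nat_lit 249) (nat_lit 5) (nat_lit 250) (nat_lit 5) (nat_lit 331) (nat_lit 312) (nat_lit 257)) (XT.lf (nat_lit 0) (nat_lit 5509554451) (nat_lit 1064) (nat_lit 1784990108) (nat_lit 1140) (nat_lit 1403404859) (nat_lit 235) (nat_lit 5) (nat_lit 249) (nat_lit 5) (nat_lit 250) (nat_lit 5) (nat_lit 332) (nat_lit 312) (nat_lit 256)))) (XT.nd (nat_lit 156) (nat_lit 988) (nat_lit 0) (XT.nd (nat_lit 78) (nat_lit 0) (nat_lit 0) (XT.lf (nat_lit 0) (nat_lit 315285207) (nat_lit 1216) (nat_lit 7189614065) (nat_lit 76) (nat_lit 1308968863) (nat_lit 219) (nat_lit 5) (nat_lit 235) (nat_lit 5) (nat_lit 220) (nat_lit 5) (nat_lit 333)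 (nat_lit 312) (nat_lit 255)) (XT.lf (nat_lit 0) (nat_lit 2066559432) (nat_lit 1216) (nat_lit 2355065763) (nat_lit 76) (nat_lit 4510977688) (nat_lit 219) (nat_lit 5) (nat_lit 235) (nat_lit 5) (nat_lit 220) (nat_lit 5) (nat_lit 334) (nat_lit 312) (nat_lit 254))) (XT.nd (nat_lit 78) (nat_lit 0) (nat_lit 0) (XT.lf (nat_lit 0) (nat_lit 2639598168) (nat_lit 988) (nat_lit 1216382118) (nat_lit 1064) (nat_lit 5199382433) (nat_lit 206) (nat_lit 5) (nat_lit 219) (nat_lit 5) (nat_lit 220) (nat_lit 5) (nat_lit 335) (nat_lit 312) (nat_lit 253)) (XT.lf (nat_lit 0) (nat_lit 5704217379) (nat_lit 1064) (nat_lit 1406289717) (nat_lit 76) (nat_lit 2071174634) (nat_lit 206) (nat_lit 5) (nat_lit 220) (nat_lit 5) (nat_lit 207) (nat_lit 5) (nat_lit 336) (nat_lit 312) (nat_lit 252))))) (XT.nd (nat_lit 234) (nat_lit 1140) (nat_lit 0) (XT.nd (nat_lit 78) (nat_lit 608) (nat_lit 0) (XT.lf (nat_lit 0) (nat_lit 3778954920) (nat_lit 608)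 (nat_lit 3839523574) (nat_lit 684) (nat_lit 1693024014) (nat_lit 198) (nat_lit 5) (nat_lit 206) (nat_lit 5) (nat_lit 207) (nat_lit 5) (nat_lit 337) (nat_lit 312) (nat_lit 251)) (XT.nd (nat_lit 78) (nat_lit 532) (nat_lit 0) (XT.lf (nat_lit 0) (nat_lit 119031597) (nat_lit 684) (nat_lit 334371183) (nat_lit 76) (nat_lit 8992493821) (nat_lit 197) (nat_lit 5) (nat_lit 206) (nat_lit 5) (nat_lit 198) (nat_lit 5) (nat_lit 338) (nat_lit 312) (nat_lit 250)) (XT.lf (nat_lit 0) (nat_lit 1993603600) (nat_lit 608) (nat_lit 4547012559) (nat_lit 76) (nat_lit 3041964992) (nat_lit 190) (nat_lit 5) (nat_lit 198) (nat_lit 5) (nat_lit 191) (nat_lit 5) (nat_lit 339) (nat_lit 312) (nat_lit 249)))) (XT.nd (nat_lit 156) (nat_lit 532) (nat_lit 0) (XT.nd (nat_lit 78) (nat_lit 0) (nat_lit 0) (XT.lf (nat_lit 0) (nat_lit 825468184) (nat_lit 608) (nat_lit 3079161811) (nat_lit 684) (nat_lit 5819355940) (nat_lit 182) (nat_lit 5) (nat_lit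 190) (nat_lit 5) (nat_lit 191) (nat_lit 5) (nat_lit 340) (nat_lit 312) (nat_lit 248)) (XT.lf (nat_lit 0) (nat_lit 5889095832) (nat_lit 684) (nat_lit 3458070659) (nat_lit 76) (nat_lit 522008560) (nat_lit 182) (nat_lit 5) (nat_lit 191) (nat_lit 5) (nat_lit 183) (nat_lit 5) (nat_lit 341) (nat_lit 312) (nat_lit 247))) (XT.nd (nat_lit 78) (nat_lit 0) (nat_lit 0) (XT.lf (nat_lit 0) (nat_lit 2120540464) (nat_lit 532) (nat_lit 5829508471) (nat_lit 608) (nat_lit 2068187014) (nat_lit 175) (nat_lit 5) (nat_lit 182) (nat_lit 5) (nat_lit 183) (nat_lit 5) (nat_lit 342) (nat_lit 312) (nat_lit 246)) (XT.lf (nat_lit 0) (nat_lit 7901807340) (nat_lit 532) (nat_lit 2172671409) (nat_lit 608) (nat_lit 97264470) (nat_lit 175) (nat_lit 5) (nat_lit 182) (nat_lit 5) (nat_lit 183) (nat_lit 5) (nat_lit 343) (nat_lit 312) (nat_lit 245))))))))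
noncomputable def xc137 : XT := (XT.nd (nat_lit 2028) (nat_lit 3268) (nat_lit 0) (XT.nd (nat_lit 1014) (nat_lit 2508) (nat_lit 0) (XT.nd (nat_lit 468) (nat_lit 1672) (nat_lit 0) (XT.nd (nat_lit 234) (nat_lit 988) (nat_lit 0) (XT.nd (nat_lit 78) (nat_lit 456) (nat_lit 0) (XT.lf (nat_lit 0) (nat_lit 1912290020) (nat_lit 608) (nat_lit 6803127795) (nat_lit 76) (nat_lit 1613386534) (nat_lit 167) (nat_lit 5) (nat_lit 175) (nat_lit 5) (nat_lit 168) (nat_lit 5) (nat_lit 344) (nat_lit 312) (nat_lit 244)) (XT.nd (nat_lit 78) (nat_lit 456) (nat_lit 0) (XT.lf (nat_lit 0) (nat_lit 3992779618) (nat_lit 608) (nat_lit 1006737854) (nat_lit 76) (nat_lit 5490674800) (nat_lit 167) (nat_lit 5) (nat_lit 175) (nat_lit 5) (nat_lit 168) (nat_lit 5) (nat_lit 345) (nat_lit 312) (nat_lit 243)) (XT.lf (nat_lit 0) (nat_lit 5026843905) (nat_lit 456) (nat_lit 1126037741) (nat_lit 532) (nat_lit 4503045569) (nat_lit 161) (nat_lit 5) (nat_lit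 167) (nat_lit 5) (nat_lit 168) (nat_lit 5) (nat_lit 346) (nat_lit 312) (nat_lit 242)))) (XT.nd (nat_lit 78) (nat_lit 532) (nat_lit 0) (XT.lf (nat_lit 0) (nat_lit 380181740) (nat_lit 456) (nat_lit 8008467860) (nat_lit 532) (nat_lit 2437679411) (nat_lit 155) (nat_lit 5) (nat_lit 161) (nat_lit 5) (nat_lit 162) (nat_lit 5) (nat_lit 347) (nat_lit 312) (nat_lit 241)) (XT.nd (nat_lit 78) (nat_lit 532) (nat_lit 0) (XT.lf (nat_lit 0) (nat_lit 6638740999) (nat_lit 456) (nat_lit 4090600724) (nat_lit 532) (nat_lit 271385697) (nat_lit 155) (nat_lit 5) (nat_lit 161) (nat_lit 5) (nat_lit 162) (nat_lit 5) (nat_lit 348) (nat_lit 312) (nat_lit 240)) (XT.lf (nat_lit 0) (nat_lit 1888113961) (nat_lit 456) (nat_lit 22223656) (nat_lit 532) (nat_lit 9269813342) (nat_lit 148) (nat_lit 5) (nat_lit 154) (nat_lit 5) (nat_lit 155) (nat_lit 5) (nat_lit 349) (nat_lit 312) (nat_lit 239))))) (XT.nd (nat_lit 234) (nat_lit 1216) (nat_lit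 0) (XT.nd (nat_lit 78) (nat_lit 456) (nat_lit 0) (XT.lf (nat_lit 0) (nat_lit 4207622593) (nat_lit 532) (nat_lit 3026778127) (nat_lit 76) (nat_lit 4128827326) (nat_lit 148) (nat_lit 5) (nat_lit 155) (nat_lit 5) (nat_lit 149) (nat_lit 5) (nat_lit 350) (nat_lit 312) (nat_lit 238)) (XT.nd (nat_lit 78) (nat_lit 0) (nat_lit 0) (XT.lf (nat_lit 0) (nat_lit 3459665207) (nat_lit 456) (nat_lit 3119495215) (nat_lit 532) (nat_lit 4972494843) (nat_lit 142) (nat_lit 5) (nat_lit 148) (nat_lit 5) (nat_lit 149) (nat_lit 5) (nat_lit 351) (nat_lit 312) (nat_lit 237)) (XT.lf (nat_lit 0) (nat_lit 9035761490) (nat_lit 532) (nat_lit 1587646396) (nat_lit 76) (nat_lit 1121927231) (nat_lit 142) (nat_lit 5) (nat_lit 149) (nat_lit 5) (nat_lit 143) (nat_lit 5) (nat_lit 352) (nat_lit 312) (nat_lit 236)))) (XT.nd (nat_lit 156) (nat_lit 760) (nat_lit 0) (XT.nd (nat_lit 78) (nat_lit 76) (nat_lit 0) (XT.lf (nat_lit 0) (nat_lit 5147882502)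 (nat_lit 380) (nat_lit 6471650540) (nat_lit 456) (nat_lit 323704974) (nat_lit 137) (nat_lit 5) (nat_lit 142) (nat_lit 5) (nat_lit 143) (nat_lit 5) (nat_lit 353) (nat_lit 312) (nat_lit 235)) (XT.lf (nat_lit 0) (nat_lit 2081582125) (nat_lit 456) (nat_lit 82975750) (nat_lit 76) (nat_lit 9982236281) (nat_lit 136) (nat_lit 5) (nat_lit 142) (nat_lit 5) (nat_lit 137) (nat_lit 5) (nat_lit 354) (nat_lit 312) (nat_lit 234))) (XT.nd (nat_lit 78) (nat_lit 380) (nat_lit 0) (XT.lf (nat_lit 0) (nat_lit 4615667282) (nat_lit 456) (nat_lit 5447567445) (nat_lit 76) (nat_lit 2291247134) (nat_lit 131) (nat_lit 5) (nat_lit 137) (nat_lit 5) (nat_lit 132) (nat_lit 5) (nat_lit 355) (nat_lit 312) (nat_lit 233)) (XT.lf (nat_lit 0) (nat_lit 1514805873) (nat_lit 380) (nat_lit 5722251238) (nat_lit 456) (nat_lit 5331019570) (nat_lit 126) (nat_lit 5) (nat_lit 131) (nat_lit 5) (nat_lit 132) (nat_lit 5) (nat_lit 356) (nat_lit 312) (nat_lit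 232)))))) (XT.nd (nat_lit 468) (nat_lit 1368) (nat_lit 0) (XT.nd (nat_lit 234) (nat_lit 684) (nat_lit 0) (XT.nd (nat_lit 78) (nat_lit 456) (nat_lit 0) (XT.lf (nat_lit 0) (nat_lit 8764904061) (nat_lit 380) (nat_lit 1202066664) (nat_lit 456) (nat_lit 2820226671) (nat_lit 126) (nat_lit 5) (nat_lit 131) (nat_lit 5) (nat_lit 132) (nat_lit 5) (nat_lit 357) (nat_lit 312) (nat_lit 231)) (XT.nd (nat_lit 78) (nat_lit 76) (nat_lit 0) (XT.lf (nat_lit 0) (nat_lit 3216648024) (nat_lit 380) (nat_lit 9601785877) (nat_lit 456) (nat_lit 193282358) (nat_lit 121) (nat_lit 5) (nat_lit 126) (nat_lit 5) (nat_lit 127) (nat_lit 5) (nat_lit 358) (nat_lit 312) (nat_lit 230)) (XT.lf (nat_lit 0) (nat_lit 2492047771) (nat_lit 456) (nat_lit 2555709457) (nat_lit 76) (nat_lit 8193644055) (nat_lit 120) (nat_lit 5) (nat_lit 126) (nat_lit 5) (nat_lit 121) (nat_lit 5) (nat_lit 359) (nat_lit 312) (nat_lit 229)))) (XT.nd (nat_lit 78) (nat_lit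 380) (nat_lit 0) (XT.lf (nat_lit 0) (nat_lit 4964022374) (nat_lit 304) (nat_lit 314139862) (nat_lit 380) (nat_lit 8199046829) (nat_lit 116) (nat_lit 5) (nat_lit 120) (nat_lit 5) (nat_lit 121) (nat_lit 5) (nat_lit 360) (nat_lit 312) (nat_lit 228)) (XT.nd (nat_lit 78) (nat_lit 380) (nat_lit 0) (XT.lf (nat_lit 0) (nat_lit 8194469338) (nat_lit 380) (nat_lit 1033763203) (nat_lit 76) (nat_lit 4490472782) (nat_lit 116) (nat_lit 5) (nat_lit 121) (nat_lit 5) (nat_lit 117) (nat_lit 5) (nat_lit 361) (nat_lit 312) (nat_lit 227)) (XT.lf (nat_lit 0) (nat_lit 6767853488) (nat_lit 380) (nat_lit 4475956131) (nat_lit 456) (nat_lit 2722282686) (nat_lit 111) (nat_lit 5) (nat_lit 116) (nat_lit 5) (nat_lit 117) (nat_lit 5) (nat_lit 362) (nat_lit 312) (nat_lit 226))))) (XT.nd (nat_lit 234) (nat_lit 684) (nat_lit 0) (XT.nd (nat_lit 78) (nat_lit 304) (nat_lit 0) (XT.lf (nat_lit 0) (nat_lit 158300884) (nat_lit 380) (nat_lit 13642659399)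 (nat_lit 76) (nat_lit 419971856) (nat_lit 106) (nat_lit 5) (nat_lit 111) (nat_lit 5) (nat_lit 107) (nat_lit 5) (nat_lit 363) (nat_lit 312) (nat_lit 225)) (XT.nd (nat_lit 78) (nat_lit 304) (nat_lit 0) (XT.lf (nat_lit 0) (nat_lit 3166090474) (nat_lit 380) (nat_lit 5849170794) (nat_lit 76) (nat_lit 5464493313) (nat_lit 106) (nat_lit 5) (nat_lit 111) (nat_lit 5) (nat_lit 107) (nat_lit 5) (nat_lit 364) (nat_lit 312) (nat_lit 224)) (XT.lf (nat_lit 0) (nat_lit 2190199618) (nat_lit 304) (nat_lit 4073394389) (nat_lit 380) (nat_lit 8482774081) (nat_lit 102) (nat_lit 5) (nat_lit 106) (nat_lit 5) (nat_lit 107) (nat_lit 5) (nat_lit 365) (nat_lit 312) (nat_lit 223)))) (XT.nd (nat_lit 156) (nat_lit 380) (nat_lit 0) (XT.nd (nat_lit 78) (nat_lit 304) (nat_lit 0) (XT.lf (nat_lit 0) (nat_lit 9502121534) (nat_lit 380) (nat_lit 4469833667) (nat_lit 76) (nat_lit 1047592317) (nat_lit 102) (nat_lit 5) (nat_lit 107) (nat_lit 5)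 (nat_lit 103) (nat_lit 5) (nat_lit 366) (nat_lit 312) (nat_lit 222)) (XT.lf (nat_lit 0) (nat_lit 3864143699) (nat_lit 304) (nat_lit 9030432950) (nat_lit 380) (nat_lit 2404652709) (nat_lit 98) (nat_lit 5) (nat_lit 102) (nat_lit 5) (nat_lit 103) (nat_lit 5) (nat_lit 367) (nat_lit 312) (nat_lit 221))) (XT.nd (nat_lit 78) (nat_lit 304) (nat_lit 0) (XT.lf (nat_lit 0) (nat_lit 810849339) (nat_lit 380) (nat_lit 3084476820) (nat_lit 76) (nat_lit 11691004378) (nat_lit 97) (nat_lit 5) (nat_lit 102) (nat_lit 5) (nat_lit 98) (nat_lit 5) (nat_lit 368) (nat_lit 312) (nat_lit 220)) (XT.lf (nat_lit 0) (nat_lit 4122127391) (nat_lit 380) (nat_lit 10322097870) (nat_lit 76) (nat_lit 1435685291) (nat_lit 93) (nat_lit 5) (nat_lit 98) (nat_lit 5) (nat_lit 94) (nat_lit 5) (nat_lit 369) (nat_lit 312) (nat_lit 219))))))) (XT.nd (nat_lit 1014) (nat_lit 1444) (nat_lit 0) (XT.nd (nat_lit 468) (nat_lit 988) (nat_lit 0) (XT.nd (nat_lit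 234) (nat_lit 608) (nat_lit 0) (XT.nd (nat_lit 78) (nat_lit 228) (nat_lit 0) (XT.lf (nat_lit 0) (nat_lit 7582983817) (nat_lit 380) (nat_lit 1727130955) (nat_lit 76) (nat_lit 6870685038) (nat_lit 93) (nat_lit 5) (nat_lit 98) (nat_lit 5) (nat_lit 94) (nat_lit 5) (nat_lit 370) (nat_lit 312) (nat_lit 218)) (XT.nd (nat_lit 78) (nat_lit 0) (nat_lit 0) (XT.lf (nat_lit 0) (nat_lit 7238298145) (nat_lit 228) (nat_lit 3959739838) (nat_lit 304) (nat_lit 5291175383) (nat_lit 90) (nat_lit 5) (nat_lit 93) (nat_lit 5) (nat_lit 94) (nat_lit 5) (nat_lit 371) (nat_lit 312) (nat_lit 217)) (XT.lf (nat_lit 0) (nat_lit 14935056989) (nat_lit 304) (nat_lit 342181593) (nat_lit 76) (nat_lit 1529243875) (nat_lit 90) (nat_lit 5) (nat_lit 94) (nat_lit 5) (nat_lit 91) (nat_lit 5) (nat_lit 372) (nat_lit 312) (nat_lit 216)))) (XT.nd (nat_lit 78) (nat_lit 228) (nat_lit 0) (XT.lf (nat_lit 0) (nat_lit 1726445443) (nat_lit 380) (nat_lit 8205918443)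 (nat_lit 76) (nat_lit 7197205367) (nat_lit 85) (nat_lit 5) (nat_lit 90) (nat_lit 5) (nat_lit 86) (nat_lit 5) (nat_lit 373) (nat_lit 312) (nat_lit 215)) (XT.nd (nat_lit 78) (nat_lit 0) (nat_lit 0) (XT.lf (nat_lit 0) (nat_lit 984785175) (nat_lit 228) (nat_lit 4404435639) (nat_lit 304) (nat_lit 12072742306) (nat_lit 82) (nat_lit 5) (nat_lit 85) (nat_lit 5) (nat_lit 86) (nat_lit 5) (nat_lit 374) (nat_lit 312) (nat_lit 214)) (XT.lf (nat_lit 0) (nat_lit 9239757948) (nat_lit 304) (nat_lit 7223911835) (nat_lit 76) (nat_lit 1338330240) (nat_lit 82) (nat_lit 5) (nat_lit 86) (nat_lit 5) (nat_lit 83) (nat_lit 5) (nat_lit 375) (nat_lit 312) (nat_lit 213))))) (XT.nd (nat_lit 234) (nat_lit 456) (nat_lit 0) (XT.nd (nat_lit 78) (nat_lit 304) (nat_lit 0) (XT.lf (nat_lit 0) (nat_lit 2280388340) (nat_lit 228) (nat_lit 10973282248) (nat_lit 304) (nat_lit 4897139017) (nat_lit 79) (nat_lit 5) (nat_lit 82) (nat_lit 5) (nat_lit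 83) (nat_lit 5) (nat_lit 376) (nat_lit 312) (nat_lit 212)) (XT.nd (nat_lit 78) (nat_lit 304) (nat_lit 0) (XT.lf (nat_lit 0) (nat_lit 12190715558) (nat_lit 228) (nat_lit 5252816348) (nat_lit 304) (nat_lit 1064892769) (nat_lit 79) (nat_lit 5) (nat_lit 82) (nat_lit 5) (nat_lit 83) (nat_lit 5) (nat_lit 377) (nat_lit 312) (nat_lit 211)) (XT.lf (nat_lit 0) (nat_lit 2849647993) (nat_lit 304) (nat_lit 15345958898) (nat_lit 76) (nat_lit 679629690) (nat_lit 75) (nat_lit 5) (nat_lit 79) (nat_lit 5) (nat_lit 76) (nat_lit 5) (nat_lit 378) (nat_lit 312) (nat_lit 210)))) (XT.nd (nat_lit 156) (nat_lit 228) (nat_lit 0) (XT.nd (nat_lit 78) (nat_lit 228) (nat_lit 0) (XT.lf (nat_lit 0) (nat_lit 6959725297) (nat_lit 304) (nat_lit 5540038162) (nat_lit 76) (nat_lit 6749994505) (nat_lit 75) (nat_lit 5) (nat_lit 79) (nat_lit 5) (nat_lit 76) (nat_lit 5) (nat_lit 379) (nat_lit 312) (nat_lit 209)) (XT.lf (nat_lit 0) (nat_lit 4624181109)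 (nat_lit 228) (nat_lit 6596934854) (nat_lit 304) (nat_lit 8413565038) (nat_lit 72) (nat_lit 5) (nat_lit 75) (nat_lit 5) (nat_lit 76) (nat_lit 5) (nat_lit 380) (nat_lit 312) (nat_lit 208))) (XT.nd (nat_lit 78) (nat_lit 228) (nat_lit 0) (XT.lf (nat_lit 0) (nat_lit 15181034809) (nat_lit 228) (nat_lit 469047910) (nat_lit 304) (nat_lit 4379883139) (nat_lit 72) (nat_lit 5) (nat_lit 75) (nat_lit 5) (nat_lit 76) (nat_lit 5) (nat_lit 381) (nat_lit 312) (nat_lit 207)) (XT.lf (nat_lit 0) (nat_lit 5646002924) (nat_lit 228) (nat_lit 14660524670) (nat_lit 304) (nat_lit 127749369) (nat_lit 69) (nat_lit 5) (nat_lit 72) (nat_lit 5) (nat_lit 73) (nat_lit 5) (nat_lit 382) (nat_lit 312) (nat_lit 206)))))) (XT.nd (nat_lit 546) (nat_lit 684) (nat_lit 0) (XT.nd (nat_lit 234) (nat_lit 456) (nat_lit 0) (XT.nd (nat_lit 78) (nat_lit 228) (nat_lit 0) (XT.lf (nat_lit 0) (nat_lit 4207302132) (nat_lit 304) (nat_lit 4365628340) (nat_lit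 76) (nat_lit 12275416661) (nat_lit 68) (nat_lit 5) (nat_lit 72) (nat_lit 5) (nat_lit 69) (nat_lit 5) (nat_lit 383) (nat_lit 312) (nat_lit 205)) (XT.nd (nat_lit 78) (nat_lit 0) (nat_lit 0) (XT.lf (nat_lit 0) (nat_lit 6469864813) (nat_lit 228) (nat_lit 2246855335) (nat_lit 304) (nat_lit 12556680309) (nat_lit 65) (nat_lit 5) (nat_lit 68) (nat_lit 5) (nat_lit 69) (nat_lit 5) (nat_lit 384) (nat_lit 312) (nat_lit 204)) (XT.lf (nat_lit 0) (nat_lit 13431786656) (nat_lit 304) (nat_lit 4056383096) (nat_lit 76) (nat_lit 4220929962) (nat_lit 65) (nat_lit 5) (nat_lit 69) (nat_lit 5) (nat_lit 66) (nat_lit 5) (nat_lit 385) (nat_lit 312) (nat_lit 203)))) (XT.nd (nat_lit 156) (nat_lit 228) (nat_lit 0) (XT.nd (nat_lit 78) (nat_lit 76) (nat_lit 0) (XT.lf (nat_lit 0) (nat_lit 7105374461) (nat_lit 152) (nat_lit 11258729381) (nat_lit 228) (nat_lit 3791497305) (nat_lit 63) (nat_lit 5) (nat_lit 65) (nat_lit 5) (nat_lit 66) (nat_lit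 5) (nat_lit 386) (nat_lit 312) (nat_lit 202)) (XT.lf (nat_lit 0) (nat_lit 839386815) (nat_lit 228) (nat_lit 3961780452) (nat_lit 76) (nat_lit 17813296124) (nat_lit 62) (nat_lit 5) (nat_lit 65) (nat_lit 5) (nat_lit 63) (nat_lit 5) (nat_lit 387) (nat_lit 312) (nat_lit 201))) (XT.nd (nat_lit 78) (nat_lit 0) (nat_lit 0) (XT.lf (nat_lit 0) (nat_lit 5610038162) (nat_lit 304) (nat_lit 15557556508) (nat_lit 76) (nat_lit 1916063983) (nat_lit 59) (nat_lit 5) (nat_lit 63) (nat_lit 5) (nat_lit 60) (nat_lit 5) (nat_lit 388) (nat_lit 312) (nat_lit 200)) (XT.lf (nat_lit 0) (nat_lit 10597579616) (nat_lit 304) (nat_lit 4197502944) (nat_lit 76) (nat_lit 8769638682) (nat_lit 59) (nat_lit 5) (nat_lit 63) (nat_lit 5) (nat_lit 60) (nat_lit 5) (nat_lit 389) (nat_lit 312) (nat_lit 199))))) (XT.nd (nat_lit 234) (nat_lit 304) (nat_lit 0) (XT.nd (nat_lit 78) (nat_lit 228) (nat_lit 0) (XT.lf (nat_lit 0) (nat_lit 7629240973) (nat_lit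 152) (nat_lit 8165087872) (nat_lit 228) (nat_lit 8264103863) (nat_lit 57) (nat_lit 5) (nat_lit 59) (nat_lit 5) (nat_lit 60) (nat_lit 5) (nat_lit 390) (nat_lit 312) (nat_lit 198)) (XT.nd (nat_lit 78) (nat_lit 228) (nat_lit 0) (XT.lf (nat_lit 0) (nat_lit 19874072025) (nat_lit 152) (nat_lit 1301721541) (nat_lit 228) (nat_lit 3390301884) (nat_lit 57) (nat_lit 5) (nat_lit 59) (nat_lit 5) (nat_lit 60) (nat_lit 5) (nat_lit 391) (nat_lit 312) (nat_lit 197)) (XT.lf (nat_lit 0) (nat_lit 1712972685) (nat_lit 228) (nat_lit 17637289483) (nat_lit 76) (nat_lit 5734808198) (nat_lit 54) (nat_lit 5) (nat_lit 57) (nat_lit 5) (nat_lit 55) (nat_lit 5) (nat_lit 392) (nat_lit 312) (nat_lit 196)))) (XT.nd (nat_lit 156) (nat_lit 152) (nat_lit 0) (XT.nd (nat_lit 78) (nat_lit 152) (nat_lit 0) (XT.lf (nat_lit 0) (nat_lit 6948716945) (nat_lit 228) (nat_lit 5639614920) (nat_lit 76) (nat_lit 13028854203) (nat_lit 54) (nat_lit 5) (nat_lit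 57) (nat_lit 5) (nat_lit 55) (nat_lit 5) (nat_lit 393) (nat_lit 312) (nat_lit 195)) (XT.lf (nat_lit 0) (nat_lit 6829453018) (nat_lit 152) (nat_lit 5564890059) (nat_lit 228) (nat_lit 13769341715) (nat_lit 52) (nat_lit 5) (nat_lit 54) (nat_lit 5) (nat_lit 55) (nat_lit 5) (nat_lit 394) (nat_lit 312) (nat_lit 194))) (XT.nd (nat_lit 78) (nat_lit 152) (nat_lit 0) (XT.lf (nat_lit 0) (nat_lit 18064138166) (nat_lit 228) (nat_lit 6975168703) (nat_lit 76) (nat_lit 1685451330) (nat_lit 52) (nat_lit 5) (nat_lit 55) (nat_lit 5) (nat_lit 53) (nat_lit 5) (nat_lit 395) (nat_lit 312) (nat_lit 193)) (XT.lf (nat_lit 0) (nat_lit 5791327001) (nat_lit 152) (nat_lit 18211080783) (nat_lit 228) (nat_lit 3297308222) (nat_lit 50) (nat_lit 5) (nat_lit 52) (nat_lit 5) (nat_lit 53) (nat_lit 5) (nat_lit 396) (nat_lit 312) (nat_lit 192))))))))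
noncomputable def xc138 : XT := (XT.nd (nat_lit 2028) (nat_lit 760) (nat_lit 0) (XT.nd (nat_lit 1014) (nat_lit 684) (nat_lit 0) (XT.nd (nat_lit 468) (nat_lit 608) (nat_lit 0) (XT.nd (nat_lit 234) (nat_lit 228) (nat_lit 0) (XT.nd (nat_lit 78) (nat_lit 152) (nat_lit 0) (XT.lf (nat_lit 0) (nat_lit 2242227926) (nat_lit 228) (nat_lit 8849403421) (nat_lit 76) (nat_lit 16797889022) (nat_lit 49) (nat_lit 5) (nat_lit 52) (nat_lit 5) (nat_lit 50) (nat_lit 5) (nat_lit 397) (nat_lit 312) (nat_lit 191)) (XT.nd (nat_lit 78) (nat_lit 0) (nat_lit 0) (XT.lf (nat_lit 0) (nat_lit 4218348537) (nat_lit 152) (nat_lit 3691885107) (nat_lit 228) (nat_lit 20584952448) (nat_lit 47) (nat_lit 5) (nat_lit 49) (nat_lit 5) (nat_lit 50) (nat_lit 5) (nat_lit 398) (nat_lit 312) (nat_lit 190)) (XT.lf (nat_lit 0) (nat_lit 13864378465) (nat_lit 228) (nat_lit 11316209294) (nat_lit 76) (nat_lit 3934954274) (nat_lit 47) (nat_lit 5) (nat_lit 50)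 (nat_lit 5) (nat_lit 48) (nat_lit 5) (nat_lit 399) (nat_lit 312) (nat_lit 189)))) (XT.nd (nat_lit 78) (nat_lit 76) (nat_lit 0) (XT.lf (nat_lit 0) (nat_lit 2015881233) (nat_lit 152) (nat_lit 18025621271) (nat_lit 228) (nat_lit 9711678623) (nat_lit 45) (nat_lit 5) (nat_lit 47) (nat_lit 5) (nat_lit 48) (nat_lit 5) (nat_lit 400) (nat_lit 312) (nat_lit 188)) (XT.nd (nat_lit 78) (nat_lit 76) (nat_lit 0) (XT.lf (nat_lit 0) (nat_lit 15959962760) (nat_lit 152) (nat_lit 10546818175) (nat_lit 228) (nat_lit 3900086269) (nat_lit 45) (nat_lit 5) (nat_lit 47) (nat_lit 5) (nat_lit 48) (nat_lit 5) (nat_lit 401) (nat_lit 312) (nat_lit 187)) (XT.lf (nat_lit 0) (nat_lit 2033940651) (nat_lit 228) (nat_lit 797435655) (nat_lit 76) (nat_lit 28248525217) (nat_lit 44) (nat_lit 5) (nat_lit 47) (nat_lit 5) (nat_lit 45) (nat_lit 5) (nat_lit 402) (nat_lit 312) (nat_lit 186))))) (XT.nd (nat_lit 234) (nat_lit 304) (nat_lit 0) (XT.nd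 (nat_lit 78) (nat_lit 152) (nat_lit 0) (XT.lf (nat_lit 0) (nat_lit 8236925617) (nat_lit 228) (nat_lit 18352505462) (nat_lit 76) (nat_lit 5177460370) (nat_lit 42) (nat_lit 5) (nat_lit 45) (nat_lit 5) (nat_lit 43) (nat_lit 5) (nat_lit 403) (nat_lit 312) (nat_lit 185)) (XT.nd (nat_lit 78) (nat_lit 152) (nat_lit 0) (XT.lf (nat_lit 0) (nat_lit 14651339968) (nat_lit 228) (nat_lit 4452532215) (nat_lit 76) (nat_lit 13369861387) (nat_lit 42) (nat_lit 5) (nat_lit 45) (nat_lit 5) (nat_lit 43) (nat_lit 5) (nat_lit 404) (nat_lit 312) (nat_lit 184)) (XT.lf (nat_lit 0) (nat_lit 10041870484) (nat_lit 152) (nat_lit 11302334327) (nat_lit 228) (nat_lit 11854998216) (nat_lit 40) (nat_lit 5) (nat_lit 42) (nat_lit 5) (nat_lit 43) (nat_lit 5) (nat_lit 405) (nat_lit 312) (nat_lit 183)))) (XT.nd (nat_lit 156) (nat_lit 152) (nat_lit 0) (XT.nd (nat_lit 78) (nat_lit 152) (nat_lit 0) (XT.lf (nat_lit 0) (nat_lit 25044036602) (nat_lit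 152) (nat_lit 3228400127) (nat_lit 228) (nat_lit 5672964941) (nat_lit 40) (nat_lit 5) (nat_lit 42) (nat_lit 5) (nat_lit 43) (nat_lit 5) (nat_lit 406) (nat_lit 312) (nat_lit 182)) (XT.lf (nat_lit 0) (nat_lit 776699276) (nat_lit 152) (nat_lit 28889676097) (nat_lit 76) (nat_lit 5044541324) (nat_lit 38) (nat_lit 5) (nat_lit 40) (nat_lit 5) (nat_lit 39) (nat_lit 5) (nat_lit 407) (nat_lit 312) (nat_lit 181))) (XT.nd (nat_lit 78) (nat_lit 152) (nat_lit 0) (XT.lf (nat_lit 0) (nat_lit 7418442822) (nat_lit 152) (nat_lit 14435793794) (nat_lit 76) (nat_lit 13640099528) (nat_lit 38) (nat_lit 5) (nat_lit 40) (nat_lit 5) (nat_lit 39) (nat_lit 5) (nat_lit 408) (nat_lit 312) (nat_lit 180)) (XT.lf (nat_lit 0) (nat_lit 442807278) (nat_lit 152) (nat_lit 13811052713) (nat_lit 228) (nat_lit 22047567800) (nat_lit 36) (nat_lit 5) (nat_lit 38) (nat_lit 5) (nat_lit 39) (nat_lit 5) (nat_lit 409) (nat_lit 312) (nat_lit 179))))))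 (XT.nd (nat_lit 468) (nat_lit 380) (nat_lit 0) (XT.nd (nat_lit 234) (nat_lit 228) (nat_lit 0) (XT.nd (nat_lit 78) (nat_lit 76) (nat_lit 0) (XT.lf (nat_lit 0) (nat_lit 16046319485) (nat_lit 152) (nat_lit 5384077709) (nat_lit 228) (nat_lit 15698255456) (nat_lit 36) (nat_lit 5) (nat_lit 38) (nat_lit 5) (nat_lit 39) (nat_lit 5) (nat_lit 410) (nat_lit 312) (nat_lit 178)) (XT.nd (nat_lit 78) (nat_lit 76) (nat_lit 0) (XT.lf (nat_lit 0) (nat_lit 28844406747) (nat_lit 228) (nat_lit 5911511945) (nat_lit 76) (nat_lit 3224112401) (nat_lit 36) (nat_lit 5) (nat_lit 39) (nat_lit 5) (nat_lit 37) (nat_lit 4) (nat_lit 411) (nat_lit 312) (nat_lit 177)) (XT.lf (nat_lit 0) (nat_lit 9836494562) (nat_lit 76) (nat_lit 26782976832) (nat_lit 152) (nat_lit 2233322513) (nat_lit 35) (nat_lit 5) (nat_lit 36) (nat_lit 5) (nat_lit 37) (nat_lit 4) (nat_lit 412) (nat_lit 312) (nat_lit 176)))) (XT.nd (nat_lit 78) (nat_lit 152) (nat_lit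 0) (XT.lf (nat_lit 0) (nat_lit 4831976273) (nat_lit 152) (nat_lit 13635889679) (nat_lit 76) (nat_lit 21280937137) (nat_lit 34) (nat_lit 5) (nat_lit 36) (nat_lit 5) (nat_lit 35) (nat_lit 5) (nat_lit 413) (nat_lit 312) (nat_lit 175)) (XT.nd (nat_lit 78) (nat_lit 0) (nat_lit 0) (XT.lf (nat_lit 0) (nat_lit 2210845438) (nat_lit 152) (nat_lit 9865812672) (nat_lit 228) (nat_lit 28594003611) (nat_lit 32) (nat_lit 5) (nat_lit 34) (nat_lit 5) (nat_lit 35) (nat_lit 5) (nat_lit 414) (nat_lit 312) (nat_lit 174)) (XT.lf (nat_lit 0) (nat_lit 18796546690) (nat_lit 152) (nat_lit 870996118) (nat_lit 228) (nat_lit 21948769264) (nat_lit 32) (nat_lit 5) (nat_lit 34) (nat_lit 5) (nat_lit 35) (nat_lit 5) (nat_lit 415) (nat_lit 312) (nat_lit 173))))) (XT.nd (nat_lit 234) (nat_lit 304) (nat_lit 0) (XT.nd (nat_lit 78) (nat_lit 76) (nat_lit 0) (XT.lf (nat_lit 0) (nat_lit 27558196536) (nat_lit 228) (nat_lit 6806884049) (nat_lit 76)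 (nat_lit 8223091856) (nat_lit 32) (nat_lit 5) (nat_lit 35) (nat_lit 5) (nat_lit 33) (nat_lit 4) (nat_lit 416) (nat_lit 312) (nat_lit 172)) (XT.nd (nat_lit 78) (nat_lit 0) (nat_lit 0) (XT.lf (nat_lit 0) (nat_lit 9854834133) (nat_lit 76) (nat_lit 25925699328) (nat_lit 152) (nat_lit 7805807978) (nat_lit 31) (nat_lit 5) (nat_lit 32) (nat_lit 5) (nat_lit 33) (nat_lit 4) (nat_lit 417) (nat_lit 312) (nat_lit 171)) (XT.lf (nat_lit 0) (nat_lit 27140858441) (nat_lit 76) (nat_lit 17169126842) (nat_lit 152) (nat_lit 302658559) (nat_lit 31) (nat_lit 5) (nat_lit 32) (nat_lit 5) (nat_lit 33) (nat_lit 4) (nat_lit 418) (nat_lit 312) (nat_lit 170)))) (XT.nd (nat_lit 156) (nat_lit 76) (nat_lit 0) (XT.nd (nat_lit 78) (nat_lit 152) (nat_lit 0) (XT.lf (nat_lit 0) (nat_lit 7272554229) (nat_lit 152) (nat_lit 810455167) (nat_lit 76) (nat_lit 37584830060) (nat_lit 30) (nat_lit 5) (nat_lit 32) (nat_lit 5) (nat_lit 31) (nat_lit 5)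 (nat_lit 419) (nat_lit 312) (nat_lit 169)) (XT.lf (nat_lit 0) (nat_lit 15234992314) (nat_lit 228) (nat_lit 30105439974) (nat_lit 76) (nat_lit 1409188726) (nat_lit 28) (nat_lit 5) (nat_lit 31) (nat_lit 5) (nat_lit 29) (nat_lit 4) (nat_lit 420) (nat_lit 312) (nat_lit 168))) (XT.nd (nat_lit 78) (nat_lit 76) (nat_lit 0) (XT.lf (nat_lit 0) (nat_lit 23516735320) (nat_lit 228) (nat_lit 13319057126) (nat_lit 76) (nat_lit 11025652108) (nat_lit 28) (nat_lit 5) (nat_lit 31) (nat_lit 5) (nat_lit 29) (nat_lit 4) (nat_lit 421) (nat_lit 312) (nat_lit 167)) (XT.lf (nat_lit 0) (nat_lit 4035681803) (nat_lit 76) (nat_lit 28042408222) (nat_lit 152) (nat_lit 16927599441) (nat_lit 27) (nat_lit 5) (nat_lit 28) (nat_lit 5) (nat_lit 29) (nat_lit 4) (nat_lit 422) (nat_lit 312) (nat_lit 166))))))) (XT.nd (nat_lit 1014) (nat_lit 228) (nat_lit 0) (XT.nd (nat_lit 468) (nat_lit 228) (nat_lit 0) (XT.nd (nat_lit 234) (nat_lit 76) (nat_lit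 0) (XT.nd (nat_lit 78) (nat_lit 228) (nat_lit 0) (XT.lf (nat_lit 0) (nat_lit 22170241542) (nat_lit 76) (nat_lit 18852995383) (nat_lit 152) (nat_lit 9157217659) (nat_lit 27) (nat_lit 5) (nat_lit 28) (nat_lit 5) (nat_lit 29) (nat_lit 4) (nat_lit 423) (nat_lit 312) (nat_lit 165)) (XT.nd (nat_lit 78) (nat_lit 228) (nat_lit 0) (XT.lf (nat_lit 0) (nat_lit 40835392469) (nat_lit 76) (nat_lit 9394020707) (nat_lit 152) (nat_lit 1161270595) (nat_lit 27) (nat_lit 5) (nat_lit 28) (nat_lit 5) (nat_lit 29) (nat_lit 4) (nat_lit 424) (nat_lit 312) (nat_lit 164)) (XT.lf (nat_lit 0) (nat_lit 7005982866) (nat_lit 228) (nat_lit 45149720770) (nat_lit 76) (nat_lit 477392992) (nat_lit 24) (nat_lit 5) (nat_lit 27) (nat_lit 5) (nat_lit 25) (nat_lit 4) (nat_lit 425) (nat_lit 312) (nat_lit 163)))) (XT.nd (nat_lit 78) (nat_lit 76) (nat_lit 0) (XT.lf (nat_lit 0) (nat_lit 15588409525) (nat_lit 228) (nat_lit 27748796945) (nat_lit 76)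 (nat_lit 10569426840) (nat_lit 24) (nat_lit 5) (nat_lit 27) (nat_lit 5) (nat_lit 25) (nat_lit 4) (nat_lit 426) (nat_lit 312) (nat_lit 162)) (XT.nd (nat_lit 78) (nat_lit 76) (nat_lit 0) (XT.lf (nat_lit 0) (nat_lit 24421360251) (nat_lit 228) (nat_lit 9838685894) (nat_lit 76) (nat_lit 20958539620) (nat_lit 24) (nat_lit 5) (nat_lit 27) (nat_lit 5) (nat_lit 25) (nat_lit 4) (nat_lit 427) (nat_lit 312) (nat_lit 161)) (XT.lf (nat_lit 0) (nat_lit 8767344460) (nat_lit 76) (nat_lit 24829485775) (nat_lit 152) (nat_lit 22970741813) (nat_lit 23) (nat_lit 5) (nat_lit 24) (nat_lit 5) (nat_lit 25) (nat_lit 4) (nat_lit 428) (nat_lit 312) (nat_lit 160))))) (XT.nd (nat_lit 234) (nat_lit 76) (nat_lit 0) (XT.nd (nat_lit 78) (nat_lit 152) (nat_lit 0) (XT.lf (nat_lit 0) (nat_lit 28120894868) (nat_lit 76) (nat_lit 15019352380) (nat_lit 152) (nat_lit 14814001327) (nat_lit 23) (nat_lit 5) (nat_lit 24) (nat_lit 5) (nat_lit 25) (nat_lit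 4) (nat_lit 429) (nat_lit 312) (nat_lit 159)) (XT.nd (nat_lit 78) (nat_lit 152) (nat_lit 0) (XT.lf (nat_lit 0) (nat_lit 48043067054) (nat_lit 76) (nat_lit 4920425438) (nat_lit 152) (nat_lit 6419228242) (nat_lit 23) (nat_lit 5) (nat_lit 24) (nat_lit 5) (nat_lit 25) (nat_lit 4) (nat_lit 430) (nat_lit 312) (nat_lit 158)) (XT.lf (nat_lit 0) (nat_lit 2306422720) (nat_lit 152) (nat_lit 53076490528) (nat_lit 76) (nat_lit 5466817554) (nat_lit 21) (nat_lit 5) (nat_lit 23) (nat_lit 5) (nat_lit 22) (nat_lit 4) (nat_lit 431) (nat_lit 312) (nat_lit 157)))) (XT.nd (nat_lit 156) (nat_lit 76) (nat_lit 0) (XT.nd (nat_lit 78) (nat_lit 0) (nat_lit 0) (XT.lf (nat_lit 0) (nat_lit 11322854499) (nat_lit 152) (nat_lit 34790536037) (nat_lit 76) (nat_lit 16240714005) (nat_lit 21) (nat_lit 5) (nat_lit 23) (nat_lit 5) (nat_lit 22) (nat_lit 4) (nat_lit 432) (nat_lit 312) (nat_lit 156)) (XT.lf (nat_lit 0) (nat_lit 20603635856) (nat_lit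 152) (nat_lit 15967445049) (nat_lit 76) (nat_lit 27332713876) (nat_lit 21) (nat_lit 5) (nat_lit 23) (nat_lit 5) (nat_lit 22) (nat_lit 4) (nat_lit 433) (nat_lit 312) (nat_lit 155))) (XT.nd (nat_lit 78) (nat_lit 0) (nat_lit 0) (XT.lf (nat_lit 0) (nat_lit 3477080154) (nat_lit 76) (nat_lit 26713219878) (nat_lit 152) (nat_lit 35308852870) (nat_lit 20) (nat_lit 5) (nat_lit 21) (nat_lit 5) (nat_lit 22) (nat_lit 4) (nat_lit 434) (nat_lit 312) (nat_lit 154)) (XT.lf (nat_lit 0) (nat_lit 23821258123) (nat_lit 76) (nat_lit 16398649438) (nat_lit 152) (nat_lit 26917804832) (nat_lit 20) (nat_lit 5) (nat_lit 21) (nat_lit 5) (nat_lit 22) (nat_lit 4) (nat_lit 435) (nat_lit 312) (nat_lit 153)))))) (XT.nd (nat_lit 546) (nat_lit 0) (nat_lit 0) (XT.nd (nat_lit 234) (nat_lit 76) (nat_lit 0) (XT.nd (nat_lit 78) (nat_lit 152) (nat_lit 0) (XT.lf (nat_lit 0) (nat_lit 44765081857) (nat_lit 76) (nat_lit 5779596741) (nat_lit 152) (nat_lit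 18280922715) (nat_lit 20) (nat_lit 5) (nat_lit 21) (nat_lit 5) (nat_lit 22) (nat_lit 4) (nat_lit 436) (nat_lit 312) (nat_lit 152)) (XT.nd (nat_lit 78) (nat_lit 152) (nat_lit 0) (XT.lf (nat_lit 0) (nat_lit 61223170663) (nat_lit 152) (nat_lit 4286978603) (nat_lit 0) (nat_lit 5052659172) (nat_lit 20) (nat_lit 5) (nat_lit 22) (nat_lit 4) (nat_lit 20) (nat_lit 4) (nat_lit 437) (nat_lit 312) (nat_lit 151)) (XT.lf (nat_lit 0) (nat_lit 83257537) (nat_lit 152) (nat_lit 56015648125) (nat_lit 76) (nat_lit 16246939477) (nat_lit 18) (nat_lit 5) (nat_lit 20) (nat_lit 5) (nat_lit 19) (nat_lit 4) (nat_lit 438) (nat_lit 312) (nat_lit 150)))) (XT.nd (nat_lit 156) (nat_lit 76) (nat_lit 0) (XT.nd (nat_lit 78) (nat_lit 0) (nat_lit 0) (XT.lf (nat_lit 0) (nat_lit 9639407406) (nat_lit 152) (nat_lit 36630401208) (nat_lit 76) (nat_lit 27908642425) (nat_lit 18) (nat_lit 5) (nat_lit 20) (nat_lit 5) (nat_lit 19) (nat_lit 4) (nat_lit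 439) (nat_lit 312) (nat_lit 149)) (XT.lf (nat_lit 0) (nat_lit 19476966504) (nat_lit 152) (nat_lit 16673493438) (nat_lit 76) (nat_lit 39915734207) (nat_lit 18) (nat_lit 5) (nat_lit 20) (nat_lit 5) (nat_lit 19) (nat_lit 4) (nat_lit 440) (nat_lit 312) (nat_lit 148))) (XT.nd (nat_lit 78) (nat_lit 0) (nat_lit 0) (XT.lf (nat_lit 0) (nat_lit 3949583864) (nat_lit 76) (nat_lit 25692912710) (nat_lit 152) (nat_lit 48367088411) (nat_lit 17) (nat_lit 5) (nat_lit 18) (nat_lit 5) (nat_lit 19) (nat_lit 4) (nat_lit 441) (nat_lit 312) (nat_lit 147)) (XT.lf (nat_lit 0) (nat_lit 25523629647) (nat_lit 76) (nat_lit 14752668588) (nat_lit 152) (nat_lit 39730080870) (nat_lit 17) (nat_lit 5) (nat_lit 18) (nat_lit 5) (nat_lit 19) (nat_lit 4) (nat_lit 442) (nat_lit 312) (nat_lit 146))))) (XT.nd (nat_lit 36816) (nat_lit 0) (nat_lit 20976) (XT.nd (nat_lit 78) (nat_lit 0) (nat_lit 0) (XT.lf (nat_lit 0) (nat_lit 47735659807) (nat_lit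 76) (nat_lit 3488537733) (nat_lit 152) (nat_lit 30839027715) (nat_lit 17) (nat_lit 5) (nat_lit 18) (nat_lit 5) (nat_lit 19) (nat_lit 4) (nat_lit 443) (nat_lit 312) (nat_lit 145)) (XT.nd (nat_lit 36660) (nat_lit 0) (nat_lit 20976) (XT.lf (nat_lit 0) (nat_lit 62573712379) (nat_lit 152) (nat_lit 13654789531) (nat_lit 0) (nat_lit 7951080214) (nat_lit 17) (nat_lit 5) (nat_lit 19) (nat_lit 4) (nat_lit 17) (nat_lit 4) (nat_lit 444) (nat_lit 312) (nat_lit 144)) (XT.lf (nat_lit 0) (nat_lit 72934568) (nat_lit 836) (nat_lit 1755764998) (nat_lit 836) (nat_lit 1755764998) (nat_lit 293) (nat_lit 3) (nat_lit 304) (nat_lit 3) (nat_lit 304) (nat_lit 5) (nat_lit 313) (nat_lit 313) (nat_lit 274)))) (XT.nd (nat_lit 156) (nat_lit 0) (nat_lit 76) (XT.nd (nat_lit 78) (nat_lit 0) (nat_lit 76) (XT.lf (nat_lit 0) (nat_lit 1767505743) (nat_lit 836) (nat_lit 116307308) (nat_lit 836) (nat_lit 5342483774) (nat_lit 293) (nat_lit 3)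 (nat_lit 304) (nat_lit 3) (nat_lit 304) (nat_lit 5) (nat_lit 314) (nat_lit 313) (nat_lit 273)) (XT.lf (nat_lit 0) (nat_lit 3407485569) (nat_lit 760) (nat_lit 3871602453) (nat_lit 836) (nat_lit 7268478) (nat_lit 294) (nat_lit 5) (nat_lit 304) (nat_lit 5) (nat_lit 305) (nat_lit 5) (nat_lit 315) (nat_lit 313) (nat_lit 272))) (XT.nd (nat_lit 78) (nat_lit 0) (nat_lit 0) (XT.lf (nat_lit 0) (nat_lit 5055113417) (nat_lit 760) (nat_lit 347168173) (nat_lit 836) (nat_lit 1947242890) (nat_lit 294) (nat_lit 5) (nat_lit 304) (nat_lit 5) (nat_lit 305) (nat_lit 5) (nat_lit 316) (nat_lit 313) (nat_lit 271)) (XT.lf (nat_lit 76) (nat_lit 3314221407) (nat_lit 0) (nat_lit 3410205955) (nat_lit 836) (nat_lit 691050643) (nat_lit 295) (nat_lit 5) (nat_lit 294) (nat_lit 5) (nat_lit 305) (nat_lit 5) (nat_lit 317) (nat_lit 313) (nat_lit 270))))))))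
noncomputable def xc139 : XT := (XT.nd (nat_lit 2028) (nat_lit 6232) (nat_lit 0) (XT.nd (nat_lit 1014) (nat_lit 5624) (nat_lit 0) (XT.nd (nat_lit 468) (nat_lit 1824) (nat_lit 0) (XT.nd (nat_lit 234) (nat_lit 760) (nat_lit 0) (XT.nd (nat_lit 78) (nat_lit 0) (nat_lit 76) (XT.lf (nat_lit 0) (nat_lit 886394948) (nat_lit 836) (nat_lit 434350047) (nat_lit 912) (nat_lit 6164101301) (nat_lit 283) (nat_lit 5) (nat_lit 294) (nat_lit 5) (nat_lit 295) (nat_lit 5) (nat_lit 318) (nat_lit 313) (nat_lit 269)) (XT.nd (nat_lit 78) (nat_lit 0) (nat_lit 0) (XT.lf (nat_lit 0) (nat_lit 2481157323) (nat_lit 836) (nat_lit 4197395842) (nat_lit 912) (nat_lit 878074008) (nat_lit 284) (nat_lit 5) (nat_lit 295) (nat_lit 5) (nat_lit 296) (nat_lit 5) (nat_lit 319) (nat_lit 313) (nat_lit 268)) (XT.lf (nat_lit 0) (nat_lit 4085731126) (nat_lit 836) (nat_lit 402989321) (nat_lit 912) (nat_lit 3143033704) (nat_lit 284) (nat_lit 5) (nat_lit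 295) (nat_lit 5) (nat_lit 296) (nat_lit 5) (nat_lit 320) (nat_lit 313) (nat_lit 267)))) (XT.nd (nat_lit 78) (nat_lit 836) (nat_lit 0) (XT.lf (nat_lit 76) (nat_lit 3540390286) (nat_lit 0) (nat_lit 2178164219) (nat_lit 912) (nat_lit 1991227289) (nat_lit 285) (nat_lit 5) (nat_lit 284) (nat_lit 5) (nat_lit 296) (nat_lit 5) (nat_lit 321) (nat_lit 313) (nat_lit 266)) (XT.nd (nat_lit 78) (nat_lit 912) (nat_lit 0) (XT.lf (nat_lit 0) (nat_lit 7353921800) (nat_lit 836) (nat_lit 217099501) (nat_lit 912) (nat_lit 220570951) (nat_lit 285) (nat_lit 5) (nat_lit 296) (nat_lit 5) (nat_lit 297) (nat_lit 5) (nat_lit 322) (nat_lit 313) (nat_lit 265)) (XT.lf (nat_lit 0) (nat_lit 1147678586) (nat_lit 912) (nat_lit 4013534424) (nat_lit 988) (nat_lit 2714118643) (nat_lit 273) (nat_lit 5) (nat_lit 285) (nat_lit 5) (nat_lit 286) (nat_lit 5) (nat_lit 323) (nat_lit 313) (nat_lit 264))))) (XT.nd (nat_lit 234) (nat_lit 1824) (nat_lit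 0) (XT.nd (nat_lit 78) (nat_lit 0) (nat_lit 0) (XT.lf (nat_lit 76) (nat_lit 67861041) (nat_lit 0) (nat_lit 2656454769) (nat_lit 988) (nat_lit 5238606317) (nat_lit 274) (nat_lit 5) (nat_lit 273) (nat_lit 5) (nat_lit 286) (nat_lit 5) (nat_lit 324) (nat_lit 313) (nat_lit 263)) (XT.nd (nat_lit 78) (nat_lit 0) (nat_lit 76) (XT.lf (nat_lit 76) (nat_lit 4319214210) (nat_lit 0) (nat_lit 20357073) (nat_lit 988) (nat_lit 3713872784) (nat_lit 274) (nat_lit 5) (nat_lit 273) (nat_lit 5) (nat_lit 286) (nat_lit 5) (nat_lit 325) (nat_lit 313) (nat_lit 262)) (XT.lf (nat_lit 76) (nat_lit 499921737) (nat_lit 0) (nat_lit 5486431000) (nat_lit 988) (nat_lit 2160878941) (nat_lit 275) (nat_lit 5) (nat_lit 274) (nat_lit 5) (nat_lit 287) (nat_lit 5) (nat_lit 326) (nat_lit 313) (nat_lit 261)))) (XT.nd (nat_lit 156) (nat_lit 988) (nat_lit 0) (XT.nd (nat_lit 78) (nat_lit 912) (nat_lit 0) (XT.lf (nat_lit 76) (nat_lit 4902431434) (nat_lit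 0) (nat_lit 2771423740) (nat_lit 988) (nat_lit 570279055) (nat_lit 275) (nat_lit 5) (nat_lit 274) (nat_lit 5) (nat_lit 287) (nat_lit 5) (nat_lit 327) (nat_lit 313) (nat_lit 260)) (XT.lf (nat_lit 0) (nat_lit 1012298246) (nat_lit 988) (nat_lit 7276562527) (nat_lit 76) (nat_lit 55860558) (nat_lit 262) (nat_lit 5) (nat_lit 275) (nat_lit 5) (nat_lit 263) (nat_lit 5) (nat_lit 328) (nat_lit 313) (nat_lit 259))) (XT.nd (nat_lit 78) (nat_lit 988) (nat_lit 0) (XT.lf (nat_lit 0) (nat_lit 2647785689) (nat_lit 988) (nat_lit 2837987577) (nat_lit 76) (nat_lit 2961913917) (nat_lit 262) (nat_lit 5) (nat_lit 275) (nat_lit 5) (nat_lit 263) (nat_lit 5) (nat_lit 329) (nat_lit 313) (nat_lit 258)) (XT.lf (nat_lit 0) (nat_lit 1732531698) (nat_lit 988) (nat_lit 2573136207) (nat_lit 1064) (nat_lit 4248910485) (nat_lit 249) (nat_lit 5) (nat_lit 262) (nat_lit 5) (nat_lit 263) (nat_lit 5) (nat_lit 330) (nat_lit 313) (nat_lit 257))))))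 (XT.nd (nat_lit 468) (nat_lit 2356) (nat_lit 0) (XT.nd (nat_lit 234) (nat_lit 2128) (nat_lit 0) (XT.nd (nat_lit 78) (nat_lit 1140) (nat_lit 0) (XT.lf (nat_lit 0) (nat_lit 6004010581) (nat_lit 1064) (nat_lit 2205920048) (nat_lit 76) (nat_lit 455059212) (nat_lit 249) (nat_lit 5) (nat_lit 263) (nat_lit 5) (nat_lit 250) (nat_lit 5) (nat_lit 331) (nat_lit 313) (nat_lit 256)) (XT.nd (nat_lit 78) (nat_lit 76) (nat_lit 0) (XT.lf (nat_lit 0) (nat_lit 2537725421) (nat_lit 1064) (nat_lit 5224360247) (nat_lit 1140) (nat_lit 1016398704) (nat_lit 235) (nat_lit 5) (nat_lit 249) (nat_lit 5) (nat_lit 250) (nat_lit 5) (nat_lit 332) (nat_lit 313) (nat_lit 255)) (XT.lf (nat_lit 0) (nat_lit 646138516) (nat_lit 1140) (nat_lit 1468055993) (nat_lit 76) (nat_lit 6781570886) (nat_lit 234) (nat_lit 5) (nat_lit 249) (nat_lit 5) (nat_lit 235) (nat_lit 5) (nat_lit 333) (nat_lit 313) (nat_lit 254)))) (XT.nd (nat_lit 78) (nat_lit 988)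 (nat_lit 0) (XT.lf (nat_lit 0) (nat_lit 2342965918) (nat_lit 1216) (nat_lit 5556401892) (nat_lit 76) (nat_lit 1116781155) (nat_lit 219) (nat_lit 5) (nat_lit 235) (nat_lit 5) (nat_lit 220) (nat_lit 5) (nat_lit 334) (nat_lit 313) (nat_lit 253)) (XT.nd (nat_lit 78) (nat_lit 988) (nat_lit 0) (XT.lf (nat_lit 0) (nat_lit 4087995200) (nat_lit 1216) (nat_lit 630668615) (nat_lit 76) (nat_lit 4421591704) (nat_lit 219) (nat_lit 5) (nat_lit 235) (nat_lit 5) (nat_lit 220) (nat_lit 5) (nat_lit 335) (nat_lit 313) (nat_lit 252)) (XT.lf (nat_lit 0) (nat_lit 4496236713) (nat_lit 988) (nat_lit 1394876871) (nat_lit 1064) (nat_lit 3376829041) (nat_lit 206) (nat_lit 5) (nat_lit 219) (nat_lit 5) (nat_lit 220) (nat_lit 5) (nat_lit 336) (nat_lit 313) (nat_lit 251))))) (XT.nd (nat_lit 234) (nat_lit 1140) (nat_lit 0) (XT.nd (nat_lit 78) (nat_lit 608) (nat_lit 0) (XT.lf (nat_lit 0) (nat_lit 342572034) (nat_lit 608) (nat_lit 7398287079)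 (nat_lit 684) (nat_lit 1658853866) (nat_lit 198) (nat_lit 5) (nat_lit 206) (nat_lit 5) (nat_lit 207) (nat_lit 5) (nat_lit 337) (nat_lit 313) (nat_lit 250)) (XT.nd (nat_lit 78) (nat_lit 532) (nat_lit 0) (XT.lf (nat_lit 0) (nat_lit 134633187) (nat_lit 684) (nat_lit 3876811686) (nat_lit 76) (nat_lit 5523202698) (nat_lit 197) (nat_lit 5) (nat_lit 206) (nat_lit 5) (nat_lit 198) (nat_lit 5) (nat_lit 338) (nat_lit 313) (nat_lit 249)) (XT.lf (nat_lit 0) (nat_lit 1435997529) (nat_lit 532) (nat_lit 491107552) (nat_lit 608) (nat_lit 7746702957) (nat_lit 190) (nat_lit 5) (nat_lit 197) (nat_lit 5) (nat_lit 198) (nat_lit 5) (nat_lit 339) (nat_lit 313) (nat_lit 248)))) (XT.nd (nat_lit 156) (nat_lit 532) (nat_lit 0) (XT.nd (nat_lit 78) (nat_lit 608) (nat_lit 0) (XT.lf (nat_lit 0) (nat_lit 3808441582) (nat_lit 608) (nat_lit 2894083961) (nat_lit 76) (nat_lit 3113590511) (nat_lit 190) (nat_lit 5) (nat_lit 198) (nat_lit 5)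 (nat_lit 191) (nat_lit 5) (nat_lit 340) (nat_lit 313) (nat_lit 247)) (XT.lf (nat_lit 0) (nat_lit 2622028665) (nat_lit 608) (nat_lit 3120684320) (nat_lit 684) (nat_lit 4220110189) (nat_lit 182) (nat_lit 5) (nat_lit 190) (nat_lit 5) (nat_lit 191) (nat_lit 5) (nat_lit 341) (nat_lit 313) (nat_lit 246))) (XT.nd (nat_lit 78) (nat_lit 532) (nat_lit 0) (XT.lf (nat_lit 0) (nat_lit 7737062799) (nat_lit 684) (nat_lit 1790754575) (nat_lit 76) (nat_lit 586076615) (nat_lit 182) (nat_lit 5) (nat_lit 191) (nat_lit 5) (nat_lit 183) (nat_lit 5) (nat_lit 342) (nat_lit 313) (nat_lit 245)) (XT.lf (nat_lit 0) (nat_lit 3937851566) (nat_lit 532) (nat_lit 5890172048) (nat_lit 608) (nat_lit 440393187) (nat_lit 175) (nat_lit 5) (nat_lit 182) (nat_lit 5) (nat_lit 183) (nat_lit 5) (nat_lit 343) (nat_lit 313) (nat_lit 244))))))) (XT.nd (nat_lit 1014) (nat_lit 2888) (nat_lit 0) (XT.nd (nat_lit 468) (nat_lit 1748) (nat_lit 0) (XT.nd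 (nat_lit 234) (nat_lit 532) (nat_lit 0) (XT.nd (nat_lit 78) (nat_lit 988) (nat_lit 0) (XT.lf (nat_lit 0) (nat_lit 1510378906) (nat_lit 608) (nat_lit 601325948) (nat_lit 76) (nat_lit 8315847184) (nat_lit 174) (nat_lit 5) (nat_lit 182) (nat_lit 5) (nat_lit 175) (nat_lit 5) (nat_lit 344) (nat_lit 313) (nat_lit 243)) (XT.nd (nat_lit 78) (nat_lit 456) (nat_lit 0) (XT.lf (nat_lit 0) (nat_lit 3549284080) (nat_lit 608) (nat_lit 5241413878) (nat_lit 76) (nat_lit 1799500036) (nat_lit 167) (nat_lit 5) (nat_lit 175) (nat_lit 5) (nat_lit 168) (nat_lit 5) (nat_lit 345) (nat_lit 313) (nat_lit 242)) (XT.lf (nat_lit 0) (nat_lit 690918780) (nat_lit 456) (nat_lit 4961902614) (nat_lit 532) (nat_lit 5104818678) (nat_lit 161) (nat_lit 5) (nat_lit 167) (nat_lit 5) (nat_lit 168) (nat_lit 5) (nat_lit 346) (nat_lit 313) (nat_lit 241)))) (XT.nd (nat_lit 78) (nat_lit 532) (nat_lit 0) (XT.lf (nat_lit 0) (nat_lit 6875218066) (nat_lit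 456) (nat_lit 967516500) (nat_lit 532) (nat_lit 3086692842) (nat_lit 161) (nat_lit 5) (nat_lit 167) (nat_lit 5) (nat_lit 168) (nat_lit 5) (nat_lit 347) (nat_lit 313) (nat_lit 240)) (XT.nd (nat_lit 78) (nat_lit 76) (nat_lit 0) (XT.lf (nat_lit 0) (nat_lit 2116407701) (nat_lit 456) (nat_lit 8003699864) (nat_lit 532) (nat_lit 985627433) (nat_lit 155) (nat_lit 5) (nat_lit 161) (nat_lit 5) (nat_lit 162) (nat_lit 5) (nat_lit 348) (nat_lit 313) (nat_lit 239)) (XT.lf (nat_lit 0) (nat_lit 1177791936) (nat_lit 532) (nat_lit 2785747951) (nat_lit 76) (nat_lit 7322800921) (nat_lit 154) (nat_lit 5) (nat_lit 161) (nat_lit 5) (nat_lit 155) (nat_lit 5) (nat_lit 349) (nat_lit 313) (nat_lit 238))))) (XT.nd (nat_lit 234) (nat_lit 836) (nat_lit 0) (XT.nd (nat_lit 78) (nat_lit 456) (nat_lit 0) (XT.lf (nat_lit 0) (nat_lit 3395745778) (nat_lit 532) (nat_lit 7841714517) (nat_lit 76) (nat_lit 234346326) (nat_lit 148) (nat_lit 5)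 (nat_lit 155) (nat_lit 5) (nat_lit 149) (nat_lit 5) (nat_lit 350) (nat_lit 313) (nat_lit 237)) (XT.nd (nat_lit 78) (nat_lit 456) (nat_lit 0) (XT.lf (nat_lit 0) (nat_lit 5720567841) (nat_lit 532) (nat_lit 1439073164) (nat_lit 76) (nat_lit 4502002845) (nat_lit 148) (nat_lit 5) (nat_lit 155) (nat_lit 5) (nat_lit 149) (nat_lit 5) (nat_lit 351) (nat_lit 313) (nat_lit 236)) (XT.lf (nat_lit 0) (nat_lit 5225507506) (nat_lit 456) (nat_lit 2913331160) (nat_lit 532) (nat_lit 3717643231) (nat_lit 142) (nat_lit 5) (nat_lit 148) (nat_lit 5) (nat_lit 149) (nat_lit 5) (nat_lit 352) (nat_lit 313) (nat_lit 235)))) (XT.nd (nat_lit 156) (nat_lit 380) (nat_lit 0) (XT.nd (nat_lit 78) (nat_lit 76) (nat_lit 0) (XT.lf (nat_lit 0) (nat_lit 16397585) (nat_lit 380) (nat_lit 10616016510) (nat_lit 456) (nat_lit 1424684631) (nat_lit 137) (nat_lit 5) (nat_lit 142) (nat_lit 5) (nat_lit 143) (nat_lit 5) (nat_lit 353) (nat_lit 313) (nat_lit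 234)) (XT.lf (nat_lit 0) (nat_lit 989311419) (nat_lit 456) (nat_lit 5333870675) (nat_lit 76) (nat_lit 5938181110) (nat_lit 136) (nat_lit 5) (nat_lit 142) (nat_lit 5) (nat_lit 137) (nat_lit 5) (nat_lit 354) (nat_lit 313) (nat_lit 233))) (XT.nd (nat_lit 78) (nat_lit 0) (nat_lit 0) (XT.lf (nat_lit 0) (nat_lit 1558679065) (nat_lit 380) (nat_lit 1878218349) (nat_lit 456) (nat_lit 9034755834) (nat_lit 131) (nat_lit 5) (nat_lit 136) (nat_lit 5) (nat_lit 137) (nat_lit 5) (nat_lit 355) (nat_lit 313) (nat_lit 232)) (XT.lf (nat_lit 0) (nat_lit 6013448655) (nat_lit 456) (nat_lit 3977955728) (nat_lit 76) (nat_lit 2695195992) (nat_lit 131) (nat_lit 5) (nat_lit 137) (nat_lit 5) (nat_lit 132) (nat_lit 5) (nat_lit 356) (nat_lit 313) (nat_lit 231)))))) (XT.nd (nat_lit 546) (nat_lit 1368) (nat_lit 0) (XT.nd (nat_lit 234) (nat_lit 684) (nat_lit 0) (XT.nd (nat_lit 78) (nat_lit 456) (nat_lit 0) (XT.lf (nat_lit 0) (nat_lit 3177278606)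 (nat_lit 380) (nat_lit 5515066469) (nat_lit 456) (nat_lit 4214913472) (nat_lit 126) (nat_lit 5) (nat_lit 131) (nat_lit 5) (nat_lit 132) (nat_lit 5) (nat_lit 357) (nat_lit 313) (nat_lit 230)) (XT.nd (nat_lit 78) (nat_lit 456) (nat_lit 0) (XT.lf (nat_lit 0) (nat_lit 10597781821) (nat_lit 380) (nat_lit 870310892) (nat_lit 456) (nat_lit 1665962902) (nat_lit 126) (nat_lit 5) (nat_lit 131) (nat_lit 5) (nat_lit 132) (nat_lit 5) (nat_lit 358) (nat_lit 313) (nat_lit 229)) (XT.lf (nat_lit 0) (nat_lit 1002997388) (nat_lit 456) (nat_lit 8475070267) (nat_lit 76) (nat_lit 3887457239) (nat_lit 120) (nat_lit 5) (nat_lit 126) (nat_lit 5) (nat_lit 121) (nat_lit 5) (nat_lit 359) (nat_lit 313) (nat_lit 228)))) (XT.nd (nat_lit 156) (nat_lit 380) (nat_lit 0) (XT.nd (nat_lit 78) (nat_lit 304) (nat_lit 0) (XT.lf (nat_lit 0) (nat_lit 3730103800) (nat_lit 456) (nat_lit 1067394014) (nat_lit 76) (nat_lit 8805611271) (nat_lit 120)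 (nat_lit 5) (nat_lit 126) (nat_lit 5) (nat_lit 121) (nat_lit 5) (nat_lit 360) (nat_lit 313) (nat_lit 227)) (XT.lf (nat_lit 0) (nat_lit 6581601492) (nat_lit 380) (nat_lit 7184778466) (nat_lit 76) (nat_lit 80175655) (nat_lit 116) (nat_lit 5) (nat_lit 121) (nat_lit 5) (nat_lit 117) (nat_lit 5) (nat_lit 361) (nat_lit 313) (nat_lit 226))) (XT.nd (nat_lit 78) (nat_lit 0) (nat_lit 0) (XT.lf (nat_lit 0) (nat_lit 479229303) (nat_lit 380) (nat_lit 9080442588) (nat_lit 456) (nat_lit 4536414613) (nat_lit 111) (nat_lit 5) (nat_lit 116) (nat_lit 5) (nat_lit 117) (nat_lit 5) (nat_lit 362) (nat_lit 313) (nat_lit 225)) (XT.lf (nat_lit 0) (nat_lit 8490497379) (nat_lit 380) (nat_lit 4187526970) (nat_lit 456) (nat_lit 1673562231) (nat_lit 111) (nat_lit 5) (nat_lit 116) (nat_lit 5) (nat_lit 117) (nat_lit 5) (nat_lit 363) (nat_lit 313) (nat_lit 224))))) (XT.nd (nat_lit 234) (nat_lit 684) (nat_lit 0) (XT.nd (nat_lit 78) (nat_lit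 304) (nat_lit 0) (XT.lf (nat_lit 0) (nat_lit 1257973695) (nat_lit 380) (nat_lit 12495753098) (nat_lit 76) (nat_lit 860437495) (nat_lit 106) (nat_lit 5) (nat_lit 111) (nat_lit 5) (nat_lit 107) (nat_lit 5) (nat_lit 364) (nat_lit 313) (nat_lit 223)) (XT.nd (nat_lit 78) (nat_lit 304) (nat_lit 0) (XT.lf (nat_lit 0) (nat_lit 4324105989) (nat_lit 380) (nat_lit 4513785644) (nat_lit 76) (nat_lit 6043832465) (nat_lit 106) (nat_lit 5) (nat_lit 111) (nat_lit 5) (nat_lit 107) (nat_lit 5) (nat_lit 365) (nat_lit 313) (nat_lit 222)) (XT.lf (nat_lit 0) (nat_lit 3751953525) (nat_lit 304) (nat_lit 3745999910) (nat_lit 380) (nat_lit 7658895510) (nat_lit 102) (nat_lit 5) (nat_lit 106) (nat_lit 5) (nat_lit 107) (nat_lit 5) (nat_lit 366) (nat_lit 313) (nat_lit 221)))) (XT.nd (nat_lit 156) (nat_lit 380) (nat_lit 0) (XT.nd (nat_lit 78) (nat_lit 304) (nat_lit 0) (XT.lf (nat_lit 0) (nat_lit 10807353532) (nat_lit 380) (nat_lit 3124670124)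 (nat_lit 76) (nat_lit 1507003647) (nat_lit 102) (nat_lit 5) (nat_lit 107) (nat_lit 5) (nat_lit 103) (nat_lit 5) (nat_lit 367) (nat_lit 313) (nat_lit 220)) (XT.lf (nat_lit 0) (nat_lit 5444824028) (nat_lit 304) (nat_lit 8841124762) (nat_lit 380) (nat_lit 1441634423) (nat_lit 98) (nat_lit 5) (nat_lit 102) (nat_lit 5) (nat_lit 103) (nat_lit 5) (nat_lit 368) (nat_lit 313) (nat_lit 219))) (XT.nd (nat_lit 78) (nat_lit 304) (nat_lit 0) (XT.lf (nat_lit 0) (nat_lit 1820571139) (nat_lit 380) (nat_lit 1734847559) (nat_lit 76) (nat_lit 12468480841) (nat_lit 97) (nat_lit 5) (nat_lit 102) (nat_lit 5) (nat_lit 98) (nat_lit 5) (nat_lit 369) (nat_lit 313) (nat_lit 218)) (XT.lf (nat_lit 0) (nat_lit 5220612468) (nat_lit 380) (nat_lit 9178576520) (nat_lit 76) (nat_lit 1927428587) (nat_lit 93) (nat_lit 5) (nat_lit 98) (nat_lit 5) (nat_lit 94) (nat_lit 5) (nat_lit 370) (nat_lit 313) (nat_lit 217))))))))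
noncomputable def xc140 : XT := (XT.nd (nat_lit 2028) (nat_lit 1900) (nat_lit 0) (XT.nd (nat_lit 1014) (nat_lit 1216) (nat_lit 0) (XT.nd (nat_lit 468) (nat_lit 1064) (nat_lit 0) (XT.nd (nat_lit 234) (nat_lit 304) (nat_lit 0) (XT.nd (nat_lit 78) (nat_lit 532) (nat_lit 0) (XT.lf (nat_lit 0) (nat_lit 8756901735) (nat_lit 380) (nat_lit 368086354) (nat_lit 76) (nat_lit 7512410189) (nat_lit 93) (nat_lit 5) (nat_lit 98) (nat_lit 5) (nat_lit 94) (nat_lit 5) (nat_lit 371) (nat_lit 313) (nat_lit 216)) (XT.nd (nat_lit 78) (nat_lit 304) (nat_lit 0) (XT.lf (nat_lit 0) (nat_lit 8852473673) (nat_lit 228) (nat_lit 3613797050) (nat_lit 304) (nat_lit 4489230222) (nat_lit 90) (nat_lit 5) (nat_lit 93) (nat_lit 5) (nat_lit 94) (nat_lit 5) (nat_lit 372) (nat_lit 313) (nat_lit 215)) (XT.lf (nat_lit 0) (nat_lit 1047555796) (nat_lit 304) (nat_lit 15255097327) (nat_lit 380) (nat_lit 980029636) (nat_lit 86) (nat_lit 5) (nat_lit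 90) (nat_lit 5) (nat_lit 91) (nat_lit 5) (nat_lit 373) (nat_lit 313) (nat_lit 214)))) (XT.nd (nat_lit 78) (nat_lit 228) (nat_lit 0) (XT.lf (nat_lit 0) (nat_lit 2683615777) (nat_lit 380) (nat_lit 7067656651) (nat_lit 76) (nat_lit 7864638165) (nat_lit 85) (nat_lit 5) (nat_lit 90) (nat_lit 5) (nat_lit 86) (nat_lit 5) (nat_lit 374) (nat_lit 313) (nat_lit 213)) (XT.nd (nat_lit 78) (nat_lit 0) (nat_lit 0) (XT.lf (nat_lit 0) (nat_lit 2385195140) (nat_lit 228) (nat_lit 4057886673) (nat_lit 304) (nat_lit 11515601440) (nat_lit 82) (nat_lit 5) (nat_lit 85) (nat_lit 5) (nat_lit 86) (nat_lit 5) (nat_lit 375) (nat_lit 313) (nat_lit 212)) (XT.lf (nat_lit 0) (nat_lit 10387616472) (nat_lit 304) (nat_lit 6087809980) (nat_lit 76) (nat_lit 1834151239) (nat_lit 82) (nat_lit 5) (nat_lit 86) (nat_lit 5) (nat_lit 83) (nat_lit 5) (nat_lit 376) (nat_lit 313) (nat_lit 211))))) (XT.nd (nat_lit 234) (nat_lit 532) (nat_lit 0) (XT.nd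 (nat_lit 78) (nat_lit 304) (nat_lit 0) (XT.lf (nat_lit 0) (nat_lit 3688356267) (nat_lit 228) (nat_lit 10821107661) (nat_lit 304) (nat_lit 4159772664) (nat_lit 79) (nat_lit 5) (nat_lit 82) (nat_lit 5) (nat_lit 83) (nat_lit 5) (nat_lit 377) (nat_lit 313) (nat_lit 210)) (XT.nd (nat_lit 78) (nat_lit 304) (nat_lit 0) (XT.lf (nat_lit 0) (nat_lit 13856977099) (nat_lit 228) (nat_lit 4943048359) (nat_lit 304) (nat_lit 238314772) (nat_lit 79) (nat_lit 5) (nat_lit 82) (nat_lit 5) (nat_lit 83) (nat_lit 5) (nat_lit 378) (nat_lit 313) (nat_lit 209)) (XT.lf (nat_lit 0) (nat_lit 3769498448) (nat_lit 304) (nat_lit 14480980263) (nat_lit 76) (nat_lit 1165662185) (nat_lit 75) (nat_lit 5) (nat_lit 79) (nat_lit 5) (nat_lit 76) (nat_lit 5) (nat_lit 379) (nat_lit 313) (nat_lit 208)))) (XT.nd (nat_lit 156) (nat_lit 304) (nat_lit 0) (XT.nd (nat_lit 78) (nat_lit 228) (nat_lit 0) (XT.lf (nat_lit 0) (nat_lit 7978576294) (nat_lit 304)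 (nat_lit 4419484548) (nat_lit 76) (nat_lit 7404575510) (nat_lit 75) (nat_lit 5) (nat_lit 79) (nat_lit 5) (nat_lit 76) (nat_lit 5) (nat_lit 380) (nat_lit 313) (nat_lit 207)) (XT.lf (nat_lit 0) (nat_lit 6037046058) (nat_lit 228) (nat_lit 6319416472) (nat_lit 304) (nat_lit 7842994038) (nat_lit 72) (nat_lit 5) (nat_lit 75) (nat_lit 5) (nat_lit 76) (nat_lit 5) (nat_lit 381) (nat_lit 313) (nat_lit 206))) (XT.nd (nat_lit 78) (nat_lit 304) (nat_lit 0) (XT.lf (nat_lit 0) (nat_lit 16873494509) (nat_lit 228) (nat_lit 21540290) (nat_lit 304) (nat_lit 3712271914) (nat_lit 72) (nat_lit 5) (nat_lit 75) (nat_lit 5) (nat_lit 76) (nat_lit 5) (nat_lit 382) (nat_lit 313) (nat_lit 205)) (XT.lf (nat_lit 0) (nat_lit 648009316) (nat_lit 304) (nat_lit 13971080805) (nat_lit 76) (nat_lit 6404664673) (nat_lit 68) (nat_lit 5) (nat_lit 72) (nat_lit 5) (nat_lit 69) (nat_lit 5) (nat_lit 383) (nat_lit 313) (nat_lit 204)))))) (XT.nd (nat_lit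 468) (nat_lit 532) (nat_lit 0) (XT.nd (nat_lit 234) (nat_lit 456) (nat_lit 0) (XT.nd (nat_lit 78) (nat_lit 228) (nat_lit 0) (XT.lf (nat_lit 0) (nat_lit 5087912975) (nat_lit 304) (nat_lit 3273707277) (nat_lit 76) (nat_lit 13089275914) (nat_lit 68) (nat_lit 5) (nat_lit 72) (nat_lit 5) (nat_lit 69) (nat_lit 5) (nat_lit 384) (nat_lit 313) (nat_lit 203)) (XT.nd (nat_lit 78) (nat_lit 0) (nat_lit 0) (XT.lf (nat_lit 0) (nat_lit 7874861555) (nat_lit 228) (nat_lit 1847419320) (nat_lit 304) (nat_lit 12166738047) (nat_lit 65) (nat_lit 5) (nat_lit 68) (nat_lit 5) (nat_lit 69) (nat_lit 5) (nat_lit 385) (nat_lit 313) (nat_lit 202)) (XT.lf (nat_lit 0) (nat_lit 14561484614) (nat_lit 304) (nat_lit 2984873833) (nat_lit 76) (nat_lit 4791957776) (nat_lit 65) (nat_lit 5) (nat_lit 69) (nat_lit 5) (nat_lit 66) (nat_lit 5) (nat_lit 386) (nat_lit 313) (nat_lit 201)))) (XT.nd (nat_lit 78) (nat_lit 304) (nat_lit 0) (XT.lf (nat_lit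 0) (nat_lit 8500038404) (nat_lit 152) (nat_lit 11131922927) (nat_lit 228) (nat_lit 3166553070) (nat_lit 63) (nat_lit 5) (nat_lit 65) (nat_lit 5) (nat_lit 66) (nat_lit 5) (nat_lit 387) (nat_lit 313) (nat_lit 200)) (XT.nd (nat_lit 78) (nat_lit 228) (nat_lit 0) (XT.lf (nat_lit 0) (nat_lit 1567747709) (nat_lit 228) (nat_lit 2919316625) (nat_lit 76) (nat_lit 18784504995) (nat_lit 62) (nat_lit 5) (nat_lit 65) (nat_lit 5) (nat_lit 63) (nat_lit 5) (nat_lit 388) (nat_lit 313) (nat_lit 199)) (XT.lf (nat_lit 0) (nat_lit 6476476572) (nat_lit 304) (nat_lit 14857698128) (nat_lit 76) (nat_lit 2420823786) (nat_lit 59) (nat_lit 5) (nat_lit 63) (nat_lit 5) (nat_lit 60) (nat_lit 5) (nat_lit 389) (nat_lit 313) (nat_lit 198))))) (XT.nd (nat_lit 234) (nat_lit 380) (nat_lit 0) (XT.nd (nat_lit 78) (nat_lit 152) (nat_lit 0) (XT.lf (nat_lit 0) (nat_lit 11593310174) (nat_lit 304) (nat_lit 3190821162) (nat_lit 76) (nat_lit 9466978214)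 (nat_lit 59) (nat_lit 5) (nat_lit 63) (nat_lit 5) (nat_lit 60) (nat_lit 5) (nat_lit 390) (nat_lit 313) (nat_lit 197)) (XT.nd (nat_lit 78) (nat_lit 0) (nat_lit 0) (XT.lf (nat_lit 0) (nat_lit 8979621083) (nat_lit 152) (nat_lit 7957379529) (nat_lit 228) (nat_lit 7822906973) (nat_lit 57) (nat_lit 5) (nat_lit 59) (nat_lit 5) (nat_lit 60) (nat_lit 5) (nat_lit 391) (nat_lit 313) (nat_lit 196)) (XT.lf (nat_lit 0) (nat_lit 21559131933) (nat_lit 152) (nat_lit 901296508) (nat_lit 228) (nat_lit 2822962391) (nat_lit 57) (nat_lit 5) (nat_lit 59) (nat_lit 5) (nat_lit 60) (nat_lit 5) (nat_lit 392) (nat_lit 313) (nat_lit 195)))) (XT.nd (nat_lit 156) (nat_lit 152) (nat_lit 0) (XT.nd (nat_lit 78) (nat_lit 0) (nat_lit 0) (XT.lf (nat_lit 0) (nat_lit 2416005573) (nat_lit 228) (nat_lit 17059770162) (nat_lit 76) (nat_lit 6342102645) (nat_lit 54) (nat_lit 5) (nat_lit 57) (nat_lit 5) (nat_lit 55) (nat_lit 5) (nat_lit 393) (nat_lit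 313) (nat_lit 194)) (XT.lf (nat_lit 0) (nat_lit 7789842247) (nat_lit 228) (nat_lit 4734397537) (nat_lit 76) (nat_lit 13842292840) (nat_lit 54) (nat_lit 5) (nat_lit 57) (nat_lit 5) (nat_lit 55) (nat_lit 5) (nat_lit 394) (nat_lit 313) (nat_lit 193))) (XT.nd (nat_lit 78) (nat_lit 0) (nat_lit 0) (XT.lf (nat_lit 0) (nat_lit 8098209049) (nat_lit 152) (nat_lit 5292427606) (nat_lit 228) (nat_lit 13539041178) (nat_lit 52) (nat_lit 5) (nat_lit 54) (nat_lit 5) (nat_lit 55) (nat_lit 5) (nat_lit 395) (nat_lit 313) (nat_lit 192)) (XT.lf (nat_lit 0) (nat_lit 19216438190) (nat_lit 228) (nat_lit 6137272236) (nat_lit 76) (nat_lit 2154300986) (nat_lit 52) (nat_lit 5) (nat_lit 55) (nat_lit 5) (nat_lit 53) (nat_lit 5) (nat_lit 396) (nat_lit 313) (nat_lit 191))))))) (XT.nd (nat_lit 1014) (nat_lit 836) (nat_lit 0) (XT.nd (nat_lit 468) (nat_lit 532) (nat_lit 0) (XT.nd (nat_lit 234) (nat_lit 152) (nat_lit 0) (XT.nd (nat_lit 78)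 (nat_lit 228) (nat_lit 0) (XT.lf (nat_lit 0) (nat_lit 7001952148) (nat_lit 152) (nat_lit 18323092987) (nat_lit 228) (nat_lit 2775412333) (nat_lit 50) (nat_lit 5) (nat_lit 52) (nat_lit 5) (nat_lit 53) (nat_lit 5) (nat_lit 397) (nat_lit 313) (nat_lit 190)) (XT.nd (nat_lit 78) (nat_lit 152) (nat_lit 0) (XT.lf (nat_lit 0) (nat_lit 2900466410) (nat_lit 228) (nat_lit 8096276107) (nat_lit 76) (nat_lit 17711571184) (nat_lit 49) (nat_lit 5) (nat_lit 52) (nat_lit 5) (nat_lit 50) (nat_lit 5) (nat_lit 398) (nat_lit 313) (nat_lit 189)) (XT.lf (nat_lit 0) (nat_lit 5353522043) (nat_lit 152) (nat_lit 3377472992) (nat_lit 228) (nat_lit 20601384630) (nat_lit 47) (nat_lit 5) (nat_lit 49) (nat_lit 5) (nat_lit 50) (nat_lit 5) (nat_lit 399) (nat_lit 313) (nat_lit 188)))) (XT.nd (nat_lit 78) (nat_lit 152) (nat_lit 0) (XT.lf (nat_lit 0) (nat_lit 14850738327) (nat_lit 228) (nat_lit 10663270253) (nat_lit 76) (nat_lit 4457733094)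 (nat_lit 47) (nat_lit 5) (nat_lit 50) (nat_lit 5) (nat_lit 48) (nat_lit 5) (nat_lit 400) (nat_lit 313) (nat_lit 187)) (XT.nd (nat_lit 78) (nat_lit 0) (nat_lit 0) (XT.lf (nat_lit 0) (nat_lit 3059053330) (nat_lit 152) (nat_lit 18146954607) (nat_lit 228) (nat_lit 9422721527) (nat_lit 45) (nat_lit 5) (nat_lit 47) (nat_lit 5) (nat_lit 48) (nat_lit 5) (nat_lit 401) (nat_lit 313) (nat_lit 186)) (XT.lf (nat_lit 0) (nat_lit 17392835099) (nat_lit 152) (nat_lit 10456003979) (nat_lit 228) (nat_lit 3453683561) (nat_lit 45) (nat_lit 5) (nat_lit 47) (nat_lit 5) (nat_lit 48) (nat_lit 5) (nat_lit 402) (nat_lit 313) (nat_lit 185))))) (XT.nd (nat_lit 234) (nat_lit 304) (nat_lit 0) (XT.nd (nat_lit 78) (nat_lit 0) (nat_lit 0) (XT.lf (nat_lit 0) (nat_lit 118040040) (nat_lit 152) (nat_lit 2514375085) (nat_lit 228) (nat_lit 29363623137) (nat_lit 42) (nat_lit 5) (nat_lit 44) (nat_lit 5) (nat_lit 45) (nat_lit 5) (nat_lit 403) (nat_lit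 313) (nat_lit 184)) (XT.nd (nat_lit 78) (nat_lit 0) (nat_lit 0) (XT.lf (nat_lit 0) (nat_lit 9017482159) (nat_lit 228) (nat_lit 17962979799) (nat_lit 76) (nat_lit 5723300132) (nat_lit 42) (nat_lit 5) (nat_lit 45) (nat_lit 5) (nat_lit 43) (nat_lit 5) (nat_lit 404) (nat_lit 313) (nat_lit 183)) (XT.lf (nat_lit 0) (nat_lit 15608791598) (nat_lit 228) (nat_lit 3673388933) (nat_lit 76) (nat_lit 14150098928) (nat_lit 42) (nat_lit 5) (nat_lit 45) (nat_lit 5) (nat_lit 43) (nat_lit 5) (nat_lit 405) (nat_lit 313) (nat_lit 182)))) (XT.nd (nat_lit 156) (nat_lit 152) (nat_lit 0) (XT.nd (nat_lit 78) (nat_lit 0) (nat_lit 0) (XT.lf (nat_lit 0) (nat_lit 11246897620) (nat_lit 152) (nat_lit 11249147567) (nat_lit 228) (nat_lit 11683663478) (nat_lit 40) (nat_lit 5) (nat_lit 42) (nat_lit 5) (nat_lit 43) (nat_lit 5) (nat_lit 406) (nat_lit 313) (nat_lit 181)) (XT.lf (nat_lit 0) (nat_lit 26672805293) (nat_lit 152) (nat_lit 2944420297)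 (nat_lit 228) (nat_lit 5331518274) (nat_lit 40) (nat_lit 5) (nat_lit 42) (nat_lit 5) (nat_lit 43) (nat_lit 5) (nat_lit 407) (nat_lit 313) (nat_lit 180))) (XT.nd (nat_lit 78) (nat_lit 0) (nat_lit 0) (XT.lf (nat_lit 0) (nat_lit 1299173906) (nat_lit 152) (nat_lit 28866224558) (nat_lit 76) (nat_lit 5571756107) (nat_lit 38) (nat_lit 5) (nat_lit 40) (nat_lit 5) (nat_lit 39) (nat_lit 5) (nat_lit 408) (nat_lit 313) (nat_lit 179)) (XT.lf (nat_lit 0) (nat_lit 8125630721) (nat_lit 152) (nat_lit 14004652247) (nat_lit 76) (nat_lit 14414233138) (nat_lit 38) (nat_lit 5) (nat_lit 40) (nat_lit 5) (nat_lit 39) (nat_lit 5) (nat_lit 409) (nat_lit 313) (nat_lit 178)))))) (XT.nd (nat_lit 546) (nat_lit 380) (nat_lit 0) (XT.nd (nat_lit 234) (nat_lit 304) (nat_lit 0) (XT.nd (nat_lit 78) (nat_lit 0) (nat_lit 0) (XT.lf (nat_lit 0) (nat_lit 1311834157) (nat_lit 152) (nat_lit 13848386598) (nat_lit 228) (nat_lit 22215779672) (nat_lit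 36) (nat_lit 5) (nat_lit 38) (nat_lit 5) (nat_lit 39) (nat_lit 5) (nat_lit 410) (nat_lit 313) (nat_lit 177)) (XT.nd (nat_lit 78) (nat_lit 0) (nat_lit 0) (XT.lf (nat_lit 0) (nat_lit 17358527187) (nat_lit 152) (nat_lit 5179582859) (nat_lit 228) (nat_lit 15690353448) (nat_lit 36) (nat_lit 5) (nat_lit 38) (nat_lit 5) (nat_lit 39) (nat_lit 5) (nat_lit 411) (nat_lit 313) (nat_lit 176)) (XT.lf (nat_lit 0) (nat_lit 30164417898) (nat_lit 228) (nat_lit 5272014127) (nat_lit 76) (nat_lit 3669257974) (nat_lit 36) (nat_lit 5) (nat_lit 39) (nat_lit 5) (nat_lit 37) (nat_lit 4) (nat_lit 412) (nat_lit 313) (nat_lit 175)))) (XT.nd (nat_lit 156) (nat_lit 152) (nat_lit 0) (XT.nd (nat_lit 78) (nat_lit 76) (nat_lit 0) (XT.lf (nat_lit 0) (nat_lit 10940424309) (nat_lit 76) (nat_lit 27226842116) (nat_lit 152) (nat_lit 1837536276) (nat_lit 35) (nat_lit 5) (nat_lit 36) (nat_lit 5) (nat_lit 37) (nat_lit 4) (nat_lit 413) (nat_lit 313)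 (nat_lit 174)) (XT.lf (nat_lit 0) (nat_lit 5417474679) (nat_lit 152) (nat_lit 13250829135) (nat_lit 76) (nat_lit 22259654163) (nat_lit 34) (nat_lit 5) (nat_lit 36) (nat_lit 5) (nat_lit 35) (nat_lit 5) (nat_lit 414) (nat_lit 313) (nat_lit 173))) (XT.nd (nat_lit 78) (nat_lit 0) (nat_lit 0) (XT.lf (nat_lit 0) (nat_lit 3063522377) (nat_lit 152) (nat_lit 9810702251) (nat_lit 228) (nat_lit 29003408620) (nat_lit 32) (nat_lit 5) (nat_lit 34) (nat_lit 5) (nat_lit 35) (nat_lit 5) (nat_lit 415) (nat_lit 313) (nat_lit 172)) (XT.lf (nat_lit 0) (nat_lit 20123891223) (nat_lit 152) (nat_lit 556266972) (nat_lit 228) (nat_lit 22171877877) (nat_lit 32) (nat_lit 5) (nat_lit 34) (nat_lit 5) (nat_lit 35) (nat_lit 5) (nat_lit 416) (nat_lit 313) (nat_lit 171))))) (XT.nd (nat_lit 234) (nat_lit 228) (nat_lit 0) (XT.nd (nat_lit 78) (nat_lit 152) (nat_lit 0) (XT.lf (nat_lit 0) (nat_lit 28798404225) (nat_lit 228) (nat_lit 6260666348)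 (nat_lit 76) (nat_lit 8794258051) (nat_lit 32) (nat_lit 5) (nat_lit 35) (nat_lit 5) (nat_lit 33) (nat_lit 4) (nat_lit 417) (nat_lit 313) (nat_lit 170)) (XT.nd (nat_lit 78) (nat_lit 76) (nat_lit 0) (XT.lf (nat_lit 0) (nat_lit 10893546280) (nat_lit 76) (nat_lit 26368965218) (nat_lit 152) (nat_lit 7619080668) (nat_lit 31) (nat_lit 5) (nat_lit 32) (nat_lit 5) (nat_lit 33) (nat_lit 4) (nat_lit 418) (nat_lit 313) (nat_lit 169)) (XT.lf (nat_lit 0) (nat_lit 95013019) (nat_lit 152) (nat_lit 17263465959) (nat_lit 76) (nat_lit 28580536121) (nat_lit 30) (nat_lit 5) (nat_lit 32) (nat_lit 5) (nat_lit 31) (nat_lit 5) (nat_lit 419) (nat_lit 313) (nat_lit 168)))) (XT.nd (nat_lit 156) (nat_lit 76) (nat_lit 0) (XT.nd (nat_lit 78) (nat_lit 152) (nat_lit 0) (XT.lf (nat_lit 0) (nat_lit 7879729107) (nat_lit 152) (nat_lit 126539322) (nat_lit 76) (nat_lit 39019860621) (nat_lit 30) (nat_lit 5) (nat_lit 32) (nat_lit 5) (nat_lit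 31) (nat_lit 5) (nat_lit 420) (nat_lit 313) (nat_lit 167)) (XT.lf (nat_lit 0) (nat_lit 16079497492) (nat_lit 228) (nat_lit 30298757390) (nat_lit 76) (nat_lit 1762157660) (nat_lit 28) (nat_lit 5) (nat_lit 31) (nat_lit 5) (nat_lit 29) (nat_lit 4) (nat_lit 421) (nat_lit 313) (nat_lit 166))) (XT.nd (nat_lit 78) (nat_lit 76) (nat_lit 0) (XT.lf (nat_lit 0) (nat_lit 24598407679) (nat_lit 228) (nat_lit 13029458177) (nat_lit 76) (nat_lit 11658065626) (nat_lit 28) (nat_lit 5) (nat_lit 31) (nat_lit 5) (nat_lit 29) (nat_lit 4) (nat_lit 422) (nat_lit 313) (nat_lit 165)) (XT.lf (nat_lit 0) (nat_lit 4839166345) (nat_lit 76) (nat_lit 28573040046) (nat_lit 152) (nat_lit 17052431326) (nat_lit 27) (nat_lit 5) (nat_lit 28) (nat_lit 5) (nat_lit 29) (nat_lit 4) (nat_lit 423) (nat_lit 313) (nat_lit 164))))))))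
noncomputable def xc141 : XT := (XT.nd (nat_lit 38766) (nat_lit 0) (nat_lit 11400) (XT.nd (nat_lit 1014) (nat_lit 228) (nat_lit 0) (XT.nd (nat_lit 468) (nat_lit 228) (nat_lit 0) (XT.nd (nat_lit 234) (nat_lit 76) (nat_lit 0) (XT.nd (nat_lit 78) (nat_lit 228) (nat_lit 0) (XT.lf (nat_lit 0) (nat_lit 23497886738) (nat_lit 76) (nat_lit 19116992601) (nat_lit 152) (nat_lit 9060093317) (nat_lit 27) (nat_lit 5) (nat_lit 28) (nat_lit 5) (nat_lit 29) (nat_lit 4) (nat_lit 424) (nat_lit 313) (nat_lit 163)) (XT.nd (nat_lit 78) (nat_lit 228) (nat_lit 0) (XT.lf (nat_lit 0) (nat_lit 42703694970) (nat_lit 76) (nat_lit 9383032936) (nat_lit 152) (nat_lit 835098158) (nat_lit 27) (nat_lit 5) (nat_lit 28) (nat_lit 5) (nat_lit 29) (nat_lit 4) (nat_lit 425) (nat_lit 313) (nat_lit 162)) (XT.lf (nat_lit 0) (nat_lit 7568836185) (nat_lit 228) (nat_lit 45852510089) (nat_lit 76) (nat_lit 780101535) (nat_lit 24) (nat_lit 5) (nat_lit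 27) (nat_lit 5) (nat_lit 25) (nat_lit 4) (nat_lit 426) (nat_lit 313) (nat_lit 161)))) (XT.nd (nat_lit 78) (nat_lit 76) (nat_lit 0) (XT.lf (nat_lit 0) (nat_lit 16398463590) (nat_lit 228) (nat_lit 27948540169) (nat_lit 76) (nat_lit 11166496784) (nat_lit 24) (nat_lit 5) (nat_lit 27) (nat_lit 5) (nat_lit 25) (nat_lit 4) (nat_lit 427) (nat_lit 313) (nat_lit 160)) (XT.nd (nat_lit 78) (nat_lit 76) (nat_lit 0) (XT.lf (nat_lit 0) (nat_lit 25486429970) (nat_lit 228) (nat_lit 9519554545) (nat_lit 76) (nat_lit 21859127981) (nat_lit 24) (nat_lit 5) (nat_lit 27) (nat_lit 5) (nat_lit 25) (nat_lit 4) (nat_lit 428) (nat_lit 313) (nat_lit 159)) (XT.lf (nat_lit 0) (nat_lit 9638634250) (nat_lit 76) (nat_lit 25294694466) (nat_lit 152) (nat_lit 23321356401) (nat_lit 23) (nat_lit 5) (nat_lit 24) (nat_lit 5) (nat_lit 25) (nat_lit 4) (nat_lit 429) (nat_lit 313) (nat_lit 158))))) (XT.nd (nat_lit 234) (nat_lit 76) (nat_lit 0) (XT.nd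 (nat_lit 78) (nat_lit 152) (nat_lit 0) (XT.lf (nat_lit 0) (nat_lit 29555074584) (nat_lit 76) (nat_lit 15198402969) (nat_lit 152) (nat_lit 14929773147) (nat_lit 23) (nat_lit 5) (nat_lit 24) (nat_lit 5) (nat_lit 25) (nat_lit 4) (nat_lit 430) (nat_lit 313) (nat_lit 157)) (XT.nd (nat_lit 78) (nat_lit 152) (nat_lit 0) (XT.lf (nat_lit 0) (nat_lit 50057711367) (nat_lit 76) (nat_lit 4804416859) (nat_lit 152) (nat_lit 6292729148) (nat_lit 23) (nat_lit 5) (nat_lit 24) (nat_lit 5) (nat_lit 25) (nat_lit 4) (nat_lit 431) (nat_lit 313) (nat_lit 156)) (XT.lf (nat_lit 0) (nat_lit 2687414422) (nat_lit 152) (nat_lit 54088054503) (nat_lit 76) (nat_lit 5890349822) (nat_lit 21) (nat_lit 5) (nat_lit 23) (nat_lit 5) (nat_lit 22) (nat_lit 4) (nat_lit 432) (nat_lit 313) (nat_lit 155)))) (XT.nd (nat_lit 156) (nat_lit 76) (nat_lit 0) (XT.nd (nat_lit 78) (nat_lit 0) (nat_lit 0) (XT.lf (nat_lit 0) (nat_lit 11965257629) (nat_lit 152)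 (nat_lit 35270435866) (nat_lit 76) (nat_lit 16979904106) (nat_lit 21) (nat_lit 5) (nat_lit 23) (nat_lit 5) (nat_lit 22) (nat_lit 4) (nat_lit 433) (nat_lit 313) (nat_lit 154)) (XT.lf (nat_lit 0) (nat_lit 21515645413) (nat_lit 152) (nat_lit 15899073981) (nat_lit 76) (nat_lit 28397325079) (nat_lit 21) (nat_lit 5) (nat_lit 23) (nat_lit 5) (nat_lit 22) (nat_lit 4) (nat_lit 434) (nat_lit 313) (nat_lit 153))) (XT.nd (nat_lit 78) (nat_lit 0) (nat_lit 0) (XT.lf (nat_lit 0) (nat_lit 4123420367) (nat_lit 76) (nat_lit 27263139242) (nat_lit 152) (nat_lit 36068805599) (nat_lit 20) (nat_lit 5) (nat_lit 21) (nat_lit 5) (nat_lit 22) (nat_lit 4) (nat_lit 435) (nat_lit 313) (nat_lit 152)) (XT.lf (nat_lit 0) (nat_lit 25062136457) (nat_lit 76) (nat_lit 16646456268) (nat_lit 152) (nat_lit 27434743970) (nat_lit 20) (nat_lit 5) (nat_lit 21) (nat_lit 5) (nat_lit 22) (nat_lit 4) (nat_lit 436) (nat_lit 313) (nat_lit 151)))))) (XT.nd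 (nat_lit 468) (nat_lit 0) (nat_lit 0) (XT.nd (nat_lit 234) (nat_lit 76) (nat_lit 0) (XT.nd (nat_lit 78) (nat_lit 152) (nat_lit 0) (XT.lf (nat_lit 0) (nat_lit 46618947508) (nat_lit 76) (nat_lit 5715943232) (nat_lit 152) (nat_lit 18547219321) (nat_lit 20) (nat_lit 5) (nat_lit 21) (nat_lit 5) (nat_lit 22) (nat_lit 4) (nat_lit 437) (nat_lit 313) (nat_lit 150)) (XT.nd (nat_lit 78) (nat_lit 152) (nat_lit 0) (XT.lf (nat_lit 0) (nat_lit 63327972939) (nat_lit 152) (nat_lit 3913749224) (nat_lit 0) (nat_lit 5429885432) (nat_lit 20) (nat_lit 5) (nat_lit 22) (nat_lit 4) (nat_lit 20) (nat_lit 4) (nat_lit 438) (nat_lit 313) (nat_lit 149)) (XT.lf (nat_lit 0) (nat_lit 353494532) (nat_lit 152) (nat_lit 57193830806) (nat_lit 76) (nat_lit 16960823500) (nat_lit 18) (nat_lit 5) (nat_lit 20) (nat_lit 5) (nat_lit 19) (nat_lit 4) (nat_lit 439) (nat_lit 313) (nat_lit 148)))) (XT.nd (nat_lit 78) (nat_lit 76) (nat_lit 0) (XT.lf (nat_lit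 0) (nat_lit 10188530666) (nat_lit 152) (nat_lit 37241656193) (nat_lit 76) (nat_lit 28965781153) (nat_lit 18) (nat_lit 5) (nat_lit 20) (nat_lit 5) (nat_lit 19) (nat_lit 4) (nat_lit 440) (nat_lit 313) (nat_lit 147)) (XT.nd (nat_lit 78) (nat_lit 76) (nat_lit 0) (XT.lf (nat_lit 0) (nat_lit 20313645439) (nat_lit 152) (nat_lit 16700244793) (nat_lit 76) (nat_lit 41326681433) (nat_lit 18) (nat_lit 5) (nat_lit 20) (nat_lit 5) (nat_lit 19) (nat_lit 4) (nat_lit 441) (nat_lit 313) (nat_lit 146)) (XT.lf (nat_lit 0) (nat_lit 4536883127) (nat_lit 76) (nat_lit 26244414208) (nat_lit 152) (nat_lit 49561053296) (nat_lit 17) (nat_lit 5) (nat_lit 18) (nat_lit 5) (nat_lit 19) (nat_lit 4) (nat_lit 442) (nat_lit 313) (nat_lit 145))))) (XT.nd (nat_lit 36972) (nat_lit 0) (nat_lit 20216) (XT.nd (nat_lit 36816) (nat_lit 0) (nat_lit 20976) (XT.lf (nat_lit 0) (nat_lit 26744495573) (nat_lit 76) (nat_lit 14982349730) (nat_lit 152) (nat_lit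 40672422357) (nat_lit 17) (nat_lit 5) (nat_lit 18) (nat_lit 5) (nat_lit 19) (nat_lit 4) (nat_lit 443) (nat_lit 313) (nat_lit 144)) (XT.nd (nat_lit 78) (nat_lit 0) (nat_lit 0) (XT.lf (nat_lit 0) (nat_lit 1679004045) (nat_lit 836) (nat_lit 981655222) (nat_lit 836) (nat_lit 981655222) (nat_lit 293) (nat_lit 3) (nat_lit 304) (nat_lit 3) (nat_lit 304) (nat_lit 5) (nat_lit 314) (nat_lit 314) (nat_lit 272)) (XT.lf (nat_lit 76) (nat_lit 1515173312) (nat_lit 0) (nat_lit 3434255268) (nat_lit 836) (nat_lit 2396746397) (nat_lit 294) (nat_lit 5) (nat_lit 293) (nat_lit 3) (nat_lit 304) (nat_lit 5) (nat_lit 315) (nat_lit 314) (nat_lit 271)))) (XT.nd (nat_lit 156) (nat_lit 0) (nat_lit 0) (XT.nd (nat_lit 78) (nat_lit 760) (nat_lit 0) (XT.lf (nat_lit 76) (nat_lit 5106936371) (nat_lit 0) (nat_lit 1441605359) (nat_lit 836) (nat_lit 862285350) (nat_lit 294) (nat_lit 5) (nat_lit 293) (nat_lit 3) (nat_lit 304) (nat_lit 5) (nat_lit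 316) (nat_lit 314) (nat_lit 270)) (XT.lf (nat_lit 0) (nat_lit 664410036) (nat_lit 836) (nat_lit 6168795995) (nat_lit 912) (nat_lit 645254020) (nat_lit 283) (nat_lit 5) (nat_lit 294) (nat_lit 5) (nat_lit 295) (nat_lit 5) (nat_lit 317) (nat_lit 314) (nat_lit 269))) (XT.nd (nat_lit 78) (nat_lit 0) (nat_lit 0) (XT.lf (nat_lit 0) (nat_lit 2200241707) (nat_lit 836) (nat_lit 2524959429) (nat_lit 912) (nat_lit 2823298042) (nat_lit 283) (nat_lit 5) (nat_lit 294) (nat_lit 5) (nat_lit 295) (nat_lit 5) (nat_lit 318) (nat_lit 314) (nat_lit 268)) (XT.lf (nat_lit 76) (nat_lit 1219615416) (nat_lit 0) (nat_lit 2518817823) (nat_lit 912) (nat_lit 3883569424) (nat_lit 284) (nat_lit 5) (nat_lit 283) (nat_lit 5) (nat_lit 295) (nat_lit 5) (nat_lit 319) (nat_lit 314) (nat_lit 267))))))) (XT.nd (nat_lit 1014) (nat_lit 6232) (nat_lit 0) (XT.nd (nat_lit 468) (nat_lit 1748) (nat_lit 0) (XT.nd (nat_lit 234) (nat_lit 0) (nat_lit 0)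 (XT.nd (nat_lit 78) (nat_lit 836) (nat_lit 0) (XT.lf (nat_lit 76) (nat_lit 5096228204) (nat_lit 0) (nat_lit 197907232) (nat_lit 912) (nat_lit 2404485095) (nat_lit 284) (nat_lit 5) (nat_lit 283) (nat_lit 5) (nat_lit 295) (nat_lit 5) (nat_lit 320) (nat_lit 314) (nat_lit 266)) (XT.nd (nat_lit 78) (nat_lit 912) (nat_lit 0) (XT.lf (nat_lit 76) (nat_lit 1282597438) (nat_lit 0) (nat_lit 5594967732) (nat_lit 912) (nat_lit 900588836) (nat_lit 285) (nat_lit 5) (nat_lit 284) (nat_lit 5) (nat_lit 296) (nat_lit 5) (nat_lit 321) (nat_lit 314) (nat_lit 265)) (XT.lf (nat_lit 0) (nat_lit 612578708) (nat_lit 912) (nat_lit 2563962250) (nat_lit 988) (nat_lit 4684087272) (nat_lit 272) (nat_lit 5) (nat_lit 284) (nat_lit 5) (nat_lit 285) (nat_lit 5) (nat_lit 322) (nat_lit 314) (nat_lit 264)))) (XT.nd (nat_lit 78) (nat_lit 0) (nat_lit 76) (XT.lf (nat_lit 76) (nat_lit 1472674326) (nat_lit 0) (nat_lit 644336591) (nat_lit 988) (nat_lit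 5829423772) (nat_lit 273) (nat_lit 5) (nat_lit 272) (nat_lit 5) (nat_lit 285) (nat_lit 5) (nat_lit 323) (nat_lit 314) (nat_lit 263)) (XT.nd (nat_lit 78) (nat_lit 0) (nat_lit 0) (XT.lf (nat_lit 0) (nat_lit 3662725420) (nat_lit 912) (nat_lit 2404283252) (nat_lit 988) (nat_lit 1967965515) (nat_lit 273) (nat_lit 5) (nat_lit 285) (nat_lit 5) (nat_lit 286) (nat_lit 5) (nat_lit 324) (nat_lit 314) (nat_lit 262)) (XT.lf (nat_lit 76) (nat_lit 1782596654) (nat_lit 0) (nat_lit 3448277660) (nat_lit 988) (nat_lit 2896055731) (nat_lit 274) (nat_lit 5) (nat_lit 273) (nat_lit 5) (nat_lit 286) (nat_lit 5) (nat_lit 325) (nat_lit 314) (nat_lit 261))))) (XT.nd (nat_lit 234) (nat_lit 912) (nat_lit 0) (XT.nd (nat_lit 78) (nat_lit 912) (nat_lit 0) (XT.lf (nat_lit 76) (nat_lit 6111605959) (nat_lit 0) (nat_lit 712355404) (nat_lit 988) (nat_lit 1398387243) (nat_lit 274) (nat_lit 5) (nat_lit 273) (nat_lit 5) (nat_lit 286) (nat_lit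 5) (nat_lit 326) (nat_lit 314) (nat_lit 260)) (XT.nd (nat_lit 78) (nat_lit 0) (nat_lit 0) (XT.lf (nat_lit 0) (nat_lit 138193594) (nat_lit 988) (nat_lit 6082118688) (nat_lit 1064) (nat_lit 2100410456) (nat_lit 261) (nat_lit 5) (nat_lit 274) (nat_lit 5) (nat_lit 275) (nat_lit 5) (nat_lit 327) (nat_lit 314) (nat_lit 259)) (XT.lf (nat_lit 0) (nat_lit 1676955565) (nat_lit 988) (nat_lit 1714738901) (nat_lit 1064) (nat_lit 5030449941) (nat_lit 261) (nat_lit 5) (nat_lit 274) (nat_lit 5) (nat_lit 275) (nat_lit 5) (nat_lit 328) (nat_lit 314) (nat_lit 258)))) (XT.nd (nat_lit 156) (nat_lit 912) (nat_lit 0) (XT.nd (nat_lit 78) (nat_lit 0) (nat_lit 76) (XT.lf (nat_lit 76) (nat_lit 2805475100) (nat_lit 0) (nat_lit 440277596) (nat_lit 1064) (nat_lit 5281376147) (nat_lit 262) (nat_lit 5) (nat_lit 261) (nat_lit 5) (nat_lit 275) (nat_lit 5) (nat_lit 329) (nat_lit 314) (nat_lit 257)) (XT.lf (nat_lit 0) (nat_lit 4862028274)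 (nat_lit 988) (nat_lit 1197459363) (nat_lit 76) (nat_lit 2575797966) (nat_lit 262) (nat_lit 5) (nat_lit 275) (nat_lit 5) (nat_lit 263) (nat_lit 5) (nat_lit 330) (nat_lit 314) (nat_lit 256))) (XT.nd (nat_lit 78) (nat_lit 0) (nat_lit 0) (XT.lf (nat_lit 0) (nat_lit 3493257178) (nat_lit 988) (nat_lit 3030636421) (nat_lit 1064) (nat_lit 2222914623) (nat_lit 249) (nat_lit 5) (nat_lit 262) (nat_lit 5) (nat_lit 263) (nat_lit 5) (nat_lit 331) (nat_lit 314) (nat_lit 255)) (XT.lf (nat_lit 0) (nat_lit 8208791017) (nat_lit 1064) (nat_lit 547036694) (nat_lit 76) (nat_lit 106686731) (nat_lit 249) (nat_lit 5) (nat_lit 263) (nat_lit 5) (nat_lit 250) (nat_lit 5) (nat_lit 332) (nat_lit 314) (nat_lit 254)))))) (XT.nd (nat_lit 546) (nat_lit 2280) (nat_lit 0) (XT.nd (nat_lit 234) (nat_lit 1672) (nat_lit 0) (XT.nd (nat_lit 78) (nat_lit 1140) (nat_lit 0) (XT.lf (nat_lit 0) (nat_lit 976876266) (nat_lit 1140) (nat_lit 4668310865)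 (nat_lit 76) (nat_lit 3335264976) (nat_lit 234) (nat_lit 5) (nat_lit 249) (nat_lit 5) (nat_lit 235) (nat_lit 5) (nat_lit 333) (nat_lit 314) (nat_lit 253)) (XT.nd (nat_lit 78) (nat_lit 0) (nat_lit 0) (XT.lf (nat_lit 0) (nat_lit 190263105) (nat_lit 1140) (nat_lit 2422077156) (nat_lit 1216) (nat_lit 6490351288) (nat_lit 219) (nat_lit 5) (nat_lit 234) (nat_lit 5) (nat_lit 235) (nat_lit 5) (nat_lit 334) (nat_lit 314) (nat_lit 252)) (XT.lf (nat_lit 0) (nat_lit 4315622843) (nat_lit 1216) (nat_lit 3980327812) (nat_lit 76) (nat_lit 932114382) (nat_lit 219) (nat_lit 5) (nat_lit 235) (nat_lit 5) (nat_lit 220) (nat_lit 5) (nat_lit 335) (nat_lit 314) (nat_lit 251)))) (XT.nd (nat_lit 156) (nat_lit 684) (nat_lit 0) (XT.nd (nat_lit 78) (nat_lit 0) (nat_lit 0) (XT.lf (nat_lit 0) (nat_lit 1063163432) (nat_lit 988) (nat_lit 5004650574) (nat_lit 1064) (nat_lit 3289480064) (nat_lit 206) (nat_lit 5) (nat_lit 219) (nat_lit 5)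 (nat_lit 220) (nat_lit 5) (nat_lit 336) (nat_lit 314) (nat_lit 250)) (XT.lf (nat_lit 0) (nat_lit 6306541479) (nat_lit 988) (nat_lit 1570574897) (nat_lit 1064) (nat_lit 1613175041) (nat_lit 206) (nat_lit 5) (nat_lit 219) (nat_lit 5) (nat_lit 220) (nat_lit 5) (nat_lit 337) (nat_lit 314) (nat_lit 249))) (XT.nd (nat_lit 78) (nat_lit 0) (nat_lit 0) (XT.lf (nat_lit 0) (nat_lit 115420687) (nat_lit 684) (nat_lit 7560052514) (nat_lit 76) (nat_lit 1951672547) (nat_lit 197) (nat_lit 5) (nat_lit 206) (nat_lit 5) (nat_lit 198) (nat_lit 5) (nat_lit 338) (nat_lit 314) (nat_lit 248)) (XT.lf (nat_lit 0) (nat_lit 1877214756) (nat_lit 684) (nat_lit 2291777819) (nat_lit 76) (nat_lit 5598246512) (nat_lit 197) (nat_lit 5) (nat_lit 206) (nat_lit 5) (nat_lit 198) (nat_lit 5) (nat_lit 339) (nat_lit 314) (nat_lit 247))))) (XT.nd (nat_lit 234) (nat_lit 1140) (nat_lit 0) (XT.nd (nat_lit 78) (nat_lit 608) (nat_lit 0) (XT.lf (nat_lit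 0) (nat_lit 3163735887) (nat_lit 532) (nat_lit 525281725) (nat_lit 608) (nat_lit 6222627671) (nat_lit 190) (nat_lit 5) (nat_lit 197) (nat_lit 5) (nat_lit 198) (nat_lit 5) (nat_lit 340) (nat_lit 314) (nat_lit 246)) (XT.nd (nat_lit 78) (nat_lit 608) (nat_lit 0) (XT.lf (nat_lit 0) (nat_lit 5576978810) (nat_lit 608) (nat_lit 1294282882) (nat_lit 76) (nat_lit 3188491834) (nat_lit 190) (nat_lit 5) (nat_lit 198) (nat_lit 5) (nat_lit 191) (nat_lit 5) (nat_lit 341) (nat_lit 314) (nat_lit 245)) (XT.lf (nat_lit 0) (nat_lit 4370777598) (nat_lit 608) (nat_lit 3166371637) (nat_lit 684) (nat_lit 2674711960) (nat_lit 182) (nat_lit 5) (nat_lit 190) (nat_lit 5) (nat_lit 191) (nat_lit 5) (nat_lit 342) (nat_lit 314) (nat_lit 244)))) (XT.nd (nat_lit 156) (nat_lit 532) (nat_lit 0) (XT.nd (nat_lit 78) (nat_lit 608) (nat_lit 0) (XT.lf (nat_lit 0) (nat_lit 9544529657) (nat_lit 684) (nat_lit 175084994) (nat_lit 76) (nat_lit 649287907)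 (nat_lit 182) (nat_lit 5) (nat_lit 191) (nat_lit 5) (nat_lit 183) (nat_lit 5) (nat_lit 343) (nat_lit 314) (nat_lit 243)) (XT.lf (nat_lit 0) (nat_lit 1117000261) (nat_lit 608) (nat_lit 4830932551) (nat_lit 76) (nat_lit 4580732966) (nat_lit 174) (nat_lit 5) (nat_lit 182) (nat_lit 5) (nat_lit 175) (nat_lit 5) (nat_lit 344) (nat_lit 314) (nat_lit 242))) (XT.nd (nat_lit 78) (nat_lit 0) (nat_lit 0) (XT.lf (nat_lit 0) (nat_lit 1036975530) (nat_lit 532) (nat_lit 2044948590) (nat_lit 608) (nat_lit 7611617247) (nat_lit 167) (nat_lit 5) (nat_lit 174) (nat_lit 5) (nat_lit 175) (nat_lit 5) (nat_lit 345) (nat_lit 314) (nat_lit 241)) (XT.lf (nat_lit 0) (nat_lit 5144711003) (nat_lit 608) (nat_lit 3734213133) (nat_lit 76) (nat_lit 1983291717) (nat_lit 167) (nat_lit 5) (nat_lit 175) (nat_lit 5) (nat_lit 168) (nat_lit 5) (nat_lit 346) (nat_lit 314) (nat_lit 240))))))))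
noncomputable def xc142 : XT := (XT.nd (nat_lit 2028) (nat_lit 3116) (nat_lit 0) (XT.nd (nat_lit 1014) (nat_lit 2736) (nat_lit 0) (XT.nd (nat_lit 468) (nat_lit 1216) (nat_lit 0) (XT.nd (nat_lit 234) (nat_lit 912) (nat_lit 0) (XT.nd (nat_lit 78) (nat_lit 532) (nat_lit 0) (XT.lf (nat_lit 0) (nat_lit 2359771434) (nat_lit 456) (nat_lit 4924058359) (nat_lit 532) (nat_lit 3751706836) (nat_lit 161) (nat_lit 5) (nat_lit 167) (nat_lit 5) (nat_lit 168) (nat_lit 5) (nat_lit 347) (nat_lit 314) (nat_lit 239)) (XT.nd (nat_lit 78) (nat_lit 532) (nat_lit 0) (XT.lf (nat_lit 0) (nat_lit 8681596056) (nat_lit 456) (nat_lit 815278565) (nat_lit 532) (nat_lit 1716908771) (nat_lit 161) (nat_lit 5) (nat_lit 167) (nat_lit 5) (nat_lit 168) (nat_lit 5) (nat_lit 348) (nat_lit 314) (nat_lit 238)) (XT.lf (nat_lit 0) (nat_lit 414191181) (nat_lit 532) (nat_lit 7594480394) (nat_lit 76) (nat_lit 3387334987) (nat_lit 154) (nat_lit 5) (nat_lit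 161) (nat_lit 5) (nat_lit 155) (nat_lit 5) (nat_lit 349) (nat_lit 314) (nat_lit 237)))) (XT.nd (nat_lit 78) (nat_lit 912) (nat_lit 0) (XT.lf (nat_lit 0) (nat_lit 2581647346) (nat_lit 532) (nat_lit 1262749483) (nat_lit 76) (nat_lit 7738599013) (nat_lit 154) (nat_lit 5) (nat_lit 161) (nat_lit 5) (nat_lit 155) (nat_lit 5) (nat_lit 350) (nat_lit 314) (nat_lit 236)) (XT.nd (nat_lit 78) (nat_lit 456) (nat_lit 0) (XT.lf (nat_lit 0) (nat_lit 4843944918) (nat_lit 532) (nat_lit 6447346237) (nat_lit 76) (nat_lit 483425938) (nat_lit 148) (nat_lit 5) (nat_lit 155) (nat_lit 5) (nat_lit 149) (nat_lit 5) (nat_lit 351) (nat_lit 314) (nat_lit 235)) (XT.lf (nat_lit 0) (nat_lit 101898103) (nat_lit 456) (nat_lit 7098379646) (nat_lit 532) (nat_lit 4771143579) (nat_lit 142) (nat_lit 5) (nat_lit 148) (nat_lit 5) (nat_lit 149) (nat_lit 5) (nat_lit 352) (nat_lit 314) (nat_lit 234))))) (XT.nd (nat_lit 234) (nat_lit 760) (nat_lit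 0) (XT.nd (nat_lit 78) (nat_lit 456) (nat_lit 0) (XT.lf (nat_lit 0) (nat_lit 6948916471) (nat_lit 456) (nat_lit 2718188996) (nat_lit 532) (nat_lit 2505742934) (nat_lit 142) (nat_lit 5) (nat_lit 148) (nat_lit 5) (nat_lit 149) (nat_lit 5) (nat_lit 353) (nat_lit 314) (nat_lit 233)) (XT.nd (nat_lit 78) (nat_lit 76) (nat_lit 0) (XT.lf (nat_lit 0) (nat_lit 1604427044) (nat_lit 380) (nat_lit 10611557340) (nat_lit 456) (nat_lit 164107908) (nat_lit 137) (nat_lit 5) (nat_lit 142) (nat_lit 5) (nat_lit 143) (nat_lit 5) (nat_lit 354) (nat_lit 314) (nat_lit 232)) (XT.lf (nat_lit 0) (nat_lit 2259655663) (nat_lit 456) (nat_lit 3927159955) (nat_lit 76) (nat_lit 6404431934) (nat_lit 136) (nat_lit 5) (nat_lit 142) (nat_lit 5) (nat_lit 137) (nat_lit 5) (nat_lit 355) (nat_lit 314) (nat_lit 231)))) (XT.nd (nat_lit 156) (nat_lit 380) (nat_lit 0) (XT.nd (nat_lit 78) (nat_lit 0) (nat_lit 0) (XT.lf (nat_lit 0) (nat_lit 3156806210)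 (nat_lit 380) (nat_lit 1602639842) (nat_lit 456) (nat_lit 8049058393) (nat_lit 131) (nat_lit 5) (nat_lit 136) (nat_lit 5) (nat_lit 137) (nat_lit 5) (nat_lit 356) (nat_lit 314) (nat_lit 230)) (XT.lf (nat_lit 0) (nat_lit 7380873846) (nat_lit 456) (nat_lit 2557998763) (nat_lit 76) (nat_lit 3092020807) (nat_lit 131) (nat_lit 5) (nat_lit 137) (nat_lit 5) (nat_lit 132) (nat_lit 5) (nat_lit 357) (nat_lit 314) (nat_lit 229))) (XT.nd (nat_lit 78) (nat_lit 0) (nat_lit 0) (XT.lf (nat_lit 0) (nat_lit 4796801467) (nat_lit 380) (nat_lit 5323413830) (nat_lit 456) (nat_lit 3138573916) (nat_lit 126) (nat_lit 5) (nat_lit 131) (nat_lit 5) (nat_lit 132) (nat_lit 5) (nat_lit 358) (nat_lit 314) (nat_lit 228)) (XT.lf (nat_lit 0) (nat_lit 12395525472) (nat_lit 380) (nat_lit 549716691) (nat_lit 456) (nat_lit 548187459) (nat_lit 126) (nat_lit 5) (nat_lit 131) (nat_lit 5) (nat_lit 132) (nat_lit 5) (nat_lit 359) (nat_lit 314) (nat_lit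 227)))))) (XT.nd (nat_lit 468) (nat_lit 1216) (nat_lit 0) (XT.nd (nat_lit 234) (nat_lit 760) (nat_lit 0) (XT.nd (nat_lit 78) (nat_lit 304) (nat_lit 0) (XT.lf (nat_lit 0) (nat_lit 2162499538) (nat_lit 456) (nat_lit 7209917786) (nat_lit 76) (nat_lit 4359574057) (nat_lit 120) (nat_lit 5) (nat_lit 126) (nat_lit 5) (nat_lit 121) (nat_lit 5) (nat_lit 360) (nat_lit 314) (nat_lit 226)) (XT.nd (nat_lit 78) (nat_lit 0) (nat_lit 0) (XT.lf (nat_lit 0) (nat_lit 383212100) (nat_lit 304) (nat_lit 4558995210) (nat_lit 380) (nat_lit 9035390111) (nat_lit 116) (nat_lit 5) (nat_lit 120) (nat_lit 5) (nat_lit 121) (nat_lit 5) (nat_lit 361) (nat_lit 314) (nat_lit 225)) (XT.lf (nat_lit 0) (nat_lit 7861342574) (nat_lit 380) (nat_lit 5910366564) (nat_lit 76) (nat_lit 457192872) (nat_lit 116) (nat_lit 5) (nat_lit 121) (nat_lit 5) (nat_lit 117) (nat_lit 5) (nat_lit 362) (nat_lit 314) (nat_lit 224)))) (XT.nd (nat_lit 78) (nat_lit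 380) (nat_lit 0) (XT.lf (nat_lit 0) (nat_lit 1968954033) (nat_lit 380) (nat_lit 8942459900) (nat_lit 456) (nat_lit 3575042065) (nat_lit 111) (nat_lit 5) (nat_lit 116) (nat_lit 5) (nat_lit 117) (nat_lit 5) (nat_lit 363) (nat_lit 314) (nat_lit 223)) (XT.nd (nat_lit 78) (nat_lit 380) (nat_lit 0) (XT.lf (nat_lit 0) (nat_lit 10177588855) (nat_lit 380) (nat_lit 3914710094) (nat_lit 456) (nat_lit 658269112) (nat_lit 111) (nat_lit 5) (nat_lit 116) (nat_lit 5) (nat_lit 117) (nat_lit 5) (nat_lit 364) (nat_lit 314) (nat_lit 222)) (XT.lf (nat_lit 0) (nat_lit 2327783586) (nat_lit 380) (nat_lit 11403771056) (nat_lit 76) (nat_lit 1289555817) (nat_lit 106) (nat_lit 5) (nat_lit 111) (nat_lit 5) (nat_lit 107) (nat_lit 5) (nat_lit 365) (nat_lit 314) (nat_lit 221))))) (XT.nd (nat_lit 234) (nat_lit 912) (nat_lit 0) (XT.nd (nat_lit 78) (nat_lit 304) (nat_lit 0) (XT.lf (nat_lit 0) (nat_lit 5455839537) (nat_lit 380) (nat_lit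 3225068500) (nat_lit 76) (nat_lit 6616705883) (nat_lit 106) (nat_lit 5) (nat_lit 111) (nat_lit 5) (nat_lit 107) (nat_lit 5) (nat_lit 366) (nat_lit 314) (nat_lit 220)) (XT.nd (nat_lit 78) (nat_lit 0) (nat_lit 0) (XT.lf (nat_lit 0) (nat_lit 5274680778) (nat_lit 304) (nat_lit 3434592265) (nat_lit 380) (nat_lit 6872202960) (nat_lit 102) (nat_lit 5) (nat_lit 106) (nat_lit 5) (nat_lit 107) (nat_lit 5) (nat_lit 367) (nat_lit 314) (nat_lit 219)) (XT.lf (nat_lit 0) (nat_lit 12093180654) (nat_lit 380) (nat_lit 1824067167) (nat_lit 76) (nat_lit 1955629310) (nat_lit 102) (nat_lit 5) (nat_lit 107) (nat_lit 5) (nat_lit 103) (nat_lit 5) (nat_lit 368) (nat_lit 314) (nat_lit 218)))) (XT.nd (nat_lit 156) (nat_lit 532) (nat_lit 0) (XT.nd (nat_lit 78) (nat_lit 76) (nat_lit 0) (XT.lf (nat_lit 0) (nat_lit 6988841779) (nat_lit 304) (nat_lit 8672555907) (nat_lit 380) (nat_lit 509147884) (nat_lit 98) (nat_lit 5) (nat_lit 102)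 (nat_lit 5) (nat_lit 103) (nat_lit 5) (nat_lit 369) (nat_lit 314) (nat_lit 217)) (XT.lf (nat_lit 0) (nat_lit 2804018812) (nat_lit 380) (nat_lit 427515508) (nat_lit 76) (nat_lit 13244784612) (nat_lit 97) (nat_lit 5) (nat_lit 102) (nat_lit 5) (nat_lit 98) (nat_lit 5) (nat_lit 370) (nat_lit 314) (nat_lit 216))) (XT.nd (nat_lit 78) (nat_lit 228) (nat_lit 0) (XT.lf (nat_lit 0) (nat_lit 6296093369) (nat_lit 380) (nat_lit 8084168252) (nat_lit 76) (nat_lit 2408168531) (nat_lit 93) (nat_lit 5) (nat_lit 98) (nat_lit 5) (nat_lit 94) (nat_lit 5) (nat_lit 371) (nat_lit 314) (nat_lit 215)) (XT.lf (nat_lit 0) (nat_lit 969662135) (nat_lit 228) (nat_lit 8951367178) (nat_lit 304) (nat_lit 7188040458) (nat_lit 90) (nat_lit 5) (nat_lit 93) (nat_lit 5) (nat_lit 94) (nat_lit 5) (nat_lit 372) (nat_lit 314) (nat_lit 214))))))) (XT.nd (nat_lit 1014) (nat_lit 1444) (nat_lit 0) (XT.nd (nat_lit 468) (nat_lit 836) (nat_lit 0) (XT.nd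 (nat_lit 234) (nat_lit 456) (nat_lit 0) (XT.nd (nat_lit 78) (nat_lit 380) (nat_lit 0) (XT.lf (nat_lit 0) (nat_lit 10434879427) (nat_lit 228) (nat_lit 3284153668) (nat_lit 304) (nat_lit 3718373692) (nat_lit 90) (nat_lit 5) (nat_lit 93) (nat_lit 5) (nat_lit 94) (nat_lit 5) (nat_lit 373) (nat_lit 314) (nat_lit 213)) (XT.nd (nat_lit 78) (nat_lit 76) (nat_lit 0) (XT.lf (nat_lit 0) (nat_lit 2405231151) (nat_lit 304) (nat_lit 15256517391) (nat_lit 380) (nat_lit 112929799) (nat_lit 86) (nat_lit 5) (nat_lit 90) (nat_lit 5) (nat_lit 91) (nat_lit 5) (nat_lit 374) (nat_lit 314) (nat_lit 212)) (XT.lf (nat_lit 0) (nat_lit 3617528879) (nat_lit 380) (nat_lit 5974719488) (nat_lit 76) (nat_lit 8526175046) (nat_lit 85) (nat_lit 5) (nat_lit 90) (nat_lit 5) (nat_lit 86) (nat_lit 5) (nat_lit 375) (nat_lit 314) (nat_lit 211)))) (XT.nd (nat_lit 78) (nat_lit 228) (nat_lit 0) (XT.lf (nat_lit 0) (nat_lit 3748924063) (nat_lit 228)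 (nat_lit 3728419545) (nat_lit 304) (nat_lit 10994519256) (nat_lit 82) (nat_lit 5) (nat_lit 85) (nat_lit 5) (nat_lit 86) (nat_lit 5) (nat_lit 376) (nat_lit 314) (nat_lit 210)) (XT.nd (nat_lit 78) (nat_lit 228) (nat_lit 0) (XT.lf (nat_lit 0) (nat_lit 11519930974) (nat_lit 304) (nat_lit 4995282427) (nat_lit 76) (nat_lit 2318689483) (nat_lit 82) (nat_lit 5) (nat_lit 86) (nat_lit 5) (nat_lit 83) (nat_lit 5) (nat_lit 377) (nat_lit 314) (nat_lit 209)) (XT.lf (nat_lit 0) (nat_lit 5061667221) (nat_lit 228) (nat_lit 10692000619) (nat_lit 304) (nat_lit 3451046639) (nat_lit 79) (nat_lit 5) (nat_lit 82) (nat_lit 5) (nat_lit 83) (nat_lit 5) (nat_lit 378) (nat_lit 314) (nat_lit 208))))) (XT.nd (nat_lit 234) (nat_lit 532) (nat_lit 0) (XT.nd (nat_lit 78) (nat_lit 228) (nat_lit 0) (XT.lf (nat_lit 0) (nat_lit 552776396) (nat_lit 304) (nat_lit 4092456920) (nat_lit 76) (nat_lit 14940211812) (nat_lit 78) (nat_lit 5) (nat_lit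 82) (nat_lit 5) (nat_lit 79) (nat_lit 5) (nat_lit 379) (nat_lit 314) (nat_lit 207)) (XT.nd (nat_lit 78) (nat_lit 0) (nat_lit 0) (XT.lf (nat_lit 0) (nat_lit 4669048680) (nat_lit 304) (nat_lit 13666133207) (nat_lit 76) (nat_lit 1639545808) (nat_lit 75) (nat_lit 5) (nat_lit 79) (nat_lit 5) (nat_lit 76) (nat_lit 5) (nat_lit 380) (nat_lit 314) (nat_lit 206)) (XT.lf (nat_lit 0) (nat_lit 8981492106) (nat_lit 304) (nat_lit 3339179313) (nat_lit 76) (nat_lit 8052842636) (nat_lit 75) (nat_lit 5) (nat_lit 79) (nat_lit 5) (nat_lit 76) (nat_lit 5) (nat_lit 381) (nat_lit 314) (nat_lit 205)))) (XT.nd (nat_lit 156) (nat_lit 304) (nat_lit 0) (XT.nd (nat_lit 78) (nat_lit 0) (nat_lit 0) (XT.lf (nat_lit 0) (nat_lit 7419156135) (nat_lit 228) (nat_lit 6060863960) (nat_lit 304) (nat_lit 7302548210) (nat_lit 72) (nat_lit 5) (nat_lit 75) (nat_lit 5) (nat_lit 76) (nat_lit 5) (nat_lit 382) (nat_lit 314) (nat_lit 204)) (XT.lf (nat_lit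 0) (nat_lit 18136790474) (nat_lit 304) (nat_lit 2661571643) (nat_lit 76) (nat_lit 404838941) (nat_lit 72) (nat_lit 5) (nat_lit 76) (nat_lit 5) (nat_lit 73) (nat_lit 5) (nat_lit 383) (nat_lit 314) (nat_lit 203))) (XT.nd (nat_lit 78) (nat_lit 0) (nat_lit 0) (XT.lf (nat_lit 0) (nat_lit 1399868798) (nat_lit 304) (nat_lit 13202941468) (nat_lit 76) (nat_lit 7029422819) (nat_lit 68) (nat_lit 5) (nat_lit 72) (nat_lit 5) (nat_lit 69) (nat_lit 5) (nat_lit 384) (nat_lit 314) (nat_lit 202)) (XT.lf (nat_lit 0) (nat_lit 5951636968) (nat_lit 304) (nat_lit 2219227465) (nat_lit 76) (nat_lit 13901971867) (nat_lit 68) (nat_lit 5) (nat_lit 72) (nat_lit 5) (nat_lit 69) (nat_lit 5) (nat_lit 385) (nat_lit 314) (nat_lit 201)))))) (XT.nd (nat_lit 546) (nat_lit 608) (nat_lit 0) (XT.nd (nat_lit 234) (nat_lit 456) (nat_lit 0) (XT.nd (nat_lit 78) (nat_lit 152) (nat_lit 0) (XT.lf (nat_lit 0) (nat_lit 9252497538) (nat_lit 228) (nat_lit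 1462798846) (nat_lit 304) (nat_lit 11809105943) (nat_lit 65) (nat_lit 5) (nat_lit 68) (nat_lit 5) (nat_lit 69) (nat_lit 5) (nat_lit 386) (nat_lit 314) (nat_lit 200)) (XT.nd (nat_lit 78) (nat_lit 152) (nat_lit 0) (XT.lf (nat_lit 0) (nat_lit 15683355412) (nat_lit 304) (nat_lit 1949713897) (nat_lit 76) (nat_lit 5354606051) (nat_lit 65) (nat_lit 5) (nat_lit 69) (nat_lit 5) (nat_lit 66) (nat_lit 5) (nat_lit 387) (nat_lit 314) (nat_lit 199)) (XT.lf (nat_lit 0) (nat_lit 9868719176) (nat_lit 152) (nat_lit 11027980403) (nat_lit 228) (nat_lit 2565264287) (nat_lit 63) (nat_lit 5) (nat_lit 65) (nat_lit 5) (nat_lit 66) (nat_lit 5) (nat_lit 388) (nat_lit 314) (nat_lit 198)))) (XT.nd (nat_lit 156) (nat_lit 152) (nat_lit 0) (XT.nd (nat_lit 78) (nat_lit 228) (nat_lit 0) (XT.lf (nat_lit 0) (nat_lit 2277594062) (nat_lit 228) (nat_lit 1912243244) (nat_lit 76) (nat_lit 19759775453) (nat_lit 62) (nat_lit 5) (nat_lit 65) (nat_lit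 5) (nat_lit 63) (nat_lit 5) (nat_lit 389) (nat_lit 314) (nat_lit 197)) (XT.lf (nat_lit 0) (nat_lit 7328832198) (nat_lit 304) (nat_lit 14203810752) (nat_lit 76) (nat_lit 2915050802) (nat_lit 59) (nat_lit 5) (nat_lit 63) (nat_lit 5) (nat_lit 60) (nat_lit 5) (nat_lit 390) (nat_lit 314) (nat_lit 196))) (XT.nd (nat_lit 78) (nat_lit 152) (nat_lit 0) (XT.lf (nat_lit 0) (nat_lit 12580003973) (nat_lit 304) (nat_lit 2218955195) (nat_lit 76) (nat_lit 10160310184) (nat_lit 59) (nat_lit 5) (nat_lit 63) (nat_lit 5) (nat_lit 60) (nat_lit 5) (nat_lit 391) (nat_lit 314) (nat_lit 195)) (XT.lf (nat_lit 0) (nat_lit 10306133743) (nat_lit 152) (nat_lit 7769424528) (nat_lit 228) (nat_lit 7408032483) (nat_lit 57) (nat_lit 5) (nat_lit 59) (nat_lit 5) (nat_lit 60) (nat_lit 5) (nat_lit 392) (nat_lit 314) (nat_lit 194))))) (XT.nd (nat_lit 234) (nat_lit 380) (nat_lit 0) (XT.nd (nat_lit 78) (nat_lit 228) (nat_lit 0) (XT.lf (nat_lit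 0) (nat_lit 23232239899) (nat_lit 152) (nat_lit 514086483) (nat_lit 228) (nat_lit 2277008837) (nat_lit 57) (nat_lit 5) (nat_lit 59) (nat_lit 5) (nat_lit 60) (nat_lit 5) (nat_lit 393) (nat_lit 314) (nat_lit 193)) (XT.nd (nat_lit 78) (nat_lit 0) (nat_lit 0) (XT.lf (nat_lit 0) (nat_lit 3102722432) (nat_lit 228) (nat_lit 16528450810) (nat_lit 76) (nat_lit 6942630784) (nat_lit 54) (nat_lit 5) (nat_lit 57) (nat_lit 5) (nat_lit 55) (nat_lit 5) (nat_lit 394) (nat_lit 314) (nat_lit 192)) (XT.lf (nat_lit 0) (nat_lit 8619883818) (nat_lit 228) (nat_lit 3863698922) (nat_lit 76) (nat_lit 14655877217) (nat_lit 54) (nat_lit 5) (nat_lit 57) (nat_lit 5) (nat_lit 55) (nat_lit 5) (nat_lit 395) (nat_lit 314) (nat_lit 191)))) (XT.nd (nat_lit 156) (nat_lit 228) (nat_lit 0) (XT.nd (nat_lit 78) (nat_lit 0) (nat_lit 0) (XT.lf (nat_lit 0) (nat_lit 9343957131) (nat_lit 152) (nat_lit 5037015162) (nat_lit 228) (nat_lit 13338764314)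 (nat_lit 52) (nat_lit 5) (nat_lit 54) (nat_lit 5) (nat_lit 55) (nat_lit 5) (nat_lit 396) (nat_lit 314) (nat_lit 190)) (XT.lf (nat_lit 0) (nat_lit 20368269142) (nat_lit 228) (nat_lit 5334349657) (nat_lit 76) (nat_lit 2613204797) (nat_lit 52) (nat_lit 5) (nat_lit 55) (nat_lit 5) (nat_lit 53) (nat_lit 5) (nat_lit 397) (nat_lit 314) (nat_lit 189))) (XT.nd (nat_lit 78) (nat_lit 76) (nat_lit 0) (XT.lf (nat_lit 0) (nat_lit 8189374588) (nat_lit 152) (nat_lit 18463397314) (nat_lit 228) (nat_lit 2273496897) (nat_lit 50) (nat_lit 5) (nat_lit 52) (nat_lit 5) (nat_lit 53) (nat_lit 5) (nat_lit 398) (nat_lit 314) (nat_lit 188)) (XT.lf (nat_lit 0) (nat_lit 3544527859) (nat_lit 228) (nat_lit 7379027320) (nat_lit 76) (nat_lit 18629142744) (nat_lit 49) (nat_lit 5) (nat_lit 52) (nat_lit 5) (nat_lit 50) (nat_lit 5) (nat_lit 399) (nat_lit 314) (nat_lit 187))))))))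
noncomputable def xc143 : XT := (XT.nd (nat_lit 2028) (nat_lit 760) (nat_lit 0) (XT.nd (nat_lit 1014) (nat_lit 684) (nat_lit 0) (XT.nd (nat_lit 468) (nat_lit 456) (nat_lit 0) (XT.nd (nat_lit 234) (nat_lit 228) (nat_lit 0) (XT.nd (nat_lit 78) (nat_lit 152) (nat_lit 0) (XT.lf (nat_lit 0) (nat_lit 6464851666) (nat_lit 152) (nat_lit 3078034933) (nat_lit 228) (nat_lit 20652816317) (nat_lit 47) (nat_lit 5) (nat_lit 49) (nat_lit 5) (nat_lit 50) (nat_lit 5) (nat_lit 400) (nat_lit 314) (nat_lit 186)) (XT.nd (nat_lit 78) (nat_lit 152) (nat_lit 0) (XT.lf (nat_lit 0) (nat_lit 15833944054) (nat_lit 228) (nat_lit 10047712314) (nat_lit 76) (nat_lit 4972962109) (nat_lit 47) (nat_lit 5) (nat_lit 50) (nat_lit 5) (nat_lit 48) (nat_lit 5) (nat_lit 401) (nat_lit 314) (nat_lit 185)) (XT.lf (nat_lit 0) (nat_lit 4077109838) (nat_lit 152) (nat_lit 18296005244) (nat_lit 228) (nat_lit 9158407740) (nat_lit 45) (nat_lit 5) (nat_lit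 47) (nat_lit 5) (nat_lit 48) (nat_lit 5) (nat_lit 402) (nat_lit 314) (nat_lit 184)))) (XT.nd (nat_lit 78) (nat_lit 228) (nat_lit 0) (XT.lf (nat_lit 0) (nat_lit 18813925888) (nat_lit 152) (nat_lit 10385841380) (nat_lit 228) (nat_lit 3026230541) (nat_lit 45) (nat_lit 5) (nat_lit 47) (nat_lit 5) (nat_lit 48) (nat_lit 5) (nat_lit 403) (nat_lit 314) (nat_lit 183)) (XT.nd (nat_lit 78) (nat_lit 0) (nat_lit 0) (XT.lf (nat_lit 0) (nat_lit 1022462958) (nat_lit 152) (nat_lit 2203118975) (nat_lit 228) (nat_lit 29714782869) (nat_lit 42) (nat_lit 5) (nat_lit 44) (nat_lit 5) (nat_lit 45) (nat_lit 5) (nat_lit 404) (nat_lit 314) (nat_lit 182)) (XT.lf (nat_lit 0) (nat_lit 9790833255) (nat_lit 228) (nat_lit 17615734000) (nat_lit 76) (nat_lit 6263097873) (nat_lit 42) (nat_lit 5) (nat_lit 45) (nat_lit 5) (nat_lit 43) (nat_lit 5) (nat_lit 405) (nat_lit 314) (nat_lit 181))))) (XT.nd (nat_lit 234) (nat_lit 304) (nat_lit 0) (XT.nd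 (nat_lit 78) (nat_lit 152) (nat_lit 0) (XT.lf (nat_lit 0) (nat_lit 16565236542) (nat_lit 228) (nat_lit 2923265170) (nat_lit 76) (nat_lit 14931979310) (nat_lit 42) (nat_lit 5) (nat_lit 45) (nat_lit 5) (nat_lit 43) (nat_lit 5) (nat_lit 406) (nat_lit 314) (nat_lit 180)) (XT.nd (nat_lit 78) (nat_lit 0) (nat_lit 0) (XT.lf (nat_lit 0) (nat_lit 12436195416) (nat_lit 152) (nat_lit 11216882349) (nat_lit 228) (nat_lit 11537439775) (nat_lit 40) (nat_lit 5) (nat_lit 42) (nat_lit 5) (nat_lit 43) (nat_lit 5) (nat_lit 407) (nat_lit 314) (nat_lit 179)) (XT.lf (nat_lit 0) (nat_lit 28300067964) (nat_lit 152) (nat_lit 2673782376) (nat_lit 228) (nat_lit 5009198184) (nat_lit 40) (nat_lit 5) (nat_lit 42) (nat_lit 5) (nat_lit 43) (nat_lit 5) (nat_lit 408) (nat_lit 314) (nat_lit 178)))) (XT.nd (nat_lit 156) (nat_lit 152) (nat_lit 0) (XT.nd (nat_lit 78) (nat_lit 0) (nat_lit 0) (XT.lf (nat_lit 0) (nat_lit 1808668166) (nat_lit 152)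 (nat_lit 28893167255) (nat_lit 76) (nat_lit 6093210368) (nat_lit 38) (nat_lit 5) (nat_lit 40) (nat_lit 5) (nat_lit 39) (nat_lit 5) (nat_lit 409) (nat_lit 314) (nat_lit 177)) (XT.lf (nat_lit 0) (nat_lit 8826214247) (nat_lit 152) (nat_lit 13610185951) (nat_lit 76) (nat_lit 15190642247) (nat_lit 38) (nat_lit 5) (nat_lit 40) (nat_lit 5) (nat_lit 39) (nat_lit 5) (nat_lit 410) (nat_lit 314) (nat_lit 176))) (XT.nd (nat_lit 78) (nat_lit 0) (nat_lit 0) (XT.lf (nat_lit 0) (nat_lit 2157808713) (nat_lit 152) (nat_lit 13908481709) (nat_lit 228) (nat_lit 22417350468) (nat_lit 36) (nat_lit 5) (nat_lit 38) (nat_lit 5) (nat_lit 39) (nat_lit 5) (nat_lit 411) (nat_lit 314) (nat_lit 175)) (XT.lf (nat_lit 0) (nat_lit 18662408761) (nat_lit 152) (nat_lit 4989964047) (nat_lit 228) (nat_lit 15709702310) (nat_lit 36) (nat_lit 5) (nat_lit 38) (nat_lit 5) (nat_lit 39) (nat_lit 5) (nat_lit 412) (nat_lit 314) (nat_lit 174)))))) (XT.nd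 (nat_lit 468) (nat_lit 380) (nat_lit 0) (XT.nd (nat_lit 234) (nat_lit 152) (nat_lit 0) (XT.nd (nat_lit 78) (nat_lit 152) (nat_lit 0) (XT.lf (nat_lit 0) (nat_lit 31497928953) (nat_lit 228) (nat_lit 4660221514) (nat_lit 76) (nat_lit 4107757055) (nat_lit 36) (nat_lit 5) (nat_lit 39) (nat_lit 5) (nat_lit 37) (nat_lit 4) (nat_lit 413) (nat_lit 314) (nat_lit 173)) (XT.nd (nat_lit 78) (nat_lit 76) (nat_lit 0) (XT.lf (nat_lit 0) (nat_lit 12031041515) (nat_lit 76) (nat_lit 27704667248) (nat_lit 152) (nat_lit 1456442257) (nat_lit 35) (nat_lit 5) (nat_lit 36) (nat_lit 5) (nat_lit 37) (nat_lit 4) (nat_lit 414) (nat_lit 314) (nat_lit 172)) (XT.lf (nat_lit 0) (nat_lit 5995249291) (nat_lit 152) (nat_lit 12899803500) (nat_lit 76) (nat_lit 23248198724) (nat_lit 34) (nat_lit 5) (nat_lit 36) (nat_lit 5) (nat_lit 35) (nat_lit 5) (nat_lit 415) (nat_lit 314) (nat_lit 171)))) (XT.nd (nat_lit 78) (nat_lit 0) (nat_lit 0) (XT.lf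 (nat_lit 0) (nat_lit 3896639826) (nat_lit 152) (nat_lit 9774092221) (nat_lit 228) (nat_lit 29450836641) (nat_lit 32) (nat_lit 5) (nat_lit 34) (nat_lit 5) (nat_lit 35) (nat_lit 5) (nat_lit 416) (nat_lit 314) (nat_lit 170)) (XT.nd (nat_lit 78) (nat_lit 0) (nat_lit 0) (XT.lf (nat_lit 0) (nat_lit 21447231045) (nat_lit 152) (nat_lit 251662653) (nat_lit 228) (nat_lit 22426670876) (nat_lit 32) (nat_lit 5) (nat_lit 34) (nat_lit 5) (nat_lit 35) (nat_lit 5) (nat_lit 417) (nat_lit 314) (nat_lit 169)) (XT.lf (nat_lit 0) (nat_lit 30052083746) (nat_lit 228) (nat_lit 5741139536) (nat_lit 76) (nat_lit 9363933129) (nat_lit 32) (nat_lit 5) (nat_lit 35) (nat_lit 5) (nat_lit 33) (nat_lit 4) (nat_lit 418) (nat_lit 314) (nat_lit 168))))) (XT.nd (nat_lit 234) (nat_lit 76) (nat_lit 0) (XT.nd (nat_lit 78) (nat_lit 228) (nat_lit 0) (XT.lf (nat_lit 0) (nat_lit 11920764698) (nat_lit 76) (nat_lit 26844731045) (nat_lit 152) (nat_lit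 7450913009) (nat_lit 31) (nat_lit 5) (nat_lit 32) (nat_lit 5) (nat_lit 33) (nat_lit 4) (nat_lit 419) (nat_lit 314) (nat_lit 167)) (XT.nd (nat_lit 78) (nat_lit 152) (nat_lit 0) (XT.lf (nat_lit 0) (nat_lit 475531615) (nat_lit 152) (nat_lit 17093768481) (nat_lit 76) (nat_lit 29736481970) (nat_lit 30) (nat_lit 5) (nat_lit 32) (nat_lit 5) (nat_lit 31) (nat_lit 5) (nat_lit 420) (nat_lit 314) (nat_lit 166)) (XT.lf (nat_lit 0) (nat_lit 547930832) (nat_lit 152) (nat_lit 7940125355) (nat_lit 228) (nat_lit 39937627378) (nat_lit 28) (nat_lit 5) (nat_lit 30) (nat_lit 5) (nat_lit 31) (nat_lit 5) (nat_lit 421) (nat_lit 314) (nat_lit 165)))) (XT.nd (nat_lit 156) (nat_lit 76) (nat_lit 0) (XT.nd (nat_lit 78) (nat_lit 0) (nat_lit 0) (XT.lf (nat_lit 0) (nat_lit 16927096299) (nat_lit 228) (nat_lit 30538622381) (nat_lit 76) (nat_lit 2107880598) (nat_lit 28) (nat_lit 5) (nat_lit 31) (nat_lit 5) (nat_lit 29) (nat_lit 4) (nat_lit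 422) (nat_lit 314) (nat_lit 164)) (XT.lf (nat_lit 0) (nat_lit 25690936495) (nat_lit 228) (nat_lit 12770732475) (nat_lit 76) (nat_lit 12292135952) (nat_lit 28) (nat_lit 5) (nat_lit 31) (nat_lit 5) (nat_lit 29) (nat_lit 4) (nat_lit 423) (nat_lit 314) (nat_lit 163))) (XT.nd (nat_lit 78) (nat_lit 0) (nat_lit 0) (XT.lf (nat_lit 0) (nat_lit 5627582063) (nat_lit 76) (nat_lit 29137422855) (nat_lit 152) (nat_lit 17202993711) (nat_lit 27) (nat_lit 5) (nat_lit 28) (nat_lit 5) (nat_lit 29) (nat_lit 4) (nat_lit 424) (nat_lit 314) (nat_lit 162)) (XT.lf (nat_lit 0) (nat_lit 24827328900) (nat_lit 76) (nat_lit 19406222386) (nat_lit 152) (nat_lit 8981400432) (nat_lit 27) (nat_lit 5) (nat_lit 28) (nat_lit 5) (nat_lit 29) (nat_lit 4) (nat_lit 425) (nat_lit 314) (nat_lit 161))))))) (XT.nd (nat_lit 1014) (nat_lit 228) (nat_lit 0) (XT.nd (nat_lit 468) (nat_lit 228) (nat_lit 0) (XT.nd (nat_lit 234) (nat_lit 76) (nat_lit 0) (XT.nd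 (nat_lit 78) (nat_lit 228) (nat_lit 0) (XT.lf (nat_lit 0) (nat_lit 44591121898) (nat_lit 76) (nat_lit 9388523931) (nat_lit 152) (nat_lit 519864030) (nat_lit 27) (nat_lit 5) (nat_lit 28) (nat_lit 5) (nat_lit 29) (nat_lit 4) (nat_lit 426) (nat_lit 314) (nat_lit 160)) (XT.nd (nat_lit 78) (nat_lit 0) (nat_lit 0) (XT.lf (nat_lit 0) (nat_lit 8128330182) (nat_lit 228) (nat_lit 46613793466) (nat_lit 76) (nat_lit 1075336754) (nat_lit 24) (nat_lit 5) (nat_lit 27) (nat_lit 5) (nat_lit 25) (nat_lit 4) (nat_lit 427) (nat_lit 314) (nat_lit 159)) (XT.lf (nat_lit 0) (nat_lit 17213164014) (nat_lit 228) (nat_lit 28190596446) (nat_lit 76) (nat_lit 11765406419) (nat_lit 24) (nat_lit 5) (nat_lit 27) (nat_lit 5) (nat_lit 25) (nat_lit 4) (nat_lit 428) (nat_lit 314) (nat_lit 158)))) (XT.nd (nat_lit 78) (nat_lit 76) (nat_lit 0) (XT.lf (nat_lit 0) (nat_lit 26564369002) (nat_lit 228) (nat_lit 9226112125) (nat_lit 76) (nat_lit 22771129715)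 (nat_lit 24) (nat_lit 5) (nat_lit 27) (nat_lit 5) (nat_lit 25) (nat_lit 4) (nat_lit 429) (nat_lit 314) (nat_lit 157)) (XT.nd (nat_lit 78) (nat_lit 0) (nat_lit 0) (XT.lf (nat_lit 0) (nat_lit 10501145579) (nat_lit 76) (nat_lit 25789913958) (nat_lit 152) (nat_lit 23701921151) (nat_lit 23) (nat_lit 5) (nat_lit 24) (nat_lit 5) (nat_lit 25) (nat_lit 4) (nat_lit 430) (nat_lit 314) (nat_lit 156)) (XT.lf (nat_lit 0) (nat_lit 30998379540) (nat_lit 76) (nat_lit 15398412008) (nat_lit 152) (nat_lit 15067883873) (nat_lit 23) (nat_lit 5) (nat_lit 24) (nat_lit 5) (nat_lit 25) (nat_lit 4) (nat_lit 431) (nat_lit 314) (nat_lit 155))))) (XT.nd (nat_lit 234) (nat_lit 76) (nat_lit 0) (XT.nd (nat_lit 78) (nat_lit 152) (nat_lit 0) (XT.lf (nat_lit 0) (nat_lit 52099882241) (nat_lit 76) (nat_lit 4700060966) (nat_lit 152) (nat_lit 6180751345) (nat_lit 23) (nat_lit 5) (nat_lit 24) (nat_lit 5) (nat_lit 25) (nat_lit 4) (nat_lit 432)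 (nat_lit 314) (nat_lit 154)) (XT.nd (nat_lit 78) (nat_lit 0) (nat_lit 0) (XT.lf (nat_lit 0) (nat_lit 3061937335) (nat_lit 152) (nat_lit 55163301718) (nat_lit 76) (nat_lit 6311690103) (nat_lit 21) (nat_lit 5) (nat_lit 23) (nat_lit 5) (nat_lit 22) (nat_lit 4) (nat_lit 433) (nat_lit 314) (nat_lit 153)) (XT.lf (nat_lit 0) (nat_lit 12609555631) (nat_lit 152) (nat_lit 35797098048) (nat_lit 76) (nat_lit 17726805877) (nat_lit 21) (nat_lit 5) (nat_lit 23) (nat_lit 5) (nat_lit 22) (nat_lit 4) (nat_lit 434) (nat_lit 314) (nat_lit 152)))) (XT.nd (nat_lit 156) (nat_lit 0) (nat_lit 0) (XT.nd (nat_lit 78) (nat_lit 76) (nat_lit 0) (XT.lf (nat_lit 0) (nat_lit 22438144166) (nat_lit 152) (nat_lit 15860074459) (nat_lit 76) (nat_lit 29479831868) (nat_lit 21) (nat_lit 5) (nat_lit 23) (nat_lit 5) (nat_lit 22) (nat_lit 4) (nat_lit 435) (nat_lit 314) (nat_lit 151)) (XT.lf (nat_lit 0) (nat_lit 4758036173) (nat_lit 76) (nat_lit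 27843992008) (nat_lit 152) (nat_lit 36868738691) (nat_lit 20) (nat_lit 5) (nat_lit 21) (nat_lit 5) (nat_lit 22) (nat_lit 4) (nat_lit 436) (nat_lit 314) (nat_lit 150))) (XT.nd (nat_lit 78) (nat_lit 0) (nat_lit 0) (XT.lf (nat_lit 0) (nat_lit 26310032779) (nat_lit 76) (nat_lit 16915712664) (nat_lit 152) (nat_lit 27983872624) (nat_lit 20) (nat_lit 5) (nat_lit 21) (nat_lit 5) (nat_lit 22) (nat_lit 4) (nat_lit 437) (nat_lit 314) (nat_lit 149)) (XT.lf (nat_lit 0) (nat_lit 48499100620) (nat_lit 76) (nat_lit 5663987265) (nat_lit 152) (nat_lit 18837700303) (nat_lit 20) (nat_lit 5) (nat_lit 21) (nat_lit 5) (nat_lit 22) (nat_lit 4) (nat_lit 438) (nat_lit 314) (nat_lit 148)))))) (XT.nd (nat_lit 37362) (nat_lit 0) (nat_lit 19304) (XT.nd (nat_lit 234) (nat_lit 76) (nat_lit 0) (XT.nd (nat_lit 78) (nat_lit 152) (nat_lit 0) (XT.lf (nat_lit 0) (nat_lit 65480528836) (nat_lit 152) (nat_lit 3558130561) (nat_lit 0) (nat_lit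 5805475448) (nat_lit 20) (nat_lit 5) (nat_lit 22) (nat_lit 4) (nat_lit 20) (nat_lit 4) (nat_lit 439) (nat_lit 314) (nat_lit 147)) (XT.nd (nat_lit 78) (nat_lit 0) (nat_lit 0) (XT.lf (nat_lit 0) (nat_lit 616469308) (nat_lit 152) (nat_lit 58436192282) (nat_lit 76) (nat_lit 17683123405) (nat_lit 18) (nat_lit 5) (nat_lit 20) (nat_lit 5) (nat_lit 19) (nat_lit 4) (nat_lit 440) (nat_lit 314) (nat_lit 146)) (XT.lf (nat_lit 0) (nat_lit 10739205945) (nat_lit 152) (nat_lit 37899242337) (nat_lit 76) (nat_lit 30042012062) (nat_lit 18) (nat_lit 5) (nat_lit 20) (nat_lit 5) (nat_lit 19) (nat_lit 4) (nat_lit 441) (nat_lit 314) (nat_lit 145)))) (XT.nd (nat_lit 36972) (nat_lit 0) (nat_lit 20140) (XT.nd (nat_lit 78) (nat_lit 76) (nat_lit 0) (XT.lf (nat_lit 0) (nat_lit 21160937675) (nat_lit 152) (nat_lit 16754976854) (nat_lit 76) (nat_lit 42767702725) (nat_lit 18) (nat_lit 5) (nat_lit 20) (nat_lit 5) (nat_lit 19) (nat_lit 4)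 (nat_lit 442) (nat_lit 314) (nat_lit 144)) (XT.lf (nat_lit 0) (nat_lit 5114889656) (nat_lit 76) (nat_lit 26825048657) (nat_lit 152) (nat_lit 50805592721) (nat_lit 17) (nat_lit 5) (nat_lit 18) (nat_lit 5) (nat_lit 19) (nat_lit 4) (nat_lit 443) (nat_lit 314) (nat_lit 143))) (XT.nd (nat_lit 78) (nat_lit 836) (nat_lit 0) (XT.lf (nat_lit 0) (nat_lit 3241186249) (nat_lit 836) (nat_lit 231782864) (nat_lit 836) (nat_lit 231782864) (nat_lit 293) (nat_lit 3) (nat_lit 304) (nat_lit 3) (nat_lit 304) (nat_lit 5) (nat_lit 315) (nat_lit 315) (nat_lit 270)) (XT.lf (nat_lit 0) (nat_lit 561941558) (nat_lit 836) (nat_lit 4376696849) (nat_lit 912) (nat_lit 2536375651) (nat_lit 282) (nat_lit 5) (nat_lit 293) (nat_lit 3) (nat_lit 294) (nat_lit 5) (nat_lit 316) (nat_lit 315) (nat_lit 269))))) (XT.nd (nat_lit 234) (nat_lit 836) (nat_lit 0) (XT.nd (nat_lit 78) (nat_lit 0) (nat_lit 0) (XT.lf (nat_lit 0) (nat_lit 2024728741) (nat_lit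 836) (nat_lit 805727521) (nat_lit 912) (nat_lit 4713380810) (nat_lit 282) (nat_lit 5) (nat_lit 293) (nat_lit 3) (nat_lit 294) (nat_lit 5) (nat_lit 317) (nat_lit 315) (nat_lit 268)) (XT.nd (nat_lit 78) (nat_lit 0) (nat_lit 76) (XT.lf (nat_lit 76) (nat_lit 2899125896) (nat_lit 0) (nat_lit 604752446) (nat_lit 912) (nat_lit 4111723803) (nat_lit 283) (nat_lit 5) (nat_lit 282) (nat_lit 5) (nat_lit 294) (nat_lit 5) (nat_lit 318) (nat_lit 315) (nat_lit 267)) (XT.lf (nat_lit 0) (nat_lit 4998018622) (nat_lit 836) (nat_lit 1005371439) (nat_lit 912) (nat_lit 1687061848) (nat_lit 283) (nat_lit 5) (nat_lit 294) (nat_lit 5) (nat_lit 295) (nat_lit 5) (nat_lit 319) (nat_lit 315) (nat_lit 266)))) (XT.nd (nat_lit 156) (nat_lit 0) (nat_lit 76) (XT.nd (nat_lit 78) (nat_lit 912) (nat_lit 0) (XT.lf (nat_lit 76) (nat_lit 2835900095) (nat_lit 0) (nat_lit 3682074706) (nat_lit 912) (nat_lit 1250191379) (nat_lit 284) (nat_lit 5)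 (nat_lit 283) (nat_lit 5) (nat_lit 295) (nat_lit 5) (nat_lit 320) (nat_lit 315) (nat_lit 265)) (XT.lf (nat_lit 0) (nat_lit 189402260) (nat_lit 912) (nat_lit 1068541585) (nat_lit 988) (nat_lit 6591485845) (nat_lit 271) (nat_lit 5) (nat_lit 283) (nat_lit 5) (nat_lit 284) (nat_lit 5) (nat_lit 321) (nat_lit 315) (nat_lit 264))) (XT.nd (nat_lit 78) (nat_lit 0) (nat_lit 0) (XT.lf (nat_lit 0) (nat_lit 1637602326) (nat_lit 912) (nat_lit 5020539669) (nat_lit 988) (nat_lit 1274946007) (nat_lit 272) (nat_lit 5) (nat_lit 284) (nat_lit 5) (nat_lit 285) (nat_lit 5) (nat_lit 322) (nat_lit 315) (nat_lit 263)) (XT.lf (nat_lit 0) (nat_lit 3103876345) (nat_lit 912) (nat_lit 1028291918) (nat_lit 988) (nat_lit 3887892284) (nat_lit 272) (nat_lit 5) (nat_lit 284) (nat_lit 5) (nat_lit 285) (nat_lit 5) (nat_lit 323) (nat_lit 315) (nat_lit 262))))))))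
noncomputable def xc144 : XT := (XT.nd (nat_lit 2028) (nat_lit 5776) (nat_lit 0) (XT.nd (nat_lit 1014) (nat_lit 4408) (nat_lit 0) (XT.nd (nat_lit 468) (nat_lit 3116) (nat_lit 0) (XT.nd (nat_lit 234) (nat_lit 912) (nat_lit 0) (XT.nd (nat_lit 78) (nat_lit 0) (nat_lit 76) (XT.lf (nat_lit 76) (nat_lit 3113634058) (nat_lit 0) (nat_lit 1483129880) (nat_lit 988) (nat_lit 3513441635) (nat_lit 273) (nat_lit 5) (nat_lit 272) (nat_lit 5) (nat_lit 285) (nat_lit 5) (nat_lit 324) (nat_lit 315) (nat_lit 261)) (XT.nd (nat_lit 78) (nat_lit 0) (nat_lit 0) (XT.lf (nat_lit 0) (nat_lit 6110826126) (nat_lit 912) (nat_lit 846043943) (nat_lit 988) (nat_lit 1246934080) (nat_lit 273) (nat_lit 5) (nat_lit 285) (nat_lit 5) (nat_lit 286) (nat_lit 5) (nat_lit 325) (nat_lit 315) (nat_lit 260)) (XT.lf (nat_lit 76) (nat_lit 3450458362) (nat_lit 0) (nat_lit 4222976105) (nat_lit 988) (nat_lit 626722136) (nat_lit 274) (nat_lit 5) (nat_lit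 273) (nat_lit 5) (nat_lit 286) (nat_lit 5) (nat_lit 326) (nat_lit 315) (nat_lit 259)))) (XT.nd (nat_lit 78) (nat_lit 0) (nat_lit 76) (XT.lf (nat_lit 0) (nat_lit 830715901) (nat_lit 988) (nat_lit 546320703) (nat_lit 1064) (nat_lit 7023212554) (nat_lit 260) (nat_lit 5) (nat_lit 273) (nat_lit 5) (nat_lit 274) (nat_lit 5) (nat_lit 327) (nat_lit 315) (nat_lit 258)) (XT.nd (nat_lit 78) (nat_lit 0) (nat_lit 0) (XT.lf (nat_lit 0) (nat_lit 2329602458) (nat_lit 988) (nat_lit 4593156375) (nat_lit 1064) (nat_lit 1580126133) (nat_lit 261) (nat_lit 5) (nat_lit 274) (nat_lit 5) (nat_lit 275) (nat_lit 5) (nat_lit 328) (nat_lit 315) (nat_lit 257)) (XT.lf (nat_lit 0) (nat_lit 3850820597) (nat_lit 988) (nat_lit 143437501) (nat_lit 1064) (nat_lit 4615056025) (nat_lit 261) (nat_lit 5) (nat_lit 274) (nat_lit 5) (nat_lit 275) (nat_lit 5) (nat_lit 329) (nat_lit 315) (nat_lit 256))))) (XT.nd (nat_lit 234) (nat_lit 2280) (nat_lit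 0) (XT.nd (nat_lit 78) (nat_lit 912) (nat_lit 0) (XT.lf (nat_lit 76) (nat_lit 4496473669) (nat_lit 0) (nat_lit 923802691) (nat_lit 1064) (nat_lit 3298615966) (nat_lit 262) (nat_lit 5) (nat_lit 261) (nat_lit 5) (nat_lit 275) (nat_lit 5) (nat_lit 330) (nat_lit 315) (nat_lit 255)) (XT.nd (nat_lit 78) (nat_lit 0) (nat_lit 0) (XT.lf (nat_lit 0) (nat_lit 401050238) (nat_lit 988) (nat_lit 6622956268) (nat_lit 1064) (nat_lit 1808168852) (nat_lit 249) (nat_lit 5) (nat_lit 262) (nat_lit 5) (nat_lit 263) (nat_lit 5) (nat_lit 331) (nat_lit 315) (nat_lit 254)) (XT.lf (nat_lit 0) (nat_lit 5208715209) (nat_lit 988) (nat_lit 3480030514) (nat_lit 1064) (nat_lit 259756482) (nat_lit 249) (nat_lit 5) (nat_lit 262) (nat_lit 5) (nat_lit 263) (nat_lit 5) (nat_lit 332) (nat_lit 315) (nat_lit 253)))) (XT.nd (nat_lit 156) (nat_lit 1140) (nat_lit 0) (XT.nd (nat_lit 78) (nat_lit 0) (nat_lit 0) (XT.lf (nat_lit 0) (nat_lit 1068713231)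 (nat_lit 1064) (nat_lit 212543908) (nat_lit 1140) (nat_lit 7787541039) (nat_lit 234) (nat_lit 5) (nat_lit 248) (nat_lit 5) (nat_lit 249) (nat_lit 5) (nat_lit 333) (nat_lit 315) (nat_lit 252)) (XT.lf (nat_lit 0) (nat_lit 2894521063) (nat_lit 1140) (nat_lit 3159187317) (nat_lit 76) (nat_lit 3138009775) (nat_lit 234) (nat_lit 5) (nat_lit 249) (nat_lit 5) (nat_lit 235) (nat_lit 5) (nat_lit 334) (nat_lit 315) (nat_lit 251))) (XT.nd (nat_lit 78) (nat_lit 0) (nat_lit 0) (XT.lf (nat_lit 0) (nat_lit 1828975511) (nat_lit 1140) (nat_lit 2710770755) (nat_lit 1216) (nat_lit 4779101209) (nat_lit 219) (nat_lit 5) (nat_lit 234) (nat_lit 5) (nat_lit 235) (nat_lit 5) (nat_lit 335) (nat_lit 315) (nat_lit 250)) (XT.lf (nat_lit 0) (nat_lit 6238255773) (nat_lit 1216) (nat_lit 2457013416) (nat_lit 76) (nat_lit 754431467) (nat_lit 219) (nat_lit 5) (nat_lit 235) (nat_lit 5) (nat_lit 220) (nat_lit 5) (nat_lit 336) (nat_lit 315)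 (nat_lit 249)))))) (XT.nd (nat_lit 468) (nat_lit 1596) (nat_lit 0) (XT.nd (nat_lit 234) (nat_lit 1140) (nat_lit 0) (XT.nd (nat_lit 78) (nat_lit 684) (nat_lit 0) (XT.lf (nat_lit 0) (nat_lit 2721677426) (nat_lit 988) (nat_lit 5284743217) (nat_lit 1064) (nat_lit 1577524786) (nat_lit 206) (nat_lit 5) (nat_lit 219) (nat_lit 5) (nat_lit 220) (nat_lit 5) (nat_lit 337) (nat_lit 315) (nat_lit 248)) (XT.nd (nat_lit 78) (nat_lit 608) (nat_lit 0) (XT.lf (nat_lit 0) (nat_lit 94452518) (nat_lit 1064) (nat_lit 1648453924) (nat_lit 76) (nat_lit 7979573256) (nat_lit 205) (nat_lit 5) (nat_lit 219) (nat_lit 5) (nat_lit 206) (nat_lit 5) (nat_lit 338) (nat_lit 315) (nat_lit 247)) (XT.lf (nat_lit 0) (nat_lit 1806788718) (nat_lit 684) (nat_lit 6135069412) (nat_lit 76) (nat_lit 1922210813) (nat_lit 197) (nat_lit 5) (nat_lit 206) (nat_lit 5) (nat_lit 198) (nat_lit 5) (nat_lit 339) (nat_lit 315) (nat_lit 246)))) (XT.nd (nat_lit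 78) (nat_lit 1140) (nat_lit 0) (XT.lf (nat_lit 0) (nat_lit 3572274316) (nat_lit 684) (nat_lit 756856709) (nat_lit 76) (nat_lit 5680745451) (nat_lit 197) (nat_lit 5) (nat_lit 206) (nat_lit 5) (nat_lit 198) (nat_lit 5) (nat_lit 340) (nat_lit 315) (nat_lit 245)) (XT.nd (nat_lit 78) (nat_lit 608) (nat_lit 0) (XT.lf (nat_lit 0) (nat_lit 4846600109) (nat_lit 532) (nat_lit 559365134) (nat_lit 608) (nat_lit 4753659057) (nat_lit 190) (nat_lit 5) (nat_lit 197) (nat_lit 5) (nat_lit 198) (nat_lit 5) (nat_lit 341) (nat_lit 315) (nat_lit 244)) (XT.lf (nat_lit 0) (nat_lit 261801831) (nat_lit 608) (nat_lit 7044324255) (nat_lit 684) (nat_lit 3007417308) (nat_lit 182) (nat_lit 5) (nat_lit 190) (nat_lit 5) (nat_lit 191) (nat_lit 5) (nat_lit 342) (nat_lit 315) (nat_lit 243))))) (XT.nd (nat_lit 234) (nat_lit 988) (nat_lit 0) (XT.nd (nat_lit 78) (nat_lit 608) (nat_lit 0) (XT.lf (nat_lit 0) (nat_lit 6076119111) (nat_lit 608)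 (nat_lit 3216181136) (nat_lit 684) (nat_lit 1178931511) (nat_lit 182) (nat_lit 5) (nat_lit 190) (nat_lit 5) (nat_lit 191) (nat_lit 5) (nat_lit 343) (nat_lit 315) (nat_lit 242)) (XT.nd (nat_lit 78) (nat_lit 0) (nat_lit 0) (XT.lf (nat_lit 0) (nat_lit 681945273) (nat_lit 608) (nat_lit 9219663549) (nat_lit 76) (nat_lit 732121050) (nat_lit 174) (nat_lit 5) (nat_lit 182) (nat_lit 5) (nat_lit 175) (nat_lit 5) (nat_lit 344) (nat_lit 315) (nat_lit 241)) (XT.lf (nat_lit 0) (nat_lit 2622612991) (nat_lit 608) (nat_lit 3387407974) (nat_lit 76) (nat_lit 4789322076) (nat_lit 174) (nat_lit 5) (nat_lit 182) (nat_lit 5) (nat_lit 175) (nat_lit 5) (nat_lit 345) (nat_lit 315) (nat_lit 240)))) (XT.nd (nat_lit 156) (nat_lit 456) (nat_lit 0) (XT.nd (nat_lit 78) (nat_lit 0) (nat_lit 0) (XT.lf (nat_lit 0) (nat_lit 2640964285) (nat_lit 532) (nat_lit 1977762982) (nat_lit 608) (nat_lit 6351300047) (nat_lit 167) (nat_lit 5) (nat_lit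 174) (nat_lit 5) (nat_lit 175) (nat_lit 5) (nat_lit 346) (nat_lit 315) (nat_lit 239)) (XT.lf (nat_lit 0) (nat_lit 6702529005) (nat_lit 608) (nat_lit 2277342212) (nat_lit 76) (nat_lit 2165145714) (nat_lit 167) (nat_lit 5) (nat_lit 175) (nat_lit 5) (nat_lit 168) (nat_lit 5) (nat_lit 347) (nat_lit 315) (nat_lit 238))) (XT.nd (nat_lit 78) (nat_lit 0) (nat_lit 0) (XT.lf (nat_lit 0) (nat_lit 3984080546) (nat_lit 456) (nat_lit 4895796198) (nat_lit 532) (nat_lit 2444466918) (nat_lit 161) (nat_lit 5) (nat_lit 167) (nat_lit 5) (nat_lit 168) (nat_lit 5) (nat_lit 348) (nat_lit 315) (nat_lit 237)) (XT.lf (nat_lit 0) (nat_lit 10450311869) (nat_lit 456) (nat_lit 668878754) (nat_lit 532) (nat_lit 389978051) (nat_lit 161) (nat_lit 5) (nat_lit 167) (nat_lit 5) (nat_lit 168) (nat_lit 5) (nat_lit 349) (nat_lit 315) (nat_lit 236))))))) (XT.nd (nat_lit 1014) (nat_lit 2356) (nat_lit 0) (XT.nd (nat_lit 468) (nat_lit 1520) (nat_lit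 0) (XT.nd (nat_lit 234) (nat_lit 912) (nat_lit 0) (XT.nd (nat_lit 78) (nat_lit 456) (nat_lit 0) (XT.lf (nat_lit 0) (nat_lit 1755278714) (nat_lit 532) (nat_lit 6262537226) (nat_lit 76) (nat_lit 3679357041) (nat_lit 154) (nat_lit 5) (nat_lit 161) (nat_lit 5) (nat_lit 155) (nat_lit 5) (nat_lit 350) (nat_lit 315) (nat_lit 235)) (XT.nd (nat_lit 78) (nat_lit 0) (nat_lit 0) (XT.lf (nat_lit 0) (nat_lit 217968548) (nat_lit 456) (nat_lit 3733186377) (nat_lit 532) (nat_lit 7939739997) (nat_lit 148) (nat_lit 5) (nat_lit 154) (nat_lit 5) (nat_lit 155) (nat_lit 5) (nat_lit 351) (nat_lit 315) (nat_lit 234)) (XT.lf (nat_lit 0) (nat_lit 6258305368) (nat_lit 532) (nat_lit 5104693747) (nat_lit 76) (nat_lit 726083323) (nat_lit 148) (nat_lit 5) (nat_lit 155) (nat_lit 5) (nat_lit 149) (nat_lit 5) (nat_lit 352) (nat_lit 315) (nat_lit 233)))) (XT.nd (nat_lit 78) (nat_lit 456) (nat_lit 0) (XT.lf (nat_lit 0) (nat_lit 1625968385)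 (nat_lit 456) (nat_lit 7037018319) (nat_lit 532) (nat_lit 3629394785) (nat_lit 142) (nat_lit 5) (nat_lit 148) (nat_lit 5) (nat_lit 149) (nat_lit 5) (nat_lit 353) (nat_lit 315) (nat_lit 232)) (XT.nd (nat_lit 78) (nat_lit 456) (nat_lit 0) (XT.lf (nat_lit 0) (nat_lit 8634095944) (nat_lit 456) (nat_lit 2533411640) (nat_lit 532) (nat_lit 1333455900) (nat_lit 142) (nat_lit 5) (nat_lit 148) (nat_lit 5) (nat_lit 149) (nat_lit 5) (nat_lit 354) (nat_lit 315) (nat_lit 231)) (XT.lf (nat_lit 0) (nat_lit 1038796291) (nat_lit 456) (nat_lit 9576216355) (nat_lit 76) (nat_lit 2099680142) (nat_lit 136) (nat_lit 5) (nat_lit 142) (nat_lit 5) (nat_lit 137) (nat_lit 5) (nat_lit 355) (nat_lit 315) (nat_lit 230))))) (XT.nd (nat_lit 234) (nat_lit 1140) (nat_lit 0) (XT.nd (nat_lit 78) (nat_lit 380) (nat_lit 0) (XT.lf (nat_lit 0) (nat_lit 3496890993) (nat_lit 456) (nat_lit 2568184443) (nat_lit 76) (nat_lit 6868131855) (nat_lit 136)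 (nat_lit 5) (nat_lit 142) (nat_lit 5) (nat_lit 137) (nat_lit 5) (nat_lit 356) (nat_lit 315) (nat_lit 229)) (XT.nd (nat_lit 78) (nat_lit 0) (nat_lit 0) (XT.lf (nat_lit 0) (nat_lit 4713822371) (nat_lit 380) (nat_lit 1337847837) (nat_lit 456) (nat_lit 7105932054) (nat_lit 131) (nat_lit 5) (nat_lit 136) (nat_lit 5) (nat_lit 137) (nat_lit 5) (nat_lit 357) (nat_lit 315) (nat_lit 228)) (XT.lf (nat_lit 0) (nat_lit 8721181890) (nat_lit 456) (nat_lit 1183804956) (nat_lit 76) (nat_lit 3482612457) (nat_lit 131) (nat_lit 5) (nat_lit 137) (nat_lit 5) (nat_lit 132) (nat_lit 5) (nat_lit 358) (nat_lit 315) (nat_lit 227)))) (XT.nd (nat_lit 156) (nat_lit 304) (nat_lit 0) (XT.nd (nat_lit 78) (nat_lit 456) (nat_lit 0) (XT.lf (nat_lit 0) (nat_lit 6377414439) (nat_lit 380) (nat_lit 5146510878) (nat_lit 456) (nat_lit 2098989065) (nat_lit 126) (nat_lit 5) (nat_lit 131) (nat_lit 5) (nat_lit 132) (nat_lit 5) (nat_lit 359) (nat_lit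 315) (nat_lit 226)) (XT.lf (nat_lit 0) (nat_lit 297329270) (nat_lit 380) (nat_lit 231155215) (nat_lit 456) (nat_lit 13336848943) (nat_lit 120) (nat_lit 5) (nat_lit 125) (nat_lit 5) (nat_lit 126) (nat_lit 5) (nat_lit 360) (nat_lit 315) (nat_lit 225))) (XT.nd (nat_lit 78) (nat_lit 304) (nat_lit 0) (XT.lf (nat_lit 0) (nat_lit 3291953871) (nat_lit 456) (nat_lit 5994030770) (nat_lit 76) (nat_lit 4825447622) (nat_lit 120) (nat_lit 5) (nat_lit 126) (nat_lit 5) (nat_lit 121) (nat_lit 5) (nat_lit 361) (nat_lit 315) (nat_lit 224)) (XT.lf (nat_lit 0) (nat_lit 1812851988) (nat_lit 304) (nat_lit 4324825785) (nat_lit 380) (nat_lit 8227266899) (nat_lit 116) (nat_lit 5) (nat_lit 120) (nat_lit 5) (nat_lit 121) (nat_lit 5) (nat_lit 362) (nat_lit 315) (nat_lit 223)))))) (XT.nd (nat_lit 546) (nat_lit 1292) (nat_lit 0) (XT.nd (nat_lit 234) (nat_lit 608) (nat_lit 0) (XT.nd (nat_lit 78) (nat_lit 456) (nat_lit 0) (XT.lf (nat_lit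 0) (nat_lit 9117347841) (nat_lit 380) (nat_lit 4683251832) (nat_lit 76) (nat_lit 824016347) (nat_lit 116) (nat_lit 5) (nat_lit 121) (nat_lit 5) (nat_lit 117) (nat_lit 5) (nat_lit 363) (nat_lit 315) (nat_lit 222)) (XT.nd (nat_lit 78) (nat_lit 76) (nat_lit 0) (XT.lf (nat_lit 0) (nat_lit 3418679503) (nat_lit 380) (nat_lit 8823896139) (nat_lit 456) (nat_lit 2647827321) (nat_lit 111) (nat_lit 5) (nat_lit 116) (nat_lit 5) (nat_lit 117) (nat_lit 5) (nat_lit 364) (nat_lit 315) (nat_lit 221)) (XT.lf (nat_lit 0) (nat_lit 319951088) (nat_lit 456) (nat_lit 3333398985) (nat_lit 76) (nat_lit 11509886835) (nat_lit 110) (nat_lit 5) (nat_lit 116) (nat_lit 5) (nat_lit 111) (nat_lit 5) (nat_lit 365) (nat_lit 315) (nat_lit 220)))) (XT.nd (nat_lit 156) (nat_lit 304) (nat_lit 0) (XT.nd (nat_lit 78) (nat_lit 0) (nat_lit 0) (XT.lf (nat_lit 0) (nat_lit 3370442695) (nat_lit 380) (nat_lit 10363233010) (nat_lit 76) (nat_lit 1708396320)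 (nat_lit 106) (nat_lit 5) (nat_lit 111) (nat_lit 5) (nat_lit 107) (nat_lit 5) (nat_lit 366) (nat_lit 315) (nat_lit 219)) (XT.lf (nat_lit 0) (nat_lit 6564005598) (nat_lit 380) (nat_lit 1979440770) (nat_lit 76) (nat_lit 7184288447) (nat_lit 106) (nat_lit 5) (nat_lit 111) (nat_lit 5) (nat_lit 107) (nat_lit 5) (nat_lit 367) (nat_lit 315) (nat_lit 218))) (XT.nd (nat_lit 78) (nat_lit 0) (nat_lit 0) (XT.lf (nat_lit 0) (nat_lit 6762140400) (nat_lit 304) (nat_lit 3138169534) (nat_lit 380) (nat_lit 6120258562) (nat_lit 102) (nat_lit 5) (nat_lit 106) (nat_lit 5) (nat_lit 107) (nat_lit 5) (nat_lit 368) (nat_lit 315) (nat_lit 217)) (XT.lf (nat_lit 0) (nat_lit 13362382441) (nat_lit 380) (nat_lit 564487118) (nat_lit 76) (nat_lit 2394556039) (nat_lit 102) (nat_lit 5) (nat_lit 107) (nat_lit 5) (nat_lit 103) (nat_lit 5) (nat_lit 369) (nat_lit 315) (nat_lit 216))))) (XT.nd (nat_lit 234) (nat_lit 608) (nat_lit 0) (XT.nd (nat_lit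 78) (nat_lit 304) (nat_lit 0) (XT.lf (nat_lit 0) (nat_lit 387588269) (nat_lit 380) (nat_lit 8132329879) (nat_lit 76) (nat_lit 8108421632) (nat_lit 97) (nat_lit 5) (nat_lit 102) (nat_lit 5) (nat_lit 98) (nat_lit 5) (nat_lit 370) (nat_lit 315) (nat_lit 215)) (XT.nd (nat_lit 78) (nat_lit 0) (nat_lit 0) (XT.lf (nat_lit 0) (nat_lit 857740277) (nat_lit 304) (nat_lit 2914156090) (nat_lit 380) (nat_lit 13171791585) (nat_lit 93) (nat_lit 5) (nat_lit 97) (nat_lit 5) (nat_lit 98) (nat_lit 5) (nat_lit 371) (nat_lit 315) (nat_lit 214)) (XT.lf (nat_lit 0) (nat_lit 7351092230) (nat_lit 380) (nat_lit 7035557883) (nat_lit 76) (nat_lit 2879053503) (nat_lit 93) (nat_lit 5) (nat_lit 98) (nat_lit 5) (nat_lit 94) (nat_lit 5) (nat_lit 372) (nat_lit 315) (nat_lit 213)))) (XT.nd (nat_lit 156) (nat_lit 380) (nat_lit 0) (XT.nd (nat_lit 78) (nat_lit 0) (nat_lit 0) (XT.lf (nat_lit 0) (nat_lit 2277229225) (nat_lit 228) (nat_lit 8794609851)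 (nat_lit 304) (nat_lit 6524522996) (nat_lit 90) (nat_lit 5) (nat_lit 93) (nat_lit 5) (nat_lit 94) (nat_lit 5) (nat_lit 373) (nat_lit 315) (nat_lit 212)) (XT.lf (nat_lit 0) (nat_lit 11989165835) (nat_lit 228) (nat_lit 2969767266) (nat_lit 304) (nat_lit 2976372789) (nat_lit 90) (nat_lit 5) (nat_lit 93) (nat_lit 5) (nat_lit 94) (nat_lit 5) (nat_lit 374) (nat_lit 315) (nat_lit 211))) (XT.nd (nat_lit 78) (nat_lit 0) (nat_lit 0) (XT.lf (nat_lit 0) (nat_lit 714500267) (nat_lit 380) (nat_lit 14562454370) (nat_lit 76) (nat_lit 3005789347) (nat_lit 85) (nat_lit 5) (nat_lit 90) (nat_lit 5) (nat_lit 86) (nat_lit 5) (nat_lit 375) (nat_lit 315) (nat_lit 210)) (XT.lf (nat_lit 0) (nat_lit 4530470457) (nat_lit 380) (nat_lit 4923904647) (nat_lit 76) (nat_lit 9183126982) (nat_lit 85) (nat_lit 5) (nat_lit 90) (nat_lit 5) (nat_lit 86) (nat_lit 5) (nat_lit 376) (nat_lit 315) (nat_lit 209))))))))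
noncomputable def xc145 : XT := (XT.nd (nat_lit 2028) (nat_lit 1748) (nat_lit 0) (XT.nd (nat_lit 1014) (nat_lit 1216) (nat_lit 0) (XT.nd (nat_lit 468) (nat_lit 912) (nat_lit 0) (XT.nd (nat_lit 234) (nat_lit 304) (nat_lit 0) (XT.nd (nat_lit 78) (nat_lit 228) (nat_lit 0) (XT.lf (nat_lit 0) (nat_lit 5079388835) (nat_lit 228) (nat_lit 3414969342) (nat_lit 304) (nat_lit 10507548135) (nat_lit 82) (nat_lit 5) (nat_lit 85) (nat_lit 5) (nat_lit 86) (nat_lit 5) (nat_lit 377) (nat_lit 315) (nat_lit 208)) (XT.nd (nat_lit 78) (nat_lit 228) (nat_lit 0) (XT.lf (nat_lit 0) (nat_lit 12639104176) (nat_lit 304) (nat_lit 3943178553) (nat_lit 76) (nat_lit 2793108031) (nat_lit 82) (nat_lit 5) (nat_lit 86) (nat_lit 5) (nat_lit 83) (nat_lit 5) (nat_lit 378) (nat_lit 315) (nat_lit 207)) (XT.lf (nat_lit 0) (nat_lit 6403695640) (nat_lit 228) (nat_lit 10585066913) (nat_lit 304) (nat_lit 2768906246) (nat_lit 79) (nat_lit 5) (nat_lit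 82) (nat_lit 5) (nat_lit 83) (nat_lit 5) (nat_lit 379) (nat_lit 315) (nat_lit 206)))) (XT.nd (nat_lit 78) (nat_lit 228) (nat_lit 0) (XT.lf (nat_lit 0) (nat_lit 1317263091) (nat_lit 304) (nat_lit 3044538240) (nat_lit 76) (nat_lit 15788475416) (nat_lit 78) (nat_lit 5) (nat_lit 82) (nat_lit 5) (nat_lit 79) (nat_lit 5) (nat_lit 380) (nat_lit 315) (nat_lit 205)) (XT.nd (nat_lit 78) (nat_lit 0) (nat_lit 0) (XT.lf (nat_lit 0) (nat_lit 5550439096) (nat_lit 304) (nat_lit 12898554318) (nat_lit 76) (nat_lit 2102450494) (nat_lit 75) (nat_lit 5) (nat_lit 79) (nat_lit 5) (nat_lit 76) (nat_lit 5) (nat_lit 381) (nat_lit 315) (nat_lit 204)) (XT.lf (nat_lit 0) (nat_lit 9970664010) (nat_lit 304) (nat_lit 2296089756) (nat_lit 76) (nat_lit 8696096179) (nat_lit 75) (nat_lit 5) (nat_lit 79) (nat_lit 5) (nat_lit 76) (nat_lit 5) (nat_lit 382) (nat_lit 315) (nat_lit 203))))) (XT.nd (nat_lit 234) (nat_lit 380) (nat_lit 0) (XT.nd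 (nat_lit 78) (nat_lit 304) (nat_lit 0) (XT.lf (nat_lit 0) (nat_lit 8773787276) (nat_lit 228) (nat_lit 5820279655) (nat_lit 304) (nat_lit 6790419407) (nat_lit 72) (nat_lit 5) (nat_lit 75) (nat_lit 5) (nat_lit 76) (nat_lit 5) (nat_lit 383) (nat_lit 315) (nat_lit 202)) (XT.nd (nat_lit 78) (nat_lit 304) (nat_lit 0) (XT.lf (nat_lit 0) (nat_lit 19373813313) (nat_lit 304) (nat_lit 1625345969) (nat_lit 76) (nat_lit 819088458) (nat_lit 72) (nat_lit 5) (nat_lit 76) (nat_lit 5) (nat_lit 73) (nat_lit 5) (nat_lit 384) (nat_lit 315) (nat_lit 201)) (XT.lf (nat_lit 0) (nat_lit 2132240206) (nat_lit 304) (nat_lit 12479912208) (nat_lit 76) (nat_lit 7648089655) (nat_lit 68) (nat_lit 5) (nat_lit 72) (nat_lit 5) (nat_lit 69) (nat_lit 5) (nat_lit 385) (nat_lit 315) (nat_lit 200)))) (XT.nd (nat_lit 156) (nat_lit 152) (nat_lit 0) (XT.nd (nat_lit 78) (nat_lit 228) (nat_lit 0) (XT.lf (nat_lit 0) (nat_lit 6800453401) (nat_lit 304)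 (nat_lit 1199282440) (nat_lit 76) (nat_lit 14714937966) (nat_lit 68) (nat_lit 5) (nat_lit 72) (nat_lit 5) (nat_lit 69) (nat_lit 5) (nat_lit 386) (nat_lit 315) (nat_lit 199)) (XT.lf (nat_lit 0) (nat_lit 10605942139) (nat_lit 228) (nat_lit 1091900030) (nat_lit 304) (nat_lit 11482227037) (nat_lit 65) (nat_lit 5) (nat_lit 68) (nat_lit 5) (nat_lit 69) (nat_lit 5) (nat_lit 387) (nat_lit 315) (nat_lit 198))) (XT.nd (nat_lit 78) (nat_lit 152) (nat_lit 0) (XT.lf (nat_lit 0) (nat_lit 16799559024) (nat_lit 304) (nat_lit 948061897) (nat_lit 76) (nat_lit 5910087802) (nat_lit 65) (nat_lit 5) (nat_lit 69) (nat_lit 5) (nat_lit 66) (nat_lit 5) (nat_lit 388) (nat_lit 315) (nat_lit 197)) (XT.lf (nat_lit 0) (nat_lit 11214530606) (nat_lit 152) (nat_lit 10946056866) (nat_lit 228) (nat_lit 1985906470) (nat_lit 63) (nat_lit 5) (nat_lit 65) (nat_lit 5) (nat_lit 66) (nat_lit 5) (nat_lit 389) (nat_lit 315) (nat_lit 196)))))) (XT.nd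 (nat_lit 468) (nat_lit 532) (nat_lit 0) (XT.nd (nat_lit 234) (nat_lit 380) (nat_lit 0) (XT.nd (nat_lit 78) (nat_lit 228) (nat_lit 0) (XT.lf (nat_lit 0) (nat_lit 2970687575) (nat_lit 228) (nat_lit 937795215) (nat_lit 76) (nat_lit 20740668732) (nat_lit 62) (nat_lit 5) (nat_lit 65) (nat_lit 5) (nat_lit 63) (nat_lit 5) (nat_lit 390) (nat_lit 315) (nat_lit 195)) (XT.nd (nat_lit 78) (nat_lit 0) (nat_lit 0) (XT.lf (nat_lit 0) (nat_lit 8168983081) (nat_lit 304) (nat_lit 13593429345) (nat_lit 76) (nat_lit 3399902932) (nat_lit 59) (nat_lit 5) (nat_lit 63) (nat_lit 5) (nat_lit 60) (nat_lit 5) (nat_lit 391) (nat_lit 315) (nat_lit 194)) (XT.lf (nat_lit 0) (nat_lit 13559623429) (nat_lit 304) (nat_lit 1279217317) (nat_lit 76) (nat_lit 10850945321) (nat_lit 59) (nat_lit 5) (nat_lit 63) (nat_lit 5) (nat_lit 60) (nat_lit 5) (nat_lit 392) (nat_lit 315) (nat_lit 193)))) (XT.nd (nat_lit 78) (nat_lit 228) (nat_lit 0) (XT.lf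 (nat_lit 0) (nat_lit 11611758539) (nat_lit 152) (nat_lit 7600323846) (nat_lit 228) (nat_lit 7017999258) (nat_lit 57) (nat_lit 5) (nat_lit 59) (nat_lit 5) (nat_lit 60) (nat_lit 5) (nat_lit 393) (nat_lit 315) (nat_lit 192)) (XT.nd (nat_lit 78) (nat_lit 228) (nat_lit 0) (XT.lf (nat_lit 0) (nat_lit 24896625332) (nat_lit 152) (nat_lit 139039741) (nat_lit 228) (nat_lit 1750878132) (nat_lit 57) (nat_lit 5) (nat_lit 59) (nat_lit 5) (nat_lit 60) (nat_lit 5) (nat_lit 394) (nat_lit 315) (nat_lit 191)) (XT.lf (nat_lit 0) (nat_lit 3774781099) (nat_lit 228) (nat_lit 16041070799) (nat_lit 76) (nat_lit 7537623874) (nat_lit 54) (nat_lit 5) (nat_lit 57) (nat_lit 5) (nat_lit 55) (nat_lit 5) (nat_lit 395) (nat_lit 315) (nat_lit 190))))) (XT.nd (nat_lit 234) (nat_lit 380) (nat_lit 0) (XT.nd (nat_lit 78) (nat_lit 152) (nat_lit 0) (XT.lf (nat_lit 0) (nat_lit 9440593918) (nat_lit 228) (nat_lit 3025014225) (nat_lit 76) (nat_lit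 15471004180) (nat_lit 54) (nat_lit 5) (nat_lit 57) (nat_lit 5) (nat_lit 55) (nat_lit 5) (nat_lit 396) (nat_lit 315) (nat_lit 189)) (XT.nd (nat_lit 78) (nat_lit 0) (nat_lit 0) (XT.lf (nat_lit 0) (nat_lit 10569512728) (nat_lit 152) (nat_lit 4797716274) (nat_lit 228) (nat_lit 13167291746) (nat_lit 52) (nat_lit 5) (nat_lit 54) (nat_lit 5) (nat_lit 55) (nat_lit 5) (nat_lit 397) (nat_lit 315) (nat_lit 188)) (XT.lf (nat_lit 0) (nat_lit 21521628279) (nat_lit 228) (nat_lit 4563999577) (nat_lit 76) (nat_lit 3063242738) (nat_lit 52) (nat_lit 5) (nat_lit 55) (nat_lit 5) (nat_lit 53) (nat_lit 5) (nat_lit 398) (nat_lit 315) (nat_lit 187)))) (XT.nd (nat_lit 156) (nat_lit 152) (nat_lit 0) (XT.nd (nat_lit 78) (nat_lit 76) (nat_lit 0) (XT.lf (nat_lit 0) (nat_lit 9356315018) (nat_lit 152) (nat_lit 18631411343) (nat_lit 228) (nat_lit 1790115598) (nat_lit 50) (nat_lit 5) (nat_lit 52) (nat_lit 5) (nat_lit 53) (nat_lit 5) (nat_lit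 399) (nat_lit 315) (nat_lit 186)) (XT.lf (nat_lit 0) (nat_lit 4175934348) (nat_lit 228) (nat_lit 6695376866) (nat_lit 76) (nat_lit 19552070589) (nat_lit 49) (nat_lit 5) (nat_lit 52) (nat_lit 5) (nat_lit 50) (nat_lit 5) (nat_lit 400) (nat_lit 315) (nat_lit 185))) (XT.nd (nat_lit 78) (nat_lit 0) (nat_lit 0) (XT.lf (nat_lit 0) (nat_lit 7554945732) (nat_lit 152) (nat_lit 2792619126) (nat_lit 228) (nat_lit 20738316679) (nat_lit 47) (nat_lit 5) (nat_lit 49) (nat_lit 5) (nat_lit 50) (nat_lit 5) (nat_lit 401) (nat_lit 315) (nat_lit 184)) (XT.lf (nat_lit 0) (nat_lit 16815780717) (nat_lit 228) (nat_lit 9467386641) (nat_lit 76) (nat_lit 5481748505) (nat_lit 47) (nat_lit 5) (nat_lit 50) (nat_lit 5) (nat_lit 48) (nat_lit 5) (nat_lit 402) (nat_lit 315) (nat_lit 183))))))) (XT.nd (nat_lit 1014) (nat_lit 836) (nat_lit 0) (XT.nd (nat_lit 468) (nat_lit 380) (nat_lit 0) (XT.nd (nat_lit 234) (nat_lit 152) (nat_lit 0) (XT.nd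 (nat_lit 78) (nat_lit 228) (nat_lit 0) (XT.lf (nat_lit 0) (nat_lit 5072535499) (nat_lit 152) (nat_lit 18472222568) (nat_lit 228) (nat_lit 8917564315) (nat_lit 45) (nat_lit 5) (nat_lit 47) (nat_lit 5) (nat_lit 48) (nat_lit 5) (nat_lit 403) (nat_lit 315) (nat_lit 182)) (XT.nd (nat_lit 78) (nat_lit 228) (nat_lit 0) (XT.lf (nat_lit 0) (nat_lit 20226025573) (nat_lit 152) (nat_lit 10335608045) (nat_lit 228) (nat_lit 2616439149) (nat_lit 45) (nat_lit 5) (nat_lit 47) (nat_lit 5) (nat_lit 48) (nat_lit 5) (nat_lit 404) (nat_lit 315) (nat_lit 181)) (XT.lf (nat_lit 0) (nat_lit 1902304269) (nat_lit 152) (nat_lit 1904722619) (nat_lit 228) (nat_lit 30106887150) (nat_lit 42) (nat_lit 5) (nat_lit 44) (nat_lit 5) (nat_lit 45) (nat_lit 5) (nat_lit 405) (nat_lit 315) (nat_lit 180)))) (XT.nd (nat_lit 78) (nat_lit 152) (nat_lit 0) (XT.lf (nat_lit 0) (nat_lit 10558520579) (nat_lit 228) (nat_lit 17308938612) (nat_lit 76) (nat_lit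 6797959172) (nat_lit 42) (nat_lit 5) (nat_lit 45) (nat_lit 5) (nat_lit 43) (nat_lit 5) (nat_lit 406) (nat_lit 315) (nat_lit 179)) (XT.nd (nat_lit 78) (nat_lit 152) (nat_lit 0) (XT.lf (nat_lit 0) (nat_lit 17522351236) (nat_lit 228) (nat_lit 2200023894) (nat_lit 76) (nat_lit 15716801178) (nat_lit 42) (nat_lit 5) (nat_lit 45) (nat_lit 5) (nat_lit 43) (nat_lit 5) (nat_lit 407) (nat_lit 315) (nat_lit 178)) (XT.lf (nat_lit 0) (nat_lit 13612270125) (nat_lit 152) (nat_lit 11204873742) (nat_lit 228) (nat_lit 11415343902) (nat_lit 40) (nat_lit 5) (nat_lit 42) (nat_lit 5) (nat_lit 43) (nat_lit 5) (nat_lit 408) (nat_lit 315) (nat_lit 177))))) (XT.nd (nat_lit 234) (nat_lit 228) (nat_lit 0) (XT.nd (nat_lit 78) (nat_lit 152) (nat_lit 0) (XT.lf (nat_lit 0) (nat_lit 29928670825) (nat_lit 152) (nat_lit 2415631695) (nat_lit 228) (nat_lit 4704892511) (nat_lit 40) (nat_lit 5) (nat_lit 42) (nat_lit 5) (nat_lit 43) (nat_lit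 5) (nat_lit 409) (nat_lit 315) (nat_lit 176)) (XT.nd (nat_lit 78) (nat_lit 0) (nat_lit 0) (XT.lf (nat_lit 0) (nat_lit 2306437536) (nat_lit 152) (nat_lit 28969082794) (nat_lit 76) (nat_lit 6609969896) (nat_lit 38) (nat_lit 5) (nat_lit 40) (nat_lit 5) (nat_lit 39) (nat_lit 5) (nat_lit 410) (nat_lit 315) (nat_lit 175)) (XT.lf (nat_lit 0) (nat_lit 9521592252) (nat_lit 152) (nat_lit 13250647375) (nat_lit 76) (nat_lit 15970597647) (nat_lit 38) (nat_lit 5) (nat_lit 40) (nat_lit 5) (nat_lit 39) (nat_lit 5) (nat_lit 411) (nat_lit 315) (nat_lit 174)))) (XT.nd (nat_lit 156) (nat_lit 76) (nat_lit 0) (XT.nd (nat_lit 78) (nat_lit 0) (nat_lit 0) (XT.lf (nat_lit 0) (nat_lit 2982859246) (nat_lit 152) (nat_lit 13990778590) (nat_lit 228) (nat_lit 22651655699) (nat_lit 36) (nat_lit 5) (nat_lit 38) (nat_lit 5) (nat_lit 39) (nat_lit 5) (nat_lit 412) (nat_lit 315) (nat_lit 173)) (XT.lf (nat_lit 0) (nat_lit 19960452161) (nat_lit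 152) (nat_lit 4814461444) (nat_lit 228) (nat_lit 15755541648) (nat_lit 36) (nat_lit 5) (nat_lit 38) (nat_lit 5) (nat_lit 39) (nat_lit 5) (nat_lit 413) (nat_lit 315) (nat_lit 172))) (XT.nd (nat_lit 78) (nat_lit 76) (nat_lit 0) (XT.lf (nat_lit 0) (nat_lit 32846843179) (nat_lit 228) (nat_lit 4074273577) (nat_lit 76) (nat_lit 4540558380) (nat_lit 36) (nat_lit 5) (nat_lit 39) (nat_lit 5) (nat_lit 37) (nat_lit 4) (nat_lit 414) (nat_lit 315) (nat_lit 171)) (XT.lf (nat_lit 0) (nat_lit 13110612102) (nat_lit 76) (nat_lit 28216285981) (nat_lit 152) (nat_lit 1088956236) (nat_lit 35) (nat_lit 5) (nat_lit 36) (nat_lit 5) (nat_lit 37) (nat_lit 4) (nat_lit 415) (nat_lit 315) (nat_lit 170)))))) (XT.nd (nat_lit 546) (nat_lit 304) (nat_lit 0) (XT.nd (nat_lit 234) (nat_lit 304) (nat_lit 0) (XT.nd (nat_lit 78) (nat_lit 152) (nat_lit 0) (XT.lf (nat_lit 0) (nat_lit 6566520070) (nat_lit 152) (nat_lit 12581216958) (nat_lit 76)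 (nat_lit 24247986976) (nat_lit 34) (nat_lit 5) (nat_lit 36) (nat_lit 5) (nat_lit 35) (nat_lit 5) (nat_lit 416) (nat_lit 315) (nat_lit 169)) (XT.nd (nat_lit 78) (nat_lit 0) (nat_lit 0) (XT.lf (nat_lit 0) (nat_lit 4712202211) (nat_lit 152) (nat_lit 9755380689) (nat_lit 228) (nat_lit 29935950733) (nat_lit 32) (nat_lit 5) (nat_lit 34) (nat_lit 5) (nat_lit 35) (nat_lit 5) (nat_lit 417) (nat_lit 315) (nat_lit 168)) (XT.lf (nat_lit 0) (nat_lit 22725744912) (nat_lit 228) (nat_lit 22669447358) (nat_lit 76) (nat_lit 42784798) (nat_lit 32) (nat_lit 5) (nat_lit 35) (nat_lit 5) (nat_lit 33) (nat_lit 4) (nat_lit 418) (nat_lit 315) (nat_lit 167)))) (XT.nd (nat_lit 156) (nat_lit 228) (nat_lit 0) (XT.nd (nat_lit 78) (nat_lit 76) (nat_lit 0) (XT.lf (nat_lit 0) (nat_lit 31321001707) (nat_lit 228) (nat_lit 5246631519) (nat_lit 76) (nat_lit 9933141572) (nat_lit 32) (nat_lit 5) (nat_lit 35) (nat_lit 5) (nat_lit 33) (nat_lit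 4) (nat_lit 419) (nat_lit 315) (nat_lit 166)) (XT.lf (nat_lit 0) (nat_lit 12938593153) (nat_lit 76) (nat_lit 27352869536) (nat_lit 152) (nat_lit 7300474823) (nat_lit 31) (nat_lit 5) (nat_lit 32) (nat_lit 5) (nat_lit 33) (nat_lit 4) (nat_lit 420) (nat_lit 315) (nat_lit 165))) (XT.nd (nat_lit 78) (nat_lit 152) (nat_lit 0) (XT.lf (nat_lit 0) (nat_lit 845786068) (nat_lit 152) (nat_lit 16958451215) (nat_lit 76) (nat_lit 30909969366) (nat_lit 30) (nat_lit 5) (nat_lit 32) (nat_lit 5) (nat_lit 31) (nat_lit 5) (nat_lit 421) (nat_lit 315) (nat_lit 164)) (XT.lf (nat_lit 0) (nat_lit 1206144858) (nat_lit 152) (nat_lit 7888342066) (nat_lit 228) (nat_lit 40773346268) (nat_lit 28) (nat_lit 5) (nat_lit 30) (nat_lit 5) (nat_lit 31) (nat_lit 5) (nat_lit 422) (nat_lit 315) (nat_lit 163))))) (XT.nd (nat_lit 234) (nat_lit 228) (nat_lit 0) (XT.nd (nat_lit 78) (nat_lit 76) (nat_lit 0) (XT.lf (nat_lit 0) (nat_lit 17779158300)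 (nat_lit 228) (nat_lit 30824092268) (nat_lit 76) (nat_lit 2447163965) (nat_lit 28) (nat_lit 5) (nat_lit 31) (nat_lit 5) (nat_lit 29) (nat_lit 4) (nat_lit 423) (nat_lit 315) (nat_lit 162)) (XT.nd (nat_lit 78) (nat_lit 76) (nat_lit 0) (XT.lf (nat_lit 0) (nat_lit 26795887029) (nat_lit 228) (nat_lit 12541535241) (nat_lit 76) (nat_lit 12928906777) (nat_lit 28) (nat_lit 5) (nat_lit 31) (nat_lit 5) (nat_lit 29) (nat_lit 4) (nat_lit 424) (nat_lit 315) (nat_lit 161)) (XT.lf (nat_lit 0) (nat_lit 6402725603) (nat_lit 76) (nat_lit 29735545548) (nat_lit 152) (nat_lit 17378796450) (nat_lit 27) (nat_lit 5) (nat_lit 28) (nat_lit 5) (nat_lit 29) (nat_lit 4) (nat_lit 425) (nat_lit 315) (nat_lit 160)))) (XT.nd (nat_lit 156) (nat_lit 228) (nat_lit 0) (XT.nd (nat_lit 78) (nat_lit 0) (nat_lit 0) (XT.lf (nat_lit 0) (nat_lit 26160805154) (nat_lit 76) (nat_lit 19720447900) (nat_lit 152) (nat_lit 8920466646) (nat_lit 27) (nat_lit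 5) (nat_lit 28) (nat_lit 5) (nat_lit 29) (nat_lit 4) (nat_lit 426) (nat_lit 315) (nat_lit 159)) (XT.lf (nat_lit 0) (nat_lit 46500366610) (nat_lit 76) (nat_lit 9410023185) (nat_lit 152) (nat_lit 214706748) (nat_lit 27) (nat_lit 5) (nat_lit 28) (nat_lit 5) (nat_lit 29) (nat_lit 4) (nat_lit 427) (nat_lit 315) (nat_lit 158))) (XT.nd (nat_lit 78) (nat_lit 0) (nat_lit 0) (XT.lf (nat_lit 0) (nat_lit 8685526220) (nat_lit 228) (nat_lit 47433178214) (nat_lit 76) (nat_lit 1363824751) (nat_lit 24) (nat_lit 5) (nat_lit 27) (nat_lit 5) (nat_lit 25) (nat_lit 4) (nat_lit 428) (nat_lit 315) (nat_lit 157)) (XT.lf (nat_lit 0) (nat_lit 18033778480) (nat_lit 228) (nat_lit 28474150207) (nat_lit 76) (nat_lit 12367133557) (nat_lit 24) (nat_lit 5) (nat_lit 27) (nat_lit 5) (nat_lit 25) (nat_lit 4) (nat_lit 429) (nat_lit 315) (nat_lit 156))))))))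
noncomputable def xc146 : XT := (XT.nd (nat_lit 38922) (nat_lit 0) (nat_lit 9424) (XT.nd (nat_lit 1014) (nat_lit 0) (nat_lit 0) (XT.nd (nat_lit 468) (nat_lit 228) (nat_lit 0) (XT.nd (nat_lit 234) (nat_lit 152) (nat_lit 0) (XT.nd (nat_lit 78) (nat_lit 76) (nat_lit 0) (XT.lf (nat_lit 0) (nat_lit 27656658854) (nat_lit 228) (nat_lit 8957105069) (nat_lit 76) (nat_lit 23695782972) (nat_lit 24) (nat_lit 5) (nat_lit 27) (nat_lit 5) (nat_lit 25) (nat_lit 4) (nat_lit 430) (nat_lit 315) (nat_lit 155)) (XT.nd (nat_lit 78) (nat_lit 0) (nat_lit 0) (XT.lf (nat_lit 0) (nat_lit 11356619480) (nat_lit 76) (nat_lit 26315122978) (nat_lit 152) (nat_lit 24112219108) (nat_lit 23) (nat_lit 5) (nat_lit 24) (nat_lit 5) (nat_lit 25) (nat_lit 4) (nat_lit 431) (nat_lit 315) (nat_lit 154)) (XT.lf (nat_lit 0) (nat_lit 32453029503) (nat_lit 76) (nat_lit 15619113496) (nat_lit 152) (nat_lit 15227920703) (nat_lit 23) (nat_lit 5) (nat_lit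 24) (nat_lit 5) (nat_lit 25) (nat_lit 4) (nat_lit 432) (nat_lit 315) (nat_lit 153)))) (XT.nd (nat_lit 78) (nat_lit 152) (nat_lit 0) (XT.lf (nat_lit 0) (nat_lit 54172294802) (nat_lit 76) (nat_lit 4606838647) (nat_lit 152) (nat_lit 6082679043) (nat_lit 23) (nat_lit 5) (nat_lit 24) (nat_lit 5) (nat_lit 25) (nat_lit 4) (nat_lit 433) (nat_lit 315) (nat_lit 152)) (XT.nd (nat_lit 78) (nat_lit 0) (nat_lit 0) (XT.lf (nat_lit 0) (nat_lit 3430824846) (nat_lit 152) (nat_lit 56302229029) (nat_lit 76) (nat_lit 6731627843) (nat_lit 21) (nat_lit 5) (nat_lit 23) (nat_lit 5) (nat_lit 22) (nat_lit 4) (nat_lit 434) (nat_lit 315) (nat_lit 151)) (XT.lf (nat_lit 0) (nat_lit 13256802873) (nat_lit 152) (nat_lit 36370067552) (nat_lit 76) (nat_lit 18482480963) (nat_lit 21) (nat_lit 5) (nat_lit 23) (nat_lit 5) (nat_lit 22) (nat_lit 4) (nat_lit 435) (nat_lit 315) (nat_lit 150))))) (XT.nd (nat_lit 234) (nat_lit 152) (nat_lit 0) (XT.nd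 (nat_lit 78) (nat_lit 76) (nat_lit 0) (XT.lf (nat_lit 0) (nat_lit 23372415261) (nat_lit 152) (nat_lit 15849523840) (nat_lit 76) (nat_lit 30581577221) (nat_lit 21) (nat_lit 5) (nat_lit 23) (nat_lit 5) (nat_lit 22) (nat_lit 4) (nat_lit 436) (nat_lit 315) (nat_lit 149)) (XT.nd (nat_lit 78) (nat_lit 0) (nat_lit 0) (XT.lf (nat_lit 0) (nat_lit 5382361945) (nat_lit 76) (nat_lit 28455877504) (nat_lit 152) (nat_lit 37708865255) (nat_lit 20) (nat_lit 5) (nat_lit 21) (nat_lit 5) (nat_lit 22) (nat_lit 4) (nat_lit 437) (nat_lit 315) (nat_lit 148)) (XT.lf (nat_lit 0) (nat_lit 27566891711) (nat_lit 76) (nat_lit 17206257574) (nat_lit 152) (nat_lit 28565198902) (nat_lit 20) (nat_lit 5) (nat_lit 21) (nat_lit 5) (nat_lit 22) (nat_lit 4) (nat_lit 438) (nat_lit 315) (nat_lit 147)))) (XT.nd (nat_lit 156) (nat_lit 152) (nat_lit 0) (XT.nd (nat_lit 78) (nat_lit 0) (nat_lit 0) (XT.lf (nat_lit 0) (nat_lit 50408013395) (nat_lit 76)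 (nat_lit 5623298660) (nat_lit 152) (nat_lit 19152161506) (nat_lit 20) (nat_lit 5) (nat_lit 21) (nat_lit 5) (nat_lit 22) (nat_lit 4) (nat_lit 439) (nat_lit 315) (nat_lit 146)) (XT.lf (nat_lit 0) (nat_lit 67683154437) (nat_lit 152) (nat_lit 3218997259) (nat_lit 0) (nat_lit 6180123691) (nat_lit 20) (nat_lit 5) (nat_lit 22) (nat_lit 4) (nat_lit 20) (nat_lit 4) (nat_lit 440) (nat_lit 315) (nat_lit 145))) (XT.nd (nat_lit 78) (nat_lit 0) (nat_lit 0) (XT.lf (nat_lit 0) (nat_lit 872846259) (nat_lit 152) (nat_lit 59743002767) (nat_lit 76) (nat_lit 18414837956) (nat_lit 18) (nat_lit 5) (nat_lit 20) (nat_lit 5) (nat_lit 19) (nat_lit 4) (nat_lit 441) (nat_lit 315) (nat_lit 144)) (XT.lf (nat_lit 0) (nat_lit 11292336368) (nat_lit 152) (nat_lit 38602942633) (nat_lit 76) (nat_lit 31138632472) (nat_lit 18) (nat_lit 5) (nat_lit 20) (nat_lit 5) (nat_lit 19) (nat_lit 4) (nat_lit 442) (nat_lit 315) (nat_lit 143)))))) (XT.nd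 (nat_lit 37362) (nat_lit 0) (nat_lit 18392) (XT.nd (nat_lit 37128) (nat_lit 0) (nat_lit 20064) (XT.nd (nat_lit 36972) (nat_lit 0) (nat_lit 20064) (XT.lf (nat_lit 0) (nat_lit 22019993228) (nat_lit 152) (nat_lit 16836968903) (nat_lit 76) (nat_lit 44240403756) (nat_lit 18) (nat_lit 5) (nat_lit 20) (nat_lit 5) (nat_lit 19) (nat_lit 4) (nat_lit 443) (nat_lit 315) (nat_lit 142)) (XT.nd (nat_lit 78) (nat_lit 0) (nat_lit 0) (XT.lf (nat_lit 0) (nat_lit 490988124) (nat_lit 0) (nat_lit 490988124) (nat_lit 836) (nat_lit 2789199830) (nat_lit 282) (nat_lit 5) (nat_lit 282) (nat_lit 3) (nat_lit 293) (nat_lit 3) (nat_lit 316) (nat_lit 316) (nat_lit 268)) (XT.lf (nat_lit 0) (nat_lit 3390014921) (nat_lit 836) (nat_lit 2994655589) (nat_lit 912) (nat_lit 1227631888) (nat_lit 282) (nat_lit 5) (nat_lit 293) (nat_lit 3) (nat_lit 294) (nat_lit 5) (nat_lit 317) (nat_lit 316) (nat_lit 267)))) (XT.nd (nat_lit 78) (nat_lit 0) (nat_lit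 0) (XT.lf (nat_lit 76) (nat_lit 652089506) (nat_lit 0) (nat_lit 4168984444) (nat_lit 912) (nat_lit 2864460979) (nat_lit 283) (nat_lit 5) (nat_lit 282) (nat_lit 5) (nat_lit 294) (nat_lit 5) (nat_lit 318) (nat_lit 316) (nat_lit 266)) (XT.nd (nat_lit 78) (nat_lit 0) (nat_lit 76) (XT.lf (nat_lit 76) (nat_lit 4440959360) (nat_lit 0) (nat_lit 1831860202) (nat_lit 912) (nat_lit 1488860994) (nat_lit 283) (nat_lit 5) (nat_lit 282) (nat_lit 5) (nat_lit 294) (nat_lit 5) (nat_lit 319) (nat_lit 316) (nat_lit 265)) (XT.lf (nat_lit 76) (nat_lit 477543934) (nat_lit 0) (nat_lit 7249960600) (nat_lit 912) (nat_lit 113871749) (nat_lit 284) (nat_lit 5) (nat_lit 283) (nat_lit 5) (nat_lit 295) (nat_lit 5) (nat_lit 320) (nat_lit 316) (nat_lit 264))))) (XT.nd (nat_lit 234) (nat_lit 836) (nat_lit 0) (XT.nd (nat_lit 78) (nat_lit 0) (nat_lit 0) (XT.lf (nat_lit 0) (nat_lit 1278881108) (nat_lit 912) (nat_lit 3525996004) (nat_lit 988)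 (nat_lit 3118196988) (nat_lit 271) (nat_lit 5) (nat_lit 283) (nat_lit 5) (nat_lit 284) (nat_lit 5) (nat_lit 321) (nat_lit 316) (nat_lit 263)) (XT.nd (nat_lit 78) (nat_lit 0) (nat_lit 76) (XT.lf (nat_lit 76) (nat_lit 404241769) (nat_lit 0) (nat_lit 2262156165) (nat_lit 988) (nat_lit 5342176317) (nat_lit 272) (nat_lit 5) (nat_lit 271) (nat_lit 5) (nat_lit 284) (nat_lit 5) (nat_lit 322) (nat_lit 316) (nat_lit 262)) (XT.lf (nat_lit 0) (nat_lit 4087623867) (nat_lit 912) (nat_lit 3605535276) (nat_lit 988) (nat_lit 403759817) (nat_lit 272) (nat_lit 5) (nat_lit 284) (nat_lit 5) (nat_lit 285) (nat_lit 5) (nat_lit 323) (nat_lit 316) (nat_lit 261)))) (XT.nd (nat_lit 156) (nat_lit 912) (nat_lit 0) (XT.nd (nat_lit 78) (nat_lit 0) (nat_lit 0) (XT.lf (nat_lit 76) (nat_lit 470051708) (nat_lit 0) (nat_lit 5062423887) (nat_lit 988) (nat_lit 2656049585) (nat_lit 273) (nat_lit 5) (nat_lit 272) (nat_lit 5) (nat_lit 285) (nat_lit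 5) (nat_lit 324) (nat_lit 316) (nat_lit 260)) (XT.lf (nat_lit 76) (nat_lit 4712160906) (nat_lit 0) (nat_lit 2300046428) (nat_lit 988) (nat_lit 1270965867) (nat_lit 273) (nat_lit 5) (nat_lit 272) (nat_lit 5) (nat_lit 285) (nat_lit 5) (nat_lit 325) (nat_lit 316) (nat_lit 259))) (XT.nd (nat_lit 78) (nat_lit 0) (nat_lit 0) (XT.lf (nat_lit 0) (nat_lit 120620011) (nat_lit 988) (nat_lit 7704236962) (nat_lit 1064) (nat_lit 556756549) (nat_lit 260) (nat_lit 5) (nat_lit 273) (nat_lit 5) (nat_lit 274) (nat_lit 5) (nat_lit 326) (nat_lit 316) (nat_lit 258)) (XT.lf (nat_lit 0) (nat_lit 1544692658) (nat_lit 988) (nat_lit 3422091976) (nat_lit 1064) (nat_lit 3515392660) (nat_lit 260) (nat_lit 5) (nat_lit 273) (nat_lit 5) (nat_lit 274) (nat_lit 5) (nat_lit 327) (nat_lit 316) (nat_lit 257))))))) (XT.nd (nat_lit 1014) (nat_lit 4180) (nat_lit 0) (XT.nd (nat_lit 468) (nat_lit 3876) (nat_lit 0) (XT.nd (nat_lit 234) (nat_lit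 912) (nat_lit 0) (XT.nd (nat_lit 78) (nat_lit 0) (nat_lit 76) (XT.lf (nat_lit 76) (nat_lit 977620992) (nat_lit 0) (nat_lit 2001608017) (nat_lit 1064) (nat_lit 5607531951) (nat_lit 261) (nat_lit 5) (nat_lit 260) (nat_lit 5) (nat_lit 274) (nat_lit 5) (nat_lit 328) (nat_lit 316) (nat_lit 256)) (XT.nd (nat_lit 78) (nat_lit 0) (nat_lit 0) (XT.lf (nat_lit 0) (nat_lit 4461195741) (nat_lit 988) (nat_lit 3155471874) (nat_lit 1064) (nat_lit 1077716893) (nat_lit 261) (nat_lit 5) (nat_lit 274) (nat_lit 5) (nat_lit 275) (nat_lit 5) (nat_lit 329) (nat_lit 316) (nat_lit 255)) (XT.lf (nat_lit 76) (nat_lit 1409352362) (nat_lit 0) (nat_lit 4572195953) (nat_lit 1064) (nat_lit 2823903849) (nat_lit 262) (nat_lit 5) (nat_lit 261) (nat_lit 5) (nat_lit 275) (nat_lit 5) (nat_lit 330) (nat_lit 316) (nat_lit 254)))) (XT.nd (nat_lit 78) (nat_lit 988) (nat_lit 0) (XT.lf (nat_lit 76) (nat_lit 6145963333) (nat_lit 0) (nat_lit 1394835432)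 (nat_lit 1064) (nat_lit 1379286702) (nat_lit 262) (nat_lit 5) (nat_lit 261) (nat_lit 5) (nat_lit 275) (nat_lit 5) (nat_lit 331) (nat_lit 316) (nat_lit 253)) (XT.nd (nat_lit 78) (nat_lit 0) (nat_lit 0) (XT.lf (nat_lit 0) (nat_lit 106196429) (nat_lit 1064) (nat_lit 7062410132) (nat_lit 76) (nat_lit 1869560820) (nat_lit 248) (nat_lit 5) (nat_lit 262) (nat_lit 5) (nat_lit 249) (nat_lit 5) (nat_lit 332) (nat_lit 316) (nat_lit 252)) (XT.lf (nat_lit 0) (nat_lit 1613659966) (nat_lit 1064) (nat_lit 2292373730) (nat_lit 76) (nat_lit 5253223722) (nat_lit 248) (nat_lit 5) (nat_lit 262) (nat_lit 5) (nat_lit 249) (nat_lit 5) (nat_lit 333) (nat_lit 316) (nat_lit 251))))) (XT.nd (nat_lit 234) (nat_lit 1672) (nat_lit 0) (XT.nd (nat_lit 78) (nat_lit 1140) (nat_lit 0) (XT.lf (nat_lit 0) (nat_lit 2642544608) (nat_lit 1064) (nat_lit 513318540) (nat_lit 1140) (nat_lit 6128460179) (nat_lit 234) (nat_lit 5) (nat_lit 248) (nat_lit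 5) (nat_lit 249) (nat_lit 5) (nat_lit 334) (nat_lit 316) (nat_lit 250)) (XT.nd (nat_lit 78) (nat_lit 1140) (nat_lit 0) (XT.lf (nat_lit 0) (nat_lit 4761296849) (nat_lit 1140) (nat_lit 1699459333) (nat_lit 76) (nat_lit 2951903910) (nat_lit 234) (nat_lit 5) (nat_lit 249) (nat_lit 5) (nat_lit 235) (nat_lit 5) (nat_lit 335) (nat_lit 316) (nat_lit 249)) (XT.lf (nat_lit 0) (nat_lit 3423108149) (nat_lit 1140) (nat_lit 2995724083) (nat_lit 1216) (nat_lit 3125923564) (nat_lit 219) (nat_lit 5) (nat_lit 234) (nat_lit 5) (nat_lit 235) (nat_lit 5) (nat_lit 336) (nat_lit 316) (nat_lit 248)))) (XT.nd (nat_lit 156) (nat_lit 608) (nat_lit 0) (XT.nd (nat_lit 78) (nat_lit 1064) (nat_lit 0) (XT.lf (nat_lit 0) (nat_lit 8115632728) (nat_lit 1216) (nat_lit 982298678) (nat_lit 76) (nat_lit 583223007) (nat_lit 219) (nat_lit 5) (nat_lit 235) (nat_lit 5) (nat_lit 220) (nat_lit 5) (nat_lit 337) (nat_lit 316) (nat_lit 247)) (XT.lf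 (nat_lit 0) (nat_lit 80253816) (nat_lit 1064) (nat_lit 5484714576) (nat_lit 76) (nat_lit 4255508027) (nat_lit 205) (nat_lit 5) (nat_lit 219) (nat_lit 5) (nat_lit 206) (nat_lit 5) (nat_lit 338) (nat_lit 316) (nat_lit 246))) (XT.nd (nat_lit 78) (nat_lit 608) (nat_lit 0) (XT.lf (nat_lit 0) (nat_lit 1721944017) (nat_lit 1064) (nat_lit 175769279) (nat_lit 76) (nat_lit 8066483566) (nat_lit 205) (nat_lit 5) (nat_lit 219) (nat_lit 5) (nat_lit 206) (nat_lit 5) (nat_lit 339) (nat_lit 316) (nat_lit 245)) (XT.lf (nat_lit 0) (nat_lit 3452005115) (nat_lit 684) (nat_lit 4762156014) (nat_lit 76) (nat_lit 1896917471) (nat_lit 197) (nat_lit 5) (nat_lit 206) (nat_lit 5) (nat_lit 198) (nat_lit 5) (nat_lit 340) (nat_lit 316) (nat_lit 244)))))) (XT.nd (nat_lit 546) (nat_lit 1900) (nat_lit 0) (XT.nd (nat_lit 234) (nat_lit 1140) (nat_lit 0) (XT.nd (nat_lit 78) (nat_lit 608) (nat_lit 0) (XT.lf (nat_lit 0) (nat_lit 746623881) (nat_lit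 532) (nat_lit 4484668228) (nat_lit 608) (nat_lit 5031177573) (nat_lit 190) (nat_lit 5) (nat_lit 197) (nat_lit 5) (nat_lit 198) (nat_lit 5) (nat_lit 341) (nat_lit 316) (nat_lit 243)) (XT.nd (nat_lit 78) (nat_lit 608) (nat_lit 0) (XT.lf (nat_lit 0) (nat_lit 6488795309) (nat_lit 532) (nat_lit 593419117) (nat_lit 608) (nat_lit 3335662320) (nat_lit 190) (nat_lit 5) (nat_lit 197) (nat_lit 5) (nat_lit 198) (nat_lit 5) (nat_lit 342) (nat_lit 316) (nat_lit 242)) (XT.lf (nat_lit 0) (nat_lit 1798023056) (nat_lit 608) (nat_lit 7211788303) (nat_lit 684) (nat_lit 1567521568) (nat_lit 182) (nat_lit 5) (nat_lit 190) (nat_lit 5) (nat_lit 191) (nat_lit 5) (nat_lit 343) (nat_lit 316) (nat_lit 241)))) (XT.nd (nat_lit 156) (nat_lit 532) (nat_lit 0) (XT.nd (nat_lit 78) (nat_lit 532) (nat_lit 0) (XT.lf (nat_lit 0) (nat_lit 265959142) (nat_lit 684) (nat_lit 3001433724) (nat_lit 76) (nat_lit 7473609498) (nat_lit 181) (nat_lit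 5) (nat_lit 190) (nat_lit 5) (nat_lit 182) (nat_lit 5) (nat_lit 344) (nat_lit 316) (nat_lit 240)) (XT.lf (nat_lit 0) (nat_lit 2131629576) (nat_lit 608) (nat_lit 7954066510) (nat_lit 76) (nat_lit 823178974) (nat_lit 174) (nat_lit 5) (nat_lit 182) (nat_lit 5) (nat_lit 175) (nat_lit 5) (nat_lit 345) (nat_lit 316) (nat_lit 239))) (XT.nd (nat_lit 78) (nat_lit 532) (nat_lit 0) (XT.lf (nat_lit 0) (nat_lit 4088889385) (nat_lit 608) (nat_lit 1991761334) (nat_lit 76) (nat_lit 5000083575) (nat_lit 174) (nat_lit 5) (nat_lit 182) (nat_lit 5) (nat_lit 175) (nat_lit 5) (nat_lit 346) (nat_lit 316) (nat_lit 238)) (XT.lf (nat_lit 0) (nat_lit 4202782986) (nat_lit 532) (nat_lit 1915940188) (nat_lit 608) (nat_lit 5138628833) (nat_lit 167) (nat_lit 5) (nat_lit 174) (nat_lit 5) (nat_lit 175) (nat_lit 5) (nat_lit 347) (nat_lit 316) (nat_lit 237))))) (XT.nd (nat_lit 234) (nat_lit 912) (nat_lit 0) (XT.nd (nat_lit 78) (nat_lit 988)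 (nat_lit 0) (XT.lf (nat_lit 0) (nat_lit 8226516245) (nat_lit 608) (nat_lit 866826287) (nat_lit 76) (nat_lit 2345431639) (nat_lit 167) (nat_lit 5) (nat_lit 175) (nat_lit 5) (nat_lit 168) (nat_lit 5) (nat_lit 348) (nat_lit 316) (nat_lit 236)) (XT.nd (nat_lit 78) (nat_lit 532) (nat_lit 0) (XT.lf (nat_lit 0) (nat_lit 5567940760) (nat_lit 456) (nat_lit 4876788367) (nat_lit 532) (nat_lit 1179511622) (nat_lit 161) (nat_lit 5) (nat_lit 167) (nat_lit 5) (nat_lit 168) (nat_lit 5) (nat_lit 349) (nat_lit 316) (nat_lit 235)) (XT.lf (nat_lit 0) (nat_lit 368295889) (nat_lit 456) (nat_lit 515360961) (nat_lit 532) (nat_lit 10931748786) (nat_lit 154) (nat_lit 5) (nat_lit 160) (nat_lit 5) (nat_lit 161) (nat_lit 5) (nat_lit 350) (nat_lit 316) (nat_lit 234)))) (XT.nd (nat_lit 156) (nat_lit 456) (nat_lit 0) (XT.nd (nat_lit 78) (nat_lit 456) (nat_lit 0) (XT.lf (nat_lit 0) (nat_lit 3060328252) (nat_lit 532) (nat_lit 4980173377)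 (nat_lit 76) (nat_lit 3969209903) (nat_lit 154) (nat_lit 5) (nat_lit 161) (nat_lit 5) (nat_lit 155) (nat_lit 5) (nat_lit 351) (nat_lit 316) (nat_lit 233)) (XT.lf (nat_lit 0) (nat_lit 1680333453) (nat_lit 456) (nat_lit 3619264171) (nat_lit 532) (nat_lit 6910345443) (nat_lit 148) (nat_lit 5) (nat_lit 154) (nat_lit 5) (nat_lit 155) (nat_lit 5) (nat_lit 352) (nat_lit 316) (nat_lit 232))) (XT.nd (nat_lit 78) (nat_lit 456) (nat_lit 0) (XT.lf (nat_lit 0) (nat_lit 7642248424) (nat_lit 532) (nat_lit 3809938549) (nat_lit 76) (nat_lit 962923422) (nat_lit 148) (nat_lit 5) (nat_lit 155) (nat_lit 5) (nat_lit 149) (nat_lit 5) (nat_lit 353) (nat_lit 316) (nat_lit 231)) (XT.lf (nat_lit 0) (nat_lit 3108448388) (nat_lit 456) (nat_lit 6989562823) (nat_lit 532) (nat_lit 2527151073) (nat_lit 142) (nat_lit 5) (nat_lit 148) (nat_lit 5) (nat_lit 149) (nat_lit 5) (nat_lit 354) (nat_lit 316) (nat_lit 230))))))))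
noncomputable def xc147 : XT := (XT.nd (nat_lit 2028) (nat_lit 2812) (nat_lit 0) (XT.nd (nat_lit 1014) (nat_lit 2052) (nat_lit 0) (XT.nd (nat_lit 468) (nat_lit 1520) (nat_lit 0) (XT.nd (nat_lit 234) (nat_lit 760) (nat_lit 0) (XT.nd (nat_lit 78) (nat_lit 456) (nat_lit 0) (XT.lf (nat_lit 0) (nat_lit 10285061494) (nat_lit 456) (nat_lit 2358378994) (nat_lit 532) (nat_lit 197609523) (nat_lit 142) (nat_lit 5) (nat_lit 148) (nat_lit 5) (nat_lit 149) (nat_lit 5) (nat_lit 355) (nat_lit 316) (nat_lit 229)) (XT.nd (nat_lit 78) (nat_lit 0) (nat_lit 0) (XT.lf (nat_lit 0) (nat_lit 2205344316) (nat_lit 456) (nat_lit 8429725845) (nat_lit 76) (nat_lit 2426327792) (nat_lit 136) (nat_lit 5) (nat_lit 142) (nat_lit 5) (nat_lit 137) (nat_lit 5) (nat_lit 356) (nat_lit 316) (nat_lit 228)) (XT.lf (nat_lit 0) (nat_lit 4704112418) (nat_lit 456) (nat_lit 1253213471) (nat_lit 76) (nat_lit 7330153719) (nat_lit 136) (nat_lit 5) (nat_lit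 142) (nat_lit 5) (nat_lit 137) (nat_lit 5) (nat_lit 357) (nat_lit 316) (nat_lit 227)))) (XT.nd (nat_lit 78) (nat_lit 380) (nat_lit 0) (XT.lf (nat_lit 0) (nat_lit 6233606327) (nat_lit 380) (nat_lit 1083072158) (nat_lit 456) (nat_lit 6202512700) (nat_lit 131) (nat_lit 5) (nat_lit 136) (nat_lit 5) (nat_lit 137) (nat_lit 5) (nat_lit 358) (nat_lit 316) (nat_lit 226)) (XT.nd (nat_lit 78) (nat_lit 0) (nat_lit 0) (XT.lf (nat_lit 0) (nat_lit 151277091) (nat_lit 380) (nat_lit 9887647857) (nat_lit 456) (nat_lit 3718002214) (nat_lit 126) (nat_lit 5) (nat_lit 131) (nat_lit 5) (nat_lit 132) (nat_lit 5) (nat_lit 359) (nat_lit 316) (nat_lit 225)) (XT.lf (nat_lit 0) (nat_lit 7922972832) (nat_lit 380) (nat_lit 4983623363) (nat_lit 456) (nat_lit 1093298102) (nat_lit 126) (nat_lit 5) (nat_lit 131) (nat_lit 5) (nat_lit 132) (nat_lit 5) (nat_lit 360) (nat_lit 316) (nat_lit 224))))) (XT.nd (nat_lit 234) (nat_lit 760) (nat_lit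 0) (XT.nd (nat_lit 78) (nat_lit 304) (nat_lit 0) (XT.lf (nat_lit 0) (nat_lit 1575622536) (nat_lit 456) (nat_lit 12582285181) (nat_lit 76) (nat_lit 91882665) (nat_lit 120) (nat_lit 5) (nat_lit 126) (nat_lit 5) (nat_lit 121) (nat_lit 5) (nat_lit 361) (nat_lit 316) (nat_lit 223)) (XT.nd (nat_lit 78) (nat_lit 304) (nat_lit 0) (XT.lf (nat_lit 0) (nat_lit 4394180624) (nat_lit 456) (nat_lit 4823880395) (nat_lit 76) (nat_lit 5286062066) (nat_lit 120) (nat_lit 5) (nat_lit 126) (nat_lit 5) (nat_lit 121) (nat_lit 5) (nat_lit 362) (nat_lit 316) (nat_lit 222)) (XT.lf (nat_lit 0) (nat_lit 3203973832) (nat_lit 304) (nat_lit 4104924710) (nat_lit 380) (nat_lit 7456849620) (nat_lit 116) (nat_lit 5) (nat_lit 120) (nat_lit 5) (nat_lit 121) (nat_lit 5) (nat_lit 363) (nat_lit 316) (nat_lit 221)))) (XT.nd (nat_lit 156) (nat_lit 380) (nat_lit 0) (XT.nd (nat_lit 78) (nat_lit 380) (nat_lit 0) (XT.lf (nat_lit 0) (nat_lit 10352471623)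 (nat_lit 380) (nat_lit 3499943440) (nat_lit 76) (nat_lit 1181574700) (nat_lit 116) (nat_lit 5) (nat_lit 121) (nat_lit 5) (nat_lit 117) (nat_lit 5) (nat_lit 364) (nat_lit 316) (nat_lit 220)) (XT.lf (nat_lit 0) (nat_lit 4832067346) (nat_lit 380) (nat_lit 8723981523) (nat_lit 456) (nat_lit 1752178715) (nat_lit 111) (nat_lit 5) (nat_lit 116) (nat_lit 5) (nat_lit 117) (nat_lit 5) (nat_lit 365) (nat_lit 316) (nat_lit 219))) (XT.nd (nat_lit 78) (nat_lit 304) (nat_lit 0) (XT.lf (nat_lit 0) (nat_lit 1257759364) (nat_lit 456) (nat_lit 2141806948) (nat_lit 76) (nat_lit 12190248614) (nat_lit 110) (nat_lit 5) (nat_lit 116) (nat_lit 5) (nat_lit 111) (nat_lit 5) (nat_lit 366) (nat_lit 316) (nat_lit 218)) (XT.lf (nat_lit 0) (nat_lit 4388537407) (nat_lit 380) (nat_lit 9370848656) (nat_lit 76) (nat_lit 2117979654) (nat_lit 106) (nat_lit 5) (nat_lit 111) (nat_lit 5) (nat_lit 107) (nat_lit 5) (nat_lit 367) (nat_lit 316) (nat_lit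 217)))))) (XT.nd (nat_lit 468) (nat_lit 1064) (nat_lit 0) (XT.nd (nat_lit 234) (nat_lit 380) (nat_lit 0) (XT.nd (nat_lit 78) (nat_lit 608) (nat_lit 0) (XT.lf (nat_lit 0) (nat_lit 7651199001) (nat_lit 380) (nat_lit 773502300) (nat_lit 76) (nat_lit 7747711706) (nat_lit 106) (nat_lit 5) (nat_lit 111) (nat_lit 5) (nat_lit 107) (nat_lit 5) (nat_lit 368) (nat_lit 316) (nat_lit 216)) (XT.nd (nat_lit 78) (nat_lit 304) (nat_lit 0) (XT.lf (nat_lit 0) (nat_lit 8217921191) (nat_lit 304) (nat_lit 2855784788) (nat_lit 380) (nat_lit 5400755294) (nat_lit 102) (nat_lit 5) (nat_lit 106) (nat_lit 5) (nat_lit 107) (nat_lit 5) (nat_lit 369) (nat_lit 316) (nat_lit 215)) (XT.lf (nat_lit 0) (nat_lit 670518243) (nat_lit 304) (nat_lit 13953556036) (nat_lit 380) (nat_lit 2160749402) (nat_lit 98) (nat_lit 5) (nat_lit 102) (nat_lit 5) (nat_lit 103) (nat_lit 5) (nat_lit 370) (nat_lit 316) (nat_lit 214)))) (XT.nd (nat_lit 78) (nat_lit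 304) (nat_lit 0) (XT.lf (nat_lit 0) (nat_lit 1249227439) (nat_lit 380) (nat_lit 7132276815) (nat_lit 76) (nat_lit 8719789415) (nat_lit 97) (nat_lit 5) (nat_lit 102) (nat_lit 5) (nat_lit 98) (nat_lit 5) (nat_lit 371) (nat_lit 316) (nat_lit 213)) (XT.nd (nat_lit 78) (nat_lit 0) (nat_lit 0) (XT.lf (nat_lit 0) (nat_lit 2115299142) (nat_lit 304) (nat_lit 2606849091) (nat_lit 380) (nat_lit 12704353081) (nat_lit 93) (nat_lit 5) (nat_lit 97) (nat_lit 5) (nat_lit 98) (nat_lit 5) (nat_lit 372) (nat_lit 316) (nat_lit 212)) (XT.lf (nat_lit 0) (nat_lit 8388022451) (nat_lit 380) (nat_lit 6029605658) (nat_lit 76) (nat_lit 3341181462) (nat_lit 93) (nat_lit 5) (nat_lit 98) (nat_lit 5) (nat_lit 94) (nat_lit 5) (nat_lit 373) (nat_lit 316) (nat_lit 211))))) (XT.nd (nat_lit 234) (nat_lit 456) (nat_lit 0) (XT.nd (nat_lit 78) (nat_lit 380) (nat_lit 0) (XT.lf (nat_lit 0) (nat_lit 3550633505) (nat_lit 228) (nat_lit 8657563668)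 (nat_lit 304) (nat_lit 5891567314) (nat_lit 90) (nat_lit 5) (nat_lit 93) (nat_lit 5) (nat_lit 94) (nat_lit 5) (nat_lit 374) (nat_lit 316) (nat_lit 210)) (XT.nd (nat_lit 78) (nat_lit 380) (nat_lit 0) (XT.lf (nat_lit 0) (nat_lit 13518828580) (nat_lit 228) (nat_lit 2669652052) (nat_lit 304) (nat_lit 2261109243) (nat_lit 90) (nat_lit 5) (nat_lit 93) (nat_lit 5) (nat_lit 94) (nat_lit 5) (nat_lit 375) (nat_lit 316) (nat_lit 209)) (XT.lf (nat_lit 0) (nat_lit 1516921403) (nat_lit 380) (nat_lit 13805098461) (nat_lit 76) (nat_lit 3485445245) (nat_lit 85) (nat_lit 5) (nat_lit 90) (nat_lit 5) (nat_lit 86) (nat_lit 5) (nat_lit 376) (nat_lit 316) (nat_lit 208)))) (XT.nd (nat_lit 156) (nat_lit 228) (nat_lit 0) (XT.nd (nat_lit 78) (nat_lit 228) (nat_lit 0) (XT.lf (nat_lit 0) (nat_lit 5424623531) (nat_lit 380) (nat_lit 3912175631) (nat_lit 76) (nat_lit 9836758867) (nat_lit 85) (nat_lit 5) (nat_lit 90) (nat_lit 5) (nat_lit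 86) (nat_lit 5) (nat_lit 377) (nat_lit 316) (nat_lit 207)) (XT.lf (nat_lit 0) (nat_lit 6379849536) (nat_lit 228) (nat_lit 3116529754) (nat_lit 304) (nat_lit 10052855927) (nat_lit 82) (nat_lit 5) (nat_lit 85) (nat_lit 5) (nat_lit 86) (nat_lit 5) (nat_lit 378) (nat_lit 316) (nat_lit 206))) (XT.nd (nat_lit 78) (nat_lit 228) (nat_lit 0) (XT.lf (nat_lit 0) (nat_lit 13747446190) (nat_lit 304) (nat_lit 2928509119) (nat_lit 76) (nat_lit 3258518637) (nat_lit 82) (nat_lit 5) (nat_lit 86) (nat_lit 5) (nat_lit 83) (nat_lit 5) (nat_lit 379) (nat_lit 316) (nat_lit 205)) (XT.lf (nat_lit 0) (nat_lit 7717663802) (nat_lit 228) (nat_lit 10499476566) (nat_lit 304) (nat_lit 2111402416) (nat_lit 79) (nat_lit 5) (nat_lit 82) (nat_lit 5) (nat_lit 83) (nat_lit 5) (nat_lit 380) (nat_lit 316) (nat_lit 204))))))) (XT.nd (nat_lit 1014) (nat_lit 1292) (nat_lit 0) (XT.nd (nat_lit 468) (nat_lit 684) (nat_lit 0) (XT.nd (nat_lit 234) (nat_lit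 532) (nat_lit 0) (XT.nd (nat_lit 78) (nat_lit 228) (nat_lit 0) (XT.lf (nat_lit 0) (nat_lit 2061751672) (nat_lit 304) (nat_lit 2032384533) (nat_lit 76) (nat_lit 16639222006) (nat_lit 78) (nat_lit 5) (nat_lit 82) (nat_lit 5) (nat_lit 79) (nat_lit 5) (nat_lit 381) (nat_lit 316) (nat_lit 203)) (XT.nd (nat_lit 78) (nat_lit 0) (nat_lit 0) (XT.lf (nat_lit 0) (nat_lit 6415716483) (nat_lit 304) (nat_lit 12175544989) (nat_lit 76) (nat_lit 2555493197) (nat_lit 75) (nat_lit 5) (nat_lit 79) (nat_lit 5) (nat_lit 76) (nat_lit 5) (nat_lit 382) (nat_lit 316) (nat_lit 202)) (XT.lf (nat_lit 0) (nat_lit 10948195789) (nat_lit 304) (nat_lit 1287335596) (nat_lit 76) (nat_lit 9335589927) (nat_lit 75) (nat_lit 5) (nat_lit 79) (nat_lit 5) (nat_lit 76) (nat_lit 5) (nat_lit 383) (nat_lit 316) (nat_lit 201)))) (XT.nd (nat_lit 78) (nat_lit 304) (nat_lit 0) (XT.lf (nat_lit 0) (nat_lit 10104072680) (nat_lit 228) (nat_lit 5596725896)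 (nat_lit 304) (nat_lit 6304900912) (nat_lit 72) (nat_lit 5) (nat_lit 75) (nat_lit 5) (nat_lit 76) (nat_lit 5) (nat_lit 384) (nat_lit 316) (nat_lit 200)) (XT.nd (nat_lit 78) (nat_lit 304) (nat_lit 0) (XT.lf (nat_lit 0) (nat_lit 20608170445) (nat_lit 304) (nat_lit 622100671) (nat_lit 76) (nat_lit 1222683025) (nat_lit 72) (nat_lit 5) (nat_lit 76) (nat_lit 5) (nat_lit 73) (nat_lit 5) (nat_lit 385) (nat_lit 316) (nat_lit 199)) (XT.lf (nat_lit 0) (nat_lit 2846952387) (nat_lit 304) (nat_lit 11799433992) (nat_lit 76) (nat_lit 8261908018) (nat_lit 68) (nat_lit 5) (nat_lit 72) (nat_lit 5) (nat_lit 69) (nat_lit 5) (nat_lit 386) (nat_lit 316) (nat_lit 198))))) (XT.nd (nat_lit 234) (nat_lit 304) (nat_lit 0) (XT.nd (nat_lit 78) (nat_lit 380) (nat_lit 0) (XT.lf (nat_lit 0) (nat_lit 7636258241) (nat_lit 304) (nat_lit 211109863) (nat_lit 76) (nat_lit 15529566370) (nat_lit 68) (nat_lit 5) (nat_lit 72) (nat_lit 5) (nat_lit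 69) (nat_lit 5) (nat_lit 387) (nat_lit 316) (nat_lit 197)) (XT.nd (nat_lit 78) (nat_lit 152) (nat_lit 0) (XT.lf (nat_lit 0) (nat_lit 11938230757) (nat_lit 228) (nat_lit 733684478) (nat_lit 304) (nat_lit 11184642681) (nat_lit 65) (nat_lit 5) (nat_lit 68) (nat_lit 5) (nat_lit 69) (nat_lit 5) (nat_lit 388) (nat_lit 316) (nat_lit 196)) (XT.lf (nat_lit 0) (nat_lit 23236522) (nat_lit 152) (nat_lit 17889169595) (nat_lit 228) (nat_lit 6436555210) (nat_lit 63) (nat_lit 5) (nat_lit 65) (nat_lit 5) (nat_lit 66) (nat_lit 5) (nat_lit 389) (nat_lit 316) (nat_lit 195)))) (XT.nd (nat_lit 156) (nat_lit 0) (nat_lit 0) (XT.nd (nat_lit 78) (nat_lit 304) (nat_lit 0) (XT.lf (nat_lit 0) (nat_lit 12540456442) (nat_lit 152) (nat_lit 10885369905) (nat_lit 228) (nat_lit 1426843127) (nat_lit 63) (nat_lit 5) (nat_lit 65) (nat_lit 5) (nat_lit 66) (nat_lit 5) (nat_lit 390) (nat_lit 316) (nat_lit 194)) (XT.lf (nat_lit 0) (nat_lit 6788297)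 (nat_lit 228) (nat_lit 3641986742) (nat_lit 304) (nat_lit 21721987237) (nat_lit 59) (nat_lit 5) (nat_lit 62) (nat_lit 5) (nat_lit 63) (nat_lit 5) (nat_lit 391) (nat_lit 316) (nat_lit 193))) (XT.nd (nat_lit 78) (nat_lit 0) (nat_lit 0) (XT.lf (nat_lit 0) (nat_lit 8998731542) (nat_lit 304) (nat_lit 13024235590) (nat_lit 76) (nat_lit 3876488206) (nat_lit 59) (nat_lit 5) (nat_lit 63) (nat_lit 5) (nat_lit 60) (nat_lit 5) (nat_lit 392) (nat_lit 316) (nat_lit 192)) (XT.lf (nat_lit 0) (nat_lit 14534061616) (nat_lit 304) (nat_lit 369053415) (nat_lit 76) (nat_lit 11540151531) (nat_lit 59) (nat_lit 5) (nat_lit 63) (nat_lit 5) (nat_lit 60) (nat_lit 5) (nat_lit 393) (nat_lit 316) (nat_lit 191)))))) (XT.nd (nat_lit 546) (nat_lit 608) (nat_lit 0) (XT.nd (nat_lit 234) (nat_lit 304) (nat_lit 0) (XT.nd (nat_lit 78) (nat_lit 228) (nat_lit 0) (XT.lf (nat_lit 0) (nat_lit 12899352301) (nat_lit 152) (nat_lit 7449237118) (nat_lit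 228) (nat_lit 6651412080) (nat_lit 57) (nat_lit 5) (nat_lit 59) (nat_lit 5) (nat_lit 60) (nat_lit 5) (nat_lit 394) (nat_lit 316) (nat_lit 190)) (XT.nd (nat_lit 78) (nat_lit 228) (nat_lit 0) (XT.lf (nat_lit 0) (nat_lit 26332726034) (nat_lit 228) (nat_lit 1020404319) (nat_lit 76) (nat_lit 220456352) (nat_lit 57) (nat_lit 5) (nat_lit 60) (nat_lit 5) (nat_lit 58) (nat_lit 5) (nat_lit 395) (nat_lit 316) (nat_lit 189)) (XT.lf (nat_lit 0) (nat_lit 4433765878) (nat_lit 228) (nat_lit 15595511016) (nat_lit 76) (nat_lit 8128267781) (nat_lit 54) (nat_lit 5) (nat_lit 57) (nat_lit 5) (nat_lit 55) (nat_lit 5) (nat_lit 396) (nat_lit 316) (nat_lit 188)))) (XT.nd (nat_lit 156) (nat_lit 152) (nat_lit 0) (XT.nd (nat_lit 78) (nat_lit 152) (nat_lit 0) (XT.lf (nat_lit 0) (nat_lit 10253657703) (nat_lit 228) (nat_lit 2215966683) (nat_lit 76) (nat_lit 16289032550) (nat_lit 54) (nat_lit 5) (nat_lit 57) (nat_lit 5) (nat_lit 55) (nat_lit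 5) (nat_lit 397) (nat_lit 316) (nat_lit 187)) (XT.lf (nat_lit 0) (nat_lit 11777574530) (nat_lit 152) (nat_lit 4573649513) (nat_lit 228) (nat_lit 13023489217) (nat_lit 52) (nat_lit 5) (nat_lit 54) (nat_lit 5) (nat_lit 55) (nat_lit 5) (nat_lit 398) (nat_lit 316) (nat_lit 186))) (XT.nd (nat_lit 78) (nat_lit 152) (nat_lit 0) (XT.lf (nat_lit 0) (nat_lit 22678457316) (nat_lit 228) (nat_lit 3823946646) (nat_lit 76) (nat_lit 3505448057) (nat_lit 52) (nat_lit 5) (nat_lit 55) (nat_lit 5) (nat_lit 53) (nat_lit 5) (nat_lit 399) (nat_lit 316) (nat_lit 185)) (XT.lf (nat_lit 0) (nat_lit 10505379613) (nat_lit 152) (nat_lit 18826617337) (nat_lit 228) (nat_lit 1323896164) (nat_lit 50) (nat_lit 5) (nat_lit 52) (nat_lit 5) (nat_lit 53) (nat_lit 5) (nat_lit 400) (nat_lit 316) (nat_lit 184))))) (XT.nd (nat_lit 234) (nat_lit 380) (nat_lit 0) (XT.nd (nat_lit 78) (nat_lit 152) (nat_lit 0) (XT.lf (nat_lit 0) (nat_lit 4796141828)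 (nat_lit 228) (nat_lit 6043168821) (nat_lit 76) (nat_lit 20481788105) (nat_lit 49) (nat_lit 5) (nat_lit 52) (nat_lit 5) (nat_lit 50) (nat_lit 5) (nat_lit 401) (nat_lit 316) (nat_lit 183)) (XT.nd (nat_lit 78) (nat_lit 0) (nat_lit 0) (XT.lf (nat_lit 0) (nat_lit 8626300030) (nat_lit 152) (nat_lit 2520325633) (nat_lit 228) (nat_lit 20857040665) (nat_lit 47) (nat_lit 5) (nat_lit 49) (nat_lit 5) (nat_lit 50) (nat_lit 5) (nat_lit 402) (nat_lit 316) (nat_lit 182)) (XT.lf (nat_lit 0) (nat_lit 17797979033) (nat_lit 228) (nat_lit 8920267660) (nat_lit 76) (nat_lit 5985156123) (nat_lit 47) (nat_lit 5) (nat_lit 50) (nat_lit 5) (nat_lit 48) (nat_lit 5) (nat_lit 403) (nat_lit 316) (nat_lit 181)))) (XT.nd (nat_lit 156) (nat_lit 228) (nat_lit 0) (XT.nd (nat_lit 78) (nat_lit 0) (nat_lit 0) (XT.lf (nat_lit 0) (nat_lit 6047703708) (nat_lit 152) (nat_lit 18675118782) (nat_lit 228) (nat_lit 8699092887) (nat_lit 45) (nat_lit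 5) (nat_lit 47) (nat_lit 5) (nat_lit 48) (nat_lit 5) (nat_lit 404) (nat_lit 316) (nat_lit 180)) (XT.lf (nat_lit 0) (nat_lit 21631827839) (nat_lit 152) (nat_lit 10304637002) (nat_lit 228) (nat_lit 2223089258) (nat_lit 45) (nat_lit 5) (nat_lit 47) (nat_lit 5) (nat_lit 48) (nat_lit 5) (nat_lit 405) (nat_lit 316) (nat_lit 179))) (XT.nd (nat_lit 78) (nat_lit 0) (nat_lit 0) (XT.lf (nat_lit 0) (nat_lit 2759795135) (nat_lit 152) (nat_lit 1618297584) (nat_lit 228) (nat_lit 30539418673) (nat_lit 42) (nat_lit 5) (nat_lit 44) (nat_lit 5) (nat_lit 45) (nat_lit 5) (nat_lit 406) (nat_lit 316) (nat_lit 178)) (XT.lf (nat_lit 0) (nat_lit 11322031146) (nat_lit 228) (nat_lit 17040887128) (nat_lit 76) (nat_lit 7328948908) (nat_lit 42) (nat_lit 5) (nat_lit 45) (nat_lit 5) (nat_lit 43) (nat_lit 5) (nat_lit 407) (nat_lit 316) (nat_lit 177))))))))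
noncomputable def xc148 : XT := (XT.nd (nat_lit 2028) (nat_lit 380) (nat_lit 0) (XT.nd (nat_lit 1014) (nat_lit 684) (nat_lit 0) (XT.nd (nat_lit 468) (nat_lit 304) (nat_lit 0) (XT.nd (nat_lit 234) (nat_lit 304) (nat_lit 0) (XT.nd (nat_lit 78) (nat_lit 152) (nat_lit 0) (XT.lf (nat_lit 0) (nat_lit 18481764443) (nat_lit 228) (nat_lit 1501636609) (nat_lit 76) (nat_lit 16505830418) (nat_lit 42) (nat_lit 5) (nat_lit 45) (nat_lit 5) (nat_lit 43) (nat_lit 5) (nat_lit 408) (nat_lit 316) (nat_lit 176)) (XT.nd (nat_lit 78) (nat_lit 0) (nat_lit 0) (XT.lf (nat_lit 0) (nat_lit 14777532231) (nat_lit 152) (nat_lit 11212511069) (nat_lit 228) (nat_lit 11316462842) (nat_lit 40) (nat_lit 5) (nat_lit 42) (nat_lit 5) (nat_lit 43) (nat_lit 5) (nat_lit 409) (nat_lit 316) (nat_lit 175)) (XT.lf (nat_lit 0) (nat_lit 31561379495) (nat_lit 152) (nat_lit 2169159980) (nat_lit 228) (nat_lit 4417552513) (nat_lit 40) (nat_lit 5) (nat_lit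 42) (nat_lit 5) (nat_lit 43) (nat_lit 5) (nat_lit 410) (nat_lit 316) (nat_lit 174)))) (XT.nd (nat_lit 78) (nat_lit 152) (nat_lit 0) (XT.lf (nat_lit 0) (nat_lit 2793680737) (nat_lit 152) (nat_lit 29092675516) (nat_lit 76) (nat_lit 7123061355) (nat_lit 38) (nat_lit 5) (nat_lit 40) (nat_lit 5) (nat_lit 39) (nat_lit 5) (nat_lit 411) (nat_lit 316) (nat_lit 173)) (XT.nd (nat_lit 78) (nat_lit 152) (nat_lit 0) (XT.lf (nat_lit 0) (nat_lit 10213113879) (nat_lit 152) (nat_lit 12924400037) (nat_lit 76) (nat_lit 16755339230) (nat_lit 38) (nat_lit 5) (nat_lit 40) (nat_lit 5) (nat_lit 39) (nat_lit 5) (nat_lit 412) (nat_lit 316) (nat_lit 172)) (XT.lf (nat_lit 0) (nat_lit 3789016029) (nat_lit 152) (nat_lit 14094772312) (nat_lit 228) (nat_lit 22918145437) (nat_lit 36) (nat_lit 5) (nat_lit 38) (nat_lit 5) (nat_lit 39) (nat_lit 5) (nat_lit 413) (nat_lit 316) (nat_lit 171))))) (XT.nd (nat_lit 234) (nat_lit 228) (nat_lit 0)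 (XT.nd (nat_lit 78) (nat_lit 76) (nat_lit 0) (XT.lf (nat_lit 0) (nat_lit 21255062819) (nat_lit 152) (nat_lit 4652361661) (nat_lit 228) (nat_lit 15827178836) (nat_lit 36) (nat_lit 5) (nat_lit 38) (nat_lit 5) (nat_lit 39) (nat_lit 5) (nat_lit 414) (nat_lit 316) (nat_lit 170)) (XT.nd (nat_lit 78) (nat_lit 76) (nat_lit 0) (XT.lf (nat_lit 0) (nat_lit 34213034936) (nat_lit 228) (nat_lit 3512408484) (nat_lit 76) (nat_lit 4968573240) (nat_lit 36) (nat_lit 5) (nat_lit 39) (nat_lit 5) (nat_lit 37) (nat_lit 4) (nat_lit 415) (nat_lit 316) (nat_lit 169)) (XT.lf (nat_lit 0) (nat_lit 14181316968) (nat_lit 76) (nat_lit 28761595104) (nat_lit 152) (nat_lit 734049008) (nat_lit 35) (nat_lit 5) (nat_lit 36) (nat_lit 5) (nat_lit 37) (nat_lit 4) (nat_lit 416) (nat_lit 316) (nat_lit 168)))) (XT.nd (nat_lit 156) (nat_lit 0) (nat_lit 0) (XT.nd (nat_lit 78) (nat_lit 152) (nat_lit 0) (XT.lf (nat_lit 0) (nat_lit 7132460248) (nat_lit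 152) (nat_lit 12293576035) (nat_lit 76) (nat_lit 25260413192) (nat_lit 34) (nat_lit 5) (nat_lit 36) (nat_lit 5) (nat_lit 35) (nat_lit 5) (nat_lit 417) (nat_lit 316) (nat_lit 167)) (XT.lf (nat_lit 0) (nat_lit 5512125342) (nat_lit 152) (nat_lit 9754014116) (nat_lit 228) (nat_lit 30458488670) (nat_lit 32) (nat_lit 5) (nat_lit 34) (nat_lit 5) (nat_lit 35) (nat_lit 5) (nat_lit 418) (nat_lit 316) (nat_lit 166))) (XT.nd (nat_lit 78) (nat_lit 0) (nat_lit 0) (XT.lf (nat_lit 0) (nat_lit 23764173034) (nat_lit 228) (nat_lit 22702208252) (nat_lit 76) (nat_lit 323961982) (nat_lit 32) (nat_lit 5) (nat_lit 35) (nat_lit 5) (nat_lit 33) (nat_lit 4) (nat_lit 419) (nat_lit 316) (nat_lit 165)) (XT.lf (nat_lit 0) (nat_lit 32606899500) (nat_lit 228) (nat_lit 4775561992) (nat_lit 76) (nat_lit 10502877217) (nat_lit 32) (nat_lit 5) (nat_lit 35) (nat_lit 5) (nat_lit 33) (nat_lit 4) (nat_lit 420) (nat_lit 316) (nat_lit 164))))))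 (XT.nd (nat_lit 468) (nat_lit 304) (nat_lit 0) (XT.nd (nat_lit 234) (nat_lit 76) (nat_lit 0) (XT.nd (nat_lit 78) (nat_lit 228) (nat_lit 0) (XT.lf (nat_lit 0) (nat_lit 13949057965) (nat_lit 76) (nat_lit 27893312875) (nat_lit 152) (nat_lit 7166990646) (nat_lit 31) (nat_lit 5) (nat_lit 32) (nat_lit 5) (nat_lit 33) (nat_lit 4) (nat_lit 421) (nat_lit 316) (nat_lit 163)) (XT.nd (nat_lit 78) (nat_lit 152) (nat_lit 0) (XT.lf (nat_lit 0) (nat_lit 1206712959) (nat_lit 152) (nat_lit 16856279763) (nat_lit 76) (nat_lit 32102508278) (nat_lit 30) (nat_lit 5) (nat_lit 32) (nat_lit 5) (nat_lit 31) (nat_lit 5) (nat_lit 422) (nat_lit 316) (nat_lit 162)) (XT.lf (nat_lit 0) (nat_lit 1847264732) (nat_lit 152) (nat_lit 7851651722) (nat_lit 228) (nat_lit 41654940537) (nat_lit 28) (nat_lit 5) (nat_lit 30) (nat_lit 5) (nat_lit 31) (nat_lit 5) (nat_lit 423) (nat_lit 316) (nat_lit 161)))) (XT.nd (nat_lit 78) (nat_lit 76) (nat_lit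 0) (XT.lf (nat_lit 0) (nat_lit 18637020854) (nat_lit 228) (nat_lit 31154330369) (nat_lit 76) (nat_lit 2780779609) (nat_lit 28) (nat_lit 5) (nat_lit 31) (nat_lit 5) (nat_lit 29) (nat_lit 4) (nat_lit 424) (nat_lit 316) (nat_lit 160)) (XT.nd (nat_lit 78) (nat_lit 76) (nat_lit 0) (XT.lf (nat_lit 0) (nat_lit 27914800343) (nat_lit 228) (nat_lit 12340611718) (nat_lit 76) (nat_lit 13569396043) (nat_lit 28) (nat_lit 5) (nat_lit 31) (nat_lit 5) (nat_lit 29) (nat_lit 4) (nat_lit 425) (nat_lit 316) (nat_lit 159)) (XT.lf (nat_lit 0) (nat_lit 7166318426) (nat_lit 76) (nat_lit 30367455450) (nat_lit 152) (nat_lit 17579407141) (nat_lit 27) (nat_lit 5) (nat_lit 28) (nat_lit 5) (nat_lit 29) (nat_lit 4) (nat_lit 426) (nat_lit 316) (nat_lit 158))))) (XT.nd (nat_lit 234) (nat_lit 76) (nat_lit 0) (XT.nd (nat_lit 78) (nat_lit 228) (nat_lit 0) (XT.lf (nat_lit 0) (nat_lit 27500494411) (nat_lit 76) (nat_lit 20059482246) (nat_lit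 152) (nat_lit 8876669769) (nat_lit 27) (nat_lit 5) (nat_lit 28) (nat_lit 5) (nat_lit 29) (nat_lit 4) (nat_lit 427) (nat_lit 316) (nat_lit 157)) (XT.nd (nat_lit 78) (nat_lit 152) (nat_lit 0) (XT.lf (nat_lit 0) (nat_lit 79608343) (nat_lit 152) (nat_lit 9366689230) (nat_lit 76) (nat_lit 48353669359) (nat_lit 26) (nat_lit 5) (nat_lit 28) (nat_lit 5) (nat_lit 27) (nat_lit 5) (nat_lit 428) (nat_lit 316) (nat_lit 156)) (XT.lf (nat_lit 0) (nat_lit 9241450789) (nat_lit 228) (nat_lit 48310383140) (nat_lit 76) (nat_lit 1646258859) (nat_lit 24) (nat_lit 5) (nat_lit 27) (nat_lit 5) (nat_lit 25) (nat_lit 4) (nat_lit 429) (nat_lit 316) (nat_lit 155)))) (XT.nd (nat_lit 156) (nat_lit 76) (nat_lit 0) (XT.nd (nat_lit 78) (nat_lit 0) (nat_lit 0) (XT.lf (nat_lit 0) (nat_lit 18861547934) (nat_lit 228) (nat_lit 28798481102) (nat_lit 76) (nat_lit 12972632384) (nat_lit 24) (nat_lit 5) (nat_lit 27) (nat_lit 5) (nat_lit 25) (nat_lit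 4) (nat_lit 430) (nat_lit 316) (nat_lit 154)) (XT.lf (nat_lit 0) (nat_lit 28764762600) (nat_lit 228) (nat_lit 8711358404) (nat_lit 76) (nat_lit 24634311627) (nat_lit 24) (nat_lit 5) (nat_lit 27) (nat_lit 5) (nat_lit 25) (nat_lit 4) (nat_lit 431) (nat_lit 316) (nat_lit 153))) (XT.nd (nat_lit 78) (nat_lit 0) (nat_lit 0) (XT.lf (nat_lit 0) (nat_lit 12206734157) (nat_lit 76) (nat_lit 26870352520) (nat_lit 152) (nat_lit 24552090840) (nat_lit 23) (nat_lit 5) (nat_lit 24) (nat_lit 5) (nat_lit 25) (nat_lit 4) (nat_lit 432) (nat_lit 316) (nat_lit 152)) (XT.lf (nat_lit 0) (nat_lit 33921199119) (nat_lit 76) (nat_lit 15860284815) (nat_lit 152) (nat_lit 15409520613) (nat_lit 23) (nat_lit 5) (nat_lit 24) (nat_lit 5) (nat_lit 25) (nat_lit 4) (nat_lit 433) (nat_lit 316) (nat_lit 151))))))) (XT.nd (nat_lit 38064) (nat_lit 0) (nat_lit 17404) (XT.nd (nat_lit 468) (nat_lit 152) (nat_lit 0) (XT.nd (nat_lit 234) (nat_lit 76)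 (nat_lit 0) (XT.nd (nat_lit 78) (nat_lit 152) (nat_lit 0) (XT.lf (nat_lit 0) (nat_lit 56277637171) (nat_lit 76) (nat_lit 4524265083) (nat_lit 152) (nat_lit 5997938337) (nat_lit 23) (nat_lit 5) (nat_lit 24) (nat_lit 5) (nat_lit 25) (nat_lit 4) (nat_lit 434) (nat_lit 316) (nat_lit 150)) (XT.nd (nat_lit 78) (nat_lit 0) (nat_lit 0) (XT.lf (nat_lit 0) (nat_lit 3794876362) (nat_lit 152) (nat_lit 57504943047) (nat_lit 76) (nat_lit 7150927076) (nat_lit 21) (nat_lit 5) (nat_lit 23) (nat_lit 5) (nat_lit 22) (nat_lit 4) (nat_lit 435) (nat_lit 316) (nat_lit 149)) (XT.lf (nat_lit 0) (nat_lit 13908028096) (nat_lit 152) (nat_lit 36988982343) (nat_lit 76) (nat_lit 19247975195) (nat_lit 21) (nat_lit 5) (nat_lit 23) (nat_lit 5) (nat_lit 22) (nat_lit 4) (nat_lit 436) (nat_lit 316) (nat_lit 148)))) (XT.nd (nat_lit 78) (nat_lit 76) (nat_lit 0) (XT.lf (nat_lit 0) (nat_lit 24319724745) (nat_lit 152) (nat_lit 15866575346) (nat_lit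 76) (nat_lit 31703898133) (nat_lit 21) (nat_lit 5) (nat_lit 23) (nat_lit 5) (nat_lit 22) (nat_lit 4) (nat_lit 437) (nat_lit 316) (nat_lit 147)) (XT.nd (nat_lit 78) (nat_lit 0) (nat_lit 0) (XT.lf (nat_lit 0) (nat_lit 5997772559) (nat_lit 76) (nat_lit 29098945606) (nat_lit 152) (nat_lit 38589461406) (nat_lit 20) (nat_lit 5) (nat_lit 21) (nat_lit 5) (nat_lit 22) (nat_lit 4) (nat_lit 438) (nat_lit 316) (nat_lit 146)) (XT.lf (nat_lit 0) (nat_lit 28834616672) (nat_lit 76) (nat_lit 17517971298) (nat_lit 152) (nat_lit 29178786125) (nat_lit 20) (nat_lit 5) (nat_lit 21) (nat_lit 5) (nat_lit 22) (nat_lit 4) (nat_lit 439) (nat_lit 316) (nat_lit 145))))) (XT.nd (nat_lit 37284) (nat_lit 0) (nat_lit 19152) (XT.nd (nat_lit 156) (nat_lit 152) (nat_lit 0) (XT.lf (nat_lit 0) (nat_lit 52348135554) (nat_lit 76) (nat_lit 5593479170) (nat_lit 152) (nat_lit 19490446017) (nat_lit 20) (nat_lit 5) (nat_lit 21) (nat_lit 5) (nat_lit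 22) (nat_lit 4) (nat_lit 440) (nat_lit 316) (nat_lit 144)) (XT.nd (nat_lit 78) (nat_lit 0) (nat_lit 0) (XT.lf (nat_lit 0) (nat_lit 1123259070) (nat_lit 152) (nat_lit 61114635594) (nat_lit 76) (nat_lit 19156953044) (nat_lit 18) (nat_lit 5) (nat_lit 20) (nat_lit 5) (nat_lit 19) (nat_lit 4) (nat_lit 442) (nat_lit 316) (nat_lit 142)) (XT.lf (nat_lit 0) (nat_lit 11848802986) (nat_lit 152) (nat_lit 39352625808) (nat_lit 76) (nat_lit 32256937028) (nat_lit 18) (nat_lit 5) (nat_lit 20) (nat_lit 5) (nat_lit 19) (nat_lit 4) (nat_lit 443) (nat_lit 316) (nat_lit 141)))) (XT.nd (nat_lit 156) (nat_lit 912) (nat_lit 0) (XT.nd (nat_lit 78) (nat_lit 0) (nat_lit 0) (XT.lf (nat_lit 0) (nat_lit 1191346877) (nat_lit 0) (nat_lit 1191346877) (nat_lit 836) (nat_lit 1459205282) (nat_lit 282) (nat_lit 5) (nat_lit 282) (nat_lit 3) (nat_lit 293) (nat_lit 3) (nat_lit 317) (nat_lit 317) (nat_lit 266)) (XT.lf (nat_lit 0) (nat_lit 6100263448)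 (nat_lit 0) (nat_lit 41692563) (nat_lit 836) (nat_lit 1616733332) (nat_lit 282) (nat_lit 5) (nat_lit 282) (nat_lit 3) (nat_lit 293) (nat_lit 3) (nat_lit 318) (nat_lit 317) (nat_lit 265))) (XT.nd (nat_lit 78) (nat_lit 912) (nat_lit 0) (XT.lf (nat_lit 76) (nat_lit 2084137325) (nat_lit 0) (nat_lit 5467806582) (nat_lit 912) (nat_lit 284167116) (nat_lit 283) (nat_lit 5) (nat_lit 282) (nat_lit 5) (nat_lit 294) (nat_lit 5) (nat_lit 319) (nat_lit 317) (nat_lit 264)) (XT.lf (nat_lit 0) (nat_lit 1034456046) (nat_lit 912) (nat_lit 1981479619) (nat_lit 988) (nat_lit 4900630906) (nat_lit 270) (nat_lit 5) (nat_lit 282) (nat_lit 5) (nat_lit 283) (nat_lit 5) (nat_lit 320) (nat_lit 317) (nat_lit 263)))))) (XT.nd (nat_lit 546) (nat_lit 912) (nat_lit 0) (XT.nd (nat_lit 234) (nat_lit 836) (nat_lit 0) (XT.nd (nat_lit 78) (nat_lit 0) (nat_lit 76) (XT.lf (nat_lit 76) (nat_lit 1909331472) (nat_lit 0) (nat_lit 447397783) (nat_lit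 988) (nat_lit 5643571366) (nat_lit 271) (nat_lit 5) (nat_lit 270) (nat_lit 5) (nat_lit 283) (nat_lit 5) (nat_lit 321) (nat_lit 317) (nat_lit 262)) (XT.nd (nat_lit 78) (nat_lit 0) (nat_lit 0) (XT.lf (nat_lit 0) (nat_lit 3712808500) (nat_lit 912) (nat_lit 2178425020) (nat_lit 988) (nat_lit 2195531098) (nat_lit 271) (nat_lit 5) (nat_lit 283) (nat_lit 5) (nat_lit 284) (nat_lit 5) (nat_lit 322) (nat_lit 317) (nat_lit 261)) (XT.lf (nat_lit 76) (nat_lit 1855471348) (nat_lit 0) (nat_lit 3230539394) (nat_lit 988) (nat_lit 3090559414) (nat_lit 272) (nat_lit 5) (nat_lit 271) (nat_lit 5) (nat_lit 284) (nat_lit 5) (nat_lit 323) (nat_lit 317) (nat_lit 260)))) (XT.nd (nat_lit 156) (nat_lit 912) (nat_lit 0) (XT.nd (nat_lit 78) (nat_lit 0) (nat_lit 76) (XT.lf (nat_lit 76) (nat_lit 6027511418) (nat_lit 0) (nat_lit 450140555) (nat_lit 988) (nat_lit 1792140249) (nat_lit 272) (nat_lit 5) (nat_lit 271) (nat_lit 5) (nat_lit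 284) (nat_lit 5) (nat_lit 324) (nat_lit 317) (nat_lit 259)) (XT.lf (nat_lit 76) (nat_lit 1945432702) (nat_lit 0) (nat_lit 5964221508) (nat_lit 988) (nat_lit 456236881) (nat_lit 273) (nat_lit 5) (nat_lit 272) (nat_lit 5) (nat_lit 285) (nat_lit 5) (nat_lit 325) (nat_lit 317) (nat_lit 258))) (XT.nd (nat_lit 78) (nat_lit 0) (nat_lit 0) (XT.lf (nat_lit 0) (nat_lit 886365894) (nat_lit 988) (nat_lit 2201813800) (nat_lit 1064) (nat_lit 5376927187) (nat_lit 259) (nat_lit 5) (nat_lit 272) (nat_lit 5) (nat_lit 273) (nat_lit 5) (nat_lit 326) (nat_lit 317) (nat_lit 257)) (XT.lf (nat_lit 76) (nat_lit 2152883273) (nat_lit 0) (nat_lit 86379813) (nat_lit 1064) (nat_lit 6328560182) (nat_lit 260) (nat_lit 5) (nat_lit 259) (nat_lit 5) (nat_lit 273) (nat_lit 5) (nat_lit 327) (nat_lit 317) (nat_lit 256))))) (XT.nd (nat_lit 234) (nat_lit 988) (nat_lit 0) (XT.nd (nat_lit 78) (nat_lit 0) (nat_lit 0) (XT.lf (nat_lit 0) (nat_lit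 3643649107) (nat_lit 988) (nat_lit 2047808705) (nat_lit 1064) (nat_lit 2981870480) (nat_lit 260) (nat_lit 5) (nat_lit 273) (nat_lit 5) (nat_lit 274) (nat_lit 5) (nat_lit 328) (nat_lit 317) (nat_lit 255)) (XT.nd (nat_lit 78) (nat_lit 0) (nat_lit 76) (XT.lf (nat_lit 76) (nat_lit 2469415789) (nat_lit 0) (nat_lit 2606078957) (nat_lit 1064) (nat_lit 3706977085) (nat_lit 261) (nat_lit 5) (nat_lit 260) (nat_lit 5) (nat_lit 274) (nat_lit 5) (nat_lit 329) (nat_lit 317) (nat_lit 254)) (XT.lf (nat_lit 0) (nat_lit 6538386509) (nat_lit 988) (nat_lit 1765095790) (nat_lit 1064) (nat_lit 591796893) (nat_lit 261) (nat_lit 5) (nat_lit 274) (nat_lit 5) (nat_lit 275) (nat_lit 5) (nat_lit 330) (nat_lit 317) (nat_lit 253)))) (XT.nd (nat_lit 156) (nat_lit 0) (nat_lit 76) (XT.nd (nat_lit 78) (nat_lit 1064) (nat_lit 0) (XT.lf (nat_lit 76) (nat_lit 2922113955) (nat_lit 0) (nat_lit 5139768299) (nat_lit 1064) (nat_lit 949118302)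 (nat_lit 262) (nat_lit 5) (nat_lit 261) (nat_lit 5) (nat_lit 275) (nat_lit 5) (nat_lit 331) (nat_lit 317) (nat_lit 252)) (XT.lf (nat_lit 0) (nat_lit 472363505) (nat_lit 1064) (nat_lit 1377417401) (nat_lit 1140) (nat_lit 7280860260) (nat_lit 247) (nat_lit 5) (nat_lit 261) (nat_lit 5) (nat_lit 262) (nat_lit 5) (nat_lit 332) (nat_lit 317) (nat_lit 251))) (XT.nd (nat_lit 78) (nat_lit 0) (nat_lit 0) (XT.lf (nat_lit 0) (nat_lit 1930730180) (nat_lit 1064) (nat_lit 5762597941) (nat_lit 76) (nat_lit 1559890097) (nat_lit 248) (nat_lit 5) (nat_lit 262) (nat_lit 5) (nat_lit 249) (nat_lit 5) (nat_lit 333) (nat_lit 317) (nat_lit 250)) (XT.lf (nat_lit 0) (nat_lit 3430368657) (nat_lit 1064) (nat_lit 893490093) (nat_lit 76) (nat_lit 5055716019) (nat_lit 248) (nat_lit 5) (nat_lit 262) (nat_lit 5) (nat_lit 249) (nat_lit 5) (nat_lit 334) (nat_lit 317) (nat_lit 249))))))))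
noncomputable def xc149 : XT := (XT.nd (nat_lit 2028) (nat_lit 4408) (nat_lit 0) (XT.nd (nat_lit 1014) (nat_lit 3648) (nat_lit 0) (XT.nd (nat_lit 468) (nat_lit 1748) (nat_lit 0) (XT.nd (nat_lit 234) (nat_lit 1672) (nat_lit 0) (XT.nd (nat_lit 78) (nat_lit 1140) (nat_lit 0) (XT.lf (nat_lit 0) (nat_lit 4175087023) (nat_lit 1064) (nat_lit 806216744) (nat_lit 1140) (nat_lit 4528256023) (nat_lit 234) (nat_lit 5) (nat_lit 248) (nat_lit 5) (nat_lit 249) (nat_lit 5) (nat_lit 335) (nat_lit 317) (nat_lit 248)) (XT.nd (nat_lit 78) (nat_lit 1140) (nat_lit 0) (XT.lf (nat_lit 0) (nat_lit 6581900062) (nat_lit 1140) (nat_lit 285174374) (nat_lit 76) (nat_lit 2776302144) (nat_lit 234) (nat_lit 5) (nat_lit 249) (nat_lit 5) (nat_lit 235) (nat_lit 5) (nat_lit 336) (nat_lit 317) (nat_lit 247)) (XT.lf (nat_lit 0) (nat_lit 4976704752) (nat_lit 1140) (nat_lit 3277536804) (nat_lit 1216) (nat_lit 1526279948) (nat_lit 219) (nat_lit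 5) (nat_lit 234) (nat_lit 5) (nat_lit 235) (nat_lit 5) (nat_lit 337) (nat_lit 317) (nat_lit 246)))) (XT.nd (nat_lit 78) (nat_lit 608) (nat_lit 0) (XT.lf (nat_lit 0) (nat_lit 33618520) (nat_lit 1064) (nat_lit 9466053736) (nat_lit 76) (nat_lit 422725094) (nat_lit 205) (nat_lit 5) (nat_lit 219) (nat_lit 5) (nat_lit 206) (nat_lit 5) (nat_lit 338) (nat_lit 317) (nat_lit 245)) (XT.nd (nat_lit 78) (nat_lit 608) (nat_lit 0) (XT.lf (nat_lit 0) (nat_lit 1659999220) (nat_lit 1064) (nat_lit 4171451874) (nat_lit 76) (nat_lit 4235137455) (nat_lit 205) (nat_lit 5) (nat_lit 219) (nat_lit 5) (nat_lit 206) (nat_lit 5) (nat_lit 339) (nat_lit 317) (nat_lit 244)) (XT.lf (nat_lit 0) (nat_lit 1278670407) (nat_lit 608) (nat_lit 2038619204) (nat_lit 684) (nat_lit 6898374937) (nat_lit 197) (nat_lit 5) (nat_lit 205) (nat_lit 5) (nat_lit 206) (nat_lit 5) (nat_lit 340) (nat_lit 317) (nat_lit 243))))) (XT.nd (nat_lit 234) (nat_lit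 1216) (nat_lit 0) (XT.nd (nat_lit 78) (nat_lit 532) (nat_lit 0) (XT.lf (nat_lit 0) (nat_lit 5055247364) (nat_lit 684) (nat_lit 3437431403) (nat_lit 76) (nat_lit 1875627553) (nat_lit 197) (nat_lit 5) (nat_lit 206) (nat_lit 5) (nat_lit 198) (nat_lit 5) (nat_lit 341) (nat_lit 317) (nat_lit 242)) (XT.nd (nat_lit 78) (nat_lit 0) (nat_lit 0) (XT.lf (nat_lit 0) (nat_lit 2222223759) (nat_lit 532) (nat_lit 4635978206) (nat_lit 608) (nat_lit 3666960950) (nat_lit 190) (nat_lit 5) (nat_lit 197) (nat_lit 5) (nat_lit 198) (nat_lit 5) (nat_lit 342) (nat_lit 317) (nat_lit 241)) (XT.lf (nat_lit 0) (nat_lit 8094334083) (nat_lit 532) (nat_lit 627503177) (nat_lit 608) (nat_lit 1964710879) (nat_lit 190) (nat_lit 5) (nat_lit 197) (nat_lit 5) (nat_lit 198) (nat_lit 5) (nat_lit 343) (nat_lit 317) (nat_lit 240)))) (XT.nd (nat_lit 156) (nat_lit 532) (nat_lit 0) (XT.nd (nat_lit 78) (nat_lit 76) (nat_lit 0) (XT.lf (nat_lit 0) (nat_lit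 3292596390) (nat_lit 608) (nat_lit 7386794342) (nat_lit 684) (nat_lit 172264003) (nat_lit 182) (nat_lit 5) (nat_lit 190) (nat_lit 5) (nat_lit 191) (nat_lit 5) (nat_lit 344) (nat_lit 317) (nat_lit 239)) (XT.lf (nat_lit 0) (nat_lit 1646888471) (nat_lit 684) (nat_lit 1664518762) (nat_lit 76) (nat_lit 7709675587) (nat_lit 181) (nat_lit 5) (nat_lit 190) (nat_lit 5) (nat_lit 182) (nat_lit 5) (nat_lit 345) (nat_lit 317) (nat_lit 238))) (XT.nd (nat_lit 78) (nat_lit 0) (nat_lit 0) (XT.lf (nat_lit 0) (nat_lit 3542760991) (nat_lit 608) (nat_lit 6739029400) (nat_lit 76) (nat_lit 913002340) (nat_lit 174) (nat_lit 5) (nat_lit 182) (nat_lit 5) (nat_lit 175) (nat_lit 5) (nat_lit 346) (nat_lit 317) (nat_lit 237)) (XT.lf (nat_lit 0) (nat_lit 5519500269) (nat_lit 608) (nat_lit 640194654) (nat_lit 76) (nat_lit 5213317147) (nat_lit 174) (nat_lit 5) (nat_lit 182) (nat_lit 5) (nat_lit 175) (nat_lit 5) (nat_lit 347) (nat_lit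 317) (nat_lit 236)))))) (XT.nd (nat_lit 468) (nat_lit 1672) (nat_lit 0) (XT.nd (nat_lit 234) (nat_lit 912) (nat_lit 0) (XT.nd (nat_lit 78) (nat_lit 532) (nat_lit 0) (XT.lf (nat_lit 0) (nat_lit 5726349529) (nat_lit 532) (nat_lit 1859217541) (nat_lit 608) (nat_lit 3970127490) (nat_lit 167) (nat_lit 5) (nat_lit 174) (nat_lit 5) (nat_lit 175) (nat_lit 5) (nat_lit 348) (nat_lit 317) (nat_lit 235)) (XT.nd (nat_lit 78) (nat_lit 76) (nat_lit 0) (XT.lf (nat_lit 0) (nat_lit 511087016) (nat_lit 456) (nat_lit 9214108441) (nat_lit 532) (nat_lit 2018331504) (nat_lit 161) (nat_lit 5) (nat_lit 167) (nat_lit 5) (nat_lit 168) (nat_lit 5) (nat_lit 349) (nat_lit 317) (nat_lit 234)) (XT.lf (nat_lit 0) (nat_lit 45660322) (nat_lit 532) (nat_lit 4820611189) (nat_lit 76) (nat_lit 7069136398) (nat_lit 160) (nat_lit 5) (nat_lit 167) (nat_lit 5) (nat_lit 161) (nat_lit 5) (nat_lit 350) (nat_lit 317) (nat_lit 233)))) (XT.nd (nat_lit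 78) (nat_lit 456) (nat_lit 0) (XT.lf (nat_lit 0) (nat_lit 1771262865) (nat_lit 456) (nat_lit 353109171) (nat_lit 532) (nat_lit 10008288144) (nat_lit 154) (nat_lit 5) (nat_lit 160) (nat_lit 5) (nat_lit 161) (nat_lit 5) (nat_lit 351) (nat_lit 317) (nat_lit 232)) (XT.nd (nat_lit 78) (nat_lit 456) (nat_lit 0) (XT.lf (nat_lit 0) (nat_lit 4332636898) (nat_lit 532) (nat_lit 3743736402) (nat_lit 76) (nat_lit 4257455914) (nat_lit 154) (nat_lit 5) (nat_lit 161) (nat_lit 5) (nat_lit 155) (nat_lit 5) (nat_lit 352) (nat_lit 317) (nat_lit 231)) (XT.lf (nat_lit 0) (nat_lit 3102998945) (nat_lit 456) (nat_lit 3514892905) (nat_lit 532) (nat_lit 5922833718) (nat_lit 148) (nat_lit 5) (nat_lit 154) (nat_lit 5) (nat_lit 155) (nat_lit 5) (nat_lit 353) (nat_lit 317) (nat_lit 230))))) (XT.nd (nat_lit 234) (nat_lit 1140) (nat_lit 0) (XT.nd (nat_lit 78) (nat_lit 532) (nat_lit 0) (XT.lf (nat_lit 0) (nat_lit 8999043349) (nat_lit 532)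 (nat_lit 2559455850) (nat_lit 76) (nat_lit 1194523538) (nat_lit 148) (nat_lit 5) (nat_lit 155) (nat_lit 5) (nat_lit 149) (nat_lit 5) (nat_lit 354) (nat_lit 317) (nat_lit 229)) (XT.nd (nat_lit 78) (nat_lit 76) (nat_lit 0) (XT.lf (nat_lit 0) (nat_lit 4553102491) (nat_lit 456) (nat_lit 6955526412) (nat_lit 532) (nat_lit 1461363611) (nat_lit 142) (nat_lit 5) (nat_lit 148) (nat_lit 5) (nat_lit 149) (nat_lit 5) (nat_lit 355) (nat_lit 317) (nat_lit 228)) (XT.lf (nat_lit 0) (nat_lit 887157467) (nat_lit 532) (nat_lit 1296389786) (nat_lit 76) (nat_lit 11009536788) (nat_lit 141) (nat_lit 5) (nat_lit 148) (nat_lit 5) (nat_lit 142) (nat_lit 5) (nat_lit 356) (nat_lit 317) (nat_lit 227)))) (XT.nd (nat_lit 156) (nat_lit 380) (nat_lit 0) (XT.nd (nat_lit 78) (nat_lit 380) (nat_lit 0) (XT.lf (nat_lit 0) (nat_lit 3341713088) (nat_lit 456) (nat_lit 7331145285) (nat_lit 76) (nat_lit 2747639866) (nat_lit 136) (nat_lit 5) (nat_lit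 142) (nat_lit 5) (nat_lit 137) (nat_lit 5) (nat_lit 357) (nat_lit 317) (nat_lit 226)) (XT.lf (nat_lit 0) (nat_lit 21723083) (nat_lit 380) (nat_lit 5862758846) (nat_lit 456) (nat_lit 7769827791) (nat_lit 131) (nat_lit 5) (nat_lit 136) (nat_lit 5) (nat_lit 137) (nat_lit 5) (nat_lit 358) (nat_lit 317) (nat_lit 225))) (XT.nd (nat_lit 78) (nat_lit 380) (nat_lit 0) (XT.lf (nat_lit 0) (nat_lit 7719859766) (nat_lit 380) (nat_lit 837582314) (nat_lit 456) (nat_lit 5336088020) (nat_lit 131) (nat_lit 5) (nat_lit 136) (nat_lit 5) (nat_lit 137) (nat_lit 5) (nat_lit 359) (nat_lit 317) (nat_lit 224)) (XT.lf (nat_lit 0) (nat_lit 1470607596) (nat_lit 380) (nat_lit 9876235699) (nat_lit 456) (nat_lit 2792007683) (nat_lit 126) (nat_lit 5) (nat_lit 131) (nat_lit 5) (nat_lit 132) (nat_lit 5) (nat_lit 360) (nat_lit 317) (nat_lit 223))))))) (XT.nd (nat_lit 1014) (nat_lit 1900) (nat_lit 0) (XT.nd (nat_lit 468) (nat_lit 1368) (nat_lit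 0) (XT.nd (nat_lit 234) (nat_lit 684) (nat_lit 0) (XT.nd (nat_lit 78) (nat_lit 456) (nat_lit 0) (XT.lf (nat_lit 0) (nat_lit 9437159291) (nat_lit 380) (nat_lit 4834062556) (nat_lit 456) (nat_lit 118781902) (nat_lit 126) (nat_lit 5) (nat_lit 131) (nat_lit 5) (nat_lit 132) (nat_lit 5) (nat_lit 361) (nat_lit 317) (nat_lit 222)) (XT.nd (nat_lit 78) (nat_lit 0) (nat_lit 0) (XT.lf (nat_lit 0) (nat_lit 2597132122) (nat_lit 456) (nat_lit 11649101991) (nat_lit 76) (nat_lit 401290617) (nat_lit 120) (nat_lit 5) (nat_lit 126) (nat_lit 5) (nat_lit 121) (nat_lit 5) (nat_lit 362) (nat_lit 317) (nat_lit 221)) (XT.lf (nat_lit 0) (nat_lit 5471871004) (nat_lit 456) (nat_lit 3696119384) (nat_lit 76) (nat_lit 5742363804) (nat_lit 120) (nat_lit 5) (nat_lit 126) (nat_lit 5) (nat_lit 121) (nat_lit 5) (nat_lit 363) (nat_lit 317) (nat_lit 220)))) (XT.nd (nat_lit 78) (nat_lit 380) (nat_lit 0) (XT.lf (nat_lit 0) (nat_lit 4560095201)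 (nat_lit 304) (nat_lit 3898497705) (nat_lit 380) (nat_lit 6721713289) (nat_lit 116) (nat_lit 5) (nat_lit 120) (nat_lit 5) (nat_lit 121) (nat_lit 5) (nat_lit 364) (nat_lit 317) (nat_lit 219)) (XT.nd (nat_lit 78) (nat_lit 380) (nat_lit 0) (XT.lf (nat_lit 0) (nat_lit 11569449151) (nat_lit 380) (nat_lit 2357127674) (nat_lit 76) (nat_lit 1530753549) (nat_lit 116) (nat_lit 5) (nat_lit 121) (nat_lit 5) (nat_lit 117) (nat_lit 5) (nat_lit 365) (nat_lit 317) (nat_lit 218)) (XT.lf (nat_lit 0) (nat_lit 6212609965) (nat_lit 380) (nat_lit 8642000809) (nat_lit 456) (nat_lit 885634429) (nat_lit 111) (nat_lit 5) (nat_lit 116) (nat_lit 5) (nat_lit 117) (nat_lit 5) (nat_lit 366) (nat_lit 317) (nat_lit 217))))) (XT.nd (nat_lit 234) (nat_lit 684) (nat_lit 0) (XT.nd (nat_lit 78) (nat_lit 608) (nat_lit 0) (XT.lf (nat_lit 0) (nat_lit 2170418852) (nat_lit 456) (nat_lit 988609929) (nat_lit 76) (nat_lit 12871787136) (nat_lit 110)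 (nat_lit 5) (nat_lit 116) (nat_lit 5) (nat_lit 111) (nat_lit 5) (nat_lit 367) (nat_lit 317) (nat_lit 216)) (XT.nd (nat_lit 78) (nat_lit 304) (nat_lit 0) (XT.lf (nat_lit 0) (nat_lit 5384536476) (nat_lit 380) (nat_lit 8423506452) (nat_lit 76) (nat_lit 2519280796) (nat_lit 106) (nat_lit 5) (nat_lit 111) (nat_lit 5) (nat_lit 107) (nat_lit 5) (nat_lit 368) (nat_lit 317) (nat_lit 215)) (XT.lf (nat_lit 0) (nat_lit 403860454) (nat_lit 304) (nat_lit 8319924579) (nat_lit 380) (nat_lit 7908088788) (nat_lit 102) (nat_lit 5) (nat_lit 106) (nat_lit 5) (nat_lit 107) (nat_lit 5) (nat_lit 369) (nat_lit 317) (nat_lit 214)))) (XT.nd (nat_lit 156) (nat_lit 380) (nat_lit 0) (XT.nd (nat_lit 78) (nat_lit 304) (nat_lit 0) (XT.lf (nat_lit 0) (nat_lit 9645452869) (nat_lit 304) (nat_lit 2586542853) (nat_lit 380) (nat_lit 4711509195) (nat_lit 102) (nat_lit 5) (nat_lit 106) (nat_lit 5) (nat_lit 107) (nat_lit 5) (nat_lit 370) (nat_lit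 317) (nat_lit 213)) (XT.lf (nat_lit 0) (nat_lit 1881614475) (nat_lit 304) (nat_lit 13997960786) (nat_lit 380) (nat_lit 1383893809) (nat_lit 98) (nat_lit 5) (nat_lit 102) (nat_lit 5) (nat_lit 103) (nat_lit 5) (nat_lit 371) (nat_lit 317) (nat_lit 212))) (XT.nd (nat_lit 78) (nat_lit 304) (nat_lit 0) (XT.lf (nat_lit 0) (nat_lit 2087921644) (nat_lit 380) (nat_lit 6173634166) (nat_lit 76) (nat_lit 9328366917) (nat_lit 97) (nat_lit 5) (nat_lit 102) (nat_lit 5) (nat_lit 98) (nat_lit 5) (nat_lit 372) (nat_lit 317) (nat_lit 211)) (XT.lf (nat_lit 0) (nat_lit 3339872884) (nat_lit 304) (nat_lit 2312982096) (nat_lit 380) (nat_lit 12272407746) (nat_lit 93) (nat_lit 5) (nat_lit 97) (nat_lit 5) (nat_lit 98) (nat_lit 5) (nat_lit 373) (nat_lit 317) (nat_lit 210)))))) (XT.nd (nat_lit 546) (nat_lit 1064) (nat_lit 0) (XT.nd (nat_lit 234) (nat_lit 608) (nat_lit 0) (XT.nd (nat_lit 78) (nat_lit 228) (nat_lit 0) (XT.lf (nat_lit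 0) (nat_lit 9409196025) (nat_lit 380) (nat_lit 5063336733) (nat_lit 76) (nat_lit 3795603308) (nat_lit 93) (nat_lit 5) (nat_lit 98) (nat_lit 5) (nat_lit 94) (nat_lit 5) (nat_lit 374) (nat_lit 317) (nat_lit 209)) (XT.nd (nat_lit 78) (nat_lit 0) (nat_lit 0) (XT.lf (nat_lit 0) (nat_lit 4793062966) (nat_lit 228) (nat_lit 8539418508) (nat_lit 304) (nat_lit 5287193236) (nat_lit 90) (nat_lit 5) (nat_lit 93) (nat_lit 5) (nat_lit 94) (nat_lit 5) (nat_lit 375) (nat_lit 317) (nat_lit 208)) (XT.lf (nat_lit 0) (nat_lit 15027219123) (nat_lit 228) (nat_lit 2382875527) (nat_lit 304) (nat_lit 1570572524) (nat_lit 90) (nat_lit 5) (nat_lit 93) (nat_lit 5) (nat_lit 94) (nat_lit 5) (nat_lit 376) (nat_lit 317) (nat_lit 207)))) (XT.nd (nat_lit 156) (nat_lit 228) (nat_lit 0) (XT.nd (nat_lit 78) (nat_lit 0) (nat_lit 0) (XT.lf (nat_lit 0) (nat_lit 2298583375) (nat_lit 380) (nat_lit 13093575536) (nat_lit 76) (nat_lit 3957132948)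 (nat_lit 85) (nat_lit 5) (nat_lit 90) (nat_lit 5) (nat_lit 86) (nat_lit 5) (nat_lit 377) (nat_lit 317) (nat_lit 206)) (XT.lf (nat_lit 0) (nat_lit 6302075178) (nat_lit 380) (nat_lit 2936651697) (nat_lit 76) (nat_lit 10488293036) (nat_lit 85) (nat_lit 5) (nat_lit 90) (nat_lit 5) (nat_lit 86) (nat_lit 5) (nat_lit 378) (nat_lit 317) (nat_lit 205))) (XT.nd (nat_lit 78) (nat_lit 0) (nat_lit 0) (XT.lf (nat_lit 0) (nat_lit 7653419625) (nat_lit 228) (nat_lit 2832149628) (nat_lit 304) (nat_lit 9628719432) (nat_lit 82) (nat_lit 5) (nat_lit 85) (nat_lit 5) (nat_lit 86) (nat_lit 5) (nat_lit 379) (nat_lit 317) (nat_lit 204)) (XT.lf (nat_lit 0) (nat_lit 14847181186) (nat_lit 304) (nat_lit 1948436416) (nat_lit 76) (nat_lit 3715985164) (nat_lit 82) (nat_lit 5) (nat_lit 86) (nat_lit 5) (nat_lit 83) (nat_lit 5) (nat_lit 380) (nat_lit 317) (nat_lit 203))))) (XT.nd (nat_lit 234) (nat_lit 532) (nat_lit 0) (XT.nd (nat_lit 78)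 (nat_lit 304) (nat_lit 0) (XT.lf (nat_lit 0) (nat_lit 9006651810) (nat_lit 228) (nat_lit 10434460529) (nat_lit 304) (nat_lit 1476685278) (nat_lit 79) (nat_lit 5) (nat_lit 82) (nat_lit 5) (nat_lit 83) (nat_lit 5) (nat_lit 381) (nat_lit 317) (nat_lit 202)) (XT.nd (nat_lit 78) (nat_lit 228) (nat_lit 0) (XT.lf (nat_lit 0) (nat_lit 2788106710) (nat_lit 304) (nat_lit 1053211046) (nat_lit 76) (nat_lit 17493844351) (nat_lit 78) (nat_lit 5) (nat_lit 82) (nat_lit 5) (nat_lit 79) (nat_lit 5) (nat_lit 382) (nat_lit 317) (nat_lit 201)) (XT.lf (nat_lit 0) (nat_lit 7266840267) (nat_lit 304) (nat_lit 11494561968) (nat_lit 76) (nat_lit 2999741354) (nat_lit 75) (nat_lit 5) (nat_lit 79) (nat_lit 5) (nat_lit 76) (nat_lit 5) (nat_lit 383) (nat_lit 317) (nat_lit 200)))) (XT.nd (nat_lit 156) (nat_lit 304) (nat_lit 0) (XT.nd (nat_lit 78) (nat_lit 228) (nat_lit 0) (XT.lf (nat_lit 0) (nat_lit 11916109905) (nat_lit 304) (nat_lit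 310179575) (nat_lit 76) (nat_lit 9972534675) (nat_lit 75) (nat_lit 5) (nat_lit 79) (nat_lit 5) (nat_lit 76) (nat_lit 5) (nat_lit 384) (nat_lit 317) (nat_lit 199)) (XT.lf (nat_lit 0) (nat_lit 11413012360) (nat_lit 228) (nat_lit 5389321661) (nat_lit 304) (nat_lit 5844381545) (nat_lit 72) (nat_lit 5) (nat_lit 75) (nat_lit 5) (nat_lit 76) (nat_lit 5) (nat_lit 385) (nat_lit 317) (nat_lit 198))) (XT.nd (nat_lit 78) (nat_lit 76) (nat_lit 0) (XT.lf (nat_lit 0) (nat_lit 357835210) (nat_lit 228) (nat_lit 21487669747) (nat_lit 304) (nat_lit 1262232542) (nat_lit 69) (nat_lit 5) (nat_lit 72) (nat_lit 5) (nat_lit 73) (nat_lit 5) (nat_lit 386) (nat_lit 317) (nat_lit 197)) (XT.lf (nat_lit 0) (nat_lit 3545750510) (nat_lit 304) (nat_lit 11159095604) (nat_lit 76) (nat_lit 8872076195) (nat_lit 68) (nat_lit 5) (nat_lit 72) (nat_lit 5) (nat_lit 69) (nat_lit 5) (nat_lit 387) (nat_lit 317) (nat_lit 196))))))))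
noncomputable def xc150 : XT := (XT.nd (nat_lit 2028) (nat_lit 1368) (nat_lit 0) (XT.nd (nat_lit 1014) (nat_lit 1064) (nat_lit 0) (XT.nd (nat_lit 468) (nat_lit 532) (nat_lit 0) (XT.nd (nat_lit 234) (nat_lit 304) (nat_lit 0) (XT.nd (nat_lit 78) (nat_lit 152) (nat_lit 0) (XT.lf (nat_lit 0) (nat_lit 762802454) (nat_lit 228) (nat_lit 7705399895) (nat_lit 304) (nat_lit 15591741622) (nat_lit 65) (nat_lit 5) (nat_lit 68) (nat_lit 5) (nat_lit 69) (nat_lit 5) (nat_lit 388) (nat_lit 317) (nat_lit 195)) (XT.nd (nat_lit 78) (nat_lit 152) (nat_lit 0) (XT.lf (nat_lit 0) (nat_lit 13252273950) (nat_lit 228) (nat_lit 387165883) (nat_lit 304) (nat_lit 10914987157) (nat_lit 65) (nat_lit 5) (nat_lit 68) (nat_lit 5) (nat_lit 69) (nat_lit 5) (nat_lit 389) (nat_lit 317) (nat_lit 194)) (XT.lf (nat_lit 0) (nat_lit 984603441) (nat_lit 152) (nat_lit 18048108114) (nat_lit 228) (nat_lit 6029029985) (nat_lit 63) (nat_lit 5) (nat_lit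 65) (nat_lit 5) (nat_lit 66) (nat_lit 5) (nat_lit 390) (nat_lit 317) (nat_lit 193)))) (XT.nd (nat_lit 78) (nat_lit 304) (nat_lit 0) (XT.lf (nat_lit 0) (nat_lit 13849359284) (nat_lit 152) (nat_lit 10845196469) (nat_lit 228) (nat_lit 886520381) (nat_lit 63) (nat_lit 5) (nat_lit 65) (nat_lit 5) (nat_lit 66) (nat_lit 5) (nat_lit 391) (nat_lit 317) (nat_lit 192)) (XT.nd (nat_lit 78) (nat_lit 0) (nat_lit 0) (XT.lf (nat_lit 0) (nat_lit 941991713) (nat_lit 228) (nat_lit 3380330592) (nat_lit 304) (nat_lit 21792456716) (nat_lit 59) (nat_lit 5) (nat_lit 62) (nat_lit 5) (nat_lit 63) (nat_lit 5) (nat_lit 392) (nat_lit 317) (nat_lit 191)) (XT.lf (nat_lit 0) (nat_lit 9819809491) (nat_lit 304) (nat_lit 12494049627) (nat_lit 76) (nat_lit 4345868143) (nat_lit 59) (nat_lit 5) (nat_lit 63) (nat_lit 5) (nat_lit 60) (nat_lit 5) (nat_lit 393) (nat_lit 317) (nat_lit 190))))) (XT.nd (nat_lit 234) (nat_lit 380) (nat_lit 0) (XT.nd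 (nat_lit 78) (nat_lit 0) (nat_lit 0) (XT.lf (nat_lit 0) (nat_lit 524194221) (nat_lit 152) (nat_lit 14985992199) (nat_lit 228) (nat_lit 11710001984) (nat_lit 57) (nat_lit 5) (nat_lit 59) (nat_lit 5) (nat_lit 60) (nat_lit 5) (nat_lit 394) (nat_lit 317) (nat_lit 189)) (XT.nd (nat_lit 78) (nat_lit 0) (nat_lit 0) (XT.lf (nat_lit 0) (nat_lit 14171657601) (nat_lit 152) (nat_lit 7315379474) (nat_lit 228) (nat_lit 6306956746) (nat_lit 57) (nat_lit 5) (nat_lit 59) (nat_lit 5) (nat_lit 60) (nat_lit 5) (nat_lit 395) (nat_lit 317) (nat_lit 188)) (XT.lf (nat_lit 0) (nat_lit 27638654314) (nat_lit 228) (nat_lit 179271270) (nat_lit 76) (nat_lit 567227197) (nat_lit 57) (nat_lit 5) (nat_lit 60) (nat_lit 5) (nat_lit 58) (nat_lit 5) (nat_lit 396) (nat_lit 317) (nat_lit 187)))) (XT.nd (nat_lit 156) (nat_lit 152) (nat_lit 0) (XT.nd (nat_lit 78) (nat_lit 0) (nat_lit 0) (XT.lf (nat_lit 0) (nat_lit 5081192414) (nat_lit 228) (nat_lit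 15189786085) (nat_lit 76) (nat_lit 8715706343) (nat_lit 54) (nat_lit 5) (nat_lit 57) (nat_lit 5) (nat_lit 55) (nat_lit 5) (nat_lit 397) (nat_lit 317) (nat_lit 186)) (XT.lf (nat_lit 0) (nat_lit 11060698075) (nat_lit 228) (nat_lit 1434299800) (nat_lit 76) (nat_lit 17111286563) (nat_lit 54) (nat_lit 5) (nat_lit 57) (nat_lit 5) (nat_lit 55) (nat_lit 5) (nat_lit 398) (nat_lit 317) (nat_lit 185))) (XT.nd (nat_lit 78) (nat_lit 0) (nat_lit 0) (XT.lf (nat_lit 0) (nat_lit 12970732494) (nat_lit 152) (nat_lit 4363985354) (nat_lit 228) (nat_lit 12906303159) (nat_lit 52) (nat_lit 5) (nat_lit 54) (nat_lit 5) (nat_lit 55) (nat_lit 5) (nat_lit 399) (nat_lit 317) (nat_lit 184)) (XT.lf (nat_lit 0) (nat_lit 23840647391) (nat_lit 228) (nat_lit 3112033959) (nat_lit 76) (nat_lit 3940810421) (nat_lit 52) (nat_lit 5) (nat_lit 55) (nat_lit 5) (nat_lit 53) (nat_lit 5) (nat_lit 400) (nat_lit 317) (nat_lit 183)))))) (XT.nd (nat_lit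 468) (nat_lit 532) (nat_lit 0) (XT.nd (nat_lit 234) (nat_lit 152) (nat_lit 0) (XT.nd (nat_lit 78) (nat_lit 228) (nat_lit 0) (XT.lf (nat_lit 0) (nat_lit 11639067861) (nat_lit 152) (nat_lit 19048559465) (nat_lit 228) (nat_lit 873535849) (nat_lit 50) (nat_lit 5) (nat_lit 52) (nat_lit 5) (nat_lit 53) (nat_lit 5) (nat_lit 401) (nat_lit 317) (nat_lit 182)) (XT.nd (nat_lit 78) (nat_lit 152) (nat_lit 0) (XT.lf (nat_lit 0) (nat_lit 5406544557) (nat_lit 228) (nat_lit 5420364206) (nat_lit 76) (nat_lit 21419698623) (nat_lit 49) (nat_lit 5) (nat_lit 52) (nat_lit 5) (nat_lit 50) (nat_lit 5) (nat_lit 402) (nat_lit 317) (nat_lit 181)) (XT.lf (nat_lit 0) (nat_lit 9681305380) (nat_lit 152) (nat_lit 2260303329) (nat_lit 228) (nat_lit 21008225054) (nat_lit 47) (nat_lit 5) (nat_lit 49) (nat_lit 5) (nat_lit 50) (nat_lit 5) (nat_lit 403) (nat_lit 317) (nat_lit 180)))) (XT.nd (nat_lit 78) (nat_lit 152) (nat_lit 0) (XT.lf (nat_lit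 0) (nat_lit 18782219935) (nat_lit 228) (nat_lit 8404445978) (nat_lit 76) (nat_lit 6484208557) (nat_lit 47) (nat_lit 5) (nat_lit 50) (nat_lit 5) (nat_lit 48) (nat_lit 5) (nat_lit 404) (nat_lit 317) (nat_lit 179)) (XT.nd (nat_lit 78) (nat_lit 0) (nat_lit 0) (XT.lf (nat_lit 0) (nat_lit 7004883847) (nat_lit 152) (nat_lit 18904266244) (nat_lit 228) (nat_lit 8501965610) (nat_lit 45) (nat_lit 5) (nat_lit 47) (nat_lit 5) (nat_lit 48) (nat_lit 5) (nat_lit 405) (nat_lit 317) (nat_lit 178)) (XT.lf (nat_lit 0) (nat_lit 23033937071) (nat_lit 152) (nat_lit 10292313878) (nat_lit 228) (nat_lit 1845024592) (nat_lit 45) (nat_lit 5) (nat_lit 47) (nat_lit 5) (nat_lit 48) (nat_lit 5) (nat_lit 406) (nat_lit 317) (nat_lit 177))))) (XT.nd (nat_lit 234) (nat_lit 304) (nat_lit 0) (XT.nd (nat_lit 78) (nat_lit 0) (nat_lit 0) (XT.lf (nat_lit 0) (nat_lit 3597063244) (nat_lit 152) (nat_lit 1343001934) (nat_lit 228) (nat_lit 31011944817)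 (nat_lit 42) (nat_lit 5) (nat_lit 44) (nat_lit 5) (nat_lit 45) (nat_lit 5) (nat_lit 407) (nat_lit 317) (nat_lit 176)) (XT.nd (nat_lit 78) (nat_lit 0) (nat_lit 0) (XT.lf (nat_lit 0) (nat_lit 12082801468) (nat_lit 228) (nat_lit 16809989468) (nat_lit 76) (nat_lit 7857094272) (nat_lit 42) (nat_lit 5) (nat_lit 45) (nat_lit 5) (nat_lit 43) (nat_lit 5) (nat_lit 408) (nat_lit 317) (nat_lit 175)) (XT.lf (nat_lit 0) (nat_lit 19445061442) (nat_lit 228) (nat_lit 826176704) (nat_lit 76) (nat_lit 17300303289) (nat_lit 42) (nat_lit 5) (nat_lit 45) (nat_lit 5) (nat_lit 43) (nat_lit 5) (nat_lit 409) (nat_lit 317) (nat_lit 174)))) (XT.nd (nat_lit 156) (nat_lit 152) (nat_lit 0) (XT.nd (nat_lit 78) (nat_lit 0) (nat_lit 0) (XT.lf (nat_lit 0) (nat_lit 15934303388) (nat_lit 152) (nat_lit 11239235269) (nat_lit 228) (nat_lit 11239950152) (nat_lit 40) (nat_lit 5) (nat_lit 42) (nat_lit 5) (nat_lit 43) (nat_lit 5) (nat_lit 410) (nat_lit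 317) (nat_lit 173)) (XT.lf (nat_lit 0) (nat_lit 33200886113) (nat_lit 152) (nat_lit 1933602613) (nat_lit 228) (nat_lit 4146189209) (nat_lit 40) (nat_lit 5) (nat_lit 42) (nat_lit 5) (nat_lit 43) (nat_lit 5) (nat_lit 411) (nat_lit 317) (nat_lit 172))) (XT.nd (nat_lit 78) (nat_lit 0) (nat_lit 0) (XT.lf (nat_lit 0) (nat_lit 3271543450) (nat_lit 152) (nat_lit 29262769607) (nat_lit 76) (nat_lit 7633475189) (nat_lit 38) (nat_lit 5) (nat_lit 40) (nat_lit 5) (nat_lit 39) (nat_lit 5) (nat_lit 412) (nat_lit 317) (nat_lit 171)) (XT.lf (nat_lit 0) (nat_lit 10902082335) (nat_lit 152) (nat_lit 12629912452) (nat_lit 76) (nat_lit 17546079012) (nat_lit 38) (nat_lit 5) (nat_lit 40) (nat_lit 5) (nat_lit 39) (nat_lit 5) (nat_lit 413) (nat_lit 317) (nat_lit 170))))))) (XT.nd (nat_lit 1014) (nat_lit 608) (nat_lit 0) (XT.nd (nat_lit 468) (nat_lit 304) (nat_lit 0) (XT.nd (nat_lit 234) (nat_lit 304) (nat_lit 0) (XT.nd (nat_lit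 78) (nat_lit 0) (nat_lit 0) (XT.lf (nat_lit 0) (nat_lit 4578217669) (nat_lit 152) (nat_lit 14220010019) (nat_lit 228) (nat_lit 23216341197) (nat_lit 36) (nat_lit 5) (nat_lit 38) (nat_lit 5) (nat_lit 39) (nat_lit 5) (nat_lit 414) (nat_lit 317) (nat_lit 169)) (XT.nd (nat_lit 78) (nat_lit 0) (nat_lit 0) (XT.lf (nat_lit 0) (nat_lit 22548570198) (nat_lit 152) (nat_lit 4502995168) (nat_lit 228) (nat_lit 15923985848) (nat_lit 36) (nat_lit 5) (nat_lit 38) (nat_lit 5) (nat_lit 39) (nat_lit 5) (nat_lit 415) (nat_lit 317) (nat_lit 168)) (XT.lf (nat_lit 0) (nat_lit 35598353745) (nat_lit 228) (nat_lit 2972957192) (nat_lit 76) (nat_lit 5392678140) (nat_lit 36) (nat_lit 5) (nat_lit 39) (nat_lit 5) (nat_lit 37) (nat_lit 4) (nat_lit 416) (nat_lit 317) (nat_lit 167)))) (XT.nd (nat_lit 78) (nat_lit 228) (nat_lit 0) (XT.lf (nat_lit 0) (nat_lit 15245258224) (nat_lit 76) (nat_lit 29340552434) (nat_lit 152) (nat_lit 390743006)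 (nat_lit 35) (nat_lit 5) (nat_lit 36) (nat_lit 5) (nat_lit 37) (nat_lit 4) (nat_lit 417) (nat_lit 317) (nat_lit 166)) (XT.nd (nat_lit 78) (nat_lit 152) (nat_lit 0) (XT.lf (nat_lit 0) (nat_lit 7694199704) (nat_lit 152) (nat_lit 12035484050) (nat_lit 76) (nat_lit 26286852797) (nat_lit 34) (nat_lit 5) (nat_lit 36) (nat_lit 5) (nat_lit 35) (nat_lit 5) (nat_lit 418) (nat_lit 317) (nat_lit 165)) (XT.lf (nat_lit 0) (nat_lit 6298242297) (nat_lit 152) (nat_lit 9769484956) (nat_lit 228) (nat_lit 31018260310) (nat_lit 32) (nat_lit 5) (nat_lit 34) (nat_lit 5) (nat_lit 35) (nat_lit 5) (nat_lit 419) (nat_lit 317) (nat_lit 164))))) (XT.nd (nat_lit 234) (nat_lit 228) (nat_lit 0) (XT.nd (nat_lit 78) (nat_lit 76) (nat_lit 0) (XT.lf (nat_lit 0) (nat_lit 24813280499) (nat_lit 228) (nat_lit 22773110934) (nat_lit 76) (nat_lit 597507440) (nat_lit 32) (nat_lit 5) (nat_lit 35) (nat_lit 5) (nat_lit 33) (nat_lit 4) (nat_lit 420)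 (nat_lit 317) (nat_lit 163)) (XT.nd (nat_lit 78) (nat_lit 76) (nat_lit 0) (XT.lf (nat_lit 0) (nat_lit 33911497043) (nat_lit 228) (nat_lit 4326437041) (nat_lit 76) (nat_lit 11074105863) (nat_lit 32) (nat_lit 5) (nat_lit 35) (nat_lit 5) (nat_lit 33) (nat_lit 4) (nat_lit 421) (nat_lit 317) (nat_lit 162)) (XT.lf (nat_lit 0) (nat_lit 14954113752) (nat_lit 76) (nat_lit 28466050854) (nat_lit 152) (nat_lit 7049736795) (nat_lit 31) (nat_lit 5) (nat_lit 32) (nat_lit 5) (nat_lit 33) (nat_lit 4) (nat_lit 422) (nat_lit 317) (nat_lit 161)))) (XT.nd (nat_lit 156) (nat_lit 0) (nat_lit 0) (XT.nd (nat_lit 78) (nat_lit 152) (nat_lit 0) (XT.lf (nat_lit 0) (nat_lit 1559205524) (nat_lit 152) (nat_lit 16786112761) (nat_lit 76) (nat_lit 33315597505) (nat_lit 30) (nat_lit 5) (nat_lit 32) (nat_lit 5) (nat_lit 31) (nat_lit 5) (nat_lit 423) (nat_lit 317) (nat_lit 160)) (XT.lf (nat_lit 0) (nat_lit 2472892428) (nat_lit 152) (nat_lit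 7829551537) (nat_lit 228) (nat_lit 42582592224) (nat_lit 28) (nat_lit 5) (nat_lit 30) (nat_lit 5) (nat_lit 31) (nat_lit 5) (nat_lit 424) (nat_lit 317) (nat_lit 159))) (XT.nd (nat_lit 78) (nat_lit 0) (nat_lit 0) (XT.lf (nat_lit 0) (nat_lit 19501992357) (nat_lit 228) (nat_lit 31528601464) (nat_lit 76) (nat_lit 3109467136) (nat_lit 28) (nat_lit 5) (nat_lit 31) (nat_lit 5) (nat_lit 29) (nat_lit 4) (nat_lit 425) (nat_lit 317) (nat_lit 158)) (XT.lf (nat_lit 0) (nat_lit 29049196661) (nat_lit 228) (nat_lit 12166792384) (nat_lit 76) (nat_lit 14214598447) (nat_lit 28) (nat_lit 5) (nat_lit 31) (nat_lit 5) (nat_lit 29) (nat_lit 4) (nat_lit 426) (nat_lit 317) (nat_lit 157)))))) (XT.nd (nat_lit 546) (nat_lit 228) (nat_lit 0) (XT.nd (nat_lit 234) (nat_lit 228) (nat_lit 0) (XT.nd (nat_lit 78) (nat_lit 76) (nat_lit 0) (XT.lf (nat_lit 0) (nat_lit 7920011962) (nat_lit 76) (nat_lit 31033256695) (nat_lit 152) (nat_lit 17804448698)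 (nat_lit 27) (nat_lit 5) (nat_lit 28) (nat_lit 5) (nat_lit 29) (nat_lit 4) (nat_lit 427) (nat_lit 317) (nat_lit 156)) (XT.nd (nat_lit 78) (nat_lit 76) (nat_lit 0) (XT.lf (nat_lit 0) (nat_lit 28848522818) (nat_lit 76) (nat_lit 20423186695) (nat_lit 152) (nat_lit 8849435244) (nat_lit 27) (nat_lit 5) (nat_lit 28) (nat_lit 5) (nat_lit 29) (nat_lit 4) (nat_lit 428) (nat_lit 317) (nat_lit 155)) (XT.lf (nat_lit 0) (nat_lit 361420574) (nat_lit 152) (nat_lit 9134298643) (nat_lit 76) (nat_lit 50029813995) (nat_lit 26) (nat_lit 5) (nat_lit 28) (nat_lit 5) (nat_lit 27) (nat_lit 5) (nat_lit 429) (nat_lit 317) (nat_lit 154)))) (XT.nd (nat_lit 156) (nat_lit 76) (nat_lit 0) (XT.nd (nat_lit 78) (nat_lit 0) (nat_lit 0) (XT.lf (nat_lit 0) (nat_lit 9797098292) (nat_lit 228) (nat_lit 49245234817) (nat_lit 76) (nat_lit 1923301790) (nat_lit 24) (nat_lit 5) (nat_lit 27) (nat_lit 5) (nat_lit 25) (nat_lit 4) (nat_lit 430) (nat_lit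 317) (nat_lit 153)) (XT.lf (nat_lit 0) (nat_lit 19697689498) (nat_lit 228) (nat_lit 29162959985) (nat_lit 76) (nat_lit 13582835788) (nat_lit 24) (nat_lit 5) (nat_lit 27) (nat_lit 5) (nat_lit 25) (nat_lit 4) (nat_lit 431) (nat_lit 317) (nat_lit 152))) (XT.nd (nat_lit 78) (nat_lit 76) (nat_lit 0) (XT.lf (nat_lit 0) (nat_lit 29890127930) (nat_lit 228) (nat_lit 8487771438) (nat_lit 76) (nat_lit 25587927803) (nat_lit 24) (nat_lit 5) (nat_lit 27) (nat_lit 5) (nat_lit 25) (nat_lit 4) (nat_lit 432) (nat_lit 317) (nat_lit 151)) (XT.lf (nat_lit 0) (nat_lit 13053109708) (nat_lit 76) (nat_lit 27455684372) (nat_lit 152) (nat_lit 25021432487) (nat_lit 23) (nat_lit 5) (nat_lit 24) (nat_lit 5) (nat_lit 25) (nat_lit 4) (nat_lit 433) (nat_lit 317) (nat_lit 150))))) (XT.nd (nat_lit 234) (nat_lit 76) (nat_lit 0) (XT.nd (nat_lit 78) (nat_lit 152) (nat_lit 0) (XT.lf (nat_lit 0) (nat_lit 35405022982) (nat_lit 76) (nat_lit 16121745084)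 (nat_lit 152) (nat_lit 15612368292) (nat_lit 23) (nat_lit 5) (nat_lit 24) (nat_lit 5) (nat_lit 25) (nat_lit 4) (nat_lit 434) (nat_lit 317) (nat_lit 149)) (XT.nd (nat_lit 78) (nat_lit 152) (nat_lit 0) (XT.lf (nat_lit 0) (nat_lit 58418575887) (nat_lit 76) (nat_lit 4451887913) (nat_lit 152) (nat_lit 5925994992) (nat_lit 23) (nat_lit 5) (nat_lit 24) (nat_lit 5) (nat_lit 25) (nat_lit 4) (nat_lit 435) (nat_lit 317) (nat_lit 148)) (XT.lf (nat_lit 0) (nat_lit 4154859678) (nat_lit 152) (nat_lit 58771657129) (nat_lit 76) (nat_lit 7570328483) (nat_lit 21) (nat_lit 5) (nat_lit 23) (nat_lit 5) (nat_lit 22) (nat_lit 4) (nat_lit 436) (nat_lit 317) (nat_lit 147)))) (XT.nd (nat_lit 156) (nat_lit 76) (nat_lit 0) (XT.nd (nat_lit 78) (nat_lit 0) (nat_lit 0) (XT.lf (nat_lit 0) (nat_lit 14564236925) (nat_lit 152) (nat_lit 37653570057) (nat_lit 76) (nat_lit 20024320854) (nat_lit 21) (nat_lit 5) (nat_lit 23) (nat_lit 5) (nat_lit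 22) (nat_lit 4) (nat_lit 437) (nat_lit 317) (nat_lit 146)) (XT.lf (nat_lit 0) (nat_lit 25281324241) (nat_lit 152) (nat_lit 15910454397) (nat_lit 76) (nat_lit 32848128090) (nat_lit 21) (nat_lit 5) (nat_lit 23) (nat_lit 5) (nat_lit 22) (nat_lit 4) (nat_lit 438) (nat_lit 317) (nat_lit 145))) (XT.nd (nat_lit 78) (nat_lit 0) (nat_lit 0) (XT.lf (nat_lit 0) (nat_lit 6605587493) (nat_lit 76) (nat_lit 29773395525) (nat_lit 152) (nat_lit 39510864915) (nat_lit 20) (nat_lit 5) (nat_lit 21) (nat_lit 5) (nat_lit 22) (nat_lit 4) (nat_lit 439) (nat_lit 317) (nat_lit 144)) (XT.lf (nat_lit 0) (nat_lit 30115074354) (nat_lit 76) (nat_lit 17850774078) (nat_lit 152) (nat_lit 29824751327) (nat_lit 20) (nat_lit 5) (nat_lit 21) (nat_lit 5) (nat_lit 22) (nat_lit 4) (nat_lit 440) (nat_lit 317) (nat_lit 143))))))))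
noncomputable def xc151 : XT := (XT.nd (nat_lit 39078) (nat_lit 0) (nat_lit 6688) (XT.nd (nat_lit 38064) (nat_lit 0) (nat_lit 13604) (XT.nd (nat_lit 37518) (nat_lit 0) (nat_lit 18240) (XT.nd (nat_lit 37284) (nat_lit 0) (nat_lit 19076) (XT.nd (nat_lit 78) (nat_lit 152) (nat_lit 0) (XT.lf (nat_lit 0) (nat_lit 72247976395) (nat_lit 152) (nat_lit 2585987557) (nat_lit 0) (nat_lit 6929265282) (nat_lit 20) (nat_lit 5) (nat_lit 22) (nat_lit 4) (nat_lit 20) (nat_lit 4) (nat_lit 442) (nat_lit 317) (nat_lit 141)) (XT.nd (nat_lit 37128) (nat_lit 0) (nat_lit 20064) (XT.lf (nat_lit 0) (nat_lit 1368312693) (nat_lit 152) (nat_lit 62551564853) (nat_lit 76) (nat_lit 19910443754) (nat_lit 18) (nat_lit 5) (nat_lit 20) (nat_lit 5) (nat_lit 19) (nat_lit 4) (nat_lit 443) (nat_lit 317) (nat_lit 140)) (XT.lf (nat_lit 0) (nat_lit 1873358477) (nat_lit 0) (nat_lit 1873358477) (nat_lit 836) (nat_lit 170461371) (nat_lit 282) (nat_lit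 5) (nat_lit 282) (nat_lit 3) (nat_lit 293) (nat_lit 3) (nat_lit 318) (nat_lit 318) (nat_lit 264)))) (XT.nd (nat_lit 78) (nat_lit 0) (nat_lit 76) (XT.lf (nat_lit 0) (nat_lit 904187181) (nat_lit 988) (nat_lit 384521163) (nat_lit 988) (nat_lit 6624849175) (nat_lit 269) (nat_lit 3) (nat_lit 282) (nat_lit 3) (nat_lit 282) (nat_lit 5) (nat_lit 319) (nat_lit 318) (nat_lit 263)) (XT.nd (nat_lit 78) (nat_lit 0) (nat_lit 0) (XT.lf (nat_lit 0) (nat_lit 2177153560) (nat_lit 912) (nat_lit 4539076641) (nat_lit 988) (nat_lit 1278925611) (nat_lit 270) (nat_lit 5) (nat_lit 282) (nat_lit 5) (nat_lit 283) (nat_lit 5) (nat_lit 320) (nat_lit 318) (nat_lit 262)) (XT.lf (nat_lit 0) (nat_lit 3457853041) (nat_lit 912) (nat_lit 698552422) (nat_lit 988) (nat_lit 3923752330) (nat_lit 270) (nat_lit 5) (nat_lit 282) (nat_lit 5) (nat_lit 283) (nat_lit 5) (nat_lit 321) (nat_lit 318) (nat_lit 261))))) (XT.nd (nat_lit 234) (nat_lit 912)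 (nat_lit 0) (XT.nd (nat_lit 78) (nat_lit 0) (nat_lit 76) (XT.lf (nat_lit 76) (nat_lit 3295822496) (nat_lit 0) (nat_lit 1467068655) (nat_lit 988) (nat_lit 3405281992) (nat_lit 271) (nat_lit 5) (nat_lit 270) (nat_lit 5) (nat_lit 283) (nat_lit 5) (nat_lit 322) (nat_lit 318) (nat_lit 260)) (XT.nd (nat_lit 78) (nat_lit 0) (nat_lit 0) (XT.lf (nat_lit 0) (nat_lit 6082238714) (nat_lit 912) (nat_lit 873855192) (nat_lit 988) (nat_lit 1303519946) (nat_lit 271) (nat_lit 5) (nat_lit 283) (nat_lit 5) (nat_lit 284) (nat_lit 5) (nat_lit 323) (nat_lit 318) (nat_lit 259)) (XT.lf (nat_lit 76) (nat_lit 3267627454) (nat_lit 0) (nat_lit 4176280671) (nat_lit 988) (nat_lit 909845910) (nat_lit 272) (nat_lit 5) (nat_lit 271) (nat_lit 5) (nat_lit 284) (nat_lit 5) (nat_lit 324) (nat_lit 318) (nat_lit 258)))) (XT.nd (nat_lit 156) (nat_lit 0) (nat_lit 76) (XT.nd (nat_lit 78) (nat_lit 0) (nat_lit 76) (XT.lf (nat_lit 0) (nat_lit 354258965)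 (nat_lit 988) (nat_lit 929910520) (nat_lit 1064) (nat_lit 7167482964) (nat_lit 258) (nat_lit 5) (nat_lit 271) (nat_lit 5) (nat_lit 272) (nat_lit 5) (nat_lit 325) (nat_lit 318) (nat_lit 257)) (XT.lf (nat_lit 0) (nat_lit 1645960079) (nat_lit 988) (nat_lit 5187443251) (nat_lit 1064) (nat_lit 1718610659) (nat_lit 259) (nat_lit 5) (nat_lit 272) (nat_lit 5) (nat_lit 273) (nat_lit 5) (nat_lit 326) (nat_lit 318) (nat_lit 256))) (XT.nd (nat_lit 78) (nat_lit 0) (nat_lit 0) (XT.lf (nat_lit 0) (nat_lit 2958310421) (nat_lit 988) (nat_lit 888148124) (nat_lit 1064) (nat_lit 4809505085) (nat_lit 259) (nat_lit 5) (nat_lit 272) (nat_lit 5) (nat_lit 273) (nat_lit 5) (nat_lit 327) (nat_lit 318) (nat_lit 255)) (XT.lf (nat_lit 76) (nat_lit 3583663194) (nat_lit 0) (nat_lit 721690619) (nat_lit 1064) (nat_lit 4457851478) (nat_lit 260) (nat_lit 5) (nat_lit 259) (nat_lit 5) (nat_lit 273) (nat_lit 5) (nat_lit 328) (nat_lit 318) (nat_lit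 254)))))) (XT.nd (nat_lit 468) (nat_lit 3800) (nat_lit 0) (XT.nd (nat_lit 234) (nat_lit 988) (nat_lit 0) (XT.nd (nat_lit 78) (nat_lit 0) (nat_lit 0) (XT.lf (nat_lit 0) (nat_lit 5687745714) (nat_lit 988) (nat_lit 717079680) (nat_lit 1064) (nat_lit 2469022929) (nat_lit 260) (nat_lit 5) (nat_lit 273) (nat_lit 5) (nat_lit 274) (nat_lit 5) (nat_lit 329) (nat_lit 318) (nat_lit 253)) (XT.nd (nat_lit 78) (nat_lit 0) (nat_lit 76) (XT.lf (nat_lit 76) (nat_lit 3922012889) (nat_lit 0) (nat_lit 3197431936) (nat_lit 1064) (nat_lit 1868162057) (nat_lit 261) (nat_lit 5) (nat_lit 260) (nat_lit 5) (nat_lit 274) (nat_lit 5) (nat_lit 330) (nat_lit 318) (nat_lit 252)) (XT.lf (nat_lit 0) (nat_lit 8566336479) (nat_lit 988) (nat_lit 418255808) (nat_lit 1064) (nat_lit 121049049) (nat_lit 261) (nat_lit 5) (nat_lit 274) (nat_lit 5) (nat_lit 275) (nat_lit 5) (nat_lit 331) (nat_lit 318) (nat_lit 251)))) (XT.nd (nat_lit 78) (nat_lit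 0) (nat_lit 0) (XT.lf (nat_lit 0) (nat_lit 852461683) (nat_lit 1064) (nat_lit 4838590847) (nat_lit 1140) (nat_lit 3534776895) (nat_lit 247) (nat_lit 5) (nat_lit 261) (nat_lit 5) (nat_lit 262) (nat_lit 5) (nat_lit 332) (nat_lit 318) (nat_lit 250)) (XT.nd (nat_lit 78) (nat_lit 0) (nat_lit 76) (XT.lf (nat_lit 0) (nat_lit 2244764698) (nat_lit 1064) (nat_lit 36637845) (nat_lit 1140) (nat_lit 7068999545) (nat_lit 247) (nat_lit 5) (nat_lit 261) (nat_lit 5) (nat_lit 262) (nat_lit 5) (nat_lit 333) (nat_lit 318) (nat_lit 249)) (XT.lf (nat_lit 0) (nat_lit 3705447127) (nat_lit 1064) (nat_lit 4510568259) (nat_lit 76) (nat_lit 1261925233) (nat_lit 248) (nat_lit 5) (nat_lit 262) (nat_lit 5) (nat_lit 249) (nat_lit 5) (nat_lit 334) (nat_lit 318) (nat_lit 248))))) (XT.nd (nat_lit 234) (nat_lit 1672) (nat_lit 0) (XT.nd (nat_lit 78) (nat_lit 1140) (nat_lit 0) (XT.lf (nat_lit 0) (nat_lit 472327470) (nat_lit 1064) (nat_lit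 4732283848) (nat_lit 1140) (nat_lit 4404880361) (nat_lit 234) (nat_lit 5) (nat_lit 248) (nat_lit 5) (nat_lit 249) (nat_lit 5) (nat_lit 335) (nat_lit 318) (nat_lit 247)) (XT.nd (nat_lit 78) (nat_lit 1140) (nat_lit 0) (XT.lf (nat_lit 0) (nat_lit 5670182292) (nat_lit 1064) (nat_lit 1091972336) (nat_lit 1140) (nat_lit 2982457968) (nat_lit 234) (nat_lit 5) (nat_lit 248) (nat_lit 5) (nat_lit 249) (nat_lit 5) (nat_lit 336) (nat_lit 318) (nat_lit 246)) (XT.lf (nat_lit 0) (nat_lit 1109068636) (nat_lit 1140) (nat_lit 7262403247) (nat_lit 1216) (nat_lit 1512188536) (nat_lit 219) (nat_lit 5) (nat_lit 234) (nat_lit 5) (nat_lit 235) (nat_lit 5) (nat_lit 337) (nat_lit 318) (nat_lit 245)))) (XT.nd (nat_lit 156) (nat_lit 608) (nat_lit 0) (XT.nd (nat_lit 78) (nat_lit 988) (nat_lit 0) (XT.lf (nat_lit 0) (nat_lit 23672534) (nat_lit 1216) (nat_lit 3532874127) (nat_lit 76) (nat_lit 6469709884) (nat_lit 218) (nat_lit 5) (nat_lit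 234) (nat_lit 5) (nat_lit 219) (nat_lit 5) (nat_lit 338) (nat_lit 318) (nat_lit 244)) (XT.lf (nat_lit 0) (nat_lit 1566022988) (nat_lit 1064) (nat_lit 8315274048) (nat_lit 76) (nat_lit 291682756) (nat_lit 205) (nat_lit 5) (nat_lit 219) (nat_lit 5) (nat_lit 206) (nat_lit 5) (nat_lit 339) (nat_lit 318) (nat_lit 243))) (XT.nd (nat_lit 78) (nat_lit 608) (nat_lit 0) (XT.lf (nat_lit 0) (nat_lit 3196591344) (nat_lit 1064) (nat_lit 2903623295) (nat_lit 76) (nat_lit 4222653626) (nat_lit 205) (nat_lit 5) (nat_lit 219) (nat_lit 5) (nat_lit 206) (nat_lit 5) (nat_lit 340) (nat_lit 318) (nat_lit 242)) (XT.lf (nat_lit 0) (nat_lit 2696346065) (nat_lit 608) (nat_lit 2177208581) (nat_lit 684) (nat_lit 5603795724) (nat_lit 197) (nat_lit 5) (nat_lit 205) (nat_lit 5) (nat_lit 206) (nat_lit 5) (nat_lit 341) (nat_lit 318) (nat_lit 241))))))) (XT.nd (nat_lit 1014) (nat_lit 3192) (nat_lit 0) (XT.nd (nat_lit 468) (nat_lit 1976)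 (nat_lit 0) (XT.nd (nat_lit 234) (nat_lit 1216) (nat_lit 0) (XT.nd (nat_lit 78) (nat_lit 532) (nat_lit 0) (XT.lf (nat_lit 0) (nat_lit 6620498993) (nat_lit 684) (nat_lit 2157210682) (nat_lit 76) (nat_lit 1858187791) (nat_lit 197) (nat_lit 5) (nat_lit 206) (nat_lit 5) (nat_lit 198) (nat_lit 5) (nat_lit 342) (nat_lit 318) (nat_lit 240)) (XT.nd (nat_lit 78) (nat_lit 0) (nat_lit 0) (XT.lf (nat_lit 0) (nat_lit 3658671942) (nat_lit 532) (nat_lit 4790864821) (nat_lit 608) (nat_lit 2348793749) (nat_lit 190) (nat_lit 5) (nat_lit 197) (nat_lit 5) (nat_lit 198) (nat_lit 5) (nat_lit 343) (nat_lit 318) (nat_lit 239)) (XT.lf (nat_lit 0) (nat_lit 9667049028) (nat_lit 532) (nat_lit 661675135) (nat_lit 608) (nat_lit 637073535) (nat_lit 190) (nat_lit 5) (nat_lit 197) (nat_lit 5) (nat_lit 198) (nat_lit 5) (nat_lit 344) (nat_lit 318) (nat_lit 238)))) (XT.nd (nat_lit 78) (nat_lit 532) (nat_lit 0) (XT.lf (nat_lit 0) (nat_lit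 1158992115) (nat_lit 684) (nat_lit 6398728420) (nat_lit 76) (nat_lit 3578613053) (nat_lit 181) (nat_lit 5) (nat_lit 190) (nat_lit 5) (nat_lit 182) (nat_lit 5) (nat_lit 345) (nat_lit 318) (nat_lit 237)) (XT.nd (nat_lit 78) (nat_lit 532) (nat_lit 0) (XT.lf (nat_lit 0) (nat_lit 2990432701) (nat_lit 684) (nat_lit 369409576) (nat_lit 76) (nat_lit 7952142973) (nat_lit 181) (nat_lit 5) (nat_lit 190) (nat_lit 5) (nat_lit 182) (nat_lit 5) (nat_lit 346) (nat_lit 318) (nat_lit 236)) (XT.lf (nat_lit 0) (nat_lit 4918892560) (nat_lit 608) (nat_lit 5570987156) (nat_lit 76) (nat_lit 1001781793) (nat_lit 174) (nat_lit 5) (nat_lit 182) (nat_lit 5) (nat_lit 175) (nat_lit 5) (nat_lit 347) (nat_lit 318) (nat_lit 235))))) (XT.nd (nat_lit 234) (nat_lit 988) (nat_lit 0) (XT.nd (nat_lit 78) (nat_lit 456) (nat_lit 0) (XT.lf (nat_lit 0) (nat_lit 684255806) (nat_lit 532) (nat_lit 6240269809) (nat_lit 608) (nat_lit 4751639684) (nat_lit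 167) (nat_lit 5) (nat_lit 174) (nat_lit 5) (nat_lit 175) (nat_lit 5) (nat_lit 348) (nat_lit 318) (nat_lit 234)) (XT.nd (nat_lit 78) (nat_lit 456) (nat_lit 0) (XT.lf (nat_lit 0) (nat_lit 7215401825) (nat_lit 532) (nat_lit 1807348811) (nat_lit 608) (nat_lit 2842497212) (nat_lit 167) (nat_lit 5) (nat_lit 174) (nat_lit 5) (nat_lit 175) (nat_lit 5) (nat_lit 349) (nat_lit 318) (nat_lit 233)) (XT.lf (nat_lit 0) (nat_lit 1866496148) (nat_lit 456) (nat_lit 9338726425) (nat_lit 532) (nat_lit 854157154) (nat_lit 161) (nat_lit 5) (nat_lit 167) (nat_lit 5) (nat_lit 168) (nat_lit 5) (nat_lit 350) (nat_lit 318) (nat_lit 232)))) (XT.nd (nat_lit 156) (nat_lit 456) (nat_lit 0) (XT.nd (nat_lit 78) (nat_lit 456) (nat_lit 0) (XT.lf (nat_lit 0) (nat_lit 1212880143) (nat_lit 532) (nat_lit 3640222958) (nat_lit 76) (nat_lit 7404632846) (nat_lit 160) (nat_lit 5) (nat_lit 167) (nat_lit 5) (nat_lit 161) (nat_lit 5) (nat_lit 351)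 (nat_lit 318) (nat_lit 231)) (XT.lf (nat_lit 0) (nat_lit 3136417058) (nat_lit 456) (nat_lit 196191258) (nat_lit 532) (nat_lit 9128959915) (nat_lit 154) (nat_lit 5) (nat_lit 160) (nat_lit 5) (nat_lit 161) (nat_lit 5) (nat_lit 352) (nat_lit 318) (nat_lit 230))) (XT.nd (nat_lit 78) (nat_lit 456) (nat_lit 0) (XT.lf (nat_lit 0) (nat_lit 5575349344) (nat_lit 532) (nat_lit 2549759327) (nat_lit 76) (nat_lit 4544638273) (nat_lit 154) (nat_lit 5) (nat_lit 161) (nat_lit 5) (nat_lit 155) (nat_lit 5) (nat_lit 353) (nat_lit 318) (nat_lit 229)) (XT.lf (nat_lit 0) (nat_lit 4489571324) (nat_lit 456) (nat_lit 3419614656) (nat_lit 532) (nat_lit 4974284317) (nat_lit 148) (nat_lit 5) (nat_lit 154) (nat_lit 5) (nat_lit 155) (nat_lit 5) (nat_lit 354) (nat_lit 318) (nat_lit 228)))))) (XT.nd (nat_lit 546) (nat_lit 1520) (nat_lit 0) (XT.nd (nat_lit 234) (nat_lit 1140) (nat_lit 0) (XT.nd (nat_lit 78) (nat_lit 532) (nat_lit 0) (XT.lf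 (nat_lit 0) (nat_lit 10331817432) (nat_lit 532) (nat_lit 1349802674) (nat_lit 76) (nat_lit 1421435135) (nat_lit 148) (nat_lit 5) (nat_lit 155) (nat_lit 5) (nat_lit 149) (nat_lit 5) (nat_lit 355) (nat_lit 318) (nat_lit 227)) (XT.nd (nat_lit 78) (nat_lit 76) (nat_lit 0) (XT.lf (nat_lit 0) (nat_lit 5963520292) (nat_lit 456) (nat_lit 6934459623) (nat_lit 532) (nat_lit 429135150) (nat_lit 142) (nat_lit 5) (nat_lit 148) (nat_lit 5) (nat_lit 149) (nat_lit 5) (nat_lit 356) (nat_lit 318) (nat_lit 226)) (XT.lf (nat_lit 0) (nat_lit 1938113337) (nat_lit 532) (nat_lit 77555156) (nat_lit 76) (nat_lit 11541860944) (nat_lit 141) (nat_lit 5) (nat_lit 148) (nat_lit 5) (nat_lit 142) (nat_lit 5) (nat_lit 357) (nat_lit 318) (nat_lit 225)))) (XT.nd (nat_lit 156) (nat_lit 380) (nat_lit 0) (XT.nd (nat_lit 78) (nat_lit 380) (nat_lit 0) (XT.lf (nat_lit 0) (nat_lit 4450738580) (nat_lit 456) (nat_lit 6277187349) (nat_lit 76) (nat_lit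 3064325110) (nat_lit 136) (nat_lit 5) (nat_lit 142) (nat_lit 5) (nat_lit 137) (nat_lit 5) (nat_lit 358) (nat_lit 318) (nat_lit 224)) (XT.lf (nat_lit 0) (nat_lit 1283777930) (nat_lit 380) (nat_lit 5768756165) (nat_lit 456) (nat_lit 6981077905) (nat_lit 131) (nat_lit 5) (nat_lit 136) (nat_lit 5) (nat_lit 137) (nat_lit 5) (nat_lit 359) (nat_lit 318) (nat_lit 223))) (XT.nd (nat_lit 78) (nat_lit 380) (nat_lit 0) (XT.lf (nat_lit 0) (nat_lit 9176118815) (nat_lit 380) (nat_lit 600685078) (nat_lit 456) (nat_lit 4504088408) (nat_lit 131) (nat_lit 5) (nat_lit 136) (nat_lit 5) (nat_lit 137) (nat_lit 5) (nat_lit 360) (nat_lit 318) (nat_lit 222)) (XT.lf (nat_lit 0) (nat_lit 2754043567) (nat_lit 380) (nat_lit 9882164024) (nat_lit 456) (nat_lit 1897792046) (nat_lit 126) (nat_lit 5) (nat_lit 131) (nat_lit 5) (nat_lit 132) (nat_lit 5) (nat_lit 361) (nat_lit 318) (nat_lit 221))))) (XT.nd (nat_lit 234) (nat_lit 1064) (nat_lit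 0) (XT.nd (nat_lit 78) (nat_lit 380) (nat_lit 0) (XT.lf (nat_lit 0) (nat_lit 811005180) (nat_lit 456) (nat_lit 3877987994) (nat_lit 76) (nat_lit 10104300437) (nat_lit 125) (nat_lit 5) (nat_lit 131) (nat_lit 5) (nat_lit 126) (nat_lit 5) (nat_lit 362) (nat_lit 318) (nat_lit 220)) (XT.nd (nat_lit 78) (nat_lit 0) (nat_lit 0) (XT.lf (nat_lit 0) (nat_lit 3593361582) (nat_lit 456) (nat_lit 10763160077) (nat_lit 76) (nat_lit 702377758) (nat_lit 120) (nat_lit 5) (nat_lit 126) (nat_lit 5) (nat_lit 121) (nat_lit 5) (nat_lit 363) (nat_lit 318) (nat_lit 219)) (XT.lf (nat_lit 0) (nat_lit 6527595577) (nat_lit 456) (nat_lit 2607570952) (nat_lit 76) (nat_lit 6195264255) (nat_lit 120) (nat_lit 5) (nat_lit 126) (nat_lit 5) (nat_lit 121) (nat_lit 5) (nat_lit 364) (nat_lit 318) (nat_lit 218)))) (XT.nd (nat_lit 156) (nat_lit 760) (nat_lit 0) (XT.nd (nat_lit 78) (nat_lit 0) (nat_lit 0) (XT.lf (nat_lit 0) (nat_lit 5884570933)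 (nat_lit 304) (nat_lit 3704796829) (nat_lit 380) (nat_lit 6019564311) (nat_lit 116) (nat_lit 5) (nat_lit 120) (nat_lit 5) (nat_lit 121) (nat_lit 5) (nat_lit 365) (nat_lit 318) (nat_lit 217)) (XT.lf (nat_lit 0) (nat_lit 12770904744) (nat_lit 380) (nat_lit 1251657066) (nat_lit 76) (nat_lit 1872398285) (nat_lit 116) (nat_lit 5) (nat_lit 121) (nat_lit 5) (nat_lit 117) (nat_lit 5) (nat_lit 366) (nat_lit 318) (nat_lit 216))) (XT.nd (nat_lit 78) (nat_lit 380) (nat_lit 0) (XT.lf (nat_lit 0) (nat_lit 7563641481) (nat_lit 380) (nat_lit 8577290468) (nat_lit 456) (nat_lit 45854467) (nat_lit 111) (nat_lit 5) (nat_lit 116) (nat_lit 5) (nat_lit 117) (nat_lit 5) (nat_lit 367) (nat_lit 318) (nat_lit 215)) (XT.lf (nat_lit 0) (nat_lit 131869569) (nat_lit 304) (nat_lit 2929631794) (nat_lit 380) (nat_lit 13425039859) (nat_lit 106) (nat_lit 5) (nat_lit 110) (nat_lit 5) (nat_lit 111) (nat_lit 5) (nat_lit 368) (nat_lit 318) (nat_lit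 214))))))))
noncomputable def xc152 : XT := (XT.nd (nat_lit 2028) (nat_lit 2052) (nat_lit 0) (XT.nd (nat_lit 1014) (nat_lit 1748) (nat_lit 0) (XT.nd (nat_lit 468) (nat_lit 836) (nat_lit 0) (XT.nd (nat_lit 234) (nat_lit 684) (nat_lit 0) (XT.nd (nat_lit 78) (nat_lit 304) (nat_lit 0) (XT.lf (nat_lit 0) (nat_lit 6360798696) (nat_lit 380) (nat_lit 7518263051) (nat_lit 76) (nat_lit 2913232067) (nat_lit 106) (nat_lit 5) (nat_lit 111) (nat_lit 5) (nat_lit 107) (nat_lit 5) (nat_lit 369) (nat_lit 318) (nat_lit 213)) (XT.nd (nat_lit 78) (nat_lit 0) (nat_lit 0) (XT.lf (nat_lit 0) (nat_lit 1562572425) (nat_lit 304) (nat_lit 8224944181) (nat_lit 380) (nat_lit 7318856929) (nat_lit 102) (nat_lit 5) (nat_lit 106) (nat_lit 5) (nat_lit 107) (nat_lit 5) (nat_lit 370) (nat_lit 318) (nat_lit 212)) (XT.lf (nat_lit 0) (nat_lit 11048016607) (nat_lit 304) (nat_lit 2329597260) (nat_lit 380) (nat_lit 4050452022) (nat_lit 102) (nat_lit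 5) (nat_lit 106) (nat_lit 5) (nat_lit 107) (nat_lit 5) (nat_lit 371) (nat_lit 318) (nat_lit 211)))) (XT.nd (nat_lit 78) (nat_lit 380) (nat_lit 0) (XT.lf (nat_lit 0) (nat_lit 3060676430) (nat_lit 304) (nat_lit 14065178399) (nat_lit 380) (nat_lit 632048313) (nat_lit 98) (nat_lit 5) (nat_lit 102) (nat_lit 5) (nat_lit 103) (nat_lit 5) (nat_lit 372) (nat_lit 318) (nat_lit 210)) (XT.nd (nat_lit 78) (nat_lit 304) (nat_lit 0) (XT.lf (nat_lit 0) (nat_lit 2905783521) (nat_lit 380) (nat_lit 5253544903) (nat_lit 76) (nat_lit 9935283453) (nat_lit 97) (nat_lit 5) (nat_lit 102) (nat_lit 5) (nat_lit 98) (nat_lit 5) (nat_lit 373) (nat_lit 318) (nat_lit 209)) (XT.lf (nat_lit 0) (nat_lit 4534531101) (nat_lit 304) (nat_lit 2031657572) (nat_lit 380) (nat_lit 11874177936) (nat_lit 93) (nat_lit 5) (nat_lit 97) (nat_lit 5) (nat_lit 98) (nat_lit 5) (nat_lit 374) (nat_lit 318) (nat_lit 208))))) (XT.nd (nat_lit 234) (nat_lit 608)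 (nat_lit 0) (XT.nd (nat_lit 78) (nat_lit 228) (nat_lit 0) (XT.lf (nat_lit 0) (nat_lit 10416830470) (nat_lit 380) (nat_lit 4133931251) (nat_lit 76) (nat_lit 4243326061) (nat_lit 93) (nat_lit 5) (nat_lit 98) (nat_lit 5) (nat_lit 94) (nat_lit 5) (nat_lit 375) (nat_lit 318) (nat_lit 207)) (XT.nd (nat_lit 78) (nat_lit 0) (nat_lit 0) (XT.lf (nat_lit 0) (nat_lit 6007559405) (nat_lit 228) (nat_lit 8439420397) (nat_lit 304) (nat_lit 4709527483) (nat_lit 90) (nat_lit 5) (nat_lit 93) (nat_lit 5) (nat_lit 94) (nat_lit 5) (nat_lit 376) (nat_lit 318) (nat_lit 206)) (XT.lf (nat_lit 0) (nat_lit 16517554677) (nat_lit 228) (nat_lit 2108555320) (nat_lit 304) (nat_lit 902853242) (nat_lit 90) (nat_lit 5) (nat_lit 93) (nat_lit 5) (nat_lit 94) (nat_lit 5) (nat_lit 377) (nat_lit 318) (nat_lit 205)))) (XT.nd (nat_lit 156) (nat_lit 228) (nat_lit 0) (XT.nd (nat_lit 78) (nat_lit 0) (nat_lit 0) (XT.lf (nat_lit 0) (nat_lit 3061436935)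 (nat_lit 380) (nat_lit 12425325324) (nat_lit 76) (nat_lit 4421896842) (nat_lit 85) (nat_lit 5) (nat_lit 90) (nat_lit 5) (nat_lit 86) (nat_lit 5) (nat_lit 378) (nat_lit 318) (nat_lit 204)) (XT.lf (nat_lit 0) (nat_lit 7164822928) (nat_lit 380) (nat_lit 1994598356) (nat_lit 76) (nat_lit 11138912610) (nat_lit 85) (nat_lit 5) (nat_lit 90) (nat_lit 5) (nat_lit 86) (nat_lit 5) (nat_lit 379) (nat_lit 318) (nat_lit 203))) (XT.nd (nat_lit 78) (nat_lit 0) (nat_lit 0) (XT.lf (nat_lit 0) (nat_lit 8903075567) (nat_lit 228) (nat_lit 2560929727) (nat_lit 304) (nat_lit 9233518264) (nat_lit 82) (nat_lit 5) (nat_lit 85) (nat_lit 5) (nat_lit 86) (nat_lit 5) (nat_lit 380) (nat_lit 318) (nat_lit 202)) (XT.lf (nat_lit 0) (nat_lit 15940453735) (nat_lit 304) (nat_lit 1000264966) (nat_lit 76) (nat_lit 4166526806) (nat_lit 82) (nat_lit 5) (nat_lit 86) (nat_lit 5) (nat_lit 83) (nat_lit 5) (nat_lit 381) (nat_lit 318) (nat_lit 201))))))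 (XT.nd (nat_lit 468) (nat_lit 760) (nat_lit 0) (XT.nd (nat_lit 234) (nat_lit 456) (nat_lit 0) (XT.nd (nat_lit 78) (nat_lit 304) (nat_lit 0) (XT.lf (nat_lit 0) (nat_lit 10273607039) (nat_lit 228) (nat_lit 10389307584) (nat_lit 304) (nat_lit 862998079) (nat_lit 79) (nat_lit 5) (nat_lit 82) (nat_lit 5) (nat_lit 83) (nat_lit 5) (nat_lit 382) (nat_lit 318) (nat_lit 200)) (XT.nd (nat_lit 78) (nat_lit 228) (nat_lit 0) (XT.lf (nat_lit 0) (nat_lit 3498107237) (nat_lit 304) (nat_lit 104370935) (nat_lit 76) (nat_lit 18353701330) (nat_lit 78) (nat_lit 5) (nat_lit 82) (nat_lit 5) (nat_lit 79) (nat_lit 5) (nat_lit 383) (nat_lit 318) (nat_lit 199)) (XT.lf (nat_lit 0) (nat_lit 8105688429) (nat_lit 304) (nat_lit 10853208449) (nat_lit 76) (nat_lit 3436216168) (nat_lit 75) (nat_lit 5) (nat_lit 79) (nat_lit 5) (nat_lit 76) (nat_lit 5) (nat_lit 384) (nat_lit 318) (nat_lit 198)))) (XT.nd (nat_lit 78) (nat_lit 228) (nat_lit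 0) (XT.lf (nat_lit 0) (nat_lit 650678504) (nat_lit 228) (nat_lit 12231929567) (nat_lit 304) (nat_lit 9963677778) (nat_lit 72) (nat_lit 5) (nat_lit 75) (nat_lit 5) (nat_lit 76) (nat_lit 5) (nat_lit 385) (nat_lit 318) (nat_lit 197)) (XT.nd (nat_lit 78) (nat_lit 228) (nat_lit 0) (XT.lf (nat_lit 0) (nat_lit 12703482191) (nat_lit 228) (nat_lit 5197239398) (nat_lit 304) (nat_lit 5407340107) (nat_lit 72) (nat_lit 5) (nat_lit 75) (nat_lit 5) (nat_lit 76) (nat_lit 5) (nat_lit 386) (nat_lit 318) (nat_lit 196)) (XT.lf (nat_lit 0) (nat_lit 1321865917) (nat_lit 228) (nat_lit 21768476709) (nat_lit 304) (nat_lit 692723590) (nat_lit 69) (nat_lit 5) (nat_lit 72) (nat_lit 5) (nat_lit 73) (nat_lit 5) (nat_lit 387) (nat_lit 318) (nat_lit 195))))) (XT.nd (nat_lit 234) (nat_lit 456) (nat_lit 0) (XT.nd (nat_lit 78) (nat_lit 228) (nat_lit 0) (XT.lf (nat_lit 0) (nat_lit 4230301507) (nat_lit 304) (nat_lit 10556625181) (nat_lit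 76) (nat_lit 9479751288) (nat_lit 68) (nat_lit 5) (nat_lit 72) (nat_lit 5) (nat_lit 69) (nat_lit 5) (nat_lit 388) (nat_lit 318) (nat_lit 194)) (XT.nd (nat_lit 78) (nat_lit 0) (nat_lit 0) (XT.lf (nat_lit 0) (nat_lit 1713741159) (nat_lit 228) (nat_lit 7578766621) (nat_lit 304) (nat_lit 15471926100) (nat_lit 65) (nat_lit 5) (nat_lit 68) (nat_lit 5) (nat_lit 69) (nat_lit 5) (nat_lit 389) (nat_lit 318) (nat_lit 193)) (XT.lf (nat_lit 0) (nat_lit 14550866083) (nat_lit 228) (nat_lit 51406810) (nat_lit 304) (nat_lit 10671982625) (nat_lit 65) (nat_lit 5) (nat_lit 68) (nat_lit 5) (nat_lit 69) (nat_lit 5) (nat_lit 390) (nat_lit 318) (nat_lit 192)))) (XT.nd (nat_lit 156) (nat_lit 304) (nat_lit 0) (XT.nd (nat_lit 78) (nat_lit 0) (nat_lit 0) (XT.lf (nat_lit 0) (nat_lit 1919664990) (nat_lit 152) (nat_lit 18233498412) (nat_lit 228) (nat_lit 5643757157) (nat_lit 63) (nat_lit 5) (nat_lit 65) (nat_lit 5) (nat_lit 66) (nat_lit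 5) (nat_lit 391) (nat_lit 318) (nat_lit 191)) (XT.lf (nat_lit 0) (nat_lit 15143989039) (nat_lit 152) (nat_lit 10824869891) (nat_lit 228) (nat_lit 363461887) (nat_lit 63) (nat_lit 5) (nat_lit 65) (nat_lit 5) (nat_lit 66) (nat_lit 5) (nat_lit 392) (nat_lit 318) (nat_lit 190))) (XT.nd (nat_lit 78) (nat_lit 0) (nat_lit 0) (XT.lf (nat_lit 0) (nat_lit 1851578419) (nat_lit 228) (nat_lit 3132116839) (nat_lit 304) (nat_lit 21898402970) (nat_lit 59) (nat_lit 5) (nat_lit 62) (nat_lit 5) (nat_lit 63) (nat_lit 5) (nat_lit 393) (nat_lit 318) (nat_lit 189)) (XT.lf (nat_lit 0) (nat_lit 10633883466) (nat_lit 304) (nat_lit 12000822260) (nat_lit 76) (nat_lit 4809060938) (nat_lit 59) (nat_lit 5) (nat_lit 63) (nat_lit 5) (nat_lit 60) (nat_lit 5) (nat_lit 394) (nat_lit 318) (nat_lit 188))))))) (XT.nd (nat_lit 1014) (nat_lit 988) (nat_lit 0) (XT.nd (nat_lit 468) (nat_lit 532) (nat_lit 0) (XT.nd (nat_lit 234) (nat_lit 228) (nat_lit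 0) (XT.nd (nat_lit 78) (nat_lit 152) (nat_lit 0) (XT.lf (nat_lit 0) (nat_lit 1399458620) (nat_lit 152) (nat_lit 15088645017) (nat_lit 228) (nat_lit 11533148941) (nat_lit 57) (nat_lit 5) (nat_lit 59) (nat_lit 5) (nat_lit 60) (nat_lit 5) (nat_lit 395) (nat_lit 318) (nat_lit 187)) (XT.nd (nat_lit 78) (nat_lit 152) (nat_lit 0) (XT.lf (nat_lit 0) (nat_lit 15431310797) (nat_lit 152) (nat_lit 7198018578) (nat_lit 228) (nat_lit 5983395445) (nat_lit 57) (nat_lit 5) (nat_lit 59) (nat_lit 5) (nat_lit 60) (nat_lit 5) (nat_lit 396) (nat_lit 318) (nat_lit 186)) (XT.lf (nat_lit 0) (nat_lit 649732653) (nat_lit 152) (nat_lit 28310655976) (nat_lit 228) (nat_lit 261387729) (nat_lit 55) (nat_lit 5) (nat_lit 57) (nat_lit 5) (nat_lit 58) (nat_lit 5) (nat_lit 397) (nat_lit 318) (nat_lit 185)))) (XT.nd (nat_lit 78) (nat_lit 152) (nat_lit 0) (XT.lf (nat_lit 0) (nat_lit 5718512304) (nat_lit 228) (nat_lit 14822037062) (nat_lit 76)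 (nat_lit 9301044560) (nat_lit 54) (nat_lit 5) (nat_lit 57) (nat_lit 5) (nat_lit 55) (nat_lit 5) (nat_lit 398) (nat_lit 318) (nat_lit 184)) (XT.nd (nat_lit 78) (nat_lit 152) (nat_lit 0) (XT.lf (nat_lit 0) (nat_lit 11863280296) (nat_lit 228) (nat_lit 677869953) (nat_lit 76) (nat_lit 17939059166) (nat_lit 54) (nat_lit 5) (nat_lit 57) (nat_lit 5) (nat_lit 55) (nat_lit 5) (nat_lit 399) (nat_lit 318) (nat_lit 183)) (XT.lf (nat_lit 0) (nat_lit 14151475478) (nat_lit 152) (nat_lit 4167943236) (nat_lit 228) (nat_lit 12814756524) (nat_lit 52) (nat_lit 5) (nat_lit 54) (nat_lit 5) (nat_lit 55) (nat_lit 5) (nat_lit 400) (nat_lit 318) (nat_lit 182))))) (XT.nd (nat_lit 234) (nat_lit 304) (nat_lit 0) (XT.nd (nat_lit 78) (nat_lit 228) (nat_lit 0) (XT.lf (nat_lit 0) (nat_lit 25010043790) (nat_lit 228) (nat_lit 2426215898) (nat_lit 76) (nat_lit 4370278888) (nat_lit 52) (nat_lit 5) (nat_lit 55) (nat_lit 5) (nat_lit 53) (nat_lit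 5) (nat_lit 401) (nat_lit 318) (nat_lit 181)) (XT.nd (nat_lit 78) (nat_lit 76) (nat_lit 0) (XT.lf (nat_lit 0) (nat_lit 12759779966) (nat_lit 152) (nat_lit 19296841217) (nat_lit 228) (nat_lit 437797160) (nat_lit 50) (nat_lit 5) (nat_lit 52) (nat_lit 5) (nat_lit 53) (nat_lit 5) (nat_lit 402) (nat_lit 318) (nat_lit 180)) (XT.lf (nat_lit 0) (nat_lit 6008479300) (nat_lit 228) (nat_lit 4825034063) (nat_lit 76) (nat_lit 22367178708) (nat_lit 49) (nat_lit 5) (nat_lit 52) (nat_lit 5) (nat_lit 50) (nat_lit 5) (nat_lit 403) (nat_lit 318) (nat_lit 179)))) (XT.nd (nat_lit 156) (nat_lit 152) (nat_lit 0) (XT.nd (nat_lit 78) (nat_lit 0) (nat_lit 0) (XT.lf (nat_lit 0) (nat_lit 10722254816) (nat_lit 152) (nat_lit 2011747009) (nat_lit 228) (nat_lit 21191184756) (nat_lit 47) (nat_lit 5) (nat_lit 49) (nat_lit 5) (nat_lit 50) (nat_lit 5) (nat_lit 404) (nat_lit 318) (nat_lit 178)) (XT.lf (nat_lit 0) (nat_lit 19770138915) (nat_lit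 228) (nat_lit 7918121716) (nat_lit 76) (nat_lit 6979892086) (nat_lit 47) (nat_lit 5) (nat_lit 50) (nat_lit 5) (nat_lit 48) (nat_lit 5) (nat_lit 405) (nat_lit 318) (nat_lit 177))) (XT.nd (nat_lit 78) (nat_lit 0) (nat_lit 0) (XT.lf (nat_lit 0) (nat_lit 7946248223) (nat_lit 152) (nat_lit 19159294975) (nat_lit 228) (nat_lit 8325221332) (nat_lit 45) (nat_lit 5) (nat_lit 47) (nat_lit 5) (nat_lit 48) (nat_lit 5) (nat_lit 406) (nat_lit 318) (nat_lit 176)) (XT.lf (nat_lit 0) (nat_lit 24434875436) (nat_lit 152) (nat_lit 10298074307) (nat_lit 228) (nat_lit 1481148878) (nat_lit 45) (nat_lit 5) (nat_lit 47) (nat_lit 5) (nat_lit 48) (nat_lit 5) (nat_lit 407) (nat_lit 318) (nat_lit 175)))))) (XT.nd (nat_lit 546) (nat_lit 456) (nat_lit 0) (XT.nd (nat_lit 234) (nat_lit 304) (nat_lit 0) (XT.nd (nat_lit 78) (nat_lit 0) (nat_lit 0) (XT.lf (nat_lit 0) (nat_lit 4416139488) (nat_lit 152) (nat_lit 1078037417) (nat_lit 228) (nat_lit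 31524114439) (nat_lit 42) (nat_lit 5) (nat_lit 44) (nat_lit 5) (nat_lit 45) (nat_lit 5) (nat_lit 408) (nat_lit 318) (nat_lit 174)) (XT.nd (nat_lit 78) (nat_lit 0) (nat_lit 0) (XT.lf (nat_lit 0) (nat_lit 12842221499) (nat_lit 228) (nat_lit 16614765848) (nat_lit 76) (nat_lit 8383387643) (nat_lit 42) (nat_lit 5) (nat_lit 45) (nat_lit 5) (nat_lit 43) (nat_lit 5) (nat_lit 409) (nat_lit 318) (nat_lit 173)) (XT.lf (nat_lit 0) (nat_lit 20413788029) (nat_lit 228) (nat_lit 171813166) (nat_lit 76) (nat_lit 18101429419) (nat_lit 42) (nat_lit 5) (nat_lit 45) (nat_lit 5) (nat_lit 43) (nat_lit 5) (nat_lit 410) (nat_lit 318) (nat_lit 172)))) (XT.nd (nat_lit 156) (nat_lit 152) (nat_lit 0) (XT.nd (nat_lit 78) (nat_lit 0) (nat_lit 0) (XT.lf (nat_lit 0) (nat_lit 17084823007) (nat_lit 152) (nat_lit 11284536437) (nat_lit 228) (nat_lit 11185022559) (nat_lit 40) (nat_lit 5) (nat_lit 42) (nat_lit 5) (nat_lit 43) (nat_lit 5) (nat_lit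 411) (nat_lit 318) (nat_lit 171)) (XT.lf (nat_lit 0) (nat_lit 34849816111) (nat_lit 152) (nat_lit 1708236040) (nat_lit 228) (nat_lit 3889869937) (nat_lit 40) (nat_lit 5) (nat_lit 42) (nat_lit 5) (nat_lit 43) (nat_lit 5) (nat_lit 412) (nat_lit 318) (nat_lit 170))) (XT.nd (nat_lit 78) (nat_lit 0) (nat_lit 0) (XT.lf (nat_lit 0) (nat_lit 3741121831) (nat_lit 152) (nat_lit 29478303583) (nat_lit 76) (nat_lit 8142168382) (nat_lit 38) (nat_lit 5) (nat_lit 40) (nat_lit 5) (nat_lit 39) (nat_lit 5) (nat_lit 413) (nat_lit 318) (nat_lit 169)) (XT.lf (nat_lit 0) (nat_lit 11589758472) (nat_lit 152) (nat_lit 12365752435) (nat_lit 76) (nat_lit 18344004039) (nat_lit 38) (nat_lit 5) (nat_lit 40) (nat_lit 5) (nat_lit 39) (nat_lit 5) (nat_lit 414) (nat_lit 318) (nat_lit 168))))) (XT.nd (nat_lit 234) (nat_lit 304) (nat_lit 0) (XT.nd (nat_lit 78) (nat_lit 0) (nat_lit 0) (XT.lf (nat_lit 0) (nat_lit 5352317106) (nat_lit 152) (nat_lit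 14366088628) (nat_lit 228) (nat_lit 23545833032) (nat_lit 36) (nat_lit 5) (nat_lit 38) (nat_lit 5) (nat_lit 39) (nat_lit 5) (nat_lit 415) (nat_lit 318) (nat_lit 167)) (XT.nd (nat_lit 78) (nat_lit 0) (nat_lit 0) (XT.lf (nat_lit 0) (nat_lit 23843234010) (nat_lit 152) (nat_lit 4365733866) (nat_lit 228) (nat_lit 16045396297) (nat_lit 36) (nat_lit 5) (nat_lit 38) (nat_lit 5) (nat_lit 39) (nat_lit 5) (nat_lit 416) (nat_lit 318) (nat_lit 166)) (XT.lf (nat_lit 0) (nat_lit 37004628197) (nat_lit 228) (nat_lit 2454337871) (nat_lit 76) (nat_lit 5813717324) (nat_lit 36) (nat_lit 5) (nat_lit 39) (nat_lit 5) (nat_lit 37) (nat_lit 4) (nat_lit 417) (nat_lit 318) (nat_lit 165)))) (XT.nd (nat_lit 156) (nat_lit 152) (nat_lit 0) (XT.nd (nat_lit 78) (nat_lit 76) (nat_lit 0) (XT.lf (nat_lit 0) (nat_lit 16304465106) (nat_lit 76) (nat_lit 29953174962) (nat_lit 152) (nat_lit 58109115) (nat_lit 35) (nat_lit 5) (nat_lit 36) (nat_lit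 5) (nat_lit 37) (nat_lit 4) (nat_lit 418) (nat_lit 318) (nat_lit 164)) (XT.lf (nat_lit 0) (nat_lit 8252828172) (nat_lit 152) (nat_lit 11805635887) (nat_lit 76) (nat_lit 27328665290) (nat_lit 34) (nat_lit 5) (nat_lit 36) (nat_lit 5) (nat_lit 35) (nat_lit 5) (nat_lit 419) (nat_lit 318) (nat_lit 163))) (XT.nd (nat_lit 78) (nat_lit 0) (nat_lit 0) (XT.lf (nat_lit 0) (nat_lit 7072308989) (nat_lit 152) (nat_lit 9801329440) (nat_lit 228) (nat_lit 31615145173) (nat_lit 32) (nat_lit 5) (nat_lit 34) (nat_lit 5) (nat_lit 35) (nat_lit 5) (nat_lit 420) (nat_lit 318) (nat_lit 162)) (XT.lf (nat_lit 0) (nat_lit 25874562950) (nat_lit 228) (nat_lit 22881166581) (nat_lit 76) (nat_lit 864114537) (nat_lit 32) (nat_lit 5) (nat_lit 35) (nat_lit 5) (nat_lit 33) (nat_lit 4) (nat_lit 421) (nat_lit 318) (nat_lit 161))))))))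
noncomputable def xc153 : XT := (XT.nd (nat_lit 39312) (nat_lit 0) (nat_lit 10640) (XT.nd (nat_lit 1014) (nat_lit 228) (nat_lit 0) (XT.nd (nat_lit 468) (nat_lit 380) (nat_lit 0) (XT.nd (nat_lit 234) (nat_lit 152) (nat_lit 0) (XT.nd (nat_lit 78) (nat_lit 152) (nat_lit 0) (XT.lf (nat_lit 0) (nat_lit 35236496358) (nat_lit 228) (nat_lit 3897844054) (nat_lit 76) (nat_lit 11647767750) (nat_lit 32) (nat_lit 5) (nat_lit 35) (nat_lit 5) (nat_lit 33) (nat_lit 4) (nat_lit 422) (nat_lit 318) (nat_lit 160)) (XT.nd (nat_lit 78) (nat_lit 76) (nat_lit 0) (XT.lf (nat_lit 0) (nat_lit 15955648889) (nat_lit 76) (nat_lit 29071129177) (nat_lit 152) (nat_lit 6948038617) (nat_lit 31) (nat_lit 5) (nat_lit 32) (nat_lit 5) (nat_lit 33) (nat_lit 4) (nat_lit 423) (nat_lit 318) (nat_lit 159)) (XT.lf (nat_lit 0) (nat_lit 1904116458) (nat_lit 152) (nat_lit 16746897204) (nat_lit 76) (nat_lit 34550727585) (nat_lit 30) (nat_lit 5) (nat_lit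 32) (nat_lit 5) (nat_lit 31) (nat_lit 5) (nat_lit 424) (nat_lit 318) (nat_lit 158)))) (XT.nd (nat_lit 78) (nat_lit 0) (nat_lit 0) (XT.lf (nat_lit 0) (nat_lit 3084556582) (nat_lit 152) (nat_lit 7821578494) (nat_lit 228) (nat_lit 43556557378) (nat_lit 28) (nat_lit 5) (nat_lit 30) (nat_lit 5) (nat_lit 31) (nat_lit 5) (nat_lit 425) (nat_lit 318) (nat_lit 157)) (XT.nd (nat_lit 78) (nat_lit 0) (nat_lit 0) (XT.lf (nat_lit 0) (nat_lit 20375355339) (nat_lit 228) (nat_lit 31946267580) (nat_lit 76) (nat_lit 3433936124) (nat_lit 28) (nat_lit 5) (nat_lit 31) (nat_lit 5) (nat_lit 29) (nat_lit 4) (nat_lit 426) (nat_lit 318) (nat_lit 156)) (XT.lf (nat_lit 0) (nat_lit 30200578592) (nat_lit 228) (nat_lit 12018988459) (nat_lit 76) (nat_lit 14865487831) (nat_lit 28) (nat_lit 5) (nat_lit 31) (nat_lit 5) (nat_lit 29) (nat_lit 4) (nat_lit 427) (nat_lit 318) (nat_lit 155))))) (XT.nd (nat_lit 234) (nat_lit 228) (nat_lit 0) (XT.nd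 (nat_lit 78) (nat_lit 76) (nat_lit 0) (XT.lf (nat_lit 0) (nat_lit 8665392491) (nat_lit 76) (nat_lit 31733108747) (nat_lit 152) (nat_lit 18053597093) (nat_lit 27) (nat_lit 5) (nat_lit 28) (nat_lit 5) (nat_lit 29) (nat_lit 4) (nat_lit 428) (nat_lit 318) (nat_lit 154)) (XT.nd (nat_lit 78) (nat_lit 76) (nat_lit 0) (XT.lf (nat_lit 0) (nat_lit 30206968960) (nat_lit 76) (nat_lit 20811469044) (nat_lit 152) (nat_lit 8838233771) (nat_lit 27) (nat_lit 5) (nat_lit 28) (nat_lit 5) (nat_lit 29) (nat_lit 4) (nat_lit 429) (nat_lit 318) (nat_lit 153)) (XT.lf (nat_lit 0) (nat_lit 635647093) (nat_lit 152) (nat_lit 8924407098) (nat_lit 76) (nat_lit 51743296364) (nat_lit 26) (nat_lit 5) (nat_lit 28) (nat_lit 5) (nat_lit 27) (nat_lit 5) (nat_lit 430) (nat_lit 318) (nat_lit 152)))) (XT.nd (nat_lit 156) (nat_lit 76) (nat_lit 0) (XT.nd (nat_lit 78) (nat_lit 0) (nat_lit 0) (XT.lf (nat_lit 0) (nat_lit 10353433694) (nat_lit 228)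 (nat_lit 50237664143) (nat_lit 76) (nat_lit 2195587671) (nat_lit 24) (nat_lit 5) (nat_lit 27) (nat_lit 5) (nat_lit 25) (nat_lit 4) (nat_lit 431) (nat_lit 318) (nat_lit 151)) (XT.lf (nat_lit 0) (nat_lit 20543399263) (nat_lit 228) (nat_lit 29567045174) (nat_lit 76) (nat_lit 14198657588) (nat_lit 24) (nat_lit 5) (nat_lit 27) (nat_lit 5) (nat_lit 25) (nat_lit 4) (nat_lit 432) (nat_lit 318) (nat_lit 150))) (XT.nd (nat_lit 78) (nat_lit 76) (nat_lit 0) (XT.lf (nat_lit 0) (nat_lit 31034190099) (nat_lit 228) (nat_lit 8285313697) (nat_lit 76) (nat_lit 26557834303) (nat_lit 24) (nat_lit 5) (nat_lit 27) (nat_lit 5) (nat_lit 25) (nat_lit 4) (nat_lit 433) (nat_lit 318) (nat_lit 149)) (XT.lf (nat_lit 0) (nat_lit 13897312600) (nat_lit 76) (nat_lit 28071249781) (nat_lit 152) (nat_lit 25520193967) (nat_lit 23) (nat_lit 5) (nat_lit 24) (nat_lit 5) (nat_lit 25) (nat_lit 4) (nat_lit 434) (nat_lit 318) (nat_lit 148)))))) (XT.nd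 (nat_lit 546) (nat_lit 0) (nat_lit 0) (XT.nd (nat_lit 234) (nat_lit 76) (nat_lit 0) (XT.nd (nat_lit 78) (nat_lit 152) (nat_lit 0) (XT.lf (nat_lit 0) (nat_lit 36906600468) (nat_lit 76) (nat_lit 16403353629) (nat_lit 152) (nat_lit 15836194200) (nat_lit 23) (nat_lit 5) (nat_lit 24) (nat_lit 5) (nat_lit 25) (nat_lit 4) (nat_lit 435) (nat_lit 318) (nat_lit 147)) (XT.nd (nat_lit 78) (nat_lit 152) (nat_lit 0) (XT.lf (nat_lit 0) (nat_lit 60597761122) (nat_lit 76) (nat_lit 4389285514) (nat_lit 152) (nat_lit 5866352375) (nat_lit 23) (nat_lit 5) (nat_lit 24) (nat_lit 5) (nat_lit 25) (nat_lit 4) (nat_lit 436) (nat_lit 318) (nat_lit 146)) (XT.lf (nat_lit 0) (nat_lit 4511513222) (nat_lit 152) (nat_lit 60102688633) (nat_lit 76) (nat_lit 7990551351) (nat_lit 21) (nat_lit 5) (nat_lit 23) (nat_lit 5) (nat_lit 22) (nat_lit 4) (nat_lit 437) (nat_lit 318) (nat_lit 145)))) (XT.nd (nat_lit 78) (nat_lit 76) (nat_lit 0) (XT.lf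 (nat_lit 0) (nat_lit 15226414279) (nat_lit 152) (nat_lit 38363644916) (nat_lit 76) (nat_lit 20812538842) (nat_lit 21) (nat_lit 5) (nat_lit 23) (nat_lit 5) (nat_lit 22) (nat_lit 4) (nat_lit 438) (nat_lit 318) (nat_lit 144)) (XT.nd (nat_lit 78) (nat_lit 76) (nat_lit 0) (XT.lf (nat_lit 0) (nat_lit 26258453527) (nat_lit 152) (nat_lit 15980455171) (nat_lit 76) (nat_lit 34015599469) (nat_lit 21) (nat_lit 5) (nat_lit 23) (nat_lit 5) (nat_lit 22) (nat_lit 4) (nat_lit 439) (nat_lit 318) (nat_lit 143)) (XT.lf (nat_lit 0) (nat_lit 7207074712) (nat_lit 76) (nat_lit 30479474712) (nat_lit 152) (nat_lit 40473473986) (nat_lit 20) (nat_lit 5) (nat_lit 21) (nat_lit 5) (nat_lit 22) (nat_lit 4) (nat_lit 440) (nat_lit 318) (nat_lit 142))))) (XT.nd (nat_lit 37440) (nat_lit 0) (nat_lit 19000) (XT.nd (nat_lit 37284) (nat_lit 0) (nat_lit 18924) (XT.lf (nat_lit 0) (nat_lit 56331723590) (nat_lit 76) (nat_lit 5565004621) (nat_lit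 152) (nat_lit 20238083781) (nat_lit 20) (nat_lit 5) (nat_lit 21) (nat_lit 5) (nat_lit 22) (nat_lit 4) (nat_lit 442) (nat_lit 318) (nat_lit 140)) (XT.nd (nat_lit 78) (nat_lit 0) (nat_lit 0) (XT.lf (nat_lit 0) (nat_lit 1059369229) (nat_lit 988) (nat_lit 1468665033) (nat_lit 988) (nat_lit 1468665033) (nat_lit 269) (nat_lit 3) (nat_lit 282) (nat_lit 3) (nat_lit 282) (nat_lit 5) (nat_lit 319) (nat_lit 319) (nat_lit 262)) (XT.lf (nat_lit 76) (nat_lit 853177543) (nat_lit 0) (nat_lit 2477634259) (nat_lit 988) (nat_lit 4746032596) (nat_lit 270) (nat_lit 5) (nat_lit 269) (nat_lit 3) (nat_lit 282) (nat_lit 5) (nat_lit 320) (nat_lit 319) (nat_lit 261)))) (XT.nd (nat_lit 156) (nat_lit 0) (nat_lit 0) (XT.nd (nat_lit 78) (nat_lit 0) (nat_lit 0) (XT.lf (nat_lit 0) (nat_lit 4565150995) (nat_lit 912) (nat_lit 3371975556) (nat_lit 988) (nat_lit 226130754) (nat_lit 270) (nat_lit 5) (nat_lit 282) (nat_lit 5) (nat_lit 283)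 (nat_lit 5) (nat_lit 321) (nat_lit 319) (nat_lit 260)) (XT.lf (nat_lit 76) (nat_lit 556667559) (nat_lit 0) (nat_lit 5265303975) (nat_lit 988) (nat_lit 2430767180) (nat_lit 271) (nat_lit 5) (nat_lit 270) (nat_lit 5) (nat_lit 283) (nat_lit 5) (nat_lit 322) (nat_lit 319) (nat_lit 259))) (XT.nd (nat_lit 78) (nat_lit 0) (nat_lit 76) (XT.lf (nat_lit 76) (nat_lit 4647606097) (nat_lit 0) (nat_lit 2459566848) (nat_lit 988) (nat_lit 1238049826) (nat_lit 271) (nat_lit 5) (nat_lit 270) (nat_lit 5) (nat_lit 283) (nat_lit 5) (nat_lit 323) (nat_lit 319) (nat_lit 258)) (XT.lf (nat_lit 76) (nat_lit 398998467) (nat_lit 0) (nat_lit 7997967709) (nat_lit 988) (nat_lit 44571473) (nat_lit 272) (nat_lit 5) (nat_lit 271) (nat_lit 5) (nat_lit 284) (nat_lit 5) (nat_lit 324) (nat_lit 319) (nat_lit 257))))))) (XT.nd (nat_lit 1014) (nat_lit 5624) (nat_lit 0) (XT.nd (nat_lit 468) (nat_lit 1824) (nat_lit 0) (XT.nd (nat_lit 234) (nat_lit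 0) (nat_lit 76) (XT.nd (nat_lit 78) (nat_lit 0) (nat_lit 0) (XT.lf (nat_lit 0) (nat_lit 1182255596) (nat_lit 988) (nat_lit 3907474094) (nat_lit 1064) (nat_lit 3450085995) (nat_lit 258) (nat_lit 5) (nat_lit 271) (nat_lit 5) (nat_lit 272) (nat_lit 5) (nat_lit 325) (nat_lit 319) (nat_lit 256)) (XT.nd (nat_lit 78) (nat_lit 0) (nat_lit 76) (XT.lf (nat_lit 76) (nat_lit 332394800) (nat_lit 0) (nat_lit 2075599623) (nat_lit 1064) (nat_lit 6234178520) (nat_lit 259) (nat_lit 5) (nat_lit 258) (nat_lit 5) (nat_lit 272) (nat_lit 5) (nat_lit 326) (nat_lit 319) (nat_lit 255)) (XT.lf (nat_lit 0) (nat_lit 3681119028) (nat_lit 988) (nat_lit 4003532481) (nat_lit 1064) (nat_lit 1062664205) (nat_lit 259) (nat_lit 5) (nat_lit 272) (nat_lit 5) (nat_lit 273) (nat_lit 5) (nat_lit 327) (nat_lit 319) (nat_lit 254)))) (XT.nd (nat_lit 78) (nat_lit 0) (nat_lit 0) (XT.lf (nat_lit 76) (nat_lit 393402646) (nat_lit 0) (nat_lit 4585380604)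 (nat_lit 1064) (nat_lit 3877271379) (nat_lit 260) (nat_lit 5) (nat_lit 259) (nat_lit 5) (nat_lit 273) (nat_lit 5) (nat_lit 328) (nat_lit 319) (nat_lit 253)) (XT.nd (nat_lit 78) (nat_lit 0) (nat_lit 76) (XT.lf (nat_lit 76) (nat_lit 4978941421) (nat_lit 0) (nat_lit 1339740066) (nat_lit 1064) (nat_lit 2649306403) (nat_lit 260) (nat_lit 5) (nat_lit 259) (nat_lit 5) (nat_lit 273) (nat_lit 5) (nat_lit 329) (nat_lit 319) (nat_lit 252)) (XT.lf (nat_lit 76) (nat_lit 585072213) (nat_lit 0) (nat_lit 7102652381) (nat_lit 1064) (nat_lit 1395916503) (nat_lit 261) (nat_lit 5) (nat_lit 260) (nat_lit 5) (nat_lit 274) (nat_lit 5) (nat_lit 330) (nat_lit 319) (nat_lit 251))))) (XT.nd (nat_lit 234) (nat_lit 912) (nat_lit 0) (XT.nd (nat_lit 78) (nat_lit 1064) (nat_lit 0) (XT.lf (nat_lit 76) (nat_lit 5339055523) (nat_lit 0) (nat_lit 3777067411) (nat_lit 1064) (nat_lit 86121951) (nat_lit 261) (nat_lit 5) (nat_lit 260) (nat_lit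 5) (nat_lit 274) (nat_lit 5) (nat_lit 331) (nat_lit 319) (nat_lit 250)) (XT.nd (nat_lit 78) (nat_lit 0) (nat_lit 76) (XT.lf (nat_lit 76) (nat_lit 890926348) (nat_lit 0) (nat_lit 321484352) (nat_lit 1140) (nat_lit 8112437005) (nat_lit 247) (nat_lit 5) (nat_lit 246) (nat_lit 5) (nat_lit 261) (nat_lit 5) (nat_lit 332) (nat_lit 319) (nat_lit 249)) (XT.lf (nat_lit 0) (nat_lit 2585055230) (nat_lit 1064) (nat_lit 3641901895) (nat_lit 1140) (nat_lit 3223066296) (nat_lit 247) (nat_lit 5) (nat_lit 261) (nat_lit 5) (nat_lit 262) (nat_lit 5) (nat_lit 333) (nat_lit 319) (nat_lit 248)))) (XT.nd (nat_lit 156) (nat_lit 988) (nat_lit 0) (XT.nd (nat_lit 78) (nat_lit 0) (nat_lit 76) (XT.lf (nat_lit 76) (nat_lit 1290203297) (nat_lit 0) (nat_lit 2691607241) (nat_lit 1140) (nat_lit 5597682141) (nat_lit 248) (nat_lit 5) (nat_lit 247) (nat_lit 5) (nat_lit 262) (nat_lit 5) (nat_lit 334) (nat_lit 319) (nat_lit 247)) (XT.lf (nat_lit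 0) (nat_lit 5434854523) (nat_lit 1064) (nat_lit 3302773213) (nat_lit 76) (nat_lit 974812147) (nat_lit 248) (nat_lit 5) (nat_lit 262) (nat_lit 5) (nat_lit 249) (nat_lit 5) (nat_lit 335) (nat_lit 319) (nat_lit 246))) (XT.nd (nat_lit 78) (nat_lit 0) (nat_lit 0) (XT.lf (nat_lit 0) (nat_lit 1816441623) (nat_lit 1064) (nat_lit 5128202937) (nat_lit 1140) (nat_lit 2904361009) (nat_lit 234) (nat_lit 5) (nat_lit 248) (nat_lit 5) (nat_lit 249) (nat_lit 5) (nat_lit 336) (nat_lit 319) (nat_lit 245)) (XT.lf (nat_lit 0) (nat_lit 7131495846) (nat_lit 1064) (nat_lit 1371285461) (nat_lit 1140) (nat_lit 1486819316) (nat_lit 234) (nat_lit 5) (nat_lit 248) (nat_lit 5) (nat_lit 249) (nat_lit 5) (nat_lit 337) (nat_lit 319) (nat_lit 244)))))) (XT.nd (nat_lit 546) (nat_lit 2280) (nat_lit 0) (XT.nd (nat_lit 234) (nat_lit 1140) (nat_lit 0) (XT.nd (nat_lit 78) (nat_lit 1064) (nat_lit 0) (XT.lf (nat_lit 0) (nat_lit 2470122802) (nat_lit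 1140) (nat_lit 7655928548) (nat_lit 1216) (nat_lit 7833793) (nat_lit 219) (nat_lit 5) (nat_lit 234) (nat_lit 5) (nat_lit 235) (nat_lit 5) (nat_lit 338) (nat_lit 319) (nat_lit 243)) (XT.nd (nat_lit 78) (nat_lit 988) (nat_lit 0) (XT.lf (nat_lit 0) (nat_lit 1499605790) (nat_lit 1216) (nat_lit 2319277502) (nat_lit 76) (nat_lit 6462790082) (nat_lit 218) (nat_lit 5) (nat_lit 234) (nat_lit 5) (nat_lit 219) (nat_lit 5) (nat_lit 339) (nat_lit 319) (nat_lit 242)) (XT.lf (nat_lit 0) (nat_lit 3056491199) (nat_lit 1064) (nat_lit 7212332138) (nat_lit 76) (nat_lit 164959498) (nat_lit 205) (nat_lit 5) (nat_lit 219) (nat_lit 5) (nat_lit 206) (nat_lit 5) (nat_lit 340) (nat_lit 319) (nat_lit 241)))) (XT.nd (nat_lit 156) (nat_lit 532) (nat_lit 0) (XT.nd (nat_lit 78) (nat_lit 608) (nat_lit 0) (XT.lf (nat_lit 0) (nat_lit 4693933281) (nat_lit 1064) (nat_lit 1677722157) (nat_lit 76) (nat_lit 4217805332) (nat_lit 205) (nat_lit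 5) (nat_lit 219) (nat_lit 5) (nat_lit 206) (nat_lit 5) (nat_lit 341) (nat_lit 319) (nat_lit 240)) (XT.lf (nat_lit 0) (nat_lit 4077373638) (nat_lit 608) (nat_lit 2315510794) (nat_lit 684) (nat_lit 4356573126) (nat_lit 197) (nat_lit 5) (nat_lit 205) (nat_lit 5) (nat_lit 206) (nat_lit 5) (nat_lit 342) (nat_lit 319) (nat_lit 239))) (XT.nd (nat_lit 78) (nat_lit 532) (nat_lit 0) (XT.lf (nat_lit 0) (nat_lit 8151562081) (nat_lit 684) (nat_lit 917992925) (nat_lit 76) (nat_lit 1844456010) (nat_lit 197) (nat_lit 5) (nat_lit 206) (nat_lit 5) (nat_lit 198) (nat_lit 5) (nat_lit 343) (nat_lit 319) (nat_lit 238)) (XT.lf (nat_lit 0) (nat_lit 5059582510) (nat_lit 532) (nat_lit 4949490632) (nat_lit 608) (nat_lit 1073064678) (nat_lit 190) (nat_lit 5) (nat_lit 197) (nat_lit 5) (nat_lit 198) (nat_lit 5) (nat_lit 344) (nat_lit 319) (nat_lit 237))))) (XT.nd (nat_lit 234) (nat_lit 1064) (nat_lit 0) (XT.nd (nat_lit 78) (nat_lit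 1140) (nat_lit 0) (XT.lf (nat_lit 0) (nat_lit 638098233) (nat_lit 608) (nat_lit 51449504) (nat_lit 76) (nat_lit 10566062812) (nat_lit 189) (nat_lit 5) (nat_lit 197) (nat_lit 5) (nat_lit 190) (nat_lit 5) (nat_lit 345) (nat_lit 319) (nat_lit 236)) (XT.nd (nat_lit 78) (nat_lit 532) (nat_lit 0) (XT.lf (nat_lit 0) (nat_lit 2450206128) (nat_lit 684) (nat_lit 5284821585) (nat_lit 76) (nat_lit 3696823016) (nat_lit 181) (nat_lit 5) (nat_lit 190) (nat_lit 5) (nat_lit 182) (nat_lit 5) (nat_lit 346) (nat_lit 319) (nat_lit 235)) (XT.lf (nat_lit 0) (nat_lit 905001656) (nat_lit 532) (nat_lit 3403692241) (nat_lit 608) (nat_lit 7304940542) (nat_lit 174) (nat_lit 5) (nat_lit 181) (nat_lit 5) (nat_lit 182) (nat_lit 5) (nat_lit 347) (nat_lit 319) (nat_lit 234)))) (XT.nd (nat_lit 156) (nat_lit 532) (nat_lit 0) (XT.nd (nat_lit 78) (nat_lit 532) (nat_lit 0) (XT.lf (nat_lit 0) (nat_lit 6263413564) (nat_lit 608) (nat_lit 4446559483)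 (nat_lit 76) (nat_lit 1089700629) (nat_lit 174) (nat_lit 5) (nat_lit 182) (nat_lit 5) (nat_lit 175) (nat_lit 5) (nat_lit 348) (nat_lit 319) (nat_lit 233)) (XT.lf (nat_lit 0) (nat_lit 1983678442) (nat_lit 532) (nat_lit 6322967946) (nat_lit 608) (nat_lit 3683767416) (nat_lit 167) (nat_lit 5) (nat_lit 174) (nat_lit 5) (nat_lit 175) (nat_lit 5) (nat_lit 349) (nat_lit 319) (nat_lit 232))) (XT.nd (nat_lit 78) (nat_lit 532) (nat_lit 0) (XT.lf (nat_lit 0) (nat_lit 8673509473) (nat_lit 532) (nat_lit 1760103297) (nat_lit 608) (nat_lit 1752605665) (nat_lit 167) (nat_lit 5) (nat_lit 174) (nat_lit 5) (nat_lit 175) (nat_lit 5) (nat_lit 350) (nat_lit 319) (nat_lit 231)) (XT.lf (nat_lit 0) (nat_lit 269279058) (nat_lit 532) (nat_lit 9203798943) (nat_lit 76) (nat_lit 2913643430) (nat_lit 160) (nat_lit 5) (nat_lit 167) (nat_lit 5) (nat_lit 161) (nat_lit 5) (nat_lit 351) (nat_lit 319) (nat_lit 230))))))))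
noncomputable def xc154 : XT := (XT.nd (nat_lit 2028) (nat_lit 3116) (nat_lit 0) (XT.nd (nat_lit 1014) (nat_lit 2280) (nat_lit 0) (XT.nd (nat_lit 468) (nat_lit 1596) (nat_lit 0) (XT.nd (nat_lit 234) (nat_lit 988) (nat_lit 0) (XT.nd (nat_lit 78) (nat_lit 456) (nat_lit 0) (XT.lf (nat_lit 0) (nat_lit 2348191999) (nat_lit 532) (nat_lit 2500483877) (nat_lit 76) (nat_lit 7743109238) (nat_lit 160) (nat_lit 5) (nat_lit 167) (nat_lit 5) (nat_lit 161) (nat_lit 5) (nat_lit 352) (nat_lit 319) (nat_lit 229)) (XT.nd (nat_lit 78) (nat_lit 0) (nat_lit 0) (XT.lf (nat_lit 0) (nat_lit 4467210773) (nat_lit 456) (nat_lit 44181635) (nat_lit 532) (nat_lit 8290964377) (nat_lit 154) (nat_lit 5) (nat_lit 160) (nat_lit 5) (nat_lit 161) (nat_lit 5) (nat_lit 353) (nat_lit 319) (nat_lit 228)) (XT.lf (nat_lit 0) (nat_lit 6791467717) (nat_lit 532) (nat_lit 1394949282) (nat_lit 76) (nat_lit 4831282522) (nat_lit 154) (nat_lit 5) (nat_lit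 161) (nat_lit 5) (nat_lit 155) (nat_lit 5) (nat_lit 354) (nat_lit 319) (nat_lit 227)))) (XT.nd (nat_lit 78) (nat_lit 532) (nat_lit 0) (XT.lf (nat_lit 0) (nat_lit 5843489693) (nat_lit 456) (nat_lit 3333000497) (nat_lit 532) (nat_lit 4061928896) (nat_lit 148) (nat_lit 5) (nat_lit 154) (nat_lit 5) (nat_lit 155) (nat_lit 5) (nat_lit 355) (nat_lit 319) (nat_lit 226)) (XT.nd (nat_lit 78) (nat_lit 532) (nat_lit 0) (XT.lf (nat_lit 0) (nat_lit 11643565509) (nat_lit 532) (nat_lit 177706640) (nat_lit 76) (nat_lit 1644185543) (nat_lit 148) (nat_lit 5) (nat_lit 155) (nat_lit 5) (nat_lit 149) (nat_lit 5) (nat_lit 356) (nat_lit 319) (nat_lit 225)) (XT.lf (nat_lit 0) (nat_lit 561121952) (nat_lit 532) (nat_lit 6359160235) (nat_lit 76) (nat_lit 6776339692) (nat_lit 141) (nat_lit 5) (nat_lit 148) (nat_lit 5) (nat_lit 142) (nat_lit 5) (nat_lit 357) (nat_lit 319) (nat_lit 224))))) (XT.nd (nat_lit 234) (nat_lit 836) (nat_lit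 0) (XT.nd (nat_lit 78) (nat_lit 380) (nat_lit 0) (XT.lf (nat_lit 0) (nat_lit 1127650397) (nat_lit 380) (nat_lit 1844985778) (nat_lit 456) (nat_lit 10961746281) (nat_lit 136) (nat_lit 5) (nat_lit 141) (nat_lit 5) (nat_lit 142) (nat_lit 5) (nat_lit 358) (nat_lit 319) (nat_lit 223)) (XT.nd (nat_lit 78) (nat_lit 380) (nat_lit 0) (XT.lf (nat_lit 0) (nat_lit 5535127077) (nat_lit 456) (nat_lit 5264737304) (nat_lit 76) (nat_lit 3377063656) (nat_lit 136) (nat_lit 5) (nat_lit 142) (nat_lit 5) (nat_lit 137) (nat_lit 5) (nat_lit 359) (nat_lit 319) (nat_lit 222)) (XT.lf (nat_lit 0) (nat_lit 2511284721) (nat_lit 380) (nat_lit 5687425933) (nat_lit 456) (nat_lit 6227323590) (nat_lit 131) (nat_lit 5) (nat_lit 136) (nat_lit 5) (nat_lit 137) (nat_lit 5) (nat_lit 360) (nat_lit 319) (nat_lit 221)))) (XT.nd (nat_lit 156) (nat_lit 456) (nat_lit 0) (XT.nd (nat_lit 78) (nat_lit 380) (nat_lit 0) (XT.lf (nat_lit 0) (nat_lit 10605764956)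 (nat_lit 380) (nat_lit 371722216) (nat_lit 456) (nat_lit 3704078388) (nat_lit 131) (nat_lit 5) (nat_lit 136) (nat_lit 5) (nat_lit 137) (nat_lit 5) (nat_lit 361) (nat_lit 319) (nat_lit 220)) (XT.lf (nat_lit 0) (nat_lit 4004840708) (nat_lit 380) (nat_lit 9904937979) (nat_lit 456) (nat_lit 1032889756) (nat_lit 126) (nat_lit 5) (nat_lit 131) (nat_lit 5) (nat_lit 132) (nat_lit 5) (nat_lit 362) (nat_lit 319) (nat_lit 219))) (XT.nd (nat_lit 78) (nat_lit 380) (nat_lit 0) (XT.lf (nat_lit 0) (nat_lit 1712857384) (nat_lit 456) (nat_lit 2842224949) (nat_lit 76) (nat_lit 10655197445) (nat_lit 125) (nat_lit 5) (nat_lit 131) (nat_lit 5) (nat_lit 126) (nat_lit 5) (nat_lit 363) (nat_lit 319) (nat_lit 218)) (XT.lf (nat_lit 0) (nat_lit 4566762859) (nat_lit 456) (nat_lit 9921557779) (nat_lit 76) (nat_lit 995904952) (nat_lit 120) (nat_lit 5) (nat_lit 126) (nat_lit 5) (nat_lit 121) (nat_lit 5) (nat_lit 364) (nat_lit 319) (nat_lit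 217)))))) (XT.nd (nat_lit 468) (nat_lit 1216) (nat_lit 0) (XT.nd (nat_lit 234) (nat_lit 760) (nat_lit 0) (XT.nd (nat_lit 78) (nat_lit 304) (nat_lit 0) (XT.lf (nat_lit 0) (nat_lit 7563812211) (nat_lit 456) (nat_lit 1555218372) (nat_lit 76) (nat_lit 6645642436) (nat_lit 120) (nat_lit 5) (nat_lit 126) (nat_lit 5) (nat_lit 121) (nat_lit 5) (nat_lit 365) (nat_lit 319) (nat_lit 216)) (XT.nd (nat_lit 78) (nat_lit 0) (nat_lit 0) (XT.lf (nat_lit 0) (nat_lit 7180603656) (nat_lit 304) (nat_lit 3523117840) (nat_lit 380) (nat_lit 5348232703) (nat_lit 116) (nat_lit 5) (nat_lit 120) (nat_lit 5) (nat_lit 121) (nat_lit 5) (nat_lit 366) (nat_lit 319) (nat_lit 215)) (XT.lf (nat_lit 0) (nat_lit 13959359550) (nat_lit 380) (nat_lit 180540139) (nat_lit 76) (nat_lit 2207316704) (nat_lit 116) (nat_lit 5) (nat_lit 121) (nat_lit 5) (nat_lit 117) (nat_lit 5) (nat_lit 367) (nat_lit 319) (nat_lit 214)))) (XT.nd (nat_lit 78) (nat_lit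 304) (nat_lit 0) (XT.lf (nat_lit 0) (nat_lit 754373405) (nat_lit 456) (nat_lit 7767244943) (nat_lit 76) (nat_lit 8126356986) (nat_lit 110) (nat_lit 5) (nat_lit 116) (nat_lit 5) (nat_lit 111) (nat_lit 5) (nat_lit 368) (nat_lit 319) (nat_lit 213)) (XT.nd (nat_lit 78) (nat_lit 0) (nat_lit 0) (XT.lf (nat_lit 0) (nat_lit 1239043048) (nat_lit 304) (nat_lit 2702269204) (nat_lit 380) (nat_lit 13015790272) (nat_lit 106) (nat_lit 5) (nat_lit 110) (nat_lit 5) (nat_lit 111) (nat_lit 5) (nat_lit 369) (nat_lit 319) (nat_lit 212)) (XT.lf (nat_lit 0) (nat_lit 7319580169) (nat_lit 380) (nat_lit 6652333335) (nat_lit 76) (nat_lit 3300725972) (nat_lit 106) (nat_lit 5) (nat_lit 111) (nat_lit 5) (nat_lit 107) (nat_lit 5) (nat_lit 370) (nat_lit 319) (nat_lit 211))))) (XT.nd (nat_lit 234) (nat_lit 532) (nat_lit 0) (XT.nd (nat_lit 78) (nat_lit 380) (nat_lit 0) (XT.lf (nat_lit 0) (nat_lit 2690226445) (nat_lit 304) (nat_lit 8146894566)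 (nat_lit 380) (nat_lit 6759391133) (nat_lit 102) (nat_lit 5) (nat_lit 106) (nat_lit 5) (nat_lit 107) (nat_lit 5) (nat_lit 371) (nat_lit 319) (nat_lit 210)) (XT.nd (nat_lit 78) (nat_lit 380) (nat_lit 0) (XT.lf (nat_lit 0) (nat_lit 12428755015) (nat_lit 304) (nat_lit 2084147371) (nat_lit 380) (nat_lit 3415624317) (nat_lit 102) (nat_lit 5) (nat_lit 106) (nat_lit 5) (nat_lit 107) (nat_lit 5) (nat_lit 372) (nat_lit 319) (nat_lit 209)) (XT.lf (nat_lit 0) (nat_lit 94921187) (nat_lit 380) (nat_lit 14058780477) (nat_lit 76) (nat_lit 4114787930) (nat_lit 97) (nat_lit 5) (nat_lit 102) (nat_lit 5) (nat_lit 98) (nat_lit 5) (nat_lit 373) (nat_lit 319) (nat_lit 208)))) (XT.nd (nat_lit 156) (nat_lit 228) (nat_lit 0) (XT.nd (nat_lit 78) (nat_lit 304) (nat_lit 0) (XT.lf (nat_lit 0) (nat_lit 3704828293) (nat_lit 380) (nat_lit 4369301606) (nat_lit 76) (nat_lit 10541632586) (nat_lit 97) (nat_lit 5) (nat_lit 102) (nat_lit 5)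 (nat_lit 98) (nat_lit 5) (nat_lit 374) (nat_lit 319) (nat_lit 207)) (XT.lf (nat_lit 0) (nat_lit 5702202466) (nat_lit 304) (nat_lit 1762025731) (nat_lit 380) (nat_lit 11507995843) (nat_lit 93) (nat_lit 5) (nat_lit 97) (nat_lit 5) (nat_lit 98) (nat_lit 5) (nat_lit 375) (nat_lit 319) (nat_lit 206))) (XT.nd (nat_lit 78) (nat_lit 228) (nat_lit 0) (XT.lf (nat_lit 0) (nat_lit 11413055399) (nat_lit 380) (nat_lit 3238714968) (nat_lit 76) (nat_lit 4685315874) (nat_lit 93) (nat_lit 5) (nat_lit 98) (nat_lit 5) (nat_lit 94) (nat_lit 5) (nat_lit 376) (nat_lit 319) (nat_lit 205)) (XT.lf (nat_lit 0) (nat_lit 7197027915) (nat_lit 228) (nat_lit 8356868570) (nat_lit 304) (nat_lit 4156797330) (nat_lit 90) (nat_lit 5) (nat_lit 93) (nat_lit 5) (nat_lit 94) (nat_lit 5) (nat_lit 377) (nat_lit 319) (nat_lit 204))))))) (XT.nd (nat_lit 1014) (nat_lit 1216) (nat_lit 0) (XT.nd (nat_lit 468) (nat_lit 1064) (nat_lit 0) (XT.nd (nat_lit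 234) (nat_lit 456) (nat_lit 0) (XT.nd (nat_lit 78) (nat_lit 380) (nat_lit 0) (XT.lf (nat_lit 0) (nat_lit 17992927655) (nat_lit 228) (nat_lit 1845856214) (nat_lit 304) (nat_lit 256136920) (nat_lit 90) (nat_lit 5) (nat_lit 93) (nat_lit 5) (nat_lit 94) (nat_lit 5) (nat_lit 378) (nat_lit 319) (nat_lit 203)) (XT.nd (nat_lit 78) (nat_lit 0) (nat_lit 0) (XT.lf (nat_lit 0) (nat_lit 3807343631) (nat_lit 380) (nat_lit 11797936645) (nat_lit 76) (nat_lit 4880738973) (nat_lit 85) (nat_lit 5) (nat_lit 90) (nat_lit 5) (nat_lit 86) (nat_lit 5) (nat_lit 379) (nat_lit 319) (nat_lit 202)) (XT.lf (nat_lit 0) (nat_lit 8014780807) (nat_lit 380) (nat_lit 1083418405) (nat_lit 76) (nat_lit 11789764673) (nat_lit 85) (nat_lit 5) (nat_lit 90) (nat_lit 5) (nat_lit 86) (nat_lit 5) (nat_lit 380) (nat_lit 319) (nat_lit 201)))) (XT.nd (nat_lit 78) (nat_lit 228) (nat_lit 0) (XT.lf (nat_lit 0) (nat_lit 10131665953) (nat_lit 228) (nat_lit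 2302019670) (nat_lit 304) (nat_lit 8865729061) (nat_lit 82) (nat_lit 5) (nat_lit 85) (nat_lit 5) (nat_lit 86) (nat_lit 5) (nat_lit 381) (nat_lit 319) (nat_lit 200)) (XT.nd (nat_lit 78) (nat_lit 228) (nat_lit 0) (XT.lf (nat_lit 0) (nat_lit 17029334811) (nat_lit 304) (nat_lit 81432740) (nat_lit 76) (nat_lit 4611121146) (nat_lit 82) (nat_lit 5) (nat_lit 86) (nat_lit 5) (nat_lit 83) (nat_lit 5) (nat_lit 382) (nat_lit 319) (nat_lit 199)) (XT.lf (nat_lit 0) (nat_lit 11521353071) (nat_lit 228) (nat_lit 10363361436) (nat_lit 304) (nat_lit 268671454) (nat_lit 79) (nat_lit 5) (nat_lit 82) (nat_lit 5) (nat_lit 83) (nat_lit 5) (nat_lit 383) (nat_lit 319) (nat_lit 198))))) (XT.nd (nat_lit 234) (nat_lit 532) (nat_lit 0) (XT.nd (nat_lit 78) (nat_lit 228) (nat_lit 0) (XT.lf (nat_lit 0) (nat_lit 832906319) (nat_lit 228) (nat_lit 3368552393) (nat_lit 304) (nat_lit 18395221343) (nat_lit 75) (nat_lit 5) (nat_lit 78) (nat_lit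 5) (nat_lit 79) (nat_lit 5) (nat_lit 384) (nat_lit 319) (nat_lit 197)) (XT.nd (nat_lit 78) (nat_lit 228) (nat_lit 0) (XT.lf (nat_lit 0) (nat_lit 8934063110) (nat_lit 304) (nat_lit 10249225688) (nat_lit 76) (nat_lit 3865895708) (nat_lit 75) (nat_lit 5) (nat_lit 79) (nat_lit 5) (nat_lit 76) (nat_lit 5) (nat_lit 385) (nat_lit 319) (nat_lit 196)) (XT.lf (nat_lit 0) (nat_lit 1590664355) (nat_lit 228) (nat_lit 12255429287) (nat_lit 304) (nat_lit 9668051329) (nat_lit 72) (nat_lit 5) (nat_lit 75) (nat_lit 5) (nat_lit 76) (nat_lit 5) (nat_lit 386) (nat_lit 319) (nat_lit 195)))) (XT.nd (nat_lit 156) (nat_lit 304) (nat_lit 0) (XT.nd (nat_lit 78) (nat_lit 228) (nat_lit 0) (XT.lf (nat_lit 0) (nat_lit 13978242478) (nat_lit 228) (nat_lit 5019702049) (nat_lit 304) (nat_lit 4992340134) (nat_lit 72) (nat_lit 5) (nat_lit 75) (nat_lit 5) (nat_lit 76) (nat_lit 5) (nat_lit 387) (nat_lit 319) (nat_lit 194)) (XT.lf (nat_lit 0)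 (nat_lit 2260094474) (nat_lit 228) (nat_lit 22078592815) (nat_lit 304) (nat_lit 140995232) (nat_lit 69) (nat_lit 5) (nat_lit 72) (nat_lit 5) (nat_lit 73) (nat_lit 5) (nat_lit 388) (nat_lit 319) (nat_lit 193))) (XT.nd (nat_lit 78) (nat_lit 228) (nat_lit 0) (XT.lf (nat_lit 0) (nat_lit 4902199224) (nat_lit 304) (nat_lit 9989882244) (nat_lit 76) (nat_lit 10086052401) (nat_lit 68) (nat_lit 5) (nat_lit 72) (nat_lit 5) (nat_lit 69) (nat_lit 5) (nat_lit 389) (nat_lit 319) (nat_lit 192)) (XT.lf (nat_lit 0) (nat_lit 2639933893) (nat_lit 228) (nat_lit 7468873260) (nat_lit 304) (nat_lit 15382244906) (nat_lit 65) (nat_lit 5) (nat_lit 68) (nat_lit 5) (nat_lit 69) (nat_lit 5) (nat_lit 390) (nat_lit 319) (nat_lit 191)))))) (XT.nd (nat_lit 546) (nat_lit 608) (nat_lit 0) (XT.nd (nat_lit 234) (nat_lit 380) (nat_lit 0) (XT.nd (nat_lit 78) (nat_lit 228) (nat_lit 0) (XT.lf (nat_lit 0) (nat_lit 15564847689) (nat_lit 304) (nat_lit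 10182588527) (nat_lit 76) (nat_lit 269128165) (nat_lit 65) (nat_lit 5) (nat_lit 69) (nat_lit 5) (nat_lit 66) (nat_lit 5) (nat_lit 391) (nat_lit 319) (nat_lit 190)) (XT.nd (nat_lit 78) (nat_lit 76) (nat_lit 0) (XT.lf (nat_lit 0) (nat_lit 2830797635) (nat_lit 152) (nat_lit 18444889314) (nat_lit 228) (nat_lit 5279425110) (nat_lit 63) (nat_lit 5) (nat_lit 65) (nat_lit 5) (nat_lit 66) (nat_lit 5) (nat_lit 392) (nat_lit 319) (nat_lit 189)) (XT.lf (nat_lit 0) (nat_lit 140931159) (nat_lit 228) (nat_lit 10681422817) (nat_lit 76) (nat_lit 16284636651) (nat_lit 62) (nat_lit 5) (nat_lit 65) (nat_lit 5) (nat_lit 63) (nat_lit 5) (nat_lit 393) (nat_lit 319) (nat_lit 188)))) (XT.nd (nat_lit 156) (nat_lit 152) (nat_lit 0) (XT.nd (nat_lit 78) (nat_lit 0) (nat_lit 0) (XT.lf (nat_lit 0) (nat_lit 2737860954) (nat_lit 228) (nat_lit 2896526503) (nat_lit 304) (nat_lit 22038975148) (nat_lit 59) (nat_lit 5) (nat_lit 62) (nat_lit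 5) (nat_lit 63) (nat_lit 5) (nat_lit 394) (nat_lit 319) (nat_lit 187)) (XT.lf (nat_lit 0) (nat_lit 11442559401) (nat_lit 304) (nat_lit 11542627627) (nat_lit 76) (nat_lit 5267044474) (nat_lit 59) (nat_lit 5) (nat_lit 63) (nat_lit 5) (nat_lit 60) (nat_lit 5) (nat_lit 395) (nat_lit 319) (nat_lit 186))) (XT.nd (nat_lit 78) (nat_lit 0) (nat_lit 0) (XT.lf (nat_lit 0) (nat_lit 2251639922) (nat_lit 152) (nat_lit 15214292445) (nat_lit 228) (nat_lit 11381308455) (nat_lit 57) (nat_lit 5) (nat_lit 59) (nat_lit 5) (nat_lit 60) (nat_lit 5) (nat_lit 396) (nat_lit 319) (nat_lit 185)) (XT.lf (nat_lit 0) (nat_lit 16680849677) (nat_lit 152) (nat_lit 7096471832) (nat_lit 228) (nat_lit 5679562402) (nat_lit 57) (nat_lit 5) (nat_lit 59) (nat_lit 5) (nat_lit 60) (nat_lit 5) (nat_lit 397) (nat_lit 319) (nat_lit 184))))) (XT.nd (nat_lit 234) (nat_lit 228) (nat_lit 0) (XT.nd (nat_lit 78) (nat_lit 152) (nat_lit 0) (XT.lf (nat_lit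 0) (nat_lit 206785551) (nat_lit 228) (nat_lit 28627158179) (nat_lit 76) (nat_lit 1250300003) (nat_lit 54) (nat_lit 5) (nat_lit 57) (nat_lit 5) (nat_lit 55) (nat_lit 5) (nat_lit 398) (nat_lit 319) (nat_lit 183)) (XT.nd (nat_lit 78) (nat_lit 152) (nat_lit 0) (XT.lf (nat_lit 0) (nat_lit 6347117458) (nat_lit 228) (nat_lit 14490524542) (nat_lit 76) (nat_lit 9885351631) (nat_lit 54) (nat_lit 5) (nat_lit 57) (nat_lit 5) (nat_lit 55) (nat_lit 5) (nat_lit 399) (nat_lit 319) (nat_lit 182)) (XT.lf (nat_lit 0) (nat_lit 56462365) (nat_lit 152) (nat_lit 12606996746) (nat_lit 228) (nat_lit 18717695535) (nat_lit 52) (nat_lit 5) (nat_lit 54) (nat_lit 5) (nat_lit 55) (nat_lit 5) (nat_lit 400) (nat_lit 319) (nat_lit 181)))) (XT.nd (nat_lit 156) (nat_lit 228) (nat_lit 0) (XT.nd (nat_lit 78) (nat_lit 0) (nat_lit 0) (XT.lf (nat_lit 0) (nat_lit 15322198467) (nat_lit 152) (nat_lit 3984788793) (nat_lit 228) (nat_lit 12747944879)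 (nat_lit 52) (nat_lit 5) (nat_lit 54) (nat_lit 5) (nat_lit 55) (nat_lit 5) (nat_lit 401) (nat_lit 319) (nat_lit 180)) (XT.lf (nat_lit 0) (nat_lit 26188450464) (nat_lit 228) (nat_lit 1764551362) (nat_lit 76) (nat_lit 4794764720) (nat_lit 52) (nat_lit 5) (nat_lit 55) (nat_lit 5) (nat_lit 53) (nat_lit 5) (nat_lit 402) (nat_lit 319) (nat_lit 179))) (XT.nd (nat_lit 78) (nat_lit 76) (nat_lit 0) (XT.lf (nat_lit 0) (nat_lit 13869823878) (nat_lit 152) (nat_lit 19571122989) (nat_lit 228) (nat_lit 15503830) (nat_lit 50) (nat_lit 5) (nat_lit 52) (nat_lit 5) (nat_lit 53) (nat_lit 5) (nat_lit 403) (nat_lit 319) (nat_lit 178)) (XT.lf (nat_lit 0) (nat_lit 6603229301) (nat_lit 228) (nat_lit 4255352934) (nat_lit 76) (nat_lit 23325581313) (nat_lit 49) (nat_lit 5) (nat_lit 52) (nat_lit 5) (nat_lit 50) (nat_lit 5) (nat_lit 404) (nat_lit 319) (nat_lit 177))))))))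
noncomputable def xc155 : XT := (XT.nd (nat_lit 2028) (nat_lit 532) (nat_lit 0) (XT.nd (nat_lit 1014) (nat_lit 684) (nat_lit 0) (XT.nd (nat_lit 468) (nat_lit 456) (nat_lit 0) (XT.nd (nat_lit 234) (nat_lit 228) (nat_lit 0) (XT.nd (nat_lit 78) (nat_lit 152) (nat_lit 0) (XT.lf (nat_lit 0) (nat_lit 11751350375) (nat_lit 152) (nat_lit 1773894670) (nat_lit 228) (nat_lit 21405309356) (nat_lit 47) (nat_lit 5) (nat_lit 49) (nat_lit 5) (nat_lit 50) (nat_lit 5) (nat_lit 405) (nat_lit 319) (nat_lit 176)) (XT.nd (nat_lit 78) (nat_lit 152) (nat_lit 0) (XT.lf (nat_lit 0) (nat_lit 20763330160) (nat_lit 228) (nat_lit 7459598215) (nat_lit 76) (nat_lit 7473158462) (nat_lit 47) (nat_lit 5) (nat_lit 50) (nat_lit 5) (nat_lit 48) (nat_lit 5) (nat_lit 406) (nat_lit 319) (nat_lit 175)) (XT.lf (nat_lit 0) (nat_lit 8873878634) (nat_lit 152) (nat_lit 19439890342) (nat_lit 228) (nat_lit 8167961999) (nat_lit 45) (nat_lit 5) (nat_lit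 47) (nat_lit 5) (nat_lit 48) (nat_lit 5) (nat_lit 407) (nat_lit 319) (nat_lit 174)))) (XT.nd (nat_lit 78) (nat_lit 228) (nat_lit 0) (XT.lf (nat_lit 0) (nat_lit 25837089625) (nat_lit 152) (nat_lit 10321401505) (nat_lit 228) (nat_lit 1130422205) (nat_lit 45) (nat_lit 5) (nat_lit 47) (nat_lit 5) (nat_lit 48) (nat_lit 5) (nat_lit 408) (nat_lit 319) (nat_lit 173)) (XT.nd (nat_lit 78) (nat_lit 0) (nat_lit 0) (XT.lf (nat_lit 0) (nat_lit 5218964277) (nat_lit 152) (nat_lit 822646826) (nat_lit 228) (nat_lit 32075654893) (nat_lit 42) (nat_lit 5) (nat_lit 44) (nat_lit 5) (nat_lit 45) (nat_lit 5) (nat_lit 409) (nat_lit 319) (nat_lit 172)) (XT.lf (nat_lit 0) (nat_lit 13601638381) (nat_lit 228) (nat_lit 16453841018) (nat_lit 76) (nat_lit 8908789302) (nat_lit 42) (nat_lit 5) (nat_lit 45) (nat_lit 5) (nat_lit 43) (nat_lit 5) (nat_lit 410) (nat_lit 319) (nat_lit 171))))) (XT.nd (nat_lit 234) (nat_lit 304) (nat_lit 0) (XT.nd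 (nat_lit 78) (nat_lit 0) (nat_lit 0) (XT.lf (nat_lit 0) (nat_lit 472413852) (nat_lit 152) (nat_lit 20921581606) (nat_lit 228) (nat_lit 18442521939) (nat_lit 40) (nat_lit 5) (nat_lit 42) (nat_lit 5) (nat_lit 43) (nat_lit 5) (nat_lit 411) (nat_lit 319) (nat_lit 170)) (XT.nd (nat_lit 78) (nat_lit 0) (nat_lit 0) (XT.lf (nat_lit 0) (nat_lit 18231254507) (nat_lit 152) (nat_lit 11347951510) (nat_lit 228) (nat_lit 11150956782) (nat_lit 40) (nat_lit 5) (nat_lit 42) (nat_lit 5) (nat_lit 43) (nat_lit 5) (nat_lit 412) (nat_lit 319) (nat_lit 169)) (XT.lf (nat_lit 0) (nat_lit 36510734682) (nat_lit 152) (nat_lit 1492375335) (nat_lit 228) (nat_lit 3647715108) (nat_lit 40) (nat_lit 5) (nat_lit 42) (nat_lit 5) (nat_lit 43) (nat_lit 5) (nat_lit 413) (nat_lit 319) (nat_lit 168)))) (XT.nd (nat_lit 156) (nat_lit 152) (nat_lit 0) (XT.nd (nat_lit 78) (nat_lit 0) (nat_lit 0) (XT.lf (nat_lit 0) (nat_lit 4203465843) (nat_lit 152)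 (nat_lit 29738325126) (nat_lit 76) (nat_lit 8650067081) (nat_lit 38) (nat_lit 5) (nat_lit 40) (nat_lit 5) (nat_lit 39) (nat_lit 5) (nat_lit 414) (nat_lit 319) (nat_lit 167)) (XT.lf (nat_lit 0) (nat_lit 12277364194) (nat_lit 152) (nat_lit 12130581742) (nat_lit 76) (nat_lit 19150279158) (nat_lit 38) (nat_lit 5) (nat_lit 40) (nat_lit 5) (nat_lit 39) (nat_lit 5) (nat_lit 415) (nat_lit 319) (nat_lit 166))) (XT.nd (nat_lit 78) (nat_lit 0) (nat_lit 0) (XT.lf (nat_lit 0) (nat_lit 6113087305) (nat_lit 152) (nat_lit 14532652687) (nat_lit 228) (nat_lit 23906276832) (nat_lit 36) (nat_lit 5) (nat_lit 38) (nat_lit 5) (nat_lit 39) (nat_lit 5) (nat_lit 416) (nat_lit 319) (nat_lit 165)) (XT.lf (nat_lit 0) (nat_lit 25141250142) (nat_lit 152) (nat_lit 4239988795) (nat_lit 228) (nat_lit 16190902660) (nat_lit 36) (nat_lit 5) (nat_lit 38) (nat_lit 5) (nat_lit 39) (nat_lit 5) (nat_lit 417) (nat_lit 319) (nat_lit 164)))))) (XT.nd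 (nat_lit 468) (nat_lit 380) (nat_lit 0) (XT.nd (nat_lit 234) (nat_lit 152) (nat_lit 0) (XT.nd (nat_lit 78) (nat_lit 152) (nat_lit 0) (XT.lf (nat_lit 0) (nat_lit 38433669709) (nat_lit 228) (nat_lit 1955050638) (nat_lit 76) (nat_lit 6232505166) (nat_lit 36) (nat_lit 5) (nat_lit 39) (nat_lit 5) (nat_lit 37) (nat_lit 4) (nat_lit 418) (nat_lit 319) (nat_lit 163)) (XT.nd (nat_lit 78) (nat_lit 0) (nat_lit 0) (XT.lf (nat_lit 0) (nat_lit 259570379) (nat_lit 152) (nat_lit 30337345627) (nat_lit 76) (nat_lit 17098708060) (nat_lit 34) (nat_lit 5) (nat_lit 36) (nat_lit 5) (nat_lit 35) (nat_lit 5) (nat_lit 419) (nat_lit 319) (nat_lit 162)) (XT.lf (nat_lit 0) (nat_lit 8809398292) (nat_lit 152) (nat_lit 11602813085) (nat_lit 76) (nat_lit 28387197045) (nat_lit 34) (nat_lit 5) (nat_lit 36) (nat_lit 5) (nat_lit 35) (nat_lit 5) (nat_lit 420) (nat_lit 319) (nat_lit 161)))) (XT.nd (nat_lit 78) (nat_lit 0) (nat_lit 0) (XT.lf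 (nat_lit 0) (nat_lit 7836009432) (nat_lit 152) (nat_lit 9849125508) (nat_lit 228) (nat_lit 32249090200) (nat_lit 32) (nat_lit 5) (nat_lit 34) (nat_lit 5) (nat_lit 35) (nat_lit 5) (nat_lit 421) (nat_lit 319) (nat_lit 160)) (XT.nd (nat_lit 78) (nat_lit 0) (nat_lit 0) (XT.lf (nat_lit 0) (nat_lit 26949493435) (nat_lit 228) (nat_lit 23025479154) (nat_lit 76) (nat_lit 1124444490) (nat_lit 32) (nat_lit 5) (nat_lit 35) (nat_lit 5) (nat_lit 33) (nat_lit 4) (nat_lit 422) (nat_lit 319) (nat_lit 159)) (XT.lf (nat_lit 0) (nat_lit 36583585032) (nat_lit 228) (nat_lit 3488446925) (nat_lit 76) (nat_lit 12224779925) (nat_lit 32) (nat_lit 5) (nat_lit 35) (nat_lit 5) (nat_lit 33) (nat_lit 4) (nat_lit 423) (nat_lit 319) (nat_lit 158))))) (XT.nd (nat_lit 234) (nat_lit 76) (nat_lit 0) (XT.nd (nat_lit 78) (nat_lit 228) (nat_lit 0) (XT.lf (nat_lit 0) (nat_lit 16955490685) (nat_lit 76) (nat_lit 29708647913) (nat_lit 152) (nat_lit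 6861267897) (nat_lit 31) (nat_lit 5) (nat_lit 32) (nat_lit 5) (nat_lit 33) (nat_lit 4) (nat_lit 424) (nat_lit 319) (nat_lit 157)) (XT.nd (nat_lit 78) (nat_lit 152) (nat_lit 0) (XT.lf (nat_lit 0) (nat_lit 2242260565) (nat_lit 152) (nat_lit 16737664060) (nat_lit 76) (nat_lit 35809383595) (nat_lit 30) (nat_lit 5) (nat_lit 32) (nat_lit 5) (nat_lit 31) (nat_lit 5) (nat_lit 425) (nat_lit 319) (nat_lit 156)) (XT.lf (nat_lit 0) (nat_lit 3683717260) (nat_lit 152) (nat_lit 7827307395) (nat_lit 228) (nat_lit 44577164353) (nat_lit 28) (nat_lit 5) (nat_lit 30) (nat_lit 5) (nat_lit 31) (nat_lit 5) (nat_lit 426) (nat_lit 319) (nat_lit 155)))) (XT.nd (nat_lit 156) (nat_lit 76) (nat_lit 0) (XT.nd (nat_lit 78) (nat_lit 0) (nat_lit 0) (XT.lf (nat_lit 0) (nat_lit 21258369427) (nat_lit 228) (nat_lit 32406784057) (nat_lit 76) (nat_lit 3754868218) (nat_lit 28) (nat_lit 5) (nat_lit 31) (nat_lit 5) (nat_lit 29) (nat_lit 4) (nat_lit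 427) (nat_lit 319) (nat_lit 154)) (XT.lf (nat_lit 0) (nat_lit 31370434229) (nat_lit 228) (nat_lit 11896187676) (nat_lit 76) (nat_lit 15523019467) (nat_lit 28) (nat_lit 5) (nat_lit 31) (nat_lit 5) (nat_lit 29) (nat_lit 4) (nat_lit 428) (nat_lit 319) (nat_lit 153))) (XT.nd (nat_lit 78) (nat_lit 0) (nat_lit 0) (XT.lf (nat_lit 0) (nat_lit 9403985777) (nat_lit 76) (nat_lit 32467225067) (nat_lit 152) (nat_lit 18326579249) (nat_lit 27) (nat_lit 5) (nat_lit 28) (nat_lit 5) (nat_lit 29) (nat_lit 4) (nat_lit 429) (nat_lit 319) (nat_lit 152)) (XT.lf (nat_lit 0) (nat_lit 31577868816) (nat_lit 76) (nat_lit 21224282103) (nat_lit 152) (nat_lit 8842579078) (nat_lit 27) (nat_lit 5) (nat_lit 28) (nat_lit 5) (nat_lit 29) (nat_lit 4) (nat_lit 430) (nat_lit 319) (nat_lit 151))))))) (XT.nd (nat_lit 38298) (nat_lit 0) (nat_lit 17176) (XT.nd (nat_lit 468) (nat_lit 228) (nat_lit 0) (XT.nd (nat_lit 234) (nat_lit 76) (nat_lit 0)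 (XT.nd (nat_lit 78) (nat_lit 152) (nat_lit 0) (XT.lf (nat_lit 0) (nat_lit 902981093) (nat_lit 152) (nat_lit 8735997822) (nat_lit 76) (nat_lit 53495979786) (nat_lit 26) (nat_lit 5) (nat_lit 28) (nat_lit 5) (nat_lit 27) (nat_lit 5) (nat_lit 431) (nat_lit 319) (nat_lit 150)) (XT.nd (nat_lit 78) (nat_lit 0) (nat_lit 0) (XT.lf (nat_lit 0) (nat_lit 10911395035) (nat_lit 228) (nat_lit 51287703183) (nat_lit 76) (nat_lit 2463723967) (nat_lit 24) (nat_lit 5) (nat_lit 27) (nat_lit 5) (nat_lit 25) (nat_lit 4) (nat_lit 432) (nat_lit 319) (nat_lit 149)) (XT.lf (nat_lit 0) (nat_lit 21399854960) (nat_lit 228) (nat_lit 30010278972) (nat_lit 76) (nat_lit 14820994661) (nat_lit 24) (nat_lit 5) (nat_lit 27) (nat_lit 5) (nat_lit 25) (nat_lit 4) (nat_lit 433) (nat_lit 319) (nat_lit 148)))) (XT.nd (nat_lit 78) (nat_lit 76) (nat_lit 0) (XT.lf (nat_lit 0) (nat_lit 32198374752) (nat_lit 228) (nat_lit 8103021110) (nat_lit 76) (nat_lit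 27545226949) (nat_lit 24) (nat_lit 5) (nat_lit 27) (nat_lit 5) (nat_lit 25) (nat_lit 4) (nat_lit 434) (nat_lit 319) (nat_lit 147)) (XT.nd (nat_lit 78) (nat_lit 0) (nat_lit 0) (XT.lf (nat_lit 0) (nat_lit 14740859936) (nat_lit 76) (nat_lit 28717228238) (nat_lit 152) (nat_lit 26048377319) (nat_lit 23) (nat_lit 5) (nat_lit 24) (nat_lit 5) (nat_lit 25) (nat_lit 4) (nat_lit 435) (nat_lit 319) (nat_lit 146)) (XT.lf (nat_lit 0) (nat_lit 38428000383) (nat_lit 76) (nat_lit 16705008572) (nat_lit 152) (nat_lit 16080772777) (nat_lit 23) (nat_lit 5) (nat_lit 24) (nat_lit 5) (nat_lit 25) (nat_lit 4) (nat_lit 436) (nat_lit 319) (nat_lit 145))))) (XT.nd (nat_lit 234) (nat_lit 76) (nat_lit 0) (XT.nd (nat_lit 78) (nat_lit 152) (nat_lit 0) (XT.lf (nat_lit 0) (nat_lit 62817831724) (nat_lit 76) (nat_lit 4336065374) (nat_lit 152) (nat_lit 5818549500) (nat_lit 23) (nat_lit 5) (nat_lit 24) (nat_lit 5) (nat_lit 25) (nat_lit 4)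 (nat_lit 437) (nat_lit 319) (nat_lit 144)) (XT.nd (nat_lit 78) (nat_lit 0) (nat_lit 0) (XT.lf (nat_lit 0) (nat_lit 4865548178) (nat_lit 152) (nat_lit 61498456435) (nat_lit 76) (nat_lit 8412295427) (nat_lit 21) (nat_lit 5) (nat_lit 23) (nat_lit 5) (nat_lit 22) (nat_lit 4) (nat_lit 438) (nat_lit 319) (nat_lit 143)) (XT.lf (nat_lit 0) (nat_lit 15895526668) (nat_lit 152) (nat_lit 39119104887) (nat_lit 76) (nat_lit 21613640770) (nat_lit 21) (nat_lit 5) (nat_lit 23) (nat_lit 5) (nat_lit 22) (nat_lit 4) (nat_lit 439) (nat_lit 319) (nat_lit 142)))) (XT.nd (nat_lit 156) (nat_lit 0) (nat_lit 0) (XT.nd (nat_lit 78) (nat_lit 76) (nat_lit 0) (XT.lf (nat_lit 0) (nat_lit 27252343017) (nat_lit 152) (nat_lit 16075937394) (nat_lit 76) (nat_lit 35207645864) (nat_lit 21) (nat_lit 5) (nat_lit 23) (nat_lit 5) (nat_lit 22) (nat_lit 4) (nat_lit 440) (nat_lit 319) (nat_lit 141)) (XT.lf (nat_lit 0) (nat_lit 7803454352) (nat_lit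 76) (nat_lit 31217477882) (nat_lit 152) (nat_lit 41477746189) (nat_lit 20) (nat_lit 5) (nat_lit 21) (nat_lit 5) (nat_lit 22) (nat_lit 4) (nat_lit 441) (nat_lit 319) (nat_lit 140))) (XT.nd (nat_lit 37362) (nat_lit 0) (nat_lit 18924) (XT.lf (nat_lit 0) (nat_lit 32721496538) (nat_lit 76) (nat_lit 18579519782) (nat_lit 152) (nat_lit 31214544315) (nat_lit 20) (nat_lit 5) (nat_lit 21) (nat_lit 5) (nat_lit 22) (nat_lit 4) (nat_lit 442) (nat_lit 319) (nat_lit 139)) (XT.lf (nat_lit 0) (nat_lit 2251974453) (nat_lit 988) (nat_lit 914382375) (nat_lit 988) (nat_lit 914382375) (nat_lit 269) (nat_lit 3) (nat_lit 282) (nat_lit 3) (nat_lit 282) (nat_lit 5) (nat_lit 320) (nat_lit 320) (nat_lit 260)))))) (XT.nd (nat_lit 546) (nat_lit 836) (nat_lit 0) (XT.nd (nat_lit 234) (nat_lit 912) (nat_lit 0) (XT.nd (nat_lit 78) (nat_lit 0) (nat_lit 0) (XT.lf (nat_lit 76) (nat_lit 2063725880) (nat_lit 0) (nat_lit 3632428239) (nat_lit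 988) (nat_lit 2553020746) (nat_lit 270) (nat_lit 5) (nat_lit 269) (nat_lit 3) (nat_lit 282) (nat_lit 5) (nat_lit 321) (nat_lit 320) (nat_lit 259)) (XT.nd (nat_lit 78) (nat_lit 0) (nat_lit 76) (XT.lf (nat_lit 76) (nat_lit 6087812001) (nat_lit 0) (nat_lit 811444962) (nat_lit 988) (nat_lit 1441029805) (nat_lit 270) (nat_lit 5) (nat_lit 269) (nat_lit 3) (nat_lit 282) (nat_lit 5) (nat_lit 322) (nat_lit 320) (nat_lit 258)) (XT.lf (nat_lit 76) (nat_lit 1789784019) (nat_lit 0) (nat_lit 6344123418) (nat_lit 988) (nat_lit 300398326) (nat_lit 271) (nat_lit 5) (nat_lit 270) (nat_lit 5) (nat_lit 283) (nat_lit 5) (nat_lit 323) (nat_lit 320) (nat_lit 257)))) (XT.nd (nat_lit 156) (nat_lit 0) (nat_lit 76) (XT.nd (nat_lit 78) (nat_lit 0) (nat_lit 0) (XT.lf (nat_lit 0) (nat_lit 847068671) (nat_lit 988) (nat_lit 2571770598) (nat_lit 1064) (nat_lit 5112398705) (nat_lit 257) (nat_lit 5) (nat_lit 270) (nat_lit 5) (nat_lit 271)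 (nat_lit 5) (nat_lit 324) (nat_lit 320) (nat_lit 256)) (XT.lf (nat_lit 76) (nat_lit 1628543660) (nat_lit 0) (nat_lit 369911891) (nat_lit 1064) (nat_lit 6633301568) (nat_lit 258) (nat_lit 5) (nat_lit 257) (nat_lit 5) (nat_lit 271) (nat_lit 5) (nat_lit 325) (nat_lit 320) (nat_lit 255))) (XT.nd (nat_lit 78) (nat_lit 0) (nat_lit 0) (XT.lf (nat_lit 0) (nat_lit 3198220843) (nat_lit 988) (nat_lit 2778371699) (nat_lit 1064) (nat_lit 2758317396) (nat_lit 258) (nat_lit 5) (nat_lit 271) (nat_lit 5) (nat_lit 272) (nat_lit 5) (nat_lit 326) (nat_lit 320) (nat_lit 254)) (XT.lf (nat_lit 76) (nat_lit 1576474374) (nat_lit 0) (nat_lit 2838436064) (nat_lit 1064) (nat_lit 4426851203) (nat_lit 259) (nat_lit 5) (nat_lit 258) (nat_lit 5) (nat_lit 272) (nat_lit 5) (nat_lit 327) (nat_lit 320) (nat_lit 253))))) (XT.nd (nat_lit 234) (nat_lit 988) (nat_lit 0) (XT.nd (nat_lit 78) (nat_lit 0) (nat_lit 0) (XT.lf (nat_lit 0) (nat_lit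 5663340841) (nat_lit 988) (nat_lit 2860999123) (nat_lit 1064) (nat_lit 427653025) (nat_lit 259) (nat_lit 5) (nat_lit 272) (nat_lit 5) (nat_lit 273) (nat_lit 5) (nat_lit 328) (nat_lit 320) (nat_lit 252)) (XT.nd (nat_lit 78) (nat_lit 0) (nat_lit 0) (XT.lf (nat_lit 76) (nat_lit 1655465241) (nat_lit 0) (nat_lit 5301969914) (nat_lit 1064) (nat_lit 2107880181) (nat_lit 260) (nat_lit 5) (nat_lit 259) (nat_lit 5) (nat_lit 273) (nat_lit 5) (nat_lit 329) (nat_lit 320) (nat_lit 251)) (XT.lf (nat_lit 76) (nat_lit 6342154824) (nat_lit 0) (nat_lit 1942095269) (nat_lit 1064) (nat_lit 897999829) (nat_lit 260) (nat_lit 5) (nat_lit 259) (nat_lit 5) (nat_lit 273) (nat_lit 5) (nat_lit 330) (nat_lit 320) (nat_lit 250)))) (XT.nd (nat_lit 156) (nat_lit 0) (nat_lit 0) (XT.nd (nat_lit 78) (nat_lit 0) (nat_lit 0) (XT.lf (nat_lit 0) (nat_lit 339988083) (nat_lit 1064) (nat_lit 7441934460) (nat_lit 1140) (nat_lit 1520739245) (nat_lit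 246) (nat_lit 5) (nat_lit 260) (nat_lit 5) (nat_lit 261) (nat_lit 5) (nat_lit 331) (nat_lit 320) (nat_lit 249)) (XT.lf (nat_lit 0) (nat_lit 1611788018) (nat_lit 1064) (nat_lit 2718260957) (nat_lit 1140) (nat_lit 5095955662) (nat_lit 246) (nat_lit 5) (nat_lit 260) (nat_lit 5) (nat_lit 261) (nat_lit 5) (nat_lit 332) (nat_lit 320) (nat_lit 248))) (XT.nd (nat_lit 78) (nat_lit 0) (nat_lit 76) (XT.lf (nat_lit 76) (nat_lit 2165272872) (nat_lit 0) (nat_lit 744787162) (nat_lit 1140) (nat_lit 6643364408) (nat_lit 247) (nat_lit 5) (nat_lit 246) (nat_lit 5) (nat_lit 261) (nat_lit 5) (nat_lit 333) (nat_lit 320) (nat_lit 247)) (XT.lf (nat_lit 0) (nat_lit 4271636670) (nat_lit 1064) (nat_lit 2486339763) (nat_lit 1140) (nat_lit 2925985163) (nat_lit 247) (nat_lit 5) (nat_lit 261) (nat_lit 5) (nat_lit 262) (nat_lit 5) (nat_lit 334) (nat_lit 320) (nat_lit 246))))))))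
noncomputable def xc156 : XT := (XT.nd (nat_lit 2028) (nat_lit 4864) (nat_lit 0) (XT.nd (nat_lit 1014) (nat_lit 3420) (nat_lit 0) (XT.nd (nat_lit 468) (nat_lit 2812) (nat_lit 0) (XT.nd (nat_lit 234) (nat_lit 1216) (nat_lit 0) (XT.nd (nat_lit 78) (nat_lit 988) (nat_lit 0) (XT.lf (nat_lit 76) (nat_lit 2581328397) (nat_lit 0) (nat_lit 3094140313) (nat_lit 1140) (nat_lit 4142928619) (nat_lit 248) (nat_lit 5) (nat_lit 247) (nat_lit 5) (nat_lit 262) (nat_lit 5) (nat_lit 335) (nat_lit 320) (nat_lit 245)) (XT.nd (nat_lit 78) (nat_lit 1064) (nat_lit 0) (XT.lf (nat_lit 0) (nat_lit 7123250317) (nat_lit 1064) (nat_lit 2135844444) (nat_lit 76) (nat_lit 697740324) (nat_lit 248) (nat_lit 5) (nat_lit 262) (nat_lit 5) (nat_lit 249) (nat_lit 5) (nat_lit 336) (nat_lit 320) (nat_lit 244)) (XT.lf (nat_lit 0) (nat_lit 3124534955) (nat_lit 1064) (nat_lit 5521421796) (nat_lit 1140) (nat_lit 1452547770) (nat_lit 234) (nat_lit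 5) (nat_lit 248) (nat_lit 5) (nat_lit 249) (nat_lit 5) (nat_lit 337) (nat_lit 320) (nat_lit 243)))) (XT.nd (nat_lit 78) (nat_lit 1216) (nat_lit 0) (XT.lf (nat_lit 0) (nat_lit 8562528181) (nat_lit 1064) (nat_lit 1644824773) (nat_lit 1140) (nat_lit 37303440) (nat_lit 234) (nat_lit 5) (nat_lit 248) (nat_lit 5) (nat_lit 249) (nat_lit 5) (nat_lit 338) (nat_lit 320) (nat_lit 242)) (XT.nd (nat_lit 78) (nat_lit 0) (nat_lit 0) (XT.lf (nat_lit 0) (nat_lit 1424344061) (nat_lit 1216) (nat_lit 6612449251) (nat_lit 76) (nat_lit 2357061324) (nat_lit 218) (nat_lit 5) (nat_lit 234) (nat_lit 5) (nat_lit 219) (nat_lit 5) (nat_lit 339) (nat_lit 320) (nat_lit 241)) (XT.lf (nat_lit 0) (nat_lit 2935133204) (nat_lit 1216) (nat_lit 1145022431) (nat_lit 76) (nat_lit 6467201546) (nat_lit 218) (nat_lit 5) (nat_lit 234) (nat_lit 5) (nat_lit 219) (nat_lit 5) (nat_lit 340) (nat_lit 320) (nat_lit 240))))) (XT.nd (nat_lit 234) (nat_lit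 1216) (nat_lit 0) (XT.nd (nat_lit 78) (nat_lit 608) (nat_lit 0) (XT.lf (nat_lit 0) (nat_lit 4508811368) (nat_lit 1064) (nat_lit 6153935270) (nat_lit 76) (nat_lit 42211290) (nat_lit 205) (nat_lit 5) (nat_lit 219) (nat_lit 5) (nat_lit 206) (nat_lit 5) (nat_lit 341) (nat_lit 320) (nat_lit 239)) (XT.nd (nat_lit 78) (nat_lit 608) (nat_lit 0) (XT.lf (nat_lit 0) (nat_lit 6155746845) (nat_lit 1064) (nat_lit 490416121) (nat_lit 76) (nat_lit 4220361829) (nat_lit 205) (nat_lit 5) (nat_lit 219) (nat_lit 5) (nat_lit 206) (nat_lit 5) (nat_lit 342) (nat_lit 320) (nat_lit 238)) (XT.lf (nat_lit 0) (nat_lit 5425198845) (nat_lit 608) (nat_lit 2453772381) (nat_lit 684) (nat_lit 3153179952) (nat_lit 197) (nat_lit 5) (nat_lit 205) (nat_lit 5) (nat_lit 206) (nat_lit 5) (nat_lit 343) (nat_lit 320) (nat_lit 237)))) (XT.nd (nat_lit 156) (nat_lit 608) (nat_lit 0) (XT.nd (nat_lit 78) (nat_lit 76) (nat_lit 0) (XT.lf (nat_lit 0) (nat_lit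 289193419) (nat_lit 532) (nat_lit 9365655573) (nat_lit 608) (nat_lit 1547887048) (nat_lit 190) (nat_lit 5) (nat_lit 197) (nat_lit 5) (nat_lit 198) (nat_lit 5) (nat_lit 344) (nat_lit 320) (nat_lit 236)) (XT.lf (nat_lit 0) (nat_lit 160465703) (nat_lit 608) (nat_lit 4949933812) (nat_lit 76) (nat_lit 6266316988) (nat_lit 189) (nat_lit 5) (nat_lit 197) (nat_lit 5) (nat_lit 190) (nat_lit 5) (nat_lit 345) (nat_lit 320) (nat_lit 235))) (XT.nd (nat_lit 78) (nat_lit 0) (nat_lit 0) (XT.lf (nat_lit 0) (nat_lit 1176443024) (nat_lit 608) (nat_lit 700024112) (nat_lit 684) (nat_lit 9679381027) (nat_lit 181) (nat_lit 5) (nat_lit 189) (nat_lit 5) (nat_lit 190) (nat_lit 5) (nat_lit 346) (nat_lit 320) (nat_lit 234)) (XT.lf (nat_lit 0) (nat_lit 3708031521) (nat_lit 684) (nat_lit 4212459749) (nat_lit 76) (nat_lit 3817956353) (nat_lit 181) (nat_lit 5) (nat_lit 190) (nat_lit 5) (nat_lit 182) (nat_lit 5) (nat_lit 347) (nat_lit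 320) (nat_lit 233)))))) (XT.nd (nat_lit 468) (nat_lit 1824) (nat_lit 0) (XT.nd (nat_lit 234) (nat_lit 532) (nat_lit 0) (XT.nd (nat_lit 78) (nat_lit 532) (nat_lit 0) (XT.lf (nat_lit 0) (nat_lit 2150990478) (nat_lit 532) (nat_lit 3448504934) (nat_lit 608) (nat_lit 6326896934) (nat_lit 174) (nat_lit 5) (nat_lit 181) (nat_lit 5) (nat_lit 182) (nat_lit 5) (nat_lit 348) (nat_lit 320) (nat_lit 232)) (XT.nd (nat_lit 78) (nat_lit 532) (nat_lit 0) (XT.lf (nat_lit 0) (nat_lit 7579560129) (nat_lit 608) (nat_lit 3362539652) (nat_lit 76) (nat_lit 1176935320) (nat_lit 174) (nat_lit 5) (nat_lit 182) (nat_lit 5) (nat_lit 175) (nat_lit 5) (nat_lit 349) (nat_lit 320) (nat_lit 231)) (XT.lf (nat_lit 0) (nat_lit 3248669953) (nat_lit 532) (nat_lit 6414146326) (nat_lit 608) (nat_lit 2653342124) (nat_lit 167) (nat_lit 5) (nat_lit 174) (nat_lit 5) (nat_lit 175) (nat_lit 5) (nat_lit 350) (nat_lit 320) (nat_lit 230)))) (XT.nd (nat_lit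 78) (nat_lit 532) (nat_lit 0) (XT.lf (nat_lit 0) (nat_lit 10104084814) (nat_lit 532) (nat_lit 1717264980) (nat_lit 608) (nat_lit 697476733) (nat_lit 167) (nat_lit 5) (nat_lit 174) (nat_lit 5) (nat_lit 175) (nat_lit 5) (nat_lit 351) (nat_lit 320) (nat_lit 229)) (XT.nd (nat_lit 78) (nat_lit 0) (nat_lit 0) (XT.lf (nat_lit 0) (nat_lit 1344275345) (nat_lit 532) (nat_lit 8267344203) (nat_lit 76) (nat_lit 3114001673) (nat_lit 160) (nat_lit 5) (nat_lit 167) (nat_lit 5) (nat_lit 161) (nat_lit 5) (nat_lit 352) (nat_lit 320) (nat_lit 228)) (XT.lf (nat_lit 0) (nat_lit 3454480395) (nat_lit 532) (nat_lit 1398247219) (nat_lit 76) (nat_lit 8085061680) (nat_lit 160) (nat_lit 5) (nat_lit 167) (nat_lit 5) (nat_lit 161) (nat_lit 5) (nat_lit 353) (nat_lit 320) (nat_lit 227))))) (XT.nd (nat_lit 234) (nat_lit 912) (nat_lit 0) (XT.nd (nat_lit 78) (nat_lit 456) (nat_lit 0) (XT.lf (nat_lit 0) (nat_lit 5664605373) (nat_lit 532)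 (nat_lit 7389323314) (nat_lit 76) (nat_lit 101308204) (nat_lit 154) (nat_lit 5) (nat_lit 161) (nat_lit 5) (nat_lit 155) (nat_lit 5) (nat_lit 354) (nat_lit 320) (nat_lit 226)) (XT.nd (nat_lit 78) (nat_lit 456) (nat_lit 0) (XT.lf (nat_lit 0) (nat_lit 7983860908) (nat_lit 532) (nat_lit 276176755) (nat_lit 76) (nat_lit 5117897970) (nat_lit 154) (nat_lit 5) (nat_lit 161) (nat_lit 5) (nat_lit 155) (nat_lit 5) (nat_lit 355) (nat_lit 320) (nat_lit 225)) (XT.lf (nat_lit 0) (nat_lit 7168036752) (nat_lit 456) (nat_lit 3254648917) (nat_lit 532) (nat_lit 3183142074) (nat_lit 148) (nat_lit 5) (nat_lit 154) (nat_lit 5) (nat_lit 155) (nat_lit 5) (nat_lit 356) (nat_lit 320) (nat_lit 224)))) (XT.nd (nat_lit 156) (nat_lit 380) (nat_lit 0) (XT.nd (nat_lit 78) (nat_lit 76) (nat_lit 0) (XT.lf (nat_lit 0) (nat_lit 979049421) (nat_lit 456) (nat_lit 11967520781) (nat_lit 532) (nat_lit 893641364) (nat_lit 142) (nat_lit 5) (nat_lit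 148) (nat_lit 5) (nat_lit 149) (nat_lit 5) (nat_lit 357) (nat_lit 320) (nat_lit 223)) (XT.lf (nat_lit 0) (nat_lit 1515372867) (nat_lit 532) (nat_lit 5398937287) (nat_lit 76) (nat_lit 7164523320) (nat_lit 141) (nat_lit 5) (nat_lit 148) (nat_lit 5) (nat_lit 142) (nat_lit 5) (nat_lit 358) (nat_lit 320) (nat_lit 222))) (XT.nd (nat_lit 78) (nat_lit 0) (nat_lit 0) (XT.lf (nat_lit 0) (nat_lit 2301193373) (nat_lit 380) (nat_lit 1681691351) (nat_lit 456) (nat_lit 10341349021) (nat_lit 136) (nat_lit 5) (nat_lit 141) (nat_lit 5) (nat_lit 142) (nat_lit 5) (nat_lit 359) (nat_lit 320) (nat_lit 221)) (XT.lf (nat_lit 0) (nat_lit 6597463611) (nat_lit 456) (nat_lit 4290842618) (nat_lit 76) (nat_lit 3686509029) (nat_lit 136) (nat_lit 5) (nat_lit 142) (nat_lit 5) (nat_lit 137) (nat_lit 5) (nat_lit 360) (nat_lit 320) (nat_lit 220))))))) (XT.nd (nat_lit 1014) (nat_lit 2280) (nat_lit 0) (XT.nd (nat_lit 468) (nat_lit 1368) (nat_lit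 0) (XT.nd (nat_lit 234) (nat_lit 456) (nat_lit 0) (XT.nd (nat_lit 78) (nat_lit 380) (nat_lit 0) (XT.lf (nat_lit 0) (nat_lit 3707363628) (nat_lit 380) (nat_lit 5618258988) (nat_lit 456) (nat_lit 5506247499) (nat_lit 131) (nat_lit 5) (nat_lit 136) (nat_lit 5) (nat_lit 137) (nat_lit 5) (nat_lit 361) (nat_lit 320) (nat_lit 219)) (XT.nd (nat_lit 78) (nat_lit 380) (nat_lit 0) (XT.lf (nat_lit 0) (nat_lit 12012035346) (nat_lit 380) (nat_lit 150068326) (nat_lit 456) (nat_lit 2933748508) (nat_lit 131) (nat_lit 5) (nat_lit 136) (nat_lit 5) (nat_lit 137) (nat_lit 5) (nat_lit 362) (nat_lit 320) (nat_lit 218)) (XT.lf (nat_lit 0) (nat_lit 5226103692) (nat_lit 380) (nat_lit 9944106133) (nat_lit 456) (nat_lit 194957558) (nat_lit 126) (nat_lit 5) (nat_lit 131) (nat_lit 5) (nat_lit 132) (nat_lit 5) (nat_lit 363) (nat_lit 320) (nat_lit 217)))) (XT.nd (nat_lit 78) (nat_lit 380) (nat_lit 0) (XT.lf (nat_lit 0) (nat_lit 2591391798)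 (nat_lit 456) (nat_lit 1841524420) (nat_lit 76) (nat_lit 11208398467) (nat_lit 125) (nat_lit 5) (nat_lit 131) (nat_lit 5) (nat_lit 126) (nat_lit 5) (nat_lit 364) (nat_lit 320) (nat_lit 216)) (XT.nd (nat_lit 78) (nat_lit 0) (nat_lit 0) (XT.lf (nat_lit 0) (nat_lit 5519677169) (nat_lit 456) (nat_lit 9121554309) (nat_lit 76) (nat_lit 1282597881) (nat_lit 120) (nat_lit 5) (nat_lit 126) (nat_lit 5) (nat_lit 121) (nat_lit 5) (nat_lit 365) (nat_lit 320) (nat_lit 215)) (XT.lf (nat_lit 0) (nat_lit 8582873591) (nat_lit 456) (nat_lit 536195115) (nat_lit 76) (nat_lit 7094347418) (nat_lit 120) (nat_lit 5) (nat_lit 126) (nat_lit 5) (nat_lit 121) (nat_lit 5) (nat_lit 366) (nat_lit 320) (nat_lit 214))))) (XT.nd (nat_lit 234) (nat_lit 608) (nat_lit 0) (XT.nd (nat_lit 78) (nat_lit 456) (nat_lit 0) (XT.lf (nat_lit 0) (nat_lit 8451253733) (nat_lit 304) (nat_lit 3352797714) (nat_lit 380) (nat_lit 4705664755) (nat_lit 116) (nat_lit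 5) (nat_lit 120) (nat_lit 5) (nat_lit 121) (nat_lit 5) (nat_lit 367) (nat_lit 320) (nat_lit 213)) (XT.nd (nat_lit 78) (nat_lit 76) (nat_lit 0) (XT.lf (nat_lit 0) (nat_lit 876165438) (nat_lit 380) (nat_lit 14269495697) (nat_lit 456) (nat_lit 1668538287) (nat_lit 111) (nat_lit 5) (nat_lit 116) (nat_lit 5) (nat_lit 117) (nat_lit 5) (nat_lit 368) (nat_lit 320) (nat_lit 212)) (XT.lf (nat_lit 0) (nat_lit 1531724071) (nat_lit 456) (nat_lit 6950078168) (nat_lit 76) (nat_lit 8642586345) (nat_lit 110) (nat_lit 5) (nat_lit 116) (nat_lit 5) (nat_lit 111) (nat_lit 5) (nat_lit 369) (nat_lit 320) (nat_lit 211)))) (XT.nd (nat_lit 156) (nat_lit 304) (nat_lit 0) (XT.nd (nat_lit 78) (nat_lit 0) (nat_lit 0) (XT.lf (nat_lit 0) (nat_lit 2316102540) (nat_lit 304) (nat_lit 2486182464) (nat_lit 380) (nat_lit 12640875365) (nat_lit 106) (nat_lit 5) (nat_lit 110) (nat_lit 5) (nat_lit 111) (nat_lit 5) (nat_lit 370) (nat_lit 320) (nat_lit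 210)) (XT.lf (nat_lit 0) (nat_lit 8263041185) (nat_lit 380) (nat_lit 5823081007) (nat_lit 76) (nat_lit 3682617902) (nat_lit 106) (nat_lit 5) (nat_lit 111) (nat_lit 5) (nat_lit 107) (nat_lit 5) (nat_lit 371) (nat_lit 320) (nat_lit 209))) (XT.nd (nat_lit 78) (nat_lit 0) (nat_lit 0) (XT.lf (nat_lit 0) (nat_lit 3789669073) (nat_lit 304) (nat_lit 8085148193) (nat_lit 380) (nat_lit 6227860959) (nat_lit 102) (nat_lit 5) (nat_lit 106) (nat_lit 5) (nat_lit 107) (nat_lit 5) (nat_lit 372) (nat_lit 320) (nat_lit 208)) (XT.lf (nat_lit 0) (nat_lit 13790681583) (nat_lit 304) (nat_lit 1849435666) (nat_lit 380) (nat_lit 2805168863) (nat_lit 102) (nat_lit 5) (nat_lit 106) (nat_lit 5) (nat_lit 107) (nat_lit 5) (nat_lit 373) (nat_lit 320) (nat_lit 207)))))) (XT.nd (nat_lit 546) (nat_lit 988) (nat_lit 0) (XT.nd (nat_lit 234) (nat_lit 608) (nat_lit 0) (XT.nd (nat_lit 78) (nat_lit 304) (nat_lit 0) (XT.lf (nat_lit 0) (nat_lit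 788905975) (nat_lit 380) (nat_lit 13469039382) (nat_lit 76) (nat_lit 4537542859) (nat_lit 97) (nat_lit 5) (nat_lit 102) (nat_lit 5) (nat_lit 98) (nat_lit 5) (nat_lit 374) (nat_lit 320) (nat_lit 206)) (XT.nd (nat_lit 78) (nat_lit 304) (nat_lit 0) (XT.lf (nat_lit 0) (nat_lit 4486980086) (nat_lit 380) (nat_lit 3518337442) (nat_lit 76) (nat_lit 11148475049) (nat_lit 97) (nat_lit 5) (nat_lit 102) (nat_lit 5) (nat_lit 98) (nat_lit 5) (nat_lit 375) (nat_lit 320) (nat_lit 205)) (XT.lf (nat_lit 0) (nat_lit 6845683878) (nat_lit 304) (nat_lit 1503281668) (nat_lit 380) (nat_lit 11172297430) (nat_lit 93) (nat_lit 5) (nat_lit 97) (nat_lit 5) (nat_lit 98) (nat_lit 5) (nat_lit 376) (nat_lit 320) (nat_lit 204)))) (XT.nd (nat_lit 156) (nat_lit 380) (nat_lit 0) (XT.nd (nat_lit 78) (nat_lit 228) (nat_lit 0) (XT.lf (nat_lit 0) (nat_lit 12399918750) (nat_lit 380) (nat_lit 2375150410) (nat_lit 76) (nat_lit 5122500886) (nat_lit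 93) (nat_lit 5) (nat_lit 98) (nat_lit 5) (nat_lit 94) (nat_lit 5) (nat_lit 377) (nat_lit 320) (nat_lit 203)) (XT.lf (nat_lit 0) (nat_lit 8364245877) (nat_lit 228) (nat_lit 8291112718) (nat_lit 304) (nat_lit 3627324628) (nat_lit 90) (nat_lit 5) (nat_lit 93) (nat_lit 5) (nat_lit 94) (nat_lit 5) (nat_lit 378) (nat_lit 320) (nat_lit 202))) (XT.nd (nat_lit 78) (nat_lit 304) (nat_lit 0) (XT.lf (nat_lit 0) (nat_lit 364056467) (nat_lit 304) (nat_lit 1226254604) (nat_lit 76) (nat_lit 19088581910) (nat_lit 89) (nat_lit 5) (nat_lit 93) (nat_lit 5) (nat_lit 90) (nat_lit 5) (nat_lit 379) (nat_lit 320) (nat_lit 201)) (XT.lf (nat_lit 0) (nat_lit 4538081601) (nat_lit 380) (nat_lit 11209138918) (nat_lit 76) (nat_lit 5334622002) (nat_lit 85) (nat_lit 5) (nat_lit 90) (nat_lit 5) (nat_lit 86) (nat_lit 5) (nat_lit 380) (nat_lit 320) (nat_lit 200))))) (XT.nd (nat_lit 234) (nat_lit 532) (nat_lit 0) (XT.nd (nat_lit 78) (nat_lit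 456) (nat_lit 0) (XT.lf (nat_lit 0) (nat_lit 8853785068) (nat_lit 380) (nat_lit 200643456) (nat_lit 76) (nat_lit 12441963302) (nat_lit 85) (nat_lit 5) (nat_lit 90) (nat_lit 5) (nat_lit 86) (nat_lit 5) (nat_lit 381) (nat_lit 320) (nat_lit 199)) (XT.nd (nat_lit 78) (nat_lit 228) (nat_lit 0) (XT.lf (nat_lit 0) (nat_lit 11341920124) (nat_lit 228) (nat_lit 2054615044) (nat_lit 304) (nat_lit 8523920039) (nat_lit 82) (nat_lit 5) (nat_lit 85) (nat_lit 5) (nat_lit 86) (nat_lit 5) (nat_lit 382) (nat_lit 320) (nat_lit 198)) (XT.lf (nat_lit 0) (nat_lit 826627627) (nat_lit 228) (nat_lit 17297145932) (nat_lit 304) (nat_lit 4232025476) (nat_lit 79) (nat_lit 5) (nat_lit 82) (nat_lit 5) (nat_lit 83) (nat_lit 5) (nat_lit 383) (nat_lit 320) (nat_lit 197)))) (XT.nd (nat_lit 156) (nat_lit 228) (nat_lit 0) (XT.nd (nat_lit 78) (nat_lit 228) (nat_lit 0) (XT.lf (nat_lit 0) (nat_lit 301874114) (nat_lit 304) (nat_lit 10051095530)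 (nat_lit 76) (nat_lit 12447675718) (nat_lit 78) (nat_lit 5) (nat_lit 82) (nat_lit 5) (nat_lit 79) (nat_lit 5) (nat_lit 384) (nat_lit 320) (nat_lit 196)) (XT.lf (nat_lit 0) (nat_lit 1746335289) (nat_lit 228) (nat_lit 3146217801) (nat_lit 304) (nat_lit 18364856614) (nat_lit 75) (nat_lit 5) (nat_lit 78) (nat_lit 5) (nat_lit 79) (nat_lit 5) (nat_lit 385) (nat_lit 320) (nat_lit 195))) (XT.nd (nat_lit 78) (nat_lit 228) (nat_lit 0) (XT.lf (nat_lit 0) (nat_lit 9753695927) (nat_lit 304) (nat_lit 9680485081) (nat_lit 76) (nat_lit 4289717858) (nat_lit 75) (nat_lit 5) (nat_lit 79) (nat_lit 5) (nat_lit 76) (nat_lit 5) (nat_lit 386) (nat_lit 320) (nat_lit 194)) (XT.lf (nat_lit 0) (nat_lit 2506011296) (nat_lit 228) (nat_lit 12299349903) (nat_lit 304) (nat_lit 9397684931) (nat_lit 72) (nat_lit 5) (nat_lit 75) (nat_lit 5) (nat_lit 76) (nat_lit 5) (nat_lit 387) (nat_lit 320) (nat_lit 193))))))))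
noncomputable def xc157 : XT := (XT.nd (nat_lit 2028) (nat_lit 1444) (nat_lit 0) (XT.nd (nat_lit 1014) (nat_lit 1064) (nat_lit 0) (XT.nd (nat_lit 468) (nat_lit 684) (nat_lit 0) (XT.nd (nat_lit 234) (nat_lit 380) (nat_lit 0) (XT.nd (nat_lit 78) (nat_lit 304) (nat_lit 0) (XT.lf (nat_lit 0) (nat_lit 15239946073) (nat_lit 228) (nat_lit 4855980234) (nat_lit 304) (nat_lit 4598024961) (nat_lit 72) (nat_lit 5) (nat_lit 75) (nat_lit 5) (nat_lit 76) (nat_lit 5) (nat_lit 388) (nat_lit 320) (nat_lit 192)) (XT.nd (nat_lit 78) (nat_lit 0) (nat_lit 0) (XT.lf (nat_lit 0) (nat_lit 386723990) (nat_lit 304) (nat_lit 22027069316) (nat_lit 76) (nat_lit 2784259003) (nat_lit 68) (nat_lit 5) (nat_lit 72) (nat_lit 5) (nat_lit 69) (nat_lit 5) (nat_lit 389) (nat_lit 320) (nat_lit 191)) (XT.lf (nat_lit 0) (nat_lit 5562969293) (nat_lit 304) (nat_lit 9456850186) (nat_lit 76) (nat_lit 10692063679) (nat_lit 68) (nat_lit 5) (nat_lit 72)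 (nat_lit 5) (nat_lit 69) (nat_lit 5) (nat_lit 390) (nat_lit 320) (nat_lit 190)))) (XT.nd (nat_lit 78) (nat_lit 152) (nat_lit 0) (XT.lf (nat_lit 0) (nat_lit 3543696430) (nat_lit 228) (nat_lit 7375042994) (nat_lit 304) (nat_lit 15321665898) (nat_lit 65) (nat_lit 5) (nat_lit 68) (nat_lit 5) (nat_lit 69) (nat_lit 5) (nat_lit 391) (nat_lit 320) (nat_lit 189)) (XT.nd (nat_lit 78) (nat_lit 152) (nat_lit 0) (XT.lf (nat_lit 0) (nat_lit 16526670664) (nat_lit 304) (nat_lit 9675554529) (nat_lit 76) (nat_lit 579816728) (nat_lit 65) (nat_lit 5) (nat_lit 69) (nat_lit 5) (nat_lit 66) (nat_lit 5) (nat_lit 392) (nat_lit 320) (nat_lit 188)) (XT.lf (nat_lit 0) (nat_lit 3720267417) (nat_lit 152) (nat_lit 18681887563) (nat_lit 228) (nat_lit 4934796494) (nat_lit 63) (nat_lit 5) (nat_lit 65) (nat_lit 5) (nat_lit 66) (nat_lit 5) (nat_lit 393) (nat_lit 320) (nat_lit 187))))) (XT.nd (nat_lit 234) (nat_lit 380) (nat_lit 0) (XT.nd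 (nat_lit 78) (nat_lit 228) (nat_lit 0) (XT.lf (nat_lit 0) (nat_lit 623989973) (nat_lit 228) (nat_lit 10211064971) (nat_lit 76) (nat_lit 17070622097) (nat_lit 62) (nat_lit 5) (nat_lit 65) (nat_lit 5) (nat_lit 63) (nat_lit 5) (nat_lit 394) (nat_lit 320) (nat_lit 186)) (XT.nd (nat_lit 78) (nat_lit 0) (nat_lit 0) (XT.lf (nat_lit 0) (nat_lit 3603044367) (nat_lit 228) (nat_lit 2672786195) (nat_lit 304) (nat_lit 22213406811) (nat_lit 59) (nat_lit 5) (nat_lit 62) (nat_lit 5) (nat_lit 63) (nat_lit 5) (nat_lit 395) (nat_lit 320) (nat_lit 185)) (XT.lf (nat_lit 0) (nat_lit 12247387159) (nat_lit 304) (nat_lit 11117656290) (nat_lit 76) (nat_lit 5720759181) (nat_lit 59) (nat_lit 5) (nat_lit 63) (nat_lit 5) (nat_lit 60) (nat_lit 5) (nat_lit 396) (nat_lit 320) (nat_lit 184)))) (XT.nd (nat_lit 156) (nat_lit 228) (nat_lit 0) (XT.nd (nat_lit 78) (nat_lit 0) (nat_lit 0) (XT.lf (nat_lit 0) (nat_lit 3082878009) (nat_lit 152)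 (nat_lit 15362481117) (nat_lit 228) (nat_lit 11253490517) (nat_lit 57) (nat_lit 5) (nat_lit 59) (nat_lit 5) (nat_lit 60) (nat_lit 5) (nat_lit 397) (nat_lit 320) (nat_lit 183)) (XT.lf (nat_lit 0) (nat_lit 17922720691) (nat_lit 152) (nat_lit 7010103753) (nat_lit 228) (nat_lit 5394359767) (nat_lit 57) (nat_lit 5) (nat_lit 59) (nat_lit 5) (nat_lit 60) (nat_lit 5) (nat_lit 398) (nat_lit 320) (nat_lit 182))) (XT.nd (nat_lit 78) (nat_lit 0) (nat_lit 0) (XT.lf (nat_lit 0) (nat_lit 656726773) (nat_lit 228) (nat_lit 28732406292) (nat_lit 76) (nat_lit 1584193211) (nat_lit 54) (nat_lit 5) (nat_lit 57) (nat_lit 5) (nat_lit 55) (nat_lit 5) (nat_lit 399) (nat_lit 320) (nat_lit 181)) (XT.lf (nat_lit 0) (nat_lit 6968344240) (nat_lit 228) (nat_lit 14193622188) (nat_lit 76) (nat_lit 10469663838) (nat_lit 54) (nat_lit 5) (nat_lit 57) (nat_lit 5) (nat_lit 55) (nat_lit 5) (nat_lit 400) (nat_lit 320) (nat_lit 180)))))) (XT.nd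 (nat_lit 468) (nat_lit 532) (nat_lit 0) (XT.nd (nat_lit 234) (nat_lit 380) (nat_lit 0) (XT.nd (nat_lit 78) (nat_lit 0) (nat_lit 0) (XT.lf (nat_lit 0) (nat_lit 782601599) (nat_lit 152) (nat_lit 12685990396) (nat_lit 228) (nat_lit 18841115391) (nat_lit 52) (nat_lit 5) (nat_lit 54) (nat_lit 5) (nat_lit 55) (nat_lit 5) (nat_lit 401) (nat_lit 320) (nat_lit 179)) (XT.nd (nat_lit 78) (nat_lit 0) (nat_lit 0) (XT.lf (nat_lit 0) (nat_lit 16485209435) (nat_lit 152) (nat_lit 3813831241) (nat_lit 228) (nat_lit 12705032731) (nat_lit 52) (nat_lit 5) (nat_lit 54) (nat_lit 5) (nat_lit 55) (nat_lit 5) (nat_lit 402) (nat_lit 320) (nat_lit 178)) (XT.lf (nat_lit 0) (nat_lit 27377634339) (nat_lit 228) (nat_lit 1125197382) (nat_lit 76) (nat_lit 5215144061) (nat_lit 52) (nat_lit 5) (nat_lit 55) (nat_lit 5) (nat_lit 53) (nat_lit 5) (nat_lit 403) (nat_lit 320) (nat_lit 177)))) (XT.nd (nat_lit 78) (nat_lit 152) (nat_lit 0) (XT.lf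 (nat_lit 0) (nat_lit 386765600) (nat_lit 228) (nat_lit 19480448673) (nat_lit 76) (nat_lit 14580750778) (nat_lit 49) (nat_lit 5) (nat_lit 52) (nat_lit 5) (nat_lit 50) (nat_lit 5) (nat_lit 404) (nat_lit 320) (nat_lit 176)) (XT.nd (nat_lit 78) (nat_lit 152) (nat_lit 0) (XT.lf (nat_lit 0) (nat_lit 7192028058) (nat_lit 228) (nat_lit 3709592699) (nat_lit 76) (nat_lit 24296238793) (nat_lit 49) (nat_lit 5) (nat_lit 52) (nat_lit 5) (nat_lit 50) (nat_lit 5) (nat_lit 405) (nat_lit 320) (nat_lit 175)) (XT.lf (nat_lit 0) (nat_lit 12770709544) (nat_lit 152) (nat_lit 1546024932) (nat_lit 228) (nat_lit 21650059887) (nat_lit 47) (nat_lit 5) (nat_lit 49) (nat_lit 5) (nat_lit 50) (nat_lit 5) (nat_lit 406) (nat_lit 320) (nat_lit 174))))) (XT.nd (nat_lit 234) (nat_lit 380) (nat_lit 0) (XT.nd (nat_lit 78) (nat_lit 152) (nat_lit 0) (XT.lf (nat_lit 0) (nat_lit 21763350508) (nat_lit 228) (nat_lit 7027276112) (nat_lit 76) (nat_lit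 7964927551) (nat_lit 47) (nat_lit 5) (nat_lit 50) (nat_lit 5) (nat_lit 48) (nat_lit 5) (nat_lit 407) (nat_lit 320) (nat_lit 173)) (XT.nd (nat_lit 78) (nat_lit 0) (nat_lit 0) (XT.lf (nat_lit 0) (nat_lit 9789772592) (nat_lit 152) (nat_lit 19745790905) (nat_lit 228) (nat_lit 8029349268) (nat_lit 45) (nat_lit 5) (nat_lit 47) (nat_lit 5) (nat_lit 48) (nat_lit 5) (nat_lit 408) (nat_lit 320) (nat_lit 172)) (XT.lf (nat_lit 0) (nat_lit 27242957264) (nat_lit 152) (nat_lit 10361823990) (nat_lit 228) (nat_lit 791857598) (nat_lit 45) (nat_lit 5) (nat_lit 47) (nat_lit 5) (nat_lit 48) (nat_lit 5) (nat_lit 409) (nat_lit 320) (nat_lit 171)))) (XT.nd (nat_lit 156) (nat_lit 152) (nat_lit 0) (XT.nd (nat_lit 78) (nat_lit 0) (nat_lit 0) (XT.lf (nat_lit 0) (nat_lit 6007393517) (nat_lit 152) (nat_lit 576111495) (nat_lit 228) (nat_lit 32666369276) (nat_lit 42) (nat_lit 5) (nat_lit 44) (nat_lit 5) (nat_lit 45) (nat_lit 5) (nat_lit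 410) (nat_lit 320) (nat_lit 170)) (XT.lf (nat_lit 0) (nat_lit 14362360015) (nat_lit 228) (nat_lit 16325938853) (nat_lit 76) (nat_lit 9434230030) (nat_lit 42) (nat_lit 5) (nat_lit 45) (nat_lit 5) (nat_lit 43) (nat_lit 5) (nat_lit 411) (nat_lit 320) (nat_lit 169))) (XT.nd (nat_lit 78) (nat_lit 0) (nat_lit 0) (XT.lf (nat_lit 0) (nat_lit 1102010355) (nat_lit 152) (nat_lit 21282121267) (nat_lit 228) (nat_lit 18636946671) (nat_lit 40) (nat_lit 5) (nat_lit 42) (nat_lit 5) (nat_lit 43) (nat_lit 5) (nat_lit 412) (nat_lit 320) (nat_lit 168)) (XT.lf (nat_lit 0) (nat_lit 19375691257) (nat_lit 152) (nat_lit 11429062107) (nat_lit 228) (nat_lit 11137086527) (nat_lit 40) (nat_lit 5) (nat_lit 42) (nat_lit 5) (nat_lit 43) (nat_lit 5) (nat_lit 413) (nat_lit 320) (nat_lit 167))))))) (XT.nd (nat_lit 1014) (nat_lit 684) (nat_lit 0) (XT.nd (nat_lit 468) (nat_lit 456) (nat_lit 0) (XT.nd (nat_lit 234) (nat_lit 152) (nat_lit 0)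 (XT.nd (nat_lit 78) (nat_lit 152) (nat_lit 0) (XT.lf (nat_lit 0) (nat_lit 38186152951) (nat_lit 152) (nat_lit 1285371888) (nat_lit 228) (nat_lit 3418895146) (nat_lit 40) (nat_lit 5) (nat_lit 42) (nat_lit 5) (nat_lit 43) (nat_lit 5) (nat_lit 414) (nat_lit 320) (nat_lit 166)) (XT.nd (nat_lit 78) (nat_lit 0) (nat_lit 0) (XT.lf (nat_lit 0) (nat_lit 4659582408) (nat_lit 152) (nat_lit 30041986272) (nat_lit 76) (nat_lit 9158069091) (nat_lit 38) (nat_lit 5) (nat_lit 40) (nat_lit 5) (nat_lit 39) (nat_lit 5) (nat_lit 415) (nat_lit 320) (nat_lit 165)) (XT.lf (nat_lit 0) (nat_lit 12966085692) (nat_lit 152) (nat_lit 11923151031) (nat_lit 76) (nat_lit 19966049667) (nat_lit 38) (nat_lit 5) (nat_lit 40) (nat_lit 5) (nat_lit 39) (nat_lit 5) (nat_lit 416) (nat_lit 320) (nat_lit 164)))) (XT.nd (nat_lit 78) (nat_lit 0) (nat_lit 0) (XT.lf (nat_lit 0) (nat_lit 6862226634) (nat_lit 152) (nat_lit 14719392378) (nat_lit 228) (nat_lit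 24297391812) (nat_lit 36) (nat_lit 5) (nat_lit 38) (nat_lit 5) (nat_lit 39) (nat_lit 5) (nat_lit 417) (nat_lit 320) (nat_lit 163)) (XT.nd (nat_lit 78) (nat_lit 0) (nat_lit 0) (XT.lf (nat_lit 0) (nat_lit 26444756297) (nat_lit 152) (nat_lit 4125207983) (nat_lit 228) (nat_lit 16360053696) (nat_lit 36) (nat_lit 5) (nat_lit 38) (nat_lit 5) (nat_lit 39) (nat_lit 5) (nat_lit 418) (nat_lit 320) (nat_lit 162)) (XT.lf (nat_lit 0) (nat_lit 39887276150) (nat_lit 228) (nat_lit 1473672588) (nat_lit 76) (nat_lit 6649828442) (nat_lit 36) (nat_lit 5) (nat_lit 39) (nat_lit 5) (nat_lit 37) (nat_lit 4) (nat_lit 419) (nat_lit 320) (nat_lit 161))))) (XT.nd (nat_lit 234) (nat_lit 152) (nat_lit 0) (XT.nd (nat_lit 78) (nat_lit 152) (nat_lit 0) (XT.lf (nat_lit 0) (nat_lit 567343193) (nat_lit 152) (nat_lit 30706697181) (nat_lit 76) (nat_lit 17843389492) (nat_lit 34) (nat_lit 5) (nat_lit 36) (nat_lit 5) (nat_lit 35) (nat_lit 5) (nat_lit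 420) (nat_lit 320) (nat_lit 160)) (XT.nd (nat_lit 78) (nat_lit 152) (nat_lit 0) (XT.lf (nat_lit 0) (nat_lit 9364928496) (nat_lit 152) (nat_lit 11425879212) (nat_lit 76) (nat_lit 29463784015) (nat_lit 34) (nat_lit 5) (nat_lit 36) (nat_lit 5) (nat_lit 35) (nat_lit 5) (nat_lit 421) (nat_lit 320) (nat_lit 159)) (XT.lf (nat_lit 0) (nat_lit 8590960743) (nat_lit 152) (nat_lit 9912490859) (nat_lit 228) (nat_lit 32920107700) (nat_lit 32) (nat_lit 5) (nat_lit 34) (nat_lit 5) (nat_lit 35) (nat_lit 5) (nat_lit 422) (nat_lit 320) (nat_lit 158)))) (XT.nd (nat_lit 156) (nat_lit 152) (nat_lit 0) (XT.nd (nat_lit 78) (nat_lit 0) (nat_lit 0) (XT.lf (nat_lit 0) (nat_lit 28039525600) (nat_lit 228) (nat_lit 23205241148) (nat_lit 76) (nat_lit 1379128448) (nat_lit 32) (nat_lit 5) (nat_lit 35) (nat_lit 5) (nat_lit 33) (nat_lit 4) (nat_lit 423) (nat_lit 320) (nat_lit 157)) (XT.lf (nat_lit 0) (nat_lit 37954439537) (nat_lit 228)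 (nat_lit 3096981517) (nat_lit 76) (nat_lit 12806038491) (nat_lit 32) (nat_lit 5) (nat_lit 35) (nat_lit 5) (nat_lit 33) (nat_lit 4) (nat_lit 424) (nat_lit 320) (nat_lit 156))) (XT.nd (nat_lit 78) (nat_lit 76) (nat_lit 0) (XT.lf (nat_lit 0) (nat_lit 17955410312) (nat_lit 76) (nat_lit 30378760079) (nat_lit 152) (nat_lit 6788840425) (nat_lit 31) (nat_lit 5) (nat_lit 32) (nat_lit 5) (nat_lit 33) (nat_lit 4) (nat_lit 425) (nat_lit 320) (nat_lit 155)) (XT.lf (nat_lit 0) (nat_lit 2574417262) (nat_lit 152) (nat_lit 16757524155) (nat_lit 76) (nat_lit 37093047874) (nat_lit 30) (nat_lit 5) (nat_lit 32) (nat_lit 5) (nat_lit 31) (nat_lit 5) (nat_lit 426) (nat_lit 320) (nat_lit 154)))))) (XT.nd (nat_lit 546) (nat_lit 228) (nat_lit 0) (XT.nd (nat_lit 234) (nat_lit 304) (nat_lit 0) (XT.nd (nat_lit 78) (nat_lit 0) (nat_lit 0) (XT.lf (nat_lit 0) (nat_lit 4271770470) (nat_lit 152) (nat_lit 7846349018) (nat_lit 228) (nat_lit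 45644812259) (nat_lit 28) (nat_lit 5) (nat_lit 30) (nat_lit 5) (nat_lit 31) (nat_lit 5) (nat_lit 427) (nat_lit 320) (nat_lit 153)) (XT.nd (nat_lit 78) (nat_lit 0) (nat_lit 0) (XT.lf (nat_lit 0) (nat_lit 22152274179) (nat_lit 228) (nat_lit 32909695893) (nat_lit 76) (nat_lit 4072919119) (nat_lit 28) (nat_lit 5) (nat_lit 31) (nat_lit 5) (nat_lit 29) (nat_lit 4) (nat_lit 428) (nat_lit 320) (nat_lit 152)) (XT.lf (nat_lit 0) (nat_lit 32560240139) (nat_lit 228) (nat_lit 11797450310) (nat_lit 76) (nat_lit 16188132240) (nat_lit 28) (nat_lit 5) (nat_lit 31) (nat_lit 5) (nat_lit 29) (nat_lit 4) (nat_lit 429) (nat_lit 320) (nat_lit 151)))) (XT.nd (nat_lit 156) (nat_lit 228) (nat_lit 0) (XT.nd (nat_lit 78) (nat_lit 0) (nat_lit 0) (XT.lf (nat_lit 0) (nat_lit 10137261454) (nat_lit 76) (nat_lit 33235871903) (nat_lit 152) (nat_lit 18623171086) (nat_lit 27) (nat_lit 5) (nat_lit 28) (nat_lit 5) (nat_lit 29) (nat_lit 4) (nat_lit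 430) (nat_lit 320) (nat_lit 150)) (XT.lf (nat_lit 0) (nat_lit 32963220516) (nat_lit 76) (nat_lit 21661622299) (nat_lit 152) (nat_lit 8862025829) (nat_lit 27) (nat_lit 5) (nat_lit 28) (nat_lit 5) (nat_lit 29) (nat_lit 4) (nat_lit 431) (nat_lit 320) (nat_lit 149))) (XT.nd (nat_lit 78) (nat_lit 152) (nat_lit 0) (XT.lf (nat_lit 0) (nat_lit 1164083711) (nat_lit 152) (nat_lit 8568120655) (nat_lit 76) (nat_lit 55289740819) (nat_lit 26) (nat_lit 5) (nat_lit 28) (nat_lit 5) (nat_lit 27) (nat_lit 5) (nat_lit 432) (nat_lit 320) (nat_lit 148)) (XT.lf (nat_lit 0) (nat_lit 11471895836) (nat_lit 228) (nat_lit 52395482281) (nat_lit 76) (nat_lit 2728293303) (nat_lit 24) (nat_lit 5) (nat_lit 27) (nat_lit 5) (nat_lit 25) (nat_lit 4) (nat_lit 433) (nat_lit 320) (nat_lit 147))))) (XT.nd (nat_lit 234) (nat_lit 152) (nat_lit 0) (XT.nd (nat_lit 78) (nat_lit 76) (nat_lit 0) (XT.lf (nat_lit 0) (nat_lit 22268218521) (nat_lit 228)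 (nat_lit 30492284431) (nat_lit 76) (nat_lit 15450728984) (nat_lit 24) (nat_lit 5) (nat_lit 27) (nat_lit 5) (nat_lit 25) (nat_lit 4) (nat_lit 434) (nat_lit 320) (nat_lit 146)) (XT.nd (nat_lit 78) (nat_lit 76) (nat_lit 0) (XT.lf (nat_lit 0) (nat_lit 33384100667) (nat_lit 228) (nat_lit 7939992413) (nat_lit 76) (nat_lit 28551296848) (nat_lit 24) (nat_lit 5) (nat_lit 27) (nat_lit 5) (nat_lit 25) (nat_lit 4) (nat_lit 435) (nat_lit 320) (nat_lit 145)) (XT.lf (nat_lit 0) (nat_lit 15585223502) (nat_lit 76) (nat_lit 29393846380) (nat_lit 152) (nat_lit 26606035193) (nat_lit 23) (nat_lit 5) (nat_lit 24) (nat_lit 5) (nat_lit 25) (nat_lit 4) (nat_lit 436) (nat_lit 320) (nat_lit 144)))) (XT.nd (nat_lit 156) (nat_lit 152) (nat_lit 0) (XT.nd (nat_lit 78) (nat_lit 0) (nat_lit 0) (XT.lf (nat_lit 0) (nat_lit 39971265413) (nat_lit 76) (nat_lit 17026645523) (nat_lit 152) (nat_lit 16345920770) (nat_lit 23) (nat_lit 5) (nat_lit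 24) (nat_lit 5) (nat_lit 25) (nat_lit 4) (nat_lit 437) (nat_lit 320) (nat_lit 143)) (XT.lf (nat_lit 0) (nat_lit 65081420091) (nat_lit 76) (nat_lit 4291862572) (nat_lit 152) (nat_lit 5782159199) (nat_lit 23) (nat_lit 5) (nat_lit 24) (nat_lit 5) (nat_lit 25) (nat_lit 4) (nat_lit 438) (nat_lit 320) (nat_lit 142))) (XT.nd (nat_lit 78) (nat_lit 0) (nat_lit 0) (XT.lf (nat_lit 0) (nat_lit 5217650507) (nat_lit 152) (nat_lit 62959478695) (nat_lit 76) (nat_lit 8836242701) (nat_lit 21) (nat_lit 5) (nat_lit 23) (nat_lit 5) (nat_lit 22) (nat_lit 4) (nat_lit 439) (nat_lit 320) (nat_lit 141)) (XT.lf (nat_lit 0) (nat_lit 16572524394) (nat_lit 152) (nat_lit 39919929070) (nat_lit 76) (nat_lit 22428630974) (nat_lit 21) (nat_lit 5) (nat_lit 23) (nat_lit 5) (nat_lit 22) (nat_lit 4) (nat_lit 440) (nat_lit 320) (nat_lit 140))))))))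
noncomputable def xc158 : XT := (XT.nd (nat_lit 39390) (nat_lit 0) (nat_lit 6536) (XT.nd (nat_lit 38376) (nat_lit 0) (nat_lit 13452) (XT.nd (nat_lit 37830) (nat_lit 0) (nat_lit 17100) (XT.nd (nat_lit 37596) (nat_lit 0) (nat_lit 17936) (XT.nd (nat_lit 78) (nat_lit 76) (nat_lit 0) (XT.lf (nat_lit 0) (nat_lit 28264216149) (nat_lit 152) (nat_lit 16196323318) (nat_lit 76) (nat_lit 36425604348) (nat_lit 21) (nat_lit 5) (nat_lit 23) (nat_lit 5) (nat_lit 22) (nat_lit 4) (nat_lit 441) (nat_lit 320) (nat_lit 139)) (XT.nd (nat_lit 37440) (nat_lit 0) (nat_lit 18924) (XT.lf (nat_lit 0) (nat_lit 8395902218) (nat_lit 76) (nat_lit 31987746142) (nat_lit 152) (nat_lit 42524197515) (nat_lit 20) (nat_lit 5) (nat_lit 21) (nat_lit 5) (nat_lit 22) (nat_lit 4) (nat_lit 442) (nat_lit 320) (nat_lit 138)) (XT.lf (nat_lit 0) (nat_lit 3413721778) (nat_lit 988) (nat_lit 377818550) (nat_lit 988) (nat_lit 377818550) (nat_lit 269) (nat_lit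 3) (nat_lit 282) (nat_lit 3) (nat_lit 282) (nat_lit 5) (nat_lit 321) (nat_lit 321) (nat_lit 258)))) (XT.nd (nat_lit 78) (nat_lit 988) (nat_lit 0) (XT.lf (nat_lit 76) (nat_lit 3242569517) (nat_lit 0) (nat_lit 4759842930) (nat_lit 988) (nat_lit 428279644) (nat_lit 270) (nat_lit 5) (nat_lit 269) (nat_lit 3) (nat_lit 282) (nat_lit 5) (nat_lit 322) (nat_lit 321) (nat_lit 257)) (XT.nd (nat_lit 78) (nat_lit 0) (nat_lit 76) (XT.lf (nat_lit 0) (nat_lit 640213072) (nat_lit 988) (nat_lit 1177888831) (nat_lit 1064) (nat_lit 6708168256) (nat_lit 256) (nat_lit 5) (nat_lit 269) (nat_lit 3) (nat_lit 270) (nat_lit 5) (nat_lit 323) (nat_lit 321) (nat_lit 256)) (XT.lf (nat_lit 0) (nat_lit 1732915215) (nat_lit 988) (nat_lit 5652032033) (nat_lit 1064) (nat_lit 1239652432) (nat_lit 257) (nat_lit 5) (nat_lit 270) (nat_lit 5) (nat_lit 271) (nat_lit 5) (nat_lit 324) (nat_lit 321) (nat_lit 255))))) (XT.nd (nat_lit 234) (nat_lit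 912) (nat_lit 0) (XT.nd (nat_lit 78) (nat_lit 0) (nat_lit 0) (XT.lf (nat_lit 0) (nat_lit 2849459161) (nat_lit 988) (nat_lit 1494699325) (nat_lit 1064) (nat_lit 4382021984) (nat_lit 257) (nat_lit 5) (nat_lit 270) (nat_lit 5) (nat_lit 271) (nat_lit 5) (nat_lit 325) (nat_lit 321) (nat_lit 254)) (XT.nd (nat_lit 78) (nat_lit 0) (nat_lit 76) (XT.lf (nat_lit 76) (nat_lit 2820308436) (nat_lit 0) (nat_lit 1168483651) (nat_lit 1064) (nat_lit 4842370055) (nat_lit 258) (nat_lit 5) (nat_lit 257) (nat_lit 5) (nat_lit 271) (nat_lit 5) (nat_lit 326) (nat_lit 321) (nat_lit 253)) (XT.lf (nat_lit 0) (nat_lit 5160976385) (nat_lit 988) (nat_lit 1686940479) (nat_lit 1064) (nat_lit 2091447557) (nat_lit 258) (nat_lit 5) (nat_lit 271) (nat_lit 5) (nat_lit 272) (nat_lit 5) (nat_lit 327) (nat_lit 321) (nat_lit 252)))) (XT.nd (nat_lit 156) (nat_lit 988) (nat_lit 0) (XT.nd (nat_lit 78) (nat_lit 0) (nat_lit 0) (XT.lf (nat_lit 76) (nat_lit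 2787033502) (nat_lit 0) (nat_lit 3583942104) (nat_lit 1064) (nat_lit 2679788068) (nat_lit 259) (nat_lit 5) (nat_lit 258) (nat_lit 5) (nat_lit 272) (nat_lit 5) (nat_lit 328) (nat_lit 321) (nat_lit 251)) (XT.lf (nat_lit 76) (nat_lit 7407555089) (nat_lit 0) (nat_lit 191870291) (nat_lit 1064) (nat_lit 1566644510) (nat_lit 259) (nat_lit 5) (nat_lit 258) (nat_lit 5) (nat_lit 272) (nat_lit 5) (nat_lit 329) (nat_lit 321) (nat_lit 250))) (XT.nd (nat_lit 78) (nat_lit 1064) (nat_lit 0) (XT.lf (nat_lit 76) (nat_lit 2883619646) (nat_lit 0) (nat_lit 6006818334) (nat_lit 1064) (nat_lit 393654677) (nat_lit 260) (nat_lit 5) (nat_lit 259) (nat_lit 5) (nat_lit 273) (nat_lit 5) (nat_lit 330) (nat_lit 321) (nat_lit 249)) (XT.lf (nat_lit 0) (nat_lit 785125807) (nat_lit 1064) (nat_lit 1737196635) (nat_lit 1140) (nat_lit 6883530913) (nat_lit 245) (nat_lit 5) (nat_lit 259) (nat_lit 5) (nat_lit 260) (nat_lit 5) (nat_lit 331) (nat_lit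 321) (nat_lit 248)))))) (XT.nd (nat_lit 468) (nat_lit 3724) (nat_lit 0) (XT.nd (nat_lit 234) (nat_lit 0) (nat_lit 76) (XT.nd (nat_lit 78) (nat_lit 0) (nat_lit 0) (XT.lf (nat_lit 0) (nat_lit 1999471864) (nat_lit 1064) (nat_lit 6441919295) (nat_lit 1140) (nat_lit 1089541574) (nat_lit 246) (nat_lit 5) (nat_lit 260) (nat_lit 5) (nat_lit 261) (nat_lit 5) (nat_lit 332) (nat_lit 321) (nat_lit 247)) (XT.nd (nat_lit 78) (nat_lit 0) (nat_lit 0) (XT.lf (nat_lit 0) (nat_lit 3261388395) (nat_lit 1064) (nat_lit 1612164904) (nat_lit 1140) (nat_lit 4785902440) (nat_lit 246) (nat_lit 5) (nat_lit 260) (nat_lit 5) (nat_lit 261) (nat_lit 5) (nat_lit 333) (nat_lit 321) (nat_lit 246)) (XT.lf (nat_lit 76) (nat_lit 3406231373) (nat_lit 0) (nat_lit 1157043379) (nat_lit 1140) (nat_lit 5228521021) (nat_lit 247) (nat_lit 5) (nat_lit 246) (nat_lit 5) (nat_lit 261) (nat_lit 5) (nat_lit 334) (nat_lit 321) (nat_lit 245)))) (XT.nd (nat_lit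 78) (nat_lit 0) (nat_lit 0) (XT.lf (nat_lit 0) (nat_lit 5916450661) (nat_lit 1064) (nat_lit 1368716562) (nat_lit 1140) (nat_lit 2642595783) (nat_lit 247) (nat_lit 5) (nat_lit 261) (nat_lit 5) (nat_lit 262) (nat_lit 5) (nat_lit 335) (nat_lit 321) (nat_lit 244)) (XT.nd (nat_lit 78) (nat_lit 0) (nat_lit 76) (XT.lf (nat_lit 76) (nat_lit 3839293276) (nat_lit 0) (nat_lit 3490277610) (nat_lit 1140) (nat_lit 2737681191) (nat_lit 248) (nat_lit 5) (nat_lit 247) (nat_lit 5) (nat_lit 262) (nat_lit 5) (nat_lit 336) (nat_lit 321) (nat_lit 243)) (XT.lf (nat_lit 0) (nat_lit 8774736645) (nat_lit 1064) (nat_lit 1006582078) (nat_lit 76) (nat_lit 429940148) (nat_lit 248) (nat_lit 5) (nat_lit 262) (nat_lit 5) (nat_lit 249) (nat_lit 5) (nat_lit 337) (nat_lit 321) (nat_lit 242))))) (XT.nd (nat_lit 234) (nat_lit 1596) (nat_lit 0) (XT.nd (nat_lit 78) (nat_lit 1216) (nat_lit 0) (XT.lf (nat_lit 0) (nat_lit 4399909314) (nat_lit 1064)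 (nat_lit 5912696244) (nat_lit 1140) (nat_lit 45521819) (nat_lit 234) (nat_lit 5) (nat_lit 248) (nat_lit 5) (nat_lit 249) (nat_lit 5) (nat_lit 338) (nat_lit 321) (nat_lit 241)) (XT.nd (nat_lit 78) (nat_lit 1140) (nat_lit 0) (XT.lf (nat_lit 0) (nat_lit 1343197030) (nat_lit 1140) (nat_lit 556468824) (nat_lit 76) (nat_lit 8609865000) (nat_lit 233) (nat_lit 5) (nat_lit 248) (nat_lit 5) (nat_lit 234) (nat_lit 5) (nat_lit 339) (nat_lit 321) (nat_lit 240)) (XT.lf (nat_lit 0) (nat_lit 2817112480) (nat_lit 1216) (nat_lit 5603217490) (nat_lit 76) (nat_lit 2243819534) (nat_lit 218) (nat_lit 5) (nat_lit 234) (nat_lit 5) (nat_lit 219) (nat_lit 5) (nat_lit 340) (nat_lit 321) (nat_lit 239)))) (XT.nd (nat_lit 156) (nat_lit 608) (nat_lit 0) (XT.nd (nat_lit 78) (nat_lit 988) (nat_lit 0) (XT.lf (nat_lit 0) (nat_lit 4333903799) (nat_lit 1216) (nat_lit 6940833) (nat_lit 76) (nat_lit 6482621834) (nat_lit 218) (nat_lit 5) (nat_lit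 234) (nat_lit 5) (nat_lit 219) (nat_lit 5) (nat_lit 341) (nat_lit 321) (nat_lit 238)) (XT.lf (nat_lit 0) (nat_lit 5848930214) (nat_lit 988) (nat_lit 78419276) (nat_lit 1064) (nat_lit 5059297865) (nat_lit 205) (nat_lit 5) (nat_lit 218) (nat_lit 5) (nat_lit 219) (nat_lit 5) (nat_lit 342) (nat_lit 321) (nat_lit 237))) (XT.nd (nat_lit 78) (nat_lit 0) (nat_lit 0) (XT.lf (nat_lit 0) (nat_lit 674628051) (nat_lit 608) (nat_lit 6917441153) (nat_lit 684) (nat_lit 3561968731) (nat_lit 197) (nat_lit 5) (nat_lit 205) (nat_lit 5) (nat_lit 206) (nat_lit 5) (nat_lit 343) (nat_lit 321) (nat_lit 236)) (XT.lf (nat_lit 0) (nat_lit 6743109866) (nat_lit 608) (nat_lit 2592232629) (nat_lit 684) (nat_lit 1990267229) (nat_lit 197) (nat_lit 5) (nat_lit 205) (nat_lit 5) (nat_lit 206) (nat_lit 5) (nat_lit 344) (nat_lit 321) (nat_lit 235))))))) (XT.nd (nat_lit 1014) (nat_lit 3192) (nat_lit 0) (XT.nd (nat_lit 468) (nat_lit 1976) (nat_lit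 0) (XT.nd (nat_lit 234) (nat_lit 532) (nat_lit 0) (XT.nd (nat_lit 78) (nat_lit 684) (nat_lit 0) (XT.lf (nat_lit 0) (nat_lit 1479454751) (nat_lit 532) (nat_lit 9660260729) (nat_lit 608) (nat_lit 362366470) (nat_lit 190) (nat_lit 5) (nat_lit 197) (nat_lit 5) (nat_lit 198) (nat_lit 5) (nat_lit 345) (nat_lit 321) (nat_lit 234)) (XT.nd (nat_lit 78) (nat_lit 608) (nat_lit 0) (XT.lf (nat_lit 0) (nat_lit 1338014885) (nat_lit 608) (nat_lit 3927092628) (nat_lit 76) (nat_lit 6416899378) (nat_lit 189) (nat_lit 5) (nat_lit 197) (nat_lit 5) (nat_lit 190) (nat_lit 5) (nat_lit 346) (nat_lit 321) (nat_lit 233)) (XT.lf (nat_lit 0) (nat_lit 2371591796) (nat_lit 608) (nat_lit 710896470) (nat_lit 684) (nat_lit 8784738626) (nat_lit 181) (nat_lit 5) (nat_lit 189) (nat_lit 5) (nat_lit 190) (nat_lit 5) (nat_lit 347) (nat_lit 321) (nat_lit 232)))) (XT.nd (nat_lit 78) (nat_lit 532) (nat_lit 0) (XT.lf (nat_lit 0) (nat_lit 4935606908)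 (nat_lit 684) (nat_lit 3178586126) (nat_lit 76) (nat_lit 3942136524) (nat_lit 181) (nat_lit 5) (nat_lit 190) (nat_lit 5) (nat_lit 182) (nat_lit 5) (nat_lit 348) (nat_lit 321) (nat_lit 231)) (XT.nd (nat_lit 78) (nat_lit 0) (nat_lit 0) (XT.lf (nat_lit 0) (nat_lit 3364392634) (nat_lit 532) (nat_lit 3497951152) (nat_lit 608) (nat_lit 5388235726) (nat_lit 174) (nat_lit 5) (nat_lit 181) (nat_lit 5) (nat_lit 182) (nat_lit 5) (nat_lit 349) (nat_lit 321) (nat_lit 230)) (XT.lf (nat_lit 0) (nat_lit 8870425261) (nat_lit 608) (nat_lit 2315883920) (nat_lit 76) (nat_lit 1263656022) (nat_lit 174) (nat_lit 5) (nat_lit 182) (nat_lit 5) (nat_lit 175) (nat_lit 5) (nat_lit 350) (nat_lit 321) (nat_lit 229))))) (XT.nd (nat_lit 234) (nat_lit 912) (nat_lit 0) (XT.nd (nat_lit 78) (nat_lit 532) (nat_lit 0) (XT.lf (nat_lit 0) (nat_lit 4482411660) (nat_lit 532) (nat_lit 6513714972) (nat_lit 608) (nat_lit 1657498600) (nat_lit 167)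 (nat_lit 5) (nat_lit 174) (nat_lit 5) (nat_lit 175) (nat_lit 5) (nat_lit 351) (nat_lit 321) (nat_lit 228)) (XT.nd (nat_lit 78) (nat_lit 456) (nat_lit 0) (XT.lf (nat_lit 0) (nat_lit 319363193) (nat_lit 608) (nat_lit 1356043587) (nat_lit 76) (nat_lit 11187805251) (nat_lit 166) (nat_lit 5) (nat_lit 174) (nat_lit 5) (nat_lit 167) (nat_lit 5) (nat_lit 352) (nat_lit 321) (nat_lit 227)) (XT.lf (nat_lit 0) (nat_lit 2390276066) (nat_lit 532) (nat_lit 7372402225) (nat_lit 76) (nat_lit 3313886931) (nat_lit 160) (nat_lit 5) (nat_lit 167) (nat_lit 5) (nat_lit 161) (nat_lit 5) (nat_lit 353) (nat_lit 321) (nat_lit 226)))) (XT.nd (nat_lit 156) (nat_lit 456) (nat_lit 0) (XT.nd (nat_lit 78) (nat_lit 456) (nat_lit 0) (XT.lf (nat_lit 0) (nat_lit 4534495837) (nat_lit 532) (nat_lit 330522496) (nat_lit 76) (nat_lit 8430977810) (nat_lit 160) (nat_lit 5) (nat_lit 167) (nat_lit 5) (nat_lit 161) (nat_lit 5) (nat_lit 354) (nat_lit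 321) (nat_lit 225)) (XT.lf (nat_lit 0) (nat_lit 6794397087) (nat_lit 532) (nat_lit 6484186504) (nat_lit 76) (nat_lit 241897909) (nat_lit 154) (nat_lit 5) (nat_lit 161) (nat_lit 5) (nat_lit 155) (nat_lit 5) (nat_lit 355) (nat_lit 321) (nat_lit 224))) (XT.nd (nat_lit 78) (nat_lit 0) (nat_lit 0) (XT.lf (nat_lit 0) (nat_lit 825645879) (nat_lit 456) (nat_lit 8337564122) (nat_lit 532) (nat_lit 4587269778) (nat_lit 148) (nat_lit 5) (nat_lit 154) (nat_lit 5) (nat_lit 155) (nat_lit 5) (nat_lit 356) (nat_lit 321) (nat_lit 223)) (XT.lf (nat_lit 0) (nat_lit 8466349009) (nat_lit 456) (nat_lit 3184184327) (nat_lit 532) (nat_lit 2335432746) (nat_lit 148) (nat_lit 5) (nat_lit 154) (nat_lit 5) (nat_lit 155) (nat_lit 5) (nat_lit 357) (nat_lit 321) (nat_lit 222)))))) (XT.nd (nat_lit 546) (nat_lit 1444) (nat_lit 0) (XT.nd (nat_lit 234) (nat_lit 836) (nat_lit 0) (XT.nd (nat_lit 78) (nat_lit 380) (nat_lit 0) (XT.lf (nat_lit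 0) (nat_lit 7624541) (nat_lit 532) (nat_lit 12120675527) (nat_lit 76) (nat_lit 2099531767) (nat_lit 141) (nat_lit 5) (nat_lit 148) (nat_lit 5) (nat_lit 142) (nat_lit 5) (nat_lit 358) (nat_lit 321) (nat_lit 221)) (XT.nd (nat_lit 78) (nat_lit 380) (nat_lit 0) (XT.lf (nat_lit 0) (nat_lit 2444439723) (nat_lit 532) (nat_lit 4475979630) (nat_lit 76) (nat_lit 7553738819) (nat_lit 141) (nat_lit 5) (nat_lit 148) (nat_lit 5) (nat_lit 142) (nat_lit 5) (nat_lit 359) (nat_lit 321) (nat_lit 220)) (XT.lf (nat_lit 0) (nat_lit 3444518423) (nat_lit 380) (nat_lit 1526049152) (nat_lit 456) (nat_lit 9756830657) (nat_lit 136) (nat_lit 5) (nat_lit 141) (nat_lit 5) (nat_lit 142) (nat_lit 5) (nat_lit 360) (nat_lit 321) (nat_lit 219)))) (XT.nd (nat_lit 156) (nat_lit 456) (nat_lit 0) (XT.nd (nat_lit 78) (nat_lit 380) (nat_lit 0) (XT.lf (nat_lit 0) (nat_lit 7640219946) (nat_lit 456) (nat_lit 3352703155) (nat_lit 76) (nat_lit 3993290052)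 (nat_lit 136) (nat_lit 5) (nat_lit 142) (nat_lit 5) (nat_lit 137) (nat_lit 5) (nat_lit 361) (nat_lit 321) (nat_lit 218)) (XT.lf (nat_lit 0) (nat_lit 4874989820) (nat_lit 380) (nat_lit 5560781945) (nat_lit 456) (nat_lit 4815656058) (nat_lit 131) (nat_lit 5) (nat_lit 136) (nat_lit 5) (nat_lit 137) (nat_lit 5) (nat_lit 362) (nat_lit 321) (nat_lit 217))) (XT.nd (nat_lit 78) (nat_lit 456) (nat_lit 0) (XT.lf (nat_lit 0) (nat_lit 13333784996) (nat_lit 456) (nat_lit 2126660088) (nat_lit 76) (nat_lit 63605318) (nat_lit 131) (nat_lit 5) (nat_lit 137) (nat_lit 5) (nat_lit 132) (nat_lit 5) (nat_lit 363) (nat_lit 321) (nat_lit 216)) (XT.lf (nat_lit 0) (nat_lit 606169152) (nat_lit 456) (nat_lit 9386968166) (nat_lit 76) (nat_lit 5808505629) (nat_lit 125) (nat_lit 5) (nat_lit 131) (nat_lit 5) (nat_lit 126) (nat_lit 5) (nat_lit 364) (nat_lit 321) (nat_lit 215))))) (XT.nd (nat_lit 234) (nat_lit 760) (nat_lit 0) (XT.nd (nat_lit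 78) (nat_lit 684) (nat_lit 0) (XT.lf (nat_lit 0) (nat_lit 3448800527) (nat_lit 456) (nat_lit 873141838) (nat_lit 76) (nat_lit 11764789075) (nat_lit 125) (nat_lit 5) (nat_lit 131) (nat_lit 5) (nat_lit 126) (nat_lit 5) (nat_lit 365) (nat_lit 321) (nat_lit 214)) (XT.nd (nat_lit 78) (nat_lit 304) (nat_lit 0) (XT.lf (nat_lit 0) (nat_lit 6454342255) (nat_lit 456) (nat_lit 8360560348) (nat_lit 76) (nat_lit 1563149321) (nat_lit 120) (nat_lit 5) (nat_lit 126) (nat_lit 5) (nat_lit 121) (nat_lit 5) (nat_lit 366) (nat_lit 321) (nat_lit 213)) (XT.lf (nat_lit 0) (nat_lit 461224612) (nat_lit 304) (nat_lit 9130243293) (nat_lit 380) (nat_lit 7085409620) (nat_lit 116) (nat_lit 5) (nat_lit 120) (nat_lit 5) (nat_lit 121) (nat_lit 5) (nat_lit 367) (nat_lit 321) (nat_lit 212)))) (XT.nd (nat_lit 156) (nat_lit 380) (nat_lit 0) (XT.nd (nat_lit 78) (nat_lit 380) (nat_lit 0) (XT.lf (nat_lit 0) (nat_lit 9699448680) (nat_lit 304)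 (nat_lit 3193212297) (nat_lit 380) (nat_lit 4089916111) (nat_lit 116) (nat_lit 5) (nat_lit 120) (nat_lit 5) (nat_lit 121) (nat_lit 5) (nat_lit 368) (nat_lit 321) (nat_lit 211)) (XT.lf (nat_lit 0) (nat_lit 1907090498) (nat_lit 380) (nat_lit 14418120885) (nat_lit 456) (nat_lit 971274183) (nat_lit 111) (nat_lit 5) (nat_lit 116) (nat_lit 5) (nat_lit 117) (nat_lit 5) (nat_lit 369) (nat_lit 321) (nat_lit 210))) (XT.nd (nat_lit 78) (nat_lit 304) (nat_lit 0) (XT.lf (nat_lit 0) (nat_lit 2289071272) (nat_lit 456) (nat_lit 6168681255) (nat_lit 76) (nat_lit 9158663491) (nat_lit 110) (nat_lit 5) (nat_lit 116) (nat_lit 5) (nat_lit 111) (nat_lit 5) (nat_lit 370) (nat_lit 321) (nat_lit 209)) (XT.lf (nat_lit 0) (nat_lit 3365779980) (nat_lit 304) (nat_lit 2280671024) (nat_lit 380) (nat_lit 12298649447) (nat_lit 106) (nat_lit 5) (nat_lit 110) (nat_lit 5) (nat_lit 111) (nat_lit 5) (nat_lit 371) (nat_lit 321) (nat_lit 208))))))))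
noncomputable def xc159 : XT := (XT.nd (nat_lit 2028) (nat_lit 2052) (nat_lit 0) (XT.nd (nat_lit 1014) (nat_lit 1520) (nat_lit 0) (XT.nd (nat_lit 468) (nat_lit 1064) (nat_lit 0) (XT.nd (nat_lit 234) (nat_lit 684) (nat_lit 0) (XT.nd (nat_lit 78) (nat_lit 304) (nat_lit 0) (XT.lf (nat_lit 0) (nat_lit 9193252724) (nat_lit 380) (nat_lit 5028009720) (nat_lit 76) (nat_lit 4059728686) (nat_lit 106) (nat_lit 5) (nat_lit 111) (nat_lit 5) (nat_lit 107) (nat_lit 5) (nat_lit 372) (nat_lit 321) (nat_lit 207)) (XT.nd (nat_lit 78) (nat_lit 0) (nat_lit 0) (XT.lf (nat_lit 0) (nat_lit 4863615375) (nat_lit 304) (nat_lit 8039123876) (nat_lit 380) (nat_lit 5722537387) (nat_lit 102) (nat_lit 5) (nat_lit 106) (nat_lit 5) (nat_lit 107) (nat_lit 5) (nat_lit 373) (nat_lit 321) (nat_lit 206)) (XT.lf (nat_lit 0) (nat_lit 15136689632) (nat_lit 304) (nat_lit 1624745180) (nat_lit 380) (nat_lit 2217324511) (nat_lit 102) (nat_lit 5) (nat_lit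 106) (nat_lit 5) (nat_lit 107) (nat_lit 5) (nat_lit 374) (nat_lit 321) (nat_lit 205)))) (XT.nd (nat_lit 78) (nat_lit 304) (nat_lit 0) (XT.lf (nat_lit 0) (nat_lit 1464036206) (nat_lit 380) (nat_lit 12919670551) (nat_lit 76) (nat_lit 4955798743) (nat_lit 97) (nat_lit 5) (nat_lit 102) (nat_lit 5) (nat_lit 98) (nat_lit 5) (nat_lit 375) (nat_lit 321) (nat_lit 204)) (XT.nd (nat_lit 78) (nat_lit 304) (nat_lit 0) (XT.lf (nat_lit 0) (nat_lit 5254077889) (nat_lit 380) (nat_lit 2698217650) (nat_lit 76) (nat_lit 11756841532) (nat_lit 97) (nat_lit 5) (nat_lit 102) (nat_lit 5) (nat_lit 98) (nat_lit 5) (nat_lit 376) (nat_lit 321) (nat_lit 203)) (XT.lf (nat_lit 0) (nat_lit 7967649114) (nat_lit 304) (nat_lit 1254662676) (nat_lit 380) (nat_lit 10865616707) (nat_lit 93) (nat_lit 5) (nat_lit 97) (nat_lit 5) (nat_lit 98) (nat_lit 5) (nat_lit 377) (nat_lit 321) (nat_lit 202))))) (XT.nd (nat_lit 234) (nat_lit 760) (nat_lit 0)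 (XT.nd (nat_lit 78) (nat_lit 304) (nat_lit 0) (XT.lf (nat_lit 0) (nat_lit 13379392690) (nat_lit 380) (nat_lit 1540828518) (nat_lit 76) (nat_lit 5555773929) (nat_lit 93) (nat_lit 5) (nat_lit 98) (nat_lit 5) (nat_lit 94) (nat_lit 5) (nat_lit 378) (nat_lit 321) (nat_lit 201)) (XT.nd (nat_lit 78) (nat_lit 76) (nat_lit 0) (XT.lf (nat_lit 0) (nat_lit 9511871457) (nat_lit 228) (nat_lit 8241550398) (nat_lit 304) (nat_lit 3119520160) (nat_lit 90) (nat_lit 5) (nat_lit 93) (nat_lit 5) (nat_lit 94) (nat_lit 5) (nat_lit 379) (nat_lit 321) (nat_lit 200)) (XT.lf (nat_lit 0) (nat_lit 961960344) (nat_lit 304) (nat_lit 380525214) (nat_lit 76) (nat_lit 19938910597) (nat_lit 89) (nat_lit 5) (nat_lit 93) (nat_lit 5) (nat_lit 90) (nat_lit 5) (nat_lit 380) (nat_lit 321) (nat_lit 199)))) (XT.nd (nat_lit 156) (nat_lit 228) (nat_lit 0) (XT.nd (nat_lit 78) (nat_lit 228) (nat_lit 0) (XT.lf (nat_lit 0) (nat_lit 5255351075) (nat_lit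 380) (nat_lit 10656794152) (nat_lit 76) (nat_lit 5784472010) (nat_lit 85) (nat_lit 5) (nat_lit 90) (nat_lit 5) (nat_lit 86) (nat_lit 5) (nat_lit 381) (nat_lit 321) (nat_lit 198)) (XT.lf (nat_lit 0) (nat_lit 669131229) (nat_lit 228) (nat_lit 9020900485) (nat_lit 304) (nat_lit 12433893312) (nat_lit 82) (nat_lit 5) (nat_lit 85) (nat_lit 5) (nat_lit 86) (nat_lit 5) (nat_lit 382) (nat_lit 321) (nat_lit 197))) (XT.nd (nat_lit 78) (nat_lit 228) (nat_lit 0) (XT.lf (nat_lit 0) (nat_lit 12536456352) (nat_lit 228) (nat_lit 1817954676) (nat_lit 304) (nat_lit 8206745856) (nat_lit 82) (nat_lit 5) (nat_lit 85) (nat_lit 5) (nat_lit 86) (nat_lit 5) (nat_lit 383) (nat_lit 321) (nat_lit 196)) (XT.lf (nat_lit 0) (nat_lit 1711236656) (nat_lit 228) (nat_lit 17507085264) (nat_lit 304) (nat_lit 3791400221) (nat_lit 79) (nat_lit 5) (nat_lit 82) (nat_lit 5) (nat_lit 83) (nat_lit 5) (nat_lit 384) (nat_lit 321) (nat_lit 195))))))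 (XT.nd (nat_lit 468) (nat_lit 684) (nat_lit 0) (XT.nd (nat_lit 234) (nat_lit 532) (nat_lit 0) (XT.nd (nat_lit 78) (nat_lit 228) (nat_lit 0) (XT.lf (nat_lit 0) (nat_lit 851231669) (nat_lit 304) (nat_lit 9506895308) (nat_lit 76) (nat_lit 13110115858) (nat_lit 78) (nat_lit 5) (nat_lit 82) (nat_lit 5) (nat_lit 79) (nat_lit 5) (nat_lit 385) (nat_lit 321) (nat_lit 194)) (XT.nd (nat_lit 78) (nat_lit 0) (nat_lit 0) (XT.lf (nat_lit 0) (nat_lit 2636166935) (nat_lit 228) (nat_lit 2935777148) (nat_lit 304) (nat_lit 18367002832) (nat_lit 75) (nat_lit 5) (nat_lit 78) (nat_lit 5) (nat_lit 79) (nat_lit 5) (nat_lit 386) (nat_lit 321) (nat_lit 193)) (XT.lf (nat_lit 0) (nat_lit 10566253005) (nat_lit 304) (nat_lit 9144980719) (nat_lit 76) (nat_lit 4708583093) (nat_lit 75) (nat_lit 5) (nat_lit 79) (nat_lit 5) (nat_lit 76) (nat_lit 5) (nat_lit 387) (nat_lit 321) (nat_lit 192)))) (XT.nd (nat_lit 78) (nat_lit 304) (nat_lit 0)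 (XT.lf (nat_lit 0) (nat_lit 3399013306) (nat_lit 228) (nat_lit 12363172267) (nat_lit 304) (nat_lit 9151377249) (nat_lit 72) (nat_lit 5) (nat_lit 75) (nat_lit 5) (nat_lit 76) (nat_lit 5) (nat_lit 388) (nat_lit 321) (nat_lit 191)) (XT.nd (nat_lit 78) (nat_lit 304) (nat_lit 0) (XT.lf (nat_lit 0) (nat_lit 16491146077) (nat_lit 228) (nat_lit 4705389609) (nat_lit 304) (nat_lit 4223113059) (nat_lit 72) (nat_lit 5) (nat_lit 75) (nat_lit 5) (nat_lit 76) (nat_lit 5) (nat_lit 389) (nat_lit 321) (nat_lit 190)) (XT.lf (nat_lit 0) (nat_lit 897067547) (nat_lit 304) (nat_lit 21879407099) (nat_lit 76) (nat_lit 3162378720) (nat_lit 68) (nat_lit 5) (nat_lit 72) (nat_lit 5) (nat_lit 69) (nat_lit 5) (nat_lit 390) (nat_lit 321) (nat_lit 189))))) (XT.nd (nat_lit 234) (nat_lit 456) (nat_lit 0) (XT.nd (nat_lit 78) (nat_lit 228) (nat_lit 0) (XT.lf (nat_lit 0) (nat_lit 6214073748) (nat_lit 304) (nat_lit 8955629190) (nat_lit 76)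 (nat_lit 11298837189) (nat_lit 68) (nat_lit 5) (nat_lit 72) (nat_lit 5) (nat_lit 69) (nat_lit 5) (nat_lit 391) (nat_lit 321) (nat_lit 188)) (XT.nd (nat_lit 78) (nat_lit 0) (nat_lit 0) (XT.lf (nat_lit 0) (nat_lit 4427238466) (nat_lit 228) (nat_lit 7296646377) (nat_lit 304) (nat_lit 15289237117) (nat_lit 65) (nat_lit 5) (nat_lit 68) (nat_lit 5) (nat_lit 69) (nat_lit 5) (nat_lit 392) (nat_lit 321) (nat_lit 187)) (XT.lf (nat_lit 0) (nat_lit 17488940334) (nat_lit 304) (nat_lit 9199951004) (nat_lit 76) (nat_lit 882454624) (nat_lit 65) (nat_lit 5) (nat_lit 69) (nat_lit 5) (nat_lit 66) (nat_lit 5) (nat_lit 393) (nat_lit 321) (nat_lit 186)))) (XT.nd (nat_lit 156) (nat_lit 228) (nat_lit 0) (XT.nd (nat_lit 78) (nat_lit 76) (nat_lit 0) (XT.lf (nat_lit 0) (nat_lit 4590237069) (nat_lit 152) (nat_lit 18944155454) (nat_lit 228) (nat_lit 4608703929) (nat_lit 63) (nat_lit 5) (nat_lit 65) (nat_lit 5) (nat_lit 66) (nat_lit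 5) (nat_lit 394) (nat_lit 321) (nat_lit 185)) (XT.lf (nat_lit 0) (nat_lit 1094053701) (nat_lit 228) (nat_lit 9771991575) (nat_lit 76) (nat_lit 17863112469) (nat_lit 62) (nat_lit 5) (nat_lit 65) (nat_lit 5) (nat_lit 63) (nat_lit 5) (nat_lit 395) (nat_lit 321) (nat_lit 184))) (XT.nd (nat_lit 78) (nat_lit 0) (nat_lit 0) (XT.lf (nat_lit 0) (nat_lit 4449233148) (nat_lit 228) (nat_lit 2460165461) (nat_lit 304) (nat_lit 22421012152) (nat_lit 59) (nat_lit 5) (nat_lit 62) (nat_lit 5) (nat_lit 63) (nat_lit 5) (nat_lit 396) (nat_lit 321) (nat_lit 183)) (XT.lf (nat_lit 0) (nat_lit 13049864836) (nat_lit 304) (nat_lit 10724208728) (nat_lit 76) (nat_lit 6171110746) (nat_lit 59) (nat_lit 5) (nat_lit 63) (nat_lit 5) (nat_lit 60) (nat_lit 5) (nat_lit 397) (nat_lit 321) (nat_lit 182))))))) (XT.nd (nat_lit 1014) (nat_lit 988) (nat_lit 0) (XT.nd (nat_lit 468) (nat_lit 532) (nat_lit 0) (XT.nd (nat_lit 234) (nat_lit 152) (nat_lit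 0) (XT.nd (nat_lit 78) (nat_lit 228) (nat_lit 0) (XT.lf (nat_lit 0) (nat_lit 3895214372) (nat_lit 152) (nat_lit 15532809693) (nat_lit 228) (nat_lit 11148775323) (nat_lit 57) (nat_lit 5) (nat_lit 59) (nat_lit 5) (nat_lit 60) (nat_lit 5) (nat_lit 398) (nat_lit 321) (nat_lit 181)) (XT.nd (nat_lit 78) (nat_lit 228) (nat_lit 0) (XT.lf (nat_lit 0) (nat_lit 19159285830) (nat_lit 152) (nat_lit 6938323509) (nat_lit 228) (nat_lit 5126753755) (nat_lit 57) (nat_lit 5) (nat_lit 59) (nat_lit 5) (nat_lit 60) (nat_lit 5) (nat_lit 399) (nat_lit 321) (nat_lit 180)) (XT.lf (nat_lit 0) (nat_lit 1094693876) (nat_lit 228) (nat_lit 28884069655) (nat_lit 76) (nat_lit 1911089549) (nat_lit 54) (nat_lit 5) (nat_lit 57) (nat_lit 5) (nat_lit 55) (nat_lit 5) (nat_lit 400) (nat_lit 321) (nat_lit 179)))) (XT.nd (nat_lit 78) (nat_lit 152) (nat_lit 0) (XT.lf (nat_lit 0) (nat_lit 7583477382) (nat_lit 228) (nat_lit 13929810635) (nat_lit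 76) (nat_lit 11054987288) (nat_lit 54) (nat_lit 5) (nat_lit 57) (nat_lit 5) (nat_lit 55) (nat_lit 5) (nat_lit 401) (nat_lit 321) (nat_lit 178)) (XT.nd (nat_lit 78) (nat_lit 0) (nat_lit 0) (XT.lf (nat_lit 0) (nat_lit 1488938884) (nat_lit 152) (nat_lit 12784530092) (nat_lit 228) (nat_lit 18993387207) (nat_lit 52) (nat_lit 5) (nat_lit 54) (nat_lit 5) (nat_lit 55) (nat_lit 5) (nat_lit 402) (nat_lit 321) (nat_lit 177)) (XT.lf (nat_lit 0) (nat_lit 17642735850) (nat_lit 152) (nat_lit 3654420920) (nat_lit 228) (nat_lit 12685250076) (nat_lit 52) (nat_lit 5) (nat_lit 54) (nat_lit 5) (nat_lit 55) (nat_lit 5) (nat_lit 403) (nat_lit 321) (nat_lit 176))))) (XT.nd (nat_lit 234) (nat_lit 304) (nat_lit 0) (XT.nd (nat_lit 78) (nat_lit 228) (nat_lit 0) (XT.lf (nat_lit 0) (nat_lit 28579329438) (nat_lit 228) (nat_lit 506403091) (nat_lit 76) (nat_lit 5632260462) (nat_lit 52) (nat_lit 5) (nat_lit 55) (nat_lit 5) (nat_lit 53)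 (nat_lit 5) (nat_lit 404) (nat_lit 321) (nat_lit 175)) (XT.nd (nat_lit 78) (nat_lit 0) (nat_lit 0) (XT.lf (nat_lit 0) (nat_lit 777690780) (nat_lit 228) (nat_lit 19411055510) (nat_lit 76) (nat_lit 15281173341) (nat_lit 49) (nat_lit 5) (nat_lit 52) (nat_lit 5) (nat_lit 50) (nat_lit 5) (nat_lit 405) (nat_lit 321) (nat_lit 174)) (XT.lf (nat_lit 0) (nat_lit 7776062892) (nat_lit 228) (nat_lit 3186116767) (nat_lit 76) (nat_lit 25280465801) (nat_lit 49) (nat_lit 5) (nat_lit 52) (nat_lit 5) (nat_lit 50) (nat_lit 5) (nat_lit 406) (nat_lit 321) (nat_lit 173)))) (XT.nd (nat_lit 156) (nat_lit 152) (nat_lit 0) (XT.nd (nat_lit 78) (nat_lit 0) (nat_lit 0) (XT.lf (nat_lit 0) (nat_lit 13782371369) (nat_lit 152) (nat_lit 1327454622) (nat_lit 228) (nat_lit 21924965822) (nat_lit 47) (nat_lit 5) (nat_lit 49) (nat_lit 5) (nat_lit 50) (nat_lit 5) (nat_lit 407) (nat_lit 321) (nat_lit 172)) (XT.lf (nat_lit 0) (nat_lit 22771723211)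 (nat_lit 228) (nat_lit 6619647747) (nat_lit 76) (nat_lit 8456089852) (nat_lit 47) (nat_lit 5) (nat_lit 50) (nat_lit 5) (nat_lit 48) (nat_lit 5) (nat_lit 408) (nat_lit 321) (nat_lit 171))) (XT.nd (nat_lit 78) (nat_lit 0) (nat_lit 0) (XT.lf (nat_lit 0) (nat_lit 10695849216) (nat_lit 152) (nat_lit 20076786419) (nat_lit 228) (nat_lit 7908601326) (nat_lit 45) (nat_lit 5) (nat_lit 47) (nat_lit 5) (nat_lit 48) (nat_lit 5) (nat_lit 409) (nat_lit 321) (nat_lit 170)) (XT.lf (nat_lit 0) (nat_lit 28654793017) (nat_lit 152) (nat_lit 10418913453) (nat_lit 228) (nat_lit 464517773) (nat_lit 45) (nat_lit 5) (nat_lit 47) (nat_lit 5) (nat_lit 48) (nat_lit 5) (nat_lit 410) (nat_lit 321) (nat_lit 169)))))) (XT.nd (nat_lit 546) (nat_lit 456) (nat_lit 0) (XT.nd (nat_lit 234) (nat_lit 152) (nat_lit 0) (XT.nd (nat_lit 78) (nat_lit 152) (nat_lit 0) (XT.lf (nat_lit 0) (nat_lit 6783204267) (nat_lit 152) (nat_lit 337748939) (nat_lit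 228) (nat_lit 33296133883) (nat_lit 42) (nat_lit 5) (nat_lit 44) (nat_lit 5) (nat_lit 45) (nat_lit 5) (nat_lit 411) (nat_lit 321) (nat_lit 168)) (XT.nd (nat_lit 78) (nat_lit 152) (nat_lit 0) (XT.lf (nat_lit 0) (nat_lit 15125658455) (nat_lit 228) (nat_lit 16229877264) (nat_lit 76) (nat_lit 9960613560) (nat_lit 42) (nat_lit 5) (nat_lit 45) (nat_lit 5) (nat_lit 43) (nat_lit 5) (nat_lit 412) (nat_lit 321) (nat_lit 167)) (XT.lf (nat_lit 0) (nat_lit 1715166894) (nat_lit 152) (nat_lit 21668810198) (nat_lit 228) (nat_lit 18857803655) (nat_lit 40) (nat_lit 5) (nat_lit 42) (nat_lit 5) (nat_lit 43) (nat_lit 5) (nat_lit 413) (nat_lit 321) (nat_lit 166)))) (XT.nd (nat_lit 156) (nat_lit 152) (nat_lit 0) (XT.nd (nat_lit 78) (nat_lit 0) (nat_lit 0) (XT.lf (nat_lit 0) (nat_lit 20520162216) (nat_lit 152) (nat_lit 11527492507) (nat_lit 228) (nat_lit 11142799690) (nat_lit 40) (nat_lit 5) (nat_lit 42) (nat_lit 5) (nat_lit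 43) (nat_lit 5) (nat_lit 414) (nat_lit 321) (nat_lit 165)) (XT.lf (nat_lit 0) (nat_lit 39878533870) (nat_lit 152) (nat_lit 1086611236) (nat_lit 228) (nat_lit 3202627600) (nat_lit 40) (nat_lit 5) (nat_lit 42) (nat_lit 5) (nat_lit 43) (nat_lit 5) (nat_lit 415) (nat_lit 321) (nat_lit 164))) (XT.nd (nat_lit 78) (nat_lit 0) (nat_lit 0) (XT.lf (nat_lit 0) (nat_lit 5110438397) (nat_lit 152) (nat_lit 30388538905) (nat_lit 76) (nat_lit 9667046245) (nat_lit 38) (nat_lit 5) (nat_lit 40) (nat_lit 5) (nat_lit 39) (nat_lit 5) (nat_lit 416) (nat_lit 321) (nat_lit 163)) (XT.lf (nat_lit 0) (nat_lit 13657076532) (nat_lit 152) (nat_lit 11742295120) (nat_lit 76) (nat_lit 20792443857) (nat_lit 38) (nat_lit 5) (nat_lit 40) (nat_lit 5) (nat_lit 39) (nat_lit 5) (nat_lit 417) (nat_lit 321) (nat_lit 162))))) (XT.nd (nat_lit 234) (nat_lit 304) (nat_lit 0) (XT.nd (nat_lit 78) (nat_lit 0) (nat_lit 0) (XT.lf (nat_lit 0) (nat_lit 7601363968)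 (nat_lit 152) (nat_lit 14926041649) (nat_lit 228) (nat_lit 24718958183) (nat_lit 36) (nat_lit 5) (nat_lit 38) (nat_lit 5) (nat_lit 39) (nat_lit 5) (nat_lit 418) (nat_lit 321) (nat_lit 161)) (XT.nd (nat_lit 78) (nat_lit 0) (nat_lit 0) (XT.lf (nat_lit 0) (nat_lit 27755837369) (nat_lit 152) (nat_lit 4020874417) (nat_lit 228) (nat_lit 16552452023) (nat_lit 36) (nat_lit 5) (nat_lit 38) (nat_lit 5) (nat_lit 39) (nat_lit 5) (nat_lit 419) (nat_lit 321) (nat_lit 160)) (XT.lf (nat_lit 0) (nat_lit 41367235323) (nat_lit 228) (nat_lit 1008853104) (nat_lit 76) (nat_lit 7066448492) (nat_lit 36) (nat_lit 5) (nat_lit 39) (nat_lit 5) (nat_lit 37) (nat_lit 4) (nat_lit 420) (nat_lit 321) (nat_lit 159)))) (XT.nd (nat_lit 156) (nat_lit 152) (nat_lit 0) (XT.nd (nat_lit 78) (nat_lit 0) (nat_lit 0) (XT.lf (nat_lit 0) (nat_lit 867128785) (nat_lit 152) (nat_lit 31118171625) (nat_lit 76) (nat_lit 18597109681) (nat_lit 34) (nat_lit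 5) (nat_lit 36) (nat_lit 5) (nat_lit 35) (nat_lit 5) (nat_lit 421) (nat_lit 321) (nat_lit 158)) (XT.lf (nat_lit 0) (nat_lit 9920405765) (nat_lit 152) (nat_lit 11273775518) (nat_lit 76) (nat_lit 30559754335) (nat_lit 34) (nat_lit 5) (nat_lit 36) (nat_lit 5) (nat_lit 35) (nat_lit 5) (nat_lit 422) (nat_lit 321) (nat_lit 157))) (XT.nd (nat_lit 78) (nat_lit 0) (nat_lit 0) (XT.lf (nat_lit 0) (nat_lit 9338717870) (nat_lit 152) (nat_lit 9991081144) (nat_lit 228) (nat_lit 33628273466) (nat_lit 32) (nat_lit 5) (nat_lit 34) (nat_lit 5) (nat_lit 35) (nat_lit 5) (nat_lit 423) (nat_lit 321) (nat_lit 156)) (XT.lf (nat_lit 0) (nat_lit 29146096760) (nat_lit 228) (nat_lit 23419729629) (nat_lit 76) (nat_lit 1628769455) (nat_lit 32) (nat_lit 5) (nat_lit 35) (nat_lit 5) (nat_lit 33) (nat_lit 4) (nat_lit 424) (nat_lit 321) (nat_lit 155))))))))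
noncomputable def xc160 : XT := (XT.nd (nat_lit 39546) (nat_lit 0) (nat_lit 10108) (XT.nd (nat_lit 1014) (nat_lit 152) (nat_lit 0) (XT.nd (nat_lit 468) (nat_lit 380) (nat_lit 0) (XT.nd (nat_lit 234) (nat_lit 152) (nat_lit 0) (XT.nd (nat_lit 78) (nat_lit 152) (nat_lit 0) (XT.lf (nat_lit 0) (nat_lit 39350728443) (nat_lit 228) (nat_lit 2722251396) (nat_lit 76) (nat_lit 13392420766) (nat_lit 32) (nat_lit 5) (nat_lit 35) (nat_lit 5) (nat_lit 33) (nat_lit 4) (nat_lit 425) (nat_lit 321) (nat_lit 154)) (XT.nd (nat_lit 78) (nat_lit 76) (nat_lit 0) (XT.lf (nat_lit 0) (nat_lit 18957127485) (nat_lit 76) (nat_lit 31081670368) (nat_lit 152) (nat_lit 6730213707) (nat_lit 31) (nat_lit 5) (nat_lit 32) (nat_lit 5) (nat_lit 33) (nat_lit 4) (nat_lit 426) (nat_lit 321) (nat_lit 153)) (XT.lf (nat_lit 0) (nat_lit 2901332955) (nat_lit 152) (nat_lit 16805664313) (nat_lit 76) (nat_lit 38403202655) (nat_lit 30) (nat_lit 5) (nat_lit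 32) (nat_lit 5) (nat_lit 31) (nat_lit 5) (nat_lit 427) (nat_lit 321) (nat_lit 152)))) (XT.nd (nat_lit 78) (nat_lit 0) (nat_lit 0) (XT.lf (nat_lit 0) (nat_lit 4850052429) (nat_lit 152) (nat_lit 7878348407) (nat_lit 228) (nat_lit 46759969593) (nat_lit 28) (nat_lit 5) (nat_lit 30) (nat_lit 5) (nat_lit 31) (nat_lit 5) (nat_lit 428) (nat_lit 321) (nat_lit 151)) (XT.nd (nat_lit 78) (nat_lit 0) (nat_lit 0) (XT.lf (nat_lit 0) (nat_lit 23058291805) (nat_lit 228) (nat_lit 33454634346) (nat_lit 76) (nat_lit 4388720469) (nat_lit 28) (nat_lit 5) (nat_lit 31) (nat_lit 5) (nat_lit 29) (nat_lit 4) (nat_lit 429) (nat_lit 321) (nat_lit 150)) (XT.lf (nat_lit 0) (nat_lit 33771464237) (nat_lit 228) (nat_lit 11721905446) (nat_lit 76) (nat_lit 16861750747) (nat_lit 28) (nat_lit 5) (nat_lit 31) (nat_lit 5) (nat_lit 29) (nat_lit 4) (nat_lit 430) (nat_lit 321) (nat_lit 149))))) (XT.nd (nat_lit 234) (nat_lit 228) (nat_lit 0) (XT.nd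 (nat_lit 78) (nat_lit 76) (nat_lit 0) (XT.lf (nat_lit 0) (nat_lit 10866637196) (nat_lit 76) (nat_lit 34039367219) (nat_lit 152) (nat_lit 18943195713) (nat_lit 27) (nat_lit 5) (nat_lit 28) (nat_lit 5) (nat_lit 29) (nat_lit 4) (nat_lit 431) (nat_lit 321) (nat_lit 148)) (XT.nd (nat_lit 78) (nat_lit 76) (nat_lit 0) (XT.lf (nat_lit 0) (nat_lit 34364988877) (nat_lit 76) (nat_lit 22123528403) (nat_lit 152) (nat_lit 8896167666) (nat_lit 27) (nat_lit 5) (nat_lit 28) (nat_lit 5) (nat_lit 29) (nat_lit 4) (nat_lit 432) (nat_lit 321) (nat_lit 147)) (XT.lf (nat_lit 0) (nat_lit 1419586093) (nat_lit 152) (nat_lit 8419888471) (nat_lit 76) (nat_lit 57126472104) (nat_lit 26) (nat_lit 5) (nat_lit 28) (nat_lit 5) (nat_lit 27) (nat_lit 5) (nat_lit 433) (nat_lit 321) (nat_lit 146)))) (XT.nd (nat_lit 156) (nat_lit 76) (nat_lit 0) (XT.nd (nat_lit 78) (nat_lit 0) (nat_lit 0) (XT.lf (nat_lit 0) (nat_lit 12035827384) (nat_lit 228)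 (nat_lit 53561227420) (nat_lit 76) (nat_lit 2989855192) (nat_lit 24) (nat_lit 5) (nat_lit 27) (nat_lit 5) (nat_lit 25) (nat_lit 4) (nat_lit 434) (nat_lit 321) (nat_lit 145)) (XT.lf (nat_lit 0) (nat_lit 23149638546) (nat_lit 228) (nat_lit 31012762352) (nat_lit 76) (nat_lit 16088729581) (nat_lit 24) (nat_lit 5) (nat_lit 27) (nat_lit 5) (nat_lit 25) (nat_lit 4) (nat_lit 435) (nat_lit 321) (nat_lit 144))) (XT.nd (nat_lit 78) (nat_lit 76) (nat_lit 0) (XT.lf (nat_lit 0) (nat_lit 34592782395) (nat_lit 228) (nat_lit 7795385766) (nat_lit 76) (nat_lit 29577232576) (nat_lit 24) (nat_lit 5) (nat_lit 27) (nat_lit 5) (nat_lit 25) (nat_lit 4) (nat_lit 436) (nat_lit 321) (nat_lit 143)) (XT.lf (nat_lit 0) (nat_lit 16431833622) (nat_lit 76) (nat_lit 30101377008) (nat_lit 152) (nat_lit 27193269462) (nat_lit 23) (nat_lit 5) (nat_lit 24) (nat_lit 5) (nat_lit 25) (nat_lit 4) (nat_lit 437) (nat_lit 321) (nat_lit 142)))))) (XT.nd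 (nat_lit 37986) (nat_lit 0) (nat_lit 16948) (XT.nd (nat_lit 312) (nat_lit 0) (nat_lit 0) (XT.nd (nat_lit 78) (nat_lit 152) (nat_lit 0) (XT.lf (nat_lit 0) (nat_lit 41538416399) (nat_lit 76) (nat_lit 17368236380) (nat_lit 152) (nat_lit 16631495688) (nat_lit 23) (nat_lit 5) (nat_lit 24) (nat_lit 5) (nat_lit 25) (nat_lit 4) (nat_lit 438) (nat_lit 321) (nat_lit 141)) (XT.nd (nat_lit 156) (nat_lit 152) (nat_lit 0) (XT.lf (nat_lit 0) (nat_lit 67391156892) (nat_lit 76) (nat_lit 4256338345) (nat_lit 152) (nat_lit 5756786397) (nat_lit 23) (nat_lit 5) (nat_lit 24) (nat_lit 5) (nat_lit 25) (nat_lit 4) (nat_lit 439) (nat_lit 321) (nat_lit 140)) (XT.lf (nat_lit 0) (nat_lit 17258343661) (nat_lit 152) (nat_lit 40766175294) (nat_lit 76) (nat_lit 23258508455) (nat_lit 21) (nat_lit 5) (nat_lit 23) (nat_lit 5) (nat_lit 22) (nat_lit 4) (nat_lit 441) (nat_lit 321) (nat_lit 138)))) (XT.nd (nat_lit 37518) (nat_lit 0) (nat_lit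 17860) (XT.lf (nat_lit 0) (nat_lit 29295291696) (nat_lit 152) (nat_lit 16341094912) (nat_lit 76) (nat_lit 37670817674) (nat_lit 21) (nat_lit 5) (nat_lit 23) (nat_lit 5) (nat_lit 22) (nat_lit 4) (nat_lit 442) (nat_lit 321) (nat_lit 137)) (XT.nd (nat_lit 78) (nat_lit 0) (nat_lit 0) (XT.lf (nat_lit 0) (nat_lit 141069820) (nat_lit 0) (nat_lit 141069820) (nat_lit 988) (nat_lit 3980272741) (nat_lit 256) (nat_lit 5) (nat_lit 256) (nat_lit 3) (nat_lit 269) (nat_lit 3) (nat_lit 322) (nat_lit 322) (nat_lit 256)) (XT.lf (nat_lit 0) (nat_lit 1601956176) (nat_lit 988) (nat_lit 4244484541) (nat_lit 1064) (nat_lit 2774529213) (nat_lit 256) (nat_lit 5) (nat_lit 269) (nat_lit 3) (nat_lit 270) (nat_lit 5) (nat_lit 323) (nat_lit 322) (nat_lit 255))))) (XT.nd (nat_lit 234) (nat_lit 912) (nat_lit 0) (XT.nd (nat_lit 78) (nat_lit 0) (nat_lit 76) (XT.lf (nat_lit 0) (nat_lit 2634639088) (nat_lit 988) (nat_lit 150078585) (nat_lit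 1064) (nat_lit 5936398711) (nat_lit 256) (nat_lit 5) (nat_lit 269) (nat_lit 3) (nat_lit 270) (nat_lit 5) (nat_lit 324) (nat_lit 322) (nat_lit 254)) (XT.nd (nat_lit 78) (nat_lit 0) (nat_lit 0) (XT.lf (nat_lit 0) (nat_lit 3704299206) (nat_lit 988) (nat_lit 4700986788) (nat_lit 1064) (nat_lit 418833575) (nat_lit 257) (nat_lit 5) (nat_lit 270) (nat_lit 5) (nat_lit 271) (nat_lit 5) (nat_lit 325) (nat_lit 322) (nat_lit 253)) (XT.lf (nat_lit 0) (nat_lit 4798434717) (nat_lit 988) (nat_lit 451573115) (nat_lit 1064) (nat_lit 3680464750) (nat_lit 257) (nat_lit 5) (nat_lit 270) (nat_lit 5) (nat_lit 271) (nat_lit 5) (nat_lit 326) (nat_lit 322) (nat_lit 252)))) (XT.nd (nat_lit 156) (nat_lit 988) (nat_lit 0) (XT.nd (nat_lit 78) (nat_lit 0) (nat_lit 76) (XT.lf (nat_lit 76) (nat_lit 3982218534) (nat_lit 0) (nat_lit 1945808311) (nat_lit 1064) (nat_lit 3111940750) (nat_lit 258) (nat_lit 5) (nat_lit 257) (nat_lit 5) (nat_lit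 271) (nat_lit 5) (nat_lit 327) (nat_lit 322) (nat_lit 251)) (XT.lf (nat_lit 0) (nat_lit 7075452125) (nat_lit 988) (nat_lit 630203635) (nat_lit 1064) (nat_lit 1447602841) (nat_lit 258) (nat_lit 5) (nat_lit 271) (nat_lit 5) (nat_lit 272) (nat_lit 5) (nat_lit 328) (nat_lit 322) (nat_lit 250))) (XT.nd (nat_lit 78) (nat_lit 1064) (nat_lit 0) (XT.lf (nat_lit 76) (nat_lit 3967133241) (nat_lit 0) (nat_lit 4313906363) (nat_lit 1064) (nat_lit 988225191) (nat_lit 259) (nat_lit 5) (nat_lit 258) (nat_lit 5) (nat_lit 272) (nat_lit 5) (nat_lit 329) (nat_lit 322) (nat_lit 249)) (XT.lf (nat_lit 0) (nat_lit 104620143) (nat_lit 1064) (nat_lit 696266300) (nat_lit 1140) (nat_lit 8588657309) (nat_lit 244) (nat_lit 5) (nat_lit 258) (nat_lit 5) (nat_lit 259) (nat_lit 5) (nat_lit 330) (nat_lit 322) (nat_lit 248))))))) (XT.nd (nat_lit 1014) (nat_lit 3876) (nat_lit 0) (XT.nd (nat_lit 468) (nat_lit 3040) (nat_lit 0) (XT.nd (nat_lit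 234) (nat_lit 0) (nat_lit 76) (XT.nd (nat_lit 78) (nat_lit 0) (nat_lit 0) (XT.lf (nat_lit 0) (nat_lit 1245182434) (nat_lit 1064) (nat_lit 5443725330) (nat_lit 1140) (nat_lit 2823212174) (nat_lit 245) (nat_lit 5) (nat_lit 259) (nat_lit 5) (nat_lit 260) (nat_lit 5) (nat_lit 331) (nat_lit 322) (nat_lit 247)) (XT.nd (nat_lit 78) (nat_lit 0) (nat_lit 76) (XT.lf (nat_lit 0) (nat_lit 2403567623) (nat_lit 1064) (nat_lit 677793796) (nat_lit 1140) (nat_lit 6557529261) (nat_lit 245) (nat_lit 5) (nat_lit 259) (nat_lit 5) (nat_lit 260) (nat_lit 5) (nat_lit 332) (nat_lit 322) (nat_lit 246)) (XT.lf (nat_lit 0) (nat_lit 3614064502) (nat_lit 1064) (nat_lit 5482124561) (nat_lit 1140) (nat_lit 672779383) (nat_lit 246) (nat_lit 5) (nat_lit 260) (nat_lit 5) (nat_lit 261) (nat_lit 5) (nat_lit 333) (nat_lit 322) (nat_lit 245)))) (XT.nd (nat_lit 78) (nat_lit 0) (nat_lit 0) (XT.lf (nat_lit 0) (nat_lit 4868558670) (nat_lit 1064)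 (nat_lit 541061586) (nat_lit 1140) (nat_lit 4493121806) (nat_lit 246) (nat_lit 5) (nat_lit 260) (nat_lit 5) (nat_lit 261) (nat_lit 5) (nat_lit 334) (nat_lit 322) (nat_lit 244)) (XT.nd (nat_lit 78) (nat_lit 0) (nat_lit 76) (XT.lf (nat_lit 76) (nat_lit 4616911400) (nat_lit 0) (nat_lit 1559284703) (nat_lit 1140) (nat_lit 3863890820) (nat_lit 247) (nat_lit 5) (nat_lit 246) (nat_lit 5) (nat_lit 261) (nat_lit 5) (nat_lit 335) (nat_lit 322) (nat_lit 243)) (XT.lf (nat_lit 0) (nat_lit 7523546303) (nat_lit 1064) (nat_lit 286002592) (nat_lit 1140) (nat_lit 2372011337) (nat_lit 247) (nat_lit 5) (nat_lit 261) (nat_lit 5) (nat_lit 262) (nat_lit 5) (nat_lit 336) (nat_lit 322) (nat_lit 242))))) (XT.nd (nat_lit 234) (nat_lit 2128) (nat_lit 0) (XT.nd (nat_lit 78) (nat_lit 1064) (nat_lit 0) (XT.lf (nat_lit 76) (nat_lit 5067230135) (nat_lit 0) (nat_lit 3880887614) (nat_lit 1140) (nat_lit 1378077922) (nat_lit 248) (nat_lit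 5) (nat_lit 247) (nat_lit 5) (nat_lit 262) (nat_lit 5) (nat_lit 337) (nat_lit 322) (nat_lit 241)) (XT.nd (nat_lit 78) (nat_lit 76) (nat_lit 0) (XT.lf (nat_lit 0) (nat_lit 89808173) (nat_lit 1064) (nat_lit 10304287721) (nat_lit 1140) (nat_lit 81735505) (nat_lit 234) (nat_lit 5) (nat_lit 248) (nat_lit 5) (nat_lit 249) (nat_lit 5) (nat_lit 338) (nat_lit 322) (nat_lit 240)) (XT.lf (nat_lit 0) (nat_lit 1294677772) (nat_lit 1140) (nat_lit 4995005259) (nat_lit 76) (nat_lit 4337962552) (nat_lit 233) (nat_lit 5) (nat_lit 248) (nat_lit 5) (nat_lit 234) (nat_lit 5) (nat_lit 339) (nat_lit 322) (nat_lit 239)))) (XT.nd (nat_lit 156) (nat_lit 988) (nat_lit 0) (XT.nd (nat_lit 78) (nat_lit 0) (nat_lit 0) (XT.lf (nat_lit 0) (nat_lit 545747419) (nat_lit 1140) (nat_lit 2144593815) (nat_lit 1216) (nat_lit 8094280166) (nat_lit 218) (nat_lit 5) (nat_lit 233) (nat_lit 5) (nat_lit 234) (nat_lit 5) (nat_lit 340) (nat_lit 322) (nat_lit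 238)) (XT.lf (nat_lit 0) (nat_lit 4174166242) (nat_lit 1216) (nat_lit 4633030257) (nat_lit 76) (nat_lit 2137740180) (nat_lit 218) (nat_lit 5) (nat_lit 234) (nat_lit 5) (nat_lit 219) (nat_lit 5) (nat_lit 341) (nat_lit 322) (nat_lit 237))) (XT.nd (nat_lit 78) (nat_lit 0) (nat_lit 0) (XT.lf (nat_lit 0) (nat_lit 1119832773) (nat_lit 988) (nat_lit 4590328761) (nat_lit 1064) (nat_lit 5399688603) (nat_lit 205) (nat_lit 5) (nat_lit 218) (nat_lit 5) (nat_lit 219) (nat_lit 5) (nat_lit 342) (nat_lit 322) (nat_lit 236)) (XT.lf (nat_lit 0) (nat_lit 7118693376) (nat_lit 988) (nat_lit 196486998) (nat_lit 1064) (nat_lit 3963860163) (nat_lit 205) (nat_lit 5) (nat_lit 218) (nat_lit 5) (nat_lit 219) (nat_lit 5) (nat_lit 343) (nat_lit 322) (nat_lit 235)))))) (XT.nd (nat_lit 468) (nat_lit 2052) (nat_lit 0) (XT.nd (nat_lit 234) (nat_lit 608) (nat_lit 0) (XT.nd (nat_lit 78) (nat_lit 608) (nat_lit 0) (XT.lf (nat_lit 0) (nat_lit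 1816376655) (nat_lit 608) (nat_lit 7187922714) (nat_lit 684) (nat_lit 2447946121) (nat_lit 197) (nat_lit 5) (nat_lit 205) (nat_lit 5) (nat_lit 206) (nat_lit 5) (nat_lit 344) (nat_lit 322) (nat_lit 234)) (XT.nd (nat_lit 78) (nat_lit 608) (nat_lit 0) (XT.lf (nat_lit 0) (nat_lit 8034247591) (nat_lit 608) (nat_lit 2731124197) (nat_lit 684) (nat_lit 864653234) (nat_lit 197) (nat_lit 5) (nat_lit 205) (nat_lit 5) (nat_lit 206) (nat_lit 5) (nat_lit 345) (nat_lit 322) (nat_lit 233)) (XT.lf (nat_lit 0) (nat_lit 772623616) (nat_lit 608) (nat_lit 9182495706) (nat_lit 76) (nat_lit 1857170479) (nat_lit 189) (nat_lit 5) (nat_lit 197) (nat_lit 5) (nat_lit 190) (nat_lit 5) (nat_lit 346) (nat_lit 322) (nat_lit 232)))) (XT.nd (nat_lit 78) (nat_lit 608) (nat_lit 0) (XT.lf (nat_lit 0) (nat_lit 2483570743) (nat_lit 608) (nat_lit 2940805871) (nat_lit 76) (nat_lit 6574146560) (nat_lit 189) (nat_lit 5) (nat_lit 197) (nat_lit 5)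 (nat_lit 190) (nat_lit 5) (nat_lit 347) (nat_lit 322) (nat_lit 231)) (XT.nd (nat_lit 78) (nat_lit 0) (nat_lit 0) (XT.lf (nat_lit 0) (nat_lit 3536014581) (nat_lit 608) (nat_lit 722676408) (nat_lit 684) (nat_lit 7931282168) (nat_lit 181) (nat_lit 5) (nat_lit 189) (nat_lit 5) (nat_lit 190) (nat_lit 5) (nat_lit 348) (nat_lit 322) (nat_lit 230)) (XT.lf (nat_lit 0) (nat_lit 6135927393) (nat_lit 684) (nat_lit 2180299242) (nat_lit 76) (nat_lit 4069488640) (nat_lit 181) (nat_lit 5) (nat_lit 190) (nat_lit 5) (nat_lit 182) (nat_lit 5) (nat_lit 349) (nat_lit 322) (nat_lit 229))))) (XT.nd (nat_lit 234) (nat_lit 988) (nat_lit 0) (XT.nd (nat_lit 78) (nat_lit 532) (nat_lit 0) (XT.lf (nat_lit 0) (nat_lit 4548246876) (nat_lit 532) (nat_lit 3551981090) (nat_lit 608) (nat_lit 4486193368) (nat_lit 174) (nat_lit 5) (nat_lit 181) (nat_lit 5) (nat_lit 182) (nat_lit 5) (nat_lit 350) (nat_lit 322) (nat_lit 228)) (XT.nd (nat_lit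 78) (nat_lit 532) (nat_lit 0) (XT.lf (nat_lit 0) (nat_lit 10138968341) (nat_lit 608) (nat_lit 1303701543) (nat_lit 76) (nat_lit 1350027049) (nat_lit 174) (nat_lit 5) (nat_lit 182) (nat_lit 5) (nat_lit 175) (nat_lit 5) (nat_lit 351) (nat_lit 322) (nat_lit 227)) (XT.lf (nat_lit 0) (nat_lit 5687938406) (nat_lit 532) (nat_lit 6621600978) (nat_lit 608) (nat_lit 693514643) (nat_lit 167) (nat_lit 5) (nat_lit 174) (nat_lit 5) (nat_lit 175) (nat_lit 5) (nat_lit 352) (nat_lit 322) (nat_lit 226)))) (XT.nd (nat_lit 156) (nat_lit 456) (nat_lit 0) (XT.nd (nat_lit 78) (nat_lit 456) (nat_lit 0) (XT.lf (nat_lit 0) (nat_lit 1293922538) (nat_lit 608) (nat_lit 337025896) (nat_lit 76) (nat_lit 11588575205) (nat_lit 166) (nat_lit 5) (nat_lit 174) (nat_lit 5) (nat_lit 167) (nat_lit 5) (nat_lit 353) (nat_lit 322) (nat_lit 225)) (XT.lf (nat_lit 0) (nat_lit 3409927097) (nat_lit 532) (nat_lit 6516222699) (nat_lit 76) (nat_lit 3513657208)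 (nat_lit 160) (nat_lit 5) (nat_lit 167) (nat_lit 5) (nat_lit 161) (nat_lit 5) (nat_lit 354) (nat_lit 322) (nat_lit 224))) (XT.nd (nat_lit 78) (nat_lit 0) (nat_lit 0) (XT.lf (nat_lit 0) (nat_lit 719575763) (nat_lit 456) (nat_lit 4878204716) (nat_lit 532) (nat_lit 8068679130) (nat_lit 154) (nat_lit 5) (nat_lit 160) (nat_lit 5) (nat_lit 161) (nat_lit 5) (nat_lit 355) (nat_lit 322) (nat_lit 223)) (XT.lf (nat_lit 0) (nat_lit 7902983031) (nat_lit 532) (nat_lit 5616579466) (nat_lit 76) (nat_lit 378809347) (nat_lit 154) (nat_lit 5) (nat_lit 161) (nat_lit 5) (nat_lit 155) (nat_lit 5) (nat_lit 356) (nat_lit 322) (nat_lit 222))))))))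
noncomputable def xc161 : XT := (XT.nd (nat_lit 2028) (nat_lit 2888) (nat_lit 0) (XT.nd (nat_lit 1014) (nat_lit 2356) (nat_lit 0) (XT.nd (nat_lit 468) (nat_lit 1520) (nat_lit 0) (XT.nd (nat_lit 234) (nat_lit 380) (nat_lit 0) (XT.nd (nat_lit 78) (nat_lit 532) (nat_lit 0) (XT.lf (nat_lit 0) (nat_lit 1902134823) (nat_lit 456) (nat_lit 8424483222) (nat_lit 532) (nat_lit 3809156231) (nat_lit 148) (nat_lit 5) (nat_lit 154) (nat_lit 5) (nat_lit 155) (nat_lit 5) (nat_lit 357) (nat_lit 322) (nat_lit 221)) (XT.nd (nat_lit 78) (nat_lit 532) (nat_lit 0) (XT.lf (nat_lit 0) (nat_lit 9741426439) (nat_lit 456) (nat_lit 3121255659) (nat_lit 532) (nat_lit 1516435883) (nat_lit 148) (nat_lit 5) (nat_lit 154) (nat_lit 5) (nat_lit 155) (nat_lit 5) (nat_lit 358) (nat_lit 322) (nat_lit 220)) (XT.lf (nat_lit 0) (nat_lit 865722861) (nat_lit 532) (nat_lit 11430969797) (nat_lit 76) (nat_lit 2331721408) (nat_lit 141) (nat_lit 5) (nat_lit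 148) (nat_lit 5) (nat_lit 142) (nat_lit 5) (nat_lit 359) (nat_lit 322) (nat_lit 219)))) (XT.nd (nat_lit 78) (nat_lit 380) (nat_lit 0) (XT.lf (nat_lit 0) (nat_lit 3350656005) (nat_lit 532) (nat_lit 3587612421) (nat_lit 76) (nat_lit 7944626408) (nat_lit 141) (nat_lit 5) (nat_lit 148) (nat_lit 5) (nat_lit 142) (nat_lit 5) (nat_lit 360) (nat_lit 322) (nat_lit 218)) (XT.nd (nat_lit 78) (nat_lit 0) (nat_lit 0) (XT.lf (nat_lit 0) (nat_lit 4560474626) (nat_lit 380) (nat_lit 1377568264) (nat_lit 456) (nat_lit 9206139559) (nat_lit 136) (nat_lit 5) (nat_lit 141) (nat_lit 5) (nat_lit 142) (nat_lit 5) (nat_lit 361) (nat_lit 322) (nat_lit 217)) (XT.lf (nat_lit 0) (nat_lit 8665762134) (nat_lit 456) (nat_lit 2447661909) (nat_lit 76) (nat_lit 4298012641) (nat_lit 136) (nat_lit 5) (nat_lit 142) (nat_lit 5) (nat_lit 137) (nat_lit 5) (nat_lit 362) (nat_lit 322) (nat_lit 216))))) (XT.nd (nat_lit 234) (nat_lit 684) (nat_lit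 0) (XT.nd (nat_lit 78) (nat_lit 456) (nat_lit 0) (XT.lf (nat_lit 0) (nat_lit 6017002813) (nat_lit 380) (nat_lit 5514555340) (nat_lit 456) (nat_lit 4153472082) (nat_lit 131) (nat_lit 5) (nat_lit 136) (nat_lit 5) (nat_lit 137) (nat_lit 5) (nat_lit 363) (nat_lit 322) (nat_lit 215)) (XT.nd (nat_lit 78) (nat_lit 456) (nat_lit 0) (XT.lf (nat_lit 0) (nat_lit 14495702626) (nat_lit 456) (nat_lit 1202444596) (nat_lit 76) (nat_lit 268321914) (nat_lit 131) (nat_lit 5) (nat_lit 137) (nat_lit 5) (nat_lit 132) (nat_lit 5) (nat_lit 364) (nat_lit 322) (nat_lit 214)) (XT.lf (nat_lit 0) (nat_lit 1381312454) (nat_lit 456) (nat_lit 8674763314) (nat_lit 76) (nat_lit 6196487647) (nat_lit 125) (nat_lit 5) (nat_lit 131) (nat_lit 5) (nat_lit 126) (nat_lit 5) (nat_lit 365) (nat_lit 322) (nat_lit 213)))) (XT.nd (nat_lit 156) (nat_lit 304) (nat_lit 0) (XT.nd (nat_lit 78) (nat_lit 0) (nat_lit 0) (XT.lf (nat_lit 0) (nat_lit 66835977)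 (nat_lit 380) (nat_lit 4220981934) (nat_lit 456) (nat_lit 12259041033) (nat_lit 120) (nat_lit 5) (nat_lit 125) (nat_lit 5) (nat_lit 126) (nat_lit 5) (nat_lit 366) (nat_lit 322) (nat_lit 212)) (XT.lf (nat_lit 0) (nat_lit 7372899255) (nat_lit 456) (nat_lit 7636129170) (nat_lit 76) (nat_lit 1838221295) (nat_lit 120) (nat_lit 5) (nat_lit 126) (nat_lit 5) (nat_lit 121) (nat_lit 5) (nat_lit 367) (nat_lit 322) (nat_lit 211))) (XT.nd (nat_lit 78) (nat_lit 0) (nat_lit 0) (XT.lf (nat_lit 0) (nat_lit 1440748085) (nat_lit 304) (nat_lit 9151558992) (nat_lit 380) (nat_lit 6563099494) (nat_lit 116) (nat_lit 5) (nat_lit 120) (nat_lit 5) (nat_lit 121) (nat_lit 5) (nat_lit 368) (nat_lit 322) (nat_lit 210)) (XT.lf (nat_lit 0) (nat_lit 10927992076) (nat_lit 304) (nat_lit 3043774102) (nat_lit 380) (nat_lit 3499145231) (nat_lit 116) (nat_lit 5) (nat_lit 120) (nat_lit 5) (nat_lit 121) (nat_lit 5) (nat_lit 369) (nat_lit 322)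 (nat_lit 209)))))) (XT.nd (nat_lit 468) (nat_lit 1292) (nat_lit 0) (XT.nd (nat_lit 234) (nat_lit 304) (nat_lit 0) (XT.nd (nat_lit 78) (nat_lit 380) (nat_lit 0) (XT.lf (nat_lit 0) (nat_lit 2911272858) (nat_lit 380) (nat_lit 14587246958) (nat_lit 456) (nat_lit 295991395) (nat_lit 111) (nat_lit 5) (nat_lit 116) (nat_lit 5) (nat_lit 117) (nat_lit 5) (nat_lit 370) (nat_lit 322) (nat_lit 208)) (XT.nd (nat_lit 78) (nat_lit 304) (nat_lit 0) (XT.lf (nat_lit 0) (nat_lit 3028301878) (nat_lit 456) (nat_lit 5420666701) (nat_lit 76) (nat_lit 9675481607) (nat_lit 110) (nat_lit 5) (nat_lit 116) (nat_lit 5) (nat_lit 111) (nat_lit 5) (nat_lit 371) (nat_lit 322) (nat_lit 207)) (XT.lf (nat_lit 0) (nat_lit 4390680576) (nat_lit 304) (nat_lit 2085072950) (nat_lit 380) (nat_lit 11987571059) (nat_lit 106) (nat_lit 5) (nat_lit 110) (nat_lit 5) (nat_lit 111) (nat_lit 5) (nat_lit 372) (nat_lit 322) (nat_lit 206)))) (XT.nd (nat_lit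 78) (nat_lit 304) (nat_lit 0) (XT.lf (nat_lit 0) (nat_lit 10112202632) (nat_lit 380) (nat_lit 4264754698) (nat_lit 76) (nat_lit 4432847011) (nat_lit 106) (nat_lit 5) (nat_lit 111) (nat_lit 5) (nat_lit 107) (nat_lit 5) (nat_lit 373) (nat_lit 322) (nat_lit 205)) (XT.nd (nat_lit 78) (nat_lit 0) (nat_lit 0) (XT.lf (nat_lit 0) (nat_lit 5914657431) (nat_lit 304) (nat_lit 8008284430) (nat_lit 380) (nat_lit 5241786889) (nat_lit 102) (nat_lit 5) (nat_lit 106) (nat_lit 5) (nat_lit 107) (nat_lit 5) (nat_lit 374) (nat_lit 322) (nat_lit 204)) (XT.lf (nat_lit 0) (nat_lit 16469560801) (nat_lit 304) (nat_lit 1409397087) (nat_lit 380) (nat_lit 1650420344) (nat_lit 102) (nat_lit 5) (nat_lit 106) (nat_lit 5) (nat_lit 107) (nat_lit 5) (nat_lit 375) (nat_lit 322) (nat_lit 203))))) (XT.nd (nat_lit 234) (nat_lit 608) (nat_lit 0) (XT.nd (nat_lit 78) (nat_lit 304) (nat_lit 0) (XT.lf (nat_lit 0) (nat_lit 2122023701) (nat_lit 380)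 (nat_lit 12408552013) (nat_lit 76) (nat_lit 5370406910) (nat_lit 97) (nat_lit 5) (nat_lit 102) (nat_lit 5) (nat_lit 98) (nat_lit 5) (nat_lit 376) (nat_lit 322) (nat_lit 202)) (XT.nd (nat_lit 78) (nat_lit 304) (nat_lit 0) (XT.lf (nat_lit 0) (nat_lit 6007881205) (nat_lit 380) (nat_lit 1906631505) (nat_lit 76) (nat_lit 12367735327) (nat_lit 97) (nat_lit 5) (nat_lit 102) (nat_lit 5) (nat_lit 98) (nat_lit 5) (nat_lit 377) (nat_lit 322) (nat_lit 201)) (XT.lf (nat_lit 0) (nat_lit 9070657020) (nat_lit 304) (nat_lit 1015445697) (nat_lit 380) (nat_lit 10586580359) (nat_lit 93) (nat_lit 5) (nat_lit 97) (nat_lit 5) (nat_lit 98) (nat_lit 5) (nat_lit 378) (nat_lit 322) (nat_lit 200)))) (XT.nd (nat_lit 156) (nat_lit 380) (nat_lit 0) (XT.nd (nat_lit 78) (nat_lit 228) (nat_lit 0) (XT.lf (nat_lit 0) (nat_lit 14353379220) (nat_lit 380) (nat_lit 733460760) (nat_lit 76) (nat_lit 5985995094) (nat_lit 93) (nat_lit 5) (nat_lit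 98) (nat_lit 5) (nat_lit 94) (nat_lit 5) (nat_lit 379) (nat_lit 322) (nat_lit 199)) (XT.lf (nat_lit 0) (nat_lit 10642451659) (nat_lit 228) (nat_lit 8207624603) (nat_lit 304) (nat_lit 2631878310) (nat_lit 90) (nat_lit 5) (nat_lit 93) (nat_lit 5) (nat_lit 94) (nat_lit 5) (nat_lit 380) (nat_lit 322) (nat_lit 198))) (XT.nd (nat_lit 78) (nat_lit 0) (nat_lit 0) (XT.lf (nat_lit 0) (nat_lit 448671160) (nat_lit 304) (nat_lit 1099747899) (nat_lit 380) (nat_lit 20354451421) (nat_lit 85) (nat_lit 5) (nat_lit 89) (nat_lit 5) (nat_lit 90) (nat_lit 5) (nat_lit 381) (nat_lit 322) (nat_lit 197)) (XT.lf (nat_lit 0) (nat_lit 5960779564) (nat_lit 380) (nat_lit 10138889404) (nat_lit 76) (nat_lit 6231181162) (nat_lit 85) (nat_lit 5) (nat_lit 90) (nat_lit 5) (nat_lit 86) (nat_lit 5) (nat_lit 382) (nat_lit 322) (nat_lit 196))))))) (XT.nd (nat_lit 1014) (nat_lit 1216) (nat_lit 0) (XT.nd (nat_lit 468) (nat_lit 912) (nat_lit 0)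 (XT.nd (nat_lit 234) (nat_lit 304) (nat_lit 0) (XT.nd (nat_lit 78) (nat_lit 228) (nat_lit 0) (XT.lf (nat_lit 0) (nat_lit 1518601888) (nat_lit 228) (nat_lit 9001916996) (nat_lit 304) (nat_lit 12250704495) (nat_lit 82) (nat_lit 5) (nat_lit 85) (nat_lit 5) (nat_lit 86) (nat_lit 5) (nat_lit 383) (nat_lit 322) (nat_lit 195)) (XT.nd (nat_lit 78) (nat_lit 228) (nat_lit 0) (XT.lf (nat_lit 0) (nat_lit 13717789580) (nat_lit 228) (nat_lit 1591318070) (nat_lit 304) (nat_lit 7912942779) (nat_lit 82) (nat_lit 5) (nat_lit 85) (nat_lit 5) (nat_lit 86) (nat_lit 5) (nat_lit 384) (nat_lit 322) (nat_lit 194)) (XT.lf (nat_lit 0) (nat_lit 2573027333) (nat_lit 228) (nat_lit 17741059207) (nat_lit 304) (nat_lit 3370137968) (nat_lit 79) (nat_lit 5) (nat_lit 82) (nat_lit 5) (nat_lit 83) (nat_lit 5) (nat_lit 385) (nat_lit 322) (nat_lit 193)))) (XT.nd (nat_lit 78) (nat_lit 228) (nat_lit 0) (XT.lf (nat_lit 0) (nat_lit 1386054444) (nat_lit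 304) (nat_lit 8994917618) (nat_lit 76) (nat_lit 13775838854) (nat_lit 78) (nat_lit 5) (nat_lit 82) (nat_lit 5) (nat_lit 79) (nat_lit 5) (nat_lit 386) (nat_lit 322) (nat_lit 192)) (XT.nd (nat_lit 78) (nat_lit 0) (nat_lit 0) (XT.lf (nat_lit 0) (nat_lit 3504620958) (nat_lit 228) (nat_lit 2736521603) (nat_lit 304) (nat_lit 18400716771) (nat_lit 75) (nat_lit 5) (nat_lit 78) (nat_lit 5) (nat_lit 79) (nat_lit 5) (nat_lit 387) (nat_lit 322) (nat_lit 191)) (XT.lf (nat_lit 0) (nat_lit 11373339756) (nat_lit 304) (nat_lit 8640822349) (nat_lit 76) (nat_lit 5123357129) (nat_lit 75) (nat_lit 5) (nat_lit 79) (nat_lit 5) (nat_lit 76) (nat_lit 5) (nat_lit 388) (nat_lit 322) (nat_lit 190))))) (XT.nd (nat_lit 234) (nat_lit 380) (nat_lit 0) (XT.nd (nat_lit 78) (nat_lit 304) (nat_lit 0) (XT.lf (nat_lit 0) (nat_lit 4271859066) (nat_lit 228) (nat_lit 12446426627) (nat_lit 304) (nat_lit 8928003372) (nat_lit 72) (nat_lit 5) (nat_lit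 75) (nat_lit 5) (nat_lit 76) (nat_lit 5) (nat_lit 389) (nat_lit 322) (nat_lit 189)) (XT.nd (nat_lit 78) (nat_lit 304) (nat_lit 0) (XT.lf (nat_lit 0) (nat_lit 17734303141) (nat_lit 228) (nat_lit 4567288377) (nat_lit 304) (nat_lit 3866393641) (nat_lit 72) (nat_lit 5) (nat_lit 75) (nat_lit 5) (nat_lit 76) (nat_lit 5) (nat_lit 390) (nat_lit 322) (nat_lit 188)) (XT.lf (nat_lit 0) (nat_lit 1394091589) (nat_lit 304) (nat_lit 21773724748) (nat_lit 76) (nat_lit 3534931246) (nat_lit 68) (nat_lit 5) (nat_lit 72) (nat_lit 5) (nat_lit 69) (nat_lit 5) (nat_lit 391) (nat_lit 322) (nat_lit 187)))) (XT.nd (nat_lit 156) (nat_lit 152) (nat_lit 0) (XT.nd (nat_lit 78) (nat_lit 228) (nat_lit 0) (XT.lf (nat_lit 0) (nat_lit 6856915393) (nat_lit 304) (nat_lit 8484429557) (nat_lit 76) (nat_lit 11907395668) (nat_lit 68) (nat_lit 5) (nat_lit 72) (nat_lit 5) (nat_lit 69) (nat_lit 5) (nat_lit 392) (nat_lit 322) (nat_lit 186)) (XT.lf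 (nat_lit 0) (nat_lit 5292670517) (nat_lit 228) (nat_lit 7233098877) (nat_lit 304) (nat_lit 15284082807) (nat_lit 65) (nat_lit 5) (nat_lit 68) (nat_lit 5) (nat_lit 69) (nat_lit 5) (nat_lit 393) (nat_lit 322) (nat_lit 185))) (XT.nd (nat_lit 78) (nat_lit 152) (nat_lit 0) (XT.lf (nat_lit 0) (nat_lit 18453300833) (nat_lit 304) (nat_lit 8754043454) (nat_lit 76) (nat_lit 1177797520) (nat_lit 65) (nat_lit 5) (nat_lit 69) (nat_lit 5) (nat_lit 66) (nat_lit 5) (nat_lit 394) (nat_lit 322) (nat_lit 184)) (XT.lf (nat_lit 0) (nat_lit 5442772751) (nat_lit 152) (nat_lit 19231408635) (nat_lit 228) (nat_lit 4300045961) (nat_lit 63) (nat_lit 5) (nat_lit 65) (nat_lit 5) (nat_lit 66) (nat_lit 5) (nat_lit 395) (nat_lit 322) (nat_lit 183)))))) (XT.nd (nat_lit 546) (nat_lit 532) (nat_lit 0) (XT.nd (nat_lit 234) (nat_lit 380) (nat_lit 0) (XT.nd (nat_lit 78) (nat_lit 228) (nat_lit 0) (XT.lf (nat_lit 0) (nat_lit 1552310346) (nat_lit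 228) (nat_lit 9362535293) (nat_lit 76) (nat_lit 18663283069) (nat_lit 62) (nat_lit 5) (nat_lit 65) (nat_lit 5) (nat_lit 63) (nat_lit 5) (nat_lit 396) (nat_lit 322) (nat_lit 182)) (XT.nd (nat_lit 78) (nat_lit 0) (nat_lit 0) (XT.lf (nat_lit 0) (nat_lit 5278437779) (nat_lit 228) (nat_lit 2257974270) (nat_lit 304) (nat_lit 22661182471) (nat_lit 59) (nat_lit 5) (nat_lit 62) (nat_lit 5) (nat_lit 63) (nat_lit 5) (nat_lit 397) (nat_lit 322) (nat_lit 181)) (XT.lf (nat_lit 0) (nat_lit 13851442846) (nat_lit 304) (nat_lit 10360689207) (nat_lit 76) (nat_lit 6618972685) (nat_lit 59) (nat_lit 5) (nat_lit 63) (nat_lit 5) (nat_lit 60) (nat_lit 5) (nat_lit 398) (nat_lit 322) (nat_lit 180)))) (XT.nd (nat_lit 156) (nat_lit 228) (nat_lit 0) (XT.nd (nat_lit 78) (nat_lit 0) (nat_lit 0) (XT.lf (nat_lit 0) (nat_lit 4690598490) (nat_lit 152) (nat_lit 15724926647) (nat_lit 228) (nat_lit 11066309646) (nat_lit 57) (nat_lit 5) (nat_lit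 59) (nat_lit 5) (nat_lit 60) (nat_lit 5) (nat_lit 399) (nat_lit 322) (nat_lit 179)) (XT.lf (nat_lit 0) (nat_lit 20392829149) (nat_lit 152) (nat_lit 6880582596) (nat_lit 228) (nat_lit 4875770993) (nat_lit 57) (nat_lit 5) (nat_lit 59) (nat_lit 5) (nat_lit 60) (nat_lit 5) (nat_lit 400) (nat_lit 322) (nat_lit 178))) (XT.nd (nat_lit 78) (nat_lit 0) (nat_lit 0) (XT.lf (nat_lit 0) (nat_lit 1521789852) (nat_lit 228) (nat_lit 29081057552) (nat_lit 76) (nat_lit 2231755766) (nat_lit 54) (nat_lit 5) (nat_lit 57) (nat_lit 5) (nat_lit 55) (nat_lit 5) (nat_lit 401) (nat_lit 322) (nat_lit 177)) (XT.lf (nat_lit 0) (nat_lit 8193753703) (nat_lit 228) (nat_lit 13697671757) (nat_lit 76) (nat_lit 11642300528) (nat_lit 54) (nat_lit 5) (nat_lit 57) (nat_lit 5) (nat_lit 55) (nat_lit 5) (nat_lit 402) (nat_lit 322) (nat_lit 176))))) (XT.nd (nat_lit 234) (nat_lit 228) (nat_lit 0) (XT.nd (nat_lit 78) (nat_lit 152) (nat_lit 0) (XT.lf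 (nat_lit 0) (nat_lit 2177267373) (nat_lit 152) (nat_lit 12902216229) (nat_lit 228) (nat_lit 19173932865) (nat_lit 52) (nat_lit 5) (nat_lit 54) (nat_lit 5) (nat_lit 55) (nat_lit 5) (nat_lit 403) (nat_lit 322) (nat_lit 175)) (XT.nd (nat_lit 78) (nat_lit 152) (nat_lit 0) (XT.lf (nat_lit 0) (nat_lit 18796930860) (nat_lit 152) (nat_lit 3505946979) (nat_lit 228) (nat_lit 12687889172) (nat_lit 52) (nat_lit 5) (nat_lit 54) (nat_lit 5) (nat_lit 55) (nat_lit 5) (nat_lit 404) (nat_lit 322) (nat_lit 174)) (XT.lf (nat_lit 0) (nat_lit 95356729) (nat_lit 152) (nat_lit 29700800718) (nat_lit 228) (nat_lit 5952487183) (nat_lit 50) (nat_lit 5) (nat_lit 52) (nat_lit 5) (nat_lit 53) (nat_lit 5) (nat_lit 405) (nat_lit 322) (nat_lit 173)))) (XT.nd (nat_lit 156) (nat_lit 152) (nat_lit 0) (XT.nd (nat_lit 78) (nat_lit 0) (nat_lit 0) (XT.lf (nat_lit 0) (nat_lit 1158569068) (nat_lit 228) (nat_lit 19377111726) (nat_lit 76) (nat_lit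 15987511302) (nat_lit 49) (nat_lit 5) (nat_lit 52) (nat_lit 5) (nat_lit 50) (nat_lit 5) (nat_lit 406) (nat_lit 322) (nat_lit 172)) (XT.lf (nat_lit 0) (nat_lit 8356478336) (nat_lit 228) (nat_lit 2683374591) (nat_lit 76) (nat_lit 26279562067) (nat_lit 49) (nat_lit 5) (nat_lit 52) (nat_lit 5) (nat_lit 50) (nat_lit 5) (nat_lit 407) (nat_lit 322) (nat_lit 171))) (XT.nd (nat_lit 78) (nat_lit 0) (nat_lit 0) (XT.lf (nat_lit 0) (nat_lit 14788302251) (nat_lit 152) (nat_lit 1117536477) (nat_lit 228) (nat_lit 22229622270) (nat_lit 47) (nat_lit 5) (nat_lit 49) (nat_lit 5) (nat_lit 50) (nat_lit 5) (nat_lit 408) (nat_lit 322) (nat_lit 170)) (XT.lf (nat_lit 0) (nat_lit 23789941537) (nat_lit 228) (nat_lit 6235291898) (nat_lit 76) (nat_lit 8947508880) (nat_lit 47) (nat_lit 5) (nat_lit 50) (nat_lit 5) (nat_lit 48) (nat_lit 5) (nat_lit 409) (nat_lit 322) (nat_lit 169))))))))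
noncomputable def xc162 : XT := (XT.nd (nat_lit 2028) (nat_lit 228) (nat_lit 0) (XT.nd (nat_lit 1014) (nat_lit 760) (nat_lit 0) (XT.nd (nat_lit 468) (nat_lit 456) (nat_lit 0) (XT.nd (nat_lit 234) (nat_lit 152) (nat_lit 0) (XT.nd (nat_lit 78) (nat_lit 228) (nat_lit 0) (XT.lf (nat_lit 0) (nat_lit 11593954824) (nat_lit 152) (nat_lit 20432715976) (nat_lit 228) (nat_lit 7804989896) (nat_lit 45) (nat_lit 5) (nat_lit 47) (nat_lit 5) (nat_lit 48) (nat_lit 5) (nat_lit 410) (nat_lit 322) (nat_lit 168)) (XT.nd (nat_lit 78) (nat_lit 228) (nat_lit 0) (XT.lf (nat_lit 0) (nat_lit 30074854411) (nat_lit 152) (nat_lit 10492282765) (nat_lit 228) (nat_lit 147512073) (nat_lit 45) (nat_lit 5) (nat_lit 47) (nat_lit 5) (nat_lit 48) (nat_lit 5) (nat_lit 411) (nat_lit 322) (nat_lit 167)) (XT.lf (nat_lit 0) (nat_lit 7548100097) (nat_lit 152) (nat_lit 106910627) (nat_lit 228) (nat_lit 33964895860) (nat_lit 42) (nat_lit 5) (nat_lit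 44) (nat_lit 5) (nat_lit 45) (nat_lit 5) (nat_lit 412) (nat_lit 322) (nat_lit 166)))) (XT.nd (nat_lit 78) (nat_lit 152) (nat_lit 0) (XT.lf (nat_lit 0) (nat_lit 15892773141) (nat_lit 228) (nat_lit 16164563426) (nat_lit 76) (nat_lit 10488818930) (nat_lit 42) (nat_lit 5) (nat_lit 45) (nat_lit 5) (nat_lit 43) (nat_lit 5) (nat_lit 413) (nat_lit 322) (nat_lit 165)) (XT.nd (nat_lit 78) (nat_lit 0) (nat_lit 0) (XT.lf (nat_lit 0) (nat_lit 2313418232) (nat_lit 152) (nat_lit 22081552696) (nat_lit 228) (nat_lit 19104703364) (nat_lit 40) (nat_lit 5) (nat_lit 42) (nat_lit 5) (nat_lit 43) (nat_lit 5) (nat_lit 414) (nat_lit 322) (nat_lit 164)) (XT.lf (nat_lit 0) (nat_lit 21666637307) (nat_lit 152) (nat_lit 11642907759) (nat_lit 228) (nat_lit 11167535719) (nat_lit 40) (nat_lit 5) (nat_lit 42) (nat_lit 5) (nat_lit 43) (nat_lit 5) (nat_lit 415) (nat_lit 322) (nat_lit 163))))) (XT.nd (nat_lit 234) (nat_lit 304) (nat_lit 0)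 (XT.nd (nat_lit 78) (nat_lit 152) (nat_lit 0) (XT.lf (nat_lit 0) (nat_lit 41590297871) (nat_lit 152) (nat_lit 895511007) (nat_lit 228) (nat_lit 2998174426) (nat_lit 40) (nat_lit 5) (nat_lit 42) (nat_lit 5) (nat_lit 43) (nat_lit 5) (nat_lit 416) (nat_lit 322) (nat_lit 162)) (XT.nd (nat_lit 78) (nat_lit 0) (nat_lit 0) (XT.lf (nat_lit 0) (nat_lit 5556963461) (nat_lit 152) (nat_lit 30777330567) (nat_lit 76) (nat_lit 10177846662) (nat_lit 38) (nat_lit 5) (nat_lit 40) (nat_lit 5) (nat_lit 39) (nat_lit 5) (nat_lit 417) (nat_lit 322) (nat_lit 161)) (XT.lf (nat_lit 0) (nat_lit 14351460587) (nat_lit 152) (nat_lit 11586928531) (nat_lit 76) (nat_lit 21630575454) (nat_lit 38) (nat_lit 5) (nat_lit 40) (nat_lit 5) (nat_lit 39) (nat_lit 5) (nat_lit 418) (nat_lit 322) (nat_lit 160)))) (XT.nd (nat_lit 156) (nat_lit 152) (nat_lit 0) (XT.nd (nat_lit 78) (nat_lit 0) (nat_lit 0) (XT.lf (nat_lit 0) (nat_lit 8332063512) (nat_lit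 152) (nat_lit 15152376484) (nat_lit 228) (nat_lit 25170815002) (nat_lit 36) (nat_lit 5) (nat_lit 38) (nat_lit 5) (nat_lit 39) (nat_lit 5) (nat_lit 419) (nat_lit 322) (nat_lit 159)) (XT.lf (nat_lit 0) (nat_lit 29076530573) (nat_lit 152) (nat_lit 3926504131) (nat_lit 228) (nat_lit 16767751868) (nat_lit 36) (nat_lit 5) (nat_lit 38) (nat_lit 5) (nat_lit 39) (nat_lit 5) (nat_lit 420) (nat_lit 322) (nat_lit 158))) (XT.nd (nat_lit 78) (nat_lit 152) (nat_lit 0) (XT.lf (nat_lit 0) (nat_lit 42875328346) (nat_lit 228) (nat_lit 559309420) (nat_lit 76) (nat_lit 7483103270) (nat_lit 36) (nat_lit 5) (nat_lit 39) (nat_lit 5) (nat_lit 37) (nat_lit 4) (nat_lit 421) (nat_lit 322) (nat_lit 157)) (XT.lf (nat_lit 0) (nat_lit 1159676061) (nat_lit 152) (nat_lit 31571250686) (nat_lit 76) (nat_lit 19360903359) (nat_lit 34) (nat_lit 5) (nat_lit 36) (nat_lit 5) (nat_lit 35) (nat_lit 5) (nat_lit 422) (nat_lit 322) (nat_lit 156))))))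 (XT.nd (nat_lit 468) (nat_lit 456) (nat_lit 0) (XT.nd (nat_lit 234) (nat_lit 152) (nat_lit 0) (XT.nd (nat_lit 78) (nat_lit 152) (nat_lit 0) (XT.lf (nat_lit 0) (nat_lit 10476788240) (nat_lit 152) (nat_lit 11145516854) (nat_lit 76) (nat_lit 31676430837) (nat_lit 34) (nat_lit 5) (nat_lit 36) (nat_lit 5) (nat_lit 35) (nat_lit 5) (nat_lit 423) (nat_lit 322) (nat_lit 155)) (XT.nd (nat_lit 78) (nat_lit 0) (nat_lit 0) (XT.lf (nat_lit 0) (nat_lit 10080778081) (nat_lit 152) (nat_lit 10084588260) (nat_lit 228) (nat_lit 34373725059) (nat_lit 32) (nat_lit 5) (nat_lit 34) (nat_lit 5) (nat_lit 35) (nat_lit 5) (nat_lit 424) (nat_lit 322) (nat_lit 154)) (XT.lf (nat_lit 0) (nat_lit 30270630847) (nat_lit 228) (nat_lit 23668302522) (nat_lit 76) (nat_lit 1873944306) (nat_lit 32) (nat_lit 5) (nat_lit 35) (nat_lit 5) (nat_lit 33) (nat_lit 4) (nat_lit 425) (nat_lit 322) (nat_lit 153)))) (XT.nd (nat_lit 78) (nat_lit 152) (nat_lit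 0) (XT.lf (nat_lit 0) (nat_lit 40774115524) (nat_lit 228) (nat_lit 2363123796) (nat_lit 76) (nat_lit 13984787338) (nat_lit 32) (nat_lit 5) (nat_lit 35) (nat_lit 5) (nat_lit 33) (nat_lit 4) (nat_lit 426) (nat_lit 322) (nat_lit 152)) (XT.nd (nat_lit 78) (nat_lit 76) (nat_lit 0) (XT.lf (nat_lit 0) (nat_lit 19962314931) (nat_lit 76) (nat_lit 31817633992) (nat_lit 152) (nat_lit 6684884817) (nat_lit 31) (nat_lit 5) (nat_lit 32) (nat_lit 5) (nat_lit 33) (nat_lit 4) (nat_lit 427) (nat_lit 322) (nat_lit 151)) (XT.lf (nat_lit 0) (nat_lit 3223723283) (nat_lit 152) (nat_lit 16881343747) (nat_lit 76) (nat_lit 39741332615) (nat_lit 30) (nat_lit 5) (nat_lit 32) (nat_lit 5) (nat_lit 31) (nat_lit 5) (nat_lit 428) (nat_lit 322) (nat_lit 150))))) (XT.nd (nat_lit 234) (nat_lit 304) (nat_lit 0) (XT.nd (nat_lit 78) (nat_lit 0) (nat_lit 0) (XT.lf (nat_lit 0) (nat_lit 5419843610) (nat_lit 152) (nat_lit 7922983257) (nat_lit 228)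 (nat_lit 47923173022) (nat_lit 28) (nat_lit 5) (nat_lit 30) (nat_lit 5) (nat_lit 31) (nat_lit 5) (nat_lit 429) (nat_lit 322) (nat_lit 149)) (XT.nd (nat_lit 78) (nat_lit 0) (nat_lit 0) (XT.lf (nat_lit 0) (nat_lit 23977629777) (nat_lit 228) (nat_lit 34041313791) (nat_lit 76) (nat_lit 4702881636) (nat_lit 28) (nat_lit 5) (nat_lit 31) (nat_lit 5) (nat_lit 29) (nat_lit 4) (nat_lit 430) (nat_lit 322) (nat_lit 148)) (XT.lf (nat_lit 0) (nat_lit 35005568569) (nat_lit 228) (nat_lit 11668747479) (nat_lit 76) (nat_lit 17544787302) (nat_lit 28) (nat_lit 5) (nat_lit 31) (nat_lit 5) (nat_lit 29) (nat_lit 4) (nat_lit 431) (nat_lit 322) (nat_lit 147)))) (XT.nd (nat_lit 156) (nat_lit 228) (nat_lit 0) (XT.nd (nat_lit 78) (nat_lit 0) (nat_lit 0) (XT.lf (nat_lit 0) (nat_lit 11593482668) (nat_lit 76) (nat_lit 34878079726) (nat_lit 152) (nat_lit 19286521741) (nat_lit 27) (nat_lit 5) (nat_lit 28) (nat_lit 5) (nat_lit 29) (nat_lit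 4) (nat_lit 432) (nat_lit 322) (nat_lit 146)) (XT.lf (nat_lit 0) (nat_lit 35785109762) (nat_lit 76) (nat_lit 22610080363) (nat_lit 152) (nat_lit 8944635373) (nat_lit 27) (nat_lit 5) (nat_lit 28) (nat_lit 5) (nat_lit 29) (nat_lit 4) (nat_lit 433) (nat_lit 322) (nat_lit 145))) (XT.nd (nat_lit 78) (nat_lit 152) (nat_lit 0) (XT.lf (nat_lit 0) (nat_lit 1670091360) (nat_lit 152) (nat_lit 8290473809) (nat_lit 76) (nat_lit 59008085157) (nat_lit 26) (nat_lit 5) (nat_lit 28) (nat_lit 5) (nat_lit 27) (nat_lit 5) (nat_lit 434) (nat_lit 322) (nat_lit 144)) (XT.lf (nat_lit 0) (nat_lit 12604060913) (nat_lit 228) (nat_lit 54785257823) (nat_lit 76) (nat_lit 3248947672) (nat_lit 24) (nat_lit 5) (nat_lit 27) (nat_lit 5) (nat_lit 25) (nat_lit 4) (nat_lit 435) (nat_lit 322) (nat_lit 143))))))) (XT.nd (nat_lit 38688) (nat_lit 0) (nat_lit 13984) (XT.nd (nat_lit 38142) (nat_lit 0) (nat_lit 16948) (XT.nd (nat_lit 390) (nat_lit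 152) (nat_lit 0) (XT.nd (nat_lit 78) (nat_lit 76) (nat_lit 0) (XT.lf (nat_lit 0) (nat_lit 24045252661) (nat_lit 228) (nat_lit 31571488505) (nat_lit 76) (nat_lit 16735854404) (nat_lit 24) (nat_lit 5) (nat_lit 27) (nat_lit 5) (nat_lit 25) (nat_lit 4) (nat_lit 436) (nat_lit 322) (nat_lit 142)) (XT.nd (nat_lit 78) (nat_lit 76) (nat_lit 0) (XT.lf (nat_lit 0) (nat_lit 35825832817) (nat_lit 228) (nat_lit 7668415575) (nat_lit 76) (nat_lit 30624222306) (nat_lit 24) (nat_lit 5) (nat_lit 27) (nat_lit 5) (nat_lit 25) (nat_lit 4) (nat_lit 437) (nat_lit 322) (nat_lit 141)) (XT.lf (nat_lit 0) (nat_lit 17282082830) (nat_lit 76) (nat_lit 30840138213) (nat_lit 152) (nat_lit 27810229968) (nat_lit 23) (nat_lit 5) (nat_lit 24) (nat_lit 5) (nat_lit 25) (nat_lit 4) (nat_lit 438) (nat_lit 322) (nat_lit 140)))) (XT.nd (nat_lit 78) (nat_lit 0) (nat_lit 0) (XT.lf (nat_lit 0) (nat_lit 5918686413) (nat_lit 152) (nat_lit 66079843879)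 (nat_lit 76) (nat_lit 9693396058) (nat_lit 21) (nat_lit 5) (nat_lit 23) (nat_lit 5) (nat_lit 22) (nat_lit 4) (nat_lit 441) (nat_lit 322) (nat_lit 137)) (XT.nd (nat_lit 37596) (nat_lit 0) (nat_lit 17860) (XT.lf (nat_lit 0) (nat_lit 17953908595) (nat_lit 152) (nat_lit 41657977926) (nat_lit 76) (nat_lit 24104268753) (nat_lit 21) (nat_lit 5) (nat_lit 23) (nat_lit 5) (nat_lit 22) (nat_lit 4) (nat_lit 442) (nat_lit 322) (nat_lit 136)) (XT.lf (nat_lit 0) (nat_lit 641491660) (nat_lit 0) (nat_lit 641491660) (nat_lit 988) (nat_lit 3076687401) (nat_lit 256) (nat_lit 5) (nat_lit 256) (nat_lit 3) (nat_lit 269) (nat_lit 3) (nat_lit 323) (nat_lit 323) (nat_lit 254))))) (XT.nd (nat_lit 234) (nat_lit 912) (nat_lit 0) (XT.nd (nat_lit 78) (nat_lit 0) (nat_lit 0) (XT.lf (nat_lit 0) (nat_lit 3567703816) (nat_lit 988) (nat_lit 3339637610) (nat_lit 1064) (nat_lit 1913090727) (nat_lit 256) (nat_lit 5) (nat_lit 269) (nat_lit 3)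 (nat_lit 270) (nat_lit 5) (nat_lit 324) (nat_lit 323) (nat_lit 253)) (XT.nd (nat_lit 78) (nat_lit 0) (nat_lit 0) (XT.lf (nat_lit 76) (nat_lit 864404633) (nat_lit 0) (nat_lit 3719416751) (nat_lit 1064) (nat_lit 4341235650) (nat_lit 257) (nat_lit 5) (nat_lit 256) (nat_lit 5) (nat_lit 270) (nat_lit 5) (nat_lit 325) (nat_lit 323) (nat_lit 252)) (XT.lf (nat_lit 76) (nat_lit 5243476288) (nat_lit 0) (nat_lit 384866789) (nat_lit 1064) (nat_lit 3404570352) (nat_lit 257) (nat_lit 5) (nat_lit 256) (nat_lit 5) (nat_lit 270) (nat_lit 5) (nat_lit 326) (nat_lit 323) (nat_lit 251)))) (XT.nd (nat_lit 156) (nat_lit 988) (nat_lit 0) (XT.nd (nat_lit 78) (nat_lit 0) (nat_lit 0) (XT.lf (nat_lit 76) (nat_lit 571546035) (nat_lit 0) (nat_lit 6132855502) (nat_lit 1064) (nat_lit 2439627450) (nat_lit 258) (nat_lit 5) (nat_lit 257) (nat_lit 5) (nat_lit 271) (nat_lit 5) (nat_lit 327) (nat_lit 323) (nat_lit 250)) (XT.lf (nat_lit 76)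 (nat_lit 5117144459) (nat_lit 0) (nat_lit 2703843369) (nat_lit 1064) (nat_lit 1437271444) (nat_lit 258) (nat_lit 5) (nat_lit 257) (nat_lit 5) (nat_lit 271) (nat_lit 5) (nat_lit 328) (nat_lit 323) (nat_lit 249))) (XT.nd (nat_lit 78) (nat_lit 1064) (nat_lit 0) (XT.lf (nat_lit 76) (nat_lit 402523866) (nat_lit 0) (nat_lit 8547696670) (nat_lit 1064) (nat_lit 426349272) (nat_lit 259) (nat_lit 5) (nat_lit 258) (nat_lit 5) (nat_lit 272) (nat_lit 5) (nat_lit 329) (nat_lit 323) (nat_lit 248)) (XT.lf (nat_lit 0) (nat_lit 639636987) (nat_lit 1064) (nat_lit 4383942537) (nat_lit 1140) (nat_lit 4473596966) (nat_lit 244) (nat_lit 5) (nat_lit 258) (nat_lit 5) (nat_lit 259) (nat_lit 5) (nat_lit 330) (nat_lit 323) (nat_lit 247)))))) (XT.nd (nat_lit 546) (nat_lit 2964) (nat_lit 0) (XT.nd (nat_lit 234) (nat_lit 0) (nat_lit 152) (XT.nd (nat_lit 78) (nat_lit 0) (nat_lit 76) (XT.lf (nat_lit 76) (nat_lit 325576112) (nat_lit 0)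 (nat_lit 1375260414) (nat_lit 1140) (nat_lit 7921309569) (nat_lit 245) (nat_lit 5) (nat_lit 244) (nat_lit 5) (nat_lit 259) (nat_lit 5) (nat_lit 331) (nat_lit 323) (nat_lit 246)) (XT.nd (nat_lit 78) (nat_lit 0) (nat_lit 0) (XT.lf (nat_lit 0) (nat_lit 2830972899) (nat_lit 1064) (nat_lit 4527892684) (nat_lit 1140) (nat_lit 2390910889) (nat_lit 245) (nat_lit 5) (nat_lit 259) (nat_lit 5) (nat_lit 260) (nat_lit 5) (nat_lit 332) (nat_lit 323) (nat_lit 245)) (XT.lf (nat_lit 76) (nat_lit 356542839) (nat_lit 0) (nat_lit 3625894063) (nat_lit 1140) (nat_lit 5899200140) (nat_lit 246) (nat_lit 5) (nat_lit 245) (nat_lit 5) (nat_lit 260) (nat_lit 5) (nat_lit 333) (nat_lit 323) (nat_lit 244)))) (XT.nd (nat_lit 156) (nat_lit 0) (nat_lit 0) (XT.nd (nat_lit 78) (nat_lit 0) (nat_lit 0) (XT.lf (nat_lit 0) (nat_lit 5187854032) (nat_lit 1064) (nat_lit 4559725905) (nat_lit 1140) (nat_lit 269314505) (nat_lit 246) (nat_lit 5) (nat_lit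 260) (nat_lit 5) (nat_lit 261) (nat_lit 5) (nat_lit 334) (nat_lit 323) (nat_lit 243)) (XT.lf (nat_lit 76) (nat_lit 507822212) (nat_lit 0) (nat_lit 5934361701) (nat_lit 1140) (nat_lit 3713665755) (nat_lit 247) (nat_lit 5) (nat_lit 246) (nat_lit 5) (nat_lit 261) (nat_lit 5) (nat_lit 335) (nat_lit 323) (nat_lit 242))) (XT.nd (nat_lit 78) (nat_lit 0) (nat_lit 76) (XT.lf (nat_lit 76) (nat_lit 5800279789) (nat_lit 0) (nat_lit 1952495541) (nat_lit 1140) (nat_lit 2545661224) (nat_lit 247) (nat_lit 5) (nat_lit 246) (nat_lit 5) (nat_lit 261) (nat_lit 5) (nat_lit 336) (nat_lit 323) (nat_lit 241)) (XT.lf (nat_lit 76) (nat_lit 779902189) (nat_lit 0) (nat_lit 8324384512) (nat_lit 1140) (nat_lit 1340987594) (nat_lit 248) (nat_lit 5) (nat_lit 247) (nat_lit 5) (nat_lit 262) (nat_lit 5) (nat_lit 337) (nat_lit 323) (nat_lit 240))))) (XT.nd (nat_lit 234) (nat_lit 2052) (nat_lit 0) (XT.nd (nat_lit 78) (nat_lit 1140) (nat_lit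 0) (XT.lf (nat_lit 76) (nat_lit 6268128235) (nat_lit 0) (nat_lit 4266803992) (nat_lit 1140) (nat_lit 60447968) (nat_lit 248) (nat_lit 5) (nat_lit 247) (nat_lit 5) (nat_lit 262) (nat_lit 5) (nat_lit 338) (nat_lit 323) (nat_lit 239)) (XT.nd (nat_lit 78) (nat_lit 0) (nat_lit 76) (XT.lf (nat_lit 76) (nat_lit 1160978148) (nat_lit 0) (nat_lit 58643031) (nat_lit 1216) (nat_lit 9530454530) (nat_lit 233) (nat_lit 5) (nat_lit 232) (nat_lit 5) (nat_lit 248) (nat_lit 5) (nat_lit 339) (nat_lit 323) (nat_lit 238)) (XT.lf (nat_lit 0) (nat_lit 2597209596) (nat_lit 1140) (nat_lit 4068874047) (nat_lit 76) (nat_lit 4241519465) (nat_lit 233) (nat_lit 5) (nat_lit 248) (nat_lit 5) (nat_lit 234) (nat_lit 5) (nat_lit 340) (nat_lit 323) (nat_lit 237)))) (XT.nd (nat_lit 156) (nat_lit 988) (nat_lit 0) (XT.nd (nat_lit 78) (nat_lit 0) (nat_lit 0) (XT.lf (nat_lit 0) (nat_lit 1627552375) (nat_lit 1140) (nat_lit 2380625628) (nat_lit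 1216) (nat_lit 7061935138) (nat_lit 218) (nat_lit 5) (nat_lit 233) (nat_lit 5) (nat_lit 234) (nat_lit 5) (nat_lit 341) (nat_lit 323) (nat_lit 236)) (XT.lf (nat_lit 0) (nat_lit 5498882593) (nat_lit 1216) (nat_lit 3699079552) (nat_lit 76) (nat_lit 2038431968) (nat_lit 218) (nat_lit 5) (nat_lit 234) (nat_lit 5) (nat_lit 219) (nat_lit 5) (nat_lit 342) (nat_lit 323) (nat_lit 235))) (XT.nd (nat_lit 78) (nat_lit 0) (nat_lit 0) (XT.lf (nat_lit 0) (nat_lit 2215850335) (nat_lit 988) (nat_lit 4840383424) (nat_lit 1064) (nat_lit 4350789321) (nat_lit 205) (nat_lit 5) (nat_lit 218) (nat_lit 5) (nat_lit 219) (nat_lit 5) (nat_lit 343) (nat_lit 323) (nat_lit 234)) (XT.lf (nat_lit 0) (nat_lit 8363732408) (nat_lit 988) (nat_lit 311454229) (nat_lit 1064) (nat_lit 2907154667) (nat_lit 205) (nat_lit 5) (nat_lit 218) (nat_lit 5) (nat_lit 219) (nat_lit 5) (nat_lit 344) (nat_lit 323) (nat_lit 233))))))))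
noncomputable def xc163 : XT := (XT.nd (nat_lit 2028) (nat_lit 4104) (nat_lit 0) (XT.nd (nat_lit 1014) (nat_lit 2888) (nat_lit 0) (XT.nd (nat_lit 468) (nat_lit 2052) (nat_lit 0) (XT.nd (nat_lit 234) (nat_lit 608) (nat_lit 0) (XT.nd (nat_lit 78) (nat_lit 608) (nat_lit 0) (XT.lf (nat_lit 0) (nat_lit 2927998468) (nat_lit 608) (nat_lit 7462904657) (nat_lit 684) (nat_lit 1370586435) (nat_lit 197) (nat_lit 5) (nat_lit 205) (nat_lit 5) (nat_lit 206) (nat_lit 5) (nat_lit 345) (nat_lit 323) (nat_lit 232)) (XT.nd (nat_lit 78) (nat_lit 532) (nat_lit 0) (XT.lf (nat_lit 0) (nat_lit 222263370) (nat_lit 684) (nat_lit 2646165915) (nat_lit 76) (nat_lit 9077107528) (nat_lit 196) (nat_lit 5) (nat_lit 205) (nat_lit 5) (nat_lit 197) (nat_lit 5) (nat_lit 346) (nat_lit 323) (nat_lit 231)) (XT.lf (nat_lit 0) (nat_lit 1869021171) (nat_lit 608) (nat_lit 8386029280) (nat_lit 76) (nat_lit 1878652779) (nat_lit 189) (nat_lit 5) (nat_lit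 197) (nat_lit 5) (nat_lit 190) (nat_lit 5) (nat_lit 347) (nat_lit 323) (nat_lit 230)))) (XT.nd (nat_lit 78) (nat_lit 608) (nat_lit 0) (XT.lf (nat_lit 0) (nat_lit 3600037911) (nat_lit 608) (nat_lit 1988310341) (nat_lit 76) (nat_lit 6738135215) (nat_lit 189) (nat_lit 5) (nat_lit 197) (nat_lit 5) (nat_lit 190) (nat_lit 5) (nat_lit 348) (nat_lit 323) (nat_lit 229)) (XT.nd (nat_lit 78) (nat_lit 0) (nat_lit 0) (XT.lf (nat_lit 0) (nat_lit 4672611590) (nat_lit 608) (nat_lit 735357779) (nat_lit 684) (nat_lit 7116342306) (nat_lit 181) (nat_lit 5) (nat_lit 189) (nat_lit 5) (nat_lit 190) (nat_lit 5) (nat_lit 349) (nat_lit 323) (nat_lit 228)) (XT.lf (nat_lit 0) (nat_lit 7311853907) (nat_lit 684) (nat_lit 1214843418) (nat_lit 76) (nat_lit 4200139629) (nat_lit 181) (nat_lit 5) (nat_lit 190) (nat_lit 5) (nat_lit 182) (nat_lit 5) (nat_lit 350) (nat_lit 323) (nat_lit 227))))) (XT.nd (nat_lit 234) (nat_lit 912) (nat_lit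 0) (XT.nd (nat_lit 78) (nat_lit 608) (nat_lit 0) (XT.lf (nat_lit 0) (nat_lit 5705452566) (nat_lit 532) (nat_lit 3610554287) (nat_lit 608) (nat_lit 3618149865) (nat_lit 174) (nat_lit 5) (nat_lit 181) (nat_lit 5) (nat_lit 182) (nat_lit 5) (nat_lit 351) (nat_lit 323) (nat_lit 226)) (XT.nd (nat_lit 78) (nat_lit 608) (nat_lit 0) (XT.lf (nat_lit 0) (nat_lit 11388024111) (nat_lit 608) (nat_lit 323245340) (nat_lit 76) (nat_lit 1436207327) (nat_lit 174) (nat_lit 5) (nat_lit 182) (nat_lit 5) (nat_lit 175) (nat_lit 5) (nat_lit 352) (nat_lit 323) (nat_lit 225)) (XT.lf (nat_lit 0) (nat_lit 236491156) (nat_lit 608) (nat_lit 6498868628) (nat_lit 76) (nat_lit 6629268797) (nat_lit 166) (nat_lit 5) (nat_lit 174) (nat_lit 5) (nat_lit 167) (nat_lit 5) (nat_lit 353) (nat_lit 323) (nat_lit 224)))) (XT.nd (nat_lit 156) (nat_lit 456) (nat_lit 0) (XT.nd (nat_lit 78) (nat_lit 0) (nat_lit 0) (XT.lf (nat_lit 0) (nat_lit 664701998)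 (nat_lit 456) (nat_lit 1584012477) (nat_lit 532) (nat_lit 11339316722) (nat_lit 160) (nat_lit 5) (nat_lit 166) (nat_lit 5) (nat_lit 167) (nat_lit 5) (nat_lit 354) (nat_lit 323) (nat_lit 223)) (XT.lf (nat_lit 0) (nat_lit 4405751866) (nat_lit 532) (nat_lit 5696202176) (nat_lit 76) (nat_lit 3713659883) (nat_lit 160) (nat_lit 5) (nat_lit 167) (nat_lit 5) (nat_lit 161) (nat_lit 5) (nat_lit 355) (nat_lit 323) (nat_lit 222))) (XT.nd (nat_lit 78) (nat_lit 0) (nat_lit 0) (XT.lf (nat_lit 0) (nat_lit 1746714287) (nat_lit 456) (nat_lit 4896167480) (nat_lit 532) (nat_lit 7406692051) (nat_lit 154) (nat_lit 5) (nat_lit 160) (nat_lit 5) (nat_lit 161) (nat_lit 5) (nat_lit 356) (nat_lit 323) (nat_lit 221)) (XT.lf (nat_lit 0) (nat_lit 8992889971) (nat_lit 532) (nat_lit 4783914975) (nat_lit 76) (nat_lit 512385428) (nat_lit 154) (nat_lit 5) (nat_lit 161) (nat_lit 5) (nat_lit 155) (nat_lit 5) (nat_lit 357) (nat_lit 323) (nat_lit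 220)))))) (XT.nd (nat_lit 468) (nat_lit 1520) (nat_lit 0) (XT.nd (nat_lit 234) (nat_lit 380) (nat_lit 0) (XT.nd (nat_lit 78) (nat_lit 532) (nat_lit 0) (XT.lf (nat_lit 0) (nat_lit 2950545430) (nat_lit 456) (nat_lit 8523378693) (nat_lit 532) (nat_lit 3060266019) (nat_lit 148) (nat_lit 5) (nat_lit 154) (nat_lit 5) (nat_lit 155) (nat_lit 5) (nat_lit 358) (nat_lit 323) (nat_lit 219)) (XT.nd (nat_lit 78) (nat_lit 532) (nat_lit 0) (XT.lf (nat_lit 0) (nat_lit 10996141622) (nat_lit 456) (nat_lit 3065535051) (nat_lit 532) (nat_lit 723904787) (nat_lit 148) (nat_lit 5) (nat_lit 154) (nat_lit 5) (nat_lit 155) (nat_lit 5) (nat_lit 359) (nat_lit 323) (nat_lit 218)) (XT.lf (nat_lit 0) (nat_lit 1700318906) (nat_lit 532) (nat_lit 10781038116) (nat_lit 76) (nat_lit 2561163754) (nat_lit 141) (nat_lit 5) (nat_lit 148) (nat_lit 5) (nat_lit 142) (nat_lit 5) (nat_lit 360) (nat_lit 323) (nat_lit 217)))) (XT.nd (nat_lit 78) (nat_lit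 380) (nat_lit 0) (XT.lf (nat_lit 0) (nat_lit 4236247879) (nat_lit 532) (nat_lit 2731298294) (nat_lit 76) (nat_lit 8337810544) (nat_lit 141) (nat_lit 5) (nat_lit 148) (nat_lit 5) (nat_lit 142) (nat_lit 5) (nat_lit 361) (nat_lit 323) (nat_lit 216)) (XT.nd (nat_lit 78) (nat_lit 0) (nat_lit 0) (XT.lf (nat_lit 0) (nat_lit 5651780948) (nat_lit 380) (nat_lit 1235784404) (nat_lit 456) (nat_lit 8687342109) (nat_lit 136) (nat_lit 5) (nat_lit 141) (nat_lit 5) (nat_lit 142) (nat_lit 5) (nat_lit 362) (nat_lit 323) (nat_lit 215)) (XT.lf (nat_lit 0) (nat_lit 9676357667) (nat_lit 456) (nat_lit 1573196262) (nat_lit 76) (nat_lit 4601261520) (nat_lit 136) (nat_lit 5) (nat_lit 142) (nat_lit 5) (nat_lit 137) (nat_lit 5) (nat_lit 363) (nat_lit 323) (nat_lit 214))))) (XT.nd (nat_lit 234) (nat_lit 684) (nat_lit 0) (XT.nd (nat_lit 78) (nat_lit 456) (nat_lit 0) (XT.lf (nat_lit 0) (nat_lit 7136115309) (nat_lit 380) (nat_lit 5479171882)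 (nat_lit 456) (nat_lit 3517727807) (nat_lit 131) (nat_lit 5) (nat_lit 136) (nat_lit 5) (nat_lit 137) (nat_lit 5) (nat_lit 364) (nat_lit 323) (nat_lit 213)) (XT.nd (nat_lit 78) (nat_lit 456) (nat_lit 0) (XT.lf (nat_lit 0) (nat_lit 15648741374) (nat_lit 456) (nat_lit 307218759) (nat_lit 76) (nat_lit 467537973) (nat_lit 131) (nat_lit 5) (nat_lit 137) (nat_lit 5) (nat_lit 132) (nat_lit 5) (nat_lit 365) (nat_lit 323) (nat_lit 212)) (XT.lf (nat_lit 0) (nat_lit 2136257556) (nat_lit 456) (nat_lit 7998241300) (nat_lit 76) (nat_lit 6583840330) (nat_lit 125) (nat_lit 5) (nat_lit 131) (nat_lit 5) (nat_lit 126) (nat_lit 5) (nat_lit 366) (nat_lit 323) (nat_lit 211)))) (XT.nd (nat_lit 156) (nat_lit 304) (nat_lit 0) (XT.nd (nat_lit 78) (nat_lit 0) (nat_lit 0) (XT.lf (nat_lit 0) (nat_lit 996422000) (nat_lit 380) (nat_lit 4121670932) (nat_lit 456) (nat_lit 11903738139) (nat_lit 120) (nat_lit 5) (nat_lit 125) (nat_lit 5)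 (nat_lit 126) (nat_lit 5) (nat_lit 367) (nat_lit 323) (nat_lit 210)) (XT.lf (nat_lit 0) (nat_lit 8277399205) (nat_lit 456) (nat_lit 6945948280) (nat_lit 76) (nat_lit 2108447106) (nat_lit 120) (nat_lit 5) (nat_lit 126) (nat_lit 5) (nat_lit 121) (nat_lit 5) (nat_lit 368) (nat_lit 323) (nat_lit 209))) (XT.nd (nat_lit 78) (nat_lit 0) (nat_lit 0) (XT.lf (nat_lit 0) (nat_lit 2394222892) (nat_lit 304) (nat_lit 9188013953) (nat_lit 380) (nat_lit 6067304748) (nat_lit 116) (nat_lit 5) (nat_lit 120) (nat_lit 5) (nat_lit 121) (nat_lit 5) (nat_lit 369) (nat_lit 323) (nat_lit 208)) (XT.lf (nat_lit 0) (nat_lit 12139571998) (nat_lit 304) (nat_lit 2903930229) (nat_lit 380) (nat_lit 2931607228) (nat_lit 116) (nat_lit 5) (nat_lit 120) (nat_lit 5) (nat_lit 121) (nat_lit 5) (nat_lit 370) (nat_lit 323) (nat_lit 207))))))) (XT.nd (nat_lit 1014) (nat_lit 1748) (nat_lit 0) (XT.nd (nat_lit 468) (nat_lit 1292) (nat_lit 0) (XT.nd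 (nat_lit 234) (nat_lit 304) (nat_lit 0) (XT.nd (nat_lit 78) (nat_lit 304) (nat_lit 0) (XT.lf (nat_lit 0) (nat_lit 352105634) (nat_lit 456) (nat_lit 14420906847) (nat_lit 76) (nat_lit 3535559545) (nat_lit 110) (nat_lit 5) (nat_lit 116) (nat_lit 5) (nat_lit 111) (nat_lit 5) (nat_lit 371) (nat_lit 323) (nat_lit 206)) (XT.nd (nat_lit 78) (nat_lit 304) (nat_lit 0) (XT.lf (nat_lit 0) (nat_lit 3751216603) (nat_lit 456) (nat_lit 4703774033) (nat_lit 76) (nat_lit 10193909135) (nat_lit 110) (nat_lit 5) (nat_lit 116) (nat_lit 5) (nat_lit 111) (nat_lit 5) (nat_lit 372) (nat_lit 323) (nat_lit 205)) (XT.lf (nat_lit 0) (nat_lit 5393290990) (nat_lit 304) (nat_lit 1898762658) (nat_lit 380) (nat_lit 11706197275) (nat_lit 106) (nat_lit 5) (nat_lit 110) (nat_lit 5) (nat_lit 111) (nat_lit 5) (nat_lit 373) (nat_lit 323) (nat_lit 204)))) (XT.nd (nat_lit 78) (nat_lit 304) (nat_lit 0) (XT.lf (nat_lit 0) (nat_lit 11021801463) (nat_lit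 380) (nat_lit 3531074836) (nat_lit 76) (nat_lit 4802731719) (nat_lit 106) (nat_lit 5) (nat_lit 111) (nat_lit 5) (nat_lit 107) (nat_lit 5) (nat_lit 374) (nat_lit 323) (nat_lit 203)) (XT.nd (nat_lit 78) (nat_lit 0) (nat_lit 0) (XT.lf (nat_lit 0) (nat_lit 6945272377) (nat_lit 304) (nat_lit 7992134470) (nat_lit 380) (nat_lit 4784065833) (nat_lit 102) (nat_lit 5) (nat_lit 106) (nat_lit 5) (nat_lit 107) (nat_lit 5) (nat_lit 375) (nat_lit 323) (nat_lit 202)) (XT.lf (nat_lit 0) (nat_lit 17791973085) (nat_lit 304) (nat_lit 1202748423) (nat_lit 380) (nat_lit 1102870174) (nat_lit 102) (nat_lit 5) (nat_lit 106) (nat_lit 5) (nat_lit 107) (nat_lit 5) (nat_lit 376) (nat_lit 323) (nat_lit 201))))) (XT.nd (nat_lit 234) (nat_lit 608) (nat_lit 0) (XT.nd (nat_lit 78) (nat_lit 304) (nat_lit 0) (XT.lf (nat_lit 0) (nat_lit 2764500896) (nat_lit 380) (nat_lit 11933689471) (nat_lit 76) (nat_lit 5782187611) (nat_lit 97) (nat_lit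 5) (nat_lit 102) (nat_lit 5) (nat_lit 98) (nat_lit 5) (nat_lit 377) (nat_lit 323) (nat_lit 200)) (XT.nd (nat_lit 78) (nat_lit 304) (nat_lit 0) (XT.lf (nat_lit 0) (nat_lit 6750075393) (nat_lit 380) (nat_lit 1141384720) (nat_lit 76) (nat_lit 12982134856) (nat_lit 97) (nat_lit 5) (nat_lit 102) (nat_lit 5) (nat_lit 98) (nat_lit 5) (nat_lit 378) (nat_lit 323) (nat_lit 199)) (XT.lf (nat_lit 0) (nat_lit 10157159268) (nat_lit 304) (nat_lit 784944925) (nat_lit 380) (nat_lit 10333902673) (nat_lit 93) (nat_lit 5) (nat_lit 97) (nat_lit 5) (nat_lit 98) (nat_lit 5) (nat_lit 379) (nat_lit 323) (nat_lit 198)))) (XT.nd (nat_lit 156) (nat_lit 380) (nat_lit 0) (XT.nd (nat_lit 78) (nat_lit 0) (nat_lit 0) (XT.lf (nat_lit 0) (nat_lit 50106071) (nat_lit 228) (nat_lit 15274091068) (nat_lit 304) (nat_lit 6364369741) (nat_lit 90) (nat_lit 5) (nat_lit 93) (nat_lit 5) (nat_lit 94) (nat_lit 5) (nat_lit 380) (nat_lit 323) (nat_lit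 197)) (XT.lf (nat_lit 0) (nat_lit 11758429949) (nat_lit 228) (nat_lit 8188821474) (nat_lit 304) (nat_lit 2162972038) (nat_lit 90) (nat_lit 5) (nat_lit 93) (nat_lit 5) (nat_lit 94) (nat_lit 5) (nat_lit 381) (nat_lit 323) (nat_lit 196))) (XT.nd (nat_lit 78) (nat_lit 0) (nat_lit 0) (XT.lf (nat_lit 0) (nat_lit 1261841469) (nat_lit 304) (nat_lit 862243531) (nat_lit 380) (nat_lit 20419769382) (nat_lit 85) (nat_lit 5) (nat_lit 89) (nat_lit 5) (nat_lit 90) (nat_lit 5) (nat_lit 382) (nat_lit 323) (nat_lit 195)) (XT.lf (nat_lit 0) (nat_lit 6655926786) (nat_lit 380) (nat_lit 9653529673) (nat_lit 76) (nat_lit 6675610226) (nat_lit 85) (nat_lit 5) (nat_lit 90) (nat_lit 5) (nat_lit 86) (nat_lit 5) (nat_lit 383) (nat_lit 323) (nat_lit 194)))))) (XT.nd (nat_lit 546) (nat_lit 760) (nat_lit 0) (XT.nd (nat_lit 234) (nat_lit 532) (nat_lit 0) (XT.nd (nat_lit 78) (nat_lit 228) (nat_lit 0) (XT.lf (nat_lit 0) (nat_lit 2345945903)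 (nat_lit 228) (nat_lit 8998988830) (nat_lit 304) (nat_lit 12093948492) (nat_lit 82) (nat_lit 5) (nat_lit 85) (nat_lit 5) (nat_lit 86) (nat_lit 5) (nat_lit 384) (nat_lit 323) (nat_lit 193)) (XT.nd (nat_lit 78) (nat_lit 228) (nat_lit 0) (XT.lf (nat_lit 0) (nat_lit 14888338760) (nat_lit 228) (nat_lit 1374022975) (nat_lit 304) (nat_lit 7641324132) (nat_lit 82) (nat_lit 5) (nat_lit 85) (nat_lit 5) (nat_lit 86) (nat_lit 5) (nat_lit 385) (nat_lit 323) (nat_lit 192)) (XT.lf (nat_lit 0) (nat_lit 3414148380) (nat_lit 228) (nat_lit 17998770657) (nat_lit 304) (nat_lit 2966949281) (nat_lit 79) (nat_lit 5) (nat_lit 82) (nat_lit 5) (nat_lit 83) (nat_lit 5) (nat_lit 386) (nat_lit 323) (nat_lit 191)))) (XT.nd (nat_lit 156) (nat_lit 228) (nat_lit 0) (XT.nd (nat_lit 78) (nat_lit 228) (nat_lit 0) (XT.lf (nat_lit 0) (nat_lit 1907686813) (nat_lit 304) (nat_lit 8513342251) (nat_lit 76) (nat_lit 14445895546) (nat_lit 78) (nat_lit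 5) (nat_lit 82) (nat_lit 5) (nat_lit 79) (nat_lit 5) (nat_lit 387) (nat_lit 323) (nat_lit 190)) (XT.lf (nat_lit 0) (nat_lit 4353815591) (nat_lit 228) (nat_lit 2547782243) (nat_lit 304) (nat_lit 18465137044) (nat_lit 75) (nat_lit 5) (nat_lit 78) (nat_lit 5) (nat_lit 79) (nat_lit 5) (nat_lit 388) (nat_lit 323) (nat_lit 189))) (XT.nd (nat_lit 78) (nat_lit 228) (nat_lit 0) (XT.lf (nat_lit 0) (nat_lit 12176505413) (nat_lit 304) (nat_lit 8166228761) (nat_lit 76) (nat_lit 5534873416) (nat_lit 75) (nat_lit 5) (nat_lit 79) (nat_lit 5) (nat_lit 76) (nat_lit 5) (nat_lit 389) (nat_lit 323) (nat_lit 188)) (XT.lf (nat_lit 0) (nat_lit 5126638800) (nat_lit 228) (nat_lit 12548690377) (nat_lit 304) (nat_lit 8726510648) (nat_lit 72) (nat_lit 5) (nat_lit 75) (nat_lit 5) (nat_lit 76) (nat_lit 5) (nat_lit 390) (nat_lit 323) (nat_lit 187))))) (XT.nd (nat_lit 234) (nat_lit 456) (nat_lit 0) (XT.nd (nat_lit 78) (nat_lit 304) (nat_lit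 0) (XT.lf (nat_lit 0) (nat_lit 18971792392) (nat_lit 228) (nat_lit 4441074942) (nat_lit 304) (nat_lit 3526722513) (nat_lit 72) (nat_lit 5) (nat_lit 75) (nat_lit 5) (nat_lit 76) (nat_lit 5) (nat_lit 391) (nat_lit 323) (nat_lit 186)) (XT.nd (nat_lit 78) (nat_lit 0) (nat_lit 0) (XT.lf (nat_lit 0) (nat_lit 1879039999) (nat_lit 304) (nat_lit 21708617549) (nat_lit 76) (nat_lit 3902720313) (nat_lit 68) (nat_lit 5) (nat_lit 72) (nat_lit 5) (nat_lit 69) (nat_lit 5) (nat_lit 392) (nat_lit 323) (nat_lit 185)) (XT.lf (nat_lit 0) (nat_lit 7492841945) (nat_lit 304) (nat_lit 8041565413) (nat_lit 76) (nat_lit 12518735139) (nat_lit 68) (nat_lit 5) (nat_lit 72) (nat_lit 5) (nat_lit 69) (nat_lit 5) (nat_lit 393) (nat_lit 323) (nat_lit 184)))) (XT.nd (nat_lit 156) (nat_lit 228) (nat_lit 0) (XT.nd (nat_lit 78) (nat_lit 0) (nat_lit 0) (XT.lf (nat_lit 0) (nat_lit 6142010436) (nat_lit 228) (nat_lit 7183858560) (nat_lit 304) (nat_lit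 15305399688) (nat_lit 65) (nat_lit 5) (nat_lit 68) (nat_lit 5) (nat_lit 69) (nat_lit 5) (nat_lit 394) (nat_lit 323) (nat_lit 183)) (XT.lf (nat_lit 0) (nat_lit 19421352010) (nat_lit 304) (nat_lit 8336199039) (nat_lit 76) (nat_lit 1466566508) (nat_lit 65) (nat_lit 5) (nat_lit 69) (nat_lit 5) (nat_lit 66) (nat_lit 5) (nat_lit 395) (nat_lit 323) (nat_lit 182))) (XT.nd (nat_lit 78) (nat_lit 76) (nat_lit 0) (XT.lf (nat_lit 0) (nat_lit 6279850420) (nat_lit 152) (nat_lit 19543414064) (nat_lit 228) (nat_lit 4007783237) (nat_lit 63) (nat_lit 5) (nat_lit 65) (nat_lit 5) (nat_lit 66) (nat_lit 5) (nat_lit 396) (nat_lit 323) (nat_lit 181)) (XT.lf (nat_lit 0) (nat_lit 1999892980) (nat_lit 228) (nat_lit 8981128357) (nat_lit 76) (nat_lit 19472288194) (nat_lit 62) (nat_lit 5) (nat_lit 65) (nat_lit 5) (nat_lit 63) (nat_lit 5) (nat_lit 397) (nat_lit 323) (nat_lit 180))))))))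
noncomputable def xc164 : XT := (XT.nd (nat_lit 2028) (nat_lit 836) (nat_lit 0) (XT.nd (nat_lit 1014) (nat_lit 988) (nat_lit 0) (XT.nd (nat_lit 468) (nat_lit 532) (nat_lit 0) (XT.nd (nat_lit 234) (nat_lit 228) (nat_lit 0) (XT.nd (nat_lit 78) (nat_lit 152) (nat_lit 0) (XT.lf (nat_lit 0) (nat_lit 6092580936) (nat_lit 228) (nat_lit 2065560652) (nat_lit 304) (nat_lit 22933382875) (nat_lit 59) (nat_lit 5) (nat_lit 62) (nat_lit 5) (nat_lit 63) (nat_lit 5) (nat_lit 398) (nat_lit 323) (nat_lit 179)) (XT.nd (nat_lit 78) (nat_lit 152) (nat_lit 0) (XT.lf (nat_lit 0) (nat_lit 14653527807) (nat_lit 304) (nat_lit 10025600012) (nat_lit 76) (nat_lit 7065188785) (nat_lit 59) (nat_lit 5) (nat_lit 63) (nat_lit 5) (nat_lit 60) (nat_lit 5) (nat_lit 399) (nat_lit 323) (nat_lit 178)) (XT.lf (nat_lit 0) (nat_lit 5470893866) (nat_lit 152) (nat_lit 15938528215) (nat_lit 228) (nat_lit 11005303425) (nat_lit 57) (nat_lit 5) (nat_lit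 59) (nat_lit 5) (nat_lit 60) (nat_lit 5) (nat_lit 400) (nat_lit 323) (nat_lit 177)))) (XT.nd (nat_lit 78) (nat_lit 228) (nat_lit 0) (XT.lf (nat_lit 0) (nat_lit 21625562977) (nat_lit 152) (nat_lit 6836372665) (nat_lit 228) (nat_lit 4640495083) (nat_lit 57) (nat_lit 5) (nat_lit 59) (nat_lit 5) (nat_lit 60) (nat_lit 5) (nat_lit 401) (nat_lit 323) (nat_lit 176)) (XT.nd (nat_lit 78) (nat_lit 0) (nat_lit 0) (XT.lf (nat_lit 0) (nat_lit 1939066848) (nat_lit 228) (nat_lit 29322389087) (nat_lit 76) (nat_lit 2546925547) (nat_lit 54) (nat_lit 5) (nat_lit 57) (nat_lit 5) (nat_lit 55) (nat_lit 5) (nat_lit 402) (nat_lit 323) (nat_lit 175)) (XT.lf (nat_lit 0) (nat_lit 8800365635) (nat_lit 228) (nat_lit 13495883277) (nat_lit 76) (nat_lit 12232557028) (nat_lit 54) (nat_lit 5) (nat_lit 57) (nat_lit 5) (nat_lit 55) (nat_lit 5) (nat_lit 403) (nat_lit 323) (nat_lit 174))))) (XT.nd (nat_lit 234) (nat_lit 228) (nat_lit 0) (XT.nd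 (nat_lit 78) (nat_lit 152) (nat_lit 0) (XT.lf (nat_lit 0) (nat_lit 2849296981) (nat_lit 152) (nat_lit 13038693815) (nat_lit 228) (nat_lit 19382239778) (nat_lit 52) (nat_lit 5) (nat_lit 54) (nat_lit 5) (nat_lit 55) (nat_lit 5) (nat_lit 404) (nat_lit 323) (nat_lit 173)) (XT.nd (nat_lit 78) (nat_lit 152) (nat_lit 0) (XT.lf (nat_lit 0) (nat_lit 19949879162) (nat_lit 152) (nat_lit 3367835193) (nat_lit 228) (nat_lit 12712301504) (nat_lit 52) (nat_lit 5) (nat_lit 54) (nat_lit 5) (nat_lit 55) (nat_lit 5) (nat_lit 405) (nat_lit 323) (nat_lit 172)) (XT.lf (nat_lit 0) (nat_lit 689538649) (nat_lit 152) (nat_lit 30344137988) (nat_lit 228) (nat_lit 5777019602) (nat_lit 50) (nat_lit 5) (nat_lit 52) (nat_lit 5) (nat_lit 53) (nat_lit 5) (nat_lit 406) (nat_lit 323) (nat_lit 171)))) (XT.nd (nat_lit 156) (nat_lit 152) (nat_lit 0) (XT.nd (nat_lit 78) (nat_lit 0) (nat_lit 0) (XT.lf (nat_lit 0) (nat_lit 1530349012) (nat_lit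 228) (nat_lit 19377526360) (nat_lit 76) (nat_lit 16700808769) (nat_lit 49) (nat_lit 5) (nat_lit 52) (nat_lit 5) (nat_lit 50) (nat_lit 5) (nat_lit 407) (nat_lit 323) (nat_lit 170)) (XT.lf (nat_lit 0) (nat_lit 8934379358) (nat_lit 228) (nat_lit 2199896492) (nat_lit 76) (nat_lit 27294815073) (nat_lit 49) (nat_lit 5) (nat_lit 52) (nat_lit 5) (nat_lit 50) (nat_lit 5) (nat_lit 408) (nat_lit 323) (nat_lit 169))) (XT.nd (nat_lit 78) (nat_lit 0) (nat_lit 0) (XT.lf (nat_lit 0) (nat_lit 15790401447) (nat_lit 152) (nat_lit 915656988) (nat_lit 228) (nat_lit 22563687366) (nat_lit 47) (nat_lit 5) (nat_lit 49) (nat_lit 5) (nat_lit 50) (nat_lit 5) (nat_lit 409) (nat_lit 323) (nat_lit 168)) (XT.lf (nat_lit 0) (nat_lit 24819472217) (nat_lit 228) (nat_lit 5872868818) (nat_lit 76) (nat_lit 9440023440) (nat_lit 47) (nat_lit 5) (nat_lit 50) (nat_lit 5) (nat_lit 48) (nat_lit 5) (nat_lit 410) (nat_lit 323) (nat_lit 167)))))) (XT.nd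 (nat_lit 468) (nat_lit 456) (nat_lit 0) (XT.nd (nat_lit 234) (nat_lit 152) (nat_lit 0) (XT.nd (nat_lit 78) (nat_lit 228) (nat_lit 0) (XT.lf (nat_lit 0) (nat_lit 12485868229) (nat_lit 152) (nat_lit 20813466298) (nat_lit 228) (nat_lit 7717837425) (nat_lit 45) (nat_lit 5) (nat_lit 47) (nat_lit 5) (nat_lit 48) (nat_lit 5) (nat_lit 411) (nat_lit 323) (nat_lit 166)) (XT.nd (nat_lit 78) (nat_lit 152) (nat_lit 0) (XT.lf (nat_lit 0) (nat_lit 156884114) (nat_lit 228) (nat_lit 10423115768) (nat_lit 76) (nat_lit 31346879047) (nat_lit 44) (nat_lit 5) (nat_lit 47) (nat_lit 5) (nat_lit 45) (nat_lit 5) (nat_lit 412) (nat_lit 323) (nat_lit 165)) (XT.lf (nat_lit 0) (nat_lit 8187820907) (nat_lit 228) (nat_lit 34556775796) (nat_lit 76) (nat_lit 114736640) (nat_lit 42) (nat_lit 5) (nat_lit 45) (nat_lit 5) (nat_lit 43) (nat_lit 5) (nat_lit 413) (nat_lit 323) (nat_lit 164)))) (XT.nd (nat_lit 78) (nat_lit 152) (nat_lit 0) (XT.lf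 (nat_lit 0) (nat_lit 16664913988) (nat_lit 228) (nat_lit 16128989294) (nat_lit 76) (nat_lit 11019702711) (nat_lit 42) (nat_lit 5) (nat_lit 45) (nat_lit 5) (nat_lit 43) (nat_lit 5) (nat_lit 414) (nat_lit 323) (nat_lit 163)) (XT.nd (nat_lit 78) (nat_lit 0) (nat_lit 0) (XT.lf (nat_lit 0) (nat_lit 2898228764) (nat_lit 152) (nat_lit 22520300711) (nat_lit 228) (nat_lit 19377312463) (nat_lit 40) (nat_lit 5) (nat_lit 42) (nat_lit 5) (nat_lit 43) (nat_lit 5) (nat_lit 415) (nat_lit 323) (nat_lit 162)) (XT.lf (nat_lit 0) (nat_lit 22817032528) (nat_lit 152) (nat_lit 11775011918) (nat_lit 228) (nat_lit 11210783148) (nat_lit 40) (nat_lit 5) (nat_lit 42) (nat_lit 5) (nat_lit 43) (nat_lit 5) (nat_lit 416) (nat_lit 323) (nat_lit 161))))) (XT.nd (nat_lit 234) (nat_lit 304) (nat_lit 0) (XT.nd (nat_lit 78) (nat_lit 152) (nat_lit 0) (XT.lf (nat_lit 0) (nat_lit 43323828265) (nat_lit 152) (nat_lit 711518984) (nat_lit 228) (nat_lit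 2804839423) (nat_lit 40) (nat_lit 5) (nat_lit 42) (nat_lit 5) (nat_lit 43) (nat_lit 5) (nat_lit 417) (nat_lit 323) (nat_lit 160)) (XT.nd (nat_lit 78) (nat_lit 0) (nat_lit 0) (XT.lf (nat_lit 0) (nat_lit 6000052713) (nat_lit 152) (nat_lit 31207800539) (nat_lit 76) (nat_lit 10691296898) (nat_lit 38) (nat_lit 5) (nat_lit 40) (nat_lit 5) (nat_lit 39) (nat_lit 5) (nat_lit 418) (nat_lit 323) (nat_lit 159)) (XT.lf (nat_lit 0) (nat_lit 15050334840) (nat_lit 152) (nat_lit 11456041296) (nat_lit 76) (nat_lit 22481545956) (nat_lit 38) (nat_lit 5) (nat_lit 40) (nat_lit 5) (nat_lit 39) (nat_lit 5) (nat_lit 419) (nat_lit 323) (nat_lit 158)))) (XT.nd (nat_lit 156) (nat_lit 152) (nat_lit 0) (XT.nd (nat_lit 78) (nat_lit 0) (nat_lit 0) (XT.lf (nat_lit 0) (nat_lit 9055829381) (nat_lit 152) (nat_lit 15398213295) (nat_lit 228) (nat_lit 25652858175) (nat_lit 36) (nat_lit 5) (nat_lit 38) (nat_lit 5) (nat_lit 39) (nat_lit 5) (nat_lit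 420) (nat_lit 323) (nat_lit 157)) (XT.lf (nat_lit 0) (nat_lit 30408830338) (nat_lit 152) (nat_lit 3841644416) (nat_lit 228) (nat_lit 17005656971) (nat_lit 36) (nat_lit 5) (nat_lit 38) (nat_lit 5) (nat_lit 39) (nat_lit 5) (nat_lit 421) (nat_lit 323) (nat_lit 156))) (XT.nd (nat_lit 78) (nat_lit 152) (nat_lit 0) (XT.lf (nat_lit 0) (nat_lit 44413332907) (nat_lit 228) (nat_lit 123822441) (nat_lit 76) (nat_lit 7900509293) (nat_lit 36) (nat_lit 5) (nat_lit 39) (nat_lit 5) (nat_lit 37) (nat_lit 4) (nat_lit 422) (nat_lit 323) (nat_lit 155)) (XT.lf (nat_lit 0) (nat_lit 1445699646) (nat_lit 152) (nat_lit 32065502839) (nat_lit 76) (nat_lit 20135792472) (nat_lit 34) (nat_lit 5) (nat_lit 36) (nat_lit 5) (nat_lit 35) (nat_lit 5) (nat_lit 423) (nat_lit 323) (nat_lit 154))))))) (XT.nd (nat_lit 1014) (nat_lit 76) (nat_lit 0) (XT.nd (nat_lit 468) (nat_lit 456) (nat_lit 0) (XT.nd (nat_lit 234) (nat_lit 152) (nat_lit 0) (XT.nd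 (nat_lit 78) (nat_lit 152) (nat_lit 0) (XT.lf (nat_lit 0) (nat_lit 11035007716) (nat_lit 152) (nat_lit 11040187828) (nat_lit 76) (nat_lit 32815133482) (nat_lit 34) (nat_lit 5) (nat_lit 36) (nat_lit 5) (nat_lit 35) (nat_lit 5) (nat_lit 424) (nat_lit 323) (nat_lit 153)) (XT.nd (nat_lit 78) (nat_lit 0) (nat_lit 0) (XT.lf (nat_lit 0) (nat_lit 10818585226) (nat_lit 152) (nat_lit 10192738765) (nat_lit 228) (nat_lit 35156660243) (nat_lit 32) (nat_lit 5) (nat_lit 34) (nat_lit 5) (nat_lit 35) (nat_lit 5) (nat_lit 425) (nat_lit 323) (nat_lit 152)) (XT.lf (nat_lit 0) (nat_lit 31414541256) (nat_lit 228) (nat_lit 23950395149) (nat_lit 76) (nat_lit 2115205304) (nat_lit 32) (nat_lit 5) (nat_lit 35) (nat_lit 5) (nat_lit 33) (nat_lit 4) (nat_lit 426) (nat_lit 323) (nat_lit 151)))) (XT.nd (nat_lit 78) (nat_lit 152) (nat_lit 0) (XT.lf (nat_lit 0) (nat_lit 42226262760) (nat_lit 228) (nat_lit 2018525812) (nat_lit 76) (nat_lit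 14583984035) (nat_lit 32) (nat_lit 5) (nat_lit 35) (nat_lit 5) (nat_lit 33) (nat_lit 4) (nat_lit 427) (nat_lit 323) (nat_lit 150)) (XT.nd (nat_lit 78) (nat_lit 76) (nat_lit 0) (XT.lf (nat_lit 0) (nat_lit 20972602628) (nat_lit 76) (nat_lit 32586955654) (nat_lit 152) (nat_lit 6652388379) (nat_lit 31) (nat_lit 5) (nat_lit 32) (nat_lit 5) (nat_lit 33) (nat_lit 4) (nat_lit 428) (nat_lit 323) (nat_lit 149)) (XT.lf (nat_lit 0) (nat_lit 3542275249) (nat_lit 152) (nat_lit 16983890672) (nat_lit 76) (nat_lit 41108927368) (nat_lit 30) (nat_lit 5) (nat_lit 32) (nat_lit 5) (nat_lit 31) (nat_lit 5) (nat_lit 429) (nat_lit 323) (nat_lit 148))))) (XT.nd (nat_lit 234) (nat_lit 304) (nat_lit 0) (XT.nd (nat_lit 78) (nat_lit 0) (nat_lit 0) (XT.lf (nat_lit 0) (nat_lit 5982372567) (nat_lit 152) (nat_lit 7979962413) (nat_lit 228) (nat_lit 49135026325) (nat_lit 28) (nat_lit 5) (nat_lit 30) (nat_lit 5) (nat_lit 31) (nat_lit 5) (nat_lit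 430) (nat_lit 323) (nat_lit 147)) (XT.nd (nat_lit 78) (nat_lit 0) (nat_lit 0) (XT.lf (nat_lit 0) (nat_lit 24911483336) (nat_lit 228) (nat_lit 34669528806) (nat_lit 76) (nat_lit 5015991418) (nat_lit 28) (nat_lit 5) (nat_lit 31) (nat_lit 5) (nat_lit 29) (nat_lit 4) (nat_lit 431) (nat_lit 323) (nat_lit 146)) (XT.lf (nat_lit 0) (nat_lit 36264012001) (nat_lit 228) (nat_lit 11637232816) (nat_lit 76) (nat_lit 18238143865) (nat_lit 28) (nat_lit 5) (nat_lit 31) (nat_lit 5) (nat_lit 29) (nat_lit 4) (nat_lit 432) (nat_lit 323) (nat_lit 145)))) (XT.nd (nat_lit 156) (nat_lit 228) (nat_lit 0) (XT.nd (nat_lit 78) (nat_lit 0) (nat_lit 0) (XT.lf (nat_lit 0) (nat_lit 12319123282) (nat_lit 76) (nat_lit 35752428047) (nat_lit 152) (nat_lit 19653061740) (nat_lit 27) (nat_lit 5) (nat_lit 28) (nat_lit 5) (nat_lit 29) (nat_lit 4) (nat_lit 433) (nat_lit 323) (nat_lit 144)) (XT.lf (nat_lit 0) (nat_lit 37225494254) (nat_lit 76) (nat_lit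 23121398239) (nat_lit 152) (nat_lit 9007095159) (nat_lit 27) (nat_lit 5) (nat_lit 28) (nat_lit 5) (nat_lit 29) (nat_lit 4) (nat_lit 434) (nat_lit 323) (nat_lit 143))) (XT.nd (nat_lit 78) (nat_lit 152) (nat_lit 0) (XT.lf (nat_lit 0) (nat_lit 1916176459) (nat_lit 152) (nat_lit 8179105720) (nat_lit 76) (nat_lit 60936513110) (nat_lit 26) (nat_lit 5) (nat_lit 28) (nat_lit 5) (nat_lit 27) (nat_lit 5) (nat_lit 435) (nat_lit 323) (nat_lit 142)) (XT.lf (nat_lit 0) (nat_lit 13177449690) (nat_lit 228) (nat_lit 56067983793) (nat_lit 76) (nat_lit 3506088854) (nat_lit 24) (nat_lit 5) (nat_lit 27) (nat_lit 5) (nat_lit 25) (nat_lit 4) (nat_lit 436) (nat_lit 323) (nat_lit 141)))))) (XT.nd (nat_lit 38376) (nat_lit 0) (nat_lit 16720) (XT.nd (nat_lit 38064) (nat_lit 0) (nat_lit 17708) (XT.nd (nat_lit 78) (nat_lit 76) (nat_lit 0) (XT.lf (nat_lit 0) (nat_lit 24956189804) (nat_lit 228) (nat_lit 32168311058) (nat_lit 76) (nat_lit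 17392952126) (nat_lit 24) (nat_lit 5) (nat_lit 27) (nat_lit 5) (nat_lit 25) (nat_lit 4) (nat_lit 437) (nat_lit 323) (nat_lit 140)) (XT.nd (nat_lit 234) (nat_lit 76) (nat_lit 0) (XT.lf (nat_lit 0) (nat_lit 37084665629) (nat_lit 228) (nat_lit 7558349496) (nat_lit 76) (nat_lit 31693455859) (nat_lit 24) (nat_lit 5) (nat_lit 27) (nat_lit 5) (nat_lit 25) (nat_lit 4) (nat_lit 438) (nat_lit 323) (nat_lit 139)) (XT.lf (nat_lit 0) (nat_lit 72159617186) (nat_lit 76) (nat_lit 4210093357) (nat_lit 152) (nat_lit 5737663883) (nat_lit 23) (nat_lit 5) (nat_lit 24) (nat_lit 5) (nat_lit 25) (nat_lit 4) (nat_lit 441) (nat_lit 323) (nat_lit 136)))) (XT.nd (nat_lit 156) (nat_lit 0) (nat_lit 0) (XT.nd (nat_lit 78) (nat_lit 0) (nat_lit 0) (XT.lf (nat_lit 0) (nat_lit 1128442835) (nat_lit 0) (nat_lit 1128442835) (nat_lit 988) (nat_lit 2204718515) (nat_lit 256) (nat_lit 5) (nat_lit 256) (nat_lit 3) (nat_lit 269) (nat_lit 3) (nat_lit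 324) (nat_lit 324) (nat_lit 252)) (XT.lf (nat_lit 0) (nat_lit 5482340695) (nat_lit 988) (nat_lit 2466896710) (nat_lit 1064) (nat_lit 1080037259) (nat_lit 256) (nat_lit 5) (nat_lit 269) (nat_lit 3) (nat_lit 270) (nat_lit 5) (nat_lit 325) (nat_lit 324) (nat_lit 251))) (XT.nd (nat_lit 78) (nat_lit 0) (nat_lit 0) (XT.lf (nat_lit 76) (nat_lit 1853728270) (nat_lit 0) (nat_lit 4631825516) (nat_lit 1064) (nat_lit 2652831066) (nat_lit 257) (nat_lit 5) (nat_lit 256) (nat_lit 5) (nat_lit 270) (nat_lit 5) (nat_lit 326) (nat_lit 324) (nat_lit 250)) (XT.lf (nat_lit 76) (nat_lit 6336112129) (nat_lit 0) (nat_lit 1173914019) (nat_lit 1064) (nat_lit 1741035954) (nat_lit 257) (nat_lit 5) (nat_lit 256) (nat_lit 5) (nat_lit 270) (nat_lit 5) (nat_lit 327) (nat_lit 324) (nat_lit 249))))) (XT.nd (nat_lit 234) (nat_lit 0) (nat_lit 76) (XT.nd (nat_lit 78) (nat_lit 1064) (nat_lit 0) (XT.lf (nat_lit 76) (nat_lit 1574575298) (nat_lit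 0) (nat_lit 6996123505) (nat_lit 1064) (nat_lit 796284691) (nat_lit 258) (nat_lit 5) (nat_lit 257) (nat_lit 5) (nat_lit 271) (nat_lit 5) (nat_lit 328) (nat_lit 324) (nat_lit 248)) (XT.nd (nat_lit 78) (nat_lit 0) (nat_lit 76) (XT.lf (nat_lit 0) (nat_lit 182513551) (nat_lit 1064) (nat_lit 3260099505) (nat_lit 1140) (nat_lit 6043470059) (nat_lit 243) (nat_lit 5) (nat_lit 257) (nat_lit 5) (nat_lit 258) (nat_lit 5) (nat_lit 329) (nat_lit 324) (nat_lit 247)) (XT.lf (nat_lit 0) (nat_lit 1159377590) (nat_lit 1064) (nat_lit 8202668801) (nat_lit 1140) (nat_lit 246957070) (nat_lit 244) (nat_lit 5) (nat_lit 258) (nat_lit 5) (nat_lit 259) (nat_lit 5) (nat_lit 330) (nat_lit 324) (nat_lit 246)))) (XT.nd (nat_lit 156) (nat_lit 0) (nat_lit 76) (XT.nd (nat_lit 78) (nat_lit 0) (nat_lit 0) (XT.lf (nat_lit 0) (nat_lit 2202465071) (nat_lit 1064) (nat_lit 3509269318) (nat_lit 1140) (nat_lit 4022794212) (nat_lit 244) (nat_lit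 5) (nat_lit 258) (nat_lit 5) (nat_lit 259) (nat_lit 5) (nat_lit 331) (nat_lit 324) (nat_lit 245)) (XT.lf (nat_lit 76) (nat_lit 1331670268) (nat_lit 0) (nat_lit 1928447273) (nat_lit 1140) (nat_lit 6604227770) (nat_lit 245) (nat_lit 5) (nat_lit 244) (nat_lit 5) (nat_lit 259) (nat_lit 5) (nat_lit 332) (nat_lit 324) (nat_lit 244))) (XT.nd (nat_lit 78) (nat_lit 0) (nat_lit 0) (XT.lf (nat_lit 0) (nat_lit 4375450575) (nat_lit 1064) (nat_lit 3646532363) (nat_lit 1140) (nat_lit 1975318345) (nat_lit 245) (nat_lit 5) (nat_lit 259) (nat_lit 5) (nat_lit 260) (nat_lit 5) (nat_lit 333) (nat_lit 324) (nat_lit 243)) (XT.lf (nat_lit 76) (nat_lit 1374463706) (nat_lit 0) (nat_lit 4154165730) (nat_lit 1140) (nat_lit 4605507533) (nat_lit 246) (nat_lit 5) (nat_lit 245) (nat_lit 5) (nat_lit 260) (nat_lit 5) (nat_lit 334) (nat_lit 324) (nat_lit 242))))))))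
noncomputable def xc165 : XT := (XT.nd (nat_lit 2028) (nat_lit 5168) (nat_lit 0) (XT.nd (nat_lit 1014) (nat_lit 3724) (nat_lit 0) (XT.nd (nat_lit 468) (nat_lit 2736) (nat_lit 0) (XT.nd (nat_lit 234) (nat_lit 988) (nat_lit 0) (XT.nd (nat_lit 78) (nat_lit 0) (nat_lit 76) (XT.lf (nat_lit 76) (nat_lit 6601572672) (nat_lit 0) (nat_lit 124361924) (nat_lit 1140) (nat_lit 3548879155) (nat_lit 246) (nat_lit 5) (nat_lit 245) (nat_lit 5) (nat_lit 260) (nat_lit 5) (nat_lit 335) (nat_lit 324) (nat_lit 241)) (XT.nd (nat_lit 78) (nat_lit 0) (nat_lit 0) (XT.lf (nat_lit 76) (nat_lit 1537485081) (nat_lit 0) (nat_lit 6448734587) (nat_lit 1140) (nat_lit 2432700660) (nat_lit 247) (nat_lit 5) (nat_lit 246) (nat_lit 5) (nat_lit 261) (nat_lit 5) (nat_lit 336) (nat_lit 324) (nat_lit 240)) (XT.lf (nat_lit 76) (nat_lit 6959169932) (nat_lit 0) (nat_lit 2337616073) (nat_lit 1140) (nat_lit 1270210606) (nat_lit 247) (nat_lit 5) (nat_lit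 246) (nat_lit 5) (nat_lit 261) (nat_lit 5) (nat_lit 337) (nat_lit 324) (nat_lit 239)))) (XT.nd (nat_lit 78) (nat_lit 1140) (nat_lit 0) (XT.lf (nat_lit 76) (nat_lit 1821630513) (nat_lit 0) (nat_lit 8835756581) (nat_lit 1140) (nat_lit 61826647) (nat_lit 248) (nat_lit 5) (nat_lit 247) (nat_lit 5) (nat_lit 262) (nat_lit 5) (nat_lit 338) (nat_lit 324) (nat_lit 238)) (XT.nd (nat_lit 78) (nat_lit 0) (nat_lit 0) (XT.lf (nat_lit 0) (nat_lit 1194919082) (nat_lit 1140) (nat_lit 3441842625) (nat_lit 1216) (nat_lit 6237857785) (nat_lit 232) (nat_lit 5) (nat_lit 247) (nat_lit 5) (nat_lit 248) (nat_lit 5) (nat_lit 339) (nat_lit 324) (nat_lit 237)) (XT.lf (nat_lit 76) (nat_lit 2200488555) (nat_lit 0) (nat_lit 284762894) (nat_lit 1216) (nat_lit 8549522178) (nat_lit 233) (nat_lit 5) (nat_lit 232) (nat_lit 5) (nat_lit 248) (nat_lit 5) (nat_lit 340) (nat_lit 324) (nat_lit 236))))) (XT.nd (nat_lit 234) (nat_lit 1672) (nat_lit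 0) (XT.nd (nat_lit 78) (nat_lit 1140) (nat_lit 0) (XT.lf (nat_lit 0) (nat_lit 3866276314) (nat_lit 1140) (nat_lit 3176724630) (nat_lit 76) (nat_lit 4155189817) (nat_lit 233) (nat_lit 5) (nat_lit 248) (nat_lit 5) (nat_lit 234) (nat_lit 5) (nat_lit 341) (nat_lit 324) (nat_lit 235)) (XT.nd (nat_lit 78) (nat_lit 0) (nat_lit 0) (XT.lf (nat_lit 0) (nat_lit 2680651294) (nat_lit 1140) (nat_lit 2613882458) (nat_lit 1216) (nat_lit 6071819931) (nat_lit 218) (nat_lit 5) (nat_lit 233) (nat_lit 5) (nat_lit 234) (nat_lit 5) (nat_lit 342) (nat_lit 324) (nat_lit 234)) (XT.lf (nat_lit 0) (nat_lit 6794484724) (nat_lit 1216) (nat_lit 2798701563) (nat_lit 76) (nat_lit 1945526657) (nat_lit 218) (nat_lit 5) (nat_lit 234) (nat_lit 5) (nat_lit 219) (nat_lit 5) (nat_lit 343) (nat_lit 324) (nat_lit 233)))) (XT.nd (nat_lit 156) (nat_lit 684) (nat_lit 0) (XT.nd (nat_lit 78) (nat_lit 0) (nat_lit 0) (XT.lf (nat_lit 0) (nat_lit 3283761021)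 (nat_lit 988) (nat_lit 5091490675) (nat_lit 1064) (nat_lit 3339933097) (nat_lit 205) (nat_lit 5) (nat_lit 218) (nat_lit 5) (nat_lit 219) (nat_lit 5) (nat_lit 344) (nat_lit 324) (nat_lit 232)) (XT.lf (nat_lit 0) (nat_lit 9586911542) (nat_lit 988) (nat_lit 423609262) (nat_lit 1064) (nat_lit 1886233479) (nat_lit 205) (nat_lit 5) (nat_lit 218) (nat_lit 5) (nat_lit 219) (nat_lit 5) (nat_lit 345) (nat_lit 324) (nat_lit 231))) (XT.nd (nat_lit 78) (nat_lit 76) (nat_lit 0) (XT.lf (nat_lit 0) (nat_lit 4012285320) (nat_lit 608) (nat_lit 7742729454) (nat_lit 684) (nat_lit 326966476) (nat_lit 197) (nat_lit 5) (nat_lit 205) (nat_lit 5) (nat_lit 206) (nat_lit 5) (nat_lit 346) (nat_lit 324) (nat_lit 230)) (XT.lf (nat_lit 0) (nat_lit 1261523908) (nat_lit 684) (nat_lit 1736839501) (nat_lit 76) (nat_lit 9273825128) (nat_lit 196) (nat_lit 5) (nat_lit 205) (nat_lit 5) (nat_lit 197) (nat_lit 5) (nat_lit 347) (nat_lit 324) (nat_lit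 229)))))) (XT.nd (nat_lit 468) (nat_lit 1520) (nat_lit 0) (XT.nd (nat_lit 234) (nat_lit 1064) (nat_lit 0) (XT.nd (nat_lit 78) (nat_lit 608) (nat_lit 0) (XT.lf (nat_lit 0) (nat_lit 2936703501) (nat_lit 608) (nat_lit 7627202677) (nat_lit 76) (nat_lit 1902744652) (nat_lit 189) (nat_lit 5) (nat_lit 197) (nat_lit 5) (nat_lit 190) (nat_lit 5) (nat_lit 348) (nat_lit 324) (nat_lit 228)) (XT.nd (nat_lit 78) (nat_lit 608) (nat_lit 0) (XT.lf (nat_lit 0) (nat_lit 4690186324) (nat_lit 608) (nat_lit 1066981513) (nat_lit 76) (nat_lit 6908951397) (nat_lit 189) (nat_lit 5) (nat_lit 197) (nat_lit 5) (nat_lit 190) (nat_lit 5) (nat_lit 349) (nat_lit 324) (nat_lit 227)) (XT.lf (nat_lit 0) (nat_lit 5784150642) (nat_lit 608) (nat_lit 748936165) (nat_lit 684) (nat_lit 6337393772) (nat_lit 181) (nat_lit 5) (nat_lit 189) (nat_lit 5) (nat_lit 190) (nat_lit 5) (nat_lit 350) (nat_lit 324) (nat_lit 226)))) (XT.nd (nat_lit 78) (nat_lit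 1064) (nat_lit 0) (XT.lf (nat_lit 0) (nat_lit 8466122044) (nat_lit 684) (nat_lit 279599776) (nat_lit 76) (nat_lit 4334218406) (nat_lit 181) (nat_lit 5) (nat_lit 190) (nat_lit 5) (nat_lit 182) (nat_lit 5) (nat_lit 351) (nat_lit 324) (nat_lit 225)) (XT.nd (nat_lit 78) (nat_lit 532) (nat_lit 0) (XT.lf (nat_lit 0) (nat_lit 6838778725) (nat_lit 532) (nat_lit 3673639287) (nat_lit 608) (nat_lit 2781620079) (nat_lit 174) (nat_lit 5) (nat_lit 181) (nat_lit 5) (nat_lit 182) (nat_lit 5) (nat_lit 352) (nat_lit 324) (nat_lit 224)) (XT.lf (nat_lit 0) (nat_lit 640597583) (nat_lit 532) (nat_lit 11985871423) (nat_lit 608) (nat_lit 887911057) (nat_lit 167) (nat_lit 5) (nat_lit 174) (nat_lit 5) (nat_lit 175) (nat_lit 5) (nat_lit 353) (nat_lit 324) (nat_lit 223))))) (XT.nd (nat_lit 234) (nat_lit 988) (nat_lit 0) (XT.nd (nat_lit 78) (nat_lit 456) (nat_lit 0) (XT.lf (nat_lit 0) (nat_lit 1126677870) (nat_lit 608) (nat_lit 5724059987)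 (nat_lit 76) (nat_lit 6887755342) (nat_lit 166) (nat_lit 5) (nat_lit 174) (nat_lit 5) (nat_lit 167) (nat_lit 5) (nat_lit 354) (nat_lit 324) (nat_lit 222)) (XT.nd (nat_lit 78) (nat_lit 0) (nat_lit 0) (XT.lf (nat_lit 0) (nat_lit 1644910163) (nat_lit 456) (nat_lit 1537867275) (nat_lit 532) (nat_lit 10786332105) (nat_lit 160) (nat_lit 5) (nat_lit 166) (nat_lit 5) (nat_lit 167) (nat_lit 5) (nat_lit 355) (nat_lit 324) (nat_lit 221)) (XT.lf (nat_lit 0) (nat_lit 5380159276) (nat_lit 532) (nat_lit 4909875306) (nat_lit 76) (nat_lit 3914232615) (nat_lit 160) (nat_lit 5) (nat_lit 167) (nat_lit 5) (nat_lit 161) (nat_lit 5) (nat_lit 356) (nat_lit 324) (nat_lit 220)))) (XT.nd (nat_lit 156) (nat_lit 532) (nat_lit 0) (XT.nd (nat_lit 78) (nat_lit 0) (nat_lit 0) (XT.lf (nat_lit 0) (nat_lit 2746944210) (nat_lit 456) (nat_lit 4922038859) (nat_lit 532) (nat_lit 6776741382) (nat_lit 154) (nat_lit 5) (nat_lit 160) (nat_lit 5)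 (nat_lit 161) (nat_lit 5) (nat_lit 357) (nat_lit 324) (nat_lit 219)) (XT.lf (nat_lit 0) (nat_lit 10066538910) (nat_lit 532) (nat_lit 3983741337) (nat_lit 76) (nat_lit 642953335) (nat_lit 154) (nat_lit 5) (nat_lit 161) (nat_lit 5) (nat_lit 155) (nat_lit 5) (nat_lit 358) (nat_lit 324) (nat_lit 218))) (XT.nd (nat_lit 78) (nat_lit 76) (nat_lit 0) (XT.lf (nat_lit 0) (nat_lit 3973501007) (nat_lit 456) (nat_lit 8634072016) (nat_lit 532) (nat_lit 2338458298) (nat_lit 148) (nat_lit 5) (nat_lit 154) (nat_lit 5) (nat_lit 155) (nat_lit 5) (nat_lit 359) (nat_lit 324) (nat_lit 217)) (XT.lf (nat_lit 0) (nat_lit 43431847) (nat_lit 532) (nat_lit 2972846176) (nat_lit 76) (nat_lit 12189377985) (nat_lit 147) (nat_lit 5) (nat_lit 154) (nat_lit 5) (nat_lit 148) (nat_lit 5) (nat_lit 360) (nat_lit 324) (nat_lit 216))))))) (XT.nd (nat_lit 1014) (nat_lit 2356) (nat_lit 0) (XT.nd (nat_lit 468) (nat_lit 1216) (nat_lit 0) (XT.nd (nat_lit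 234) (nat_lit 760) (nat_lit 0) (XT.nd (nat_lit 78) (nat_lit 380) (nat_lit 0) (XT.lf (nat_lit 0) (nat_lit 2513534486) (nat_lit 532) (nat_lit 10168602756) (nat_lit 76) (nat_lit 2788333952) (nat_lit 141) (nat_lit 5) (nat_lit 148) (nat_lit 5) (nat_lit 142) (nat_lit 5) (nat_lit 361) (nat_lit 324) (nat_lit 215)) (XT.nd (nat_lit 78) (nat_lit 380) (nat_lit 0) (XT.lf (nat_lit 0) (nat_lit 5103341153) (nat_lit 532) (nat_lit 1904628986) (nat_lit 76) (nat_lit 8733901448) (nat_lit 141) (nat_lit 5) (nat_lit 148) (nat_lit 5) (nat_lit 142) (nat_lit 5) (nat_lit 362) (nat_lit 324) (nat_lit 214)) (XT.lf (nat_lit 0) (nat_lit 6721034709) (nat_lit 380) (nat_lit 1100258343) (nat_lit 456) (nat_lit 8198615935) (nat_lit 136) (nat_lit 5) (nat_lit 141) (nat_lit 5) (nat_lit 142) (nat_lit 5) (nat_lit 363) (nat_lit 324) (nat_lit 213)))) (XT.nd (nat_lit 78) (nat_lit 760) (nat_lit 0) (XT.lf (nat_lit 0) (nat_lit 10674182254) (nat_lit 456)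 (nat_lit 726909725) (nat_lit 76) (nat_lit 4903601844) (nat_lit 136) (nat_lit 5) (nat_lit 142) (nat_lit 5) (nat_lit 137) (nat_lit 5) (nat_lit 364) (nat_lit 324) (nat_lit 212)) (XT.nd (nat_lit 78) (nat_lit 380) (nat_lit 0) (XT.lf (nat_lit 0) (nat_lit 8234921561) (nat_lit 380) (nat_lit 5454254817) (nat_lit 456) (nat_lit 2906558314) (nat_lit 131) (nat_lit 5) (nat_lit 136) (nat_lit 5) (nat_lit 137) (nat_lit 5) (nat_lit 365) (nat_lit 324) (nat_lit 211)) (XT.lf (nat_lit 0) (nat_lit 572576500) (nat_lit 380) (nat_lit 16228072978) (nat_lit 456) (nat_lit 94684237) (nat_lit 126) (nat_lit 5) (nat_lit 131) (nat_lit 5) (nat_lit 132) (nat_lit 5) (nat_lit 366) (nat_lit 324) (nat_lit 210))))) (XT.nd (nat_lit 234) (nat_lit 760) (nat_lit 0) (XT.nd (nat_lit 78) (nat_lit 380) (nat_lit 0) (XT.lf (nat_lit 0) (nat_lit 2872892864) (nat_lit 456) (nat_lit 7355197764) (nat_lit 76) (nat_lit 6971249077) (nat_lit 125) (nat_lit 5) (nat_lit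 131) (nat_lit 5) (nat_lit 126) (nat_lit 5) (nat_lit 367) (nat_lit 324) (nat_lit 209)) (XT.nd (nat_lit 78) (nat_lit 0) (nat_lit 0) (XT.lf (nat_lit 0) (nat_lit 1900648663) (nat_lit 380) (nat_lit 4032350506) (nat_lit 456) (nat_lit 11579283571) (nat_lit 120) (nat_lit 5) (nat_lit 125) (nat_lit 5) (nat_lit 126) (nat_lit 5) (nat_lit 368) (nat_lit 324) (nat_lit 208)) (XT.lf (nat_lit 0) (nat_lit 9169809194) (nat_lit 456) (nat_lit 6287831523) (nat_lit 76) (nat_lit 2374433268) (nat_lit 120) (nat_lit 5) (nat_lit 126) (nat_lit 5) (nat_lit 121) (nat_lit 5) (nat_lit 369) (nat_lit 324) (nat_lit 207)))) (XT.nd (nat_lit 156) (nat_lit 456) (nat_lit 0) (XT.nd (nat_lit 78) (nat_lit 0) (nat_lit 0) (XT.lf (nat_lit 0) (nat_lit 3324049734) (nat_lit 304) (nat_lit 9239230006) (nat_lit 380) (nat_lit 5596399268) (nat_lit 116) (nat_lit 5) (nat_lit 120) (nat_lit 5) (nat_lit 121) (nat_lit 5) (nat_lit 370) (nat_lit 324) (nat_lit 206))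 (XT.lf (nat_lit 0) (nat_lit 13336769018) (nat_lit 304) (nat_lit 2773160403) (nat_lit 380) (nat_lit 2385648045) (nat_lit 116) (nat_lit 5) (nat_lit 120) (nat_lit 5) (nat_lit 121) (nat_lit 5) (nat_lit 371) (nat_lit 324) (nat_lit 205))) (XT.nd (nat_lit 78) (nat_lit 0) (nat_lit 0) (XT.lf (nat_lit 0) (nat_lit 976324792) (nat_lit 456) (nat_lit 13999638257) (nat_lit 76) (nat_lit 3863143885) (nat_lit 110) (nat_lit 5) (nat_lit 116) (nat_lit 5) (nat_lit 111) (nat_lit 5) (nat_lit 372) (nat_lit 324) (nat_lit 204)) (XT.lf (nat_lit 0) (nat_lit 4459535614) (nat_lit 456) (nat_lit 4015862209) (nat_lit 76) (nat_lit 10714791995) (nat_lit 110) (nat_lit 5) (nat_lit 116) (nat_lit 5) (nat_lit 111) (nat_lit 5) (nat_lit 373) (nat_lit 324) (nat_lit 203)))))) (XT.nd (nat_lit 546) (nat_lit 1064) (nat_lit 0) (XT.nd (nat_lit 234) (nat_lit 684) (nat_lit 0) (XT.nd (nat_lit 78) (nat_lit 304) (nat_lit 0) (XT.lf (nat_lit 0) (nat_lit 6375987068)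 (nat_lit 304) (nat_lit 1721148782) (nat_lit 380) (nat_lit 11453178352) (nat_lit 106) (nat_lit 5) (nat_lit 110) (nat_lit 5) (nat_lit 111) (nat_lit 5) (nat_lit 374) (nat_lit 324) (nat_lit 202)) (XT.nd (nat_lit 78) (nat_lit 304) (nat_lit 0) (XT.lf (nat_lit 0) (nat_lit 11923888020) (nat_lit 380) (nat_lit 2824845235) (nat_lit 76) (nat_lit 5170113980) (nat_lit 106) (nat_lit 5) (nat_lit 111) (nat_lit 5) (nat_lit 107) (nat_lit 5) (nat_lit 375) (nat_lit 324) (nat_lit 201)) (XT.lf (nat_lit 0) (nat_lit 7957830024) (nat_lit 304) (nat_lit 7990218333) (nat_lit 380) (nat_lit 4347915206) (nat_lit 102) (nat_lit 5) (nat_lit 106) (nat_lit 5) (nat_lit 107) (nat_lit 5) (nat_lit 376) (nat_lit 324) (nat_lit 200)))) (XT.nd (nat_lit 156) (nat_lit 304) (nat_lit 0) (XT.nd (nat_lit 78) (nat_lit 380) (nat_lit 0) (XT.lf (nat_lit 0) (nat_lit 19106508467) (nat_lit 304) (nat_lit 1004189933) (nat_lit 380) (nat_lit 573167346) (nat_lit 102)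 (nat_lit 5) (nat_lit 106) (nat_lit 5) (nat_lit 107) (nat_lit 5) (nat_lit 377) (nat_lit 324) (nat_lit 199)) (XT.lf (nat_lit 0) (nat_lit 3393025973) (nat_lit 380) (nat_lit 11493209155) (nat_lit 76) (nat_lit 6191932336) (nat_lit 97) (nat_lit 5) (nat_lit 102) (nat_lit 5) (nat_lit 98) (nat_lit 5) (nat_lit 378) (nat_lit 324) (nat_lit 198))) (XT.nd (nat_lit 78) (nat_lit 304) (nat_lit 0) (XT.lf (nat_lit 0) (nat_lit 7482276733) (nat_lit 380) (nat_lit 400392281) (nat_lit 76) (nat_lit 13600996083) (nat_lit 97) (nat_lit 5) (nat_lit 102) (nat_lit 5) (nat_lit 98) (nat_lit 5) (nat_lit 379) (nat_lit 324) (nat_lit 197)) (XT.lf (nat_lit 0) (nat_lit 11229507693) (nat_lit 304) (nat_lit 562509539) (nat_lit 380) (nat_lit 10106380780) (nat_lit 93) (nat_lit 5) (nat_lit 97) (nat_lit 5) (nat_lit 98) (nat_lit 5) (nat_lit 380) (nat_lit 324) (nat_lit 196))))) (XT.nd (nat_lit 234) (nat_lit 456) (nat_lit 0) (XT.nd (nat_lit 78) (nat_lit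 380) (nat_lit 0) (XT.lf (nat_lit 0) (nat_lit 825109001) (nat_lit 228) (nat_lit 15475001308) (nat_lit 304) (nat_lit 6023395376) (nat_lit 90) (nat_lit 5) (nat_lit 93) (nat_lit 5) (nat_lit 94) (nat_lit 5) (nat_lit 381) (nat_lit 324) (nat_lit 195)) (XT.nd (nat_lit 78) (nat_lit 380) (nat_lit 0) (XT.lf (nat_lit 0) (nat_lit 12862153476) (nat_lit 228) (nat_lit 8184668165) (nat_lit 304) (nat_lit 1711448133) (nat_lit 90) (nat_lit 5) (nat_lit 93) (nat_lit 5) (nat_lit 94) (nat_lit 5) (nat_lit 382) (nat_lit 324) (nat_lit 194)) (XT.lf (nat_lit 0) (nat_lit 2053500253) (nat_lit 304) (nat_lit 633141655) (nat_lit 380) (nat_lit 20518350228) (nat_lit 85) (nat_lit 5) (nat_lit 89) (nat_lit 5) (nat_lit 90) (nat_lit 5) (nat_lit 383) (nat_lit 324) (nat_lit 193)))) (XT.nd (nat_lit 156) (nat_lit 228) (nat_lit 0) (XT.nd (nat_lit 78) (nat_lit 228) (nat_lit 0) (XT.lf (nat_lit 0) (nat_lit 7342289325) (nat_lit 380) (nat_lit 9198931197)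 (nat_lit 76) (nat_lit 7118590975) (nat_lit 85) (nat_lit 5) (nat_lit 90) (nat_lit 5) (nat_lit 86) (nat_lit 5) (nat_lit 384) (nat_lit 324) (nat_lit 192)) (XT.lf (nat_lit 0) (nat_lit 3153232526) (nat_lit 228) (nat_lit 9011643314) (nat_lit 304) (nat_lit 11962585461) (nat_lit 82) (nat_lit 5) (nat_lit 85) (nat_lit 5) (nat_lit 86) (nat_lit 5) (nat_lit 385) (nat_lit 324) (nat_lit 191))) (XT.nd (nat_lit 78) (nat_lit 228) (nat_lit 0) (XT.lf (nat_lit 0) (nat_lit 16050433822) (nat_lit 228) (nat_lit 1165423100) (nat_lit 304) (nat_lit 7390776005) (nat_lit 82) (nat_lit 5) (nat_lit 85) (nat_lit 5) (nat_lit 86) (nat_lit 5) (nat_lit 386) (nat_lit 324) (nat_lit 190)) (XT.lf (nat_lit 0) (nat_lit 4236650338) (nat_lit 228) (nat_lit 18279972040) (nat_lit 304) (nat_lit 2580613404) (nat_lit 79) (nat_lit 5) (nat_lit 82) (nat_lit 5) (nat_lit 83) (nat_lit 5) (nat_lit 387) (nat_lit 324) (nat_lit 189))))))))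
noncomputable def xc166 : XT := (XT.nd (nat_lit 2028) (nat_lit 1596) (nat_lit 0) (XT.nd (nat_lit 1014) (nat_lit 1140) (nat_lit 0) (XT.nd (nat_lit 468) (nat_lit 684) (nat_lit 0) (XT.nd (nat_lit 234) (nat_lit 532) (nat_lit 0) (XT.nd (nat_lit 78) (nat_lit 228) (nat_lit 0) (XT.lf (nat_lit 0) (nat_lit 2417411276) (nat_lit 304) (nat_lit 8060454372) (nat_lit 76) (nat_lit 15121313628) (nat_lit 78) (nat_lit 5) (nat_lit 82) (nat_lit 5) (nat_lit 79) (nat_lit 5) (nat_lit 388) (nat_lit 324) (nat_lit 188)) (XT.nd (nat_lit 78) (nat_lit 0) (nat_lit 0) (XT.lf (nat_lit 0) (nat_lit 5185774204) (nat_lit 228) (nat_lit 2368927740) (nat_lit 304) (nat_lit 18559480230) (nat_lit 75) (nat_lit 5) (nat_lit 78) (nat_lit 5) (nat_lit 79) (nat_lit 5) (nat_lit 389) (nat_lit 324) (nat_lit 187)) (XT.lf (nat_lit 0) (nat_lit 12977247332) (nat_lit 304) (nat_lit 7719521535) (nat_lit 76) (nat_lit 5943935524) (nat_lit 75) (nat_lit 5) (nat_lit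 79) (nat_lit 5) (nat_lit 76) (nat_lit 5) (nat_lit 390) (nat_lit 324) (nat_lit 186)))) (XT.nd (nat_lit 78) (nat_lit 304) (nat_lit 0) (XT.lf (nat_lit 0) (nat_lit 5965350738) (nat_lit 228) (nat_lit 12669585956) (nat_lit 304) (nat_lit 8545914766) (nat_lit 72) (nat_lit 5) (nat_lit 75) (nat_lit 5) (nat_lit 76) (nat_lit 5) (nat_lit 391) (nat_lit 324) (nat_lit 185)) (XT.nd (nat_lit 78) (nat_lit 304) (nat_lit 0) (XT.lf (nat_lit 0) (nat_lit 20205910022) (nat_lit 228) (nat_lit 4326185703) (nat_lit 304) (nat_lit 3203018167) (nat_lit 72) (nat_lit 5) (nat_lit 75) (nat_lit 5) (nat_lit 76) (nat_lit 5) (nat_lit 392) (nat_lit 324) (nat_lit 184)) (XT.lf (nat_lit 0) (nat_lit 2353099636) (nat_lit 304) (nat_lit 21682791580) (nat_lit 76) (nat_lit 4266518040) (nat_lit 68) (nat_lit 5) (nat_lit 72) (nat_lit 5) (nat_lit 69) (nat_lit 5) (nat_lit 393) (nat_lit 324) (nat_lit 183))))) (XT.nd (nat_lit 234) (nat_lit 456) (nat_lit 0) (XT.nd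 (nat_lit 78) (nat_lit 228) (nat_lit 0) (XT.lf (nat_lit 0) (nat_lit 8123149958) (nat_lit 304) (nat_lit 7625448788) (nat_lit 76) (nat_lit 13133827405) (nat_lit 68) (nat_lit 5) (nat_lit 72) (nat_lit 5) (nat_lit 69) (nat_lit 5) (nat_lit 394) (nat_lit 324) (nat_lit 182)) (XT.nd (nat_lit 78) (nat_lit 0) (nat_lit 0) (XT.lf (nat_lit 0) (nat_lit 6977189596) (nat_lit 228) (nat_lit 7148423912) (nat_lit 304) (nat_lit 15352453466) (nat_lit 65) (nat_lit 5) (nat_lit 68) (nat_lit 5) (nat_lit 69) (nat_lit 5) (nat_lit 395) (nat_lit 324) (nat_lit 181)) (XT.lf (nat_lit 0) (nat_lit 20394653474) (nat_lit 304) (nat_lit 7944880808) (nat_lit 76) (nat_lit 1749450355) (nat_lit 65) (nat_lit 5) (nat_lit 69) (nat_lit 5) (nat_lit 66) (nat_lit 5) (nat_lit 396) (nat_lit 324) (nat_lit 180)))) (XT.nd (nat_lit 156) (nat_lit 228) (nat_lit 0) (XT.nd (nat_lit 78) (nat_lit 76) (nat_lit 0) (XT.lf (nat_lit 0) (nat_lit 7103361858) (nat_lit 152)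 (nat_lit 19879988113) (nat_lit 228) (nat_lit 3730934914) (nat_lit 63) (nat_lit 5) (nat_lit 65) (nat_lit 5) (nat_lit 66) (nat_lit 5) (nat_lit 397) (nat_lit 324) (nat_lit 179)) (XT.lf (nat_lit 0) (nat_lit 2437883287) (nat_lit 228) (nat_lit 8626296966) (nat_lit 76) (nat_lit 20291263732) (nat_lit 62) (nat_lit 5) (nat_lit 65) (nat_lit 5) (nat_lit 63) (nat_lit 5) (nat_lit 398) (nat_lit 324) (nat_lit 178))) (XT.nd (nat_lit 78) (nat_lit 0) (nat_lit 0) (XT.lf (nat_lit 0) (nat_lit 6893503359) (nat_lit 228) (nat_lit 1882308464) (nat_lit 304) (nat_lit 23237149212) (nat_lit 59) (nat_lit 5) (nat_lit 62) (nat_lit 5) (nat_lit 63) (nat_lit 5) (nat_lit 399) (nat_lit 324) (nat_lit 177)) (XT.lf (nat_lit 0) (nat_lit 15457486244) (nat_lit 304) (nat_lit 9717536010) (nat_lit 76) (nat_lit 7510575422) (nat_lit 59) (nat_lit 5) (nat_lit 63) (nat_lit 5) (nat_lit 60) (nat_lit 5) (nat_lit 400) (nat_lit 324) (nat_lit 176)))))) (XT.nd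 (nat_lit 468) (nat_lit 608) (nat_lit 0) (XT.nd (nat_lit 234) (nat_lit 152) (nat_lit 0) (XT.nd (nat_lit 78) (nat_lit 228) (nat_lit 0) (XT.lf (nat_lit 0) (nat_lit 6237883744) (nat_lit 152) (nat_lit 16173356480) (nat_lit 228) (nat_lit 10965026568) (nat_lit 57) (nat_lit 5) (nat_lit 59) (nat_lit 5) (nat_lit 60) (nat_lit 5) (nat_lit 401) (nat_lit 324) (nat_lit 175)) (XT.nd (nat_lit 78) (nat_lit 228) (nat_lit 0) (XT.lf (nat_lit 0) (nat_lit 22859633809) (nat_lit 152) (nat_lit 6805223474) (nat_lit 228) (nat_lit 4420063373) (nat_lit 57) (nat_lit 5) (nat_lit 59) (nat_lit 5) (nat_lit 60) (nat_lit 5) (nat_lit 402) (nat_lit 324) (nat_lit 174)) (XT.lf (nat_lit 0) (nat_lit 2347529456) (nat_lit 228) (nat_lit 29607188301) (nat_lit 76) (nat_lit 2857301744) (nat_lit 54) (nat_lit 5) (nat_lit 57) (nat_lit 5) (nat_lit 55) (nat_lit 5) (nat_lit 403) (nat_lit 324) (nat_lit 173)))) (XT.nd (nat_lit 78) (nat_lit 152) (nat_lit 0) (XT.lf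 (nat_lit 0) (nat_lit 9404464568) (nat_lit 228) (nat_lit 13323213699) (nat_lit 76) (nat_lit 12826687555) (nat_lit 54) (nat_lit 5) (nat_lit 57) (nat_lit 5) (nat_lit 55) (nat_lit 5) (nat_lit 404) (nat_lit 324) (nat_lit 172)) (XT.nd (nat_lit 78) (nat_lit 0) (nat_lit 0) (XT.lf (nat_lit 0) (nat_lit 3506659750) (nat_lit 152) (nat_lit 13193650556) (nat_lit 228) (nat_lit 19617858094) (nat_lit 52) (nat_lit 5) (nat_lit 54) (nat_lit 5) (nat_lit 55) (nat_lit 5) (nat_lit 405) (nat_lit 324) (nat_lit 171)) (XT.lf (nat_lit 0) (nat_lit 21103602585) (nat_lit 152) (nat_lit 3239545906) (nat_lit 228) (nat_lit 12757894941) (nat_lit 52) (nat_lit 5) (nat_lit 54) (nat_lit 5) (nat_lit 55) (nat_lit 5) (nat_lit 406) (nat_lit 324) (nat_lit 170))))) (XT.nd (nat_lit 234) (nat_lit 380) (nat_lit 0) (XT.nd (nat_lit 78) (nat_lit 76) (nat_lit 0) (XT.lf (nat_lit 0) (nat_lit 1267601771) (nat_lit 152) (nat_lit 31020993608) (nat_lit 228) (nat_lit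 5616611463) (nat_lit 50) (nat_lit 5) (nat_lit 52) (nat_lit 5) (nat_lit 53) (nat_lit 5) (nat_lit 407) (nat_lit 324) (nat_lit 169)) (XT.nd (nat_lit 78) (nat_lit 0) (nat_lit 0) (XT.lf (nat_lit 0) (nat_lit 1893935863) (nat_lit 228) (nat_lit 19411299396) (nat_lit 76) (nat_lit 17422091425) (nat_lit 49) (nat_lit 5) (nat_lit 52) (nat_lit 5) (nat_lit 50) (nat_lit 5) (nat_lit 408) (nat_lit 324) (nat_lit 168)) (XT.lf (nat_lit 0) (nat_lit 9510834409) (nat_lit 228) (nat_lit 1734288770) (nat_lit 76) (nat_lit 28327502625) (nat_lit 49) (nat_lit 5) (nat_lit 52) (nat_lit 5) (nat_lit 50) (nat_lit 5) (nat_lit 409) (nat_lit 324) (nat_lit 167)))) (XT.nd (nat_lit 156) (nat_lit 228) (nat_lit 0) (XT.nd (nat_lit 78) (nat_lit 0) (nat_lit 0) (XT.lf (nat_lit 0) (nat_lit 16790506297) (nat_lit 152) (nat_lit 721234358) (nat_lit 228) (nat_lit 22926879850) (nat_lit 47) (nat_lit 5) (nat_lit 49) (nat_lit 5) (nat_lit 50) (nat_lit 5) (nat_lit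 410) (nat_lit 324) (nat_lit 166)) (XT.lf (nat_lit 0) (nat_lit 25861758744) (nat_lit 228) (nat_lit 5531115550) (nat_lit 76) (nat_lit 9934449795) (nat_lit 47) (nat_lit 5) (nat_lit 50) (nat_lit 5) (nat_lit 48) (nat_lit 5) (nat_lit 411) (nat_lit 324) (nat_lit 165))) (XT.nd (nat_lit 78) (nat_lit 76) (nat_lit 0) (XT.lf (nat_lit 0) (nat_lit 13373305771) (nat_lit 152) (nat_lit 21218970148) (nat_lit 228) (nat_lit 7646514439) (nat_lit 45) (nat_lit 5) (nat_lit 47) (nat_lit 5) (nat_lit 48) (nat_lit 5) (nat_lit 412) (nat_lit 324) (nat_lit 164)) (XT.lf (nat_lit 0) (nat_lit 449889916) (nat_lit 228) (nat_lit 10232074298) (nat_lit 76) (nat_lit 32493998665) (nat_lit 44) (nat_lit 5) (nat_lit 47) (nat_lit 5) (nat_lit 45) (nat_lit 5) (nat_lit 413) (nat_lit 324) (nat_lit 163))))))) (XT.nd (nat_lit 1014) (nat_lit 684) (nat_lit 0) (XT.nd (nat_lit 468) (nat_lit 456) (nat_lit 0) (XT.nd (nat_lit 234) (nat_lit 152) (nat_lit 0) (XT.nd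 (nat_lit 78) (nat_lit 152) (nat_lit 0) (XT.lf (nat_lit 0) (nat_lit 8720210537) (nat_lit 228) (nat_lit 35088128552) (nat_lit 76) (nat_lit 328100306) (nat_lit 42) (nat_lit 5) (nat_lit 45) (nat_lit 5) (nat_lit 43) (nat_lit 5) (nat_lit 414) (nat_lit 324) (nat_lit 162)) (XT.nd (nat_lit 78) (nat_lit 152) (nat_lit 0) (XT.lf (nat_lit 0) (nat_lit 17443264322) (nat_lit 228) (nat_lit 16122227401) (nat_lit 76) (nat_lit 11554101138) (nat_lit 42) (nat_lit 5) (nat_lit 45) (nat_lit 5) (nat_lit 43) (nat_lit 5) (nat_lit 415) (nat_lit 324) (nat_lit 161)) (XT.lf (nat_lit 0) (nat_lit 3470997085) (nat_lit 152) (nat_lit 22985052379) (nat_lit 228) (nat_lit 19675351602) (nat_lit 40) (nat_lit 5) (nat_lit 42) (nat_lit 5) (nat_lit 43) (nat_lit 5) (nat_lit 416) (nat_lit 324) (nat_lit 160)))) (XT.nd (nat_lit 78) (nat_lit 152) (nat_lit 0) (XT.lf (nat_lit 0) (nat_lit 23973214822) (nat_lit 152) (nat_lit 11923546399) (nat_lit 228) (nat_lit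 11272077288) (nat_lit 40) (nat_lit 5) (nat_lit 42) (nat_lit 5) (nat_lit 43) (nat_lit 5) (nat_lit 417) (nat_lit 324) (nat_lit 159)) (XT.nd (nat_lit 78) (nat_lit 152) (nat_lit 0) (XT.lf (nat_lit 0) (nat_lit 45081476432) (nat_lit 152) (nat_lit 534111275) (nat_lit 228) (nat_lit 2621965815) (nat_lit 40) (nat_lit 5) (nat_lit 42) (nat_lit 5) (nat_lit 43) (nat_lit 5) (nat_lit 418) (nat_lit 324) (nat_lit 158)) (XT.lf (nat_lit 0) (nat_lit 6440569280) (nat_lit 152) (nat_lit 31679476214) (nat_lit 76) (nat_lit 11208203998) (nat_lit 38) (nat_lit 5) (nat_lit 40) (nat_lit 5) (nat_lit 39) (nat_lit 5) (nat_lit 419) (nat_lit 324) (nat_lit 157))))) (XT.nd (nat_lit 234) (nat_lit 304) (nat_lit 0) (XT.nd (nat_lit 78) (nat_lit 152) (nat_lit 0) (XT.lf (nat_lit 0) (nat_lit 15754772056) (nat_lit 152) (nat_lit 11348695019) (nat_lit 76) (nat_lit 23346446891) (nat_lit 38) (nat_lit 5) (nat_lit 40) (nat_lit 5) (nat_lit 39) (nat_lit 5)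 (nat_lit 420) (nat_lit 324) (nat_lit 156)) (XT.nd (nat_lit 78) (nat_lit 0) (nat_lit 0) (XT.lf (nat_lit 0) (nat_lit 9774109940) (nat_lit 152) (nat_lit 15663407423) (nat_lit 228) (nat_lit 26165038626) (nat_lit 36) (nat_lit 5) (nat_lit 38) (nat_lit 5) (nat_lit 39) (nat_lit 5) (nat_lit 421) (nat_lit 324) (nat_lit 155)) (XT.lf (nat_lit 0) (nat_lit 31754692993) (nat_lit 152) (nat_lit 3765872126) (nat_lit 228) (nat_lit 17265918628) (nat_lit 36) (nat_lit 5) (nat_lit 38) (nat_lit 5) (nat_lit 39) (nat_lit 5) (nat_lit 422) (nat_lit 324) (nat_lit 154)))) (XT.nd (nat_lit 156) (nat_lit 152) (nat_lit 0) (XT.nd (nat_lit 78) (nat_lit 76) (nat_lit 0) (XT.lf (nat_lit 0) (nat_lit 304713266) (nat_lit 76) (nat_lit 45681242251) (nat_lit 152) (nat_lit 8017579329) (nat_lit 35) (nat_lit 5) (nat_lit 36) (nat_lit 5) (nat_lit 37) (nat_lit 4) (nat_lit 423) (nat_lit 324) (nat_lit 153)) (XT.lf (nat_lit 0) (nat_lit 1725882120) (nat_lit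 152) (nat_lit 32600580028) (nat_lit 76) (nat_lit 20922788304) (nat_lit 34) (nat_lit 5) (nat_lit 36) (nat_lit 5) (nat_lit 35) (nat_lit 5) (nat_lit 424) (nat_lit 324) (nat_lit 152))) (XT.nd (nat_lit 78) (nat_lit 152) (nat_lit 0) (XT.lf (nat_lit 0) (nat_lit 11595972010) (nat_lit 152) (nat_lit 10956939195) (nat_lit 76) (nat_lit 33977181718) (nat_lit 34) (nat_lit 5) (nat_lit 36) (nat_lit 5) (nat_lit 35) (nat_lit 5) (nat_lit 425) (nat_lit 324) (nat_lit 151)) (XT.lf (nat_lit 0) (nat_lit 11553533773) (nat_lit 152) (nat_lit 10315292403) (nat_lit 228) (nat_lit 35977335573) (nat_lit 32) (nat_lit 5) (nat_lit 34) (nat_lit 5) (nat_lit 35) (nat_lit 5) (nat_lit 426) (nat_lit 324) (nat_lit 150)))))) (XT.nd (nat_lit 546) (nat_lit 380) (nat_lit 0) (XT.nd (nat_lit 234) (nat_lit 228) (nat_lit 0) (XT.nd (nat_lit 78) (nat_lit 76) (nat_lit 0) (XT.lf (nat_lit 0) (nat_lit 32579233581) (nat_lit 228) (nat_lit 24265517006) (nat_lit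 76) (nat_lit 2353081926) (nat_lit 32) (nat_lit 5) (nat_lit 35) (nat_lit 5) (nat_lit 33) (nat_lit 4) (nat_lit 427) (nat_lit 324) (nat_lit 149)) (XT.nd (nat_lit 78) (nat_lit 76) (nat_lit 0) (XT.lf (nat_lit 0) (nat_lit 43708833251) (nat_lit 228) (nat_lit 1687440812) (nat_lit 76) (nat_lit 15190843811) (nat_lit 32) (nat_lit 5) (nat_lit 35) (nat_lit 5) (nat_lit 33) (nat_lit 4) (nat_lit 428) (nat_lit 324) (nat_lit 148)) (XT.lf (nat_lit 0) (nat_lit 21989581866) (nat_lit 76) (nat_lit 33389988625) (nat_lit 152) (nat_lit 6632294668) (nat_lit 31) (nat_lit 5) (nat_lit 32) (nat_lit 5) (nat_lit 33) (nat_lit 4) (nat_lit 429) (nat_lit 324) (nat_lit 147)))) (XT.nd (nat_lit 156) (nat_lit 0) (nat_lit 0) (XT.nd (nat_lit 78) (nat_lit 152) (nat_lit 0) (XT.lf (nat_lit 0) (nat_lit 3857649235) (nat_lit 152) (nat_lit 17112699137) (nat_lit 76) (nat_lit 42507483883) (nat_lit 30) (nat_lit 5) (nat_lit 32) (nat_lit 5) (nat_lit 31) (nat_lit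 5) (nat_lit 430) (nat_lit 324) (nat_lit 146)) (XT.lf (nat_lit 0) (nat_lit 6538819566) (nat_lit 152) (nat_lit 8049024457) (nat_lit 228) (nat_lit 50396199475) (nat_lit 28) (nat_lit 5) (nat_lit 30) (nat_lit 5) (nat_lit 31) (nat_lit 5) (nat_lit 431) (nat_lit 324) (nat_lit 145))) (XT.nd (nat_lit 78) (nat_lit 0) (nat_lit 0) (XT.lf (nat_lit 0) (nat_lit 25861037908) (nat_lit 228) (nat_lit 35339151479) (nat_lit 76) (nat_lit 5328619649) (nat_lit 28) (nat_lit 5) (nat_lit 31) (nat_lit 5) (nat_lit 29) (nat_lit 4) (nat_lit 432) (nat_lit 324) (nat_lit 144)) (XT.lf (nat_lit 0) (nat_lit 37548252819) (nat_lit 228) (nat_lit 11626676800) (nat_lit 76) (nat_lit 18942713898) (nat_lit 28) (nat_lit 5) (nat_lit 31) (nat_lit 5) (nat_lit 29) (nat_lit 4) (nat_lit 433) (nat_lit 324) (nat_lit 143))))) (XT.nd (nat_lit 234) (nat_lit 228) (nat_lit 0) (XT.nd (nat_lit 78) (nat_lit 76) (nat_lit 0) (XT.lf (nat_lit 0) (nat_lit 13044843776)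 (nat_lit 76) (nat_lit 36662879981) (nat_lit 152) (nat_lit 20042770801) (nat_lit 27) (nat_lit 5) (nat_lit 28) (nat_lit 5) (nat_lit 29) (nat_lit 4) (nat_lit 434) (nat_lit 324) (nat_lit 142)) (XT.nd (nat_lit 78) (nat_lit 76) (nat_lit 0) (XT.lf (nat_lit 0) (nat_lit 38688032669) (nat_lit 76) (nat_lit 23657641247) (nat_lit 152) (nat_lit 9083247051) (nat_lit 27) (nat_lit 5) (nat_lit 28) (nat_lit 5) (nat_lit 29) (nat_lit 4) (nat_lit 435) (nat_lit 324) (nat_lit 141)) (XT.lf (nat_lit 0) (nat_lit 2158393922) (nat_lit 152) (nat_lit 8085066786) (nat_lit 76) (nat_lit 62913713414) (nat_lit 26) (nat_lit 5) (nat_lit 28) (nat_lit 5) (nat_lit 27) (nat_lit 5) (nat_lit 436) (nat_lit 324) (nat_lit 140)))) (XT.nd (nat_lit 156) (nat_lit 76) (nat_lit 0) (XT.nd (nat_lit 78) (nat_lit 0) (nat_lit 0) (XT.lf (nat_lit 0) (nat_lit 13756831010) (nat_lit 228) (nat_lit 57409904761) (nat_lit 76) (nat_lit 3761778404) (nat_lit 24) (nat_lit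 5) (nat_lit 27) (nat_lit 5) (nat_lit 25) (nat_lit 4) (nat_lit 437) (nat_lit 324) (nat_lit 139)) (XT.lf (nat_lit 0) (nat_lit 25883572419) (nat_lit 228) (nat_lit 32803148210) (nat_lit 76) (nat_lit 18060863878) (nat_lit 24) (nat_lit 5) (nat_lit 27) (nat_lit 5) (nat_lit 25) (nat_lit 4) (nat_lit 438) (nat_lit 324) (nat_lit 138))) (XT.nd (nat_lit 156) (nat_lit 76) (nat_lit 0) (XT.lf (nat_lit 0) (nat_lit 38370697754) (nat_lit 228) (nat_lit 7464505632) (nat_lit 76) (nat_lit 32786126708) (nat_lit 24) (nat_lit 5) (nat_lit 27) (nat_lit 5) (nat_lit 25) (nat_lit 4) (nat_lit 439) (nat_lit 324) (nat_lit 137)) (XT.lf (nat_lit 0) (nat_lit 46403151325) (nat_lit 76) (nat_lit 18512973111) (nat_lit 152) (nat_lit 17609939154) (nat_lit 23) (nat_lit 5) (nat_lit 24) (nat_lit 5) (nat_lit 25) (nat_lit 4) (nat_lit 441) (nat_lit 324) (nat_lit 135))))))))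
noncomputable def xc167 : XT := (XT.nd (nat_lit 2028) (nat_lit 6612) (nat_lit 0) (XT.nd (nat_lit 1014) (nat_lit 4104) (nat_lit 0) (XT.nd (nat_lit 468) (nat_lit 0) (nat_lit 0) (XT.nd (nat_lit 234) (nat_lit 988) (nat_lit 0) (XT.nd (nat_lit 78) (nat_lit 0) (nat_lit 0) (XT.lf (nat_lit 0) (nat_lit 1603154282) (nat_lit 0) (nat_lit 1603154282) (nat_lit 988) (nat_lit 1361943576) (nat_lit 256) (nat_lit 5) (nat_lit 256) (nat_lit 3) (nat_lit 269) (nat_lit 3) (nat_lit 325) (nat_lit 325) (nat_lit 250)) (XT.nd (nat_lit 78) (nat_lit 0) (nat_lit 0) (XT.lf (nat_lit 0) (nat_lit 7350652715) (nat_lit 988) (nat_lit 1623823747) (nat_lit 1064) (nat_lit 273107442) (nat_lit 256) (nat_lit 5) (nat_lit 269) (nat_lit 3) (nat_lit 270) (nat_lit 5) (nat_lit 326) (nat_lit 325) (nat_lit 249)) (XT.lf (nat_lit 76) (nat_lit 2817429004) (nat_lit 0) (nat_lit 5525635841) (nat_lit 1064) (nat_lit 1018171815) (nat_lit 257) (nat_lit 5) (nat_lit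 256) (nat_lit 5) (nat_lit 270) (nat_lit 5) (nat_lit 327) (nat_lit 325) (nat_lit 248)))) (XT.nd (nat_lit 78) (nat_lit 988) (nat_lit 0) (XT.lf (nat_lit 76) (nat_lit 7407835187) (nat_lit 0) (nat_lit 1942000915) (nat_lit 1064) (nat_lit 128952293) (nat_lit 257) (nat_lit 5) (nat_lit 256) (nat_lit 5) (nat_lit 270) (nat_lit 5) (nat_lit 328) (nat_lit 325) (nat_lit 247)) (XT.nd (nat_lit 78) (nat_lit 0) (nat_lit 0) (XT.lf (nat_lit 0) (nat_lit 782254025) (nat_lit 1064) (nat_lit 7056142706) (nat_lit 1140) (nat_lit 1760948472) (nat_lit 243) (nat_lit 5) (nat_lit 257) (nat_lit 5) (nat_lit 258) (nat_lit 5) (nat_lit 329) (nat_lit 325) (nat_lit 246)) (XT.lf (nat_lit 0) (nat_lit 1728205194) (nat_lit 1064) (nat_lit 2423772655) (nat_lit 1140) (nat_lit 5571227257) (nat_lit 243) (nat_lit 5) (nat_lit 257) (nat_lit 5) (nat_lit 258) (nat_lit 5) (nat_lit 330) (nat_lit 325) (nat_lit 245))))) (XT.nd (nat_lit 234) (nat_lit 0) (nat_lit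 152) (XT.nd (nat_lit 78) (nat_lit 0) (nat_lit 76) (XT.lf (nat_lit 76) (nat_lit 2376064996) (nat_lit 0) (nat_lit 319847103) (nat_lit 1140) (nat_lit 7155091381) (nat_lit 244) (nat_lit 5) (nat_lit 243) (nat_lit 5) (nat_lit 258) (nat_lit 5) (nat_lit 331) (nat_lit 325) (nat_lit 244)) (XT.nd (nat_lit 78) (nat_lit 0) (nat_lit 0) (XT.lf (nat_lit 0) (nat_lit 3723566805) (nat_lit 1064) (nat_lit 2666115411) (nat_lit 1140) (nat_lit 3592049380) (nat_lit 244) (nat_lit 5) (nat_lit 258) (nat_lit 5) (nat_lit 259) (nat_lit 5) (nat_lit 332) (nat_lit 325) (nat_lit 243)) (XT.lf (nat_lit 76) (nat_lit 2310754011) (nat_lit 0) (nat_lit 2468842916) (nat_lit 1140) (nat_lit 5336880867) (nat_lit 245) (nat_lit 5) (nat_lit 244) (nat_lit 5) (nat_lit 259) (nat_lit 5) (nat_lit 333) (nat_lit 325) (nat_lit 242)))) (XT.nd (nat_lit 156) (nat_lit 0) (nat_lit 0) (XT.nd (nat_lit 78) (nat_lit 0) (nat_lit 0) (XT.lf (nat_lit 0) (nat_lit 5882478527)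 (nat_lit 1064) (nat_lit 2797122506) (nat_lit 1140) (nat_lit 1575232179) (nat_lit 245) (nat_lit 5) (nat_lit 259) (nat_lit 5) (nat_lit 260) (nat_lit 5) (nat_lit 334) (nat_lit 325) (nat_lit 241)) (XT.lf (nat_lit 76) (nat_lit 2365103388) (nat_lit 0) (nat_lit 4674204827) (nat_lit 1140) (nat_lit 3357426543) (nat_lit 246) (nat_lit 5) (nat_lit 245) (nat_lit 5) (nat_lit 260) (nat_lit 5) (nat_lit 335) (nat_lit 325) (nat_lit 240))) (XT.nd (nat_lit 78) (nat_lit 0) (nat_lit 76) (XT.lf (nat_lit 76) (nat_lit 7721373027) (nat_lit 0) (nat_lit 511989991) (nat_lit 1140) (nat_lit 2309475417) (nat_lit 246) (nat_lit 5) (nat_lit 245) (nat_lit 5) (nat_lit 260) (nat_lit 5) (nat_lit 336) (nat_lit 325) (nat_lit 239)) (XT.lf (nat_lit 76) (nat_lit 2539805506) (nat_lit 0) (nat_lit 6959231251) (nat_lit 1140) (nat_lit 1193234636) (nat_lit 247) (nat_lit 5) (nat_lit 246) (nat_lit 5) (nat_lit 261) (nat_lit 5) (nat_lit 337) (nat_lit 325)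 (nat_lit 238)))))) (XT.nd (nat_lit 468) (nat_lit 2204) (nat_lit 0) (XT.nd (nat_lit 234) (nat_lit 1064) (nat_lit 0) (XT.nd (nat_lit 78) (nat_lit 1064) (nat_lit 0) (XT.lf (nat_lit 76) (nat_lit 8096290538) (nat_lit 0) (nat_lit 2715545164) (nat_lit 1140) (nat_lit 34096494) (nat_lit 247) (nat_lit 5) (nat_lit 246) (nat_lit 5) (nat_lit 261) (nat_lit 5) (nat_lit 338) (nat_lit 325) (nat_lit 237)) (XT.nd (nat_lit 78) (nat_lit 0) (nat_lit 0) (XT.lf (nat_lit 0) (nat_lit 1156945232) (nat_lit 1140) (nat_lit 8178822465) (nat_lit 1216) (nat_lit 1667526196) (nat_lit 232) (nat_lit 5) (nat_lit 247) (nat_lit 5) (nat_lit 248) (nat_lit 5) (nat_lit 339) (nat_lit 325) (nat_lit 236)) (XT.lf (nat_lit 0) (nat_lit 2414634640) (nat_lit 1140) (nat_lit 2588713325) (nat_lit 1216) (nat_lit 6161088145) (nat_lit 232) (nat_lit 5) (nat_lit 247) (nat_lit 5) (nat_lit 248) (nat_lit 5) (nat_lit 340) (nat_lit 325) (nat_lit 235)))) (XT.nd (nat_lit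 78) (nat_lit 1064) (nat_lit 0) (XT.lf (nat_lit 76) (nat_lit 3213511471) (nat_lit 0) (nat_lit 504787138) (nat_lit 1216) (nat_lit 7611883998) (nat_lit 233) (nat_lit 5) (nat_lit 232) (nat_lit 5) (nat_lit 248) (nat_lit 5) (nat_lit 341) (nat_lit 325) (nat_lit 234)) (XT.nd (nat_lit 78) (nat_lit 1140) (nat_lit 0) (XT.lf (nat_lit 0) (nat_lit 5105038126) (nat_lit 1140) (nat_lit 2316030858) (nat_lit 76) (nat_lit 4078530371) (nat_lit 233) (nat_lit 5) (nat_lit 248) (nat_lit 5) (nat_lit 234) (nat_lit 5) (nat_lit 342) (nat_lit 325) (nat_lit 233)) (XT.lf (nat_lit 0) (nat_lit 3707693839) (nat_lit 1140) (nat_lit 2844846826) (nat_lit 1216) (nat_lit 5120999449) (nat_lit 218) (nat_lit 5) (nat_lit 233) (nat_lit 5) (nat_lit 234) (nat_lit 5) (nat_lit 343) (nat_lit 325) (nat_lit 232))))) (XT.nd (nat_lit 234) (nat_lit 1216) (nat_lit 0) (XT.nd (nat_lit 78) (nat_lit 988) (nat_lit 0) (XT.lf (nat_lit 0) (nat_lit 8064051806) (nat_lit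 1216) (nat_lit 1929367883) (nat_lit 76) (nat_lit 1858677763) (nat_lit 218) (nat_lit 5) (nat_lit 234) (nat_lit 5) (nat_lit 219) (nat_lit 5) (nat_lit 344) (nat_lit 325) (nat_lit 231)) (XT.nd (nat_lit 78) (nat_lit 0) (nat_lit 0) (XT.lf (nat_lit 0) (nat_lit 4326222551) (nat_lit 988) (nat_lit 5344052295) (nat_lit 1064) (nat_lit 2364271062) (nat_lit 205) (nat_lit 5) (nat_lit 218) (nat_lit 5) (nat_lit 219) (nat_lit 5) (nat_lit 345) (nat_lit 325) (nat_lit 230)) (XT.lf (nat_lit 0) (nat_lit 10790973936) (nat_lit 988) (nat_lit 533227151) (nat_lit 1064) (nat_lit 898296184) (nat_lit 205) (nat_lit 5) (nat_lit 218) (nat_lit 5) (nat_lit 219) (nat_lit 5) (nat_lit 346) (nat_lit 325) (nat_lit 229)))) (XT.nd (nat_lit 156) (nat_lit 532) (nat_lit 0) (XT.nd (nat_lit 78) (nat_lit 0) (nat_lit 0) (XT.lf (nat_lit 0) (nat_lit 672313355) (nat_lit 684) (nat_lit 7348635544) (nat_lit 76) (nat_lit 4392798247) (nat_lit 196) (nat_lit 5)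 (nat_lit 205) (nat_lit 5) (nat_lit 197) (nat_lit 5) (nat_lit 347) (nat_lit 325) (nat_lit 228)) (XT.lf (nat_lit 0) (nat_lit 2272687221) (nat_lit 684) (nat_lit 856989372) (nat_lit 76) (nat_lit 9480783755) (nat_lit 196) (nat_lit 5) (nat_lit 205) (nat_lit 5) (nat_lit 197) (nat_lit 5) (nat_lit 348) (nat_lit 325) (nat_lit 227))) (XT.nd (nat_lit 78) (nat_lit 0) (nat_lit 0) (XT.lf (nat_lit 0) (nat_lit 3978345651) (nat_lit 608) (nat_lit 6903612798) (nat_lit 76) (nat_lit 1929411580) (nat_lit 189) (nat_lit 5) (nat_lit 197) (nat_lit 5) (nat_lit 190) (nat_lit 5) (nat_lit 349) (nat_lit 325) (nat_lit 226)) (XT.lf (nat_lit 0) (nat_lit 5756659918) (nat_lit 608) (nat_lit 174324979) (nat_lit 76) (nat_lit 7086690413) (nat_lit 189) (nat_lit 5) (nat_lit 197) (nat_lit 5) (nat_lit 190) (nat_lit 5) (nat_lit 350) (nat_lit 325) (nat_lit 225))))))) (XT.nd (nat_lit 1014) (nat_lit 2964) (nat_lit 0) (XT.nd (nat_lit 468) (nat_lit 1444)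 (nat_lit 0) (XT.nd (nat_lit 234) (nat_lit 1064) (nat_lit 0) (XT.nd (nat_lit 78) (nat_lit 532) (nat_lit 0) (XT.lf (nat_lit 0) (nat_lit 6873275788) (nat_lit 608) (nat_lit 763408825) (nat_lit 684) (nat_lit 5592046828) (nat_lit 181) (nat_lit 5) (nat_lit 189) (nat_lit 5) (nat_lit 190) (nat_lit 5) (nat_lit 351) (nat_lit 325) (nat_lit 224)) (XT.nd (nat_lit 78) (nat_lit 0) (nat_lit 0) (XT.lf (nat_lit 0) (nat_lit 640419138) (nat_lit 532) (nat_lit 8967087384) (nat_lit 608) (nat_lit 3837592994) (nat_lit 174) (nat_lit 5) (nat_lit 181) (nat_lit 5) (nat_lit 182) (nat_lit 5) (nat_lit 352) (nat_lit 325) (nat_lit 223)) (XT.lf (nat_lit 0) (nat_lit 7950872601) (nat_lit 532) (nat_lit 3741213318) (nat_lit 608) (nat_lit 1974245531) (nat_lit 174) (nat_lit 5) (nat_lit 181) (nat_lit 5) (nat_lit 182) (nat_lit 5) (nat_lit 353) (nat_lit 325) (nat_lit 222)))) (XT.nd (nat_lit 78) (nat_lit 532) (nat_lit 0) (XT.lf (nat_lit 0) (nat_lit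 1583716441) (nat_lit 532) (nat_lit 12269947349) (nat_lit 608) (nat_lit 40114174) (nat_lit 167) (nat_lit 5) (nat_lit 174) (nat_lit 5) (nat_lit 175) (nat_lit 5) (nat_lit 354) (nat_lit 325) (nat_lit 221)) (XT.nd (nat_lit 78) (nat_lit 456) (nat_lit 0) (XT.lf (nat_lit 0) (nat_lit 1992877093) (nat_lit 608) (nat_lit 4981676121) (nat_lit 76) (nat_lit 7150574713) (nat_lit 166) (nat_lit 5) (nat_lit 174) (nat_lit 5) (nat_lit 167) (nat_lit 5) (nat_lit 355) (nat_lit 325) (nat_lit 220)) (XT.lf (nat_lit 0) (nat_lit 2599401313) (nat_lit 456) (nat_lit 1495714504) (nat_lit 532) (nat_lit 10268029224) (nat_lit 160) (nat_lit 5) (nat_lit 166) (nat_lit 5) (nat_lit 167) (nat_lit 5) (nat_lit 356) (nat_lit 325) (nat_lit 219))))) (XT.nd (nat_lit 234) (nat_lit 988) (nat_lit 0) (XT.nd (nat_lit 78) (nat_lit 456) (nat_lit 0) (XT.lf (nat_lit 0) (nat_lit 6335451182) (nat_lit 532) (nat_lit 4154906567) (nat_lit 76) (nat_lit 4115704212)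 (nat_lit 160) (nat_lit 5) (nat_lit 167) (nat_lit 5) (nat_lit 161) (nat_lit 5) (nat_lit 357) (nat_lit 325) (nat_lit 218)) (XT.nd (nat_lit 78) (nat_lit 0) (nat_lit 0) (XT.lf (nat_lit 0) (nat_lit 3722771799) (nat_lit 456) (nat_lit 4955633056) (nat_lit 532) (nat_lit 6176809170) (nat_lit 154) (nat_lit 5) (nat_lit 160) (nat_lit 5) (nat_lit 161) (nat_lit 5) (nat_lit 358) (nat_lit 325) (nat_lit 217)) (XT.lf (nat_lit 0) (nat_lit 11126252335) (nat_lit 532) (nat_lit 3213734218) (nat_lit 76) (nat_lit 770825538) (nat_lit 154) (nat_lit 5) (nat_lit 161) (nat_lit 5) (nat_lit 155) (nat_lit 5) (nat_lit 359) (nat_lit 325) (nat_lit 216)))) (XT.nd (nat_lit 156) (nat_lit 456) (nat_lit 0) (XT.nd (nat_lit 78) (nat_lit 76) (nat_lit 0) (XT.lf (nat_lit 0) (nat_lit 4973504618) (nat_lit 456) (nat_lit 8756410194) (nat_lit 532) (nat_lit 1641701214) (nat_lit 148) (nat_lit 5) (nat_lit 154) (nat_lit 5) (nat_lit 155) (nat_lit 5) (nat_lit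 360) (nat_lit 325) (nat_lit 215)) (XT.lf (nat_lit 0) (nat_lit 774779113) (nat_lit 532) (nat_lit 2191912339) (nat_lit 76) (nat_lit 12672787251) (nat_lit 147) (nat_lit 5) (nat_lit 154) (nat_lit 5) (nat_lit 148) (nat_lit 5) (nat_lit 361) (nat_lit 325) (nat_lit 214))) (XT.nd (nat_lit 78) (nat_lit 0) (nat_lit 0) (XT.lf (nat_lit 0) (nat_lit 3307392791) (nat_lit 532) (nat_lit 9591516900) (nat_lit 76) (nat_lit 3013689395) (nat_lit 141) (nat_lit 5) (nat_lit 148) (nat_lit 5) (nat_lit 142) (nat_lit 5) (nat_lit 362) (nat_lit 325) (nat_lit 213)) (XT.lf (nat_lit 0) (nat_lit 5953967863) (nat_lit 532) (nat_lit 1105317430) (nat_lit 76) (nat_lit 9133496574) (nat_lit 141) (nat_lit 5) (nat_lit 148) (nat_lit 5) (nat_lit 142) (nat_lit 5) (nat_lit 363) (nat_lit 325) (nat_lit 212)))))) (XT.nd (nat_lit 546) (nat_lit 1368) (nat_lit 0) (XT.nd (nat_lit 234) (nat_lit 836) (nat_lit 0) (XT.nd (nat_lit 78) (nat_lit 380) (nat_lit 0) (XT.lf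 (nat_lit 0) (nat_lit 7770719603) (nat_lit 380) (nat_lit 970574424) (nat_lit 456) (nat_lit 7738243526) (nat_lit 136) (nat_lit 5) (nat_lit 141) (nat_lit 5) (nat_lit 142) (nat_lit 5) (nat_lit 364) (nat_lit 325) (nat_lit 211)) (XT.nd (nat_lit 78) (nat_lit 0) (nat_lit 0) (XT.lf (nat_lit 0) (nat_lit 95336214) (nat_lit 380) (nat_lit 11566906457) (nat_lit 456) (nat_lit 5111160959) (nat_lit 131) (nat_lit 5) (nat_lit 136) (nat_lit 5) (nat_lit 137) (nat_lit 5) (nat_lit 365) (nat_lit 325) (nat_lit 210)) (XT.lf (nat_lit 0) (nat_lit 9315905294) (nat_lit 380) (nat_lit 5439456388) (nat_lit 456) (nat_lit 2318195324) (nat_lit 131) (nat_lit 5) (nat_lit 136) (nat_lit 5) (nat_lit 137) (nat_lit 5) (nat_lit 366) (nat_lit 325) (nat_lit 209)))) (XT.nd (nat_lit 156) (nat_lit 380) (nat_lit 0) (XT.nd (nat_lit 78) (nat_lit 0) (nat_lit 0) (XT.lf (nat_lit 0) (nat_lit 557337111) (nat_lit 456) (nat_lit 15954229867) (nat_lit 76) (nat_lit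 870703748) (nat_lit 125) (nat_lit 5) (nat_lit 131) (nat_lit 5) (nat_lit 126) (nat_lit 5) (nat_lit 367) (nat_lit 325) (nat_lit 208)) (XT.lf (nat_lit 0) (nat_lit 3593020248) (nat_lit 456) (nat_lit 6743550204) (nat_lit 76) (nat_lit 7359379420) (nat_lit 125) (nat_lit 5) (nat_lit 131) (nat_lit 5) (nat_lit 126) (nat_lit 5) (nat_lit 368) (nat_lit 325) (nat_lit 207))) (XT.nd (nat_lit 78) (nat_lit 0) (nat_lit 0) (XT.lf (nat_lit 0) (nat_lit 2781811778) (nat_lit 380) (nat_lit 3952575849) (nat_lit 456) (nat_lit 11284220083) (nat_lit 120) (nat_lit 5) (nat_lit 125) (nat_lit 5) (nat_lit 126) (nat_lit 5) (nat_lit 369) (nat_lit 325) (nat_lit 206)) (XT.lf (nat_lit 0) (nat_lit 10052018195) (nat_lit 456) (nat_lit 5659711632) (nat_lit 76) (nat_lit 2636761325) (nat_lit 120) (nat_lit 5) (nat_lit 126) (nat_lit 5) (nat_lit 121) (nat_lit 5) (nat_lit 370) (nat_lit 325) (nat_lit 205))))) (XT.nd (nat_lit 234) (nat_lit 608) (nat_lit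 0) (XT.nd (nat_lit 78) (nat_lit 456) (nat_lit 0) (XT.lf (nat_lit 0) (nat_lit 4232518662) (nat_lit 304) (nat_lit 9304865417) (nat_lit 380) (nat_lit 5148847169) (nat_lit 116) (nat_lit 5) (nat_lit 120) (nat_lit 5) (nat_lit 121) (nat_lit 5) (nat_lit 371) (nat_lit 325) (nat_lit 204)) (XT.nd (nat_lit 78) (nat_lit 456) (nat_lit 0) (XT.lf (nat_lit 0) (nat_lit 14522063774) (nat_lit 304) (nat_lit 2650975129) (nat_lit 380) (nat_lit 1859698964) (nat_lit 116) (nat_lit 5) (nat_lit 120) (nat_lit 5) (nat_lit 121) (nat_lit 5) (nat_lit 372) (nat_lit 325) (nat_lit 203)) (XT.lf (nat_lit 0) (nat_lit 1584044161) (nat_lit 456) (nat_lit 13614748720) (nat_lit 76) (nat_lit 4187839741) (nat_lit 110) (nat_lit 5) (nat_lit 116) (nat_lit 5) (nat_lit 111) (nat_lit 5) (nat_lit 373) (nat_lit 325) (nat_lit 202)))) (XT.nd (nat_lit 156) (nat_lit 304) (nat_lit 0) (XT.nd (nat_lit 78) (nat_lit 304) (nat_lit 0) (XT.lf (nat_lit 0) (nat_lit 5154903843)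 (nat_lit 456) (nat_lit 3354902460) (nat_lit 76) (nat_lit 11238955696) (nat_lit 110) (nat_lit 5) (nat_lit 116) (nat_lit 5) (nat_lit 111) (nat_lit 5) (nat_lit 374) (nat_lit 325) (nat_lit 201)) (XT.lf (nat_lit 0) (nat_lit 7341041162) (nat_lit 304) (nat_lit 1551672155) (nat_lit 380) (nat_lit 11227252691) (nat_lit 106) (nat_lit 5) (nat_lit 110) (nat_lit 5) (nat_lit 111) (nat_lit 5) (nat_lit 375) (nat_lit 325) (nat_lit 200))) (XT.nd (nat_lit 78) (nat_lit 304) (nat_lit 0) (XT.lf (nat_lit 0) (nat_lit 12820234609) (nat_lit 380) (nat_lit 2144050158) (nat_lit 76) (nat_lit 5535699357) (nat_lit 106) (nat_lit 5) (nat_lit 111) (nat_lit 5) (nat_lit 107) (nat_lit 5) (nat_lit 376) (nat_lit 325) (nat_lit 199)) (XT.lf (nat_lit 0) (nat_lit 8954600060) (nat_lit 304) (nat_lit 8002118142) (nat_lit 380) (nat_lit 3931955640) (nat_lit 102) (nat_lit 5) (nat_lit 106) (nat_lit 5) (nat_lit 107) (nat_lit 5) (nat_lit 377) (nat_lit 325)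 (nat_lit 198))))))))
noncomputable def xc168 : XT := (XT.nd (nat_lit 2028) (nat_lit 1976) (nat_lit 0) (XT.nd (nat_lit 1014) (nat_lit 1368) (nat_lit 0) (XT.nd (nat_lit 468) (nat_lit 1140) (nat_lit 0) (XT.nd (nat_lit 234) (nat_lit 228) (nat_lit 0) (XT.nd (nat_lit 78) (nat_lit 684) (nat_lit 0) (XT.lf (nat_lit 0) (nat_lit 20415660163) (nat_lit 304) (nat_lit 813144038) (nat_lit 380) (nat_lit 59879820) (nat_lit 102) (nat_lit 5) (nat_lit 106) (nat_lit 5) (nat_lit 107) (nat_lit 5) (nat_lit 378) (nat_lit 325) (nat_lit 197)) (XT.nd (nat_lit 78) (nat_lit 304) (nat_lit 0) (XT.lf (nat_lit 0) (nat_lit 4009087702) (nat_lit 380) (nat_lit 11085351080) (nat_lit 76) (nat_lit 6600406016) (nat_lit 97) (nat_lit 5) (nat_lit 102) (nat_lit 5) (nat_lit 98) (nat_lit 5) (nat_lit 379) (nat_lit 325) (nat_lit 196)) (XT.lf (nat_lit 0) (nat_lit 324663686) (nat_lit 304) (nat_lit 7884494398) (nat_lit 380) (nat_lit 13903711990) (nat_lit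 93) (nat_lit 5) (nat_lit 97) (nat_lit 5) (nat_lit 98) (nat_lit 5) (nat_lit 380) (nat_lit 325) (nat_lit 195)))) (XT.nd (nat_lit 78) (nat_lit 228) (nat_lit 0) (XT.lf (nat_lit 0) (nat_lit 12289961260) (nat_lit 304) (nat_lit 347521564) (nat_lit 380) (nat_lit 9902890166) (nat_lit 93) (nat_lit 5) (nat_lit 97) (nat_lit 5) (nat_lit 98) (nat_lit 5) (nat_lit 381) (nat_lit 325) (nat_lit 194)) (XT.nd (nat_lit 78) (nat_lit 0) (nat_lit 0) (XT.lf (nat_lit 0) (nat_lit 1578959969) (nat_lit 228) (nat_lit 15696709645) (nat_lit 304) (nat_lit 5702725328) (nat_lit 90) (nat_lit 5) (nat_lit 93) (nat_lit 5) (nat_lit 94) (nat_lit 5) (nat_lit 382) (nat_lit 325) (nat_lit 193)) (XT.lf (nat_lit 0) (nat_lit 13955879923) (nat_lit 228) (nat_lit 8194730829) (nat_lit 304) (nat_lit 1276022734) (nat_lit 90) (nat_lit 5) (nat_lit 93) (nat_lit 5) (nat_lit 94) (nat_lit 5) (nat_lit 383) (nat_lit 325) (nat_lit 192))))) (XT.nd (nat_lit 234) (nat_lit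 532) (nat_lit 0) (XT.nd (nat_lit 78) (nat_lit 228) (nat_lit 0) (XT.lf (nat_lit 0) (nat_lit 2825637393) (nat_lit 304) (nat_lit 411802997) (nat_lit 380) (nat_lit 20649394904) (nat_lit 85) (nat_lit 5) (nat_lit 89) (nat_lit 5) (nat_lit 90) (nat_lit 5) (nat_lit 384) (nat_lit 325) (nat_lit 191)) (XT.nd (nat_lit 78) (nat_lit 228) (nat_lit 0) (XT.lf (nat_lit 0) (nat_lit 8021305045) (nat_lit 380) (nat_lit 8773415140) (nat_lit 76) (nat_lit 7560928459) (nat_lit 85) (nat_lit 5) (nat_lit 90) (nat_lit 5) (nat_lit 86) (nat_lit 5) (nat_lit 385) (nat_lit 325) (nat_lit 190)) (XT.lf (nat_lit 0) (nat_lit 3942436200) (nat_lit 228) (nat_lit 9039448376) (nat_lit 304) (nat_lit 11855649578) (nat_lit 82) (nat_lit 5) (nat_lit 85) (nat_lit 5) (nat_lit 86) (nat_lit 5) (nat_lit 386) (nat_lit 325) (nat_lit 189)))) (XT.nd (nat_lit 156) (nat_lit 304) (nat_lit 0) (XT.nd (nat_lit 78) (nat_lit 228) (nat_lit 0) (XT.lf (nat_lit 0) (nat_lit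 17206322272) (nat_lit 228) (nat_lit 964905951) (nat_lit 304) (nat_lit 7160253221) (nat_lit 82) (nat_lit 5) (nat_lit 85) (nat_lit 5) (nat_lit 86) (nat_lit 5) (nat_lit 387) (nat_lit 325) (nat_lit 188)) (XT.lf (nat_lit 0) (nat_lit 5042491960) (nat_lit 228) (nat_lit 18584463446) (nat_lit 304) (nat_lit 2209974161) (nat_lit 79) (nat_lit 5) (nat_lit 82) (nat_lit 5) (nat_lit 83) (nat_lit 5) (nat_lit 388) (nat_lit 325) (nat_lit 187))) (XT.nd (nat_lit 78) (nat_lit 228) (nat_lit 0) (XT.lf (nat_lit 0) (nat_lit 2916452475) (nat_lit 304) (nat_lit 7634638493) (nat_lit 76) (nat_lit 15803100096) (nat_lit 78) (nat_lit 5) (nat_lit 82) (nat_lit 5) (nat_lit 79) (nat_lit 5) (nat_lit 389) (nat_lit 325) (nat_lit 186)) (XT.lf (nat_lit 0) (nat_lit 6002431553) (nat_lit 228) (nat_lit 2199362176) (nat_lit 304) (nat_lit 18683037259) (nat_lit 75) (nat_lit 5) (nat_lit 78) (nat_lit 5) (nat_lit 79) (nat_lit 5) (nat_lit 390) (nat_lit 325)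 (nat_lit 185)))))) (XT.nd (nat_lit 468) (nat_lit 608) (nat_lit 0) (XT.nd (nat_lit 234) (nat_lit 532) (nat_lit 0) (XT.nd (nat_lit 78) (nat_lit 228) (nat_lit 0) (XT.lf (nat_lit 0) (nat_lit 13777015083) (nat_lit 304) (nat_lit 7299119163) (nat_lit 76) (nat_lit 6351319388) (nat_lit 75) (nat_lit 5) (nat_lit 79) (nat_lit 5) (nat_lit 76) (nat_lit 5) (nat_lit 391) (nat_lit 325) (nat_lit 184)) (XT.nd (nat_lit 78) (nat_lit 0) (nat_lit 0) (XT.lf (nat_lit 0) (nat_lit 6789907240) (nat_lit 228) (nat_lit 12808778887) (nat_lit 304) (nat_lit 8385296072) (nat_lit 72) (nat_lit 5) (nat_lit 75) (nat_lit 5) (nat_lit 76) (nat_lit 5) (nat_lit 392) (nat_lit 325) (nat_lit 183)) (XT.lf (nat_lit 0) (nat_lit 21438879536) (nat_lit 228) (nat_lit 4222092975) (nat_lit 304) (nat_lit 2894258094) (nat_lit 72) (nat_lit 5) (nat_lit 75) (nat_lit 5) (nat_lit 76) (nat_lit 5) (nat_lit 393) (nat_lit 325) (nat_lit 182)))) (XT.nd (nat_lit 78) (nat_lit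 228) (nat_lit 0) (XT.lf (nat_lit 0) (nat_lit 2817404037) (nat_lit 304) (nat_lit 21695058253) (nat_lit 76) (nat_lit 4627067185) (nat_lit 68) (nat_lit 5) (nat_lit 72) (nat_lit 5) (nat_lit 69) (nat_lit 5) (nat_lit 394) (nat_lit 325) (nat_lit 181)) (XT.nd (nat_lit 78) (nat_lit 228) (nat_lit 0) (XT.lf (nat_lit 0) (nat_lit 8749088546) (nat_lit 304) (nat_lit 7234584024) (nat_lit 76) (nat_lit 13753622425) (nat_lit 68) (nat_lit 5) (nat_lit 72) (nat_lit 5) (nat_lit 69) (nat_lit 5) (nat_lit 395) (nat_lit 325) (nat_lit 180)) (XT.lf (nat_lit 0) (nat_lit 7800058726) (nat_lit 228) (nat_lit 7126331805) (nat_lit 304) (nat_lit 15424575554) (nat_lit 65) (nat_lit 5) (nat_lit 68) (nat_lit 5) (nat_lit 69) (nat_lit 5) (nat_lit 396) (nat_lit 325) (nat_lit 179))))) (XT.nd (nat_lit 234) (nat_lit 380) (nat_lit 0) (XT.nd (nat_lit 78) (nat_lit 228) (nat_lit 0) (XT.lf (nat_lit 0) (nat_lit 21374728448) (nat_lit 304) (nat_lit 7578642255)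 (nat_lit 76) (nat_lit 2027107636) (nat_lit 65) (nat_lit 5) (nat_lit 69) (nat_lit 5) (nat_lit 66) (nat_lit 5) (nat_lit 397) (nat_lit 325) (nat_lit 178)) (XT.nd (nat_lit 78) (nat_lit 76) (nat_lit 0) (XT.lf (nat_lit 0) (nat_lit 7915120387) (nat_lit 152) (nat_lit 20240994815) (nat_lit 228) (nat_lit 3468575262) (nat_lit 63) (nat_lit 5) (nat_lit 65) (nat_lit 5) (nat_lit 66) (nat_lit 5) (nat_lit 398) (nat_lit 325) (nat_lit 177)) (XT.lf (nat_lit 0) (nat_lit 2867314929) (nat_lit 228) (nat_lit 8296656012) (nat_lit 76) (nat_lit 21121329660) (nat_lit 62) (nat_lit 5) (nat_lit 65) (nat_lit 5) (nat_lit 63) (nat_lit 5) (nat_lit 399) (nat_lit 325) (nat_lit 176)))) (XT.nd (nat_lit 156) (nat_lit 152) (nat_lit 0) (XT.nd (nat_lit 78) (nat_lit 0) (nat_lit 0) (XT.lf (nat_lit 0) (nat_lit 7682969402) (nat_lit 228) (nat_lit 1707635284) (nat_lit 304) (nat_lit 23572085208) (nat_lit 59) (nat_lit 5) (nat_lit 62) (nat_lit 5) (nat_lit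 63) (nat_lit 5) (nat_lit 400) (nat_lit 325) (nat_lit 175)) (XT.lf (nat_lit 0) (nat_lit 16264648105) (nat_lit 304) (nat_lit 9435179535) (nat_lit 76) (nat_lit 7955923764) (nat_lit 59) (nat_lit 5) (nat_lit 63) (nat_lit 5) (nat_lit 60) (nat_lit 5) (nat_lit 401) (nat_lit 325) (nat_lit 174))) (XT.nd (nat_lit 78) (nat_lit 0) (nat_lit 0) (XT.lf (nat_lit 0) (nat_lit 6993276511) (nat_lit 152) (nat_lit 16429197591) (nat_lit 228) (nat_lit 10944805944) (nat_lit 57) (nat_lit 5) (nat_lit 59) (nat_lit 5) (nat_lit 60) (nat_lit 5) (nat_lit 402) (nat_lit 325) (nat_lit 173)) (XT.lf (nat_lit 0) (nat_lit 24097127926) (nat_lit 152) (nat_lit 6786700971) (nat_lit 228) (nat_lit 4213663895) (nat_lit 57) (nat_lit 5) (nat_lit 59) (nat_lit 5) (nat_lit 60) (nat_lit 5) (nat_lit 403) (nat_lit 325) (nat_lit 172))))))) (XT.nd (nat_lit 1014) (nat_lit 836) (nat_lit 0) (XT.nd (nat_lit 468) (nat_lit 532) (nat_lit 0) (XT.nd (nat_lit 234) (nat_lit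 228) (nat_lit 0) (XT.nd (nat_lit 78) (nat_lit 152) (nat_lit 0) (XT.lf (nat_lit 0) (nat_lit 2748137829) (nat_lit 228) (nat_lit 29934679604) (nat_lit 76) (nat_lit 3163558482) (nat_lit 54) (nat_lit 5) (nat_lit 57) (nat_lit 5) (nat_lit 55) (nat_lit 5) (nat_lit 404) (nat_lit 325) (nat_lit 171)) (XT.nd (nat_lit 78) (nat_lit 152) (nat_lit 0) (XT.lf (nat_lit 0) (nat_lit 10007164029) (nat_lit 228) (nat_lit 13178517541) (nat_lit 76) (nat_lit 13425602439) (nat_lit 54) (nat_lit 5) (nat_lit 57) (nat_lit 5) (nat_lit 55) (nat_lit 5) (nat_lit 405) (nat_lit 325) (nat_lit 170)) (XT.lf (nat_lit 0) (nat_lit 4150914930) (nat_lit 152) (nat_lit 13366815080) (nat_lit 228) (nat_lit 19880398100) (nat_lit 52) (nat_lit 5) (nat_lit 54) (nat_lit 5) (nat_lit 55) (nat_lit 5) (nat_lit 406) (nat_lit 325) (nat_lit 169)))) (XT.nd (nat_lit 78) (nat_lit 228) (nat_lit 0) (XT.lf (nat_lit 0) (nat_lit 22260065407) (nat_lit 152) (nat_lit 3120572096)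 (nat_lit 228) (nat_lit 12824131074) (nat_lit 52) (nat_lit 5) (nat_lit 54) (nat_lit 5) (nat_lit 55) (nat_lit 5) (nat_lit 407) (nat_lit 325) (nat_lit 168)) (XT.nd (nat_lit 78) (nat_lit 76) (nat_lit 0) (XT.lf (nat_lit 0) (nat_lit 1831011068) (nat_lit 152) (nat_lit 31731556944) (nat_lit 228) (nat_lit 5470547901) (nat_lit 50) (nat_lit 5) (nat_lit 52) (nat_lit 5) (nat_lit 53) (nat_lit 5) (nat_lit 408) (nat_lit 325) (nat_lit 167)) (XT.lf (nat_lit 0) (nat_lit 2250194396) (nat_lit 228) (nat_lit 19477517391) (nat_lit 76) (nat_lit 18152368827) (nat_lit 49) (nat_lit 5) (nat_lit 52) (nat_lit 5) (nat_lit 50) (nat_lit 5) (nat_lit 409) (nat_lit 325) (nat_lit 166))))) (XT.nd (nat_lit 234) (nat_lit 380) (nat_lit 0) (XT.nd (nat_lit 78) (nat_lit 152) (nat_lit 0) (XT.lf (nat_lit 0) (nat_lit 10086878332) (nat_lit 228) (nat_lit 1285229097) (nat_lit 76) (nat_lit 29378895334) (nat_lit 49) (nat_lit 5) (nat_lit 52) (nat_lit 5) (nat_lit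 50) (nat_lit 5) (nat_lit 410) (nat_lit 325) (nat_lit 165)) (XT.nd (nat_lit 78) (nat_lit 0) (nat_lit 0) (XT.lf (nat_lit 0) (nat_lit 17790397191) (nat_lit 152) (nat_lit 533716577) (nat_lit 228) (nat_lit 23318976813) (nat_lit 47) (nat_lit 5) (nat_lit 49) (nat_lit 5) (nat_lit 50) (nat_lit 5) (nat_lit 411) (nat_lit 325) (nat_lit 164)) (XT.lf (nat_lit 0) (nat_lit 26918224533) (nat_lit 228) (nat_lit 5208841521) (nat_lit 76) (nat_lit 10431583723) (nat_lit 47) (nat_lit 5) (nat_lit 50) (nat_lit 5) (nat_lit 48) (nat_lit 5) (nat_lit 412) (nat_lit 325) (nat_lit 163)))) (XT.nd (nat_lit 156) (nat_lit 152) (nat_lit 0) (XT.nd (nat_lit 78) (nat_lit 76) (nat_lit 0) (XT.lf (nat_lit 0) (nat_lit 14257926092) (nat_lit 152) (nat_lit 21649204877) (nat_lit 228) (nat_lit 7590437058) (nat_lit 45) (nat_lit 5) (nat_lit 47) (nat_lit 5) (nat_lit 48) (nat_lit 5) (nat_lit 413) (nat_lit 325) (nat_lit 162)) (XT.lf (nat_lit 0) (nat_lit 735136333)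 (nat_lit 228) (nat_lit 10064218032) (nat_lit 76) (nat_lit 33663665685) (nat_lit 44) (nat_lit 5) (nat_lit 47) (nat_lit 5) (nat_lit 45) (nat_lit 5) (nat_lit 414) (nat_lit 325) (nat_lit 161))) (XT.nd (nat_lit 78) (nat_lit 0) (nat_lit 0) (XT.lf (nat_lit 0) (nat_lit 9252110944) (nat_lit 228) (nat_lit 35664431077) (nat_lit 76) (nat_lit 535814524) (nat_lit 42) (nat_lit 5) (nat_lit 45) (nat_lit 5) (nat_lit 43) (nat_lit 5) (nat_lit 415) (nat_lit 325) (nat_lit 160)) (XT.lf (nat_lit 0) (nat_lit 18228983700) (nat_lit 228) (nat_lit 16143426911) (nat_lit 76) (nat_lit 12092832143) (nat_lit 42) (nat_lit 5) (nat_lit 45) (nat_lit 5) (nat_lit 43) (nat_lit 5) (nat_lit 416) (nat_lit 325) (nat_lit 159)))))) (XT.nd (nat_lit 546) (nat_lit 380) (nat_lit 0) (XT.nd (nat_lit 234) (nat_lit 304) (nat_lit 0) (XT.nd (nat_lit 78) (nat_lit 0) (nat_lit 0) (XT.lf (nat_lit 0) (nat_lit 4033060316) (nat_lit 152) (nat_lit 23475850671) (nat_lit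 228) (nat_lit 19998593359) (nat_lit 40) (nat_lit 5) (nat_lit 42) (nat_lit 5) (nat_lit 43) (nat_lit 5) (nat_lit 417) (nat_lit 325) (nat_lit 158)) (XT.nd (nat_lit 78) (nat_lit 0) (nat_lit 0) (XT.lf (nat_lit 0) (nat_lit 25137006722) (nat_lit 152) (nat_lit 12088288443) (nat_lit 228) (nat_lit 11350998062) (nat_lit 40) (nat_lit 5) (nat_lit 42) (nat_lit 5) (nat_lit 43) (nat_lit 5) (nat_lit 418) (nat_lit 325) (nat_lit 157)) (XT.lf (nat_lit 0) (nat_lit 46865566798) (nat_lit 152) (nat_lit 362790586) (nat_lit 228) (nat_lit 2448933969) (nat_lit 40) (nat_lit 5) (nat_lit 42) (nat_lit 5) (nat_lit 43) (nat_lit 5) (nat_lit 419) (nat_lit 325) (nat_lit 156)))) (XT.nd (nat_lit 156) (nat_lit 152) (nat_lit 0) (XT.nd (nat_lit 78) (nat_lit 0) (nat_lit 0) (XT.lf (nat_lit 0) (nat_lit 6879346719) (nat_lit 152) (nat_lit 32191969708) (nat_lit 76) (nat_lit 11729357454) (nat_lit 38) (nat_lit 5) (nat_lit 40) (nat_lit 5) (nat_lit 39)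 (nat_lit 5) (nat_lit 420) (nat_lit 325) (nat_lit 155)) (XT.lf (nat_lit 0) (nat_lit 16465823334) (nat_lit 152) (nat_lit 11264019178) (nat_lit 76) (nat_lit 24226361984) (nat_lit 38) (nat_lit 5) (nat_lit 40) (nat_lit 5) (nat_lit 39) (nat_lit 5) (nat_lit 421) (nat_lit 325) (nat_lit 154))) (XT.nd (nat_lit 78) (nat_lit 0) (nat_lit 0) (XT.lf (nat_lit 0) (nat_lit 10488301922) (nat_lit 152) (nat_lit 15947851761) (nat_lit 228) (nat_lit 26707360608) (nat_lit 36) (nat_lit 5) (nat_lit 38) (nat_lit 5) (nat_lit 39) (nat_lit 5) (nat_lit 422) (nat_lit 325) (nat_lit 153)) (XT.lf (nat_lit 0) (nat_lit 33116041244) (nat_lit 152) (nat_lit 3698792091) (nat_lit 228) (nat_lit 17548333878) (nat_lit 36) (nat_lit 5) (nat_lit 38) (nat_lit 5) (nat_lit 39) (nat_lit 5) (nat_lit 423) (nat_lit 325) (nat_lit 152))))) (XT.nd (nat_lit 234) (nat_lit 228) (nat_lit 0) (XT.nd (nat_lit 78) (nat_lit 76) (nat_lit 0) (XT.lf (nat_lit 0) (nat_lit 723684639)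 (nat_lit 76) (nat_lit 46869460995) (nat_lit 152) (nat_lit 8023616906) (nat_lit 35) (nat_lit 5) (nat_lit 36) (nat_lit 5) (nat_lit 37) (nat_lit 4) (nat_lit 424) (nat_lit 325) (nat_lit 151)) (XT.nd (nat_lit 78) (nat_lit 0) (nat_lit 0) (XT.lf (nat_lit 0) (nat_lit 2000876119) (nat_lit 152) (nat_lit 33176214645) (nat_lit 76) (nat_lit 21722893537) (nat_lit 34) (nat_lit 5) (nat_lit 36) (nat_lit 5) (nat_lit 35) (nat_lit 5) (nat_lit 425) (nat_lit 325) (nat_lit 150)) (XT.lf (nat_lit 0) (nat_lit 12160567225) (nat_lit 152) (nat_lit 10894984474) (nat_lit 76) (nat_lit 35163896765) (nat_lit 34) (nat_lit 5) (nat_lit 36) (nat_lit 5) (nat_lit 35) (nat_lit 5) (nat_lit 426) (nat_lit 325) (nat_lit 149)))) (XT.nd (nat_lit 156) (nat_lit 76) (nat_lit 0) (XT.nd (nat_lit 78) (nat_lit 0) (nat_lit 0) (XT.lf (nat_lit 0) (nat_lit 12286972654) (nat_lit 152) (nat_lit 10452040718) (nat_lit 228) (nat_lit 36836065125) (nat_lit 32) (nat_lit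 5) (nat_lit 34) (nat_lit 5) (nat_lit 35) (nat_lit 5) (nat_lit 427) (nat_lit 325) (nat_lit 148)) (XT.lf (nat_lit 0) (nat_lit 33766108268) (nat_lit 228) (nat_lit 24613248755) (nat_lit 76) (nat_lit 2588082398) (nat_lit 32) (nat_lit 5) (nat_lit 35) (nat_lit 5) (nat_lit 33) (nat_lit 4) (nat_lit 428) (nat_lit 325) (nat_lit 147))) (XT.nd (nat_lit 78) (nat_lit 76) (nat_lit 0) (XT.lf (nat_lit 0) (nat_lit 45223494054) (nat_lit 228) (nat_lit 1368905045) (nat_lit 76) (nat_lit 15806188557) (nat_lit 32) (nat_lit 5) (nat_lit 35) (nat_lit 5) (nat_lit 33) (nat_lit 4) (nat_lit 429) (nat_lit 325) (nat_lit 146)) (XT.lf (nat_lit 0) (nat_lit 23014809108) (nat_lit 76) (nat_lit 34227133945) (nat_lit 152) (nat_lit 6624207836) (nat_lit 31) (nat_lit 5) (nat_lit 32) (nat_lit 5) (nat_lit 33) (nat_lit 4) (nat_lit 430) (nat_lit 325) (nat_lit 145))))))))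
noncomputable def xc169 : XT := (XT.nd (nat_lit 40014) (nat_lit 0) (nat_lit 7752) (XT.nd (nat_lit 39000) (nat_lit 0) (nat_lit 15808) (XT.nd (nat_lit 468) (nat_lit 304) (nat_lit 0) (XT.nd (nat_lit 234) (nat_lit 76) (nat_lit 0) (XT.nd (nat_lit 78) (nat_lit 152) (nat_lit 0) (XT.lf (nat_lit 0) (nat_lit 4170480916) (nat_lit 152) (nat_lit 17267226067) (nat_lit 76) (nat_lit 43938508846) (nat_lit 30) (nat_lit 5) (nat_lit 32) (nat_lit 5) (nat_lit 31) (nat_lit 5) (nat_lit 431) (nat_lit 325) (nat_lit 144)) (XT.nd (nat_lit 78) (nat_lit 0) (nat_lit 0) (XT.lf (nat_lit 0) (nat_lit 7090320020) (nat_lit 152) (nat_lit 8129936392) (nat_lit 228) (nat_lit 51707427867) (nat_lit 28) (nat_lit 5) (nat_lit 30) (nat_lit 5) (nat_lit 31) (nat_lit 5) (nat_lit 432) (nat_lit 325) (nat_lit 143)) (XT.lf (nat_lit 0) (nat_lit 26827471432) (nat_lit 228) (nat_lit 36050128935) (nat_lit 76) (nat_lit 5641318741) (nat_lit 28) (nat_lit 5) (nat_lit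 31) (nat_lit 5) (nat_lit 29) (nat_lit 4) (nat_lit 433) (nat_lit 325) (nat_lit 142)))) (XT.nd (nat_lit 78) (nat_lit 76) (nat_lit 0) (XT.lf (nat_lit 0) (nat_lit 38859751264) (nat_lit 228) (nat_lit 11636450805) (nat_lit 76) (nat_lit 19659384153) (nat_lit 28) (nat_lit 5) (nat_lit 31) (nat_lit 5) (nat_lit 29) (nat_lit 4) (nat_lit 434) (nat_lit 325) (nat_lit 141)) (XT.nd (nat_lit 78) (nat_lit 0) (nat_lit 0) (XT.lf (nat_lit 0) (nat_lit 13771891601) (nat_lit 76) (nat_lit 37609951876) (nat_lit 152) (nat_lit 20455645223) (nat_lit 27) (nat_lit 5) (nat_lit 28) (nat_lit 5) (nat_lit 29) (nat_lit 4) (nat_lit 435) (nat_lit 325) (nat_lit 140)) (XT.lf (nat_lit 0) (nat_lit 40174598418) (nat_lit 76) (nat_lit 24219006888) (nat_lit 152) (nat_lit 9172823393) (nat_lit 27) (nat_lit 5) (nat_lit 28) (nat_lit 5) (nat_lit 29) (nat_lit 4) (nat_lit 436) (nat_lit 325) (nat_lit 139))))) (XT.nd (nat_lit 38220) (nat_lit 0) (nat_lit 16644)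 (XT.nd (nat_lit 78) (nat_lit 228) (nat_lit 0) (XT.lf (nat_lit 0) (nat_lit 2397273526) (nat_lit 152) (nat_lit 8007690327) (nat_lit 76) (nat_lit 64941670495) (nat_lit 26) (nat_lit 5) (nat_lit 28) (nat_lit 5) (nat_lit 27) (nat_lit 5) (nat_lit 437) (nat_lit 325) (nat_lit 138)) (XT.nd (nat_lit 234) (nat_lit 76) (nat_lit 0) (XT.lf (nat_lit 0) (nat_lit 14343028096) (nat_lit 228) (nat_lit 58811607555) (nat_lit 76) (nat_lit 4016498928) (nat_lit 24) (nat_lit 5) (nat_lit 27) (nat_lit 5) (nat_lit 25) (nat_lit 4) (nat_lit 438) (nat_lit 325) (nat_lit 137)) (XT.lf (nat_lit 0) (nat_lit 19868095795) (nat_lit 76) (nat_lit 33247650035) (nat_lit 152) (nat_lit 29841663692) (nat_lit 23) (nat_lit 5) (nat_lit 24) (nat_lit 5) (nat_lit 25) (nat_lit 4) (nat_lit 441) (nat_lit 325) (nat_lit 134)))) (XT.nd (nat_lit 156) (nat_lit 1064) (nat_lit 0) (XT.nd (nat_lit 78) (nat_lit 0) (nat_lit 0) (XT.lf (nat_lit 0) (nat_lit 2066800011) (nat_lit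 0) (nat_lit 2066800011) (nat_lit 988) (nat_lit 546060914) (nat_lit 256) (nat_lit 5) (nat_lit 256) (nat_lit 3) (nat_lit 269) (nat_lit 3) (nat_lit 326) (nat_lit 326) (nat_lit 248)) (XT.lf (nat_lit 0) (nat_lit 8662208888) (nat_lit 0) (nat_lit 519996240) (nat_lit 988) (nat_lit 293105013) (nat_lit 256) (nat_lit 5) (nat_lit 256) (nat_lit 3) (nat_lit 269) (nat_lit 3) (nat_lit 327) (nat_lit 326) (nat_lit 247))) (XT.nd (nat_lit 78) (nat_lit 0) (nat_lit 0) (XT.lf (nat_lit 0) (nat_lit 556055979) (nat_lit 1064) (nat_lit 5841257624) (nat_lit 1140) (nat_lit 3196241688) (nat_lit 242) (nat_lit 5) (nat_lit 256) (nat_lit 5) (nat_lit 257) (nat_lit 5) (nat_lit 328) (nat_lit 326) (nat_lit 246)) (XT.lf (nat_lit 0) (nat_lit 1407934741) (nat_lit 1064) (nat_lit 1268908590) (nat_lit 1140) (nat_lit 7038948090) (nat_lit 242) (nat_lit 5) (nat_lit 256) (nat_lit 5) (nat_lit 257) (nat_lit 5) (nat_lit 329) (nat_lit 326) (nat_lit 245))))))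 (XT.nd (nat_lit 468) (nat_lit 912) (nat_lit 0) (XT.nd (nat_lit 234) (nat_lit 0) (nat_lit 76) (XT.nd (nat_lit 78) (nat_lit 0) (nat_lit 0) (XT.lf (nat_lit 0) (nat_lit 2301077216) (nat_lit 1064) (nat_lit 6360904817) (nat_lit 1140) (nat_lit 1179265369) (nat_lit 243) (nat_lit 5) (nat_lit 257) (nat_lit 5) (nat_lit 258) (nat_lit 5) (nat_lit 330) (nat_lit 326) (nat_lit 244)) (XT.nd (nat_lit 78) (nat_lit 0) (nat_lit 0) (XT.lf (nat_lit 0) (nat_lit 3231852874) (nat_lit 1064) (nat_lit 1615978874) (nat_lit 1140) (nat_lit 5122333437) (nat_lit 243) (nat_lit 5) (nat_lit 257) (nat_lit 5) (nat_lit 258) (nat_lit 5) (nat_lit 331) (nat_lit 326) (nat_lit 243)) (XT.lf (nat_lit 76) (nat_lit 3319221486) (nat_lit 0) (nat_lit 875465011) (nat_lit 1140) (nat_lit 5908162576) (nat_lit 244) (nat_lit 5) (nat_lit 243) (nat_lit 5) (nat_lit 258) (nat_lit 5) (nat_lit 332) (nat_lit 326) (nat_lit 242)))) (XT.nd (nat_lit 78) (nat_lit 0) (nat_lit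 0) (XT.lf (nat_lit 0) (nat_lit 5206777044) (nat_lit 1064) (nat_lit 1852110762) (nat_lit 1140) (nat_lit 3180036465) (nat_lit 244) (nat_lit 5) (nat_lit 258) (nat_lit 5) (nat_lit 259) (nat_lit 5) (nat_lit 333) (nat_lit 326) (nat_lit 241)) (XT.nd (nat_lit 78) (nat_lit 0) (nat_lit 76) (XT.lf (nat_lit 76) (nat_lit 3265300153) (nat_lit 0) (nat_lit 2997750530) (nat_lit 1140) (nat_lit 4115637745) (nat_lit 245) (nat_lit 5) (nat_lit 244) (nat_lit 5) (nat_lit 259) (nat_lit 5) (nat_lit 334) (nat_lit 326) (nat_lit 240)) (XT.lf (nat_lit 0) (nat_lit 7355742811) (nat_lit 1064) (nat_lit 1977269731) (nat_lit 1140) (nat_lit 1189511751) (nat_lit 245) (nat_lit 5) (nat_lit 259) (nat_lit 5) (nat_lit 260) (nat_lit 5) (nat_lit 335) (nat_lit 326) (nat_lit 239))))) (XT.nd (nat_lit 234) (nat_lit 0) (nat_lit 0) (XT.nd (nat_lit 78) (nat_lit 1064) (nat_lit 0) (XT.lf (nat_lit 76) (nat_lit 3330962485) (nat_lit 0) (nat_lit 5187146708) (nat_lit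 1140) (nat_lit 2151479326) (nat_lit 246) (nat_lit 5) (nat_lit 245) (nat_lit 5) (nat_lit 260) (nat_lit 5) (nat_lit 336) (nat_lit 326) (nat_lit 238)) (XT.nd (nat_lit 78) (nat_lit 1064) (nat_lit 0) (XT.lf (nat_lit 76) (nat_lit 8821854990) (nat_lit 0) (nat_lit 889209629) (nat_lit 1140) (nat_lit 1110148017) (nat_lit 246) (nat_lit 5) (nat_lit 245) (nat_lit 5) (nat_lit 260) (nat_lit 5) (nat_lit 337) (nat_lit 326) (nat_lit 237)) (XT.lf (nat_lit 0) (nat_lit 7917956) (nat_lit 1140) (nat_lit 7458845819) (nat_lit 1216) (nat_lit 3509308078) (nat_lit 231) (nat_lit 5) (nat_lit 246) (nat_lit 5) (nat_lit 247) (nat_lit 5) (nat_lit 338) (nat_lit 326) (nat_lit 236)))) (XT.nd (nat_lit 156) (nat_lit 0) (nat_lit 76) (XT.nd (nat_lit 78) (nat_lit 0) (nat_lit 76) (XT.lf (nat_lit 0) (nat_lit 1143203583) (nat_lit 1140) (nat_lit 1932395415) (nat_lit 1216) (nat_lit 8059486234) (nat_lit 231) (nat_lit 5) (nat_lit 246) (nat_lit 5) (nat_lit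 247) (nat_lit 5) (nat_lit 339) (nat_lit 326) (nat_lit 235)) (XT.lf (nat_lit 0) (nat_lit 2341039982) (nat_lit 1140) (nat_lit 7495658421) (nat_lit 1216) (nat_lit 1461333173) (nat_lit 232) (nat_lit 5) (nat_lit 247) (nat_lit 5) (nat_lit 248) (nat_lit 5) (nat_lit 340) (nat_lit 326) (nat_lit 234))) (XT.nd (nat_lit 78) (nat_lit 0) (nat_lit 0) (XT.lf (nat_lit 0) (nat_lit 3602982799) (nat_lit 1140) (nat_lit 1764890533) (nat_lit 1216) (nat_lit 6097164664) (nat_lit 232) (nat_lit 5) (nat_lit 247) (nat_lit 5) (nat_lit 248) (nat_lit 5) (nat_lit 341) (nat_lit 326) (nat_lit 233)) (XT.lf (nat_lit 76) (nat_lit 4202562926) (nat_lit 0) (nat_lit 719272214) (nat_lit 1216) (nat_lit 6714664266) (nat_lit 233) (nat_lit 5) (nat_lit 232) (nat_lit 5) (nat_lit 248) (nat_lit 5) (nat_lit 342) (nat_lit 326) (nat_lit 232))))))) (XT.nd (nat_lit 1014) (nat_lit 3116) (nat_lit 0) (XT.nd (nat_lit 468) (nat_lit 2280) (nat_lit 0) (XT.nd (nat_lit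 234) (nat_lit 1672) (nat_lit 0) (XT.nd (nat_lit 78) (nat_lit 1140) (nat_lit 0) (XT.lf (nat_lit 0) (nat_lit 6316510999) (nat_lit 1140) (nat_lit 1484394325) (nat_lit 76) (nat_lit 4011127455) (nat_lit 233) (nat_lit 5) (nat_lit 248) (nat_lit 5) (nat_lit 234) (nat_lit 5) (nat_lit 343) (nat_lit 326) (nat_lit 231)) (XT.nd (nat_lit 78) (nat_lit 0) (nat_lit 0) (XT.lf (nat_lit 0) (nat_lit 4711207628) (nat_lit 1140) (nat_lit 3073983252) (nat_lit 1216) (nat_lit 4206691758) (nat_lit 218) (nat_lit 5) (nat_lit 233) (nat_lit 5) (nat_lit 234) (nat_lit 5) (nat_lit 344) (nat_lit 326) (nat_lit 230)) (XT.lf (nat_lit 0) (nat_lit 9310528493) (nat_lit 1216) (nat_lit 1088677210) (nat_lit 76) (nat_lit 1777559319) (nat_lit 218) (nat_lit 5) (nat_lit 234) (nat_lit 5) (nat_lit 219) (nat_lit 5) (nat_lit 345) (nat_lit 326) (nat_lit 229)))) (XT.nd (nat_lit 78) (nat_lit 684) (nat_lit 0) (XT.lf (nat_lit 0) (nat_lit 5345771411) (nat_lit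 988) (nat_lit 5598460865) (nat_lit 1064) (nat_lit 1421097932) (nat_lit 205) (nat_lit 5) (nat_lit 218) (nat_lit 5) (nat_lit 219) (nat_lit 5) (nat_lit 346) (nat_lit 326) (nat_lit 228)) (XT.nd (nat_lit 78) (nat_lit 608) (nat_lit 0) (XT.lf (nat_lit 0) (nat_lit 58161728) (nat_lit 1064) (nat_lit 581821520) (nat_lit 76) (nat_lit 11919800886) (nat_lit 204) (nat_lit 5) (nat_lit 218) (nat_lit 5) (nat_lit 205) (nat_lit 5) (nat_lit 347) (nat_lit 326) (nat_lit 227)) (XT.lf (nat_lit 0) (nat_lit 1637451295) (nat_lit 684) (nat_lit 6664283626) (nat_lit 76) (nat_lit 4455401489) (nat_lit 196) (nat_lit 5) (nat_lit 205) (nat_lit 5) (nat_lit 197) (nat_lit 5) (nat_lit 348) (nat_lit 326) (nat_lit 226))))) (XT.nd (nat_lit 234) (nat_lit 1140) (nat_lit 0) (XT.nd (nat_lit 78) (nat_lit 1140) (nat_lit 0) (XT.lf (nat_lit 0) (nat_lit 3258313021) (nat_lit 684) (nat_lit 4241787) (nat_lit 76) (nat_lit 9698041534) (nat_lit 196) (nat_lit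 5) (nat_lit 205) (nat_lit 5) (nat_lit 197) (nat_lit 5) (nat_lit 349) (nat_lit 326) (nat_lit 225)) (XT.nd (nat_lit 78) (nat_lit 608) (nat_lit 0) (XT.lf (nat_lit 0) (nat_lit 4996499908) (nat_lit 608) (nat_lit 6212987221) (nat_lit 76) (nat_lit 1958624484) (nat_lit 189) (nat_lit 5) (nat_lit 197) (nat_lit 5) (nat_lit 190) (nat_lit 5) (nat_lit 350) (nat_lit 326) (nat_lit 224)) (XT.lf (nat_lit 0) (nat_lit 705804426) (nat_lit 608) (nat_lit 6102965047) (nat_lit 684) (nat_lit 6572436912) (nat_lit 181) (nat_lit 5) (nat_lit 189) (nat_lit 5) (nat_lit 190) (nat_lit 5) (nat_lit 351) (nat_lit 326) (nat_lit 223)))) (XT.nd (nat_lit 156) (nat_lit 608) (nat_lit 0) (XT.nd (nat_lit 78) (nat_lit 532) (nat_lit 0) (XT.lf (nat_lit 0) (nat_lit 7942515467) (nat_lit 608) (nat_lit 778774634) (nat_lit 684) (nat_lit 4878039211) (nat_lit 181) (nat_lit 5) (nat_lit 189) (nat_lit 5) (nat_lit 190) (nat_lit 5) (nat_lit 352) (nat_lit 326) (nat_lit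 222)) (XT.lf (nat_lit 0) (nat_lit 1540146774) (nat_lit 532) (nat_lit 9194706658) (nat_lit 608) (nat_lit 3087843938) (nat_lit 174) (nat_lit 5) (nat_lit 181) (nat_lit 5) (nat_lit 182) (nat_lit 5) (nat_lit 353) (nat_lit 326) (nat_lit 221))) (XT.nd (nat_lit 78) (nat_lit 608) (nat_lit 0) (XT.lf (nat_lit 0) (nat_lit 9044267771) (nat_lit 532) (nat_lit 3813262001) (nat_lit 608) (nat_lit 1193786639) (nat_lit 174) (nat_lit 5) (nat_lit 181) (nat_lit 5) (nat_lit 182) (nat_lit 5) (nat_lit 354) (nat_lit 326) (nat_lit 220)) (XT.lf (nat_lit 0) (nat_lit 767642914) (nat_lit 608) (nat_lit 11791484971) (nat_lit 76) (nat_lit 1726698569) (nat_lit 166) (nat_lit 5) (nat_lit 174) (nat_lit 5) (nat_lit 167) (nat_lit 5) (nat_lit 355) (nat_lit 326) (nat_lit 219)))))) (XT.nd (nat_lit 546) (nat_lit 1672) (nat_lit 0) (XT.nd (nat_lit 234) (nat_lit 988) (nat_lit 0) (XT.nd (nat_lit 78) (nat_lit 456) (nat_lit 0) (XT.lf (nat_lit 0) (nat_lit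 2837279192) (nat_lit 608) (nat_lit 4269494144) (nat_lit 76) (nat_lit 7418053318) (nat_lit 166) (nat_lit 5) (nat_lit 174) (nat_lit 5) (nat_lit 167) (nat_lit 5) (nat_lit 356) (nat_lit 326) (nat_lit 218)) (XT.nd (nat_lit 78) (nat_lit 0) (nat_lit 0) (XT.lf (nat_lit 0) (nat_lit 3530568238) (nat_lit 456) (nat_lit 1457365287) (nat_lit 532) (nat_lit 9782505350) (nat_lit 160) (nat_lit 5) (nat_lit 166) (nat_lit 5) (nat_lit 167) (nat_lit 5) (nat_lit 357) (nat_lit 326) (nat_lit 217)) (XT.lf (nat_lit 0) (nat_lit 7273829476) (nat_lit 532) (nat_lit 3429082469) (nat_lit 76) (nat_lit 4318395452) (nat_lit 160) (nat_lit 5) (nat_lit 167) (nat_lit 5) (nat_lit 161) (nat_lit 5) (nat_lit 358) (nat_lit 326) (nat_lit 216)))) (XT.nd (nat_lit 156) (nat_lit 532) (nat_lit 0) (XT.nd (nat_lit 78) (nat_lit 0) (nat_lit 0) (XT.lf (nat_lit 0) (nat_lit 4676588295) (nat_lit 456) (nat_lit 4996782991) (nat_lit 532) (nat_lit 5604987936) (nat_lit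 154) (nat_lit 5) (nat_lit 160) (nat_lit 5) (nat_lit 161) (nat_lit 5) (nat_lit 359) (nat_lit 326) (nat_lit 215)) (XT.lf (nat_lit 0) (nat_lit 12174261093) (nat_lit 532) (nat_lit 2471688936) (nat_lit 76) (nat_lit 896300763) (nat_lit 154) (nat_lit 5) (nat_lit 161) (nat_lit 5) (nat_lit 155) (nat_lit 5) (nat_lit 360) (nat_lit 326) (nat_lit 214))) (XT.nd (nat_lit 78) (nat_lit 76) (nat_lit 0) (XT.lf (nat_lit 0) (nat_lit 5952946895) (nat_lit 456) (nat_lit 8890264737) (nat_lit 532) (nat_lit 968065237) (nat_lit 148) (nat_lit 5) (nat_lit 154) (nat_lit 5) (nat_lit 155) (nat_lit 5) (nat_lit 361) (nat_lit 326) (nat_lit 213)) (XT.lf (nat_lit 0) (nat_lit 1486159267) (nat_lit 532) (nat_lit 1437498890) (nat_lit 76) (nat_lit 13163940730) (nat_lit 147) (nat_lit 5) (nat_lit 154) (nat_lit 5) (nat_lit 148) (nat_lit 5) (nat_lit 362) (nat_lit 326) (nat_lit 212))))) (XT.nd (nat_lit 234) (nat_lit 836) (nat_lit 0) (XT.nd (nat_lit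 78) (nat_lit 380) (nat_lit 0) (XT.lf (nat_lit 0) (nat_lit 4083824745) (nat_lit 532) (nat_lit 9047757139) (nat_lit 76) (nat_lit 3237671031) (nat_lit 141) (nat_lit 5) (nat_lit 148) (nat_lit 5) (nat_lit 142) (nat_lit 5) (nat_lit 363) (nat_lit 326) (nat_lit 211)) (XT.nd (nat_lit 78) (nat_lit 380) (nat_lit 0) (XT.lf (nat_lit 0) (nat_lit 6790072502) (nat_lit 532) (nat_lit 331190285) (nat_lit 76) (nat_lit 9537182009) (nat_lit 141) (nat_lit 5) (nat_lit 148) (nat_lit 5) (nat_lit 142) (nat_lit 5) (nat_lit 364) (nat_lit 326) (nat_lit 210)) (XT.lf (nat_lit 0) (nat_lit 8803213284) (nat_lit 380) (nat_lit 846339154) (nat_lit 456) (nat_lit 7304606227) (nat_lit 136) (nat_lit 5) (nat_lit 141) (nat_lit 5) (nat_lit 142) (nat_lit 5) (nat_lit 365) (nat_lit 326) (nat_lit 209)))) (XT.nd (nat_lit 156) (nat_lit 456) (nat_lit 0) (XT.nd (nat_lit 78) (nat_lit 0) (nat_lit 0) (XT.lf (nat_lit 0) (nat_lit 907842986) (nat_lit 380) (nat_lit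 11740684452) (nat_lit 456) (nat_lit 4608612546) (nat_lit 131) (nat_lit 5) (nat_lit 136) (nat_lit 5) (nat_lit 137) (nat_lit 5) (nat_lit 366) (nat_lit 326) (nat_lit 208)) (XT.lf (nat_lit 0) (nat_lit 10381447196) (nat_lit 380) (nat_lit 5434456392) (nat_lit 456) (nat_lit 1750961338) (nat_lit 131) (nat_lit 5) (nat_lit 136) (nat_lit 5) (nat_lit 137) (nat_lit 5) (nat_lit 367) (nat_lit 326) (nat_lit 207))) (XT.nd (nat_lit 78) (nat_lit 0) (nat_lit 0) (XT.lf (nat_lit 0) (nat_lit 1189533534) (nat_lit 456) (nat_lit 15624795119) (nat_lit 76) (nat_lit 1070604347) (nat_lit 125) (nat_lit 5) (nat_lit 131) (nat_lit 5) (nat_lit 126) (nat_lit 5) (nat_lit 368) (nat_lit 326) (nat_lit 206)) (XT.lf (nat_lit 0) (nat_lit 4298360671) (nat_lit 456) (nat_lit 6161330843) (nat_lit 76) (nat_lit 7748878751) (nat_lit 125) (nat_lit 5) (nat_lit 131) (nat_lit 5) (nat_lit 126) (nat_lit 5) (nat_lit 369) (nat_lit 326) (nat_lit 205))))))))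
noncomputable def xc170 : XT := (XT.nd (nat_lit 2028) (nat_lit 2280) (nat_lit 0) (XT.nd (nat_lit 1014) (nat_lit 1900) (nat_lit 0) (XT.nd (nat_lit 468) (nat_lit 1292) (nat_lit 0) (XT.nd (nat_lit 234) (nat_lit 456) (nat_lit 0) (XT.nd (nat_lit 78) (nat_lit 304) (nat_lit 0) (XT.lf (nat_lit 0) (nat_lit 3642100568) (nat_lit 380) (nat_lit 3881931547) (nat_lit 456) (nat_lit 11017183490) (nat_lit 120) (nat_lit 5) (nat_lit 125) (nat_lit 5) (nat_lit 126) (nat_lit 5) (nat_lit 370) (nat_lit 326) (nat_lit 204)) (XT.nd (nat_lit 78) (nat_lit 304) (nat_lit 0) (XT.lf (nat_lit 0) (nat_lit 10925842598) (nat_lit 456) (nat_lit 5059633213) (nat_lit 76) (nat_lit 2895989586) (nat_lit 120) (nat_lit 5) (nat_lit 126) (nat_lit 5) (nat_lit 121) (nat_lit 5) (nat_lit 371) (nat_lit 326) (nat_lit 203)) (XT.lf (nat_lit 0) (nat_lit 5121816247) (nat_lit 304) (nat_lit 9384613238) (nat_lit 380) (nat_lit 4723197514) (nat_lit 116) (nat_lit 5)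 (nat_lit 120) (nat_lit 5) (nat_lit 121) (nat_lit 5) (nat_lit 372) (nat_lit 326) (nat_lit 202)))) (XT.nd (nat_lit 78) (nat_lit 456) (nat_lit 0) (XT.lf (nat_lit 0) (nat_lit 15697844158) (nat_lit 304) (nat_lit 2536913954) (nat_lit 380) (nat_lit 1352271419) (nat_lit 116) (nat_lit 5) (nat_lit 120) (nat_lit 5) (nat_lit 121) (nat_lit 5) (nat_lit 373) (nat_lit 326) (nat_lit 201)) (XT.nd (nat_lit 78) (nat_lit 0) (nat_lit 0) (XT.lf (nat_lit 0) (nat_lit 2176790884) (nat_lit 456) (nat_lit 13264515827) (nat_lit 76) (nat_lit 4510290410) (nat_lit 110) (nat_lit 5) (nat_lit 116) (nat_lit 5) (nat_lit 111) (nat_lit 5) (nat_lit 374) (nat_lit 326) (nat_lit 200)) (XT.lf (nat_lit 0) (nat_lit 5838896005) (nat_lit 456) (nat_lit 2718971519) (nat_lit 76) (nat_lit 11767207354) (nat_lit 110) (nat_lit 5) (nat_lit 116) (nat_lit 5) (nat_lit 111) (nat_lit 5) (nat_lit 375) (nat_lit 326) (nat_lit 199))))) (XT.nd (nat_lit 234) (nat_lit 684)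 (nat_lit 0) (XT.nd (nat_lit 78) (nat_lit 304) (nat_lit 0) (XT.lf (nat_lit 0) (nat_lit 8290629058) (nat_lit 304) (nat_lit 1389803911) (nat_lit 380) (nat_lit 11027242096) (nat_lit 106) (nat_lit 5) (nat_lit 110) (nat_lit 5) (nat_lit 111) (nat_lit 5) (nat_lit 376) (nat_lit 326) (nat_lit 198)) (XT.nd (nat_lit 78) (nat_lit 304) (nat_lit 0) (XT.lf (nat_lit 0) (nat_lit 13712552033) (nat_lit 380) (nat_lit 1486776382) (nat_lit 76) (nat_lit 5900169770) (nat_lit 106) (nat_lit 5) (nat_lit 111) (nat_lit 5) (nat_lit 107) (nat_lit 5) (nat_lit 377) (nat_lit 326) (nat_lit 197)) (XT.lf (nat_lit 0) (nat_lit 9937758880) (nat_lit 304) (nat_lit 8027451985) (nat_lit 380) (nat_lit 3534882711) (nat_lit 102) (nat_lit 5) (nat_lit 106) (nat_lit 5) (nat_lit 107) (nat_lit 5) (nat_lit 378) (nat_lit 326) (nat_lit 196)))) (XT.nd (nat_lit 156) (nat_lit 304) (nat_lit 0) (XT.nd (nat_lit 78) (nat_lit 304) (nat_lit 0) (XT.lf (nat_lit 0) (nat_lit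 429800587) (nat_lit 380) (nat_lit 194922190) (nat_lit 76) (nat_lit 21287698769) (nat_lit 101) (nat_lit 5) (nat_lit 106) (nat_lit 5) (nat_lit 102) (nat_lit 5) (nat_lit 379) (nat_lit 326) (nat_lit 195)) (XT.lf (nat_lit 0) (nat_lit 4614110026) (nat_lit 380) (nat_lit 10708462701) (nat_lit 76) (nat_lit 7008349114) (nat_lit 97) (nat_lit 5) (nat_lit 102) (nat_lit 5) (nat_lit 98) (nat_lit 5) (nat_lit 380) (nat_lit 326) (nat_lit 194))) (XT.nd (nat_lit 78) (nat_lit 0) (nat_lit 0) (XT.lf (nat_lit 0) (nat_lit 1036897127) (nat_lit 304) (nat_lit 7895919267) (nat_lit 380) (nat_lit 13828899041) (nat_lit 93) (nat_lit 5) (nat_lit 97) (nat_lit 5) (nat_lit 98) (nat_lit 5) (nat_lit 381) (nat_lit 326) (nat_lit 193)) (XT.lf (nat_lit 0) (nat_lit 13340692651) (nat_lit 304) (nat_lit 139393849) (nat_lit 380) (nat_lit 9722380456) (nat_lit 93) (nat_lit 5) (nat_lit 97) (nat_lit 5) (nat_lit 98) (nat_lit 5) (nat_lit 382) (nat_lit 326)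 (nat_lit 192)))))) (XT.nd (nat_lit 468) (nat_lit 1064) (nat_lit 0) (XT.nd (nat_lit 234) (nat_lit 228) (nat_lit 0) (XT.nd (nat_lit 78) (nat_lit 380) (nat_lit 0) (XT.lf (nat_lit 0) (nat_lit 2313573275) (nat_lit 228) (nat_lit 15938992118) (nat_lit 304) (nat_lit 5401215978) (nat_lit 90) (nat_lit 5) (nat_lit 93) (nat_lit 5) (nat_lit 94) (nat_lit 5) (nat_lit 383) (nat_lit 326) (nat_lit 191)) (XT.nd (nat_lit 78) (nat_lit 380) (nat_lit 0) (XT.lf (nat_lit 0) (nat_lit 15041783997) (nat_lit 228) (nat_lit 8218612738) (nat_lit 304) (nat_lit 855477096) (nat_lit 90) (nat_lit 5) (nat_lit 93) (nat_lit 5) (nat_lit 94) (nat_lit 5) (nat_lit 384) (nat_lit 326) (nat_lit 190)) (XT.lf (nat_lit 0) (nat_lit 3580151196) (nat_lit 304) (nat_lit 197620271) (nat_lit 380) (nat_lit 20812183537) (nat_lit 85) (nat_lit 5) (nat_lit 89) (nat_lit 5) (nat_lit 90) (nat_lit 5) (nat_lit 385) (nat_lit 326) (nat_lit 189)))) (XT.nd (nat_lit 78) (nat_lit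 228) (nat_lit 0) (XT.lf (nat_lit 0) (nat_lit 8694357280) (nat_lit 380) (nat_lit 8375401653) (nat_lit 76) (nat_lit 8003403173) (nat_lit 85) (nat_lit 5) (nat_lit 90) (nat_lit 5) (nat_lit 86) (nat_lit 5) (nat_lit 386) (nat_lit 326) (nat_lit 188)) (XT.nd (nat_lit 78) (nat_lit 0) (nat_lit 0) (XT.lf (nat_lit 0) (nat_lit 4715442718) (nat_lit 228) (nat_lit 9082010621) (nat_lit 304) (nat_lit 11772245216) (nat_lit 82) (nat_lit 5) (nat_lit 85) (nat_lit 5) (nat_lit 86) (nat_lit 5) (nat_lit 387) (nat_lit 326) (nat_lit 187)) (XT.lf (nat_lit 0) (nat_lit 18358175466) (nat_lit 228) (nat_lit 771890793) (nat_lit 304) (nat_lit 6948775526) (nat_lit 82) (nat_lit 5) (nat_lit 85) (nat_lit 5) (nat_lit 86) (nat_lit 5) (nat_lit 388) (nat_lit 326) (nat_lit 186))))) (XT.nd (nat_lit 234) (nat_lit 532) (nat_lit 0) (XT.nd (nat_lit 78) (nat_lit 304) (nat_lit 0) (XT.lf (nat_lit 0) (nat_lit 5833546257) (nat_lit 228) (nat_lit 18912090898)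 (nat_lit 304) (nat_lit 1853936083) (nat_lit 79) (nat_lit 5) (nat_lit 82) (nat_lit 5) (nat_lit 83) (nat_lit 5) (nat_lit 389) (nat_lit 326) (nat_lit 185)) (XT.nd (nat_lit 78) (nat_lit 228) (nat_lit 0) (XT.lf (nat_lit 0) (nat_lit 3405980982) (nat_lit 304) (nat_lit 7234372803) (nat_lit 76) (nat_lit 16492243584) (nat_lit 78) (nat_lit 5) (nat_lit 82) (nat_lit 5) (nat_lit 79) (nat_lit 5) (nat_lit 390) (nat_lit 326) (nat_lit 184)) (XT.lf (nat_lit 0) (nat_lit 6805639689) (nat_lit 228) (nat_lit 2038522986) (nat_lit 304) (nat_lit 18835170023) (nat_lit 75) (nat_lit 5) (nat_lit 78) (nat_lit 5) (nat_lit 79) (nat_lit 5) (nat_lit 391) (nat_lit 326) (nat_lit 183)))) (XT.nd (nat_lit 156) (nat_lit 304) (nat_lit 0) (XT.nd (nat_lit 78) (nat_lit 228) (nat_lit 0) (XT.lf (nat_lit 0) (nat_lit 14577214339) (nat_lit 304) (nat_lit 6903531499) (nat_lit 76) (nat_lit 6757775454) (nat_lit 75) (nat_lit 5) (nat_lit 79) (nat_lit 5) (nat_lit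 76) (nat_lit 5) (nat_lit 392) (nat_lit 326) (nat_lit 182)) (XT.lf (nat_lit 0) (nat_lit 7602140585) (nat_lit 228) (nat_lit 12965975944) (nat_lit 304) (nat_lit 8243796102) (nat_lit 72) (nat_lit 5) (nat_lit 75) (nat_lit 5) (nat_lit 76) (nat_lit 5) (nat_lit 393) (nat_lit 326) (nat_lit 181))) (XT.nd (nat_lit 78) (nat_lit 304) (nat_lit 0) (XT.lf (nat_lit 0) (nat_lit 22672857697) (nat_lit 228) (nat_lit 4128303036) (nat_lit 304) (nat_lit 2599475301) (nat_lit 72) (nat_lit 5) (nat_lit 75) (nat_lit 5) (nat_lit 76) (nat_lit 5) (nat_lit 394) (nat_lit 326) (nat_lit 180)) (XT.lf (nat_lit 0) (nat_lit 3273036924) (nat_lit 304) (nat_lit 21744329196) (nat_lit 76) (nat_lit 4985083276) (nat_lit 68) (nat_lit 5) (nat_lit 72) (nat_lit 5) (nat_lit 69) (nat_lit 5) (nat_lit 395) (nat_lit 326) (nat_lit 179))))))) (XT.nd (nat_lit 1014) (nat_lit 1064) (nat_lit 0) (XT.nd (nat_lit 468) (nat_lit 532) (nat_lit 0) (XT.nd (nat_lit 234) (nat_lit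 456) (nat_lit 0) (XT.nd (nat_lit 78) (nat_lit 228) (nat_lit 0) (XT.lf (nat_lit 0) (nat_lit 9371862917) (nat_lit 304) (nat_lit 6867562511) (nat_lit 76) (nat_lit 14379050588) (nat_lit 68) (nat_lit 5) (nat_lit 72) (nat_lit 5) (nat_lit 69) (nat_lit 5) (nat_lit 396) (nat_lit 326) (nat_lit 178)) (XT.nd (nat_lit 78) (nat_lit 0) (nat_lit 0) (XT.lf (nat_lit 0) (nat_lit 8612393452) (nat_lit 228) (nat_lit 7117155575) (nat_lit 304) (nat_lit 15521160012) (nat_lit 65) (nat_lit 5) (nat_lit 68) (nat_lit 5) (nat_lit 69) (nat_lit 5) (nat_lit 397) (nat_lit 326) (nat_lit 177)) (XT.lf (nat_lit 0) (nat_lit 22363067455) (nat_lit 304) (nat_lit 7236122197) (nat_lit 76) (nat_lit 2300168739) (nat_lit 65) (nat_lit 5) (nat_lit 69) (nat_lit 5) (nat_lit 66) (nat_lit 5) (nat_lit 398) (nat_lit 326) (nat_lit 176)))) (XT.nd (nat_lit 78) (nat_lit 304) (nat_lit 0) (XT.lf (nat_lit 0) (nat_lit 8716866273) (nat_lit 152) (nat_lit 20626344235)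 (nat_lit 228) (nat_lit 3219830466) (nat_lit 63) (nat_lit 5) (nat_lit 65) (nat_lit 5) (nat_lit 66) (nat_lit 5) (nat_lit 399) (nat_lit 326) (nat_lit 175)) (XT.nd (nat_lit 78) (nat_lit 228) (nat_lit 0) (XT.lf (nat_lit 0) (nat_lit 3289176722) (nat_lit 228) (nat_lit 7990904111) (nat_lit 76) (nat_lit 21963592433) (nat_lit 62) (nat_lit 5) (nat_lit 65) (nat_lit 5) (nat_lit 63) (nat_lit 5) (nat_lit 400) (nat_lit 326) (nat_lit 174)) (XT.lf (nat_lit 0) (nat_lit 8462672305) (nat_lit 228) (nat_lit 1540990429) (nat_lit 304) (nat_lit 23937859811) (nat_lit 59) (nat_lit 5) (nat_lit 62) (nat_lit 5) (nat_lit 63) (nat_lit 5) (nat_lit 401) (nat_lit 326) (nat_lit 173))))) (XT.nd (nat_lit 234) (nat_lit 380) (nat_lit 0) (XT.nd (nat_lit 78) (nat_lit 152) (nat_lit 0) (XT.lf (nat_lit 0) (nat_lit 17076310116) (nat_lit 304) (nat_lit 9177295573) (nat_lit 76) (nat_lit 8402001873) (nat_lit 59) (nat_lit 5) (nat_lit 63) (nat_lit 5) (nat_lit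 60) (nat_lit 5) (nat_lit 402) (nat_lit 326) (nat_lit 172)) (XT.nd (nat_lit 78) (nat_lit 0) (nat_lit 0) (XT.lf (nat_lit 0) (nat_lit 7738710828) (nat_lit 152) (nat_lit 16705880114) (nat_lit 228) (nat_lit 10944022570) (nat_lit 57) (nat_lit 5) (nat_lit 59) (nat_lit 5) (nat_lit 60) (nat_lit 5) (nat_lit 403) (nat_lit 326) (nat_lit 171)) (XT.lf (nat_lit 0) (nat_lit 25340076736) (nat_lit 152) (nat_lit 6780405491) (nat_lit 228) (nat_lit 4020532498) (nat_lit 57) (nat_lit 5) (nat_lit 59) (nat_lit 5) (nat_lit 60) (nat_lit 5) (nat_lit 404) (nat_lit 326) (nat_lit 170)))) (XT.nd (nat_lit 156) (nat_lit 152) (nat_lit 0) (XT.nd (nat_lit 78) (nat_lit 0) (nat_lit 0) (XT.lf (nat_lit 0) (nat_lit 3141810628) (nat_lit 228) (nat_lit 30304183517) (nat_lit 76) (nat_lit 3466343156) (nat_lit 54) (nat_lit 5) (nat_lit 57) (nat_lit 5) (nat_lit 55) (nat_lit 5) (nat_lit 405) (nat_lit 326) (nat_lit 169)) (XT.lf (nat_lit 0) (nat_lit 10609542701)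 (nat_lit 228) (nat_lit 13060730859) (nat_lit 76) (nat_lit 14030193736) (nat_lit 54) (nat_lit 5) (nat_lit 57) (nat_lit 5) (nat_lit 55) (nat_lit 5) (nat_lit 406) (nat_lit 326) (nat_lit 168))) (XT.nd (nat_lit 78) (nat_lit 0) (nat_lit 0) (XT.lf (nat_lit 0) (nat_lit 4783553780) (nat_lit 152) (nat_lit 13557955273) (nat_lit 228) (nat_lit 20169527796) (nat_lit 52) (nat_lit 5) (nat_lit 54) (nat_lit 5) (nat_lit 55) (nat_lit 5) (nat_lit 407) (nat_lit 326) (nat_lit 167)) (XT.lf (nat_lit 0) (nat_lit 23421179411) (nat_lit 152) (nat_lit 3010437551) (nat_lit 228) (nat_lit 12910522727) (nat_lit 52) (nat_lit 5) (nat_lit 54) (nat_lit 5) (nat_lit 55) (nat_lit 5) (nat_lit 408) (nat_lit 326) (nat_lit 166)))))) (XT.nd (nat_lit 546) (nat_lit 456) (nat_lit 0) (XT.nd (nat_lit 234) (nat_lit 380) (nat_lit 0) (XT.nd (nat_lit 78) (nat_lit 76) (nat_lit 0) (XT.lf (nat_lit 0) (nat_lit 2381163611) (nat_lit 152) (nat_lit 32476069897) (nat_lit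 228) (nat_lit 5338159572) (nat_lit 50) (nat_lit 5) (nat_lit 52) (nat_lit 5) (nat_lit 53) (nat_lit 5) (nat_lit 409) (nat_lit 326) (nat_lit 165)) (XT.nd (nat_lit 78) (nat_lit 0) (nat_lit 0) (XT.lf (nat_lit 0) (nat_lit 2599951577) (nat_lit 228) (nat_lit 19575349383) (nat_lit 76) (nat_lit 18892636621) (nat_lit 49) (nat_lit 5) (nat_lit 52) (nat_lit 5) (nat_lit 50) (nat_lit 5) (nat_lit 410) (nat_lit 326) (nat_lit 164)) (XT.lf (nat_lit 0) (nat_lit 10663515118) (nat_lit 228) (nat_lit 851462154) (nat_lit 76) (nat_lit 30450259018) (nat_lit 49) (nat_lit 5) (nat_lit 52) (nat_lit 5) (nat_lit 50) (nat_lit 5) (nat_lit 411) (nat_lit 326) (nat_lit 163)))) (XT.nd (nat_lit 156) (nat_lit 228) (nat_lit 0) (XT.nd (nat_lit 78) (nat_lit 0) (nat_lit 0) (XT.lf (nat_lit 0) (nat_lit 18791802298) (nat_lit 152) (nat_lit 352579604) (nat_lit 228) (nat_lit 23739811616) (nat_lit 47) (nat_lit 5) (nat_lit 49) (nat_lit 5) (nat_lit 50) (nat_lit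 5) (nat_lit 412) (nat_lit 326) (nat_lit 162)) (XT.lf (nat_lit 0) (nat_lit 27990275960) (nat_lit 228) (nat_lit 4904924379) (nat_lit 76) (nat_lit 10932202491) (nat_lit 47) (nat_lit 5) (nat_lit 50) (nat_lit 5) (nat_lit 48) (nat_lit 5) (nat_lit 413) (nat_lit 326) (nat_lit 161))) (XT.nd (nat_lit 78) (nat_lit 76) (nat_lit 0) (XT.lf (nat_lit 0) (nat_lit 15141334671) (nat_lit 152) (nat_lit 22104191084) (nat_lit 228) (nat_lit 7549064662) (nat_lit 45) (nat_lit 5) (nat_lit 47) (nat_lit 5) (nat_lit 48) (nat_lit 5) (nat_lit 414) (nat_lit 326) (nat_lit 160)) (XT.lf (nat_lit 0) (nat_lit 1013340598) (nat_lit 228) (nat_lit 9918582601) (nat_lit 76) (nat_lit 34857237698) (nat_lit 44) (nat_lit 5) (nat_lit 47) (nat_lit 5) (nat_lit 45) (nat_lit 5) (nat_lit 415) (nat_lit 326) (nat_lit 159))))) (XT.nd (nat_lit 234) (nat_lit 152) (nat_lit 0) (XT.nd (nat_lit 78) (nat_lit 152) (nat_lit 0) (XT.lf (nat_lit 0) (nat_lit 9784452378)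 (nat_lit 228) (nat_lit 36285366619) (nat_lit 76) (nat_lit 738401553) (nat_lit 42) (nat_lit 5) (nat_lit 45) (nat_lit 5) (nat_lit 43) (nat_lit 5) (nat_lit 416) (nat_lit 326) (nat_lit 158)) (XT.nd (nat_lit 78) (nat_lit 152) (nat_lit 0) (XT.lf (nat_lit 0) (nat_lit 19023210594) (nat_lit 228) (nat_lit 16191809922) (nat_lit 76) (nat_lit 12636697294) (nat_lit 42) (nat_lit 5) (nat_lit 45) (nat_lit 5) (nat_lit 43) (nat_lit 5) (nat_lit 417) (nat_lit 326) (nat_lit 157)) (XT.lf (nat_lit 0) (nat_lit 4585698199) (nat_lit 152) (nat_lit 23992782164) (nat_lit 228) (nat_lit 20346860340) (nat_lit 40) (nat_lit 5) (nat_lit 42) (nat_lit 5) (nat_lit 43) (nat_lit 5) (nat_lit 418) (nat_lit 326) (nat_lit 156)))) (XT.nd (nat_lit 156) (nat_lit 152) (nat_lit 0) (XT.nd (nat_lit 78) (nat_lit 0) (nat_lit 0) (XT.lf (nat_lit 0) (nat_lit 26310190781) (nat_lit 152) (nat_lit 12269049691) (nat_lit 228) (nat_lit 11447167984) (nat_lit 40) (nat_lit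 5) (nat_lit 42) (nat_lit 5) (nat_lit 43) (nat_lit 5) (nat_lit 419) (nat_lit 326) (nat_lit 155)) (XT.lf (nat_lit 0) (nat_lit 48678401625) (nat_lit 152) (nat_lit 197084590) (nat_lit 228) (nat_lit 2285159251) (nat_lit 40) (nat_lit 5) (nat_lit 42) (nat_lit 5) (nat_lit 43) (nat_lit 5) (nat_lit 420) (nat_lit 326) (nat_lit 154))) (XT.nd (nat_lit 78) (nat_lit 0) (nat_lit 0) (XT.lf (nat_lit 0) (nat_lit 7317191311) (nat_lit 152) (nat_lit 32744974730) (nat_lit 76) (nat_lit 12255531077) (nat_lit 38) (nat_lit 5) (nat_lit 40) (nat_lit 5) (nat_lit 39) (nat_lit 5) (nat_lit 421) (nat_lit 326) (nat_lit 153)) (XT.lf (nat_lit 0) (nat_lit 17184520549) (nat_lit 152) (nat_lit 11201207647) (nat_lit 76) (nat_lit 25122369250) (nat_lit 38) (nat_lit 5) (nat_lit 40) (nat_lit 5) (nat_lit 39) (nat_lit 5) (nat_lit 422) (nat_lit 326) (nat_lit 152))))))))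
noncomputable def xc171 : XT := (XT.nd (nat_lit 40170) (nat_lit 0) (nat_lit 9348) (XT.nd (nat_lit 1014) (nat_lit 304) (nat_lit 0) (XT.nd (nat_lit 468) (nat_lit 304) (nat_lit 0) (XT.nd (nat_lit 234) (nat_lit 228) (nat_lit 0) (XT.nd (nat_lit 78) (nat_lit 76) (nat_lit 0) (XT.lf (nat_lit 0) (nat_lit 11199754340) (nat_lit 152) (nat_lit 16251475469) (nat_lit 228) (nat_lit 27279880156) (nat_lit 36) (nat_lit 5) (nat_lit 38) (nat_lit 5) (nat_lit 39) (nat_lit 5) (nat_lit 423) (nat_lit 326) (nat_lit 151)) (XT.nd (nat_lit 78) (nat_lit 76) (nat_lit 0) (XT.lf (nat_lit 0) (nat_lit 34494768462) (nat_lit 152) (nat_lit 3640035616) (nat_lit 228) (nat_lit 17852743827) (nat_lit 36) (nat_lit 5) (nat_lit 38) (nat_lit 5) (nat_lit 39) (nat_lit 5) (nat_lit 424) (nat_lit 326) (nat_lit 150)) (XT.lf (nat_lit 0) (nat_lit 1131699236) (nat_lit 76) (nat_lit 48103786389) (nat_lit 152) (nat_lit 8043296284) (nat_lit 35) (nat_lit 5) (nat_lit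 36) (nat_lit 5) (nat_lit 37) (nat_lit 4) (nat_lit 425) (nat_lit 326) (nat_lit 149)))) (XT.nd (nat_lit 78) (nat_lit 152) (nat_lit 0) (XT.lf (nat_lit 0) (nat_lit 2271306339) (nat_lit 152) (nat_lit 33792216719) (nat_lit 76) (nat_lit 22537104222) (nat_lit 34) (nat_lit 5) (nat_lit 36) (nat_lit 5) (nat_lit 35) (nat_lit 5) (nat_lit 426) (nat_lit 326) (nat_lit 148)) (XT.nd (nat_lit 78) (nat_lit 152) (nat_lit 0) (XT.lf (nat_lit 0) (nat_lit 12729659908) (nat_lit 152) (nat_lit 10853596760) (nat_lit 76) (nat_lit 36376603842) (nat_lit 34) (nat_lit 5) (nat_lit 36) (nat_lit 5) (nat_lit 35) (nat_lit 5) (nat_lit 427) (nat_lit 326) (nat_lit 147)) (XT.lf (nat_lit 0) (nat_lit 13020208914) (nat_lit 152) (nat_lit 10602805768) (nat_lit 228) (nat_lit 37733219362) (nat_lit 32) (nat_lit 5) (nat_lit 34) (nat_lit 5) (nat_lit 35) (nat_lit 5) (nat_lit 428) (nat_lit 326) (nat_lit 146))))) (XT.nd (nat_lit 234) (nat_lit 228) (nat_lit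 0) (XT.nd (nat_lit 78) (nat_lit 76) (nat_lit 0) (XT.lf (nat_lit 0) (nat_lit 34976563171) (nat_lit 228) (nat_lit 24993239429) (nat_lit 76) (nat_lit 2820695192) (nat_lit 32) (nat_lit 5) (nat_lit 35) (nat_lit 5) (nat_lit 33) (nat_lit 4) (nat_lit 429) (nat_lit 326) (nat_lit 145)) (XT.nd (nat_lit 78) (nat_lit 76) (nat_lit 0) (XT.lf (nat_lit 0) (nat_lit 46771918929) (nat_lit 228) (nat_lit 1062004441) (nat_lit 76) (nat_lit 16430830837) (nat_lit 32) (nat_lit 5) (nat_lit 35) (nat_lit 5) (nat_lit 33) (nat_lit 4) (nat_lit 430) (nat_lit 326) (nat_lit 144)) (XT.lf (nat_lit 0) (nat_lit 24049809688) (nat_lit 76) (nat_lit 35098839717) (nat_lit 152) (nat_lit 6627764241) (nat_lit 31) (nat_lit 5) (nat_lit 32) (nat_lit 5) (nat_lit 33) (nat_lit 4) (nat_lit 431) (nat_lit 326) (nat_lit 143)))) (XT.nd (nat_lit 156) (nat_lit 0) (nat_lit 0) (XT.nd (nat_lit 78) (nat_lit 152) (nat_lit 0) (XT.lf (nat_lit 0) (nat_lit 4481383074) (nat_lit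 152) (nat_lit 17446988495) (nat_lit 76) (nat_lit 45403520975) (nat_lit 30) (nat_lit 5) (nat_lit 32) (nat_lit 5) (nat_lit 31) (nat_lit 5) (nat_lit 432) (nat_lit 326) (nat_lit 142)) (XT.lf (nat_lit 0) (nat_lit 7637967755) (nat_lit 152) (nat_lit 8222492418) (nat_lit 228) (nat_lit 53069511678) (nat_lit 28) (nat_lit 5) (nat_lit 30) (nat_lit 5) (nat_lit 31) (nat_lit 5) (nat_lit 433) (nat_lit 326) (nat_lit 141))) (XT.nd (nat_lit 78) (nat_lit 0) (nat_lit 0) (XT.lf (nat_lit 0) (nat_lit 27811956605) (nat_lit 228) (nat_lit 36802481056) (nat_lit 76) (nat_lit 5954625136) (nat_lit 28) (nat_lit 5) (nat_lit 31) (nat_lit 5) (nat_lit 29) (nat_lit 4) (nat_lit 434) (nat_lit 326) (nat_lit 140)) (XT.lf (nat_lit 0) (nat_lit 40199971987) (nat_lit 228) (nat_lit 11665979526) (nat_lit 76) (nat_lit 20389036389) (nat_lit 28) (nat_lit 5) (nat_lit 31) (nat_lit 5) (nat_lit 29) (nat_lit 4) (nat_lit 435) (nat_lit 326) (nat_lit 139))))))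 (XT.nd (nat_lit 38610) (nat_lit 0) (nat_lit 16568) (XT.nd (nat_lit 38376) (nat_lit 0) (nat_lit 16492) (XT.nd (nat_lit 78) (nat_lit 228) (nat_lit 0) (XT.lf (nat_lit 0) (nat_lit 14501480164) (nat_lit 76) (nat_lit 38594208106) (nat_lit 152) (nat_lit 20891721309) (nat_lit 27) (nat_lit 5) (nat_lit 28) (nat_lit 5) (nat_lit 29) (nat_lit 4) (nat_lit 436) (nat_lit 326) (nat_lit 138)) (XT.nd (nat_lit 312) (nat_lit 228) (nat_lit 0) (XT.lf (nat_lit 0) (nat_lit 41687051724) (nat_lit 76) (nat_lit 24805730176) (nat_lit 152) (nat_lit 9275587444) (nat_lit 27) (nat_lit 5) (nat_lit 28) (nat_lit 5) (nat_lit 29) (nat_lit 4) (nat_lit 437) (nat_lit 326) (nat_lit 137)) (XT.lf (nat_lit 0) (nat_lit 41030057768) (nat_lit 228) (nat_lit 7322993448) (nat_lit 76) (nat_lit 35046584089) (nat_lit 24) (nat_lit 5) (nat_lit 27) (nat_lit 5) (nat_lit 25) (nat_lit 4) (nat_lit 441) (nat_lit 326) (nat_lit 133)))) (XT.nd (nat_lit 78) (nat_lit 0)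 (nat_lit 0) (XT.lf (nat_lit 0) (nat_lit 240334659) (nat_lit 1140) (nat_lit 2277739210) (nat_lit 1140) (nat_lit 2277739210) (nat_lit 241) (nat_lit 3) (nat_lit 256) (nat_lit 3) (nat_lit 256) (nat_lit 5) (nat_lit 327) (nat_lit 327) (nat_lit 246)) (XT.nd (nat_lit 78) (nat_lit 0) (nat_lit 76) (XT.lf (nat_lit 0) (nat_lit 1241472797) (nat_lit 1140) (nat_lit 42163136) (nat_lit 1140) (nat_lit 8428642163) (nat_lit 241) (nat_lit 3) (nat_lit 256) (nat_lit 3) (nat_lit 256) (nat_lit 5) (nat_lit 328) (nat_lit 327) (nat_lit 245)) (XT.lf (nat_lit 0) (nat_lit 2066100561) (nat_lit 1064) (nat_lit 5178731800) (nat_lit 1140) (nat_lit 2590511211) (nat_lit 242) (nat_lit 5) (nat_lit 256) (nat_lit 5) (nat_lit 257) (nat_lit 5) (nat_lit 329) (nat_lit 327) (nat_lit 244))))) (XT.nd (nat_lit 234) (nat_lit 0) (nat_lit 76) (XT.nd (nat_lit 78) (nat_lit 0) (nat_lit 76) (XT.lf (nat_lit 0) (nat_lit 2900039680) (nat_lit 1064) (nat_lit 493613175)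 (nat_lit 1140) (nat_lit 6568934273) (nat_lit 242) (nat_lit 5) (nat_lit 256) (nat_lit 5) (nat_lit 257) (nat_lit 5) (nat_lit 330) (nat_lit 327) (nat_lit 243)) (XT.nd (nat_lit 78) (nat_lit 0) (nat_lit 0) (XT.lf (nat_lit 0) (nat_lit 3779625575) (nat_lit 1064) (nat_lit 5696870835) (nat_lit 1140) (nat_lit 616555332) (nat_lit 243) (nat_lit 5) (nat_lit 257) (nat_lit 5) (nat_lit 258) (nat_lit 5) (nat_lit 331) (nat_lit 327) (nat_lit 242)) (XT.lf (nat_lit 0) (nat_lit 4697270638) (nat_lit 1064) (nat_lit 834495980) (nat_lit 1140) (nat_lit 4695335481) (nat_lit 243) (nat_lit 5) (nat_lit 257) (nat_lit 5) (nat_lit 258) (nat_lit 5) (nat_lit 332) (nat_lit 327) (nat_lit 241)))) (XT.nd (nat_lit 156) (nat_lit 0) (nat_lit 76) (XT.nd (nat_lit 78) (nat_lit 0) (nat_lit 76) (XT.lf (nat_lit 76) (nat_lit 4240623505) (nat_lit 0) (nat_lit 1416407530) (nat_lit 1140) (nat_lit 4707726667) (nat_lit 244) (nat_lit 5) (nat_lit 243) (nat_lit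 5) (nat_lit 258) (nat_lit 5) (nat_lit 333) (nat_lit 327) (nat_lit 240)) (XT.lf (nat_lit 0) (nat_lit 6655753694) (nat_lit 1064) (nat_lit 1065004549) (nat_lit 1140) (nat_lit 2785500339) (nat_lit 244) (nat_lit 5) (nat_lit 258) (nat_lit 5) (nat_lit 259) (nat_lit 5) (nat_lit 334) (nat_lit 327) (nat_lit 239))) (XT.nd (nat_lit 78) (nat_lit 0) (nat_lit 76) (XT.lf (nat_lit 76) (nat_lit 4197667228) (nat_lit 0) (nat_lit 3516415563) (nat_lit 1140) (nat_lit 2937052443) (nat_lit 245) (nat_lit 5) (nat_lit 244) (nat_lit 5) (nat_lit 259) (nat_lit 5) (nat_lit 335) (nat_lit 327) (nat_lit 238)) (XT.lf (nat_lit 0) (nat_lit 8798763977) (nat_lit 1064) (nat_lit 1184701264) (nat_lit 1140) (nat_lit 817074384) (nat_lit 245) (nat_lit 5) (nat_lit 259) (nat_lit 5) (nat_lit 260) (nat_lit 5) (nat_lit 336) (nat_lit 327) (nat_lit 237))))))) (XT.nd (nat_lit 1014) (nat_lit 3724) (nat_lit 0) (XT.nd (nat_lit 468) (nat_lit 2584) (nat_lit 0)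 (XT.nd (nat_lit 234) (nat_lit 0) (nat_lit 76) (XT.nd (nat_lit 78) (nat_lit 1140) (nat_lit 0) (XT.lf (nat_lit 76) (nat_lit 4274426089) (nat_lit 0) (nat_lit 5694081438) (nat_lit 1140) (nat_lit 984361898) (nat_lit 246) (nat_lit 5) (nat_lit 245) (nat_lit 5) (nat_lit 260) (nat_lit 5) (nat_lit 337) (nat_lit 327) (nat_lit 236)) (XT.nd (nat_lit 78) (nat_lit 0) (nat_lit 76) (XT.lf (nat_lit 0) (nat_lit 51314447) (nat_lit 1140) (nat_lit 1205140993) (nat_lit 1216) (nat_lit 9853643774) (nat_lit 230) (nat_lit 5) (nat_lit 245) (nat_lit 5) (nat_lit 246) (nat_lit 5) (nat_lit 338) (nat_lit 327) (nat_lit 235)) (XT.lf (nat_lit 0) (nat_lit 1151493035) (nat_lit 1140) (nat_lit 6809409346) (nat_lit 1216) (nat_lit 3309271961) (nat_lit 231) (nat_lit 5) (nat_lit 246) (nat_lit 5) (nat_lit 247) (nat_lit 5) (nat_lit 339) (nat_lit 327) (nat_lit 234)))) (XT.nd (nat_lit 78) (nat_lit 0) (nat_lit 76) (XT.lf (nat_lit 0) (nat_lit 2287536137)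 (nat_lit 1140) (nat_lit 1142598493) (nat_lit 1216) (nat_lit 8004848143) (nat_lit 231) (nat_lit 5) (nat_lit 246) (nat_lit 5) (nat_lit 247) (nat_lit 5) (nat_lit 340) (nat_lit 327) (nat_lit 233)) (XT.nd (nat_lit 78) (nat_lit 0) (nat_lit 0) (XT.lf (nat_lit 0) (nat_lit 3494678095) (nat_lit 1140) (nat_lit 6845300804) (nat_lit 1216) (nat_lit 1263662367) (nat_lit 232) (nat_lit 5) (nat_lit 247) (nat_lit 5) (nat_lit 248) (nat_lit 5) (nat_lit 341) (nat_lit 327) (nat_lit 232)) (XT.lf (nat_lit 0) (nat_lit 4762923655) (nat_lit 1140) (nat_lit 968101938) (nat_lit 1216) (nat_lit 6045603098) (nat_lit 232) (nat_lit 5) (nat_lit 247) (nat_lit 5) (nat_lit 248) (nat_lit 5) (nat_lit 342) (nat_lit 327) (nat_lit 231))))) (XT.nd (nat_lit 234) (nat_lit 1672) (nat_lit 0) (XT.nd (nat_lit 78) (nat_lit 1064) (nat_lit 0) (XT.lf (nat_lit 76) (nat_lit 5170044387) (nat_lit 0) (nat_lit 928748827) (nat_lit 1216) (nat_lit 5855140623) (nat_lit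 233) (nat_lit 5) (nat_lit 232) (nat_lit 5) (nat_lit 248) (nat_lit 5) (nat_lit 343) (nat_lit 327) (nat_lit 230)) (XT.nd (nat_lit 78) (nat_lit 1140) (nat_lit 0) (XT.lf (nat_lit 0) (nat_lit 7503576062) (nat_lit 1140) (nat_lit 679536525) (nat_lit 76) (nat_lit 3952595384) (nat_lit 233) (nat_lit 5) (nat_lit 248) (nat_lit 5) (nat_lit 234) (nat_lit 5) (nat_lit 344) (nat_lit 327) (nat_lit 229)) (XT.lf (nat_lit 0) (nat_lit 5693606137) (nat_lit 1140) (nat_lit 3301739578) (nat_lit 1216) (nat_lit 3326258828) (nat_lit 218) (nat_lit 5) (nat_lit 233) (nat_lit 5) (nat_lit 234) (nat_lit 5) (nat_lit 345) (nat_lit 327) (nat_lit 228)))) (XT.nd (nat_lit 156) (nat_lit 684) (nat_lit 0) (XT.nd (nat_lit 78) (nat_lit 988) (nat_lit 0) (XT.lf (nat_lit 0) (nat_lit 10536733907) (nat_lit 1216) (nat_lit 274347508) (nat_lit 76) (nat_lit 1701864723) (nat_lit 218) (nat_lit 5) (nat_lit 234) (nat_lit 5) (nat_lit 219) (nat_lit 5) (nat_lit 346)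 (nat_lit 327) (nat_lit 227)) (XT.lf (nat_lit 0) (nat_lit 6344830747) (nat_lit 988) (nat_lit 5855100713) (nat_lit 1064) (nat_lit 507843170) (nat_lit 205) (nat_lit 5) (nat_lit 218) (nat_lit 5) (nat_lit 219) (nat_lit 5) (nat_lit 347) (nat_lit 327) (nat_lit 226))) (XT.nd (nat_lit 78) (nat_lit 0) (nat_lit 0) (XT.lf (nat_lit 0) (nat_lit 238398270) (nat_lit 608) (nat_lit 733736725) (nat_lit 684) (nat_lit 11936421351) (nat_lit 196) (nat_lit 5) (nat_lit 204) (nat_lit 5) (nat_lit 205) (nat_lit 5) (nat_lit 348) (nat_lit 327) (nat_lit 225)) (XT.lf (nat_lit 0) (nat_lit 2577298313) (nat_lit 684) (nat_lit 6011341002) (nat_lit 76) (nat_lit 4523854083) (nat_lit 196) (nat_lit 5) (nat_lit 205) (nat_lit 5) (nat_lit 197) (nat_lit 5) (nat_lit 349) (nat_lit 327) (nat_lit 224)))))) (XT.nd (nat_lit 546) (nat_lit 1444) (nat_lit 0) (XT.nd (nat_lit 234) (nat_lit 1140) (nat_lit 0) (XT.nd (nat_lit 78) (nat_lit 608) (nat_lit 0) (XT.lf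 (nat_lit 0) (nat_lit 840053656) (nat_lit 532) (nat_lit 3388863942) (nat_lit 608) (nat_lit 9093694087) (nat_lit 189) (nat_lit 5) (nat_lit 196) (nat_lit 5) (nat_lit 197) (nat_lit 5) (nat_lit 350) (nat_lit 327) (nat_lit 223)) (XT.nd (nat_lit 78) (nat_lit 608) (nat_lit 0) (XT.lf (nat_lit 0) (nat_lit 5993603773) (nat_lit 608) (nat_lit 5553176479) (nat_lit 76) (nat_lit 1990359519) (nat_lit 189) (nat_lit 5) (nat_lit 197) (nat_lit 5) (nat_lit 190) (nat_lit 5) (nat_lit 351) (nat_lit 327) (nat_lit 222)) (XT.lf (nat_lit 0) (nat_lit 1564882836) (nat_lit 608) (nat_lit 6278737052) (nat_lit 684) (nat_lit 5913523590) (nat_lit 181) (nat_lit 5) (nat_lit 189) (nat_lit 5) (nat_lit 190) (nat_lit 5) (nat_lit 352) (nat_lit 327) (nat_lit 221)))) (XT.nd (nat_lit 156) (nat_lit 608) (nat_lit 0) (XT.nd (nat_lit 78) (nat_lit 532) (nat_lit 0) (XT.lf (nat_lit 0) (nat_lit 8994290229) (nat_lit 608) (nat_lit 795034041) (nat_lit 684) (nat_lit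 4193228513) (nat_lit 181) (nat_lit 5) (nat_lit 189) (nat_lit 5) (nat_lit 190) (nat_lit 5) (nat_lit 353) (nat_lit 327) (nat_lit 220)) (XT.lf (nat_lit 0) (nat_lit 2416321073) (nat_lit 532) (nat_lit 9431530658) (nat_lit 608) (nat_lit 2365249880) (nat_lit 174) (nat_lit 5) (nat_lit 181) (nat_lit 5) (nat_lit 182) (nat_lit 5) (nat_lit 354) (nat_lit 327) (nat_lit 219))) (XT.nd (nat_lit 78) (nat_lit 608) (nat_lit 0) (XT.lf (nat_lit 0) (nat_lit 10121391820) (nat_lit 532) (nat_lit 3889779084) (nat_lit 608) (nat_lit 438115406) (nat_lit 174) (nat_lit 5) (nat_lit 181) (nat_lit 5) (nat_lit 182) (nat_lit 5) (nat_lit 355) (nat_lit 327) (nat_lit 218)) (XT.lf (nat_lit 0) (nat_lit 1552435101) (nat_lit 608) (nat_lit 11308693345) (nat_lit 76) (nat_lit 1829918325) (nat_lit 166) (nat_lit 5) (nat_lit 174) (nat_lit 5) (nat_lit 167) (nat_lit 5) (nat_lit 356) (nat_lit 327) (nat_lit 217))))) (XT.nd (nat_lit 234) (nat_lit 988) (nat_lit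 0) (XT.nd (nat_lit 78) (nat_lit 456) (nat_lit 0) (XT.lf (nat_lit 0) (nat_lit 3661973197) (nat_lit 608) (nat_lit 3585407925) (nat_lit 76) (nat_lit 7690516083) (nat_lit 166) (nat_lit 5) (nat_lit 174) (nat_lit 5) (nat_lit 167) (nat_lit 5) (nat_lit 357) (nat_lit 327) (nat_lit 216)) (XT.nd (nat_lit 78) (nat_lit 0) (nat_lit 0) (XT.lf (nat_lit 0) (nat_lit 4440693868) (nat_lit 456) (nat_lit 1422642800) (nat_lit 532) (nat_lit 9327969623) (nat_lit 160) (nat_lit 5) (nat_lit 166) (nat_lit 5) (nat_lit 167) (nat_lit 5) (nat_lit 358) (nat_lit 327) (nat_lit 215)) (XT.lf (nat_lit 0) (nat_lit 8197402791) (nat_lit 532) (nat_lit 2730304179) (nat_lit 76) (nat_lit 4522619870) (nat_lit 160) (nat_lit 5) (nat_lit 167) (nat_lit 5) (nat_lit 161) (nat_lit 5) (nat_lit 359) (nat_lit 327) (nat_lit 214)))) (XT.nd (nat_lit 156) (nat_lit 532) (nat_lit 0) (XT.nd (nat_lit 78) (nat_lit 0) (nat_lit 0) (XT.lf (nat_lit 0) (nat_lit 5610677386)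 (nat_lit 456) (nat_lit 5045339457) (nat_lit 532) (nat_lit 5059474166) (nat_lit 154) (nat_lit 5) (nat_lit 160) (nat_lit 5) (nat_lit 161) (nat_lit 5) (nat_lit 360) (nat_lit 327) (nat_lit 213)) (XT.lf (nat_lit 0) (nat_lit 13212710895) (nat_lit 532) (nat_lit 1755513175) (nat_lit 76) (nat_lit 1019664911) (nat_lit 154) (nat_lit 5) (nat_lit 161) (nat_lit 5) (nat_lit 155) (nat_lit 5) (nat_lit 361) (nat_lit 327) (nat_lit 212))) (XT.nd (nat_lit 78) (nat_lit 76) (nat_lit 0) (XT.lf (nat_lit 0) (nat_lit 6914113433) (nat_lit 456) (nat_lit 9035530731) (nat_lit 532) (nat_lit 315716853) (nat_lit 148) (nat_lit 5) (nat_lit 154) (nat_lit 5) (nat_lit 155) (nat_lit 5) (nat_lit 362) (nat_lit 327) (nat_lit 211)) (XT.lf (nat_lit 0) (nat_lit 2179378959) (nat_lit 532) (nat_lit 707534197) (nat_lit 76) (nat_lit 13663458690) (nat_lit 147) (nat_lit 5) (nat_lit 154) (nat_lit 5) (nat_lit 148) (nat_lit 5) (nat_lit 363) (nat_lit 327) (nat_lit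 210))))))))
noncomputable def xc172 : XT := (XT.nd (nat_lit 2028) (nat_lit 2888) (nat_lit 0) (XT.nd (nat_lit 1014) (nat_lit 2128) (nat_lit 0) (XT.nd (nat_lit 468) (nat_lit 1140) (nat_lit 0) (XT.nd (nat_lit 234) (nat_lit 836) (nat_lit 0) (XT.nd (nat_lit 78) (nat_lit 380) (nat_lit 0) (XT.lf (nat_lit 0) (nat_lit 4844675024) (nat_lit 532) (nat_lit 8535416389) (nat_lit 76) (nat_lit 3460704596) (nat_lit 141) (nat_lit 5) (nat_lit 148) (nat_lit 5) (nat_lit 142) (nat_lit 5) (nat_lit 364) (nat_lit 327) (nat_lit 209)) (XT.nd (nat_lit 78) (nat_lit 0) (nat_lit 0) (XT.lf (nat_lit 0) (nat_lit 428174339) (nat_lit 380) (nat_lit 7189459450) (nat_lit 456) (nat_lit 9521475347) (nat_lit 136) (nat_lit 5) (nat_lit 141) (nat_lit 5) (nat_lit 142) (nat_lit 5) (nat_lit 365) (nat_lit 327) (nat_lit 208)) (XT.lf (nat_lit 0) (nat_lit 9820794547) (nat_lit 380) (nat_lit 727179887) (nat_lit 456) (nat_lit 6896178570) (nat_lit 136) (nat_lit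 5) (nat_lit 141) (nat_lit 5) (nat_lit 142) (nat_lit 5) (nat_lit 366) (nat_lit 327) (nat_lit 207)))) (XT.nd (nat_lit 78) (nat_lit 456) (nat_lit 0) (XT.lf (nat_lit 0) (nat_lit 1698247929) (nat_lit 380) (nat_lit 11929619853) (nat_lit 456) (nat_lit 4128638062) (nat_lit 131) (nat_lit 5) (nat_lit 136) (nat_lit 5) (nat_lit 137) (nat_lit 5) (nat_lit 367) (nat_lit 327) (nat_lit 206)) (XT.nd (nat_lit 78) (nat_lit 456) (nat_lit 0) (XT.lf (nat_lit 0) (nat_lit 11433832022) (nat_lit 380) (nat_lit 5438960828) (nat_lit 456) (nat_lit 1203264100) (nat_lit 131) (nat_lit 5) (nat_lit 136) (nat_lit 5) (nat_lit 137) (nat_lit 5) (nat_lit 368) (nat_lit 327) (nat_lit 205)) (XT.lf (nat_lit 0) (nat_lit 1805364991) (nat_lit 456) (nat_lit 15331863374) (nat_lit 76) (nat_lit 1266526311) (nat_lit 125) (nat_lit 5) (nat_lit 131) (nat_lit 5) (nat_lit 126) (nat_lit 5) (nat_lit 369) (nat_lit 327) (nat_lit 204))))) (XT.nd (nat_lit 234) (nat_lit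 760) (nat_lit 0) (XT.nd (nat_lit 78) (nat_lit 380) (nat_lit 0) (XT.lf (nat_lit 0) (nat_lit 4990559502) (nat_lit 456) (nat_lit 5606679895) (nat_lit 76) (nat_lit 8140377961) (nat_lit 125) (nat_lit 5) (nat_lit 131) (nat_lit 5) (nat_lit 126) (nat_lit 5) (nat_lit 370) (nat_lit 327) (nat_lit 203)) (XT.nd (nat_lit 78) (nat_lit 0) (nat_lit 0) (XT.lf (nat_lit 0) (nat_lit 4483604548) (nat_lit 380) (nat_lit 3820030007) (nat_lit 456) (nat_lit 10776897603) (nat_lit 120) (nat_lit 5) (nat_lit 125) (nat_lit 5) (nat_lit 126) (nat_lit 5) (nat_lit 371) (nat_lit 327) (nat_lit 202)) (XT.lf (nat_lit 0) (nat_lit 11793031447) (nat_lit 456) (nat_lit 4485746115) (nat_lit 76) (nat_lit 3152654758) (nat_lit 120) (nat_lit 5) (nat_lit 126) (nat_lit 5) (nat_lit 121) (nat_lit 5) (nat_lit 372) (nat_lit 327) (nat_lit 201)))) (XT.nd (nat_lit 156) (nat_lit 456) (nat_lit 0) (XT.nd (nat_lit 78) (nat_lit 0) (nat_lit 0) (XT.lf (nat_lit 0) (nat_lit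 5994032356) (nat_lit 304) (nat_lit 9478199763) (nat_lit 380) (nat_lit 4318079348) (nat_lit 116) (nat_lit 5) (nat_lit 120) (nat_lit 5) (nat_lit 121) (nat_lit 5) (nat_lit 373) (nat_lit 327) (nat_lit 200)) (XT.lf (nat_lit 0) (nat_lit 16866412126) (nat_lit 304) (nat_lit 2430543826) (nat_lit 380) (nat_lit 861952094) (nat_lit 116) (nat_lit 5) (nat_lit 120) (nat_lit 5) (nat_lit 121) (nat_lit 5) (nat_lit 374) (nat_lit 327) (nat_lit 199))) (XT.nd (nat_lit 78) (nat_lit 0) (nat_lit 0) (XT.lf (nat_lit 0) (nat_lit 2756021840) (nat_lit 456) (nat_lit 12947327016) (nat_lit 76) (nat_lit 4831116585) (nat_lit 110) (nat_lit 5) (nat_lit 116) (nat_lit 5) (nat_lit 111) (nat_lit 5) (nat_lit 375) (nat_lit 327) (nat_lit 198)) (XT.lf (nat_lit 0) (nat_lit 6513021360) (nat_lit 456) (nat_lit 2106245242) (nat_lit 76) (nat_lit 12300337617) (nat_lit 110) (nat_lit 5) (nat_lit 116) (nat_lit 5) (nat_lit 111) (nat_lit 5) (nat_lit 376) (nat_lit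 327) (nat_lit 197)))))) (XT.nd (nat_lit 468) (nat_lit 836) (nat_lit 0) (XT.nd (nat_lit 234) (nat_lit 684) (nat_lit 0) (XT.nd (nat_lit 78) (nat_lit 304) (nat_lit 0) (XT.lf (nat_lit 0) (nat_lit 9226836535) (nat_lit 304) (nat_lit 1235043688) (nat_lit 380) (nat_lit 10852047316) (nat_lit 106) (nat_lit 5) (nat_lit 110) (nat_lit 5) (nat_lit 111) (nat_lit 5) (nat_lit 377) (nat_lit 327) (nat_lit 196)) (XT.nd (nat_lit 78) (nat_lit 304) (nat_lit 0) (XT.lf (nat_lit 0) (nat_lit 14602494326) (nat_lit 380) (nat_lit 851206913) (nat_lit 76) (nat_lit 6264185357) (nat_lit 106) (nat_lit 5) (nat_lit 111) (nat_lit 5) (nat_lit 107) (nat_lit 5) (nat_lit 378) (nat_lit 327) (nat_lit 195)) (XT.lf (nat_lit 0) (nat_lit 10909396046) (nat_lit 304) (nat_lit 8065872206) (nat_lit 380) (nat_lit 3155462514) (nat_lit 102) (nat_lit 5) (nat_lit 106) (nat_lit 5) (nat_lit 107) (nat_lit 5) (nat_lit 379) (nat_lit 327) (nat_lit 194)))) (XT.nd (nat_lit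 78) (nat_lit 304) (nat_lit 0) (XT.lf (nat_lit 0) (nat_lit 471739771) (nat_lit 304) (nat_lit 437619072) (nat_lit 380) (nat_lit 21646216189) (nat_lit 97) (nat_lit 5) (nat_lit 101) (nat_lit 5) (nat_lit 102) (nat_lit 5) (nat_lit 380) (nat_lit 327) (nat_lit 193)) (XT.nd (nat_lit 78) (nat_lit 304) (nat_lit 0) (XT.lf (nat_lit 0) (nat_lit 5209456405) (nat_lit 380) (nat_lit 10360992940) (nat_lit 76) (nat_lit 7416479611) (nat_lit 97) (nat_lit 5) (nat_lit 102) (nat_lit 5) (nat_lit 98) (nat_lit 5) (nat_lit 381) (nat_lit 327) (nat_lit 192)) (XT.lf (nat_lit 0) (nat_lit 1730171568) (nat_lit 304) (nat_lit 7920609116) (nat_lit 380) (nat_lit 13780080173) (nat_lit 93) (nat_lit 5) (nat_lit 97) (nat_lit 5) (nat_lit 98) (nat_lit 5) (nat_lit 382) (nat_lit 327) (nat_lit 191))))) (XT.nd (nat_lit 234) (nat_lit 608) (nat_lit 0) (XT.nd (nat_lit 78) (nat_lit 228) (nat_lit 0) (XT.lf (nat_lit 0) (nat_lit 14321962818) (nat_lit 380) (nat_lit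 9502039736) (nat_lit 76) (nat_lit 61213569) (nat_lit 93) (nat_lit 5) (nat_lit 98) (nat_lit 5) (nat_lit 94) (nat_lit 5) (nat_lit 383) (nat_lit 327) (nat_lit 190)) (XT.nd (nat_lit 78) (nat_lit 0) (nat_lit 0) (XT.lf (nat_lit 0) (nat_lit 3030774334) (nat_lit 228) (nat_lit 16201666721) (nat_lit 304) (nat_lit 5117790011) (nat_lit 90) (nat_lit 5) (nat_lit 93) (nat_lit 5) (nat_lit 94) (nat_lit 5) (nat_lit 384) (nat_lit 327) (nat_lit 189)) (XT.lf (nat_lit 0) (nat_lit 16121963596) (nat_lit 228) (nat_lit 8255952517) (nat_lit 304) (nat_lit 448653596) (nat_lit 90) (nat_lit 5) (nat_lit 93) (nat_lit 5) (nat_lit 94) (nat_lit 5) (nat_lit 385) (nat_lit 327) (nat_lit 188)))) (XT.nd (nat_lit 156) (nat_lit 228) (nat_lit 0) (XT.nd (nat_lit 78) (nat_lit 0) (nat_lit 0) (XT.lf (nat_lit 0) (nat_lit 4308966503) (nat_lit 380) (nat_lit 20996184062) (nat_lit 76) (nat_lit 9788976) (nat_lit 85) (nat_lit 5) (nat_lit 90) (nat_lit 5) (nat_lit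 86) (nat_lit 5) (nat_lit 386) (nat_lit 327) (nat_lit 187)) (XT.lf (nat_lit 0) (nat_lit 9362778802) (nat_lit 380) (nat_lit 8003404262) (nat_lit 76) (nat_lit 8446773117) (nat_lit 85) (nat_lit 5) (nat_lit 90) (nat_lit 5) (nat_lit 86) (nat_lit 5) (nat_lit 387) (nat_lit 327) (nat_lit 186))) (XT.nd (nat_lit 78) (nat_lit 0) (nat_lit 0) (XT.lf (nat_lit 0) (nat_lit 5474055054) (nat_lit 228) (nat_lit 9138973526) (nat_lit 304) (nat_lit 11711543358) (nat_lit 82) (nat_lit 5) (nat_lit 85) (nat_lit 5) (nat_lit 86) (nat_lit 5) (nat_lit 388) (nat_lit 327) (nat_lit 185)) (XT.lf (nat_lit 0) (nat_lit 19508094570) (nat_lit 228) (nat_lit 585826728) (nat_lit 304) (nat_lit 6755424021) (nat_lit 82) (nat_lit 5) (nat_lit 85) (nat_lit 5) (nat_lit 86) (nat_lit 5) (nat_lit 389) (nat_lit 327) (nat_lit 184))))))) (XT.nd (nat_lit 1014) (nat_lit 1140) (nat_lit 0) (XT.nd (nat_lit 468) (nat_lit 988) (nat_lit 0) (XT.nd (nat_lit 234) (nat_lit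 228) (nat_lit 0) (XT.nd (nat_lit 78) (nat_lit 304) (nat_lit 0) (XT.lf (nat_lit 0) (nat_lit 6611606220) (nat_lit 228) (nat_lit 19262744744) (nat_lit 304) (nat_lit 1511460752) (nat_lit 79) (nat_lit 5) (nat_lit 82) (nat_lit 5) (nat_lit 83) (nat_lit 5) (nat_lit 390) (nat_lit 327) (nat_lit 183)) (XT.nd (nat_lit 78) (nat_lit 228) (nat_lit 0) (XT.lf (nat_lit 0) (nat_lit 3887116895) (nat_lit 304) (nat_lit 6858223815) (nat_lit 76) (nat_lit 17189716599) (nat_lit 78) (nat_lit 5) (nat_lit 82) (nat_lit 5) (nat_lit 79) (nat_lit 5) (nat_lit 391) (nat_lit 327) (nat_lit 182)) (XT.lf (nat_lit 0) (nat_lit 7597173560) (nat_lit 228) (nat_lit 1885879020) (nat_lit 304) (nat_lit 19015308209) (nat_lit 75) (nat_lit 5) (nat_lit 78) (nat_lit 5) (nat_lit 79) (nat_lit 5) (nat_lit 392) (nat_lit 327) (nat_lit 181)))) (XT.nd (nat_lit 78) (nat_lit 228) (nat_lit 0) (XT.lf (nat_lit 0) (nat_lit 15379210572) (nat_lit 304) (nat_lit 6531354534)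 (nat_lit 76) (nat_lit 7164030713) (nat_lit 75) (nat_lit 5) (nat_lit 79) (nat_lit 5) (nat_lit 76) (nat_lit 5) (nat_lit 393) (nat_lit 327) (nat_lit 180)) (XT.nd (nat_lit 78) (nat_lit 0) (nat_lit 0) (XT.lf (nat_lit 0) (nat_lit 8403808469) (nat_lit 228) (nat_lit 13140923447) (nat_lit 304) (nat_lit 8120614319) (nat_lit 72) (nat_lit 5) (nat_lit 75) (nat_lit 5) (nat_lit 76) (nat_lit 5) (nat_lit 394) (nat_lit 327) (nat_lit 179)) (XT.lf (nat_lit 0) (nat_lit 23909940191) (nat_lit 228) (nat_lit 4044354288) (nat_lit 304) (nat_lit 2317755029) (nat_lit 72) (nat_lit 5) (nat_lit 75) (nat_lit 5) (nat_lit 76) (nat_lit 5) (nat_lit 395) (nat_lit 327) (nat_lit 178))))) (XT.nd (nat_lit 234) (nat_lit 456) (nat_lit 0) (XT.nd (nat_lit 78) (nat_lit 228) (nat_lit 0) (XT.lf (nat_lit 0) (nat_lit 3721035522) (nat_lit 304) (nat_lit 21829611467) (nat_lit 76) (nat_lit 5341256639) (nat_lit 68) (nat_lit 5) (nat_lit 72) (nat_lit 5) (nat_lit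 69) (nat_lit 5) (nat_lit 396) (nat_lit 327) (nat_lit 177)) (XT.nd (nat_lit 78) (nat_lit 228) (nat_lit 0) (XT.lf (nat_lit 0) (nat_lit 9992637727) (nat_lit 304) (nat_lit 6523057731) (nat_lit 76) (nat_lit 15011024887) (nat_lit 68) (nat_lit 5) (nat_lit 72) (nat_lit 5) (nat_lit 69) (nat_lit 5) (nat_lit 397) (nat_lit 327) (nat_lit 176)) (XT.lf (nat_lit 0) (nat_lit 9415899542) (nat_lit 228) (nat_lit 7120503230) (nat_lit 304) (nat_lit 15641660672) (nat_lit 65) (nat_lit 5) (nat_lit 68) (nat_lit 5) (nat_lit 69) (nat_lit 5) (nat_lit 398) (nat_lit 327) (nat_lit 175)))) (XT.nd (nat_lit 156) (nat_lit 304) (nat_lit 0) (XT.nd (nat_lit 78) (nat_lit 152) (nat_lit 0) (XT.lf (nat_lit 0) (nat_lit 23361131835) (nat_lit 304) (nat_lit 6916039941) (nat_lit 76) (nat_lit 2569237780) (nat_lit 65) (nat_lit 5) (nat_lit 69) (nat_lit 5) (nat_lit 66) (nat_lit 5) (nat_lit 399) (nat_lit 327) (nat_lit 174)) (XT.lf (nat_lit 0) (nat_lit 9510271850)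 (nat_lit 152) (nat_lit 21035990982) (nat_lit 228) (nat_lit 2983875607) (nat_lit 63) (nat_lit 5) (nat_lit 65) (nat_lit 5) (nat_lit 66) (nat_lit 5) (nat_lit 400) (nat_lit 327) (nat_lit 173))) (XT.nd (nat_lit 78) (nat_lit 228) (nat_lit 0) (XT.lf (nat_lit 0) (nat_lit 3704415644) (nat_lit 228) (nat_lit 7707818923) (nat_lit 76) (nat_lit 22819147281) (nat_lit 62) (nat_lit 5) (nat_lit 65) (nat_lit 5) (nat_lit 63) (nat_lit 5) (nat_lit 401) (nat_lit 327) (nat_lit 172)) (XT.lf (nat_lit 0) (nat_lit 9234239175) (nat_lit 228) (nat_lit 1381853084) (nat_lit 304) (nat_lit 24334204716) (nat_lit 59) (nat_lit 5) (nat_lit 62) (nat_lit 5) (nat_lit 63) (nat_lit 5) (nat_lit 402) (nat_lit 327) (nat_lit 171)))))) (XT.nd (nat_lit 546) (nat_lit 608) (nat_lit 0) (XT.nd (nat_lit 234) (nat_lit 380) (nat_lit 0) (XT.nd (nat_lit 78) (nat_lit 152) (nat_lit 0) (XT.lf (nat_lit 0) (nat_lit 17893738989) (nat_lit 304) (nat_lit 8942727223) (nat_lit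 76) (nat_lit 8849556695) (nat_lit 59) (nat_lit 5) (nat_lit 63) (nat_lit 5) (nat_lit 60) (nat_lit 5) (nat_lit 403) (nat_lit 327) (nat_lit 170)) (XT.nd (nat_lit 78) (nat_lit 0) (nat_lit 0) (XT.lf (nat_lit 0) (nat_lit 8475760476) (nat_lit 152) (nat_lit 17003273499) (nat_lit 228) (nat_lit 10962108962) (nat_lit 57) (nat_lit 5) (nat_lit 59) (nat_lit 5) (nat_lit 60) (nat_lit 5) (nat_lit 404) (nat_lit 327) (nat_lit 169)) (XT.lf (nat_lit 0) (nat_lit 26590461876) (nat_lit 152) (nat_lit 6785970064) (nat_lit 228) (nat_lit 3839950138) (nat_lit 57) (nat_lit 5) (nat_lit 59) (nat_lit 5) (nat_lit 60) (nat_lit 5) (nat_lit 405) (nat_lit 327) (nat_lit 168)))) (XT.nd (nat_lit 156) (nat_lit 152) (nat_lit 0) (XT.nd (nat_lit 78) (nat_lit 0) (nat_lit 0) (XT.lf (nat_lit 0) (nat_lit 3529427812) (nat_lit 228) (nat_lit 30715112704) (nat_lit 76) (nat_lit 3766278328) (nat_lit 54) (nat_lit 5) (nat_lit 57) (nat_lit 5) (nat_lit 55) (nat_lit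 5) (nat_lit 406) (nat_lit 327) (nat_lit 167)) (XT.lf (nat_lit 0) (nat_lit 11212647298) (nat_lit 228) (nat_lit 12968867038) (nat_lit 76) (nat_lit 14641337293) (nat_lit 54) (nat_lit 5) (nat_lit 57) (nat_lit 5) (nat_lit 55) (nat_lit 5) (nat_lit 407) (nat_lit 327) (nat_lit 166))) (XT.nd (nat_lit 78) (nat_lit 0) (nat_lit 0) (XT.lf (nat_lit 0) (nat_lit 5406004123) (nat_lit 152) (nat_lit 13766876739) (nat_lit 228) (nat_lit 20484970640) (nat_lit 52) (nat_lit 5) (nat_lit 54) (nat_lit 5) (nat_lit 55) (nat_lit 5) (nat_lit 408) (nat_lit 327) (nat_lit 165)) (XT.lf (nat_lit 0) (nat_lit 24588808705) (nat_lit 152) (nat_lit 2908695151) (nat_lit 228) (nat_lit 13016631623) (nat_lit 52) (nat_lit 5) (nat_lit 54) (nat_lit 5) (nat_lit 55) (nat_lit 5) (nat_lit 409) (nat_lit 327) (nat_lit 164))))) (XT.nd (nat_lit 234) (nat_lit 380) (nat_lit 0) (XT.nd (nat_lit 78) (nat_lit 76) (nat_lit 0) (XT.lf (nat_lit 0) (nat_lit 2919392950)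 (nat_lit 152) (nat_lit 33254825784) (nat_lit 228) (nat_lit 5218820180) (nat_lit 50) (nat_lit 5) (nat_lit 52) (nat_lit 5) (nat_lit 53) (nat_lit 5) (nat_lit 410) (nat_lit 327) (nat_lit 163)) (XT.nd (nat_lit 78) (nat_lit 0) (nat_lit 0) (XT.lf (nat_lit 0) (nat_lit 2943999091) (nat_lit 228) (nat_lit 19704043052) (nat_lit 76) (nat_lit 19643878655) (nat_lit 49) (nat_lit 5) (nat_lit 52) (nat_lit 5) (nat_lit 50) (nat_lit 5) (nat_lit 411) (nat_lit 327) (nat_lit 162)) (XT.lf (nat_lit 0) (nat_lit 11241720540) (nat_lit 228) (nat_lit 431795522) (nat_lit 76) (nat_lit 31542857018) (nat_lit 49) (nat_lit 5) (nat_lit 52) (nat_lit 5) (nat_lit 50) (nat_lit 5) (nat_lit 412) (nat_lit 327) (nat_lit 161)))) (XT.nd (nat_lit 156) (nat_lit 228) (nat_lit 0) (XT.nd (nat_lit 78) (nat_lit 0) (nat_lit 0) (XT.lf (nat_lit 0) (nat_lit 19796402055) (nat_lit 152) (nat_lit 177325651) (nat_lit 228) (nat_lit 24189271964) (nat_lit 47) (nat_lit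 5) (nat_lit 49) (nat_lit 5) (nat_lit 50) (nat_lit 5) (nat_lit 413) (nat_lit 327) (nat_lit 160)) (XT.lf (nat_lit 0) (nat_lit 29079305279) (nat_lit 228) (nat_lit 4618306074) (nat_lit 76) (nat_lit 11437066723) (nat_lit 47) (nat_lit 5) (nat_lit 50) (nat_lit 5) (nat_lit 48) (nat_lit 5) (nat_lit 414) (nat_lit 327) (nat_lit 159))) (XT.nd (nat_lit 78) (nat_lit 76) (nat_lit 0) (XT.lf (nat_lit 0) (nat_lit 16025088139) (nat_lit 152) (nat_lit 22583991397) (nat_lit 228) (nat_lit 7521897704) (nat_lit 45) (nat_lit 5) (nat_lit 47) (nat_lit 5) (nat_lit 48) (nat_lit 5) (nat_lit 415) (nat_lit 327) (nat_lit 158)) (XT.lf (nat_lit 0) (nat_lit 1285186922) (nat_lit 228) (nat_lit 9794269995) (nat_lit 76) (nat_lit 36076073919) (nat_lit 44) (nat_lit 5) (nat_lit 47) (nat_lit 5) (nat_lit 45) (nat_lit 5) (nat_lit 416) (nat_lit 327) (nat_lit 157))))))))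
noncomputable def xc173 : XT := (XT.nd (nat_lit 40326) (nat_lit 0) (nat_lit 10108) (XT.nd (nat_lit 1014) (nat_lit 380) (nat_lit 0) (XT.nd (nat_lit 468) (nat_lit 456) (nat_lit 0) (XT.nd (nat_lit 234) (nat_lit 152) (nat_lit 0) (XT.nd (nat_lit 78) (nat_lit 152) (nat_lit 0) (XT.lf (nat_lit 0) (nat_lit 10318138749) (nat_lit 228) (nat_lit 36950704514) (nat_lit 76) (nat_lit 936359606) (nat_lit 42) (nat_lit 5) (nat_lit 45) (nat_lit 5) (nat_lit 43) (nat_lit 5) (nat_lit 417) (nat_lit 327) (nat_lit 156)) (XT.nd (nat_lit 78) (nat_lit 152) (nat_lit 0) (XT.lf (nat_lit 0) (nat_lit 19827064970) (nat_lit 228) (nat_lit 16266668003) (nat_lit 76) (nat_lit 13186483657) (nat_lit 42) (nat_lit 5) (nat_lit 45) (nat_lit 5) (nat_lit 43) (nat_lit 5) (nat_lit 418) (nat_lit 327) (nat_lit 155)) (XT.lf (nat_lit 0) (nat_lit 5130136967) (nat_lit 152) (nat_lit 24535975916) (nat_lit 228) (nat_lit 20720023413) (nat_lit 40) (nat_lit 5) (nat_lit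 42) (nat_lit 5) (nat_lit 43) (nat_lit 5) (nat_lit 419) (nat_lit 327) (nat_lit 154)))) (XT.nd (nat_lit 78) (nat_lit 152) (nat_lit 0) (XT.lf (nat_lit 0) (nat_lit 27494513808) (nat_lit 152) (nat_lit 12465674858) (nat_lit 228) (nat_lit 11560250269) (nat_lit 40) (nat_lit 5) (nat_lit 42) (nat_lit 5) (nat_lit 43) (nat_lit 5) (nat_lit 420) (nat_lit 327) (nat_lit 153)) (XT.nd (nat_lit 78) (nat_lit 152) (nat_lit 0) (XT.lf (nat_lit 0) (nat_lit 50522265619) (nat_lit 152) (nat_lit 36544386) (nat_lit 228) (nat_lit 2130089995) (nat_lit 40) (nat_lit 5) (nat_lit 42) (nat_lit 5) (nat_lit 43) (nat_lit 5) (nat_lit 421) (nat_lit 327) (nat_lit 152)) (XT.lf (nat_lit 0) (nat_lit 7754884250) (nat_lit 152) (nat_lit 33338263675) (nat_lit 76) (nat_lit 12787484782) (nat_lit 38) (nat_lit 5) (nat_lit 40) (nat_lit 5) (nat_lit 39) (nat_lit 5) (nat_lit 422) (nat_lit 327) (nat_lit 151))))) (XT.nd (nat_lit 234) (nat_lit 304) (nat_lit 0)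 (XT.nd (nat_lit 78) (nat_lit 152) (nat_lit 0) (XT.lf (nat_lit 0) (nat_lit 17911878689) (nat_lit 152) (nat_lit 11159515432) (nat_lit 76) (nat_lit 26035543020) (nat_lit 38) (nat_lit 5) (nat_lit 40) (nat_lit 5) (nat_lit 39) (nat_lit 5) (nat_lit 423) (nat_lit 327) (nat_lit 150)) (XT.nd (nat_lit 78) (nat_lit 0) (nat_lit 0) (XT.lf (nat_lit 0) (nat_lit 11909772194) (nat_lit 152) (nat_lit 16574242804) (nat_lit 228) (nat_lit 27882703679) (nat_lit 36) (nat_lit 5) (nat_lit 38) (nat_lit 5) (nat_lit 39) (nat_lit 5) (nat_lit 424) (nat_lit 327) (nat_lit 149)) (XT.lf (nat_lit 0) (nat_lit 35892742801) (nat_lit 152) (nat_lit 3589259084) (nat_lit 228) (nat_lit 18179032082) (nat_lit 36) (nat_lit 5) (nat_lit 38) (nat_lit 5) (nat_lit 39) (nat_lit 5) (nat_lit 425) (nat_lit 327) (nat_lit 148)))) (XT.nd (nat_lit 156) (nat_lit 152) (nat_lit 0) (XT.nd (nat_lit 78) (nat_lit 76) (nat_lit 0) (XT.lf (nat_lit 0) (nat_lit 1529778837)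 (nat_lit 76) (nat_lit 49385001183) (nat_lit 152) (nat_lit 8076254020) (nat_lit 35) (nat_lit 5) (nat_lit 36) (nat_lit 5) (nat_lit 37) (nat_lit 4) (nat_lit 426) (nat_lit 327) (nat_lit 147)) (XT.lf (nat_lit 0) (nat_lit 2537771419) (nat_lit 152) (nat_lit 34448471328) (nat_lit 76) (nat_lit 23366411693) (nat_lit 34) (nat_lit 5) (nat_lit 36) (nat_lit 5) (nat_lit 35) (nat_lit 5) (nat_lit 427) (nat_lit 327) (nat_lit 146))) (XT.nd (nat_lit 78) (nat_lit 152) (nat_lit 0) (XT.lf (nat_lit 0) (nat_lit 13304099113) (nat_lit 152) (nat_lit 10832105738) (nat_lit 76) (nat_lit 37616634330) (nat_lit 34) (nat_lit 5) (nat_lit 36) (nat_lit 5) (nat_lit 35) (nat_lit 5) (nat_lit 428) (nat_lit 327) (nat_lit 145)) (XT.lf (nat_lit 0) (nat_lit 13754511174) (nat_lit 152) (nat_lit 10767438936) (nat_lit 228) (nat_lit 38669224127) (nat_lit 32) (nat_lit 5) (nat_lit 34) (nat_lit 5) (nat_lit 35) (nat_lit 5) (nat_lit 429) (nat_lit 327) (nat_lit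 144)))))) (XT.nd (nat_lit 468) (nat_lit 76) (nat_lit 0) (XT.nd (nat_lit 234) (nat_lit 228) (nat_lit 0) (XT.nd (nat_lit 78) (nat_lit 76) (nat_lit 0) (XT.lf (nat_lit 0) (nat_lit 36211996040) (nat_lit 228) (nat_lit 25405203840) (nat_lit 76) (nat_lit 3051390439) (nat_lit 32) (nat_lit 5) (nat_lit 35) (nat_lit 5) (nat_lit 33) (nat_lit 4) (nat_lit 430) (nat_lit 327) (nat_lit 143)) (XT.nd (nat_lit 78) (nat_lit 76) (nat_lit 0) (XT.lf (nat_lit 0) (nat_lit 48355791035) (nat_lit 228) (nat_lit 765871591) (nat_lit 76) (nat_lit 17065575559) (nat_lit 32) (nat_lit 5) (nat_lit 35) (nat_lit 5) (nat_lit 33) (nat_lit 4) (nat_lit 431) (nat_lit 327) (nat_lit 142)) (XT.lf (nat_lit 0) (nat_lit 25096081344) (nat_lit 76) (nat_lit 36005600510) (nat_lit 152) (nat_lit 6642630886) (nat_lit 31) (nat_lit 5) (nat_lit 32) (nat_lit 5) (nat_lit 33) (nat_lit 4) (nat_lit 432) (nat_lit 327) (nat_lit 141)))) (XT.nd (nat_lit 78) (nat_lit 152)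 (nat_lit 0) (XT.lf (nat_lit 0) (nat_lit 4790947322) (nat_lit 152) (nat_lit 17651560980) (nat_lit 76) (nat_lit 46904053282) (nat_lit 30) (nat_lit 5) (nat_lit 32) (nat_lit 5) (nat_lit 31) (nat_lit 5) (nat_lit 433) (nat_lit 327) (nat_lit 140)) (XT.nd (nat_lit 78) (nat_lit 0) (nat_lit 0) (XT.lf (nat_lit 0) (nat_lit 8182818103) (nat_lit 152) (nat_lit 8326512778) (nat_lit 228) (nat_lit 54483315357) (nat_lit 28) (nat_lit 5) (nat_lit 30) (nat_lit 5) (nat_lit 31) (nat_lit 5) (nat_lit 434) (nat_lit 327) (nat_lit 139)) (XT.lf (nat_lit 0) (nat_lit 28815663055) (nat_lit 228) (nat_lit 37596298398) (nat_lit 76) (nat_lit 6269060697) (nat_lit 28) (nat_lit 5) (nat_lit 31) (nat_lit 5) (nat_lit 29) (nat_lit 4) (nat_lit 435) (nat_lit 327) (nat_lit 138))))) (XT.nd (nat_lit 38532) (nat_lit 0) (nat_lit 16264) (XT.nd (nat_lit 78) (nat_lit 76) (nat_lit 0) (XT.lf (nat_lit 0) (nat_lit 41570386439) (nat_lit 228) (nat_lit 11714738436)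 (nat_lit 76) (nat_lit 21132549040) (nat_lit 28) (nat_lit 5) (nat_lit 31) (nat_lit 5) (nat_lit 29) (nat_lit 4) (nat_lit 436) (nat_lit 327) (nat_lit 137)) (XT.nd (nat_lit 38376) (nat_lit 0) (nat_lit 16264) (XT.lf (nat_lit 0) (nat_lit 15234791902) (nat_lit 76) (nat_lit 39616260642) (nat_lit 152) (nat_lit 21351074257) (nat_lit 27) (nat_lit 5) (nat_lit 28) (nat_lit 5) (nat_lit 29) (nat_lit 4) (nat_lit 437) (nat_lit 327) (nat_lit 136)) (XT.lf (nat_lit 0) (nat_lit 993894136) (nat_lit 1140) (nat_lit 1961397054) (nat_lit 1140) (nat_lit 1961397054) (nat_lit 241) (nat_lit 3) (nat_lit 256) (nat_lit 3) (nat_lit 256) (nat_lit 5) (nat_lit 328) (nat_lit 328) (nat_lit 244)))) (XT.nd (nat_lit 156) (nat_lit 0) (nat_lit 76) (XT.nd (nat_lit 78) (nat_lit 0) (nat_lit 76) (XT.lf (nat_lit 76) (nat_lit 717513697) (nat_lit 0) (nat_lit 2017322671) (nat_lit 1140) (nat_lit 7223944459) (nat_lit 242) (nat_lit 5) (nat_lit 241) (nat_lit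 3) (nat_lit 256) (nat_lit 5) (nat_lit 329) (nat_lit 328) (nat_lit 243)) (XT.lf (nat_lit 0) (nat_lit 3535721342) (nat_lit 1064) (nat_lit 4544421257) (nat_lit 1140) (nat_lit 2006884547) (nat_lit 242) (nat_lit 5) (nat_lit 256) (nat_lit 5) (nat_lit 257) (nat_lit 5) (nat_lit 330) (nat_lit 328) (nat_lit 242))) (XT.nd (nat_lit 78) (nat_lit 0) (nat_lit 76) (XT.lf (nat_lit 76) (nat_lit 263390453) (nat_lit 0) (nat_lit 4092820892) (nat_lit 1140) (nat_lit 5863064106) (nat_lit 243) (nat_lit 5) (nat_lit 242) (nat_lit 5) (nat_lit 257) (nat_lit 5) (nat_lit 331) (nat_lit 328) (nat_lit 241)) (XT.lf (nat_lit 0) (nat_lit 5221618398) (nat_lit 1064) (nat_lit 5061988358) (nat_lit 1140) (nat_lit 71296692) (nat_lit 243) (nat_lit 5) (nat_lit 257) (nat_lit 5) (nat_lit 258) (nat_lit 5) (nat_lit 332) (nat_lit 328) (nat_lit 240))))))) (XT.nd (nat_lit 1014) (nat_lit 4408) (nat_lit 0) (XT.nd (nat_lit 468) (nat_lit 912) (nat_lit 0) (XT.nd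 (nat_lit 234) (nat_lit 988) (nat_lit 0) (XT.nd (nat_lit 78) (nat_lit 0) (nat_lit 0) (XT.lf (nat_lit 0) (nat_lit 6128095608) (nat_lit 1064) (nat_lit 77211829) (nat_lit 1140) (nat_lit 4288860303) (nat_lit 243) (nat_lit 5) (nat_lit 257) (nat_lit 5) (nat_lit 258) (nat_lit 5) (nat_lit 333) (nat_lit 328) (nat_lit 239)) (XT.nd (nat_lit 78) (nat_lit 0) (nat_lit 76) (XT.lf (nat_lit 76) (nat_lit 5142491446) (nat_lit 0) (nat_lit 1944033670) (nat_lit 1140) (nat_lit 3550362193) (nat_lit 244) (nat_lit 5) (nat_lit 243) (nat_lit 5) (nat_lit 258) (nat_lit 5) (nat_lit 334) (nat_lit 328) (nat_lit 238)) (XT.lf (nat_lit 0) (nat_lit 8073989166) (nat_lit 1064) (nat_lit 302657827) (nat_lit 1140) (nat_lit 2407252529) (nat_lit 244) (nat_lit 5) (nat_lit 258) (nat_lit 5) (nat_lit 259) (nat_lit 5) (nat_lit 335) (nat_lit 328) (nat_lit 237)))) (XT.nd (nat_lit 78) (nat_lit 1064) (nat_lit 0) (XT.lf (nat_lit 76) (nat_lit 5110106878) (nat_lit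 0) (nat_lit 4026029547) (nat_lit 1140) (nat_lit 1797852834) (nat_lit 245) (nat_lit 5) (nat_lit 244) (nat_lit 5) (nat_lit 259) (nat_lit 5) (nat_lit 336) (nat_lit 328) (nat_lit 236)) (XT.nd (nat_lit 78) (nat_lit 1140) (nat_lit 0) (XT.lf (nat_lit 0) (nat_lit 10214907952) (nat_lit 1064) (nat_lit 417257516) (nat_lit 1140) (nat_lit 456891809) (nat_lit 245) (nat_lit 5) (nat_lit 259) (nat_lit 5) (nat_lit 260) (nat_lit 5) (nat_lit 337) (nat_lit 328) (nat_lit 235)) (XT.lf (nat_lit 0) (nat_lit 144196827) (nat_lit 1140) (nat_lit 6050404054) (nat_lit 1216) (nat_lit 5052118325) (nat_lit 230) (nat_lit 5) (nat_lit 245) (nat_lit 5) (nat_lit 246) (nat_lit 5) (nat_lit 338) (nat_lit 328) (nat_lit 234))))) (XT.nd (nat_lit 234) (nat_lit 912) (nat_lit 0) (XT.nd (nat_lit 78) (nat_lit 0) (nat_lit 76) (XT.lf (nat_lit 0) (nat_lit 1158004252) (nat_lit 1140) (nat_lit 446492868) (nat_lit 1216) (nat_lit 9804896636) (nat_lit 230) (nat_lit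 5) (nat_lit 245) (nat_lit 5) (nat_lit 246) (nat_lit 5) (nat_lit 339) (nat_lit 328) (nat_lit 233)) (XT.nd (nat_lit 78) (nat_lit 0) (nat_lit 0) (XT.lf (nat_lit 0) (nat_lit 2263743114) (nat_lit 1140) (nat_lit 6190615136) (nat_lit 1216) (nat_lit 3120761111) (nat_lit 231) (nat_lit 5) (nat_lit 246) (nat_lit 5) (nat_lit 247) (nat_lit 5) (nat_lit 340) (nat_lit 328) (nat_lit 232)) (XT.lf (nat_lit 0) (nat_lit 3402478035) (nat_lit 1140) (nat_lit 377773059) (nat_lit 1216) (nat_lit 7965586783) (nat_lit 231) (nat_lit 5) (nat_lit 246) (nat_lit 5) (nat_lit 247) (nat_lit 5) (nat_lit 341) (nat_lit 328) (nat_lit 231)))) (XT.nd (nat_lit 156) (nat_lit 1064) (nat_lit 0) (XT.nd (nat_lit 78) (nat_lit 0) (nat_lit 0) (XT.lf (nat_lit 0) (nat_lit 4620733361) (nat_lit 1140) (nat_lit 6225674089) (nat_lit 1216) (nat_lit 1073925145) (nat_lit 232) (nat_lit 5) (nat_lit 247) (nat_lit 5) (nat_lit 248) (nat_lit 5) (nat_lit 342) (nat_lit 328)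 (nat_lit 230)) (XT.lf (nat_lit 0) (nat_lit 5897282165) (nat_lit 1140) (nat_lit 196187968) (nat_lit 1216) (nat_lit 6005954595) (nat_lit 232) (nat_lit 5) (nat_lit 247) (nat_lit 5) (nat_lit 248) (nat_lit 5) (nat_lit 343) (nat_lit 328) (nat_lit 229))) (XT.nd (nat_lit 78) (nat_lit 1064) (nat_lit 0) (XT.lf (nat_lit 76) (nat_lit 6118250227) (nat_lit 0) (nat_lit 1133723600) (nat_lit 1216) (nat_lit 5030734920) (nat_lit 233) (nat_lit 5) (nat_lit 232) (nat_lit 5) (nat_lit 248) (nat_lit 5) (nat_lit 344) (nat_lit 328) (nat_lit 228)) (XT.lf (nat_lit 0) (nat_lit 102712866) (nat_lit 1140) (nat_lit 8567262965) (nat_lit 1216) (nat_lit 3800849458) (nat_lit 218) (nat_lit 5) (nat_lit 233) (nat_lit 5) (nat_lit 234) (nat_lit 5) (nat_lit 345) (nat_lit 328) (nat_lit 227)))))) (XT.nd (nat_lit 546) (nat_lit 2204) (nat_lit 0) (XT.nd (nat_lit 234) (nat_lit 1140) (nat_lit 0) (XT.nd (nat_lit 78) (nat_lit 1064) (nat_lit 0) (XT.lf (nat_lit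 0) (nat_lit 6657196186) (nat_lit 1140) (nat_lit 3528548225) (nat_lit 1216) (nat_lit 2477197800) (nat_lit 218) (nat_lit 5) (nat_lit 233) (nat_lit 5) (nat_lit 234) (nat_lit 5) (nat_lit 346) (nat_lit 328) (nat_lit 226)) (XT.nd (nat_lit 78) (nat_lit 76) (nat_lit 0) (XT.lf (nat_lit 0) (nat_lit 526056651) (nat_lit 988) (nat_lit 11224370276) (nat_lit 1064) (nat_lit 1110305771) (nat_lit 205) (nat_lit 5) (nat_lit 218) (nat_lit 5) (nat_lit 219) (nat_lit 5) (nat_lit 347) (nat_lit 328) (nat_lit 225)) (XT.lf (nat_lit 0) (nat_lit 370562450) (nat_lit 1064) (nat_lit 5740044411) (nat_lit 76) (nat_lit 6951413440) (nat_lit 204) (nat_lit 5) (nat_lit 218) (nat_lit 5) (nat_lit 205) (nat_lit 5) (nat_lit 348) (nat_lit 328) (nat_lit 224)))) (XT.nd (nat_lit 156) (nat_lit 532) (nat_lit 0) (XT.nd (nat_lit 78) (nat_lit 0) (nat_lit 0) (XT.lf (nat_lit 0) (nat_lit 1046380840) (nat_lit 608) (nat_lit 820318968) (nat_lit 684) (nat_lit 11402534312)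 (nat_lit 196) (nat_lit 5) (nat_lit 204) (nat_lit 5) (nat_lit 205) (nat_lit 5) (nat_lit 349) (nat_lit 328) (nat_lit 223)) (XT.lf (nat_lit 0) (nat_lit 3494209570) (nat_lit 684) (nat_lit 5387768392) (nat_lit 76) (nat_lit 4598103544) (nat_lit 196) (nat_lit 5) (nat_lit 205) (nat_lit 5) (nat_lit 197) (nat_lit 5) (nat_lit 350) (nat_lit 328) (nat_lit 222))) (XT.nd (nat_lit 78) (nat_lit 0) (nat_lit 0) (XT.lf (nat_lit 0) (nat_lit 1661286607) (nat_lit 532) (nat_lit 3517288622) (nat_lit 608) (nat_lit 8518449623) (nat_lit 189) (nat_lit 5) (nat_lit 196) (nat_lit 5) (nat_lit 197) (nat_lit 5) (nat_lit 351) (nat_lit 328) (nat_lit 221)) (XT.lf (nat_lit 0) (nat_lit 6971987500) (nat_lit 608) (nat_lit 4922146777) (nat_lit 76) (nat_lit 2024597876) (nat_lit 189) (nat_lit 5) (nat_lit 197) (nat_lit 5) (nat_lit 190) (nat_lit 5) (nat_lit 352) (nat_lit 328) (nat_lit 220))))) (XT.nd (nat_lit 234) (nat_lit 1064) (nat_lit 0) (XT.nd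 (nat_lit 78) (nat_lit 532) (nat_lit 0) (XT.lf (nat_lit 0) (nat_lit 2401634465) (nat_lit 608) (nat_lit 6460202239) (nat_lit 684) (nat_lit 5283985731) (nat_lit 181) (nat_lit 5) (nat_lit 189) (nat_lit 5) (nat_lit 190) (nat_lit 5) (nat_lit 353) (nat_lit 328) (nat_lit 219)) (XT.nd (nat_lit 78) (nat_lit 532) (nat_lit 0) (XT.lf (nat_lit 0) (nat_lit 10030920047) (nat_lit 608) (nat_lit 812189019) (nat_lit 684) (nat_lit 3535585013) (nat_lit 181) (nat_lit 5) (nat_lit 189) (nat_lit 5) (nat_lit 190) (nat_lit 5) (nat_lit 354) (nat_lit 328) (nat_lit 218)) (XT.lf (nat_lit 0) (nat_lit 3271136934) (nat_lit 532) (nat_lit 9677699124) (nat_lit 608) (nat_lit 1667775500) (nat_lit 174) (nat_lit 5) (nat_lit 181) (nat_lit 5) (nat_lit 182) (nat_lit 5) (nat_lit 355) (nat_lit 328) (nat_lit 217)))) (XT.nd (nat_lit 156) (nat_lit 456) (nat_lit 0) (XT.nd (nat_lit 78) (nat_lit 532) (nat_lit 0) (XT.lf (nat_lit 0) (nat_lit 289039052) (nat_lit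 608) (nat_lit 3678808411) (nat_lit 76) (nat_lit 10892615822) (nat_lit 173) (nat_lit 5) (nat_lit 181) (nat_lit 5) (nat_lit 174) (nat_lit 5) (nat_lit 356) (nat_lit 328) (nat_lit 216)) (XT.lf (nat_lit 0) (nat_lit 2317042746) (nat_lit 608) (nat_lit 10859438569) (nat_lit 76) (nat_lit 1933283025) (nat_lit 166) (nat_lit 5) (nat_lit 174) (nat_lit 5) (nat_lit 167) (nat_lit 5) (nat_lit 357) (nat_lit 328) (nat_lit 215))) (XT.nd (nat_lit 78) (nat_lit 456) (nat_lit 0) (XT.lf (nat_lit 0) (nat_lit 4468953357) (nat_lit 608) (nat_lit 2927421059) (nat_lit 76) (nat_lit 7968287051) (nat_lit 166) (nat_lit 5) (nat_lit 174) (nat_lit 5) (nat_lit 167) (nat_lit 5) (nat_lit 358) (nat_lit 328) (nat_lit 214)) (XT.lf (nat_lit 0) (nat_lit 5331958404) (nat_lit 456) (nat_lit 1391381613) (nat_lit 532) (nat_lit 8902736709) (nat_lit 160) (nat_lit 5) (nat_lit 166) (nat_lit 5) (nat_lit 167) (nat_lit 5) (nat_lit 359) (nat_lit 328) (nat_lit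 213))))))))
noncomputable def xc174 : XT := (XT.nd (nat_lit 2028) (nat_lit 3116) (nat_lit 0) (XT.nd (nat_lit 1014) (nat_lit 2280) (nat_lit 0) (XT.nd (nat_lit 468) (nat_lit 1596) (nat_lit 0) (XT.nd (nat_lit 234) (nat_lit 988) (nat_lit 0) (XT.nd (nat_lit 78) (nat_lit 456) (nat_lit 0) (XT.lf (nat_lit 0) (nat_lit 9108192846) (nat_lit 532) (nat_lit 2056580574) (nat_lit 76) (nat_lit 4728684511) (nat_lit 160) (nat_lit 5) (nat_lit 167) (nat_lit 5) (nat_lit 161) (nat_lit 5) (nat_lit 360) (nat_lit 328) (nat_lit 212)) (XT.nd (nat_lit 78) (nat_lit 0) (nat_lit 0) (XT.lf (nat_lit 0) (nat_lit 6527222275) (nat_lit 456) (nat_lit 5101170351) (nat_lit 532) (nat_lit 4538562183) (nat_lit 154) (nat_lit 5) (nat_lit 160) (nat_lit 5) (nat_lit 161) (nat_lit 5) (nat_lit 361) (nat_lit 328) (nat_lit 211)) (XT.lf (nat_lit 0) (nat_lit 14243668497) (nat_lit 532) (nat_lit 1063220112) (nat_lit 76) (nat_lit 1141191916) (nat_lit 154) (nat_lit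 5) (nat_lit 161) (nat_lit 5) (nat_lit 155) (nat_lit 5) (nat_lit 362) (nat_lit 328) (nat_lit 210)))) (XT.nd (nat_lit 78) (nat_lit 456) (nat_lit 0) (XT.lf (nat_lit 0) (nat_lit 310899872) (nat_lit 532) (nat_lit 8878086618) (nat_lit 76) (nat_lit 7545152429) (nat_lit 147) (nat_lit 5) (nat_lit 154) (nat_lit 5) (nat_lit 148) (nat_lit 5) (nat_lit 363) (nat_lit 328) (nat_lit 209)) (XT.nd (nat_lit 78) (nat_lit 456) (nat_lit 0) (XT.lf (nat_lit 0) (nat_lit 2856160945) (nat_lit 532) (nat_lit 49073) (nat_lit 76) (nat_lit 14171957736) (nat_lit 147) (nat_lit 5) (nat_lit 154) (nat_lit 5) (nat_lit 148) (nat_lit 5) (nat_lit 364) (nat_lit 328) (nat_lit 208)) (XT.lf (nat_lit 0) (nat_lit 5591707740) (nat_lit 532) (nat_lit 8052697220) (nat_lit 76) (nat_lit 3683201797) (nat_lit 141) (nat_lit 5) (nat_lit 148) (nat_lit 5) (nat_lit 142) (nat_lit 5) (nat_lit 365) (nat_lit 328) (nat_lit 207))))) (XT.nd (nat_lit 234) (nat_lit 836)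 (nat_lit 0) (XT.nd (nat_lit 78) (nat_lit 380) (nat_lit 0) (XT.lf (nat_lit 0) (nat_lit 1172558273) (nat_lit 380) (nat_lit 7264803970) (nat_lit 456) (nat_lit 9197832380) (nat_lit 136) (nat_lit 5) (nat_lit 141) (nat_lit 5) (nat_lit 142) (nat_lit 5) (nat_lit 366) (nat_lit 328) (nat_lit 206)) (XT.nd (nat_lit 78) (nat_lit 380) (nat_lit 0) (XT.lf (nat_lit 0) (nat_lit 10825650134) (nat_lit 380) (nat_lit 612743571) (nat_lit 456) (nat_lit 6511522929) (nat_lit 136) (nat_lit 5) (nat_lit 141) (nat_lit 5) (nat_lit 142) (nat_lit 5) (nat_lit 367) (nat_lit 328) (nat_lit 205)) (XT.lf (nat_lit 0) (nat_lit 2468555960) (nat_lit 380) (nat_lit 12133596550) (nat_lit 456) (nat_lit 3669753438) (nat_lit 131) (nat_lit 5) (nat_lit 136) (nat_lit 5) (nat_lit 137) (nat_lit 5) (nat_lit 368) (nat_lit 328) (nat_lit 204)))) (XT.nd (nat_lit 156) (nat_lit 380) (nat_lit 0) (XT.nd (nat_lit 78) (nat_lit 456) (nat_lit 0) (XT.lf (nat_lit 0) (nat_lit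 12475255326) (nat_lit 380) (nat_lit 5452700625) (nat_lit 456) (nat_lit 673591377) (nat_lit 131) (nat_lit 5) (nat_lit 136) (nat_lit 5) (nat_lit 137) (nat_lit 5) (nat_lit 369) (nat_lit 328) (nat_lit 203)) (XT.lf (nat_lit 0) (nat_lit 2406368670) (nat_lit 456) (nat_lit 15073866971) (nat_lit 76) (nat_lit 1458922924) (nat_lit 125) (nat_lit 5) (nat_lit 131) (nat_lit 5) (nat_lit 126) (nat_lit 5) (nat_lit 370) (nat_lit 328) (nat_lit 202))) (XT.nd (nat_lit 78) (nat_lit 380) (nat_lit 0) (XT.lf (nat_lit 0) (nat_lit 5671191558) (nat_lit 456) (nat_lit 5077839220) (nat_lit 76) (nat_lit 8534493012) (nat_lit 125) (nat_lit 5) (nat_lit 131) (nat_lit 5) (nat_lit 126) (nat_lit 5) (nat_lit 371) (nat_lit 328) (nat_lit 201)) (XT.lf (nat_lit 0) (nat_lit 5308320020) (nat_lit 380) (nat_lit 3766509986) (nat_lit 456) (nat_lit 10562169475) (nat_lit 120) (nat_lit 5) (nat_lit 125) (nat_lit 5) (nat_lit 126) (nat_lit 5) (nat_lit 372) (nat_lit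 328) (nat_lit 200)))))) (XT.nd (nat_lit 468) (nat_lit 1216) (nat_lit 0) (XT.nd (nat_lit 234) (nat_lit 760) (nat_lit 0) (XT.nd (nat_lit 78) (nat_lit 304) (nat_lit 0) (XT.lf (nat_lit 0) (nat_lit 12655271415) (nat_lit 456) (nat_lit 3936299182) (nat_lit 76) (nat_lit 3407273504) (nat_lit 120) (nat_lit 5) (nat_lit 126) (nat_lit 5) (nat_lit 121) (nat_lit 5) (nat_lit 373) (nat_lit 328) (nat_lit 199)) (XT.nd (nat_lit 78) (nat_lit 0) (nat_lit 0) (XT.lf (nat_lit 0) (nat_lit 6851166573) (nat_lit 304) (nat_lit 9585383089) (nat_lit 380) (nat_lit 3932197003) (nat_lit 116) (nat_lit 5) (nat_lit 120) (nat_lit 5) (nat_lit 121) (nat_lit 5) (nat_lit 374) (nat_lit 328) (nat_lit 198)) (XT.lf (nat_lit 0) (nat_lit 18029990165) (nat_lit 304) (nat_lit 2331457552) (nat_lit 380) (nat_lit 387398301) (nat_lit 116) (nat_lit 5) (nat_lit 120) (nat_lit 5) (nat_lit 121) (nat_lit 5) (nat_lit 375) (nat_lit 328) (nat_lit 197)))) (XT.nd (nat_lit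 78) (nat_lit 304) (nat_lit 0) (XT.lf (nat_lit 0) (nat_lit 3323128200) (nat_lit 456) (nat_lit 12661673600) (nat_lit 76) (nat_lit 5150918085) (nat_lit 110) (nat_lit 5) (nat_lit 116) (nat_lit 5) (nat_lit 111) (nat_lit 5) (nat_lit 376) (nat_lit 328) (nat_lit 196)) (XT.nd (nat_lit 78) (nat_lit 304) (nat_lit 0) (XT.lf (nat_lit 0) (nat_lit 7178728219) (nat_lit 456) (nat_lit 1514992573) (nat_lit 76) (nat_lit 12839122504) (nat_lit 110) (nat_lit 5) (nat_lit 116) (nat_lit 5) (nat_lit 111) (nat_lit 5) (nat_lit 377) (nat_lit 328) (nat_lit 195)) (XT.lf (nat_lit 0) (nat_lit 10151665578) (nat_lit 304) (nat_lit 1086917942) (nat_lit 380) (nat_lit 10700643855) (nat_lit 106) (nat_lit 5) (nat_lit 110) (nat_lit 5) (nat_lit 111) (nat_lit 5) (nat_lit 378) (nat_lit 328) (nat_lit 194))))) (XT.nd (nat_lit 234) (nat_lit 532) (nat_lit 0) (XT.nd (nat_lit 78) (nat_lit 684) (nat_lit 0) (XT.lf (nat_lit 0) (nat_lit 15491663258) (nat_lit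 380) (nat_lit 235615059) (nat_lit 76) (nat_lit 6628386244) (nat_lit 106) (nat_lit 5) (nat_lit 111) (nat_lit 5) (nat_lit 107) (nat_lit 5) (nat_lit 379) (nat_lit 328) (nat_lit 193)) (XT.nd (nat_lit 78) (nat_lit 380) (nat_lit 0) (XT.lf (nat_lit 0) (nat_lit 11871520419) (nat_lit 304) (nat_lit 8117063813) (nat_lit 380) (nat_lit 2792527485) (nat_lit 102) (nat_lit 5) (nat_lit 106) (nat_lit 5) (nat_lit 107) (nat_lit 5) (nat_lit 380) (nat_lit 328) (nat_lit 192)) (XT.lf (nat_lit 0) (nat_lit 1123563131) (nat_lit 304) (nat_lit 254807620) (nat_lit 380) (nat_lit 21840412949) (nat_lit 97) (nat_lit 5) (nat_lit 101) (nat_lit 5) (nat_lit 102) (nat_lit 5) (nat_lit 381) (nat_lit 328) (nat_lit 191)))) (XT.nd (nat_lit 156) (nat_lit 228) (nat_lit 0) (XT.nd (nat_lit 78) (nat_lit 304) (nat_lit 0) (XT.lf (nat_lit 0) (nat_lit 5796433921) (nat_lit 380) (nat_lit 10041486560) (nat_lit 76) (nat_lit 7825494900) (nat_lit 97) (nat_lit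 5) (nat_lit 102) (nat_lit 5) (nat_lit 98) (nat_lit 5) (nat_lit 382) (nat_lit 328) (nat_lit 190)) (XT.lf (nat_lit 0) (nat_lit 2406233118) (nat_lit 304) (nat_lit 7958220103) (nat_lit 380) (nat_lit 13756414202) (nat_lit 93) (nat_lit 5) (nat_lit 97) (nat_lit 5) (nat_lit 98) (nat_lit 5) (nat_lit 383) (nat_lit 328) (nat_lit 189))) (XT.nd (nat_lit 78) (nat_lit 228) (nat_lit 0) (XT.lf (nat_lit 0) (nat_lit 15165283557) (nat_lit 380) (nat_lit 9170447462) (nat_lit 76) (nat_lit 253442620) (nat_lit 93) (nat_lit 5) (nat_lit 98) (nat_lit 5) (nat_lit 94) (nat_lit 5) (nat_lit 384) (nat_lit 328) (nat_lit 188)) (XT.lf (nat_lit 0) (nat_lit 3732305407) (nat_lit 228) (nat_lit 16484591865) (nat_lit 304) (nat_lit 4851432631) (nat_lit 90) (nat_lit 5) (nat_lit 93) (nat_lit 5) (nat_lit 94) (nat_lit 5) (nat_lit 385) (nat_lit 328) (nat_lit 187))))))) (XT.nd (nat_lit 1014) (nat_lit 1444) (nat_lit 0) (XT.nd (nat_lit 468) (nat_lit 836)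 (nat_lit 0) (XT.nd (nat_lit 234) (nat_lit 456) (nat_lit 0) (XT.nd (nat_lit 78) (nat_lit 380) (nat_lit 0) (XT.lf (nat_lit 0) (nat_lit 17198445652) (nat_lit 228) (nat_lit 8306422493) (nat_lit 304) (nat_lit 54451961) (nat_lit 90) (nat_lit 5) (nat_lit 93) (nat_lit 5) (nat_lit 94) (nat_lit 5) (nat_lit 386) (nat_lit 328) (nat_lit 186)) (XT.nd (nat_lit 78) (nat_lit 0) (nat_lit 0) (XT.lf (nat_lit 0) (nat_lit 4833954725) (nat_lit 380) (nat_lit 21020963330) (nat_lit 76) (nat_lit 207430071) (nat_lit 85) (nat_lit 5) (nat_lit 90) (nat_lit 5) (nat_lit 86) (nat_lit 5) (nat_lit 387) (nat_lit 328) (nat_lit 185)) (XT.lf (nat_lit 0) (nat_lit 10027855590) (nat_lit 380) (nat_lit 7656024590) (nat_lit 76) (nat_lit 8891775753) (nat_lit 85) (nat_lit 5) (nat_lit 90) (nat_lit 5) (nat_lit 86) (nat_lit 5) (nat_lit 388) (nat_lit 328) (nat_lit 184)))) (XT.nd (nat_lit 78) (nat_lit 228) (nat_lit 0) (XT.lf (nat_lit 0) (nat_lit 6219998880)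 (nat_lit 228) (nat_lit 9210015751) (nat_lit 304) (nat_lit 11672778230) (nat_lit 82) (nat_lit 5) (nat_lit 85) (nat_lit 5) (nat_lit 86) (nat_lit 5) (nat_lit 389) (nat_lit 328) (nat_lit 183)) (XT.nd (nat_lit 78) (nat_lit 228) (nat_lit 0) (XT.lf (nat_lit 0) (nat_lit 20658116217) (nat_lit 228) (nat_lit 406190869) (nat_lit 304) (nat_lit 6579337782) (nat_lit 82) (nat_lit 5) (nat_lit 85) (nat_lit 5) (nat_lit 86) (nat_lit 5) (nat_lit 390) (nat_lit 328) (nat_lit 182)) (XT.lf (nat_lit 0) (nat_lit 7378390239) (nat_lit 228) (nat_lit 19636358182) (nat_lit 304) (nat_lit 1181563351) (nat_lit 79) (nat_lit 5) (nat_lit 82) (nat_lit 5) (nat_lit 83) (nat_lit 5) (nat_lit 391) (nat_lit 328) (nat_lit 181))))) (XT.nd (nat_lit 234) (nat_lit 532) (nat_lit 0) (XT.nd (nat_lit 78) (nat_lit 228) (nat_lit 0) (XT.lf (nat_lit 0) (nat_lit 4360933232) (nat_lit 304) (nat_lit 6504841326) (nat_lit 76) (nat_lit 17896477667) (nat_lit 78) (nat_lit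 5) (nat_lit 82) (nat_lit 5) (nat_lit 79) (nat_lit 5) (nat_lit 392) (nat_lit 328) (nat_lit 180)) (XT.nd (nat_lit 78) (nat_lit 0) (nat_lit 0) (XT.lf (nat_lit 0) (nat_lit 8378736312) (nat_lit 228) (nat_lit 1740928709) (nat_lit 304) (nat_lit 19222946347) (nat_lit 75) (nat_lit 5) (nat_lit 78) (nat_lit 5) (nat_lit 79) (nat_lit 5) (nat_lit 393) (nat_lit 328) (nat_lit 179)) (XT.lf (nat_lit 0) (nat_lit 16184332580) (nat_lit 304) (nat_lit 6181265469) (nat_lit 76) (nat_lit 7570790634) (nat_lit 75) (nat_lit 5) (nat_lit 79) (nat_lit 5) (nat_lit 76) (nat_lit 5) (nat_lit 394) (nat_lit 328) (nat_lit 178)))) (XT.nd (nat_lit 156) (nat_lit 304) (nat_lit 0) (XT.nd (nat_lit 78) (nat_lit 0) (nat_lit 0) (XT.lf (nat_lit 0) (nat_lit 9196599191) (nat_lit 228) (nat_lit 13333405675) (nat_lit 304) (nat_lit 8015005049) (nat_lit 72) (nat_lit 5) (nat_lit 75) (nat_lit 5) (nat_lit 76) (nat_lit 5) (nat_lit 395) (nat_lit 328) (nat_lit 177))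 (XT.lf (nat_lit 0) (nat_lit 25152167007) (nat_lit 228) (nat_lit 3969815523) (nat_lit 304) (nat_lit 2048231661) (nat_lit 72) (nat_lit 5) (nat_lit 75) (nat_lit 5) (nat_lit 76) (nat_lit 5) (nat_lit 396) (nat_lit 328) (nat_lit 176))) (XT.nd (nat_lit 78) (nat_lit 0) (nat_lit 0) (XT.lf (nat_lit 0) (nat_lit 4162393697) (nat_lit 304) (nat_lit 21950003058) (nat_lit 76) (nat_lit 5696254320) (nat_lit 68) (nat_lit 5) (nat_lit 72) (nat_lit 5) (nat_lit 69) (nat_lit 5) (nat_lit 397) (nat_lit 328) (nat_lit 175)) (XT.lf (nat_lit 0) (nat_lit 10612540266) (nat_lit 304) (nat_lit 6199820577) (nat_lit 76) (nat_lit 15650442995) (nat_lit 68) (nat_lit 5) (nat_lit 72) (nat_lit 5) (nat_lit 69) (nat_lit 5) (nat_lit 398) (nat_lit 328) (nat_lit 174)))))) (XT.nd (nat_lit 546) (nat_lit 608) (nat_lit 0) (XT.nd (nat_lit 234) (nat_lit 456) (nat_lit 0) (XT.nd (nat_lit 78) (nat_lit 152) (nat_lit 0) (XT.lf (nat_lit 0) (nat_lit 10212217876)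 (nat_lit 228) (nat_lit 7136015760) (nat_lit 304) (nat_lit 15785588463) (nat_lit 65) (nat_lit 5) (nat_lit 68) (nat_lit 5) (nat_lit 69) (nat_lit 5) (nat_lit 399) (nat_lit 328) (nat_lit 173)) (XT.nd (nat_lit 78) (nat_lit 152) (nat_lit 0) (XT.lf (nat_lit 0) (nat_lit 24370357115) (nat_lit 304) (nat_lit 6617190739) (nat_lit 76) (nat_lit 2834894401) (nat_lit 65) (nat_lit 5) (nat_lit 69) (nat_lit 5) (nat_lit 66) (nat_lit 5) (nat_lit 400) (nat_lit 328) (nat_lit 172)) (XT.lf (nat_lit 0) (nat_lit 10296946382) (nat_lit 152) (nat_lit 21469932828) (nat_lit 228) (nat_lit 2759931820) (nat_lit 63) (nat_lit 5) (nat_lit 65) (nat_lit 5) (nat_lit 66) (nat_lit 5) (nat_lit 401) (nat_lit 328) (nat_lit 171)))) (XT.nd (nat_lit 156) (nat_lit 152) (nat_lit 0) (XT.nd (nat_lit 78) (nat_lit 228) (nat_lit 0) (XT.lf (nat_lit 0) (nat_lit 4113939687) (nat_lit 228) (nat_lit 7446252744) (nat_lit 76) (nat_lit 23689080429) (nat_lit 62) (nat_lit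 5) (nat_lit 65) (nat_lit 5) (nat_lit 63) (nat_lit 5) (nat_lit 402) (nat_lit 328) (nat_lit 170)) (XT.lf (nat_lit 0) (nat_lit 9999235717) (nat_lit 228) (nat_lit 1229730526) (nat_lit 304) (nat_lit 24760912083) (nat_lit 59) (nat_lit 5) (nat_lit 62) (nat_lit 5) (nat_lit 63) (nat_lit 5) (nat_lit 403) (nat_lit 328) (nat_lit 169))) (XT.nd (nat_lit 78) (nat_lit 152) (nat_lit 0) (XT.lf (nat_lit 0) (nat_lit 18718174467) (nat_lit 304) (nat_lit 8730391435) (nat_lit 76) (nat_lit 9299315961) (nat_lit 59) (nat_lit 5) (nat_lit 63) (nat_lit 5) (nat_lit 60) (nat_lit 5) (nat_lit 404) (nat_lit 328) (nat_lit 168)) (XT.lf (nat_lit 0) (nat_lit 9205938958) (nat_lit 152) (nat_lit 17321286664) (nat_lit 228) (nat_lit 10998546664) (nat_lit 57) (nat_lit 5) (nat_lit 59) (nat_lit 5) (nat_lit 60) (nat_lit 5) (nat_lit 405) (nat_lit 328) (nat_lit 167))))) (XT.nd (nat_lit 234) (nat_lit 380) (nat_lit 0) (XT.nd (nat_lit 78) (nat_lit 228) (nat_lit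 0) (XT.lf (nat_lit 0) (nat_lit 27850220070) (nat_lit 152) (nat_lit 6803058836) (nat_lit 228) (nat_lit 3671240324) (nat_lit 57) (nat_lit 5) (nat_lit 59) (nat_lit 5) (nat_lit 60) (nat_lit 5) (nat_lit 406) (nat_lit 328) (nat_lit 166)) (XT.nd (nat_lit 78) (nat_lit 0) (nat_lit 0) (XT.lf (nat_lit 0) (nat_lit 3911833283) (nat_lit 228) (nat_lit 31166968273) (nat_lit 76) (nat_lit 4063963518) (nat_lit 54) (nat_lit 5) (nat_lit 57) (nat_lit 5) (nat_lit 55) (nat_lit 5) (nat_lit 407) (nat_lit 328) (nat_lit 165)) (XT.lf (nat_lit 0) (nat_lit 11817495296) (nat_lit 228) (nat_lit 12902012844) (nat_lit 76) (nat_lit 15259894732) (nat_lit 54) (nat_lit 5) (nat_lit 57) (nat_lit 5) (nat_lit 55) (nat_lit 5) (nat_lit 408) (nat_lit 328) (nat_lit 164)))) (XT.nd (nat_lit 156) (nat_lit 228) (nat_lit 0) (XT.nd (nat_lit 78) (nat_lit 0) (nat_lit 0) (XT.lf (nat_lit 0) (nat_lit 6019634647) (nat_lit 152) (nat_lit 13993421364) (nat_lit 228)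 (nat_lit 20826503462) (nat_lit 52) (nat_lit 5) (nat_lit 54) (nat_lit 5) (nat_lit 55) (nat_lit 5) (nat_lit 409) (nat_lit 328) (nat_lit 163)) (XT.lf (nat_lit 0) (nat_lit 25764774325) (nat_lit 152) (nat_lit 2814925251) (nat_lit 228) (nat_lit 13142066205) (nat_lit 52) (nat_lit 5) (nat_lit 54) (nat_lit 5) (nat_lit 55) (nat_lit 5) (nat_lit 410) (nat_lit 328) (nat_lit 162))) (XT.nd (nat_lit 78) (nat_lit 76) (nat_lit 0) (XT.lf (nat_lit 0) (nat_lit 3446973259) (nat_lit 152) (nat_lit 34068168352) (nat_lit 228) (nat_lit 5111944142) (nat_lit 50) (nat_lit 5) (nat_lit 52) (nat_lit 5) (nat_lit 53) (nat_lit 5) (nat_lit 411) (nat_lit 328) (nat_lit 161)) (XT.lf (nat_lit 0) (nat_lit 3283095732) (nat_lit 228) (nat_lit 19862921143) (nat_lit 76) (nat_lit 20407069024) (nat_lit 49) (nat_lit 5) (nat_lit 52) (nat_lit 5) (nat_lit 50) (nat_lit 5) (nat_lit 412) (nat_lit 328) (nat_lit 160))))))))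
noncomputable def xc175 : XT := (XT.nd (nat_lit 40404) (nat_lit 0) (nat_lit 11096) (XT.nd (nat_lit 1014) (nat_lit 608) (nat_lit 0) (XT.nd (nat_lit 468) (nat_lit 456) (nat_lit 0) (XT.nd (nat_lit 234) (nat_lit 380) (nat_lit 0) (XT.nd (nat_lit 78) (nat_lit 152) (nat_lit 0) (XT.lf (nat_lit 0) (nat_lit 11822444649) (nat_lit 228) (nat_lit 25095794) (nat_lit 76) (nat_lit 32657952446) (nat_lit 49) (nat_lit 5) (nat_lit 52) (nat_lit 5) (nat_lit 50) (nat_lit 5) (nat_lit 413) (nat_lit 328) (nat_lit 159)) (XT.nd (nat_lit 78) (nat_lit 0) (nat_lit 0) (XT.lf (nat_lit 0) (nat_lit 20805833458) (nat_lit 152) (nat_lit 7481558) (nat_lit 228) (nat_lit 24667298129) (nat_lit 47) (nat_lit 5) (nat_lit 49) (nat_lit 5) (nat_lit 50) (nat_lit 5) (nat_lit 414) (nat_lit 328) (nat_lit 158)) (XT.lf (nat_lit 0) (nat_lit 30186693430) (nat_lit 228) (nat_lit 4347989164) (nat_lit 76) (nat_lit 11946922205) (nat_lit 47) (nat_lit 5) (nat_lit 50)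 (nat_lit 5) (nat_lit 48) (nat_lit 5) (nat_lit 415) (nat_lit 328) (nat_lit 157)))) (XT.nd (nat_lit 78) (nat_lit 228) (nat_lit 0) (XT.lf (nat_lit 0) (nat_lit 16910698384) (nat_lit 152) (nat_lit 23088709347) (nat_lit 228) (nat_lit 7508475647) (nat_lit 45) (nat_lit 5) (nat_lit 47) (nat_lit 5) (nat_lit 48) (nat_lit 5) (nat_lit 416) (nat_lit 328) (nat_lit 156)) (XT.nd (nat_lit 78) (nat_lit 152) (nat_lit 0) (XT.lf (nat_lit 0) (nat_lit 1551328642) (nat_lit 228) (nat_lit 9690445080) (nat_lit 76) (nat_lit 37321537482) (nat_lit 44) (nat_lit 5) (nat_lit 47) (nat_lit 5) (nat_lit 45) (nat_lit 5) (nat_lit 417) (nat_lit 328) (nat_lit 155)) (XT.lf (nat_lit 0) (nat_lit 10854049958) (nat_lit 228) (nat_lit 37660297283) (nat_lit 76) (nat_lit 1130164417) (nat_lit 42) (nat_lit 5) (nat_lit 45) (nat_lit 5) (nat_lit 43) (nat_lit 5) (nat_lit 418) (nat_lit 328) (nat_lit 154))))) (XT.nd (nat_lit 234) (nat_lit 304) (nat_lit 0) (XT.nd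 (nat_lit 78) (nat_lit 152) (nat_lit 0) (XT.lf (nat_lit 0) (nat_lit 20641650751) (nat_lit 228) (nat_lit 16367358950) (nat_lit 76) (nat_lit 13742965567) (nat_lit 42) (nat_lit 5) (nat_lit 45) (nat_lit 5) (nat_lit 43) (nat_lit 5) (nat_lit 419) (nat_lit 328) (nat_lit 153)) (XT.nd (nat_lit 78) (nat_lit 0) (nat_lit 0) (XT.lf (nat_lit 0) (nat_lit 5667553022) (nat_lit 152) (nat_lit 25105602451) (nat_lit 228) (nat_lit 21118000081) (nat_lit 40) (nat_lit 5) (nat_lit 42) (nat_lit 5) (nat_lit 43) (nat_lit 5) (nat_lit 420) (nat_lit 328) (nat_lit 152)) (XT.lf (nat_lit 0) (nat_lit 28691690917) (nat_lit 152) (nat_lit 12678040500) (nat_lit 228) (nat_lit 11689947064) (nat_lit 40) (nat_lit 5) (nat_lit 42) (nat_lit 5) (nat_lit 43) (nat_lit 5) (nat_lit 421) (nat_lit 328) (nat_lit 151)))) (XT.nd (nat_lit 156) (nat_lit 152) (nat_lit 0) (XT.nd (nat_lit 78) (nat_lit 152) (nat_lit 0) (XT.lf (nat_lit 0) (nat_lit 52281319794) (nat_lit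 228) (nat_lit 1865095011) (nat_lit 76) (nat_lit 116929822) (nat_lit 40) (nat_lit 5) (nat_lit 43) (nat_lit 5) (nat_lit 41) (nat_lit 4) (nat_lit 422) (nat_lit 328) (nat_lit 150)) (XT.lf (nat_lit 0) (nat_lit 8193183713) (nat_lit 152) (nat_lit 33971684941) (nat_lit 76) (nat_lit 13325966309) (nat_lit 38) (nat_lit 5) (nat_lit 40) (nat_lit 5) (nat_lit 39) (nat_lit 5) (nat_lit 423) (nat_lit 328) (nat_lit 149))) (XT.nd (nat_lit 78) (nat_lit 152) (nat_lit 0) (XT.lf (nat_lit 0) (nat_lit 18648898094) (nat_lit 152) (nat_lit 11138255609) (nat_lit 76) (nat_lit 26966955896) (nat_lit 38) (nat_lit 5) (nat_lit 40) (nat_lit 5) (nat_lit 39) (nat_lit 5) (nat_lit 424) (nat_lit 328) (nat_lit 148)) (XT.lf (nat_lit 0) (nat_lit 12619620006) (nat_lit 152) (nat_lit 16916152029) (nat_lit 228) (nat_lit 28515986673) (nat_lit 36) (nat_lit 5) (nat_lit 38) (nat_lit 5) (nat_lit 39) (nat_lit 5) (nat_lit 425) (nat_lit 328) (nat_lit 147))))))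 (XT.nd (nat_lit 468) (nat_lit 304) (nat_lit 0) (XT.nd (nat_lit 234) (nat_lit 152) (nat_lit 0) (XT.nd (nat_lit 78) (nat_lit 152) (nat_lit 0) (XT.lf (nat_lit 0) (nat_lit 37311811149) (nat_lit 152) (nat_lit 3546142624) (nat_lit 228) (nat_lit 18527123320) (nat_lit 36) (nat_lit 5) (nat_lit 38) (nat_lit 5) (nat_lit 39) (nat_lit 5) (nat_lit 426) (nat_lit 328) (nat_lit 146)) (XT.nd (nat_lit 78) (nat_lit 76) (nat_lit 0) (XT.lf (nat_lit 0) (nat_lit 1918898354) (nat_lit 76) (nat_lit 50713946073) (nat_lit 152) (nat_lit 8122160123) (nat_lit 35) (nat_lit 5) (nat_lit 36) (nat_lit 5) (nat_lit 37) (nat_lit 4) (nat_lit 427) (nat_lit 328) (nat_lit 145)) (XT.lf (nat_lit 0) (nat_lit 2800845734) (nat_lit 152) (nat_lit 35144936222) (nat_lit 76) (nat_lit 24211804406) (nat_lit 34) (nat_lit 5) (nat_lit 36) (nat_lit 5) (nat_lit 35) (nat_lit 5) (nat_lit 428) (nat_lit 328) (nat_lit 144)))) (XT.nd (nat_lit 78) (nat_lit 152) (nat_lit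 0) (XT.lf (nat_lit 0) (nat_lit 13884718370) (nat_lit 152) (nat_lit 10829894884) (nat_lit 76) (nat_lit 38885327886) (nat_lit 34) (nat_lit 5) (nat_lit 36) (nat_lit 5) (nat_lit 35) (nat_lit 5) (nat_lit 429) (nat_lit 328) (nat_lit 143)) (XT.nd (nat_lit 78) (nat_lit 0) (nat_lit 0) (XT.lf (nat_lit 0) (nat_lit 14491112947) (nat_lit 152) (nat_lit 10945819815) (nat_lit 228) (nat_lit 39644559768) (nat_lit 32) (nat_lit 5) (nat_lit 34) (nat_lit 5) (nat_lit 35) (nat_lit 5) (nat_lit 430) (nat_lit 328) (nat_lit 142)) (XT.lf (nat_lit 0) (nat_lit 37473806929) (nat_lit 228) (nat_lit 25848920166) (nat_lit 76) (nat_lit 3280621276) (nat_lit 32) (nat_lit 5) (nat_lit 35) (nat_lit 5) (nat_lit 33) (nat_lit 4) (nat_lit 431) (nat_lit 328) (nat_lit 141))))) (XT.nd (nat_lit 234) (nat_lit 152) (nat_lit 0) (XT.nd (nat_lit 78) (nat_lit 152) (nat_lit 0) (XT.lf (nat_lit 0) (nat_lit 49976805550) (nat_lit 228) (nat_lit 479682895) (nat_lit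 76) (nat_lit 17711221587) (nat_lit 32) (nat_lit 5) (nat_lit 35) (nat_lit 5) (nat_lit 33) (nat_lit 4) (nat_lit 432) (nat_lit 328) (nat_lit 140)) (XT.nd (nat_lit 78) (nat_lit 76) (nat_lit 0) (XT.lf (nat_lit 0) (nat_lit 26155097601) (nat_lit 76) (nat_lit 36947956857) (nat_lit 152) (nat_lit 6668503947) (nat_lit 31) (nat_lit 5) (nat_lit 32) (nat_lit 5) (nat_lit 33) (nat_lit 4) (nat_lit 433) (nat_lit 328) (nat_lit 139)) (XT.lf (nat_lit 0) (nat_lit 5099745735) (nat_lit 152) (nat_lit 17880573197) (nat_lit 76) (nat_lit 48441655302) (nat_lit 30) (nat_lit 5) (nat_lit 32) (nat_lit 5) (nat_lit 31) (nat_lit 5) (nat_lit 434) (nat_lit 328) (nat_lit 138)))) (XT.nd (nat_lit 156) (nat_lit 0) (nat_lit 0) (XT.nd (nat_lit 78) (nat_lit 0) (nat_lit 0) (XT.lf (nat_lit 0) (nat_lit 8725890841) (nat_lit 152) (nat_lit 8441842695) (nat_lit 228) (nat_lit 55949767243) (nat_lit 28) (nat_lit 5) (nat_lit 30) (nat_lit 5) (nat_lit 31) (nat_lit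 5) (nat_lit 435) (nat_lit 328) (nat_lit 137)) (XT.lf (nat_lit 0) (nat_lit 29839759444) (nat_lit 228) (nat_lit 38431740286) (nat_lit 76) (nat_lit 6585134033) (nat_lit 28) (nat_lit 5) (nat_lit 31) (nat_lit 5) (nat_lit 29) (nat_lit 4) (nat_lit 436) (nat_lit 328) (nat_lit 136))) (XT.nd (nat_lit 38454) (nat_lit 0) (nat_lit 16188) (XT.lf (nat_lit 0) (nat_lit 42972475215) (nat_lit 228) (nat_lit 11782251401) (nat_lit 76) (nat_lit 21890798827) (nat_lit 28) (nat_lit 5) (nat_lit 31) (nat_lit 5) (nat_lit 29) (nat_lit 4) (nat_lit 437) (nat_lit 328) (nat_lit 135)) (XT.lf (nat_lit 0) (nat_lit 1727216886) (nat_lit 1140) (nat_lit 1657646513) (nat_lit 1140) (nat_lit 1657646513) (nat_lit 241) (nat_lit 3) (nat_lit 256) (nat_lit 3) (nat_lit 256) (nat_lit 5) (nat_lit 329) (nat_lit 329) (nat_lit 242))))))) (XT.nd (nat_lit 1014) (nat_lit 4256) (nat_lit 0) (XT.nd (nat_lit 468) (nat_lit 836) (nat_lit 0) (XT.nd (nat_lit 234) (nat_lit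 0) (nat_lit 76) (XT.nd (nat_lit 78) (nat_lit 0) (nat_lit 76) (XT.lf (nat_lit 76) (nat_lit 1457114357) (nat_lit 0) (nat_lit 2732700606) (nat_lit 1140) (nat_lit 6025427108) (nat_lit 242) (nat_lit 5) (nat_lit 241) (nat_lit 3) (nat_lit 256) (nat_lit 5) (nat_lit 330) (nat_lit 329) (nat_lit 241)) (XT.nd (nat_lit 78) (nat_lit 0) (nat_lit 0) (XT.lf (nat_lit 0) (nat_lit 4968626579) (nat_lit 1064) (nat_lit 3936411828) (nat_lit 1140) (nat_lit 1443712820) (nat_lit 242) (nat_lit 5) (nat_lit 256) (nat_lit 5) (nat_lit 257) (nat_lit 5) (nat_lit 331) (nat_lit 329) (nat_lit 240)) (XT.lf (nat_lit 76) (nat_lit 1008336762) (nat_lit 0) (nat_lit 4773833806) (nat_lit 1140) (nat_lit 4703774743) (nat_lit 243) (nat_lit 5) (nat_lit 242) (nat_lit 5) (nat_lit 257) (nat_lit 5) (nat_lit 332) (nat_lit 329) (nat_lit 239)))) (XT.nd (nat_lit 78) (nat_lit 0) (nat_lit 76) (XT.lf (nat_lit 76) (nat_lit 6168021375) (nat_lit 0) (nat_lit 467072105)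 (nat_lit 1140) (nat_lit 3991732647) (nat_lit 243) (nat_lit 5) (nat_lit 242) (nat_lit 5) (nat_lit 257) (nat_lit 5) (nat_lit 333) (nat_lit 329) (nat_lit 238)) (XT.nd (nat_lit 78) (nat_lit 0) (nat_lit 0) (XT.lf (nat_lit 76) (nat_lit 670975685) (nat_lit 0) (nat_lit 6863273539) (nat_lit 1140) (nat_lit 3237084294) (nat_lit 244) (nat_lit 5) (nat_lit 243) (nat_lit 5) (nat_lit 258) (nat_lit 5) (nat_lit 334) (nat_lit 329) (nat_lit 237)) (XT.lf (nat_lit 76) (nat_lit 6026947391) (nat_lit 0) (nat_lit 2459639923) (nat_lit 1140) (nat_lit 2432821524) (nat_lit 244) (nat_lit 5) (nat_lit 243) (nat_lit 5) (nat_lit 258) (nat_lit 5) (nat_lit 335) (nat_lit 329) (nat_lit 236))))) (XT.nd (nat_lit 234) (nat_lit 0) (nat_lit 0) (XT.nd (nat_lit 78) (nat_lit 1064) (nat_lit 0) (XT.lf (nat_lit 76) (nat_lit 445659834) (nat_lit 0) (nat_lit 9023445328) (nat_lit 1140) (nat_lit 1602791351) (nat_lit 245) (nat_lit 5) (nat_lit 244) (nat_lit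 5) (nat_lit 259) (nat_lit 5) (nat_lit 336) (nat_lit 329) (nat_lit 235)) (XT.nd (nat_lit 78) (nat_lit 1064) (nat_lit 0) (XT.lf (nat_lit 76) (nat_lit 6004770847) (nat_lit 0) (nat_lit 4527733721) (nat_lit 1140) (nat_lit 694929919) (nat_lit 245) (nat_lit 5) (nat_lit 244) (nat_lit 5) (nat_lit 259) (nat_lit 5) (nat_lit 337) (nat_lit 329) (nat_lit 234)) (XT.lf (nat_lit 0) (nat_lit 218090901) (nat_lit 1140) (nat_lit 11056684996) (nat_lit 1216) (nat_lit 113331968) (nat_lit 230) (nat_lit 5) (nat_lit 245) (nat_lit 5) (nat_lit 246) (nat_lit 5) (nat_lit 338) (nat_lit 329) (nat_lit 233)))) (XT.nd (nat_lit 156) (nat_lit 0) (nat_lit 76) (XT.nd (nat_lit 78) (nat_lit 0) (nat_lit 0) (XT.lf (nat_lit 0) (nat_lit 1221484257) (nat_lit 1140) (nat_lit 5460263403) (nat_lit 1216) (nat_lit 4869355224) (nat_lit 230) (nat_lit 5) (nat_lit 245) (nat_lit 5) (nat_lit 246) (nat_lit 5) (nat_lit 339) (nat_lit 329) (nat_lit 232)) (XT.lf (nat_lit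 76) (nat_lit 295047228) (nat_lit 0) (nat_lit 1942243545) (nat_lit 1216) (nat_lit 9482243500) (nat_lit 231) (nat_lit 5) (nat_lit 230) (nat_lit 5) (nat_lit 246) (nat_lit 5) (nat_lit 340) (nat_lit 329) (nat_lit 231))) (XT.nd (nat_lit 78) (nat_lit 0) (nat_lit 0) (XT.lf (nat_lit 0) (nat_lit 3347496003) (nat_lit 1140) (nat_lit 5600505058) (nat_lit 1216) (nat_lit 2943115202) (nat_lit 231) (nat_lit 5) (nat_lit 246) (nat_lit 5) (nat_lit 247) (nat_lit 5) (nat_lit 341) (nat_lit 329) (nat_lit 230)) (XT.lf (nat_lit 76) (nat_lit 371372141) (nat_lit 0) (nat_lit 4123003097) (nat_lit 1216) (nat_lit 7573384390) (nat_lit 232) (nat_lit 5) (nat_lit 231) (nat_lit 5) (nat_lit 247) (nat_lit 5) (nat_lit 342) (nat_lit 329) (nat_lit 229)))))) (XT.nd (nat_lit 546) (nat_lit 2280) (nat_lit 0) (XT.nd (nat_lit 234) (nat_lit 2128) (nat_lit 0) (XT.nd (nat_lit 78) (nat_lit 0) (nat_lit 0) (XT.lf (nat_lit 0) (nat_lit 5721948372) (nat_lit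 1140) (nat_lit 5634816129) (nat_lit 1216) (nat_lit 891563680) (nat_lit 232) (nat_lit 5) (nat_lit 247) (nat_lit 5) (nat_lit 248) (nat_lit 5) (nat_lit 343) (nat_lit 329) (nat_lit 228)) (XT.nd (nat_lit 78) (nat_lit 0) (nat_lit 0) (XT.lf (nat_lit 76) (nat_lit 563909108) (nat_lit 0) (nat_lit 6450268481) (nat_lit 1216) (nat_lit 5419315426) (nat_lit 233) (nat_lit 5) (nat_lit 232) (nat_lit 5) (nat_lit 248) (nat_lit 5) (nat_lit 344) (nat_lit 329) (nat_lit 227)) (XT.lf (nat_lit 76) (nat_lit 7049374798) (nat_lit 0) (nat_lit 1334680644) (nat_lit 1216) (nat_lit 4239004577) (nat_lit 233) (nat_lit 5) (nat_lit 232) (nat_lit 5) (nat_lit 248) (nat_lit 5) (nat_lit 345) (nat_lit 329) (nat_lit 226)))) (XT.nd (nat_lit 156) (nat_lit 1064) (nat_lit 0) (XT.nd (nat_lit 78) (nat_lit 0) (nat_lit 0) (XT.lf (nat_lit 0) (nat_lit 875485383) (nat_lit 1140) (nat_lit 8948316251) (nat_lit 1216) (nat_lit 2993662522) (nat_lit 218) (nat_lit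 5) (nat_lit 233) (nat_lit 5) (nat_lit 234) (nat_lit 5) (nat_lit 346) (nat_lit 329) (nat_lit 225)) (XT.lf (nat_lit 0) (nat_lit 7604185014) (nat_lit 1140) (nat_lit 3754827388) (nat_lit 1216) (nat_lit 1657132745) (nat_lit 218) (nat_lit 5) (nat_lit 233) (nat_lit 5) (nat_lit 234) (nat_lit 5) (nat_lit 347) (nat_lit 329) (nat_lit 224))) (XT.nd (nat_lit 78) (nat_lit 76) (nat_lit 0) (XT.lf (nat_lit 0) (nat_lit 1309355026) (nat_lit 988) (nat_lit 11642261657) (nat_lit 1064) (nat_lit 268842288) (nat_lit 205) (nat_lit 5) (nat_lit 218) (nat_lit 5) (nat_lit 219) (nat_lit 5) (nat_lit 348) (nat_lit 329) (nat_lit 223)) (XT.lf (nat_lit 0) (nat_lit 1214400383) (nat_lit 1064) (nat_lit 5149912217) (nat_lit 76) (nat_lit 7063987755) (nat_lit 204) (nat_lit 5) (nat_lit 218) (nat_lit 5) (nat_lit 205) (nat_lit 5) (nat_lit 349) (nat_lit 329) (nat_lit 222))))) (XT.nd (nat_lit 234) (nat_lit 1140) (nat_lit 0) (XT.nd (nat_lit 78) (nat_lit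 532) (nat_lit 0) (XT.lf (nat_lit 0) (nat_lit 1832631934) (nat_lit 608) (nat_lit 905792089) (nat_lit 684) (nat_lit 10903833944) (nat_lit 196) (nat_lit 5) (nat_lit 204) (nat_lit 5) (nat_lit 205) (nat_lit 5) (nat_lit 350) (nat_lit 329) (nat_lit 221)) (XT.nd (nat_lit 78) (nat_lit 532) (nat_lit 0) (XT.lf (nat_lit 0) (nat_lit 4390432131) (nat_lit 684) (nat_lit 4791636490) (nat_lit 76) (nat_lit 4678108898) (nat_lit 196) (nat_lit 5) (nat_lit 205) (nat_lit 5) (nat_lit 197) (nat_lit 5) (nat_lit 351) (nat_lit 329) (nat_lit 220)) (XT.lf (nat_lit 0) (nat_lit 2461461092) (nat_lit 532) (nat_lit 3648029979) (nat_lit 608) (nat_lit 7974629668) (nat_lit 189) (nat_lit 5) (nat_lit 196) (nat_lit 5) (nat_lit 197) (nat_lit 5) (nat_lit 352) (nat_lit 329) (nat_lit 219)))) (XT.nd (nat_lit 156) (nat_lit 532) (nat_lit 0) (XT.nd (nat_lit 78) (nat_lit 608) (nat_lit 0) (XT.lf (nat_lit 0) (nat_lit 7933881231) (nat_lit 608) (nat_lit 4317973122)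 (nat_lit 76) (nat_lit 2061325605) (nat_lit 189) (nat_lit 5) (nat_lit 197) (nat_lit 5) (nat_lit 190) (nat_lit 5) (nat_lit 353) (nat_lit 329) (nat_lit 218)) (XT.lf (nat_lit 0) (nat_lit 3218150596) (nat_lit 608) (nat_lit 6647507293) (nat_lit 684) (nat_lit 4681883598) (nat_lit 181) (nat_lit 5) (nat_lit 189) (nat_lit 5) (nat_lit 190) (nat_lit 5) (nat_lit 354) (nat_lit 329) (nat_lit 217))) (XT.nd (nat_lit 78) (nat_lit 532) (nat_lit 0) (XT.lf (nat_lit 0) (nat_lit 11054631238) (nat_lit 608) (nat_lit 830243027) (nat_lit 684) (nat_lit 2903184888) (nat_lit 181) (nat_lit 5) (nat_lit 189) (nat_lit 5) (nat_lit 190) (nat_lit 5) (nat_lit 355) (nat_lit 329) (nat_lit 216)) (XT.lf (nat_lit 0) (nat_lit 4106688544) (nat_lit 532) (nat_lit 9933363820) (nat_lit 608) (nat_lit 993488023) (nat_lit 174) (nat_lit 5) (nat_lit 181) (nat_lit 5) (nat_lit 182) (nat_lit 5) (nat_lit 356) (nat_lit 329) (nat_lit 215))))))))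
noncomputable def xc176 : XT := (XT.nd (nat_lit 2028) (nat_lit 3268) (nat_lit 0) (XT.nd (nat_lit 1014) (nat_lit 2584) (nat_lit 0) (XT.nd (nat_lit 468) (nat_lit 1748) (nat_lit 0) (XT.nd (nat_lit 234) (nat_lit 912) (nat_lit 0) (XT.nd (nat_lit 78) (nat_lit 532) (nat_lit 0) (XT.lf (nat_lit 0) (nat_lit 987211811) (nat_lit 608) (nat_lit 3059051882) (nat_lit 76) (nat_lit 11238869417) (nat_lit 173) (nat_lit 5) (nat_lit 181) (nat_lit 5) (nat_lit 174) (nat_lit 5) (nat_lit 357) (nat_lit 329) (nat_lit 214)) (XT.nd (nat_lit 78) (nat_lit 0) (nat_lit 0) (XT.lf (nat_lit 0) (nat_lit 3063370498) (nat_lit 608) (nat_lit 10441970169) (nat_lit 76) (nat_lit 2036966454) (nat_lit 166) (nat_lit 5) (nat_lit 174) (nat_lit 5) (nat_lit 167) (nat_lit 5) (nat_lit 358) (nat_lit 329) (nat_lit 213)) (XT.lf (nat_lit 0) (nat_lit 5260125326) (nat_lit 608) (nat_lit 2293640237) (nat_lit 76) (nat_lit 8251689971) (nat_lit 166) (nat_lit 5) (nat_lit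 174) (nat_lit 5) (nat_lit 167) (nat_lit 5) (nat_lit 359) (nat_lit 329) (nat_lit 212)))) (XT.nd (nat_lit 78) (nat_lit 456) (nat_lit 0) (XT.lf (nat_lit 0) (nat_lit 6206446066) (nat_lit 456) (nat_lit 1363427076) (nat_lit 532) (nat_lit 8505220825) (nat_lit 160) (nat_lit 5) (nat_lit 166) (nat_lit 5) (nat_lit 167) (nat_lit 5) (nat_lit 360) (nat_lit 329) (nat_lit 211)) (XT.nd (nat_lit 78) (nat_lit 456) (nat_lit 0) (XT.lf (nat_lit 0) (nat_lit 10008140461) (nat_lit 532) (nat_lit 1406021670) (nat_lit 76) (nat_lit 4936890645) (nat_lit 160) (nat_lit 5) (nat_lit 167) (nat_lit 5) (nat_lit 161) (nat_lit 5) (nat_lit 361) (nat_lit 329) (nat_lit 210)) (XT.lf (nat_lit 0) (nat_lit 7428312359) (nat_lit 456) (nat_lit 5164159943) (nat_lit 532) (nat_lit 4040638354) (nat_lit 154) (nat_lit 5) (nat_lit 160) (nat_lit 5) (nat_lit 161) (nat_lit 5) (nat_lit 362) (nat_lit 329) (nat_lit 209))))) (XT.nd (nat_lit 234) (nat_lit 760) (nat_lit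 0) (XT.nd (nat_lit 78) (nat_lit 988) (nat_lit 0) (XT.lf (nat_lit 0) (nat_lit 15269127552) (nat_lit 532) (nat_lit 392921919) (nat_lit 76) (nat_lit 1261144572) (nat_lit 154) (nat_lit 5) (nat_lit 161) (nat_lit 5) (nat_lit 155) (nat_lit 5) (nat_lit 363) (nat_lit 329) (nat_lit 208)) (XT.nd (nat_lit 78) (nat_lit 456) (nat_lit 0) (XT.lf (nat_lit 0) (nat_lit 913819700) (nat_lit 532) (nat_lit 8436942663) (nat_lit 76) (nat_lit 7867230579) (nat_lit 147) (nat_lit 5) (nat_lit 154) (nat_lit 5) (nat_lit 148) (nat_lit 5) (nat_lit 364) (nat_lit 329) (nat_lit 207)) (XT.lf (nat_lit 0) (nat_lit 700498858) (nat_lit 456) (nat_lit 2824384258) (nat_lit 532) (nat_lit 13996286745) (nat_lit 141) (nat_lit 5) (nat_lit 147) (nat_lit 5) (nat_lit 148) (nat_lit 5) (nat_lit 365) (nat_lit 329) (nat_lit 206)))) (XT.nd (nat_lit 156) (nat_lit 380) (nat_lit 0) (XT.nd (nat_lit 78) (nat_lit 380) (nat_lit 0) (XT.lf (nat_lit 0) (nat_lit 6326611828)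 (nat_lit 532) (nat_lit 7597905566) (nat_lit 76) (nat_lit 3905561421) (nat_lit 141) (nat_lit 5) (nat_lit 148) (nat_lit 5) (nat_lit 142) (nat_lit 5) (nat_lit 366) (nat_lit 329) (nat_lit 205)) (XT.lf (nat_lit 0) (nat_lit 1897280410) (nat_lit 380) (nat_lit 7350464873) (nat_lit 456) (nat_lit 8899455703) (nat_lit 136) (nat_lit 5) (nat_lit 141) (nat_lit 5) (nat_lit 142) (nat_lit 5) (nat_lit 367) (nat_lit 329) (nat_lit 204))) (XT.nd (nat_lit 78) (nat_lit 380) (nat_lit 0) (XT.lf (nat_lit 0) (nat_lit 11819881181) (nat_lit 380) (nat_lit 502695572) (nat_lit 456) (nat_lit 6149284492) (nat_lit 136) (nat_lit 5) (nat_lit 141) (nat_lit 5) (nat_lit 142) (nat_lit 5) (nat_lit 368) (nat_lit 329) (nat_lit 203)) (XT.lf (nat_lit 0) (nat_lit 3220678991) (nat_lit 380) (nat_lit 12352527720) (nat_lit 456) (nat_lit 3230554152) (nat_lit 131) (nat_lit 5) (nat_lit 136) (nat_lit 5) (nat_lit 137) (nat_lit 5) (nat_lit 369) (nat_lit 329)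 (nat_lit 202)))))) (XT.nd (nat_lit 468) (nat_lit 1444) (nat_lit 0) (XT.nd (nat_lit 234) (nat_lit 684) (nat_lit 0) (XT.nd (nat_lit 78) (nat_lit 456) (nat_lit 0) (XT.lf (nat_lit 0) (nat_lit 13507829833) (nat_lit 380) (nat_lit 5475430454) (nat_lit 456) (nat_lit 160506022) (nat_lit 131) (nat_lit 5) (nat_lit 136) (nat_lit 5) (nat_lit 137) (nat_lit 5) (nat_lit 370) (nat_lit 329) (nat_lit 201)) (XT.nd (nat_lit 78) (nat_lit 0) (nat_lit 0) (XT.lf (nat_lit 0) (nat_lit 2994011449) (nat_lit 456) (nat_lit 14849344075) (nat_lit 76) (nat_lit 1648228195) (nat_lit 125) (nat_lit 5) (nat_lit 131) (nat_lit 5) (nat_lit 126) (nat_lit 5) (nat_lit 371) (nat_lit 329) (nat_lit 200)) (XT.lf (nat_lit 0) (nat_lit 6341765867) (nat_lit 456) (nat_lit 4573146334) (nat_lit 76) (nat_lit 8931826428) (nat_lit 125) (nat_lit 5) (nat_lit 131) (nat_lit 5) (nat_lit 126) (nat_lit 5) (nat_lit 372) (nat_lit 329) (nat_lit 199)))) (XT.nd (nat_lit 78)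 (nat_lit 304) (nat_lit 0) (XT.lf (nat_lit 0) (nat_lit 6118156232) (nat_lit 380) (nat_lit 3721035193) (nat_lit 456) (nat_lit 10371884916) (nat_lit 120) (nat_lit 5) (nat_lit 125) (nat_lit 5) (nat_lit 126) (nat_lit 5) (nat_lit 373) (nat_lit 329) (nat_lit 198)) (XT.nd (nat_lit 78) (nat_lit 304) (nat_lit 0) (XT.lf (nat_lit 0) (nat_lit 13514191528) (nat_lit 456) (nat_lit 3409634347) (nat_lit 76) (nat_lit 3660343914) (nat_lit 120) (nat_lit 5) (nat_lit 126) (nat_lit 5) (nat_lit 121) (nat_lit 5) (nat_lit 374) (nat_lit 329) (nat_lit 197)) (XT.lf (nat_lit 0) (nat_lit 7695134264) (nat_lit 304) (nat_lit 9705951777) (nat_lit 380) (nat_lit 3564325675) (nat_lit 116) (nat_lit 5) (nat_lit 120) (nat_lit 5) (nat_lit 121) (nat_lit 5) (nat_lit 375) (nat_lit 329) (nat_lit 196))))) (XT.nd (nat_lit 234) (nat_lit 988) (nat_lit 0) (XT.nd (nat_lit 78) (nat_lit 380) (nat_lit 0) (XT.lf (nat_lit 0) (nat_lit 71248404) (nat_lit 380) (nat_lit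 2167304468) (nat_lit 76) (nat_lit 19118759563) (nat_lit 115) (nat_lit 5) (nat_lit 120) (nat_lit 5) (nat_lit 116) (nat_lit 5) (nat_lit 376) (nat_lit 329) (nat_lit 195)) (XT.nd (nat_lit 78) (nat_lit 0) (nat_lit 0) (XT.lf (nat_lit 0) (nat_lit 3879439733) (nat_lit 456) (nat_lit 12406145142) (nat_lit 76) (nat_lit 5470275491) (nat_lit 110) (nat_lit 5) (nat_lit 116) (nat_lit 5) (nat_lit 111) (nat_lit 5) (nat_lit 377) (nat_lit 329) (nat_lit 194)) (XT.lf (nat_lit 0) (nat_lit 7837408208) (nat_lit 456) (nat_lit 943569859) (nat_lit 76) (nat_lit 13384325173) (nat_lit 110) (nat_lit 5) (nat_lit 116) (nat_lit 5) (nat_lit 111) (nat_lit 5) (nat_lit 378) (nat_lit 329) (nat_lit 193)))) (XT.nd (nat_lit 156) (nat_lit 380) (nat_lit 0) (XT.nd (nat_lit 78) (nat_lit 304) (nat_lit 0) (XT.lf (nat_lit 0) (nat_lit 11067040267) (nat_lit 304) (nat_lit 944978343) (nat_lit 380) (nat_lit 10572078025) (nat_lit 106) (nat_lit 5) (nat_lit 110)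 (nat_lit 5) (nat_lit 111) (nat_lit 5) (nat_lit 379) (nat_lit 329) (nat_lit 192)) (XT.lf (nat_lit 0) (nat_lit 368838544) (nat_lit 304) (nat_lit 16016319568) (nat_lit 380) (nat_lit 6628101189) (nat_lit 102) (nat_lit 5) (nat_lit 106) (nat_lit 5) (nat_lit 107) (nat_lit 5) (nat_lit 380) (nat_lit 329) (nat_lit 191))) (XT.nd (nat_lit 78) (nat_lit 380) (nat_lit 0) (XT.lf (nat_lit 0) (nat_lit 12826065968) (nat_lit 304) (nat_lit 8180742983) (nat_lit 380) (nat_lit 2444972455) (nat_lit 102) (nat_lit 5) (nat_lit 106) (nat_lit 5) (nat_lit 107) (nat_lit 5) (nat_lit 381) (nat_lit 329) (nat_lit 190)) (XT.lf (nat_lit 0) (nat_lit 1758336258) (nat_lit 304) (nat_lit 77759584) (nat_lit 380) (nat_lit 22066565364) (nat_lit 97) (nat_lit 5) (nat_lit 101) (nat_lit 5) (nat_lit 102) (nat_lit 5) (nat_lit 382) (nat_lit 329) (nat_lit 189))))))) (XT.nd (nat_lit 1014) (nat_lit 1596) (nat_lit 0) (XT.nd (nat_lit 468) (nat_lit 760) (nat_lit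 0) (XT.nd (nat_lit 234) (nat_lit 608) (nat_lit 0) (XT.nd (nat_lit 78) (nat_lit 304) (nat_lit 0) (XT.lf (nat_lit 0) (nat_lit 6376297175) (nat_lit 380) (nat_lit 9748578862) (nat_lit 76) (nat_lit 8236073586) (nat_lit 97) (nat_lit 5) (nat_lit 102) (nat_lit 5) (nat_lit 98) (nat_lit 5) (nat_lit 383) (nat_lit 329) (nat_lit 188)) (XT.nd (nat_lit 78) (nat_lit 0) (nat_lit 0) (XT.lf (nat_lit 0) (nat_lit 3066747383) (nat_lit 304) (nat_lit 8008440657) (nat_lit 380) (nat_lit 13757127764) (nat_lit 93) (nat_lit 5) (nat_lit 97) (nat_lit 5) (nat_lit 98) (nat_lit 5) (nat_lit 384) (nat_lit 329) (nat_lit 187)) (XT.lf (nat_lit 0) (nat_lit 16010158034) (nat_lit 380) (nat_lit 8864305852) (nat_lit 76) (nat_lit 440509226) (nat_lit 93) (nat_lit 5) (nat_lit 98) (nat_lit 5) (nat_lit 94) (nat_lit 5) (nat_lit 385) (nat_lit 329) (nat_lit 186)))) (XT.nd (nat_lit 78) (nat_lit 380) (nat_lit 0) (XT.lf (nat_lit 0) (nat_lit 4419831025) (nat_lit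 228) (nat_lit 16787664962) (nat_lit 304) (nat_lit 4601187996) (nat_lit 90) (nat_lit 5) (nat_lit 93) (nat_lit 5) (nat_lit 94) (nat_lit 5) (nat_lit 386) (nat_lit 329) (nat_lit 185)) (XT.nd (nat_lit 78) (nat_lit 304) (nat_lit 0) (XT.lf (nat_lit 0) (nat_lit 321770436) (nat_lit 304) (nat_lit 8044707462) (nat_lit 76) (nat_lit 17948172010) (nat_lit 89) (nat_lit 5) (nat_lit 93) (nat_lit 5) (nat_lit 90) (nat_lit 5) (nat_lit 387) (nat_lit 329) (nat_lit 184)) (XT.lf (nat_lit 0) (nat_lit 5351976691) (nat_lit 380) (nat_lit 21081221551) (nat_lit 76) (nat_lit 399671849) (nat_lit 85) (nat_lit 5) (nat_lit 90) (nat_lit 5) (nat_lit 86) (nat_lit 5) (nat_lit 388) (nat_lit 329) (nat_lit 183))))) (XT.nd (nat_lit 234) (nat_lit 532) (nat_lit 0) (XT.nd (nat_lit 78) (nat_lit 228) (nat_lit 0) (XT.lf (nat_lit 0) (nat_lit 10690830408) (nat_lit 380) (nat_lit 7331947387) (nat_lit 76) (nat_lit 9339129877) (nat_lit 85) (nat_lit 5) (nat_lit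 90) (nat_lit 5) (nat_lit 86) (nat_lit 5) (nat_lit 389) (nat_lit 329) (nat_lit 182)) (XT.nd (nat_lit 78) (nat_lit 0) (nat_lit 0) (XT.lf (nat_lit 0) (nat_lit 6954927788) (nat_lit 228) (nat_lit 9294849563) (nat_lit 304) (nat_lit 11655244141) (nat_lit 82) (nat_lit 5) (nat_lit 85) (nat_lit 5) (nat_lit 86) (nat_lit 5) (nat_lit 390) (nat_lit 329) (nat_lit 181)) (XT.lf (nat_lit 0) (nat_lit 21810217899) (nat_lit 228) (nat_lit 232486633) (nat_lit 304) (nat_lit 6419710696) (nat_lit 82) (nat_lit 5) (nat_lit 85) (nat_lit 5) (nat_lit 86) (nat_lit 5) (nat_lit 391) (nat_lit 329) (nat_lit 180)))) (XT.nd (nat_lit 156) (nat_lit 228) (nat_lit 0) (XT.nd (nat_lit 78) (nat_lit 76) (nat_lit 0) (XT.lf (nat_lit 0) (nat_lit 8135547237) (nat_lit 228) (nat_lit 20032905894) (nat_lit 304) (nat_lit 863309409) (nat_lit 79) (nat_lit 5) (nat_lit 82) (nat_lit 5) (nat_lit 83) (nat_lit 5) (nat_lit 392) (nat_lit 329) (nat_lit 179)) (XT.lf (nat_lit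 0) (nat_lit 4828459156) (nat_lit 304) (nat_lit 6172953665) (nat_lit 76) (nat_lit 18613473393) (nat_lit 78) (nat_lit 5) (nat_lit 82) (nat_lit 5) (nat_lit 79) (nat_lit 5) (nat_lit 393) (nat_lit 329) (nat_lit 178))) (XT.nd (nat_lit 78) (nat_lit 0) (nat_lit 0) (XT.lf (nat_lit 0) (nat_lit 9151964312) (nat_lit 228) (nat_lit 1603198345) (nat_lit 304) (nat_lit 19457641045) (nat_lit 75) (nat_lit 5) (nat_lit 78) (nat_lit 5) (nat_lit 79) (nat_lit 5) (nat_lit 394) (nat_lit 329) (nat_lit 177)) (XT.lf (nat_lit 0) (nat_lit 16993875840) (nat_lit 304) (nat_lit 5852018071) (nat_lit 76) (nat_lit 7978741009) (nat_lit 75) (nat_lit 5) (nat_lit 79) (nat_lit 5) (nat_lit 76) (nat_lit 5) (nat_lit 395) (nat_lit 329) (nat_lit 176)))))) (XT.nd (nat_lit 546) (nat_lit 684) (nat_lit 0) (XT.nd (nat_lit 234) (nat_lit 380) (nat_lit 0) (XT.nd (nat_lit 78) (nat_lit 304) (nat_lit 0) (XT.lf (nat_lit 0) (nat_lit 9982136594) (nat_lit 228) (nat_lit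 13543243386) (nat_lit 304) (nat_lit 7926274599) (nat_lit 72) (nat_lit 5) (nat_lit 75) (nat_lit 5) (nat_lit 76) (nat_lit 5) (nat_lit 396) (nat_lit 329) (nat_lit 175)) (XT.nd (nat_lit 78) (nat_lit 304) (nat_lit 0) (XT.lf (nat_lit 0) (nat_lit 26401527578) (nat_lit 228) (nat_lit 3904284300) (nat_lit 304) (nat_lit 1790085795) (nat_lit 72) (nat_lit 5) (nat_lit 75) (nat_lit 5) (nat_lit 76) (nat_lit 5) (nat_lit 397) (nat_lit 329) (nat_lit 174)) (XT.lf (nat_lit 0) (nat_lit 4598064932) (nat_lit 304) (nat_lit 22104688697) (nat_lit 76) (nat_lit 6050721911) (nat_lit 68) (nat_lit 5) (nat_lit 72) (nat_lit 5) (nat_lit 69) (nat_lit 5) (nat_lit 398) (nat_lit 329) (nat_lit 173)))) (XT.nd (nat_lit 156) (nat_lit 152) (nat_lit 0) (XT.nd (nat_lit 78) (nat_lit 228) (nat_lit 0) (XT.lf (nat_lit 0) (nat_lit 11232663488) (nat_lit 304) (nat_lit 5896674949) (nat_lit 76) (nat_lit 16298189257) (nat_lit 68) (nat_lit 5) (nat_lit 72) (nat_lit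 5) (nat_lit 69) (nat_lit 5) (nat_lit 399) (nat_lit 329) (nat_lit 172)) (XT.lf (nat_lit 0) (nat_lit 11002929165) (nat_lit 228) (nat_lit 7163365564) (nat_lit 304) (nat_lit 15952508904) (nat_lit 65) (nat_lit 5) (nat_lit 68) (nat_lit 5) (nat_lit 69) (nat_lit 5) (nat_lit 400) (nat_lit 329) (nat_lit 171))) (XT.nd (nat_lit 78) (nat_lit 152) (nat_lit 0) (XT.lf (nat_lit 0) (nat_lit 25392156230) (nat_lit 304) (nat_lit 6338441497) (nat_lit 76) (nat_lit 3097695486) (nat_lit 65) (nat_lit 5) (nat_lit 69) (nat_lit 5) (nat_lit 66) (nat_lit 5) (nat_lit 401) (nat_lit 329) (nat_lit 170)) (XT.lf (nat_lit 0) (nat_lit 11078440669) (nat_lit 152) (nat_lit 21928209451) (nat_lit 228) (nat_lit 2547263609) (nat_lit 63) (nat_lit 5) (nat_lit 65) (nat_lit 5) (nat_lit 66) (nat_lit 5) (nat_lit 402) (nat_lit 329) (nat_lit 169))))) (XT.nd (nat_lit 234) (nat_lit 380) (nat_lit 0) (XT.nd (nat_lit 78) (nat_lit 228) (nat_lit 0) (XT.lf (nat_lit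 0) (nat_lit 4518620554) (nat_lit 228) (nat_lit 7205128359) (nat_lit 76) (nat_lit 24574471222) (nat_lit 62) (nat_lit 5) (nat_lit 65) (nat_lit 5) (nat_lit 63) (nat_lit 5) (nat_lit 403) (nat_lit 329) (nat_lit 168)) (XT.nd (nat_lit 78) (nat_lit 0) (nat_lit 0) (XT.lf (nat_lit 0) (nat_lit 10759170717) (nat_lit 228) (nat_lit 1084156470) (nat_lit 304) (nat_lit 25217832409) (nat_lit 59) (nat_lit 5) (nat_lit 62) (nat_lit 5) (nat_lit 63) (nat_lit 5) (nat_lit 404) (nat_lit 329) (nat_lit 167)) (XT.lf (nat_lit 0) (nat_lit 19550832256) (nat_lit 304) (nat_lit 8539274989) (nat_lit 76) (nat_lit 9751990006) (nat_lit 59) (nat_lit 5) (nat_lit 63) (nat_lit 5) (nat_lit 60) (nat_lit 5) (nat_lit 405) (nat_lit 329) (nat_lit 166)))) (XT.nd (nat_lit 156) (nat_lit 228) (nat_lit 0) (XT.nd (nat_lit 78) (nat_lit 0) (nat_lit 0) (XT.lf (nat_lit 0) (nat_lit 9930703862) (nat_lit 152) (nat_lit 17659866691) (nat_lit 228) (nat_lit 11052863920)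 (nat_lit 57) (nat_lit 5) (nat_lit 59) (nat_lit 5) (nat_lit 60) (nat_lit 5) (nat_lit 406) (nat_lit 329) (nat_lit 165)) (XT.lf (nat_lit 0) (nat_lit 29121247774) (nat_lit 152) (nat_lit 6831365579) (nat_lit 228) (nat_lit 3513766715) (nat_lit 57) (nat_lit 5) (nat_lit 59) (nat_lit 5) (nat_lit 60) (nat_lit 5) (nat_lit 407) (nat_lit 329) (nat_lit 164))) (XT.nd (nat_lit 78) (nat_lit 0) (nat_lit 0) (XT.lf (nat_lit 0) (nat_lit 4289837388) (nat_lit 228) (nat_lit 31659336345) (nat_lit 76) (nat_lit 4359976909) (nat_lit 54) (nat_lit 5) (nat_lit 57) (nat_lit 5) (nat_lit 55) (nat_lit 5) (nat_lit 408) (nat_lit 329) (nat_lit 163)) (XT.lf (nat_lit 0) (nat_lit 12425077540) (nat_lit 228) (nat_lit 12859324708) (nat_lit 76) (nat_lit 15886715346) (nat_lit 54) (nat_lit 5) (nat_lit 57) (nat_lit 5) (nat_lit 55) (nat_lit 5) (nat_lit 409) (nat_lit 329) (nat_lit 162))))))))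
noncomputable def xc177 : XT := (XT.nd (nat_lit 2028) (nat_lit 152) (nat_lit 0) (XT.nd (nat_lit 1014) (nat_lit 760) (nat_lit 0) (XT.nd (nat_lit 468) (nat_lit 532) (nat_lit 0) (XT.nd (nat_lit 234) (nat_lit 228) (nat_lit 0) (XT.nd (nat_lit 78) (nat_lit 152) (nat_lit 0) (XT.lf (nat_lit 0) (nat_lit 6625758986) (nat_lit 152) (nat_lit 14237465992) (nat_lit 228) (nat_lit 21193954521) (nat_lit 52) (nat_lit 5) (nat_lit 54) (nat_lit 5) (nat_lit 55) (nat_lit 5) (nat_lit 410) (nat_lit 329) (nat_lit 161)) (XT.nd (nat_lit 78) (nat_lit 152) (nat_lit 0) (XT.lf (nat_lit 0) (nat_lit 26950858623) (nat_lit 152) (nat_lit 2728734161) (nat_lit 228) (nat_lit 13286479604) (nat_lit 52) (nat_lit 5) (nat_lit 54) (nat_lit 5) (nat_lit 55) (nat_lit 5) (nat_lit 411) (nat_lit 329) (nat_lit 160)) (XT.lf (nat_lit 0) (nat_lit 3965123262) (nat_lit 152) (nat_lit 34916490898) (nat_lit 228) (nat_lit 5016984392) (nat_lit 50) (nat_lit 5) (nat_lit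 52) (nat_lit 5) (nat_lit 53) (nat_lit 5) (nat_lit 412) (nat_lit 329) (nat_lit 159)))) (XT.nd (nat_lit 78) (nat_lit 152) (nat_lit 0) (XT.lf (nat_lit 0) (nat_lit 3617969666) (nat_lit 228) (nat_lit 20051378105) (nat_lit 76) (nat_lit 21183174024) (nat_lit 49) (nat_lit 5) (nat_lit 52) (nat_lit 5) (nat_lit 50) (nat_lit 5) (nat_lit 413) (nat_lit 329) (nat_lit 158)) (XT.nd (nat_lit 78) (nat_lit 0) (nat_lit 0) (XT.lf (nat_lit 0) (nat_lit 377073146) (nat_lit 152) (nat_lit 12033165676) (nat_lit 228) (nat_lit 33423361879) (nat_lit 47) (nat_lit 5) (nat_lit 49) (nat_lit 5) (nat_lit 50) (nat_lit 5) (nat_lit 414) (nat_lit 329) (nat_lit 157)) (XT.lf (nat_lit 0) (nat_lit 21665804463) (nat_lit 228) (nat_lit 25017991633) (nat_lit 76) (nat_lit 154331239) (nat_lit 47) (nat_lit 5) (nat_lit 50) (nat_lit 5) (nat_lit 48) (nat_lit 5) (nat_lit 415) (nat_lit 329) (nat_lit 156))))) (XT.nd (nat_lit 234) (nat_lit 304) (nat_lit 0) (XT.nd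 (nat_lit 78) (nat_lit 228) (nat_lit 0) (XT.lf (nat_lit 0) (nat_lit 31313812748) (nat_lit 228) (nat_lit 4093033334) (nat_lit 76) (nat_lit 12462501593) (nat_lit 47) (nat_lit 5) (nat_lit 50) (nat_lit 5) (nat_lit 48) (nat_lit 5) (nat_lit 416) (nat_lit 329) (nat_lit 155)) (XT.nd (nat_lit 78) (nat_lit 76) (nat_lit 0) (XT.lf (nat_lit 0) (nat_lit 17799636453) (nat_lit 152) (nat_lit 23618488366) (nat_lit 228) (nat_lit 7508375041) (nat_lit 45) (nat_lit 5) (nat_lit 47) (nat_lit 5) (nat_lit 48) (nat_lit 5) (nat_lit 417) (nat_lit 329) (nat_lit 154)) (XT.lf (nat_lit 0) (nat_lit 1812390240) (nat_lit 228) (nat_lit 9606332327) (nat_lit 76) (nat_lit 38594997676) (nat_lit 44) (nat_lit 5) (nat_lit 47) (nat_lit 5) (nat_lit 45) (nat_lit 5) (nat_lit 418) (nat_lit 329) (nat_lit 153)))) (XT.nd (nat_lit 156) (nat_lit 152) (nat_lit 0) (XT.nd (nat_lit 78) (nat_lit 0) (nat_lit 0) (XT.lf (nat_lit 0) (nat_lit 11393044109) (nat_lit 228)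 (nat_lit 38414077956) (nat_lit 76) (nat_lit 1320270710) (nat_lit 42) (nat_lit 5) (nat_lit 45) (nat_lit 5) (nat_lit 43) (nat_lit 5) (nat_lit 419) (nat_lit 329) (nat_lit 152)) (XT.lf (nat_lit 0) (nat_lit 21468058188) (nat_lit 228) (nat_lit 16493303751) (nat_lit 76) (nat_lit 14306906340) (nat_lit 42) (nat_lit 5) (nat_lit 45) (nat_lit 5) (nat_lit 43) (nat_lit 5) (nat_lit 420) (nat_lit 329) (nat_lit 151))) (XT.nd (nat_lit 78) (nat_lit 0) (nat_lit 0) (XT.lf (nat_lit 0) (nat_lit 6199076403) (nat_lit 152) (nat_lit 25701872851) (nat_lit 228) (nat_lit 21540752984) (nat_lit 40) (nat_lit 5) (nat_lit 42) (nat_lit 5) (nat_lit 43) (nat_lit 5) (nat_lit 421) (nat_lit 329) (nat_lit 150)) (XT.lf (nat_lit 0) (nat_lit 29903409402) (nat_lit 152) (nat_lit 12906053876) (nat_lit 228) (nat_lit 11835997807) (nat_lit 40) (nat_lit 5) (nat_lit 42) (nat_lit 5) (nat_lit 43) (nat_lit 5) (nat_lit 422) (nat_lit 329) (nat_lit 149)))))) (XT.nd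 (nat_lit 468) (nat_lit 380) (nat_lit 0) (XT.nd (nat_lit 234) (nat_lit 228) (nat_lit 0) (XT.nd (nat_lit 78) (nat_lit 152) (nat_lit 0) (XT.lf (nat_lit 0) (nat_lit 54044035298) (nat_lit 228) (nat_lit 1575891318) (nat_lit 76) (nat_lit 265442934) (nat_lit 40) (nat_lit 5) (nat_lit 43) (nat_lit 5) (nat_lit 41) (nat_lit 4) (nat_lit 423) (nat_lit 329) (nat_lit 148)) (XT.nd (nat_lit 78) (nat_lit 0) (nat_lit 0) (XT.lf (nat_lit 0) (nat_lit 8632826840) (nat_lit 152) (nat_lit 34645160454) (nat_lit 76) (nat_lit 13871712857) (nat_lit 38) (nat_lit 5) (nat_lit 40) (nat_lit 5) (nat_lit 39) (nat_lit 5) (nat_lit 424) (nat_lit 329) (nat_lit 147)) (XT.lf (nat_lit 0) (nat_lit 19396566606) (nat_lit 152) (nat_lit 11136796448) (nat_lit 76) (nat_lit 27917680650) (nat_lit 38) (nat_lit 5) (nat_lit 40) (nat_lit 5) (nat_lit 39) (nat_lit 5) (nat_lit 425) (nat_lit 329) (nat_lit 146)))) (XT.nd (nat_lit 78) (nat_lit 76) (nat_lit 0) (XT.lf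 (nat_lit 0) (nat_lit 13330525173) (nat_lit 152) (nat_lit 17277234423) (nat_lit 228) (nat_lit 29179932560) (nat_lit 36) (nat_lit 5) (nat_lit 38) (nat_lit 5) (nat_lit 39) (nat_lit 5) (nat_lit 426) (nat_lit 329) (nat_lit 145)) (XT.nd (nat_lit 78) (nat_lit 76) (nat_lit 0) (XT.lf (nat_lit 0) (nat_lit 38753802927) (nat_lit 152) (nat_lit 3510388876) (nat_lit 228) (nat_lit 18896981958) (nat_lit 36) (nat_lit 5) (nat_lit 38) (nat_lit 5) (nat_lit 39) (nat_lit 5) (nat_lit 427) (nat_lit 329) (nat_lit 144)) (XT.lf (nat_lit 0) (nat_lit 2299988871) (nat_lit 76) (nat_lit 52091519470) (nat_lit 152) (nat_lit 8180716510) (nat_lit 35) (nat_lit 5) (nat_lit 36) (nat_lit 5) (nat_lit 37) (nat_lit 4) (nat_lit 428) (nat_lit 329) (nat_lit 143))))) (XT.nd (nat_lit 234) (nat_lit 152) (nat_lit 0) (XT.nd (nat_lit 78) (nat_lit 152) (nat_lit 0) (XT.lf (nat_lit 0) (nat_lit 3061081091) (nat_lit 152) (nat_lit 35881639623) (nat_lit 76) (nat_lit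 25074269728) (nat_lit 34) (nat_lit 5) (nat_lit 36) (nat_lit 5) (nat_lit 35) (nat_lit 5) (nat_lit 429) (nat_lit 329) (nat_lit 142)) (XT.nd (nat_lit 78) (nat_lit 152) (nat_lit 0) (XT.lf (nat_lit 0) (nat_lit 14472337576) (nat_lit 152) (nat_lit 10846398833) (nat_lit 76) (nat_lit 40184034510) (nat_lit 34) (nat_lit 5) (nat_lit 36) (nat_lit 5) (nat_lit 35) (nat_lit 5) (nat_lit 430) (nat_lit 329) (nat_lit 141)) (XT.lf (nat_lit 0) (nat_lit 15231215774) (nat_lit 152) (nat_lit 11137855179) (nat_lit 228) (nat_lit 40659760371) (nat_lit 32) (nat_lit 5) (nat_lit 34) (nat_lit 5) (nat_lit 35) (nat_lit 5) (nat_lit 431) (nat_lit 329) (nat_lit 140)))) (XT.nd (nat_lit 156) (nat_lit 152) (nat_lit 0) (XT.nd (nat_lit 78) (nat_lit 0) (nat_lit 0) (XT.lf (nat_lit 0) (nat_lit 38763400539) (nat_lit 228) (nat_lit 26324227728) (nat_lit 76) (nat_lit 3508825119) (nat_lit 32) (nat_lit 5) (nat_lit 35) (nat_lit 5) (nat_lit 33) (nat_lit 4)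 (nat_lit 432) (nat_lit 329) (nat_lit 139)) (XT.lf (nat_lit 0) (nat_lit 51636672243) (nat_lit 228) (nat_lit 202655865) (nat_lit 76) (nat_lit 18368563288) (nat_lit 32) (nat_lit 5) (nat_lit 35) (nat_lit 5) (nat_lit 33) (nat_lit 4) (nat_lit 433) (nat_lit 329) (nat_lit 138))) (XT.nd (nat_lit 78) (nat_lit 76) (nat_lit 0) (XT.lf (nat_lit 0) (nat_lit 27228311011) (nat_lit 76) (nat_lit 37926494848) (nat_lit 152) (nat_lit 6705107405) (nat_lit 31) (nat_lit 5) (nat_lit 32) (nat_lit 5) (nat_lit 33) (nat_lit 4) (nat_lit 434) (nat_lit 329) (nat_lit 137)) (XT.lf (nat_lit 0) (nat_lit 5408332407) (nat_lit 152) (nat_lit 18133707697) (nat_lit 76) (nat_lit 50017895272) (nat_lit 30) (nat_lit 5) (nat_lit 32) (nat_lit 5) (nat_lit 31) (nat_lit 5) (nat_lit 435) (nat_lit 329) (nat_lit 136))))))) (XT.nd (nat_lit 39468) (nat_lit 0) (nat_lit 12236) (XT.nd (nat_lit 38922) (nat_lit 0) (nat_lit 15276) (XT.nd (nat_lit 38688) (nat_lit 0)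 (nat_lit 16188) (XT.nd (nat_lit 78) (nat_lit 0) (nat_lit 0) (XT.lf (nat_lit 0) (nat_lit 9268172981) (nat_lit 152) (nat_lit 8568351378) (nat_lit 228) (nat_lit 57469859304) (nat_lit 28) (nat_lit 5) (nat_lit 30) (nat_lit 5) (nat_lit 31) (nat_lit 5) (nat_lit 436) (nat_lit 329) (nat_lit 135)) (XT.nd (nat_lit 38532) (nat_lit 0) (nat_lit 16188) (XT.lf (nat_lit 0) (nat_lit 30885415512) (nat_lit 228) (nat_lit 39309033089) (nat_lit 76) (nat_lit 6903341758) (nat_lit 28) (nat_lit 5) (nat_lit 31) (nat_lit 5) (nat_lit 29) (nat_lit 4) (nat_lit 437) (nat_lit 329) (nat_lit 134)) (XT.lf (nat_lit 0) (nat_lit 2442155201) (nat_lit 1140) (nat_lit 1365597746) (nat_lit 1140) (nat_lit 1365597746) (nat_lit 241) (nat_lit 3) (nat_lit 256) (nat_lit 3) (nat_lit 256) (nat_lit 5) (nat_lit 330) (nat_lit 330) (nat_lit 240)))) (XT.nd (nat_lit 78) (nat_lit 0) (nat_lit 76) (XT.lf (nat_lit 76) (nat_lit 2177682580) (nat_lit 0) (nat_lit 3431948336)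 (nat_lit 1140) (nat_lit 4872194555) (nat_lit 242) (nat_lit 5) (nat_lit 241) (nat_lit 3) (nat_lit 256) (nat_lit 5) (nat_lit 331) (nat_lit 330) (nat_lit 239)) (XT.nd (nat_lit 78) (nat_lit 0) (nat_lit 0) (XT.lf (nat_lit 0) (nat_lit 6368353298) (nat_lit 1064) (nat_lit 3352890397) (nat_lit 1140) (nat_lit 899430404) (nat_lit 242) (nat_lit 5) (nat_lit 256) (nat_lit 5) (nat_lit 257) (nat_lit 5) (nat_lit 332) (nat_lit 330) (nat_lit 238)) (XT.lf (nat_lit 76) (nat_lit 1733322084) (nat_lit 0) (nat_lit 5443232521) (nat_lit 1140) (nat_lit 3586351566) (nat_lit 243) (nat_lit 5) (nat_lit 242) (nat_lit 5) (nat_lit 257) (nat_lit 5) (nat_lit 333) (nat_lit 330) (nat_lit 237))))) (XT.nd (nat_lit 234) (nat_lit 988) (nat_lit 0) (XT.nd (nat_lit 78) (nat_lit 0) (nat_lit 76) (XT.lf (nat_lit 76) (nat_lit 7027562230) (nat_lit 0) (nat_lit 991942230) (nat_lit 1140) (nat_lit 2889604608) (nat_lit 243) (nat_lit 5) (nat_lit 242) (nat_lit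 5) (nat_lit 257) (nat_lit 5) (nat_lit 334) (nat_lit 330) (nat_lit 236)) (XT.nd (nat_lit 78) (nat_lit 0) (nat_lit 0) (XT.lf (nat_lit 76) (nat_lit 1400018743) (nat_lit 0) (nat_lit 7513138001) (nat_lit 1140) (nat_lit 2145797274) (nat_lit 244) (nat_lit 5) (nat_lit 243) (nat_lit 5) (nat_lit 258) (nat_lit 5) (nat_lit 335) (nat_lit 330) (nat_lit 235)) (XT.lf (nat_lit 76) (nat_lit 6896021626) (nat_lit 0) (nat_lit 2964464320) (nat_lit 1140) (nat_lit 1352020200) (nat_lit 244) (nat_lit 5) (nat_lit 243) (nat_lit 5) (nat_lit 258) (nat_lit 5) (nat_lit 336) (nat_lit 330) (nat_lit 234)))) (XT.nd (nat_lit 156) (nat_lit 0) (nat_lit 0) (XT.nd (nat_lit 78) (nat_lit 1140) (nat_lit 0) (XT.lf (nat_lit 76) (nat_lit 1178797360) (nat_lit 0) (nat_lit 9663977123) (nat_lit 1140) (nat_lit 527711500) (nat_lit 245) (nat_lit 5) (nat_lit 244) (nat_lit 5) (nat_lit 259) (nat_lit 5) (nat_lit 337) (nat_lit 330) (nat_lit 233)) (XT.lf (nat_lit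 0) (nat_lit 367361066) (nat_lit 1140) (nat_lit 4651551773) (nat_lit 1216) (nat_lit 6512646903) (nat_lit 229) (nat_lit 5) (nat_lit 244) (nat_lit 5) (nat_lit 245) (nat_lit 5) (nat_lit 338) (nat_lit 330) (nat_lit 232))) (XT.nd (nat_lit 78) (nat_lit 0) (nat_lit 76) (XT.lf (nat_lit 76) (nat_lit 1056387844) (nat_lit 0) (nat_lit 211993817) (nat_lit 1216) (nat_lit 10429252095) (nat_lit 230) (nat_lit 5) (nat_lit 229) (nat_lit 5) (nat_lit 245) (nat_lit 5) (nat_lit 339) (nat_lit 330) (nat_lit 231)) (XT.lf (nat_lit 0) (nat_lit 2269497930) (nat_lit 1140) (nat_lit 4896714560) (nat_lit 1216) (nat_lit 4700300947) (nat_lit 230) (nat_lit 5) (nat_lit 245) (nat_lit 5) (nat_lit 246) (nat_lit 5) (nat_lit 340) (nat_lit 330) (nat_lit 230)))))) (XT.nd (nat_lit 546) (nat_lit 2204) (nat_lit 0) (XT.nd (nat_lit 234) (nat_lit 912) (nat_lit 0) (XT.nd (nat_lit 78) (nat_lit 0) (nat_lit 76) (XT.lf (nat_lit 76) (nat_lit 1024124442) (nat_lit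 0) (nat_lit 2269120096) (nat_lit 1216) (nat_lit 8747452012) (nat_lit 231) (nat_lit 5) (nat_lit 230) (nat_lit 5) (nat_lit 246) (nat_lit 5) (nat_lit 341) (nat_lit 330) (nat_lit 229)) (XT.nd (nat_lit 78) (nat_lit 0) (nat_lit 0) (XT.lf (nat_lit 0) (nat_lit 4405448074) (nat_lit 1140) (nat_lit 5037227409) (nat_lit 1216) (nat_lit 2775711852) (nat_lit 231) (nat_lit 5) (nat_lit 246) (nat_lit 5) (nat_lit 247) (nat_lit 5) (nat_lit 342) (nat_lit 330) (nat_lit 228)) (XT.lf (nat_lit 76) (nat_lit 1106636568) (nat_lit 0) (nat_lit 4459168691) (nat_lit 1216) (nat_lit 6835174047) (nat_lit 232) (nat_lit 5) (nat_lit 231) (nat_lit 5) (nat_lit 247) (nat_lit 5) (nat_lit 343) (nat_lit 330) (nat_lit 227)))) (XT.nd (nat_lit 156) (nat_lit 1064) (nat_lit 0) (XT.nd (nat_lit 78) (nat_lit 0) (nat_lit 0) (XT.lf (nat_lit 0) (nat_lit 6800943056) (nat_lit 1140) (nat_lit 5070871469) (nat_lit 1216) (nat_lit 716049097) (nat_lit 232) (nat_lit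 5) (nat_lit 247) (nat_lit 5) (nat_lit 248) (nat_lit 5) (nat_lit 344) (nat_lit 330) (nat_lit 226)) (XT.lf (nat_lit 76) (nat_lit 1306629356) (nat_lit 0) (nat_lit 6805859386) (nat_lit 1216) (nat_lit 4666698393) (nat_lit 233) (nat_lit 5) (nat_lit 232) (nat_lit 5) (nat_lit 248) (nat_lit 5) (nat_lit 345) (nat_lit 330) (nat_lit 225))) (XT.nd (nat_lit 78) (nat_lit 1064) (nat_lit 0) (XT.lf (nat_lit 76) (nat_lit 7965519125) (nat_lit 0) (nat_lit 1532083054) (nat_lit 1216) (nat_lit 3477634428) (nat_lit 233) (nat_lit 5) (nat_lit 232) (nat_lit 5) (nat_lit 248) (nat_lit 5) (nat_lit 346) (nat_lit 330) (nat_lit 224)) (XT.lf (nat_lit 0) (nat_lit 1627257656) (nat_lit 1140) (nat_lit 9333680998) (nat_lit 1216) (nat_lit 2215141340) (nat_lit 218) (nat_lit 5) (nat_lit 233) (nat_lit 5) (nat_lit 234) (nat_lit 5) (nat_lit 347) (nat_lit 330) (nat_lit 223))))) (XT.nd (nat_lit 234) (nat_lit 1140) (nat_lit 0) (XT.nd (nat_lit 78) (nat_lit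 1064) (nat_lit 0) (XT.lf (nat_lit 0) (nat_lit 8536686984) (nat_lit 1140) (nat_lit 3980982170) (nat_lit 1216) (nat_lit 863806865) (nat_lit 218) (nat_lit 5) (nat_lit 233) (nat_lit 5) (nat_lit 234) (nat_lit 5) (nat_lit 348) (nat_lit 330) (nat_lit 222)) (XT.nd (nat_lit 78) (nat_lit 0) (nat_lit 0) (XT.lf (nat_lit 0) (nat_lit 536962954) (nat_lit 1064) (nat_lit 11525645622) (nat_lit 76) (nat_lit 1529708527) (nat_lit 204) (nat_lit 5) (nat_lit 218) (nat_lit 5) (nat_lit 205) (nat_lit 5) (nat_lit 349) (nat_lit 330) (nat_lit 221)) (XT.lf (nat_lit 0) (nat_lit 2035751858) (nat_lit 1064) (nat_lit 4585837120) (nat_lit 76) (nat_lit 7185448260) (nat_lit 204) (nat_lit 5) (nat_lit 218) (nat_lit 5) (nat_lit 205) (nat_lit 5) (nat_lit 350) (nat_lit 330) (nat_lit 220)))) (XT.nd (nat_lit 156) (nat_lit 532) (nat_lit 0) (XT.nd (nat_lit 78) (nat_lit 0) (nat_lit 0) (XT.lf (nat_lit 0) (nat_lit 2599138528) (nat_lit 608) (nat_lit 990335587)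 (nat_lit 684) (nat_lit 10438436570) (nat_lit 196) (nat_lit 5) (nat_lit 204) (nat_lit 5) (nat_lit 205) (nat_lit 5) (nat_lit 351) (nat_lit 330) (nat_lit 219)) (XT.lf (nat_lit 0) (nat_lit 5268111986) (nat_lit 684) (nat_lit 4221119438) (nat_lit 76) (nat_lit 4763840277) (nat_lit 196) (nat_lit 5) (nat_lit 205) (nat_lit 5) (nat_lit 197) (nat_lit 5) (nat_lit 352) (nat_lit 330) (nat_lit 218))) (XT.nd (nat_lit 78) (nat_lit 0) (nat_lit 0) (XT.lf (nat_lit 0) (nat_lit 3242568462) (nat_lit 532) (nat_lit 3781245692) (nat_lit 608) (nat_lit 7460382421) (nat_lit 189) (nat_lit 5) (nat_lit 196) (nat_lit 5) (nat_lit 197) (nat_lit 5) (nat_lit 353) (nat_lit 330) (nat_lit 217)) (XT.lf (nat_lit 0) (nat_lit 8881421757) (nat_lit 608) (nat_lit 3738832837) (nat_lit 76) (nat_lit 2100533451) (nat_lit 189) (nat_lit 5) (nat_lit 197) (nat_lit 5) (nat_lit 190) (nat_lit 5) (nat_lit 354) (nat_lit 330) (nat_lit 216))))))))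
noncomputable def xc178 : XT := (XT.nd (nat_lit 2028) (nat_lit 3724) (nat_lit 0) (XT.nd (nat_lit 1014) (nat_lit 2660) (nat_lit 0) (XT.nd (nat_lit 468) (nat_lit 1900) (nat_lit 0) (XT.nd (nat_lit 234) (nat_lit 608) (nat_lit 0) (XT.nd (nat_lit 78) (nat_lit 532) (nat_lit 0) (XT.lf (nat_lit 0) (nat_lit 4016426755) (nat_lit 608) (nat_lit 6840804684) (nat_lit 684) (nat_lit 4105381198) (nat_lit 181) (nat_lit 5) (nat_lit 189) (nat_lit 5) (nat_lit 190) (nat_lit 5) (nat_lit 355) (nat_lit 330) (nat_lit 215)) (XT.nd (nat_lit 78) (nat_lit 532) (nat_lit 0) (XT.lf (nat_lit 0) (nat_lit 12067563030) (nat_lit 608) (nat_lit 849200971) (nat_lit 684) (nat_lit 2294203826) (nat_lit 181) (nat_lit 5) (nat_lit 189) (nat_lit 5) (nat_lit 190) (nat_lit 5) (nat_lit 356) (nat_lit 330) (nat_lit 214)) (XT.lf (nat_lit 0) (nat_lit 4924975921) (nat_lit 532) (nat_lit 10198688444) (nat_lit 608) (nat_lit 340550895) (nat_lit 174) (nat_lit 5)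 (nat_lit 181) (nat_lit 5) (nat_lit 182) (nat_lit 5) (nat_lit 357) (nat_lit 330) (nat_lit 213)))) (XT.nd (nat_lit 78) (nat_lit 532) (nat_lit 0) (XT.lf (nat_lit 0) (nat_lit 1666749542) (nat_lit 608) (nat_lit 2462614576) (nat_lit 76) (nat_lit 11594392668) (nat_lit 173) (nat_lit 5) (nat_lit 181) (nat_lit 5) (nat_lit 174) (nat_lit 5) (nat_lit 358) (nat_lit 330) (nat_lit 212)) (XT.nd (nat_lit 78) (nat_lit 0) (nat_lit 0) (XT.lf (nat_lit 0) (nat_lit 3793236048) (nat_lit 608) (nat_lit 10054643397) (nat_lit 76) (nat_lit 2141137882) (nat_lit 166) (nat_lit 5) (nat_lit 174) (nat_lit 5) (nat_lit 167) (nat_lit 5) (nat_lit 359) (nat_lit 330) (nat_lit 211)) (XT.lf (nat_lit 0) (nat_lit 6037312032) (nat_lit 608) (nat_lit 1682268981) (nat_lit 76) (nat_lit 8541048859) (nat_lit 166) (nat_lit 5) (nat_lit 174) (nat_lit 5) (nat_lit 167) (nat_lit 5) (nat_lit 360) (nat_lit 330) (nat_lit 210))))) (XT.nd (nat_lit 234) (nat_lit 988)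 (nat_lit 0) (XT.nd (nat_lit 78) (nat_lit 456) (nat_lit 0) (XT.lf (nat_lit 0) (nat_lit 7066151475) (nat_lit 456) (nat_lit 1338634738) (nat_lit 532) (nat_lit 8133930107) (nat_lit 160) (nat_lit 5) (nat_lit 166) (nat_lit 5) (nat_lit 167) (nat_lit 5) (nat_lit 361) (nat_lit 330) (nat_lit 209)) (XT.nd (nat_lit 78) (nat_lit 456) (nat_lit 0) (XT.lf (nat_lit 0) (nat_lit 10899111256) (nat_lit 532) (nat_lit 776832426) (nat_lit 76) (nat_lit 5147534453) (nat_lit 160) (nat_lit 5) (nat_lit 167) (nat_lit 5) (nat_lit 161) (nat_lit 5) (nat_lit 362) (nat_lit 330) (nat_lit 208)) (XT.lf (nat_lit 0) (nat_lit 8315949566) (nat_lit 456) (nat_lit 5234208205) (nat_lit 532) (nat_lit 3564175636) (nat_lit 154) (nat_lit 5) (nat_lit 160) (nat_lit 5) (nat_lit 161) (nat_lit 5) (nat_lit 363) (nat_lit 330) (nat_lit 207)))) (XT.nd (nat_lit 156) (nat_lit 456) (nat_lit 0) (XT.nd (nat_lit 78) (nat_lit 76) (nat_lit 0) (XT.lf (nat_lit 0) (nat_lit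 262294678) (nat_lit 456) (nat_lit 16031240838) (nat_lit 532) (nat_lit 1120001965) (nat_lit 148) (nat_lit 5) (nat_lit 154) (nat_lit 5) (nat_lit 155) (nat_lit 5) (nat_lit 364) (nat_lit 330) (nat_lit 206)) (XT.lf (nat_lit 0) (nat_lit 1500752466) (nat_lit 532) (nat_lit 8023177012) (nat_lit 76) (nat_lit 8193476149) (nat_lit 147) (nat_lit 5) (nat_lit 154) (nat_lit 5) (nat_lit 148) (nat_lit 5) (nat_lit 365) (nat_lit 330) (nat_lit 205))) (XT.nd (nat_lit 78) (nat_lit 0) (nat_lit 0) (XT.lf (nat_lit 0) (nat_lit 1381849775) (nat_lit 456) (nat_lit 2798348917) (nat_lit 532) (nat_lit 13849787582) (nat_lit 141) (nat_lit 5) (nat_lit 147) (nat_lit 5) (nat_lit 148) (nat_lit 5) (nat_lit 366) (nat_lit 330) (nat_lit 204)) (XT.lf (nat_lit 0) (nat_lit 7051006146) (nat_lit 532) (nat_lit 7169444796) (nat_lit 76) (nat_lit 4128170408) (nat_lit 141) (nat_lit 5) (nat_lit 148) (nat_lit 5) (nat_lit 142) (nat_lit 5) (nat_lit 367) (nat_lit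 330) (nat_lit 203)))))) (XT.nd (nat_lit 468) (nat_lit 1444) (nat_lit 0) (XT.nd (nat_lit 234) (nat_lit 456) (nat_lit 0) (XT.nd (nat_lit 78) (nat_lit 380) (nat_lit 0) (XT.lf (nat_lit 0) (nat_lit 2604161485) (nat_lit 380) (nat_lit 7446289202) (nat_lit 456) (nat_lit 8625095564) (nat_lit 136) (nat_lit 5) (nat_lit 141) (nat_lit 5) (nat_lit 142) (nat_lit 5) (nat_lit 368) (nat_lit 330) (nat_lit 202)) (XT.nd (nat_lit 78) (nat_lit 380) (nat_lit 0) (XT.lf (nat_lit 0) (nat_lit 12805509327) (nat_lit 380) (nat_lit 396718557) (nat_lit 456) (nat_lit 5808186512) (nat_lit 136) (nat_lit 5) (nat_lit 141) (nat_lit 5) (nat_lit 142) (nat_lit 5) (nat_lit 369) (nat_lit 330) (nat_lit 201)) (XT.lf (nat_lit 0) (nat_lit 3956441930) (nat_lit 380) (nat_lit 12586354823) (nat_lit 456) (nat_lit 2809710489) (nat_lit 131) (nat_lit 5) (nat_lit 136) (nat_lit 5) (nat_lit 137) (nat_lit 5) (nat_lit 370) (nat_lit 330) (nat_lit 200)))) (XT.nd (nat_lit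 78) (nat_lit 380) (nat_lit 0) (XT.lf (nat_lit 0) (nat_lit 330775604) (nat_lit 456) (nat_lit 5172811821) (nat_lit 76) (nat_lit 14199475705) (nat_lit 130) (nat_lit 5) (nat_lit 136) (nat_lit 5) (nat_lit 131) (nat_lit 5) (nat_lit 371) (nat_lit 330) (nat_lit 199)) (XT.nd (nat_lit 78) (nat_lit 0) (nat_lit 0) (XT.lf (nat_lit 0) (nat_lit 3569694475) (nat_lit 456) (nat_lit 14656933075) (nat_lit 76) (nat_lit 1834858173) (nat_lit 125) (nat_lit 5) (nat_lit 131) (nat_lit 5) (nat_lit 126) (nat_lit 5) (nat_lit 372) (nat_lit 330) (nat_lit 198)) (XT.lf (nat_lit 0) (nat_lit 7003730185) (nat_lit 456) (nat_lit 4091028759) (nat_lit 76) (nat_lit 9332968727) (nat_lit 125) (nat_lit 5) (nat_lit 131) (nat_lit 5) (nat_lit 126) (nat_lit 5) (nat_lit 373) (nat_lit 330) (nat_lit 197))))) (XT.nd (nat_lit 234) (nat_lit 760) (nat_lit 0) (XT.nd (nat_lit 78) (nat_lit 304) (nat_lit 0) (XT.lf (nat_lit 0) (nat_lit 6914941197) (nat_lit 380)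 (nat_lit 3683292988) (nat_lit 456) (nat_lit 10205004284) (nat_lit 120) (nat_lit 5) (nat_lit 125) (nat_lit 5) (nat_lit 126) (nat_lit 5) (nat_lit 374) (nat_lit 330) (nat_lit 196)) (XT.nd (nat_lit 78) (nat_lit 304) (nat_lit 0) (XT.lf (nat_lit 0) (nat_lit 14371367647) (nat_lit 456) (nat_lit 2904181073) (nat_lit 76) (nat_lit 3912346902) (nat_lit 120) (nat_lit 5) (nat_lit 126) (nat_lit 5) (nat_lit 121) (nat_lit 5) (nat_lit 375) (nat_lit 330) (nat_lit 195)) (XT.lf (nat_lit 0) (nat_lit 8527772338) (nat_lit 304) (nat_lit 9839723596) (nat_lit 380) (nat_lit 3213307252) (nat_lit 116) (nat_lit 5) (nat_lit 120) (nat_lit 5) (nat_lit 121) (nat_lit 5) (nat_lit 376) (nat_lit 330) (nat_lit 194)))) (XT.nd (nat_lit 156) (nat_lit 304) (nat_lit 0) (XT.nd (nat_lit 78) (nat_lit 380) (nat_lit 0) (XT.lf (nat_lit 0) (nat_lit 509319812) (nat_lit 380) (nat_lit 1639165496) (nat_lit 76) (nat_lit 19836242672) (nat_lit 115) (nat_lit 5)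 (nat_lit 120) (nat_lit 5) (nat_lit 116) (nat_lit 5) (nat_lit 377) (nat_lit 330) (nat_lit 193)) (XT.lf (nat_lit 0) (nat_lit 4426228889) (nat_lit 456) (nat_lit 12179424166) (nat_lit 76) (nat_lit 5789751710) (nat_lit 110) (nat_lit 5) (nat_lit 116) (nat_lit 5) (nat_lit 111) (nat_lit 5) (nat_lit 378) (nat_lit 330) (nat_lit 192))) (XT.nd (nat_lit 78) (nat_lit 304) (nat_lit 0) (XT.lf (nat_lit 0) (nat_lit 8490400323) (nat_lit 456) (nat_lit 390415469) (nat_lit 76) (nat_lit 13936697603) (nat_lit 110) (nat_lit 5) (nat_lit 116) (nat_lit 5) (nat_lit 111) (nat_lit 5) (nat_lit 379) (nat_lit 330) (nat_lit 191)) (XT.lf (nat_lit 0) (nat_lit 11974812359) (nat_lit 304) (nat_lit 808800277) (nat_lit 380) (nat_lit 10465463246) (nat_lit 106) (nat_lit 5) (nat_lit 110) (nat_lit 5) (nat_lit 111) (nat_lit 5) (nat_lit 380) (nat_lit 330) (nat_lit 190))))))) (XT.nd (nat_lit 1014) (nat_lit 1672) (nat_lit 0) (XT.nd (nat_lit 468) (nat_lit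 1064) (nat_lit 0) (XT.nd (nat_lit 234) (nat_lit 304) (nat_lit 0) (XT.nd (nat_lit 78) (nat_lit 380) (nat_lit 0) (XT.lf (nat_lit 0) (nat_lit 960874512) (nat_lit 304) (nat_lit 16322214258) (nat_lit 380) (nat_lit 6408176404) (nat_lit 102) (nat_lit 5) (nat_lit 106) (nat_lit 5) (nat_lit 107) (nat_lit 5) (nat_lit 381) (nat_lit 330) (nat_lit 189)) (XT.nd (nat_lit 78) (nat_lit 380) (nat_lit 0) (XT.lf (nat_lit 0) (nat_lit 13774897278) (nat_lit 304) (nat_lit 8256655663) (nat_lit 380) (nat_lit 2111750929) (nat_lit 102) (nat_lit 5) (nat_lit 106) (nat_lit 5) (nat_lit 107) (nat_lit 5) (nat_lit 382) (nat_lit 330) (nat_lit 188)) (XT.lf (nat_lit 0) (nat_lit 2284554682) (nat_lit 380) (nat_lit 22231037913) (nat_lit 76) (nat_lit 92163564) (nat_lit 97) (nat_lit 5) (nat_lit 102) (nat_lit 5) (nat_lit 98) (nat_lit 5) (nat_lit 383) (nat_lit 330) (nat_lit 187)))) (XT.nd (nat_lit 78) (nat_lit 304) (nat_lit 0) (XT.lf (nat_lit 0) (nat_lit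 6950251974) (nat_lit 380) (nat_lit 9480990706) (nat_lit 76) (nat_lit 8648877198) (nat_lit 97) (nat_lit 5) (nat_lit 102) (nat_lit 5) (nat_lit 98) (nat_lit 5) (nat_lit 384) (nat_lit 330) (nat_lit 186)) (XT.nd (nat_lit 78) (nat_lit 0) (nat_lit 0) (XT.lf (nat_lit 0) (nat_lit 3713304684) (nat_lit 304) (nat_lit 8070989994) (nat_lit 380) (nat_lit 13781512006) (nat_lit 93) (nat_lit 5) (nat_lit 97) (nat_lit 5) (nat_lit 98) (nat_lit 5) (nat_lit 385) (nat_lit 330) (nat_lit 185)) (XT.lf (nat_lit 0) (nat_lit 16857995974) (nat_lit 380) (nat_lit 8582346410) (nat_lit 76) (nat_lit 622885901) (nat_lit 93) (nat_lit 5) (nat_lit 98) (nat_lit 5) (nat_lit 94) (nat_lit 5) (nat_lit 386) (nat_lit 330) (nat_lit 184))))) (XT.nd (nat_lit 234) (nat_lit 456) (nat_lit 0) (XT.nd (nat_lit 78) (nat_lit 380) (nat_lit 0) (XT.lf (nat_lit 0) (nat_lit 5094943116) (nat_lit 228) (nat_lit 17110821106) (nat_lit 304) (nat_lit 4366155850) (nat_lit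 90) (nat_lit 5) (nat_lit 93) (nat_lit 5) (nat_lit 94) (nat_lit 5) (nat_lit 387) (nat_lit 330) (nat_lit 183)) (XT.nd (nat_lit 78) (nat_lit 304) (nat_lit 0) (XT.lf (nat_lit 0) (nat_lit 686557423) (nat_lit 304) (nat_lit 7752111371) (nat_lit 76) (nat_lit 18654612831) (nat_lit 89) (nat_lit 5) (nat_lit 93) (nat_lit 5) (nat_lit 90) (nat_lit 5) (nat_lit 388) (nat_lit 330) (nat_lit 182)) (XT.lf (nat_lit 0) (nat_lit 5864127400) (nat_lit 380) (nat_lit 21176029128) (nat_lit 76) (nat_lit 587002637) (nat_lit 85) (nat_lit 5) (nat_lit 90) (nat_lit 5) (nat_lit 86) (nat_lit 5) (nat_lit 389) (nat_lit 330) (nat_lit 181)))) (XT.nd (nat_lit 156) (nat_lit 228) (nat_lit 0) (XT.nd (nat_lit 78) (nat_lit 228) (nat_lit 0) (XT.lf (nat_lit 0) (nat_lit 11352906201) (nat_lit 380) (nat_lit 7029935838) (nat_lit 76) (nat_lit 9789537396) (nat_lit 85) (nat_lit 5) (nat_lit 90) (nat_lit 5) (nat_lit 86) (nat_lit 5) (nat_lit 390) (nat_lit 330)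 (nat_lit 180)) (XT.lf (nat_lit 0) (nat_lit 7680428239) (nat_lit 228) (nat_lit 9393219359) (nat_lit 304) (nat_lit 11658292514) (nat_lit 82) (nat_lit 5) (nat_lit 85) (nat_lit 5) (nat_lit 86) (nat_lit 5) (nat_lit 391) (nat_lit 330) (nat_lit 179))) (XT.nd (nat_lit 78) (nat_lit 228) (nat_lit 0) (XT.lf (nat_lit 0) (nat_lit 22966323093) (nat_lit 228) (nat_lit 64242114) (nat_lit 304) (nat_lit 6275788472) (nat_lit 82) (nat_lit 5) (nat_lit 85) (nat_lit 5) (nat_lit 86) (nat_lit 5) (nat_lit 392) (nat_lit 330) (nat_lit 178)) (XT.lf (nat_lit 0) (nat_lit 8884661530) (nat_lit 228) (nat_lit 20452402794) (nat_lit 304) (nat_lit 555811724) (nat_lit 79) (nat_lit 5) (nat_lit 82) (nat_lit 5) (nat_lit 83) (nat_lit 5) (nat_lit 393) (nat_lit 330) (nat_lit 177)))))) (XT.nd (nat_lit 546) (nat_lit 836) (nat_lit 0) (XT.nd (nat_lit 234) (nat_lit 532) (nat_lit 0) (XT.nd (nat_lit 78) (nat_lit 228) (nat_lit 0) (XT.lf (nat_lit 0) (nat_lit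 5290683019) (nat_lit 304) (nat_lit 5861363220) (nat_lit 76) (nat_lit 19341640434) (nat_lit 78) (nat_lit 5) (nat_lit 82) (nat_lit 5) (nat_lit 79) (nat_lit 5) (nat_lit 394) (nat_lit 330) (nat_lit 176)) (XT.nd (nat_lit 78) (nat_lit 0) (nat_lit 0) (XT.lf (nat_lit 0) (nat_lit 9918431914) (nat_lit 228) (nat_lit 1472240450) (nat_lit 304) (nat_lit 19719008421) (nat_lit 75) (nat_lit 5) (nat_lit 78) (nat_lit 5) (nat_lit 79) (nat_lit 5) (nat_lit 395) (nat_lit 330) (nat_lit 175)) (XT.lf (nat_lit 0) (nat_lit 17809105709) (nat_lit 304) (nat_lit 5542438296) (nat_lit 76) (nat_lit 8388549706) (nat_lit 75) (nat_lit 5) (nat_lit 79) (nat_lit 5) (nat_lit 76) (nat_lit 5) (nat_lit 396) (nat_lit 330) (nat_lit 174)))) (XT.nd (nat_lit 156) (nat_lit 304) (nat_lit 0) (XT.nd (nat_lit 78) (nat_lit 0) (nat_lit 0) (XT.lf (nat_lit 0) (nat_lit 10761984732) (nat_lit 228) (nat_lit 13770292446) (nat_lit 304) (nat_lit 7853778549) (nat_lit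 72) (nat_lit 5) (nat_lit 75) (nat_lit 5) (nat_lit 76) (nat_lit 5) (nat_lit 397) (nat_lit 330) (nat_lit 173)) (XT.lf (nat_lit 0) (nat_lit 27659965676) (nat_lit 228) (nat_lit 3847385409) (nat_lit 304) (nat_lit 1542541487) (nat_lit 72) (nat_lit 5) (nat_lit 75) (nat_lit 5) (nat_lit 76) (nat_lit 5) (nat_lit 398) (nat_lit 330) (nat_lit 172))) (XT.nd (nat_lit 78) (nat_lit 0) (nat_lit 0) (XT.lf (nat_lit 0) (nat_lit 5028965146) (nat_lit 304) (nat_lit 22292935916) (nat_lit 76) (nat_lit 6405285290) (nat_lit 68) (nat_lit 5) (nat_lit 72) (nat_lit 5) (nat_lit 69) (nat_lit 5) (nat_lit 399) (nat_lit 330) (nat_lit 171)) (XT.lf (nat_lit 0) (nat_lit 11854068893) (nat_lit 304) (nat_lit 5612513603) (nat_lit 76) (nat_lit 16955136606) (nat_lit 68) (nat_lit 5) (nat_lit 72) (nat_lit 5) (nat_lit 69) (nat_lit 5) (nat_lit 400) (nat_lit 330) (nat_lit 170))))) (XT.nd (nat_lit 234) (nat_lit 456) (nat_lit 0) (XT.nd (nat_lit 78) (nat_lit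 152) (nat_lit 0) (XT.lf (nat_lit 0) (nat_lit 11789558423) (nat_lit 228) (nat_lit 7202254966) (nat_lit 304) (nat_lit 16142039762) (nat_lit 65) (nat_lit 5) (nat_lit 68) (nat_lit 5) (nat_lit 69) (nat_lit 5) (nat_lit 401) (nat_lit 330) (nat_lit 169)) (XT.nd (nat_lit 78) (nat_lit 152) (nat_lit 0) (XT.lf (nat_lit 0) (nat_lit 26427922615) (nat_lit 304) (nat_lit 6078726739) (nat_lit 76) (nat_lit 3358176782) (nat_lit 65) (nat_lit 5) (nat_lit 69) (nat_lit 5) (nat_lit 66) (nat_lit 5) (nat_lit 402) (nat_lit 330) (nat_lit 168)) (XT.lf (nat_lit 0) (nat_lit 11856251422) (nat_lit 152) (nat_lit 22410901279) (nat_lit 228) (nat_lit 2345176317) (nat_lit 63) (nat_lit 5) (nat_lit 65) (nat_lit 5) (nat_lit 66) (nat_lit 5) (nat_lit 403) (nat_lit 330) (nat_lit 167)))) (XT.nd (nat_lit 156) (nat_lit 152) (nat_lit 0) (XT.nd (nat_lit 78) (nat_lit 228) (nat_lit 0) (XT.lf (nat_lit 0) (nat_lit 4919296219) (nat_lit 228) (nat_lit 6983435129)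 (nat_lit 76) (nat_lit 25476394188) (nat_lit 62) (nat_lit 5) (nat_lit 65) (nat_lit 5) (nat_lit 63) (nat_lit 5) (nat_lit 404) (nat_lit 330) (nat_lit 166)) (XT.lf (nat_lit 0) (nat_lit 11515500300) (nat_lit 228) (nat_lit 944689486) (nat_lit 304) (nat_lit 25704872578) (nat_lit 59) (nat_lit 5) (nat_lit 62) (nat_lit 5) (nat_lit 63) (nat_lit 5) (nat_lit 405) (nat_lit 330) (nat_lit 165))) (XT.nd (nat_lit 78) (nat_lit 152) (nat_lit 0) (XT.lf (nat_lit 0) (nat_lit 20392906809) (nat_lit 304) (nat_lit 8368430722) (nat_lit 76) (nat_lit 10208273494) (nat_lit 59) (nat_lit 5) (nat_lit 63) (nat_lit 5) (nat_lit 60) (nat_lit 5) (nat_lit 406) (nat_lit 330) (nat_lit 164)) (XT.lf (nat_lit 0) (nat_lit 10651461000) (nat_lit 152) (nat_lit 18018997621) (nat_lit 228) (nat_lit 11124633508) (nat_lit 57) (nat_lit 5) (nat_lit 59) (nat_lit 5) (nat_lit 60) (nat_lit 5) (nat_lit 407) (nat_lit 330) (nat_lit 163))))))))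
noncomputable def xc179 : XT := (XT.nd (nat_lit 2028) (nat_lit 152) (nat_lit 0) (XT.nd (nat_lit 1014) (nat_lit 760) (nat_lit 0) (XT.nd (nat_lit 468) (nat_lit 608) (nat_lit 0) (XT.nd (nat_lit 234) (nat_lit 304) (nat_lit 0) (XT.nd (nat_lit 78) (nat_lit 228) (nat_lit 0) (XT.lf (nat_lit 0) (nat_lit 30405405617) (nat_lit 152) (nat_lit 6870612304) (nat_lit 228) (nat_lit 3366930853) (nat_lit 57) (nat_lit 5) (nat_lit 59) (nat_lit 5) (nat_lit 60) (nat_lit 5) (nat_lit 408) (nat_lit 330) (nat_lit 162)) (XT.nd (nat_lit 78) (nat_lit 0) (nat_lit 0) (XT.lf (nat_lit 0) (nat_lit 4664219291) (nat_lit 228) (nat_lit 32191884861) (nat_lit 76) (nat_lit 4654876966) (nat_lit 54) (nat_lit 5) (nat_lit 57) (nat_lit 5) (nat_lit 55) (nat_lit 5) (nat_lit 409) (nat_lit 330) (nat_lit 161)) (XT.lf (nat_lit 0) (nat_lit 13036360721) (nat_lit 228) (nat_lit 12840025251) (nat_lit 76) (nat_lit 16522637922) (nat_lit 54) (nat_lit 5) (nat_lit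 57) (nat_lit 5) (nat_lit 55) (nat_lit 5) (nat_lit 410) (nat_lit 330) (nat_lit 160)))) (XT.nd (nat_lit 78) (nat_lit 152) (nat_lit 0) (XT.lf (nat_lit 0) (nat_lit 7225639589) (nat_lit 152) (nat_lit 14498921187) (nat_lit 228) (nat_lit 21587201713) (nat_lit 52) (nat_lit 5) (nat_lit 54) (nat_lit 5) (nat_lit 55) (nat_lit 5) (nat_lit 411) (nat_lit 330) (nat_lit 159)) (XT.nd (nat_lit 78) (nat_lit 152) (nat_lit 0) (XT.lf (nat_lit 0) (nat_lit 28148809463) (nat_lit 152) (nat_lit 2649752706) (nat_lit 228) (nat_lit 13449567736) (nat_lit 52) (nat_lit 5) (nat_lit 54) (nat_lit 5) (nat_lit 55) (nat_lit 5) (nat_lit 412) (nat_lit 330) (nat_lit 158)) (XT.lf (nat_lit 0) (nat_lit 4475009947) (nat_lit 152) (nat_lit 35800235503) (nat_lit 228) (nat_lit 4933430324) (nat_lit 50) (nat_lit 5) (nat_lit 52) (nat_lit 5) (nat_lit 53) (nat_lit 5) (nat_lit 413) (nat_lit 330) (nat_lit 157))))) (XT.nd (nat_lit 234) (nat_lit 380) (nat_lit 0)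 (XT.nd (nat_lit 78) (nat_lit 152) (nat_lit 0) (XT.lf (nat_lit 0) (nat_lit 3949320578) (nat_lit 228) (nat_lit 20268876962) (nat_lit 76) (nat_lit 21973154050) (nat_lit 49) (nat_lit 5) (nat_lit 52) (nat_lit 5) (nat_lit 50) (nat_lit 5) (nat_lit 414) (nat_lit 330) (nat_lit 156)) (XT.nd (nat_lit 78) (nat_lit 0) (nat_lit 0) (XT.lf (nat_lit 0) (nat_lit 768662704) (nat_lit 152) (nat_lit 12233860899) (nat_lit 228) (nat_lit 34199426079) (nat_lit 47) (nat_lit 5) (nat_lit 49) (nat_lit 5) (nat_lit 50) (nat_lit 5) (nat_lit 415) (nat_lit 330) (nat_lit 155)) (XT.lf (nat_lit 0) (nat_lit 22530845116) (nat_lit 228) (nat_lit 25394360989) (nat_lit 76) (nat_lit 311555081) (nat_lit 47) (nat_lit 5) (nat_lit 50) (nat_lit 5) (nat_lit 48) (nat_lit 5) (nat_lit 416) (nat_lit 330) (nat_lit 154)))) (XT.nd (nat_lit 156) (nat_lit 228) (nat_lit 0) (XT.nd (nat_lit 78) (nat_lit 152) (nat_lit 0) (XT.lf (nat_lit 0) (nat_lit 32462029576) (nat_lit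 228) (nat_lit 3852552107) (nat_lit 76) (nat_lit 12984526063) (nat_lit 47) (nat_lit 5) (nat_lit 50) (nat_lit 5) (nat_lit 48) (nat_lit 5) (nat_lit 417) (nat_lit 330) (nat_lit 153)) (XT.lf (nat_lit 0) (nat_lit 18693336281) (nat_lit 152) (nat_lit 24173510864) (nat_lit 228) (nat_lit 7521207708) (nat_lit 45) (nat_lit 5) (nat_lit 47) (nat_lit 5) (nat_lit 48) (nat_lit 5) (nat_lit 418) (nat_lit 330) (nat_lit 152))) (XT.nd (nat_lit 78) (nat_lit 152) (nat_lit 0) (XT.lf (nat_lit 0) (nat_lit 2068969260) (nat_lit 228) (nat_lit 9541212743) (nat_lit 76) (nat_lit 39897832118) (nat_lit 44) (nat_lit 5) (nat_lit 47) (nat_lit 5) (nat_lit 45) (nat_lit 5) (nat_lit 419) (nat_lit 330) (nat_lit 151)) (XT.lf (nat_lit 0) (nat_lit 11935959621) (nat_lit 228) (nat_lit 39212057608) (nat_lit 76) (nat_lit 1507113594) (nat_lit 42) (nat_lit 5) (nat_lit 45) (nat_lit 5) (nat_lit 43) (nat_lit 5) (nat_lit 420) (nat_lit 330) (nat_lit 150))))))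 (XT.nd (nat_lit 468) (nat_lit 456) (nat_lit 0) (XT.nd (nat_lit 234) (nat_lit 152) (nat_lit 0) (XT.nd (nat_lit 78) (nat_lit 152) (nat_lit 0) (XT.lf (nat_lit 0) (nat_lit 22307366137) (nat_lit 228) (nat_lit 16643983751) (nat_lit 76) (nat_lit 14879059902) (nat_lit 42) (nat_lit 5) (nat_lit 45) (nat_lit 5) (nat_lit 43) (nat_lit 5) (nat_lit 421) (nat_lit 330) (nat_lit 149)) (XT.nd (nat_lit 78) (nat_lit 0) (nat_lit 0) (XT.lf (nat_lit 0) (nat_lit 6725794091) (nat_lit 152) (nat_lit 26325037932) (nat_lit 228) (nat_lit 21988288516) (nat_lit 40) (nat_lit 5) (nat_lit 42) (nat_lit 5) (nat_lit 43) (nat_lit 5) (nat_lit 422) (nat_lit 330) (nat_lit 148)) (XT.lf (nat_lit 0) (nat_lit 31131332457) (nat_lit 152) (nat_lit 13149651896) (nat_lit 228) (nat_lit 11998177685) (nat_lit 40) (nat_lit 5) (nat_lit 42) (nat_lit 5) (nat_lit 43) (nat_lit 5) (nat_lit 423) (nat_lit 330) (nat_lit 147)))) (XT.nd (nat_lit 78) (nat_lit 152) (nat_lit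 0) (XT.lf (nat_lit 0) (nat_lit 55848480036) (nat_lit 228) (nat_lit 1297824912) (nat_lit 76) (nat_lit 410087546) (nat_lit 40) (nat_lit 5) (nat_lit 43) (nat_lit 5) (nat_lit 41) (nat_lit 4) (nat_lit 424) (nat_lit 330) (nat_lit 146)) (XT.nd (nat_lit 78) (nat_lit 0) (nat_lit 0) (XT.lf (nat_lit 0) (nat_lit 9074531614) (nat_lit 152) (nat_lit 35358683394) (nat_lit 76) (nat_lit 14425452666) (nat_lit 38) (nat_lit 5) (nat_lit 40) (nat_lit 5) (nat_lit 39) (nat_lit 5) (nat_lit 425) (nat_lit 330) (nat_lit 145)) (XT.lf (nat_lit 0) (nat_lit 20155861633) (nat_lit 152) (nat_lit 11154558716) (nat_lit 76) (nat_lit 28888792063) (nat_lit 38) (nat_lit 5) (nat_lit 40) (nat_lit 5) (nat_lit 39) (nat_lit 5) (nat_lit 426) (nat_lit 330) (nat_lit 144))))) (XT.nd (nat_lit 234) (nat_lit 228) (nat_lit 0) (XT.nd (nat_lit 78) (nat_lit 76) (nat_lit 0) (XT.lf (nat_lit 0) (nat_lit 14043681165) (nat_lit 152) (nat_lit 17657553371) (nat_lit 228)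 (nat_lit 29874791643) (nat_lit 36) (nat_lit 5) (nat_lit 38) (nat_lit 5) (nat_lit 39) (nat_lit 5) (nat_lit 427) (nat_lit 330) (nat_lit 143)) (XT.nd (nat_lit 78) (nat_lit 76) (nat_lit 0) (XT.lf (nat_lit 0) (nat_lit 40220533750) (nat_lit 152) (nat_lit 3481721820) (nat_lit 228) (nat_lit 19288610937) (nat_lit 36) (nat_lit 5) (nat_lit 38) (nat_lit 5) (nat_lit 39) (nat_lit 5) (nat_lit 428) (nat_lit 330) (nat_lit 142)) (XT.lf (nat_lit 0) (nat_lit 2673940528) (nat_lit 76) (nat_lit 53518677359) (nat_lit 152) (nat_lit 8251655570) (nat_lit 35) (nat_lit 5) (nat_lit 36) (nat_lit 5) (nat_lit 37) (nat_lit 4) (nat_lit 429) (nat_lit 330) (nat_lit 141)))) (XT.nd (nat_lit 156) (nat_lit 152) (nat_lit 0) (XT.nd (nat_lit 78) (nat_lit 0) (nat_lit 0) (XT.lf (nat_lit 0) (nat_lit 3319008334) (nat_lit 152) (nat_lit 36658678231) (nat_lit 76) (nat_lit 25954795671) (nat_lit 34) (nat_lit 5) (nat_lit 36) (nat_lit 5) (nat_lit 35) (nat_lit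 5) (nat_lit 430) (nat_lit 330) (nat_lit 140)) (XT.lf (nat_lit 0) (nat_lit 15067764801) (nat_lit 152) (nat_lit 10881100913) (nat_lit 76) (nat_lit 41514116566) (nat_lit 34) (nat_lit 5) (nat_lit 36) (nat_lit 5) (nat_lit 35) (nat_lit 5) (nat_lit 431) (nat_lit 330) (nat_lit 139))) (XT.nd (nat_lit 78) (nat_lit 0) (nat_lit 0) (XT.lf (nat_lit 0) (nat_lit 15975992231) (nat_lit 152) (nat_lit 11343478033) (nat_lit 228) (nat_lit 41715413122) (nat_lit 32) (nat_lit 5) (nat_lit 34) (nat_lit 5) (nat_lit 35) (nat_lit 5) (nat_lit 432) (nat_lit 330) (nat_lit 138)) (XT.lf (nat_lit 0) (nat_lit 40082188503) (nat_lit 228) (nat_lit 26831024932) (nat_lit 76) (nat_lit 3736424876) (nat_lit 32) (nat_lit 5) (nat_lit 35) (nat_lit 5) (nat_lit 33) (nat_lit 4) (nat_lit 433) (nat_lit 330) (nat_lit 137))))))) (XT.nd (nat_lit 39624) (nat_lit 0) (nat_lit 12084) (XT.nd (nat_lit 39078) (nat_lit 0) (nat_lit 15124) (XT.nd (nat_lit 38844) (nat_lit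 0) (nat_lit 16036) (XT.nd (nat_lit 78) (nat_lit 76) (nat_lit 0) (XT.lf (nat_lit 0) (nat_lit 67266020) (nat_lit 76) (nat_lit 53270498573) (nat_lit 152) (nat_lit 18971772616) (nat_lit 31) (nat_lit 5) (nat_lit 32) (nat_lit 5) (nat_lit 33) (nat_lit 4) (nat_lit 434) (nat_lit 330) (nat_lit 136)) (XT.nd (nat_lit 78) (nat_lit 76) (nat_lit 0) (XT.lf (nat_lit 0) (nat_lit 28317156272) (nat_lit 76) (nat_lit 38941845811) (nat_lit 152) (nat_lit 6752191762) (nat_lit 31) (nat_lit 5) (nat_lit 32) (nat_lit 5) (nat_lit 33) (nat_lit 4) (nat_lit 435) (nat_lit 330) (nat_lit 135)) (XT.lf (nat_lit 0) (nat_lit 5717244929) (nat_lit 152) (nat_lit 18410697817) (nat_lit 76) (nat_lit 51634362294) (nat_lit 30) (nat_lit 5) (nat_lit 32) (nat_lit 5) (nat_lit 31) (nat_lit 5) (nat_lit 436) (nat_lit 330) (nat_lit 134)))) (XT.nd (nat_lit 78) (nat_lit 0) (nat_lit 0) (XT.lf (nat_lit 0) (nat_lit 3140475761) (nat_lit 1140) (nat_lit 1084406981)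 (nat_lit 1140) (nat_lit 1084406981) (nat_lit 241) (nat_lit 3) (nat_lit 256) (nat_lit 3) (nat_lit 256) (nat_lit 5) (nat_lit 331) (nat_lit 331) (nat_lit 238)) (XT.nd (nat_lit 78) (nat_lit 0) (nat_lit 76) (XT.lf (nat_lit 76) (nat_lit 2881013615) (nat_lit 0) (nat_lit 4116739864) (nat_lit 1140) (nat_lit 3760941816) (nat_lit 242) (nat_lit 5) (nat_lit 241) (nat_lit 3) (nat_lit 256) (nat_lit 5) (nat_lit 332) (nat_lit 331) (nat_lit 237)) (XT.lf (nat_lit 0) (nat_lit 7738278363) (nat_lit 1064) (nat_lit 2792138824) (nat_lit 1140) (nat_lit 372549803) (nat_lit 242) (nat_lit 5) (nat_lit 256) (nat_lit 5) (nat_lit 257) (nat_lit 5) (nat_lit 333) (nat_lit 331) (nat_lit 236))))) (XT.nd (nat_lit 234) (nat_lit 988) (nat_lit 0) (XT.nd (nat_lit 78) (nat_lit 0) (nat_lit 0) (XT.lf (nat_lit 76) (nat_lit 2440176323) (nat_lit 0) (nat_lit 6102508099) (nat_lit 1140) (nat_lit 2507650834) (nat_lit 243) (nat_lit 5) (nat_lit 242) (nat_lit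 5) (nat_lit 257) (nat_lit 5) (nat_lit 334) (nat_lit 331) (nat_lit 235)) (XT.nd (nat_lit 78) (nat_lit 0) (nat_lit 76) (XT.lf (nat_lit 76) (nat_lit 7874170239) (nat_lit 0) (nat_lit 1503233121) (nat_lit 1140) (nat_lit 1824553640) (nat_lit 243) (nat_lit 5) (nat_lit 242) (nat_lit 5) (nat_lit 257) (nat_lit 5) (nat_lit 335) (nat_lit 331) (nat_lit 234)) (XT.lf (nat_lit 76) (nat_lit 2110238541) (nat_lit 0) (nat_lit 8157012917) (nat_lit 1140) (nat_lit 1089990639) (nat_lit 244) (nat_lit 5) (nat_lit 243) (nat_lit 5) (nat_lit 258) (nat_lit 5) (nat_lit 336) (nat_lit 331) (nat_lit 233)))) (XT.nd (nat_lit 156) (nat_lit 0) (nat_lit 0) (XT.nd (nat_lit 78) (nat_lit 1064) (nat_lit 0) (XT.lf (nat_lit 76) (nat_lit 7751658814) (nat_lit 0) (nat_lit 3459690265) (nat_lit 1140) (nat_lit 305026871) (nat_lit 244) (nat_lit 5) (nat_lit 243) (nat_lit 5) (nat_lit 258) (nat_lit 5) (nat_lit 337) (nat_lit 331) (nat_lit 232)) (XT.lf (nat_lit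 0) (nat_lit 505094197) (nat_lit 1140) (nat_lit 9792300549) (nat_lit 1216) (nat_lit 1382416742) (nat_lit 229) (nat_lit 5) (nat_lit 244) (nat_lit 5) (nat_lit 245) (nat_lit 5) (nat_lit 338) (nat_lit 331) (nat_lit 231))) (XT.nd (nat_lit 78) (nat_lit 0) (nat_lit 0) (XT.lf (nat_lit 0) (nat_lit 1386178562) (nat_lit 1140) (nat_lit 4111570301) (nat_lit 1216) (nat_lit 6348742312) (nat_lit 229) (nat_lit 5) (nat_lit 244) (nat_lit 5) (nat_lit 245) (nat_lit 5) (nat_lit 339) (nat_lit 331) (nat_lit 230)) (XT.lf (nat_lit 76) (nat_lit 1760945466) (nat_lit 0) (nat_lit 530399007) (nat_lit 1216) (nat_lit 9726912255) (nat_lit 230) (nat_lit 5) (nat_lit 229) (nat_lit 5) (nat_lit 245) (nat_lit 5) (nat_lit 340) (nat_lit 331) (nat_lit 229)))))) (XT.nd (nat_lit 546) (nat_lit 3116) (nat_lit 0) (XT.nd (nat_lit 234) (nat_lit 0) (nat_lit 76) (XT.nd (nat_lit 78) (nat_lit 0) (nat_lit 0) (XT.lf (nat_lit 0) (nat_lit 3290895287) (nat_lit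 1140) (nat_lit 4358012503) (nat_lit 1216) (nat_lit 4544265076) (nat_lit 230) (nat_lit 5) (nat_lit 245) (nat_lit 5) (nat_lit 246) (nat_lit 5) (nat_lit 341) (nat_lit 331) (nat_lit 228)) (XT.nd (nat_lit 78) (nat_lit 0) (nat_lit 76) (XT.lf (nat_lit 76) (nat_lit 1733730066) (nat_lit 0) (nat_lit 2590383675) (nat_lit 1216) (nat_lit 8049126403) (nat_lit 231) (nat_lit 5) (nat_lit 230) (nat_lit 5) (nat_lit 246) (nat_lit 5) (nat_lit 342) (nat_lit 331) (nat_lit 227)) (XT.lf (nat_lit 0) (nat_lit 5440172728) (nat_lit 1140) (nat_lit 4499030629) (nat_lit 1216) (nat_lit 2617964443) (nat_lit 231) (nat_lit 5) (nat_lit 246) (nat_lit 5) (nat_lit 247) (nat_lit 5) (nat_lit 343) (nat_lit 331) (nat_lit 226)))) (XT.nd (nat_lit 156) (nat_lit 0) (nat_lit 76) (XT.nd (nat_lit 78) (nat_lit 0) (nat_lit 76) (XT.lf (nat_lit 76) (nat_lit 1822391291) (nat_lit 0) (nat_lit 4793222290) (nat_lit 1216) (nat_lit 6130235985) (nat_lit 232) (nat_lit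 5) (nat_lit 231) (nat_lit 5) (nat_lit 247) (nat_lit 5) (nat_lit 344) (nat_lit 331) (nat_lit 225)) (XT.lf (nat_lit 0) (nat_lit 7860222769) (nat_lit 1140) (nat_lit 4532085045) (nat_lit 1216) (nat_lit 546879713) (nat_lit 232) (nat_lit 5) (nat_lit 247) (nat_lit 5) (nat_lit 248) (nat_lit 5) (nat_lit 345) (nat_lit 331) (nat_lit 224))) (XT.nd (nat_lit 78) (nat_lit 0) (nat_lit 0) (XT.lf (nat_lit 76) (nat_lit 2029967153) (nat_lit 0) (nat_lit 7162813799) (nat_lit 1216) (nat_lit 3944038872) (nat_lit 233) (nat_lit 5) (nat_lit 232) (nat_lit 5) (nat_lit 248) (nat_lit 5) (nat_lit 346) (nat_lit 331) (nat_lit 223)) (XT.lf (nat_lit 76) (nat_lit 8868697239) (nat_lit 0) (nat_lit 1726374315) (nat_lit 1216) (nat_lit 2744429021) (nat_lit 233) (nat_lit 5) (nat_lit 232) (nat_lit 5) (nat_lit 248) (nat_lit 5) (nat_lit 347) (nat_lit 331) (nat_lit 222))))) (XT.nd (nat_lit 234) (nat_lit 1140) (nat_lit 0) (XT.nd (nat_lit 78) (nat_lit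 1064) (nat_lit 0) (XT.lf (nat_lit 0) (nat_lit 2359935986) (nat_lit 1140) (nat_lit 9723895272) (nat_lit 1216) (nat_lit 1463110277) (nat_lit 218) (nat_lit 5) (nat_lit 233) (nat_lit 5) (nat_lit 234) (nat_lit 5) (nat_lit 348) (nat_lit 331) (nat_lit 221)) (XT.nd (nat_lit 78) (nat_lit 1064) (nat_lit 0) (XT.lf (nat_lit 0) (nat_lit 9456729924) (nat_lit 1140) (nat_lit 4207405658) (nat_lit 1216) (nat_lit 95075146) (nat_lit 218) (nat_lit 5) (nat_lit 233) (nat_lit 5) (nat_lit 234) (nat_lit 5) (nat_lit 349) (nat_lit 331) (nat_lit 220)) (XT.lf (nat_lit 0) (nat_lit 1315129574) (nat_lit 1064) (nat_lit 11173771822) (nat_lit 76) (nat_lit 1487775387) (nat_lit 204) (nat_lit 5) (nat_lit 218) (nat_lit 5) (nat_lit 205) (nat_lit 5) (nat_lit 350) (nat_lit 331) (nat_lit 219)))) (XT.nd (nat_lit 156) (nat_lit 532) (nat_lit 0) (XT.nd (nat_lit 78) (nat_lit 608) (nat_lit 0) (XT.lf (nat_lit 0) (nat_lit 2836686289) (nat_lit 1064) (nat_lit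 4046088768) (nat_lit 76) (nat_lit 7315745304) (nat_lit 204) (nat_lit 5) (nat_lit 218) (nat_lit 5) (nat_lit 205) (nat_lit 5) (nat_lit 351) (nat_lit 331) (nat_lit 218)) (XT.lf (nat_lit 0) (nat_lit 3347795723) (nat_lit 608) (nat_lit 1074122132) (nat_lit 684) (nat_lit 10004570728) (nat_lit 196) (nat_lit 5) (nat_lit 204) (nat_lit 5) (nat_lit 205) (nat_lit 5) (nat_lit 352) (nat_lit 331) (nat_lit 217))) (XT.nd (nat_lit 78) (nat_lit 532) (nat_lit 0) (XT.lf (nat_lit 0) (nat_lit 6129300686) (nat_lit 684) (nat_lit 3674488674) (nat_lit 76) (nat_lit 4855278543) (nat_lit 196) (nat_lit 5) (nat_lit 205) (nat_lit 5) (nat_lit 197) (nat_lit 5) (nat_lit 353) (nat_lit 331) (nat_lit 216)) (XT.lf (nat_lit 0) (nat_lit 4006509232) (nat_lit 532) (nat_lit 3917093104) (nat_lit 608) (nat_lit 6973960942) (nat_lit 189) (nat_lit 5) (nat_lit 196) (nat_lit 5) (nat_lit 197) (nat_lit 5) (nat_lit 354) (nat_lit 331) (nat_lit 215))))))))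
noncomputable def xc180 : XT := (XT.nd (nat_lit 2028) (nat_lit 3572) (nat_lit 0) (XT.nd (nat_lit 1014) (nat_lit 2660) (nat_lit 0) (XT.nd (nat_lit 468) (nat_lit 1900) (nat_lit 0) (XT.nd (nat_lit 234) (nat_lit 1140) (nat_lit 0) (XT.nd (nat_lit 78) (nat_lit 608) (nat_lit 0) (XT.lf (nat_lit 0) (nat_lit 9816658913) (nat_lit 608) (nat_lit 3182999444) (nat_lit 76) (nat_lit 2142216696) (nat_lit 189) (nat_lit 5) (nat_lit 197) (nat_lit 5) (nat_lit 190) (nat_lit 5) (nat_lit 355) (nat_lit 331) (nat_lit 214)) (XT.nd (nat_lit 78) (nat_lit 0) (nat_lit 0) (XT.lf (nat_lit 0) (nat_lit 4798368931) (nat_lit 608) (nat_lit 7040252760) (nat_lit 684) (nat_lit 3552740101) (nat_lit 181) (nat_lit 5) (nat_lit 189) (nat_lit 5) (nat_lit 190) (nat_lit 5) (nat_lit 356) (nat_lit 331) (nat_lit 213)) (XT.lf (nat_lit 0) (nat_lit 13071773778) (nat_lit 608) (nat_lit 869069169) (nat_lit 684) (nat_lit 1706910976) (nat_lit 181) (nat_lit 5) (nat_lit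 189) (nat_lit 5) (nat_lit 190) (nat_lit 5) (nat_lit 357) (nat_lit 331) (nat_lit 212)))) (XT.nd (nat_lit 78) (nat_lit 532) (nat_lit 0) (XT.lf (nat_lit 0) (nat_lit 287068940) (nat_lit 608) (nat_lit 10183880785) (nat_lit 76) (nat_lit 5437943324) (nat_lit 173) (nat_lit 5) (nat_lit 181) (nat_lit 5) (nat_lit 174) (nat_lit 5) (nat_lit 358) (nat_lit 331) (nat_lit 211)) (XT.nd (nat_lit 78) (nat_lit 532) (nat_lit 0) (XT.lf (nat_lit 0) (nat_lit 2329365259) (nat_lit 608) (nat_lit 1887790155) (nat_lit 76) (nat_lit 11959527841) (nat_lit 173) (nat_lit 5) (nat_lit 181) (nat_lit 5) (nat_lit 174) (nat_lit 5) (nat_lit 359) (nat_lit 331) (nat_lit 210)) (XT.lf (nat_lit 0) (nat_lit 4508375796) (nat_lit 608) (nat_lit 9695913317) (nat_lit 76) (nat_lit 2245962494) (nat_lit 166) (nat_lit 5) (nat_lit 174) (nat_lit 5) (nat_lit 167) (nat_lit 5) (nat_lit 360) (nat_lit 331) (nat_lit 209))))) (XT.nd (nat_lit 234) (nat_lit 1444) (nat_lit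 0) (XT.nd (nat_lit 78) (nat_lit 456) (nat_lit 0) (XT.lf (nat_lit 0) (nat_lit 6802259225) (nat_lit 608) (nat_lit 1091601729) (nat_lit 76) (nat_lit 8836688554) (nat_lit 166) (nat_lit 5) (nat_lit 174) (nat_lit 5) (nat_lit 167) (nat_lit 5) (nat_lit 361) (nat_lit 331) (nat_lit 208)) (XT.nd (nat_lit 78) (nat_lit 0) (nat_lit 0) (XT.lf (nat_lit 0) (nat_lit 7912985701) (nat_lit 456) (nat_lit 1316869799) (nat_lit 532) (nat_lit 7787461308) (nat_lit 160) (nat_lit 5) (nat_lit 166) (nat_lit 5) (nat_lit 167) (nat_lit 5) (nat_lit 362) (nat_lit 331) (nat_lit 207)) (XT.lf (nat_lit 0) (nat_lit 11782901052) (nat_lit 532) (nat_lit 167306883) (nat_lit 76) (nat_lit 5360907691) (nat_lit 160) (nat_lit 5) (nat_lit 167) (nat_lit 5) (nat_lit 161) (nat_lit 5) (nat_lit 363) (nat_lit 331) (nat_lit 206)))) (XT.nd (nat_lit 156) (nat_lit 532) (nat_lit 0) (XT.nd (nat_lit 78) (nat_lit 456) (nat_lit 0) (XT.lf (nat_lit 0) (nat_lit 9192054348)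 (nat_lit 456) (nat_lit 5311230175) (nat_lit 532) (nat_lit 3107728421) (nat_lit 154) (nat_lit 5) (nat_lit 160) (nat_lit 5) (nat_lit 161) (nat_lit 5) (nat_lit 364) (nat_lit 331) (nat_lit 205)) (XT.lf (nat_lit 0) (nat_lit 906471153) (nat_lit 456) (nat_lit 16413434646) (nat_lit 532) (nat_lit 599569322) (nat_lit 148) (nat_lit 5) (nat_lit 154) (nat_lit 5) (nat_lit 155) (nat_lit 5) (nat_lit 365) (nat_lit 331) (nat_lit 204))) (XT.nd (nat_lit 78) (nat_lit 456) (nat_lit 0) (XT.lf (nat_lit 0) (nat_lit 2073174583) (nat_lit 532) (nat_lit 7635279683) (nat_lit 76) (nat_lit 8524329593) (nat_lit 147) (nat_lit 5) (nat_lit 154) (nat_lit 5) (nat_lit 148) (nat_lit 5) (nat_lit 366) (nat_lit 331) (nat_lit 203)) (XT.lf (nat_lit 0) (nat_lit 2045735235) (nat_lit 456) (nat_lit 2777890987) (nat_lit 532) (nat_lit 13731406420) (nat_lit 141) (nat_lit 5) (nat_lit 147) (nat_lit 5) (nat_lit 148) (nat_lit 5) (nat_lit 367) (nat_lit 331)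 (nat_lit 202)))))) (XT.nd (nat_lit 468) (nat_lit 1444) (nat_lit 0) (XT.nd (nat_lit 234) (nat_lit 836) (nat_lit 0) (XT.nd (nat_lit 78) (nat_lit 380) (nat_lit 0) (XT.lf (nat_lit 0) (nat_lit 7766444297) (nat_lit 532) (nat_lit 6765810130) (nat_lit 76) (nat_lit 4351404854) (nat_lit 141) (nat_lit 5) (nat_lit 148) (nat_lit 5) (nat_lit 142) (nat_lit 5) (nat_lit 368) (nat_lit 331) (nat_lit 201)) (XT.nd (nat_lit 78) (nat_lit 0) (nat_lit 0) (XT.lf (nat_lit 0) (nat_lit 3294938477) (nat_lit 380) (nat_lit 7552145954) (nat_lit 456) (nat_lit 8373579970) (nat_lit 136) (nat_lit 5) (nat_lit 141) (nat_lit 5) (nat_lit 142) (nat_lit 5) (nat_lit 369) (nat_lit 331) (nat_lit 200)) (XT.lf (nat_lit 0) (nat_lit 13784482517) (nat_lit 380) (nat_lit 294511450) (nat_lit 456) (nat_lit 5487025835) (nat_lit 136) (nat_lit 5) (nat_lit 141) (nat_lit 5) (nat_lit 142) (nat_lit 5) (nat_lit 370) (nat_lit 331) (nat_lit 199)))) (XT.nd (nat_lit 78)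 (nat_lit 456) (nat_lit 0) (XT.lf (nat_lit 0) (nat_lit 4677588360) (nat_lit 380) (nat_lit 12835046676) (nat_lit 456) (nat_lit 2405963075) (nat_lit 131) (nat_lit 5) (nat_lit 136) (nat_lit 5) (nat_lit 137) (nat_lit 5) (nat_lit 371) (nat_lit 331) (nat_lit 198)) (XT.nd (nat_lit 78) (nat_lit 380) (nat_lit 0) (XT.lf (nat_lit 0) (nat_lit 805276868) (nat_lit 456) (nat_lit 4733582395) (nat_lit 76) (nat_lit 14741096645) (nat_lit 130) (nat_lit 5) (nat_lit 136) (nat_lit 5) (nat_lit 131) (nat_lit 5) (nat_lit 372) (nat_lit 331) (nat_lit 197)) (XT.lf (nat_lit 0) (nat_lit 4134757485) (nat_lit 456) (nat_lit 14495367315) (nat_lit 76) (nat_lit 2019212176) (nat_lit 125) (nat_lit 5) (nat_lit 131) (nat_lit 5) (nat_lit 126) (nat_lit 5) (nat_lit 373) (nat_lit 331) (nat_lit 196))))) (XT.nd (nat_lit 234) (nat_lit 1064) (nat_lit 0) (XT.nd (nat_lit 78) (nat_lit 380) (nat_lit 0) (XT.lf (nat_lit 0) (nat_lit 7658475271) (nat_lit 456)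 (nat_lit 3629998698) (nat_lit 76) (nat_lit 9738499787) (nat_lit 125) (nat_lit 5) (nat_lit 131) (nat_lit 5) (nat_lit 126) (nat_lit 5) (nat_lit 374) (nat_lit 331) (nat_lit 195)) (XT.nd (nat_lit 78) (nat_lit 0) (nat_lit 0) (XT.lf (nat_lit 0) (nat_lit 7700427211) (nat_lit 380) (nat_lit 3652993153) (nat_lit 456) (nat_lit 10060558523) (nat_lit 120) (nat_lit 5) (nat_lit 125) (nat_lit 5) (nat_lit 126) (nat_lit 5) (nat_lit 375) (nat_lit 331) (nat_lit 194)) (XT.lf (nat_lit 0) (nat_lit 15228326730) (nat_lit 456) (nat_lit 2418451096) (nat_lit 76) (nat_lit 4163747539) (nat_lit 120) (nat_lit 5) (nat_lit 126) (nat_lit 5) (nat_lit 121) (nat_lit 5) (nat_lit 376) (nat_lit 331) (nat_lit 193)))) (XT.nd (nat_lit 156) (nat_lit 684) (nat_lit 0) (XT.nd (nat_lit 78) (nat_lit 76) (nat_lit 0) (XT.lf (nat_lit 0) (nat_lit 9350844688) (nat_lit 304) (nat_lit 9986544360) (nat_lit 380) (nat_lit 2878046376) (nat_lit 116) (nat_lit 5) (nat_lit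 120) (nat_lit 5) (nat_lit 121) (nat_lit 5) (nat_lit 377) (nat_lit 331) (nat_lit 192)) (XT.lf (nat_lit 0) (nat_lit 935508970) (nat_lit 380) (nat_lit 1129232057) (nat_lit 76) (nat_lit 20566988658) (nat_lit 115) (nat_lit 5) (nat_lit 120) (nat_lit 5) (nat_lit 116) (nat_lit 5) (nat_lit 378) (nat_lit 331) (nat_lit 191))) (XT.nd (nat_lit 78) (nat_lit 304) (nat_lit 0) (XT.lf (nat_lit 0) (nat_lit 4964714657) (nat_lit 456) (nat_lit 11980281176) (nat_lit 76) (nat_lit 6109893460) (nat_lit 110) (nat_lit 5) (nat_lit 116) (nat_lit 5) (nat_lit 111) (nat_lit 5) (nat_lit 379) (nat_lit 331) (nat_lit 190)) (XT.lf (nat_lit 0) (nat_lit 148860081) (nat_lit 304) (nat_lit 8991565613) (nat_lit 380) (nat_lit 14349553072) (nat_lit 106) (nat_lit 5) (nat_lit 110) (nat_lit 5) (nat_lit 111) (nat_lit 5) (nat_lit 380) (nat_lit 331) (nat_lit 189))))))) (XT.nd (nat_lit 1014) (nat_lit 1748) (nat_lit 0) (XT.nd (nat_lit 468) (nat_lit 836) (nat_lit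 0) (XT.nd (nat_lit 234) (nat_lit 684) (nat_lit 0) (XT.nd (nat_lit 78) (nat_lit 304) (nat_lit 0) (XT.lf (nat_lit 0) (nat_lit 12876766583) (nat_lit 304) (nat_lit 677981415) (nat_lit 380) (nat_lit 10379976565) (nat_lit 106) (nat_lit 5) (nat_lit 110) (nat_lit 5) (nat_lit 111) (nat_lit 5) (nat_lit 381) (nat_lit 331) (nat_lit 188)) (XT.nd (nat_lit 78) (nat_lit 0) (nat_lit 0) (XT.lf (nat_lit 0) (nat_lit 1537321458) (nat_lit 304) (nat_lit 16647308249) (nat_lit 380) (nat_lit 6205692862) (nat_lit 102) (nat_lit 5) (nat_lit 106) (nat_lit 5) (nat_lit 107) (nat_lit 5) (nat_lit 382) (nat_lit 331) (nat_lit 187)) (XT.lf (nat_lit 0) (nat_lit 14719814789) (nat_lit 304) (nat_lit 8344576268) (nat_lit 380) (nat_lit 1791871578) (nat_lit 102) (nat_lit 5) (nat_lit 106) (nat_lit 5) (nat_lit 107) (nat_lit 5) (nat_lit 383) (nat_lit 331) (nat_lit 186)))) (XT.nd (nat_lit 78) (nat_lit 304) (nat_lit 0) (XT.lf (nat_lit 0) (nat_lit 2724611598)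 (nat_lit 380) (nat_lit 22354235534) (nat_lit 76) (nat_lit 255823039) (nat_lit 97) (nat_lit 5) (nat_lit 102) (nat_lit 5) (nat_lit 98) (nat_lit 5) (nat_lit 384) (nat_lit 331) (nat_lit 185)) (XT.nd (nat_lit 78) (nat_lit 304) (nat_lit 0) (XT.lf (nat_lit 0) (nat_lit 7519458830) (nat_lit 380) (nat_lit 9237523810) (nat_lit 76) (nat_lit 9064551832) (nat_lit 97) (nat_lit 5) (nat_lit 102) (nat_lit 5) (nat_lit 98) (nat_lit 5) (nat_lit 385) (nat_lit 331) (nat_lit 184)) (XT.lf (nat_lit 0) (nat_lit 4347424985) (nat_lit 304) (nat_lit 8145616741) (nat_lit 380) (nat_lit 13828919482) (nat_lit 93) (nat_lit 5) (nat_lit 97) (nat_lit 5) (nat_lit 98) (nat_lit 5) (nat_lit 386) (nat_lit 331) (nat_lit 183))))) (XT.nd (nat_lit 234) (nat_lit 532) (nat_lit 0) (XT.nd (nat_lit 78) (nat_lit 304) (nat_lit 0) (XT.lf (nat_lit 0) (nat_lit 17710171143) (nat_lit 380) (nat_lit 8323379233) (nat_lit 76) (nat_lit 801023320) (nat_lit 93) (nat_lit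 5) (nat_lit 98) (nat_lit 5) (nat_lit 94) (nat_lit 5) (nat_lit 387) (nat_lit 331) (nat_lit 182)) (XT.nd (nat_lit 78) (nat_lit 76) (nat_lit 0) (XT.lf (nat_lit 0) (nat_lit 5759165865) (nat_lit 228) (nat_lit 17454031869) (nat_lit 304) (nat_lit 4145488356) (nat_lit 90) (nat_lit 5) (nat_lit 93) (nat_lit 5) (nat_lit 94) (nat_lit 5) (nat_lit 388) (nat_lit 331) (nat_lit 181)) (XT.lf (nat_lit 0) (nat_lit 1041901882) (nat_lit 304) (nat_lit 7481387582) (nat_lit 76) (nat_lit 19372603237) (nat_lit 89) (nat_lit 5) (nat_lit 93) (nat_lit 5) (nat_lit 90) (nat_lit 5) (nat_lit 389) (nat_lit 331) (nat_lit 180)))) (XT.nd (nat_lit 156) (nat_lit 228) (nat_lit 0) (XT.nd (nat_lit 78) (nat_lit 0) (nat_lit 0) (XT.lf (nat_lit 0) (nat_lit 6371459844) (nat_lit 380) (nat_lit 21304543041) (nat_lit 76) (nat_lit 769888078) (nat_lit 85) (nat_lit 5) (nat_lit 90) (nat_lit 5) (nat_lit 86) (nat_lit 5) (nat_lit 390) (nat_lit 331) (nat_lit 179))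 (XT.lf (nat_lit 0) (nat_lit 12015249332) (nat_lit 380) (nat_lit 6748827155) (nat_lit 76) (nat_lit 10243685035) (nat_lit 85) (nat_lit 5) (nat_lit 90) (nat_lit 5) (nat_lit 86) (nat_lit 5) (nat_lit 391) (nat_lit 331) (nat_lit 178))) (XT.nd (nat_lit 78) (nat_lit 0) (nat_lit 0) (XT.lf (nat_lit 0) (nat_lit 8398024248) (nat_lit 228) (nat_lit 9504900292) (nat_lit 304) (nat_lit 11681329109) (nat_lit 82) (nat_lit 5) (nat_lit 85) (nat_lit 5) (nat_lit 86) (nat_lit 5) (nat_lit 392) (nat_lit 331) (nat_lit 177)) (XT.lf (nat_lit 0) (nat_lit 24030266269) (nat_lit 304) (nat_lit 6048825956) (nat_lit 76) (nat_lit 97059765) (nat_lit 82) (nat_lit 5) (nat_lit 86) (nat_lit 5) (nat_lit 83) (nat_lit 5) (nat_lit 393) (nat_lit 331) (nat_lit 176)))))) (XT.nd (nat_lit 546) (nat_lit 684) (nat_lit 0) (XT.nd (nat_lit 234) (nat_lit 532) (nat_lit 0) (XT.nd (nat_lit 78) (nat_lit 304) (nat_lit 0) (XT.lf (nat_lit 0) (nat_lit 9627257437) (nat_lit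 228) (nat_lit 20894902887) (nat_lit 304) (nat_lit 258227459) (nat_lit 79) (nat_lit 5) (nat_lit 82) (nat_lit 5) (nat_lit 83) (nat_lit 5) (nat_lit 394) (nat_lit 331) (nat_lit 175)) (XT.nd (nat_lit 78) (nat_lit 228) (nat_lit 0) (XT.lf (nat_lit 0) (nat_lit 5748555257) (nat_lit 304) (nat_lit 5568942211) (nat_lit 76) (nat_lit 20081907404) (nat_lit 78) (nat_lit 5) (nat_lit 82) (nat_lit 5) (nat_lit 79) (nat_lit 5) (nat_lit 395) (nat_lit 331) (nat_lit 174)) (XT.lf (nat_lit 0) (nat_lit 10679655974) (nat_lit 228) (nat_lit 1347632240) (nat_lit 304) (nat_lit 20006721707) (nat_lit 75) (nat_lit 5) (nat_lit 78) (nat_lit 5) (nat_lit 79) (nat_lit 5) (nat_lit 396) (nat_lit 331) (nat_lit 173)))) (XT.nd (nat_lit 156) (nat_lit 304) (nat_lit 0) (XT.nd (nat_lit 78) (nat_lit 228) (nat_lit 0) (XT.lf (nat_lit 0) (nat_lit 18631260484) (nat_lit 304) (nat_lit 5251420167) (nat_lit 76) (nat_lit 8800868340) (nat_lit 75) (nat_lit 5) (nat_lit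 79) (nat_lit 5) (nat_lit 76) (nat_lit 5) (nat_lit 397) (nat_lit 331) (nat_lit 172)) (XT.lf (nat_lit 0) (nat_lit 11537652304) (nat_lit 228) (nat_lit 14014442560) (nat_lit 304) (nat_lit 7796919206) (nat_lit 72) (nat_lit 5) (nat_lit 75) (nat_lit 5) (nat_lit 76) (nat_lit 5) (nat_lit 398) (nat_lit 331) (nat_lit 171))) (XT.nd (nat_lit 78) (nat_lit 304) (nat_lit 0) (XT.lf (nat_lit 0) (nat_lit 28929384094) (nat_lit 228) (nat_lit 3798769438) (nat_lit 304) (nat_lit 1304863654) (nat_lit 72) (nat_lit 5) (nat_lit 75) (nat_lit 5) (nat_lit 76) (nat_lit 5) (nat_lit 399) (nat_lit 331) (nat_lit 170)) (XT.lf (nat_lit 0) (nat_lit 5455975363) (nat_lit 304) (nat_lit 22514091378) (nat_lit 76) (nat_lit 6760552267) (nat_lit 68) (nat_lit 5) (nat_lit 72) (nat_lit 5) (nat_lit 69) (nat_lit 5) (nat_lit 400) (nat_lit 331) (nat_lit 169))))) (XT.nd (nat_lit 234) (nat_lit 456) (nat_lit 0) (XT.nd (nat_lit 78) (nat_lit 228) (nat_lit 0) (XT.lf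 (nat_lit 0) (nat_lit 12477789273) (nat_lit 304) (nat_lit 5346294238) (nat_lit 76) (nat_lit 17622148392) (nat_lit 68) (nat_lit 5) (nat_lit 72) (nat_lit 5) (nat_lit 69) (nat_lit 5) (nat_lit 401) (nat_lit 331) (nat_lit 168)) (XT.nd (nat_lit 78) (nat_lit 0) (nat_lit 0) (XT.lf (nat_lit 0) (nat_lit 12573579215) (nat_lit 228) (nat_lit 7252414835) (nat_lit 304) (nat_lit 16353848877) (nat_lit 65) (nat_lit 5) (nat_lit 68) (nat_lit 5) (nat_lit 69) (nat_lit 5) (nat_lit 402) (nat_lit 331) (nat_lit 167)) (XT.lf (nat_lit 0) (nat_lit 27479033173) (nat_lit 304) (nat_lit 5837044803) (nat_lit 76) (nat_lit 3616854438) (nat_lit 65) (nat_lit 5) (nat_lit 69) (nat_lit 5) (nat_lit 66) (nat_lit 5) (nat_lit 403) (nat_lit 331) (nat_lit 166)))) (XT.nd (nat_lit 156) (nat_lit 228) (nat_lit 0) (XT.nd (nat_lit 78) (nat_lit 76) (nat_lit 0) (XT.lf (nat_lit 0) (nat_lit 12631825412) (nat_lit 152) (nat_lit 22918128444) (nat_lit 228) (nat_lit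 2153013745) (nat_lit 63) (nat_lit 5) (nat_lit 65) (nat_lit 5) (nat_lit 66) (nat_lit 5) (nat_lit 404) (nat_lit 331) (nat_lit 165)) (XT.lf (nat_lit 0) (nat_lit 5316773351) (nat_lit 228) (nat_lit 6780225316) (nat_lit 76) (nat_lit 26395921032) (nat_lit 62) (nat_lit 5) (nat_lit 65) (nat_lit 5) (nat_lit 63) (nat_lit 5) (nat_lit 405) (nat_lit 331) (nat_lit 164))) (XT.nd (nat_lit 78) (nat_lit 0) (nat_lit 0) (XT.lf (nat_lit 0) (nat_lit 12269631972) (nat_lit 228) (nat_lit 810911518) (nat_lit 304) (nat_lit 26221994056) (nat_lit 59) (nat_lit 5) (nat_lit 62) (nat_lit 5) (nat_lit 63) (nat_lit 5) (nat_lit 406) (nat_lit 331) (nat_lit 163)) (XT.lf (nat_lit 0) (nat_lit 21245574006) (nat_lit 304) (nat_lit 8216973966) (nat_lit 76) (nat_lit 10668847072) (nat_lit 59) (nat_lit 5) (nat_lit 63) (nat_lit 5) (nat_lit 60) (nat_lit 5) (nat_lit 407) (nat_lit 331) (nat_lit 162))))))))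
noncomputable def xc181 : XT := (XT.nd (nat_lit 2028) (nat_lit 76) (nat_lit 0) (XT.nd (nat_lit 1014) (nat_lit 912) (nat_lit 0) (XT.nd (nat_lit 468) (nat_lit 608) (nat_lit 0) (XT.nd (nat_lit 234) (nat_lit 152) (nat_lit 0) (XT.nd (nat_lit 78) (nat_lit 228) (nat_lit 0) (XT.lf (nat_lit 0) (nat_lit 11369568334) (nat_lit 152) (nat_lit 18398699353) (nat_lit 228) (nat_lit 11213470704) (nat_lit 57) (nat_lit 5) (nat_lit 59) (nat_lit 5) (nat_lit 60) (nat_lit 5) (nat_lit 408) (nat_lit 331) (nat_lit 161)) (XT.nd (nat_lit 78) (nat_lit 228) (nat_lit 0) (XT.lf (nat_lit 0) (nat_lit 31704522644) (nat_lit 152) (nat_lit 6920547957) (nat_lit 228) (nat_lit 3230170031) (nat_lit 57) (nat_lit 5) (nat_lit 59) (nat_lit 5) (nat_lit 60) (nat_lit 5) (nat_lit 409) (nat_lit 331) (nat_lit 160)) (XT.lf (nat_lit 0) (nat_lit 5035729224) (nat_lit 228) (nat_lit 32764360632) (nat_lit 76) (nat_lit 4949203970) (nat_lit 54) (nat_lit 5) (nat_lit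 57) (nat_lit 5) (nat_lit 55) (nat_lit 5) (nat_lit 410) (nat_lit 331) (nat_lit 159)))) (XT.nd (nat_lit 78) (nat_lit 152) (nat_lit 0) (XT.lf (nat_lit 0) (nat_lit 13652289752) (nat_lit 228) (nat_lit 12843400014) (nat_lit 76) (nat_lit 17168492493) (nat_lit 54) (nat_lit 5) (nat_lit 57) (nat_lit 5) (nat_lit 55) (nat_lit 5) (nat_lit 411) (nat_lit 331) (nat_lit 158)) (XT.nd (nat_lit 78) (nat_lit 0) (nat_lit 0) (XT.lf (nat_lit 0) (nat_lit 7820491379) (nat_lit 152) (nat_lit 14777730104) (nat_lit 228) (nat_lit 22006170914) (nat_lit 52) (nat_lit 5) (nat_lit 54) (nat_lit 5) (nat_lit 55) (nat_lit 5) (nat_lit 412) (nat_lit 331) (nat_lit 157)) (XT.lf (nat_lit 0) (nat_lit 29360344235) (nat_lit 152) (nat_lit 2577634881) (nat_lit 228) (nat_lit 13631067535) (nat_lit 52) (nat_lit 5) (nat_lit 54) (nat_lit 5) (nat_lit 55) (nat_lit 5) (nat_lit 413) (nat_lit 331) (nat_lit 156))))) (XT.nd (nat_lit 234) (nat_lit 228) (nat_lit 0)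 (XT.nd (nat_lit 78) (nat_lit 228) (nat_lit 0) (XT.lf (nat_lit 0) (nat_lit 4977752079) (nat_lit 152) (nat_lit 36719892372) (nat_lit 228) (nat_lit 4860805842) (nat_lit 50) (nat_lit 5) (nat_lit 52) (nat_lit 5) (nat_lit 53) (nat_lit 5) (nat_lit 414) (nat_lit 331) (nat_lit 155)) (XT.nd (nat_lit 78) (nat_lit 152) (nat_lit 0) (XT.lf (nat_lit 0) (nat_lit 4277821707) (nat_lit 228) (nat_lit 20514946396) (nat_lit 76) (nat_lit 22777965416) (nat_lit 49) (nat_lit 5) (nat_lit 52) (nat_lit 5) (nat_lit 50) (nat_lit 5) (nat_lit 415) (nat_lit 331) (nat_lit 154)) (XT.lf (nat_lit 0) (nat_lit 1150170472) (nat_lit 152) (nat_lit 12449778840) (nat_lit 228) (nat_lit 35011782075) (nat_lit 47) (nat_lit 5) (nat_lit 49) (nat_lit 5) (nat_lit 50) (nat_lit 5) (nat_lit 416) (nat_lit 331) (nat_lit 153)))) (XT.nd (nat_lit 156) (nat_lit 228) (nat_lit 0) (XT.nd (nat_lit 78) (nat_lit 0) (nat_lit 0) (XT.lf (nat_lit 0) (nat_lit 23409491291) (nat_lit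 228) (nat_lit 25803500336) (nat_lit 76) (nat_lit 464736124) (nat_lit 47) (nat_lit 5) (nat_lit 50) (nat_lit 5) (nat_lit 48) (nat_lit 5) (nat_lit 417) (nat_lit 331) (nat_lit 152)) (XT.lf (nat_lit 0) (nat_lit 33632706795) (nat_lit 228) (nat_lit 3625709756) (nat_lit 76) (nat_lit 13513706884) (nat_lit 47) (nat_lit 5) (nat_lit 50) (nat_lit 5) (nat_lit 48) (nat_lit 5) (nat_lit 418) (nat_lit 331) (nat_lit 151))) (XT.nd (nat_lit 78) (nat_lit 76) (nat_lit 0) (XT.lf (nat_lit 0) (nat_lit 19593198236) (nat_lit 152) (nat_lit 24753997410) (nat_lit 228) (nat_lit 7546619051) (nat_lit 45) (nat_lit 5) (nat_lit 47) (nat_lit 5) (nat_lit 48) (nat_lit 5) (nat_lit 419) (nat_lit 331) (nat_lit 150)) (XT.lf (nat_lit 0) (nat_lit 2321638124) (nat_lit 228) (nat_lit 9494420986) (nat_lit 76) (nat_lit 41231428889) (nat_lit 44) (nat_lit 5) (nat_lit 47) (nat_lit 5) (nat_lit 45) (nat_lit 5) (nat_lit 420) (nat_lit 331) (nat_lit 149))))))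 (XT.nd (nat_lit 468) (nat_lit 456) (nat_lit 0) (XT.nd (nat_lit 234) (nat_lit 152) (nat_lit 0) (XT.nd (nat_lit 78) (nat_lit 152) (nat_lit 0) (XT.lf (nat_lit 0) (nat_lit 12483617247) (nat_lit 228) (nat_lit 40054323110) (nat_lit 76) (nat_lit 1691109887) (nat_lit 42) (nat_lit 5) (nat_lit 45) (nat_lit 5) (nat_lit 43) (nat_lit 5) (nat_lit 421) (nat_lit 331) (nat_lit 148)) (XT.nd (nat_lit 78) (nat_lit 152) (nat_lit 0) (XT.lf (nat_lit 0) (nat_lit 23160644245) (nat_lit 228) (nat_lit 16818937996) (nat_lit 76) (nat_lit 15460172365) (nat_lit 42) (nat_lit 5) (nat_lit 45) (nat_lit 5) (nat_lit 43) (nat_lit 5) (nat_lit 422) (nat_lit 331) (nat_lit 147)) (XT.lf (nat_lit 0) (nat_lit 7248753130) (nat_lit 152) (nat_lit 26975387519) (nat_lit 228) (nat_lit 22460655564) (nat_lit 40) (nat_lit 5) (nat_lit 42) (nat_lit 5) (nat_lit 43) (nat_lit 5) (nat_lit 423) (nat_lit 331) (nat_lit 146)))) (XT.nd (nat_lit 78) (nat_lit 152) (nat_lit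 0) (XT.lf (nat_lit 0) (nat_lit 32377102738) (nat_lit 152) (nat_lit 13408800141) (nat_lit 228) (nat_lit 12176296212) (nat_lit 40) (nat_lit 5) (nat_lit 42) (nat_lit 5) (nat_lit 43) (nat_lit 5) (nat_lit 424) (nat_lit 331) (nat_lit 145)) (XT.nd (nat_lit 78) (nat_lit 152) (nat_lit 0) (XT.lf (nat_lit 0) (nat_lit 57696546067) (nat_lit 228) (nat_lit 1030092542) (nat_lit 76) (nat_lit 551225430) (nat_lit 40) (nat_lit 5) (nat_lit 43) (nat_lit 5) (nat_lit 41) (nat_lit 4) (nat_lit 425) (nat_lit 331) (nat_lit 144)) (XT.lf (nat_lit 0) (nat_lit 9518998659) (nat_lit 152) (nat_lit 36112316104) (nat_lit 76) (nat_lit 14987906532) (nat_lit 38) (nat_lit 5) (nat_lit 40) (nat_lit 5) (nat_lit 39) (nat_lit 5) (nat_lit 426) (nat_lit 331) (nat_lit 143))))) (XT.nd (nat_lit 234) (nat_lit 304) (nat_lit 0) (XT.nd (nat_lit 78) (nat_lit 152) (nat_lit 0) (XT.lf (nat_lit 0) (nat_lit 20927752138) (nat_lit 152) (nat_lit 11191013156) (nat_lit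 76) (nat_lit 29881368723) (nat_lit 38) (nat_lit 5) (nat_lit 40) (nat_lit 5) (nat_lit 39) (nat_lit 5) (nat_lit 427) (nat_lit 331) (nat_lit 142)) (XT.nd (nat_lit 78) (nat_lit 0) (nat_lit 0) (XT.lf (nat_lit 0) (nat_lit 14760250566) (nat_lit 152) (nat_lit 18057203543) (nat_lit 228) (nat_lit 30600860169) (nat_lit 36) (nat_lit 5) (nat_lit 38) (nat_lit 5) (nat_lit 39) (nat_lit 5) (nat_lit 428) (nat_lit 331) (nat_lit 141)) (XT.lf (nat_lit 0) (nat_lit 41713808952) (nat_lit 152) (nat_lit 3459885679) (nat_lit 228) (nat_lit 19702050601) (nat_lit 36) (nat_lit 5) (nat_lit 38) (nat_lit 5) (nat_lit 39) (nat_lit 5) (nat_lit 429) (nat_lit 331) (nat_lit 140)))) (XT.nd (nat_lit 156) (nat_lit 152) (nat_lit 0) (XT.nd (nat_lit 78) (nat_lit 76) (nat_lit 0) (XT.lf (nat_lit 0) (nat_lit 3041605242) (nat_lit 76) (nat_lit 54996433273) (nat_lit 152) (nat_lit 8334738808) (nat_lit 35) (nat_lit 5) (nat_lit 36) (nat_lit 5) (nat_lit 37)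 (nat_lit 4) (nat_lit 430) (nat_lit 331) (nat_lit 139)) (XT.lf (nat_lit 0) (nat_lit 3575138873) (nat_lit 152) (nat_lit 37476215389) (nat_lit 76) (nat_lit 26854372571) (nat_lit 34) (nat_lit 5) (nat_lit 36) (nat_lit 5) (nat_lit 35) (nat_lit 5) (nat_lit 431) (nat_lit 331) (nat_lit 138))) (XT.nd (nat_lit 78) (nat_lit 152) (nat_lit 0) (XT.lf (nat_lit 0) (nat_lit 15671798025) (nat_lit 152) (nat_lit 10933530845) (nat_lit 76) (nat_lit 42876950771) (nat_lit 34) (nat_lit 5) (nat_lit 36) (nat_lit 5) (nat_lit 35) (nat_lit 5) (nat_lit 432) (nat_lit 331) (nat_lit 137)) (XT.lf (nat_lit 0) (nat_lit 16726588789) (nat_lit 152) (nat_lit 11562646734) (nat_lit 228) (nat_lit 42812157767) (nat_lit 32) (nat_lit 5) (nat_lit 34) (nat_lit 5) (nat_lit 35) (nat_lit 5) (nat_lit 433) (nat_lit 331) (nat_lit 136))))))) (XT.nd (nat_lit 39702) (nat_lit 0) (nat_lit 12008) (XT.nd (nat_lit 39156) (nat_lit 0) (nat_lit 14972) (XT.nd (nat_lit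 38922) (nat_lit 0) (nat_lit 15960) (XT.nd (nat_lit 78) (nat_lit 76) (nat_lit 0) (XT.lf (nat_lit 0) (nat_lit 41431591615) (nat_lit 228) (nat_lit 27369267370) (nat_lit 76) (nat_lit 3963830096) (nat_lit 32) (nat_lit 5) (nat_lit 35) (nat_lit 5) (nat_lit 33) (nat_lit 4) (nat_lit 434) (nat_lit 331) (nat_lit 135)) (XT.nd (nat_lit 78) (nat_lit 0) (nat_lit 0) (XT.lf (nat_lit 0) (nat_lit 333357719) (nat_lit 76) (nat_lit 54749735974) (nat_lit 152) (nat_lit 19391344371) (nat_lit 31) (nat_lit 5) (nat_lit 32) (nat_lit 5) (nat_lit 33) (nat_lit 4) (nat_lit 435) (nat_lit 331) (nat_lit 134)) (XT.lf (nat_lit 0) (nat_lit 29423053212) (nat_lit 76) (nat_lit 39994686083) (nat_lit 152) (nat_lit 6809532832) (nat_lit 31) (nat_lit 5) (nat_lit 32) (nat_lit 5) (nat_lit 33) (nat_lit 4) (nat_lit 436) (nat_lit 331) (nat_lit 133)))) (XT.nd (nat_lit 78) (nat_lit 0) (nat_lit 0) (XT.lf (nat_lit 0) (nat_lit 3823865172) (nat_lit 1140) (nat_lit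 813273720) (nat_lit 1140) (nat_lit 813273720) (nat_lit 241) (nat_lit 3) (nat_lit 256) (nat_lit 3) (nat_lit 256) (nat_lit 5) (nat_lit 332) (nat_lit 332) (nat_lit 236)) (XT.nd (nat_lit 78) (nat_lit 0) (nat_lit 0) (XT.lf (nat_lit 76) (nat_lit 3568820740) (nat_lit 0) (nat_lit 4788675539) (nat_lit 1140) (nat_lit 2688532466) (nat_lit 242) (nat_lit 5) (nat_lit 241) (nat_lit 3) (nat_lit 256) (nat_lit 5) (nat_lit 333) (nat_lit 332) (nat_lit 235)) (XT.lf (nat_lit 76) (nat_lit 8941888783) (nat_lit 0) (nat_lit 141096484) (nat_lit 1140) (nat_lit 2112788048) (nat_lit 242) (nat_lit 5) (nat_lit 241) (nat_lit 3) (nat_lit 256) (nat_lit 5) (nat_lit 334) (nat_lit 332) (nat_lit 234))))) (XT.nd (nat_lit 234) (nat_lit 1064) (nat_lit 0) (XT.nd (nat_lit 78) (nat_lit 0) (nat_lit 0) (XT.lf (nat_lit 76) (nat_lit 3130644857) (nat_lit 0) (nat_lit 6753090745) (nat_lit 1140) (nat_lit 1464687052) (nat_lit 243) (nat_lit 5) (nat_lit 242)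 (nat_lit 5) (nat_lit 257) (nat_lit 5) (nat_lit 335) (nat_lit 332) (nat_lit 233)) (XT.nd (nat_lit 78) (nat_lit 0) (nat_lit 76) (XT.lf (nat_lit 76) (nat_lit 8709680049) (nat_lit 0) (nat_lit 2002220796) (nat_lit 1140) (nat_lit 793665679) (nat_lit 243) (nat_lit 5) (nat_lit 242) (nat_lit 5) (nat_lit 257) (nat_lit 5) (nat_lit 336) (nat_lit 332) (nat_lit 232)) (XT.lf (nat_lit 76) (nat_lit 2803406416) (nat_lit 0) (nat_lit 8796181572) (nat_lit 1140) (nat_lit 66812752) (nat_lit 244) (nat_lit 5) (nat_lit 243) (nat_lit 5) (nat_lit 258) (nat_lit 5) (nat_lit 337) (nat_lit 332) (nat_lit 231)))) (XT.nd (nat_lit 156) (nat_lit 0) (nat_lit 76) (XT.nd (nat_lit 78) (nat_lit 0) (nat_lit 76) (XT.lf (nat_lit 0) (nat_lit 697073090) (nat_lit 1140) (nat_lit 3242338003) (nat_lit 1216) (nat_lit 7891611677) (nat_lit 228) (nat_lit 5) (nat_lit 243) (nat_lit 5) (nat_lit 244) (nat_lit 5) (nat_lit 338) (nat_lit 332) (nat_lit 230)) (XT.lf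 (nat_lit 0) (nat_lit 1498690385) (nat_lit 1140) (nat_lit 9426333618) (nat_lit 1216) (nat_lit 1075069828) (nat_lit 229) (nat_lit 5) (nat_lit 244) (nat_lit 5) (nat_lit 245) (nat_lit 5) (nat_lit 339) (nat_lit 332) (nat_lit 229))) (XT.nd (nat_lit 78) (nat_lit 0) (nat_lit 0) (XT.lf (nat_lit 0) (nat_lit 2377708931) (nat_lit 1140) (nat_lit 3594397072) (nat_lit 1216) (nat_lit 6200544954) (nat_lit 229) (nat_lit 5) (nat_lit 244) (nat_lit 5) (nat_lit 245) (nat_lit 5) (nat_lit 340) (nat_lit 332) (nat_lit 228)) (XT.lf (nat_lit 76) (nat_lit 2448014557) (nat_lit 0) (nat_lit 840443672) (nat_lit 1216) (nat_lit 9061779852) (nat_lit 230) (nat_lit 5) (nat_lit 229) (nat_lit 5) (nat_lit 245) (nat_lit 5) (nat_lit 341) (nat_lit 332) (nat_lit 227)))))) (XT.nd (nat_lit 546) (nat_lit 3116) (nat_lit 0) (XT.nd (nat_lit 234) (nat_lit 0) (nat_lit 76) (XT.nd (nat_lit 78) (nat_lit 0) (nat_lit 0) (XT.lf (nat_lit 0) (nat_lit 4288210531)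 (nat_lit 1140) (nat_lit 3842505830) (nat_lit 1216) (nat_lit 4400599721) (nat_lit 230) (nat_lit 5) (nat_lit 245) (nat_lit 5) (nat_lit 246) (nat_lit 5) (nat_lit 342) (nat_lit 332) (nat_lit 226)) (XT.nd (nat_lit 78) (nat_lit 0) (nat_lit 76) (XT.lf (nat_lit 76) (nat_lit 2425653261) (nat_lit 0) (nat_lit 2906751020) (nat_lit 1216) (nat_lit 7385001959) (nat_lit 231) (nat_lit 5) (nat_lit 230) (nat_lit 5) (nat_lit 246) (nat_lit 5) (nat_lit 343) (nat_lit 332) (nat_lit 225)) (XT.lf (nat_lit 0) (nat_lit 6454128417) (nat_lit 1140) (nat_lit 3984257366) (nat_lit 1216) (nat_lit 2469320076) (nat_lit 231) (nat_lit 5) (nat_lit 246) (nat_lit 5) (nat_lit 247) (nat_lit 5) (nat_lit 344) (nat_lit 332) (nat_lit 224)))) (XT.nd (nat_lit 156) (nat_lit 0) (nat_lit 76) (XT.nd (nat_lit 78) (nat_lit 0) (nat_lit 76) (XT.lf (nat_lit 76) (nat_lit 2520437171) (nat_lit 0) (nat_lit 5125800689) (nat_lit 1216) (nat_lit 5456387119) (nat_lit 232)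 (nat_lit 5) (nat_lit 231) (nat_lit 5) (nat_lit 247) (nat_lit 5) (nat_lit 345) (nat_lit 332) (nat_lit 223)) (XT.lf (nat_lit 0) (nat_lit 8902185943) (nat_lit 1140) (nat_lit 4016796236) (nat_lit 1216) (nat_lit 383579387) (nat_lit 232) (nat_lit 5) (nat_lit 247) (nat_lit 5) (nat_lit 248) (nat_lit 5) (nat_lit 346) (nat_lit 332) (nat_lit 222))) (XT.nd (nat_lit 78) (nat_lit 0) (nat_lit 0) (XT.lf (nat_lit 76) (nat_lit 2735732710) (nat_lit 0) (nat_lit 7521706727) (nat_lit 1216) (nat_lit 3249219805) (nat_lit 233) (nat_lit 5) (nat_lit 232) (nat_lit 5) (nat_lit 248) (nat_lit 5) (nat_lit 347) (nat_lit 332) (nat_lit 221)) (XT.lf (nat_lit 76) (nat_lit 9760842178) (nat_lit 0) (nat_lit 1917979635) (nat_lit 1216) (nat_lit 2037305355) (nat_lit 233) (nat_lit 5) (nat_lit 232) (nat_lit 5) (nat_lit 248) (nat_lit 5) (nat_lit 348) (nat_lit 332) (nat_lit 220))))) (XT.nd (nat_lit 234) (nat_lit 1140) (nat_lit 0) (XT.nd (nat_lit 78)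 (nat_lit 1064) (nat_lit 0) (XT.lf (nat_lit 0) (nat_lit 3075338271) (nat_lit 1140) (nat_lit 10119489823) (nat_lit 1216) (nat_lit 735502687) (nat_lit 218) (nat_lit 5) (nat_lit 233) (nat_lit 5) (nat_lit 234) (nat_lit 5) (nat_lit 349) (nat_lit 332) (nat_lit 219)) (XT.nd (nat_lit 78) (nat_lit 988) (nat_lit 0) (XT.lf (nat_lit 0) (nat_lit 638397240) (nat_lit 1216) (nat_lit 3789636156) (nat_lit 76) (nat_lit 9721417345) (nat_lit 217) (nat_lit 5) (nat_lit 233) (nat_lit 5) (nat_lit 218) (nat_lit 5) (nat_lit 350) (nat_lit 332) (nat_lit 218)) (XT.lf (nat_lit 0) (nat_lit 2072895962) (nat_lit 1064) (nat_lit 10851389379) (nat_lit 76) (nat_lit 1449625733) (nat_lit 204) (nat_lit 5) (nat_lit 218) (nat_lit 5) (nat_lit 205) (nat_lit 5) (nat_lit 351) (nat_lit 332) (nat_lit 217)))) (XT.nd (nat_lit 156) (nat_lit 532) (nat_lit 0) (XT.nd (nat_lit 78) (nat_lit 608) (nat_lit 0) (XT.lf (nat_lit 0) (nat_lit 3619177655) (nat_lit 1064)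 (nat_lit 3529029104) (nat_lit 76) (nat_lit 7454845900) (nat_lit 204) (nat_lit 5) (nat_lit 218) (nat_lit 5) (nat_lit 205) (nat_lit 5) (nat_lit 352) (nat_lit 332) (nat_lit 216)) (XT.lf (nat_lit 0) (nat_lit 4080412683) (nat_lit 608) (nat_lit 1157318063) (nat_lit 684) (nat_lit 9600570854) (nat_lit 196) (nat_lit 5) (nat_lit 204) (nat_lit 5) (nat_lit 205) (nat_lit 5) (nat_lit 353) (nat_lit 332) (nat_lit 215))) (XT.nd (nat_lit 78) (nat_lit 532) (nat_lit 0) (XT.lf (nat_lit 0) (nat_lit 6975961627) (nat_lit 684) (nat_lit 3150107115) (nat_lit 76) (nat_lit 4952414944) (nat_lit 196) (nat_lit 5) (nat_lit 205) (nat_lit 5) (nat_lit 197) (nat_lit 5) (nat_lit 354) (nat_lit 332) (nat_lit 214)) (XT.lf (nat_lit 0) (nat_lit 4755099001) (nat_lit 532) (nat_lit 4055729510) (nat_lit 608) (nat_lit 6513717097) (nat_lit 189) (nat_lit 5) (nat_lit 196) (nat_lit 5) (nat_lit 197) (nat_lit 5) (nat_lit 355) (nat_lit 332) (nat_lit 213))))))))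
noncomputable def xc182 : XT := (XT.nd (nat_lit 2028) (nat_lit 3572) (nat_lit 0) (XT.nd (nat_lit 1014) (nat_lit 2660) (nat_lit 0) (XT.nd (nat_lit 468) (nat_lit 1900) (nat_lit 0) (XT.nd (nat_lit 234) (nat_lit 1140) (nat_lit 0) (XT.nd (nat_lit 78) (nat_lit 608) (nat_lit 0) (XT.lf (nat_lit 0) (nat_lit 10741561644) (nat_lit 608) (nat_lit 2648836890) (nat_lit 76) (nat_lit 2186375027) (nat_lit 189) (nat_lit 5) (nat_lit 197) (nat_lit 5) (nat_lit 190) (nat_lit 5) (nat_lit 356) (nat_lit 332) (nat_lit 212)) (XT.nd (nat_lit 78) (nat_lit 0) (nat_lit 0) (XT.lf (nat_lit 0) (nat_lit 5565799472) (nat_lit 608) (nat_lit 7246015847) (nat_lit 684) (nat_lit 3022313601) (nat_lit 181) (nat_lit 5) (nat_lit 189) (nat_lit 5) (nat_lit 190) (nat_lit 5) (nat_lit 357) (nat_lit 332) (nat_lit 211)) (XT.lf (nat_lit 0) (nat_lit 14069246869) (nat_lit 608) (nat_lit 889855326) (nat_lit 684) (nat_lit 1139663254) (nat_lit 181) (nat_lit 5) (nat_lit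 189) (nat_lit 5) (nat_lit 190) (nat_lit 5) (nat_lit 358) (nat_lit 332) (nat_lit 210)))) (XT.nd (nat_lit 78) (nat_lit 532) (nat_lit 0) (XT.lf (nat_lit 0) (nat_lit 890451135) (nat_lit 608) (nat_lit 9859588608) (nat_lit 76) (nat_lit 5617881034) (nat_lit 173) (nat_lit 5) (nat_lit 181) (nat_lit 5) (nat_lit 174) (nat_lit 5) (nat_lit 359) (nat_lit 332) (nat_lit 209)) (XT.nd (nat_lit 78) (nat_lit 532) (nat_lit 0) (XT.lf (nat_lit 0) (nat_lit 2976692942) (nat_lit 608) (nat_lit 1332959199) (nat_lit 76) (nat_lit 12334623783) (nat_lit 173) (nat_lit 5) (nat_lit 181) (nat_lit 5) (nat_lit 174) (nat_lit 5) (nat_lit 360) (nat_lit 332) (nat_lit 208)) (XT.lf (nat_lit 0) (nat_lit 5210450207) (nat_lit 608) (nat_lit 9364329239) (nat_lit 76) (nat_lit 2351601785) (nat_lit 166) (nat_lit 5) (nat_lit 174) (nat_lit 5) (nat_lit 167) (nat_lit 5) (nat_lit 361) (nat_lit 332) (nat_lit 207))))) (XT.nd (nat_lit 234) (nat_lit 988) (nat_lit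 0) (XT.nd (nat_lit 78) (nat_lit 912) (nat_lit 0) (XT.lf (nat_lit 0) (nat_lit 7556640728) (nat_lit 608) (nat_lit 520018249) (nat_lit 76) (nat_lit 9138935245) (nat_lit 166) (nat_lit 5) (nat_lit 174) (nat_lit 5) (nat_lit 167) (nat_lit 5) (nat_lit 362) (nat_lit 332) (nat_lit 206)) (XT.nd (nat_lit 78) (nat_lit 456) (nat_lit 0) (XT.lf (nat_lit 0) (nat_lit 8748781984) (nat_lit 456) (nat_lit 1298006603) (nat_lit 532) (nat_lit 7464494798) (nat_lit 160) (nat_lit 5) (nat_lit 166) (nat_lit 5) (nat_lit 167) (nat_lit 5) (nat_lit 363) (nat_lit 332) (nat_lit 205)) (XT.lf (nat_lit 0) (nat_lit 432619327) (nat_lit 456) (nat_lit 12232780274) (nat_lit 532) (nat_lit 5148837590) (nat_lit 154) (nat_lit 5) (nat_lit 160) (nat_lit 5) (nat_lit 161) (nat_lit 5) (nat_lit 364) (nat_lit 332) (nat_lit 204)))) (XT.nd (nat_lit 156) (nat_lit 532) (nat_lit 0) (XT.nd (nat_lit 78) (nat_lit 456) (nat_lit 0) (XT.lf (nat_lit 0) (nat_lit 10058471361)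 (nat_lit 456) (nat_lit 5395155376) (nat_lit 532) (nat_lit 2669927674) (nat_lit 154) (nat_lit 5) (nat_lit 160) (nat_lit 5) (nat_lit 161) (nat_lit 5) (nat_lit 365) (nat_lit 332) (nat_lit 203)) (XT.lf (nat_lit 0) (nat_lit 1533446262) (nat_lit 456) (nat_lit 16812762544) (nat_lit 532) (nat_lit 95327442) (nat_lit 148) (nat_lit 5) (nat_lit 154) (nat_lit 5) (nat_lit 155) (nat_lit 5) (nat_lit 366) (nat_lit 332) (nat_lit 202))) (XT.nd (nat_lit 78) (nat_lit 456) (nat_lit 0) (XT.lf (nat_lit 0) (nat_lit 2632494472) (nat_lit 532) (nat_lit 7271829223) (nat_lit 76) (nat_lit 8860226470) (nat_lit 147) (nat_lit 5) (nat_lit 154) (nat_lit 5) (nat_lit 148) (nat_lit 5) (nat_lit 367) (nat_lit 332) (nat_lit 201)) (XT.lf (nat_lit 0) (nat_lit 2693807232) (nat_lit 456) (nat_lit 2762812788) (nat_lit 532) (nat_lit 13640120420) (nat_lit 141) (nat_lit 5) (nat_lit 147) (nat_lit 5) (nat_lit 148) (nat_lit 5) (nat_lit 368) (nat_lit 332)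 (nat_lit 200)))))) (XT.nd (nat_lit 468) (nat_lit 1444) (nat_lit 0) (XT.nd (nat_lit 234) (nat_lit 836) (nat_lit 0) (XT.nd (nat_lit 78) (nat_lit 380) (nat_lit 0) (XT.lf (nat_lit 0) (nat_lit 8474419214) (nat_lit 532) (nat_lit 6385583369) (nat_lit 76) (nat_lit 4575630980) (nat_lit 141) (nat_lit 5) (nat_lit 148) (nat_lit 5) (nat_lit 142) (nat_lit 5) (nat_lit 369) (nat_lit 332) (nat_lit 199)) (XT.nd (nat_lit 78) (nat_lit 0) (nat_lit 0) (XT.lf (nat_lit 0) (nat_lit 3971270038) (nat_lit 380) (nat_lit 7667925222) (nat_lit 456) (nat_lit 8143810405) (nat_lit 136) (nat_lit 5) (nat_lit 141) (nat_lit 5) (nat_lit 142) (nat_lit 5) (nat_lit 370) (nat_lit 332) (nat_lit 198)) (XT.lf (nat_lit 0) (nat_lit 14758680495) (nat_lit 380) (nat_lit 195788434) (nat_lit 456) (nat_lit 5184668684) (nat_lit 136) (nat_lit 5) (nat_lit 141) (nat_lit 5) (nat_lit 142) (nat_lit 5) (nat_lit 371) (nat_lit 332) (nat_lit 197)))) (XT.nd (nat_lit 78)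 (nat_lit 456) (nat_lit 0) (XT.lf (nat_lit 0) (nat_lit 5385785906) (nat_lit 380) (nat_lit 13098598602) (nat_lit 456) (nat_lit 2018118657) (nat_lit 131) (nat_lit 5) (nat_lit 136) (nat_lit 5) (nat_lit 137) (nat_lit 5) (nat_lit 372) (nat_lit 332) (nat_lit 196)) (XT.nd (nat_lit 78) (nat_lit 380) (nat_lit 0) (XT.lf (nat_lit 0) (nat_lit 1267344493) (nat_lit 456) (nat_lit 4315297869) (nat_lit 76) (nat_lit 15292328196) (nat_lit 130) (nat_lit 5) (nat_lit 136) (nat_lit 5) (nat_lit 131) (nat_lit 5) (nat_lit 373) (nat_lit 332) (nat_lit 195)) (XT.lf (nat_lit 0) (nat_lit 4690482910) (nat_lit 456) (nat_lit 14363470156) (nat_lit 76) (nat_lit 2201673977) (nat_lit 125) (nat_lit 5) (nat_lit 131) (nat_lit 5) (nat_lit 126) (nat_lit 5) (nat_lit 374) (nat_lit 332) (nat_lit 194))))) (XT.nd (nat_lit 234) (nat_lit 1064) (nat_lit 0) (XT.nd (nat_lit 78) (nat_lit 380) (nat_lit 0) (XT.lf (nat_lit 0) (nat_lit 8307338947) (nat_lit 456)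 (nat_lit 3188648000) (nat_lit 76) (nat_lit 10148990155) (nat_lit 125) (nat_lit 5) (nat_lit 131) (nat_lit 5) (nat_lit 126) (nat_lit 5) (nat_lit 375) (nat_lit 332) (nat_lit 193)) (XT.nd (nat_lit 78) (nat_lit 0) (nat_lit 0) (XT.lf (nat_lit 0) (nat_lit 8476296072) (nat_lit 380) (nat_lit 3629866739) (nat_lit 456) (nat_lit 9937645437) (nat_lit 120) (nat_lit 5) (nat_lit 125) (nat_lit 5) (nat_lit 126) (nat_lit 5) (nat_lit 376) (nat_lit 332) (nat_lit 192)) (XT.lf (nat_lit 0) (nat_lit 16086550888) (nat_lit 456) (nat_lit 1951033464) (nat_lit 76) (nat_lit 4414996311) (nat_lit 120) (nat_lit 5) (nat_lit 126) (nat_lit 5) (nat_lit 121) (nat_lit 5) (nat_lit 377) (nat_lit 332) (nat_lit 191)))) (XT.nd (nat_lit 156) (nat_lit 684) (nat_lit 0) (XT.nd (nat_lit 78) (nat_lit 76) (nat_lit 0) (XT.lf (nat_lit 0) (nat_lit 10166047360) (nat_lit 304) (nat_lit 10146286846) (nat_lit 380) (nat_lit 2557506729) (nat_lit 116) (nat_lit 5)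 (nat_lit 120) (nat_lit 5) (nat_lit 121) (nat_lit 5) (nat_lit 378) (nat_lit 332) (nat_lit 190)) (XT.lf (nat_lit 0) (nat_lit 1350895912) (nat_lit 380) (nat_lit 636095724) (nat_lit 76) (nat_lit 21311869659) (nat_lit 115) (nat_lit 5) (nat_lit 120) (nat_lit 5) (nat_lit 116) (nat_lit 5) (nat_lit 379) (nat_lit 332) (nat_lit 189))) (XT.nd (nat_lit 78) (nat_lit 304) (nat_lit 0) (XT.lf (nat_lit 0) (nat_lit 5496066221) (nat_lit 456) (nat_lit 11807569981) (nat_lit 76) (nat_lit 6431232679) (nat_lit 110) (nat_lit 5) (nat_lit 116) (nat_lit 5) (nat_lit 111) (nat_lit 5) (nat_lit 380) (nat_lit 332) (nat_lit 188)) (XT.lf (nat_lit 0) (nat_lit 680228654) (nat_lit 304) (nat_lit 9110746688) (nat_lit 380) (nat_lit 14392223568) (nat_lit 106) (nat_lit 5) (nat_lit 110) (nat_lit 5) (nat_lit 111) (nat_lit 5) (nat_lit 381) (nat_lit 332) (nat_lit 187))))))) (XT.nd (nat_lit 1014) (nat_lit 1748) (nat_lit 0) (XT.nd (nat_lit 468) (nat_lit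 836) (nat_lit 0) (XT.nd (nat_lit 234) (nat_lit 684) (nat_lit 0) (XT.nd (nat_lit 78) (nat_lit 304) (nat_lit 0) (XT.lf (nat_lit 0) (nat_lit 13774625668) (nat_lit 304) (nat_lit 552140379) (nat_lit 380) (nat_lit 10314855380) (nat_lit 106) (nat_lit 5) (nat_lit 110) (nat_lit 5) (nat_lit 111) (nat_lit 5) (nat_lit 382) (nat_lit 332) (nat_lit 186)) (XT.nd (nat_lit 78) (nat_lit 0) (nat_lit 0) (XT.lf (nat_lit 0) (nat_lit 2099626143) (nat_lit 304) (nat_lit 16991602191) (nat_lit 380) (nat_lit 6019793863) (nat_lit 102) (nat_lit 5) (nat_lit 106) (nat_lit 5) (nat_lit 107) (nat_lit 5) (nat_lit 383) (nat_lit 332) (nat_lit 185)) (XT.lf (nat_lit 0) (nat_lit 15662559758) (nat_lit 304) (nat_lit 8444306464) (nat_lit 380) (nat_lit 1484394925) (nat_lit 102) (nat_lit 5) (nat_lit 106) (nat_lit 5) (nat_lit 107) (nat_lit 5) (nat_lit 384) (nat_lit 332) (nat_lit 184)))) (XT.nd (nat_lit 78) (nat_lit 304) (nat_lit 0) (XT.lf (nat_lit 0)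 (nat_lit 3156543438) (nat_lit 380) (nat_lit 22512341612) (nat_lit 76) (nat_lit 415156291) (nat_lit 97) (nat_lit 5) (nat_lit 102) (nat_lit 5) (nat_lit 98) (nat_lit 5) (nat_lit 385) (nat_lit 332) (nat_lit 183)) (XT.nd (nat_lit 78) (nat_lit 304) (nat_lit 0) (XT.lf (nat_lit 0) (nat_lit 8085036277) (nat_lit 380) (nat_lit 9017056331) (nat_lit 76) (nat_lit 9483729708) (nat_lit 97) (nat_lit 5) (nat_lit 102) (nat_lit 5) (nat_lit 98) (nat_lit 5) (nat_lit 386) (nat_lit 332) (nat_lit 182)) (XT.lf (nat_lit 0) (nat_lit 4970562563) (nat_lit 304) (nat_lit 8232097644) (nat_lit 380) (nat_lit 13898761255) (nat_lit 93) (nat_lit 5) (nat_lit 97) (nat_lit 5) (nat_lit 98) (nat_lit 5) (nat_lit 387) (nat_lit 332) (nat_lit 181))))) (XT.nd (nat_lit 234) (nat_lit 532) (nat_lit 0) (XT.nd (nat_lit 78) (nat_lit 304) (nat_lit 0) (XT.lf (nat_lit 0) (nat_lit 18568024765) (nat_lit 380) (nat_lit 8086288670) (nat_lit 76) (nat_lit 975351731)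 (nat_lit 93) (nat_lit 5) (nat_lit 98) (nat_lit 5) (nat_lit 94) (nat_lit 5) (nat_lit 388) (nat_lit 332) (nat_lit 180)) (XT.nd (nat_lit 78) (nat_lit 76) (nat_lit 0) (XT.lf (nat_lit 0) (nat_lit 6413960311) (nat_lit 228) (nat_lit 17817304187) (nat_lit 304) (nat_lit 3938387111) (nat_lit 90) (nat_lit 5) (nat_lit 93) (nat_lit 5) (nat_lit 94) (nat_lit 5) (nat_lit 389) (nat_lit 332) (nat_lit 179)) (XT.lf (nat_lit 0) (nat_lit 1388690785) (nat_lit 304) (nat_lit 7231432820) (nat_lit 76) (nat_lit 20103043302) (nat_lit 89) (nat_lit 5) (nat_lit 93) (nat_lit 5) (nat_lit 90) (nat_lit 5) (nat_lit 390) (nat_lit 332) (nat_lit 178)))) (XT.nd (nat_lit 156) (nat_lit 228) (nat_lit 0) (XT.nd (nat_lit 78) (nat_lit 0) (nat_lit 0) (XT.lf (nat_lit 0) (nat_lit 6874988051) (nat_lit 380) (nat_lit 21466002868) (nat_lit 76) (nat_lit 948772601) (nat_lit 85) (nat_lit 5) (nat_lit 90) (nat_lit 5) (nat_lit 86) (nat_lit 5) (nat_lit 391) (nat_lit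 332) (nat_lit 177)) (XT.lf (nat_lit 0) (nat_lit 12678992648) (nat_lit 380) (nat_lit 6487528412) (nat_lit 76) (nat_lit 10702245955) (nat_lit 85) (nat_lit 5) (nat_lit 90) (nat_lit 5) (nat_lit 86) (nat_lit 5) (nat_lit 392) (nat_lit 332) (nat_lit 176))) (XT.nd (nat_lit 78) (nat_lit 0) (nat_lit 0) (XT.lf (nat_lit 0) (nat_lit 9109181832) (nat_lit 228) (nat_lit 9629696986) (nat_lit 304) (nat_lit 11723811419) (nat_lit 82) (nat_lit 5) (nat_lit 85) (nat_lit 5) (nat_lit 86) (nat_lit 5) (nat_lit 393) (nat_lit 332) (nat_lit 175)) (XT.lf (nat_lit 0) (nat_lit 25042832439) (nat_lit 304) (nat_lit 5777119383) (nat_lit 76) (nat_lit 252613599) (nat_lit 82) (nat_lit 5) (nat_lit 86) (nat_lit 5) (nat_lit 83) (nat_lit 5) (nat_lit 394) (nat_lit 332) (nat_lit 174)))))) (XT.nd (nat_lit 546) (nat_lit 684) (nat_lit 0) (XT.nd (nat_lit 234) (nat_lit 532) (nat_lit 0) (XT.nd (nat_lit 78) (nat_lit 228) (nat_lit 0) (XT.lf (nat_lit 0) (nat_lit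 29654422) (nat_lit 304) (nat_lit 21330544339) (nat_lit 76) (nat_lit 10334849781) (nat_lit 78) (nat_lit 5) (nat_lit 82) (nat_lit 5) (nat_lit 79) (nat_lit 5) (nat_lit 395) (nat_lit 332) (nat_lit 173)) (XT.nd (nat_lit 78) (nat_lit 228) (nat_lit 0) (XT.lf (nat_lit 0) (nat_lit 6202991128) (nat_lit 304) (nat_lit 5294628720) (nat_lit 76) (nat_lit 20835196710) (nat_lit 78) (nat_lit 5) (nat_lit 82) (nat_lit 5) (nat_lit 79) (nat_lit 5) (nat_lit 396) (nat_lit 332) (nat_lit 172)) (XT.lf (nat_lit 0) (nat_lit 11437100138) (nat_lit 228) (nat_lit 1228974184) (nat_lit 304) (nat_lit 20320509025) (nat_lit 75) (nat_lit 5) (nat_lit 78) (nat_lit 5) (nat_lit 79) (nat_lit 5) (nat_lit 397) (nat_lit 332) (nat_lit 171)))) (XT.nd (nat_lit 156) (nat_lit 304) (nat_lit 0) (XT.nd (nat_lit 78) (nat_lit 228) (nat_lit 0) (XT.lf (nat_lit 0) (nat_lit 19461554322) (nat_lit 304) (nat_lit 4977921884) (nat_lit 76) (nat_lit 9216333868) (nat_lit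 75) (nat_lit 5) (nat_lit 79) (nat_lit 5) (nat_lit 76) (nat_lit 5) (nat_lit 398) (nat_lit 332) (nat_lit 170)) (XT.lf (nat_lit 0) (nat_lit 12310596870) (nat_lit 228) (nat_lit 14275616095) (nat_lit 304) (nat_lit 7755143211) (nat_lit 72) (nat_lit 5) (nat_lit 75) (nat_lit 5) (nat_lit 76) (nat_lit 5) (nat_lit 399) (nat_lit 332) (nat_lit 169))) (XT.nd (nat_lit 78) (nat_lit 304) (nat_lit 0) (XT.lf (nat_lit 0) (nat_lit 30211649109) (nat_lit 228) (nat_lit 3758111413) (nat_lit 304) (nat_lit 1076355611) (nat_lit 72) (nat_lit 5) (nat_lit 75) (nat_lit 5) (nat_lit 76) (nat_lit 5) (nat_lit 400) (nat_lit 332) (nat_lit 168)) (XT.lf (nat_lit 0) (nat_lit 5879944249) (nat_lit 304) (nat_lit 22767577446) (nat_lit 76) (nat_lit 7117114163) (nat_lit 68) (nat_lit 5) (nat_lit 72) (nat_lit 5) (nat_lit 69) (nat_lit 5) (nat_lit 401) (nat_lit 332) (nat_lit 167))))) (XT.nd (nat_lit 234) (nat_lit 456) (nat_lit 0) (XT.nd (nat_lit 78) (nat_lit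 228) (nat_lit 0) (XT.lf (nat_lit 0) (nat_lit 13104831325) (nat_lit 304) (nat_lit 5097035811) (nat_lit 76) (nat_lit 18300080153) (nat_lit 68) (nat_lit 5) (nat_lit 72) (nat_lit 5) (nat_lit 69) (nat_lit 5) (nat_lit 402) (nat_lit 332) (nat_lit 166)) (XT.nd (nat_lit 78) (nat_lit 0) (nat_lit 0) (XT.lf (nat_lit 0) (nat_lit 13356417696) (nat_lit 228) (nat_lit 7313603284) (nat_lit 304) (nat_lit 16587652130) (nat_lit 65) (nat_lit 5) (nat_lit 68) (nat_lit 5) (nat_lit 69) (nat_lit 5) (nat_lit 403) (nat_lit 332) (nat_lit 165)) (XT.lf (nat_lit 0) (nat_lit 28546851128) (nat_lit 304) (nat_lit 5612454253) (nat_lit 76) (nat_lit 3874226460) (nat_lit 65) (nat_lit 5) (nat_lit 69) (nat_lit 5) (nat_lit 66) (nat_lit 5) (nat_lit 404) (nat_lit 332) (nat_lit 164)))) (XT.nd (nat_lit 156) (nat_lit 228) (nat_lit 0) (XT.nd (nat_lit 78) (nat_lit 76) (nat_lit 0) (XT.lf (nat_lit 0) (nat_lit 13406563421) (nat_lit 152) (nat_lit 23450049832)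 (nat_lit 228) (nat_lit 1970155895) (nat_lit 63) (nat_lit 5) (nat_lit 65) (nat_lit 5) (nat_lit 66) (nat_lit 5) (nat_lit 405) (nat_lit 332) (nat_lit 163)) (XT.lf (nat_lit 0) (nat_lit 5711829615) (nat_lit 228) (nat_lit 6594610616) (nat_lit 76) (nat_lit 27334122555) (nat_lit 62) (nat_lit 5) (nat_lit 65) (nat_lit 5) (nat_lit 63) (nat_lit 5) (nat_lit 406) (nat_lit 332) (nat_lit 162))) (XT.nd (nat_lit 78) (nat_lit 0) (nat_lit 0) (XT.lf (nat_lit 0) (nat_lit 13022928455) (nat_lit 228) (nat_lit 682426485) (nat_lit 304) (nat_lit 26769211236) (nat_lit 59) (nat_lit 5) (nat_lit 62) (nat_lit 5) (nat_lit 63) (nat_lit 5) (nat_lit 407) (nat_lit 332) (nat_lit 161)) (XT.lf (nat_lit 0) (nat_lit 22109993723) (nat_lit 304) (nat_lit 8084079209) (nat_lit 76) (nat_lit 11134378949) (nat_lit 59) (nat_lit 5) (nat_lit 63) (nat_lit 5) (nat_lit 60) (nat_lit 5) (nat_lit 408) (nat_lit 332) (nat_lit 160))))))))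
noncomputable def xc183 : XT := (XT.nd (nat_lit 2028) (nat_lit 76) (nat_lit 0) (XT.nd (nat_lit 1014) (nat_lit 912) (nat_lit 0) (XT.nd (nat_lit 468) (nat_lit 608) (nat_lit 0) (XT.nd (nat_lit 234) (nat_lit 152) (nat_lit 0) (XT.nd (nat_lit 78) (nat_lit 228) (nat_lit 0) (XT.lf (nat_lit 0) (nat_lit 12086339713) (nat_lit 152) (nat_lit 18799026629) (nat_lit 228) (nat_lit 11319031381) (nat_lit 57) (nat_lit 5) (nat_lit 59) (nat_lit 5) (nat_lit 60) (nat_lit 5) (nat_lit 409) (nat_lit 332) (nat_lit 159)) (XT.nd (nat_lit 78) (nat_lit 228) (nat_lit 0) (XT.lf (nat_lit 0) (nat_lit 33020400390) (nat_lit 152) (nat_lit 6980947208) (nat_lit 228) (nat_lit 3102955284) (nat_lit 57) (nat_lit 5) (nat_lit 59) (nat_lit 5) (nat_lit 60) (nat_lit 5) (nat_lit 410) (nat_lit 332) (nat_lit 158)) (XT.lf (nat_lit 0) (nat_lit 5405090624) (nat_lit 228) (nat_lit 33376586602) (nat_lit 76) (nat_lit 5243481480) (nat_lit 54) (nat_lit 5) (nat_lit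 57) (nat_lit 5) (nat_lit 55) (nat_lit 5) (nat_lit 411) (nat_lit 332) (nat_lit 157)))) (XT.nd (nat_lit 78) (nat_lit 152) (nat_lit 0) (XT.lf (nat_lit 0) (nat_lit 14273790020) (nat_lit 228) (nat_lit 12868794394) (nat_lit 76) (nat_lit 17825102016) (nat_lit 54) (nat_lit 5) (nat_lit 57) (nat_lit 5) (nat_lit 55) (nat_lit 5) (nat_lit 412) (nat_lit 332) (nat_lit 156)) (XT.nd (nat_lit 78) (nat_lit 0) (nat_lit 0) (XT.lf (nat_lit 0) (nat_lit 8411485235) (nat_lit 152) (nat_lit 15073867438) (nat_lit 228) (nat_lit 22450834455) (nat_lit 52) (nat_lit 5) (nat_lit 54) (nat_lit 5) (nat_lit 55) (nat_lit 5) (nat_lit 413) (nat_lit 332) (nat_lit 155)) (XT.lf (nat_lit 0) (nat_lit 30587153702) (nat_lit 152) (nat_lit 2512056578) (nat_lit 228) (nat_lit 13830755303) (nat_lit 52) (nat_lit 5) (nat_lit 54) (nat_lit 5) (nat_lit 55) (nat_lit 5) (nat_lit 414) (nat_lit 332) (nat_lit 154))))) (XT.nd (nat_lit 234) (nat_lit 228) (nat_lit 0)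 (XT.nd (nat_lit 78) (nat_lit 228) (nat_lit 0) (XT.lf (nat_lit 0) (nat_lit 5474423537) (nat_lit 152) (nat_lit 37675999281) (nat_lit 228) (nat_lit 4798667540) (nat_lit 50) (nat_lit 5) (nat_lit 52) (nat_lit 5) (nat_lit 53) (nat_lit 5) (nat_lit 415) (nat_lit 332) (nat_lit 153)) (XT.nd (nat_lit 78) (nat_lit 152) (nat_lit 0) (XT.lf (nat_lit 0) (nat_lit 4604121775) (nat_lit 228) (nat_lit 20789178013) (nat_lit 76) (nat_lit 23598562127) (nat_lit 49) (nat_lit 5) (nat_lit 52) (nat_lit 5) (nat_lit 50) (nat_lit 5) (nat_lit 416) (nat_lit 332) (nat_lit 152)) (XT.lf (nat_lit 0) (nat_lit 1522547097) (nat_lit 152) (nat_lit 12680847956) (nat_lit 228) (nat_lit 35860771803) (nat_lit 47) (nat_lit 5) (nat_lit 49) (nat_lit 5) (nat_lit 50) (nat_lit 5) (nat_lit 417) (nat_lit 332) (nat_lit 151)))) (XT.nd (nat_lit 156) (nat_lit 228) (nat_lit 0) (XT.nd (nat_lit 78) (nat_lit 0) (nat_lit 0) (XT.lf (nat_lit 0) (nat_lit 24302859847) (nat_lit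 228) (nat_lit 26245159798) (nat_lit 76) (nat_lit 614255916) (nat_lit 47) (nat_lit 5) (nat_lit 50) (nat_lit 5) (nat_lit 48) (nat_lit 5) (nat_lit 418) (nat_lit 332) (nat_lit 150)) (XT.lf (nat_lit 0) (nat_lit 34827206267) (nat_lit 228) (nat_lit 3411718380) (nat_lit 76) (nat_lit 14050746934) (nat_lit 47) (nat_lit 5) (nat_lit 50) (nat_lit 5) (nat_lit 48) (nat_lit 5) (nat_lit 419) (nat_lit 332) (nat_lit 149))) (XT.nd (nat_lit 78) (nat_lit 76) (nat_lit 0) (XT.lf (nat_lit 0) (nat_lit 20500592511) (nat_lit 152) (nat_lit 25360206003) (nat_lit 228) (nat_lit 7584286462) (nat_lit 45) (nat_lit 5) (nat_lit 47) (nat_lit 5) (nat_lit 48) (nat_lit 5) (nat_lit 420) (nat_lit 332) (nat_lit 148)) (XT.lf (nat_lit 0) (nat_lit 2570945846) (nat_lit 228) (nat_lit 9465342653) (nat_lit 76) (nat_lit 42597188617) (nat_lit 44) (nat_lit 5) (nat_lit 47) (nat_lit 5) (nat_lit 45) (nat_lit 5) (nat_lit 421) (nat_lit 332) (nat_lit 147))))))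 (XT.nd (nat_lit 468) (nat_lit 456) (nat_lit 0) (XT.nd (nat_lit 234) (nat_lit 152) (nat_lit 0) (XT.nd (nat_lit 78) (nat_lit 152) (nat_lit 0) (XT.lf (nat_lit 0) (nat_lit 13036822002) (nat_lit 228) (nat_lit 40941035068) (nat_lit 76) (nat_lit 1872659364) (nat_lit 42) (nat_lit 5) (nat_lit 45) (nat_lit 5) (nat_lit 43) (nat_lit 5) (nat_lit 422) (nat_lit 332) (nat_lit 146)) (XT.nd (nat_lit 78) (nat_lit 152) (nat_lit 0) (XT.lf (nat_lit 0) (nat_lit 24028955064) (nat_lit 228) (nat_lit 17017760761) (nat_lit 76) (nat_lit 16050983535) (nat_lit 42) (nat_lit 5) (nat_lit 45) (nat_lit 5) (nat_lit 43) (nat_lit 5) (nat_lit 423) (nat_lit 332) (nat_lit 145)) (XT.lf (nat_lit 0) (nat_lit 7768963595) (nat_lit 152) (nat_lit 27653249813) (nat_lit 228) (nat_lit 22957944354) (nat_lit 40) (nat_lit 5) (nat_lit 42) (nat_lit 5) (nat_lit 43) (nat_lit 5) (nat_lit 424) (nat_lit 332) (nat_lit 144)))) (XT.nd (nat_lit 78) (nat_lit 152) (nat_lit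 0) (XT.lf (nat_lit 0) (nat_lit 33642345792) (nat_lit 152) (nat_lit 13683491979) (nat_lit 228) (nat_lit 12370195898) (nat_lit 40) (nat_lit 5) (nat_lit 42) (nat_lit 5) (nat_lit 43) (nat_lit 5) (nat_lit 425) (nat_lit 332) (nat_lit 143)) (XT.nd (nat_lit 78) (nat_lit 152) (nat_lit 0) (XT.lf (nat_lit 0) (nat_lit 59590145466) (nat_lit 228) (nat_lit 771932147) (nat_lit 76) (nat_lit 689201779) (nat_lit 40) (nat_lit 5) (nat_lit 43) (nat_lit 5) (nat_lit 41) (nat_lit 4) (nat_lit 426) (nat_lit 332) (nat_lit 142)) (XT.lf (nat_lit 0) (nat_lit 9966912945) (nat_lit 152) (nat_lit 36906188188) (nat_lit 76) (nat_lit 15559789260) (nat_lit 38) (nat_lit 5) (nat_lit 40) (nat_lit 5) (nat_lit 39) (nat_lit 5) (nat_lit 427) (nat_lit 332) (nat_lit 141))))) (XT.nd (nat_lit 234) (nat_lit 304) (nat_lit 0) (XT.nd (nat_lit 78) (nat_lit 152) (nat_lit 0) (XT.lf (nat_lit 0) (nat_lit 21713200553) (nat_lit 152) (nat_lit 11245678114) (nat_lit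 76) (nat_lit 30896494768) (nat_lit 38) (nat_lit 5) (nat_lit 40) (nat_lit 5) (nat_lit 39) (nat_lit 5) (nat_lit 428) (nat_lit 332) (nat_lit 140)) (XT.nd (nat_lit 78) (nat_lit 0) (nat_lit 0) (XT.lf (nat_lit 0) (nat_lit 15481367976) (nat_lit 152) (nat_lit 18476310139) (nat_lit 228) (nat_lit 31358479504) (nat_lit 36) (nat_lit 5) (nat_lit 38) (nat_lit 5) (nat_lit 39) (nat_lit 5) (nat_lit 429) (nat_lit 332) (nat_lit 139)) (XT.lf (nat_lit 0) (nat_lit 43235427000) (nat_lit 152) (nat_lit 3444643890) (nat_lit 228) (nat_lit 20137377683) (nat_lit 36) (nat_lit 5) (nat_lit 38) (nat_lit 5) (nat_lit 39) (nat_lit 5) (nat_lit 430) (nat_lit 332) (nat_lit 138)))) (XT.nd (nat_lit 156) (nat_lit 152) (nat_lit 0) (XT.nd (nat_lit 78) (nat_lit 76) (nat_lit 0) (XT.lf (nat_lit 0) (nat_lit 3403799293) (nat_lit 76) (nat_lit 56525858361) (nat_lit 152) (nat_lit 8429755588) (nat_lit 35) (nat_lit 5) (nat_lit 36) (nat_lit 5) (nat_lit 37)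 (nat_lit 4) (nat_lit 431) (nat_lit 332) (nat_lit 137)) (XT.lf (nat_lit 0) (nat_lit 3829966127) (nat_lit 152) (nat_lit 38334479427) (nat_lit 76) (nat_lit 27773994728) (nat_lit 34) (nat_lit 5) (nat_lit 36) (nat_lit 5) (nat_lit 35) (nat_lit 5) (nat_lit 432) (nat_lit 332) (nat_lit 136))) (XT.nd (nat_lit 78) (nat_lit 152) (nat_lit 0) (XT.lf (nat_lit 0) (nat_lit 16285226808) (nat_lit 152) (nat_lit 11003262573) (nat_lit 76) (nat_lit 44273930148) (nat_lit 34) (nat_lit 5) (nat_lit 36) (nat_lit 5) (nat_lit 35) (nat_lit 5) (nat_lit 433) (nat_lit 332) (nat_lit 135)) (XT.lf (nat_lit 0) (nat_lit 17484128550) (nat_lit 152) (nat_lit 11795344177) (nat_lit 228) (nat_lit 43950686183) (nat_lit 32) (nat_lit 5) (nat_lit 34) (nat_lit 5) (nat_lit 35) (nat_lit 5) (nat_lit 434) (nat_lit 332) (nat_lit 134))))))) (XT.nd (nat_lit 39780) (nat_lit 0) (nat_lit 12008) (XT.nd (nat_lit 39234) (nat_lit 0) (nat_lit 14896) (XT.nd (nat_lit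 39000) (nat_lit 0) (nat_lit 15960) (XT.nd (nat_lit 78) (nat_lit 76) (nat_lit 0) (XT.lf (nat_lit 0) (nat_lit 42813042010) (nat_lit 228) (nat_lit 27938966081) (nat_lit 76) (nat_lit 4191438064) (nat_lit 32) (nat_lit 5) (nat_lit 35) (nat_lit 5) (nat_lit 33) (nat_lit 4) (nat_lit 435) (nat_lit 332) (nat_lit 133)) (XT.nd (nat_lit 38844) (nat_lit 0) (nat_lit 15960) (XT.lf (nat_lit 0) (nat_lit 592273258) (nat_lit 76) (nat_lit 56280174556) (nat_lit 152) (nat_lit 19832089865) (nat_lit 31) (nat_lit 5) (nat_lit 32) (nat_lit 5) (nat_lit 33) (nat_lit 4) (nat_lit 436) (nat_lit 332) (nat_lit 132)) (XT.lf (nat_lit 0) (nat_lit 4493935201) (nat_lit 1140) (nat_lit 551438101) (nat_lit 1140) (nat_lit 551438101) (nat_lit 241) (nat_lit 3) (nat_lit 256) (nat_lit 3) (nat_lit 256) (nat_lit 5) (nat_lit 333) (nat_lit 333) (nat_lit 234)))) (XT.nd (nat_lit 78) (nat_lit 0) (nat_lit 0) (XT.lf (nat_lit 76) (nat_lit 4242740594) (nat_lit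 0) (nat_lit 5449286958) (nat_lit 1140) (nat_lit 1651988322) (nat_lit 242) (nat_lit 5) (nat_lit 241) (nat_lit 3) (nat_lit 256) (nat_lit 5) (nat_lit 334) (nat_lit 333) (nat_lit 233)) (XT.nd (nat_lit 78) (nat_lit 0) (nat_lit 76) (XT.lf (nat_lit 76) (nat_lit 9760490333) (nat_lit 0) (nat_lit 647223703) (nat_lit 1140) (nat_lit 1091511381) (nat_lit 242) (nat_lit 5) (nat_lit 241) (nat_lit 3) (nat_lit 256) (nat_lit 5) (nat_lit 335) (nat_lit 333) (nat_lit 232)) (XT.lf (nat_lit 76) (nat_lit 3806394012) (nat_lit 0) (nat_lit 7396354032) (nat_lit 1140) (nat_lit 454623227) (nat_lit 243) (nat_lit 5) (nat_lit 242) (nat_lit 5) (nat_lit 257) (nat_lit 5) (nat_lit 336) (nat_lit 333) (nat_lit 231))))) (XT.nd (nat_lit 234) (nat_lit 0) (nat_lit 152) (XT.nd (nat_lit 78) (nat_lit 0) (nat_lit 76) (XT.lf (nat_lit 0) (nat_lit 201813150) (nat_lit 1140) (nat_lit 2286271853) (nat_lit 1216) (nat_lit 9332002693) (nat_lit 227) (nat_lit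 5) (nat_lit 242) (nat_lit 5) (nat_lit 243) (nat_lit 5) (nat_lit 337) (nat_lit 333) (nat_lit 230)) (XT.nd (nat_lit 78) (nat_lit 0) (nat_lit 0) (XT.lf (nat_lit 0) (nat_lit 908370424) (nat_lit 1140) (nat_lit 8514338583) (nat_lit 1216) (nat_lit 2563669559) (nat_lit 228) (nat_lit 5) (nat_lit 243) (nat_lit 5) (nat_lit 244) (nat_lit 5) (nat_lit 338) (nat_lit 333) (nat_lit 229)) (XT.lf (nat_lit 0) (nat_lit 1665407312) (nat_lit 1140) (nat_lit 2743604202) (nat_lit 1216) (nat_lit 7747782676) (nat_lit 228) (nat_lit 5) (nat_lit 243) (nat_lit 5) (nat_lit 244) (nat_lit 5) (nat_lit 339) (nat_lit 333) (nat_lit 228)))) (XT.nd (nat_lit 156) (nat_lit 0) (nat_lit 0) (XT.nd (nat_lit 78) (nat_lit 0) (nat_lit 0) (XT.lf (nat_lit 0) (nat_lit 2465927808) (nat_lit 1140) (nat_lit 9087259221) (nat_lit 1216) (nat_lit 778526169) (nat_lit 229) (nat_lit 5) (nat_lit 244) (nat_lit 5) (nat_lit 245) (nat_lit 5) (nat_lit 340) (nat_lit 333)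 (nat_lit 227)) (XT.lf (nat_lit 0) (nat_lit 3344454481) (nat_lit 1140) (nat_lit 3098477134) (nat_lit 1216) (nat_lit 6067342124) (nat_lit 229) (nat_lit 5) (nat_lit 244) (nat_lit 5) (nat_lit 245) (nat_lit 5) (nat_lit 341) (nat_lit 333) (nat_lit 226))) (XT.nd (nat_lit 78) (nat_lit 0) (nat_lit 76) (XT.lf (nat_lit 76) (nat_lit 3119287708) (nat_lit 0) (nat_lit 1142905256) (nat_lit 1216) (nat_lit 8431625735) (nat_lit 230) (nat_lit 5) (nat_lit 229) (nat_lit 5) (nat_lit 245) (nat_lit 5) (nat_lit 342) (nat_lit 333) (nat_lit 225)) (XT.lf (nat_lit 0) (nat_lit 5263862584) (nat_lit 1140) (nat_lit 3348631181) (nat_lit 1216) (nat_lit 4268697166) (nat_lit 230) (nat_lit 5) (nat_lit 245) (nat_lit 5) (nat_lit 246) (nat_lit 5) (nat_lit 343) (nat_lit 333) (nat_lit 224)))))) (XT.nd (nat_lit 546) (nat_lit 2204) (nat_lit 0) (XT.nd (nat_lit 234) (nat_lit 912) (nat_lit 0) (XT.nd (nat_lit 78) (nat_lit 0) (nat_lit 76) (XT.lf (nat_lit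 76) (nat_lit 3101600625) (nat_lit 0) (nat_lit 3218909564) (nat_lit 1216) (nat_lit 6752938825) (nat_lit 231) (nat_lit 5) (nat_lit 230) (nat_lit 5) (nat_lit 246) (nat_lit 5) (nat_lit 344) (nat_lit 333) (nat_lit 223)) (XT.nd (nat_lit 78) (nat_lit 0) (nat_lit 0) (XT.lf (nat_lit 0) (nat_lit 7449666216) (nat_lit 1140) (nat_lit 3491338880) (nat_lit 1216) (nat_lit 2329257628) (nat_lit 231) (nat_lit 5) (nat_lit 246) (nat_lit 5) (nat_lit 247) (nat_lit 5) (nat_lit 345) (nat_lit 333) (nat_lit 222)) (XT.lf (nat_lit 76) (nat_lit 3202492119) (nat_lit 0) (nat_lit 5457519597) (nat_lit 1216) (nat_lit 4811561486) (nat_lit 232) (nat_lit 5) (nat_lit 231) (nat_lit 5) (nat_lit 247) (nat_lit 5) (nat_lit 346) (nat_lit 333) (nat_lit 221)))) (XT.nd (nat_lit 156) (nat_lit 1064) (nat_lit 0) (XT.nd (nat_lit 78) (nat_lit 0) (nat_lit 0) (XT.lf (nat_lit 0) (nat_lit 9929131332) (nat_lit 1140) (nat_lit 3523433255) (nat_lit 1216) (nat_lit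 225695951) (nat_lit 232) (nat_lit 5) (nat_lit 247) (nat_lit 5) (nat_lit 248) (nat_lit 5) (nat_lit 347) (nat_lit 333) (nat_lit 220)) (XT.lf (nat_lit 76) (nat_lit 3425653257) (nat_lit 0) (nat_lit 7883099764) (nat_lit 1216) (nat_lit 2580233742) (nat_lit 233) (nat_lit 5) (nat_lit 232) (nat_lit 5) (nat_lit 248) (nat_lit 5) (nat_lit 348) (nat_lit 333) (nat_lit 219))) (XT.nd (nat_lit 78) (nat_lit 1064) (nat_lit 0) (XT.lf (nat_lit 76) (nat_lit 10643811682) (nat_lit 0) (nat_lit 2107307214) (nat_lit 1216) (nat_lit 1354286013) (nat_lit 233) (nat_lit 5) (nat_lit 232) (nat_lit 5) (nat_lit 248) (nat_lit 5) (nat_lit 349) (nat_lit 333) (nat_lit 218)) (XT.lf (nat_lit 0) (nat_lit 3775199705) (nat_lit 1140) (nat_lit 10520989206) (nat_lit 1216) (nat_lit 30354177) (nat_lit 218) (nat_lit 5) (nat_lit 233) (nat_lit 5) (nat_lit 234) (nat_lit 5) (nat_lit 350) (nat_lit 333) (nat_lit 217))))) (XT.nd (nat_lit 234) (nat_lit 1140) (nat_lit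 0) (XT.nd (nat_lit 78) (nat_lit 988) (nat_lit 0) (XT.lf (nat_lit 0) (nat_lit 1349804530) (nat_lit 1216) (nat_lit 3299142250) (nat_lit 76) (nat_lit 9903718232) (nat_lit 217) (nat_lit 5) (nat_lit 233) (nat_lit 5) (nat_lit 218) (nat_lit 5) (nat_lit 351) (nat_lit 333) (nat_lit 216)) (XT.nd (nat_lit 78) (nat_lit 0) (nat_lit 0) (XT.lf (nat_lit 0) (nat_lit 2812161265) (nat_lit 1064) (nat_lit 10557084141) (nat_lit 76) (nat_lit 1415083667) (nat_lit 204) (nat_lit 5) (nat_lit 218) (nat_lit 5) (nat_lit 205) (nat_lit 5) (nat_lit 352) (nat_lit 333) (nat_lit 215)) (XT.lf (nat_lit 0) (nat_lit 4385110678) (nat_lit 1064) (nat_lit 3033106852) (nat_lit 76) (nat_lit 7602733182) (nat_lit 204) (nat_lit 5) (nat_lit 218) (nat_lit 5) (nat_lit 205) (nat_lit 5) (nat_lit 353) (nat_lit 333) (nat_lit 214)))) (XT.nd (nat_lit 156) (nat_lit 532) (nat_lit 0) (XT.nd (nat_lit 78) (nat_lit 0) (nat_lit 0) (XT.lf (nat_lit 0) (nat_lit 4798718256)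 (nat_lit 608) (nat_lit 1240083854) (nat_lit 684) (nat_lit 9224871327) (nat_lit 196) (nat_lit 5) (nat_lit 204) (nat_lit 5) (nat_lit 205) (nat_lit 5) (nat_lit 354) (nat_lit 333) (nat_lit 213)) (XT.lf (nat_lit 0) (nat_lit 7809976003) (nat_lit 684) (nat_lit 2646423676) (nat_lit 76) (nat_lit 5055250796) (nat_lit 196) (nat_lit 5) (nat_lit 205) (nat_lit 5) (nat_lit 197) (nat_lit 5) (nat_lit 355) (nat_lit 333) (nat_lit 212))) (XT.nd (nat_lit 78) (nat_lit 0) (nat_lit 0) (XT.lf (nat_lit 0) (nat_lit 5490074048) (nat_lit 532) (nat_lit 4197312427) (nat_lit 608) (nat_lit 6078095832) (nat_lit 189) (nat_lit 5) (nat_lit 196) (nat_lit 5) (nat_lit 197) (nat_lit 5) (nat_lit 356) (nat_lit 333) (nat_lit 211)) (XT.lf (nat_lit 0) (nat_lit 11658023747) (nat_lit 608) (nat_lit 2134794090) (nat_lit 76) (nat_lit 2233012398) (nat_lit 189) (nat_lit 5) (nat_lit 197) (nat_lit 5) (nat_lit 190) (nat_lit 5) (nat_lit 357) (nat_lit 333) (nat_lit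 210))))))))
noncomputable def xc184 : XT := (XT.nd (nat_lit 2028) (nat_lit 3724) (nat_lit 0) (XT.nd (nat_lit 1014) (nat_lit 2660) (nat_lit 0) (XT.nd (nat_lit 468) (nat_lit 1444) (nat_lit 0) (XT.nd (nat_lit 234) (nat_lit 988) (nat_lit 0) (XT.nd (nat_lit 78) (nat_lit 608) (nat_lit 0) (XT.lf (nat_lit 0) (nat_lit 6320462658) (nat_lit 608) (nat_lit 7458264363) (nat_lit 684) (nat_lit 2512541211) (nat_lit 181) (nat_lit 5) (nat_lit 189) (nat_lit 5) (nat_lit 190) (nat_lit 5) (nat_lit 358) (nat_lit 333) (nat_lit 209)) (XT.nd (nat_lit 78) (nat_lit 608) (nat_lit 0) (XT.lf (nat_lit 0) (nat_lit 15061896315) (nat_lit 608) (nat_lit 911568501) (nat_lit 684) (nat_lit 590899950) (nat_lit 181) (nat_lit 5) (nat_lit 189) (nat_lit 5) (nat_lit 190) (nat_lit 5) (nat_lit 359) (nat_lit 333) (nat_lit 208)) (XT.lf (nat_lit 0) (nat_lit 1477792558) (nat_lit 608) (nat_lit 9561721257) (nat_lit 76) (nat_lit 5802252520) (nat_lit 173) (nat_lit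 5) (nat_lit 181) (nat_lit 5) (nat_lit 174) (nat_lit 5) (nat_lit 360) (nat_lit 333) (nat_lit 207)))) (XT.nd (nat_lit 78) (nat_lit 988) (nat_lit 0) (XT.lf (nat_lit 0) (nat_lit 3610292651) (nat_lit 608) (nat_lit 796583888) (nat_lit 76) (nat_lit 12720036336) (nat_lit 173) (nat_lit 5) (nat_lit 181) (nat_lit 5) (nat_lit 174) (nat_lit 5) (nat_lit 361) (nat_lit 333) (nat_lit 206)) (XT.nd (nat_lit 78) (nat_lit 456) (nat_lit 0) (XT.lf (nat_lit 0) (nat_lit 5901048884) (nat_lit 608) (nat_lit 9058529474) (nat_lit 76) (nat_lit 2458213950) (nat_lit 166) (nat_lit 5) (nat_lit 174) (nat_lit 5) (nat_lit 167) (nat_lit 5) (nat_lit 362) (nat_lit 333) (nat_lit 205)) (XT.lf (nat_lit 0) (nat_lit 34698729) (nat_lit 456) (nat_lit 8267698232) (nat_lit 532) (nat_lit 9413751819) (nat_lit 160) (nat_lit 5) (nat_lit 166) (nat_lit 5) (nat_lit 167) (nat_lit 5) (nat_lit 363) (nat_lit 333) (nat_lit 204))))) (XT.nd (nat_lit 234) (nat_lit 988)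 (nat_lit 0) (XT.nd (nat_lit 78) (nat_lit 456) (nat_lit 0) (XT.lf (nat_lit 0) (nat_lit 9575301163) (nat_lit 456) (nat_lit 1281928146) (nat_lit 532) (nat_lit 7163789855) (nat_lit 160) (nat_lit 5) (nat_lit 166) (nat_lit 5) (nat_lit 167) (nat_lit 5) (nat_lit 364) (nat_lit 333) (nat_lit 203)) (XT.nd (nat_lit 78) (nat_lit 0) (nat_lit 0) (XT.lf (nat_lit 0) (nat_lit 1019049734) (nat_lit 456) (nat_lit 12526548436) (nat_lit 532) (nat_lit 4787737088) (nat_lit 154) (nat_lit 5) (nat_lit 160) (nat_lit 5) (nat_lit 161) (nat_lit 5) (nat_lit 365) (nat_lit 333) (nat_lit 202)) (XT.lf (nat_lit 0) (nat_lit 10916974849) (nat_lit 456) (nat_lit 5485927274) (nat_lit 532) (nat_lit 2249476349) (nat_lit 154) (nat_lit 5) (nat_lit 160) (nat_lit 5) (nat_lit 161) (nat_lit 5) (nat_lit 366) (nat_lit 333) (nat_lit 201)))) (XT.nd (nat_lit 156) (nat_lit 456) (nat_lit 0) (XT.nd (nat_lit 78) (nat_lit 0) (nat_lit 0) (XT.lf (nat_lit 0) (nat_lit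 386374013) (nat_lit 532) (nat_lit 16839137539) (nat_lit 76) (nat_lit 1754525108) (nat_lit 147) (nat_lit 5) (nat_lit 154) (nat_lit 5) (nat_lit 148) (nat_lit 5) (nat_lit 367) (nat_lit 333) (nat_lit 200)) (XT.lf (nat_lit 0) (nat_lit 3180056969) (nat_lit 532) (nat_lit 6931487681) (nat_lit 76) (nat_lit 9201598340) (nat_lit 147) (nat_lit 5) (nat_lit 154) (nat_lit 5) (nat_lit 148) (nat_lit 5) (nat_lit 368) (nat_lit 333) (nat_lit 199))) (XT.nd (nat_lit 78) (nat_lit 0) (nat_lit 0) (XT.lf (nat_lit 0) (nat_lit 3327642413) (nat_lit 456) (nat_lit 2752931662) (nat_lit 532) (nat_lit 13574983196) (nat_lit 141) (nat_lit 5) (nat_lit 147) (nat_lit 5) (nat_lit 148) (nat_lit 5) (nat_lit 369) (nat_lit 333) (nat_lit 198)) (XT.lf (nat_lit 0) (nat_lit 9176367493) (nat_lit 532) (nat_lit 6027427932) (nat_lit 76) (nat_lit 4801206045) (nat_lit 141) (nat_lit 5) (nat_lit 148) (nat_lit 5) (nat_lit 142) (nat_lit 5) (nat_lit 370) (nat_lit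 333) (nat_lit 197)))))) (XT.nd (nat_lit 468) (nat_lit 1444) (nat_lit 0) (XT.nd (nat_lit 234) (nat_lit 456) (nat_lit 0) (XT.nd (nat_lit 78) (nat_lit 380) (nat_lit 0) (XT.lf (nat_lit 0) (nat_lit 4634741637) (nat_lit 380) (nat_lit 7793537386) (nat_lit 456) (nat_lit 7934757798) (nat_lit 136) (nat_lit 5) (nat_lit 141) (nat_lit 5) (nat_lit 142) (nat_lit 5) (nat_lit 371) (nat_lit 333) (nat_lit 196)) (XT.nd (nat_lit 78) (nat_lit 380) (nat_lit 0) (XT.lf (nat_lit 0) (nat_lit 15729920034) (nat_lit 380) (nat_lit 100278017) (nat_lit 456) (nat_lit 4900046687) (nat_lit 136) (nat_lit 5) (nat_lit 141) (nat_lit 5) (nat_lit 142) (nat_lit 5) (nat_lit 372) (nat_lit 333) (nat_lit 195)) (XT.lf (nat_lit 0) (nat_lit 6082631323) (nat_lit 380) (nat_lit 13377031653) (nat_lit 456) (nat_lit 1645046128) (nat_lit 131) (nat_lit 5) (nat_lit 136) (nat_lit 5) (nat_lit 137) (nat_lit 5) (nat_lit 373) (nat_lit 333) (nat_lit 194)))) (XT.nd (nat_lit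 78) (nat_lit 380) (nat_lit 0) (XT.lf (nat_lit 0) (nat_lit 1718136359) (nat_lit 456) (nat_lit 3916627859) (nat_lit 76) (nat_lit 15853839725) (nat_lit 130) (nat_lit 5) (nat_lit 136) (nat_lit 5) (nat_lit 131) (nat_lit 5) (nat_lit 374) (nat_lit 333) (nat_lit 193)) (XT.nd (nat_lit 78) (nat_lit 0) (nat_lit 0) (XT.lf (nat_lit 0) (nat_lit 5238099744) (nat_lit 456) (nat_lit 14260150320) (nat_lit 76) (nat_lit 2382612910) (nat_lit 125) (nat_lit 5) (nat_lit 131) (nat_lit 5) (nat_lit 126) (nat_lit 5) (nat_lit 375) (nat_lit 333) (nat_lit 192)) (XT.lf (nat_lit 0) (nat_lit 8951609938) (nat_lit 456) (nat_lit 2765643420) (nat_lit 76) (nat_lit 10565002299) (nat_lit 125) (nat_lit 5) (nat_lit 131) (nat_lit 5) (nat_lit 126) (nat_lit 5) (nat_lit 376) (nat_lit 333) (nat_lit 191))))) (XT.nd (nat_lit 234) (nat_lit 760) (nat_lit 0) (XT.nd (nat_lit 78) (nat_lit 304) (nat_lit 0) (XT.lf (nat_lit 0) (nat_lit 9244164032) (nat_lit 380)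 (nat_lit 3613664987) (nat_lit 456) (nat_lit 9835426188) (nat_lit 120) (nat_lit 5) (nat_lit 125) (nat_lit 5) (nat_lit 126) (nat_lit 5) (nat_lit 377) (nat_lit 333) (nat_lit 190)) (XT.nd (nat_lit 78) (nat_lit 304) (nat_lit 0) (XT.lf (nat_lit 0) (nat_lit 16947481240) (nat_lit 456) (nat_lit 1500589856) (nat_lit 76) (nat_lit 4666530324) (nat_lit 120) (nat_lit 5) (nat_lit 126) (nat_lit 5) (nat_lit 121) (nat_lit 5) (nat_lit 378) (nat_lit 333) (nat_lit 189)) (XT.lf (nat_lit 0) (nat_lit 10975013445) (nat_lit 304) (nat_lit 10318849790) (nat_lit 380) (nat_lit 2250707529) (nat_lit 116) (nat_lit 5) (nat_lit 120) (nat_lit 5) (nat_lit 121) (nat_lit 5) (nat_lit 379) (nat_lit 333) (nat_lit 188)))) (XT.nd (nat_lit 156) (nat_lit 304) (nat_lit 0) (XT.nd (nat_lit 78) (nat_lit 380) (nat_lit 0) (XT.lf (nat_lit 0) (nat_lit 1756510615) (nat_lit 380) (nat_lit 158418020) (nat_lit 76) (nat_lit 22071756753) (nat_lit 115) (nat_lit 5)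 (nat_lit 120) (nat_lit 5) (nat_lit 116) (nat_lit 5) (nat_lit 380) (nat_lit 333) (nat_lit 187)) (XT.lf (nat_lit 0) (nat_lit 6021406426) (nat_lit 456) (nat_lit 11660223295) (nat_lit 76) (nat_lit 6754287876) (nat_lit 110) (nat_lit 5) (nat_lit 116) (nat_lit 5) (nat_lit 111) (nat_lit 5) (nat_lit 381) (nat_lit 333) (nat_lit 186))) (XT.nd (nat_lit 78) (nat_lit 0) (nat_lit 0) (XT.lf (nat_lit 0) (nat_lit 1197291909) (nat_lit 304) (nat_lit 9242146294) (nat_lit 380) (nat_lit 14458436409) (nat_lit 106) (nat_lit 5) (nat_lit 110) (nat_lit 5) (nat_lit 111) (nat_lit 5) (nat_lit 382) (nat_lit 333) (nat_lit 185)) (XT.lf (nat_lit 0) (nat_lit 14670055114) (nat_lit 304) (nat_lit 430915469) (nat_lit 380) (nat_lit 10269394376) (nat_lit 106) (nat_lit 5) (nat_lit 110) (nat_lit 5) (nat_lit 111) (nat_lit 5) (nat_lit 383) (nat_lit 333) (nat_lit 184))))))) (XT.nd (nat_lit 1014) (nat_lit 1596) (nat_lit 0) (XT.nd (nat_lit 468) (nat_lit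 1140) (nat_lit 0) (XT.nd (nat_lit 234) (nat_lit 304) (nat_lit 0) (XT.nd (nat_lit 78) (nat_lit 380) (nat_lit 0) (XT.lf (nat_lit 0) (nat_lit 2649168835) (nat_lit 304) (nat_lit 17355129779) (nat_lit 380) (nat_lit 5849676222) (nat_lit 102) (nat_lit 5) (nat_lit 106) (nat_lit 5) (nat_lit 107) (nat_lit 5) (nat_lit 384) (nat_lit 333) (nat_lit 183)) (XT.nd (nat_lit 78) (nat_lit 380) (nat_lit 0) (XT.lf (nat_lit 0) (nat_lit 16604818986) (nat_lit 304) (nat_lit 8555674029) (nat_lit 380) (nat_lit 1188430212) (nat_lit 102) (nat_lit 5) (nat_lit 106) (nat_lit 5) (nat_lit 107) (nat_lit 5) (nat_lit 385) (nat_lit 333) (nat_lit 182)) (XT.lf (nat_lit 0) (nat_lit 3581330694) (nat_lit 380) (nat_lit 22704611673) (nat_lit 76) (nat_lit 570563719) (nat_lit 97) (nat_lit 5) (nat_lit 102) (nat_lit 5) (nat_lit 98) (nat_lit 5) (nat_lit 386) (nat_lit 333) (nat_lit 181)))) (XT.nd (nat_lit 78) (nat_lit 304) (nat_lit 0) (XT.lf (nat_lit 0)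 (nat_lit 8648064019) (nat_lit 380) (nat_lit 8818538714) (nat_lit 76) (nat_lit 9907030667) (nat_lit 97) (nat_lit 5) (nat_lit 102) (nat_lit 5) (nat_lit 98) (nat_lit 5) (nat_lit 387) (nat_lit 333) (nat_lit 180)) (XT.nd (nat_lit 78) (nat_lit 0) (nat_lit 0) (XT.lf (nat_lit 0) (nat_lit 5584110421) (nat_lit 304) (nat_lit 8330236369) (nat_lit 380) (nat_lit 13990504173) (nat_lit 93) (nat_lit 5) (nat_lit 97) (nat_lit 5) (nat_lit 98) (nat_lit 5) (nat_lit 388) (nat_lit 333) (nat_lit 179)) (XT.lf (nat_lit 0) (nat_lit 19432868776) (nat_lit 380) (nat_lit 7870029239) (nat_lit 76) (nat_lit 1146282290) (nat_lit 93) (nat_lit 5) (nat_lit 98) (nat_lit 5) (nat_lit 94) (nat_lit 5) (nat_lit 389) (nat_lit 333) (nat_lit 178))))) (XT.nd (nat_lit 234) (nat_lit 532) (nat_lit 0) (XT.nd (nat_lit 78) (nat_lit 380) (nat_lit 0) (XT.lf (nat_lit 0) (nat_lit 7060728701) (nat_lit 228) (nat_lit 18200679342) (nat_lit 304) (nat_lit 3744100326)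 (nat_lit 90) (nat_lit 5) (nat_lit 93) (nat_lit 5) (nat_lit 94) (nat_lit 5) (nat_lit 390) (nat_lit 333) (nat_lit 177)) (XT.nd (nat_lit 78) (nat_lit 304) (nat_lit 0) (XT.lf (nat_lit 0) (nat_lit 1727770537) (nat_lit 304) (nat_lit 7001211709) (nat_lit 76) (nat_lit 20846828322) (nat_lit 89) (nat_lit 5) (nat_lit 93) (nat_lit 5) (nat_lit 90) (nat_lit 5) (nat_lit 391) (nat_lit 333) (nat_lit 176)) (XT.lf (nat_lit 0) (nat_lit 7375689962) (nat_lit 380) (nat_lit 21659727073) (nat_lit 76) (nat_lit 1124080798) (nat_lit 85) (nat_lit 5) (nat_lit 90) (nat_lit 5) (nat_lit 86) (nat_lit 5) (nat_lit 392) (nat_lit 333) (nat_lit 175)))) (XT.nd (nat_lit 156) (nat_lit 304) (nat_lit 0) (XT.nd (nat_lit 78) (nat_lit 228) (nat_lit 0) (XT.lf (nat_lit 0) (nat_lit 13345238417) (nat_lit 380) (nat_lit 6245012633) (nat_lit 76) (nat_lit 11165881314) (nat_lit 85) (nat_lit 5) (nat_lit 90) (nat_lit 5) (nat_lit 86) (nat_lit 5) (nat_lit 393)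 (nat_lit 333) (nat_lit 174)) (XT.lf (nat_lit 0) (nat_lit 9815313217) (nat_lit 228) (nat_lit 9767442346) (nat_lit 304) (nat_lit 11785246221) (nat_lit 82) (nat_lit 5) (nat_lit 85) (nat_lit 5) (nat_lit 86) (nat_lit 5) (nat_lit 394) (nat_lit 333) (nat_lit 173))) (XT.nd (nat_lit 78) (nat_lit 304) (nat_lit 0) (XT.lf (nat_lit 0) (nat_lit 26069033221) (nat_lit 304) (nat_lit 5523275502) (nat_lit 76) (nat_lit 404071770) (nat_lit 82) (nat_lit 5) (nat_lit 86) (nat_lit 5) (nat_lit 83) (nat_lit 5) (nat_lit 395) (nat_lit 333) (nat_lit 172)) (XT.lf (nat_lit 0) (nat_lit 304310281) (nat_lit 304) (nat_lit 21541934692) (nat_lit 76) (nat_lit 10791334191) (nat_lit 78) (nat_lit 5) (nat_lit 82) (nat_lit 5) (nat_lit 79) (nat_lit 5) (nat_lit 396) (nat_lit 333) (nat_lit 171)))))) (XT.nd (nat_lit 546) (nat_lit 836) (nat_lit 0) (XT.nd (nat_lit 234) (nat_lit 532) (nat_lit 0) (XT.nd (nat_lit 78) (nat_lit 228) (nat_lit 0) (XT.lf (nat_lit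 0) (nat_lit 6654873315) (nat_lit 304) (nat_lit 5037422944) (nat_lit 76) (nat_lit 21602426316) (nat_lit 78) (nat_lit 5) (nat_lit 82) (nat_lit 5) (nat_lit 79) (nat_lit 5) (nat_lit 397) (nat_lit 333) (nat_lit 170)) (XT.nd (nat_lit 78) (nat_lit 0) (nat_lit 0) (XT.lf (nat_lit 0) (nat_lit 12192178911) (nat_lit 228) (nat_lit 1115888633) (nat_lit 304) (nat_lit 20660151316) (nat_lit 75) (nat_lit 5) (nat_lit 78) (nat_lit 5) (nat_lit 79) (nat_lit 5) (nat_lit 398) (nat_lit 333) (nat_lit 169)) (XT.lf (nat_lit 0) (nat_lit 20301180028) (nat_lit 304) (nat_lit 4720962162) (nat_lit 76) (nat_lit 9635570116) (nat_lit 75) (nat_lit 5) (nat_lit 79) (nat_lit 5) (nat_lit 76) (nat_lit 5) (nat_lit 399) (nat_lit 333) (nat_lit 168)))) (XT.nd (nat_lit 156) (nat_lit 304) (nat_lit 0) (XT.nd (nat_lit 78) (nat_lit 0) (nat_lit 0) (XT.lf (nat_lit 0) (nat_lit 13082228847) (nat_lit 228) (nat_lit 14553766998) (nat_lit 304) (nat_lit 7727939301)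 (nat_lit 72) (nat_lit 5) (nat_lit 75) (nat_lit 5) (nat_lit 76) (nat_lit 5) (nat_lit 400) (nat_lit 333) (nat_lit 167)) (XT.lf (nat_lit 0) (nat_lit 31508594767) (nat_lit 228) (nat_lit 3725109532) (nat_lit 304) (nat_lit 856356759) (nat_lit 72) (nat_lit 5) (nat_lit 75) (nat_lit 5) (nat_lit 76) (nat_lit 5) (nat_lit 401) (nat_lit 333) (nat_lit 166))) (XT.nd (nat_lit 78) (nat_lit 0) (nat_lit 0) (XT.lf (nat_lit 0) (nat_lit 6301690512) (nat_lit 304) (nat_lit 23052888988) (nat_lit 76) (nat_lit 7475547306) (nat_lit 68) (nat_lit 5) (nat_lit 72) (nat_lit 5) (nat_lit 69) (nat_lit 5) (nat_lit 402) (nat_lit 333) (nat_lit 165)) (XT.lf (nat_lit 0) (nat_lit 13736178144) (nat_lit 304) (nat_lit 4863815058) (nat_lit 76) (nat_lit 18989781312) (nat_lit 68) (nat_lit 5) (nat_lit 72) (nat_lit 5) (nat_lit 69) (nat_lit 5) (nat_lit 403) (nat_lit 333) (nat_lit 164))))) (XT.nd (nat_lit 234) (nat_lit 456) (nat_lit 0) (XT.nd (nat_lit 78)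 (nat_lit 152) (nat_lit 0) (XT.lf (nat_lit 0) (nat_lit 14139456448) (nat_lit 228) (nat_lit 7385604469) (nat_lit 304) (nat_lit 16843211552) (nat_lit 65) (nat_lit 5) (nat_lit 68) (nat_lit 5) (nat_lit 69) (nat_lit 5) (nat_lit 404) (nat_lit 333) (nat_lit 163)) (XT.nd (nat_lit 78) (nat_lit 152) (nat_lit 0) (XT.lf (nat_lit 0) (nat_lit 29632728770) (nat_lit 304) (nat_lit 5404070511) (nat_lit 76) (nat_lit 4130774102) (nat_lit 65) (nat_lit 5) (nat_lit 69) (nat_lit 5) (nat_lit 66) (nat_lit 5) (nat_lit 405) (nat_lit 333) (nat_lit 162)) (XT.lf (nat_lit 0) (nat_lit 14181823994) (nat_lit 152) (nat_lit 24006862228) (nat_lit 228) (nat_lit 1796016852) (nat_lit 63) (nat_lit 5) (nat_lit 65) (nat_lit 5) (nat_lit 66) (nat_lit 5) (nat_lit 406) (nat_lit 333) (nat_lit 161)))) (XT.nd (nat_lit 156) (nat_lit 152) (nat_lit 0) (XT.nd (nat_lit 78) (nat_lit 228) (nat_lit 0) (XT.lf (nat_lit 0) (nat_lit 6105215857) (nat_lit 228) (nat_lit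 6425758898) (nat_lit 76) (nat_lit 28292070534) (nat_lit 62) (nat_lit 5) (nat_lit 65) (nat_lit 5) (nat_lit 63) (nat_lit 5) (nat_lit 407) (nat_lit 333) (nat_lit 160)) (XT.lf (nat_lit 0) (nat_lit 13776711345) (nat_lit 228) (nat_lit 558858956) (nat_lit 304) (nat_lit 27346589918) (nat_lit 59) (nat_lit 5) (nat_lit 62) (nat_lit 5) (nat_lit 63) (nat_lit 5) (nat_lit 408) (nat_lit 333) (nat_lit 159))) (XT.nd (nat_lit 78) (nat_lit 152) (nat_lit 0) (XT.lf (nat_lit 0) (nat_lit 22987312289) (nat_lit 304) (nat_lit 7968976950) (nat_lit 76) (nat_lit 11605526412) (nat_lit 59) (nat_lit 5) (nat_lit 63) (nat_lit 5) (nat_lit 60) (nat_lit 5) (nat_lit 409) (nat_lit 333) (nat_lit 158)) (XT.lf (nat_lit 0) (nat_lit 12803048416) (nat_lit 152) (nat_lit 19220068119) (nat_lit 228) (nat_lit 11441010237) (nat_lit 57) (nat_lit 5) (nat_lit 59) (nat_lit 5) (nat_lit 60) (nat_lit 5) (nat_lit 410) (nat_lit 333) (nat_lit 157))))))))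
noncomputable def xc185 : XT := (XT.nd (nat_lit 40950) (nat_lit 0) (nat_lit 10716) (XT.nd (nat_lit 1014) (nat_lit 760) (nat_lit 0) (XT.nd (nat_lit 468) (nat_lit 608) (nat_lit 0) (XT.nd (nat_lit 234) (nat_lit 304) (nat_lit 0) (XT.nd (nat_lit 78) (nat_lit 228) (nat_lit 0) (XT.lf (nat_lit 0) (nat_lit 34354816782) (nat_lit 152) (nat_lit 7051609304) (nat_lit 228) (nat_lit 2984789491) (nat_lit 57) (nat_lit 5) (nat_lit 59) (nat_lit 5) (nat_lit 60) (nat_lit 5) (nat_lit 411) (nat_lit 333) (nat_lit 156)) (XT.nd (nat_lit 78) (nat_lit 0) (nat_lit 0) (XT.lf (nat_lit 0) (nat_lit 5773002154) (nat_lit 228) (nat_lit 34028459326) (nat_lit 76) (nat_lit 5538217719) (nat_lit 54) (nat_lit 5) (nat_lit 57) (nat_lit 5) (nat_lit 55) (nat_lit 5) (nat_lit 412) (nat_lit 333) (nat_lit 155)) (XT.lf (nat_lit 0) (nat_lit 14901769557) (nat_lit 228) (nat_lit 12915610775) (nat_lit 76) (nat_lit 18493284003) (nat_lit 54) (nat_lit 5) (nat_lit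 57) (nat_lit 5) (nat_lit 55) (nat_lit 5) (nat_lit 413) (nat_lit 333) (nat_lit 154)))) (XT.nd (nat_lit 78) (nat_lit 152) (nat_lit 0) (XT.lf (nat_lit 0) (nat_lit 8999751288) (nat_lit 152) (nat_lit 15387338463) (nat_lit 228) (nat_lit 22921209723) (nat_lit 52) (nat_lit 5) (nat_lit 54) (nat_lit 5) (nat_lit 55) (nat_lit 5) (nat_lit 414) (nat_lit 333) (nat_lit 153)) (XT.nd (nat_lit 78) (nat_lit 152) (nat_lit 0) (XT.lf (nat_lit 0) (nat_lit 31830905688) (nat_lit 152) (nat_lit 2452714393) (nat_lit 228) (nat_lit 14048445180) (nat_lit 52) (nat_lit 5) (nat_lit 54) (nat_lit 5) (nat_lit 55) (nat_lit 5) (nat_lit 415) (nat_lit 333) (nat_lit 152)) (XT.lf (nat_lit 0) (nat_lit 5966056465) (nat_lit 152) (nat_lit 38669141110) (nat_lit 228) (nat_lit 4746602986) (nat_lit 50) (nat_lit 5) (nat_lit 52) (nat_lit 5) (nat_lit 53) (nat_lit 5) (nat_lit 416) (nat_lit 333) (nat_lit 151))))) (XT.nd (nat_lit 234) (nat_lit 380) (nat_lit 0)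 (XT.nd (nat_lit 78) (nat_lit 152) (nat_lit 0) (XT.lf (nat_lit 0) (nat_lit 4928846822) (nat_lit 228) (nat_lit 21091223818) (nat_lit 76) (nat_lit 24435897583) (nat_lit 49) (nat_lit 5) (nat_lit 52) (nat_lit 5) (nat_lit 50) (nat_lit 5) (nat_lit 417) (nat_lit 333) (nat_lit 150)) (XT.nd (nat_lit 78) (nat_lit 0) (nat_lit 0) (XT.lf (nat_lit 0) (nat_lit 1886699815) (nat_lit 152) (nat_lit 12927024880) (nat_lit 228) (nat_lit 36746790325) (nat_lit 47) (nat_lit 5) (nat_lit 49) (nat_lit 5) (nat_lit 50) (nat_lit 5) (nat_lit 418) (nat_lit 333) (nat_lit 149)) (XT.lf (nat_lit 0) (nat_lit 25212060466) (nat_lit 228) (nat_lit 26719152778) (nat_lit 76) (nat_lit 760478587) (nat_lit 47) (nat_lit 5) (nat_lit 50) (nat_lit 5) (nat_lit 48) (nat_lit 5) (nat_lit 419) (nat_lit 333) (nat_lit 148)))) (XT.nd (nat_lit 156) (nat_lit 228) (nat_lit 0) (XT.nd (nat_lit 78) (nat_lit 152) (nat_lit 0) (XT.lf (nat_lit 0) (nat_lit 36046891216) (nat_lit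 228) (nat_lit 3209835161) (nat_lit 76) (nat_lit 14596342150) (nat_lit 47) (nat_lit 5) (nat_lit 50) (nat_lit 5) (nat_lit 48) (nat_lit 5) (nat_lit 420) (nat_lit 333) (nat_lit 147)) (XT.lf (nat_lit 0) (nat_lit 21416862363) (nat_lit 152) (nat_lit 25992431422) (nat_lit 228) (nat_lit 7633917836) (nat_lit 45) (nat_lit 5) (nat_lit 47) (nat_lit 5) (nat_lit 48) (nat_lit 5) (nat_lit 421) (nat_lit 333) (nat_lit 146))) (XT.nd (nat_lit 78) (nat_lit 152) (nat_lit 0) (XT.lf (nat_lit 0) (nat_lit 2817419663) (nat_lit 228) (nat_lit 9453411744) (nat_lit 76) (nat_lit 43996526522) (nat_lit 44) (nat_lit 5) (nat_lit 47) (nat_lit 5) (nat_lit 45) (nat_lit 5) (nat_lit 422) (nat_lit 333) (nat_lit 145)) (XT.lf (nat_lit 0) (nat_lit 13596365003) (nat_lit 228) (nat_lit 41872425950) (nat_lit 76) (nat_lit 2052145941) (nat_lit 42) (nat_lit 5) (nat_lit 45) (nat_lit 5) (nat_lit 43) (nat_lit 5) (nat_lit 423) (nat_lit 333) (nat_lit 144))))))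 (XT.nd (nat_lit 468) (nat_lit 456) (nat_lit 0) (XT.nd (nat_lit 234) (nat_lit 152) (nat_lit 0) (XT.nd (nat_lit 78) (nat_lit 152) (nat_lit 0) (XT.lf (nat_lit 0) (nat_lit 24913356087) (nat_lit 228) (nat_lit 17240099244) (nat_lit 76) (nat_lit 16652228377) (nat_lit 42) (nat_lit 5) (nat_lit 45) (nat_lit 5) (nat_lit 43) (nat_lit 5) (nat_lit 424) (nat_lit 333) (nat_lit 143)) (XT.nd (nat_lit 78) (nat_lit 0) (nat_lit 0) (XT.lf (nat_lit 0) (nat_lit 8287401408) (nat_lit 152) (nat_lit 28358990835) (nat_lit 228) (nat_lit 23480285402) (nat_lit 40) (nat_lit 5) (nat_lit 42) (nat_lit 5) (nat_lit 43) (nat_lit 5) (nat_lit 425) (nat_lit 333) (nat_lit 142)) (XT.lf (nat_lit 0) (nat_lit 34928673355) (nat_lit 152) (nat_lit 13973747736) (nat_lit 228) (nat_lit 12579751015) (nat_lit 40) (nat_lit 5) (nat_lit 42) (nat_lit 5) (nat_lit 43) (nat_lit 5) (nat_lit 426) (nat_lit 333) (nat_lit 141)))) (XT.nd (nat_lit 78) (nat_lit 152) (nat_lit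 0) (XT.lf (nat_lit 0) (nat_lit 61531213028) (nat_lit 228) (nat_lit 522620350) (nat_lit 76) (nat_lit 824346290) (nat_lit 40) (nat_lit 5) (nat_lit 43) (nat_lit 5) (nat_lit 41) (nat_lit 4) (nat_lit 427) (nat_lit 333) (nat_lit 140)) (XT.nd (nat_lit 78) (nat_lit 0) (nat_lit 0) (XT.lf (nat_lit 0) (nat_lit 10418945431) (nat_lit 152) (nat_lit 37740494769) (nat_lit 76) (nat_lit 16141811077) (nat_lit 38) (nat_lit 5) (nat_lit 40) (nat_lit 5) (nat_lit 39) (nat_lit 5) (nat_lit 428) (nat_lit 333) (nat_lit 139)) (XT.lf (nat_lit 0) (nat_lit 22513164626) (nat_lit 152) (nat_lit 11318117327) (nat_lit 76) (nat_lit 31935261590) (nat_lit 38) (nat_lit 5) (nat_lit 40) (nat_lit 5) (nat_lit 39) (nat_lit 5) (nat_lit 429) (nat_lit 333) (nat_lit 138))))) (XT.nd (nat_lit 234) (nat_lit 228) (nat_lit 0) (XT.nd (nat_lit 78) (nat_lit 76) (nat_lit 0) (XT.lf (nat_lit 0) (nat_lit 16208142782) (nat_lit 152) (nat_lit 18915028220) (nat_lit 228)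 (nat_lit 32148035408) (nat_lit 36) (nat_lit 5) (nat_lit 38) (nat_lit 5) (nat_lit 39) (nat_lit 5) (nat_lit 430) (nat_lit 333) (nat_lit 137)) (XT.nd (nat_lit 78) (nat_lit 76) (nat_lit 0) (XT.lf (nat_lit 0) (nat_lit 44787182788) (nat_lit 152) (nat_lit 3435778136) (nat_lit 228) (nat_lit 20594704371) (nat_lit 36) (nat_lit 5) (nat_lit 38) (nat_lit 5) (nat_lit 39) (nat_lit 5) (nat_lit 431) (nat_lit 333) (nat_lit 136)) (XT.lf (nat_lit 0) (nat_lit 3761305763) (nat_lit 76) (nat_lit 58108081552) (nat_lit 152) (nat_lit 8536521963) (nat_lit 35) (nat_lit 5) (nat_lit 36) (nat_lit 5) (nat_lit 37) (nat_lit 4) (nat_lit 432) (nat_lit 333) (nat_lit 135)))) (XT.nd (nat_lit 156) (nat_lit 152) (nat_lit 0) (XT.nd (nat_lit 78) (nat_lit 0) (nat_lit 0) (XT.lf (nat_lit 0) (nat_lit 4083966899) (nat_lit 152) (nat_lit 39233762162) (nat_lit 76) (nat_lit 28714662000) (nat_lit 34) (nat_lit 5) (nat_lit 36) (nat_lit 5) (nat_lit 35) (nat_lit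 5) (nat_lit 433) (nat_lit 333) (nat_lit 134)) (XT.lf (nat_lit 0) (nat_lit 16908833893) (nat_lit 152) (nat_lit 11089912248) (nat_lit 76) (nat_lit 45706465946) (nat_lit 34) (nat_lit 5) (nat_lit 36) (nat_lit 5) (nat_lit 35) (nat_lit 5) (nat_lit 434) (nat_lit 333) (nat_lit 133))) (XT.nd (nat_lit 39000) (nat_lit 0) (nat_lit 15884) (XT.lf (nat_lit 0) (nat_lit 18249713861) (nat_lit 152) (nat_lit 12041577055) (nat_lit 228) (nat_lit 45131742052) (nat_lit 32) (nat_lit 5) (nat_lit 34) (nat_lit 5) (nat_lit 35) (nat_lit 5) (nat_lit 435) (nat_lit 333) (nat_lit 132)) (XT.lf (nat_lit 0) (nat_lit 5152227736) (nat_lit 1140) (nat_lit 298178407) (nat_lit 1140) (nat_lit 298178407) (nat_lit 241) (nat_lit 3) (nat_lit 256) (nat_lit 3) (nat_lit 256) (nat_lit 5) (nat_lit 334) (nat_lit 334) (nat_lit 232))))))) (XT.nd (nat_lit 1014) (nat_lit 4104) (nat_lit 0) (XT.nd (nat_lit 468) (nat_lit 0) (nat_lit 152) (XT.nd (nat_lit 234) (nat_lit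 0) (nat_lit 0) (XT.nd (nat_lit 78) (nat_lit 1064) (nat_lit 0) (XT.lf (nat_lit 76) (nat_lit 4904338235) (nat_lit 0) (nat_lit 6100041609) (nat_lit 1140) (nat_lit 648479710) (nat_lit 242) (nat_lit 5) (nat_lit 241) (nat_lit 3) (nat_lit 256) (nat_lit 5) (nat_lit 335) (nat_lit 334) (nat_lit 231)) (XT.nd (nat_lit 78) (nat_lit 1064) (nat_lit 0) (XT.lf (nat_lit 76) (nat_lit 10572057881) (nat_lit 0) (nat_lit 1139723950) (nat_lit 1140) (nat_lit 101860352) (nat_lit 242) (nat_lit 5) (nat_lit 241) (nat_lit 3) (nat_lit 256) (nat_lit 5) (nat_lit 336) (nat_lit 334) (nat_lit 230)) (XT.lf (nat_lit 0) (nat_lit 514989054) (nat_lit 1140) (nat_lit 7513429491) (nat_lit 1216) (nat_lit 3948826796) (nat_lit 227) (nat_lit 5) (nat_lit 242) (nat_lit 5) (nat_lit 243) (nat_lit 5) (nat_lit 337) (nat_lit 334) (nat_lit 229)))) (XT.nd (nat_lit 78) (nat_lit 0) (nat_lit 76) (XT.lf (nat_lit 0) (nat_lit 1153608809) (nat_lit 1140) (nat_lit 1802844604)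 (nat_lit 1216) (nat_lit 9189128075) (nat_lit 227) (nat_lit 5) (nat_lit 242) (nat_lit 5) (nat_lit 243) (nat_lit 5) (nat_lit 338) (nat_lit 334) (nat_lit 228)) (XT.nd (nat_lit 78) (nat_lit 0) (nat_lit 0) (XT.lf (nat_lit 0) (nat_lit 1855448750) (nat_lit 1140) (nat_lit 8191124138) (nat_lit 1216) (nat_lit 2271087073) (nat_lit 228) (nat_lit 5) (nat_lit 243) (nat_lit 5) (nat_lit 244) (nat_lit 5) (nat_lit 339) (nat_lit 334) (nat_lit 227)) (XT.lf (nat_lit 0) (nat_lit 2608405660) (nat_lit 1140) (nat_lit 2264121452) (nat_lit 1216) (nat_lit 7621485502) (nat_lit 228) (nat_lit 5) (nat_lit 243) (nat_lit 5) (nat_lit 244) (nat_lit 5) (nat_lit 340) (nat_lit 334) (nat_lit 226))))) (XT.nd (nat_lit 234) (nat_lit 0) (nat_lit 76) (XT.nd (nat_lit 78) (nat_lit 0) (nat_lit 0) (XT.lf (nat_lit 0) (nat_lit 3409239897) (nat_lit 1140) (nat_lit 8773710153) (nat_lit 1216) (nat_lit 491960421) (nat_lit 229) (nat_lit 5) (nat_lit 244) (nat_lit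 5) (nat_lit 245) (nat_lit 5) (nat_lit 341) (nat_lit 334) (nat_lit 225)) (XT.nd (nat_lit 78) (nat_lit 0) (nat_lit 0) (XT.lf (nat_lit 0) (nat_lit 4288801956) (nat_lit 1140) (nat_lit 2622337425) (nat_lit 1216) (nat_lit 5948467695) (nat_lit 229) (nat_lit 5) (nat_lit 244) (nat_lit 5) (nat_lit 245) (nat_lit 5) (nat_lit 342) (nat_lit 334) (nat_lit 224)) (XT.lf (nat_lit 76) (nat_lit 3776381009) (nat_lit 0) (nat_lit 1438525504) (nat_lit 1216) (nat_lit 7834345915) (nat_lit 230) (nat_lit 5) (nat_lit 229) (nat_lit 5) (nat_lit 245) (nat_lit 5) (nat_lit 343) (nat_lit 334) (nat_lit 223)))) (XT.nd (nat_lit 156) (nat_lit 0) (nat_lit 76) (XT.nd (nat_lit 78) (nat_lit 0) (nat_lit 0) (XT.lf (nat_lit 0) (nat_lit 6220162604) (nat_lit 1140) (nat_lit 2874907985) (nat_lit 1216) (nat_lit 4147987655) (nat_lit 230) (nat_lit 5) (nat_lit 245) (nat_lit 5) (nat_lit 246) (nat_lit 5) (nat_lit 344) (nat_lit 334) (nat_lit 222)) (XT.lf (nat_lit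 76) (nat_lit 3763201539) (nat_lit 0) (nat_lit 3527519469) (nat_lit 1216) (nat_lit 6150914687) (nat_lit 231) (nat_lit 5) (nat_lit 230) (nat_lit 5) (nat_lit 246) (nat_lit 5) (nat_lit 345) (nat_lit 334) (nat_lit 221))) (XT.nd (nat_lit 78) (nat_lit 0) (nat_lit 0) (XT.lf (nat_lit 0) (nat_lit 8429037009) (nat_lit 1140) (nat_lit 3018789756) (nat_lit 1216) (nat_lit 2197285937) (nat_lit 231) (nat_lit 5) (nat_lit 246) (nat_lit 5) (nat_lit 247) (nat_lit 5) (nat_lit 346) (nat_lit 334) (nat_lit 220)) (XT.lf (nat_lit 76) (nat_lit 3870196473) (nat_lit 0) (nat_lit 5788975308) (nat_lit 1216) (nat_lit 4193803282) (nat_lit 232) (nat_lit 5) (nat_lit 231) (nat_lit 5) (nat_lit 247) (nat_lit 5) (nat_lit 347) (nat_lit 334) (nat_lit 219)))))) (XT.nd (nat_lit 546) (nat_lit 2356) (nat_lit 0) (XT.nd (nat_lit 234) (nat_lit 2128) (nat_lit 0) (XT.nd (nat_lit 78) (nat_lit 0) (nat_lit 0) (XT.lf (nat_lit 0) (nat_lit 10943264873) (nat_lit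 1140) (nat_lit 3050507854) (nat_lit 1216) (nat_lit 72799739) (nat_lit 232) (nat_lit 5) (nat_lit 247) (nat_lit 5) (nat_lit 248) (nat_lit 5) (nat_lit 348) (nat_lit 334) (nat_lit 218)) (XT.nd (nat_lit 78) (nat_lit 0) (nat_lit 0) (XT.lf (nat_lit 76) (nat_lit 4101378426) (nat_lit 0) (nat_lit 8247542456) (nat_lit 1216) (nat_lit 1935176189) (nat_lit 233) (nat_lit 5) (nat_lit 232) (nat_lit 5) (nat_lit 248) (nat_lit 5) (nat_lit 349) (nat_lit 334) (nat_lit 217)) (XT.lf (nat_lit 76) (nat_lit 11519393577) (nat_lit 0) (nat_lit 2294749439) (nat_lit 1216) (nat_lit 693492686) (nat_lit 233) (nat_lit 5) (nat_lit 232) (nat_lit 5) (nat_lit 248) (nat_lit 5) (nat_lit 350) (nat_lit 334) (nat_lit 216)))) (XT.nd (nat_lit 156) (nat_lit 988) (nat_lit 0) (XT.nd (nat_lit 78) (nat_lit 0) (nat_lit 0) (XT.lf (nat_lit 0) (nat_lit 641437881) (nat_lit 1216) (nat_lit 10280997721) (nat_lit 76) (nat_lit 3813263037) (nat_lit 217) (nat_lit 5)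 (nat_lit 233) (nat_lit 5) (nat_lit 218) (nat_lit 5) (nat_lit 351) (nat_lit 334) (nat_lit 215)) (XT.lf (nat_lit 0) (nat_lit 2042815749) (nat_lit 1216) (nat_lit 2828616103) (nat_lit 76) (nat_lit 10097764803) (nat_lit 217) (nat_lit 5) (nat_lit 233) (nat_lit 5) (nat_lit 218) (nat_lit 5) (nat_lit 352) (nat_lit 334) (nat_lit 214))) (XT.nd (nat_lit 78) (nat_lit 0) (nat_lit 0) (XT.lf (nat_lit 0) (nat_lit 3534737456) (nat_lit 1064) (nat_lit 10289531495) (nat_lit 76) (nat_lit 1383984628) (nat_lit 204) (nat_lit 5) (nat_lit 218) (nat_lit 5) (nat_lit 205) (nat_lit 5) (nat_lit 353) (nat_lit 334) (nat_lit 213)) (XT.lf (nat_lit 0) (nat_lit 5136286671) (nat_lit 1064) (nat_lit 2556852319) (nat_lit 76) (nat_lit 7759405907) (nat_lit 204) (nat_lit 5) (nat_lit 218) (nat_lit 5) (nat_lit 205) (nat_lit 5) (nat_lit 354) (nat_lit 334) (nat_lit 212))))) (XT.nd (nat_lit 234) (nat_lit 1216) (nat_lit 0) (XT.nd (nat_lit 78) (nat_lit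 532) (nat_lit 0) (XT.lf (nat_lit 0) (nat_lit 5504366290) (nat_lit 608) (nat_lit 1322574568) (nat_lit 684) (nat_lit 8876000866) (nat_lit 196) (nat_lit 5) (nat_lit 204) (nat_lit 5) (nat_lit 205) (nat_lit 5) (nat_lit 355) (nat_lit 334) (nat_lit 211)) (XT.nd (nat_lit 78) (nat_lit 532) (nat_lit 0) (XT.lf (nat_lit 0) (nat_lit 8633148435) (nat_lit 684) (nat_lit 2161968095) (nat_lit 76) (nat_lit 5163797191) (nat_lit 196) (nat_lit 5) (nat_lit 205) (nat_lit 5) (nat_lit 197) (nat_lit 5) (nat_lit 356) (nat_lit 334) (nat_lit 210)) (XT.lf (nat_lit 0) (nat_lit 6213096637) (nat_lit 532) (nat_lit 4341999857) (nat_lit 608) (nat_lit 5665629791) (nat_lit 189) (nat_lit 5) (nat_lit 196) (nat_lit 5) (nat_lit 197) (nat_lit 5) (nat_lit 357) (nat_lit 334) (nat_lit 209)))) (XT.nd (nat_lit 156) (nat_lit 608) (nat_lit 0) (XT.nd (nat_lit 78) (nat_lit 608) (nat_lit 0) (XT.lf (nat_lit 0) (nat_lit 12567869328) (nat_lit 608) (nat_lit 1639399789)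 (nat_lit 76) (nat_lit 2282136921) (nat_lit 189) (nat_lit 5) (nat_lit 197) (nat_lit 5) (nat_lit 190) (nat_lit 5) (nat_lit 358) (nat_lit 334) (nat_lit 208)) (XT.lf (nat_lit 0) (nat_lit 7064029975) (nat_lit 608) (nat_lit 7677174930) (nat_lit 684) (nat_lit 2021943466) (nat_lit 181) (nat_lit 5) (nat_lit 189) (nat_lit 5) (nat_lit 190) (nat_lit 5) (nat_lit 359) (nat_lit 334) (nat_lit 207))) (XT.nd (nat_lit 78) (nat_lit 608) (nat_lit 0) (XT.lf (nat_lit 0) (nat_lit 16051572076) (nat_lit 608) (nat_lit 934219087) (nat_lit 684) (nat_lit 59137646) (nat_lit 181) (nat_lit 5) (nat_lit 189) (nat_lit 5) (nat_lit 190) (nat_lit 5) (nat_lit 360) (nat_lit 334) (nat_lit 206)) (XT.lf (nat_lit 0) (nat_lit 2050571889) (nat_lit 608) (nat_lit 9288996110) (nat_lit 76) (nat_lit 5991246154) (nat_lit 173) (nat_lit 5) (nat_lit 181) (nat_lit 5) (nat_lit 174) (nat_lit 5) (nat_lit 361) (nat_lit 334) (nat_lit 205))))))))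
noncomputable def xc186 : XT := (XT.nd (nat_lit 2028) (nat_lit 3268) (nat_lit 0) (XT.nd (nat_lit 1014) (nat_lit 2584) (nat_lit 0) (XT.nd (nat_lit 468) (nat_lit 1748) (nat_lit 0) (XT.nd (nat_lit 234) (nat_lit 456) (nat_lit 0) (XT.nd (nat_lit 78) (nat_lit 988) (nat_lit 0) (XT.lf (nat_lit 0) (nat_lit 4231655366) (nat_lit 608) (nat_lit 277202973) (nat_lit 76) (nat_lit 13116128745) (nat_lit 173) (nat_lit 5) (nat_lit 181) (nat_lit 5) (nat_lit 174) (nat_lit 5) (nat_lit 362) (nat_lit 334) (nat_lit 204)) (XT.nd (nat_lit 78) (nat_lit 456) (nat_lit 0) (XT.lf (nat_lit 0) (nat_lit 6581695367) (nat_lit 608) (nat_lit 8777236397) (nat_lit 76) (nat_lit 2565954253) (nat_lit 166) (nat_lit 5) (nat_lit 174) (nat_lit 5) (nat_lit 167) (nat_lit 5) (nat_lit 363) (nat_lit 334) (nat_lit 203)) (XT.lf (nat_lit 0) (nat_lit 583366603) (nat_lit 456) (nat_lit 8462313009) (nat_lit 532) (nat_lit 9186805357) (nat_lit 160) (nat_lit 5) (nat_lit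 166) (nat_lit 5) (nat_lit 167) (nat_lit 5) (nat_lit 364) (nat_lit 334) (nat_lit 202)))) (XT.nd (nat_lit 78) (nat_lit 456) (nat_lit 0) (XT.lf (nat_lit 0) (nat_lit 10394236812) (nat_lit 456) (nat_lit 1268525632) (nat_lit 532) (nat_lit 6884180234) (nat_lit 160) (nat_lit 5) (nat_lit 166) (nat_lit 5) (nat_lit 167) (nat_lit 5) (nat_lit 365) (nat_lit 334) (nat_lit 201)) (XT.nd (nat_lit 78) (nat_lit 0) (nat_lit 0) (XT.lf (nat_lit 0) (nat_lit 1590154573) (nat_lit 456) (nat_lit 12833332498) (nat_lit 532) (nat_lit 4445399146) (nat_lit 154) (nat_lit 5) (nat_lit 160) (nat_lit 5) (nat_lit 161) (nat_lit 5) (nat_lit 366) (nat_lit 334) (nat_lit 200)) (XT.lf (nat_lit 0) (nat_lit 11769273751) (nat_lit 456) (nat_lit 5583502771) (nat_lit 532) (nat_lit 1845145053) (nat_lit 154) (nat_lit 5) (nat_lit 160) (nat_lit 5) (nat_lit 161) (nat_lit 5) (nat_lit 367) (nat_lit 334) (nat_lit 199))))) (XT.nd (nat_lit 234) (nat_lit 760) (nat_lit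 0) (XT.nd (nat_lit 78) (nat_lit 456) (nat_lit 0) (XT.lf (nat_lit 0) (nat_lit 852904712) (nat_lit 532) (nat_lit 16802082133) (nat_lit 76) (nat_lit 1880525013) (nat_lit 147) (nat_lit 5) (nat_lit 154) (nat_lit 5) (nat_lit 148) (nat_lit 5) (nat_lit 368) (nat_lit 334) (nat_lit 198)) (XT.nd (nat_lit 78) (nat_lit 456) (nat_lit 0) (XT.lf (nat_lit 0) (nat_lit 3717147492) (nat_lit 532) (nat_lit 6612995872) (nat_lit 76) (nat_lit 9548873622) (nat_lit 147) (nat_lit 5) (nat_lit 154) (nat_lit 5) (nat_lit 148) (nat_lit 5) (nat_lit 369) (nat_lit 334) (nat_lit 197)) (XT.lf (nat_lit 0) (nat_lit 3948746983) (nat_lit 456) (nat_lit 2748079223) (nat_lit 532) (nat_lit 13535120960) (nat_lit 141) (nat_lit 5) (nat_lit 147) (nat_lit 5) (nat_lit 148) (nat_lit 5) (nat_lit 370) (nat_lit 334) (nat_lit 196)))) (XT.nd (nat_lit 156) (nat_lit 380) (nat_lit 0) (XT.nd (nat_lit 78) (nat_lit 380) (nat_lit 0) (XT.lf (nat_lit 0) (nat_lit 9873673507)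 (nat_lit 532) (nat_lit 5690084177) (nat_lit 76) (nat_lit 5028479228) (nat_lit 141) (nat_lit 5) (nat_lit 148) (nat_lit 5) (nat_lit 142) (nat_lit 5) (nat_lit 371) (nat_lit 334) (nat_lit 195)) (XT.lf (nat_lit 0) (nat_lit 5286870414) (nat_lit 380) (nat_lit 7928912372) (nat_lit 456) (nat_lit 7745458729) (nat_lit 136) (nat_lit 5) (nat_lit 141) (nat_lit 5) (nat_lit 142) (nat_lit 5) (nat_lit 372) (nat_lit 334) (nat_lit 194))) (XT.nd (nat_lit 78) (nat_lit 380) (nat_lit 0) (XT.lf (nat_lit 0) (nat_lit 16699959895) (nat_lit 380) (nat_lit 7722148) (nat_lit 456) (nat_lit 4632153134) (nat_lit 136) (nat_lit 5) (nat_lit 141) (nat_lit 5) (nat_lit 142) (nat_lit 5) (nat_lit 373) (nat_lit 334) (nat_lit 193)) (XT.lf (nat_lit 0) (nat_lit 6769655309) (nat_lit 380) (nat_lit 13670391893) (nat_lit 456) (nat_lit 1285672759) (nat_lit 131) (nat_lit 5) (nat_lit 136) (nat_lit 5) (nat_lit 137) (nat_lit 5) (nat_lit 374) (nat_lit 334) (nat_lit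 192)))))) (XT.nd (nat_lit 468) (nat_lit 1444) (nat_lit 0) (XT.nd (nat_lit 234) (nat_lit 684) (nat_lit 0) (XT.nd (nat_lit 78) (nat_lit 380) (nat_lit 0) (XT.lf (nat_lit 0) (nat_lit 2158757208) (nat_lit 456) (nat_lit 3536314512) (nat_lit 76) (nat_lit 16426298806) (nat_lit 130) (nat_lit 5) (nat_lit 136) (nat_lit 5) (nat_lit 131) (nat_lit 5) (nat_lit 375) (nat_lit 334) (nat_lit 191)) (XT.nd (nat_lit 78) (nat_lit 0) (nat_lit 0) (XT.lf (nat_lit 0) (nat_lit 5778787224) (nat_lit 456) (nat_lit 14184397529) (nat_lit 76) (nat_lit 2562384928) (nat_lit 125) (nat_lit 5) (nat_lit 131) (nat_lit 5) (nat_lit 126) (nat_lit 5) (nat_lit 376) (nat_lit 334) (nat_lit 190)) (XT.lf (nat_lit 0) (nat_lit 9592531525) (nat_lit 456) (nat_lit 2359722140) (nat_lit 76) (nat_lit 10987091816) (nat_lit 125) (nat_lit 5) (nat_lit 131) (nat_lit 5) (nat_lit 126) (nat_lit 5) (nat_lit 377) (nat_lit 334) (nat_lit 189)))) (XT.nd (nat_lit 78) (nat_lit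 304) (nat_lit 0) (XT.lf (nat_lit 0) (nat_lit 10005586492) (nat_lit 380) (nat_lit 3604158305) (nat_lit 456) (nat_lit 9753122011) (nat_lit 120) (nat_lit 5) (nat_lit 125) (nat_lit 5) (nat_lit 126) (nat_lit 5) (nat_lit 378) (nat_lit 334) (nat_lit 188)) (XT.nd (nat_lit 78) (nat_lit 304) (nat_lit 0) (XT.lf (nat_lit 0) (nat_lit 17812521593) (nat_lit 456) (nat_lit 1065850165) (nat_lit 76) (nat_lit 4918774441) (nat_lit 120) (nat_lit 5) (nat_lit 126) (nat_lit 5) (nat_lit 121) (nat_lit 5) (nat_lit 379) (nat_lit 334) (nat_lit 187)) (XT.lf (nat_lit 0) (nat_lit 11779317731) (nat_lit 304) (nat_lit 10504156954) (nat_lit 380) (nat_lit 1956720222) (nat_lit 116) (nat_lit 5) (nat_lit 120) (nat_lit 5) (nat_lit 121) (nat_lit 5) (nat_lit 380) (nat_lit 334) (nat_lit 186))))) (XT.nd (nat_lit 234) (nat_lit 684) (nat_lit 0) (XT.nd (nat_lit 78) (nat_lit 304) (nat_lit 0) (XT.lf (nat_lit 0) (nat_lit 311145494) (nat_lit 380) (nat_lit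 1845181650) (nat_lit 456) (nat_lit 22539366913) (nat_lit 110) (nat_lit 5) (nat_lit 115) (nat_lit 5) (nat_lit 116) (nat_lit 5) (nat_lit 381) (nat_lit 334) (nat_lit 185)) (XT.nd (nat_lit 78) (nat_lit 304) (nat_lit 0) (XT.lf (nat_lit 0) (nat_lit 6541815062) (nat_lit 456) (nat_lit 11537248595) (nat_lit 76) (nat_lit 7079565411) (nat_lit 110) (nat_lit 5) (nat_lit 116) (nat_lit 5) (nat_lit 111) (nat_lit 5) (nat_lit 382) (nat_lit 334) (nat_lit 184)) (XT.lf (nat_lit 0) (nat_lit 1701356954) (nat_lit 304) (nat_lit 9385634837) (nat_lit 380) (nat_lit 14547619923) (nat_lit 106) (nat_lit 5) (nat_lit 110) (nat_lit 5) (nat_lit 111) (nat_lit 5) (nat_lit 383) (nat_lit 334) (nat_lit 183)))) (XT.nd (nat_lit 156) (nat_lit 380) (nat_lit 0) (XT.nd (nat_lit 78) (nat_lit 304) (nat_lit 0) (XT.lf (nat_lit 0) (nat_lit 15564667726) (nat_lit 304) (nat_lit 313963471) (nat_lit 380) (nat_lit 10242942636) (nat_lit 106) (nat_lit 5) (nat_lit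 110) (nat_lit 5) (nat_lit 111) (nat_lit 5) (nat_lit 384) (nat_lit 334) (nat_lit 182)) (XT.lf (nat_lit 0) (nat_lit 3187267624) (nat_lit 304) (nat_lit 17737956848) (nat_lit 380) (nat_lit 5694587324) (nat_lit 102) (nat_lit 5) (nat_lit 106) (nat_lit 5) (nat_lit 107) (nat_lit 5) (nat_lit 385) (nat_lit 334) (nat_lit 181))) (XT.nd (nat_lit 78) (nat_lit 380) (nat_lit 0) (XT.lf (nat_lit 0) (nat_lit 17548229307) (nat_lit 304) (nat_lit 8678531799) (nat_lit 380) (nat_lit 903132454) (nat_lit 102) (nat_lit 5) (nat_lit 106) (nat_lit 5) (nat_lit 107) (nat_lit 5) (nat_lit 386) (nat_lit 334) (nat_lit 180)) (XT.lf (nat_lit 0) (nat_lit 3999912997) (nat_lit 380) (nat_lit 22930381764) (nat_lit 76) (nat_lit 722427298) (nat_lit 97) (nat_lit 5) (nat_lit 102) (nat_lit 5) (nat_lit 98) (nat_lit 5) (nat_lit 387) (nat_lit 334) (nat_lit 179))))))) (XT.nd (nat_lit 1014) (nat_lit 1596) (nat_lit 0) (XT.nd (nat_lit 468) (nat_lit 760) (nat_lit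 0) (XT.nd (nat_lit 234) (nat_lit 608) (nat_lit 0) (XT.nd (nat_lit 78) (nat_lit 304) (nat_lit 0) (XT.lf (nat_lit 0) (nat_lit 9209585922) (nat_lit 380) (nat_lit 8640989768) (nat_lit 76) (nat_lit 10335063594) (nat_lit 97) (nat_lit 5) (nat_lit 102) (nat_lit 5) (nat_lit 98) (nat_lit 5) (nat_lit 388) (nat_lit 334) (nat_lit 178)) (XT.nd (nat_lit 78) (nat_lit 0) (nat_lit 0) (XT.lf (nat_lit 0) (nat_lit 6189404476) (nat_lit 304) (nat_lit 8439862374) (nat_lit 380) (nat_lit 14103668333) (nat_lit 93) (nat_lit 5) (nat_lit 97) (nat_lit 5) (nat_lit 98) (nat_lit 5) (nat_lit 389) (nat_lit 334) (nat_lit 177)) (XT.lf (nat_lit 0) (nat_lit 20305988940) (nat_lit 380) (nat_lit 7673621782) (nat_lit 76) (nat_lit 1314208329) (nat_lit 93) (nat_lit 5) (nat_lit 98) (nat_lit 5) (nat_lit 94) (nat_lit 5) (nat_lit 390) (nat_lit 334) (nat_lit 176)))) (XT.nd (nat_lit 78) (nat_lit 380) (nat_lit 0) (XT.lf (nat_lit 0) (nat_lit 7700818618) (nat_lit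 228) (nat_lit 18604232035) (nat_lit 304) (nat_lit 3561920181) (nat_lit 90) (nat_lit 5) (nat_lit 93) (nat_lit 5) (nat_lit 94) (nat_lit 5) (nat_lit 391) (nat_lit 334) (nat_lit 175)) (XT.nd (nat_lit 78) (nat_lit 304) (nat_lit 0) (XT.lf (nat_lit 0) (nat_lit 2059949613) (nat_lit 304) (nat_lit 6789753013) (nat_lit 76) (nat_lit 21604850497) (nat_lit 89) (nat_lit 5) (nat_lit 93) (nat_lit 5) (nat_lit 90) (nat_lit 5) (nat_lit 392) (nat_lit 334) (nat_lit 174)) (XT.lf (nat_lit 0) (nat_lit 7874510164) (nat_lit 380) (nat_lit 21885109533) (nat_lit 76) (nat_lit 1296218736) (nat_lit 85) (nat_lit 5) (nat_lit 90) (nat_lit 5) (nat_lit 86) (nat_lit 5) (nat_lit 393) (nat_lit 334) (nat_lit 173))))) (XT.nd (nat_lit 234) (nat_lit 532) (nat_lit 0) (XT.nd (nat_lit 78) (nat_lit 228) (nat_lit 0) (XT.lf (nat_lit 0) (nat_lit 14015061107) (nat_lit 380) (nat_lit 6020315097) (nat_lit 76) (nat_lit 11635241747) (nat_lit 85) (nat_lit 5) (nat_lit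 90) (nat_lit 5) (nat_lit 86) (nat_lit 5) (nat_lit 394) (nat_lit 334) (nat_lit 172)) (XT.nd (nat_lit 78) (nat_lit 0) (nat_lit 0) (XT.lf (nat_lit 0) (nat_lit 10517780842) (nat_lit 228) (nat_lit 9917996439) (nat_lit 304) (nat_lit 11865187301) (nat_lit 82) (nat_lit 5) (nat_lit 85) (nat_lit 5) (nat_lit 86) (nat_lit 5) (nat_lit 395) (nat_lit 334) (nat_lit 171)) (XT.lf (nat_lit 0) (nat_lit 27110238735) (nat_lit 304) (nat_lit 5286336890) (nat_lit 76) (nat_lit 551814399) (nat_lit 82) (nat_lit 5) (nat_lit 86) (nat_lit 5) (nat_lit 83) (nat_lit 5) (nat_lit 396) (nat_lit 334) (nat_lit 170)))) (XT.nd (nat_lit 156) (nat_lit 228) (nat_lit 0) (XT.nd (nat_lit 78) (nat_lit 0) (nat_lit 0) (XT.lf (nat_lit 0) (nat_lit 571490515) (nat_lit 304) (nat_lit 21784265900) (nat_lit 76) (nat_lit 11253106940) (nat_lit 78) (nat_lit 5) (nat_lit 82) (nat_lit 5) (nat_lit 79) (nat_lit 5) (nat_lit 397) (nat_lit 334) (nat_lit 169)) (XT.lf (nat_lit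 0) (nat_lit 7105054393) (nat_lit 304) (nat_lit 4796383658) (nat_lit 76) (nat_lit 22384511458) (nat_lit 78) (nat_lit 5) (nat_lit 82) (nat_lit 5) (nat_lit 79) (nat_lit 5) (nat_lit 398) (nat_lit 334) (nat_lit 168))) (XT.nd (nat_lit 78) (nat_lit 0) (nat_lit 0) (XT.lf (nat_lit 0) (nat_lit 12946261527) (nat_lit 228) (nat_lit 1008018532) (nat_lit 304) (nat_lit 21025480430) (nat_lit 75) (nat_lit 5) (nat_lit 78) (nat_lit 5) (nat_lit 79) (nat_lit 5) (nat_lit 399) (nat_lit 334) (nat_lit 167)) (XT.lf (nat_lit 0) (nat_lit 21151311740) (nat_lit 304) (nat_lit 4479616781) (nat_lit 76) (nat_lit 10059189234) (nat_lit 75) (nat_lit 5) (nat_lit 79) (nat_lit 5) (nat_lit 76) (nat_lit 5) (nat_lit 400) (nat_lit 334) (nat_lit 166)))))) (XT.nd (nat_lit 546) (nat_lit 684) (nat_lit 0) (XT.nd (nat_lit 234) (nat_lit 380) (nat_lit 0) (XT.nd (nat_lit 78) (nat_lit 304) (nat_lit 0) (XT.lf (nat_lit 0) (nat_lit 13853915309) (nat_lit 228)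 (nat_lit 14848879790) (nat_lit 304) (nat_lit 7714836198) (nat_lit 72) (nat_lit 5) (nat_lit 75) (nat_lit 5) (nat_lit 76) (nat_lit 5) (nat_lit 401) (nat_lit 334) (nat_lit 165)) (XT.nd (nat_lit 78) (nat_lit 304) (nat_lit 0) (XT.lf (nat_lit 0) (nat_lit 32822026975) (nat_lit 228) (nat_lit 3699483966) (nat_lit 304) (nat_lit 644240392) (nat_lit 72) (nat_lit 5) (nat_lit 75) (nat_lit 5) (nat_lit 76) (nat_lit 5) (nat_lit 402) (nat_lit 334) (nat_lit 164)) (XT.lf (nat_lit 0) (nat_lit 6722005188) (nat_lit 304) (nat_lit 23369590390) (nat_lit 76) (nat_lit 7836414457) (nat_lit 68) (nat_lit 5) (nat_lit 72) (nat_lit 5) (nat_lit 69) (nat_lit 5) (nat_lit 403) (nat_lit 334) (nat_lit 163)))) (XT.nd (nat_lit 156) (nat_lit 152) (nat_lit 0) (XT.nd (nat_lit 78) (nat_lit 228) (nat_lit 0) (XT.lf (nat_lit 0) (nat_lit 14372791605) (nat_lit 304) (nat_lit 4645763230) (nat_lit 76) (nat_lit 19692096822) (nat_lit 68) (nat_lit 5) (nat_lit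 72) (nat_lit 5) (nat_lit 69) (nat_lit 5) (nat_lit 404) (nat_lit 334) (nat_lit 162)) (XT.lf (nat_lit 0) (nat_lit 14924038124) (nat_lit 228) (nat_lit 7468227448) (nat_lit 304) (nat_lit 17120333573) (nat_lit 65) (nat_lit 5) (nat_lit 68) (nat_lit 5) (nat_lit 69) (nat_lit 5) (nat_lit 405) (nat_lit 334) (nat_lit 161))) (XT.nd (nat_lit 78) (nat_lit 152) (nat_lit 0) (XT.lf (nat_lit 0) (nat_lit 30738010104) (nat_lit 304) (nat_lit 5211062671) (nat_lit 76) (nat_lit 4386963184) (nat_lit 65) (nat_lit 5) (nat_lit 69) (nat_lit 5) (nat_lit 66) (nat_lit 5) (nat_lit 406) (nat_lit 334) (nat_lit 160)) (XT.lf (nat_lit 0) (nat_lit 14958927003) (nat_lit 152) (nat_lit 24588799550) (nat_lit 228) (nat_lit 1630042782) (nat_lit 63) (nat_lit 5) (nat_lit 65) (nat_lit 5) (nat_lit 66) (nat_lit 5) (nat_lit 407) (nat_lit 334) (nat_lit 159))))) (XT.nd (nat_lit 234) (nat_lit 380) (nat_lit 0) (XT.nd (nat_lit 78) (nat_lit 228) (nat_lit 0)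 (XT.lf (nat_lit 0) (nat_lit 6497658179) (nat_lit 228) (nat_lit 6272891136) (nat_lit 76) (nat_lit 29270839533) (nat_lit 62) (nat_lit 5) (nat_lit 65) (nat_lit 5) (nat_lit 63) (nat_lit 5) (nat_lit 408) (nat_lit 334) (nat_lit 158)) (XT.nd (nat_lit 78) (nat_lit 0) (nat_lit 0) (XT.lf (nat_lit 0) (nat_lit 14532264581) (nat_lit 228) (nat_lit 439852905) (nat_lit 304) (nat_lit 27954245929) (nat_lit 59) (nat_lit 5) (nat_lit 62) (nat_lit 5) (nat_lit 63) (nat_lit 5) (nat_lit 409) (nat_lit 334) (nat_lit 157)) (XT.lf (nat_lit 0) (nat_lit 23878664860) (nat_lit 304) (nat_lit 7870950741) (nat_lit 76) (nat_lit 12082937275) (nat_lit 59) (nat_lit 5) (nat_lit 63) (nat_lit 5) (nat_lit 60) (nat_lit 5) (nat_lit 410) (nat_lit 334) (nat_lit 156)))) (XT.nd (nat_lit 156) (nat_lit 228) (nat_lit 0) (XT.nd (nat_lit 78) (nat_lit 0) (nat_lit 0) (XT.lf (nat_lit 0) (nat_lit 13520930528) (nat_lit 152) (nat_lit 19661945580) (nat_lit 228) (nat_lit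 11579139135) (nat_lit 57) (nat_lit 5) (nat_lit 59) (nat_lit 5) (nat_lit 60) (nat_lit 5) (nat_lit 411) (nat_lit 334) (nat_lit 155)) (XT.lf (nat_lit 0) (nat_lit 35709529887) (nat_lit 152) (nat_lit 7132357018) (nat_lit 228) (nat_lit 2875205593) (nat_lit 57) (nat_lit 5) (nat_lit 59) (nat_lit 5) (nat_lit 60) (nat_lit 5) (nat_lit 412) (nat_lit 334) (nat_lit 154))) (XT.nd (nat_lit 78) (nat_lit 0) (nat_lit 0) (XT.lf (nat_lit 0) (nat_lit 6140139632) (nat_lit 228) (nat_lit 34719946648) (nat_lit 76) (nat_lit 5833906898) (nat_lit 54) (nat_lit 5) (nat_lit 57) (nat_lit 5) (nat_lit 55) (nat_lit 5) (nat_lit 413) (nat_lit 334) (nat_lit 153)) (XT.lf (nat_lit 0) (nat_lit 15537121103) (nat_lit 228) (nat_lit 12983305839) (nat_lit 76) (nat_lit 19173852083) (nat_lit 54) (nat_lit 5) (nat_lit 57) (nat_lit 5) (nat_lit 55) (nat_lit 5) (nat_lit 414) (nat_lit 334) (nat_lit 152))))))))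
noncomputable def xc187 : XT := (XT.nd (nat_lit 41028) (nat_lit 0) (nat_lit 9576) (XT.nd (nat_lit 1014) (nat_lit 456) (nat_lit 0) (XT.nd (nat_lit 468) (nat_lit 532) (nat_lit 0) (XT.nd (nat_lit 234) (nat_lit 228) (nat_lit 0) (XT.nd (nat_lit 78) (nat_lit 152) (nat_lit 0) (XT.lf (nat_lit 0) (nat_lit 9586382054) (nat_lit 152) (nat_lit 15718178148) (nat_lit 228) (nat_lit 23417357877) (nat_lit 52) (nat_lit 5) (nat_lit 54) (nat_lit 5) (nat_lit 55) (nat_lit 5) (nat_lit 415) (nat_lit 334) (nat_lit 151)) (XT.nd (nat_lit 78) (nat_lit 152) (nat_lit 0) (XT.lf (nat_lit 0) (nat_lit 33093248613) (nat_lit 152) (nat_lit 2399324497) (nat_lit 228) (nat_lit 14283987722) (nat_lit 52) (nat_lit 5) (nat_lit 54) (nat_lit 5) (nat_lit 55) (nat_lit 5) (nat_lit 416) (nat_lit 334) (nat_lit 150)) (XT.lf (nat_lit 0) (nat_lit 6453644268) (nat_lit 152) (nat_lit 39699949484) (nat_lit 228) (nat_lit 4704229108) (nat_lit 50) (nat_lit 5) (nat_lit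 52) (nat_lit 5) (nat_lit 53) (nat_lit 5) (nat_lit 417) (nat_lit 334) (nat_lit 149)))) (XT.nd (nat_lit 78) (nat_lit 152) (nat_lit 0) (XT.lf (nat_lit 0) (nat_lit 5252601936) (nat_lit 228) (nat_lit 21420793848) (nat_lit 76) (nat_lit 25290926242) (nat_lit 49) (nat_lit 5) (nat_lit 52) (nat_lit 5) (nat_lit 50) (nat_lit 5) (nat_lit 418) (nat_lit 334) (nat_lit 148)) (XT.nd (nat_lit 78) (nat_lit 0) (nat_lit 0) (XT.lf (nat_lit 0) (nat_lit 2243495272) (nat_lit 152) (nat_lit 13188293525) (nat_lit 228) (nat_lit 37670284965) (nat_lit 47) (nat_lit 5) (nat_lit 49) (nat_lit 5) (nat_lit 50) (nat_lit 5) (nat_lit 419) (nat_lit 334) (nat_lit 147)) (XT.lf (nat_lit 0) (nat_lit 26138197776) (nat_lit 228) (nat_lit 27225353798) (nat_lit 76) (nat_lit 903751982) (nat_lit 47) (nat_lit 5) (nat_lit 50) (nat_lit 5) (nat_lit 48) (nat_lit 5) (nat_lit 420) (nat_lit 334) (nat_lit 146))))) (XT.nd (nat_lit 234) (nat_lit 304) (nat_lit 0) (XT.nd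 (nat_lit 78) (nat_lit 228) (nat_lit 0) (XT.lf (nat_lit 0) (nat_lit 37293128532) (nat_lit 228) (nat_lit 3019359766) (nat_lit 76) (nat_lit 15151182937) (nat_lit 47) (nat_lit 5) (nat_lit 50) (nat_lit 5) (nat_lit 48) (nat_lit 5) (nat_lit 421) (nat_lit 334) (nat_lit 145)) (XT.nd (nat_lit 78) (nat_lit 76) (nat_lit 0) (XT.lf (nat_lit 0) (nat_lit 22343327210) (nat_lit 152) (nat_lit 26651004665) (nat_lit 228) (nat_lit 7695250179) (nat_lit 45) (nat_lit 5) (nat_lit 47) (nat_lit 5) (nat_lit 48) (nat_lit 5) (nat_lit 422) (nat_lit 334) (nat_lit 144)) (XT.lf (nat_lit 0) (nat_lit 3061566573) (nat_lit 228) (nat_lit 9458108272) (nat_lit 76) (nat_lit 45430874431) (nat_lit 44) (nat_lit 5) (nat_lit 47) (nat_lit 5) (nat_lit 45) (nat_lit 5) (nat_lit 423) (nat_lit 334) (nat_lit 143)))) (XT.nd (nat_lit 156) (nat_lit 152) (nat_lit 0) (XT.nd (nat_lit 78) (nat_lit 0) (nat_lit 0) (XT.lf (nat_lit 0) (nat_lit 14163025246) (nat_lit 228)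 (nat_lit 42848798399) (nat_lit 76) (nat_lit 2229938801) (nat_lit 42) (nat_lit 5) (nat_lit 45) (nat_lit 5) (nat_lit 43) (nat_lit 5) (nat_lit 424) (nat_lit 334) (nat_lit 142)) (XT.lf (nat_lit 0) (nat_lit 25814901713) (nat_lit 228) (nat_lit 17485651416) (nat_lit 76) (nat_lit 17264638415) (nat_lit 42) (nat_lit 5) (nat_lit 45) (nat_lit 5) (nat_lit 43) (nat_lit 5) (nat_lit 425) (nat_lit 334) (nat_lit 141))) (XT.nd (nat_lit 78) (nat_lit 0) (nat_lit 0) (XT.lf (nat_lit 0) (nat_lit 8805011012) (nat_lit 152) (nat_lit 29093013956) (nat_lit 228) (nat_lit 24027848566) (nat_lit 40) (nat_lit 5) (nat_lit 42) (nat_lit 5) (nat_lit 43) (nat_lit 5) (nat_lit 426) (nat_lit 334) (nat_lit 140)) (XT.lf (nat_lit 0) (nat_lit 36237686529) (nat_lit 152) (nat_lit 14279613951) (nat_lit 228) (nat_lit 12804866460) (nat_lit 40) (nat_lit 5) (nat_lit 42) (nat_lit 5) (nat_lit 43) (nat_lit 5) (nat_lit 427) (nat_lit 334) (nat_lit 139)))))) (XT.nd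 (nat_lit 468) (nat_lit 76) (nat_lit 0) (XT.nd (nat_lit 234) (nat_lit 228) (nat_lit 0) (XT.nd (nat_lit 78) (nat_lit 152) (nat_lit 0) (XT.lf (nat_lit 0) (nat_lit 63521708942) (nat_lit 228) (nat_lit 281470077) (nat_lit 76) (nat_lit 956974178) (nat_lit 40) (nat_lit 5) (nat_lit 43) (nat_lit 5) (nat_lit 41) (nat_lit 4) (nat_lit 428) (nat_lit 334) (nat_lit 138)) (XT.nd (nat_lit 78) (nat_lit 0) (nat_lit 0) (XT.lf (nat_lit 0) (nat_lit 10875754625) (nat_lit 152) (nat_lit 38615494922) (nat_lit 76) (nat_lit 16734678981) (nat_lit 38) (nat_lit 5) (nat_lit 40) (nat_lit 5) (nat_lit 39) (nat_lit 5) (nat_lit 429) (nat_lit 334) (nat_lit 137)) (XT.lf (nat_lit 0) (nat_lit 23328599206) (nat_lit 152) (nat_lit 11407937846) (nat_lit 76) (nat_lit 32998769508) (nat_lit 38) (nat_lit 5) (nat_lit 40) (nat_lit 5) (nat_lit 39) (nat_lit 5) (nat_lit 430) (nat_lit 334) (nat_lit 136)))) (XT.nd (nat_lit 78) (nat_lit 76) (nat_lit 0) (XT.lf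 (nat_lit 0) (nat_lit 16941661800) (nat_lit 152) (nat_lit 19373542105) (nat_lit 228) (nat_lit 32969957399) (nat_lit 36) (nat_lit 5) (nat_lit 38) (nat_lit 5) (nat_lit 39) (nat_lit 5) (nat_lit 431) (nat_lit 334) (nat_lit 135)) (XT.nd (nat_lit 78) (nat_lit 76) (nat_lit 0) (XT.lf (nat_lit 0) (nat_lit 46370870830) (nat_lit 152) (nat_lit 3433087440) (nat_lit 228) (nat_lit 21074177472) (nat_lit 36) (nat_lit 5) (nat_lit 38) (nat_lit 5) (nat_lit 39) (nat_lit 5) (nat_lit 432) (nat_lit 334) (nat_lit 134)) (XT.lf (nat_lit 0) (nat_lit 4114876853) (nat_lit 76) (nat_lit 59744289820) (nat_lit 152) (nat_lit 8654879576) (nat_lit 35) (nat_lit 5) (nat_lit 36) (nat_lit 5) (nat_lit 37) (nat_lit 4) (nat_lit 433) (nat_lit 334) (nat_lit 133))))) (XT.nd (nat_lit 39234) (nat_lit 0) (nat_lit 14592) (XT.nd (nat_lit 78) (nat_lit 0) (nat_lit 0) (XT.lf (nat_lit 0) (nat_lit 4337602683) (nat_lit 152) (nat_lit 40174417550) (nat_lit 76) (nat_lit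 29677381368) (nat_lit 34) (nat_lit 5) (nat_lit 36) (nat_lit 5) (nat_lit 35) (nat_lit 5) (nat_lit 434) (nat_lit 334) (nat_lit 132)) (XT.nd (nat_lit 39078) (nat_lit 0) (nat_lit 15732) (XT.lf (nat_lit 0) (nat_lit 17543396751) (nat_lit 152) (nat_lit 11193136336) (nat_lit 76) (nat_lit 47175989544) (nat_lit 34) (nat_lit 5) (nat_lit 36) (nat_lit 5) (nat_lit 35) (nat_lit 5) (nat_lit 435) (nat_lit 334) (nat_lit 131)) (XT.lf (nat_lit 0) (nat_lit 5800219471) (nat_lit 1140) (nat_lit 52808709) (nat_lit 1140) (nat_lit 52808709) (nat_lit 241) (nat_lit 3) (nat_lit 256) (nat_lit 3) (nat_lit 256) (nat_lit 5) (nat_lit 335) (nat_lit 335) (nat_lit 230)))) (XT.nd (nat_lit 156) (nat_lit 0) (nat_lit 76) (XT.nd (nat_lit 78) (nat_lit 0) (nat_lit 0) (XT.lf (nat_lit 0) (nat_lit 318347983) (nat_lit 1140) (nat_lit 6420784588) (nat_lit 1216) (nat_lit 5233549240) (nat_lit 226) (nat_lit 5) (nat_lit 241) (nat_lit 3) (nat_lit 242) (nat_lit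 5) (nat_lit 336) (nat_lit 335) (nat_lit 229)) (XT.lf (nat_lit 0) (nat_lit 842032377) (nat_lit 1140) (nat_lit 769307022) (nat_lit 1216) (nat_lit 10527658667) (nat_lit 226) (nat_lit 5) (nat_lit 241) (nat_lit 3) (nat_lit 242) (nat_lit 5) (nat_lit 337) (nat_lit 335) (nat_lit 228))) (XT.nd (nat_lit 78) (nat_lit 0) (nat_lit 0) (XT.lf (nat_lit 0) (nat_lit 1448634127) (nat_lit 1140) (nat_lit 7202895090) (nat_lit 1216) (nat_lit 3656772475) (nat_lit 227) (nat_lit 5) (nat_lit 242) (nat_lit 5) (nat_lit 243) (nat_lit 5) (nat_lit 338) (nat_lit 335) (nat_lit 227)) (XT.lf (nat_lit 0) (nat_lit 2079668919) (nat_lit 1140) (nat_lit 1336602481) (nat_lit 1216) (nat_lit 9066239659) (nat_lit 227) (nat_lit 5) (nat_lit 242) (nat_lit 5) (nat_lit 243) (nat_lit 5) (nat_lit 339) (nat_lit 335) (nat_lit 226))))))) (XT.nd (nat_lit 1014) (nat_lit 4332) (nat_lit 0) (XT.nd (nat_lit 468) (nat_lit 836) (nat_lit 0) (XT.nd (nat_lit 234) (nat_lit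 0) (nat_lit 76) (XT.nd (nat_lit 78) (nat_lit 0) (nat_lit 0) (XT.lf (nat_lit 0) (nat_lit 2778137580) (nat_lit 1140) (nat_lit 7891429827) (nat_lit 1216) (nat_lit 1990937496) (nat_lit 228) (nat_lit 5) (nat_lit 243) (nat_lit 5) (nat_lit 244) (nat_lit 5) (nat_lit 340) (nat_lit 335) (nat_lit 225)) (XT.nd (nat_lit 78) (nat_lit 0) (nat_lit 76) (XT.lf (nat_lit 0) (nat_lit 3528430032) (nat_lit 1140) (nat_lit 1802503314) (nat_lit 1216) (nat_lit 7511992020) (nat_lit 228) (nat_lit 5) (nat_lit 243) (nat_lit 5) (nat_lit 244) (nat_lit 5) (nat_lit 341) (nat_lit 335) (nat_lit 224)) (XT.lf (nat_lit 0) (nat_lit 4330948007) (nat_lit 1140) (nat_lit 8484402988) (nat_lit 1216) (nat_lit 214588465) (nat_lit 229) (nat_lit 5) (nat_lit 244) (nat_lit 5) (nat_lit 245) (nat_lit 5) (nat_lit 342) (nat_lit 335) (nat_lit 223)))) (XT.nd (nat_lit 78) (nat_lit 0) (nat_lit 0) (XT.lf (nat_lit 0) (nat_lit 5213030007) (nat_lit 1140) (nat_lit 2164581849)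 (nat_lit 1216) (nat_lit 5843299621) (nat_lit 229) (nat_lit 5) (nat_lit 244) (nat_lit 5) (nat_lit 245) (nat_lit 5) (nat_lit 343) (nat_lit 335) (nat_lit 222)) (XT.nd (nat_lit 78) (nat_lit 0) (nat_lit 76) (XT.lf (nat_lit 76) (nat_lit 4420839063) (nat_lit 0) (nat_lit 1728012770) (nat_lit 1216) (nat_lit 7267954300) (nat_lit 230) (nat_lit 5) (nat_lit 229) (nat_lit 5) (nat_lit 245) (nat_lit 5) (nat_lit 344) (nat_lit 335) (nat_lit 221)) (XT.lf (nat_lit 0) (nat_lit 7159321109) (nat_lit 1140) (nat_lit 2419933496) (nat_lit 1216) (nat_lit 4037937298) (nat_lit 230) (nat_lit 5) (nat_lit 245) (nat_lit 5) (nat_lit 246) (nat_lit 5) (nat_lit 345) (nat_lit 335) (nat_lit 220))))) (XT.nd (nat_lit 234) (nat_lit 988) (nat_lit 0) (XT.nd (nat_lit 78) (nat_lit 0) (nat_lit 76) (XT.lf (nat_lit 76) (nat_lit 4412013219) (nat_lit 0) (nat_lit 3833215558) (nat_lit 1216) (nat_lit 5577017862) (nat_lit 231) (nat_lit 5) (nat_lit 230) (nat_lit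 5) (nat_lit 246) (nat_lit 5) (nat_lit 346) (nat_lit 335) (nat_lit 219)) (XT.nd (nat_lit 78) (nat_lit 0) (nat_lit 0) (XT.lf (nat_lit 0) (nat_lit 9394398275) (nat_lit 1140) (nat_lit 2565202926) (nat_lit 1216) (nat_lit 2072942077) (nat_lit 231) (nat_lit 5) (nat_lit 246) (nat_lit 5) (nat_lit 247) (nat_lit 5) (nat_lit 347) (nat_lit 335) (nat_lit 218)) (XT.lf (nat_lit 76) (nat_lit 4525118082) (nat_lit 0) (nat_lit 6120746294) (nat_lit 1216) (nat_lit 3601260279) (nat_lit 232) (nat_lit 5) (nat_lit 231) (nat_lit 5) (nat_lit 247) (nat_lit 5) (nat_lit 348) (nat_lit 335) (nat_lit 217)))) (XT.nd (nat_lit 156) (nat_lit 1064) (nat_lit 0) (XT.nd (nat_lit 78) (nat_lit 0) (nat_lit 76) (XT.lf (nat_lit 76) (nat_lit 11870425792) (nat_lit 0) (nat_lit 77020767) (nat_lit 1216) (nat_lit 2520329931) (nat_lit 232) (nat_lit 5) (nat_lit 231) (nat_lit 5) (nat_lit 247) (nat_lit 5) (nat_lit 349) (nat_lit 335) (nat_lit 216)) (XT.lf (nat_lit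 76) (nat_lit 4764485357) (nat_lit 0) (nat_lit 8615573593) (nat_lit 1216) (nat_lit 1312239332) (nat_lit 233) (nat_lit 5) (nat_lit 232) (nat_lit 5) (nat_lit 248) (nat_lit 5) (nat_lit 350) (nat_lit 335) (nat_lit 215))) (XT.nd (nat_lit 78) (nat_lit 1140) (nat_lit 0) (XT.lf (nat_lit 76) (nat_lit 12389310897) (nat_lit 0) (nat_lit 2480684022) (nat_lit 1216) (nat_lit 53140046) (nat_lit 233) (nat_lit 5) (nat_lit 232) (nat_lit 5) (nat_lit 248) (nat_lit 5) (nat_lit 351) (nat_lit 335) (nat_lit 214)) (XT.lf (nat_lit 0) (nat_lit 1294192748) (nat_lit 1216) (nat_lit 10036514628) (nat_lit 76) (nat_lit 3827597845) (nat_lit 217) (nat_lit 5) (nat_lit 233) (nat_lit 5) (nat_lit 218) (nat_lit 5) (nat_lit 352) (nat_lit 335) (nat_lit 213)))))) (XT.nd (nat_lit 546) (nat_lit 2204) (nat_lit 0) (XT.nd (nat_lit 234) (nat_lit 1140) (nat_lit 0) (XT.nd (nat_lit 78) (nat_lit 988) (nat_lit 0) (XT.lf (nat_lit 0) (nat_lit 2719160154) (nat_lit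 1216) (nat_lit 2376665824) (nat_lit 76) (nat_lit 10303549122) (nat_lit 217) (nat_lit 5) (nat_lit 233) (nat_lit 5) (nat_lit 218) (nat_lit 5) (nat_lit 353) (nat_lit 335) (nat_lit 212)) (XT.nd (nat_lit 78) (nat_lit 0) (nat_lit 0) (XT.lf (nat_lit 0) (nat_lit 4242354991) (nat_lit 1064) (nat_lit 10047491480) (nat_lit 76) (nat_lit 1356174778) (nat_lit 204) (nat_lit 5) (nat_lit 218) (nat_lit 5) (nat_lit 205) (nat_lit 5) (nat_lit 354) (nat_lit 335) (nat_lit 211)) (XT.lf (nat_lit 0) (nat_lit 5874429068) (nat_lit 1064) (nat_lit 2098872491) (nat_lit 76) (nat_lit 7924877998) (nat_lit 204) (nat_lit 5) (nat_lit 218) (nat_lit 5) (nat_lit 205) (nat_lit 5) (nat_lit 355) (nat_lit 335) (nat_lit 210)))) (XT.nd (nat_lit 156) (nat_lit 532) (nat_lit 0) (XT.nd (nat_lit 78) (nat_lit 0) (nat_lit 0) (XT.lf (nat_lit 0) (nat_lit 6198940663) (nat_lit 608) (nat_lit 1404940276) (nat_lit 684) (nat_lit 8552577243) (nat_lit 196) (nat_lit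 5) (nat_lit 204) (nat_lit 5) (nat_lit 205) (nat_lit 5) (nat_lit 356) (nat_lit 335) (nat_lit 209)) (XT.lf (nat_lit 0) (nat_lit 9447212313) (nat_lit 684) (nat_lit 1695346044) (nat_lit 76) (nat_lit 5278074733) (nat_lit 196) (nat_lit 5) (nat_lit 205) (nat_lit 5) (nat_lit 197) (nat_lit 5) (nat_lit 357) (nat_lit 335) (nat_lit 208))) (XT.nd (nat_lit 78) (nat_lit 0) (nat_lit 0) (XT.lf (nat_lit 0) (nat_lit 6925760030) (nat_lit 532) (nat_lit 4489950546) (nat_lit 608) (nat_lit 5274934235) (nat_lit 189) (nat_lit 5) (nat_lit 196) (nat_lit 5) (nat_lit 197) (nat_lit 5) (nat_lit 358) (nat_lit 335) (nat_lit 207)) (XT.lf (nat_lit 0) (nat_lit 13472857964) (nat_lit 608) (nat_lit 1161257695) (nat_lit 76) (nat_lit 2333760753) (nat_lit 189) (nat_lit 5) (nat_lit 197) (nat_lit 5) (nat_lit 190) (nat_lit 5) (nat_lit 359) (nat_lit 335) (nat_lit 206))))) (XT.nd (nat_lit 234) (nat_lit 988) (nat_lit 0) (XT.nd (nat_lit 78) (nat_lit 608)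 (nat_lit 0) (XT.lf (nat_lit 0) (nat_lit 7798105118) (nat_lit 608) (nat_lit 7902930498) (nat_lit 684) (nat_lit 1549117009) (nat_lit 181) (nat_lit 5) (nat_lit 189) (nat_lit 5) (nat_lit 190) (nat_lit 5) (nat_lit 360) (nat_lit 335) (nat_lit 205)) (XT.nd (nat_lit 78) (nat_lit 532) (nat_lit 0) (XT.lf (nat_lit 0) (nat_lit 448116202) (nat_lit 684) (nat_lit 505177489) (nat_lit 76) (nat_lit 16587423808) (nat_lit 180) (nat_lit 5) (nat_lit 189) (nat_lit 5) (nat_lit 181) (nat_lit 5) (nat_lit 361) (nat_lit 335) (nat_lit 204)) (XT.lf (nat_lit 0) (nat_lit 2610199663) (nat_lit 608) (nat_lit 9040211206) (nat_lit 76) (nat_lit 6185052780) (nat_lit 173) (nat_lit 5) (nat_lit 181) (nat_lit 5) (nat_lit 174) (nat_lit 5) (nat_lit 362) (nat_lit 335) (nat_lit 203)))) (XT.nd (nat_lit 156) (nat_lit 456) (nat_lit 0) (XT.nd (nat_lit 78) (nat_lit 0) (nat_lit 0) (XT.lf (nat_lit 0) (nat_lit 231082209) (nat_lit 532) (nat_lit 4613346662)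 (nat_lit 608) (nat_lit 13294411159) (nat_lit 166) (nat_lit 5) (nat_lit 173) (nat_lit 5) (nat_lit 174) (nat_lit 5) (nat_lit 363) (nat_lit 335) (nat_lit 202)) (XT.lf (nat_lit 0) (nat_lit 7253851682) (nat_lit 608) (nat_lit 8519251801) (nat_lit 76) (nat_lit 2674975376) (nat_lit 166) (nat_lit 5) (nat_lit 174) (nat_lit 5) (nat_lit 167) (nat_lit 5) (nat_lit 364) (nat_lit 335) (nat_lit 201))) (XT.nd (nat_lit 78) (nat_lit 0) (nat_lit 0) (XT.lf (nat_lit 0) (nat_lit 1117058488) (nat_lit 456) (nat_lit 8665832537) (nat_lit 532) (nat_lit 8982289793) (nat_lit 160) (nat_lit 5) (nat_lit 166) (nat_lit 5) (nat_lit 167) (nat_lit 5) (nat_lit 365) (nat_lit 335) (nat_lit 200)) (XT.lf (nat_lit 0) (nat_lit 11207220117) (nat_lit 456) (nat_lit 1257698039) (nat_lit 532) (nat_lit 6624569985) (nat_lit 160) (nat_lit 5) (nat_lit 166) (nat_lit 5) (nat_lit 167) (nat_lit 5) (nat_lit 366) (nat_lit 335) (nat_lit 199))))))))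
noncomputable def xc188 : XT := (XT.nd (nat_lit 2028) (nat_lit 3116) (nat_lit 0) (XT.nd (nat_lit 1014) (nat_lit 2280) (nat_lit 0) (XT.nd (nat_lit 468) (nat_lit 1596) (nat_lit 0) (XT.nd (nat_lit 234) (nat_lit 456) (nat_lit 0) (XT.nd (nat_lit 78) (nat_lit 532) (nat_lit 0) (XT.lf (nat_lit 0) (nat_lit 2147363731) (nat_lit 456) (nat_lit 13153281675) (nat_lit 532) (nat_lit 4120687736) (nat_lit 154) (nat_lit 5) (nat_lit 160) (nat_lit 5) (nat_lit 161) (nat_lit 5) (nat_lit 367) (nat_lit 335) (nat_lit 198)) (XT.nd (nat_lit 78) (nat_lit 532) (nat_lit 0) (XT.lf (nat_lit 0) (nat_lit 12617016548) (nat_lit 456) (nat_lit 5687851739) (nat_lit 532) (nat_lit 1455767963) (nat_lit 154) (nat_lit 5) (nat_lit 160) (nat_lit 5) (nat_lit 161) (nat_lit 5) (nat_lit 368) (nat_lit 335) (nat_lit 197)) (XT.lf (nat_lit 0) (nat_lit 1307315945) (nat_lit 532) (nat_lit 16795041258) (nat_lit 76) (nat_lit 2006093512) (nat_lit 147) (nat_lit 5)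 (nat_lit 154) (nat_lit 5) (nat_lit 148) (nat_lit 5) (nat_lit 369) (nat_lit 335) (nat_lit 196)))) (XT.nd (nat_lit 78) (nat_lit 456) (nat_lit 0) (XT.lf (nat_lit 0) (nat_lit 4244995986) (nat_lit 532) (nat_lit 6315168914) (nat_lit 76) (nat_lit 9902478422) (nat_lit 147) (nat_lit 5) (nat_lit 154) (nat_lit 5) (nat_lit 148) (nat_lit 5) (nat_lit 370) (nat_lit 335) (nat_lit 195)) (XT.nd (nat_lit 78) (nat_lit 0) (nat_lit 0) (XT.lf (nat_lit 0) (nat_lit 4558561355) (nat_lit 456) (nat_lit 2748100646) (nat_lit 532) (nat_lit 13519728900) (nat_lit 141) (nat_lit 5) (nat_lit 147) (nat_lit 5) (nat_lit 148) (nat_lit 5) (nat_lit 371) (nat_lit 335) (nat_lit 194)) (XT.lf (nat_lit 0) (nat_lit 10567673314) (nat_lit 532) (nat_lit 5372364992) (nat_lit 76) (nat_lit 5257792463) (nat_lit 141) (nat_lit 5) (nat_lit 148) (nat_lit 5) (nat_lit 142) (nat_lit 5) (nat_lit 372) (nat_lit 335) (nat_lit 193))))) (XT.nd (nat_lit 234) (nat_lit 836)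 (nat_lit 0) (XT.nd (nat_lit 78) (nat_lit 380) (nat_lit 0) (XT.lf (nat_lit 0) (nat_lit 5929109789) (nat_lit 380) (nat_lit 8073998957) (nat_lit 456) (nat_lit 7575011856) (nat_lit 136) (nat_lit 5) (nat_lit 141) (nat_lit 5) (nat_lit 142) (nat_lit 5) (nat_lit 373) (nat_lit 335) (nat_lit 192)) (XT.nd (nat_lit 78) (nat_lit 380) (nat_lit 0) (XT.lf (nat_lit 0) (nat_lit 17589170360) (nat_lit 456) (nat_lit 4298704253) (nat_lit 76) (nat_lit 80522073) (nat_lit 136) (nat_lit 5) (nat_lit 142) (nat_lit 5) (nat_lit 137) (nat_lit 5) (nat_lit 374) (nat_lit 335) (nat_lit 191)) (XT.lf (nat_lit 0) (nat_lit 7448327066) (nat_lit 380) (nat_lit 13978749753) (nat_lit 456) (nat_lit 938980662) (nat_lit 131) (nat_lit 5) (nat_lit 136) (nat_lit 5) (nat_lit 137) (nat_lit 5) (nat_lit 375) (nat_lit 335) (nat_lit 190)))) (XT.nd (nat_lit 156) (nat_lit 380) (nat_lit 0) (XT.nd (nat_lit 78) (nat_lit 380) (nat_lit 0) (XT.lf (nat_lit 0) (nat_lit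 2590262084) (nat_lit 456) (nat_lit 3173168219) (nat_lit 76) (nat_lit 17010372425) (nat_lit 130) (nat_lit 5) (nat_lit 136) (nat_lit 5) (nat_lit 131) (nat_lit 5) (nat_lit 376) (nat_lit 335) (nat_lit 189)) (XT.lf (nat_lit 0) (nat_lit 6313678306) (nat_lit 456) (nat_lit 14135278403) (nat_lit 76) (nat_lit 2741333609) (nat_lit 125) (nat_lit 5) (nat_lit 131) (nat_lit 5) (nat_lit 126) (nat_lit 5) (nat_lit 377) (nat_lit 335) (nat_lit 188))) (XT.nd (nat_lit 78) (nat_lit 380) (nat_lit 0) (XT.lf (nat_lit 0) (nat_lit 10231305010) (nat_lit 456) (nat_lit 1969687540) (nat_lit 76) (nat_lit 11415808583) (nat_lit 125) (nat_lit 5) (nat_lit 131) (nat_lit 5) (nat_lit 126) (nat_lit 5) (nat_lit 378) (nat_lit 335) (nat_lit 187)) (XT.lf (nat_lit 0) (nat_lit 10762062446) (nat_lit 380) (nat_lit 3601135319) (nat_lit 456) (nat_lit 9690011115) (nat_lit 120) (nat_lit 5) (nat_lit 125) (nat_lit 5) (nat_lit 126) (nat_lit 5) (nat_lit 379)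 (nat_lit 335) (nat_lit 186)))))) (XT.nd (nat_lit 468) (nat_lit 1216) (nat_lit 0) (XT.nd (nat_lit 234) (nat_lit 304) (nat_lit 0) (XT.nd (nat_lit 78) (nat_lit 760) (nat_lit 0) (XT.lf (nat_lit 0) (nat_lit 18683041945) (nat_lit 456) (nat_lit 645608319) (nat_lit 76) (nat_lit 5172142375) (nat_lit 120) (nat_lit 5) (nat_lit 126) (nat_lit 5) (nat_lit 121) (nat_lit 5) (nat_lit 380) (nat_lit 335) (nat_lit 185)) (XT.nd (nat_lit 78) (nat_lit 456) (nat_lit 0) (XT.lf (nat_lit 0) (nat_lit 12580481110) (nat_lit 304) (nat_lit 10702156269) (nat_lit 380) (nat_lit 1674665365) (nat_lit 116) (nat_lit 5) (nat_lit 120) (nat_lit 5) (nat_lit 121) (nat_lit 5) (nat_lit 381) (nat_lit 335) (nat_lit 184)) (XT.lf (nat_lit 0) (nat_lit 770629232) (nat_lit 380) (nat_lit 1779090641) (nat_lit 456) (nat_lit 22876815894) (nat_lit 110) (nat_lit 5) (nat_lit 115) (nat_lit 5) (nat_lit 116) (nat_lit 5) (nat_lit 382) (nat_lit 335) (nat_lit 183))))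 (XT.nd (nat_lit 78) (nat_lit 304) (nat_lit 0) (XT.lf (nat_lit 0) (nat_lit 7058331972) (nat_lit 456) (nat_lit 11437724240) (nat_lit 76) (nat_lit 7407560723) (nat_lit 110) (nat_lit 5) (nat_lit 116) (nat_lit 5) (nat_lit 111) (nat_lit 5) (nat_lit 383) (nat_lit 335) (nat_lit 182)) (XT.nd (nat_lit 78) (nat_lit 0) (nat_lit 0) (XT.lf (nat_lit 0) (nat_lit 2193670437) (nat_lit 304) (nat_lit 9541107317) (nat_lit 380) (nat_lit 14659258646) (nat_lit 106) (nat_lit 5) (nat_lit 110) (nat_lit 5) (nat_lit 111) (nat_lit 5) (nat_lit 384) (nat_lit 335) (nat_lit 181)) (XT.lf (nat_lit 0) (nat_lit 16460027927) (nat_lit 304) (nat_lit 200958525) (nat_lit 380) (nat_lit 10234900940) (nat_lit 106) (nat_lit 5) (nat_lit 110) (nat_lit 5) (nat_lit 111) (nat_lit 5) (nat_lit 385) (nat_lit 335) (nat_lit 180))))) (XT.nd (nat_lit 234) (nat_lit 532) (nat_lit 0) (XT.nd (nat_lit 78) (nat_lit 380) (nat_lit 0) (XT.lf (nat_lit 0) (nat_lit 3715182498)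 (nat_lit 304) (nat_lit 18140180552) (nat_lit 380) (nat_lit 5553822356) (nat_lit 102) (nat_lit 5) (nat_lit 106) (nat_lit 5) (nat_lit 107) (nat_lit 5) (nat_lit 386) (nat_lit 335) (nat_lit 179)) (XT.nd (nat_lit 78) (nat_lit 380) (nat_lit 0) (XT.lf (nat_lit 0) (nat_lit 18494381861) (nat_lit 304) (nat_lit 8812756684) (nat_lit 380) (nat_lit 627699644) (nat_lit 102) (nat_lit 5) (nat_lit 106) (nat_lit 5) (nat_lit 107) (nat_lit 5) (nat_lit 387) (nat_lit 335) (nat_lit 178)) (XT.lf (nat_lit 0) (nat_lit 4413191923) (nat_lit 380) (nat_lit 23189064958) (nat_lit 76) (nat_lit 871111775) (nat_lit 97) (nat_lit 5) (nat_lit 102) (nat_lit 5) (nat_lit 98) (nat_lit 5) (nat_lit 388) (nat_lit 335) (nat_lit 177)))) (XT.nd (nat_lit 156) (nat_lit 228) (nat_lit 0) (XT.nd (nat_lit 78) (nat_lit 304) (nat_lit 0) (XT.lf (nat_lit 0) (nat_lit 9770612856) (nat_lit 380) (nat_lit 8483492997) (nat_lit 76) (nat_lit 10768427791) (nat_lit 97)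 (nat_lit 5) (nat_lit 102) (nat_lit 5) (nat_lit 98) (nat_lit 5) (nat_lit 389) (nat_lit 335) (nat_lit 176)) (XT.lf (nat_lit 0) (nat_lit 6787727522) (nat_lit 304) (nat_lit 8560829868) (nat_lit 380) (nat_lit 14237824697) (nat_lit 93) (nat_lit 5) (nat_lit 97) (nat_lit 5) (nat_lit 98) (nat_lit 5) (nat_lit 390) (nat_lit 335) (nat_lit 175))) (XT.nd (nat_lit 78) (nat_lit 228) (nat_lit 0) (XT.lf (nat_lit 0) (nat_lit 21188647825) (nat_lit 380) (nat_lit 7496149850) (nat_lit 76) (nat_lit 1479506546) (nat_lit 93) (nat_lit 5) (nat_lit 98) (nat_lit 5) (nat_lit 94) (nat_lit 5) (nat_lit 391) (nat_lit 335) (nat_lit 174)) (XT.lf (nat_lit 0) (nat_lit 8335526895) (nat_lit 228) (nat_lit 19028069536) (nat_lit 304) (nat_lit 3391180317) (nat_lit 90) (nat_lit 5) (nat_lit 93) (nat_lit 5) (nat_lit 94) (nat_lit 5) (nat_lit 392) (nat_lit 335) (nat_lit 173))))))) (XT.nd (nat_lit 1014) (nat_lit 1444) (nat_lit 0) (XT.nd (nat_lit 468) (nat_lit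 760) (nat_lit 0) (XT.nd (nat_lit 234) (nat_lit 532) (nat_lit 0) (XT.nd (nat_lit 78) (nat_lit 304) (nat_lit 0) (XT.lf (nat_lit 0) (nat_lit 2386001056) (nat_lit 304) (nat_lit 6596146096) (nat_lit 76) (nat_lit 22378000560) (nat_lit 89) (nat_lit 5) (nat_lit 93) (nat_lit 5) (nat_lit 90) (nat_lit 5) (nat_lit 393) (nat_lit 335) (nat_lit 172)) (XT.nd (nat_lit 78) (nat_lit 0) (nat_lit 0) (XT.lf (nat_lit 0) (nat_lit 8372362496) (nat_lit 380) (nat_lit 22141616301) (nat_lit 76) (nat_lit 1465575195) (nat_lit 85) (nat_lit 5) (nat_lit 90) (nat_lit 5) (nat_lit 86) (nat_lit 5) (nat_lit 394) (nat_lit 335) (nat_lit 171)) (XT.lf (nat_lit 0) (nat_lit 14689510054) (nat_lit 380) (nat_lit 5812529872) (nat_lit 76) (nat_lit 12110968803) (nat_lit 85) (nat_lit 5) (nat_lit 90) (nat_lit 5) (nat_lit 86) (nat_lit 5) (nat_lit 395) (nat_lit 335) (nat_lit 170)))) (XT.nd (nat_lit 78) (nat_lit 304) (nat_lit 0) (XT.lf (nat_lit 0) (nat_lit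 11217901155) (nat_lit 228) (nat_lit 10081245469) (nat_lit 304) (nat_lit 11963233309) (nat_lit 82) (nat_lit 5) (nat_lit 85) (nat_lit 5) (nat_lit 86) (nat_lit 5) (nat_lit 396) (nat_lit 335) (nat_lit 169)) (XT.nd (nat_lit 78) (nat_lit 304) (nat_lit 0) (XT.lf (nat_lit 0) (nat_lit 28167805033) (nat_lit 304) (nat_lit 5065403123) (nat_lit 76) (nat_lit 696204137) (nat_lit 82) (nat_lit 5) (nat_lit 86) (nat_lit 5) (nat_lit 83) (nat_lit 5) (nat_lit 397) (nat_lit 335) (nat_lit 168)) (XT.lf (nat_lit 0) (nat_lit 831872976) (nat_lit 304) (nat_lit 22057054096) (nat_lit 76) (nat_lit 11720809228) (nat_lit 78) (nat_lit 5) (nat_lit 82) (nat_lit 5) (nat_lit 79) (nat_lit 5) (nat_lit 398) (nat_lit 335) (nat_lit 167))))) (XT.nd (nat_lit 234) (nat_lit 532) (nat_lit 0) (XT.nd (nat_lit 78) (nat_lit 228) (nat_lit 0) (XT.lf (nat_lit 0) (nat_lit 7554359176) (nat_lit 304) (nat_lit 4570624896) (nat_lit 76) (nat_lit 23182366297) (nat_lit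 78) (nat_lit 5) (nat_lit 82) (nat_lit 5) (nat_lit 79) (nat_lit 5) (nat_lit 399) (nat_lit 335) (nat_lit 166)) (XT.nd (nat_lit 78) (nat_lit 0) (nat_lit 0) (XT.lf (nat_lit 0) (nat_lit 13700675623) (nat_lit 228) (nat_lit 905026211) (nat_lit 304) (nat_lit 21416377348) (nat_lit 75) (nat_lit 5) (nat_lit 78) (nat_lit 5) (nat_lit 79) (nat_lit 5) (nat_lit 400) (nat_lit 335) (nat_lit 165)) (XT.lf (nat_lit 0) (nat_lit 22013107489) (nat_lit 304) (nat_lit 4253015327) (nat_lit 76) (nat_lit 10487793090) (nat_lit 75) (nat_lit 5) (nat_lit 79) (nat_lit 5) (nat_lit 76) (nat_lit 5) (nat_lit 401) (nat_lit 335) (nat_lit 164)))) (XT.nd (nat_lit 156) (nat_lit 304) (nat_lit 0) (XT.nd (nat_lit 78) (nat_lit 0) (nat_lit 0) (XT.lf (nat_lit 0) (nat_lit 14626983609) (nat_lit 228) (nat_lit 15160968658) (nat_lit 304) (nat_lit 7715400634) (nat_lit 72) (nat_lit 5) (nat_lit 75) (nat_lit 5) (nat_lit 76) (nat_lit 5) (nat_lit 402) (nat_lit 335)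 (nat_lit 163)) (XT.lf (nat_lit 0) (nat_lit 34153727436) (nat_lit 228) (nat_lit 3680975742) (nat_lit 304) (nat_lit 439411632) (nat_lit 72) (nat_lit 5) (nat_lit 75) (nat_lit 5) (nat_lit 76) (nat_lit 5) (nat_lit 403) (nat_lit 335) (nat_lit 162))) (XT.nd (nat_lit 78) (nat_lit 0) (nat_lit 0) (XT.lf (nat_lit 0) (nat_lit 7141653806) (nat_lit 304) (nat_lit 23717312781) (nat_lit 76) (nat_lit 8200266183) (nat_lit 68) (nat_lit 5) (nat_lit 72) (nat_lit 5) (nat_lit 69) (nat_lit 5) (nat_lit 404) (nat_lit 335) (nat_lit 161)) (XT.lf (nat_lit 0) (nat_lit 15015614638) (nat_lit 304) (nat_lit 4442063000) (nat_lit 76) (nat_lit 20407868748) (nat_lit 68) (nat_lit 5) (nat_lit 72) (nat_lit 5) (nat_lit 69) (nat_lit 5) (nat_lit 405) (nat_lit 335) (nat_lit 160)))))) (XT.nd (nat_lit 546) (nat_lit 608) (nat_lit 0) (XT.nd (nat_lit 234) (nat_lit 456) (nat_lit 0) (XT.nd (nat_lit 78) (nat_lit 152) (nat_lit 0) (XT.lf (nat_lit 0) (nat_lit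 15711468933) (nat_lit 228) (nat_lit 7561305138) (nat_lit 304) (nat_lit 17418867394) (nat_lit 65) (nat_lit 5) (nat_lit 68) (nat_lit 5) (nat_lit 69) (nat_lit 5) (nat_lit 406) (nat_lit 335) (nat_lit 159)) (XT.nd (nat_lit 78) (nat_lit 152) (nat_lit 0) (XT.lf (nat_lit 0) (nat_lit 31864033403) (nat_lit 304) (nat_lit 5032650508) (nat_lit 76) (nat_lit 4643245336) (nat_lit 65) (nat_lit 5) (nat_lit 69) (nat_lit 5) (nat_lit 66) (nat_lit 5) (nat_lit 407) (nat_lit 335) (nat_lit 158)) (XT.lf (nat_lit 0) (nat_lit 15739157052) (nat_lit 152) (nat_lit 25196132172) (nat_lit 228) (nat_lit 1471710041) (nat_lit 63) (nat_lit 5) (nat_lit 65) (nat_lit 5) (nat_lit 66) (nat_lit 5) (nat_lit 408) (nat_lit 335) (nat_lit 157)))) (XT.nd (nat_lit 156) (nat_lit 152) (nat_lit 0) (XT.nd (nat_lit 78) (nat_lit 228) (nat_lit 0) (XT.lf (nat_lit 0) (nat_lit 6889859907) (nat_lit 228) (nat_lit 6135278522) (nat_lit 76) (nat_lit 30271508676) (nat_lit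 62) (nat_lit 5) (nat_lit 65) (nat_lit 5) (nat_lit 63) (nat_lit 5) (nat_lit 409) (nat_lit 335) (nat_lit 156)) (XT.lf (nat_lit 0) (nat_lit 15290837755) (nat_lit 228) (nat_lit 325070531) (nat_lit 304) (nat_lit 28592343864) (nat_lit 59) (nat_lit 5) (nat_lit 62) (nat_lit 5) (nat_lit 63) (nat_lit 5) (nat_lit 410) (nat_lit 335) (nat_lit 155))) (XT.nd (nat_lit 78) (nat_lit 152) (nat_lit 0) (XT.lf (nat_lit 0) (nat_lit 24785177696) (nat_lit 304) (nat_lit 7789334407) (nat_lit 76) (nat_lit 12567251267) (nat_lit 59) (nat_lit 5) (nat_lit 63) (nat_lit 5) (nat_lit 60) (nat_lit 5) (nat_lit 411) (nat_lit 335) (nat_lit 154)) (XT.lf (nat_lit 0) (nat_lit 14241188155) (nat_lit 152) (nat_lit 20124813107) (nat_lit 228) (nat_lit 11733185559) (nat_lit 57) (nat_lit 5) (nat_lit 59) (nat_lit 5) (nat_lit 60) (nat_lit 5) (nat_lit 412) (nat_lit 335) (nat_lit 153))))) (XT.nd (nat_lit 234) (nat_lit 380) (nat_lit 0) (XT.nd (nat_lit 78)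 (nat_lit 228) (nat_lit 0) (XT.lf (nat_lit 0) (nat_lit 37086281522) (nat_lit 152) (nat_lit 7223035650) (nat_lit 228) (nat_lit 2773764917) (nat_lit 57) (nat_lit 5) (nat_lit 59) (nat_lit 5) (nat_lit 60) (nat_lit 5) (nat_lit 413) (nat_lit 335) (nat_lit 152)) (XT.nd (nat_lit 78) (nat_lit 0) (nat_lit 0) (XT.lf (nat_lit 0) (nat_lit 6507157860) (nat_lit 228) (nat_lit 35451085573) (nat_lit 76) (nat_lit 6131030474) (nat_lit 54) (nat_lit 5) (nat_lit 57) (nat_lit 5) (nat_lit 55) (nat_lit 5) (nat_lit 414) (nat_lit 335) (nat_lit 151)) (XT.lf (nat_lit 0) (nat_lit 16180724095) (nat_lit 228) (nat_lit 13071388048) (nat_lit 76) (nat_lit 19867617519) (nat_lit 54) (nat_lit 5) (nat_lit 57) (nat_lit 5) (nat_lit 55) (nat_lit 5) (nat_lit 415) (nat_lit 335) (nat_lit 150)))) (XT.nd (nat_lit 156) (nat_lit 228) (nat_lit 0) (XT.nd (nat_lit 78) (nat_lit 0) (nat_lit 0) (XT.lf (nat_lit 0) (nat_lit 10172435413) (nat_lit 152) (nat_lit 16066450358)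 (nat_lit 228) (nat_lit 23939382678) (nat_lit 52) (nat_lit 5) (nat_lit 54) (nat_lit 5) (nat_lit 55) (nat_lit 5) (nat_lit 416) (nat_lit 335) (nat_lit 149)) (XT.lf (nat_lit 0) (nat_lit 34375814904) (nat_lit 152) (nat_lit 2351621577) (nat_lit 228) (nat_lit 14537268582) (nat_lit 52) (nat_lit 5) (nat_lit 54) (nat_lit 5) (nat_lit 55) (nat_lit 5) (nat_lit 417) (nat_lit 335) (nat_lit 148))) (XT.nd (nat_lit 78) (nat_lit 76) (nat_lit 0) (XT.lf (nat_lit 0) (nat_lit 6938144453) (nat_lit 152) (nat_lit 40769102499) (nat_lit 228) (nat_lit 4671190681) (nat_lit 50) (nat_lit 5) (nat_lit 52) (nat_lit 5) (nat_lit 53) (nat_lit 5) (nat_lit 418) (nat_lit 335) (nat_lit 147)) (XT.lf (nat_lit 0) (nat_lit 5575972915) (nat_lit 228) (nat_lit 21777653987) (nat_lit 76) (nat_lit 26164605232) (nat_lit 49) (nat_lit 5) (nat_lit 52) (nat_lit 5) (nat_lit 50) (nat_lit 5) (nat_lit 419) (nat_lit 335) (nat_lit 146))))))))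
noncomputable def xc189 : XT := (XT.nd (nat_lit 41106) (nat_lit 0) (nat_lit 8132) (XT.nd (nat_lit 1014) (nat_lit 152) (nat_lit 0) (XT.nd (nat_lit 468) (nat_lit 456) (nat_lit 0) (XT.nd (nat_lit 234) (nat_lit 380) (nat_lit 0) (XT.nd (nat_lit 78) (nat_lit 0) (nat_lit 0) (XT.lf (nat_lit 0) (nat_lit 2593762202) (nat_lit 152) (nat_lit 13464664264) (nat_lit 228) (nat_lit 38631754557) (nat_lit 47) (nat_lit 5) (nat_lit 49) (nat_lit 5) (nat_lit 50) (nat_lit 5) (nat_lit 420) (nat_lit 335) (nat_lit 145)) (XT.nd (nat_lit 78) (nat_lit 0) (nat_lit 0) (XT.lf (nat_lit 0) (nat_lit 27082373398) (nat_lit 228) (nat_lit 27763696499) (nat_lit 76) (nat_lit 1044408737) (nat_lit 47) (nat_lit 5) (nat_lit 50) (nat_lit 5) (nat_lit 48) (nat_lit 5) (nat_lit 421) (nat_lit 335) (nat_lit 144)) (XT.lf (nat_lit 0) (nat_lit 38567291017) (nat_lit 228) (nat_lit 2839631905) (nat_lit 76) (nat_lit 15715955509) (nat_lit 47) (nat_lit 5) (nat_lit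 50) (nat_lit 5) (nat_lit 48) (nat_lit 5) (nat_lit 422) (nat_lit 335) (nat_lit 143)))) (XT.nd (nat_lit 78) (nat_lit 228) (nat_lit 0) (XT.lf (nat_lit 0) (nat_lit 23281285594) (nat_lit 152) (nat_lit 27336292464) (nat_lit 228) (nat_lit 7768048308) (nat_lit 45) (nat_lit 5) (nat_lit 47) (nat_lit 5) (nat_lit 48) (nat_lit 5) (nat_lit 423) (nat_lit 335) (nat_lit 142)) (XT.nd (nat_lit 78) (nat_lit 152) (nat_lit 0) (XT.lf (nat_lit 0) (nat_lit 3303874801) (nat_lit 228) (nat_lit 9478956032) (nat_lit 76) (nat_lit 46901682757) (nat_lit 44) (nat_lit 5) (nat_lit 47) (nat_lit 5) (nat_lit 45) (nat_lit 5) (nat_lit 424) (nat_lit 335) (nat_lit 141)) (XT.lf (nat_lit 0) (nat_lit 14737571288) (nat_lit 228) (nat_lit 43870523705) (nat_lit 76) (nat_lit 2406393456) (nat_lit 42) (nat_lit 5) (nat_lit 45) (nat_lit 5) (nat_lit 43) (nat_lit 5) (nat_lit 425) (nat_lit 335) (nat_lit 140))))) (XT.nd (nat_lit 234) (nat_lit 304) (nat_lit 0)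 (XT.nd (nat_lit 78) (nat_lit 152) (nat_lit 0) (XT.lf (nat_lit 0) (nat_lit 26734645158) (nat_lit 228) (nat_lit 17754164021) (nat_lit 76) (nat_lit 17888943093) (nat_lit 42) (nat_lit 5) (nat_lit 45) (nat_lit 5) (nat_lit 43) (nat_lit 5) (nat_lit 426) (nat_lit 335) (nat_lit 139)) (XT.nd (nat_lit 78) (nat_lit 0) (nat_lit 0) (XT.lf (nat_lit 0) (nat_lit 9322707918) (nat_lit 152) (nat_lit 29855759504) (nat_lit 228) (nat_lit 24600842192) (nat_lit 40) (nat_lit 5) (nat_lit 42) (nat_lit 5) (nat_lit 43) (nat_lit 5) (nat_lit 427) (nat_lit 335) (nat_lit 138)) (XT.lf (nat_lit 0) (nat_lit 37570978849) (nat_lit 152) (nat_lit 14601162688) (nat_lit 228) (nat_lit 13045476696) (nat_lit 40) (nat_lit 5) (nat_lit 42) (nat_lit 5) (nat_lit 43) (nat_lit 5) (nat_lit 428) (nat_lit 335) (nat_lit 137)))) (XT.nd (nat_lit 156) (nat_lit 152) (nat_lit 0) (XT.nd (nat_lit 78) (nat_lit 152) (nat_lit 0) (XT.lf (nat_lit 0) (nat_lit 65563621425)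 (nat_lit 228) (nat_lit 47828324) (nat_lit 76) (nat_lit 1087387145) (nat_lit 40) (nat_lit 5) (nat_lit 43) (nat_lit 5) (nat_lit 41) (nat_lit 4) (nat_lit 429) (nat_lit 335) (nat_lit 136)) (XT.lf (nat_lit 0) (nat_lit 11337988082) (nat_lit 152) (nat_lit 39531510255) (nat_lit 76) (nat_lit 17339098060) (nat_lit 38) (nat_lit 5) (nat_lit 40) (nat_lit 5) (nat_lit 39) (nat_lit 5) (nat_lit 430) (nat_lit 335) (nat_lit 135))) (XT.nd (nat_lit 78) (nat_lit 152) (nat_lit 0) (XT.lf (nat_lit 0) (nat_lit 24160457976) (nat_lit 152) (nat_lit 11514788104) (nat_lit 76) (nat_lit 34088129398) (nat_lit 38) (nat_lit 5) (nat_lit 40) (nat_lit 5) (nat_lit 39) (nat_lit 5) (nat_lit 431) (nat_lit 335) (nat_lit 134)) (XT.lf (nat_lit 0) (nat_lit 17682991808) (nat_lit 152) (nat_lit 19852064834) (nat_lit 228) (nat_lit 33824718229) (nat_lit 36) (nat_lit 5) (nat_lit 38) (nat_lit 5) (nat_lit 39) (nat_lit 5) (nat_lit 432) (nat_lit 335) (nat_lit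 133)))))) (XT.nd (nat_lit 39546) (nat_lit 0) (nat_lit 14668) (XT.nd (nat_lit 39312) (nat_lit 0) (nat_lit 14592) (XT.nd (nat_lit 78) (nat_lit 152) (nat_lit 0) (XT.lf (nat_lit 0) (nat_lit 47988288366) (nat_lit 152) (nat_lit 3436387311) (nat_lit 228) (nat_lit 21575977658) (nat_lit 36) (nat_lit 5) (nat_lit 38) (nat_lit 5) (nat_lit 39) (nat_lit 5) (nat_lit 433) (nat_lit 335) (nat_lit 132)) (XT.nd (nat_lit 78) (nat_lit 76) (nat_lit 0) (XT.lf (nat_lit 0) (nat_lit 4465236079) (nat_lit 76) (nat_lit 61435728536) (nat_lit 152) (nat_lit 8784694645) (nat_lit 35) (nat_lit 5) (nat_lit 36) (nat_lit 5) (nat_lit 37) (nat_lit 4) (nat_lit 434) (nat_lit 335) (nat_lit 131)) (XT.lf (nat_lit 0) (nat_lit 4591320901) (nat_lit 152) (nat_lit 41156860485) (nat_lit 76) (nat_lit 30663168460) (nat_lit 34) (nat_lit 5) (nat_lit 36) (nat_lit 5) (nat_lit 35) (nat_lit 5) (nat_lit 435) (nat_lit 335) (nat_lit 130)))) (XT.nd (nat_lit 78) (nat_lit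 0) (nat_lit 0) (XT.lf (nat_lit 0) (nat_lit 183506460) (nat_lit 0) (nat_lit 183506460) (nat_lit 1140) (nat_lit 5701451864) (nat_lit 226) (nat_lit 5) (nat_lit 226) (nat_lit 3) (nat_lit 241) (nat_lit 3) (nat_lit 336) (nat_lit 336) (nat_lit 228)) (XT.nd (nat_lit 78) (nat_lit 0) (nat_lit 0) (XT.lf (nat_lit 0) (nat_lit 1245278275) (nat_lit 1140) (nat_lit 6119702988) (nat_lit 1216) (nat_lit 4938644460) (nat_lit 226) (nat_lit 5) (nat_lit 241) (nat_lit 3) (nat_lit 242) (nat_lit 5) (nat_lit 337) (nat_lit 336) (nat_lit 227)) (XT.lf (nat_lit 0) (nat_lit 1757953399) (nat_lit 1140) (nat_lit 313060856) (nat_lit 1216) (nat_lit 10404739633) (nat_lit 226) (nat_lit 5) (nat_lit 241) (nat_lit 3) (nat_lit 242) (nat_lit 5) (nat_lit 338) (nat_lit 336) (nat_lit 226))))) (XT.nd (nat_lit 234) (nat_lit 0) (nat_lit 76) (XT.nd (nat_lit 78) (nat_lit 0) (nat_lit 0) (XT.lf (nat_lit 0) (nat_lit 2357580381) (nat_lit 1140) (nat_lit 6913809650)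 (nat_lit 1216) (nat_lit 3379522001) (nat_lit 227) (nat_lit 5) (nat_lit 242) (nat_lit 5) (nat_lit 243) (nat_lit 5) (nat_lit 339) (nat_lit 336) (nat_lit 225)) (XT.nd (nat_lit 78) (nat_lit 0) (nat_lit 76) (XT.lf (nat_lit 0) (nat_lit 2982337850) (nat_lit 1140) (nat_lit 886242018) (nat_lit 1216) (nat_lit 8962543695) (nat_lit 227) (nat_lit 5) (nat_lit 242) (nat_lit 5) (nat_lit 243) (nat_lit 5) (nat_lit 340) (nat_lit 336) (nat_lit 224)) (XT.lf (nat_lit 0) (nat_lit 3678736272) (nat_lit 1140) (nat_lit 7614054488) (nat_lit 1216) (nat_lit 1722376255) (nat_lit 228) (nat_lit 5) (nat_lit 243) (nat_lit 5) (nat_lit 244) (nat_lit 5) (nat_lit 341) (nat_lit 336) (nat_lit 223)))) (XT.nd (nat_lit 156) (nat_lit 0) (nat_lit 76) (XT.nd (nat_lit 78) (nat_lit 0) (nat_lit 0) (XT.lf (nat_lit 0) (nat_lit 4427733967) (nat_lit 1140) (nat_lit 1357434497) (nat_lit 1216) (nat_lit 7418624241) (nat_lit 228) (nat_lit 5) (nat_lit 243) (nat_lit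 5) (nat_lit 244) (nat_lit 5) (nat_lit 342) (nat_lit 336) (nat_lit 222)) (XT.lf (nat_lit 76) (nat_lit 5178384846) (nat_lit 0) (nat_lit 55416524) (nat_lit 1216) (nat_lit 8163249602) (nat_lit 229) (nat_lit 5) (nat_lit 228) (nat_lit 5) (nat_lit 244) (nat_lit 5) (nat_lit 343) (nat_lit 336) (nat_lit 221))) (XT.nd (nat_lit 78) (nat_lit 0) (nat_lit 0) (XT.lf (nat_lit 0) (nat_lit 6119316272) (nat_lit 1140) (nat_lit 1723886635) (nat_lit 1216) (nat_lit 5751257572) (nat_lit 229) (nat_lit 5) (nat_lit 244) (nat_lit 5) (nat_lit 245) (nat_lit 5) (nat_lit 344) (nat_lit 336) (nat_lit 220)) (XT.lf (nat_lit 76) (nat_lit 5054139721) (nat_lit 0) (nat_lit 2012044218) (nat_lit 1216) (nat_lit 6730575837) (nat_lit 230) (nat_lit 5) (nat_lit 229) (nat_lit 5) (nat_lit 245) (nat_lit 5) (nat_lit 345) (nat_lit 336) (nat_lit 219))))))) (XT.nd (nat_lit 1014) (nat_lit 4180) (nat_lit 0) (XT.nd (nat_lit 468) (nat_lit 2584) (nat_lit 0) (XT.nd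 (nat_lit 234) (nat_lit 0) (nat_lit 76) (XT.nd (nat_lit 78) (nat_lit 0) (nat_lit 0) (XT.lf (nat_lit 0) (nat_lit 8083454712) (nat_lit 1140) (nat_lit 1982378113) (nat_lit 1216) (nat_lit 3938046114) (nat_lit 230) (nat_lit 5) (nat_lit 245) (nat_lit 5) (nat_lit 246) (nat_lit 5) (nat_lit 346) (nat_lit 336) (nat_lit 218)) (XT.nd (nat_lit 78) (nat_lit 0) (nat_lit 76) (XT.lf (nat_lit 76) (nat_lit 5049525499) (nat_lit 0) (nat_lit 4136609144) (nat_lit 1216) (nat_lit 5029440787) (nat_lit 231) (nat_lit 5) (nat_lit 230) (nat_lit 5) (nat_lit 246) (nat_lit 5) (nat_lit 347) (nat_lit 336) (nat_lit 217)) (XT.lf (nat_lit 0) (nat_lit 10347820529) (nat_lit 1140) (nat_lit 2129244957) (nat_lit 1216) (nat_lit 1955789744) (nat_lit 231) (nat_lit 5) (nat_lit 246) (nat_lit 5) (nat_lit 247) (nat_lit 5) (nat_lit 348) (nat_lit 336) (nat_lit 216)))) (XT.nd (nat_lit 78) (nat_lit 0) (nat_lit 0) (XT.lf (nat_lit 76) (nat_lit 5168757112) (nat_lit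 0) (nat_lit 6453394725) (nat_lit 1216) (nat_lit 3032177623) (nat_lit 232) (nat_lit 5) (nat_lit 231) (nat_lit 5) (nat_lit 247) (nat_lit 5) (nat_lit 349) (nat_lit 336) (nat_lit 215)) (XT.nd (nat_lit 78) (nat_lit 0) (nat_lit 76) (XT.lf (nat_lit 76) (nat_lit 12719631272) (nat_lit 0) (nat_lit 224016867) (nat_lit 1216) (nat_lit 1938541319) (nat_lit 232) (nat_lit 5) (nat_lit 231) (nat_lit 5) (nat_lit 247) (nat_lit 5) (nat_lit 350) (nat_lit 336) (nat_lit 214)) (XT.lf (nat_lit 76) (nat_lit 5416483521) (nat_lit 0) (nat_lit 8987722451) (nat_lit 1216) (nat_lit 709706103) (nat_lit 233) (nat_lit 5) (nat_lit 232) (nat_lit 5) (nat_lit 248) (nat_lit 5) (nat_lit 351) (nat_lit 336) (nat_lit 213))))) (XT.nd (nat_lit 234) (nat_lit 1520) (nat_lit 0) (XT.nd (nat_lit 78) (nat_lit 0) (nat_lit 76) (XT.lf (nat_lit 0) (nat_lit 557377134) (nat_lit 1216) (nat_lit 2102469526) (nat_lit 1292) (nat_lit 12692221182) (nat_lit 216) (nat_lit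 5) (nat_lit 232) (nat_lit 5) (nat_lit 233) (nat_lit 5) (nat_lit 352) (nat_lit 336) (nat_lit 212)) (XT.nd (nat_lit 78) (nat_lit 0) (nat_lit 0) (XT.lf (nat_lit 0) (nat_lit 1930164096) (nat_lit 1216) (nat_lit 9816436512) (nat_lit 76) (nat_lit 3848106726) (nat_lit 217) (nat_lit 5) (nat_lit 233) (nat_lit 5) (nat_lit 218) (nat_lit 5) (nat_lit 353) (nat_lit 336) (nat_lit 211)) (XT.lf (nat_lit 0) (nat_lit 3380487935) (nat_lit 1216) (nat_lit 1941972056) (nat_lit 76) (nat_lit 10521083699) (nat_lit 217) (nat_lit 5) (nat_lit 233) (nat_lit 5) (nat_lit 218) (nat_lit 5) (nat_lit 354) (nat_lit 336) (nat_lit 210)))) (XT.nd (nat_lit 156) (nat_lit 608) (nat_lit 0) (XT.nd (nat_lit 78) (nat_lit 0) (nat_lit 0) (XT.lf (nat_lit 0) (nat_lit 4936668161) (nat_lit 1064) (nat_lit 9829804188) (nat_lit 76) (nat_lit 1331510423) (nat_lit 204) (nat_lit 5) (nat_lit 218) (nat_lit 5) (nat_lit 205) (nat_lit 5) (nat_lit 355) (nat_lit 336) (nat_lit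 209)) (XT.lf (nat_lit 0) (nat_lit 6601188660) (nat_lit 1064) (nat_lit 1657846397) (nat_lit 76) (nat_lit 8099178126) (nat_lit 204) (nat_lit 5) (nat_lit 218) (nat_lit 5) (nat_lit 205) (nat_lit 5) (nat_lit 356) (nat_lit 336) (nat_lit 208))) (XT.nd (nat_lit 78) (nat_lit 0) (nat_lit 0) (XT.lf (nat_lit 0) (nat_lit 6883960051) (nat_lit 608) (nat_lit 1487326462) (nat_lit 684) (nat_lit 8253302314) (nat_lit 196) (nat_lit 5) (nat_lit 204) (nat_lit 5) (nat_lit 205) (nat_lit 5) (nat_lit 357) (nat_lit 336) (nat_lit 207)) (XT.lf (nat_lit 0) (nat_lit 10253834851) (nat_lit 684) (nat_lit 1245234522) (nat_lit 76) (nat_lit 5398113296) (nat_lit 196) (nat_lit 5) (nat_lit 205) (nat_lit 5) (nat_lit 197) (nat_lit 5) (nat_lit 358) (nat_lit 336) (nat_lit 206)))))) (XT.nd (nat_lit 546) (nat_lit 1900) (nat_lit 0) (XT.nd (nat_lit 234) (nat_lit 1140) (nat_lit 0) (XT.nd (nat_lit 78) (nat_lit 608) (nat_lit 0) (XT.lf (nat_lit 0) (nat_lit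 7629593246) (nat_lit 532) (nat_lit 4641324238) (nat_lit 608) (nat_lit 4904702245) (nat_lit 189) (nat_lit 5) (nat_lit 196) (nat_lit 5) (nat_lit 197) (nat_lit 5) (nat_lit 359) (nat_lit 336) (nat_lit 205)) (XT.nd (nat_lit 78) (nat_lit 608) (nat_lit 0) (XT.lf (nat_lit 0) (nat_lit 14374689624) (nat_lit 608) (nat_lit 699041898) (nat_lit 76) (nat_lit 2387900000) (nat_lit 189) (nat_lit 5) (nat_lit 197) (nat_lit 5) (nat_lit 190) (nat_lit 5) (nat_lit 360) (nat_lit 336) (nat_lit 204)) (XT.lf (nat_lit 0) (nat_lit 8524228725) (nat_lit 608) (nat_lit 8135720478) (nat_lit 684) (nat_lit 1092729967) (nat_lit 181) (nat_lit 5) (nat_lit 189) (nat_lit 5) (nat_lit 190) (nat_lit 5) (nat_lit 361) (nat_lit 336) (nat_lit 203)))) (XT.nd (nat_lit 156) (nat_lit 532) (nat_lit 0) (XT.nd (nat_lit 78) (nat_lit 532) (nat_lit 0) (XT.lf (nat_lit 0) (nat_lit 940247001) (nat_lit 684) (nat_lit 32638945) (nat_lit 76) (nat_lit 17079370507) (nat_lit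 180) (nat_lit 5) (nat_lit 189) (nat_lit 5) (nat_lit 181) (nat_lit 5) (nat_lit 362) (nat_lit 336) (nat_lit 202)) (XT.lf (nat_lit 0) (nat_lit 3158022683) (nat_lit 608) (nat_lit 8814240818) (nat_lit 76) (nat_lit 6383865973) (nat_lit 173) (nat_lit 5) (nat_lit 181) (nat_lit 5) (nat_lit 174) (nat_lit 5) (nat_lit 363) (nat_lit 336) (nat_lit 201))) (XT.nd (nat_lit 78) (nat_lit 0) (nat_lit 0) (XT.lf (nat_lit 0) (nat_lit 730317119) (nat_lit 532) (nat_lit 4720018708) (nat_lit 608) (nat_lit 13218548711) (nat_lit 166) (nat_lit 5) (nat_lit 173) (nat_lit 5) (nat_lit 174) (nat_lit 5) (nat_lit 364) (nat_lit 336) (nat_lit 200)) (XT.lf (nat_lit 0) (nat_lit 7918922652) (nat_lit 608) (nat_lit 8283452517) (nat_lit 76) (nat_lit 2785427763) (nat_lit 166) (nat_lit 5) (nat_lit 174) (nat_lit 5) (nat_lit 167) (nat_lit 5) (nat_lit 365) (nat_lit 336) (nat_lit 199))))) (XT.nd (nat_lit 234) (nat_lit 988) (nat_lit 0) (XT.nd (nat_lit 78)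 (nat_lit 456) (nat_lit 0) (XT.lf (nat_lit 0) (nat_lit 1637129662) (nat_lit 456) (nat_lit 8878347938) (nat_lit 532) (nat_lit 8799199598) (nat_lit 160) (nat_lit 5) (nat_lit 166) (nat_lit 5) (nat_lit 167) (nat_lit 5) (nat_lit 366) (nat_lit 336) (nat_lit 198)) (XT.nd (nat_lit 78) (nat_lit 456) (nat_lit 0) (XT.lf (nat_lit 0) (nat_lit 12015824506) (nat_lit 456) (nat_lit 1249351723) (nat_lit 532) (nat_lit 6383929523) (nat_lit 160) (nat_lit 5) (nat_lit 166) (nat_lit 5) (nat_lit 167) (nat_lit 5) (nat_lit 367) (nat_lit 336) (nat_lit 197)) (XT.lf (nat_lit 0) (nat_lit 2692041521) (nat_lit 456) (nat_lit 13486563509) (nat_lit 532) (nat_lit 3812530270) (nat_lit 154) (nat_lit 5) (nat_lit 160) (nat_lit 5) (nat_lit 161) (nat_lit 5) (nat_lit 368) (nat_lit 336) (nat_lit 196)))) (XT.nd (nat_lit 156) (nat_lit 456) (nat_lit 0) (XT.nd (nat_lit 78) (nat_lit 532) (nat_lit 0) (XT.lf (nat_lit 0) (nat_lit 13461795857) (nat_lit 456)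 (nat_lit 5798956596) (nat_lit 532) (nat_lit 1080238965) (nat_lit 154) (nat_lit 5) (nat_lit 160) (nat_lit 5) (nat_lit 161) (nat_lit 5) (nat_lit 369) (nat_lit 336) (nat_lit 195)) (XT.lf (nat_lit 0) (nat_lit 1750743258) (nat_lit 532) (nat_lit 16817128579) (nat_lit 76) (nat_lit 2131459416) (nat_lit 147) (nat_lit 5) (nat_lit 154) (nat_lit 5) (nat_lit 148) (nat_lit 5) (nat_lit 370) (nat_lit 336) (nat_lit 194))) (XT.nd (nat_lit 78) (nat_lit 456) (nat_lit 0) (XT.lf (nat_lit 0) (nat_lit 4764780656) (nat_lit 532) (nat_lit 6036892024) (nat_lit 76) (nat_lit 10262837336) (nat_lit 147) (nat_lit 5) (nat_lit 154) (nat_lit 5) (nat_lit 148) (nat_lit 5) (nat_lit 371) (nat_lit 336) (nat_lit 193)) (XT.lf (nat_lit 0) (nat_lit 5158464547) (nat_lit 456) (nat_lit 2752854012) (nat_lit 532) (nat_lit 13528067785) (nat_lit 141) (nat_lit 5) (nat_lit 147) (nat_lit 5) (nat_lit 148) (nat_lit 5) (nat_lit 372) (nat_lit 336) (nat_lit 192))))))))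
noncomputable def xc190 : XT := (XT.nd (nat_lit 2028) (nat_lit 2888) (nat_lit 0) (XT.nd (nat_lit 1014) (nat_lit 1824) (nat_lit 0) (XT.nd (nat_lit 468) (nat_lit 1444) (nat_lit 0) (XT.nd (nat_lit 234) (nat_lit 836) (nat_lit 0) (XT.nd (nat_lit 78) (nat_lit 380) (nat_lit 0) (XT.lf (nat_lit 0) (nat_lit 11259658366) (nat_lit 532) (nat_lit 5073151635) (nat_lit 76) (nat_lit 5489481236) (nat_lit 141) (nat_lit 5) (nat_lit 148) (nat_lit 5) (nat_lit 142) (nat_lit 5) (nat_lit 373) (nat_lit 336) (nat_lit 191)) (XT.nd (nat_lit 78) (nat_lit 0) (nat_lit 0) (XT.lf (nat_lit 0) (nat_lit 6562853818) (nat_lit 380) (nat_lit 8228764136) (nat_lit 456) (nat_lit 7422574555) (nat_lit 136) (nat_lit 5) (nat_lit 141) (nat_lit 5) (nat_lit 142) (nat_lit 5) (nat_lit 374) (nat_lit 336) (nat_lit 190)) (XT.lf (nat_lit 0) (nat_lit 18475347038) (nat_lit 456) (nat_lit 3974945208) (nat_lit 76) (nat_lit 166188445) (nat_lit 136) (nat_lit 5) (nat_lit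 142) (nat_lit 5) (nat_lit 137) (nat_lit 5) (nat_lit 375) (nat_lit 336) (nat_lit 189)))) (XT.nd (nat_lit 78) (nat_lit 456) (nat_lit 0) (XT.lf (nat_lit 0) (nat_lit 8120058617) (nat_lit 380) (nat_lit 14302199439) (nat_lit 456) (nat_lit 604003434) (nat_lit 131) (nat_lit 5) (nat_lit 136) (nat_lit 5) (nat_lit 137) (nat_lit 5) (nat_lit 376) (nat_lit 336) (nat_lit 188)) (XT.nd (nat_lit 78) (nat_lit 380) (nat_lit 0) (XT.lf (nat_lit 0) (nat_lit 3013659606) (nat_lit 456) (nat_lit 2826063589) (nat_lit 76) (nat_lit 17606728140) (nat_lit 130) (nat_lit 5) (nat_lit 136) (nat_lit 5) (nat_lit 131) (nat_lit 5) (nat_lit 377) (nat_lit 336) (nat_lit 187)) (XT.lf (nat_lit 0) (nat_lit 6843862965) (nat_lit 456) (nat_lit 14111932615) (nat_lit 76) (nat_lit 2919791105) (nat_lit 125) (nat_lit 5) (nat_lit 131) (nat_lit 5) (nat_lit 126) (nat_lit 5) (nat_lit 378) (nat_lit 336) (nat_lit 186))))) (XT.nd (nat_lit 234) (nat_lit 1064) (nat_lit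 0) (XT.nd (nat_lit 78) (nat_lit 380) (nat_lit 0) (XT.lf (nat_lit 0) (nat_lit 10869093004) (nat_lit 456) (nat_lit 1594405215) (nat_lit 76) (nat_lit 11851697878) (nat_lit 125) (nat_lit 5) (nat_lit 131) (nat_lit 5) (nat_lit 126) (nat_lit 5) (nat_lit 379) (nat_lit 336) (nat_lit 185)) (XT.nd (nat_lit 78) (nat_lit 0) (nat_lit 0) (XT.lf (nat_lit 0) (nat_lit 11515038713) (nat_lit 380) (nat_lit 3604401979) (nat_lit 456) (nat_lit 9645425789) (nat_lit 120) (nat_lit 5) (nat_lit 125) (nat_lit 5) (nat_lit 126) (nat_lit 5) (nat_lit 380) (nat_lit 336) (nat_lit 184)) (XT.lf (nat_lit 0) (nat_lit 19560381825) (nat_lit 456) (nat_lit 238718345) (nat_lit 76) (nat_lit 5427037725) (nat_lit 120) (nat_lit 5) (nat_lit 126) (nat_lit 5) (nat_lit 121) (nat_lit 5) (nat_lit 381) (nat_lit 336) (nat_lit 183)))) (XT.nd (nat_lit 156) (nat_lit 304) (nat_lit 0) (XT.nd (nat_lit 78) (nat_lit 456) (nat_lit 0) (XT.lf (nat_lit 0) (nat_lit 13379974765)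 (nat_lit 304) (nat_lit 10912819041) (nat_lit 380) (nat_lit 1403709677) (nat_lit 116) (nat_lit 5) (nat_lit 120) (nat_lit 5) (nat_lit 121) (nat_lit 5) (nat_lit 382) (nat_lit 336) (nat_lit 182)) (XT.lf (nat_lit 0) (nat_lit 1218057066) (nat_lit 380) (nat_lit 1717988426) (nat_lit 456) (nat_lit 23243832948) (nat_lit 110) (nat_lit 5) (nat_lit 115) (nat_lit 5) (nat_lit 116) (nat_lit 5) (nat_lit 383) (nat_lit 336) (nat_lit 181))) (XT.nd (nat_lit 78) (nat_lit 304) (nat_lit 0) (XT.lf (nat_lit 0) (nat_lit 7571960015) (nat_lit 456) (nat_lit 11360795818) (nat_lit 76) (nat_lit 7738759502) (nat_lit 110) (nat_lit 5) (nat_lit 116) (nat_lit 5) (nat_lit 111) (nat_lit 5) (nat_lit 384) (nat_lit 336) (nat_lit 180)) (XT.lf (nat_lit 0) (nat_lit 2675422463) (nat_lit 304) (nat_lit 9708482430) (nat_lit 380) (nat_lit 14792890798) (nat_lit 106) (nat_lit 5) (nat_lit 110) (nat_lit 5) (nat_lit 111) (nat_lit 5) (nat_lit 385) (nat_lit 336)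 (nat_lit 179)))))) (XT.nd (nat_lit 468) (nat_lit 836) (nat_lit 0) (XT.nd (nat_lit 234) (nat_lit 684) (nat_lit 0) (XT.nd (nat_lit 78) (nat_lit 304) (nat_lit 0) (XT.lf (nat_lit 0) (nat_lit 17357655865) (nat_lit 304) (nat_lit 91591061) (nat_lit 380) (nat_lit 10244719223) (nat_lit 106) (nat_lit 5) (nat_lit 110) (nat_lit 5) (nat_lit 111) (nat_lit 5) (nat_lit 386) (nat_lit 336) (nat_lit 178)) (XT.nd (nat_lit 78) (nat_lit 0) (nat_lit 0) (XT.lf (nat_lit 0) (nat_lit 4234119211) (nat_lit 304) (nat_lit 18561928620) (nat_lit 380) (nat_lit 5426721703) (nat_lit 102) (nat_lit 5) (nat_lit 106) (nat_lit 5) (nat_lit 107) (nat_lit 5) (nat_lit 387) (nat_lit 336) (nat_lit 177)) (XT.lf (nat_lit 0) (nat_lit 19444826170) (nat_lit 304) (nat_lit 8958248755) (nat_lit 380) (nat_lit 361370125) (nat_lit 102) (nat_lit 5) (nat_lit 106) (nat_lit 5) (nat_lit 107) (nat_lit 5) (nat_lit 388) (nat_lit 336) (nat_lit 176)))) (XT.nd (nat_lit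 78) (nat_lit 304) (nat_lit 0) (XT.lf (nat_lit 0) (nat_lit 4822033658) (nat_lit 380) (nat_lit 23480148106) (nat_lit 76) (nat_lit 1016965797) (nat_lit 97) (nat_lit 5) (nat_lit 102) (nat_lit 5) (nat_lit 98) (nat_lit 5) (nat_lit 389) (nat_lit 336) (nat_lit 175)) (XT.nd (nat_lit 78) (nat_lit 304) (nat_lit 0) (XT.lf (nat_lit 0) (nat_lit 10332125393) (nat_lit 380) (nat_lit 8345193126) (nat_lit 76) (nat_lit 11207714283) (nat_lit 97) (nat_lit 5) (nat_lit 102) (nat_lit 5) (nat_lit 98) (nat_lit 5) (nat_lit 390) (nat_lit 336) (nat_lit 174)) (XT.lf (nat_lit 0) (nat_lit 7380312983) (nat_lit 304) (nat_lit 8693016835) (nat_lit 380) (nat_lit 14392592876) (nat_lit 93) (nat_lit 5) (nat_lit 97) (nat_lit 5) (nat_lit 98) (nat_lit 5) (nat_lit 391) (nat_lit 336) (nat_lit 173))))) (XT.nd (nat_lit 234) (nat_lit 532) (nat_lit 0) (XT.nd (nat_lit 78) (nat_lit 304) (nat_lit 0) (XT.lf (nat_lit 0) (nat_lit 22082087651) (nat_lit 380)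 (nat_lit 7336756293) (nat_lit 76) (nat_lit 1642538144) (nat_lit 93) (nat_lit 5) (nat_lit 98) (nat_lit 5) (nat_lit 94) (nat_lit 5) (nat_lit 392) (nat_lit 336) (nat_lit 172)) (XT.nd (nat_lit 78) (nat_lit 76) (nat_lit 0) (XT.lf (nat_lit 0) (nat_lit 8966103322) (nat_lit 228) (nat_lit 19472330926) (nat_lit 304) (nat_lit 3231253487) (nat_lit 90) (nat_lit 5) (nat_lit 93) (nat_lit 5) (nat_lit 94) (nat_lit 5) (nat_lit 393) (nat_lit 336) (nat_lit 171)) (XT.lf (nat_lit 0) (nat_lit 2706664841) (nat_lit 304) (nat_lit 6419537588) (nat_lit 76) (nat_lit 23167169353) (nat_lit 89) (nat_lit 5) (nat_lit 93) (nat_lit 5) (nat_lit 90) (nat_lit 5) (nat_lit 394) (nat_lit 336) (nat_lit 170)))) (XT.nd (nat_lit 156) (nat_lit 228) (nat_lit 0) (XT.nd (nat_lit 78) (nat_lit 0) (nat_lit 0) (XT.lf (nat_lit 0) (nat_lit 8870132511) (nat_lit 380) (nat_lit 22428782578) (nat_lit 76) (nat_lit 1632522843) (nat_lit 85) (nat_lit 5) (nat_lit 90)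 (nat_lit 5) (nat_lit 86) (nat_lit 5) (nat_lit 395) (nat_lit 336) (nat_lit 169)) (XT.lf (nat_lit 0) (nat_lit 15369611996) (nat_lit 380) (nat_lit 5620806533) (nat_lit 76) (nat_lit 12593696305) (nat_lit 85) (nat_lit 5) (nat_lit 90) (nat_lit 5) (nat_lit 86) (nat_lit 5) (nat_lit 396) (nat_lit 336) (nat_lit 168))) (XT.nd (nat_lit 78) (nat_lit 0) (nat_lit 0) (XT.lf (nat_lit 0) (nat_lit 11916948216) (nat_lit 228) (nat_lit 10257100814) (nat_lit 304) (nat_lit 12079025763) (nat_lit 82) (nat_lit 5) (nat_lit 85) (nat_lit 5) (nat_lit 86) (nat_lit 5) (nat_lit 397) (nat_lit 336) (nat_lit 167)) (XT.lf (nat_lit 0) (nat_lit 29243076846) (nat_lit 304) (nat_lit 4859627567) (nat_lit 76) (nat_lit 837587297) (nat_lit 82) (nat_lit 5) (nat_lit 86) (nat_lit 5) (nat_lit 83) (nat_lit 5) (nat_lit 398) (nat_lit 336) (nat_lit 166))))))) (XT.nd (nat_lit 1014) (nat_lit 1140) (nat_lit 0) (XT.nd (nat_lit 468) (nat_lit 988) (nat_lit 0) (XT.nd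 (nat_lit 234) (nat_lit 228) (nat_lit 0) (XT.nd (nat_lit 78) (nat_lit 228) (nat_lit 0) (XT.lf (nat_lit 0) (nat_lit 1086104070) (nat_lit 304) (nat_lit 22359881960) (nat_lit 76) (nat_lit 12195073791) (nat_lit 78) (nat_lit 5) (nat_lit 82) (nat_lit 5) (nat_lit 79) (nat_lit 5) (nat_lit 399) (nat_lit 336) (nat_lit 165)) (XT.nd (nat_lit 78) (nat_lit 228) (nat_lit 0) (XT.lf (nat_lit 0) (nat_lit 8003586946) (nat_lit 304) (nat_lit 4359312808) (nat_lit 76) (nat_lit 23996905525) (nat_lit 78) (nat_lit 5) (nat_lit 82) (nat_lit 5) (nat_lit 79) (nat_lit 5) (nat_lit 400) (nat_lit 336) (nat_lit 164)) (XT.lf (nat_lit 0) (nat_lit 14456710738) (nat_lit 228) (nat_lit 806592232) (nat_lit 304) (nat_lit 21832770549) (nat_lit 75) (nat_lit 5) (nat_lit 78) (nat_lit 5) (nat_lit 79) (nat_lit 5) (nat_lit 401) (nat_lit 336) (nat_lit 163)))) (XT.nd (nat_lit 78) (nat_lit 228) (nat_lit 0) (XT.lf (nat_lit 0) (nat_lit 22887711664) (nat_lit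 304) (nat_lit 4040338129) (nat_lit 76) (nat_lit 10921974605) (nat_lit 75) (nat_lit 5) (nat_lit 79) (nat_lit 5) (nat_lit 76) (nat_lit 5) (nat_lit 402) (nat_lit 336) (nat_lit 162)) (XT.nd (nat_lit 78) (nat_lit 0) (nat_lit 0) (XT.lf (nat_lit 0) (nat_lit 15402724817) (nat_lit 228) (nat_lit 15490076608) (nat_lit 304) (nat_lit 7729235496) (nat_lit 72) (nat_lit 5) (nat_lit 75) (nat_lit 5) (nat_lit 76) (nat_lit 5) (nat_lit 403) (nat_lit 336) (nat_lit 161)) (XT.lf (nat_lit 0) (nat_lit 35505457414) (nat_lit 228) (nat_lit 3669345683) (nat_lit 304) (nat_lit 241305480) (nat_lit 72) (nat_lit 5) (nat_lit 75) (nat_lit 5) (nat_lit 76) (nat_lit 5) (nat_lit 404) (nat_lit 336) (nat_lit 160))))) (XT.nd (nat_lit 234) (nat_lit 456) (nat_lit 0) (XT.nd (nat_lit 78) (nat_lit 228) (nat_lit 0) (XT.lf (nat_lit 0) (nat_lit 7561378454) (nat_lit 304) (nat_lit 24095751459) (nat_lit 76) (nat_lit 8567642150) (nat_lit 68) (nat_lit 5) (nat_lit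 72) (nat_lit 5) (nat_lit 69) (nat_lit 5) (nat_lit 405) (nat_lit 336) (nat_lit 159)) (XT.nd (nat_lit 78) (nat_lit 228) (nat_lit 0) (XT.lf (nat_lit 0) (nat_lit 15665573401) (nat_lit 304) (nat_lit 4251945565) (nat_lit 76) (nat_lit 21137937802) (nat_lit 68) (nat_lit 5) (nat_lit 72) (nat_lit 5) (nat_lit 69) (nat_lit 5) (nat_lit 406) (nat_lit 336) (nat_lit 158)) (XT.lf (nat_lit 0) (nat_lit 16503021941) (nat_lit 228) (nat_lit 7664693322) (nat_lit 304) (nat_lit 17738703483) (nat_lit 65) (nat_lit 5) (nat_lit 68) (nat_lit 5) (nat_lit 69) (nat_lit 5) (nat_lit 407) (nat_lit 336) (nat_lit 157)))) (XT.nd (nat_lit 156) (nat_lit 304) (nat_lit 0) (XT.nd (nat_lit 78) (nat_lit 152) (nat_lit 0) (XT.lf (nat_lit 0) (nat_lit 33012133683) (nat_lit 304) (nat_lit 4868101658) (nat_lit 76) (nat_lit 4900059198) (nat_lit 65) (nat_lit 5) (nat_lit 69) (nat_lit 5) (nat_lit 66) (nat_lit 5) (nat_lit 408) (nat_lit 336) (nat_lit 156)) (XT.lf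 (nat_lit 0) (nat_lit 16523766714) (nat_lit 152) (nat_lit 25829166326) (nat_lit 228) (nat_lit 1320523399) (nat_lit 63) (nat_lit 5) (nat_lit 65) (nat_lit 5) (nat_lit 66) (nat_lit 5) (nat_lit 409) (nat_lit 336) (nat_lit 155))) (XT.nd (nat_lit 78) (nat_lit 228) (nat_lit 0) (XT.lf (nat_lit 0) (nat_lit 7282503468) (nat_lit 228) (nat_lit 6012239745) (nat_lit 76) (nat_lit 31295163368) (nat_lit 62) (nat_lit 5) (nat_lit 65) (nat_lit 5) (nat_lit 63) (nat_lit 5) (nat_lit 410) (nat_lit 336) (nat_lit 154)) (XT.lf (nat_lit 0) (nat_lit 16053649264) (nat_lit 228) (nat_lit 214191144) (nat_lit 304) (nat_lit 29261095947) (nat_lit 59) (nat_lit 5) (nat_lit 62) (nat_lit 5) (nat_lit 63) (nat_lit 5) (nat_lit 411) (nat_lit 336) (nat_lit 153)))))) (XT.nd (nat_lit 546) (nat_lit 608) (nat_lit 0) (XT.nd (nat_lit 234) (nat_lit 380) (nat_lit 0) (XT.nd (nat_lit 78) (nat_lit 152) (nat_lit 0) (XT.lf (nat_lit 0) (nat_lit 25707970365) (nat_lit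 304) (nat_lit 7723509437) (nat_lit 76) (nat_lit 13059101376) (nat_lit 59) (nat_lit 5) (nat_lit 63) (nat_lit 5) (nat_lit 60) (nat_lit 5) (nat_lit 412) (nat_lit 336) (nat_lit 152)) (XT.nd (nat_lit 78) (nat_lit 0) (nat_lit 0) (XT.lf (nat_lit 0) (nat_lit 14964992478) (nat_lit 152) (nat_lit 20608856454) (nat_lit 228) (nat_lit 11902951180) (nat_lit 57) (nat_lit 5) (nat_lit 59) (nat_lit 5) (nat_lit 60) (nat_lit 5) (nat_lit 413) (nat_lit 336) (nat_lit 151)) (XT.lf (nat_lit 0) (nat_lit 38486800724) (nat_lit 152) (nat_lit 7323512112) (nat_lit 228) (nat_lit 2680055587) (nat_lit 57) (nat_lit 5) (nat_lit 59) (nat_lit 5) (nat_lit 60) (nat_lit 5) (nat_lit 414) (nat_lit 336) (nat_lit 150)))) (XT.nd (nat_lit 156) (nat_lit 152) (nat_lit 0) (XT.nd (nat_lit 78) (nat_lit 0) (nat_lit 0) (XT.lf (nat_lit 0) (nat_lit 6874692361) (nat_lit 228) (nat_lit 36221980309) (nat_lit 76) (nat_lit 6430058352) (nat_lit 54) (nat_lit 5) (nat_lit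 57) (nat_lit 5) (nat_lit 55) (nat_lit 5) (nat_lit 415) (nat_lit 336) (nat_lit 149)) (XT.lf (nat_lit 0) (nat_lit 16833446560) (nat_lit 228) (nat_lit 13179415290) (nat_lit 76) (nat_lit 20575390670) (nat_lit 54) (nat_lit 5) (nat_lit 57) (nat_lit 5) (nat_lit 55) (nat_lit 5) (nat_lit 416) (nat_lit 336) (nat_lit 148))) (XT.nd (nat_lit 78) (nat_lit 0) (nat_lit 0) (XT.lf (nat_lit 0) (nat_lit 10758937440) (nat_lit 152) (nat_lit 16432247117) (nat_lit 228) (nat_lit 24487429429) (nat_lit 52) (nat_lit 5) (nat_lit 54) (nat_lit 5) (nat_lit 55) (nat_lit 5) (nat_lit 417) (nat_lit 336) (nat_lit 147)) (XT.lf (nat_lit 0) (nat_lit 35680224268) (nat_lit 152) (nat_lit 2309357843) (nat_lit 228) (nat_lit 14808207289) (nat_lit 52) (nat_lit 5) (nat_lit 54) (nat_lit 5) (nat_lit 55) (nat_lit 5) (nat_lit 418) (nat_lit 336) (nat_lit 146))))) (XT.nd (nat_lit 234) (nat_lit 228) (nat_lit 0) (XT.nd (nat_lit 78) (nat_lit 228) (nat_lit 0)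 (XT.lf (nat_lit 0) (nat_lit 7420481318) (nat_lit 152) (nat_lit 41877324533) (nat_lit 228) (nat_lit 4647158901) (nat_lit 50) (nat_lit 5) (nat_lit 52) (nat_lit 5) (nat_lit 53) (nat_lit 5) (nat_lit 419) (nat_lit 336) (nat_lit 145)) (XT.nd (nat_lit 78) (nat_lit 152) (nat_lit 0) (XT.lf (nat_lit 0) (nat_lit 5899527831) (nat_lit 228) (nat_lit 22161623935) (nat_lit 76) (nat_lit 27057895923) (nat_lit 49) (nat_lit 5) (nat_lit 52) (nat_lit 5) (nat_lit 50) (nat_lit 5) (nat_lit 420) (nat_lit 336) (nat_lit 144)) (XT.lf (nat_lit 0) (nat_lit 2938293959) (nat_lit 152) (nat_lit 13756173174) (nat_lit 228) (nat_lit 39631748802) (nat_lit 47) (nat_lit 5) (nat_lit 49) (nat_lit 5) (nat_lit 50) (nat_lit 5) (nat_lit 421) (nat_lit 336) (nat_lit 143)))) (XT.nd (nat_lit 156) (nat_lit 228) (nat_lit 0) (XT.nd (nat_lit 78) (nat_lit 0) (nat_lit 0) (XT.lf (nat_lit 0) (nat_lit 28045687929) (nat_lit 228) (nat_lit 28334171808) (nat_lit 76)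 (nat_lit 1182767294) (nat_lit 47) (nat_lit 5) (nat_lit 50) (nat_lit 5) (nat_lit 48) (nat_lit 5) (nat_lit 422) (nat_lit 336) (nat_lit 142)) (XT.lf (nat_lit 0) (nat_lit 39870759582) (nat_lit 228) (nat_lit 2670029032) (nat_lit 76) (nat_lit 16291343198) (nat_lit 47) (nat_lit 5) (nat_lit 50) (nat_lit 5) (nat_lit 48) (nat_lit 5) (nat_lit 423) (nat_lit 336) (nat_lit 141))) (XT.nd (nat_lit 78) (nat_lit 76) (nat_lit 0) (XT.lf (nat_lit 0) (nat_lit 24232018034) (nat_lit 152) (nat_lit 28048696874) (nat_lit 228) (nat_lit 7852103637) (nat_lit 45) (nat_lit 5) (nat_lit 47) (nat_lit 5) (nat_lit 48) (nat_lit 5) (nat_lit 424) (nat_lit 336) (nat_lit 140)) (XT.lf (nat_lit 0) (nat_lit 3544815186) (nat_lit 228) (nat_lit 9515520501) (nat_lit 76) (nat_lit 48410422459) (nat_lit 44) (nat_lit 5) (nat_lit 47) (nat_lit 5) (nat_lit 45) (nat_lit 5) (nat_lit 425) (nat_lit 336) (nat_lit 139))))))))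
noncomputable def xc191 : XT := (XT.nd (nat_lit 41184) (nat_lit 0) (nat_lit 6840) (XT.nd (nat_lit 40170) (nat_lit 0) (nat_lit 14592) (XT.nd (nat_lit 468) (nat_lit 228) (nat_lit 0) (XT.nd (nat_lit 234) (nat_lit 152) (nat_lit 0) (XT.nd (nat_lit 78) (nat_lit 152) (nat_lit 0) (XT.lf (nat_lit 0) (nat_lit 15320762886) (nat_lit 228) (nat_lit 44938040448) (nat_lit 76) (nat_lit 2581852760) (nat_lit 42) (nat_lit 5) (nat_lit 45) (nat_lit 5) (nat_lit 43) (nat_lit 5) (nat_lit 426) (nat_lit 336) (nat_lit 138)) (XT.nd (nat_lit 78) (nat_lit 152) (nat_lit 0) (XT.lf (nat_lit 0) (nat_lit 27673640298) (nat_lit 228) (nat_lit 18045430719) (nat_lit 76) (nat_lit 18525871095) (nat_lit 42) (nat_lit 5) (nat_lit 45) (nat_lit 5) (nat_lit 43) (nat_lit 5) (nat_lit 427) (nat_lit 336) (nat_lit 137)) (XT.lf (nat_lit 0) (nat_lit 9841381121) (nat_lit 152) (nat_lit 30647704443) (nat_lit 228) (nat_lit 25199512353) (nat_lit 40) (nat_lit 5)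 (nat_lit 42) (nat_lit 5) (nat_lit 43) (nat_lit 5) (nat_lit 428) (nat_lit 336) (nat_lit 136)))) (XT.nd (nat_lit 78) (nat_lit 152) (nat_lit 0) (XT.lf (nat_lit 0) (nat_lit 38930139248) (nat_lit 152) (nat_lit 14938490923) (nat_lit 228) (nat_lit 13301544778) (nat_lit 40) (nat_lit 5) (nat_lit 42) (nat_lit 5) (nat_lit 43) (nat_lit 5) (nat_lit 429) (nat_lit 336) (nat_lit 135)) (XT.nd (nat_lit 78) (nat_lit 76) (nat_lit 0) (XT.lf (nat_lit 0) (nat_lit 182486939) (nat_lit 76) (nat_lit 67478236568) (nat_lit 152) (nat_lit 1035141527) (nat_lit 39) (nat_lit 5) (nat_lit 40) (nat_lit 5) (nat_lit 41) (nat_lit 4) (nat_lit 430) (nat_lit 336) (nat_lit 134)) (XT.lf (nat_lit 0) (nat_lit 11806283834) (nat_lit 152) (nat_lit 40488923642) (nat_lit 76) (nat_lit 17955772754) (nat_lit 38) (nat_lit 5) (nat_lit 40) (nat_lit 5) (nat_lit 39) (nat_lit 5) (nat_lit 431) (nat_lit 336) (nat_lit 133))))) (XT.nd (nat_lit 234) (nat_lit 76) (nat_lit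 0) (XT.nd (nat_lit 78) (nat_lit 152) (nat_lit 0) (XT.lf (nat_lit 0) (nat_lit 25009695124) (nat_lit 152) (nat_lit 11638356096) (nat_lit 76) (nat_lit 35204464302) (nat_lit 38) (nat_lit 5) (nat_lit 40) (nat_lit 5) (nat_lit 39) (nat_lit 5) (nat_lit 432) (nat_lit 336) (nat_lit 132)) (XT.nd (nat_lit 78) (nat_lit 0) (nat_lit 0) (XT.lf (nat_lit 0) (nat_lit 18433181962) (nat_lit 152) (nat_lit 20350837699) (nat_lit 228) (nat_lit 34712833427) (nat_lit 36) (nat_lit 5) (nat_lit 38) (nat_lit 5) (nat_lit 39) (nat_lit 5) (nat_lit 433) (nat_lit 336) (nat_lit 131)) (XT.lf (nat_lit 0) (nat_lit 49641238376) (nat_lit 152) (nat_lit 3445508950) (nat_lit 228) (nat_lit 22100318786) (nat_lit 36) (nat_lit 5) (nat_lit 38) (nat_lit 5) (nat_lit 39) (nat_lit 5) (nat_lit 434) (nat_lit 336) (nat_lit 130)))) (XT.nd (nat_lit 39312) (nat_lit 0) (nat_lit 14516) (XT.nd (nat_lit 39234) (nat_lit 0) (nat_lit 14516) (XT.lf (nat_lit 0) (nat_lit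 4813080352) (nat_lit 76) (nat_lit 63183701911) (nat_lit 152) (nat_lit 8925857014) (nat_lit 35) (nat_lit 5) (nat_lit 36) (nat_lit 5) (nat_lit 37) (nat_lit 4) (nat_lit 435) (nat_lit 336) (nat_lit 129)) (XT.lf (nat_lit 0) (nat_lit 412752031) (nat_lit 0) (nat_lit 412752031) (nat_lit 1140) (nat_lit 5411243083) (nat_lit 226) (nat_lit 5) (nat_lit 226) (nat_lit 3) (nat_lit 241) (nat_lit 3) (nat_lit 337) (nat_lit 337) (nat_lit 226))) (XT.nd (nat_lit 78) (nat_lit 0) (nat_lit 0) (XT.lf (nat_lit 0) (nat_lit 2147355120) (nat_lit 1140) (nat_lit 5837929634) (nat_lit 1216) (nat_lit 4660834091) (nat_lit 226) (nat_lit 5) (nat_lit 241) (nat_lit 3) (nat_lit 242) (nat_lit 5) (nat_lit 338) (nat_lit 337) (nat_lit 225)) (XT.lf (nat_lit 76) (nat_lit 131931924) (nat_lit 0) (nat_lit 2519560808) (nat_lit 1216) (nat_lit 10172655290) (nat_lit 227) (nat_lit 5) (nat_lit 226) (nat_lit 5) (nat_lit 242) (nat_lit 5) (nat_lit 339) (nat_lit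 337) (nat_lit 224)))))) (XT.nd (nat_lit 468) (nat_lit 0) (nat_lit 152) (XT.nd (nat_lit 234) (nat_lit 0) (nat_lit 76) (XT.nd (nat_lit 78) (nat_lit 0) (nat_lit 0) (XT.lf (nat_lit 0) (nat_lit 3244112514) (nat_lit 1140) (nat_lit 6645050603) (nat_lit 1216) (nat_lit 3116166735) (nat_lit 227) (nat_lit 5) (nat_lit 242) (nat_lit 5) (nat_lit 243) (nat_lit 5) (nat_lit 340) (nat_lit 337) (nat_lit 223)) (XT.nd (nat_lit 78) (nat_lit 0) (nat_lit 76) (XT.lf (nat_lit 0) (nat_lit 3863851405) (nat_lit 1140) (nat_lit 450525068) (nat_lit 1216) (nat_lit 8877302603) (nat_lit 227) (nat_lit 5) (nat_lit 242) (nat_lit 5) (nat_lit 243) (nat_lit 5) (nat_lit 341) (nat_lit 337) (nat_lit 222)) (XT.lf (nat_lit 0) (nat_lit 4559439170) (nat_lit 1140) (nat_lit 7357870378) (nat_lit 1216) (nat_lit 1464603329) (nat_lit 228) (nat_lit 5) (nat_lit 243) (nat_lit 5) (nat_lit 244) (nat_lit 5) (nat_lit 342) (nat_lit 337) (nat_lit 221)))) (XT.nd (nat_lit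 78) (nat_lit 0) (nat_lit 0) (XT.lf (nat_lit 0) (nat_lit 5308469684) (nat_lit 1140) (nat_lit 927666518) (nat_lit 1216) (nat_lit 7340751693) (nat_lit 228) (nat_lit 5) (nat_lit 243) (nat_lit 5) (nat_lit 244) (nat_lit 5) (nat_lit 343) (nat_lit 337) (nat_lit 220)) (XT.nd (nat_lit 78) (nat_lit 0) (nat_lit 76) (XT.lf (nat_lit 76) (nat_lit 5799614749) (nat_lit 0) (nat_lit 321799066) (nat_lit 1216) (nat_lit 7655066191) (nat_lit 229) (nat_lit 5) (nat_lit 228) (nat_lit 5) (nat_lit 244) (nat_lit 5) (nat_lit 344) (nat_lit 337) (nat_lit 219)) (XT.lf (nat_lit 0) (nat_lit 7009744064) (nat_lit 1140) (nat_lit 1298995948) (nat_lit 1216) (nat_lit 5671800732) (nat_lit 229) (nat_lit 5) (nat_lit 244) (nat_lit 5) (nat_lit 245) (nat_lit 5) (nat_lit 345) (nat_lit 337) (nat_lit 218))))) (XT.nd (nat_lit 234) (nat_lit 0) (nat_lit 152) (XT.nd (nat_lit 78) (nat_lit 0) (nat_lit 76) (XT.lf (nat_lit 76) (nat_lit 5677698578) (nat_lit 0)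 (nat_lit 2291267893) (nat_lit 1216) (nat_lit 6220440052) (nat_lit 230) (nat_lit 5) (nat_lit 229) (nat_lit 5) (nat_lit 245) (nat_lit 5) (nat_lit 346) (nat_lit 337) (nat_lit 217)) (XT.nd (nat_lit 78) (nat_lit 0) (nat_lit 0) (XT.lf (nat_lit 0) (nat_lit 8994592503) (nat_lit 1140) (nat_lit 1560980961) (nat_lit 1216) (nat_lit 3847846182) (nat_lit 230) (nat_lit 5) (nat_lit 245) (nat_lit 5) (nat_lit 246) (nat_lit 5) (nat_lit 347) (nat_lit 337) (nat_lit 216)) (XT.lf (nat_lit 76) (nat_lit 5677165363) (nat_lit 0) (nat_lit 4438289773) (nat_lit 1216) (nat_lit 4506473874) (nat_lit 231) (nat_lit 5) (nat_lit 230) (nat_lit 5) (nat_lit 246) (nat_lit 5) (nat_lit 348) (nat_lit 337) (nat_lit 215)))) (XT.nd (nat_lit 156) (nat_lit 0) (nat_lit 0) (XT.nd (nat_lit 78) (nat_lit 0) (nat_lit 0) (XT.lf (nat_lit 0) (nat_lit 11291293420) (nat_lit 1140) (nat_lit 1709651614) (nat_lit 1216) (nat_lit 1845417724) (nat_lit 231) (nat_lit 5)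 (nat_lit 246) (nat_lit 5) (nat_lit 247) (nat_lit 5) (nat_lit 349) (nat_lit 337) (nat_lit 214)) (XT.lf (nat_lit 76) (nat_lit 5802550608) (nat_lit 0) (nat_lit 6787467903) (nat_lit 1216) (nat_lit 2484891971) (nat_lit 232) (nat_lit 5) (nat_lit 231) (nat_lit 5) (nat_lit 247) (nat_lit 5) (nat_lit 350) (nat_lit 337) (nat_lit 213))) (XT.nd (nat_lit 78) (nat_lit 0) (nat_lit 76) (XT.lf (nat_lit 76) (nat_lit 13566007378) (nat_lit 0) (nat_lit 367117312) (nat_lit 1216) (nat_lit 1377036413) (nat_lit 232) (nat_lit 5) (nat_lit 231) (nat_lit 5) (nat_lit 247) (nat_lit 5) (nat_lit 351) (nat_lit 337) (nat_lit 212)) (XT.lf (nat_lit 76) (nat_lit 6058819298) (nat_lit 0) (nat_lit 9364509983) (nat_lit 1216) (nat_lit 125944587) (nat_lit 233) (nat_lit 5) (nat_lit 232) (nat_lit 5) (nat_lit 248) (nat_lit 5) (nat_lit 352) (nat_lit 337) (nat_lit 211))))))) (XT.nd (nat_lit 1014) (nat_lit 3116) (nat_lit 0) (XT.nd (nat_lit 468) (nat_lit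 2280) (nat_lit 0) (XT.nd (nat_lit 234) (nat_lit 1520) (nat_lit 0) (XT.nd (nat_lit 78) (nat_lit 0) (nat_lit 76) (XT.lf (nat_lit 0) (nat_lit 1150065382) (nat_lit 1216) (nat_lit 1687795356) (nat_lit 1292) (nat_lit 12957070058) (nat_lit 216) (nat_lit 5) (nat_lit 232) (nat_lit 5) (nat_lit 233) (nat_lit 5) (nat_lit 353) (nat_lit 337) (nat_lit 210)) (XT.nd (nat_lit 78) (nat_lit 0) (nat_lit 0) (XT.lf (nat_lit 0) (nat_lit 2550935986) (nat_lit 1216) (nat_lit 9619673547) (nat_lit 76) (nat_lit 3874645174) (nat_lit 217) (nat_lit 5) (nat_lit 233) (nat_lit 5) (nat_lit 218) (nat_lit 5) (nat_lit 354) (nat_lit 337) (nat_lit 209)) (XT.lf (nat_lit 0) (nat_lit 4028375357) (nat_lit 1216) (nat_lit 1523283586) (nat_lit 76) (nat_lit 10750400915) (nat_lit 217) (nat_lit 5) (nat_lit 233) (nat_lit 5) (nat_lit 218) (nat_lit 5) (nat_lit 355) (nat_lit 337) (nat_lit 208)))) (XT.nd (nat_lit 78) (nat_lit 608) (nat_lit 0) (XT.lf (nat_lit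 0) (nat_lit 5619260167) (nat_lit 1064) (nat_lit 9635385432) (nat_lit 76) (nat_lit 1309857472) (nat_lit 204) (nat_lit 5) (nat_lit 218) (nat_lit 5) (nat_lit 205) (nat_lit 5) (nat_lit 356) (nat_lit 337) (nat_lit 207)) (XT.nd (nat_lit 78) (nat_lit 608) (nat_lit 0) (XT.lf (nat_lit 0) (nat_lit 7318148553) (nat_lit 1064) (nat_lit 1232520739) (nat_lit 76) (nat_lit 8282349330) (nat_lit 204) (nat_lit 5) (nat_lit 218) (nat_lit 5) (nat_lit 205) (nat_lit 5) (nat_lit 357) (nat_lit 337) (nat_lit 206)) (XT.lf (nat_lit 0) (nat_lit 7560882442) (nat_lit 608) (nat_lit 1569874410) (nat_lit 684) (nat_lit 7976957329) (nat_lit 196) (nat_lit 5) (nat_lit 204) (nat_lit 5) (nat_lit 205) (nat_lit 5) (nat_lit 358) (nat_lit 337) (nat_lit 205))))) (XT.nd (nat_lit 234) (nat_lit 1748) (nat_lit 0) (XT.nd (nat_lit 78) (nat_lit 532) (nat_lit 0) (XT.lf (nat_lit 0) (nat_lit 11054621890) (nat_lit 684) (nat_lit 810377490) (nat_lit 76) (nat_lit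 5523951803) (nat_lit 196) (nat_lit 5) (nat_lit 205) (nat_lit 5) (nat_lit 197) (nat_lit 5) (nat_lit 359) (nat_lit 337) (nat_lit 204)) (XT.nd (nat_lit 78) (nat_lit 0) (nat_lit 0) (XT.lf (nat_lit 0) (nat_lit 8326065561) (nat_lit 532) (nat_lit 4796281917) (nat_lit 608) (nat_lit 4553700211) (nat_lit 189) (nat_lit 5) (nat_lit 196) (nat_lit 5) (nat_lit 197) (nat_lit 5) (nat_lit 360) (nat_lit 337) (nat_lit 203)) (XT.lf (nat_lit 0) (nat_lit 15275009322) (nat_lit 608) (nat_lit 251492533) (nat_lit 76) (nat_lit 2444574633) (nat_lit 189) (nat_lit 5) (nat_lit 197) (nat_lit 5) (nat_lit 190) (nat_lit 5) (nat_lit 361) (nat_lit 337) (nat_lit 202)))) (XT.nd (nat_lit 156) (nat_lit 532) (nat_lit 0) (XT.nd (nat_lit 78) (nat_lit 608) (nat_lit 0) (XT.lf (nat_lit 0) (nat_lit 9243882869) (nat_lit 608) (nat_lit 8375740876) (nat_lit 684) (nat_lit 651517566) (nat_lit 181) (nat_lit 5) (nat_lit 189) (nat_lit 5) (nat_lit 190) (nat_lit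 5) (nat_lit 362) (nat_lit 337) (nat_lit 201)) (XT.lf (nat_lit 0) (nat_lit 434559961) (nat_lit 532) (nat_lit 989280408) (nat_lit 608) (nat_lit 17156018729) (nat_lit 173) (nat_lit 5) (nat_lit 180) (nat_lit 5) (nat_lit 181) (nat_lit 5) (nat_lit 363) (nat_lit 337) (nat_lit 200))) (XT.nd (nat_lit 78) (nat_lit 532) (nat_lit 0) (XT.lf (nat_lit 0) (nat_lit 3695328196) (nat_lit 608) (nat_lit 8610031295) (nat_lit 76) (nat_lit 6587882291) (nat_lit 173) (nat_lit 5) (nat_lit 181) (nat_lit 5) (nat_lit 174) (nat_lit 5) (nat_lit 364) (nat_lit 337) (nat_lit 199)) (XT.lf (nat_lit 0) (nat_lit 1216268901) (nat_lit 532) (nat_lit 4831712253) (nat_lit 608) (nat_lit 13167659813) (nat_lit 166) (nat_lit 5) (nat_lit 173) (nat_lit 5) (nat_lit 174) (nat_lit 5) (nat_lit 365) (nat_lit 337) (nat_lit 198)))))) (XT.nd (nat_lit 546) (nat_lit 1672) (nat_lit 0) (XT.nd (nat_lit 234) (nat_lit 988) (nat_lit 0) (XT.nd (nat_lit 78) (nat_lit 456)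 (nat_lit 0) (XT.lf (nat_lit 0) (nat_lit 8578259979) (nat_lit 608) (nat_lit 8068786295) (nat_lit 76) (nat_lit 2897459939) (nat_lit 166) (nat_lit 5) (nat_lit 174) (nat_lit 5) (nat_lit 167) (nat_lit 5) (nat_lit 366) (nat_lit 337) (nat_lit 197)) (XT.nd (nat_lit 78) (nat_lit 0) (nat_lit 0) (XT.lf (nat_lit 0) (nat_lit 2144872469) (nat_lit 456) (nat_lit 9099963175) (nat_lit 532) (nat_lit 8636595429) (nat_lit 160) (nat_lit 5) (nat_lit 166) (nat_lit 5) (nat_lit 167) (nat_lit 5) (nat_lit 367) (nat_lit 337) (nat_lit 196)) (XT.lf (nat_lit 0) (nat_lit 12821570035) (nat_lit 456) (nat_lit 1243400041) (nat_lit 532) (nat_lit 6161291917) (nat_lit 160) (nat_lit 5) (nat_lit 166) (nat_lit 5) (nat_lit 167) (nat_lit 5) (nat_lit 368) (nat_lit 337) (nat_lit 195)))) (XT.nd (nat_lit 156) (nat_lit 532) (nat_lit 0) (XT.nd (nat_lit 78) (nat_lit 0) (nat_lit 0) (XT.lf (nat_lit 0) (nat_lit 3225490934) (nat_lit 456) (nat_lit 13833363623)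 (nat_lit 532) (nat_lit 3519913909) (nat_lit 154) (nat_lit 5) (nat_lit 160) (nat_lit 5) (nat_lit 161) (nat_lit 5) (nat_lit 369) (nat_lit 337) (nat_lit 194)) (XT.lf (nat_lit 0) (nat_lit 14305152809) (nat_lit 456) (nat_lit 5916811904) (nat_lit 532) (nat_lit 717508008) (nat_lit 154) (nat_lit 5) (nat_lit 160) (nat_lit 5) (nat_lit 161) (nat_lit 5) (nat_lit 370) (nat_lit 337) (nat_lit 193))) (XT.nd (nat_lit 78) (nat_lit 0) (nat_lit 0) (XT.lf (nat_lit 0) (nat_lit 2184270206) (nat_lit 532) (nat_lit 16867533739) (nat_lit 76) (nat_lit 2256844521) (nat_lit 147) (nat_lit 5) (nat_lit 154) (nat_lit 5) (nat_lit 148) (nat_lit 5) (nat_lit 371) (nat_lit 337) (nat_lit 192)) (XT.lf (nat_lit 0) (nat_lit 5277631504) (nat_lit 532) (nat_lit 5777116555) (nat_lit 76) (nat_lit 10630374225) (nat_lit 147) (nat_lit 5) (nat_lit 154) (nat_lit 5) (nat_lit 148) (nat_lit 5) (nat_lit 372) (nat_lit 337) (nat_lit 191))))) (XT.nd (nat_lit 234)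 (nat_lit 836) (nat_lit 0) (XT.nd (nat_lit 78) (nat_lit 380) (nat_lit 0) (XT.lf (nat_lit 0) (nat_lit 5749778338) (nat_lit 456) (nat_lit 2762209683) (nat_lit 532) (nat_lit 13559460782) (nat_lit 141) (nat_lit 5) (nat_lit 147) (nat_lit 5) (nat_lit 148) (nat_lit 5) (nat_lit 373) (nat_lit 337) (nat_lit 190)) (XT.nd (nat_lit 78) (nat_lit 380) (nat_lit 0) (XT.lf (nat_lit 0) (nat_lit 11950879026) (nat_lit 532) (nat_lit 4791389821) (nat_lit 76) (nat_lit 5723875352) (nat_lit 141) (nat_lit 5) (nat_lit 148) (nat_lit 5) (nat_lit 142) (nat_lit 5) (nat_lit 374) (nat_lit 337) (nat_lit 189)) (XT.lf (nat_lit 0) (nat_lit 7189441322) (nat_lit 380) (nat_lit 8393192534) (nat_lit 456) (nat_lit 7287359760) (nat_lit 136) (nat_lit 5) (nat_lit 141) (nat_lit 5) (nat_lit 142) (nat_lit 5) (nat_lit 375) (nat_lit 337) (nat_lit 188)))) (XT.nd (nat_lit 156) (nat_lit 456) (nat_lit 0) (XT.nd (nat_lit 78) (nat_lit 380) (nat_lit 0) (XT.lf (nat_lit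 0) (nat_lit 19367529560) (nat_lit 456) (nat_lit 3667461382) (nat_lit 76) (nat_lit 249645877) (nat_lit 136) (nat_lit 5) (nat_lit 142) (nat_lit 5) (nat_lit 137) (nat_lit 5) (nat_lit 376) (nat_lit 337) (nat_lit 187)) (XT.lf (nat_lit 0) (nat_lit 8786208909) (nat_lit 380) (nat_lit 14640858403) (nat_lit 456) (nat_lit 279822991) (nat_lit 131) (nat_lit 5) (nat_lit 136) (nat_lit 5) (nat_lit 137) (nat_lit 5) (nat_lit 377) (nat_lit 337) (nat_lit 186))) (XT.nd (nat_lit 78) (nat_lit 380) (nat_lit 0) (XT.lf (nat_lit 0) (nat_lit 3429915053) (nat_lit 456) (nat_lit 2493935630) (nat_lit 76) (nat_lit 18216035217) (nat_lit 130) (nat_lit 5) (nat_lit 136) (nat_lit 5) (nat_lit 131) (nat_lit 5) (nat_lit 378) (nat_lit 337) (nat_lit 185)) (XT.lf (nat_lit 0) (nat_lit 7370391324) (nat_lit 456) (nat_lit 14113569282) (nat_lit 76) (nat_lit 3098079049) (nat_lit 125) (nat_lit 5) (nat_lit 131) (nat_lit 5) (nat_lit 126) (nat_lit 5) (nat_lit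 379) (nat_lit 337) (nat_lit 184))))))))
noncomputable def xc192 : XT := (XT.nd (nat_lit 2028) (nat_lit 2508) (nat_lit 0) (XT.nd (nat_lit 1014) (nat_lit 1596) (nat_lit 0) (XT.nd (nat_lit 468) (nat_lit 1292) (nat_lit 0) (XT.nd (nat_lit 234) (nat_lit 456) (nat_lit 0) (XT.nd (nat_lit 78) (nat_lit 684) (nat_lit 0) (XT.lf (nat_lit 0) (nat_lit 11507022562) (nat_lit 456) (nat_lit 1232799204) (nat_lit 76) (nat_lit 12295301446) (nat_lit 125) (nat_lit 5) (nat_lit 131) (nat_lit 5) (nat_lit 126) (nat_lit 5) (nat_lit 380) (nat_lit 337) (nat_lit 183)) (XT.nd (nat_lit 78) (nat_lit 304) (nat_lit 0) (XT.lf (nat_lit 0) (nat_lit 12265913941) (nat_lit 380) (nat_lit 3613780716) (nat_lit 456) (nat_lit 9618749672) (nat_lit 120) (nat_lit 5) (nat_lit 125) (nat_lit 5) (nat_lit 126) (nat_lit 5) (nat_lit 381) (nat_lit 337) (nat_lit 182)) (XT.lf (nat_lit 0) (nat_lit 159012264) (nat_lit 304) (nat_lit 20288369754) (nat_lit 380) (nat_lit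 5526371221) (nat_lit 116) (nat_lit 5) (nat_lit 120) (nat_lit 5) (nat_lit 121) (nat_lit 5) (nat_lit 382) (nat_lit 337) (nat_lit 181)))) (XT.nd (nat_lit 78) (nat_lit 456) (nat_lit 0) (XT.lf (nat_lit 0) (nat_lit 14179224157) (nat_lit 304) (nat_lit 11136139217) (nat_lit 380) (nat_lit 1143063263) (nat_lit 116) (nat_lit 5) (nat_lit 120) (nat_lit 5) (nat_lit 121) (nat_lit 5) (nat_lit 383) (nat_lit 337) (nat_lit 180)) (XT.nd (nat_lit 78) (nat_lit 0) (nat_lit 0) (XT.lf (nat_lit 0) (nat_lit 1654550665) (nat_lit 380) (nat_lit 1661624474) (nat_lit 456) (nat_lit 23640188919) (nat_lit 110) (nat_lit 5) (nat_lit 115) (nat_lit 5) (nat_lit 116) (nat_lit 5) (nat_lit 384) (nat_lit 337) (nat_lit 179)) (XT.lf (nat_lit 0) (nat_lit 8083667862) (nat_lit 456) (nat_lit 11305672714) (nat_lit 76) (nat_lit 8073638808) (nat_lit 110) (nat_lit 5) (nat_lit 116) (nat_lit 5) (nat_lit 111) (nat_lit 5) (nat_lit 385) (nat_lit 337) (nat_lit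 178))))) (XT.nd (nat_lit 234) (nat_lit 684) (nat_lit 0) (XT.nd (nat_lit 78) (nat_lit 304) (nat_lit 0) (XT.lf (nat_lit 0) (nat_lit 3147750282) (nat_lit 304) (nat_lit 9887701738) (nat_lit 380) (nat_lit 14948105925) (nat_lit 106) (nat_lit 5) (nat_lit 110) (nat_lit 5) (nat_lit 111) (nat_lit 5) (nat_lit 386) (nat_lit 337) (nat_lit 177)) (XT.nd (nat_lit 78) (nat_lit 304) (nat_lit 0) (XT.lf (nat_lit 0) (nat_lit 18244736842) (nat_lit 380) (nat_lit 10257599730) (nat_lit 76) (nat_lit 14151567) (nat_lit 106) (nat_lit 5) (nat_lit 111) (nat_lit 5) (nat_lit 107) (nat_lit 5) (nat_lit 387) (nat_lit 337) (nat_lit 176)) (XT.lf (nat_lit 0) (nat_lit 4745232936) (nat_lit 304) (nat_lit 19003358683) (nat_lit 380) (nat_lit 5312668492) (nat_lit 102) (nat_lit 5) (nat_lit 106) (nat_lit 5) (nat_lit 107) (nat_lit 5) (nat_lit 388) (nat_lit 337) (nat_lit 175)))) (XT.nd (nat_lit 156) (nat_lit 304) (nat_lit 0) (XT.nd (nat_lit 78) (nat_lit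 380) (nat_lit 0) (XT.lf (nat_lit 0) (nat_lit 20401074011) (nat_lit 304) (nat_lit 9114930396) (nat_lit 380) (nat_lit 103420099) (nat_lit 102) (nat_lit 5) (nat_lit 106) (nat_lit 5) (nat_lit 107) (nat_lit 5) (nat_lit 389) (nat_lit 337) (nat_lit 174)) (XT.lf (nat_lit 0) (nat_lit 5227271514) (nat_lit 380) (nat_lit 23803188800) (nat_lit 76) (nat_lit 1160322983) (nat_lit 97) (nat_lit 5) (nat_lit 102) (nat_lit 5) (nat_lit 98) (nat_lit 5) (nat_lit 390) (nat_lit 337) (nat_lit 173))) (XT.nd (nat_lit 78) (nat_lit 304) (nat_lit 0) (XT.lf (nat_lit 0) (nat_lit 10895076385) (nat_lit 380) (nat_lit 8225292853) (nat_lit 76) (nat_lit 11653507083) (nat_lit 97) (nat_lit 5) (nat_lit 102) (nat_lit 5) (nat_lit 98) (nat_lit 5) (nat_lit 391) (nat_lit 337) (nat_lit 172)) (XT.lf (nat_lit 0) (nat_lit 7968348477) (nat_lit 304) (nat_lit 8836324139) (nat_lit 380) (nat_lit 14567639055) (nat_lit 93) (nat_lit 5) (nat_lit 97) (nat_lit 5)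 (nat_lit 98) (nat_lit 5) (nat_lit 392) (nat_lit 337) (nat_lit 171)))))) (XT.nd (nat_lit 468) (nat_lit 760) (nat_lit 0) (XT.nd (nat_lit 234) (nat_lit 532) (nat_lit 0) (XT.nd (nat_lit 78) (nat_lit 304) (nat_lit 0) (XT.lf (nat_lit 0) (nat_lit 22987533023) (nat_lit 380) (nat_lit 7194640061) (nat_lit 76) (nat_lit 1803649900) (nat_lit 93) (nat_lit 5) (nat_lit 98) (nat_lit 5) (nat_lit 94) (nat_lit 5) (nat_lit 393) (nat_lit 337) (nat_lit 170)) (XT.nd (nat_lit 78) (nat_lit 76) (nat_lit 0) (XT.lf (nat_lit 0) (nat_lit 9593754176) (nat_lit 228) (nat_lit 19937186408) (nat_lit 304) (nat_lit 3081549335) (nat_lit 90) (nat_lit 5) (nat_lit 93) (nat_lit 5) (nat_lit 94) (nat_lit 5) (nat_lit 394) (nat_lit 337) (nat_lit 169)) (XT.lf (nat_lit 0) (nat_lit 3022650114) (nat_lit 304) (nat_lit 6259128249) (nat_lit 76) (nat_lit 23973249356) (nat_lit 89) (nat_lit 5) (nat_lit 93) (nat_lit 5) (nat_lit 90) (nat_lit 5) (nat_lit 395) (nat_lit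 337) (nat_lit 168)))) (XT.nd (nat_lit 78) (nat_lit 228) (nat_lit 0) (XT.lf (nat_lit 0) (nat_lit 9368679826) (nat_lit 380) (nat_lit 22746209905) (nat_lit 76) (nat_lit 1797419342) (nat_lit 85) (nat_lit 5) (nat_lit 90) (nat_lit 5) (nat_lit 86) (nat_lit 5) (nat_lit 396) (nat_lit 337) (nat_lit 167)) (XT.nd (nat_lit 78) (nat_lit 228) (nat_lit 0) (XT.lf (nat_lit 0) (nat_lit 16056373501) (nat_lit 380) (nat_lit 5444347088) (nat_lit 76) (nat_lit 13084051674) (nat_lit 85) (nat_lit 5) (nat_lit 90) (nat_lit 5) (nat_lit 86) (nat_lit 5) (nat_lit 397) (nat_lit 337) (nat_lit 166)) (XT.lf (nat_lit 0) (nat_lit 12616157131) (nat_lit 228) (nat_lit 10445498146) (nat_lit 304) (nat_lit 12212247187) (nat_lit 82) (nat_lit 5) (nat_lit 85) (nat_lit 5) (nat_lit 86) (nat_lit 5) (nat_lit 398) (nat_lit 337) (nat_lit 165))))) (XT.nd (nat_lit 234) (nat_lit 456) (nat_lit 0) (XT.nd (nat_lit 78) (nat_lit 304) (nat_lit 0) (XT.lf (nat_lit 0)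 (nat_lit 30337390230) (nat_lit 304) (nat_lit 4668214349) (nat_lit 76) (nat_lit 976294930) (nat_lit 82) (nat_lit 5) (nat_lit 86) (nat_lit 5) (nat_lit 83) (nat_lit 5) (nat_lit 399) (nat_lit 337) (nat_lit 164)) (XT.nd (nat_lit 78) (nat_lit 0) (nat_lit 0) (XT.lf (nat_lit 0) (nat_lit 1334800780) (nat_lit 304) (nat_lit 22692396055) (nat_lit 76) (nat_lit 12676526238) (nat_lit 78) (nat_lit 5) (nat_lit 82) (nat_lit 5) (nat_lit 79) (nat_lit 5) (nat_lit 400) (nat_lit 337) (nat_lit 163)) (XT.lf (nat_lit 0) (nat_lit 8453513571) (nat_lit 304) (nat_lit 4161662713) (nat_lit 76) (nat_lit 24829045926) (nat_lit 78) (nat_lit 5) (nat_lit 82) (nat_lit 5) (nat_lit 79) (nat_lit 5) (nat_lit 401) (nat_lit 337) (nat_lit 162)))) (XT.nd (nat_lit 156) (nat_lit 228) (nat_lit 0) (XT.nd (nat_lit 78) (nat_lit 0) (nat_lit 0) (XT.lf (nat_lit 0) (nat_lit 15215621642) (nat_lit 228) (nat_lit 712414313) (nat_lit 304) (nat_lit 22274634502) (nat_lit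 75) (nat_lit 5) (nat_lit 78) (nat_lit 5) (nat_lit 79) (nat_lit 5) (nat_lit 402) (nat_lit 337) (nat_lit 161)) (XT.lf (nat_lit 0) (nat_lit 23776257379) (nat_lit 304) (nat_lit 3840813371) (nat_lit 76) (nat_lit 11362319037) (nat_lit 75) (nat_lit 5) (nat_lit 79) (nat_lit 5) (nat_lit 76) (nat_lit 5) (nat_lit 403) (nat_lit 337) (nat_lit 160))) (XT.nd (nat_lit 78) (nat_lit 0) (nat_lit 0) (XT.lf (nat_lit 0) (nat_lit 16182397004) (nat_lit 228) (nat_lit 15836274702) (nat_lit 304) (nat_lit 7755978093) (nat_lit 72) (nat_lit 5) (nat_lit 75) (nat_lit 5) (nat_lit 76) (nat_lit 5) (nat_lit 404) (nat_lit 337) (nat_lit 159)) (XT.lf (nat_lit 0) (nat_lit 36878961372) (nat_lit 228) (nat_lit 3664373428) (nat_lit 304) (nat_lit 49384967) (nat_lit 72) (nat_lit 5) (nat_lit 75) (nat_lit 5) (nat_lit 76) (nat_lit 5) (nat_lit 405) (nat_lit 337) (nat_lit 158))))))) (XT.nd (nat_lit 1014) (nat_lit 988) (nat_lit 0) (XT.nd (nat_lit 468) (nat_lit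 760) (nat_lit 0) (XT.nd (nat_lit 234) (nat_lit 228) (nat_lit 0) (XT.nd (nat_lit 78) (nat_lit 228) (nat_lit 0) (XT.lf (nat_lit 0) (nat_lit 7981899733) (nat_lit 304) (nat_lit 24504663492) (nat_lit 76) (nat_lit 8939072378) (nat_lit 68) (nat_lit 5) (nat_lit 72) (nat_lit 5) (nat_lit 69) (nat_lit 5) (nat_lit 406) (nat_lit 337) (nat_lit 157)) (XT.nd (nat_lit 78) (nat_lit 228) (nat_lit 0) (XT.lf (nat_lit 0) (nat_lit 16323579366) (nat_lit 304) (nat_lit 4074687902) (nat_lit 76) (nat_lit 21883144833) (nat_lit 68) (nat_lit 5) (nat_lit 72) (nat_lit 5) (nat_lit 69) (nat_lit 5) (nat_lit 407) (nat_lit 337) (nat_lit 156)) (XT.lf (nat_lit 0) (nat_lit 17299940236) (nat_lit 228) (nat_lit 7778269742) (nat_lit 304) (nat_lit 18079772182) (nat_lit 65) (nat_lit 5) (nat_lit 68) (nat_lit 5) (nat_lit 69) (nat_lit 5) (nat_lit 408) (nat_lit 337) (nat_lit 155)))) (XT.nd (nat_lit 78) (nat_lit 228) (nat_lit 0) (XT.lf (nat_lit 0) (nat_lit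 34183645095) (nat_lit 304) (nat_lit 4716728960) (nat_lit 76) (nat_lit 5157831548) (nat_lit 65) (nat_lit 5) (nat_lit 69) (nat_lit 5) (nat_lit 66) (nat_lit 5) (nat_lit 409) (nat_lit 337) (nat_lit 154)) (XT.nd (nat_lit 78) (nat_lit 76) (nat_lit 0) (XT.lf (nat_lit 0) (nat_lit 17313979622) (nat_lit 152) (nat_lit 26488243586) (nat_lit 228) (nat_lit 1176014355) (nat_lit 63) (nat_lit 5) (nat_lit 65) (nat_lit 5) (nat_lit 66) (nat_lit 5) (nat_lit 410) (nat_lit 337) (nat_lit 153)) (XT.lf (nat_lit 0) (nat_lit 7676252173) (nat_lit 228) (nat_lit 5903138437) (nat_lit 76) (nat_lit 32342896987) (nat_lit 62) (nat_lit 5) (nat_lit 65) (nat_lit 5) (nat_lit 63) (nat_lit 5) (nat_lit 411) (nat_lit 337) (nat_lit 152))))) (XT.nd (nat_lit 234) (nat_lit 380) (nat_lit 0) (XT.nd (nat_lit 78) (nat_lit 152) (nat_lit 0) (XT.lf (nat_lit 0) (nat_lit 16821889317) (nat_lit 228) (nat_lit 106910117) (nat_lit 304) (nat_lit 29960761013) (nat_lit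 59) (nat_lit 5) (nat_lit 62) (nat_lit 5) (nat_lit 63) (nat_lit 5) (nat_lit 412) (nat_lit 337) (nat_lit 151)) (XT.nd (nat_lit 78) (nat_lit 152) (nat_lit 0) (XT.lf (nat_lit 0) (nat_lit 26648157856) (nat_lit 304) (nat_lit 7672902531) (nat_lit 76) (nat_lit 13559115129) (nat_lit 59) (nat_lit 5) (nat_lit 63) (nat_lit 5) (nat_lit 60) (nat_lit 5) (nat_lit 413) (nat_lit 337) (nat_lit 150)) (XT.lf (nat_lit 0) (nat_lit 15693486675) (nat_lit 152) (nat_lit 21114292431) (nat_lit 228) (nat_lit 12088270514) (nat_lit 57) (nat_lit 5) (nat_lit 59) (nat_lit 5) (nat_lit 60) (nat_lit 5) (nat_lit 414) (nat_lit 337) (nat_lit 149)))) (XT.nd (nat_lit 156) (nat_lit 152) (nat_lit 0) (XT.nd (nat_lit 78) (nat_lit 228) (nat_lit 0) (XT.lf (nat_lit 0) (nat_lit 39912807098) (nat_lit 152) (nat_lit 7433674061) (nat_lit 228) (nat_lit 2593691039) (nat_lit 57) (nat_lit 5) (nat_lit 59) (nat_lit 5) (nat_lit 60) (nat_lit 5) (nat_lit 415) (nat_lit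 337) (nat_lit 148)) (XT.lf (nat_lit 0) (nat_lit 7243361037) (nat_lit 228) (nat_lit 37032800495) (nat_lit 76) (nat_lit 6731450031) (nat_lit 54) (nat_lit 5) (nat_lit 57) (nat_lit 5) (nat_lit 55) (nat_lit 5) (nat_lit 416) (nat_lit 337) (nat_lit 147))) (XT.nd (nat_lit 78) (nat_lit 152) (nat_lit 0) (XT.lf (nat_lit 0) (nat_lit 17496146953) (nat_lit 228) (nat_lit 13306992678) (nat_lit 76) (nat_lit 21297982417) (nat_lit 54) (nat_lit 5) (nat_lit 57) (nat_lit 5) (nat_lit 55) (nat_lit 5) (nat_lit 417) (nat_lit 337) (nat_lit 146)) (XT.lf (nat_lit 0) (nat_lit 11346885094) (nat_lit 152) (nat_lit 16815687947) (nat_lit 228) (nat_lit 25061684011) (nat_lit 52) (nat_lit 5) (nat_lit 54) (nat_lit 5) (nat_lit 55) (nat_lit 5) (nat_lit 418) (nat_lit 337) (nat_lit 145)))))) (XT.nd (nat_lit 468) (nat_lit 608) (nat_lit 0) (XT.nd (nat_lit 234) (nat_lit 152) (nat_lit 0) (XT.nd (nat_lit 78) (nat_lit 228) (nat_lit 0) (XT.lf (nat_lit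 0) (nat_lit 37008086851) (nat_lit 152) (nat_lit 2272302090) (nat_lit 228) (nat_lit 15096756129) (nat_lit 52) (nat_lit 5) (nat_lit 54) (nat_lit 5) (nat_lit 55) (nat_lit 5) (nat_lit 419) (nat_lit 337) (nat_lit 144)) (XT.nd (nat_lit 78) (nat_lit 76) (nat_lit 0) (XT.lf (nat_lit 0) (nat_lit 7901548516) (nat_lit 152) (nat_lit 43025386148) (nat_lit 228) (nat_lit 4631830054) (nat_lit 50) (nat_lit 5) (nat_lit 52) (nat_lit 5) (nat_lit 53) (nat_lit 5) (nat_lit 420) (nat_lit 337) (nat_lit 143)) (XT.lf (nat_lit 0) (nat_lit 6223818528) (nat_lit 228) (nat_lit 22572575327) (nat_lit 76) (nat_lit 27971765456) (nat_lit 49) (nat_lit 5) (nat_lit 52) (nat_lit 5) (nat_lit 50) (nat_lit 5) (nat_lit 421) (nat_lit 337) (nat_lit 142)))) (XT.nd (nat_lit 78) (nat_lit 0) (nat_lit 0) (XT.lf (nat_lit 0) (nat_lit 3277850914) (nat_lit 152) (nat_lit 14062881352) (nat_lit 228) (nat_lit 40670867737) (nat_lit 47) (nat_lit 5) (nat_lit 49) (nat_lit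 5) (nat_lit 50) (nat_lit 5) (nat_lit 422) (nat_lit 337) (nat_lit 141)) (XT.nd (nat_lit 78) (nat_lit 0) (nat_lit 0) (XT.lf (nat_lit 0) (nat_lit 29029242873) (nat_lit 228) (nat_lit 28936826253) (nat_lit 76) (nat_lit 1319132861) (nat_lit 47) (nat_lit 5) (nat_lit 50) (nat_lit 5) (nat_lit 48) (nat_lit 5) (nat_lit 423) (nat_lit 337) (nat_lit 140)) (XT.lf (nat_lit 0) (nat_lit 41204925385) (nat_lit 228) (nat_lit 2509964165) (nat_lit 76) (nat_lit 16878027715) (nat_lit 47) (nat_lit 5) (nat_lit 50) (nat_lit 5) (nat_lit 48) (nat_lit 5) (nat_lit 424) (nat_lit 337) (nat_lit 139))))) (XT.nd (nat_lit 234) (nat_lit 228) (nat_lit 0) (XT.nd (nat_lit 78) (nat_lit 228) (nat_lit 0) (XT.lf (nat_lit 0) (nat_lit 25196789746) (nat_lit 152) (nat_lit 28788654940) (nat_lit 228) (nat_lit 7947233038) (nat_lit 45) (nat_lit 5) (nat_lit 47) (nat_lit 5) (nat_lit 48) (nat_lit 5) (nat_lit 425) (nat_lit 337) (nat_lit 138)) (XT.nd (nat_lit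 78) (nat_lit 152) (nat_lit 0) (XT.lf (nat_lit 0) (nat_lit 3784842497) (nat_lit 228) (nat_lit 9567406879) (nat_lit 76) (nat_lit 49958586976) (nat_lit 44) (nat_lit 5) (nat_lit 47) (nat_lit 5) (nat_lit 45) (nat_lit 5) (nat_lit 426) (nat_lit 337) (nat_lit 137)) (XT.lf (nat_lit 0) (nat_lit 15913352555) (nat_lit 228) (nat_lit 46051853290) (nat_lit 76) (nat_lit 2756647866) (nat_lit 42) (nat_lit 5) (nat_lit 45) (nat_lit 5) (nat_lit 43) (nat_lit 5) (nat_lit 427) (nat_lit 337) (nat_lit 136)))) (XT.nd (nat_lit 156) (nat_lit 76) (nat_lit 0) (XT.nd (nat_lit 78) (nat_lit 152) (nat_lit 0) (XT.lf (nat_lit 0) (nat_lit 28632943471) (nat_lit 228) (nat_lit 18359290368) (nat_lit 76) (nat_lit 19176151619) (nat_lit 42) (nat_lit 5) (nat_lit 45) (nat_lit 5) (nat_lit 43) (nat_lit 5) (nat_lit 428) (nat_lit 337) (nat_lit 135)) (XT.lf (nat_lit 0) (nat_lit 10361895403) (nat_lit 152) (nat_lit 31469362134) (nat_lit 228) (nat_lit 25824142172)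 (nat_lit 40) (nat_lit 5) (nat_lit 42) (nat_lit 5) (nat_lit 43) (nat_lit 5) (nat_lit 429) (nat_lit 337) (nat_lit 134))) (XT.nd (nat_lit 78) (nat_lit 76) (nat_lit 0) (XT.lf (nat_lit 0) (nat_lit 40316754929) (nat_lit 152) (nat_lit 15291719978) (nat_lit 228) (nat_lit 13573061460) (nat_lit 40) (nat_lit 5) (nat_lit 42) (nat_lit 5) (nat_lit 43) (nat_lit 5) (nat_lit 430) (nat_lit 337) (nat_lit 133)) (XT.lf (nat_lit 0) (nat_lit 407332409) (nat_lit 76) (nat_lit 69406387855) (nat_lit 152) (nat_lit 939296095) (nat_lit 39) (nat_lit 5) (nat_lit 40) (nat_lit 5) (nat_lit 41) (nat_lit 4) (nat_lit 431) (nat_lit 337) (nat_lit 132))))))))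
noncomputable def xc193 : XT := (XT.nd (nat_lit 41340) (nat_lit 0) (nat_lit 5320) (XT.nd (nat_lit 40326) (nat_lit 0) (nat_lit 12160) (XT.nd (nat_lit 39780) (nat_lit 0) (nat_lit 14516) (XT.nd (nat_lit 39546) (nat_lit 0) (nat_lit 14440) (XT.nd (nat_lit 78) (nat_lit 152) (nat_lit 0) (XT.lf (nat_lit 0) (nat_lit 12281271775) (nat_lit 152) (nat_lit 41488178097) (nat_lit 76) (nat_lit 18585408093) (nat_lit 38) (nat_lit 5) (nat_lit 40) (nat_lit 5) (nat_lit 39) (nat_lit 5) (nat_lit 432) (nat_lit 337) (nat_lit 131)) (XT.nd (nat_lit 78) (nat_lit 152) (nat_lit 0) (XT.lf (nat_lit 0) (nat_lit 25877266973) (nat_lit 152) (nat_lit 11778367697) (nat_lit 76) (nat_lit 36348911004) (nat_lit 38) (nat_lit 5) (nat_lit 40) (nat_lit 5) (nat_lit 39) (nat_lit 5) (nat_lit 433) (nat_lit 337) (nat_lit 130)) (XT.lf (nat_lit 0) (nat_lit 19193266119) (nat_lit 152) (nat_lit 20870129840) (nat_lit 228) (nat_lit 35634860952) (nat_lit 36) (nat_lit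 5) (nat_lit 38) (nat_lit 5) (nat_lit 39) (nat_lit 5) (nat_lit 434) (nat_lit 337) (nat_lit 129)))) (XT.nd (nat_lit 78) (nat_lit 0) (nat_lit 0) (XT.lf (nat_lit 0) (nat_lit 636031357) (nat_lit 0) (nat_lit 636031357) (nat_lit 1140) (nat_lit 5138805811) (nat_lit 226) (nat_lit 5) (nat_lit 226) (nat_lit 3) (nat_lit 241) (nat_lit 3) (nat_lit 338) (nat_lit 338) (nat_lit 224)) (XT.nd (nat_lit 78) (nat_lit 0) (nat_lit 0) (XT.lf (nat_lit 0) (nat_lit 3026855890) (nat_lit 1140) (nat_lit 5574416903) (nat_lit 1216) (nat_lit 4399141815) (nat_lit 226) (nat_lit 5) (nat_lit 241) (nat_lit 3) (nat_lit 242) (nat_lit 5) (nat_lit 339) (nat_lit 338) (nat_lit 223)) (XT.lf (nat_lit 76) (nat_lit 570240006) (nat_lit 0) (nat_lit 2956312666) (nat_lit 1216) (nat_lit 9657837443) (nat_lit 227) (nat_lit 5) (nat_lit 226) (nat_lit 5) (nat_lit 242) (nat_lit 5) (nat_lit 340) (nat_lit 338) (nat_lit 222))))) (XT.nd (nat_lit 234) (nat_lit 0) (nat_lit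 76) (XT.nd (nat_lit 78) (nat_lit 0) (nat_lit 0) (XT.lf (nat_lit 0) (nat_lit 4110410083) (nat_lit 1140) (nat_lit 6395563082) (nat_lit 1216) (nat_lit 2865848433) (nat_lit 227) (nat_lit 5) (nat_lit 242) (nat_lit 5) (nat_lit 243) (nat_lit 5) (nat_lit 341) (nat_lit 338) (nat_lit 221)) (XT.nd (nat_lit 78) (nat_lit 0) (nat_lit 76) (XT.lf (nat_lit 0) (nat_lit 4726343834) (nat_lit 1140) (nat_lit 28274763) (nat_lit 1216) (nat_lit 8809832065) (nat_lit 227) (nat_lit 5) (nat_lit 242) (nat_lit 5) (nat_lit 243) (nat_lit 5) (nat_lit 342) (nat_lit 338) (nat_lit 220)) (XT.lf (nat_lit 0) (nat_lit 5422342441) (nat_lit 1140) (nat_lit 7121819096) (nat_lit 1216) (nat_lit 1216860579) (nat_lit 228) (nat_lit 5) (nat_lit 243) (nat_lit 5) (nat_lit 244) (nat_lit 5) (nat_lit 343) (nat_lit 338) (nat_lit 219)))) (XT.nd (nat_lit 156) (nat_lit 0) (nat_lit 76) (XT.nd (nat_lit 78) (nat_lit 0) (nat_lit 0) (XT.lf (nat_lit 0) (nat_lit 6172694741)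 (nat_lit 1140) (nat_lit 512013608) (nat_lit 1216) (nat_lit 7277788953) (nat_lit 228) (nat_lit 5) (nat_lit 243) (nat_lit 5) (nat_lit 244) (nat_lit 5) (nat_lit 344) (nat_lit 338) (nat_lit 218)) (XT.lf (nat_lit 76) (nat_lit 6412738225) (nat_lit 0) (nat_lit 580977070) (nat_lit 1216) (nat_lit 7174867201) (nat_lit 229) (nat_lit 5) (nat_lit 228) (nat_lit 5) (nat_lit 244) (nat_lit 5) (nat_lit 345) (nat_lit 338) (nat_lit 217))) (XT.nd (nat_lit 78) (nat_lit 0) (nat_lit 0) (XT.lf (nat_lit 0) (nat_lit 7886308705) (nat_lit 1140) (nat_lit 888717749) (nat_lit 1216) (nat_lit 5604425706) (nat_lit 229) (nat_lit 5) (nat_lit 244) (nat_lit 5) (nat_lit 245) (nat_lit 5) (nat_lit 346) (nat_lit 338) (nat_lit 216)) (XT.lf (nat_lit 76) (nat_lit 6292873220) (nat_lit 0) (nat_lit 2566304684) (nat_lit 1216) (nat_lit 5735874952) (nat_lit 230) (nat_lit 5) (nat_lit 229) (nat_lit 5) (nat_lit 245) (nat_lit 5) (nat_lit 347) (nat_lit 338)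 (nat_lit 215)))))) (XT.nd (nat_lit 468) (nat_lit 1520) (nat_lit 0) (XT.nd (nat_lit 234) (nat_lit 1064) (nat_lit 0) (XT.nd (nat_lit 78) (nat_lit 0) (nat_lit 0) (XT.lf (nat_lit 0) (nat_lit 9894682093) (nat_lit 1140) (nat_lit 1154545712) (nat_lit 1216) (nat_lit 3766899895) (nat_lit 230) (nat_lit 5) (nat_lit 245) (nat_lit 5) (nat_lit 246) (nat_lit 5) (nat_lit 348) (nat_lit 338) (nat_lit 214)) (XT.nd (nat_lit 78) (nat_lit 0) (nat_lit 76) (XT.lf (nat_lit 76) (nat_lit 6296301229) (nat_lit 0) (nat_lit 4738826867) (nat_lit 1216) (nat_lit 4006499708) (nat_lit 231) (nat_lit 5) (nat_lit 230) (nat_lit 5) (nat_lit 246) (nat_lit 5) (nat_lit 349) (nat_lit 338) (nat_lit 213)) (XT.lf (nat_lit 0) (nat_lit 12226731510) (nat_lit 1140) (nat_lit 1305223666) (nat_lit 1216) (nat_lit 1741438460) (nat_lit 231) (nat_lit 5) (nat_lit 246) (nat_lit 5) (nat_lit 247) (nat_lit 5) (nat_lit 350) (nat_lit 338) (nat_lit 212)))) (XT.nd (nat_lit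 78) (nat_lit 1140) (nat_lit 0) (XT.lf (nat_lit 76) (nat_lit 6427876804) (nat_lit 0) (nat_lit 7123499648) (nat_lit 1216) (nat_lit 1957825967) (nat_lit 232) (nat_lit 5) (nat_lit 231) (nat_lit 5) (nat_lit 247) (nat_lit 5) (nat_lit 351) (nat_lit 338) (nat_lit 211)) (XT.nd (nat_lit 78) (nat_lit 1140) (nat_lit 0) (XT.lf (nat_lit 76) (nat_lit 14411094083) (nat_lit 0) (nat_lit 506682004) (nat_lit 1216) (nat_lit 834257445) (nat_lit 232) (nat_lit 5) (nat_lit 231) (nat_lit 5) (nat_lit 247) (nat_lit 5) (nat_lit 352) (nat_lit 338) (nat_lit 210)) (XT.lf (nat_lit 0) (nat_lit 431999634) (nat_lit 1216) (nat_lit 9310087973) (nat_lit 1292) (nat_lit 6256518312) (nat_lit 216) (nat_lit 5) (nat_lit 232) (nat_lit 5) (nat_lit 233) (nat_lit 5) (nat_lit 353) (nat_lit 338) (nat_lit 209))))) (XT.nd (nat_lit 234) (nat_lit 1520) (nat_lit 0) (XT.nd (nat_lit 78) (nat_lit 0) (nat_lit 76) (XT.lf (nat_lit 0) (nat_lit 1727471419) (nat_lit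 1216) (nat_lit 1288105665) (nat_lit 1292) (nat_lit 13236518554) (nat_lit 216) (nat_lit 5) (nat_lit 232) (nat_lit 5) (nat_lit 233) (nat_lit 5) (nat_lit 354) (nat_lit 338) (nat_lit 208)) (XT.nd (nat_lit 78) (nat_lit 0) (nat_lit 0) (XT.lf (nat_lit 0) (nat_lit 3158020167) (nat_lit 1216) (nat_lit 9445207800) (nat_lit 76) (nat_lit 3907083272) (nat_lit 217) (nat_lit 5) (nat_lit 233) (nat_lit 5) (nat_lit 218) (nat_lit 5) (nat_lit 355) (nat_lit 338) (nat_lit 207)) (XT.lf (nat_lit 0) (nat_lit 4664329629) (nat_lit 1216) (nat_lit 1119413207) (nat_lit 76) (nat_lit 10991552498) (nat_lit 217) (nat_lit 5) (nat_lit 233) (nat_lit 5) (nat_lit 218) (nat_lit 5) (nat_lit 356) (nat_lit 338) (nat_lit 206)))) (XT.nd (nat_lit 156) (nat_lit 608) (nat_lit 0) (XT.nd (nat_lit 78) (nat_lit 0) (nat_lit 0) (XT.lf (nat_lit 0) (nat_lit 6291647907) (nat_lit 1064) (nat_lit 9463222674) (nat_lit 76) (nat_lit 1291090924) (nat_lit 204) (nat_lit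 5) (nat_lit 218) (nat_lit 5) (nat_lit 205) (nat_lit 5) (nat_lit 357) (nat_lit 338) (nat_lit 205)) (XT.lf (nat_lit 0) (nat_lit 8026828869) (nat_lit 1064) (nat_lit 821705758) (nat_lit 76) (nat_lit 8474448672) (nat_lit 204) (nat_lit 5) (nat_lit 218) (nat_lit 5) (nat_lit 205) (nat_lit 5) (nat_lit 358) (nat_lit 338) (nat_lit 204))) (XT.nd (nat_lit 78) (nat_lit 0) (nat_lit 0) (XT.lf (nat_lit 0) (nat_lit 8231109414) (nat_lit 608) (nat_lit 1652721564) (nat_lit 684) (nat_lit 7722398527) (nat_lit 196) (nat_lit 5) (nat_lit 204) (nat_lit 5) (nat_lit 205) (nat_lit 5) (nat_lit 359) (nat_lit 338) (nat_lit 203)) (XT.lf (nat_lit 0) (nat_lit 11851122451) (nat_lit 684) (nat_lit 389581767) (nat_lit 76) (nat_lit 5655638034) (nat_lit 196) (nat_lit 5) (nat_lit 205) (nat_lit 5) (nat_lit 197) (nat_lit 5) (nat_lit 360) (nat_lit 338) (nat_lit 202))))))) (XT.nd (nat_lit 1014) (nat_lit 3116) (nat_lit 0) (XT.nd (nat_lit 468) (nat_lit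 1444) (nat_lit 0) (XT.nd (nat_lit 234) (nat_lit 1140) (nat_lit 0) (XT.nd (nat_lit 78) (nat_lit 608) (nat_lit 0) (XT.lf (nat_lit 0) (nat_lit 9016590781) (nat_lit 532) (nat_lit 4954986052) (nat_lit 608) (nat_lit 4220763567) (nat_lit 189) (nat_lit 5) (nat_lit 196) (nat_lit 5) (nat_lit 197) (nat_lit 5) (nat_lit 361) (nat_lit 338) (nat_lit 201)) (XT.nd (nat_lit 78) (nat_lit 0) (nat_lit 0) (XT.lf (nat_lit 0) (nat_lit 186222177) (nat_lit 608) (nat_lit 15990979460) (nat_lit 684) (nat_lit 2319376310) (nat_lit 181) (nat_lit 5) (nat_lit 189) (nat_lit 5) (nat_lit 190) (nat_lit 5) (nat_lit 362) (nat_lit 338) (nat_lit 200)) (XT.lf (nat_lit 0) (nat_lit 9958495314) (nat_lit 608) (nat_lit 8623194443) (nat_lit 684) (nat_lit 224278006) (nat_lit 181) (nat_lit 5) (nat_lit 189) (nat_lit 5) (nat_lit 190) (nat_lit 5) (nat_lit 363) (nat_lit 338) (nat_lit 199)))) (XT.nd (nat_lit 78) (nat_lit 532) (nat_lit 0) (XT.lf (nat_lit 0)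 (nat_lit 889530158) (nat_lit 532) (nat_lit 1006581034) (nat_lit 608) (nat_lit 17227970961) (nat_lit 173) (nat_lit 5) (nat_lit 180) (nat_lit 5) (nat_lit 181) (nat_lit 5) (nat_lit 364) (nat_lit 338) (nat_lit 198)) (XT.nd (nat_lit 78) (nat_lit 532) (nat_lit 0) (XT.lf (nat_lit 0) (nat_lit 4223347842) (nat_lit 608) (nat_lit 8426597154) (nat_lit 76) (nat_lit 6797301528) (nat_lit 173) (nat_lit 5) (nat_lit 181) (nat_lit 5) (nat_lit 174) (nat_lit 5) (nat_lit 365) (nat_lit 338) (nat_lit 197)) (XT.lf (nat_lit 0) (nat_lit 1690161313) (nat_lit 532) (nat_lit 4948473389) (nat_lit 608) (nat_lit 13140929442) (nat_lit 166) (nat_lit 5) (nat_lit 173) (nat_lit 5) (nat_lit 174) (nat_lit 5) (nat_lit 366) (nat_lit 338) (nat_lit 196))))) (XT.nd (nat_lit 234) (nat_lit 988) (nat_lit 0) (XT.nd (nat_lit 78) (nat_lit 456) (nat_lit 0) (XT.lf (nat_lit 0) (nat_lit 9233166123) (nat_lit 608) (nat_lit 7874267927) (nat_lit 76) (nat_lit 3011218823)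 (nat_lit 166) (nat_lit 5) (nat_lit 174) (nat_lit 5) (nat_lit 167) (nat_lit 5) (nat_lit 367) (nat_lit 338) (nat_lit 195)) (XT.nd (nat_lit 78) (nat_lit 0) (nat_lit 0) (XT.lf (nat_lit 0) (nat_lit 2641520384) (nat_lit 456) (nat_lit 9330794853) (nat_lit 532) (nat_lit 8493600581) (nat_lit 160) (nat_lit 5) (nat_lit 166) (nat_lit 5) (nat_lit 167) (nat_lit 5) (nat_lit 368) (nat_lit 338) (nat_lit 194)) (XT.lf (nat_lit 0) (nat_lit 13625927564) (nat_lit 456) (nat_lit 1239762996) (nat_lit 532) (nat_lit 5955749401) (nat_lit 160) (nat_lit 5) (nat_lit 166) (nat_lit 5) (nat_lit 167) (nat_lit 5) (nat_lit 369) (nat_lit 338) (nat_lit 193)))) (XT.nd (nat_lit 156) (nat_lit 532) (nat_lit 0) (XT.nd (nat_lit 78) (nat_lit 0) (nat_lit 0) (XT.lf (nat_lit 0) (nat_lit 3748957678) (nat_lit 456) (nat_lit 14193885513) (nat_lit 532) (nat_lit 3241882078) (nat_lit 154) (nat_lit 5) (nat_lit 160) (nat_lit 5) (nat_lit 161) (nat_lit 5) (nat_lit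 370) (nat_lit 338) (nat_lit 192)) (XT.lf (nat_lit 0) (nat_lit 15148581194) (nat_lit 456) (nat_lit 6041424010) (nat_lit 532) (nat_lit 366577668) (nat_lit 154) (nat_lit 5) (nat_lit 160) (nat_lit 5) (nat_lit 161) (nat_lit 5) (nat_lit 371) (nat_lit 338) (nat_lit 191))) (XT.nd (nat_lit 78) (nat_lit 0) (nat_lit 0) (XT.lf (nat_lit 0) (nat_lit 2608931738) (nat_lit 532) (nat_lit 16945518752) (nat_lit 76) (nat_lit 2382464195) (nat_lit 147) (nat_lit 5) (nat_lit 154) (nat_lit 5) (nat_lit 148) (nat_lit 5) (nat_lit 372) (nat_lit 338) (nat_lit 190)) (XT.lf (nat_lit 0) (nat_lit 5784633678) (nat_lit 532) (nat_lit 5534856265) (nat_lit 76) (nat_lit 11005512965) (nat_lit 147) (nat_lit 5) (nat_lit 154) (nat_lit 5) (nat_lit 148) (nat_lit 5) (nat_lit 373) (nat_lit 338) (nat_lit 189)))))) (XT.nd (nat_lit 546) (nat_lit 1444) (nat_lit 0) (XT.nd (nat_lit 234) (nat_lit 836) (nat_lit 0) (XT.nd (nat_lit 78) (nat_lit 380) (nat_lit 0)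 (XT.lf (nat_lit 0) (nat_lit 6333771222) (nat_lit 456) (nat_lit 2776049723) (nat_lit 532) (nat_lit 13613290476) (nat_lit 141) (nat_lit 5) (nat_lit 147) (nat_lit 5) (nat_lit 148) (nat_lit 5) (nat_lit 374) (nat_lit 338) (nat_lit 188)) (XT.nd (nat_lit 78) (nat_lit 380) (nat_lit 0) (XT.lf (nat_lit 0) (nat_lit 12642547927) (nat_lit 532) (nat_lit 4526086022) (nat_lit 76) (nat_lit 5961299671) (nat_lit 141) (nat_lit 5) (nat_lit 148) (nat_lit 5) (nat_lit 142) (nat_lit 5) (nat_lit 375) (nat_lit 338) (nat_lit 187)) (XT.lf (nat_lit 0) (nat_lit 7810159804) (nat_lit 380) (nat_lit 8567285862) (nat_lit 456) (nat_lit 7168632987) (nat_lit 136) (nat_lit 5) (nat_lit 141) (nat_lit 5) (nat_lit 142) (nat_lit 5) (nat_lit 376) (nat_lit 338) (nat_lit 186)))) (XT.nd (nat_lit 156) (nat_lit 380) (nat_lit 0) (XT.nd (nat_lit 78) (nat_lit 456) (nat_lit 0) (XT.lf (nat_lit 0) (nat_lit 20267079446) (nat_lit 456) (nat_lit 3375249214) (nat_lit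 76) (nat_lit 331102431) (nat_lit 136) (nat_lit 5) (nat_lit 142) (nat_lit 5) (nat_lit 137) (nat_lit 5) (nat_lit 377) (nat_lit 338) (nat_lit 185)) (XT.lf (nat_lit 0) (nat_lit 33761492) (nat_lit 456) (nat_lit 14960764452) (nat_lit 76) (nat_lit 9413985278) (nat_lit 130) (nat_lit 5) (nat_lit 136) (nat_lit 5) (nat_lit 131) (nat_lit 5) (nat_lit 378) (nat_lit 338) (nat_lit 184))) (XT.nd (nat_lit 78) (nat_lit 380) (nat_lit 0) (XT.lf (nat_lit 0) (nat_lit 3839953290) (nat_lit 456) (nat_lit 2175776164) (nat_lit 76) (nat_lit 18838965735) (nat_lit 130) (nat_lit 5) (nat_lit 136) (nat_lit 5) (nat_lit 131) (nat_lit 5) (nat_lit 379) (nat_lit 338) (nat_lit 183)) (XT.lf (nat_lit 0) (nat_lit 7894276624) (nat_lit 456) (nat_lit 14139463577) (nat_lit 76) (nat_lit 3276509413) (nat_lit 125) (nat_lit 5) (nat_lit 131) (nat_lit 5) (nat_lit 126) (nat_lit 5) (nat_lit 380) (nat_lit 338) (nat_lit 182))))) (XT.nd (nat_lit 234) (nat_lit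 760) (nat_lit 0) (XT.nd (nat_lit 78) (nat_lit 684) (nat_lit 0) (XT.lf (nat_lit 0) (nat_lit 12146188151) (nat_lit 456) (nat_lit 883848439) (nat_lit 76) (nat_lit 12747158540) (nat_lit 125) (nat_lit 5) (nat_lit 131) (nat_lit 5) (nat_lit 126) (nat_lit 5) (nat_lit 381) (nat_lit 338) (nat_lit 181)) (XT.nd (nat_lit 78) (nat_lit 304) (nat_lit 0) (XT.lf (nat_lit 0) (nat_lit 13016042427) (nat_lit 380) (nat_lit 3629109659) (nat_lit 456) (nat_lit 9609415196) (nat_lit 120) (nat_lit 5) (nat_lit 125) (nat_lit 5) (nat_lit 126) (nat_lit 5) (nat_lit 382) (nat_lit 338) (nat_lit 180)) (XT.lf (nat_lit 0) (nat_lit 550044912) (nat_lit 304) (nat_lit 20795987453) (nat_lit 380) (nat_lit 5398222839) (nat_lit 116) (nat_lit 5) (nat_lit 120) (nat_lit 5) (nat_lit 121) (nat_lit 5) (nat_lit 383) (nat_lit 338) (nat_lit 179)))) (XT.nd (nat_lit 156) (nat_lit 304) (nat_lit 0) (XT.nd (nat_lit 78) (nat_lit 456) (nat_lit 0) (XT.lf (nat_lit 0)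 (nat_lit 14979612803) (nat_lit 304) (nat_lit 11372132721) (nat_lit 380) (nat_lit 891976987) (nat_lit 116) (nat_lit 5) (nat_lit 120) (nat_lit 5) (nat_lit 121) (nat_lit 5) (nat_lit 384) (nat_lit 338) (nat_lit 178)) (XT.lf (nat_lit 0) (nat_lit 2081180198) (nat_lit 380) (nat_lit 1609763711) (nat_lit 456) (nat_lit 24065711847) (nat_lit 110) (nat_lit 5) (nat_lit 115) (nat_lit 5) (nat_lit 116) (nat_lit 5) (nat_lit 385) (nat_lit 338) (nat_lit 177))) (XT.nd (nat_lit 78) (nat_lit 304) (nat_lit 0) (XT.lf (nat_lit 0) (nat_lit 8594392665) (nat_lit 456) (nat_lit 11271624894) (nat_lit 76) (nat_lit 8412668146) (nat_lit 110) (nat_lit 5) (nat_lit 116) (nat_lit 5) (nat_lit 111) (nat_lit 5) (nat_lit 386) (nat_lit 338) (nat_lit 176)) (XT.lf (nat_lit 0) (nat_lit 3611741793) (nat_lit 304) (nat_lit 10078728902) (nat_lit 380) (nat_lit 15124542696) (nat_lit 106) (nat_lit 5) (nat_lit 110) (nat_lit 5) (nat_lit 111) (nat_lit 5) (nat_lit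 387) (nat_lit 338) (nat_lit 175))))))))
noncomputable def xc194 : XT := (XT.nd (nat_lit 2028) (nat_lit 1596) (nat_lit 0) (XT.nd (nat_lit 1014) (nat_lit 1748) (nat_lit 0) (XT.nd (nat_lit 468) (nat_lit 836) (nat_lit 0) (XT.nd (nat_lit 234) (nat_lit 608) (nat_lit 0) (XT.nd (nat_lit 78) (nat_lit 380) (nat_lit 0) (XT.lf (nat_lit 0) (nat_lit 19049331611) (nat_lit 380) (nat_lit 10199701347) (nat_lit 76) (nat_lit 115103469) (nat_lit 106) (nat_lit 5) (nat_lit 111) (nat_lit 5) (nat_lit 107) (nat_lit 5) (nat_lit 388) (nat_lit 338) (nat_lit 174)) (XT.nd (nat_lit 78) (nat_lit 76) (nat_lit 0) (XT.lf (nat_lit 0) (nat_lit 5249631726) (nat_lit 304) (nat_lit 19464657676) (nat_lit 380) (nat_lit 5211086285) (nat_lit 102) (nat_lit 5) (nat_lit 106) (nat_lit 5) (nat_lit 107) (nat_lit 5) (nat_lit 389) (nat_lit 338) (nat_lit 173)) (XT.lf (nat_lit 0) (nat_lit 143973363) (nat_lit 380) (nat_lit 9137318312) (nat_lit 76) (nat_lit 21219175915)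 (nat_lit 101) (nat_lit 5) (nat_lit 106) (nat_lit 5) (nat_lit 102) (nat_lit 5) (nat_lit 390) (nat_lit 338) (nat_lit 172)))) (XT.nd (nat_lit 78) (nat_lit 304) (nat_lit 0) (XT.lf (nat_lit 0) (nat_lit 5629708329) (nat_lit 380) (nat_lit 24157812555) (nat_lit 76) (nat_lit 1301502936) (nat_lit 97) (nat_lit 5) (nat_lit 102) (nat_lit 5) (nat_lit 98) (nat_lit 5) (nat_lit 391) (nat_lit 338) (nat_lit 171)) (XT.nd (nat_lit 78) (nat_lit 304) (nat_lit 0) (XT.lf (nat_lit 0) (nat_lit 11460393404) (nat_lit 380) (nat_lit 8123049785) (nat_lit 76) (nat_lit 12106384396) (nat_lit 97) (nat_lit 5) (nat_lit 102) (nat_lit 5) (nat_lit 98) (nat_lit 5) (nat_lit 392) (nat_lit 338) (nat_lit 170)) (XT.lf (nat_lit 0) (nat_lit 8552979199) (nat_lit 304) (nat_lit 8990674679) (nat_lit 380) (nat_lit 14762674064) (nat_lit 93) (nat_lit 5) (nat_lit 97) (nat_lit 5) (nat_lit 98) (nat_lit 5) (nat_lit 393) (nat_lit 338) (nat_lit 169))))) (XT.nd (nat_lit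 234) (nat_lit 532) (nat_lit 0) (XT.nd (nat_lit 78) (nat_lit 304) (nat_lit 0) (XT.lf (nat_lit 0) (nat_lit 23906193552) (nat_lit 380) (nat_lit 7069053190) (nat_lit 76) (nat_lit 1963175188) (nat_lit 93) (nat_lit 5) (nat_lit 98) (nat_lit 5) (nat_lit 94) (nat_lit 5) (nat_lit 394) (nat_lit 338) (nat_lit 168)) (XT.nd (nat_lit 78) (nat_lit 76) (nat_lit 0) (XT.lf (nat_lit 0) (nat_lit 10219645560) (nat_lit 228) (nat_lit 20422836692) (nat_lit 304) (nat_lit 2941512305) (nat_lit 90) (nat_lit 5) (nat_lit 93) (nat_lit 5) (nat_lit 94) (nat_lit 5) (nat_lit 395) (nat_lit 338) (nat_lit 167)) (XT.lf (nat_lit 0) (nat_lit 3334637306) (nat_lit 304) (nat_lit 6114170014) (nat_lit 76) (nat_lit 24797136178) (nat_lit 89) (nat_lit 5) (nat_lit 93) (nat_lit 5) (nat_lit 90) (nat_lit 5) (nat_lit 396) (nat_lit 338) (nat_lit 166)))) (XT.nd (nat_lit 156) (nat_lit 228) (nat_lit 0) (XT.nd (nat_lit 78) (nat_lit 0) (nat_lit 0) (XT.lf (nat_lit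 0) (nat_lit 9868840362) (nat_lit 380) (nat_lit 23093563540) (nat_lit 76) (nat_lit 1960608407) (nat_lit 85) (nat_lit 5) (nat_lit 90) (nat_lit 5) (nat_lit 86) (nat_lit 5) (nat_lit 397) (nat_lit 338) (nat_lit 165)) (XT.lf (nat_lit 0) (nat_lit 16750783290) (nat_lit 380) (nat_lit 5282403072) (nat_lit 76) (nat_lit 13582657190) (nat_lit 85) (nat_lit 5) (nat_lit 90) (nat_lit 5) (nat_lit 86) (nat_lit 5) (nat_lit 398) (nat_lit 338) (nat_lit 164))) (XT.nd (nat_lit 78) (nat_lit 0) (nat_lit 0) (XT.lf (nat_lit 0) (nat_lit 13316727309) (nat_lit 228) (nat_lit 10646396606) (nat_lit 304) (nat_lit 12362619363) (nat_lit 82) (nat_lit 5) (nat_lit 85) (nat_lit 5) (nat_lit 86) (nat_lit 5) (nat_lit 399) (nat_lit 338) (nat_lit 163)) (XT.lf (nat_lit 0) (nat_lit 31452075117) (nat_lit 304) (nat_lit 4490415510) (nat_lit 76) (nat_lit 1112643834) (nat_lit 82) (nat_lit 5) (nat_lit 86) (nat_lit 5) (nat_lit 83) (nat_lit 5) (nat_lit 400)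 (nat_lit 338) (nat_lit 162)))))) (XT.nd (nat_lit 468) (nat_lit 912) (nat_lit 0) (XT.nd (nat_lit 234) (nat_lit 304) (nat_lit 0) (XT.nd (nat_lit 78) (nat_lit 228) (nat_lit 0) (XT.lf (nat_lit 0) (nat_lit 1578552586) (nat_lit 304) (nat_lit 23054304365) (nat_lit 76) (nat_lit 13165786331) (nat_lit 78) (nat_lit 5) (nat_lit 82) (nat_lit 5) (nat_lit 79) (nat_lit 5) (nat_lit 401) (nat_lit 338) (nat_lit 161)) (XT.nd (nat_lit 78) (nat_lit 228) (nat_lit 0) (XT.lf (nat_lit 0) (nat_lit 8904893525) (nat_lit 304) (nat_lit 3976936311) (nat_lit 76) (nat_lit 25679707893) (nat_lit 78) (nat_lit 5) (nat_lit 82) (nat_lit 5) (nat_lit 79) (nat_lit 5) (nat_lit 402) (nat_lit 338) (nat_lit 160)) (XT.lf (nat_lit 0) (nat_lit 15978631514) (nat_lit 228) (nat_lit 622206306) (nat_lit 304) (nat_lit 22741988287) (nat_lit 75) (nat_lit 5) (nat_lit 78) (nat_lit 5) (nat_lit 79) (nat_lit 5) (nat_lit 403) (nat_lit 338) (nat_lit 159)))) (XT.nd (nat_lit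 78) (nat_lit 304) (nat_lit 0) (XT.lf (nat_lit 0) (nat_lit 24679868755) (nat_lit 304) (nat_lit 3653714366) (nat_lit 76) (nat_lit 11809405211) (nat_lit 75) (nat_lit 5) (nat_lit 79) (nat_lit 5) (nat_lit 76) (nat_lit 5) (nat_lit 404) (nat_lit 338) (nat_lit 158)) (XT.nd (nat_lit 78) (nat_lit 76) (nat_lit 0) (XT.lf (nat_lit 0) (nat_lit 16967228365) (nat_lit 228) (nat_lit 16199661364) (nat_lit 304) (nat_lit 7795298526) (nat_lit 72) (nat_lit 5) (nat_lit 75) (nat_lit 5) (nat_lit 76) (nat_lit 5) (nat_lit 405) (nat_lit 338) (nat_lit 157)) (XT.lf (nat_lit 0) (nat_lit 134189937) (nat_lit 304) (nat_lit 3530311504) (nat_lit 76) (nat_lit 38140425464) (nat_lit 71) (nat_lit 5) (nat_lit 75) (nat_lit 5) (nat_lit 72) (nat_lit 5) (nat_lit 406) (nat_lit 338) (nat_lit 156))))) (XT.nd (nat_lit 234) (nat_lit 456) (nat_lit 0) (XT.nd (nat_lit 78) (nat_lit 228) (nat_lit 0) (XT.lf (nat_lit 0) (nat_lit 8403918631) (nat_lit 304) (nat_lit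 24943865504) (nat_lit 76) (nat_lit 9315078429) (nat_lit 68) (nat_lit 5) (nat_lit 72) (nat_lit 5) (nat_lit 69) (nat_lit 5) (nat_lit 407) (nat_lit 338) (nat_lit 155)) (XT.nd (nat_lit 78) (nat_lit 228) (nat_lit 0) (XT.lf (nat_lit 0) (nat_lit 16990531316) (nat_lit 304) (nat_lit 3909610197) (nat_lit 76) (nat_lit 22644332265) (nat_lit 68) (nat_lit 5) (nat_lit 72) (nat_lit 5) (nat_lit 69) (nat_lit 5) (nat_lit 408) (nat_lit 338) (nat_lit 154)) (XT.lf (nat_lit 0) (nat_lit 18103439939) (nat_lit 228) (nat_lit 7901933246) (nat_lit 304) (nat_lit 18442042428) (nat_lit 65) (nat_lit 5) (nat_lit 68) (nat_lit 5) (nat_lit 69) (nat_lit 5) (nat_lit 409) (nat_lit 338) (nat_lit 153)))) (XT.nd (nat_lit 156) (nat_lit 304) (nat_lit 0) (XT.nd (nat_lit 78) (nat_lit 152) (nat_lit 0) (XT.lf (nat_lit 0) (nat_lit 35379903247) (nat_lit 304) (nat_lit 4577887963) (nat_lit 76) (nat_lit 5416978384) (nat_lit 65) (nat_lit 5) (nat_lit 69) (nat_lit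 5) (nat_lit 66) (nat_lit 5) (nat_lit 410) (nat_lit 338) (nat_lit 152)) (XT.lf (nat_lit 0) (nat_lit 18110993417) (nat_lit 152) (nat_lit 27173740427) (nat_lit 228) (nat_lit 1037739553) (nat_lit 63) (nat_lit 5) (nat_lit 65) (nat_lit 5) (nat_lit 66) (nat_lit 5) (nat_lit 411) (nat_lit 338) (nat_lit 151))) (XT.nd (nat_lit 78) (nat_lit 228) (nat_lit 0) (XT.lf (nat_lit 0) (nat_lit 8071751918) (nat_lit 228) (nat_lit 5807380765) (nat_lit 76) (nat_lit 33415812531) (nat_lit 62) (nat_lit 5) (nat_lit 65) (nat_lit 5) (nat_lit 63) (nat_lit 5) (nat_lit 412) (nat_lit 338) (nat_lit 150)) (XT.lf (nat_lit 0) (nat_lit 17596722803) (nat_lit 228) (nat_lit 2937893) (nat_lit 304) (nat_lit 30691643592) (nat_lit 59) (nat_lit 5) (nat_lit 62) (nat_lit 5) (nat_lit 63) (nat_lit 5) (nat_lit 413) (nat_lit 338) (nat_lit 149))))))) (XT.nd (nat_lit 1014) (nat_lit 532) (nat_lit 0) (XT.nd (nat_lit 468) (nat_lit 532) (nat_lit 0) (XT.nd (nat_lit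 234) (nat_lit 380) (nat_lit 0) (XT.nd (nat_lit 78) (nat_lit 152) (nat_lit 0) (XT.lf (nat_lit 0) (nat_lit 27606852645) (nat_lit 304) (nat_lit 7636983292) (nat_lit 76) (nat_lit 14067915834) (nat_lit 59) (nat_lit 5) (nat_lit 63) (nat_lit 5) (nat_lit 60) (nat_lit 5) (nat_lit 414) (nat_lit 338) (nat_lit 148)) (XT.nd (nat_lit 78) (nat_lit 0) (nat_lit 0) (XT.lf (nat_lit 0) (nat_lit 16427788705) (nat_lit 152) (nat_lit 21641368375) (nat_lit 228) (nat_lit 12289009683) (nat_lit 57) (nat_lit 5) (nat_lit 59) (nat_lit 5) (nat_lit 60) (nat_lit 5) (nat_lit 415) (nat_lit 338) (nat_lit 147)) (XT.lf (nat_lit 0) (nat_lit 41366014058) (nat_lit 152) (nat_lit 7553429109) (nat_lit 228) (nat_lit 2514308618) (nat_lit 57) (nat_lit 5) (nat_lit 59) (nat_lit 5) (nat_lit 60) (nat_lit 5) (nat_lit 416) (nat_lit 338) (nat_lit 146)))) (XT.nd (nat_lit 78) (nat_lit 152) (nat_lit 0) (XT.lf (nat_lit 0) (nat_lit 7613765748) (nat_lit 228) (nat_lit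 37883779587) (nat_lit 76) (nat_lit 7035655694) (nat_lit 54) (nat_lit 5) (nat_lit 57) (nat_lit 5) (nat_lit 55) (nat_lit 5) (nat_lit 417) (nat_lit 338) (nat_lit 145)) (XT.nd (nat_lit 78) (nat_lit 152) (nat_lit 0) (XT.lf (nat_lit 0) (nat_lit 18169675905) (nat_lit 228) (nat_lit 13453770495) (nat_lit 76) (nat_lit 22036205542) (nat_lit 54) (nat_lit 5) (nat_lit 57) (nat_lit 5) (nat_lit 55) (nat_lit 5) (nat_lit 418) (nat_lit 338) (nat_lit 144)) (XT.lf (nat_lit 0) (nat_lit 11937248787) (nat_lit 152) (nat_lit 17216919276) (nat_lit 228) (nat_lit 25662372027) (nat_lit 52) (nat_lit 5) (nat_lit 54) (nat_lit 5) (nat_lit 55) (nat_lit 5) (nat_lit 419) (nat_lit 338) (nat_lit 143))))) (XT.nd (nat_lit 234) (nat_lit 304) (nat_lit 0) (XT.nd (nat_lit 78) (nat_lit 228) (nat_lit 0) (XT.lf (nat_lit 0) (nat_lit 38361006292) (nat_lit 152) (nat_lit 2240238814) (nat_lit 228) (nat_lit 15402899100) (nat_lit 52) (nat_lit 5) (nat_lit 54)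 (nat_lit 5) (nat_lit 55) (nat_lit 5) (nat_lit 420) (nat_lit 338) (nat_lit 142)) (XT.nd (nat_lit 78) (nat_lit 76) (nat_lit 0) (XT.lf (nat_lit 0) (nat_lit 8382211484) (nat_lit 152) (nat_lit 44214104069) (nat_lit 228) (nat_lit 4624924259) (nat_lit 50) (nat_lit 5) (nat_lit 52) (nat_lit 5) (nat_lit 53) (nat_lit 5) (nat_lit 421) (nat_lit 338) (nat_lit 141)) (XT.lf (nat_lit 0) (nat_lit 6549382045) (nat_lit 228) (nat_lit 23010430007) (nat_lit 76) (nat_lit 28907188242) (nat_lit 49) (nat_lit 5) (nat_lit 52) (nat_lit 5) (nat_lit 50) (nat_lit 5) (nat_lit 422) (nat_lit 338) (nat_lit 140)))) (XT.nd (nat_lit 156) (nat_lit 152) (nat_lit 0) (XT.nd (nat_lit 78) (nat_lit 0) (nat_lit 0) (XT.lf (nat_lit 0) (nat_lit 3613162721) (nat_lit 152) (nat_lit 14384874290) (nat_lit 228) (nat_lit 41749761297) (nat_lit 47) (nat_lit 5) (nat_lit 49) (nat_lit 5) (nat_lit 50) (nat_lit 5) (nat_lit 423) (nat_lit 338) (nat_lit 139)) (XT.lf (nat_lit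 0) (nat_lit 30034142503) (nat_lit 228) (nat_lit 29571760422) (nat_lit 76) (nat_lit 1453798323) (nat_lit 47) (nat_lit 5) (nat_lit 50) (nat_lit 5) (nat_lit 48) (nat_lit 5) (nat_lit 424) (nat_lit 338) (nat_lit 138))) (XT.nd (nat_lit 78) (nat_lit 152) (nat_lit 0) (XT.lf (nat_lit 0) (nat_lit 42571191927) (nat_lit 228) (nat_lit 2358883849) (nat_lit 76) (nat_lit 17476690368) (nat_lit 47) (nat_lit 5) (nat_lit 50) (nat_lit 5) (nat_lit 48) (nat_lit 5) (nat_lit 425) (nat_lit 338) (nat_lit 137)) (XT.lf (nat_lit 0) (nat_lit 26176853276) (nat_lit 152) (nat_lit 29556638426) (nat_lit 228) (nat_lit 8053277790) (nat_lit 45) (nat_lit 5) (nat_lit 47) (nat_lit 5) (nat_lit 48) (nat_lit 5) (nat_lit 426) (nat_lit 338) (nat_lit 136)))))) (XT.nd (nat_lit 546) (nat_lit 0) (nat_lit 0) (XT.nd (nat_lit 234) (nat_lit 304) (nat_lit 0) (XT.nd (nat_lit 78) (nat_lit 152) (nat_lit 0) (XT.lf (nat_lit 0) (nat_lit 4024396684) (nat_lit 228)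 (nat_lit 9634258252) (nat_lit 76) (nat_lit 51547694140) (nat_lit 44) (nat_lit 5) (nat_lit 47) (nat_lit 5) (nat_lit 45) (nat_lit 5) (nat_lit 427) (nat_lit 338) (nat_lit 135)) (XT.nd (nat_lit 78) (nat_lit 0) (nat_lit 0) (XT.lf (nat_lit 0) (nat_lit 16516087077) (nat_lit 228) (nat_lit 47212531925) (nat_lit 76) (nat_lit 2931099139) (nat_lit 42) (nat_lit 5) (nat_lit 45) (nat_lit 5) (nat_lit 43) (nat_lit 5) (nat_lit 428) (nat_lit 338) (nat_lit 134)) (XT.lf (nat_lit 0) (nat_lit 29613615217) (nat_lit 228) (nat_lit 18695625425) (nat_lit 76) (nat_lit 19840515621) (nat_lit 42) (nat_lit 5) (nat_lit 45) (nat_lit 5) (nat_lit 43) (nat_lit 5) (nat_lit 429) (nat_lit 338) (nat_lit 133)))) (XT.nd (nat_lit 156) (nat_lit 152) (nat_lit 0) (XT.nd (nat_lit 78) (nat_lit 0) (nat_lit 0) (XT.lf (nat_lit 0) (nat_lit 10885093531) (nat_lit 152) (nat_lit 32321282150) (nat_lit 228) (nat_lit 26475051232) (nat_lit 40) (nat_lit 5) (nat_lit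 42) (nat_lit 5) (nat_lit 43) (nat_lit 5) (nat_lit 430) (nat_lit 338) (nat_lit 132)) (XT.lf (nat_lit 0) (nat_lit 41732414145) (nat_lit 152) (nat_lit 15660995026) (nat_lit 228) (nat_lit 13860044367) (nat_lit 40) (nat_lit 5) (nat_lit 42) (nat_lit 5) (nat_lit 43) (nat_lit 5) (nat_lit 431) (nat_lit 338) (nat_lit 131))) (XT.nd (nat_lit 78) (nat_lit 76) (nat_lit 0) (XT.lf (nat_lit 0) (nat_lit 626330458) (nat_lit 76) (nat_lit 71397905713) (nat_lit 152) (nat_lit 847859861) (nat_lit 39) (nat_lit 5) (nat_lit 40) (nat_lit 5) (nat_lit 41) (nat_lit 4) (nat_lit 432) (nat_lit 338) (nat_lit 130)) (XT.lf (nat_lit 0) (nat_lit 12763574972) (nat_lit 152) (nat_lit 42529775789) (nat_lit 76) (nat_lit 19228710893) (nat_lit 38) (nat_lit 5) (nat_lit 40) (nat_lit 5) (nat_lit 39) (nat_lit 5) (nat_lit 433) (nat_lit 338) (nat_lit 129))))) (XT.nd (nat_lit 39624) (nat_lit 0) (nat_lit 14288) (XT.nd (nat_lit 39468) (nat_lit 0) (nat_lit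 14288) (XT.lf (nat_lit 0) (nat_lit 26764133569) (nat_lit 152) (nat_lit 11934585086) (nat_lit 76) (nat_lit 37522621594) (nat_lit 38) (nat_lit 5) (nat_lit 40) (nat_lit 5) (nat_lit 39) (nat_lit 5) (nat_lit 434) (nat_lit 338) (nat_lit 128)) (XT.nd (nat_lit 78) (nat_lit 0) (nat_lit 0) (XT.lf (nat_lit 0) (nat_lit 853902725) (nat_lit 0) (nat_lit 853902725) (nat_lit 1140) (nat_lit 4883153258) (nat_lit 226) (nat_lit 5) (nat_lit 226) (nat_lit 3) (nat_lit 241) (nat_lit 3) (nat_lit 339) (nat_lit 339) (nat_lit 222)) (XT.lf (nat_lit 0) (nat_lit 3885952751) (nat_lit 1140) (nat_lit 5328179130) (nat_lit 1216) (nat_lit 4152647506) (nat_lit 226) (nat_lit 5) (nat_lit 241) (nat_lit 3) (nat_lit 242) (nat_lit 5) (nat_lit 340) (nat_lit 339) (nat_lit 221)))) (XT.nd (nat_lit 156) (nat_lit 0) (nat_lit 76) (XT.nd (nat_lit 78) (nat_lit 0) (nat_lit 76) (XT.lf (nat_lit 76) (nat_lit 996763856) (nat_lit 0) (nat_lit 3385434730) (nat_lit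 1216) (nat_lit 9174646273) (nat_lit 227) (nat_lit 5) (nat_lit 226) (nat_lit 5) (nat_lit 242) (nat_lit 5) (nat_lit 341) (nat_lit 339) (nat_lit 220)) (XT.lf (nat_lit 0) (nat_lit 4958554314) (nat_lit 1140) (nat_lit 6164356132) (nat_lit 1216) (nat_lit 2627756297) (nat_lit 227) (nat_lit 5) (nat_lit 242) (nat_lit 5) (nat_lit 243) (nat_lit 5) (nat_lit 342) (nat_lit 339) (nat_lit 219))) (XT.nd (nat_lit 78) (nat_lit 0) (nat_lit 76) (XT.lf (nat_lit 76) (nat_lit 389223448) (nat_lit 0) (nat_lit 5186372474) (nat_lit 1216) (nat_lit 8374016306) (nat_lit 228) (nat_lit 5) (nat_lit 227) (nat_lit 5) (nat_lit 243) (nat_lit 5) (nat_lit 343) (nat_lit 339) (nat_lit 218)) (XT.lf (nat_lit 0) (nat_lit 6269450545) (nat_lit 1140) (nat_lit 6904907742) (nat_lit 1216) (nat_lit 978429221) (nat_lit 228) (nat_lit 5) (nat_lit 243) (nat_lit 5) (nat_lit 244) (nat_lit 5) (nat_lit 344) (nat_lit 339) (nat_lit 217))))))))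
noncomputable def xc195 : XT := (XT.nd (nat_lit 2028) (nat_lit 5396) (nat_lit 0) (XT.nd (nat_lit 1014) (nat_lit 4256) (nat_lit 0) (XT.nd (nat_lit 468) (nat_lit 912) (nat_lit 0) (XT.nd (nat_lit 234) (nat_lit 0) (nat_lit 76) (XT.nd (nat_lit 78) (nat_lit 0) (nat_lit 0) (XT.lf (nat_lit 0) (nat_lit 7022378333) (nat_lit 1140) (nat_lit 109348844) (nat_lit 1216) (nat_lit 7229193324) (nat_lit 228) (nat_lit 5) (nat_lit 243) (nat_lit 5) (nat_lit 244) (nat_lit 5) (nat_lit 345) (nat_lit 339) (nat_lit 216)) (XT.nd (nat_lit 78) (nat_lit 0) (nat_lit 76) (XT.lf (nat_lit 76) (nat_lit 7019047258) (nat_lit 0) (nat_lit 833606715) (nat_lit 1216) (nat_lit 6721010592) (nat_lit 229) (nat_lit 5) (nat_lit 228) (nat_lit 5) (nat_lit 244) (nat_lit 5) (nat_lit 346) (nat_lit 339) (nat_lit 215)) (XT.lf (nat_lit 0) (nat_lit 8750923528) (nat_lit 1140) (nat_lit 491919882) (nat_lit 1216) (nat_lit 5548664567) (nat_lit 229) (nat_lit 5) (nat_lit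 244) (nat_lit 5) (nat_lit 245) (nat_lit 5) (nat_lit 347) (nat_lit 339) (nat_lit 214)))) (XT.nd (nat_lit 78) (nat_lit 0) (nat_lit 76) (XT.lf (nat_lit 76) (nat_lit 6900967254) (nat_lit 0) (nat_lit 2837750186) (nat_lit 1216) (nat_lit 5275301279) (nat_lit 230) (nat_lit 5) (nat_lit 229) (nat_lit 5) (nat_lit 245) (nat_lit 5) (nat_lit 348) (nat_lit 339) (nat_lit 213)) (XT.nd (nat_lit 78) (nat_lit 0) (nat_lit 0) (XT.lf (nat_lit 0) (nat_lit 10785595338) (nat_lit 1140) (nat_lit 761936653) (nat_lit 1216) (nat_lit 3694798331) (nat_lit 230) (nat_lit 5) (nat_lit 245) (nat_lit 5) (nat_lit 246) (nat_lit 5) (nat_lit 349) (nat_lit 339) (nat_lit 212)) (XT.lf (nat_lit 76) (nat_lit 6908247016) (nat_lit 0) (nat_lit 5038771295) (nat_lit 1216) (nat_lit 3527987580) (nat_lit 231) (nat_lit 5) (nat_lit 230) (nat_lit 5) (nat_lit 246) (nat_lit 5) (nat_lit 350) (nat_lit 339) (nat_lit 211))))) (XT.nd (nat_lit 234) (nat_lit 1140) (nat_lit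 0) (XT.nd (nat_lit 78) (nat_lit 0) (nat_lit 0) (XT.lf (nat_lit 0) (nat_lit 13155979764) (nat_lit 1140) (nat_lit 914822928) (nat_lit 1216) (nat_lit 1643486688) (nat_lit 231) (nat_lit 5) (nat_lit 246) (nat_lit 5) (nat_lit 247) (nat_lit 5) (nat_lit 351) (nat_lit 339) (nat_lit 210)) (XT.nd (nat_lit 78) (nat_lit 0) (nat_lit 0) (XT.lf (nat_lit 76) (nat_lit 7046059209) (nat_lit 0) (nat_lit 7462011601) (nat_lit 1216) (nat_lit 1449483017) (nat_lit 232) (nat_lit 5) (nat_lit 231) (nat_lit 5) (nat_lit 247) (nat_lit 5) (nat_lit 352) (nat_lit 339) (nat_lit 209)) (XT.lf (nat_lit 76) (nat_lit 15256384284) (nat_lit 0) (nat_lit 643054274) (nat_lit 1216) (nat_lit 308724266) (nat_lit 232) (nat_lit 5) (nat_lit 231) (nat_lit 5) (nat_lit 247) (nat_lit 5) (nat_lit 353) (nat_lit 339) (nat_lit 208)))) (XT.nd (nat_lit 156) (nat_lit 0) (nat_lit 76) (XT.nd (nat_lit 78) (nat_lit 0) (nat_lit 0) (XT.lf (nat_lit 0) (nat_lit 972050958)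 (nat_lit 1216) (nat_lit 9152183281) (nat_lit 1292) (nat_lit 6338132691) (nat_lit 216) (nat_lit 5) (nat_lit 232) (nat_lit 5) (nat_lit 233) (nat_lit 5) (nat_lit 354) (nat_lit 339) (nat_lit 207)) (XT.lf (nat_lit 0) (nat_lit 2291034722) (nat_lit 1216) (nat_lit 902275697) (nat_lit 1292) (nat_lit 13530622684) (nat_lit 216) (nat_lit 5) (nat_lit 232) (nat_lit 5) (nat_lit 233) (nat_lit 5) (nat_lit 355) (nat_lit 339) (nat_lit 206))) (XT.nd (nat_lit 78) (nat_lit 0) (nat_lit 0) (XT.lf (nat_lit 0) (nat_lit 3752860782) (nat_lit 1216) (nat_lit 9292089387) (nat_lit 76) (nat_lit 3945305048) (nat_lit 217) (nat_lit 5) (nat_lit 233) (nat_lit 5) (nat_lit 218) (nat_lit 5) (nat_lit 356) (nat_lit 339) (nat_lit 205)) (XT.lf (nat_lit 0) (nat_lit 5289793508) (nat_lit 1216) (nat_lit 729233809) (nat_lit 76) (nat_lit 11244609052) (nat_lit 217) (nat_lit 5) (nat_lit 233) (nat_lit 5) (nat_lit 218) (nat_lit 5) (nat_lit 357) (nat_lit 339)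 (nat_lit 204)))))) (XT.nd (nat_lit 468) (nat_lit 1596) (nat_lit 0) (XT.nd (nat_lit 234) (nat_lit 1140) (nat_lit 0) (XT.nd (nat_lit 78) (nat_lit 608) (nat_lit 0) (XT.lf (nat_lit 0) (nat_lit 6955286529) (nat_lit 1064) (nat_lit 9312371196) (nat_lit 76) (nat_lit 1275094392) (nat_lit 204) (nat_lit 5) (nat_lit 218) (nat_lit 5) (nat_lit 205) (nat_lit 5) (nat_lit 358) (nat_lit 339) (nat_lit 203)) (XT.nd (nat_lit 78) (nat_lit 608) (nat_lit 0) (XT.lf (nat_lit 0) (nat_lit 8728691196) (nat_lit 1064) (nat_lit 424271340) (nat_lit 76) (nat_lit 8675546928) (nat_lit 204) (nat_lit 5) (nat_lit 218) (nat_lit 5) (nat_lit 205) (nat_lit 5) (nat_lit 359) (nat_lit 339) (nat_lit 202)) (XT.lf (nat_lit 0) (nat_lit 8895990192) (nat_lit 608) (nat_lit 1736001884) (nat_lit 684) (nat_lit 7488552977) (nat_lit 196) (nat_lit 5) (nat_lit 204) (nat_lit 5) (nat_lit 205) (nat_lit 5) (nat_lit 360) (nat_lit 339) (nat_lit 201)))) (XT.nd (nat_lit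 78) (nat_lit 608) (nat_lit 0) (XT.lf (nat_lit 0) (nat_lit 18650806) (nat_lit 532) (nat_lit 12626361530) (nat_lit 608) (nat_lit 5774756922) (nat_lit 189) (nat_lit 5) (nat_lit 196) (nat_lit 5) (nat_lit 197) (nat_lit 5) (nat_lit 361) (nat_lit 339) (nat_lit 200)) (XT.nd (nat_lit 78) (nat_lit 608) (nat_lit 0) (XT.lf (nat_lit 0) (nat_lit 9702531292) (nat_lit 532) (nat_lit 5117600830) (nat_lit 608) (nat_lit 3904792780) (nat_lit 189) (nat_lit 5) (nat_lit 196) (nat_lit 5) (nat_lit 197) (nat_lit 5) (nat_lit 362) (nat_lit 339) (nat_lit 199)) (XT.lf (nat_lit 0) (nat_lit 616368025) (nat_lit 608) (nat_lit 16467001407) (nat_lit 684) (nat_lit 1955185669) (nat_lit 181) (nat_lit 5) (nat_lit 189) (nat_lit 5) (nat_lit 190) (nat_lit 5) (nat_lit 363) (nat_lit 339) (nat_lit 198))))) (XT.nd (nat_lit 234) (nat_lit 988) (nat_lit 0) (XT.nd (nat_lit 78) (nat_lit 532) (nat_lit 0) (XT.lf (nat_lit 0) (nat_lit 186421300) (nat_lit 684)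 (nat_lit 8689987033) (nat_lit 76) (nat_lit 10481139765) (nat_lit 180) (nat_lit 5) (nat_lit 189) (nat_lit 5) (nat_lit 181) (nat_lit 5) (nat_lit 364) (nat_lit 339) (nat_lit 197)) (XT.nd (nat_lit 78) (nat_lit 0) (nat_lit 0) (XT.lf (nat_lit 0) (nat_lit 1332780675) (nat_lit 532) (nat_lit 1025111214) (nat_lit 608) (nat_lit 17327496178) (nat_lit 173) (nat_lit 5) (nat_lit 180) (nat_lit 5) (nat_lit 181) (nat_lit 5) (nat_lit 365) (nat_lit 339) (nat_lit 196)) (XT.lf (nat_lit 0) (nat_lit 4743261398) (nat_lit 608) (nat_lit 8263017388) (nat_lit 76) (nat_lit 7012326963) (nat_lit 173) (nat_lit 5) (nat_lit 181) (nat_lit 5) (nat_lit 174) (nat_lit 5) (nat_lit 366) (nat_lit 339) (nat_lit 195)))) (XT.nd (nat_lit 156) (nat_lit 456) (nat_lit 0) (XT.nd (nat_lit 78) (nat_lit 0) (nat_lit 0) (XT.lf (nat_lit 0) (nat_lit 2153161698) (nat_lit 532) (nat_lit 5070355594) (nat_lit 608) (nat_lit 13137607918) (nat_lit 166) (nat_lit 5) (nat_lit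 173) (nat_lit 5) (nat_lit 174) (nat_lit 5) (nat_lit 367) (nat_lit 339) (nat_lit 194)) (XT.lf (nat_lit 0) (nat_lit 9884897975) (nat_lit 608) (nat_lit 7698975598) (nat_lit 76) (nat_lit 3126850030) (nat_lit 166) (nat_lit 5) (nat_lit 174) (nat_lit 5) (nat_lit 167) (nat_lit 5) (nat_lit 368) (nat_lit 339) (nat_lit 193))) (XT.nd (nat_lit 78) (nat_lit 0) (nat_lit 0) (XT.lf (nat_lit 0) (nat_lit 3128251849) (nat_lit 456) (nat_lit 9570972052) (nat_lit 532) (nat_lit 8369397653) (nat_lit 160) (nat_lit 5) (nat_lit 166) (nat_lit 5) (nat_lit 167) (nat_lit 5) (nat_lit 369) (nat_lit 339) (nat_lit 192)) (XT.lf (nat_lit 0) (nat_lit 14430322724) (nat_lit 456) (nat_lit 1238366909) (nat_lit 532) (nat_lit 5766450092) (nat_lit 160) (nat_lit 5) (nat_lit 166) (nat_lit 5) (nat_lit 167) (nat_lit 5) (nat_lit 370) (nat_lit 339) (nat_lit 191))))))) (XT.nd (nat_lit 1014) (nat_lit 2356) (nat_lit 0) (XT.nd (nat_lit 468) (nat_lit 1596) (nat_lit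 0) (XT.nd (nat_lit 234) (nat_lit 456) (nat_lit 0) (XT.nd (nat_lit 78) (nat_lit 532) (nat_lit 0) (XT.lf (nat_lit 0) (nat_lit 4263633982) (nat_lit 456) (nat_lit 14568350377) (nat_lit 532) (nat_lit 2977531180) (nat_lit 154) (nat_lit 5) (nat_lit 160) (nat_lit 5) (nat_lit 161) (nat_lit 5) (nat_lit 371) (nat_lit 339) (nat_lit 190)) (XT.nd (nat_lit 78) (nat_lit 532) (nat_lit 0) (XT.lf (nat_lit 0) (nat_lit 15993531421) (nat_lit 456) (nat_lit 6172810710) (nat_lit 532) (nat_lit 26499891) (nat_lit 154) (nat_lit 5) (nat_lit 160) (nat_lit 5) (nat_lit 161) (nat_lit 5) (nat_lit 372) (nat_lit 339) (nat_lit 189)) (XT.lf (nat_lit 0) (nat_lit 3025717388) (nat_lit 532) (nat_lit 17050414618) (nat_lit 76) (nat_lit 2508527939) (nat_lit 147) (nat_lit 5) (nat_lit 154) (nat_lit 5) (nat_lit 148) (nat_lit 5) (nat_lit 373) (nat_lit 339) (nat_lit 188)))) (XT.nd (nat_lit 78) (nat_lit 456) (nat_lit 0) (XT.lf (nat_lit 0) (nat_lit 6286830647)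 (nat_lit 532) (nat_lit 5309183802) (nat_lit 76) (nat_lit 11388678178) (nat_lit 147) (nat_lit 5) (nat_lit 154) (nat_lit 5) (nat_lit 148) (nat_lit 5) (nat_lit 374) (nat_lit 339) (nat_lit 187)) (XT.nd (nat_lit 78) (nat_lit 0) (nat_lit 0) (XT.lf (nat_lit 0) (nat_lit 6911662136) (nat_lit 456) (nat_lit 2794267353) (nat_lit 532) (nat_lit 13688996071) (nat_lit 141) (nat_lit 5) (nat_lit 147) (nat_lit 5) (nat_lit 148) (nat_lit 5) (nat_lit 375) (nat_lit 339) (nat_lit 186)) (XT.lf (nat_lit 0) (nat_lit 13335843150) (nat_lit 532) (nat_lit 4276303994) (nat_lit 76) (nat_lit 6202074808) (nat_lit 141) (nat_lit 5) (nat_lit 148) (nat_lit 5) (nat_lit 142) (nat_lit 5) (nat_lit 376) (nat_lit 339) (nat_lit 185))))) (XT.nd (nat_lit 234) (nat_lit 760) (nat_lit 0) (XT.nd (nat_lit 78) (nat_lit 456) (nat_lit 0) (XT.lf (nat_lit 0) (nat_lit 8426249162) (nat_lit 380) (nat_lit 8751062429) (nat_lit 456) (nat_lit 7065709542) (nat_lit 136)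 (nat_lit 5) (nat_lit 141) (nat_lit 5) (nat_lit 142) (nat_lit 5) (nat_lit 377) (nat_lit 339) (nat_lit 184)) (XT.nd (nat_lit 78) (nat_lit 456) (nat_lit 0) (XT.lf (nat_lit 0) (nat_lit 21175331248) (nat_lit 456) (nat_lit 3097360674) (nat_lit 76) (nat_lit 410756664) (nat_lit 136) (nat_lit 5) (nat_lit 142) (nat_lit 5) (nat_lit 137) (nat_lit 5) (nat_lit 378) (nat_lit 339) (nat_lit 183)) (XT.lf (nat_lit 0) (nat_lit 332969273) (nat_lit 456) (nat_lit 15028055798) (nat_lit 76) (nat_lit 9770627614) (nat_lit 130) (nat_lit 5) (nat_lit 136) (nat_lit 5) (nat_lit 131) (nat_lit 5) (nat_lit 379) (nat_lit 339) (nat_lit 182)))) (XT.nd (nat_lit 156) (nat_lit 380) (nat_lit 0) (XT.nd (nat_lit 78) (nat_lit 380) (nat_lit 0) (XT.lf (nat_lit 0) (nat_lit 4244661537) (nat_lit 456) (nat_lit 1870630433) (nat_lit 76) (nat_lit 19476195656) (nat_lit 130) (nat_lit 5) (nat_lit 136) (nat_lit 5) (nat_lit 131) (nat_lit 5) (nat_lit 380) (nat_lit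 339) (nat_lit 181)) (XT.lf (nat_lit 0) (nat_lit 8416498043) (nat_lit 456) (nat_lit 14188953561) (nat_lit 76) (nat_lit 3455385327) (nat_lit 125) (nat_lit 5) (nat_lit 131) (nat_lit 5) (nat_lit 126) (nat_lit 5) (nat_lit 381) (nat_lit 339) (nat_lit 180))) (XT.nd (nat_lit 78) (nat_lit 380) (nat_lit 0) (XT.lf (nat_lit 0) (nat_lit 12787654494) (nat_lit 456) (nat_lit 546583384) (nat_lit 76) (nat_lit 13207806919) (nat_lit 125) (nat_lit 5) (nat_lit 131) (nat_lit 5) (nat_lit 126) (nat_lit 5) (nat_lit 382) (nat_lit 339) (nat_lit 179)) (XT.lf (nat_lit 0) (nat_lit 13766737732) (nat_lit 380) (nat_lit 3650241901) (nat_lit 456) (nat_lit 9616901191) (nat_lit 120) (nat_lit 5) (nat_lit 125) (nat_lit 5) (nat_lit 126) (nat_lit 5) (nat_lit 383) (nat_lit 339) (nat_lit 178)))))) (XT.nd (nat_lit 546) (nat_lit 988) (nat_lit 0) (XT.nd (nat_lit 234) (nat_lit 608) (nat_lit 0) (XT.nd (nat_lit 78) (nat_lit 456) (nat_lit 0) (XT.lf (nat_lit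 0) (nat_lit 930635504) (nat_lit 304) (nat_lit 21324633414) (nat_lit 380) (nat_lit 5283103336) (nat_lit 116) (nat_lit 5) (nat_lit 120) (nat_lit 5) (nat_lit 121) (nat_lit 5) (nat_lit 384) (nat_lit 339) (nat_lit 177)) (XT.nd (nat_lit 78) (nat_lit 456) (nat_lit 0) (XT.lf (nat_lit 0) (nat_lit 15782485891) (nat_lit 304) (nat_lit 11620836836) (nat_lit 380) (nat_lit 649739998) (nat_lit 116) (nat_lit 5) (nat_lit 120) (nat_lit 5) (nat_lit 121) (nat_lit 5) (nat_lit 385) (nat_lit 339) (nat_lit 176)) (XT.lf (nat_lit 0) (nat_lit 2498967676) (nat_lit 380) (nat_lit 1562185667) (nat_lit 456) (nat_lit 24520285013) (nat_lit 110) (nat_lit 5) (nat_lit 115) (nat_lit 5) (nat_lit 116) (nat_lit 5) (nat_lit 386) (nat_lit 339) (nat_lit 175)))) (XT.nd (nat_lit 156) (nat_lit 304) (nat_lit 0) (XT.nd (nat_lit 78) (nat_lit 304) (nat_lit 0) (XT.lf (nat_lit 0) (nat_lit 9105042587) (nat_lit 456) (nat_lit 11257979879) (nat_lit 76) (nat_lit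 8756310489) (nat_lit 110) (nat_lit 5) (nat_lit 116) (nat_lit 5) (nat_lit 111) (nat_lit 5) (nat_lit 387) (nat_lit 339) (nat_lit 174)) (XT.lf (nat_lit 0) (nat_lit 4068438850) (nat_lit 304) (nat_lit 10281548976) (nat_lit 380) (nat_lit 15321886850) (nat_lit 106) (nat_lit 5) (nat_lit 110) (nat_lit 5) (nat_lit 111) (nat_lit 5) (nat_lit 388) (nat_lit 339) (nat_lit 173))) (XT.nd (nat_lit 78) (nat_lit 304) (nat_lit 0) (XT.lf (nat_lit 0) (nat_lit 19863296867) (nat_lit 380) (nat_lit 10161054462) (nat_lit 76) (nat_lit 213313247) (nat_lit 106) (nat_lit 5) (nat_lit 111) (nat_lit 5) (nat_lit 107) (nat_lit 5) (nat_lit 389) (nat_lit 339) (nat_lit 172)) (XT.lf (nat_lit 0) (nat_lit 5748379800) (nat_lit 304) (nat_lit 19946041304) (nat_lit 380) (nat_lit 5121436914) (nat_lit 102) (nat_lit 5) (nat_lit 106) (nat_lit 5) (nat_lit 107) (nat_lit 5) (nat_lit 390) (nat_lit 339) (nat_lit 171))))) (XT.nd (nat_lit 234) (nat_lit 608) (nat_lit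 0) (XT.nd (nat_lit 78) (nat_lit 304) (nat_lit 0) (XT.lf (nat_lit 0) (nat_lit 382449812) (nat_lit 380) (nat_lit 9075347053) (nat_lit 76) (nat_lit 21950548951) (nat_lit 101) (nat_lit 5) (nat_lit 106) (nat_lit 5) (nat_lit 102) (nat_lit 5) (nat_lit 391) (nat_lit 339) (nat_lit 170)) (XT.nd (nat_lit 78) (nat_lit 0) (nat_lit 0) (XT.lf (nat_lit 0) (nat_lit 6030118732) (nat_lit 380) (nat_lit 24543710181) (nat_lit 76) (nat_lit 1440812199) (nat_lit 97) (nat_lit 5) (nat_lit 102) (nat_lit 5) (nat_lit 98) (nat_lit 5) (nat_lit 392) (nat_lit 339) (nat_lit 169)) (XT.lf (nat_lit 0) (nat_lit 12028981083) (nat_lit 380) (nat_lit 8037773559) (nat_lit 76) (nat_lit 12566919787) (nat_lit 97) (nat_lit 5) (nat_lit 102) (nat_lit 5) (nat_lit 98) (nat_lit 5) (nat_lit 393) (nat_lit 339) (nat_lit 168)))) (XT.nd (nat_lit 156) (nat_lit 304) (nat_lit 0) (XT.nd (nat_lit 78) (nat_lit 0) (nat_lit 0) (XT.lf (nat_lit 0) (nat_lit 9135311120)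 (nat_lit 304) (nat_lit 9156012616) (nat_lit 380) (nat_lit 14977451578) (nat_lit 93) (nat_lit 5) (nat_lit 97) (nat_lit 5) (nat_lit 98) (nat_lit 5) (nat_lit 394) (nat_lit 339) (nat_lit 167)) (XT.lf (nat_lit 0) (nat_lit 24839266378) (nat_lit 380) (nat_lit 6959297967) (nat_lit 76) (nat_lit 2121434937) (nat_lit 93) (nat_lit 5) (nat_lit 98) (nat_lit 5) (nat_lit 94) (nat_lit 5) (nat_lit 395) (nat_lit 339) (nat_lit 166))) (XT.nd (nat_lit 78) (nat_lit 76) (nat_lit 0) (XT.lf (nat_lit 0) (nat_lit 10844906581) (nat_lit 228) (nat_lit 20929512453) (nat_lit 304) (nat_lit 2810619668) (nat_lit 90) (nat_lit 5) (nat_lit 93) (nat_lit 5) (nat_lit 94) (nat_lit 5) (nat_lit 396) (nat_lit 339) (nat_lit 165)) (XT.lf (nat_lit 0) (nat_lit 3643280148) (nat_lit 304) (nat_lit 5983963214) (nat_lit 76) (nat_lit 25639730008) (nat_lit 89) (nat_lit 5) (nat_lit 93) (nat_lit 5) (nat_lit 90) (nat_lit 5) (nat_lit 397) (nat_lit 339) (nat_lit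 164))))))))
noncomputable def xc196 : XT := (XT.nd (nat_lit 2028) (nat_lit 836) (nat_lit 0) (XT.nd (nat_lit 1014) (nat_lit 1216) (nat_lit 0) (XT.nd (nat_lit 468) (nat_lit 988) (nat_lit 0) (XT.nd (nat_lit 234) (nat_lit 304) (nat_lit 0) (XT.nd (nat_lit 78) (nat_lit 228) (nat_lit 0) (XT.lf (nat_lit 0) (nat_lit 10371428470) (nat_lit 380) (nat_lit 23470570031) (nat_lit 76) (nat_lit 2122420801) (nat_lit 85) (nat_lit 5) (nat_lit 90) (nat_lit 5) (nat_lit 86) (nat_lit 5) (nat_lit 398) (nat_lit 339) (nat_lit 163)) (XT.nd (nat_lit 78) (nat_lit 228) (nat_lit 0) (XT.lf (nat_lit 0) (nat_lit 17453814456) (nat_lit 380) (nat_lit 5134272819) (nat_lit 76) (nat_lit 14090131218) (nat_lit 85) (nat_lit 5) (nat_lit 90) (nat_lit 5) (nat_lit 86) (nat_lit 5) (nat_lit 399) (nat_lit 339) (nat_lit 162)) (XT.lf (nat_lit 0) (nat_lit 14019825568) (nat_lit 228) (nat_lit 10859778056) (nat_lit 304) (nat_lit 12529901715) (nat_lit 82) (nat_lit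 5) (nat_lit 85) (nat_lit 5) (nat_lit 86) (nat_lit 5) (nat_lit 400) (nat_lit 339) (nat_lit 161)))) (XT.nd (nat_lit 78) (nat_lit 304) (nat_lit 0) (XT.lf (nat_lit 0) (nat_lit 32588457788) (nat_lit 304) (nat_lit 4325528326) (nat_lit 76) (nat_lit 1246937520) (nat_lit 82) (nat_lit 5) (nat_lit 86) (nat_lit 5) (nat_lit 83) (nat_lit 5) (nat_lit 401) (nat_lit 339) (nat_lit 160)) (XT.nd (nat_lit 78) (nat_lit 0) (nat_lit 0) (XT.lf (nat_lit 0) (nat_lit 1817923287) (nat_lit 304) (nat_lit 23445373997) (nat_lit 76) (nat_lit 13663469230) (nat_lit 78) (nat_lit 5) (nat_lit 82) (nat_lit 5) (nat_lit 79) (nat_lit 5) (nat_lit 402) (nat_lit 339) (nat_lit 159)) (XT.lf (nat_lit 0) (nat_lit 9358461810) (nat_lit 304) (nat_lit 3804439062) (nat_lit 76) (nat_lit 26549816906) (nat_lit 78) (nat_lit 5) (nat_lit 82) (nat_lit 5) (nat_lit 79) (nat_lit 5) (nat_lit 403) (nat_lit 339) (nat_lit 158))))) (XT.nd (nat_lit 234) (nat_lit 532) (nat_lit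 0) (XT.nd (nat_lit 78) (nat_lit 228) (nat_lit 0) (XT.lf (nat_lit 0) (nat_lit 16746934961) (nat_lit 228) (nat_lit 535697231) (nat_lit 304) (nat_lit 23234894320) (nat_lit 75) (nat_lit 5) (nat_lit 78) (nat_lit 5) (nat_lit 79) (nat_lit 5) (nat_lit 404) (nat_lit 339) (nat_lit 157)) (XT.nd (nat_lit 78) (nat_lit 228) (nat_lit 0) (XT.lf (nat_lit 0) (nat_lit 25599663116) (nat_lit 304) (nat_lit 3478356990) (nat_lit 76) (nat_lit 12263806703) (nat_lit 75) (nat_lit 5) (nat_lit 79) (nat_lit 5) (nat_lit 76) (nat_lit 5) (nat_lit 405) (nat_lit 339) (nat_lit 156)) (XT.lf (nat_lit 0) (nat_lit 17758420211) (nat_lit 228) (nat_lit 16580361755) (nat_lit 304) (nat_lit 7846898165) (nat_lit 72) (nat_lit 5) (nat_lit 75) (nat_lit 5) (nat_lit 76) (nat_lit 5) (nat_lit 406) (nat_lit 339) (nat_lit 155)))) (XT.nd (nat_lit 156) (nat_lit 228) (nat_lit 0) (XT.nd (nat_lit 78) (nat_lit 228) (nat_lit 0) (XT.lf (nat_lit 0) (nat_lit 311713482)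 (nat_lit 304) (nat_lit 3358748247) (nat_lit 76) (nat_lit 39383344699) (nat_lit 71) (nat_lit 5) (nat_lit 75) (nat_lit 5) (nat_lit 72) (nat_lit 5) (nat_lit 407) (nat_lit 339) (nat_lit 154)) (XT.lf (nat_lit 0) (nat_lit 8828118296) (nat_lit 304) (nat_lit 25413231622) (nat_lit 76) (nat_lit 9696174556) (nat_lit 68) (nat_lit 5) (nat_lit 72) (nat_lit 5) (nat_lit 69) (nat_lit 5) (nat_lit 408) (nat_lit 339) (nat_lit 153))) (XT.nd (nat_lit 78) (nat_lit 228) (nat_lit 0) (XT.lf (nat_lit 0) (nat_lit 17667317261) (nat_lit 304) (nat_lit 3756073408) (nat_lit 76) (nat_lit 23422345508) (nat_lit 68) (nat_lit 5) (nat_lit 72) (nat_lit 5) (nat_lit 69) (nat_lit 5) (nat_lit 409) (nat_lit 339) (nat_lit 152)) (XT.lf (nat_lit 0) (nat_lit 18914713084) (nat_lit 228) (nat_lit 8035603000) (nat_lit 304) (nat_lit 18825520574) (nat_lit 65) (nat_lit 5) (nat_lit 68) (nat_lit 5) (nat_lit 69) (nat_lit 5) (nat_lit 410) (nat_lit 339) (nat_lit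 151)))))) (XT.nd (nat_lit 468) (nat_lit 608) (nat_lit 0) (XT.nd (nat_lit 234) (nat_lit 380) (nat_lit 0) (XT.nd (nat_lit 78) (nat_lit 228) (nat_lit 0) (XT.lf (nat_lit 0) (nat_lit 36602247464) (nat_lit 304) (nat_lit 4450974563) (nat_lit 76) (nat_lit 5677905956) (nat_lit 65) (nat_lit 5) (nat_lit 69) (nat_lit 5) (nat_lit 66) (nat_lit 5) (nat_lit 411) (nat_lit 339) (nat_lit 150)) (XT.nd (nat_lit 78) (nat_lit 76) (nat_lit 0) (XT.lf (nat_lit 0) (nat_lit 18915982572) (nat_lit 152) (nat_lit 27886067857) (nat_lit 228) (nat_lit 905279287) (nat_lit 63) (nat_lit 5) (nat_lit 65) (nat_lit 5) (nat_lit 66) (nat_lit 5) (nat_lit 412) (nat_lit 339) (nat_lit 149)) (XT.lf (nat_lit 0) (nat_lit 8469632800) (nat_lit 228) (nat_lit 5724413174) (nat_lit 76) (nat_lit 34515024237) (nat_lit 62) (nat_lit 5) (nat_lit 65) (nat_lit 5) (nat_lit 63) (nat_lit 5) (nat_lit 413) (nat_lit 339) (nat_lit 148)))) (XT.nd (nat_lit 78) (nat_lit 152)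 (nat_lit 0) (XT.lf (nat_lit 0) (nat_lit 18282233131) (nat_lit 304) (nat_lit 31357034196) (nat_lit 76) (nat_lit 96088602) (nat_lit 59) (nat_lit 5) (nat_lit 63) (nat_lit 5) (nat_lit 60) (nat_lit 5) (nat_lit 414) (nat_lit 339) (nat_lit 147)) (XT.nd (nat_lit 78) (nat_lit 152) (nat_lit 0) (XT.lf (nat_lit 0) (nat_lit 28585166672) (nat_lit 304) (nat_lit 7615262067) (nat_lit 76) (nat_lit 14586123780) (nat_lit 59) (nat_lit 5) (nat_lit 63) (nat_lit 5) (nat_lit 60) (nat_lit 5) (nat_lit 415) (nat_lit 339) (nat_lit 146)) (XT.lf (nat_lit 0) (nat_lit 17168993965) (nat_lit 152) (nat_lit 22190361684) (nat_lit 228) (nat_lit 12505065262) (nat_lit 57) (nat_lit 5) (nat_lit 59) (nat_lit 5) (nat_lit 60) (nat_lit 5) (nat_lit 416) (nat_lit 339) (nat_lit 145))))) (XT.nd (nat_lit 234) (nat_lit 380) (nat_lit 0) (XT.nd (nat_lit 78) (nat_lit 228) (nat_lit 0) (XT.lf (nat_lit 0) (nat_lit 42848131954) (nat_lit 152) (nat_lit 7682704077)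 (nat_lit 228) (nat_lit 2441568255) (nat_lit 57) (nat_lit 5) (nat_lit 59) (nat_lit 5) (nat_lit 60) (nat_lit 5) (nat_lit 417) (nat_lit 339) (nat_lit 144)) (XT.nd (nat_lit 78) (nat_lit 0) (nat_lit 0) (XT.lf (nat_lit 0) (nat_lit 7986493811) (nat_lit 228) (nat_lit 38775213398) (nat_lit 76) (nat_lit 7343117260) (nat_lit 54) (nat_lit 5) (nat_lit 57) (nat_lit 5) (nat_lit 55) (nat_lit 5) (nat_lit 418) (nat_lit 339) (nat_lit 143)) (XT.lf (nat_lit 0) (nat_lit 18854877920) (nat_lit 228) (nat_lit 13619442273) (nat_lit 76) (nat_lit 22790876073) (nat_lit 54) (nat_lit 5) (nat_lit 57) (nat_lit 5) (nat_lit 55) (nat_lit 5) (nat_lit 419) (nat_lit 339) (nat_lit 142)))) (XT.nd (nat_lit 156) (nat_lit 228) (nat_lit 0) (XT.nd (nat_lit 78) (nat_lit 0) (nat_lit 0) (XT.lf (nat_lit 0) (nat_lit 12530974829) (nat_lit 152) (nat_lit 17636113904) (nat_lit 228) (nat_lit 26289758030) (nat_lit 52) (nat_lit 5) (nat_lit 54) (nat_lit 5) (nat_lit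 55) (nat_lit 5) (nat_lit 420) (nat_lit 339) (nat_lit 141)) (XT.lf (nat_lit 0) (nat_lit 39740582673) (nat_lit 152) (nat_lit 2212967385) (nat_lit 228) (nat_lit 15726650968) (nat_lit 52) (nat_lit 5) (nat_lit 54) (nat_lit 5) (nat_lit 55) (nat_lit 5) (nat_lit 421) (nat_lit 339) (nat_lit 140))) (XT.nd (nat_lit 78) (nat_lit 76) (nat_lit 0) (XT.lf (nat_lit 0) (nat_lit 8863309757) (nat_lit 152) (nat_lit 45444341253) (nat_lit 228) (nat_lit 4626184290) (nat_lit 50) (nat_lit 5) (nat_lit 52) (nat_lit 5) (nat_lit 53) (nat_lit 5) (nat_lit 422) (nat_lit 339) (nat_lit 139)) (XT.lf (nat_lit 0) (nat_lit 6876741969) (nat_lit 228) (nat_lit 23475158422) (nat_lit 76) (nat_lit 29865147431) (nat_lit 49) (nat_lit 5) (nat_lit 52) (nat_lit 5) (nat_lit 50) (nat_lit 5) (nat_lit 423) (nat_lit 339) (nat_lit 138))))))) (XT.nd (nat_lit 40482) (nat_lit 0) (nat_lit 13452) (XT.nd (nat_lit 468) (nat_lit 304) (nat_lit 0) (XT.nd (nat_lit 234)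 (nat_lit 380) (nat_lit 0) (XT.nd (nat_lit 78) (nat_lit 0) (nat_lit 0) (XT.lf (nat_lit 0) (nat_lit 3944930475) (nat_lit 152) (nat_lit 14722261311) (nat_lit 228) (nat_lit 42869128986) (nat_lit 47) (nat_lit 5) (nat_lit 49) (nat_lit 5) (nat_lit 50) (nat_lit 5) (nat_lit 424) (nat_lit 339) (nat_lit 137)) (XT.nd (nat_lit 78) (nat_lit 0) (nat_lit 0) (XT.lf (nat_lit 0) (nat_lit 31061495692) (nat_lit 228) (nat_lit 30239127563) (nat_lit 76) (nat_lit 1587045110) (nat_lit 47) (nat_lit 5) (nat_lit 50) (nat_lit 5) (nat_lit 48) (nat_lit 5) (nat_lit 425) (nat_lit 339) (nat_lit 136)) (XT.lf (nat_lit 0) (nat_lit 43970977116) (nat_lit 228) (nat_lit 2216266217) (nat_lit 76) (nat_lit 18088013251) (nat_lit 47) (nat_lit 5) (nat_lit 50) (nat_lit 5) (nat_lit 48) (nat_lit 5) (nat_lit 426) (nat_lit 339) (nat_lit 135)))) (XT.nd (nat_lit 78) (nat_lit 228) (nat_lit 0) (XT.lf (nat_lit 0) (nat_lit 27173451020) (nat_lit 152) (nat_lit 30353153620)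 (nat_lit 228) (nat_lit 8170102593) (nat_lit 45) (nat_lit 5) (nat_lit 47) (nat_lit 5) (nat_lit 48) (nat_lit 5) (nat_lit 427) (nat_lit 339) (nat_lit 134)) (XT.nd (nat_lit 78) (nat_lit 152) (nat_lit 0) (XT.lf (nat_lit 0) (nat_lit 4263904070) (nat_lit 228) (nat_lit 9715753873) (nat_lit 76) (nat_lit 53179288084) (nat_lit 44) (nat_lit 5) (nat_lit 47) (nat_lit 5) (nat_lit 45) (nat_lit 5) (nat_lit 428) (nat_lit 339) (nat_lit 133)) (XT.lf (nat_lit 0) (nat_lit 17129708954) (nat_lit 228) (nat_lit 48420710160) (nat_lit 76) (nat_lit 3105517019) (nat_lit 42) (nat_lit 5) (nat_lit 45) (nat_lit 5) (nat_lit 43) (nat_lit 5) (nat_lit 429) (nat_lit 339) (nat_lit 132))))) (XT.nd (nat_lit 234) (nat_lit 152) (nat_lit 0) (XT.nd (nat_lit 78) (nat_lit 152) (nat_lit 0) (XT.lf (nat_lit 0) (nat_lit 30616721988) (nat_lit 228) (nat_lit 19054360477) (nat_lit 76) (nat_lit 20519697017) (nat_lit 42) (nat_lit 5) (nat_lit 45) (nat_lit 5) (nat_lit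 43) (nat_lit 5) (nat_lit 430) (nat_lit 339) (nat_lit 131)) (XT.nd (nat_lit 78) (nat_lit 0) (nat_lit 0) (XT.lf (nat_lit 0) (nat_lit 11411798345) (nat_lit 152) (nat_lit 33204050177) (nat_lit 228) (nat_lit 27152595063) (nat_lit 40) (nat_lit 5) (nat_lit 42) (nat_lit 5) (nat_lit 43) (nat_lit 5) (nat_lit 431) (nat_lit 339) (nat_lit 130)) (XT.lf (nat_lit 0) (nat_lit 43178708908) (nat_lit 152) (nat_lit 16046484646) (nat_lit 228) (nat_lit 14162537245) (nat_lit 40) (nat_lit 5) (nat_lit 42) (nat_lit 5) (nat_lit 43) (nat_lit 5) (nat_lit 432) (nat_lit 339) (nat_lit 129)))) (XT.nd (nat_lit 39624) (nat_lit 0) (nat_lit 14288) (XT.nd (nat_lit 78) (nat_lit 76) (nat_lit 0) (XT.lf (nat_lit 0) (nat_lit 840028542) (nat_lit 76) (nat_lit 73454374153) (nat_lit 152) (nat_lit 760546936) (nat_lit 39) (nat_lit 5) (nat_lit 40) (nat_lit 5) (nat_lit 41) (nat_lit 4) (nat_lit 433) (nat_lit 339) (nat_lit 128)) (XT.lf (nat_lit 0) (nat_lit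 13253810946) (nat_lit 152) (nat_lit 43614277177) (nat_lit 76) (nat_lit 19886390918) (nat_lit 38) (nat_lit 5) (nat_lit 40) (nat_lit 5) (nat_lit 39) (nat_lit 5) (nat_lit 434) (nat_lit 339) (nat_lit 127))) (XT.nd (nat_lit 78) (nat_lit 0) (nat_lit 0) (XT.lf (nat_lit 0) (nat_lit 1066898850) (nat_lit 0) (nat_lit 1066898850) (nat_lit 1140) (nat_lit 4643356286) (nat_lit 226) (nat_lit 5) (nat_lit 226) (nat_lit 3) (nat_lit 241) (nat_lit 3) (nat_lit 340) (nat_lit 340) (nat_lit 220)) (XT.lf (nat_lit 0) (nat_lit 4726719460) (nat_lit 1140) (nat_lit 5098289109) (nat_lit 1216) (nat_lit 3920484011) (nat_lit 226) (nat_lit 5) (nat_lit 241) (nat_lit 3) (nat_lit 242) (nat_lit 5) (nat_lit 341) (nat_lit 340) (nat_lit 219)))))) (XT.nd (nat_lit 546) (nat_lit 836) (nat_lit 0) (XT.nd (nat_lit 234) (nat_lit 0) (nat_lit 152) (XT.nd (nat_lit 78) (nat_lit 0) (nat_lit 76) (XT.lf (nat_lit 76) (nat_lit 1412581231) (nat_lit 0) (nat_lit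 3807888227) (nat_lit 1216) (nat_lit 8721328498) (nat_lit 227) (nat_lit 5) (nat_lit 226) (nat_lit 5) (nat_lit 242) (nat_lit 5) (nat_lit 342) (nat_lit 340) (nat_lit 218)) (XT.nd (nat_lit 78) (nat_lit 0) (nat_lit 0) (XT.lf (nat_lit 0) (nat_lit 5790534555) (nat_lit 1140) (nat_lit 5950499143) (nat_lit 1216) (nat_lit 2401124203) (nat_lit 227) (nat_lit 5) (nat_lit 242) (nat_lit 5) (nat_lit 243) (nat_lit 5) (nat_lit 343) (nat_lit 340) (nat_lit 217)) (XT.lf (nat_lit 76) (nat_lit 795778141) (nat_lit 0) (nat_lit 5614205362) (nat_lit 1216) (nat_lit 7937586863) (nat_lit 228) (nat_lit 5) (nat_lit 227) (nat_lit 5) (nat_lit 243) (nat_lit 5) (nat_lit 344) (nat_lit 340) (nat_lit 216)))) (XT.nd (nat_lit 156) (nat_lit 0) (nat_lit 0) (XT.nd (nat_lit 78) (nat_lit 0) (nat_lit 0) (XT.lf (nat_lit 0) (nat_lit 7102682362) (nat_lit 1140) (nat_lit 6706205292) (nat_lit 1216) (nat_lit 748627440) (nat_lit 228) (nat_lit 5) (nat_lit 243)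 (nat_lit 5) (nat_lit 244) (nat_lit 5) (nat_lit 345) (nat_lit 340) (nat_lit 215)) (XT.lf (nat_lit 76) (nat_lit 286999909) (nat_lit 0) (nat_lit 7575166165) (nat_lit 1216) (nat_lit 6910221570) (nat_lit 229) (nat_lit 5) (nat_lit 228) (nat_lit 5) (nat_lit 244) (nat_lit 5) (nat_lit 346) (nat_lit 340) (nat_lit 214))) (XT.nd (nat_lit 78) (nat_lit 0) (nat_lit 76) (XT.lf (nat_lit 76) (nat_lit 7619784465) (nat_lit 0) (nat_lit 1080313787) (nat_lit 1216) (nat_lit 6291947513) (nat_lit 229) (nat_lit 5) (nat_lit 228) (nat_lit 5) (nat_lit 244) (nat_lit 5) (nat_lit 347) (nat_lit 340) (nat_lit 213)) (XT.lf (nat_lit 0) (nat_lit 9605425560) (nat_lit 1140) (nat_lit 107526380) (nat_lit 1216) (nat_lit 5504083021) (nat_lit 229) (nat_lit 5) (nat_lit 244) (nat_lit 5) (nat_lit 245) (nat_lit 5) (nat_lit 348) (nat_lit 340) (nat_lit 212))))) (XT.nd (nat_lit 234) (nat_lit 1064) (nat_lit 0) (XT.nd (nat_lit 78) (nat_lit 0) (nat_lit 76)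 (XT.lf (nat_lit 76) (nat_lit 7503234124) (nat_lit 0) (nat_lit 3106176463) (nat_lit 1216) (nat_lit 4837227089) (nat_lit 230) (nat_lit 5) (nat_lit 229) (nat_lit 5) (nat_lit 245) (nat_lit 5) (nat_lit 349) (nat_lit 340) (nat_lit 211)) (XT.nd (nat_lit 78) (nat_lit 0) (nat_lit 0) (XT.lf (nat_lit 0) (nat_lit 11669133772) (nat_lit 1140) (nat_lit 382074958) (nat_lit 1216) (nat_lit 3631159709) (nat_lit 230) (nat_lit 5) (nat_lit 245) (nat_lit 5) (nat_lit 246) (nat_lit 5) (nat_lit 350) (nat_lit 340) (nat_lit 210)) (XT.lf (nat_lit 76) (nat_lit 7514265988) (nat_lit 0) (nat_lit 5338656860) (nat_lit 1216) (nat_lit 3069488327) (nat_lit 231) (nat_lit 5) (nat_lit 230) (nat_lit 5) (nat_lit 246) (nat_lit 5) (nat_lit 351) (nat_lit 340) (nat_lit 209)))) (XT.nd (nat_lit 156) (nat_lit 1216) (nat_lit 0) (XT.nd (nat_lit 78) (nat_lit 0) (nat_lit 0) (XT.lf (nat_lit 0) (nat_lit 14080818746) (nat_lit 1140) (nat_lit 537368523) (nat_lit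 1216) (nat_lit 1551218166) (nat_lit 231) (nat_lit 5) (nat_lit 246) (nat_lit 5) (nat_lit 247) (nat_lit 5) (nat_lit 352) (nat_lit 340) (nat_lit 208)) (XT.lf (nat_lit 76) (nat_lit 7658370479) (nat_lit 0) (nat_lit 7803514482) (nat_lit 1216) (nat_lit 958442360) (nat_lit 232) (nat_lit 5) (nat_lit 231) (nat_lit 5) (nat_lit 247) (nat_lit 5) (nat_lit 353) (nat_lit 340) (nat_lit 207))) (XT.nd (nat_lit 78) (nat_lit 0) (nat_lit 76) (XT.lf (nat_lit 0) (nat_lit 197048802) (nat_lit 1216) (nat_lit 577523345) (nat_lit 1292) (nat_lit 15904289140) (nat_lit 215) (nat_lit 5) (nat_lit 231) (nat_lit 5) (nat_lit 232) (nat_lit 5) (nat_lit 354) (nat_lit 340) (nat_lit 206)) (XT.lf (nat_lit 0) (nat_lit 1498046624) (nat_lit 1216) (nat_lit 9014638936) (nat_lit 1292) (nat_lit 6428284994) (nat_lit 216) (nat_lit 5) (nat_lit 232) (nat_lit 5) (nat_lit 233) (nat_lit 5) (nat_lit 355) (nat_lit 340) (nat_lit 205))))))))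
noncomputable def xc197 : XT := (XT.nd (nat_lit 2028) (nat_lit 4484) (nat_lit 0) (XT.nd (nat_lit 1014) (nat_lit 2736) (nat_lit 0) (XT.nd (nat_lit 468) (nat_lit 2280) (nat_lit 0) (XT.nd (nat_lit 234) (nat_lit 1520) (nat_lit 0) (XT.nd (nat_lit 78) (nat_lit 0) (nat_lit 76) (XT.lf (nat_lit 0) (nat_lit 2842129003) (nat_lit 1216) (nat_lit 529237324) (nat_lit 1292) (nat_lit 13839462066) (nat_lit 216) (nat_lit 5) (nat_lit 232) (nat_lit 5) (nat_lit 233) (nat_lit 5) (nat_lit 356) (nat_lit 340) (nat_lit 204)) (XT.nd (nat_lit 78) (nat_lit 0) (nat_lit 0) (XT.lf (nat_lit 0) (nat_lit 4336838829) (nat_lit 1216) (nat_lit 9159432851) (nat_lit 76) (nat_lit 3989207868) (nat_lit 217) (nat_lit 5) (nat_lit 233) (nat_lit 5) (nat_lit 218) (nat_lit 5) (nat_lit 357) (nat_lit 340) (nat_lit 203)) (XT.lf (nat_lit 0) (nat_lit 5906149667) (nat_lit 1216) (nat_lit 351674691) (nat_lit 76) (nat_lit 11509659622) (nat_lit 217) (nat_lit 5)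 (nat_lit 233) (nat_lit 5) (nat_lit 218) (nat_lit 5) (nat_lit 358) (nat_lit 340) (nat_lit 202)))) (XT.nd (nat_lit 78) (nat_lit 608) (nat_lit 0) (XT.lf (nat_lit 0) (nat_lit 7611573727) (nat_lit 1064) (nat_lit 9181950496) (nat_lit 76) (nat_lit 1261759647) (nat_lit 204) (nat_lit 5) (nat_lit 218) (nat_lit 5) (nat_lit 205) (nat_lit 5) (nat_lit 359) (nat_lit 340) (nat_lit 201)) (XT.nd (nat_lit 78) (nat_lit 608) (nat_lit 0) (XT.lf (nat_lit 0) (nat_lit 9425142808) (nat_lit 1064) (nat_lit 39143330) (nat_lit 76) (nat_lit 8885728310) (nat_lit 204) (nat_lit 5) (nat_lit 218) (nat_lit 5) (nat_lit 205) (nat_lit 5) (nat_lit 360) (nat_lit 340) (nat_lit 200)) (XT.lf (nat_lit 0) (nat_lit 9556825499) (nat_lit 608) (nat_lit 1819846172) (nat_lit 684) (nat_lit 7274414670) (nat_lit 196) (nat_lit 5) (nat_lit 204) (nat_lit 5) (nat_lit 205) (nat_lit 5) (nat_lit 361) (nat_lit 340) (nat_lit 199))))) (XT.nd (nat_lit 234) (nat_lit 1140)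 (nat_lit 0) (XT.nd (nat_lit 78) (nat_lit 608) (nat_lit 0) (XT.lf (nat_lit 0) (nat_lit 422552843) (nat_lit 532) (nat_lit 13018710820) (nat_lit 608) (nat_lit 5518297014) (nat_lit 189) (nat_lit 5) (nat_lit 196) (nat_lit 5) (nat_lit 197) (nat_lit 5) (nat_lit 362) (nat_lit 340) (nat_lit 198)) (XT.nd (nat_lit 78) (nat_lit 608) (nat_lit 0) (XT.lf (nat_lit 0) (nat_lit 10385201903) (nat_lit 532) (nat_lit 5284292393) (nat_lit 608) (nat_lit 3604749557) (nat_lit 189) (nat_lit 5) (nat_lit 196) (nat_lit 5) (nat_lit 197) (nat_lit 5) (nat_lit 363) (nat_lit 340) (nat_lit 197)) (XT.lf (nat_lit 0) (nat_lit 1035046815) (nat_lit 608) (nat_lit 16957516835) (nat_lit 684) (nat_lit 1604969592) (nat_lit 181) (nat_lit 5) (nat_lit 189) (nat_lit 5) (nat_lit 190) (nat_lit 5) (nat_lit 364) (nat_lit 340) (nat_lit 196)))) (XT.nd (nat_lit 156) (nat_lit 532) (nat_lit 0) (XT.nd (nat_lit 78) (nat_lit 532) (nat_lit 0) (XT.lf (nat_lit 0) (nat_lit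 581230529) (nat_lit 684) (nat_lit 8554146900) (nat_lit 76) (nat_lit 10790958838) (nat_lit 180) (nat_lit 5) (nat_lit 189) (nat_lit 5) (nat_lit 181) (nat_lit 5) (nat_lit 365) (nat_lit 340) (nat_lit 195)) (XT.lf (nat_lit 0) (nat_lit 1765416196) (nat_lit 532) (nat_lit 1044867047) (nat_lit 608) (nat_lit 17453962677) (nat_lit 173) (nat_lit 5) (nat_lit 180) (nat_lit 5) (nat_lit 181) (nat_lit 5) (nat_lit 366) (nat_lit 340) (nat_lit 194))) (XT.nd (nat_lit 78) (nat_lit 532) (nat_lit 0) (XT.lf (nat_lit 0) (nat_lit 5256200320) (nat_lit 608) (nat_lit 8118432012) (nat_lit 76) (nat_lit 7233165608) (nat_lit 173) (nat_lit 5) (nat_lit 181) (nat_lit 5) (nat_lit 174) (nat_lit 5) (nat_lit 367) (nat_lit 340) (nat_lit 193)) (XT.lf (nat_lit 0) (nat_lit 2606384644) (nat_lit 532) (nat_lit 5197419606) (nat_lit 608) (nat_lit 13157007712) (nat_lit 166) (nat_lit 5) (nat_lit 173) (nat_lit 5) (nat_lit 174) (nat_lit 5) (nat_lit 368) (nat_lit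 340) (nat_lit 192)))))) (XT.nd (nat_lit 468) (nat_lit 1292) (nat_lit 0) (XT.nd (nat_lit 234) (nat_lit 988) (nat_lit 0) (XT.nd (nat_lit 78) (nat_lit 456) (nat_lit 0) (XT.lf (nat_lit 0) (nat_lit 10534670355) (nat_lit 608) (nat_lit 7542047452) (nat_lit 76) (nat_lit 3244498157) (nat_lit 166) (nat_lit 5) (nat_lit 174) (nat_lit 5) (nat_lit 167) (nat_lit 5) (nat_lit 369) (nat_lit 340) (nat_lit 191)) (XT.nd (nat_lit 78) (nat_lit 0) (nat_lit 0) (XT.lf (nat_lit 0) (nat_lit 3606193902) (nat_lit 456) (nat_lit 9820636187) (nat_lit 532) (nat_lit 8263225417) (nat_lit 160) (nat_lit 5) (nat_lit 166) (nat_lit 5) (nat_lit 167) (nat_lit 5) (nat_lit 370) (nat_lit 340) (nat_lit 190)) (XT.lf (nat_lit 0) (nat_lit 15236139685) (nat_lit 456) (nat_lit 1239144104) (nat_lit 532) (nat_lit 5592594891) (nat_lit 160) (nat_lit 5) (nat_lit 166) (nat_lit 5) (nat_lit 167) (nat_lit 5) (nat_lit 371) (nat_lit 340) (nat_lit 189)))) (XT.nd (nat_lit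 78) (nat_lit 532) (nat_lit 0) (XT.lf (nat_lit 0) (nat_lit 4770662215) (nat_lit 456) (nat_lit 14956996986) (nat_lit 532) (nat_lit 2726007497) (nat_lit 154) (nat_lit 5) (nat_lit 160) (nat_lit 5) (nat_lit 161) (nat_lit 5) (nat_lit 372) (nat_lit 340) (nat_lit 188)) (XT.nd (nat_lit 78) (nat_lit 456) (nat_lit 0) (XT.lf (nat_lit 0) (nat_lit 297702213) (nat_lit 532) (nat_lit 6010292529) (nat_lit 76) (nat_lit 16540705848) (nat_lit 153) (nat_lit 5) (nat_lit 160) (nat_lit 5) (nat_lit 154) (nat_lit 5) (nat_lit 373) (nat_lit 340) (nat_lit 187)) (XT.lf (nat_lit 0) (nat_lit 3435574306) (nat_lit 532) (nat_lit 17181618173) (nat_lit 76) (nat_lit 2635239918) (nat_lit 147) (nat_lit 5) (nat_lit 154) (nat_lit 5) (nat_lit 148) (nat_lit 5) (nat_lit 374) (nat_lit 340) (nat_lit 186))))) (XT.nd (nat_lit 234) (nat_lit 836) (nat_lit 0) (XT.nd (nat_lit 78) (nat_lit 456) (nat_lit 0) (XT.lf (nat_lit 0) (nat_lit 6785227214) (nat_lit 532)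 (nat_lit 5099227389) (nat_lit 76) (nat_lit 11780295941) (nat_lit 147) (nat_lit 5) (nat_lit 154) (nat_lit 5) (nat_lit 148) (nat_lit 5) (nat_lit 375) (nat_lit 340) (nat_lit 185)) (XT.nd (nat_lit 78) (nat_lit 0) (nat_lit 0) (XT.lf (nat_lit 0) (nat_lit 7484624006) (nat_lit 456) (nat_lit 2816766443) (nat_lit 532) (nat_lit 13786070781) (nat_lit 141) (nat_lit 5) (nat_lit 147) (nat_lit 5) (nat_lit 148) (nat_lit 5) (nat_lit 376) (nat_lit 340) (nat_lit 184)) (XT.lf (nat_lit 0) (nat_lit 14031911267) (nat_lit 532) (nat_lit 4041161492) (nat_lit 76) (nat_lit 6446517811) (nat_lit 141) (nat_lit 5) (nat_lit 148) (nat_lit 5) (nat_lit 142) (nat_lit 5) (nat_lit 377) (nat_lit 340) (nat_lit 183)))) (XT.nd (nat_lit 156) (nat_lit 456) (nat_lit 0) (XT.nd (nat_lit 78) (nat_lit 0) (nat_lit 0) (XT.lf (nat_lit 0) (nat_lit 9038905204) (nat_lit 380) (nat_lit 8944556683) (nat_lit 456) (nat_lit 6977951886) (nat_lit 136) (nat_lit 5) (nat_lit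 141) (nat_lit 5) (nat_lit 142) (nat_lit 5) (nat_lit 378) (nat_lit 340) (nat_lit 182)) (XT.lf (nat_lit 0) (nat_lit 22093595633) (nat_lit 456) (nat_lit 2832900010) (nat_lit 76) (nat_lit 488798243) (nat_lit 136) (nat_lit 5) (nat_lit 142) (nat_lit 5) (nat_lit 137) (nat_lit 5) (nat_lit 379) (nat_lit 340) (nat_lit 181))) (XT.nd (nat_lit 78) (nat_lit 0) (nat_lit 0) (XT.lf (nat_lit 0) (nat_lit 624035680) (nat_lit 456) (nat_lit 15119267359) (nat_lit 76) (nat_lit 10133708529) (nat_lit 130) (nat_lit 5) (nat_lit 136) (nat_lit 5) (nat_lit 131) (nat_lit 5) (nat_lit 380) (nat_lit 340) (nat_lit 180)) (XT.lf (nat_lit 0) (nat_lit 4644891992) (nat_lit 456) (nat_lit 1577593896) (nat_lit 76) (nat_lit 20128405882) (nat_lit 130) (nat_lit 5) (nat_lit 136) (nat_lit 5) (nat_lit 131) (nat_lit 5) (nat_lit 381) (nat_lit 340) (nat_lit 179))))))) (XT.nd (nat_lit 1014) (nat_lit 1976) (nat_lit 0) (XT.nd (nat_lit 468) (nat_lit 988) (nat_lit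 0) (XT.nd (nat_lit 234) (nat_lit 760) (nat_lit 0) (XT.nd (nat_lit 78) (nat_lit 380) (nat_lit 0) (XT.lf (nat_lit 0) (nat_lit 8938003371) (nat_lit 456) (nat_lit 14261437208) (nat_lit 76) (nat_lit 3635001861) (nat_lit 125) (nat_lit 5) (nat_lit 131) (nat_lit 5) (nat_lit 126) (nat_lit 5) (nat_lit 382) (nat_lit 340) (nat_lit 178)) (XT.nd (nat_lit 78) (nat_lit 380) (nat_lit 0) (XT.lf (nat_lit 0) (nat_lit 13432459262) (nat_lit 456) (nat_lit 220082867) (nat_lit 76) (nat_lit 13677783820) (nat_lit 125) (nat_lit 5) (nat_lit 131) (nat_lit 5) (nat_lit 126) (nat_lit 5) (nat_lit 383) (nat_lit 340) (nat_lit 177)) (XT.lf (nat_lit 0) (nat_lit 14519276138) (nat_lit 380) (nat_lit 3677044805) (nat_lit 456) (nat_lit 9640730631) (nat_lit 120) (nat_lit 5) (nat_lit 125) (nat_lit 5) (nat_lit 126) (nat_lit 5) (nat_lit 384) (nat_lit 340) (nat_lit 176)))) (XT.nd (nat_lit 78) (nat_lit 456) (nat_lit 0) (XT.lf (nat_lit 0) (nat_lit 1301743602)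 (nat_lit 304) (nat_lit 21874605555) (nat_lit 380) (nat_lit 5180434980) (nat_lit 116) (nat_lit 5) (nat_lit 120) (nat_lit 5) (nat_lit 121) (nat_lit 5) (nat_lit 385) (nat_lit 340) (nat_lit 175)) (XT.nd (nat_lit 78) (nat_lit 456) (nat_lit 0) (XT.lf (nat_lit 0) (nat_lit 16589153703) (nat_lit 304) (nat_lit 11882309648) (nat_lit 380) (nat_lit 415677387) (nat_lit 116) (nat_lit 5) (nat_lit 120) (nat_lit 5) (nat_lit 121) (nat_lit 5) (nat_lit 386) (nat_lit 340) (nat_lit 174)) (XT.lf (nat_lit 0) (nat_lit 2908890116) (nat_lit 380) (nat_lit 1518683667) (nat_lit 456) (nat_lit 25003845123) (nat_lit 110) (nat_lit 5) (nat_lit 115) (nat_lit 5) (nat_lit 116) (nat_lit 5) (nat_lit 387) (nat_lit 340) (nat_lit 173))))) (XT.nd (nat_lit 234) (nat_lit 684) (nat_lit 0) (XT.nd (nat_lit 78) (nat_lit 304) (nat_lit 0) (XT.lf (nat_lit 0) (nat_lit 9616499212) (nat_lit 456) (nat_lit 11264119914) (nat_lit 76) (nat_lit 9105023273) (nat_lit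 110) (nat_lit 5) (nat_lit 116) (nat_lit 5) (nat_lit 111) (nat_lit 5) (nat_lit 388) (nat_lit 340) (nat_lit 172)) (XT.nd (nat_lit 78) (nat_lit 0) (nat_lit 0) (XT.lf (nat_lit 0) (nat_lit 4518840402) (nat_lit 304) (nat_lit 10496167758) (nat_lit 380) (nat_lit 15539869286) (nat_lit 106) (nat_lit 5) (nat_lit 110) (nat_lit 5) (nat_lit 111) (nat_lit 5) (nat_lit 389) (nat_lit 340) (nat_lit 171)) (XT.lf (nat_lit 0) (nat_lit 20687761432) (nat_lit 380) (nat_lit 10141031798) (nat_lit 76) (nat_lit 309029898) (nat_lit 106) (nat_lit 5) (nat_lit 111) (nat_lit 5) (nat_lit 107) (nat_lit 5) (nat_lit 390) (nat_lit 340) (nat_lit 170)))) (XT.nd (nat_lit 156) (nat_lit 304) (nat_lit 0) (XT.nd (nat_lit 78) (nat_lit 76) (nat_lit 0) (XT.lf (nat_lit 0) (nat_lit 6242500646) (nat_lit 304) (nat_lit 20447753582) (nat_lit 380) (nat_lit 5043218433) (nat_lit 102) (nat_lit 5) (nat_lit 106) (nat_lit 5) (nat_lit 107) (nat_lit 5) (nat_lit 391)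 (nat_lit 340) (nat_lit 169)) (XT.lf (nat_lit 0) (nat_lit 614638971) (nat_lit 380) (nat_lit 9030809644) (nat_lit 76) (nat_lit 22698421399) (nat_lit 101) (nat_lit 5) (nat_lit 106) (nat_lit 5) (nat_lit 102) (nat_lit 5) (nat_lit 392) (nat_lit 340) (nat_lit 168))) (XT.nd (nat_lit 78) (nat_lit 0) (nat_lit 0) (XT.lf (nat_lit 0) (nat_lit 6429251301) (nat_lit 380) (nat_lit 24960635351) (nat_lit 76) (nat_lit 1578545167) (nat_lit 97) (nat_lit 5) (nat_lit 102) (nat_lit 5) (nat_lit 98) (nat_lit 5) (nat_lit 393) (nat_lit 340) (nat_lit 167)) (XT.lf (nat_lit 0) (nat_lit 12601723337) (nat_lit 380) (nat_lit 7968823139) (nat_lit 76) (nat_lit 13035683305) (nat_lit 97) (nat_lit 5) (nat_lit 102) (nat_lit 5) (nat_lit 98) (nat_lit 5) (nat_lit 394) (nat_lit 340) (nat_lit 166)))))) (XT.nd (nat_lit 546) (nat_lit 836) (nat_lit 0) (XT.nd (nat_lit 234) (nat_lit 608) (nat_lit 0) (XT.nd (nat_lit 78) (nat_lit 228) (nat_lit 0) (XT.lf (nat_lit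 0) (nat_lit 9716414045) (nat_lit 304) (nat_lit 9332302664) (nat_lit 380) (nat_lit 15211766446) (nat_lit 93) (nat_lit 5) (nat_lit 97) (nat_lit 5) (nat_lit 98) (nat_lit 5) (nat_lit 395) (nat_lit 340) (nat_lit 165)) (XT.nd (nat_lit 78) (nat_lit 228) (nat_lit 0) (XT.lf (nat_lit 0) (nat_lit 25787938590) (nat_lit 380) (nat_lit 6864724262) (nat_lit 76) (nat_lit 2278738550) (nat_lit 93) (nat_lit 5) (nat_lit 98) (nat_lit 5) (nat_lit 94) (nat_lit 5) (nat_lit 396) (nat_lit 340) (nat_lit 164)) (XT.lf (nat_lit 0) (nat_lit 11470632377) (nat_lit 228) (nat_lit 21457473856) (nat_lit 304) (nat_lit 2688379671) (nat_lit 90) (nat_lit 5) (nat_lit 93) (nat_lit 5) (nat_lit 94) (nat_lit 5) (nat_lit 397) (nat_lit 340) (nat_lit 163)))) (XT.nd (nat_lit 156) (nat_lit 228) (nat_lit 0) (XT.nd (nat_lit 78) (nat_lit 304) (nat_lit 0) (XT.lf (nat_lit 0) (nat_lit 3949207568) (nat_lit 304) (nat_lit 5867853964) (nat_lit 76) (nat_lit 26501937032)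 (nat_lit 89) (nat_lit 5) (nat_lit 93) (nat_lit 5) (nat_lit 90) (nat_lit 5) (nat_lit 398) (nat_lit 340) (nat_lit 162)) (XT.lf (nat_lit 0) (nat_lit 10877238962) (nat_lit 380) (nat_lit 23877014951) (nat_lit 76) (nat_lit 2283175282) (nat_lit 85) (nat_lit 5) (nat_lit 90) (nat_lit 5) (nat_lit 86) (nat_lit 5) (nat_lit 399) (nat_lit 340) (nat_lit 161))) (XT.nd (nat_lit 78) (nat_lit 228) (nat_lit 0) (XT.lf (nat_lit 0) (nat_lit 18166426596) (nat_lit 380) (nat_lit 4999298886) (nat_lit 76) (nat_lit 14607089384) (nat_lit 85) (nat_lit 5) (nat_lit 90) (nat_lit 5) (nat_lit 86) (nat_lit 5) (nat_lit 400) (nat_lit 340) (nat_lit 160)) (XT.lf (nat_lit 0) (nat_lit 14726589098) (nat_lit 228) (nat_lit 11085646384) (nat_lit 304) (nat_lit 12713889794) (nat_lit 82) (nat_lit 5) (nat_lit 85) (nat_lit 5) (nat_lit 86) (nat_lit 5) (nat_lit 401) (nat_lit 340) (nat_lit 159))))) (XT.nd (nat_lit 234) (nat_lit 532) (nat_lit 0) (XT.nd (nat_lit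 78) (nat_lit 304) (nat_lit 0) (XT.lf (nat_lit 0) (nat_lit 33747863258) (nat_lit 304) (nat_lit 4172892771) (nat_lit 76) (nat_lit 1379467119) (nat_lit 82) (nat_lit 5) (nat_lit 86) (nat_lit 5) (nat_lit 83) (nat_lit 5) (nat_lit 402) (nat_lit 340) (nat_lit 158)) (XT.nd (nat_lit 78) (nat_lit 0) (nat_lit 0) (XT.lf (nat_lit 0) (nat_lit 2053452712) (nat_lit 304) (nat_lit 23865429063) (nat_lit 76) (nat_lit 14170186682) (nat_lit 78) (nat_lit 5) (nat_lit 82) (nat_lit 5) (nat_lit 79) (nat_lit 5) (nat_lit 403) (nat_lit 340) (nat_lit 157)) (XT.lf (nat_lit 0) (nat_lit 9814935787) (nat_lit 304) (nat_lit 3643517715) (nat_lit 76) (nat_lit 27440304981) (nat_lit 78) (nat_lit 5) (nat_lit 82) (nat_lit 5) (nat_lit 79) (nat_lit 5) (nat_lit 404) (nat_lit 340) (nat_lit 156)))) (XT.nd (nat_lit 156) (nat_lit 304) (nat_lit 0) (XT.nd (nat_lit 78) (nat_lit 0) (nat_lit 0) (XT.lf (nat_lit 0) (nat_lit 17521700915) (nat_lit 228) (nat_lit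 452630375) (nat_lit 304) (nat_lit 23753457206) (nat_lit 75) (nat_lit 5) (nat_lit 78) (nat_lit 5) (nat_lit 79) (nat_lit 5) (nat_lit 405) (nat_lit 340) (nat_lit 155)) (XT.lf (nat_lit 0) (nat_lit 26536753111) (nat_lit 304) (nat_lit 3314097269) (nat_lit 76) (nat_lit 12726092980) (nat_lit 75) (nat_lit 5) (nat_lit 79) (nat_lit 5) (nat_lit 76) (nat_lit 5) (nat_lit 406) (nat_lit 340) (nat_lit 154))) (XT.nd (nat_lit 78) (nat_lit 76) (nat_lit 0) (XT.lf (nat_lit 0) (nat_lit 18557149812) (nat_lit 228) (nat_lit 16978527202) (nat_lit 304) (nat_lit 7910508222) (nat_lit 72) (nat_lit 5) (nat_lit 75) (nat_lit 5) (nat_lit 76) (nat_lit 5) (nat_lit 407) (nat_lit 340) (nat_lit 153)) (XT.lf (nat_lit 0) (nat_lit 484603246) (nat_lit 304) (nat_lit 3197966155) (nat_lit 76) (nat_lit 40657885355) (nat_lit 71) (nat_lit 5) (nat_lit 75) (nat_lit 5) (nat_lit 72) (nat_lit 5) (nat_lit 408) (nat_lit 340) (nat_lit 152))))))))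
noncomputable def xc198 : XT := (XT.nd (nat_lit 41652) (nat_lit 0) (nat_lit 10108) (XT.nd (nat_lit 1014) (nat_lit 912) (nat_lit 0) (XT.nd (nat_lit 468) (nat_lit 760) (nat_lit 0) (XT.nd (nat_lit 234) (nat_lit 228) (nat_lit 0) (XT.nd (nat_lit 78) (nat_lit 228) (nat_lit 0) (XT.lf (nat_lit 0) (nat_lit 9255165734) (nat_lit 304) (nat_lit 25912691586) (nat_lit 76) (nat_lit 10082868798) (nat_lit 68) (nat_lit 5) (nat_lit 72) (nat_lit 5) (nat_lit 69) (nat_lit 5) (nat_lit 409) (nat_lit 340) (nat_lit 151)) (XT.nd (nat_lit 78) (nat_lit 228) (nat_lit 0) (XT.lf (nat_lit 0) (nat_lit 18354816282) (nat_lit 304) (nat_lit 3613476985) (nat_lit 76) (nat_lit 24218034326) (nat_lit 68) (nat_lit 5) (nat_lit 72) (nat_lit 5) (nat_lit 69) (nat_lit 5) (nat_lit 410) (nat_lit 340) (nat_lit 150)) (XT.lf (nat_lit 0) (nat_lit 19734930371) (nat_lit 228) (nat_lit 8179217754) (nat_lit 304) (nat_lit 19230249310) (nat_lit 65) (nat_lit 5) (nat_lit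 68) (nat_lit 5) (nat_lit 69) (nat_lit 5) (nat_lit 411) (nat_lit 340) (nat_lit 149)))) (XT.nd (nat_lit 78) (nat_lit 228) (nat_lit 0) (XT.lf (nat_lit 0) (nat_lit 37852022985) (nat_lit 304) (nat_lit 4335422794) (nat_lit 76) (nat_lit 5941011747) (nat_lit 65) (nat_lit 5) (nat_lit 69) (nat_lit 5) (nat_lit 66) (nat_lit 5) (nat_lit 412) (nat_lit 340) (nat_lit 148)) (XT.nd (nat_lit 78) (nat_lit 76) (nat_lit 0) (XT.lf (nat_lit 0) (nat_lit 19730101084) (nat_lit 152) (nat_lit 28625671118) (nat_lit 228) (nat_lit 778236090) (nat_lit 63) (nat_lit 5) (nat_lit 65) (nat_lit 5) (nat_lit 66) (nat_lit 5) (nat_lit 413) (nat_lit 340) (nat_lit 147)) (XT.lf (nat_lit 0) (nat_lit 8870510666) (nat_lit 228) (nat_lit 5653720257) (nat_lit 76) (nat_lit 35641659177) (nat_lit 62) (nat_lit 5) (nat_lit 65) (nat_lit 5) (nat_lit 63) (nat_lit 5) (nat_lit 414) (nat_lit 340) (nat_lit 146))))) (XT.nd (nat_lit 234) (nat_lit 380) (nat_lit 0) (XT.nd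 (nat_lit 78) (nat_lit 152) (nat_lit 0) (XT.lf (nat_lit 0) (nat_lit 18976436482) (nat_lit 304) (nat_lit 32054220247) (nat_lit 76) (nat_lit 192340649) (nat_lit 59) (nat_lit 5) (nat_lit 63) (nat_lit 5) (nat_lit 60) (nat_lit 5) (nat_lit 415) (nat_lit 340) (nat_lit 145)) (XT.nd (nat_lit 78) (nat_lit 152) (nat_lit 0) (XT.lf (nat_lit 0) (nat_lit 29584213282) (nat_lit 304) (nat_lit 7607287914) (nat_lit 76) (nat_lit 15114357385) (nat_lit 59) (nat_lit 5) (nat_lit 63) (nat_lit 5) (nat_lit 60) (nat_lit 5) (nat_lit 416) (nat_lit 340) (nat_lit 144)) (XT.lf (nat_lit 0) (nat_lit 17918177838) (nat_lit 152) (nat_lit 22761579423) (nat_lit 228) (nat_lit 12736363218) (nat_lit 57) (nat_lit 5) (nat_lit 59) (nat_lit 5) (nat_lit 60) (nat_lit 5) (nat_lit 417) (nat_lit 340) (nat_lit 143)))) (XT.nd (nat_lit 156) (nat_lit 152) (nat_lit 0) (XT.nd (nat_lit 78) (nat_lit 228) (nat_lit 0) (XT.lf (nat_lit 0) (nat_lit 44360871110) (nat_lit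 152) (nat_lit 7821444315) (nat_lit 228) (nat_lit 2375151223) (nat_lit 57) (nat_lit 5) (nat_lit 59) (nat_lit 5) (nat_lit 60) (nat_lit 5) (nat_lit 418) (nat_lit 340) (nat_lit 142)) (XT.lf (nat_lit 0) (nat_lit 8362119439) (nat_lit 228) (nat_lit 39707458794) (nat_lit 76) (nat_lit 7654269384) (nat_lit 54) (nat_lit 5) (nat_lit 57) (nat_lit 5) (nat_lit 55) (nat_lit 5) (nat_lit 419) (nat_lit 340) (nat_lit 141))) (XT.nd (nat_lit 78) (nat_lit 152) (nat_lit 0) (XT.lf (nat_lit 0) (nat_lit 19552593009) (nat_lit 228) (nat_lit 13803743011) (nat_lit 76) (nat_lit 23562814594) (nat_lit 54) (nat_lit 5) (nat_lit 57) (nat_lit 5) (nat_lit 55) (nat_lit 5) (nat_lit 420) (nat_lit 340) (nat_lit 140)) (XT.lf (nat_lit 0) (nat_lit 13128987756) (nat_lit 152) (nat_lit 18073470532) (nat_lit 228) (nat_lit 26944144843) (nat_lit 52) (nat_lit 5) (nat_lit 54) (nat_lit 5) (nat_lit 55) (nat_lit 5) (nat_lit 421) (nat_lit 340) (nat_lit 139))))))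 (XT.nd (nat_lit 468) (nat_lit 532) (nat_lit 0) (XT.nd (nat_lit 234) (nat_lit 152) (nat_lit 0) (XT.nd (nat_lit 78) (nat_lit 228) (nat_lit 0) (XT.lf (nat_lit 0) (nat_lit 41148415379) (nat_lit 152) (nat_lit 2190301272) (nat_lit 228) (nat_lit 16068056393) (nat_lit 52) (nat_lit 5) (nat_lit 54) (nat_lit 5) (nat_lit 55) (nat_lit 5) (nat_lit 422) (nat_lit 340) (nat_lit 138)) (XT.nd (nat_lit 78) (nat_lit 76) (nat_lit 0) (XT.lf (nat_lit 0) (nat_lit 9345659166) (nat_lit 152) (nat_lit 46717007018) (nat_lit 228) (nat_lit 4635374478) (nat_lit 50) (nat_lit 5) (nat_lit 52) (nat_lit 5) (nat_lit 53) (nat_lit 5) (nat_lit 423) (nat_lit 340) (nat_lit 137)) (XT.lf (nat_lit 0) (nat_lit 7206409731) (nat_lit 228) (nat_lit 23966778162) (nat_lit 76) (nat_lit 30846636345) (nat_lit 49) (nat_lit 5) (nat_lit 52) (nat_lit 5) (nat_lit 50) (nat_lit 5) (nat_lit 424) (nat_lit 340) (nat_lit 136)))) (XT.nd (nat_lit 78) (nat_lit 0) (nat_lit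 0) (XT.lf (nat_lit 0) (nat_lit 4273828746) (nat_lit 152) (nat_lit 15075175067) (nat_lit 228) (nat_lit 44029719633) (nat_lit 47) (nat_lit 5) (nat_lit 49) (nat_lit 5) (nat_lit 50) (nat_lit 5) (nat_lit 425) (nat_lit 340) (nat_lit 135)) (XT.nd (nat_lit 78) (nat_lit 0) (nat_lit 0) (XT.lf (nat_lit 0) (nat_lit 32112417680) (nat_lit 228) (nat_lit 30939132315) (nat_lit 76) (nat_lit 1719144008) (nat_lit 47) (nat_lit 5) (nat_lit 50) (nat_lit 5) (nat_lit 48) (nat_lit 5) (nat_lit 426) (nat_lit 340) (nat_lit 134)) (XT.lf (nat_lit 0) (nat_lit 45405715281) (nat_lit 228) (nat_lit 2081619180) (nat_lit 76) (nat_lit 18712680392) (nat_lit 47) (nat_lit 5) (nat_lit 50) (nat_lit 5) (nat_lit 48) (nat_lit 5) (nat_lit 427) (nat_lit 340) (nat_lit 133))))) (XT.nd (nat_lit 234) (nat_lit 152) (nat_lit 0) (XT.nd (nat_lit 78) (nat_lit 228) (nat_lit 0) (XT.lf (nat_lit 0) (nat_lit 28187817662) (nat_lit 152) (nat_lit 31178741198) (nat_lit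 228) (nat_lit 8297594651) (nat_lit 45) (nat_lit 5) (nat_lit 47) (nat_lit 5) (nat_lit 48) (nat_lit 5) (nat_lit 428) (nat_lit 340) (nat_lit 132)) (XT.nd (nat_lit 78) (nat_lit 152) (nat_lit 0) (XT.lf (nat_lit 0) (nat_lit 4503778479) (nat_lit 228) (nat_lit 9811607556) (nat_lit 76) (nat_lit 54854941136) (nat_lit 44) (nat_lit 5) (nat_lit 47) (nat_lit 5) (nat_lit 45) (nat_lit 5) (nat_lit 429) (nat_lit 340) (nat_lit 131)) (XT.lf (nat_lit 0) (nat_lit 17754957809) (nat_lit 228) (nat_lit 49677085143) (nat_lit 76) (nat_lit 3280202848) (nat_lit 42) (nat_lit 5) (nat_lit 45) (nat_lit 5) (nat_lit 43) (nat_lit 5) (nat_lit 430) (nat_lit 340) (nat_lit 130)))) (XT.nd (nat_lit 156) (nat_lit 0) (nat_lit 0) (XT.nd (nat_lit 78) (nat_lit 152) (nat_lit 0) (XT.lf (nat_lit 0) (nat_lit 31643337810) (nat_lit 228) (nat_lit 19435460882) (nat_lit 76) (nat_lit 21214433868) (nat_lit 42) (nat_lit 5) (nat_lit 45) (nat_lit 5) (nat_lit 43)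 (nat_lit 5) (nat_lit 431) (nat_lit 340) (nat_lit 129)) (XT.lf (nat_lit 0) (nat_lit 11942814759) (nat_lit 152) (nat_lit 34118287963) (nat_lit 228) (nat_lit 27857164708) (nat_lit 40) (nat_lit 5) (nat_lit 42) (nat_lit 5) (nat_lit 43) (nat_lit 5) (nat_lit 432) (nat_lit 340) (nat_lit 128))) (XT.nd (nat_lit 39702) (nat_lit 0) (nat_lit 14136) (XT.lf (nat_lit 0) (nat_lit 44657237616) (nat_lit 152) (nat_lit 16448380429) (nat_lit 228) (nat_lit 14480609278) (nat_lit 40) (nat_lit 5) (nat_lit 42) (nat_lit 5) (nat_lit 43) (nat_lit 5) (nat_lit 433) (nat_lit 340) (nat_lit 127)) (XT.lf (nat_lit 0) (nat_lit 1275528536) (nat_lit 0) (nat_lit 1275528536) (nat_lit 1140) (nat_lit 4418540121) (nat_lit 226) (nat_lit 5) (nat_lit 226) (nat_lit 3) (nat_lit 241) (nat_lit 3) (nat_lit 341) (nat_lit 341) (nat_lit 218))))))) (XT.nd (nat_lit 1014) (nat_lit 4028) (nat_lit 0) (XT.nd (nat_lit 468) (nat_lit 0) (nat_lit 152) (XT.nd (nat_lit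 234) (nat_lit 0) (nat_lit 76) (XT.nd (nat_lit 78) (nat_lit 0) (nat_lit 0) (XT.lf (nat_lit 0) (nat_lit 5551137810) (nat_lit 1140) (nat_lit 4883874793) (nat_lit 1216) (nat_lit 3701834115) (nat_lit 226) (nat_lit 5) (nat_lit 241) (nat_lit 3) (nat_lit 242) (nat_lit 5) (nat_lit 342) (nat_lit 341) (nat_lit 217)) (XT.nd (nat_lit 78) (nat_lit 0) (nat_lit 76) (XT.lf (nat_lit 76) (nat_lit 1818720059) (nat_lit 0) (nat_lit 4224594905) (nat_lit 1216) (nat_lit 8296233351) (nat_lit 227) (nat_lit 5) (nat_lit 226) (nat_lit 5) (nat_lit 242) (nat_lit 5) (nat_lit 343) (nat_lit 341) (nat_lit 216)) (XT.lf (nat_lit 0) (nat_lit 6608254372) (nat_lit 1140) (nat_lit 5753118488) (nat_lit 1216) (nat_lit 2185228074) (nat_lit 227) (nat_lit 5) (nat_lit 242) (nat_lit 5) (nat_lit 243) (nat_lit 5) (nat_lit 344) (nat_lit 341) (nat_lit 215)))) (XT.nd (nat_lit 78) (nat_lit 0) (nat_lit 76) (XT.lf (nat_lit 76) (nat_lit 1191861863) (nat_lit 0)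 (nat_lit 6039245448) (nat_lit 1216) (nat_lit 7527538457) (nat_lit 228) (nat_lit 5) (nat_lit 227) (nat_lit 5) (nat_lit 243) (nat_lit 5) (nat_lit 345) (nat_lit 341) (nat_lit 214)) (XT.nd (nat_lit 78) (nat_lit 0) (nat_lit 0) (XT.lf (nat_lit 0) (nat_lit 7923876981) (nat_lit 1140) (nat_lit 6524839201) (nat_lit 1216) (nat_lit 526808144) (nat_lit 228) (nat_lit 5) (nat_lit 243) (nat_lit 5) (nat_lit 244) (nat_lit 5) (nat_lit 346) (nat_lit 341) (nat_lit 213)) (XT.lf (nat_lit 76) (nat_lit 674411644) (nat_lit 0) (nat_lit 8017662772) (nat_lit 1216) (nat_lit 6505204530) (nat_lit 229) (nat_lit 5) (nat_lit 228) (nat_lit 5) (nat_lit 244) (nat_lit 5) (nat_lit 347) (nat_lit 341) (nat_lit 212))))) (XT.nd (nat_lit 234) (nat_lit 0) (nat_lit 152) (XT.nd (nat_lit 78) (nat_lit 0) (nat_lit 76) (XT.lf (nat_lit 76) (nat_lit 8216146677) (nat_lit 0) (nat_lit 1321695650) (nat_lit 1216) (nat_lit 5886216923) (nat_lit 229) (nat_lit 5)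 (nat_lit 228) (nat_lit 5) (nat_lit 244) (nat_lit 5) (nat_lit 348) (nat_lit 341) (nat_lit 211)) (XT.nd (nat_lit 78) (nat_lit 0) (nat_lit 0) (XT.lf (nat_lit 76) (nat_lit 270769712) (nat_lit 0) (nat_lit 10183413996) (nat_lit 1216) (nat_lit 5202111765) (nat_lit 230) (nat_lit 5) (nat_lit 229) (nat_lit 5) (nat_lit 245) (nat_lit 5) (nat_lit 349) (nat_lit 341) (nat_lit 210)) (XT.lf (nat_lit 76) (nat_lit 8100880730) (nat_lit 0) (nat_lit 3372133716) (nat_lit 1216) (nat_lit 4420242641) (nat_lit 230) (nat_lit 5) (nat_lit 229) (nat_lit 5) (nat_lit 245) (nat_lit 5) (nat_lit 350) (nat_lit 341) (nat_lit 209)))) (XT.nd (nat_lit 156) (nat_lit 0) (nat_lit 76) (XT.nd (nat_lit 78) (nat_lit 0) (nat_lit 0) (XT.lf (nat_lit 0) (nat_lit 12547033757) (nat_lit 1140) (nat_lit 13935175) (nat_lit 1216) (nat_lit 3575627941) (nat_lit 230) (nat_lit 5) (nat_lit 245) (nat_lit 5) (nat_lit 246) (nat_lit 5) (nat_lit 351) (nat_lit 341) (nat_lit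 208)) (XT.lf (nat_lit 76) (nat_lit 8115574411) (nat_lit 0) (nat_lit 5639001716) (nat_lit 1216) (nat_lit 2629629456) (nat_lit 231) (nat_lit 5) (nat_lit 230) (nat_lit 5) (nat_lit 246) (nat_lit 5) (nat_lit 352) (nat_lit 341) (nat_lit 207))) (XT.nd (nat_lit 78) (nat_lit 0) (nat_lit 0) (XT.lf (nat_lit 0) (nat_lit 15002969568) (nat_lit 1140) (nat_lit 171833350) (nat_lit 1216) (nat_lit 1464308465) (nat_lit 231) (nat_lit 5) (nat_lit 246) (nat_lit 5) (nat_lit 247) (nat_lit 5) (nat_lit 353) (nat_lit 341) (nat_lit 206)) (XT.lf (nat_lit 76) (nat_lit 8266036094) (nat_lit 0) (nat_lit 8148509287) (nat_lit 1216) (nat_lit 483354413) (nat_lit 232) (nat_lit 5) (nat_lit 231) (nat_lit 5) (nat_lit 247) (nat_lit 5) (nat_lit 354) (nat_lit 341) (nat_lit 205)))))) (XT.nd (nat_lit 546) (nat_lit 1748) (nat_lit 0) (XT.nd (nat_lit 234) (nat_lit 1444) (nat_lit 0) (XT.nd (nat_lit 78) (nat_lit 0) (nat_lit 76) (XT.lf (nat_lit 0) (nat_lit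 682581102) (nat_lit 1216) (nat_lit 218044563) (nat_lit 1292) (nat_lit 16263861031) (nat_lit 215) (nat_lit 5) (nat_lit 231) (nat_lit 5) (nat_lit 232) (nat_lit 5) (nat_lit 355) (nat_lit 341) (nat_lit 204)) (XT.nd (nat_lit 78) (nat_lit 0) (nat_lit 0) (XT.lf (nat_lit 0) (nat_lit 2011301847) (nat_lit 1216) (nat_lit 8896625053) (nat_lit 1292) (nat_lit 6526881798) (nat_lit 216) (nat_lit 5) (nat_lit 232) (nat_lit 5) (nat_lit 233) (nat_lit 5) (nat_lit 356) (nat_lit 341) (nat_lit 203)) (XT.lf (nat_lit 0) (nat_lit 3382066490) (nat_lit 1216) (nat_lit 167975559) (nat_lit 1292) (nat_lit 14163139378) (nat_lit 216) (nat_lit 5) (nat_lit 232) (nat_lit 5) (nat_lit 233) (nat_lit 5) (nat_lit 357) (nat_lit 341) (nat_lit 202)))) (XT.nd (nat_lit 156) (nat_lit 608) (nat_lit 0) (XT.nd (nat_lit 78) (nat_lit 988) (nat_lit 0) (XT.lf (nat_lit 0) (nat_lit 4911276376) (nat_lit 1216) (nat_lit 9046413766) (nat_lit 76) (nat_lit 4038701870)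 (nat_lit 217) (nat_lit 5) (nat_lit 233) (nat_lit 5) (nat_lit 218) (nat_lit 5) (nat_lit 358) (nat_lit 341) (nat_lit 201)) (XT.lf (nat_lit 0) (nat_lit 14566171) (nat_lit 988) (nat_lit 6500298666) (nat_lit 1064) (nat_lit 11772385167) (nat_lit 204) (nat_lit 5) (nat_lit 217) (nat_lit 5) (nat_lit 218) (nat_lit 5) (nat_lit 359) (nat_lit 341) (nat_lit 200))) (XT.nd (nat_lit 78) (nat_lit 608) (nat_lit 0) (XT.lf (nat_lit 0) (nat_lit 8261853828) (nat_lit 1064) (nat_lit 9071140904) (nat_lit 76) (nat_lit 1250986198) (nat_lit 204) (nat_lit 5) (nat_lit 218) (nat_lit 5) (nat_lit 205) (nat_lit 5) (nat_lit 360) (nat_lit 341) (nat_lit 199)) (XT.lf (nat_lit 0) (nat_lit 341361135) (nat_lit 608) (nat_lit 9779460910) (nat_lit 684) (nat_lit 8767010456) (nat_lit 196) (nat_lit 5) (nat_lit 204) (nat_lit 5) (nat_lit 205) (nat_lit 5) (nat_lit 361) (nat_lit 341) (nat_lit 198))))) (XT.nd (nat_lit 234) (nat_lit 1216) (nat_lit 0) (XT.nd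 (nat_lit 78) (nat_lit 532) (nat_lit 0) (XT.lf (nat_lit 0) (nat_lit 10214871201) (nat_lit 608) (nat_lit 1904382391) (nat_lit 684) (nat_lit 7079040836) (nat_lit 196) (nat_lit 5) (nat_lit 204) (nat_lit 5) (nat_lit 205) (nat_lit 5) (nat_lit 362) (nat_lit 341) (nat_lit 197)) (XT.nd (nat_lit 78) (nat_lit 0) (nat_lit 0) (XT.lf (nat_lit 0) (nat_lit 815418430) (nat_lit 532) (nat_lit 13422052278) (nat_lit 608) (nat_lit 5278809997) (nat_lit 189) (nat_lit 5) (nat_lit 196) (nat_lit 5) (nat_lit 197) (nat_lit 5) (nat_lit 363) (nat_lit 341) (nat_lit 196)) (XT.lf (nat_lit 0) (nat_lit 11065873496) (nat_lit 532) (nat_lit 5455229061) (nat_lit 608) (nat_lit 3319653279) (nat_lit 189) (nat_lit 5) (nat_lit 196) (nat_lit 5) (nat_lit 197) (nat_lit 5) (nat_lit 364) (nat_lit 341) (nat_lit 195)))) (XT.nd (nat_lit 156) (nat_lit 532) (nat_lit 0) (XT.nd (nat_lit 78) (nat_lit 76) (nat_lit 0) (XT.lf (nat_lit 0) (nat_lit 1443313555) (nat_lit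 608) (nat_lit 17462948331) (nat_lit 684) (nat_lit 1267717939) (nat_lit 181) (nat_lit 5) (nat_lit 189) (nat_lit 5) (nat_lit 190) (nat_lit 5) (nat_lit 365) (nat_lit 341) (nat_lit 194)) (XT.lf (nat_lit 0) (nat_lit 965541411) (nat_lit 684) (nat_lit 8436994566) (nat_lit 76) (nat_lit 11110337411) (nat_lit 180) (nat_lit 5) (nat_lit 189) (nat_lit 5) (nat_lit 181) (nat_lit 5) (nat_lit 366) (nat_lit 341) (nat_lit 193))) (XT.nd (nat_lit 78) (nat_lit 0) (nat_lit 0) (XT.lf (nat_lit 0) (nat_lit 2188490945) (nat_lit 532) (nat_lit 1065846858) (nat_lit 608) (nat_lit 17606803551) (nat_lit 173) (nat_lit 5) (nat_lit 180) (nat_lit 5) (nat_lit 181) (nat_lit 5) (nat_lit 367) (nat_lit 341) (nat_lit 192)) (XT.lf (nat_lit 0) (nat_lit 5763251095) (nat_lit 608) (nat_lit 7992038797) (nat_lit 76) (nat_lit 7460028459) (nat_lit 173) (nat_lit 5) (nat_lit 181) (nat_lit 5) (nat_lit 174) (nat_lit 5) (nat_lit 368) (nat_lit 341) (nat_lit 191))))))))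
noncomputable def xc199 : XT := (XT.nd (nat_lit 2028) (nat_lit 3268) (nat_lit 0) (XT.nd (nat_lit 1014) (nat_lit 2508) (nat_lit 0) (XT.nd (nat_lit 468) (nat_lit 1748) (nat_lit 0) (XT.nd (nat_lit 234) (nat_lit 532) (nat_lit 0) (XT.nd (nat_lit 78) (nat_lit 456) (nat_lit 0) (XT.lf (nat_lit 0) (nat_lit 3050895435) (nat_lit 532) (nat_lit 5329733319) (nat_lit 608) (nat_lit 13198500444) (nat_lit 166) (nat_lit 5) (nat_lit 173) (nat_lit 5) (nat_lit 174) (nat_lit 5) (nat_lit 369) (nat_lit 341) (nat_lit 190)) (XT.nd (nat_lit 78) (nat_lit 456) (nat_lit 0) (XT.lf (nat_lit 0) (nat_lit 11183659320) (nat_lit 608) (nat_lit 7402678361) (nat_lit 76) (nat_lit 3364307064) (nat_lit 166) (nat_lit 5) (nat_lit 174) (nat_lit 5) (nat_lit 167) (nat_lit 5) (nat_lit 370) (nat_lit 341) (nat_lit 189)) (XT.lf (nat_lit 0) (nat_lit 4076425622) (nat_lit 456) (nat_lit 10079940892) (nat_lit 532) (nat_lit 8174375865) (nat_lit 160) (nat_lit 5)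 (nat_lit 166) (nat_lit 5) (nat_lit 167) (nat_lit 5) (nat_lit 371) (nat_lit 341) (nat_lit 188)))) (XT.nd (nat_lit 78) (nat_lit 532) (nat_lit 0) (XT.lf (nat_lit 0) (nat_lit 16044724752) (nat_lit 456) (nat_lit 1242032620) (nat_lit 532) (nat_lit 5433434567) (nat_lit 160) (nat_lit 5) (nat_lit 166) (nat_lit 5) (nat_lit 167) (nat_lit 5) (nat_lit 372) (nat_lit 341) (nat_lit 187)) (XT.nd (nat_lit 78) (nat_lit 76) (nat_lit 0) (XT.lf (nat_lit 0) (nat_lit 5271138302) (nat_lit 456) (nat_lit 15360081574) (nat_lit 532) (nat_lit 2486504267) (nat_lit 154) (nat_lit 5) (nat_lit 160) (nat_lit 5) (nat_lit 161) (nat_lit 5) (nat_lit 373) (nat_lit 341) (nat_lit 186)) (XT.lf (nat_lit 0) (nat_lit 612472171) (nat_lit 532) (nat_lit 5837377612) (nat_lit 76) (nat_lit 17074947545) (nat_lit 153) (nat_lit 5) (nat_lit 160) (nat_lit 5) (nat_lit 154) (nat_lit 5) (nat_lit 374) (nat_lit 341) (nat_lit 185))))) (XT.nd (nat_lit 234) (nat_lit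 836) (nat_lit 0) (XT.nd (nat_lit 78) (nat_lit 456) (nat_lit 0) (XT.lf (nat_lit 0) (nat_lit 3839410125) (nat_lit 532) (nat_lit 17338589119) (nat_lit 76) (nat_lit 2762799462) (nat_lit 147) (nat_lit 5) (nat_lit 154) (nat_lit 5) (nat_lit 148) (nat_lit 5) (nat_lit 375) (nat_lit 341) (nat_lit 184)) (XT.nd (nat_lit 78) (nat_lit 456) (nat_lit 0) (XT.lf (nat_lit 0) (nat_lit 7280792370) (nat_lit 532) (nat_lit 4904167707) (nat_lit 76) (nat_lit 12180794476) (nat_lit 147) (nat_lit 5) (nat_lit 154) (nat_lit 5) (nat_lit 148) (nat_lit 5) (nat_lit 376) (nat_lit 341) (nat_lit 183)) (XT.lf (nat_lit 0) (nat_lit 8053787107) (nat_lit 456) (nat_lit 2843461038) (nat_lit 532) (nat_lit 13904059377) (nat_lit 141) (nat_lit 5) (nat_lit 147) (nat_lit 5) (nat_lit 148) (nat_lit 5) (nat_lit 377) (nat_lit 341) (nat_lit 182)))) (XT.nd (nat_lit 156) (nat_lit 456) (nat_lit 0) (XT.nd (nat_lit 78) (nat_lit 380) (nat_lit 0) (XT.lf (nat_lit 0)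 (nat_lit 14731870229) (nat_lit 532) (nat_lit 3819827175) (nat_lit 76) (nat_lit 6694942809) (nat_lit 141) (nat_lit 5) (nat_lit 148) (nat_lit 5) (nat_lit 142) (nat_lit 5) (nat_lit 378) (nat_lit 341) (nat_lit 181)) (XT.lf (nat_lit 0) (nat_lit 9649283000) (nat_lit 380) (nat_lit 9147818807) (nat_lit 456) (nat_lit 6904767167) (nat_lit 136) (nat_lit 5) (nat_lit 141) (nat_lit 5) (nat_lit 142) (nat_lit 5) (nat_lit 379) (nat_lit 341) (nat_lit 180))) (XT.nd (nat_lit 78) (nat_lit 456) (nat_lit 0) (XT.lf (nat_lit 0) (nat_lit 23023162336) (nat_lit 456) (nat_lit 2581020685) (nat_lit 76) (nat_lit 565408537) (nat_lit 136) (nat_lit 5) (nat_lit 142) (nat_lit 5) (nat_lit 137) (nat_lit 5) (nat_lit 380) (nat_lit 341) (nat_lit 179)) (XT.lf (nat_lit 0) (nat_lit 907699089) (nat_lit 456) (nat_lit 15233859506) (nat_lit 76) (nat_lit 10503665762) (nat_lit 130) (nat_lit 5) (nat_lit 136) (nat_lit 5) (nat_lit 131) (nat_lit 5) (nat_lit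 381) (nat_lit 341) (nat_lit 178)))))) (XT.nd (nat_lit 468) (nat_lit 1444) (nat_lit 0) (XT.nd (nat_lit 234) (nat_lit 304) (nat_lit 0) (XT.nd (nat_lit 78) (nat_lit 760) (nat_lit 0) (XT.lf (nat_lit 0) (nat_lit 5041464324) (nat_lit 456) (nat_lit 1295809215) (nat_lit 76) (nat_lit 20796283279) (nat_lit 130) (nat_lit 5) (nat_lit 136) (nat_lit 5) (nat_lit 131) (nat_lit 5) (nat_lit 382) (nat_lit 341) (nat_lit 177)) (XT.nd (nat_lit 78) (nat_lit 380) (nat_lit 0) (XT.lf (nat_lit 0) (nat_lit 9459711562) (nat_lit 456) (nat_lit 14356369626) (nat_lit 76) (nat_lit 3815646764) (nat_lit 125) (nat_lit 5) (nat_lit 131) (nat_lit 5) (nat_lit 126) (nat_lit 5) (nat_lit 383) (nat_lit 341) (nat_lit 176)) (XT.lf (nat_lit 0) (nat_lit 98450031) (nat_lit 380) (nat_lit 13984111983) (nat_lit 456) (nat_lit 14060123226) (nat_lit 120) (nat_lit 5) (nat_lit 125) (nat_lit 5) (nat_lit 126) (nat_lit 5) (nat_lit 384) (nat_lit 341) (nat_lit 175))))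 (XT.nd (nat_lit 78) (nat_lit 304) (nat_lit 0) (XT.lf (nat_lit 0) (nat_lit 15274899924) (nat_lit 380) (nat_lit 3709399364) (nat_lit 456) (nat_lit 9680468531) (nat_lit 120) (nat_lit 5) (nat_lit 125) (nat_lit 5) (nat_lit 126) (nat_lit 5) (nat_lit 385) (nat_lit 341) (nat_lit 174)) (XT.nd (nat_lit 78) (nat_lit 0) (nat_lit 0) (XT.lf (nat_lit 0) (nat_lit 1664284488) (nat_lit 304) (nat_lit 22446229846) (nat_lit 380) (nat_lit 5089678310) (nat_lit 116) (nat_lit 5) (nat_lit 120) (nat_lit 5) (nat_lit 121) (nat_lit 5) (nat_lit 386) (nat_lit 341) (nat_lit 173)) (XT.lf (nat_lit 0) (nat_lit 17400894895) (nat_lit 304) (nat_lit 12156629543) (nat_lit 380) (nat_lit 189147980) (nat_lit 116) (nat_lit 5) (nat_lit 120) (nat_lit 5) (nat_lit 121) (nat_lit 5) (nat_lit 387) (nat_lit 341) (nat_lit 172))))) (XT.nd (nat_lit 234) (nat_lit 684) (nat_lit 0) (XT.nd (nat_lit 78) (nat_lit 304) (nat_lit 0) (XT.lf (nat_lit 0) (nat_lit 3311882533)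 (nat_lit 380) (nat_lit 1479064075) (nat_lit 456) (nat_lit 25516380649) (nat_lit 110) (nat_lit 5) (nat_lit 115) (nat_lit 5) (nat_lit 116) (nat_lit 5) (nat_lit 388) (nat_lit 341) (nat_lit 171)) (XT.nd (nat_lit 78) (nat_lit 304) (nat_lit 0) (XT.lf (nat_lit 0) (nat_lit 10129619833) (nat_lit 456) (nat_lit 11289479311) (nat_lit 76) (nat_lit 9459259342) (nat_lit 110) (nat_lit 5) (nat_lit 116) (nat_lit 5) (nat_lit 111) (nat_lit 5) (nat_lit 389) (nat_lit 341) (nat_lit 170)) (XT.lf (nat_lit 0) (nat_lit 4963905460) (nat_lit 304) (nat_lit 10722611197) (nat_lit 380) (nat_lit 15778264281) (nat_lit 106) (nat_lit 5) (nat_lit 110) (nat_lit 5) (nat_lit 111) (nat_lit 5) (nat_lit 390) (nat_lit 341) (nat_lit 169)))) (XT.nd (nat_lit 156) (nat_lit 380) (nat_lit 0) (XT.nd (nat_lit 78) (nat_lit 304) (nat_lit 0) (XT.lf (nat_lit 0) (nat_lit 21523839330) (nat_lit 380) (nat_lit 10139056419) (nat_lit 76) (nat_lit 402490872) (nat_lit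 106) (nat_lit 5) (nat_lit 111) (nat_lit 5) (nat_lit 107) (nat_lit 5) (nat_lit 391) (nat_lit 341) (nat_lit 168)) (XT.lf (nat_lit 0) (nat_lit 6732979975) (nat_lit 304) (nat_lit 20970066422) (nat_lit 380) (nat_lit 4975963200) (nat_lit 102) (nat_lit 5) (nat_lit 106) (nat_lit 5) (nat_lit 107) (nat_lit 5) (nat_lit 392) (nat_lit 341) (nat_lit 167))) (XT.nd (nat_lit 78) (nat_lit 304) (nat_lit 0) (XT.lf (nat_lit 0) (nat_lit 841123822) (nat_lit 380) (nat_lit 9003121604) (nat_lit 76) (nat_lit 23463600622) (nat_lit 101) (nat_lit 5) (nat_lit 106) (nat_lit 5) (nat_lit 102) (nat_lit 5) (nat_lit 393) (nat_lit 341) (nat_lit 166)) (XT.lf (nat_lit 0) (nat_lit 6827830609) (nat_lit 380) (nat_lit 25408402346) (nat_lit 76) (nat_lit 1714984943) (nat_lit 97) (nat_lit 5) (nat_lit 102) (nat_lit 5) (nat_lit 98) (nat_lit 5) (nat_lit 394) (nat_lit 341) (nat_lit 165))))))) (XT.nd (nat_lit 1014) (nat_lit 1596) (nat_lit 0) (XT.nd (nat_lit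 468) (nat_lit 760) (nat_lit 0) (XT.nd (nat_lit 234) (nat_lit 608) (nat_lit 0) (XT.nd (nat_lit 78) (nat_lit 304) (nat_lit 0) (XT.lf (nat_lit 0) (nat_lit 13179485493) (nat_lit 380) (nat_lit 7915604275) (nat_lit 76) (nat_lit 13513242562) (nat_lit 97) (nat_lit 5) (nat_lit 102) (nat_lit 5) (nat_lit 98) (nat_lit 5) (nat_lit 395) (nat_lit 341) (nat_lit 164)) (XT.nd (nat_lit 78) (nat_lit 0) (nat_lit 0) (XT.lf (nat_lit 0) (nat_lit 10297324499) (nat_lit 304) (nat_lit 9519529420) (nat_lit 380) (nat_lit 15465453138) (nat_lit 93) (nat_lit 5) (nat_lit 97) (nat_lit 5) (nat_lit 98) (nat_lit 5) (nat_lit 396) (nat_lit 341) (nat_lit 163)) (XT.lf (nat_lit 0) (nat_lit 26753389569) (nat_lit 380) (nat_lit 6784727029) (nat_lit 76) (nat_lit 2435384771) (nat_lit 93) (nat_lit 5) (nat_lit 98) (nat_lit 5) (nat_lit 94) (nat_lit 5) (nat_lit 397) (nat_lit 341) (nat_lit 162)))) (XT.nd (nat_lit 78) (nat_lit 380) (nat_lit 0) (XT.lf (nat_lit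 0) (nat_lit 12097886985) (nat_lit 228) (nat_lit 22007010147) (nat_lit 304) (nat_lit 2574329781) (nat_lit 90) (nat_lit 5) (nat_lit 93) (nat_lit 5) (nat_lit 94) (nat_lit 5) (nat_lit 398) (nat_lit 341) (nat_lit 161)) (XT.nd (nat_lit 78) (nat_lit 304) (nat_lit 0) (XT.lf (nat_lit 0) (nat_lit 4253025500) (nat_lit 304) (nat_lit 5765231702) (nat_lit 76) (nat_lit 27384670818) (nat_lit 89) (nat_lit 5) (nat_lit 93) (nat_lit 5) (nat_lit 90) (nat_lit 5) (nat_lit 399) (nat_lit 341) (nat_lit 160)) (XT.lf (nat_lit 0) (nat_lit 11387049050) (nat_lit 380) (nat_lit 24312740821) (nat_lit 76) (nat_lit 2443179501) (nat_lit 85) (nat_lit 5) (nat_lit 90) (nat_lit 5) (nat_lit 86) (nat_lit 5) (nat_lit 400) (nat_lit 341) (nat_lit 159))))) (XT.nd (nat_lit 234) (nat_lit 532) (nat_lit 0) (XT.nd (nat_lit 78) (nat_lit 228) (nat_lit 0) (XT.lf (nat_lit 0) (nat_lit 18889567859) (nat_lit 380) (nat_lit 4876865640) (nat_lit 76) (nat_lit 15134145717)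 (nat_lit 85) (nat_lit 5) (nat_lit 90) (nat_lit 5) (nat_lit 86) (nat_lit 5) (nat_lit 401) (nat_lit 341) (nat_lit 158)) (XT.nd (nat_lit 78) (nat_lit 0) (nat_lit 0) (XT.lf (nat_lit 0) (nat_lit 15438128276) (nat_lit 228) (nat_lit 11324026865) (nat_lit 304) (nat_lit 12914413875) (nat_lit 82) (nat_lit 5) (nat_lit 85) (nat_lit 5) (nat_lit 86) (nat_lit 5) (nat_lit 402) (nat_lit 341) (nat_lit 157)) (XT.lf (nat_lit 0) (nat_lit 34931617599) (nat_lit 304) (nat_lit 4031889146) (nat_lit 76) (nat_lit 1510512244) (nat_lit 82) (nat_lit 5) (nat_lit 86) (nat_lit 5) (nat_lit 83) (nat_lit 5) (nat_lit 403) (nat_lit 341) (nat_lit 156)))) (XT.nd (nat_lit 156) (nat_lit 228) (nat_lit 0) (XT.nd (nat_lit 78) (nat_lit 0) (nat_lit 0) (XT.lf (nat_lit 0) (nat_lit 2285658355) (nat_lit 304) (nat_lit 24314348713) (nat_lit 76) (nat_lit 14686548174) (nat_lit 78) (nat_lit 5) (nat_lit 82) (nat_lit 5) (nat_lit 79) (nat_lit 5) (nat_lit 404) (nat_lit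 341) (nat_lit 155)) (XT.lf (nat_lit 0) (nat_lit 10275016930) (nat_lit 304) (nat_lit 3493557983) (nat_lit 76) (nat_lit 28352112082) (nat_lit 78) (nat_lit 5) (nat_lit 82) (nat_lit 5) (nat_lit 79) (nat_lit 5) (nat_lit 405) (nat_lit 341) (nat_lit 154))) (XT.nd (nat_lit 78) (nat_lit 0) (nat_lit 0) (XT.lf (nat_lit 0) (nat_lit 18304075390) (nat_lit 228) (nat_lit 372762427) (nat_lit 304) (nat_lit 24297822687) (nat_lit 75) (nat_lit 5) (nat_lit 78) (nat_lit 5) (nat_lit 79) (nat_lit 5) (nat_lit 406) (nat_lit 341) (nat_lit 153)) (XT.lf (nat_lit 0) (nat_lit 27492248769) (nat_lit 304) (nat_lit 3160329094) (nat_lit 76) (nat_lit 13196830502) (nat_lit 75) (nat_lit 5) (nat_lit 79) (nat_lit 5) (nat_lit 76) (nat_lit 5) (nat_lit 407) (nat_lit 341) (nat_lit 152)))))) (XT.nd (nat_lit 546) (nat_lit 684) (nat_lit 0) (XT.nd (nat_lit 234) (nat_lit 380) (nat_lit 0) (XT.nd (nat_lit 78) (nat_lit 304) (nat_lit 0) (XT.lf (nat_lit 0)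 (nat_lit 19364573135) (nat_lit 228) (nat_lit 17394334705) (nat_lit 304) (nat_lit 7985888426) (nat_lit 72) (nat_lit 5) (nat_lit 75) (nat_lit 5) (nat_lit 76) (nat_lit 5) (nat_lit 408) (nat_lit 341) (nat_lit 151)) (XT.nd (nat_lit 78) (nat_lit 228) (nat_lit 0) (XT.lf (nat_lit 0) (nat_lit 653291933) (nat_lit 304) (nat_lit 3047374327) (nat_lit 76) (nat_lit 41965321337) (nat_lit 71) (nat_lit 5) (nat_lit 75) (nat_lit 5) (nat_lit 72) (nat_lit 5) (nat_lit 409) (nat_lit 341) (nat_lit 150)) (XT.lf (nat_lit 0) (nat_lit 9685713428) (nat_lit 304) (nat_lit 26442229008) (nat_lit 76) (nat_lit 10475664038) (nat_lit 68) (nat_lit 5) (nat_lit 72) (nat_lit 5) (nat_lit 69) (nat_lit 5) (nat_lit 410) (nat_lit 341) (nat_lit 149)))) (XT.nd (nat_lit 156) (nat_lit 152) (nat_lit 0) (XT.nd (nat_lit 78) (nat_lit 228) (nat_lit 0) (XT.lf (nat_lit 0) (nat_lit 19053900306) (nat_lit 304) (nat_lit 3481256706) (nat_lit 76) (nat_lit 25032254168)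 (nat_lit 68) (nat_lit 5) (nat_lit 72) (nat_lit 5) (nat_lit 69) (nat_lit 5) (nat_lit 411) (nat_lit 341) (nat_lit 148)) (XT.lf (nat_lit 0) (nat_lit 20565243806) (nat_lit 228) (nat_lit 8332735171) (nat_lit 304) (nat_lit 19656306680) (nat_lit 65) (nat_lit 5) (nat_lit 68) (nat_lit 5) (nat_lit 69) (nat_lit 5) (nat_lit 412) (nat_lit 341) (nat_lit 147))) (XT.nd (nat_lit 78) (nat_lit 152) (nat_lit 0) (XT.lf (nat_lit 0) (nat_lit 39130583106) (nat_lit 304) (nat_lit 4230702741) (nat_lit 76) (nat_lit 6206685413) (nat_lit 65) (nat_lit 5) (nat_lit 69) (nat_lit 5) (nat_lit 66) (nat_lit 5) (nat_lit 413) (nat_lit 341) (nat_lit 146)) (XT.lf (nat_lit 0) (nat_lit 20554485062) (nat_lit 152) (nat_lit 29393029454) (nat_lit 228) (nat_lit 656233397) (nat_lit 63) (nat_lit 5) (nat_lit 65) (nat_lit 5) (nat_lit 66) (nat_lit 5) (nat_lit 414) (nat_lit 341) (nat_lit 145))))) (XT.nd (nat_lit 234) (nat_lit 380) (nat_lit 0) (XT.nd (nat_lit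 78) (nat_lit 228) (nat_lit 0) (XT.lf (nat_lit 0) (nat_lit 9274988585) (nat_lit 228) (nat_lit 5594822757) (nat_lit 76) (nat_lit 36796858818) (nat_lit 62) (nat_lit 5) (nat_lit 65) (nat_lit 5) (nat_lit 63) (nat_lit 5) (nat_lit 415) (nat_lit 341) (nat_lit 144)) (XT.nd (nat_lit 78) (nat_lit 0) (nat_lit 0) (XT.lf (nat_lit 0) (nat_lit 19683100071) (nat_lit 304) (nat_lit 32786301210) (nat_lit 76) (nat_lit 286120472) (nat_lit 59) (nat_lit 5) (nat_lit 63) (nat_lit 5) (nat_lit 60) (nat_lit 5) (nat_lit 416) (nat_lit 341) (nat_lit 143)) (XT.lf (nat_lit 0) (nat_lit 30605109092) (nat_lit 304) (nat_lit 7612646703) (nat_lit 76) (nat_lit 15653234323) (nat_lit 59) (nat_lit 5) (nat_lit 63) (nat_lit 5) (nat_lit 60) (nat_lit 5) (nat_lit 417) (nat_lit 341) (nat_lit 142)))) (XT.nd (nat_lit 156) (nat_lit 228) (nat_lit 0) (XT.nd (nat_lit 78) (nat_lit 0) (nat_lit 0) (XT.lf (nat_lit 0) (nat_lit 18676398122) (nat_lit 152) (nat_lit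 23355357986) (nat_lit 228) (nat_lit 12982857921) (nat_lit 57) (nat_lit 5) (nat_lit 59) (nat_lit 5) (nat_lit 60) (nat_lit 5) (nat_lit 418) (nat_lit 341) (nat_lit 141)) (XT.lf (nat_lit 0) (nat_lit 45905944767) (nat_lit 152) (nat_lit 7969613061) (nat_lit 228) (nat_lit 2314758969) (nat_lit 57) (nat_lit 5) (nat_lit 59) (nat_lit 5) (nat_lit 60) (nat_lit 5) (nat_lit 419) (nat_lit 341) (nat_lit 140))) (XT.nd (nat_lit 78) (nat_lit 0) (nat_lit 0) (XT.lf (nat_lit 0) (nat_lit 8741205111) (nat_lit 228) (nat_lit 40680932529) (nat_lit 76) (nat_lit 7969540416) (nat_lit 54) (nat_lit 5) (nat_lit 57) (nat_lit 5) (nat_lit 55) (nat_lit 5) (nat_lit 420) (nat_lit 341) (nat_lit 139)) (XT.lf (nat_lit 0) (nat_lit 20263658264) (nat_lit 228) (nat_lit 14006447506) (nat_lit 76) (nat_lit 24352847528) (nat_lit 54) (nat_lit 5) (nat_lit 57) (nat_lit 5) (nat_lit 55) (nat_lit 5) (nat_lit 421) (nat_lit 341) (nat_lit 138))))))))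
noncomputable def xc200 : XT := (XT.nd (nat_lit 41730) (nat_lit 0) (nat_lit 6840) (XT.nd (nat_lit 40716) (nat_lit 0) (nat_lit 14136) (XT.nd (nat_lit 468) (nat_lit 532) (nat_lit 0) (XT.nd (nat_lit 234) (nat_lit 228) (nat_lit 0) (XT.nd (nat_lit 78) (nat_lit 152) (nat_lit 0) (XT.lf (nat_lit 0) (nat_lit 13732192559) (nat_lit 152) (nat_lit 18529213352) (nat_lit 228) (nat_lit 27625872971) (nat_lit 52) (nat_lit 5) (nat_lit 54) (nat_lit 5) (nat_lit 55) (nat_lit 5) (nat_lit 422) (nat_lit 341) (nat_lit 137)) (XT.nd (nat_lit 78) (nat_lit 152) (nat_lit 0) (XT.lf (nat_lit 0) (nat_lit 42586105869) (nat_lit 152) (nat_lit 2172067304) (nat_lit 228) (nat_lit 16427189136) (nat_lit 52) (nat_lit 5) (nat_lit 54) (nat_lit 5) (nat_lit 55) (nat_lit 5) (nat_lit 423) (nat_lit 341) (nat_lit 136)) (XT.lf (nat_lit 0) (nat_lit 9830053935) (nat_lit 152) (nat_lit 48033057267) (nat_lit 228) (nat_lit 4652279675) (nat_lit 50) (nat_lit 5)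 (nat_lit 52) (nat_lit 5) (nat_lit 53) (nat_lit 5) (nat_lit 424) (nat_lit 341) (nat_lit 135)))) (XT.nd (nat_lit 78) (nat_lit 152) (nat_lit 0) (XT.lf (nat_lit 0) (nat_lit 7538885842) (nat_lit 228) (nat_lit 24485352614) (nat_lit 76) (nat_lit 31852659896) (nat_lit 49) (nat_lit 5) (nat_lit 52) (nat_lit 5) (nat_lit 50) (nat_lit 5) (nat_lit 425) (nat_lit 341) (nat_lit 134)) (XT.nd (nat_lit 78) (nat_lit 0) (nat_lit 0) (XT.lf (nat_lit 0) (nat_lit 4600507512) (nat_lit 152) (nat_lit 15443771083) (nat_lit 228) (nat_lit 45232331251) (nat_lit 47) (nat_lit 5) (nat_lit 49) (nat_lit 5) (nat_lit 50) (nat_lit 5) (nat_lit 426) (nat_lit 341) (nat_lit 133)) (XT.lf (nat_lit 0) (nat_lit 33188031814) (nat_lit 228) (nat_lit 31672029562) (nat_lit 76) (nat_lit 1850355943) (nat_lit 47) (nat_lit 5) (nat_lit 50) (nat_lit 5) (nat_lit 48) (nat_lit 5) (nat_lit 427) (nat_lit 341) (nat_lit 132))))) (XT.nd (nat_lit 234) (nat_lit 304) (nat_lit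 0) (XT.nd (nat_lit 78) (nat_lit 228) (nat_lit 0) (XT.lf (nat_lit 0) (nat_lit 46876859170) (nat_lit 228) (nat_lit 1954478704) (nat_lit 76) (nat_lit 19351378876) (nat_lit 47) (nat_lit 5) (nat_lit 50) (nat_lit 5) (nat_lit 48) (nat_lit 5) (nat_lit 428) (nat_lit 341) (nat_lit 131)) (XT.nd (nat_lit 78) (nat_lit 76) (nat_lit 0) (XT.lf (nat_lit 0) (nat_lit 29221182527) (nat_lit 152) (nat_lit 32033976154) (nat_lit 228) (nat_lit 8435662824) (nat_lit 45) (nat_lit 5) (nat_lit 47) (nat_lit 5) (nat_lit 48) (nat_lit 5) (nat_lit 429) (nat_lit 341) (nat_lit 130)) (XT.lf (nat_lit 0) (nat_lit 4744422313) (nat_lit 228) (nat_lit 9921566176) (nat_lit 76) (nat_lit 56576255700) (nat_lit 44) (nat_lit 5) (nat_lit 47) (nat_lit 5) (nat_lit 45) (nat_lit 5) (nat_lit 430) (nat_lit 341) (nat_lit 129)))) (XT.nd (nat_lit 156) (nat_lit 152) (nat_lit 0) (XT.nd (nat_lit 78) (nat_lit 0) (nat_lit 0) (XT.lf (nat_lit 0) (nat_lit 18392571749)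 (nat_lit 228) (nat_lit 50982416718) (nat_lit 76) (nat_lit 3455449652) (nat_lit 42) (nat_lit 5) (nat_lit 45) (nat_lit 5) (nat_lit 43) (nat_lit 5) (nat_lit 431) (nat_lit 341) (nat_lit 128)) (XT.lf (nat_lit 0) (nat_lit 32694545911) (nat_lit 228) (nat_lit 19838931524) (nat_lit 76) (nat_lit 21925469524) (nat_lit 42) (nat_lit 5) (nat_lit 45) (nat_lit 5) (nat_lit 43) (nat_lit 5) (nat_lit 432) (nat_lit 341) (nat_lit 127))) (XT.nd (nat_lit 39780) (nat_lit 0) (nat_lit 14136) (XT.lf (nat_lit 0) (nat_lit 12478931669) (nat_lit 152) (nat_lit 35064653343) (nat_lit 228) (nat_lit 28589186364) (nat_lit 40) (nat_lit 5) (nat_lit 42) (nat_lit 5) (nat_lit 43) (nat_lit 5) (nat_lit 433) (nat_lit 341) (nat_lit 126)) (XT.lf (nat_lit 0) (nat_lit 1480278245) (nat_lit 0) (nat_lit 1480278245) (nat_lit 1140) (nat_lit 4207881268) (nat_lit 226) (nat_lit 5) (nat_lit 226) (nat_lit 3) (nat_lit 241) (nat_lit 3) (nat_lit 342) (nat_lit 342)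 (nat_lit 216)))))) (XT.nd (nat_lit 468) (nat_lit 0) (nat_lit 152) (XT.nd (nat_lit 234) (nat_lit 0) (nat_lit 76) (XT.nd (nat_lit 78) (nat_lit 0) (nat_lit 0) (XT.lf (nat_lit 0) (nat_lit 6361103716) (nat_lit 1140) (nat_lit 4684116186) (nat_lit 1216) (nat_lit 3495927675) (nat_lit 226) (nat_lit 5) (nat_lit 241) (nat_lit 3) (nat_lit 242) (nat_lit 5) (nat_lit 343) (nat_lit 342) (nat_lit 215)) (XT.nd (nat_lit 78) (nat_lit 0) (nat_lit 76) (XT.lf (nat_lit 76) (nat_lit 2216161660) (nat_lit 0) (nat_lit 4636439765) (nat_lit 1216) (nat_lit 7897806749) (nat_lit 227) (nat_lit 5) (nat_lit 226) (nat_lit 5) (nat_lit 242) (nat_lit 5) (nat_lit 344) (nat_lit 342) (nat_lit 214)) (XT.lf (nat_lit 0) (nat_lit 7413537333) (nat_lit 1140) (nat_lit 5571394361) (nat_lit 1216) (nat_lit 1979383413) (nat_lit 227) (nat_lit 5) (nat_lit 242) (nat_lit 5) (nat_lit 243) (nat_lit 5) (nat_lit 345) (nat_lit 342) (nat_lit 213)))) (XT.nd (nat_lit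 78) (nat_lit 0) (nat_lit 76) (XT.lf (nat_lit 76) (nat_lit 1578461698) (nat_lit 0) (nat_lit 6462306048) (nat_lit 1216) (nat_lit 7142396553) (nat_lit 228) (nat_lit 5) (nat_lit 227) (nat_lit 5) (nat_lit 243) (nat_lit 5) (nat_lit 346) (nat_lit 342) (nat_lit 212)) (XT.nd (nat_lit 78) (nat_lit 0) (nat_lit 0) (XT.lf (nat_lit 0) (nat_lit 8734799200) (nat_lit 1140) (nat_lit 6359992192) (nat_lit 1216) (nat_lit 312356832) (nat_lit 228) (nat_lit 5) (nat_lit 243) (nat_lit 5) (nat_lit 244) (nat_lit 5) (nat_lit 347) (nat_lit 342) (nat_lit 211)) (XT.lf (nat_lit 76) (nat_lit 1051700962) (nat_lit 0) (nat_lit 8461078528) (nat_lit 1216) (nat_lit 6123186864) (nat_lit 229) (nat_lit 5) (nat_lit 228) (nat_lit 5) (nat_lit 244) (nat_lit 5) (nat_lit 348) (nat_lit 342) (nat_lit 210))))) (XT.nd (nat_lit 234) (nat_lit 0) (nat_lit 152) (XT.nd (nat_lit 78) (nat_lit 0) (nat_lit 76) (XT.lf (nat_lit 76) (nat_lit 8809288328) (nat_lit 0)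 (nat_lit 1558323095) (nat_lit 1216) (nat_lit 5502440516) (nat_lit 229) (nat_lit 5) (nat_lit 228) (nat_lit 5) (nat_lit 244) (nat_lit 5) (nat_lit 349) (nat_lit 342) (nat_lit 209)) (XT.nd (nat_lit 78) (nat_lit 0) (nat_lit 0) (XT.lf (nat_lit 76) (nat_lit 640591428) (nat_lit 0) (nat_lit 10656656181) (nat_lit 1216) (nat_lit 4812445738) (nat_lit 230) (nat_lit 5) (nat_lit 229) (nat_lit 5) (nat_lit 245) (nat_lit 5) (nat_lit 350) (nat_lit 342) (nat_lit 208)) (XT.lf (nat_lit 76) (nat_lit 8695070864) (nat_lit 0) (nat_lit 3636151869) (nat_lit 1216) (nat_lit 4023015571) (nat_lit 230) (nat_lit 5) (nat_lit 229) (nat_lit 5) (nat_lit 245) (nat_lit 5) (nat_lit 351) (nat_lit 342) (nat_lit 207)))) (XT.nd (nat_lit 156) (nat_lit 0) (nat_lit 76) (XT.nd (nat_lit 78) (nat_lit 0) (nat_lit 0) (XT.lf (nat_lit 76) (nat_lit 350293579) (nat_lit 0) (nat_lit 13074045029) (nat_lit 1216) (nat_lit 3180944930) (nat_lit 231) (nat_lit 5) (nat_lit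 230) (nat_lit 5) (nat_lit 246) (nat_lit 5) (nat_lit 352) (nat_lit 342) (nat_lit 206)) (XT.lf (nat_lit 76) (nat_lit 8713345010) (nat_lit 0) (nat_lit 5940309717) (nat_lit 1216) (nat_lit 2207110554) (nat_lit 231) (nat_lit 5) (nat_lit 230) (nat_lit 5) (nat_lit 246) (nat_lit 5) (nat_lit 353) (nat_lit 342) (nat_lit 205))) (XT.nd (nat_lit 78) (nat_lit 0) (nat_lit 0) (XT.lf (nat_lit 76) (nat_lit 186396516) (nat_lit 0) (nat_lit 15739493825) (nat_lit 1216) (nat_lit 1197847075) (nat_lit 232) (nat_lit 5) (nat_lit 231) (nat_lit 5) (nat_lit 247) (nat_lit 5) (nat_lit 354) (nat_lit 342) (nat_lit 204)) (XT.lf (nat_lit 76) (nat_lit 8870237840) (nat_lit 0) (nat_lit 8497488433) (nat_lit 1216) (nat_lit 22936375) (nat_lit 232) (nat_lit 5) (nat_lit 231) (nat_lit 5) (nat_lit 247) (nat_lit 5) (nat_lit 355) (nat_lit 342) (nat_lit 203))))))) (XT.nd (nat_lit 1014) (nat_lit 3268) (nat_lit 0) (XT.nd (nat_lit 468) (nat_lit 2356) (nat_lit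 0) (XT.nd (nat_lit 234) (nat_lit 836) (nat_lit 0) (XT.nd (nat_lit 78) (nat_lit 0) (nat_lit 76) (XT.lf (nat_lit 76) (nat_lit 133187430) (nat_lit 0) (nat_lit 1023240021) (nat_lit 1292) (nat_lit 16509061168) (nat_lit 216) (nat_lit 5) (nat_lit 215) (nat_lit 5) (nat_lit 232) (nat_lit 5) (nat_lit 356) (nat_lit 342) (nat_lit 202)) (XT.nd (nat_lit 78) (nat_lit 0) (nat_lit 0) (XT.lf (nat_lit 0) (nat_lit 2513071598) (nat_lit 1216) (nat_lit 8797369547) (nat_lit 1292) (nat_lit 6633846942) (nat_lit 216) (nat_lit 5) (nat_lit 232) (nat_lit 5) (nat_lit 233) (nat_lit 5) (nat_lit 357) (nat_lit 342) (nat_lit 201)) (XT.lf (nat_lit 76) (nat_lit 186106349) (nat_lit 0) (nat_lit 3727784594) (nat_lit 1292) (nat_lit 14317462479) (nat_lit 217) (nat_lit 5) (nat_lit 216) (nat_lit 5) (nat_lit 233) (nat_lit 5) (nat_lit 358) (nat_lit 342) (nat_lit 200)))) (XT.nd (nat_lit 78) (nat_lit 988) (nat_lit 0) (XT.lf (nat_lit 0) (nat_lit 5477440553)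 (nat_lit 1216) (nat_lit 8952265533) (nat_lit 76) (nat_lit 4093709440) (nat_lit 217) (nat_lit 5) (nat_lit 233) (nat_lit 5) (nat_lit 218) (nat_lit 5) (nat_lit 359) (nat_lit 342) (nat_lit 199)) (XT.nd (nat_lit 78) (nat_lit 0) (nat_lit 0) (XT.lf (nat_lit 0) (nat_lit 376960070) (nat_lit 988) (nat_lit 6743457137) (nat_lit 1064) (nat_lit 11702852474) (nat_lit 204) (nat_lit 5) (nat_lit 217) (nat_lit 5) (nat_lit 218) (nat_lit 5) (nat_lit 360) (nat_lit 342) (nat_lit 198)) (XT.lf (nat_lit 0) (nat_lit 8907421658) (nat_lit 1064) (nat_lit 8979180393) (nat_lit 76) (nat_lit 1242680891) (nat_lit 204) (nat_lit 5) (nat_lit 218) (nat_lit 5) (nat_lit 205) (nat_lit 5) (nat_lit 361) (nat_lit 342) (nat_lit 197))))) (XT.nd (nat_lit 234) (nat_lit 1216) (nat_lit 0) (XT.nd (nat_lit 78) (nat_lit 532) (nat_lit 0) (XT.lf (nat_lit 0) (nat_lit 712127151) (nat_lit 608) (nat_lit 10101913509) (nat_lit 684) (nat_lit 8628461280) (nat_lit 196)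 (nat_lit 5) (nat_lit 204) (nat_lit 5) (nat_lit 205) (nat_lit 5) (nat_lit 362) (nat_lit 342) (nat_lit 196)) (XT.nd (nat_lit 78) (nat_lit 532) (nat_lit 0) (XT.lf (nat_lit 0) (nat_lit 10871341785) (nat_lit 608) (nat_lit 1989735971) (nat_lit 684) (nat_lit 6901548478) (nat_lit 196) (nat_lit 5) (nat_lit 204) (nat_lit 5) (nat_lit 205) (nat_lit 5) (nat_lit 363) (nat_lit 342) (nat_lit 195)) (XT.lf (nat_lit 0) (nat_lit 1198245581) (nat_lit 532) (nat_lit 13836760348) (nat_lit 608) (nat_lit 5055389088) (nat_lit 189) (nat_lit 5) (nat_lit 196) (nat_lit 5) (nat_lit 197) (nat_lit 5) (nat_lit 364) (nat_lit 342) (nat_lit 194)))) (XT.nd (nat_lit 156) (nat_lit 608) (nat_lit 0) (XT.nd (nat_lit 78) (nat_lit 608) (nat_lit 0) (XT.lf (nat_lit 0) (nat_lit 11745776495) (nat_lit 532) (nat_lit 5630581565) (nat_lit 608) (nat_lit 3048577627) (nat_lit 189) (nat_lit 5) (nat_lit 196) (nat_lit 5) (nat_lit 197) (nat_lit 5) (nat_lit 365)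 (nat_lit 342) (nat_lit 193)) (XT.lf (nat_lit 0) (nat_lit 1842174593) (nat_lit 608) (nat_lit 17983731861) (nat_lit 684) (nat_lit 942472314) (nat_lit 181) (nat_lit 5) (nat_lit 189) (nat_lit 5) (nat_lit 190) (nat_lit 5) (nat_lit 366) (nat_lit 342) (nat_lit 192))) (XT.nd (nat_lit 78) (nat_lit 532) (nat_lit 0) (XT.lf (nat_lit 0) (nat_lit 1340321553) (nat_lit 684) (nat_lit 8337783976) (nat_lit 76) (nat_lit 11439547059) (nat_lit 180) (nat_lit 5) (nat_lit 189) (nat_lit 5) (nat_lit 181) (nat_lit 5) (nat_lit 367) (nat_lit 342) (nat_lit 191)) (XT.lf (nat_lit 0) (nat_lit 2603011978) (nat_lit 532) (nat_lit 1088051125) (nat_lit 608) (nat_lit 17785513826) (nat_lit 173) (nat_lit 5) (nat_lit 180) (nat_lit 5) (nat_lit 181) (nat_lit 5) (nat_lit 368) (nat_lit 342) (nat_lit 190)))))) (XT.nd (nat_lit 546) (nat_lit 1748) (nat_lit 0) (XT.nd (nat_lit 234) (nat_lit 988) (nat_lit 0) (XT.nd (nat_lit 78) (nat_lit 532) (nat_lit 0)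 (XT.lf (nat_lit 0) (nat_lit 6265458426) (nat_lit 608) (nat_lit 7883090209) (nat_lit 76) (nat_lit 7693130739) (nat_lit 173) (nat_lit 5) (nat_lit 181) (nat_lit 5) (nat_lit 174) (nat_lit 5) (nat_lit 369) (nat_lit 342) (nat_lit 189)) (XT.nd (nat_lit 78) (nat_lit 0) (nat_lit 0) (XT.lf (nat_lit 0) (nat_lit 3487713327) (nat_lit 532) (nat_lit 5467371690) (nat_lit 608) (nat_lit 13261514088) (nat_lit 166) (nat_lit 5) (nat_lit 173) (nat_lit 5) (nat_lit 174) (nat_lit 5) (nat_lit 370) (nat_lit 342) (nat_lit 188)) (XT.lf (nat_lit 0) (nat_lit 11833005328) (nat_lit 608) (nat_lit 7280116883) (nat_lit 76) (nat_lit 3486420141) (nat_lit 166) (nat_lit 5) (nat_lit 174) (nat_lit 5) (nat_lit 167) (nat_lit 5) (nat_lit 371) (nat_lit 342) (nat_lit 187)))) (XT.nd (nat_lit 156) (nat_lit 532) (nat_lit 0) (XT.nd (nat_lit 78) (nat_lit 0) (nat_lit 0) (XT.lf (nat_lit 0) (nat_lit 4539981377) (nat_lit 456) (nat_lit 10349051928) (nat_lit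 532) (nat_lit 8102191441) (nat_lit 160) (nat_lit 5) (nat_lit 166) (nat_lit 5) (nat_lit 167) (nat_lit 5) (nat_lit 372) (nat_lit 342) (nat_lit 186)) (XT.lf (nat_lit 0) (nat_lit 16857389783) (nat_lit 456) (nat_lit 1246975938) (nat_lit 532) (nat_lit 5288267022) (nat_lit 160) (nat_lit 5) (nat_lit 166) (nat_lit 5) (nat_lit 167) (nat_lit 5) (nat_lit 373) (nat_lit 342) (nat_lit 185))) (XT.nd (nat_lit 78) (nat_lit 76) (nat_lit 0) (XT.lf (nat_lit 0) (nat_lit 5766114962) (nat_lit 456) (nat_lit 15777877781) (nat_lit 532) (nat_lit 2258258924) (nat_lit 154) (nat_lit 5) (nat_lit 160) (nat_lit 5) (nat_lit 161) (nat_lit 5) (nat_lit 374) (nat_lit 342) (nat_lit 184)) (XT.lf (nat_lit 0) (nat_lit 919128824) (nat_lit 532) (nat_lit 5679551733) (nat_lit 76) (nat_lit 17623033960) (nat_lit 153) (nat_lit 5) (nat_lit 160) (nat_lit 5) (nat_lit 154) (nat_lit 5) (nat_lit 375) (nat_lit 342) (nat_lit 183))))) (XT.nd (nat_lit 234) (nat_lit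 836) (nat_lit 0) (XT.nd (nat_lit 78) (nat_lit 456) (nat_lit 0) (XT.lf (nat_lit 0) (nat_lit 4238095671) (nat_lit 532) (nat_lit 17520847274) (nat_lit 76) (nat_lit 2891401560) (nat_lit 147) (nat_lit 5) (nat_lit 154) (nat_lit 5) (nat_lit 148) (nat_lit 5) (nat_lit 376) (nat_lit 342) (nat_lit 182)) (XT.nd (nat_lit 78) (nat_lit 456) (nat_lit 0) (XT.lf (nat_lit 0) (nat_lit 7774462007) (nat_lit 532) (nat_lit 4723234954) (nat_lit 76) (nat_lit 12590604828) (nat_lit 147) (nat_lit 5) (nat_lit 154) (nat_lit 5) (nat_lit 148) (nat_lit 5) (nat_lit 377) (nat_lit 342) (nat_lit 181)) (XT.lf (nat_lit 0) (nat_lit 8620242252) (nat_lit 456) (nat_lit 2874274910) (nat_lit 532) (nat_lit 14042555909) (nat_lit 141) (nat_lit 5) (nat_lit 147) (nat_lit 5) (nat_lit 148) (nat_lit 5) (nat_lit 378) (nat_lit 342) (nat_lit 180)))) (XT.nd (nat_lit 156) (nat_lit 456) (nat_lit 0) (XT.nd (nat_lit 78) (nat_lit 380) (nat_lit 0) (XT.lf (nat_lit 0)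 (nat_lit 15436812125) (nat_lit 532) (nat_lit 3611517701) (nat_lit 76) (nat_lit 6947661642) (nat_lit 141) (nat_lit 5) (nat_lit 148) (nat_lit 5) (nat_lit 142) (nat_lit 5) (nat_lit 379) (nat_lit 342) (nat_lit 179)) (XT.lf (nat_lit 0) (nat_lit 10258500051) (nat_lit 380) (nat_lit 9360914342) (nat_lit 456) (nat_lit 6845604899) (nat_lit 136) (nat_lit 5) (nat_lit 141) (nat_lit 5) (nat_lit 142) (nat_lit 5) (nat_lit 380) (nat_lit 342) (nat_lit 178))) (XT.nd (nat_lit 78) (nat_lit 456) (nat_lit 0) (XT.lf (nat_lit 0) (nat_lit 23965302993) (nat_lit 456) (nat_lit 2340922485) (nat_lit 76) (nat_lit 640761166) (nat_lit 136) (nat_lit 5) (nat_lit 142) (nat_lit 5) (nat_lit 137) (nat_lit 5) (nat_lit 381) (nat_lit 342) (nat_lit 177)) (XT.lf (nat_lit 0) (nat_lit 1184663627) (nat_lit 456) (nat_lit 15371348594) (nat_lit 76) (nat_lit 10880936142) (nat_lit 130) (nat_lit 5) (nat_lit 136) (nat_lit 5) (nat_lit 131) (nat_lit 5) (nat_lit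 382) (nat_lit 342) (nat_lit 176))))))))
noncomputable def xc201 : XT := (XT.nd (nat_lit 2028) (nat_lit 2508) (nat_lit 0) (XT.nd (nat_lit 1014) (nat_lit 1672) (nat_lit 0) (XT.nd (nat_lit 468) (nat_lit 1368) (nat_lit 0) (XT.nd (nat_lit 234) (nat_lit 380) (nat_lit 0) (XT.nd (nat_lit 78) (nat_lit 760) (nat_lit 0) (XT.lf (nat_lit 0) (nat_lit 5435168026) (nat_lit 456) (nat_lit 1024463396) (nat_lit 76) (nat_lit 21480521688) (nat_lit 130) (nat_lit 5) (nat_lit 136) (nat_lit 5) (nat_lit 131) (nat_lit 5) (nat_lit 383) (nat_lit 342) (nat_lit 175)) (XT.nd (nat_lit 78) (nat_lit 380) (nat_lit 0) (XT.lf (nat_lit 0) (nat_lit 9982515153) (nat_lit 456) (nat_lit 14473260453) (nat_lit 76) (nat_lit 3997601178) (nat_lit 125) (nat_lit 5) (nat_lit 131) (nat_lit 5) (nat_lit 126) (nat_lit 5) (nat_lit 384) (nat_lit 342) (nat_lit 174)) (XT.lf (nat_lit 0) (nat_lit 412127320) (nat_lit 380) (nat_lit 14327949143) (nat_lit 456) (nat_lit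 14239709429) (nat_lit 120) (nat_lit 5) (nat_lit 125) (nat_lit 5) (nat_lit 126) (nat_lit 5) (nat_lit 385) (nat_lit 342) (nat_lit 173)))) (XT.nd (nat_lit 78) (nat_lit 380) (nat_lit 0) (XT.lf (nat_lit 0) (nat_lit 16034820503) (nat_lit 380) (nat_lit 3747199599) (nat_lit 456) (nat_lit 9735719971) (nat_lit 120) (nat_lit 5) (nat_lit 125) (nat_lit 5) (nat_lit 126) (nat_lit 5) (nat_lit 386) (nat_lit 342) (nat_lit 172)) (XT.nd (nat_lit 78) (nat_lit 76) (nat_lit 0) (XT.lf (nat_lit 0) (nat_lit 2019132033) (nat_lit 304) (nat_lit 23039860048) (nat_lit 380) (nat_lit 5010330089) (nat_lit 116) (nat_lit 5) (nat_lit 120) (nat_lit 5) (nat_lit 121) (nat_lit 5) (nat_lit 387) (nat_lit 342) (nat_lit 171)) (XT.lf (nat_lit 0) (nat_lit 29863405) (nat_lit 380) (nat_lit 12413729780) (nat_lit 76) (nat_lit 18188794649) (nat_lit 115) (nat_lit 5) (nat_lit 120) (nat_lit 5) (nat_lit 116) (nat_lit 5) (nat_lit 388) (nat_lit 342) (nat_lit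 170))))) (XT.nd (nat_lit 234) (nat_lit 684) (nat_lit 0) (XT.nd (nat_lit 78) (nat_lit 304) (nat_lit 0) (XT.lf (nat_lit 0) (nat_lit 3708840774) (nat_lit 380) (nat_lit 1443145581) (nat_lit 456) (nat_lit 26057930295) (nat_lit 110) (nat_lit 5) (nat_lit 115) (nat_lit 5) (nat_lit 116) (nat_lit 5) (nat_lit 389) (nat_lit 342) (nat_lit 169)) (XT.nd (nat_lit 78) (nat_lit 304) (nat_lit 0) (XT.lf (nat_lit 0) (nat_lit 10645239642) (nat_lit 456) (nat_lit 11333541953) (nat_lit 76) (nat_lit 9819467861) (nat_lit 110) (nat_lit 5) (nat_lit 116) (nat_lit 5) (nat_lit 111) (nat_lit 5) (nat_lit 390) (nat_lit 342) (nat_lit 168)) (XT.lf (nat_lit 0) (nat_lit 5404555913) (nat_lit 304) (nat_lit 10960924849) (nat_lit 380) (nat_lit 16036887840) (nat_lit 106) (nat_lit 5) (nat_lit 110) (nat_lit 5) (nat_lit 111) (nat_lit 5) (nat_lit 391) (nat_lit 342) (nat_lit 167)))) (XT.nd (nat_lit 156) (nat_lit 380) (nat_lit 0) (XT.nd (nat_lit 78) (nat_lit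 304) (nat_lit 0) (XT.lf (nat_lit 0) (nat_lit 22372632138) (nat_lit 380) (nat_lit 10154599275) (nat_lit 76) (nat_lit 493922821) (nat_lit 106) (nat_lit 5) (nat_lit 111) (nat_lit 5) (nat_lit 107) (nat_lit 5) (nat_lit 392) (nat_lit 342) (nat_lit 166)) (XT.lf (nat_lit 0) (nat_lit 7220768516) (nat_lit 304) (nat_lit 21513279294) (nat_lit 380) (nat_lit 4919236078) (nat_lit 102) (nat_lit 5) (nat_lit 106) (nat_lit 5) (nat_lit 107) (nat_lit 5) (nat_lit 393) (nat_lit 342) (nat_lit 165))) (XT.nd (nat_lit 78) (nat_lit 304) (nat_lit 0) (XT.lf (nat_lit 0) (nat_lit 1062460546) (nat_lit 380) (nat_lit 8991744491) (nat_lit 76) (nat_lit 24246900271) (nat_lit 101) (nat_lit 5) (nat_lit 106) (nat_lit 5) (nat_lit 102) (nat_lit 5) (nat_lit 394) (nat_lit 342) (nat_lit 164)) (XT.lf (nat_lit 0) (nat_lit 7226559173) (nat_lit 380) (nat_lit 25886883972) (nat_lit 76) (nat_lit 1850404159) (nat_lit 97) (nat_lit 5) (nat_lit 102) (nat_lit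 5) (nat_lit 98) (nat_lit 5) (nat_lit 395) (nat_lit 342) (nat_lit 163)))))) (XT.nd (nat_lit 468) (nat_lit 760) (nat_lit 0) (XT.nd (nat_lit 234) (nat_lit 608) (nat_lit 0) (XT.nd (nat_lit 78) (nat_lit 304) (nat_lit 0) (XT.lf (nat_lit 0) (nat_lit 13763116316) (nat_lit 380) (nat_lit 7877567117) (nat_lit 76) (nat_lit 14000163789) (nat_lit 97) (nat_lit 5) (nat_lit 102) (nat_lit 5) (nat_lit 98) (nat_lit 5) (nat_lit 396) (nat_lit 342) (nat_lit 162)) (XT.nd (nat_lit 78) (nat_lit 0) (nat_lit 0) (XT.lf (nat_lit 0) (nat_lit 10879048488) (nat_lit 304) (nat_lit 9717696767) (nat_lit 380) (nat_lit 15738384306) (nat_lit 93) (nat_lit 5) (nat_lit 97) (nat_lit 5) (nat_lit 98) (nat_lit 5) (nat_lit 397) (nat_lit 342) (nat_lit 161)) (XT.lf (nat_lit 0) (nat_lit 27736793236) (nat_lit 380) (nat_lit 6718743946) (nat_lit 76) (nat_lit 2591662513) (nat_lit 93) (nat_lit 5) (nat_lit 98) (nat_lit 5) (nat_lit 94) (nat_lit 5) (nat_lit 398)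 (nat_lit 342) (nat_lit 160)))) (XT.nd (nat_lit 78) (nat_lit 380) (nat_lit 0) (XT.lf (nat_lit 0) (nat_lit 12727706089) (nat_lit 228) (nat_lit 22578439298) (nat_lit 304) (nat_lit 2468035044) (nat_lit 90) (nat_lit 5) (nat_lit 93) (nat_lit 5) (nat_lit 94) (nat_lit 5) (nat_lit 399) (nat_lit 342) (nat_lit 159)) (XT.nd (nat_lit 78) (nat_lit 304) (nat_lit 0) (XT.lf (nat_lit 0) (nat_lit 4555318599) (nat_lit 304) (nat_lit 5675526875) (nat_lit 76) (nat_lit 28288853675) (nat_lit 89) (nat_lit 5) (nat_lit 93) (nat_lit 5) (nat_lit 90) (nat_lit 5) (nat_lit 400) (nat_lit 342) (nat_lit 158)) (XT.lf (nat_lit 0) (nat_lit 11901620196) (nat_lit 380) (nat_lit 24777645169) (nat_lit 76) (nat_lit 2602730858) (nat_lit 85) (nat_lit 5) (nat_lit 90) (nat_lit 5) (nat_lit 86) (nat_lit 5) (nat_lit 401) (nat_lit 342) (nat_lit 157))))) (XT.nd (nat_lit 234) (nat_lit 532) (nat_lit 0) (XT.nd (nat_lit 78) (nat_lit 228) (nat_lit 0) (XT.lf (nat_lit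 0) (nat_lit 19624176909) (nat_lit 380) (nat_lit 4766396972) (nat_lit 76) (nat_lit 15671913751) (nat_lit 85) (nat_lit 5) (nat_lit 90) (nat_lit 5) (nat_lit 86) (nat_lit 5) (nat_lit 402) (nat_lit 342) (nat_lit 156)) (XT.nd (nat_lit 78) (nat_lit 0) (nat_lit 0) (XT.lf (nat_lit 0) (nat_lit 16155529363) (nat_lit 228) (nat_lit 11574965590) (nat_lit 304) (nat_lit 13131337655) (nat_lit 82) (nat_lit 5) (nat_lit 85) (nat_lit 5) (nat_lit 86) (nat_lit 5) (nat_lit 403) (nat_lit 342) (nat_lit 155)) (XT.lf (nat_lit 0) (nat_lit 36141050191) (nat_lit 304) (nat_lit 3901935830) (nat_lit 76) (nat_lit 1640341808) (nat_lit 82) (nat_lit 5) (nat_lit 86) (nat_lit 5) (nat_lit 83) (nat_lit 5) (nat_lit 404) (nat_lit 342) (nat_lit 154)))) (XT.nd (nat_lit 156) (nat_lit 228) (nat_lit 0) (XT.nd (nat_lit 78) (nat_lit 0) (nat_lit 0) (XT.lf (nat_lit 0) (nat_lit 2515036911) (nat_lit 304) (nat_lit 24792065326) (nat_lit 76) (nat_lit 15213162048)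 (nat_lit 78) (nat_lit 5) (nat_lit 82) (nat_lit 5) (nat_lit 79) (nat_lit 5) (nat_lit 405) (nat_lit 342) (nat_lit 153)) (XT.lf (nat_lit 0) (nat_lit 10739392492) (nat_lit 304) (nat_lit 3353982345) (nat_lit 76) (nat_lit 29286187512) (nat_lit 78) (nat_lit 5) (nat_lit 82) (nat_lit 5) (nat_lit 79) (nat_lit 5) (nat_lit 406) (nat_lit 342) (nat_lit 152))) (XT.nd (nat_lit 78) (nat_lit 0) (nat_lit 0) (XT.lf (nat_lit 0) (nat_lit 19095184123) (nat_lit 228) (nat_lit 295862672) (nat_lit 304) (nat_lit 24868176695) (nat_lit 75) (nat_lit 5) (nat_lit 78) (nat_lit 5) (nat_lit 79) (nat_lit 5) (nat_lit 407) (nat_lit 342) (nat_lit 151)) (XT.lf (nat_lit 0) (nat_lit 28467259482) (nat_lit 304) (nat_lit 3016482078) (nat_lit 76) (nat_lit 13676583784) (nat_lit 75) (nat_lit 5) (nat_lit 79) (nat_lit 5) (nat_lit 76) (nat_lit 5) (nat_lit 408) (nat_lit 342) (nat_lit 150))))))) (XT.nd (nat_lit 1014) (nat_lit 912) (nat_lit 0) (XT.nd (nat_lit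 468) (nat_lit 836) (nat_lit 0) (XT.nd (nat_lit 234) (nat_lit 228) (nat_lit 0) (XT.nd (nat_lit 78) (nat_lit 304) (nat_lit 0) (XT.lf (nat_lit 0) (nat_lit 20181827444) (nat_lit 228) (nat_lit 17827986489) (nat_lit 304) (nat_lit 8072825770) (nat_lit 72) (nat_lit 5) (nat_lit 75) (nat_lit 5) (nat_lit 76) (nat_lit 5) (nat_lit 409) (nat_lit 342) (nat_lit 149)) (XT.nd (nat_lit 78) (nat_lit 228) (nat_lit 0) (XT.lf (nat_lit 0) (nat_lit 818192406) (nat_lit 304) (nat_lit 2906416621) (nat_lit 76) (nat_lit 43306946092) (nat_lit 71) (nat_lit 5) (nat_lit 75) (nat_lit 5) (nat_lit 72) (nat_lit 5) (nat_lit 410) (nat_lit 342) (nat_lit 148)) (XT.lf (nat_lit 0) (nat_lit 10120400885) (nat_lit 304) (nat_lit 27001879773) (nat_lit 76) (nat_lit 10875059020) (nat_lit 68) (nat_lit 5) (nat_lit 72) (nat_lit 5) (nat_lit 69) (nat_lit 5) (nat_lit 411) (nat_lit 342) (nat_lit 147)))) (XT.nd (nat_lit 78) (nat_lit 228) (nat_lit 0) (XT.lf (nat_lit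 0) (nat_lit 19765435815) (nat_lit 304) (nat_lit 3358882654) (nat_lit 76) (nat_lit 25865867483) (nat_lit 68) (nat_lit 5) (nat_lit 72) (nat_lit 5) (nat_lit 69) (nat_lit 5) (nat_lit 412) (nat_lit 342) (nat_lit 146)) (XT.nd (nat_lit 78) (nat_lit 0) (nat_lit 0) (XT.lf (nat_lit 0) (nat_lit 21406789228) (nat_lit 228) (nat_lit 8496131200) (nat_lit 304) (nat_lit 20103805184) (nat_lit 65) (nat_lit 5) (nat_lit 68) (nat_lit 5) (nat_lit 69) (nat_lit 5) (nat_lit 413) (nat_lit 342) (nat_lit 145)) (XT.lf (nat_lit 0) (nat_lit 40439291278) (nat_lit 304) (nat_lit 4136318576) (nat_lit 76) (nat_lit 6475309686) (nat_lit 65) (nat_lit 5) (nat_lit 69) (nat_lit 5) (nat_lit 66) (nat_lit 5) (nat_lit 414) (nat_lit 342) (nat_lit 144))))) (XT.nd (nat_lit 234) (nat_lit 380) (nat_lit 0) (XT.nd (nat_lit 78) (nat_lit 304) (nat_lit 0) (XT.lf (nat_lit 0) (nat_lit 21390255202) (nat_lit 152) (nat_lit 30188655952) (nat_lit 228) (nat_lit 538914296)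 (nat_lit 63) (nat_lit 5) (nat_lit 65) (nat_lit 5) (nat_lit 66) (nat_lit 5) (nat_lit 415) (nat_lit 342) (nat_lit 143)) (XT.nd (nat_lit 78) (nat_lit 228) (nat_lit 0) (XT.lf (nat_lit 0) (nat_lit 9683658263) (nat_lit 228) (nat_lit 5547275689) (nat_lit 76) (nat_lit 37981780574) (nat_lit 62) (nat_lit 5) (nat_lit 65) (nat_lit 5) (nat_lit 63) (nat_lit 5) (nat_lit 416) (nat_lit 342) (nat_lit 142)) (XT.lf (nat_lit 0) (nat_lit 20403077939) (nat_lit 304) (nat_lit 33553521460) (nat_lit 76) (nat_lit 377661579) (nat_lit 59) (nat_lit 5) (nat_lit 63) (nat_lit 5) (nat_lit 60) (nat_lit 5) (nat_lit 417) (nat_lit 342) (nat_lit 141)))) (XT.nd (nat_lit 156) (nat_lit 228) (nat_lit 0) (XT.nd (nat_lit 78) (nat_lit 152) (nat_lit 0) (XT.lf (nat_lit 0) (nat_lit 31648975827) (nat_lit 304) (nat_lit 7630959321) (nat_lit 76) (nat_lit 16203372608) (nat_lit 59) (nat_lit 5) (nat_lit 63) (nat_lit 5) (nat_lit 60) (nat_lit 5) (nat_lit 418)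 (nat_lit 342) (nat_lit 140)) (XT.lf (nat_lit 0) (nat_lit 19444697369) (nat_lit 152) (nat_lit 23972062820) (nat_lit 228) (nat_lit 13244531241) (nat_lit 57) (nat_lit 5) (nat_lit 59) (nat_lit 5) (nat_lit 60) (nat_lit 5) (nat_lit 419) (nat_lit 342) (nat_lit 139))) (XT.nd (nat_lit 78) (nat_lit 228) (nat_lit 0) (XT.lf (nat_lit 0) (nat_lit 47485071949) (nat_lit 152) (nat_lit 8127190865) (nat_lit 228) (nat_lit 2260112012) (nat_lit 57) (nat_lit 5) (nat_lit 59) (nat_lit 5) (nat_lit 60) (nat_lit 5) (nat_lit 420) (nat_lit 342) (nat_lit 138)) (XT.lf (nat_lit 0) (nat_lit 9124302880) (nat_lit 228) (nat_lit 41696110217) (nat_lit 76) (nat_lit 8289353324) (nat_lit 54) (nat_lit 5) (nat_lit 57) (nat_lit 5) (nat_lit 55) (nat_lit 5) (nat_lit 421) (nat_lit 342) (nat_lit 137)))))) (XT.nd (nat_lit 546) (nat_lit 380) (nat_lit 0) (XT.nd (nat_lit 234) (nat_lit 380) (nat_lit 0) (XT.nd (nat_lit 78) (nat_lit 152) (nat_lit 0) (XT.lf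 (nat_lit 0) (nat_lit 20988909387) (nat_lit 228) (nat_lit 14227368808) (nat_lit 76) (nat_lit 25161808386) (nat_lit 54) (nat_lit 5) (nat_lit 57) (nat_lit 5) (nat_lit 55) (nat_lit 5) (nat_lit 422) (nat_lit 342) (nat_lit 136)) (XT.nd (nat_lit 78) (nat_lit 0) (nat_lit 0) (XT.lf (nat_lit 0) (nat_lit 14341476811) (nat_lit 152) (nat_lit 19003591688) (nat_lit 228) (nat_lit 28335320084) (nat_lit 52) (nat_lit 5) (nat_lit 54) (nat_lit 5) (nat_lit 55) (nat_lit 5) (nat_lit 423) (nat_lit 342) (nat_lit 135)) (XT.lf (nat_lit 0) (nat_lit 44055260380) (nat_lit 152) (nat_lit 2158104989) (nat_lit 228) (nat_lit 16804151337) (nat_lit 52) (nat_lit 5) (nat_lit 54) (nat_lit 5) (nat_lit 55) (nat_lit 5) (nat_lit 424) (nat_lit 342) (nat_lit 134)))) (XT.nd (nat_lit 156) (nat_lit 152) (nat_lit 0) (XT.nd (nat_lit 78) (nat_lit 76) (nat_lit 0) (XT.lf (nat_lit 0) (nat_lit 10317268678) (nat_lit 152) (nat_lit 49393494776) (nat_lit 228) (nat_lit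 4676704284) (nat_lit 50) (nat_lit 5) (nat_lit 52) (nat_lit 5) (nat_lit 53) (nat_lit 5) (nat_lit 425) (nat_lit 342) (nat_lit 133)) (XT.lf (nat_lit 0) (nat_lit 7874661069) (nat_lit 228) (nat_lit 25030989737) (nat_lit 76) (nat_lit 32884235980) (nat_lit 49) (nat_lit 5) (nat_lit 52) (nat_lit 5) (nat_lit 50) (nat_lit 5) (nat_lit 426) (nat_lit 342) (nat_lit 132))) (XT.nd (nat_lit 78) (nat_lit 0) (nat_lit 0) (XT.lf (nat_lit 0) (nat_lit 4925594001) (nat_lit 152) (nat_lit 15828227362) (nat_lit 228) (nat_lit 46477810971) (nat_lit 47) (nat_lit 5) (nat_lit 49) (nat_lit 5) (nat_lit 50) (nat_lit 5) (nat_lit 427) (nat_lit 342) (nat_lit 131)) (XT.lf (nat_lit 0) (nat_lit 34289471245) (nat_lit 228) (nat_lit 32438123409) (nat_lit 76) (nat_lit 1980932711) (nat_lit 47) (nat_lit 5) (nat_lit 50) (nat_lit 5) (nat_lit 48) (nat_lit 5) (nat_lit 428) (nat_lit 342) (nat_lit 130))))) (XT.nd (nat_lit 234) (nat_lit 152) (nat_lit 0) (XT.nd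 (nat_lit 78) (nat_lit 228) (nat_lit 0) (XT.lf (nat_lit 0) (nat_lit 48385881913) (nat_lit 228) (nat_lit 1834407202) (nat_lit 76) (nat_lit 20004799941) (nat_lit 47) (nat_lit 5) (nat_lit 50) (nat_lit 5) (nat_lit 48) (nat_lit 5) (nat_lit 429) (nat_lit 342) (nat_lit 129)) (XT.nd (nat_lit 78) (nat_lit 76) (nat_lit 0) (XT.lf (nat_lit 0) (nat_lit 30274771848) (nat_lit 152) (nat_lit 32919467793) (nat_lit 228) (nat_lit 8584236841) (nat_lit 45) (nat_lit 5) (nat_lit 47) (nat_lit 5) (nat_lit 48) (nat_lit 5) (nat_lit 430) (nat_lit 342) (nat_lit 128)) (XT.lf (nat_lit 0) (nat_lit 4986227582) (nat_lit 228) (nat_lit 10045408273) (nat_lit 76) (nat_lit 58344866144) (nat_lit 44) (nat_lit 5) (nat_lit 47) (nat_lit 5) (nat_lit 45) (nat_lit 5) (nat_lit 431) (nat_lit 342) (nat_lit 127)))) (XT.nd (nat_lit 39936) (nat_lit 0) (nat_lit 13984) (XT.nd (nat_lit 78) (nat_lit 0) (nat_lit 0) (XT.lf (nat_lit 0) (nat_lit 19043288676) (nat_lit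 228) (nat_lit 52337526904) (nat_lit 76) (nat_lit 3631542888) (nat_lit 42) (nat_lit 5) (nat_lit 45) (nat_lit 5) (nat_lit 43) (nat_lit 5) (nat_lit 432) (nat_lit 342) (nat_lit 126)) (XT.lf (nat_lit 0) (nat_lit 33771440321) (nat_lit 228) (nat_lit 20264815668) (nat_lit 76) (nat_lit 22653553752) (nat_lit 42) (nat_lit 5) (nat_lit 45) (nat_lit 5) (nat_lit 43) (nat_lit 5) (nat_lit 433) (nat_lit 342) (nat_lit 125))) (XT.nd (nat_lit 78) (nat_lit 0) (nat_lit 0) (XT.lf (nat_lit 0) (nat_lit 1681613592) (nat_lit 0) (nat_lit 1681613592) (nat_lit 1140) (nat_lit 4010604597) (nat_lit 226) (nat_lit 5) (nat_lit 226) (nat_lit 3) (nat_lit 241) (nat_lit 3) (nat_lit 343) (nat_lit 343) (nat_lit 214)) (XT.lf (nat_lit 0) (nat_lit 7158432982) (nat_lit 1140) (nat_lit 4498242415) (nat_lit 1216) (nat_lit 3302038926) (nat_lit 226) (nat_lit 5) (nat_lit 241) (nat_lit 3) (nat_lit 242) (nat_lit 5) (nat_lit 344) (nat_lit 343) (nat_lit 213))))))))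
noncomputable def xc202 : XT := (XT.nd (nat_lit 2028) (nat_lit 5776) (nat_lit 0) (XT.nd (nat_lit 1014) (nat_lit 3192) (nat_lit 0) (XT.nd (nat_lit 468) (nat_lit 836) (nat_lit 0) (XT.nd (nat_lit 234) (nat_lit 0) (nat_lit 152) (XT.nd (nat_lit 78) (nat_lit 0) (nat_lit 76) (XT.lf (nat_lit 76) (nat_lit 2605843794) (nat_lit 0) (nat_lit 5044273662) (nat_lit 1216) (nat_lit 7524585798) (nat_lit 227) (nat_lit 5) (nat_lit 226) (nat_lit 5) (nat_lit 242) (nat_lit 5) (nat_lit 345) (nat_lit 343) (nat_lit 212)) (XT.nd (nat_lit 78) (nat_lit 0) (nat_lit 0) (XT.lf (nat_lit 0) (nat_lit 8208132471) (nat_lit 1140) (nat_lit 5404557794) (nat_lit 1216) (nat_lit 1782942969) (nat_lit 227) (nat_lit 5) (nat_lit 242) (nat_lit 5) (nat_lit 243) (nat_lit 5) (nat_lit 346) (nat_lit 343) (nat_lit 211)) (XT.lf (nat_lit 76) (nat_lit 1956519649) (nat_lit 0) (nat_lit 6884173378) (nat_lit 1216) (nat_lit 6780772458) (nat_lit 228) (nat_lit 5) (nat_lit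 227) (nat_lit 5) (nat_lit 243) (nat_lit 5) (nat_lit 347) (nat_lit 343) (nat_lit 210)))) (XT.nd (nat_lit 78) (nat_lit 0) (nat_lit 0) (XT.lf (nat_lit 0) (nat_lit 9537144720) (nat_lit 1140) (nat_lit 6210899238) (nat_lit 1216) (nat_lit 104689592) (nat_lit 228) (nat_lit 5) (nat_lit 243) (nat_lit 5) (nat_lit 244) (nat_lit 5) (nat_lit 348) (nat_lit 343) (nat_lit 209)) (XT.nd (nat_lit 78) (nat_lit 0) (nat_lit 0) (XT.lf (nat_lit 76) (nat_lit 1419812428) (nat_lit 0) (nat_lit 8906150277) (nat_lit 1216) (nat_lit 5762840806) (nat_lit 229) (nat_lit 5) (nat_lit 228) (nat_lit 5) (nat_lit 244) (nat_lit 5) (nat_lit 349) (nat_lit 343) (nat_lit 208)) (XT.lf (nat_lit 76) (nat_lit 9400324684) (nat_lit 0) (nat_lit 1790742102) (nat_lit 1216) (nat_lit 5139317940) (nat_lit 229) (nat_lit 5) (nat_lit 228) (nat_lit 5) (nat_lit 244) (nat_lit 5) (nat_lit 350) (nat_lit 343) (nat_lit 207))))) (XT.nd (nat_lit 234) (nat_lit 1064) (nat_lit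 0) (XT.nd (nat_lit 78) (nat_lit 0) (nat_lit 0) (XT.lf (nat_lit 76) (nat_lit 1000744814) (nat_lit 0) (nat_lit 11134466684) (nat_lit 1216) (nat_lit 4442416829) (nat_lit 230) (nat_lit 5) (nat_lit 229) (nat_lit 5) (nat_lit 245) (nat_lit 5) (nat_lit 351) (nat_lit 343) (nat_lit 206)) (XT.nd (nat_lit 78) (nat_lit 0) (nat_lit 76) (XT.lf (nat_lit 76) (nat_lit 9286928469) (nat_lit 0) (nat_lit 3898742072) (nat_lit 1216) (nat_lit 3644286348) (nat_lit 230) (nat_lit 5) (nat_lit 229) (nat_lit 5) (nat_lit 245) (nat_lit 5) (nat_lit 352) (nat_lit 343) (nat_lit 205)) (XT.lf (nat_lit 76) (nat_lit 704786239) (nat_lit 0) (nat_lit 13594555651) (nat_lit 1216) (nat_lit 2789569602) (nat_lit 231) (nat_lit 5) (nat_lit 230) (nat_lit 5) (nat_lit 246) (nat_lit 5) (nat_lit 353) (nat_lit 343) (nat_lit 204)))) (XT.nd (nat_lit 156) (nat_lit 1140) (nat_lit 0) (XT.nd (nat_lit 78) (nat_lit 0) (nat_lit 76) (XT.lf (nat_lit 76) (nat_lit 9308710266)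 (nat_lit 0) (nat_lit 6243071699) (nat_lit 1216) (nat_lit 1800698942) (nat_lit 231) (nat_lit 5) (nat_lit 230) (nat_lit 5) (nat_lit 246) (nat_lit 5) (nat_lit 354) (nat_lit 343) (nat_lit 203)) (XT.lf (nat_lit 76) (nat_lit 537833715) (nat_lit 0) (nat_lit 16313158122) (nat_lit 1216) (nat_lit 772696399) (nat_lit 232) (nat_lit 5) (nat_lit 231) (nat_lit 5) (nat_lit 247) (nat_lit 5) (nat_lit 355) (nat_lit 343) (nat_lit 202))) (XT.nd (nat_lit 78) (nat_lit 0) (nat_lit 0) (XT.lf (nat_lit 0) (nat_lit 415757538) (nat_lit 1216) (nat_lit 8430980981) (nat_lit 1292) (nat_lit 9052161239) (nat_lit 215) (nat_lit 5) (nat_lit 231) (nat_lit 5) (nat_lit 232) (nat_lit 5) (nat_lit 356) (nat_lit 343) (nat_lit 201)) (XT.lf (nat_lit 76) (nat_lit 478631851) (nat_lit 0) (nat_lit 1141907538) (nat_lit 1292) (nat_lit 16561718740) (nat_lit 216) (nat_lit 5) (nat_lit 215) (nat_lit 5) (nat_lit 232) (nat_lit 5) (nat_lit 357) (nat_lit 343) (nat_lit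 200)))))) (XT.nd (nat_lit 468) (nat_lit 1748) (nat_lit 0) (XT.nd (nat_lit 234) (nat_lit 1520) (nat_lit 0) (XT.nd (nat_lit 78) (nat_lit 0) (nat_lit 0) (XT.lf (nat_lit 0) (nat_lit 3004554513) (nat_lit 1216) (nat_lit 8716155128) (nat_lit 1292) (nat_lit 6749120895) (nat_lit 216) (nat_lit 5) (nat_lit 232) (nat_lit 5) (nat_lit 233) (nat_lit 5) (nat_lit 358) (nat_lit 343) (nat_lit 199)) (XT.nd (nat_lit 78) (nat_lit 0) (nat_lit 76) (XT.lf (nat_lit 76) (nat_lit 533441363) (nat_lit 0) (nat_lit 3905123054) (nat_lit 1292) (nat_lit 14327217274) (nat_lit 217) (nat_lit 5) (nat_lit 216) (nat_lit 5) (nat_lit 233) (nat_lit 5) (nat_lit 359) (nat_lit 343) (nat_lit 198)) (XT.lf (nat_lit 0) (nat_lit 6036547335) (nat_lit 1216) (nat_lit 8876276382) (nat_lit 76) (nat_lit 4154164717) (nat_lit 217) (nat_lit 5) (nat_lit 233) (nat_lit 5) (nat_lit 218) (nat_lit 5) (nat_lit 360) (nat_lit 343) (nat_lit 197)))) (XT.nd (nat_lit 78) (nat_lit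 608) (nat_lit 0) (XT.lf (nat_lit 0) (nat_lit 729447978) (nat_lit 988) (nat_lit 6991146382) (nat_lit 1064) (nat_lit 11655498753) (nat_lit 204) (nat_lit 5) (nat_lit 217) (nat_lit 5) (nat_lit 218) (nat_lit 5) (nat_lit 361) (nat_lit 343) (nat_lit 196)) (XT.nd (nat_lit 78) (nat_lit 608) (nat_lit 0) (XT.lf (nat_lit 0) (nat_lit 9549526215) (nat_lit 1064) (nat_lit 8905361594) (nat_lit 76) (nat_lit 1236757534) (nat_lit 204) (nat_lit 5) (nat_lit 218) (nat_lit 5) (nat_lit 205) (nat_lit 5) (nat_lit 362) (nat_lit 343) (nat_lit 195)) (XT.lf (nat_lit 0) (nat_lit 1073320527) (nat_lit 608) (nat_lit 10432371019) (nat_lit 684) (nat_lit 8508806786) (nat_lit 196) (nat_lit 5) (nat_lit 204) (nat_lit 5) (nat_lit 205) (nat_lit 5) (nat_lit 363) (nat_lit 343) (nat_lit 194))))) (XT.nd (nat_lit 234) (nat_lit 1216) (nat_lit 0) (XT.nd (nat_lit 78) (nat_lit 532) (nat_lit 0) (XT.lf (nat_lit 0) (nat_lit 11527413652) (nat_lit 608) (nat_lit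 2076030094) (nat_lit 684) (nat_lit 6741111115) (nat_lit 196) (nat_lit 5) (nat_lit 204) (nat_lit 5) (nat_lit 205) (nat_lit 5) (nat_lit 364) (nat_lit 343) (nat_lit 193)) (XT.nd (nat_lit 78) (nat_lit 0) (nat_lit 0) (XT.lf (nat_lit 0) (nat_lit 1571985953) (nat_lit 532) (nat_lit 14263218141) (nat_lit 608) (nat_lit 4847181585) (nat_lit 189) (nat_lit 5) (nat_lit 196) (nat_lit 5) (nat_lit 197) (nat_lit 5) (nat_lit 365) (nat_lit 343) (nat_lit 192)) (XT.lf (nat_lit 0) (nat_lit 12426104163) (nat_lit 532) (nat_lit 5810523268) (nat_lit 608) (nat_lit 2790647406) (nat_lit 189) (nat_lit 5) (nat_lit 196) (nat_lit 5) (nat_lit 197) (nat_lit 5) (nat_lit 366) (nat_lit 343) (nat_lit 191)))) (XT.nd (nat_lit 156) (nat_lit 532) (nat_lit 0) (XT.nd (nat_lit 78) (nat_lit 76) (nat_lit 0) (XT.lf (nat_lit 0) (nat_lit 2232590771) (nat_lit 608) (nat_lit 18520317132) (nat_lit 684) (nat_lit 628322917) (nat_lit 181) (nat_lit 5) (nat_lit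 189) (nat_lit 5) (nat_lit 190) (nat_lit 5) (nat_lit 367) (nat_lit 343) (nat_lit 190)) (XT.lf (nat_lit 0) (nat_lit 1706493967) (nat_lit 684) (nat_lit 8255821702) (nat_lit 76) (nat_lit 11778868381) (nat_lit 180) (nat_lit 5) (nat_lit 189) (nat_lit 5) (nat_lit 181) (nat_lit 5) (nat_lit 368) (nat_lit 343) (nat_lit 189))) (XT.nd (nat_lit 78) (nat_lit 0) (nat_lit 0) (XT.lf (nat_lit 0) (nat_lit 3009942290) (nat_lit 532) (nat_lit 1111482423) (nat_lit 608) (nat_lit 17989647785) (nat_lit 173) (nat_lit 5) (nat_lit 180) (nat_lit 5) (nat_lit 181) (nat_lit 5) (nat_lit 369) (nat_lit 343) (nat_lit 188)) (XT.lf (nat_lit 0) (nat_lit 6763828248) (nat_lit 608) (nat_lit 7790890530) (nat_lit 76) (nat_lit 7932692148) (nat_lit 173) (nat_lit 5) (nat_lit 181) (nat_lit 5) (nat_lit 174) (nat_lit 5) (nat_lit 370) (nat_lit 343) (nat_lit 187))))))) (XT.nd (nat_lit 1014) (nat_lit 2508) (nat_lit 0) (XT.nd (nat_lit 468) (nat_lit 1748) (nat_lit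 0) (XT.nd (nat_lit 234) (nat_lit 532) (nat_lit 0) (XT.nd (nat_lit 78) (nat_lit 456) (nat_lit 0) (XT.lf (nat_lit 0) (nat_lit 3917814638) (nat_lit 532) (nat_lit 5610416661) (nat_lit 608) (nat_lit 13345530338) (nat_lit 166) (nat_lit 5) (nat_lit 173) (nat_lit 5) (nat_lit 174) (nat_lit 5) (nat_lit 371) (nat_lit 343) (nat_lit 186)) (XT.nd (nat_lit 78) (nat_lit 456) (nat_lit 0) (XT.lf (nat_lit 0) (nat_lit 12483816232) (nat_lit 608) (nat_lit 7173662413) (nat_lit 76) (nat_lit 3610980569) (nat_lit 166) (nat_lit 5) (nat_lit 174) (nat_lit 5) (nat_lit 167) (nat_lit 5) (nat_lit 372) (nat_lit 343) (nat_lit 185)) (XT.lf (nat_lit 0) (nat_lit 4997853914) (nat_lit 456) (nat_lit 10628147116) (nat_lit 532) (nat_lit 8046062445) (nat_lit 160) (nat_lit 5) (nat_lit 166) (nat_lit 5) (nat_lit 167) (nat_lit 5) (nat_lit 373) (nat_lit 343) (nat_lit 184)))) (XT.nd (nat_lit 78) (nat_lit 532) (nat_lit 0) (XT.lf (nat_lit 0) (nat_lit 17675415452)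 (nat_lit 456) (nat_lit 1253922721) (nat_lit 532) (nat_lit 5156434704) (nat_lit 160) (nat_lit 5) (nat_lit 166) (nat_lit 5) (nat_lit 167) (nat_lit 5) (nat_lit 374) (nat_lit 343) (nat_lit 183)) (XT.nd (nat_lit 78) (nat_lit 76) (nat_lit 0) (XT.lf (nat_lit 0) (nat_lit 6256604784) (nat_lit 456) (nat_lit 16210676608) (nat_lit 532) (nat_lit 2040550502) (nat_lit 154) (nat_lit 5) (nat_lit 160) (nat_lit 5) (nat_lit 161) (nat_lit 5) (nat_lit 375) (nat_lit 343) (nat_lit 182)) (XT.lf (nat_lit 0) (nat_lit 1218436582) (nat_lit 532) (nat_lit 5536103609) (nat_lit 76) (nat_lit 18185505720) (nat_lit 153) (nat_lit 5) (nat_lit 160) (nat_lit 5) (nat_lit 154) (nat_lit 5) (nat_lit 376) (nat_lit 343) (nat_lit 181))))) (XT.nd (nat_lit 234) (nat_lit 836) (nat_lit 0) (XT.nd (nat_lit 78) (nat_lit 456) (nat_lit 0) (XT.lf (nat_lit 0) (nat_lit 4632467538) (nat_lit 532) (nat_lit 17727969989) (nat_lit 76) (nat_lit 3021237313) (nat_lit 147)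 (nat_lit 5) (nat_lit 154) (nat_lit 5) (nat_lit 148) (nat_lit 5) (nat_lit 377) (nat_lit 343) (nat_lit 180)) (XT.nd (nat_lit 78) (nat_lit 456) (nat_lit 0) (XT.lf (nat_lit 0) (nat_lit 8267141495) (nat_lit 532) (nat_lit 4555706077) (nat_lit 76) (nat_lit 13010161524) (nat_lit 147) (nat_lit 5) (nat_lit 154) (nat_lit 5) (nat_lit 148) (nat_lit 5) (nat_lit 378) (nat_lit 343) (nat_lit 179)) (XT.lf (nat_lit 0) (nat_lit 9185043819) (nat_lit 456) (nat_lit 2909141144) (nat_lit 532) (nat_lit 14201201567) (nat_lit 141) (nat_lit 5) (nat_lit 147) (nat_lit 5) (nat_lit 148) (nat_lit 5) (nat_lit 379) (nat_lit 343) (nat_lit 178)))) (XT.nd (nat_lit 156) (nat_lit 456) (nat_lit 0) (XT.nd (nat_lit 78) (nat_lit 380) (nat_lit 0) (XT.lf (nat_lit 0) (nat_lit 16147805818) (nat_lit 532) (nat_lit 3415494970) (nat_lit 76) (nat_lit 7204984457) (nat_lit 141) (nat_lit 5) (nat_lit 148) (nat_lit 5) (nat_lit 142) (nat_lit 5) (nat_lit 380) (nat_lit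 343) (nat_lit 177)) (XT.lf (nat_lit 0) (nat_lit 10867639313) (nat_lit 380) (nat_lit 9583923853) (nat_lit 456) (nat_lit 6799954775) (nat_lit 136) (nat_lit 5) (nat_lit 141) (nat_lit 5) (nat_lit 142) (nat_lit 5) (nat_lit 381) (nat_lit 343) (nat_lit 176))) (XT.nd (nat_lit 78) (nat_lit 456) (nat_lit 0) (XT.lf (nat_lit 0) (nat_lit 24921273852) (nat_lit 456) (nat_lit 2111848793) (nat_lit 76) (nat_lit 715022528) (nat_lit 136) (nat_lit 5) (nat_lit 142) (nat_lit 5) (nat_lit 137) (nat_lit 5) (nat_lit 382) (nat_lit 343) (nat_lit 175)) (XT.lf (nat_lit 0) (nat_lit 1455601373) (nat_lit 456) (nat_lit 15531304494) (nat_lit 76) (nat_lit 11265956373) (nat_lit 130) (nat_lit 5) (nat_lit 136) (nat_lit 5) (nat_lit 131) (nat_lit 5) (nat_lit 383) (nat_lit 343) (nat_lit 174)))))) (XT.nd (nat_lit 546) (nat_lit 988) (nat_lit 0) (XT.nd (nat_lit 234) (nat_lit 760) (nat_lit 0) (XT.nd (nat_lit 78) (nat_lit 760) (nat_lit 0) (XT.lf (nat_lit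 0) (nat_lit 5826764656) (nat_lit 456) (nat_lit 762785106) (nat_lit 76) (nat_lit 22181822917) (nat_lit 130) (nat_lit 5) (nat_lit 136) (nat_lit 5) (nat_lit 131) (nat_lit 5) (nat_lit 384) (nat_lit 343) (nat_lit 173)) (XT.nd (nat_lit 78) (nat_lit 380) (nat_lit 0) (XT.lf (nat_lit 0) (nat_lit 10507282572) (nat_lit 456) (nat_lit 14611671423) (nat_lit 76) (nat_lit 4181140308) (nat_lit 125) (nat_lit 5) (nat_lit 131) (nat_lit 5) (nat_lit 126) (nat_lit 5) (nat_lit 385) (nat_lit 343) (nat_lit 172)) (XT.lf (nat_lit 0) (nat_lit 717378112) (nat_lit 380) (nat_lit 14686446116) (nat_lit 456) (nat_lit 14438587493) (nat_lit 120) (nat_lit 5) (nat_lit 125) (nat_lit 5) (nat_lit 126) (nat_lit 5) (nat_lit 386) (nat_lit 343) (nat_lit 171)))) (XT.nd (nat_lit 156) (nat_lit 456) (nat_lit 0) (XT.nd (nat_lit 78) (nat_lit 304) (nat_lit 0) (XT.lf (nat_lit 0) (nat_lit 16800221402) (nat_lit 380) (nat_lit 3790351993) (nat_lit 456) (nat_lit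 9806128251) (nat_lit 120) (nat_lit 5) (nat_lit 125) (nat_lit 5) (nat_lit 126) (nat_lit 5) (nat_lit 387) (nat_lit 343) (nat_lit 170)) (XT.lf (nat_lit 0) (nat_lit 2367121406) (nat_lit 304) (nat_lit 23655877516) (nat_lit 380) (nat_lit 4941921384) (nat_lit 116) (nat_lit 5) (nat_lit 120) (nat_lit 5) (nat_lit 121) (nat_lit 5) (nat_lit 388) (nat_lit 343) (nat_lit 169))) (XT.nd (nat_lit 78) (nat_lit 380) (nat_lit 0) (XT.lf (nat_lit 0) (nat_lit 238963792) (nat_lit 380) (nat_lit 12502846058) (nat_lit 76) (nat_lit 18803195636) (nat_lit 115) (nat_lit 5) (nat_lit 120) (nat_lit 5) (nat_lit 116) (nat_lit 5) (nat_lit 389) (nat_lit 343) (nat_lit 168)) (XT.lf (nat_lit 0) (nat_lit 4100624204) (nat_lit 380) (nat_lit 1410758531) (nat_lit 456) (nat_lit 26628581603) (nat_lit 110) (nat_lit 5) (nat_lit 115) (nat_lit 5) (nat_lit 116) (nat_lit 5) (nat_lit 390) (nat_lit 343) (nat_lit 167))))) (XT.nd (nat_lit 234) (nat_lit 684) (nat_lit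 0) (XT.nd (nat_lit 78) (nat_lit 304) (nat_lit 0) (XT.lf (nat_lit 0) (nat_lit 11164173808) (nat_lit 456) (nat_lit 11395838967) (nat_lit 76) (nat_lit 10186095198) (nat_lit 110) (nat_lit 5) (nat_lit 116) (nat_lit 5) (nat_lit 111) (nat_lit 5) (nat_lit 391) (nat_lit 343) (nat_lit 166)) (XT.nd (nat_lit 78) (nat_lit 0) (nat_lit 0) (XT.lf (nat_lit 0) (nat_lit 5841679195) (nat_lit 304) (nat_lit 11211173384) (nat_lit 380) (nat_lit 16315596163) (nat_lit 106) (nat_lit 5) (nat_lit 110) (nat_lit 5) (nat_lit 111) (nat_lit 5) (nat_lit 392) (nat_lit 343) (nat_lit 165)) (XT.lf (nat_lit 0) (nat_lit 23235231244) (nat_lit 380) (nat_lit 10187176893) (nat_lit 76) (nat_lit 583542299) (nat_lit 106) (nat_lit 5) (nat_lit 111) (nat_lit 5) (nat_lit 107) (nat_lit 5) (nat_lit 393) (nat_lit 343) (nat_lit 164)))) (XT.nd (nat_lit 156) (nat_lit 304) (nat_lit 0) (XT.nd (nat_lit 78) (nat_lit 76) (nat_lit 0) (XT.lf (nat_lit 0) (nat_lit 7706784674)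 (nat_lit 304) (nat_lit 22077718939) (nat_lit 380) (nat_lit 4872632730) (nat_lit 102) (nat_lit 5) (nat_lit 106) (nat_lit 5) (nat_lit 107) (nat_lit 5) (nat_lit 394) (nat_lit 343) (nat_lit 163)) (XT.lf (nat_lit 0) (nat_lit 1279180256) (nat_lit 380) (nat_lit 8996183639) (nat_lit 76) (nat_lit 25049141505) (nat_lit 101) (nat_lit 5) (nat_lit 106) (nat_lit 5) (nat_lit 102) (nat_lit 5) (nat_lit 395) (nat_lit 343) (nat_lit 162))) (XT.nd (nat_lit 78) (nat_lit 0) (nat_lit 0) (XT.lf (nat_lit 0) (nat_lit 7626119305) (nat_lit 380) (nat_lit 26396009631) (nat_lit 76) (nat_lit 1985065750) (nat_lit 97) (nat_lit 5) (nat_lit 102) (nat_lit 5) (nat_lit 98) (nat_lit 5) (nat_lit 396) (nat_lit 343) (nat_lit 161)) (XT.lf (nat_lit 0) (nat_lit 14353449958) (nat_lit 380) (nat_lit 7854203975) (nat_lit 76) (nat_lit 14497012844) (nat_lit 97) (nat_lit 5) (nat_lit 102) (nat_lit 5) (nat_lit 98) (nat_lit 5) (nat_lit 397) (nat_lit 343) (nat_lit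 160))))))))
noncomputable def xc203 : XT := (XT.nd (nat_lit 2028) (nat_lit 760) (nat_lit 0) (XT.nd (nat_lit 1014) (nat_lit 1368) (nat_lit 0) (XT.nd (nat_lit 468) (nat_lit 988) (nat_lit 0) (XT.nd (nat_lit 234) (nat_lit 380) (nat_lit 0) (XT.nd (nat_lit 78) (nat_lit 228) (nat_lit 0) (XT.lf (nat_lit 0) (nat_lit 11462564117) (nat_lit 304) (nat_lit 9926827317) (nat_lit 380) (nat_lit 16030469451) (nat_lit 93) (nat_lit 5) (nat_lit 97) (nat_lit 5) (nat_lit 98) (nat_lit 5) (nat_lit 398) (nat_lit 343) (nat_lit 159)) (XT.nd (nat_lit 78) (nat_lit 228) (nat_lit 0) (XT.lf (nat_lit 0) (nat_lit 28739320239) (nat_lit 380) (nat_lit 6666253201) (nat_lit 76) (nat_lit 2747851637) (nat_lit 93) (nat_lit 5) (nat_lit 98) (nat_lit 5) (nat_lit 94) (nat_lit 5) (nat_lit 399) (nat_lit 343) (nat_lit 158)) (XT.lf (nat_lit 0) (nat_lit 13361099618) (nat_lit 228) (nat_lit 23172107725) (nat_lit 304) (nat_lit 2369086530) (nat_lit 90) (nat_lit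 5) (nat_lit 93) (nat_lit 5) (nat_lit 94) (nat_lit 5) (nat_lit 400) (nat_lit 343) (nat_lit 157)))) (XT.nd (nat_lit 78) (nat_lit 304) (nat_lit 0) (XT.lf (nat_lit 0) (nat_lit 4856651861) (nat_lit 304) (nat_lit 5598208763) (nat_lit 76) (nat_lit 29215417987) (nat_lit 89) (nat_lit 5) (nat_lit 93) (nat_lit 5) (nat_lit 90) (nat_lit 5) (nat_lit 401) (nat_lit 343) (nat_lit 156)) (XT.nd (nat_lit 78) (nat_lit 0) (nat_lit 0) (XT.lf (nat_lit 0) (nat_lit 12421699884) (nat_lit 380) (nat_lit 25271678759) (nat_lit 76) (nat_lit 2762117310) (nat_lit 85) (nat_lit 5) (nat_lit 90) (nat_lit 5) (nat_lit 86) (nat_lit 5) (nat_lit 402) (nat_lit 343) (nat_lit 155)) (XT.lf (nat_lit 0) (nat_lit 20371184820) (nat_lit 380) (nat_lit 4667354158) (nat_lit 76) (nat_lit 16221007597) (nat_lit 85) (nat_lit 5) (nat_lit 90) (nat_lit 5) (nat_lit 86) (nat_lit 5) (nat_lit 403) (nat_lit 343) (nat_lit 154))))) (XT.nd (nat_lit 234) (nat_lit 456) (nat_lit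 0) (XT.nd (nat_lit 78) (nat_lit 304) (nat_lit 0) (XT.lf (nat_lit 0) (nat_lit 16879857078) (nat_lit 228) (nat_lit 11838528932) (nat_lit 304) (nat_lit 13364557042) (nat_lit 82) (nat_lit 5) (nat_lit 85) (nat_lit 5) (nat_lit 86) (nat_lit 5) (nat_lit 404) (nat_lit 343) (nat_lit 153)) (XT.nd (nat_lit 78) (nat_lit 304) (nat_lit 0) (XT.lf (nat_lit 0) (nat_lit 37377495915) (nat_lit 304) (nat_lit 3782487175) (nat_lit 76) (nat_lit 1769214799) (nat_lit 82) (nat_lit 5) (nat_lit 86) (nat_lit 5) (nat_lit 83) (nat_lit 5) (nat_lit 405) (nat_lit 343) (nat_lit 152)) (XT.lf (nat_lit 0) (nat_lit 2742065740) (nat_lit 304) (nat_lit 25298562842) (nat_lit 76) (nat_lit 15750636587) (nat_lit 78) (nat_lit 5) (nat_lit 82) (nat_lit 5) (nat_lit 79) (nat_lit 5) (nat_lit 406) (nat_lit 343) (nat_lit 151)))) (XT.nd (nat_lit 156) (nat_lit 228) (nat_lit 0) (XT.nd (nat_lit 78) (nat_lit 228) (nat_lit 0) (XT.lf (nat_lit 0) (nat_lit 11208737103)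 (nat_lit 304) (nat_lit 3224247987) (nat_lit 76) (nat_lit 30243491271) (nat_lit 78) (nat_lit 5) (nat_lit 82) (nat_lit 5) (nat_lit 79) (nat_lit 5) (nat_lit 407) (nat_lit 343) (nat_lit 150)) (XT.lf (nat_lit 0) (nat_lit 19896135105) (nat_lit 228) (nat_lit 221712228) (nat_lit 304) (nat_lit 25464744503) (nat_lit 75) (nat_lit 5) (nat_lit 78) (nat_lit 5) (nat_lit 79) (nat_lit 5) (nat_lit 408) (nat_lit 343) (nat_lit 149))) (XT.nd (nat_lit 78) (nat_lit 228) (nat_lit 0) (XT.lf (nat_lit 0) (nat_lit 29462895940) (nat_lit 304) (nat_lit 2882019533) (nat_lit 76) (nat_lit 14165916426) (nat_lit 75) (nat_lit 5) (nat_lit 79) (nat_lit 5) (nat_lit 76) (nat_lit 5) (nat_lit 409) (nat_lit 343) (nat_lit 148)) (XT.lf (nat_lit 0) (nat_lit 21010033814) (nat_lit 228) (nat_lit 18279709619) (nat_lit 304) (nat_lit 8171133355) (nat_lit 72) (nat_lit 5) (nat_lit 75) (nat_lit 5) (nat_lit 76) (nat_lit 5) (nat_lit 410) (nat_lit 343) (nat_lit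 147)))))) (XT.nd (nat_lit 468) (nat_lit 684) (nat_lit 0) (XT.nd (nat_lit 234) (nat_lit 380) (nat_lit 0) (XT.nd (nat_lit 78) (nat_lit 228) (nat_lit 0) (XT.lf (nat_lit 0) (nat_lit 979698980) (nat_lit 304) (nat_lit 2774569685) (nat_lit 76) (nat_lit 44684074275) (nat_lit 71) (nat_lit 5) (nat_lit 75) (nat_lit 5) (nat_lit 72) (nat_lit 5) (nat_lit 411) (nat_lit 343) (nat_lit 146)) (XT.nd (nat_lit 78) (nat_lit 0) (nat_lit 0) (XT.lf (nat_lit 0) (nat_lit 10559856114) (nat_lit 304) (nat_lit 27591730581) (nat_lit 76) (nat_lit 11281549325) (nat_lit 68) (nat_lit 5) (nat_lit 72) (nat_lit 5) (nat_lit 69) (nat_lit 5) (nat_lit 412) (nat_lit 343) (nat_lit 145)) (XT.lf (nat_lit 0) (nat_lit 20490285495) (nat_lit 304) (nat_lit 3245857304) (nat_lit 76) (nat_lit 26719744996) (nat_lit 68) (nat_lit 5) (nat_lit 72) (nat_lit 5) (nat_lit 69) (nat_lit 5) (nat_lit 413) (nat_lit 343) (nat_lit 144)))) (XT.nd (nat_lit 78) (nat_lit 152)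 (nat_lit 0) (XT.lf (nat_lit 0) (nat_lit 22260688737) (nat_lit 228) (nat_lit 8669399501) (nat_lit 304) (nat_lit 20572890971) (nat_lit 65) (nat_lit 5) (nat_lit 68) (nat_lit 5) (nat_lit 69) (nat_lit 5) (nat_lit 414) (nat_lit 343) (nat_lit 143)) (XT.nd (nat_lit 78) (nat_lit 152) (nat_lit 0) (XT.lf (nat_lit 0) (nat_lit 41779523159) (nat_lit 304) (nat_lit 4051806713) (nat_lit 76) (nat_lit 6747261228) (nat_lit 65) (nat_lit 5) (nat_lit 69) (nat_lit 5) (nat_lit 66) (nat_lit 5) (nat_lit 415) (nat_lit 343) (nat_lit 142)) (XT.lf (nat_lit 0) (nat_lit 22238519167) (nat_lit 152) (nat_lit 31013097433) (nat_lit 228) (nat_lit 425940332) (nat_lit 63) (nat_lit 5) (nat_lit 65) (nat_lit 5) (nat_lit 66) (nat_lit 5) (nat_lit 416) (nat_lit 343) (nat_lit 141))))) (XT.nd (nat_lit 234) (nat_lit 380) (nat_lit 0) (XT.nd (nat_lit 78) (nat_lit 228) (nat_lit 0) (XT.lf (nat_lit 0) (nat_lit 10097101388) (nat_lit 228) (nat_lit 5510666578)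 (nat_lit 76) (nat_lit 39197599333) (nat_lit 62) (nat_lit 5) (nat_lit 65) (nat_lit 5) (nat_lit 63) (nat_lit 5) (nat_lit 417) (nat_lit 343) (nat_lit 140)) (XT.nd (nat_lit 78) (nat_lit 0) (nat_lit 0) (XT.lf (nat_lit 0) (nat_lit 21137222182) (nat_lit 304) (nat_lit 34356178772) (nat_lit 76) (nat_lit 467186819) (nat_lit 59) (nat_lit 5) (nat_lit 63) (nat_lit 5) (nat_lit 60) (nat_lit 5) (nat_lit 418) (nat_lit 343) (nat_lit 139)) (XT.lf (nat_lit 0) (nat_lit 32716942097) (nat_lit 304) (nat_lit 7661880011) (nat_lit 76) (nat_lit 16765391643) (nat_lit 59) (nat_lit 5) (nat_lit 63) (nat_lit 5) (nat_lit 60) (nat_lit 5) (nat_lit 419) (nat_lit 343) (nat_lit 138)))) (XT.nd (nat_lit 156) (nat_lit 228) (nat_lit 0) (XT.nd (nat_lit 78) (nat_lit 0) (nat_lit 0) (XT.lf (nat_lit 0) (nat_lit 20224105124) (nat_lit 152) (nat_lit 24612088211) (nat_lit 228) (nat_lit 13521391716) (nat_lit 57) (nat_lit 5) (nat_lit 59) (nat_lit 5) (nat_lit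 60) (nat_lit 5) (nat_lit 420) (nat_lit 343) (nat_lit 137)) (XT.lf (nat_lit 0) (nat_lit 49099980257) (nat_lit 152) (nat_lit 8294175044) (nat_lit 228) (nat_lit 2210948905) (nat_lit 57) (nat_lit 5) (nat_lit 59) (nat_lit 5) (nat_lit 60) (nat_lit 5) (nat_lit 421) (nat_lit 343) (nat_lit 136))) (XT.nd (nat_lit 78) (nat_lit 0) (nat_lit 0) (XT.lf (nat_lit 0) (nat_lit 9511955632) (nat_lit 228) (nat_lit 42753525443) (nat_lit 76) (nat_lit 8614126576) (nat_lit 54) (nat_lit 5) (nat_lit 57) (nat_lit 5) (nat_lit 55) (nat_lit 5) (nat_lit 422) (nat_lit 343) (nat_lit 135)) (XT.lf (nat_lit 0) (nat_lit 21729182169) (nat_lit 228) (nat_lit 14466356784) (nat_lit 76) (nat_lit 25990538999) (nat_lit 54) (nat_lit 5) (nat_lit 57) (nat_lit 5) (nat_lit 55) (nat_lit 5) (nat_lit 423) (nat_lit 343) (nat_lit 134))))))) (XT.nd (nat_lit 40950) (nat_lit 0) (nat_lit 12996) (XT.nd (nat_lit 468) (nat_lit 228) (nat_lit 0) (XT.nd (nat_lit 234)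 (nat_lit 228) (nat_lit 0) (XT.nd (nat_lit 78) (nat_lit 152) (nat_lit 0) (XT.lf (nat_lit 0) (nat_lit 14957712702) (nat_lit 152) (nat_lit 19496879697) (nat_lit 228) (nat_lit 29072900587) (nat_lit 52) (nat_lit 5) (nat_lit 54) (nat_lit 5) (nat_lit 55) (nat_lit 5) (nat_lit 424) (nat_lit 343) (nat_lit 133)) (XT.nd (nat_lit 78) (nat_lit 152) (nat_lit 0) (XT.lf (nat_lit 0) (nat_lit 45557492549) (nat_lit 152) (nat_lit 2148265865) (nat_lit 228) (nat_lit 17199072868) (nat_lit 52) (nat_lit 5) (nat_lit 54) (nat_lit 5) (nat_lit 55) (nat_lit 5) (nat_lit 425) (nat_lit 343) (nat_lit 132)) (XT.lf (nat_lit 0) (nat_lit 10808060303) (nat_lit 152) (nat_lit 50799369551) (nat_lit 228) (nat_lit 4708471355) (nat_lit 50) (nat_lit 5) (nat_lit 52) (nat_lit 5) (nat_lit 53) (nat_lit 5) (nat_lit 426) (nat_lit 343) (nat_lit 131)))) (XT.nd (nat_lit 78) (nat_lit 152) (nat_lit 0) (XT.lf (nat_lit 0) (nat_lit 8214217568) (nat_lit 228) (nat_lit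 25603840954) (nat_lit 76) (nat_lit 33942396849) (nat_lit 49) (nat_lit 5) (nat_lit 52) (nat_lit 5) (nat_lit 50) (nat_lit 5) (nat_lit 427) (nat_lit 343) (nat_lit 130)) (XT.nd (nat_lit 78) (nat_lit 0) (nat_lit 0) (XT.lf (nat_lit 0) (nat_lit 5249694430) (nat_lit 152) (nat_lit 16228744035) (nat_lit 228) (nat_lit 47767055077) (nat_lit 47) (nat_lit 5) (nat_lit 49) (nat_lit 5) (nat_lit 50) (nat_lit 5) (nat_lit 428) (nat_lit 343) (nat_lit 129)) (XT.lf (nat_lit 0) (nat_lit 35417880593) (nat_lit 228) (nat_lit 33237766273) (nat_lit 76) (nat_lit 2111117682) (nat_lit 47) (nat_lit 5) (nat_lit 50) (nat_lit 5) (nat_lit 48) (nat_lit 5) (nat_lit 429) (nat_lit 343) (nat_lit 128))))) (XT.nd (nat_lit 40170) (nat_lit 0) (nat_lit 13832) (XT.nd (nat_lit 78) (nat_lit 228) (nat_lit 0) (XT.lf (nat_lit 0) (nat_lit 49934278963) (nat_lit 228) (nat_lit 1720992002) (nat_lit 76) (nat_lit 20673640045) (nat_lit 47) (nat_lit 5) (nat_lit 50)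 (nat_lit 5) (nat_lit 48) (nat_lit 5) (nat_lit 430) (nat_lit 343) (nat_lit 127)) (XT.nd (nat_lit 78) (nat_lit 76) (nat_lit 0) (XT.lf (nat_lit 0) (nat_lit 31349810974) (nat_lit 152) (nat_lit 33835859777) (nat_lit 228) (nat_lit 8743266569) (nat_lit 45) (nat_lit 5) (nat_lit 47) (nat_lit 5) (nat_lit 48) (nat_lit 5) (nat_lit 431) (nat_lit 343) (nat_lit 126)) (XT.lf (nat_lit 0) (nat_lit 5229576874) (nat_lit 228) (nat_lit 10182942744) (nat_lit 76) (nat_lit 60162440682) (nat_lit 44) (nat_lit 5) (nat_lit 47) (nat_lit 5) (nat_lit 45) (nat_lit 5) (nat_lit 432) (nat_lit 343) (nat_lit 125)))) (XT.nd (nat_lit 156) (nat_lit 0) (nat_lit 0) (XT.nd (nat_lit 78) (nat_lit 0) (nat_lit 0) (XT.lf (nat_lit 0) (nat_lit 1879980747) (nat_lit 0) (nat_lit 1879980747) (nat_lit 1140) (nat_lit 3825980603) (nat_lit 226) (nat_lit 5) (nat_lit 226) (nat_lit 3) (nat_lit 241) (nat_lit 3) (nat_lit 344) (nat_lit 344) (nat_lit 212)) (XT.lf (nat_lit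 0) (nat_lit 7944866767) (nat_lit 1140) (nat_lit 4325528967) (nat_lit 1216) (nat_lit 3119483939) (nat_lit 226) (nat_lit 5) (nat_lit 241) (nat_lit 3) (nat_lit 242) (nat_lit 5) (nat_lit 345) (nat_lit 344) (nat_lit 211))) (XT.nd (nat_lit 78) (nat_lit 0) (nat_lit 76) (XT.lf (nat_lit 76) (nat_lit 2988663546) (nat_lit 0) (nat_lit 5448915761) (nat_lit 1216) (nat_lit 7175193619) (nat_lit 227) (nat_lit 5) (nat_lit 226) (nat_lit 5) (nat_lit 242) (nat_lit 5) (nat_lit 346) (nat_lit 344) (nat_lit 210)) (XT.lf (nat_lit 0) (nat_lit 8993719473) (nat_lit 1140) (nat_lit 5251887856) (nat_lit 1216) (nat_lit 1595294537) (nat_lit 227) (nat_lit 5) (nat_lit 242) (nat_lit 5) (nat_lit 243) (nat_lit 5) (nat_lit 347) (nat_lit 344) (nat_lit 209)))))) (XT.nd (nat_lit 546) (nat_lit 912) (nat_lit 0) (XT.nd (nat_lit 234) (nat_lit 0) (nat_lit 76) (XT.nd (nat_lit 78) (nat_lit 0) (nat_lit 0) (XT.lf (nat_lit 76) (nat_lit 2326935570) (nat_lit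 0) (nat_lit 7305608702) (nat_lit 1216) (nat_lit 6441358425) (nat_lit 228) (nat_lit 5) (nat_lit 227) (nat_lit 5) (nat_lit 243) (nat_lit 5) (nat_lit 348) (nat_lit 344) (nat_lit 208)) (XT.nd (nat_lit 78) (nat_lit 0) (nat_lit 76) (XT.lf (nat_lit 76) (nat_lit 10234819315) (nat_lit 0) (nat_lit 98674290) (nat_lit 1216) (nat_lit 5979118956) (nat_lit 228) (nat_lit 5) (nat_lit 227) (nat_lit 5) (nat_lit 243) (nat_lit 5) (nat_lit 349) (nat_lit 344) (nat_lit 207)) (XT.lf (nat_lit 76) (nat_lit 1779647293) (nat_lit 0) (nat_lit 9353596256) (nat_lit 1216) (nat_lit 5422914582) (nat_lit 229) (nat_lit 5) (nat_lit 228) (nat_lit 5) (nat_lit 244) (nat_lit 5) (nat_lit 350) (nat_lit 344) (nat_lit 206)))) (XT.nd (nat_lit 156) (nat_lit 0) (nat_lit 76) (XT.nd (nat_lit 78) (nat_lit 0) (nat_lit 76) (XT.lf (nat_lit 76) (nat_lit 9990334902) (nat_lit 0) (nat_lit 2019475501) (nat_lit 1216) (nat_lit 4795622287) (nat_lit 229) (nat_lit 5)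 (nat_lit 228) (nat_lit 5) (nat_lit 244) (nat_lit 5) (nat_lit 351) (nat_lit 344) (nat_lit 205)) (XT.lf (nat_lit 76) (nat_lit 1352131701) (nat_lit 0) (nat_lit 11617535294) (nat_lit 1216) (nat_lit 4090815848) (nat_lit 230) (nat_lit 5) (nat_lit 229) (nat_lit 5) (nat_lit 245) (nat_lit 5) (nat_lit 352) (nat_lit 344) (nat_lit 204))) (XT.nd (nat_lit 78) (nat_lit 0) (nat_lit 76) (XT.lf (nat_lit 76) (nat_lit 9877540734) (nat_lit 0) (nat_lit 4160398130) (nat_lit 1216) (nat_lit 3282863981) (nat_lit 230) (nat_lit 5) (nat_lit 229) (nat_lit 5) (nat_lit 245) (nat_lit 5) (nat_lit 353) (nat_lit 344) (nat_lit 203)) (XT.lf (nat_lit 76) (nat_lit 1050167598) (nat_lit 0) (nat_lit 14123317263) (nat_lit 1216) (nat_lit 2414397537) (nat_lit 231) (nat_lit 5) (nat_lit 230) (nat_lit 5) (nat_lit 246) (nat_lit 5) (nat_lit 354) (nat_lit 344) (nat_lit 202))))) (XT.nd (nat_lit 234) (nat_lit 0) (nat_lit 0) (XT.nd (nat_lit 78) (nat_lit 1140)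 (nat_lit 0) (XT.lf (nat_lit 76) (nat_lit 9902765527) (nat_lit 0) (nat_lit 6547766707) (nat_lit 1216) (nat_lit 1409225586) (nat_lit 231) (nat_lit 5) (nat_lit 230) (nat_lit 5) (nat_lit 246) (nat_lit 5) (nat_lit 355) (nat_lit 344) (nat_lit 201)) (XT.nd (nat_lit 78) (nat_lit 1216) (nat_lit 0) (XT.lf (nat_lit 76) (nat_lit 879961094) (nat_lit 0) (nat_lit 16898207011) (nat_lit 1216) (nat_lit 361259431) (nat_lit 232) (nat_lit 5) (nat_lit 231) (nat_lit 5) (nat_lit 247) (nat_lit 5) (nat_lit 356) (nat_lit 344) (nat_lit 200)) (XT.lf (nat_lit 0) (nat_lit 841955411) (nat_lit 1216) (nat_lit 8358875554) (nat_lit 1292) (nat_lit 9222320563) (nat_lit 215) (nat_lit 5) (nat_lit 231) (nat_lit 5) (nat_lit 232) (nat_lit 5) (nat_lit 357) (nat_lit 344) (nat_lit 199)))) (XT.nd (nat_lit 156) (nat_lit 0) (nat_lit 76) (XT.nd (nat_lit 78) (nat_lit 0) (nat_lit 76) (XT.lf (nat_lit 76) (nat_lit 814839047) (nat_lit 0) (nat_lit 1259085225)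 (nat_lit 1292) (nat_lit 16641363909) (nat_lit 216) (nat_lit 5) (nat_lit 215) (nat_lit 5) (nat_lit 232) (nat_lit 5) (nat_lit 358) (nat_lit 344) (nat_lit 198)) (XT.lf (nat_lit 0) (nat_lit 3486896604) (nat_lit 1216) (nat_lit 8652316467) (nat_lit 1292) (nat_lit 6872660169) (nat_lit 216) (nat_lit 5) (nat_lit 232) (nat_lit 5) (nat_lit 233) (nat_lit 5) (nat_lit 359) (nat_lit 344) (nat_lit 197))) (XT.nd (nat_lit 78) (nat_lit 0) (nat_lit 76) (XT.lf (nat_lit 76) (nat_lit 871578475) (nat_lit 0) (nat_lit 4084021418) (nat_lit 1292) (nat_lit 14361361174) (nat_lit 217) (nat_lit 5) (nat_lit 216) (nat_lit 5) (nat_lit 233) (nat_lit 5) (nat_lit 360) (nat_lit 344) (nat_lit 196)) (XT.lf (nat_lit 0) (nat_lit 6589765130) (nat_lit 1216) (nat_lit 8817786544) (nat_lit 76) (nat_lit 4220013143) (nat_lit 217) (nat_lit 5) (nat_lit 233) (nat_lit 5) (nat_lit 218) (nat_lit 5) (nat_lit 361) (nat_lit 344) (nat_lit 195))))))))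
noncomputable def xc204 : XT := (XT.nd (nat_lit 2028) (nat_lit 3952) (nat_lit 0) (XT.nd (nat_lit 1014) (nat_lit 3040) (nat_lit 0) (XT.nd (nat_lit 468) (nat_lit 2204) (nat_lit 0) (XT.nd (nat_lit 234) (nat_lit 532) (nat_lit 0) (XT.nd (nat_lit 78) (nat_lit 608) (nat_lit 0) (XT.lf (nat_lit 0) (nat_lit 1072925447) (nat_lit 988) (nat_lit 7243660991) (nat_lit 1064) (nat_lit 11629596466) (nat_lit 204) (nat_lit 5) (nat_lit 217) (nat_lit 5) (nat_lit 218) (nat_lit 5) (nat_lit 362) (nat_lit 344) (nat_lit 194)) (XT.nd (nat_lit 78) (nat_lit 608) (nat_lit 0) (XT.lf (nat_lit 0) (nat_lit 10189374154) (nat_lit 1064) (nat_lit 8849028983) (nat_lit 76) (nat_lit 1233136551) (nat_lit 204) (nat_lit 5) (nat_lit 218) (nat_lit 5) (nat_lit 205) (nat_lit 5) (nat_lit 363) (nat_lit 344) (nat_lit 193)) (XT.lf (nat_lit 0) (nat_lit 1425842097) (nat_lit 608) (nat_lit 10771169377) (nat_lit 684) (nat_lit 8407290584) (nat_lit 196) (nat_lit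 5) (nat_lit 204) (nat_lit 5) (nat_lit 205) (nat_lit 5) (nat_lit 364) (nat_lit 344) (nat_lit 192)))) (XT.nd (nat_lit 78) (nat_lit 532) (nat_lit 0) (XT.lf (nat_lit 0) (nat_lit 12184228250) (nat_lit 608) (nat_lit 2163385974) (nat_lit 684) (nat_lit 6596955705) (nat_lit 196) (nat_lit 5) (nat_lit 204) (nat_lit 5) (nat_lit 205) (nat_lit 5) (nat_lit 365) (nat_lit 344) (nat_lit 191)) (XT.nd (nat_lit 78) (nat_lit 0) (nat_lit 0) (XT.lf (nat_lit 0) (nat_lit 1937547835) (nat_lit 532) (nat_lit 14701817846) (nat_lit 608) (nat_lit 4653385820) (nat_lit 189) (nat_lit 5) (nat_lit 196) (nat_lit 5) (nat_lit 197) (nat_lit 5) (nat_lit 366) (nat_lit 344) (nat_lit 190)) (XT.lf (nat_lit 0) (nat_lit 13108015738) (nat_lit 532) (nat_lit 5995230384) (nat_lit 608) (nat_lit 2545035554) (nat_lit 189) (nat_lit 5) (nat_lit 196) (nat_lit 5) (nat_lit 197) (nat_lit 5) (nat_lit 367) (nat_lit 344) (nat_lit 189))))) (XT.nd (nat_lit 234) (nat_lit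 988) (nat_lit 0) (XT.nd (nat_lit 78) (nat_lit 608) (nat_lit 0) (XT.lf (nat_lit 0) (nat_lit 2615480399) (nat_lit 608) (nat_lit 19073167965) (nat_lit 684) (nat_lit 324405551) (nat_lit 181) (nat_lit 5) (nat_lit 189) (nat_lit 5) (nat_lit 190) (nat_lit 5) (nat_lit 368) (nat_lit 344) (nat_lit 188)) (XT.nd (nat_lit 78) (nat_lit 532) (nat_lit 0) (XT.lf (nat_lit 0) (nat_lit 2064939956) (nat_lit 684) (nat_lit 8190464217) (nat_lit 76) (nat_lit 12128591214) (nat_lit 180) (nat_lit 5) (nat_lit 189) (nat_lit 5) (nat_lit 181) (nat_lit 5) (nat_lit 369) (nat_lit 344) (nat_lit 187)) (XT.lf (nat_lit 0) (nat_lit 3410203752) (nat_lit 532) (nat_lit 1136145365) (nat_lit 608) (nat_lit 18218816476) (nat_lit 173) (nat_lit 5) (nat_lit 180) (nat_lit 5) (nat_lit 181) (nat_lit 5) (nat_lit 370) (nat_lit 344) (nat_lit 186)))) (XT.nd (nat_lit 156) (nat_lit 456) (nat_lit 0) (XT.nd (nat_lit 78) (nat_lit 532) (nat_lit 0) (XT.lf (nat_lit 0)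 (nat_lit 7259330586) (nat_lit 608) (nat_lit 7714793148) (nat_lit 76) (nat_lit 8178937109) (nat_lit 173) (nat_lit 5) (nat_lit 181) (nat_lit 5) (nat_lit 174) (nat_lit 5) (nat_lit 371) (nat_lit 344) (nat_lit 185)) (XT.lf (nat_lit 0) (nat_lit 4342135684) (nat_lit 532) (nat_lit 5758957100) (nat_lit 608) (nat_lit 13450082154) (nat_lit 166) (nat_lit 5) (nat_lit 173) (nat_lit 5) (nat_lit 174) (nat_lit 5) (nat_lit 372) (nat_lit 344) (nat_lit 184))) (XT.nd (nat_lit 78) (nat_lit 456) (nat_lit 0) (XT.lf (nat_lit 0) (nat_lit 13137170143) (nat_lit 608) (nat_lit 7082662485) (nat_lit 76) (nat_lit 3738131575) (nat_lit 166) (nat_lit 5) (nat_lit 174) (nat_lit 5) (nat_lit 167) (nat_lit 5) (nat_lit 373) (nat_lit 344) (nat_lit 183)) (XT.lf (nat_lit 0) (nat_lit 5450997274) (nat_lit 456) (nat_lit 10917416292) (nat_lit 532) (nat_lit 8005424581) (nat_lit 160) (nat_lit 5) (nat_lit 166) (nat_lit 5) (nat_lit 167) (nat_lit 5) (nat_lit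 374) (nat_lit 344) (nat_lit 182)))))) (XT.nd (nat_lit 468) (nat_lit 1596) (nat_lit 0) (XT.nd (nat_lit 234) (nat_lit 912) (nat_lit 0) (XT.nd (nat_lit 78) (nat_lit 532) (nat_lit 0) (XT.lf (nat_lit 0) (nat_lit 18500054366) (nat_lit 456) (nat_lit 1262826580) (nat_lit 532) (nat_lit 5037322174) (nat_lit 160) (nat_lit 5) (nat_lit 166) (nat_lit 5) (nat_lit 167) (nat_lit 5) (nat_lit 375) (nat_lit 344) (nat_lit 181)) (XT.nd (nat_lit 78) (nat_lit 76) (nat_lit 0) (XT.lf (nat_lit 0) (nat_lit 6743583136) (nat_lit 456) (nat_lit 16658786418) (nat_lit 532) (nat_lit 1832697181) (nat_lit 154) (nat_lit 5) (nat_lit 160) (nat_lit 5) (nat_lit 161) (nat_lit 5) (nat_lit 376) (nat_lit 344) (nat_lit 180)) (XT.lf (nat_lit 0) (nat_lit 1511124937) (nat_lit 532) (nat_lit 5406367436) (nat_lit 76) (nat_lit 18762912481) (nat_lit 153) (nat_lit 5) (nat_lit 160) (nat_lit 5) (nat_lit 154) (nat_lit 5) (nat_lit 377) (nat_lit 344) (nat_lit 179))))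 (XT.nd (nat_lit 78) (nat_lit 456) (nat_lit 0) (XT.lf (nat_lit 0) (nat_lit 5023330523) (nat_lit 532) (nat_lit 17959589743) (nat_lit 76) (nat_lit 3152494385) (nat_lit 147) (nat_lit 5) (nat_lit 154) (nat_lit 5) (nat_lit 148) (nat_lit 5) (nat_lit 378) (nat_lit 344) (nat_lit 178)) (XT.nd (nat_lit 78) (nat_lit 456) (nat_lit 0) (XT.lf (nat_lit 0) (nat_lit 8759708127) (nat_lit 532) (nat_lit 4400902166) (nat_lit 76) (nat_lit 13439903216) (nat_lit 147) (nat_lit 5) (nat_lit 154) (nat_lit 5) (nat_lit 148) (nat_lit 5) (nat_lit 379) (nat_lit 344) (nat_lit 177)) (XT.lf (nat_lit 0) (nat_lit 9749212627) (nat_lit 456) (nat_lit 2948001755) (nat_lit 532) (nat_lit 14379682688) (nat_lit 141) (nat_lit 5) (nat_lit 147) (nat_lit 5) (nat_lit 148) (nat_lit 5) (nat_lit 380) (nat_lit 344) (nat_lit 176))))) (XT.nd (nat_lit 234) (nat_lit 1216) (nat_lit 0) (XT.nd (nat_lit 78) (nat_lit 380) (nat_lit 0) (XT.lf (nat_lit 0) (nat_lit 16865899459)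 (nat_lit 532) (nat_lit 3231063540) (nat_lit 76) (nat_lit 7467220301) (nat_lit 141) (nat_lit 5) (nat_lit 148) (nat_lit 5) (nat_lit 142) (nat_lit 5) (nat_lit 381) (nat_lit 344) (nat_lit 175)) (XT.nd (nat_lit 78) (nat_lit 0) (nat_lit 0) (XT.lf (nat_lit 0) (nat_lit 11477752063) (nat_lit 380) (nat_lit 9816942635) (nat_lit 456) (nat_lit 6767344624) (nat_lit 136) (nat_lit 5) (nat_lit 141) (nat_lit 5) (nat_lit 142) (nat_lit 5) (nat_lit 382) (nat_lit 344) (nat_lit 174)) (XT.lf (nat_lit 0) (nat_lit 25892318392) (nat_lit 456) (nat_lit 1893084013) (nat_lit 76) (nat_lit 788352294) (nat_lit 136) (nat_lit 5) (nat_lit 142) (nat_lit 5) (nat_lit 137) (nat_lit 5) (nat_lit 383) (nat_lit 344) (nat_lit 173)))) (XT.nd (nat_lit 156) (nat_lit 760) (nat_lit 0) (XT.nd (nat_lit 78) (nat_lit 0) (nat_lit 0) (XT.lf (nat_lit 0) (nat_lit 1721154452) (nat_lit 456) (nat_lit 15713348297) (nat_lit 76) (nat_lit 11659163781) (nat_lit 130) (nat_lit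 5) (nat_lit 136) (nat_lit 5) (nat_lit 131) (nat_lit 5) (nat_lit 384) (nat_lit 344) (nat_lit 172)) (XT.lf (nat_lit 0) (nat_lit 6216989963) (nat_lit 456) (nat_lit 510042123) (nat_lit 76) (nat_lit 22900897718) (nat_lit 130) (nat_lit 5) (nat_lit 136) (nat_lit 5) (nat_lit 131) (nat_lit 5) (nat_lit 385) (nat_lit 344) (nat_lit 171))) (XT.nd (nat_lit 78) (nat_lit 380) (nat_lit 0) (XT.lf (nat_lit 0) (nat_lit 11034860333) (nat_lit 456) (nat_lit 14771214098) (nat_lit 76) (nat_lit 4366534075) (nat_lit 125) (nat_lit 5) (nat_lit 131) (nat_lit 5) (nat_lit 126) (nat_lit 5) (nat_lit 386) (nat_lit 344) (nat_lit 170)) (XT.lf (nat_lit 0) (nat_lit 1014973517) (nat_lit 380) (nat_lit 15059793292) (nat_lit 456) (nat_lit 14656538011) (nat_lit 120) (nat_lit 5) (nat_lit 125) (nat_lit 5) (nat_lit 126) (nat_lit 5) (nat_lit 387) (nat_lit 344) (nat_lit 169))))))) (XT.nd (nat_lit 1014) (nat_lit 1900) (nat_lit 0) (XT.nd (nat_lit 468)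 (nat_lit 988) (nat_lit 0) (XT.nd (nat_lit 234) (nat_lit 684) (nat_lit 0) (XT.nd (nat_lit 78) (nat_lit 380) (nat_lit 0) (XT.lf (nat_lit 0) (nat_lit 17572261114) (nat_lit 380) (nat_lit 3838774973) (nat_lit 456) (nat_lit 9891373160) (nat_lit 120) (nat_lit 5) (nat_lit 125) (nat_lit 5) (nat_lit 126) (nat_lit 5) (nat_lit 388) (nat_lit 344) (nat_lit 168)) (XT.nd (nat_lit 78) (nat_lit 76) (nat_lit 0) (XT.lf (nat_lit 0) (nat_lit 2709051640) (nat_lit 304) (nat_lit 24294691053) (nat_lit 380) (nat_lit 4884015761) (nat_lit 116) (nat_lit 5) (nat_lit 120) (nat_lit 5) (nat_lit 121) (nat_lit 5) (nat_lit 389) (nat_lit 344) (nat_lit 167)) (XT.lf (nat_lit 0) (nat_lit 442385401) (nat_lit 380) (nat_lit 12610898152) (nat_lit 76) (nat_lit 19432082859) (nat_lit 115) (nat_lit 5) (nat_lit 120) (nat_lit 5) (nat_lit 116) (nat_lit 5) (nat_lit 390) (nat_lit 344) (nat_lit 166)))) (XT.nd (nat_lit 78) (nat_lit 304) (nat_lit 0) (XT.lf (nat_lit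 0) (nat_lit 4488058245) (nat_lit 380) (nat_lit 1381744292) (nat_lit 456) (nat_lit 27228469686) (nat_lit 110) (nat_lit 5) (nat_lit 115) (nat_lit 5) (nat_lit 116) (nat_lit 5) (nat_lit 391) (nat_lit 344) (nat_lit 165)) (XT.nd (nat_lit 78) (nat_lit 304) (nat_lit 0) (XT.lf (nat_lit 0) (nat_lit 11687219463) (nat_lit 456) (nat_lit 11475946539) (nat_lit 76) (nat_lit 10559585775) (nat_lit 110) (nat_lit 5) (nat_lit 116) (nat_lit 5) (nat_lit 111) (nat_lit 5) (nat_lit 392) (nat_lit 344) (nat_lit 164)) (XT.lf (nat_lit 0) (nat_lit 6276130819) (nat_lit 304) (nat_lit 11473440143) (nat_lit 380) (nat_lit 16614284227) (nat_lit 106) (nat_lit 5) (nat_lit 110) (nat_lit 5) (nat_lit 111) (nat_lit 5) (nat_lit 393) (nat_lit 344) (nat_lit 163))))) (XT.nd (nat_lit 234) (nat_lit 608) (nat_lit 0) (XT.nd (nat_lit 78) (nat_lit 380) (nat_lit 0) (XT.lf (nat_lit 0) (nat_lit 24112720023) (nat_lit 380) (nat_lit 10236349217) (nat_lit 76) (nat_lit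 671556432) (nat_lit 106) (nat_lit 5) (nat_lit 111) (nat_lit 5) (nat_lit 107) (nat_lit 5) (nat_lit 394) (nat_lit 344) (nat_lit 162)) (XT.nd (nat_lit 78) (nat_lit 76) (nat_lit 0) (XT.lf (nat_lit 0) (nat_lit 8191917050) (nat_lit 304) (nat_lit 22663739136) (nat_lit 380) (nat_lit 4835778032) (nat_lit 102) (nat_lit 5) (nat_lit 106) (nat_lit 5) (nat_lit 107) (nat_lit 5) (nat_lit 395) (nat_lit 344) (nat_lit 161)) (XT.lf (nat_lit 0) (nat_lit 1491790647) (nat_lit 380) (nat_lit 9015986023) (nat_lit 76) (nat_lit 25871154185) (nat_lit 101) (nat_lit 5) (nat_lit 106) (nat_lit 5) (nat_lit 102) (nat_lit 5) (nat_lit 396) (nat_lit 344) (nat_lit 160)))) (XT.nd (nat_lit 156) (nat_lit 304) (nat_lit 0) (XT.nd (nat_lit 78) (nat_lit 0) (nat_lit 0) (XT.lf (nat_lit 0) (nat_lit 8027174878) (nat_lit 380) (nat_lit 26935763555) (nat_lit 76) (nat_lit 2119223685) (nat_lit 97) (nat_lit 5) (nat_lit 102) (nat_lit 5) (nat_lit 98) (nat_lit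 5) (nat_lit 397) (nat_lit 344) (nat_lit 159)) (XT.lf (nat_lit 0) (nat_lit 14951307819) (nat_lit 380) (nat_lit 7845047216) (nat_lit 76) (nat_lit 15004356203) (nat_lit 97) (nat_lit 5) (nat_lit 102) (nat_lit 5) (nat_lit 98) (nat_lit 5) (nat_lit 398) (nat_lit 344) (nat_lit 158))) (XT.nd (nat_lit 78) (nat_lit 0) (nat_lit 0) (XT.lf (nat_lit 0) (nat_lit 12048824086) (nat_lit 304) (nat_lit 10146961900) (nat_lit 380) (nat_lit 16341653697) (nat_lit 93) (nat_lit 5) (nat_lit 97) (nat_lit 5) (nat_lit 98) (nat_lit 5) (nat_lit 399) (nat_lit 344) (nat_lit 157)) (XT.lf (nat_lit 0) (nat_lit 29762140064) (nat_lit 380) (nat_lit 6626771419) (nat_lit 76) (nat_lit 2904223701) (nat_lit 93) (nat_lit 5) (nat_lit 98) (nat_lit 5) (nat_lit 94) (nat_lit 5) (nat_lit 400) (nat_lit 344) (nat_lit 156)))))) (XT.nd (nat_lit 546) (nat_lit 760) (nat_lit 0) (XT.nd (nat_lit 234) (nat_lit 532) (nat_lit 0) (XT.nd (nat_lit 78) (nat_lit 380) (nat_lit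 0) (XT.lf (nat_lit 0) (nat_lit 13999054245) (nat_lit 228) (nat_lit 23788390053) (nat_lit 304) (nat_lit 2277099869) (nat_lit 90) (nat_lit 5) (nat_lit 93) (nat_lit 5) (nat_lit 94) (nat_lit 5) (nat_lit 401) (nat_lit 344) (nat_lit 155)) (XT.nd (nat_lit 78) (nat_lit 304) (nat_lit 0) (XT.lf (nat_lit 0) (nat_lit 5157572178) (nat_lit 304) (nat_lit 5532783438) (nat_lit 76) (nat_lit 30165307524) (nat_lit 89) (nat_lit 5) (nat_lit 93) (nat_lit 5) (nat_lit 90) (nat_lit 5) (nat_lit 402) (nat_lit 344) (nat_lit 154)) (XT.lf (nat_lit 0) (nat_lit 12948023311) (nat_lit 380) (nat_lit 25794843954) (nat_lit 76) (nat_lit 2921618144) (nat_lit 85) (nat_lit 5) (nat_lit 90) (nat_lit 5) (nat_lit 86) (nat_lit 5) (nat_lit 403) (nat_lit 344) (nat_lit 153)))) (XT.nd (nat_lit 156) (nat_lit 304) (nat_lit 0) (XT.nd (nat_lit 78) (nat_lit 228) (nat_lit 0) (XT.lf (nat_lit 0) (nat_lit 21131516900) (nat_lit 380) (nat_lit 4579233843) (nat_lit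 76) (nat_lit 16782042984) (nat_lit 85) (nat_lit 5) (nat_lit 90) (nat_lit 5) (nat_lit 86) (nat_lit 5) (nat_lit 404) (nat_lit 344) (nat_lit 152)) (XT.lf (nat_lit 0) (nat_lit 17612157054) (nat_lit 228) (nat_lit 12114803070) (nat_lit 304) (nat_lit 13613999038) (nat_lit 82) (nat_lit 5) (nat_lit 85) (nat_lit 5) (nat_lit 86) (nat_lit 5) (nat_lit 405) (nat_lit 344) (nat_lit 151))) (XT.nd (nat_lit 78) (nat_lit 304) (nat_lit 0) (XT.lf (nat_lit 0) (nat_lit 38642297291) (nat_lit 304) (nat_lit 3673031513) (nat_lit 76) (nat_lit 1897381012) (nat_lit 82) (nat_lit 5) (nat_lit 86) (nat_lit 5) (nat_lit 83) (nat_lit 5) (nat_lit 406) (nat_lit 344) (nat_lit 150)) (XT.lf (nat_lit 0) (nat_lit 2967204253) (nat_lit 304) (nat_lit 25833875234) (nat_lit 76) (nat_lit 16299581057) (nat_lit 78) (nat_lit 5) (nat_lit 82) (nat_lit 5) (nat_lit 79) (nat_lit 5) (nat_lit 407) (nat_lit 344) (nat_lit 149))))) (XT.nd (nat_lit 234) (nat_lit 532)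 (nat_lit 0) (XT.nd (nat_lit 78) (nat_lit 228) (nat_lit 0) (XT.lf (nat_lit 0) (nat_lit 11683714304) (nat_lit 304) (nat_lit 3103844850) (nat_lit 76) (nat_lit 31224995400) (nat_lit 78) (nat_lit 5) (nat_lit 82) (nat_lit 5) (nat_lit 79) (nat_lit 5) (nat_lit 408) (nat_lit 344) (nat_lit 148)) (XT.nd (nat_lit 78) (nat_lit 0) (nat_lit 0) (XT.lf (nat_lit 0) (nat_lit 20708021003) (nat_lit 228) (nat_lit 150103321) (nat_lit 304) (nat_lit 26087789965) (nat_lit 75) (nat_lit 5) (nat_lit 78) (nat_lit 5) (nat_lit 79) (nat_lit 5) (nat_lit 409) (nat_lit 344) (nat_lit 147)) (XT.lf (nat_lit 0) (nat_lit 30480272000) (nat_lit 304) (nat_lit 2756436564) (nat_lit 76) (nat_lit 14665392107) (nat_lit 75) (nat_lit 5) (nat_lit 79) (nat_lit 5) (nat_lit 76) (nat_lit 5) (nat_lit 410) (nat_lit 344) (nat_lit 146)))) (XT.nd (nat_lit 156) (nat_lit 228) (nat_lit 0) (XT.nd (nat_lit 78) (nat_lit 76) (nat_lit 0) (XT.lf (nat_lit 0) (nat_lit 21850299524)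 (nat_lit 228) (nat_lit 18749755668) (nat_lit 304) (nat_lit 8280649306) (nat_lit 72) (nat_lit 5) (nat_lit 75) (nat_lit 5) (nat_lit 76) (nat_lit 5) (nat_lit 411) (nat_lit 344) (nat_lit 145)) (XT.lf (nat_lit 0) (nat_lit 1138188641) (nat_lit 304) (nat_lit 2651341101) (nat_lit 76) (nat_lit 46098043387) (nat_lit 71) (nat_lit 5) (nat_lit 75) (nat_lit 5) (nat_lit 72) (nat_lit 5) (nat_lit 412) (nat_lit 344) (nat_lit 144))) (XT.nd (nat_lit 78) (nat_lit 0) (nat_lit 0) (XT.lf (nat_lit 0) (nat_lit 11004697046) (nat_lit 304) (nat_lit 28211917614) (nat_lit 76) (nat_lit 11695628318) (nat_lit 68) (nat_lit 5) (nat_lit 72) (nat_lit 5) (nat_lit 69) (nat_lit 5) (nat_lit 413) (nat_lit 344) (nat_lit 143)) (XT.lf (nat_lit 0) (nat_lit 21229309834) (nat_lit 304) (nat_lit 3141713718) (nat_lit 76) (nat_lit 27594766971) (nat_lit 68) (nat_lit 5) (nat_lit 72) (nat_lit 5) (nat_lit 69) (nat_lit 5) (nat_lit 414) (nat_lit 344) (nat_lit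 142))))))))
noncomputable def xc205 : XT := (XT.nd (nat_lit 42042) (nat_lit 0) (nat_lit 7752) (XT.nd (nat_lit 1014) (nat_lit 380) (nat_lit 0) (XT.nd (nat_lit 468) (nat_lit 684) (nat_lit 0) (XT.nd (nat_lit 234) (nat_lit 304) (nat_lit 0) (XT.nd (nat_lit 78) (nat_lit 152) (nat_lit 0) (XT.lf (nat_lit 0) (nat_lit 23128053024) (nat_lit 228) (nat_lit 8852550923) (nat_lit 304) (nat_lit 21063743109) (nat_lit 65) (nat_lit 5) (nat_lit 68) (nat_lit 5) (nat_lit 69) (nat_lit 5) (nat_lit 415) (nat_lit 344) (nat_lit 141)) (XT.nd (nat_lit 78) (nat_lit 152) (nat_lit 0) (XT.lf (nat_lit 0) (nat_lit 43152668626) (nat_lit 304) (nat_lit 3976734068) (nat_lit 76) (nat_lit 7022911464) (nat_lit 65) (nat_lit 5) (nat_lit 69) (nat_lit 5) (nat_lit 66) (nat_lit 5) (nat_lit 416) (nat_lit 344) (nat_lit 140)) (XT.lf (nat_lit 0) (nat_lit 23100373874) (nat_lit 152) (nat_lit 31866934415) (nat_lit 228) (nat_lit 316990394) (nat_lit 63) (nat_lit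 5) (nat_lit 65) (nat_lit 5) (nat_lit 66) (nat_lit 5) (nat_lit 417) (nat_lit 344) (nat_lit 139)))) (XT.nd (nat_lit 78) (nat_lit 228) (nat_lit 0) (XT.lf (nat_lit 0) (nat_lit 10515890929) (nat_lit 228) (nat_lit 5484613795) (nat_lit 76) (nat_lit 40445508972) (nat_lit 62) (nat_lit 5) (nat_lit 65) (nat_lit 5) (nat_lit 63) (nat_lit 5) (nat_lit 418) (nat_lit 344) (nat_lit 138)) (XT.nd (nat_lit 78) (nat_lit 0) (nat_lit 0) (XT.lf (nat_lit 0) (nat_lit 21886384474) (nat_lit 304) (nat_lit 35194623271) (nat_lit 76) (nat_lit 554909081) (nat_lit 59) (nat_lit 5) (nat_lit 63) (nat_lit 5) (nat_lit 60) (nat_lit 5) (nat_lit 419) (nat_lit 344) (nat_lit 137)) (XT.lf (nat_lit 0) (nat_lit 33810145143) (nat_lit 304) (nat_lit 7705094796) (nat_lit 76) (nat_lit 17339913254) (nat_lit 59) (nat_lit 5) (nat_lit 63) (nat_lit 5) (nat_lit 60) (nat_lit 5) (nat_lit 420) (nat_lit 344) (nat_lit 136))))) (XT.nd (nat_lit 234) (nat_lit 304) (nat_lit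 0) (XT.nd (nat_lit 78) (nat_lit 228) (nat_lit 0) (XT.lf (nat_lit 0) (nat_lit 21015640074) (nat_lit 152) (nat_lit 25275857123) (nat_lit 228) (nat_lit 13813473790) (nat_lit 57) (nat_lit 5) (nat_lit 59) (nat_lit 5) (nat_lit 60) (nat_lit 5) (nat_lit 421) (nat_lit 344) (nat_lit 135)) (XT.nd (nat_lit 78) (nat_lit 228) (nat_lit 0) (XT.lf (nat_lit 0) (nat_lit 50752408592) (nat_lit 152) (nat_lit 8470579194) (nat_lit 228) (nat_lit 2167025258) (nat_lit 57) (nat_lit 5) (nat_lit 59) (nat_lit 5) (nat_lit 60) (nat_lit 5) (nat_lit 422) (nat_lit 344) (nat_lit 134)) (XT.lf (nat_lit 0) (nat_lit 9904698281) (nat_lit 228) (nat_lit 43853768985) (nat_lit 76) (nat_lit 8944274996) (nat_lit 54) (nat_lit 5) (nat_lit 57) (nat_lit 5) (nat_lit 55) (nat_lit 5) (nat_lit 423) (nat_lit 344) (nat_lit 133)))) (XT.nd (nat_lit 156) (nat_lit 152) (nat_lit 0) (XT.nd (nat_lit 78) (nat_lit 152) (nat_lit 0) (XT.lf (nat_lit 0) (nat_lit 22485313926)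 (nat_lit 228) (nat_lit 14723296787) (nat_lit 76) (nat_lit 26839890725) (nat_lit 54) (nat_lit 5) (nat_lit 57) (nat_lit 5) (nat_lit 55) (nat_lit 5) (nat_lit 424) (nat_lit 344) (nat_lit 132)) (XT.lf (nat_lit 0) (nat_lit 15581758993) (nat_lit 152) (nat_lit 20009376114) (nat_lit 228) (nat_lit 29839065265) (nat_lit 52) (nat_lit 5) (nat_lit 54) (nat_lit 5) (nat_lit 55) (nat_lit 5) (nat_lit 425) (nat_lit 344) (nat_lit 131))) (XT.nd (nat_lit 78) (nat_lit 152) (nat_lit 0) (XT.lf (nat_lit 0) (nat_lit 47094425975) (nat_lit 152) (nat_lit 2142412895) (nat_lit 228) (nat_lit 17612110744) (nat_lit 52) (nat_lit 5) (nat_lit 54) (nat_lit 5) (nat_lit 55) (nat_lit 5) (nat_lit 426) (nat_lit 344) (nat_lit 130)) (XT.lf (nat_lit 0) (nat_lit 11303169832) (nat_lit 152) (nat_lit 52251779266) (nat_lit 228) (nat_lit 4747421737) (nat_lit 50) (nat_lit 5) (nat_lit 52) (nat_lit 5) (nat_lit 53) (nat_lit 5) (nat_lit 427) (nat_lit 344) (nat_lit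 129)))))) (XT.nd (nat_lit 40482) (nat_lit 0) (nat_lit 13756) (XT.nd (nat_lit 234) (nat_lit 152) (nat_lit 0) (XT.nd (nat_lit 78) (nat_lit 152) (nat_lit 0) (XT.lf (nat_lit 0) (nat_lit 8558029963) (nat_lit 228) (nat_lit 26204100140) (nat_lit 76) (nat_lit 35028190472) (nat_lit 49) (nat_lit 5) (nat_lit 52) (nat_lit 5) (nat_lit 50) (nat_lit 5) (nat_lit 428) (nat_lit 344) (nat_lit 128)) (XT.nd (nat_lit 78) (nat_lit 0) (nat_lit 0) (XT.lf (nat_lit 0) (nat_lit 5573395658) (nat_lit 152) (nat_lit 16645543063) (nat_lit 228) (nat_lit 49101009115) (nat_lit 47) (nat_lit 5) (nat_lit 49) (nat_lit 5) (nat_lit 50) (nat_lit 5) (nat_lit 429) (nat_lit 344) (nat_lit 127)) (XT.lf (nat_lit 0) (nat_lit 36574417587) (nat_lit 228) (nat_lit 34071358080) (nat_lit 76) (nat_lit 2241146461) (nat_lit 47) (nat_lit 5) (nat_lit 50) (nat_lit 5) (nat_lit 48) (nat_lit 5) (nat_lit 430) (nat_lit 344) (nat_lit 126)))) (XT.nd (nat_lit 78) (nat_lit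 152) (nat_lit 0) (XT.lf (nat_lit 0) (nat_lit 51523570027) (nat_lit 228) (nat_lit 1613843916) (nat_lit 76) (nat_lit 21358601915) (nat_lit 47) (nat_lit 5) (nat_lit 50) (nat_lit 5) (nat_lit 48) (nat_lit 5) (nat_lit 431) (nat_lit 344) (nat_lit 125)) (XT.nd (nat_lit 40092) (nat_lit 0) (nat_lit 13756) (XT.lf (nat_lit 0) (nat_lit 32447526504) (nat_lit 152) (nat_lit 34783830235) (nat_lit 228) (nat_lit 8912721341) (nat_lit 45) (nat_lit 5) (nat_lit 47) (nat_lit 5) (nat_lit 48) (nat_lit 5) (nat_lit 432) (nat_lit 344) (nat_lit 124)) (XT.lf (nat_lit 0) (nat_lit 2075807776) (nat_lit 0) (nat_lit 2075807776) (nat_lit 1140) (nat_lit 3653322814) (nat_lit 226) (nat_lit 5) (nat_lit 226) (nat_lit 3) (nat_lit 241) (nat_lit 3) (nat_lit 345) (nat_lit 345) (nat_lit 210))))) (XT.nd (nat_lit 234) (nat_lit 0) (nat_lit 76) (XT.nd (nat_lit 78) (nat_lit 0) (nat_lit 0) (XT.lf (nat_lit 0) (nat_lit 8722076748) (nat_lit 1140) (nat_lit 4165295101)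 (nat_lit 1216) (nat_lit 2947618221) (nat_lit 226) (nat_lit 5) (nat_lit 241) (nat_lit 3) (nat_lit 242) (nat_lit 5) (nat_lit 346) (nat_lit 345) (nat_lit 209)) (XT.nd (nat_lit 78) (nat_lit 0) (nat_lit 76) (XT.lf (nat_lit 76) (nat_lit 3365480053) (nat_lit 0) (nat_lit 5851155869) (nat_lit 1216) (nat_lit 6848334476) (nat_lit 227) (nat_lit 5) (nat_lit 226) (nat_lit 5) (nat_lit 242) (nat_lit 5) (nat_lit 347) (nat_lit 345) (nat_lit 208)) (XT.lf (nat_lit 0) (nat_lit 9771913589) (nat_lit 1140) (nat_lit 5112709011) (nat_lit 1216) (nat_lit 1415858887) (nat_lit 227) (nat_lit 5) (nat_lit 242) (nat_lit 5) (nat_lit 243) (nat_lit 5) (nat_lit 348) (nat_lit 345) (nat_lit 207)))) (XT.nd (nat_lit 156) (nat_lit 0) (nat_lit 76) (XT.nd (nat_lit 78) (nat_lit 0) (nat_lit 0) (XT.lf (nat_lit 76) (nat_lit 2690569947) (nat_lit 0) (nat_lit 7727350365) (nat_lit 1216) (nat_lit 6122923048) (nat_lit 228) (nat_lit 5) (nat_lit 227) (nat_lit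 5) (nat_lit 243) (nat_lit 5) (nat_lit 349) (nat_lit 345) (nat_lit 206)) (XT.lf (nat_lit 76) (nat_lit 10827132156) (nat_lit 0) (nat_lit 298307724) (nat_lit 1216) (nat_lit 5661719583) (nat_lit 228) (nat_lit 5) (nat_lit 227) (nat_lit 5) (nat_lit 243) (nat_lit 5) (nat_lit 350) (nat_lit 345) (nat_lit 205))) (XT.nd (nat_lit 78) (nat_lit 0) (nat_lit 0) (XT.lf (nat_lit 76) (nat_lit 2132066301) (nat_lit 0) (nat_lit 9804117868) (nat_lit 1216) (nat_lit 5102228047) (nat_lit 229) (nat_lit 5) (nat_lit 228) (nat_lit 5) (nat_lit 244) (nat_lit 5) (nat_lit 351) (nat_lit 345) (nat_lit 204)) (XT.lf (nat_lit 76) (nat_lit 10580364939) (nat_lit 0) (nat_lit 2245024547) (nat_lit 1216) (nat_lit 4470195837) (nat_lit 229) (nat_lit 5) (nat_lit 228) (nat_lit 5) (nat_lit 244) (nat_lit 5) (nat_lit 352) (nat_lit 345) (nat_lit 203))))))) (XT.nd (nat_lit 1014) (nat_lit 3724) (nat_lit 0) (XT.nd (nat_lit 468) (nat_lit 1444) (nat_lit 0) (XT.nd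 (nat_lit 234) (nat_lit 1064) (nat_lit 0) (XT.nd (nat_lit 78) (nat_lit 0) (nat_lit 0) (XT.lf (nat_lit 76) (nat_lit 1695612555) (nat_lit 0) (nat_lit 12106540765) (nat_lit 1216) (nat_lit 3756500560) (nat_lit 230) (nat_lit 5) (nat_lit 229) (nat_lit 5) (nat_lit 245) (nat_lit 5) (nat_lit 353) (nat_lit 345) (nat_lit 202)) (XT.nd (nat_lit 78) (nat_lit 0) (nat_lit 76) (XT.lf (nat_lit 76) (nat_lit 10467961036) (nat_lit 0) (nat_lit 4421597853) (nat_lit 1216) (nat_lit 2937621974) (nat_lit 230) (nat_lit 5) (nat_lit 229) (nat_lit 5) (nat_lit 245) (nat_lit 5) (nat_lit 354) (nat_lit 345) (nat_lit 201)) (XT.lf (nat_lit 76) (nat_lit 1387297823) (nat_lit 0) (nat_lit 14661000136) (nat_lit 1216) (nat_lit 2054310702) (nat_lit 231) (nat_lit 5) (nat_lit 230) (nat_lit 5) (nat_lit 246) (nat_lit 5) (nat_lit 355) (nat_lit 345) (nat_lit 200)))) (XT.nd (nat_lit 78) (nat_lit 1140) (nat_lit 0) (XT.lf (nat_lit 76) (nat_lit 10496571985)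 (nat_lit 0) (nat_lit 6854863160) (nat_lit 1216) (nat_lit 1031581227) (nat_lit 231) (nat_lit 5) (nat_lit 230) (nat_lit 5) (nat_lit 246) (nat_lit 5) (nat_lit 356) (nat_lit 345) (nat_lit 199)) (XT.nd (nat_lit 78) (nat_lit 0) (nat_lit 0) (XT.lf (nat_lit 0) (nat_lit 36838641) (nat_lit 1216) (nat_lit 17458105788) (nat_lit 1292) (nat_lit 1176428361) (nat_lit 215) (nat_lit 5) (nat_lit 231) (nat_lit 5) (nat_lit 232) (nat_lit 5) (nat_lit 357) (nat_lit 345) (nat_lit 198)) (XT.lf (nat_lit 0) (nat_lit 1257189703) (nat_lit 1216) (nat_lit 8303265294) (nat_lit 1292) (nat_lit 9403405757) (nat_lit 215) (nat_lit 5) (nat_lit 231) (nat_lit 5) (nat_lit 232) (nat_lit 5) (nat_lit 358) (nat_lit 345) (nat_lit 197))))) (XT.nd (nat_lit 234) (nat_lit 1444) (nat_lit 0) (XT.nd (nat_lit 78) (nat_lit 0) (nat_lit 76) (XT.lf (nat_lit 76) (nat_lit 1142657053) (nat_lit 0) (nat_lit 1375018269) (nat_lit 1292) (nat_lit 16747347787) (nat_lit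 216) (nat_lit 5) (nat_lit 215) (nat_lit 5) (nat_lit 232) (nat_lit 5) (nat_lit 359) (nat_lit 345) (nat_lit 196)) (XT.nd (nat_lit 78) (nat_lit 0) (nat_lit 0) (XT.lf (nat_lit 0) (nat_lit 3961194760) (nat_lit 1216) (nat_lit 8605237535) (nat_lit 1292) (nat_lit 7004436775) (nat_lit 216) (nat_lit 5) (nat_lit 232) (nat_lit 5) (nat_lit 233) (nat_lit 5) (nat_lit 360) (nat_lit 345) (nat_lit 195)) (XT.lf (nat_lit 76) (nat_lit 1201367898) (nat_lit 0) (nat_lit 4264742336) (nat_lit 1292) (nat_lit 14419242619) (nat_lit 217) (nat_lit 5) (nat_lit 216) (nat_lit 5) (nat_lit 233) (nat_lit 5) (nat_lit 361) (nat_lit 345) (nat_lit 194)))) (XT.nd (nat_lit 156) (nat_lit 608) (nat_lit 0) (XT.nd (nat_lit 78) (nat_lit 988) (nat_lit 0) (XT.lf (nat_lit 0) (nat_lit 7138218169) (nat_lit 1216) (nat_lit 8776185605) (nat_lit 76) (nat_lit 4291211034) (nat_lit 217) (nat_lit 5) (nat_lit 233) (nat_lit 5) (nat_lit 218) (nat_lit 5) (nat_lit 362)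 (nat_lit 345) (nat_lit 193)) (XT.lf (nat_lit 0) (nat_lit 1408246428) (nat_lit 988) (nat_lit 7501295278) (nat_lit 1064) (nat_lit 11624476207) (nat_lit 204) (nat_lit 5) (nat_lit 217) (nat_lit 5) (nat_lit 218) (nat_lit 5) (nat_lit 363) (nat_lit 345) (nat_lit 192))) (XT.nd (nat_lit 78) (nat_lit 608) (nat_lit 0) (XT.lf (nat_lit 0) (nat_lit 10828133098) (nat_lit 1064) (nat_lit 8809576241) (nat_lit 76) (nat_lit 1231744646) (nat_lit 204) (nat_lit 5) (nat_lit 218) (nat_lit 5) (nat_lit 205) (nat_lit 5) (nat_lit 364) (nat_lit 345) (nat_lit 191)) (XT.lf (nat_lit 0) (nat_lit 1770551524) (nat_lit 608) (nat_lit 11118649096) (nat_lit 684) (nat_lit 8323209551) (nat_lit 196) (nat_lit 5) (nat_lit 204) (nat_lit 5) (nat_lit 205) (nat_lit 5) (nat_lit 365) (nat_lit 345) (nat_lit 190)))))) (XT.nd (nat_lit 546) (nat_lit 1976) (nat_lit 0) (XT.nd (nat_lit 234) (nat_lit 1216) (nat_lit 0) (XT.nd (nat_lit 78) (nat_lit 532) (nat_lit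 0) (XT.lf (nat_lit 0) (nat_lit 12842895063) (nat_lit 608) (nat_lit 2251923125) (nat_lit 684) (nat_lit 6468359764) (nat_lit 196) (nat_lit 5) (nat_lit 204) (nat_lit 5) (nat_lit 205) (nat_lit 5) (nat_lit 366) (nat_lit 345) (nat_lit 189)) (XT.nd (nat_lit 78) (nat_lit 0) (nat_lit 0) (XT.lf (nat_lit 0) (nat_lit 2295798979) (nat_lit 532) (nat_lit 15152961137) (nat_lit 608) (nat_lit 4473248293) (nat_lit 189) (nat_lit 5) (nat_lit 196) (nat_lit 5) (nat_lit 197) (nat_lit 5) (nat_lit 367) (nat_lit 345) (nat_lit 188)) (XT.lf (nat_lit 0) (nat_lit 13792639423) (nat_lit 532) (nat_lit 6184882203) (nat_lit 608) (nat_lit 2310960308) (nat_lit 189) (nat_lit 5) (nat_lit 196) (nat_lit 5) (nat_lit 197) (nat_lit 5) (nat_lit 368) (nat_lit 345) (nat_lit 187)))) (XT.nd (nat_lit 156) (nat_lit 532) (nat_lit 0) (XT.nd (nat_lit 78) (nat_lit 76) (nat_lit 0) (XT.lf (nat_lit 0) (nat_lit 2991722080) (nat_lit 608) (nat_lit 19642762682) (nat_lit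 684) (nat_lit 29898813) (nat_lit 181) (nat_lit 5) (nat_lit 189) (nat_lit 5) (nat_lit 190) (nat_lit 5) (nat_lit 369) (nat_lit 345) (nat_lit 186)) (XT.lf (nat_lit 0) (nat_lit 2416501852) (nat_lit 684) (nat_lit 8141115332) (nat_lit 76) (nat_lit 12489014868) (nat_lit 180) (nat_lit 5) (nat_lit 189) (nat_lit 5) (nat_lit 181) (nat_lit 5) (nat_lit 370) (nat_lit 345) (nat_lit 185))) (XT.nd (nat_lit 78) (nat_lit 0) (nat_lit 0) (XT.lf (nat_lit 0) (nat_lit 3804679903) (nat_lit 532) (nat_lit 1162046551) (nat_lit 608) (nat_lit 18472685389) (nat_lit 173) (nat_lit 5) (nat_lit 180) (nat_lit 5) (nat_lit 181) (nat_lit 5) (nat_lit 371) (nat_lit 345) (nat_lit 184)) (XT.lf (nat_lit 0) (nat_lit 7752902275) (nat_lit 608) (nat_lit 7654198016) (nat_lit 76) (nat_lit 8432095020) (nat_lit 173) (nat_lit 5) (nat_lit 181) (nat_lit 5) (nat_lit 174) (nat_lit 5) (nat_lit 372) (nat_lit 345) (nat_lit 183))))) (XT.nd (nat_lit 234) (nat_lit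 988) (nat_lit 0) (XT.nd (nat_lit 78) (nat_lit 456) (nat_lit 0) (XT.lf (nat_lit 0) (nat_lit 4761575555) (nat_lit 532) (nat_lit 5913088749) (nat_lit 608) (nat_lit 13574751463) (nat_lit 166) (nat_lit 5) (nat_lit 173) (nat_lit 5) (nat_lit 174) (nat_lit 5) (nat_lit 373) (nat_lit 345) (nat_lit 182)) (XT.nd (nat_lit 78) (nat_lit 456) (nat_lit 0) (XT.lf (nat_lit 0) (nat_lit 13794118148) (nat_lit 608) (nat_lit 7006510254) (nat_lit 76) (nat_lit 3868016676) (nat_lit 166) (nat_lit 5) (nat_lit 174) (nat_lit 5) (nat_lit 167) (nat_lit 5) (nat_lit 374) (nat_lit 345) (nat_lit 181)) (XT.lf (nat_lit 0) (nat_lit 5900329571) (nat_lit 456) (nat_lit 11217061282) (nat_lit 532) (nat_lit 7979756668) (nat_lit 160) (nat_lit 5) (nat_lit 166) (nat_lit 5) (nat_lit 167) (nat_lit 5) (nat_lit 375) (nat_lit 345) (nat_lit 180)))) (XT.nd (nat_lit 156) (nat_lit 532) (nat_lit 0) (XT.nd (nat_lit 78) (nat_lit 456) (nat_lit 0) (XT.lf (nat_lit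 0) (nat_lit 19332534034) (nat_lit 456) (nat_lit 1273645845) (nat_lit 532) (nat_lit 4930353829) (nat_lit 160) (nat_lit 5) (nat_lit 166) (nat_lit 5) (nat_lit 167) (nat_lit 5) (nat_lit 376) (nat_lit 345) (nat_lit 179)) (XT.lf (nat_lit 0) (nat_lit 7227990930) (nat_lit 456) (nat_lit 17122532961) (nat_lit 532) (nat_lit 1634053970) (nat_lit 154) (nat_lit 5) (nat_lit 160) (nat_lit 5) (nat_lit 161) (nat_lit 5) (nat_lit 377) (nat_lit 345) (nat_lit 178))) (XT.nd (nat_lit 78) (nat_lit 456) (nat_lit 0) (XT.lf (nat_lit 0) (nat_lit 1797890730) (nat_lit 532) (nat_lit 5289720414) (nat_lit 76) (nat_lit 19355813606) (nat_lit 153) (nat_lit 5) (nat_lit 160) (nat_lit 5) (nat_lit 154) (nat_lit 5) (nat_lit 378) (nat_lit 345) (nat_lit 177)) (XT.lf (nat_lit 0) (nat_lit 5411459941) (nat_lit 532) (nat_lit 18215391909) (nat_lit 76) (nat_lit 3285357417) (nat_lit 147) (nat_lit 5) (nat_lit 154) (nat_lit 5) (nat_lit 148) (nat_lit 5) (nat_lit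 379) (nat_lit 345) (nat_lit 176))))))))
noncomputable def xc206 : XT := (XT.nd (nat_lit 2028) (nat_lit 2888) (nat_lit 0) (XT.nd (nat_lit 1014) (nat_lit 1900) (nat_lit 0) (XT.nd (nat_lit 468) (nat_lit 1520) (nat_lit 0) (XT.nd (nat_lit 234) (nat_lit 836) (nat_lit 0) (XT.nd (nat_lit 78) (nat_lit 456) (nat_lit 0) (XT.lf (nat_lit 0) (nat_lit 9253013451) (nat_lit 532) (nat_lit 4258186002) (nat_lit 76) (nat_lit 13880273323) (nat_lit 147) (nat_lit 5) (nat_lit 154) (nat_lit 5) (nat_lit 148) (nat_lit 5) (nat_lit 380) (nat_lit 345) (nat_lit 175)) (XT.nd (nat_lit 78) (nat_lit 0) (nat_lit 0) (XT.lf (nat_lit 0) (nat_lit 10313738675) (nat_lit 456) (nat_lit 2990807324) (nat_lit 532) (nat_lit 14577728909) (nat_lit 141) (nat_lit 5) (nat_lit 147) (nat_lit 5) (nat_lit 148) (nat_lit 5) (nat_lit 381) (nat_lit 345) (nat_lit 174)) (XT.lf (nat_lit 0) (nat_lit 17592122901) (nat_lit 532) (nat_lit 3057568187) (nat_lit 76) (nat_lit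 7734677678) (nat_lit 141) (nat_lit 5) (nat_lit 148) (nat_lit 5) (nat_lit 142) (nat_lit 5) (nat_lit 382) (nat_lit 345) (nat_lit 173)))) (XT.nd (nat_lit 78) (nat_lit 456) (nat_lit 0) (XT.lf (nat_lit 0) (nat_lit 12089860636) (nat_lit 380) (nat_lit 10060080443) (nat_lit 456) (nat_lit 6747338480) (nat_lit 136) (nat_lit 5) (nat_lit 141) (nat_lit 5) (nat_lit 142) (nat_lit 5) (nat_lit 383) (nat_lit 345) (nat_lit 172)) (XT.nd (nat_lit 78) (nat_lit 456) (nat_lit 0) (XT.lf (nat_lit 0) (nat_lit 26879669831) (nat_lit 456) (nat_lit 1683951146) (nat_lit 76) (nat_lit 860903881) (nat_lit 136) (nat_lit 5) (nat_lit 142) (nat_lit 5) (nat_lit 137) (nat_lit 5) (nat_lit 384) (nat_lit 345) (nat_lit 171)) (XT.lf (nat_lit 0) (nat_lit 1981937015) (nat_lit 456) (nat_lit 15917150167) (nat_lit 76) (nat_lit 12060997058) (nat_lit 130) (nat_lit 5) (nat_lit 136) (nat_lit 5) (nat_lit 131) (nat_lit 5) (nat_lit 385) (nat_lit 345) (nat_lit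 170))))) (XT.nd (nat_lit 234) (nat_lit 760) (nat_lit 0) (XT.nd (nat_lit 78) (nat_lit 760) (nat_lit 0) (XT.lf (nat_lit 0) (nat_lit 6606555904) (nat_lit 456) (nat_lit 265538941) (nat_lit 76) (nat_lit 23638466750) (nat_lit 130) (nat_lit 5) (nat_lit 136) (nat_lit 5) (nat_lit 131) (nat_lit 5) (nat_lit 386) (nat_lit 345) (nat_lit 169)) (XT.nd (nat_lit 78) (nat_lit 380) (nat_lit 0) (XT.lf (nat_lit 0) (nat_lit 11566075135) (nat_lit 456) (nat_lit 14951547742) (nat_lit 76) (nat_lit 4554047731) (nat_lit 125) (nat_lit 5) (nat_lit 131) (nat_lit 5) (nat_lit 126) (nat_lit 5) (nat_lit 387) (nat_lit 345) (nat_lit 168)) (XT.lf (nat_lit 0) (nat_lit 1305649004) (nat_lit 380) (nat_lit 15448201091) (nat_lit 456) (nat_lit 14893380814) (nat_lit 120) (nat_lit 5) (nat_lit 125) (nat_lit 5) (nat_lit 126) (nat_lit 5) (nat_lit 388) (nat_lit 345) (nat_lit 167)))) (XT.nd (nat_lit 156) (nat_lit 456) (nat_lit 0) (XT.nd (nat_lit 78) (nat_lit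 304) (nat_lit 0) (XT.lf (nat_lit 0) (nat_lit 18352075822) (nat_lit 380) (nat_lit 3892398416) (nat_lit 456) (nat_lit 9991169367) (nat_lit 120) (nat_lit 5) (nat_lit 125) (nat_lit 5) (nat_lit 126) (nat_lit 5) (nat_lit 389) (nat_lit 345) (nat_lit 166)) (XT.lf (nat_lit 0) (nat_lit 3045688060) (nat_lit 304) (nat_lit 24956736809) (nat_lit 380) (nat_lit 4836207584) (nat_lit 116) (nat_lit 5) (nat_lit 120) (nat_lit 5) (nat_lit 121) (nat_lit 5) (nat_lit 390) (nat_lit 345) (nat_lit 165))) (XT.nd (nat_lit 78) (nat_lit 380) (nat_lit 0) (XT.lf (nat_lit 0) (nat_lit 640643952) (nat_lit 380) (nat_lit 12737520612) (nat_lit 76) (nat_lit 20076117409) (nat_lit 115) (nat_lit 5) (nat_lit 120) (nat_lit 5) (nat_lit 116) (nat_lit 5) (nat_lit 391) (nat_lit 345) (nat_lit 164)) (XT.lf (nat_lit 0) (nat_lit 4871936786) (nat_lit 380) (nat_lit 1355954662) (nat_lit 456) (nat_lit 27857776066) (nat_lit 110) (nat_lit 5) (nat_lit 115) (nat_lit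 5) (nat_lit 116) (nat_lit 5) (nat_lit 392) (nat_lit 345) (nat_lit 163)))))) (XT.nd (nat_lit 468) (nat_lit 912) (nat_lit 0) (XT.nd (nat_lit 234) (nat_lit 684) (nat_lit 0) (XT.nd (nat_lit 78) (nat_lit 304) (nat_lit 0) (XT.lf (nat_lit 0) (nat_lit 12215157605) (nat_lit 456) (nat_lit 11573483868) (nat_lit 76) (nat_lit 10940382889) (nat_lit 110) (nat_lit 5) (nat_lit 116) (nat_lit 5) (nat_lit 111) (nat_lit 5) (nat_lit 393) (nat_lit 345) (nat_lit 162)) (XT.nd (nat_lit 78) (nat_lit 0) (nat_lit 0) (XT.lf (nat_lit 0) (nat_lit 6708736780) (nat_lit 304) (nat_lit 11747826736) (nat_lit 380) (nat_lit 16932884475) (nat_lit 106) (nat_lit 5) (nat_lit 110) (nat_lit 5) (nat_lit 111) (nat_lit 5) (nat_lit 394) (nat_lit 345) (nat_lit 161)) (XT.lf (nat_lit 0) (nat_lit 25006175940) (nat_lit 380) (nat_lit 10301717587) (nat_lit 76) (nat_lit 758163550) (nat_lit 106) (nat_lit 5) (nat_lit 111) (nat_lit 5) (nat_lit 107) (nat_lit 5) (nat_lit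 395) (nat_lit 345) (nat_lit 160)))) (XT.nd (nat_lit 78) (nat_lit 380) (nat_lit 0) (XT.lf (nat_lit 0) (nat_lit 8677026844) (nat_lit 304) (nat_lit 23271720524) (nat_lit 380) (nat_lit 4808324576) (nat_lit 102) (nat_lit 5) (nat_lit 106) (nat_lit 5) (nat_lit 107) (nat_lit 5) (nat_lit 396) (nat_lit 345) (nat_lit 159)) (XT.nd (nat_lit 78) (nat_lit 304) (nat_lit 0) (XT.lf (nat_lit 0) (nat_lit 1700777549) (nat_lit 380) (nat_lit 9050738273) (nat_lit 76) (nat_lit 26713778051) (nat_lit 101) (nat_lit 5) (nat_lit 106) (nat_lit 5) (nat_lit 102) (nat_lit 5) (nat_lit 397) (nat_lit 345) (nat_lit 158)) (XT.lf (nat_lit 0) (nat_lit 8430373000) (nat_lit 380) (nat_lit 27506183182) (nat_lit 76) (nat_lit 2253123671) (nat_lit 97) (nat_lit 5) (nat_lit 102) (nat_lit 5) (nat_lit 98) (nat_lit 5) (nat_lit 398) (nat_lit 345) (nat_lit 157))))) (XT.nd (nat_lit 234) (nat_lit 608) (nat_lit 0) (XT.nd (nat_lit 78) (nat_lit 304) (nat_lit 0)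 (XT.lf (nat_lit 0) (nat_lit 15557500331) (nat_lit 380) (nat_lit 7849667292) (nat_lit 76) (nat_lit 15522761913) (nat_lit 97) (nat_lit 5) (nat_lit 102) (nat_lit 5) (nat_lit 98) (nat_lit 5) (nat_lit 399) (nat_lit 345) (nat_lit 156)) (XT.nd (nat_lit 78) (nat_lit 0) (nat_lit 0) (XT.lf (nat_lit 0) (nat_lit 12638758077) (nat_lit 304) (nat_lit 10378159110) (nat_lit 380) (nat_lit 16671916658) (nat_lit 93) (nat_lit 5) (nat_lit 97) (nat_lit 5) (nat_lit 98) (nat_lit 5) (nat_lit 400) (nat_lit 345) (nat_lit 155)) (XT.lf (nat_lit 0) (nat_lit 30806423077) (nat_lit 380) (nat_lit 6599851706) (nat_lit 76) (nat_lit 3061042668) (nat_lit 93) (nat_lit 5) (nat_lit 98) (nat_lit 5) (nat_lit 94) (nat_lit 5) (nat_lit 401) (nat_lit 345) (nat_lit 154)))) (XT.nd (nat_lit 156) (nat_lit 304) (nat_lit 0) (XT.nd (nat_lit 78) (nat_lit 76) (nat_lit 0) (XT.lf (nat_lit 0) (nat_lit 14642535760) (nat_lit 228) (nat_lit 24427688936) (nat_lit 304)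 (nat_lit 2191713877) (nat_lit 90) (nat_lit 5) (nat_lit 93) (nat_lit 5) (nat_lit 94) (nat_lit 5) (nat_lit 402) (nat_lit 345) (nat_lit 153)) (XT.lf (nat_lit 0) (nat_lit 5458609797) (nat_lit 304) (nat_lit 5478791836) (nat_lit 76) (nat_lit 31139478738) (nat_lit 89) (nat_lit 5) (nat_lit 93) (nat_lit 5) (nat_lit 90) (nat_lit 5) (nat_lit 403) (nat_lit 345) (nat_lit 152))) (XT.nd (nat_lit 78) (nat_lit 0) (nat_lit 0) (XT.lf (nat_lit 0) (nat_lit 13481315015) (nat_lit 380) (nat_lit 26347193215) (nat_lit 76) (nat_lit 3081504707) (nat_lit 85) (nat_lit 5) (nat_lit 90) (nat_lit 5) (nat_lit 86) (nat_lit 5) (nat_lit 404) (nat_lit 345) (nat_lit 151)) (XT.lf (nat_lit 0) (nat_lit 21906094450) (nat_lit 380) (nat_lit 4501566142) (nat_lit 76) (nat_lit 17355638273) (nat_lit 85) (nat_lit 5) (nat_lit 90) (nat_lit 5) (nat_lit 86) (nat_lit 5) (nat_lit 405) (nat_lit 345) (nat_lit 150))))))) (XT.nd (nat_lit 1014) (nat_lit 1216) (nat_lit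 0) (XT.nd (nat_lit 468) (nat_lit 912) (nat_lit 0) (XT.nd (nat_lit 234) (nat_lit 228) (nat_lit 0) (XT.nd (nat_lit 78) (nat_lit 304) (nat_lit 0) (XT.lf (nat_lit 0) (nat_lit 18353458200) (nat_lit 228) (nat_lit 12403893567) (nat_lit 304) (nat_lit 13879620710) (nat_lit 82) (nat_lit 5) (nat_lit 85) (nat_lit 5) (nat_lit 86) (nat_lit 5) (nat_lit 406) (nat_lit 345) (nat_lit 149)) (XT.nd (nat_lit 78) (nat_lit 304) (nat_lit 0) (XT.lf (nat_lit 0) (nat_lit 39936806571) (nat_lit 304) (nat_lit 3573089292) (nat_lit 76) (nat_lit 2025081752) (nat_lit 82) (nat_lit 5) (nat_lit 86) (nat_lit 5) (nat_lit 83) (nat_lit 5) (nat_lit 407) (nat_lit 345) (nat_lit 148)) (XT.lf (nat_lit 0) (nat_lit 3190895223) (nat_lit 304) (nat_lit 26398085106) (nat_lit 76) (nat_lit 16860606732) (nat_lit 78) (nat_lit 5) (nat_lit 82) (nat_lit 5) (nat_lit 79) (nat_lit 5) (nat_lit 408) (nat_lit 345) (nat_lit 147)))) (XT.nd (nat_lit 78) (nat_lit 228) (nat_lit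 0) (XT.lf (nat_lit 0) (nat_lit 12164978008) (nat_lit 304) (nat_lit 2992293802) (nat_lit 76) (nat_lit 32231685303) (nat_lit 78) (nat_lit 5) (nat_lit 82) (nat_lit 5) (nat_lit 79) (nat_lit 5) (nat_lit 409) (nat_lit 345) (nat_lit 146)) (XT.nd (nat_lit 78) (nat_lit 0) (nat_lit 0) (XT.lf (nat_lit 0) (nat_lit 21531921494) (nat_lit 228) (nat_lit 80838607) (nat_lit 304) (nat_lit 26737614848) (nat_lit 75) (nat_lit 5) (nat_lit 78) (nat_lit 5) (nat_lit 79) (nat_lit 5) (nat_lit 410) (nat_lit 345) (nat_lit 145)) (XT.lf (nat_lit 0) (nat_lit 31520506517) (nat_lit 304) (nat_lit 2639258274) (nat_lit 76) (nat_lit 15175575558) (nat_lit 75) (nat_lit 5) (nat_lit 79) (nat_lit 5) (nat_lit 76) (nat_lit 5) (nat_lit 411) (nat_lit 345) (nat_lit 144))))) (XT.nd (nat_lit 234) (nat_lit 380) (nat_lit 0) (XT.nd (nat_lit 78) (nat_lit 304) (nat_lit 0) (XT.lf (nat_lit 0) (nat_lit 22703720374) (nat_lit 228) (nat_lit 19238400436) (nat_lit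 304) (nat_lit 8401235767) (nat_lit 72) (nat_lit 5) (nat_lit 75) (nat_lit 5) (nat_lit 76) (nat_lit 5) (nat_lit 412) (nat_lit 345) (nat_lit 143)) (XT.nd (nat_lit 78) (nat_lit 228) (nat_lit 0) (XT.lf (nat_lit 0) (nat_lit 1294022199) (nat_lit 304) (nat_lit 2536267634) (nat_lit 76) (nat_lit 47550215422) (nat_lit 71) (nat_lit 5) (nat_lit 75) (nat_lit 5) (nat_lit 72) (nat_lit 5) (nat_lit 413) (nat_lit 345) (nat_lit 142)) (XT.lf (nat_lit 0) (nat_lit 11455532884) (nat_lit 304) (nat_lit 28862625332) (nat_lit 76) (nat_lit 12117788065) (nat_lit 68) (nat_lit 5) (nat_lit 72) (nat_lit 5) (nat_lit 69) (nat_lit 5) (nat_lit 414) (nat_lit 345) (nat_lit 141)))) (XT.nd (nat_lit 156) (nat_lit 152) (nat_lit 0) (XT.nd (nat_lit 78) (nat_lit 228) (nat_lit 0) (XT.lf (nat_lit 0) (nat_lit 21983368669) (nat_lit 304) (nat_lit 3046013858) (nat_lit 76) (nat_lit 28491824444) (nat_lit 68) (nat_lit 5) (nat_lit 72) (nat_lit 5) (nat_lit 69)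 (nat_lit 5) (nat_lit 415) (nat_lit 345) (nat_lit 140)) (XT.lf (nat_lit 0) (nat_lit 24009983620) (nat_lit 228) (nat_lit 9045613017) (nat_lit 304) (nat_lit 21576572933) (nat_lit 65) (nat_lit 5) (nat_lit 68) (nat_lit 5) (nat_lit 69) (nat_lit 5) (nat_lit 416) (nat_lit 345) (nat_lit 139))) (XT.nd (nat_lit 78) (nat_lit 152) (nat_lit 0) (XT.lf (nat_lit 0) (nat_lit 44560133757) (nat_lit 304) (nat_lit 3910696430) (nat_lit 76) (nat_lit 7302627367) (nat_lit 65) (nat_lit 5) (nat_lit 69) (nat_lit 5) (nat_lit 66) (nat_lit 5) (nat_lit 417) (nat_lit 345) (nat_lit 138)) (XT.lf (nat_lit 0) (nat_lit 23976907695) (nat_lit 152) (nat_lit 32750781131) (nat_lit 228) (nat_lit 211759651) (nat_lit 63) (nat_lit 5) (nat_lit 65) (nat_lit 5) (nat_lit 66) (nat_lit 5) (nat_lit 418) (nat_lit 345) (nat_lit 137)))))) (XT.nd (nat_lit 546) (nat_lit 532) (nat_lit 0) (XT.nd (nat_lit 234) (nat_lit 380) (nat_lit 0) (XT.nd (nat_lit 78) (nat_lit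 228) (nat_lit 0) (XT.lf (nat_lit 0) (nat_lit 10940592370) (nat_lit 228) (nat_lit 5468765009) (nat_lit 76) (nat_lit 41726723859) (nat_lit 62) (nat_lit 5) (nat_lit 65) (nat_lit 5) (nat_lit 63) (nat_lit 5) (nat_lit 419) (nat_lit 345) (nat_lit 136)) (XT.nd (nat_lit 78) (nat_lit 0) (nat_lit 0) (XT.lf (nat_lit 0) (nat_lit 22651417545) (nat_lit 304) (nat_lit 36069256518) (nat_lit 76) (nat_lit 641031947) (nat_lit 59) (nat_lit 5) (nat_lit 63) (nat_lit 5) (nat_lit 60) (nat_lit 5) (nat_lit 420) (nat_lit 345) (nat_lit 135)) (XT.lf (nat_lit 0) (nat_lit 34929732542) (nat_lit 304) (nat_lit 7760320017) (nat_lit 76) (nat_lit 17927562685) (nat_lit 59) (nat_lit 5) (nat_lit 63) (nat_lit 5) (nat_lit 60) (nat_lit 5) (nat_lit 421) (nat_lit 345) (nat_lit 134)))) (XT.nd (nat_lit 156) (nat_lit 228) (nat_lit 0) (XT.nd (nat_lit 78) (nat_lit 0) (nat_lit 0) (XT.lf (nat_lit 0) (nat_lit 21820312118) (nat_lit 152) (nat_lit 25963821087)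 (nat_lit 228) (nat_lit 14120837116) (nat_lit 57) (nat_lit 5) (nat_lit 59) (nat_lit 5) (nat_lit 60) (nat_lit 5) (nat_lit 422) (nat_lit 345) (nat_lit 133)) (XT.lf (nat_lit 0) (nat_lit 52444109823) (nat_lit 152) (nat_lit 8656432736) (nat_lit 228) (nat_lit 2128112823) (nat_lit 57) (nat_lit 5) (nat_lit 59) (nat_lit 5) (nat_lit 60) (nat_lit 5) (nat_lit 423) (nat_lit 345) (nat_lit 132))) (XT.nd (nat_lit 78) (nat_lit 0) (nat_lit 0) (XT.lf (nat_lit 0) (nat_lit 10303058931) (nat_lit 228) (nat_lit 44997488170) (nat_lit 76) (nat_lit 9280210582) (nat_lit 54) (nat_lit 5) (nat_lit 57) (nat_lit 5) (nat_lit 55) (nat_lit 5) (nat_lit 424) (nat_lit 345) (nat_lit 131)) (XT.lf (nat_lit 0) (nat_lit 23258144898) (nat_lit 228) (nat_lit 14998108424) (nat_lit 76) (nat_lit 27710725638) (nat_lit 54) (nat_lit 5) (nat_lit 57) (nat_lit 5) (nat_lit 55) (nat_lit 5) (nat_lit 425) (nat_lit 345) (nat_lit 130))))) (XT.nd (nat_lit 234) (nat_lit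 228) (nat_lit 0) (XT.nd (nat_lit 78) (nat_lit 152) (nat_lit 0) (XT.lf (nat_lit 0) (nat_lit 16214462879) (nat_lit 152) (nat_lit 20541404051) (nat_lit 228) (nat_lit 30634301000) (nat_lit 52) (nat_lit 5) (nat_lit 54) (nat_lit 5) (nat_lit 55) (nat_lit 5) (nat_lit 426) (nat_lit 345) (nat_lit 129)) (XT.nd (nat_lit 78) (nat_lit 152) (nat_lit 0) (XT.lf (nat_lit 0) (nat_lit 48667696731) (nat_lit 152) (nat_lit 2140419898) (nat_lit 228) (nat_lit 18043448607) (nat_lit 52) (nat_lit 5) (nat_lit 54) (nat_lit 5) (nat_lit 55) (nat_lit 5) (nat_lit 427) (nat_lit 345) (nat_lit 128)) (XT.lf (nat_lit 0) (nat_lit 11803324142) (nat_lit 152) (nat_lit 53751869761) (nat_lit 228) (nat_lit 4793413285) (nat_lit 50) (nat_lit 5) (nat_lit 52) (nat_lit 5) (nat_lit 53) (nat_lit 5) (nat_lit 428) (nat_lit 345) (nat_lit 127)))) (XT.nd (nat_lit 156) (nat_lit 0) (nat_lit 0) (XT.nd (nat_lit 78) (nat_lit 152) (nat_lit 0) (XT.lf (nat_lit 0) (nat_lit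 8906566382) (nat_lit 228) (nat_lit 26832002725) (nat_lit 76) (nat_lit 36142681880) (nat_lit 49) (nat_lit 5) (nat_lit 52) (nat_lit 5) (nat_lit 50) (nat_lit 5) (nat_lit 429) (nat_lit 345) (nat_lit 126)) (XT.lf (nat_lit 0) (nat_lit 5897266766) (nat_lit 152) (nat_lit 17078867981) (nat_lit 228) (nat_lit 50480668087) (nat_lit 47) (nat_lit 5) (nat_lit 49) (nat_lit 5) (nat_lit 50) (nat_lit 5) (nat_lit 430) (nat_lit 345) (nat_lit 125))) (XT.nd (nat_lit 78) (nat_lit 0) (nat_lit 0) (XT.lf (nat_lit 0) (nat_lit 37760254673) (nat_lit 228) (nat_lit 34939345575) (nat_lit 76) (nat_lit 2371247523) (nat_lit 47) (nat_lit 5) (nat_lit 50) (nat_lit 5) (nat_lit 48) (nat_lit 5) (nat_lit 431) (nat_lit 345) (nat_lit 124)) (XT.lf (nat_lit 0) (nat_lit 53155300971) (nat_lit 228) (nat_lit 1512595886) (nat_lit 76) (nat_lit 22060395573) (nat_lit 47) (nat_lit 5) (nat_lit 50) (nat_lit 5) (nat_lit 48) (nat_lit 5) (nat_lit 432) (nat_lit 345)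 (nat_lit 123))))))))
noncomputable def xc207 : XT := (XT.nd (nat_lit 2028) (nat_lit 6004) (nat_lit 0) (XT.nd (nat_lit 1014) (nat_lit 2660) (nat_lit 0) (XT.nd (nat_lit 468) (nat_lit 836) (nat_lit 0) (XT.nd (nat_lit 234) (nat_lit 0) (nat_lit 76) (XT.nd (nat_lit 78) (nat_lit 0) (nat_lit 0) (XT.lf (nat_lit 0) (nat_lit 2269505900) (nat_lit 0) (nat_lit 2269505900) (nat_lit 1140) (nat_lit 3491985364) (nat_lit 226) (nat_lit 5) (nat_lit 226) (nat_lit 3) (nat_lit 241) (nat_lit 3) (nat_lit 346) (nat_lit 346) (nat_lit 208)) (XT.nd (nat_lit 78) (nat_lit 0) (nat_lit 0) (XT.lf (nat_lit 0) (nat_lit 9491670032) (nat_lit 1140) (nat_lit 4016901389) (nat_lit 1216) (nat_lit 2785834461) (nat_lit 226) (nat_lit 5) (nat_lit 241) (nat_lit 3) (nat_lit 242) (nat_lit 5) (nat_lit 347) (nat_lit 346) (nat_lit 207)) (XT.lf (nat_lit 76) (nat_lit 3737117092) (nat_lit 0) (nat_lit 6251756654) (nat_lit 1216) (nat_lit 6542789175) (nat_lit 227)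 (nat_lit 5) (nat_lit 226) (nat_lit 5) (nat_lit 242) (nat_lit 5) (nat_lit 348) (nat_lit 346) (nat_lit 206)))) (XT.nd (nat_lit 78) (nat_lit 0) (nat_lit 0) (XT.lf (nat_lit 0) (nat_lit 10544270291) (nat_lit 1140) (nat_lit 4986388631) (nat_lit 1216) (nat_lit 1244087801) (nat_lit 227) (nat_lit 5) (nat_lit 242) (nat_lit 5) (nat_lit 243) (nat_lit 5) (nat_lit 349) (nat_lit 346) (nat_lit 205)) (XT.nd (nat_lit 78) (nat_lit 0) (nat_lit 0) (XT.lf (nat_lit 76) (nat_lit 3048246522) (nat_lit 0) (nat_lit 8150115736) (nat_lit 1216) (nat_lit 5824306913) (nat_lit 228) (nat_lit 5) (nat_lit 227) (nat_lit 5) (nat_lit 243) (nat_lit 5) (nat_lit 350) (nat_lit 346) (nat_lit 204)) (XT.lf (nat_lit 76) (nat_lit 11420838817) (nat_lit 0) (nat_lit 492640316) (nat_lit 1216) (nat_lit 5363315028) (nat_lit 228) (nat_lit 5) (nat_lit 227) (nat_lit 5) (nat_lit 243) (nat_lit 5) (nat_lit 351) (nat_lit 346) (nat_lit 203))))) (XT.nd (nat_lit 234)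 (nat_lit 988) (nat_lit 0) (XT.nd (nat_lit 78) (nat_lit 0) (nat_lit 0) (XT.lf (nat_lit 76) (nat_lit 2477892358) (nat_lit 0) (nat_lit 10258401386) (nat_lit 1216) (nat_lit 4799668560) (nat_lit 229) (nat_lit 5) (nat_lit 228) (nat_lit 5) (nat_lit 244) (nat_lit 5) (nat_lit 352) (nat_lit 346) (nat_lit 202)) (XT.nd (nat_lit 78) (nat_lit 0) (nat_lit 76) (XT.lf (nat_lit 76) (nat_lit 11171430322) (nat_lit 0) (nat_lit 2467870411) (nat_lit 1216) (nat_lit 4161946052) (nat_lit 229) (nat_lit 5) (nat_lit 228) (nat_lit 5) (nat_lit 244) (nat_lit 5) (nat_lit 353) (nat_lit 346) (nat_lit 201)) (XT.lf (nat_lit 76) (nat_lit 2032009165) (nat_lit 0) (nat_lit 12602152308) (nat_lit 1216) (nat_lit 3438391765) (nat_lit 230) (nat_lit 5) (nat_lit 229) (nat_lit 5) (nat_lit 245) (nat_lit 5) (nat_lit 354) (nat_lit 346) (nat_lit 200)))) (XT.nd (nat_lit 156) (nat_lit 1064) (nat_lit 0) (XT.nd (nat_lit 78) (nat_lit 0) (nat_lit 76) (XT.lf (nat_lit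 76) (nat_lit 11059211745) (nat_lit 0) (nat_lit 4682804352) (nat_lit 1216) (nat_lit 2607494506) (nat_lit 230) (nat_lit 5) (nat_lit 229) (nat_lit 5) (nat_lit 245) (nat_lit 5) (nat_lit 355) (nat_lit 346) (nat_lit 199)) (XT.lf (nat_lit 76) (nat_lit 1716997818) (nat_lit 0) (nat_lit 15208270385) (nat_lit 1216) (nat_lit 1708249608) (nat_lit 231) (nat_lit 5) (nat_lit 230) (nat_lit 5) (nat_lit 246) (nat_lit 5) (nat_lit 356) (nat_lit 346) (nat_lit 198))) (XT.nd (nat_lit 78) (nat_lit 1140) (nat_lit 0) (XT.lf (nat_lit 76) (nat_lit 11091159495) (nat_lit 0) (nat_lit 7164819973) (nat_lit 1216) (nat_lit 666712727) (nat_lit 231) (nat_lit 5) (nat_lit 230) (nat_lit 5) (nat_lit 246) (nat_lit 5) (nat_lit 357) (nat_lit 346) (nat_lit 197)) (XT.lf (nat_lit 0) (nat_lit 416560917) (nat_lit 1216) (nat_lit 17684396023) (nat_lit 1292) (nat_lit 1118920801) (nat_lit 215) (nat_lit 5) (nat_lit 231) (nat_lit 5) (nat_lit 232) (nat_lit 5)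 (nat_lit 358) (nat_lit 346) (nat_lit 196)))))) (XT.nd (nat_lit 468) (nat_lit 1824) (nat_lit 0) (XT.nd (nat_lit 234) (nat_lit 836) (nat_lit 0) (XT.nd (nat_lit 78) (nat_lit 0) (nat_lit 0) (XT.lf (nat_lit 0) (nat_lit 1662494828) (nat_lit 1216) (nat_lit 8263573993) (nat_lit 1292) (nat_lit 9595410444) (nat_lit 215) (nat_lit 5) (nat_lit 231) (nat_lit 5) (nat_lit 232) (nat_lit 5) (nat_lit 359) (nat_lit 346) (nat_lit 195)) (XT.nd (nat_lit 78) (nat_lit 0) (nat_lit 76) (XT.lf (nat_lit 76) (nat_lit 1462894757) (nat_lit 0) (nat_lit 1489942573) (nat_lit 1292) (nat_lit 16879085744) (nat_lit 216) (nat_lit 5) (nat_lit 215) (nat_lit 5) (nat_lit 232) (nat_lit 5) (nat_lit 360) (nat_lit 346) (nat_lit 194)) (XT.lf (nat_lit 0) (nat_lit 4428500070) (nat_lit 1216) (nat_lit 8574349109) (nat_lit 1292) (nat_lit 7144437728) (nat_lit 216) (nat_lit 5) (nat_lit 232) (nat_lit 5) (nat_lit 233) (nat_lit 5) (nat_lit 361) (nat_lit 346) (nat_lit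 193)))) (XT.nd (nat_lit 78) (nat_lit 912) (nat_lit 0) (XT.lf (nat_lit 76) (nat_lit 1523620707) (nat_lit 0) (nat_lit 4447543948) (nat_lit 1292) (nat_lit 14500269901) (nat_lit 217) (nat_lit 5) (nat_lit 216) (nat_lit 5) (nat_lit 233) (nat_lit 5) (nat_lit 362) (nat_lit 346) (nat_lit 192)) (XT.nd (nat_lit 78) (nat_lit 988) (nat_lit 0) (XT.lf (nat_lit 0) (nat_lit 7682989736) (nat_lit 1216) (nat_lit 8750910012) (nat_lit 76) (nat_lit 4367725192) (nat_lit 217) (nat_lit 5) (nat_lit 233) (nat_lit 5) (nat_lit 218) (nat_lit 5) (nat_lit 363) (nat_lit 346) (nat_lit 191)) (XT.lf (nat_lit 0) (nat_lit 1736225951) (nat_lit 988) (nat_lit 7764343804) (nat_lit 1064) (nat_lit 11639523856) (nat_lit 204) (nat_lit 5) (nat_lit 217) (nat_lit 5) (nat_lit 218) (nat_lit 5) (nat_lit 364) (nat_lit 346) (nat_lit 190))))) (XT.nd (nat_lit 234) (nat_lit 1216) (nat_lit 0) (XT.nd (nat_lit 78) (nat_lit 608) (nat_lit 0) (XT.lf (nat_lit 0) (nat_lit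 11466934786) (nat_lit 1064) (nat_lit 8786443780) (nat_lit 76) (nat_lit 1232514497) (nat_lit 204) (nat_lit 5) (nat_lit 218) (nat_lit 5) (nat_lit 205) (nat_lit 5) (nat_lit 365) (nat_lit 346) (nat_lit 189)) (XT.nd (nat_lit 78) (nat_lit 0) (nat_lit 0) (XT.lf (nat_lit 0) (nat_lit 2108269977) (nat_lit 608) (nat_lit 11475155726) (nat_lit 684) (nat_lit 8255911068) (nat_lit 196) (nat_lit 5) (nat_lit 204) (nat_lit 5) (nat_lit 205) (nat_lit 5) (nat_lit 366) (nat_lit 346) (nat_lit 188)) (XT.lf (nat_lit 0) (nat_lit 13504494446) (nat_lit 608) (nat_lit 2341759611) (nat_lit 684) (nat_lit 6354648645) (nat_lit 196) (nat_lit 5) (nat_lit 204) (nat_lit 5) (nat_lit 205) (nat_lit 5) (nat_lit 367) (nat_lit 346) (nat_lit 187)))) (XT.nd (nat_lit 156) (nat_lit 684) (nat_lit 0) (XT.nd (nat_lit 78) (nat_lit 0) (nat_lit 0) (XT.lf (nat_lit 0) (nat_lit 2647569272) (nat_lit 532) (nat_lit 15617059590) (nat_lit 608) (nat_lit 4306060973)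 (nat_lit 189) (nat_lit 5) (nat_lit 196) (nat_lit 5) (nat_lit 197) (nat_lit 5) (nat_lit 368) (nat_lit 346) (nat_lit 186)) (XT.lf (nat_lit 0) (nat_lit 14481075230) (nat_lit 532) (nat_lit 6379661310) (nat_lit 608) (nat_lit 2087682546) (nat_lit 189) (nat_lit 5) (nat_lit 196) (nat_lit 5) (nat_lit 197) (nat_lit 5) (nat_lit 369) (nat_lit 346) (nat_lit 185))) (XT.nd (nat_lit 78) (nat_lit 0) (nat_lit 0) (XT.lf (nat_lit 0) (nat_lit 250983504) (nat_lit 684) (nat_lit 19976076564) (nat_lit 76) (nat_lit 3108639431) (nat_lit 180) (nat_lit 5) (nat_lit 189) (nat_lit 5) (nat_lit 181) (nat_lit 5) (nat_lit 370) (nat_lit 346) (nat_lit 184)) (XT.lf (nat_lit 0) (nat_lit 2761985593) (nat_lit 684) (nat_lit 8107223794) (nat_lit 76) (nat_lit 12860448362) (nat_lit 180) (nat_lit 5) (nat_lit 189) (nat_lit 5) (nat_lit 181) (nat_lit 5) (nat_lit 371) (nat_lit 346) (nat_lit 183))))))) (XT.nd (nat_lit 1014) (nat_lit 2660) (nat_lit 0) (XT.nd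 (nat_lit 468) (nat_lit 1824) (nat_lit 0) (XT.nd (nat_lit 234) (nat_lit 456) (nat_lit 0) (XT.nd (nat_lit 78) (nat_lit 532) (nat_lit 0) (XT.lf (nat_lit 0) (nat_lit 4194218583) (nat_lit 532) (nat_lit 1189194520) (nat_lit 608) (nat_lit 18750972293) (nat_lit 173) (nat_lit 5) (nat_lit 180) (nat_lit 5) (nat_lit 181) (nat_lit 5) (nat_lit 372) (nat_lit 346) (nat_lit 182)) (XT.nd (nat_lit 78) (nat_lit 532) (nat_lit 0) (XT.lf (nat_lit 0) (nat_lit 8245449539) (nat_lit 608) (nat_lit 7608549258) (nat_lit 76) (nat_lit 8692400502) (nat_lit 173) (nat_lit 5) (nat_lit 181) (nat_lit 5) (nat_lit 174) (nat_lit 5) (nat_lit 373) (nat_lit 346) (nat_lit 181)) (XT.lf (nat_lit 0) (nat_lit 5176998748) (nat_lit 532) (nat_lit 6072914191) (nat_lit 608) (nat_lit 13719167016) (nat_lit 166) (nat_lit 5) (nat_lit 173) (nat_lit 5) (nat_lit 174) (nat_lit 5) (nat_lit 374) (nat_lit 346) (nat_lit 180)))) (XT.nd (nat_lit 78) (nat_lit 456) (nat_lit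 0) (XT.lf (nat_lit 0) (nat_lit 14455686909) (nat_lit 608) (nat_lit 6944642120) (nat_lit 76) (nat_lit 4000779915) (nat_lit 166) (nat_lit 5) (nat_lit 174) (nat_lit 5) (nat_lit 167) (nat_lit 5) (nat_lit 375) (nat_lit 346) (nat_lit 179)) (XT.nd (nat_lit 78) (nat_lit 0) (nat_lit 0) (XT.lf (nat_lit 0) (nat_lit 6346735612) (nat_lit 456) (nat_lit 11527295905) (nat_lit 532) (nat_lit 7968578484) (nat_lit 160) (nat_lit 5) (nat_lit 166) (nat_lit 5) (nat_lit 167) (nat_lit 5) (nat_lit 376) (nat_lit 346) (nat_lit 178)) (XT.lf (nat_lit 0) (nat_lit 20174059718) (nat_lit 456) (nat_lit 1286343360) (nat_lit 532) (nat_lit 4834991741) (nat_lit 160) (nat_lit 5) (nat_lit 166) (nat_lit 5) (nat_lit 167) (nat_lit 5) (nat_lit 377) (nat_lit 346) (nat_lit 177))))) (XT.nd (nat_lit 234) (nat_lit 836) (nat_lit 0) (XT.nd (nat_lit 78) (nat_lit 532) (nat_lit 0) (XT.lf (nat_lit 0) (nat_lit 7710737247) (nat_lit 456) (nat_lit 17602259426) (nat_lit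 532) (nat_lit 1444010525) (nat_lit 154) (nat_lit 5) (nat_lit 160) (nat_lit 5) (nat_lit 161) (nat_lit 5) (nat_lit 378) (nat_lit 346) (nat_lit 176)) (XT.nd (nat_lit 78) (nat_lit 456) (nat_lit 0) (XT.lf (nat_lit 0) (nat_lit 2079400310) (nat_lit 532) (nat_lit 5185580426) (nat_lit 76) (nat_lit 19964778853) (nat_lit 153) (nat_lit 5) (nat_lit 160) (nat_lit 5) (nat_lit 154) (nat_lit 5) (nat_lit 379) (nat_lit 346) (nat_lit 175)) (XT.lf (nat_lit 0) (nat_lit 5797603817) (nat_lit 532) (nat_lit 18495112666) (nat_lit 76) (nat_lit 3420008441) (nat_lit 147) (nat_lit 5) (nat_lit 154) (nat_lit 5) (nat_lit 148) (nat_lit 5) (nat_lit 380) (nat_lit 346) (nat_lit 174)))) (XT.nd (nat_lit 156) (nat_lit 380) (nat_lit 0) (XT.nd (nat_lit 78) (nat_lit 456) (nat_lit 0) (XT.lf (nat_lit 0) (nat_lit 9747885483) (nat_lit 532) (nat_lit 4126959737) (nat_lit 76) (nat_lit 14331720650) (nat_lit 147) (nat_lit 5) (nat_lit 154) (nat_lit 5) (nat_lit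 148) (nat_lit 5) (nat_lit 381) (nat_lit 346) (nat_lit 173)) (XT.lf (nat_lit 0) (nat_lit 10879583740) (nat_lit 456) (nat_lit 3037516666) (nat_lit 532) (nat_lit 14795111432) (nat_lit 141) (nat_lit 5) (nat_lit 147) (nat_lit 5) (nat_lit 148) (nat_lit 5) (nat_lit 382) (nat_lit 346) (nat_lit 172))) (XT.nd (nat_lit 78) (nat_lit 380) (nat_lit 0) (XT.lf (nat_lit 0) (nat_lit 18327489999) (nat_lit 532) (nat_lit 2894391605) (nat_lit 76) (nat_lit 8007665098) (nat_lit 141) (nat_lit 5) (nat_lit 148) (nat_lit 5) (nat_lit 142) (nat_lit 5) (nat_lit 383) (nat_lit 346) (nat_lit 171)) (XT.lf (nat_lit 0) (nat_lit 12704961028) (nat_lit 380) (nat_lit 10313461260) (nat_lit 456) (nat_lit 6739534785) (nat_lit 136) (nat_lit 5) (nat_lit 141) (nat_lit 5) (nat_lit 142) (nat_lit 5) (nat_lit 384) (nat_lit 346) (nat_lit 170)))))) (XT.nd (nat_lit 546) (nat_lit 1140) (nat_lit 0) (XT.nd (nat_lit 234) (nat_lit 1064) (nat_lit 0) (XT.nd (nat_lit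 78) (nat_lit 456) (nat_lit 0) (XT.lf (nat_lit 0) (nat_lit 27884553551) (nat_lit 456) (nat_lit 1483809497) (nat_lit 76) (nat_lit 932824897) (nat_lit 136) (nat_lit 5) (nat_lit 142) (nat_lit 5) (nat_lit 137) (nat_lit 5) (nat_lit 385) (nat_lit 346) (nat_lit 169)) (XT.nd (nat_lit 78) (nat_lit 0) (nat_lit 0) (XT.lf (nat_lit 0) (nat_lit 2238537108) (nat_lit 456) (nat_lit 16142427346) (nat_lit 76) (nat_lit 12471896969) (nat_lit 130) (nat_lit 5) (nat_lit 136) (nat_lit 5) (nat_lit 131) (nat_lit 5) (nat_lit 386) (nat_lit 346) (nat_lit 168)) (XT.lf (nat_lit 0) (nat_lit 6996152564) (nat_lit 456) (nat_lit 28614502) (nat_lit 76) (nat_lit 24395261529) (nat_lit 130) (nat_lit 5) (nat_lit 136) (nat_lit 5) (nat_lit 131) (nat_lit 5) (nat_lit 387) (nat_lit 346) (nat_lit 167)))) (XT.nd (nat_lit 156) (nat_lit 304) (nat_lit 0) (XT.nd (nat_lit 78) (nat_lit 380) (nat_lit 0) (XT.lf (nat_lit 0) (nat_lit 12101735862) (nat_lit 456)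 (nat_lit 15152377349) (nat_lit 76) (nat_lit 4743942453) (nat_lit 125) (nat_lit 5) (nat_lit 131) (nat_lit 5) (nat_lit 126) (nat_lit 5) (nat_lit 388) (nat_lit 346) (nat_lit 166)) (XT.lf (nat_lit 0) (nat_lit 1590106702) (nat_lit 380) (nat_lit 15851899740) (nat_lit 456) (nat_lit 15148973512) (nat_lit 120) (nat_lit 5) (nat_lit 125) (nat_lit 5) (nat_lit 126) (nat_lit 5) (nat_lit 389) (nat_lit 346) (nat_lit 165))) (XT.nd (nat_lit 78) (nat_lit 304) (nat_lit 0) (XT.lf (nat_lit 0) (nat_lit 19140782008) (nat_lit 380) (nat_lit 3951163199) (nat_lit 456) (nat_lit 10105264908) (nat_lit 120) (nat_lit 5) (nat_lit 125) (nat_lit 5) (nat_lit 126) (nat_lit 5) (nat_lit 390) (nat_lit 346) (nat_lit 164)) (XT.lf (nat_lit 0) (nat_lit 3377764584) (nat_lit 304) (nat_lit 25642478243) (nat_lit 380) (nat_lit 4798120421) (nat_lit 116) (nat_lit 5) (nat_lit 120) (nat_lit 5) (nat_lit 121) (nat_lit 5) (nat_lit 391) (nat_lit 346) (nat_lit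 163))))) (XT.nd (nat_lit 234) (nat_lit 684) (nat_lit 0) (XT.nd (nat_lit 78) (nat_lit 380) (nat_lit 0) (XT.lf (nat_lit 0) (nat_lit 834231249) (nat_lit 380) (nat_lit 12882390613) (nat_lit 76) (nat_lit 20735967210) (nat_lit 115) (nat_lit 5) (nat_lit 120) (nat_lit 5) (nat_lit 116) (nat_lit 5) (nat_lit 392) (nat_lit 346) (nat_lit 162)) (XT.nd (nat_lit 78) (nat_lit 0) (nat_lit 0) (XT.lf (nat_lit 0) (nat_lit 5253024471) (nat_lit 380) (nat_lit 1333251306) (nat_lit 456) (nat_lit 28516727644) (nat_lit 110) (nat_lit 5) (nat_lit 115) (nat_lit 5) (nat_lit 116) (nat_lit 5) (nat_lit 393) (nat_lit 346) (nat_lit 161)) (XT.lf (nat_lit 0) (nat_lit 12748754909) (nat_lit 456) (nat_lit 11688111264) (nat_lit 76) (nat_lit 11328929506) (nat_lit 110) (nat_lit 5) (nat_lit 116) (nat_lit 5) (nat_lit 111) (nat_lit 5) (nat_lit 394) (nat_lit 346) (nat_lit 160)))) (XT.nd (nat_lit 156) (nat_lit 380) (nat_lit 0) (XT.nd (nat_lit 78) (nat_lit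 0) (nat_lit 0) (XT.lf (nat_lit 0) (nat_lit 7140295836) (nat_lit 304) (nat_lit 12034452687) (nat_lit 380) (nat_lit 17271365609) (nat_lit 106) (nat_lit 5) (nat_lit 110) (nat_lit 5) (nat_lit 111) (nat_lit 5) (nat_lit 395) (nat_lit 346) (nat_lit 159)) (XT.lf (nat_lit 0) (nat_lit 25916672573) (nat_lit 380) (nat_lit 10382922846) (nat_lit 76) (nat_lit 843553781) (nat_lit 106) (nat_lit 5) (nat_lit 111) (nat_lit 5) (nat_lit 107) (nat_lit 5) (nat_lit 396) (nat_lit 346) (nat_lit 158))) (XT.nd (nat_lit 78) (nat_lit 76) (nat_lit 0) (XT.lf (nat_lit 0) (nat_lit 9162950131) (nat_lit 304) (nat_lit 23902070475) (nat_lit 380) (nat_lit 4789951259) (nat_lit 102) (nat_lit 5) (nat_lit 106) (nat_lit 5) (nat_lit 107) (nat_lit 5) (nat_lit 397) (nat_lit 346) (nat_lit 157)) (XT.lf (nat_lit 0) (nat_lit 1906606402) (nat_lit 380) (nat_lit 9100064804) (nat_lit 76) (nat_lit 27577863879) (nat_lit 101) (nat_lit 5) (nat_lit 106) (nat_lit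 5) (nat_lit 102) (nat_lit 5) (nat_lit 398) (nat_lit 346) (nat_lit 156))))))))
noncomputable def xc208 : XT := (XT.nd (nat_lit 2028) (nat_lit 760) (nat_lit 0) (XT.nd (nat_lit 1014) (nat_lit 1368) (nat_lit 0) (XT.nd (nat_lit 468) (nat_lit 1064) (nat_lit 0) (XT.nd (nat_lit 234) (nat_lit 304) (nat_lit 0) (XT.nd (nat_lit 78) (nat_lit 304) (nat_lit 0) (XT.lf (nat_lit 0) (nat_lit 8836345624) (nat_lit 380) (nat_lit 28107357668) (nat_lit 76) (nat_lit 2387003813) (nat_lit 97) (nat_lit 5) (nat_lit 102) (nat_lit 5) (nat_lit 98) (nat_lit 5) (nat_lit 399) (nat_lit 346) (nat_lit 155)) (XT.nd (nat_lit 78) (nat_lit 304) (nat_lit 0) (XT.lf (nat_lit 0) (nat_lit 16172828676) (nat_lit 380) (nat_lit 7867670894) (nat_lit 76) (nat_lit 16052800529) (nat_lit 97) (nat_lit 5) (nat_lit 102) (nat_lit 5) (nat_lit 98) (nat_lit 5) (nat_lit 400) (nat_lit 346) (nat_lit 154)) (XT.lf (nat_lit 0) (nat_lit 13233275016) (nat_lit 304) (nat_lit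 10620494884) (nat_lit 380) (nat_lit 17021271397) (nat_lit 93) (nat_lit 5) (nat_lit 97) (nat_lit 5) (nat_lit 98) (nat_lit 5) (nat_lit 401) (nat_lit 346) (nat_lit 153)))) (XT.nd (nat_lit 78) (nat_lit 304) (nat_lit 0) (XT.lf (nat_lit 0) (nat_lit 31873342522) (nat_lit 380) (nat_lit 6585081816) (nat_lit 76) (nat_lit 3218565584) (nat_lit 93) (nat_lit 5) (nat_lit 98) (nat_lit 5) (nat_lit 94) (nat_lit 5) (nat_lit 402) (nat_lit 346) (nat_lit 152)) (XT.nd (nat_lit 78) (nat_lit 76) (nat_lit 0) (XT.lf (nat_lit 0) (nat_lit 15292491337) (nat_lit 228) (nat_lit 25090434942) (nat_lit 304) (nat_lit 2112589256) (nat_lit 90) (nat_lit 5) (nat_lit 93) (nat_lit 5) (nat_lit 94) (nat_lit 5) (nat_lit 403) (nat_lit 346) (nat_lit 151)) (XT.lf (nat_lit 0) (nat_lit 5760279726) (nat_lit 304) (nat_lit 5435807958) (nat_lit 76) (nat_lit 32138902036) (nat_lit 89) (nat_lit 5) (nat_lit 93) (nat_lit 5) (nat_lit 90) (nat_lit 5) (nat_lit 404)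 (nat_lit 346) (nat_lit 150))))) (XT.nd (nat_lit 234) (nat_lit 532) (nat_lit 0) (XT.nd (nat_lit 78) (nat_lit 228) (nat_lit 0) (XT.lf (nat_lit 0) (nat_lit 14022290430) (nat_lit 380) (nat_lit 26928827733) (nat_lit 76) (nat_lit 3242041109) (nat_lit 85) (nat_lit 5) (nat_lit 90) (nat_lit 5) (nat_lit 86) (nat_lit 5) (nat_lit 405) (nat_lit 346) (nat_lit 149)) (XT.nd (nat_lit 78) (nat_lit 228) (nat_lit 0) (XT.lf (nat_lit 0) (nat_lit 22695836473) (nat_lit 380) (nat_lit 4433912856) (nat_lit 76) (nat_lit 17942415441) (nat_lit 85) (nat_lit 5) (nat_lit 90) (nat_lit 5) (nat_lit 86) (nat_lit 5) (nat_lit 406) (nat_lit 346) (nat_lit 148)) (XT.lf (nat_lit 0) (nat_lit 19104774959) (nat_lit 228) (nat_lit 12705924980) (nat_lit 304) (nat_lit 14161408240) (nat_lit 82) (nat_lit 5) (nat_lit 85) (nat_lit 5) (nat_lit 86) (nat_lit 5) (nat_lit 407) (nat_lit 346) (nat_lit 147)))) (XT.nd (nat_lit 156) (nat_lit 228) (nat_lit 0) (XT.nd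 (nat_lit 78) (nat_lit 304) (nat_lit 0) (XT.lf (nat_lit 0) (nat_lit 41262387779) (nat_lit 304) (nat_lit 3482211308) (nat_lit 76) (nat_lit 2152550492) (nat_lit 82) (nat_lit 5) (nat_lit 86) (nat_lit 5) (nat_lit 83) (nat_lit 5) (nat_lit 408) (nat_lit 346) (nat_lit 146)) (XT.lf (nat_lit 0) (nat_lit 3413566035) (nat_lit 304) (nat_lit 26991322422) (nat_lit 76) (nat_lit 17434327887) (nat_lit 78) (nat_lit 5) (nat_lit 82) (nat_lit 5) (nat_lit 79) (nat_lit 5) (nat_lit 409) (nat_lit 346) (nat_lit 145))) (XT.nd (nat_lit 78) (nat_lit 228) (nat_lit 0) (XT.lf (nat_lit 0) (nat_lit 12653173907) (nat_lit 304) (nat_lit 2889144911) (nat_lit 76) (nat_lit 33264561060) (nat_lit 78) (nat_lit 5) (nat_lit 82) (nat_lit 5) (nat_lit 79) (nat_lit 5) (nat_lit 410) (nat_lit 346) (nat_lit 144)) (XT.lf (nat_lit 0) (nat_lit 22368905493) (nat_lit 228) (nat_lit 13730525) (nat_lit 304) (nat_lit 27414558246) (nat_lit 75) (nat_lit 5) (nat_lit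 78) (nat_lit 5) (nat_lit 79) (nat_lit 5) (nat_lit 411) (nat_lit 346) (nat_lit 143)))))) (XT.nd (nat_lit 468) (nat_lit 608) (nat_lit 0) (XT.nd (nat_lit 234) (nat_lit 456) (nat_lit 0) (XT.nd (nat_lit 78) (nat_lit 304) (nat_lit 0) (XT.lf (nat_lit 0) (nat_lit 32584725122) (nat_lit 304) (nat_lit 2530038071) (nat_lit 76) (nat_lit 15697033500) (nat_lit 75) (nat_lit 5) (nat_lit 79) (nat_lit 5) (nat_lit 76) (nat_lit 5) (nat_lit 412) (nat_lit 346) (nat_lit 142)) (XT.nd (nat_lit 78) (nat_lit 76) (nat_lit 0) (XT.lf (nat_lit 0) (nat_lit 23571382898) (nat_lit 228) (nat_lit 19745943718) (nat_lit 304) (nat_lit 8532777960) (nat_lit 72) (nat_lit 5) (nat_lit 75) (nat_lit 5) (nat_lit 76) (nat_lit 5) (nat_lit 413) (nat_lit 346) (nat_lit 141)) (XT.lf (nat_lit 0) (nat_lit 1447545381) (nat_lit 304) (nat_lit 2428913585) (nat_lit 76) (nat_lit 49041978490) (nat_lit 71) (nat_lit 5) (nat_lit 75) (nat_lit 5) (nat_lit 72) (nat_lit 5)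 (nat_lit 414) (nat_lit 346) (nat_lit 140)))) (XT.nd (nat_lit 78) (nat_lit 228) (nat_lit 0) (XT.lf (nat_lit 0) (nat_lit 11912965414) (nat_lit 304) (nat_lit 29544085382) (nat_lit 76) (nat_lit 12548520216) (nat_lit 68) (nat_lit 5) (nat_lit 72) (nat_lit 5) (nat_lit 69) (nat_lit 5) (nat_lit 415) (nat_lit 346) (nat_lit 139)) (XT.nd (nat_lit 78) (nat_lit 228) (nat_lit 0) (XT.lf (nat_lit 0) (nat_lit 22753322685) (nat_lit 304) (nat_lit 2958346981) (nat_lit 76) (nat_lit 29411820448) (nat_lit 68) (nat_lit 5) (nat_lit 72) (nat_lit 5) (nat_lit 69) (nat_lit 5) (nat_lit 416) (nat_lit 346) (nat_lit 138)) (XT.lf (nat_lit 0) (nat_lit 24907575055) (nat_lit 228) (nat_lit 9248629598) (nat_lit 304) (nat_lit 22111623472) (nat_lit 65) (nat_lit 5) (nat_lit 68) (nat_lit 5) (nat_lit 69) (nat_lit 5) (nat_lit 417) (nat_lit 346) (nat_lit 137))))) (XT.nd (nat_lit 234) (nat_lit 380) (nat_lit 0) (XT.nd (nat_lit 78) (nat_lit 228) (nat_lit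 0) (XT.lf (nat_lit 0) (nat_lit 46003342776) (nat_lit 304) (nat_lit 3853316917) (nat_lit 76) (nat_lit 7586772226) (nat_lit 65) (nat_lit 5) (nat_lit 69) (nat_lit 5) (nat_lit 66) (nat_lit 5) (nat_lit 418) (nat_lit 346) (nat_lit 136)) (XT.nd (nat_lit 78) (nat_lit 76) (nat_lit 0) (XT.lf (nat_lit 0) (nat_lit 24869202583) (nat_lit 152) (nat_lit 33665285603) (nat_lit 228) (nat_lit 109958558) (nat_lit 63) (nat_lit 5) (nat_lit 65) (nat_lit 5) (nat_lit 66) (nat_lit 5) (nat_lit 419) (nat_lit 346) (nat_lit 135)) (XT.lf (nat_lit 0) (nat_lit 11371764909) (nat_lit 228) (nat_lit 5462795722) (nat_lit 76) (nat_lit 43042480346) (nat_lit 62) (nat_lit 5) (nat_lit 65) (nat_lit 5) (nat_lit 63) (nat_lit 5) (nat_lit 420) (nat_lit 346) (nat_lit 134)))) (XT.nd (nat_lit 156) (nat_lit 152) (nat_lit 0) (XT.nd (nat_lit 78) (nat_lit 0) (nat_lit 0) (XT.lf (nat_lit 0) (nat_lit 23433176620) (nat_lit 304) (nat_lit 36980530696) (nat_lit 76)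 (nat_lit 725750316) (nat_lit 59) (nat_lit 5) (nat_lit 63) (nat_lit 5) (nat_lit 60) (nat_lit 5) (nat_lit 421) (nat_lit 346) (nat_lit 133)) (XT.lf (nat_lit 0) (nat_lit 36076863887) (nat_lit 304) (nat_lit 7827300960) (nat_lit 76) (nat_lit 18528969575) (nat_lit 59) (nat_lit 5) (nat_lit 63) (nat_lit 5) (nat_lit 60) (nat_lit 5) (nat_lit 422) (nat_lit 346) (nat_lit 132))) (XT.nd (nat_lit 78) (nat_lit 0) (nat_lit 0) (XT.lf (nat_lit 0) (nat_lit 22639124368) (nat_lit 152) (nat_lit 26676460153) (nat_lit 228) (nat_lit 14443565926) (nat_lit 57) (nat_lit 5) (nat_lit 59) (nat_lit 5) (nat_lit 60) (nat_lit 5) (nat_lit 423) (nat_lit 346) (nat_lit 131)) (XT.lf (nat_lit 0) (nat_lit 54176853396) (nat_lit 152) (nat_lit 8851780507) (nat_lit 228) (nat_lit 2093998633) (nat_lit 57) (nat_lit 5) (nat_lit 59) (nat_lit 5) (nat_lit 60) (nat_lit 5) (nat_lit 424) (nat_lit 346) (nat_lit 130))))))) (XT.nd (nat_lit 41262) (nat_lit 0) (nat_lit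 11932) (XT.nd (nat_lit 468) (nat_lit 152) (nat_lit 0) (XT.nd (nat_lit 234) (nat_lit 228) (nat_lit 0) (XT.nd (nat_lit 78) (nat_lit 152) (nat_lit 0) (XT.lf (nat_lit 0) (nat_lit 10707559975) (nat_lit 228) (nat_lit 46185386343) (nat_lit 76) (nat_lit 9622343298) (nat_lit 54) (nat_lit 5) (nat_lit 57) (nat_lit 5) (nat_lit 55) (nat_lit 5) (nat_lit 425) (nat_lit 346) (nat_lit 129)) (XT.nd (nat_lit 78) (nat_lit 152) (nat_lit 0) (XT.lf (nat_lit 0) (nat_lit 24048519609) (nat_lit 228) (nat_lit 15290744423) (nat_lit 76) (nat_lit 28603917696) (nat_lit 54) (nat_lit 5) (nat_lit 57) (nat_lit 5) (nat_lit 55) (nat_lit 5) (nat_lit 426) (nat_lit 346) (nat_lit 128)) (XT.lf (nat_lit 0) (nat_lit 16856661792) (nat_lit 152) (nat_lit 21093310848) (nat_lit 228) (nat_lit 31459130555) (nat_lit 52) (nat_lit 5) (nat_lit 54) (nat_lit 5) (nat_lit 55) (nat_lit 5) (nat_lit 427) (nat_lit 346) (nat_lit 127)))) (XT.nd (nat_lit 78) (nat_lit 228)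 (nat_lit 0) (XT.lf (nat_lit 0) (nat_lit 50278955814) (nat_lit 152) (nat_lit 2142171015) (nat_lit 228) (nat_lit 18493296265) (nat_lit 52) (nat_lit 5) (nat_lit 54) (nat_lit 5) (nat_lit 55) (nat_lit 5) (nat_lit 428) (nat_lit 346) (nat_lit 126)) (XT.nd (nat_lit 78) (nat_lit 76) (nat_lit 0) (XT.lf (nat_lit 0) (nat_lit 12309237623) (nat_lit 152) (nat_lit 55300835617) (nat_lit 228) (nat_lit 4846320120) (nat_lit 50) (nat_lit 5) (nat_lit 52) (nat_lit 5) (nat_lit 53) (nat_lit 5) (nat_lit 429) (nat_lit 346) (nat_lit 125)) (XT.lf (nat_lit 0) (nat_lit 9260289456) (nat_lit 228) (nat_lit 27487824887) (nat_lit 76) (nat_lit 37286954507) (nat_lit 49) (nat_lit 5) (nat_lit 52) (nat_lit 5) (nat_lit 50) (nat_lit 5) (nat_lit 430) (nat_lit 346) (nat_lit 124))))) (XT.nd (nat_lit 40482) (nat_lit 0) (nat_lit 13604) (XT.nd (nat_lit 40326) (nat_lit 0) (nat_lit 13604) (XT.lf (nat_lit 0) (nat_lit 6221860552) (nat_lit 152) (nat_lit 17528983692)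 (nat_lit 228) (nat_lit 51907076722) (nat_lit 47) (nat_lit 5) (nat_lit 49) (nat_lit 5) (nat_lit 50) (nat_lit 5) (nat_lit 431) (nat_lit 346) (nat_lit 123)) (XT.nd (nat_lit 78) (nat_lit 0) (nat_lit 0) (XT.lf (nat_lit 0) (nat_lit 2461470699) (nat_lit 0) (nat_lit 2461470699) (nat_lit 1140) (nat_lit 3341360689) (nat_lit 226) (nat_lit 5) (nat_lit 226) (nat_lit 3) (nat_lit 241) (nat_lit 3) (nat_lit 347) (nat_lit 347) (nat_lit 206)) (XT.lf (nat_lit 0) (nat_lit 10255193799) (nat_lit 1140) (nat_lit 3879747422) (nat_lit 1216) (nat_lit 2633560399) (nat_lit 226) (nat_lit 5) (nat_lit 241) (nat_lit 3) (nat_lit 242) (nat_lit 5) (nat_lit 348) (nat_lit 347) (nat_lit 205)))) (XT.nd (nat_lit 156) (nat_lit 0) (nat_lit 76) (XT.nd (nat_lit 78) (nat_lit 0) (nat_lit 76) (XT.lf (nat_lit 76) (nat_lit 4104365526) (nat_lit 0) (nat_lit 6651455747) (nat_lit 1216) (nat_lit 6257410737) (nat_lit 227) (nat_lit 5) (nat_lit 226) (nat_lit 5)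 (nat_lit 242) (nat_lit 5) (nat_lit 349) (nat_lit 347) (nat_lit 204)) (XT.lf (nat_lit 0) (nat_lit 11312289694) (nat_lit 1140) (nat_lit 4872334659) (nat_lit 1216) (nat_lit 1079462227) (nat_lit 227) (nat_lit 5) (nat_lit 242) (nat_lit 5) (nat_lit 243) (nat_lit 5) (nat_lit 350) (nat_lit 347) (nat_lit 203))) (XT.nd (nat_lit 78) (nat_lit 0) (nat_lit 0) (XT.lf (nat_lit 76) (nat_lit 3400754788) (nat_lit 0) (nat_lit 8574603052) (nat_lit 1216) (nat_lit 5544418507) (nat_lit 228) (nat_lit 5) (nat_lit 227) (nat_lit 5) (nat_lit 243) (nat_lit 5) (nat_lit 351) (nat_lit 347) (nat_lit 202)) (XT.lf (nat_lit 76) (nat_lit 12016921137) (nat_lit 0) (nat_lit 682161121) (nat_lit 1216) (nat_lit 5082838155) (nat_lit 228) (nat_lit 5) (nat_lit 227) (nat_lit 5) (nat_lit 243) (nat_lit 5) (nat_lit 352) (nat_lit 347) (nat_lit 201)))))) (XT.nd (nat_lit 546) (nat_lit 836) (nat_lit 0) (XT.nd (nat_lit 234) (nat_lit 988) (nat_lit 0) (XT.nd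 (nat_lit 78) (nat_lit 0) (nat_lit 0) (XT.lf (nat_lit 76) (nat_lit 2817913046) (nat_lit 0) (nat_lit 10717119570) (nat_lit 1216) (nat_lit 4514187103) (nat_lit 229) (nat_lit 5) (nat_lit 228) (nat_lit 5) (nat_lit 244) (nat_lit 5) (nat_lit 353) (nat_lit 347) (nat_lit 200)) (XT.nd (nat_lit 78) (nat_lit 0) (nat_lit 76) (XT.lf (nat_lit 76) (nat_lit 11764518782) (nat_lit 0) (nat_lit 2688475595) (nat_lit 1216) (nat_lit 3869841799) (nat_lit 229) (nat_lit 5) (nat_lit 228) (nat_lit 5) (nat_lit 244) (nat_lit 5) (nat_lit 354) (nat_lit 347) (nat_lit 199)) (XT.lf (nat_lit 76) (nat_lit 2362107185) (nat_lit 0) (nat_lit 13105031017) (nat_lit 1216) (nat_lit 3135469607) (nat_lit 230) (nat_lit 5) (nat_lit 229) (nat_lit 5) (nat_lit 245) (nat_lit 5) (nat_lit 355) (nat_lit 347) (nat_lit 198)))) (XT.nd (nat_lit 156) (nat_lit 1064) (nat_lit 0) (XT.nd (nat_lit 78) (nat_lit 0) (nat_lit 76) (XT.lf (nat_lit 76) (nat_lit 11652286879)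 (nat_lit 0) (nat_lit 4944467258) (nat_lit 1216) (nat_lit 2291472826) (nat_lit 230) (nat_lit 5) (nat_lit 229) (nat_lit 5) (nat_lit 245) (nat_lit 5) (nat_lit 356) (nat_lit 347) (nat_lit 197)) (XT.lf (nat_lit 76) (nat_lit 2040051782) (nat_lit 0) (nat_lit 15765791232) (nat_lit 1216) (nat_lit 1375209779) (nat_lit 231) (nat_lit 5) (nat_lit 230) (nat_lit 5) (nat_lit 246) (nat_lit 5) (nat_lit 357) (nat_lit 347) (nat_lit 196))) (XT.nd (nat_lit 78) (nat_lit 1140) (nat_lit 0) (XT.lf (nat_lit 76) (nat_lit 11687529259) (nat_lit 0) (nat_lit 7478087616) (nat_lit 1216) (nat_lit 313619626) (nat_lit 231) (nat_lit 5) (nat_lit 230) (nat_lit 5) (nat_lit 246) (nat_lit 5) (nat_lit 358) (nat_lit 347) (nat_lit 195)) (XT.lf (nat_lit 0) (nat_lit 785940689) (nat_lit 1216) (nat_lit 17934549982) (nat_lit 1292) (nat_lit 1065015138) (nat_lit 215) (nat_lit 5) (nat_lit 231) (nat_lit 5) (nat_lit 232) (nat_lit 5) (nat_lit 359) (nat_lit 347)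 (nat_lit 194))))) (XT.nd (nat_lit 234) (nat_lit 836) (nat_lit 0) (XT.nd (nat_lit 78) (nat_lit 0) (nat_lit 0) (XT.lf (nat_lit 0) (nat_lit 2058857969) (nat_lit 1216) (nat_lit 8239269637) (nat_lit 1292) (nat_lit 9798347236) (nat_lit 215) (nat_lit 5) (nat_lit 231) (nat_lit 5) (nat_lit 232) (nat_lit 5) (nat_lit 360) (nat_lit 347) (nat_lit 193)) (XT.nd (nat_lit 78) (nat_lit 0) (nat_lit 76) (XT.lf (nat_lit 76) (nat_lit 1776324434) (nat_lit 0) (nat_lit 1604085431) (nat_lit 1292) (nat_lit 17036054530) (nat_lit 216) (nat_lit 5) (nat_lit 215) (nat_lit 5) (nat_lit 232) (nat_lit 5) (nat_lit 361) (nat_lit 347) (nat_lit 192)) (XT.lf (nat_lit 0) (nat_lit 4889820966) (nat_lit 1216) (nat_lit 8559126427) (nat_lit 1292) (nat_lit 7292664581) (nat_lit 216) (nat_lit 5) (nat_lit 232) (nat_lit 5) (nat_lit 233) (nat_lit 5) (nat_lit 362) (nat_lit 347) (nat_lit 191)))) (XT.nd (nat_lit 156) (nat_lit 912) (nat_lit 0) (XT.nd (nat_lit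 78) (nat_lit 0) (nat_lit 76) (XT.lf (nat_lit 76) (nat_lit 1839111374) (nat_lit 0) (nat_lit 4632680457) (nat_lit 1292) (nat_lit 14603908410) (nat_lit 217) (nat_lit 5) (nat_lit 216) (nat_lit 5) (nat_lit 233) (nat_lit 5) (nat_lit 363) (nat_lit 347) (nat_lit 190)) (XT.lf (nat_lit 0) (nat_lit 8225125221) (nat_lit 1216) (nat_lit 8741440742) (nat_lit 76) (nat_lit 4449532541) (nat_lit 217) (nat_lit 5) (nat_lit 233) (nat_lit 5) (nat_lit 218) (nat_lit 5) (nat_lit 364) (nat_lit 347) (nat_lit 189))) (XT.nd (nat_lit 78) (nat_lit 0) (nat_lit 0) (XT.lf (nat_lit 0) (nat_lit 2057642666) (nat_lit 988) (nat_lit 8033101876) (nat_lit 1064) (nat_lit 11674177913) (nat_lit 204) (nat_lit 5) (nat_lit 217) (nat_lit 5) (nat_lit 218) (nat_lit 5) (nat_lit 365) (nat_lit 347) (nat_lit 188)) (XT.lf (nat_lit 0) (nat_lit 12106878069) (nat_lit 1064) (nat_lit 8779116414) (nat_lit 76) (nat_lit 1235384467) (nat_lit 204) (nat_lit 5) (nat_lit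 218) (nat_lit 5) (nat_lit 205) (nat_lit 5) (nat_lit 366) (nat_lit 347) (nat_lit 187))))))))
noncomputable def xc209 : XT := (XT.nd (nat_lit 2028) (nat_lit 3876) (nat_lit 0) (XT.nd (nat_lit 1014) (nat_lit 2888) (nat_lit 0) (XT.nd (nat_lit 468) (nat_lit 1976) (nat_lit 0) (XT.nd (nat_lit 234) (nat_lit 684) (nat_lit 0) (XT.nd (nat_lit 78) (nat_lit 532) (nat_lit 0) (XT.lf (nat_lit 0) (nat_lit 2439782671) (nat_lit 608) (nat_lit 11841040293) (nat_lit 684) (nat_lit 8204790427) (nat_lit 196) (nat_lit 5) (nat_lit 204) (nat_lit 5) (nat_lit 205) (nat_lit 5) (nat_lit 367) (nat_lit 347) (nat_lit 186)) (XT.nd (nat_lit 78) (nat_lit 532) (nat_lit 0) (XT.lf (nat_lit 0) (nat_lit 14170080342) (nat_lit 608) (nat_lit 2433012298) (nat_lit 684) (nat_lit 6255192985) (nat_lit 196) (nat_lit 5) (nat_lit 204) (nat_lit 5) (nat_lit 205) (nat_lit 5) (nat_lit 368) (nat_lit 347) (nat_lit 185)) (XT.lf (nat_lit 0) (nat_lit 2993653267) (nat_lit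 532) (nat_lit 16094535107) (nat_lit 608) (nat_lit 4151158752) (nat_lit 189) (nat_lit 5) (nat_lit 196) (nat_lit 5) (nat_lit 197) (nat_lit 5) (nat_lit 369) (nat_lit 347) (nat_lit 184)))) (XT.nd (nat_lit 78) (nat_lit 684) (nat_lit 0) (XT.lf (nat_lit 0) (nat_lit 15174397698) (nat_lit 532) (nat_lit 6579753798) (nat_lit 608) (nat_lit 1874503264) (nat_lit 189) (nat_lit 5) (nat_lit 196) (nat_lit 5) (nat_lit 197) (nat_lit 5) (nat_lit 370) (nat_lit 347) (nat_lit 183)) (XT.nd (nat_lit 78) (nat_lit 0) (nat_lit 0) (XT.lf (nat_lit 0) (nat_lit 523550568) (nat_lit 684) (nat_lit 20305334591) (nat_lit 76) (nat_lit 3198755942) (nat_lit 180) (nat_lit 5) (nat_lit 189) (nat_lit 5) (nat_lit 181) (nat_lit 5) (nat_lit 371) (nat_lit 347) (nat_lit 182)) (XT.lf (nat_lit 0) (nat_lit 3102163179) (nat_lit 684) (nat_lit 8088281022) (nat_lit 76) (nat_lit 13243210675) (nat_lit 180) (nat_lit 5) (nat_lit 189) (nat_lit 5) (nat_lit 181) (nat_lit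 5) (nat_lit 372) (nat_lit 347) (nat_lit 181))))) (XT.nd (nat_lit 234) (nat_lit 912) (nat_lit 0) (XT.nd (nat_lit 78) (nat_lit 532) (nat_lit 0) (XT.lf (nat_lit 0) (nat_lit 4579634435) (nat_lit 532) (nat_lit 1217599711) (nat_lit 608) (nat_lit 19053445228) (nat_lit 173) (nat_lit 5) (nat_lit 180) (nat_lit 5) (nat_lit 181) (nat_lit 5) (nat_lit 373) (nat_lit 347) (nat_lit 180)) (XT.nd (nat_lit 78) (nat_lit 532) (nat_lit 0) (XT.lf (nat_lit 0) (nat_lit 8737850443) (nat_lit 608) (nat_lit 7577332932) (nat_lit 76) (nat_lit 8960093651) (nat_lit 173) (nat_lit 5) (nat_lit 181) (nat_lit 5) (nat_lit 174) (nat_lit 5) (nat_lit 374) (nat_lit 347) (nat_lit 179)) (XT.lf (nat_lit 0) (nat_lit 5589237664) (nat_lit 532) (nat_lit 6238542827) (nat_lit 608) (nat_lit 13883002379) (nat_lit 166) (nat_lit 5) (nat_lit 173) (nat_lit 5) (nat_lit 174) (nat_lit 5) (nat_lit 375) (nat_lit 347) (nat_lit 178)))) (XT.nd (nat_lit 156) (nat_lit 456)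 (nat_lit 0) (XT.nd (nat_lit 78) (nat_lit 456) (nat_lit 0) (XT.lf (nat_lit 0) (nat_lit 15122881144) (nat_lit 608) (nat_lit 6896535496) (nat_lit 76) (nat_lit 4136566097) (nat_lit 166) (nat_lit 5) (nat_lit 174) (nat_lit 5) (nat_lit 167) (nat_lit 5) (nat_lit 376) (nat_lit 347) (nat_lit 177)) (XT.lf (nat_lit 0) (nat_lit 6791069392) (nat_lit 456) (nat_lit 11848345986) (nat_lit 532) (nat_lit 7971448748) (nat_lit 160) (nat_lit 5) (nat_lit 166) (nat_lit 5) (nat_lit 167) (nat_lit 5) (nat_lit 377) (nat_lit 347) (nat_lit 176))) (XT.nd (nat_lit 78) (nat_lit 456) (nat_lit 0) (XT.lf (nat_lit 0) (nat_lit 21025817152) (nat_lit 456) (nat_lit 1300886286) (nat_lit 532) (nat_lit 4750733639) (nat_lit 160) (nat_lit 5) (nat_lit 166) (nat_lit 5) (nat_lit 167) (nat_lit 5) (nat_lit 378) (nat_lit 347) (nat_lit 175)) (XT.lf (nat_lit 0) (nat_lit 8192701827) (nat_lit 456) (nat_lit 18098326527) (nat_lit 532) (nat_lit 1261989089) (nat_lit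 154) (nat_lit 5) (nat_lit 160) (nat_lit 5) (nat_lit 161) (nat_lit 5) (nat_lit 379) (nat_lit 347) (nat_lit 174)))))) (XT.nd (nat_lit 468) (nat_lit 1520) (nat_lit 0) (XT.nd (nat_lit 234) (nat_lit 836) (nat_lit 0) (XT.nd (nat_lit 78) (nat_lit 456) (nat_lit 0) (XT.lf (nat_lit 0) (nat_lit 2356291564) (nat_lit 532) (nat_lit 5093403847) (nat_lit 76) (nat_lit 20590389048) (nat_lit 153) (nat_lit 5) (nat_lit 160) (nat_lit 5) (nat_lit 154) (nat_lit 5) (nat_lit 380) (nat_lit 347) (nat_lit 173)) (XT.nd (nat_lit 78) (nat_lit 0) (nat_lit 0) (XT.lf (nat_lit 0) (nat_lit 6182484969) (nat_lit 532) (nat_lit 18798537071) (nat_lit 76) (nat_lit 3556627264) (nat_lit 147) (nat_lit 5) (nat_lit 154) (nat_lit 5) (nat_lit 148) (nat_lit 5) (nat_lit 381) (nat_lit 347) (nat_lit 172)) (XT.lf (nat_lit 0) (nat_lit 10245130822) (nat_lit 532) (nat_lit 4006662728) (nat_lit 76) (nat_lit 14794700008) (nat_lit 147) (nat_lit 5) (nat_lit 154) (nat_lit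 5) (nat_lit 148) (nat_lit 5) (nat_lit 382) (nat_lit 347) (nat_lit 171)))) (XT.nd (nat_lit 78) (nat_lit 380) (nat_lit 0) (XT.lf (nat_lit 0) (nat_lit 11447683859) (nat_lit 456) (nat_lit 3088096519) (nat_lit 532) (nat_lit 15031641422) (nat_lit 141) (nat_lit 5) (nat_lit 147) (nat_lit 5) (nat_lit 148) (nat_lit 5) (nat_lit 383) (nat_lit 347) (nat_lit 170)) (XT.nd (nat_lit 78) (nat_lit 380) (nat_lit 0) (XT.lf (nat_lit 0) (nat_lit 19073000824) (nat_lit 532) (nat_lit 2740952236) (nat_lit 76) (nat_lit 8286491610) (nat_lit 141) (nat_lit 5) (nat_lit 148) (nat_lit 5) (nat_lit 142) (nat_lit 5) (nat_lit 384) (nat_lit 347) (nat_lit 169)) (XT.lf (nat_lit 0) (nat_lit 13324025376) (nat_lit 380) (nat_lit 10577223099) (nat_lit 456) (nat_lit 6743564688) (nat_lit 136) (nat_lit 5) (nat_lit 141) (nat_lit 5) (nat_lit 142) (nat_lit 5) (nat_lit 385) (nat_lit 347) (nat_lit 168))))) (XT.nd (nat_lit 234) (nat_lit 684) (nat_lit 0) (XT.nd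 (nat_lit 78) (nat_lit 836) (nat_lit 0) (XT.lf (nat_lit 0) (nat_lit 28908189437) (nat_lit 456) (nat_lit 1292052519) (nat_lit 76) (nat_lit 1004257566) (nat_lit 136) (nat_lit 5) (nat_lit 142) (nat_lit 5) (nat_lit 137) (nat_lit 5) (nat_lit 386) (nat_lit 347) (nat_lit 167)) (XT.nd (nat_lit 78) (nat_lit 380) (nat_lit 0) (XT.lf (nat_lit 0) (nat_lit 2491518448) (nat_lit 456) (nat_lit 16388942295) (nat_lit 76) (nat_lit 12892307060) (nat_lit 130) (nat_lit 5) (nat_lit 136) (nat_lit 5) (nat_lit 131) (nat_lit 5) (nat_lit 387) (nat_lit 347) (nat_lit 166)) (XT.lf (nat_lit 0) (nat_lit 205367404) (nat_lit 380) (nat_lit 7183056694) (nat_lit 456) (nat_lit 24968632089) (nat_lit 125) (nat_lit 5) (nat_lit 130) (nat_lit 5) (nat_lit 131) (nat_lit 5) (nat_lit 388) (nat_lit 347) (nat_lit 165)))) (XT.nd (nat_lit 156) (nat_lit 304) (nat_lit 0) (XT.nd (nat_lit 78) (nat_lit 380) (nat_lit 0) (XT.lf (nat_lit 0) (nat_lit 12642635494)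 (nat_lit 456) (nat_lit 15373451804) (nat_lit 76) (nat_lit 4936475912) (nat_lit 125) (nat_lit 5) (nat_lit 131) (nat_lit 5) (nat_lit 126) (nat_lit 5) (nat_lit 389) (nat_lit 347) (nat_lit 164)) (XT.lf (nat_lit 0) (nat_lit 1869017584) (nat_lit 380) (nat_lit 16271139092) (nat_lit 456) (nat_lit 15423210154) (nat_lit 120) (nat_lit 5) (nat_lit 125) (nat_lit 5) (nat_lit 126) (nat_lit 5) (nat_lit 390) (nat_lit 347) (nat_lit 163))) (XT.nd (nat_lit 78) (nat_lit 304) (nat_lit 0) (XT.lf (nat_lit 0) (nat_lit 19939478944) (nat_lit 380) (nat_lit 4015020775) (nat_lit 456) (nat_lit 10233439784) (nat_lit 120) (nat_lit 5) (nat_lit 125) (nat_lit 5) (nat_lit 126) (nat_lit 5) (nat_lit 391) (nat_lit 347) (nat_lit 162)) (XT.lf (nat_lit 0) (nat_lit 3705985902) (nat_lit 304) (nat_lit 26352406120) (nat_lit 380) (nat_lit 4769405545) (nat_lit 116) (nat_lit 5) (nat_lit 120) (nat_lit 5) (nat_lit 121) (nat_lit 5) (nat_lit 392) (nat_lit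 347) (nat_lit 161))))))) (XT.nd (nat_lit 1014) (nat_lit 1824) (nat_lit 0) (XT.nd (nat_lit 468) (nat_lit 988) (nat_lit 0) (XT.nd (nat_lit 234) (nat_lit 608) (nat_lit 0) (XT.nd (nat_lit 78) (nat_lit 380) (nat_lit 0) (XT.lf (nat_lit 0) (nat_lit 1023616729) (nat_lit 380) (nat_lit 13045226157) (nat_lit 76) (nat_lit 21412307965) (nat_lit 115) (nat_lit 5) (nat_lit 120) (nat_lit 5) (nat_lit 116) (nat_lit 5) (nat_lit 393) (nat_lit 347) (nat_lit 160)) (XT.nd (nat_lit 78) (nat_lit 0) (nat_lit 0) (XT.lf (nat_lit 0) (nat_lit 5632058869) (nat_lit 380) (nat_lit 1313505235) (nat_lit 456) (nat_lit 29205595762) (nat_lit 110) (nat_lit 5) (nat_lit 115) (nat_lit 5) (nat_lit 116) (nat_lit 5) (nat_lit 394) (nat_lit 347) (nat_lit 159)) (XT.lf (nat_lit 0) (nat_lit 13288765464) (nat_lit 456) (nat_lit 11819528361) (nat_lit 76) (nat_lit 11725669039) (nat_lit 110) (nat_lit 5) (nat_lit 116) (nat_lit 5) (nat_lit 111) (nat_lit 5) (nat_lit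 395) (nat_lit 347) (nat_lit 158)))) (XT.nd (nat_lit 78) (nat_lit 304) (nat_lit 0) (XT.lf (nat_lit 0) (nat_lit 7571581676) (nat_lit 304) (nat_lit 12333455113) (nat_lit 380) (nat_lit 17629731481) (nat_lit 106) (nat_lit 5) (nat_lit 110) (nat_lit 5) (nat_lit 111) (nat_lit 5) (nat_lit 396) (nat_lit 347) (nat_lit 157)) (XT.nd (nat_lit 78) (nat_lit 304) (nat_lit 0) (XT.lf (nat_lit 0) (nat_lit 26845281577) (nat_lit 380) (nat_lit 10479643570) (nat_lit 76) (nat_lit 927909621) (nat_lit 106) (nat_lit 5) (nat_lit 111) (nat_lit 5) (nat_lit 107) (nat_lit 5) (nat_lit 397) (nat_lit 347) (nat_lit 156)) (XT.lf (nat_lit 0) (nat_lit 9650500037) (nat_lit 304) (nat_lit 24555223018) (nat_lit 380) (nat_lit 4780361972) (nat_lit 102) (nat_lit 5) (nat_lit 106) (nat_lit 5) (nat_lit 107) (nat_lit 5) (nat_lit 398) (nat_lit 347) (nat_lit 155))))) (XT.nd (nat_lit 234) (nat_lit 608) (nat_lit 0) (XT.nd (nat_lit 78) (nat_lit 304) (nat_lit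 0) (XT.lf (nat_lit 0) (nat_lit 2109723650) (nat_lit 380) (nat_lit 9163626068) (nat_lit 76) (nat_lit 28464274624) (nat_lit 101) (nat_lit 5) (nat_lit 106) (nat_lit 5) (nat_lit 102) (nat_lit 5) (nat_lit 399) (nat_lit 347) (nat_lit 154)) (XT.nd (nat_lit 78) (nat_lit 0) (nat_lit 0) (XT.lf (nat_lit 0) (nat_lit 9245711075) (nat_lit 380) (nat_lit 28739426537) (nat_lit 76) (nat_lit 2521095246) (nat_lit 97) (nat_lit 5) (nat_lit 102) (nat_lit 5) (nat_lit 98) (nat_lit 5) (nat_lit 400) (nat_lit 347) (nat_lit 153)) (XT.lf (nat_lit 0) (nat_lit 16798086431) (nat_lit 380) (nat_lit 7898699214) (nat_lit 76) (nat_lit 16595046020) (nat_lit 97) (nat_lit 5) (nat_lit 102) (nat_lit 5) (nat_lit 98) (nat_lit 5) (nat_lit 401) (nat_lit 347) (nat_lit 152)))) (XT.nd (nat_lit 156) (nat_lit 304) (nat_lit 0) (XT.nd (nat_lit 78) (nat_lit 0) (nat_lit 0) (XT.lf (nat_lit 0) (nat_lit 13833265252) (nat_lit 304) (nat_lit 10874062131) (nat_lit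 380) (nat_lit 17389763472) (nat_lit 93) (nat_lit 5) (nat_lit 97) (nat_lit 5) (nat_lit 98) (nat_lit 5) (nat_lit 402) (nat_lit 347) (nat_lit 151)) (XT.lf (nat_lit 0) (nat_lit 32964076451) (nat_lit 380) (nat_lit 6582082437) (nat_lit 76) (nat_lit 3377043218) (nat_lit 93) (nat_lit 5) (nat_lit 98) (nat_lit 5) (nat_lit 94) (nat_lit 5) (nat_lit 403) (nat_lit 347) (nat_lit 150))) (XT.nd (nat_lit 78) (nat_lit 76) (nat_lit 0) (XT.lf (nat_lit 0) (nat_lit 15949851717) (nat_lit 228) (nat_lit 25777086475) (nat_lit 304) (nat_lit 2039407373) (nat_lit 90) (nat_lit 5) (nat_lit 93) (nat_lit 5) (nat_lit 94) (nat_lit 5) (nat_lit 404) (nat_lit 347) (nat_lit 149)) (XT.lf (nat_lit 0) (nat_lit 6063083061) (nat_lit 304) (nat_lit 5403437165) (nat_lit 76) (nat_lit 33164563052) (nat_lit 89) (nat_lit 5) (nat_lit 93) (nat_lit 5) (nat_lit 90) (nat_lit 5) (nat_lit 405) (nat_lit 347) (nat_lit 148)))))) (XT.nd (nat_lit 546) (nat_lit 760)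 (nat_lit 0) (XT.nd (nat_lit 234) (nat_lit 532) (nat_lit 0) (XT.nd (nat_lit 78) (nat_lit 228) (nat_lit 0) (XT.lf (nat_lit 0) (nat_lit 14571657385) (nat_lit 380) (nat_lit 27539896186) (nat_lit 76) (nat_lit 3403484887) (nat_lit 85) (nat_lit 5) (nat_lit 90) (nat_lit 5) (nat_lit 86) (nat_lit 5) (nat_lit 406) (nat_lit 347) (nat_lit 147)) (XT.nd (nat_lit 78) (nat_lit 228) (nat_lit 0) (XT.lf (nat_lit 0) (nat_lit 23501661316) (nat_lit 380) (nat_lit 4375865797) (nat_lit 76) (nat_lit 18543001054) (nat_lit 85) (nat_lit 5) (nat_lit 90) (nat_lit 5) (nat_lit 86) (nat_lit 5) (nat_lit 407) (nat_lit 347) (nat_lit 146)) (XT.lf (nat_lit 0) (nat_lit 19867109472) (nat_lit 228) (nat_lit 13021040523) (nat_lit 304) (nat_lit 14459376048) (nat_lit 82) (nat_lit 5) (nat_lit 85) (nat_lit 5) (nat_lit 86) (nat_lit 5) (nat_lit 408) (nat_lit 347) (nat_lit 145)))) (XT.nd (nat_lit 156) (nat_lit 228) (nat_lit 0) (XT.nd (nat_lit 78) (nat_lit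 304) (nat_lit 0) (XT.lf (nat_lit 0) (nat_lit 42620418722) (nat_lit 304) (nat_lit 3399977050) (nat_lit 76) (nat_lit 2280013507) (nat_lit 82) (nat_lit 5) (nat_lit 86) (nat_lit 5) (nat_lit 83) (nat_lit 5) (nat_lit 409) (nat_lit 347) (nat_lit 144)) (XT.lf (nat_lit 0) (nat_lit 3635629870) (nat_lit 304) (nat_lit 27613763352) (nat_lit 76) (nat_lit 18021362769) (nat_lit 78) (nat_lit 5) (nat_lit 82) (nat_lit 5) (nat_lit 79) (nat_lit 5) (nat_lit 410) (nat_lit 347) (nat_lit 143))) (XT.nd (nat_lit 78) (nat_lit 228) (nat_lit 0) (XT.lf (nat_lit 0) (nat_lit 13148940826) (nat_lit 304) (nat_lit 2793975819) (nat_lit 76) (nat_lit 34324638713) (nat_lit 78) (nat_lit 5) (nat_lit 82) (nat_lit 5) (nat_lit 79) (nat_lit 5) (nat_lit 411) (nat_lit 347) (nat_lit 142)) (XT.lf (nat_lit 0) (nat_lit 23169128095) (nat_lit 304) (nat_lit 28068090857) (nat_lit 76) (nat_lit 50396319) (nat_lit 75) (nat_lit 5) (nat_lit 79) (nat_lit 5) (nat_lit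 76) (nat_lit 5) (nat_lit 412) (nat_lit 347) (nat_lit 141))))) (XT.nd (nat_lit 234) (nat_lit 456) (nat_lit 0) (XT.nd (nat_lit 78) (nat_lit 304) (nat_lit 0) (XT.lf (nat_lit 0) (nat_lit 33674061964) (nat_lit 304) (nat_lit 2428356074) (nat_lit 76) (nat_lit 16230335564) (nat_lit 75) (nat_lit 5) (nat_lit 79) (nat_lit 5) (nat_lit 76) (nat_lit 5) (nat_lit 413) (nat_lit 347) (nat_lit 140)) (XT.nd (nat_lit 78) (nat_lit 76) (nat_lit 0) (XT.lf (nat_lit 0) (nat_lit 24454366513) (nat_lit 228) (nat_lit 20272709125) (nat_lit 304) (nat_lit 8675183318) (nat_lit 72) (nat_lit 5) (nat_lit 75) (nat_lit 5) (nat_lit 76) (nat_lit 5) (nat_lit 414) (nat_lit 347) (nat_lit 139)) (XT.lf (nat_lit 0) (nat_lit 1599089864) (nat_lit 304) (nat_lit 2328869240) (nat_lit 76) (nat_lit 50574748454) (nat_lit 71) (nat_lit 5) (nat_lit 75) (nat_lit 5) (nat_lit 72) (nat_lit 5) (nat_lit 415) (nat_lit 347) (nat_lit 138)))) (XT.nd (nat_lit 156) (nat_lit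 228) (nat_lit 0) (XT.nd (nat_lit 78) (nat_lit 0) (nat_lit 0) (XT.lf (nat_lit 0) (nat_lit 12377590256) (nat_lit 304) (nat_lit 30256575621) (nat_lit 76) (nat_lit 12988316862) (nat_lit 68) (nat_lit 5) (nat_lit 72) (nat_lit 5) (nat_lit 69) (nat_lit 5) (nat_lit 416) (nat_lit 347) (nat_lit 137)) (XT.lf (nat_lit 0) (nat_lit 23540034869) (nat_lit 304) (nat_lit 2878328146) (nat_lit 76) (nat_lit 30355671217) (nat_lit 68) (nat_lit 5) (nat_lit 72) (nat_lit 5) (nat_lit 69) (nat_lit 5) (nat_lit 417) (nat_lit 347) (nat_lit 136))) (XT.nd (nat_lit 78) (nat_lit 0) (nat_lit 0) (XT.lf (nat_lit 0) (nat_lit 25821916951) (nat_lit 228) (nat_lit 9461660351) (nat_lit 304) (nat_lit 22669168945) (nat_lit 65) (nat_lit 5) (nat_lit 68) (nat_lit 5) (nat_lit 69) (nat_lit 5) (nat_lit 418) (nat_lit 347) (nat_lit 135)) (XT.lf (nat_lit 0) (nat_lit 47483739983) (nat_lit 304) (nat_lit 3804244536) (nat_lit 76) (nat_lit 7875706374) (nat_lit 65)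 (nat_lit 5) (nat_lit 69) (nat_lit 5) (nat_lit 66) (nat_lit 5) (nat_lit 419) (nat_lit 347) (nat_lit 134))))))))
noncomputable def xc210 : XT := (XT.nd (nat_lit 42354) (nat_lit 0) (nat_lit 6156) (XT.nd (nat_lit 41340) (nat_lit 0) (nat_lit 12540) (XT.nd (nat_lit 468) (nat_lit 608) (nat_lit 0) (XT.nd (nat_lit 234) (nat_lit 152) (nat_lit 0) (XT.nd (nat_lit 78) (nat_lit 304) (nat_lit 0) (XT.lf (nat_lit 0) (nat_lit 25778336118) (nat_lit 152) (nat_lit 34611129776) (nat_lit 228) (nat_lit 11311907) (nat_lit 63) (nat_lit 5) (nat_lit 65) (nat_lit 5) (nat_lit 66) (nat_lit 5) (nat_lit 420) (nat_lit 347) (nat_lit 133)) (XT.nd (nat_lit 78) (nat_lit 228) (nat_lit 0) (XT.lf (nat_lit 0) (nat_lit 11809962600) (nat_lit 228) (nat_lit 5466407903) (nat_lit 76) (nat_lit 44394038263) (nat_lit 62) (nat_lit 5) (nat_lit 65) (nat_lit 5) (nat_lit 63) (nat_lit 5) (nat_lit 421) (nat_lit 347) (nat_lit 132)) (XT.lf (nat_lit 0) (nat_lit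 24232520820) (nat_lit 304) (nat_lit 37928947920) (nat_lit 76) (nat_lit 809250991) (nat_lit 59) (nat_lit 5) (nat_lit 63) (nat_lit 5) (nat_lit 60) (nat_lit 5) (nat_lit 422) (nat_lit 347) (nat_lit 131)))) (XT.nd (nat_lit 78) (nat_lit 152) (nat_lit 0) (XT.lf (nat_lit 0) (nat_lit 37252712425) (nat_lit 304) (nat_lit 7905810575) (nat_lit 76) (nat_lit 19144768920) (nat_lit 59) (nat_lit 5) (nat_lit 63) (nat_lit 5) (nat_lit 60) (nat_lit 5) (nat_lit 423) (nat_lit 347) (nat_lit 130)) (XT.nd (nat_lit 78) (nat_lit 0) (nat_lit 0) (XT.lf (nat_lit 0) (nat_lit 23473075069) (nat_lit 152) (nat_lit 27414282879) (nat_lit 228) (nat_lit 14781768462) (nat_lit 57) (nat_lit 5) (nat_lit 59) (nat_lit 5) (nat_lit 60) (nat_lit 5) (nat_lit 424) (nat_lit 347) (nat_lit 129)) (XT.lf (nat_lit 0) (nat_lit 55952427900) (nat_lit 152) (nat_lit 9056682390) (nat_lit 228) (nat_lit 2064484182) (nat_lit 57) (nat_lit 5) (nat_lit 59) (nat_lit 5) (nat_lit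 60) (nat_lit 5) (nat_lit 425) (nat_lit 347) (nat_lit 128))))) (XT.nd (nat_lit 234) (nat_lit 228) (nat_lit 0) (XT.nd (nat_lit 78) (nat_lit 152) (nat_lit 0) (XT.lf (nat_lit 0) (nat_lit 11118719167) (nat_lit 228) (nat_lit 47418222444) (nat_lit 76) (nat_lit 9971081840) (nat_lit 54) (nat_lit 5) (nat_lit 57) (nat_lit 5) (nat_lit 55) (nat_lit 5) (nat_lit 426) (nat_lit 347) (nat_lit 127)) (XT.nd (nat_lit 78) (nat_lit 152) (nat_lit 0) (XT.lf (nat_lit 0) (nat_lit 24857288201) (nat_lit 228) (nat_lit 15601189581) (nat_lit 76) (nat_lit 29520353909) (nat_lit 54) (nat_lit 5) (nat_lit 57) (nat_lit 5) (nat_lit 55) (nat_lit 5) (nat_lit 427) (nat_lit 347) (nat_lit 126)) (XT.lf (nat_lit 0) (nat_lit 17509185122) (nat_lit 152) (nat_lit 21665467960) (nat_lit 228) (nat_lit 32314112432) (nat_lit 52) (nat_lit 5) (nat_lit 54) (nat_lit 5) (nat_lit 55) (nat_lit 5) (nat_lit 428) (nat_lit 347) (nat_lit 125)))) (XT.nd (nat_lit 156) (nat_lit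 76) (nat_lit 0) (XT.nd (nat_lit 78) (nat_lit 152) (nat_lit 0) (XT.lf (nat_lit 0) (nat_lit 51929871553) (nat_lit 152) (nat_lit 2147560210) (nat_lit 228) (nat_lit 18961889289) (nat_lit 52) (nat_lit 5) (nat_lit 54) (nat_lit 5) (nat_lit 55) (nat_lit 5) (nat_lit 429) (nat_lit 347) (nat_lit 124)) (XT.lf (nat_lit 0) (nat_lit 12821613777) (nat_lit 152) (nat_lit 56899920789) (nat_lit 228) (nat_lit 4906031936) (nat_lit 50) (nat_lit 5) (nat_lit 52) (nat_lit 5) (nat_lit 53) (nat_lit 5) (nat_lit 430) (nat_lit 347) (nat_lit 123))) (XT.nd (nat_lit 40404) (nat_lit 0) (nat_lit 13452) (XT.lf (nat_lit 0) (nat_lit 9619657271) (nat_lit 228) (nat_lit 28171882840) (nat_lit 76) (nat_lit 38462111518) (nat_lit 49) (nat_lit 5) (nat_lit 52) (nat_lit 5) (nat_lit 50) (nat_lit 5) (nat_lit 431) (nat_lit 347) (nat_lit 122)) (XT.lf (nat_lit 0) (nat_lit 2652083246) (nat_lit 0) (nat_lit 2652083246) (nat_lit 1140) (nat_lit 3200877375) (nat_lit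 226) (nat_lit 5) (nat_lit 226) (nat_lit 3) (nat_lit 241) (nat_lit 3) (nat_lit 348) (nat_lit 348) (nat_lit 204)))))) (XT.nd (nat_lit 468) (nat_lit 912) (nat_lit 0) (XT.nd (nat_lit 234) (nat_lit 0) (nat_lit 76) (XT.nd (nat_lit 78) (nat_lit 0) (nat_lit 0) (XT.lf (nat_lit 0) (nat_lit 11014139711) (nat_lit 1140) (nat_lit 3753269631) (nat_lit 1216) (nat_lit 2490256818) (nat_lit 226) (nat_lit 5) (nat_lit 241) (nat_lit 3) (nat_lit 242) (nat_lit 5) (nat_lit 349) (nat_lit 348) (nat_lit 203)) (XT.nd (nat_lit 78) (nat_lit 0) (nat_lit 76) (XT.lf (nat_lit 76) (nat_lit 4467985624) (nat_lit 0) (nat_lit 7050967742) (nat_lit 1216) (nat_lit 5991120322) (nat_lit 227) (nat_lit 5) (nat_lit 226) (nat_lit 5) (nat_lit 242) (nat_lit 5) (nat_lit 350) (nat_lit 348) (nat_lit 202)) (XT.lf (nat_lit 0) (nat_lit 12077420751) (nat_lit 1140) (nat_lit 4769993405) (nat_lit 1216) (nat_lit 921490540) (nat_lit 227) (nat_lit 5) (nat_lit 242)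 (nat_lit 5) (nat_lit 243) (nat_lit 5) (nat_lit 351) (nat_lit 348) (nat_lit 201)))) (XT.nd (nat_lit 78) (nat_lit 0) (nat_lit 0) (XT.lf (nat_lit 76) (nat_lit 3748852340) (nat_lit 0) (nat_lit 9001493179) (nat_lit 1216) (nat_lit 5282230359) (nat_lit 228) (nat_lit 5) (nat_lit 227) (nat_lit 5) (nat_lit 243) (nat_lit 5) (nat_lit 352) (nat_lit 348) (nat_lit 200)) (XT.nd (nat_lit 78) (nat_lit 0) (nat_lit 76) (XT.lf (nat_lit 76) (nat_lit 12616336449) (nat_lit 0) (nat_lit 867336669) (nat_lit 1216) (nat_lit 4819283782) (nat_lit 228) (nat_lit 5) (nat_lit 227) (nat_lit 5) (nat_lit 243) (nat_lit 5) (nat_lit 353) (nat_lit 348) (nat_lit 199)) (XT.lf (nat_lit 76) (nat_lit 3152883011) (nat_lit 0) (nat_lit 11180933227) (nat_lit 1216) (nat_lit 4244794624) (nat_lit 229) (nat_lit 5) (nat_lit 228) (nat_lit 5) (nat_lit 244) (nat_lit 5) (nat_lit 354) (nat_lit 348) (nat_lit 198))))) (XT.nd (nat_lit 234) (nat_lit 1064) (nat_lit 0)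 (XT.nd (nat_lit 78) (nat_lit 0) (nat_lit 76) (XT.lf (nat_lit 76) (nat_lit 12360592766) (nat_lit 0) (nat_lit 2907285270) (nat_lit 1216) (nat_lit 3592909779) (nat_lit 229) (nat_lit 5) (nat_lit 228) (nat_lit 5) (nat_lit 244) (nat_lit 5) (nat_lit 355) (nat_lit 348) (nat_lit 197)) (XT.nd (nat_lit 78) (nat_lit 0) (nat_lit 0) (XT.lf (nat_lit 76) (nat_lit 2686658538) (nat_lit 0) (nat_lit 13615831244) (nat_lit 1216) (nat_lit 2846770089) (nat_lit 230) (nat_lit 5) (nat_lit 229) (nat_lit 5) (nat_lit 245) (nat_lit 5) (nat_lit 356) (nat_lit 348) (nat_lit 196)) (XT.lf (nat_lit 76) (nat_lit 12248154648) (nat_lit 0) (nat_lit 5207023894) (nat_lit 1216) (nat_lit 1988601858) (nat_lit 230) (nat_lit 5) (nat_lit 229) (nat_lit 5) (nat_lit 245) (nat_lit 5) (nat_lit 357) (nat_lit 348) (nat_lit 195)))) (XT.nd (nat_lit 156) (nat_lit 0) (nat_lit 76) (XT.nd (nat_lit 78) (nat_lit 1216) (nat_lit 0) (XT.lf (nat_lit 76) (nat_lit 2357209627)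 (nat_lit 0) (nat_lit 16334224235) (nat_lit 1216) (nat_lit 1054238419) (nat_lit 231) (nat_lit 5) (nat_lit 230) (nat_lit 5) (nat_lit 246) (nat_lit 5) (nat_lit 358) (nat_lit 348) (nat_lit 194)) (XT.lf (nat_lit 0) (nat_lit 28090070) (nat_lit 1216) (nat_lit 7766735418) (nat_lit 1292) (nat_lit 12258282666) (nat_lit 214) (nat_lit 5) (nat_lit 230) (nat_lit 5) (nat_lit 231) (nat_lit 5) (nat_lit 359) (nat_lit 348) (nat_lit 193))) (XT.nd (nat_lit 78) (nat_lit 0) (nat_lit 0) (XT.lf (nat_lit 0) (nat_lit 1145915314) (nat_lit 1216) (nat_lit 18208303398) (nat_lit 1292) (nat_lit 1014513630) (nat_lit 215) (nat_lit 5) (nat_lit 231) (nat_lit 5) (nat_lit 232) (nat_lit 5) (nat_lit 360) (nat_lit 348) (nat_lit 192)) (XT.lf (nat_lit 0) (nat_lit 2447222159) (nat_lit 1216) (nat_lit 8229862209) (nat_lit 1292) (nat_lit 10012247204) (nat_lit 215) (nat_lit 5) (nat_lit 231) (nat_lit 5) (nat_lit 232) (nat_lit 5) (nat_lit 361) (nat_lit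 348) (nat_lit 191))))))) (XT.nd (nat_lit 1014) (nat_lit 3268) (nat_lit 0) (XT.nd (nat_lit 468) (nat_lit 2356) (nat_lit 0) (XT.nd (nat_lit 234) (nat_lit 836) (nat_lit 0) (XT.nd (nat_lit 78) (nat_lit 0) (nat_lit 76) (XT.lf (nat_lit 76) (nat_lit 2083684141) (nat_lit 0) (nat_lit 1717666171) (nat_lit 1292) (nat_lit 17217789586) (nat_lit 216) (nat_lit 5) (nat_lit 215) (nat_lit 5) (nat_lit 232) (nat_lit 5) (nat_lit 362) (nat_lit 348) (nat_lit 190)) (XT.nd (nat_lit 78) (nat_lit 0) (nat_lit 0) (XT.lf (nat_lit 0) (nat_lit 5346126203) (nat_lit 1216) (nat_lit 8559086991) (nat_lit 1292) (nat_lit 7449133011) (nat_lit 216) (nat_lit 5) (nat_lit 232) (nat_lit 5) (nat_lit 233) (nat_lit 5) (nat_lit 363) (nat_lit 348) (nat_lit 189)) (XT.lf (nat_lit 76) (nat_lit 2148580168) (nat_lit 0) (nat_lit 4820402686) (nat_lit 1292) (nat_lit 14729678044) (nat_lit 217) (nat_lit 5) (nat_lit 216) (nat_lit 5) (nat_lit 233) (nat_lit 5) (nat_lit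 364) (nat_lit 348) (nat_lit 188)))) (XT.nd (nat_lit 78) (nat_lit 988) (nat_lit 0) (XT.lf (nat_lit 0) (nat_lit 8765635027) (nat_lit 1216) (nat_lit 8747301110) (nat_lit 76) (nat_lit 4536619793) (nat_lit 217) (nat_lit 5) (nat_lit 233) (nat_lit 5) (nat_lit 218) (nat_lit 5) (nat_lit 365) (nat_lit 348) (nat_lit 187)) (XT.nd (nat_lit 78) (nat_lit 0) (nat_lit 0) (XT.lf (nat_lit 0) (nat_lit 2373241243) (nat_lit 988) (nat_lit 8307866031) (nat_lit 1064) (nat_lit 11727926995) (nat_lit 204) (nat_lit 5) (nat_lit 217) (nat_lit 5) (nat_lit 218) (nat_lit 5) (nat_lit 366) (nat_lit 348) (nat_lit 186)) (XT.lf (nat_lit 0) (nat_lit 12749031757) (nat_lit 1064) (nat_lit 8787121183) (nat_lit 76) (nat_lit 1240298329) (nat_lit 204) (nat_lit 5) (nat_lit 218) (nat_lit 5) (nat_lit 205) (nat_lit 5) (nat_lit 367) (nat_lit 348) (nat_lit 185))))) (XT.nd (nat_lit 234) (nat_lit 1216) (nat_lit 0) (XT.nd (nat_lit 78) (nat_lit 532) (nat_lit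 0) (XT.lf (nat_lit 0) (nat_lit 2765841260) (nat_lit 608) (nat_lit 12216659754) (nat_lit 684) (nat_lit 8169288393) (nat_lit 196) (nat_lit 5) (nat_lit 204) (nat_lit 5) (nat_lit 205) (nat_lit 5) (nat_lit 368) (nat_lit 348) (nat_lit 184)) (XT.nd (nat_lit 78) (nat_lit 532) (nat_lit 0) (XT.lf (nat_lit 0) (nat_lit 14840682858) (nat_lit 608) (nat_lit 2525797086) (nat_lit 684) (nat_lit 6169406302) (nat_lit 196) (nat_lit 5) (nat_lit 204) (nat_lit 5) (nat_lit 205) (nat_lit 5) (nat_lit 369) (nat_lit 348) (nat_lit 183)) (XT.lf (nat_lit 0) (nat_lit 3334812583) (nat_lit 532) (nat_lit 16585820334) (nat_lit 608) (nat_lit 4007917050) (nat_lit 189) (nat_lit 5) (nat_lit 196) (nat_lit 5) (nat_lit 197) (nat_lit 5) (nat_lit 370) (nat_lit 348) (nat_lit 182)))) (XT.nd (nat_lit 156) (nat_lit 532) (nat_lit 0) (XT.nd (nat_lit 78) (nat_lit 684) (nat_lit 0) (XT.lf (nat_lit 0) (nat_lit 15873658482) (nat_lit 532) (nat_lit 6785349494)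 (nat_lit 608) (nat_lit 1670761213) (nat_lit 189) (nat_lit 5) (nat_lit 196) (nat_lit 5) (nat_lit 197) (nat_lit 5) (nat_lit 371) (nat_lit 348) (nat_lit 181)) (XT.lf (nat_lit 0) (nat_lit 789080404) (nat_lit 684) (nat_lit 20659970856) (nat_lit 76) (nat_lit 3291756351) (nat_lit 180) (nat_lit 5) (nat_lit 189) (nat_lit 5) (nat_lit 181) (nat_lit 5) (nat_lit 372) (nat_lit 348) (nat_lit 180))) (XT.nd (nat_lit 78) (nat_lit 532) (nat_lit 0) (XT.lf (nat_lit 0) (nat_lit 3437774986) (nat_lit 684) (nat_lit 8083818993) (nat_lit 76) (nat_lit 13637631006) (nat_lit 180) (nat_lit 5) (nat_lit 189) (nat_lit 5) (nat_lit 181) (nat_lit 5) (nat_lit 373) (nat_lit 348) (nat_lit 179)) (XT.lf (nat_lit 0) (nat_lit 4961711276) (nat_lit 532) (nat_lit 1247274422) (nat_lit 608) (nat_lit 19379920643) (nat_lit 173) (nat_lit 5) (nat_lit 180) (nat_lit 5) (nat_lit 181) (nat_lit 5) (nat_lit 374) (nat_lit 348) (nat_lit 178)))))) (XT.nd (nat_lit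 546) (nat_lit 1748) (nat_lit 0) (XT.nd (nat_lit 234) (nat_lit 988) (nat_lit 0) (XT.nd (nat_lit 78) (nat_lit 532) (nat_lit 0) (XT.lf (nat_lit 0) (nat_lit 9230957223) (nat_lit 608) (nat_lit 7560074916) (nat_lit 76) (nat_lit 9235420294) (nat_lit 173) (nat_lit 5) (nat_lit 181) (nat_lit 5) (nat_lit 174) (nat_lit 5) (nat_lit 375) (nat_lit 348) (nat_lit 177)) (XT.nd (nat_lit 78) (nat_lit 0) (nat_lit 0) (XT.lf (nat_lit 0) (nat_lit 5999094974) (nat_lit 532) (nat_lit 6410090864) (nat_lit 608) (nat_lit 14065974073) (nat_lit 166) (nat_lit 5) (nat_lit 173) (nat_lit 5) (nat_lit 174) (nat_lit 5) (nat_lit 376) (nat_lit 348) (nat_lit 176)) (XT.lf (nat_lit 0) (nat_lit 15796685994) (nat_lit 608) (nat_lit 6861706717) (nat_lit 76) (nat_lit 4275521016) (nat_lit 166) (nat_lit 5) (nat_lit 174) (nat_lit 5) (nat_lit 167) (nat_lit 5) (nat_lit 377) (nat_lit 348) (nat_lit 175)))) (XT.nd (nat_lit 156) (nat_lit 532) (nat_lit 0) (XT.nd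 (nat_lit 78) (nat_lit 0) (nat_lit 0) (XT.lf (nat_lit 0) (nat_lit 7234156466) (nat_lit 456) (nat_lit 12180449399) (nat_lit 532) (nat_lit 7987963225) (nat_lit 160) (nat_lit 5) (nat_lit 166) (nat_lit 5) (nat_lit 167) (nat_lit 5) (nat_lit 378) (nat_lit 348) (nat_lit 174)) (XT.lf (nat_lit 0) (nat_lit 21888975155) (nat_lit 456) (nat_lit 1317245917) (nat_lit 532) (nat_lit 4677111002) (nat_lit 160) (nat_lit 5) (nat_lit 166) (nat_lit 5) (nat_lit 167) (nat_lit 5) (nat_lit 379) (nat_lit 348) (nat_lit 173))) (XT.nd (nat_lit 78) (nat_lit 76) (nat_lit 0) (XT.lf (nat_lit 0) (nat_lit 8674737442) (nat_lit 456) (nat_lit 18611112611) (nat_lit 532) (nat_lit 1087442548) (nat_lit 154) (nat_lit 5) (nat_lit 160) (nat_lit 5) (nat_lit 161) (nat_lit 5) (nat_lit 380) (nat_lit 348) (nat_lit 172)) (XT.lf (nat_lit 0) (nat_lit 2629175848) (nat_lit 532) (nat_lit 5012683490) (nat_lit 76) (nat_lit 21233236763) (nat_lit 153) (nat_lit 5)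 (nat_lit 160) (nat_lit 5) (nat_lit 154) (nat_lit 5) (nat_lit 381) (nat_lit 348) (nat_lit 171))))) (XT.nd (nat_lit 234) (nat_lit 836) (nat_lit 0) (XT.nd (nat_lit 78) (nat_lit 456) (nat_lit 0) (XT.lf (nat_lit 0) (nat_lit 6566802988) (nat_lit 532) (nat_lit 19125497260) (nat_lit 76) (nat_lit 3695391847) (nat_lit 147) (nat_lit 5) (nat_lit 154) (nat_lit 5) (nat_lit 148) (nat_lit 5) (nat_lit 382) (nat_lit 348) (nat_lit 170)) (XT.nd (nat_lit 78) (nat_lit 456) (nat_lit 0) (XT.lf (nat_lit 0) (nat_lit 10745536659) (nat_lit 532) (nat_lit 3896769480) (nat_lit 76) (nat_lit 15269672819) (nat_lit 147) (nat_lit 5) (nat_lit 154) (nat_lit 5) (nat_lit 148) (nat_lit 5) (nat_lit 383) (nat_lit 348) (nat_lit 169)) (XT.lf (nat_lit 0) (nat_lit 12018951689) (nat_lit 456) (nat_lit 3142521253) (nat_lit 532) (nat_lit 15287168521) (nat_lit 141) (nat_lit 5) (nat_lit 147) (nat_lit 5) (nat_lit 148) (nat_lit 5) (nat_lit 384) (nat_lit 348)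 (nat_lit 168)))) (XT.nd (nat_lit 156) (nat_lit 456) (nat_lit 0) (XT.nd (nat_lit 78) (nat_lit 380) (nat_lit 0) (XT.lf (nat_lit 0) (nat_lit 19829643790) (nat_lit 532) (nat_lit 2596702231) (nat_lit 76) (nat_lit 8571467317) (nat_lit 141) (nat_lit 5) (nat_lit 148) (nat_lit 5) (nat_lit 142) (nat_lit 5) (nat_lit 385) (nat_lit 348) (nat_lit 167)) (XT.lf (nat_lit 0) (nat_lit 13948004331) (nat_lit 380) (nat_lit 10851517830) (nat_lit 456) (nat_lit 6759090461) (nat_lit 136) (nat_lit 5) (nat_lit 141) (nat_lit 5) (nat_lit 142) (nat_lit 5) (nat_lit 386) (nat_lit 348) (nat_lit 166))) (XT.nd (nat_lit 78) (nat_lit 456) (nat_lit 0) (XT.lf (nat_lit 0) (nat_lit 29951794136) (nat_lit 456) (nat_lit 1108105769) (nat_lit 76) (nat_lit 1075339126) (nat_lit 136) (nat_lit 5) (nat_lit 142) (nat_lit 5) (nat_lit 137) (nat_lit 5) (nat_lit 387) (nat_lit 348) (nat_lit 165)) (XT.lf (nat_lit 0) (nat_lit 2741422099) (nat_lit 456) (nat_lit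 16656500967) (nat_lit 76) (nat_lit 13322674331) (nat_lit 130) (nat_lit 5) (nat_lit 136) (nat_lit 5) (nat_lit 131) (nat_lit 5) (nat_lit 388) (nat_lit 348) (nat_lit 164))))))))
noncomputable def xc211 : XT := (XT.nd (nat_lit 2028) (nat_lit 1900) (nat_lit 0) (XT.nd (nat_lit 1014) (nat_lit 1672) (nat_lit 0) (XT.nd (nat_lit 468) (nat_lit 1368) (nat_lit 0) (XT.nd (nat_lit 234) (nat_lit 380) (nat_lit 0) (XT.nd (nat_lit 78) (nat_lit 380) (nat_lit 0) (XT.lf (nat_lit 0) (nat_lit 433440870) (nat_lit 380) (nat_lit 7348825515) (nat_lit 456) (nat_lit 25540239979) (nat_lit 125) (nat_lit 5) (nat_lit 130) (nat_lit 5) (nat_lit 131) (nat_lit 5) (nat_lit 389) (nat_lit 348) (nat_lit 163)) (XT.nd (nat_lit 78) (nat_lit 380) (nat_lit 0) (XT.lf (nat_lit 0) (nat_lit 13189552938) (nat_lit 456) (nat_lit 15614562168) (nat_lit 76) (nat_lit 5131902818) (nat_lit 125) (nat_lit 5) (nat_lit 131) (nat_lit 5) (nat_lit 126) (nat_lit 5) (nat_lit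 390) (nat_lit 348) (nat_lit 162)) (XT.lf (nat_lit 0) (nat_lit 2143023525) (nat_lit 380) (nat_lit 16706188488) (nat_lit 456) (nat_lit 15716019981) (nat_lit 120) (nat_lit 5) (nat_lit 125) (nat_lit 5) (nat_lit 126) (nat_lit 5) (nat_lit 391) (nat_lit 348) (nat_lit 161)))) (XT.nd (nat_lit 78) (nat_lit 380) (nat_lit 0) (XT.lf (nat_lit 0) (nat_lit 20749251093) (nat_lit 380) (nat_lit 4083932780) (nat_lit 456) (nat_lit 10375504650) (nat_lit 120) (nat_lit 5) (nat_lit 125) (nat_lit 5) (nat_lit 126) (nat_lit 5) (nat_lit 392) (nat_lit 348) (nat_lit 160)) (XT.nd (nat_lit 78) (nat_lit 76) (nat_lit 0) (XT.lf (nat_lit 0) (nat_lit 4031029538) (nat_lit 304) (nat_lit 27087038564) (nat_lit 380) (nat_lit 4749740527) (nat_lit 116) (nat_lit 5) (nat_lit 120) (nat_lit 5) (nat_lit 121) (nat_lit 5) (nat_lit 393) (nat_lit 348) (nat_lit 159)) (XT.lf (nat_lit 0) (nat_lit 1209248922) (nat_lit 380) (nat_lit 13225784399) (nat_lit 76) (nat_lit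 22105824097) (nat_lit 115) (nat_lit 5) (nat_lit 120) (nat_lit 5) (nat_lit 116) (nat_lit 5) (nat_lit 394) (nat_lit 348) (nat_lit 158))))) (XT.nd (nat_lit 234) (nat_lit 684) (nat_lit 0) (XT.nd (nat_lit 78) (nat_lit 304) (nat_lit 0) (XT.lf (nat_lit 0) (nat_lit 6009752525) (nat_lit 380) (nat_lit 1296596310) (nat_lit 456) (nat_lit 29924695380) (nat_lit 110) (nat_lit 5) (nat_lit 115) (nat_lit 5) (nat_lit 116) (nat_lit 5) (nat_lit 395) (nat_lit 348) (nat_lit 157)) (XT.nd (nat_lit 78) (nat_lit 304) (nat_lit 0) (XT.lf (nat_lit 0) (nat_lit 13835932442) (nat_lit 456) (nat_lit 11967472453) (nat_lit 76) (nat_lit 12131046092) (nat_lit 110) (nat_lit 5) (nat_lit 116) (nat_lit 5) (nat_lit 111) (nat_lit 5) (nat_lit 396) (nat_lit 348) (nat_lit 156)) (XT.lf (nat_lit 0) (nat_lit 8003344985) (nat_lit 304) (nat_lit 12644988454) (nat_lit 380) (nat_lit 18008020072) (nat_lit 106) (nat_lit 5) (nat_lit 110) (nat_lit 5) (nat_lit 111)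 (nat_lit 5) (nat_lit 397) (nat_lit 348) (nat_lit 155)))) (XT.nd (nat_lit 156) (nat_lit 380) (nat_lit 0) (XT.nd (nat_lit 78) (nat_lit 304) (nat_lit 0) (XT.lf (nat_lit 0) (nat_lit 27793074587) (nat_lit 380) (nat_lit 10591594419) (nat_lit 76) (nat_lit 1011406468) (nat_lit 106) (nat_lit 5) (nat_lit 111) (nat_lit 5) (nat_lit 107) (nat_lit 5) (nat_lit 398) (nat_lit 348) (nat_lit 154)) (XT.lf (nat_lit 0) (nat_lit 10140468807) (nat_lit 304) (nat_lit 25231638807) (nat_lit 380) (nat_lit 4779284355) (nat_lit 102) (nat_lit 5) (nat_lit 106) (nat_lit 5) (nat_lit 107) (nat_lit 5) (nat_lit 399) (nat_lit 348) (nat_lit 153))) (XT.nd (nat_lit 78) (nat_lit 304) (nat_lit 0) (XT.lf (nat_lit 0) (nat_lit 2310558064) (nat_lit 380) (nat_lit 9241116922) (nat_lit 76) (nat_lit 29373886555) (nat_lit 101) (nat_lit 5) (nat_lit 106) (nat_lit 5) (nat_lit 102) (nat_lit 5) (nat_lit 400) (nat_lit 348) (nat_lit 152)) (XT.lf (nat_lit 0) (nat_lit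 9659075510) (nat_lit 380) (nat_lit 29402578452) (nat_lit 76) (nat_lit 2655622739) (nat_lit 97) (nat_lit 5) (nat_lit 102) (nat_lit 5) (nat_lit 98) (nat_lit 5) (nat_lit 401) (nat_lit 348) (nat_lit 151)))))) (XT.nd (nat_lit 468) (nat_lit 760) (nat_lit 0) (XT.nd (nat_lit 234) (nat_lit 608) (nat_lit 0) (XT.nd (nat_lit 78) (nat_lit 304) (nat_lit 0) (XT.lf (nat_lit 0) (nat_lit 17434061162) (nat_lit 380) (nat_lit 7942426326) (nat_lit 76) (nat_lit 17150076659) (nat_lit 97) (nat_lit 5) (nat_lit 102) (nat_lit 5) (nat_lit 98) (nat_lit 5) (nat_lit 402) (nat_lit 348) (nat_lit 150)) (XT.nd (nat_lit 78) (nat_lit 0) (nat_lit 0) (XT.lf (nat_lit 0) (nat_lit 14439602625) (nat_lit 304) (nat_lit 11138970393) (nat_lit 380) (nat_lit 17777470076) (nat_lit 93) (nat_lit 5) (nat_lit 97) (nat_lit 5) (nat_lit 98) (nat_lit 5) (nat_lit 403) (nat_lit 348) (nat_lit 149)) (XT.lf (nat_lit 0) (nat_lit 34079809615) (nat_lit 380) (nat_lit 6590505572)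 (nat_lit 76) (nat_lit 3536720682) (nat_lit 93) (nat_lit 5) (nat_lit 98) (nat_lit 5) (nat_lit 94) (nat_lit 5) (nat_lit 404) (nat_lit 348) (nat_lit 148)))) (XT.nd (nat_lit 78) (nat_lit 380) (nat_lit 0) (XT.lf (nat_lit 0) (nat_lit 16615533280) (nat_lit 228) (nat_lit 26488129754) (nat_lit 304) (nat_lit 1971869111) (nat_lit 90) (nat_lit 5) (nat_lit 93) (nat_lit 5) (nat_lit 94) (nat_lit 5) (nat_lit 405) (nat_lit 348) (nat_lit 147)) (XT.nd (nat_lit 78) (nat_lit 304) (nat_lit 0) (XT.lf (nat_lit 0) (nat_lit 6367508255) (nat_lit 304) (nat_lit 5381314593) (nat_lit 76) (nat_lit 34217463893) (nat_lit 89) (nat_lit 5) (nat_lit 93) (nat_lit 5) (nat_lit 90) (nat_lit 5) (nat_lit 406) (nat_lit 348) (nat_lit 146)) (XT.lf (nat_lit 0) (nat_lit 15130117542) (nat_lit 380) (nat_lit 28180593611) (nat_lit 76) (nat_lit 3566087637) (nat_lit 85) (nat_lit 5) (nat_lit 90) (nat_lit 5) (nat_lit 86) (nat_lit 5) (nat_lit 407) (nat_lit 348)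 (nat_lit 145))))) (XT.nd (nat_lit 234) (nat_lit 532) (nat_lit 0) (XT.nd (nat_lit 78) (nat_lit 228) (nat_lit 0) (XT.lf (nat_lit 0) (nat_lit 24324488278) (nat_lit 380) (nat_lit 4327045206) (nat_lit 76) (nat_lit 19158027206) (nat_lit 85) (nat_lit 5) (nat_lit 90) (nat_lit 5) (nat_lit 86) (nat_lit 5) (nat_lit 408) (nat_lit 348) (nat_lit 144)) (XT.nd (nat_lit 78) (nat_lit 0) (nat_lit 0) (XT.lf (nat_lit 0) (nat_lit 20641453668) (nat_lit 228) (nat_lit 13349401773) (nat_lit 304) (nat_lit 14773566002) (nat_lit 82) (nat_lit 5) (nat_lit 85) (nat_lit 5) (nat_lit 86) (nat_lit 5) (nat_lit 409) (nat_lit 348) (nat_lit 143)) (XT.lf (nat_lit 0) (nat_lit 44012292957) (nat_lit 304) (nat_lit 3325993143) (nat_lit 76) (nat_lit 2407690469) (nat_lit 82) (nat_lit 5) (nat_lit 86) (nat_lit 5) (nat_lit 83) (nat_lit 5) (nat_lit 410) (nat_lit 348) (nat_lit 142)))) (XT.nd (nat_lit 156) (nat_lit 228) (nat_lit 0) (XT.nd (nat_lit 78) (nat_lit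 0) (nat_lit 0) (XT.lf (nat_lit 0) (nat_lit 3857486826) (nat_lit 304) (nat_lit 28265629224) (nat_lit 76) (nat_lit 18622334547) (nat_lit 78) (nat_lit 5) (nat_lit 82) (nat_lit 5) (nat_lit 79) (nat_lit 5) (nat_lit 411) (nat_lit 348) (nat_lit 141)) (XT.lf (nat_lit 0) (nat_lit 13652912022) (nat_lit 304) (nat_lit 2706390211) (nat_lit 76) (nat_lit 35412951558) (nat_lit 78) (nat_lit 5) (nat_lit 82) (nat_lit 5) (nat_lit 79) (nat_lit 5) (nat_lit 412) (nat_lit 348) (nat_lit 140))) (XT.nd (nat_lit 78) (nat_lit 0) (nat_lit 0) (XT.lf (nat_lit 0) (nat_lit 23972740859) (nat_lit 304) (nat_lit 28737722768) (nat_lit 76) (nat_lit 112482053) (nat_lit 75) (nat_lit 5) (nat_lit 79) (nat_lit 5) (nat_lit 76) (nat_lit 5) (nat_lit 413) (nat_lit 348) (nat_lit 139)) (XT.lf (nat_lit 0) (nat_lit 34789661416) (nat_lit 304) (nat_lit 2333817616) (nat_lit 76) (nat_lit 16776055189) (nat_lit 75) (nat_lit 5) (nat_lit 79) (nat_lit 5) (nat_lit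 76) (nat_lit 5) (nat_lit 414) (nat_lit 348) (nat_lit 138))))))) (XT.nd (nat_lit 1014) (nat_lit 304) (nat_lit 0) (XT.nd (nat_lit 468) (nat_lit 836) (nat_lit 0) (XT.nd (nat_lit 234) (nat_lit 228) (nat_lit 0) (XT.nd (nat_lit 78) (nat_lit 304) (nat_lit 0) (XT.lf (nat_lit 0) (nat_lit 25353745578) (nat_lit 228) (nat_lit 20819043943) (nat_lit 304) (nat_lit 8828380677) (nat_lit 72) (nat_lit 5) (nat_lit 75) (nat_lit 5) (nat_lit 76) (nat_lit 5) (nat_lit 415) (nat_lit 348) (nat_lit 137)) (XT.nd (nat_lit 78) (nat_lit 228) (nat_lit 0) (XT.lf (nat_lit 0) (nat_lit 1748974259) (nat_lit 304) (nat_lit 2235749407) (nat_lit 76) (nat_lit 52149970556) (nat_lit 71) (nat_lit 5) (nat_lit 75) (nat_lit 5) (nat_lit 72) (nat_lit 5) (nat_lit 416) (nat_lit 348) (nat_lit 136)) (XT.lf (nat_lit 0) (nat_lit 12849998064) (nat_lit 304) (nat_lit 31000419253) (nat_lit 76) (nat_lit 13437671373) (nat_lit 68) (nat_lit 5) (nat_lit 72) (nat_lit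 5) (nat_lit 69) (nat_lit 5) (nat_lit 417) (nat_lit 348) (nat_lit 135)))) (XT.nd (nat_lit 78) (nat_lit 228) (nat_lit 0) (XT.lf (nat_lit 0) (nat_lit 24344371936) (nat_lit 304) (nat_lit 2805596790) (nat_lit 76) (nat_lit 31324307377) (nat_lit 68) (nat_lit 5) (nat_lit 72) (nat_lit 5) (nat_lit 69) (nat_lit 5) (nat_lit 418) (nat_lit 348) (nat_lit 134)) (XT.nd (nat_lit 78) (nat_lit 0) (nat_lit 0) (XT.lf (nat_lit 0) (nat_lit 26754096040) (nat_lit 228) (nat_lit 9684780464) (nat_lit 304) (nat_lit 23249514320) (nat_lit 65) (nat_lit 5) (nat_lit 68) (nat_lit 5) (nat_lit 69) (nat_lit 5) (nat_lit 419) (nat_lit 348) (nat_lit 133)) (XT.lf (nat_lit 0) (nat_lit 49002791653) (nat_lit 304) (nat_lit 3763152825) (nat_lit 76) (nat_lit 8169787897) (nat_lit 65) (nat_lit 5) (nat_lit 69) (nat_lit 5) (nat_lit 66) (nat_lit 5) (nat_lit 420) (nat_lit 348) (nat_lit 132))))) (XT.nd (nat_lit 234) (nat_lit 380) (nat_lit 0) (XT.nd (nat_lit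 78) (nat_lit 228) (nat_lit 0) (XT.lf (nat_lit 0) (nat_lit 82794291) (nat_lit 228) (nat_lit 35505399352) (nat_lit 76) (nat_lit 26621753143) (nat_lit 62) (nat_lit 5) (nat_lit 65) (nat_lit 5) (nat_lit 63) (nat_lit 5) (nat_lit 421) (nat_lit 348) (nat_lit 131)) (XT.nd (nat_lit 78) (nat_lit 228) (nat_lit 0) (XT.lf (nat_lit 0) (nat_lit 12255735456) (nat_lit 228) (nat_lit 5479328701) (nat_lit 76) (nat_lit 45782682397) (nat_lit 62) (nat_lit 5) (nat_lit 65) (nat_lit 5) (nat_lit 63) (nat_lit 5) (nat_lit 422) (nat_lit 348) (nat_lit 130)) (XT.lf (nat_lit 0) (nat_lit 25050314524) (nat_lit 304) (nat_lit 38915059644) (nat_lit 76) (nat_lit 891713237) (nat_lit 59) (nat_lit 5) (nat_lit 63) (nat_lit 5) (nat_lit 60) (nat_lit 5) (nat_lit 423) (nat_lit 348) (nat_lit 129)))) (XT.nd (nat_lit 156) (nat_lit 228) (nat_lit 0) (XT.nd (nat_lit 78) (nat_lit 152) (nat_lit 0) (XT.lf (nat_lit 0) (nat_lit 38458466691) (nat_lit 304) (nat_lit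 7995648277) (nat_lit 76) (nat_lit 19775602003) (nat_lit 59) (nat_lit 5) (nat_lit 63) (nat_lit 5) (nat_lit 60) (nat_lit 5) (nat_lit 424) (nat_lit 348) (nat_lit 128)) (XT.lf (nat_lit 0) (nat_lit 24323159459) (nat_lit 152) (nat_lit 28177826382) (nat_lit 228) (nat_lit 15135576458) (nat_lit 57) (nat_lit 5) (nat_lit 59) (nat_lit 5) (nat_lit 60) (nat_lit 5) (nat_lit 425) (nat_lit 348) (nat_lit 127))) (XT.nd (nat_lit 78) (nat_lit 228) (nat_lit 0) (XT.lf (nat_lit 0) (nat_lit 57772643589) (nat_lit 152) (nat_lit 9271212975) (nat_lit 228) (nat_lit 2039384670) (nat_lit 57) (nat_lit 5) (nat_lit 59) (nat_lit 5) (nat_lit 60) (nat_lit 5) (nat_lit 426) (nat_lit 348) (nat_lit 126)) (XT.lf (nat_lit 0) (nat_lit 11537050648) (nat_lit 228) (nat_lit 48696810696) (nat_lit 76) (nat_lit 10326834375) (nat_lit 54) (nat_lit 5) (nat_lit 57) (nat_lit 5) (nat_lit 55) (nat_lit 5) (nat_lit 427) (nat_lit 348) (nat_lit 125)))))) (XT.nd (nat_lit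 40950) (nat_lit 0) (nat_lit 13452) (XT.nd (nat_lit 234) (nat_lit 152) (nat_lit 0) (XT.nd (nat_lit 78) (nat_lit 152) (nat_lit 0) (XT.lf (nat_lit 0) (nat_lit 25685307726) (nat_lit 228) (nat_lit 15929459810) (nat_lit 76) (nat_lit 30460935478) (nat_lit 54) (nat_lit 5) (nat_lit 57) (nat_lit 5) (nat_lit 55) (nat_lit 5) (nat_lit 428) (nat_lit 348) (nat_lit 124)) (XT.nd (nat_lit 78) (nat_lit 0) (nat_lit 0) (XT.lf (nat_lit 0) (nat_lit 18172855884) (nat_lit 152) (nat_lit 22258270897) (nat_lit 228) (nat_lit 33199840791) (nat_lit 52) (nat_lit 5) (nat_lit 54) (nat_lit 5) (nat_lit 55) (nat_lit 5) (nat_lit 429) (nat_lit 348) (nat_lit 123)) (XT.lf (nat_lit 0) (nat_lit 53622131980) (nat_lit 152) (nat_lit 2156490800) (nat_lit 228) (nat_lit 19449488673) (nat_lit 52) (nat_lit 5) (nat_lit 54) (nat_lit 5) (nat_lit 55) (nat_lit 5) (nat_lit 430) (nat_lit 348) (nat_lit 122)))) (XT.nd (nat_lit 40560) (nat_lit 0) (nat_lit 13376)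 (XT.nd (nat_lit 40482) (nat_lit 0) (nat_lit 13376) (XT.lf (nat_lit 0) (nat_lit 13341146747) (nat_lit 152) (nat_lit 58550419311) (nat_lit 228) (nat_lit 4972453363) (nat_lit 50) (nat_lit 5) (nat_lit 52) (nat_lit 5) (nat_lit 53) (nat_lit 5) (nat_lit 431) (nat_lit 348) (nat_lit 121)) (XT.lf (nat_lit 0) (nat_lit 2841711183) (nat_lit 0) (nat_lit 2841711183) (nat_lit 1140) (nat_lit 3069998111) (nat_lit 226) (nat_lit 5) (nat_lit 226) (nat_lit 3) (nat_lit 241) (nat_lit 3) (nat_lit 349) (nat_lit 349) (nat_lit 202))) (XT.nd (nat_lit 78) (nat_lit 0) (nat_lit 0) (XT.lf (nat_lit 0) (nat_lit 11769948103) (nat_lit 1140) (nat_lit 3636939251) (nat_lit 1216) (nat_lit 2355415655) (nat_lit 226) (nat_lit 5) (nat_lit 241) (nat_lit 3) (nat_lit 242) (nat_lit 5) (nat_lit 350) (nat_lit 349) (nat_lit 201)) (XT.lf (nat_lit 76) (nat_lit 4828709266) (nat_lit 0) (nat_lit 7450986098) (nat_lit 1216) (nat_lit 5742903383) (nat_lit 227) (nat_lit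 5) (nat_lit 226) (nat_lit 5) (nat_lit 242) (nat_lit 5) (nat_lit 351) (nat_lit 349) (nat_lit 200))))) (XT.nd (nat_lit 234) (nat_lit 0) (nat_lit 76) (XT.nd (nat_lit 78) (nat_lit 0) (nat_lit 0) (XT.lf (nat_lit 0) (nat_lit 12841065239) (nat_lit 1140) (nat_lit 4678847479) (nat_lit 1216) (nat_lit 769706890) (nat_lit 227) (nat_lit 5) (nat_lit 242) (nat_lit 5) (nat_lit 243) (nat_lit 5) (nat_lit 352) (nat_lit 349) (nat_lit 199)) (XT.nd (nat_lit 78) (nat_lit 0) (nat_lit 0) (XT.lf (nat_lit 76) (nat_lit 4093267112) (nat_lit 0) (nat_lit 9431451289) (nat_lit 1216) (nat_lit 5036775408) (nat_lit 228) (nat_lit 5) (nat_lit 227) (nat_lit 5) (nat_lit 243) (nat_lit 5) (nat_lit 353) (nat_lit 349) (nat_lit 198)) (XT.lf (nat_lit 76) (nat_lit 13220019942) (nat_lit 0) (nat_lit 1048612414) (nat_lit 1216) (nat_lit 4571705148) (nat_lit 228) (nat_lit 5) (nat_lit 227) (nat_lit 5) (nat_lit 243) (nat_lit 5) (nat_lit 354) (nat_lit 349)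 (nat_lit 197)))) (XT.nd (nat_lit 156) (nat_lit 0) (nat_lit 76) (XT.nd (nat_lit 78) (nat_lit 0) (nat_lit 0) (XT.lf (nat_lit 76) (nat_lit 3483526221) (nat_lit 0) (nat_lit 11650492687) (nat_lit 1216) (nat_lit 3990558585) (nat_lit 229) (nat_lit 5) (nat_lit 228) (nat_lit 5) (nat_lit 244) (nat_lit 5) (nat_lit 355) (nat_lit 349) (nat_lit 196)) (XT.lf (nat_lit 76) (nat_lit 12960591830) (nat_lit 0) (nat_lit 3124728549) (nat_lit 1216) (nat_lit 3330231172) (nat_lit 229) (nat_lit 5) (nat_lit 228) (nat_lit 5) (nat_lit 244) (nat_lit 5) (nat_lit 356) (nat_lit 349) (nat_lit 195))) (XT.nd (nat_lit 78) (nat_lit 0) (nat_lit 0) (XT.lf (nat_lit 76) (nat_lit 3006383695) (nat_lit 0) (nat_lit 14135201927) (nat_lit 1216) (nat_lit 2571381781) (nat_lit 230) (nat_lit 5) (nat_lit 229) (nat_lit 5) (nat_lit 245) (nat_lit 5) (nat_lit 357) (nat_lit 349) (nat_lit 194)) (XT.lf (nat_lit 76) (nat_lit 12847759870) (nat_lit 0) (nat_lit 5470900384)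 (nat_lit 1216) (nat_lit 1697976991) (nat_lit 230) (nat_lit 5) (nat_lit 229) (nat_lit 5) (nat_lit 245) (nat_lit 5) (nat_lit 358) (nat_lit 349) (nat_lit 193))))))))
noncomputable def xc212 : XT := (XT.nd (nat_lit 2028) (nat_lit 4940) (nat_lit 0) (XT.nd (nat_lit 1014) (nat_lit 3192) (nat_lit 0) (XT.nd (nat_lit 468) (nat_lit 1900) (nat_lit 0) (XT.nd (nat_lit 234) (nat_lit 0) (nat_lit 76) (XT.nd (nat_lit 78) (nat_lit 1216) (nat_lit 0) (XT.lf (nat_lit 76) (nat_lit 2669189268) (nat_lit 0) (nat_lit 16914230476) (nat_lit 1216) (nat_lit 744431268) (nat_lit 231) (nat_lit 5) (nat_lit 230) (nat_lit 5) (nat_lit 246) (nat_lit 5) (nat_lit 359) (nat_lit 349) (nat_lit 192)) (XT.nd (nat_lit 78) (nat_lit 0) (nat_lit 76) (XT.lf (nat_lit 0) (nat_lit 353953831) (nat_lit 1216) (nat_lit 7758793097) (nat_lit 1292) (nat_lit 12531964276) (nat_lit 214) (nat_lit 5) (nat_lit 230) (nat_lit 5) (nat_lit 231) (nat_lit 5) (nat_lit 360) (nat_lit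 349) (nat_lit 191)) (XT.lf (nat_lit 0) (nat_lit 1497378648) (nat_lit 1216) (nat_lit 18505440348) (nat_lit 1292) (nat_lit 967230156) (nat_lit 215) (nat_lit 5) (nat_lit 231) (nat_lit 5) (nat_lit 232) (nat_lit 5) (nat_lit 361) (nat_lit 349) (nat_lit 190)))) (XT.nd (nat_lit 78) (nat_lit 0) (nat_lit 0) (XT.lf (nat_lit 0) (nat_lit 2828489187) (nat_lit 1216) (nat_lit 8234901617) (nat_lit 1292) (nat_lit 10237159394) (nat_lit 215) (nat_lit 5) (nat_lit 231) (nat_lit 5) (nat_lit 232) (nat_lit 5) (nat_lit 362) (nat_lit 349) (nat_lit 189)) (XT.nd (nat_lit 78) (nat_lit 0) (nat_lit 76) (XT.lf (nat_lit 76) (nat_lit 2385679982) (nat_lit 0) (nat_lit 1830896766) (nat_lit 1292) (nat_lit 17423882535) (nat_lit 216) (nat_lit 5) (nat_lit 215) (nat_lit 5) (nat_lit 232) (nat_lit 5) (nat_lit 363) (nat_lit 349) (nat_lit 188)) (XT.lf (nat_lit 0) (nat_lit 5798347682) (nat_lit 1216) (nat_lit 8573788501) (nat_lit 1292) (nat_lit 7613872430)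 (nat_lit 216) (nat_lit 5) (nat_lit 232) (nat_lit 5) (nat_lit 233) (nat_lit 5) (nat_lit 364) (nat_lit 349) (nat_lit 187))))) (XT.nd (nat_lit 234) (nat_lit 1140) (nat_lit 0) (XT.nd (nat_lit 78) (nat_lit 912) (nat_lit 0) (XT.lf (nat_lit 76) (nat_lit 2452735426) (nat_lit 0) (nat_lit 5010958601) (nat_lit 1292) (nat_lit 14877150799) (nat_lit 217) (nat_lit 5) (nat_lit 216) (nat_lit 5) (nat_lit 233) (nat_lit 5) (nat_lit 365) (nat_lit 349) (nat_lit 186)) (XT.nd (nat_lit 78) (nat_lit 988) (nat_lit 0) (XT.lf (nat_lit 0) (nat_lit 9305497328) (nat_lit 1216) (nat_lit 8768054714) (nat_lit 76) (nat_lit 4628983139) (nat_lit 217) (nat_lit 5) (nat_lit 233) (nat_lit 5) (nat_lit 218) (nat_lit 5) (nat_lit 366) (nat_lit 349) (nat_lit 185)) (XT.lf (nat_lit 0) (nat_lit 2683734641) (nat_lit 988) (nat_lit 8588934510) (nat_lit 1064) (nat_lit 11800307500) (nat_lit 204) (nat_lit 5) (nat_lit 217) (nat_lit 5) (nat_lit 218) (nat_lit 5)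 (nat_lit 367) (nat_lit 349) (nat_lit 184)))) (XT.nd (nat_lit 156) (nat_lit 532) (nat_lit 0) (XT.nd (nat_lit 78) (nat_lit 608) (nat_lit 0) (XT.lf (nat_lit 0) (nat_lit 13394437337) (nat_lit 1064) (nat_lit 8810025304) (nat_lit 76) (nat_lit 1247205014) (nat_lit 204) (nat_lit 5) (nat_lit 218) (nat_lit 5) (nat_lit 205) (nat_lit 5) (nat_lit 368) (nat_lit 349) (nat_lit 183)) (XT.lf (nat_lit 0) (nat_lit 3087166114) (nat_lit 608) (nat_lit 12602377429) (nat_lit 684) (nat_lit 8148888916) (nat_lit 196) (nat_lit 5) (nat_lit 204) (nat_lit 5) (nat_lit 205) (nat_lit 5) (nat_lit 369) (nat_lit 349) (nat_lit 182))) (XT.nd (nat_lit 78) (nat_lit 532) (nat_lit 0) (XT.lf (nat_lit 0) (nat_lit 15517310739) (nat_lit 608) (nat_lit 2620229137) (nat_lit 684) (nat_lit 6096742735) (nat_lit 196) (nat_lit 5) (nat_lit 204) (nat_lit 5) (nat_lit 205) (nat_lit 5) (nat_lit 370) (nat_lit 349) (nat_lit 181)) (XT.lf (nat_lit 0) (nat_lit 3671778178)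 (nat_lit 532) (nat_lit 17091359100) (nat_lit 608) (nat_lit 3875749562) (nat_lit 189) (nat_lit 5) (nat_lit 196) (nat_lit 5) (nat_lit 197) (nat_lit 5) (nat_lit 371) (nat_lit 349) (nat_lit 180)))))) (XT.nd (nat_lit 468) (nat_lit 1444) (nat_lit 0) (XT.nd (nat_lit 234) (nat_lit 1064) (nat_lit 0) (XT.nd (nat_lit 78) (nat_lit 684) (nat_lit 0) (XT.lf (nat_lit 0) (nat_lit 16579888835) (nat_lit 532) (nat_lit 6996642169) (nat_lit 608) (nat_lit 1475830652) (nat_lit 189) (nat_lit 5) (nat_lit 196) (nat_lit 5) (nat_lit 197) (nat_lit 5) (nat_lit 372) (nat_lit 349) (nat_lit 179)) (XT.nd (nat_lit 78) (nat_lit 0) (nat_lit 0) (XT.lf (nat_lit 0) (nat_lit 1048235254) (nat_lit 684) (nat_lit 21039856915) (nat_lit 76) (nat_lit 3387716818) (nat_lit 180) (nat_lit 5) (nat_lit 189) (nat_lit 5) (nat_lit 181) (nat_lit 5) (nat_lit 373) (nat_lit 349) (nat_lit 178)) (XT.lf (nat_lit 0) (nat_lit 3769531962) (nat_lit 684) (nat_lit 8093408255)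 (nat_lit 76) (nat_lit 14044049040) (nat_lit 180) (nat_lit 5) (nat_lit 189) (nat_lit 5) (nat_lit 181) (nat_lit 5) (nat_lit 374) (nat_lit 349) (nat_lit 177)))) (XT.nd (nat_lit 78) (nat_lit 532) (nat_lit 0) (XT.lf (nat_lit 0) (nat_lit 5341204340) (nat_lit 532) (nat_lit 1278232781) (nat_lit 608) (nat_lit 19730261667) (nat_lit 173) (nat_lit 5) (nat_lit 180) (nat_lit 5) (nat_lit 181) (nat_lit 5) (nat_lit 375) (nat_lit 349) (nat_lit 176)) (XT.nd (nat_lit 78) (nat_lit 532) (nat_lit 0) (XT.lf (nat_lit 0) (nat_lit 9725598511) (nat_lit 608) (nat_lit 7556338937) (nat_lit 76) (nat_lit 9518632241) (nat_lit 173) (nat_lit 5) (nat_lit 181) (nat_lit 5) (nat_lit 174) (nat_lit 5) (nat_lit 376) (nat_lit 349) (nat_lit 175)) (XT.lf (nat_lit 0) (nat_lit 6407345870) (nat_lit 532) (nat_lit 6587681319) (nat_lit 608) (nat_lit 14267839827) (nat_lit 166) (nat_lit 5) (nat_lit 173) (nat_lit 5) (nat_lit 174) (nat_lit 5) (nat_lit 377)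 (nat_lit 349) (nat_lit 174))))) (XT.nd (nat_lit 234) (nat_lit 988) (nat_lit 0) (XT.nd (nat_lit 78) (nat_lit 456) (nat_lit 0) (XT.lf (nat_lit 0) (nat_lit 16478069293) (nat_lit 608) (nat_lit 6839709070) (nat_lit 76) (nat_lit 4417791677) (nat_lit 166) (nat_lit 5) (nat_lit 174) (nat_lit 5) (nat_lit 167) (nat_lit 5) (nat_lit 378) (nat_lit 349) (nat_lit 173)) (XT.nd (nat_lit 78) (nat_lit 0) (nat_lit 0) (XT.lf (nat_lit 0) (nat_lit 7676796197) (nat_lit 456) (nat_lit 12523856127) (nat_lit 532) (nat_lit 8017752951) (nat_lit 160) (nat_lit 5) (nat_lit 166) (nat_lit 5) (nat_lit 167) (nat_lit 5) (nat_lit 379) (nat_lit 349) (nat_lit 172)) (XT.lf (nat_lit 0) (nat_lit 22764688135) (nat_lit 456) (nat_lit 1335397514) (nat_lit 532) (nat_lit 4613687273) (nat_lit 160) (nat_lit 5) (nat_lit 166) (nat_lit 5) (nat_lit 167) (nat_lit 5) (nat_lit 380) (nat_lit 349) (nat_lit 171)))) (XT.nd (nat_lit 156) (nat_lit 456) (nat_lit 0) (XT.nd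 (nat_lit 78) (nat_lit 76) (nat_lit 0) (XT.lf (nat_lit 0) (nat_lit 9157672148) (nat_lit 456) (nat_lit 19141013797) (nat_lit 532) (nat_lit 919852597) (nat_lit 154) (nat_lit 5) (nat_lit 160) (nat_lit 5) (nat_lit 161) (nat_lit 5) (nat_lit 381) (nat_lit 349) (nat_lit 170)) (XT.lf (nat_lit 0) (nat_lit 2898639809) (nat_lit 532) (nat_lit 4942946668) (nat_lit 76) (nat_lit 21893926999) (nat_lit 153) (nat_lit 5) (nat_lit 160) (nat_lit 5) (nat_lit 154) (nat_lit 5) (nat_lit 382) (nat_lit 349) (nat_lit 169))) (XT.nd (nat_lit 78) (nat_lit 0) (nat_lit 0) (XT.lf (nat_lit 0) (nat_lit 6951236119) (nat_lit 532) (nat_lit 19475870790) (nat_lit 76) (nat_lit 3836478662) (nat_lit 147) (nat_lit 5) (nat_lit 154) (nat_lit 5) (nat_lit 148) (nat_lit 5) (nat_lit 383) (nat_lit 349) (nat_lit 168)) (XT.lf (nat_lit 0) (nat_lit 11249872702) (nat_lit 532) (nat_lit 3796787722) (nat_lit 76) (nat_lit 15757107721) (nat_lit 147) (nat_lit 5) (nat_lit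 154) (nat_lit 5) (nat_lit 148) (nat_lit 5) (nat_lit 384) (nat_lit 349) (nat_lit 167))))))) (XT.nd (nat_lit 1014) (nat_lit 2128) (nat_lit 0) (XT.nd (nat_lit 468) (nat_lit 1140) (nat_lit 0) (XT.nd (nat_lit 234) (nat_lit 836) (nat_lit 0) (XT.nd (nat_lit 78) (nat_lit 380) (nat_lit 0) (XT.lf (nat_lit 0) (nat_lit 12594278761) (nat_lit 456) (nat_lit 3200772608) (nat_lit 532) (nat_lit 15561579463) (nat_lit 141) (nat_lit 5) (nat_lit 147) (nat_lit 5) (nat_lit 148) (nat_lit 5) (nat_lit 385) (nat_lit 349) (nat_lit 166)) (XT.nd (nat_lit 78) (nat_lit 380) (nat_lit 0) (XT.lf (nat_lit 0) (nat_lit 20598397692) (nat_lit 532) (nat_lit 2461125523) (nat_lit 76) (nat_lit 8862903879) (nat_lit 141) (nat_lit 5) (nat_lit 148) (nat_lit 5) (nat_lit 142) (nat_lit 5) (nat_lit 386) (nat_lit 349) (nat_lit 165)) (XT.lf (nat_lit 0) (nat_lit 14577829317) (nat_lit 380) (nat_lit 11136511041) (nat_lit 456) (nat_lit 6785804010) (nat_lit 136)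 (nat_lit 5) (nat_lit 141) (nat_lit 5) (nat_lit 142) (nat_lit 5) (nat_lit 387) (nat_lit 349) (nat_lit 164)))) (XT.nd (nat_lit 78) (nat_lit 836) (nat_lit 0) (XT.lf (nat_lit 0) (nat_lit 31016583247) (nat_lit 456) (nat_lit 931424985) (nat_lit 76) (nat_lit 1146202215) (nat_lit 136) (nat_lit 5) (nat_lit 142) (nat_lit 5) (nat_lit 137) (nat_lit 5) (nat_lit 388) (nat_lit 349) (nat_lit 163)) (XT.nd (nat_lit 78) (nat_lit 380) (nat_lit 0) (XT.lf (nat_lit 0) (nat_lit 2988768069) (nat_lit 456) (nat_lit 16944951207) (nat_lit 76) (nat_lit 13763449913) (nat_lit 130) (nat_lit 5) (nat_lit 136) (nat_lit 5) (nat_lit 131) (nat_lit 5) (nat_lit 389) (nat_lit 349) (nat_lit 162)) (XT.lf (nat_lit 0) (nat_lit 655617858) (nat_lit 380) (nat_lit 7522421698) (nat_lit 456) (nat_lit 26139182523) (nat_lit 125) (nat_lit 5) (nat_lit 130) (nat_lit 5) (nat_lit 131) (nat_lit 5) (nat_lit 390) (nat_lit 349) (nat_lit 161))))) (XT.nd (nat_lit 234)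 (nat_lit 760) (nat_lit 0) (XT.nd (nat_lit 78) (nat_lit 380) (nat_lit 0) (XT.lf (nat_lit 0) (nat_lit 13743254777) (nat_lit 456) (nat_lit 15875540093) (nat_lit 76) (nat_lit 5330475445) (nat_lit 125) (nat_lit 5) (nat_lit 131) (nat_lit 5) (nat_lit 126) (nat_lit 5) (nat_lit 391) (nat_lit 349) (nat_lit 160)) (XT.nd (nat_lit 78) (nat_lit 0) (nat_lit 0) (XT.lf (nat_lit 0) (nat_lit 2412739261) (nat_lit 380) (nat_lit 17157336649) (nat_lit 456) (nat_lit 16027366282) (nat_lit 120) (nat_lit 5) (nat_lit 125) (nat_lit 5) (nat_lit 126) (nat_lit 5) (nat_lit 392) (nat_lit 349) (nat_lit 159)) (XT.lf (nat_lit 0) (nat_lit 21571170402) (nat_lit 380) (nat_lit 4157870672) (nat_lit 456) (nat_lit 10531299597) (nat_lit 120) (nat_lit 5) (nat_lit 125) (nat_lit 5) (nat_lit 126) (nat_lit 5) (nat_lit 393) (nat_lit 349) (nat_lit 158)))) (XT.nd (nat_lit 156) (nat_lit 380) (nat_lit 0) (XT.nd (nat_lit 78) (nat_lit 76) (nat_lit 0) (XT.lf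 (nat_lit 0) (nat_lit 4353547811) (nat_lit 304) (nat_lit 27846921150) (nat_lit 380) (nat_lit 4738827912) (nat_lit 116) (nat_lit 5) (nat_lit 120) (nat_lit 5) (nat_lit 121) (nat_lit 5) (nat_lit 394) (nat_lit 349) (nat_lit 157)) (XT.lf (nat_lit 0) (nat_lit 1391556826) (nat_lit 380) (nat_lit 13423860086) (nat_lit 76) (nat_lit 22817209672) (nat_lit 115) (nat_lit 5) (nat_lit 120) (nat_lit 5) (nat_lit 116) (nat_lit 5) (nat_lit 395) (nat_lit 349) (nat_lit 156))) (XT.nd (nat_lit 78) (nat_lit 0) (nat_lit 0) (XT.lf (nat_lit 0) (nat_lit 6386794928) (nat_lit 380) (nat_lit 1282412776) (nat_lit 456) (nat_lit 30674384347) (nat_lit 110) (nat_lit 5) (nat_lit 115) (nat_lit 5) (nat_lit 116) (nat_lit 5) (nat_lit 396) (nat_lit 349) (nat_lit 155)) (XT.lf (nat_lit 0) (nat_lit 14390989691) (nat_lit 456) (nat_lit 12131716950) (nat_lit 76) (nat_lit 12545507197) (nat_lit 110) (nat_lit 5) (nat_lit 116) (nat_lit 5) (nat_lit 111) (nat_lit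 5) (nat_lit 397) (nat_lit 349) (nat_lit 154)))))) (XT.nd (nat_lit 546) (nat_lit 836) (nat_lit 0) (XT.nd (nat_lit 234) (nat_lit 684) (nat_lit 0) (XT.nd (nat_lit 78) (nat_lit 304) (nat_lit 0) (XT.lf (nat_lit 0) (nat_lit 8436315407) (nat_lit 304) (nat_lit 12969224230) (nat_lit 380) (nat_lit 18406302571) (nat_lit 106) (nat_lit 5) (nat_lit 110) (nat_lit 5) (nat_lit 111) (nat_lit 5) (nat_lit 398) (nat_lit 349) (nat_lit 153)) (XT.nd (nat_lit 78) (nat_lit 304) (nat_lit 0) (XT.lf (nat_lit 0) (nat_lit 28761125060) (nat_lit 380) (nat_lit 10718524588) (nat_lit 76) (nat_lit 1094213135) (nat_lit 106) (nat_lit 5) (nat_lit 111) (nat_lit 5) (nat_lit 107) (nat_lit 5) (nat_lit 399) (nat_lit 349) (nat_lit 152)) (XT.lf (nat_lit 0) (nat_lit 10633629772) (nat_lit 304) (nat_lit 25931805145) (nat_lit 380) (nat_lit 4786468638) (nat_lit 102) (nat_lit 5) (nat_lit 106) (nat_lit 5) (nat_lit 107) (nat_lit 5) (nat_lit 400) (nat_lit 349)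 (nat_lit 151)))) (XT.nd (nat_lit 156) (nat_lit 304) (nat_lit 0) (XT.nd (nat_lit 78) (nat_lit 304) (nat_lit 0) (XT.lf (nat_lit 0) (nat_lit 2509521997) (nat_lit 380) (nat_lit 9332265098) (nat_lit 76) (nat_lit 30307590372) (nat_lit 101) (nat_lit 5) (nat_lit 106) (nat_lit 5) (nat_lit 102) (nat_lit 5) (nat_lit 401) (nat_lit 349) (nat_lit 150)) (XT.lf (nat_lit 0) (nat_lit 10077034317) (nat_lit 380) (nat_lit 30097050112) (nat_lit 76) (nat_lit 2790805264) (nat_lit 97) (nat_lit 5) (nat_lit 102) (nat_lit 5) (nat_lit 98) (nat_lit 5) (nat_lit 402) (nat_lit 349) (nat_lit 149))) (XT.nd (nat_lit 78) (nat_lit 304) (nat_lit 0) (XT.lf (nat_lit 0) (nat_lit 18081535950) (nat_lit 380) (nat_lit 7998557666) (nat_lit 76) (nat_lit 17718475894) (nat_lit 97) (nat_lit 5) (nat_lit 102) (nat_lit 5) (nat_lit 98) (nat_lit 5) (nat_lit 403) (nat_lit 349) (nat_lit 148)) (XT.lf (nat_lit 0) (nat_lit 15053146453) (nat_lit 304) (nat_lit 11415345555)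 (nat_lit 380) (nat_lit 18184499239) (nat_lit 93) (nat_lit 5) (nat_lit 97) (nat_lit 5) (nat_lit 98) (nat_lit 5) (nat_lit 404) (nat_lit 349) (nat_lit 147))))) (XT.nd (nat_lit 234) (nat_lit 532) (nat_lit 0) (XT.nd (nat_lit 78) (nat_lit 304) (nat_lit 0) (XT.lf (nat_lit 0) (nat_lit 35221735312) (nat_lit 380) (nat_lit 6610033032) (nat_lit 76) (nat_lit 3697838014) (nat_lit 93) (nat_lit 5) (nat_lit 98) (nat_lit 5) (nat_lit 94) (nat_lit 5) (nat_lit 405) (nat_lit 349) (nat_lit 146)) (XT.nd (nat_lit 78) (nat_lit 76) (nat_lit 0) (XT.lf (nat_lit 0) (nat_lit 17290440047) (nat_lit 228) (nat_lit 27224078846) (nat_lit 304) (nat_lit 1909693784) (nat_lit 90) (nat_lit 5) (nat_lit 93) (nat_lit 5) (nat_lit 94) (nat_lit 5) (nat_lit 406) (nat_lit 349) (nat_lit 145)) (XT.lf (nat_lit 0) (nat_lit 6674032326) (nat_lit 304) (nat_lit 5369103652) (nat_lit 76) (nat_lit 35298624392) (nat_lit 89) (nat_lit 5) (nat_lit 93) (nat_lit 5) (nat_lit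 90) (nat_lit 5) (nat_lit 407) (nat_lit 349) (nat_lit 144)))) (XT.nd (nat_lit 156) (nat_lit 228) (nat_lit 0) (XT.nd (nat_lit 78) (nat_lit 0) (nat_lit 0) (XT.lf (nat_lit 0) (nat_lit 15698367789) (nat_lit 380) (nat_lit 28851160385) (nat_lit 76) (nat_lit 3730095625) (nat_lit 85) (nat_lit 5) (nat_lit 90) (nat_lit 5) (nat_lit 86) (nat_lit 5) (nat_lit 408) (nat_lit 349) (nat_lit 143)) (XT.lf (nat_lit 0) (nat_lit 25165239160) (nat_lit 380) (nat_lit 4287098277) (nat_lit 76) (nat_lit 19788132448) (nat_lit 85) (nat_lit 5) (nat_lit 90) (nat_lit 5) (nat_lit 86) (nat_lit 5) (nat_lit 409) (nat_lit 349) (nat_lit 142))) (XT.nd (nat_lit 78) (nat_lit 0) (nat_lit 0) (XT.lf (nat_lit 0) (nat_lit 21428791266) (nat_lit 228) (nat_lit 13691188412) (nat_lit 304) (nat_lit 15104046687) (nat_lit 82) (nat_lit 5) (nat_lit 85) (nat_lit 5) (nat_lit 86) (nat_lit 5) (nat_lit 410) (nat_lit 349) (nat_lit 141)) (XT.lf (nat_lit 0) (nat_lit 45439421736)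 (nat_lit 304) (nat_lit 3259891875) (nat_lit 76) (nat_lit 2535795024) (nat_lit 82) (nat_lit 5) (nat_lit 86) (nat_lit 5) (nat_lit 83) (nat_lit 5) (nat_lit 411) (nat_lit 349) (nat_lit 140))))))))
noncomputable def xc213 : XT := (XT.nd (nat_lit 42588) (nat_lit 0) (nat_lit 7676) (XT.nd (nat_lit 1014) (nat_lit 532) (nat_lit 0) (XT.nd (nat_lit 468) (nat_lit 912) (nat_lit 0) (XT.nd (nat_lit 234) (nat_lit 304) (nat_lit 0) (XT.nd (nat_lit 78) (nat_lit 228) (nat_lit 0) (XT.lf (nat_lit 0) (nat_lit 4079524995) (nat_lit 304) (nat_lit 28947185594) (nat_lit 76) (nat_lit 19237872238) (nat_lit 78) (nat_lit 5) (nat_lit 82) (nat_lit 5) (nat_lit 79) (nat_lit 5) (nat_lit 412) (nat_lit 349) (nat_lit 139)) (XT.nd (nat_lit 78) (nat_lit 228) (nat_lit 0) (XT.lf (nat_lit 0) (nat_lit 14165716436) (nat_lit 304) (nat_lit 2626016376) (nat_lit 76) (nat_lit 36530551420) (nat_lit 78) (nat_lit 5) (nat_lit 82) (nat_lit 5) (nat_lit 79) (nat_lit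 5) (nat_lit 413) (nat_lit 349) (nat_lit 138)) (XT.lf (nat_lit 0) (nat_lit 24794231427) (nat_lit 304) (nat_lit 29437340723) (nat_lit 76) (nat_lit 172953173) (nat_lit 75) (nat_lit 5) (nat_lit 79) (nat_lit 5) (nat_lit 76) (nat_lit 5) (nat_lit 414) (nat_lit 349) (nat_lit 137)))) (XT.nd (nat_lit 78) (nat_lit 304) (nat_lit 0) (XT.lf (nat_lit 0) (nat_lit 35932679747) (nat_lit 304) (nat_lit 2246051826) (nat_lit 76) (nat_lit 17334770493) (nat_lit 75) (nat_lit 5) (nat_lit 79) (nat_lit 5) (nat_lit 76) (nat_lit 5) (nat_lit 415) (nat_lit 349) (nat_lit 136)) (XT.nd (nat_lit 78) (nat_lit 76) (nat_lit 0) (XT.lf (nat_lit 0) (nat_lit 26270591398) (nat_lit 228) (nat_lit 21385319045) (nat_lit 304) (nat_lit 8992319533) (nat_lit 72) (nat_lit 5) (nat_lit 75) (nat_lit 5) (nat_lit 76) (nat_lit 5) (nat_lit 416) (nat_lit 349) (nat_lit 135)) (XT.lf (nat_lit 0) (nat_lit 1897505038) (nat_lit 304) (nat_lit 2149192037) (nat_lit 76) (nat_lit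 53769121052) (nat_lit 71) (nat_lit 5) (nat_lit 75) (nat_lit 5) (nat_lit 72) (nat_lit 5) (nat_lit 417) (nat_lit 349) (nat_lit 134))))) (XT.nd (nat_lit 234) (nat_lit 456) (nat_lit 0) (XT.nd (nat_lit 78) (nat_lit 228) (nat_lit 0) (XT.lf (nat_lit 0) (nat_lit 13330775696) (nat_lit 304) (nat_lit 31775984064) (nat_lit 76) (nat_lit 13897079207) (nat_lit 68) (nat_lit 5) (nat_lit 72) (nat_lit 5) (nat_lit 69) (nat_lit 5) (nat_lit 418) (nat_lit 349) (nat_lit 133)) (XT.nd (nat_lit 78) (nat_lit 228) (nat_lit 0) (XT.lf (nat_lit 0) (nat_lit 25167205705) (nat_lit 304) (nat_lit 2739815405) (nat_lit 76) (nat_lit 32318675136) (nat_lit 68) (nat_lit 5) (nat_lit 72) (nat_lit 5) (nat_lit 69) (nat_lit 5) (nat_lit 419) (nat_lit 349) (nat_lit 132)) (XT.lf (nat_lit 0) (nat_lit 27705198118) (nat_lit 228) (nat_lit 9918080314) (nat_lit 304) (nat_lit 23852994948) (nat_lit 65) (nat_lit 5) (nat_lit 68) (nat_lit 5) (nat_lit 69) (nat_lit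 5) (nat_lit 420) (nat_lit 349) (nat_lit 131)))) (XT.nd (nat_lit 156) (nat_lit 228) (nat_lit 0) (XT.nd (nat_lit 78) (nat_lit 228) (nat_lit 0) (XT.lf (nat_lit 0) (nat_lit 50561987921) (nat_lit 304) (nat_lit 3729738570) (nat_lit 76) (nat_lit 8469373316) (nat_lit 65) (nat_lit 5) (nat_lit 69) (nat_lit 5) (nat_lit 66) (nat_lit 5) (nat_lit 421) (nat_lit 349) (nat_lit 130)) (XT.lf (nat_lit 0) (nat_lit 174087807) (nat_lit 228) (nat_lit 36423890032) (nat_lit 76) (nat_lit 27475573685) (nat_lit 62) (nat_lit 5) (nat_lit 65) (nat_lit 5) (nat_lit 63) (nat_lit 5) (nat_lit 422) (nat_lit 349) (nat_lit 129))) (XT.nd (nat_lit 78) (nat_lit 228) (nat_lit 0) (XT.lf (nat_lit 0) (nat_lit 12709630517) (nat_lit 228) (nat_lit 5501309240) (nat_lit 76) (nat_lit 47209723984) (nat_lit 62) (nat_lit 5) (nat_lit 65) (nat_lit 5) (nat_lit 63) (nat_lit 5) (nat_lit 423) (nat_lit 349) (nat_lit 128)) (XT.lf (nat_lit 0) (nat_lit 25887428710) (nat_lit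 304) (nat_lit 39939466177) (nat_lit 76) (nat_lit 973309309) (nat_lit 59) (nat_lit 5) (nat_lit 63) (nat_lit 5) (nat_lit 60) (nat_lit 5) (nat_lit 424) (nat_lit 349) (nat_lit 127)))))) (XT.nd (nat_lit 41028) (nat_lit 0) (nat_lit 13224) (XT.nd (nat_lit 234) (nat_lit 380) (nat_lit 0) (XT.nd (nat_lit 78) (nat_lit 152) (nat_lit 0) (XT.lf (nat_lit 0) (nat_lit 39695332100) (nat_lit 304) (nat_lit 8096638835) (nat_lit 76) (nat_lit 20422117321) (nat_lit 59) (nat_lit 5) (nat_lit 63) (nat_lit 5) (nat_lit 60) (nat_lit 5) (nat_lit 425) (nat_lit 349) (nat_lit 126)) (XT.nd (nat_lit 78) (nat_lit 0) (nat_lit 0) (XT.lf (nat_lit 0) (nat_lit 25190371575) (nat_lit 152) (nat_lit 28967656429) (nat_lit 228) (nat_lit 15505144686) (nat_lit 57) (nat_lit 5) (nat_lit 59) (nat_lit 5) (nat_lit 60) (nat_lit 5) (nat_lit 426) (nat_lit 349) (nat_lit 125)) (XT.lf (nat_lit 0) (nat_lit 59639334870) (nat_lit 152) (nat_lit 9495461263) (nat_lit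 228) (nat_lit 2018528283) (nat_lit 57) (nat_lit 5) (nat_lit 59) (nat_lit 5) (nat_lit 60) (nat_lit 5) (nat_lit 427) (nat_lit 349) (nat_lit 124)))) (XT.nd (nat_lit 78) (nat_lit 152) (nat_lit 0) (XT.lf (nat_lit 0) (nat_lit 11963065934) (nat_lit 228) (nat_lit 50022020397) (nat_lit 76) (nat_lit 10690009261) (nat_lit 54) (nat_lit 5) (nat_lit 57) (nat_lit 5) (nat_lit 55) (nat_lit 5) (nat_lit 428) (nat_lit 349) (nat_lit 123)) (XT.nd (nat_lit 78) (nat_lit 152) (nat_lit 0) (XT.lf (nat_lit 0) (nat_lit 26533443431) (nat_lit 228) (nat_lit 16275601256) (nat_lit 76) (nat_lit 31426578936) (nat_lit 54) (nat_lit 5) (nat_lit 57) (nat_lit 5) (nat_lit 55) (nat_lit 5) (nat_lit 429) (nat_lit 349) (nat_lit 122)) (XT.lf (nat_lit 0) (nat_lit 18848492318) (nat_lit 152) (nat_lit 22872139202) (nat_lit 228) (nat_lit 34116945438) (nat_lit 52) (nat_lit 5) (nat_lit 54) (nat_lit 5) (nat_lit 55) (nat_lit 5) (nat_lit 430) (nat_lit 349) (nat_lit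 121))))) (XT.nd (nat_lit 234) (nat_lit 0) (nat_lit 76) (XT.nd (nat_lit 78) (nat_lit 0) (nat_lit 0) (XT.lf (nat_lit 0) (nat_lit 3030709752) (nat_lit 0) (nat_lit 3030709752) (nat_lit 1140) (nat_lit 2948217778) (nat_lit 226) (nat_lit 5) (nat_lit 226) (nat_lit 3) (nat_lit 241) (nat_lit 3) (nat_lit 350) (nat_lit 350) (nat_lit 200)) (XT.nd (nat_lit 78) (nat_lit 0) (nat_lit 0) (XT.lf (nat_lit 0) (nat_lit 12524011954) (nat_lit 1140) (nat_lit 3530260390) (nat_lit 1216) (nat_lit 2228558219) (nat_lit 226) (nat_lit 5) (nat_lit 241) (nat_lit 3) (nat_lit 242) (nat_lit 5) (nat_lit 351) (nat_lit 350) (nat_lit 199)) (XT.lf (nat_lit 76) (nat_lit 5187242023) (nat_lit 0) (nat_lit 7852184945) (nat_lit 1216) (nat_lit 5511806048) (nat_lit 227) (nat_lit 5) (nat_lit 226) (nat_lit 5) (nat_lit 242) (nat_lit 5) (nat_lit 352) (nat_lit 350) (nat_lit 198)))) (XT.nd (nat_lit 156) (nat_lit 0) (nat_lit 0) (XT.nd (nat_lit 78) (nat_lit 0)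 (nat_lit 0) (XT.lf (nat_lit 0) (nat_lit 13604581544) (nat_lit 1140) (nat_lit 4598413837) (nat_lit 1216) (nat_lit 623669653) (nat_lit 227) (nat_lit 5) (nat_lit 242) (nat_lit 5) (nat_lit 243) (nat_lit 5) (nat_lit 353) (nat_lit 350) (nat_lit 197)) (XT.lf (nat_lit 76) (nat_lit 4434699494) (nat_lit 0) (nat_lit 9865128463) (nat_lit 1216) (nat_lit 4807143575) (nat_lit 228) (nat_lit 5) (nat_lit 227) (nat_lit 5) (nat_lit 243) (nat_lit 5) (nat_lit 354) (nat_lit 350) (nat_lit 196))) (XT.nd (nat_lit 78) (nat_lit 0) (nat_lit 76) (XT.lf (nat_lit 76) (nat_lit 13828886918) (nat_lit 0) (nat_lit 1226414122) (nat_lit 1216) (nat_lit 4339210580) (nat_lit 228) (nat_lit 5) (nat_lit 227) (nat_lit 5) (nat_lit 243) (nat_lit 5) (nat_lit 355) (nat_lit 350) (nat_lit 195)) (XT.lf (nat_lit 76) (nat_lit 3810538105) (nat_lit 0) (nat_lit 12126439235) (nat_lit 1216) (nat_lit 3750599711) (nat_lit 229) (nat_lit 5) (nat_lit 228) (nat_lit 5)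 (nat_lit 244) (nat_lit 5) (nat_lit 356) (nat_lit 350) (nat_lit 194))))))) (XT.nd (nat_lit 1014) (nat_lit 3876) (nat_lit 0) (XT.nd (nat_lit 468) (nat_lit 760) (nat_lit 0) (XT.nd (nat_lit 234) (nat_lit 1064) (nat_lit 0) (XT.nd (nat_lit 78) (nat_lit 0) (nat_lit 76) (XT.lf (nat_lit 76) (nat_lit 13565434923) (nat_lit 0) (nat_lit 3341219695) (nat_lit 1216) (nat_lit 3080938465) (nat_lit 229) (nat_lit 5) (nat_lit 228) (nat_lit 5) (nat_lit 244) (nat_lit 5) (nat_lit 357) (nat_lit 350) (nat_lit 193)) (XT.nd (nat_lit 78) (nat_lit 0) (nat_lit 0) (XT.lf (nat_lit 76) (nat_lit 3321973830) (nat_lit 0) (nat_lit 14663787861) (nat_lit 1216) (nat_lit 2308442727) (nat_lit 230) (nat_lit 5) (nat_lit 229) (nat_lit 5) (nat_lit 245) (nat_lit 5) (nat_lit 358) (nat_lit 350) (nat_lit 192)) (XT.lf (nat_lit 76) (nat_lit 13452026282) (nat_lit 0) (nat_lit 5736512713) (nat_lit 1216) (nat_lit 1418741052) (nat_lit 230) (nat_lit 5) (nat_lit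 229) (nat_lit 5) (nat_lit 245) (nat_lit 5) (nat_lit 359) (nat_lit 350) (nat_lit 191)))) (XT.nd (nat_lit 78) (nat_lit 1216) (nat_lit 0) (XT.lf (nat_lit 76) (nat_lit 2976678796) (nat_lit 0) (nat_lit 17506471712) (nat_lit 1216) (nat_lit 444929628) (nat_lit 231) (nat_lit 5) (nat_lit 230) (nat_lit 5) (nat_lit 246) (nat_lit 5) (nat_lit 360) (nat_lit 350) (nat_lit 190)) (XT.nd (nat_lit 78) (nat_lit 0) (nat_lit 76) (XT.lf (nat_lit 0) (nat_lit 670935967) (nat_lit 1216) (nat_lit 7764443700) (nat_lit 1292) (nat_lit 12819256158) (nat_lit 214) (nat_lit 5) (nat_lit 230) (nat_lit 5) (nat_lit 231) (nat_lit 5) (nat_lit 361) (nat_lit 350) (nat_lit 189)) (XT.lf (nat_lit 0) (nat_lit 1841183856) (nat_lit 1216) (nat_lit 18825791462) (nat_lit 1292) (nat_lit 922989560) (nat_lit 215) (nat_lit 5) (nat_lit 231) (nat_lit 5) (nat_lit 232) (nat_lit 5) (nat_lit 362) (nat_lit 350) (nat_lit 188))))) (XT.nd (nat_lit 234) (nat_lit 836)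 (nat_lit 0) (XT.nd (nat_lit 78) (nat_lit 0) (nat_lit 0) (XT.lf (nat_lit 0) (nat_lit 3203522356) (nat_lit 1216) (nat_lit 8253975756) (nat_lit 1292) (nat_lit 10473150389) (nat_lit 215) (nat_lit 5) (nat_lit 231) (nat_lit 5) (nat_lit 232) (nat_lit 5) (nat_lit 363) (nat_lit 350) (nat_lit 187)) (XT.nd (nat_lit 78) (nat_lit 0) (nat_lit 76) (XT.lf (nat_lit 76) (nat_lit 2682988262) (nat_lit 0) (nat_lit 1943982412) (nat_lit 1292) (nat_lit 17653978841) (nat_lit 216) (nat_lit 5) (nat_lit 215) (nat_lit 5) (nat_lit 232) (nat_lit 5) (nat_lit 364) (nat_lit 350) (nat_lit 186)) (XT.lf (nat_lit 0) (nat_lit 6247383128) (nat_lit 1216) (nat_lit 8602826929) (nat_lit 1292) (nat_lit 7786925635) (nat_lit 216) (nat_lit 5) (nat_lit 232) (nat_lit 5) (nat_lit 233) (nat_lit 5) (nat_lit 365) (nat_lit 350) (nat_lit 185)))) (XT.nd (nat_lit 156) (nat_lit 912) (nat_lit 0) (XT.nd (nat_lit 78) (nat_lit 0) (nat_lit 76) (XT.lf (nat_lit 76) (nat_lit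 2752255704) (nat_lit 0) (nat_lit 5204593830) (nat_lit 1292) (nat_lit 15045948510) (nat_lit 217) (nat_lit 5) (nat_lit 216) (nat_lit 5) (nat_lit 233) (nat_lit 5) (nat_lit 366) (nat_lit 350) (nat_lit 184)) (XT.lf (nat_lit 0) (nat_lit 9845660693) (nat_lit 1216) (nat_lit 8803303510) (nat_lit 76) (nat_lit 4726627967) (nat_lit 217) (nat_lit 5) (nat_lit 233) (nat_lit 5) (nat_lit 218) (nat_lit 5) (nat_lit 367) (nat_lit 350) (nat_lit 183))) (XT.nd (nat_lit 78) (nat_lit 0) (nat_lit 0) (XT.lf (nat_lit 0) (nat_lit 2989806262) (nat_lit 988) (nat_lit 8876607729) (nat_lit 1064) (nat_lit 11890901412) (nat_lit 204) (nat_lit 5) (nat_lit 217) (nat_lit 5) (nat_lit 218) (nat_lit 5) (nat_lit 368) (nat_lit 350) (nat_lit 182)) (XT.lf (nat_lit 0) (nat_lit 14044111561) (nat_lit 1064) (nat_lit 8847434260) (nat_lit 76) (nat_lit 1256058374) (nat_lit 204) (nat_lit 5) (nat_lit 218) (nat_lit 5) (nat_lit 205) (nat_lit 5) (nat_lit 369)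 (nat_lit 350) (nat_lit 181)))))) (XT.nd (nat_lit 546) (nat_lit 1520) (nat_lit 0) (XT.nd (nat_lit 234) (nat_lit 1216) (nat_lit 0) (XT.nd (nat_lit 78) (nat_lit 532) (nat_lit 0) (XT.lf (nat_lit 0) (nat_lit 3404448472) (nat_lit 608) (nat_lit 12998563449) (nat_lit 684) (nat_lit 8143116985) (nat_lit 196) (nat_lit 5) (nat_lit 204) (nat_lit 5) (nat_lit 205) (nat_lit 5) (nat_lit 370) (nat_lit 350) (nat_lit 180)) (XT.nd (nat_lit 78) (nat_lit 532) (nat_lit 0) (XT.lf (nat_lit 0) (nat_lit 16200953725) (nat_lit 608) (nat_lit 2716423096) (nat_lit 684) (nat_lit 6036694921) (nat_lit 196) (nat_lit 5) (nat_lit 204) (nat_lit 5) (nat_lit 205) (nat_lit 5) (nat_lit 371) (nat_lit 350) (nat_lit 179)) (XT.lf (nat_lit 0) (nat_lit 4005252493) (nat_lit 532) (nat_lit 17611606855) (nat_lit 608) (nat_lit 3754106130) (nat_lit 189) (nat_lit 5) (nat_lit 196) (nat_lit 5) (nat_lit 197) (nat_lit 5) (nat_lit 372) (nat_lit 350) (nat_lit 178))))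 (XT.nd (nat_lit 156) (nat_lit 532) (nat_lit 0) (XT.nd (nat_lit 78) (nat_lit 684) (nat_lit 0) (XT.lf (nat_lit 0) (nat_lit 17294101976) (nat_lit 532) (nat_lit 7213829766) (nat_lit 608) (nat_lit 1289119241) (nat_lit 189) (nat_lit 5) (nat_lit 196) (nat_lit 5) (nat_lit 197) (nat_lit 5) (nat_lit 373) (nat_lit 350) (nat_lit 177)) (XT.lf (nat_lit 0) (nat_lit 1301647095) (nat_lit 684) (nat_lit 21444911547) (nat_lit 76) (nat_lit 3486716385) (nat_lit 180) (nat_lit 5) (nat_lit 189) (nat_lit 5) (nat_lit 181) (nat_lit 5) (nat_lit 374) (nat_lit 350) (nat_lit 176))) (XT.nd (nat_lit 78) (nat_lit 532) (nat_lit 0) (XT.lf (nat_lit 0) (nat_lit 4098117710) (nat_lit 684) (nat_lit 8116656061) (nat_lit 76) (nat_lit 14462815231) (nat_lit 180) (nat_lit 5) (nat_lit 189) (nat_lit 5) (nat_lit 181) (nat_lit 5) (nat_lit 375) (nat_lit 350) (nat_lit 175)) (XT.lf (nat_lit 0) (nat_lit 5718842418) (nat_lit 532) (nat_lit 1310490714) (nat_lit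 608) (nat_lit 20104376516) (nat_lit 173) (nat_lit 5) (nat_lit 180) (nat_lit 5) (nat_lit 181) (nat_lit 5) (nat_lit 376) (nat_lit 350) (nat_lit 174))))) (XT.nd (nat_lit 234) (nat_lit 988) (nat_lit 0) (XT.nd (nat_lit 78) (nat_lit 532) (nat_lit 0) (XT.lf (nat_lit 0) (nat_lit 10222581446) (nat_lit 608) (nat_lit 7565724717) (nat_lit 76) (nat_lit 9809987550) (nat_lit 173) (nat_lit 5) (nat_lit 181) (nat_lit 5) (nat_lit 174) (nat_lit 5) (nat_lit 377) (nat_lit 350) (nat_lit 173)) (XT.nd (nat_lit 78) (nat_lit 0) (nat_lit 0) (XT.lf (nat_lit 0) (nat_lit 6814740200) (nat_lit 532) (nat_lit 6771444033) (nat_lit 608) (nat_lit 14488396968) (nat_lit 166) (nat_lit 5) (nat_lit 173) (nat_lit 5) (nat_lit 174) (nat_lit 5) (nat_lit 378) (nat_lit 350) (nat_lit 172)) (XT.lf (nat_lit 0) (nat_lit 17167983733) (nat_lit 608) (nat_lit 6830130949) (nat_lit 76) (nat_lit 4563526511) (nat_lit 166) (nat_lit 5) (nat_lit 174) (nat_lit 5) (nat_lit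 167) (nat_lit 5) (nat_lit 379) (nat_lit 350) (nat_lit 171)))) (XT.nd (nat_lit 156) (nat_lit 532) (nat_lit 0) (XT.nd (nat_lit 78) (nat_lit 0) (nat_lit 0) (XT.lf (nat_lit 0) (nat_lit 8119763894) (nat_lit 456) (nat_lit 12878828334) (nat_lit 532) (nat_lit 8060482570) (nat_lit 160) (nat_lit 5) (nat_lit 166) (nat_lit 5) (nat_lit 167) (nat_lit 5) (nat_lit 380) (nat_lit 350) (nat_lit 170)) (XT.lf (nat_lit 0) (nat_lit 23654098498) (nat_lit 456) (nat_lit 1355320141) (nat_lit 532) (nat_lit 4560056173) (nat_lit 160) (nat_lit 5) (nat_lit 166) (nat_lit 5) (nat_lit 167) (nat_lit 5) (nat_lit 381) (nat_lit 350) (nat_lit 169))) (XT.nd (nat_lit 78) (nat_lit 76) (nat_lit 0) (XT.lf (nat_lit 0) (nat_lit 9642311429) (nat_lit 456) (nat_lit 19688444144) (nat_lit 532) (nat_lit 758728006) (nat_lit 154) (nat_lit 5) (nat_lit 160) (nat_lit 5) (nat_lit 161) (nat_lit 5) (nat_lit 382) (nat_lit 350) (nat_lit 168)) (XT.lf (nat_lit 0) (nat_lit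 3165247119) (nat_lit 532) (nat_lit 4883753375) (nat_lit 76) (nat_lit 22573077858) (nat_lit 153) (nat_lit 5) (nat_lit 160) (nat_lit 5) (nat_lit 154) (nat_lit 5) (nat_lit 383) (nat_lit 350) (nat_lit 167))))))))
noncomputable def xc214 : XT := (XT.nd (nat_lit 2028) (nat_lit 2356) (nat_lit 0) (XT.nd (nat_lit 1014) (nat_lit 2280) (nat_lit 0) (XT.nd (nat_lit 468) (nat_lit 1596) (nat_lit 0) (XT.nd (nat_lit 234) (nat_lit 380) (nat_lit 0) (XT.nd (nat_lit 78) (nat_lit 456) (nat_lit 0) (XT.lf (nat_lit 0) (nat_lit 7336443050) (nat_lit 532) (nat_lit 19849579105) (nat_lit 76) (nat_lit 3980063039) (nat_lit 147) (nat_lit 5) (nat_lit 154) (nat_lit 5) (nat_lit 148) (nat_lit 5) (nat_lit 384) (nat_lit 350) (nat_lit 166)) (XT.nd (nat_lit 78) (nat_lit 456) (nat_lit 0) (XT.lf (nat_lit 0) (nat_lit 11758893007) (nat_lit 532) (nat_lit 3706256588) (nat_lit 76) (nat_lit 16257481163) (nat_lit 147) (nat_lit 5) (nat_lit 154) (nat_lit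 5) (nat_lit 148) (nat_lit 5) (nat_lit 385) (nat_lit 350) (nat_lit 165)) (XT.lf (nat_lit 0) (nat_lit 13174537627) (nat_lit 456) (nat_lit 3262839444) (nat_lit 532) (nat_lit 15854796804) (nat_lit 141) (nat_lit 5) (nat_lit 147) (nat_lit 5) (nat_lit 148) (nat_lit 5) (nat_lit 386) (nat_lit 350) (nat_lit 164)))) (XT.nd (nat_lit 78) (nat_lit 380) (nat_lit 0) (XT.lf (nat_lit 0) (nat_lit 21380233672) (nat_lit 532) (nat_lit 2333736011) (nat_lit 76) (nat_lit 9161115006) (nat_lit 141) (nat_lit 5) (nat_lit 148) (nat_lit 5) (nat_lit 142) (nat_lit 5) (nat_lit 387) (nat_lit 350) (nat_lit 163)) (XT.nd (nat_lit 78) (nat_lit 0) (nat_lit 0) (XT.lf (nat_lit 0) (nat_lit 15214414697) (nat_lit 380) (nat_lit 11432381916) (nat_lit 456) (nat_lit 6823425482) (nat_lit 136) (nat_lit 5) (nat_lit 141) (nat_lit 5) (nat_lit 142) (nat_lit 5) (nat_lit 388) (nat_lit 350) (nat_lit 162)) (XT.lf (nat_lit 0) (nat_lit 32103773445) (nat_lit 456)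 (nat_lit 761494272) (nat_lit 76) (nat_lit 1216975231) (nat_lit 136) (nat_lit 5) (nat_lit 142) (nat_lit 5) (nat_lit 137) (nat_lit 5) (nat_lit 389) (nat_lit 350) (nat_lit 161))))) (XT.nd (nat_lit 234) (nat_lit 760) (nat_lit 0) (XT.nd (nat_lit 78) (nat_lit 380) (nat_lit 0) (XT.lf (nat_lit 0) (nat_lit 3234056812) (nat_lit 456) (nat_lit 17254181269) (nat_lit 76) (nat_lit 14215089722) (nat_lit 130) (nat_lit 5) (nat_lit 136) (nat_lit 5) (nat_lit 131) (nat_lit 5) (nat_lit 390) (nat_lit 350) (nat_lit 160)) (XT.nd (nat_lit 78) (nat_lit 0) (nat_lit 0) (XT.lf (nat_lit 0) (nat_lit 872452726) (nat_lit 380) (nat_lit 7703916214) (nat_lit 456) (nat_lit 26765695019) (nat_lit 125) (nat_lit 5) (nat_lit 130) (nat_lit 5) (nat_lit 131) (nat_lit 5) (nat_lit 391) (nat_lit 350) (nat_lit 159)) (XT.lf (nat_lit 0) (nat_lit 14304496949) (nat_lit 456) (nat_lit 16156256347) (nat_lit 76) (nat_lit 5532444135) (nat_lit 125) (nat_lit 5)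 (nat_lit 131) (nat_lit 5) (nat_lit 126) (nat_lit 5) (nat_lit 392) (nat_lit 350) (nat_lit 158)))) (XT.nd (nat_lit 156) (nat_lit 380) (nat_lit 0) (XT.nd (nat_lit 78) (nat_lit 0) (nat_lit 0) (XT.lf (nat_lit 0) (nat_lit 2678754231) (nat_lit 380) (nat_lit 17624891611) (nat_lit 456) (nat_lit 16357245337) (nat_lit 120) (nat_lit 5) (nat_lit 125) (nat_lit 5) (nat_lit 126) (nat_lit 5) (nat_lit 393) (nat_lit 350) (nat_lit 157)) (XT.lf (nat_lit 0) (nat_lit 22406298517) (nat_lit 380) (nat_lit 4236815397) (nat_lit 456) (nat_lit 10700693018) (nat_lit 120) (nat_lit 5) (nat_lit 125) (nat_lit 5) (nat_lit 126) (nat_lit 5) (nat_lit 394) (nat_lit 350) (nat_lit 156))) (XT.nd (nat_lit 78) (nat_lit 76) (nat_lit 0) (XT.lf (nat_lit 0) (nat_lit 4674169692) (nat_lit 304) (nat_lit 28632627050) (nat_lit 380) (nat_lit 4736393983) (nat_lit 116) (nat_lit 5) (nat_lit 120) (nat_lit 5) (nat_lit 121) (nat_lit 5) (nat_lit 395) (nat_lit 350)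 (nat_lit 155)) (XT.lf (nat_lit 0) (nat_lit 1570951223) (nat_lit 380) (nat_lit 13639284114) (nat_lit 76) (nat_lit 23547169314) (nat_lit 115) (nat_lit 5) (nat_lit 120) (nat_lit 5) (nat_lit 116) (nat_lit 5) (nat_lit 396) (nat_lit 350) (nat_lit 154)))))) (XT.nd (nat_lit 468) (nat_lit 1216) (nat_lit 0) (XT.nd (nat_lit 234) (nat_lit 380) (nat_lit 0) (XT.nd (nat_lit 78) (nat_lit 304) (nat_lit 0) (XT.lf (nat_lit 0) (nat_lit 6763854357) (nat_lit 380) (nat_lit 1270850826) (nat_lit 456) (nat_lit 31455062768) (nat_lit 110) (nat_lit 5) (nat_lit 115) (nat_lit 5) (nat_lit 116) (nat_lit 5) (nat_lit 397) (nat_lit 350) (nat_lit 153)) (XT.nd (nat_lit 78) (nat_lit 304) (nat_lit 0) (XT.lf (nat_lit 0) (nat_lit 14954663274) (nat_lit 456) (nat_lit 12312069932) (nat_lit 76) (nat_lit 12969501522) (nat_lit 110) (nat_lit 5) (nat_lit 116) (nat_lit 5) (nat_lit 111) (nat_lit 5) (nat_lit 398) (nat_lit 350) (nat_lit 152)) (XT.lf (nat_lit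 0) (nat_lit 8871203410) (nat_lit 304) (nat_lit 13306350842) (nat_lit 380) (nat_lit 18824682520) (nat_lit 106) (nat_lit 5) (nat_lit 110) (nat_lit 5) (nat_lit 111) (nat_lit 5) (nat_lit 399) (nat_lit 350) (nat_lit 151)))) (XT.nd (nat_lit 78) (nat_lit 380) (nat_lit 0) (XT.lf (nat_lit 0) (nat_lit 29750510075) (nat_lit 380) (nat_lit 10860216377) (nat_lit 76) (nat_lit 1176492327) (nat_lit 106) (nat_lit 5) (nat_lit 111) (nat_lit 5) (nat_lit 107) (nat_lit 5) (nat_lit 400) (nat_lit 350) (nat_lit 150)) (XT.nd (nat_lit 78) (nat_lit 76) (nat_lit 0) (XT.lf (nat_lit 0) (nat_lit 11130739242) (nat_lit 304) (nat_lit 26656236039) (nat_lit 380) (nat_lit 4801686557) (nat_lit 102) (nat_lit 5) (nat_lit 106) (nat_lit 5) (nat_lit 107) (nat_lit 5) (nat_lit 401) (nat_lit 350) (nat_lit 149)) (XT.lf (nat_lit 0) (nat_lit 2707012569) (nat_lit 380) (nat_lit 9436829779) (nat_lit 76) (nat_lit 31266292323) (nat_lit 101) (nat_lit 5) (nat_lit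 106) (nat_lit 5) (nat_lit 102) (nat_lit 5) (nat_lit 402) (nat_lit 350) (nat_lit 148))))) (XT.nd (nat_lit 234) (nat_lit 608) (nat_lit 0) (XT.nd (nat_lit 78) (nat_lit 304) (nat_lit 0) (XT.lf (nat_lit 0) (nat_lit 10500173456) (nat_lit 380) (nat_lit 30823125256) (nat_lit 76) (nat_lit 2926856543) (nat_lit 97) (nat_lit 5) (nat_lit 102) (nat_lit 5) (nat_lit 98) (nat_lit 5) (nat_lit 403) (nat_lit 350) (nat_lit 147)) (XT.nd (nat_lit 78) (nat_lit 304) (nat_lit 0) (XT.lf (nat_lit 0) (nat_lit 18741290873) (nat_lit 380) (nat_lit 8066828610) (nat_lit 76) (nat_lit 18300833201) (nat_lit 97) (nat_lit 5) (nat_lit 102) (nat_lit 5) (nat_lit 98) (nat_lit 5) (nat_lit 404) (nat_lit 350) (nat_lit 146)) (XT.lf (nat_lit 0) (nat_lit 15674743439) (nat_lit 304) (nat_lit 11703329581) (nat_lit 380) (nat_lit 18610989124) (nat_lit 93) (nat_lit 5) (nat_lit 97) (nat_lit 5) (nat_lit 98) (nat_lit 5) (nat_lit 405) (nat_lit 350) (nat_lit 145))))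 (XT.nd (nat_lit 156) (nat_lit 380) (nat_lit 0) (XT.nd (nat_lit 78) (nat_lit 228) (nat_lit 0) (XT.lf (nat_lit 0) (nat_lit 36391057188) (nat_lit 380) (nat_lit 6640375019) (nat_lit 76) (nat_lit 3860630738) (nat_lit 93) (nat_lit 5) (nat_lit 98) (nat_lit 5) (nat_lit 94) (nat_lit 5) (nat_lit 406) (nat_lit 350) (nat_lit 144)) (XT.lf (nat_lit 0) (nat_lit 17975465595) (nat_lit 228) (nat_lit 27985475732) (nat_lit 304) (nat_lit 1852618116) (nat_lit 90) (nat_lit 5) (nat_lit 93) (nat_lit 5) (nat_lit 94) (nat_lit 5) (nat_lit 407) (nat_lit 350) (nat_lit 143))) (XT.nd (nat_lit 78) (nat_lit 304) (nat_lit 0) (XT.lf (nat_lit 0) (nat_lit 6983122014) (nat_lit 304) (nat_lit 5366494625) (nat_lit 76) (nat_lit 36409083343) (nat_lit 89) (nat_lit 5) (nat_lit 93) (nat_lit 5) (nat_lit 90) (nat_lit 5) (nat_lit 408) (nat_lit 350) (nat_lit 142)) (XT.lf (nat_lit 0) (nat_lit 16277101574) (nat_lit 380) (nat_lit 29551881328) (nat_lit 76)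 (nat_lit 3895750364) (nat_lit 85) (nat_lit 5) (nat_lit 90) (nat_lit 5) (nat_lit 86) (nat_lit 5) (nat_lit 409) (nat_lit 350) (nat_lit 141))))))) (XT.nd (nat_lit 1014) (nat_lit 836) (nat_lit 0) (XT.nd (nat_lit 468) (nat_lit 760) (nat_lit 0) (XT.nd (nat_lit 234) (nat_lit 532) (nat_lit 0) (XT.nd (nat_lit 78) (nat_lit 228) (nat_lit 0) (XT.lf (nat_lit 0) (nat_lit 26024839782) (nat_lit 380) (nat_lit 4255697761) (nat_lit 76) (nat_lit 20433962703) (nat_lit 85) (nat_lit 5) (nat_lit 90) (nat_lit 5) (nat_lit 86) (nat_lit 5) (nat_lit 410) (nat_lit 350) (nat_lit 140)) (XT.nd (nat_lit 78) (nat_lit 0) (nat_lit 0) (XT.lf (nat_lit 0) (nat_lit 22230099710) (nat_lit 228) (nat_lit 14046598006) (nat_lit 304) (nat_lit 15450912742) (nat_lit 82) (nat_lit 5) (nat_lit 85) (nat_lit 5) (nat_lit 86) (nat_lit 5) (nat_lit 411) (nat_lit 350) (nat_lit 139)) (XT.lf (nat_lit 0) (nat_lit 46903235918) (nat_lit 304) (nat_lit 3201329821) (nat_lit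 76) (nat_lit 2664535328) (nat_lit 82) (nat_lit 5) (nat_lit 86) (nat_lit 5) (nat_lit 83) (nat_lit 5) (nat_lit 412) (nat_lit 350) (nat_lit 138)))) (XT.nd (nat_lit 78) (nat_lit 228) (nat_lit 0) (XT.lf (nat_lit 0) (nat_lit 4302121476) (nat_lit 304) (nat_lit 29658741413) (nat_lit 76) (nat_lit 19868611623) (nat_lit 78) (nat_lit 5) (nat_lit 82) (nat_lit 5) (nat_lit 79) (nat_lit 5) (nat_lit 413) (nat_lit 350) (nat_lit 137)) (XT.nd (nat_lit 78) (nat_lit 228) (nat_lit 0) (XT.lf (nat_lit 0) (nat_lit 14687979901) (nat_lit 304) (nat_lit 2552505850) (nat_lit 76) (nat_lit 37678509922) (nat_lit 78) (nat_lit 5) (nat_lit 82) (nat_lit 5) (nat_lit 79) (nat_lit 5) (nat_lit 414) (nat_lit 350) (nat_lit 136)) (XT.lf (nat_lit 0) (nat_lit 25634493795) (nat_lit 304) (nat_lit 30167276169) (nat_lit 76) (nat_lit 231960844) (nat_lit 75) (nat_lit 5) (nat_lit 79) (nat_lit 5) (nat_lit 76) (nat_lit 5) (nat_lit 415) (nat_lit 350) (nat_lit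 135))))) (XT.nd (nat_lit 234) (nat_lit 456) (nat_lit 0) (XT.nd (nat_lit 78) (nat_lit 304) (nat_lit 0) (XT.lf (nat_lit 0) (nat_lit 37104286766) (nat_lit 304) (nat_lit 2164710298) (nat_lit 76) (nat_lit 17907065138) (nat_lit 75) (nat_lit 5) (nat_lit 79) (nat_lit 5) (nat_lit 76) (nat_lit 5) (nat_lit 416) (nat_lit 350) (nat_lit 134)) (XT.nd (nat_lit 78) (nat_lit 76) (nat_lit 0) (XT.lf (nat_lit 0) (nat_lit 27205974154) (nat_lit 228) (nat_lit 21971928842) (nat_lit 304) (nat_lit 9166969348) (nat_lit 72) (nat_lit 5) (nat_lit 75) (nat_lit 5) (nat_lit 76) (nat_lit 5) (nat_lit 417) (nat_lit 350) (nat_lit 133)) (XT.lf (nat_lit 0) (nat_lit 2044977414) (nat_lit 304) (nat_lit 2068856928) (nat_lit 76) (nat_lit 55433708851) (nat_lit 71) (nat_lit 5) (nat_lit 75) (nat_lit 5) (nat_lit 72) (nat_lit 5) (nat_lit 418) (nat_lit 350) (nat_lit 132)))) (XT.nd (nat_lit 156) (nat_lit 228) (nat_lit 0) (XT.nd (nat_lit 78) (nat_lit 0)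 (nat_lit 0) (XT.lf (nat_lit 0) (nat_lit 13820507327) (nat_lit 304) (nat_lit 32583681753) (nat_lit 76) (nat_lit 14367038707) (nat_lit 68) (nat_lit 5) (nat_lit 72) (nat_lit 5) (nat_lit 69) (nat_lit 5) (nat_lit 419) (nat_lit 350) (nat_lit 131)) (XT.lf (nat_lit 0) (nat_lit 26009414459) (nat_lit 304) (nat_lit 2680668282) (nat_lit 76) (nat_lit 33339737451) (nat_lit 68) (nat_lit 5) (nat_lit 72) (nat_lit 5) (nat_lit 69) (nat_lit 5) (nat_lit 420) (nat_lit 350) (nat_lit 130))) (XT.nd (nat_lit 78) (nat_lit 0) (nat_lit 0) (XT.lf (nat_lit 0) (nat_lit 28676309946) (nat_lit 228) (nat_lit 10161665175) (nat_lit 304) (nat_lit 24479976256) (nat_lit 65) (nat_lit 5) (nat_lit 68) (nat_lit 5) (nat_lit 69) (nat_lit 5) (nat_lit 421) (nat_lit 350) (nat_lit 129)) (XT.lf (nat_lit 0) (nat_lit 52162844653) (nat_lit 304) (nat_lit 3703720613) (nat_lit 76) (nat_lit 8774818247) (nat_lit 65) (nat_lit 5) (nat_lit 69) (nat_lit 5) (nat_lit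 66) (nat_lit 5) (nat_lit 422) (nat_lit 350) (nat_lit 128)))))) (XT.nd (nat_lit 546) (nat_lit 0) (nat_lit 0) (XT.nd (nat_lit 234) (nat_lit 380) (nat_lit 0) (XT.nd (nat_lit 78) (nat_lit 228) (nat_lit 0) (XT.lf (nat_lit 0) (nat_lit 263022089) (nat_lit 228) (nat_lit 37378354964) (nat_lit 76) (nat_lit 28351841978) (nat_lit 62) (nat_lit 5) (nat_lit 65) (nat_lit 5) (nat_lit 63) (nat_lit 5) (nat_lit 423) (nat_lit 350) (nat_lit 127)) (XT.nd (nat_lit 78) (nat_lit 228) (nat_lit 0) (XT.lf (nat_lit 0) (nat_lit 13172192878) (nat_lit 228) (nat_lit 5532123500) (nat_lit 76) (nat_lit 48676502191) (nat_lit 62) (nat_lit 5) (nat_lit 65) (nat_lit 5) (nat_lit 63) (nat_lit 5) (nat_lit 424) (nat_lit 350) (nat_lit 126)) (XT.lf (nat_lit 0) (nat_lit 26744742259) (nat_lit 304) (nat_lit 41002816288) (nat_lit 76) (nat_lit 1054204955) (nat_lit 59) (nat_lit 5) (nat_lit 63) (nat_lit 5) (nat_lit 60) (nat_lit 5) (nat_lit 425) (nat_lit 350)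 (nat_lit 125)))) (XT.nd (nat_lit 156) (nat_lit 228) (nat_lit 0) (XT.nd (nat_lit 78) (nat_lit 152) (nat_lit 0) (XT.lf (nat_lit 0) (nat_lit 40964532537) (nat_lit 304) (nat_lit 8208631327) (nat_lit 76) (nat_lit 21084971488) (nat_lit 59) (nat_lit 5) (nat_lit 63) (nat_lit 5) (nat_lit 60) (nat_lit 5) (nat_lit 426) (nat_lit 350) (nat_lit 124)) (XT.lf (nat_lit 0) (nat_lit 26075705997) (nat_lit 152) (nat_lit 29784367578) (nat_lit 228) (nat_lit 15890650554) (nat_lit 57) (nat_lit 5) (nat_lit 59) (nat_lit 5) (nat_lit 60) (nat_lit 5) (nat_lit 427) (nat_lit 350) (nat_lit 123))) (XT.nd (nat_lit 78) (nat_lit 228) (nat_lit 0) (XT.lf (nat_lit 0) (nat_lit 61554362756) (nat_lit 152) (nat_lit 9729530397) (nat_lit 228) (nat_lit 2001755517) (nat_lit 57) (nat_lit 5) (nat_lit 59) (nat_lit 5) (nat_lit 60) (nat_lit 5) (nat_lit 428) (nat_lit 350) (nat_lit 122)) (XT.lf (nat_lit 0) (nat_lit 12397274875) (nat_lit 228) (nat_lit 51394775816)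 (nat_lit 76) (nat_lit 11061015747) (nat_lit 54) (nat_lit 5) (nat_lit 57) (nat_lit 5) (nat_lit 55) (nat_lit 5) (nat_lit 429) (nat_lit 350) (nat_lit 121))))) (XT.nd (nat_lit 40872) (nat_lit 0) (nat_lit 13072) (XT.nd (nat_lit 40716) (nat_lit 0) (nat_lit 13072) (XT.lf (nat_lit 0) (nat_lit 27402569999) (nat_lit 228) (nat_lit 16639689494) (nat_lit 76) (nat_lit 32418217282) (nat_lit 54) (nat_lit 5) (nat_lit 57) (nat_lit 5) (nat_lit 55) (nat_lit 5) (nat_lit 430) (nat_lit 350) (nat_lit 120)) (XT.nd (nat_lit 78) (nat_lit 0) (nat_lit 0) (XT.lf (nat_lit 0) (nat_lit 3219422762) (nat_lit 0) (nat_lit 3219422762) (nat_lit 1140) (nat_lit 2835061638) (nat_lit 226) (nat_lit 5) (nat_lit 226) (nat_lit 3) (nat_lit 241) (nat_lit 3) (nat_lit 351) (nat_lit 351) (nat_lit 198)) (XT.lf (nat_lit 0) (nat_lit 13277680665) (nat_lit 1140) (nat_lit 3432768222) (nat_lit 1216) (nat_lit 2109233511) (nat_lit 226) (nat_lit 5) (nat_lit 241)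 (nat_lit 3) (nat_lit 242) (nat_lit 5) (nat_lit 352) (nat_lit 351) (nat_lit 197)))) (XT.nd (nat_lit 156) (nat_lit 0) (nat_lit 76) (XT.nd (nat_lit 78) (nat_lit 0) (nat_lit 76) (XT.lf (nat_lit 76) (nat_lit 5544265146) (nat_lit 0) (nat_lit 8255220816) (nat_lit 1216) (nat_lit 5296931709) (nat_lit 227) (nat_lit 5) (nat_lit 226) (nat_lit 5) (nat_lit 242) (nat_lit 5) (nat_lit 353) (nat_lit 351) (nat_lit 196)) (XT.lf (nat_lit 0) (nat_lit 14369288270) (nat_lit 1140) (nat_lit 4528241957) (nat_lit 1216) (nat_lit 482959963) (nat_lit 227) (nat_lit 5) (nat_lit 242) (nat_lit 5) (nat_lit 243) (nat_lit 5) (nat_lit 354) (nat_lit 351) (nat_lit 195))) (XT.nd (nat_lit 78) (nat_lit 0) (nat_lit 0) (XT.lf (nat_lit 76) (nat_lit 4773824341) (nat_lit 0) (nat_lit 10303163226) (nat_lit 1216) (nat_lit 4592478540) (nat_lit 228) (nat_lit 5) (nat_lit 227) (nat_lit 5) (nat_lit 243) (nat_lit 5) (nat_lit 355) (nat_lit 351) (nat_lit 194))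 (XT.lf (nat_lit 76) (nat_lit 14443834945) (nat_lit 0) (nat_lit 1401149175) (nat_lit 1216) (nat_lit 4120960351) (nat_lit 228) (nat_lit 5) (nat_lit 227) (nat_lit 5) (nat_lit 243) (nat_lit 5) (nat_lit 356) (nat_lit 351) (nat_lit 193))))))))
noncomputable def xc215 : XT := (XT.nd (nat_lit 2028) (nat_lit 5396) (nat_lit 0) (XT.nd (nat_lit 1014) (nat_lit 3344) (nat_lit 0) (XT.nd (nat_lit 468) (nat_lit 760) (nat_lit 0) (XT.nd (nat_lit 234) (nat_lit 1064) (nat_lit 0) (XT.nd (nat_lit 78) (nat_lit 0) (nat_lit 0) (XT.lf (nat_lit 76) (nat_lit 4134587586) (nat_lit 0) (nat_lit 12609406480) (nat_lit 1216) (nat_lit 3524088923) (nat_lit 229) (nat_lit 5) (nat_lit 228) (nat_lit 5) (nat_lit 244) (nat_lit 5) (nat_lit 357) (nat_lit 351) (nat_lit 192)) (XT.nd (nat_lit 78) (nat_lit 0) (nat_lit 76) (XT.lf (nat_lit 76) (nat_lit 14176022571) (nat_lit 0) (nat_lit 3557159264) (nat_lit 1216) (nat_lit 2844212465) (nat_lit 229) (nat_lit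 5) (nat_lit 228) (nat_lit 5) (nat_lit 244) (nat_lit 5) (nat_lit 358) (nat_lit 351) (nat_lit 191)) (XT.lf (nat_lit 76) (nat_lit 3634092867) (nat_lit 0) (nat_lit 15202230931) (nat_lit 1216) (nat_lit 2057137514) (nat_lit 230) (nat_lit 5) (nat_lit 229) (nat_lit 5) (nat_lit 245) (nat_lit 5) (nat_lit 359) (nat_lit 351) (nat_lit 190)))) (XT.nd (nat_lit 78) (nat_lit 1140) (nat_lit 0) (XT.lf (nat_lit 76) (nat_lit 14061858742) (nat_lit 0) (nat_lit 6004267738) (nat_lit 1216) (nat_lit 1150081443) (nat_lit 230) (nat_lit 5) (nat_lit 229) (nat_lit 5) (nat_lit 245) (nat_lit 5) (nat_lit 360) (nat_lit 351) (nat_lit 189)) (XT.nd (nat_lit 78) (nat_lit 1216) (nat_lit 0) (XT.lf (nat_lit 76) (nat_lit 3280338524) (nat_lit 0) (nat_lit 18111611496) (nat_lit 1216) (nat_lit 154917560) (nat_lit 231) (nat_lit 5) (nat_lit 230) (nat_lit 5) (nat_lit 246) (nat_lit 5) (nat_lit 361) (nat_lit 351) (nat_lit 188)) (XT.lf (nat_lit 0) (nat_lit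 979841047) (nat_lit 1216) (nat_lit 7783301047) (nat_lit 1292) (nat_lit 13120256647) (nat_lit 214) (nat_lit 5) (nat_lit 230) (nat_lit 5) (nat_lit 231) (nat_lit 5) (nat_lit 362) (nat_lit 351) (nat_lit 187))))) (XT.nd (nat_lit 234) (nat_lit 836) (nat_lit 0) (XT.nd (nat_lit 78) (nat_lit 0) (nat_lit 0) (XT.lf (nat_lit 0) (nat_lit 2178146064) (nat_lit 1216) (nat_lit 19169232285) (nat_lit 1292) (nat_lit 881627027) (nat_lit 215) (nat_lit 5) (nat_lit 231) (nat_lit 5) (nat_lit 232) (nat_lit 5) (nat_lit 363) (nat_lit 351) (nat_lit 186)) (XT.nd (nat_lit 78) (nat_lit 0) (nat_lit 0) (XT.lf (nat_lit 0) (nat_lit 3573149087) (nat_lit 1216) (nat_lit 8286708698) (nat_lit 1292) (nat_lit 10720303910) (nat_lit 215) (nat_lit 5) (nat_lit 231) (nat_lit 5) (nat_lit 232) (nat_lit 5) (nat_lit 364) (nat_lit 351) (nat_lit 185)) (XT.lf (nat_lit 76) (nat_lit 2976257512) (nat_lit 0) (nat_lit 2057122078) (nat_lit 1292) (nat_lit 17907775631)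 (nat_lit 216) (nat_lit 5) (nat_lit 215) (nat_lit 5) (nat_lit 232) (nat_lit 5) (nat_lit 365) (nat_lit 351) (nat_lit 184)))) (XT.nd (nat_lit 156) (nat_lit 912) (nat_lit 0) (XT.nd (nat_lit 78) (nat_lit 0) (nat_lit 0) (XT.lf (nat_lit 0) (nat_lit 6694098632) (nat_lit 1216) (nat_lit 8645834700) (nat_lit 1292) (nat_lit 7968348498) (nat_lit 216) (nat_lit 5) (nat_lit 232) (nat_lit 5) (nat_lit 233) (nat_lit 5) (nat_lit 366) (nat_lit 351) (nat_lit 183)) (XT.lf (nat_lit 76) (nat_lit 3047791814) (nat_lit 0) (nat_lit 5401552147) (nat_lit 1292) (nat_lit 15235740752) (nat_lit 217) (nat_lit 5) (nat_lit 216) (nat_lit 5) (nat_lit 233) (nat_lit 5) (nat_lit 367) (nat_lit 351) (nat_lit 182))) (XT.nd (nat_lit 78) (nat_lit 988) (nat_lit 0) (XT.lf (nat_lit 0) (nat_lit 10387046580) (nat_lit 1216) (nat_lit 8852686012) (nat_lit 76) (nat_lit 4829568605) (nat_lit 217) (nat_lit 5) (nat_lit 233) (nat_lit 5) (nat_lit 218) (nat_lit 5)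 (nat_lit 368) (nat_lit 351) (nat_lit 181)) (XT.lf (nat_lit 0) (nat_lit 3292111990) (nat_lit 988) (nat_lit 9171188724) (nat_lit 1064) (nat_lit 11999334258) (nat_lit 204) (nat_lit 5) (nat_lit 217) (nat_lit 5) (nat_lit 218) (nat_lit 5) (nat_lit 369) (nat_lit 351) (nat_lit 180)))))) (XT.nd (nat_lit 468) (nat_lit 1520) (nat_lit 0) (XT.nd (nat_lit 234) (nat_lit 1216) (nat_lit 0) (XT.nd (nat_lit 78) (nat_lit 608) (nat_lit 0) (XT.lf (nat_lit 0) (nat_lit 14699048919) (nat_lit 1064) (nat_lit 8898990002) (nat_lit 76) (nat_lit 1266816956) (nat_lit 204) (nat_lit 5) (nat_lit 218) (nat_lit 5) (nat_lit 205) (nat_lit 5) (nat_lit 370) (nat_lit 351) (nat_lit 179)) (XT.nd (nat_lit 78) (nat_lit 0) (nat_lit 0) (XT.lf (nat_lit 0) (nat_lit 3718352474) (nat_lit 608) (nat_lit 13405595192) (nat_lit 684) (nat_lit 8151536616) (nat_lit 196) (nat_lit 5) (nat_lit 204) (nat_lit 5) (nat_lit 205) (nat_lit 5) (nat_lit 371) (nat_lit 351)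 (nat_lit 178)) (XT.lf (nat_lit 0) (nat_lit 16892584810) (nat_lit 608) (nat_lit 2814493303) (nat_lit 684) (nat_lit 5988792003) (nat_lit 196) (nat_lit 5) (nat_lit 204) (nat_lit 5) (nat_lit 205) (nat_lit 5) (nat_lit 372) (nat_lit 351) (nat_lit 177)))) (XT.nd (nat_lit 78) (nat_lit 684) (nat_lit 0) (XT.lf (nat_lit 0) (nat_lit 4335911500) (nat_lit 532) (nat_lit 18147031110) (nat_lit 608) (nat_lit 3642470741) (nat_lit 189) (nat_lit 5) (nat_lit 196) (nat_lit 5) (nat_lit 197) (nat_lit 5) (nat_lit 373) (nat_lit 351) (nat_lit 176)) (XT.nd (nat_lit 78) (nat_lit 684) (nat_lit 0) (XT.lf (nat_lit 0) (nat_lit 18017295358) (nat_lit 532) (nat_lit 7437114610) (nat_lit 608) (nat_lit 1110066049) (nat_lit 189) (nat_lit 5) (nat_lit 196) (nat_lit 5) (nat_lit 197) (nat_lit 5) (nat_lit 374) (nat_lit 351) (nat_lit 175)) (XT.lf (nat_lit 0) (nat_lit 1549919604) (nat_lit 684) (nat_lit 21875099241) (nat_lit 76) (nat_lit 3588837022)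 (nat_lit 180) (nat_lit 5) (nat_lit 189) (nat_lit 5) (nat_lit 181) (nat_lit 5) (nat_lit 375) (nat_lit 351) (nat_lit 174))))) (XT.nd (nat_lit 234) (nat_lit 988) (nat_lit 0) (XT.nd (nat_lit 78) (nat_lit 532) (nat_lit 0) (XT.lf (nat_lit 0) (nat_lit 4424190461) (nat_lit 684) (nat_lit 8153204624) (nat_lit 76) (nat_lit 14894291092) (nat_lit 180) (nat_lit 5) (nat_lit 189) (nat_lit 5) (nat_lit 181) (nat_lit 5) (nat_lit 376) (nat_lit 351) (nat_lit 173)) (XT.nd (nat_lit 78) (nat_lit 0) (nat_lit 0) (XT.lf (nat_lit 0) (nat_lit 6095329877) (nat_lit 532) (nat_lit 1344065921) (nat_lit 608) (nat_lit 20502217020) (nat_lit 173) (nat_lit 5) (nat_lit 180) (nat_lit 5) (nat_lit 181) (nat_lit 5) (nat_lit 377) (nat_lit 351) (nat_lit 172)) (XT.lf (nat_lit 0) (nat_lit 10722693689) (nat_lit 608) (nat_lit 7587866230) (nat_lit 76) (nat_lit 10109750784) (nat_lit 173) (nat_lit 5) (nat_lit 181) (nat_lit 5) (nat_lit 174) (nat_lit 5) (nat_lit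 378) (nat_lit 351) (nat_lit 171)))) (XT.nd (nat_lit 156) (nat_lit 456) (nat_lit 0) (XT.nd (nat_lit 78) (nat_lit 0) (nat_lit 0) (XT.lf (nat_lit 0) (nat_lit 7222004494) (nat_lit 532) (nat_lit 6961515692) (nat_lit 608) (nat_lit 14727480912) (nat_lit 166) (nat_lit 5) (nat_lit 173) (nat_lit 5) (nat_lit 174) (nat_lit 5) (nat_lit 379) (nat_lit 351) (nat_lit 170)) (XT.lf (nat_lit 0) (nat_lit 17867368953) (nat_lit 608) (nat_lit 6832594126) (nat_lit 76) (nat_lit 4712875594) (nat_lit 166) (nat_lit 5) (nat_lit 174) (nat_lit 5) (nat_lit 167) (nat_lit 5) (nat_lit 380) (nat_lit 351) (nat_lit 169))) (XT.nd (nat_lit 78) (nat_lit 0) (nat_lit 0) (XT.lf (nat_lit 0) (nat_lit 8563812849) (nat_lit 456) (nat_lit 13245640467) (nat_lit 532) (nat_lit 8115848777) (nat_lit 160) (nat_lit 5) (nat_lit 166) (nat_lit 5) (nat_lit 167) (nat_lit 5) (nat_lit 381) (nat_lit 351) (nat_lit 168)) (XT.lf (nat_lit 0) (nat_lit 24558338966) (nat_lit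 456) (nat_lit 1376996526) (nat_lit 532) (nat_lit 4515840121) (nat_lit 160) (nat_lit 5) (nat_lit 166) (nat_lit 5) (nat_lit 167) (nat_lit 5) (nat_lit 382) (nat_lit 351) (nat_lit 167))))))) (XT.nd (nat_lit 1014) (nat_lit 2356) (nat_lit 0) (XT.nd (nat_lit 468) (nat_lit 1596) (nat_lit 0) (XT.nd (nat_lit 234) (nat_lit 456) (nat_lit 0) (XT.nd (nat_lit 78) (nat_lit 532) (nat_lit 0) (XT.lf (nat_lit 0) (nat_lit 10129440246) (nat_lit 456) (nat_lit 20253835834) (nat_lit 532) (nat_lit 603602986) (nat_lit 154) (nat_lit 5) (nat_lit 160) (nat_lit 5) (nat_lit 161) (nat_lit 5) (nat_lit 383) (nat_lit 351) (nat_lit 166)) (XT.nd (nat_lit 78) (nat_lit 456) (nat_lit 0) (XT.lf (nat_lit 0) (nat_lit 3429540112) (nat_lit 532) (nat_lit 4834694582) (nat_lit 76) (nat_lit 23271321235) (nat_lit 153) (nat_lit 5) (nat_lit 160) (nat_lit 5) (nat_lit 154) (nat_lit 5) (nat_lit 384) (nat_lit 351) (nat_lit 165)) (XT.lf (nat_lit 0) (nat_lit 7723064618)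 (nat_lit 532) (nat_lit 20246586123) (nat_lit 76) (nat_lit 4126319503) (nat_lit 147) (nat_lit 5) (nat_lit 154) (nat_lit 5) (nat_lit 148) (nat_lit 5) (nat_lit 385) (nat_lit 351) (nat_lit 164)))) (XT.nd (nat_lit 78) (nat_lit 456) (nat_lit 0) (XT.lf (nat_lit 0) (nat_lit 12273337735) (nat_lit 532) (nat_lit 3624744912) (nat_lit 76) (nat_lit 16771277999) (nat_lit 147) (nat_lit 5) (nat_lit 154) (nat_lit 5) (nat_lit 148) (nat_lit 5) (nat_lit 386) (nat_lit 351) (nat_lit 163)) (XT.nd (nat_lit 78) (nat_lit 0) (nat_lit 0) (XT.lf (nat_lit 0) (nat_lit 13760583920) (nat_lit 456) (nat_lit 3328717519) (nat_lit 532) (nat_lit 16166777739) (nat_lit 141) (nat_lit 5) (nat_lit 147) (nat_lit 5) (nat_lit 148) (nat_lit 5) (nat_lit 387) (nat_lit 351) (nat_lit 162)) (XT.lf (nat_lit 0) (nat_lit 22176117117) (nat_lit 532) (nat_lit 2214075853) (nat_lit 76) (nat_lit 9466416936) (nat_lit 141) (nat_lit 5) (nat_lit 148) (nat_lit 5) (nat_lit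 142) (nat_lit 5) (nat_lit 388) (nat_lit 351) (nat_lit 161))))) (XT.nd (nat_lit 234) (nat_lit 760) (nat_lit 0) (XT.nd (nat_lit 78) (nat_lit 456) (nat_lit 0) (XT.lf (nat_lit 0) (nat_lit 15858659845) (nat_lit 380) (nat_lit 11739323159) (nat_lit 456) (nat_lit 6871701959) (nat_lit 136) (nat_lit 5) (nat_lit 141) (nat_lit 5) (nat_lit 142) (nat_lit 5) (nat_lit 389) (nat_lit 351) (nat_lit 160)) (XT.nd (nat_lit 78) (nat_lit 456) (nat_lit 0) (XT.lf (nat_lit 0) (nat_lit 33214584547) (nat_lit 456) (nat_lit 597824384) (nat_lit 76) (nat_lit 1287782678) (nat_lit 136) (nat_lit 5) (nat_lit 142) (nat_lit 5) (nat_lit 137) (nat_lit 5) (nat_lit 390) (nat_lit 351) (nat_lit 159)) (XT.lf (nat_lit 0) (nat_lit 3477770666) (nat_lit 456) (nat_lit 17584118448) (nat_lit 76) (nat_lit 14678055102) (nat_lit 130) (nat_lit 5) (nat_lit 136) (nat_lit 5) (nat_lit 131) (nat_lit 5) (nat_lit 391) (nat_lit 351) (nat_lit 158)))) (XT.nd (nat_lit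 156) (nat_lit 380) (nat_lit 0) (XT.nd (nat_lit 78) (nat_lit 0) (nat_lit 0) (XT.lf (nat_lit 0) (nat_lit 1084474486) (nat_lit 380) (nat_lit 7893391571) (nat_lit 456) (nat_lit 27420053390) (nat_lit 125) (nat_lit 5) (nat_lit 130) (nat_lit 5) (nat_lit 131) (nat_lit 5) (nat_lit 392) (nat_lit 351) (nat_lit 157)) (XT.lf (nat_lit 0) (nat_lit 14874026361) (nat_lit 456) (nat_lit 16456619456) (nat_lit 76) (nat_lit 5738057791) (nat_lit 125) (nat_lit 5) (nat_lit 131) (nat_lit 5) (nat_lit 126) (nat_lit 5) (nat_lit 393) (nat_lit 351) (nat_lit 156))) (XT.nd (nat_lit 78) (nat_lit 0) (nat_lit 0) (XT.lf (nat_lit 0) (nat_lit 2941634336) (nat_lit 380) (nat_lit 18109180694) (nat_lit 456) (nat_lit 16705685447) (nat_lit 120) (nat_lit 5) (nat_lit 125) (nat_lit 5) (nat_lit 126) (nat_lit 5) (nat_lit 394) (nat_lit 351) (nat_lit 155)) (XT.lf (nat_lit 0) (nat_lit 23255688907) (nat_lit 380) (nat_lit 4320757078) (nat_lit 456) (nat_lit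 10883580556) (nat_lit 120) (nat_lit 5) (nat_lit 125) (nat_lit 5) (nat_lit 126) (nat_lit 5) (nat_lit 395) (nat_lit 351) (nat_lit 154)))))) (XT.nd (nat_lit 546) (nat_lit 988) (nat_lit 0) (XT.nd (nat_lit 234) (nat_lit 608) (nat_lit 0) (XT.nd (nat_lit 78) (nat_lit 456) (nat_lit 0) (XT.lf (nat_lit 0) (nat_lit 4993502566) (nat_lit 304) (nat_lit 29444757210) (nat_lit 380) (nat_lit 4742187598) (nat_lit 116) (nat_lit 5) (nat_lit 120) (nat_lit 5) (nat_lit 121) (nat_lit 5) (nat_lit 396) (nat_lit 351) (nat_lit 153)) (XT.nd (nat_lit 78) (nat_lit 380) (nat_lit 0) (XT.lf (nat_lit 0) (nat_lit 1747825912) (nat_lit 380) (nat_lit 13871922176) (nat_lit 76) (nat_lit 24296419111) (nat_lit 115) (nat_lit 5) (nat_lit 120) (nat_lit 5) (nat_lit 116) (nat_lit 5) (nat_lit 397) (nat_lit 351) (nat_lit 152)) (XT.lf (nat_lit 0) (nat_lit 7141579660) (nat_lit 380) (nat_lit 1261814194) (nat_lit 456) (nat_lit 32267172460) (nat_lit 110) (nat_lit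 5) (nat_lit 115) (nat_lit 5) (nat_lit 116) (nat_lit 5) (nat_lit 398) (nat_lit 351) (nat_lit 151)))) (XT.nd (nat_lit 156) (nat_lit 304) (nat_lit 0) (XT.nd (nat_lit 78) (nat_lit 304) (nat_lit 0) (XT.lf (nat_lit 0) (nat_lit 15527672946) (nat_lit 456) (nat_lit 12508372810) (nat_lit 76) (nat_lit 13403481572) (nat_lit 110) (nat_lit 5) (nat_lit 116) (nat_lit 5) (nat_lit 111) (nat_lit 5) (nat_lit 399) (nat_lit 351) (nat_lit 150)) (XT.lf (nat_lit 0) (nat_lit 9308702073) (nat_lit 304) (nat_lit 13656573401) (nat_lit 380) (nat_lit 19263295059) (nat_lit 106) (nat_lit 5) (nat_lit 110) (nat_lit 5) (nat_lit 111) (nat_lit 5) (nat_lit 400) (nat_lit 351) (nat_lit 149))) (XT.nd (nat_lit 78) (nat_lit 304) (nat_lit 0) (XT.lf (nat_lit 0) (nat_lit 30762312081) (nat_lit 380) (nat_lit 11016483846) (nat_lit 76) (nat_lit 1258401101) (nat_lit 106) (nat_lit 5) (nat_lit 111) (nat_lit 5) (nat_lit 107) (nat_lit 5) (nat_lit 401) (nat_lit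 351) (nat_lit 148)) (XT.lf (nat_lit 0) (nat_lit 11632538294) (nat_lit 304) (nat_lit 27405472314) (nat_lit 380) (nat_lit 4824730330) (nat_lit 102) (nat_lit 5) (nat_lit 106) (nat_lit 5) (nat_lit 107) (nat_lit 5) (nat_lit 402) (nat_lit 351) (nat_lit 147))))) (XT.nd (nat_lit 234) (nat_lit 608) (nat_lit 0) (XT.nd (nat_lit 78) (nat_lit 304) (nat_lit 0) (XT.lf (nat_lit 0) (nat_lit 2903412796) (nat_lit 380) (nat_lit 9554600265) (nat_lit 76) (nat_lit 32250915308) (nat_lit 101) (nat_lit 5) (nat_lit 106) (nat_lit 5) (nat_lit 102) (nat_lit 5) (nat_lit 403) (nat_lit 351) (nat_lit 146)) (XT.nd (nat_lit 78) (nat_lit 0) (nat_lit 0) (XT.lf (nat_lit 0) (nat_lit 10929070742) (nat_lit 380) (nat_lit 31581133785) (nat_lit 76) (nat_lit 3063985570) (nat_lit 97) (nat_lit 5) (nat_lit 102) (nat_lit 5) (nat_lit 98) (nat_lit 5) (nat_lit 404) (nat_lit 351) (nat_lit 145)) (XT.lf (nat_lit 0) (nat_lit 19414104436) (nat_lit 380) (nat_lit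 8147003149) (nat_lit 76) (nat_lit 18897744925) (nat_lit 97) (nat_lit 5) (nat_lit 102) (nat_lit 5) (nat_lit 98) (nat_lit 5) (nat_lit 405) (nat_lit 351) (nat_lit 144)))) (XT.nd (nat_lit 156) (nat_lit 304) (nat_lit 0) (XT.nd (nat_lit 78) (nat_lit 0) (nat_lit 0) (XT.lf (nat_lit 0) (nat_lit 16305229490) (nat_lit 304) (nat_lit 12003080292) (nat_lit 380) (nat_lit 19057107380) (nat_lit 93) (nat_lit 5) (nat_lit 97) (nat_lit 5) (nat_lit 98) (nat_lit 5) (nat_lit 406) (nat_lit 351) (nat_lit 143)) (XT.lf (nat_lit 0) (nat_lit 37588991011) (nat_lit 380) (nat_lit 6681268800) (nat_lit 76) (nat_lit 4025330406) (nat_lit 93) (nat_lit 5) (nat_lit 98) (nat_lit 5) (nat_lit 94) (nat_lit 5) (nat_lit 407) (nat_lit 351) (nat_lit 142))) (XT.nd (nat_lit 78) (nat_lit 76) (nat_lit 0) (XT.lf (nat_lit 0) (nat_lit 18671494901) (nat_lit 228) (nat_lit 28772890433) (nat_lit 304) (nat_lit 1800395281) (nat_lit 90) (nat_lit 5) (nat_lit 93) (nat_lit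 5) (nat_lit 94) (nat_lit 5) (nat_lit 408) (nat_lit 351) (nat_lit 141)) (XT.lf (nat_lit 0) (nat_lit 7295234883) (nat_lit 304) (nat_lit 5373203352) (nat_lit 76) (nat_lit 37549899739) (nat_lit 89) (nat_lit 5) (nat_lit 93) (nat_lit 5) (nat_lit 90) (nat_lit 5) (nat_lit 409) (nat_lit 351) (nat_lit 140))))))))
noncomputable def xc216 : XT := (XT.nd (nat_lit 42744) (nat_lit 0) (nat_lit 8056) (XT.nd (nat_lit 1014) (nat_lit 836) (nat_lit 0) (XT.nd (nat_lit 468) (nat_lit 988) (nat_lit 0) (XT.nd (nat_lit 234) (nat_lit 304) (nat_lit 0) (XT.nd (nat_lit 78) (nat_lit 228) (nat_lit 0) (XT.lf (nat_lit 0) (nat_lit 16867010202) (nat_lit 380) (nat_lit 30283084889) (nat_lit 76) (nat_lit 4063289168) (nat_lit 85) (nat_lit 5) (nat_lit 90) (nat_lit 5) (nat_lit 86) (nat_lit 5) (nat_lit 410) (nat_lit 351) (nat_lit 139)) (XT.nd (nat_lit 78) (nat_lit 228) (nat_lit 0) (XT.lf (nat_lit 0) (nat_lit 26904221462) (nat_lit 380) (nat_lit 4232540656)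 (nat_lit 76) (nat_lit 21096172160) (nat_lit 85) (nat_lit 5) (nat_lit 90) (nat_lit 5) (nat_lit 86) (nat_lit 5) (nat_lit 411) (nat_lit 351) (nat_lit 138)) (XT.lf (nat_lit 0) (nat_lit 23046352032) (nat_lit 228) (nat_lit 14415845831) (nat_lit 304) (nat_lit 15814284271) (nat_lit 82) (nat_lit 5) (nat_lit 85) (nat_lit 5) (nat_lit 86) (nat_lit 5) (nat_lit 412) (nat_lit 351) (nat_lit 137)))) (XT.nd (nat_lit 78) (nat_lit 304) (nat_lit 0) (XT.lf (nat_lit 0) (nat_lit 48405187863) (nat_lit 304) (nat_lit 3149986540) (nat_lit 76) (nat_lit 2794114572) (nat_lit 82) (nat_lit 5) (nat_lit 86) (nat_lit 5) (nat_lit 83) (nat_lit 5) (nat_lit 413) (nat_lit 351) (nat_lit 136)) (XT.nd (nat_lit 78) (nat_lit 0) (nat_lit 0) (XT.lf (nat_lit 0) (nat_lit 4525643345) (nat_lit 304) (nat_lit 30400648299) (nat_lit 76) (nat_lit 20515196146) (nat_lit 78) (nat_lit 5) (nat_lit 82) (nat_lit 5) (nat_lit 79) (nat_lit 5) (nat_lit 414) (nat_lit 351)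 (nat_lit 135)) (XT.lf (nat_lit 0) (nat_lit 15220326312) (nat_lit 304) (nat_lit 2485532135) (nat_lit 76) (nat_lit 38857919758) (nat_lit 78) (nat_lit 5) (nat_lit 82) (nat_lit 5) (nat_lit 79) (nat_lit 5) (nat_lit 415) (nat_lit 351) (nat_lit 134))))) (XT.nd (nat_lit 234) (nat_lit 532) (nat_lit 0) (XT.nd (nat_lit 78) (nat_lit 228) (nat_lit 0) (XT.lf (nat_lit 0) (nat_lit 26494428247) (nat_lit 304) (nat_lit 30927903112) (nat_lit 76) (nat_lit 289649311) (nat_lit 75) (nat_lit 5) (nat_lit 79) (nat_lit 5) (nat_lit 76) (nat_lit 5) (nat_lit 416) (nat_lit 351) (nat_lit 133)) (XT.nd (nat_lit 78) (nat_lit 228) (nat_lit 0) (XT.lf (nat_lit 0) (nat_lit 38305667444) (nat_lit 304) (nat_lit 2089465837) (nat_lit 76) (nat_lit 18493529171) (nat_lit 75) (nat_lit 5) (nat_lit 79) (nat_lit 5) (nat_lit 76) (nat_lit 5) (nat_lit 417) (nat_lit 351) (nat_lit 132)) (XT.lf (nat_lit 0) (nat_lit 28160964778) (nat_lit 228) (nat_lit 22579291275)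 (nat_lit 304) (nat_lit 9352318921) (nat_lit 72) (nat_lit 5) (nat_lit 75) (nat_lit 5) (nat_lit 76) (nat_lit 5) (nat_lit 418) (nat_lit 351) (nat_lit 131)))) (XT.nd (nat_lit 156) (nat_lit 228) (nat_lit 0) (XT.nd (nat_lit 78) (nat_lit 228) (nat_lit 0) (XT.lf (nat_lit 0) (nat_lit 2191676180) (nat_lit 304) (nat_lit 1994424502) (nat_lit 76) (nat_lit 57145277159) (nat_lit 71) (nat_lit 5) (nat_lit 75) (nat_lit 5) (nat_lit 72) (nat_lit 5) (nat_lit 419) (nat_lit 351) (nat_lit 130)) (XT.lf (nat_lit 0) (nat_lit 14319775540) (nat_lit 304) (nat_lit 33423967365) (nat_lit 76) (nat_lit 14848051870) (nat_lit 68) (nat_lit 5) (nat_lit 72) (nat_lit 5) (nat_lit 69) (nat_lit 5) (nat_lit 420) (nat_lit 351) (nat_lit 129))) (XT.nd (nat_lit 78) (nat_lit 228) (nat_lit 0) (XT.lf (nat_lit 0) (nat_lit 26871884265) (nat_lit 304) (nat_lit 2627860330) (nat_lit 76) (nat_lit 34388475207) (nat_lit 68) (nat_lit 5) (nat_lit 72) (nat_lit 5) (nat_lit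 69) (nat_lit 5) (nat_lit 421) (nat_lit 351) (nat_lit 128)) (XT.lf (nat_lit 0) (nat_lit 29668521088) (nat_lit 228) (nat_lit 10415654965) (nat_lit 304) (nat_lit 25130853495) (nat_lit 65) (nat_lit 5) (nat_lit 68) (nat_lit 5) (nat_lit 69) (nat_lit 5) (nat_lit 422) (nat_lit 351) (nat_lit 127)))))) (XT.nd (nat_lit 468) (nat_lit 228) (nat_lit 0) (XT.nd (nat_lit 234) (nat_lit 380) (nat_lit 0) (XT.nd (nat_lit 78) (nat_lit 228) (nat_lit 0) (XT.lf (nat_lit 0) (nat_lit 53806905311) (nat_lit 304) (nat_lit 3684838723) (nat_lit 76) (nat_lit 9086478037) (nat_lit 65) (nat_lit 5) (nat_lit 69) (nat_lit 5) (nat_lit 66) (nat_lit 5) (nat_lit 423) (nat_lit 351) (nat_lit 126)) (XT.nd (nat_lit 78) (nat_lit 0) (nat_lit 0) (XT.lf (nat_lit 0) (nat_lit 349819009) (nat_lit 228) (nat_lit 38369390062) (nat_lit 76) (nat_lit 29251413244) (nat_lit 62) (nat_lit 5) (nat_lit 65) (nat_lit 5) (nat_lit 63) (nat_lit 5) (nat_lit 424) (nat_lit 351)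 (nat_lit 125)) (XT.lf (nat_lit 0) (nat_lit 13643966681) (nat_lit 228) (nat_lit 5571567252) (nat_lit 76) (nat_lit 50184385613) (nat_lit 62) (nat_lit 5) (nat_lit 65) (nat_lit 5) (nat_lit 63) (nat_lit 5) (nat_lit 425) (nat_lit 351) (nat_lit 124)))) (XT.nd (nat_lit 78) (nat_lit 152) (nat_lit 0) (XT.lf (nat_lit 0) (nat_lit 27623143239) (nat_lit 304) (nat_lit 42105806919) (nat_lit 76) (nat_lit 1134559887) (nat_lit 59) (nat_lit 5) (nat_lit 63) (nat_lit 5) (nat_lit 60) (nat_lit 5) (nat_lit 426) (nat_lit 351) (nat_lit 123)) (XT.nd (nat_lit 78) (nat_lit 152) (nat_lit 0) (XT.lf (nat_lit 0) (nat_lit 42267311923) (nat_lit 304) (nat_lit 8331498171) (nat_lit 76) (nat_lit 21764830131) (nat_lit 59) (nat_lit 5) (nat_lit 63) (nat_lit 5) (nat_lit 60) (nat_lit 5) (nat_lit 427) (nat_lit 351) (nat_lit 122)) (XT.lf (nat_lit 0) (nat_lit 26980159546) (nat_lit 152) (nat_lit 30628583359) (nat_lit 228) (nat_lit 16292293745) (nat_lit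 57) (nat_lit 5) (nat_lit 59) (nat_lit 5) (nat_lit 60) (nat_lit 5) (nat_lit 428) (nat_lit 351) (nat_lit 121))))) (XT.nd (nat_lit 40950) (nat_lit 0) (nat_lit 13072) (XT.nd (nat_lit 78) (nat_lit 228) (nat_lit 0) (XT.lf (nat_lit 0) (nat_lit 63519617298) (nat_lit 152) (nat_lit 9973537430) (nat_lit 228) (nat_lit 1988918546) (nat_lit 57) (nat_lit 5) (nat_lit 59) (nat_lit 5) (nat_lit 60) (nat_lit 5) (nat_lit 429) (nat_lit 351) (nat_lit 120)) (XT.nd (nat_lit 40794) (nat_lit 0) (nat_lit 13072) (XT.lf (nat_lit 0) (nat_lit 12840186583) (nat_lit 228) (nat_lit 52816056179) (nat_lit 76) (nat_lit 11440264644) (nat_lit 54) (nat_lit 5) (nat_lit 57) (nat_lit 5) (nat_lit 55) (nat_lit 5) (nat_lit 430) (nat_lit 351) (nat_lit 119)) (XT.lf (nat_lit 0) (nat_lit 3408183518) (nat_lit 0) (nat_lit 3408183518) (nat_lit 1140) (nat_lit 2730083631) (nat_lit 226) (nat_lit 5) (nat_lit 226) (nat_lit 3) (nat_lit 241) (nat_lit 3) (nat_lit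 352) (nat_lit 352) (nat_lit 196)))) (XT.nd (nat_lit 156) (nat_lit 0) (nat_lit 76) (XT.nd (nat_lit 78) (nat_lit 0) (nat_lit 0) (XT.lf (nat_lit 0) (nat_lit 14032263656) (nat_lit 1140) (nat_lit 3344027280) (nat_lit 1216) (nat_lit 1997016639) (nat_lit 226) (nat_lit 5) (nat_lit 241) (nat_lit 3) (nat_lit 242) (nat_lit 5) (nat_lit 353) (nat_lit 352) (nat_lit 195)) (XT.lf (nat_lit 76) (nat_lit 5900437443) (nat_lit 0) (nat_lit 8660734281) (nat_lit 1216) (nat_lit 5097437813) (nat_lit 227) (nat_lit 5) (nat_lit 226) (nat_lit 5) (nat_lit 242) (nat_lit 5) (nat_lit 354) (nat_lit 352) (nat_lit 194))) (XT.nd (nat_lit 78) (nat_lit 0) (nat_lit 0) (XT.lf (nat_lit 0) (nat_lit 15136467662) (nat_lit 1140) (nat_lit 4467912105) (nat_lit 1216) (nat_lit 347180329) (nat_lit 227) (nat_lit 5) (nat_lit 242) (nat_lit 5) (nat_lit 243) (nat_lit 5) (nat_lit 355) (nat_lit 352) (nat_lit 193)) (XT.lf (nat_lit 76) (nat_lit 5111292876) (nat_lit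 0) (nat_lit 10746183006) (nat_lit 1216) (nat_lit 4391974696) (nat_lit 228) (nat_lit 5) (nat_lit 227) (nat_lit 5) (nat_lit 243) (nat_lit 5) (nat_lit 356) (nat_lit 352) (nat_lit 192))))))) (XT.nd (nat_lit 1014) (nat_lit 4104) (nat_lit 0) (XT.nd (nat_lit 468) (nat_lit 0) (nat_lit 0) (XT.nd (nat_lit 234) (nat_lit 988) (nat_lit 0) (XT.nd (nat_lit 78) (nat_lit 0) (nat_lit 76) (XT.lf (nat_lit 76) (nat_lit 15065745920) (nat_lit 0) (nat_lit 1573207809) (nat_lit 1216) (nat_lit 3916163725) (nat_lit 228) (nat_lit 5) (nat_lit 227) (nat_lit 5) (nat_lit 243) (nat_lit 5) (nat_lit 357) (nat_lit 352) (nat_lit 191)) (XT.nd (nat_lit 78) (nat_lit 0) (nat_lit 0) (XT.lf (nat_lit 76) (nat_lit 4456319000) (nat_lit 0) (nat_lit 13100021663) (nat_lit 1216) (nat_lit 3310244451) (nat_lit 229) (nat_lit 5) (nat_lit 228) (nat_lit 5) (nat_lit 244) (nat_lit 5) (nat_lit 358) (nat_lit 352) (nat_lit 190)) (XT.lf (nat_lit 76) (nat_lit 14793238963)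 (nat_lit 0) (nat_lit 3772935196) (nat_lit 1216) (nat_lit 2619279479) (nat_lit 229) (nat_lit 5) (nat_lit 228) (nat_lit 5) (nat_lit 244) (nat_lit 5) (nat_lit 359) (nat_lit 352) (nat_lit 189)))) (XT.nd (nat_lit 78) (nat_lit 1140) (nat_lit 0) (XT.lf (nat_lit 76) (nat_lit 3943379411) (nat_lit 0) (nat_lit 15751171301) (nat_lit 1216) (nat_lit 1816694514) (nat_lit 230) (nat_lit 5) (nat_lit 229) (nat_lit 5) (nat_lit 245) (nat_lit 5) (nat_lit 360) (nat_lit 352) (nat_lit 188)) (XT.nd (nat_lit 78) (nat_lit 1140) (nat_lit 0) (XT.lf (nat_lit 76) (nat_lit 14678145338) (nat_lit 0) (nat_lit 6274564160) (nat_lit 1216) (nat_lit 891227454) (nat_lit 230) (nat_lit 5) (nat_lit 229) (nat_lit 5) (nat_lit 245) (nat_lit 5) (nat_lit 361) (nat_lit 352) (nat_lit 187)) (XT.lf (nat_lit 0) (nat_lit 123914623) (nat_lit 1216) (nat_lit 18605150349) (nat_lit 1292) (nat_lit 3455637021) (nat_lit 214) (nat_lit 5) (nat_lit 230) (nat_lit 5) (nat_lit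 231) (nat_lit 5) (nat_lit 362) (nat_lit 352) (nat_lit 186))))) (XT.nd (nat_lit 234) (nat_lit 0) (nat_lit 76) (XT.nd (nat_lit 78) (nat_lit 0) (nat_lit 76) (XT.lf (nat_lit 0) (nat_lit 1281436299) (nat_lit 1216) (nat_lit 7815012951) (nat_lit 1292) (nat_lit 13435084824) (nat_lit 214) (nat_lit 5) (nat_lit 230) (nat_lit 5) (nat_lit 231) (nat_lit 5) (nat_lit 363) (nat_lit 352) (nat_lit 185)) (XT.nd (nat_lit 78) (nat_lit 0) (nat_lit 0) (XT.lf (nat_lit 0) (nat_lit 2509044874) (nat_lit 1216) (nat_lit 19535681747) (nat_lit 1292) (nat_lit 842987497) (nat_lit 215) (nat_lit 5) (nat_lit 231) (nat_lit 5) (nat_lit 232) (nat_lit 5) (nat_lit 364) (nat_lit 352) (nat_lit 184)) (XT.lf (nat_lit 0) (nat_lit 3938163393) (nat_lit 1216) (nat_lit 8332758982) (nat_lit 1292) (nat_lit 10978720464) (nat_lit 215) (nat_lit 5) (nat_lit 231) (nat_lit 5) (nat_lit 232) (nat_lit 5) (nat_lit 365) (nat_lit 352) (nat_lit 183)))) (XT.nd (nat_lit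 156) (nat_lit 0) (nat_lit 76) (XT.nd (nat_lit 78) (nat_lit 0) (nat_lit 76) (XT.lf (nat_lit 76) (nat_lit 3266110420) (nat_lit 0) (nat_lit 2170509030) (nat_lit 1292) (nat_lit 18185019669) (nat_lit 216) (nat_lit 5) (nat_lit 215) (nat_lit 5) (nat_lit 232) (nat_lit 5) (nat_lit 366) (nat_lit 352) (nat_lit 182)) (XT.lf (nat_lit 0) (nat_lit 7139331064) (nat_lit 1216) (nat_lit 8702479006) (nat_lit 1292) (nat_lit 8158209674) (nat_lit 216) (nat_lit 5) (nat_lit 232) (nat_lit 5) (nat_lit 233) (nat_lit 5) (nat_lit 367) (nat_lit 352) (nat_lit 181))) (XT.nd (nat_lit 78) (nat_lit 0) (nat_lit 76) (XT.lf (nat_lit 76) (nat_lit 3339968746) (nat_lit 0) (nat_lit 5602075950) (nat_lit 1292) (nat_lit 15446242880) (nat_lit 217) (nat_lit 5) (nat_lit 216) (nat_lit 5) (nat_lit 233) (nat_lit 5) (nat_lit 368) (nat_lit 352) (nat_lit 180)) (XT.lf (nat_lit 0) (nat_lit 10930551715) (nat_lit 1216) (nat_lit 8915875599) (nat_lit 76) (nat_lit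 4937828082) (nat_lit 217) (nat_lit 5) (nat_lit 233) (nat_lit 5) (nat_lit 218) (nat_lit 5) (nat_lit 369) (nat_lit 352) (nat_lit 179)))))) (XT.nd (nat_lit 546) (nat_lit 1520) (nat_lit 0) (XT.nd (nat_lit 234) (nat_lit 1216) (nat_lit 0) (XT.nd (nat_lit 78) (nat_lit 608) (nat_lit 0) (XT.lf (nat_lit 0) (nat_lit 3591282116) (nat_lit 988) (nat_lit 9472983602) (nat_lit 1064) (nat_lit 12125273193) (nat_lit 204) (nat_lit 5) (nat_lit 217) (nat_lit 5) (nat_lit 218) (nat_lit 5) (nat_lit 370) (nat_lit 352) (nat_lit 178)) (XT.nd (nat_lit 78) (nat_lit 608) (nat_lit 0) (XT.lf (nat_lit 0) (nat_lit 15360223997) (nat_lit 1064) (nat_lit 8964369273) (nat_lit 76) (nat_lit 1279443796) (nat_lit 204) (nat_lit 5) (nat_lit 218) (nat_lit 5) (nat_lit 205) (nat_lit 5) (nat_lit 371) (nat_lit 352) (nat_lit 177)) (XT.lf (nat_lit 0) (nat_lit 4029517100) (nat_lit 608) (nat_lit 13823857721) (nat_lit 684) (nat_lit 8173748961) (nat_lit 196)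 (nat_lit 5) (nat_lit 204) (nat_lit 5) (nat_lit 205) (nat_lit 5) (nat_lit 372) (nat_lit 352) (nat_lit 176)))) (XT.nd (nat_lit 156) (nat_lit 684) (nat_lit 0) (XT.nd (nat_lit 78) (nat_lit 532) (nat_lit 0) (XT.lf (nat_lit 0) (nat_lit 17593162405) (nat_lit 608) (nat_lit 2914553999) (nat_lit 684) (nat_lit 5952597750) (nat_lit 196) (nat_lit 5) (nat_lit 204) (nat_lit 5) (nat_lit 205) (nat_lit 5) (nat_lit 373) (nat_lit 352) (nat_lit 175)) (XT.lf (nat_lit 0) (nat_lit 4664406634) (nat_lit 532) (nat_lit 18698111900) (nat_lit 608) (nat_lit 3540359650) (nat_lit 189) (nat_lit 5) (nat_lit 196) (nat_lit 5) (nat_lit 197) (nat_lit 5) (nat_lit 374) (nat_lit 352) (nat_lit 174))) (XT.nd (nat_lit 78) (nat_lit 684) (nat_lit 0) (XT.lf (nat_lit 0) (nat_lit 18750452849) (nat_lit 532) (nat_lit 7666703637) (nat_lit 608) (nat_lit 938139668) (nat_lit 189) (nat_lit 5) (nat_lit 196) (nat_lit 5) (nat_lit 197) (nat_lit 5) (nat_lit 375)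 (nat_lit 352) (nat_lit 173)) (XT.lf (nat_lit 0) (nat_lit 1793630027) (nat_lit 684) (nat_lit 22330428802) (nat_lit 76) (nat_lit 3694163690) (nat_lit 180) (nat_lit 5) (nat_lit 189) (nat_lit 5) (nat_lit 181) (nat_lit 5) (nat_lit 376) (nat_lit 352) (nat_lit 172))))) (XT.nd (nat_lit 234) (nat_lit 988) (nat_lit 0) (XT.nd (nat_lit 78) (nat_lit 532) (nat_lit 0) (XT.lf (nat_lit 0) (nat_lit 4748384946) (nat_lit 684) (nat_lit 8202729484) (nat_lit 76) (nat_lit 15338849491) (nat_lit 180) (nat_lit 5) (nat_lit 189) (nat_lit 5) (nat_lit 181) (nat_lit 5) (nat_lit 377) (nat_lit 352) (nat_lit 171)) (XT.nd (nat_lit 78) (nat_lit 0) (nat_lit 0) (XT.lf (nat_lit 0) (nat_lit 6471348588) (nat_lit 532) (nat_lit 1378977856) (nat_lit 608) (nat_lit 20923777270) (nat_lit 173) (nat_lit 5) (nat_lit 180) (nat_lit 5) (nat_lit 181) (nat_lit 5) (nat_lit 378) (nat_lit 352) (nat_lit 170)) (XT.lf (nat_lit 0) (nat_lit 11226705351) (nat_lit 608)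 (nat_lit 7622430083) (nat_lit 76) (nat_lit 10418193281) (nat_lit 173) (nat_lit 5) (nat_lit 181) (nat_lit 5) (nat_lit 174) (nat_lit 5) (nat_lit 379) (nat_lit 352) (nat_lit 169)))) (XT.nd (nat_lit 156) (nat_lit 456) (nat_lit 0) (XT.nd (nat_lit 78) (nat_lit 0) (nat_lit 0) (XT.lf (nat_lit 0) (nat_lit 7629843900) (nat_lit 532) (nat_lit 7158039868) (nat_lit 608) (nat_lit 14984963776) (nat_lit 166) (nat_lit 5) (nat_lit 173) (nat_lit 5) (nat_lit 174) (nat_lit 5) (nat_lit 380) (nat_lit 352) (nat_lit 168)) (XT.lf (nat_lit 0) (nat_lit 18577153532) (nat_lit 608) (nat_lit 6846752125) (nat_lit 76) (nat_lit 4865990855) (nat_lit 166) (nat_lit 5) (nat_lit 174) (nat_lit 5) (nat_lit 167) (nat_lit 5) (nat_lit 381) (nat_lit 352) (nat_lit 167))) (XT.nd (nat_lit 78) (nat_lit 0) (nat_lit 0) (XT.lf (nat_lit 0) (nat_lit 9009676276) (nat_lit 456) (nat_lit 13624579371) (nat_lit 532) (nat_lit 8183578864) (nat_lit 160) (nat_lit 5)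 (nat_lit 166) (nat_lit 5) (nat_lit 167) (nat_lit 5) (nat_lit 382) (nat_lit 352) (nat_lit 166)) (XT.lf (nat_lit 0) (nat_lit 25478534806) (nat_lit 456) (nat_lit 1400412916) (nat_lit 532) (nat_lit 4480688745) (nat_lit 160) (nat_lit 5) (nat_lit 166) (nat_lit 5) (nat_lit 167) (nat_lit 5) (nat_lit 383) (nat_lit 352) (nat_lit 165))))))))
noncomputable def xc217 : XT := (XT.nd (nat_lit 2028) (nat_lit 2508) (nat_lit 0) (XT.nd (nat_lit 1014) (nat_lit 2280) (nat_lit 0) (XT.nd (nat_lit 468) (nat_lit 1596) (nat_lit 0) (XT.nd (nat_lit 234) (nat_lit 456) (nat_lit 0) (XT.nd (nat_lit 78) (nat_lit 532) (nat_lit 0) (XT.lf (nat_lit 0) (nat_lit 10619824985) (nat_lit 456) (nat_lit 20837639396) (nat_lit 532) (nat_lit 454035650) (nat_lit 154) (nat_lit 5) (nat_lit 160) (nat_lit 5) (nat_lit 161) (nat_lit 5) (nat_lit 384) (nat_lit 352) (nat_lit 164)) (XT.nd (nat_lit 78) (nat_lit 456) (nat_lit 0) (XT.lf (nat_lit 0) (nat_lit 3692041339)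 (nat_lit 532) (nat_lit 4795390623) (nat_lit 76) (nat_lit 23989303497) (nat_lit 153) (nat_lit 5) (nat_lit 160) (nat_lit 5) (nat_lit 154) (nat_lit 5) (nat_lit 385) (nat_lit 352) (nat_lit 163)) (XT.lf (nat_lit 0) (nat_lit 8111725428) (nat_lit 532) (nat_lit 20666896936) (nat_lit 76) (nat_lit 4275422099) (nat_lit 147) (nat_lit 5) (nat_lit 154) (nat_lit 5) (nat_lit 148) (nat_lit 5) (nat_lit 386) (nat_lit 352) (nat_lit 162)))) (XT.nd (nat_lit 78) (nat_lit 456) (nat_lit 0) (XT.lf (nat_lit 0) (nat_lit 12793934830) (nat_lit 532) (nat_lit 3551849618) (nat_lit 76) (nat_lit 17298992078) (nat_lit 147) (nat_lit 5) (nat_lit 154) (nat_lit 5) (nat_lit 148) (nat_lit 5) (nat_lit 387) (nat_lit 352) (nat_lit 161)) (XT.nd (nat_lit 78) (nat_lit 0) (nat_lit 0) (XT.lf (nat_lit 0) (nat_lit 14353258317) (nat_lit 456) (nat_lit 3398409275) (nat_lit 532) (nat_lit 16497513026) (nat_lit 141) (nat_lit 5) (nat_lit 147) (nat_lit 5) (nat_lit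 148) (nat_lit 5) (nat_lit 388) (nat_lit 352) (nat_lit 160)) (XT.lf (nat_lit 0) (nat_lit 22987009485) (nat_lit 532) (nat_lit 2101713852) (nat_lit 76) (nat_lit 9779128909) (nat_lit 141) (nat_lit 5) (nat_lit 148) (nat_lit 5) (nat_lit 142) (nat_lit 5) (nat_lit 389) (nat_lit 352) (nat_lit 159))))) (XT.nd (nat_lit 234) (nat_lit 760) (nat_lit 0) (XT.nd (nat_lit 78) (nat_lit 456) (nat_lit 0) (XT.lf (nat_lit 0) (nat_lit 16511451129) (nat_lit 380) (nat_lit 12057540920) (nat_lit 456) (nat_lit 6930406240) (nat_lit 136) (nat_lit 5) (nat_lit 141) (nat_lit 5) (nat_lit 142) (nat_lit 5) (nat_lit 390) (nat_lit 352) (nat_lit 158)) (XT.nd (nat_lit 78) (nat_lit 456) (nat_lit 0) (XT.lf (nat_lit 0) (nat_lit 34350241519) (nat_lit 456) (nat_lit 439951106) (nat_lit 76) (nat_lit 1358745493) (nat_lit 136) (nat_lit 5) (nat_lit 142) (nat_lit 5) (nat_lit 137) (nat_lit 5) (nat_lit 391) (nat_lit 352) (nat_lit 157)) (XT.lf (nat_lit 0)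 (nat_lit 3720375206) (nat_lit 456) (nat_lit 17934727817) (nat_lit 76) (nat_lit 15152813466) (nat_lit 130) (nat_lit 5) (nat_lit 136) (nat_lit 5) (nat_lit 131) (nat_lit 5) (nat_lit 392) (nat_lit 352) (nat_lit 156)))) (XT.nd (nat_lit 156) (nat_lit 380) (nat_lit 0) (XT.nd (nat_lit 78) (nat_lit 0) (nat_lit 0) (XT.lf (nat_lit 0) (nat_lit 1292188453) (nat_lit 380) (nat_lit 8090941618) (nat_lit 456) (nat_lit 28102573476) (nat_lit 125) (nat_lit 5) (nat_lit 130) (nat_lit 5) (nat_lit 131) (nat_lit 5) (nat_lit 393) (nat_lit 352) (nat_lit 155)) (XT.lf (nat_lit 0) (nat_lit 15452582437) (nat_lit 456) (nat_lit 16776574442) (nat_lit 76) (nat_lit 5947564339) (nat_lit 125) (nat_lit 5) (nat_lit 131) (nat_lit 5) (nat_lit 126) (nat_lit 5) (nat_lit 394) (nat_lit 352) (nat_lit 154))) (XT.nd (nat_lit 78) (nat_lit 0) (nat_lit 0) (XT.lf (nat_lit 0) (nat_lit 3201923594) (nat_lit 380) (nat_lit 18610550502) (nat_lit 456) (nat_lit 17072746056)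 (nat_lit 120) (nat_lit 5) (nat_lit 125) (nat_lit 5) (nat_lit 126) (nat_lit 5) (nat_lit 395) (nat_lit 352) (nat_lit 153)) (XT.lf (nat_lit 0) (nat_lit 24120388922) (nat_lit 380) (nat_lit 4409694729) (nat_lit 456) (nat_lit 11079884134) (nat_lit 120) (nat_lit 5) (nat_lit 125) (nat_lit 5) (nat_lit 126) (nat_lit 5) (nat_lit 396) (nat_lit 352) (nat_lit 152)))))) (XT.nd (nat_lit 468) (nat_lit 1216) (nat_lit 0) (XT.nd (nat_lit 234) (nat_lit 304) (nat_lit 0) (XT.nd (nat_lit 78) (nat_lit 456) (nat_lit 0) (XT.lf (nat_lit 0) (nat_lit 5312133906) (nat_lit 304) (nat_lit 30283940579) (nat_lit 380) (nat_lit 4755979095) (nat_lit 116) (nat_lit 5) (nat_lit 120) (nat_lit 5) (nat_lit 121) (nat_lit 5) (nat_lit 397) (nat_lit 352) (nat_lit 151)) (XT.nd (nat_lit 78) (nat_lit 380) (nat_lit 0) (XT.lf (nat_lit 0) (nat_lit 1922558881) (nat_lit 380) (nat_lit 14121673524) (nat_lit 76) (nat_lit 25065687514) (nat_lit 115) (nat_lit 5) (nat_lit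 120) (nat_lit 5) (nat_lit 116) (nat_lit 5) (nat_lit 398) (nat_lit 352) (nat_lit 150)) (XT.lf (nat_lit 0) (nat_lit 7520601932) (nat_lit 380) (nat_lit 1255213763) (nat_lit 456) (nat_lit 33111196504) (nat_lit 110) (nat_lit 5) (nat_lit 115) (nat_lit 5) (nat_lit 116) (nat_lit 5) (nat_lit 399) (nat_lit 352) (nat_lit 149)))) (XT.nd (nat_lit 78) (nat_lit 304) (nat_lit 0) (XT.lf (nat_lit 0) (nat_lit 16110733574) (nat_lit 456) (nat_lit 12720499082) (nat_lit 76) (nat_lit 13847903866) (nat_lit 110) (nat_lit 5) (nat_lit 116) (nat_lit 5) (nat_lit 111) (nat_lit 5) (nat_lit 400) (nat_lit 352) (nat_lit 148)) (XT.nd (nat_lit 78) (nat_lit 0) (nat_lit 0) (XT.lf (nat_lit 0) (nat_lit 9749488783) (nat_lit 304) (nat_lit 14020113598) (nat_lit 380) (nat_lit 19722306233) (nat_lit 106) (nat_lit 5) (nat_lit 110) (nat_lit 5) (nat_lit 111) (nat_lit 5) (nat_lit 401) (nat_lit 352) (nat_lit 147)) (XT.lf (nat_lit 0) (nat_lit 31797620602)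 (nat_lit 380) (nat_lit 11187171573) (nat_lit 76) (nat_lit 1340091304) (nat_lit 106) (nat_lit 5) (nat_lit 111) (nat_lit 5) (nat_lit 107) (nat_lit 5) (nat_lit 402) (nat_lit 352) (nat_lit 146))))) (XT.nd (nat_lit 234) (nat_lit 532) (nat_lit 0) (XT.nd (nat_lit 78) (nat_lit 380) (nat_lit 0) (XT.lf (nat_lit 0) (nat_lit 12139754499) (nat_lit 304) (nat_lit 28180081760) (nat_lit 380) (nat_lit 4855411702) (nat_lit 102) (nat_lit 5) (nat_lit 106) (nat_lit 5) (nat_lit 107) (nat_lit 5) (nat_lit 403) (nat_lit 352) (nat_lit 145)) (XT.nd (nat_lit 78) (nat_lit 304) (nat_lit 0) (XT.lf (nat_lit 0) (nat_lit 3099092662) (nat_lit 380) (nat_lit 9685394738) (nat_lit 76) (nat_lit 33262399988) (nat_lit 101) (nat_lit 5) (nat_lit 106) (nat_lit 5) (nat_lit 102) (nat_lit 5) (nat_lit 404) (nat_lit 352) (nat_lit 144)) (XT.lf (nat_lit 0) (nat_lit 11364297074) (nat_lit 380) (nat_lit 32371450983) (nat_lit 76) (nat_lit 3202397107) (nat_lit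 97) (nat_lit 5) (nat_lit 102) (nat_lit 5) (nat_lit 98) (nat_lit 5) (nat_lit 405) (nat_lit 352) (nat_lit 143)))) (XT.nd (nat_lit 156) (nat_lit 228) (nat_lit 0) (XT.nd (nat_lit 78) (nat_lit 304) (nat_lit 0) (XT.lf (nat_lit 0) (nat_lit 20100754958) (nat_lit 380) (nat_lit 8238872646) (nat_lit 76) (nat_lit 19509815107) (nat_lit 97) (nat_lit 5) (nat_lit 102) (nat_lit 5) (nat_lit 98) (nat_lit 5) (nat_lit 406) (nat_lit 352) (nat_lit 142)) (XT.lf (nat_lit 0) (nat_lit 16945431475) (nat_lit 304) (nat_lit 12314771177) (nat_lit 380) (nat_lit 19523050579) (nat_lit 93) (nat_lit 5) (nat_lit 97) (nat_lit 5) (nat_lit 98) (nat_lit 5) (nat_lit 407) (nat_lit 352) (nat_lit 141))) (XT.nd (nat_lit 78) (nat_lit 228) (nat_lit 0) (XT.lf (nat_lit 0) (nat_lit 38816766414) (nat_lit 380) (nat_lit 6732477465) (nat_lit 76) (nat_lit 4192165110) (nat_lit 93) (nat_lit 5) (nat_lit 98) (nat_lit 5) (nat_lit 94) (nat_lit 5) (nat_lit 408) (nat_lit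 352) (nat_lit 140)) (XT.lf (nat_lit 0) (nat_lit 19379406114) (nat_lit 228) (nat_lit 29586921174) (nat_lit 304) (nat_lit 1752794002) (nat_lit 90) (nat_lit 5) (nat_lit 93) (nat_lit 5) (nat_lit 94) (nat_lit 5) (nat_lit 409) (nat_lit 352) (nat_lit 139))))))) (XT.nd (nat_lit 1014) (nat_lit 836) (nat_lit 0) (XT.nd (nat_lit 468) (nat_lit 760) (nat_lit 0) (XT.nd (nat_lit 234) (nat_lit 532) (nat_lit 0) (XT.nd (nat_lit 78) (nat_lit 304) (nat_lit 0) (XT.lf (nat_lit 0) (nat_lit 7610820376) (nat_lit 304) (nat_lit 5388969994) (nat_lit 76) (nat_lit 38722154008) (nat_lit 89) (nat_lit 5) (nat_lit 93) (nat_lit 5) (nat_lit 90) (nat_lit 5) (nat_lit 410) (nat_lit 352) (nat_lit 138)) (XT.nd (nat_lit 78) (nat_lit 0) (nat_lit 0) (XT.lf (nat_lit 0) (nat_lit 17468784086) (nat_lit 380) (nat_lit 31045142448) (nat_lit 76) (nat_lit 4232945683) (nat_lit 85) (nat_lit 5) (nat_lit 90) (nat_lit 5) (nat_lit 86) (nat_lit 5) (nat_lit 411)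 (nat_lit 352) (nat_lit 137)) (XT.lf (nat_lit 0) (nat_lit 27804322453) (nat_lit 380) (nat_lit 4217346985) (nat_lit 76) (nat_lit 21775424160) (nat_lit 85) (nat_lit 5) (nat_lit 90) (nat_lit 5) (nat_lit 86) (nat_lit 5) (nat_lit 412) (nat_lit 352) (nat_lit 136)))) (XT.nd (nat_lit 78) (nat_lit 304) (nat_lit 0) (XT.lf (nat_lit 0) (nat_lit 23878518662) (nat_lit 228) (nat_lit 14799164720) (nat_lit 304) (nat_lit 16194306301) (nat_lit 82) (nat_lit 5) (nat_lit 85) (nat_lit 5) (nat_lit 86) (nat_lit 5) (nat_lit 413) (nat_lit 352) (nat_lit 135)) (XT.nd (nat_lit 78) (nat_lit 304) (nat_lit 0) (XT.lf (nat_lit 0) (nat_lit 49946753310) (nat_lit 304) (nat_lit 3105563358) (nat_lit 76) (nat_lit 2924731470) (nat_lit 82) (nat_lit 5) (nat_lit 86) (nat_lit 5) (nat_lit 83) (nat_lit 5) (nat_lit 414) (nat_lit 352) (nat_lit 134)) (XT.lf (nat_lit 0) (nat_lit 4750448582) (nat_lit 304) (nat_lit 31173299893) (nat_lit 76) (nat_lit 21178277796)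 (nat_lit 78) (nat_lit 5) (nat_lit 82) (nat_lit 5) (nat_lit 79) (nat_lit 5) (nat_lit 415) (nat_lit 352) (nat_lit 133))))) (XT.nd (nat_lit 234) (nat_lit 532) (nat_lit 0) (XT.nd (nat_lit 78) (nat_lit 228) (nat_lit 0) (XT.lf (nat_lit 0) (nat_lit 15763378758) (nat_lit 304) (nat_lit 2424789502) (nat_lit 76) (nat_lit 40069895958) (nat_lit 78) (nat_lit 5) (nat_lit 82) (nat_lit 5) (nat_lit 79) (nat_lit 5) (nat_lit 416) (nat_lit 352) (nat_lit 132)) (XT.nd (nat_lit 78) (nat_lit 0) (nat_lit 0) (XT.lf (nat_lit 0) (nat_lit 27374942721) (nat_lit 304) (nat_lit 31719637516) (nat_lit 76) (nat_lit 346156342) (nat_lit 75) (nat_lit 5) (nat_lit 79) (nat_lit 5) (nat_lit 76) (nat_lit 5) (nat_lit 417) (nat_lit 352) (nat_lit 131)) (XT.lf (nat_lit 0) (nat_lit 39538023512) (nat_lit 304) (nat_lit 2020011279) (nat_lit 76) (nat_lit 19094759854) (nat_lit 75) (nat_lit 5) (nat_lit 79) (nat_lit 5) (nat_lit 76) (nat_lit 5) (nat_lit 418)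 (nat_lit 352) (nat_lit 130)))) (XT.nd (nat_lit 156) (nat_lit 228) (nat_lit 0) (XT.nd (nat_lit 78) (nat_lit 76) (nat_lit 0) (XT.lf (nat_lit 0) (nat_lit 29136636778) (nat_lit 228) (nat_lit 23207847850) (nat_lit 304) (nat_lit 9548375804) (nat_lit 72) (nat_lit 5) (nat_lit 75) (nat_lit 5) (nat_lit 76) (nat_lit 5) (nat_lit 419) (nat_lit 352) (nat_lit 129)) (XT.lf (nat_lit 0) (nat_lit 2337876502) (nat_lit 304) (nat_lit 1925594655) (nat_lit 76) (nat_lit 58905405144) (nat_lit 71) (nat_lit 5) (nat_lit 75) (nat_lit 5) (nat_lit 72) (nat_lit 5) (nat_lit 420) (nat_lit 352) (nat_lit 128))) (XT.nd (nat_lit 78) (nat_lit 0) (nat_lit 0) (XT.lf (nat_lit 0) (nat_lit 14829162371) (nat_lit 304) (nat_lit 34297338812) (nat_lit 76) (nat_lit 15340625108) (nat_lit 68) (nat_lit 5) (nat_lit 72) (nat_lit 5) (nat_lit 69) (nat_lit 5) (nat_lit 421) (nat_lit 352) (nat_lit 127)) (XT.lf (nat_lit 0) (nat_lit 27755510274) (nat_lit 304) (nat_lit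 2581115972) (nat_lit 76) (nat_lit 35465888378) (nat_lit 68) (nat_lit 5) (nat_lit 72) (nat_lit 5) (nat_lit 69) (nat_lit 5) (nat_lit 422) (nat_lit 352) (nat_lit 126)))))) (XT.nd (nat_lit 41418) (nat_lit 0) (nat_lit 12844) (XT.nd (nat_lit 234) (nat_lit 380) (nat_lit 0) (XT.nd (nat_lit 78) (nat_lit 228) (nat_lit 0) (XT.lf (nat_lit 0) (nat_lit 30682925711) (nat_lit 228) (nat_lit 10680184030) (nat_lit 304) (nat_lit 25806051559) (nat_lit 65) (nat_lit 5) (nat_lit 68) (nat_lit 5) (nat_lit 69) (nat_lit 5) (nat_lit 423) (nat_lit 352) (nat_lit 125)) (XT.nd (nat_lit 78) (nat_lit 228) (nat_lit 0) (XT.lf (nat_lit 0) (nat_lit 55495742801) (nat_lit 304) (nat_lit 3672852535) (nat_lit 76) (nat_lit 9404708388) (nat_lit 65) (nat_lit 5) (nat_lit 69) (nat_lit 5) (nat_lit 66) (nat_lit 5) (nat_lit 424) (nat_lit 352) (nat_lit 124)) (XT.lf (nat_lit 0) (nat_lit 434690294) (nat_lit 228) (nat_lit 39397636859) (nat_lit 76) (nat_lit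 30175157929) (nat_lit 62) (nat_lit 5) (nat_lit 65) (nat_lit 5) (nat_lit 63) (nat_lit 5) (nat_lit 425) (nat_lit 352) (nat_lit 123)))) (XT.nd (nat_lit 156) (nat_lit 152) (nat_lit 0) (XT.nd (nat_lit 78) (nat_lit 228) (nat_lit 0) (XT.lf (nat_lit 0) (nat_lit 14125496084) (nat_lit 228) (nat_lit 5619457080) (nat_lit 76) (nat_lit 51734773772) (nat_lit 62) (nat_lit 5) (nat_lit 65) (nat_lit 5) (nat_lit 63) (nat_lit 5) (nat_lit 426) (nat_lit 352) (nat_lit 122)) (XT.lf (nat_lit 0) (nat_lit 28523530167) (nat_lit 304) (nat_lit 43249182976) (nat_lit 76) (nat_lit 1214528236) (nat_lit 59) (nat_lit 5) (nat_lit 63) (nat_lit 5) (nat_lit 60) (nat_lit 5) (nat_lit 427) (nat_lit 352) (nat_lit 121))) (XT.nd (nat_lit 78) (nat_lit 152) (nat_lit 0) (XT.lf (nat_lit 0) (nat_lit 43604935776) (nat_lit 304) (nat_lit 8465134232) (nat_lit 76) (nat_lit 22462368775) (nat_lit 59) (nat_lit 5) (nat_lit 63) (nat_lit 5) (nat_lit 60) (nat_lit 5)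 (nat_lit 428) (nat_lit 352) (nat_lit 120)) (XT.lf (nat_lit 0) (nat_lit 27904732933) (nat_lit 152) (nat_lit 31500956510) (nat_lit 228) (nat_lit 16710295921) (nat_lit 57) (nat_lit 5) (nat_lit 59) (nat_lit 5) (nat_lit 60) (nat_lit 5) (nat_lit 429) (nat_lit 352) (nat_lit 119))))) (XT.nd (nat_lit 234) (nat_lit 0) (nat_lit 76) (XT.nd (nat_lit 78) (nat_lit 0) (nat_lit 0) (XT.lf (nat_lit 0) (nat_lit 3597315698) (nat_lit 0) (nat_lit 3597315698) (nat_lit 1140) (nat_lit 2632864776) (nat_lit 226) (nat_lit 5) (nat_lit 226) (nat_lit 3) (nat_lit 241) (nat_lit 3) (nat_lit 353) (nat_lit 353) (nat_lit 194)) (XT.nd (nat_lit 78) (nat_lit 0) (nat_lit 0) (XT.lf (nat_lit 0) (nat_lit 14789033782) (nat_lit 1140) (nat_lit 3263629850) (nat_lit 1216) (nat_lit 1891507328) (nat_lit 226) (nat_lit 5) (nat_lit 241) (nat_lit 3) (nat_lit 242) (nat_lit 5) (nat_lit 354) (nat_lit 353) (nat_lit 193)) (XT.lf (nat_lit 76) (nat_lit 6256397066)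 (nat_lit 0) (nat_lit 9069351522) (nat_lit 1216) (nat_lit 4912532833) (nat_lit 227) (nat_lit 5) (nat_lit 226) (nat_lit 5) (nat_lit 242) (nat_lit 5) (nat_lit 355) (nat_lit 353) (nat_lit 192)))) (XT.nd (nat_lit 156) (nat_lit 0) (nat_lit 0) (XT.nd (nat_lit 78) (nat_lit 0) (nat_lit 0) (XT.lf (nat_lit 0) (nat_lit 15907368878) (nat_lit 1140) (nat_lit 4417033727) (nat_lit 1216) (nat_lit 215953330) (nat_lit 227) (nat_lit 5) (nat_lit 242) (nat_lit 5) (nat_lit 243) (nat_lit 5) (nat_lit 356) (nat_lit 353) (nat_lit 191)) (XT.lf (nat_lit 76) (nat_lit 5447734504) (nat_lit 0) (nat_lit 11194805543) (nat_lit 1216) (nat_lit 4204874289) (nat_lit 228) (nat_lit 5) (nat_lit 227) (nat_lit 5) (nat_lit 243) (nat_lit 5) (nat_lit 357) (nat_lit 353) (nat_lit 190))) (XT.nd (nat_lit 78) (nat_lit 0) (nat_lit 76) (XT.lf (nat_lit 76) (nat_lit 15695488047) (nat_lit 0) (nat_lit 1742964283) (nat_lit 1216) (nat_lit 3724076163) (nat_lit 228)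 (nat_lit 5) (nat_lit 227) (nat_lit 5) (nat_lit 243) (nat_lit 5) (nat_lit 358) (nat_lit 353) (nat_lit 189)) (XT.lf (nat_lit 76) (nat_lit 4776353924) (nat_lit 0) (nat_lit 13598906929) (nat_lit 1216) (nat_lit 3108329106) (nat_lit 229) (nat_lit 5) (nat_lit 228) (nat_lit 5) (nat_lit 244) (nat_lit 5) (nat_lit 359) (nat_lit 353) (nat_lit 188))))))))
noncomputable def xc218 : XT := (XT.nd (nat_lit 2028) (nat_lit 5244) (nat_lit 0) (XT.nd (nat_lit 1014) (nat_lit 3800) (nat_lit 0) (XT.nd (nat_lit 468) (nat_lit 760) (nat_lit 0) (XT.nd (nat_lit 234) (nat_lit 1064) (nat_lit 0) (XT.nd (nat_lit 78) (nat_lit 0) (nat_lit 76) (XT.lf (nat_lit 76) (nat_lit 15417953951) (nat_lit 0) (nat_lit 3988923850) (nat_lit 1216) (nat_lit 2405408661) (nat_lit 229) (nat_lit 5) (nat_lit 228) (nat_lit 5) (nat_lit 244) (nat_lit 5) (nat_lit 360) (nat_lit 353) (nat_lit 187)) (XT.nd (nat_lit 78) (nat_lit 0) (nat_lit 0) (XT.lf (nat_lit 76) (nat_lit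 4250448593) (nat_lit 0) (nat_lit 16311248565) (nat_lit 1216) (nat_lit 1586383278) (nat_lit 230) (nat_lit 5) (nat_lit 229) (nat_lit 5) (nat_lit 245) (nat_lit 5) (nat_lit 361) (nat_lit 353) (nat_lit 186)) (XT.lf (nat_lit 76) (nat_lit 15301759406) (nat_lit 0) (nat_lit 6547793440) (nat_lit 1216) (nat_lit 641447704) (nat_lit 230) (nat_lit 5) (nat_lit 229) (nat_lit 5) (nat_lit 245) (nat_lit 5) (nat_lit 362) (nat_lit 353) (nat_lit 185)))) (XT.nd (nat_lit 78) (nat_lit 0) (nat_lit 0) (XT.lf (nat_lit 0) (nat_lit 391903926) (nat_lit 1216) (nat_lit 18967395026) (nat_lit 1292) (nat_lit 3482821159) (nat_lit 214) (nat_lit 5) (nat_lit 230) (nat_lit 5) (nat_lit 231) (nat_lit 5) (nat_lit 363) (nat_lit 353) (nat_lit 184)) (XT.nd (nat_lit 78) (nat_lit 0) (nat_lit 76) (XT.lf (nat_lit 0) (nat_lit 1576454013) (nat_lit 1216) (nat_lit 7859259618) (nat_lit 1292) (nat_lit 13763880114) (nat_lit 214) (nat_lit 5) (nat_lit 230) (nat_lit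 5) (nat_lit 231) (nat_lit 5) (nat_lit 364) (nat_lit 353) (nat_lit 183)) (XT.lf (nat_lit 0) (nat_lit 2834626737) (nat_lit 1216) (nat_lit 19925100766) (nat_lit 1292) (nat_lit 806925118) (nat_lit 215) (nat_lit 5) (nat_lit 231) (nat_lit 5) (nat_lit 232) (nat_lit 5) (nat_lit 365) (nat_lit 353) (nat_lit 182))))) (XT.nd (nat_lit 234) (nat_lit 836) (nat_lit 0) (XT.nd (nat_lit 78) (nat_lit 0) (nat_lit 0) (XT.lf (nat_lit 0) (nat_lit 4299328214) (nat_lit 1216) (nat_lit 8391818030) (nat_lit 1292) (nat_lit 11248517026) (nat_lit 215) (nat_lit 5) (nat_lit 231) (nat_lit 5) (nat_lit 232) (nat_lit 5) (nat_lit 366) (nat_lit 353) (nat_lit 181)) (XT.nd (nat_lit 78) (nat_lit 0) (nat_lit 76) (XT.lf (nat_lit 76) (nat_lit 3553145654) (nat_lit 0) (nat_lit 2284331332) (nat_lit 1292) (nat_lit 18485505473) (nat_lit 216) (nat_lit 5) (nat_lit 215) (nat_lit 5) (nat_lit 232) (nat_lit 5) (nat_lit 367) (nat_lit 353) (nat_lit 180)) (XT.lf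 (nat_lit 0) (nat_lit 7583890365) (nat_lit 1216) (nat_lit 8772460216) (nat_lit 1292) (nat_lit 8356590350) (nat_lit 216) (nat_lit 5) (nat_lit 232) (nat_lit 5) (nat_lit 233) (nat_lit 5) (nat_lit 368) (nat_lit 353) (nat_lit 179)))) (XT.nd (nat_lit 156) (nat_lit 912) (nat_lit 0) (XT.nd (nat_lit 78) (nat_lit 0) (nat_lit 76) (XT.lf (nat_lit 76) (nat_lit 3629387507) (nat_lit 0) (nat_lit 5806406716) (nat_lit 1292) (nat_lit 15677214205) (nat_lit 217) (nat_lit 5) (nat_lit 216) (nat_lit 5) (nat_lit 233) (nat_lit 5) (nat_lit 369) (nat_lit 353) (nat_lit 178)) (XT.lf (nat_lit 0) (nat_lit 11477050356) (nat_lit 1216) (nat_lit 8992578946) (nat_lit 76) (nat_lit 5051437916) (nat_lit 217) (nat_lit 5) (nat_lit 233) (nat_lit 5) (nat_lit 218) (nat_lit 5) (nat_lit 370) (nat_lit 353) (nat_lit 177))) (XT.nd (nat_lit 78) (nat_lit 0) (nat_lit 0) (XT.lf (nat_lit 0) (nat_lit 3887923179) (nat_lit 988) (nat_lit 9782301979) (nat_lit 1064)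 (nat_lit 12268425211) (nat_lit 204) (nat_lit 5) (nat_lit 217) (nat_lit 5) (nat_lit 218) (nat_lit 5) (nat_lit 371) (nat_lit 353) (nat_lit 176)) (XT.lf (nat_lit 0) (nat_lit 16028593740) (nat_lit 1064) (nat_lit 9043282038) (nat_lit 76) (nat_lit 1293906223) (nat_lit 204) (nat_lit 5) (nat_lit 218) (nat_lit 5) (nat_lit 205) (nat_lit 5) (nat_lit 372) (nat_lit 353) (nat_lit 175)))))) (XT.nd (nat_lit 468) (nat_lit 1976) (nat_lit 0) (XT.nd (nat_lit 234) (nat_lit 684) (nat_lit 0) (XT.nd (nat_lit 78) (nat_lit 532) (nat_lit 0) (XT.lf (nat_lit 0) (nat_lit 4338558002) (nat_lit 608) (nat_lit 14253744227) (nat_lit 684) (nat_lit 8209390544) (nat_lit 196) (nat_lit 5) (nat_lit 204) (nat_lit 5) (nat_lit 205) (nat_lit 5) (nat_lit 373) (nat_lit 353) (nat_lit 174)) (XT.nd (nat_lit 78) (nat_lit 532) (nat_lit 0) (XT.lf (nat_lit 0) (nat_lit 18303632412) (nat_lit 608) (nat_lit 3016719525) (nat_lit 684) (nat_lit 5927708803) (nat_lit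 196) (nat_lit 5) (nat_lit 204) (nat_lit 5) (nat_lit 205) (nat_lit 5) (nat_lit 374) (nat_lit 353) (nat_lit 173)) (XT.lf (nat_lit 0) (nat_lit 4991366630) (nat_lit 532) (nat_lit 19265342235) (nat_lit 608) (nat_lit 3447319602) (nat_lit 189) (nat_lit 5) (nat_lit 196) (nat_lit 5) (nat_lit 197) (nat_lit 5) (nat_lit 375) (nat_lit 353) (nat_lit 172)))) (XT.nd (nat_lit 78) (nat_lit 684) (nat_lit 0) (XT.lf (nat_lit 0) (nat_lit 19494546819) (nat_lit 532) (nat_lit 7902808609) (nat_lit 608) (nat_lit 772836443) (nat_lit 189) (nat_lit 5) (nat_lit 196) (nat_lit 5) (nat_lit 197) (nat_lit 5) (nat_lit 376) (nat_lit 353) (nat_lit 171)) (XT.nd (nat_lit 78) (nat_lit 0) (nat_lit 0) (XT.lf (nat_lit 0) (nat_lit 2033330939) (nat_lit 684) (nat_lit 22810952075) (nat_lit 76) (nat_lit 3802784394) (nat_lit 180) (nat_lit 5) (nat_lit 189) (nat_lit 5) (nat_lit 181) (nat_lit 5) (nat_lit 377) (nat_lit 353) (nat_lit 170)) (XT.lf (nat_lit 0)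 (nat_lit 5071314175) (nat_lit 684) (nat_lit 8264937980) (nat_lit 76) (nat_lit 15796874970) (nat_lit 180) (nat_lit 5) (nat_lit 189) (nat_lit 5) (nat_lit 181) (nat_lit 5) (nat_lit 378) (nat_lit 353) (nat_lit 169))))) (XT.nd (nat_lit 234) (nat_lit 912) (nat_lit 0) (XT.nd (nat_lit 78) (nat_lit 532) (nat_lit 0) (XT.lf (nat_lit 0) (nat_lit 6847559754) (nat_lit 532) (nat_lit 1415247707) (nat_lit 608) (nat_lit 21369092378) (nat_lit 173) (nat_lit 5) (nat_lit 180) (nat_lit 5) (nat_lit 181) (nat_lit 5) (nat_lit 379) (nat_lit 353) (nat_lit 168)) (XT.nd (nat_lit 78) (nat_lit 532) (nat_lit 0) (XT.lf (nat_lit 0) (nat_lit 11735370826) (nat_lit 608) (nat_lit 7669113981) (nat_lit 76) (nat_lit 10735593424) (nat_lit 173) (nat_lit 5) (nat_lit 181) (nat_lit 5) (nat_lit 174) (nat_lit 5) (nat_lit 380) (nat_lit 353) (nat_lit 167)) (XT.lf (nat_lit 0) (nat_lit 8038944015) (nat_lit 532) (nat_lit 7361167062) (nat_lit 608) (nat_lit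 15260753085) (nat_lit 166) (nat_lit 5) (nat_lit 173) (nat_lit 5) (nat_lit 174) (nat_lit 5) (nat_lit 381) (nat_lit 353) (nat_lit 166)))) (XT.nd (nat_lit 156) (nat_lit 456) (nat_lit 0) (XT.nd (nat_lit 78) (nat_lit 456) (nat_lit 0) (XT.lf (nat_lit 0) (nat_lit 19298256912) (nat_lit 608) (nat_lit 6872288704) (nat_lit 76) (nat_lit 5023026280) (nat_lit 166) (nat_lit 5) (nat_lit 174) (nat_lit 5) (nat_lit 167) (nat_lit 5) (nat_lit 382) (nat_lit 353) (nat_lit 165)) (XT.lf (nat_lit 0) (nat_lit 9458069158) (nat_lit 456) (nat_lit 14015944417) (nat_lit 532) (nat_lit 8263429357) (nat_lit 160) (nat_lit 5) (nat_lit 166) (nat_lit 5) (nat_lit 167) (nat_lit 5) (nat_lit 383) (nat_lit 353) (nat_lit 164))) (XT.nd (nat_lit 78) (nat_lit 456) (nat_lit 0) (XT.lf (nat_lit 0) (nat_lit 26415805990) (nat_lit 456) (nat_lit 1425558959) (nat_lit 532) (nat_lit 4454277492) (nat_lit 160) (nat_lit 5) (nat_lit 166) (nat_lit 5) (nat_lit 167)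 (nat_lit 5) (nat_lit 384) (nat_lit 353) (nat_lit 163)) (XT.lf (nat_lit 0) (nat_lit 11114215315) (nat_lit 456) (nat_lit 21440323944) (nat_lit 532) (nat_lit 309606548) (nat_lit 154) (nat_lit 5) (nat_lit 160) (nat_lit 5) (nat_lit 161) (nat_lit 5) (nat_lit 385) (nat_lit 353) (nat_lit 162))))))) (XT.nd (nat_lit 1014) (nat_lit 2356) (nat_lit 0) (XT.nd (nat_lit 468) (nat_lit 1520) (nat_lit 0) (XT.nd (nat_lit 234) (nat_lit 836) (nat_lit 0) (XT.nd (nat_lit 78) (nat_lit 456) (nat_lit 0) (XT.lf (nat_lit 0) (nat_lit 3953255048) (nat_lit 532) (nat_lit 4765489691) (nat_lit 76) (nat_lit 24727686180) (nat_lit 153) (nat_lit 5) (nat_lit 160) (nat_lit 5) (nat_lit 154) (nat_lit 5) (nat_lit 386) (nat_lit 353) (nat_lit 161)) (XT.nd (nat_lit 78) (nat_lit 0) (nat_lit 0) (XT.lf (nat_lit 0) (nat_lit 8503035407) (nat_lit 532) (nat_lit 21110556620) (nat_lit 76) (nat_lit 4427544703) (nat_lit 147) (nat_lit 5) (nat_lit 154) (nat_lit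 5) (nat_lit 148) (nat_lit 5) (nat_lit 387) (nat_lit 353) (nat_lit 160)) (XT.lf (nat_lit 0) (nat_lit 13321401628) (nat_lit 532) (nat_lit 3487194209) (nat_lit 76) (nat_lit 17841126832) (nat_lit 147) (nat_lit 5) (nat_lit 154) (nat_lit 5) (nat_lit 148) (nat_lit 5) (nat_lit 388) (nat_lit 353) (nat_lit 159)))) (XT.nd (nat_lit 78) (nat_lit 380) (nat_lit 0) (XT.lf (nat_lit 0) (nat_lit 14953388426) (nat_lit 456) (nat_lit 3471923652) (nat_lit 532) (nat_lit 16847025989) (nat_lit 141) (nat_lit 5) (nat_lit 147) (nat_lit 5) (nat_lit 148) (nat_lit 5) (nat_lit 389) (nat_lit 353) (nat_lit 158)) (XT.nd (nat_lit 78) (nat_lit 380) (nat_lit 0) (XT.lf (nat_lit 0) (nat_lit 23813870081) (nat_lit 532) (nat_lit 1996243941) (nat_lit 76) (nat_lit 10099573627) (nat_lit 141) (nat_lit 5) (nat_lit 148) (nat_lit 5) (nat_lit 142) (nat_lit 5) (nat_lit 390) (nat_lit 353) (nat_lit 157)) (XT.lf (nat_lit 0) (nat_lit 17173663821) (nat_lit 380)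 (nat_lit 12387254768) (nat_lit 456) (nat_lit 6999335696) (nat_lit 136) (nat_lit 5) (nat_lit 141) (nat_lit 5) (nat_lit 142) (nat_lit 5) (nat_lit 391) (nat_lit 353) (nat_lit 156))))) (XT.nd (nat_lit 234) (nat_lit 684) (nat_lit 0) (XT.nd (nat_lit 78) (nat_lit 836) (nat_lit 0) (XT.lf (nat_lit 0) (nat_lit 35511976435) (nat_lit 456) (nat_lit 287433729) (nat_lit 76) (nat_lit 1429981355) (nat_lit 136) (nat_lit 5) (nat_lit 142) (nat_lit 5) (nat_lit 137) (nat_lit 5) (nat_lit 392) (nat_lit 353) (nat_lit 155)) (XT.nd (nat_lit 78) (nat_lit 380) (nat_lit 0) (XT.lf (nat_lit 0) (nat_lit 3962320538) (nat_lit 456) (nat_lit 18306011064) (nat_lit 76) (nat_lit 15639838920) (nat_lit 130) (nat_lit 5) (nat_lit 136) (nat_lit 5) (nat_lit 131) (nat_lit 5) (nat_lit 393) (nat_lit 353) (nat_lit 154)) (XT.lf (nat_lit 0) (nat_lit 1496077806) (nat_lit 380) (nat_lit 8296671374) (nat_lit 456) (nat_lit 28813610417) (nat_lit 125) (nat_lit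 5) (nat_lit 130) (nat_lit 5) (nat_lit 131) (nat_lit 5) (nat_lit 394) (nat_lit 353) (nat_lit 153)))) (XT.nd (nat_lit 156) (nat_lit 304) (nat_lit 0) (XT.nd (nat_lit 78) (nat_lit 380) (nat_lit 0) (XT.lf (nat_lit 0) (nat_lit 16040898608) (nat_lit 456) (nat_lit 17116101672) (nat_lit 76) (nat_lit 6161211190) (nat_lit 125) (nat_lit 5) (nat_lit 131) (nat_lit 5) (nat_lit 126) (nat_lit 5) (nat_lit 395) (nat_lit 353) (nat_lit 152)) (XT.lf (nat_lit 0) (nat_lit 3460145717) (nat_lit 380) (nat_lit 19129366957) (nat_lit 456) (nat_lit 17458516944) (nat_lit 120) (nat_lit 5) (nat_lit 125) (nat_lit 5) (nat_lit 126) (nat_lit 5) (nat_lit 396) (nat_lit 353) (nat_lit 151))) (XT.nd (nat_lit 78) (nat_lit 304) (nat_lit 0) (XT.lf (nat_lit 0) (nat_lit 25001441770) (nat_lit 380) (nat_lit 4503635998) (nat_lit 456) (nat_lit 11289551052) (nat_lit 120) (nat_lit 5) (nat_lit 125) (nat_lit 5) (nat_lit 126) (nat_lit 5) (nat_lit 397) (nat_lit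 353) (nat_lit 150)) (XT.lf (nat_lit 0) (nat_lit 5630632868) (nat_lit 304) (nat_lit 31150834376) (nat_lit 380) (nat_lit 4777559278) (nat_lit 116) (nat_lit 5) (nat_lit 120) (nat_lit 5) (nat_lit 121) (nat_lit 5) (nat_lit 398) (nat_lit 353) (nat_lit 149)))))) (XT.nd (nat_lit 546) (nat_lit 1216) (nat_lit 0) (XT.nd (nat_lit 234) (nat_lit 684) (nat_lit 0) (XT.nd (nat_lit 78) (nat_lit 380) (nat_lit 0) (XT.lf (nat_lit 0) (nat_lit 2095513423) (nat_lit 380) (nat_lit 14388469817) (nat_lit 76) (nat_lit 25855716231) (nat_lit 115) (nat_lit 5) (nat_lit 120) (nat_lit 5) (nat_lit 116) (nat_lit 5) (nat_lit 399) (nat_lit 353) (nat_lit 148)) (XT.nd (nat_lit 78) (nat_lit 0) (nat_lit 0) (XT.lf (nat_lit 0) (nat_lit 7901536120) (nat_lit 380) (nat_lit 1250967210) (nat_lit 456) (nat_lit 33987658866) (nat_lit 110) (nat_lit 5) (nat_lit 115) (nat_lit 5) (nat_lit 116) (nat_lit 5) (nat_lit 400) (nat_lit 353) (nat_lit 147)) (XT.lf (nat_lit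 0) (nat_lit 16704556514) (nat_lit 456) (nat_lit 12948353179) (nat_lit 76) (nat_lit 14303229611) (nat_lit 110) (nat_lit 5) (nat_lit 116) (nat_lit 5) (nat_lit 111) (nat_lit 5) (nat_lit 401) (nat_lit 353) (nat_lit 146)))) (XT.nd (nat_lit 156) (nat_lit 380) (nat_lit 0) (XT.nd (nat_lit 78) (nat_lit 0) (nat_lit 0) (XT.lf (nat_lit 0) (nat_lit 10194226863) (nat_lit 304) (nat_lit 14397209603) (nat_lit 380) (nat_lit 20201912382) (nat_lit 106) (nat_lit 5) (nat_lit 110) (nat_lit 5) (nat_lit 111) (nat_lit 5) (nat_lit 402) (nat_lit 353) (nat_lit 145)) (XT.lf (nat_lit 0) (nat_lit 32857533912) (nat_lit 380) (nat_lit 11372153495) (nat_lit 76) (nat_lit 1421709983) (nat_lit 106) (nat_lit 5) (nat_lit 111) (nat_lit 5) (nat_lit 107) (nat_lit 5) (nat_lit 403) (nat_lit 353) (nat_lit 144))) (XT.nd (nat_lit 78) (nat_lit 76) (nat_lit 0) (XT.lf (nat_lit 0) (nat_lit 12653103563) (nat_lit 304) (nat_lit 28980659325) (nat_lit 380) (nat_lit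 4893561057) (nat_lit 102) (nat_lit 5) (nat_lit 106) (nat_lit 5) (nat_lit 107) (nat_lit 5) (nat_lit 404) (nat_lit 353) (nat_lit 143)) (XT.lf (nat_lit 0) (nat_lit 3294410131) (nat_lit 380) (nat_lit 9829059101) (nat_lit 76) (nat_lit 34301705884) (nat_lit 101) (nat_lit 5) (nat_lit 106) (nat_lit 5) (nat_lit 102) (nat_lit 5) (nat_lit 405) (nat_lit 353) (nat_lit 142))))) (XT.nd (nat_lit 234) (nat_lit 608) (nat_lit 0) (XT.nd (nat_lit 78) (nat_lit 304) (nat_lit 0) (XT.lf (nat_lit 0) (nat_lit 11806417626) (nat_lit 380) (nat_lit 33194496846) (nat_lit 76) (nat_lit 3342292160) (nat_lit 97) (nat_lit 5) (nat_lit 102) (nat_lit 5) (nat_lit 98) (nat_lit 5) (nat_lit 406) (nat_lit 353) (nat_lit 141)) (XT.nd (nat_lit 78) (nat_lit 304) (nat_lit 0) (XT.lf (nat_lit 0) (nat_lit 20802021917) (nat_lit 380) (nat_lit 8342254683) (nat_lit 76) (nat_lit 20137656299) (nat_lit 97) (nat_lit 5) (nat_lit 102) (nat_lit 5) (nat_lit 98) (nat_lit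 5) (nat_lit 407) (nat_lit 353) (nat_lit 140)) (XT.lf (nat_lit 0) (nat_lit 17596168914) (nat_lit 304) (nat_lit 12638591235) (nat_lit 380) (nat_lit 20009043705) (nat_lit 93) (nat_lit 5) (nat_lit 97) (nat_lit 5) (nat_lit 98) (nat_lit 5) (nat_lit 408) (nat_lit 353) (nat_lit 139)))) (XT.nd (nat_lit 156) (nat_lit 380) (nat_lit 0) (XT.nd (nat_lit 78) (nat_lit 228) (nat_lit 0) (XT.lf (nat_lit 0) (nat_lit 40075628604) (nat_lit 380) (nat_lit 6793788768) (nat_lit 76) (nat_lit 4361359973) (nat_lit 93) (nat_lit 5) (nat_lit 98) (nat_lit 5) (nat_lit 94) (nat_lit 5) (nat_lit 409) (nat_lit 353) (nat_lit 138)) (XT.lf (nat_lit 0) (nat_lit 20100072269) (nat_lit 228) (nat_lit 30428194592) (nat_lit 304) (nat_lit 1709597694) (nat_lit 90) (nat_lit 5) (nat_lit 93) (nat_lit 5) (nat_lit 94) (nat_lit 5) (nat_lit 410) (nat_lit 353) (nat_lit 137))) (XT.nd (nat_lit 78) (nat_lit 304) (nat_lit 0) (XT.lf (nat_lit 0) (nat_lit 7930320825)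 (nat_lit 304) (nat_lit 5413557881) (nat_lit 76) (nat_lit 39926949251) (nat_lit 89) (nat_lit 5) (nat_lit 93) (nat_lit 5) (nat_lit 90) (nat_lit 5) (nat_lit 411) (nat_lit 353) (nat_lit 136)) (XT.lf (nat_lit 0) (nat_lit 18083113966) (nat_lit 380) (nat_lit 31838467701) (nat_lit 76) (nat_lit 4404950399) (nat_lit 85) (nat_lit 5) (nat_lit 90) (nat_lit 5) (nat_lit 86) (nat_lit 5) (nat_lit 412) (nat_lit 353) (nat_lit 135))))))))
noncomputable def xc219 : XT := (XT.nd (nat_lit 42978) (nat_lit 0) (nat_lit 6688) (XT.nd (nat_lit 1014) (nat_lit 456) (nat_lit 0) (XT.nd (nat_lit 468) (nat_lit 760) (nat_lit 0) (XT.nd (nat_lit 234) (nat_lit 532) (nat_lit 0) (XT.nd (nat_lit 78) (nat_lit 228) (nat_lit 0) (XT.lf (nat_lit 0) (nat_lit 28726089367) (nat_lit 380) (nat_lit 4209858637) (nat_lit 76) (nat_lit 22472392074) (nat_lit 85) (nat_lit 5) (nat_lit 90) (nat_lit 5) (nat_lit 86) (nat_lit 5) (nat_lit 413) (nat_lit 353) (nat_lit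 134)) (XT.nd (nat_lit 78) (nat_lit 0) (nat_lit 0) (XT.lf (nat_lit 0) (nat_lit 24727569168) (nat_lit 228) (nat_lit 15196804959) (nat_lit 304) (nat_lit 16591148312) (nat_lit 82) (nat_lit 5) (nat_lit 85) (nat_lit 5) (nat_lit 86) (nat_lit 5) (nat_lit 414) (nat_lit 353) (nat_lit 133)) (XT.lf (nat_lit 0) (nat_lit 51529433231) (nat_lit 304) (nat_lit 3067782217) (nat_lit 76) (nat_lit 3056580740) (nat_lit 82) (nat_lit 5) (nat_lit 86) (nat_lit 5) (nat_lit 83) (nat_lit 5) (nat_lit 415) (nat_lit 353) (nat_lit 132)))) (XT.nd (nat_lit 78) (nat_lit 228) (nat_lit 0) (XT.lf (nat_lit 0) (nat_lit 4976886949) (nat_lit 304) (nat_lit 31977131320) (nat_lit 76) (nat_lit 21858517981) (nat_lit 78) (nat_lit 5) (nat_lit 82) (nat_lit 5) (nat_lit 79) (nat_lit 5) (nat_lit 416) (nat_lit 353) (nat_lit 131)) (XT.nd (nat_lit 78) (nat_lit 228) (nat_lit 0) (XT.lf (nat_lit 0) (nat_lit 16317760616) (nat_lit 304) (nat_lit 2369991857) (nat_lit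 76) (nat_lit 41315577158) (nat_lit 78) (nat_lit 5) (nat_lit 82) (nat_lit 5) (nat_lit 79) (nat_lit 5) (nat_lit 417) (nat_lit 353) (nat_lit 130)) (XT.lf (nat_lit 0) (nat_lit 28276954153) (nat_lit 304) (nat_lit 32542936804) (nat_lit 76) (nat_lit 401613662) (nat_lit 75) (nat_lit 5) (nat_lit 79) (nat_lit 5) (nat_lit 76) (nat_lit 5) (nat_lit 418) (nat_lit 353) (nat_lit 129))))) (XT.nd (nat_lit 234) (nat_lit 456) (nat_lit 0) (XT.nd (nat_lit 78) (nat_lit 304) (nat_lit 0) (XT.lf (nat_lit 0) (nat_lit 40802575043) (nat_lit 304) (nat_lit 1956058377) (nat_lit 76) (nat_lit 19711362484) (nat_lit 75) (nat_lit 5) (nat_lit 79) (nat_lit 5) (nat_lit 76) (nat_lit 5) (nat_lit 419) (nat_lit 353) (nat_lit 128)) (XT.nd (nat_lit 78) (nat_lit 76) (nat_lit 0) (XT.lf (nat_lit 0) (nat_lit 30134068012) (nat_lit 228) (nat_lit 23858063714) (nat_lit 304) (nat_lit 9755165768) (nat_lit 72) (nat_lit 5) (nat_lit 75) (nat_lit 5) (nat_lit 76)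 (nat_lit 5) (nat_lit 420) (nat_lit 353) (nat_lit 127)) (XT.lf (nat_lit 0) (nat_lit 2483844673) (nat_lit 304) (nat_lit 1862085671) (nat_lit 76) (nat_lit 60715709602) (nat_lit 71) (nat_lit 5) (nat_lit 75) (nat_lit 5) (nat_lit 72) (nat_lit 5) (nat_lit 421) (nat_lit 353) (nat_lit 126)))) (XT.nd (nat_lit 156) (nat_lit 228) (nat_lit 0) (XT.nd (nat_lit 78) (nat_lit 0) (nat_lit 0) (XT.lf (nat_lit 0) (nat_lit 15349250331) (nat_lit 304) (nat_lit 35204336483) (nat_lit 76) (nat_lit 15845269992) (nat_lit 68) (nat_lit 5) (nat_lit 72) (nat_lit 5) (nat_lit 69) (nat_lit 5) (nat_lit 422) (nat_lit 353) (nat_lit 125)) (XT.lf (nat_lit 0) (nat_lit 28661197997) (nat_lit 304) (nat_lit 2540178098) (nat_lit 76) (nat_lit 36572997195) (nat_lit 68) (nat_lit 5) (nat_lit 72) (nat_lit 5) (nat_lit 69) (nat_lit 5) (nat_lit 423) (nat_lit 353) (nat_lit 124))) (XT.nd (nat_lit 78) (nat_lit 0) (nat_lit 0) (XT.lf (nat_lit 0) (nat_lit 31720624331)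 (nat_lit 228) (nat_lit 10955400953) (nat_lit 304) (nat_lit 26506024848) (nat_lit 65) (nat_lit 5) (nat_lit 68) (nat_lit 5) (nat_lit 69) (nat_lit 5) (nat_lit 424) (nat_lit 353) (nat_lit 123)) (XT.lf (nat_lit 0) (nat_lit 57230961330) (nat_lit 304) (nat_lit 3667540562) (nat_lit 76) (nat_lit 9729865956) (nat_lit 65) (nat_lit 5) (nat_lit 69) (nat_lit 5) (nat_lit 66) (nat_lit 5) (nat_lit 425) (nat_lit 353) (nat_lit 122)))))) (XT.nd (nat_lit 41418) (nat_lit 0) (nat_lit 12692) (XT.nd (nat_lit 234) (nat_lit 0) (nat_lit 0) (XT.nd (nat_lit 78) (nat_lit 228) (nat_lit 0) (XT.lf (nat_lit 0) (nat_lit 517838190) (nat_lit 228) (nat_lit 40463782285) (nat_lit 76) (nat_lit 31123962755) (nat_lit 62) (nat_lit 5) (nat_lit 65) (nat_lit 5) (nat_lit 63) (nat_lit 5) (nat_lit 426) (nat_lit 353) (nat_lit 121)) (XT.nd (nat_lit 78) (nat_lit 228) (nat_lit 0) (XT.lf (nat_lit 0) (nat_lit 14617326197) (nat_lit 228) (nat_lit 5675629454) (nat_lit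 76) (nat_lit 53329098623) (nat_lit 62) (nat_lit 5) (nat_lit 65) (nat_lit 5) (nat_lit 63) (nat_lit 5) (nat_lit 427) (nat_lit 353) (nat_lit 120)) (XT.lf (nat_lit 0) (nat_lit 29446813253) (nat_lit 304) (nat_lit 44433737218) (nat_lit 76) (nat_lit 1294258976) (nat_lit 59) (nat_lit 5) (nat_lit 63) (nat_lit 5) (nat_lit 60) (nat_lit 5) (nat_lit 428) (nat_lit 353) (nat_lit 119)))) (XT.nd (nat_lit 41028) (nat_lit 0) (nat_lit 12692) (XT.lf (nat_lit 0) (nat_lit 44978692763) (nat_lit 304) (nat_lit 8609455981) (nat_lit 76) (nat_lit 23178273715) (nat_lit 59) (nat_lit 5) (nat_lit 63) (nat_lit 5) (nat_lit 60) (nat_lit 5) (nat_lit 429) (nat_lit 353) (nat_lit 118)) (XT.nd (nat_lit 78) (nat_lit 0) (nat_lit 0) (XT.lf (nat_lit 0) (nat_lit 3787134193) (nat_lit 0) (nat_lit 3787134193) (nat_lit 1140) (nat_lit 2543011654) (nat_lit 226) (nat_lit 5) (nat_lit 226) (nat_lit 3) (nat_lit 241) (nat_lit 3) (nat_lit 354) (nat_lit 354) (nat_lit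 192)) (XT.lf (nat_lit 0) (nat_lit 15549230591) (nat_lit 1140) (nat_lit 3191194465) (nat_lit 1216) (nat_lit 1792328511) (nat_lit 226) (nat_lit 5) (nat_lit 241) (nat_lit 3) (nat_lit 242) (nat_lit 5) (nat_lit 355) (nat_lit 354) (nat_lit 191))))) (XT.nd (nat_lit 234) (nat_lit 0) (nat_lit 76) (XT.nd (nat_lit 78) (nat_lit 0) (nat_lit 76) (XT.lf (nat_lit 76) (nat_lit 6612763217) (nat_lit 0) (nat_lit 9481685826) (nat_lit 1216) (nat_lit 4741473418) (nat_lit 227) (nat_lit 5) (nat_lit 226) (nat_lit 5) (nat_lit 242) (nat_lit 5) (nat_lit 356) (nat_lit 354) (nat_lit 190)) (XT.nd (nat_lit 78) (nat_lit 0) (nat_lit 0) (XT.lf (nat_lit 0) (nat_lit 16683211102) (nat_lit 1140) (nat_lit 4375243918) (nat_lit 1216) (nat_lit 88920374) (nat_lit 227) (nat_lit 5) (nat_lit 242) (nat_lit 5) (nat_lit 243) (nat_lit 5) (nat_lit 357) (nat_lit 354) (nat_lit 189)) (XT.lf (nat_lit 76) (nat_lit 5783758529) (nat_lit 0) (nat_lit 11649640233)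 (nat_lit 1216) (nat_lit 4030464719) (nat_lit 228) (nat_lit 5) (nat_lit 227) (nat_lit 5) (nat_lit 243) (nat_lit 5) (nat_lit 358) (nat_lit 354) (nat_lit 188)))) (XT.nd (nat_lit 156) (nat_lit 0) (nat_lit 76) (XT.nd (nat_lit 78) (nat_lit 0) (nat_lit 76) (XT.lf (nat_lit 76) (nat_lit 16333917727) (nat_lit 0) (nat_lit 1910777992) (nat_lit 1216) (nat_lit 3543996701) (nat_lit 228) (nat_lit 5) (nat_lit 227) (nat_lit 5) (nat_lit 243) (nat_lit 5) (nat_lit 359) (nat_lit 354) (nat_lit 187)) (XT.lf (nat_lit 76) (nat_lit 5095292910) (nat_lit 0) (nat_lit 14106680542) (nat_lit 1216) (nat_lit 2917647714) (nat_lit 229) (nat_lit 5) (nat_lit 228) (nat_lit 5) (nat_lit 244) (nat_lit 5) (nat_lit 360) (nat_lit 354) (nat_lit 186))) (XT.nd (nat_lit 78) (nat_lit 0) (nat_lit 76) (XT.lf (nat_lit 76) (nat_lit 16051024966) (nat_lit 0) (nat_lit 4205490988) (nat_lit 1216) (nat_lit 2201909498) (nat_lit 229) (nat_lit 5) (nat_lit 228) (nat_lit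 5) (nat_lit 244) (nat_lit 5) (nat_lit 361) (nat_lit 354) (nat_lit 185)) (XT.lf (nat_lit 76) (nat_lit 4555893806) (nat_lit 0) (nat_lit 16883102872) (nat_lit 1216) (nat_lit 1365512084) (nat_lit 230) (nat_lit 5) (nat_lit 229) (nat_lit 5) (nat_lit 245) (nat_lit 5) (nat_lit 362) (nat_lit 354) (nat_lit 184))))))) (XT.nd (nat_lit 1014) (nat_lit 3724) (nat_lit 0) (XT.nd (nat_lit 468) (nat_lit 1368) (nat_lit 0) (XT.nd (nat_lit 234) (nat_lit 0) (nat_lit 76) (XT.nd (nat_lit 78) (nat_lit 1140) (nat_lit 0) (XT.lf (nat_lit 76) (nat_lit 15933561465) (nat_lit 0) (nat_lit 6824340690) (nat_lit 1216) (nat_lit 400047744) (nat_lit 230) (nat_lit 5) (nat_lit 229) (nat_lit 5) (nat_lit 245) (nat_lit 5) (nat_lit 363) (nat_lit 354) (nat_lit 183)) (XT.nd (nat_lit 78) (nat_lit 0) (nat_lit 0) (XT.lf (nat_lit 0) (nat_lit 652762622) (nat_lit 1216) (nat_lit 19351753070) (nat_lit 1292) (nat_lit 3515211371) (nat_lit 214) (nat_lit 5) (nat_lit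 230) (nat_lit 5) (nat_lit 231) (nat_lit 5) (nat_lit 364) (nat_lit 354) (nat_lit 182)) (XT.lf (nat_lit 0) (nat_lit 1865593826) (nat_lit 1216) (nat_lit 7915752157) (nat_lit 1292) (nat_lit 14106801932) (nat_lit 214) (nat_lit 5) (nat_lit 230) (nat_lit 5) (nat_lit 231) (nat_lit 5) (nat_lit 365) (nat_lit 354) (nat_lit 181)))) (XT.nd (nat_lit 78) (nat_lit 0) (nat_lit 0) (XT.lf (nat_lit 0) (nat_lit 3155607209) (nat_lit 1216) (nat_lit 20337490952) (nat_lit 1292) (nat_lit 773302724) (nat_lit 215) (nat_lit 5) (nat_lit 231) (nat_lit 5) (nat_lit 232) (nat_lit 5) (nat_lit 366) (nat_lit 354) (nat_lit 180)) (XT.nd (nat_lit 78) (nat_lit 0) (nat_lit 0) (XT.lf (nat_lit 0) (nat_lit 4657377643) (nat_lit 1216) (nat_lit 8463608651) (nat_lit 1292) (nat_lit 11529826762) (nat_lit 215) (nat_lit 5) (nat_lit 231) (nat_lit 5) (nat_lit 232) (nat_lit 5) (nat_lit 367) (nat_lit 354) (nat_lit 179)) (XT.lf (nat_lit 76) (nat_lit 3837939590)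 (nat_lit 0) (nat_lit 2398772321) (nat_lit 1292) (nat_lit 18809073573) (nat_lit 216) (nat_lit 5) (nat_lit 215) (nat_lit 5) (nat_lit 232) (nat_lit 5) (nat_lit 368) (nat_lit 354) (nat_lit 178))))) (XT.nd (nat_lit 234) (nat_lit 1520) (nat_lit 0) (XT.nd (nat_lit 78) (nat_lit 0) (nat_lit 0) (XT.lf (nat_lit 0) (nat_lit 8028561727) (nat_lit 1216) (nat_lit 8855510390) (nat_lit 1292) (nat_lit 8563584023) (nat_lit 216) (nat_lit 5) (nat_lit 232) (nat_lit 5) (nat_lit 233) (nat_lit 5) (nat_lit 369) (nat_lit 354) (nat_lit 177)) (XT.nd (nat_lit 78) (nat_lit 0) (nat_lit 76) (XT.lf (nat_lit 76) (nat_lit 3916626847) (nat_lit 0) (nat_lit 6014785446) (nat_lit 1292) (nat_lit 15928456296) (nat_lit 217) (nat_lit 5) (nat_lit 216) (nat_lit 5) (nat_lit 233) (nat_lit 5) (nat_lit 370) (nat_lit 354) (nat_lit 176)) (XT.lf (nat_lit 0) (nat_lit 12027396449) (nat_lit 1216) (nat_lit 9082534538) (nat_lit 76) (nat_lit 5170437921) (nat_lit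 217) (nat_lit 5) (nat_lit 233) (nat_lit 5) (nat_lit 218) (nat_lit 5) (nat_lit 371) (nat_lit 354) (nat_lit 175)))) (XT.nd (nat_lit 156) (nat_lit 608) (nat_lit 0) (XT.nd (nat_lit 78) (nat_lit 0) (nat_lit 0) (XT.lf (nat_lit 0) (nat_lit 4182619691) (nat_lit 988) (nat_lit 10099457407) (nat_lit 1064) (nat_lit 12428535487) (nat_lit 204) (nat_lit 5) (nat_lit 217) (nat_lit 5) (nat_lit 218) (nat_lit 5) (nat_lit 372) (nat_lit 354) (nat_lit 174)) (XT.lf (nat_lit 0) (nat_lit 16705099608) (nat_lit 1064) (nat_lit 9135470015) (nat_lit 76) (nat_lit 1310175679) (nat_lit 204) (nat_lit 5) (nat_lit 218) (nat_lit 5) (nat_lit 205) (nat_lit 5) (nat_lit 373) (nat_lit 354) (nat_lit 173))) (XT.nd (nat_lit 78) (nat_lit 0) (nat_lit 0) (XT.lf (nat_lit 0) (nat_lit 4646069242) (nat_lit 608) (nat_lit 14695656463) (nat_lit 684) (nat_lit 8258131600) (nat_lit 196) (nat_lit 5) (nat_lit 204) (nat_lit 5) (nat_lit 205) (nat_lit 5) (nat_lit 374)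 (nat_lit 354) (nat_lit 172)) (XT.lf (nat_lit 0) (nat_lit 19024930219) (nat_lit 608) (nat_lit 3121104518) (nat_lit 684) (nat_lit 5913753018) (nat_lit 196) (nat_lit 5) (nat_lit 204) (nat_lit 5) (nat_lit 205) (nat_lit 5) (nat_lit 375) (nat_lit 354) (nat_lit 171)))))) (XT.nd (nat_lit 546) (nat_lit 1444) (nat_lit 0) (XT.nd (nat_lit 234) (nat_lit 1064) (nat_lit 0) (XT.nd (nat_lit 78) (nat_lit 684) (nat_lit 0) (XT.lf (nat_lit 0) (nat_lit 5317399264) (nat_lit 532) (nat_lit 19849228583) (nat_lit 608) (nat_lit 3362926166) (nat_lit 189) (nat_lit 5) (nat_lit 196) (nat_lit 5) (nat_lit 197) (nat_lit 5) (nat_lit 376) (nat_lit 354) (nat_lit 170)) (XT.nd (nat_lit 78) (nat_lit 684) (nat_lit 0) (XT.lf (nat_lit 0) (nat_lit 20250540151) (nat_lit 532) (nat_lit 8145646343) (nat_lit 608) (nat_lit 613678795) (nat_lit 189) (nat_lit 5) (nat_lit 196) (nat_lit 5) (nat_lit 197) (nat_lit 5) (nat_lit 377) (nat_lit 354) (nat_lit 169))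 (XT.lf (nat_lit 0) (nat_lit 2269551917) (nat_lit 684) (nat_lit 23316762784) (nat_lit 76) (nat_lit 3914790249) (nat_lit 180) (nat_lit 5) (nat_lit 189) (nat_lit 5) (nat_lit 181) (nat_lit 5) (nat_lit 378) (nat_lit 354) (nat_lit 168)))) (XT.nd (nat_lit 156) (nat_lit 532) (nat_lit 0) (XT.nd (nat_lit 78) (nat_lit 532) (nat_lit 0) (XT.lf (nat_lit 0) (nat_lit 5393571124) (nat_lit 684) (nat_lit 8339567816) (nat_lit 76) (nat_lit 16268764057) (nat_lit 180) (nat_lit 5) (nat_lit 189) (nat_lit 5) (nat_lit 181) (nat_lit 5) (nat_lit 379) (nat_lit 354) (nat_lit 167)) (XT.lf (nat_lit 0) (nat_lit 7224605652) (nat_lit 532) (nat_lit 1452898386) (nat_lit 608) (nat_lit 21838237343) (nat_lit 173) (nat_lit 5) (nat_lit 180) (nat_lit 5) (nat_lit 181) (nat_lit 5) (nat_lit 380) (nat_lit 354) (nat_lit 166))) (XT.nd (nat_lit 78) (nat_lit 532) (nat_lit 0) (XT.lf (nat_lit 0) (nat_lit 12249430550) (nat_lit 608) (nat_lit 7727645309) (nat_lit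 76) (nat_lit 11062236912) (nat_lit 173) (nat_lit 5) (nat_lit 181) (nat_lit 5) (nat_lit 174) (nat_lit 5) (nat_lit 381) (nat_lit 354) (nat_lit 165)) (XT.lf (nat_lit 0) (nat_lit 8449972641) (nat_lit 532) (nat_lit 7571054763) (nat_lit 608) (nat_lit 15554790586) (nat_lit 166) (nat_lit 5) (nat_lit 173) (nat_lit 5) (nat_lit 174) (nat_lit 5) (nat_lit 382) (nat_lit 354) (nat_lit 164))))) (XT.nd (nat_lit 234) (nat_lit 988) (nat_lit 0) (XT.nd (nat_lit 78) (nat_lit 456) (nat_lit 0) (XT.lf (nat_lit 0) (nat_lit 20031591248) (nat_lit 608) (nat_lit 6908916423) (nat_lit 76) (nat_lit 5184138126) (nat_lit 166) (nat_lit 5) (nat_lit 174) (nat_lit 5) (nat_lit 167) (nat_lit 5) (nat_lit 383) (nat_lit 354) (nat_lit 163)) (XT.nd (nat_lit 78) (nat_lit 0) (nat_lit 0) (XT.lf (nat_lit 0) (nat_lit 9909690008) (nat_lit 456) (nat_lit 14420047657) (nat_lit 532) (nat_lit 8355184747) (nat_lit 160) (nat_lit 5) (nat_lit 166) (nat_lit 5) (nat_lit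 167) (nat_lit 5) (nat_lit 384) (nat_lit 354) (nat_lit 162)) (XT.lf (nat_lit 0) (nat_lit 27371269272) (nat_lit 456) (nat_lit 1452427580) (nat_lit 532) (nat_lit 4436306311) (nat_lit 160) (nat_lit 5) (nat_lit 166) (nat_lit 5) (nat_lit 167) (nat_lit 5) (nat_lit 385) (nat_lit 354) (nat_lit 161)))) (XT.nd (nat_lit 156) (nat_lit 456) (nat_lit 0) (XT.nd (nat_lit 78) (nat_lit 76) (nat_lit 0) (XT.lf (nat_lit 0) (nat_lit 11613345970) (nat_lit 456) (nat_lit 22062377441) (nat_lit 532) (nat_lit 169917300) (nat_lit 154) (nat_lit 5) (nat_lit 160) (nat_lit 5) (nat_lit 161) (nat_lit 5) (nat_lit 386) (nat_lit 354) (nat_lit 160)) (XT.lf (nat_lit 0) (nat_lit 4213668581) (nat_lit 532) (nat_lit 4744666418) (nat_lit 76) (nat_lit 25487146681) (nat_lit 153) (nat_lit 5) (nat_lit 160) (nat_lit 5) (nat_lit 154) (nat_lit 5) (nat_lit 387) (nat_lit 354) (nat_lit 159))) (XT.nd (nat_lit 78) (nat_lit 0) (nat_lit 0) (XT.lf (nat_lit 0) (nat_lit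 8897591278) (nat_lit 532) (nat_lit 21577649146) (nat_lit 76) (nat_lit 4582861327) (nat_lit 147) (nat_lit 5) (nat_lit 154) (nat_lit 5) (nat_lit 148) (nat_lit 5) (nat_lit 388) (nat_lit 354) (nat_lit 158)) (XT.lf (nat_lit 0) (nat_lit 13856446405) (nat_lit 532) (nat_lit 3430427344) (nat_lit 76) (nat_lit 18398195862) (nat_lit 147) (nat_lit 5) (nat_lit 154) (nat_lit 5) (nat_lit 148) (nat_lit 5) (nat_lit 389) (nat_lit 354) (nat_lit 157))))))))
noncomputable def xc220 : XT := (XT.nd (nat_lit 2028) (nat_lit 1520) (nat_lit 0) (XT.nd (nat_lit 1014) (nat_lit 2128) (nat_lit 0) (XT.nd (nat_lit 468) (nat_lit 1140) (nat_lit 0) (XT.nd (nat_lit 234) (nat_lit 836) (nat_lit 0) (XT.nd (nat_lit 78) (nat_lit 380) (nat_lit 0) (XT.lf (nat_lit 0) (nat_lit 15561790588) (nat_lit 456) (nat_lit 3549275912) (nat_lit 532) (nat_lit 17215371608) (nat_lit 141) (nat_lit 5) (nat_lit 147) (nat_lit 5) (nat_lit 148) (nat_lit 5) (nat_lit 390)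 (nat_lit 354) (nat_lit 156)) (XT.nd (nat_lit 78) (nat_lit 380) (nat_lit 0) (XT.lf (nat_lit 0) (nat_lit 24657657765) (nat_lit 532) (nat_lit 1897283745) (nat_lit 76) (nat_lit 10428077708) (nat_lit 141) (nat_lit 5) (nat_lit 148) (nat_lit 5) (nat_lit 142) (nat_lit 5) (nat_lit 391) (nat_lit 354) (nat_lit 155)) (XT.lf (nat_lit 0) (nat_lit 17846163920) (nat_lit 380) (nat_lit 12728697673) (nat_lit 456) (nat_lit 7078311214) (nat_lit 136) (nat_lit 5) (nat_lit 141) (nat_lit 5) (nat_lit 142) (nat_lit 5) (nat_lit 392) (nat_lit 354) (nat_lit 154)))) (XT.nd (nat_lit 78) (nat_lit 836) (nat_lit 0) (XT.lf (nat_lit 0) (nat_lit 36701030393) (nat_lit 456) (nat_lit 139853602) (nat_lit 76) (nat_lit 1501604990) (nat_lit 136) (nat_lit 5) (nat_lit 142) (nat_lit 5) (nat_lit 137) (nat_lit 5) (nat_lit 393) (nat_lit 354) (nat_lit 153)) (XT.nd (nat_lit 78) (nat_lit 380) (nat_lit 0) (XT.lf (nat_lit 0) (nat_lit 4204042519) (nat_lit 456)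 (nat_lit 18698005434) (nat_lit 76) (nat_lit 16139612890) (nat_lit 130) (nat_lit 5) (nat_lit 136) (nat_lit 5) (nat_lit 131) (nat_lit 5) (nat_lit 394) (nat_lit 354) (nat_lit 152)) (XT.lf (nat_lit 0) (nat_lit 1696605063) (nat_lit 380) (nat_lit 8510696888) (nat_lit 456) (nat_lit 29553558117) (nat_lit 125) (nat_lit 5) (nat_lit 130) (nat_lit 5) (nat_lit 131) (nat_lit 5) (nat_lit 395) (nat_lit 354) (nat_lit 151))))) (XT.nd (nat_lit 234) (nat_lit 760) (nat_lit 0) (XT.nd (nat_lit 78) (nat_lit 380) (nat_lit 0) (XT.lf (nat_lit 0) (nat_lit 16639703753) (nat_lit 456) (nat_lit 17475215787) (nat_lit 76) (nat_lit 6379245679) (nat_lit 125) (nat_lit 5) (nat_lit 131) (nat_lit 5) (nat_lit 126) (nat_lit 5) (nat_lit 396) (nat_lit 354) (nat_lit 150)) (XT.nd (nat_lit 78) (nat_lit 0) (nat_lit 0) (XT.lf (nat_lit 0) (nat_lit 3716805603) (nat_lit 380) (nat_lit 19666015372) (nat_lit 456) (nat_lit 17863117496) (nat_lit 120) (nat_lit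 5) (nat_lit 125) (nat_lit 5) (nat_lit 126) (nat_lit 5) (nat_lit 397) (nat_lit 354) (nat_lit 149)) (XT.lf (nat_lit 0) (nat_lit 25899888435) (nat_lit 380) (nat_lit 4602596928) (nat_lit 456) (nat_lit 11512553160) (nat_lit 120) (nat_lit 5) (nat_lit 125) (nat_lit 5) (nat_lit 126) (nat_lit 5) (nat_lit 398) (nat_lit 354) (nat_lit 148)))) (XT.nd (nat_lit 156) (nat_lit 380) (nat_lit 0) (XT.nd (nat_lit 78) (nat_lit 76) (nat_lit 0) (XT.lf (nat_lit 0) (nat_lit 5949551802) (nat_lit 304) (nat_lit 32046124399) (nat_lit 380) (nat_lit 4806738455) (nat_lit 116) (nat_lit 5) (nat_lit 120) (nat_lit 5) (nat_lit 121) (nat_lit 5) (nat_lit 399) (nat_lit 354) (nat_lit 147)) (XT.lf (nat_lit 0) (nat_lit 2267039185) (nat_lit 380) (nat_lit 14672274055) (nat_lit 76) (nat_lit 26667261120) (nat_lit 115) (nat_lit 5) (nat_lit 120) (nat_lit 5) (nat_lit 116) (nat_lit 5) (nat_lit 400) (nat_lit 354) (nat_lit 146))) (XT.nd (nat_lit 78) (nat_lit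 0) (nat_lit 0) (XT.lf (nat_lit 0) (nat_lit 8284982552) (nat_lit 380) (nat_lit 1248998662) (nat_lit 456) (nat_lit 34897124119) (nat_lit 110) (nat_lit 5) (nat_lit 115) (nat_lit 5) (nat_lit 116) (nat_lit 5) (nat_lit 401) (nat_lit 354) (nat_lit 145)) (XT.lf (nat_lit 0) (nat_lit 17309850936) (nat_lit 456) (nat_lit 13191869403) (nat_lit 76) (nat_lit 14769925358) (nat_lit 110) (nat_lit 5) (nat_lit 116) (nat_lit 5) (nat_lit 111) (nat_lit 5) (nat_lit 402) (nat_lit 354) (nat_lit 144)))))) (XT.nd (nat_lit 468) (nat_lit 1140) (nat_lit 0) (XT.nd (nat_lit 234) (nat_lit 380) (nat_lit 0) (XT.nd (nat_lit 78) (nat_lit 304) (nat_lit 0) (XT.lf (nat_lit 0) (nat_lit 10643567115) (nat_lit 304) (nat_lit 14788115990) (nat_lit 380) (nat_lit 20702339592) (nat_lit 106) (nat_lit 5) (nat_lit 110) (nat_lit 5) (nat_lit 111) (nat_lit 5) (nat_lit 403) (nat_lit 354) (nat_lit 143)) (XT.nd (nat_lit 78) (nat_lit 304) (nat_lit 0) (XT.lf (nat_lit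 0) (nat_lit 33943160665) (nat_lit 380) (nat_lit 11571331838) (nat_lit 76) (nat_lit 1503399777) (nat_lit 106) (nat_lit 5) (nat_lit 111) (nat_lit 5) (nat_lit 107) (nat_lit 5) (nat_lit 404) (nat_lit 354) (nat_lit 142)) (XT.lf (nat_lit 0) (nat_lit 13173290909) (nat_lit 304) (nat_lit 29807827349) (nat_lit 380) (nat_lit 4939026578) (nat_lit 102) (nat_lit 5) (nat_lit 106) (nat_lit 5) (nat_lit 107) (nat_lit 5) (nat_lit 405) (nat_lit 354) (nat_lit 141)))) (XT.nd (nat_lit 78) (nat_lit 304) (nat_lit 0) (XT.lf (nat_lit 0) (nat_lit 3489712121) (nat_lit 380) (nat_lit 9985465911) (nat_lit 76) (nat_lit 35369812482) (nat_lit 101) (nat_lit 5) (nat_lit 106) (nat_lit 5) (nat_lit 102) (nat_lit 5) (nat_lit 406) (nat_lit 354) (nat_lit 140)) (XT.nd (nat_lit 78) (nat_lit 0) (nat_lit 0) (XT.lf (nat_lit 0) (nat_lit 12255992981) (nat_lit 380) (nat_lit 34050735496) (nat_lit 76) (nat_lit 3483868437) (nat_lit 97) (nat_lit 5) (nat_lit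 102) (nat_lit 5) (nat_lit 98) (nat_lit 5) (nat_lit 407) (nat_lit 354) (nat_lit 139)) (XT.lf (nat_lit 0) (nat_lit 21518687260) (nat_lit 380) (nat_lit 8456991978) (nat_lit 76) (nat_lit 20781890369) (nat_lit 97) (nat_lit 5) (nat_lit 102) (nat_lit 5) (nat_lit 98) (nat_lit 5) (nat_lit 408) (nat_lit 354) (nat_lit 138))))) (XT.nd (nat_lit 234) (nat_lit 608) (nat_lit 0) (XT.nd (nat_lit 78) (nat_lit 228) (nat_lit 0) (XT.lf (nat_lit 0) (nat_lit 18258255597) (nat_lit 304) (nat_lit 12974744845) (nat_lit 380) (nat_lit 20515339721) (nat_lit 93) (nat_lit 5) (nat_lit 97) (nat_lit 5) (nat_lit 98) (nat_lit 5) (nat_lit 409) (nat_lit 354) (nat_lit 137)) (XT.nd (nat_lit 78) (nat_lit 228) (nat_lit 0) (XT.lf (nat_lit 0) (nat_lit 41366840056) (nat_lit 380) (nat_lit 6865014042) (nat_lit 76) (nat_lit 4533137628) (nat_lit 93) (nat_lit 5) (nat_lit 98) (nat_lit 5) (nat_lit 94) (nat_lit 5) (nat_lit 410) (nat_lit 354) (nat_lit 136))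 (XT.lf (nat_lit 0) (nat_lit 20834362939) (nat_lit 228) (nat_lit 31297365985) (nat_lit 304) (nat_lit 1670603668) (nat_lit 90) (nat_lit 5) (nat_lit 93) (nat_lit 5) (nat_lit 94) (nat_lit 5) (nat_lit 411) (nat_lit 354) (nat_lit 135)))) (XT.nd (nat_lit 156) (nat_lit 228) (nat_lit 0) (XT.nd (nat_lit 78) (nat_lit 304) (nat_lit 0) (XT.lf (nat_lit 0) (nat_lit 8254172421) (nat_lit 304) (nat_lit 5446752427) (nat_lit 76) (nat_lit 41165412477) (nat_lit 89) (nat_lit 5) (nat_lit 93) (nat_lit 5) (nat_lit 90) (nat_lit 5) (nat_lit 412) (nat_lit 354) (nat_lit 134)) (XT.lf (nat_lit 0) (nat_lit 18710692084) (nat_lit 380) (nat_lit 32663516142) (nat_lit 76) (nat_lit 4579531133) (nat_lit 85) (nat_lit 5) (nat_lit 90) (nat_lit 5) (nat_lit 86) (nat_lit 5) (nat_lit 413) (nat_lit 354) (nat_lit 133))) (XT.nd (nat_lit 78) (nat_lit 228) (nat_lit 0) (XT.lf (nat_lit 0) (nat_lit 29670478552) (nat_lit 380) (nat_lit 4209838289) (nat_lit 76)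 (nat_lit 23187760169) (nat_lit 85) (nat_lit 5) (nat_lit 90) (nat_lit 5) (nat_lit 86) (nat_lit 5) (nat_lit 414) (nat_lit 354) (nat_lit 132)) (XT.lf (nat_lit 0) (nat_lit 25594473957) (nat_lit 228) (nat_lit 15609034207) (nat_lit 304) (nat_lit 17005003810) (nat_lit 82) (nat_lit 5) (nat_lit 85) (nat_lit 5) (nat_lit 86) (nat_lit 5) (nat_lit 415) (nat_lit 354) (nat_lit 131))))))) (XT.nd (nat_lit 42120) (nat_lit 0) (nat_lit 11552) (XT.nd (nat_lit 468) (nat_lit 760) (nat_lit 0) (XT.nd (nat_lit 234) (nat_lit 456) (nat_lit 0) (XT.nd (nat_lit 78) (nat_lit 304) (nat_lit 0) (XT.lf (nat_lit 0) (nat_lit 53154755687) (nat_lit 304) (nat_lit 3036384594) (nat_lit 76) (nat_lit 3189853547) (nat_lit 82) (nat_lit 5) (nat_lit 86) (nat_lit 5) (nat_lit 83) (nat_lit 5) (nat_lit 416) (nat_lit 354) (nat_lit 130)) (XT.nd (nat_lit 78) (nat_lit 0) (nat_lit 0) (XT.lf (nat_lit 0) (nat_lit 5205300834) (nat_lit 304) (nat_lit 32812618725)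 (nat_lit 76) (nat_lit 22556588396) (nat_lit 78) (nat_lit 5) (nat_lit 82) (nat_lit 5) (nat_lit 79) (nat_lit 5) (nat_lit 417) (nat_lit 354) (nat_lit 129)) (XT.lf (nat_lit 0) (nat_lit 16884096615) (nat_lit 304) (nat_lit 2320871677) (nat_lit 76) (nat_lit 42596126876) (nat_lit 78) (nat_lit 5) (nat_lit 82) (nat_lit 5) (nat_lit 79) (nat_lit 5) (nat_lit 418) (nat_lit 354) (nat_lit 128)))) (XT.nd (nat_lit 78) (nat_lit 228) (nat_lit 0) (XT.lf (nat_lit 0) (nat_lit 29201389792) (nat_lit 304) (nat_lit 33398299432) (nat_lit 76) (nat_lit 456147347) (nat_lit 75) (nat_lit 5) (nat_lit 79) (nat_lit 5) (nat_lit 76) (nat_lit 5) (nat_lit 419) (nat_lit 354) (nat_lit 127)) (XT.nd (nat_lit 78) (nat_lit 228) (nat_lit 0) (XT.lf (nat_lit 0) (nat_lit 42100562018) (nat_lit 304) (nat_lit 1897336754) (nat_lit 76) (nat_lit 20343951199) (nat_lit 75) (nat_lit 5) (nat_lit 79) (nat_lit 5) (nat_lit 76) (nat_lit 5) (nat_lit 420) (nat_lit 354)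 (nat_lit 126)) (XT.lf (nat_lit 0) (nat_lit 31154342414) (nat_lit 228) (nat_lit 24530427766) (nat_lit 304) (nat_lit 9972732315) (nat_lit 72) (nat_lit 5) (nat_lit 75) (nat_lit 5) (nat_lit 76) (nat_lit 5) (nat_lit 421) (nat_lit 354) (nat_lit 125))))) (XT.nd (nat_lit 234) (nat_lit 456) (nat_lit 0) (XT.nd (nat_lit 78) (nat_lit 228) (nat_lit 0) (XT.lf (nat_lit 0) (nat_lit 2629838829) (nat_lit 304) (nat_lit 1803633203) (nat_lit 76) (nat_lit 62577846650) (nat_lit 71) (nat_lit 5) (nat_lit 75) (nat_lit 5) (nat_lit 72) (nat_lit 5) (nat_lit 422) (nat_lit 354) (nat_lit 124)) (XT.nd (nat_lit 78) (nat_lit 0) (nat_lit 0) (XT.lf (nat_lit 0) (nat_lit 15880623390) (nat_lit 304) (nat_lit 36145542934) (nat_lit 76) (nat_lit 16362503981) (nat_lit 68) (nat_lit 5) (nat_lit 72) (nat_lit 5) (nat_lit 69) (nat_lit 5) (nat_lit 423) (nat_lit 354) (nat_lit 123)) (XT.lf (nat_lit 0) (nat_lit 29589864567) (nat_lit 304) (nat_lit 2504807088)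 (nat_lit 76) (nat_lit 37710843314) (nat_lit 68) (nat_lit 5) (nat_lit 72) (nat_lit 5) (nat_lit 69) (nat_lit 5) (nat_lit 424) (nat_lit 354) (nat_lit 122)))) (XT.nd (nat_lit 156) (nat_lit 228) (nat_lit 0) (XT.nd (nat_lit 78) (nat_lit 0) (nat_lit 0) (XT.lf (nat_lit 0) (nat_lit 32782725528) (nat_lit 228) (nat_lit 11241468394) (nat_lit 304) (nat_lit 27231257193) (nat_lit 65) (nat_lit 5) (nat_lit 68) (nat_lit 5) (nat_lit 69) (nat_lit 5) (nat_lit 425) (nat_lit 354) (nat_lit 121)) (XT.lf (nat_lit 0) (nat_lit 59014198252) (nat_lit 304) (nat_lit 3668699261) (nat_lit 76) (nat_lit 10062308938) (nat_lit 65) (nat_lit 5) (nat_lit 69) (nat_lit 5) (nat_lit 66) (nat_lit 5) (nat_lit 426) (nat_lit 354) (nat_lit 120))) (XT.nd (nat_lit 78) (nat_lit 0) (nat_lit 0) (XT.lf (nat_lit 0) (nat_lit 599456084) (nat_lit 228) (nat_lit 41568558531) (nat_lit 76) (nat_lit 32098731772) (nat_lit 62) (nat_lit 5) (nat_lit 65) (nat_lit 5) (nat_lit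 63) (nat_lit 5) (nat_lit 427) (nat_lit 354) (nat_lit 119)) (XT.lf (nat_lit 0) (nat_lit 15120003991) (nat_lit 228) (nat_lit 5739939869) (nat_lit 76) (nat_lit 54968826082) (nat_lit 62) (nat_lit 5) (nat_lit 65) (nat_lit 5) (nat_lit 63) (nat_lit 5) (nat_lit 428) (nat_lit 354) (nat_lit 118)))))) (XT.nd (nat_lit 546) (nat_lit 912) (nat_lit 0) (XT.nd (nat_lit 234) (nat_lit 0) (nat_lit 0) (XT.nd (nat_lit 78) (nat_lit 0) (nat_lit 0) (XT.lf (nat_lit 0) (nat_lit 3977945904) (nat_lit 0) (nat_lit 3977945904) (nat_lit 1140) (nat_lit 2460154992) (nat_lit 226) (nat_lit 5) (nat_lit 226) (nat_lit 3) (nat_lit 241) (nat_lit 3) (nat_lit 355) (nat_lit 355) (nat_lit 190)) (XT.nd (nat_lit 78) (nat_lit 0) (nat_lit 0) (XT.lf (nat_lit 0) (nat_lit 16314063428) (nat_lit 1140) (nat_lit 3126364476) (nat_lit 1216) (nat_lit 1699125006) (nat_lit 226) (nat_lit 5) (nat_lit 241) (nat_lit 3) (nat_lit 242) (nat_lit 5) (nat_lit 356) (nat_lit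 355) (nat_lit 189)) (XT.lf (nat_lit 76) (nat_lit 6970137761) (nat_lit 0) (nat_lit 9898339019) (nat_lit 1216) (nat_lit 4583561716) (nat_lit 227) (nat_lit 5) (nat_lit 226) (nat_lit 5) (nat_lit 242) (nat_lit 5) (nat_lit 357) (nat_lit 355) (nat_lit 188)))) (XT.nd (nat_lit 156) (nat_lit 0) (nat_lit 76) (XT.nd (nat_lit 78) (nat_lit 0) (nat_lit 76) (XT.lf (nat_lit 76) (nat_lit 17430581103) (nat_lit 0) (nat_lit 34941290) (nat_lit 1216) (nat_lit 4307600581) (nat_lit 227) (nat_lit 5) (nat_lit 226) (nat_lit 5) (nat_lit 242) (nat_lit 5) (nat_lit 358) (nat_lit 355) (nat_lit 187)) (XT.lf (nat_lit 76) (nat_lit 6119955788) (nat_lit 0) (nat_lit 12111289422) (nat_lit 1216) (nat_lit 3868075993) (nat_lit 228) (nat_lit 5) (nat_lit 227) (nat_lit 5) (nat_lit 243) (nat_lit 5) (nat_lit 359) (nat_lit 355) (nat_lit 186))) (XT.nd (nat_lit 78) (nat_lit 0) (nat_lit 76) (XT.lf (nat_lit 76) (nat_lit 16981881379) (nat_lit 0) (nat_lit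 2076994518) (nat_lit 1216) (nat_lit 3375265469) (nat_lit 228) (nat_lit 5) (nat_lit 227) (nat_lit 5) (nat_lit 243) (nat_lit 5) (nat_lit 360) (nat_lit 355) (nat_lit 185)) (XT.lf (nat_lit 76) (nat_lit 5413717131) (nat_lit 0) (nat_lit 14623958068) (nat_lit 1216) (nat_lit 2737544697) (nat_lit 229) (nat_lit 5) (nat_lit 228) (nat_lit 5) (nat_lit 244) (nat_lit 5) (nat_lit 361) (nat_lit 355) (nat_lit 184))))) (XT.nd (nat_lit 234) (nat_lit 1064) (nat_lit 0) (XT.nd (nat_lit 78) (nat_lit 0) (nat_lit 76) (XT.lf (nat_lit 76) (nat_lit 16693298854) (nat_lit 0) (nat_lit 4422992717) (nat_lit 1216) (nat_lit 2008129454) (nat_lit 229) (nat_lit 5) (nat_lit 228) (nat_lit 5) (nat_lit 244) (nat_lit 5) (nat_lit 362) (nat_lit 355) (nat_lit 183)) (XT.nd (nat_lit 78) (nat_lit 0) (nat_lit 0) (XT.lf (nat_lit 76) (nat_lit 4860288365) (nat_lit 0) (nat_lit 17467376003) (nat_lit 1216) (nat_lit 1153425611) (nat_lit 230) (nat_lit 5) (nat_lit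 229) (nat_lit 5) (nat_lit 245) (nat_lit 5) (nat_lit 363) (nat_lit 355) (nat_lit 182)) (XT.lf (nat_lit 76) (nat_lit 16574401071) (nat_lit 0) (nat_lit 7104585517) (nat_lit 1216) (nat_lit 166367782) (nat_lit 230) (nat_lit 5) (nat_lit 229) (nat_lit 5) (nat_lit 245) (nat_lit 5) (nat_lit 364) (nat_lit 355) (nat_lit 181)))) (XT.nd (nat_lit 156) (nat_lit 0) (nat_lit 76) (XT.nd (nat_lit 78) (nat_lit 0) (nat_lit 0) (XT.lf (nat_lit 0) (nat_lit 907147629) (nat_lit 1216) (nat_lit 19758242313) (nat_lit 1292) (nat_lit 3552711804) (nat_lit 214) (nat_lit 5) (nat_lit 230) (nat_lit 5) (nat_lit 231) (nat_lit 5) (nat_lit 365) (nat_lit 355) (nat_lit 180)) (XT.lf (nat_lit 0) (nat_lit 2149524873) (nat_lit 1216) (nat_lit 7984231179) (nat_lit 1292) (nat_lit 14464029380) (nat_lit 214) (nat_lit 5) (nat_lit 230) (nat_lit 5) (nat_lit 231) (nat_lit 5) (nat_lit 366) (nat_lit 355) (nat_lit 179))) (XT.nd (nat_lit 78) (nat_lit 0) (nat_lit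 0) (XT.lf (nat_lit 0) (nat_lit 3472673078) (nat_lit 1216) (nat_lit 20772893429) (nat_lit 1292) (nat_lit 741991345) (nat_lit 215) (nat_lit 5) (nat_lit 231) (nat_lit 5) (nat_lit 232) (nat_lit 5) (nat_lit 367) (nat_lit 355) (nat_lit 178)) (XT.lf (nat_lit 0) (nat_lit 5013019023) (nat_lit 1216) (nat_lit 8547883657) (nat_lit 1292) (nat_lit 11822798788) (nat_lit 215) (nat_lit 5) (nat_lit 231) (nat_lit 5) (nat_lit 232) (nat_lit 5) (nat_lit 368) (nat_lit 355) (nat_lit 177))))))))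
noncomputable def xc221 : XT := (XT.nd (nat_lit 2028) (nat_lit 4256) (nat_lit 0) (XT.nd (nat_lit 1014) (nat_lit 3192) (nat_lit 0) (XT.nd (nat_lit 468) (nat_lit 2356) (nat_lit 0) (XT.nd (nat_lit 234) (nat_lit 836) (nat_lit 0) (XT.nd (nat_lit 78) (nat_lit 0) (nat_lit 76) (XT.lf (nat_lit 76) (nat_lit 4121047961) (nat_lit 0) (nat_lit 2514011057) (nat_lit 1292) (nat_lit 19155608892) (nat_lit 216) (nat_lit 5) (nat_lit 215) (nat_lit 5) (nat_lit 232) (nat_lit 5) (nat_lit 369) (nat_lit 355) (nat_lit 176)) (XT.nd (nat_lit 78) (nat_lit 0) (nat_lit 0) (XT.lf (nat_lit 0) (nat_lit 8474107665) (nat_lit 1216) (nat_lit 8951391903) (nat_lit 1292) (nat_lit 8779296297) (nat_lit 216) (nat_lit 5) (nat_lit 232) (nat_lit 5) (nat_lit 233) (nat_lit 5) (nat_lit 370) (nat_lit 355) (nat_lit 175)) (XT.lf (nat_lit 76) (nat_lit 4202244904) (nat_lit 0) (nat_lit 6227453090) (nat_lit 1292) (nat_lit 16199811413) (nat_lit 217) (nat_lit 5)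 (nat_lit 216) (nat_lit 5) (nat_lit 233) (nat_lit 5) (nat_lit 371) (nat_lit 355) (nat_lit 174)))) (XT.nd (nat_lit 78) (nat_lit 988) (nat_lit 0) (XT.lf (nat_lit 0) (nat_lit 12582425697) (nat_lit 1216) (nat_lit 9185511305) (nat_lit 76) (nat_lit 5294876036) (nat_lit 217) (nat_lit 5) (nat_lit 233) (nat_lit 5) (nat_lit 218) (nat_lit 5) (nat_lit 372) (nat_lit 355) (nat_lit 173)) (XT.nd (nat_lit 78) (nat_lit 0) (nat_lit 0) (XT.lf (nat_lit 0) (nat_lit 4475935795) (nat_lit 988) (nat_lit 10424767803) (nat_lit 1064) (nat_lit 12605385821) (nat_lit 204) (nat_lit 5) (nat_lit 217) (nat_lit 5) (nat_lit 218) (nat_lit 5) (nat_lit 373) (nat_lit 355) (nat_lit 172)) (XT.lf (nat_lit 0) (nat_lit 17390669654) (nat_lit 1064) (nat_lit 9240705305) (nat_lit 76) (nat_lit 1328227551) (nat_lit 204) (nat_lit 5) (nat_lit 218) (nat_lit 5) (nat_lit 205) (nat_lit 5) (nat_lit 374) (nat_lit 355) (nat_lit 171))))) (XT.nd (nat_lit 234) (nat_lit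 1216) (nat_lit 0) (XT.nd (nat_lit 78) (nat_lit 532) (nat_lit 0) (XT.lf (nat_lit 0) (nat_lit 4952624945) (nat_lit 608) (nat_lit 15150005193) (nat_lit 684) (nat_lit 8319674530) (nat_lit 196) (nat_lit 5) (nat_lit 204) (nat_lit 5) (nat_lit 205) (nat_lit 5) (nat_lit 375) (nat_lit 355) (nat_lit 170)) (XT.nd (nat_lit 78) (nat_lit 532) (nat_lit 0) (XT.lf (nat_lit 0) (nat_lit 19757982617) (nat_lit 608) (nat_lit 3227824096) (nat_lit 684) (nat_lit 5910387921) (nat_lit 196) (nat_lit 5) (nat_lit 204) (nat_lit 5) (nat_lit 205) (nat_lit 5) (nat_lit 376) (nat_lit 355) (nat_lit 169)) (XT.lf (nat_lit 0) (nat_lit 5643093017) (nat_lit 532) (nat_lit 20450291340) (nat_lit 608) (nat_lit 3286782163) (nat_lit 189) (nat_lit 5) (nat_lit 196) (nat_lit 5) (nat_lit 197) (nat_lit 5) (nat_lit 377) (nat_lit 355) (nat_lit 168)))) (XT.nd (nat_lit 156) (nat_lit 532) (nat_lit 0) (XT.nd (nat_lit 78) (nat_lit 684) (nat_lit 0) (XT.lf (nat_lit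 0) (nat_lit 21019388176) (nat_lit 532) (nat_lit 8395438937) (nat_lit 608) (nat_lit 460213636) (nat_lit 189) (nat_lit 5) (nat_lit 196) (nat_lit 5) (nat_lit 197) (nat_lit 5) (nat_lit 378) (nat_lit 355) (nat_lit 167)) (XT.lf (nat_lit 0) (nat_lit 2502801119) (nat_lit 684) (nat_lit 23847995470) (nat_lit 76) (nat_lit 4030275548) (nat_lit 180) (nat_lit 5) (nat_lit 189) (nat_lit 5) (nat_lit 181) (nat_lit 5) (nat_lit 379) (nat_lit 355) (nat_lit 166))) (XT.nd (nat_lit 78) (nat_lit 532) (nat_lit 0) (XT.lf (nat_lit 0) (nat_lit 5715730340) (nat_lit 684) (nat_lit 8426385726) (nat_lit 76) (nat_lit 16754925611) (nat_lit 180) (nat_lit 5) (nat_lit 189) (nat_lit 5) (nat_lit 181) (nat_lit 5) (nat_lit 380) (nat_lit 355) (nat_lit 165)) (XT.lf (nat_lit 0) (nat_lit 7603111287) (nat_lit 532) (nat_lit 1491954512) (nat_lit 608) (nat_lit 22331326016) (nat_lit 173) (nat_lit 5) (nat_lit 180) (nat_lit 5) (nat_lit 181) (nat_lit 5) (nat_lit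 381) (nat_lit 355) (nat_lit 164)))))) (XT.nd (nat_lit 468) (nat_lit 1748) (nat_lit 0) (XT.nd (nat_lit 234) (nat_lit 912) (nat_lit 0) (XT.nd (nat_lit 78) (nat_lit 532) (nat_lit 0) (XT.lf (nat_lit 0) (nat_lit 12769612684) (nat_lit 608) (nat_lit 7797779795) (nat_lit 76) (nat_lit 11398417042) (nat_lit 173) (nat_lit 5) (nat_lit 181) (nat_lit 5) (nat_lit 174) (nat_lit 5) (nat_lit 382) (nat_lit 355) (nat_lit 163)) (XT.nd (nat_lit 78) (nat_lit 0) (nat_lit 0) (XT.lf (nat_lit 0) (nat_lit 8863581450) (nat_lit 532) (nat_lit 7787867516) (nat_lit 608) (nat_lit 15867051146) (nat_lit 166) (nat_lit 5) (nat_lit 173) (nat_lit 5) (nat_lit 174) (nat_lit 5) (nat_lit 383) (nat_lit 355) (nat_lit 162)) (XT.lf (nat_lit 0) (nat_lit 20778063190) (nat_lit 608) (nat_lit 6956375317) (nat_lit 76) (nat_lit 5349485117) (nat_lit 166) (nat_lit 5) (nat_lit 174) (nat_lit 5) (nat_lit 167) (nat_lit 5) (nat_lit 384) (nat_lit 355) (nat_lit 161))))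 (XT.nd (nat_lit 78) (nat_lit 456) (nat_lit 0) (XT.lf (nat_lit 0) (nat_lit 10365222556) (nat_lit 456) (nat_lit 14837213992) (nat_lit 532) (nat_lit 8458656303) (nat_lit 160) (nat_lit 5) (nat_lit 166) (nat_lit 5) (nat_lit 167) (nat_lit 5) (nat_lit 385) (nat_lit 355) (nat_lit 160)) (XT.nd (nat_lit 78) (nat_lit 456) (nat_lit 0) (XT.lf (nat_lit 0) (nat_lit 28346040212) (nat_lit 456) (nat_lit 1481014878) (nat_lit 532) (nat_lit 4426498426) (nat_lit 160) (nat_lit 5) (nat_lit 166) (nat_lit 5) (nat_lit 167) (nat_lit 5) (nat_lit 386) (nat_lit 355) (nat_lit 159)) (XT.lf (nat_lit 0) (nat_lit 12117938445) (nat_lit 456) (nat_lit 22704306997) (nat_lit 532) (nat_lit 34589290) (nat_lit 154) (nat_lit 5) (nat_lit 160) (nat_lit 5) (nat_lit 161) (nat_lit 5) (nat_lit 387) (nat_lit 355) (nat_lit 158))))) (XT.nd (nat_lit 234) (nat_lit 1216) (nat_lit 0) (XT.nd (nat_lit 78) (nat_lit 456) (nat_lit 0) (XT.lf (nat_lit 0) (nat_lit 4473753708)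 (nat_lit 532) (nat_lit 4732620546) (nat_lit 76) (nat_lit 26268378967) (nat_lit 153) (nat_lit 5) (nat_lit 160) (nat_lit 5) (nat_lit 154) (nat_lit 5) (nat_lit 388) (nat_lit 355) (nat_lit 157)) (XT.nd (nat_lit 78) (nat_lit 0) (nat_lit 0) (XT.lf (nat_lit 0) (nat_lit 9295977975) (nat_lit 532) (nat_lit 22068296395) (nat_lit 76) (nat_lit 4741546415) (nat_lit 147) (nat_lit 5) (nat_lit 154) (nat_lit 5) (nat_lit 148) (nat_lit 5) (nat_lit 389) (nat_lit 355) (nat_lit 156)) (XT.lf (nat_lit 0) (nat_lit 14399769854) (nat_lit 532) (nat_lit 3381221499) (nat_lit 76) (nat_lit 18970723533) (nat_lit 147) (nat_lit 5) (nat_lit 154) (nat_lit 5) (nat_lit 148) (nat_lit 5) (nat_lit 390) (nat_lit 355) (nat_lit 155)))) (XT.nd (nat_lit 156) (nat_lit 760) (nat_lit 0) (XT.nd (nat_lit 78) (nat_lit 0) (nat_lit 0) (XT.lf (nat_lit 0) (nat_lit 16179271611) (nat_lit 456) (nat_lit 3630487482) (nat_lit 532) (nat_lit 17602635698) (nat_lit 141)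 (nat_lit 5) (nat_lit 147) (nat_lit 5) (nat_lit 148) (nat_lit 5) (nat_lit 391) (nat_lit 355) (nat_lit 154)) (XT.lf (nat_lit 0) (nat_lit 25519332622) (nat_lit 532) (nat_lit 1804473241) (nat_lit 76) (nat_lit 10764972139) (nat_lit 141) (nat_lit 5) (nat_lit 148) (nat_lit 5) (nat_lit 142) (nat_lit 5) (nat_lit 392) (nat_lit 355) (nat_lit 153))) (XT.nd (nat_lit 78) (nat_lit 380) (nat_lit 0) (XT.lf (nat_lit 0) (nat_lit 18529809923) (nat_lit 380) (nat_lit 13082116018) (nat_lit 456) (nat_lit 7167176195) (nat_lit 136) (nat_lit 5) (nat_lit 141) (nat_lit 5) (nat_lit 142) (nat_lit 5) (nat_lit 393) (nat_lit 355) (nat_lit 152)) (XT.lf (nat_lit 0) (nat_lit 3250660) (nat_lit 380) (nat_lit 37915435977) (nat_lit 456) (nat_lit 1570509035) (nat_lit 131) (nat_lit 5) (nat_lit 136) (nat_lit 5) (nat_lit 137) (nat_lit 5) (nat_lit 394) (nat_lit 355) (nat_lit 151))))))) (XT.nd (nat_lit 1014) (nat_lit 1976) (nat_lit 0) (XT.nd (nat_lit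 468) (nat_lit 1140) (nat_lit 0) (XT.nd (nat_lit 234) (nat_lit 684) (nat_lit 0) (XT.nd (nat_lit 78) (nat_lit 380) (nat_lit 0) (XT.lf (nat_lit 0) (nat_lit 4445963933) (nat_lit 456) (nat_lit 19110782752) (nat_lit 76) (nat_lit 16652624730) (nat_lit 130) (nat_lit 5) (nat_lit 136) (nat_lit 5) (nat_lit 131) (nat_lit 5) (nat_lit 395) (nat_lit 355) (nat_lit 150)) (XT.nd (nat_lit 78) (nat_lit 0) (nat_lit 0) (XT.lf (nat_lit 0) (nat_lit 1894213483) (nat_lit 380) (nat_lit 8733145113) (nat_lit 456) (nat_lit 30322848797) (nat_lit 125) (nat_lit 5) (nat_lit 130) (nat_lit 5) (nat_lit 131) (nat_lit 5) (nat_lit 396) (nat_lit 355) (nat_lit 149)) (XT.lf (nat_lit 0) (nat_lit 17249723583) (nat_lit 456) (nat_lit 17853964734) (nat_lit 76) (nat_lit 6601915492) (nat_lit 125) (nat_lit 5) (nat_lit 131) (nat_lit 5) (nat_lit 126) (nat_lit 5) (nat_lit 397) (nat_lit 355) (nat_lit 148)))) (XT.nd (nat_lit 78) (nat_lit 304) (nat_lit 0) (XT.lf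 (nat_lit 0) (nat_lit 3972390754) (nat_lit 380) (nat_lit 20220900541) (nat_lit 456) (nat_lit 18286696046) (nat_lit 120) (nat_lit 5) (nat_lit 125) (nat_lit 5) (nat_lit 126) (nat_lit 5) (nat_lit 398) (nat_lit 355) (nat_lit 147)) (XT.nd (nat_lit 78) (nat_lit 304) (nat_lit 0) (XT.lf (nat_lit 0) (nat_lit 26816769537) (nat_lit 380) (nat_lit 4706601737) (nat_lit 456) (nat_lit 11748886090) (nat_lit 120) (nat_lit 5) (nat_lit 125) (nat_lit 5) (nat_lit 126) (nat_lit 5) (nat_lit 399) (nat_lit 355) (nat_lit 146)) (XT.lf (nat_lit 0) (nat_lit 6269427693) (nat_lit 304) (nat_lit 32970525373) (nat_lit 380) (nat_lit 4843345547) (nat_lit 116) (nat_lit 5) (nat_lit 120) (nat_lit 5) (nat_lit 121) (nat_lit 5) (nat_lit 400) (nat_lit 355) (nat_lit 145))))) (XT.nd (nat_lit 234) (nat_lit 684) (nat_lit 0) (XT.nd (nat_lit 78) (nat_lit 380) (nat_lit 0) (XT.lf (nat_lit 0) (nat_lit 2437473170) (nat_lit 380) (nat_lit 14973079606) (nat_lit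 76) (nat_lit 27501093075) (nat_lit 115) (nat_lit 5) (nat_lit 120) (nat_lit 5) (nat_lit 116) (nat_lit 5) (nat_lit 401) (nat_lit 355) (nat_lit 144)) (XT.nd (nat_lit 78) (nat_lit 0) (nat_lit 0) (XT.lf (nat_lit 0) (nat_lit 8671528398) (nat_lit 380) (nat_lit 1249238379) (nat_lit 456) (nat_lit 35840197222) (nat_lit 110) (nat_lit 5) (nat_lit 115) (nat_lit 5) (nat_lit 116) (nat_lit 5) (nat_lit 402) (nat_lit 355) (nat_lit 143)) (XT.lf (nat_lit 0) (nat_lit 17927325112) (nat_lit 456) (nat_lit 13451010939) (nat_lit 76) (nat_lit 15248463649) (nat_lit 110) (nat_lit 5) (nat_lit 116) (nat_lit 5) (nat_lit 111) (nat_lit 5) (nat_lit 403) (nat_lit 355) (nat_lit 142)))) (XT.nd (nat_lit 156) (nat_lit 380) (nat_lit 0) (XT.nd (nat_lit 78) (nat_lit 0) (nat_lit 0) (XT.lf (nat_lit 0) (nat_lit 11098149317) (nat_lit 304) (nat_lit 15193103705) (nat_lit 380) (nat_lit 21223843222) (nat_lit 106) (nat_lit 5) (nat_lit 110) (nat_lit 5) (nat_lit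 111) (nat_lit 5) (nat_lit 404) (nat_lit 355) (nat_lit 141)) (XT.lf (nat_lit 0) (nat_lit 35055621510) (nat_lit 380) (nat_lit 11784636123) (nat_lit 76) (nat_lit 1585299296) (nat_lit 106) (nat_lit 5) (nat_lit 111) (nat_lit 5) (nat_lit 107) (nat_lit 5) (nat_lit 405) (nat_lit 355) (nat_lit 140))) (XT.nd (nat_lit 78) (nat_lit 76) (nat_lit 0) (XT.lf (nat_lit 0) (nat_lit 13701013192) (nat_lit 304) (nat_lit 30662235837) (nat_lit 380) (nat_lit 4991673471) (nat_lit 102) (nat_lit 5) (nat_lit 106) (nat_lit 5) (nat_lit 107) (nat_lit 5) (nat_lit 406) (nat_lit 355) (nat_lit 139)) (XT.lf (nat_lit 0) (nat_lit 3685335416) (nat_lit 380) (nat_lit 10154513381) (nat_lit 76) (nat_lit 36467720337) (nat_lit 101) (nat_lit 5) (nat_lit 106) (nat_lit 5) (nat_lit 102) (nat_lit 5) (nat_lit 407) (nat_lit 355) (nat_lit 138)))))) (XT.nd (nat_lit 546) (nat_lit 760) (nat_lit 0) (XT.nd (nat_lit 234) (nat_lit 608) (nat_lit 0) (XT.nd (nat_lit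 78) (nat_lit 304) (nat_lit 0) (XT.lf (nat_lit 0) (nat_lit 12713580232) (nat_lit 380) (nat_lit 34940674702) (nat_lit 76) (nat_lit 3627320783) (nat_lit 97) (nat_lit 5) (nat_lit 102) (nat_lit 5) (nat_lit 98) (nat_lit 5) (nat_lit 408) (nat_lit 355) (nat_lit 137)) (XT.nd (nat_lit 78) (nat_lit 304) (nat_lit 0) (XT.lf (nat_lit 0) (nat_lit 22251536675) (nat_lit 380) (nat_lit 8582951389) (nat_lit 76) (nat_lit 21443149306) (nat_lit 97) (nat_lit 5) (nat_lit 102) (nat_lit 5) (nat_lit 98) (nat_lit 5) (nat_lit 409) (nat_lit 355) (nat_lit 136)) (XT.lf (nat_lit 0) (nat_lit 18932501159) (nat_lit 304) (nat_lit 13323451677) (nat_lit 380) (nat_lit 21042219183) (nat_lit 93) (nat_lit 5) (nat_lit 97) (nat_lit 5) (nat_lit 98) (nat_lit 5) (nat_lit 410) (nat_lit 355) (nat_lit 135)))) (XT.nd (nat_lit 156) (nat_lit 380) (nat_lit 0) (XT.nd (nat_lit 78) (nat_lit 228) (nat_lit 0) (XT.lf (nat_lit 0) (nat_lit 42691682182) (nat_lit 380)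 (nat_lit 6945987191) (nat_lit 76) (nat_lit 4707718670) (nat_lit 93) (nat_lit 5) (nat_lit 98) (nat_lit 5) (nat_lit 94) (nat_lit 5) (nat_lit 411) (nat_lit 355) (nat_lit 134)) (XT.lf (nat_lit 0) (nat_lit 21583145833) (nat_lit 228) (nat_lit 32195119612) (nat_lit 304) (nat_lit 1635622374) (nat_lit 90) (nat_lit 5) (nat_lit 93) (nat_lit 5) (nat_lit 94) (nat_lit 5) (nat_lit 412) (nat_lit 355) (nat_lit 133))) (XT.nd (nat_lit 78) (nat_lit 304) (nat_lit 0) (XT.lf (nat_lit 0) (nat_lit 8582806144) (nat_lit 304) (nat_lit 5488360118) (nat_lit 76) (nat_lit 42438695850) (nat_lit 89) (nat_lit 5) (nat_lit 93) (nat_lit 5) (nat_lit 90) (nat_lit 5) (nat_lit 413) (nat_lit 355) (nat_lit 132)) (XT.lf (nat_lit 0) (nat_lit 19352213336) (nat_lit 380) (nat_lit 33520784629) (nat_lit 76) (nat_lit 4756913507) (nat_lit 85) (nat_lit 5) (nat_lit 90) (nat_lit 5) (nat_lit 86) (nat_lit 5) (nat_lit 414) (nat_lit 355) (nat_lit 131))))) (XT.nd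 (nat_lit 234) (nat_lit 532) (nat_lit 0) (XT.nd (nat_lit 78) (nat_lit 228) (nat_lit 0) (XT.lf (nat_lit 0) (nat_lit 30638457461) (nat_lit 380) (nat_lit 4217068392) (nat_lit 76) (nat_lit 23922224469) (nat_lit 85) (nat_lit 5) (nat_lit 90) (nat_lit 5) (nat_lit 86) (nat_lit 5) (nat_lit 415) (nat_lit 355) (nat_lit 130)) (XT.nd (nat_lit 78) (nat_lit 0) (nat_lit 0) (XT.lf (nat_lit 0) (nat_lit 26480205917) (nat_lit 228) (nat_lit 16036137451) (nat_lit 304) (nat_lit 17436089969) (nat_lit 82) (nat_lit 5) (nat_lit 85) (nat_lit 5) (nat_lit 86) (nat_lit 5) (nat_lit 416) (nat_lit 355) (nat_lit 129)) (XT.lf (nat_lit 0) (nat_lit 54824277667) (nat_lit 304) (nat_lit 3011130493) (nat_lit 76) (nat_lit 3324737941) (nat_lit 82) (nat_lit 5) (nat_lit 86) (nat_lit 5) (nat_lit 83) (nat_lit 5) (nat_lit 417) (nat_lit 355) (nat_lit 128)))) (XT.nd (nat_lit 156) (nat_lit 228) (nat_lit 0) (XT.nd (nat_lit 78) (nat_lit 0) (nat_lit 0) (XT.lf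 (nat_lit 0) (nat_lit 5436026054) (nat_lit 304) (nat_lit 33680278903) (nat_lit 76) (nat_lit 23273171876) (nat_lit 78) (nat_lit 5) (nat_lit 82) (nat_lit 5) (nat_lit 79) (nat_lit 5) (nat_lit 418) (nat_lit 355) (nat_lit 127)) (XT.lf (nat_lit 0) (nat_lit 17463013878) (nat_lit 304) (nat_lit 2277179008) (nat_lit 76) (nat_lit 43912734788) (nat_lit 78) (nat_lit 5) (nat_lit 82) (nat_lit 5) (nat_lit 79) (nat_lit 5) (nat_lit 419) (nat_lit 355) (nat_lit 126))) (XT.nd (nat_lit 78) (nat_lit 0) (nat_lit 0) (XT.lf (nat_lit 0) (nat_lit 30149188499) (nat_lit 304) (nat_lit 34286264556) (nat_lit 76) (nat_lit 509878215) (nat_lit 75) (nat_lit 5) (nat_lit 79) (nat_lit 5) (nat_lit 76) (nat_lit 5) (nat_lit 420) (nat_lit 355) (nat_lit 125)) (XT.lf (nat_lit 0) (nat_lit 43433245882) (nat_lit 304) (nat_lit 1843592915) (nat_lit 76) (nat_lit 20993149781) (nat_lit 75) (nat_lit 5) (nat_lit 79) (nat_lit 5) (nat_lit 76) (nat_lit 5) (nat_lit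 421) (nat_lit 355) (nat_lit 124))))))))
noncomputable def xc222 : XT := (XT.nd (nat_lit 43212) (nat_lit 0) (nat_lit 4104) (XT.nd (nat_lit 42198) (nat_lit 0) (nat_lit 10792) (XT.nd (nat_lit 468) (nat_lit 228) (nat_lit 0) (XT.nd (nat_lit 234) (nat_lit 228) (nat_lit 0) (XT.nd (nat_lit 78) (nat_lit 304) (nat_lit 0) (XT.lf (nat_lit 0) (nat_lit 32198551686) (nat_lit 228) (nat_lit 25225452806) (nat_lit 304) (nat_lit 10201136242) (nat_lit 72) (nat_lit 5) (nat_lit 75) (nat_lit 5) (nat_lit 76) (nat_lit 5) (nat_lit 422) (nat_lit 355) (nat_lit 123)) (XT.nd (nat_lit 78) (nat_lit 228) (nat_lit 0) (XT.lf (nat_lit 0) (nat_lit 2776109633) (nat_lit 304) (nat_lit 1749989311) (nat_lit 76) (nat_lit 64493513427) (nat_lit 71) (nat_lit 5) (nat_lit 75) (nat_lit 5) (nat_lit 72) (nat_lit 5) (nat_lit 423) (nat_lit 355) (nat_lit 122)) (XT.lf (nat_lit 0) (nat_lit 16423867946) (nat_lit 304) (nat_lit 37121582666) (nat_lit 76) (nat_lit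 16892851142) (nat_lit 68) (nat_lit 5) (nat_lit 72) (nat_lit 5) (nat_lit 69) (nat_lit 5) (nat_lit 424) (nat_lit 355) (nat_lit 121)))) (XT.nd (nat_lit 78) (nat_lit 228) (nat_lit 0) (XT.lf (nat_lit 0) (nat_lit 30542439975) (nat_lit 304) (nat_lit 2474779887) (nat_lit 76) (nat_lit 38880490984) (nat_lit 68) (nat_lit 5) (nat_lit 72) (nat_lit 5) (nat_lit 69) (nat_lit 5) (nat_lit 425) (nat_lit 355) (nat_lit 120)) (XT.nd (nat_lit 78) (nat_lit 0) (nat_lit 0) (XT.lf (nat_lit 0) (nat_lit 33870347616) (nat_lit 228) (nat_lit 11538562962) (nat_lit 304) (nat_lit 27982261833) (nat_lit 65) (nat_lit 5) (nat_lit 68) (nat_lit 5) (nat_lit 69) (nat_lit 5) (nat_lit 426) (nat_lit 355) (nat_lit 119)) (XT.lf (nat_lit 0) (nat_lit 60847125927) (nat_lit 304) (nat_lit 3676142163) (nat_lit 76) (nat_lit 10402397646) (nat_lit 65) (nat_lit 5) (nat_lit 69) (nat_lit 5) (nat_lit 66) (nat_lit 5) (nat_lit 427) (nat_lit 355) (nat_lit 118)))))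 (XT.nd (nat_lit 41418) (nat_lit 0) (nat_lit 12464) (XT.nd (nat_lit 41262) (nat_lit 0) (nat_lit 12464) (XT.lf (nat_lit 0) (nat_lit 679729095) (nat_lit 228) (nat_lit 42712742988) (nat_lit 76) (nat_lit 33100387414) (nat_lit 62) (nat_lit 5) (nat_lit 65) (nat_lit 5) (nat_lit 63) (nat_lit 5) (nat_lit 428) (nat_lit 355) (nat_lit 117)) (XT.nd (nat_lit 78) (nat_lit 0) (nat_lit 0) (XT.lf (nat_lit 0) (nat_lit 4170050503) (nat_lit 0) (nat_lit 4170050503) (nat_lit 1140) (nat_lit 2383948319) (nat_lit 226) (nat_lit 5) (nat_lit 226) (nat_lit 3) (nat_lit 241) (nat_lit 3) (nat_lit 356) (nat_lit 356) (nat_lit 188)) (XT.lf (nat_lit 0) (nat_lit 17084714401) (nat_lit 1140) (nat_lit 3068806723) (nat_lit 1216) (nat_lit 1611562269) (nat_lit 226) (nat_lit 5) (nat_lit 241) (nat_lit 3) (nat_lit 242) (nat_lit 5) (nat_lit 357) (nat_lit 356) (nat_lit 187)))) (XT.nd (nat_lit 156) (nat_lit 0) (nat_lit 76) (XT.nd (nat_lit 78) (nat_lit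 0) (nat_lit 0) (XT.lf (nat_lit 76) (nat_lit 7329106771) (nat_lit 0) (nat_lit 10319902837) (nat_lit 1216) (nat_lit 4438142840) (nat_lit 227) (nat_lit 5) (nat_lit 226) (nat_lit 5) (nat_lit 242) (nat_lit 5) (nat_lit 358) (nat_lit 356) (nat_lit 186)) (XT.lf (nat_lit 76) (nat_lit 18098998416) (nat_lit 0) (nat_lit 156973653) (nat_lit 1216) (nat_lit 4162143425) (nat_lit 227) (nat_lit 5) (nat_lit 226) (nat_lit 5) (nat_lit 242) (nat_lit 5) (nat_lit 359) (nat_lit 356) (nat_lit 185))) (XT.nd (nat_lit 78) (nat_lit 0) (nat_lit 0) (XT.lf (nat_lit 76) (nat_lit 6456900209) (nat_lit 0) (nat_lit 12580349644) (nat_lit 1216) (nat_lit 3717078338) (nat_lit 228) (nat_lit 5) (nat_lit 227) (nat_lit 5) (nat_lit 243) (nat_lit 5) (nat_lit 360) (nat_lit 356) (nat_lit 184)) (XT.lf (nat_lit 76) (nat_lit 17640217187) (nat_lit 0) (nat_lit 2241946625) (nat_lit 1216) (nat_lit 3217261360) (nat_lit 228) (nat_lit 5) (nat_lit 227) (nat_lit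 5) (nat_lit 243) (nat_lit 5) (nat_lit 361) (nat_lit 356) (nat_lit 183)))))) (XT.nd (nat_lit 468) (nat_lit 684) (nat_lit 0) (XT.nd (nat_lit 234) (nat_lit 1140) (nat_lit 0) (XT.nd (nat_lit 78) (nat_lit 0) (nat_lit 0) (XT.lf (nat_lit 76) (nat_lit 5732189945) (nat_lit 0) (nat_lit 15151353508) (nat_lit 1216) (nat_lit 2567401786) (nat_lit 229) (nat_lit 5) (nat_lit 228) (nat_lit 5) (nat_lit 244) (nat_lit 5) (nat_lit 362) (nat_lit 356) (nat_lit 182)) (XT.nd (nat_lit 78) (nat_lit 0) (nat_lit 76) (XT.lf (nat_lit 76) (nat_lit 17345613646) (nat_lit 0) (nat_lit 4641776381) (nat_lit 1216) (nat_lit 1823451735) (nat_lit 229) (nat_lit 5) (nat_lit 228) (nat_lit 5) (nat_lit 244) (nat_lit 5) (nat_lit 363) (nat_lit 356) (nat_lit 181)) (XT.lf (nat_lit 76) (nat_lit 5164187076) (nat_lit 0) (nat_lit 18064712436) (nat_lit 1216) (nat_lit 949502753) (nat_lit 230) (nat_lit 5) (nat_lit 229) (nat_lit 5) (nat_lit 245) (nat_lit 5) (nat_lit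 364) (nat_lit 356) (nat_lit 180)))) (XT.nd (nat_lit 78) (nat_lit 0) (nat_lit 76) (XT.lf (nat_lit 0) (nat_lit 59044362) (nat_lit 1216) (nat_lit 7329262247) (nat_lit 1292) (nat_lit 17165478004) (nat_lit 213) (nat_lit 5) (nat_lit 229) (nat_lit 5) (nat_lit 230) (nat_lit 5) (nat_lit 365) (nat_lit 356) (nat_lit 179)) (XT.nd (nat_lit 78) (nat_lit 0) (nat_lit 0) (XT.lf (nat_lit 0) (nat_lit 1155685583) (nat_lit 1216) (nat_lit 20186918182) (nat_lit 1292) (nat_lit 3595238197) (nat_lit 214) (nat_lit 5) (nat_lit 230) (nat_lit 5) (nat_lit 231) (nat_lit 5) (nat_lit 366) (nat_lit 356) (nat_lit 178)) (XT.lf (nat_lit 0) (nat_lit 2428887828) (nat_lit 1216) (nat_lit 8064465492) (nat_lit 1292) (nat_lit 14835760979) (nat_lit 214) (nat_lit 5) (nat_lit 230) (nat_lit 5) (nat_lit 231) (nat_lit 5) (nat_lit 367) (nat_lit 356) (nat_lit 177))))) (XT.nd (nat_lit 234) (nat_lit 836) (nat_lit 0) (XT.nd (nat_lit 78) (nat_lit 0) (nat_lit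 0) (XT.lf (nat_lit 0) (nat_lit 3786484388) (nat_lit 1216) (nat_lit 21231387752) (nat_lit 1292) (nat_lit 712869749) (nat_lit 215) (nat_lit 5) (nat_lit 231) (nat_lit 5) (nat_lit 232) (nat_lit 5) (nat_lit 368) (nat_lit 356) (nat_lit 176)) (XT.nd (nat_lit 78) (nat_lit 0) (nat_lit 0) (XT.lf (nat_lit 0) (nat_lit 5366934951) (nat_lit 1216) (nat_lit 8644424555) (nat_lit 1292) (nat_lit 12127597958) (nat_lit 215) (nat_lit 5) (nat_lit 231) (nat_lit 5) (nat_lit 232) (nat_lit 5) (nat_lit 369) (nat_lit 356) (nat_lit 175)) (XT.lf (nat_lit 76) (nat_lit 4403007408) (nat_lit 0) (nat_lit 2630222761) (nat_lit 1292) (nat_lit 19525039259) (nat_lit 216) (nat_lit 5) (nat_lit 215) (nat_lit 5) (nat_lit 232) (nat_lit 5) (nat_lit 370) (nat_lit 356) (nat_lit 174)))) (XT.nd (nat_lit 156) (nat_lit 912) (nat_lit 0) (XT.nd (nat_lit 78) (nat_lit 0) (nat_lit 0) (XT.lf (nat_lit 0) (nat_lit 8921269990) (nat_lit 1216) (nat_lit 9059896146)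 (nat_lit 1292) (nat_lit 9003844714) (nat_lit 216) (nat_lit 5) (nat_lit 232) (nat_lit 5) (nat_lit 233) (nat_lit 5) (nat_lit 371) (nat_lit 356) (nat_lit 173)) (XT.lf (nat_lit 76) (nat_lit 4486780770) (nat_lit 0) (nat_lit 6444650971) (nat_lit 1292) (nat_lit 16491161046) (nat_lit 217) (nat_lit 5) (nat_lit 216) (nat_lit 5) (nat_lit 233) (nat_lit 5) (nat_lit 372) (nat_lit 356) (nat_lit 172))) (XT.nd (nat_lit 78) (nat_lit 988) (nat_lit 0) (XT.lf (nat_lit 0) (nat_lit 13142957526) (nat_lit 1216) (nat_lit 9301307325) (nat_lit 76) (nat_lit 5424808166) (nat_lit 217) (nat_lit 5) (nat_lit 233) (nat_lit 5) (nat_lit 218) (nat_lit 5) (nat_lit 373) (nat_lit 356) (nat_lit 171)) (XT.lf (nat_lit 0) (nat_lit 4768416821) (nat_lit 988) (nat_lit 10758555869) (nat_lit 1064) (nat_lit 12798793195) (nat_lit 204) (nat_lit 5) (nat_lit 217) (nat_lit 5) (nat_lit 218) (nat_lit 5) (nat_lit 374) (nat_lit 356) (nat_lit 170))))))) (XT.nd (nat_lit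 1014) (nat_lit 3344) (nat_lit 0) (XT.nd (nat_lit 468) (nat_lit 1520) (nat_lit 0) (XT.nd (nat_lit 234) (nat_lit 1216) (nat_lit 0) (XT.nd (nat_lit 78) (nat_lit 608) (nat_lit 0) (XT.lf (nat_lit 0) (nat_lit 18086220507) (nat_lit 1064) (nat_lit 9358789118) (nat_lit 76) (nat_lit 1348041011) (nat_lit 204) (nat_lit 5) (nat_lit 218) (nat_lit 5) (nat_lit 205) (nat_lit 5) (nat_lit 375) (nat_lit 356) (nat_lit 169)) (XT.nd (nat_lit 78) (nat_lit 0) (nat_lit 0) (XT.lf (nat_lit 0) (nat_lit 5258780869) (nat_lit 608) (nat_lit 15617210633) (nat_lit 684) (nat_lit 8393752447) (nat_lit 196) (nat_lit 5) (nat_lit 204) (nat_lit 5) (nat_lit 205) (nat_lit 5) (nat_lit 376) (nat_lit 356) (nat_lit 168)) (XT.lf (nat_lit 0) (nat_lit 20503709645) (nat_lit 608) (nat_lit 3336994047) (nat_lit 684) (nat_lit 5917299250) (nat_lit 196) (nat_lit 5) (nat_lit 204) (nat_lit 5) (nat_lit 205) (nat_lit 5) (nat_lit 377) (nat_lit 356) (nat_lit 167))))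 (XT.nd (nat_lit 78) (nat_lit 684) (nat_lit 0) (XT.lf (nat_lit 0) (nat_lit 5969018642) (nat_lit 532) (nat_lit 21069065326) (nat_lit 608) (nat_lit 3218516188) (nat_lit 189) (nat_lit 5) (nat_lit 196) (nat_lit 5) (nat_lit 197) (nat_lit 5) (nat_lit 378) (nat_lit 356) (nat_lit 166)) (XT.nd (nat_lit 78) (nat_lit 684) (nat_lit 0) (XT.lf (nat_lit 0) (nat_lit 21802040535) (nat_lit 532) (nat_lit 8652413994) (nat_lit 608) (nat_lit 312010881) (nat_lit 189) (nat_lit 5) (nat_lit 196) (nat_lit 5) (nat_lit 197) (nat_lit 5) (nat_lit 379) (nat_lit 356) (nat_lit 165)) (XT.lf (nat_lit 0) (nat_lit 2733566785) (nat_lit 684) (nat_lit 24404824533) (nat_lit 76) (nat_lit 4149337825) (nat_lit 180) (nat_lit 5) (nat_lit 189) (nat_lit 5) (nat_lit 181) (nat_lit 5) (nat_lit 380) (nat_lit 356) (nat_lit 164))))) (XT.nd (nat_lit 234) (nat_lit 988) (nat_lit 0) (XT.nd (nat_lit 78) (nat_lit 532) (nat_lit 0) (XT.lf (nat_lit 0) (nat_lit 6038349467)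 (nat_lit 684) (nat_lit 8525186229) (nat_lit 76) (nat_lit 17255781157) (nat_lit 180) (nat_lit 5) (nat_lit 189) (nat_lit 5) (nat_lit 181) (nat_lit 5) (nat_lit 381) (nat_lit 356) (nat_lit 163)) (XT.nd (nat_lit 78) (nat_lit 0) (nat_lit 0) (XT.lf (nat_lit 0) (nat_lit 7983685978) (nat_lit 532) (nat_lit 1532442409) (nat_lit 608) (nat_lit 22848510168) (nat_lit 173) (nat_lit 5) (nat_lit 180) (nat_lit 5) (nat_lit 181) (nat_lit 5) (nat_lit 382) (nat_lit 356) (nat_lit 162)) (XT.lf (nat_lit 0) (nat_lit 13296634722) (nat_lit 608) (nat_lit 7879300263) (nat_lit 76) (nat_lit 11744434990) (nat_lit 173) (nat_lit 5) (nat_lit 181) (nat_lit 5) (nat_lit 174) (nat_lit 5) (nat_lit 383) (nat_lit 356) (nat_lit 161)))) (XT.nd (nat_lit 156) (nat_lit 456) (nat_lit 0) (XT.nd (nat_lit 78) (nat_lit 0) (nat_lit 0) (XT.lf (nat_lit 0) (nat_lit 9280407575) (nat_lit 532) (nat_lit 8011776997) (nat_lit 608) (nat_lit 16197541748) (nat_lit 166)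 (nat_lit 5) (nat_lit 173) (nat_lit 5) (nat_lit 174) (nat_lit 5) (nat_lit 384) (nat_lit 356) (nat_lit 160)) (XT.lf (nat_lit 0) (nat_lit 21538575605) (nat_lit 608) (nat_lit 7014431645) (nat_lit 76) (nat_lit 5519228645) (nat_lit 166) (nat_lit 5) (nat_lit 174) (nat_lit 5) (nat_lit 167) (nat_lit 5) (nat_lit 385) (nat_lit 356) (nat_lit 159))) (XT.nd (nat_lit 78) (nat_lit 0) (nat_lit 0) (XT.lf (nat_lit 0) (nat_lit 10825337351) (nat_lit 456) (nat_lit 15267781355) (nat_lit 532) (nat_lit 8573680969) (nat_lit 160) (nat_lit 5) (nat_lit 166) (nat_lit 5) (nat_lit 167) (nat_lit 5) (nat_lit 386) (nat_lit 356) (nat_lit 158)) (XT.lf (nat_lit 0) (nat_lit 29341235126) (nat_lit 456) (nat_lit 1511320026) (nat_lit 532) (nat_lit 4424599182) (nat_lit 160) (nat_lit 5) (nat_lit 166) (nat_lit 5) (nat_lit 167) (nat_lit 5) (nat_lit 387) (nat_lit 356) (nat_lit 157)))))) (XT.nd (nat_lit 546) (nat_lit 1520) (nat_lit 0) (XT.nd (nat_lit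 234) (nat_lit 836) (nat_lit 0) (XT.nd (nat_lit 78) (nat_lit 456) (nat_lit 0) (XT.lf (nat_lit 0) (nat_lit 94849862) (nat_lit 532) (nat_lit 23270831519) (nat_lit 76) (nat_lit 12532894970) (nat_lit 153) (nat_lit 5) (nat_lit 160) (nat_lit 5) (nat_lit 154) (nat_lit 5) (nat_lit 388) (nat_lit 356) (nat_lit 156)) (XT.nd (nat_lit 78) (nat_lit 456) (nat_lit 0) (XT.lf (nat_lit 0) (nat_lit 4733967893) (nat_lit 532) (nat_lit 4729075678) (nat_lit 76) (nat_lit 27072094288) (nat_lit 153) (nat_lit 5) (nat_lit 160) (nat_lit 5) (nat_lit 154) (nat_lit 5) (nat_lit 389) (nat_lit 356) (nat_lit 155)) (XT.lf (nat_lit 0) (nat_lit 9698769991) (nat_lit 532) (nat_lit 22582657263) (nat_lit 76) (nat_lit 4903775132) (nat_lit 147) (nat_lit 5) (nat_lit 154) (nat_lit 5) (nat_lit 148) (nat_lit 5) (nat_lit 390) (nat_lit 356) (nat_lit 154)))) (XT.nd (nat_lit 156) (nat_lit 380) (nat_lit 0) (XT.nd (nat_lit 78) (nat_lit 456) (nat_lit 0) (XT.lf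 (nat_lit 0) (nat_lit 14952066519) (nat_lit 532) (nat_lit 3339271713) (nat_lit 76) (nat_lit 19559245554) (nat_lit 147) (nat_lit 5) (nat_lit 154) (nat_lit 5) (nat_lit 148) (nat_lit 5) (nat_lit 391) (nat_lit 356) (nat_lit 153)) (XT.lf (nat_lit 0) (nat_lit 16806630441) (nat_lit 456) (nat_lit 3715585812) (nat_lit 532) (nat_lit 18008934149) (nat_lit 141) (nat_lit 5) (nat_lit 147) (nat_lit 5) (nat_lit 148) (nat_lit 5) (nat_lit 392) (nat_lit 356) (nat_lit 152))) (XT.nd (nat_lit 78) (nat_lit 380) (nat_lit 0) (XT.lf (nat_lit 0) (nat_lit 26399857576) (nat_lit 532) (nat_lit 1717473480) (nat_lit 76) (nat_lit 11110592714) (nat_lit 141) (nat_lit 5) (nat_lit 148) (nat_lit 5) (nat_lit 142) (nat_lit 5) (nat_lit 393) (nat_lit 356) (nat_lit 151)) (XT.lf (nat_lit 0) (nat_lit 19225454513) (nat_lit 380) (nat_lit 13447769635) (nat_lit 456) (nat_lit 7265795632) (nat_lit 136) (nat_lit 5) (nat_lit 141) (nat_lit 5) (nat_lit 142)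 (nat_lit 5) (nat_lit 394) (nat_lit 356) (nat_lit 150))))) (XT.nd (nat_lit 234) (nat_lit 684) (nat_lit 0) (XT.nd (nat_lit 78) (nat_lit 456) (nat_lit 0) (XT.lf (nat_lit 0) (nat_lit 144894729) (nat_lit 380) (nat_lit 39022614247) (nat_lit 456) (nat_lit 1502959464) (nat_lit 131) (nat_lit 5) (nat_lit 136) (nat_lit 5) (nat_lit 137) (nat_lit 5) (nat_lit 395) (nat_lit 356) (nat_lit 149)) (XT.nd (nat_lit 78) (nat_lit 380) (nat_lit 0) (XT.lf (nat_lit 0) (nat_lit 4688495586) (nat_lit 456) (nat_lit 19544448543) (nat_lit 76) (nat_lit 17179372341) (nat_lit 130) (nat_lit 5) (nat_lit 136) (nat_lit 5) (nat_lit 131) (nat_lit 5) (nat_lit 396) (nat_lit 356) (nat_lit 148)) (XT.lf (nat_lit 0) (nat_lit 2089328386) (nat_lit 380) (nat_lit 8964153812) (nat_lit 456) (nat_lit 31121952619) (nat_lit 125) (nat_lit 5) (nat_lit 130) (nat_lit 5) (nat_lit 131) (nat_lit 5) (nat_lit 397) (nat_lit 356) (nat_lit 147)))) (XT.nd (nat_lit 156)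 (nat_lit 304) (nat_lit 0) (XT.nd (nat_lit 78) (nat_lit 380) (nat_lit 0) (XT.lf (nat_lit 0) (nat_lit 17871681986) (nat_lit 456) (nat_lit 18252428876) (nat_lit 76) (nat_lit 6829469087) (nat_lit 125) (nat_lit 5) (nat_lit 131) (nat_lit 5) (nat_lit 126) (nat_lit 5) (nat_lit 398) (nat_lit 356) (nat_lit 146)) (XT.lf (nat_lit 0) (nat_lit 4227372621) (nat_lit 380) (nat_lit 20794446880) (nat_lit 456) (nat_lit 18729429291) (nat_lit 120) (nat_lit 5) (nat_lit 125) (nat_lit 5) (nat_lit 126) (nat_lit 5) (nat_lit 399) (nat_lit 356) (nat_lit 145))) (XT.nd (nat_lit 78) (nat_lit 304) (nat_lit 0) (XT.lf (nat_lit 0) (nat_lit 27753127132) (nat_lit 380) (nat_lit 4815682626) (nat_lit 456) (nat_lit 11998568560) (nat_lit 120) (nat_lit 5) (nat_lit 125) (nat_lit 5) (nat_lit 126) (nat_lit 5) (nat_lit 400) (nat_lit 356) (nat_lit 144)) (XT.lf (nat_lit 0) (nat_lit 6590783535) (nat_lit 304) (nat_lit 33924781338) (nat_lit 380) (nat_lit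 4887227249) (nat_lit 116) (nat_lit 5) (nat_lit 120) (nat_lit 5) (nat_lit 121) (nat_lit 5) (nat_lit 401) (nat_lit 356) (nat_lit 143))))))))
noncomputable def xc223 : XT := (XT.nd (nat_lit 2028) (nat_lit 0) (nat_lit 0) (XT.nd (nat_lit 1014) (nat_lit 1824) (nat_lit 0) (XT.nd (nat_lit 468) (nat_lit 988) (nat_lit 0) (XT.nd (nat_lit 234) (nat_lit 608) (nat_lit 0) (XT.nd (nat_lit 78) (nat_lit 380) (nat_lit 0) (XT.lf (nat_lit 0) (nat_lit 2607140688) (nat_lit 380) (nat_lit 15290909311) (nat_lit 76) (nat_lit 28357998920) (nat_lit 115) (nat_lit 5) (nat_lit 120) (nat_lit 5) (nat_lit 116) (nat_lit 5) (nat_lit 402) (nat_lit 356) (nat_lit 142)) (XT.nd (nat_lit 78) (nat_lit 0) (nat_lit 0) (XT.lf (nat_lit 0) (nat_lit 9061749064) (nat_lit 380) (nat_lit 1251622456) (nat_lit 456) (nat_lit 36817523396) (nat_lit 110) (nat_lit 5) (nat_lit 115) (nat_lit 5) (nat_lit 116) (nat_lit 5) (nat_lit 403) (nat_lit 356) (nat_lit 141)) (XT.lf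 (nat_lit 0) (nat_lit 18557687657) (nat_lit 456) (nat_lit 13725768955) (nat_lit 76) (nat_lit 15739323658) (nat_lit 110) (nat_lit 5) (nat_lit 116) (nat_lit 5) (nat_lit 111) (nat_lit 5) (nat_lit 404) (nat_lit 356) (nat_lit 140)))) (XT.nd (nat_lit 78) (nat_lit 304) (nat_lit 0) (XT.lf (nat_lit 0) (nat_lit 11558603635) (nat_lit 304) (nat_lit 15612460051) (nat_lit 380) (nat_lit 21766707488) (nat_lit 106) (nat_lit 5) (nat_lit 110) (nat_lit 5) (nat_lit 111) (nat_lit 5) (nat_lit 405) (nat_lit 356) (nat_lit 139)) (XT.nd (nat_lit 78) (nat_lit 304) (nat_lit 0) (XT.lf (nat_lit 0) (nat_lit 36196050666) (nat_lit 380) (nat_lit 12012022252) (nat_lit 76) (nat_lit 1667543472) (nat_lit 106) (nat_lit 5) (nat_lit 111) (nat_lit 5) (nat_lit 107) (nat_lit 5) (nat_lit 406) (nat_lit 356) (nat_lit 138)) (XT.lf (nat_lit 0) (nat_lit 14236959749) (nat_lit 304) (nat_lit 31544562774) (nat_lit 380) (nat_lit 5051383233) (nat_lit 102) (nat_lit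 5) (nat_lit 106) (nat_lit 5) (nat_lit 107) (nat_lit 5) (nat_lit 407) (nat_lit 356) (nat_lit 137))))) (XT.nd (nat_lit 234) (nat_lit 608) (nat_lit 0) (XT.nd (nat_lit 78) (nat_lit 304) (nat_lit 0) (XT.lf (nat_lit 0) (nat_lit 3881607545) (nat_lit 380) (nat_lit 10336124456) (nat_lit 76) (nat_lit 37596452183) (nat_lit 101) (nat_lit 5) (nat_lit 106) (nat_lit 5) (nat_lit 102) (nat_lit 5) (nat_lit 408) (nat_lit 356) (nat_lit 136)) (XT.nd (nat_lit 78) (nat_lit 0) (nat_lit 0) (XT.lf (nat_lit 0) (nat_lit 13179734044) (nat_lit 380) (nat_lit 35864865478) (nat_lit 76) (nat_lit 3772841597) (nat_lit 97) (nat_lit 5) (nat_lit 102) (nat_lit 5) (nat_lit 98) (nat_lit 5) (nat_lit 409) (nat_lit 356) (nat_lit 135)) (XT.lf (nat_lit 0) (nat_lit 23001360839) (nat_lit 380) (nat_lit 8720022975) (nat_lit 76) (nat_lit 22122076008) (nat_lit 97) (nat_lit 5) (nat_lit 102) (nat_lit 5) (nat_lit 98) (nat_lit 5) (nat_lit 410) (nat_lit 356)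 (nat_lit 134)))) (XT.nd (nat_lit 156) (nat_lit 304) (nat_lit 0) (XT.nd (nat_lit 78) (nat_lit 0) (nat_lit 0) (XT.lf (nat_lit 0) (nat_lit 19619712592) (nat_lit 304) (nat_lit 13684946618) (nat_lit 380) (nat_lit 21589989926) (nat_lit 93) (nat_lit 5) (nat_lit 97) (nat_lit 5) (nat_lit 98) (nat_lit 5) (nat_lit 411) (nat_lit 356) (nat_lit 133)) (XT.lf (nat_lit 0) (nat_lit 44051456990) (nat_lit 380) (nat_lit 7036563741) (nat_lit 76) (nat_lit 4885322096) (nat_lit 93) (nat_lit 5) (nat_lit 98) (nat_lit 5) (nat_lit 94) (nat_lit 5) (nat_lit 412) (nat_lit 356) (nat_lit 132))) (XT.nd (nat_lit 78) (nat_lit 76) (nat_lit 0) (XT.lf (nat_lit 0) (nat_lit 22347288342) (nat_lit 228) (nat_lit 33122169022) (nat_lit 304) (nat_lit 1604476696) (nat_lit 90) (nat_lit 5) (nat_lit 93) (nat_lit 5) (nat_lit 94) (nat_lit 5) (nat_lit 413) (nat_lit 356) (nat_lit 131)) (XT.lf (nat_lit 0) (nat_lit 8916648657) (nat_lit 304) (nat_lit 5538207564)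 (nat_lit 76) (nat_lit 43747977943) (nat_lit 89) (nat_lit 5) (nat_lit 93) (nat_lit 5) (nat_lit 90) (nat_lit 5) (nat_lit 414) (nat_lit 356) (nat_lit 130)))))) (XT.nd (nat_lit 468) (nat_lit 988) (nat_lit 0) (XT.nd (nat_lit 234) (nat_lit 304) (nat_lit 0) (XT.nd (nat_lit 78) (nat_lit 228) (nat_lit 0) (XT.lf (nat_lit 0) (nat_lit 20008376389) (nat_lit 380) (nat_lit 34410811037) (nat_lit 76) (nat_lit 4937321392) (nat_lit 85) (nat_lit 5) (nat_lit 90) (nat_lit 5) (nat_lit 86) (nat_lit 5) (nat_lit 415) (nat_lit 356) (nat_lit 129)) (XT.nd (nat_lit 78) (nat_lit 228) (nat_lit 0) (XT.lf (nat_lit 0) (nat_lit 31631005994) (nat_lit 380) (nat_lit 4231350219) (nat_lit 76) (nat_lit 24676493611) (nat_lit 85) (nat_lit 5) (nat_lit 90) (nat_lit 5) (nat_lit 86) (nat_lit 5) (nat_lit 416) (nat_lit 356) (nat_lit 128)) (XT.lf (nat_lit 0) (nat_lit 27385742023) (nat_lit 228) (nat_lit 16478416991) (nat_lit 304) (nat_lit 17884647307) (nat_lit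 82) (nat_lit 5) (nat_lit 85) (nat_lit 5) (nat_lit 86) (nat_lit 5) (nat_lit 417) (nat_lit 356) (nat_lit 127)))) (XT.nd (nat_lit 78) (nat_lit 304) (nat_lit 0) (XT.lf (nat_lit 0) (nat_lit 56539586927) (nat_lit 304) (nat_lit 2991797484) (nat_lit 76) (nat_lit 3461419270) (nat_lit 82) (nat_lit 5) (nat_lit 86) (nat_lit 5) (nat_lit 83) (nat_lit 5) (nat_lit 418) (nat_lit 356) (nat_lit 126)) (XT.nd (nat_lit 78) (nat_lit 0) (nat_lit 0) (XT.lf (nat_lit 0) (nat_lit 5669392626) (nat_lit 304) (nat_lit 34580668999) (nat_lit 76) (nat_lit 24008963252) (nat_lit 78) (nat_lit 5) (nat_lit 82) (nat_lit 5) (nat_lit 79) (nat_lit 5) (nat_lit 419) (nat_lit 356) (nat_lit 125)) (XT.lf (nat_lit 0) (nat_lit 18055142926) (nat_lit 304) (nat_lit 2238680522) (nat_lit 76) (nat_lit 45266618015) (nat_lit 78) (nat_lit 5) (nat_lit 82) (nat_lit 5) (nat_lit 79) (nat_lit 5) (nat_lit 420) (nat_lit 356) (nat_lit 124))))) (XT.nd (nat_lit 234) (nat_lit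 532) (nat_lit 0) (XT.nd (nat_lit 78) (nat_lit 228) (nat_lit 0) (XT.lf (nat_lit 0) (nat_lit 31121302021) (nat_lit 304) (nat_lit 35207411773) (nat_lit 76) (nat_lit 562922179) (nat_lit 75) (nat_lit 5) (nat_lit 79) (nat_lit 5) (nat_lit 76) (nat_lit 5) (nat_lit 421) (nat_lit 356) (nat_lit 123)) (XT.nd (nat_lit 78) (nat_lit 228) (nat_lit 0) (XT.lf (nat_lit 0) (nat_lit 44801911090) (nat_lit 304) (nat_lit 1794589325) (nat_lit 76) (nat_lit 21659592446) (nat_lit 75) (nat_lit 5) (nat_lit 79) (nat_lit 5) (nat_lit 76) (nat_lit 5) (nat_lit 422) (nat_lit 356) (nat_lit 122)) (XT.lf (nat_lit 0) (nat_lit 33267796955) (nat_lit 228) (nat_lit 25943675724) (nat_lit 304) (nat_lit 10440455235) (nat_lit 72) (nat_lit 5) (nat_lit 75) (nat_lit 5) (nat_lit 76) (nat_lit 5) (nat_lit 423) (nat_lit 356) (nat_lit 121)))) (XT.nd (nat_lit 156) (nat_lit 228) (nat_lit 0) (XT.nd (nat_lit 78) (nat_lit 228) (nat_lit 0) (XT.lf (nat_lit 0) (nat_lit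 2922900923) (nat_lit 304) (nat_lit 1700921560) (nat_lit 76) (nat_lit 66464449830) (nat_lit 71) (nat_lit 5) (nat_lit 75) (nat_lit 5) (nat_lit 72) (nat_lit 5) (nat_lit 424) (nat_lit 356) (nat_lit 120)) (XT.lf (nat_lit 0) (nat_lit 16979573761) (nat_lit 304) (nat_lit 38133121977) (nat_lit 76) (nat_lit 17436842861) (nat_lit 68) (nat_lit 5) (nat_lit 72) (nat_lit 5) (nat_lit 69) (nat_lit 5) (nat_lit 425) (nat_lit 356) (nat_lit 119))) (XT.nd (nat_lit 78) (nat_lit 228) (nat_lit 0) (XT.lf (nat_lit 0) (nat_lit 31519868297) (nat_lit 304) (nat_lit 2449889139) (nat_lit 76) (nat_lit 40083028223) (nat_lit 68) (nat_lit 5) (nat_lit 72) (nat_lit 5) (nat_lit 69) (nat_lit 5) (nat_lit 426) (nat_lit 356) (nat_lit 118)) (XT.lf (nat_lit 0) (nat_lit 34984620286) (nat_lit 228) (nat_lit 11846875112) (nat_lit 304) (nat_lit 28759581440) (nat_lit 65) (nat_lit 5) (nat_lit 68) (nat_lit 5) (nat_lit 69) (nat_lit 5) (nat_lit 427) (nat_lit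 356) (nat_lit 117))))))) (XT.nd (nat_lit 42276) (nat_lit 0) (nat_lit 8740) (XT.nd (nat_lit 41730) (nat_lit 0) (nat_lit 11248) (XT.nd (nat_lit 41496) (nat_lit 0) (nat_lit 12236) (XT.nd (nat_lit 41340) (nat_lit 0) (nat_lit 12236) (XT.lf (nat_lit 0) (nat_lit 62731453577) (nat_lit 304) (nat_lit 3689699049) (nat_lit 76) (nat_lit 10750495063) (nat_lit 65) (nat_lit 5) (nat_lit 69) (nat_lit 5) (nat_lit 66) (nat_lit 5) (nat_lit 428) (nat_lit 356) (nat_lit 116)) (XT.nd (nat_lit 78) (nat_lit 0) (nat_lit 0) (XT.lf (nat_lit 0) (nat_lit 4363741161) (nat_lit 0) (nat_lit 4363741161) (nat_lit 1140) (nat_lit 2314066709) (nat_lit 226) (nat_lit 5) (nat_lit 226) (nat_lit 3) (nat_lit 241) (nat_lit 3) (nat_lit 357) (nat_lit 357) (nat_lit 186)) (XT.lf (nat_lit 0) (nat_lit 17862341203) (nat_lit 1140) (nat_lit 3018210272) (nat_lit 1216) (nat_lit 1529325211) (nat_lit 226) (nat_lit 5) (nat_lit 241) (nat_lit 3) (nat_lit 242) (nat_lit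 5) (nat_lit 358) (nat_lit 357) (nat_lit 185)))) (XT.nd (nat_lit 78) (nat_lit 0) (nat_lit 0) (XT.lf (nat_lit 76) (nat_lit 7690241994) (nat_lit 0) (nat_lit 10746960237) (nat_lit 1216) (nat_lit 4304602491) (nat_lit 227) (nat_lit 5) (nat_lit 226) (nat_lit 5) (nat_lit 242) (nat_lit 5) (nat_lit 359) (nat_lit 357) (nat_lit 184)) (XT.nd (nat_lit 78) (nat_lit 0) (nat_lit 76) (XT.lf (nat_lit 76) (nat_lit 18779115960) (nat_lit 0) (nat_lit 275722003) (nat_lit 1216) (nat_lit 4028090608) (nat_lit 227) (nat_lit 5) (nat_lit 226) (nat_lit 5) (nat_lit 242) (nat_lit 5) (nat_lit 360) (nat_lit 357) (nat_lit 183)) (XT.lf (nat_lit 76) (nat_lit 6795150290) (nat_lit 0) (nat_lit 13057412824) (nat_lit 1216) (nat_lit 3576879938) (nat_lit 228) (nat_lit 5) (nat_lit 227) (nat_lit 5) (nat_lit 243) (nat_lit 5) (nat_lit 361) (nat_lit 357) (nat_lit 182))))) (XT.nd (nat_lit 234) (nat_lit 1064) (nat_lit 0) (XT.nd (nat_lit 78) (nat_lit 0)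 (nat_lit 76) (XT.lf (nat_lit 76) (nat_lit 18309756784) (nat_lit 0) (nat_lit 2405955209) (nat_lit 1216) (nat_lit 3069399832) (nat_lit 228) (nat_lit 5) (nat_lit 227) (nat_lit 5) (nat_lit 243) (nat_lit 5) (nat_lit 362) (nat_lit 357) (nat_lit 181)) (XT.nd (nat_lit 78) (nat_lit 0) (nat_lit 0) (XT.lf (nat_lit 76) (nat_lit 6051258387) (nat_lit 0) (nat_lit 15689480407) (nat_lit 1216) (nat_lit 2406635875) (nat_lit 229) (nat_lit 5) (nat_lit 228) (nat_lit 5) (nat_lit 244) (nat_lit 5) (nat_lit 363) (nat_lit 357) (nat_lit 180)) (XT.lf (nat_lit 76) (nat_lit 18008800252) (nat_lit 0) (nat_lit 4862181413) (nat_lit 1216) (nat_lit 1647293186) (nat_lit 229) (nat_lit 5) (nat_lit 228) (nat_lit 5) (nat_lit 244) (nat_lit 5) (nat_lit 364) (nat_lit 357) (nat_lit 179)))) (XT.nd (nat_lit 156) (nat_lit 0) (nat_lit 76) (XT.nd (nat_lit 78) (nat_lit 1216) (nat_lit 0) (XT.lf (nat_lit 76) (nat_lit 5468127732) (nat_lit 0) (nat_lit 18675760371)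 (nat_lit 1216) (nat_lit 753154557) (nat_lit 230) (nat_lit 5) (nat_lit 229) (nat_lit 5) (nat_lit 245) (nat_lit 5) (nat_lit 365) (nat_lit 357) (nat_lit 178)) (XT.lf (nat_lit 0) (nat_lit 274840908) (nat_lit 1216) (nat_lit 7400047415) (nat_lit 1292) (nat_lit 17608930694) (nat_lit 213) (nat_lit 5) (nat_lit 229) (nat_lit 5) (nat_lit 230) (nat_lit 5) (nat_lit 366) (nat_lit 357) (nat_lit 177))) (XT.nd (nat_lit 78) (nat_lit 0) (nat_lit 0) (XT.lf (nat_lit 0) (nat_lit 1398974801) (nat_lit 1216) (nat_lit 20637872696) (nat_lit 1292) (nat_lit 3642717399) (nat_lit 214) (nat_lit 5) (nat_lit 230) (nat_lit 5) (nat_lit 231) (nat_lit 5) (nat_lit 367) (nat_lit 357) (nat_lit 176)) (XT.lf (nat_lit 0) (nat_lit 2704296842) (nat_lit 1216) (nat_lit 8156250883) (nat_lit 1292) (nat_lit 15222214445) (nat_lit 214) (nat_lit 5) (nat_lit 230) (nat_lit 5) (nat_lit 231) (nat_lit 5) (nat_lit 368) (nat_lit 357) (nat_lit 175)))))) (XT.nd (nat_lit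 546) (nat_lit 1824) (nat_lit 0) (XT.nd (nat_lit 234) (nat_lit 836) (nat_lit 0) (XT.nd (nat_lit 78) (nat_lit 0) (nat_lit 0) (XT.lf (nat_lit 0) (nat_lit 4097676354) (nat_lit 1216) (nat_lit 21713090927) (nat_lit 1292) (nat_lit 685824003) (nat_lit 215) (nat_lit 5) (nat_lit 231) (nat_lit 5) (nat_lit 232) (nat_lit 5) (nat_lit 369) (nat_lit 357) (nat_lit 174)) (XT.nd (nat_lit 78) (nat_lit 0) (nat_lit 0) (XT.lf (nat_lit 0) (nat_lit 5719785168) (nat_lit 1216) (nat_lit 8753040342) (nat_lit 1292) (nat_lit 12444404695) (nat_lit 215) (nat_lit 5) (nat_lit 231) (nat_lit 5) (nat_lit 232) (nat_lit 5) (nat_lit 370) (nat_lit 357) (nat_lit 173)) (XT.lf (nat_lit 76) (nat_lit 4684336962) (nat_lit 0) (nat_lit 2747579225) (nat_lit 1292) (nat_lit 19917334032) (nat_lit 216) (nat_lit 5) (nat_lit 215) (nat_lit 5) (nat_lit 232) (nat_lit 5) (nat_lit 371) (nat_lit 357) (nat_lit 172)))) (XT.nd (nat_lit 156) (nat_lit 912) (nat_lit 0)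 (XT.nd (nat_lit 78) (nat_lit 0) (nat_lit 0) (XT.lf (nat_lit 0) (nat_lit 9370771692) (nat_lit 1216) (nat_lit 9180842325) (nat_lit 1292) (nat_lit 9237358612) (nat_lit 216) (nat_lit 5) (nat_lit 232) (nat_lit 5) (nat_lit 233) (nat_lit 5) (nat_lit 372) (nat_lit 357) (nat_lit 171)) (XT.lf (nat_lit 76) (nat_lit 4770755970) (nat_lit 0) (nat_lit 6666621179) (nat_lit 1292) (nat_lit 16802424571) (nat_lit 217) (nat_lit 5) (nat_lit 216) (nat_lit 5) (nat_lit 233) (nat_lit 5) (nat_lit 373) (nat_lit 357) (nat_lit 170))) (XT.nd (nat_lit 78) (nat_lit 988) (nat_lit 0) (XT.lf (nat_lit 0) (nat_lit 13709796971) (nat_lit 1216) (nat_lit 9429748639) (nat_lit 76) (nat_lit 5560298051) (nat_lit 217) (nat_lit 5) (nat_lit 233) (nat_lit 5) (nat_lit 218) (nat_lit 5) (nat_lit 374) (nat_lit 357) (nat_lit 169)) (XT.lf (nat_lit 0) (nat_lit 5060590782) (nat_lit 988) (nat_lit 11101149506) (nat_lit 1064) (nat_lit 13008608437) (nat_lit 204)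 (nat_lit 5) (nat_lit 217) (nat_lit 5) (nat_lit 218) (nat_lit 5) (nat_lit 375) (nat_lit 357) (nat_lit 168))))) (XT.nd (nat_lit 234) (nat_lit 1216) (nat_lit 0) (XT.nd (nat_lit 78) (nat_lit 608) (nat_lit 0) (XT.lf (nat_lit 0) (nat_lit 18792659290) (nat_lit 1064) (nat_lit 9489550580) (nat_lit 76) (nat_lit 1369598872) (nat_lit 204) (nat_lit 5) (nat_lit 218) (nat_lit 5) (nat_lit 205) (nat_lit 5) (nat_lit 376) (nat_lit 357) (nat_lit 167)) (XT.nd (nat_lit 78) (nat_lit 0) (nat_lit 0) (XT.lf (nat_lit 0) (nat_lit 5565075896) (nat_lit 608) (nat_lit 16097702901) (nat_lit 684) (nat_lit 8480127828) (nat_lit 196) (nat_lit 5) (nat_lit 204) (nat_lit 5) (nat_lit 205) (nat_lit 5) (nat_lit 377) (nat_lit 357) (nat_lit 166)) (XT.lf (nat_lit 0) (nat_lit 21263026372) (nat_lit 608) (nat_lit 3448731003) (nat_lit 684) (nat_lit 5934199594) (nat_lit 196) (nat_lit 5) (nat_lit 204) (nat_lit 5) (nat_lit 205) (nat_lit 5) (nat_lit 378)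 (nat_lit 357) (nat_lit 165)))) (XT.nd (nat_lit 156) (nat_lit 684) (nat_lit 0) (XT.nd (nat_lit 78) (nat_lit 0) (nat_lit 0) (XT.lf (nat_lit 0) (nat_lit 6295730671) (nat_lit 532) (nat_lit 21706100285) (nat_lit 608) (nat_lit 3157781223) (nat_lit 189) (nat_lit 5) (nat_lit 196) (nat_lit 5) (nat_lit 197) (nat_lit 5) (nat_lit 379) (nat_lit 357) (nat_lit 164)) (XT.lf (nat_lit 0) (nat_lit 22599442983) (nat_lit 532) (nat_lit 8916804860) (nat_lit 608) (nat_lit 168662032) (nat_lit 189) (nat_lit 5) (nat_lit 196) (nat_lit 5) (nat_lit 197) (nat_lit 5) (nat_lit 380) (nat_lit 357) (nat_lit 163))) (XT.nd (nat_lit 78) (nat_lit 0) (nat_lit 0) (XT.lf (nat_lit 0) (nat_lit 2962318659) (nat_lit 684) (nat_lit 24987463378) (nat_lit 76) (nat_lit 4272077939) (nat_lit 180) (nat_lit 5) (nat_lit 189) (nat_lit 5) (nat_lit 181) (nat_lit 5) (nat_lit 381) (nat_lit 357) (nat_lit 162)) (XT.lf (nat_lit 0) (nat_lit 6361970698) (nat_lit 684)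 (nat_lit 8635790465) (nat_lit 76) (nat_lit 17771765251) (nat_lit 180) (nat_lit 5) (nat_lit 189) (nat_lit 5) (nat_lit 181) (nat_lit 5) (nat_lit 382) (nat_lit 357) (nat_lit 161))))))))
noncomputable def xc224 : XT := (XT.nd (nat_lit 2028) (nat_lit 2584) (nat_lit 0) (XT.nd (nat_lit 1014) (nat_lit 2584) (nat_lit 0) (XT.nd (nat_lit 468) (nat_lit 1824) (nat_lit 0) (XT.nd (nat_lit 234) (nat_lit 456) (nat_lit 0) (XT.nd (nat_lit 78) (nat_lit 532) (nat_lit 0) (XT.lf (nat_lit 0) (nat_lit 8366924856) (nat_lit 532) (nat_lit 1574390102) (nat_lit 608) (nat_lit 23389978641) (nat_lit 173) (nat_lit 5) (nat_lit 180) (nat_lit 5) (nat_lit 181) (nat_lit 5) (nat_lit 383) (nat_lit 357) (nat_lit 160)) (XT.nd (nat_lit 78) (nat_lit 532) (nat_lit 0) (XT.lf (nat_lit 0) (nat_lit 13831205040) (nat_lit 608) (nat_lit 7972015470) (nat_lit 76) (nat_lit 12100600104) (nat_lit 173) (nat_lit 5) (nat_lit 181) (nat_lit 5) (nat_lit 174) (nat_lit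 5) (nat_lit 384) (nat_lit 357) (nat_lit 159)) (XT.lf (nat_lit 0) (nat_lit 9701075135) (nat_lit 532) (nat_lit 8242962107) (nat_lit 608) (nat_lit 16546300564) (nat_lit 166) (nat_lit 5) (nat_lit 173) (nat_lit 5) (nat_lit 174) (nat_lit 5) (nat_lit 385) (nat_lit 357) (nat_lit 158)))) (XT.nd (nat_lit 78) (nat_lit 456) (nat_lit 0) (XT.lf (nat_lit 0) (nat_lit 22314029244) (nat_lit 608) (nat_lit 7082876724) (nat_lit 76) (nat_lit 5693532976) (nat_lit 166) (nat_lit 5) (nat_lit 174) (nat_lit 5) (nat_lit 167) (nat_lit 5) (nat_lit 386) (nat_lit 357) (nat_lit 157)) (XT.nd (nat_lit 78) (nat_lit 0) (nat_lit 0) (XT.lf (nat_lit 0) (nat_lit 11290693304) (nat_lit 456) (nat_lit 15712100913) (nat_lit 532) (nat_lit 8700120333) (nat_lit 160) (nat_lit 5) (nat_lit 166) (nat_lit 5) (nat_lit 167) (nat_lit 5) (nat_lit 387) (nat_lit 357) (nat_lit 156)) (XT.lf (nat_lit 0) (nat_lit 30357972987) (nat_lit 456) (nat_lit 1543345179) (nat_lit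 532) (nat_lit 4430374958) (nat_lit 160) (nat_lit 5) (nat_lit 166) (nat_lit 5) (nat_lit 167) (nat_lit 5) (nat_lit 388) (nat_lit 357) (nat_lit 155))))) (XT.nd (nat_lit 234) (nat_lit 836) (nat_lit 0) (XT.nd (nat_lit 78) (nat_lit 456) (nat_lit 0) (XT.lf (nat_lit 0) (nat_lit 220026983) (nat_lit 532) (nat_lit 23827671528) (nat_lit 76) (nat_lit 12924089539) (nat_lit 153) (nat_lit 5) (nat_lit 160) (nat_lit 5) (nat_lit 154) (nat_lit 5) (nat_lit 389) (nat_lit 357) (nat_lit 154)) (XT.nd (nat_lit 78) (nat_lit 456) (nat_lit 0) (XT.lf (nat_lit 0) (nat_lit 4994755498) (nat_lit 532) (nat_lit 4733778107) (nat_lit 76) (nat_lit 27899021893) (nat_lit 153) (nat_lit 5) (nat_lit 160) (nat_lit 5) (nat_lit 154) (nat_lit 5) (nat_lit 390) (nat_lit 357) (nat_lit 153)) (XT.lf (nat_lit 0) (nat_lit 10106532673) (nat_lit 532) (nat_lit 23120926853) (nat_lit 76) (nat_lit 5069723644) (nat_lit 147) (nat_lit 5) (nat_lit 154) (nat_lit 5) (nat_lit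 148) (nat_lit 5) (nat_lit 391) (nat_lit 357) (nat_lit 152)))) (XT.nd (nat_lit 156) (nat_lit 380) (nat_lit 0) (XT.nd (nat_lit 78) (nat_lit 456) (nat_lit 0) (XT.lf (nat_lit 0) (nat_lit 15514026167) (nat_lit 532) (nat_lit 3304294400) (nat_lit 76) (nat_lit 20164309579) (nat_lit 147) (nat_lit 5) (nat_lit 154) (nat_lit 5) (nat_lit 148) (nat_lit 5) (nat_lit 392) (nat_lit 357) (nat_lit 151)) (XT.lf (nat_lit 0) (nat_lit 17444659764) (nat_lit 456) (nat_lit 3804604245) (nat_lit 532) (nat_lit 18434412260) (nat_lit 141) (nat_lit 5) (nat_lit 147) (nat_lit 5) (nat_lit 148) (nat_lit 5) (nat_lit 393) (nat_lit 357) (nat_lit 150))) (XT.nd (nat_lit 78) (nat_lit 380) (nat_lit 0) (XT.lf (nat_lit 0) (nat_lit 27300199966) (nat_lit 532) (nat_lit 1635965392) (nat_lit 76) (nat_lit 11465280474) (nat_lit 141) (nat_lit 5) (nat_lit 148) (nat_lit 5) (nat_lit 142) (nat_lit 5) (nat_lit 394) (nat_lit 357) (nat_lit 149)) (XT.lf (nat_lit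 0) (nat_lit 19933946202) (nat_lit 380) (nat_lit 13825931856) (nat_lit 456) (nat_lit 7374055251) (nat_lit 136) (nat_lit 5) (nat_lit 141) (nat_lit 5) (nat_lit 142) (nat_lit 5) (nat_lit 395) (nat_lit 357) (nat_lit 148)))))) (XT.nd (nat_lit 468) (nat_lit 1368) (nat_lit 0) (XT.nd (nat_lit 234) (nat_lit 380) (nat_lit 0) (XT.nd (nat_lit 78) (nat_lit 456) (nat_lit 0) (XT.lf (nat_lit 0) (nat_lit 282662768) (nat_lit 380) (nat_lit 40164746338) (nat_lit 456) (nat_lit 1439965637) (nat_lit 131) (nat_lit 5) (nat_lit 136) (nat_lit 5) (nat_lit 137) (nat_lit 5) (nat_lit 396) (nat_lit 357) (nat_lit 147)) (XT.nd (nat_lit 78) (nat_lit 380) (nat_lit 0) (XT.lf (nat_lit 0) (nat_lit 4932037376) (nat_lit 456) (nat_lit 19999141230) (nat_lit 76) (nat_lit 17720362776) (nat_lit 130) (nat_lit 5) (nat_lit 136) (nat_lit 5) (nat_lit 131) (nat_lit 5) (nat_lit 397) (nat_lit 357) (nat_lit 146)) (XT.lf (nat_lit 0) (nat_lit 2282358411) (nat_lit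 380) (nat_lit 9203871474) (nat_lit 456) (nat_lit 31951377394) (nat_lit 125) (nat_lit 5) (nat_lit 130) (nat_lit 5) (nat_lit 131) (nat_lit 5) (nat_lit 398) (nat_lit 357) (nat_lit 145)))) (XT.nd (nat_lit 78) (nat_lit 380) (nat_lit 0) (XT.lf (nat_lit 0) (nat_lit 18506302326) (nat_lit 456) (nat_lit 18670720189) (nat_lit 76) (nat_lit 7062156090) (nat_lit 125) (nat_lit 5) (nat_lit 131) (nat_lit 5) (nat_lit 126) (nat_lit 5) (nat_lit 399) (nat_lit 357) (nat_lit 144)) (XT.nd (nat_lit 78) (nat_lit 0) (nat_lit 0) (XT.lf (nat_lit 0) (nat_lit 4482207887) (nat_lit 380) (nat_lit 21387098574) (nat_lit 456) (nat_lit 19191521770) (nat_lit 120) (nat_lit 5) (nat_lit 125) (nat_lit 5) (nat_lit 126) (nat_lit 5) (nat_lit 400) (nat_lit 357) (nat_lit 143)) (XT.lf (nat_lit 0) (nat_lit 28710006468) (nat_lit 380) (nat_lit 4929879599) (nat_lit 456) (nat_lit 12261641733) (nat_lit 120) (nat_lit 5) (nat_lit 125) (nat_lit 5) (nat_lit 126)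 (nat_lit 5) (nat_lit 401) (nat_lit 357) (nat_lit 142))))) (XT.nd (nat_lit 234) (nat_lit 608) (nat_lit 0) (XT.nd (nat_lit 78) (nat_lit 456) (nat_lit 0) (XT.lf (nat_lit 0) (nat_lit 6914129636) (nat_lit 304) (nat_lit 34909666076) (nat_lit 380) (nat_lit 4938247247) (nat_lit 116) (nat_lit 5) (nat_lit 120) (nat_lit 5) (nat_lit 121) (nat_lit 5) (nat_lit 402) (nat_lit 357) (nat_lit 141)) (XT.nd (nat_lit 78) (nat_lit 380) (nat_lit 0) (XT.lf (nat_lit 0) (nat_lit 2776356249) (nat_lit 380) (nat_lit 15625814663) (nat_lit 76) (nat_lit 29238782296) (nat_lit 115) (nat_lit 5) (nat_lit 120) (nat_lit 5) (nat_lit 116) (nat_lit 5) (nat_lit 403) (nat_lit 357) (nat_lit 140)) (XT.lf (nat_lit 0) (nat_lit 9456209523) (nat_lit 380) (nat_lit 1256092542) (nat_lit 456) (nat_lit 37829788052) (nat_lit 110) (nat_lit 5) (nat_lit 115) (nat_lit 5) (nat_lit 116) (nat_lit 5) (nat_lit 404) (nat_lit 357) (nat_lit 139)))) (XT.nd (nat_lit 156)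 (nat_lit 304) (nat_lit 0) (XT.nd (nat_lit 78) (nat_lit 304) (nat_lit 0) (XT.lf (nat_lit 0) (nat_lit 19201648744) (nat_lit 456) (nat_lit 14016161769) (nat_lit 76) (nat_lit 16242991820) (nat_lit 110) (nat_lit 5) (nat_lit 116) (nat_lit 5) (nat_lit 111) (nat_lit 5) (nat_lit 405) (nat_lit 357) (nat_lit 138)) (XT.lf (nat_lit 0) (nat_lit 12025551996) (nat_lit 304) (nat_lit 16046488706) (nat_lit 380) (nat_lit 22331245116) (nat_lit 106) (nat_lit 5) (nat_lit 110) (nat_lit 5) (nat_lit 111) (nat_lit 5) (nat_lit 406) (nat_lit 357) (nat_lit 137))) (XT.nd (nat_lit 78) (nat_lit 304) (nat_lit 0) (XT.lf (nat_lit 0) (nat_lit 37365597480) (nat_lit 380) (nat_lit 12253471661) (nat_lit 76) (nat_lit 1750263902) (nat_lit 106) (nat_lit 5) (nat_lit 111) (nat_lit 5) (nat_lit 107) (nat_lit 5) (nat_lit 407) (nat_lit 357) (nat_lit 136)) (XT.lf (nat_lit 0) (nat_lit 14781814004) (nat_lit 304) (nat_lit 32455514477) (nat_lit 380) (nat_lit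 5118052978) (nat_lit 102) (nat_lit 5) (nat_lit 106) (nat_lit 5) (nat_lit 107) (nat_lit 5) (nat_lit 408) (nat_lit 357) (nat_lit 135))))))) (XT.nd (nat_lit 1014) (nat_lit 760) (nat_lit 0) (XT.nd (nat_lit 468) (nat_lit 912) (nat_lit 0) (XT.nd (nat_lit 234) (nat_lit 532) (nat_lit 0) (XT.nd (nat_lit 78) (nat_lit 304) (nat_lit 0) (XT.lf (nat_lit 0) (nat_lit 4078847615) (nat_lit 380) (nat_lit 10530245964) (nat_lit 76) (nat_lit 38757054049) (nat_lit 101) (nat_lit 5) (nat_lit 106) (nat_lit 5) (nat_lit 102) (nat_lit 5) (nat_lit 409) (nat_lit 357) (nat_lit 134)) (XT.nd (nat_lit 78) (nat_lit 0) (nat_lit 0) (XT.lf (nat_lit 0) (nat_lit 13655007680) (nat_lit 380) (nat_lit 36823901777) (nat_lit 76) (nat_lit 3920621236) (nat_lit 97) (nat_lit 5) (nat_lit 102) (nat_lit 5) (nat_lit 98) (nat_lit 5) (nat_lit 410) (nat_lit 357) (nat_lit 133)) (XT.lf (nat_lit 0) (nat_lit 23768956630) (nat_lit 380) (nat_lit 8868119134) (nat_lit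 76) (nat_lit 22819325076) (nat_lit 97) (nat_lit 5) (nat_lit 102) (nat_lit 5) (nat_lit 98) (nat_lit 5) (nat_lit 411) (nat_lit 357) (nat_lit 132)))) (XT.nd (nat_lit 78) (nat_lit 228) (nat_lit 0) (XT.lf (nat_lit 0) (nat_lit 20320695710) (nat_lit 304) (nat_lit 14059479737) (nat_lit 380) (nat_lit 22158986793) (nat_lit 93) (nat_lit 5) (nat_lit 97) (nat_lit 5) (nat_lit 98) (nat_lit 5) (nat_lit 412) (nat_lit 357) (nat_lit 131)) (XT.nd (nat_lit 78) (nat_lit 228) (nat_lit 0) (XT.lf (nat_lit 0) (nat_lit 45447488721) (nat_lit 380) (nat_lit 7136619965) (nat_lit 76) (nat_lit 5066165731) (nat_lit 93) (nat_lit 5) (nat_lit 98) (nat_lit 5) (nat_lit 94) (nat_lit 5) (nat_lit 413) (nat_lit 357) (nat_lit 130)) (XT.lf (nat_lit 0) (nat_lit 23127659046) (nat_lit 228) (nat_lit 34079257433) (nat_lit 304) (nat_lit 1577001279) (nat_lit 90) (nat_lit 5) (nat_lit 93) (nat_lit 5) (nat_lit 94) (nat_lit 5) (nat_lit 414) (nat_lit 357) (nat_lit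 129))))) (XT.nd (nat_lit 234) (nat_lit 532) (nat_lit 0) (XT.nd (nat_lit 78) (nat_lit 304) (nat_lit 0) (XT.lf (nat_lit 0) (nat_lit 9256123165) (nat_lit 304) (nat_lit 5596140616) (nat_lit 76) (nat_lit 45094464993) (nat_lit 89) (nat_lit 5) (nat_lit 93) (nat_lit 5) (nat_lit 90) (nat_lit 5) (nat_lit 415) (nat_lit 357) (nat_lit 128)) (XT.nd (nat_lit 78) (nat_lit 0) (nat_lit 0) (XT.lf (nat_lit 0) (nat_lit 20679884777) (nat_lit 380) (nat_lit 35334173985) (nat_lit 76) (nat_lit 5120977353) (nat_lit 85) (nat_lit 5) (nat_lit 90) (nat_lit 5) (nat_lit 86) (nat_lit 5) (nat_lit 416) (nat_lit 357) (nat_lit 127)) (XT.lf (nat_lit 0) (nat_lit 32649117820) (nat_lit 380) (nat_lit 4252502975) (nat_lit 76) (nat_lit 25451289700) (nat_lit 85) (nat_lit 5) (nat_lit 90) (nat_lit 5) (nat_lit 86) (nat_lit 5) (nat_lit 417) (nat_lit 357) (nat_lit 126)))) (XT.nd (nat_lit 156) (nat_lit 304) (nat_lit 0) (XT.nd (nat_lit 78) (nat_lit 0) (nat_lit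 0) (XT.lf (nat_lit 0) (nat_lit 28312064899) (nat_lit 228) (nat_lit 16936192458) (nat_lit 304) (nat_lit 18350939425) (nat_lit 82) (nat_lit 5) (nat_lit 85) (nat_lit 5) (nat_lit 86) (nat_lit 5) (nat_lit 418) (nat_lit 357) (nat_lit 125)) (XT.lf (nat_lit 0) (nat_lit 58302303831) (nat_lit 304) (nat_lit 2978179814) (nat_lit 76) (nat_lit 3600080578) (nat_lit 82) (nat_lit 5) (nat_lit 86) (nat_lit 5) (nat_lit 83) (nat_lit 5) (nat_lit 419) (nat_lit 357) (nat_lit 124))) (XT.nd (nat_lit 78) (nat_lit 0) (nat_lit 0) (XT.lf (nat_lit 0) (nat_lit 5905725503) (nat_lit 304) (nat_lit 35514386296) (nat_lit 76) (nat_lit 24764670191) (nat_lit 78) (nat_lit 5) (nat_lit 82) (nat_lit 5) (nat_lit 79) (nat_lit 5) (nat_lit 420) (nat_lit 357) (nat_lit 123)) (XT.lf (nat_lit 0) (nat_lit 18661118668) (nat_lit 304) (nat_lit 2205158634) (nat_lit 76) (nat_lit 46659022422) (nat_lit 78) (nat_lit 5) (nat_lit 82) (nat_lit 5) (nat_lit 79) (nat_lit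 5) (nat_lit 421) (nat_lit 357) (nat_lit 122)))))) (XT.nd (nat_lit 41886) (nat_lit 0) (nat_lit 12008) (XT.nd (nat_lit 234) (nat_lit 304) (nat_lit 0) (XT.nd (nat_lit 78) (nat_lit 228) (nat_lit 0) (XT.lf (nat_lit 0) (nat_lit 32118696259) (nat_lit 304) (nat_lit 36162360943) (nat_lit 76) (nat_lit 615390594) (nat_lit 75) (nat_lit 5) (nat_lit 79) (nat_lit 5) (nat_lit 76) (nat_lit 5) (nat_lit 422) (nat_lit 357) (nat_lit 121)) (XT.nd (nat_lit 78) (nat_lit 228) (nat_lit 0) (XT.lf (nat_lit 0) (nat_lit 46207866653) (nat_lit 304) (nat_lit 1750103526) (nat_lit 76) (nat_lit 22343924637) (nat_lit 75) (nat_lit 5) (nat_lit 79) (nat_lit 5) (nat_lit 76) (nat_lit 5) (nat_lit 423) (nat_lit 357) (nat_lit 120)) (XT.lf (nat_lit 0) (nat_lit 34363190386) (nat_lit 228) (nat_lit 26685657721) (nat_lit 304) (nat_lit 10690783518) (nat_lit 72) (nat_lit 5) (nat_lit 75) (nat_lit 5) (nat_lit 76) (nat_lit 5) (nat_lit 424) (nat_lit 357) (nat_lit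 119)))) (XT.nd (nat_lit 78) (nat_lit 228) (nat_lit 0) (XT.lf (nat_lit 0) (nat_lit 3070450334) (nat_lit 304) (nat_lit 1656212162) (nat_lit 76) (nat_lit 68492440258) (nat_lit 71) (nat_lit 5) (nat_lit 75) (nat_lit 5) (nat_lit 72) (nat_lit 5) (nat_lit 425) (nat_lit 357) (nat_lit 118)) (XT.nd (nat_lit 78) (nat_lit 0) (nat_lit 0) (XT.lf (nat_lit 0) (nat_lit 17548334880) (nat_lit 304) (nat_lit 39180868894) (nat_lit 76) (nat_lit 17995018545) (nat_lit 68) (nat_lit 5) (nat_lit 72) (nat_lit 5) (nat_lit 69) (nat_lit 5) (nat_lit 426) (nat_lit 357) (nat_lit 117)) (XT.lf (nat_lit 0) (nat_lit 32523108916) (nat_lit 304) (nat_lit 2429942374) (nat_lit 76) (nat_lit 41319568000) (nat_lit 68) (nat_lit 5) (nat_lit 72) (nat_lit 5) (nat_lit 69) (nat_lit 5) (nat_lit 427) (nat_lit 357) (nat_lit 116))))) (XT.nd (nat_lit 234) (nat_lit 0) (nat_lit 0) (XT.nd (nat_lit 78) (nat_lit 0) (nat_lit 0) (XT.lf (nat_lit 0) (nat_lit 4559305242)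 (nat_lit 0) (nat_lit 4559305242) (nat_lit 1140) (nat_lit 2250205593) (nat_lit 226) (nat_lit 5) (nat_lit 226) (nat_lit 3) (nat_lit 241) (nat_lit 3) (nat_lit 358) (nat_lit 358) (nat_lit 184)) (XT.nd (nat_lit 78) (nat_lit 0) (nat_lit 0) (XT.lf (nat_lit 0) (nat_lit 18648079825) (nat_lit 1140) (nat_lit 2974285231) (nat_lit 1216) (nat_lit 1452117093) (nat_lit 226) (nat_lit 5) (nat_lit 241) (nat_lit 3) (nat_lit 242) (nat_lit 5) (nat_lit 359) (nat_lit 358) (nat_lit 183)) (XT.lf (nat_lit 76) (nat_lit 8054102255) (nat_lit 0) (nat_lit 11180086656) (nat_lit 1216) (nat_lit 4182364722) (nat_lit 227) (nat_lit 5) (nat_lit 226) (nat_lit 5) (nat_lit 242) (nat_lit 5) (nat_lit 360) (nat_lit 358) (nat_lit 182)))) (XT.nd (nat_lit 156) (nat_lit 0) (nat_lit 76) (XT.nd (nat_lit 78) (nat_lit 0) (nat_lit 76) (XT.lf (nat_lit 76) (nat_lit 19471764198) (nat_lit 0) (nat_lit 391486490) (nat_lit 1216) (nat_lit 3904879108) (nat_lit 227)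 (nat_lit 5) (nat_lit 226) (nat_lit 5) (nat_lit 242) (nat_lit 5) (nat_lit 361) (nat_lit 358) (nat_lit 181)) (XT.lf (nat_lit 76) (nat_lit 7135250509) (nat_lit 0) (nat_lit 13543067427) (nat_lit 1216) (nat_lit 3446924812) (nat_lit 228) (nat_lit 5) (nat_lit 227) (nat_lit 5) (nat_lit 243) (nat_lit 5) (nat_lit 362) (nat_lit 358) (nat_lit 180))) (XT.nd (nat_lit 78) (nat_lit 0) (nat_lit 76) (XT.lf (nat_lit 76) (nat_lit 18991326877) (nat_lit 0) (nat_lit 2569330194) (nat_lit 1216) (nat_lit 2931130833) (nat_lit 228) (nat_lit 5) (nat_lit 227) (nat_lit 5) (nat_lit 243) (nat_lit 5) (nat_lit 363) (nat_lit 358) (nat_lit 179)) (XT.lf (nat_lit 76) (nat_lit 6371454583) (nat_lit 0) (nat_lit 16238952917) (nat_lit 1216) (nat_lit 2254696989) (nat_lit 229) (nat_lit 5) (nat_lit 228) (nat_lit 5) (nat_lit 244) (nat_lit 5) (nat_lit 364) (nat_lit 358) (nat_lit 178))))))))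
noncomputable def xc225 : XT := (XT.nd (nat_lit 2028) (nat_lit 5168) (nat_lit 0) (XT.nd (nat_lit 1014) (nat_lit 3876) (nat_lit 0) (XT.nd (nat_lit 468) (nat_lit 684) (nat_lit 0) (XT.nd (nat_lit 234) (nat_lit 0) (nat_lit 76) (XT.nd (nat_lit 78) (nat_lit 1140) (nat_lit 0) (XT.lf (nat_lit 76) (nat_lit 18683684109) (nat_lit 0) (nat_lit 5084540155) (nat_lit 1216) (nat_lit 1479102309) (nat_lit 229) (nat_lit 5) (nat_lit 228) (nat_lit 5) (nat_lit 244) (nat_lit 5) (nat_lit 365) (nat_lit 358) (nat_lit 177)) (XT.nd (nat_lit 78) (nat_lit 1216) (nat_lit 0) (XT.lf (nat_lit 76) (nat_lit 5772632535) (nat_lit 0) (nat_lit 19301172745) (nat_lit 1216) (nat_lit 563822265) (nat_lit 230) (nat_lit 5) (nat_lit 229) (nat_lit 5) (nat_lit 245) (nat_lit 5) (nat_lit 366) (nat_lit 358) (nat_lit 176)) (XT.lf (nat_lit 0) (nat_lit 484825428) (nat_lit 1216) (nat_lit 7481514668) (nat_lit 1292) (nat_lit 18069792026) (nat_lit 213) (nat_lit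 5) (nat_lit 229) (nat_lit 5) (nat_lit 230) (nat_lit 5) (nat_lit 367) (nat_lit 358) (nat_lit 175)))) (XT.nd (nat_lit 78) (nat_lit 0) (nat_lit 0) (XT.lf (nat_lit 0) (nat_lit 1637587131) (nat_lit 1216) (nat_lit 21111233563) (nat_lit 1292) (nat_lit 3695086918) (nat_lit 214) (nat_lit 5) (nat_lit 230) (nat_lit 5) (nat_lit 231) (nat_lit 5) (nat_lit 368) (nat_lit 358) (nat_lit 174)) (XT.nd (nat_lit 78) (nat_lit 0) (nat_lit 76) (XT.lf (nat_lit 0) (nat_lit 2976341365) (nat_lit 1216) (nat_lit 8259408978) (nat_lit 1292) (nat_lit 15623626507) (nat_lit 214) (nat_lit 5) (nat_lit 230) (nat_lit 5) (nat_lit 231) (nat_lit 5) (nat_lit 369) (nat_lit 358) (nat_lit 173)) (XT.lf (nat_lit 0) (nat_lit 4406861177) (nat_lit 1216) (nat_lit 22218156519) (nat_lit 1292) (nat_lit 660747071) (nat_lit 215) (nat_lit 5) (nat_lit 231) (nat_lit 5) (nat_lit 232) (nat_lit 5) (nat_lit 370) (nat_lit 358) (nat_lit 172))))) (XT.nd (nat_lit 234) (nat_lit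 836) (nat_lit 0) (XT.nd (nat_lit 78) (nat_lit 0) (nat_lit 0) (XT.lf (nat_lit 0) (nat_lit 6072208367) (nat_lit 1216) (nat_lit 8873566373) (nat_lit 1292) (nat_lit 12773414843) (nat_lit 215) (nat_lit 5) (nat_lit 231) (nat_lit 5) (nat_lit 232) (nat_lit 5) (nat_lit 371) (nat_lit 358) (nat_lit 171)) (XT.nd (nat_lit 78) (nat_lit 0) (nat_lit 76) (XT.lf (nat_lit 76) (nat_lit 4965539455) (nat_lit 0) (nat_lit 2866249207) (nat_lit 1292) (nat_lit 20332502837) (nat_lit 216) (nat_lit 5) (nat_lit 215) (nat_lit 5) (nat_lit 232) (nat_lit 5) (nat_lit 372) (nat_lit 358) (nat_lit 170)) (XT.lf (nat_lit 0) (nat_lit 9823318729) (nat_lit 1216) (nat_lit 9314076336) (nat_lit 1292) (nat_lit 9479979000) (nat_lit 216) (nat_lit 5) (nat_lit 232) (nat_lit 5) (nat_lit 233) (nat_lit 5) (nat_lit 373) (nat_lit 358) (nat_lit 169)))) (XT.nd (nat_lit 156) (nat_lit 912) (nat_lit 0) (XT.nd (nat_lit 78) (nat_lit 0) (nat_lit 76) (XT.lf (nat_lit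 76) (nat_lit 5054675876) (nat_lit 0) (nat_lit 6893606975) (nat_lit 1292) (nat_lit 17133558005) (nat_lit 217) (nat_lit 5) (nat_lit 216) (nat_lit 5) (nat_lit 233) (nat_lit 5) (nat_lit 374) (nat_lit 358) (nat_lit 168)) (XT.lf (nat_lit 0) (nat_lit 14283736483) (nat_lit 1216) (nat_lit 9570688128) (nat_lit 76) (nat_lit 5701417144) (nat_lit 217) (nat_lit 5) (nat_lit 233) (nat_lit 5) (nat_lit 218) (nat_lit 5) (nat_lit 375) (nat_lit 358) (nat_lit 167))) (XT.nd (nat_lit 78) (nat_lit 0) (nat_lit 0) (XT.lf (nat_lit 0) (nat_lit 5352969779) (nat_lit 988) (nat_lit 11452882230) (nat_lit 1064) (nat_lit 13234714976) (nat_lit 204) (nat_lit 5) (nat_lit 217) (nat_lit 5) (nat_lit 218) (nat_lit 5) (nat_lit 376) (nat_lit 358) (nat_lit 166)) (XT.lf (nat_lit 0) (nat_lit 19510885450) (nat_lit 1064) (nat_lit 9632845627) (nat_lit 76) (nat_lit 1392887451) (nat_lit 204) (nat_lit 5) (nat_lit 218) (nat_lit 5) (nat_lit 205) (nat_lit 5)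 (nat_lit 377) (nat_lit 358) (nat_lit 165)))))) (XT.nd (nat_lit 468) (nat_lit 2052) (nat_lit 0) (XT.nd (nat_lit 234) (nat_lit 684) (nat_lit 0) (XT.nd (nat_lit 78) (nat_lit 532) (nat_lit 0) (XT.lf (nat_lit 0) (nat_lit 5872033453) (nat_lit 608) (nat_lit 16591922468) (nat_lit 684) (nat_lit 8578591241) (nat_lit 196) (nat_lit 5) (nat_lit 204) (nat_lit 5) (nat_lit 205) (nat_lit 5) (nat_lit 378) (nat_lit 358) (nat_lit 164)) (XT.nd (nat_lit 78) (nat_lit 532) (nat_lit 0) (XT.lf (nat_lit 0) (nat_lit 22036844620) (nat_lit 608) (nat_lit 3563152623) (nat_lit 684) (nat_lit 5960827114) (nat_lit 196) (nat_lit 5) (nat_lit 204) (nat_lit 5) (nat_lit 205) (nat_lit 5) (nat_lit 379) (nat_lit 358) (nat_lit 163)) (XT.lf (nat_lit 0) (nat_lit 6623768836) (nat_lit 532) (nat_lit 22361961396) (nat_lit 608) (nat_lit 3104253324) (nat_lit 189) (nat_lit 5) (nat_lit 196) (nat_lit 5) (nat_lit 197) (nat_lit 5) (nat_lit 380) (nat_lit 358)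 (nat_lit 162)))) (XT.nd (nat_lit 78) (nat_lit 684) (nat_lit 0) (XT.lf (nat_lit 0) (nat_lit 23412539132) (nat_lit 532) (nat_lit 9188850853) (nat_lit 608) (nat_lit 29778848) (nat_lit 189) (nat_lit 5) (nat_lit 196) (nat_lit 5) (nat_lit 197) (nat_lit 5) (nat_lit 381) (nat_lit 358) (nat_lit 161)) (XT.nd (nat_lit 78) (nat_lit 0) (nat_lit 0) (XT.lf (nat_lit 0) (nat_lit 3189509333) (nat_lit 684) (nat_lit 25596163637) (nat_lit 76) (nat_lit 4398600140) (nat_lit 180) (nat_lit 5) (nat_lit 189) (nat_lit 5) (nat_lit 181) (nat_lit 5) (nat_lit 382) (nat_lit 358) (nat_lit 160)) (XT.lf (nat_lit 0) (nat_lit 6687122163) (nat_lit 684) (nat_lit 8758045109) (nat_lit 76) (nat_lit 18303325843) (nat_lit 180) (nat_lit 5) (nat_lit 189) (nat_lit 5) (nat_lit 181) (nat_lit 5) (nat_lit 383) (nat_lit 358) (nat_lit 159))))) (XT.nd (nat_lit 234) (nat_lit 988) (nat_lit 0) (XT.nd (nat_lit 78) (nat_lit 532) (nat_lit 0) (XT.lf (nat_lit 0) (nat_lit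 8753410308) (nat_lit 532) (nat_lit 1617827310) (nat_lit 608) (nat_lit 23955956603) (nat_lit 173) (nat_lit 5) (nat_lit 180) (nat_lit 5) (nat_lit 181) (nat_lit 5) (nat_lit 384) (nat_lit 358) (nat_lit 158)) (XT.nd (nat_lit 78) (nat_lit 532) (nat_lit 0) (XT.lf (nat_lit 0) (nat_lit 14374024382) (nat_lit 608) (nat_lit 8075759024) (nat_lit 76) (nat_lit 12467230195) (nat_lit 173) (nat_lit 5) (nat_lit 181) (nat_lit 5) (nat_lit 174) (nat_lit 5) (nat_lit 385) (nat_lit 358) (nat_lit 157)) (XT.lf (nat_lit 0) (nat_lit 10126196683) (nat_lit 532) (nat_lit 8481609061) (nat_lit 608) (nat_lit 16913396117) (nat_lit 166) (nat_lit 5) (nat_lit 173) (nat_lit 5) (nat_lit 174) (nat_lit 5) (nat_lit 386) (nat_lit 358) (nat_lit 156)))) (XT.nd (nat_lit 156) (nat_lit 532) (nat_lit 0) (XT.nd (nat_lit 78) (nat_lit 456) (nat_lit 0) (XT.lf (nat_lit 0) (nat_lit 23105324352) (nat_lit 608) (nat_lit 7161525841) (nat_lit 76) (nat_lit 5872565444)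 (nat_lit 166) (nat_lit 5) (nat_lit 174) (nat_lit 5) (nat_lit 167) (nat_lit 5) (nat_lit 387) (nat_lit 358) (nat_lit 155)) (XT.lf (nat_lit 0) (nat_lit 11761939159) (nat_lit 456) (nat_lit 16170537292) (nat_lit 532) (nat_lit 8837859672) (nat_lit 160) (nat_lit 5) (nat_lit 166) (nat_lit 5) (nat_lit 167) (nat_lit 5) (nat_lit 388) (nat_lit 358) (nat_lit 154))) (XT.nd (nat_lit 78) (nat_lit 532) (nat_lit 0) (XT.lf (nat_lit 0) (nat_lit 31397377280) (nat_lit 456) (nat_lit 1577095389) (nat_lit 532) (nat_lit 4443612157) (nat_lit 160) (nat_lit 5) (nat_lit 166) (nat_lit 5) (nat_lit 167) (nat_lit 5) (nat_lit 389) (nat_lit 358) (nat_lit 153)) (XT.lf (nat_lit 0) (nat_lit 341937082) (nat_lit 532) (nat_lit 24409327071) (nat_lit 76) (nat_lit 13326146960) (nat_lit 153) (nat_lit 5) (nat_lit 160) (nat_lit 5) (nat_lit 154) (nat_lit 5) (nat_lit 390) (nat_lit 358) (nat_lit 152))))))) (XT.nd (nat_lit 1014) (nat_lit 2356) (nat_lit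 0) (XT.nd (nat_lit 468) (nat_lit 1520) (nat_lit 0) (XT.nd (nat_lit 234) (nat_lit 836) (nat_lit 0) (XT.nd (nat_lit 78) (nat_lit 456) (nat_lit 0) (XT.lf (nat_lit 0) (nat_lit 5256548929) (nat_lit 532) (nat_lit 4746495719) (nat_lit 76) (nat_lit 28749909768) (nat_lit 153) (nat_lit 5) (nat_lit 160) (nat_lit 5) (nat_lit 154) (nat_lit 5) (nat_lit 391) (nat_lit 358) (nat_lit 151)) (XT.nd (nat_lit 78) (nat_lit 0) (nat_lit 0) (XT.lf (nat_lit 0) (nat_lit 10519823461) (nat_lit 532) (nat_lit 23683335762) (nat_lit 76) (nat_lit 5239569390) (nat_lit 147) (nat_lit 5) (nat_lit 154) (nat_lit 5) (nat_lit 148) (nat_lit 5) (nat_lit 392) (nat_lit 358) (nat_lit 150)) (XT.lf (nat_lit 0) (nat_lit 16086335116) (nat_lit 532) (nat_lit 3276026245) (nat_lit 76) (nat_lit 20786475795) (nat_lit 147) (nat_lit 5) (nat_lit 154) (nat_lit 5) (nat_lit 148) (nat_lit 5) (nat_lit 393) (nat_lit 358) (nat_lit 149)))) (XT.nd (nat_lit 78) (nat_lit 380)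 (nat_lit 0) (XT.lf (nat_lit 0) (nat_lit 18094147554) (nat_lit 456) (nat_lit 3897581903) (nat_lit 532) (nat_lit 18879244125) (nat_lit 141) (nat_lit 5) (nat_lit 147) (nat_lit 5) (nat_lit 148) (nat_lit 5) (nat_lit 394) (nat_lit 358) (nat_lit 148)) (XT.nd (nat_lit 78) (nat_lit 380) (nat_lit 0) (XT.lf (nat_lit 0) (nat_lit 28221333086) (nat_lit 532) (nat_lit 1559648660) (nat_lit 76) (nat_lit 11829382143) (nat_lit 141) (nat_lit 5) (nat_lit 148) (nat_lit 5) (nat_lit 142) (nat_lit 5) (nat_lit 395) (nat_lit 358) (nat_lit 147)) (XT.lf (nat_lit 0) (nat_lit 20656130913) (nat_lit 380) (nat_lit 14216889595) (nat_lit 456) (nat_lit 7491860704) (nat_lit 136) (nat_lit 5) (nat_lit 141) (nat_lit 5) (nat_lit 142) (nat_lit 5) (nat_lit 396) (nat_lit 358) (nat_lit 146))))) (XT.nd (nat_lit 234) (nat_lit 684) (nat_lit 0) (XT.nd (nat_lit 78) (nat_lit 456) (nat_lit 0) (XT.lf (nat_lit 0) (nat_lit 416904927) (nat_lit 380) (nat_lit 41342781067)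 (nat_lit 456) (nat_lit 1381286379) (nat_lit 131) (nat_lit 5) (nat_lit 136) (nat_lit 5) (nat_lit 137) (nat_lit 5) (nat_lit 397) (nat_lit 358) (nat_lit 145)) (XT.nd (nat_lit 78) (nat_lit 380) (nat_lit 0) (XT.lf (nat_lit 0) (nat_lit 5176979290) (nat_lit 456) (nat_lit 20475031417) (nat_lit 76) (nat_lit 18276112848) (nat_lit 130) (nat_lit 5) (nat_lit 136) (nat_lit 5) (nat_lit 131) (nat_lit 5) (nat_lit 398) (nat_lit 358) (nat_lit 144)) (XT.lf (nat_lit 0) (nat_lit 2473696703) (nat_lit 380) (nat_lit 9452457266) (nat_lit 456) (nat_lit 32811668360) (nat_lit 125) (nat_lit 5) (nat_lit 130) (nat_lit 5) (nat_lit 131) (nat_lit 5) (nat_lit 399) (nat_lit 358) (nat_lit 143)))) (XT.nd (nat_lit 156) (nat_lit 304) (nat_lit 0) (XT.nd (nat_lit 78) (nat_lit 380) (nat_lit 0) (XT.lf (nat_lit 0) (nat_lit 19154308702) (nat_lit 456) (nat_lit 19108981532) (nat_lit 76) (nat_lit 7300227701) (nat_lit 125) (nat_lit 5) (nat_lit 131) (nat_lit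 5) (nat_lit 126) (nat_lit 5) (nat_lit 400) (nat_lit 358) (nat_lit 142)) (XT.lf (nat_lit 0) (nat_lit 4737339678) (nat_lit 380) (nat_lit 21999319777) (nat_lit 456) (nat_lit 19673205400) (nat_lit 120) (nat_lit 5) (nat_lit 125) (nat_lit 5) (nat_lit 126) (nat_lit 5) (nat_lit 401) (nat_lit 358) (nat_lit 141))) (XT.nd (nat_lit 78) (nat_lit 304) (nat_lit 0) (XT.lf (nat_lit 0) (nat_lit 29688457686) (nat_lit 380) (nat_lit 5049240303) (nat_lit 456) (nat_lit 12538168632) (nat_lit 120) (nat_lit 5) (nat_lit 125) (nat_lit 5) (nat_lit 126) (nat_lit 5) (nat_lit 402) (nat_lit 358) (nat_lit 140)) (XT.lf (nat_lit 0) (nat_lit 7239964870) (nat_lit 304) (nat_lit 35925983581) (nat_lit 380) (nat_lit 4996285495) (nat_lit 116) (nat_lit 5) (nat_lit 120) (nat_lit 5) (nat_lit 121) (nat_lit 5) (nat_lit 403) (nat_lit 358) (nat_lit 139)))))) (XT.nd (nat_lit 546) (nat_lit 1216) (nat_lit 0) (XT.nd (nat_lit 234) (nat_lit 684) (nat_lit 0)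 (XT.nd (nat_lit 78) (nat_lit 380) (nat_lit 0) (XT.lf (nat_lit 0) (nat_lit 2945424427) (nat_lit 380) (nat_lit 15977875060) (nat_lit 76) (nat_lit 30144264560) (nat_lit 115) (nat_lit 5) (nat_lit 120) (nat_lit 5) (nat_lit 116) (nat_lit 5) (nat_lit 404) (nat_lit 358) (nat_lit 138)) (XT.nd (nat_lit 78) (nat_lit 0) (nat_lit 0) (XT.lf (nat_lit 0) (nat_lit 9855465595) (nat_lit 380) (nat_lit 1262595576) (nat_lit 456) (nat_lit 38877716809) (nat_lit 110) (nat_lit 5) (nat_lit 115) (nat_lit 5) (nat_lit 116) (nat_lit 5) (nat_lit 405) (nat_lit 358) (nat_lit 137)) (XT.lf (nat_lit 0) (nat_lit 19859921278) (nat_lit 456) (nat_lit 14322234090) (nat_lit 76) (nat_lit 16759962461) (nat_lit 110) (nat_lit 5) (nat_lit 116) (nat_lit 5) (nat_lit 111) (nat_lit 5) (nat_lit 406) (nat_lit 358) (nat_lit 136)))) (XT.nd (nat_lit 156) (nat_lit 380) (nat_lit 0) (XT.nd (nat_lit 78) (nat_lit 0) (nat_lit 0) (XT.lf (nat_lit 0) (nat_lit 12499609396)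 (nat_lit 304) (nat_lit 16495509773) (nat_lit 380) (nat_lit 22917797045) (nat_lit 106) (nat_lit 5) (nat_lit 110) (nat_lit 5) (nat_lit 111) (nat_lit 5) (nat_lit 407) (nat_lit 358) (nat_lit 135)) (XT.lf (nat_lit 0) (nat_lit 38565427968) (nat_lit 380) (nat_lit 12508990544) (nat_lit 76) (nat_lit 1833589167) (nat_lit 106) (nat_lit 5) (nat_lit 111) (nat_lit 5) (nat_lit 107) (nat_lit 5) (nat_lit 408) (nat_lit 358) (nat_lit 134))) (XT.nd (nat_lit 78) (nat_lit 76) (nat_lit 0) (XT.lf (nat_lit 0) (nat_lit 15336254815) (nat_lit 304) (nat_lit 33395825985) (nat_lit 380) (nat_lit 5191594801) (nat_lit 102) (nat_lit 5) (nat_lit 106) (nat_lit 5) (nat_lit 107) (nat_lit 5) (nat_lit 409) (nat_lit 358) (nat_lit 133)) (XT.lf (nat_lit 0) (nat_lit 4277367104) (nat_lit 380) (nat_lit 10736847822) (nat_lit 76) (nat_lit 39950596381) (nat_lit 101) (nat_lit 5) (nat_lit 106) (nat_lit 5) (nat_lit 102) (nat_lit 5) (nat_lit 410) (nat_lit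 358) (nat_lit 132))))) (XT.nd (nat_lit 234) (nat_lit 608) (nat_lit 0) (XT.nd (nat_lit 78) (nat_lit 304) (nat_lit 0) (XT.lf (nat_lit 0) (nat_lit 14139953994) (nat_lit 380) (nat_lit 37818420257) (nat_lit 76) (nat_lit 4070848405) (nat_lit 97) (nat_lit 5) (nat_lit 102) (nat_lit 5) (nat_lit 98) (nat_lit 5) (nat_lit 411) (nat_lit 358) (nat_lit 131)) (XT.nd (nat_lit 78) (nat_lit 304) (nat_lit 0) (XT.lf (nat_lit 0) (nat_lit 24555128322) (nat_lit 380) (nat_lit 9027173802) (nat_lit 76) (nat_lit 23535563597) (nat_lit 97) (nat_lit 5) (nat_lit 102) (nat_lit 5) (nat_lit 98) (nat_lit 5) (nat_lit 412) (nat_lit 358) (nat_lit 130)) (XT.lf (nat_lit 0) (nat_lit 21036256576) (nat_lit 304) (nat_lit 14447316275) (nat_lit 380) (nat_lit 22749571431) (nat_lit 93) (nat_lit 5) (nat_lit 97) (nat_lit 5) (nat_lit 98) (nat_lit 5) (nat_lit 413) (nat_lit 358) (nat_lit 129)))) (XT.nd (nat_lit 156) (nat_lit 380) (nat_lit 0) (XT.nd (nat_lit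 78) (nat_lit 228) (nat_lit 0) (XT.lf (nat_lit 0) (nat_lit 46881125488) (nat_lit 380) (nat_lit 7246052066) (nat_lit 76) (nat_lit 5250466634) (nat_lit 93) (nat_lit 5) (nat_lit 98) (nat_lit 5) (nat_lit 94) (nat_lit 5) (nat_lit 414) (nat_lit 358) (nat_lit 128)) (XT.lf (nat_lit 0) (nat_lit 23925129173) (nat_lit 228) (nat_lit 35067158147) (nat_lit 304) (nat_lit 1553041907) (nat_lit 90) (nat_lit 5) (nat_lit 93) (nat_lit 5) (nat_lit 94) (nat_lit 5) (nat_lit 415) (nat_lit 358) (nat_lit 127))) (XT.nd (nat_lit 78) (nat_lit 304) (nat_lit 0) (XT.lf (nat_lit 0) (nat_lit 9601650246) (nat_lit 304) (nat_lit 5662023539) (nat_lit 76) (nat_lit 46479392177) (nat_lit 89) (nat_lit 5) (nat_lit 93) (nat_lit 5) (nat_lit 90) (nat_lit 5) (nat_lit 416) (nat_lit 358) (nat_lit 126)) (XT.lf (nat_lit 0) (nat_lit 21367447967) (nat_lit 380) (nat_lit 36291492650) (nat_lit 76) (nat_lit 5308103062) (nat_lit 85) (nat_lit 5) (nat_lit 90) (nat_lit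 5) (nat_lit 86) (nat_lit 5) (nat_lit 417) (nat_lit 358) (nat_lit 125))))))))
noncomputable def xc226 : XT := (XT.nd (nat_lit 43524) (nat_lit 0) (nat_lit 4332) (XT.nd (nat_lit 42510) (nat_lit 0) (nat_lit 11020) (XT.nd (nat_lit 468) (nat_lit 532) (nat_lit 0) (XT.nd (nat_lit 234) (nat_lit 532) (nat_lit 0) (XT.nd (nat_lit 78) (nat_lit 228) (nat_lit 0) (XT.lf (nat_lit 0) (nat_lit 33693801692) (nat_lit 380) (nat_lit 4280362963) (nat_lit 76) (nat_lit 26247349156) (nat_lit 85) (nat_lit 5) (nat_lit 90) (nat_lit 5) (nat_lit 86) (nat_lit 5) (nat_lit 418) (nat_lit 358) (nat_lit 124)) (XT.nd (nat_lit 78) (nat_lit 0) (nat_lit 0) (XT.lf (nat_lit 0) (nat_lit 29260164349) (nat_lit 228) (nat_lit 17409800862) (nat_lit 304) (nat_lit 18835252790) (nat_lit 82) (nat_lit 5) (nat_lit 85) (nat_lit 5) (nat_lit 86) (nat_lit 5) (nat_lit 419) (nat_lit 358) (nat_lit 123)) (XT.lf (nat_lit 0) (nat_lit 60114083189) (nat_lit 304) (nat_lit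 2970087567) (nat_lit 76) (nat_lit 3740902988) (nat_lit 82) (nat_lit 5) (nat_lit 86) (nat_lit 5) (nat_lit 83) (nat_lit 5) (nat_lit 420) (nat_lit 358) (nat_lit 122)))) (XT.nd (nat_lit 78) (nat_lit 228) (nat_lit 0) (XT.lf (nat_lit 0) (nat_lit 6145345283) (nat_lit 304) (nat_lit 36482068075) (nat_lit 76) (nat_lit 25541014051) (nat_lit 78) (nat_lit 5) (nat_lit 82) (nat_lit 5) (nat_lit 79) (nat_lit 5) (nat_lit 421) (nat_lit 358) (nat_lit 121)) (XT.nd (nat_lit 78) (nat_lit 228) (nat_lit 0) (XT.lf (nat_lit 0) (nat_lit 19281581369) (nat_lit 304) (nat_lit 2176410666) (nat_lit 76) (nat_lit 48091223923) (nat_lit 78) (nat_lit 5) (nat_lit 82) (nat_lit 5) (nat_lit 79) (nat_lit 5) (nat_lit 422) (nat_lit 358) (nat_lit 120)) (XT.lf (nat_lit 0) (nat_lit 33142352515) (nat_lit 304) (nat_lit 37151772084) (nat_lit 76) (nat_lit 667390580) (nat_lit 75) (nat_lit 5) (nat_lit 79) (nat_lit 5) (nat_lit 76) (nat_lit 5) (nat_lit 423)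 (nat_lit 358) (nat_lit 119))))) (XT.nd (nat_lit 234) (nat_lit 228) (nat_lit 0) (XT.nd (nat_lit 78) (nat_lit 304) (nat_lit 0) (XT.lf (nat_lit 0) (nat_lit 47652447671) (nat_lit 304) (nat_lit 1709927324) (nat_lit 76) (nat_lit 23046803802) (nat_lit 75) (nat_lit 5) (nat_lit 79) (nat_lit 5) (nat_lit 76) (nat_lit 5) (nat_lit 424) (nat_lit 358) (nat_lit 118)) (XT.nd (nat_lit 78) (nat_lit 76) (nat_lit 0) (XT.lf (nat_lit 0) (nat_lit 35485856785) (nat_lit 228) (nat_lit 27451984570) (nat_lit 304) (nat_lit 10952231527) (nat_lit 72) (nat_lit 5) (nat_lit 75) (nat_lit 5) (nat_lit 76) (nat_lit 5) (nat_lit 425) (nat_lit 358) (nat_lit 117)) (XT.lf (nat_lit 0) (nat_lit 3218989881) (nat_lit 304) (nat_lit 1615657180) (nat_lit 76) (nat_lit 70579315392) (nat_lit 71) (nat_lit 5) (nat_lit 75) (nat_lit 5) (nat_lit 72) (nat_lit 5) (nat_lit 426) (nat_lit 358) (nat_lit 116)))) (XT.nd (nat_lit 41652) (nat_lit 0) (nat_lit 12008) (XT.nd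 (nat_lit 41574) (nat_lit 0) (nat_lit 12008) (XT.lf (nat_lit 0) (nat_lit 18130750528) (nat_lit 304) (nat_lit 40265573176) (nat_lit 76) (nat_lit 18567926315) (nat_lit 68) (nat_lit 5) (nat_lit 72) (nat_lit 5) (nat_lit 69) (nat_lit 5) (nat_lit 427) (nat_lit 358) (nat_lit 115)) (XT.lf (nat_lit 0) (nat_lit 4757024965) (nat_lit 0) (nat_lit 4757024965) (nat_lit 1140) (nat_lit 2192079640) (nat_lit 226) (nat_lit 5) (nat_lit 226) (nat_lit 3) (nat_lit 241) (nat_lit 3) (nat_lit 359) (nat_lit 359) (nat_lit 182))) (XT.nd (nat_lit 78) (nat_lit 0) (nat_lit 0) (XT.lf (nat_lit 0) (nat_lit 19443047138) (nat_lit 1140) (nat_lit 2936761645) (nat_lit 1216) (nat_lit 1379658478) (nat_lit 226) (nat_lit 5) (nat_lit 241) (nat_lit 3) (nat_lit 242) (nat_lit 5) (nat_lit 360) (nat_lit 359) (nat_lit 181)) (XT.lf (nat_lit 76) (nat_lit 8421234798) (nat_lit 0) (nat_lit 11619851224) (nat_lit 1216) (nat_lit 4070889820) (nat_lit 227) (nat_lit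 5) (nat_lit 226) (nat_lit 5) (nat_lit 242) (nat_lit 5) (nat_lit 361) (nat_lit 359) (nat_lit 180)))))) (XT.nd (nat_lit 468) (nat_lit 988) (nat_lit 0) (XT.nd (nat_lit 234) (nat_lit 0) (nat_lit 152) (XT.nd (nat_lit 78) (nat_lit 0) (nat_lit 76) (XT.lf (nat_lit 76) (nat_lit 20177770983) (nat_lit 0) (nat_lit 504553384) (nat_lit 1216) (nat_lit 3791980974) (nat_lit 227) (nat_lit 5) (nat_lit 226) (nat_lit 5) (nat_lit 242) (nat_lit 5) (nat_lit 362) (nat_lit 359) (nat_lit 179)) (XT.nd (nat_lit 78) (nat_lit 0) (nat_lit 0) (XT.lf (nat_lit 76) (nat_lit 7477732674) (nat_lit 0) (nat_lit 14037899575) (nat_lit 1216) (nat_lit 3326690815) (nat_lit 228) (nat_lit 5) (nat_lit 227) (nat_lit 5) (nat_lit 243) (nat_lit 5) (nat_lit 363) (nat_lit 359) (nat_lit 178)) (XT.lf (nat_lit 76) (nat_lit 19685750808) (nat_lit 0) (nat_lit 2732371386) (nat_lit 1216) (nat_lit 2801936854) (nat_lit 228) (nat_lit 5) (nat_lit 227) (nat_lit 5) (nat_lit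 243) (nat_lit 5) (nat_lit 364) (nat_lit 359) (nat_lit 177)))) (XT.nd (nat_lit 78) (nat_lit 0) (nat_lit 0) (XT.lf (nat_lit 76) (nat_lit 6693297102) (nat_lit 0) (nat_lit 16800386844) (nat_lit 1216) (nat_lit 2111066372) (nat_lit 229) (nat_lit 5) (nat_lit 228) (nat_lit 5) (nat_lit 244) (nat_lit 5) (nat_lit 365) (nat_lit 359) (nat_lit 176)) (XT.nd (nat_lit 78) (nat_lit 0) (nat_lit 76) (XT.lf (nat_lit 76) (nat_lit 19371086750) (nat_lit 0) (nat_lit 5309178630) (nat_lit 1216) (nat_lit 1318357391) (nat_lit 229) (nat_lit 5) (nat_lit 228) (nat_lit 5) (nat_lit 244) (nat_lit 5) (nat_lit 366) (nat_lit 359) (nat_lit 175)) (XT.lf (nat_lit 76) (nat_lit 6078209448) (nat_lit 0) (nat_lit 19941608214) (nat_lit 1216) (nat_lit 380975477) (nat_lit 230) (nat_lit 5) (nat_lit 229) (nat_lit 5) (nat_lit 245) (nat_lit 5) (nat_lit 367) (nat_lit 359) (nat_lit 174))))) (XT.nd (nat_lit 234) (nat_lit 0) (nat_lit 152) (XT.nd (nat_lit 78)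 (nat_lit 0) (nat_lit 76) (XT.lf (nat_lit 0) (nat_lit 689528822) (nat_lit 1216) (nat_lit 7573493175) (nat_lit 1292) (nat_lit 18548348611) (nat_lit 213) (nat_lit 5) (nat_lit 229) (nat_lit 5) (nat_lit 230) (nat_lit 5) (nat_lit 368) (nat_lit 359) (nat_lit 173)) (XT.nd (nat_lit 78) (nat_lit 0) (nat_lit 0) (XT.lf (nat_lit 0) (nat_lit 1872069713) (nat_lit 1216) (nat_lit 21607163354) (nat_lit 1292) (nat_lit 3752294504) (nat_lit 214) (nat_lit 5) (nat_lit 230) (nat_lit 5) (nat_lit 231) (nat_lit 5) (nat_lit 369) (nat_lit 359) (nat_lit 172)) (XT.lf (nat_lit 0) (nat_lit 3245587886) (nat_lit 1216) (nat_lit 8373786184) (nat_lit 1292) (nat_lit 16040252757) (nat_lit 214) (nat_lit 5) (nat_lit 230) (nat_lit 5) (nat_lit 231) (nat_lit 5) (nat_lit 370) (nat_lit 359) (nat_lit 171)))) (XT.nd (nat_lit 156) (nat_lit 0) (nat_lit 0) (XT.nd (nat_lit 78) (nat_lit 0) (nat_lit 0) (XT.lf (nat_lit 0) (nat_lit 4714629773) (nat_lit 1216)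 (nat_lit 22746773856) (nat_lit 1292) (nat_lit 637538422) (nat_lit 215) (nat_lit 5) (nat_lit 231) (nat_lit 5) (nat_lit 232) (nat_lit 5) (nat_lit 371) (nat_lit 359) (nat_lit 170)) (XT.lf (nat_lit 0) (nat_lit 6424823900) (nat_lit 1216) (nat_lit 9005863307) (nat_lit 1292) (nat_lit 13114839559) (nat_lit 215) (nat_lit 5) (nat_lit 231) (nat_lit 5) (nat_lit 232) (nat_lit 5) (nat_lit 372) (nat_lit 359) (nat_lit 169))) (XT.nd (nat_lit 78) (nat_lit 0) (nat_lit 76) (XT.lf (nat_lit 76) (nat_lit 5247102852) (nat_lit 0) (nat_lit 2986398815) (nat_lit 1292) (nat_lit 20770594412) (nat_lit 216) (nat_lit 5) (nat_lit 215) (nat_lit 5) (nat_lit 232) (nat_lit 5) (nat_lit 373) (nat_lit 359) (nat_lit 168)) (XT.lf (nat_lit 0) (nat_lit 10279601746) (nat_lit 1216) (nat_lit 9459469728) (nat_lit 1292) (nat_lit 9731858461) (nat_lit 216) (nat_lit 5) (nat_lit 232) (nat_lit 5) (nat_lit 233) (nat_lit 5) (nat_lit 374) (nat_lit 359) (nat_lit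 167))))))) (XT.nd (nat_lit 1014) (nat_lit 3116) (nat_lit 0) (XT.nd (nat_lit 468) (nat_lit 2280) (nat_lit 0) (XT.nd (nat_lit 234) (nat_lit 608) (nat_lit 0) (XT.nd (nat_lit 78) (nat_lit 912) (nat_lit 0) (XT.lf (nat_lit 76) (nat_lit 5339031042) (nat_lit 0) (nat_lit 7125853172) (nat_lit 1292) (nat_lit 17484552866) (nat_lit 217) (nat_lit 5) (nat_lit 216) (nat_lit 5) (nat_lit 233) (nat_lit 5) (nat_lit 375) (nat_lit 359) (nat_lit 166)) (XT.nd (nat_lit 78) (nat_lit 988) (nat_lit 0) (XT.lf (nat_lit 0) (nat_lit 14865557656) (nat_lit 1216) (nat_lit 9724004483) (nat_lit 76) (nat_lit 5848244512) (nat_lit 217) (nat_lit 5) (nat_lit 233) (nat_lit 5) (nat_lit 218) (nat_lit 5) (nat_lit 376) (nat_lit 359) (nat_lit 165)) (XT.lf (nat_lit 0) (nat_lit 5646051355) (nat_lit 988) (nat_lit 11814093579) (nat_lit 1064) (nat_lit 13477027692) (nat_lit 204) (nat_lit 5) (nat_lit 217) (nat_lit 5) (nat_lit 218) (nat_lit 5) (nat_lit 377)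 (nat_lit 359) (nat_lit 164)))) (XT.nd (nat_lit 78) (nat_lit 608) (nat_lit 0) (XT.lf (nat_lit 0) (nat_lit 20241792542) (nat_lit 1064) (nat_lit 9788555974) (nat_lit 76) (nat_lit 1417896446) (nat_lit 204) (nat_lit 5) (nat_lit 218) (nat_lit 5) (nat_lit 205) (nat_lit 5) (nat_lit 378) (nat_lit 359) (nat_lit 163)) (XT.nd (nat_lit 78) (nat_lit 0) (nat_lit 0) (XT.lf (nat_lit 0) (nat_lit 6180162861) (nat_lit 608) (nat_lit 17100320618) (nat_lit 684) (nat_lit 8688960176) (nat_lit 196) (nat_lit 5) (nat_lit 204) (nat_lit 5) (nat_lit 205) (nat_lit 5) (nat_lit 379) (nat_lit 359) (nat_lit 162)) (XT.lf (nat_lit 0) (nat_lit 22826074622) (nat_lit 608) (nat_lit 3680377760) (nat_lit 684) (nat_lit 5996944352) (nat_lit 196) (nat_lit 5) (nat_lit 204) (nat_lit 5) (nat_lit 205) (nat_lit 5) (nat_lit 380) (nat_lit 359) (nat_lit 161))))) (XT.nd (nat_lit 234) (nat_lit 1064) (nat_lit 0) (XT.nd (nat_lit 78) (nat_lit 684) (nat_lit 0) (XT.lf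 (nat_lit 0) (nat_lit 6953659435) (nat_lit 532) (nat_lit 23037229798) (nat_lit 608) (nat_lit 3057630395) (nat_lit 189) (nat_lit 5) (nat_lit 196) (nat_lit 5) (nat_lit 197) (nat_lit 5) (nat_lit 381) (nat_lit 359) (nat_lit 160)) (XT.nd (nat_lit 78) (nat_lit 608) (nat_lit 0) (XT.lf (nat_lit 0) (nat_lit 102958827) (nat_lit 608) (nat_lit 9364798995) (nat_lit 76) (nat_lit 24138273625) (nat_lit 188) (nat_lit 5) (nat_lit 196) (nat_lit 5) (nat_lit 189) (nat_lit 5) (nat_lit 382) (nat_lit 359) (nat_lit 159)) (XT.lf (nat_lit 0) (nat_lit 3415575530) (nat_lit 684) (nat_lit 26231214498) (nat_lit 76) (nat_lit 4529012158) (nat_lit 180) (nat_lit 5) (nat_lit 189) (nat_lit 5) (nat_lit 181) (nat_lit 5) (nat_lit 383) (nat_lit 359) (nat_lit 158)))) (XT.nd (nat_lit 156) (nat_lit 532) (nat_lit 0) (XT.nd (nat_lit 78) (nat_lit 532) (nat_lit 0) (XT.lf (nat_lit 0) (nat_lit 7014319242) (nat_lit 684) (nat_lit 8891821367) (nat_lit 76)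 (nat_lit 18850924660) (nat_lit 180) (nat_lit 5) (nat_lit 189) (nat_lit 5) (nat_lit 181) (nat_lit 5) (nat_lit 384) (nat_lit 359) (nat_lit 157)) (XT.lf (nat_lit 0) (nat_lit 9143713349) (nat_lit 532) (nat_lit 1662785454) (nat_lit 608) (nat_lit 24546704866) (nat_lit 173) (nat_lit 5) (nat_lit 180) (nat_lit 5) (nat_lit 181) (nat_lit 5) (nat_lit 385) (nat_lit 359) (nat_lit 156))) (XT.nd (nat_lit 78) (nat_lit 532) (nat_lit 0) (XT.lf (nat_lit 0) (nat_lit 14925787286) (nat_lit 608) (nat_lit 8190388368) (nat_lit 76) (nat_lit 12844651841) (nat_lit 173) (nat_lit 5) (nat_lit 181) (nat_lit 5) (nat_lit 174) (nat_lit 5) (nat_lit 386) (nat_lit 359) (nat_lit 155)) (XT.lf (nat_lit 0) (nat_lit 10556374603) (nat_lit 532) (nat_lit 8727911506) (nat_lit 608) (nat_lit 17298926511) (nat_lit 166) (nat_lit 5) (nat_lit 173) (nat_lit 5) (nat_lit 174) (nat_lit 5) (nat_lit 387) (nat_lit 359) (nat_lit 154)))))) (XT.nd (nat_lit 546) (nat_lit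 1672) (nat_lit 0) (XT.nd (nat_lit 234) (nat_lit 988) (nat_lit 0) (XT.nd (nat_lit 78) (nat_lit 456) (nat_lit 0) (XT.lf (nat_lit 0) (nat_lit 23913362233) (nat_lit 608) (nat_lit 7250217233) (nat_lit 76) (nat_lit 6056496653) (nat_lit 166) (nat_lit 5) (nat_lit 174) (nat_lit 5) (nat_lit 167) (nat_lit 5) (nat_lit 388) (nat_lit 359) (nat_lit 153)) (XT.nd (nat_lit 78) (nat_lit 0) (nat_lit 0) (XT.lf (nat_lit 0) (nat_lit 12239714909) (nat_lit 456) (nat_lit 16643468804) (nat_lit 532) (nat_lit 8986807064) (nat_lit 160) (nat_lit 5) (nat_lit 166) (nat_lit 5) (nat_lit 167) (nat_lit 5) (nat_lit 389) (nat_lit 359) (nat_lit 152)) (XT.lf (nat_lit 0) (nat_lit 32460577798) (nat_lit 456) (nat_lit 1612578536) (nat_lit 532) (nat_lit 4464116252) (nat_lit 160) (nat_lit 5) (nat_lit 166) (nat_lit 5) (nat_lit 167) (nat_lit 5) (nat_lit 390) (nat_lit 359) (nat_lit 151)))) (XT.nd (nat_lit 156) (nat_lit 456) (nat_lit 0) (XT.nd (nat_lit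 78) (nat_lit 0) (nat_lit 0) (XT.lf (nat_lit 0) (nat_lit 460885259) (nat_lit 532) (nat_lit 25016077047) (nat_lit 76) (nat_lit 13739443231) (nat_lit 153) (nat_lit 5) (nat_lit 160) (nat_lit 5) (nat_lit 154) (nat_lit 5) (nat_lit 391) (nat_lit 359) (nat_lit 150)) (XT.lf (nat_lit 0) (nat_lit 5519769732) (nat_lit 532) (nat_lit 4767016963) (nat_lit 76) (nat_lit 29625525374) (nat_lit 153) (nat_lit 5) (nat_lit 160) (nat_lit 5) (nat_lit 154) (nat_lit 5) (nat_lit 392) (nat_lit 359) (nat_lit 149))) (XT.nd (nat_lit 78) (nat_lit 0) (nat_lit 0) (XT.lf (nat_lit 0) (nat_lit 10939193081) (nat_lit 532) (nat_lit 24270149440) (nat_lit 76) (nat_lit 5413491354) (nat_lit 147) (nat_lit 5) (nat_lit 154) (nat_lit 5) (nat_lit 148) (nat_lit 5) (nat_lit 393) (nat_lit 359) (nat_lit 148)) (XT.lf (nat_lit 0) (nat_lit 16669677515) (nat_lit 532) (nat_lit 3254223154) (nat_lit 76) (nat_lit 21426317527) (nat_lit 147) (nat_lit 5) (nat_lit 154)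 (nat_lit 5) (nat_lit 148) (nat_lit 5) (nat_lit 394) (nat_lit 359) (nat_lit 147))))) (XT.nd (nat_lit 234) (nat_lit 836) (nat_lit 0) (XT.nd (nat_lit 78) (nat_lit 380) (nat_lit 0) (XT.lf (nat_lit 0) (nat_lit 18755878567) (nat_lit 456) (nat_lit 3994563588) (nat_lit 532) (nat_lit 19343632097) (nat_lit 141) (nat_lit 5) (nat_lit 147) (nat_lit 5) (nat_lit 148) (nat_lit 5) (nat_lit 395) (nat_lit 359) (nat_lit 146)) (XT.nd (nat_lit 78) (nat_lit 380) (nat_lit 0) (XT.lf (nat_lit 0) (nat_lit 29164237686) (nat_lit 532) (nat_lit 1488240651) (nat_lit 76) (nat_lit 12203250557) (nat_lit 141) (nat_lit 5) (nat_lit 148) (nat_lit 5) (nat_lit 142) (nat_lit 5) (nat_lit 396) (nat_lit 359) (nat_lit 145)) (XT.lf (nat_lit 0) (nat_lit 21392853510) (nat_lit 380) (nat_lit 14620943444) (nat_lit 456) (nat_lit 7619136835) (nat_lit 136) (nat_lit 5) (nat_lit 141) (nat_lit 5) (nat_lit 142) (nat_lit 5) (nat_lit 397) (nat_lit 359) (nat_lit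 144)))) (XT.nd (nat_lit 156) (nat_lit 380) (nat_lit 0) (XT.nd (nat_lit 78) (nat_lit 76) (nat_lit 0) (XT.lf (nat_lit 0) (nat_lit 547955081) (nat_lit 380) (nat_lit 42557701449) (nat_lit 456) (nat_lit 1326694971) (nat_lit 131) (nat_lit 5) (nat_lit 136) (nat_lit 5) (nat_lit 137) (nat_lit 5) (nat_lit 398) (nat_lit 359) (nat_lit 143)) (XT.lf (nat_lit 0) (nat_lit 5423702366) (nat_lit 456) (nat_lit 20972321242) (nat_lit 76) (nat_lit 18847149734) (nat_lit 130) (nat_lit 5) (nat_lit 136) (nat_lit 5) (nat_lit 131) (nat_lit 5) (nat_lit 399) (nat_lit 359) (nat_lit 142))) (XT.nd (nat_lit 78) (nat_lit 0) (nat_lit 0) (XT.lf (nat_lit 0) (nat_lit 2663722044) (nat_lit 380) (nat_lit 9710080986) (nat_lit 456) (nat_lit 33703408026) (nat_lit 125) (nat_lit 5) (nat_lit 130) (nat_lit 5) (nat_lit 131) (nat_lit 5) (nat_lit 400) (nat_lit 359) (nat_lit 141)) (XT.lf (nat_lit 0) (nat_lit 19816427176) (nat_lit 456) (nat_lit 19567385993)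 (nat_lit 76) (nat_lit 7543937076) (nat_lit 125) (nat_lit 5) (nat_lit 131) (nat_lit 5) (nat_lit 126) (nat_lit 5) (nat_lit 401) (nat_lit 359) (nat_lit 140))))))))
noncomputable def xc227 : XT := (XT.nd (nat_lit 43680) (nat_lit 0) (nat_lit 7676) (XT.nd (nat_lit 1014) (nat_lit 1596) (nat_lit 0) (XT.nd (nat_lit 468) (nat_lit 1292) (nat_lit 0) (XT.nd (nat_lit 234) (nat_lit 456) (nat_lit 0) (XT.nd (nat_lit 78) (nat_lit 304) (nat_lit 0) (XT.lf (nat_lit 0) (nat_lit 4993198726) (nat_lit 380) (nat_lit 22631594824) (nat_lit 456) (nat_lit 20174739083) (nat_lit 120) (nat_lit 5) (nat_lit 125) (nat_lit 5) (nat_lit 126) (nat_lit 5) (nat_lit 402) (nat_lit 359) (nat_lit 139)) (XT.nd (nat_lit 78) (nat_lit 304) (nat_lit 0) (XT.lf (nat_lit 0) (nat_lit 30689537492) (nat_lit 380) (nat_lit 5173819894) (nat_lit 456) (nat_lit 12828233615) (nat_lit 120) (nat_lit 5) (nat_lit 125) (nat_lit 5) (nat_lit 126) (nat_lit 5) (nat_lit 403)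 (nat_lit 359) (nat_lit 138)) (XT.lf (nat_lit 0) (nat_lit 7568777864) (nat_lit 304) (nat_lit 36974568557) (nat_lit 380) (nat_lit 5061237524) (nat_lit 116) (nat_lit 5) (nat_lit 120) (nat_lit 5) (nat_lit 121) (nat_lit 5) (nat_lit 404) (nat_lit 359) (nat_lit 137)))) (XT.nd (nat_lit 78) (nat_lit 380) (nat_lit 0) (XT.lf (nat_lit 0) (nat_lit 3114640672) (nat_lit 380) (nat_lit 16347197133) (nat_lit 76) (nat_lit 31075285677) (nat_lit 115) (nat_lit 5) (nat_lit 120) (nat_lit 5) (nat_lit 116) (nat_lit 5) (nat_lit 405) (nat_lit 359) (nat_lit 136)) (XT.nd (nat_lit 78) (nat_lit 0) (nat_lit 0) (XT.lf (nat_lit 0) (nat_lit 10260065172) (nat_lit 380) (nat_lit 1271083546) (nat_lit 456) (nat_lit 39962075569) (nat_lit 110) (nat_lit 5) (nat_lit 115) (nat_lit 5) (nat_lit 116) (nat_lit 5) (nat_lit 406) (nat_lit 359) (nat_lit 135)) (XT.lf (nat_lit 0) (nat_lit 20533222047) (nat_lit 456) (nat_lit 14644056328) (nat_lit 76) (nat_lit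 17290738417) (nat_lit 110) (nat_lit 5) (nat_lit 116) (nat_lit 5) (nat_lit 111) (nat_lit 5) (nat_lit 407) (nat_lit 359) (nat_lit 134))))) (XT.nd (nat_lit 234) (nat_lit 684) (nat_lit 0) (XT.nd (nat_lit 78) (nat_lit 304) (nat_lit 0) (XT.lf (nat_lit 0) (nat_lit 12981385161) (nat_lit 304) (nat_lit 16959859848) (nat_lit 380) (nat_lit 23526732196) (nat_lit 106) (nat_lit 5) (nat_lit 110) (nat_lit 5) (nat_lit 111) (nat_lit 5) (nat_lit 408) (nat_lit 359) (nat_lit 133)) (XT.nd (nat_lit 78) (nat_lit 304) (nat_lit 0) (XT.lf (nat_lit 0) (nat_lit 39796726337) (nat_lit 380) (nat_lit 12778609147) (nat_lit 76) (nat_lit 1917645149) (nat_lit 106) (nat_lit 5) (nat_lit 111) (nat_lit 5) (nat_lit 107) (nat_lit 5) (nat_lit 409) (nat_lit 359) (nat_lit 132)) (XT.lf (nat_lit 0) (nat_lit 15900957778) (nat_lit 304) (nat_lit 34366261490) (nat_lit 380) (nat_lit 5271935192) (nat_lit 102) (nat_lit 5) (nat_lit 106) (nat_lit 5) (nat_lit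 107) (nat_lit 5) (nat_lit 410) (nat_lit 359) (nat_lit 131)))) (XT.nd (nat_lit 156) (nat_lit 304) (nat_lit 0) (XT.nd (nat_lit 78) (nat_lit 304) (nat_lit 0) (XT.lf (nat_lit 0) (nat_lit 4477470623) (nat_lit 380) (nat_lit 10955922321) (nat_lit 76) (nat_lit 41178175173) (nat_lit 101) (nat_lit 5) (nat_lit 106) (nat_lit 5) (nat_lit 102) (nat_lit 5) (nat_lit 411) (nat_lit 359) (nat_lit 130)) (XT.lf (nat_lit 0) (nat_lit 14635126394) (nat_lit 380) (nat_lit 38849100141) (nat_lit 76) (nat_lit 4223710526) (nat_lit 97) (nat_lit 5) (nat_lit 102) (nat_lit 5) (nat_lit 98) (nat_lit 5) (nat_lit 412) (nat_lit 359) (nat_lit 129))) (XT.nd (nat_lit 78) (nat_lit 304) (nat_lit 0) (XT.lf (nat_lit 0) (nat_lit 25360688755) (nat_lit 380) (nat_lit 9197141712) (nat_lit 76) (nat_lit 24271471931) (nat_lit 97) (nat_lit 5) (nat_lit 102) (nat_lit 5) (nat_lit 98) (nat_lit 5) (nat_lit 413) (nat_lit 359) (nat_lit 128)) (XT.lf (nat_lit 0) (nat_lit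 21767202879) (nat_lit 304) (nat_lit 14848736654) (nat_lit 380) (nat_lit 23362132129) (nat_lit 93) (nat_lit 5) (nat_lit 97) (nat_lit 5) (nat_lit 98) (nat_lit 5) (nat_lit 414) (nat_lit 359) (nat_lit 127)))))) (XT.nd (nat_lit 468) (nat_lit 760) (nat_lit 0) (XT.nd (nat_lit 234) (nat_lit 532) (nat_lit 0) (XT.nd (nat_lit 78) (nat_lit 304) (nat_lit 0) (XT.lf (nat_lit 0) (nat_lit 48353740895) (nat_lit 380) (nat_lit 7364775415) (nat_lit 76) (nat_lit 5438441498) (nat_lit 93) (nat_lit 5) (nat_lit 98) (nat_lit 5) (nat_lit 94) (nat_lit 5) (nat_lit 415) (nat_lit 359) (nat_lit 126)) (XT.nd (nat_lit 78) (nat_lit 76) (nat_lit 0) (XT.lf (nat_lit 0) (nat_lit 24740574024) (nat_lit 228) (nat_lit 36086675003) (nat_lit 304) (nat_lit 1532454910) (nat_lit 90) (nat_lit 5) (nat_lit 93) (nat_lit 5) (nat_lit 94) (nat_lit 5) (nat_lit 416) (nat_lit 359) (nat_lit 125)) (XT.lf (nat_lit 0) (nat_lit 9953648652) (nat_lit 304) (nat_lit 5735738240)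 (nat_lit 76) (nat_lit 47904024893) (nat_lit 89) (nat_lit 5) (nat_lit 93) (nat_lit 5) (nat_lit 90) (nat_lit 5) (nat_lit 417) (nat_lit 359) (nat_lit 124)))) (XT.nd (nat_lit 78) (nat_lit 228) (nat_lit 0) (XT.lf (nat_lit 0) (nat_lit 22071782413) (nat_lit 380) (nat_lit 37283426652) (nat_lit 76) (nat_lit 5498919712) (nat_lit 85) (nat_lit 5) (nat_lit 90) (nat_lit 5) (nat_lit 86) (nat_lit 5) (nat_lit 418) (nat_lit 359) (nat_lit 123)) (XT.nd (nat_lit 78) (nat_lit 228) (nat_lit 0) (XT.lf (nat_lit 0) (nat_lit 34766082740) (nat_lit 380) (nat_lit 4314782805) (nat_lit 76) (nat_lit 27065423571) (nat_lit 85) (nat_lit 5) (nat_lit 90) (nat_lit 5) (nat_lit 86) (nat_lit 5) (nat_lit 419) (nat_lit 359) (nat_lit 122)) (XT.lf (nat_lit 0) (nat_lit 30231038845) (nat_lit 228) (nat_lit 17899596660) (nat_lit 304) (nat_lit 19337896557) (nat_lit 82) (nat_lit 5) (nat_lit 85) (nat_lit 5) (nat_lit 86) (nat_lit 5) (nat_lit 420) (nat_lit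 359) (nat_lit 121))))) (XT.nd (nat_lit 234) (nat_lit 456) (nat_lit 0) (XT.nd (nat_lit 78) (nat_lit 304) (nat_lit 0) (XT.lf (nat_lit 0) (nat_lit 61976616102) (nat_lit 304) (nat_lit 2967345872) (nat_lit 76) (nat_lit 3884066069) (nat_lit 82) (nat_lit 5) (nat_lit 86) (nat_lit 5) (nat_lit 83) (nat_lit 5) (nat_lit 421) (nat_lit 359) (nat_lit 120)) (XT.nd (nat_lit 78) (nat_lit 0) (nat_lit 0) (XT.lf (nat_lit 0) (nat_lit 6388568884) (nat_lit 304) (nat_lit 37484391547) (nat_lit 76) (nat_lit 26338730713) (nat_lit 78) (nat_lit 5) (nat_lit 82) (nat_lit 5) (nat_lit 79) (nat_lit 5) (nat_lit 422) (nat_lit 359) (nat_lit 119)) (XT.lf (nat_lit 0) (nat_lit 19917177589) (nat_lit 304) (nat_lit 2152248063) (nat_lit 76) (nat_lit 49564529807) (nat_lit 78) (nat_lit 5) (nat_lit 82) (nat_lit 5) (nat_lit 79) (nat_lit 5) (nat_lit 423) (nat_lit 359) (nat_lit 118)))) (XT.nd (nat_lit 156) (nat_lit 228) (nat_lit 0) (XT.nd (nat_lit 78)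 (nat_lit 0) (nat_lit 0) (XT.lf (nat_lit 0) (nat_lit 34193268740) (nat_lit 304) (nat_lit 38176345336) (nat_lit 76) (nat_lit 719025333) (nat_lit 75) (nat_lit 5) (nat_lit 79) (nat_lit 5) (nat_lit 76) (nat_lit 5) (nat_lit 424) (nat_lit 359) (nat_lit 117)) (XT.lf (nat_lit 0) (nat_lit 49137016876) (nat_lit 304) (nat_lit 1673866006) (nat_lit 76) (nat_lit 23768900183) (nat_lit 75) (nat_lit 5) (nat_lit 79) (nat_lit 5) (nat_lit 76) (nat_lit 5) (nat_lit 425) (nat_lit 359) (nat_lit 116))) (XT.nd (nat_lit 41730) (nat_lit 0) (nat_lit 11704) (XT.lf (nat_lit 0) (nat_lit 36636935164) (nat_lit 228) (nat_lit 28243266905) (nat_lit 304) (nat_lit 11224925632) (nat_lit 72) (nat_lit 5) (nat_lit 75) (nat_lit 5) (nat_lit 76) (nat_lit 5) (nat_lit 426) (nat_lit 359) (nat_lit 115)) (XT.lf (nat_lit 0) (nat_lit 4957178041) (nat_lit 0) (nat_lit 4957178041) (nat_lit 1140) (nat_lit 2139421706) (nat_lit 226) (nat_lit 5) (nat_lit 226) (nat_lit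 3) (nat_lit 241) (nat_lit 3) (nat_lit 360) (nat_lit 360) (nat_lit 180))))))) (XT.nd (nat_lit 1014) (nat_lit 3040) (nat_lit 0) (XT.nd (nat_lit 468) (nat_lit 988) (nat_lit 0) (XT.nd (nat_lit 234) (nat_lit 0) (nat_lit 76) (XT.nd (nat_lit 78) (nat_lit 0) (nat_lit 0) (XT.lf (nat_lit 0) (nat_lit 20248343376) (nat_lit 1140) (nat_lit 2905388443) (nat_lit 1216) (nat_lit 1311686250) (nat_lit 226) (nat_lit 5) (nat_lit 241) (nat_lit 3) (nat_lit 242) (nat_lit 5) (nat_lit 361) (nat_lit 360) (nat_lit 179)) (XT.nd (nat_lit 78) (nat_lit 0) (nat_lit 0) (XT.lf (nat_lit 76) (nat_lit 8792176559) (nat_lit 0) (nat_lit 12066817925) (nat_lit 1216) (nat_lit 3969672333) (nat_lit 227) (nat_lit 5) (nat_lit 226) (nat_lit 5) (nat_lit 242) (nat_lit 5) (nat_lit 362) (nat_lit 360) (nat_lit 178)) (XT.lf (nat_lit 76) (nat_lit 20897963062) (nat_lit 0) (nat_lit 615195970) (nat_lit 1216) (nat_lit 3688901391) (nat_lit 227) (nat_lit 5) (nat_lit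 226) (nat_lit 5) (nat_lit 242) (nat_lit 5) (nat_lit 363) (nat_lit 360) (nat_lit 177)))) (XT.nd (nat_lit 78) (nat_lit 0) (nat_lit 0) (XT.lf (nat_lit 76) (nat_lit 7823117203) (nat_lit 0) (nat_lit 14542494122) (nat_lit 1216) (nat_lit 3215687749) (nat_lit 228) (nat_lit 5) (nat_lit 227) (nat_lit 5) (nat_lit 243) (nat_lit 5) (nat_lit 364) (nat_lit 360) (nat_lit 176)) (XT.nd (nat_lit 78) (nat_lit 0) (nat_lit 76) (XT.lf (nat_lit 76) (nat_lit 20393850079) (nat_lit 0) (nat_lit 2895369284) (nat_lit 1216) (nat_lit 2681331085) (nat_lit 228) (nat_lit 5) (nat_lit 227) (nat_lit 5) (nat_lit 243) (nat_lit 5) (nat_lit 365) (nat_lit 360) (nat_lit 175)) (XT.lf (nat_lit 76) (nat_lit 7017292247) (nat_lit 0) (nat_lit 17374400654) (nat_lit 1216) (nat_lit 1975254687) (nat_lit 229) (nat_lit 5) (nat_lit 228) (nat_lit 5) (nat_lit 244) (nat_lit 5) (nat_lit 366) (nat_lit 360) (nat_lit 174))))) (XT.nd (nat_lit 234) (nat_lit 0) (nat_lit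 76) (XT.nd (nat_lit 78) (nat_lit 1140) (nat_lit 0) (XT.lf (nat_lit 76) (nat_lit 20071827345) (nat_lit 0) (nat_lit 5536417295) (nat_lit 1216) (nat_lit 1164564738) (nat_lit 229) (nat_lit 5) (nat_lit 228) (nat_lit 5) (nat_lit 244) (nat_lit 5) (nat_lit 367) (nat_lit 360) (nat_lit 173)) (XT.nd (nat_lit 78) (nat_lit 1216) (nat_lit 0) (XT.lf (nat_lit 76) (nat_lit 6385353485) (nat_lit 0) (nat_lit 20597732118) (nat_lit 1216) (nat_lit 204110410) (nat_lit 230) (nat_lit 5) (nat_lit 229) (nat_lit 5) (nat_lit 245) (nat_lit 5) (nat_lit 368) (nat_lit 360) (nat_lit 172)) (XT.lf (nat_lit 0) (nat_lit 889457435) (nat_lit 1216) (nat_lit 7675835181) (nat_lit 1292) (nat_lit 19044909188) (nat_lit 213) (nat_lit 5) (nat_lit 229) (nat_lit 5) (nat_lit 230) (nat_lit 5) (nat_lit 369) (nat_lit 360) (nat_lit 171)))) (XT.nd (nat_lit 156) (nat_lit 0) (nat_lit 76) (XT.nd (nat_lit 78) (nat_lit 0) (nat_lit 0) (XT.lf (nat_lit 0) (nat_lit 2102946640)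 (nat_lit 1216) (nat_lit 22125858776) (nat_lit 1292) (nat_lit 3814297762) (nat_lit 214) (nat_lit 5) (nat_lit 230) (nat_lit 5) (nat_lit 231) (nat_lit 5) (nat_lit 370) (nat_lit 360) (nat_lit 170)) (XT.lf (nat_lit 0) (nat_lit 3512581576) (nat_lit 1216) (nat_lit 8499252703) (nat_lit 1292) (nat_lit 16472367546) (nat_lit 214) (nat_lit 5) (nat_lit 230) (nat_lit 5) (nat_lit 231) (nat_lit 5) (nat_lit 371) (nat_lit 360) (nat_lit 169))) (XT.nd (nat_lit 78) (nat_lit 0) (nat_lit 0) (XT.lf (nat_lit 0) (nat_lit 5021553406) (nat_lit 1216) (nat_lit 23299167307) (nat_lit 1292) (nat_lit 616103673) (nat_lit 215) (nat_lit 5) (nat_lit 231) (nat_lit 5) (nat_lit 232) (nat_lit 5) (nat_lit 372) (nat_lit 360) (nat_lit 168)) (XT.lf (nat_lit 0) (nat_lit 6778233413) (nat_lit 1216) (nat_lit 9149816134) (nat_lit 1292) (nat_lit 13468905230) (nat_lit 215) (nat_lit 5) (nat_lit 231) (nat_lit 5) (nat_lit 232) (nat_lit 5) (nat_lit 373) (nat_lit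 360) (nat_lit 167)))))) (XT.nd (nat_lit 546) (nat_lit 1748) (nat_lit 0) (XT.nd (nat_lit 234) (nat_lit 1444) (nat_lit 0) (XT.nd (nat_lit 78) (nat_lit 0) (nat_lit 76) (XT.lf (nat_lit 76) (nat_lit 5529501529) (nat_lit 0) (nat_lit 3108191866) (nat_lit 1292) (nat_lit 21231695551) (nat_lit 216) (nat_lit 5) (nat_lit 215) (nat_lit 5) (nat_lit 232) (nat_lit 5) (nat_lit 374) (nat_lit 360) (nat_lit 166)) (XT.nd (nat_lit 78) (nat_lit 0) (nat_lit 0) (XT.lf (nat_lit 0) (nat_lit 10740297701) (nat_lit 1216) (nat_lit 9616918728) (nat_lit 1292) (nat_lit 9993161082) (nat_lit 216) (nat_lit 5) (nat_lit 232) (nat_lit 5) (nat_lit 233) (nat_lit 5) (nat_lit 375) (nat_lit 360) (nat_lit 165)) (XT.lf (nat_lit 76) (nat_lit 5624298485) (nat_lit 0) (nat_lit 7363606510) (nat_lit 1292) (nat_lit 17855435121) (nat_lit 217) (nat_lit 5) (nat_lit 216) (nat_lit 5) (nat_lit 233) (nat_lit 5) (nat_lit 376) (nat_lit 360) (nat_lit 164)))) (XT.nd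 (nat_lit 156) (nat_lit 608) (nat_lit 0) (XT.nd (nat_lit 78) (nat_lit 988) (nat_lit 0) (XT.lf (nat_lit 0) (nat_lit 15456032897) (nat_lit 1216) (nat_lit 9889601242) (nat_lit 76) (nat_lit 6000866749) (nat_lit 217) (nat_lit 5) (nat_lit 233) (nat_lit 5) (nat_lit 218) (nat_lit 5) (nat_lit 377) (nat_lit 360) (nat_lit 163)) (XT.lf (nat_lit 0) (nat_lit 5940319767) (nat_lit 988) (nat_lit 12185129529) (nat_lit 1064) (nat_lit 13735491850) (nat_lit 204) (nat_lit 5) (nat_lit 217) (nat_lit 5) (nat_lit 218) (nat_lit 5) (nat_lit 378) (nat_lit 360) (nat_lit 162))) (XT.nd (nat_lit 78) (nat_lit 608) (nat_lit 0) (XT.lf (nat_lit 0) (nat_lit 20986269928) (nat_lit 1064) (nat_lit 9956588163) (nat_lit 76) (nat_lit 1444618815) (nat_lit 204) (nat_lit 5) (nat_lit 218) (nat_lit 5) (nat_lit 205) (nat_lit 5) (nat_lit 379) (nat_lit 360) (nat_lit 161)) (XT.lf (nat_lit 0) (nat_lit 6489960624) (nat_lit 608) (nat_lit 17623359905) (nat_lit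 684) (nat_lit 8811077936) (nat_lit 196) (nat_lit 5) (nat_lit 204) (nat_lit 5) (nat_lit 205) (nat_lit 5) (nat_lit 380) (nat_lit 360) (nat_lit 160))))) (XT.nd (nat_lit 234) (nat_lit 1140) (nat_lit 0) (XT.nd (nat_lit 78) (nat_lit 608) (nat_lit 0) (XT.lf (nat_lit 0) (nat_lit 23631626645) (nat_lit 608) (nat_lit 3800526635) (nat_lit 684) (nat_lit 6042337105) (nat_lit 196) (nat_lit 5) (nat_lit 204) (nat_lit 5) (nat_lit 205) (nat_lit 5) (nat_lit 381) (nat_lit 360) (nat_lit 159)) (XT.nd (nat_lit 78) (nat_lit 76) (nat_lit 0) (XT.lf (nat_lit 0) (nat_lit 7285916624) (nat_lit 532) (nat_lit 23732503126) (nat_lit 608) (nat_lit 3017631031) (nat_lit 189) (nat_lit 5) (nat_lit 196) (nat_lit 5) (nat_lit 197) (nat_lit 5) (nat_lit 382) (nat_lit 360) (nat_lit 158)) (XT.lf (nat_lit 0) (nat_lit 231443498) (nat_lit 608) (nat_lit 9523116178) (nat_lit 76) (nat_lit 24855805700) (nat_lit 188) (nat_lit 5) (nat_lit 196) (nat_lit 5) (nat_lit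 189) (nat_lit 5) (nat_lit 383) (nat_lit 360) (nat_lit 157)))) (XT.nd (nat_lit 156) (nat_lit 532) (nat_lit 0) (XT.nd (nat_lit 78) (nat_lit 0) (nat_lit 0) (XT.lf (nat_lit 0) (nat_lit 3640939314) (nat_lit 684) (nat_lit 26892942103) (nat_lit 76) (nat_lit 4663425283) (nat_lit 180) (nat_lit 5) (nat_lit 189) (nat_lit 5) (nat_lit 181) (nat_lit 5) (nat_lit 384) (nat_lit 360) (nat_lit 156)) (XT.lf (nat_lit 0) (nat_lit 7344065828) (nat_lit 684) (nat_lit 9037014037) (nat_lit 76) (nat_lit 19415037604) (nat_lit 180) (nat_lit 5) (nat_lit 189) (nat_lit 5) (nat_lit 181) (nat_lit 5) (nat_lit 385) (nat_lit 360) (nat_lit 155))) (XT.nd (nat_lit 78) (nat_lit 0) (nat_lit 0) (XT.lf (nat_lit 0) (nat_lit 9538394937) (nat_lit 532) (nat_lit 1709297657) (nat_lit 608) (nat_lit 25162519308) (nat_lit 173) (nat_lit 5) (nat_lit 180) (nat_lit 5) (nat_lit 181) (nat_lit 5) (nat_lit 386) (nat_lit 360) (nat_lit 154)) (XT.lf (nat_lit 0) (nat_lit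 15487183463) (nat_lit 608) (nat_lit 8315783848) (nat_lit 76) (nat_lit 13233200689) (nat_lit 173) (nat_lit 5) (nat_lit 181) (nat_lit 5) (nat_lit 174) (nat_lit 5) (nat_lit 387) (nat_lit 360) (nat_lit 153))))))))
noncomputable def xc228 : XT := (XT.nd (nat_lit 2028) (nat_lit 1672) (nat_lit 0) (XT.nd (nat_lit 1014) (nat_lit 2508) (nat_lit 0) (XT.nd (nat_lit 468) (nat_lit 1748) (nat_lit 0) (XT.nd (nat_lit 234) (nat_lit 532) (nat_lit 0) (XT.nd (nat_lit 78) (nat_lit 456) (nat_lit 0) (XT.lf (nat_lit 0) (nat_lit 10992202442) (nat_lit 532) (nat_lit 8982070628) (nat_lit 608) (nat_lit 17703018738) (nat_lit 166) (nat_lit 5) (nat_lit 173) (nat_lit 5) (nat_lit 174) (nat_lit 5) (nat_lit 388) (nat_lit 360) (nat_lit 152)) (XT.nd (nat_lit 78) (nat_lit 456) (nat_lit 0) (XT.lf (nat_lit 0) (nat_lit 24739046775) (nat_lit 608) (nat_lit 7348811144) (nat_lit 76) (nat_lit 6245500673) (nat_lit 166) (nat_lit 5) (nat_lit 174) (nat_lit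 5) (nat_lit 167) (nat_lit 5) (nat_lit 389) (nat_lit 360) (nat_lit 151)) (XT.lf (nat_lit 0) (nat_lit 12724653153) (nat_lit 456) (nat_lit 17131287708) (nat_lit 532) (nat_lit 9146892568) (nat_lit 160) (nat_lit 5) (nat_lit 166) (nat_lit 5) (nat_lit 167) (nat_lit 5) (nat_lit 390) (nat_lit 360) (nat_lit 150)))) (XT.nd (nat_lit 78) (nat_lit 532) (nat_lit 0) (XT.lf (nat_lit 0) (nat_lit 33548712410) (nat_lit 456) (nat_lit 1649805251) (nat_lit 532) (nat_lit 4491710897) (nat_lit 160) (nat_lit 5) (nat_lit 166) (nat_lit 5) (nat_lit 167) (nat_lit 5) (nat_lit 391) (nat_lit 360) (nat_lit 149)) (XT.nd (nat_lit 78) (nat_lit 0) (nat_lit 0) (XT.lf (nat_lit 0) (nat_lit 577162627) (nat_lit 532) (nat_lit 25648235448) (nat_lit 76) (nat_lit 14164362754) (nat_lit 153) (nat_lit 5) (nat_lit 160) (nat_lit 5) (nat_lit 154) (nat_lit 5) (nat_lit 392) (nat_lit 360) (nat_lit 148)) (XT.lf (nat_lit 0) (nat_lit 5784829630) (nat_lit 532) (nat_lit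 4795149889) (nat_lit 76) (nat_lit 30526656403) (nat_lit 153) (nat_lit 5) (nat_lit 160) (nat_lit 5) (nat_lit 154) (nat_lit 5) (nat_lit 393) (nat_lit 360) (nat_lit 147))))) (XT.nd (nat_lit 234) (nat_lit 836) (nat_lit 0) (XT.nd (nat_lit 78) (nat_lit 456) (nat_lit 0) (XT.lf (nat_lit 0) (nat_lit 11365186685) (nat_lit 532) (nat_lit 24881667633) (nat_lit 76) (nat_lit 5591670326) (nat_lit 147) (nat_lit 5) (nat_lit 154) (nat_lit 5) (nat_lit 148) (nat_lit 5) (nat_lit 394) (nat_lit 360) (nat_lit 146)) (XT.nd (nat_lit 78) (nat_lit 456) (nat_lit 0) (XT.lf (nat_lit 0) (nat_lit 17264736589) (nat_lit 532) (nat_lit 3238659275) (nat_lit 76) (nat_lit 22084421841) (nat_lit 147) (nat_lit 5) (nat_lit 154) (nat_lit 5) (nat_lit 148) (nat_lit 5) (nat_lit 395) (nat_lit 360) (nat_lit 145)) (XT.lf (nat_lit 0) (nat_lit 19430635786) (nat_lit 456) (nat_lit 4095599692) (nat_lit 532) (nat_lit 19827806315) (nat_lit 141) (nat_lit 5) (nat_lit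 147) (nat_lit 5) (nat_lit 148) (nat_lit 5) (nat_lit 396) (nat_lit 360) (nat_lit 144)))) (XT.nd (nat_lit 156) (nat_lit 456) (nat_lit 0) (XT.nd (nat_lit 78) (nat_lit 380) (nat_lit 0) (XT.lf (nat_lit 0) (nat_lit 30129903441) (nat_lit 532) (nat_lit 1421475421) (nat_lit 76) (nat_lit 12587245095) (nat_lit 141) (nat_lit 5) (nat_lit 148) (nat_lit 5) (nat_lit 142) (nat_lit 5) (nat_lit 397) (nat_lit 360) (nat_lit 143)) (XT.lf (nat_lit 0) (nat_lit 22144959286) (nat_lit 380) (nat_lit 15038407793) (nat_lit 456) (nat_lit 7755826982) (nat_lit 136) (nat_lit 5) (nat_lit 141) (nat_lit 5) (nat_lit 142) (nat_lit 5) (nat_lit 398) (nat_lit 360) (nat_lit 142))) (XT.nd (nat_lit 78) (nat_lit 76) (nat_lit 0) (XT.lf (nat_lit 0) (nat_lit 676131886) (nat_lit 380) (nat_lit 43810525384) (nat_lit 456) (nat_lit 1275978335) (nat_lit 131) (nat_lit 5) (nat_lit 136) (nat_lit 5) (nat_lit 137) (nat_lit 5) (nat_lit 399) (nat_lit 360) (nat_lit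 141)) (XT.lf (nat_lit 0) (nat_lit 5672579615) (nat_lit 456) (nat_lit 21491243808) (nat_lit 76) (nat_lit 19434011582) (nat_lit 130) (nat_lit 5) (nat_lit 136) (nat_lit 5) (nat_lit 131) (nat_lit 5) (nat_lit 400) (nat_lit 360) (nat_lit 140)))))) (XT.nd (nat_lit 468) (nat_lit 1368) (nat_lit 0) (XT.nd (nat_lit 234) (nat_lit 380) (nat_lit 0) (XT.nd (nat_lit 78) (nat_lit 380) (nat_lit 0) (XT.lf (nat_lit 0) (nat_lit 2852799923) (nat_lit 380) (nat_lit 9976923053) (nat_lit 456) (nat_lit 34627216098) (nat_lit 125) (nat_lit 5) (nat_lit 130) (nat_lit 5) (nat_lit 131) (nat_lit 5) (nat_lit 401) (nat_lit 360) (nat_lit 139)) (XT.nd (nat_lit 78) (nat_lit 380) (nat_lit 0) (XT.lf (nat_lit 0) (nat_lit 20493386966) (nat_lit 456) (nat_lit 20046136307) (nat_lit 76) (nat_lit 7793539705) (nat_lit 125) (nat_lit 5) (nat_lit 131) (nat_lit 5) (nat_lit 126) (nat_lit 5) (nat_lit 402) (nat_lit 360) (nat_lit 138)) (XT.lf (nat_lit 0) (nat_lit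 5250204470) (nat_lit 380) (nat_lit 23284428476) (nat_lit 456) (nat_lit 20696408366) (nat_lit 120) (nat_lit 5) (nat_lit 125) (nat_lit 5) (nat_lit 126) (nat_lit 5) (nat_lit 403) (nat_lit 360) (nat_lit 137)))) (XT.nd (nat_lit 78) (nat_lit 380) (nat_lit 0) (XT.lf (nat_lit 0) (nat_lit 31714310784) (nat_lit 380) (nat_lit 5303680905) (nat_lit 456) (nat_lit 13131941896) (nat_lit 120) (nat_lit 5) (nat_lit 125) (nat_lit 5) (nat_lit 126) (nat_lit 5) (nat_lit 404) (nat_lit 360) (nat_lit 136)) (XT.nd (nat_lit 78) (nat_lit 76) (nat_lit 0) (XT.lf (nat_lit 0) (nat_lit 7901048146) (nat_lit 304) (nat_lit 38056286969) (nat_lit 380) (nat_lit 5133013819) (nat_lit 116) (nat_lit 5) (nat_lit 120) (nat_lit 5) (nat_lit 121) (nat_lit 5) (nat_lit 405) (nat_lit 360) (nat_lit 135)) (XT.lf (nat_lit 0) (nat_lit 3284292082) (nat_lit 380) (nat_lit 16733914132) (nat_lit 76) (nat_lit 32032705129) (nat_lit 115) (nat_lit 5) (nat_lit 120) (nat_lit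 5) (nat_lit 116) (nat_lit 5) (nat_lit 406) (nat_lit 360) (nat_lit 134))))) (XT.nd (nat_lit 234) (nat_lit 684) (nat_lit 0) (XT.nd (nat_lit 78) (nat_lit 304) (nat_lit 0) (XT.lf (nat_lit 0) (nat_lit 10670549386) (nat_lit 380) (nat_lit 1281513256) (nat_lit 456) (nat_lit 41083670663) (nat_lit 110) (nat_lit 5) (nat_lit 115) (nat_lit 5) (nat_lit 116) (nat_lit 5) (nat_lit 407) (nat_lit 360) (nat_lit 133)) (XT.nd (nat_lit 78) (nat_lit 304) (nat_lit 0) (XT.lf (nat_lit 0) (nat_lit 21222272843) (nat_lit 456) (nat_lit 14981723966) (nat_lit 76) (nat_lit 17835831652) (nat_lit 110) (nat_lit 5) (nat_lit 116) (nat_lit 5) (nat_lit 111) (nat_lit 5) (nat_lit 408) (nat_lit 360) (nat_lit 132)) (XT.lf (nat_lit 0) (nat_lit 13471484159) (nat_lit 304) (nat_lit 17439892125) (nat_lit 380) (nat_lit 24158447292) (nat_lit 106) (nat_lit 5) (nat_lit 110) (nat_lit 5) (nat_lit 111) (nat_lit 5) (nat_lit 409) (nat_lit 360) (nat_lit 131))))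 (XT.nd (nat_lit 156) (nat_lit 380) (nat_lit 0) (XT.nd (nat_lit 78) (nat_lit 304) (nat_lit 0) (XT.lf (nat_lit 0) (nat_lit 41060696493) (nat_lit 380) (nat_lit 13062381114) (nat_lit 76) (nat_lit 2002555318) (nat_lit 106) (nat_lit 5) (nat_lit 111) (nat_lit 5) (nat_lit 107) (nat_lit 5) (nat_lit 410) (nat_lit 360) (nat_lit 130)) (XT.lf (nat_lit 0) (nat_lit 16476596482) (nat_lit 304) (nat_lit 35367614803) (nat_lit 380) (nat_lit 5359014492) (nat_lit 102) (nat_lit 5) (nat_lit 106) (nat_lit 5) (nat_lit 107) (nat_lit 5) (nat_lit 411) (nat_lit 360) (nat_lit 129))) (XT.nd (nat_lit 78) (nat_lit 304) (nat_lit 0) (XT.lf (nat_lit 0) (nat_lit 4679456639) (nat_lit 380) (nat_lit 11187483451) (nat_lit 76) (nat_lit 42440913115) (nat_lit 101) (nat_lit 5) (nat_lit 106) (nat_lit 5) (nat_lit 102) (nat_lit 5) (nat_lit 412) (nat_lit 360) (nat_lit 128)) (XT.lf (nat_lit 0) (nat_lit 15141079781) (nat_lit 380) (nat_lit 39916663141) (nat_lit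 76) (nat_lit 4379394100) (nat_lit 97) (nat_lit 5) (nat_lit 102) (nat_lit 5) (nat_lit 98) (nat_lit 5) (nat_lit 413) (nat_lit 360) (nat_lit 127))))))) (XT.nd (nat_lit 42744) (nat_lit 0) (nat_lit 10488) (XT.nd (nat_lit 468) (nat_lit 760) (nat_lit 0) (XT.nd (nat_lit 234) (nat_lit 608) (nat_lit 0) (XT.nd (nat_lit 78) (nat_lit 304) (nat_lit 0) (XT.lf (nat_lit 0) (nat_lit 26186460480) (nat_lit 380) (nat_lit 9377997706) (nat_lit 76) (nat_lit 25027744495) (nat_lit 97) (nat_lit 5) (nat_lit 102) (nat_lit 5) (nat_lit 98) (nat_lit 5) (nat_lit 414) (nat_lit 360) (nat_lit 126)) (XT.nd (nat_lit 78) (nat_lit 0) (nat_lit 0) (XT.lf (nat_lit 0) (nat_lit 22514345279) (nat_lit 304) (nat_lit 15264036524) (nat_lit 380) (nat_lit 23997083711) (nat_lit 93) (nat_lit 5) (nat_lit 97) (nat_lit 5) (nat_lit 98) (nat_lit 5) (nat_lit 415) (nat_lit 360) (nat_lit 125)) (XT.lf (nat_lit 0) (nat_lit 49866735667) (nat_lit 380) (nat_lit 7492723850)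 (nat_lit 76) (nat_lit 5630307030) (nat_lit 93) (nat_lit 5) (nat_lit 98) (nat_lit 5) (nat_lit 94) (nat_lit 5) (nat_lit 416) (nat_lit 360) (nat_lit 124)))) (XT.nd (nat_lit 78) (nat_lit 380) (nat_lit 0) (XT.lf (nat_lit 0) (nat_lit 25574874358) (nat_lit 228) (nat_lit 37138642876) (nat_lit 304) (nat_lit 1515106609) (nat_lit 90) (nat_lit 5) (nat_lit 93) (nat_lit 5) (nat_lit 94) (nat_lit 5) (nat_lit 417) (nat_lit 360) (nat_lit 123)) (XT.nd (nat_lit 78) (nat_lit 304) (nat_lit 0) (XT.lf (nat_lit 0) (nat_lit 10312536081) (nat_lit 304) (nat_lit 5817183557) (nat_lit 76) (nat_lit 49369660062) (nat_lit 89) (nat_lit 5) (nat_lit 93) (nat_lit 5) (nat_lit 90) (nat_lit 5) (nat_lit 418) (nat_lit 360) (nat_lit 122)) (XT.lf (nat_lit 0) (nat_lit 22793612582) (nat_lit 380) (nat_lit 38310676008) (nat_lit 76) (nat_lit 5693648411) (nat_lit 85) (nat_lit 5) (nat_lit 90) (nat_lit 5) (nat_lit 86) (nat_lit 5) (nat_lit 419) (nat_lit 360)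 (nat_lit 121))))) (XT.nd (nat_lit 234) (nat_lit 532) (nat_lit 0) (XT.nd (nat_lit 78) (nat_lit 228) (nat_lit 0) (XT.lf (nat_lit 0) (nat_lit 35867003762) (nat_lit 380) (nat_lit 4355630713) (nat_lit 76) (nat_lit 27906280557) (nat_lit 85) (nat_lit 5) (nat_lit 90) (nat_lit 5) (nat_lit 86) (nat_lit 5) (nat_lit 420) (nat_lit 360) (nat_lit 120)) (XT.nd (nat_lit 78) (nat_lit 0) (nat_lit 0) (XT.lf (nat_lit 0) (nat_lit 31225697002) (nat_lit 228) (nat_lit 18405951863) (nat_lit 304) (nat_lit 19859202445) (nat_lit 82) (nat_lit 5) (nat_lit 85) (nat_lit 5) (nat_lit 86) (nat_lit 5) (nat_lit 421) (nat_lit 360) (nat_lit 119)) (XT.lf (nat_lit 0) (nat_lit 63891631823) (nat_lit 304) (nat_lit 2969794166) (nat_lit 76) (nat_lit 4029748189) (nat_lit 82) (nat_lit 5) (nat_lit 86) (nat_lit 5) (nat_lit 83) (nat_lit 5) (nat_lit 422) (nat_lit 360) (nat_lit 118)))) (XT.nd (nat_lit 156) (nat_lit 228) (nat_lit 0) (XT.nd (nat_lit 78) (nat_lit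 0) (nat_lit 0) (XT.lf (nat_lit 0) (nat_lit 6635710203) (nat_lit 304) (nat_lit 38522073854) (nat_lit 76) (nat_lit 27158571437) (nat_lit 78) (nat_lit 5) (nat_lit 82) (nat_lit 5) (nat_lit 79) (nat_lit 5) (nat_lit 423) (nat_lit 360) (nat_lit 117)) (XT.lf (nat_lit 0) (nat_lit 20568561123) (nat_lit 304) (nat_lit 2132495661) (nat_lit 76) (nat_lit 51080280072) (nat_lit 78) (nat_lit 5) (nat_lit 82) (nat_lit 5) (nat_lit 79) (nat_lit 5) (nat_lit 424) (nat_lit 360) (nat_lit 116))) (XT.nd (nat_lit 78) (nat_lit 0) (nat_lit 0) (XT.lf (nat_lit 0) (nat_lit 35272460759) (nat_lit 304) (nat_lit 39236821000) (nat_lit 76) (nat_lit 770394411) (nat_lit 75) (nat_lit 5) (nat_lit 79) (nat_lit 5) (nat_lit 76) (nat_lit 5) (nat_lit 425) (nat_lit 360) (nat_lit 115)) (XT.lf (nat_lit 0) (nat_lit 50662966176) (nat_lit 304) (nat_lit 1641737621) (nat_lit 76) (nat_lit 24510897594) (nat_lit 75) (nat_lit 5) (nat_lit 79) (nat_lit 5) (nat_lit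 76) (nat_lit 5) (nat_lit 426) (nat_lit 360) (nat_lit 114)))))) (XT.nd (nat_lit 546) (nat_lit 988) (nat_lit 0) (XT.nd (nat_lit 234) (nat_lit 0) (nat_lit 0) (XT.nd (nat_lit 78) (nat_lit 0) (nat_lit 0) (XT.lf (nat_lit 0) (nat_lit 5160038286) (nat_lit 0) (nat_lit 5160038286) (nat_lit 1140) (nat_lit 2091981845) (nat_lit 226) (nat_lit 5) (nat_lit 226) (nat_lit 3) (nat_lit 241) (nat_lit 3) (nat_lit 361) (nat_lit 361) (nat_lit 178)) (XT.nd (nat_lit 78) (nat_lit 0) (nat_lit 0) (XT.lf (nat_lit 0) (nat_lit 21065054517) (nat_lit 1140) (nat_lit 2879932459) (nat_lit 1216) (nat_lit 1247952680) (nat_lit 226) (nat_lit 5) (nat_lit 241) (nat_lit 3) (nat_lit 242) (nat_lit 5) (nat_lit 362) (nat_lit 361) (nat_lit 177)) (XT.lf (nat_lit 76) (nat_lit 9167455399) (nat_lit 0) (nat_lit 12521546719) (nat_lit 1216) (nat_lit 3878239190) (nat_lit 227) (nat_lit 5) (nat_lit 226) (nat_lit 5) (nat_lit 242) (nat_lit 5) (nat_lit 363) (nat_lit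 361) (nat_lit 176)))) (XT.nd (nat_lit 156) (nat_lit 0) (nat_lit 76) (XT.nd (nat_lit 78) (nat_lit 0) (nat_lit 76) (XT.lf (nat_lit 76) (nat_lit 21633167529) (nat_lit 0) (nat_lit 723675399) (nat_lit 1216) (nat_lit 3595176867) (nat_lit 227) (nat_lit 5) (nat_lit 226) (nat_lit 5) (nat_lit 242) (nat_lit 5) (nat_lit 364) (nat_lit 361) (nat_lit 175)) (XT.lf (nat_lit 76) (nat_lit 8171914357) (nat_lit 0) (nat_lit 15057435699) (nat_lit 1216) (nat_lit 3113455591) (nat_lit 228) (nat_lit 5) (nat_lit 227) (nat_lit 5) (nat_lit 243) (nat_lit 5) (nat_lit 365) (nat_lit 361) (nat_lit 174))) (XT.nd (nat_lit 78) (nat_lit 0) (nat_lit 76) (XT.lf (nat_lit 76) (nat_lit 21116445812) (nat_lit 0) (nat_lit 3058605852) (nat_lit 1216) (nat_lit 2568855687) (nat_lit 228) (nat_lit 5) (nat_lit 227) (nat_lit 5) (nat_lit 243) (nat_lit 5) (nat_lit 366) (nat_lit 361) (nat_lit 173)) (XT.lf (nat_lit 76) (nat_lit 7343935279) (nat_lit 0) (nat_lit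 17961616465) (nat_lit 1216) (nat_lit 1846800313) (nat_lit 229) (nat_lit 5) (nat_lit 228) (nat_lit 5) (nat_lit 244) (nat_lit 5) (nat_lit 367) (nat_lit 361) (nat_lit 172))))) (XT.nd (nat_lit 234) (nat_lit 0) (nat_lit 76) (XT.nd (nat_lit 78) (nat_lit 1140) (nat_lit 0) (XT.lf (nat_lit 76) (nat_lit 20786724169) (nat_lit 0) (nat_lit 5766571747) (nat_lit 1216) (nat_lit 1017257005) (nat_lit 229) (nat_lit 5) (nat_lit 228) (nat_lit 5) (nat_lit 244) (nat_lit 5) (nat_lit 368) (nat_lit 361) (nat_lit 171)) (XT.nd (nat_lit 78) (nat_lit 1216) (nat_lit 0) (XT.lf (nat_lit 76) (nat_lit 6694547941) (nat_lit 0) (nat_lit 21270217440) (nat_lit 1216) (nat_lit 32748256) (nat_lit 230) (nat_lit 5) (nat_lit 229) (nat_lit 5) (nat_lit 245) (nat_lit 5) (nat_lit 369) (nat_lit 361) (nat_lit 170)) (XT.lf (nat_lit 0) (nat_lit 1085094639) (nat_lit 1216) (nat_lit 7788415082) (nat_lit 1292) (nat_lit 19559804507) (nat_lit 213) (nat_lit 5) (nat_lit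 229) (nat_lit 5) (nat_lit 230) (nat_lit 5) (nat_lit 370) (nat_lit 361) (nat_lit 169)))) (XT.nd (nat_lit 156) (nat_lit 0) (nat_lit 76) (XT.nd (nat_lit 78) (nat_lit 0) (nat_lit 0) (XT.lf (nat_lit 0) (nat_lit 2330720528) (nat_lit 1216) (nat_lit 22667550009) (nat_lit 1292) (nat_lit 3881063788) (nat_lit 214) (nat_lit 5) (nat_lit 230) (nat_lit 5) (nat_lit 231) (nat_lit 5) (nat_lit 371) (nat_lit 361) (nat_lit 168)) (XT.lf (nat_lit 0) (nat_lit 3777847847) (nat_lit 1216) (nat_lit 8635701613) (nat_lit 1292) (nat_lit 16920263905) (nat_lit 214) (nat_lit 5) (nat_lit 230) (nat_lit 5) (nat_lit 231) (nat_lit 5) (nat_lit 372) (nat_lit 361) (nat_lit 167))) (XT.nd (nat_lit 78) (nat_lit 0) (nat_lit 0) (XT.lf (nat_lit 0) (nat_lit 5328185247) (nat_lit 1216) (nat_lit 23875595655) (nat_lit 1292) (nat_lit 596354242) (nat_lit 215) (nat_lit 5) (nat_lit 231) (nat_lit 5) (nat_lit 232) (nat_lit 5) (nat_lit 373) (nat_lit 361) (nat_lit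 166)) (XT.lf (nat_lit 0) (nat_lit 7133022395) (nat_lit 1216) (nat_lit 9305333266) (nat_lit 1292) (nat_lit 13835853415) (nat_lit 215) (nat_lit 5) (nat_lit 231) (nat_lit 5) (nat_lit 232) (nat_lit 5) (nat_lit 374) (nat_lit 361) (nat_lit 165))))))))
noncomputable def xc229 : XT := (XT.nd (nat_lit 2028) (nat_lit 4256) (nat_lit 0) (XT.nd (nat_lit 1014) (nat_lit 3192) (nat_lit 0) (XT.nd (nat_lit 468) (nat_lit 2356) (nat_lit 0) (XT.nd (nat_lit 234) (nat_lit 836) (nat_lit 0) (XT.nd (nat_lit 78) (nat_lit 0) (nat_lit 76) (XT.lf (nat_lit 76) (nat_lit 5813197481) (nat_lit 0) (nat_lit 3231790233) (nat_lit 1292) (nat_lit 21715930145) (nat_lit 216) (nat_lit 5) (nat_lit 215) (nat_lit 5) (nat_lit 232) (nat_lit 5) (nat_lit 375) (nat_lit 361) (nat_lit 164)) (XT.nd (nat_lit 78) (nat_lit 0) (nat_lit 0) (XT.lf (nat_lit 0) (nat_lit 11206071439) (nat_lit 1216) (nat_lit 9786343350) (nat_lit 1292) (nat_lit 10264062398) (nat_lit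 216) (nat_lit 5) (nat_lit 232) (nat_lit 5) (nat_lit 233) (nat_lit 5) (nat_lit 376) (nat_lit 361) (nat_lit 163)) (XT.lf (nat_lit 76) (nat_lit 5910942900) (nat_lit 0) (nat_lit 7607116027) (nat_lit 1292) (nat_lit 18246264231) (nat_lit 217) (nat_lit 5) (nat_lit 216) (nat_lit 5) (nat_lit 233) (nat_lit 5) (nat_lit 377) (nat_lit 361) (nat_lit 162)))) (XT.nd (nat_lit 78) (nat_lit 988) (nat_lit 0) (XT.lf (nat_lit 0) (nat_lit 16055927015) (nat_lit 1216) (nat_lit 10067405902) (nat_lit 76) (nat_lit 6159377908) (nat_lit 217) (nat_lit 5) (nat_lit 233) (nat_lit 5) (nat_lit 218) (nat_lit 5) (nat_lit 378) (nat_lit 361) (nat_lit 161)) (XT.nd (nat_lit 78) (nat_lit 0) (nat_lit 0) (XT.lf (nat_lit 0) (nat_lit 6236247215) (nat_lit 988) (nat_lit 12566342895) (nat_lit 1064) (nat_lit 14010082130) (nat_lit 204) (nat_lit 5) (nat_lit 217) (nat_lit 5) (nat_lit 218) (nat_lit 5) (nat_lit 379) (nat_lit 361) (nat_lit 160)) (XT.lf (nat_lit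 0) (nat_lit 21745204440) (nat_lit 1064) (nat_lit 10136872677) (nat_lit 76) (nat_lit 1473050673) (nat_lit 204) (nat_lit 5) (nat_lit 218) (nat_lit 5) (nat_lit 205) (nat_lit 5) (nat_lit 380) (nat_lit 361) (nat_lit 159))))) (XT.nd (nat_lit 234) (nat_lit 1216) (nat_lit 0) (XT.nd (nat_lit 78) (nat_lit 532) (nat_lit 0) (XT.lf (nat_lit 0) (nat_lit 6801911661) (nat_lit 608) (nat_lit 18161514627) (nat_lit 684) (nat_lit 8944812627) (nat_lit 196) (nat_lit 5) (nat_lit 204) (nat_lit 5) (nat_lit 205) (nat_lit 5) (nat_lit 381) (nat_lit 361) (nat_lit 158)) (XT.nd (nat_lit 78) (nat_lit 532) (nat_lit 0) (XT.lf (nat_lit 0) (nat_lit 24454412549) (nat_lit 608) (nat_lit 3923721002) (nat_lit 684) (nat_lit 6096813385) (nat_lit 196) (nat_lit 5) (nat_lit 204) (nat_lit 5) (nat_lit 205) (nat_lit 5) (nat_lit 382) (nat_lit 361) (nat_lit 157)) (XT.lf (nat_lit 0) (nat_lit 7621043662) (nat_lit 532) (nat_lit 24448396057) (nat_lit 608) (nat_lit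 2983993427) (nat_lit 189) (nat_lit 5) (nat_lit 196) (nat_lit 5) (nat_lit 197) (nat_lit 5) (nat_lit 383) (nat_lit 361) (nat_lit 156)))) (XT.nd (nat_lit 156) (nat_lit 532) (nat_lit 0) (XT.nd (nat_lit 78) (nat_lit 608) (nat_lit 0) (XT.lf (nat_lit 0) (nat_lit 356584471) (nat_lit 608) (nat_lit 9693222157) (nat_lit 76) (nat_lit 25595243531) (nat_lit 188) (nat_lit 5) (nat_lit 196) (nat_lit 5) (nat_lit 189) (nat_lit 5) (nat_lit 384) (nat_lit 361) (nat_lit 155)) (XT.lf (nat_lit 0) (nat_lit 3866009249) (nat_lit 684) (nat_lit 27581709035) (nat_lit 76) (nat_lit 4801954452) (nat_lit 180) (nat_lit 5) (nat_lit 189) (nat_lit 5) (nat_lit 181) (nat_lit 5) (nat_lit 385) (nat_lit 361) (nat_lit 154))) (XT.nd (nat_lit 78) (nat_lit 532) (nat_lit 0) (XT.lf (nat_lit 0) (nat_lit 7676855527) (nat_lit 684) (nat_lit 9193540641) (nat_lit 76) (nat_lit 19996155150) (nat_lit 180) (nat_lit 5) (nat_lit 189) (nat_lit 5) (nat_lit 181) (nat_lit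 5) (nat_lit 386) (nat_lit 361) (nat_lit 153)) (XT.lf (nat_lit 0) (nat_lit 9938007231) (nat_lit 532) (nat_lit 1757398757) (nat_lit 608) (nat_lit 25803730353) (nat_lit 173) (nat_lit 5) (nat_lit 180) (nat_lit 5) (nat_lit 181) (nat_lit 5) (nat_lit 387) (nat_lit 361) (nat_lit 152)))))) (XT.nd (nat_lit 468) (nat_lit 1672) (nat_lit 0) (XT.nd (nat_lit 234) (nat_lit 988) (nat_lit 0) (XT.nd (nat_lit 78) (nat_lit 532) (nat_lit 0) (XT.lf (nat_lit 0) (nat_lit 16058899125) (nat_lit 608) (nat_lit 8451847833) (nat_lit 76) (nat_lit 13633221777) (nat_lit 173) (nat_lit 5) (nat_lit 181) (nat_lit 5) (nat_lit 174) (nat_lit 5) (nat_lit 388) (nat_lit 361) (nat_lit 151)) (XT.nd (nat_lit 78) (nat_lit 0) (nat_lit 0) (XT.lf (nat_lit 0) (nat_lit 11434266188) (nat_lit 532) (nat_lit 9244295284) (nat_lit 608) (nat_lit 18125828060) (nat_lit 166) (nat_lit 5) (nat_lit 173) (nat_lit 5) (nat_lit 174) (nat_lit 5) (nat_lit 389) (nat_lit 361)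 (nat_lit 150)) (XT.lf (nat_lit 0) (nat_lit 25583285927) (nat_lit 608) (nat_lit 7457188943) (nat_lit 76) (nat_lit 6439755240) (nat_lit 166) (nat_lit 5) (nat_lit 174) (nat_lit 5) (nat_lit 167) (nat_lit 5) (nat_lit 390) (nat_lit 361) (nat_lit 149)))) (XT.nd (nat_lit 78) (nat_lit 532) (nat_lit 0) (XT.lf (nat_lit 0) (nat_lit 13217380395) (nat_lit 456) (nat_lit 17634400474) (nat_lit 532) (nat_lit 9318067458) (nat_lit 160) (nat_lit 5) (nat_lit 166) (nat_lit 5) (nat_lit 167) (nat_lit 5) (nat_lit 391) (nat_lit 361) (nat_lit 148)) (XT.nd (nat_lit 78) (nat_lit 532) (nat_lit 0) (XT.lf (nat_lit 0) (nat_lit 34662928780) (nat_lit 456) (nat_lit 1688788860) (nat_lit 532) (nat_lit 4526237091) (nat_lit 160) (nat_lit 5) (nat_lit 166) (nat_lit 5) (nat_lit 167) (nat_lit 5) (nat_lit 392) (nat_lit 361) (nat_lit 147)) (XT.lf (nat_lit 0) (nat_lit 691047220) (nat_lit 532) (nat_lit 26306150878) (nat_lit 76) (nat_lit 14601298751)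 (nat_lit 153) (nat_lit 5) (nat_lit 160) (nat_lit 5) (nat_lit 154) (nat_lit 5) (nat_lit 393) (nat_lit 361) (nat_lit 146))))) (XT.nd (nat_lit 234) (nat_lit 1216) (nat_lit 0) (XT.nd (nat_lit 78) (nat_lit 456) (nat_lit 0) (XT.lf (nat_lit 0) (nat_lit 6052131523) (nat_lit 532) (nat_lit 4830721247) (nat_lit 76) (nat_lit 31454111547) (nat_lit 153) (nat_lit 5) (nat_lit 160) (nat_lit 5) (nat_lit 154) (nat_lit 5) (nat_lit 394) (nat_lit 361) (nat_lit 145)) (XT.nd (nat_lit 78) (nat_lit 0) (nat_lit 0) (XT.lf (nat_lit 0) (nat_lit 11798344954) (nat_lit 532) (nat_lit 25518223902) (nat_lit 76) (nat_lit 5774289162) (nat_lit 147) (nat_lit 5) (nat_lit 154) (nat_lit 5) (nat_lit 148) (nat_lit 5) (nat_lit 395) (nat_lit 361) (nat_lit 144)) (XT.lf (nat_lit 0) (nat_lit 17872195841) (nat_lit 532) (nat_lit 3229126083) (nat_lit 76) (nat_lit 22761390153) (nat_lit 147) (nat_lit 5) (nat_lit 154) (nat_lit 5) (nat_lit 148) (nat_lit 5) (nat_lit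 396) (nat_lit 361) (nat_lit 143)))) (XT.nd (nat_lit 156) (nat_lit 760) (nat_lit 0) (XT.nd (nat_lit 78) (nat_lit 0) (nat_lit 0) (XT.lf (nat_lit 0) (nat_lit 20119201821) (nat_lit 456) (nat_lit 4200746123) (nat_lit 532) (nat_lit 20332024287) (nat_lit 141) (nat_lit 5) (nat_lit 147) (nat_lit 5) (nat_lit 148) (nat_lit 5) (nat_lit 397) (nat_lit 361) (nat_lit 142)) (XT.lf (nat_lit 0) (nat_lit 31119330400) (nat_lit 532) (nat_lit 1359102764) (nat_lit 76) (nat_lit 12981732106) (nat_lit 141) (nat_lit 5) (nat_lit 148) (nat_lit 5) (nat_lit 142) (nat_lit 5) (nat_lit 398) (nat_lit 361) (nat_lit 141))) (XT.nd (nat_lit 78) (nat_lit 380) (nat_lit 0) (XT.lf (nat_lit 0) (nat_lit 22913295407) (nat_lit 380) (nat_lit 15469610970) (nat_lit 456) (nat_lit 7901892349) (nat_lit 136) (nat_lit 5) (nat_lit 141) (nat_lit 5) (nat_lit 142) (nat_lit 5) (nat_lit 399) (nat_lit 361) (nat_lit 140)) (XT.lf (nat_lit 0) (nat_lit 801739768) (nat_lit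 380) (nat_lit 45102306404) (nat_lit 456) (nat_lit 1228936273) (nat_lit 131) (nat_lit 5) (nat_lit 136) (nat_lit 5) (nat_lit 137) (nat_lit 5) (nat_lit 400) (nat_lit 361) (nat_lit 139))))))) (XT.nd (nat_lit 1014) (nat_lit 1976) (nat_lit 0) (XT.nd (nat_lit 468) (nat_lit 1140) (nat_lit 0) (XT.nd (nat_lit 234) (nat_lit 684) (nat_lit 0) (XT.nd (nat_lit 78) (nat_lit 380) (nat_lit 0) (XT.lf (nat_lit 0) (nat_lit 5923976890) (nat_lit 456) (nat_lit 22032062684) (nat_lit 76) (nat_lit 20037248120) (nat_lit 130) (nat_lit 5) (nat_lit 136) (nat_lit 5) (nat_lit 131) (nat_lit 5) (nat_lit 401) (nat_lit 361) (nat_lit 138)) (XT.nd (nat_lit 78) (nat_lit 0) (nat_lit 0) (XT.lf (nat_lit 0) (nat_lit 3041283551) (nat_lit 380) (nat_lit 10253174507) (nat_lit 456) (nat_lit 35583749454) (nat_lit 125) (nat_lit 5) (nat_lit 130) (nat_lit 5) (nat_lit 131) (nat_lit 5) (nat_lit 402) (nat_lit 361) (nat_lit 137)) (XT.lf (nat_lit 0) (nat_lit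 21185921607) (nat_lit 456) (nat_lit 20545464344) (nat_lit 76) (nat_lit 8049293787) (nat_lit 125) (nat_lit 5) (nat_lit 131) (nat_lit 5) (nat_lit 126) (nat_lit 5) (nat_lit 403) (nat_lit 361) (nat_lit 136)))) (XT.nd (nat_lit 78) (nat_lit 304) (nat_lit 0) (XT.lf (nat_lit 0) (nat_lit 5508766107) (nat_lit 380) (nat_lit 23958346199) (nat_lit 456) (nat_lit 21238525154) (nat_lit 120) (nat_lit 5) (nat_lit 125) (nat_lit 5) (nat_lit 126) (nat_lit 5) (nat_lit 404) (nat_lit 361) (nat_lit 135)) (XT.nd (nat_lit 78) (nat_lit 304) (nat_lit 0) (XT.lf (nat_lit 0) (nat_lit 32763852246) (nat_lit 380) (nat_lit 5438893147) (nat_lit 456) (nat_lit 13449419120) (nat_lit 120) (nat_lit 5) (nat_lit 125) (nat_lit 5) (nat_lit 126) (nat_lit 5) (nat_lit 405) (nat_lit 361) (nat_lit 134)) (XT.lf (nat_lit 0) (nat_lit 8237247227) (nat_lit 304) (nat_lit 39172036615) (nat_lit 380) (nat_lit 5211539222) (nat_lit 116) (nat_lit 5) (nat_lit 120)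 (nat_lit 5) (nat_lit 121) (nat_lit 5) (nat_lit 406) (nat_lit 361) (nat_lit 133))))) (XT.nd (nat_lit 234) (nat_lit 684) (nat_lit 0) (XT.nd (nat_lit 78) (nat_lit 380) (nat_lit 0) (XT.lf (nat_lit 0) (nat_lit 3454658143) (nat_lit 380) (nat_lit 17138185383) (nat_lit 76) (nat_lit 33017402827) (nat_lit 115) (nat_lit 5) (nat_lit 120) (nat_lit 5) (nat_lit 116) (nat_lit 5) (nat_lit 407) (nat_lit 361) (nat_lit 132)) (XT.nd (nat_lit 78) (nat_lit 0) (nat_lit 0) (XT.lf (nat_lit 0) (nat_lit 11087453745) (nat_lit 380) (nat_lit 1293846110) (nat_lit 456) (nat_lit 42243349061) (nat_lit 110) (nat_lit 5) (nat_lit 115) (nat_lit 5) (nat_lit 116) (nat_lit 5) (nat_lit 408) (nat_lit 361) (nat_lit 131)) (XT.lf (nat_lit 0) (nat_lit 21927801556) (nat_lit 456) (nat_lit 15335356991) (nat_lit 76) (nat_lit 18395763877) (nat_lit 110) (nat_lit 5) (nat_lit 116) (nat_lit 5) (nat_lit 111) (nat_lit 5) (nat_lit 409) (nat_lit 361) (nat_lit 130))))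 (XT.nd (nat_lit 156) (nat_lit 380) (nat_lit 0) (XT.nd (nat_lit 78) (nat_lit 0) (nat_lit 0) (XT.lf (nat_lit 0) (nat_lit 13970507979) (nat_lit 304) (nat_lit 17935976513) (nat_lit 380) (nat_lit 24813366730) (nat_lit 106) (nat_lit 5) (nat_lit 110) (nat_lit 5) (nat_lit 111) (nat_lit 5) (nat_lit 410) (nat_lit 361) (nat_lit 129)) (XT.lf (nat_lit 0) (nat_lit 42358563544) (nat_lit 380) (nat_lit 13360382901) (nat_lit 76) (nat_lit 2088441022) (nat_lit 106) (nat_lit 5) (nat_lit 111) (nat_lit 5) (nat_lit 107) (nat_lit 5) (nat_lit 411) (nat_lit 361) (nat_lit 128))) (XT.nd (nat_lit 78) (nat_lit 76) (nat_lit 0) (XT.lf (nat_lit 0) (nat_lit 17063843732) (nat_lit 304) (nat_lit 36400709859) (nat_lit 380) (nat_lit 5452786382) (nat_lit 102) (nat_lit 5) (nat_lit 106) (nat_lit 5) (nat_lit 107) (nat_lit 5) (nat_lit 412) (nat_lit 361) (nat_lit 127)) (XT.lf (nat_lit 0) (nat_lit 4883618165) (nat_lit 380) (nat_lit 11431566302) (nat_lit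 76) (nat_lit 43739960743) (nat_lit 101) (nat_lit 5) (nat_lit 106) (nat_lit 5) (nat_lit 102) (nat_lit 5) (nat_lit 413) (nat_lit 361) (nat_lit 126)))))) (XT.nd (nat_lit 546) (nat_lit 760) (nat_lit 0) (XT.nd (nat_lit 234) (nat_lit 608) (nat_lit 0) (XT.nd (nat_lit 78) (nat_lit 304) (nat_lit 0) (XT.lf (nat_lit 0) (nat_lit 15658371458) (nat_lit 380) (nat_lit 41021873465) (nat_lit 76) (nat_lit 4538085055) (nat_lit 97) (nat_lit 5) (nat_lit 102) (nat_lit 5) (nat_lit 98) (nat_lit 5) (nat_lit 414) (nat_lit 361) (nat_lit 125)) (XT.nd (nat_lit 78) (nat_lit 304) (nat_lit 0) (XT.lf (nat_lit 0) (nat_lit 27033276901) (nat_lit 380) (nat_lit 9569736113) (nat_lit 76) (nat_lit 25805090551) (nat_lit 97) (nat_lit 5) (nat_lit 102) (nat_lit 5) (nat_lit 98) (nat_lit 5) (nat_lit 415) (nat_lit 361) (nat_lit 124)) (XT.lf (nat_lit 0) (nat_lit 23278498715) (nat_lit 304) (nat_lit 15693526826) (nat_lit 380) (nat_lit 24654867481) (nat_lit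 93) (nat_lit 5) (nat_lit 97) (nat_lit 5) (nat_lit 98) (nat_lit 5) (nat_lit 416) (nat_lit 361) (nat_lit 123)))) (XT.nd (nat_lit 156) (nat_lit 380) (nat_lit 0) (XT.nd (nat_lit 78) (nat_lit 228) (nat_lit 0) (XT.lf (nat_lit 0) (nat_lit 51421539270) (nat_lit 380) (nat_lit 7629849021) (nat_lit 76) (nat_lit 5826280325) (nat_lit 93) (nat_lit 5) (nat_lit 98) (nat_lit 5) (nat_lit 94) (nat_lit 5) (nat_lit 417) (nat_lit 361) (nat_lit 122)) (XT.lf (nat_lit 0) (nat_lit 26428917756) (nat_lit 228) (nat_lit 38223928210) (nat_lit 304) (nat_lit 1500872798) (nat_lit 90) (nat_lit 5) (nat_lit 93) (nat_lit 5) (nat_lit 94) (nat_lit 5) (nat_lit 418) (nat_lit 361) (nat_lit 121))) (XT.nd (nat_lit 78) (nat_lit 304) (nat_lit 0) (XT.lf (nat_lit 0) (nat_lit 10678729931) (nat_lit 304) (nat_lit 5906274584) (nat_lit 76) (nat_lit 50877627442) (nat_lit 89) (nat_lit 5) (nat_lit 93) (nat_lit 5) (nat_lit 90) (nat_lit 5) (nat_lit 419) (nat_lit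 361) (nat_lit 120)) (XT.lf (nat_lit 0) (nat_lit 23533671969) (nat_lit 380) (nat_lit 39373981166) (nat_lit 76) (nat_lit 5892510561) (nat_lit 85) (nat_lit 5) (nat_lit 90) (nat_lit 5) (nat_lit 86) (nat_lit 5) (nat_lit 420) (nat_lit 361) (nat_lit 119))))) (XT.nd (nat_lit 234) (nat_lit 532) (nat_lit 0) (XT.nd (nat_lit 78) (nat_lit 228) (nat_lit 0) (XT.lf (nat_lit 0) (nat_lit 36997626505) (nat_lit 380) (nat_lit 4402789807) (nat_lit 76) (nat_lit 28770704603) (nat_lit 85) (nat_lit 5) (nat_lit 90) (nat_lit 5) (nat_lit 86) (nat_lit 5) (nat_lit 421) (nat_lit 361) (nat_lit 118)) (XT.nd (nat_lit 78) (nat_lit 0) (nat_lit 0) (XT.lf (nat_lit 0) (nat_lit 32245159016) (nat_lit 228) (nat_lit 18929256164) (nat_lit 304) (nat_lit 20399524651) (nat_lit 82) (nat_lit 5) (nat_lit 85) (nat_lit 5) (nat_lit 86) (nat_lit 5) (nat_lit 422) (nat_lit 361) (nat_lit 117)) (XT.lf (nat_lit 0) (nat_lit 65860899619) (nat_lit 304) (nat_lit 2977285500)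 (nat_lit 76) (nat_lit 4178126862) (nat_lit 82) (nat_lit 5) (nat_lit 86) (nat_lit 5) (nat_lit 83) (nat_lit 5) (nat_lit 423) (nat_lit 361) (nat_lit 116)))) (XT.nd (nat_lit 156) (nat_lit 228) (nat_lit 0) (XT.nd (nat_lit 78) (nat_lit 0) (nat_lit 0) (XT.lf (nat_lit 0) (nat_lit 6887080738) (nat_lit 304) (nat_lit 39595872144) (nat_lit 76) (nat_lit 28001303698) (nat_lit 78) (nat_lit 5) (nat_lit 82) (nat_lit 5) (nat_lit 79) (nat_lit 5) (nat_lit 424) (nat_lit 361) (nat_lit 115)) (XT.lf (nat_lit 0) (nat_lit 21236393907) (nat_lit 304) (nat_lit 2116990991) (nat_lit 76) (nat_lit 52639848783) (nat_lit 78) (nat_lit 5) (nat_lit 82) (nat_lit 5) (nat_lit 79) (nat_lit 5) (nat_lit 425) (nat_lit 361) (nat_lit 114))) (XT.nd (nat_lit 41886) (nat_lit 0) (nat_lit 11476) (XT.lf (nat_lit 0) (nat_lit 36380963507) (nat_lit 304) (nat_lit 40333979644) (nat_lit 76) (nat_lit 821594015) (nat_lit 75) (nat_lit 5) (nat_lit 79) (nat_lit 5)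 (nat_lit 76) (nat_lit 5) (nat_lit 426) (nat_lit 361) (nat_lit 113)) (XT.lf (nat_lit 0) (nat_lit 5365876198) (nat_lit 0) (nat_lit 5365876198) (nat_lit 1140) (nat_lit 2049526377) (nat_lit 226) (nat_lit 5) (nat_lit 226) (nat_lit 3) (nat_lit 241) (nat_lit 3) (nat_lit 362) (nat_lit 362) (nat_lit 176))))))))
noncomputable def xc230 : XT := (XT.nd (nat_lit 2028) (nat_lit 5776) (nat_lit 0) (XT.nd (nat_lit 1014) (nat_lit 3040) (nat_lit 0) (XT.nd (nat_lit 468) (nat_lit 988) (nat_lit 0) (XT.nd (nat_lit 234) (nat_lit 0) (nat_lit 76) (XT.nd (nat_lit 78) (nat_lit 0) (nat_lit 0) (XT.lf (nat_lit 0) (nat_lit 21894254563) (nat_lit 1140) (nat_lit 2860177509) (nat_lit 1216) (nat_lit 1188224556) (nat_lit 226) (nat_lit 5) (nat_lit 241) (nat_lit 3) (nat_lit 242) (nat_lit 5) (nat_lit 363) (nat_lit 362) (nat_lit 175)) (XT.nd (nat_lit 78) (nat_lit 0) (nat_lit 0) (XT.lf (nat_lit 76) (nat_lit 9547591270) (nat_lit 0) (nat_lit 12984594626)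 (nat_lit 1216) (nat_lit 3796147953) (nat_lit 227) (nat_lit 5) (nat_lit 226) (nat_lit 5) (nat_lit 242) (nat_lit 5) (nat_lit 364) (nat_lit 362) (nat_lit 174)) (XT.lf (nat_lit 76) (nat_lit 22384213244) (nat_lit 0) (nat_lit 830241492) (nat_lit 1216) (nat_lit 3510373520) (nat_lit 227) (nat_lit 5) (nat_lit 226) (nat_lit 5) (nat_lit 242) (nat_lit 5) (nat_lit 365) (nat_lit 362) (nat_lit 173)))) (XT.nd (nat_lit 78) (nat_lit 0) (nat_lit 0) (XT.lf (nat_lit 76) (nat_lit 8524625409) (nat_lit 0) (nat_lit 15583309731) (nat_lit 1216) (nat_lit 3019562821) (nat_lit 228) (nat_lit 5) (nat_lit 227) (nat_lit 5) (nat_lit 243) (nat_lit 5) (nat_lit 366) (nat_lit 362) (nat_lit 172)) (XT.nd (nat_lit 78) (nat_lit 0) (nat_lit 76) (XT.lf (nat_lit 76) (nat_lit 21854360179) (nat_lit 0) (nat_lit 3222355252) (nat_lit 1216) (nat_lit 2464080156) (nat_lit 228) (nat_lit 5) (nat_lit 227) (nat_lit 5) (nat_lit 243) (nat_lit 5) (nat_lit 367) (nat_lit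 362) (nat_lit 171)) (XT.lf (nat_lit 76) (nat_lit 7673711593) (nat_lit 0) (nat_lit 18562661011) (nat_lit 1216) (nat_lit 1725267745) (nat_lit 229) (nat_lit 5) (nat_lit 228) (nat_lit 5) (nat_lit 244) (nat_lit 5) (nat_lit 368) (nat_lit 362) (nat_lit 170))))) (XT.nd (nat_lit 234) (nat_lit 0) (nat_lit 76) (XT.nd (nat_lit 78) (nat_lit 1140) (nat_lit 0) (XT.lf (nat_lit 76) (nat_lit 21516596046) (nat_lit 0) (nat_lit 5999953416) (nat_lit 1216) (nat_lit 875991631) (nat_lit 229) (nat_lit 5) (nat_lit 228) (nat_lit 5) (nat_lit 244) (nat_lit 5) (nat_lit 369) (nat_lit 362) (nat_lit 169)) (XT.nd (nat_lit 78) (nat_lit 0) (nat_lit 0) (XT.lf (nat_lit 0) (nat_lit 130960009) (nat_lit 1216) (nat_lit 21827463288) (nat_lit 1292) (nat_lit 6873983118) (nat_lit 213) (nat_lit 5) (nat_lit 229) (nat_lit 5) (nat_lit 230) (nat_lit 5) (nat_lit 370) (nat_lit 362) (nat_lit 168)) (XT.lf (nat_lit 0) (nat_lit 1276902339) (nat_lit 1216) (nat_lit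 7911128564) (nat_lit 1292) (nat_lit 20093387258) (nat_lit 213) (nat_lit 5) (nat_lit 229) (nat_lit 5) (nat_lit 230) (nat_lit 5) (nat_lit 371) (nat_lit 362) (nat_lit 167)))) (XT.nd (nat_lit 156) (nat_lit 0) (nat_lit 76) (XT.nd (nat_lit 78) (nat_lit 0) (nat_lit 0) (XT.lf (nat_lit 0) (nat_lit 2555874012) (nat_lit 1216) (nat_lit 23232500129) (nat_lit 1292) (nat_lit 3952568841) (nat_lit 214) (nat_lit 5) (nat_lit 230) (nat_lit 5) (nat_lit 231) (nat_lit 5) (nat_lit 372) (nat_lit 362) (nat_lit 166)) (XT.lf (nat_lit 0) (nat_lit 4041893834) (nat_lit 1216) (nat_lit 8783048022) (nat_lit 1292) (nat_lit 17384253511) (nat_lit 214) (nat_lit 5) (nat_lit 230) (nat_lit 5) (nat_lit 231) (nat_lit 5) (nat_lit 373) (nat_lit 362) (nat_lit 165))) (XT.nd (nat_lit 78) (nat_lit 0) (nat_lit 0) (XT.lf (nat_lit 0) (nat_lit 5635061853) (nat_lit 1216) (nat_lit 24476351533) (nat_lit 1292) (nat_lit 578207034) (nat_lit 215) (nat_lit 5) (nat_lit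 231) (nat_lit 5) (nat_lit 232) (nat_lit 5) (nat_lit 374) (nat_lit 362) (nat_lit 164)) (XT.lf (nat_lit 0) (nat_lit 7489761657) (nat_lit 1216) (nat_lit 9472345699) (nat_lit 1292) (nat_lit 14215940827) (nat_lit 215) (nat_lit 5) (nat_lit 231) (nat_lit 5) (nat_lit 232) (nat_lit 5) (nat_lit 375) (nat_lit 362) (nat_lit 163)))))) (XT.nd (nat_lit 468) (nat_lit 2356) (nat_lit 0) (XT.nd (nat_lit 234) (nat_lit 836) (nat_lit 0) (XT.nd (nat_lit 78) (nat_lit 0) (nat_lit 76) (XT.lf (nat_lit 76) (nat_lit 6098641485) (nat_lit 0) (nat_lit 3357354188) (nat_lit 1292) (nat_lit 22223458316) (nat_lit 216) (nat_lit 5) (nat_lit 215) (nat_lit 5) (nat_lit 232) (nat_lit 5) (nat_lit 376) (nat_lit 362) (nat_lit 162)) (XT.nd (nat_lit 78) (nat_lit 0) (nat_lit 0) (XT.lf (nat_lit 0) (nat_lit 11677577182) (nat_lit 1216) (nat_lit 9967686558) (nat_lit 1292) (nat_lit 10544749358) (nat_lit 216) (nat_lit 5) (nat_lit 232) (nat_lit 5) (nat_lit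 233) (nat_lit 5) (nat_lit 377) (nat_lit 362) (nat_lit 161)) (XT.lf (nat_lit 76) (nat_lit 6199417818) (nat_lit 0) (nat_lit 7856633422) (nat_lit 1292) (nat_lit 18657132275) (nat_lit 217) (nat_lit 5) (nat_lit 216) (nat_lit 5) (nat_lit 233) (nat_lit 5) (nat_lit 378) (nat_lit 362) (nat_lit 160)))) (XT.nd (nat_lit 78) (nat_lit 988) (nat_lit 0) (XT.lf (nat_lit 0) (nat_lit 16665998766) (nat_lit 1216) (nat_lit 10257369093) (nat_lit 76) (nat_lit 6323879441) (nat_lit 217) (nat_lit 5) (nat_lit 233) (nat_lit 5) (nat_lit 218) (nat_lit 5) (nat_lit 379) (nat_lit 362) (nat_lit 159)) (XT.nd (nat_lit 78) (nat_lit 0) (nat_lit 0) (XT.lf (nat_lit 0) (nat_lit 6534294999) (nat_lit 988) (nat_lit 12958093744) (nat_lit 1064) (nat_lit 14300801715) (nat_lit 204) (nat_lit 5) (nat_lit 217) (nat_lit 5) (nat_lit 218) (nat_lit 5) (nat_lit 380) (nat_lit 362) (nat_lit 158)) (XT.lf (nat_lit 0) (nat_lit 22519481973) (nat_lit 1064) (nat_lit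 10329363124) (nat_lit 76) (nat_lit 1503191193) (nat_lit 204) (nat_lit 5) (nat_lit 218) (nat_lit 5) (nat_lit 205) (nat_lit 5) (nat_lit 381) (nat_lit 362) (nat_lit 157))))) (XT.nd (nat_lit 234) (nat_lit 1216) (nat_lit 0) (XT.nd (nat_lit 78) (nat_lit 532) (nat_lit 0) (XT.lf (nat_lit 0) (nat_lit 7116490471) (nat_lit 608) (nat_lit 18715271296) (nat_lit 684) (nat_lit 9090056197) (nat_lit 196) (nat_lit 5) (nat_lit 204) (nat_lit 5) (nat_lit 205) (nat_lit 5) (nat_lit 382) (nat_lit 362) (nat_lit 156)) (XT.nd (nat_lit 78) (nat_lit 532) (nat_lit 0) (XT.lf (nat_lit 0) (nat_lit 25295347315) (nat_lit 608) (nat_lit 4050084312) (nat_lit 684) (nat_lit 6160202439) (nat_lit 196) (nat_lit 5) (nat_lit 204) (nat_lit 5) (nat_lit 205) (nat_lit 5) (nat_lit 383) (nat_lit 362) (nat_lit 155)) (XT.lf (nat_lit 0) (nat_lit 7959534091) (nat_lit 532) (nat_lit 25185540876) (nat_lit 608) (nat_lit 2956474363) (nat_lit 189) (nat_lit 5) (nat_lit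 196) (nat_lit 5) (nat_lit 197) (nat_lit 5) (nat_lit 384) (nat_lit 362) (nat_lit 154)))) (XT.nd (nat_lit 156) (nat_lit 532) (nat_lit 0) (XT.nd (nat_lit 78) (nat_lit 608) (nat_lit 0) (XT.lf (nat_lit 0) (nat_lit 478694644) (nat_lit 608) (nat_lit 9875066510) (nat_lit 76) (nat_lit 26357222488) (nat_lit 188) (nat_lit 5) (nat_lit 196) (nat_lit 5) (nat_lit 189) (nat_lit 5) (nat_lit 385) (nat_lit 362) (nat_lit 153)) (XT.lf (nat_lit 0) (nat_lit 4091181492) (nat_lit 684) (nat_lit 28297913881) (nat_lit 76) (nat_lit 4944718347) (nat_lit 180) (nat_lit 5) (nat_lit 189) (nat_lit 5) (nat_lit 181) (nat_lit 5) (nat_lit 386) (nat_lit 362) (nat_lit 152))) (XT.nd (nat_lit 78) (nat_lit 532) (nat_lit 0) (XT.lf (nat_lit 0) (nat_lit 8013172809) (nat_lit 684) (nat_lit 9361340623) (nat_lit 76) (nat_lit 20594782777) (nat_lit 180) (nat_lit 5) (nat_lit 189) (nat_lit 5) (nat_lit 181) (nat_lit 5) (nat_lit 387) (nat_lit 362) (nat_lit 151))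 (XT.lf (nat_lit 0) (nat_lit 10343094800) (nat_lit 532) (nat_lit 1807125310) (nat_lit 608) (nat_lit 26470702539) (nat_lit 173) (nat_lit 5) (nat_lit 180) (nat_lit 5) (nat_lit 181) (nat_lit 5) (nat_lit 388) (nat_lit 362) (nat_lit 150))))))) (XT.nd (nat_lit 1014) (nat_lit 2584) (nat_lit 0) (XT.nd (nat_lit 468) (nat_lit 1672) (nat_lit 0) (XT.nd (nat_lit 234) (nat_lit 988) (nat_lit 0) (XT.nd (nat_lit 78) (nat_lit 532) (nat_lit 0) (XT.lf (nat_lit 0) (nat_lit 16641618271) (nat_lit 608) (nat_lit 8598503908) (nat_lit 76) (nat_lit 14045069846) (nat_lit 173) (nat_lit 5) (nat_lit 181) (nat_lit 5) (nat_lit 174) (nat_lit 5) (nat_lit 389) (nat_lit 362) (nat_lit 149)) (XT.nd (nat_lit 78) (nat_lit 0) (nat_lit 0) (XT.lf (nat_lit 0) (nat_lit 11883145501) (nat_lit 532) (nat_lit 9514802141) (nat_lit 608) (nat_lit 18567537447) (nat_lit 166) (nat_lit 5) (nat_lit 173) (nat_lit 5) (nat_lit 174) (nat_lit 5) (nat_lit 390) (nat_lit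 362) (nat_lit 148)) (XT.lf (nat_lit 0) (nat_lit 26446993148) (nat_lit 608) (nat_lit 7575252301) (nat_lit 76) (nat_lit 6639441956) (nat_lit 166) (nat_lit 5) (nat_lit 174) (nat_lit 5) (nat_lit 167) (nat_lit 5) (nat_lit 391) (nat_lit 362) (nat_lit 147)))) (XT.nd (nat_lit 78) (nat_lit 532) (nat_lit 0) (XT.lf (nat_lit 0) (nat_lit 13718518310) (nat_lit 456) (nat_lit 18153228073) (nat_lit 532) (nat_lit 9500303528) (nat_lit 160) (nat_lit 5) (nat_lit 166) (nat_lit 5) (nat_lit 167) (nat_lit 5) (nat_lit 392) (nat_lit 362) (nat_lit 146)) (XT.nd (nat_lit 78) (nat_lit 532) (nat_lit 0) (XT.lf (nat_lit 0) (nat_lit 35804386064) (nat_lit 456) (nat_lit 1729545326) (nat_lit 532) (nat_lit 4567552404) (nat_lit 160) (nat_lit 5) (nat_lit 166) (nat_lit 5) (nat_lit 167) (nat_lit 5) (nat_lit 393) (nat_lit 362) (nat_lit 145)) (XT.lf (nat_lit 0) (nat_lit 802804855) (nat_lit 532) (nat_lit 26990206143) (nat_lit 76) (nat_lit 15050653686)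 (nat_lit 153) (nat_lit 5) (nat_lit 160) (nat_lit 5) (nat_lit 154) (nat_lit 5) (nat_lit 394) (nat_lit 362) (nat_lit 144))))) (XT.nd (nat_lit 234) (nat_lit 1216) (nat_lit 0) (XT.nd (nat_lit 78) (nat_lit 456) (nat_lit 0) (XT.lf (nat_lit 0) (nat_lit 6322070437) (nat_lit 532) (nat_lit 4873575640) (nat_lit 76) (nat_lit 32408721274) (nat_lit 153) (nat_lit 5) (nat_lit 160) (nat_lit 5) (nat_lit 154) (nat_lit 5) (nat_lit 395) (nat_lit 362) (nat_lit 143)) (XT.nd (nat_lit 78) (nat_lit 0) (nat_lit 0) (XT.lf (nat_lit 0) (nat_lit 12239205161) (nat_lit 532) (nat_lit 26180185210) (nat_lit 76) (nat_lit 5961533037) (nat_lit 147) (nat_lit 5) (nat_lit 154) (nat_lit 5) (nat_lit 148) (nat_lit 5) (nat_lit 396) (nat_lit 362) (nat_lit 142)) (XT.lf (nat_lit 0) (nat_lit 18492740219) (nat_lit 532) (nat_lit 3225431507) (nat_lit 76) (nat_lit 23457838848) (nat_lit 147) (nat_lit 5) (nat_lit 154) (nat_lit 5) (nat_lit 148) (nat_lit 5) (nat_lit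 397) (nat_lit 362) (nat_lit 141)))) (XT.nd (nat_lit 156) (nat_lit 760) (nat_lit 0) (XT.nd (nat_lit 78) (nat_lit 0) (nat_lit 0) (XT.lf (nat_lit 0) (nat_lit 20822360269) (nat_lit 456) (nat_lit 4310064237) (nat_lit 532) (nat_lit 20856570539) (nat_lit 141) (nat_lit 5) (nat_lit 147) (nat_lit 5) (nat_lit 148) (nat_lit 5) (nat_lit 398) (nat_lit 362) (nat_lit 140)) (XT.lf (nat_lit 0) (nat_lit 32133530405) (nat_lit 532) (nat_lit 1300887328) (nat_lit 76) (nat_lit 13387085341) (nat_lit 141) (nat_lit 5) (nat_lit 148) (nat_lit 5) (nat_lit 142) (nat_lit 5) (nat_lit 399) (nat_lit 362) (nat_lit 139))) (XT.nd (nat_lit 78) (nat_lit 380) (nat_lit 0) (XT.lf (nat_lit 0) (nat_lit 23698712312) (nat_lit 380) (nat_lit 15914895400) (nat_lit 456) (nat_lit 8057311413) (nat_lit 136) (nat_lit 5) (nat_lit 141) (nat_lit 5) (nat_lit 142) (nat_lit 5) (nat_lit 400) (nat_lit 362) (nat_lit 138)) (XT.lf (nat_lit 0) (nat_lit 925069862) (nat_lit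 380) (nat_lit 46434134440) (nat_lit 456) (nat_lit 1185380748) (nat_lit 131) (nat_lit 5) (nat_lit 136) (nat_lit 5) (nat_lit 137) (nat_lit 5) (nat_lit 401) (nat_lit 362) (nat_lit 137)))))) (XT.nd (nat_lit 546) (nat_lit 1368) (nat_lit 0) (XT.nd (nat_lit 234) (nat_lit 760) (nat_lit 0) (XT.nd (nat_lit 78) (nat_lit 380) (nat_lit 0) (XT.lf (nat_lit 0) (nat_lit 6178253729) (nat_lit 456) (nat_lit 22595071469) (nat_lit 76) (nat_lit 20657421262) (nat_lit 130) (nat_lit 5) (nat_lit 136) (nat_lit 5) (nat_lit 131) (nat_lit 5) (nat_lit 402) (nat_lit 362) (nat_lit 136)) (XT.nd (nat_lit 78) (nat_lit 0) (nat_lit 0) (XT.lf (nat_lit 0) (nat_lit 3229514828) (nat_lit 380) (nat_lit 10539037028) (nat_lit 456) (nat_lit 36573702199) (nat_lit 125) (nat_lit 5) (nat_lit 130) (nat_lit 5) (nat_lit 131) (nat_lit 5) (nat_lit 403) (nat_lit 362) (nat_lit 135)) (XT.lf (nat_lit 0) (nat_lit 21894770094) (nat_lit 456) (nat_lit 21065630658) (nat_lit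 76) (nat_lit 8311460592) (nat_lit 125) (nat_lit 5) (nat_lit 131) (nat_lit 5) (nat_lit 126) (nat_lit 5) (nat_lit 404) (nat_lit 362) (nat_lit 134)))) (XT.nd (nat_lit 156) (nat_lit 380) (nat_lit 0) (XT.nd (nat_lit 78) (nat_lit 0) (nat_lit 0) (XT.lf (nat_lit 0) (nat_lit 5769283593) (nat_lit 380) (nat_lit 24653894463) (nat_lit 456) (nat_lit 21801427479) (nat_lit 120) (nat_lit 5) (nat_lit 125) (nat_lit 5) (nat_lit 126) (nat_lit 5) (nat_lit 405) (nat_lit 362) (nat_lit 133)) (XT.lf (nat_lit 0) (nat_lit 33839247913) (nat_lit 380) (nat_lit 5579533609) (nat_lit 456) (nat_lit 13780810985) (nat_lit 120) (nat_lit 5) (nat_lit 125) (nat_lit 5) (nat_lit 126) (nat_lit 5) (nat_lit 406) (nat_lit 362) (nat_lit 132))) (XT.nd (nat_lit 78) (nat_lit 76) (nat_lit 0) (XT.lf (nat_lit 0) (nat_lit 8577839652) (nat_lit 304) (nat_lit 40322747754) (nat_lit 380) (nat_lit 5296752388) (nat_lit 116) (nat_lit 5) (nat_lit 120) (nat_lit 5) (nat_lit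 121) (nat_lit 5) (nat_lit 407) (nat_lit 362) (nat_lit 131)) (XT.lf (nat_lit 0) (nat_lit 3626011431) (nat_lit 380) (nat_lit 17560195802) (nat_lit 76) (nat_lit 34030280030) (nat_lit 115) (nat_lit 5) (nat_lit 120) (nat_lit 5) (nat_lit 116) (nat_lit 5) (nat_lit 408) (nat_lit 362) (nat_lit 130))))) (XT.nd (nat_lit 234) (nat_lit 684) (nat_lit 0) (XT.nd (nat_lit 78) (nat_lit 304) (nat_lit 0) (XT.lf (nat_lit 0) (nat_lit 11511309214) (nat_lit 380) (nat_lit 1308047917) (nat_lit 456) (nat_lit 43441998650) (nat_lit 110) (nat_lit 5) (nat_lit 115) (nat_lit 5) (nat_lit 116) (nat_lit 5) (nat_lit 409) (nat_lit 362) (nat_lit 129)) (XT.nd (nat_lit 78) (nat_lit 304) (nat_lit 0) (XT.lf (nat_lit 0) (nat_lit 22650543255) (nat_lit 456) (nat_lit 15705099392) (nat_lit 76) (nat_lit 18971067159) (nat_lit 110) (nat_lit 5) (nat_lit 116) (nat_lit 5) (nat_lit 111) (nat_lit 5) (nat_lit 410) (nat_lit 362) (nat_lit 128)) (XT.lf (nat_lit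 0) (nat_lit 14479056054) (nat_lit 304) (nat_lit 18448499794) (nat_lit 380) (nat_lit 25491942508) (nat_lit 106) (nat_lit 5) (nat_lit 110) (nat_lit 5) (nat_lit 111) (nat_lit 5) (nat_lit 411) (nat_lit 362) (nat_lit 127)))) (XT.nd (nat_lit 156) (nat_lit 380) (nat_lit 0) (XT.nd (nat_lit 78) (nat_lit 304) (nat_lit 0) (XT.lf (nat_lit 0) (nat_lit 43691575286) (nat_lit 380) (nat_lit 13672713244) (nat_lit 76) (nat_lit 2175421752) (nat_lit 106) (nat_lit 5) (nat_lit 111) (nat_lit 5) (nat_lit 107) (nat_lit 5) (nat_lit 412) (nat_lit 362) (nat_lit 126)) (XT.lf (nat_lit 0) (nat_lit 17663372726) (nat_lit 304) (nat_lit 37466401258) (nat_lit 380) (nat_lit 5553217419) (nat_lit 102) (nat_lit 5) (nat_lit 106) (nat_lit 5) (nat_lit 107) (nat_lit 5) (nat_lit 413) (nat_lit 362) (nat_lit 125))) (XT.nd (nat_lit 78) (nat_lit 304) (nat_lit 0) (XT.lf (nat_lit 0) (nat_lit 5090243429) (nat_lit 380) (nat_lit 11688226504) (nat_lit 76) (nat_lit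 45076497613) (nat_lit 101) (nat_lit 5) (nat_lit 106) (nat_lit 5) (nat_lit 102) (nat_lit 5) (nat_lit 414) (nat_lit 362) (nat_lit 124)) (XT.lf (nat_lit 0) (nat_lit 16187562026) (nat_lit 380) (nat_lit 42165537898) (nat_lit 76) (nat_lit 4699969083) (nat_lit 97) (nat_lit 5) (nat_lit 102) (nat_lit 5) (nat_lit 98) (nat_lit 5) (nat_lit 415) (nat_lit 362) (nat_lit 123))))))))
noncomputable def xc231 : XT := (XT.nd (nat_lit 43992) (nat_lit 0) (nat_lit 3572) (XT.nd (nat_lit 42978) (nat_lit 0) (nat_lit 10260) (XT.nd (nat_lit 468) (nat_lit 532) (nat_lit 0) (XT.nd (nat_lit 234) (nat_lit 608) (nat_lit 0) (XT.nd (nat_lit 78) (nat_lit 304) (nat_lit 0) (XT.lf (nat_lit 0) (nat_lit 27901983386) (nat_lit 380) (nat_lit 9772370166) (nat_lit 76) (nat_lit 26604234992) (nat_lit 97) (nat_lit 5) (nat_lit 102) (nat_lit 5) (nat_lit 98) (nat_lit 5) (nat_lit 416) (nat_lit 362) (nat_lit 122)) (XT.nd (nat_lit 78) (nat_lit 0) (nat_lit 0)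 (XT.lf (nat_lit 0) (nat_lit 24060483687) (nat_lit 304) (nat_lit 16137533881) (nat_lit 380) (nat_lit 25335951209) (nat_lit 93) (nat_lit 5) (nat_lit 97) (nat_lit 5) (nat_lit 98) (nat_lit 5) (nat_lit 417) (nat_lit 362) (nat_lit 121)) (XT.lf (nat_lit 0) (nat_lit 53019611531) (nat_lit 380) (nat_lit 7776119791) (nat_lit 76) (nat_lit 6026579230) (nat_lit 93) (nat_lit 5) (nat_lit 98) (nat_lit 5) (nat_lit 94) (nat_lit 5) (nat_lit 418) (nat_lit 362) (nat_lit 120)))) (XT.nd (nat_lit 78) (nat_lit 380) (nat_lit 0) (XT.lf (nat_lit 0) (nat_lit 27303599943) (nat_lit 228) (nat_lit 39343429586) (nat_lit 304) (nat_lit 1489638251) (nat_lit 90) (nat_lit 5) (nat_lit 93) (nat_lit 5) (nat_lit 94) (nat_lit 5) (nat_lit 419) (nat_lit 362) (nat_lit 119)) (XT.nd (nat_lit 78) (nat_lit 304) (nat_lit 0) (XT.lf (nat_lit 0) (nat_lit 11052648025) (nat_lit 304) (nat_lit 6002942057) (nat_lit 76) (nat_lit 52429290960) (nat_lit 89) (nat_lit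 5) (nat_lit 93) (nat_lit 5) (nat_lit 90) (nat_lit 5) (nat_lit 420) (nat_lit 362) (nat_lit 118)) (XT.lf (nat_lit 0) (nat_lit 24292704099) (nat_lit 380) (nat_lit 40474123099) (nat_lit 76) (nat_lit 6095728236) (nat_lit 85) (nat_lit 5) (nat_lit 90) (nat_lit 5) (nat_lit 86) (nat_lit 5) (nat_lit 421) (nat_lit 362) (nat_lit 117))))) (XT.nd (nat_lit 234) (nat_lit 304) (nat_lit 0) (XT.nd (nat_lit 78) (nat_lit 228) (nat_lit 0) (XT.lf (nat_lit 0) (nat_lit 38159032943) (nat_lit 380) (nat_lit 4456157480) (nat_lit 76) (nat_lit 29659497934) (nat_lit 85) (nat_lit 5) (nat_lit 90) (nat_lit 5) (nat_lit 86) (nat_lit 5) (nat_lit 422) (nat_lit 362) (nat_lit 116)) (XT.nd (nat_lit 78) (nat_lit 0) (nat_lit 0) (XT.lf (nat_lit 0) (nat_lit 33290458082) (nat_lit 228) (nat_lit 19469917095) (nat_lit 304) (nat_lit 20959239802) (nat_lit 82) (nat_lit 5) (nat_lit 85) (nat_lit 5) (nat_lit 86) (nat_lit 5) (nat_lit 423) (nat_lit 362) (nat_lit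 115)) (XT.lf (nat_lit 0) (nat_lit 67886230652) (nat_lit 304) (nat_lit 2989685891) (nat_lit 76) (nat_lit 4329379073) (nat_lit 82) (nat_lit 5) (nat_lit 86) (nat_lit 5) (nat_lit 83) (nat_lit 5) (nat_lit 424) (nat_lit 362) (nat_lit 114)))) (XT.nd (nat_lit 42120) (nat_lit 0) (nat_lit 11248) (XT.nd (nat_lit 42042) (nat_lit 0) (nat_lit 11248) (XT.lf (nat_lit 0) (nat_lit 7142990199) (nat_lit 304) (nat_lit 40706583706) (nat_lit 76) (nat_lit 28867712040) (nat_lit 78) (nat_lit 5) (nat_lit 82) (nat_lit 5) (nat_lit 79) (nat_lit 5) (nat_lit 425) (nat_lit 362) (nat_lit 113)) (XT.lf (nat_lit 0) (nat_lit 5574959530) (nat_lit 0) (nat_lit 5574959530) (nat_lit 1140) (nat_lit 2011837012) (nat_lit 226) (nat_lit 5) (nat_lit 226) (nat_lit 3) (nat_lit 241) (nat_lit 3) (nat_lit 363) (nat_lit 363) (nat_lit 174))) (XT.nd (nat_lit 78) (nat_lit 0) (nat_lit 0) (XT.lf (nat_lit 0) (nat_lit 22737007745) (nat_lit 1140) (nat_lit 2845923522)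 (nat_lit 1216) (nat_lit 1132282354) (nat_lit 226) (nat_lit 5) (nat_lit 241) (nat_lit 3) (nat_lit 242) (nat_lit 5) (nat_lit 364) (nat_lit 363) (nat_lit 173)) (XT.lf (nat_lit 76) (nat_lit 9933097347) (nat_lit 0) (nat_lit 13456516766) (nat_lit 1216) (nat_lit 3722985155) (nat_lit 227) (nat_lit 5) (nat_lit 226) (nat_lit 5) (nat_lit 242) (nat_lit 5) (nat_lit 365) (nat_lit 363) (nat_lit 172)))))) (XT.nd (nat_lit 468) (nat_lit 0) (nat_lit 0) (XT.nd (nat_lit 234) (nat_lit 988) (nat_lit 0) (XT.nd (nat_lit 78) (nat_lit 0) (nat_lit 76) (XT.lf (nat_lit 76) (nat_lit 23151932203) (nat_lit 0) (nat_lit 935133495) (nat_lit 1216) (nat_lit 3434085467) (nat_lit 227) (nat_lit 5) (nat_lit 226) (nat_lit 5) (nat_lit 242) (nat_lit 5) (nat_lit 366) (nat_lit 363) (nat_lit 171)) (XT.nd (nat_lit 78) (nat_lit 0) (nat_lit 0) (XT.lf (nat_lit 76) (nat_lit 8881743776) (nat_lit 0) (nat_lit 16120703415) (nat_lit 1216) (nat_lit 2933604850)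 (nat_lit 228) (nat_lit 5) (nat_lit 227) (nat_lit 5) (nat_lit 243) (nat_lit 5) (nat_lit 367) (nat_lit 363) (nat_lit 170)) (XT.lf (nat_lit 76) (nat_lit 22608417784) (nat_lit 0) (nat_lit 3386884543) (nat_lit 1216) (nat_lit 2366599788) (nat_lit 228) (nat_lit 5) (nat_lit 227) (nat_lit 5) (nat_lit 243) (nat_lit 5) (nat_lit 368) (nat_lit 363) (nat_lit 169)))) (XT.nd (nat_lit 78) (nat_lit 1140) (nat_lit 0) (XT.lf (nat_lit 76) (nat_lit 8007097845) (nat_lit 0) (nat_lit 19178166586) (nat_lit 1216) (nat_lit 1610246083) (nat_lit 229) (nat_lit 5) (nat_lit 228) (nat_lit 5) (nat_lit 244) (nat_lit 5) (nat_lit 369) (nat_lit 363) (nat_lit 168)) (XT.nd (nat_lit 78) (nat_lit 1140) (nat_lit 0) (XT.lf (nat_lit 76) (nat_lit 22262263737) (nat_lit 0) (nat_lit 6236870217) (nat_lit 1216) (nat_lit 740349347) (nat_lit 229) (nat_lit 5) (nat_lit 228) (nat_lit 5) (nat_lit 244) (nat_lit 5) (nat_lit 370) (nat_lit 363) (nat_lit 167)) (XT.lf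 (nat_lit 0) (nat_lit 289505178) (nat_lit 1216) (nat_lit 22374579448) (nat_lit 1292) (nat_lit 7028541074) (nat_lit 213) (nat_lit 5) (nat_lit 229) (nat_lit 5) (nat_lit 230) (nat_lit 5) (nat_lit 371) (nat_lit 363) (nat_lit 166))))) (XT.nd (nat_lit 234) (nat_lit 0) (nat_lit 152) (XT.nd (nat_lit 78) (nat_lit 0) (nat_lit 76) (XT.lf (nat_lit 0) (nat_lit 1465322389) (nat_lit 1216) (nat_lit 8043891800) (nat_lit 1292) (nat_lit 20646032044) (nat_lit 213) (nat_lit 5) (nat_lit 229) (nat_lit 5) (nat_lit 230) (nat_lit 5) (nat_lit 372) (nat_lit 363) (nat_lit 165)) (XT.nd (nat_lit 78) (nat_lit 0) (nat_lit 0) (XT.lf (nat_lit 0) (nat_lit 2778871156) (nat_lit 1216) (nat_lit 23821004609) (nat_lit 1292) (nat_lit 4028798031) (nat_lit 214) (nat_lit 5) (nat_lit 230) (nat_lit 5) (nat_lit 231) (nat_lit 5) (nat_lit 373) (nat_lit 363) (nat_lit 164)) (XT.lf (nat_lit 0) (nat_lit 4305209798) (nat_lit 1216) (nat_lit 8941228273) (nat_lit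 1292) (nat_lit 17864666675) (nat_lit 214) (nat_lit 5) (nat_lit 230) (nat_lit 5) (nat_lit 231) (nat_lit 5) (nat_lit 374) (nat_lit 363) (nat_lit 163)))) (XT.nd (nat_lit 156) (nat_lit 0) (nat_lit 0) (XT.nd (nat_lit 78) (nat_lit 0) (nat_lit 0) (XT.lf (nat_lit 0) (nat_lit 5942704573) (nat_lit 1216) (nat_lit 25101760948) (nat_lit 1292) (nat_lit 561584128) (nat_lit 215) (nat_lit 5) (nat_lit 231) (nat_lit 5) (nat_lit 232) (nat_lit 5) (nat_lit 375) (nat_lit 363) (nat_lit 162)) (XT.lf (nat_lit 0) (nat_lit 7849008745) (nat_lit 1216) (nat_lit 9650806235) (nat_lit 1292) (nat_lit 14609439327) (nat_lit 215) (nat_lit 5) (nat_lit 231) (nat_lit 5) (nat_lit 232) (nat_lit 5) (nat_lit 376) (nat_lit 363) (nat_lit 161))) (XT.nd (nat_lit 78) (nat_lit 0) (nat_lit 76) (XT.lf (nat_lit 76) (nat_lit 6386274194) (nat_lit 0) (nat_lit 3485042716) (nat_lit 1292) (nat_lit 22754475636) (nat_lit 216) (nat_lit 5) (nat_lit 215) (nat_lit 5)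 (nat_lit 232) (nat_lit 5) (nat_lit 377) (nat_lit 363) (nat_lit 160)) (XT.lf (nat_lit 0) (nat_lit 12155459968) (nat_lit 1216) (nat_lit 10160913505) (nat_lit 1292) (nat_lit 10835420323) (nat_lit 216) (nat_lit 5) (nat_lit 232) (nat_lit 5) (nat_lit 233) (nat_lit 5) (nat_lit 378) (nat_lit 363) (nat_lit 159))))))) (XT.nd (nat_lit 1014) (nat_lit 3116) (nat_lit 0) (XT.nd (nat_lit 468) (nat_lit 2280) (nat_lit 0) (XT.nd (nat_lit 234) (nat_lit 608) (nat_lit 0) (XT.nd (nat_lit 78) (nat_lit 912) (nat_lit 0) (XT.lf (nat_lit 76) (nat_lit 6490166712) (nat_lit 0) (nat_lit 8112413407) (nat_lit 1292) (nat_lit 19088163160) (nat_lit 217) (nat_lit 5) (nat_lit 216) (nat_lit 5) (nat_lit 233) (nat_lit 5) (nat_lit 379) (nat_lit 363) (nat_lit 158)) (XT.nd (nat_lit 78) (nat_lit 988) (nat_lit 0) (XT.lf (nat_lit 0) (nat_lit 17287002332) (nat_lit 1216) (nat_lit 10459463825) (nat_lit 76) (nat_lit 6494480164) (nat_lit 217) (nat_lit 5)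 (nat_lit 233) (nat_lit 5) (nat_lit 218) (nat_lit 5) (nat_lit 380) (nat_lit 363) (nat_lit 157)) (XT.lf (nat_lit 0) (nat_lit 6834914638) (nat_lit 988) (nat_lit 13360749801) (nat_lit 1064) (nat_lit 14607681474) (nat_lit 204) (nat_lit 5) (nat_lit 217) (nat_lit 5) (nat_lit 218) (nat_lit 5) (nat_lit 381) (nat_lit 363) (nat_lit 156)))) (XT.nd (nat_lit 78) (nat_lit 608) (nat_lit 0) (XT.lf (nat_lit 0) (nat_lit 23309989046) (nat_lit 1064) (nat_lit 10534035485) (nat_lit 76) (nat_lit 1535042514) (nat_lit 204) (nat_lit 5) (nat_lit 218) (nat_lit 5) (nat_lit 205) (nat_lit 5) (nat_lit 382) (nat_lit 363) (nat_lit 155)) (XT.nd (nat_lit 78) (nat_lit 0) (nat_lit 0) (XT.lf (nat_lit 0) (nat_lit 7434162262) (nat_lit 608) (nat_lit 19285129125) (nat_lit 684) (nat_lit 9246723564) (nat_lit 196) (nat_lit 5) (nat_lit 204) (nat_lit 5) (nat_lit 205) (nat_lit 5) (nat_lit 383) (nat_lit 363) (nat_lit 154)) (XT.lf (nat_lit 0) (nat_lit 26155350527)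 (nat_lit 608) (nat_lit 4179741880) (nat_lit 684) (nat_lit 6232353834) (nat_lit 196) (nat_lit 5) (nat_lit 204) (nat_lit 5) (nat_lit 205) (nat_lit 5) (nat_lit 384) (nat_lit 363) (nat_lit 153))))) (XT.nd (nat_lit 234) (nat_lit 1064) (nat_lit 0) (XT.nd (nat_lit 78) (nat_lit 684) (nat_lit 0) (XT.lf (nat_lit 0) (nat_lit 8301872870) (nat_lit 532) (nat_lit 25944588050) (nat_lit 608) (nat_lit 2934848236) (nat_lit 189) (nat_lit 5) (nat_lit 196) (nat_lit 5) (nat_lit 197) (nat_lit 5) (nat_lit 385) (nat_lit 363) (nat_lit 152)) (XT.nd (nat_lit 78) (nat_lit 608) (nat_lit 0) (XT.lf (nat_lit 0) (nat_lit 598072580) (nat_lit 608) (nat_lit 10068620502) (nat_lit 76) (nat_lit 27142398256) (nat_lit 188) (nat_lit 5) (nat_lit 196) (nat_lit 5) (nat_lit 189) (nat_lit 5) (nat_lit 386) (nat_lit 363) (nat_lit 151)) (XT.lf (nat_lit 0) (nat_lit 4316840836) (nat_lit 684) (nat_lit 29041990874) (nat_lit 76) (nat_lit 5091839481) (nat_lit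 180) (nat_lit 5) (nat_lit 189) (nat_lit 5) (nat_lit 181) (nat_lit 5) (nat_lit 387) (nat_lit 363) (nat_lit 150)))) (XT.nd (nat_lit 156) (nat_lit 532) (nat_lit 0) (XT.nd (nat_lit 78) (nat_lit 532) (nat_lit 0) (XT.lf (nat_lit 0) (nat_lit 8353494110) (nat_lit 684) (nat_lit 9540374605) (nat_lit 76) (nat_lit 21211441390) (nat_lit 180) (nat_lit 5) (nat_lit 189) (nat_lit 5) (nat_lit 181) (nat_lit 5) (nat_lit 388) (nat_lit 363) (nat_lit 149)) (XT.lf (nat_lit 0) (nat_lit 10754195781) (nat_lit 532) (nat_lit 1858515609) (nat_lit 608) (nat_lit 27163834149) (nat_lit 173) (nat_lit 5) (nat_lit 180) (nat_lit 5) (nat_lit 181) (nat_lit 5) (nat_lit 389) (nat_lit 363) (nat_lit 148))) (XT.nd (nat_lit 78) (nat_lit 532) (nat_lit 0) (XT.lf (nat_lit 0) (nat_lit 17236023923) (nat_lit 608) (nat_lit 8755696126) (nat_lit 76) (nat_lit 14469109674) (nat_lit 173) (nat_lit 5) (nat_lit 181) (nat_lit 5) (nat_lit 174) (nat_lit 5) (nat_lit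 390) (nat_lit 363) (nat_lit 147)) (XT.lf (nat_lit 0) (nat_lit 12339414893) (nat_lit 532) (nat_lit 9793815813) (nat_lit 608) (nat_lit 19028357091) (nat_lit 166) (nat_lit 5) (nat_lit 173) (nat_lit 5) (nat_lit 174) (nat_lit 5) (nat_lit 391) (nat_lit 363) (nat_lit 146)))))) (XT.nd (nat_lit 546) (nat_lit 1672) (nat_lit 0) (XT.nd (nat_lit 234) (nat_lit 988) (nat_lit 0) (XT.nd (nat_lit 78) (nat_lit 456) (nat_lit 0) (XT.lf (nat_lit 0) (nat_lit 27331088815) (nat_lit 608) (nat_lit 7702922435) (nat_lit 76) (nat_lit 6844746488) (nat_lit 166) (nat_lit 5) (nat_lit 174) (nat_lit 5) (nat_lit 167) (nat_lit 5) (nat_lit 392) (nat_lit 363) (nat_lit 145)) (XT.nd (nat_lit 78) (nat_lit 0) (nat_lit 0) (XT.lf (nat_lit 0) (nat_lit 14228684947) (nat_lit 456) (nat_lit 18688206274) (nat_lit 532) (nat_lit 9693592440) (nat_lit 160) (nat_lit 5) (nat_lit 166) (nat_lit 5) (nat_lit 167) (nat_lit 5) (nat_lit 393) (nat_lit 363) (nat_lit 144))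 (XT.lf (nat_lit 0) (nat_lit 36974256566) (nat_lit 456) (nat_lit 1772093200) (nat_lit 532) (nat_lit 4615530244) (nat_lit 160) (nat_lit 5) (nat_lit 166) (nat_lit 5) (nat_lit 167) (nat_lit 5) (nat_lit 394) (nat_lit 363) (nat_lit 143)))) (XT.nd (nat_lit 156) (nat_lit 456) (nat_lit 0) (XT.nd (nat_lit 78) (nat_lit 0) (nat_lit 0) (XT.lf (nat_lit 0) (nat_lit 912689941) (nat_lit 532) (nat_lit 27700817916) (nat_lit 76) (nat_lit 15512839685) (nat_lit 153) (nat_lit 5) (nat_lit 160) (nat_lit 5) (nat_lit 154) (nat_lit 5) (nat_lit 395) (nat_lit 363) (nat_lit 142)) (XT.lf (nat_lit 0) (nat_lit 6595034435) (nat_lit 532) (nat_lit 4923574743) (nat_lit 76) (nat_lit 33391338629) (nat_lit 153) (nat_lit 5) (nat_lit 160) (nat_lit 5) (nat_lit 154) (nat_lit 5) (nat_lit 396) (nat_lit 363) (nat_lit 141))) (XT.nd (nat_lit 78) (nat_lit 0) (nat_lit 0) (XT.lf (nat_lit 0) (nat_lit 12688302193) (nat_lit 532) (nat_lit 26867951584) (nat_lit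 76) (nat_lit 6153589699) (nat_lit 147) (nat_lit 5) (nat_lit 154) (nat_lit 5) (nat_lit 148) (nat_lit 5) (nat_lit 397) (nat_lit 363) (nat_lit 140)) (XT.lf (nat_lit 0) (nat_lit 19127057258) (nat_lit 532) (nat_lit 3227399130) (nat_lit 76) (nat_lit 24174399908) (nat_lit 147) (nat_lit 5) (nat_lit 154) (nat_lit 5) (nat_lit 148) (nat_lit 5) (nat_lit 398) (nat_lit 363) (nat_lit 139))))) (XT.nd (nat_lit 234) (nat_lit 836) (nat_lit 0) (XT.nd (nat_lit 78) (nat_lit 380) (nat_lit 0) (XT.lf (nat_lit 0) (nat_lit 21540897034) (nat_lit 456) (nat_lit 4423620788) (nat_lit 532) (nat_lit 21401756319) (nat_lit 141) (nat_lit 5) (nat_lit 147) (nat_lit 5) (nat_lit 148) (nat_lit 5) (nat_lit 399) (nat_lit 363) (nat_lit 138)) (XT.nd (nat_lit 78) (nat_lit 380) (nat_lit 0) (XT.lf (nat_lit 0) (nat_lit 33173528487) (nat_lit 532) (nat_lit 1246607775) (nat_lit 76) (nat_lit 13803686374) (nat_lit 141) (nat_lit 5) (nat_lit 148) (nat_lit 5)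 (nat_lit 142) (nat_lit 5) (nat_lit 400) (nat_lit 363) (nat_lit 137)) (XT.lf (nat_lit 0) (nat_lit 24502065088) (nat_lit 380) (nat_lit 16374617784) (nat_lit 456) (nat_lit 8222079388) (nat_lit 136) (nat_lit 5) (nat_lit 141) (nat_lit 5) (nat_lit 142) (nat_lit 5) (nat_lit 401) (nat_lit 363) (nat_lit 136)))) (XT.nd (nat_lit 156) (nat_lit 380) (nat_lit 0) (XT.nd (nat_lit 78) (nat_lit 76) (nat_lit 0) (XT.lf (nat_lit 0) (nat_lit 1046400902) (nat_lit 380) (nat_lit 47807136647) (nat_lit 456) (nat_lit 1145135202) (nat_lit 131) (nat_lit 5) (nat_lit 136) (nat_lit 5) (nat_lit 137) (nat_lit 5) (nat_lit 402) (nat_lit 363) (nat_lit 135)) (XT.lf (nat_lit 0) (nat_lit 6435764158) (nat_lit 456) (nat_lit 23180593427) (nat_lit 76) (nat_lit 21295105723) (nat_lit 130) (nat_lit 5) (nat_lit 136) (nat_lit 5) (nat_lit 131) (nat_lit 5) (nat_lit 403) (nat_lit 363) (nat_lit 134))) (XT.nd (nat_lit 78) (nat_lit 0) (nat_lit 0) (XT.lf (nat_lit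 0) (nat_lit 3417825262) (nat_lit 380) (nat_lit 10834722971) (nat_lit 456) (nat_lit 37597805773) (nat_lit 125) (nat_lit 5) (nat_lit 130) (nat_lit 5) (nat_lit 131) (nat_lit 5) (nat_lit 404) (nat_lit 363) (nat_lit 133)) (XT.lf (nat_lit 0) (nat_lit 22620677990) (nat_lit 456) (nat_lit 21606924097) (nat_lit 76) (nat_lit 8580304826) (nat_lit 125) (nat_lit 5) (nat_lit 131) (nat_lit 5) (nat_lit 126) (nat_lit 5) (nat_lit 405) (nat_lit 363) (nat_lit 132))))))))
noncomputable def xc232 : XT := (XT.nd (nat_lit 44070) (nat_lit 0) (nat_lit 5396) (XT.nd (nat_lit 1014) (nat_lit 836) (nat_lit 0) (XT.nd (nat_lit 468) (nat_lit 1292) (nat_lit 0) (XT.nd (nat_lit 234) (nat_lit 456) (nat_lit 0) (XT.nd (nat_lit 78) (nat_lit 304) (nat_lit 0) (XT.lf (nat_lit 0) (nat_lit 6032148606) (nat_lit 380) (nat_lit 25371641071) (nat_lit 456) (nat_lit 22385479324) (nat_lit 120) (nat_lit 5) (nat_lit 125) (nat_lit 5) (nat_lit 126) (nat_lit 5)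 (nat_lit 406) (nat_lit 363) (nat_lit 131)) (XT.nd (nat_lit 78) (nat_lit 304) (nat_lit 0) (XT.lf (nat_lit 0) (nat_lit 34941596715) (nat_lit 380) (nat_lit 5725686389) (nat_lit 456) (nat_lit 14126282908) (nat_lit 120) (nat_lit 5) (nat_lit 125) (nat_lit 5) (nat_lit 126) (nat_lit 5) (nat_lit 407) (nat_lit 363) (nat_lit 130)) (XT.lf (nat_lit 0) (nat_lit 8923284003) (nat_lit 304) (nat_lit 41509383754) (nat_lit 380) (nat_lit 5388605274) (nat_lit 116) (nat_lit 5) (nat_lit 120) (nat_lit 5) (nat_lit 121) (nat_lit 5) (nat_lit 408) (nat_lit 363) (nat_lit 129)))) (XT.nd (nat_lit 78) (nat_lit 380) (nat_lit 0) (XT.lf (nat_lit 0) (nat_lit 3798618283) (nat_lit 380) (nat_lit 18000155467) (nat_lit 76) (nat_lit 35072260274) (nat_lit 115) (nat_lit 5) (nat_lit 120) (nat_lit 5) (nat_lit 116) (nat_lit 5) (nat_lit 409) (nat_lit 363) (nat_lit 128)) (XT.nd (nat_lit 78) (nat_lit 0) (nat_lit 0) (XT.lf (nat_lit 0) (nat_lit 11942643266)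 (nat_lit 380) (nat_lit 1324088699) (nat_lit 456) (nat_lit 44680548568) (nat_lit 110) (nat_lit 5) (nat_lit 115) (nat_lit 5) (nat_lit 116) (nat_lit 5) (nat_lit 410) (nat_lit 363) (nat_lit 127)) (XT.lf (nat_lit 0) (nat_lit 23391241240) (nat_lit 456) (nat_lit 16091118705) (nat_lit 76) (nat_lit 19562284540) (nat_lit 110) (nat_lit 5) (nat_lit 116) (nat_lit 5) (nat_lit 111) (nat_lit 5) (nat_lit 411) (nat_lit 363) (nat_lit 126))))) (XT.nd (nat_lit 234) (nat_lit 684) (nat_lit 0) (XT.nd (nat_lit 78) (nat_lit 304) (nat_lit 0) (XT.lf (nat_lit 0) (nat_lit 14997726760) (nat_lit 304) (nat_lit 18977865793) (nat_lit 380) (nat_lit 26194654196) (nat_lit 106) (nat_lit 5) (nat_lit 110) (nat_lit 5) (nat_lit 111) (nat_lit 5) (nat_lit 412) (nat_lit 363) (nat_lit 125)) (XT.nd (nat_lit 78) (nat_lit 304) (nat_lit 0) (XT.lf (nat_lit 0) (nat_lit 45061003698) (nat_lit 380) (nat_lit 13999492677) (nat_lit 76) (nat_lit 2263615406) (nat_lit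 106) (nat_lit 5) (nat_lit 111) (nat_lit 5) (nat_lit 107) (nat_lit 5) (nat_lit 413) (nat_lit 363) (nat_lit 124)) (XT.lf (nat_lit 0) (nat_lit 18275858206) (nat_lit 304) (nat_lit 38565574842) (nat_lit 380) (nat_lit 5660286602) (nat_lit 102) (nat_lit 5) (nat_lit 106) (nat_lit 5) (nat_lit 107) (nat_lit 5) (nat_lit 414) (nat_lit 363) (nat_lit 123)))) (XT.nd (nat_lit 156) (nat_lit 304) (nat_lit 0) (XT.nd (nat_lit 78) (nat_lit 304) (nat_lit 0) (XT.lf (nat_lit 0) (nat_lit 5299616505) (nat_lit 380) (nat_lit 11957539727) (nat_lit 76) (nat_lit 46451733485) (nat_lit 101) (nat_lit 5) (nat_lit 106) (nat_lit 5) (nat_lit 102) (nat_lit 5) (nat_lit 415) (nat_lit 363) (nat_lit 122)) (XT.lf (nat_lit 0) (nat_lit 16729216244) (nat_lit 380) (nat_lit 43348505947) (nat_lit 76) (nat_lit 4865231966) (nat_lit 97) (nat_lit 5) (nat_lit 102) (nat_lit 5) (nat_lit 98) (nat_lit 5) (nat_lit 416) (nat_lit 363) (nat_lit 121))) (XT.nd (nat_lit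 78) (nat_lit 304) (nat_lit 0) (XT.lf (nat_lit 0) (nat_lit 28793438380) (nat_lit 380) (nat_lit 9985931478) (nat_lit 76) (nat_lit 27425919139) (nat_lit 97) (nat_lit 5) (nat_lit 102) (nat_lit 5) (nat_lit 98) (nat_lit 5) (nat_lit 417) (nat_lit 363) (nat_lit 120)) (XT.lf (nat_lit 0) (nat_lit 24861127503) (nat_lit 304) (nat_lit 16596399506) (nat_lit 380) (nat_lit 26040829163) (nat_lit 93) (nat_lit 5) (nat_lit 97) (nat_lit 5) (nat_lit 98) (nat_lit 5) (nat_lit 418) (nat_lit 363) (nat_lit 119)))))) (XT.nd (nat_lit 468) (nat_lit 0) (nat_lit 0) (XT.nd (nat_lit 234) (nat_lit 532) (nat_lit 0) (XT.nd (nat_lit 78) (nat_lit 304) (nat_lit 0) (XT.lf (nat_lit 0) (nat_lit 54662444277) (nat_lit 380) (nat_lit 7931521681) (nat_lit 76) (nat_lit 6231422695) (nat_lit 93) (nat_lit 5) (nat_lit 98) (nat_lit 5) (nat_lit 94) (nat_lit 5) (nat_lit 419) (nat_lit 363) (nat_lit 118)) (XT.nd (nat_lit 78) (nat_lit 76) (nat_lit 0) (XT.lf (nat_lit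 0) (nat_lit 28199826099) (nat_lit 228) (nat_lit 40498078341) (nat_lit 304) (nat_lit 1481296264) (nat_lit 90) (nat_lit 5) (nat_lit 93) (nat_lit 5) (nat_lit 94) (nat_lit 5) (nat_lit 420) (nat_lit 363) (nat_lit 117)) (XT.lf (nat_lit 0) (nat_lit 11434709316) (nat_lit 304) (nat_lit 6107131775) (nat_lit 76) (nat_lit 54026050069) (nat_lit 89) (nat_lit 5) (nat_lit 93) (nat_lit 5) (nat_lit 90) (nat_lit 5) (nat_lit 421) (nat_lit 363) (nat_lit 116)))) (XT.nd (nat_lit 78) (nat_lit 228) (nat_lit 0) (XT.lf (nat_lit 0) (nat_lit 25071463516) (nat_lit 380) (nat_lit 41611923470) (nat_lit 76) (nat_lit 6303524542) (nat_lit 85) (nat_lit 5) (nat_lit 90) (nat_lit 5) (nat_lit 86) (nat_lit 5) (nat_lit 422) (nat_lit 363) (nat_lit 115)) (XT.nd (nat_lit 78) (nat_lit 228) (nat_lit 0) (XT.lf (nat_lit 0) (nat_lit 39352326546) (nat_lit 380) (nat_lit 4515644804) (nat_lit 76) (nat_lit 30573481375) (nat_lit 85) (nat_lit 5) (nat_lit 90)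 (nat_lit 5) (nat_lit 86) (nat_lit 5) (nat_lit 423) (nat_lit 363) (nat_lit 114)) (XT.lf (nat_lit 0) (nat_lit 34362641799) (nat_lit 228) (nat_lit 20028360207) (nat_lit 304) (nat_lit 21538746952) (nat_lit 82) (nat_lit 5) (nat_lit 85) (nat_lit 5) (nat_lit 86) (nat_lit 5) (nat_lit 424) (nat_lit 363) (nat_lit 113))))) (XT.nd (nat_lit 42276) (nat_lit 0) (nat_lit 10944) (XT.nd (nat_lit 42120) (nat_lit 0) (nat_lit 10944) (XT.lf (nat_lit 0) (nat_lit 69969479881) (nat_lit 304) (nat_lit 3006873712) (nat_lit 76) (nat_lit 4483681602) (nat_lit 82) (nat_lit 5) (nat_lit 86) (nat_lit 5) (nat_lit 83) (nat_lit 5) (nat_lit 425) (nat_lit 363) (nat_lit 112)) (XT.nd (nat_lit 78) (nat_lit 0) (nat_lit 0) (XT.lf (nat_lit 0) (nat_lit 5787553819) (nat_lit 0) (nat_lit 5787553819) (nat_lit 1140) (nat_lit 1978710025) (nat_lit 226) (nat_lit 5) (nat_lit 226) (nat_lit 3) (nat_lit 241) (nat_lit 3) (nat_lit 364) (nat_lit 364) (nat_lit 172))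 (XT.lf (nat_lit 0) (nat_lit 23594370636) (nat_lit 1140) (nat_lit 2836985730) (nat_lit 1216) (nat_lit 1079919466) (nat_lit 226) (nat_lit 5) (nat_lit 241) (nat_lit 3) (nat_lit 242) (nat_lit 5) (nat_lit 365) (nat_lit 364) (nat_lit 171)))) (XT.nd (nat_lit 156) (nat_lit 0) (nat_lit 76) (XT.nd (nat_lit 78) (nat_lit 0) (nat_lit 0) (XT.lf (nat_lit 76) (nat_lit 10324481104) (nat_lit 0) (nat_lit 13937867375) (nat_lit 1216) (nat_lit 3658364750) (nat_lit 227) (nat_lit 5) (nat_lit 226) (nat_lit 5) (nat_lit 242) (nat_lit 5) (nat_lit 366) (nat_lit 364) (nat_lit 170)) (XT.lf (nat_lit 76) (nat_lit 23937160884) (nat_lit 0) (nat_lit 1038580806) (nat_lit 1216) (nat_lit 3365933313) (nat_lit 227) (nat_lit 5) (nat_lit 226) (nat_lit 5) (nat_lit 242) (nat_lit 5) (nat_lit 367) (nat_lit 364) (nat_lit 169))) (XT.nd (nat_lit 78) (nat_lit 0) (nat_lit 0) (XT.lf (nat_lit 76) (nat_lit 9243756089) (nat_lit 0) (nat_lit 16670206686) (nat_lit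 1216) (nat_lit 2855202537) (nat_lit 228) (nat_lit 5) (nat_lit 227) (nat_lit 5) (nat_lit 243) (nat_lit 5) (nat_lit 368) (nat_lit 364) (nat_lit 168)) (XT.lf (nat_lit 76) (nat_lit 23379447017) (nat_lit 0) (nat_lit 3552454349) (nat_lit 1216) (nat_lit 2276034229) (nat_lit 228) (nat_lit 5) (nat_lit 227) (nat_lit 5) (nat_lit 243) (nat_lit 5) (nat_lit 369) (nat_lit 364) (nat_lit 167))))))) (XT.nd (nat_lit 1014) (nat_lit 3876) (nat_lit 0) (XT.nd (nat_lit 468) (nat_lit 684) (nat_lit 0) (XT.nd (nat_lit 234) (nat_lit 0) (nat_lit 0) (XT.nd (nat_lit 78) (nat_lit 1140) (nat_lit 0) (XT.lf (nat_lit 76) (nat_lit 8344563024) (nat_lit 0) (nat_lit 19808771970) (nat_lit 1216) (nat_lit 1501347609) (nat_lit 229) (nat_lit 5) (nat_lit 228) (nat_lit 5) (nat_lit 244) (nat_lit 5) (nat_lit 370) (nat_lit 364) (nat_lit 166)) (XT.nd (nat_lit 78) (nat_lit 1140) (nat_lit 0) (XT.lf (nat_lit 76) (nat_lit 23024551303) (nat_lit 0) (nat_lit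 6477627185) (nat_lit 1216) (nat_lit 609932781) (nat_lit 229) (nat_lit 5) (nat_lit 228) (nat_lit 5) (nat_lit 244) (nat_lit 5) (nat_lit 371) (nat_lit 364) (nat_lit 165)) (XT.lf (nat_lit 0) (nat_lit 443931091) (nat_lit 1216) (nat_lit 22944291957) (nat_lit 1292) (nat_lit 7190701352) (nat_lit 213) (nat_lit 5) (nat_lit 229) (nat_lit 5) (nat_lit 230) (nat_lit 5) (nat_lit 372) (nat_lit 364) (nat_lit 164)))) (XT.nd (nat_lit 78) (nat_lit 0) (nat_lit 76) (XT.lf (nat_lit 0) (nat_lit 1650777941) (nat_lit 1216) (nat_lit 8186640716) (nat_lit 1292) (nat_lit 21218135380) (nat_lit 213) (nat_lit 5) (nat_lit 229) (nat_lit 5) (nat_lit 230) (nat_lit 5) (nat_lit 373) (nat_lit 364) (nat_lit 163)) (XT.nd (nat_lit 78) (nat_lit 0) (nat_lit 0) (XT.lf (nat_lit 0) (nat_lit 3000158795) (nat_lit 1216) (nat_lit 24433390875) (nat_lit 1292) (nat_lit 4109745038) (nat_lit 214) (nat_lit 5) (nat_lit 230) (nat_lit 5) (nat_lit 231) (nat_lit 5)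 (nat_lit 374) (nat_lit 364) (nat_lit 162)) (XT.lf (nat_lit 0) (nat_lit 4568270465) (nat_lit 1216) (nat_lit 9110199226) (nat_lit 1292) (nat_lit 18361852370) (nat_lit 214) (nat_lit 5) (nat_lit 230) (nat_lit 5) (nat_lit 231) (nat_lit 5) (nat_lit 375) (nat_lit 364) (nat_lit 161))))) (XT.nd (nat_lit 234) (nat_lit 836) (nat_lit 0) (XT.nd (nat_lit 78) (nat_lit 0) (nat_lit 0) (XT.lf (nat_lit 0) (nat_lit 6251620892) (nat_lit 1216) (nat_lit 25752182868) (nat_lit 1292) (nat_lit 546412501) (nat_lit 215) (nat_lit 5) (nat_lit 231) (nat_lit 5) (nat_lit 232) (nat_lit 5) (nat_lit 376) (nat_lit 364) (nat_lit 160)) (XT.nd (nat_lit 78) (nat_lit 0) (nat_lit 0) (XT.lf (nat_lit 0) (nat_lit 8211309281) (nat_lit 1216) (nat_lit 9840688763) (nat_lit 1292) (nat_lit 15016635953) (nat_lit 215) (nat_lit 5) (nat_lit 231) (nat_lit 5) (nat_lit 232) (nat_lit 5) (nat_lit 377) (nat_lit 364) (nat_lit 159)) (XT.lf (nat_lit 76) (nat_lit 6676527200)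 (nat_lit 0) (nat_lit 3615013832) (nat_lit 1292) (nat_lit 23309212431) (nat_lit 216) (nat_lit 5) (nat_lit 215) (nat_lit 5) (nat_lit 232) (nat_lit 5) (nat_lit 378) (nat_lit 364) (nat_lit 158)))) (XT.nd (nat_lit 156) (nat_lit 912) (nat_lit 0) (XT.nd (nat_lit 78) (nat_lit 0) (nat_lit 0) (XT.lf (nat_lit 0) (nat_lit 12640357033) (nat_lit 1216) (nat_lit 10366010822) (nat_lit 1292) (nat_lit 11136285067) (nat_lit 216) (nat_lit 5) (nat_lit 232) (nat_lit 5) (nat_lit 233) (nat_lit 5) (nat_lit 379) (nat_lit 364) (nat_lit 157)) (XT.lf (nat_lit 76) (nat_lit 6783624055) (nat_lit 0) (nat_lit 8374714061) (nat_lit 1292) (nat_lit 19539511907) (nat_lit 217) (nat_lit 5) (nat_lit 216) (nat_lit 5) (nat_lit 233) (nat_lit 5) (nat_lit 380) (nat_lit 364) (nat_lit 156))) (XT.nd (nat_lit 78) (nat_lit 988) (nat_lit 0) (XT.lf (nat_lit 0) (nat_lit 17919688755) (nat_lit 1216) (nat_lit 10673684782) (nat_lit 76) (nat_lit 6671296226) (nat_lit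 217) (nat_lit 5) (nat_lit 233) (nat_lit 5) (nat_lit 218) (nat_lit 5) (nat_lit 381) (nat_lit 364) (nat_lit 155)) (XT.lf (nat_lit 0) (nat_lit 7138548927) (nat_lit 988) (nat_lit 13774686864) (nat_lit 1064) (nat_lit 14930779209) (nat_lit 204) (nat_lit 5) (nat_lit 217) (nat_lit 5) (nat_lit 218) (nat_lit 5) (nat_lit 382) (nat_lit 364) (nat_lit 154)))))) (XT.nd (nat_lit 546) (nat_lit 2052) (nat_lit 0) (XT.nd (nat_lit 234) (nat_lit 1216) (nat_lit 0) (XT.nd (nat_lit 78) (nat_lit 608) (nat_lit 0) (XT.lf (nat_lit 0) (nat_lit 24117614302) (nat_lit 1064) (nat_lit 10750887417) (nat_lit 76) (nat_lit 1568609658) (nat_lit 204) (nat_lit 5) (nat_lit 218) (nat_lit 5) (nat_lit 205) (nat_lit 5) (nat_lit 383) (nat_lit 364) (nat_lit 153)) (XT.nd (nat_lit 78) (nat_lit 0) (nat_lit 0) (XT.lf (nat_lit 0) (nat_lit 7755384017) (nat_lit 608) (nat_lit 19871600511) (nat_lit 684) (nat_lit 9414751797) (nat_lit 196) (nat_lit 5) (nat_lit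 204) (nat_lit 5) (nat_lit 205) (nat_lit 5) (nat_lit 384) (nat_lit 364) (nat_lit 152)) (XT.lf (nat_lit 0) (nat_lit 27035347826) (nat_lit 608) (nat_lit 4312821043) (nat_lit 684) (nat_lit 6313136610) (nat_lit 196) (nat_lit 5) (nat_lit 204) (nat_lit 5) (nat_lit 205) (nat_lit 5) (nat_lit 385) (nat_lit 364) (nat_lit 151)))) (XT.nd (nat_lit 156) (nat_lit 608) (nat_lit 0) (XT.nd (nat_lit 78) (nat_lit 76) (nat_lit 0) (XT.lf (nat_lit 0) (nat_lit 8648537461) (nat_lit 532) (nat_lit 26726206819) (nat_lit 608) (nat_lit 2918906166) (nat_lit 189) (nat_lit 5) (nat_lit 196) (nat_lit 5) (nat_lit 197) (nat_lit 5) (nat_lit 386) (nat_lit 364) (nat_lit 150)) (XT.lf (nat_lit 0) (nat_lit 715003444) (nat_lit 608) (nat_lit 10273876400) (nat_lit 76) (nat_lit 27951447367) (nat_lit 188) (nat_lit 5) (nat_lit 196) (nat_lit 5) (nat_lit 189) (nat_lit 5) (nat_lit 387) (nat_lit 364) (nat_lit 149))) (XT.nd (nat_lit 78) (nat_lit 0) (nat_lit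 0) (XT.lf (nat_lit 0) (nat_lit 4543361708) (nat_lit 684) (nat_lit 29814409593) (nat_lit 76) (nat_lit 5243444307) (nat_lit 180) (nat_lit 5) (nat_lit 189) (nat_lit 5) (nat_lit 181) (nat_lit 5) (nat_lit 388) (nat_lit 364) (nat_lit 148)) (XT.lf (nat_lit 0) (nat_lit 8698288881) (nat_lit 684) (nat_lit 9730623700) (nat_lit 76) (nat_lit 21846667778) (nat_lit 180) (nat_lit 5) (nat_lit 189) (nat_lit 5) (nat_lit 181) (nat_lit 5) (nat_lit 389) (nat_lit 364) (nat_lit 147))))) (XT.nd (nat_lit 234) (nat_lit 988) (nat_lit 0) (XT.nd (nat_lit 78) (nat_lit 532) (nat_lit 0) (XT.lf (nat_lit 0) (nat_lit 11171842992) (nat_lit 532) (nat_lit 1911609695) (nat_lit 608) (nat_lit 27883556915) (nat_lit 173) (nat_lit 5) (nat_lit 180) (nat_lit 5) (nat_lit 181) (nat_lit 5) (nat_lit 390) (nat_lit 364) (nat_lit 146)) (XT.nd (nat_lit 78) (nat_lit 532) (nat_lit 0) (XT.lf (nat_lit 0) (nat_lit 17842799337) (nat_lit 608) (nat_lit 8923388313)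 (nat_lit 76) (nat_lit 14905716411) (nat_lit 173) (nat_lit 5) (nat_lit 181) (nat_lit 5) (nat_lit 174) (nat_lit 5) (nat_lit 391) (nat_lit 364) (nat_lit 145)) (XT.lf (nat_lit 0) (nat_lit 12803644873) (nat_lit 532) (nat_lit 10081569027) (nat_lit 608) (nat_lit 19508523969) (nat_lit 166) (nat_lit 5) (nat_lit 173) (nat_lit 5) (nat_lit 174) (nat_lit 5) (nat_lit 392) (nat_lit 364) (nat_lit 144)))) (XT.nd (nat_lit 156) (nat_lit 532) (nat_lit 0) (XT.nd (nat_lit 78) (nat_lit 456) (nat_lit 0) (XT.lf (nat_lit 0) (nat_lit 28236501612) (nat_lit 608) (nat_lit 7840139399) (nat_lit 76) (nat_lit 7055858769) (nat_lit 166) (nat_lit 5) (nat_lit 174) (nat_lit 5) (nat_lit 167) (nat_lit 5) (nat_lit 393) (nat_lit 364) (nat_lit 143)) (XT.lf (nat_lit 0) (nat_lit 14748495904) (nat_lit 456) (nat_lit 19239785971) (nat_lit 532) (nat_lit 9897945133) (nat_lit 160) (nat_lit 5) (nat_lit 166) (nat_lit 5) (nat_lit 167) (nat_lit 5) (nat_lit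 394) (nat_lit 364) (nat_lit 142))) (XT.nd (nat_lit 78) (nat_lit 532) (nat_lit 0) (XT.lf (nat_lit 0) (nat_lit 38173727378) (nat_lit 456) (nat_lit 1816453577) (nat_lit 532) (nat_lit 4670059181) (nat_lit 160) (nat_lit 5) (nat_lit 166) (nat_lit 5) (nat_lit 167) (nat_lit 5) (nat_lit 395) (nat_lit 364) (nat_lit 141)) (XT.lf (nat_lit 0) (nat_lit 1020946255) (nat_lit 532) (nat_lit 28438436466) (nat_lit 76) (nat_lit 15988278970) (nat_lit 153) (nat_lit 5) (nat_lit 160) (nat_lit 5) (nat_lit 154) (nat_lit 5) (nat_lit 396) (nat_lit 364) (nat_lit 140))))))))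
noncomputable def xc233 : XT := (XT.nd (nat_lit 2028) (nat_lit 304) (nat_lit 0) (XT.nd (nat_lit 1014) (nat_lit 2052) (nat_lit 0) (XT.nd (nat_lit 468) (nat_lit 1520) (nat_lit 0) (XT.nd (nat_lit 234) (nat_lit 836) (nat_lit 0) (XT.nd (nat_lit 78) (nat_lit 456) (nat_lit 0) (XT.lf (nat_lit 0) (nat_lit 6871405483) (nat_lit 532) (nat_lit 4980596560) (nat_lit 76) (nat_lit 34402840045) (nat_lit 153) (nat_lit 5) (nat_lit 160) (nat_lit 5) (nat_lit 154) (nat_lit 5) (nat_lit 397) (nat_lit 364) (nat_lit 139)) (XT.nd (nat_lit 78) (nat_lit 0) (nat_lit 0) (XT.lf (nat_lit 0) (nat_lit 13146169542) (nat_lit 532) (nat_lit 27581955837) (nat_lit 76) (nat_lit 6350649714) (nat_lit 147) (nat_lit 5) (nat_lit 154) (nat_lit 5) (nat_lit 148) (nat_lit 5) (nat_lit 398) (nat_lit 364) (nat_lit 138)) (XT.lf (nat_lit 0) (nat_lit 19775838182) (nat_lit 532) (nat_lit 3234867420) (nat_lit 76) (nat_lit 24911721540) (nat_lit 147) (nat_lit 5) (nat_lit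 154) (nat_lit 5) (nat_lit 148) (nat_lit 5) (nat_lit 399) (nat_lit 364) (nat_lit 137)))) (XT.nd (nat_lit 78) (nat_lit 380) (nat_lit 0) (XT.lf (nat_lit 0) (nat_lit 22275601612) (nat_lit 456) (nat_lit 4541487884) (nat_lit 532) (nat_lit 21967919353) (nat_lit 141) (nat_lit 5) (nat_lit 147) (nat_lit 5) (nat_lit 148) (nat_lit 5) (nat_lit 400) (nat_lit 364) (nat_lit 136)) (XT.nd (nat_lit 78) (nat_lit 380) (nat_lit 0) (XT.lf (nat_lit 0) (nat_lit 34240364250) (nat_lit 532) (nat_lit 1196055991) (nat_lit 76) (nat_lit 14231925039) (nat_lit 141) (nat_lit 5) (nat_lit 148) (nat_lit 5) (nat_lit 142) (nat_lit 5) (nat_lit 401) (nat_lit 364) (nat_lit 135)) (XT.lf (nat_lit 0) (nat_lit 25324214803) (nat_lit 380) (nat_lit 16849149296) (nat_lit 456) (nat_lit 8396207725) (nat_lit 136) (nat_lit 5) (nat_lit 141) (nat_lit 5) (nat_lit 142) (nat_lit 5) (nat_lit 402) (nat_lit 364) (nat_lit 134))))) (XT.nd (nat_lit 234) (nat_lit 684)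 (nat_lit 0) (XT.nd (nat_lit 78) (nat_lit 456) (nat_lit 0) (XT.lf (nat_lit 0) (nat_lit 1166000058) (nat_lit 380) (nat_lit 49222478255) (nat_lit 456) (nat_lit 1108033920) (nat_lit 131) (nat_lit 5) (nat_lit 136) (nat_lit 5) (nat_lit 137) (nat_lit 5) (nat_lit 403) (nat_lit 364) (nat_lit 133)) (XT.nd (nat_lit 78) (nat_lit 380) (nat_lit 0) (XT.lf (nat_lit 0) (nat_lit 6696857459) (nat_lit 456) (nat_lit 23788981173) (nat_lit 76) (nat_lit 21950889635) (nat_lit 130) (nat_lit 5) (nat_lit 136) (nat_lit 5) (nat_lit 131) (nat_lit 5) (nat_lit 404) (nat_lit 364) (nat_lit 132)) (XT.lf (nat_lit 0) (nat_lit 3606536840) (nat_lit 380) (nat_lit 11140455424) (nat_lit 456) (nat_lit 38656829122) (nat_lit 125) (nat_lit 5) (nat_lit 130) (nat_lit 5) (nat_lit 131) (nat_lit 5) (nat_lit 405) (nat_lit 364) (nat_lit 131)))) (XT.nd (nat_lit 156) (nat_lit 304) (nat_lit 0) (XT.nd (nat_lit 78) (nat_lit 380) (nat_lit 0) (XT.lf (nat_lit 0)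 (nat_lit 23364398520) (nat_lit 456) (nat_lit 22169661484) (nat_lit 76) (nat_lit 8856094984) (nat_lit 125) (nat_lit 5) (nat_lit 131) (nat_lit 5) (nat_lit 126) (nat_lit 5) (nat_lit 406) (nat_lit 364) (nat_lit 130)) (XT.lf (nat_lit 0) (nat_lit 6297745456) (nat_lit 380) (nat_lit 26112175519) (nat_lit 456) (nat_lit 22991070493) (nat_lit 120) (nat_lit 5) (nat_lit 125) (nat_lit 5) (nat_lit 126) (nat_lit 5) (nat_lit 407) (nat_lit 364) (nat_lit 129))) (XT.nd (nat_lit 78) (nat_lit 304) (nat_lit 0) (XT.lf (nat_lit 0) (nat_lit 36072011987) (nat_lit 380) (nat_lit 5877442626) (nat_lit 456) (nat_lit 14486019734) (nat_lit 120) (nat_lit 5) (nat_lit 125) (nat_lit 5) (nat_lit 126) (nat_lit 5) (nat_lit 408) (nat_lit 364) (nat_lit 128)) (XT.lf (nat_lit 0) (nat_lit 9274033857) (nat_lit 304) (nat_lit 42732941794) (nat_lit 380) (nat_lit 5487062673) (nat_lit 116) (nat_lit 5) (nat_lit 120) (nat_lit 5) (nat_lit 121) (nat_lit 5)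 (nat_lit 409) (nat_lit 364) (nat_lit 127)))))) (XT.nd (nat_lit 468) (nat_lit 988) (nat_lit 0) (XT.nd (nat_lit 234) (nat_lit 608) (nat_lit 0) (XT.nd (nat_lit 78) (nat_lit 380) (nat_lit 0) (XT.lf (nat_lit 0) (nat_lit 3972739438) (nat_lit 380) (nat_lit 18458299250) (nat_lit 76) (nat_lit 36144290315) (nat_lit 115) (nat_lit 5) (nat_lit 120) (nat_lit 5) (nat_lit 116) (nat_lit 5) (nat_lit 410) (nat_lit 364) (nat_lit 126)) (XT.nd (nat_lit 78) (nat_lit 0) (nat_lit 0) (XT.lf (nat_lit 0) (nat_lit 12381980887) (nat_lit 380) (nat_lit 1341942516) (nat_lit 456) (nat_lit 45959969605) (nat_lit 110) (nat_lit 5) (nat_lit 115) (nat_lit 5) (nat_lit 116) (nat_lit 5) (nat_lit 411) (nat_lit 364) (nat_lit 125)) (XT.lf (nat_lit 0) (nat_lit 24150648085) (nat_lit 456) (nat_lit 16493605618) (nat_lit 76) (nat_lit 20169970653) (nat_lit 110) (nat_lit 5) (nat_lit 116) (nat_lit 5) (nat_lit 111) (nat_lit 5) (nat_lit 412) (nat_lit 364) (nat_lit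 124)))) (XT.nd (nat_lit 78) (nat_lit 304) (nat_lit 0) (XT.lf (nat_lit 0) (nat_lit 15527118479) (nat_lit 304) (nat_lit 19524495579) (nat_lit 380) (nat_lit 26922008962) (nat_lit 106) (nat_lit 5) (nat_lit 110) (nat_lit 5) (nat_lit 111) (nat_lit 5) (nat_lit 413) (nat_lit 364) (nat_lit 123)) (XT.nd (nat_lit 78) (nat_lit 304) (nat_lit 0) (XT.lf (nat_lit 0) (nat_lit 46468146425) (nat_lit 380) (nat_lit 14340863107) (nat_lit 76) (nat_lit 2353138536) (nat_lit 106) (nat_lit 5) (nat_lit 111) (nat_lit 5) (nat_lit 107) (nat_lit 5) (nat_lit 414) (nat_lit 364) (nat_lit 122)) (XT.lf (nat_lit 0) (nat_lit 18901977574) (nat_lit 304) (nat_lit 39699148314) (nat_lit 380) (nat_lit 5773984974) (nat_lit 102) (nat_lit 5) (nat_lit 106) (nat_lit 5) (nat_lit 107) (nat_lit 5) (nat_lit 415) (nat_lit 364) (nat_lit 121))))) (XT.nd (nat_lit 234) (nat_lit 608) (nat_lit 0) (XT.nd (nat_lit 78) (nat_lit 304) (nat_lit 0) (XT.lf (nat_lit 0) (nat_lit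 5512017926) (nat_lit 380) (nat_lit 12239601226) (nat_lit 76) (nat_lit 47866909530) (nat_lit 101) (nat_lit 5) (nat_lit 106) (nat_lit 5) (nat_lit 102) (nat_lit 5) (nat_lit 416) (nat_lit 364) (nat_lit 120)) (XT.nd (nat_lit 78) (nat_lit 0) (nat_lit 0) (XT.lf (nat_lit 0) (nat_lit 17283903889) (nat_lit 380) (nat_lit 44571670064) (nat_lit 76) (nat_lit 5034059893) (nat_lit 97) (nat_lit 5) (nat_lit 102) (nat_lit 5) (nat_lit 98) (nat_lit 5) (nat_lit 417) (nat_lit 364) (nat_lit 119)) (XT.lf (nat_lit 0) (nat_lit 29708514501) (nat_lit 380) (nat_lit 10210469556) (nat_lit 76) (nat_lit 28270901536) (nat_lit 97) (nat_lit 5) (nat_lit 102) (nat_lit 5) (nat_lit 98) (nat_lit 5) (nat_lit 418) (nat_lit 364) (nat_lit 118)))) (XT.nd (nat_lit 156) (nat_lit 304) (nat_lit 0) (XT.nd (nat_lit 78) (nat_lit 0) (nat_lit 0) (XT.lf (nat_lit 0) (nat_lit 25681265509) (nat_lit 304) (nat_lit 17070481149) (nat_lit 380) (nat_lit 26770022195)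 (nat_lit 93) (nat_lit 5) (nat_lit 97) (nat_lit 5) (nat_lit 98) (nat_lit 5) (nat_lit 419) (nat_lit 364) (nat_lit 117)) (XT.lf (nat_lit 0) (nat_lit 56351562963) (nat_lit 380) (nat_lit 8096056355) (nat_lit 76) (nat_lit 6441031120) (nat_lit 93) (nat_lit 5) (nat_lit 98) (nat_lit 5) (nat_lit 94) (nat_lit 5) (nat_lit 420) (nat_lit 364) (nat_lit 116))) (XT.nd (nat_lit 78) (nat_lit 76) (nat_lit 0) (XT.lf (nat_lit 0) (nat_lit 29118512143) (nat_lit 228) (nat_lit 41688839210) (nat_lit 304) (nat_lit 1475748221) (nat_lit 90) (nat_lit 5) (nat_lit 93) (nat_lit 5) (nat_lit 94) (nat_lit 5) (nat_lit 421) (nat_lit 364) (nat_lit 115)) (XT.lf (nat_lit 0) (nat_lit 11825334582) (nat_lit 304) (nat_lit 6218804071) (nat_lit 76) (nat_lit 55669341120) (nat_lit 89) (nat_lit 5) (nat_lit 93) (nat_lit 5) (nat_lit 90) (nat_lit 5) (nat_lit 422) (nat_lit 364) (nat_lit 114))))))) (XT.nd (nat_lit 43212) (nat_lit 0) (nat_lit 7220) (XT.nd (nat_lit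 42666) (nat_lit 0) (nat_lit 9728) (XT.nd (nat_lit 42432) (nat_lit 0) (nat_lit 10716) (XT.nd (nat_lit 78) (nat_lit 0) (nat_lit 0) (XT.lf (nat_lit 0) (nat_lit 25870716756) (nat_lit 380) (nat_lit 42788244863) (nat_lit 76) (nat_lit 6516123971) (nat_lit 85) (nat_lit 5) (nat_lit 90) (nat_lit 5) (nat_lit 86) (nat_lit 5) (nat_lit 423) (nat_lit 364) (nat_lit 113)) (XT.nd (nat_lit 42276) (nat_lit 0) (nat_lit 10716) (XT.lf (nat_lit 0) (nat_lit 40578633561) (nat_lit 380) (nat_lit 4581175983) (nat_lit 76) (nat_lit 31513495227) (nat_lit 85) (nat_lit 5) (nat_lit 90) (nat_lit 5) (nat_lit 86) (nat_lit 5) (nat_lit 424) (nat_lit 364) (nat_lit 112)) (XT.lf (nat_lit 0) (nat_lit 6003922920) (nat_lit 0) (nat_lit 6003922920) (nat_lit 1140) (nat_lit 1949955484) (nat_lit 226) (nat_lit 5) (nat_lit 226) (nat_lit 3) (nat_lit 241) (nat_lit 3) (nat_lit 365) (nat_lit 365) (nat_lit 170)))) (XT.nd (nat_lit 78) (nat_lit 0) (nat_lit 0) (XT.lf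 (nat_lit 0) (nat_lit 24467394194) (nat_lit 1140) (nat_lit 2833193899) (nat_lit 1216) (nat_lit 1030941464) (nat_lit 226) (nat_lit 5) (nat_lit 241) (nat_lit 3) (nat_lit 242) (nat_lit 5) (nat_lit 366) (nat_lit 365) (nat_lit 169)) (XT.nd (nat_lit 78) (nat_lit 0) (nat_lit 0) (XT.lf (nat_lit 76) (nat_lit 10722245357) (nat_lit 0) (nat_lit 14429200781) (nat_lit 1216) (nat_lit 3601926645) (nat_lit 227) (nat_lit 5) (nat_lit 226) (nat_lit 5) (nat_lit 242) (nat_lit 5) (nat_lit 367) (nat_lit 365) (nat_lit 168)) (XT.lf (nat_lit 76) (nat_lit 24740741555) (nat_lit 0) (nat_lit 1140803652) (nat_lit 1216) (nat_lit 3305562723) (nat_lit 227) (nat_lit 5) (nat_lit 226) (nat_lit 5) (nat_lit 242) (nat_lit 5) (nat_lit 368) (nat_lit 365) (nat_lit 167))))) (XT.nd (nat_lit 234) (nat_lit 1064) (nat_lit 0) (XT.nd (nat_lit 78) (nat_lit 0) (nat_lit 0) (XT.lf (nat_lit 76) (nat_lit 9611143237) (nat_lit 0) (nat_lit 17232413149) (nat_lit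 1216) (nat_lit 2784000795) (nat_lit 228) (nat_lit 5) (nat_lit 227) (nat_lit 5) (nat_lit 243) (nat_lit 5) (nat_lit 369) (nat_lit 365) (nat_lit 166)) (XT.nd (nat_lit 78) (nat_lit 0) (nat_lit 76) (XT.lf (nat_lit 76) (nat_lit 24168281365) (nat_lit 0) (nat_lit 3719319496) (nat_lit 1216) (nat_lit 2192026112) (nat_lit 228) (nat_lit 5) (nat_lit 227) (nat_lit 5) (nat_lit 243) (nat_lit 5) (nat_lit 370) (nat_lit 365) (nat_lit 165)) (XT.lf (nat_lit 76) (nat_lit 8686569481) (nat_lit 0) (nat_lit 20455123344) (nat_lit 1216) (nat_lit 1398206439) (nat_lit 229) (nat_lit 5) (nat_lit 228) (nat_lit 5) (nat_lit 244) (nat_lit 5) (nat_lit 371) (nat_lit 365) (nat_lit 164)))) (XT.nd (nat_lit 156) (nat_lit 0) (nat_lit 0) (XT.nd (nat_lit 78) (nat_lit 1140) (nat_lit 0) (XT.lf (nat_lit 76) (nat_lit 23804287421) (nat_lit 0) (nat_lit 6722527082) (nat_lit 1216) (nat_lit 484365136) (nat_lit 229) (nat_lit 5) (nat_lit 228) (nat_lit 5) (nat_lit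 244) (nat_lit 5) (nat_lit 372) (nat_lit 365) (nat_lit 163)) (XT.lf (nat_lit 0) (nat_lit 594623665) (nat_lit 1216) (nat_lit 23536923785) (nat_lit 1292) (nat_lit 7360521786) (nat_lit 213) (nat_lit 5) (nat_lit 229) (nat_lit 5) (nat_lit 230) (nat_lit 5) (nat_lit 373) (nat_lit 365) (nat_lit 162))) (XT.nd (nat_lit 78) (nat_lit 0) (nat_lit 76) (XT.lf (nat_lit 0) (nat_lit 1833674718) (nat_lit 1216) (nat_lit 8339330296) (nat_lit 1292) (nat_lit 21810115745) (nat_lit 213) (nat_lit 5) (nat_lit 229) (nat_lit 5) (nat_lit 230) (nat_lit 5) (nat_lit 374) (nat_lit 365) (nat_lit 161)) (XT.lf (nat_lit 0) (nat_lit 3220167804) (nat_lit 1216) (nat_lit 25070017945) (nat_lit 1292) (nat_lit 4195411850) (nat_lit 214) (nat_lit 5) (nat_lit 230) (nat_lit 5) (nat_lit 231) (nat_lit 5) (nat_lit 375) (nat_lit 365) (nat_lit 160)))))) (XT.nd (nat_lit 546) (nat_lit 2584) (nat_lit 0) (XT.nd (nat_lit 234) (nat_lit 0) (nat_lit 76) (XT.nd (nat_lit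 78) (nat_lit 0) (nat_lit 76) (XT.lf (nat_lit 0) (nat_lit 4831536293) (nat_lit 1216) (nat_lit 9289937575) (nat_lit 1292) (nat_lit 18876178292) (nat_lit 214) (nat_lit 5) (nat_lit 230) (nat_lit 5) (nat_lit 231) (nat_lit 5) (nat_lit 376) (nat_lit 365) (nat_lit 159)) (XT.nd (nat_lit 78) (nat_lit 0) (nat_lit 0) (XT.lf (nat_lit 0) (nat_lit 6562305707) (nat_lit 1216) (nat_lit 26428008879) (nat_lit 1292) (nat_lit 532623756) (nat_lit 215) (nat_lit 5) (nat_lit 231) (nat_lit 5) (nat_lit 232) (nat_lit 5) (nat_lit 377) (nat_lit 365) (nat_lit 158)) (XT.lf (nat_lit 0) (nat_lit 8577198256) (nat_lit 1216) (nat_lit 10041987606) (nat_lit 1292) (nat_lit 15437832973) (nat_lit 215) (nat_lit 5) (nat_lit 231) (nat_lit 5) (nat_lit 232) (nat_lit 5) (nat_lit 378) (nat_lit 365) (nat_lit 157)))) (XT.nd (nat_lit 156) (nat_lit 0) (nat_lit 76) (XT.nd (nat_lit 78) (nat_lit 0) (nat_lit 76) (XT.lf (nat_lit 76) (nat_lit 6969824033) (nat_lit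 0) (nat_lit 3747424879) (nat_lit 1292) (nat_lit 23887933168) (nat_lit 216) (nat_lit 5) (nat_lit 215) (nat_lit 5) (nat_lit 232) (nat_lit 5) (nat_lit 379) (nat_lit 365) (nat_lit 156)) (XT.lf (nat_lit 0) (nat_lit 13132899128) (nat_lit 1216) (nat_lit 10582985974) (nat_lit 1292) (nat_lit 11447564809) (nat_lit 216) (nat_lit 5) (nat_lit 232) (nat_lit 5) (nat_lit 233) (nat_lit 5) (nat_lit 380) (nat_lit 365) (nat_lit 155))) (XT.nd (nat_lit 78) (nat_lit 0) (nat_lit 76) (XT.lf (nat_lit 76) (nat_lit 7080216330) (nat_lit 0) (nat_lit 8643797175) (nat_lit 1292) (nat_lit 20011364012) (nat_lit 217) (nat_lit 5) (nat_lit 216) (nat_lit 5) (nat_lit 233) (nat_lit 5) (nat_lit 381) (nat_lit 365) (nat_lit 154)) (XT.lf (nat_lit 0) (nat_lit 18564807321) (nat_lit 1216) (nat_lit 10900047690) (nat_lit 76) (nat_lit 6854451097) (nat_lit 217) (nat_lit 5) (nat_lit 233) (nat_lit 5) (nat_lit 218) (nat_lit 5) (nat_lit 382) (nat_lit 365) (nat_lit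 153))))) (XT.nd (nat_lit 234) (nat_lit 1216) (nat_lit 0) (XT.nd (nat_lit 78) (nat_lit 608) (nat_lit 0) (XT.lf (nat_lit 0) (nat_lit 7445632956) (nat_lit 988) (nat_lit 14200289208) (nat_lit 1064) (nat_lit 15270178964) (nat_lit 204) (nat_lit 5) (nat_lit 217) (nat_lit 5) (nat_lit 218) (nat_lit 5) (nat_lit 383) (nat_lit 365) (nat_lit 152)) (XT.nd (nat_lit 78) (nat_lit 608) (nat_lit 0) (XT.lf (nat_lit 0) (nat_lit 24943249985) (nat_lit 1064) (nat_lit 10979937621) (nat_lit 76) (nat_lit 1603900456) (nat_lit 204) (nat_lit 5) (nat_lit 218) (nat_lit 5) (nat_lit 205) (nat_lit 5) (nat_lit 384) (nat_lit 365) (nat_lit 151)) (XT.lf (nat_lit 0) (nat_lit 8080605521) (nat_lit 608) (nat_lit 20475211542) (nat_lit 684) (nat_lit 9594099362) (nat_lit 196) (nat_lit 5) (nat_lit 204) (nat_lit 5) (nat_lit 205) (nat_lit 5) (nat_lit 385) (nat_lit 365) (nat_lit 150)))) (XT.nd (nat_lit 156) (nat_lit 684) (nat_lit 0) (XT.nd (nat_lit 78)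 (nat_lit 532) (nat_lit 0) (XT.lf (nat_lit 0) (nat_lit 27936272322) (nat_lit 608) (nat_lit 4449451320) (nat_lit 684) (nat_lit 6402438486) (nat_lit 196) (nat_lit 5) (nat_lit 204) (nat_lit 5) (nat_lit 205) (nat_lit 5) (nat_lit 386) (nat_lit 365) (nat_lit 149)) (XT.lf (nat_lit 0) (nat_lit 8999998867) (nat_lit 532) (nat_lit 27531085800) (nat_lit 608) (nat_lit 2908455142) (nat_lit 189) (nat_lit 5) (nat_lit 196) (nat_lit 5) (nat_lit 197) (nat_lit 5) (nat_lit 387) (nat_lit 365) (nat_lit 148))) (XT.nd (nat_lit 78) (nat_lit 608) (nat_lit 0) (XT.lf (nat_lit 0) (nat_lit 829759878) (nat_lit 608) (nat_lit 10490846846) (nat_lit 76) (nat_lit 28785067763) (nat_lit 188) (nat_lit 5) (nat_lit 196) (nat_lit 5) (nat_lit 189) (nat_lit 5) (nat_lit 388) (nat_lit 365) (nat_lit 147)) (XT.lf (nat_lit 0) (nat_lit 4771109111) (nat_lit 684) (nat_lit 30615674752) (nat_lit 76) (nat_lit 5399663312) (nat_lit 180) (nat_lit 5) (nat_lit 189)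 (nat_lit 5) (nat_lit 181) (nat_lit 5) (nat_lit 389) (nat_lit 365) (nat_lit 146))))))))
noncomputable def xc234 : XT := (XT.nd (nat_lit 2028) (nat_lit 1596) (nat_lit 0) (XT.nd (nat_lit 1014) (nat_lit 2660) (nat_lit 0) (XT.nd (nat_lit 468) (nat_lit 1444) (nat_lit 0) (XT.nd (nat_lit 234) (nat_lit 988) (nat_lit 0) (XT.nd (nat_lit 78) (nat_lit 532) (nat_lit 0) (XT.lf (nat_lit 0) (nat_lit 9048020607) (nat_lit 684) (nat_lit 9932088888) (nat_lit 76) (nat_lit 22501015070) (nat_lit 180) (nat_lit 5) (nat_lit 189) (nat_lit 5) (nat_lit 181) (nat_lit 5) (nat_lit 390) (nat_lit 365) (nat_lit 145)) (XT.nd (nat_lit 78) (nat_lit 0) (nat_lit 0) (XT.lf (nat_lit 0) (nat_lit 11596565006) (nat_lit 532) (nat_lit 1966449377) (nat_lit 608) (nat_lit 28630335790) (nat_lit 173) (nat_lit 5) (nat_lit 180) (nat_lit 5) (nat_lit 181) (nat_lit 5) (nat_lit 391) (nat_lit 365) (nat_lit 144)) (XT.lf (nat_lit 0) (nat_lit 18462629171) (nat_lit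 608) (nat_lit 9101563431) (nat_lit 76) (nat_lit 15355275919) (nat_lit 173) (nat_lit 5) (nat_lit 181) (nat_lit 5) (nat_lit 174) (nat_lit 5) (nat_lit 392) (nat_lit 365) (nat_lit 143)))) (XT.nd (nat_lit 78) (nat_lit 456) (nat_lit 0) (XT.lf (nat_lit 0) (nat_lit 13276403039) (nat_lit 532) (nat_lit 10378302779) (nat_lit 608) (nat_lit 20008301477) (nat_lit 166) (nat_lit 5) (nat_lit 173) (nat_lit 5) (nat_lit 174) (nat_lit 5) (nat_lit 393) (nat_lit 365) (nat_lit 142)) (XT.nd (nat_lit 78) (nat_lit 456) (nat_lit 0) (XT.lf (nat_lit 0) (nat_lit 29164169884) (nat_lit 608) (nat_lit 7986861434) (nat_lit 76) (nat_lit 7272973204) (nat_lit 166) (nat_lit 5) (nat_lit 174) (nat_lit 5) (nat_lit 167) (nat_lit 5) (nat_lit 394) (nat_lit 365) (nat_lit 141)) (XT.lf (nat_lit 0) (nat_lit 15278565455) (nat_lit 456) (nat_lit 19808433512) (nat_lit 532) (nat_lit 10113391283) (nat_lit 160) (nat_lit 5) (nat_lit 166) (nat_lit 5) (nat_lit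 167) (nat_lit 5) (nat_lit 395) (nat_lit 365) (nat_lit 140))))) (XT.nd (nat_lit 234) (nat_lit 912) (nat_lit 0) (XT.nd (nat_lit 78) (nat_lit 532) (nat_lit 0) (XT.lf (nat_lit 0) (nat_lit 39404001989) (nat_lit 456) (nat_lit 1862650060) (nat_lit 532) (nat_lit 4731042311) (nat_lit 160) (nat_lit 5) (nat_lit 166) (nat_lit 5) (nat_lit 167) (nat_lit 5) (nat_lit 396) (nat_lit 365) (nat_lit 139)) (XT.nd (nat_lit 78) (nat_lit 0) (nat_lit 0) (XT.lf (nat_lit 0) (nat_lit 1127807667) (nat_lit 532) (nat_lit 29203545459) (nat_lit 76) (nat_lit 16477404287) (nat_lit 153) (nat_lit 5) (nat_lit 160) (nat_lit 5) (nat_lit 154) (nat_lit 5) (nat_lit 397) (nat_lit 365) (nat_lit 138)) (XT.lf (nat_lit 0) (nat_lit 7151560292) (nat_lit 532) (nat_lit 5044534747) (nat_lit 76) (nat_lit 35444126167) (nat_lit 153) (nat_lit 5) (nat_lit 160) (nat_lit 5) (nat_lit 154) (nat_lit 5) (nat_lit 398) (nat_lit 365) (nat_lit 137)))) (XT.nd (nat_lit 156)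 (nat_lit 456) (nat_lit 0) (XT.nd (nat_lit 78) (nat_lit 0) (nat_lit 0) (XT.lf (nat_lit 0) (nat_lit 13613340267) (nat_lit 532) (nat_lit 28322663363) (nat_lit 76) (nat_lit 6552906716) (nat_lit 147) (nat_lit 5) (nat_lit 154) (nat_lit 5) (nat_lit 148) (nat_lit 5) (nat_lit 399) (nat_lit 365) (nat_lit 136)) (XT.lf (nat_lit 0) (nat_lit 20439778996) (nat_lit 532) (nat_lit 3247689026) (nat_lit 76) (nat_lit 25670468827) (nat_lit 147) (nat_lit 5) (nat_lit 154) (nat_lit 5) (nat_lit 148) (nat_lit 5) (nat_lit 400) (nat_lit 365) (nat_lit 135))) (XT.nd (nat_lit 78) (nat_lit 0) (nat_lit 0) (XT.lf (nat_lit 0) (nat_lit 23027268347) (nat_lit 456) (nat_lit 4663742957) (nat_lit 532) (nat_lit 22555423655) (nat_lit 141) (nat_lit 5) (nat_lit 147) (nat_lit 5) (nat_lit 148) (nat_lit 5) (nat_lit 401) (nat_lit 365) (nat_lit 134)) (XT.lf (nat_lit 0) (nat_lit 35335093236) (nat_lit 532) (nat_lit 1149036345) (nat_lit 76) (nat_lit 14672199855)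 (nat_lit 141) (nat_lit 5) (nat_lit 148) (nat_lit 5) (nat_lit 142) (nat_lit 5) (nat_lit 402) (nat_lit 365) (nat_lit 133)))))) (XT.nd (nat_lit 468) (nat_lit 1064) (nat_lit 0) (XT.nd (nat_lit 234) (nat_lit 760) (nat_lit 0) (XT.nd (nat_lit 78) (nat_lit 456) (nat_lit 0) (XT.lf (nat_lit 0) (nat_lit 26166029815) (nat_lit 380) (nat_lit 17338875806) (nat_lit 456) (nat_lit 8579723663) (nat_lit 136) (nat_lit 5) (nat_lit 141) (nat_lit 5) (nat_lit 142) (nat_lit 5) (nat_lit 403) (nat_lit 365) (nat_lit 132)) (XT.nd (nat_lit 78) (nat_lit 76) (nat_lit 0) (XT.lf (nat_lit 0) (nat_lit 1284123740) (nat_lit 380) (nat_lit 50681363469) (nat_lit 456) (nat_lit 1073921427) (nat_lit 131) (nat_lit 5) (nat_lit 136) (nat_lit 5) (nat_lit 137) (nat_lit 5) (nat_lit 404) (nat_lit 365) (nat_lit 131)) (XT.lf (nat_lit 0) (nat_lit 6961878912) (nat_lit 456) (nat_lit 24420616434) (nat_lit 76) (nat_lit 22625375172) (nat_lit 130) (nat_lit 5) (nat_lit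 136) (nat_lit 5) (nat_lit 131) (nat_lit 5) (nat_lit 405) (nat_lit 365) (nat_lit 130)))) (XT.nd (nat_lit 78) (nat_lit 380) (nat_lit 0) (XT.lf (nat_lit 0) (nat_lit 3795962863) (nat_lit 380) (nat_lit 11456468280) (nat_lit 456) (nat_lit 39751578936) (nat_lit 125) (nat_lit 5) (nat_lit 130) (nat_lit 5) (nat_lit 131) (nat_lit 5) (nat_lit 406) (nat_lit 365) (nat_lit 129)) (XT.nd (nat_lit 78) (nat_lit 380) (nat_lit 0) (XT.lf (nat_lit 0) (nat_lit 24126693650) (nat_lit 456) (nat_lit 22754187338) (nat_lit 76) (nat_lit 9139103700) (nat_lit 125) (nat_lit 5) (nat_lit 131) (nat_lit 5) (nat_lit 126) (nat_lit 5) (nat_lit 407) (nat_lit 365) (nat_lit 128)) (XT.lf (nat_lit 0) (nat_lit 6566451967) (nat_lit 380) (nat_lit 26876109372) (nat_lit 456) (nat_lit 23618616529) (nat_lit 120) (nat_lit 5) (nat_lit 125) (nat_lit 5) (nat_lit 126) (nat_lit 5) (nat_lit 408) (nat_lit 365) (nat_lit 127))))) (XT.nd (nat_lit 234) (nat_lit 684)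 (nat_lit 0) (XT.nd (nat_lit 78) (nat_lit 380) (nat_lit 0) (XT.lf (nat_lit 0) (nat_lit 37231622975) (nat_lit 380) (nat_lit 6034900457) (nat_lit 456) (nat_lit 14860225493) (nat_lit 120) (nat_lit 5) (nat_lit 125) (nat_lit 5) (nat_lit 126) (nat_lit 5) (nat_lit 409) (nat_lit 365) (nat_lit 126)) (XT.nd (nat_lit 78) (nat_lit 76) (nat_lit 0) (XT.lf (nat_lit 0) (nat_lit 9630538721) (nat_lit 304) (nat_lit 43994453591) (nat_lit 380) (nat_lit 5592101776) (nat_lit 116) (nat_lit 5) (nat_lit 120) (nat_lit 5) (nat_lit 121) (nat_lit 5) (nat_lit 410) (nat_lit 365) (nat_lit 125)) (XT.lf (nat_lit 0) (nat_lit 4148630648) (nat_lit 380) (nat_lit 18934886496) (nat_lit 76) (nat_lit 37247341083) (nat_lit 115) (nat_lit 5) (nat_lit 120) (nat_lit 5) (nat_lit 116) (nat_lit 5) (nat_lit 411) (nat_lit 365) (nat_lit 124)))) (XT.nd (nat_lit 156) (nat_lit 304) (nat_lit 0) (XT.nd (nat_lit 78) (nat_lit 0) (nat_lit 0) (XT.lf (nat_lit 0) (nat_lit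 12829845558) (nat_lit 380) (nat_lit 1361587309) (nat_lit 456) (nat_lit 47281274660) (nat_lit 110) (nat_lit 5) (nat_lit 115) (nat_lit 5) (nat_lit 116) (nat_lit 5) (nat_lit 412) (nat_lit 365) (nat_lit 123)) (XT.lf (nat_lit 0) (nat_lit 24929526664) (nat_lit 456) (nat_lit 16912773625) (nat_lit 76) (nat_lit 20794692335) (nat_lit 110) (nat_lit 5) (nat_lit 116) (nat_lit 5) (nat_lit 111) (nat_lit 5) (nat_lit 413) (nat_lit 365) (nat_lit 122))) (XT.nd (nat_lit 78) (nat_lit 0) (nat_lit 0) (XT.lf (nat_lit 0) (nat_lit 16067830625) (nat_lit 304) (nat_lit 20088827687) (nat_lit 380) (nat_lit 27674541642) (nat_lit 106) (nat_lit 5) (nat_lit 110) (nat_lit 5) (nat_lit 111) (nat_lit 5) (nat_lit 414) (nat_lit 365) (nat_lit 121)) (XT.lf (nat_lit 0) (nat_lit 47914328263) (nat_lit 380) (nat_lit 14696987435) (nat_lit 76) (nat_lit 2444106590) (nat_lit 106) (nat_lit 5) (nat_lit 111) (nat_lit 5) (nat_lit 107) (nat_lit 5) (nat_lit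 415) (nat_lit 365) (nat_lit 120))))))) (XT.nd (nat_lit 43290) (nat_lit 0) (nat_lit 9728) (XT.nd (nat_lit 468) (nat_lit 608) (nat_lit 0) (XT.nd (nat_lit 234) (nat_lit 304) (nat_lit 0) (XT.nd (nat_lit 78) (nat_lit 380) (nat_lit 0) (XT.lf (nat_lit 0) (nat_lit 19542411981) (nat_lit 304) (nat_lit 40868071889) (nat_lit 380) (nat_lit 5894315253) (nat_lit 102) (nat_lit 5) (nat_lit 106) (nat_lit 5) (nat_lit 107) (nat_lit 5) (nat_lit 416) (nat_lit 365) (nat_lit 119)) (XT.nd (nat_lit 78) (nat_lit 304) (nat_lit 0) (XT.lf (nat_lit 0) (nat_lit 5727725270) (nat_lit 380) (nat_lit 12534525437) (nat_lit 76) (nat_lit 49323299547) (nat_lit 101) (nat_lit 5) (nat_lit 106) (nat_lit 5) (nat_lit 102) (nat_lit 5) (nat_lit 417) (nat_lit 365) (nat_lit 118)) (XT.lf (nat_lit 0) (nat_lit 17852200587) (nat_lit 380) (nat_lit 45835965927) (nat_lit 76) (nat_lit 5206639771) (nat_lit 97) (nat_lit 5) (nat_lit 102) (nat_lit 5) (nat_lit 98)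 (nat_lit 5) (nat_lit 418) (nat_lit 365) (nat_lit 117)))) (XT.nd (nat_lit 78) (nat_lit 304) (nat_lit 0) (XT.lf (nat_lit 0) (nat_lit 30648099626) (nat_lit 380) (nat_lit 10446051372) (nat_lit 76) (nat_lit 29139958758) (nat_lit 97) (nat_lit 5) (nat_lit 102) (nat_lit 5) (nat_lit 98) (nat_lit 5) (nat_lit 419) (nat_lit 365) (nat_lit 116)) (XT.nd (nat_lit 78) (nat_lit 0) (nat_lit 0) (XT.lf (nat_lit 0) (nat_lit 26521742291) (nat_lit 304) (nat_lit 17560152052) (nat_lit 380) (nat_lit 27524077859) (nat_lit 93) (nat_lit 5) (nat_lit 97) (nat_lit 5) (nat_lit 98) (nat_lit 5) (nat_lit 420) (nat_lit 365) (nat_lit 115)) (XT.lf (nat_lit 0) (nat_lit 58088528324) (nat_lit 380) (nat_lit 8269741160) (nat_lit 76) (nat_lit 6655626692) (nat_lit 93) (nat_lit 5) (nat_lit 98) (nat_lit 5) (nat_lit 94) (nat_lit 5) (nat_lit 421) (nat_lit 365) (nat_lit 114))))) (XT.nd (nat_lit 42510) (nat_lit 0) (nat_lit 10716) (XT.nd (nat_lit 78) (nat_lit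 380) (nat_lit 0) (XT.lf (nat_lit 0) (nat_lit 30060585992) (nat_lit 228) (nat_lit 42916711021) (nat_lit 304) (nat_lit 1472903192) (nat_lit 90) (nat_lit 5) (nat_lit 93) (nat_lit 5) (nat_lit 94) (nat_lit 5) (nat_lit 422) (nat_lit 365) (nat_lit 113)) (XT.nd (nat_lit 78) (nat_lit 304) (nat_lit 0) (XT.lf (nat_lit 0) (nat_lit 12224947090) (nat_lit 304) (nat_lit 6337933320) (nat_lit 76) (nat_lit 57360638761) (nat_lit 89) (nat_lit 5) (nat_lit 93) (nat_lit 5) (nat_lit 90) (nat_lit 5) (nat_lit 423) (nat_lit 365) (nat_lit 112)) (XT.lf (nat_lit 0) (nat_lit 26691243325) (nat_lit 380) (nat_lit 44003991077) (nat_lit 76) (nat_lit 6733752749) (nat_lit 85) (nat_lit 5) (nat_lit 90) (nat_lit 5) (nat_lit 86) (nat_lit 5) (nat_lit 424) (nat_lit 365) (nat_lit 111)))) (XT.nd (nat_lit 156) (nat_lit 0) (nat_lit 0) (XT.nd (nat_lit 78) (nat_lit 0) (nat_lit 0) (XT.lf (nat_lit 0) (nat_lit 6224329501) (nat_lit 0) (nat_lit 6224329501)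 (nat_lit 1140) (nat_lit 1925396516) (nat_lit 226) (nat_lit 5) (nat_lit 226) (nat_lit 3) (nat_lit 241) (nat_lit 3) (nat_lit 366) (nat_lit 366) (nat_lit 168)) (XT.lf (nat_lit 0) (nat_lit 25357125737) (nat_lit 1140) (nat_lit 2834391617) (nat_lit 1216) (nat_lit 985165414) (nat_lit 226) (nat_lit 5) (nat_lit 241) (nat_lit 3) (nat_lit 242) (nat_lit 5) (nat_lit 367) (nat_lit 366) (nat_lit 167))) (XT.nd (nat_lit 78) (nat_lit 0) (nat_lit 0) (XT.lf (nat_lit 76) (nat_lit 11126889266) (nat_lit 0) (nat_lit 14931072360) (nat_lit 1216) (nat_lit 3553335329) (nat_lit 227) (nat_lit 5) (nat_lit 226) (nat_lit 5) (nat_lit 242) (nat_lit 5) (nat_lit 368) (nat_lit 366) (nat_lit 166)) (XT.lf (nat_lit 76) (nat_lit 25563523558) (nat_lit 0) (nat_lit 1242013738) (nat_lit 1216) (nat_lit 3252643084) (nat_lit 227) (nat_lit 5) (nat_lit 226) (nat_lit 5) (nat_lit 242) (nat_lit 5) (nat_lit 369) (nat_lit 366) (nat_lit 165)))))) (XT.nd (nat_lit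 546) (nat_lit 0) (nat_lit 76) (XT.nd (nat_lit 234) (nat_lit 1064) (nat_lit 0) (XT.nd (nat_lit 78) (nat_lit 0) (nat_lit 0) (XT.lf (nat_lit 76) (nat_lit 9984381356) (nat_lit 0) (nat_lit 17807920996) (nat_lit 1216) (nat_lit 2719667281) (nat_lit 228) (nat_lit 5) (nat_lit 227) (nat_lit 5) (nat_lit 243) (nat_lit 5) (nat_lit 370) (nat_lit 366) (nat_lit 164)) (XT.nd (nat_lit 78) (nat_lit 0) (nat_lit 76) (XT.lf (nat_lit 76) (nat_lit 24975760701) (nat_lit 0) (nat_lit 3887729618) (nat_lit 1216) (nat_lit 2114239772) (nat_lit 228) (nat_lit 5) (nat_lit 227) (nat_lit 5) (nat_lit 243) (nat_lit 5) (nat_lit 371) (nat_lit 366) (nat_lit 163)) (XT.lf (nat_lit 76) (nat_lit 9033573923) (nat_lit 0) (nat_lit 21117875182) (nat_lit 1216) (nat_lit 1300477264) (nat_lit 229) (nat_lit 5) (nat_lit 228) (nat_lit 5) (nat_lit 244) (nat_lit 5) (nat_lit 372) (nat_lit 366) (nat_lit 162)))) (XT.nd (nat_lit 156) (nat_lit 0) (nat_lit 0) (XT.nd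 (nat_lit 78) (nat_lit 1140) (nat_lit 0) (XT.lf (nat_lit 76) (nat_lit 24602306682) (nat_lit 0) (nat_lit 6971870990) (nat_lit 1216) (nat_lit 363288936) (nat_lit 229) (nat_lit 5) (nat_lit 228) (nat_lit 5) (nat_lit 244) (nat_lit 5) (nat_lit 373) (nat_lit 366) (nat_lit 161)) (XT.lf (nat_lit 0) (nat_lit 741951150) (nat_lit 1216) (nat_lit 24152827963) (nat_lit 1292) (nat_lit 7538071715) (nat_lit 213) (nat_lit 5) (nat_lit 229) (nat_lit 5) (nat_lit 230) (nat_lit 5) (nat_lit 374) (nat_lit 366) (nat_lit 160))) (XT.nd (nat_lit 78) (nat_lit 0) (nat_lit 76) (XT.lf (nat_lit 0) (nat_lit 2014402216) (nat_lit 1216) (nat_lit 8501933956) (nat_lit 1292) (nat_lit 22422413659) (nat_lit 213) (nat_lit 5) (nat_lit 229) (nat_lit 5) (nat_lit 230) (nat_lit 5) (nat_lit 375) (nat_lit 366) (nat_lit 159)) (XT.lf (nat_lit 0) (nat_lit 3439314308) (nat_lit 1216) (nat_lit 25731276127) (nat_lit 1292) (nat_lit 4285808527) (nat_lit 214) (nat_lit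 5) (nat_lit 230) (nat_lit 5) (nat_lit 231) (nat_lit 5) (nat_lit 376) (nat_lit 366) (nat_lit 158))))) (XT.nd (nat_lit 234) (nat_lit 0) (nat_lit 76) (XT.nd (nat_lit 78) (nat_lit 0) (nat_lit 76) (XT.lf (nat_lit 0) (nat_lit 5095454683) (nat_lit 1216) (nat_lit 9480439240) (nat_lit 1292) (nat_lit 19408030943) (nat_lit 214) (nat_lit 5) (nat_lit 230) (nat_lit 5) (nat_lit 231) (nat_lit 5) (nat_lit 377) (nat_lit 366) (nat_lit 157)) (XT.nd (nat_lit 78) (nat_lit 0) (nat_lit 0) (XT.lf (nat_lit 0) (nat_lit 6875242545) (nat_lit 1216) (nat_lit 27129662912) (nat_lit 1292) (nat_lit 520153868) (nat_lit 215) (nat_lit 5) (nat_lit 231) (nat_lit 5) (nat_lit 232) (nat_lit 5) (nat_lit 378) (nat_lit 366) (nat_lit 156)) (XT.lf (nat_lit 0) (nat_lit 8947201259) (nat_lit 1216) (nat_lit 10254716911) (nat_lit 1292) (nat_lit 15873347962) (nat_lit 215) (nat_lit 5) (nat_lit 231) (nat_lit 5) (nat_lit 232) (nat_lit 5) (nat_lit 379) (nat_lit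 366) (nat_lit 155)))) (XT.nd (nat_lit 156) (nat_lit 0) (nat_lit 76) (XT.nd (nat_lit 78) (nat_lit 0) (nat_lit 76) (XT.lf (nat_lit 76) (nat_lit 7266581133) (nat_lit 0) (nat_lit 3882432819) (nat_lit 1292) (nat_lit 24490935914) (nat_lit 216) (nat_lit 5) (nat_lit 215) (nat_lit 5) (nat_lit 232) (nat_lit 5) (nat_lit 380) (nat_lit 366) (nat_lit 154)) (XT.lf (nat_lit 0) (nat_lit 13633711800) (nat_lit 1216) (nat_lit 10811866662) (nat_lit 1292) (nat_lit 11769492263) (nat_lit 216) (nat_lit 5) (nat_lit 232) (nat_lit 5) (nat_lit 233) (nat_lit 5) (nat_lit 381) (nat_lit 366) (nat_lit 153))) (XT.nd (nat_lit 78) (nat_lit 0) (nat_lit 76) (XT.lf (nat_lit 76) (nat_lit 7380362996) (nat_lit 0) (nat_lit 8919928597) (nat_lit 1292) (nat_lit 20503934876) (nat_lit 217) (nat_lit 5) (nat_lit 216) (nat_lit 5) (nat_lit 233) (nat_lit 5) (nat_lit 382) (nat_lit 366) (nat_lit 152)) (XT.lf (nat_lit 0) (nat_lit 19223106902) (nat_lit 1216)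 (nat_lit 11138588722) (nat_lit 76) (nat_lit 7044075565) (nat_lit 217) (nat_lit 5) (nat_lit 233) (nat_lit 5) (nat_lit 218) (nat_lit 5) (nat_lit 383) (nat_lit 366) (nat_lit 151))))))))
noncomputable def xc235 : XT := (XT.nd (nat_lit 2028) (nat_lit 2356) (nat_lit 0) (XT.nd (nat_lit 1014) (nat_lit 3040) (nat_lit 0) (XT.nd (nat_lit 468) (nat_lit 2128) (nat_lit 0) (XT.nd (nat_lit 234) (nat_lit 608) (nat_lit 0) (XT.nd (nat_lit 78) (nat_lit 608) (nat_lit 0) (XT.lf (nat_lit 0) (nat_lit 7756595084) (nat_lit 988) (nat_lit 14637950008) (nat_lit 1064) (nat_lit 15625990412) (nat_lit 204) (nat_lit 5) (nat_lit 217) (nat_lit 5) (nat_lit 218) (nat_lit 5) (nat_lit 384) (nat_lit 366) (nat_lit 150)) (XT.nd (nat_lit 78) (nat_lit 608) (nat_lit 0) (XT.lf (nat_lit 0) (nat_lit 25787793363) (nat_lit 1064) (nat_lit 11221225259) (nat_lit 76) (nat_lit 1640925481) (nat_lit 204) (nat_lit 5) (nat_lit 218) (nat_lit 5) (nat_lit 205) (nat_lit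 5) (nat_lit 385) (nat_lit 366) (nat_lit 149)) (XT.lf (nat_lit 0) (nat_lit 8410270348) (nat_lit 608) (nat_lit 21096502496) (nat_lit 684) (nat_lit 9784745428) (nat_lit 196) (nat_lit 5) (nat_lit 204) (nat_lit 5) (nat_lit 205) (nat_lit 5) (nat_lit 386) (nat_lit 366) (nat_lit 148)))) (XT.nd (nat_lit 78) (nat_lit 608) (nat_lit 0) (XT.lf (nat_lit 0) (nat_lit 28859065989) (nat_lit 608) (nat_lit 4589764576) (nat_lit 684) (nat_lit 6500165121) (nat_lit 196) (nat_lit 5) (nat_lit 204) (nat_lit 5) (nat_lit 205) (nat_lit 5) (nat_lit 387) (nat_lit 366) (nat_lit 147)) (XT.nd (nat_lit 78) (nat_lit 76) (nat_lit 0) (XT.lf (nat_lit 0) (nat_lit 9356722636) (nat_lit 532) (nat_lit 28359933613) (nat_lit 608) (nat_lit 2903317233) (nat_lit 189) (nat_lit 5) (nat_lit 196) (nat_lit 5) (nat_lit 197) (nat_lit 5) (nat_lit 388) (nat_lit 366) (nat_lit 146)) (XT.lf (nat_lit 0) (nat_lit 942602839) (nat_lit 608) (nat_lit 10719564291) (nat_lit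 76) (nat_lit 29643979373) (nat_lit 188) (nat_lit 5) (nat_lit 196) (nat_lit 5) (nat_lit 189) (nat_lit 5) (nat_lit 389) (nat_lit 366) (nat_lit 145))))) (XT.nd (nat_lit 234) (nat_lit 988) (nat_lit 0) (XT.nd (nat_lit 78) (nat_lit 532) (nat_lit 0) (XT.lf (nat_lit 0) (nat_lit 5000439530) (nat_lit 684) (nat_lit 31446326040) (nat_lit 76) (nat_lit 5560631133) (nat_lit 180) (nat_lit 5) (nat_lit 189) (nat_lit 5) (nat_lit 181) (nat_lit 5) (nat_lit 390) (nat_lit 366) (nat_lit 144)) (XT.nd (nat_lit 78) (nat_lit 532) (nat_lit 0) (XT.lf (nat_lit 0) (nat_lit 9403147775) (nat_lit 684) (nat_lit 10144790434) (nat_lit 76) (nat_lit 23175053213) (nat_lit 180) (nat_lit 5) (nat_lit 189) (nat_lit 5) (nat_lit 181) (nat_lit 5) (nat_lit 391) (nat_lit 366) (nat_lit 143)) (XT.lf (nat_lit 0) (nat_lit 12028887183) (nat_lit 532) (nat_lit 2023078255) (nat_lit 608) (nat_lit 29404668776) (nat_lit 173) (nat_lit 5) (nat_lit 180) (nat_lit 5)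 (nat_lit 181) (nat_lit 5) (nat_lit 392) (nat_lit 366) (nat_lit 142)))) (XT.nd (nat_lit 156) (nat_lit 456) (nat_lit 0) (XT.nd (nat_lit 78) (nat_lit 532) (nat_lit 0) (XT.lf (nat_lit 0) (nat_lit 19096200623) (nat_lit 608) (nat_lit 9290222993) (nat_lit 76) (nat_lit 15818185130) (nat_lit 173) (nat_lit 5) (nat_lit 181) (nat_lit 5) (nat_lit 174) (nat_lit 5) (nat_lit 393) (nat_lit 366) (nat_lit 141)) (XT.lf (nat_lit 0) (nat_lit 13758255145) (nat_lit 532) (nat_lit 10684266510) (nat_lit 608) (nat_lit 20527979109) (nat_lit 166) (nat_lit 5) (nat_lit 173) (nat_lit 5) (nat_lit 174) (nat_lit 5) (nat_lit 394) (nat_lit 366) (nat_lit 140))) (XT.nd (nat_lit 78) (nat_lit 456) (nat_lit 0) (XT.lf (nat_lit 0) (nat_lit 30115042972) (nat_lit 608) (nat_lit 8143064368) (nat_lit 76) (nat_lit 7496288870) (nat_lit 166) (nat_lit 5) (nat_lit 174) (nat_lit 5) (nat_lit 167) (nat_lit 5) (nat_lit 395) (nat_lit 366) (nat_lit 139)) (XT.lf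 (nat_lit 0) (nat_lit 15819507652) (nat_lit 456) (nat_lit 20394631057) (nat_lit 532) (nat_lit 10339978803) (nat_lit 160) (nat_lit 5) (nat_lit 166) (nat_lit 5) (nat_lit 167) (nat_lit 5) (nat_lit 396) (nat_lit 366) (nat_lit 138)))))) (XT.nd (nat_lit 468) (nat_lit 1596) (nat_lit 0) (XT.nd (nat_lit 234) (nat_lit 912) (nat_lit 0) (XT.nd (nat_lit 78) (nat_lit 532) (nat_lit 0) (XT.lf (nat_lit 0) (nat_lit 40666301888) (nat_lit 456) (nat_lit 1910708726) (nat_lit 532) (nat_lit 4798396669) (nat_lit 160) (nat_lit 5) (nat_lit 166) (nat_lit 5) (nat_lit 167) (nat_lit 5) (nat_lit 397) (nat_lit 366) (nat_lit 137)) (XT.nd (nat_lit 78) (nat_lit 0) (nat_lit 0) (XT.lf (nat_lit 0) (nat_lit 1233498834) (nat_lit 532) (nat_lit 29996661813) (nat_lit 76) (nat_lit 16980659349) (nat_lit 153) (nat_lit 5) (nat_lit 160) (nat_lit 5) (nat_lit 154) (nat_lit 5) (nat_lit 398) (nat_lit 366) (nat_lit 136)) (XT.lf (nat_lit 0) (nat_lit 7435871117)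 (nat_lit 532) (nat_lit 5115297964) (nat_lit 76) (nat_lit 36516122702) (nat_lit 153) (nat_lit 5) (nat_lit 160) (nat_lit 5) (nat_lit 154) (nat_lit 5) (nat_lit 399) (nat_lit 366) (nat_lit 135)))) (XT.nd (nat_lit 78) (nat_lit 456) (nat_lit 0) (XT.lf (nat_lit 0) (nat_lit 14090347919) (nat_lit 532) (nat_lit 29090571986) (nat_lit 76) (nat_lit 6760557646) (nat_lit 147) (nat_lit 5) (nat_lit 154) (nat_lit 5) (nat_lit 148) (nat_lit 5) (nat_lit 400) (nat_lit 366) (nat_lit 134)) (XT.nd (nat_lit 78) (nat_lit 456) (nat_lit 0) (XT.lf (nat_lit 0) (nat_lit 21119581536) (nat_lit 532) (nat_lit 3265730106) (nat_lit 76) (nat_lit 26451324376) (nat_lit 147) (nat_lit 5) (nat_lit 154) (nat_lit 5) (nat_lit 148) (nat_lit 5) (nat_lit 401) (nat_lit 366) (nat_lit 133)) (XT.lf (nat_lit 0) (nat_lit 23796697659) (nat_lit 456) (nat_lit 4790468741) (nat_lit 532) (nat_lit 23164659388) (nat_lit 141) (nat_lit 5) (nat_lit 147) (nat_lit 5) (nat_lit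 148) (nat_lit 5) (nat_lit 402) (nat_lit 366) (nat_lit 132))))) (XT.nd (nat_lit 234) (nat_lit 836) (nat_lit 0) (XT.nd (nat_lit 78) (nat_lit 760) (nat_lit 0) (XT.lf (nat_lit 0) (nat_lit 36458788278) (nat_lit 532) (nat_lit 1105364984) (nat_lit 76) (nat_lit 15124918461) (nat_lit 141) (nat_lit 5) (nat_lit 148) (nat_lit 5) (nat_lit 142) (nat_lit 5) (nat_lit 403) (nat_lit 366) (nat_lit 131)) (XT.nd (nat_lit 78) (nat_lit 380) (nat_lit 0) (XT.lf (nat_lit 0) (nat_lit 27028387058) (nat_lit 380) (nat_lit 17844198108) (nat_lit 456) (nat_lit 8772669813) (nat_lit 136) (nat_lit 5) (nat_lit 141) (nat_lit 5) (nat_lit 142) (nat_lit 5) (nat_lit 404) (nat_lit 366) (nat_lit 130)) (XT.lf (nat_lit 0) (nat_lit 1401018344) (nat_lit 380) (nat_lit 52185036409) (nat_lit 456) (nat_lit 1042651927) (nat_lit 131) (nat_lit 5) (nat_lit 136) (nat_lit 5) (nat_lit 137) (nat_lit 5) (nat_lit 405) (nat_lit 366) (nat_lit 129)))) (XT.nd (nat_lit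 156) (nat_lit 380) (nat_lit 0) (XT.nd (nat_lit 78) (nat_lit 380) (nat_lit 0) (XT.lf (nat_lit 0) (nat_lit 7231170502) (nat_lit 456) (nat_lit 25075909849) (nat_lit 76) (nat_lit 23319179171) (nat_lit 130) (nat_lit 5) (nat_lit 136) (nat_lit 5) (nat_lit 131) (nat_lit 5) (nat_lit 406) (nat_lit 366) (nat_lit 128)) (XT.lf (nat_lit 0) (nat_lit 3986408738) (nat_lit 380) (nat_lit 11783006323) (nat_lit 456) (nat_lit 40882899930) (nat_lit 125) (nat_lit 5) (nat_lit 130) (nat_lit 5) (nat_lit 131) (nat_lit 5) (nat_lit 407) (nat_lit 366) (nat_lit 127))) (XT.nd (nat_lit 78) (nat_lit 380) (nat_lit 0) (XT.lf (nat_lit 0) (nat_lit 24908335136) (nat_lit 456) (nat_lit 23360873671) (nat_lit 76) (nat_lit 9429608103) (nat_lit 125) (nat_lit 5) (nat_lit 131) (nat_lit 5) (nat_lit 126) (nat_lit 5) (nat_lit 408) (nat_lit 366) (nat_lit 126)) (XT.lf (nat_lit 0) (nat_lit 6838640310) (nat_lit 380) (nat_lit 27664076684) (nat_lit 456) (nat_lit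 24268558682) (nat_lit 120) (nat_lit 5) (nat_lit 125) (nat_lit 5) (nat_lit 126) (nat_lit 5) (nat_lit 409) (nat_lit 366) (nat_lit 125))))))) (XT.nd (nat_lit 1014) (nat_lit 304) (nat_lit 0) (XT.nd (nat_lit 468) (nat_lit 988) (nat_lit 0) (XT.nd (nat_lit 234) (nat_lit 684) (nat_lit 0) (XT.nd (nat_lit 78) (nat_lit 380) (nat_lit 0) (XT.lf (nat_lit 0) (nat_lit 38421576309) (nat_lit 380) (nat_lit 6198164976) (nat_lit 456) (nat_lit 15249123187) (nat_lit 120) (nat_lit 5) (nat_lit 125) (nat_lit 5) (nat_lit 126) (nat_lit 5) (nat_lit 410) (nat_lit 366) (nat_lit 124)) (XT.nd (nat_lit 78) (nat_lit 76) (nat_lit 0) (XT.lf (nat_lit 0) (nat_lit 9993244917) (nat_lit 304) (nat_lit 45294986175) (nat_lit 380) (nat_lit 5703711774) (nat_lit 116) (nat_lit 5) (nat_lit 120) (nat_lit 5) (nat_lit 121) (nat_lit 5) (nat_lit 411) (nat_lit 366) (nat_lit 123)) (XT.lf (nat_lit 0) (nat_lit 4326543264) (nat_lit 380) (nat_lit 19430200759) (nat_lit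 76) (nat_lit 38382408652) (nat_lit 115) (nat_lit 5) (nat_lit 120) (nat_lit 5) (nat_lit 116) (nat_lit 5) (nat_lit 412) (nat_lit 366) (nat_lit 122)))) (XT.nd (nat_lit 78) (nat_lit 304) (nat_lit 0) (XT.lf (nat_lit 0) (nat_lit 13286760195) (nat_lit 380) (nat_lit 1383004744) (nat_lit 456) (nat_lit 48645519259) (nat_lit 110) (nat_lit 5) (nat_lit 115) (nat_lit 5) (nat_lit 116) (nat_lit 5) (nat_lit 413) (nat_lit 366) (nat_lit 121)) (XT.nd (nat_lit 78) (nat_lit 304) (nat_lit 0) (XT.lf (nat_lit 0) (nat_lit 25728651164) (nat_lit 456) (nat_lit 17348858727) (nat_lit 76) (nat_lit 21437029252) (nat_lit 110) (nat_lit 5) (nat_lit 116) (nat_lit 5) (nat_lit 111) (nat_lit 5) (nat_lit 414) (nat_lit 366) (nat_lit 120)) (XT.lf (nat_lit 0) (nat_lit 16620464650) (nat_lit 304) (nat_lit 20671318364) (nat_lit 380) (nat_lit 28452814851) (nat_lit 106) (nat_lit 5) (nat_lit 110) (nat_lit 5) (nat_lit 111) (nat_lit 5) (nat_lit 415) (nat_lit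 366) (nat_lit 119))))) (XT.nd (nat_lit 234) (nat_lit 608) (nat_lit 0) (XT.nd (nat_lit 78) (nat_lit 380) (nat_lit 0) (XT.lf (nat_lit 0) (nat_lit 49400902653) (nat_lit 380) (nat_lit 15068049225) (nat_lit 76) (nat_lit 2536634141) (nat_lit 106) (nat_lit 5) (nat_lit 111) (nat_lit 5) (nat_lit 107) (nat_lit 5) (nat_lit 416) (nat_lit 366) (nat_lit 118)) (XT.nd (nat_lit 78) (nat_lit 76) (nat_lit 0) (XT.lf (nat_lit 0) (nat_lit 20197847390) (nat_lit 304) (nat_lit 42073328982) (nat_lit 380) (nat_lit 6021291501) (nat_lit 102) (nat_lit 5) (nat_lit 106) (nat_lit 5) (nat_lit 107) (nat_lit 5) (nat_lit 417) (nat_lit 366) (nat_lit 117)) (XT.lf (nat_lit 0) (nat_lit 5947013721) (nat_lit 380) (nat_lit 12842445614) (nat_lit 76) (nat_lit 50822211213) (nat_lit 101) (nat_lit 5) (nat_lit 106) (nat_lit 5) (nat_lit 102) (nat_lit 5) (nat_lit 418) (nat_lit 366) (nat_lit 116)))) (XT.nd (nat_lit 156) (nat_lit 304) (nat_lit 0) (XT.nd (nat_lit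 78) (nat_lit 0) (nat_lit 0) (XT.lf (nat_lit 0) (nat_lit 18434688635) (nat_lit 380) (nat_lit 47142372798) (nat_lit 76) (nat_lit 5383159523) (nat_lit 97) (nat_lit 5) (nat_lit 102) (nat_lit 5) (nat_lit 98) (nat_lit 5) (nat_lit 419) (nat_lit 366) (nat_lit 115)) (XT.lf (nat_lit 0) (nat_lit 31613097984) (nat_lit 380) (nat_lit 10692760965) (nat_lit 76) (nat_lit 30033886219) (nat_lit 97) (nat_lit 5) (nat_lit 102) (nat_lit 5) (nat_lit 98) (nat_lit 5) (nat_lit 420) (nat_lit 366) (nat_lit 114))) (XT.nd (nat_lit 78) (nat_lit 0) (nat_lit 0) (XT.lf (nat_lit 0) (nat_lit 27383412862) (nat_lit 304) (nat_lit 18065801433) (nat_lit 380) (nat_lit 28303570577) (nat_lit 93) (nat_lit 5) (nat_lit 97) (nat_lit 5) (nat_lit 98) (nat_lit 5) (nat_lit 421) (nat_lit 366) (nat_lit 113)) (XT.lf (nat_lit 0) (nat_lit 59874938037) (nat_lit 380) (nat_lit 8452608694) (nat_lit 76) (nat_lit 6875433713) (nat_lit 93) (nat_lit 5) (nat_lit 98) (nat_lit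 5) (nat_lit 94) (nat_lit 5) (nat_lit 422) (nat_lit 366) (nat_lit 112)))))) (XT.nd (nat_lit 42900) (nat_lit 0) (nat_lit 9424) (XT.nd (nat_lit 42588) (nat_lit 0) (nat_lit 10412) (XT.nd (nat_lit 78) (nat_lit 76) (nat_lit 0) (XT.lf (nat_lit 0) (nat_lit 31026988815) (nat_lit 228) (nat_lit 44182727419) (nat_lit 304) (nat_lit 1472677547) (nat_lit 90) (nat_lit 5) (nat_lit 93) (nat_lit 5) (nat_lit 94) (nat_lit 5) (nat_lit 423) (nat_lit 366) (nat_lit 111)) (XT.nd (nat_lit 42432) (nat_lit 0) (nat_lit 10412) (XT.lf (nat_lit 0) (nat_lit 12633973257) (nat_lit 304) (nat_lit 6464507484) (nat_lit 76) (nat_lit 59101457367) (nat_lit 89) (nat_lit 5) (nat_lit 93) (nat_lit 5) (nat_lit 90) (nat_lit 5) (nat_lit 424) (nat_lit 366) (nat_lit 110)) (XT.lf (nat_lit 0) (nat_lit 6449035532) (nat_lit 0) (nat_lit 6449035532) (nat_lit 1140) (nat_lit 1904868628) (nat_lit 226) (nat_lit 5) (nat_lit 226) (nat_lit 3) (nat_lit 241) (nat_lit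 3) (nat_lit 367) (nat_lit 367) (nat_lit 166)))) (XT.nd (nat_lit 156) (nat_lit 0) (nat_lit 0) (XT.nd (nat_lit 78) (nat_lit 0) (nat_lit 0) (XT.lf (nat_lit 0) (nat_lit 26264610852) (nat_lit 1140) (nat_lit 2840435621) (nat_lit 1216) (nat_lit 942419223) (nat_lit 226) (nat_lit 5) (nat_lit 241) (nat_lit 3) (nat_lit 242) (nat_lit 5) (nat_lit 368) (nat_lit 367) (nat_lit 165)) (XT.lf (nat_lit 76) (nat_lit 11538909300) (nat_lit 0) (nat_lit 15444039459) (nat_lit 1216) (nat_lit 3512278573) (nat_lit 227) (nat_lit 5) (nat_lit 226) (nat_lit 5) (nat_lit 242) (nat_lit 5) (nat_lit 369) (nat_lit 367) (nat_lit 164))) (XT.nd (nat_lit 78) (nat_lit 0) (nat_lit 76) (XT.lf (nat_lit 76) (nat_lit 26406364561) (nat_lit 0) (nat_lit 1342414857) (nat_lit 1216) (nat_lit 3206866245) (nat_lit 227) (nat_lit 5) (nat_lit 226) (nat_lit 5) (nat_lit 242) (nat_lit 5) (nat_lit 370) (nat_lit 367) (nat_lit 163)) (XT.lf (nat_lit 76) (nat_lit 10363942793)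 (nat_lit 0) (nat_lit 18397333905) (nat_lit 1216) (nat_lit 2661891160) (nat_lit 228) (nat_lit 5) (nat_lit 227) (nat_lit 5) (nat_lit 243) (nat_lit 5) (nat_lit 371) (nat_lit 367) (nat_lit 162))))) (XT.nd (nat_lit 234) (nat_lit 1064) (nat_lit 0) (XT.nd (nat_lit 78) (nat_lit 0) (nat_lit 76) (XT.lf (nat_lit 76) (nat_lit 25802732547) (nat_lit 0) (nat_lit 4057929738) (nat_lit 1216) (nat_lit 2042360034) (nat_lit 228) (nat_lit 5) (nat_lit 227) (nat_lit 5) (nat_lit 243) (nat_lit 5) (nat_lit 372) (nat_lit 367) (nat_lit 161)) (XT.nd (nat_lit 78) (nat_lit 0) (nat_lit 0) (XT.lf (nat_lit 76) (nat_lit 9386028363) (nat_lit 0) (nat_lit 21797691142) (nat_lit 1216) (nat_lit 1207834151) (nat_lit 229) (nat_lit 5) (nat_lit 228) (nat_lit 5) (nat_lit 244) (nat_lit 5) (nat_lit 373) (nat_lit 367) (nat_lit 160)) (XT.lf (nat_lit 76) (nat_lit 25419450856) (nat_lit 0) (nat_lit 7225958871) (nat_lit 1216) (nat_lit 246364856) (nat_lit 229)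 (nat_lit 5) (nat_lit 228) (nat_lit 5) (nat_lit 244) (nat_lit 5) (nat_lit 374) (nat_lit 367) (nat_lit 159)))) (XT.nd (nat_lit 156) (nat_lit 0) (nat_lit 76) (XT.nd (nat_lit 78) (nat_lit 0) (nat_lit 0) (XT.lf (nat_lit 0) (nat_lit 886265274) (nat_lit 1216) (nat_lit 24792387318) (nat_lit 1292) (nat_lit 7723431771) (nat_lit 213) (nat_lit 5) (nat_lit 229) (nat_lit 5) (nat_lit 230) (nat_lit 5) (nat_lit 375) (nat_lit 367) (nat_lit 158)) (XT.lf (nat_lit 0) (nat_lit 2193334855) (nat_lit 1216) (nat_lit 8674442962) (nat_lit 1292) (nat_lit 23055491802) (nat_lit 213) (nat_lit 5) (nat_lit 229) (nat_lit 5) (nat_lit 230) (nat_lit 5) (nat_lit 376) (nat_lit 367) (nat_lit 157))) (XT.nd (nat_lit 78) (nat_lit 0) (nat_lit 0) (XT.lf (nat_lit 0) (nat_lit 3658000826) (nat_lit 1216) (nat_lit 26417586777) (nat_lit 1292) (nat_lit 4380952979) (nat_lit 214) (nat_lit 5) (nat_lit 230) (nat_lit 5) (nat_lit 231) (nat_lit 5) (nat_lit 377)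 (nat_lit 367) (nat_lit 156)) (XT.lf (nat_lit 0) (nat_lit 5360461128) (nat_lit 1216) (nat_lit 9681718792) (nat_lit 1292) (nat_lit 19957815751) (nat_lit 214) (nat_lit 5) (nat_lit 230) (nat_lit 5) (nat_lit 231) (nat_lit 5) (nat_lit 378) (nat_lit 367) (nat_lit 155))))))))
noncomputable def xc236 : XT := (XT.nd (nat_lit 2028) (nat_lit 3648) (nat_lit 0) (XT.nd (nat_lit 1014) (nat_lit 2964) (nat_lit 0) (XT.nd (nat_lit 468) (nat_lit 2660) (nat_lit 0) (XT.nd (nat_lit 234) (nat_lit 0) (nat_lit 76) (XT.nd (nat_lit 78) (nat_lit 0) (nat_lit 0) (XT.lf (nat_lit 0) (nat_lit 7190904730) (nat_lit 1216) (nat_lit 27857601030) (nat_lit 1292) (nat_lit 508942950) (nat_lit 215) (nat_lit 5) (nat_lit 231) (nat_lit 5) (nat_lit 232) (nat_lit 5) (nat_lit 379) (nat_lit 367) (nat_lit 154)) (XT.nd (nat_lit 78) (nat_lit 0) (nat_lit 0) (XT.lf (nat_lit 0) (nat_lit 9321835655) (nat_lit 1216) (nat_lit 10478910098) (nat_lit 1292) (nat_lit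 16323513901) (nat_lit 215) (nat_lit 5) (nat_lit 231) (nat_lit 5) (nat_lit 232) (nat_lit 5) (nat_lit 380) (nat_lit 367) (nat_lit 153)) (XT.lf (nat_lit 76) (nat_lit 7567208767) (nat_lit 0) (nat_lit 4020194515) (nat_lit 1292) (nat_lit 25118551871) (nat_lit 216) (nat_lit 5) (nat_lit 215) (nat_lit 5) (nat_lit 232) (nat_lit 5) (nat_lit 381) (nat_lit 367) (nat_lit 152)))) (XT.nd (nat_lit 78) (nat_lit 0) (nat_lit 0) (XT.lf (nat_lit 0) (nat_lit 14143416621) (nat_lit 1216) (nat_lit 11052700283) (nat_lit 1292) (nat_lit 12102311699) (nat_lit 216) (nat_lit 5) (nat_lit 232) (nat_lit 5) (nat_lit 233) (nat_lit 5) (nat_lit 382) (nat_lit 367) (nat_lit 151)) (XT.nd (nat_lit 78) (nat_lit 0) (nat_lit 76) (XT.lf (nat_lit 76) (nat_lit 7684477418) (nat_lit 0) (nat_lit 9203378568) (nat_lit 1292) (nat_lit 21017469308) (nat_lit 217) (nat_lit 5) (nat_lit 216) (nat_lit 5) (nat_lit 233) (nat_lit 5) (nat_lit 383) (nat_lit 367) (nat_lit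 150)) (XT.lf (nat_lit 0) (nat_lit 19895337259) (nat_lit 1216) (nat_lit 11389363975) (nat_lit 76) (nat_lit 7240307754) (nat_lit 217) (nat_lit 5) (nat_lit 233) (nat_lit 5) (nat_lit 218) (nat_lit 5) (nat_lit 384) (nat_lit 367) (nat_lit 149))))) (XT.nd (nat_lit 234) (nat_lit 1216) (nat_lit 0) (XT.nd (nat_lit 78) (nat_lit 608) (nat_lit 0) (XT.lf (nat_lit 0) (nat_lit 8071857871) (nat_lit 988) (nat_lit 15088071752) (nat_lit 1064) (nat_lit 15998348293) (nat_lit 204) (nat_lit 5) (nat_lit 217) (nat_lit 5) (nat_lit 218) (nat_lit 5) (nat_lit 385) (nat_lit 367) (nat_lit 148)) (XT.nd (nat_lit 78) (nat_lit 608) (nat_lit 0) (XT.lf (nat_lit 0) (nat_lit 26652148136) (nat_lit 1064) (nat_lit 11474809430) (nat_lit 76) (nat_lit 1679697981) (nat_lit 204) (nat_lit 5) (nat_lit 218) (nat_lit 5) (nat_lit 205) (nat_lit 5) (nat_lit 386) (nat_lit 367) (nat_lit 147)) (XT.lf (nat_lit 0) (nat_lit 8744816805) (nat_lit 608) (nat_lit 21736028364)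 (nat_lit 684) (nat_lit 9986689228) (nat_lit 196) (nat_lit 5) (nat_lit 204) (nat_lit 5) (nat_lit 205) (nat_lit 5) (nat_lit 387) (nat_lit 367) (nat_lit 146)))) (XT.nd (nat_lit 156) (nat_lit 684) (nat_lit 0) (XT.nd (nat_lit 78) (nat_lit 532) (nat_lit 0) (XT.lf (nat_lit 0) (nat_lit 29804681023) (nat_lit 608) (nat_lit 4733895176) (nat_lit 684) (nat_lit 6606239431) (nat_lit 196) (nat_lit 5) (nat_lit 204) (nat_lit 5) (nat_lit 205) (nat_lit 5) (nat_lit 388) (nat_lit 367) (nat_lit 145)) (XT.lf (nat_lit 0) (nat_lit 9719169817) (nat_lit 532) (nat_lit 29213479514) (nat_lit 608) (nat_lit 2903328841) (nat_lit 189) (nat_lit 5) (nat_lit 196) (nat_lit 5) (nat_lit 197) (nat_lit 5) (nat_lit 389) (nat_lit 367) (nat_lit 144))) (XT.nd (nat_lit 78) (nat_lit 608) (nat_lit 0) (XT.lf (nat_lit 0) (nat_lit 1053782391) (nat_lit 608) (nat_lit 10960080468) (nat_lit 76) (nat_lit 30528924711) (nat_lit 188) (nat_lit 5) (nat_lit 196) (nat_lit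 5) (nat_lit 189) (nat_lit 5) (nat_lit 390) (nat_lit 367) (nat_lit 143)) (XT.lf (nat_lit 0) (nat_lit 5231701792) (nat_lit 684) (nat_lit 32306938034) (nat_lit 76) (nat_lit 5726486659) (nat_lit 180) (nat_lit 5) (nat_lit 189) (nat_lit 5) (nat_lit 181) (nat_lit 5) (nat_lit 391) (nat_lit 367) (nat_lit 142)))))) (XT.nd (nat_lit 468) (nat_lit 1444) (nat_lit 0) (XT.nd (nat_lit 234) (nat_lit 988) (nat_lit 0) (XT.nd (nat_lit 78) (nat_lit 532) (nat_lit 0) (XT.lf (nat_lit 0) (nat_lit 9764124807) (nat_lit 684) (nat_lit 10368767363) (nat_lit 76) (nat_lit 23869369462) (nat_lit 180) (nat_lit 5) (nat_lit 189) (nat_lit 5) (nat_lit 181) (nat_lit 5) (nat_lit 392) (nat_lit 367) (nat_lit 141)) (XT.nd (nat_lit 78) (nat_lit 0) (nat_lit 0) (XT.lf (nat_lit 0) (nat_lit 12469332673) (nat_lit 532) (nat_lit 2081541737) (nat_lit 608) (nat_lit 30207086822) (nat_lit 173) (nat_lit 5) (nat_lit 180) (nat_lit 5) (nat_lit 181) (nat_lit 5) (nat_lit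 393) (nat_lit 367) (nat_lit 140)) (XT.lf (nat_lit 0) (nat_lit 19744204538) (nat_lit 608) (nat_lit 9489386519) (nat_lit 76) (nat_lit 16294852405) (nat_lit 173) (nat_lit 5) (nat_lit 181) (nat_lit 5) (nat_lit 174) (nat_lit 5) (nat_lit 394) (nat_lit 367) (nat_lit 139)))) (XT.nd (nat_lit 78) (nat_lit 456) (nat_lit 0) (XT.lf (nat_lit 0) (nat_lit 14249766128) (nat_lit 532) (nat_lit 10999718295) (nat_lit 608) (nat_lit 21067872199) (nat_lit 166) (nat_lit 5) (nat_lit 173) (nat_lit 5) (nat_lit 174) (nat_lit 5) (nat_lit 395) (nat_lit 367) (nat_lit 138)) (XT.nd (nat_lit 78) (nat_lit 456) (nat_lit 0) (XT.lf (nat_lit 0) (nat_lit 31090082526) (nat_lit 608) (nat_lit 8308741058) (nat_lit 76) (nat_lit 7726009726) (nat_lit 166) (nat_lit 5) (nat_lit 174) (nat_lit 5) (nat_lit 167) (nat_lit 5) (nat_lit 396) (nat_lit 367) (nat_lit 137)) (XT.lf (nat_lit 0) (nat_lit 16371937385) (nat_lit 456) (nat_lit 20998876945) (nat_lit 532)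 (nat_lit 10577773398) (nat_lit 160) (nat_lit 5) (nat_lit 166) (nat_lit 5) (nat_lit 167) (nat_lit 5) (nat_lit 397) (nat_lit 367) (nat_lit 136))))) (XT.nd (nat_lit 234) (nat_lit 912) (nat_lit 0) (XT.nd (nat_lit 78) (nat_lit 532) (nat_lit 0) (XT.lf (nat_lit 0) (nat_lit 41961868132) (nat_lit 456) (nat_lit 1960658101) (nat_lit 532) (nat_lit 4872052678) (nat_lit 160) (nat_lit 5) (nat_lit 166) (nat_lit 5) (nat_lit 167) (nat_lit 5) (nat_lit 398) (nat_lit 367) (nat_lit 135)) (XT.nd (nat_lit 78) (nat_lit 0) (nat_lit 0) (XT.lf (nat_lit 0) (nat_lit 1338235853) (nat_lit 532) (nat_lit 30818335623) (nat_lit 76) (nat_lit 17498499275) (nat_lit 153) (nat_lit 5) (nat_lit 160) (nat_lit 5) (nat_lit 154) (nat_lit 5) (nat_lit 399) (nat_lit 367) (nat_lit 134)) (XT.lf (nat_lit 0) (nat_lit 7724706527) (nat_lit 532) (nat_lit 5192809288) (nat_lit 76) (nat_lit 37619781282) (nat_lit 153) (nat_lit 5) (nat_lit 160) (nat_lit 5) (nat_lit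 154) (nat_lit 5) (nat_lit 400) (nat_lit 367) (nat_lit 133)))) (XT.nd (nat_lit 156) (nat_lit 456) (nat_lit 0) (XT.nd (nat_lit 78) (nat_lit 0) (nat_lit 0) (XT.lf (nat_lit 0) (nat_lit 14577727454) (nat_lit 532) (nat_lit 29886211873) (nat_lit 76) (nat_lit 6973803001) (nat_lit 147) (nat_lit 5) (nat_lit 154) (nat_lit 5) (nat_lit 148) (nat_lit 5) (nat_lit 401) (nat_lit 367) (nat_lit 132)) (XT.lf (nat_lit 0) (nat_lit 21815954512) (nat_lit 532) (nat_lit 3288869706) (nat_lit 76) (nat_lit 27254988986) (nat_lit 147) (nat_lit 5) (nat_lit 154) (nat_lit 5) (nat_lit 148) (nat_lit 5) (nat_lit 402) (nat_lit 367) (nat_lit 131))) (XT.nd (nat_lit 78) (nat_lit 0) (nat_lit 0) (XT.lf (nat_lit 0) (nat_lit 24584697242) (nat_lit 456) (nat_lit 4921753258) (nat_lit 532) (nat_lit 23796042778) (nat_lit 141) (nat_lit 5) (nat_lit 147) (nat_lit 5) (nat_lit 148) (nat_lit 5) (nat_lit 403) (nat_lit 367) (nat_lit 130)) (XT.lf (nat_lit 0) (nat_lit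 37612540847) (nat_lit 532) (nat_lit 1064869179) (nat_lit 76) (nat_lit 15590498054) (nat_lit 141) (nat_lit 5) (nat_lit 148) (nat_lit 5) (nat_lit 142) (nat_lit 5) (nat_lit 404) (nat_lit 367) (nat_lit 129))))))) (XT.nd (nat_lit 1014) (nat_lit 988) (nat_lit 0) (XT.nd (nat_lit 468) (nat_lit 1064) (nat_lit 0) (XT.nd (nat_lit 234) (nat_lit 760) (nat_lit 0) (XT.nd (nat_lit 78) (nat_lit 456) (nat_lit 0) (XT.lf (nat_lit 0) (nat_lit 27912173299) (nat_lit 380) (nat_lit 18365532184) (nat_lit 456) (nat_lit 8975103787) (nat_lit 136) (nat_lit 5) (nat_lit 141) (nat_lit 5) (nat_lit 142) (nat_lit 5) (nat_lit 405) (nat_lit 367) (nat_lit 128)) (XT.nd (nat_lit 78) (nat_lit 76) (nat_lit 0) (XT.lf (nat_lit 0) (nat_lit 1516920977) (nat_lit 380) (nat_lit 53734782087) (nat_lit 456) (nat_lit 1014088764) (nat_lit 131) (nat_lit 5) (nat_lit 136) (nat_lit 5) (nat_lit 137) (nat_lit 5) (nat_lit 406) (nat_lit 367) (nat_lit 127)) (XT.lf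 (nat_lit 0) (nat_lit 7505071612) (nat_lit 456) (nat_lit 25755300843) (nat_lit 76) (nat_lit 24032933775) (nat_lit 130) (nat_lit 5) (nat_lit 136) (nat_lit 5) (nat_lit 131) (nat_lit 5) (nat_lit 407) (nat_lit 367) (nat_lit 126)))) (XT.nd (nat_lit 78) (nat_lit 380) (nat_lit 0) (XT.lf (nat_lit 0) (nat_lit 4178172730) (nat_lit 380) (nat_lit 12120325332) (nat_lit 456) (nat_lit 42051675198) (nat_lit 125) (nat_lit 5) (nat_lit 130) (nat_lit 5) (nat_lit 131) (nat_lit 5) (nat_lit 408) (nat_lit 367) (nat_lit 125)) (XT.nd (nat_lit 78) (nat_lit 380) (nat_lit 0) (XT.lf (nat_lit 0) (nat_lit 25710105575) (nat_lit 456) (nat_lit 23990119820) (nat_lit 76) (nat_lit 9727890155) (nat_lit 125) (nat_lit 5) (nat_lit 131) (nat_lit 5) (nat_lit 126) (nat_lit 5) (nat_lit 409) (nat_lit 367) (nat_lit 124)) (XT.lf (nat_lit 0) (nat_lit 7114677815) (nat_lit 380) (nat_lit 28476734427) (nat_lit 456) (nat_lit 24941363917) (nat_lit 120) (nat_lit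 5) (nat_lit 125) (nat_lit 5) (nat_lit 126) (nat_lit 5) (nat_lit 410) (nat_lit 367) (nat_lit 123))))) (XT.nd (nat_lit 234) (nat_lit 684) (nat_lit 0) (XT.nd (nat_lit 78) (nat_lit 380) (nat_lit 0) (XT.lf (nat_lit 0) (nat_lit 39643037478) (nat_lit 380) (nat_lit 6367348219) (nat_lit 456) (nat_lit 15652954625) (nat_lit 120) (nat_lit 5) (nat_lit 125) (nat_lit 5) (nat_lit 126) (nat_lit 5) (nat_lit 411) (nat_lit 367) (nat_lit 122)) (XT.nd (nat_lit 78) (nat_lit 76) (nat_lit 0) (XT.lf (nat_lit 0) (nat_lit 10362596450) (nat_lit 304) (nat_lit 46635642694) (nat_lit 380) (nat_lit 5821893486) (nat_lit 116) (nat_lit 5) (nat_lit 120) (nat_lit 5) (nat_lit 121) (nat_lit 5) (nat_lit 412) (nat_lit 367) (nat_lit 121)) (XT.lf (nat_lit 0) (nat_lit 4506724798) (nat_lit 380) (nat_lit 19944549582) (nat_lit 76) (nat_lit 39550515219) (nat_lit 115) (nat_lit 5) (nat_lit 120) (nat_lit 5) (nat_lit 116) (nat_lit 5) (nat_lit 413) (nat_lit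 367) (nat_lit 120)))) (XT.nd (nat_lit 156) (nat_lit 304) (nat_lit 0) (XT.nd (nat_lit 78) (nat_lit 0) (nat_lit 0) (XT.lf (nat_lit 0) (nat_lit 13753248071) (nat_lit 380) (nat_lit 1406180074) (nat_lit 456) (nat_lit 50053802133) (nat_lit 110) (nat_lit 5) (nat_lit 115) (nat_lit 5) (nat_lit 116) (nat_lit 5) (nat_lit 414) (nat_lit 367) (nat_lit 119)) (XT.lf (nat_lit 0) (nat_lit 26548808088) (nat_lit 456) (nat_lit 17802119184) (nat_lit 76) (nat_lit 22097574523) (nat_lit 110) (nat_lit 5) (nat_lit 116) (nat_lit 5) (nat_lit 111) (nat_lit 5) (nat_lit 415) (nat_lit 367) (nat_lit 118))) (XT.nd (nat_lit 78) (nat_lit 0) (nat_lit 0) (XT.lf (nat_lit 0) (nat_lit 17185625018) (nat_lit 304) (nat_lit 21272441840) (nat_lit 380) (nat_lit 29257419148) (nat_lit 106) (nat_lit 5) (nat_lit 110) (nat_lit 5) (nat_lit 111) (nat_lit 5) (nat_lit 416) (nat_lit 367) (nat_lit 117)) (XT.lf (nat_lit 0) (nat_lit 50929253177) (nat_lit 380) (nat_lit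 15454252421) (nat_lit 76) (nat_lit 2630835109) (nat_lit 106) (nat_lit 5) (nat_lit 111) (nat_lit 5) (nat_lit 107) (nat_lit 5) (nat_lit 417) (nat_lit 367) (nat_lit 116)))))) (XT.nd (nat_lit 43056) (nat_lit 0) (nat_lit 10108) (XT.nd (nat_lit 234) (nat_lit 304) (nat_lit 0) (XT.nd (nat_lit 78) (nat_lit 380) (nat_lit 0) (XT.lf (nat_lit 0) (nat_lit 20868975619) (nat_lit 304) (nat_lit 43315936935) (nat_lit 380) (nat_lit 6154938815) (nat_lit 102) (nat_lit 5) (nat_lit 106) (nat_lit 5) (nat_lit 107) (nat_lit 5) (nat_lit 418) (nat_lit 367) (nat_lit 115)) (XT.nd (nat_lit 78) (nat_lit 304) (nat_lit 0) (XT.lf (nat_lit 0) (nat_lit 6170156617) (nat_lit 380) (nat_lit 13163513509) (nat_lit 76) (nat_lit 52364987342) (nat_lit 101) (nat_lit 5) (nat_lit 106) (nat_lit 5) (nat_lit 102) (nat_lit 5) (nat_lit 419) (nat_lit 367) (nat_lit 114)) (XT.lf (nat_lit 0) (nat_lit 19031957807) (nat_lit 380) (nat_lit 48491913934) (nat_lit 76)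 (nat_lit 5563808384) (nat_lit 97) (nat_lit 5) (nat_lit 102) (nat_lit 5) (nat_lit 98) (nat_lit 5) (nat_lit 420) (nat_lit 367) (nat_lit 113)))) (XT.nd (nat_lit 156) (nat_lit 0) (nat_lit 0) (XT.nd (nat_lit 78) (nat_lit 304) (nat_lit 0) (XT.lf (nat_lit 0) (nat_lit 32604431228) (nat_lit 380) (nat_lit 10950699087) (nat_lit 76) (nat_lit 30953498996) (nat_lit 97) (nat_lit 5) (nat_lit 102) (nat_lit 5) (nat_lit 98) (nat_lit 5) (nat_lit 421) (nat_lit 367) (nat_lit 112)) (XT.lf (nat_lit 0) (nat_lit 28267143830) (nat_lit 304) (nat_lit 18587834689) (nat_lit 380) (nat_lit 29109101845) (nat_lit 93) (nat_lit 5) (nat_lit 97) (nat_lit 5) (nat_lit 98) (nat_lit 5) (nat_lit 422) (nat_lit 367) (nat_lit 111))) (XT.nd (nat_lit 42588) (nat_lit 0) (nat_lit 10108) (XT.lf (nat_lit 0) (nat_lit 61712428389) (nat_lit 380) (nat_lit 8644706418) (nat_lit 76) (nat_lit 7100678928) (nat_lit 93) (nat_lit 5) (nat_lit 98) (nat_lit 5) (nat_lit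 94) (nat_lit 5) (nat_lit 423) (nat_lit 367) (nat_lit 110)) (XT.lf (nat_lit 0) (nat_lit 6678302757) (nat_lit 0) (nat_lit 6678302757) (nat_lit 1140) (nat_lit 1888219056) (nat_lit 226) (nat_lit 5) (nat_lit 226) (nat_lit 3) (nat_lit 241) (nat_lit 3) (nat_lit 368) (nat_lit 368) (nat_lit 164))))) (XT.nd (nat_lit 234) (nat_lit 0) (nat_lit 76) (XT.nd (nat_lit 78) (nat_lit 0) (nat_lit 0) (XT.lf (nat_lit 0) (nat_lit 27190895244) (nat_lit 1140) (nat_lit 2851195164) (nat_lit 1216) (nat_lit 902541027) (nat_lit 226) (nat_lit 5) (nat_lit 241) (nat_lit 3) (nat_lit 242) (nat_lit 5) (nat_lit 369) (nat_lit 368) (nat_lit 163)) (XT.nd (nat_lit 78) (nat_lit 0) (nat_lit 0) (XT.lf (nat_lit 76) (nat_lit 11958800167) (nat_lit 0) (nat_lit 15968662300) (nat_lit 1216) (nat_lit 3478466220) (nat_lit 227) (nat_lit 5) (nat_lit 226) (nat_lit 5) (nat_lit 242) (nat_lit 5) (nat_lit 370) (nat_lit 368) (nat_lit 162)) (XT.lf (nat_lit 76) (nat_lit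 27270131798) (nat_lit 0) (nat_lit 1442203475) (nat_lit 1216) (nat_lit 3167945329) (nat_lit 227) (nat_lit 5) (nat_lit 226) (nat_lit 5) (nat_lit 242) (nat_lit 5) (nat_lit 371) (nat_lit 368) (nat_lit 161)))) (XT.nd (nat_lit 156) (nat_lit 0) (nat_lit 76) (XT.nd (nat_lit 78) (nat_lit 0) (nat_lit 0) (XT.lf (nat_lit 76) (nat_lit 10750297023) (nat_lit 0) (nat_lit 19001261914) (nat_lit 1216) (nat_lit 2610381942) (nat_lit 228) (nat_lit 5) (nat_lit 227) (nat_lit 5) (nat_lit 243) (nat_lit 5) (nat_lit 372) (nat_lit 368) (nat_lit 160)) (XT.lf (nat_lit 76) (nat_lit 26650053306) (nat_lit 0) (nat_lit 4230160826) (nat_lit 1216) (nat_lit 1976091074) (nat_lit 228) (nat_lit 5) (nat_lit 227) (nat_lit 5) (nat_lit 243) (nat_lit 5) (nat_lit 373) (nat_lit 368) (nat_lit 159))) (XT.nd (nat_lit 78) (nat_lit 0) (nat_lit 0) (XT.lf (nat_lit 76) (nat_lit 9744381033) (nat_lit 0) (nat_lit 22495244936) (nat_lit 1216) (nat_lit 1119969421)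 (nat_lit 229) (nat_lit 5) (nat_lit 228) (nat_lit 5) (nat_lit 244) (nat_lit 5) (nat_lit 374) (nat_lit 368) (nat_lit 158)) (XT.lf (nat_lit 76) (nat_lit 26256570128) (nat_lit 0) (nat_lit 7485090122) (nat_lit 1216) (nat_lit 133270603) (nat_lit 229) (nat_lit 5) (nat_lit 228) (nat_lit 5) (nat_lit 244) (nat_lit 5) (nat_lit 375) (nat_lit 368) (nat_lit 157))))))))
noncomputable def xc237 : XT := (XT.nd (nat_lit 2028) (nat_lit 4560) (nat_lit 0) (XT.nd (nat_lit 1014) (nat_lit 3268) (nat_lit 0) (XT.nd (nat_lit 468) (nat_lit 1292) (nat_lit 0) (XT.nd (nat_lit 234) (nat_lit 0) (nat_lit 76) (XT.nd (nat_lit 78) (nat_lit 0) (nat_lit 0) (XT.lf (nat_lit 0) (nat_lit 1027902332) (nat_lit 1216) (nat_lit 25456014265) (nat_lit 1292) (nat_lit 7916693689) (nat_lit 213) (nat_lit 5) (nat_lit 229) (nat_lit 5) (nat_lit 230) (nat_lit 5) (nat_lit 376) (nat_lit 368) (nat_lit 156)) (XT.nd (nat_lit 78) (nat_lit 0) (nat_lit 76) (XT.lf (nat_lit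 0) (nat_lit 2370833056) (nat_lit 1216) (nat_lit 8856865888) (nat_lit 1292) (nat_lit 23709835162) (nat_lit 213) (nat_lit 5) (nat_lit 229) (nat_lit 5) (nat_lit 230) (nat_lit 5) (nat_lit 377) (nat_lit 368) (nat_lit 155)) (XT.lf (nat_lit 0) (nat_lit 3876617360) (nat_lit 1216) (nat_lit 27129402123) (nat_lit 1292) (nat_lit 4480870772) (nat_lit 214) (nat_lit 5) (nat_lit 230) (nat_lit 5) (nat_lit 231) (nat_lit 5) (nat_lit 378) (nat_lit 368) (nat_lit 154)))) (XT.nd (nat_lit 78) (nat_lit 0) (nat_lit 76) (XT.lf (nat_lit 0) (nat_lit 5626980310) (nat_lit 1216) (nat_lit 9893808941) (nat_lit 1292) (nat_lit 20525957218) (nat_lit 214) (nat_lit 5) (nat_lit 230) (nat_lit 5) (nat_lit 231) (nat_lit 5) (nat_lit 379) (nat_lit 368) (nat_lit 153)) (XT.nd (nat_lit 78) (nat_lit 0) (nat_lit 0) (XT.lf (nat_lit 0) (nat_lit 7509756491) (nat_lit 1216) (nat_lit 28612311274) (nat_lit 1292) (nat_lit 498935025) (nat_lit 215) (nat_lit 5)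 (nat_lit 231) (nat_lit 5) (nat_lit 232) (nat_lit 5) (nat_lit 380) (nat_lit 368) (nat_lit 152)) (XT.lf (nat_lit 0) (nat_lit 9701611713) (nat_lit 1216) (nat_lit 10714619355) (nat_lit 1292) (nat_lit 16788679305) (nat_lit 215) (nat_lit 5) (nat_lit 231) (nat_lit 5) (nat_lit 232) (nat_lit 5) (nat_lit 381) (nat_lit 368) (nat_lit 151))))) (XT.nd (nat_lit 234) (nat_lit 1444) (nat_lit 0) (XT.nd (nat_lit 78) (nat_lit 0) (nat_lit 76) (XT.lf (nat_lit 76) (nat_lit 7872111918) (nat_lit 0) (nat_lit 4160867003) (nat_lit 1292) (nat_lit 25771144980) (nat_lit 216) (nat_lit 5) (nat_lit 215) (nat_lit 5) (nat_lit 232) (nat_lit 5) (nat_lit 382) (nat_lit 368) (nat_lit 150)) (XT.nd (nat_lit 78) (nat_lit 0) (nat_lit 0) (XT.lf (nat_lit 0) (nat_lit 14662632370) (nat_lit 1216) (nat_lit 11305553440) (nat_lit 1292) (nat_lit 12446279031) (nat_lit 216) (nat_lit 5) (nat_lit 232) (nat_lit 5) (nat_lit 233) (nat_lit 5) (nat_lit 383) (nat_lit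 368) (nat_lit 149)) (XT.lf (nat_lit 76) (nat_lit 7992967751) (nat_lit 0) (nat_lit 9494422062) (nat_lit 1292) (nat_lit 21552241089) (nat_lit 217) (nat_lit 5) (nat_lit 216) (nat_lit 5) (nat_lit 233) (nat_lit 5) (nat_lit 384) (nat_lit 368) (nat_lit 148)))) (XT.nd (nat_lit 156) (nat_lit 608) (nat_lit 0) (XT.nd (nat_lit 78) (nat_lit 988) (nat_lit 0) (XT.lf (nat_lit 0) (nat_lit 20582250303) (nat_lit 1216) (nat_lit 11652448976) (nat_lit 76) (nat_lit 7443293140) (nat_lit 217) (nat_lit 5) (nat_lit 233) (nat_lit 5) (nat_lit 218) (nat_lit 5) (nat_lit 385) (nat_lit 368) (nat_lit 147)) (XT.lf (nat_lit 0) (nat_lit 8391838977) (nat_lit 988) (nat_lit 15551066666) (nat_lit 1064) (nat_lit 16387411917) (nat_lit 204) (nat_lit 5) (nat_lit 217) (nat_lit 5) (nat_lit 218) (nat_lit 5) (nat_lit 386) (nat_lit 368) (nat_lit 146))) (XT.nd (nat_lit 78) (nat_lit 608) (nat_lit 0) (XT.lf (nat_lit 0) (nat_lit 27537225798) (nat_lit 1064)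 (nat_lit 11740768683) (nat_lit 76) (nat_lit 1720233832) (nat_lit 204) (nat_lit 5) (nat_lit 218) (nat_lit 5) (nat_lit 205) (nat_lit 5) (nat_lit 387) (nat_lit 368) (nat_lit 145)) (XT.lf (nat_lit 0) (nat_lit 9084678838) (nat_lit 608) (nat_lit 22394359373) (nat_lit 684) (nat_lit 10199949474) (nat_lit 196) (nat_lit 5) (nat_lit 204) (nat_lit 5) (nat_lit 205) (nat_lit 5) (nat_lit 388) (nat_lit 368) (nat_lit 144)))))) (XT.nd (nat_lit 468) (nat_lit 1520) (nat_lit 0) (XT.nd (nat_lit 234) (nat_lit 1140) (nat_lit 0) (XT.nd (nat_lit 78) (nat_lit 608) (nat_lit 0) (XT.lf (nat_lit 0) (nat_lit 30774081191) (nat_lit 608) (nat_lit 4881980146) (nat_lit 684) (nat_lit 6720600954) (nat_lit 196) (nat_lit 5) (nat_lit 204) (nat_lit 5) (nat_lit 205) (nat_lit 5) (nat_lit 389) (nat_lit 368) (nat_lit 143)) (XT.nd (nat_lit 78) (nat_lit 76) (nat_lit 0) (XT.lf (nat_lit 0) (nat_lit 10087797888) (nat_lit 532) (nat_lit 30092474051) (nat_lit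 608) (nat_lit 2908340000) (nat_lit 189) (nat_lit 5) (nat_lit 196) (nat_lit 5) (nat_lit 197) (nat_lit 5) (nat_lit 390) (nat_lit 368) (nat_lit 142)) (XT.lf (nat_lit 0) (nat_lit 1163538446) (nat_lit 608) (nat_lit 11212465923) (nat_lit 76) (nat_lit 31440669497) (nat_lit 188) (nat_lit 5) (nat_lit 196) (nat_lit 5) (nat_lit 189) (nat_lit 5) (nat_lit 391) (nat_lit 368) (nat_lit 141)))) (XT.nd (nat_lit 78) (nat_lit 532) (nat_lit 0) (XT.lf (nat_lit 0) (nat_lit 5465237893) (nat_lit 684) (nat_lit 33198120171) (nat_lit 76) (nat_lit 5897373155) (nat_lit 180) (nat_lit 5) (nat_lit 189) (nat_lit 5) (nat_lit 181) (nat_lit 5) (nat_lit 392) (nat_lit 368) (nat_lit 140)) (XT.nd (nat_lit 78) (nat_lit 532) (nat_lit 0) (XT.lf (nat_lit 0) (nat_lit 10131402966) (nat_lit 684) (nat_lit 10604076983) (nat_lit 76) (nat_lit 24584568891) (nat_lit 180) (nat_lit 5) (nat_lit 189) (nat_lit 5) (nat_lit 181) (nat_lit 5) (nat_lit 393) (nat_lit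 368) (nat_lit 139)) (XT.lf (nat_lit 0) (nat_lit 12918423374) (nat_lit 532) (nat_lit 2141887069) (nat_lit 608) (nat_lit 31038153779) (nat_lit 173) (nat_lit 5) (nat_lit 180) (nat_lit 5) (nat_lit 181) (nat_lit 5) (nat_lit 394) (nat_lit 368) (nat_lit 138))))) (XT.nd (nat_lit 234) (nat_lit 988) (nat_lit 0) (XT.nd (nat_lit 78) (nat_lit 532) (nat_lit 0) (XT.lf (nat_lit 0) (nat_lit 20407336496) (nat_lit 608) (nat_lit 9699091055) (nat_lit 76) (nat_lit 16785697903) (nat_lit 173) (nat_lit 5) (nat_lit 181) (nat_lit 5) (nat_lit 174) (nat_lit 5) (nat_lit 395) (nat_lit 368) (nat_lit 137)) (XT.nd (nat_lit 78) (nat_lit 0) (nat_lit 0) (XT.lf (nat_lit 0) (nat_lit 14751501103) (nat_lit 532) (nat_lit 11324925029) (nat_lit 608) (nat_lit 21628321709) (nat_lit 166) (nat_lit 5) (nat_lit 173) (nat_lit 5) (nat_lit 174) (nat_lit 5) (nat_lit 396) (nat_lit 368) (nat_lit 136)) (XT.lf (nat_lit 0) (nat_lit 32090263808) (nat_lit 608) (nat_lit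 8483900885) (nat_lit 76) (nat_lit 7962344820) (nat_lit 166) (nat_lit 5) (nat_lit 174) (nat_lit 5) (nat_lit 167) (nat_lit 5) (nat_lit 397) (nat_lit 368) (nat_lit 135)))) (XT.nd (nat_lit 156) (nat_lit 532) (nat_lit 0) (XT.nd (nat_lit 78) (nat_lit 0) (nat_lit 0) (XT.lf (nat_lit 0) (nat_lit 16936471417) (nat_lit 456) (nat_lit 21621686081) (nat_lit 532) (nat_lit 10826858162) (nat_lit 160) (nat_lit 5) (nat_lit 166) (nat_lit 5) (nat_lit 167) (nat_lit 5) (nat_lit 398) (nat_lit 368) (nat_lit 134)) (XT.lf (nat_lit 0) (nat_lit 43291962924) (nat_lit 456) (nat_lit 2012529133) (nat_lit 532) (nat_lit 4951953638) (nat_lit 160) (nat_lit 5) (nat_lit 166) (nat_lit 5) (nat_lit 167) (nat_lit 5) (nat_lit 399) (nat_lit 368) (nat_lit 133))) (XT.nd (nat_lit 78) (nat_lit 0) (nat_lit 0) (XT.lf (nat_lit 0) (nat_lit 1442226887) (nat_lit 532) (nat_lit 31669150143) (nat_lit 76) (nat_lit 18031391048) (nat_lit 153) (nat_lit 5) (nat_lit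 160) (nat_lit 5) (nat_lit 154) (nat_lit 5) (nat_lit 400) (nat_lit 368) (nat_lit 132)) (XT.lf (nat_lit 0) (nat_lit 8018432148) (nat_lit 532) (nat_lit 5277005655) (nat_lit 76) (nat_lit 38756080347) (nat_lit 153) (nat_lit 5) (nat_lit 160) (nat_lit 5) (nat_lit 154) (nat_lit 5) (nat_lit 401) (nat_lit 368) (nat_lit 131))))))) (XT.nd (nat_lit 1014) (nat_lit 1672) (nat_lit 0) (XT.nd (nat_lit 468) (nat_lit 1216) (nat_lit 0) (XT.nd (nat_lit 234) (nat_lit 760) (nat_lit 0) (XT.nd (nat_lit 78) (nat_lit 456) (nat_lit 0) (XT.lf (nat_lit 0) (nat_lit 15076016103) (nat_lit 532) (nat_lit 30710145508) (nat_lit 76) (nat_lit 7192847070) (nat_lit 147) (nat_lit 5) (nat_lit 154) (nat_lit 5) (nat_lit 148) (nat_lit 5) (nat_lit 402) (nat_lit 368) (nat_lit 130)) (XT.nd (nat_lit 78) (nat_lit 456) (nat_lit 0) (XT.lf (nat_lit 0) (nat_lit 22529614532) (nat_lit 532) (nat_lit 3316999174) (nat_lit 76) (nat_lit 28082182325) (nat_lit 147)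 (nat_lit 5) (nat_lit 154) (nat_lit 5) (nat_lit 148) (nat_lit 5) (nat_lit 403) (nat_lit 368) (nat_lit 129)) (XT.lf (nat_lit 0) (nat_lit 25392083247) (nat_lit 456) (nat_lit 5057689817) (nat_lit 532) (nat_lit 24450016066) (nat_lit 141) (nat_lit 5) (nat_lit 147) (nat_lit 5) (nat_lit 148) (nat_lit 5) (nat_lit 404) (nat_lit 368) (nat_lit 128)))) (XT.nd (nat_lit 78) (nat_lit 760) (nat_lit 0) (XT.lf (nat_lit 0) (nat_lit 38797462383) (nat_lit 532) (nat_lit 1027386699) (nat_lit 76) (nat_lit 16069365827) (nat_lit 141) (nat_lit 5) (nat_lit 148) (nat_lit 5) (nat_lit 142) (nat_lit 5) (nat_lit 405) (nat_lit 368) (nat_lit 127)) (XT.nd (nat_lit 78) (nat_lit 380) (nat_lit 0) (XT.lf (nat_lit 0) (nat_lit 28818286381) (nat_lit 380) (nat_lit 18903309473) (nat_lit 456) (nat_lit 9187097856) (nat_lit 136) (nat_lit 5) (nat_lit 141) (nat_lit 5) (nat_lit 142) (nat_lit 5) (nat_lit 406) (nat_lit 368) (nat_lit 126)) (XT.lf (nat_lit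 0) (nat_lit 1632060128) (nat_lit 380) (nat_lit 55331927430) (nat_lit 456) (nat_lit 988103923) (nat_lit 131) (nat_lit 5) (nat_lit 136) (nat_lit 5) (nat_lit 137) (nat_lit 5) (nat_lit 407) (nat_lit 368) (nat_lit 125))))) (XT.nd (nat_lit 234) (nat_lit 760) (nat_lit 0) (XT.nd (nat_lit 78) (nat_lit 380) (nat_lit 0) (XT.lf (nat_lit 0) (nat_lit 7783919673) (nat_lit 456) (nat_lit 26459257538) (nat_lit 76) (nat_lit 24767287072) (nat_lit 130) (nat_lit 5) (nat_lit 136) (nat_lit 5) (nat_lit 131) (nat_lit 5) (nat_lit 408) (nat_lit 368) (nat_lit 124)) (XT.nd (nat_lit 78) (nat_lit 0) (nat_lit 0) (XT.lf (nat_lit 0) (nat_lit 4371546690) (nat_lit 380) (nat_lit 12468692202) (nat_lit 456) (nat_lit 43258826614) (nat_lit 125) (nat_lit 5) (nat_lit 130) (nat_lit 5) (nat_lit 131) (nat_lit 5) (nat_lit 409) (nat_lit 368) (nat_lit 123)) (XT.lf (nat_lit 0) (nat_lit 26532799434) (nat_lit 456) (nat_lit 24642352342) (nat_lit 76) (nat_lit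 10034237000) (nat_lit 125) (nat_lit 5) (nat_lit 131) (nat_lit 5) (nat_lit 126) (nat_lit 5) (nat_lit 410) (nat_lit 368) (nat_lit 122)))) (XT.nd (nat_lit 156) (nat_lit 380) (nat_lit 0) (XT.nd (nat_lit 78) (nat_lit 0) (nat_lit 0) (XT.lf (nat_lit 0) (nat_lit 7394927742) (nat_lit 380) (nat_lit 29314762958) (nat_lit 456) (nat_lit 25637524973) (nat_lit 120) (nat_lit 5) (nat_lit 125) (nat_lit 5) (nat_lit 126) (nat_lit 5) (nat_lit 411) (nat_lit 368) (nat_lit 121)) (XT.lf (nat_lit 0) (nat_lit 40897192284) (nat_lit 380) (nat_lit 6542569149) (nat_lit 456) (nat_lit 16071980291) (nat_lit 120) (nat_lit 5) (nat_lit 125) (nat_lit 5) (nat_lit 126) (nat_lit 5) (nat_lit 412) (nat_lit 368) (nat_lit 120))) (XT.nd (nat_lit 78) (nat_lit 76) (nat_lit 0) (XT.lf (nat_lit 0) (nat_lit 10739035834) (nat_lit 304) (nat_lit 48017563264) (nat_lit 380) (nat_lit 5946659028) (nat_lit 116) (nat_lit 5) (nat_lit 120) (nat_lit 5) (nat_lit 121)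 (nat_lit 5) (nat_lit 413) (nat_lit 368) (nat_lit 119)) (XT.lf (nat_lit 0) (nat_lit 4689419459) (nat_lit 380) (nat_lit 20478264334) (nat_lit 76) (nat_lit 40752710106) (nat_lit 115) (nat_lit 5) (nat_lit 120) (nat_lit 5) (nat_lit 116) (nat_lit 5) (nat_lit 414) (nat_lit 368) (nat_lit 118)))))) (XT.nd (nat_lit 546) (nat_lit 304) (nat_lit 0) (XT.nd (nat_lit 234) (nat_lit 684) (nat_lit 0) (XT.nd (nat_lit 78) (nat_lit 304) (nat_lit 0) (XT.lf (nat_lit 0) (nat_lit 14229833702) (nat_lit 380) (nat_lit 1431102009) (nat_lit 456) (nat_lit 51507265849) (nat_lit 110) (nat_lit 5) (nat_lit 115) (nat_lit 5) (nat_lit 116) (nat_lit 5) (nat_lit 415) (nat_lit 368) (nat_lit 117)) (XT.nd (nat_lit 78) (nat_lit 304) (nat_lit 0) (XT.lf (nat_lit 0) (nat_lit 27390797252) (nat_lit 456) (nat_lit 18272835315) (nat_lit 76) (nat_lit 22776935345) (nat_lit 110) (nat_lit 5) (nat_lit 116) (nat_lit 5) (nat_lit 111) (nat_lit 5) (nat_lit 416) (nat_lit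 368) (nat_lit 116)) (XT.lf (nat_lit 0) (nat_lit 17763920160) (nat_lit 304) (nat_lit 21892690621) (nat_lit 380) (nat_lit 30088973235) (nat_lit 106) (nat_lit 5) (nat_lit 110) (nat_lit 5) (nat_lit 111) (nat_lit 5) (nat_lit 417) (nat_lit 368) (nat_lit 115)))) (XT.nd (nat_lit 156) (nat_lit 380) (nat_lit 0) (XT.nd (nat_lit 78) (nat_lit 304) (nat_lit 0) (XT.lf (nat_lit 0) (nat_lit 52500795062) (nat_lit 380) (nat_lit 15855821099) (nat_lit 76) (nat_lit 2726822981) (nat_lit 106) (nat_lit 5) (nat_lit 111) (nat_lit 5) (nat_lit 107) (nat_lit 5) (nat_lit 418) (nat_lit 368) (nat_lit 114)) (XT.lf (nat_lit 0) (nat_lit 21556495362) (nat_lit 304) (nat_lit 44596947782) (nat_lit 380) (nat_lit 6295293049) (nat_lit 102) (nat_lit 5) (nat_lit 106) (nat_lit 5) (nat_lit 107) (nat_lit 5) (nat_lit 419) (nat_lit 368) (nat_lit 113))) (XT.nd (nat_lit 78) (nat_lit 304) (nat_lit 0) (XT.lf (nat_lit 0) (nat_lit 6397425973) (nat_lit 380)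 (nat_lit 13497899098) (nat_lit 76) (nat_lit 53953007179) (nat_lit 101) (nat_lit 5) (nat_lit 106) (nat_lit 5) (nat_lit 102) (nat_lit 5) (nat_lit 420) (nat_lit 368) (nat_lit 112)) (XT.lf (nat_lit 0) (nat_lit 19644606157) (nat_lit 380) (nat_lit 49885657074) (nat_lit 76) (nat_lit 5748777190) (nat_lit 97) (nat_lit 5) (nat_lit 102) (nat_lit 5) (nat_lit 98) (nat_lit 5) (nat_lit 421) (nat_lit 368) (nat_lit 111))))) (XT.nd (nat_lit 42822) (nat_lit 0) (nat_lit 10108) (XT.nd (nat_lit 78) (nat_lit 304) (nat_lit 0) (XT.lf (nat_lit 0) (nat_lit 33623039520) (nat_lit 380) (nat_lit 11219982897) (nat_lit 76) (nat_lit 31899632658) (nat_lit 97) (nat_lit 5) (nat_lit 102) (nat_lit 5) (nat_lit 98) (nat_lit 5) (nat_lit 422) (nat_lit 368) (nat_lit 110)) (XT.nd (nat_lit 42666) (nat_lit 0) (nat_lit 10108) (XT.lf (nat_lit 0) (nat_lit 29173814551) (nat_lit 304) (nat_lit 19126673626) (nat_lit 380) (nat_lit 29941300483) (nat_lit 93)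 (nat_lit 5) (nat_lit 97) (nat_lit 5) (nat_lit 98) (nat_lit 5) (nat_lit 423) (nat_lit 368) (nat_lit 109)) (XT.lf (nat_lit 0) (nat_lit 6912393153) (nat_lit 0) (nat_lit 6912393153) (nat_lit 1140) (nat_lit 1875306168) (nat_lit 226) (nat_lit 5) (nat_lit 226) (nat_lit 3) (nat_lit 241) (nat_lit 3) (nat_lit 369) (nat_lit 369) (nat_lit 162)))) (XT.nd (nat_lit 156) (nat_lit 0) (nat_lit 0) (XT.nd (nat_lit 78) (nat_lit 0) (nat_lit 0) (XT.lf (nat_lit 0) (nat_lit 28137026538) (nat_lit 1140) (nat_lit 2866551431) (nat_lit 1216) (nat_lit 865378620) (nat_lit 226) (nat_lit 5) (nat_lit 241) (nat_lit 3) (nat_lit 242) (nat_lit 5) (nat_lit 370) (nat_lit 369) (nat_lit 161)) (XT.lf (nat_lit 76) (nat_lit 12387055726) (nat_lit 0) (nat_lit 16505504860) (nat_lit 1216) (nat_lit 3451629038) (nat_lit 227) (nat_lit 5) (nat_lit 226) (nat_lit 5) (nat_lit 242) (nat_lit 5) (nat_lit 371) (nat_lit 369) (nat_lit 160))) (XT.nd (nat_lit 78) (nat_lit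 0) (nat_lit 76) (XT.lf (nat_lit 76) (nat_lit 28155703279) (nat_lit 0) (nat_lit 1541569280) (nat_lit 1216) (nat_lit 3135613623) (nat_lit 227) (nat_lit 5) (nat_lit 226) (nat_lit 5) (nat_lit 242) (nat_lit 5) (nat_lit 372) (nat_lit 369) (nat_lit 159)) (XT.lf (nat_lit 76) (nat_lit 11143911548) (nat_lit 0) (nat_lit 19620322292) (nat_lit 1216) (nat_lit 2564868390) (nat_lit 228) (nat_lit 5) (nat_lit 227) (nat_lit 5) (nat_lit 243) (nat_lit 5) (nat_lit 373) (nat_lit 369) (nat_lit 158))))))))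
noncomputable def xc238 : XT := (XT.nd (nat_lit 2028) (nat_lit 4788) (nat_lit 0) (XT.nd (nat_lit 1014) (nat_lit 4028) (nat_lit 0) (XT.nd (nat_lit 468) (nat_lit 0) (nat_lit 76) (XT.nd (nat_lit 234) (nat_lit 1064) (nat_lit 0) (XT.nd (nat_lit 78) (nat_lit 0) (nat_lit 76) (XT.lf (nat_lit 76) (nat_lit 27518589483) (nat_lit 0) (nat_lit 4404660331) (nat_lit 1216) (nat_lit 1915155351) (nat_lit 228) (nat_lit 5) (nat_lit 227) (nat_lit 5) (nat_lit 243) (nat_lit 5) (nat_lit 374) (nat_lit 369) (nat_lit 157)) (XT.nd (nat_lit 78) (nat_lit 0) (nat_lit 0) (XT.lf (nat_lit 76) (nat_lit 10109077266) (nat_lit 0) (nat_lit 23211221201) (nat_lit 1216) (nat_lit 1036592582) (nat_lit 229) (nat_lit 5) (nat_lit 228) (nat_lit 5) (nat_lit 244) (nat_lit 5) (nat_lit 375) (nat_lit 369) (nat_lit 156)) (XT.lf (nat_lit 76) (nat_lit 27114524321) (nat_lit 0) (nat_lit 7749564105) (nat_lit 1216) (nat_lit 23699865) (nat_lit 229) (nat_lit 5) (nat_lit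 228) (nat_lit 5) (nat_lit 244) (nat_lit 5) (nat_lit 376) (nat_lit 369) (nat_lit 155)))) (XT.nd (nat_lit 78) (nat_lit 0) (nat_lit 0) (XT.lf (nat_lit 0) (nat_lit 1167184212) (nat_lit 1216) (nat_lit 26144150652) (nat_lit 1292) (nat_lit 8117960136) (nat_lit 213) (nat_lit 5) (nat_lit 229) (nat_lit 5) (nat_lit 230) (nat_lit 5) (nat_lit 377) (nat_lit 369) (nat_lit 154)) (XT.nd (nat_lit 78) (nat_lit 0) (nat_lit 76) (XT.lf (nat_lit 0) (nat_lit 2547244271) (nat_lit 1216) (nat_lit 9049228136) (nat_lit 1292) (nat_lit 24385951224) (nat_lit 213) (nat_lit 5) (nat_lit 229) (nat_lit 5) (nat_lit 230) (nat_lit 5) (nat_lit 378) (nat_lit 369) (nat_lit 153)) (XT.lf (nat_lit 0) (nat_lit 4095542432) (nat_lit 1216) (nat_lit 27867205143) (nat_lit 1292) (nat_lit 4585594948) (nat_lit 214) (nat_lit 5) (nat_lit 230) (nat_lit 5) (nat_lit 231) (nat_lit 5) (nat_lit 379) (nat_lit 369) (nat_lit 152))))) (XT.nd (nat_lit 234) (nat_lit 0)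 (nat_lit 76) (XT.nd (nat_lit 78) (nat_lit 0) (nat_lit 76) (XT.lf (nat_lit 0) (nat_lit 5895427148) (nat_lit 1216) (nat_lit 10116760061) (nat_lit 1292) (nat_lit 21112899092) (nat_lit 214) (nat_lit 5) (nat_lit 230) (nat_lit 5) (nat_lit 231) (nat_lit 5) (nat_lit 380) (nat_lit 369) (nat_lit 151)) (XT.nd (nat_lit 78) (nat_lit 0) (nat_lit 0) (XT.lf (nat_lit 0) (nat_lit 7832254029) (nat_lit 1216) (nat_lit 29394313577) (nat_lit 1292) (nat_lit 490077821) (nat_lit 215) (nat_lit 5) (nat_lit 231) (nat_lit 5) (nat_lit 232) (nat_lit 5) (nat_lit 381) (nat_lit 369) (nat_lit 150)) (XT.lf (nat_lit 0) (nat_lit 10087033700) (nat_lit 1216) (nat_lit 10961915184) (nat_lit 1292) (nat_lit 17269208369) (nat_lit 215) (nat_lit 5) (nat_lit 231) (nat_lit 5) (nat_lit 232) (nat_lit 5) (nat_lit 382) (nat_lit 369) (nat_lit 149)))) (XT.nd (nat_lit 156) (nat_lit 0) (nat_lit 76) (XT.nd (nat_lit 78) (nat_lit 0) (nat_lit 76) (XT.lf (nat_lit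 76) (nat_lit 8181691138) (nat_lit 0) (nat_lit 4304607757) (nat_lit 1292) (nat_lit 26449111597) (nat_lit 216) (nat_lit 5) (nat_lit 215) (nat_lit 5) (nat_lit 232) (nat_lit 5) (nat_lit 383) (nat_lit 369) (nat_lit 148)) (XT.lf (nat_lit 0) (nat_lit 15191976182) (nat_lit 1216) (nat_lit 11570511491) (nat_lit 1292) (nat_lit 12801661917) (nat_lit 216) (nat_lit 5) (nat_lit 232) (nat_lit 5) (nat_lit 233) (nat_lit 5) (nat_lit 384) (nat_lit 369) (nat_lit 147))) (XT.nd (nat_lit 78) (nat_lit 0) (nat_lit 76) (XT.lf (nat_lit 76) (nat_lit 8306237800) (nat_lit 0) (nat_lit 9793339120) (nat_lit 1292) (nat_lit 22108552596) (nat_lit 217) (nat_lit 5) (nat_lit 216) (nat_lit 5) (nat_lit 233) (nat_lit 5) (nat_lit 385) (nat_lit 369) (nat_lit 146)) (XT.lf (nat_lit 0) (nat_lit 21284601333) (nat_lit 1216) (nat_lit 11927938255) (nat_lit 76) (nat_lit 7653184595) (nat_lit 217) (nat_lit 5) (nat_lit 233) (nat_lit 5) (nat_lit 218) (nat_lit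 5) (nat_lit 386) (nat_lit 369) (nat_lit 145)))))) (XT.nd (nat_lit 468) (nat_lit 2128) (nat_lit 0) (XT.nd (nat_lit 234) (nat_lit 608) (nat_lit 0) (XT.nd (nat_lit 78) (nat_lit 608) (nat_lit 0) (XT.lf (nat_lit 0) (nat_lit 8716952021) (nat_lit 988) (nat_lit 16027357136) (nat_lit 1064) (nat_lit 16793364726) (nat_lit 204) (nat_lit 5) (nat_lit 217) (nat_lit 5) (nat_lit 218) (nat_lit 5) (nat_lit 387) (nat_lit 369) (nat_lit 144)) (XT.nd (nat_lit 78) (nat_lit 608) (nat_lit 0) (XT.lf (nat_lit 0) (nat_lit 28443946980) (nat_lit 1064) (nat_lit 12019200596) (nat_lit 76) (nat_lit 1762551481) (nat_lit 204) (nat_lit 5) (nat_lit 218) (nat_lit 5) (nat_lit 205) (nat_lit 5) (nat_lit 388) (nat_lit 369) (nat_lit 143)) (XT.lf (nat_lit 0) (nat_lit 9430286909) (nat_lit 608) (nat_lit 23072081527) (nat_lit 684) (nat_lit 10424563822) (nat_lit 196) (nat_lit 5) (nat_lit 204) (nat_lit 5) (nat_lit 205) (nat_lit 5) (nat_lit 389) (nat_lit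 369) (nat_lit 142)))) (XT.nd (nat_lit 78) (nat_lit 608) (nat_lit 0) (XT.lf (nat_lit 0) (nat_lit 31768243146) (nat_lit 608) (nat_lit 5034159330) (nat_lit 684) (nat_lit 6843205258) (nat_lit 196) (nat_lit 5) (nat_lit 204) (nat_lit 5) (nat_lit 205) (nat_lit 5) (nat_lit 390) (nat_lit 369) (nat_lit 141)) (XT.nd (nat_lit 78) (nat_lit 76) (nat_lit 0) (XT.lf (nat_lit 0) (nat_lit 10463061644) (nat_lit 532) (nat_lit 30997689740) (nat_lit 608) (nat_lit 2918213721) (nat_lit 189) (nat_lit 5) (nat_lit 196) (nat_lit 5) (nat_lit 197) (nat_lit 5) (nat_lit 391) (nat_lit 369) (nat_lit 140)) (XT.lf (nat_lit 0) (nat_lit 1272101478) (nat_lit 608) (nat_lit 11476809587) (nat_lit 76) (nat_lit 32380003301) (nat_lit 188) (nat_lit 5) (nat_lit 196) (nat_lit 5) (nat_lit 189) (nat_lit 5) (nat_lit 392) (nat_lit 369) (nat_lit 139))))) (XT.nd (nat_lit 234) (nat_lit 988) (nat_lit 0) (XT.nd (nat_lit 78) (nat_lit 532) (nat_lit 0) (XT.lf (nat_lit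 0) (nat_lit 5701383782) (nat_lit 684) (nat_lit 34120516784) (nat_lit 76) (nat_lit 6073438374) (nat_lit 180) (nat_lit 5) (nat_lit 189) (nat_lit 5) (nat_lit 181) (nat_lit 5) (nat_lit 393) (nat_lit 369) (nat_lit 138)) (XT.nd (nat_lit 78) (nat_lit 532) (nat_lit 0) (XT.lf (nat_lit 0) (nat_lit 10505431222) (nat_lit 684) (nat_lit 10850794446) (nat_lit 76) (nat_lit 25321274914) (nat_lit 180) (nat_lit 5) (nat_lit 189) (nat_lit 5) (nat_lit 181) (nat_lit 5) (nat_lit 394) (nat_lit 369) (nat_lit 137)) (XT.lf (nat_lit 0) (nat_lit 13376680875) (nat_lit 532) (nat_lit 2204163362) (nat_lit 608) (nat_lit 31898466412) (nat_lit 173) (nat_lit 5) (nat_lit 180) (nat_lit 5) (nat_lit 181) (nat_lit 5) (nat_lit 395) (nat_lit 369) (nat_lit 136)))) (XT.nd (nat_lit 156) (nat_lit 456) (nat_lit 0) (XT.nd (nat_lit 78) (nat_lit 532) (nat_lit 0) (XT.lf (nat_lit 0) (nat_lit 21086297869) (nat_lit 608) (nat_lit 9919390716) (nat_lit 76) (nat_lit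 17291153962) (nat_lit 173) (nat_lit 5) (nat_lit 181) (nat_lit 5) (nat_lit 174) (nat_lit 5) (nat_lit 396) (nat_lit 369) (nat_lit 135)) (XT.lf (nat_lit 0) (nat_lit 15264026333) (nat_lit 532) (nat_lit 11660162633) (nat_lit 608) (nat_lit 22209694071) (nat_lit 166) (nat_lit 5) (nat_lit 173) (nat_lit 5) (nat_lit 174) (nat_lit 5) (nat_lit 397) (nat_lit 369) (nat_lit 134))) (XT.nd (nat_lit 78) (nat_lit 456) (nat_lit 0) (XT.lf (nat_lit 0) (nat_lit 33116576969) (nat_lit 608) (nat_lit 8668569289) (nat_lit 76) (nat_lit 8205508502) (nat_lit 166) (nat_lit 5) (nat_lit 174) (nat_lit 5) (nat_lit 167) (nat_lit 5) (nat_lit 398) (nat_lit 369) (nat_lit 133)) (XT.lf (nat_lit 0) (nat_lit 17513729393) (nat_lit 456) (nat_lit 22263590343) (nat_lit 532) (nat_lit 11087333208) (nat_lit 160) (nat_lit 5) (nat_lit 166) (nat_lit 5) (nat_lit 167) (nat_lit 5) (nat_lit 399) (nat_lit 369) (nat_lit 132))))))) (XT.nd (nat_lit 1014) (nat_lit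 1748) (nat_lit 0) (XT.nd (nat_lit 468) (nat_lit 1596) (nat_lit 0) (XT.nd (nat_lit 234) (nat_lit 912) (nat_lit 0) (XT.nd (nat_lit 78) (nat_lit 532) (nat_lit 0) (XT.lf (nat_lit 0) (nat_lit 44657871164) (nat_lit 456) (nat_lit 2066355181) (nat_lit 532) (nat_lit 5038055258) (nat_lit 160) (nat_lit 5) (nat_lit 166) (nat_lit 5) (nat_lit 167) (nat_lit 5) (nat_lit 400) (nat_lit 369) (nat_lit 131)) (XT.nd (nat_lit 78) (nat_lit 0) (nat_lit 0) (XT.lf (nat_lit 0) (nat_lit 1545672747) (nat_lit 532) (nat_lit 32549721821) (nat_lit 76) (nat_lit 18579813970) (nat_lit 153) (nat_lit 5) (nat_lit 160) (nat_lit 5) (nat_lit 154) (nat_lit 5) (nat_lit 401) (nat_lit 369) (nat_lit 130)) (XT.lf (nat_lit 0) (nat_lit 8317411378) (nat_lit 532) (nat_lit 5367837352) (nat_lit 76) (nat_lit 39926026049) (nat_lit 153) (nat_lit 5) (nat_lit 160) (nat_lit 5) (nat_lit 154) (nat_lit 5) (nat_lit 402) (nat_lit 369) (nat_lit 129)))) (XT.nd (nat_lit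 78) (nat_lit 456) (nat_lit 0) (XT.lf (nat_lit 0) (nat_lit 15585754241) (nat_lit 532) (nat_lit 31562967715) (nat_lit 76) (nat_lit 7417898181) (nat_lit 147) (nat_lit 5) (nat_lit 154) (nat_lit 5) (nat_lit 148) (nat_lit 5) (nat_lit 403) (nat_lit 369) (nat_lit 128)) (XT.nd (nat_lit 78) (nat_lit 456) (nat_lit 0) (XT.lf (nat_lit 0) (nat_lit 23261287099) (nat_lit 532) (nat_lit 3350021618) (nat_lit 76) (nat_lit 28933643619) (nat_lit 147) (nat_lit 5) (nat_lit 154) (nat_lit 5) (nat_lit 148) (nat_lit 5) (nat_lit 404) (nat_lit 369) (nat_lit 127)) (XT.lf (nat_lit 0) (nat_lit 26219681438) (nat_lit 456) (nat_lit 5198377021) (nat_lit 532) (nat_lit 25127047517) (nat_lit 141) (nat_lit 5) (nat_lit 147) (nat_lit 5) (nat_lit 148) (nat_lit 5) (nat_lit 405) (nat_lit 369) (nat_lit 126))))) (XT.nd (nat_lit 234) (nat_lit 836) (nat_lit 0) (XT.nd (nat_lit 78) (nat_lit 760) (nat_lit 0) (XT.lf (nat_lit 0) (nat_lit 40014685634) (nat_lit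 532) (nat_lit 992765228) (nat_lit 76) (nat_lit 16561959416) (nat_lit 141) (nat_lit 5) (nat_lit 148) (nat_lit 5) (nat_lit 142) (nat_lit 5) (nat_lit 406) (nat_lit 369) (nat_lit 125)) (XT.nd (nat_lit 78) (nat_lit 380) (nat_lit 0) (XT.lf (nat_lit 0) (nat_lit 29747636446) (nat_lit 380) (nat_lit 19457977165) (nat_lit 456) (nat_lit 9408738650) (nat_lit 136) (nat_lit 5) (nat_lit 141) (nat_lit 5) (nat_lit 142) (nat_lit 5) (nat_lit 407) (nat_lit 369) (nat_lit 124)) (XT.lf (nat_lit 0) (nat_lit 1746656321) (nat_lit 380) (nat_lit 56977842347) (nat_lit 456) (nat_lit 964577558) (nat_lit 131) (nat_lit 5) (nat_lit 136) (nat_lit 5) (nat_lit 137) (nat_lit 5) (nat_lit 408) (nat_lit 369) (nat_lit 123)))) (XT.nd (nat_lit 156) (nat_lit 380) (nat_lit 0) (XT.nd (nat_lit 78) (nat_lit 380) (nat_lit 0) (XT.lf (nat_lit 0) (nat_lit 8068050812) (nat_lit 456) (nat_lit 27188276729) (nat_lit 76) (nat_lit 25522903746) (nat_lit 130) (nat_lit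 5) (nat_lit 136) (nat_lit 5) (nat_lit 131) (nat_lit 5) (nat_lit 409) (nat_lit 369) (nat_lit 122)) (XT.lf (nat_lit 0) (nat_lit 4566816738) (nat_lit 380) (nat_lit 12828385084) (nat_lit 456) (nat_lit 44505315288) (nat_lit 125) (nat_lit 5) (nat_lit 130) (nat_lit 5) (nat_lit 131) (nat_lit 5) (nat_lit 410) (nat_lit 369) (nat_lit 121))) (XT.nd (nat_lit 78) (nat_lit 380) (nat_lit 0) (XT.lf (nat_lit 0) (nat_lit 27377224074) (nat_lit 456) (nat_lit 25318024955) (nat_lit 76) (nat_lit 10348941310) (nat_lit 125) (nat_lit 5) (nat_lit 131) (nat_lit 5) (nat_lit 126) (nat_lit 5) (nat_lit 411) (nat_lit 369) (nat_lit 120)) (XT.lf (nat_lit 0) (nat_lit 7679750022) (nat_lit 380) (nat_lit 30178866511) (nat_lit 456) (nat_lit 26357560458) (nat_lit 120) (nat_lit 5) (nat_lit 125) (nat_lit 5) (nat_lit 126) (nat_lit 5) (nat_lit 412) (nat_lit 369) (nat_lit 119)))))) (XT.nd (nat_lit 546) (nat_lit 684) (nat_lit 0) (XT.nd (nat_lit 234)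 (nat_lit 684) (nat_lit 0) (XT.nd (nat_lit 78) (nat_lit 380) (nat_lit 0) (XT.lf (nat_lit 0) (nat_lit 42185248293) (nat_lit 380) (nat_lit 6723953664) (nat_lit 456) (nat_lit 16506479249) (nat_lit 120) (nat_lit 5) (nat_lit 125) (nat_lit 5) (nat_lit 126) (nat_lit 5) (nat_lit 413) (nat_lit 369) (nat_lit 118)) (XT.nd (nat_lit 78) (nat_lit 76) (nat_lit 0) (XT.lf (nat_lit 0) (nat_lit 11123004901) (nat_lit 304) (nat_lit 49441925858) (nat_lit 380) (nat_lit 6078031499) (nat_lit 116) (nat_lit 5) (nat_lit 120) (nat_lit 5) (nat_lit 121) (nat_lit 5) (nat_lit 414) (nat_lit 369) (nat_lit 117)) (XT.lf (nat_lit 0) (nat_lit 4874868672) (nat_lit 380) (nat_lit 21031700081) (nat_lit 76) (nat_lit 41990070775) (nat_lit 115) (nat_lit 5) (nat_lit 120) (nat_lit 5) (nat_lit 116) (nat_lit 5) (nat_lit 415) (nat_lit 369) (nat_lit 116)))) (XT.nd (nat_lit 156) (nat_lit 304) (nat_lit 0) (XT.nd (nat_lit 78) (nat_lit 0) (nat_lit 0) (XT.lf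 (nat_lit 0) (nat_lit 14717043718) (nat_lit 380) (nat_lit 1457762595) (nat_lit 456) (nat_lit 53007097503) (nat_lit 110) (nat_lit 5) (nat_lit 115) (nat_lit 5) (nat_lit 116) (nat_lit 5) (nat_lit 416) (nat_lit 369) (nat_lit 115)) (XT.lf (nat_lit 0) (nat_lit 28255432774) (nat_lit 456) (nat_lit 18761309332) (nat_lit 76) (nat_lit 23475733638) (nat_lit 110) (nat_lit 5) (nat_lit 116) (nat_lit 5) (nat_lit 111) (nat_lit 5) (nat_lit 417) (nat_lit 369) (nat_lit 114))) (XT.nd (nat_lit 78) (nat_lit 0) (nat_lit 0) (XT.lf (nat_lit 0) (nat_lit 18355963405) (nat_lit 304) (nat_lit 22532575804) (nat_lit 380) (nat_lit 30948124204) (nat_lit 106) (nat_lit 5) (nat_lit 110) (nat_lit 5) (nat_lit 111) (nat_lit 5) (nat_lit 418) (nat_lit 369) (nat_lit 113)) (XT.lf (nat_lit 0) (nat_lit 54116976694) (nat_lit 380) (nat_lit 16272999272) (nat_lit 76) (nat_lit 2824711014) (nat_lit 106) (nat_lit 5) (nat_lit 111) (nat_lit 5) (nat_lit 107)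 (nat_lit 5) (nat_lit 419) (nat_lit 369) (nat_lit 112))))) (XT.nd (nat_lit 42978) (nat_lit 0) (nat_lit 9804) (XT.nd (nat_lit 78) (nat_lit 380) (nat_lit 0) (XT.lf (nat_lit 0) (nat_lit 22261113188) (nat_lit 304) (nat_lit 45917449052) (nat_lit 380) (nat_lit 6442400562) (nat_lit 102) (nat_lit 5) (nat_lit 106) (nat_lit 5) (nat_lit 107) (nat_lit 5) (nat_lit 420) (nat_lit 369) (nat_lit 111)) (XT.nd (nat_lit 78) (nat_lit 304) (nat_lit 0) (XT.lf (nat_lit 0) (nat_lit 6629092986) (nat_lit 380) (nat_lit 13845790340) (nat_lit 76) (nat_lit 55587687711) (nat_lit 101) (nat_lit 5) (nat_lit 106) (nat_lit 5) (nat_lit 102) (nat_lit 5) (nat_lit 421) (nat_lit 369) (nat_lit 110)) (XT.lf (nat_lit 0) (nat_lit 20273240803) (nat_lit 380) (nat_lit 51324714978) (nat_lit 76) (nat_lit 5938258654) (nat_lit 97) (nat_lit 5) (nat_lit 102) (nat_lit 5) (nat_lit 98) (nat_lit 5) (nat_lit 422) (nat_lit 369) (nat_lit 109)))) (XT.nd (nat_lit 156)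 (nat_lit 0) (nat_lit 0) (XT.nd (nat_lit 78) (nat_lit 0) (nat_lit 0) (XT.lf (nat_lit 0) (nat_lit 7151569372) (nat_lit 0) (nat_lit 7151569372) (nat_lit 1140) (nat_lit 1865998892) (nat_lit 226) (nat_lit 5) (nat_lit 226) (nat_lit 3) (nat_lit 241) (nat_lit 3) (nat_lit 370) (nat_lit 370) (nat_lit 160)) (XT.lf (nat_lit 0) (nat_lit 29104056023) (nat_lit 1140) (nat_lit 2886396981) (nat_lit 1216) (nat_lit 830788900) (nat_lit 226) (nat_lit 5) (nat_lit 241) (nat_lit 3) (nat_lit 242) (nat_lit 5) (nat_lit 371) (nat_lit 370) (nat_lit 159))) (XT.nd (nat_lit 78) (nat_lit 0) (nat_lit 0) (XT.lf (nat_lit 76) (nat_lit 12824169851) (nat_lit 0) (nat_lit 17055135734) (nat_lit 1216) (nat_lit 3431517651) (nat_lit 227) (nat_lit 5) (nat_lit 226) (nat_lit 5) (nat_lit 242) (nat_lit 5) (nat_lit 372) (nat_lit 370) (nat_lit 158)) (XT.lf (nat_lit 76) (nat_lit 29063968993) (nat_lit 0) (nat_lit 1640695706) (nat_lit 1216) (nat_lit 3109623528)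 (nat_lit 227) (nat_lit 5) (nat_lit 226) (nat_lit 5) (nat_lit 242) (nat_lit 5) (nat_lit 373) (nat_lit 370) (nat_lit 157))))))))
noncomputable def xc239 : XT := (XT.nd (nat_lit 2028) (nat_lit 4940) (nat_lit 0) (XT.nd (nat_lit 1014) (nat_lit 3496) (nat_lit 0) (XT.nd (nat_lit 468) (nat_lit 0) (nat_lit 152) (XT.nd (nat_lit 234) (nat_lit 1140) (nat_lit 0) (XT.nd (nat_lit 78) (nat_lit 0) (nat_lit 0) (XT.lf (nat_lit 76) (nat_lit 11545252756) (nat_lit 0) (nat_lit 20255140388) (nat_lit 1216) (nat_lit 2525097494) (nat_lit 228) (nat_lit 5) (nat_lit 227) (nat_lit 5) (nat_lit 243) (nat_lit 5) (nat_lit 374) (nat_lit 370) (nat_lit 156)) (XT.nd (nat_lit 78) (nat_lit 0) (nat_lit 76) (XT.lf (nat_lit 76) (nat_lit 28409218877) (nat_lit 0) (nat_lit 4581662692) (nat_lit 1216) (nat_lit 1859292586) (nat_lit 228) (nat_lit 5) (nat_lit 227) (nat_lit 5) (nat_lit 243) (nat_lit 5) (nat_lit 375) (nat_lit 370) (nat_lit 155)) (XT.lf (nat_lit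 76) (nat_lit 10480560350) (nat_lit 0) (nat_lit 23946316361) (nat_lit 1216) (nat_lit 957429334) (nat_lit 229) (nat_lit 5) (nat_lit 228) (nat_lit 5) (nat_lit 244) (nat_lit 5) (nat_lit 376) (nat_lit 370) (nat_lit 154)))) (XT.nd (nat_lit 78) (nat_lit 0) (nat_lit 76) (XT.lf (nat_lit 0) (nat_lit 81026099) (nat_lit 1216) (nat_lit 7937836358) (nat_lit 1292) (nat_lit 27912339792) (nat_lit 212) (nat_lit 5) (nat_lit 228) (nat_lit 5) (nat_lit 229) (nat_lit 5) (nat_lit 377) (nat_lit 370) (nat_lit 153)) (XT.nd (nat_lit 78) (nat_lit 0) (nat_lit 0) (XT.lf (nat_lit 0) (nat_lit 1304419373) (nat_lit 1216) (nat_lit 26857267667) (nat_lit 1292) (nat_lit 8327344578) (nat_lit 213) (nat_lit 5) (nat_lit 229) (nat_lit 5) (nat_lit 230) (nat_lit 5) (nat_lit 378) (nat_lit 370) (nat_lit 152)) (XT.lf (nat_lit 0) (nat_lit 2722903963) (nat_lit 1216) (nat_lit 9251571481) (nat_lit 1292) (nat_lit 25084370186) (nat_lit 213) (nat_lit 5) (nat_lit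 229) (nat_lit 5) (nat_lit 230) (nat_lit 5) (nat_lit 379) (nat_lit 370) (nat_lit 151))))) (XT.nd (nat_lit 234) (nat_lit 0) (nat_lit 76) (XT.nd (nat_lit 78) (nat_lit 0) (nat_lit 0) (XT.lf (nat_lit 0) (nat_lit 4315144073) (nat_lit 1216) (nat_lit 28631509502) (nat_lit 1292) (nat_lit 4695165862) (nat_lit 214) (nat_lit 5) (nat_lit 230) (nat_lit 5) (nat_lit 231) (nat_lit 5) (nat_lit 380) (nat_lit 370) (nat_lit 150)) (XT.nd (nat_lit 78) (nat_lit 0) (nat_lit 76) (XT.lf (nat_lit 0) (nat_lit 6166207796) (nat_lit 1216) (nat_lit 10350639760) (nat_lit 1292) (nat_lit 21719104575) (nat_lit 214) (nat_lit 5) (nat_lit 230) (nat_lit 5) (nat_lit 231) (nat_lit 5) (nat_lit 381) (nat_lit 370) (nat_lit 149)) (XT.lf (nat_lit 0) (nat_lit 8158846539) (nat_lit 1216) (nat_lit 30204159730) (nat_lit 1292) (nat_lit 482322567) (nat_lit 215) (nat_lit 5) (nat_lit 231) (nat_lit 5) (nat_lit 232) (nat_lit 5) (nat_lit 382) (nat_lit 370) (nat_lit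 148)))) (XT.nd (nat_lit 156) (nat_lit 0) (nat_lit 76) (XT.nd (nat_lit 78) (nat_lit 0) (nat_lit 0) (XT.lf (nat_lit 0) (nat_lit 10478600913) (nat_lit 1216) (nat_lit 11220885984) (nat_lit 1292) (nat_lit 17765481136) (nat_lit 215) (nat_lit 5) (nat_lit 231) (nat_lit 5) (nat_lit 232) (nat_lit 5) (nat_lit 383) (nat_lit 370) (nat_lit 147)) (XT.lf (nat_lit 76) (nat_lit 8496343364) (nat_lit 0) (nat_lit 4451574950) (nat_lit 1292) (nat_lit 27152880230) (nat_lit 216) (nat_lit 5) (nat_lit 215) (nat_lit 5) (nat_lit 232) (nat_lit 5) (nat_lit 384) (nat_lit 370) (nat_lit 146))) (XT.nd (nat_lit 78) (nat_lit 0) (nat_lit 0) (XT.lf (nat_lit 0) (nat_lit 15732064661) (nat_lit 1216) (nat_lit 11847678159) (nat_lit 1292) (nat_lit 13168739878) (nat_lit 216) (nat_lit 5) (nat_lit 232) (nat_lit 5) (nat_lit 233) (nat_lit 5) (nat_lit 385) (nat_lit 370) (nat_lit 145)) (XT.lf (nat_lit 76) (nat_lit 8624687840) (nat_lit 0) (nat_lit 10100415189)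 (nat_lit 1292) (nat_lit 22686734496) (nat_lit 217) (nat_lit 5) (nat_lit 216) (nat_lit 5) (nat_lit 233) (nat_lit 5) (nat_lit 386) (nat_lit 370) (nat_lit 144)))))) (XT.nd (nat_lit 468) (nat_lit 1748) (nat_lit 0) (XT.nd (nat_lit 234) (nat_lit 1140) (nat_lit 0) (XT.nd (nat_lit 78) (nat_lit 988) (nat_lit 0) (XT.lf (nat_lit 0) (nat_lit 22003150231) (nat_lit 1216) (nat_lit 12215944948) (nat_lit 76) (nat_lit 7870142429) (nat_lit 217) (nat_lit 5) (nat_lit 233) (nat_lit 5) (nat_lit 218) (nat_lit 5) (nat_lit 387) (nat_lit 370) (nat_lit 143)) (XT.nd (nat_lit 78) (nat_lit 0) (nat_lit 0) (XT.lf (nat_lit 0) (nat_lit 9047607415) (nat_lit 988) (nat_lit 16517376145) (nat_lit 1064) (nat_lit 17216413902) (nat_lit 204) (nat_lit 5) (nat_lit 217) (nat_lit 5) (nat_lit 218) (nat_lit 5) (nat_lit 388) (nat_lit 370) (nat_lit 142)) (XT.lf (nat_lit 0) (nat_lit 29373242776) (nat_lit 1064) (nat_lit 12310221379) (nat_lit 76) (nat_lit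 1806671906) (nat_lit 204) (nat_lit 5) (nat_lit 218) (nat_lit 5) (nat_lit 205) (nat_lit 5) (nat_lit 389) (nat_lit 370) (nat_lit 141)))) (XT.nd (nat_lit 78) (nat_lit 532) (nat_lit 0) (XT.lf (nat_lit 0) (nat_lit 9782068836) (nat_lit 608) (nat_lit 23769797157) (nat_lit 684) (nat_lit 10660588383) (nat_lit 196) (nat_lit 5) (nat_lit 204) (nat_lit 5) (nat_lit 205) (nat_lit 5) (nat_lit 390) (nat_lit 370) (nat_lit 140)) (XT.nd (nat_lit 78) (nat_lit 532) (nat_lit 0) (XT.lf (nat_lit 0) (nat_lit 32788157742) (nat_lit 608) (nat_lit 5190575551) (nat_lit 684) (nat_lit 6974023402) (nat_lit 196) (nat_lit 5) (nat_lit 204) (nat_lit 5) (nat_lit 205) (nat_lit 5) (nat_lit 391) (nat_lit 370) (nat_lit 139)) (XT.lf (nat_lit 0) (nat_lit 10845414064) (nat_lit 532) (nat_lit 31929921748) (nat_lit 608) (nat_lit 2932825379) (nat_lit 189) (nat_lit 5) (nat_lit 196) (nat_lit 5) (nat_lit 197) (nat_lit 5) (nat_lit 392) (nat_lit 370) (nat_lit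 138))))) (XT.nd (nat_lit 234) (nat_lit 1064) (nat_lit 0) (XT.nd (nat_lit 78) (nat_lit 608) (nat_lit 0) (XT.lf (nat_lit 0) (nat_lit 1379693195) (nat_lit 608) (nat_lit 11753218397) (nat_lit 76) (nat_lit 33347740207) (nat_lit 188) (nat_lit 5) (nat_lit 196) (nat_lit 5) (nat_lit 189) (nat_lit 5) (nat_lit 393) (nat_lit 370) (nat_lit 137)) (XT.nd (nat_lit 78) (nat_lit 0) (nat_lit 0) (XT.lf (nat_lit 0) (nat_lit 5940470119) (nat_lit 684) (nat_lit 35074807194) (nat_lit 76) (nat_lit 6254834687) (nat_lit 180) (nat_lit 5) (nat_lit 189) (nat_lit 5) (nat_lit 181) (nat_lit 5) (nat_lit 394) (nat_lit 370) (nat_lit 136)) (XT.lf (nat_lit 0) (nat_lit 10886657093) (nat_lit 684) (nat_lit 11109012363) (nat_lit 76) (nat_lit 26080129823) (nat_lit 180) (nat_lit 5) (nat_lit 189) (nat_lit 5) (nat_lit 181) (nat_lit 5) (nat_lit 395) (nat_lit 370) (nat_lit 135)))) (XT.nd (nat_lit 156) (nat_lit 532) (nat_lit 0) (XT.nd (nat_lit 78) (nat_lit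 0) (nat_lit 0) (XT.lf (nat_lit 0) (nat_lit 13844627355) (nat_lit 532) (nat_lit 2268421623) (nat_lit 608) (nat_lit 32788654470) (nat_lit 173) (nat_lit 5) (nat_lit 180) (nat_lit 5) (nat_lit 181) (nat_lit 5) (nat_lit 396) (nat_lit 370) (nat_lit 134)) (XT.lf (nat_lit 0) (nat_lit 21781796861) (nat_lit 608) (nat_lit 10150356291) (nat_lit 76) (nat_lit 17811665489) (nat_lit 173) (nat_lit 5) (nat_lit 181) (nat_lit 5) (nat_lit 174) (nat_lit 5) (nat_lit 397) (nat_lit 370) (nat_lit 133))) (XT.nd (nat_lit 78) (nat_lit 0) (nat_lit 0) (XT.lf (nat_lit 0) (nat_lit 15787910170) (nat_lit 532) (nat_lit 12005716266) (nat_lit 608) (nat_lit 22812381076) (nat_lit 166) (nat_lit 5) (nat_lit 173) (nat_lit 5) (nat_lit 174) (nat_lit 5) (nat_lit 398) (nat_lit 370) (nat_lit 132)) (XT.lf (nat_lit 0) (nat_lit 34170028324) (nat_lit 608) (nat_lit 8862787341) (nat_lit 76) (nat_lit 8455720640) (nat_lit 166) (nat_lit 5) (nat_lit 174) (nat_lit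 5) (nat_lit 167) (nat_lit 5) (nat_lit 399) (nat_lit 370) (nat_lit 131))))))) (XT.nd (nat_lit 1014) (nat_lit 1824) (nat_lit 0) (XT.nd (nat_lit 468) (nat_lit 1672) (nat_lit 0) (XT.nd (nat_lit 234) (nat_lit 456) (nat_lit 0) (XT.nd (nat_lit 78) (nat_lit 532) (nat_lit 0) (XT.lf (nat_lit 0) (nat_lit 18104334821) (nat_lit 456) (nat_lit 22925138998) (nat_lit 532) (nat_lit 11359315351) (nat_lit 160) (nat_lit 5) (nat_lit 166) (nat_lit 5) (nat_lit 167) (nat_lit 5) (nat_lit 400) (nat_lit 370) (nat_lit 130)) (XT.nd (nat_lit 78) (nat_lit 532) (nat_lit 0) (XT.lf (nat_lit 0) (nat_lit 46060902004) (nat_lit 456) (nat_lit 2122171997) (nat_lit 532) (nat_lit 5130325214) (nat_lit 160) (nat_lit 5) (nat_lit 166) (nat_lit 5) (nat_lit 167) (nat_lit 5) (nat_lit 401) (nat_lit 370) (nat_lit 129)) (XT.lf (nat_lit 0) (nat_lit 1648767459) (nat_lit 532) (nat_lit 33460700395) (nat_lit 76) (nat_lit 19144260129) (nat_lit 153) (nat_lit 5)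 (nat_lit 160) (nat_lit 5) (nat_lit 154) (nat_lit 5) (nat_lit 402) (nat_lit 370) (nat_lit 128)))) (XT.nd (nat_lit 78) (nat_lit 456) (nat_lit 0) (XT.lf (nat_lit 0) (nat_lit 8622006078) (nat_lit 532) (nat_lit 5465267541) (nat_lit 76) (nat_lit 41130653180) (nat_lit 153) (nat_lit 5) (nat_lit 160) (nat_lit 5) (nat_lit 154) (nat_lit 5) (nat_lit 403) (nat_lit 370) (nat_lit 127)) (XT.nd (nat_lit 78) (nat_lit 0) (nat_lit 0) (XT.lf (nat_lit 0) (nat_lit 16107486219) (nat_lit 532) (nat_lit 32445305745) (nat_lit 76) (nat_lit 7649168936) (nat_lit 147) (nat_lit 5) (nat_lit 154) (nat_lit 5) (nat_lit 148) (nat_lit 5) (nat_lit 404) (nat_lit 370) (nat_lit 126)) (XT.lf (nat_lit 0) (nat_lit 24011707606) (nat_lit 532) (nat_lit 3387851390) (nat_lit 76) (nat_lit 29810132354) (nat_lit 147) (nat_lit 5) (nat_lit 154) (nat_lit 5) (nat_lit 148) (nat_lit 5) (nat_lit 405) (nat_lit 370) (nat_lit 125))))) (XT.nd (nat_lit 234) (nat_lit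 836) (nat_lit 0) (XT.nd (nat_lit 78) (nat_lit 380) (nat_lit 0) (XT.lf (nat_lit 0) (nat_lit 27068328337) (nat_lit 456) (nat_lit 5343918783) (nat_lit 532) (nat_lit 25827631465) (nat_lit 141) (nat_lit 5) (nat_lit 147) (nat_lit 5) (nat_lit 148) (nat_lit 5) (nat_lit 406) (nat_lit 370) (nat_lit 124)) (XT.nd (nat_lit 78) (nat_lit 380) (nat_lit 0) (XT.lf (nat_lit 0) (nat_lit 41265365979) (nat_lit 532) (nat_lit 960861812) (nat_lit 76) (nat_lit 17068727345) (nat_lit 141) (nat_lit 5) (nat_lit 148) (nat_lit 5) (nat_lit 142) (nat_lit 5) (nat_lit 407) (nat_lit 370) (nat_lit 123)) (XT.lf (nat_lit 0) (nat_lit 30701147144) (nat_lit 380) (nat_lit 20029998512) (nat_lit 456) (nat_lit 9640126890) (nat_lit 136) (nat_lit 5) (nat_lit 141) (nat_lit 5) (nat_lit 142) (nat_lit 5) (nat_lit 408) (nat_lit 370) (nat_lit 122)))) (XT.nd (nat_lit 156) (nat_lit 380) (nat_lit 0) (XT.nd (nat_lit 78) (nat_lit 76) (nat_lit 0) (XT.lf (nat_lit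 0) (nat_lit 1860922716) (nat_lit 380) (nat_lit 58673940831) (nat_lit 456) (nat_lit 943397548) (nat_lit 131) (nat_lit 5) (nat_lit 136) (nat_lit 5) (nat_lit 137) (nat_lit 5) (nat_lit 409) (nat_lit 370) (nat_lit 121)) (XT.lf (nat_lit 0) (nat_lit 8357800459) (nat_lit 456) (nat_lit 27942883900) (nat_lit 76) (nat_lit 26300465739) (nat_lit 130) (nat_lit 5) (nat_lit 136) (nat_lit 5) (nat_lit 131) (nat_lit 5) (nat_lit 410) (nat_lit 370) (nat_lit 120))) (XT.nd (nat_lit 78) (nat_lit 0) (nat_lit 0) (XT.lf (nat_lit 0) (nat_lit 4764263929) (nat_lit 380) (nat_lit 13199693527) (nat_lit 456) (nat_lit 45792142082) (nat_lit 125) (nat_lit 5) (nat_lit 130) (nat_lit 5) (nat_lit 131) (nat_lit 5) (nat_lit 411) (nat_lit 370) (nat_lit 119)) (XT.lf (nat_lit 0) (nat_lit 28244200760) (nat_lit 456) (nat_lit 26017618529) (nat_lit 76) (nat_lit 10672301622) (nat_lit 125) (nat_lit 5) (nat_lit 131) (nat_lit 5) (nat_lit 126) (nat_lit 5)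 (nat_lit 412) (nat_lit 370) (nat_lit 118)))))) (XT.nd (nat_lit 546) (nat_lit 380) (nat_lit 0) (XT.nd (nat_lit 234) (nat_lit 760) (nat_lit 0) (XT.nd (nat_lit 78) (nat_lit 304) (nat_lit 0) (XT.lf (nat_lit 0) (nat_lit 7969501980) (nat_lit 380) (nat_lit 31069773711) (nat_lit 456) (nat_lit 27102014989) (nat_lit 120) (nat_lit 5) (nat_lit 125) (nat_lit 5) (nat_lit 126) (nat_lit 5) (nat_lit 413) (nat_lit 370) (nat_lit 117)) (XT.nd (nat_lit 78) (nat_lit 304) (nat_lit 0) (XT.lf (nat_lit 0) (nat_lit 43508436283) (nat_lit 380) (nat_lit 6911634609) (nat_lit 456) (nat_lit 16956749080) (nat_lit 120) (nat_lit 5) (nat_lit 125) (nat_lit 5) (nat_lit 126) (nat_lit 5) (nat_lit 414) (nat_lit 370) (nat_lit 116)) (XT.lf (nat_lit 0) (nat_lit 11514945583) (nat_lit 304) (nat_lit 50909947227) (nat_lit 380) (nat_lit 6216044703) (nat_lit 116) (nat_lit 5) (nat_lit 120) (nat_lit 5) (nat_lit 121) (nat_lit 5) (nat_lit 415) (nat_lit 370)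 (nat_lit 115)))) (XT.nd (nat_lit 156) (nat_lit 304) (nat_lit 0) (XT.nd (nat_lit 78) (nat_lit 380) (nat_lit 0) (XT.lf (nat_lit 0) (nat_lit 5063311574) (nat_lit 380) (nat_lit 21605235508) (nat_lit 76) (nat_lit 43263703869) (nat_lit 115) (nat_lit 5) (nat_lit 120) (nat_lit 5) (nat_lit 116) (nat_lit 5) (nat_lit 416) (nat_lit 370) (nat_lit 114)) (XT.lf (nat_lit 0) (nat_lit 15215407707) (nat_lit 380) (nat_lit 1486157106) (nat_lit 456) (nat_lit 54554529468) (nat_lit 110) (nat_lit 5) (nat_lit 115) (nat_lit 5) (nat_lit 116) (nat_lit 5) (nat_lit 417) (nat_lit 370) (nat_lit 113))) (XT.nd (nat_lit 78) (nat_lit 304) (nat_lit 0) (XT.lf (nat_lit 0) (nat_lit 29143544060) (nat_lit 456) (nat_lit 19267865228) (nat_lit 76) (nat_lit 24194606676) (nat_lit 110) (nat_lit 5) (nat_lit 116) (nat_lit 5) (nat_lit 111) (nat_lit 5) (nat_lit 418) (nat_lit 370) (nat_lit 112)) (XT.lf (nat_lit 0) (nat_lit 18962373893) (nat_lit 304) (nat_lit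 23192627414) (nat_lit 380) (nat_lit 31835547826) (nat_lit 106) (nat_lit 5) (nat_lit 110) (nat_lit 5) (nat_lit 111) (nat_lit 5) (nat_lit 419) (nat_lit 370) (nat_lit 111))))) (XT.nd (nat_lit 43056) (nat_lit 0) (nat_lit 9500) (XT.nd (nat_lit 78) (nat_lit 380) (nat_lit 0) (XT.lf (nat_lit 0) (nat_lit 55779281151) (nat_lit 380) (nat_lit 16706050727) (nat_lit 76) (nat_lit 2924612437) (nat_lit 106) (nat_lit 5) (nat_lit 111) (nat_lit 5) (nat_lit 107) (nat_lit 5) (nat_lit 420) (nat_lit 370) (nat_lit 110)) (XT.nd (nat_lit 78) (nat_lit 76) (nat_lit 0) (XT.lf (nat_lit 0) (nat_lit 22983544533) (nat_lit 304) (nat_lit 47278564602) (nat_lit 380) (nat_lit 6596317995) (nat_lit 102) (nat_lit 5) (nat_lit 106) (nat_lit 5) (nat_lit 107) (nat_lit 5) (nat_lit 421) (nat_lit 370) (nat_lit 109)) (XT.lf (nat_lit 0) (nat_lit 6865428527) (nat_lit 380) (nat_lit 14207392977) (nat_lit 76) (nat_lit 57270485009) (nat_lit 101) (nat_lit 5)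 (nat_lit 106) (nat_lit 5) (nat_lit 102) (nat_lit 5) (nat_lit 422) (nat_lit 370) (nat_lit 108)))) (XT.nd (nat_lit 156) (nat_lit 0) (nat_lit 0) (XT.nd (nat_lit 78) (nat_lit 0) (nat_lit 0) (XT.lf (nat_lit 0) (nat_lit 7396095173) (nat_lit 0) (nat_lit 7396095173) (nat_lit 1140) (nat_lit 1860176180) (nat_lit 226) (nat_lit 5) (nat_lit 226) (nat_lit 3) (nat_lit 241) (nat_lit 3) (nat_lit 371) (nat_lit 371) (nat_lit 158)) (XT.lf (nat_lit 0) (nat_lit 30093040357) (nat_lit 1140) (nat_lit 2910635235) (nat_lit 1216) (nat_lit 798637369) (nat_lit 226) (nat_lit 5) (nat_lit 241) (nat_lit 3) (nat_lit 242) (nat_lit 5) (nat_lit 372) (nat_lit 371) (nat_lit 157))) (XT.nd (nat_lit 78) (nat_lit 0) (nat_lit 0) (XT.lf (nat_lit 76) (nat_lit 13270637292) (nat_lit 0) (nat_lit 17618128979) (nat_lit 1216) (nat_lit 3417901527) (nat_lit 227) (nat_lit 5) (nat_lit 226) (nat_lit 5) (nat_lit 242) (nat_lit 5) (nat_lit 373) (nat_lit 371) (nat_lit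 156)) (XT.lf (nat_lit 76) (nat_lit 29995832087) (nat_lit 0) (nat_lit 1739760435) (nat_lit 1216) (nat_lit 3089745580) (nat_lit 227) (nat_lit 5) (nat_lit 226) (nat_lit 5) (nat_lit 242) (nat_lit 5) (nat_lit 374) (nat_lit 371) (nat_lit 155))))))))
noncomputable def xc240 : XT := (XT.nd (nat_lit 2028) (nat_lit 4560) (nat_lit 0) (XT.nd (nat_lit 1014) (nat_lit 3496) (nat_lit 0) (XT.nd (nat_lit 468) (nat_lit 0) (nat_lit 152) (XT.nd (nat_lit 234) (nat_lit 1140) (nat_lit 0) (XT.nd (nat_lit 78) (nat_lit 0) (nat_lit 0) (XT.lf (nat_lit 76) (nat_lit 11954786756) (nat_lit 0) (nat_lit 20906350474) (nat_lit 1216) (nat_lit 2490833502) (nat_lit 228) (nat_lit 5) (nat_lit 227) (nat_lit 5) (nat_lit 243) (nat_lit 5) (nat_lit 375) (nat_lit 371) (nat_lit 154)) (XT.nd (nat_lit 78) (nat_lit 0) (nat_lit 76) (XT.lf (nat_lit 76) (nat_lit 29322831771) (nat_lit 0) (nat_lit 4761399829) (nat_lit 1216) (nat_lit 1808258822) (nat_lit 228)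 (nat_lit 5) (nat_lit 227) (nat_lit 5) (nat_lit 243) (nat_lit 5) (nat_lit 376) (nat_lit 371) (nat_lit 153)) (XT.lf (nat_lit 76) (nat_lit 10859272350) (nat_lit 0) (nat_lit 24701239477) (nat_lit 1216) (nat_lit 882220622) (nat_lit 229) (nat_lit 5) (nat_lit 228) (nat_lit 5) (nat_lit 244) (nat_lit 5) (nat_lit 377) (nat_lit 371) (nat_lit 152)))) (XT.nd (nat_lit 78) (nat_lit 0) (nat_lit 76) (XT.lf (nat_lit 0) (nat_lit 182392330) (nat_lit 1216) (nat_lit 8111506486) (nat_lit 1292) (nat_lit 28712197997) (nat_lit 212) (nat_lit 5) (nat_lit 228) (nat_lit 5) (nat_lit 229) (nat_lit 5) (nat_lit 378) (nat_lit 371) (nat_lit 151)) (XT.nd (nat_lit 78) (nat_lit 0) (nat_lit 0) (XT.lf (nat_lit 0) (nat_lit 1439903764) (nat_lit 1216) (nat_lit 27595865795) (nat_lit 1292) (nat_lit 8544971153) (nat_lit 213) (nat_lit 5) (nat_lit 229) (nat_lit 5) (nat_lit 230) (nat_lit 5) (nat_lit 379) (nat_lit 371) (nat_lit 150)) (XT.lf (nat_lit 0)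 (nat_lit 2898136528) (nat_lit 1216) (nat_lit 9463953672) (nat_lit 1292) (nat_lit 25805645211) (nat_lit 213) (nat_lit 5) (nat_lit 229) (nat_lit 5) (nat_lit 230) (nat_lit 5) (nat_lit 380) (nat_lit 371) (nat_lit 149))))) (XT.nd (nat_lit 234) (nat_lit 0) (nat_lit 76) (XT.nd (nat_lit 78) (nat_lit 0) (nat_lit 0) (XT.lf (nat_lit 0) (nat_lit 4535780758) (nat_lit 1216) (nat_lit 29422859543) (nat_lit 1292) (nat_lit 4809631042) (nat_lit 214) (nat_lit 5) (nat_lit 230) (nat_lit 5) (nat_lit 231) (nat_lit 5) (nat_lit 381) (nat_lit 371) (nat_lit 148)) (XT.nd (nat_lit 78) (nat_lit 0) (nat_lit 76) (XT.lf (nat_lit 0) (nat_lit 6439720595) (nat_lit 1216) (nat_lit 10595532502) (nat_lit 1292) (nat_lit 22345056551) (nat_lit 214) (nat_lit 5) (nat_lit 230) (nat_lit 5) (nat_lit 231) (nat_lit 5) (nat_lit 382) (nat_lit 371) (nat_lit 147)) (XT.lf (nat_lit 0) (nat_lit 8489977180) (nat_lit 1216) (nat_lit 31042433401) (nat_lit 1292) (nat_lit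 475623814) (nat_lit 215) (nat_lit 5) (nat_lit 231) (nat_lit 5) (nat_lit 232) (nat_lit 5) (nat_lit 383) (nat_lit 371) (nat_lit 146)))) (XT.nd (nat_lit 156) (nat_lit 0) (nat_lit 76) (XT.nd (nat_lit 78) (nat_lit 0) (nat_lit 0) (XT.lf (nat_lit 0) (nat_lit 10876808693) (nat_lit 1216) (nat_lit 11491637689) (nat_lit 1292) (nat_lit 18277893696) (nat_lit 215) (nat_lit 5) (nat_lit 231) (nat_lit 5) (nat_lit 232) (nat_lit 5) (nat_lit 384) (nat_lit 371) (nat_lit 145)) (XT.lf (nat_lit 76) (nat_lit 8816462707) (nat_lit 0) (nat_lit 4601927704) (nat_lit 1292) (nat_lit 27882911340) (nat_lit 216) (nat_lit 5) (nat_lit 215) (nat_lit 5) (nat_lit 232) (nat_lit 5) (nat_lit 385) (nat_lit 371) (nat_lit 144))) (XT.nd (nat_lit 78) (nat_lit 0) (nat_lit 0) (XT.lf (nat_lit 0) (nat_lit 16283514953) (nat_lit 1216) (nat_lit 12137175167) (nat_lit 1292) (nat_lit 13547804435) (nat_lit 216) (nat_lit 5) (nat_lit 232) (nat_lit 5) (nat_lit 233)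 (nat_lit 5) (nat_lit 386) (nat_lit 371) (nat_lit 143)) (XT.lf (nat_lit 76) (nat_lit 8948715407) (nat_lit 0) (nat_lit 10415941449) (nat_lit 1292) (nat_lit 23287145488) (nat_lit 217) (nat_lit 5) (nat_lit 216) (nat_lit 5) (nat_lit 233) (nat_lit 5) (nat_lit 387) (nat_lit 371) (nat_lit 142)))))) (XT.nd (nat_lit 468) (nat_lit 1748) (nat_lit 0) (XT.nd (nat_lit 234) (nat_lit 1140) (nat_lit 0) (XT.nd (nat_lit 78) (nat_lit 988) (nat_lit 0) (XT.lf (nat_lit 0) (nat_lit 22738662647) (nat_lit 1216) (nat_lit 12516600452) (nat_lit 76) (nat_lit 8094334455) (nat_lit 217) (nat_lit 5) (nat_lit 233) (nat_lit 5) (nat_lit 218) (nat_lit 5) (nat_lit 388) (nat_lit 371) (nat_lit 141)) (XT.nd (nat_lit 78) (nat_lit 0) (nat_lit 0) (XT.lf (nat_lit 0) (nat_lit 9384213159) (nat_lit 988) (nat_lit 17021567703) (nat_lit 1064) (nat_lit 17656790035) (nat_lit 204) (nat_lit 5) (nat_lit 217) (nat_lit 5) (nat_lit 218) (nat_lit 5) (nat_lit 389)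 (nat_lit 371) (nat_lit 140)) (XT.lf (nat_lit 0) (nat_lit 30326056032) (nat_lit 1064) (nat_lit 12613965541) (nat_lit 76) (nat_lit 1852618582) (nat_lit 204) (nat_lit 5) (nat_lit 218) (nat_lit 5) (nat_lit 205) (nat_lit 5) (nat_lit 390) (nat_lit 371) (nat_lit 139)))) (XT.nd (nat_lit 78) (nat_lit 532) (nat_lit 0) (XT.lf (nat_lit 0) (nat_lit 10140450611) (nat_lit 608) (nat_lit 24488125481) (nat_lit 684) (nat_lit 10908097283) (nat_lit 196) (nat_lit 5) (nat_lit 204) (nat_lit 5) (nat_lit 205) (nat_lit 5) (nat_lit 391) (nat_lit 371) (nat_lit 138)) (XT.nd (nat_lit 78) (nat_lit 532) (nat_lit 0) (XT.lf (nat_lit 0) (nat_lit 33834831319) (nat_lit 608) (nat_lit 5351374768) (nat_lit 684) (nat_lit 7113041433) (nat_lit 196) (nat_lit 5) (nat_lit 204) (nat_lit 5) (nat_lit 205) (nat_lit 5) (nat_lit 392) (nat_lit 371) (nat_lit 137)) (XT.lf (nat_lit 0) (nat_lit 11235307140) (nat_lit 532) (nat_lit 32889988612) (nat_lit 608) (nat_lit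 2952062141) (nat_lit 189) (nat_lit 5) (nat_lit 196) (nat_lit 5) (nat_lit 197) (nat_lit 5) (nat_lit 393) (nat_lit 371) (nat_lit 136))))) (XT.nd (nat_lit 234) (nat_lit 1064) (nat_lit 0) (XT.nd (nat_lit 78) (nat_lit 608) (nat_lit 0) (XT.lf (nat_lit 0) (nat_lit 1486527174) (nat_lit 608) (nat_lit 12041816948) (nat_lit 76) (nat_lit 34344719503) (nat_lit 188) (nat_lit 5) (nat_lit 196) (nat_lit 5) (nat_lit 189) (nat_lit 5) (nat_lit 394) (nat_lit 371) (nat_lit 135)) (XT.nd (nat_lit 78) (nat_lit 0) (nat_lit 0) (XT.lf (nat_lit 0) (nat_lit 6182822994) (nat_lit 684) (nat_lit 36061705860) (nat_lit 76) (nat_lit 6441719205) (nat_lit 180) (nat_lit 5) (nat_lit 189) (nat_lit 5) (nat_lit 181) (nat_lit 5) (nat_lit 395) (nat_lit 371) (nat_lit 134)) (XT.lf (nat_lit 0) (nat_lit 11275527458) (nat_lit 684) (nat_lit 11378840453) (nat_lit 76) (nat_lit 26861795346) (nat_lit 180) (nat_lit 5) (nat_lit 189) (nat_lit 5) (nat_lit 181)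 (nat_lit 5) (nat_lit 396) (nat_lit 371) (nat_lit 133)))) (XT.nd (nat_lit 156) (nat_lit 532) (nat_lit 0) (XT.nd (nat_lit 78) (nat_lit 0) (nat_lit 0) (XT.lf (nat_lit 0) (nat_lit 14322786474) (nat_lit 532) (nat_lit 2334714784) (nat_lit 608) (nat_lit 33709380808) (nat_lit 173) (nat_lit 5) (nat_lit 180) (nat_lit 5) (nat_lit 181) (nat_lit 5) (nat_lit 397) (nat_lit 371) (nat_lit 132)) (XT.lf (nat_lit 0) (nat_lit 22494549528) (nat_lit 608) (nat_lit 10392074872) (nat_lit 76) (nat_lit 18347690360) (nat_lit 173) (nat_lit 5) (nat_lit 181) (nat_lit 5) (nat_lit 174) (nat_lit 5) (nat_lit 398) (nat_lit 371) (nat_lit 131))) (XT.nd (nat_lit 78) (nat_lit 0) (nat_lit 0) (XT.lf (nat_lit 0) (nat_lit 16323723974) (nat_lit 532) (nat_lit 12361880546) (nat_lit 608) (nat_lit 23436799811) (nat_lit 166) (nat_lit 5) (nat_lit 173) (nat_lit 5) (nat_lit 174) (nat_lit 5) (nat_lit 399) (nat_lit 371) (nat_lit 130)) (XT.lf (nat_lit 0) (nat_lit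 35251641612) (nat_lit 608) (nat_lit 9066611364) (nat_lit 76) (nat_lit 8713206834) (nat_lit 166) (nat_lit 5) (nat_lit 174) (nat_lit 5) (nat_lit 167) (nat_lit 5) (nat_lit 400) (nat_lit 371) (nat_lit 129))))))) (XT.nd (nat_lit 1014) (nat_lit 1444) (nat_lit 0) (XT.nd (nat_lit 468) (nat_lit 1672) (nat_lit 0) (XT.nd (nat_lit 234) (nat_lit 456) (nat_lit 0) (XT.nd (nat_lit 78) (nat_lit 532) (nat_lit 0) (XT.lf (nat_lit 0) (nat_lit 18708916035) (nat_lit 456) (nat_lit 23606899149) (nat_lit 532) (nat_lit 11642937819) (nat_lit 160) (nat_lit 5) (nat_lit 166) (nat_lit 5) (nat_lit 167) (nat_lit 5) (nat_lit 401) (nat_lit 371) (nat_lit 128)) (XT.nd (nat_lit 78) (nat_lit 532) (nat_lit 0) (XT.lf (nat_lit 0) (nat_lit 47502390394) (nat_lit 456) (nat_lit 2180017721) (nat_lit 532) (nat_lit 5228742744) (nat_lit 160) (nat_lit 5) (nat_lit 166) (nat_lit 5) (nat_lit 167) (nat_lit 5) (nat_lit 402) (nat_lit 371) (nat_lit 127)) (XT.lf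 (nat_lit 0) (nat_lit 1751698792) (nat_lit 532) (nat_lit 34402769046) (nat_lit 76) (nat_lit 19725234874) (nat_lit 153) (nat_lit 5) (nat_lit 160) (nat_lit 5) (nat_lit 154) (nat_lit 5) (nat_lit 403) (nat_lit 371) (nat_lit 126)))) (XT.nd (nat_lit 78) (nat_lit 456) (nat_lit 0) (XT.lf (nat_lit 0) (nat_lit 8932577241) (nat_lit 532) (nat_lit 5569271818) (nat_lit 76) (nat_lit 42371026116) (nat_lit 153) (nat_lit 5) (nat_lit 160) (nat_lit 5) (nat_lit 154) (nat_lit 5) (nat_lit 404) (nat_lit 371) (nat_lit 125)) (XT.nd (nat_lit 78) (nat_lit 0) (nat_lit 0) (XT.lf (nat_lit 0) (nat_lit 16641761188) (nat_lit 532) (nat_lit 33357819406) (nat_lit 76) (nat_lit 7886876457) (nat_lit 147) (nat_lit 5) (nat_lit 154) (nat_lit 5) (nat_lit 148) (nat_lit 5) (nat_lit 405) (nat_lit 371) (nat_lit 124)) (XT.lf (nat_lit 0) (nat_lit 24781622312) (nat_lit 532) (nat_lit 3430413621) (nat_lit 76) (nat_lit 30712428998) (nat_lit 147) (nat_lit 5)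 (nat_lit 154) (nat_lit 5) (nat_lit 148) (nat_lit 5) (nat_lit 406) (nat_lit 371) (nat_lit 123))))) (XT.nd (nat_lit 234) (nat_lit 836) (nat_lit 0) (XT.nd (nat_lit 78) (nat_lit 380) (nat_lit 0) (XT.lf (nat_lit 0) (nat_lit 27938872348) (nat_lit 456) (nat_lit 5494424348) (nat_lit 532) (nat_lit 26552288406) (nat_lit 141) (nat_lit 5) (nat_lit 147) (nat_lit 5) (nat_lit 148) (nat_lit 5) (nat_lit 407) (nat_lit 371) (nat_lit 122)) (XT.nd (nat_lit 78) (nat_lit 380) (nat_lit 0) (XT.lf (nat_lit 0) (nat_lit 42550682766) (nat_lit 532) (nat_lit 931542344) (nat_lit 76) (nat_lit 17590129486) (nat_lit 141) (nat_lit 5) (nat_lit 148) (nat_lit 5) (nat_lit 142) (nat_lit 5) (nat_lit 408) (nat_lit 371) (nat_lit 121)) (XT.lf (nat_lit 0) (nat_lit 31679756828) (nat_lit 380) (nat_lit 20619853158) (nat_lit 456) (nat_lit 9881377149) (nat_lit 136) (nat_lit 5) (nat_lit 141) (nat_lit 5) (nat_lit 142) (nat_lit 5) (nat_lit 409) (nat_lit 371)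 (nat_lit 120)))) (XT.nd (nat_lit 156) (nat_lit 380) (nat_lit 0) (XT.nd (nat_lit 78) (nat_lit 76) (nat_lit 0) (XT.lf (nat_lit 0) (nat_lit 1975065702) (nat_lit 380) (nat_lit 60421682116) (nat_lit 456) (nat_lit 924459078) (nat_lit 131) (nat_lit 5) (nat_lit 136) (nat_lit 5) (nat_lit 137) (nat_lit 5) (nat_lit 410) (nat_lit 371) (nat_lit 119)) (XT.lf (nat_lit 0) (nat_lit 8653503955) (nat_lit 456) (nat_lit 28723633298) (nat_lit 76) (nat_lit 27100672926) (nat_lit 130) (nat_lit 5) (nat_lit 136) (nat_lit 5) (nat_lit 131) (nat_lit 5) (nat_lit 411) (nat_lit 371) (nat_lit 118))) (XT.nd (nat_lit 78) (nat_lit 0) (nat_lit 0) (XT.lf (nat_lit 0) (nat_lit 4964164877) (nat_lit 380) (nat_lit 13582918653) (nat_lit 456) (nat_lit 47120348172) (nat_lit 125) (nat_lit 5) (nat_lit 130) (nat_lit 5) (nat_lit 131) (nat_lit 5) (nat_lit 412) (nat_lit 371) (nat_lit 117)) (XT.lf (nat_lit 0) (nat_lit 29134565678) (nat_lit 456) (nat_lit 26741641123)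 (nat_lit 76) (nat_lit 11004622685) (nat_lit 125) (nat_lit 5) (nat_lit 131) (nat_lit 5) (nat_lit 126) (nat_lit 5) (nat_lit 413) (nat_lit 371) (nat_lit 116)))))) (XT.nd (nat_lit 546) (nat_lit 0) (nat_lit 0) (XT.nd (nat_lit 234) (nat_lit 760) (nat_lit 0) (XT.nd (nat_lit 78) (nat_lit 304) (nat_lit 0) (XT.lf (nat_lit 0) (nat_lit 8264539021) (nat_lit 380) (nat_lit 31988238121) (nat_lit 456) (nat_lit 27871459374) (nat_lit 120) (nat_lit 5) (nat_lit 125) (nat_lit 5) (nat_lit 126) (nat_lit 5) (nat_lit 414) (nat_lit 371) (nat_lit 115)) (XT.nd (nat_lit 78) (nat_lit 304) (nat_lit 0) (XT.lf (nat_lit 0) (nat_lit 44868011683) (nat_lit 380) (nat_lit 7105751801) (nat_lit 456) (nat_lit 17423105859) (nat_lit 120) (nat_lit 5) (nat_lit 125) (nat_lit 5) (nat_lit 126) (nat_lit 5) (nat_lit 415) (nat_lit 371) (nat_lit 114)) (XT.lf (nat_lit 0) (nat_lit 11915300667) (nat_lit 304) (nat_lit 52422883870) (nat_lit 380) (nat_lit 6360742897)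 (nat_lit 116) (nat_lit 5) (nat_lit 120) (nat_lit 5) (nat_lit 121) (nat_lit 5) (nat_lit 416) (nat_lit 371) (nat_lit 113)))) (XT.nd (nat_lit 156) (nat_lit 304) (nat_lit 0) (XT.nd (nat_lit 78) (nat_lit 380) (nat_lit 0) (XT.lf (nat_lit 0) (nat_lit 5254985491) (nat_lit 380) (nat_lit 22199272888) (nat_lit 76) (nat_lit 44574746261) (nat_lit 115) (nat_lit 5) (nat_lit 120) (nat_lit 5) (nat_lit 116) (nat_lit 5) (nat_lit 417) (nat_lit 371) (nat_lit 112)) (XT.lf (nat_lit 0) (nat_lit 15725459039) (nat_lit 380) (nat_lit 1516283938) (nat_lit 456) (nat_lit 56150840193) (nat_lit 110) (nat_lit 5) (nat_lit 115) (nat_lit 5) (nat_lit 116) (nat_lit 5) (nat_lit 418) (nat_lit 371) (nat_lit 111))) (XT.nd (nat_lit 78) (nat_lit 304) (nat_lit 0) (XT.lf (nat_lit 0) (nat_lit 30055976787) (nat_lit 456) (nat_lit 19792848697) (nat_lit 76) (nat_lit 24934207747) (nat_lit 110) (nat_lit 5) (nat_lit 116) (nat_lit 5) (nat_lit 111) (nat_lit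 5) (nat_lit 419) (nat_lit 371) (nat_lit 110)) (XT.lf (nat_lit 0) (nat_lit 19583777475) (nat_lit 304) (nat_lit 23873394772) (nat_lit 380) (nat_lit 32751948879) (nat_lit 106) (nat_lit 5) (nat_lit 110) (nat_lit 5) (nat_lit 111) (nat_lit 5) (nat_lit 420) (nat_lit 371) (nat_lit 109))))) (XT.nd (nat_lit 43212) (nat_lit 0) (nat_lit 9120) (XT.nd (nat_lit 43056) (nat_lit 0) (nat_lit 9120) (XT.lf (nat_lit 0) (nat_lit 57489227740) (nat_lit 380) (nat_lit 17155258901) (nat_lit 76) (nat_lit 3026640653) (nat_lit 106) (nat_lit 5) (nat_lit 111) (nat_lit 5) (nat_lit 107) (nat_lit 5) (nat_lit 421) (nat_lit 371) (nat_lit 108)) (XT.nd (nat_lit 78) (nat_lit 0) (nat_lit 0) (XT.lf (nat_lit 0) (nat_lit 7646235847) (nat_lit 0) (nat_lit 7646235847) (nat_lit 1140) (nat_lit 1857726513) (nat_lit 226) (nat_lit 5) (nat_lit 226) (nat_lit 3) (nat_lit 241) (nat_lit 3) (nat_lit 372) (nat_lit 372) (nat_lit 156)) (XT.lf (nat_lit 0) (nat_lit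 31105043230) (nat_lit 1140) (nat_lit 2939179992) (nat_lit 1216) (nat_lit 768797641) (nat_lit 226) (nat_lit 5) (nat_lit 241) (nat_lit 3) (nat_lit 242) (nat_lit 5) (nat_lit 373) (nat_lit 372) (nat_lit 155)))) (XT.nd (nat_lit 156) (nat_lit 0) (nat_lit 76) (XT.nd (nat_lit 78) (nat_lit 0) (nat_lit 0) (XT.lf (nat_lit 76) (nat_lit 13726954492) (nat_lit 0) (nat_lit 18195064943) (nat_lit 1216) (nat_lit 3410568035) (nat_lit 227) (nat_lit 5) (nat_lit 226) (nat_lit 5) (nat_lit 242) (nat_lit 5) (nat_lit 374) (nat_lit 372) (nat_lit 154)) (XT.lf (nat_lit 76) (nat_lit 30952210041) (nat_lit 0) (nat_lit 1838935864) (nat_lit 1216) (nat_lit 3075767522) (nat_lit 227) (nat_lit 5) (nat_lit 226) (nat_lit 5) (nat_lit 242) (nat_lit 5) (nat_lit 375) (nat_lit 372) (nat_lit 153))) (XT.nd (nat_lit 78) (nat_lit 0) (nat_lit 0) (XT.lf (nat_lit 76) (nat_lit 12372980192) (nat_lit 0) (nat_lit 21574596577) (nat_lit 1216) (nat_lit 2461857011)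 (nat_lit 228) (nat_lit 5) (nat_lit 227) (nat_lit 5) (nat_lit 243) (nat_lit 5) (nat_lit 376) (nat_lit 372) (nat_lit 152)) (XT.lf (nat_lit 76) (nat_lit 30260332096) (nat_lit 0) (nat_lit 4944101620) (nat_lit 1216) (nat_lit 1761825523) (nat_lit 228) (nat_lit 5) (nat_lit 227) (nat_lit 5) (nat_lit 243) (nat_lit 5) (nat_lit 377) (nat_lit 372) (nat_lit 151))))))))
noncomputable def xc241 : XT := (XT.nd (nat_lit 2028) (nat_lit 4104) (nat_lit 0) (XT.nd (nat_lit 1014) (nat_lit 3344) (nat_lit 0) (XT.nd (nat_lit 468) (nat_lit 608) (nat_lit 0) (XT.nd (nat_lit 234) (nat_lit 0) (nat_lit 76) (XT.nd (nat_lit 78) (nat_lit 1216) (nat_lit 0) (XT.lf (nat_lit 76) (nat_lit 11245654903) (nat_lit 0) (nat_lit 25476713108) (nat_lit 1216) (nat_lit 810721748) (nat_lit 229) (nat_lit 5) (nat_lit 228) (nat_lit 5) (nat_lit 244) (nat_lit 5) (nat_lit 378) (nat_lit 372) (nat_lit 150)) (XT.nd (nat_lit 78) (nat_lit 0) (nat_lit 76) (XT.lf (nat_lit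 0) (nat_lit 281120249) (nat_lit 1216) (nat_lit 8294087271) (nat_lit 1292) (nat_lit 29538205290) (nat_lit 212) (nat_lit 5) (nat_lit 228) (nat_lit 5) (nat_lit 229) (nat_lit 5) (nat_lit 379) (nat_lit 372) (nat_lit 149)) (XT.lf (nat_lit 0) (nat_lit 1573921698) (nat_lit 1216) (nat_lit 28360474824) (nat_lit 1292) (nat_lit 8770974579) (nat_lit 213) (nat_lit 5) (nat_lit 229) (nat_lit 5) (nat_lit 230) (nat_lit 5) (nat_lit 380) (nat_lit 372) (nat_lit 148)))) (XT.nd (nat_lit 78) (nat_lit 0) (nat_lit 76) (XT.lf (nat_lit 0) (nat_lit 3073256179) (nat_lit 1216) (nat_lit 9686448064) (nat_lit 1292) (nat_lit 26550352715) (nat_lit 213) (nat_lit 5) (nat_lit 229) (nat_lit 5) (nat_lit 230) (nat_lit 5) (nat_lit 381) (nat_lit 372) (nat_lit 147)) (XT.nd (nat_lit 78) (nat_lit 0) (nat_lit 0) (XT.lf (nat_lit 0) (nat_lit 4757802302) (nat_lit 1216) (nat_lit 30241830328) (nat_lit 1292) (nat_lit 4929045060) (nat_lit 214) (nat_lit 5)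 (nat_lit 230) (nat_lit 5) (nat_lit 231) (nat_lit 5) (nat_lit 382) (nat_lit 372) (nat_lit 146)) (XT.lf (nat_lit 0) (nat_lit 6716356991) (nat_lit 1216) (nat_lit 10851539253) (nat_lit 1292) (nat_lit 22991257846) (nat_lit 214) (nat_lit 5) (nat_lit 230) (nat_lit 5) (nat_lit 231) (nat_lit 5) (nat_lit 383) (nat_lit 372) (nat_lit 145))))) (XT.nd (nat_lit 234) (nat_lit 836) (nat_lit 0) (XT.nd (nat_lit 78) (nat_lit 0) (nat_lit 0) (XT.lf (nat_lit 0) (nat_lit 8826084021) (nat_lit 1216) (nat_lit 31909750214) (nat_lit 1292) (nat_lit 469939252) (nat_lit 215) (nat_lit 5) (nat_lit 231) (nat_lit 5) (nat_lit 232) (nat_lit 5) (nat_lit 384) (nat_lit 372) (nat_lit 144)) (XT.nd (nat_lit 78) (nat_lit 0) (nat_lit 0) (XT.lf (nat_lit 0) (nat_lit 11282149387) (nat_lit 1216) (nat_lit 11774293432) (nat_lit 1292) (nat_lit 18806858394) (nat_lit 215) (nat_lit 5) (nat_lit 231) (nat_lit 5) (nat_lit 232) (nat_lit 5) (nat_lit 385) (nat_lit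 372) (nat_lit 143)) (XT.lf (nat_lit 76) (nat_lit 9142441217) (nat_lit 0) (nat_lit 4755826335) (nat_lit 1292) (nat_lit 28639697203) (nat_lit 216) (nat_lit 5) (nat_lit 215) (nat_lit 5) (nat_lit 232) (nat_lit 5) (nat_lit 386) (nat_lit 372) (nat_lit 142)))) (XT.nd (nat_lit 156) (nat_lit 912) (nat_lit 0) (XT.nd (nat_lit 78) (nat_lit 0) (nat_lit 0) (XT.lf (nat_lit 0) (nat_lit 16846945798) (nat_lit 1216) (nat_lit 12439141929) (nat_lit 1292) (nat_lit 13939159258) (nat_lit 216) (nat_lit 5) (nat_lit 232) (nat_lit 5) (nat_lit 233) (nat_lit 5) (nat_lit 387) (nat_lit 372) (nat_lit 141)) (XT.lf (nat_lit 76) (nat_lit 9278716063) (nat_lit 0) (nat_lit 10740215153) (nat_lit 1292) (nat_lit 23910172104) (nat_lit 217) (nat_lit 5) (nat_lit 216) (nat_lit 5) (nat_lit 233) (nat_lit 5) (nat_lit 388) (nat_lit 372) (nat_lit 140))) (XT.nd (nat_lit 78) (nat_lit 988) (nat_lit 0) (XT.lf (nat_lit 0) (nat_lit 23491911138) (nat_lit 1216)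 (nat_lit 12830054122) (nat_lit 76) (nat_lit 8325936053) (nat_lit 217) (nat_lit 5) (nat_lit 233) (nat_lit 5) (nat_lit 218) (nat_lit 5) (nat_lit 389) (nat_lit 372) (nat_lit 139)) (XT.lf (nat_lit 0) (nat_lit 9727175619) (nat_lit 988) (nat_lit 17540387300) (nat_lit 1064) (nat_lit 18114746838) (nat_lit 204) (nat_lit 5) (nat_lit 217) (nat_lit 5) (nat_lit 218) (nat_lit 5) (nat_lit 390) (nat_lit 372) (nat_lit 138)))))) (XT.nd (nat_lit 468) (nat_lit 1520) (nat_lit 0) (XT.nd (nat_lit 234) (nat_lit 1216) (nat_lit 0) (XT.nd (nat_lit 78) (nat_lit 608) (nat_lit 0) (XT.lf (nat_lit 0) (nat_lit 31303342636) (nat_lit 1064) (nat_lit 12930585582) (nat_lit 76) (nat_lit 1900417441) (nat_lit 204) (nat_lit 5) (nat_lit 218) (nat_lit 5) (nat_lit 205) (nat_lit 5) (nat_lit 391) (nat_lit 372) (nat_lit 137)) (XT.nd (nat_lit 78) (nat_lit 0) (nat_lit 0) (XT.lf (nat_lit 0) (nat_lit 10505857183) (nat_lit 608) (nat_lit 25227703178) (nat_lit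 684) (nat_lit 11167182269) (nat_lit 196) (nat_lit 5) (nat_lit 204) (nat_lit 5) (nat_lit 205) (nat_lit 5) (nat_lit 392) (nat_lit 372) (nat_lit 136)) (XT.lf (nat_lit 0) (nat_lit 34909286990) (nat_lit 608) (nat_lit 5516706236) (nat_lit 684) (nat_lit 7260259925) (nat_lit 196) (nat_lit 5) (nat_lit 204) (nat_lit 5) (nat_lit 205) (nat_lit 5) (nat_lit 393) (nat_lit 372) (nat_lit 135)))) (XT.nd (nat_lit 78) (nat_lit 684) (nat_lit 0) (XT.lf (nat_lit 0) (nat_lit 11633192685) (nat_lit 532) (nat_lit 33878732961) (nat_lit 608) (nat_lit 2975822422) (nat_lit 189) (nat_lit 5) (nat_lit 196) (nat_lit 5) (nat_lit 197) (nat_lit 5) (nat_lit 394) (nat_lit 372) (nat_lit 134)) (XT.nd (nat_lit 78) (nat_lit 608) (nat_lit 0) (XT.lf (nat_lit 0) (nat_lit 1592809466) (nat_lit 608) (nat_lit 12342747204) (nat_lit 76) (nat_lit 35371806389) (nat_lit 188) (nat_lit 5) (nat_lit 196) (nat_lit 5) (nat_lit 189) (nat_lit 5) (nat_lit 395) (nat_lit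 372) (nat_lit 133)) (XT.lf (nat_lit 0) (nat_lit 6428764627) (nat_lit 684) (nat_lit 37081962589) (nat_lit 76) (nat_lit 6634253915) (nat_lit 180) (nat_lit 5) (nat_lit 189) (nat_lit 5) (nat_lit 181) (nat_lit 5) (nat_lit 396) (nat_lit 372) (nat_lit 132))))) (XT.nd (nat_lit 234) (nat_lit 988) (nat_lit 0) (XT.nd (nat_lit 78) (nat_lit 532) (nat_lit 0) (XT.lf (nat_lit 0) (nat_lit 11672489344) (nat_lit 684) (nat_lit 11660405231) (nat_lit 76) (nat_lit 27666953221) (nat_lit 180) (nat_lit 5) (nat_lit 189) (nat_lit 5) (nat_lit 181) (nat_lit 5) (nat_lit 397) (nat_lit 372) (nat_lit 131)) (XT.nd (nat_lit 78) (nat_lit 0) (nat_lit 0) (XT.lf (nat_lit 0) (nat_lit 14811684224) (nat_lit 532) (nat_lit 2403097742) (nat_lit 608) (nat_lit 34661341564) (nat_lit 173) (nat_lit 5) (nat_lit 180) (nat_lit 5) (nat_lit 181) (nat_lit 5) (nat_lit 398) (nat_lit 372) (nat_lit 130)) (XT.lf (nat_lit 0) (nat_lit 23225280784) (nat_lit 608) (nat_lit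 10644649534) (nat_lit 76) (nat_lit 18899699831) (nat_lit 173) (nat_lit 5) (nat_lit 181) (nat_lit 5) (nat_lit 174) (nat_lit 5) (nat_lit 399) (nat_lit 372) (nat_lit 129)))) (XT.nd (nat_lit 156) (nat_lit 456) (nat_lit 0) (XT.nd (nat_lit 78) (nat_lit 0) (nat_lit 0) (XT.lf (nat_lit 0) (nat_lit 16872043006) (nat_lit 532) (nat_lit 12728959786) (nat_lit 608) (nat_lit 24083392638) (nat_lit 166) (nat_lit 5) (nat_lit 173) (nat_lit 5) (nat_lit 174) (nat_lit 5) (nat_lit 400) (nat_lit 372) (nat_lit 128)) (XT.lf (nat_lit 0) (nat_lit 36362459253) (nat_lit 608) (nat_lit 9280112582) (nat_lit 76) (nat_lit 8978198642) (nat_lit 166) (nat_lit 5) (nat_lit 174) (nat_lit 5) (nat_lit 167) (nat_lit 5) (nat_lit 401) (nat_lit 372) (nat_lit 127))) (XT.nd (nat_lit 78) (nat_lit 0) (nat_lit 0) (XT.lf (nat_lit 0) (nat_lit 19328107137) (nat_lit 456) (nat_lit 24309456186) (nat_lit 532) (nat_lit 11938350006) (nat_lit 160) (nat_lit 5) (nat_lit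 166) (nat_lit 5) (nat_lit 167) (nat_lit 5) (nat_lit 402) (nat_lit 372) (nat_lit 126)) (XT.lf (nat_lit 0) (nat_lit 48983698631) (nat_lit 456) (nat_lit 2239932876) (nat_lit 532) (nat_lit 5333298281) (nat_lit 160) (nat_lit 5) (nat_lit 166) (nat_lit 5) (nat_lit 167) (nat_lit 5) (nat_lit 403) (nat_lit 372) (nat_lit 125))))))) (XT.nd (nat_lit 1014) (nat_lit 1064) (nat_lit 0) (XT.nd (nat_lit 468) (nat_lit 1596) (nat_lit 0) (XT.nd (nat_lit 234) (nat_lit 456) (nat_lit 0) (XT.nd (nat_lit 78) (nat_lit 456) (nat_lit 0) (XT.lf (nat_lit 0) (nat_lit 1854648766) (nat_lit 532) (nat_lit 35376644594) (nat_lit 76) (nat_lit 20323257299) (nat_lit 153) (nat_lit 5) (nat_lit 160) (nat_lit 5) (nat_lit 154) (nat_lit 5) (nat_lit 404) (nat_lit 372) (nat_lit 124)) (XT.nd (nat_lit 78) (nat_lit 456) (nat_lit 0) (XT.lf (nat_lit 0) (nat_lit 9249485636) (nat_lit 532) (nat_lit 5679837815) (nat_lit 76) (nat_lit 43648239792) (nat_lit 153)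 (nat_lit 5) (nat_lit 160) (nat_lit 5) (nat_lit 154) (nat_lit 5) (nat_lit 405) (nat_lit 372) (nat_lit 123)) (XT.lf (nat_lit 0) (nat_lit 17189133905) (nat_lit 532) (nat_lit 34301201259) (nat_lit 76) (nat_lit 8131242628) (nat_lit 147) (nat_lit 5) (nat_lit 154) (nat_lit 5) (nat_lit 148) (nat_lit 5) (nat_lit 406) (nat_lit 372) (nat_lit 122)))) (XT.nd (nat_lit 78) (nat_lit 456) (nat_lit 0) (XT.lf (nat_lit 0) (nat_lit 25571789313) (nat_lit 532) (nat_lit 3477643768) (nat_lit 76) (nat_lit 31641335729) (nat_lit 147) (nat_lit 5) (nat_lit 154) (nat_lit 5) (nat_lit 148) (nat_lit 5) (nat_lit 407) (nat_lit 372) (nat_lit 121)) (XT.nd (nat_lit 78) (nat_lit 0) (nat_lit 0) (XT.lf (nat_lit 0) (nat_lit 28832174875) (nat_lit 456) (nat_lit 5650008329) (nat_lit 532) (nat_lit 27301565134) (nat_lit 141) (nat_lit 5) (nat_lit 147) (nat_lit 5) (nat_lit 148) (nat_lit 5) (nat_lit 408) (nat_lit 372) (nat_lit 120)) (XT.lf (nat_lit 0)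 (nat_lit 43871840640) (nat_lit 532) (nat_lit 904681072) (nat_lit 76) (nat_lit 18126637519) (nat_lit 141) (nat_lit 5) (nat_lit 148) (nat_lit 5) (nat_lit 142) (nat_lit 5) (nat_lit 409) (nat_lit 372) (nat_lit 119))))) (XT.nd (nat_lit 234) (nat_lit 760) (nat_lit 0) (XT.nd (nat_lit 78) (nat_lit 456) (nat_lit 0) (XT.lf (nat_lit 0) (nat_lit 32684419747) (nat_lit 380) (nat_lit 21228037490) (nat_lit 456) (nat_lit 10132617645) (nat_lit 136) (nat_lit 5) (nat_lit 141) (nat_lit 5) (nat_lit 142) (nat_lit 5) (nat_lit 410) (nat_lit 372) (nat_lit 118)) (XT.nd (nat_lit 78) (nat_lit 76) (nat_lit 0) (XT.lf (nat_lit 0) (nat_lit 2089285440) (nat_lit 380) (nat_lit 62222571867) (nat_lit 456) (nat_lit 907664245) (nat_lit 131) (nat_lit 5) (nat_lit 136) (nat_lit 5) (nat_lit 137) (nat_lit 5) (nat_lit 411) (nat_lit 372) (nat_lit 117)) (XT.lf (nat_lit 0) (nat_lit 8955497124) (nat_lit 456) (nat_lit 29531108043) (nat_lit 76) (nat_lit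 27924243792) (nat_lit 130) (nat_lit 5) (nat_lit 136) (nat_lit 5) (nat_lit 131) (nat_lit 5) (nat_lit 412) (nat_lit 372) (nat_lit 116)))) (XT.nd (nat_lit 156) (nat_lit 380) (nat_lit 0) (XT.nd (nat_lit 78) (nat_lit 0) (nat_lit 0) (XT.lf (nat_lit 0) (nat_lit 5166792368) (nat_lit 380) (nat_lit 13978373336) (nat_lit 456) (nat_lit 48491015671) (nat_lit 125) (nat_lit 5) (nat_lit 130) (nat_lit 5) (nat_lit 131) (nat_lit 5) (nat_lit 413) (nat_lit 372) (nat_lit 115)) (XT.lf (nat_lit 0) (nat_lit 30049170935) (nat_lit 456) (nat_lit 27490628069) (nat_lit 76) (nat_lit 11346215805) (nat_lit 125) (nat_lit 5) (nat_lit 131) (nat_lit 5) (nat_lit 126) (nat_lit 5) (nat_lit 414) (nat_lit 372) (nat_lit 114))) (XT.nd (nat_lit 78) (nat_lit 0) (nat_lit 0) (XT.lf (nat_lit 0) (nat_lit 8565215300) (nat_lit 380) (nat_lit 32935038812) (nat_lit 456) (nat_lit 28666490832) (nat_lit 120) (nat_lit 5) (nat_lit 125) (nat_lit 5) (nat_lit 126)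 (nat_lit 5) (nat_lit 415) (nat_lit 372) (nat_lit 113)) (XT.lf (nat_lit 0) (nat_lit 46265256023) (nat_lit 380) (nat_lit 7306452071) (nat_lit 456) (nat_lit 17905884158) (nat_lit 120) (nat_lit 5) (nat_lit 125) (nat_lit 5) (nat_lit 126) (nat_lit 5) (nat_lit 416) (nat_lit 372) (nat_lit 112)))))) (XT.nd (nat_lit 43602) (nat_lit 0) (nat_lit 8056) (XT.nd (nat_lit 234) (nat_lit 304) (nat_lit 0) (XT.nd (nat_lit 78) (nat_lit 456) (nat_lit 0) (XT.lf (nat_lit 0) (nat_lit 12324514533) (nat_lit 304) (nat_lit 53982033036) (nat_lit 380) (nat_lit 6512180560) (nat_lit 116) (nat_lit 5) (nat_lit 120) (nat_lit 5) (nat_lit 121) (nat_lit 5) (nat_lit 417) (nat_lit 372) (nat_lit 111)) (XT.nd (nat_lit 78) (nat_lit 380) (nat_lit 0) (XT.lf (nat_lit 0) (nat_lit 5450126403) (nat_lit 380) (nat_lit 22814238080) (nat_lit 76) (nat_lit 45924366135) (nat_lit 115) (nat_lit 5) (nat_lit 120) (nat_lit 5) (nat_lit 116) (nat_lit 5) (nat_lit 418)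 (nat_lit 372) (nat_lit 110)) (XT.lf (nat_lit 0) (nat_lit 16247735677) (nat_lit 380) (nat_lit 1548144515) (nat_lit 456) (nat_lit 57797355070) (nat_lit 110) (nat_lit 5) (nat_lit 115) (nat_lit 5) (nat_lit 116) (nat_lit 5) (nat_lit 419) (nat_lit 372) (nat_lit 109)))) (XT.nd (nat_lit 43212) (nat_lit 0) (nat_lit 9120) (XT.nd (nat_lit 78) (nat_lit 304) (nat_lit 0) (XT.lf (nat_lit 0) (nat_lit 30993593884) (nat_lit 456) (nat_lit 20336627100) (nat_lit 76) (nat_lit 25695206805) (nat_lit 110) (nat_lit 5) (nat_lit 116) (nat_lit 5) (nat_lit 111) (nat_lit 5) (nat_lit 420) (nat_lit 372) (nat_lit 108)) (XT.lf (nat_lit 0) (nat_lit 20220807592) (nat_lit 304) (nat_lit 24575446870) (nat_lit 380) (nat_lit 33698061515) (nat_lit 106) (nat_lit 5) (nat_lit 110) (nat_lit 5) (nat_lit 111) (nat_lit 5) (nat_lit 421) (nat_lit 372) (nat_lit 107))) (XT.nd (nat_lit 78) (nat_lit 0) (nat_lit 0) (XT.lf (nat_lit 0) (nat_lit 7902258627) (nat_lit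 0) (nat_lit 7902258627) (nat_lit 1140) (nat_lit 1858547429) (nat_lit 226) (nat_lit 5) (nat_lit 226) (nat_lit 3) (nat_lit 241) (nat_lit 3) (nat_lit 373) (nat_lit 373) (nat_lit 154)) (XT.lf (nat_lit 0) (nat_lit 32141136993) (nat_lit 1140) (nat_lit 2971954976) (nat_lit 1216) (nat_lit 741150996) (nat_lit 226) (nat_lit 5) (nat_lit 241) (nat_lit 3) (nat_lit 242) (nat_lit 5) (nat_lit 374) (nat_lit 373) (nat_lit 153))))) (XT.nd (nat_lit 234) (nat_lit 1064) (nat_lit 0) (XT.nd (nat_lit 78) (nat_lit 0) (nat_lit 0) (XT.lf (nat_lit 76) (nat_lit 14193620401) (nat_lit 0) (nat_lit 18786531081) (nat_lit 1216) (nat_lit 3409321556) (nat_lit 227) (nat_lit 5) (nat_lit 226) (nat_lit 5) (nat_lit 242) (nat_lit 5) (nat_lit 375) (nat_lit 373) (nat_lit 152)) (XT.nd (nat_lit 78) (nat_lit 0) (nat_lit 76) (XT.lf (nat_lit 76) (nat_lit 31934035832) (nat_lit 0) (nat_lit 1938389561) (nat_lit 1216) (nat_lit 3067493441) (nat_lit 227) (nat_lit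 5) (nat_lit 226) (nat_lit 5) (nat_lit 242) (nat_lit 5) (nat_lit 376) (nat_lit 373) (nat_lit 151)) (XT.lf (nat_lit 76) (nat_lit 12800301026) (nat_lit 0) (nat_lit 22260533305) (nat_lit 1216) (nat_lit 2437964115) (nat_lit 228) (nat_lit 5) (nat_lit 227) (nat_lit 5) (nat_lit 243) (nat_lit 5) (nat_lit 377) (nat_lit 373) (nat_lit 150)))) (XT.nd (nat_lit 156) (nat_lit 1140) (nat_lit 0) (XT.nd (nat_lit 78) (nat_lit 0) (nat_lit 76) (XT.lf (nat_lit 76) (nat_lit 31222638592) (nat_lit 0) (nat_lit 5129996348) (nat_lit 1216) (nat_lit 1719778729) (nat_lit 228) (nat_lit 5) (nat_lit 227) (nat_lit 5) (nat_lit 243) (nat_lit 5) (nat_lit 378) (nat_lit 373) (nat_lit 149)) (XT.lf (nat_lit 76) (nat_lit 11640149994) (nat_lit 0) (nat_lit 26273474154) (nat_lit 1216) (nat_lit 742701528) (nat_lit 229) (nat_lit 5) (nat_lit 228) (nat_lit 5) (nat_lit 244) (nat_lit 5) (nat_lit 379) (nat_lit 373) (nat_lit 148))) (XT.nd (nat_lit 78) (nat_lit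 0) (nat_lit 76) (XT.lf (nat_lit 0) (nat_lit 377456721) (nat_lit 1216) (nat_lit 8485633604) (nat_lit 1292) (nat_lit 30391022533) (nat_lit 212) (nat_lit 5) (nat_lit 228) (nat_lit 5) (nat_lit 229) (nat_lit 5) (nat_lit 380) (nat_lit 373) (nat_lit 147)) (XT.lf (nat_lit 0) (nat_lit 1706746684) (nat_lit 1216) (nat_lit 29151653906) (nat_lit 1292) (nat_lit 9005500076) (nat_lit 213) (nat_lit 5) (nat_lit 229) (nat_lit 5) (nat_lit 230) (nat_lit 5) (nat_lit 381) (nat_lit 373) (nat_lit 146))))))))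
noncomputable def xc242 : XT := (XT.nd (nat_lit 2028) (nat_lit 2812) (nat_lit 0) (XT.nd (nat_lit 1014) (nat_lit 3724) (nat_lit 0) (XT.nd (nat_lit 468) (nat_lit 1292) (nat_lit 0) (XT.nd (nat_lit 234) (nat_lit 0) (nat_lit 152) (XT.nd (nat_lit 78) (nat_lit 0) (nat_lit 76) (XT.lf (nat_lit 0) (nat_lit 3248567782) (nat_lit 1216) (nat_lit 9919143289) (nat_lit 1292) (nat_lit 27319092674) (nat_lit 213) (nat_lit 5) (nat_lit 229) (nat_lit 5) (nat_lit 230) (nat_lit 5) (nat_lit 382) (nat_lit 373) (nat_lit 145)) (XT.nd (nat_lit 78) (nat_lit 0) (nat_lit 0) (XT.lf (nat_lit 0) (nat_lit 4981550719) (nat_lit 1216) (nat_lit 31089027738) (nat_lit 1292) (nat_lit 5053469420) (nat_lit 214) (nat_lit 5) (nat_lit 230) (nat_lit 5) (nat_lit 231) (nat_lit 5) (nat_lit 383) (nat_lit 373) (nat_lit 144)) (XT.lf (nat_lit 0) (nat_lit 6996502407) (nat_lit 1216) (nat_lit 11118777178) (nat_lit 1292) (nat_lit 23658231512) (nat_lit 214) (nat_lit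 5) (nat_lit 230) (nat_lit 5) (nat_lit 231) (nat_lit 5) (nat_lit 384) (nat_lit 373) (nat_lit 143)))) (XT.nd (nat_lit 78) (nat_lit 0) (nat_lit 0) (XT.lf (nat_lit 0) (nat_lit 9167600943) (nat_lit 1216) (nat_lit 32806757878) (nat_lit 1292) (nat_lit 465229553) (nat_lit 215) (nat_lit 5) (nat_lit 231) (nat_lit 5) (nat_lit 232) (nat_lit 5) (nat_lit 385) (nat_lit 373) (nat_lit 142)) (XT.nd (nat_lit 78) (nat_lit 0) (nat_lit 0) (XT.lf (nat_lit 0) (nat_lit 11695113287) (nat_lit 1216) (nat_lit 12068993262) (nat_lit 1292) (nat_lit 19352804072) (nat_lit 215) (nat_lit 5) (nat_lit 231) (nat_lit 5) (nat_lit 232) (nat_lit 5) (nat_lit 386) (nat_lit 373) (nat_lit 141)) (XT.lf (nat_lit 76) (nat_lit 9474669614) (nat_lit 0) (nat_lit 4913432599) (nat_lit 1292) (nat_lit 29423761832) (nat_lit 216) (nat_lit 5) (nat_lit 215) (nat_lit 5) (nat_lit 232) (nat_lit 5) (nat_lit 387) (nat_lit 373) (nat_lit 140))))) (XT.nd (nat_lit 234) (nat_lit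 1520) (nat_lit 0) (XT.nd (nat_lit 78) (nat_lit 0) (nat_lit 0) (XT.lf (nat_lit 0) (nat_lit 17422978543) (nat_lit 1216) (nat_lit 12753735271) (nat_lit 1292) (nat_lit 14343120339) (nat_lit 216) (nat_lit 5) (nat_lit 232) (nat_lit 5) (nat_lit 233) (nat_lit 5) (nat_lit 388) (nat_lit 373) (nat_lit 139)) (XT.nd (nat_lit 78) (nat_lit 0) (nat_lit 76) (XT.lf (nat_lit 76) (nat_lit 9615084138) (nat_lit 0) (nat_lit 11073539960) (nat_lit 1292) (nat_lit 24556228564) (nat_lit 217) (nat_lit 5) (nat_lit 216) (nat_lit 5) (nat_lit 233) (nat_lit 5) (nat_lit 389) (nat_lit 373) (nat_lit 138)) (XT.lf (nat_lit 0) (nat_lit 24263676306) (nat_lit 1216) (nat_lit 13156473002) (nat_lit 76) (nat_lit 8565130257) (nat_lit 217) (nat_lit 5) (nat_lit 233) (nat_lit 5) (nat_lit 218) (nat_lit 5) (nat_lit 390) (nat_lit 373) (nat_lit 137)))) (XT.nd (nat_lit 156) (nat_lit 608) (nat_lit 0) (XT.nd (nat_lit 78) (nat_lit 0) (nat_lit 0) (XT.lf (nat_lit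 0) (nat_lit 10076900272) (nat_lit 988) (nat_lit 18074302345) (nat_lit 1064) (nat_lit 18590560910) (nat_lit 204) (nat_lit 5) (nat_lit 217) (nat_lit 5) (nat_lit 218) (nat_lit 5) (nat_lit 391) (nat_lit 373) (nat_lit 136)) (XT.lf (nat_lit 0) (nat_lit 32306072780) (nat_lit 1064) (nat_lit 13260251736) (nat_lit 76) (nat_lit 1950096853) (nat_lit 204) (nat_lit 5) (nat_lit 218) (nat_lit 5) (nat_lit 205) (nat_lit 5) (nat_lit 392) (nat_lit 373) (nat_lit 135))) (XT.nd (nat_lit 78) (nat_lit 0) (nat_lit 0) (XT.lf (nat_lit 0) (nat_lit 10878713220) (nat_lit 608) (nat_lit 25989184977) (nat_lit 684) (nat_lit 11437952348) (nat_lit 196) (nat_lit 5) (nat_lit 204) (nat_lit 5) (nat_lit 205) (nat_lit 5) (nat_lit 393) (nat_lit 373) (nat_lit 134)) (XT.lf (nat_lit 0) (nat_lit 36012565912) (nat_lit 608) (nat_lit 5686722671) (nat_lit 684) (nat_lit 7415693559) (nat_lit 196) (nat_lit 5) (nat_lit 204) (nat_lit 5) (nat_lit 205) (nat_lit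 5) (nat_lit 394) (nat_lit 373) (nat_lit 133)))))) (XT.nd (nat_lit 468) (nat_lit 1976) (nat_lit 0) (XT.nd (nat_lit 234) (nat_lit 532) (nat_lit 0) (XT.nd (nat_lit 78) (nat_lit 684) (nat_lit 0) (XT.lf (nat_lit 0) (nat_lit 12039523116) (nat_lit 532) (nat_lit 34897022266) (nat_lit 608) (nat_lit 3004015388) (nat_lit 189) (nat_lit 5) (nat_lit 196) (nat_lit 5) (nat_lit 197) (nat_lit 5) (nat_lit 395) (nat_lit 373) (nat_lit 132)) (XT.nd (nat_lit 78) (nat_lit 608) (nat_lit 0) (XT.lf (nat_lit 0) (nat_lit 1698739170) (nat_lit 608) (nat_lit 12656168225) (nat_lit 76) (nat_lit 36429892715) (nat_lit 188) (nat_lit 5) (nat_lit 196) (nat_lit 5) (nat_lit 189) (nat_lit 5) (nat_lit 396) (nat_lit 373) (nat_lit 131)) (XT.lf (nat_lit 0) (nat_lit 6678614034) (nat_lit 684) (nat_lit 38136362792) (nat_lit 76) (nat_lit 6832605818) (nat_lit 180) (nat_lit 5) (nat_lit 189) (nat_lit 5) (nat_lit 181) (nat_lit 5) (nat_lit 397) (nat_lit 373)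 (nat_lit 130)))) (XT.nd (nat_lit 78) (nat_lit 532) (nat_lit 0) (XT.lf (nat_lit 0) (nat_lit 12077990692) (nat_lit 684) (nat_lit 11953849743) (nat_lit 76) (nat_lit 28496305784) (nat_lit 180) (nat_lit 5) (nat_lit 189) (nat_lit 5) (nat_lit 181) (nat_lit 5) (nat_lit 398) (nat_lit 373) (nat_lit 129)) (XT.nd (nat_lit 78) (nat_lit 0) (nat_lit 0) (XT.lf (nat_lit 0) (nat_lit 15311849772) (nat_lit 532) (nat_lit 2473627393) (nat_lit 608) (nat_lit 35645266392) (nat_lit 173) (nat_lit 5) (nat_lit 180) (nat_lit 5) (nat_lit 181) (nat_lit 5) (nat_lit 399) (nat_lit 373) (nat_lit 128)) (XT.lf (nat_lit 0) (nat_lit 23974725388) (nat_lit 608) (nat_lit 10908199046) (nat_lit 76) (nat_lit 19468178958) (nat_lit 173) (nat_lit 5) (nat_lit 181) (nat_lit 5) (nat_lit 174) (nat_lit 5) (nat_lit 400) (nat_lit 373) (nat_lit 127))))) (XT.nd (nat_lit 234) (nat_lit 988) (nat_lit 0) (XT.nd (nat_lit 78) (nat_lit 456) (nat_lit 0) (XT.lf (nat_lit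 0) (nat_lit 17433447310) (nat_lit 532) (nat_lit 13107268227) (nat_lit 608) (nat_lit 24752627222) (nat_lit 166) (nat_lit 5) (nat_lit 173) (nat_lit 5) (nat_lit 174) (nat_lit 5) (nat_lit 401) (nat_lit 373) (nat_lit 126)) (XT.nd (nat_lit 78) (nat_lit 456) (nat_lit 0) (XT.lf (nat_lit 0) (nat_lit 37503543599) (nat_lit 608) (nat_lit 9503376811) (nat_lit 76) (nat_lit 9250933802) (nat_lit 166) (nat_lit 5) (nat_lit 174) (nat_lit 5) (nat_lit 167) (nat_lit 5) (nat_lit 402) (nat_lit 373) (nat_lit 125)) (XT.lf (nat_lit 0) (nat_lit 19962548920) (nat_lit 456) (nat_lit 25033414263) (nat_lit 532) (nat_lit 12245717259) (nat_lit 160) (nat_lit 5) (nat_lit 166) (nat_lit 5) (nat_lit 167) (nat_lit 5) (nat_lit 403) (nat_lit 373) (nat_lit 124)))) (XT.nd (nat_lit 156) (nat_lit 456) (nat_lit 0) (XT.nd (nat_lit 78) (nat_lit 532) (nat_lit 0) (XT.lf (nat_lit 0) (nat_lit 50506217909) (nat_lit 456) (nat_lit 2301960369) (nat_lit 532) (nat_lit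 5443993106) (nat_lit 160) (nat_lit 5) (nat_lit 166) (nat_lit 5) (nat_lit 167) (nat_lit 5) (nat_lit 404) (nat_lit 373) (nat_lit 123)) (XT.lf (nat_lit 0) (nat_lit 1957794129) (nat_lit 532) (nat_lit 36383077759) (nat_lit 76) (nat_lit 20938860739) (nat_lit 153) (nat_lit 5) (nat_lit 160) (nat_lit 5) (nat_lit 154) (nat_lit 5) (nat_lit 405) (nat_lit 373) (nat_lit 122))) (XT.nd (nat_lit 78) (nat_lit 456) (nat_lit 0) (XT.lf (nat_lit 0) (nat_lit 9573092438) (nat_lit 532) (nat_lit 5796964820) (nat_lit 76) (nat_lit 44963420695) (nat_lit 153) (nat_lit 5) (nat_lit 160) (nat_lit 5) (nat_lit 154) (nat_lit 5) (nat_lit 406) (nat_lit 373) (nat_lit 121)) (XT.lf (nat_lit 0) (nat_lit 17750165525) (nat_lit 532) (nat_lit 35276176849) (nat_lit 76) (nat_lit 8382494335) (nat_lit 147) (nat_lit 5) (nat_lit 154) (nat_lit 5) (nat_lit 148) (nat_lit 5) (nat_lit 407) (nat_lit 373) (nat_lit 120))))))) (XT.nd (nat_lit 44226) (nat_lit 0)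 (nat_lit 7752) (XT.nd (nat_lit 468) (nat_lit 1520) (nat_lit 0) (XT.nd (nat_lit 234) (nat_lit 836) (nat_lit 0) (XT.nd (nat_lit 78) (nat_lit 456) (nat_lit 0) (XT.lf (nat_lit 0) (nat_lit 26382979500) (nat_lit 532) (nat_lit 3529487209) (nat_lit 76) (nat_lit 32597677187) (nat_lit 147) (nat_lit 5) (nat_lit 154) (nat_lit 5) (nat_lit 148) (nat_lit 5) (nat_lit 408) (nat_lit 373) (nat_lit 119)) (XT.nd (nat_lit 78) (nat_lit 0) (nat_lit 0) (XT.lf (nat_lit 0) (nat_lit 29749111426) (nat_lit 456) (nat_lit 5810790746) (nat_lit 532) (nat_lit 28076034913) (nat_lit 141) (nat_lit 5) (nat_lit 147) (nat_lit 5) (nat_lit 148) (nat_lit 5) (nat_lit 409) (nat_lit 373) (nat_lit 118)) (XT.lf (nat_lit 0) (nat_lit 45230070881) (nat_lit 532) (nat_lit 880160138) (nat_lit 76) (nat_lit 18678735399) (nat_lit 141) (nat_lit 5) (nat_lit 148) (nat_lit 5) (nat_lit 142) (nat_lit 5) (nat_lit 410) (nat_lit 373) (nat_lit 117)))) (XT.nd (nat_lit 78)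 (nat_lit 456) (nat_lit 0) (XT.lf (nat_lit 0) (nat_lit 33716107221) (nat_lit 380) (nat_lit 21855065001) (nat_lit 456) (nat_lit 10393990067) (nat_lit 136) (nat_lit 5) (nat_lit 141) (nat_lit 5) (nat_lit 142) (nat_lit 5) (nat_lit 411) (nat_lit 373) (nat_lit 116)) (XT.nd (nat_lit 78) (nat_lit 76) (nat_lit 0) (XT.lf (nat_lit 0) (nat_lit 2203776395) (nat_lit 380) (nat_lit 64078163423) (nat_lit 456) (nat_lit 892921692) (nat_lit 131) (nat_lit 5) (nat_lit 136) (nat_lit 5) (nat_lit 137) (nat_lit 5) (nat_lit 412) (nat_lit 373) (nat_lit 115)) (XT.lf (nat_lit 0) (nat_lit 9264116840) (nat_lit 456) (nat_lit 30365920298) (nat_lit 76) (nat_lit 28771916131) (nat_lit 130) (nat_lit 5) (nat_lit 136) (nat_lit 5) (nat_lit 131) (nat_lit 5) (nat_lit 413) (nat_lit 373) (nat_lit 114))))) (XT.nd (nat_lit 234) (nat_lit 760) (nat_lit 0) (XT.nd (nat_lit 78) (nat_lit 380) (nat_lit 0) (XT.lf (nat_lit 0) (nat_lit 5372415939) (nat_lit 380)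 (nat_lit 14386382395) (nat_lit 456) (nat_lit 49905268295) (nat_lit 125) (nat_lit 5) (nat_lit 130) (nat_lit 5) (nat_lit 131) (nat_lit 5) (nat_lit 414) (nat_lit 373) (nat_lit 113)) (XT.nd (nat_lit 78) (nat_lit 380) (nat_lit 0) (XT.lf (nat_lit 0) (nat_lit 30988885565) (nat_lit 456) (nat_lit 28265142096) (nat_lit 76) (nat_lit 11697399187) (nat_lit 125) (nat_lit 5) (nat_lit 131) (nat_lit 5) (nat_lit 126) (nat_lit 5) (nat_lit 415) (nat_lit 373) (nat_lit 112)) (XT.lf (nat_lit 0) (nat_lit 8871884370) (nat_lit 380) (nat_lit 33910980963) (nat_lit 456) (nat_lit 29487733249) (nat_lit 120) (nat_lit 5) (nat_lit 125) (nat_lit 5) (nat_lit 126) (nat_lit 5) (nat_lit 416) (nat_lit 373) (nat_lit 111)))) (XT.nd (nat_lit 156) (nat_lit 456) (nat_lit 0) (XT.nd (nat_lit 78) (nat_lit 304) (nat_lit 0) (XT.lf (nat_lit 0) (nat_lit 47701478374) (nat_lit 380) (nat_lit 7513889310) (nat_lit 456) (nat_lit 18405437082) (nat_lit 120) (nat_lit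 5) (nat_lit 125) (nat_lit 5) (nat_lit 126) (nat_lit 5) (nat_lit 417) (nat_lit 373) (nat_lit 110)) (XT.lf (nat_lit 0) (nat_lit 12743033875) (nat_lit 304) (nat_lit 55588733776) (nat_lit 380) (nat_lit 6670422192) (nat_lit 116) (nat_lit 5) (nat_lit 120) (nat_lit 5) (nat_lit 121) (nat_lit 5) (nat_lit 418) (nat_lit 373) (nat_lit 109))) (XT.nd (nat_lit 78) (nat_lit 380) (nat_lit 0) (XT.lf (nat_lit 0) (nat_lit 5648969386) (nat_lit 380) (nat_lit 23450580582) (nat_lit 76) (nat_lit 47313764088) (nat_lit 115) (nat_lit 5) (nat_lit 120) (nat_lit 5) (nat_lit 116) (nat_lit 5) (nat_lit 419) (nat_lit 373) (nat_lit 108)) (XT.lf (nat_lit 0) (nat_lit 16782780970) (nat_lit 380) (nat_lit 1581743210) (nat_lit 456) (nat_lit 59495447341) (nat_lit 110) (nat_lit 5) (nat_lit 115) (nat_lit 5) (nat_lit 116) (nat_lit 5) (nat_lit 420) (nat_lit 373) (nat_lit 107)))))) (XT.nd (nat_lit 546) (nat_lit 1064) (nat_lit 0) (XT.nd (nat_lit 234)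 (nat_lit 0) (nat_lit 0) (XT.nd (nat_lit 78) (nat_lit 0) (nat_lit 0) (XT.lf (nat_lit 0) (nat_lit 8164433092) (nat_lit 0) (nat_lit 8164433092) (nat_lit 1140) (nat_lit 1862545081) (nat_lit 226) (nat_lit 5) (nat_lit 226) (nat_lit 3) (nat_lit 241) (nat_lit 3) (nat_lit 374) (nat_lit 374) (nat_lit 152)) (XT.nd (nat_lit 78) (nat_lit 0) (nat_lit 0) (XT.lf (nat_lit 0) (nat_lit 33202404251) (nat_lit 1140) (nat_lit 3008893421) (nat_lit 1216) (nat_lit 715585945) (nat_lit 226) (nat_lit 5) (nat_lit 241) (nat_lit 3) (nat_lit 242) (nat_lit 5) (nat_lit 375) (nat_lit 374) (nat_lit 151)) (XT.lf (nat_lit 76) (nat_lit 14671137254) (nat_lit 0) (nat_lit 19393122763) (nat_lit 1216) (nat_lit 3413982653) (nat_lit 227) (nat_lit 5) (nat_lit 226) (nat_lit 5) (nat_lit 242) (nat_lit 5) (nat_lit 376) (nat_lit 374) (nat_lit 150)))) (XT.nd (nat_lit 156) (nat_lit 0) (nat_lit 76) (XT.nd (nat_lit 78) (nat_lit 0) (nat_lit 76) (XT.lf (nat_lit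 76) (nat_lit 32942259083) (nat_lit 0) (nat_lit 2038284693) (nat_lit 1216) (nat_lit 3064742953) (nat_lit 227) (nat_lit 5) (nat_lit 226) (nat_lit 5) (nat_lit 242) (nat_lit 5) (nat_lit 377) (nat_lit 374) (nat_lit 149)) (XT.lf (nat_lit 76) (nat_lit 13237219312) (nat_lit 0) (nat_lit 22964826663) (nat_lit 1216) (nat_lit 2418965602) (nat_lit 228) (nat_lit 5) (nat_lit 227) (nat_lit 5) (nat_lit 243) (nat_lit 5) (nat_lit 378) (nat_lit 374) (nat_lit 148))) (XT.nd (nat_lit 78) (nat_lit 0) (nat_lit 76) (XT.lf (nat_lit 76) (nat_lit 32210685958) (nat_lit 0) (nat_lit 5319311150) (nat_lit 1216) (nat_lit 1681918269) (nat_lit 228) (nat_lit 5) (nat_lit 227) (nat_lit 5) (nat_lit 243) (nat_lit 5) (nat_lit 379) (nat_lit 374) (nat_lit 147)) (XT.lf (nat_lit 76) (nat_lit 12043200702) (nat_lit 0) (nat_lit 27092274715) (nat_lit 1216) (nat_lit 677941502) (nat_lit 229) (nat_lit 5) (nat_lit 228) (nat_lit 5) (nat_lit 244) (nat_lit 5)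 (nat_lit 380) (nat_lit 374) (nat_lit 146))))) (XT.nd (nat_lit 234) (nat_lit 0) (nat_lit 152) (XT.nd (nat_lit 78) (nat_lit 0) (nat_lit 76) (XT.lf (nat_lit 0) (nat_lit 471637303) (nat_lit 1216) (nat_lit 8686214221) (nat_lit 1292) (nat_lit 31271337510) (nat_lit 212) (nat_lit 5) (nat_lit 228) (nat_lit 5) (nat_lit 229) (nat_lit 5) (nat_lit 381) (nat_lit 374) (nat_lit 145)) (XT.nd (nat_lit 78) (nat_lit 0) (nat_lit 0) (XT.lf (nat_lit 0) (nat_lit 1838642208) (nat_lit 1216) (nat_lit 29969991662) (nat_lit 1292) (nat_lit 9248703309) (nat_lit 213) (nat_lit 5) (nat_lit 229) (nat_lit 5) (nat_lit 230) (nat_lit 5) (nat_lit 382) (nat_lit 374) (nat_lit 144)) (XT.lf (nat_lit 0) (nat_lit 3424367654) (nat_lit 1216) (nat_lit 10162142965) (nat_lit 1292) (nat_lit 28112488979) (nat_lit 213) (nat_lit 5) (nat_lit 229) (nat_lit 5) (nat_lit 230) (nat_lit 5) (nat_lit 383) (nat_lit 374) (nat_lit 143)))) (XT.nd (nat_lit 156) (nat_lit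 0) (nat_lit 76) (XT.nd (nat_lit 78) (nat_lit 0) (nat_lit 0) (XT.lf (nat_lit 0) (nat_lit 5207361033) (nat_lit 1216) (nat_lit 31965088617) (nat_lit 1292) (nat_lit 5182972464) (nat_lit 214) (nat_lit 5) (nat_lit 230) (nat_lit 5) (nat_lit 231) (nat_lit 5) (nat_lit 384) (nat_lit 374) (nat_lit 142)) (XT.lf (nat_lit 0) (nat_lit 7280537084) (nat_lit 1216) (nat_lit 11397379374) (nat_lit 1292) (nat_lit 24346521138) (nat_lit 214) (nat_lit 5) (nat_lit 230) (nat_lit 5) (nat_lit 231) (nat_lit 5) (nat_lit 385) (nat_lit 374) (nat_lit 141))) (XT.nd (nat_lit 78) (nat_lit 0) (nat_lit 0) (XT.lf (nat_lit 0) (nat_lit 9514958505) (nat_lit 1216) (nat_lit 33734136369) (nat_lit 1292) (nat_lit 461458212) (nat_lit 215) (nat_lit 5) (nat_lit 231) (nat_lit 5) (nat_lit 232) (nat_lit 5) (nat_lit 386) (nat_lit 374) (nat_lit 140)) (XT.lf (nat_lit 0) (nat_lit 12116189533) (nat_lit 1216) (nat_lit 12375893890) (nat_lit 1292) (nat_lit 19916176323)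 (nat_lit 215) (nat_lit 5) (nat_lit 231) (nat_lit 5) (nat_lit 232) (nat_lit 5) (nat_lit 387) (nat_lit 374) (nat_lit 139))))))))
noncomputable def xc243 : XT := (XT.nd (nat_lit 2028) (nat_lit 1216) (nat_lit 0) (XT.nd (nat_lit 1014) (nat_lit 3192) (nat_lit 0) (XT.nd (nat_lit 468) (nat_lit 2356) (nat_lit 0) (XT.nd (nat_lit 234) (nat_lit 836) (nat_lit 0) (XT.nd (nat_lit 78) (nat_lit 0) (nat_lit 76) (XT.lf (nat_lit 76) (nat_lit 9813537998) (nat_lit 0) (nat_lit 5074909923) (nat_lit 1292) (nat_lit 30235660957) (nat_lit 216) (nat_lit 5) (nat_lit 215) (nat_lit 5) (nat_lit 232) (nat_lit 5) (nat_lit 388) (nat_lit 374) (nat_lit 138)) (XT.nd (nat_lit 78) (nat_lit 0) (nat_lit 0) (XT.lf (nat_lit 0) (nat_lit 18012238144) (nat_lit 1216) (nat_lit 13081129197) (nat_lit 1292) (nat_lit 14760016178) (nat_lit 216) (nat_lit 5) (nat_lit 232) (nat_lit 5) (nat_lit 233) (nat_lit 5) (nat_lit 389) (nat_lit 374) (nat_lit 137)) (XT.lf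 (nat_lit 76) (nat_lit 9958213440) (nat_lit 0) (nat_lit 11416226273) (nat_lit 1292) (nat_lit 25225756685) (nat_lit 217) (nat_lit 5) (nat_lit 216) (nat_lit 5) (nat_lit 233) (nat_lit 5) (nat_lit 390) (nat_lit 374) (nat_lit 136)))) (XT.nd (nat_lit 78) (nat_lit 988) (nat_lit 0) (XT.lf (nat_lit 0) (nat_lit 25054747906) (nat_lit 1216) (nat_lit 13496041597) (nat_lit 76) (nat_lit 8812107845) (nat_lit 217) (nat_lit 5) (nat_lit 233) (nat_lit 5) (nat_lit 218) (nat_lit 5) (nat_lit 391) (nat_lit 374) (nat_lit 135)) (XT.nd (nat_lit 78) (nat_lit 0) (nat_lit 0) (XT.lf (nat_lit 0) (nat_lit 10433792429) (nat_lit 988) (nat_lit 18623792634) (nat_lit 1064) (nat_lit 19084531548) (nat_lit 204) (nat_lit 5) (nat_lit 217) (nat_lit 5) (nat_lit 218) (nat_lit 5) (nat_lit 392) (nat_lit 374) (nat_lit 134)) (XT.lf (nat_lit 0) (nat_lit 33335232213) (nat_lit 1064) (nat_lit 13603151744) (nat_lit 76) (nat_lit 2001687597) (nat_lit 204) (nat_lit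 5) (nat_lit 218) (nat_lit 5) (nat_lit 205) (nat_lit 5) (nat_lit 393) (nat_lit 374) (nat_lit 133))))) (XT.nd (nat_lit 234) (nat_lit 1216) (nat_lit 0) (XT.nd (nat_lit 78) (nat_lit 532) (nat_lit 0) (XT.lf (nat_lit 0) (nat_lit 11259443852) (nat_lit 608) (nat_lit 26773244262) (nat_lit 684) (nat_lit 11720533478) (nat_lit 196) (nat_lit 5) (nat_lit 204) (nat_lit 5) (nat_lit 205) (nat_lit 5) (nat_lit 394) (nat_lit 374) (nat_lit 132)) (XT.nd (nat_lit 78) (nat_lit 532) (nat_lit 0) (XT.lf (nat_lit 0) (nat_lit 37145728554) (nat_lit 608) (nat_lit 5861580404) (nat_lit 684) (nat_lit 7579370734) (nat_lit 196) (nat_lit 5) (nat_lit 204) (nat_lit 5) (nat_lit 205) (nat_lit 5) (nat_lit 395) (nat_lit 374) (nat_lit 131)) (XT.lf (nat_lit 0) (nat_lit 12454752216) (nat_lit 532) (nat_lit 35945749614) (nat_lit 608) (nat_lit 3036560482) (nat_lit 189) (nat_lit 5) (nat_lit 196) (nat_lit 5) (nat_lit 197) (nat_lit 5) (nat_lit 396) (nat_lit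 374) (nat_lit 130)))) (XT.nd (nat_lit 156) (nat_lit 532) (nat_lit 0) (XT.nd (nat_lit 78) (nat_lit 608) (nat_lit 0) (XT.lf (nat_lit 0) (nat_lit 1804508981) (nat_lit 608) (nat_lit 12982255955) (nat_lit 76) (nat_lit 37519897738) (nat_lit 188) (nat_lit 5) (nat_lit 196) (nat_lit 5) (nat_lit 189) (nat_lit 5) (nat_lit 397) (nat_lit 374) (nat_lit 129)) (XT.lf (nat_lit 0) (nat_lit 6932687666) (nat_lit 684) (nat_lit 39225727806) (nat_lit 76) (nat_lit 7036947067) (nat_lit 180) (nat_lit 5) (nat_lit 189) (nat_lit 5) (nat_lit 181) (nat_lit 5) (nat_lit 398) (nat_lit 374) (nat_lit 128))) (XT.nd (nat_lit 78) (nat_lit 532) (nat_lit 0) (XT.lf (nat_lit 0) (nat_lit 12492481103) (nat_lit 684) (nat_lit 12259333324) (nat_lit 76) (nat_lit 29350576583) (nat_lit 180) (nat_lit 5) (nat_lit 189) (nat_lit 5) (nat_lit 181) (nat_lit 5) (nat_lit 399) (nat_lit 374) (nat_lit 127)) (XT.lf (nat_lit 0) (nat_lit 15823816276) (nat_lit 532) (nat_lit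 2546362672) (nat_lit 608) (nat_lit 36661918739) (nat_lit 173) (nat_lit 5) (nat_lit 180) (nat_lit 5) (nat_lit 181) (nat_lit 5) (nat_lit 400) (nat_lit 374) (nat_lit 126)))))) (XT.nd (nat_lit 468) (nat_lit 1672) (nat_lit 0) (XT.nd (nat_lit 234) (nat_lit 988) (nat_lit 0) (XT.nd (nat_lit 78) (nat_lit 532) (nat_lit 0) (XT.lf (nat_lit 0) (nat_lit 24743628929) (nat_lit 608) (nat_lit 11182857616) (nat_lit 76) (nat_lit 20053627034) (nat_lit 173) (nat_lit 5) (nat_lit 181) (nat_lit 5) (nat_lit 174) (nat_lit 5) (nat_lit 401) (nat_lit 374) (nat_lit 125)) (XT.nd (nat_lit 78) (nat_lit 0) (nat_lit 0) (XT.lf (nat_lit 0) (nat_lit 18008522568) (nat_lit 532) (nat_lit 13497130301) (nat_lit 608) (nat_lit 25444996598) (nat_lit 166) (nat_lit 5) (nat_lit 173) (nat_lit 5) (nat_lit 174) (nat_lit 5) (nat_lit 402) (nat_lit 374) (nat_lit 124)) (XT.lf (nat_lit 0) (nat_lit 38675978184) (nat_lit 608) (nat_lit 9736504180) (nat_lit 76) (nat_lit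 9531656462) (nat_lit 166) (nat_lit 5) (nat_lit 174) (nat_lit 5) (nat_lit 167) (nat_lit 5) (nat_lit 403) (nat_lit 374) (nat_lit 123)))) (XT.nd (nat_lit 78) (nat_lit 532) (nat_lit 0) (XT.lf (nat_lit 0) (nat_lit 20612889775) (nat_lit 456) (nat_lit 25779396795) (nat_lit 532) (nat_lit 12565220695) (nat_lit 160) (nat_lit 5) (nat_lit 166) (nat_lit 5) (nat_lit 167) (nat_lit 5) (nat_lit 404) (nat_lit 374) (nat_lit 122)) (XT.nd (nat_lit 78) (nat_lit 532) (nat_lit 0) (XT.lf (nat_lit 0) (nat_lit 52071369871) (nat_lit 456) (nat_lit 2366145494) (nat_lit 532) (nat_lit 5560839034) (nat_lit 160) (nat_lit 5) (nat_lit 166) (nat_lit 5) (nat_lit 167) (nat_lit 5) (nat_lit 405) (nat_lit 374) (nat_lit 121)) (XT.lf (nat_lit 0) (nat_lit 2061306820) (nat_lit 532) (nat_lit 37422853461) (nat_lit 76) (nat_lit 21572593270) (nat_lit 153) (nat_lit 5) (nat_lit 160) (nat_lit 5) (nat_lit 154) (nat_lit 5) (nat_lit 406) (nat_lit 374) (nat_lit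 120))))) (XT.nd (nat_lit 234) (nat_lit 1216) (nat_lit 0) (XT.nd (nat_lit 78) (nat_lit 456) (nat_lit 0) (XT.lf (nat_lit 0) (nat_lit 9903759840) (nat_lit 532) (nat_lit 5920663444) (nat_lit 76) (nat_lit 46317727887) (nat_lit 153) (nat_lit 5) (nat_lit 160) (nat_lit 5) (nat_lit 154) (nat_lit 5) (nat_lit 407) (nat_lit 374) (nat_lit 119)) (XT.nd (nat_lit 78) (nat_lit 0) (nat_lit 0) (XT.lf (nat_lit 0) (nat_lit 18325424382) (nat_lit 532) (nat_lit 36283504997) (nat_lit 76) (nat_lit 8640863715) (nat_lit 147) (nat_lit 5) (nat_lit 154) (nat_lit 5) (nat_lit 148) (nat_lit 5) (nat_lit 408) (nat_lit 374) (nat_lit 118)) (XT.lf (nat_lit 0) (nat_lit 27215977517) (nat_lit 532) (nat_lit 3585898857) (nat_lit 76) (nat_lit 33582301241) (nat_lit 147) (nat_lit 5) (nat_lit 154) (nat_lit 5) (nat_lit 148) (nat_lit 5) (nat_lit 409) (nat_lit 374) (nat_lit 117)))) (XT.nd (nat_lit 156) (nat_lit 760) (nat_lit 0) (XT.nd (nat_lit 78) (nat_lit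 0) (nat_lit 0) (XT.lf (nat_lit 0) (nat_lit 30690572708) (nat_lit 456) (nat_lit 5976897074) (nat_lit 532) (nat_lit 28876297698) (nat_lit 141) (nat_lit 5) (nat_lit 147) (nat_lit 5) (nat_lit 148) (nat_lit 5) (nat_lit 410) (nat_lit 374) (nat_lit 116)) (XT.lf (nat_lit 0) (nat_lit 46626632751) (nat_lit 532) (nat_lit 857869151) (nat_lit 76) (nat_lit 19246919833) (nat_lit 141) (nat_lit 5) (nat_lit 148) (nat_lit 5) (nat_lit 142) (nat_lit 5) (nat_lit 411) (nat_lit 374) (nat_lit 115))) (XT.nd (nat_lit 78) (nat_lit 380) (nat_lit 0) (XT.lf (nat_lit 0) (nat_lit 34775808820) (nat_lit 380) (nat_lit 22501466678) (nat_lit 456) (nat_lit 10665649427) (nat_lit 136) (nat_lit 5) (nat_lit 141) (nat_lit 5) (nat_lit 142) (nat_lit 5) (nat_lit 412) (nat_lit 374) (nat_lit 114)) (XT.lf (nat_lit 0) (nat_lit 2318727836) (nat_lit 380) (nat_lit 65990059085) (nat_lit 456) (nat_lit 880146254) (nat_lit 131) (nat_lit 5) (nat_lit 136) (nat_lit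 5) (nat_lit 137) (nat_lit 5) (nat_lit 413) (nat_lit 374) (nat_lit 113))))))) (XT.nd (nat_lit 44304) (nat_lit 0) (nat_lit 6764) (XT.nd (nat_lit 468) (nat_lit 76) (nat_lit 0) (XT.nd (nat_lit 234) (nat_lit 684) (nat_lit 0) (XT.nd (nat_lit 78) (nat_lit 380) (nat_lit 0) (XT.lf (nat_lit 0) (nat_lit 9579701578) (nat_lit 456) (nat_lit 31228711475) (nat_lit 76) (nat_lit 29644447756) (nat_lit 130) (nat_lit 5) (nat_lit 136) (nat_lit 5) (nat_lit 131) (nat_lit 5) (nat_lit 414) (nat_lit 374) (nat_lit 112)) (XT.nd (nat_lit 78) (nat_lit 0) (nat_lit 0) (XT.lf (nat_lit 0) (nat_lit 5581302433) (nat_lit 380) (nat_lit 14807282811) (nat_lit 456) (nat_lit 51364272091) (nat_lit 125) (nat_lit 5) (nat_lit 130) (nat_lit 5) (nat_lit 131) (nat_lit 5) (nat_lit 415) (nat_lit 374) (nat_lit 111)) (XT.lf (nat_lit 0) (nat_lit 31954596529) (nat_lit 456) (nat_lit 29065773506) (nat_lit 76) (nat_lit 12058498284) (nat_lit 125) (nat_lit 5) (nat_lit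 131) (nat_lit 5) (nat_lit 126) (nat_lit 5) (nat_lit 416) (nat_lit 374) (nat_lit 110)))) (XT.nd (nat_lit 78) (nat_lit 304) (nat_lit 0) (XT.lf (nat_lit 0) (nat_lit 9184899805) (nat_lit 380) (nat_lit 34916896485) (nat_lit 456) (nat_lit 30335837479) (nat_lit 120) (nat_lit 5) (nat_lit 125) (nat_lit 5) (nat_lit 126) (nat_lit 5) (nat_lit 417) (nat_lit 374) (nat_lit 109)) (XT.nd (nat_lit 78) (nat_lit 304) (nat_lit 0) (XT.lf (nat_lit 0) (nat_lit 49178016807) (nat_lit 380) (nat_lit 7728224526) (nat_lit 456) (nat_lit 18922136343) (nat_lit 120) (nat_lit 5) (nat_lit 125) (nat_lit 5) (nat_lit 126) (nat_lit 5) (nat_lit 418) (nat_lit 374) (nat_lit 108)) (XT.lf (nat_lit 0) (nat_lit 13171308401) (nat_lit 304) (nat_lit 57244368029) (nat_lit 380) (nat_lit 6835542130) (nat_lit 116) (nat_lit 5) (nat_lit 120) (nat_lit 5) (nat_lit 121) (nat_lit 5) (nat_lit 419) (nat_lit 374) (nat_lit 107))))) (XT.nd (nat_lit 43524) (nat_lit 0)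 (nat_lit 8436) (XT.nd (nat_lit 43368) (nat_lit 0) (nat_lit 8436) (XT.lf (nat_lit 0) (nat_lit 5851749044) (nat_lit 380) (nat_lit 24108773614) (nat_lit 76) (nat_lit 48744174247) (nat_lit 115) (nat_lit 5) (nat_lit 120) (nat_lit 5) (nat_lit 116) (nat_lit 5) (nat_lit 420) (nat_lit 374) (nat_lit 106)) (XT.nd (nat_lit 78) (nat_lit 0) (nat_lit 0) (XT.lf (nat_lit 0) (nat_lit 8433031563) (nat_lit 0) (nat_lit 8433031563) (nat_lit 1140) (nat_lit 1869633828) (nat_lit 226) (nat_lit 5) (nat_lit 226) (nat_lit 3) (nat_lit 241) (nat_lit 3) (nat_lit 375) (nat_lit 375) (nat_lit 150)) (XT.lf (nat_lit 0) (nat_lit 34289939427) (nat_lit 1140) (nat_lit 3049937673) (nat_lit 1216) (nat_lit 691997835) (nat_lit 226) (nat_lit 5) (nat_lit 241) (nat_lit 3) (nat_lit 242) (nat_lit 5) (nat_lit 376) (nat_lit 375) (nat_lit 149)))) (XT.nd (nat_lit 156) (nat_lit 0) (nat_lit 76) (XT.nd (nat_lit 78) (nat_lit 0) (nat_lit 0) (XT.lf (nat_lit 76)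 (nat_lit 15160011349) (nat_lit 0) (nat_lit 20015444063) (nat_lit 1216) (nat_lit 3424387286) (nat_lit 227) (nat_lit 5) (nat_lit 226) (nat_lit 5) (nat_lit 242) (nat_lit 5) (nat_lit 377) (nat_lit 375) (nat_lit 148)) (XT.lf (nat_lit 76) (nat_lit 33977847222) (nat_lit 0) (nat_lit 2138780435) (nat_lit 1216) (nat_lit 3067350440) (nat_lit 227) (nat_lit 5) (nat_lit 226) (nat_lit 5) (nat_lit 242) (nat_lit 5) (nat_lit 378) (nat_lit 375) (nat_lit 147))) (XT.nd (nat_lit 78) (nat_lit 0) (nat_lit 0) (XT.lf (nat_lit 76) (nat_lit 13684207939) (nat_lit 0) (nat_lit 23688154873) (nat_lit 1216) (nat_lit 2404686199) (nat_lit 228) (nat_lit 5) (nat_lit 227) (nat_lit 5) (nat_lit 243) (nat_lit 5) (nat_lit 379) (nat_lit 375) (nat_lit 146)) (XT.lf (nat_lit 76) (nat_lit 33225426001) (nat_lit 0) (nat_lit 5512272436) (nat_lit 1216) (nat_lit 1648057011) (nat_lit 228) (nat_lit 5) (nat_lit 227) (nat_lit 5) (nat_lit 243) (nat_lit 5) (nat_lit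 380) (nat_lit 375) (nat_lit 145)))))) (XT.nd (nat_lit 546) (nat_lit 608) (nat_lit 0) (XT.nd (nat_lit 234) (nat_lit 0) (nat_lit 76) (XT.nd (nat_lit 78) (nat_lit 1216) (nat_lit 0) (XT.lf (nat_lit 76) (nat_lit 12455251940) (nat_lit 0) (nat_lit 27933882938) (nat_lit 1216) (nat_lit 616235189) (nat_lit 229) (nat_lit 5) (nat_lit 228) (nat_lit 5) (nat_lit 244) (nat_lit 5) (nat_lit 381) (nat_lit 375) (nat_lit 144)) (XT.nd (nat_lit 78) (nat_lit 0) (nat_lit 76) (XT.lf (nat_lit 0) (nat_lit 563886979) (nat_lit 1216) (nat_lit 8895911411) (nat_lit 1292) (nat_lit 32179865325) (nat_lit 212) (nat_lit 5) (nat_lit 228) (nat_lit 5) (nat_lit 229) (nat_lit 5) (nat_lit 382) (nat_lit 375) (nat_lit 143)) (XT.lf (nat_lit 0) (nat_lit 1969862483) (nat_lit 1216) (nat_lit 30816106341) (nat_lit 1292) (nat_lit 9500750355) (nat_lit 213) (nat_lit 5) (nat_lit 229) (nat_lit 5) (nat_lit 230) (nat_lit 5) (nat_lit 383) (nat_lit 375) (nat_lit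 142)))) (XT.nd (nat_lit 156) (nat_lit 0) (nat_lit 76) (XT.nd (nat_lit 78) (nat_lit 0) (nat_lit 76) (XT.lf (nat_lit 0) (nat_lit 3600944322) (nat_lit 1216) (nat_lit 10415565438) (nat_lit 1292) (nat_lit 28931189811) (nat_lit 213) (nat_lit 5) (nat_lit 229) (nat_lit 5) (nat_lit 230) (nat_lit 5) (nat_lit 384) (nat_lit 375) (nat_lit 141)) (XT.lf (nat_lit 0) (nat_lit 5435562063) (nat_lit 1216) (nat_lit 32870680965) (nat_lit 1292) (nat_lit 5317629290) (nat_lit 214) (nat_lit 5) (nat_lit 230) (nat_lit 5) (nat_lit 231) (nat_lit 5) (nat_lit 385) (nat_lit 375) (nat_lit 140))) (XT.nd (nat_lit 78) (nat_lit 0) (nat_lit 76) (XT.lf (nat_lit 0) (nat_lit 7568836885) (nat_lit 1216) (nat_lit 11687494629) (nat_lit 1292) (nat_lit 25056691192) (nat_lit 214) (nat_lit 5) (nat_lit 230) (nat_lit 5) (nat_lit 231) (nat_lit 5) (nat_lit 386) (nat_lit 375) (nat_lit 139)) (XT.lf (nat_lit 0) (nat_lit 9868584782) (nat_lit 1216) (nat_lit 34692598159)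 (nat_lit 1292) (nat_lit 458591404) (nat_lit 215) (nat_lit 5) (nat_lit 231) (nat_lit 5) (nat_lit 232) (nat_lit 5) (nat_lit 387) (nat_lit 375) (nat_lit 138))))) (XT.nd (nat_lit 234) (nat_lit 836) (nat_lit 0) (XT.nd (nat_lit 78) (nat_lit 0) (nat_lit 0) (XT.lf (nat_lit 0) (nat_lit 12545866988) (nat_lit 1216) (nat_lit 12695168472) (nat_lit 1292) (nat_lit 20497437773) (nat_lit 215) (nat_lit 5) (nat_lit 231) (nat_lit 5) (nat_lit 232) (nat_lit 5) (nat_lit 388) (nat_lit 375) (nat_lit 137)) (XT.nd (nat_lit 78) (nat_lit 0) (nat_lit 76) (XT.lf (nat_lit 76) (nat_lit 10159436547) (nat_lit 0) (nat_lit 5240423642) (nat_lit 1292) (nat_lit 31075982053) (nat_lit 216) (nat_lit 5) (nat_lit 215) (nat_lit 5) (nat_lit 232) (nat_lit 5) (nat_lit 389) (nat_lit 375) (nat_lit 136)) (XT.lf (nat_lit 0) (nat_lit 18615354127) (nat_lit 1216) (nat_lit 13421514688) (nat_lit 1292) (nat_lit 15190187978) (nat_lit 216) (nat_lit 5) (nat_lit 232)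 (nat_lit 5) (nat_lit 233) (nat_lit 5) (nat_lit 390) (nat_lit 375) (nat_lit 135)))) (XT.nd (nat_lit 156) (nat_lit 912) (nat_lit 0) (XT.nd (nat_lit 78) (nat_lit 0) (nat_lit 76) (XT.lf (nat_lit 76) (nat_lit 10308497950) (nat_lit 0) (nat_lit 11768591574) (nat_lit 1292) (nat_lit 25919225835) (nat_lit 217) (nat_lit 5) (nat_lit 216) (nat_lit 5) (nat_lit 233) (nat_lit 5) (nat_lit 391) (nat_lit 375) (nat_lit 134)) (XT.lf (nat_lit 0) (nat_lit 25865925937) (nat_lit 1216) (nat_lit 13848961684) (nat_lit 76) (nat_lit 9067067442) (nat_lit 217) (nat_lit 5) (nat_lit 233) (nat_lit 5) (nat_lit 218) (nat_lit 5) (nat_lit 392) (nat_lit 375) (nat_lit 133))) (XT.nd (nat_lit 78) (nat_lit 0) (nat_lit 0) (XT.lf (nat_lit 0) (nat_lit 10798257939) (nat_lit 988) (nat_lit 19189350808) (nat_lit 1064) (nat_lit 19596980596) (nat_lit 204) (nat_lit 5) (nat_lit 217) (nat_lit 5) (nat_lit 218) (nat_lit 5) (nat_lit 393) (nat_lit 375) (nat_lit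 132)) (XT.lf (nat_lit 0) (nat_lit 34391823490) (nat_lit 1064) (nat_lit 13959490669) (nat_lit 76) (nat_lit 2055222851) (nat_lit 204) (nat_lit 5) (nat_lit 218) (nat_lit 5) (nat_lit 205) (nat_lit 5) (nat_lit 394) (nat_lit 375) (nat_lit 131))))))))
noncomputable def xc244 : XT := (XT.nd (nat_lit 45474) (nat_lit 0) (nat_lit 4028) (XT.nd (nat_lit 1014) (nat_lit 2508) (nat_lit 0) (XT.nd (nat_lit 468) (nat_lit 2052) (nat_lit 0) (XT.nd (nat_lit 234) (nat_lit 684) (nat_lit 0) (XT.nd (nat_lit 78) (nat_lit 532) (nat_lit 0) (XT.lf (nat_lit 0) (nat_lit 11648475386) (nat_lit 608) (nat_lit 27580573680) (nat_lit 684) (nat_lit 12015068286) (nat_lit 196) (nat_lit 5) (nat_lit 204) (nat_lit 5) (nat_lit 205) (nat_lit 5) (nat_lit 395) (nat_lit 375) (nat_lit 130)) (XT.nd (nat_lit 78) (nat_lit 532) (nat_lit 0) (XT.lf (nat_lit 0) (nat_lit 38309855963) (nat_lit 608) (nat_lit 6041439555) (nat_lit 684) (nat_lit 7751333219) (nat_lit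 196) (nat_lit 5) (nat_lit 204) (nat_lit 5) (nat_lit 205) (nat_lit 5) (nat_lit 396) (nat_lit 375) (nat_lit 129)) (XT.lf (nat_lit 0) (nat_lit 12879335877) (nat_lit 532) (nat_lit 37025834498) (nat_lit 608) (nat_lit 3073386991) (nat_lit 189) (nat_lit 5) (nat_lit 196) (nat_lit 5) (nat_lit 197) (nat_lit 5) (nat_lit 397) (nat_lit 375) (nat_lit 128)))) (XT.nd (nat_lit 78) (nat_lit 608) (nat_lit 0) (XT.lf (nat_lit 0) (nat_lit 1910305703) (nat_lit 608) (nat_lit 13321203021) (nat_lit 76) (nat_lit 38642768911) (nat_lit 188) (nat_lit 5) (nat_lit 196) (nat_lit 5) (nat_lit 189) (nat_lit 5) (nat_lit 398) (nat_lit 375) (nat_lit 127)) (XT.nd (nat_lit 78) (nat_lit 0) (nat_lit 0) (XT.lf (nat_lit 0) (nat_lit 7191300034) (nat_lit 684) (nat_lit 40350915260) (nat_lit 76) (nat_lit 7247455115) (nat_lit 180) (nat_lit 5) (nat_lit 189) (nat_lit 5) (nat_lit 181) (nat_lit 5) (nat_lit 399) (nat_lit 375) (nat_lit 126)) (XT.lf (nat_lit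 0) (nat_lit 12916412564) (nat_lit 684) (nat_lit 12577031401) (nat_lit 76) (nat_lit 30230511003) (nat_lit 180) (nat_lit 5) (nat_lit 189) (nat_lit 5) (nat_lit 181) (nat_lit 5) (nat_lit 400) (nat_lit 375) (nat_lit 125))))) (XT.nd (nat_lit 234) (nat_lit 988) (nat_lit 0) (XT.nd (nat_lit 78) (nat_lit 532) (nat_lit 0) (XT.lf (nat_lit 0) (nat_lit 16348121688) (nat_lit 532) (nat_lit 2621364596) (nat_lit 608) (nat_lit 37712096175) (nat_lit 173) (nat_lit 5) (nat_lit 180) (nat_lit 5) (nat_lit 181) (nat_lit 5) (nat_lit 401) (nat_lit 375) (nat_lit 124)) (XT.nd (nat_lit 78) (nat_lit 532) (nat_lit 0) (XT.lf (nat_lit 0) (nat_lit 25532748786) (nat_lit 608) (nat_lit 11468774675) (nat_lit 76) (nat_lit 20656558032) (nat_lit 173) (nat_lit 5) (nat_lit 181) (nat_lit 5) (nat_lit 174) (nat_lit 5) (nat_lit 402) (nat_lit 375) (nat_lit 123)) (XT.lf (nat_lit 0) (nat_lit 18597860948) (nat_lit 532) (nat_lit 13898880884) (nat_lit 608)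 (nat_lit 26161019283) (nat_lit 166) (nat_lit 5) (nat_lit 173) (nat_lit 5) (nat_lit 174) (nat_lit 5) (nat_lit 403) (nat_lit 375) (nat_lit 122)))) (XT.nd (nat_lit 156) (nat_lit 532) (nat_lit 0) (XT.nd (nat_lit 78) (nat_lit 456) (nat_lit 0) (XT.lf (nat_lit 0) (nat_lit 39880868970) (nat_lit 608) (nat_lit 9979608886) (nat_lit 76) (nat_lit 9820617417) (nat_lit 166) (nat_lit 5) (nat_lit 174) (nat_lit 5) (nat_lit 167) (nat_lit 5) (nat_lit 404) (nat_lit 375) (nat_lit 121)) (XT.lf (nat_lit 0) (nat_lit 21279786589) (nat_lit 456) (nat_lit 26548046964) (nat_lit 532) (nat_lit 12897057058) (nat_lit 160) (nat_lit 5) (nat_lit 166) (nat_lit 5) (nat_lit 167) (nat_lit 5) (nat_lit 405) (nat_lit 375) (nat_lit 120))) (XT.nd (nat_lit 78) (nat_lit 532) (nat_lit 0) (XT.lf (nat_lit 0) (nat_lit 53680608171) (nat_lit 456) (nat_lit 2432535942) (nat_lit 532) (nat_lit 5683858129) (nat_lit 160) (nat_lit 5) (nat_lit 166) (nat_lit 5) (nat_lit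 167) (nat_lit 5) (nat_lit 406) (nat_lit 375) (nat_lit 119)) (XT.lf (nat_lit 0) (nat_lit 2165354402) (nat_lit 532) (nat_lit 38496791181) (nat_lit 76) (nat_lit 22225018224) (nat_lit 153) (nat_lit 5) (nat_lit 160) (nat_lit 5) (nat_lit 154) (nat_lit 5) (nat_lit 407) (nat_lit 375) (nat_lit 118)))))) (XT.nd (nat_lit 468) (nat_lit 1216) (nat_lit 0) (XT.nd (nat_lit 234) (nat_lit 836) (nat_lit 0) (XT.nd (nat_lit 78) (nat_lit 456) (nat_lit 0) (XT.lf (nat_lit 0) (nat_lit 10241851642) (nat_lit 532) (nat_lit 6050955304) (nat_lit 76) (nat_lit 47712354050) (nat_lit 153) (nat_lit 5) (nat_lit 160) (nat_lit 5) (nat_lit 154) (nat_lit 5) (nat_lit 408) (nat_lit 375) (nat_lit 117)) (XT.nd (nat_lit 78) (nat_lit 0) (nat_lit 0) (XT.lf (nat_lit 0) (nat_lit 18915486757) (nat_lit 532) (nat_lit 37323978139) (nat_lit 76) (nat_lit 8906588401) (nat_lit 147) (nat_lit 5) (nat_lit 154) (nat_lit 5) (nat_lit 148) (nat_lit 5) (nat_lit 409)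 (nat_lit 375) (nat_lit 116)) (XT.lf (nat_lit 0) (nat_lit 28071582710) (nat_lit 532) (nat_lit 3646842806) (nat_lit 76) (nat_lit 34596079768) (nat_lit 147) (nat_lit 5) (nat_lit 154) (nat_lit 5) (nat_lit 148) (nat_lit 5) (nat_lit 410) (nat_lit 375) (nat_lit 115)))) (XT.nd (nat_lit 78) (nat_lit 380) (nat_lit 0) (XT.lf (nat_lit 0) (nat_lit 31657465720) (nat_lit 456) (nat_lit 6148458305) (nat_lit 532) (nat_lit 29702980387) (nat_lit 141) (nat_lit 5) (nat_lit 147) (nat_lit 5) (nat_lit 148) (nat_lit 5) (nat_lit 411) (nat_lit 375) (nat_lit 114)) (XT.nd (nat_lit 78) (nat_lit 380) (nat_lit 0) (XT.lf (nat_lit 0) (nat_lit 48062814845) (nat_lit 532) (nat_lit 837704771) (nat_lit 76) (nat_lit 19831700763) (nat_lit 141) (nat_lit 5) (nat_lit 148) (nat_lit 5) (nat_lit 142) (nat_lit 5) (nat_lit 412) (nat_lit 375) (nat_lit 113)) (XT.lf (nat_lit 0) (nat_lit 35864533534) (nat_lit 380) (nat_lit 23167791410) (nat_lit 456) (nat_lit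 10947763936) (nat_lit 136) (nat_lit 5) (nat_lit 141) (nat_lit 5) (nat_lit 142) (nat_lit 5) (nat_lit 413) (nat_lit 375) (nat_lit 112))))) (XT.nd (nat_lit 234) (nat_lit 380) (nat_lit 0) (XT.nd (nat_lit 78) (nat_lit 456) (nat_lit 0) (XT.lf (nat_lit 0) (nat_lit 2434324310) (nat_lit 380) (nat_lit 67959911445) (nat_lit 456) (nat_lit 869258637) (nat_lit 131) (nat_lit 5) (nat_lit 136) (nat_lit 5) (nat_lit 137) (nat_lit 5) (nat_lit 414) (nat_lit 375) (nat_lit 111)) (XT.nd (nat_lit 78) (nat_lit 380) (nat_lit 0) (XT.lf (nat_lit 0) (nat_lit 9902591950) (nat_lit 456) (nat_lit 32120152486) (nat_lit 76) (nat_lit 30542617216) (nat_lit 130) (nat_lit 5) (nat_lit 136) (nat_lit 5) (nat_lit 131) (nat_lit 5) (nat_lit 415) (nat_lit 375) (nat_lit 110)) (XT.lf (nat_lit 0) (nat_lit 5793716542) (nat_lit 380) (nat_lit 15241423950) (nat_lit 456) (nat_lit 52869236212) (nat_lit 125) (nat_lit 5) (nat_lit 130) (nat_lit 5) (nat_lit 131)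 (nat_lit 5) (nat_lit 416) (nat_lit 375) (nat_lit 109)))) (XT.nd (nat_lit 156) (nat_lit 0) (nat_lit 0) (XT.nd (nat_lit 78) (nat_lit 380) (nat_lit 0) (XT.lf (nat_lit 0) (nat_lit 32947209726) (nat_lit 456) (nat_lit 29893140383) (nat_lit 76) (nat_lit 12429846145) (nat_lit 125) (nat_lit 5) (nat_lit 131) (nat_lit 5) (nat_lit 126) (nat_lit 5) (nat_lit 417) (nat_lit 375) (nat_lit 108)) (XT.lf (nat_lit 0) (nat_lit 9504615810) (nat_lit 380) (nat_lit 35953644678) (nat_lit 456) (nat_lit 31211481680) (nat_lit 120) (nat_lit 5) (nat_lit 125) (nat_lit 5) (nat_lit 126) (nat_lit 5) (nat_lit 418) (nat_lit 375) (nat_lit 107))) (XT.nd (nat_lit 43524) (nat_lit 0) (nat_lit 8056) (XT.lf (nat_lit 0) (nat_lit 50696239846) (nat_lit 380) (nat_lit 7949625921) (nat_lit 456) (nat_lit 19456372352) (nat_lit 120) (nat_lit 5) (nat_lit 125) (nat_lit 5) (nat_lit 126) (nat_lit 5) (nat_lit 419) (nat_lit 375) (nat_lit 106)) (XT.lf (nat_lit 0)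 (nat_lit 8708329493) (nat_lit 0) (nat_lit 8708329493) (nat_lit 1140) (nat_lit 1879735846) (nat_lit 226) (nat_lit 5) (nat_lit 226) (nat_lit 3) (nat_lit 241) (nat_lit 3) (nat_lit 376) (nat_lit 376) (nat_lit 148))))))) (XT.nd (nat_lit 1014) (nat_lit 2964) (nat_lit 0) (XT.nd (nat_lit 468) (nat_lit 1064) (nat_lit 0) (XT.nd (nat_lit 234) (nat_lit 0) (nat_lit 76) (XT.nd (nat_lit 78) (nat_lit 0) (nat_lit 0) (XT.lf (nat_lit 0) (nat_lit 35404850305) (nat_lit 1140) (nat_lit 3095038827) (nat_lit 1216) (nat_lit 670288462) (nat_lit 226) (nat_lit 5) (nat_lit 241) (nat_lit 3) (nat_lit 242) (nat_lit 5) (nat_lit 377) (nat_lit 376) (nat_lit 147)) (XT.nd (nat_lit 78) (nat_lit 0) (nat_lit 0) (XT.lf (nat_lit 76) (nat_lit 15660753793) (nat_lit 0) (nat_lit 20654108551) (nat_lit 1216) (nat_lit 3440386088) (nat_lit 227) (nat_lit 5) (nat_lit 226) (nat_lit 5) (nat_lit 242) (nat_lit 5) (nat_lit 378) (nat_lit 376) (nat_lit 146)) (XT.lf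 (nat_lit 76) (nat_lit 35041786622) (nat_lit 0) (nat_lit 2240032359) (nat_lit 1216) (nat_lit 3075164334) (nat_lit 227) (nat_lit 5) (nat_lit 226) (nat_lit 5) (nat_lit 242) (nat_lit 5) (nat_lit 379) (nat_lit 376) (nat_lit 145)))) (XT.nd (nat_lit 78) (nat_lit 0) (nat_lit 0) (XT.lf (nat_lit 76) (nat_lit 14141743365) (nat_lit 0) (nat_lit 24431209180) (nat_lit 1216) (nat_lit 2394963866) (nat_lit 228) (nat_lit 5) (nat_lit 227) (nat_lit 5) (nat_lit 243) (nat_lit 5) (nat_lit 380) (nat_lit 376) (nat_lit 144)) (XT.nd (nat_lit 78) (nat_lit 0) (nat_lit 76) (XT.lf (nat_lit 76) (nat_lit 34267828769) (nat_lit 0) (nat_lit 5709106299) (nat_lit 1216) (nat_lit 1618020159) (nat_lit 228) (nat_lit 5) (nat_lit 227) (nat_lit 5) (nat_lit 243) (nat_lit 5) (nat_lit 381) (nat_lit 376) (nat_lit 143)) (XT.lf (nat_lit 76) (nat_lit 12876751157) (nat_lit 0) (nat_lit 28799083875) (nat_lit 1216) (nat_lit 557387380) (nat_lit 229) (nat_lit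 5) (nat_lit 228) (nat_lit 5) (nat_lit 244) (nat_lit 5) (nat_lit 382) (nat_lit 376) (nat_lit 142))))) (XT.nd (nat_lit 234) (nat_lit 0) (nat_lit 152) (XT.nd (nat_lit 78) (nat_lit 0) (nat_lit 76) (XT.lf (nat_lit 0) (nat_lit 654420853) (nat_lit 1216) (nat_lit 9114820767) (nat_lit 1292) (nat_lit 33117348842) (nat_lit 212) (nat_lit 5) (nat_lit 228) (nat_lit 5) (nat_lit 229) (nat_lit 5) (nat_lit 383) (nat_lit 376) (nat_lit 141)) (XT.nd (nat_lit 78) (nat_lit 0) (nat_lit 0) (XT.lf (nat_lit 0) (nat_lit 2100653152) (nat_lit 1216) (nat_lit 31690646021) (nat_lit 1292) (nat_lit 9761817683) (nat_lit 213) (nat_lit 5) (nat_lit 229) (nat_lit 5) (nat_lit 230) (nat_lit 5) (nat_lit 384) (nat_lit 376) (nat_lit 140)) (XT.lf (nat_lit 0) (nat_lit 3778579249) (nat_lit 1216) (nat_lit 10679543556) (nat_lit 1292) (nat_lit 29775868046) (nat_lit 213) (nat_lit 5) (nat_lit 229) (nat_lit 5) (nat_lit 230) (nat_lit 5) (nat_lit 385) (nat_lit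 376) (nat_lit 139)))) (XT.nd (nat_lit 156) (nat_lit 0) (nat_lit 76) (XT.nd (nat_lit 78) (nat_lit 0) (nat_lit 0) (XT.lf (nat_lit 0) (nat_lit 5666477166) (nat_lit 1216) (nat_lit 33806504184) (nat_lit 1292) (nat_lit 5457521682) (nat_lit 214) (nat_lit 5) (nat_lit 230) (nat_lit 5) (nat_lit 231) (nat_lit 5) (nat_lit 386) (nat_lit 376) (nat_lit 138)) (XT.lf (nat_lit 0) (nat_lit 7861774070) (nat_lit 1216) (nat_lit 11989287225) (nat_lit 1292) (nat_lit 25789327377) (nat_lit 214) (nat_lit 5) (nat_lit 230) (nat_lit 5) (nat_lit 231) (nat_lit 5) (nat_lit 387) (nat_lit 376) (nat_lit 137))) (XT.nd (nat_lit 78) (nat_lit 0) (nat_lit 0) (XT.lf (nat_lit 0) (nat_lit 10228906178) (nat_lit 1216) (nat_lit 35682888497) (nat_lit 1292) (nat_lit 456597846) (nat_lit 215) (nat_lit 5) (nat_lit 231) (nat_lit 5) (nat_lit 232) (nat_lit 5) (nat_lit 388) (nat_lit 376) (nat_lit 136)) (XT.lf (nat_lit 0) (nat_lit 12984635088) (nat_lit 1216)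 (nat_lit 13027006433) (nat_lit 1292) (nat_lit 21097068382) (nat_lit 215) (nat_lit 5) (nat_lit 231) (nat_lit 5) (nat_lit 232) (nat_lit 5) (nat_lit 389) (nat_lit 376) (nat_lit 135)))))) (XT.nd (nat_lit 546) (nat_lit 1748) (nat_lit 0) (XT.nd (nat_lit 234) (nat_lit 1444) (nat_lit 0) (XT.nd (nat_lit 78) (nat_lit 0) (nat_lit 76) (XT.lf (nat_lit 76) (nat_lit 10512756177) (nat_lit 0) (nat_lit 5410141225) (nat_lit 1292) (nat_lit 31945344433) (nat_lit 216) (nat_lit 5) (nat_lit 215) (nat_lit 5) (nat_lit 232) (nat_lit 5) (nat_lit 390) (nat_lit 376) (nat_lit 134)) (XT.nd (nat_lit 78) (nat_lit 0) (nat_lit 0) (XT.lf (nat_lit 0) (nat_lit 19232961551) (nat_lit 1216) (nat_lit 13775099534) (nat_lit 1292) (nat_lit 15633989871) (nat_lit 216) (nat_lit 5) (nat_lit 232) (nat_lit 5) (nat_lit 233) (nat_lit 5) (nat_lit 391) (nat_lit 376) (nat_lit 133)) (XT.lf (nat_lit 76) (nat_lit 10666332497) (nat_lit 0) (nat_lit 12130960767) (nat_lit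 1292) (nat_lit 26637132943) (nat_lit 217) (nat_lit 5) (nat_lit 216) (nat_lit 5) (nat_lit 233) (nat_lit 5) (nat_lit 392) (nat_lit 376) (nat_lit 132)))) (XT.nd (nat_lit 156) (nat_lit 608) (nat_lit 0) (XT.nd (nat_lit 78) (nat_lit 988) (nat_lit 0) (XT.lf (nat_lit 0) (nat_lit 26698021721) (nat_lit 1216) (nat_lit 14215452157) (nat_lit 76) (nat_lit 9330215635) (nat_lit 217) (nat_lit 5) (nat_lit 233) (nat_lit 5) (nat_lit 218) (nat_lit 5) (nat_lit 393) (nat_lit 376) (nat_lit 131)) (XT.lf (nat_lit 0) (nat_lit 11170703875) (nat_lit 988) (nat_lit 19771482830) (nat_lit 1064) (nat_lit 20128252350) (nat_lit 204) (nat_lit 5) (nat_lit 217) (nat_lit 5) (nat_lit 218) (nat_lit 5) (nat_lit 394) (nat_lit 376) (nat_lit 130))) (XT.nd (nat_lit 78) (nat_lit 608) (nat_lit 0) (XT.lf (nat_lit 0) (nat_lit 35476867205) (nat_lit 1064) (nat_lit 14329490747) (nat_lit 76) (nat_lit 2110738171) (nat_lit 204) (nat_lit 5) (nat_lit 218) (nat_lit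 5) (nat_lit 205) (nat_lit 5) (nat_lit 395) (nat_lit 376) (nat_lit 129)) (XT.lf (nat_lit 0) (nat_lit 12046236009) (nat_lit 608) (nat_lit 28411885783) (nat_lit 684) (nat_lit 12321715833) (nat_lit 196) (nat_lit 5) (nat_lit 204) (nat_lit 5) (nat_lit 205) (nat_lit 5) (nat_lit 396) (nat_lit 376) (nat_lit 128))))) (XT.nd (nat_lit 234) (nat_lit 1140) (nat_lit 0) (XT.nd (nat_lit 78) (nat_lit 608) (nat_lit 0) (XT.lf (nat_lit 0) (nat_lit 39506051022) (nat_lit 608) (nat_lit 6226464190) (nat_lit 684) (nat_lit 7931635836) (nat_lit 196) (nat_lit 5) (nat_lit 204) (nat_lit 5) (nat_lit 205) (nat_lit 5) (nat_lit 397) (nat_lit 376) (nat_lit 127)) (XT.nd (nat_lit 78) (nat_lit 76) (nat_lit 0) (XT.lf (nat_lit 0) (nat_lit 13313732821) (nat_lit 532) (nat_lit 38138223630) (nat_lit 608) (nat_lit 3114433633) (nat_lit 189) (nat_lit 5) (nat_lit 196) (nat_lit 5) (nat_lit 197) (nat_lit 5) (nat_lit 398) (nat_lit 376) (nat_lit 126)) (XT.lf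 (nat_lit 0) (nat_lit 2016310749) (nat_lit 608) (nat_lit 13673218589) (nat_lit 76) (nat_lit 39799482689) (nat_lit 188) (nat_lit 5) (nat_lit 196) (nat_lit 5) (nat_lit 189) (nat_lit 5) (nat_lit 399) (nat_lit 376) (nat_lit 125)))) (XT.nd (nat_lit 156) (nat_lit 532) (nat_lit 0) (XT.nd (nat_lit 78) (nat_lit 0) (nat_lit 0) (XT.lf (nat_lit 0) (nat_lit 7454764305) (nat_lit 684) (nat_lit 41512819492) (nat_lit 76) (nat_lit 7464312868) (nat_lit 180) (nat_lit 5) (nat_lit 189) (nat_lit 5) (nat_lit 181) (nat_lit 5) (nat_lit 400) (nat_lit 376) (nat_lit 124)) (XT.lf (nat_lit 0) (nat_lit 13350240154) (nat_lit 684) (nat_lit 12907135327) (nat_lit 76) (nat_lit 31136876915) (nat_lit 180) (nat_lit 5) (nat_lit 189) (nat_lit 5) (nat_lit 181) (nat_lit 5) (nat_lit 401) (nat_lit 376) (nat_lit 123))) (XT.nd (nat_lit 78) (nat_lit 0) (nat_lit 0) (XT.lf (nat_lit 0) (nat_lit 16885309540) (nat_lit 532) (nat_lit 2698696310) (nat_lit 608)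 (nat_lit 38796630778) (nat_lit 173) (nat_lit 5) (nat_lit 180) (nat_lit 5) (nat_lit 181) (nat_lit 5) (nat_lit 402) (nat_lit 376) (nat_lit 122)) (XT.lf (nat_lit 0) (nat_lit 26342855097) (nat_lit 608) (nat_lit 11766114690) (nat_lit 76) (nat_lit 21277501060) (nat_lit 173) (nat_lit 5) (nat_lit 181) (nat_lit 5) (nat_lit 174) (nat_lit 5) (nat_lit 403) (nat_lit 376) (nat_lit 121))))))))
noncomputable def xc245 : XT := (XT.nd (nat_lit 45552) (nat_lit 0) (nat_lit 1596) (XT.nd (nat_lit 1014) (nat_lit 760) (nat_lit 0) (XT.nd (nat_lit 468) (nat_lit 1748) (nat_lit 0) (XT.nd (nat_lit 234) (nat_lit 532) (nat_lit 0) (XT.nd (nat_lit 78) (nat_lit 456) (nat_lit 0) (XT.lf (nat_lit 0) (nat_lit 19202061930) (nat_lit 532) (nat_lit 14312865572) (nat_lit 608) (nat_lit 26901239424) (nat_lit 166) (nat_lit 5) (nat_lit 173) (nat_lit 5) (nat_lit 174) (nat_lit 5) (nat_lit 404) (nat_lit 376) (nat_lit 120)) (XT.nd (nat_lit 78) (nat_lit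 456) (nat_lit 0) (XT.lf (nat_lit 0) (nat_lit 41119345601) (nat_lit 608) (nat_lit 10232818984) (nat_lit 76) (nat_lit 10118074342) (nat_lit 166) (nat_lit 5) (nat_lit 174) (nat_lit 5) (nat_lit 167) (nat_lit 5) (nat_lit 405) (nat_lit 376) (nat_lit 119)) (XT.lf (nat_lit 0) (nat_lit 21963905628) (nat_lit 456) (nat_lit 27340028260) (nat_lit 532) (nat_lit 13241438599) (nat_lit 160) (nat_lit 5) (nat_lit 166) (nat_lit 5) (nat_lit 167) (nat_lit 5) (nat_lit 406) (nat_lit 376) (nat_lit 118)))) (XT.nd (nat_lit 78) (nat_lit 532) (nat_lit 0) (XT.lf (nat_lit 0) (nat_lit 55335420049) (nat_lit 456) (nat_lit 2501181814) (nat_lit 532) (nat_lit 5813082445) (nat_lit 160) (nat_lit 5) (nat_lit 166) (nat_lit 5) (nat_lit 167) (nat_lit 5) (nat_lit 407) (nat_lit 376) (nat_lit 117)) (XT.nd (nat_lit 78) (nat_lit 0) (nat_lit 0) (XT.lf (nat_lit 0) (nat_lit 2270100478) (nat_lit 532) (nat_lit 39605745360) (nat_lit 76) (nat_lit 22896714720)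 (nat_lit 153) (nat_lit 5) (nat_lit 160) (nat_lit 5) (nat_lit 154) (nat_lit 5) (nat_lit 408) (nat_lit 376) (nat_lit 116)) (XT.lf (nat_lit 0) (nat_lit 10587733836) (nat_lit 532) (nat_lit 6187872743) (nat_lit 76) (nat_lit 49148526564) (nat_lit 153) (nat_lit 5) (nat_lit 160) (nat_lit 5) (nat_lit 154) (nat_lit 5) (nat_lit 409) (nat_lit 376) (nat_lit 115))))) (XT.nd (nat_lit 234) (nat_lit 836) (nat_lit 0) (XT.nd (nat_lit 78) (nat_lit 456) (nat_lit 0) (XT.lf (nat_lit 0) (nat_lit 19520937638) (nat_lit 532) (nat_lit 38398422709) (nat_lit 76) (nat_lit 9179911771) (nat_lit 147) (nat_lit 5) (nat_lit 154) (nat_lit 5) (nat_lit 148) (nat_lit 5) (nat_lit 410) (nat_lit 376) (nat_lit 114)) (XT.nd (nat_lit 78) (nat_lit 456) (nat_lit 0) (XT.lf (nat_lit 0) (nat_lit 28950610074) (nat_lit 532) (nat_lit 3712291998) (nat_lit 76) (nat_lit 35639909460) (nat_lit 147) (nat_lit 5) (nat_lit 154) (nat_lit 5) (nat_lit 148) (nat_lit 5)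 (nat_lit 411) (nat_lit 376) (nat_lit 113)) (XT.lf (nat_lit 0) (nat_lit 32650714841) (nat_lit 456) (nat_lit 6325611006) (nat_lit 532) (nat_lit 30556737117) (nat_lit 141) (nat_lit 5) (nat_lit 147) (nat_lit 5) (nat_lit 148) (nat_lit 5) (nat_lit 412) (nat_lit 376) (nat_lit 112)))) (XT.nd (nat_lit 156) (nat_lit 456) (nat_lit 0) (XT.nd (nat_lit 78) (nat_lit 380) (nat_lit 0) (XT.lf (nat_lit 0) (nat_lit 49539936459) (nat_lit 532) (nat_lit 819570334) (nat_lit 76) (nat_lit 20433601862) (nat_lit 141) (nat_lit 5) (nat_lit 148) (nat_lit 5) (nat_lit 142) (nat_lit 5) (nat_lit 413) (nat_lit 376) (nat_lit 111)) (XT.lf (nat_lit 0) (nat_lit 36983310949) (nat_lit 380) (nat_lit 23854606405) (nat_lit 456) (nat_lit 11240514911) (nat_lit 136) (nat_lit 5) (nat_lit 141) (nat_lit 5) (nat_lit 142) (nat_lit 5) (nat_lit 414) (nat_lit 376) (nat_lit 110))) (XT.nd (nat_lit 78) (nat_lit 76) (nat_lit 0) (XT.lf (nat_lit 0) (nat_lit 2550746103)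 (nat_lit 380) (nat_lit 69989424773) (nat_lit 456) (nat_lit 860185104) (nat_lit 131) (nat_lit 5) (nat_lit 136) (nat_lit 5) (nat_lit 137) (nat_lit 5) (nat_lit 415) (nat_lit 376) (nat_lit 109)) (XT.lf (nat_lit 0) (nat_lit 10233131226) (nat_lit 456) (nat_lit 33040944040) (nat_lit 76) (nat_lit 31467224535) (nat_lit 130) (nat_lit 5) (nat_lit 136) (nat_lit 5) (nat_lit 131) (nat_lit 5) (nat_lit 416) (nat_lit 376) (nat_lit 108)))))) (XT.nd (nat_lit 43992) (nat_lit 0) (nat_lit 6992) (XT.nd (nat_lit 43758) (nat_lit 0) (nat_lit 8056) (XT.nd (nat_lit 78) (nat_lit 380) (nat_lit 0) (XT.lf (nat_lit 0) (nat_lit 6009921324) (nat_lit 380) (nat_lit 15689167804) (nat_lit 456) (nat_lit 54421413740) (nat_lit 125) (nat_lit 5) (nat_lit 130) (nat_lit 5) (nat_lit 131) (nat_lit 5) (nat_lit 417) (nat_lit 376) (nat_lit 107)) (XT.nd (nat_lit 78) (nat_lit 380) (nat_lit 0) (XT.lf (nat_lit 0) (nat_lit 33967650998) (nat_lit 456) (nat_lit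 30747888853) (nat_lit 76) (nat_lit 12811783769) (nat_lit 125) (nat_lit 5) (nat_lit 131) (nat_lit 5) (nat_lit 126) (nat_lit 5) (nat_lit 418) (nat_lit 376) (nat_lit 106)) (XT.lf (nat_lit 0) (nat_lit 9831387813) (nat_lit 380) (nat_lit 37022112910) (nat_lit 456) (nat_lit 32115371682) (nat_lit 120) (nat_lit 5) (nat_lit 125) (nat_lit 5) (nat_lit 126) (nat_lit 5) (nat_lit 419) (nat_lit 376) (nat_lit 105)))) (XT.nd (nat_lit 78) (nat_lit 0) (nat_lit 0) (XT.lf (nat_lit 0) (nat_lit 8990605849) (nat_lit 0) (nat_lit 8990605849) (nat_lit 1140) (nat_lit 1892780766) (nat_lit 226) (nat_lit 5) (nat_lit 226) (nat_lit 3) (nat_lit 241) (nat_lit 3) (nat_lit 377) (nat_lit 377) (nat_lit 146)) (XT.nd (nat_lit 78) (nat_lit 0) (nat_lit 0) (XT.lf (nat_lit 0) (nat_lit 36548259547) (nat_lit 1140) (nat_lit 3144156393) (nat_lit 1216) (nat_lit 650365720) (nat_lit 226) (nat_lit 5) (nat_lit 241) (nat_lit 3) (nat_lit 242) (nat_lit 5) (nat_lit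 378) (nat_lit 377) (nat_lit 145)) (XT.lf (nat_lit 76) (nat_lit 16173881245) (nat_lit 0) (nat_lit 21309740071) (nat_lit 1216) (nat_lit 3461843672) (nat_lit 227) (nat_lit 5) (nat_lit 226) (nat_lit 5) (nat_lit 242) (nat_lit 5) (nat_lit 379) (nat_lit 377) (nat_lit 144))))) (XT.nd (nat_lit 234) (nat_lit 1064) (nat_lit 0) (XT.nd (nat_lit 78) (nat_lit 0) (nat_lit 76) (XT.lf (nat_lit 76) (nat_lit 36135083753) (nat_lit 0) (nat_lit 2342192809) (nat_lit 1216) (nat_lit 3088046450) (nat_lit 227) (nat_lit 5) (nat_lit 226) (nat_lit 5) (nat_lit 242) (nat_lit 5) (nat_lit 380) (nat_lit 377) (nat_lit 143)) (XT.nd (nat_lit 78) (nat_lit 0) (nat_lit 0) (XT.lf (nat_lit 76) (nat_lit 14610306334) (nat_lit 0) (nat_lit 25194694669) (nat_lit 1216) (nat_lit 2389649130) (nat_lit 228) (nat_lit 5) (nat_lit 227) (nat_lit 5) (nat_lit 243) (nat_lit 5) (nat_lit 381) (nat_lit 377) (nat_lit 142)) (XT.lf (nat_lit 76) (nat_lit 35338883698) (nat_lit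 0) (nat_lit 5910038920) (nat_lit 1216) (nat_lit 1591644597) (nat_lit 228) (nat_lit 5) (nat_lit 227) (nat_lit 5) (nat_lit 243) (nat_lit 5) (nat_lit 382) (nat_lit 377) (nat_lit 141)))) (XT.nd (nat_lit 156) (nat_lit 0) (nat_lit 76) (XT.nd (nat_lit 78) (nat_lit 1216) (nat_lit 0) (XT.lf (nat_lit 76) (nat_lit 13308149044) (nat_lit 0) (nat_lit 29688680341) (nat_lit 1216) (nat_lit 501213474) (nat_lit 229) (nat_lit 5) (nat_lit 228) (nat_lit 5) (nat_lit 244) (nat_lit 5) (nat_lit 383) (nat_lit 377) (nat_lit 140)) (XT.lf (nat_lit 0) (nat_lit 743444811) (nat_lit 1216) (nat_lit 9343050962) (nat_lit 1292) (nat_lit 34084559154) (nat_lit 212) (nat_lit 5) (nat_lit 228) (nat_lit 5) (nat_lit 229) (nat_lit 5) (nat_lit 384) (nat_lit 377) (nat_lit 139))) (XT.nd (nat_lit 78) (nat_lit 0) (nat_lit 0) (XT.lf (nat_lit 0) (nat_lit 2231251968) (nat_lit 1216) (nat_lit 32594288853) (nat_lit 1292) (nat_lit 10032092156) (nat_lit 213) (nat_lit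 5) (nat_lit 229) (nat_lit 5) (nat_lit 230) (nat_lit 5) (nat_lit 385) (nat_lit 377) (nat_lit 138)) (XT.lf (nat_lit 0) (nat_lit 3957547521) (nat_lit 1216) (nat_lit 10954224476) (nat_lit 1292) (nat_lit 30647221702) (nat_lit 213) (nat_lit 5) (nat_lit 229) (nat_lit 5) (nat_lit 230) (nat_lit 5) (nat_lit 386) (nat_lit 377) (nat_lit 137))))))) (XT.nd (nat_lit 1014) (nat_lit 3648) (nat_lit 0) (XT.nd (nat_lit 468) (nat_lit 1900) (nat_lit 0) (XT.nd (nat_lit 234) (nat_lit 0) (nat_lit 76) (XT.nd (nat_lit 78) (nat_lit 0) (nat_lit 0) (XT.lf (nat_lit 0) (nat_lit 5900424955) (nat_lit 1216) (nat_lit 34773289365) (nat_lit 1292) (nat_lit 5602738060) (nat_lit 214) (nat_lit 5) (nat_lit 230) (nat_lit 5) (nat_lit 231) (nat_lit 5) (nat_lit 387) (nat_lit 377) (nat_lit 136)) (XT.nd (nat_lit 78) (nat_lit 0) (nat_lit 76) (XT.lf (nat_lit 0) (nat_lit 8159718044) (nat_lit 1216) (nat_lit 12302936769) (nat_lit 1292) (nat_lit 26545037032)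 (nat_lit 214) (nat_lit 5) (nat_lit 230) (nat_lit 5) (nat_lit 231) (nat_lit 5) (nat_lit 388) (nat_lit 377) (nat_lit 135)) (XT.lf (nat_lit 0) (nat_lit 10596348209) (nat_lit 1216) (nat_lit 36705785741) (nat_lit 1292) (nat_lit 455448670) (nat_lit 215) (nat_lit 5) (nat_lit 231) (nat_lit 5) (nat_lit 232) (nat_lit 5) (nat_lit 389) (nat_lit 377) (nat_lit 134)))) (XT.nd (nat_lit 78) (nat_lit 0) (nat_lit 0) (XT.lf (nat_lit 0) (nat_lit 13432984670) (nat_lit 1216) (nat_lit 13371613314) (nat_lit 1292) (nat_lit 21715565762) (nat_lit 215) (nat_lit 5) (nat_lit 231) (nat_lit 5) (nat_lit 232) (nat_lit 5) (nat_lit 390) (nat_lit 377) (nat_lit 133)) (XT.nd (nat_lit 78) (nat_lit 0) (nat_lit 76) (XT.lf (nat_lit 76) (nat_lit 10873889201) (nat_lit 0) (nat_lit 5584232505) (nat_lit 1292) (nat_lit 32844399381) (nat_lit 216) (nat_lit 5) (nat_lit 215) (nat_lit 5) (nat_lit 232) (nat_lit 5) (nat_lit 391) (nat_lit 377) (nat_lit 132))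 (XT.lf (nat_lit 0) (nat_lit 19865701928) (nat_lit 1216) (nat_lit 14142108205) (nat_lit 1292) (nat_lit 16091789144) (nat_lit 216) (nat_lit 5) (nat_lit 232) (nat_lit 5) (nat_lit 233) (nat_lit 5) (nat_lit 392) (nat_lit 377) (nat_lit 131))))) (XT.nd (nat_lit 234) (nat_lit 1140) (nat_lit 0) (XT.nd (nat_lit 78) (nat_lit 912) (nat_lit 0) (XT.lf (nat_lit 76) (nat_lit 11032113412) (nat_lit 0) (nat_lit 12503666520) (nat_lit 1292) (nat_lit 27380002548) (nat_lit 217) (nat_lit 5) (nat_lit 216) (nat_lit 5) (nat_lit 233) (nat_lit 5) (nat_lit 393) (nat_lit 377) (nat_lit 130)) (XT.nd (nat_lit 78) (nat_lit 988) (nat_lit 0) (XT.lf (nat_lit 0) (nat_lit 27551858976) (nat_lit 1216) (nat_lit 14595748903) (nat_lit 76) (nat_lit 9601767093) (nat_lit 217) (nat_lit 5) (nat_lit 233) (nat_lit 5) (nat_lit 218) (nat_lit 5) (nat_lit 394) (nat_lit 377) (nat_lit 129)) (XT.lf (nat_lit 0) (nat_lit 11551539193) (nat_lit 988) (nat_lit 20370708471)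 (nat_lit 1064) (nat_lit 20678713490) (nat_lit 204) (nat_lit 5) (nat_lit 217) (nat_lit 5) (nat_lit 218) (nat_lit 5) (nat_lit 395) (nat_lit 377) (nat_lit 128)))) (XT.nd (nat_lit 156) (nat_lit 532) (nat_lit 0) (XT.nd (nat_lit 78) (nat_lit 608) (nat_lit 0) (XT.lf (nat_lit 0) (nat_lit 36591403223) (nat_lit 1064) (nat_lit 14713391266) (nat_lit 76) (nat_lit 2168271490) (nat_lit 204) (nat_lit 5) (nat_lit 218) (nat_lit 5) (nat_lit 205) (nat_lit 5) (nat_lit 396) (nat_lit 377) (nat_lit 127)) (XT.lf (nat_lit 0) (nat_lit 12453156468) (nat_lit 608) (nat_lit 29267913665) (nat_lit 684) (nat_lit 12640651405) (nat_lit 196) (nat_lit 5) (nat_lit 204) (nat_lit 5) (nat_lit 205) (nat_lit 5) (nat_lit 397) (nat_lit 377) (nat_lit 126))) (XT.nd (nat_lit 78) (nat_lit 532) (nat_lit 0) (XT.lf (nat_lit 0) (nat_lit 40735439716) (nat_lit 608) (nat_lit 6416822493) (nat_lit 684) (nat_lit 8120346170) (nat_lit 196) (nat_lit 5) (nat_lit 204)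 (nat_lit 5) (nat_lit 205) (nat_lit 5) (nat_lit 398) (nat_lit 377) (nat_lit 125)) (XT.lf (nat_lit 0) (nat_lit 13758405308) (nat_lit 532) (nat_lit 39283891781) (nat_lit 608) (nat_lit 3159648178) (nat_lit 189) (nat_lit 5) (nat_lit 196) (nat_lit 5) (nat_lit 197) (nat_lit 5) (nat_lit 399) (nat_lit 377) (nat_lit 124)))))) (XT.nd (nat_lit 546) (nat_lit 1900) (nat_lit 0) (XT.nd (nat_lit 234) (nat_lit 1064) (nat_lit 0) (XT.nd (nat_lit 78) (nat_lit 608) (nat_lit 0) (XT.lf (nat_lit 0) (nat_lit 2122700603) (nat_lit 608) (nat_lit 14038528237) (nat_lit 76) (nat_lit 40991045368) (nat_lit 188) (nat_lit 5) (nat_lit 196) (nat_lit 5) (nat_lit 189) (nat_lit 5) (nat_lit 400) (nat_lit 377) (nat_lit 123)) (XT.nd (nat_lit 78) (nat_lit 0) (nat_lit 0) (XT.lf (nat_lit 0) (nat_lit 7723392878) (nat_lit 684) (nat_lit 42712372023) (nat_lit 76) (nat_lit 7687708839) (nat_lit 180) (nat_lit 5) (nat_lit 189) (nat_lit 5) (nat_lit 181) (nat_lit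 5) (nat_lit 401) (nat_lit 377) (nat_lit 122)) (XT.lf (nat_lit 0) (nat_lit 13794422741) (nat_lit 684) (nat_lit 13249852248) (nat_lit 76) (nat_lit 32070465343) (nat_lit 180) (nat_lit 5) (nat_lit 189) (nat_lit 5) (nat_lit 181) (nat_lit 5) (nat_lit 402) (nat_lit 377) (nat_lit 121)))) (XT.nd (nat_lit 156) (nat_lit 532) (nat_lit 0) (XT.nd (nat_lit 78) (nat_lit 0) (nat_lit 0) (XT.lf (nat_lit 0) (nat_lit 17435929719) (nat_lit 532) (nat_lit 2778423131) (nat_lit 608) (nat_lit 39916389553) (nat_lit 173) (nat_lit 5) (nat_lit 180) (nat_lit 5) (nat_lit 181) (nat_lit 5) (nat_lit 403) (nat_lit 377) (nat_lit 120)) (XT.lf (nat_lit 0) (nat_lit 27174731708) (nat_lit 608) (nat_lit 12075057010) (nat_lit 76) (nat_lit 21917000838) (nat_lit 173) (nat_lit 5) (nat_lit 181) (nat_lit 5) (nat_lit 174) (nat_lit 5) (nat_lit 404) (nat_lit 377) (nat_lit 119))) (XT.nd (nat_lit 78) (nat_lit 0) (nat_lit 0) (XT.lf (nat_lit 0) (nat_lit 19821733133)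 (nat_lit 532) (nat_lit 14739440964) (nat_lit 608) (nat_lit 27666226991) (nat_lit 166) (nat_lit 5) (nat_lit 173) (nat_lit 5) (nat_lit 174) (nat_lit 5) (nat_lit 405) (nat_lit 377) (nat_lit 118)) (XT.lf (nat_lit 0) (nat_lit 42392562656) (nat_lit 608) (nat_lit 10496276201) (nat_lit 76) (nat_lit 10424292038) (nat_lit 166) (nat_lit 5) (nat_lit 174) (nat_lit 5) (nat_lit 167) (nat_lit 5) (nat_lit 406) (nat_lit 377) (nat_lit 117))))) (XT.nd (nat_lit 234) (nat_lit 912) (nat_lit 0) (XT.nd (nat_lit 78) (nat_lit 532) (nat_lit 0) (XT.lf (nat_lit 0) (nat_lit 22665923411) (nat_lit 456) (nat_lit 28156025024) (nat_lit 532) (nat_lit 13598592993) (nat_lit 160) (nat_lit 5) (nat_lit 166) (nat_lit 5) (nat_lit 167) (nat_lit 5) (nat_lit 407) (nat_lit 377) (nat_lit 116)) (XT.nd (nat_lit 78) (nat_lit 532) (nat_lit 0) (XT.lf (nat_lit 0) (nat_lit 57037327907) (nat_lit 456) (nat_lit 2572135633) (nat_lit 532) (nat_lit 5948553788) (nat_lit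 160) (nat_lit 5) (nat_lit 166) (nat_lit 5) (nat_lit 167) (nat_lit 5) (nat_lit 408) (nat_lit 377) (nat_lit 115)) (XT.lf (nat_lit 0) (nat_lit 2375705089) (nat_lit 532) (nat_lit 40750605857) (nat_lit 76) (nat_lit 23588278192) (nat_lit 153) (nat_lit 5) (nat_lit 160) (nat_lit 5) (nat_lit 154) (nat_lit 5) (nat_lit 409) (nat_lit 377) (nat_lit 114)))) (XT.nd (nat_lit 156) (nat_lit 456) (nat_lit 0) (XT.nd (nat_lit 78) (nat_lit 456) (nat_lit 0) (XT.lf (nat_lit 0) (nat_lit 10941775168) (nat_lit 532) (nat_lit 6331458573) (nat_lit 76) (nat_lit 50627508604) (nat_lit 153) (nat_lit 5) (nat_lit 160) (nat_lit 5) (nat_lit 154) (nat_lit 5) (nat_lit 410) (nat_lit 377) (nat_lit 113)) (XT.lf (nat_lit 0) (nat_lit 20142371478) (nat_lit 532) (nat_lit 39507699574) (nat_lit 76) (nat_lit 9461083201) (nat_lit 147) (nat_lit 5) (nat_lit 154) (nat_lit 5) (nat_lit 148) (nat_lit 5) (nat_lit 411) (nat_lit 377) (nat_lit 112))) (XT.nd (nat_lit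 78) (nat_lit 456) (nat_lit 0) (XT.lf (nat_lit 0) (nat_lit 29853891202) (nat_lit 532) (nat_lit 3782227926) (nat_lit 76) (nat_lit 36714712644) (nat_lit 147) (nat_lit 5) (nat_lit 154) (nat_lit 5) (nat_lit 148) (nat_lit 5) (nat_lit 412) (nat_lit 377) (nat_lit 111)) (XT.lf (nat_lit 0) (nat_lit 33671262914) (nat_lit 456) (nat_lit 6508497398) (nat_lit 532) (nat_lit 31438249597) (nat_lit 141) (nat_lit 5) (nat_lit 147) (nat_lit 5) (nat_lit 148) (nat_lit 5) (nat_lit 413) (nat_lit 377) (nat_lit 110))))))))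
noncomputable def xc246 : XT := (XT.nd (nat_lit 45708) (nat_lit 0) (nat_lit 380) (XT.nd (nat_lit 44694) (nat_lit 0) (nat_lit 5396) (XT.nd (nat_lit 44148) (nat_lit 0) (nat_lit 6612) (XT.nd (nat_lit 234) (nat_lit 456) (nat_lit 0) (XT.nd (nat_lit 78) (nat_lit 760) (nat_lit 0) (XT.lf (nat_lit 0) (nat_lit 51059348963) (nat_lit 532) (nat_lit 803375485) (nat_lit 76) (nat_lit 21053161031) (nat_lit 141) (nat_lit 5) (nat_lit 148) (nat_lit 5) (nat_lit 142) (nat_lit 5) (nat_lit 414) (nat_lit 377) (nat_lit 109)) (XT.nd (nat_lit 78) (nat_lit 380) (nat_lit 0) (XT.lf (nat_lit 0) (nat_lit 38133192413) (nat_lit 380) (nat_lit 24562497640) (nat_lit 456) (nat_lit 11544096704) (nat_lit 136) (nat_lit 5) (nat_lit 141) (nat_lit 5) (nat_lit 142) (nat_lit 5) (nat_lit 415) (nat_lit 377) (nat_lit 108)) (XT.lf (nat_lit 0) (nat_lit 2668169667) (nat_lit 380) (nat_lit 72080356442) (nat_lit 456) (nat_lit 852857193) (nat_lit 131) (nat_lit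 5) (nat_lit 136) (nat_lit 5) (nat_lit 137) (nat_lit 5) (nat_lit 416) (nat_lit 377) (nat_lit 107)))) (XT.nd (nat_lit 78) (nat_lit 380) (nat_lit 0) (XT.lf (nat_lit 0) (nat_lit 10571665853) (nat_lit 456) (nat_lit 33991816983) (nat_lit 76) (nat_lit 32419091966) (nat_lit 130) (nat_lit 5) (nat_lit 136) (nat_lit 5) (nat_lit 131) (nat_lit 5) (nat_lit 417) (nat_lit 377) (nat_lit 106)) (XT.nd (nat_lit 43758) (nat_lit 0) (nat_lit 7676) (XT.lf (nat_lit 0) (nat_lit 6230178701) (nat_lit 380) (nat_lit 16150889247) (nat_lit 456) (nat_lit 56022102567) (nat_lit 125) (nat_lit 5) (nat_lit 130) (nat_lit 5) (nat_lit 131) (nat_lit 5) (nat_lit 418) (nat_lit 377) (nat_lit 105)) (XT.lf (nat_lit 0) (nat_lit 9280143490) (nat_lit 0) (nat_lit 9280143490) (nat_lit 1140) (nat_lit 1908705338) (nat_lit 226) (nat_lit 5) (nat_lit 226) (nat_lit 3) (nat_lit 241) (nat_lit 3) (nat_lit 378) (nat_lit 378) (nat_lit 144))))) (XT.nd (nat_lit 234)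 (nat_lit 1064) (nat_lit 0) (XT.nd (nat_lit 78) (nat_lit 0) (nat_lit 0) (XT.lf (nat_lit 0) (nat_lit 37721306197) (nat_lit 1140) (nat_lit 3197257973) (nat_lit 1216) (nat_lit 632143262) (nat_lit 226) (nat_lit 5) (nat_lit 241) (nat_lit 3) (nat_lit 242) (nat_lit 5) (nat_lit 379) (nat_lit 378) (nat_lit 143)) (XT.nd (nat_lit 78) (nat_lit 0) (nat_lit 0) (XT.lf (nat_lit 76) (nat_lit 16699916646) (nat_lit 0) (nat_lit 21982973514) (nat_lit 1216) (nat_lit 3488637997) (nat_lit 227) (nat_lit 5) (nat_lit 226) (nat_lit 5) (nat_lit 242) (nat_lit 5) (nat_lit 380) (nat_lit 378) (nat_lit 142)) (XT.lf (nat_lit 76) (nat_lit 37258766328) (nat_lit 0) (nat_lit 2445411254) (nat_lit 1216) (nat_lit 3105871353) (nat_lit 227) (nat_lit 5) (nat_lit 226) (nat_lit 5) (nat_lit 242) (nat_lit 5) (nat_lit 381) (nat_lit 378) (nat_lit 141)))) (XT.nd (nat_lit 156) (nat_lit 1140) (nat_lit 0) (XT.nd (nat_lit 78) (nat_lit 0) (nat_lit 0) (XT.lf (nat_lit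 76) (nat_lit 15090382579) (nat_lit 0) (nat_lit 25979331074) (nat_lit 1216) (nat_lit 2388604461) (nat_lit 228) (nat_lit 5) (nat_lit 227) (nat_lit 5) (nat_lit 243) (nat_lit 5) (nat_lit 382) (nat_lit 378) (nat_lit 140)) (XT.lf (nat_lit 76) (nat_lit 36439600748) (nat_lit 0) (nat_lit 6115296946) (nat_lit 1216) (nat_lit 1568778262) (nat_lit 228) (nat_lit 5) (nat_lit 227) (nat_lit 5) (nat_lit 243) (nat_lit 5) (nat_lit 383) (nat_lit 378) (nat_lit 139))) (XT.nd (nat_lit 78) (nat_lit 1216) (nat_lit 0) (XT.lf (nat_lit 76) (nat_lit 13749900210) (nat_lit 0) (nat_lit 30603493782) (nat_lit 1216) (nat_lit 447538853) (nat_lit 229) (nat_lit 5) (nat_lit 228) (nat_lit 5) (nat_lit 244) (nat_lit 5) (nat_lit 384) (nat_lit 378) (nat_lit 138)) (XT.lf (nat_lit 0) (nat_lit 831156142) (nat_lit 1216) (nat_lit 9580723556) (nat_lit 1292) (nat_lit 35082296085) (nat_lit 212) (nat_lit 5) (nat_lit 228) (nat_lit 5) (nat_lit 229) (nat_lit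 5) (nat_lit 385) (nat_lit 378) (nat_lit 137)))))) (XT.nd (nat_lit 468) (nat_lit 1292) (nat_lit 0) (XT.nd (nat_lit 234) (nat_lit 0) (nat_lit 76) (XT.nd (nat_lit 78) (nat_lit 0) (nat_lit 0) (XT.lf (nat_lit 0) (nat_lit 2361889424) (nat_lit 1216) (nat_lit 33527743356) (nat_lit 1292) (nat_lit 10311771051) (nat_lit 213) (nat_lit 5) (nat_lit 229) (nat_lit 5) (nat_lit 230) (nat_lit 5) (nat_lit 386) (nat_lit 378) (nat_lit 136)) (XT.nd (nat_lit 78) (nat_lit 0) (nat_lit 76) (XT.lf (nat_lit 0) (nat_lit 4138118506) (nat_lit 1216) (nat_lit 11239769499) (nat_lit 1292) (nat_lit 31545974402) (nat_lit 213) (nat_lit 5) (nat_lit 229) (nat_lit 5) (nat_lit 230) (nat_lit 5) (nat_lit 387) (nat_lit 378) (nat_lit 135)) (XT.lf (nat_lit 0) (nat_lit 6137719987) (nat_lit 1216) (nat_lit 35771799626) (nat_lit 1292) (nat_lit 5753373438) (nat_lit 214) (nat_lit 5) (nat_lit 230) (nat_lit 5) (nat_lit 231) (nat_lit 5) (nat_lit 388) (nat_lit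 378) (nat_lit 134)))) (XT.nd (nat_lit 78) (nat_lit 0) (nat_lit 76) (XT.lf (nat_lit 0) (nat_lit 8463036074) (nat_lit 1216) (nat_lit 12628638056) (nat_lit 1292) (nat_lit 27324449537) (nat_lit 214) (nat_lit 5) (nat_lit 230) (nat_lit 5) (nat_lit 231) (nat_lit 5) (nat_lit 389) (nat_lit 378) (nat_lit 133)) (XT.nd (nat_lit 78) (nat_lit 0) (nat_lit 0) (XT.lf (nat_lit 0) (nat_lit 10971336256) (nat_lit 1216) (nat_lit 37762101729) (nat_lit 1292) (nat_lit 455117304) (nat_lit 215) (nat_lit 5) (nat_lit 231) (nat_lit 5) (nat_lit 232) (nat_lit 5) (nat_lit 390) (nat_lit 378) (nat_lit 132)) (XT.lf (nat_lit 0) (nat_lit 13891408774) (nat_lit 1216) (nat_lit 13729210660) (nat_lit 1292) (nat_lit 22353445525) (nat_lit 215) (nat_lit 5) (nat_lit 231) (nat_lit 5) (nat_lit 232) (nat_lit 5) (nat_lit 391) (nat_lit 378) (nat_lit 131))))) (XT.nd (nat_lit 234) (nat_lit 1444) (nat_lit 0) (XT.nd (nat_lit 78) (nat_lit 0) (nat_lit 76) (XT.lf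 (nat_lit 76) (nat_lit 11243229958) (nat_lit 0) (nat_lit 5762869899) (nat_lit 1292) (nat_lit 33773830350) (nat_lit 216) (nat_lit 5) (nat_lit 215) (nat_lit 5) (nat_lit 232) (nat_lit 5) (nat_lit 392) (nat_lit 378) (nat_lit 130)) (XT.nd (nat_lit 78) (nat_lit 0) (nat_lit 0) (XT.lf (nat_lit 0) (nat_lit 20514224152) (nat_lit 1216) (nat_lit 14522781748) (nat_lit 1292) (nat_lit 16563966494) (nat_lit 216) (nat_lit 5) (nat_lit 232) (nat_lit 5) (nat_lit 233) (nat_lit 5) (nat_lit 393) (nat_lit 378) (nat_lit 129)) (XT.lf (nat_lit 76) (nat_lit 11406239167) (nat_lit 0) (nat_lit 12887049615) (nat_lit 1292) (nat_lit 28148386898) (nat_lit 217) (nat_lit 5) (nat_lit 216) (nat_lit 5) (nat_lit 233) (nat_lit 5) (nat_lit 394) (nat_lit 378) (nat_lit 128)))) (XT.nd (nat_lit 156) (nat_lit 608) (nat_lit 0) (XT.nd (nat_lit 78) (nat_lit 988) (nat_lit 0) (XT.lf (nat_lit 0) (nat_lit 28428274868) (nat_lit 1216) (nat_lit 14990104716) (nat_lit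 76) (nat_lit 9881944707) (nat_lit 217) (nat_lit 5) (nat_lit 233) (nat_lit 5) (nat_lit 218) (nat_lit 5) (nat_lit 395) (nat_lit 378) (nat_lit 127)) (XT.lf (nat_lit 0) (nat_lit 11941175389) (nat_lit 988) (nat_lit 20987561798) (nat_lit 1064) (nat_lit 21248753064) (nat_lit 204) (nat_lit 5) (nat_lit 217) (nat_lit 5) (nat_lit 218) (nat_lit 5) (nat_lit 396) (nat_lit 378) (nat_lit 126))) (XT.nd (nat_lit 78) (nat_lit 608) (nat_lit 0) (XT.lf (nat_lit 0) (nat_lit 37736491915) (nat_lit 1064) (nat_lit 15111448481) (nat_lit 76) (nat_lit 2227863111) (nat_lit 204) (nat_lit 5) (nat_lit 218) (nat_lit 5) (nat_lit 205) (nat_lit 5) (nat_lit 397) (nat_lit 378) (nat_lit 125)) (XT.lf (nat_lit 0) (nat_lit 12869670738) (nat_lit 608) (nat_lit 30149411636) (nat_lit 684) (nat_lit 12972066344) (nat_lit 196) (nat_lit 5) (nat_lit 204) (nat_lit 5) (nat_lit 205) (nat_lit 5) (nat_lit 398) (nat_lit 378) (nat_lit 124))))))) (XT.nd (nat_lit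 1014) (nat_lit 1748) (nat_lit 0) (XT.nd (nat_lit 468) (nat_lit 1520) (nat_lit 0) (XT.nd (nat_lit 234) (nat_lit 1140) (nat_lit 0) (XT.nd (nat_lit 78) (nat_lit 608) (nat_lit 0) (XT.lf (nat_lit 0) (nat_lit 41999172399) (nat_lit 608) (nat_lit 6612686936) (nat_lit 684) (nat_lit 8317544319) (nat_lit 196) (nat_lit 5) (nat_lit 204) (nat_lit 5) (nat_lit 205) (nat_lit 5) (nat_lit 399) (nat_lit 378) (nat_lit 123)) (XT.nd (nat_lit 78) (nat_lit 76) (nat_lit 0) (XT.lf (nat_lit 0) (nat_lit 14213819831) (nat_lit 532) (nat_lit 40463842638) (nat_lit 608) (nat_lit 3208987097) (nat_lit 189) (nat_lit 5) (nat_lit 196) (nat_lit 5) (nat_lit 197) (nat_lit 5) (nat_lit 400) (nat_lit 378) (nat_lit 122)) (XT.lf (nat_lit 0) (nat_lit 2229647275) (nat_lit 608) (nat_lit 14417373867) (nat_lit 76) (nat_lit 42218493948) (nat_lit 188) (nat_lit 5) (nat_lit 196) (nat_lit 5) (nat_lit 189) (nat_lit 5) (nat_lit 401) (nat_lit 378) (nat_lit 121))))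 (XT.nd (nat_lit 78) (nat_lit 532) (nat_lit 0) (XT.lf (nat_lit 0) (nat_lit 7997497948) (nat_lit 684) (nat_lit 43950542077) (nat_lit 76) (nat_lit 7917837309) (nat_lit 180) (nat_lit 5) (nat_lit 189) (nat_lit 5) (nat_lit 181) (nat_lit 5) (nat_lit 402) (nat_lit 378) (nat_lit 120)) (XT.nd (nat_lit 78) (nat_lit 532) (nat_lit 0) (XT.lf (nat_lit 0) (nat_lit 14249423660) (nat_lit 684) (nat_lit 13605404993) (nat_lit 76) (nat_lit 33032091153) (nat_lit 180) (nat_lit 5) (nat_lit 189) (nat_lit 5) (nat_lit 181) (nat_lit 5) (nat_lit 403) (nat_lit 378) (nat_lit 119)) (XT.lf (nat_lit 0) (nat_lit 18000539228) (nat_lit 532) (nat_lit 2860612596) (nat_lit 608) (nat_lit 41072274917) (nat_lit 173) (nat_lit 5) (nat_lit 180) (nat_lit 5) (nat_lit 181) (nat_lit 5) (nat_lit 404) (nat_lit 378) (nat_lit 118))))) (XT.nd (nat_lit 234) (nat_lit 988) (nat_lit 0) (XT.nd (nat_lit 78) (nat_lit 532) (nat_lit 0) (XT.lf (nat_lit 0) (nat_lit 28029177126)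 (nat_lit 608) (nat_lit 12395795740) (nat_lit 76) (nat_lit 22575618173) (nat_lit 173) (nat_lit 5) (nat_lit 181) (nat_lit 5) (nat_lit 174) (nat_lit 5) (nat_lit 405) (nat_lit 378) (nat_lit 117)) (XT.nd (nat_lit 78) (nat_lit 0) (nat_lit 0) (XT.lf (nat_lit 0) (nat_lit 20457491118) (nat_lit 532) (nat_lit 15178974957) (nat_lit 608) (nat_lit 28456578005) (nat_lit 166) (nat_lit 5) (nat_lit 173) (nat_lit 5) (nat_lit 174) (nat_lit 5) (nat_lit 406) (nat_lit 378) (nat_lit 116)) (XT.lf (nat_lit 0) (nat_lit 43701700914) (nat_lit 608) (nat_lit 10770135782) (nat_lit 76) (nat_lit 10739542683) (nat_lit 166) (nat_lit 5) (nat_lit 174) (nat_lit 5) (nat_lit 167) (nat_lit 5) (nat_lit 407) (nat_lit 378) (nat_lit 115)))) (XT.nd (nat_lit 156) (nat_lit 532) (nat_lit 0) (XT.nd (nat_lit 78) (nat_lit 0) (nat_lit 0) (XT.lf (nat_lit 0) (nat_lit 23386527576) (nat_lit 456) (nat_lit 28996743022) (nat_lit 532) (nat_lit 13968763277) (nat_lit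 160) (nat_lit 5) (nat_lit 166) (nat_lit 5) (nat_lit 167) (nat_lit 5) (nat_lit 408) (nat_lit 378) (nat_lit 114)) (XT.lf (nat_lit 0) (nat_lit 58787890912) (nat_lit 456) (nat_lit 2645452369) (nat_lit 532) (nat_lit 6090323503) (nat_lit 160) (nat_lit 5) (nat_lit 166) (nat_lit 5) (nat_lit 167) (nat_lit 5) (nat_lit 409) (nat_lit 378) (nat_lit 113))) (XT.nd (nat_lit 78) (nat_lit 0) (nat_lit 0) (XT.lf (nat_lit 0) (nat_lit 2482325093) (nat_lit 532) (nat_lit 41932298447) (nat_lit 76) (nat_lit 24300320948) (nat_lit 153) (nat_lit 5) (nat_lit 160) (nat_lit 5) (nat_lit 154) (nat_lit 5) (nat_lit 410) (nat_lit 378) (nat_lit 112)) (XT.lf (nat_lit 0) (nat_lit 11304347696) (nat_lit 532) (nat_lit 6481765839) (nat_lit 76) (nat_lit 52150600280) (nat_lit 153) (nat_lit 5) (nat_lit 160) (nat_lit 5) (nat_lit 154) (nat_lit 5) (nat_lit 411) (nat_lit 378) (nat_lit 111)))))) (XT.nd (nat_lit 44304) (nat_lit 0) (nat_lit 7296) (XT.nd (nat_lit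 234) (nat_lit 836) (nat_lit 0) (XT.nd (nat_lit 78) (nat_lit 456) (nat_lit 0) (XT.lf (nat_lit 0) (nat_lit 20780392939) (nat_lit 532) (nat_lit 40652704511) (nat_lit 76) (nat_lit 9750358319) (nat_lit 147) (nat_lit 5) (nat_lit 154) (nat_lit 5) (nat_lit 148) (nat_lit 5) (nat_lit 412) (nat_lit 378) (nat_lit 110)) (XT.nd (nat_lit 78) (nat_lit 456) (nat_lit 0) (XT.lf (nat_lit 0) (nat_lit 30782275236) (nat_lit 532) (nat_lit 3856640346) (nat_lit 76) (nat_lit 37821438122) (nat_lit 147) (nat_lit 5) (nat_lit 154) (nat_lit 5) (nat_lit 148) (nat_lit 5) (nat_lit 413) (nat_lit 378) (nat_lit 109)) (XT.lf (nat_lit 0) (nat_lit 34720072333) (nat_lit 456) (nat_lit 6697265433) (nat_lit 532) (nat_lit 32348227481) (nat_lit 141) (nat_lit 5) (nat_lit 147) (nat_lit 5) (nat_lit 148) (nat_lit 5) (nat_lit 414) (nat_lit 378) (nat_lit 108)))) (XT.nd (nat_lit 156) (nat_lit 456) (nat_lit 0) (XT.nd (nat_lit 78) (nat_lit 380) (nat_lit 0)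 (XT.lf (nat_lit 0) (nat_lit 52622437200) (nat_lit 532) (nat_lit 789035841) (nat_lit 76) (nat_lit 21690930915) (nat_lit 141) (nat_lit 5) (nat_lit 148) (nat_lit 5) (nat_lit 142) (nat_lit 5) (nat_lit 415) (nat_lit 378) (nat_lit 107)) (XT.lf (nat_lit 0) (nat_lit 39315252222) (nat_lit 380) (nat_lit 25292070318) (nat_lit 456) (nat_lit 11858716660) (nat_lit 136) (nat_lit 5) (nat_lit 141) (nat_lit 5) (nat_lit 142) (nat_lit 5) (nat_lit 416) (nat_lit 378) (nat_lit 106))) (XT.nd (nat_lit 78) (nat_lit 76) (nat_lit 0) (XT.lf (nat_lit 0) (nat_lit 2786768042) (nat_lit 380) (nat_lit 74234518408) (nat_lit 456) (nat_lit 847211442) (nat_lit 131) (nat_lit 5) (nat_lit 136) (nat_lit 5) (nat_lit 137) (nat_lit 5) (nat_lit 417) (nat_lit 378) (nat_lit 105)) (XT.lf (nat_lit 0) (nat_lit 10918545953) (nat_lit 456) (nat_lit 34973532678) (nat_lit 76) (nat_lit 33399064759) (nat_lit 130) (nat_lit 5) (nat_lit 136) (nat_lit 5) (nat_lit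 131) (nat_lit 5) (nat_lit 418) (nat_lit 378) (nat_lit 104))))) (XT.nd (nat_lit 234) (nat_lit 0) (nat_lit 0) (XT.nd (nat_lit 78) (nat_lit 0) (nat_lit 0) (XT.lf (nat_lit 0) (nat_lit 9577229542) (nat_lit 0) (nat_lit 9577229542) (nat_lit 1140) (nat_lit 1927453112) (nat_lit 226) (nat_lit 5) (nat_lit 226) (nat_lit 3) (nat_lit 241) (nat_lit 3) (nat_lit 379) (nat_lit 379) (nat_lit 142)) (XT.nd (nat_lit 78) (nat_lit 0) (nat_lit 0) (XT.lf (nat_lit 0) (nat_lit 38925147157) (nat_lit 1140) (nat_lit 3254318976) (nat_lit 1216) (nat_lit 615540183) (nat_lit 226) (nat_lit 5) (nat_lit 241) (nat_lit 3) (nat_lit 242) (nat_lit 5) (nat_lit 380) (nat_lit 379) (nat_lit 141)) (XT.lf (nat_lit 76) (nat_lit 17239389934) (nat_lit 0) (nat_lit 22674455595) (nat_lit 1216) (nat_lit 3520659768) (nat_lit 227) (nat_lit 5) (nat_lit 226) (nat_lit 5) (nat_lit 242) (nat_lit 5) (nat_lit 381) (nat_lit 379) (nat_lit 140)))) (XT.nd (nat_lit 156)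 (nat_lit 0) (nat_lit 76) (XT.nd (nat_lit 78) (nat_lit 0) (nat_lit 76) (XT.lf (nat_lit 76) (nat_lit 38413884451) (nat_lit 0) (nat_lit 2549834636) (nat_lit 1216) (nat_lit 3128525777) (nat_lit 227) (nat_lit 5) (nat_lit 226) (nat_lit 5) (nat_lit 242) (nat_lit 5) (nat_lit 382) (nat_lit 379) (nat_lit 139)) (XT.lf (nat_lit 76) (nat_lit 15582463511) (nat_lit 0) (nat_lit 26785853587) (nat_lit 1216) (nat_lit 2391703689) (nat_lit 228) (nat_lit 5) (nat_lit 227) (nat_lit 5) (nat_lit 243) (nat_lit 5) (nat_lit 383) (nat_lit 379) (nat_lit 138))) (XT.nd (nat_lit 78) (nat_lit 0) (nat_lit 76) (XT.lf (nat_lit 76) (nat_lit 37571011542) (nat_lit 0) (nat_lit 6325107874) (nat_lit 1216) (nat_lit 1549279565) (nat_lit 228) (nat_lit 5) (nat_lit 227) (nat_lit 5) (nat_lit 243) (nat_lit 5) (nat_lit 384) (nat_lit 379) (nat_lit 137)) (XT.lf (nat_lit 76) (nat_lit 14202463853) (nat_lit 0) (nat_lit 31544365143) (nat_lit 1216) (nat_lit 396198287)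 (nat_lit 229) (nat_lit 5) (nat_lit 228) (nat_lit 5) (nat_lit 244) (nat_lit 5) (nat_lit 385) (nat_lit 379) (nat_lit 136))))))))
noncomputable def xc247 : XT := (XT.nd (nat_lit 2028) (nat_lit 1292) (nat_lit 0) (XT.nd (nat_lit 1014) (nat_lit 3876) (nat_lit 0) (XT.nd (nat_lit 468) (nat_lit 608) (nat_lit 0) (XT.nd (nat_lit 234) (nat_lit 0) (nat_lit 152) (XT.nd (nat_lit 78) (nat_lit 0) (nat_lit 76) (XT.lf (nat_lit 0) (nat_lit 917744127) (nat_lit 1216) (nat_lit 9827972829) (nat_lit 1292) (nat_lit 36111388737) (nat_lit 212) (nat_lit 5) (nat_lit 228) (nat_lit 5) (nat_lit 229) (nat_lit 5) (nat_lit 386) (nat_lit 379) (nat_lit 135)) (XT.nd (nat_lit 78) (nat_lit 0) (nat_lit 0) (XT.lf (nat_lit 0) (nat_lit 2492789369) (nat_lit 1216) (nat_lit 34491748753) (nat_lit 1292) (nat_lit 10601062095) (nat_lit 213) (nat_lit 5) (nat_lit 229) (nat_lit 5) (nat_lit 230) (nat_lit 5) (nat_lit 387) (nat_lit 379) (nat_lit 134)) (XT.lf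 (nat_lit 0) (nat_lit 4320556491) (nat_lit 1216) (nat_lit 11536353940) (nat_lit 1292) (nat_lit 32472875878) (nat_lit 213) (nat_lit 5) (nat_lit 229) (nat_lit 5) (nat_lit 230) (nat_lit 5) (nat_lit 388) (nat_lit 379) (nat_lit 133)))) (XT.nd (nat_lit 78) (nat_lit 0) (nat_lit 0) (XT.lf (nat_lit 0) (nat_lit 6378673420) (nat_lit 1216) (nat_lit 36802830493) (nat_lit 1292) (nat_lit 5909529393) (nat_lit 214) (nat_lit 5) (nat_lit 230) (nat_lit 5) (nat_lit 231) (nat_lit 5) (nat_lit 389) (nat_lit 379) (nat_lit 132)) (XT.nd (nat_lit 78) (nat_lit 0) (nat_lit 76) (XT.lf (nat_lit 0) (nat_lit 8772093985) (nat_lit 1216) (nat_lit 12966600963) (nat_lit 1292) (nat_lit 28128216763) (nat_lit 214) (nat_lit 5) (nat_lit 230) (nat_lit 5) (nat_lit 231) (nat_lit 5) (nat_lit 390) (nat_lit 379) (nat_lit 131)) (XT.lf (nat_lit 0) (nat_lit 11354296309) (nat_lit 1216) (nat_lit 38852682205) (nat_lit 1292) (nat_lit 455579357) (nat_lit 215)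 (nat_lit 5) (nat_lit 231) (nat_lit 5) (nat_lit 232) (nat_lit 5) (nat_lit 391) (nat_lit 379) (nat_lit 130))))) (XT.nd (nat_lit 234) (nat_lit 836) (nat_lit 0) (XT.nd (nat_lit 78) (nat_lit 0) (nat_lit 0) (XT.lf (nat_lit 0) (nat_lit 14360403431) (nat_lit 1216) (nat_lit 14100035936) (nat_lit 1292) (nat_lit 23011241642) (nat_lit 215) (nat_lit 5) (nat_lit 231) (nat_lit 5) (nat_lit 232) (nat_lit 5) (nat_lit 392) (nat_lit 379) (nat_lit 129)) (XT.nd (nat_lit 78) (nat_lit 0) (nat_lit 76) (XT.lf (nat_lit 76) (nat_lit 11621175440) (nat_lit 0) (nat_lit 5946228631) (nat_lit 1292) (nat_lit 34734353195) (nat_lit 216) (nat_lit 5) (nat_lit 215) (nat_lit 5) (nat_lit 232) (nat_lit 5) (nat_lit 393) (nat_lit 379) (nat_lit 128)) (XT.lf (nat_lit 0) (nat_lit 21179185389) (nat_lit 1216) (nat_lit 14917377725) (nat_lit 1292) (nat_lit 17050916288) (nat_lit 216) (nat_lit 5) (nat_lit 232) (nat_lit 5) (nat_lit 233) (nat_lit 5) (nat_lit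 394) (nat_lit 379) (nat_lit 127)))) (XT.nd (nat_lit 156) (nat_lit 912) (nat_lit 0) (XT.nd (nat_lit 78) (nat_lit 0) (nat_lit 76) (XT.lf (nat_lit 76) (nat_lit 11789110999) (nat_lit 0) (nat_lit 13281459292) (nat_lit 1292) (nat_lit 28942866098) (nat_lit 217) (nat_lit 5) (nat_lit 216) (nat_lit 5) (nat_lit 233) (nat_lit 5) (nat_lit 395) (nat_lit 379) (nat_lit 126)) (XT.lf (nat_lit 0) (nat_lit 29328121061) (nat_lit 1216) (nat_lit 15398789238) (nat_lit 76) (nat_lit 10170979729) (nat_lit 217) (nat_lit 5) (nat_lit 233) (nat_lit 5) (nat_lit 218) (nat_lit 5) (nat_lit 396) (nat_lit 379) (nat_lit 125))) (XT.nd (nat_lit 78) (nat_lit 0) (nat_lit 0) (XT.lf (nat_lit 0) (nat_lit 12340027128) (nat_lit 988) (nat_lit 21622591681) (nat_lit 1064) (nat_lit 21838782504) (nat_lit 204) (nat_lit 5) (nat_lit 217) (nat_lit 5) (nat_lit 218) (nat_lit 5) (nat_lit 397) (nat_lit 379) (nat_lit 124)) (XT.lf (nat_lit 0) (nat_lit 38913215379)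 (nat_lit 1064) (nat_lit 15523935566) (nat_lit 76) (nat_lit 2289555707) (nat_lit 204) (nat_lit 5) (nat_lit 218) (nat_lit 5) (nat_lit 205) (nat_lit 5) (nat_lit 398) (nat_lit 379) (nat_lit 123)))))) (XT.nd (nat_lit 468) (nat_lit 2052) (nat_lit 0) (XT.nd (nat_lit 234) (nat_lit 684) (nat_lit 0) (XT.nd (nat_lit 78) (nat_lit 532) (nat_lit 0) (XT.lf (nat_lit 0) (nat_lit 13296216677) (nat_lit 608) (nat_lit 31057155896) (nat_lit 684) (nat_lit 13316167911) (nat_lit 196) (nat_lit 5) (nat_lit 204) (nat_lit 5) (nat_lit 205) (nat_lit 5) (nat_lit 399) (nat_lit 379) (nat_lit 122)) (XT.nd (nat_lit 78) (nat_lit 532) (nat_lit 0) (XT.lf (nat_lit 0) (nat_lit 43298425063) (nat_lit 608) (nat_lit 6814234447) (nat_lit 684) (nat_lit 8523322665) (nat_lit 196) (nat_lit 5) (nat_lit 204) (nat_lit 5) (nat_lit 205) (nat_lit 5) (nat_lit 400) (nat_lit 379) (nat_lit 121)) (XT.lf (nat_lit 0) (nat_lit 14680447796) (nat_lit 532) (nat_lit 41679109699)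 (nat_lit 608) (nat_lit 3262415229) (nat_lit 189) (nat_lit 5) (nat_lit 196) (nat_lit 5) (nat_lit 197) (nat_lit 5) (nat_lit 401) (nat_lit 379) (nat_lit 120)))) (XT.nd (nat_lit 78) (nat_lit 608) (nat_lit 0) (XT.lf (nat_lit 0) (nat_lit 2337318721) (nat_lit 608) (nat_lit 14810013645) (nat_lit 76) (nat_lit 43482897027) (nat_lit 188) (nat_lit 5) (nat_lit 196) (nat_lit 5) (nat_lit 189) (nat_lit 5) (nat_lit 402) (nat_lit 379) (nat_lit 119)) (XT.nd (nat_lit 78) (nat_lit 0) (nat_lit 0) (XT.lf (nat_lit 0) (nat_lit 8277392048) (nat_lit 684) (nat_lit 45228337154) (nat_lit 76) (nat_lit 8154898495) (nat_lit 180) (nat_lit 5) (nat_lit 189) (nat_lit 5) (nat_lit 181) (nat_lit 5) (nat_lit 403) (nat_lit 379) (nat_lit 118)) (XT.lf (nat_lit 0) (nat_lit 14715711381) (nat_lit 684) (nat_lit 13974032011) (nat_lit 76) (nat_lit 34022593759) (nat_lit 180) (nat_lit 5) (nat_lit 189) (nat_lit 5) (nat_lit 181) (nat_lit 5) (nat_lit 404)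 (nat_lit 379) (nat_lit 117))))) (XT.nd (nat_lit 234) (nat_lit 988) (nat_lit 0) (XT.nd (nat_lit 78) (nat_lit 532) (nat_lit 0) (XT.lf (nat_lit 0) (nat_lit 18579702938) (nat_lit 532) (nat_lit 2945334520) (nat_lit 608) (nat_lit 42265225214) (nat_lit 173) (nat_lit 5) (nat_lit 180) (nat_lit 5) (nat_lit 181) (nat_lit 5) (nat_lit 405) (nat_lit 379) (nat_lit 116)) (XT.nd (nat_lit 78) (nat_lit 532) (nat_lit 0) (XT.lf (nat_lit 0) (nat_lit 28907005468) (nat_lit 608) (nat_lit 12728539647) (nat_lit 76) (nat_lit 23253930465) (nat_lit 173) (nat_lit 5) (nat_lit 181) (nat_lit 5) (nat_lit 174) (nat_lit 5) (nat_lit 406) (nat_lit 379) (nat_lit 115)) (XT.lf (nat_lit 0) (nat_lit 21109962190) (nat_lit 532) (nat_lit 15631847047) (nat_lit 608) (nat_lit 29272914806) (nat_lit 166) (nat_lit 5) (nat_lit 173) (nat_lit 5) (nat_lit 174) (nat_lit 5) (nat_lit 407) (nat_lit 379) (nat_lit 114)))) (XT.nd (nat_lit 156) (nat_lit 532) (nat_lit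 0) (XT.nd (nat_lit 78) (nat_lit 456) (nat_lit 0) (XT.lf (nat_lit 0) (nat_lit 45047968625) (nat_lit 608) (nat_lit 11054566367) (nat_lit 76) (nat_lit 11064106080) (nat_lit 166) (nat_lit 5) (nat_lit 174) (nat_lit 5) (nat_lit 167) (nat_lit 5) (nat_lit 408) (nat_lit 379) (nat_lit 113)) (XT.lf (nat_lit 0) (nat_lit 24126417740) (nat_lit 456) (nat_lit 29862910038) (nat_lit 532) (nat_lit 14352207827) (nat_lit 160) (nat_lit 5) (nat_lit 166) (nat_lit 5) (nat_lit 167) (nat_lit 5) (nat_lit 409) (nat_lit 379) (nat_lit 112))) (XT.nd (nat_lit 78) (nat_lit 532) (nat_lit 0) (XT.lf (nat_lit 0) (nat_lit 60588706607) (nat_lit 456) (nat_lit 2721189460) (nat_lit 532) (nat_lit 6238452288) (nat_lit 160) (nat_lit 5) (nat_lit 166) (nat_lit 5) (nat_lit 167) (nat_lit 5) (nat_lit 410) (nat_lit 379) (nat_lit 111)) (XT.lf (nat_lit 0) (nat_lit 2590114529) (nat_lit 532) (nat_lit 43151785371) (nat_lit 76) (nat_lit 25033472731) (nat_lit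 153) (nat_lit 5) (nat_lit 160) (nat_lit 5) (nat_lit 154) (nat_lit 5) (nat_lit 411) (nat_lit 379) (nat_lit 110))))))) (XT.nd (nat_lit 44928) (nat_lit 0) (nat_lit 4560) (XT.nd (nat_lit 44382) (nat_lit 0) (nat_lit 6840) (XT.nd (nat_lit 234) (nat_lit 836) (nat_lit 0) (XT.nd (nat_lit 78) (nat_lit 456) (nat_lit 0) (XT.lf (nat_lit 0) (nat_lit 11675827334) (nat_lit 532) (nat_lit 6638857620) (nat_lit 76) (nat_lit 53719139797) (nat_lit 153) (nat_lit 5) (nat_lit 160) (nat_lit 5) (nat_lit 154) (nat_lit 5) (nat_lit 412) (nat_lit 379) (nat_lit 109)) (XT.nd (nat_lit 78) (nat_lit 0) (nat_lit 0) (XT.lf (nat_lit 0) (nat_lit 21435617638) (nat_lit 532) (nat_lit 41834368735) (nat_lit 76) (nat_lit 10047999261) (nat_lit 147) (nat_lit 5) (nat_lit 154) (nat_lit 5) (nat_lit 148) (nat_lit 5) (nat_lit 413) (nat_lit 379) (nat_lit 108)) (XT.lf (nat_lit 0) (nat_lit 31736629813) (nat_lit 532) (nat_lit 3935527022) (nat_lit 76) (nat_lit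 38961062035) (nat_lit 147) (nat_lit 5) (nat_lit 154) (nat_lit 5) (nat_lit 148) (nat_lit 5) (nat_lit 414) (nat_lit 379) (nat_lit 107)))) (XT.nd (nat_lit 78) (nat_lit 380) (nat_lit 0) (XT.lf (nat_lit 0) (nat_lit 35798126130) (nat_lit 456) (nat_lit 6892068883) (nat_lit 532) (nat_lit 33287408772) (nat_lit 141) (nat_lit 5) (nat_lit 147) (nat_lit 5) (nat_lit 148) (nat_lit 5) (nat_lit 415) (nat_lit 379) (nat_lit 106)) (XT.nd (nat_lit 78) (nat_lit 380) (nat_lit 0) (XT.lf (nat_lit 0) (nat_lit 54230620890) (nat_lit 532) (nat_lit 776472674) (nat_lit 76) (nat_lit 22347479422) (nat_lit 141) (nat_lit 5) (nat_lit 148) (nat_lit 5) (nat_lit 142) (nat_lit 5) (nat_lit 416) (nat_lit 379) (nat_lit 105)) (XT.lf (nat_lit 0) (nat_lit 40530588793) (nat_lit 380) (nat_lit 26043949357) (nat_lit 456) (nat_lit 12184595094) (nat_lit 136) (nat_lit 5) (nat_lit 141) (nat_lit 5) (nat_lit 142) (nat_lit 5) (nat_lit 417) (nat_lit 379) (nat_lit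 104))))) (XT.nd (nat_lit 234) (nat_lit 0) (nat_lit 0) (XT.nd (nat_lit 78) (nat_lit 0) (nat_lit 0) (XT.lf (nat_lit 0) (nat_lit 9882155767) (nat_lit 0) (nat_lit 9882155767) (nat_lit 1140) (nat_lit 1948974145) (nat_lit 226) (nat_lit 5) (nat_lit 226) (nat_lit 3) (nat_lit 241) (nat_lit 3) (nat_lit 380) (nat_lit 380) (nat_lit 140)) (XT.nd (nat_lit 78) (nat_lit 0) (nat_lit 0) (XT.lf (nat_lit 0) (nat_lit 40160958670) (nat_lit 1140) (nat_lit 3315322344) (nat_lit 1216) (nat_lit 600480724) (nat_lit 226) (nat_lit 5) (nat_lit 241) (nat_lit 3) (nat_lit 242) (nat_lit 5) (nat_lit 381) (nat_lit 380) (nat_lit 139)) (XT.lf (nat_lit 76) (nat_lit 17792838752) (nat_lit 0) (nat_lit 23384845616) (nat_lit 1216) (nat_lit 3557811874) (nat_lit 227) (nat_lit 5) (nat_lit 226) (nat_lit 5) (nat_lit 242) (nat_lit 5) (nat_lit 382) (nat_lit 380) (nat_lit 138)))) (XT.nd (nat_lit 156) (nat_lit 0) (nat_lit 76) (XT.nd (nat_lit 78) (nat_lit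 0) (nat_lit 76) (XT.lf (nat_lit 76) (nat_lit 39601511782) (nat_lit 0) (nat_lit 2655607688) (nat_lit 1216) (nat_lit 3155908067) (nat_lit 227) (nat_lit 5) (nat_lit 226) (nat_lit 5) (nat_lit 242) (nat_lit 5) (nat_lit 383) (nat_lit 380) (nat_lit 137)) (XT.lf (nat_lit 76) (nat_lit 16087046903) (nat_lit 0) (nat_lit 27615013680) (nat_lit 1216) (nat_lit 2398831456) (nat_lit 228) (nat_lit 5) (nat_lit 227) (nat_lit 5) (nat_lit 243) (nat_lit 5) (nat_lit 384) (nat_lit 380) (nat_lit 136))) (XT.nd (nat_lit 78) (nat_lit 0) (nat_lit 76) (XT.lf (nat_lit 76) (nat_lit 38734170516) (nat_lit 0) (nat_lit 6539700417) (nat_lit 1216) (nat_lit 1533016841) (nat_lit 228) (nat_lit 5) (nat_lit 227) (nat_lit 5) (nat_lit 243) (nat_lit 5) (nat_lit 385) (nat_lit 380) (nat_lit 135)) (XT.lf (nat_lit 76) (nat_lit 14666304416) (nat_lit 0) (nat_lit 32512155752) (nat_lit 1216) (nat_lit 347035379) (nat_lit 229) (nat_lit 5) (nat_lit 228) (nat_lit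 5) (nat_lit 244) (nat_lit 5) (nat_lit 386) (nat_lit 380) (nat_lit 134)))))) (XT.nd (nat_lit 546) (nat_lit 1216) (nat_lit 0) (XT.nd (nat_lit 234) (nat_lit 0) (nat_lit 152) (XT.nd (nat_lit 78) (nat_lit 0) (nat_lit 76) (XT.lf (nat_lit 0) (nat_lit 1003390600) (nat_lit 1216) (nat_lit 10084945642) (nat_lit 1292) (nat_lit 37172696059) (nat_lit 212) (nat_lit 5) (nat_lit 228) (nat_lit 5) (nat_lit 229) (nat_lit 5) (nat_lit 387) (nat_lit 380) (nat_lit 133)) (XT.nd (nat_lit 78) (nat_lit 0) (nat_lit 0) (XT.lf (nat_lit 0) (nat_lit 2624169583) (nat_lit 1216) (nat_lit 35487075347) (nat_lit 1292) (nat_lit 10900183515) (nat_lit 213) (nat_lit 5) (nat_lit 229) (nat_lit 5) (nat_lit 230) (nat_lit 5) (nat_lit 388) (nat_lit 380) (nat_lit 132)) (XT.lf (nat_lit 0) (nat_lit 4505121276) (nat_lit 1216) (nat_lit 11844167016) (nat_lit 1292) (nat_lit 33428702502) (nat_lit 213) (nat_lit 5) (nat_lit 229) (nat_lit 5) (nat_lit 230) (nat_lit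 5) (nat_lit 389) (nat_lit 380) (nat_lit 131)))) (XT.nd (nat_lit 156) (nat_lit 0) (nat_lit 76) (XT.nd (nat_lit 78) (nat_lit 0) (nat_lit 0) (XT.lf (nat_lit 0) (nat_lit 6623593651) (nat_lit 1216) (nat_lit 37867210325) (nat_lit 1292) (nat_lit 6071314051) (nat_lit 214) (nat_lit 5) (nat_lit 230) (nat_lit 5) (nat_lit 231) (nat_lit 5) (nat_lit 390) (nat_lit 380) (nat_lit 130)) (XT.lf (nat_lit 0) (nat_lit 9087256831) (nat_lit 1216) (nat_lit 13317050369) (nat_lit 1292) (nat_lit 28957013534) (nat_lit 214) (nat_lit 5) (nat_lit 230) (nat_lit 5) (nat_lit 231) (nat_lit 5) (nat_lit 391) (nat_lit 380) (nat_lit 129))) (XT.nd (nat_lit 78) (nat_lit 0) (nat_lit 0) (XT.lf (nat_lit 0) (nat_lit 11745655677) (nat_lit 1216) (nat_lit 39978407289) (nat_lit 1292) (nat_lit 456812516) (nat_lit 215) (nat_lit 5) (nat_lit 231) (nat_lit 5) (nat_lit 232) (nat_lit 5) (nat_lit 392) (nat_lit 380) (nat_lit 128)) (XT.lf (nat_lit 0) (nat_lit 14840468426)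 (nat_lit 1216) (nat_lit 14484342468) (nat_lit 1292) (nat_lit 23689506831) (nat_lit 215) (nat_lit 5) (nat_lit 231) (nat_lit 5) (nat_lit 232) (nat_lit 5) (nat_lit 393) (nat_lit 380) (nat_lit 127))))) (XT.nd (nat_lit 234) (nat_lit 1444) (nat_lit 0) (XT.nd (nat_lit 78) (nat_lit 0) (nat_lit 76) (XT.lf (nat_lit 76) (nat_lit 12008125891) (nat_lit 0) (nat_lit 6134486953) (nat_lit 1292) (nat_lit 35726716465) (nat_lit 216) (nat_lit 5) (nat_lit 215) (nat_lit 5) (nat_lit 232) (nat_lit 5) (nat_lit 394) (nat_lit 380) (nat_lit 126)) (XT.nd (nat_lit 78) (nat_lit 0) (nat_lit 0) (XT.lf (nat_lit 0) (nat_lit 21861251981) (nat_lit 1216) (nat_lit 15326170170) (nat_lit 1292) (nat_lit 17553046850) (nat_lit 216) (nat_lit 5) (nat_lit 232) (nat_lit 5) (nat_lit 233) (nat_lit 5) (nat_lit 395) (nat_lit 380) (nat_lit 125)) (XT.lf (nat_lit 76) (nat_lit 12181133521) (nat_lit 0) (nat_lit 13687253612) (nat_lit 1292) (nat_lit 29764048295)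 (nat_lit 217) (nat_lit 5) (nat_lit 216) (nat_lit 5) (nat_lit 233) (nat_lit 5) (nat_lit 396) (nat_lit 380) (nat_lit 124)))) (XT.nd (nat_lit 156) (nat_lit 608) (nat_lit 0) (XT.nd (nat_lit 78) (nat_lit 988) (nat_lit 0) (XT.lf (nat_lit 0) (nat_lit 30252264765) (nat_lit 1216) (nat_lit 15822088931) (nat_lit 76) (nat_lit 10469111931) (nat_lit 217) (nat_lit 5) (nat_lit 233) (nat_lit 5) (nat_lit 218) (nat_lit 5) (nat_lit 397) (nat_lit 380) (nat_lit 123)) (XT.lf (nat_lit 0) (nat_lit 12748512866) (nat_lit 988) (nat_lit 22276362304) (nat_lit 1064) (nat_lit 22449235684) (nat_lit 204) (nat_lit 5) (nat_lit 217) (nat_lit 5) (nat_lit 218) (nat_lit 5) (nat_lit 398) (nat_lit 380) (nat_lit 122))) (XT.nd (nat_lit 78) (nat_lit 608) (nat_lit 0) (XT.lf (nat_lit 0) (nat_lit 40122678677) (nat_lit 1064) (nat_lit 15951142586) (nat_lit 76) (nat_lit 2353394328) (nat_lit 204) (nat_lit 5) (nat_lit 218) (nat_lit 5) (nat_lit 205) (nat_lit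 5) (nat_lit 399) (nat_lit 380) (nat_lit 121)) (XT.lf (nat_lit 0) (nat_lit 13733236665) (nat_lit 608) (nat_lit 31991945236) (nat_lit 684) (nat_lit 13673179178) (nat_lit 196) (nat_lit 5) (nat_lit 204) (nat_lit 5) (nat_lit 205) (nat_lit 5) (nat_lit 400) (nat_lit 380) (nat_lit 120))))))))
noncomputable def xc248 : XT := (XT.nd (nat_lit 46020) (nat_lit 0) (nat_lit 456) (XT.nd (nat_lit 1014) (nat_lit 912) (nat_lit 0) (XT.nd (nat_lit 468) (nat_lit 1520) (nat_lit 0) (XT.nd (nat_lit 234) (nat_lit 1140) (nat_lit 0) (XT.nd (nat_lit 78) (nat_lit 608) (nat_lit 0) (XT.lf (nat_lit 0) (nat_lit 44634400619) (nat_lit 608) (nat_lit 7021646591) (nat_lit 684) (nat_lit 8737785675) (nat_lit 196) (nat_lit 5) (nat_lit 204) (nat_lit 5) (nat_lit 205) (nat_lit 5) (nat_lit 401) (nat_lit 380) (nat_lit 119)) (XT.nd (nat_lit 78) (nat_lit 76) (nat_lit 0) (XT.lf (nat_lit 0) (nat_lit 15158766189) (nat_lit 532) (nat_lit 42930757173) (nat_lit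 608) (nat_lit 3319905482) (nat_lit 189) (nat_lit 5) (nat_lit 196) (nat_lit 5) (nat_lit 197) (nat_lit 5) (nat_lit 402) (nat_lit 380) (nat_lit 118)) (XT.lf (nat_lit 0) (nat_lit 2445879255) (nat_lit 608) (nat_lit 15216721974) (nat_lit 76) (nat_lit 44785355717) (nat_lit 188) (nat_lit 5) (nat_lit 196) (nat_lit 5) (nat_lit 189) (nat_lit 5) (nat_lit 403) (nat_lit 380) (nat_lit 117)))) (XT.nd (nat_lit 78) (nat_lit 532) (nat_lit 0) (XT.lf (nat_lit 0) (nat_lit 8563388578) (nat_lit 684) (nat_lit 46546803645) (nat_lit 76) (nat_lit 8399098723) (nat_lit 180) (nat_lit 5) (nat_lit 189) (nat_lit 5) (nat_lit 181) (nat_lit 5) (nat_lit 404) (nat_lit 380) (nat_lit 116)) (XT.nd (nat_lit 78) (nat_lit 532) (nat_lit 0) (XT.lf (nat_lit 0) (nat_lit 15193760168) (nat_lit 684) (nat_lit 14355987317) (nat_lit 76) (nat_lit 35042837856) (nat_lit 180) (nat_lit 5) (nat_lit 189) (nat_lit 5) (nat_lit 181) (nat_lit 5) (nat_lit 405) (nat_lit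 380) (nat_lit 115)) (XT.lf (nat_lit 0) (nat_lit 19173994330) (nat_lit 532) (nat_lit 3032661042) (nat_lit 608) (nat_lit 43496215292) (nat_lit 173) (nat_lit 5) (nat_lit 180) (nat_lit 5) (nat_lit 181) (nat_lit 5) (nat_lit 406) (nat_lit 380) (nat_lit 114))))) (XT.nd (nat_lit 234) (nat_lit 988) (nat_lit 0) (XT.nd (nat_lit 78) (nat_lit 532) (nat_lit 0) (XT.lf (nat_lit 0) (nat_lit 29809047404) (nat_lit 608) (nat_lit 13073512091) (nat_lit 76) (nat_lit 23952532209) (nat_lit 173) (nat_lit 5) (nat_lit 181) (nat_lit 5) (nat_lit 174) (nat_lit 5) (nat_lit 407) (nat_lit 380) (nat_lit 113)) (XT.nd (nat_lit 78) (nat_lit 0) (nat_lit 0) (XT.lf (nat_lit 0) (nat_lit 21779783195) (nat_lit 532) (nat_lit 16098448646) (nat_lit 608) (nat_lit 30115886359) (nat_lit 166) (nat_lit 5) (nat_lit 173) (nat_lit 5) (nat_lit 174) (nat_lit 5) (nat_lit 408) (nat_lit 380) (nat_lit 112)) (XT.lf (nat_lit 0) (nat_lit 46432602785) (nat_lit 608)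 (nat_lit 11349749885) (nat_lit 76) (nat_lit 11398269924) (nat_lit 166) (nat_lit 5) (nat_lit 174) (nat_lit 5) (nat_lit 167) (nat_lit 5) (nat_lit 409) (nat_lit 380) (nat_lit 111)))) (XT.nd (nat_lit 156) (nat_lit 532) (nat_lit 0) (XT.nd (nat_lit 78) (nat_lit 0) (nat_lit 0) (XT.lf (nat_lit 0) (nat_lit 24886306358) (nat_lit 456) (nat_lit 30755276485) (nat_lit 532) (nat_lit 14749200353) (nat_lit 160) (nat_lit 5) (nat_lit 166) (nat_lit 5) (nat_lit 167) (nat_lit 5) (nat_lit 410) (nat_lit 380) (nat_lit 110)) (XT.lf (nat_lit 0) (nat_lit 62441412549) (nat_lit 456) (nat_lit 2799406839) (nat_lit 532) (nat_lit 6393010022) (nat_lit 160) (nat_lit 5) (nat_lit 166) (nat_lit 5) (nat_lit 167) (nat_lit 5) (nat_lit 411) (nat_lit 380) (nat_lit 109))) (XT.nd (nat_lit 78) (nat_lit 0) (nat_lit 0) (XT.lf (nat_lit 0) (nat_lit 2699224961) (nat_lit 532) (nat_lit 44410065928) (nat_lit 76) (nat_lit 25788381290) (nat_lit 153) (nat_lit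 5) (nat_lit 160) (nat_lit 5) (nat_lit 154) (nat_lit 5) (nat_lit 412) (nat_lit 380) (nat_lit 108)) (XT.lf (nat_lit 0) (nat_lit 12056594383) (nat_lit 532) (nat_lit 6802806840) (nat_lit 76) (nat_lit 55334504649) (nat_lit 153) (nat_lit 5) (nat_lit 160) (nat_lit 5) (nat_lit 154) (nat_lit 5) (nat_lit 413) (nat_lit 380) (nat_lit 107)))))) (XT.nd (nat_lit 44460) (nat_lit 0) (nat_lit 5396) (XT.nd (nat_lit 234) (nat_lit 0) (nat_lit 0) (XT.nd (nat_lit 78) (nat_lit 456) (nat_lit 0) (XT.lf (nat_lit 0) (nat_lit 22108672886) (nat_lit 532) (nat_lit 43053659473) (nat_lit 76) (nat_lit 10354274938) (nat_lit 147) (nat_lit 5) (nat_lit 154) (nat_lit 5) (nat_lit 148) (nat_lit 5) (nat_lit 414) (nat_lit 380) (nat_lit 106)) (XT.nd (nat_lit 78) (nat_lit 456) (nat_lit 0) (XT.lf (nat_lit 0) (nat_lit 32717842027) (nat_lit 532) (nat_lit 4018893488) (nat_lit 76) (nat_lit 40134588749) (nat_lit 147) (nat_lit 5) (nat_lit 154) (nat_lit 5)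 (nat_lit 148) (nat_lit 5) (nat_lit 415) (nat_lit 380) (nat_lit 105)) (XT.lf (nat_lit 0) (nat_lit 36906429069) (nat_lit 456) (nat_lit 7093067435) (nat_lit 532) (nat_lit 34256560271) (nat_lit 141) (nat_lit 5) (nat_lit 147) (nat_lit 5) (nat_lit 148) (nat_lit 5) (nat_lit 416) (nat_lit 380) (nat_lit 104)))) (XT.nd (nat_lit 44070) (nat_lit 0) (nat_lit 6460) (XT.lf (nat_lit 0) (nat_lit 55885356063) (nat_lit 532) (nat_lit 765612606) (nat_lit 76) (nat_lit 23023390259) (nat_lit 141) (nat_lit 5) (nat_lit 148) (nat_lit 5) (nat_lit 142) (nat_lit 5) (nat_lit 417) (nat_lit 380) (nat_lit 103)) (XT.nd (nat_lit 78) (nat_lit 0) (nat_lit 0) (XT.lf (nat_lit 0) (nat_lit 10195218931) (nat_lit 0) (nat_lit 10195218931) (nat_lit 1140) (nat_lit 1973224725) (nat_lit 226) (nat_lit 5) (nat_lit 226) (nat_lit 3) (nat_lit 241) (nat_lit 3) (nat_lit 381) (nat_lit 381) (nat_lit 138)) (XT.lf (nat_lit 0) (nat_lit 41429937772) (nat_lit 1140)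 (nat_lit 3380258307) (nat_lit 1216) (nat_lit 586893993) (nat_lit 226) (nat_lit 5) (nat_lit 241) (nat_lit 3) (nat_lit 242) (nat_lit 5) (nat_lit 382) (nat_lit 381) (nat_lit 137))))) (XT.nd (nat_lit 234) (nat_lit 1064) (nat_lit 0) (XT.nd (nat_lit 78) (nat_lit 0) (nat_lit 0) (XT.lf (nat_lit 76) (nat_lit 18360809154) (nat_lit 0) (nat_lit 24114816240) (nat_lit 1216) (nat_lit 3600008869) (nat_lit 227) (nat_lit 5) (nat_lit 226) (nat_lit 5) (nat_lit 242) (nat_lit 5) (nat_lit 383) (nat_lit 381) (nat_lit 136)) (XT.nd (nat_lit 78) (nat_lit 0) (nat_lit 76) (XT.lf (nat_lit 76) (nat_lit 40822746688) (nat_lit 0) (nat_lit 2762873254) (nat_lit 1216) (nat_lit 3187927677) (nat_lit 227) (nat_lit 5) (nat_lit 226) (nat_lit 5) (nat_lit 242) (nat_lit 5) (nat_lit 384) (nat_lit 381) (nat_lit 135)) (XT.lf (nat_lit 76) (nat_lit 16604637561) (nat_lit 0) (nat_lit 28467579922) (nat_lit 1216) (nat_lit 2409882699) (nat_lit 228) (nat_lit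 5) (nat_lit 227) (nat_lit 5) (nat_lit 243) (nat_lit 5) (nat_lit 385) (nat_lit 381) (nat_lit 134)))) (XT.nd (nat_lit 156) (nat_lit 1140) (nat_lit 0) (XT.nd (nat_lit 78) (nat_lit 0) (nat_lit 76) (XT.lf (nat_lit 76) (nat_lit 39930156069) (nat_lit 0) (nat_lit 6759304858) (nat_lit 1216) (nat_lit 1519867832) (nat_lit 228) (nat_lit 5) (nat_lit 227) (nat_lit 5) (nat_lit 243) (nat_lit 5) (nat_lit 386) (nat_lit 381) (nat_lit 133)) (XT.lf (nat_lit 76) (nat_lit 15141892236) (nat_lit 0) (nat_lit 33507748207) (nat_lit 1216) (nat_lit 299902038) (nat_lit 229) (nat_lit 5) (nat_lit 228) (nat_lit 5) (nat_lit 244) (nat_lit 5) (nat_lit 387) (nat_lit 381) (nat_lit 132))) (XT.nd (nat_lit 78) (nat_lit 0) (nat_lit 76) (XT.lf (nat_lit 0) (nat_lit 1088270477) (nat_lit 1216) (nat_lit 10351801325) (nat_lit 1292) (nat_lit 38267107463) (nat_lit 212) (nat_lit 5) (nat_lit 228) (nat_lit 5) (nat_lit 229) (nat_lit 5) (nat_lit 388) (nat_lit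 381) (nat_lit 131)) (XT.lf (nat_lit 0) (nat_lit 2756242331) (nat_lit 1216) (nat_lit 36514524945) (nat_lit 1292) (nat_lit 11209364115) (nat_lit 213) (nat_lit 5) (nat_lit 229) (nat_lit 5) (nat_lit 230) (nat_lit 5) (nat_lit 389) (nat_lit 381) (nat_lit 130))))))) (XT.nd (nat_lit 1014) (nat_lit 3724) (nat_lit 0) (XT.nd (nat_lit 468) (nat_lit 1292) (nat_lit 0) (XT.nd (nat_lit 234) (nat_lit 0) (nat_lit 152) (XT.nd (nat_lit 78) (nat_lit 0) (nat_lit 76) (XT.lf (nat_lit 0) (nat_lit 4692068760) (nat_lit 1216) (nat_lit 12163411772) (nat_lit 1292) (nat_lit 34414257844) (nat_lit 213) (nat_lit 5) (nat_lit 229) (nat_lit 5) (nat_lit 230) (nat_lit 5) (nat_lit 390) (nat_lit 381) (nat_lit 129)) (XT.nd (nat_lit 78) (nat_lit 0) (nat_lit 0) (XT.lf (nat_lit 0) (nat_lit 6872786923) (nat_lit 1216) (nat_lit 38965800787) (nat_lit 1292) (nat_lit 6238842083) (nat_lit 214) (nat_lit 5) (nat_lit 230) (nat_lit 5) (nat_lit 231) (nat_lit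 5) (nat_lit 391) (nat_lit 381) (nat_lit 128)) (XT.lf (nat_lit 0) (nat_lit 9408889549) (nat_lit 1216) (nat_lit 13680226105) (nat_lit 1292) (nat_lit 29811538124) (nat_lit 214) (nat_lit 5) (nat_lit 230) (nat_lit 5) (nat_lit 231) (nat_lit 5) (nat_lit 392) (nat_lit 381) (nat_lit 127)))) (XT.nd (nat_lit 78) (nat_lit 0) (nat_lit 0) (XT.lf (nat_lit 0) (nat_lit 12145843690) (nat_lit 1216) (nat_lit 41140191987) (nat_lit 1292) (nat_lit 458796444) (nat_lit 215) (nat_lit 5) (nat_lit 231) (nat_lit 5) (nat_lit 232) (nat_lit 5) (nat_lit 393) (nat_lit 381) (nat_lit 126)) (XT.nd (nat_lit 78) (nat_lit 0) (nat_lit 0) (XT.lf (nat_lit 0) (nat_lit 15332108054) (nat_lit 1216) (nat_lit 14882399421) (nat_lit 1292) (nat_lit 24388812962) (nat_lit 215) (nat_lit 5) (nat_lit 231) (nat_lit 5) (nat_lit 232) (nat_lit 5) (nat_lit 394) (nat_lit 381) (nat_lit 125)) (XT.lf (nat_lit 76) (nat_lit 12404485407) (nat_lit 0) (nat_lit 6327826363)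 (nat_lit 1292) (nat_lit 36751701741) (nat_lit 216) (nat_lit 5) (nat_lit 215) (nat_lit 5) (nat_lit 232) (nat_lit 5) (nat_lit 395) (nat_lit 381) (nat_lit 124))))) (XT.nd (nat_lit 234) (nat_lit 1520) (nat_lit 0) (XT.nd (nat_lit 78) (nat_lit 0) (nat_lit 0) (XT.lf (nat_lit 0) (nat_lit 22561100314) (nat_lit 1216) (nat_lit 15749449585) (nat_lit 1292) (nat_lit 18070780750) (nat_lit 216) (nat_lit 5) (nat_lit 232) (nat_lit 5) (nat_lit 233) (nat_lit 5) (nat_lit 396) (nat_lit 381) (nat_lit 123)) (XT.nd (nat_lit 78) (nat_lit 0) (nat_lit 76) (XT.lf (nat_lit 76) (nat_lit 12582715318) (nat_lit 0) (nat_lit 14104799811) (nat_lit 1292) (nat_lit 30612569907) (nat_lit 217) (nat_lit 5) (nat_lit 216) (nat_lit 5) (nat_lit 233) (nat_lit 5) (nat_lit 397) (nat_lit 381) (nat_lit 122)) (XT.lf (nat_lit 0) (nat_lit 31201589775) (nat_lit 1216) (nat_lit 16260307087) (nat_lit 76) (nat_lit 10776589767) (nat_lit 217) (nat_lit 5) (nat_lit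 233) (nat_lit 5) (nat_lit 218) (nat_lit 5) (nat_lit 398) (nat_lit 381) (nat_lit 121)))) (XT.nd (nat_lit 156) (nat_lit 608) (nat_lit 0) (XT.nd (nat_lit 78) (nat_lit 0) (nat_lit 0) (XT.lf (nat_lit 0) (nat_lit 13167055466) (nat_lit 988) (nat_lit 22949453694) (nat_lit 1064) (nat_lit 23080569014) (nat_lit 204) (nat_lit 5) (nat_lit 217) (nat_lit 5) (nat_lit 218) (nat_lit 5) (nat_lit 399) (nat_lit 381) (nat_lit 120)) (XT.lf (nat_lit 0) (nat_lit 41366011065) (nat_lit 1064) (nat_lit 16393376508) (nat_lit 76) (nat_lit 2419426405) (nat_lit 204) (nat_lit 5) (nat_lit 218) (nat_lit 5) (nat_lit 205) (nat_lit 5) (nat_lit 400) (nat_lit 381) (nat_lit 119))) (XT.nd (nat_lit 78) (nat_lit 0) (nat_lit 0) (XT.lf (nat_lit 0) (nat_lit 14181178234) (nat_lit 608) (nat_lit 32954601758) (nat_lit 684) (nat_lit 14043338951) (nat_lit 196) (nat_lit 5) (nat_lit 204) (nat_lit 5) (nat_lit 205) (nat_lit 5) (nat_lit 401) (nat_lit 381) (nat_lit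 118)) (XT.lf (nat_lit 0) (nat_lit 46008330180) (nat_lit 608) (nat_lit 7235109741) (nat_lit 684) (nat_lit 8961049728) (nat_lit 196) (nat_lit 5) (nat_lit 204) (nat_lit 5) (nat_lit 205) (nat_lit 5) (nat_lit 402) (nat_lit 381) (nat_lit 117)))))) (XT.nd (nat_lit 546) (nat_lit 1444) (nat_lit 0) (XT.nd (nat_lit 234) (nat_lit 1064) (nat_lit 0) (XT.nd (nat_lit 78) (nat_lit 684) (nat_lit 0) (XT.lf (nat_lit 0) (nat_lit 15649258233) (nat_lit 532) (nat_lit 44219880928) (nat_lit 608) (nat_lit 3381438546) (nat_lit 189) (nat_lit 5) (nat_lit 196) (nat_lit 5) (nat_lit 197) (nat_lit 5) (nat_lit 403) (nat_lit 381) (nat_lit 116)) (XT.nd (nat_lit 78) (nat_lit 608) (nat_lit 0) (XT.lf (nat_lit 0) (nat_lit 2555489937) (nat_lit 608) (nat_lit 15637789492) (nat_lit 76) (nat_lit 46127004596) (nat_lit 188) (nat_lit 5) (nat_lit 196) (nat_lit 5) (nat_lit 189) (nat_lit 5) (nat_lit 404) (nat_lit 381) (nat_lit 115)) (XT.lf (nat_lit 0) (nat_lit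 8855802318) (nat_lit 684) (nat_lit 47907027508) (nat_lit 76) (nat_lit 8650650602) (nat_lit 180) (nat_lit 5) (nat_lit 189) (nat_lit 5) (nat_lit 181) (nat_lit 5) (nat_lit 405) (nat_lit 381) (nat_lit 114)))) (XT.nd (nat_lit 156) (nat_lit 532) (nat_lit 0) (XT.nd (nat_lit 78) (nat_lit 532) (nat_lit 0) (XT.lf (nat_lit 0) (nat_lit 15684050723) (nat_lit 684) (nat_lit 14751540484) (nat_lit 76) (nat_lit 36093714173) (nat_lit 180) (nat_lit 5) (nat_lit 189) (nat_lit 5) (nat_lit 181) (nat_lit 5) (nat_lit 406) (nat_lit 381) (nat_lit 113)) (XT.lf (nat_lit 0) (nat_lit 19783996236) (nat_lit 532) (nat_lit 3122666688) (nat_lit 608) (nat_lit 44766257110) (nat_lit 173) (nat_lit 5) (nat_lit 180) (nat_lit 5) (nat_lit 181) (nat_lit 5) (nat_lit 407) (nat_lit 381) (nat_lit 112))) (XT.nd (nat_lit 78) (nat_lit 532) (nat_lit 0) (XT.lf (nat_lit 0) (nat_lit 30736151113) (nat_lit 608) (nat_lit 13430950986) (nat_lit 76) (nat_lit 24672035531)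 (nat_lit 173) (nat_lit 5) (nat_lit 181) (nat_lit 5) (nat_lit 174) (nat_lit 5) (nat_lit 408) (nat_lit 381) (nat_lit 111)) (XT.lf (nat_lit 0) (nat_lit 22467602311) (nat_lit 532) (nat_lit 16579183412) (nat_lit 608) (nat_lit 30986168595) (nat_lit 166) (nat_lit 5) (nat_lit 173) (nat_lit 5) (nat_lit 174) (nat_lit 5) (nat_lit 409) (nat_lit 381) (nat_lit 110))))) (XT.nd (nat_lit 234) (nat_lit 988) (nat_lit 0) (XT.nd (nat_lit 78) (nat_lit 456) (nat_lit 0) (XT.lf (nat_lit 0) (nat_lit 47856870435) (nat_lit 608) (nat_lit 11655881487) (nat_lit 76) (nat_lit 11742330059) (nat_lit 166) (nat_lit 5) (nat_lit 174) (nat_lit 5) (nat_lit 167) (nat_lit 5) (nat_lit 410) (nat_lit 381) (nat_lit 109)) (XT.nd (nat_lit 78) (nat_lit 0) (nat_lit 0) (XT.lf (nat_lit 0) (nat_lit 25666919572) (nat_lit 456) (nat_lit 31674616037) (nat_lit 532) (nat_lit 15160029922) (nat_lit 160) (nat_lit 5) (nat_lit 166) (nat_lit 5) (nat_lit 167) (nat_lit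 5) (nat_lit 411) (nat_lit 381) (nat_lit 108)) (XT.lf (nat_lit 0) (nat_lit 64347687957) (nat_lit 456) (nat_lit 2880166964) (nat_lit 532) (nat_lit 6554075623) (nat_lit 160) (nat_lit 5) (nat_lit 166) (nat_lit 5) (nat_lit 167) (nat_lit 5) (nat_lit 412) (nat_lit 381) (nat_lit 107)))) (XT.nd (nat_lit 156) (nat_lit 456) (nat_lit 0) (XT.nd (nat_lit 78) (nat_lit 0) (nat_lit 0) (XT.lf (nat_lit 0) (nat_lit 2809805817) (nat_lit 532) (nat_lit 45708177121) (nat_lit 76) (nat_lit 26565712979) (nat_lit 153) (nat_lit 5) (nat_lit 160) (nat_lit 5) (nat_lit 154) (nat_lit 5) (nat_lit 413) (nat_lit 381) (nat_lit 106)) (XT.lf (nat_lit 0) (nat_lit 12447034066) (nat_lit 532) (nat_lit 6973696108) (nat_lit 76) (nat_lit 56998112846) (nat_lit 153) (nat_lit 5) (nat_lit 160) (nat_lit 5) (nat_lit 154) (nat_lit 5) (nat_lit 414) (nat_lit 381) (nat_lit 105))) (XT.nd (nat_lit 78) (nat_lit 0) (nat_lit 0) (XT.lf (nat_lit 0) (nat_lit 22800198431)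 (nat_lit 532) (nat_lit 44311580573) (nat_lit 76) (nat_lit 10669461296) (nat_lit 147) (nat_lit 5) (nat_lit 154) (nat_lit 5) (nat_lit 148) (nat_lit 5) (nat_lit 415) (nat_lit 381) (nat_lit 104)) (XT.lf (nat_lit 0) (nat_lit 33726819384) (nat_lit 532) (nat_lit 4106752833) (nat_lit 76) (nat_lit 41343051761) (nat_lit 147) (nat_lit 5) (nat_lit 154) (nat_lit 5) (nat_lit 148) (nat_lit 5) (nat_lit 416) (nat_lit 381) (nat_lit 103))))))))
noncomputable def xc249 : XT := (XT.nd (nat_lit 2028) (nat_lit 2052) (nat_lit 0) (XT.nd (nat_lit 1014) (nat_lit 2432) (nat_lit 0) (XT.nd (nat_lit 468) (nat_lit 1064) (nat_lit 0) (XT.nd (nat_lit 234) (nat_lit 0) (nat_lit 0) (XT.nd (nat_lit 78) (nat_lit 0) (nat_lit 0) (XT.lf (nat_lit 0) (nat_lit 10516721168) (nat_lit 0) (nat_lit 10516721168) (nat_lit 1140) (nat_lit 2000167112) (nat_lit 226) (nat_lit 5) (nat_lit 226) (nat_lit 3) (nat_lit 241) (nat_lit 3) (nat_lit 382) (nat_lit 382) (nat_lit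 136)) (XT.nd (nat_lit 78) (nat_lit 0) (nat_lit 0) (XT.lf (nat_lit 0) (nat_lit 42733303755) (nat_lit 1140) (nat_lit 3449124151) (nat_lit 1216) (nat_lit 574713694) (nat_lit 226) (nat_lit 5) (nat_lit 241) (nat_lit 3) (nat_lit 242) (nat_lit 5) (nat_lit 383) (nat_lit 382) (nat_lit 135)) (XT.lf (nat_lit 76) (nat_lit 18943856295) (nat_lit 0) (nat_lit 24865054256) (nat_lit 1216) (nat_lit 3647176482) (nat_lit 227) (nat_lit 5) (nat_lit 226) (nat_lit 5) (nat_lit 242) (nat_lit 5) (nat_lit 384) (nat_lit 382) (nat_lit 134)))) (XT.nd (nat_lit 78) (nat_lit 0) (nat_lit 76) (XT.lf (nat_lit 76) (nat_lit 42078713425) (nat_lit 0) (nat_lit 2871772587) (nat_lit 1216) (nat_lit 3224504679) (nat_lit 227) (nat_lit 5) (nat_lit 226) (nat_lit 5) (nat_lit 242) (nat_lit 5) (nat_lit 385) (nat_lit 382) (nat_lit 133)) (XT.nd (nat_lit 78) (nat_lit 0) (nat_lit 0) (XT.lf (nat_lit 76) (nat_lit 17135747986) (nat_lit 0) (nat_lit 29344338804)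 (nat_lit 1216) (nat_lit 2424762176) (nat_lit 228) (nat_lit 5) (nat_lit 227) (nat_lit 5) (nat_lit 243) (nat_lit 5) (nat_lit 386) (nat_lit 382) (nat_lit 132)) (XT.lf (nat_lit 76) (nat_lit 41160071721) (nat_lit 0) (nat_lit 6984153406) (nat_lit 1216) (nat_lit 1509719203) (nat_lit 228) (nat_lit 5) (nat_lit 227) (nat_lit 5) (nat_lit 243) (nat_lit 5) (nat_lit 387) (nat_lit 382) (nat_lit 131))))) (XT.nd (nat_lit 234) (nat_lit 0) (nat_lit 76) (XT.nd (nat_lit 78) (nat_lit 1216) (nat_lit 0) (XT.lf (nat_lit 76) (nat_lit 15629704180) (nat_lit 0) (nat_lit 34532047279) (nat_lit 1216) (nat_lit 254657981) (nat_lit 229) (nat_lit 5) (nat_lit 228) (nat_lit 5) (nat_lit 244) (nat_lit 5) (nat_lit 388) (nat_lit 382) (nat_lit 130)) (XT.nd (nat_lit 78) (nat_lit 0) (nat_lit 76) (XT.lf (nat_lit 0) (nat_lit 1172552259) (nat_lit 1216) (nat_lit 10628711584) (nat_lit 1292) (nat_lit 39395543461) (nat_lit 212) (nat_lit 5) (nat_lit 228)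 (nat_lit 5) (nat_lit 229) (nat_lit 5) (nat_lit 389) (nat_lit 382) (nat_lit 129)) (XT.lf (nat_lit 0) (nat_lit 2889214888) (nat_lit 1216) (nat_lit 37574931320) (nat_lit 1292) (nat_lit 11528843355) (nat_lit 213) (nat_lit 5) (nat_lit 229) (nat_lit 5) (nat_lit 230) (nat_lit 5) (nat_lit 390) (nat_lit 382) (nat_lit 128)))) (XT.nd (nat_lit 156) (nat_lit 0) (nat_lit 76) (XT.nd (nat_lit 78) (nat_lit 0) (nat_lit 76) (XT.lf (nat_lit 0) (nat_lit 4881651490) (nat_lit 1216) (nat_lit 12494305024) (nat_lit 1292) (nat_lit 35430373265) (nat_lit 213) (nat_lit 5) (nat_lit 229) (nat_lit 5) (nat_lit 230) (nat_lit 5) (nat_lit 391) (nat_lit 382) (nat_lit 127)) (XT.lf (nat_lit 0) (nat_lit 7126557922) (nat_lit 1216) (nat_lit 40099497359) (nat_lit 1292) (nat_lit 6412234709) (nat_lit 214) (nat_lit 5) (nat_lit 230) (nat_lit 5) (nat_lit 231) (nat_lit 5) (nat_lit 392) (nat_lit 382) (nat_lit 126))) (XT.nd (nat_lit 78) (nat_lit 0) (nat_lit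 76) (XT.lf (nat_lit 0) (nat_lit 9737357586) (nat_lit 1216) (nat_lit 14056382935) (nat_lit 1292) (nat_lit 30692512776) (nat_lit 214) (nat_lit 5) (nat_lit 230) (nat_lit 5) (nat_lit 231) (nat_lit 5) (nat_lit 393) (nat_lit 382) (nat_lit 125)) (XT.lf (nat_lit 0) (nat_lit 12555292374) (nat_lit 1216) (nat_lit 42338986755) (nat_lit 1292) (nat_lit 461512693) (nat_lit 215) (nat_lit 5) (nat_lit 231) (nat_lit 5) (nat_lit 232) (nat_lit 5) (nat_lit 394) (nat_lit 382) (nat_lit 124)))))) (XT.nd (nat_lit 468) (nat_lit 1824) (nat_lit 0) (XT.nd (nat_lit 234) (nat_lit 836) (nat_lit 0) (XT.nd (nat_lit 78) (nat_lit 0) (nat_lit 0) (XT.lf (nat_lit 0) (nat_lit 15835831853) (nat_lit 1216) (nat_lit 15294491801) (nat_lit 1292) (nat_lit 25109751482) (nat_lit 215) (nat_lit 5) (nat_lit 231) (nat_lit 5) (nat_lit 232) (nat_lit 5) (nat_lit 395) (nat_lit 382) (nat_lit 123)) (XT.nd (nat_lit 78) (nat_lit 0) (nat_lit 76) (XT.lf (nat_lit 76)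 (nat_lit 12810662518) (nat_lit 0) (nat_lit 6526431821) (nat_lit 1292) (nat_lit 37810124018) (nat_lit 216) (nat_lit 5) (nat_lit 215) (nat_lit 5) (nat_lit 232) (nat_lit 5) (nat_lit 396) (nat_lit 382) (nat_lit 122)) (XT.lf (nat_lit 0) (nat_lit 23279417698) (nat_lit 1216) (nat_lit 16187522959) (nat_lit 1292) (nat_lit 18604555124) (nat_lit 216) (nat_lit 5) (nat_lit 232) (nat_lit 5) (nat_lit 233) (nat_lit 5) (nat_lit 397) (nat_lit 382) (nat_lit 121)))) (XT.nd (nat_lit 78) (nat_lit 912) (nat_lit 0) (XT.lf (nat_lit 76) (nat_lit 12994269537) (nat_lit 0) (nat_lit 14534474666) (nat_lit 1292) (nat_lit 31489095900) (nat_lit 217) (nat_lit 5) (nat_lit 216) (nat_lit 5) (nat_lit 233) (nat_lit 5) (nat_lit 398) (nat_lit 382) (nat_lit 120)) (XT.nd (nat_lit 78) (nat_lit 988) (nat_lit 0) (XT.lf (nat_lit 0) (nat_lit 32176997509) (nat_lit 1216) (nat_lit 16713763851) (nat_lit 76) (nat_lit 11093670547) (nat_lit 217) (nat_lit 5)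 (nat_lit 233) (nat_lit 5) (nat_lit 218) (nat_lit 5) (nat_lit 399) (nat_lit 382) (nat_lit 119)) (XT.lf (nat_lit 0) (nat_lit 13596082790) (nat_lit 988) (nat_lit 23642462256) (nat_lit 1064) (nat_lit 23733261566) (nat_lit 204) (nat_lit 5) (nat_lit 217) (nat_lit 5) (nat_lit 218) (nat_lit 5) (nat_lit 400) (nat_lit 382) (nat_lit 118))))) (XT.nd (nat_lit 234) (nat_lit 1216) (nat_lit 0) (XT.nd (nat_lit 78) (nat_lit 608) (nat_lit 0) (XT.lf (nat_lit 0) (nat_lit 42644367237) (nat_lit 1064) (nat_lit 16850961237) (nat_lit 76) (nat_lit 2487701767) (nat_lit 204) (nat_lit 5) (nat_lit 218) (nat_lit 5) (nat_lit 205) (nat_lit 5) (nat_lit 401) (nat_lit 382) (nat_lit 117)) (XT.nd (nat_lit 78) (nat_lit 0) (nat_lit 0) (XT.lf (nat_lit 0) (nat_lit 14640494691) (nat_lit 608) (nat_lit 33945971610) (nat_lit 684) (nat_lit 14426901725) (nat_lit 196) (nat_lit 5) (nat_lit 204) (nat_lit 5) (nat_lit 205) (nat_lit 5) (nat_lit 402) (nat_lit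 382) (nat_lit 116)) (XT.lf (nat_lit 0) (nat_lit 47421474367) (nat_lit 608) (nat_lit 7454815266) (nat_lit 684) (nat_lit 9193242972) (nat_lit 196) (nat_lit 5) (nat_lit 204) (nat_lit 5) (nat_lit 205) (nat_lit 5) (nat_lit 403) (nat_lit 382) (nat_lit 115)))) (XT.nd (nat_lit 156) (nat_lit 608) (nat_lit 0) (XT.nd (nat_lit 78) (nat_lit 76) (nat_lit 0) (XT.lf (nat_lit 0) (nat_lit 16152414044) (nat_lit 532) (nat_lit 45547609451) (nat_lit 608) (nat_lit 3447002637) (nat_lit 189) (nat_lit 5) (nat_lit 196) (nat_lit 5) (nat_lit 197) (nat_lit 5) (nat_lit 404) (nat_lit 382) (nat_lit 114)) (XT.lf (nat_lit 0) (nat_lit 2666308941) (nat_lit 608) (nat_lit 16073523100) (nat_lit 76) (nat_lit 47509012686) (nat_lit 188) (nat_lit 5) (nat_lit 196) (nat_lit 5) (nat_lit 189) (nat_lit 5) (nat_lit 405) (nat_lit 382) (nat_lit 113))) (XT.nd (nat_lit 78) (nat_lit 0) (nat_lit 0) (XT.lf (nat_lit 0) (nat_lit 9154949932) (nat_lit 684) (nat_lit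 49310134980) (nat_lit 76) (nat_lit 8909773209) (nat_lit 180) (nat_lit 5) (nat_lit 189) (nat_lit 5) (nat_lit 181) (nat_lit 5) (nat_lit 406) (nat_lit 382) (nat_lit 112)) (XT.lf (nat_lit 0) (nat_lit 16187070831) (nat_lit 684) (nat_lit 15160976648) (nat_lit 76) (nat_lit 37176140248) (nat_lit 180) (nat_lit 5) (nat_lit 189) (nat_lit 5) (nat_lit 181) (nat_lit 5) (nat_lit 407) (nat_lit 382) (nat_lit 111))))))) (XT.nd (nat_lit 45318) (nat_lit 0) (nat_lit 3876) (XT.nd (nat_lit 468) (nat_lit 532) (nat_lit 0) (XT.nd (nat_lit 234) (nat_lit 456) (nat_lit 0) (XT.nd (nat_lit 78) (nat_lit 532) (nat_lit 0) (XT.lf (nat_lit 0) (nat_lit 20410301566) (nat_lit 532) (nat_lit 3215428425) (nat_lit 608) (nat_lit 46076400408) (nat_lit 173) (nat_lit 5) (nat_lit 180) (nat_lit 5) (nat_lit 181) (nat_lit 5) (nat_lit 408) (nat_lit 382) (nat_lit 110)) (XT.nd (nat_lit 78) (nat_lit 532) (nat_lit 0) (XT.lf (nat_lit 0) (nat_lit 31689183225)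 (nat_lit 608) (nat_lit 13801108786) (nat_lit 76) (nat_lit 25413070718) (nat_lit 173) (nat_lit 5) (nat_lit 181) (nat_lit 5) (nat_lit 174) (nat_lit 5) (nat_lit 409) (nat_lit 382) (nat_lit 109)) (XT.lf (nat_lit 0) (nat_lit 23174079829) (nat_lit 532) (nat_lit 17074467583) (nat_lit 608) (nat_lit 31884464790) (nat_lit 166) (nat_lit 5) (nat_lit 173) (nat_lit 5) (nat_lit 174) (nat_lit 5) (nat_lit 410) (nat_lit 382) (nat_lit 108)))) (XT.nd (nat_lit 78) (nat_lit 456) (nat_lit 0) (XT.lf (nat_lit 0) (nat_lit 49322069965) (nat_lit 608) (nat_lit 11973169494) (nat_lit 76) (nat_lit 12096590759) (nat_lit 166) (nat_lit 5) (nat_lit 174) (nat_lit 5) (nat_lit 167) (nat_lit 5) (nat_lit 411) (nat_lit 382) (nat_lit 107)) (XT.nd (nat_lit 78) (nat_lit 0) (nat_lit 0) (XT.lf (nat_lit 0) (nat_lit 26468998064) (nat_lit 456) (nat_lit 32621726284) (nat_lit 532) (nat_lit 15585001014) (nat_lit 160) (nat_lit 5) (nat_lit 166) (nat_lit 5)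 (nat_lit 167) (nat_lit 5) (nat_lit 412) (nat_lit 382) (nat_lit 106)) (XT.lf (nat_lit 0) (nat_lit 66309255397) (nat_lit 456) (nat_lit 2963534853) (nat_lit 532) (nat_lit 6721736915) (nat_lit 160) (nat_lit 5) (nat_lit 166) (nat_lit 5) (nat_lit 167) (nat_lit 5) (nat_lit 413) (nat_lit 382) (nat_lit 105))))) (XT.nd (nat_lit 44538) (nat_lit 0) (nat_lit 5548) (XT.nd (nat_lit 78) (nat_lit 0) (nat_lit 0) (XT.lf (nat_lit 0) (nat_lit 2922004701) (nat_lit 532) (nat_lit 47047194340) (nat_lit 76) (nat_lit 27366153357) (nat_lit 153) (nat_lit 5) (nat_lit 160) (nat_lit 5) (nat_lit 154) (nat_lit 5) (nat_lit 414) (nat_lit 382) (nat_lit 104)) (XT.nd (nat_lit 44382) (nat_lit 0) (nat_lit 5548) (XT.lf (nat_lit 0) (nat_lit 12847537039) (nat_lit 532) (nat_lit 7151617579) (nat_lit 76) (nat_lit 58711424182) (nat_lit 153) (nat_lit 5) (nat_lit 160) (nat_lit 5) (nat_lit 154) (nat_lit 5) (nat_lit 415) (nat_lit 382) (nat_lit 103)) (XT.lf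 (nat_lit 0) (nat_lit 10846970347) (nat_lit 0) (nat_lit 10846970347) (nat_lit 1140) (nat_lit 2029769302) (nat_lit 226) (nat_lit 5) (nat_lit 226) (nat_lit 3) (nat_lit 241) (nat_lit 3) (nat_lit 383) (nat_lit 383) (nat_lit 134)))) (XT.nd (nat_lit 156) (nat_lit 0) (nat_lit 0) (XT.nd (nat_lit 78) (nat_lit 0) (nat_lit 0) (XT.lf (nat_lit 0) (nat_lit 44072299615) (nat_lit 1140) (nat_lit 3521924009) (nat_lit 1216) (nat_lit 563877889) (nat_lit 226) (nat_lit 5) (nat_lit 241) (nat_lit 3) (nat_lit 242) (nat_lit 5) (nat_lit 384) (nat_lit 383) (nat_lit 133)) (XT.lf (nat_lit 76) (nat_lit 19542545127) (nat_lit 0) (nat_lit 25636261355) (nat_lit 1216) (nat_lit 3699251166) (nat_lit 227) (nat_lit 5) (nat_lit 226) (nat_lit 5) (nat_lit 242) (nat_lit 5) (nat_lit 385) (nat_lit 383) (nat_lit 132))) (XT.nd (nat_lit 78) (nat_lit 0) (nat_lit 76) (XT.lf (nat_lit 76) (nat_lit 43370563316) (nat_lit 0) (nat_lit 2982445639) (nat_lit 1216)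 (nat_lit 3265569324) (nat_lit 227) (nat_lit 5) (nat_lit 226) (nat_lit 5) (nat_lit 242) (nat_lit 5) (nat_lit 386) (nat_lit 383) (nat_lit 131)) (XT.lf (nat_lit 76) (nat_lit 17680899037) (nat_lit 0) (nat_lit 30246095572) (nat_lit 1216) (nat_lit 2443384008) (nat_lit 228) (nat_lit 5) (nat_lit 227) (nat_lit 5) (nat_lit 243) (nat_lit 5) (nat_lit 387) (nat_lit 383) (nat_lit 130)))))) (XT.nd (nat_lit 546) (nat_lit 608) (nat_lit 0) (XT.nd (nat_lit 234) (nat_lit 0) (nat_lit 76) (XT.nd (nat_lit 78) (nat_lit 1140) (nat_lit 0) (XT.lf (nat_lit 76) (nat_lit 42425047281) (nat_lit 0) (nat_lit 7214480537) (nat_lit 1216) (nat_lit 1502466087) (nat_lit 228) (nat_lit 5) (nat_lit 227) (nat_lit 5) (nat_lit 243) (nat_lit 5) (nat_lit 388) (nat_lit 383) (nat_lit 129)) (XT.nd (nat_lit 78) (nat_lit 1216) (nat_lit 0) (XT.lf (nat_lit 76) (nat_lit 16130224278) (nat_lit 0) (nat_lit 35585980820) (nat_lit 1216) (nat_lit 211170265) (nat_lit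 229) (nat_lit 5) (nat_lit 228) (nat_lit 5) (nat_lit 244) (nat_lit 5) (nat_lit 389) (nat_lit 383) (nat_lit 128)) (XT.lf (nat_lit 0) (nat_lit 1256398512) (nat_lit 1216) (nat_lit 10915860441) (nat_lit 1292) (nat_lit 40558956352) (nat_lit 212) (nat_lit 5) (nat_lit 228) (nat_lit 5) (nat_lit 229) (nat_lit 5) (nat_lit 390) (nat_lit 383) (nat_lit 127)))) (XT.nd (nat_lit 156) (nat_lit 0) (nat_lit 76) (XT.nd (nat_lit 78) (nat_lit 0) (nat_lit 0) (XT.lf (nat_lit 0) (nat_lit 3023290040) (nat_lit 1216) (nat_lit 38669160715) (nat_lit 1292) (nat_lit 11858871458) (nat_lit 213) (nat_lit 5) (nat_lit 229) (nat_lit 5) (nat_lit 230) (nat_lit 5) (nat_lit 391) (nat_lit 383) (nat_lit 126)) (XT.lf (nat_lit 0) (nat_lit 5074119195) (nat_lit 1216) (nat_lit 12837077336) (nat_lit 1292) (nat_lit 36477908543) (nat_lit 213) (nat_lit 5) (nat_lit 229) (nat_lit 5) (nat_lit 230) (nat_lit 5) (nat_lit 392) (nat_lit 383) (nat_lit 125))) (XT.nd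 (nat_lit 78) (nat_lit 0) (nat_lit 0) (XT.lf (nat_lit 0) (nat_lit 7385210340) (nat_lit 1216) (nat_lit 41269229899) (nat_lit 1292) (nat_lit 6591619719) (nat_lit 214) (nat_lit 5) (nat_lit 230) (nat_lit 5) (nat_lit 231) (nat_lit 5) (nat_lit 393) (nat_lit 383) (nat_lit 124)) (XT.lf (nat_lit 0) (nat_lit 10073027518) (nat_lit 1216) (nat_lit 14445790558) (nat_lit 1292) (nat_lit 31600684246) (nat_lit 214) (nat_lit 5) (nat_lit 230) (nat_lit 5) (nat_lit 231) (nat_lit 5) (nat_lit 394) (nat_lit 383) (nat_lit 123))))) (XT.nd (nat_lit 234) (nat_lit 836) (nat_lit 0) (XT.nd (nat_lit 78) (nat_lit 0) (nat_lit 0) (XT.lf (nat_lit 0) (nat_lit 12974437123) (nat_lit 1216) (nat_lit 43575778102) (nat_lit 1292) (nat_lit 464944608) (nat_lit 215) (nat_lit 5) (nat_lit 231) (nat_lit 5) (nat_lit 232) (nat_lit 5) (nat_lit 395) (nat_lit 383) (nat_lit 122)) (XT.nd (nat_lit 78) (nat_lit 0) (nat_lit 0) (XT.lf (nat_lit 0) (nat_lit 16352155330)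 (nat_lit 1216) (nat_lit 15720920481) (nat_lit 1292) (nat_lit 25852933866) (nat_lit 215) (nat_lit 5) (nat_lit 231) (nat_lit 5) (nat_lit 232) (nat_lit 5) (nat_lit 396) (nat_lit 383) (nat_lit 121)) (XT.lf (nat_lit 76) (nat_lit 13227070760) (nat_lit 0) (nat_lit 6730491971) (nat_lit 1292) (nat_lit 38902832135) (nat_lit 216) (nat_lit 5) (nat_lit 215) (nat_lit 5) (nat_lit 232) (nat_lit 5) (nat_lit 397) (nat_lit 383) (nat_lit 120)))) (XT.nd (nat_lit 156) (nat_lit 912) (nat_lit 0) (XT.nd (nat_lit 78) (nat_lit 0) (nat_lit 0) (XT.lf (nat_lit 0) (nat_lit 24016903232) (nat_lit 1216) (nat_lit 16640713815) (nat_lit 1292) (nat_lit 19154821999) (nat_lit 216) (nat_lit 5) (nat_lit 232) (nat_lit 5) (nat_lit 233) (nat_lit 5) (nat_lit 398) (nat_lit 383) (nat_lit 119)) (XT.lf (nat_lit 76) (nat_lit 13416214467) (nat_lit 0) (nat_lit 14976664868) (nat_lit 1292) (nat_lit 32394320098) (nat_lit 217) (nat_lit 5) (nat_lit 216) (nat_lit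 5) (nat_lit 233) (nat_lit 5) (nat_lit 399) (nat_lit 383) (nat_lit 118))) (XT.nd (nat_lit 78) (nat_lit 988) (nat_lit 0) (XT.lf (nat_lit 0) (nat_lit 33179408048) (nat_lit 1216) (nat_lit 17182796289) (nat_lit 76) (nat_lit 11420620627) (nat_lit 217) (nat_lit 5) (nat_lit 233) (nat_lit 5) (nat_lit 218) (nat_lit 5) (nat_lit 400) (nat_lit 383) (nat_lit 117)) (XT.lf (nat_lit 0) (nat_lit 14036028295) (nat_lit 988) (nat_lit 24356001324) (nat_lit 1064) (nat_lit 24407815245) (nat_lit 204) (nat_lit 5) (nat_lit 217) (nat_lit 5) (nat_lit 218) (nat_lit 5) (nat_lit 401) (nat_lit 383) (nat_lit 116))))))))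
noncomputable def xc250 : XT := (XT.nd (nat_lit 46410) (nat_lit 0) (nat_lit 532) (XT.nd (nat_lit 1014) (nat_lit 532) (nat_lit 0) (XT.nd (nat_lit 468) (nat_lit 1520) (nat_lit 0) (XT.nd (nat_lit 234) (nat_lit 1216) (nat_lit 0) (XT.nd (nat_lit 78) (nat_lit 608) (nat_lit 0) (XT.lf (nat_lit 0) (nat_lit 43958928567) (nat_lit 1064) (nat_lit 17324237679) (nat_lit 76) (nat_lit 2558272654) (nat_lit 204) (nat_lit 5) (nat_lit 218) (nat_lit 5) (nat_lit 205) (nat_lit 5) (nat_lit 402) (nat_lit 383) (nat_lit 115)) (XT.nd (nat_lit 78) (nat_lit 0) (nat_lit 0) (XT.lf (nat_lit 0) (nat_lit 15111645728) (nat_lit 608) (nat_lit 34966925741) (nat_lit 684) (nat_lit 14824137662) (nat_lit 196) (nat_lit 5) (nat_lit 204) (nat_lit 5) (nat_lit 205) (nat_lit 5) (nat_lit 403) (nat_lit 383) (nat_lit 114)) (XT.lf (nat_lit 0) (nat_lit 48875124613) (nat_lit 608) (nat_lit 7680959706) (nat_lit 684) (nat_lit 9434505199) (nat_lit 196) (nat_lit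 5) (nat_lit 204) (nat_lit 5) (nat_lit 205) (nat_lit 5) (nat_lit 404) (nat_lit 383) (nat_lit 113)))) (XT.nd (nat_lit 78) (nat_lit 684) (nat_lit 0) (XT.lf (nat_lit 0) (nat_lit 16668731271) (nat_lit 532) (nat_lit 46915104843) (nat_lit 608) (nat_lit 3516593255) (nat_lit 189) (nat_lit 5) (nat_lit 196) (nat_lit 5) (nat_lit 197) (nat_lit 5) (nat_lit 405) (nat_lit 383) (nat_lit 112)) (XT.nd (nat_lit 78) (nat_lit 608) (nat_lit 0) (XT.lf (nat_lit 0) (nat_lit 2778491919) (nat_lit 608) (nat_lit 16524246018) (nat_lit 76) (nat_lit 48932584463) (nat_lit 188) (nat_lit 5) (nat_lit 196) (nat_lit 5) (nat_lit 189) (nat_lit 5) (nat_lit 406) (nat_lit 383) (nat_lit 111)) (XT.lf (nat_lit 0) (nat_lit 9461150455) (nat_lit 684) (nat_lit 50757293350) (nat_lit 76) (nat_lit 9176692278) (nat_lit 180) (nat_lit 5) (nat_lit 189) (nat_lit 5) (nat_lit 181) (nat_lit 5) (nat_lit 407) (nat_lit 383) (nat_lit 110))))) (XT.nd (nat_lit 234) (nat_lit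 988) (nat_lit 0) (XT.nd (nat_lit 78) (nat_lit 532) (nat_lit 0) (XT.lf (nat_lit 0) (nat_lit 16703315990) (nat_lit 684) (nat_lit 15584596549) (nat_lit 76) (nat_lit 38291061225) (nat_lit 180) (nat_lit 5) (nat_lit 189) (nat_lit 5) (nat_lit 181) (nat_lit 5) (nat_lit 408) (nat_lit 383) (nat_lit 109)) (XT.nd (nat_lit 78) (nat_lit 0) (nat_lit 0) (XT.lf (nat_lit 0) (nat_lit 21053514037) (nat_lit 532) (nat_lit 3311025727) (nat_lit 608) (nat_lit 47427733408) (nat_lit 173) (nat_lit 5) (nat_lit 180) (nat_lit 5) (nat_lit 181) (nat_lit 5) (nat_lit 409) (nat_lit 383) (nat_lit 108)) (XT.lf (nat_lit 0) (nat_lit 32669029783) (nat_lit 608) (nat_lit 14184252493) (nat_lit 76) (nat_lit 26176286782) (nat_lit 173) (nat_lit 5) (nat_lit 181) (nat_lit 5) (nat_lit 174) (nat_lit 5) (nat_lit 410) (nat_lit 383) (nat_lit 107)))) (XT.nd (nat_lit 156) (nat_lit 456) (nat_lit 0) (XT.nd (nat_lit 78) (nat_lit 0) (nat_lit 0) (XT.lf (nat_lit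 0) (nat_lit 23899888941) (nat_lit 532) (nat_lit 17584730330) (nat_lit 608) (nat_lit 32811505979) (nat_lit 166) (nat_lit 5) (nat_lit 173) (nat_lit 5) (nat_lit 174) (nat_lit 5) (nat_lit 411) (nat_lit 383) (nat_lit 106)) (XT.lf (nat_lit 0) (nat_lit 50829532439) (nat_lit 608) (nat_lit 12301835369) (nat_lit 76) (nat_lit 12461365000) (nat_lit 166) (nat_lit 5) (nat_lit 174) (nat_lit 5) (nat_lit 167) (nat_lit 5) (nat_lit 412) (nat_lit 383) (nat_lit 105))) (XT.nd (nat_lit 78) (nat_lit 0) (nat_lit 0) (XT.lf (nat_lit 0) (nat_lit 27293297909) (nat_lit 456) (nat_lit 33597429412) (nat_lit 532) (nat_lit 16024433591) (nat_lit 160) (nat_lit 5) (nat_lit 166) (nat_lit 5) (nat_lit 167) (nat_lit 5) (nat_lit 413) (nat_lit 383) (nat_lit 104)) (XT.lf (nat_lit 0) (nat_lit 68327882480) (nat_lit 456) (nat_lit 3049578121) (nat_lit 532) (nat_lit 6896090524) (nat_lit 160) (nat_lit 5) (nat_lit 166) (nat_lit 5) (nat_lit 167) (nat_lit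 5) (nat_lit 414) (nat_lit 383) (nat_lit 103)))))) (XT.nd (nat_lit 44850) (nat_lit 0) (nat_lit 4484) (XT.nd (nat_lit 44616) (nat_lit 0) (nat_lit 5548) (XT.nd (nat_lit 44460) (nat_lit 0) (nat_lit 5548) (XT.lf (nat_lit 0) (nat_lit 3035967707) (nat_lit 532) (nat_lit 48428232100) (nat_lit 76) (nat_lit 28190407812) (nat_lit 153) (nat_lit 5) (nat_lit 160) (nat_lit 5) (nat_lit 154) (nat_lit 5) (nat_lit 415) (nat_lit 383) (nat_lit 102)) (XT.nd (nat_lit 78) (nat_lit 0) (nat_lit 0) (XT.lf (nat_lit 0) (nat_lit 11186280431) (nat_lit 0) (nat_lit 11186280431) (nat_lit 1140) (nat_lit 2062004805) (nat_lit 226) (nat_lit 5) (nat_lit 226) (nat_lit 3) (nat_lit 241) (nat_lit 3) (nat_lit 384) (nat_lit 384) (nat_lit 132)) (XT.lf (nat_lit 0) (nat_lit 45448193505) (nat_lit 1140) (nat_lit 3598668669) (nat_lit 1216) (nat_lit 554328758) (nat_lit 226) (nat_lit 5) (nat_lit 241) (nat_lit 3) (nat_lit 242) (nat_lit 5) (nat_lit 385) (nat_lit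 384) (nat_lit 131)))) (XT.nd (nat_lit 78) (nat_lit 0) (nat_lit 0) (XT.lf (nat_lit 76) (nat_lit 20157451080) (nat_lit 0) (nat_lit 26429154899) (nat_lit 1216) (nat_lit 3756179677) (nat_lit 227) (nat_lit 5) (nat_lit 226) (nat_lit 5) (nat_lit 242) (nat_lit 5) (nat_lit 386) (nat_lit 384) (nat_lit 130)) (XT.nd (nat_lit 78) (nat_lit 0) (nat_lit 76) (XT.lf (nat_lit 76) (nat_lit 44699475943) (nat_lit 0) (nat_lit 3095031342) (nat_lit 1216) (nat_lit 3311061623) (nat_lit 227) (nat_lit 5) (nat_lit 226) (nat_lit 5) (nat_lit 242) (nat_lit 5) (nat_lit 387) (nat_lit 384) (nat_lit 129)) (XT.lf (nat_lit 76) (nat_lit 18240620580) (nat_lit 0) (nat_lit 31173675069) (nat_lit 1216) (nat_lit 2465671264) (nat_lit 228) (nat_lit 5) (nat_lit 227) (nat_lit 5) (nat_lit 243) (nat_lit 5) (nat_lit 388) (nat_lit 384) (nat_lit 128))))) (XT.nd (nat_lit 234) (nat_lit 0) (nat_lit 76) (XT.nd (nat_lit 78) (nat_lit 1140) (nat_lit 0) (XT.lf (nat_lit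 76) (nat_lit 43726240031) (nat_lit 0) (nat_lit 7450523331) (nat_lit 1216) (nat_lit 1498011657) (nat_lit 228) (nat_lit 5) (nat_lit 227) (nat_lit 5) (nat_lit 243) (nat_lit 5) (nat_lit 389) (nat_lit 384) (nat_lit 127)) (XT.nd (nat_lit 78) (nat_lit 1216) (nat_lit 0) (XT.lf (nat_lit 76) (nat_lit 16643944347) (nat_lit 0) (nat_lit 36670500694) (nat_lit 1216) (nat_lit 169312842) (nat_lit 229) (nat_lit 5) (nat_lit 228) (nat_lit 5) (nat_lit 244) (nat_lit 5) (nat_lit 390) (nat_lit 384) (nat_lit 126)) (XT.lf (nat_lit 0) (nat_lit 1339966313) (nat_lit 1216) (nat_lit 11213444191) (nat_lit 1292) (nat_lit 41758330932) (nat_lit 212) (nat_lit 5) (nat_lit 228) (nat_lit 5) (nat_lit 229) (nat_lit 5) (nat_lit 391) (nat_lit 384) (nat_lit 125)))) (XT.nd (nat_lit 156) (nat_lit 0) (nat_lit 76) (XT.nd (nat_lit 78) (nat_lit 0) (nat_lit 0) (XT.lf (nat_lit 0) (nat_lit 3158666568) (nat_lit 1216) (nat_lit 39798112392) (nat_lit 1292) (nat_lit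 12199709524) (nat_lit 213) (nat_lit 5) (nat_lit 229) (nat_lit 5) (nat_lit 230) (nat_lit 5) (nat_lit 392) (nat_lit 384) (nat_lit 124)) (XT.lf (nat_lit 0) (nat_lit 5269719301) (nat_lit 1216) (nat_lit 13191973011) (nat_lit 1292) (nat_lit 37557752520) (nat_lit 213) (nat_lit 5) (nat_lit 229) (nat_lit 5) (nat_lit 230) (nat_lit 5) (nat_lit 393) (nat_lit 384) (nat_lit 123))) (XT.nd (nat_lit 78) (nat_lit 0) (nat_lit 0) (XT.lf (nat_lit 0) (nat_lit 7649047431) (nat_lit 1216) (nat_lit 42475963237) (nat_lit 1292) (nat_lit 6777131502) (nat_lit 214) (nat_lit 5) (nat_lit 230) (nat_lit 5) (nat_lit 231) (nat_lit 5) (nat_lit 394) (nat_lit 384) (nat_lit 122)) (XT.lf (nat_lit 0) (nat_lit 10416267645) (nat_lit 1216) (nat_lit 14848733636) (nat_lit 1292) (nat_lit 32536824376) (nat_lit 214) (nat_lit 5) (nat_lit 230) (nat_lit 5) (nat_lit 231) (nat_lit 5) (nat_lit 395) (nat_lit 384) (nat_lit 121))))))) (XT.nd (nat_lit 1014) (nat_lit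 1520) (nat_lit 0) (XT.nd (nat_lit 468) (nat_lit 2660) (nat_lit 0) (XT.nd (nat_lit 234) (nat_lit 0) (nat_lit 76) (XT.nd (nat_lit 78) (nat_lit 0) (nat_lit 0) (XT.lf (nat_lit 0) (nat_lit 13403717345) (nat_lit 1216) (nat_lit 44851589238) (nat_lit 1292) (nat_lit 469077257) (nat_lit 215) (nat_lit 5) (nat_lit 231) (nat_lit 5) (nat_lit 232) (nat_lit 5) (nat_lit 396) (nat_lit 384) (nat_lit 120)) (XT.nd (nat_lit 78) (nat_lit 0) (nat_lit 0) (XT.lf (nat_lit 0) (nat_lit 16881600678) (nat_lit 1216) (nat_lit 16162002264) (nat_lit 1292) (nat_lit 26618992086) (nat_lit 215) (nat_lit 5) (nat_lit 231) (nat_lit 5) (nat_lit 232) (nat_lit 5) (nat_lit 397) (nat_lit 384) (nat_lit 119)) (XT.lf (nat_lit 76) (nat_lit 13654129246) (nat_lit 0) (nat_lit 6940199354) (nat_lit 1292) (nat_lit 40030709253) (nat_lit 216) (nat_lit 5) (nat_lit 215) (nat_lit 5) (nat_lit 232) (nat_lit 5) (nat_lit 398) (nat_lit 384) (nat_lit 118)))) (XT.nd (nat_lit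 78) (nat_lit 0) (nat_lit 0) (XT.lf (nat_lit 0) (nat_lit 24774268658) (nat_lit 1216) (nat_lit 17109362288) (nat_lit 1292) (nat_lit 19722048637) (nat_lit 216) (nat_lit 5) (nat_lit 232) (nat_lit 5) (nat_lit 233) (nat_lit 5) (nat_lit 399) (nat_lit 384) (nat_lit 117)) (XT.nd (nat_lit 78) (nat_lit 0) (nat_lit 76) (XT.lf (nat_lit 76) (nat_lit 13848974107) (nat_lit 0) (nat_lit 15431767399) (nat_lit 1292) (nat_lit 33328965537) (nat_lit 217) (nat_lit 5) (nat_lit 216) (nat_lit 5) (nat_lit 233) (nat_lit 5) (nat_lit 400) (nat_lit 384) (nat_lit 116)) (XT.lf (nat_lit 0) (nat_lit 34209761176) (nat_lit 1216) (nat_lit 17667758472) (nat_lit 76) (nat_lit 11757715600) (nat_lit 217) (nat_lit 5) (nat_lit 233) (nat_lit 5) (nat_lit 218) (nat_lit 5) (nat_lit 401) (nat_lit 384) (nat_lit 115))))) (XT.nd (nat_lit 234) (nat_lit 1216) (nat_lit 0) (XT.nd (nat_lit 78) (nat_lit 608) (nat_lit 0) (XT.lf (nat_lit 0) (nat_lit 14487331617)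 (nat_lit 988) (nat_lit 25090701724) (nat_lit 1064) (nat_lit 25104754983) (nat_lit 204) (nat_lit 5) (nat_lit 217) (nat_lit 5) (nat_lit 218) (nat_lit 5) (nat_lit 402) (nat_lit 384) (nat_lit 114)) (XT.nd (nat_lit 78) (nat_lit 608) (nat_lit 0) (XT.lf (nat_lit 0) (nat_lit 45310904373) (nat_lit 1064) (nat_lit 17813563833) (nat_lit 76) (nat_lit 2631193737) (nat_lit 204) (nat_lit 5) (nat_lit 218) (nat_lit 5) (nat_lit 205) (nat_lit 5) (nat_lit 403) (nat_lit 384) (nat_lit 113)) (XT.lf (nat_lit 0) (nat_lit 15595098027) (nat_lit 608) (nat_lit 36018360681) (nat_lit 684) (nat_lit 15235332605) (nat_lit 196) (nat_lit 5) (nat_lit 204) (nat_lit 5) (nat_lit 205) (nat_lit 5) (nat_lit 404) (nat_lit 384) (nat_lit 112)))) (XT.nd (nat_lit 156) (nat_lit 684) (nat_lit 0) (XT.nd (nat_lit 78) (nat_lit 532) (nat_lit 0) (XT.lf (nat_lit 0) (nat_lit 50370604495) (nat_lit 608) (nat_lit 7913744971) (nat_lit 684) (nat_lit 9684987747) (nat_lit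 196) (nat_lit 5) (nat_lit 204) (nat_lit 5) (nat_lit 205) (nat_lit 5) (nat_lit 405) (nat_lit 384) (nat_lit 111)) (XT.lf (nat_lit 0) (nat_lit 17198715734) (nat_lit 532) (nat_lit 48323563840) (nat_lit 608) (nat_lit 3590212968) (nat_lit 189) (nat_lit 5) (nat_lit 196) (nat_lit 5) (nat_lit 197) (nat_lit 5) (nat_lit 406) (nat_lit 384) (nat_lit 110))) (XT.nd (nat_lit 78) (nat_lit 608) (nat_lit 0) (XT.lf (nat_lit 0) (nat_lit 2892192336) (nat_lit 608) (nat_lit 16990297863) (nat_lit 76) (nat_lit 50398960901) (nat_lit 188) (nat_lit 5) (nat_lit 196) (nat_lit 5) (nat_lit 189) (nat_lit 5) (nat_lit 407) (nat_lit 384) (nat_lit 109)) (XT.lf (nat_lit 0) (nat_lit 9774725779) (nat_lit 684) (nat_lit 52249711763) (nat_lit 76) (nat_lit 9451640396) (nat_lit 180) (nat_lit 5) (nat_lit 189) (nat_lit 5) (nat_lit 181) (nat_lit 5) (nat_lit 408) (nat_lit 384) (nat_lit 108)))))) (XT.nd (nat_lit 45084) (nat_lit 0) (nat_lit 3952) (XT.nd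 (nat_lit 234) (nat_lit 988) (nat_lit 0) (XT.nd (nat_lit 78) (nat_lit 532) (nat_lit 0) (XT.lf (nat_lit 0) (nat_lit 17233290043) (nat_lit 684) (nat_lit 16022716594) (nat_lit 76) (nat_lit 39439450683) (nat_lit 180) (nat_lit 5) (nat_lit 189) (nat_lit 5) (nat_lit 181) (nat_lit 5) (nat_lit 409) (nat_lit 384) (nat_lit 107)) (XT.nd (nat_lit 78) (nat_lit 0) (nat_lit 0) (XT.lf (nat_lit 0) (nat_lit 21714248899) (nat_lit 532) (nat_lit 3409540634) (nat_lit 608) (nat_lit 48821383572) (nat_lit 173) (nat_lit 5) (nat_lit 180) (nat_lit 5) (nat_lit 181) (nat_lit 5) (nat_lit 410) (nat_lit 384) (nat_lit 106)) (XT.lf (nat_lit 0) (nat_lit 33676597199) (nat_lit 608) (nat_lit 14580663699) (nat_lit 76) (nat_lit 26962352031) (nat_lit 173) (nat_lit 5) (nat_lit 181) (nat_lit 5) (nat_lit 174) (nat_lit 5) (nat_lit 411) (nat_lit 384) (nat_lit 105)))) (XT.nd (nat_lit 156) (nat_lit 456) (nat_lit 0) (XT.nd (nat_lit 78) (nat_lit 0) (nat_lit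 0) (XT.lf (nat_lit 0) (nat_lit 24645716524) (nat_lit 532) (nat_lit 18110414119) (nat_lit 608) (nat_lit 33768051409) (nat_lit 166) (nat_lit 5) (nat_lit 173) (nat_lit 5) (nat_lit 174) (nat_lit 5) (nat_lit 412) (nat_lit 384) (nat_lit 104)) (XT.lf (nat_lit 0) (nat_lit 52380622932) (nat_lit 608) (nat_lit 12642113722) (nat_lit 76) (nat_lit 12836974748) (nat_lit 166) (nat_lit 5) (nat_lit 174) (nat_lit 5) (nat_lit 167) (nat_lit 5) (nat_lit 413) (nat_lit 384) (nat_lit 103))) (XT.nd (nat_lit 44616) (nat_lit 0) (nat_lit 5016) (XT.lf (nat_lit 0) (nat_lit 28140591430) (nat_lit 456) (nat_lit 34602572900) (nat_lit 532) (nat_lit 16478663203) (nat_lit 160) (nat_lit 5) (nat_lit 166) (nat_lit 5) (nat_lit 167) (nat_lit 5) (nat_lit 414) (nat_lit 384) (nat_lit 102)) (XT.lf (nat_lit 0) (nat_lit 11534971846) (nat_lit 0) (nat_lit 11534971846) (nat_lit 1140) (nat_lit 2096852435) (nat_lit 226) (nat_lit 5) (nat_lit 226) (nat_lit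 3) (nat_lit 241) (nat_lit 3) (nat_lit 385) (nat_lit 385) (nat_lit 130))))) (XT.nd (nat_lit 234) (nat_lit 1064) (nat_lit 0) (XT.nd (nat_lit 78) (nat_lit 0) (nat_lit 0) (XT.lf (nat_lit 0) (nat_lit 46862280182) (nat_lit 1140) (nat_lit 3679375395) (nat_lit 1216) (nat_lit 546012378) (nat_lit 226) (nat_lit 5) (nat_lit 241) (nat_lit 3) (nat_lit 242) (nat_lit 5) (nat_lit 386) (nat_lit 385) (nat_lit 129)) (XT.nd (nat_lit 78) (nat_lit 0) (nat_lit 0) (XT.lf (nat_lit 76) (nat_lit 20789160756) (nat_lit 0) (nat_lit 27244468705) (nat_lit 1216) (nat_lit 3817918678) (nat_lit 227) (nat_lit 5) (nat_lit 226) (nat_lit 5) (nat_lit 242) (nat_lit 5) (nat_lit 387) (nat_lit 385) (nat_lit 128)) (XT.lf (nat_lit 76) (nat_lit 46066660361) (nat_lit 0) (nat_lit 3209667874) (nat_lit 1216) (nat_lit 3360930958) (nat_lit 227) (nat_lit 5) (nat_lit 226) (nat_lit 5) (nat_lit 242) (nat_lit 5) (nat_lit 388) (nat_lit 385) (nat_lit 127)))) (XT.nd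 (nat_lit 156) (nat_lit 1140) (nat_lit 0) (XT.nd (nat_lit 78) (nat_lit 0) (nat_lit 0) (XT.lf (nat_lit 76) (nat_lit 18815452141) (nat_lit 0) (nat_lit 32127922581) (nat_lit 1216) (nat_lit 2491555565) (nat_lit 228) (nat_lit 5) (nat_lit 227) (nat_lit 5) (nat_lit 243) (nat_lit 5) (nat_lit 389) (nat_lit 385) (nat_lit 126)) (XT.lf (nat_lit 76) (nat_lit 45064835915) (nat_lit 0) (nat_lit 7692521808) (nat_lit 1216) (nat_lit 1496266728) (nat_lit 228) (nat_lit 5) (nat_lit 227) (nat_lit 5) (nat_lit 243) (nat_lit 5) (nat_lit 390) (nat_lit 385) (nat_lit 125))) (XT.nd (nat_lit 78) (nat_lit 1216) (nat_lit 0) (XT.lf (nat_lit 76) (nat_lit 17171364610) (nat_lit 0) (nat_lit 37786583714) (nat_lit 1216) (nat_lit 128966144) (nat_lit 229) (nat_lit 5) (nat_lit 228) (nat_lit 5) (nat_lit 244) (nat_lit 5) (nat_lit 391) (nat_lit 385) (nat_lit 124)) (XT.lf (nat_lit 0) (nat_lit 1423407687) (nat_lit 1216) (nat_lit 11521671380) (nat_lit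 1292) (nat_lit 42994685242) (nat_lit 212) (nat_lit 5) (nat_lit 228) (nat_lit 5) (nat_lit 229) (nat_lit 5) (nat_lit 392) (nat_lit 385) (nat_lit 123))))))))
noncomputable def xc251 : XT := (XT.nd (nat_lit 46644) (nat_lit 0) (nat_lit 532) (XT.nd (nat_lit 1014) (nat_lit 2280) (nat_lit 0) (XT.nd (nat_lit 468) (nat_lit 1292) (nat_lit 0) (XT.nd (nat_lit 234) (nat_lit 0) (nat_lit 76) (XT.nd (nat_lit 78) (nat_lit 0) (nat_lit 0) (XT.lf (nat_lit 0) (nat_lit 3295539701) (nat_lit 1216) (nat_lit 40962719215) (nat_lit 1292) (nat_lit 12551629665) (nat_lit 213) (nat_lit 5) (nat_lit 229) (nat_lit 5) (nat_lit 230) (nat_lit 5) (nat_lit 393) (nat_lit 385) (nat_lit 122)) (XT.nd (nat_lit 78) (nat_lit 0) (nat_lit 76) (XT.lf (nat_lit 0) (nat_lit 5468697420) (nat_lit 1216) (nat_lit 13559250115) (nat_lit 1292) (nat_lit 38670823789) (nat_lit 213) (nat_lit 5) (nat_lit 229) (nat_lit 5) (nat_lit 230) (nat_lit 5) (nat_lit 394) (nat_lit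 385) (nat_lit 121)) (XT.lf (nat_lit 0) (nat_lit 7918372545) (nat_lit 1216) (nat_lit 43720697824) (nat_lit 1292) (nat_lit 6968911081) (nat_lit 214) (nat_lit 5) (nat_lit 230) (nat_lit 5) (nat_lit 231) (nat_lit 5) (nat_lit 395) (nat_lit 385) (nat_lit 120)))) (XT.nd (nat_lit 78) (nat_lit 0) (nat_lit 76) (XT.lf (nat_lit 0) (nat_lit 10767448578) (nat_lit 1216) (nat_lit 15265511848) (nat_lit 1292) (nat_lit 33501730694) (nat_lit 214) (nat_lit 5) (nat_lit 230) (nat_lit 5) (nat_lit 231) (nat_lit 5) (nat_lit 396) (nat_lit 385) (nat_lit 119)) (XT.nd (nat_lit 78) (nat_lit 0) (nat_lit 0) (XT.lf (nat_lit 0) (nat_lit 13843577106) (nat_lit 1216) (nat_lit 46167480768) (nat_lit 1292) (nat_lit 473897346) (nat_lit 215) (nat_lit 5) (nat_lit 231) (nat_lit 5) (nat_lit 232) (nat_lit 5) (nat_lit 397) (nat_lit 385) (nat_lit 118)) (XT.lf (nat_lit 0) (nat_lit 17424697476) (nat_lit 1216) (nat_lit 16618069955) (nat_lit 1292) (nat_lit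 27408579102) (nat_lit 215) (nat_lit 5) (nat_lit 231) (nat_lit 5) (nat_lit 232) (nat_lit 5) (nat_lit 398) (nat_lit 385) (nat_lit 117))))) (XT.nd (nat_lit 234) (nat_lit 1444) (nat_lit 0) (XT.nd (nat_lit 78) (nat_lit 0) (nat_lit 76) (XT.lf (nat_lit 76) (nat_lit 14092263222) (nat_lit 0) (nat_lit 7155750630) (nat_lit 1292) (nat_lit 41194673376) (nat_lit 216) (nat_lit 5) (nat_lit 215) (nat_lit 5) (nat_lit 232) (nat_lit 5) (nat_lit 399) (nat_lit 385) (nat_lit 116)) (XT.nd (nat_lit 78) (nat_lit 0) (nat_lit 0) (XT.lf (nat_lit 0) (nat_lit 25552239229) (nat_lit 1216) (nat_lit 17593825228) (nat_lit 1292) (nat_lit 20306717900) (nat_lit 216) (nat_lit 5) (nat_lit 232) (nat_lit 5) (nat_lit 233) (nat_lit 5) (nat_lit 400) (nat_lit 385) (nat_lit 115)) (XT.lf (nat_lit 76) (nat_lit 14292978731) (nat_lit 0) (nat_lit 15900189914) (nat_lit 1292) (nat_lit 34293784863) (nat_lit 217) (nat_lit 5) (nat_lit 216) (nat_lit 5) (nat_lit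 233) (nat_lit 5) (nat_lit 401) (nat_lit 385) (nat_lit 114)))) (XT.nd (nat_lit 156) (nat_lit 608) (nat_lit 0) (XT.nd (nat_lit 78) (nat_lit 988) (nat_lit 0) (XT.lf (nat_lit 0) (nat_lit 35269017425) (nat_lit 1216) (nat_lit 18169021591) (nat_lit 76) (nat_lit 12105240501) (nat_lit 217) (nat_lit 5) (nat_lit 233) (nat_lit 5) (nat_lit 218) (nat_lit 5) (nat_lit 402) (nat_lit 385) (nat_lit 113)) (XT.lf (nat_lit 0) (nat_lit 14950439146) (nat_lit 988) (nat_lit 25847212351) (nat_lit 1064) (nat_lit 25824628974) (nat_lit 204) (nat_lit 5) (nat_lit 217) (nat_lit 5) (nat_lit 218) (nat_lit 5) (nat_lit 403) (nat_lit 385) (nat_lit 112))) (XT.nd (nat_lit 78) (nat_lit 608) (nat_lit 0) (XT.lf (nat_lit 0) (nat_lit 46701533181) (nat_lit 1064) (nat_lit 18319314912) (nat_lit 76) (nat_lit 2706522144) (nat_lit 204) (nat_lit 5) (nat_lit 218) (nat_lit 5) (nat_lit 205) (nat_lit 5) (nat_lit 404) (nat_lit 385) (nat_lit 111)) (XT.lf (nat_lit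 0) (nat_lit 16091325864) (nat_lit 608) (nat_lit 37101199339) (nat_lit 684) (nat_lit 15660788109) (nat_lit 196) (nat_lit 5) (nat_lit 204) (nat_lit 5) (nat_lit 205) (nat_lit 5) (nat_lit 405) (nat_lit 385) (nat_lit 110)))))) (XT.nd (nat_lit 468) (nat_lit 532) (nat_lit 0) (XT.nd (nat_lit 234) (nat_lit 1140) (nat_lit 0) (XT.nd (nat_lit 78) (nat_lit 608) (nat_lit 0) (XT.lf (nat_lit 0) (nat_lit 51909271072) (nat_lit 608) (nat_lit 8153378523) (nat_lit 684) (nat_lit 9944853424) (nat_lit 196) (nat_lit 5) (nat_lit 204) (nat_lit 5) (nat_lit 205) (nat_lit 5) (nat_lit 406) (nat_lit 385) (nat_lit 109)) (XT.nd (nat_lit 78) (nat_lit 76) (nat_lit 0) (XT.lf (nat_lit 0) (nat_lit 17742882055) (nat_lit 532) (nat_lit 49774218867) (nat_lit 608) (nat_lit 3667871205) (nat_lit 189) (nat_lit 5) (nat_lit 196) (nat_lit 5) (nat_lit 197) (nat_lit 5) (nat_lit 407) (nat_lit 385) (nat_lit 108)) (XT.lf (nat_lit 0) (nat_lit 3007561800) (nat_lit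 608) (nat_lit 17472034761) (nat_lit 76) (nat_lit 51909420541) (nat_lit 188) (nat_lit 5) (nat_lit 196) (nat_lit 5) (nat_lit 189) (nat_lit 5) (nat_lit 408) (nat_lit 385) (nat_lit 107)))) (XT.nd (nat_lit 78) (nat_lit 532) (nat_lit 0) (XT.lf (nat_lit 0) (nat_lit 10096001118) (nat_lit 684) (nat_lit 53788642095) (nat_lit 76) (nat_lit 9734857201) (nat_lit 180) (nat_lit 5) (nat_lit 189) (nat_lit 5) (nat_lit 181) (nat_lit 5) (nat_lit 409) (nat_lit 385) (nat_lit 106)) (XT.nd (nat_lit 78) (nat_lit 532) (nat_lit 0) (XT.lf (nat_lit 0) (nat_lit 17777505798) (nat_lit 684) (nat_lit 16475668945) (nat_lit 76) (nat_lit 40622311478) (nat_lit 180) (nat_lit 5) (nat_lit 189) (nat_lit 5) (nat_lit 181) (nat_lit 5) (nat_lit 410) (nat_lit 385) (nat_lit 105)) (XT.lf (nat_lit 0) (nat_lit 22393133658) (nat_lit 532) (nat_lit 3511057822) (nat_lit 608) (nat_lit 50258518399) (nat_lit 173) (nat_lit 5) (nat_lit 180) (nat_lit 5) (nat_lit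 181) (nat_lit 5) (nat_lit 411) (nat_lit 385) (nat_lit 104))))) (XT.nd (nat_lit 44850) (nat_lit 0) (nat_lit 4560) (XT.nd (nat_lit 78) (nat_lit 532) (nat_lit 0) (XT.lf (nat_lit 0) (nat_lit 34712813225) (nat_lit 608) (nat_lit 14990638639) (nat_lit 76) (nat_lit 27771954654) (nat_lit 173) (nat_lit 5) (nat_lit 181) (nat_lit 5) (nat_lit 174) (nat_lit 5) (nat_lit 412) (nat_lit 385) (nat_lit 103)) (XT.nd (nat_lit 78) (nat_lit 0) (nat_lit 0) (XT.lf (nat_lit 0) (nat_lit 25412263922) (nat_lit 532) (nat_lit 18651975085) (nat_lit 608) (nat_lit 34754889020) (nat_lit 166) (nat_lit 5) (nat_lit 173) (nat_lit 5) (nat_lit 174) (nat_lit 5) (nat_lit 413) (nat_lit 385) (nat_lit 102)) (XT.lf (nat_lit 0) (nat_lit 53976741893) (nat_lit 608) (nat_lit 12994252326) (nat_lit 76) (nat_lit 13223751253) (nat_lit 166) (nat_lit 5) (nat_lit 174) (nat_lit 5) (nat_lit 167) (nat_lit 5) (nat_lit 414) (nat_lit 385) (nat_lit 101)))) (XT.nd (nat_lit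 156) (nat_lit 0) (nat_lit 0) (XT.nd (nat_lit 78) (nat_lit 0) (nat_lit 0) (XT.lf (nat_lit 0) (nat_lit 11893371837) (nat_lit 0) (nat_lit 11893371837) (nat_lit 1140) (nat_lit 2134296123) (nat_lit 226) (nat_lit 5) (nat_lit 226) (nat_lit 3) (nat_lit 241) (nat_lit 3) (nat_lit 386) (nat_lit 386) (nat_lit 128)) (XT.lf (nat_lit 0) (nat_lit 48315882467) (nat_lit 1140) (nat_lit 3764067777) (nat_lit 1216) (nat_lit 538878523) (nat_lit 226) (nat_lit 5) (nat_lit 241) (nat_lit 3) (nat_lit 242) (nat_lit 5) (nat_lit 387) (nat_lit 386) (nat_lit 127))) (XT.nd (nat_lit 78) (nat_lit 0) (nat_lit 0) (XT.lf (nat_lit 76) (nat_lit 21438272608) (nat_lit 0) (nat_lit 28082953826) (nat_lit 1216) (nat_lit 3884434380) (nat_lit 227) (nat_lit 5) (nat_lit 226) (nat_lit 5) (nat_lit 242) (nat_lit 5) (nat_lit 388) (nat_lit 386) (nat_lit 126)) (XT.lf (nat_lit 76) (nat_lit 47473356316) (nat_lit 0) (nat_lit 3326492919) (nat_lit 1216) (nat_lit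 3415135724) (nat_lit 227) (nat_lit 5) (nat_lit 226) (nat_lit 5) (nat_lit 242) (nat_lit 5) (nat_lit 389) (nat_lit 386) (nat_lit 125))))))) (XT.nd (nat_lit 1014) (nat_lit 2964) (nat_lit 0) (XT.nd (nat_lit 468) (nat_lit 0) (nat_lit 152) (XT.nd (nat_lit 234) (nat_lit 1140) (nat_lit 0) (XT.nd (nat_lit 78) (nat_lit 0) (nat_lit 0) (XT.lf (nat_lit 76) (nat_lit 19405943553) (nat_lit 0) (nat_lit 33109704702) (nat_lit 1216) (nat_lit 2520976719) (nat_lit 228) (nat_lit 5) (nat_lit 227) (nat_lit 5) (nat_lit 243) (nat_lit 5) (nat_lit 390) (nat_lit 386) (nat_lit 124)) (XT.nd (nat_lit 78) (nat_lit 0) (nat_lit 76) (XT.lf (nat_lit 76) (nat_lit 46442050748) (nat_lit 0) (nat_lit 7940719252) (nat_lit 1216) (nat_lit 1497149377) (nat_lit 228) (nat_lit 5) (nat_lit 227) (nat_lit 5) (nat_lit 243) (nat_lit 5) (nat_lit 391) (nat_lit 386) (nat_lit 123)) (XT.lf (nat_lit 76) (nat_lit 17712994315) (nat_lit 0) (nat_lit 38935232595) (nat_lit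 1216) (nat_lit 90016689) (nat_lit 229) (nat_lit 5) (nat_lit 228) (nat_lit 5) (nat_lit 244) (nat_lit 5) (nat_lit 392) (nat_lit 386) (nat_lit 122)))) (XT.nd (nat_lit 78) (nat_lit 0) (nat_lit 76) (XT.lf (nat_lit 0) (nat_lit 1506870012) (nat_lit 1216) (nat_lit 11840762811) (nat_lit 1292) (nat_lit 44269071357) (nat_lit 212) (nat_lit 5) (nat_lit 228) (nat_lit 5) (nat_lit 229) (nat_lit 5) (nat_lit 393) (nat_lit 386) (nat_lit 121)) (XT.nd (nat_lit 78) (nat_lit 0) (nat_lit 0) (XT.lf (nat_lit 0) (nat_lit 3434101562) (nat_lit 1216) (nat_lit 42163948281) (nat_lit 1292) (nat_lit 12914915151) (nat_lit 213) (nat_lit 5) (nat_lit 229) (nat_lit 5) (nat_lit 230) (nat_lit 5) (nat_lit 394) (nat_lit 386) (nat_lit 120)) (XT.lf (nat_lit 0) (nat_lit 5671297828) (nat_lit 1216) (nat_lit 13939180520) (nat_lit 1292) (nat_lit 39818071412) (nat_lit 213) (nat_lit 5) (nat_lit 229) (nat_lit 5) (nat_lit 230) (nat_lit 5) (nat_lit 395) (nat_lit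 386) (nat_lit 119))))) (XT.nd (nat_lit 234) (nat_lit 0) (nat_lit 76) (XT.nd (nat_lit 78) (nat_lit 0) (nat_lit 0) (XT.lf (nat_lit 0) (nat_lit 8193489647) (nat_lit 1216) (nat_lit 45004470413) (nat_lit 1292) (nat_lit 7167106167) (nat_lit 214) (nat_lit 5) (nat_lit 230) (nat_lit 5) (nat_lit 231) (nat_lit 5) (nat_lit 396) (nat_lit 386) (nat_lit 118)) (XT.nd (nat_lit 78) (nat_lit 0) (nat_lit 76) (XT.lf (nat_lit 0) (nat_lit 11126943808) (nat_lit 1216) (nat_lit 15696439975) (nat_lit 1292) (nat_lit 34496227036) (nat_lit 214) (nat_lit 5) (nat_lit 230) (nat_lit 5) (nat_lit 231) (nat_lit 5) (nat_lit 397) (nat_lit 386) (nat_lit 117)) (XT.lf (nat_lit 0) (nat_lit 14294465757) (nat_lit 1216) (nat_lit 47524551427) (nat_lit 1292) (nat_lit 479393153) (nat_lit 215) (nat_lit 5) (nat_lit 231) (nat_lit 5) (nat_lit 232) (nat_lit 5) (nat_lit 398) (nat_lit 386) (nat_lit 116)))) (XT.nd (nat_lit 156) (nat_lit 0) (nat_lit 76) (XT.nd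 (nat_lit 78) (nat_lit 0) (nat_lit 0) (XT.lf (nat_lit 0) (nat_lit 17981983388) (nat_lit 1216) (nat_lit 17089472478) (nat_lit 1292) (nat_lit 28222369375) (nat_lit 215) (nat_lit 5) (nat_lit 231) (nat_lit 5) (nat_lit 232) (nat_lit 5) (nat_lit 399) (nat_lit 386) (nat_lit 115)) (XT.lf (nat_lit 76) (nat_lit 14541904620) (nat_lit 0) (nat_lit 7377346795) (nat_lit 1292) (nat_lit 42395677914) (nat_lit 216) (nat_lit 5) (nat_lit 215) (nat_lit 5) (nat_lit 232) (nat_lit 5) (nat_lit 400) (nat_lit 386) (nat_lit 114))) (XT.nd (nat_lit 78) (nat_lit 0) (nat_lit 0) (XT.lf (nat_lit 0) (nat_lit 26351554555) (nat_lit 1216) (nat_lit 18094476323) (nat_lit 1292) (nat_lit 20909328621) (nat_lit 216) (nat_lit 5) (nat_lit 232) (nat_lit 5) (nat_lit 233) (nat_lit 5) (nat_lit 401) (nat_lit 386) (nat_lit 113)) (XT.lf (nat_lit 76) (nat_lit 14748665444) (nat_lit 0) (nat_lit 16382351133) (nat_lit 1292) (nat_lit 35289560761) (nat_lit 217) (nat_lit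 5) (nat_lit 216) (nat_lit 5) (nat_lit 233) (nat_lit 5) (nat_lit 402) (nat_lit 386) (nat_lit 112)))))) (XT.nd (nat_lit 546) (nat_lit 1140) (nat_lit 0) (XT.nd (nat_lit 234) (nat_lit 1216) (nat_lit 0) (XT.nd (nat_lit 78) (nat_lit 988) (nat_lit 0) (XT.lf (nat_lit 0) (nat_lit 36358159128) (nat_lit 1216) (nat_lit 18686974099) (nat_lit 76) (nat_lit 12463490028) (nat_lit 217) (nat_lit 5) (nat_lit 233) (nat_lit 5) (nat_lit 218) (nat_lit 5) (nat_lit 403) (nat_lit 386) (nat_lit 111)) (XT.nd (nat_lit 78) (nat_lit 0) (nat_lit 0) (XT.lf (nat_lit 0) (nat_lit 15425804596) (nat_lit 988) (nat_lit 26626200760) (nat_lit 1064) (nat_lit 26568008942) (nat_lit 204) (nat_lit 5) (nat_lit 217) (nat_lit 5) (nat_lit 218) (nat_lit 5) (nat_lit 404) (nat_lit 386) (nat_lit 110)) (XT.lf (nat_lit 0) (nat_lit 48132084009) (nat_lit 1064) (nat_lit 18841883486) (nat_lit 76) (nat_lit 2784317484) (nat_lit 204) (nat_lit 5) (nat_lit 218) (nat_lit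 5) (nat_lit 205) (nat_lit 5) (nat_lit 405) (nat_lit 386) (nat_lit 109)))) (XT.nd (nat_lit 156) (nat_lit 608) (nat_lit 0) (XT.nd (nat_lit 78) (nat_lit 0) (nat_lit 0) (XT.lf (nat_lit 0) (nat_lit 16600811700) (nat_lit 608) (nat_lit 38216391827) (nat_lit 684) (nat_lit 16100821505) (nat_lit 196) (nat_lit 5) (nat_lit 204) (nat_lit 5) (nat_lit 205) (nat_lit 5) (nat_lit 406) (nat_lit 386) (nat_lit 108)) (XT.lf (nat_lit 0) (nat_lit 53492516254) (nat_lit 608) (nat_lit 8400073575) (nat_lit 684) (nat_lit 10214276456) (nat_lit 196) (nat_lit 5) (nat_lit 204) (nat_lit 5) (nat_lit 205) (nat_lit 5) (nat_lit 407) (nat_lit 386) (nat_lit 107))) (XT.nd (nat_lit 78) (nat_lit 76) (nat_lit 0) (XT.lf (nat_lit 0) (nat_lit 18301754291) (nat_lit 532) (nat_lit 51268339120) (nat_lit 608) (nat_lit 3749584075) (nat_lit 189) (nat_lit 5) (nat_lit 196) (nat_lit 5) (nat_lit 197) (nat_lit 5) (nat_lit 408) (nat_lit 386) (nat_lit 106)) (XT.lf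 (nat_lit 0) (nat_lit 3124750379) (nat_lit 608) (nat_lit 17969829475) (nat_lit 76) (nat_lit 53465280604) (nat_lit 188) (nat_lit 5) (nat_lit 196) (nat_lit 5) (nat_lit 189) (nat_lit 5) (nat_lit 409) (nat_lit 386) (nat_lit 105))))) (XT.nd (nat_lit 234) (nat_lit 0) (nat_lit 0) (XT.nd (nat_lit 78) (nat_lit 532) (nat_lit 0) (XT.lf (nat_lit 0) (nat_lit 10425305477) (nat_lit 684) (nat_lit 55375379857) (nat_lit 76) (nat_lit 10026589592) (nat_lit 180) (nat_lit 5) (nat_lit 189) (nat_lit 5) (nat_lit 181) (nat_lit 5) (nat_lit 410) (nat_lit 386) (nat_lit 104)) (XT.nd (nat_lit 78) (nat_lit 532) (nat_lit 0) (XT.lf (nat_lit 0) (nat_lit 18336485656) (nat_lit 684) (nat_lit 16943801634) (nat_lit 76) (nat_lit 41840676623) (nat_lit 180) (nat_lit 5) (nat_lit 189) (nat_lit 5) (nat_lit 181) (nat_lit 5) (nat_lit 411) (nat_lit 386) (nat_lit 103)) (XT.lf (nat_lit 0) (nat_lit 23090808799) (nat_lit 532) (nat_lit 3615664671) (nat_lit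 608) (nat_lit 51740346266) (nat_lit 173) (nat_lit 5) (nat_lit 180) (nat_lit 5) (nat_lit 181) (nat_lit 5) (nat_lit 412) (nat_lit 386) (nat_lit 102)))) (XT.nd (nat_lit 44928) (nat_lit 0) (nat_lit 4028) (XT.nd (nat_lit 44850) (nat_lit 0) (nat_lit 4028) (XT.lf (nat_lit 0) (nat_lit 35778627926) (nat_lit 608) (nat_lit 15414488282) (nat_lit 76) (nat_lit 28605803333) (nat_lit 173) (nat_lit 5) (nat_lit 181) (nat_lit 5) (nat_lit 174) (nat_lit 5) (nat_lit 413) (nat_lit 386) (nat_lit 101)) (XT.lf (nat_lit 0) (nat_lit 12261814839) (nat_lit 0) (nat_lit 12261814839) (nat_lit 1140) (nat_lit 2174324738) (nat_lit 226) (nat_lit 5) (nat_lit 226) (nat_lit 3) (nat_lit 241) (nat_lit 3) (nat_lit 387) (nat_lit 387) (nat_lit 126))) (XT.nd (nat_lit 78) (nat_lit 0) (nat_lit 0) (XT.lf (nat_lit 0) (nat_lit 49810352700) (nat_lit 1140) (nat_lit 3852775577) (nat_lit 1216) (nat_lit 532880465) (nat_lit 226) (nat_lit 5) (nat_lit 241) (nat_lit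 3) (nat_lit 242) (nat_lit 5) (nat_lit 388) (nat_lit 387) (nat_lit 125)) (XT.lf (nat_lit 76) (nat_lit 22105397625) (nat_lit 0) (nat_lit 28945379343) (nat_lit 1216) (nat_lit 3955702205) (nat_lit 227) (nat_lit 5) (nat_lit 226) (nat_lit 5) (nat_lit 242) (nat_lit 5) (nat_lit 389) (nat_lit 387) (nat_lit 124))))))))
noncomputable def xc252 : XT := (XT.nd (nat_lit 46956) (nat_lit 0) (nat_lit 0) (XT.nd (nat_lit 1014) (nat_lit 2432) (nat_lit 0) (XT.nd (nat_lit 468) (nat_lit 0) (nat_lit 76) (XT.nd (nat_lit 234) (nat_lit 1064) (nat_lit 0) (XT.nd (nat_lit 78) (nat_lit 0) (nat_lit 76) (XT.lf (nat_lit 76) (nat_lit 48920835490) (nat_lit 0) (nat_lit 3445643923) (nat_lit 1216) (nat_lit 3473642993) (nat_lit 227) (nat_lit 5) (nat_lit 226) (nat_lit 5) (nat_lit 242) (nat_lit 5) (nat_lit 390) (nat_lit 387) (nat_lit 123)) (XT.nd (nat_lit 78) (nat_lit 0) (nat_lit 0) (XT.lf (nat_lit 76) (nat_lit 20012655602) (nat_lit 0) (nat_lit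 34119910202) (nat_lit 1216) (nat_lit 2553882377) (nat_lit 228) (nat_lit 5) (nat_lit 227) (nat_lit 5) (nat_lit 243) (nat_lit 5) (nat_lit 391) (nat_lit 387) (nat_lit 122)) (XT.lf (nat_lit 76) (nat_lit 47859131438) (nat_lit 0) (nat_lit 8195362537) (nat_lit 1216) (nat_lit 1500584593) (nat_lit 228) (nat_lit 5) (nat_lit 227) (nat_lit 5) (nat_lit 243) (nat_lit 5) (nat_lit 392) (nat_lit 387) (nat_lit 121)))) (XT.nd (nat_lit 78) (nat_lit 1216) (nat_lit 0) (XT.lf (nat_lit 76) (nat_lit 18269352348) (nat_lit 0) (nat_lit 40117476933) (nat_lit 1216) (nat_lit 52356704) (nat_lit 229) (nat_lit 5) (nat_lit 228) (nat_lit 5) (nat_lit 244) (nat_lit 5) (nat_lit 393) (nat_lit 387) (nat_lit 120)) (XT.nd (nat_lit 78) (nat_lit 0) (nat_lit 76) (XT.lf (nat_lit 0) (nat_lit 1590496411) (nat_lit 1216) (nat_lit 12170951562) (nat_lit 1292) (nat_lit 45582576203) (nat_lit 212) (nat_lit 5) (nat_lit 228) (nat_lit 5) (nat_lit 229) (nat_lit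 5) (nat_lit 394) (nat_lit 387) (nat_lit 119)) (XT.lf (nat_lit 0) (nat_lit 3574541584) (nat_lit 1216) (nat_lit 43402801586) (nat_lit 1292) (nat_lit 13289860575) (nat_lit 213) (nat_lit 5) (nat_lit 229) (nat_lit 5) (nat_lit 230) (nat_lit 5) (nat_lit 395) (nat_lit 387) (nat_lit 118))))) (XT.nd (nat_lit 234) (nat_lit 0) (nat_lit 152) (XT.nd (nat_lit 78) (nat_lit 0) (nat_lit 76) (XT.lf (nat_lit 0) (nat_lit 5877763924) (nat_lit 1216) (nat_lit 14332049971) (nat_lit 1292) (nat_lit 41000475661) (nat_lit 213) (nat_lit 5) (nat_lit 229) (nat_lit 5) (nat_lit 230) (nat_lit 5) (nat_lit 396) (nat_lit 387) (nat_lit 117)) (XT.nd (nat_lit 78) (nat_lit 0) (nat_lit 0) (XT.lf (nat_lit 0) (nat_lit 8474703824) (nat_lit 1216) (nat_lit 46328354789) (nat_lit 1292) (nat_lit 7371871217) (nat_lit 214) (nat_lit 5) (nat_lit 230) (nat_lit 5) (nat_lit 231) (nat_lit 5) (nat_lit 397) (nat_lit 387) (nat_lit 116)) (XT.lf (nat_lit 0) (nat_lit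 11495130266) (nat_lit 1216) (nat_lit 16141847993) (nat_lit 1292) (nat_lit 35521164201) (nat_lit 214) (nat_lit 5) (nat_lit 230) (nat_lit 5) (nat_lit 231) (nat_lit 5) (nat_lit 398) (nat_lit 387) (nat_lit 115)))) (XT.nd (nat_lit 156) (nat_lit 0) (nat_lit 0) (XT.nd (nat_lit 78) (nat_lit 0) (nat_lit 0) (XT.lf (nat_lit 0) (nat_lit 14756838553) (nat_lit 1216) (nat_lit 48923938867) (nat_lit 1292) (nat_lit 485554462) (nat_lit 215) (nat_lit 5) (nat_lit 231) (nat_lit 5) (nat_lit 232) (nat_lit 5) (nat_lit 399) (nat_lit 387) (nat_lit 114)) (XT.lf (nat_lit 0) (nat_lit 18554004854) (nat_lit 1216) (nat_lit 17576574998) (nat_lit 1292) (nat_lit 29061059402) (nat_lit 215) (nat_lit 5) (nat_lit 231) (nat_lit 5) (nat_lit 232) (nat_lit 5) (nat_lit 400) (nat_lit 387) (nat_lit 113))) (XT.nd (nat_lit 78) (nat_lit 0) (nat_lit 76) (XT.lf (nat_lit 76) (nat_lit 15003492612) (nat_lit 0) (nat_lit 7605193399) (nat_lit 1292) (nat_lit 43634712299)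 (nat_lit 216) (nat_lit 5) (nat_lit 215) (nat_lit 5) (nat_lit 232) (nat_lit 5) (nat_lit 401) (nat_lit 387) (nat_lit 112)) (XT.lf (nat_lit 0) (nat_lit 27172969463) (nat_lit 1216) (nat_lit 18611706257) (nat_lit 1292) (nat_lit 21530396003) (nat_lit 216) (nat_lit 5) (nat_lit 232) (nat_lit 5) (nat_lit 233) (nat_lit 5) (nat_lit 402) (nat_lit 387) (nat_lit 111)))))) (XT.nd (nat_lit 468) (nat_lit 1216) (nat_lit 0) (XT.nd (nat_lit 234) (nat_lit 608) (nat_lit 0) (XT.nd (nat_lit 78) (nat_lit 912) (nat_lit 0) (XT.lf (nat_lit 76) (nat_lit 15216478741) (nat_lit 0) (nat_lit 16878681241) (nat_lit 1292) (nat_lit 36317106432) (nat_lit 217) (nat_lit 5) (nat_lit 216) (nat_lit 5) (nat_lit 233) (nat_lit 5) (nat_lit 403) (nat_lit 387) (nat_lit 110)) (XT.nd (nat_lit 78) (nat_lit 988) (nat_lit 0) (XT.lf (nat_lit 0) (nat_lit 37478191468) (nat_lit 1216) (nat_lit 19222021874) (nat_lit 76) (nat_lit 12832768762) (nat_lit 217) (nat_lit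 5) (nat_lit 233) (nat_lit 5) (nat_lit 218) (nat_lit 5) (nat_lit 404) (nat_lit 387) (nat_lit 109)) (XT.lf (nat_lit 0) (nat_lit 15913889579) (nat_lit 988) (nat_lit 27428353772) (nat_lit 1064) (nat_lit 27335490438) (nat_lit 204) (nat_lit 5) (nat_lit 217) (nat_lit 5) (nat_lit 218) (nat_lit 5) (nat_lit 405) (nat_lit 387) (nat_lit 108)))) (XT.nd (nat_lit 78) (nat_lit 608) (nat_lit 0) (XT.lf (nat_lit 0) (nat_lit 49603857664) (nat_lit 1064) (nat_lit 19381679652) (nat_lit 76) (nat_lit 2864641875) (nat_lit 204) (nat_lit 5) (nat_lit 218) (nat_lit 5) (nat_lit 205) (nat_lit 5) (nat_lit 406) (nat_lit 387) (nat_lit 107)) (XT.nd (nat_lit 78) (nat_lit 0) (nat_lit 0) (XT.lf (nat_lit 0) (nat_lit 17124046779) (nat_lit 608) (nat_lit 39364916296) (nat_lit 684) (nat_lit 16555765984) (nat_lit 196) (nat_lit 5) (nat_lit 204) (nat_lit 5) (nat_lit 205) (nat_lit 5) (nat_lit 407) (nat_lit 387) (nat_lit 106)) (XT.lf (nat_lit 0) (nat_lit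 55121768176) (nat_lit 608) (nat_lit 8654049291) (nat_lit 684) (nat_lit 10493442452) (nat_lit 196) (nat_lit 5) (nat_lit 204) (nat_lit 5) (nat_lit 205) (nat_lit 5) (nat_lit 408) (nat_lit 387) (nat_lit 105))))) (XT.nd (nat_lit 234) (nat_lit 0) (nat_lit 0) (XT.nd (nat_lit 78) (nat_lit 684) (nat_lit 0) (XT.lf (nat_lit 0) (nat_lit 18875866563) (nat_lit 532) (nat_lit 52807231678) (nat_lit 608) (nat_lit 3835374203) (nat_lit 189) (nat_lit 5) (nat_lit 196) (nat_lit 5) (nat_lit 197) (nat_lit 5) (nat_lit 409) (nat_lit 387) (nat_lit 104)) (XT.nd (nat_lit 78) (nat_lit 608) (nat_lit 0) (XT.lf (nat_lit 0) (nat_lit 3243906902) (nat_lit 608) (nat_lit 18484071566) (nat_lit 76) (nat_lit 55067898129) (nat_lit 188) (nat_lit 5) (nat_lit 196) (nat_lit 5) (nat_lit 189) (nat_lit 5) (nat_lit 410) (nat_lit 387) (nat_lit 103)) (XT.lf (nat_lit 0) (nat_lit 10762972101) (nat_lit 684) (nat_lit 57011265156) (nat_lit 76) (nat_lit 10327091940)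 (nat_lit 180) (nat_lit 5) (nat_lit 189) (nat_lit 5) (nat_lit 181) (nat_lit 5) (nat_lit 411) (nat_lit 387) (nat_lit 102)))) (XT.nd (nat_lit 45084) (nat_lit 0) (nat_lit 3496) (XT.nd (nat_lit 45006) (nat_lit 0) (nat_lit 3496) (XT.lf (nat_lit 0) (nat_lit 18910762226) (nat_lit 684) (nat_lit 17427478696) (nat_lit 76) (nat_lit 43095610185) (nat_lit 180) (nat_lit 5) (nat_lit 189) (nat_lit 5) (nat_lit 181) (nat_lit 5) (nat_lit 412) (nat_lit 387) (nat_lit 101)) (XT.lf (nat_lit 0) (nat_lit 12640642842) (nat_lit 0) (nat_lit 12640642842) (nat_lit 1140) (nat_lit 2216931925) (nat_lit 226) (nat_lit 5) (nat_lit 226) (nat_lit 3) (nat_lit 241) (nat_lit 3) (nat_lit 388) (nat_lit 388) (nat_lit 124))) (XT.nd (nat_lit 78) (nat_lit 0) (nat_lit 0) (XT.lf (nat_lit 0) (nat_lit 51347074214) (nat_lit 1140) (nat_lit 3945534607) (nat_lit 1216) (nat_lit 527974794) (nat_lit 226) (nat_lit 5) (nat_lit 241) (nat_lit 3) (nat_lit 242) (nat_lit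 5) (nat_lit 389) (nat_lit 388) (nat_lit 123)) (XT.lf (nat_lit 76) (nat_lit 22791160024) (nat_lit 0) (nat_lit 29832533166) (nat_lit 1216) (nat_lit 4031706472) (nat_lit 227) (nat_lit 5) (nat_lit 226) (nat_lit 5) (nat_lit 242) (nat_lit 5) (nat_lit 390) (nat_lit 388) (nat_lit 122))))))) (XT.nd (nat_lit 1014) (nat_lit 2432) (nat_lit 0) (XT.nd (nat_lit 468) (nat_lit 0) (nat_lit 76) (XT.nd (nat_lit 234) (nat_lit 1064) (nat_lit 0) (XT.nd (nat_lit 78) (nat_lit 0) (nat_lit 76) (XT.lf (nat_lit 76) (nat_lit 50410402759) (nat_lit 0) (nat_lit 3567258330) (nat_lit 1216) (nat_lit 3536428206) (nat_lit 227) (nat_lit 5) (nat_lit 226) (nat_lit 5) (nat_lit 242) (nat_lit 5) (nat_lit 391) (nat_lit 388) (nat_lit 121)) (XT.nd (nat_lit 78) (nat_lit 0) (nat_lit 0) (XT.lf (nat_lit 76) (nat_lit 20636160675) (nat_lit 0) (nat_lit 35159450914) (nat_lit 1216) (nat_lit 2590227716) (nat_lit 228) (nat_lit 5) (nat_lit 227) (nat_lit 5) (nat_lit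 243) (nat_lit 5) (nat_lit 392) (nat_lit 388) (nat_lit 120)) (XT.lf (nat_lit 76) (nat_lit 49317357231) (nat_lit 0) (nat_lit 8456702448) (nat_lit 1216) (nat_lit 1506503945) (nat_lit 228) (nat_lit 5) (nat_lit 227) (nat_lit 5) (nat_lit 243) (nat_lit 5) (nat_lit 393) (nat_lit 388) (nat_lit 119)))) (XT.nd (nat_lit 78) (nat_lit 1216) (nat_lit 0) (XT.lf (nat_lit 76) (nat_lit 18840967844) (nat_lit 0) (nat_lit 41334374188) (nat_lit 1216) (nat_lit 15883776) (nat_lit 229) (nat_lit 5) (nat_lit 228) (nat_lit 5) (nat_lit 244) (nat_lit 5) (nat_lit 394) (nat_lit 388) (nat_lit 118)) (XT.nd (nat_lit 78) (nat_lit 0) (nat_lit 76) (XT.lf (nat_lit 0) (nat_lit 1674426120) (nat_lit 1216) (nat_lit 12512483039) (nat_lit 1292) (nat_lit 46936322417) (nat_lit 212) (nat_lit 5) (nat_lit 228) (nat_lit 5) (nat_lit 229) (nat_lit 5) (nat_lit 395) (nat_lit 388) (nat_lit 117)) (XT.lf (nat_lit 0) (nat_lit 3717046920) (nat_lit 1216) (nat_lit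 44680316736) (nat_lit 1292) (nat_lit 13676772030) (nat_lit 213) (nat_lit 5) (nat_lit 229) (nat_lit 5) (nat_lit 230) (nat_lit 5) (nat_lit 396) (nat_lit 388) (nat_lit 116))))) (XT.nd (nat_lit 234) (nat_lit 0) (nat_lit 152) (XT.nd (nat_lit 78) (nat_lit 0) (nat_lit 76) (XT.lf (nat_lit 0) (nat_lit 6088338675) (nat_lit 1216) (nat_lit 14738158172) (nat_lit 1292) (nat_lit 42219048802) (nat_lit 213) (nat_lit 5) (nat_lit 229) (nat_lit 5) (nat_lit 230) (nat_lit 5) (nat_lit 397) (nat_lit 388) (nat_lit 115)) (XT.nd (nat_lit 78) (nat_lit 0) (nat_lit 0) (XT.lf (nat_lit 0) (nat_lit 8762321778) (nat_lit 1216) (nat_lit 47693462538) (nat_lit 1292) (nat_lit 7583367503) (nat_lit 214) (nat_lit 5) (nat_lit 230) (nat_lit 5) (nat_lit 231) (nat_lit 5) (nat_lit 398) (nat_lit 388) (nat_lit 114)) (XT.lf (nat_lit 0) (nat_lit 11872388872) (nat_lit 1216) (nat_lit 16602081205) (nat_lit 1292) (nat_lit 36577420632) (nat_lit 214) (nat_lit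 5) (nat_lit 230) (nat_lit 5) (nat_lit 231) (nat_lit 5) (nat_lit 399) (nat_lit 388) (nat_lit 113)))) (XT.nd (nat_lit 156) (nat_lit 0) (nat_lit 0) (XT.nd (nat_lit 78) (nat_lit 0) (nat_lit 0) (XT.lf (nat_lit 0) (nat_lit 15231157267) (nat_lit 1216) (nat_lit 50366820476) (nat_lit 1292) (nat_lit 492372500) (nat_lit 215) (nat_lit 5) (nat_lit 231) (nat_lit 5) (nat_lit 232) (nat_lit 5) (nat_lit 400) (nat_lit 388) (nat_lit 112)) (XT.lf (nat_lit 0) (nat_lit 19141317773) (nat_lit 1216) (nat_lit 18079759086) (nat_lit 1292) (nat_lit 29925368276) (nat_lit 215) (nat_lit 5) (nat_lit 231) (nat_lit 5) (nat_lit 232) (nat_lit 5) (nat_lit 401) (nat_lit 388) (nat_lit 111))) (XT.nd (nat_lit 78) (nat_lit 0) (nat_lit 76) (XT.lf (nat_lit 76) (nat_lit 15477474149) (nat_lit 0) (nat_lit 7839500770) (nat_lit 1292) (nat_lit 44912802632) (nat_lit 216) (nat_lit 5) (nat_lit 215) (nat_lit 5) (nat_lit 232) (nat_lit 5) (nat_lit 402) (nat_lit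 388) (nat_lit 110)) (XT.lf (nat_lit 0) (nat_lit 28017254853) (nat_lit 1216) (nat_lit 19145922883) (nat_lit 1292) (nat_lit 22170452029) (nat_lit 216) (nat_lit 5) (nat_lit 232) (nat_lit 5) (nat_lit 233) (nat_lit 5) (nat_lit 403) (nat_lit 388) (nat_lit 109)))))) (XT.nd (nat_lit 546) (nat_lit 684) (nat_lit 0) (XT.nd (nat_lit 234) (nat_lit 1140) (nat_lit 0) (XT.nd (nat_lit 78) (nat_lit 912) (nat_lit 0) (XT.lf (nat_lit 76) (nat_lit 15696871051) (nat_lit 0) (nat_lit 17389622292) (nat_lit 1292) (nat_lit 37377266102) (nat_lit 217) (nat_lit 5) (nat_lit 216) (nat_lit 5) (nat_lit 233) (nat_lit 5) (nat_lit 404) (nat_lit 388) (nat_lit 108)) (XT.nd (nat_lit 78) (nat_lit 988) (nat_lit 0) (XT.lf (nat_lit 0) (nat_lit 38630143553) (nat_lit 1216) (nat_lit 19774588414) (nat_lit 76) (nat_lit 13213391408) (nat_lit 217) (nat_lit 5) (nat_lit 233) (nat_lit 5) (nat_lit 218) (nat_lit 5) (nat_lit 405) (nat_lit 388) (nat_lit 107))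 (XT.lf (nat_lit 0) (nat_lit 16415164166) (nat_lit 988) (nat_lit 28254378094) (nat_lit 1064) (nat_lit 28127693173) (nat_lit 204) (nat_lit 5) (nat_lit 217) (nat_lit 5) (nat_lit 218) (nat_lit 5) (nat_lit 406) (nat_lit 388) (nat_lit 106)))) (XT.nd (nat_lit 156) (nat_lit 532) (nat_lit 0) (XT.nd (nat_lit 78) (nat_lit 608) (nat_lit 0) (XT.lf (nat_lit 0) (nat_lit 51118188056) (nat_lit 1064) (nat_lit 19939131230) (nat_lit 76) (nat_lit 2947559987) (nat_lit 204) (nat_lit 5) (nat_lit 218) (nat_lit 5) (nat_lit 205) (nat_lit 5) (nat_lit 407) (nat_lit 388) (nat_lit 105)) (XT.lf (nat_lit 0) (nat_lit 17661531711) (nat_lit 608) (nat_lit 40547779814) (nat_lit 684) (nat_lit 17025970714) (nat_lit 196) (nat_lit 5) (nat_lit 204) (nat_lit 5) (nat_lit 205) (nat_lit 5) (nat_lit 408) (nat_lit 388) (nat_lit 104))) (XT.nd (nat_lit 78) (nat_lit 532) (nat_lit 0) (XT.lf (nat_lit 0) (nat_lit 56798492609) (nat_lit 608) (nat_lit 8915530992)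 (nat_lit 684) (nat_lit 10782548396) (nat_lit 196) (nat_lit 5) (nat_lit 204) (nat_lit 5) (nat_lit 205) (nat_lit 5) (nat_lit 409) (nat_lit 388) (nat_lit 103)) (XT.lf (nat_lit 0) (nat_lit 19465763677) (nat_lit 532) (nat_lit 54392242657) (nat_lit 608) (nat_lit 3925270575) (nat_lit 189) (nat_lit 5) (nat_lit 196) (nat_lit 5) (nat_lit 197) (nat_lit 5) (nat_lit 410) (nat_lit 388) (nat_lit 102))))) (XT.nd (nat_lit 45240) (nat_lit 0) (nat_lit 3496) (XT.nd (nat_lit 78) (nat_lit 608) (nat_lit 0) (XT.lf (nat_lit 0) (nat_lit 3365179252) (nat_lit 608) (nat_lit 19015167571) (nat_lit 76) (nat_lit 56718671153) (nat_lit 188) (nat_lit 5) (nat_lit 196) (nat_lit 5) (nat_lit 189) (nat_lit 5) (nat_lit 411) (nat_lit 388) (nat_lit 101)) (XT.nd (nat_lit 45084) (nat_lit 0) (nat_lit 3496) (XT.lf (nat_lit 0) (nat_lit 11109338934) (nat_lit 684) (nat_lit 58697683705) (nat_lit 76) (nat_lit 10636626313) (nat_lit 180) (nat_lit 5) (nat_lit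 189) (nat_lit 5) (nat_lit 181) (nat_lit 5) (nat_lit 412) (nat_lit 388) (nat_lit 100)) (XT.lf (nat_lit 0) (nat_lit 13030205758) (nat_lit 0) (nat_lit 13030205758) (nat_lit 1140) (nat_lit 2262115954) (nat_lit 226) (nat_lit 5) (nat_lit 226) (nat_lit 3) (nat_lit 241) (nat_lit 3) (nat_lit 389) (nat_lit 389) (nat_lit 122)))) (XT.nd (nat_lit 156) (nat_lit 0) (nat_lit 0) (XT.nd (nat_lit 78) (nat_lit 0) (nat_lit 0) (XT.lf (nat_lit 0) (nat_lit 52927462812) (nat_lit 1140) (nat_lit 4042386612) (nat_lit 1216) (nat_lit 524121244) (nat_lit 226) (nat_lit 5) (nat_lit 241) (nat_lit 3) (nat_lit 242) (nat_lit 5) (nat_lit 390) (nat_lit 389) (nat_lit 121)) (XT.lf (nat_lit 76) (nat_lit 23496197936) (nat_lit 0) (nat_lit 30745222840) (nat_lit 1216) (nat_lit 4112440116) (nat_lit 227) (nat_lit 5) (nat_lit 226) (nat_lit 5) (nat_lit 242) (nat_lit 5) (nat_lit 391) (nat_lit 389) (nat_lit 120))) (XT.nd (nat_lit 78) (nat_lit 0) (nat_lit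 76) (XT.lf (nat_lit 76) (nat_lit 51943397474) (nat_lit 0) (nat_lit 3691473827) (nat_lit 1216) (nat_lit 3603474887) (nat_lit 227) (nat_lit 5) (nat_lit 226) (nat_lit 5) (nat_lit 242) (nat_lit 5) (nat_lit 392) (nat_lit 389) (nat_lit 119)) (XT.lf (nat_lit 76) (nat_lit 21277043408) (nat_lit 0) (nat_lit 36229262631) (nat_lit 1216) (nat_lit 2629975144) (nat_lit 228) (nat_lit 5) (nat_lit 227) (nat_lit 5) (nat_lit 243) (nat_lit 5) (nat_lit 393) (nat_lit 389) (nat_lit 118))))))))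
noncomputable def xc253 : XT := (XT.nd (nat_lit 47190) (nat_lit 0) (nat_lit 532) (XT.nd (nat_lit 1014) (nat_lit 1748) (nat_lit 0) (XT.nd (nat_lit 468) (nat_lit 0) (nat_lit 152) (XT.nd (nat_lit 234) (nat_lit 0) (nat_lit 76) (XT.nd (nat_lit 78) (nat_lit 1140) (nat_lit 0) (XT.lf (nat_lit 76) (nat_lit 50818040970) (nat_lit 0) (nat_lit 8724993996) (nat_lit 1216) (nat_lit 1514845273) (nat_lit 228) (nat_lit 5) (nat_lit 227) (nat_lit 5) (nat_lit 243) (nat_lit 5) (nat_lit 394) (nat_lit 389) (nat_lit 117)) (XT.nd (nat_lit 78) (nat_lit 0) (nat_lit 0) (XT.lf (nat_lit 0) (nat_lit 19118974) (nat_lit 1216) (nat_lit 42567698661) (nat_lit 1292) (nat_lit 19409068767) (nat_lit 212) (nat_lit 5) (nat_lit 228) (nat_lit 5) (nat_lit 229) (nat_lit 5) (nat_lit 395) (nat_lit 389) (nat_lit 116)) (XT.lf (nat_lit 0) (nat_lit 1758794841) (nat_lit 1216) (nat_lit 12865615027) (nat_lit 1292) (nat_lit 48331469237) (nat_lit 212) (nat_lit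 5) (nat_lit 228) (nat_lit 5) (nat_lit 229) (nat_lit 5) (nat_lit 396) (nat_lit 389) (nat_lit 115)))) (XT.nd (nat_lit 78) (nat_lit 0) (nat_lit 0) (XT.lf (nat_lit 0) (nat_lit 3861802827) (nat_lit 1216) (nat_lit 45997567695) (nat_lit 1292) (nat_lit 14075967299) (nat_lit 213) (nat_lit 5) (nat_lit 229) (nat_lit 5) (nat_lit 230) (nat_lit 5) (nat_lit 397) (nat_lit 389) (nat_lit 114)) (XT.nd (nat_lit 78) (nat_lit 0) (nat_lit 76) (XT.lf (nat_lit 0) (nat_lit 6303265048) (nat_lit 1216) (nat_lit 15157818895) (nat_lit 1292) (nat_lit 43474835905) (nat_lit 213) (nat_lit 5) (nat_lit 229) (nat_lit 5) (nat_lit 230) (nat_lit 5) (nat_lit 398) (nat_lit 389) (nat_lit 113)) (XT.lf (nat_lit 0) (nat_lit 9056652303) (nat_lit 1216) (nat_lit 49100943863) (nat_lit 1292) (nat_lit 7801763193) (nat_lit 214) (nat_lit 5) (nat_lit 230) (nat_lit 5) (nat_lit 231) (nat_lit 5) (nat_lit 399) (nat_lit 389) (nat_lit 112))))) (XT.nd (nat_lit 234)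 (nat_lit 0) (nat_lit 76) (XT.nd (nat_lit 78) (nat_lit 0) (nat_lit 76) (XT.lf (nat_lit 0) (nat_lit 12259105073) (nat_lit 1216) (nat_lit 17077500387) (nat_lit 1292) (nat_lit 37665903120) (nat_lit 214) (nat_lit 5) (nat_lit 230) (nat_lit 5) (nat_lit 231) (nat_lit 5) (nat_lit 400) (nat_lit 389) (nat_lit 111)) (XT.nd (nat_lit 78) (nat_lit 0) (nat_lit 0) (XT.lf (nat_lit 0) (nat_lit 15717890795) (nat_lit 1216) (nat_lit 51854414254) (nat_lit 1292) (nat_lit 499839880) (nat_lit 215) (nat_lit 5) (nat_lit 231) (nat_lit 5) (nat_lit 232) (nat_lit 5) (nat_lit 401) (nat_lit 389) (nat_lit 110)) (XT.lf (nat_lit 0) (nat_lit 19744488190) (nat_lit 1216) (nat_lit 18599422891) (nat_lit 1292) (nat_lit 30816038261) (nat_lit 215) (nat_lit 5) (nat_lit 231) (nat_lit 5) (nat_lit 232) (nat_lit 5) (nat_lit 402) (nat_lit 389) (nat_lit 109)))) (XT.nd (nat_lit 156) (nat_lit 0) (nat_lit 76) (XT.nd (nat_lit 78) (nat_lit 0) (nat_lit 76) (XT.lf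 (nat_lit 76) (nat_lit 15964304508) (nat_lit 0) (nat_lit 8080484237) (nat_lit 1292) (nat_lit 46231012392) (nat_lit 216) (nat_lit 5) (nat_lit 215) (nat_lit 5) (nat_lit 232) (nat_lit 5) (nat_lit 403) (nat_lit 389) (nat_lit 108)) (XT.lf (nat_lit 0) (nat_lit 28885198557) (nat_lit 1216) (nat_lit 19697551430) (nat_lit 1292) (nat_lit 22830045885) (nat_lit 216) (nat_lit 5) (nat_lit 232) (nat_lit 5) (nat_lit 233) (nat_lit 5) (nat_lit 404) (nat_lit 389) (nat_lit 107))) (XT.nd (nat_lit 78) (nat_lit 0) (nat_lit 76) (XT.lf (nat_lit 76) (nat_lit 16190303291) (nat_lit 0) (nat_lit 17915628629) (nat_lit 1292) (nat_lit 38470915575) (nat_lit 217) (nat_lit 5) (nat_lit 216) (nat_lit 5) (nat_lit 233) (nat_lit 5) (nat_lit 405) (nat_lit 389) (nat_lit 106)) (XT.lf (nat_lit 0) (nat_lit 39815069483) (nat_lit 1216) (nat_lit 20345115051) (nat_lit 76) (nat_lit 13605683038) (nat_lit 217) (nat_lit 5) (nat_lit 233) (nat_lit 5) (nat_lit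 218) (nat_lit 5) (nat_lit 406) (nat_lit 389) (nat_lit 105)))))) (XT.nd (nat_lit 45630) (nat_lit 0) (nat_lit 1748) (XT.nd (nat_lit 234) (nat_lit 532) (nat_lit 0) (XT.nd (nat_lit 78) (nat_lit 608) (nat_lit 0) (XT.lf (nat_lit 0) (nat_lit 16930107450) (nat_lit 988) (nat_lit 29105000963) (nat_lit 1064) (nat_lit 28945261382) (nat_lit 204) (nat_lit 5) (nat_lit 217) (nat_lit 5) (nat_lit 218) (nat_lit 5) (nat_lit 407) (nat_lit 389) (nat_lit 104)) (XT.nd (nat_lit 78) (nat_lit 608) (nat_lit 0) (XT.lf (nat_lit 0) (nat_lit 52676443530) (nat_lit 1064) (nat_lit 20514683986) (nat_lit 76) (nat_lit 3033139068) (nat_lit 204) (nat_lit 5) (nat_lit 218) (nat_lit 5) (nat_lit 205) (nat_lit 5) (nat_lit 408) (nat_lit 389) (nat_lit 103)) (XT.lf (nat_lit 0) (nat_lit 18213777068) (nat_lit 608) (nat_lit 41766019249) (nat_lit 684) (nat_lit 17511800971) (nat_lit 196) (nat_lit 5) (nat_lit 204) (nat_lit 5) (nat_lit 205) (nat_lit 5) (nat_lit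 409) (nat_lit 389) (nat_lit 102)))) (XT.nd (nat_lit 78) (nat_lit 532) (nat_lit 0) (XT.lf (nat_lit 0) (nat_lit 58524194382) (nat_lit 608) (nat_lit 9184750360) (nat_lit 684) (nat_lit 11081802650) (nat_lit 196) (nat_lit 5) (nat_lit 204) (nat_lit 5) (nat_lit 205) (nat_lit 5) (nat_lit 410) (nat_lit 389) (nat_lit 101)) (XT.nd (nat_lit 45240) (nat_lit 0) (nat_lit 2812) (XT.lf (nat_lit 0) (nat_lit 20072001755) (nat_lit 532) (nat_lit 56024758386) (nat_lit 608) (nat_lit 4019308403) (nat_lit 189) (nat_lit 5) (nat_lit 196) (nat_lit 5) (nat_lit 197) (nat_lit 5) (nat_lit 411) (nat_lit 389) (nat_lit 100)) (XT.lf (nat_lit 0) (nat_lit 13430861794) (nat_lit 0) (nat_lit 13430861794) (nat_lit 1140) (nat_lit 2309879586) (nat_lit 226) (nat_lit 5) (nat_lit 226) (nat_lit 3) (nat_lit 241) (nat_lit 3) (nat_lit 390) (nat_lit 390) (nat_lit 120))))) (XT.nd (nat_lit 234) (nat_lit 1064) (nat_lit 0) (XT.nd (nat_lit 78) (nat_lit 0) (nat_lit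 0) (XT.lf (nat_lit 0) (nat_lit 54552968262) (nat_lit 1140) (nat_lit 4143379171) (nat_lit 1216) (nat_lit 521282534) (nat_lit 226) (nat_lit 5) (nat_lit 241) (nat_lit 3) (nat_lit 242) (nat_lit 5) (nat_lit 391) (nat_lit 390) (nat_lit 119)) (XT.nd (nat_lit 78) (nat_lit 0) (nat_lit 0) (XT.lf (nat_lit 76) (nat_lit 24221164099) (nat_lit 0) (nat_lit 31684276367) (nat_lit 1216) (nat_lit 4197904422) (nat_lit 227) (nat_lit 5) (nat_lit 226) (nat_lit 5) (nat_lit 242) (nat_lit 5) (nat_lit 392) (nat_lit 390) (nat_lit 118)) (XT.lf (nat_lit 76) (nat_lit 53521194763) (nat_lit 0) (nat_lit 3818428567) (nat_lit 1216) (nat_lit 3674774378) (nat_lit 227) (nat_lit 5) (nat_lit 226) (nat_lit 5) (nat_lit 242) (nat_lit 5) (nat_lit 393) (nat_lit 390) (nat_lit 117)))) (XT.nd (nat_lit 156) (nat_lit 1140) (nat_lit 0) (XT.nd (nat_lit 78) (nat_lit 0) (nat_lit 0) (XT.lf (nat_lit 76) (nat_lit 21935901334) (nat_lit 0) (nat_lit 37330306019)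 (nat_lit 1216) (nat_lit 2673094020) (nat_lit 228) (nat_lit 5) (nat_lit 227) (nat_lit 5) (nat_lit 243) (nat_lit 5) (nat_lit 394) (nat_lit 390) (nat_lit 116)) (XT.lf (nat_lit 76) (nat_lit 52362530377) (nat_lit 0) (nat_lit 9000496738) (nat_lit 1216) (nat_lit 1525552399) (nat_lit 228) (nat_lit 5) (nat_lit 227) (nat_lit 5) (nat_lit 243) (nat_lit 5) (nat_lit 395) (nat_lit 390) (nat_lit 115))) (XT.nd (nat_lit 78) (nat_lit 0) (nat_lit 0) (XT.lf (nat_lit 0) (nat_lit 52834230) (nat_lit 1216) (nat_lit 43823134958) (nat_lit 1292) (nat_lit 19978774954) (nat_lit 212) (nat_lit 5) (nat_lit 228) (nat_lit 5) (nat_lit 229) (nat_lit 5) (nat_lit 396) (nat_lit 390) (nat_lit 114)) (XT.lf (nat_lit 0) (nat_lit 1843735081) (nat_lit 1216) (nat_lit 13230617786) (nat_lit 1292) (nat_lit 49769213435) (nat_lit 212) (nat_lit 5) (nat_lit 228) (nat_lit 5) (nat_lit 229) (nat_lit 5) (nat_lit 397) (nat_lit 390) (nat_lit 113))))))) (XT.nd (nat_lit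 46332) (nat_lit 0) (nat_lit 1216) (XT.nd (nat_lit 468) (nat_lit 1292) (nat_lit 0) (XT.nd (nat_lit 234) (nat_lit 0) (nat_lit 76) (XT.nd (nat_lit 78) (nat_lit 0) (nat_lit 0) (XT.lf (nat_lit 0) (nat_lit 4008993040) (nat_lit 1216) (nat_lit 47355665579) (nat_lit 1292) (nat_lit 14487776065) (nat_lit 213) (nat_lit 5) (nat_lit 229) (nat_lit 5) (nat_lit 230) (nat_lit 5) (nat_lit 398) (nat_lit 390) (nat_lit 112)) (XT.nd (nat_lit 78) (nat_lit 0) (nat_lit 76) (XT.lf (nat_lit 0) (nat_lit 6522786425) (nat_lit 1216) (nat_lit 15591360115) (nat_lit 1292) (nat_lit 44768915688) (nat_lit 213) (nat_lit 5) (nat_lit 229) (nat_lit 5) (nat_lit 230) (nat_lit 5) (nat_lit 399) (nat_lit 390) (nat_lit 111)) (XT.lf (nat_lit 0) (nat_lit 9358006761) (nat_lit 1216) (nat_lit 50551988437) (nat_lit 1292) (nat_lit 8027233437) (nat_lit 214) (nat_lit 5) (nat_lit 230) (nat_lit 5) (nat_lit 231) (nat_lit 5) (nat_lit 400) (nat_lit 390) (nat_lit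 110)))) (XT.nd (nat_lit 78) (nat_lit 0) (nat_lit 76) (XT.lf (nat_lit 0) (nat_lit 12655669380) (nat_lit 1216) (nat_lit 17568481961) (nat_lit 1292) (nat_lit 38787547542) (nat_lit 214) (nat_lit 5) (nat_lit 230) (nat_lit 5) (nat_lit 231) (nat_lit 5) (nat_lit 401) (nat_lit 390) (nat_lit 109)) (XT.nd (nat_lit 78) (nat_lit 0) (nat_lit 0) (XT.lf (nat_lit 0) (nat_lit 16217515755) (nat_lit 1216) (nat_lit 53387979722) (nat_lit 1292) (nat_lit 507950549) (nat_lit 215) (nat_lit 5) (nat_lit 231) (nat_lit 5) (nat_lit 232) (nat_lit 5) (nat_lit 402) (nat_lit 390) (nat_lit 108)) (XT.lf (nat_lit 0) (nat_lit 20364092968) (nat_lit 1216) (nat_lit 19135981346) (nat_lit 1292) (nat_lit 31733835402) (nat_lit 215) (nat_lit 5) (nat_lit 231) (nat_lit 5) (nat_lit 232) (nat_lit 5) (nat_lit 403) (nat_lit 390) (nat_lit 107))))) (XT.nd (nat_lit 234) (nat_lit 1444) (nat_lit 0) (XT.nd (nat_lit 78) (nat_lit 0) (nat_lit 76) (XT.lf (nat_lit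 76) (nat_lit 16464447834) (nat_lit 0) (nat_lit 8328364354) (nat_lit 1292) (nat_lit 47590443170) (nat_lit 216) (nat_lit 5) (nat_lit 215) (nat_lit 5) (nat_lit 232) (nat_lit 5) (nat_lit 404) (nat_lit 390) (nat_lit 106)) (XT.nd (nat_lit 78) (nat_lit 0) (nat_lit 0) (XT.lf (nat_lit 0) (nat_lit 29777606205) (nat_lit 1216) (nat_lit 20267034728) (nat_lit 1292) (nat_lit 23509744411) (nat_lit 216) (nat_lit 5) (nat_lit 232) (nat_lit 5) (nat_lit 233) (nat_lit 5) (nat_lit 405) (nat_lit 390) (nat_lit 105)) (XT.lf (nat_lit 76) (nat_lit 16697245407) (nat_lit 0) (nat_lit 18457167304) (nat_lit 1292) (nat_lit 39598962818) (nat_lit 217) (nat_lit 5) (nat_lit 216) (nat_lit 5) (nat_lit 233) (nat_lit 5) (nat_lit 406) (nat_lit 390) (nat_lit 104)))) (XT.nd (nat_lit 156) (nat_lit 608) (nat_lit 0) (XT.nd (nat_lit 78) (nat_lit 988) (nat_lit 0) (XT.lf (nat_lit 0) (nat_lit 41034049444) (nat_lit 1216) (nat_lit 20934061192) (nat_lit 76)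 (nat_lit 14009979355) (nat_lit 217) (nat_lit 5) (nat_lit 233) (nat_lit 5) (nat_lit 218) (nat_lit 5) (nat_lit 407) (nat_lit 390) (nat_lit 103)) (XT.lf (nat_lit 0) (nat_lit 17459208108) (nat_lit 988) (nat_lit 29980970792) (nat_lit 1064) (nat_lit 29788864218) (nat_lit 204) (nat_lit 5) (nat_lit 217) (nat_lit 5) (nat_lit 218) (nat_lit 5) (nat_lit 408) (nat_lit 390) (nat_lit 102))) (XT.nd (nat_lit 78) (nat_lit 608) (nat_lit 0) (XT.lf (nat_lit 0) (nat_lit 54280028224) (nat_lit 1064) (nat_lit 21108801873) (nat_lit 76) (nat_lit 3121448992) (nat_lit 204) (nat_lit 5) (nat_lit 218) (nat_lit 5) (nat_lit 205) (nat_lit 5) (nat_lit 409) (nat_lit 390) (nat_lit 101)) (XT.lf (nat_lit 0) (nat_lit 18781303967) (nat_lit 608) (nat_lit 43020702193) (nat_lit 684) (nat_lit 18013638304) (nat_lit 196) (nat_lit 5) (nat_lit 204) (nat_lit 5) (nat_lit 205) (nat_lit 5) (nat_lit 410) (nat_lit 390) (nat_lit 100)))))) (XT.nd (nat_lit 546)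 (nat_lit 0) (nat_lit 0) (XT.nd (nat_lit 234) (nat_lit 1064) (nat_lit 0) (XT.nd (nat_lit 78) (nat_lit 0) (nat_lit 0) (XT.lf (nat_lit 0) (nat_lit 13842977830) (nat_lit 0) (nat_lit 13842977830) (nat_lit 1140) (nat_lit 2360229939) (nat_lit 226) (nat_lit 5) (nat_lit 226) (nat_lit 3) (nat_lit 241) (nat_lit 3) (nat_lit 391) (nat_lit 391) (nat_lit 118)) (XT.nd (nat_lit 78) (nat_lit 0) (nat_lit 0) (XT.lf (nat_lit 0) (nat_lit 56225075798) (nat_lit 1140) (nat_lit 4248565606) (nat_lit 1216) (nat_lit 519424217) (nat_lit 226) (nat_lit 5) (nat_lit 241) (nat_lit 3) (nat_lit 242) (nat_lit 5) (nat_lit 392) (nat_lit 391) (nat_lit 117)) (XT.lf (nat_lit 76) (nat_lit 24966726561) (nat_lit 0) (nat_lit 32650543033) (nat_lit 1216) (nat_lit 4288108782) (nat_lit 227) (nat_lit 5) (nat_lit 226) (nat_lit 5) (nat_lit 242) (nat_lit 5) (nat_lit 393) (nat_lit 391) (nat_lit 116)))) (XT.nd (nat_lit 156) (nat_lit 1064) (nat_lit 0) (XT.nd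 (nat_lit 78) (nat_lit 0) (nat_lit 76) (XT.lf (nat_lit 76) (nat_lit 55145206856) (nat_lit 0) (nat_lit 3948261400) (nat_lit 1216) (nat_lit 3750325598) (nat_lit 227) (nat_lit 5) (nat_lit 226) (nat_lit 5) (nat_lit 242) (nat_lit 5) (nat_lit 394) (nat_lit 391) (nat_lit 115)) (XT.lf (nat_lit 76) (nat_lit 22613345537) (nat_lit 0) (nat_lit 38463567551) (nat_lit 1216) (nat_lit 2719560402) (nat_lit 228) (nat_lit 5) (nat_lit 227) (nat_lit 5) (nat_lit 243) (nat_lit 5) (nat_lit 395) (nat_lit 391) (nat_lit 114))) (XT.nd (nat_lit 78) (nat_lit 1140) (nat_lit 0) (XT.lf (nat_lit 76) (nat_lit 53952209359) (nat_lit 0) (nat_lit 9283475088) (nat_lit 1216) (nat_lit 1538574856) (nat_lit 228) (nat_lit 5) (nat_lit 227) (nat_lit 5) (nat_lit 243) (nat_lit 5) (nat_lit 396) (nat_lit 391) (nat_lit 113)) (XT.lf (nat_lit 0) (nat_lit 85658475) (nat_lit 1216) (nat_lit 45117473966) (nat_lit 1292) (nat_lit 20566293659) (nat_lit 212) (nat_lit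 5) (nat_lit 228) (nat_lit 5) (nat_lit 229) (nat_lit 5) (nat_lit 397) (nat_lit 391) (nat_lit 112))))) (XT.nd (nat_lit 234) (nat_lit 0) (nat_lit 152) (XT.nd (nat_lit 78) (nat_lit 0) (nat_lit 76) (XT.lf (nat_lit 0) (nat_lit 1929376472) (nat_lit 1216) (nat_lit 13607774145) (nat_lit 1292) (nat_lit 51250790281) (nat_lit 212) (nat_lit 5) (nat_lit 228) (nat_lit 5) (nat_lit 229) (nat_lit 5) (nat_lit 398) (nat_lit 391) (nat_lit 111)) (XT.nd (nat_lit 78) (nat_lit 0) (nat_lit 0) (XT.lf (nat_lit 0) (nat_lit 4158800137) (nat_lit 1216) (nat_lit 48755759481) (nat_lit 1292) (nat_lit 14912540129) (nat_lit 213) (nat_lit 5) (nat_lit 229) (nat_lit 5) (nat_lit 230) (nat_lit 5) (nat_lit 399) (nat_lit 391) (nat_lit 110)) (XT.lf (nat_lit 0) (nat_lit 6747147014) (nat_lit 1216) (nat_lit 16039124156) (nat_lit 1292) (nat_lit 46102401394) (nat_lit 213) (nat_lit 5) (nat_lit 229) (nat_lit 5) (nat_lit 230) (nat_lit 5) (nat_lit 400) (nat_lit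 391) (nat_lit 109)))) (XT.nd (nat_lit 156) (nat_lit 0) (nat_lit 76) (XT.nd (nat_lit 78) (nat_lit 0) (nat_lit 0) (XT.lf (nat_lit 0) (nat_lit 9666699540) (nat_lit 1216) (nat_lit 52047826306) (nat_lit 1292) (nat_lit 8259960468) (nat_lit 214) (nat_lit 5) (nat_lit 230) (nat_lit 5) (nat_lit 231) (nat_lit 5) (nat_lit 401) (nat_lit 391) (nat_lit 108)) (XT.lf (nat_lit 0) (nat_lit 13062477885) (nat_lit 1216) (nat_lit 18075418182) (nat_lit 1292) (nat_lit 39943319626) (nat_lit 214) (nat_lit 5) (nat_lit 230) (nat_lit 5) (nat_lit 231) (nat_lit 5) (nat_lit 402) (nat_lit 391) (nat_lit 107))) (XT.nd (nat_lit 78) (nat_lit 0) (nat_lit 0) (XT.lf (nat_lit 0) (nat_lit 16730517084) (nat_lit 1216) (nat_lit 54968818889) (nat_lit 1292) (nat_lit 516699738) (nat_lit 215) (nat_lit 5) (nat_lit 231) (nat_lit 5) (nat_lit 232) (nat_lit 5) (nat_lit 403) (nat_lit 391) (nat_lit 106)) (XT.lf (nat_lit 0) (nat_lit 21000720472) (nat_lit 1216)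 (nat_lit 19689866393) (nat_lit 1292) (nat_lit 32679550146) (nat_lit 215) (nat_lit 5) (nat_lit 231) (nat_lit 5) (nat_lit 232) (nat_lit 5) (nat_lit 404) (nat_lit 391) (nat_lit 105))))))))
noncomputable def xc254 : XT := (XT.nd (nat_lit 92976) (nat_lit 0) (nat_lit 608) (XT.nd (nat_lit 46410) (nat_lit 0) (nat_lit 608) (XT.nd (nat_lit 45864) (nat_lit 0) (nat_lit 608) (XT.nd (nat_lit 234) (nat_lit 836) (nat_lit 0) (XT.nd (nat_lit 78) (nat_lit 0) (nat_lit 76) (XT.lf (nat_lit 76) (nat_lit 16978377678) (nat_lit 0) (nat_lit 8583367127) (nat_lit 1292) (nat_lit 48992235460) (nat_lit 216) (nat_lit 5) (nat_lit 215) (nat_lit 5) (nat_lit 232) (nat_lit 5) (nat_lit 405) (nat_lit 391) (nat_lit 104)) (XT.nd (nat_lit 78) (nat_lit 0) (nat_lit 0) (XT.lf (nat_lit 0) (nat_lit 30695302089) (nat_lit 1216) (nat_lit 20854833454) (nat_lit 1292) (nat_lit 24210132557) (nat_lit 216) (nat_lit 5) (nat_lit 232) (nat_lit 5) (nat_lit 233)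 (nat_lit 5) (nat_lit 406) (nat_lit 391) (nat_lit 103)) (XT.lf (nat_lit 76) (nat_lit 17218176925) (nat_lit 0) (nat_lit 19014718516) (nat_lit 1292) (nat_lit 40762348590) (nat_lit 217) (nat_lit 5) (nat_lit 216) (nat_lit 5) (nat_lit 233) (nat_lit 5) (nat_lit 407) (nat_lit 391) (nat_lit 102)))) (XT.nd (nat_lit 78) (nat_lit 988) (nat_lit 0) (XT.lf (nat_lit 0) (nat_lit 42288190803) (nat_lit 1216) (nat_lit 21541904585) (nat_lit 76) (nat_lit 14426626955) (nat_lit 217) (nat_lit 5) (nat_lit 233) (nat_lit 5) (nat_lit 218) (nat_lit 5) (nat_lit 408) (nat_lit 391) (nat_lit 101)) (XT.nd (nat_lit 78) (nat_lit 0) (nat_lit 0) (XT.lf (nat_lit 0) (nat_lit 18002964966) (nat_lit 988) (nat_lit 30883057848) (nat_lit 1064) (nat_lit 30659196176) (nat_lit 204) (nat_lit 5) (nat_lit 217) (nat_lit 5) (nat_lit 218) (nat_lit 5) (nat_lit 409) (nat_lit 391) (nat_lit 100)) (XT.lf (nat_lit 0) (nat_lit 55930383437) (nat_lit 1064) (nat_lit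 21721967302) (nat_lit 76) (nat_lit 3212562300) (nat_lit 204) (nat_lit 5) (nat_lit 218) (nat_lit 5) (nat_lit 205) (nat_lit 5) (nat_lit 410) (nat_lit 391) (nat_lit 99))))) (XT.nd (nat_lit 234) (nat_lit 1064) (nat_lit 0) (XT.nd (nat_lit 78) (nat_lit 0) (nat_lit 0) (XT.lf (nat_lit 0) (nat_lit 14266929793) (nat_lit 0) (nat_lit 14266929793) (nat_lit 1140) (nat_lit 2413178383) (nat_lit 226) (nat_lit 5) (nat_lit 226) (nat_lit 3) (nat_lit 241) (nat_lit 3) (nat_lit 392) (nat_lit 392) (nat_lit 116)) (XT.nd (nat_lit 78) (nat_lit 0) (nat_lit 0) (XT.lf (nat_lit 0) (nat_lit 57945307655) (nat_lit 1140) (nat_lit 4358004911) (nat_lit 1216) (nat_lit 518514539) (nat_lit 226) (nat_lit 5) (nat_lit 241) (nat_lit 3) (nat_lit 242) (nat_lit 5) (nat_lit 393) (nat_lit 392) (nat_lit 115)) (XT.lf (nat_lit 76) (nat_lit 25733569378) (nat_lit 0) (nat_lit 33644894251) (nat_lit 1216) (nat_lit 4383070480) (nat_lit 227) (nat_lit 5) (nat_lit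 226) (nat_lit 5) (nat_lit 242) (nat_lit 5) (nat_lit 394) (nat_lit 392) (nat_lit 114)))) (XT.nd (nat_lit 156) (nat_lit 1064) (nat_lit 0) (XT.nd (nat_lit 78) (nat_lit 0) (nat_lit 76) (XT.lf (nat_lit 76) (nat_lit 56816884441) (nat_lit 0) (nat_lit 4081112084) (nat_lit 1216) (nat_lit 3830134817) (nat_lit 227) (nat_lit 5) (nat_lit 226) (nat_lit 5) (nat_lit 242) (nat_lit 5) (nat_lit 395) (nat_lit 392) (nat_lit 113)) (XT.lf (nat_lit 76) (nat_lit 23310001311) (nat_lit 0) (nat_lit 39630060449) (nat_lit 1216) (nat_lit 2769356811) (nat_lit 228) (nat_lit 5) (nat_lit 227) (nat_lit 5) (nat_lit 243) (nat_lit 5) (nat_lit 396) (nat_lit 392) (nat_lit 112))) (XT.nd (nat_lit 78) (nat_lit 1140) (nat_lit 0) (XT.lf (nat_lit 76) (nat_lit 55588499337) (nat_lit 0) (nat_lit 9574198634) (nat_lit 1216) (nat_lit 1553867633) (nat_lit 228) (nat_lit 5) (nat_lit 227) (nat_lit 5) (nat_lit 243) (nat_lit 5) (nat_lit 397) (nat_lit 392) (nat_lit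 111)) (XT.lf (nat_lit 0) (nat_lit 117674189) (nat_lit 1216) (nat_lit 46451811607) (nat_lit 1292) (nat_lit 21172117851) (nat_lit 212) (nat_lit 5) (nat_lit 228) (nat_lit 5) (nat_lit 229) (nat_lit 5) (nat_lit 398) (nat_lit 392) (nat_lit 110)))))) (XT.nd (nat_lit 468) (nat_lit 0) (nat_lit 228) (XT.nd (nat_lit 234) (nat_lit 0) (nat_lit 152) (XT.nd (nat_lit 78) (nat_lit 0) (nat_lit 76) (XT.lf (nat_lit 0) (nat_lit 2015846077) (nat_lit 1216) (nat_lit 13997379623) (nat_lit 1292) (nat_lit 52777474555) (nat_lit 212) (nat_lit 5) (nat_lit 228) (nat_lit 5) (nat_lit 229) (nat_lit 5) (nat_lit 399) (nat_lit 392) (nat_lit 109)) (XT.nd (nat_lit 78) (nat_lit 0) (nat_lit 0) (XT.lf (nat_lit 0) (nat_lit 4311405886) (nat_lit 1216) (nat_lit 50199037350) (nat_lit 1292) (nat_lit 15350613648) (nat_lit 213) (nat_lit 5) (nat_lit 229) (nat_lit 5) (nat_lit 230) (nat_lit 5) (nat_lit 400) (nat_lit 392) (nat_lit 108)) (XT.lf (nat_lit 0)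 (nat_lit 6976592244) (nat_lit 1216) (nat_lit 16501467867) (nat_lit 1292) (nat_lit 47476441703) (nat_lit 213) (nat_lit 5) (nat_lit 229) (nat_lit 5) (nat_lit 230) (nat_lit 5) (nat_lit 401) (nat_lit 392) (nat_lit 107)))) (XT.nd (nat_lit 78) (nat_lit 0) (nat_lit 0) (XT.lf (nat_lit 0) (nat_lit 9983048511) (nat_lit 1216) (nat_lit 53589728826) (nat_lit 1292) (nat_lit 8500133707) (nat_lit 214) (nat_lit 5) (nat_lit 230) (nat_lit 5) (nat_lit 231) (nat_lit 5) (nat_lit 402) (nat_lit 392) (nat_lit 106)) (XT.nd (nat_lit 78) (nat_lit 0) (nat_lit 76) (XT.lf (nat_lit 0) (nat_lit 13479932789) (nat_lit 1216) (nat_lit 18598717359) (nat_lit 1292) (nat_lit 41134215744) (nat_lit 214) (nat_lit 5) (nat_lit 230) (nat_lit 5) (nat_lit 231) (nat_lit 5) (nat_lit 403) (nat_lit 392) (nat_lit 105)) (XT.lf (nat_lit 0) (nat_lit 17257388631) (nat_lit 1216) (nat_lit 56598277248) (nat_lit 1292) (nat_lit 526083917) (nat_lit 215) (nat_lit 5)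 (nat_lit 231) (nat_lit 5) (nat_lit 232) (nat_lit 5) (nat_lit 404) (nat_lit 392) (nat_lit 104))))) (XT.nd (nat_lit 234) (nat_lit 0) (nat_lit 76) (XT.nd (nat_lit 78) (nat_lit 0) (nat_lit 0) (XT.lf (nat_lit 0) (nat_lit 21654971246) (nat_lit 1216) (nat_lit 20261527232) (nat_lit 1292) (nat_lit 33653997997) (nat_lit 215) (nat_lit 5) (nat_lit 231) (nat_lit 5) (nat_lit 232) (nat_lit 5) (nat_lit 405) (nat_lit 392) (nat_lit 103)) (XT.nd (nat_lit 78) (nat_lit 0) (nat_lit 76) (XT.lf (nat_lit 76) (nat_lit 17506577542) (nat_lit 0) (nat_lit 8845724247) (nat_lit 1292) (nat_lit 50437569491) (nat_lit 216) (nat_lit 5) (nat_lit 215) (nat_lit 5) (nat_lit 232) (nat_lit 5) (nat_lit 406) (nat_lit 392) (nat_lit 102)) (XT.lf (nat_lit 0) (nat_lit 31639130045) (nat_lit 1216) (nat_lit 21461426412) (nat_lit 1292) (nat_lit 24931813868) (nat_lit 216) (nat_lit 5) (nat_lit 232) (nat_lit 5) (nat_lit 233) (nat_lit 5) (nat_lit 407) (nat_lit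 392) (nat_lit 101)))) (XT.nd (nat_lit 45708) (nat_lit 0) (nat_lit 760) (XT.nd (nat_lit 78) (nat_lit 0) (nat_lit 76) (XT.lf (nat_lit 76) (nat_lit 17753587494) (nat_lit 0) (nat_lit 19588776051) (nat_lit 1292) (nat_lit 41962047106) (nat_lit 217) (nat_lit 5) (nat_lit 216) (nat_lit 5) (nat_lit 233) (nat_lit 5) (nat_lit 408) (nat_lit 392) (nat_lit 100)) (XT.lf (nat_lit 0) (nat_lit 43578629227) (nat_lit 1216) (nat_lit 22169141604) (nat_lit 76) (nat_lit 14855983610) (nat_lit 217) (nat_lit 5) (nat_lit 233) (nat_lit 5) (nat_lit 218) (nat_lit 5) (nat_lit 409) (nat_lit 392) (nat_lit 99))) (XT.nd (nat_lit 78) (nat_lit 0) (nat_lit 0) (XT.lf (nat_lit 0) (nat_lit 14703103044) (nat_lit 0) (nat_lit 14703103044) (nat_lit 1140) (nat_lit 2468740429) (nat_lit 226) (nat_lit 5) (nat_lit 226) (nat_lit 3) (nat_lit 241) (nat_lit 3) (nat_lit 393) (nat_lit 393) (nat_lit 114)) (XT.lf (nat_lit 0) (nat_lit 59715224602) (nat_lit 1140)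 (nat_lit 4471761682) (nat_lit 1216) (nat_lit 518524302) (nat_lit 226) (nat_lit 5) (nat_lit 241) (nat_lit 3) (nat_lit 242) (nat_lit 5) (nat_lit 394) (nat_lit 393) (nat_lit 113))))))) (XT.nd (nat_lit 1014) (nat_lit 0) (nat_lit 0) (XT.nd (nat_lit 468) (nat_lit 0) (nat_lit 76) (XT.nd (nat_lit 234) (nat_lit 1064) (nat_lit 0) (XT.nd (nat_lit 78) (nat_lit 0) (nat_lit 0) (XT.lf (nat_lit 76) (nat_lit 26522393331) (nat_lit 0) (nat_lit 34668224421) (nat_lit 1216) (nat_lit 4482814489) (nat_lit 227) (nat_lit 5) (nat_lit 226) (nat_lit 5) (nat_lit 242) (nat_lit 5) (nat_lit 395) (nat_lit 393) (nat_lit 112)) (XT.nd (nat_lit 78) (nat_lit 0) (nat_lit 76) (XT.lf (nat_lit 76) (nat_lit 58537718034) (nat_lit 0) (nat_lit 4217121507) (nat_lit 1216) (nat_lit 3914215458) (nat_lit 227) (nat_lit 5) (nat_lit 226) (nat_lit 5) (nat_lit 242) (nat_lit 5) (nat_lit 396) (nat_lit 393) (nat_lit 111)) (XT.lf (nat_lit 76) (nat_lit 24026508824)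 (nat_lit 0) (nat_lit 40830825654) (nat_lit 1216) (nat_lit 2822472011) (nat_lit 228) (nat_lit 5) (nat_lit 227) (nat_lit 5) (nat_lit 243) (nat_lit 5) (nat_lit 397) (nat_lit 393) (nat_lit 110)))) (XT.nd (nat_lit 78) (nat_lit 1140) (nat_lit 0) (XT.lf (nat_lit 76) (nat_lit 57272860602) (nat_lit 0) (nat_lit 9872942448) (nat_lit 1216) (nat_lit 1571390940) (nat_lit 228) (nat_lit 5) (nat_lit 227) (nat_lit 5) (nat_lit 243) (nat_lit 5) (nat_lit 398) (nat_lit 393) (nat_lit 109)) (XT.nd (nat_lit 78) (nat_lit 0) (nat_lit 0) (XT.lf (nat_lit 0) (nat_lit 148960056) (nat_lit 1216) (nat_lit 47827280766) (nat_lit 1292) (nat_lit 21796757663) (nat_lit 212) (nat_lit 5) (nat_lit 228) (nat_lit 5) (nat_lit 229) (nat_lit 5) (nat_lit 399) (nat_lit 393) (nat_lit 108)) (XT.lf (nat_lit 0) (nat_lit 2103268684) (nat_lit 1216) (nat_lit 14399742575) (nat_lit 1292) (nat_lit 54350581584) (nat_lit 212) (nat_lit 5) (nat_lit 228) (nat_lit 5)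 (nat_lit 229) (nat_lit 5) (nat_lit 400) (nat_lit 393) (nat_lit 107))))) (XT.nd (nat_lit 234) (nat_lit 0) (nat_lit 76) (XT.nd (nat_lit 78) (nat_lit 0) (nat_lit 0) (XT.lf (nat_lit 0) (nat_lit 4466991576) (nat_lit 1216) (nat_lit 51686726904) (nat_lit 1292) (nat_lit 15802363385) (nat_lit 213) (nat_lit 5) (nat_lit 229) (nat_lit 5) (nat_lit 230) (nat_lit 5) (nat_lit 401) (nat_lit 393) (nat_lit 106)) (XT.nd (nat_lit 78) (nat_lit 0) (nat_lit 76) (XT.lf (nat_lit 0) (nat_lit 7211369151) (nat_lit 1216) (nat_lit 16978762808) (nat_lit 1292) (nat_lit 48892221680) (nat_lit 213) (nat_lit 5) (nat_lit 229) (nat_lit 5) (nat_lit 230) (nat_lit 5) (nat_lit 402) (nat_lit 393) (nat_lit 105)) (XT.lf (nat_lit 0) (nat_lit 10307375469) (nat_lit 1216) (nat_lit 55179009653) (nat_lit 1292) (nat_lit 8747949882) (nat_lit 214) (nat_lit 5) (nat_lit 230) (nat_lit 5) (nat_lit 231) (nat_lit 5) (nat_lit 403) (nat_lit 393) (nat_lit 104)))) (XT.nd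 (nat_lit 156) (nat_lit 0) (nat_lit 76) (XT.nd (nat_lit 78) (nat_lit 0) (nat_lit 76) (XT.lf (nat_lit 0) (nat_lit 13908442911) (nat_lit 1216) (nat_lit 19138804087) (nat_lit 1292) (nat_lit 42361263735) (nat_lit 214) (nat_lit 5) (nat_lit 230) (nat_lit 5) (nat_lit 231) (nat_lit 5) (nat_lit 404) (nat_lit 393) (nat_lit 103)) (XT.lf (nat_lit 0) (nat_lit 17798633745) (nat_lit 1216) (nat_lit 58277744835) (nat_lit 1292) (nat_lit 536100752) (nat_lit 215) (nat_lit 5) (nat_lit 231) (nat_lit 5) (nat_lit 232) (nat_lit 5) (nat_lit 405) (nat_lit 393) (nat_lit 102))) (XT.nd (nat_lit 78) (nat_lit 0) (nat_lit 0) (XT.lf (nat_lit 0) (nat_lit 22327458690) (nat_lit 1216) (nat_lit 20851430592) (nat_lit 1292) (nat_lit 34658020186) (nat_lit 215) (nat_lit 5) (nat_lit 231) (nat_lit 5) (nat_lit 232) (nat_lit 5) (nat_lit 406) (nat_lit 393) (nat_lit 101)) (XT.lf (nat_lit 76) (nat_lit 18049541419) (nat_lit 0) (nat_lit 9115673320) (nat_lit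 1292) (nat_lit 51927666098) (nat_lit 216) (nat_lit 5) (nat_lit 215) (nat_lit 5) (nat_lit 232) (nat_lit 5) (nat_lit 407) (nat_lit 393) (nat_lit 100)))))) (XT.nd (nat_lit 46254) (nat_lit 304) (nat_lit 0) (XT.nd (nat_lit 45942) (nat_lit 0) (nat_lit 760) (XT.nd (nat_lit 45786) (nat_lit 0) (nat_lit 760) (XT.lf (nat_lit 0) (nat_lit 32609954330) (nat_lit 1216) (nat_lit 22087310824) (nat_lit 1292) (nat_lit 25675410979) (nat_lit 216) (nat_lit 5) (nat_lit 232) (nat_lit 5) (nat_lit 233) (nat_lit 5) (nat_lit 408) (nat_lit 393) (nat_lit 99)) (XT.nd (nat_lit 78) (nat_lit 0) (nat_lit 0) (XT.lf (nat_lit 0) (nat_lit 15151892768) (nat_lit 0) (nat_lit 15151892768) (nat_lit 1140) (nat_lit 2526935637) (nat_lit 226) (nat_lit 5) (nat_lit 226) (nat_lit 3) (nat_lit 241) (nat_lit 3) (nat_lit 394) (nat_lit 394) (nat_lit 112)) (XT.lf (nat_lit 0) (nat_lit 61536427515) (nat_lit 1140) (nat_lit 4589906071) (nat_lit 1216) (nat_lit 519426742)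 (nat_lit 226) (nat_lit 5) (nat_lit 241) (nat_lit 3) (nat_lit 242) (nat_lit 5) (nat_lit 395) (nat_lit 394) (nat_lit 111)))) (XT.nd (nat_lit 156) (nat_lit 0) (nat_lit 76) (XT.nd (nat_lit 78) (nat_lit 0) (nat_lit 0) (XT.lf (nat_lit 76) (nat_lit 27333916647) (nat_lit 0) (nat_lit 35721451794) (nat_lit 1216) (nat_lit 4587373290) (nat_lit 227) (nat_lit 5) (nat_lit 226) (nat_lit 5) (nat_lit 242) (nat_lit 5) (nat_lit 396) (nat_lit 394) (nat_lit 110)) (XT.lf (nat_lit 76) (nat_lit 60309239396) (nat_lit 0) (nat_lit 4356431891) (nat_lit 1216) (nat_lit 4002587908) (nat_lit 227) (nat_lit 5) (nat_lit 226) (nat_lit 5) (nat_lit 242) (nat_lit 5) (nat_lit 397) (nat_lit 394) (nat_lit 109))) (XT.nd (nat_lit 78) (nat_lit 0) (nat_lit 0) (XT.lf (nat_lit 76) (nat_lit 24763523783) (nat_lit 0) (nat_lit 42066932807) (nat_lit 1216) (nat_lit 2878900810) (nat_lit 228) (nat_lit 5) (nat_lit 227) (nat_lit 5) (nat_lit 243) (nat_lit 5) (nat_lit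 398) (nat_lit 394) (nat_lit 108)) (XT.lf (nat_lit 76) (nat_lit 59006793696) (nat_lit 0) (nat_lit 10179987405) (nat_lit 1216) (nat_lit 1591109987) (nat_lit 228) (nat_lit 5) (nat_lit 227) (nat_lit 5) (nat_lit 243) (nat_lit 5) (nat_lit 399) (nat_lit 394) (nat_lit 107))))) (XT.nd (nat_lit 234) (nat_lit 0) (nat_lit 76) (XT.nd (nat_lit 78) (nat_lit 0) (nat_lit 0) (XT.lf (nat_lit 0) (nat_lit 179591212) (nat_lit 1216) (nat_lit 49245052163) (nat_lit 1292) (nat_lit 22440740774) (nat_lit 212) (nat_lit 5) (nat_lit 228) (nat_lit 5) (nat_lit 229) (nat_lit 5) (nat_lit 400) (nat_lit 394) (nat_lit 106)) (XT.nd (nat_lit 78) (nat_lit 0) (nat_lit 76) (XT.lf (nat_lit 0) (nat_lit 2191767088) (nat_lit 1216) (nat_lit 14815184342) (nat_lit 1292) (nat_lit 55971468334) (nat_lit 212) (nat_lit 5) (nat_lit 228) (nat_lit 5) (nat_lit 229) (nat_lit 5) (nat_lit 401) (nat_lit 394) (nat_lit 105)) (XT.lf (nat_lit 0) (nat_lit 4625738353) (nat_lit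 1216) (nat_lit 53220096580) (nat_lit 1292) (nat_lit 16268168972) (nat_lit 213) (nat_lit 5) (nat_lit 229) (nat_lit 5) (nat_lit 230) (nat_lit 5) (nat_lit 402) (nat_lit 394) (nat_lit 104)))) (XT.nd (nat_lit 156) (nat_lit 0) (nat_lit 76) (XT.nd (nat_lit 78) (nat_lit 0) (nat_lit 76) (XT.lf (nat_lit 0) (nat_lit 7451726759) (nat_lit 1216) (nat_lit 17471395468) (nat_lit 1292) (nat_lit 50350963753) (nat_lit 213) (nat_lit 5) (nat_lit 229) (nat_lit 5) (nat_lit 230) (nat_lit 5) (nat_lit 403) (nat_lit 394) (nat_lit 103)) (XT.lf (nat_lit 0) (nat_lit 10640006576) (nat_lit 1216) (nat_lit 56817025774) (nat_lit 1292) (nat_lit 9003613154) (nat_lit 214) (nat_lit 5) (nat_lit 230) (nat_lit 5) (nat_lit 231) (nat_lit 5) (nat_lit 404) (nat_lit 394) (nat_lit 102))) (XT.nd (nat_lit 78) (nat_lit 0) (nat_lit 76) (XT.lf (nat_lit 0) (nat_lit 14348424202) (nat_lit 1216) (nat_lit 19696119502) (nat_lit 1292) (nat_lit 43625523759) (nat_lit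 214) (nat_lit 5) (nat_lit 230) (nat_lit 5) (nat_lit 231) (nat_lit 5) (nat_lit 405) (nat_lit 394) (nat_lit 101)) (XT.lf (nat_lit 0) (nat_lit 18354765871) (nat_lit 1216) (nat_lit 60008657319) (nat_lit 1292) (nat_lit 546749065) (nat_lit 215) (nat_lit 5) (nat_lit 231) (nat_lit 5) (nat_lit 232) (nat_lit 5) (nat_lit 406) (nat_lit 394) (nat_lit 100))))))))
noncomputable def xc255 : XT := (XT.nd (nat_lit 139854) (nat_lit 0) (nat_lit 0) (XT.nd (nat_lit 46800) (nat_lit 0) (nat_lit 0) (XT.nd (nat_lit 46254) (nat_lit 228) (nat_lit 0) (XT.nd (nat_lit 46020) (nat_lit 0) (nat_lit 836) (XT.nd (nat_lit 78) (nat_lit 0) (nat_lit 0) (XT.lf (nat_lit 0) (nat_lit 23018809745) (nat_lit 1216) (nat_lit 21460061023) (nat_lit 1292) (nat_lit 35692484375) (nat_lit 215) (nat_lit 5) (nat_lit 231) (nat_lit 5) (nat_lit 232) (nat_lit 5) (nat_lit 407) (nat_lit 394) (nat_lit 99)) (XT.nd (nat_lit 45864) (nat_lit 0) (nat_lit 836) (XT.lf (nat_lit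 76) (nat_lit 18607774339) (nat_lit 0) (nat_lit 9393458107) (nat_lit 1292) (nat_lit 53463787648) (nat_lit 216) (nat_lit 5) (nat_lit 215) (nat_lit 5) (nat_lit 232) (nat_lit 5) (nat_lit 408) (nat_lit 394) (nat_lit 98)) (XT.lf (nat_lit 0) (nat_lit 15613704365) (nat_lit 0) (nat_lit 15613704365) (nat_lit 1140) (nat_lit 2587787532) (nat_lit 226) (nat_lit 5) (nat_lit 226) (nat_lit 3) (nat_lit 241) (nat_lit 3) (nat_lit 395) (nat_lit 395) (nat_lit 110)))) (XT.nd (nat_lit 78) (nat_lit 0) (nat_lit 0) (XT.lf (nat_lit 0) (nat_lit 63410558963) (nat_lit 1140) (nat_lit 4712513744) (nat_lit 1216) (nat_lit 521197415) (nat_lit 226) (nat_lit 5) (nat_lit 241) (nat_lit 3) (nat_lit 242) (nat_lit 5) (nat_lit 396) (nat_lit 395) (nat_lit 109)) (XT.nd (nat_lit 78) (nat_lit 0) (nat_lit 0) (XT.lf (nat_lit 76) (nat_lit 28168875719) (nat_lit 0) (nat_lit 36805519366) (nat_lit 1216) (nat_lit 4696786708) (nat_lit 227) (nat_lit 5) (nat_lit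 226) (nat_lit 5) (nat_lit 242) (nat_lit 5) (nat_lit 397) (nat_lit 395) (nat_lit 108)) (XT.lf (nat_lit 76) (nat_lit 62133022960) (nat_lit 0) (nat_lit 4499187001) (nat_lit 1216) (nat_lit 4095279351) (nat_lit 227) (nat_lit 5) (nat_lit 226) (nat_lit 5) (nat_lit 242) (nat_lit 5) (nat_lit 398) (nat_lit 395) (nat_lit 107))))) (XT.nd (nat_lit 234) (nat_lit 0) (nat_lit 0) (XT.nd (nat_lit 78) (nat_lit 1140) (nat_lit 0) (XT.lf (nat_lit 76) (nat_lit 25521718114) (nat_lit 0) (nat_lit 43339481261) (nat_lit 1216) (nat_lit 2938643872) (nat_lit 228) (nat_lit 5) (nat_lit 227) (nat_lit 5) (nat_lit 243) (nat_lit 5) (nat_lit 399) (nat_lit 395) (nat_lit 106)) (XT.nd (nat_lit 78) (nat_lit 1140) (nat_lit 0) (XT.lf (nat_lit 76) (nat_lit 60791840825) (nat_lit 0) (nat_lit 10495620493) (nat_lit 1216) (nat_lit 1612994780) (nat_lit 228) (nat_lit 5) (nat_lit 227) (nat_lit 5) (nat_lit 243) (nat_lit 5) (nat_lit 400) (nat_lit 395) (nat_lit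 105)) (XT.lf (nat_lit 0) (nat_lit 209639476) (nat_lit 1216) (nat_lit 50706335270) (nat_lit 1292) (nat_lit 23104612805) (nat_lit 212) (nat_lit 5) (nat_lit 228) (nat_lit 5) (nat_lit 229) (nat_lit 5) (nat_lit 401) (nat_lit 395) (nat_lit 104)))) (XT.nd (nat_lit 156) (nat_lit 0) (nat_lit 76) (XT.nd (nat_lit 78) (nat_lit 0) (nat_lit 76) (XT.lf (nat_lit 0) (nat_lit 2281462360) (nat_lit 1216) (nat_lit 15244039428) (nat_lit 1292) (nat_lit 57641534528) (nat_lit 212) (nat_lit 5) (nat_lit 228) (nat_lit 5) (nat_lit 229) (nat_lit 5) (nat_lit 402) (nat_lit 395) (nat_lit 103)) (XT.lf (nat_lit 0) (nat_lit 4787827525) (nat_lit 1216) (nat_lit 54800456542) (nat_lit 1292) (nat_lit 16748423189) (nat_lit 213) (nat_lit 5) (nat_lit 229) (nat_lit 5) (nat_lit 230) (nat_lit 5) (nat_lit 403) (nat_lit 395) (nat_lit 102))) (XT.nd (nat_lit 78) (nat_lit 0) (nat_lit 76) (XT.lf (nat_lit 0) (nat_lit 7697916447) (nat_lit 1216) (nat_lit 17979767492)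 (nat_lit 1292) (nat_lit 51853928731) (nat_lit 213) (nat_lit 5) (nat_lit 229) (nat_lit 5) (nat_lit 230) (nat_lit 5) (nat_lit 404) (nat_lit 395) (nat_lit 101)) (XT.lf (nat_lit 0) (nat_lit 10981272796) (nat_lit 1216) (nat_lit 58505178579) (nat_lit 1292) (nat_lit 9267335250) (nat_lit 214) (nat_lit 5) (nat_lit 230) (nat_lit 5) (nat_lit 231) (nat_lit 5) (nat_lit 405) (nat_lit 395) (nat_lit 100)))))) (XT.nd (nat_lit 46410) (nat_lit 152) (nat_lit 0) (XT.nd (nat_lit 46176) (nat_lit 0) (nat_lit 912) (XT.nd (nat_lit 78) (nat_lit 0) (nat_lit 76) (XT.lf (nat_lit 0) (nat_lit 14800300250) (nat_lit 1216) (nat_lit 20271121564) (nat_lit 1292) (nat_lit 44928089181) (nat_lit 214) (nat_lit 5) (nat_lit 230) (nat_lit 5) (nat_lit 231) (nat_lit 5) (nat_lit 406) (nat_lit 395) (nat_lit 99)) (XT.nd (nat_lit 46020) (nat_lit 0) (nat_lit 836) (XT.lf (nat_lit 0) (nat_lit 18926309133) (nat_lit 1216) (nat_lit 61792497148) (nat_lit 1292)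 (nat_lit 558028802) (nat_lit 215) (nat_lit 5) (nat_lit 231) (nat_lit 5) (nat_lit 232) (nat_lit 5) (nat_lit 407) (nat_lit 395) (nat_lit 98)) (XT.lf (nat_lit 0) (nat_lit 16088953854) (nat_lit 0) (nat_lit 16088953854) (nat_lit 1140) (nat_lit 2651323529) (nat_lit 226) (nat_lit 5) (nat_lit 226) (nat_lit 3) (nat_lit 241) (nat_lit 3) (nat_lit 396) (nat_lit 396) (nat_lit 108)))) (XT.nd (nat_lit 78) (nat_lit 0) (nat_lit 0) (XT.lf (nat_lit 0) (nat_lit 65339304824) (nat_lit 1140) (nat_lit 4839665846) (nat_lit 1216) (nat_lit 523814081) (nat_lit 226) (nat_lit 5) (nat_lit 241) (nat_lit 3) (nat_lit 242) (nat_lit 5) (nat_lit 397) (nat_lit 396) (nat_lit 107)) (XT.nd (nat_lit 78) (nat_lit 0) (nat_lit 0) (XT.lf (nat_lit 76) (nat_lit 29028025857) (nat_lit 0) (nat_lit 37921395776) (nat_lit 1216) (nat_lit 4811101771) (nat_lit 227) (nat_lit 5) (nat_lit 226) (nat_lit 5) (nat_lit 242) (nat_lit 5) (nat_lit 398) (nat_lit 396) (nat_lit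 106)) (XT.lf (nat_lit 76) (nat_lit 64010687305) (nat_lit 0) (nat_lit 4645532348) (nat_lit 1216) (nat_lit 4192323616) (nat_lit 227) (nat_lit 5) (nat_lit 226) (nat_lit 5) (nat_lit 242) (nat_lit 5) (nat_lit 399) (nat_lit 396) (nat_lit 105))))) (XT.nd (nat_lit 234) (nat_lit 0) (nat_lit 0) (XT.nd (nat_lit 78) (nat_lit 1140) (nat_lit 0) (XT.lf (nat_lit 76) (nat_lit 26301780645) (nat_lit 0) (nat_lit 44649601102) (nat_lit 1216) (nat_lit 3001707551) (nat_lit 228) (nat_lit 5) (nat_lit 227) (nat_lit 5) (nat_lit 243) (nat_lit 5) (nat_lit 400) (nat_lit 396) (nat_lit 104)) (XT.nd (nat_lit 78) (nat_lit 1140) (nat_lit 0) (XT.lf (nat_lit 76) (nat_lit 62629587300) (nat_lit 0) (nat_lit 10820135130) (nat_lit 1216) (nat_lit 1637019926) (nat_lit 228) (nat_lit 5) (nat_lit 227) (nat_lit 5) (nat_lit 243) (nat_lit 5) (nat_lit 401) (nat_lit 396) (nat_lit 103)) (XT.lf (nat_lit 0) (nat_lit 239173572) (nat_lit 1216) (nat_lit 52212379267)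 (nat_lit 1292) (nat_lit 23788937737) (nat_lit 212) (nat_lit 5) (nat_lit 228) (nat_lit 5) (nat_lit 229) (nat_lit 5) (nat_lit 402) (nat_lit 396) (nat_lit 102)))) (XT.nd (nat_lit 156) (nat_lit 0) (nat_lit 76) (XT.nd (nat_lit 78) (nat_lit 0) (nat_lit 76) (XT.lf (nat_lit 0) (nat_lit 2372474107) (nat_lit 1216) (nat_lit 15686655697) (nat_lit 1292) (nat_lit 59362223814) (nat_lit 212) (nat_lit 5) (nat_lit 228) (nat_lit 5) (nat_lit 229) (nat_lit 5) (nat_lit 403) (nat_lit 396) (nat_lit 101)) (XT.lf (nat_lit 0) (nat_lit 4953440881) (nat_lit 1216) (nat_lit 56429159713) (nat_lit 1292) (nat_lit 17243532260) (nat_lit 213) (nat_lit 5) (nat_lit 229) (nat_lit 5) (nat_lit 230) (nat_lit 5) (nat_lit 404) (nat_lit 396) (nat_lit 100))) (XT.nd (nat_lit 78) (nat_lit 0) (nat_lit 76) (XT.lf (nat_lit 0) (nat_lit 7950192319) (nat_lit 1216) (nat_lit 18504295930) (nat_lit 1292) (nat_lit 53402416860) (nat_lit 213) (nat_lit 5) (nat_lit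 229) (nat_lit 5) (nat_lit 230) (nat_lit 5) (nat_lit 405) (nat_lit 396) (nat_lit 99)) (XT.lf (nat_lit 0) (nat_lit 11331510322) (nat_lit 1216) (nat_lit 60244914983) (nat_lit 1292) (nat_lit 9539335608) (nat_lit 214) (nat_lit 5) (nat_lit 230) (nat_lit 5) (nat_lit 231) (nat_lit 5) (nat_lit 406) (nat_lit 396) (nat_lit 98))))))) (XT.nd (nat_lit 47268) (nat_lit 0) (nat_lit 0) (XT.nd (nat_lit 468) (nat_lit 1064) (nat_lit 0) (XT.nd (nat_lit 234) (nat_lit 0) (nat_lit 0) (XT.nd (nat_lit 78) (nat_lit 0) (nat_lit 0) (XT.lf (nat_lit 0) (nat_lit 16578068278) (nat_lit 0) (nat_lit 16578068278) (nat_lit 1140) (nat_lit 2717574868) (nat_lit 226) (nat_lit 5) (nat_lit 226) (nat_lit 3) (nat_lit 241) (nat_lit 3) (nat_lit 397) (nat_lit 397) (nat_lit 106)) (XT.nd (nat_lit 78) (nat_lit 0) (nat_lit 0) (XT.lf (nat_lit 0) (nat_lit 67324395922) (nat_lit 1140) (nat_lit 4971448987) (nat_lit 1216) (nat_lit 527256605) (nat_lit 226) (nat_lit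 5) (nat_lit 241) (nat_lit 3) (nat_lit 242) (nat_lit 5) (nat_lit 398) (nat_lit 397) (nat_lit 105)) (XT.lf (nat_lit 76) (nat_lit 29912142027) (nat_lit 0) (nat_lit 39070076229) (nat_lit 1216) (nat_lit 4930372576) (nat_lit 227) (nat_lit 5) (nat_lit 226) (nat_lit 5) (nat_lit 242) (nat_lit 5) (nat_lit 399) (nat_lit 397) (nat_lit 104)))) (XT.nd (nat_lit 78) (nat_lit 0) (nat_lit 76) (XT.lf (nat_lit 76) (nat_lit 65943896657) (nat_lit 0) (nat_lit 4795615386) (nat_lit 1216) (nat_lit 4293761045) (nat_lit 227) (nat_lit 5) (nat_lit 226) (nat_lit 5) (nat_lit 242) (nat_lit 5) (nat_lit 400) (nat_lit 397) (nat_lit 103)) (XT.nd (nat_lit 78) (nat_lit 0) (nat_lit 0) (XT.lf (nat_lit 76) (nat_lit 27104417803) (nat_lit 0) (nat_lit 45998454206) (nat_lit 1216) (nat_lit 3068103732) (nat_lit 228) (nat_lit 5) (nat_lit 227) (nat_lit 5) (nat_lit 243) (nat_lit 5) (nat_lit 401) (nat_lit 397) (nat_lit 102)) (XT.lf (nat_lit 76) (nat_lit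 64521663015) (nat_lit 0) (nat_lit 11153831485) (nat_lit 1216) (nat_lit 1663164460) (nat_lit 228) (nat_lit 5) (nat_lit 227) (nat_lit 5) (nat_lit 243) (nat_lit 5) (nat_lit 402) (nat_lit 397) (nat_lit 101))))) (XT.nd (nat_lit 46488) (nat_lit 0) (nat_lit 1064) (XT.nd (nat_lit 78) (nat_lit 0) (nat_lit 0) (XT.lf (nat_lit 0) (nat_lit 268259339) (nat_lit 1216) (nat_lit 53764474029) (nat_lit 1292) (nat_lit 24494298345) (nat_lit 212) (nat_lit 5) (nat_lit 228) (nat_lit 5) (nat_lit 229) (nat_lit 5) (nat_lit 403) (nat_lit 397) (nat_lit 100)) (XT.nd (nat_lit 78) (nat_lit 0) (nat_lit 76) (XT.lf (nat_lit 0) (nat_lit 2464920718) (nat_lit 1216) (nat_lit 16143394575) (nat_lit 1292) (nat_lit 61135024971) (nat_lit 212) (nat_lit 5) (nat_lit 228) (nat_lit 5) (nat_lit 229) (nat_lit 5) (nat_lit 404) (nat_lit 397) (nat_lit 99)) (XT.lf (nat_lit 0) (nat_lit 5122760980) (nat_lit 1216) (nat_lit 58107602867) (nat_lit 1292) (nat_lit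 17753916156) (nat_lit 213) (nat_lit 5) (nat_lit 229) (nat_lit 5) (nat_lit 230) (nat_lit 5) (nat_lit 405) (nat_lit 397) (nat_lit 98)))) (XT.nd (nat_lit 156) (nat_lit 0) (nat_lit 0) (XT.nd (nat_lit 78) (nat_lit 0) (nat_lit 0) (XT.lf (nat_lit 0) (nat_lit 17081486120) (nat_lit 0) (nat_lit 17081486120) (nat_lit 1140) (nat_lit 2786576554) (nat_lit 226) (nat_lit 5) (nat_lit 226) (nat_lit 3) (nat_lit 241) (nat_lit 3) (nat_lit 398) (nat_lit 398) (nat_lit 104)) (XT.lf (nat_lit 0) (nat_lit 69367609705) (nat_lit 1140) (nat_lit 5107955230) (nat_lit 1216) (nat_lit 531506862) (nat_lit 226) (nat_lit 5) (nat_lit 241) (nat_lit 3) (nat_lit 242) (nat_lit 5) (nat_lit 399) (nat_lit 398) (nat_lit 103))) (XT.nd (nat_lit 78) (nat_lit 0) (nat_lit 0) (XT.lf (nat_lit 76) (nat_lit 30822019621) (nat_lit 0) (nat_lit 40252583436) (nat_lit 1216) (nat_lit 5054660182) (nat_lit 227) (nat_lit 5) (nat_lit 226) (nat_lit 5) (nat_lit 242) (nat_lit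 5) (nat_lit 400) (nat_lit 398) (nat_lit 102)) (XT.lf (nat_lit 76) (nat_lit 67934362423) (nat_lit 0) (nat_lit 4949585711) (nat_lit 1216) (nat_lit 4399638370) (nat_lit 227) (nat_lit 5) (nat_lit 226) (nat_lit 5) (nat_lit 242) (nat_lit 5) (nat_lit 401) (nat_lit 398) (nat_lit 101)))))) (XT.nd (nat_lit 46878) (nat_lit 0) (nat_lit 1064) (XT.nd (nat_lit 234) (nat_lit 0) (nat_lit 0) (XT.nd (nat_lit 78) (nat_lit 1140) (nat_lit 0) (XT.lf (nat_lit 76) (nat_lit 27930354314) (nat_lit 0) (nat_lit 47387235309) (nat_lit 1216) (nat_lit 3137849694) (nat_lit 228) (nat_lit 5) (nat_lit 227) (nat_lit 5) (nat_lit 243) (nat_lit 5) (nat_lit 402) (nat_lit 398) (nat_lit 100)) (XT.nd (nat_lit 78) (nat_lit 1140) (nat_lit 0) (XT.lf (nat_lit 76) (nat_lit 66469743950) (nat_lit 0) (nat_lit 11497016796) (nat_lit 1216) (nat_lit 1691411677) (nat_lit 228) (nat_lit 5) (nat_lit 227) (nat_lit 5) (nat_lit 243) (nat_lit 5) (nat_lit 403) (nat_lit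 398) (nat_lit 99)) (XT.lf (nat_lit 0) (nat_lit 296959923) (nat_lit 1216) (nat_lit 55363951170) (nat_lit 1292) (nat_lit 25221296657) (nat_lit 212) (nat_lit 5) (nat_lit 228) (nat_lit 5) (nat_lit 229) (nat_lit 5) (nat_lit 404) (nat_lit 398) (nat_lit 98)))) (XT.nd (nat_lit 46488) (nat_lit 0) (nat_lit 1064) (XT.nd (nat_lit 46410) (nat_lit 0) (nat_lit 1064) (XT.lf (nat_lit 0) (nat_lit 2558919605) (nat_lit 1216) (nat_lit 16614631287) (nat_lit 1292) (nat_lit 62961473158) (nat_lit 212) (nat_lit 5) (nat_lit 228) (nat_lit 5) (nat_lit 229) (nat_lit 5) (nat_lit 405) (nat_lit 398) (nat_lit 97)) (XT.lf (nat_lit 0) (nat_lit 17599657721) (nat_lit 0) (nat_lit 17599657721) (nat_lit 1140) (nat_lit 2858367308) (nat_lit 226) (nat_lit 5) (nat_lit 226) (nat_lit 3) (nat_lit 241) (nat_lit 3) (nat_lit 399) (nat_lit 399) (nat_lit 102))) (XT.nd (nat_lit 78) (nat_lit 0) (nat_lit 0) (XT.lf (nat_lit 0) (nat_lit 71470771944) (nat_lit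 1140) (nat_lit 5249282089) (nat_lit 1216) (nat_lit 536548645) (nat_lit 226) (nat_lit 5) (nat_lit 241) (nat_lit 3) (nat_lit 242) (nat_lit 5) (nat_lit 400) (nat_lit 399) (nat_lit 101)) (XT.lf (nat_lit 76) (nat_lit 31758475225) (nat_lit 0) (nat_lit 41469968573) (nat_lit 1216) (nat_lit 5184032505) (nat_lit 227) (nat_lit 5) (nat_lit 226) (nat_lit 5) (nat_lit 242) (nat_lit 5) (nat_lit 401) (nat_lit 399) (nat_lit 100))))) (XT.nd (nat_lit 46800) (nat_lit 0) (nat_lit 0) (XT.nd (nat_lit 78) (nat_lit 0) (nat_lit 76) (XT.lf (nat_lit 76) (nat_lit 69983844768) (nat_lit 0) (nat_lit 5107595258) (nat_lit 1216) (nat_lit 4510008606) (nat_lit 227) (nat_lit 5) (nat_lit 226) (nat_lit 5) (nat_lit 242) (nat_lit 5) (nat_lit 402) (nat_lit 399) (nat_lit 99)) (XT.nd (nat_lit 78) (nat_lit 0) (nat_lit 0) (XT.lf (nat_lit 76) (nat_lit 28780333919) (nat_lit 0) (nat_lit 48817173112) (nat_lit 1216) (nat_lit 3210967984) (nat_lit 228) (nat_lit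 5) (nat_lit 227) (nat_lit 5) (nat_lit 243) (nat_lit 5) (nat_lit 403) (nat_lit 399) (nat_lit 98)) (XT.lf (nat_lit 76) (nat_lit 68475553721) (nat_lit 0) (nat_lit 11850005692) (nat_lit 1216) (nat_lit 1721748977) (nat_lit 228) (nat_lit 5) (nat_lit 227) (nat_lit 5) (nat_lit 243) (nat_lit 5) (nat_lit 404) (nat_lit 399) (nat_lit 97)))) (XT.nd (nat_lit 156) (nat_lit 0) (nat_lit 0) (XT.nd (nat_lit 78) (nat_lit 0) (nat_lit 0) (XT.lf (nat_lit 0) (nat_lit 73635758471) (nat_lit 1140) (nat_lit 5395532539) (nat_lit 1216) (nat_lit 542367583) (nat_lit 226) (nat_lit 5) (nat_lit 241) (nat_lit 3) (nat_lit 242) (nat_lit 5) (nat_lit 401) (nat_lit 400) (nat_lit 99)) (XT.lf (nat_lit 76) (nat_lit 32722347416) (nat_lit 0) (nat_lit 42723312267) (nat_lit 1216) (nat_lit 5318564242) (nat_lit 227) (nat_lit 5) (nat_lit 226) (nat_lit 5) (nat_lit 242) (nat_lit 5) (nat_lit 402) (nat_lit 400) (nat_lit 98))) (XT.nd (nat_lit 46800) (nat_lit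 0) (nat_lit 0) (XT.lf (nat_lit 76) (nat_lit 72094154221) (nat_lit 0) (nat_lit 5269798491) (nat_lit 1216) (nat_lit 4624930964) (nat_lit 227) (nat_lit 5) (nat_lit 226) (nat_lit 5) (nat_lit 242) (nat_lit 5) (nat_lit 403) (nat_lit 400) (nat_lit 97)) (XT.lf (nat_lit 0) (nat_lit 75864496952) (nat_lit 1140) (nat_lit 5546815036) (nat_lit 1216) (nat_lit 548951061) (nat_lit 226) (nat_lit 5) (nat_lit 241) (nat_lit 3) (nat_lit 242) (nat_lit 5) (nat_lit 402) (nat_lit 401) (nat_lit 97))))))))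

set_option maxRecDepth 10000000 in
noncomputable def Tp : PT := (PT.nd (nat_lit 7278648) (PT.nd (nat_lit 6527898) (PT.nd (nat_lit 5778552) (PT.nd (nat_lit 5076006) (PT.nd (nat_lit 4420494) pc0 pc1) (PT.nd (nat_lit 375024) pc2 pc3)) (PT.nd (nat_lit 421902) (PT.nd (nat_lit 234312) pc4 pc5) (PT.nd (nat_lit 186888) pc6 pc7))) (PT.nd (nat_lit 422994) (PT.nd (nat_lit 234936) (PT.nd (nat_lit 140166) pc8 pc9) (PT.nd (nat_lit 94224) pc10 pc11)) (PT.nd (nat_lit 186576) (PT.nd (nat_lit 93444) pc12 pc13) (PT.nd (nat_lit 92586) pc14 pc15)))) (PT.nd (nat_lit 468156) (PT.nd (nat_lit 278850) (PT.nd (nat_lit 140010) (PT.nd (nat_lit 91806) pc16 pc17) (PT.nd (nat_lit 48048) pc18 pc19)) (PT.nd (nat_lit 94926) (PT.nd (nat_lit 47502) pc20 pc21) (PT.nd (nat_lit 47268) pc22 pc23))) (PT.nd (nat_lit 324246) (PT.nd (nat_lit 137358) (PT.nd (nat_lit 47268) pc24 pc25) (PT.nd (nat_lit 51480) pc26 pc27)) (PT.nd (nat_lit 280800) (PT.nd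 (nat_lit 99216) pc28 pc29) (PT.nd (nat_lit 233376) pc30 pc31)))))

set_option maxRecDepth 10000000 in
noncomputable def Tx : XT := (XT.nd (nat_lit 10629450) (nat_lit 0) (nat_lit 152) XT.nil (XT.nd (nat_lit 8200062) (nat_lit 0) (nat_lit 0) (XT.nd (nat_lit 3840642) (nat_lit 0) (nat_lit 988) (XT.nd (nat_lit 2667522) (nat_lit 0) (nat_lit 456) (XT.nd (nat_lit 1870440) (nat_lit 0) (nat_lit 228) (XT.nd (nat_lit 1308762) (nat_lit 0) (nat_lit 152) (XT.nd (nat_lit 889590) (nat_lit 0) (nat_lit 152) (XT.nd (nat_lit 608634) (nat_lit 0) (nat_lit 152) (XT.nd (nat_lit 420966) (nat_lit 0) (nat_lit 152) (XT.nd (nat_lit 280644) (nat_lit 0) (nat_lit 76) xc0 xc1) (XT.nd (nat_lit 94146) (nat_lit 0) (nat_lit 0) xc2 xc3)) (XT.nd (nat_lit 141180) (nat_lit 0) (nat_lit 0) (XT.nd (nat_lit 92898) (nat_lit 0) (nat_lit 0) xc4 xc5) (XT.nd (nat_lit 91962) (nat_lit 0) (nat_lit 0) xc6 xc7))) (XT.nd (nat_lit 232596) (nat_lit 0) (nat_lit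 0) (XT.nd (nat_lit 138372) (nat_lit 0) (nat_lit 0) (XT.nd (nat_lit 47658) (nat_lit 0) (nat_lit 0) xc8 xc9) (XT.nd (nat_lit 47190) (nat_lit 0) (nat_lit 0) xc10 xc11)) (XT.nd (nat_lit 93600) (nat_lit 0) (nat_lit 0) (XT.nd (nat_lit 46878) (nat_lit 0) (nat_lit 0) xc12 xc13) (XT.nd (nat_lit 46566) (nat_lit 0) (nat_lit 0) xc14 xc15)))) (XT.nd (nat_lit 283452) (nat_lit 0) (nat_lit 0) (XT.nd (nat_lit 142428) (nat_lit 0) (nat_lit 0) (XT.nd (nat_lit 50388) (nat_lit 0) (nat_lit 0) (XT.nd (nat_lit 46254) (nat_lit 0) (nat_lit 76) xc16 xc17) (XT.nd (nat_lit 46098) (nat_lit 0) (nat_lit 0) xc18 xc19)) (XT.nd (nat_lit 91416) (nat_lit 0) (nat_lit 0) (XT.nd (nat_lit 45786) (nat_lit 0) (nat_lit 0) xc20 xc21) (XT.nd (nat_lit 4134) (nat_lit 76) (nat_lit 0) xc22 xc23))) (XT.nd (nat_lit 139776) (nat_lit 0) (nat_lit 76) (XT.nd (nat_lit 90558) (nat_lit 0) (nat_lit 76) (XT.nd (nat_lit 45318) (nat_lit 0) (nat_lit 76) xc24 xc25) (XT.nd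 (nat_lit 4134) (nat_lit 152) (nat_lit 0) xc26 xc27)) (XT.nd (nat_lit 49062) (nat_lit 0) (nat_lit 0) (XT.nd (nat_lit 44928) (nat_lit 0) (nat_lit 0) xc28 xc29) (XT.nd (nat_lit 44772) (nat_lit 0) (nat_lit 0) xc30 xc31))))) (XT.nd (nat_lit 423384) (nat_lit 0) (nat_lit 76) (XT.nd (nat_lit 233064) (nat_lit 0) (nat_lit 0) (XT.nd (nat_lit 96954) (nat_lit 0) (nat_lit 0) (XT.nd (nat_lit 48516) (nat_lit 0) (nat_lit 0) (XT.nd (nat_lit 4056) (nat_lit 152) (nat_lit 0) xc32 xc33) (XT.nd (nat_lit 44304) (nat_lit 0) (nat_lit 304) xc34 xc35)) (XT.nd (nat_lit 48282) (nat_lit 0) (nat_lit 0) (XT.nd (nat_lit 44148) (nat_lit 0) (nat_lit 0) xc36 xc37) (XT.nd (nat_lit 43992) (nat_lit 0) (nat_lit 0) xc38 xc39))) (XT.nd (nat_lit 95472) (nat_lit 0) (nat_lit 0) (XT.nd (nat_lit 47814) (nat_lit 0) (nat_lit 0) (XT.nd (nat_lit 4134) (nat_lit 456) (nat_lit 0) xc40 xc41) (XT.nd (nat_lit 4134) (nat_lit 228) (nat_lit 0) xc42 xc43)) (XT.nd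 (nat_lit 47502) (nat_lit 0) (nat_lit 76) (XT.nd (nat_lit 4134) (nat_lit 152) (nat_lit 0) xc44 xc45) (XT.nd (nat_lit 43212) (nat_lit 0) (nat_lit 988) xc46 xc47)))) (XT.nd (nat_lit 188058) (nat_lit 0) (nat_lit 76) (XT.nd (nat_lit 94302) (nat_lit 0) (nat_lit 76) (XT.nd (nat_lit 47190) (nat_lit 0) (nat_lit 76) (XT.nd (nat_lit 43056) (nat_lit 0) (nat_lit 836) xc48 xc49) (XT.nd (nat_lit 42978) (nat_lit 0) (nat_lit 684) xc50 xc51)) (XT.nd (nat_lit 46956) (nat_lit 0) (nat_lit 0) (XT.nd (nat_lit 42822) (nat_lit 0) (nat_lit 684) xc52 xc53) (XT.nd (nat_lit 42666) (nat_lit 0) (nat_lit 760) xc54 xc55))) (XT.nd (nat_lit 93132) (nat_lit 0) (nat_lit 0) (XT.nd (nat_lit 46644) (nat_lit 0) (nat_lit 0) (XT.nd (nat_lit 42510) (nat_lit 0) (nat_lit 836) xc56 xc57) (XT.nd (nat_lit 42354) (nat_lit 0) (nat_lit 1064) xc58 xc59)) (XT.nd (nat_lit 46332) (nat_lit 0) (nat_lit 76) (XT.nd (nat_lit 42198) (nat_lit 0) (nat_lit 1520) xc60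 xc61) (XT.nd (nat_lit 42042) (nat_lit 0) (nat_lit 1976) xc62 xc63)))))) (XT.nd (nat_lit 611754) (nat_lit 0) (nat_lit 228) (XT.nd (nat_lit 327366) (nat_lit 0) (nat_lit 76) (XT.nd (nat_lit 183144) (nat_lit 0) (nat_lit 0) (XT.nd (nat_lit 91806) (nat_lit 0) (nat_lit 0) (XT.nd (nat_lit 45942) (nat_lit 0) (nat_lit 0) (XT.nd (nat_lit 4056) (nat_lit 76) (nat_lit 0) xc64 xc65) (XT.nd (nat_lit 4134) (nat_lit 304) (nat_lit 0) xc66 xc67)) (XT.nd (nat_lit 45708) (nat_lit 0) (nat_lit 0) (XT.nd (nat_lit 4134) (nat_lit 684) (nat_lit 0) xc68 xc69) (XT.nd (nat_lit 4134) (nat_lit 1216) (nat_lit 0) xc70 xc71))) (XT.nd (nat_lit 53742) (nat_lit 0) (nat_lit 0) (XT.nd (nat_lit 8268) (nat_lit 152) (nat_lit 0) (XT.nd (nat_lit 4134) (nat_lit 2204) (nat_lit 0) xc72 xc73) (XT.nd (nat_lit 41340) (nat_lit 0) (nat_lit 684) xc74 xc75)) (XT.nd (nat_lit 45318) (nat_lit 0) (nat_lit 76) (XT.nd (nat_lit 41184) (nat_lit 0) (nat_lit 1444) xc76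 xc77) (XT.nd (nat_lit 41028) (nat_lit 0) (nat_lit 3116) xc78 xc79)))) (XT.nd (nat_lit 142818) (nat_lit 0) (nat_lit 76) (XT.nd (nat_lit 89856) (nat_lit 0) (nat_lit 76) (XT.nd (nat_lit 45006) (nat_lit 0) (nat_lit 76) (XT.nd (nat_lit 4134) (nat_lit 304) (nat_lit 0) xc80 xc81) (XT.nd (nat_lit 4134) (nat_lit 988) (nat_lit 0) xc82 xc83)) (XT.nd (nat_lit 8268) (nat_lit 228) (nat_lit 0) (XT.nd (nat_lit 4134) (nat_lit 2584) (nat_lit 0) xc84 xc85) (XT.nd (nat_lit 40560) (nat_lit 0) (nat_lit 1064) xc86 xc87))) (XT.nd (nat_lit 88998) (nat_lit 0) (nat_lit 76) (XT.nd (nat_lit 44538) (nat_lit 0) (nat_lit 76) (XT.nd (nat_lit 40404) (nat_lit 0) (nat_lit 3420) xc88 xc89) (XT.nd (nat_lit 4134) (nat_lit 304) (nat_lit 0) xc90 xc91)) (XT.nd (nat_lit 44304) (nat_lit 0) (nat_lit 684) (XT.nd (nat_lit 4134) (nat_lit 1596) (nat_lit 0) xc92 xc93) (XT.nd (nat_lit 4134) (nat_lit 4256) (nat_lit 0) xc94 xc95))))) (XT.nd (nat_lit 279708)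 (nat_lit 0) (nat_lit 152) (XT.nd (nat_lit 140166) (nat_lit 0) (nat_lit 0) (XT.nd (nat_lit 88062) (nat_lit 0) (nat_lit 0) (XT.nd (nat_lit 44070) (nat_lit 0) (nat_lit 0) (XT.nd (nat_lit 39936) (nat_lit 0) (nat_lit 2964) xc96 xc97) (XT.nd (nat_lit 4134) (nat_lit 228) (nat_lit 0) xc98 xc99)) (XT.nd (nat_lit 43836) (nat_lit 0) (nat_lit 988) (XT.nd (nat_lit 4134) (nat_lit 1748) (nat_lit 0) xc100 xc101) (XT.nd (nat_lit 4134) (nat_lit 5016) (nat_lit 0) xc102 xc103))) (XT.nd (nat_lit 87438) (nat_lit 0) (nat_lit 76) (XT.nd (nat_lit 43680) (nat_lit 0) (nat_lit 76) (XT.nd (nat_lit 39546) (nat_lit 0) (nat_lit 4408) xc104 xc105) (XT.nd (nat_lit 4134) (nat_lit 532) (nat_lit 0) xc106 xc107)) (XT.nd (nat_lit 8268) (nat_lit 152) (nat_lit 0) (XT.nd (nat_lit 4134) (nat_lit 2736) (nat_lit 0) xc108 xc109) (XT.nd (nat_lit 39702) (nat_lit 0) (nat_lit 1824) xc110 xc111)))) (XT.nd (nat_lit 140478) (nat_lit 0) (nat_lit 76) (XT.nd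 (nat_lit 88062) (nat_lit 0) (nat_lit 76) (XT.nd (nat_lit 43992) (nat_lit 0) (nat_lit 0) (XT.nd (nat_lit 39858) (nat_lit 0) (nat_lit 6080) xc112 xc113) (XT.nd (nat_lit 4134) (nat_lit 988) (nat_lit 0) xc114 xc115)) (XT.nd (nat_lit 8268) (nat_lit 304) (nat_lit 0) (XT.nd (nat_lit 4134) (nat_lit 3420) (nat_lit 0) xc116 xc117) (XT.nd (nat_lit 40014) (nat_lit 0) (nat_lit 1976) xc118 xc119))) (XT.nd (nat_lit 88530) (nat_lit 0) (nat_lit 0) (XT.nd (nat_lit 44226) (nat_lit 0) (nat_lit 0) (XT.nd (nat_lit 40092) (nat_lit 0) (nat_lit 6080) xc120 xc121) (XT.nd (nat_lit 4134) (nat_lit 988) (nat_lit 0) xc122 xc123)) (XT.nd (nat_lit 8268) (nat_lit 228) (nat_lit 0) (XT.nd (nat_lit 4134) (nat_lit 3192) (nat_lit 0) xc124 xc125) (XT.nd (nat_lit 40248) (nat_lit 0) (nat_lit 1824) xc126 xc127))))))) (XT.nd (nat_lit 1357434) (nat_lit 0) (nat_lit 1596) (XT.nd (nat_lit 610896) (nat_lit 0) (nat_lit 456) (XT.nd (nat_lit 321750) (nat_lit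 0) (nat_lit 228) (XT.nd (nat_lit 142038) (nat_lit 0) (nat_lit 76) (XT.nd (nat_lit 89076) (nat_lit 0) (nat_lit 76) (XT.nd (nat_lit 44460) (nat_lit 0) (nat_lit 0) (XT.nd (nat_lit 40326) (nat_lit 0) (nat_lit 4864) xc128 xc129) (XT.nd (nat_lit 4134) (nat_lit 608) (nat_lit 0) xc130 xc131)) (XT.nd (nat_lit 44694) (nat_lit 0) (nat_lit 836) (XT.nd (nat_lit 4134) (nat_lit 2356) (nat_lit 0) xc132 xc133) (XT.nd (nat_lit 4134) (nat_lit 4788) (nat_lit 0) xc134 xc135))) (XT.nd (nat_lit 89622) (nat_lit 0) (nat_lit 76) (XT.nd (nat_lit 44772) (nat_lit 0) (nat_lit 76) (XT.nd (nat_lit 40638) (nat_lit 0) (nat_lit 2584) xc136 xc137) (XT.nd (nat_lit 40716) (nat_lit 0) (nat_lit 5776) xc138 xc139)) (XT.nd (nat_lit 45006) (nat_lit 0) (nat_lit 0) (XT.nd (nat_lit 4134) (nat_lit 760) (nat_lit 0) xc140 xc141) (XT.nd (nat_lit 4134) (nat_lit 2432) (nat_lit 0) xc142 xc143)))) (XT.nd (nat_lit 144144) (nat_lit 0) (nat_lit 152) (XT.nd (nat_lit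 53430) (nat_lit 0) (nat_lit 0) (XT.nd (nat_lit 8268) (nat_lit 456) (nat_lit 0) (XT.nd (nat_lit 4134) (nat_lit 4636) (nat_lit 0) xc144 xc145) (XT.nd (nat_lit 41028) (nat_lit 0) (nat_lit 1824) xc146 xc147)) (XT.nd (nat_lit 45318) (nat_lit 0) (nat_lit 0) (XT.nd (nat_lit 41184) (nat_lit 0) (nat_lit 3800) xc148 xc149) (XT.nd (nat_lit 4212) (nat_lit 152) (nat_lit 0) xc150 xc151))) (XT.nd (nat_lit 91104) (nat_lit 0) (nat_lit 0) (XT.nd (nat_lit 45552) (nat_lit 0) (nat_lit 0) (XT.nd (nat_lit 4134) (nat_lit 912) (nat_lit 0) xc152 xc153) (XT.nd (nat_lit 4134) (nat_lit 2204) (nat_lit 0) xc154 xc155)) (XT.nd (nat_lit 8268) (nat_lit 76) (nat_lit 0) (XT.nd (nat_lit 4134) (nat_lit 3876) (nat_lit 0) xc156 xc157) (XT.nd (nat_lit 41496) (nat_lit 0) (nat_lit 912) xc158 xc159))))) (XT.nd (nat_lit 369720) (nat_lit 0) (nat_lit 532) (XT.nd (nat_lit 183846) (nat_lit 0) (nat_lit 152) (XT.nd (nat_lit 91650) (nat_lit 0) (nat_lit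 152) (XT.nd (nat_lit 45708) (nat_lit 0) (nat_lit 0) (XT.nd (nat_lit 41574) (nat_lit 0) (nat_lit 1976) xc160 xc161) (XT.nd (nat_lit 41808) (nat_lit 0) (nat_lit 3116) xc162 xc163)) (XT.nd (nat_lit 46098) (nat_lit 0) (nat_lit 0) (XT.nd (nat_lit 41964) (nat_lit 0) (nat_lit 4256) xc164 xc165) (XT.nd (nat_lit 41964) (nat_lit 0) (nat_lit 6004) xc166 xc167))) (XT.nd (nat_lit 92664) (nat_lit 0) (nat_lit 304) (XT.nd (nat_lit 46254) (nat_lit 0) (nat_lit 76) (XT.nd (nat_lit 4134) (nat_lit 608) (nat_lit 0) xc168 xc169) (XT.nd (nat_lit 4134) (nat_lit 1064) (nat_lit 0) xc170 xc171)) (XT.nd (nat_lit 46566) (nat_lit 0) (nat_lit 76) (XT.nd (nat_lit 4134) (nat_lit 1292) (nat_lit 0) xc172 xc173) (XT.nd (nat_lit 4134) (nat_lit 1596) (nat_lit 0) xc174 xc175)))) (XT.nd (nat_lit 187590) (nat_lit 0) (nat_lit 304) (XT.nd (nat_lit 93600) (nat_lit 0) (nat_lit 228) (XT.nd (nat_lit 46722) (nat_lit 0) (nat_lit 152) (XT.nd (nat_lit 4134)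 (nat_lit 1976) (nat_lit 0) xc176 xc177) (XT.nd (nat_lit 4134) (nat_lit 2052) (nat_lit 0) xc178 xc179)) (XT.nd (nat_lit 46956) (nat_lit 0) (nat_lit 0) (XT.nd (nat_lit 4134) (nat_lit 2128) (nat_lit 0) xc180 xc181) (XT.nd (nat_lit 4134) (nat_lit 2128) (nat_lit 0) xc182 xc183))) (XT.nd (nat_lit 94458) (nat_lit 0) (nat_lit 152) (XT.nd (nat_lit 47190) (nat_lit 0) (nat_lit 152) (XT.nd (nat_lit 4134) (nat_lit 1900) (nat_lit 0) xc184 xc185) (XT.nd (nat_lit 4134) (nat_lit 1520) (nat_lit 0) xc186 xc187)) (XT.nd (nat_lit 47346) (nat_lit 0) (nat_lit 76) (XT.nd (nat_lit 4134) (nat_lit 1140) (nat_lit 0) xc188 xc189) (XT.nd (nat_lit 4134) (nat_lit 684) (nat_lit 0) xc190 xc191)))))) (XT.nd (nat_lit 937794) (nat_lit 0) (nat_lit 2432) (XT.nd (nat_lit 423384) (nat_lit 0) (nat_lit 836) (XT.nd (nat_lit 190788) (nat_lit 0) (nat_lit 304) (XT.nd (nat_lit 95160) (nat_lit 0) (nat_lit 152) (XT.nd (nat_lit 47502) (nat_lit 0) (nat_lit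 152) (XT.nd (nat_lit 4056) (nat_lit 228) (nat_lit 0) xc192 xc193) (XT.nd (nat_lit 43524) (nat_lit 0) (nat_lit 3876) xc194 xc195)) (XT.nd (nat_lit 47736) (nat_lit 0) (nat_lit 152) (XT.nd (nat_lit 43602) (nat_lit 0) (nat_lit 2508) xc196 xc197) (XT.nd (nat_lit 43758) (nat_lit 0) (nat_lit 1064) xc198 xc199))) (XT.nd (nat_lit 135954) (nat_lit 0) (nat_lit 380) (XT.nd (nat_lit 87750) (nat_lit 0) (nat_lit 304) (XT.nd (nat_lit 43836) (nat_lit 0) (nat_lit 152) xc200 xc201) (XT.nd (nat_lit 4134) (nat_lit 4028) (nat_lit 0) xc202 xc203)) (XT.nd (nat_lit 48282) (nat_lit 0) (nat_lit 152) (XT.nd (nat_lit 4134) (nat_lit 1748) (nat_lit 0) xc204 xc205) (XT.nd (nat_lit 44226) (nat_lit 0) (nat_lit 4104) xc206 xc207)))) (XT.nd (nat_lit 235248) (nat_lit 0) (nat_lit 532) (XT.nd (nat_lit 137514) (nat_lit 0) (nat_lit 380) (XT.nd (nat_lit 48516) (nat_lit 0) (nat_lit 152) (XT.nd (nat_lit 44382) (nat_lit 0) (nat_lit 1368) xc208 xc209)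 (XT.nd (nat_lit 44460) (nat_lit 0) (nat_lit 76) xc210 xc211)) (XT.nd (nat_lit 48828) (nat_lit 0) (nat_lit 152) (XT.nd (nat_lit 4134) (nat_lit 2280) (nat_lit 0) xc212 xc213) (XT.nd (nat_lit 44772) (nat_lit 0) (nat_lit 2660) xc214 xc215))) (XT.nd (nat_lit 139074) (nat_lit 0) (nat_lit 608) (XT.nd (nat_lit 89856) (nat_lit 0) (nat_lit 380) (XT.nd (nat_lit 44850) (nat_lit 0) (nat_lit 228) xc216 xc217) (XT.nd (nat_lit 4134) (nat_lit 1976) (nat_lit 0) xc218 xc219)) (XT.nd (nat_lit 49374) (nat_lit 0) (nat_lit 0) (XT.nd (nat_lit 45240) (nat_lit 0) (nat_lit 988) xc220 xc221) (XT.nd (nat_lit 45318) (nat_lit 0) (nat_lit 228) xc222 xc223))))) (XT.nd (nat_lit 655668) (nat_lit 0) (nat_lit 2888) (XT.nd (nat_lit 283062) (nat_lit 0) (nat_lit 1064) (XT.nd (nat_lit 141024) (nat_lit 0) (nat_lit 532) (XT.nd (nat_lit 49608) (nat_lit 0) (nat_lit 0) (XT.nd (nat_lit 45474) (nat_lit 0) (nat_lit 1292) xc224 xc225) (XT.nd (nat_lit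 45630) (nat_lit 0) (nat_lit 304) xc226 xc227)) (XT.nd (nat_lit 91806) (nat_lit 0) (nat_lit 228) (XT.nd (nat_lit 45864) (nat_lit 0) (nat_lit 0) xc228 xc229) (XT.nd (nat_lit 4134) (nat_lit 1444) (nat_lit 0) xc230 xc231))) (XT.nd (nat_lit 185406) (nat_lit 0) (nat_lit 836) (XT.nd (nat_lit 92508) (nat_lit 0) (nat_lit 228) (XT.nd (nat_lit 46176) (nat_lit 0) (nat_lit 228) xc232 xc233) (XT.nd (nat_lit 46410) (nat_lit 0) (nat_lit 304) xc234 xc235)) (XT.nd (nat_lit 93366) (nat_lit 0) (nat_lit 304) (XT.nd (nat_lit 46644) (nat_lit 0) (nat_lit 0) xc236 xc237) (XT.nd (nat_lit 46878) (nat_lit 0) (nat_lit 304) xc238 xc239)))) (XT.nd (nat_lit 423930) (nat_lit 0) (nat_lit 2660) (XT.nd (nat_lit 189072) (nat_lit 0) (nat_lit 1064) (XT.nd (nat_lit 94302) (nat_lit 0) (nat_lit 304) (XT.nd (nat_lit 47112) (nat_lit 0) (nat_lit 0) xc240 xc241) (XT.nd (nat_lit 47346) (nat_lit 0) (nat_lit 380) xc242 xc243)) (XT.nd (nat_lit 95238)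 (nat_lit 0) (nat_lit 380) (XT.nd (nat_lit 47580) (nat_lit 0) (nat_lit 0) xc244 xc245) (XT.nd (nat_lit 91572) (nat_lit 0) (nat_lit 836) xc246 xc247))) (XT.nd (nat_lit 327288) (nat_lit 0) (nat_lit 2964) (XT.nd (nat_lit 140712) (nat_lit 0) (nat_lit 912) (XT.nd (nat_lit 92274) (nat_lit 0) (nat_lit 912) xc248 xc249) (XT.nd (nat_lit 93054) (nat_lit 0) (nat_lit 988) xc250 xc251)) (XT.nd (nat_lit 188682) (nat_lit 0) (nat_lit 1824) (XT.nd (nat_lit 94068) (nat_lit 0) (nat_lit 684) xc252 xc253) (XT.nd (nat_lit 140790) (nat_lit 0) (nat_lit 608) xc254 xc255)))))))) XT.nil))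

set_option maxRecDepth 10000000 in
noncomputable def Te : XT := XT.nil

set_option maxRecDepth 10000000 in
noncomputable def Tz : ZL := (ZL.cons (nat_lit 76) (nat_lit 3) (nat_lit 118681818393837558956) (ZL.cons (nat_lit 152) (nat_lit 6) (nat_lit 234070800910527178634) (ZL.cons (nat_lit 228) (nat_lit 6) (nat_lit 230880397378642754076) (ZL.cons (nat_lit 304) (nat_lit 3) (nat_lit 115390637748046019182) (ZL.cons (nat_lit 380) (nat_lit 6) (nat_lit 227594281740801796782) (ZL.cons (nat_lit 456) (nat_lit 6) (nat_lit 224507034892831443002) (ZL.cons (nat_lit 532) (nat_lit 3) (nat_lit 112205400027701781833) (ZL.cons (nat_lit 608) (nat_lit 6) (nat_lit 221327170639421978604) (ZL.cons (nat_lit 684) (nat_lit 6) (nat_lit 218340699059386766422) (ZL.cons (nat_lit 760) (nat_lit 3) (nat_lit 109123633589194412662) (ZL.cons (nat_lit 836) (nat_lit 6) (nat_lit 215264633331950497876) (ZL.cons (nat_lit 912) (nat_lit 6) (nat_lit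 212376662915192632678) (ZL.cons (nat_lit 988) (nat_lit 3) (nat_lit 106142976175558480853) (ZL.cons (nat_lit 1064) (nat_lit 6) (nat_lit 209402053385932031522) (ZL.cons (nat_lit 1140) (nat_lit 6) (nat_lit 206610416524678555442) (ZL.cons (nat_lit 1216) (nat_lit 3) (nat_lit 103261174007933612202) (ZL.cons (nat_lit 1292) (nat_lit 6) (nat_lit 203735030557587475082) (ZL.cons (nat_lit 1368) (nat_lit 6) (nat_lit 201037665490983607078) (ZL.cons (nat_lit 1444) (nat_lit 3) (nat_lit 100476081042185332159) (ZL.cons (nat_lit 1520) (nat_lit 6) (nat_lit 198259379472381623032) (ZL.cons (nat_lit 1596) (nat_lit 6) (nat_lit 195654329804774923902) (ZL.cons (nat_lit 1672) (nat_lit 3) (nat_lit 97785658394322926633) (ZL.cons (nat_lit 1748) (nat_lit 6) (nat_lit 192971128647140023798) (ZL.cons (nat_lit 1824) (nat_lit 6) (nat_lit 190456543038808449926) (ZL.cons (nat_lit 1900) (nat_lit 3) (nat_lit 95187973938759045042) (ZL.cons (nat_lit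 1976) (nat_lit 6) (nat_lit 188025362752925405034) (ZL.cons (nat_lit 2052) (nat_lit 6) (nat_lit 187866519862226928838) (ZL.cons (nat_lit 2128) (nat_lit 6) (nat_lit 185440651897175508952) (ZL.cons (nat_lit 2204) (nat_lit 3) (nat_lit 92681202083883696299) (ZL.cons (nat_lit 2280) (nat_lit 6) (nat_lit 183096224291908931122) (ZL.cons (nat_lit 2356) (nat_lit 6) (nat_lit 182942007893172546468) (ZL.cons (nat_lit 2432) (nat_lit 6) (nat_lit 180603216129076239606) (ZL.cons (nat_lit 2508) (nat_lit 3) (nat_lit 90263623729873985653) (ZL.cons (nat_lit 2584) (nat_lit 6) (nat_lit 178343985271024407282) (ZL.cons (nat_lit 2660) (nat_lit 6) (nat_lit 178194260612057043540) (ZL.cons (nat_lit 2736) (nat_lit 6) (nat_lit 175941008817902751688) (ZL.cons (nat_lit 2812) (nat_lit 3) (nat_lit 87933626414131828123) (ZL.cons (nat_lit 2888) (nat_lit 6) (nat_lit 173765523216494087140) (ZL.cons (nat_lit 2964) (nat_lit 6) (nat_lit 173620159469923831076)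 (ZL.cons (nat_lit 3040) (nat_lit 6) (nat_lit 171451017057404067214) (ZL.cons (nat_lit 3116) (nat_lit 3) (nat_lit 85689704650236453296) (ZL.cons (nat_lit 3192) (nat_lit 6) (nat_lit 169357930223547793990) (ZL.cons (nat_lit 3268) (nat_lit 6) (nat_lit 169216800372508710436) (ZL.cons (nat_lit 3344) (nat_lit 6) (nat_lit 167339070057529311744) (ZL.cons (nat_lit 3420) (nat_lit 6) (nat_lit 167130443027744671946) (ZL.cons (nat_lit 3496) (nat_lit 3) (nat_lit 83530460466818374507) (ZL.cons (nat_lit 3572) (nat_lit 6) (nat_lit 165118514235491191480) (ZL.cons (nat_lit 3648) (nat_lit 6) (nat_lit 164981494962637712304) (ZL.cons (nat_lit 3724) (nat_lit 6) (nat_lit 163179255999716202892) (ZL.cons (nat_lit 3800) (nat_lit 6) (nat_lit 162976705485362183670) (ZL.cons (nat_lit 3876) (nat_lit 3) (nat_lit 81454604153308313713) (ZL.cons (nat_lit 3952) (nat_lit 6) (nat_lit 161044800744014485468) (ZL.cons (nat_lit 4028) (nat_lit 6)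 (nat_lit 160911772323768389178) (ZL.cons (nat_lit 4104) (nat_lit 6) (nat_lit 159184092666490527478) (ZL.cons (nat_lit 4180) (nat_lit 6) (nat_lit 158987441681680800076) (ZL.cons (nat_lit 4256) (nat_lit 3) (nat_lit 79460955220090130015) (ZL.cons (nat_lit 4332) (nat_lit 6) (nat_lit 157134534926394754456) (ZL.cons (nat_lit 4408) (nat_lit 6) (nat_lit 157005381120330583298) (ZL.cons (nat_lit 4484) (nat_lit 6) (nat_lit 155351433013172623734) (ZL.cons (nat_lit 4560) (nat_lit 6) (nat_lit 155160509726949587420) (ZL.cons (nat_lit 4636) (nat_lit 3) (nat_lit 77548443581192978154) (ZL.cons (nat_lit 4712) (nat_lit 6) (nat_lit 153636577891798971098) (ZL.cons (nat_lit 4788) (nat_lit 6) (nat_lit 153385684236489657934) (ZL.cons (nat_lit 4864) (nat_lit 6) (nat_lit 153260292191767161666) (ZL.cons (nat_lit 4940) (nat_lit 6) (nat_lit 151679353830561072568) (ZL.cons (nat_lit 5016) (nat_lit 6) (nat_lit 151493991416752299450) (ZL.cons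 (nat_lit 5092) (nat_lit 3) (nat_lit 75716110968296717147) (ZL.cons (nat_lit 5168) (nat_lit 6) (nat_lit 150040027540847971398) (ZL.cons (nat_lit 5244) (nat_lit 6) (nat_lit 149796441467732133376) (ZL.cons (nat_lit 5320) (nat_lit 6) (nat_lit 149674701618486991370) (ZL.cons (nat_lit 5396) (nat_lit 6) (nat_lit 148466272946320508022) (ZL.cons (nat_lit 5472) (nat_lit 6) (nat_lit 148166159048634704074) (ZL.cons (nat_lit 5548) (nat_lit 6) (nat_lit 147986195540082497164) (ZL.cons (nat_lit 5624) (nat_lit 3) (nat_lit 73963112585498110157) (ZL.cons (nat_lit 5700) (nat_lit 6) (nat_lit 146601719640841382722) (ZL.cons (nat_lit 5776) (nat_lit 6) (nat_lit 146365228307719209886) (ZL.cons (nat_lit 5852) (nat_lit 6) (nat_lit 146247034279325868132) (ZL.cons (nat_lit 5928) (nat_lit 6) (nat_lit 145101756258461864478) (ZL.cons (nat_lit 6004) (nat_lit 6) (nat_lit 144810383542262054820) (ZL.cons (nat_lit 6080) (nat_lit 6) (nat_lit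 144635661689298747140) (ZL.cons (nat_lit 6156) (nat_lit 3) (nat_lit 72288719014995841118) (ZL.cons (nat_lit 6232) (nat_lit 6) (nat_lit 143320302641488787850) (ZL.cons (nat_lit 6308) (nat_lit 6) (nat_lit 143090699405447843348) (ZL.cons (nat_lit 6384) (nat_lit 6) (nat_lit 142975947921570812518) (ZL.cons (nat_lit 6460) (nat_lit 6) (nat_lit 141893683592961840102) (ZL.cons (nat_lit 6536) (nat_lit 6) (nat_lit 141610797460729015190) (ZL.cons (nat_lit 6612) (nat_lit 6) (nat_lit 141441164593774347538) (ZL.cons (nat_lit 6688) (nat_lit 3) (nat_lit 70692318384602190806) (ZL.cons (nat_lit 6764) (nat_lit 6) (nat_lit 140529279836347547252) (ZL.cons (nat_lit 6840) (nat_lit 6) (nat_lit 140194662736938139420) (ZL.cons (nat_lit 6916) (nat_lit 6) (nat_lit 139971746973791591358) (ZL.cons (nat_lit 6992) (nat_lit 6) (nat_lit 139860337766143988610) (ZL.cons (nat_lit 7068) (nat_lit 6) (nat_lit 138841057834802000704) (ZL.cons (nat_lit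 7144) (nat_lit 6) (nat_lit 138566411104478869722) (ZL.cons (nat_lit 7220) (nat_lit 6) (nat_lit 138401719000639386564) (ZL.cons (nat_lit 7296) (nat_lit 3) (nat_lit 69173418808780874871) (ZL.cons (nat_lit 7372) (nat_lit 6) (nat_lit 137548799992755625720) (ZL.cons (nat_lit 7448) (nat_lit 6) (nat_lit 137223929022455229766) (ZL.cons (nat_lit 7524) (nat_lit 6) (nat_lit 137007505951439163688) (ZL.cons (nat_lit 7600) (nat_lit 6) (nat_lit 136899341672169646456) (ZL.cons (nat_lit 7676) (nat_lit 6) (nat_lit 136316760053461304044) (ZL.cons (nat_lit 7752) (nat_lit 6) (nat_lit 135943127685124728506) (ZL.cons (nat_lit 7828) (nat_lit 6) (nat_lit 135676480374131397456) (ZL.cons (nat_lit 7904) (nat_lit 6) (nat_lit 135516585127685297304) (ZL.cons (nat_lit 7980) (nat_lit 3) (nat_lit 67731651115746708447) (ZL.cons (nat_lit 8056) (nat_lit 6) (nat_lit 134722887945687756764) (ZL.cons (nat_lit 8132) (nat_lit 6) (nat_lit 134407479236658246130)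 (ZL.cons (nat_lit 8208) (nat_lit 6) (nat_lit 134197359750234881006) (ZL.cons (nat_lit 8284) (nat_lit 6) (nat_lit 134092345886866417676) (ZL.cons (nat_lit 8360) (nat_lit 6) (nat_lit 133562143575245777382) (ZL.cons (nat_lit 8436) (nat_lit 6) (nat_lit 133199393703074344820) (ZL.cons (nat_lit 8512) (nat_lit 6) (nat_lit 132940512818614800112) (ZL.cons (nat_lit 8588) (nat_lit 6) (nat_lit 132785274715269071810) (ZL.cons (nat_lit 8664) (nat_lit 3) (nat_lit 66366771874046244445) (ZL.cons (nat_lit 8740) (nat_lit 6) (nat_lit 132459880331145006108) (ZL.cons (nat_lit 8816) (nat_lit 6) (nat_lit 132051168164661027984) (ZL.cons (nat_lit 8892) (nat_lit 6) (nat_lit 131744946117059561348) (ZL.cons (nat_lit 8968) (nat_lit 6) (nat_lit 131540946615677653462) (ZL.cons (nat_lit 9044) (nat_lit 6) (nat_lit 131438991408523805570) (ZL.cons (nat_lit 9120) (nat_lit 6) (nat_lit 130961799317549779132) (ZL.cons (nat_lit 9196) (nat_lit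 6) (nat_lit 130609614975635766934) (ZL.cons (nat_lit 9272) (nat_lit 6) (nat_lit 130358274311111937120) (ZL.cons (nat_lit 9348) (nat_lit 6) (nat_lit 130207557705921909644) (ZL.cons (nat_lit 9424) (nat_lit 3) (nat_lit 65078666732972322336) (ZL.cons (nat_lit 9500) (nat_lit 6) (nat_lit 129930335286048947652) (ZL.cons (nat_lit 9576) (nat_lit 6) (nat_lit 129533527357423726176) (ZL.cons (nat_lit 9652) (nat_lit 6) (nat_lit 129236224398587350800) (ZL.cons (nat_lit 9728) (nat_lit 6) (nat_lit 129038166630255401396) (ZL.cons (nat_lit 9804) (nat_lit 6) (nat_lit 128939180992241956840) (ZL.cons (nat_lit 9880) (nat_lit 6) (nat_lit 128955874790907707582) (ZL.cons (nat_lit 9956) (nat_lit 6) (nat_lit 128515742991689079034) (ZL.cons (nat_lit 10032) (nat_lit 6) (nat_lit 128173816446141494380) (ZL.cons (nat_lit 10108) (nat_lit 6) (nat_lit 127929796383496999414) (ZL.cons (nat_lit 10184) (nat_lit 6) (nat_lit 127783469582341632930)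 (ZL.cons (nat_lit 10260) (nat_lit 3) (nat_lit 63867354092152726673) (ZL.cons (nat_lit 10336) (nat_lit 6) (nat_lit 127555372552287008832) (ZL.cons (nat_lit 10412) (nat_lit 6) (nat_lit 127170122136146017106) (ZL.cons (nat_lit 10488) (nat_lit 6) (nat_lit 126881478486790312862) (ZL.cons (nat_lit 10564) (nat_lit 6) (nat_lit 126689189391322400816) (ZL.cons (nat_lit 10640) (nat_lit 6) (nat_lit 126593086830144299304) (ZL.cons (nat_lit 10716) (nat_lit 6) (nat_lit 126651576880581144824) (ZL.cons (nat_lit 10792) (nat_lit 6) (nat_lit 126224264454155291866) (ZL.cons (nat_lit 10868) (nat_lit 6) (nat_lit 125892296934206180550) (ZL.cons (nat_lit 10944) (nat_lit 6) (nat_lit 125655384252027059226) (ZL.cons (nat_lit 11020) (nat_lit 6) (nat_lit 125513319396536412152) (ZL.cons (nat_lit 11096) (nat_lit 3) (nat_lit 62732989116697245112) (ZL.cons (nat_lit 11172) (nat_lit 6) (nat_lit 125803566252198151792) (ZL.cons (nat_lit 11248)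 (nat_lit 6) (nat_lit 125335416922583113172) (ZL.cons (nat_lit 11324) (nat_lit 6) (nat_lit 124961387392349140624) (ZL.cons (nat_lit 11400) (nat_lit 6) (nat_lit 124681150839576612228) (ZL.cons (nat_lit 11476) (nat_lit 6) (nat_lit 124494462397374755876) (ZL.cons (nat_lit 11552) (nat_lit 6) (nat_lit 124401158939920288386) (ZL.cons (nat_lit 11628) (nat_lit 6) (nat_lit 125010599686977306732) (ZL.cons (nat_lit 11704) (nat_lit 6) (nat_lit 124502802878537816010) (ZL.cons (nat_lit 11780) (nat_lit 6) (nat_lit 124087936445114657800) (ZL.cons (nat_lit 11856) (nat_lit 6) (nat_lit 123765637882057268172) (ZL.cons (nat_lit 11932) (nat_lit 6) (nat_lit 123535625569262004748) (ZL.cons (nat_lit 12008) (nat_lit 6) (nat_lit 123397698525096327980) (ZL.cons (nat_lit 12084) (nat_lit 3) (nat_lit 61675868115391891209) (ZL.cons (nat_lit 12160) (nat_lit 6) (nat_lit 123725694795184797698) (ZL.cons (nat_lit 12236) (nat_lit 6) (nat_lit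 123271180882937187386) (ZL.cons (nat_lit 12312) (nat_lit 6) (nat_lit 122908045416690612096) (ZL.cons (nat_lit 12388) (nat_lit 6) (nat_lit 122635971093610487440) (ZL.cons (nat_lit 12464) (nat_lit 6) (nat_lit 122454720178851403600) (ZL.cons (nat_lit 12540) (nat_lit 6) (nat_lit 122364134297827648760) (ZL.cons (nat_lit 12616) (nat_lit 6) (nat_lit 123003413646043458508) (ZL.cons (nat_lit 12692) (nat_lit 6) (nat_lit 122510407035908030626) (ZL.cons (nat_lit 12768) (nat_lit 6) (nat_lit 122107624090837003234) (ZL.cons (nat_lit 12844) (nat_lit 6) (nat_lit 121794712864567692916) (ZL.cons (nat_lit 12920) (nat_lit 6) (nat_lit 121571399939523747844) (ZL.cons (nat_lit 12996) (nat_lit 6) (nat_lit 121437490187906585932) (ZL.cons (nat_lit 13072) (nat_lit 3) (nat_lit 60696433300597688327) (ZL.cons (nat_lit 13148) (nat_lit 6) (nat_lit 122335328311663092414) (ZL.cons (nat_lit 13224) (nat_lit 6) (nat_lit 121804950150180268830)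 (ZL.cons (nat_lit 13300) (nat_lit 6) (nat_lit 121363674507221423868) (ZL.cons (nat_lit 13376) (nat_lit 6) (nat_lit 121011115802127661448) (ZL.cons (nat_lit 13452) (nat_lit 6) (nat_lit 120746965973894530714) (ZL.cons (nat_lit 13528) (nat_lit 6) (nat_lit 120570994211992507570) (ZL.cons (nat_lit 13604) (nat_lit 6) (nat_lit 120483046754687891220) (ZL.cons (nat_lit 13680) (nat_lit 6) (nat_lit 121720855028159289394) (ZL.cons (nat_lit 13756) (nat_lit 6) (nat_lit 121154193807115887458) (ZL.cons (nat_lit 13832) (nat_lit 6) (nat_lit 120675546612809646794) (ZL.cons (nat_lit 13908) (nat_lit 6) (nat_lit 120284495209828066804) (ZL.cons (nat_lit 13984) (nat_lit 6) (nat_lit 119980697902770483968) (ZL.cons (nat_lit 14060) (nat_lit 6) (nat_lit 119763889237679275162) (ZL.cons (nat_lit 14136) (nat_lit 6) (nat_lit 119633879770089797580) (ZL.cons (nat_lit 14212) (nat_lit 3) (nat_lit 59795277949748195254) (ZL.cons (nat_lit 14288)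 (nat_lit 6) (nat_lit 121159456877128987866) (ZL.cons (nat_lit 14364) (nat_lit 6) (nat_lit 120557569384667548696) (ZL.cons (nat_lit 14440) (nat_lit 6) (nat_lit 120042639130800729680) (ZL.cons (nat_lit 14516) (nat_lit 6) (nat_lit 119614216176471753988) (ZL.cons (nat_lit 14592) (nat_lit 6) (nat_lit 119271926171526353582) (ZL.cons (nat_lit 14668) (nat_lit 6) (nat_lit 119015470027610692674) (ZL.cons (nat_lit 14744) (nat_lit 6) (nat_lit 118844623656832029430) (ZL.cons (nat_lit 14820) (nat_lit 6) (nat_lit 118759237775953761126) (ZL.cons (nat_lit 14896) (nat_lit 6) (nat_lit 120014555560524375358) (ZL.cons (nat_lit 14972) (nat_lit 6) (nat_lit 119464399035239519108) (ZL.cons (nat_lit 15048) (nat_lit 6) (nat_lit 118999693021349965064) (ZL.cons (nat_lit 15124) (nat_lit 6) (nat_lit 118620031465057168956) (ZL.cons (nat_lit 15200) (nat_lit 6) (nat_lit 118325082623253690478) (ZL.cons (nat_lit 15276) (nat_lit 6) (nat_lit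 118114588773650575132) (ZL.cons (nat_lit 15352) (nat_lit 6) (nat_lit 117988365989583121166) (ZL.cons (nat_lit 15428) (nat_lit 3) (nat_lit 58973151989649129967) (ZL.cons (nat_lit 15504) (nat_lit 6) (nat_lit 119524677856587601560) (ZL.cons (nat_lit 15580) (nat_lit 6) (nat_lit 118940321067790087802) (ZL.cons (nat_lit 15656) (nat_lit 6) (nat_lit 118440388782482496524) (ZL.cons (nat_lit 15732) (nat_lit 6) (nat_lit 118024444166629122064) (ZL.cons (nat_lit 15808) (nat_lit 6) (nat_lit 117692123773478247884) (ZL.cons (nat_lit 15884) (nat_lit 6) (nat_lit 117443137225987314968) (ZL.cons (nat_lit 15960) (nat_lit 6) (nat_lit 117277266963095408900) (ZL.cons (nat_lit 16036) (nat_lit 6) (nat_lit 117194368049621362006) (ZL.cons (nat_lit 16112) (nat_lit 6) (nat_lit 117680505759154799622) (ZL.cons (nat_lit 16188) (nat_lit 6) (nat_lit 117858954659128771804) (ZL.cons (nat_lit 16264) (nat_lit 6) (nat_lit 118088656144540933782)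 (ZL.cons (nat_lit 16340) (nat_lit 6) (nat_lit 118369810925427082586) (ZL.cons (nat_lit 16416) (nat_lit 6) (nat_lit 118702664671013235236) (ZL.cons (nat_lit 16492) (nat_lit 6) (nat_lit 119087508224378059252) (ZL.cons (nat_lit 16568) (nat_lit 6) (nat_lit 118469947296247868300) (ZL.cons (nat_lit 16644) (nat_lit 6) (nat_lit 117935814747427619514) (ZL.cons (nat_lit 16720) (nat_lit 6) (nat_lit 117484643860156207820) (ZL.cons (nat_lit 16796) (nat_lit 6) (nat_lit 117116040407444755288) (ZL.cons (nat_lit 16872) (nat_lit 6) (nat_lit 116829682308606426670) (ZL.cons (nat_lit 16948) (nat_lit 6) (nat_lit 116625319347826703032) (ZL.cons (nat_lit 17024) (nat_lit 6) (nat_lit 116502772955528204036) (ZL.cons (nat_lit 17100) (nat_lit 3) (nat_lit 58230968026169509187) (ZL.cons (nat_lit 17176) (nat_lit 6) (nat_lit 116600694684562950272) (ZL.cons (nat_lit 17252) (nat_lit 6) (nat_lit 116652354546737245160) (ZL.cons (nat_lit 17328)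 (nat_lit 6) (nat_lit 116755719410771229948) (ZL.cons (nat_lit 17404) (nat_lit 6) (nat_lit 116910879595478138218) (ZL.cons (nat_lit 17480) (nat_lit 6) (nat_lit 117117970677718393482) (ZL.cons (nat_lit 17556) (nat_lit 6) (nat_lit 117377173610864827030) (ZL.cons (nat_lit 17632) (nat_lit 6) (nat_lit 117688714882917275552) (ZL.cons (nat_lit 17708) (nat_lit 6) (nat_lit 118052866714404716914) (ZL.cons (nat_lit 17784) (nat_lit 6) (nat_lit 117485530026251790934) (ZL.cons (nat_lit 17860) (nat_lit 6) (nat_lit 117000158875467721732) (ZL.cons (nat_lit 17936) (nat_lit 6) (nat_lit 116596329151338231966) (ZL.cons (nat_lit 18012) (nat_lit 6) (nat_lit 116273687992939324996) (ZL.cons (nat_lit 18088) (nat_lit 6) (nat_lit 116031953480812205656) (ZL.cons (nat_lit 18164) (nat_lit 6) (nat_lit 115870914390625889090) (ZL.cons (nat_lit 18240) (nat_lit 6) (nat_lit 115790430008612251326) (ZL.cons (nat_lit 18316) (nat_lit 3) (nat_lit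 57900137579438091228) (ZL.cons (nat_lit 18392) (nat_lit 6) (nat_lit 115826486813082844396) (ZL.cons (nat_lit 18468) (nat_lit 6) (nat_lit 115905144679090001078) (ZL.cons (nat_lit 18544) (nat_lit 6) (nat_lit 116036317487071833516) (ZL.cons (nat_lit 18620) (nat_lit 6) (nat_lit 116220119854045024868) (ZL.cons (nat_lit 18696) (nat_lit 6) (nat_lit 116456712384019551702) (ZL.cons (nat_lit 18772) (nat_lit 6) (nat_lit 116746301808332284968) (ZL.cons (nat_lit 18848) (nat_lit 6) (nat_lit 117089141166286022202) (ZL.cons (nat_lit 18924) (nat_lit 6) (nat_lit 116570565876169275806) (ZL.cons (nat_lit 19000) (nat_lit 6) (nat_lit 116132535888527128532) (ZL.cons (nat_lit 19076) (nat_lit 6) (nat_lit 115774668458710184328) (ZL.cons (nat_lit 19152) (nat_lit 6) (nat_lit 115496650887022486636) (ZL.cons (nat_lit 19228) (nat_lit 6) (nat_lit 115298240245488774368) (ZL.cons (nat_lit 19304) (nat_lit 6) (nat_lit 115179263165587319034)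 (ZL.cons (nat_lit 19380) (nat_lit 3) (nat_lit 57569807843381433466) (ZL.cons (nat_lit 19456) (nat_lit 6) (nat_lit 115074828685432256164) (ZL.cons (nat_lit 19532) (nat_lit 6) (nat_lit 115128038343471779898) (ZL.cons (nat_lit 19608) (nat_lit 6) (nat_lit 115234504153426784230) (ZL.cons (nat_lit 19684) (nat_lit 6) (nat_lit 115394319143674899750) (ZL.cons (nat_lit 19760) (nat_lit 6) (nat_lit 115607622958382362672) (ZL.cons (nat_lit 19836) (nat_lit 6) (nat_lit 115874601979523189224) (ZL.cons (nat_lit 19912) (nat_lit 6) (nat_lit 116195489489737211202) (ZL.cons (nat_lit 19988) (nat_lit 6) (nat_lit 115724255362762386734) (ZL.cons (nat_lit 20064) (nat_lit 6) (nat_lit 115332187669432785022) (ZL.cons (nat_lit 20140) (nat_lit 6) (nat_lit 115018943826327050096) (ZL.cons (nat_lit 20216) (nat_lit 6) (nat_lit 114784250125232759476) (ZL.cons (nat_lit 20292) (nat_lit 6) (nat_lit 114627901493983908440) (ZL.cons (nat_lit 20368)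 (nat_lit 6) (nat_lit 114549761317271638768) (ZL.cons (nat_lit 20444) (nat_lit 3) (nat_lit 57198361687565125900) (ZL.cons (nat_lit 20520) (nat_lit 6) (nat_lit 114423721378963113594) (ZL.cons (nat_lit 20596) (nat_lit 6) (nat_lit 114504738980950484978) (ZL.cons (nat_lit 20672) (nat_lit 6) (nat_lit 114639846973171772392) (ZL.cons (nat_lit 20748) (nat_lit 6) (nat_lit 114829163411154159482) (ZL.cons (nat_lit 20824) (nat_lit 6) (nat_lit 115072853717027922122) (ZL.cons (nat_lit 20900) (nat_lit 6) (nat_lit 115371130824070037386) (ZL.cons (nat_lit 20976) (nat_lit 6) (nat_lit 114945858991407758480) (ZL.cons (nat_lit 21052) (nat_lit 6) (nat_lit 114598414884789366046) (ZL.cons (nat_lit 21128) (nat_lit 6) (nat_lit 114328494912277038192) (ZL.cons (nat_lit 21204) (nat_lit 6) (nat_lit 114135863221467608804) (ZL.cons (nat_lit 21280) (nat_lit 6) (nat_lit 114020351493407943430) (ZL.cons (nat_lit 21356) (nat_lit 3) (nat_lit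 56990929397760062930) (ZL.cons (nat_lit 21432) (nat_lit 6) (nat_lit 113791578362973654792) (ZL.cons (nat_lit 21508) (nat_lit 6) (nat_lit 113846384310754364236) (ZL.cons (nat_lit 21584) (nat_lit 6) (nat_lit 113956044095008018702) (ZL.cons (nat_lit 21660) (nat_lit 6) (nat_lit 114120653534963577686) (ZL.cons (nat_lit 21736) (nat_lit 6) (nat_lit 114340356464112264494) (ZL.cons (nat_lit 21812) (nat_lit 6) (nat_lit 114615344855887315846) (ZL.cons (nat_lit 21888) (nat_lit 6) (nat_lit 114234696609936246218) (ZL.cons (nat_lit 21964) (nat_lit 6) (nat_lit 113930576373911260856) (ZL.cons (nat_lit 22040) (nat_lit 6) (nat_lit 113702718411683794234) (ZL.cons (nat_lit 22116) (nat_lit 6) (nat_lit 113550923624063550508) (ZL.cons (nat_lit 22192) (nat_lit 6) (nat_lit 113475059374828337236) (ZL.cons (nat_lit 22268) (nat_lit 3) (nat_lit 56615528468764133531) (ZL.cons (nat_lit 22344) (nat_lit 6) (nat_lit 113258864881476114712)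 (ZL.cons (nat_lit 22420) (nat_lit 6) (nat_lit 113342313011523107238) (ZL.cons (nat_lit 22496) (nat_lit 6) (nat_lit 113481474243511033274) (ZL.cons (nat_lit 22572) (nat_lit 6) (nat_lit 113676470174632891976) (ZL.cons (nat_lit 22648) (nat_lit 6) (nat_lit 113927471189682867496) (ZL.cons (nat_lit 22724) (nat_lit 6) (nat_lit 113590146814325204940) (ZL.cons (nat_lit 22800) (nat_lit 6) (nat_lit 113328088588585080810) (ZL.cons (nat_lit 22876) (nat_lit 6) (nat_lit 113141067529546799850) (ZL.cons (nat_lit 22952) (nat_lit 6) (nat_lit 113028920220751008226) (ZL.cons (nat_lit 23028) (nat_lit 3) (nat_lit 56495774334701806262) (ZL.cons (nat_lit 23104) (nat_lit 6) (nat_lit 112741667326624134054) (ZL.cons (nat_lit 23180) (nat_lit 6) (nat_lit 112798117452838264786) (ZL.cons (nat_lit 23256) (nat_lit 6) (nat_lit 112911067030619528882) (ZL.cons (nat_lit 23332) (nat_lit 6) (nat_lit 113080614753773754636) (ZL.cons (nat_lit 23408)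 (nat_lit 6) (nat_lit 113306908770796902050) (ZL.cons (nat_lit 23484) (nat_lit 6) (nat_lit 113011646405724100726) (ZL.cons (nat_lit 23560) (nat_lit 6) (nat_lit 112790425083173162258) (ZL.cons (nat_lit 23636) (nat_lit 6) (nat_lit 112643051502959333400) (ZL.cons (nat_lit 23712) (nat_lit 6) (nat_lit 112569396892051359346) (ZL.cons (nat_lit 23788) (nat_lit 3) (nat_lit 56147169863002431139) (ZL.cons (nat_lit 23864) (nat_lit 6) (nat_lit 112322981908271145360) (ZL.cons (nat_lit 23940) (nat_lit 6) (nat_lit 112408933482219547662) (ZL.cons (nat_lit 24016) (nat_lit 6) (nat_lit 112552269551167111476) (ZL.cons (nat_lit 24092) (nat_lit 6) (nat_lit 112753115360222625942) (ZL.cons (nat_lit 24168) (nat_lit 6) (nat_lit 112498689898339010280) (ZL.cons (nat_lit 24244) (nat_lit 6) (nat_lit 112317116054612523914) (ZL.cons (nat_lit 24320) (nat_lit 6) (nat_lit 112208235172286512626) (ZL.cons (nat_lit 24396) (nat_lit 3) (nat_lit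 56085976056362967137) (ZL.cons (nat_lit 24472) (nat_lit 6) (nat_lit 111916491210841059246) (ZL.cons (nat_lit 24548) (nat_lit 6) (nat_lit 111974634840841613898) (ZL.cons (nat_lit 24624) (nat_lit 6) (nat_lit 112090972905956315918) (ZL.cons (nat_lit 24700) (nat_lit 6) (nat_lit 112265607060805168444) (ZL.cons (nat_lit 24776) (nat_lit 6) (nat_lit 112050829077746004884) (ZL.cons (nat_lit 24852) (nat_lit 6) (nat_lit 111907747931907336088) (ZL.cons (nat_lit 24928) (nat_lit 6) (nat_lit 111836238600928720502) (ZL.cons (nat_lit 25004) (nat_lit 3) (nat_lit 55789145087250854158) (ZL.cons (nat_lit 25080) (nat_lit 6) (nat_lit 111607791622235979886) (ZL.cons (nat_lit 25156) (nat_lit 6) (nat_lit 111696321743402834256) (ZL.cons (nat_lit 25232) (nat_lit 6) (nat_lit 111843957894418824988) (ZL.cons (nat_lit 25308) (nat_lit 6) (nat_lit 111667672609247478998) (ZL.cons (nat_lit 25384) (nat_lit 6) (nat_lit 111561963014756205904)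 (ZL.cons (nat_lit 25460) (nat_lit 3) (nat_lit 55763368371669084335) (ZL.cons (nat_lit 25536) (nat_lit 6) (nat_lit 111308083283784446526) (ZL.cons (nat_lit 25612) (nat_lit 6) (nat_lit 111367971222685017814) (ZL.cons (nat_lit 25688) (nat_lit 6) (nat_lit 111487799429753160896) (ZL.cons (nat_lit 25764) (nat_lit 6) (nat_lit 111348885695929210608) (ZL.cons (nat_lit 25840) (nat_lit 6) (nat_lit 111279459160998515866) (ZL.cons (nat_lit 25916) (nat_lit 3) (nat_lit 55537623972207290219) (ZL.cons (nat_lit 25992) (nat_lit 6) (nat_lit 111105634435580880156) (ZL.cons (nat_lit 26068) (nat_lit 6) (nat_lit 111196820460382740156) (ZL.cons (nat_lit 26144) (nat_lit 6) (nat_lit 111094189786119368220) (ZL.cons (nat_lit 26220) (nat_lit 3) (nat_lit 55529994761303355356) (ZL.cons (nat_lit 26296) (nat_lit 6) (nat_lit 110909082155771592420) (ZL.cons (nat_lit 26372) (nat_lit 6) (nat_lit 110970766732839180850) (ZL.cons (nat_lit 26448)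 (nat_lit 6) (nat_lit 110903362329993846148) (ZL.cons (nat_lit 26524) (nat_lit 3) (nat_lit 55389071319273320818) (ZL.cons (nat_lit 26600) (nat_lit 6) (nat_lit 110809440724447930348) (ZL.cons (nat_lit 26676) (nat_lit 3) (nat_lit 55388118292557626577) (ZL.cons (nat_lit 26752) (nat_lit 6) (nat_lit 110712701470735637072) (ZL.cons (nat_lit 26828) (nat_lit 1) (nat_lit 18446744073709551617) ZL.nil)))))))))))))))))))))))))))))))))))))))))))))))))))))))))))))))))))))))))))))))))))))))))))))))))))))))))))))))))))))))))))))))))))))))))))))))))))))))))))))))))))))))))))))))))))))))))))))))))))))))))))))))))))))))))))))))))))))))))))))))))))))))))))))))))))))))))))))))))))))))))))))))))))))))))))))))))))))))))))))))))))))))))))))))))))))))))))))))))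

noncomputable def vl : XL := ⟨(nat_lit 0), (nat_lit 76), (nat_lit 377056453), (nat_lit 152), (nat_lit 62679224), (nat_lit 152), (nat_lit 62679224), (nat_lit 1), (nat_lit 4), (nat_lit 2), (nat_lit 5), (nat_lit 2), (nat_lit 4), (nat_lit 0), (nat_lit 0), (nat_lit 0)⟩

noncomputable def cp0 : Nat := (nat_lit 4729248566552550548002719506416742501534762317178914721639731998890929943725854515278366137104310858398862899753365418738768834725171790820414460802523371504531135714685728423423401587726475825123878571538054717994382747846620501631041530767847124670759300324923935549040983617046860210794624690993051920599607641870598236294469981822437613911726574650137794120653874016443429417638922274817625461399209575524244618981637533090298662737410175066314031693762857505644002053981084927797769790420200855324480983366887986863559995573290521724062937448065946813932285661965115918493022141400525849176928129186749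509751474401898770090180966802614609461417165602194586052052606109883126696357065431410398940152057851845071184044806699414608469149005330504123512352704885528236141021389868352283898760523954734770492569536994908041702087472488251733131547234239439789301868091110230040344013279224809338423777531966672877308701754890892428828950984787636477726507453847804908085616722400706012981821571780025467359592661169669318491772675751861313863643274733081824151310841322760416013694773699780195444495288831748058468946646501415140570381345295567588582766584591089057863159545072687665214023946855026015648932376338536536103652220174054843180345727677230878489467615967768507588595612310757803311063687730604305386039420963229529931015845531661554672572182303916427866441348389097856460825149436020350437358241058152450570785347506375256658016108119775480856556607848973013806202531903237173200340539747720073244134124354707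664874203875604628388608574659673363038932848292688546727194361746768800719960808311171635700305360838765459519922658154039367482587223718367060532509080255138523775958907214843668934305888061378015256500051880972295617403927646593550221227551353604996651847355637189508429719091370431097589044561194993321007236011866566174972466539146102668740043235384735369629271324238976737509954120834320809705368306715714387165443798682701761860879518103969482060039794200626164258518120371389952851801764131288030780925260379776336218050407632163196957736552069925321005643538890875587523104999285671443880020951407097774591557426007464492393549360471433406746309537202723220439182360822470931987713857770897036038406332115380069059437501975842460973426654951397611408607871070491979179075596794439686512268963001398145564283202137601591735922352532539027043838891134928049741950032266055691536832209180097342389603348702814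636700596885883667096459601739420761906557843499998391421814756474333497124759306517398971016327760948569764258732451255226359001539232129740859673027749497644623613742911704133492209309464905081490582051934361404650234206926767041545527211411294737384825233369303815685130375435065996481667003061835434449959935638192344932965283021377458238113167083565203960903731607529699729880952294308349788785345331492082939163046711021206576804650508229666425687904552691602727447021749967925186410432191103905214205310659811970925698618185925825250856288141264586224228006504450826639101362738148105575712941175102733486869998881084593270362664366821631345346521050832983897759846345578785721454984688669873275846653525581227632079708178391578071869360608117647441414895211504210797817388964039433274951547732581344464676338282064466154831319692925231583004091360993095172412953166165736122381329415324546886570843212814569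251986191229604542174437862866407170175756454901410106884038260503796625289675778719516820665890980857772520946318503513867439073935173359007400848564956378941299135081254222976115879455513799157411234577348565964348291479659462540200100809564175803591922035195888116908610640858479897662933431481529099403364566843554421486889925741152448899564473486040895563302998453866906279558906687119096703009060885651738180074019472815216567828713903761978908939265345126108600434543457640134497507993257564074823459666250747736386358179220370661150767516769564794864648662550632071782123501858701879254174965912761044179651564607387017880733708837215486060263500790566816593398223318546959494805178721778124594725727256839333371887054583387084225540358243631480738632264251026999208070737838110914811471746972193277094313597176260992578043866192405275847284743596414436209270800086733622005601003762300881095624581743906407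420075616340909938035412341727986775397201537972782599033794693960685894295084685739434923116575933538253334642925864175468336295213080601552491731072831622143429316360239092045529915136934894578595954911863407512644093253933437026968935589711947416400221364642495524556292715410582992251548429330648977592615606179267876866345107384995871125190340848446710461601824765554413537173794237452876230975019000919061616941202278754225930827458157756961865594788739326558481401160343767914628740393386383319365013910832578914320447809129948389980299949181244002375124586408229430503576954114549877924820651738503871771770075403153509219155487754783378344862679979418563956263817412863608977656525088341675988263243344341200591504268347779225116986787303202863143011294372771114663419443896667393255693999435594827820754975719608290157086465890421849031400123032346446173812152070542348618079702610012675820688428961069820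284363383567850960182146384695047397432217936002128804288423666879608031678431897323515535842313667876719802751225019906156530231994522936436170304544807922504822499888917459796682109861144755096287398914309830241696538516893930689808087992164561373353119662366852521236491975816213100173467362120153734771870605366593133964045267196642323699554571466773127253494931603359256476326771822636329885641209858903724664546862116565000097880726267971463370392222777840653769959311554417052531954158268839455266342818431763543716102416633768261747459835322004928289733669347298673683783865923413329150771621890482368253559760639541551904433850150879690861936458666183172078451896838235049729306688310624461271413830849219136526660437279911235623555683740717913693489714604372416482408749991043830167591648044765283114519172760166556853448264229291257721379483124007339934094512884499411265965932500151088555255998303405199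459581735401278700119293929683978131289717548962811255067222014160723275096720234406447081046606869903585586846254558124195348596965772061120528886604412834972099779520277969395534989787214250462867567181565551095943318466141142215250371326515535319208421400572927900100229389153467324872616511264181210263829335016821091624752328834561914748433930310213942323396860677271303412529253247202659355294527888712321327171759865664660346680613309117499862150464612536706140121232685982254296999970871538787564147936247558052827277202234829643275666009450723800242436310406577445135622020868948558554838196426669356539327318319282898568870244246723476359278257599623303842820370092534482045128882383897487121789232924559180640599434898488114829055621745272289824606939382311296603063986625897055519861804569127222787583719159193531092567384122161502286362080203040522185660210515357188784757243124633998727109522327096076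328949910777216569970759146649611032264750286294017301677525612790640485637781893134046910740972628547187659238279709989940425946390921480586543121757145293753149302294077179591698394283200379859447942137477646453592942655872170550995651297855219175098409984121983487706123714605288339923814438394381671321947438219610046417222688158005692946451644243180905047110183874834918021614161224040516982876484930218546051018969285399061199289771114985924763698034026668298443097796998652397778323896122091212682123424532933174942093836171418718711336236467121077198515979350311511260947888121450976877941675258730070807446723241738667094889010289660802978683715446390398890173388103499295147843727088448392456808028906686433017653727347748971337973221027065145520077923858161024113159288782925702680367067529112073531431036630401423215669118828628937219736437609961922085203572972749142649180416661427072128508410972897580775589702941223102200467494684070990524119948856719036013355584198587002620093776208727811601421716143446744209849683945178537534314297600355495231454121829913736511488)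

noncomputable def cp1 : Nat := (nat_lit 638807070002251905025589657445789690249480240832291870724456881503137289407350777095981763674167152883741071962444576523997519097329974734652629157158990528871472899959457369350450130863597959630112387135101430988860960275338241797237668251761623880789457593678434317945328043171880805614775908769116320589589751242136396262969435021614884769604479162523112027909100110407146237691297094130354937279332338644643780012933857023969491682384408068001196873309705591110417332271193339295383901785370425905081610655662831870378575333092589591635550842158439290744104573364793095708822183593507089267790126666958132414882755382464289047107336410170475010713368296155334580429639282881755682698136993510700416103838981283822636783557394957410609705658069990259992941012748164341432671145870732508484963527747132073164355004041891216389925885847694435914984973481842185485940082123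794753791406169339797251015506110400003106096849758020214214062662201225452780525326347992879763046162293358371354482651632797211961156075178936147029728864757200802492532156300647347367627479086246422222742086016685739753354439116908544225159852365175753998557639853296272807606927108234483776638971871763994092841167443783440282346170154297488489108323785167893692576688033625186921960418932715221464397834088333995979501093055737884605054034881970398955217591107733004525489021718455389108972294797952820206664907285423090632475481241105304983686283608869672718716637611303439429068273590769056719391238517373374161043013637133918161779157673846603610805995669166415011709720106512969175683628146064424614703136374166943062401276424171731980989385865633554567385062219350421245467562837985192166681047253303682020317415370583085526730680734034408060194636812346122100542318152938126499020844445721839838417906187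055067579832671042690322589118155418389177685349673485274797062843033414838994480101476821474214162977797251784214443714758236171535558722037344777692295450040760458292251846861499791305625122237439495770020186872308128008595710388785053047658315556761443894584609021479040968429203725605942020883954116172598503898894671079337897277380863940617265130047895643580055235277837670388838784767367713841265921958261427817334742537011121747207331185290441985919276547937515452967047782990828671165380625624310238325290542611837568347852741092527264779474019540835027377582518932453627535377493283172430350899771727711251850719328343455862908661167525716569983571163021332654813246173661240127881628588135002028873641754101808935189311991410046210695248856056843677952742562376741410365123509992309971396367694613485006859046955401981817302947651411511007023285686151064767537581122058529866289778669934519965163141637246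899394919109437306056003194534466693479984624082584063430317661434643829630238648613601151804286560096985808346707333631726747775807100107634564290743889714833825502367594218846975484840747968611341330711586011613282100364893210088966753475376792324417042376001830012017119599591461858408564093294288668517469629457588800163992882961746705729499084344869751316592279049000256101633006639076779127779826126450514725988223576077461811610536969448691581511768212276406659046180257729073507679600483857868781183246774677230713348064387854501051551009244110457074150647967326400070957670005402100431460324098840742840927794326325541670175935083196410305772341853273852605890313828373236318580165788770732322263370323905858038170014742897293605657443510887185567881553731971022805626799960352791847707016951631581292903653244137258467658752010097169350498106834593134107256653595200034619448364468800494396161540052480067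812034438375033552900815086720228190430802951157795178345924910300772515092223608147129116982457101621817110259417965902995341356816831501101556381839437360924405660994780276795770544498241165358055710531843416980062114792645698468785798740737300233350760582836418284183625482753039408485254164000763508232308696281325040724461216230597364886496798636475344627519152660451563387023053696475545870839901254142676376082487606749942630981081746872009757896909897819270177890379422513892296753767055993260886229899455028232768422553391481477536218238635467365766325298688887242120992584623785516819875935299101743106239536264455959186282557036304670844311985322481569864450150572970873330238194415872202114796554377205740436053053300729443518542435518537494815543684107726176745154444370337998256628452981512447235025594449031449130223745892936677509184299791837809297368460183993020606891389468253572223280971492616812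493874897402050790949647127408225873792467284740025231860907570825447819014992663326315990160578200944352712475014582413638669763201570709149392216619702612832803770330083946426410422510939612847410712626949750521802404278441710463604174669553096269208787023434865681570020878719707717704029094409139280472310605029567585173468219424604364561969064849364148607688346532391593933803618692746256974602930654539646341296271798567552688185546518101572679358366374223479471594607154011207768237347246780889714622807994723611365855259130366650566317573418537614751461762368689950583536658240127540996435138145817349383954066427141715254571917767689443907341862207741002170710939233853331950317040746179550464531416445997517807848358371789886177650700568964527466917858859561912833617896047213769483663846676784242353268228374406080678398759061377261256848755023449529693122963359321184957643059583294331017899736407808205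551267354216292395117925151892940388965214980777245737320571889197512226339624754362740769768448521284129302441703775420447933145508187307919510451813604526178797991505235792069110131791670572701304607739114511007776790869669288047306344477231571833652544093456423450885069627238227272132618723538055154348926319516095440370419140854900035679304622852625934719012234487959021941037305389443054152834817195574274706739406627655774057242410773432530653920248800324690495050575134759832737912327182394132807426561986951858543900575177493431367372304883547929083713445411885998648515181318507560632239584713896027291286728631976918274400969719743354107368452191028905091708461826264493778002409093447361834067512624166028698900593312705994917368613050019500821979723857734340771378092949658374753222164215673505566993051418714440655997031600339895417774319507824021926352652456999028941473614180675392391885565996071836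336132014918250203597158995205065060073636927548227418912488519390274091217831611346332888698616762651821771126995578810200463870282936887607070209200242676761709519418733848992408598685920415877155037609574104506169743721285384307157776904867476671738173019785906130109128911834261998386581181485755793491692949128012880900909418673958893889358489395497901418086862473606424178951880522455696129826010931501689016181978497434945854458705447065364381341180718344687229149563045340160291555458726073366840854560982398145593919790828472017879863970001956451996420450711510037053057311991206065163447705379484066707734262349619875535699164363099741777594883147827308267280625518154128968399861221894690383122403779705450147104337751656400171046476264409696533403761645966718463445695263174762974468844405376312084141047840879651965253670378942587625008136088688049309362778352816377582257182356601670602420969271243110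4771042936662854279167492728566107153788506133210883857580119964116310657597131571444543841187765129431841246975517271541096815648392233548958239493016294040051366241391146309048776169118111357299783805880717212771238813672168420735388595425893606051275441719694985778651314949939717691889358093935138864676752757756706199474653579366239625137574765062392344639145665282126289706977236982223563584330362895203093169479469650184528115062603360592338680716954687111457656904815882113262613743052685108407571556312022967985127953119021917061756920211832188391348415525647971704572275788709671807934408934287933196219088596063104259086422183563203030856467165220975201082690359168780994707459094358396679012108328858534489771591586815633943550091414120084695100108444472726583055521220772138652546998777687210952067383296)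

noncomputable def rc0 : Nat := (nat_lit 465983295891226748465642834830007137899028805175763020862288292844285220467546833972862462484041310869158812455653764207553293526879850879584107679645768173257439679926571435133357432882245159581485728624999467220561946935173522822681321745125783042439444389107601783768019783668833205162616046111486544691001059942368119853394979386140871339854871139182769848044704506298681805063234434117875948481490800746214556331974554391287473514081916077398164074327925747185120365858104955668502324502593045586702152324817405465346845643409288668592204884715329687817326131282766360135570921962048033564953210925760242307556792972451182441771044008075738786584101594663709358178958446262072750610337145443135619877059282727565859085342428918652687581616861018107195046893554658831721640440054063957497803659102030108116230483065457700826761440545304388172899132056473807352860013830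622016141223242104789496680752743630005925134211319611053121252345970149792439505718850606056603993535305241277932139282758858204069052710990854968937418947714662792648549203673044227473966871068089476397090358995022224753858907778640965953706653999398323678128653148307636385257751193932514884569014726907299844438951751064156042274329143908113708573610640000552173942133928860765129815800214620653453459103748800905484678998464653628919756412691608019085003840304034032676805683330980119512388744314828944338797191716234332164802829886153483508684357683728096044904202352445110712672880015429260007950638054072872687837716002969686595246945104794042102788942324506540764085482306239351272887787974337455248728005184318547009053028832819952788911749196594040322134973340310031326813747964530475327122855951014823148519433414729202097320344988577336682845255018474163596838314428935078792039684807341958354346161646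854671133123586093713019118867508135099240989915391981636057221255322010720972346764606897298884681890797957423395497468951382694310159796657650495476127845464698786361512654743225972685316160145653392902770062347928941562100782750071946373232498667360173490529984368708505356900071186092794109033726990076883005512501021183581547755169328250631200833101990209308842161751103064808519887474962066125443897916966639105316384063420036615713879709641154378084942059233822766673118843881823991517136284553989661106797584596728897419328728073332101760195472921069827998981221028565580243517169293108933963760096776574848442170509231318057874788275009471443318724771209347120125761427584075824724343652389817656192962676410246614082203892243173546554339248576401261911044231585375879780938951115451821368778928009328409741693631872704722674421722559475762891865732627532623961008698322830354149443305211337803426039096652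742234088027281971649307253915738732142233293567484293005113449718448117028958163358695268892159543600519465078677939750798120034275847407261530572050818789872399926299625605662774743916449428660042581539771446624878985991411650195300185019240364112946326318320719062264669729343290798969686198419317319762216783179509174006154129724299941158676397813708970927535732705571295735798852912058860558844915028109535331956196578243554107351961641349828410905112783111922154994099053020730262809891929825668983920084623202681810610263412786242962278348148205029970665003726574803385094147855636727840835973614710774095690673051409202710799555495840591441110404543217091137209770845790799503839852640472184101688460406428377742674845183377330920965785851702493071915187073486679954864164772965327942394403566938367275145931286951053177863130724846580515103494414346189749119478415577559912001781977469506375432393535811795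024946775348171827786759220556872145780545365982227691815639666492593158575343677723653018979230981903286225204253126561326759243933386142718238796726611335600807255993913113528729948211431357433616925564255544137458752330149854788571850645612871664284571821284381001689789091437358220142841754511594735412081115237216997403745778407084559259864766959329214674880814177159475431888669274014086843992410461597645220991815045377859369207346746135842507893555584639269631860161641694326628058293544306279219300963997308388981600500599302697720279397911439037881970094779868701476720220077648338893351637561089650632058656234595649717999637072896244479028407570905081805304647262207229882122231401123643089689244217527597071495280084303536235507566516106778542624011691936305385657435312145113978638622839914434592131656783898137495399566120284809182147838219457646945180969222957078003474586692316201768402336129866702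661368206591383080045736568904880426969933095533929489948938257315887642885654115027065623826505735064236662469736128343844217852427447197538541954950638815904021316871899989693077551367046728813895419522753500100271015194729064003135793927922938118388833209507248756030520784880895973164824854750128042085238350119039360914939688801523939517915760098105909707450684280058266370697584606662374848388693690904136883058078833917154759846841093874625346721758090279589752265931977992291609357423063137156164737120855317072999563440990788641564233625607906083203867715080398442235183057259896147724610582392326833794642578748342895560283753990666180225610537705136864869016270887504977951369481759236020154990943712125514043622999039799781782975603837528293297659991753972526679717086145298871328142917429710075394236357850643076328789138708192202351605631470436640690758877074409627966833371955781601321201883422559043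522907554282547769392489910921661599502670723756168539044713970678489990023841921300482567348772379660884567319354378648831258597171208504507534904843039263695205496233465373509190452115524479629501473679229746055928240696470438325968316421759785348055125680226761609265903932154491795896455349498082022146239353498440623512413649194535009654879435282479431142169668553063609823687157093706876326153529859949229471731550311501890996830873188198660886714748307467791296231613054820891471598201044982274415567262571039041321702798117708830575953504650983463616415092119377256457665922481183680144687772472844398778705625388019617372506523813030927641549807783486404216170118510398163026954080705024454616553985034313404855654565500526005970540881583365029885032396817670553978103799748135195391324780623936548752658565304835022589203456549686664033919850709064626601289710865258584319291444140164345363888571038722950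303235084596734812113295571617477559177240250670791925051053907062997236080835676708110115014125452394659488897615627589427591397051027297858498732369326494558802286625939516040150931072279887201576720196198600564931387470957139732563474768636121389644144442374654978628160539849530729709650855752515433659330223848306976216904255701151102233218956140933235085180040576990139822655257919595774572948210494817958278321868148622765186473434064676763064145201223820477142085295577968476412290081681531991400477338392663211345695358984873397767946687008838807072236297308657270149849484747307849480474994301479424782449476251886025511884817774283847730204330682136129250150818846755282640278670403252067444679311559731718042910103634181291282964899622735566967237176097936151608368309712213037292647191316499010037875196696578833893319383259665374360108622110060404580729297705358698968137847588520499283445605487952051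1556303311001393944634237954045174718673761303525268411424573397626403291344481730476964886355477305617407570329355228655323816667368511186252115243427933529042656004132271317322113296088568424996247847310393484826274790113955750959044150800476714527191154309771000298407168377878102506802569423904802535814478617571622527182782850363568718116696873582821459821857976430291472588449670955552462483582816936408080307470297007378887530032407446429413547622424454699185530386994512461212928740864110142794135194451700921101927336569075755754059363695351699695722805186314641135179098868969036181407200013254644477078682055058244235812950760765336373216396910059581305524836336829519697385067363834381886276783393634125794471697583812615171348044700254279475310815143254132089119493221888969605084919876284529796517462016)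

noncomputable def rc1 : Nat := (nat_lit 477207970793843255497902981181077466406208836143853328860894209263664039344678802796496917280359825464826692337372807114182483030746553132424659057151144784061356248277563508019922981226338810579529797254085312289606541535139265019301089680202147241112652616240887942159532768834270727833203494377548211762884826914999333116095721072929146650719648229012147361079223870542257429347945218891393783627146481376321537196379933357800779346809098443986609477858795526921450006754917190300494528000086915131861985281270543322538559378962565966052001940376404327508283417077792389062440849497106611499746185187441843903086827346427807354223686662511538541556261728923412305459019400086461404162554056690956904602751981797034358367154215414198900739564671118270452998055289021916154217441693238340037339650769683940460039393808299598409797803524113535267745829810987343886597709910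307603122166998346141860403221105518822207923695800297644941290162731114530055805416868458982917953778446086667604721205394855540310233153654405393626820865403699438082856451767834296326527650975009426935818132193928484249801912415216774024213721543456592161994116188543403245731043740745730104451053161618863594764906269614046363932854707515577526671288168428949610743815315841522625532708059572618758950249459861979338380507457957446660724176617069037299824118681708683477242177836433661053966268259760090038776342231251642147890683928527440201436501594959523111346932427503557463659093334474296101663813168499107432716048432965732085930912856987560851369785316644558749419012223016185147115192930375770555641789812471377396518356379655464579329608205960633048209290459482805738109861603679073356135030747594967185348596787910882592718875246142972890179364270881323054237485619196930928072598603445611072888857094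562595447806980725643068895395387529439536094007011491001508377667698644126194905412110703704955116012396147083778713690414544068995252124966737033931407141474298190492613893446271329747048468127703395004234696664783329226524400089447197813528581710386391662586924212016534917884783112298174178735354208915267821230107833936496307214575887520457532349988824853330772469810637248272105442315740021708521758377703238560831333978130254854820971220511359142207889065131356542268825389139035326300696275386997656654098270131453372984955433176302367776915406128770275152882579647227938526701849214190647499070401821000599520079429790162739835911926877713668330079789684394048955888395385273266707648037471434776156630465535882317960450846380454261106177688333429656167273445283064647478429049802801933933093452804710340704201156927316225804977204488241631343159297292574351055709496284030603908229835362441843694374904801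600506983483584770067094765937034318394282410471225619696326116042707429771700713187197438306129195055401881894878021013771582854697137828556615220281517386766811868904322497013028958560051254211209938518807658727481351896867441432307107663713549230879964738454175606504865295017791766492147625812180350538445124669674793272972936988320900121928818325975199387345709822762367967062766305256840632341989808789597161320271625416955911001432179416363670917441789444019395141729603974390508764439519080402211215293989170784806359656432430636716857398768084817647352345262436525708174626242238322898292901197130080746596832924595329191253870867271578748362497199277950356445898340306513250734618844741727125996605430625276060246167449623565721502768139639779307710986758780829858284909734452752955038932782474616243215799221258796551758606331218996669370456417570708811023773132610436777892460018701058971930168041146155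770294642626278566479451892600055458554962196954774622075409866671072541511861769145249958986117628949763630027827981086013286322333707898545071794726986682538609455114944036445318066114335177505365737620822609060705148092145036715519698281712795331887696465681563960555853806687936536919819174828762724680986594918662726482306774289929989535860563215891962910036523330130969080741361798264981466101598733227006306383269706503873380716107631541395364149066421837274982864731903711267408454401116976592687958847675718383311428006710614492871529421478396503319876726901239386780514393917195503596947168419553417274731109360084064453350834000883445291195093807937830933936161524989344997516511564520880082242609384250447497904563341226930238422648334599720902583433738062356499928076206130164266296955471365104023187176781816091196619254002595915750625567188455873254067818071403409875129475408774515216498705352577944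478556999131844933928437088231550822084146029463286917119727602788685995128087028841320836874494245184111363837179597663757124720715725858353538078646557850548178636833429241693448950172249870531429571096956846263131991656559352389167114047743052296276953008637052193141018931643201710772800411821294064676526291115539852078853178982977064629857411670582486973666656749095069189108978761470674998266572251685372282302238854508319871594521142170634541922786194384525788250275126373920789380693336461805471965248079393873179358485746722147938333747499614957479152547532973080444229383474003808432876780228962099541054514348251638837237161452353604212997035719999097030640384017290492032193345359329860335248685966114002071716615574079254846473521473578646215903312621984776505587535658492946089289455259708159293524642567484538385877457820781633423073952085111134253909414216620252323838729423327651962201338753603894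524337034863012786753776639109600201450613890273842928255597379485905969285331669435014846920577004326308538865190649483859631677648922622010730582462045209175003647078028301101752366619673803752345680048619738961325106509522089216371508371174228076328756635847179144063190408687582807207219929259656315075639192788878365769126304616264633912496656086589063999162274855131141136248232436857570975765682688920801256728595916991362185677037193390833393082783801422693171537168826926124439465017534965516739481508533375782923295275239595007575924928849712195059818825143658327905757505303393765944427749349973876316374470313483866787448001464422192955121502402768212471691320197332310226974520754636282826856975110104224333319475386673929824137174942042721356007900592603265500155607425407115466895741938385084446767365906153148535189516253052779103612948100006753164308793077281531232707127222219643720289023495447854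644467665060095426550820005214555621221831021556100608225350282653637733841030593964039574936274672167623413327214319411666964842499278604912672184414925393507726830128142388020552318308371407361811649456310334625689806764935604631605047751488341672804608199104050988822915946884176065440152326033590539749995538612854285562075876414169662600375862701299242789042943456932047668652065472798485105953228093465413617179834244605899225191471563198286411400127165076184732932424554041383243172791392628130355533371497013654104274545973533339255386528203878515095476188997782617000192944621045190308273481624665713973301252519302963685655569464758112712312880663366745277825106487886519253876778215448766801674588561716297408994943832801874057314041975238113126425587063627372137652714872777640539028369238764489708474540576279944225102916485628312759381387879698866742275692750561757018986018977461053359840968579462684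1747441592322194856459839161317598071328742195311579311779400325293092273010712021708015036228178285322306657887881750391264135597525733660347945302212940240259560674495450013057790036633075824141188037290168163263079055405679463274602297404676308335864427236687564223482196707780505754928354210303166109066776609863091337181717151811943091739535909293978652344602484050196059509704473856631142810071506689130473305637653035940442518714052859543820162194060825147892673372676594861932469893202071091485037343155161430462586277310577664511352998348607916429003346183364983156451192346587038365285215626753512412970581990192936333622529952296439536034171862986299695719435512081186930696681810189360019999462302684619431871973208550439644006163273113624925961609078232555569856933203547025471055765161137277526169616384)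

noncomputable def rc2 : Nat := (nat_lit 488825716911370457063072066518886059942390373079605748280151118314526559566411618992574090427745622634569923056297610314360478200647208381566695316556894904023960237351042095006727401423337487449849396543006696465864669930156563596180900736387085002570102971818670631965730017646261875127524705929114297012169509842538604115742135134260515166070127713430769961358673406104730685122202111754420689189421960918073262026774162444199578834178268357465838799065519286237866094972377077827873091249198337644358395609976613946993508855799780709652862883746536953978526048891543833503541989588745415524898385120778215048158406005348011117220016561301592506092839507434368453897886117635450307100584291484949750217737168049143863201972368645037664699496879259266917810044182712497950897537465933704148157228423166146435976950241499828960014176629658478659113881572990969855509571076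401568673153021221082620860777158759112178632812891181707672549159081589895401787178256301809659096829171976897404480400227017487831845493424881900703496499437684814356673039003458817006782698130843804395748518026808438671248453417031766896608142107522652492874786470161399306908313949008282679922628453841174107789048861658086223822029283905135081483373333511199313891934659347746020858971465338392721904388939839800524313009433967865273431686998374099756814335295824823609842942434573931276323492292503091829804725285163978421524570770702610034224377187170925269607232373069610564689613238690031169498908269707303208525713785672709922117414855531205515933463872395505964666023230326488661426265186657504236651996789660869524046586354882933604563966358388030367846441472018802096798650256315011989730514792002308593398660871119419699680882557255446826284773228765452517049396679214800065862374922220426213009562866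409299757958898121568786838175930722932480761879993199202695757554327379774610055466041202381520989956673338322085248832078625193497545129718362979155283114448913911873069285660814290405029091820254730239615787415888685609804074962015198236556323678099891406886125652294539934148302960987302219357361642071410062086959867855933812531845837809712454684976656133350059029899605152453676800752749221234355691113957540730789546906636404320175432799300711007227583594159539771795876773780947361040391644038291986905836048432776423118085712655943470227375177013070646302669198690896407071240487950865209319947910568561936199336450646101573223573492216038913687424401529902021308911767455214366729753247033971359004157664966160339771038098156866990225961926751696276611362751657399492302610342301412800859116829139964105627558498628127267508218930552574817832211209625320896787742290566750999436783656182789437160392851186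936363061234342817554340594349046154445152216063113847867723479147186700594895932432657581631414947127806941177913986803785809343085683725738436581582541839912863724610227297425456888471084354146346982563623844792004461516333152431488454136815427006069799674449729408171186613049467774400022403944780254448455846027309378812242918888233893545027323381541313889846064412392652061539411788892450827602084146166335003786208724059809035412155795396116046272345780943403007137224988231988245984389724100442694910059364409348923643397055559845738092057720569202526104134416518862607097516743265467774299449884733333222594088001324887844331454917660555439149891756707240029087402580541305710836542601338974815403229860689626678048565965794077476637307888143391243781649730938314824735605039682674434925192331001091764264210310216371776193404320173649906189240367984072228220165517618269708986708641224251025856852327425929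744432605600399916658274136963071312328937974457646360790980343549492864678143159757531775075327360040148285022366735086053579375689067190460595930767183520161086586289963767095327314286698867083287478860979572485004612338301464400140255116662182370044204317515592190674524601005587236006497355844166107841904859849993932640548600309099153603111807350277041718688170185349145595825239704964447917403083761523420030563709306493845077240486696290714228927893932667223602693406214312494598825047074347632233635706313382639528877932912825130683060821039516051712250046563300480331228491940912374108377140009354526514809017721868317809630172220479856669692759624789815768741232622415315364111294299916743408124306879349596143429895143759815965136848996357794205457763086629521572447051650105104462570659210528863122727782426778501151553536991098234691613377770337825957615380037911414323268072382366837216521232135799035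235055268320623488151431088907705683159007355903712449810144547543428447225481980942509304337230176354334354091452636362978676506544985539116687934580604263927396263967323783608943588776973764798286522478027928074939488171851819199244797626847492604851360113773462881387266605807520038933877622528442670302076520824180591387419432425559098842066262653346192672957481432587508258848798260680828963359003875326841517378765947169137149842853690264705649874616497147011381159094390390249573888078364852223146077516131874150386202634098675142693019587349922390997368904221808665260696444386325371968726756846044572084407483848399801718144632660674177854490707809969015094523092100389383959697014437184583097360351375075676331570375911226470710713655622407185087117574121921703994811614469876544567907213423365475099111864123779187689909189206322876709425001954998269438561013497626685604004022719158841894332683805374888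344266339653042601729424288089334945395791740020468521981104160512069004069350988873461176551231018853202963239370673022723316130257165775363160448338293277576347931656959892847965183458401518253807000307793863610318513237129764155788673074923732588656311575820072089486578817670409084943039699495861938148013951553532055811460860980446444539195334910222606074709464458942318094172422758237203841326681527464524636943883182204375721646976273232224623697719568232800694066402450917887218272479687701601389970248362395234911227208228007004976191950315725574760934721654530922697265851497071650473989722681505985140880232147897335633421904957432050275097821239560000759570663254246161416806861239039277006682426611290519802553482383383127282160742300653649995270933250248788139881947071379772610199578714099608787579595812097813394805963739493246681317245319337147641484847324464268467260377503170835918684193289748946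445838943423399791690153251528418809593670481255755430383456546419798396928203681322099422593241509035713889580741828709840757146306485013549944257392226712306062100805860682459828990372560311046168325740193774123373929356118398730729921829415780746623774504690914639648444510166856177549374584761309871931415707295851709123321406880953809204743379046023771195432114237057025222588559551159488802826599692437878634334102452337878943728003336418458027006570141579079294034445786171204176767792263529427827547258395903727562277957154281281995989589916994631416957963247658054720052204581890044475326618196070449785328141524502265592940624848202225802330755892030019530286970287836824809742266579513631879252377436878912250253867730972287278433021459515863648392257796954000018651259533286025422392618470844412927029005901789955063883599495688239154755657849202815936383756129921748198058267285765536839836640486212420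3064007174810594839472738210431883969745502650964297754143487024214009605548722444000847397427790008535287151137251340852895428687659001699421358411675707462292596491217606361982307578294115714337610316056876694845569074676177079900737108547575978310288608442318887706034671676932127094200978877428492581493261128285959508301621358626048696079598930765798494999927958276045416953878409074215309756511929080023875328121395237315870311954826535758448241923202591109751153964310671584129223835534300096970382441279442001409359171685485435845625849496761245220016703850865208250110932024838345320785946497103238824644706004756308203132316200694045880052278643107721796805863397760171786209099305535371529760550779451328708314093323921649556177038384925743748812776078982112758342846935092321514176256870299987641928515584)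

noncomputable def rc3 : Nat := (nat_lit 500769177497828796015490887078026383566194824636384886990005865494403021633385943709351285604295753379760151542084856776647087306406943249304248325980298452398180881566840742432218537283818628616183159458109791339902368484513773224019607994885985072115082829392820625592939907133343929464929958246323445118870777895811259833505957355312698023896924042921595169875821975400061856537617759851964883476989657953697202283584713253432479212854143028958704136704469544550095948655658232733220387249352774994376827954241064947443200771727985383635699000252281750028817931878706900520133829985668231297101962620994883947347240497580474415295773353887673634984851366655660089727473374194859393249380868580448227602583741496740014008890385227094630088986551000456754500146419545819838189562558343058198215690029759688399345678752618757084382589066679052770010707878307350608156356596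278220096257296031319211201183824119830576552137682946355257904770626452820207914259469098577005041766629668753133339462156155820924699263308463359018648569439562851334854234497642456755424654510562995922128911376232676842183415097251191912119482652810501935103358069921040137430192815880560701901492224454850911144015063908960748970401479761957789794493376227904952505905978293503413718904246173759248770091149651629881109349164174329396481248463454471134327299099507358240044310434708232560173414915623386093635744181700704674707239651114727114397425857340066194362333605503969353208174715109884881011538316937761128599025985841498216877470311160331293857561357244388643132221995610689192716371006389302941766258530043389725053063908658092696860331386130675504706777548438597725639797371184356259611135376458743008404807163497323238934452929073872454248396679415444562482552526545892881069901599535459151595189876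614906118174851748180544819261159018059541576821276669450973243722000031712349321382099985244856468920307648971689928432195649883662841838365818461097205452374260972497481749934378410475680919319584314962569124644487059215201600713197476018501487826052579382766724619552332343613135941841012429765192692219354453420828917273799621125845218037243911777836096372755145274678010740982918643517081002294703889978035620494934776762987092008855626017204662109625448820993675940197173318176574236633962691641867426684247789620609752995700292914608127209754481734009324961990940657564574213925256760861160457909501910744593383203171244299829347414470375428625031775422129376330333833187249801511634163243332295845888494891641517898154759081095283729086617186410399591201652495714004489391688643461277582707563078180161195285663399612802619392481038418538324301588580952058042238453700767757622993959231406277306239600175695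877550195560521916122064849047359700411913311712199415850446518285165248234868873598815693168767063539603630978716510902302464448761221754423458350773543686872740955678766650052850559886340094422984957726990663416577773989344089558240319105215868947991606080159345765646305333402102489854561120020242739655528286626312871930128379046222844921404075943215239059873132692647900804808850173938051947807145808206016422307607178202671549198761598932694200957508317942894962656209407617480932187770430559253812539937910938866911622288940410661993911782409889790450037463884030492801471033754850332623690455922099811106234368659260999476617705132532332591850367091401026836140998337488317525163863587201828978882374683325129247317224915228755139861964261592474553333273703167183934692192982153452588728653827904120402427152285302556962236741590787181004952511680167881895773687728799618957299203166812385001061120785322222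664605073121277707046901488209421756877826541140933115429442281928823471457772859195685640029440425068109008834134067952348987679700770613166949894713636670018059613367909813390844083155607624495510417347143436322425266695878012045228716220925223806167951704177306332729871913164411103037301024036491333366088707196927283554529617780723545745991798728714027144736196628785797867345994228540283363089885495886834452588017793666577573900975620290371896172338512749703212457971311727765492314680588190052102764586105543929855995985732839268654440465739996168399354846820846355954838382210403564191505454548182740622811679201065021797129407649367265160973729457156127690788154415225152201166461118409030734343317913758448245573849289304788239940840996777395938417624865426545927168169774701592118935144918264355356520259334694351524975383438327620920264747453219747212102921234417893893949840191495274624586540791533817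264276226347849232019379001954401623926723563332278990898493411328454622387492270703555406345111839829507736042958774413241031654160110344235449839132450148306609081506291358966620851523507614360676465915812563608501839331714840960646953175117483924486189508148872355563463043559218718615220814171167661932450864446673710153762164920820510542165260925361029321731892485486586474878048031109646300406748718265288412689977959249142861077001782322721847879907576126312285659329054869302296886855016713744397086855391696911483020592786286163163719905029905996310410856193273542989728126283961863657997199737610581296405654370326249994523364587619976071302469201264807941573151913584100136290180768238271648572729404416594806632144331449738919350371928151071498562167129537022664971124024902118254708051464569643133910997995958871624301005546755619706455356859738351723803297844835281884330771880689997313566866565984236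869280422771312099054157714788000922224061137920250951859904964416564814537528293683744853845511137417305865460604979974066492424494655922690781641080359272360233028733019091350465001928312732750901328003236474593885662222224332235180661012298965983828783929871335496264659212541636077844768126137589925828808241129090589380177585094815849434180995510556323852518555095048484529307233963407240914854784526027004147641767603344178155543346974964962992554198707117233611103346378728185640440873720859583740714092867634582907617259697430832239271661335929713415093751133101627795780548381774737284304636004840364005537518409464193417139032738603862879021354351271125052543754784704363792985032510561967217147641400126409696632351257135558381664546609154732101593424529699751217641608049999216911445715688668347859316213005531299392618964054011854801775976979756581073051958152860162413960837679835975596920853387516701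630015975370610762343990286343035128053318906074470557303078147683521257876396727974409512702859650871717725774024422384392151410125819358952103959561343651729340913774498157276693985878583902899573003331830219984726139415462156194762950520895195773714184222348050461804448884363549730234288726323705569706522669149740020139864029370359313846963579862775168819339725281005038501533136502667517575765989073775416422057166573141095983969040208591075406958601041861055128534506280144866392772985479779394676578626881095106231419424037259659207356974811593917628405142986138198672932787033937520285295290107821082603539719437097411759279026581027486218191522436457946440050926220959350497832362403687928152466377235386269687034240323491478321837219400625873975000799248246655347001547152379539880052405530776859037366734261432044808088615330097199048579904061253922557921412663447939505108497774478430916969966683931560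4805498224650393339102622193932500974259357656034944056194436237292911223012899212565237881019672022756182699165478313609724778307337907252739714377340771570368966630654499009975326000893670622800119679762732336342105027776609688646288559049674738337533347238386251937164701128608365452555995747433730820791823351747218816703895844235554097779173165480623334668493723537423796098069723099893055184867743961986363037570617251225768022469765353909622504924644123441891290733478758976589253711060941453156845328742405038369065011427163788759796414404686966487770796531154211297715307738937289000081212139806927890750072484649702235195632881771627499899962197264641195499622593139684972103086602462898511993511317813092999816814179151639994750450654701657573658761079801483166253154934602252712430546096187535553938325504)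

noncomputable def rc4 : Nat := (nat_lit 512873423364655836862605984876719351318802868944754319306005124313536006178327379420125153645865231856298842661855347905809205009082807011396442627085556719174020101015858809502730911314127302566880160133480311836527496217400474471999354048873166503340246495766265173975620211344038520492436308629753649664033679590589153195290697165300936954985277861519961653132981151171059145812522836435879069866833269420541397980346979854473067311063257252508788654805838865978103461598533379739263221222966936697319697789001404601813017907078764770988649188484173353559123141574566291342428146916951975018099630220635042248149184706994872825327669418747701492023971236190253573909563378670455360609197511676577604573202169335874831048196892084447466034065487832031383887958838035331587401969930864845955518204367679647375803685486425986806600374416074084078400332804386047475631941324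855831958147055374778109512254589745164358735988038559533158190352226963461429210471914620321009148293177905256694681449620942832350885559368481842265272647326065527984152922945955411262561434155550359417193528293152749015914602645227178364282592117763470520465240518727790395735053686564623875103951061135856848750883209592157692601622338704763607323835626368516348713226581830714310653222527191757145890852823060211018336122084955677450873727794735166750903767374580500547349252389441414812623666895856726070316054175688917205895371782720637225963946123781816226457388151618086817249244395444578256206252152498817806690134540424032703518075320514669597583308480813954309130498543940804720392756995627943056946316762564063110184931091089934557124912947716248298122596573375937873926401252493842842689799954806197939269485598166145298003750169531745576859030071274118121878084885836482093381922036008799740711757938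272507324454810396316049431289906444433918653876092460961848378142734170809528639491942315892858703493765941334650767107869911861380557556954952864191979246496775487974274880165007336921931580807832612622454730079702107709311100278285609783555989576215928950462302908504468646261819774997703308582601120524264250715554522076089773184615122606886347117124270537893708067801021107137073627567139021536106801742068944282102384776829951931942274352124270901291499662820100709449765472513690473019366008694726922445520929883316689462901437938216646144394647967567973730628544524255958252484632893670796687595692724764423950640090918362410274112004748635979455462637884164443617276673252346012662228281700093558770734368035289413887347616065082082643060177023858659312605957019193000412647507428898370709477932020334975792304428528265214490783079359994135926760697341380578628394079434988070991472011805999301316018048088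275511265991821654898589909457143253712487672490342275916574435548750848551085769992361359745256326011447489481142872641937433384223458040808690563534438527697023036788466444660544339255179144876553591628947827044389316665056535027021446110695827525417226132034134399623242802778415120621338377044515731961936471601901151909820166165354699559551779159736618531762556777561775369784402257952567555013381064081038137587008043320013287642467376450906282764178816499578831666910366883640668828779815667715685432728329394181876158665552860185096850923207116291683189485254316983644842016309678736777282305137004552460874759788454336624358580438173093673352997743471789296857359623198765384002632309421946406925679863737896578702423998423722667822240157047388876319050292047575247778016997076111238233123544135979529925116408326756248200528431292474155197657980278929996694735389523366797203700129483294294076133217467468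601866234742056289257583413815795549054447758694116949197695073256549664142460946440041827831112986252385568313264532038754702538239462752049553846270629976653809014133526580474463219385079630988630786127552408194209494802054492945983422069633181289772240687056225266084623601857531583976935738725449127292206050257931827722651091001100081111953033998754410541380197544408444099800957964963081040540345070842944903394744057054911212765039186771480874286410393514443023469131872770906058002541736515992472233567163020047720829679389508612881539342135813905014801263413343364077579084216879012436532428671599473890391157030774062066514350229314734312026882338846014109518528499550939102622278998454302658290861485643975339107349535552579817178693265081481357110168399241554065542495640623118506535339119110408691578434660710745952563068820758129964747510409903646873192523513465495108178961296868775595635349103876071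555001200405571053845586029564154816918885679273922380431416212737321134650730582608420065715087959524231522440614072857784741119752825965048089158680323641009457098255612460993651268999098350176452137758952597978284545072778450198294049288105162402529953591565722701432835630936793280926140183920047837057712663463897561346609951490288246721601339542571769786922037338297812706970396370318918051903449023350973850833199211150544984195595879323437651047380471965407773294127059505006064922573663570962018239048555051032497880590455373204101366441158457174967009045950130326622949084252939142691684914947533944387047214259539520410765358111776219795673504219201955668131133329650941779300037245587794552550807827155567141747695005680512828680633012627608908179073588099974770079758294096296004767666624918982218079225713924684655251237805223874943967131227561400422736578232854404090115492827739000038153361683386293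280948260582351712346311708364631210999592811064957616924883946383432500080339498842850179946063784309774549249603468379830852324881053901091035349613941415328101262946352753326890994201910653269631613060828555011332594761264349145268233898948070128910560615781459538980676543688009695587451392488468625130432112466528297731688170786858841892523276334762302016771009870362990918363461460882713400671137622697285485587934836154126989164252466785191034574409849682464071758676780064460201165677130968073704425362092639820297064286468387062485415801837372202397999126204206878281258657800820928429846887312789026680171514655725960816753479398425532004250158888411607896546990296956959141930569904386547632704133526460142467659041647874542036406044778827293226277732451835240818676727868714707039511248331161680683128045932815561176375944747260774884920243218915539753087442719860250052479225685605039310575807070841396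992445179789909819446468503756392848723174634515795401820753108851398815116773834851699723343863613959323030383532395320048126245733200219048560599665774839656610889370805801406610954614390998457791737455112188577109899180064499842132099059437531992706444227007758618902369349863955016859638765377795146494614733841038424457109188307855158718562629671482554072272090825157670371810279641290314908522890153767907128370674885966349740969114295485981368656552047808325142026418468677208448752247632071516449397900671178669187915523781383297634125716989993914776639163545340450081832486266211144270419916199430456678078812277243715083084113456955917994097947664551108162803416875458169124678416334272750125464254467349493032529462227811592502836564694408114079912330455087157873908713834734931731341645347181796363322174785713350389909657205728169333952486643780915316862684697013309448998215207160322154233388064226552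5235666915612303618578074989344422764518490773909242129400832069531936336911029171076243824129126004133544615163843750477210208211496048903420829169892520720040150959753181797964459532065379406740705591397143646627804625802302728707876789761492609295338693171909877232620794356762455529821771217992999954351438954523357241927188840396617647477460482794133204666490852700649365342714076788420707138254811264394633909733650335791409354152916684601237374033548667393863507041758881422657802962377868489183300547507886412984883756109494166984211618914940377366264303166928869310387139460061699695158223464290982908391239248191873365433546514902037190021140475724463949346583889329608681952210185826582084635159911372093152232280545660621766812870725505946699120478455883099834968195491400538758281225110428274752338526208)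

noncomputable def rc5 : Nat := (nat_lit 525018256361198272306124787108840335059277321806949187776686281207005627923931318157186502377422300192508725858632682679896338566423690966454915618698010451808174995722517114976935101671279554283237890058779886722398259618494136199888030509536350100902556750506705910360985222266711304545539847117620294990703227605717267591976941952640545010979723502706912582798802435935219673051698128735547106591573143360227155827892718584449161587249545704171936984623879790225019958471038382131231602838542415821066454617762618999663191367289217021879512411725795388884568318883093390349833805286386750943044700078380142177909534055234646752537583945963145035071126891651590756065391428556813816401830455628193578361573948780032403074787372543471953145154552736062589147113852748998593031952957073078317299284913373107059488226783066830287607261769565311392956627972795327488091685984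355257283532877480312578530782313554337506849545000296143398887945500277473818114566301240890543803679669872960354926091937488021743770139671504995475603050569858756369058206906552625680643273225107660083789981980293796515132975450955850127527422737120987030285271376481607752114456447203879398337081732219289368029592191334290181346721241067406326340072362932055819243367808088172616794483432719143178352463608774377660953482925007783576894300922872158567415098871529264147281102743238333585543296386462975661223493510949279608997290760619638902321300301146909957665336016849288664056014921234524466592213957467890150158937054637686087644073447064163118292598053284137749380265260870451970358159945343745448853308633580797380930617454828458859685406218991589324485348876359539866464928031221552219355915799053436480277991201101219684797782783436814291791529510858020531318495436320640247228360421455362871890670642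041952768129561265939428051782586097278866226849136796583964526302620431973748050558256085068085503154899733216058983606136586351472154477185629012360907909808773523098357445068803393957455304141564908884410501072383997465820918684073572923879933227679118980625592515352539283834150890153177872061249888439374252056221676787513267146016014545172693265279855288178138957367492746078507824543479474680277555807263070309502478299087934979924628754382591043214579122199710767365578010063596111174655770989864934098703123910071857681868452308127544081040569586853237637444317866643889382767138157666430314224618778345914900064049402514172408311405251071835955372954754185312899226961890740158185660011255038676571162880319363153779496877185209050851682428967979846535357362917432078021019345051981100740468383224909180186994638813226504765135337968753905456614814050447064281575112336100226090411835042763939745765893515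271630840240577539025609852111095532460929493733331831389568149768365527981042339262743291969300866425083347119445987278593362756784457263784801599889299736307990854579285374201992801928999965616158386115017939261973792345160342715379699026257587051346882904561558382433783106927289341199633199218552203131574541552628379770156954328330348206449032514471718141644194911093455789896756002417990348169981277140579266449002296529164213631956222651430907205566778880536450030112746236451901935402540334950283439765273153237312466272787324390183316359284939165422710745150697552840156657441464300593302677596174768696358580404383766353376510345840427104220436644796206368852769095471268128728014125401851480909829046694787267812490610414123643336823189551215608380397007480026698138778978393059779239446214403079272755736689447975218406159615848369318934437670282733321443790848045364503902408066528763620711447276433556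215424832870945814245404514550346103228947460240413294783190838085253707327516028237479328715172556608615498513591955097839315192339172626628506455741310272265640864081390370768673691966532122559514613247057930902776276156158427559412421577750894407801919368151610803219297883034416837067329499491853367473658400053183683235687020624070278506104202678431250868305637545940291680403073172535208546157487140505385020082107439508788516502645606696196347731192258727557086208720937714701138623207549193153271409203424196125066825122575595489513935797836957436942772002817161664826300818340619468594277982554144194681930527388264400954111771351263874260779769212238246275462300457735667051969313873181829712586656560151182388928966541612019401766791903475066221714791211225428936496121410461476071010229912531132933224515980575732726296086446215857702027421680314247416887043119736335300269738422986036942938855306764621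888076245457644905427020712622495125779005738210647922313434236917866249433132699611179432412758904931952904102420674313808723270214165701229607540957809137000215791989292086438227768040231891325421439996976417738608619756494180270445728386429420258845359406336263168213412500579233076811464479773806905856062830860483406378481921962223965015349774432321466972890113734963324411565280693822459092082703941697150672027446834100853892663590237793532779485981041150204084524065720369057034387496986859435655928499683093968276482881460141924400211421200611882290785901345528936580018727211621089227212958190358379435067249375763691901775624898473472863899495461166572508353437016806325048027769106867996772428328920422231346361303160672456289566920160301322598456755553610425493642156400209169268897057179957101501815215184120933336178991820908808581966152789765102397475298772140121382282135826276082879966452197569572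456763466727937860358834515632907363331959273365829192929635152046492744647430055987063683813775448553007047095106682441335538121534051253854421420001572018111257328634011696898960959295219376067148835882139323812836833326462375422625462607586960638514288595316860970598672620715705375537730025620729428560699810548318467902535190732028064571408427274125258426052580456737473261034270929724668855949473388748545188273189715144143966969701339370511984079363316817782081263483977241800606874332053921139629390102477914808806295843407285283964754743483785051913293566917023995301168540640686310678642424671580694536628865447021128158801819118334694807458420193838099578594433322178822649189246860300165827275684569036439429553909158488883325515866019957641251249526631755815902367857031736246097569575371316350278272720623888866756843826395266214385400588336191584533145758447676084931650590506794351821640133173761908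847741322307149619775109694132782154982019479762286363483746524249007921773700167915805091914105290447836675050546477114286706385887609991816871891680240776397410387705492975992330727618911999206259988734539650470616063915806060868765751471876783691696827568828070100936370771466022603503782956883975988053765698088506411077026756170981663906722872055451549414529180597609358503591276636425370294068355599393395225395561850578237526769439112840630556349448609100236696687605374294805136606158885340524867600158174790575075830930746801765459342658669062032987737296533840270722561833501133617009712056817033184564536321072769201470675409101844787100865756154099476327124224136380941080944094293193053666109777391669827775880172084069395542539454329384530332021969139082969206086295909307102889192849102864173232323410892817348677785521936204568387573747092737383592689443291297577658520377994259328354034591948310281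0631080197108418904262274476540434083775347741334912940027322905715539214109688086752636850682269368604333588927271637798541682584776348304389996981735963392344743271044171916281091907368192707636819949665653717877452238940884599684219054782574570066893079089823227977946016998092546268290938490792363818951707605694914687490551133189812496598224032402769974749001755858307385799977567777412780411162432997934251788762750549851523453956495823648935451480273583946552169703971081221449933226687643060579006322449857314233114615531621629390408354249775475673001632529678274935389138805384550077874174412192549881331485947578462601233110577711471579999162231584981996629781823190608543069426068972953660848964349733701660817628530369422019319378426848054169792496792542161959793954222663109055603114345501065534683217920)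

noncomputable def rc6 : Nat := (nat_lit 537114879722821662248290393450770035530428282380624732735487277858977076092293669825328919711595529290977117230224325084440086241513757994556330024962116306983384070776672264276168900287999554730286758052391311431034845558228203584995384670370491390157331647689345965481892148819534588883787004909245553573129854504707689483302571442176926300422696165877713089588956056104571834098854700614907816219204289708808893378664757033634824853670379529843772886682284567072206845706194177440447311171243827152542149227977039240919534601789588706396338176657239140918491586061011129287921168600330123049535842734162016049642346864055974618492817496182154772337566723687820482495678629574258780301037068602386937005164049942038939234241666263424404111609428572085998132796111213508850496180704314120285912027173294206438116521792204920323396791422015900918069680928907213503340911561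585813329702714578184059854622127895673383223108309893742631113574526351317795299936895771627442200644736150819994267745882083622127732016076418729134436893502474352692253236224445041832325731721943642392489894293977762754294576441172991469704799770196449281371966810352919640826276892518334262096062001389749915792362609373258032041398808183413736504767502445590481328089178164711840799055572619448900634285525265961484510694703025042130533057214679093096584702289317711590034721496540517530892056145842397183463920291282834244746997916827820056194163057172957211856770845258672578180786706868992762340458841441101899487606972506930562833522391255070985019668066440714072434897840422900848384297205046412870168821377901346971149990824528826934927717133381941067829276468225359476821904250316270855620793504038107528679589342179062734326509247080010846391193114533458613969110196484972346666180525020306008443189257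024147371653470816998241597254115011794358212806864776536203495379702161048281116473596725463534918293507762341597980295660313990779120922691850060572802993257387832721309650815913689549026461107058650987410951885883552774217759087489574778100339075397818089524062041445096354427266217280866095046178352393180074202644526559176543765574629457431013703198914493270916051132462061928374747805444517112219654843732588427910266931053798727461773371272655866914716152073811536054009106744534809250264438389188759507617472968517368615935044296689040191099953789992802148323139260885946075108478496227293302987471774371619442951567582294477891554911200065769651953722553173951876843166561492493699121078382303356433646304078117935449069959555136792689102653772983881336503268318069229069665988758415716677626198468817363112177971398047040813098779863545793651430011770317699038773171000673610267942309151070566191780685739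982016817144875327784458774721944663864095700676779336186077087517312868410129313267061346712103921315651129476979369064818389951307522164455862143980194867137612418964701489489934718784925234867566762269585024657313241153412711861178495423250827235492706773317897348911643439354178621478715570641630733787146991436798762664129321073935984473828392603891924004354835440914740122499092893856519817277791346507884795537440024492608938492222819406441643317317003275574677371206976286376252160189605901062528367384437918776311373105356529033540714865063811394812142328090510796390571337135507980092530689178871730162277269665889572594833756984133162066449065368721662207404994956211114274054566236313746824883256913909845387609700935059938269370360594480428409552716062616739720653695023278504100163560695609735874403627058064379476723737641975404603754627649574990488735029032689193421307400635372279668374270864608364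477127482746995557532005345807815987578429096546391746627737531894922268001900988988665521609492870827330012528965947969532447960100068649273174421400637638932617511760649499118433412224029453770011990809116429954290410928106293777903716781950872581503799518504429256680874858383187100518184948028181888409501366106280867623145509046034782822060598124896409444574130851222391824904050030662928033495578302841113573363578563311146465266631022907922478802003039461416977306783912012744667231854221356907784252775029284967240478898027384746452972942380103470308978849065769890486545439986857471687810668813586663769402516466296974083761409564627216040277778814063918108825676298767475062542929728264213527533228708512265958680981695476800062640899533098827611356928953786535432286954598689290576900049922358309407472706516504776352179321654733272680834326277125159582435006114231342505879046415189052049218370142936464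891716070941012886861100917763036870050341893595064309964347826781019735662802906209141514247480470103257282621330943475214320676113066919835765497284021160529081340684345803421274713253019393574075730582223381905806763501326765704098604376858245864695293291837142040434859752612367640186190095609270372233627990792132459331745329426655135726887738494630638409009604901956022334002250158754008044065112442105929351496175608485008133276159849031593673001142083006619974632158609062563891697556211547079896320029536873895091150637519712554833021897859485444144072052139601043701359276630383141905908944804398770528525999400270425666688197798430713123113906720908780956122125574716386750950679269978142969312973402522628307174487930335773758593463847832531060067631493714277450917476806870315962835829739697951413449762499815265017281404684091672787228348948097574634661810733131878177688341418976892780373934738633203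876894544631545394400777881329617713344123432186871521048435694641505461535494394348897412296300965482812496698629435902225529112756073578595313010243423926496002800719331168319326059625287452679541162995137719193918603033782039610347715442288686761752768346381733404240201192747730210508012415724386043039705509575029146762035960578111184734276806299454877692269891864225233593091850896817480583135271118446524984377408821946468649313033578124896049076456095164954361704447942503374443409735801700927226157387941796478692206821894347230496900572694831096358975954517923444867978733264499688033212786882755005748658484819536812939859815056496739896749905569514195699213846896121892253364196935258321980123813883039168567605456742334360064887578276946743886841011532859840043500639641418009028672498984979840703958105054854207100874914185830967802475561933916899972444460782356560140812022500890582813694523357999115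856717919366312860469158956068148162257354031249697853416160528117221419620928798169290737291693598560497676459115492872517580188286047873909961982419918945174402952267385876214556113116361716290929330545366911840643535585095376059944946016106655940862601427385428412010301512138290149436585402113829922770634307773937270432132953104611702350033876174978530449538606220238392030341108393192010218660206586879635945965372348940019830299721979520564880196993687886461839715873927747376570808341063586726466287616876064376875408475136242207567151586070685950325403298773547709043538774849660941134109699510578588063790969591468220354359365653960711305681732160165160685129315040599903919514070694410223234011399419077237936974896284324752821338026017499127613809710721994374897514247817017689737852030951998763534893040018661307619485684127994784549684865233389768935621969368880234042763367676659606428990157182645876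4431230107982202498127800975389178300258233135373931228452112408616433368836658972634628686565055585581382365612507869207507385405109788612171367229679483717489247557070905402547604990485588195878526783670961340196072207554344834772762047395554922595419618271854809905510437334103820026857957769405538718710788026729310704950517015556395238952531748113392560021588704435976091753147925682585812562957410051441441758251077710023092778511586046502569721254336536298628654282192432628407927459964708931612946789600238956576681021491000891419872091680113102378367996542937091691665546256227036807789303935131024820010246945819437923821149749481627074021253615980407365893811264224967067644448302921518867514453544153303168759558402829021662737631940696501991159022256615496201209931856852501864207041342467749711030779904)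

noncomputable def rc7 : Nat := (nat_lit 549093562968929718684516487238432738346827240898278862756847654519400768999895812218751426784450946437446912106151139504223320049218695948708406499987815364678990785190962920465396846648469163184216934435270462489492157349745223368684780659005922113337451017343190959983811836031155305588818159883124555469160918360410508047910114663958639183208891671093010573254527172421627195824307160373339055335059221804411572560970852547237052425246691676823689065708254637602773102146693066382259618539587857788584667381171068878494594330306665099876918767639150263991259658920695075198753353554383551941433752138255523266879922578318768481553567598758545243829623871768353501028700303595053877275516598173800384694353342168411074221969832042386965087247850497112060435178295323379774775252171309385820564284154421780010416104376648547901118413275155462896505444112079893035629368293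286186218448968686689867540166036417562520066892283947609771569304696466973099191596470289268531078689556558233207407491177276293616318246370898943660873043361663574470555163323253650790157229258216737484514042754589418259937548670137651213009934429210947628421539863962060260131847519609667383220878114574037591756667290335094711288352299127332635490910490523453450988315051488284844456151258632607181718896595876640193883645842980027762308060885547565878793859848831374042781626494837158925075717143166255036406230982369440918137344888126474913803355819333850136848213451880939052653273665551185962570204895314650220363716019267280683535044021497595376834326068696102577740417550046989939740041502194676059271239675809325174371716645343253597857207993356295990849828879886135747949245646672353470093645676770504900229415437455248011399969415391259286380402079827362518709203738939199184074320345386892597589752393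275061236310503184936576217119812574966603023211653165204204016377329915073954816792601344532216543804310322750425081726247158717371719875744182706195178122803742164361746023041096312798841119698298020345957028172077904602708632991910717860380629051744627400006803727661786367265501763814316394192456491379331527243853750747491945554956619605796863596343331007635163243230464822194284634991445243225347643164171642667293625555071520911692902237304521762034809689338327621170976884548037552550578714231851289303664083939423689622278496143924309038606887706250821743013089866804052995757744468061274023967316919031085007466432672380246013785146340736535941044163433380110504832399382713064328698011994427223532417196909849735214194146022711425903329206197166410150871483166341372393431325399526434486378622510827323976094540630463590980803123703688009068952487081197438015702569598082171032669396527689460475856611122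944984871193229569486783797174136997938123501220021157460249176786784972901814635785884143100782477197689434857165906418852933737277990810573595075778257725591641748159460615397132625693534278463735859336914251554705852763234450642703957182205000763257796599981271618769316289724586250886332144837509650719135177639611754150823498513275404877522675100315878146835431456677321113633101241333873047256787597427211105966418836146243190442817008326703221975097281690404757478003931749110010710638871601074921286768728541635577734873865114530246088666184483584399153743819008576784548540072629108514426080433090110362677482734922886277052371904111876136981985417374825121288811429301184587445874016370016050235162405376558067801797665472831695634932849782742118556443292913040824262895406146229147087665419641047763190606084580476071143932723348633367377679859403844908666740212725198465878956323148583709837926140996823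727331579023887604945086945440243171907634653473921220376675526411934163999337382666775610166313901896745868523699892721381154611644635570391418393045306388235875892748816112738798466087370608071599525962163551880163568267741085537226368422522049523728104261692585342044740855997314676383979136334759848240757976276551294730323990035412892876277662594068576458988041876066922913651829608186387920935542510685134795268346510772675149553292913774530373754526448228071956792045660092635894660701716936987980796651498398449911804391104043695642501354167654719197521644268220586814627432192993805326987365428975186958735635367313820501446881229724391961101926616562501456323209579081871404018614886552631626515089593278951131771581540756840544629702301247560596230348450993121293240849542736243312277470773755285091270820462672203047571706684059032475132949787098025087673616497671816169432413245121550916633784858046407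584696455308228741222744622901587854580347795026629217512707363119119050767388188443428399269206676853811061370478379126046887082441364535521544257584946859611776390317299706534050156866070322312575941946509658892372202461990744397707500759544675644225516185207530113353341903967289331920552207117916645012304839069765606677183037102123048196513622108052594959516174313870863159099878949295640997720059313226032567656275654835062936274907253344361109660010071868426724740297271415432486676651670684182366450599242784331900812554639315456444483768614113250123931186756038792990391911060446964175119400236885631737090698310420807724546487799364795791629011395660100516367796787948812020935530189445615087314936005429060862559765816251639350224510991867885663198631816845945761274209647535484659507183181913562148535783849863540272807076686027538098941539165199993465106647016695601252915831810591347910353114819678796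796180016751292472886287587035535606887348708573985300281405362821158311950202353291020967337330043247323468086181298528490933280145614368455117393996398031601243655699719142747212567094756980273710380041282159276328861212712879502764530103404501455320249890938098163630467034181373089007411733412644665581388201976204638496377237371814311465622342214824098731077137572089056900230261055425285547654912157825721277348680655828248627223975596707447497898742296415499046377846752178429950645277744587854448592707795895502190738387057053316329120522234272948090817383300652932853579008845705002484173992810219608639358763796347236185220647006507365321555519417350835775845051160407683512407592870760444715813376372417592399399831980953872290547541758121914644271984708800714199201524426654307086709521086256673172512556750393003812969064318650888781684377361634952203349884989002129420711485568690366469978638015570578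991885567110449584044723752676717056300945193398803006435540724703051558223548221327834680050265284609988504567725560327905797627065021262453760160371335836765113326558264276707001214608012226515937713923143004721745680232016833993998712077567992590161050096129779059353520562048221929880693654487129271372235036814765258851625279162125359794211785769569272076862939536980264078030416962117914902497667012865283624301201185486725097979016166845828009314868706526522868071110297772458644343887054932722339891326375248343230638015628393063732793852597551847638333434718609739931334257046991721158430579706463558653896876813524700178214012850961710557130041554750714485540083266154942440915080579433101625770050600788236898260061119380548602391019747463429941299017252536634822421026101313486912168663373625356298991481111686645147103878990988897655922320488465987296862232412179405290638494641609594333976003261303731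8909246137376619398585121677506939714023116112413263522454941784485730762482891633832695914798776184073362741412656075451560810998557263831865326626296460233064650477699671120807047508727610969349907568290327239133293096472240091976202984253877018679788932831023919888731831996033279587763183709449724964066649514269664142521760398470904746103425861728648902273371608636450640808928408278020101172917021934251647302308842365230288535021221783589667254765051448489228782258647340729204118997331940374000734038734109596319811743181738453191782763927915898557649746611708697428694134412840083023502616770214572891462384237123923652191361827220610431110032245836101331458674635201687569260749314491491090036604268288480022427376172198100174452779465108526408616505153641945175857507655829879180718223309754502855983628288)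

noncomputable def rc8 : Nat := (nat_lit 560897601237893876232468264272540018595437606781768182078739395147259112939905365684811280618319841224035717760376248026811671186803509146055858251616362901369535114694481944837400094573546494109286304236535976916463715214457563771098455641375620042962742798799298173305519595014473913754959836708844150557896093932104593339416815611554523192211005183631846161604519334266579028189794293861916044855735043478603368178563549355665065165759668282971167524246955546568569919691091142465966201871249953193307213733025798207786766496503667222853689713848231779128244626653039892801207437080316616755121887240006567786387329587644987553280585903280653020298601673484014763748442001284133695562323056122372880513203987351210607066709878387457637289163834408135896768617230541341053396280266178983937922164402324346915042841003835496257480761777998715967668146592625999077345325815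909596053512337504628130922272464555786019810172789225343925828747824285426065172509726296094053381432747171977629696653825129432002584308945680543253493219060056951061424181861753099049578695813911435435448103055015439933680767344382650519932426969706644733756331158721160722094668590678335636643677902753991054788328597147853390048286938085511147928556046477473290272237826655781618327320209648232440214862104818977004112431914645507784502497449351487661427591979793234515496166174110958234762192897033203550248164362309617760422266187535938112613521854905711482487067580159552102782081510749271628105830851704341435583387950054598287228512644257443851070709179556982512115162094557358299666833157502929777193364294128363367123761661348275006734065908084458437313440123297561033917640119824239239917035801842976016990241906444040716668376720372857700418823480385377542696526322623707881556847916547595291001715257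293465006232200289245289526979531628887518381043058716970397622448873976557862647050055413973897789865625395806691886702179672755061054687944681510305848597617088435055939979982967415508658655928655040450072715301703497798326988037204609081932119875761280555088189011213476803231730579723522547533513761451693710320905544691408278583685400456247638749013086834133081579896106137661368436681309665403764628657107805931150850594845022539106368818991779405635819972808186606186430277085444732341289485601656925817722684116790898445942228864749285461283859540759350004702504332603560951905191950125918827099944210217055729278778081857459493395799321141737784684863182308749287641072766784586496470008544899901055466317344991732454527690756327855629605600529410366616445051321880705690590432926668781630517921669928486482211188664950605470600270486536474977610588923903705293341763831549005233467199147584308175340917187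417567644844264865721393560652727852379421237995393309969263707327868417777530948347947651657283441975090079906060145088592428048084459129480125268648097364576175793074045606958370434689273482940928335048312767088058774195530081500883452991844745140041619577145793515681306283900208040677192142191939448747970560163754856630510629679973293623230673789185146409338366015352321303431604946582650752414896942893096307929883915356781434280248657560386472890207011094030114321395044009525194881773421911746722709567812642858083009421484236427256593114768684489853383784619026871698231872405923158787463671015665008252223162628445018850622663646460860380600988823240090461823507462388622445615275909505938958558825775392241982856334672392434287068366799606965699989319634933469800515182619187349726173654766483309703811711129748712490708176862587135102386607370338324926894987860407981208819999579957484800626379169125404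028121019699901503420971850349507577879575662923664156037781464564864774669379615809695608121861132530585068978044807184305145650800356303664163896983165767008776743086597395488111091938916479801274005236514918517945768304680036453454666364709462109957973468086951709452058371610148814078426516987683684040928500403720648678443849295233851377711564905198838727517100229471359634103822828750889918394620964534213968721653696507611229691970224766171815329192132961187820849457720054347290417594784463712185602537323805109164496697902578229666764880698205150208128167465536286812159492097494500995534340230568703777260328052340369530620733218946637339417648676971142433703973131751528587178010913161570903123338148454826072478355929390962140522507032818009580006041567233503934178805151413336013284223654869698209519013514250930651477675982976599745204599875081867551021490225615667168418115734867797536693133075910153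909194264410460114149669158007878908562749524220125270157242947041804436439998089757180168948817928996282677243598482852560251486272871313511074929557462396089170250589044419495634519711230284903631854906502184003742659445442783069298987828917133185444243957135910788364902801811945100360192467217828255667345757151471858465193326577786309774062290844699661942788142797327921157392928517640819596679729641123631601409776763946560190211294967818428196377872263676218448830063267026191849257594187889986008363967542224780217435150753242082162732578492220190833617810174160861816646405058643983661892993653816953662811414373772162926885646546019398293367789338848128655421564377441069267697094505141365430958734825977039989299181955720860896317382664609428886758207985220567070007254590395294365593638611323765173782357243008350565684189665912310327733029111060977971615572089962430311916217794894930699596345710528144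632579049328952737120889185079487425840096050219219385266598501814126370483264012123268917931564877422556972343333384248069818863021877395624853484704941705792777172278830891774601871700044186145990408524476979689183571836774328795814544453912637968603421682025002349342408661096931537714572886633296899507064076755152105403541909839668344866927297463964794647107348209732828085086443773692335989697456326640108764590070780402567145786863473408122050726146877003246681077894859805446320862247134520468981459000959847992119133274256233993012687780457706408978293711227172259872088423958255263622260616353842526203450806141265994527970516786405573621834600099068296407519100959258622661426717238915886728563634466362548910885515819999330308269159357980422185748465408847835087227745826084130606600005738854769998964857333356716571492465668709308693673804946747730731971041227504777377915443989838723786389225892339059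516667383599496030563172791704669477763106536669671205739879512408468397297980228251134574340165362519985969300032427072760030853440033000359396844494569483988768131378034199410741497700989079892673681636514549717098428539186518639881368533795236467844686126207511946528542400634763227454887344822725990016978085961441211476025738281590004828917226041326097896209118816390973850806656014141234698438005285792118184360608162144808824171730476015250624021248942170723204604835080367036760266923048851253912503772107920357861610820375647321563167398547225506264201403410803991175942670212381170291138024353345331832866946635762533584195503295881435900344189781514980521614726513675480460821993709871763605491586656725826777130364157077505197440312624174639356277747646500663166092626012340938043764149196513117901057481061346612298365129656494027003970034413837002820163296434118739275244667728760081738163322172883298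5458516591986209993017859142030428971942560584208958029335108066453408508063096648124798586138224017059255569128664562871322159217958542327734683299913188799057437136007007499010779631630972741179538035781247990289257551603309857902828369938999174057852724221195412054627242902375694680116337474574724275347680773196174331538098143851364095537493939198837147238528752233365140781491754919534384672198488918061716870446371654390260617252909981143882472206397090099766906756065519474210220913792510278108338679245780382347501019077766213625800765572080437779705137295382361662819885816090774356301982529537895612667049825428292954074206746105955472755927860722911326758110384223348843848497073815231946809680854776307049753934107799094256089988428063890066315847676378515341869190517584203610814275473428893003568644096)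

noncomputable def rc9 : Nat := (nat_lit 572480464643247301683251699504950945658079921733288801948918200423250590278605635993175072739132171581578853597494484674140049769257834768522955230590066073329800670509181202008034470330829390206483459634532077907468253888443283241682744858177221309459292801895303999636446804904338074169883081951125562447444523832976043645050128549524351961093650090578211786996961195778392748808791990599757742373567436673687586604092976531963588312426596059195745215150216426369148463292364076733920106240326390136304135878588195410980301693677284532284748563200715072989683818780913962499138212976206075198529149087247817885468130523232102369437802133591775326739262456340686516031895164744723855433006615776753834834384098784458119355676601125482208471824119845326095585618240343360804858731612232438586590851304318896319739701009541090307696786018423294608844245351476010026536161479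647489660677250146586674540021536591146330086119883902107934356518497898616537397658766920243356768054225000493575095239393077810799201107396441017857436401670953879032635236620551185892883671994841923548171826672374825694997456937450084895177966890576982367416232984187180338615453383603743848031952738717377736786266264065792404306800814210022190080868168791903263924036766573802154213658345019643864488049360826055550069728128480404511756918574420759959318816364560838046466844268941375096415195889890172320173896865072881394961739027390576765536421990472557953913136134044077022563829539380134713322409341850027027562351588705626228467334968441699757809282187841520631196355482763542132947897928796965925436573488982889199645905629861266404092560124794683900130794128671224716070295093386653065308086834885761405805080389435284252539549670987410080047692150484499822384256507127639569047640102929327154553915937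303805981541234805563379802169999329906444847948374517473914183298123616925056355892004288385189323954744759142466887597579476471223694885746231450840394075410319291304667317466645725444244835825428770608092187073861660499230279352481245194082278177045093288282093218570242624988716823494694514048891032912358962263957368798972561598856035117898477481172869416969060640916040734383301281810507455094191290009374767122654614532856016930248844475082326497417530944591917936284887764235747614640064671258064265573562914656009710909992815144423123809868419532927977290147600554130128492557133834277240646893069569272748541245568797799532609100671920830064443111208998550735889550717346075222165747041898794305276897044373030144703702681481085997207032086068553039685054191790093721973934612388845255090446316586745795025598586178435630482281923278105253587375057461001546119568989404700123730569392610413909307186790489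021149292975751319120990618350800936788077724498764667230198105200245707058140796914395132196200617589230896280099007983836496623175361197272638292454930117167381021797241592427972228268733936562391893838167332669198372949653295768343415998829044292929927105163596499049948798655027602541718265406986407569358939777425518238930237910276488306640775851438312612343637516859580106759611486043695042369621547896854914246456357535697837193108803067453096040402173004729989556703715151498692595987004010814361120270135487282743414059216466259352438591815811832532022066691569622541191924162469502504970572503103176548265800265957614486210177606295110218848221833768378591334826636324086956913635930643515700061345935720976139499312103454748112708767080391739367688375117994112726940369508907694442480736749907781049742680194676960938103147040801223395003692738756749872659817890110635483150646635989613111151824659010503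762800270992545662096413049527879498412709530989929048880954322935965376533794589548054806962768418767815715578885808216129431744830091326018227010095063987076835123444905370712505362873699035862120985268182049117346779318543417258664476032750617518443671603388679919680064801228070891909425742286415856676812973851276699703687462843292149473392199684956789515632443519941640474207513036933712295176313175193356676889806856701153501958673956707176728991071824658823205362099016598053085613639977580896818102764149072764556125517979520267600135071129328112227957087534730519226789527402911506732933715294496274974458917947788120233826763816204084477093175644309575036961939016036954504329137952636468336012767882676498508445687018029211657604137677353384738396497600913782969631699634885002599744861550665496098806435805844544699567803798504802065565277073901772976005534598907961527916291928983148352981361375129282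335646414661890192882102803918757046076391011918331746304397565674089504520485402195226808418029046364129059972300231481482973017142278154175947246740566557960290649009464049529431717427017690336995421470161749137695623590372304427686292868223099863044196598242413496132197300596868878947483348986716607160381573408639550941547753638109213951246450475206659889835391610661967702013388497918957818381702547950461820212513464059477470226513895374457653062977263553161629986587770556581697519732194259468840261231079994166969642414823026523592734616873457166206405687976392774932336529508076843910603945501788640789053045942226927695406585234120975075875743226830448008708031073024468495376310462582560341883114589958466137507210421752471911115275772095356222528844421874425435533357037944243773638877821482548300516628119928361530660329222526496992227933562029501038344639711130411527957142924589657261770881294444119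543315021911209318817641376431557553235265505319600225910242531892690449963581231626711701292788900754070974632916940147895025939285333369080038073014878040700671267744415996874226989833838130446899730270300009102131331655375047932678291300233757954378611535752386586743211715243507644274771507541342221311132990103745680370707567358099211852709243063454736834440170172730880648602352255072179110074464501566039153600791616836188706267986211314967541141124770634965802285091857068722030370663030334795469952574945996317940637733464383848828884975937024483589064717933181487034946289614877276353031582159607591296814110300439015555429477022754473018626816886312298989766641099895654454489875579761442848656690284208170213777460927243546686739897937118714395662170861124013702496528381004925010419280868916876240442058212232359136580261626618049030338338764278066662308433810459171523611410012500727193212014702180706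240714209823517821484534613394984934740236167057352194426016869228235254694819012800166797844418827297163396642872695895414007053379202879303723297636536340631086307956427224649182964817566072132164764215134275493188110467093141772699529271252926781402803959636919675242790591170117409775438382903590259036295763387920667040095808877448351482344707812734767618377653114966551975242565465962782259910692397973247476687329868412607435297710939599710137696884463782055663432396342078657793089798075926914436138073640459472988732075963220511323781493199510962486735068941617432531096091081463008854289113963357531693750953429545763041457886462080409903982082588136138348753976835119228531473942590737951088795326150573028093829141070753099207635895168243322343900306877251140208350731592188071591644793662497287539683967022048343561578759224114416770731317217880154262753854987681119157463317710013311885469335496785471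9539133744506880955092779305869571845066583400322902889538523682978011609410058054902059323933208442740736820753508041299868499962174851149935306653169501224386128119415299446580572082891733461925418656076327905544514351461581905903939524657767435370109818037834112953995734012762829965475908468977190011627107592105747889145022035028998258750919937329820322856656888360857760160857550562300057265307568629024191343001394505549025777427243970507159464799871306326526726852626495001082716340999867596637708087740418350030894784215177874033466803083299655938606186734651138701411640208937305142694284641223447445548339289076542788270474557282154880377847670944272766228121254272441076214949678885649240610647519697572139920094554367559219976940271324190371685477549447247309091917608726539885313930991171048342290432000)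

noncomputable def rc10 : Nat := (nat_lit 58380410902843564680733662084312160160115939459663284335169027783259358762525468355783517238135886519082691636168026765476723920015016962448609809158168416920693980193223932574702271914494668613444616711288340504295063550934523469727704654697250585268114131380284542021810660523345394929930649875631665931972521887247353977415122991472501812081458365870947776980359455097738070845586636238308065298095189761464893528966613466954571428457146095239501142127079828032140630700518043025200990445070434589585080483314305046697762366770830074046589512517132028227954277676602682813562188092805757050812810923365768283508482835378158141549592364525325874827605512545051295674356433610129903593157751650828757808326663389678121254845204706248069240509536517328525393774051012816775716795976038698654040796946004915635651024779037826490864977686530415140369080455435627228630561149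545960204592721604049735819320519019070085460062983216071717823620490199903202174796332984865621335859315356651199020219962712022151611028442220105509845076280563327166612388939579566725895621164835019681996615900100646204104893165744117932541461133953520022520029829000107229755956609895257282144067061704291222325225343162353803743100648959822478612163662780843309019052761518909561541591043101122672594051739530306920198882115717947871265040371253225951273000845023014363794459731821077150058300526827377275555347815805380859240769798799952955366280965147483335845636615570632633057214582900156169377305668866576614120278356494660308140489380870552060895322360900511705904207448928076414922852968733377021864736968622081386036946526989878989108230349123151379913894537411313389082204148911849962153507221428418050932272221923355546053439537060085623360389543721902842528242567949814111073138807996856481310370565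869628084443462452580622200985288816895857689120445515263737309216842712582960002330736903527651796197115064307662191994411890191760923557724020573849394694093148275281634732781487753420866765937665749597347737530778155456625351013660463362773753174480086935697269878767377035774570492659343583942162920155725943925937162286794767308530353175135028553181998568695476693346714705722045625982866683279689170400844205836537152533895131470648059131731273356083246960639089798404533339849948800444966218967068883567601855194558029814443648845444409133791870943225971567547367192412474748501309714791062870257600486473596648517087891914191744028801005477727832991680174771016700597642541975167015931702262963330362008668274837363186708906326778316362257059900670777926456064394648113030592748546549284060465591107971010776417129241860168644250620357072056195164373757455605498524498766921244041780401210511108867458705459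564029418339391028290352928754441247898039684611467573716992989277097157916896787105870112106945636177706020738721461233436434769561457659419980205503560775469761886243944903861265988178069848401871986042062395737449417381466062916984719614956911281204636680241611635580063109828152252272769637717305438244183724695228108299099181488426111996235330796321352413611323425332916602786382548836581726705466630614963746929494354065278613782919047654578550184624161667290288181682657214493460725679121371434860906326584466960186936864380474630837314631497462804268222580842962854821797183661363762867046136363344497545882031182734320243964237489047377137788822333337824529548361647208988178955027406684713481556482337730111526567248641607554134618807265687534339250307313303833612280597938783456616732453350665897053379293234786270976452237654502794445348123971404178038249112392335243624279806004008372582780647259243897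532010940070646641057578874624718054799493559804407829807733718325776878589575005981599748832327120598711993508076800717407881171243427993481806218372328452368072618130213621174575984399853986281672938320167278846088392509890849223135724758663156127145840576920037318078447775635250359208287078173906786738515361036222952556805619016203976415086057107748905761928892522067510586421677372925373826976971813931060664329401626824159956276664806495961331562263744115238761294890693893457015194371720657034507417111894858584574826342008162744941731834437572314232929280232823228317117908232179442908151004801269193881277991142506860836898554869894001513868278576696999727239342795898405176610192362600306116690150259432561114746042829717341169022780441351555936795633791681811992940605300123271849028959998664185196428510080705701578412377572111693290234077005518353335902142930951474321822077924073287686711909109310900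534937498343794457963569371482661122470222841198098728982043891276843213835562890500898590122113726454049599604548787055032064316205101664896114790148891347827734524544083575133578619697127076655473307908485914800781984578733914820041594484495409296054626178942945842090608784174406891899913246305431203256247723168233455266324439697678184087383976405197591938672171807606676298766284727223641876064802931258361332401959225882296129417990397190734209284072544698989385076269741068254566892111853686350320177850616505076819907231922564265064996913530706083640460469632702113050082300840085836015268512620020156275676712053593006173610618587146878148041768058390808658347096426667240099875309780253894062959603047501558608329199690056577573578994856012900710873541846343357488515277517717874853841382037179688332715818600131192247648093021816663432287732155218475697654454591036950751093901249191149062989056404296343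752134975824459499616042016143066573690378163197196608839136493612681908016658535960902822845339346074290249211356168639572700651571397737442242491370543330129011831280782970148240993389181933123606612503939962848763668041811774384597873925458067628381804333240842115009859360588106076006088283565272218051680468720029830956733044652345455671998177942510388291354502019517468574262341920898001615811531037768597550194530291181293761784305024655917589811749907534266318329997716326246193258977075188139207458171827691200063526240739883127228002986428937180786156433368563747430787191623421586200287788172553567451527113424130590558677419626958408841203596906955541336977825451154947457679800901293438174489165049815436127146277028223679908118310337334549641618288680233378046455680370799120632089277238531866238261759201721391676257837840681365486547030012443173533343214509425736239365938513162914673727383781237889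677098521393878435289248806835076556255445142867003835078702856349215041658143159183354589991822371502721622918736398617668138513174608283708525183818197316362949664198460690644112532194635101893840983076126442630420812040841249356673540403759999100236780389847403204396968775260518044437292838530416320511400147262111912817646563930034164153588277282245229932296193882608860753273509151719074568677751715329288107298724157748061231170102010491363979308669000758187151053097966847441600769097922348201368039950207666391431551744751891610554870483281112465994526154790070099759926827813269340841638311679441546529310849610168040474124522514560970882877918570763330501152029204148467791379451263584555517628436143323127382950014787522308653302180581588019852374164072324313457909419076914110365061311187173082962027453438051217912601835375197322484476529923054302979860297640450953614213798585178948637466417543331837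14518459516108770816288938943850662112143441058648645679258620602381072611717647335614233648727751138417524825798653588737862243090146245645208972068925172139359907418264578379584184480608517269146818118650790446909544891933402232778783096785044937317708172757390068512093382726816202095565626716613178119273278164818632467100478374950169677371826629987466513314848464943052946310101366859079971472632820202906081067886038971470679885487963289922190069670090650670476169852288618442848944260703109569043629903131056275949892836366156452582171991459165040152870753192485049242742013236833703203870786086335946283999747207110959088493156559211453515509047728633527398344334985416978303443734487482666575229074800853933870314716543165335650104203355152856541559777668935245587096404184033651535060219297890698804802355200)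

noncomputable def rc11 : Nat := (nat_lit 59483784141800431134780978078520558313163104443699222105043839303562076444027965000302064243953455149809689464069924676407828370709663111790045124823185557144979837883534979313932346257437467328030252432812286189590067432926908978664649410275698856764889274734786531730206663751595485517590882582715406294940874153011463201045211381228390210937514500341105045267072754291990112390207446071346725831120493544084541179561248521694536625548165874118483369772954669646556660019913397130103531908885214413561382735695182818531335819071311313458292488880555704787826417169612814751702628667238468394164109828482183191290342761552959675683775478062255324301422789288997904317530499976565097980985772083967200548886784717038101649123274418592140927316916375470761766272011261884724550047714155899573013620873501736008513168532069639069795789522574601398876286688897213889128717784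744664115175070120896123520781608472231619022807322777641822211472903717860063101236596057404913902711546339890162240377731068980136999417222773787909620265628658820492603104333095397824936214955243486780128618680506287043627364769483974367228288657420660854475095487022659781068691752558171873159633320774700772056686918052612823586919120359091694979049262899652019851344813626398167257473931057308027186957218346019714216180192430196671286624291619943065790783356959795540658807458074787103926711041743542898708458969755664224623309039833717208351323308380640326204589930661656055479847208699218860637102976525297385388017296380314641342370588157630863059286962822593125690927404325310413589550953463164508242858061446974774687027714700583266427894628134018987019054561358705498998220740940539525080641858218748250170033441292696001296537612397378605642350042078324945857507882281319451189240634741893608115982297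530675793609161539404626221773003887903796738314354508783051989403275263189406370296985991537442185750612149489277428737943417693850837404014919980359916670220813242793139911183926777334874327495951683464879584922901766546222565060962268416942642452801296624766205492233271537621392849070375955425829233823712401304788085514423501273614785122232987438846314077780383490907342297152680961954309862268354921820494970872848545263975162462436236094309691492698465728449596791971129884664236712989022319197767910815561084344844606003482749389108261678295812405602783228179124934419435573326924127726812921385827558753897011905769896551170046021827107890201819456383597772308080958922439317548327973979616271450539779342993766008318909605546528553055582050975442597163505236895083484229983069078574086743560737057708946737436909493733500148547529552708588935635863096596847081556178071366822412532762382532703711798683439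326489951448112619927709233373142122865671778001275274151454767634215914948226387636221728181712424290683300722489166507106441233834092308989656924811841170836903361633480806556732244794661278861982830090957511749575100248138481636598658312035844889884380455107416423235326228941295503694740603628524114337669798165444335032092408724231018246004025089180517611705251021038061248851297003788118839396319283331949545503630693318750491124964786210115306657358313565525441828902387413377246115673046954271844132627929630684800012874083989598767237706982685317069996181120894650087717018318986925493134784500097618381072369161771816313281537729077520752024511811675916188680623655142835608111139224686357944361242073778560627421033650185626779350502350034447508982971203802762509706091442571388015750986974778818234139259590826768863836011868537238122677627641996721837225731876949263492998112204999548522372791853723395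109184304373706675341545671560323568339729992389020405894270409766405360894562777046937309635718486041655956432599109879639214366384912133703761523340028666003200259528184919274513652903694902308870217385743543100449748481561814615704750923316502618399961272344245667299433244870055404590608046610853874579541894190367330864344869456749264018847922109476066725143176970158789115314696632012259181314415933280978659592022891218970726799340342197560020941902845866645113925042597791534664450847819892991631772429823712793223468523007786182502184890696641008080809758512217636545581003873601635748577297700855411465574568742809121134981068545096261258940322792889797629659253759030165393724448489666431001354607849165689195326811212868215549554427288660671776985058755826673867225303913138008806397801916672414007122016166602314202137937212093568091071688533362356998426128346450671161456076883501114770797824627304169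912414153981733937089150703596027332667554467627469228020884144316255922205069227164448266716826570144061950874821852035938195856484740570369705454270062785090913993724282945388891104407440949680756086949298103740966318613513988250852254219142975567979317993084668520877115767526157703872892232471331710464972980075799200977059085056954791038287394709372780152733496986644230365747941482451780015165269451284816622817203872004016737953960975261990543769997823896983103175765037571211110412011775182774758961822719133745837768968537566361936349303372724045692638006313640340321126452801513780380253534231559039512573588459905829345988134078092861371227362493364108423114909724457727704224526616744487515958979396471864346860810808044291374307159060706444399250590821821277547772313451146055015269200175152496706898680220120018403685728928022076207090799158682954689565751337217757529075061025547929794530220860196062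475219769151562671918998872909830931701318052906173918993971688354949133445482328398791711195939407510407546085860783087576897076466725703178304257894021073735003551535098287238398736886877020327951314199073919622373861154455669049205790199414107868720498790922155821883483850998472759450152767010127309740321109795289114409451480313144888880933253831089297941363438315271509440004369494991152524628694739198357665313770712047842589404663514248112228428617495787877040066273740852931591079270104470510096257561786489726423099904664436757952962047535886670015764716698256558237389419021104424112460297802765067926570526992235853270159295309845713328125178212210428868342757075235707053960223307779299013461522858227526531698370169592739035248777704665023928695410989742537548192310569293438531104229166772470687813287040844194839419995827377391965093466927499348854088782587678598852163852588550381895723143776037895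553502727213755372521811513771544846791039051076041904928342162142650814330786331663646588063781361588322385242563361033173725056319327671197958577980964239809730902284869409734636436921407339843173709733602265087286107181386956129377411158127787021838267686477432759646627848747549258699507247068895197278829270374285992073092448228814196400086492643175681322124361793976589391841743836424868621427450311595015315813294346829833688314029309113181179974865742551710054397985803185410382914043271134831718559708703234361706869490951138681105477142265457434942464967793998046642558328727189367596295336692704114449571815264186690029937431071962361181881003553521259203512449823814281649479777117620230901860708258385416278404049366087973426175292983423122657307908631361708015349352110994888210694293113712513039667009354458201051986167658300901182991632266658286370101600047017491974987405518892075784267822078149996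52568805773225223143680149357195187387316870541866867086564507841880977283169607794164197510253260589489637821306237225408789281273054466251035297498724856762124687911237138854617818917637908998439828374589024231702598168145036424633270221909764065572502860572169687613502466458284880400646224948205799322890476163015264382284851564296086650190632605553759455945571467581101397247538977622767293389143173880842043925960182624260200255966998873549775057730342868716247977807309539897276169513781792437050039828324963915129940845984870037551701050755218614409625432901702781443460530773973154255606184486442431879535038281869755636802149806696533327364153051523710272120429860532449324517592579792066112905677660936983980090729603378450066454749766951963429616235197576558234372984906440792122991542574851891518309924864)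

noncomputable def rc12 : Nat := (nat_lit 60555708156628333040591264428729232905471501062793461834677027008103059422641838110188604263548416133702214841731995707589156463348360412136001727896701339557502624252819128764508142077962011335992111761745323442906653326074067081645761556173939548279098074454742467977822135800610053876839901223885484233131656708902686006440377937263840353050839159650499696589246479327762996990721661451545385665241133571858996378389235557993028490462631238528312131332217477564833998082946486117865263514327707001082165289711048092344042939476667123440026541195375163881300684411258469511625854415140000834260168227374883955798438234123654514744441677888647049202826925982802495737303615334326825969109633953506808176794699430908188919991346694080239953206476025570783887921651868129992414537378715875545825048243307380048783610947811674741751219216850695793043959345054768943215499880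292101091066212553483580872554394245737503881744469616005662367932411068103161796504085502270038311375767942409838519347721119655527217139389640449696947341408688401158153471072508913151463375891618880526854566561988350800193871715888321699447130922733218963494654619760276446997012937943729885616625445790135552161235450219363447955040174363244221620295242496217008961535236835270976809987819001369539693890623400060429522630998148470649411579983356161002239378460726432673499913045049848923457808313997613079882752442467205963155318511778131499985391629605019215412499110043047049996604953544506857001857370010141694920241974346100448923967860863991735223241433010461531405779124011497968007335857485343119650138773280863569496740287797375270210943715057088551822308356096189888716226976365599597065682536824060431923043451944112309167400036406702832120164864069013797258695452041994953293093395061565638348993756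851914017200636675794172921266627540855916961772189558887290511291327829210839865977292127493914227764655084302423867287036975215958415330732419357217196492998272309066232662708035776071750926466629406016199636700573562727225064066275658862817466090321432628615758355993672343158418696657016108084570946998574767779725413105093192864383018266647119445173666938993657435865991188823375510644959180788929304186639629137914629322567552345228268006909230627386661428831285096145545703517153215669364813596106841019429754578560562830927231102233039375358881836173668601474132679977865498972715909519964951851690572462684919062440702011723192691680619229335993442491580472503760341202710453377422312668746242263761563981473467521210203330694686402118918751560814030886337747619574673946209568877481213914812175842932337021518158221809535301615655419021885769922127137824928784074789243623623778320403286386267658754948568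753580902257643723640996636549976816577810615688265310254047921987735273137610108468327256834241105857248423275925050749371742203587435670872017092478559612403555828397269526038246910319594615686298257848276668585842834603365814368636633139061919069235055964885663476313954289992295224482091208462089223978957888056512371171735758707610231357896842225408940495288202286110046079676991967456348279183052245910245771656360241958486268152059170702303343180923507864238295300273621124446543534685090565238193749501334155532331673569634750591254921141226754183386875523950510354561229557545130843951894665588350773782715972794859026562065578074336455333686125684240629233390067679674015362281533423820858769650375593817463928749070638191843254423442306854790917767422830742231709232579376695486434850508025039186159985099311132814614636431358034415681063618977011370082094908240331221305741683380155092330172553255634548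583806170029474137619122902615534850856572011957420242724410862593084213319376926472474779565482038694422235608742255377453026134029739318116273673436610683144345255868733527587079515161210454371730026360120287090565181259887513158070779059611922519301803879956983795501589395544282897850017169716877152245993264321975091915774674405911021081965100566631440486798514031822690436023050833987682460009812964809648140818874695921033406636700133175790478005840839477309034129381511339188332218958789422067487847389844982585728780533515746324527909818174546728603394491297473401579163813023189881853116366852877934238347565175855055659947974754314641457229631360846467459386450528051574637594663140613705554138308050224953162934482520807236768664491960579037825083631287840053542502854482233533707753272330357113549618592232028219249047840833127485787742309257535970826400837696505448381614914155948897715549936696681534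507265805857977438572021893274556706831774602062787181580838617670618857418166658175806952957794850101253772905445715139024384207760999948151630494789489641169632801757158609959107347807088675245993968052141463834541012362627578890883255756769059633142137490662452909369306634732046117200839684171879824071308188392410879313217087647332247448736708639446603417417105658975704470425928389171400816744973637965776637408779506808798931638387525917809930632138091558243462780846598750655122116702437455235014589754269531118199601654417146859553731315467552188181442293956038564000766082101922150736555650327611887043810705679559853383852631049961010439923346106357442088432896980700792672433693505148220829491720227090445574698939651269373062434971136060093511382769209554895028354100980232675119844911938632598768416024456003563769032147810325940773811530555134472806938063136501938479986230408987567707016969672647618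074870680967649789682188141631766580174216571195190379544560991332733254829069838986644290719504543752588484225225071433436131670388231256997904611666351939790954388875555222631811366052812204245852570264881183668822940672858969016772943155651504921352723606575959445917082573648754160928362998675741704449219886663044680754072283851124762878057919673536164779371937006604209479158735317853068366670358949373620463897437360641470296449997855895298256773699836528453150800358718322573182978368311834805337048757742297971802113316157523144946456278583170479283860312233303957077781920358368059804827222958500670279562695968166893328504053902756311717801841613546591295134848752409744248394408815517546473482261489647171174534290726709711949388586432395078282346091793454529890042928125690551262753707951169926815950988261804278682956493924349699992418108976914119510821826050683713419980236739029475310588174689577654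056155031003837610032336937305865130107235541472851242595353583390428986628739422881691876764073408744630689078492733275444745895568955579022659284864721475897127708757709935902991162300002395826040385048898851961659813283547045203818573666086048177724810585772348070126168840162208915919684213384881020546657410316739895185398954727017415685138359120461564409458296038090269409113963420617762016555961640346701687675174832402263223590628867761772423263275365438297804690190082130553866599208984839288799539742585789461234836297934096928527618748609448495339602196128844279025234354788838584512836097772632147389226290897660332488320451321914901069546487340410488410637955192919970500848878046249983763542539997634480138765792192356450072766926620205552550823961123706818683597148034264796556980971928051725586526816979542984204314156437085273558244964410647878086588415691819413225928876004500537229640064507522967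96376045713760144394185151910728104780069821254878050586457152299729712758960433919983675407613284128536161920588545130831567778553301009838482481541168266268138887127724108124833289157768820809529143442298779273983780183271906067587032063522178391798437163739409347695062214954261635704683425179593322303373208802362772262405135398862731032738699950410120496231463648624451465014570773265875223303028702445942768882498290255386095379571838533536619359738242736029603528702080832626622437401349737478604901211311406177188664298674661923789102500442737139315399504697869576418216115423263616949257228671555972782904115756919094454525115752864126899009308122901752492725820291234138323049910064662532511736171912332256047514682674312087556823930730856384735775916741928341307480244407002348884957474274204060294219563008)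

noncomputable def rc13 : Nat := (nat_lit 61594276403620849671154601708462522070159974670805352292601875663974854655028186799256630348109947208650380216344690032756857574693652933427980777840774890518662285151398763341307006196321815530260230010593952170434765685340989232792721017799446040328816368311530799903884888853789858467030346891011966701002367462719984075819114744357921927094397184265667555820370677394497463268361231108817362826094348116251387594370162526592609279658485854436292521989325679804705092806651263996606051043798024540931136016893649095577297820350227322903226416615335461893798598951474762259580838548449662522644995726703669592200765932359105058995847500140599387625897359296973773199209274380761440390300671813648824926345441190804341774784600257242653735062754012525485047173286534502789516408461980953628724323142244956689165033571787881522175577653150018149170400290370568443277050500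783473154905974808128895633046079463016395056376450182821808157301180586180995574767387010391202853019173950140943210172436068055758731472335904668478320699915376338591599829131232981242394027761431029019194398098322936944405199242989428596372914340664864036681049496962266564854454997207585456204694327771272739038439282285574272346629053795402924295910759004949375279450620626837800122719976699542660115062182549990196968968529165666867208823530085442933095688323504660996317572920607459392828734039679566131171282842447608179434225709837850352746521165720970131796481404028642772677860371692761363165804917726593562135826445441806359664316975204416073314369064563541067670006483331777686625043181033154809094930819436278613651079962330749526737237486002832381390768267548728955884453442156559433547405330816291428446651869078165030482437267478247535678760021699491675863422168060640092576486014279019755284838118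335614087564222702311560473623140267960797640889187940641889545027162390024933530981565514614875798852480827346140058289182035110508932075681613991563421809700889302356780169863206960670665226139124615160232155503954072848102029249656860202731843720893294966748077109449463704882125421947041874837970372884901571551870218083587585823277287837565744883750426677223661389259757843616788634300755861490360215471106495405592153147956094325450965626583500002622332035331685220872134314081316708596066613175749643348761123772050402500620188354725127494603997287646697318690686654628645998243190365121869398351021234286200865120920462379939502569739827312841390821538436085269083857535393090898680851773036007473869687065293135269617990536960059850119203720053842448851312608456171990737613280969026010244908685727719380897963991095036032039106252346592182500361739437481233766242843168097997892235232228728029604093741072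177325549191582847073907113906325146667986972084842974523245284051937006000227496458632230647928919268154914737473311642099479678626473065585341141425429185148488861457409116219984530904574827836423920653939073826001431888809762701255070092654654509603275364991676434195945588941975613922299333953965113080351907659540617367840389230030219827775888395481163542997624924511536626265258093630321190739547463008178284768645236395741700228769785115399530760255005320581740885890832312276242239713782929462904722182761351353585785737072038610534135781970108885059755116388758934702143277211300406961448049057111727612294823652049081006182710382686531428530937820257063861797760341181062371106727353393402450580423715496326839986467442401017128946278273720773930517219529173604943791119719096426395340645840252181892164096104439535597159738049961370623195180204527509987997246383859204957974163490203360009614927637107512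794039269836708636003221248287320144784097360193502863027469210024038269604651349464301389791092924034304424562347977548901095736247899855050650865578164013485427257516201312794659479953264605515936305220401116397219608246443839631143153614088014746742523236303191491136448190993645750049010945592016505542950643828841315064949076415063585603974743853383043672788571084229090887155765509043860699097485452440470216517325130560812532084643413444801245455784962105274878757013489966200117100185167656129793906169487450271536996314871541466891929267465938558868844761747286177950543449796410557679637926664602632734684484270425312686066286815223356910526397400770047059730680158902321832339404506277779924875376035541065360777271822599544709232377888831524298190719703841762031099286584104915585134829414861110365848475465020495186404485095474511082453681809864781014053242872761362849633266197402413573586820363299844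633291027433120843163575840549569894053509518029094735968306830138130475284627614353909574594455930931702305088627219637763458810686780614157450918733582116781955731429313046445287352328672090685432010744095645514522970772987415231784336689983288995480989577765259883437309204057596636018748027912016212920112270216093470878146999744492176343588641337542807705685457639506658493448372368720434530336461775606545560661237708309702757174642303963345214916038798782192992690102666584833474237372221427458709006350501565463976746346171527001760121230010499695639563265115684739295652008768783805954552600028851533837032913072635183919742187794591982270539119167178906654223632030282435955153948442012746627373419748150027495169537266803324705729933762233400120876442420714186054662813754326834546606026671326604113550122230461979707454891253644888305767414768662311205846224374634300383086522595689246517636583281750086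562271101257564536897194434245672325700572726961147296678016564464225292703552234838088520443707872739012990221180051902917751357203495907330287694391208813194967017540972066553089950874224542625855583921633342463153430686483485821283364574095026595520854558361187884548899075784620429993489893363873830304680772652801078647211885005171646904197152180231948060915787389604105673374836206189161589906973765275675602875287195261826431209868492851935580362895193647565557066788304682210736385344537820405995113302970020512165254243200604258808629668285495879167984803752825974973776737599615638564772150304293340718860040582511233796877358311121027657857052625933172915192502640860566956603659445871361168236825568825450409948481923380139271620838862073445593711495250503689274598774592781816644508475406822301170813686881289043177928050489442647072995208930196297383707356048827058065647643689139592314314737847698779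174364256397432681705771083189598621801138201934605012477536715807795267551283346974827063725036776356565297336693222838363435861805437107050034187266862758731578284140319970859673948381960253784015752441937052023383449634783757957046655352346399700499288421410079291026749090228370171805519991677769138724731418700312573034515410612545462038490746229352676180834721703230949671762412286089012579869867221868552993463472349924416326311447670469327204986710163618273766325070067483252766866701366436239200233031805644211515303058689065340358009461007554596608295633013819183090903967403311794372196085624839791105192238723708070520418119157266872495509986644522073983453536763555959349994241373491727103698679683468962755621786105381982701084212176150257032134639532512410514622867635442337480229166944748549276894617261294487854496804713572558697767183125594135575345371551314241851430314634546152745602439743051486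78478569987540547928222724075175925058131505913387416853215615241313966313037161496745897848692067614924097140914730169088489492564382068837108414393661834641483845609717056804870182360414705643741295246579948350410842681810588722815102118578608612762882801171032831578182657782233889072648767684202523157886254372314738033655234964714326877436708717869480499389702091851478272844633049846409190068905058537523855641054716021246573947007134158054539953650479808638164320512124671273195397282646968441974048626259668112971377569480339954704507033132015853032961229021336890398080998946274468777933289875580878654689717803866697790115946575444522413512317949884887026720049397871330305831929912368865986467484658919816919903711613774857307233167513724876057094464291374392197990186453675414516051054479626065771883397120)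

noncomputable def rc14 : Nat := (nat_lit 62598071216417943406426282341657064265737953175893559791093823746687170713110464559805835828223521545366831474616747718745799982232643319025111946047259401946212580532467136862227187984743318895246053996341944746392609892847328243515500499547692166667099992118378983589131577193197957573294638002328216893434089183249659416341415949387680579001856777450188734202018075784078694511967298763383250073911488607833229661501672273837047875496508742589586843482690114657634175620714731625020283902768277691328313389992178687907054214893897891286059519082798238567218294688132314513132801704906675869416404103546496850133604159187406494044284032881596073007043324009967925099513957684741097470216318182657047303201699323699214387119887195396709258323470486675809467139702285153294003757432582463736884643712239095634107443731330662279476613650452544450763126261316879678154922671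034721255947406234176281488442799370628386251003056802221161532625778560506359770535113532504079249482708261873523098066702091372435594377899035402237956230332040184261085655317938600863398984479663046631344703199481818361878988361198956588405782810637335851345803201900369186601766493890754246468101112766334830387066460672917242028454863917896853641807822884577583154433384298747930764451954393603295060086288824935303117544595249304433157155478654293659224606609076025694074757121022440457803347127056345486210938814326790778981357834661197626483433106693481595706218470303079135840699656534059221827355226180455173547196148590766518156030556693652358319465122922886068681057034356292630719684610737764068347419486238207620533542674490782220853954246545687268926909810835215076342806089015482228779703935590378231791137848005539160740824736159600827757267641219228536401629781016069784940835874820582243533921683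513234365866775138493726373333329278391459262162239617904736098344261976747851057198853418167968790621968203905579631901551751659021822498910613643993823964362815410729355424984733752653067613636479937222827007981349448436863616185808469383107511440468465553444215097911494528036057161819857238977185222912400097182871338944761879274667425979936873820736579297664284647400023788741422433907425606310567955823749156562927564584217067606912025721023960831691725938749823029120202161431892227726670706295108234229459318627571616059872488305919429422761162579323153965464779740123633431765944937360610596891243399175226926717876523309999681368120262519244866626763928048099155819327974008059557273855367861495216850669065974723531715773152160322159776109130624321808777419568733658041005481087572051256012172898067461744399498818178706971918556088815905669260330819333554042069585643129532432743402392845665655398692391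370730698525397430224744364083570871246305152701698993353976285210194863374142379698746342212064688042625332005984656214854551185355621845612193538107719502083177131644121877343549567723248967677985847855316034124747466641309464041897720169639171737282640089487701412126051886868526525188189716780913972230314534608180234339752535825428478951198151854693372275045298928468815778658642317664761067714622448664231932889991267668600524728037385789015849143902943030636833772938518857896088225931459162017578461361004898406807843192323542827797539276842606013786537222777274170106341626428783860644444547698231058686900000428141999687842908487093861534784443262253108267673810164188275643312996058402141928184533709829222294182881267229922445250073564311917146590336046082334487710400566723016066014025549330397934425382528623324495811358403140166412102930001638041394798979747542654336706691341767151921567401011858080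595878742730914762416385133433563408747626270225246576435748615530640137426675472580919948231986768741378768628596772072294657292155357735098426583577919792671675257398501570987644912775530891349632618909103283414029447246604350615112711714451281032410817949593366869248767681592019213035058548125792761598842361121459434068340032483586653655831820610852482956994115012426961400621101799350651784102749683359144255929643100258953958227236743242934359011128977279532933429055474052793583907815946371196852903899186187598332911412315282540069284479971143251139285516624664342810644508596810249002461333534067089242736050558839976874842986166306387341862519479448152164863926270286971216742962666476916320085326516896615544799178916112677189090858008632249931452005463381995635663839893571938040691556187204338135600240199823101568480519199401028181385225200019793618413837700246195163893663062768531822640164141802050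485580337868385493026364483140573892611382159001833651538173332664057614565287025017228731413162907810928693250274823840005979494059133582157091037515165819954810612560218556297761655187566757963361082228263177937623264084068937315072698676428088816097464480585909024548124766953991538692923753742302133308856821204580290853105041186691812757456715436333231469919863652016284128777008900933721580145975981989766728818165094136401790619596237356736791165445176141312018744853106332624595925572393898237153092995398598859470417525868317463583007009048708805550932797810007233107035830045595419484587131022721942065443561354716484637826015430616063499324762956954241397119254780923955480692871207819458972360154253458058059362108472913605041119521588732865760229602124770826003643630064524360839469962535837694679206745177785166227229287564733681341648819527192032336716658946910845774111867748344861165914700630304710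150909484946238600127511373879018093912343504944749705007532490473437216072859792492575425050484639988246891741472711592972669553624717845253144580273436750592702978799998752078290006576455719896217427062194548978876183102471370639196279400342433245521382283183214834994356083086073039199399094345037070731441907289031273323830751509847745516336394402740323027198950426935503679928297346799962312857857288951773287476343461951098247477208292955457490512705226361664095963196634324737995094269634574799036276428096676685454910069401115175945726695907215526273899083115013101647439532379972744187977659677082188406067838287590995846391665452731586833937981844819935577183381580224402471289131752481425662552350274169227156192298373464207453776579681582798045305545661560185087966988403240043367690172390807034939732483786173598825493099096691604703606483473585137317499858560673593742405061899064834614428031441581292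039235556148832411012384432681122800686953626269263022025515140743767388367460626102451504892341704226478860367015951063561307514808694214516221652637310920989247468387139134703284898286438861673452899961937596815998850670865812429306242080533004391720422217340761968574000919693785205581632230229657259175012823826950383436589716707993816940283997496256550106092564123494147102393777234729206393732429977384639915939392124931338699046181744351248066032116268256971416550394668992434017284501724328928664205316931976841826837257207665988455458906627649568340348150316556315753559243332617563722113557926629457248455777355821073121526216760778431728165481352262490603473414712993444004401931193190509895437363178993699966105163290400746849971849526415777134822182303952327485690228353936120312655588296970363435453047837108727718204921859252332871902471975671029368761710077953630080953102204169450183643093609276115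62755398991249130069109723795794516847085390332620653406610560403908187367013151946046699259377275809753028486953973497908018216979674759217664241455295340270275534570985478704088946814596846424241060671702184261067502100856521218101038243070894442355747243801978492140734366147510899606972086423238988640773539382684593589497787203001990436727864195090947915934273007530828368212407782944889087115584293557033227113550930112619034095704857242404410256731548633164426202156084021663100312224623311716992843012324216698304920532021699473917812529223672816654401806129501271720303348253358526554138916073357342720976062231211600441555758338088458023155397627400639036647622320342226022925525236353729912207641744869639067944235092782338838139244384148416237967678581900120690944601867389004373795326222324879294851973120)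

noncomputable def rc15 : Nat := (nat_lit 63566099099288092754383623340868057800109323463252995278050464551815131912547125921107860002146870153442367588567348615965283815086959225411989519778406686880074339685012518569489081726378616168396945902230202608145287332415825968075214029275509570390024426391812583488066874576359306679927624344955564950981876168533186202719817390152379580906066326434206047698639363169982014756270717297848926306180322830567030110748794526557929202661405364488810205739777154331557444016015698930322730042251319743751162991892986456223592949445433562464579217762257747958199188414208712057111756768777991156800161546385852792263442045227729290425291027281691994969632369810078752362484185777354518385085560673655284041019789513741484546264424505697918022383932697798264585333158047109539246843063185471839365494168171243912742993251591444690664061900553025062969667166310529517603290877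688037236676156731506437504368041853399998483494195195191419694013247478669974997155385384607852987406979228782402441844947479348026976870028879993484150009549564050876575748546456122851211096525546792464916565160845966512481073090971992717629625597809639770076523853455120280545336908278516334178036153831424309788563966312998111469496870132024104105081904861307828706307281481641860050911196687771549387238186386457094131341762008720596970856768295301082650206075315797486183165205301009066124621702489755078135895228989407506930661243818931136033243344374133298207013634952757540383060764102720149495056796476234410344044411798906527373098390054276494259854093486869854665929926023151810043316218471514112316773742137460797828848089464449465338529758700489286401612789405693406695698186246000906924683635407069360600841658482388578581898023504106810579294667408157267100243443586244858420414419350899418088483941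437061922696072944916405979726413489499528088498871935992323492745595136161132821910456530330138692332018202132991820614528093681804877487024920215722383581106931947193697149929487634311951490030088785240262956587996717472776352061655852790422004279405747969124163214570750238176086986252196159093109529496283418598997329638603113639902045786903264672840340392913436071155603287784081172395113289412571858356887312301402443121673405817951107402541681380811384041654589401094541248312483658004096832925503105449242592018773446952248185529392822668318889690686637758210083400010060509263617426124571062282876137276391199175515271996715804546825804706216987498096113992849904345282419469002269789308579613242809414635877587391729495082915364460788010537999020550525650197659176073048889786127413150583006898721236823180683586392647304068776225808289929603347277569512192827097002698938641871584895733588289482865684568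751685940832904468605613314031349287141491969587551413864803808061119148068959053552381439000565255216503348397892933513335148281380505548894364378620753844389879195536678750772394365123058131846576435345931541193703941126900107735872575002056995593479344795147493352707470706247133358545722454718134227542025054124147331035572111698962021718028009179510660163993612590938925526364256610555511405893113651586325687210017746051444944977830489769726562859055068359455482677889253276242614295198724662206017268782871912504659334153803917565238633739969675274923826746572344807570387707184205662733634266802659417365688900904158048686512636146858889680954043715508041672956319168788776456207929027081024660006603069586731992712435787960228247877656973209717260370206005851234230889196132529943144771567357147510831010036281013624820133435199414025559663293913593823575732801359154823577922077407743728523398330461159298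967336009958813254293265856567538320412547874150222215410854875083803502482459946757537379395247814779390009111442275628827821988905519086722559037151207225617946020673706098458401047990766206032990050255282299993190278747692959844858683715145543725886710941530384457025310792953098734177671774223347393605008210110050167002498988712972950207694186751873456451085796188330654406191208775230928314817132860291859715640252604593341210879185179797875884682313737998314185540484861051617688658120672262536486509100374563301094270393022277006606429406323600979446853237885803079928875730078113662953859066754619933184728047316443674895244235126964039291992011821431738676759084735174875751849667604920037773369472513592334493713602485832271717131397958869701968901921569545817598880921395094274648301286020614051852082058094099534971321832824495124793621854147171576105371958822679304568041321472952424450293141276703663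364601391304062393423886641300536689105022179196387167152568635949756529749056944663072911086372012151422311659658646846064633293243077996041999450995893343768004052668640615443773083420538805080325749757000104264137617224850278008067841668950324597508872760613870325625338971626697194217195019799341535674648764021826526439931934193365872709019667260772919092278029367596674730201375862532878218026892748876474665922623220993590670979778383940834051428816142747708471446766845065204954452703393662480847697071883444645972441291180949116621550132080263195555010932463698271840372537465485492897604459037444899280377811494465529261218423845301645432351466226845717805544349753333038862110801136615413582034342963063487267475576736804950215484794769356268555497784898248389173540277175595812429746531955575886856247404938847728956572473807256730243500372188064406534839448172338973918545031623052283839979759430808579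258648111568812038250558596397323999692555854054696593254393247804981618757969460045430379266127263433117004516193804072962062575861390155594119450547418356752302362163287919106782838866732375402393907383647558154417393522335653951602336081527557761358298356080158826733228081300039277471462117662950520241579517930811117586787362512075310511296669343790097322082026499655139699556291288213674018585383695819629710290170662342258664456913858717599689721029192315110274407636545914392442015150336207805106307578954986716933965800228932045815351922353160159186844185788368013315201275555709523396748765517892819071554300118033429920634495705016901607570157021017675915299367847468908217327210409713926754936109190058611928743100967531861369657948453415919043155630771373377056519840906026711645930505325205240480577944932813580298996679316796610365212107862691090720728836583880391328916669568058170290804949815052867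485219780171328577341941439341992526573234089521414253042662612856680351849534496504204673085197487276334445617070052358285635353592846654910589488606793380341732810301419460087794738875197426794362594170332217384410210585931414591985832757321749973306330992727709529486011356651546191651862159173743845067742242892663759876574760027906605360471903393389346285118408470939504010246689674186456566933763317849463077777254641775730341782149153498600815381491570294411411230031369988126931328328603110967659883900681544250123695117778827538072142450542306465848184054453662318743255364778914208431033735647483787081251419579338761404143959827386631219209418783817288399142928201748778030720050269159950863511827054102792928672612103149487278873046412356450124356082998190521164921107245903900121406866788446094865057855412353114203760634675310106127404830671107138180724418220910391665514909524321154519621996162227064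92149145695593091452631788619745916603052065871134357614671655419330944345088279491956297305417703319802274380384180085419605711592079662326460053450799597347640753190959393655079951166655246949048145327781250221403422182108221207821205691262843914945283044863891822909797050379800026873282124312653527265692755926320530385701163781060034823184023030134663950743498067481275742534422537653875795757369628575500623969366723649618111431179889328636227582262090269090753403785406395074623971477896538405695251764364985596724919260166174223303571644526711666176732179865140494738172363287793608546946487570830645651950732075575854770535492143133115864264647523915021241119602436787318921150006685629114050955133017018291431100749527808940927174841958444140257649047446265745969201524713226664172798075635635225000916549632)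

noncomputable def rc16 : Nat := (nat_lit 63880707000225190502558965744578969024948024083229187072445688150313728940735077709598176367416715288374107196244457652399751909732997473465262915715899052887147289995945736935045013086359795963011238713510143098886096027533824179723766825176162388078945759367843431794532804317188080561477590876911632058958975124213639626296943502161488476960447916252311202790910011040714623769129709413035493727933233864464378001293385702396949168238440806800119687330970559111041733227119333929538390178537042590508161065566283187037857533309258959163555084215843929074410457336479309570882218359350708926779012666695813241488275538246428904710733641017047501071336829615533458042963928288175568269813699351070041610383898128382263678355739495741060970565806999025999294101274816434143267114587073250848496352774713207316435500404189121638992588584769443591498497348184218548594008212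379475379140616933979725101550611040000310609684975802021421406266220122545278052532634799287976304616229335837135448265163279721196115607517893614702972886475720080249253215630064734736762747908624642222274208601668573975335443911690854422515985236517575399855763985329627280760692710823448377663897187176399409284116744378344028234617015429748848910832378516789369257668803362518692196041893271522146439783408833399597950109305573788460505403488197039895521759110773300452548902171845538910897229479795282020666490728542309063247548124110530498368628360886967271871663761130343942906827359076905671939123851737337416104301363713391816177915767384660361080599566916641501170972010651296917568362814606442461470313637416694306240127642417173198098938586563355456738506221935042124546756283798519216668104725330368202031741537058308552673068073403440806019463681234612210054231815293812649902084444572183983841790618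705506757983267104269032258911815541838917768534967348527479706284303341483899448010147682147421416297779725178421444371475823617153555872203734477769229545004076045829225184686149979130562512223743949577002018687230812800859571038878505304765831555676144389458460902147904096842920372560594202088395411617259850389889467107933789727738086394061726513004789564358005523527783767038883878476736771384126592195826142781733474253701112174720733118529044198591927654793751545296704778299082867116538062562431023832529054261183756834785274109252726477947401954083502737758251893245362753537749328317243035089977172771125185071932834345586290866116752571656998357116302133265481324617366124012788162858813500202887364175410180893518931199141004621069524885605684367795274256237674141036512350999230997139636769461348500685904695540198181730294765141151100702328568615106476753758112205852986628977866993451996516314163724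689939491910943730605600319453446669347998462408258406343031766143464382963023864861360115180428656009698580834670733363172674777580710010763456429074388971483382550236759421884697548484074796861134133071158601161328210036489321008896675347537679232441704237600183001201711959959146185840856409329428866851746962945758880016399288296174670572949908434486975131659227904900025610163300663907677912777982612645051472598822357607746181161053696944869158151176821227640665904618025772907350767960048385786878118324677467723071334806438785450105155100924411045707415064796732640007095767000540210043146032409884074284092779432632554167017593508319641030577234185327385260589031382837323631858016578877073232226337032390585803817001474289729360565744351088718556788155373197102280562679996035279184770701695163158129290365324413725846765875201009716935049810683459313410725665359520003461944836446880049439616154005248006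781203443837503355290081508672022819043080295115779517834592491030077251509222360814712911698245710162181711025941796590299534135681683150110155638183943736092440566099478027679577054449824116535805571053184341698006211479264569846878579874073730023335076058283641828418362548275303940848525416400076350823230869628132504072446121623059736488649679863647534462751915266045156338702305369647554587083990125414267637608248760674994263098108174687200975789690989781927017789037942251389229675376705599326088622989945502823276842255339148147753621823863546736576632529868888724212099258462378551681987593529910174310623953626445595918628255703630467084431198532248156986445015057297087333023819441587220211479655437720574043605305330072944351854243551853749481554368410772617674515444437033799825662845298151244723502559444903144913022374589293667750918429979183780929736846018399302060689138946825357222328097149261681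249387489740205079094964712740822587379246728474002523186090757082544781901499266332631599016057820094435271247501458241363866976320157070914939221661970261283280377033008394642641042251093961284741071262694975052180240427844171046360417466955309626920878702343486568157002087871970771770402909440913928047231060502956758517346821942460436456196906484936414860768834653239159393380361869274625697460293065453964634129627179856755268818554651810157267935836637422347947159460715401120776823734724678088971462280799472361136585525913036665056631757341853761475146176236868995058353665824012754099643513814581734938395406642714171525457191776768944390734186220774100217071093923385333195031704074617955046453141644599751780784835837178988617765070056896452746691785885956191283361789604721376948366384667678424235326822837440608067839875906137726125684875502344952969312296335932118495764305958329433101789973640780820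555126735421629239511792515189294038896521498077724573732057188919751222633962475436274076976844852128412930244170377542044793314550818730791951045181360452617879799150523579206911013179167057270130460773911451100777679086966928804730634447723157183365254409345642345088506962723822727213261872353805515434892631951609544037041914085490003567930462285262593471901223448795902194103730538944305415283481719557427470673940662765577405724241077343253065392024880032469049505057513475983273791232718239413280742656198695185854390057517749343136737230488354792908371344541188599864851518131850756063223958471389602729128672863197691827440096971974335410736845219102890509170846182626449377800240909344736183406751262416602869890059331270599491736861305001950082197972385773434077137809294965837475322216421567350556699305141871444065599703160033989541777431950782402192635265245699902894147361418067539239188556599607183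633613201491825020359715899520506506007363692754822741891248851939027409121783161134633288869861676265182177112699557881020046387028293688760707020920024267676170951941873384899240859868592041587715503760957410450616974372128538430715777690486747667173817301978590613010912891183426199838658118148575579349169294912801288090090941867395889388935848939549790141808686247360642417895188052245569612982601093150168901618197849743494585445870544706536438134118071834468722914956304534016029155545872607336684085456098239814559391979082847201787986397000195645199642045071151003705305731199120606516344770537948406670773426234961987553569916436309974177759488314782730826728062551815412896839986122189469038312240377970545014710433775165640017104647626440969653340376164596671846344569526317476297446884440537631208414104784087965196525367037894258762500813608868804930936277835281637758225718235660167060242096927124311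04771042936662854279167492728566107153788506133210883857580119964116310657597131571444543841187765129431841246975517271541096815648392233548958239493016294040051366241391146309048776169118111357299783805880717212771238813672168420735388595425893606051275441719694985778651314949939717691889358093935138864676752757756706199474653579366239625137574765062392344639145665282126289706977236982223563584330362895203093169479469650184528115062603360592338680716954687111457656904815882113262613743052685108407571556312022967985127953119021917061756920211832188391348415525647971704572275788709671807934408934287933196219088596063104259086422183563203030856467165220975201082690359168780994707459094358396679012108328858534489771591586815633943550091414120084695100108444472726583055521220772138652546998777687210952067383296)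

end Vale.Agent.Lib.P154.PChain.BJ.S6
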