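import Vale.Agent.Lib.P154.PChain.BJ.R6_2

set_option linter.all false

namespace Vale.Agent.Lib.P154.PChain.BJ.S7

open Vale.Agent.Lib.P154.Chain

noncomputable def pc0 : PT := (PT.nd (nat_lit 4654494) (PT.nd (nat_lit 4467138) (PT.nd (nat_lit 4326738) (PT.nd (nat_lit 4233060) (PT.nd (nat_lit 3436758) (PT.nd (nat_lit 3389958) PT.nil (PT.lf (nat_lit 76) (nat_lit 3) (nat_lit 1) (nat_lit 1) (nat_lit 189) (nat_lit 72) (nat_lit 189))) (PT.nd (nat_lit 78) (PT.lf (nat_lit 152) (nat_lit 6) (nat_lit 2) (nat_lit 3) (nat_lit 188) (nat_lit 73) (nat_lit 189)) (PT.lf (nat_lit 152) (nat_lit 6) (nat_lit 2) (nat_lit 1) (nat_lit 189) (nat_lit 73) (nat_lit 188)))) (PT.nd (nat_lit 46878) (PT.nd (nat_lit 46800) (PT.lf (nat_lit 2204) (nat_lit 3) (nat_lit 29) (nat_lit 1) (nat_lit 180) (nat_lit 90) (nat_lit 180)) (PT.lf (nat_lit 2356) (nat_lit 6) (nat_lit 31) (nat_lit 3) (nat_lit 179) (nat_lit 91) (nat_lit 180))) (PT.nd (nat_lit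 46722) (PT.lf (nat_lit 2356) (nat_lit 6) (nat_lit 31) (nat_lit 1) (nat_lit 180) (nat_lit 91) (nat_lit 179)) (PT.lf (nat_lit 2432) (nat_lit 6) (nat_lit 32) (nat_lit 3) (nat_lit 178) (nat_lit 92) (nat_lit 180))))) (PT.nd (nat_lit 46878) (PT.nd (nat_lit 78) (PT.lf (nat_lit 2508) (nat_lit 3) (nat_lit 33) (nat_lit 1) (nat_lit 179) (nat_lit 92) (nat_lit 179)) (PT.nd (nat_lit 46722) (PT.lf (nat_lit 2432) (nat_lit 6) (nat_lit 32) (nat_lit 1) (nat_lit 180) (nat_lit 92) (nat_lit 178)) (PT.lf (nat_lit 2660) (nat_lit 6) (nat_lit 35) (nat_lit 3) (nat_lit 178) (nat_lit 93) (nat_lit 179)))) (PT.nd (nat_lit 46800) (PT.nd (nat_lit 46722) (PT.lf (nat_lit 2660) (nat_lit 6) (nat_lit 35) (nat_lit 1) (nat_lit 179) (nat_lit 93) (nat_lit 178)) (PT.lf (nat_lit 2736) (nat_lit 6) (nat_lit 36) (nat_lit 3) (nat_lit 177) (nat_lit 94) (nat_lit 179))) (PT.nd (nat_lit 78) (PT.lf (nat_lit 2812) (nat_lit 3) (nat_lit 37) (nat_lit 1)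 (nat_lit 178) (nat_lit 94) (nat_lit 178)) (PT.lf (nat_lit 2736) (nat_lit 6) (nat_lit 36) (nat_lit 1) (nat_lit 179) (nat_lit 94) (nat_lit 177)))))) (PT.nd (nat_lit 93678) (PT.nd (nat_lit 234) (PT.nd (nat_lit 78) (PT.lf (nat_lit 2888) (nat_lit 6) (nat_lit 38) (nat_lit 3) (nat_lit 176) (nat_lit 95) (nat_lit 179)) (PT.nd (nat_lit 78) (PT.lf (nat_lit 2964) (nat_lit 6) (nat_lit 39) (nat_lit 3) (nat_lit 177) (nat_lit 95) (nat_lit 178)) (PT.lf (nat_lit 2964) (nat_lit 6) (nat_lit 39) (nat_lit 1) (nat_lit 178) (nat_lit 95) (nat_lit 177)))) (PT.nd (nat_lit 46722) (PT.nd (nat_lit 46644) (PT.lf (nat_lit 2888) (nat_lit 6) (nat_lit 38) (nat_lit 1) (nat_lit 179) (nat_lit 95) (nat_lit 176)) (PT.lf (nat_lit 3040) (nat_lit 6) (nat_lit 40) (nat_lit 3) (nat_lit 176) (nat_lit 96) (nat_lit 178))) (PT.nd (nat_lit 78) (PT.lf (nat_lit 3116) (nat_lit 3) (nat_lit 41) (nat_lit 1) (nat_lit 177) (nat_lit 96) (nat_lit 177)) (PT.lf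 (nat_lit 3040) (nat_lit 6) (nat_lit 40) (nat_lit 1) (nat_lit 178) (nat_lit 96) (nat_lit 176))))) (PT.nd (nat_lit 234) (PT.nd (nat_lit 78) (PT.lf (nat_lit 3192) (nat_lit 6) (nat_lit 42) (nat_lit 3) (nat_lit 175) (nat_lit 97) (nat_lit 178)) (PT.nd (nat_lit 78) (PT.lf (nat_lit 3268) (nat_lit 6) (nat_lit 43) (nat_lit 3) (nat_lit 176) (nat_lit 97) (nat_lit 177)) (PT.lf (nat_lit 3268) (nat_lit 6) (nat_lit 43) (nat_lit 1) (nat_lit 177) (nat_lit 97) (nat_lit 176)))) (PT.nd (nat_lit 46722) (PT.nd (nat_lit 46644) (PT.lf (nat_lit 3192) (nat_lit 6) (nat_lit 42) (nat_lit 1) (nat_lit 178) (nat_lit 97) (nat_lit 175)) (PT.lf (nat_lit 3420) (nat_lit 6) (nat_lit 45) (nat_lit 3) (nat_lit 175) (nat_lit 98) (nat_lit 177))) (PT.nd (nat_lit 78) (PT.lf (nat_lit 3496) (nat_lit 3) (nat_lit 46) (nat_lit 1) (nat_lit 176) (nat_lit 98) (nat_lit 176)) (PT.lf (nat_lit 3420) (nat_lit 6) (nat_lit 45) (nat_lit 1) (nat_lit 177) (nat_lit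 98) (nat_lit 175))))))) (PT.nd (nat_lit 140712) (PT.nd (nat_lit 93678) (PT.nd (nat_lit 234) (PT.nd (nat_lit 78) (PT.lf (nat_lit 3572) (nat_lit 6) (nat_lit 47) (nat_lit 3) (nat_lit 174) (nat_lit 99) (nat_lit 177)) (PT.nd (nat_lit 78) (PT.lf (nat_lit 3648) (nat_lit 6) (nat_lit 48) (nat_lit 3) (nat_lit 175) (nat_lit 99) (nat_lit 176)) (PT.lf (nat_lit 3648) (nat_lit 6) (nat_lit 48) (nat_lit 1) (nat_lit 176) (nat_lit 99) (nat_lit 175)))) (PT.nd (nat_lit 46722) (PT.nd (nat_lit 46644) (PT.lf (nat_lit 3572) (nat_lit 6) (nat_lit 47) (nat_lit 1) (nat_lit 177) (nat_lit 99) (nat_lit 174)) (PT.lf (nat_lit 3800) (nat_lit 6) (nat_lit 50) (nat_lit 3) (nat_lit 174) (nat_lit 100) (nat_lit 176))) (PT.nd (nat_lit 78) (PT.lf (nat_lit 3876) (nat_lit 3) (nat_lit 51) (nat_lit 1) (nat_lit 175) (nat_lit 100) (nat_lit 175)) (PT.lf (nat_lit 3800) (nat_lit 6) (nat_lit 50) (nat_lit 1) (nat_lit 176) (nat_lit 100) (nat_lit 174)))))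 (PT.nd (nat_lit 234) (PT.nd (nat_lit 78) (PT.lf (nat_lit 3952) (nat_lit 6) (nat_lit 52) (nat_lit 3) (nat_lit 173) (nat_lit 101) (nat_lit 176)) (PT.nd (nat_lit 78) (PT.lf (nat_lit 4028) (nat_lit 6) (nat_lit 53) (nat_lit 3) (nat_lit 174) (nat_lit 101) (nat_lit 175)) (PT.lf (nat_lit 4028) (nat_lit 6) (nat_lit 53) (nat_lit 1) (nat_lit 175) (nat_lit 101) (nat_lit 174)))) (PT.nd (nat_lit 46644) (PT.nd (nat_lit 46566) (PT.lf (nat_lit 3952) (nat_lit 6) (nat_lit 52) (nat_lit 1) (nat_lit 176) (nat_lit 101) (nat_lit 173)) (PT.lf (nat_lit 4104) (nat_lit 6) (nat_lit 54) (nat_lit 3) (nat_lit 172) (nat_lit 102) (nat_lit 176))) (PT.nd (nat_lit 78) (PT.lf (nat_lit 4180) (nat_lit 6) (nat_lit 55) (nat_lit 3) (nat_lit 173) (nat_lit 102) (nat_lit 175)) (PT.lf (nat_lit 4256) (nat_lit 3) (nat_lit 56) (nat_lit 1) (nat_lit 174) (nat_lit 102) (nat_lit 174)))))) (PT.nd (nat_lit 93522) (PT.nd (nat_lit 46722) (PT.nd (nat_lit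 78) (PT.lf (nat_lit 4180) (nat_lit 6) (nat_lit 55) (nat_lit 1) (nat_lit 175) (nat_lit 102) (nat_lit 173)) (PT.nd (nat_lit 46566) (PT.lf (nat_lit 4104) (nat_lit 6) (nat_lit 54) (nat_lit 1) (nat_lit 176) (nat_lit 102) (nat_lit 172)) (PT.lf (nat_lit 4332) (nat_lit 6) (nat_lit 57) (nat_lit 3) (nat_lit 172) (nat_lit 103) (nat_lit 175)))) (PT.nd (nat_lit 156) (PT.nd (nat_lit 78) (PT.lf (nat_lit 4408) (nat_lit 6) (nat_lit 58) (nat_lit 3) (nat_lit 173) (nat_lit 103) (nat_lit 174)) (PT.lf (nat_lit 4408) (nat_lit 6) (nat_lit 58) (nat_lit 1) (nat_lit 174) (nat_lit 103) (nat_lit 173))) (PT.nd (nat_lit 46566) (PT.lf (nat_lit 4332) (nat_lit 6) (nat_lit 57) (nat_lit 1) (nat_lit 175) (nat_lit 103) (nat_lit 172)) (PT.lf (nat_lit 4484) (nat_lit 6) (nat_lit 59) (nat_lit 3) (nat_lit 171) (nat_lit 104) (nat_lit 175))))) (PT.nd (nat_lit 234) (PT.nd (nat_lit 78) (PT.lf (nat_lit 4560) (nat_lit 6) (nat_lit 60) (nat_lit 3)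 (nat_lit 172) (nat_lit 104) (nat_lit 174)) (PT.nd (nat_lit 78) (PT.lf (nat_lit 4636) (nat_lit 3) (nat_lit 61) (nat_lit 1) (nat_lit 173) (nat_lit 104) (nat_lit 173)) (PT.lf (nat_lit 4560) (nat_lit 6) (nat_lit 60) (nat_lit 1) (nat_lit 174) (nat_lit 104) (nat_lit 172)))) (PT.nd (nat_lit 46566) (PT.nd (nat_lit 46488) (PT.lf (nat_lit 4484) (nat_lit 6) (nat_lit 59) (nat_lit 1) (nat_lit 175) (nat_lit 104) (nat_lit 171)) (PT.lf (nat_lit 4712) (nat_lit 6) (nat_lit 62) (nat_lit 3) (nat_lit 170) (nat_lit 105) (nat_lit 175))) (PT.nd (nat_lit 78) (PT.lf (nat_lit 4788) (nat_lit 6) (nat_lit 63) (nat_lit 3) (nat_lit 171) (nat_lit 105) (nat_lit 174)) (PT.lf (nat_lit 4864) (nat_lit 6) (nat_lit 64) (nat_lit 3) (nat_lit 172) (nat_lit 105) (nat_lit 173))))))))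
noncomputable def pc1 : PT := (PT.nd (nat_lit 234156) (PT.nd (nat_lit 140322) (PT.nd (nat_lit 46956) (PT.nd (nat_lit 46644) (PT.nd (nat_lit 78) (PT.lf (nat_lit 4864) (nat_lit 6) (nat_lit 64) (nat_lit 1) (nat_lit 173) (nat_lit 105) (nat_lit 172)) (PT.nd (nat_lit 78) (PT.lf (nat_lit 4788) (nat_lit 6) (nat_lit 63) (nat_lit 1) (nat_lit 174) (nat_lit 105) (nat_lit 171)) (PT.lf (nat_lit 4712) (nat_lit 6) (nat_lit 62) (nat_lit 1) (nat_lit 175) (nat_lit 105) (nat_lit 170)))) (PT.nd (nat_lit 156) (PT.nd (nat_lit 78) (PT.lf (nat_lit 4940) (nat_lit 6) (nat_lit 65) (nat_lit 3) (nat_lit 170) (nat_lit 106) (nat_lit 174)) (PT.lf (nat_lit 5016) (nat_lit 6) (nat_lit 66) (nat_lit 3) (nat_lit 171) (nat_lit 106) (nat_lit 173))) (PT.nd (nat_lit 78) (PT.lf (nat_lit 5092) (nat_lit 3) (nat_lit 67) (nat_lit 1) (nat_lit 172) (nat_lit 106) (nat_lit 172)) (PT.lf (nat_lit 5016) (nat_lit 6) (nat_lit 66) (nat_lit 1) (nat_lit 173)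 (nat_lit 106) (nat_lit 171))))) (PT.nd (nat_lit 46644) (PT.nd (nat_lit 46488) (PT.lf (nat_lit 4940) (nat_lit 6) (nat_lit 65) (nat_lit 1) (nat_lit 174) (nat_lit 106) (nat_lit 170)) (PT.nd (nat_lit 78) (PT.lf (nat_lit 5168) (nat_lit 6) (nat_lit 68) (nat_lit 3) (nat_lit 169) (nat_lit 107) (nat_lit 174)) (PT.lf (nat_lit 5244) (nat_lit 6) (nat_lit 69) (nat_lit 3) (nat_lit 170) (nat_lit 107) (nat_lit 173)))) (PT.nd (nat_lit 156) (PT.nd (nat_lit 78) (PT.lf (nat_lit 5320) (nat_lit 6) (nat_lit 70) (nat_lit 3) (nat_lit 171) (nat_lit 107) (nat_lit 172)) (PT.lf (nat_lit 5320) (nat_lit 6) (nat_lit 70) (nat_lit 1) (nat_lit 172) (nat_lit 107) (nat_lit 171))) (PT.nd (nat_lit 78) (PT.lf (nat_lit 5244) (nat_lit 6) (nat_lit 69) (nat_lit 1) (nat_lit 173) (nat_lit 107) (nat_lit 170)) (PT.lf (nat_lit 5168) (nat_lit 6) (nat_lit 68) (nat_lit 1) (nat_lit 174) (nat_lit 107) (nat_lit 169)))))) (PT.nd (nat_lit 46956) (PT.nd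 (nat_lit 234) (PT.nd (nat_lit 78) (PT.lf (nat_lit 5472) (nat_lit 6) (nat_lit 72) (nat_lit 3) (nat_lit 169) (nat_lit 108) (nat_lit 173)) (PT.nd (nat_lit 78) (PT.lf (nat_lit 5548) (nat_lit 6) (nat_lit 73) (nat_lit 3) (nat_lit 170) (nat_lit 108) (nat_lit 172)) (PT.lf (nat_lit 5624) (nat_lit 3) (nat_lit 74) (nat_lit 1) (nat_lit 171) (nat_lit 108) (nat_lit 171)))) (PT.nd (nat_lit 46566) (PT.nd (nat_lit 78) (PT.lf (nat_lit 5548) (nat_lit 6) (nat_lit 73) (nat_lit 1) (nat_lit 172) (nat_lit 108) (nat_lit 170)) (PT.lf (nat_lit 5472) (nat_lit 6) (nat_lit 72) (nat_lit 1) (nat_lit 173) (nat_lit 108) (nat_lit 169))) (PT.nd (nat_lit 78) (PT.lf (nat_lit 5700) (nat_lit 6) (nat_lit 75) (nat_lit 3) (nat_lit 168) (nat_lit 109) (nat_lit 173)) (PT.lf (nat_lit 5776) (nat_lit 6) (nat_lit 76) (nat_lit 3) (nat_lit 169) (nat_lit 109) (nat_lit 172))))) (PT.nd (nat_lit 234) (PT.nd (nat_lit 78) (PT.lf (nat_lit 5852) (nat_lit 6)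 (nat_lit 77) (nat_lit 3) (nat_lit 170) (nat_lit 109) (nat_lit 171)) (PT.nd (nat_lit 78) (PT.lf (nat_lit 5852) (nat_lit 6) (nat_lit 77) (nat_lit 1) (nat_lit 171) (nat_lit 109) (nat_lit 170)) (PT.lf (nat_lit 5776) (nat_lit 6) (nat_lit 76) (nat_lit 1) (nat_lit 172) (nat_lit 109) (nat_lit 169)))) (PT.nd (nat_lit 46488) (PT.nd (nat_lit 46410) (PT.lf (nat_lit 5700) (nat_lit 6) (nat_lit 75) (nat_lit 1) (nat_lit 173) (nat_lit 109) (nat_lit 168)) (PT.lf (nat_lit 5928) (nat_lit 6) (nat_lit 78) (nat_lit 3) (nat_lit 167) (nat_lit 110) (nat_lit 173))) (PT.nd (nat_lit 78) (PT.lf (nat_lit 6004) (nat_lit 6) (nat_lit 79) (nat_lit 3) (nat_lit 168) (nat_lit 110) (nat_lit 172)) (PT.lf (nat_lit 6080) (nat_lit 6) (nat_lit 80) (nat_lit 3) (nat_lit 169) (nat_lit 110) (nat_lit 171))))))) (PT.nd (nat_lit 93756) (PT.nd (nat_lit 46878) (PT.nd (nat_lit 234) (PT.nd (nat_lit 78) (PT.lf (nat_lit 6156) (nat_lit 3) (nat_lit 81) (nat_lit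 1) (nat_lit 170) (nat_lit 110) (nat_lit 170)) (PT.nd (nat_lit 78) (PT.lf (nat_lit 6080) (nat_lit 6) (nat_lit 80) (nat_lit 1) (nat_lit 171) (nat_lit 110) (nat_lit 169)) (PT.lf (nat_lit 6004) (nat_lit 6) (nat_lit 79) (nat_lit 1) (nat_lit 172) (nat_lit 110) (nat_lit 168)))) (PT.nd (nat_lit 46488) (PT.nd (nat_lit 46410) (PT.lf (nat_lit 5928) (nat_lit 6) (nat_lit 78) (nat_lit 1) (nat_lit 173) (nat_lit 110) (nat_lit 167)) (PT.lf (nat_lit 6232) (nat_lit 6) (nat_lit 82) (nat_lit 3) (nat_lit 167) (nat_lit 111) (nat_lit 172))) (PT.nd (nat_lit 78) (PT.lf (nat_lit 6308) (nat_lit 6) (nat_lit 83) (nat_lit 3) (nat_lit 168) (nat_lit 111) (nat_lit 171)) (PT.lf (nat_lit 6384) (nat_lit 6) (nat_lit 84) (nat_lit 3) (nat_lit 169) (nat_lit 111) (nat_lit 170))))) (PT.nd (nat_lit 46566) (PT.nd (nat_lit 78) (PT.lf (nat_lit 6384) (nat_lit 6) (nat_lit 84) (nat_lit 1) (nat_lit 170) (nat_lit 111) (nat_lit 169)) (PT.nd (nat_lit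 78) (PT.lf (nat_lit 6308) (nat_lit 6) (nat_lit 83) (nat_lit 1) (nat_lit 171) (nat_lit 111) (nat_lit 168)) (PT.lf (nat_lit 6232) (nat_lit 6) (nat_lit 82) (nat_lit 1) (nat_lit 172) (nat_lit 111) (nat_lit 167)))) (PT.nd (nat_lit 156) (PT.nd (nat_lit 78) (PT.lf (nat_lit 6460) (nat_lit 6) (nat_lit 85) (nat_lit 3) (nat_lit 166) (nat_lit 112) (nat_lit 172)) (PT.lf (nat_lit 6536) (nat_lit 6) (nat_lit 86) (nat_lit 3) (nat_lit 167) (nat_lit 112) (nat_lit 171))) (PT.nd (nat_lit 78) (PT.lf (nat_lit 6612) (nat_lit 6) (nat_lit 87) (nat_lit 3) (nat_lit 168) (nat_lit 112) (nat_lit 170)) (PT.lf (nat_lit 6688) (nat_lit 3) (nat_lit 88) (nat_lit 1) (nat_lit 169) (nat_lit 112) (nat_lit 169)))))) (PT.nd (nat_lit 46800) (PT.nd (nat_lit 46488) (PT.nd (nat_lit 78) (PT.lf (nat_lit 6612) (nat_lit 6) (nat_lit 87) (nat_lit 1) (nat_lit 170) (nat_lit 112) (nat_lit 168)) (PT.nd (nat_lit 78) (PT.lf (nat_lit 6536) (nat_lit 6) (nat_lit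 86) (nat_lit 1) (nat_lit 171) (nat_lit 112) (nat_lit 167)) (PT.lf (nat_lit 6460) (nat_lit 6) (nat_lit 85) (nat_lit 1) (nat_lit 172) (nat_lit 112) (nat_lit 166)))) (PT.nd (nat_lit 156) (PT.nd (nat_lit 78) (PT.lf (nat_lit 6764) (nat_lit 6) (nat_lit 89) (nat_lit 3) (nat_lit 165) (nat_lit 113) (nat_lit 172)) (PT.lf (nat_lit 6840) (nat_lit 6) (nat_lit 90) (nat_lit 3) (nat_lit 166) (nat_lit 113) (nat_lit 171))) (PT.nd (nat_lit 78) (PT.lf (nat_lit 6916) (nat_lit 6) (nat_lit 91) (nat_lit 3) (nat_lit 167) (nat_lit 113) (nat_lit 170)) (PT.lf (nat_lit 6992) (nat_lit 6) (nat_lit 92) (nat_lit 3) (nat_lit 168) (nat_lit 113) (nat_lit 169))))) (PT.nd (nat_lit 234) (PT.nd (nat_lit 78) (PT.lf (nat_lit 6992) (nat_lit 6) (nat_lit 92) (nat_lit 1) (nat_lit 169) (nat_lit 113) (nat_lit 168)) (PT.nd (nat_lit 78) (PT.lf (nat_lit 6916) (nat_lit 6) (nat_lit 91) (nat_lit 1) (nat_lit 170) (nat_lit 113) (nat_lit 167)) (PT.lf (nat_lit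 6840) (nat_lit 6) (nat_lit 90) (nat_lit 1) (nat_lit 171) (nat_lit 113) (nat_lit 166)))) (PT.nd (nat_lit 46410) (PT.nd (nat_lit 46332) (PT.lf (nat_lit 6764) (nat_lit 6) (nat_lit 89) (nat_lit 1) (nat_lit 172) (nat_lit 113) (nat_lit 165)) (PT.lf (nat_lit 7068) (nat_lit 6) (nat_lit 93) (nat_lit 3) (nat_lit 165) (nat_lit 114) (nat_lit 171))) (PT.nd (nat_lit 78) (PT.lf (nat_lit 7144) (nat_lit 6) (nat_lit 94) (nat_lit 3) (nat_lit 166) (nat_lit 114) (nat_lit 170)) (PT.lf (nat_lit 7220) (nat_lit 6) (nat_lit 95) (nat_lit 3) (nat_lit 167) (nat_lit 114) (nat_lit 169))))))))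
noncomputable def pc2 : PT := (PT.nd (nat_lit 140790) (PT.nd (nat_lit 93522) (PT.nd (nat_lit 46800) (PT.nd (nat_lit 234) (PT.nd (nat_lit 78) (PT.lf (nat_lit 7296) (nat_lit 3) (nat_lit 96) (nat_lit 1) (nat_lit 168) (nat_lit 114) (nat_lit 168)) (PT.nd (nat_lit 78) (PT.lf (nat_lit 7220) (nat_lit 6) (nat_lit 95) (nat_lit 1) (nat_lit 169) (nat_lit 114) (nat_lit 167)) (PT.lf (nat_lit 7144) (nat_lit 6) (nat_lit 94) (nat_lit 1) (nat_lit 170) (nat_lit 114) (nat_lit 166)))) (PT.nd (nat_lit 46410) (PT.nd (nat_lit 46332) (PT.lf (nat_lit 7068) (nat_lit 6) (nat_lit 93) (nat_lit 1) (nat_lit 171) (nat_lit 114) (nat_lit 165)) (PT.lf (nat_lit 7372) (nat_lit 6) (nat_lit 97) (nat_lit 3) (nat_lit 164) (nat_lit 115) (nat_lit 171))) (PT.nd (nat_lit 78) (PT.lf (nat_lit 7448) (nat_lit 6) (nat_lit 98) (nat_lit 3) (nat_lit 165) (nat_lit 115) (nat_lit 170)) (PT.lf (nat_lit 7524) (nat_lit 6) (nat_lit 99) (nat_lit 3) (nat_lit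 166) (nat_lit 115) (nat_lit 169))))) (PT.nd (nat_lit 234) (PT.nd (nat_lit 78) (PT.lf (nat_lit 7600) (nat_lit 6) (nat_lit 100) (nat_lit 3) (nat_lit 167) (nat_lit 115) (nat_lit 168)) (PT.nd (nat_lit 78) (PT.lf (nat_lit 7600) (nat_lit 6) (nat_lit 100) (nat_lit 1) (nat_lit 168) (nat_lit 115) (nat_lit 167)) (PT.lf (nat_lit 7524) (nat_lit 6) (nat_lit 99) (nat_lit 1) (nat_lit 169) (nat_lit 115) (nat_lit 166)))) (PT.nd (nat_lit 46332) (PT.nd (nat_lit 78) (PT.lf (nat_lit 7448) (nat_lit 6) (nat_lit 98) (nat_lit 1) (nat_lit 170) (nat_lit 115) (nat_lit 165)) (PT.lf (nat_lit 7372) (nat_lit 6) (nat_lit 97) (nat_lit 1) (nat_lit 171) (nat_lit 115) (nat_lit 164))) (PT.nd (nat_lit 78) (PT.lf (nat_lit 7676) (nat_lit 6) (nat_lit 101) (nat_lit 3) (nat_lit 163) (nat_lit 116) (nat_lit 171)) (PT.lf (nat_lit 7752) (nat_lit 6) (nat_lit 102) (nat_lit 3) (nat_lit 164) (nat_lit 116) (nat_lit 170)))))) (PT.nd (nat_lit 46722) (PT.nd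 (nat_lit 234) (PT.nd (nat_lit 78) (PT.lf (nat_lit 7828) (nat_lit 6) (nat_lit 103) (nat_lit 3) (nat_lit 165) (nat_lit 116) (nat_lit 169)) (PT.nd (nat_lit 78) (PT.lf (nat_lit 7904) (nat_lit 6) (nat_lit 104) (nat_lit 3) (nat_lit 166) (nat_lit 116) (nat_lit 168)) (PT.lf (nat_lit 7980) (nat_lit 3) (nat_lit 105) (nat_lit 1) (nat_lit 167) (nat_lit 116) (nat_lit 167)))) (PT.nd (nat_lit 156) (PT.nd (nat_lit 78) (PT.lf (nat_lit 7904) (nat_lit 6) (nat_lit 104) (nat_lit 1) (nat_lit 168) (nat_lit 116) (nat_lit 166)) (PT.lf (nat_lit 7828) (nat_lit 6) (nat_lit 103) (nat_lit 1) (nat_lit 169) (nat_lit 116) (nat_lit 165))) (PT.nd (nat_lit 78) (PT.lf (nat_lit 7752) (nat_lit 6) (nat_lit 102) (nat_lit 1) (nat_lit 170) (nat_lit 116) (nat_lit 164)) (PT.lf (nat_lit 7676) (nat_lit 6) (nat_lit 101) (nat_lit 1) (nat_lit 171) (nat_lit 116) (nat_lit 163))))) (PT.nd (nat_lit 234) (PT.nd (nat_lit 78) (PT.lf (nat_lit 8056) (nat_lit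 6) (nat_lit 106) (nat_lit 3) (nat_lit 163) (nat_lit 117) (nat_lit 170)) (PT.nd (nat_lit 78) (PT.lf (nat_lit 8132) (nat_lit 6) (nat_lit 107) (nat_lit 3) (nat_lit 164) (nat_lit 117) (nat_lit 169)) (PT.lf (nat_lit 8208) (nat_lit 6) (nat_lit 108) (nat_lit 3) (nat_lit 165) (nat_lit 117) (nat_lit 168)))) (PT.nd (nat_lit 156) (PT.nd (nat_lit 78) (PT.lf (nat_lit 8284) (nat_lit 6) (nat_lit 109) (nat_lit 3) (nat_lit 166) (nat_lit 117) (nat_lit 167)) (PT.lf (nat_lit 8284) (nat_lit 6) (nat_lit 109) (nat_lit 1) (nat_lit 167) (nat_lit 117) (nat_lit 166))) (PT.nd (nat_lit 78) (PT.lf (nat_lit 8208) (nat_lit 6) (nat_lit 108) (nat_lit 1) (nat_lit 168) (nat_lit 117) (nat_lit 165)) (PT.lf (nat_lit 8132) (nat_lit 6) (nat_lit 107) (nat_lit 1) (nat_lit 169) (nat_lit 117) (nat_lit 164))))))) (PT.nd (nat_lit 93366) (PT.nd (nat_lit 46722) (PT.nd (nat_lit 46410) (PT.nd (nat_lit 46254) (PT.lf (nat_lit 8056) (nat_lit 6) (nat_lit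 106) (nat_lit 1) (nat_lit 170) (nat_lit 117) (nat_lit 163)) (PT.nd (nat_lit 78) (PT.lf (nat_lit 8360) (nat_lit 6) (nat_lit 110) (nat_lit 3) (nat_lit 162) (nat_lit 118) (nat_lit 170)) (PT.lf (nat_lit 8436) (nat_lit 6) (nat_lit 111) (nat_lit 3) (nat_lit 163) (nat_lit 118) (nat_lit 169)))) (PT.nd (nat_lit 156) (PT.nd (nat_lit 78) (PT.lf (nat_lit 8512) (nat_lit 6) (nat_lit 112) (nat_lit 3) (nat_lit 164) (nat_lit 118) (nat_lit 168)) (PT.lf (nat_lit 8588) (nat_lit 6) (nat_lit 113) (nat_lit 3) (nat_lit 165) (nat_lit 118) (nat_lit 167))) (PT.nd (nat_lit 78) (PT.lf (nat_lit 8664) (nat_lit 3) (nat_lit 114) (nat_lit 1) (nat_lit 166) (nat_lit 118) (nat_lit 166)) (PT.lf (nat_lit 8588) (nat_lit 6) (nat_lit 113) (nat_lit 1) (nat_lit 167) (nat_lit 118) (nat_lit 165))))) (PT.nd (nat_lit 46332) (PT.nd (nat_lit 78) (PT.lf (nat_lit 8512) (nat_lit 6) (nat_lit 112) (nat_lit 1) (nat_lit 168) (nat_lit 118) (nat_lit 164))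 (PT.nd (nat_lit 78) (PT.lf (nat_lit 8436) (nat_lit 6) (nat_lit 111) (nat_lit 1) (nat_lit 169) (nat_lit 118) (nat_lit 163)) (PT.lf (nat_lit 8360) (nat_lit 6) (nat_lit 110) (nat_lit 1) (nat_lit 170) (nat_lit 118) (nat_lit 162)))) (PT.nd (nat_lit 156) (PT.nd (nat_lit 78) (PT.lf (nat_lit 8740) (nat_lit 6) (nat_lit 115) (nat_lit 3) (nat_lit 161) (nat_lit 119) (nat_lit 170)) (PT.lf (nat_lit 8816) (nat_lit 6) (nat_lit 116) (nat_lit 3) (nat_lit 162) (nat_lit 119) (nat_lit 169))) (PT.nd (nat_lit 78) (PT.lf (nat_lit 8892) (nat_lit 6) (nat_lit 117) (nat_lit 3) (nat_lit 163) (nat_lit 119) (nat_lit 168)) (PT.lf (nat_lit 8968) (nat_lit 6) (nat_lit 118) (nat_lit 3) (nat_lit 164) (nat_lit 119) (nat_lit 167)))))) (PT.nd (nat_lit 46644) (PT.nd (nat_lit 234) (PT.nd (nat_lit 78) (PT.lf (nat_lit 9044) (nat_lit 6) (nat_lit 119) (nat_lit 3) (nat_lit 165) (nat_lit 119) (nat_lit 166)) (PT.nd (nat_lit 78) (PT.lf (nat_lit 9044)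 (nat_lit 6) (nat_lit 119) (nat_lit 1) (nat_lit 166) (nat_lit 119) (nat_lit 165)) (PT.lf (nat_lit 8968) (nat_lit 6) (nat_lit 118) (nat_lit 1) (nat_lit 167) (nat_lit 119) (nat_lit 164)))) (PT.nd (nat_lit 156) (PT.nd (nat_lit 78) (PT.lf (nat_lit 8892) (nat_lit 6) (nat_lit 117) (nat_lit 1) (nat_lit 168) (nat_lit 119) (nat_lit 163)) (PT.lf (nat_lit 8816) (nat_lit 6) (nat_lit 116) (nat_lit 1) (nat_lit 169) (nat_lit 119) (nat_lit 162))) (PT.nd (nat_lit 46176) (PT.lf (nat_lit 8740) (nat_lit 6) (nat_lit 115) (nat_lit 1) (nat_lit 170) (nat_lit 119) (nat_lit 161)) (PT.lf (nat_lit 9120) (nat_lit 6) (nat_lit 120) (nat_lit 3) (nat_lit 161) (nat_lit 120) (nat_lit 169))))) (PT.nd (nat_lit 234) (PT.nd (nat_lit 78) (PT.lf (nat_lit 9196) (nat_lit 6) (nat_lit 121) (nat_lit 3) (nat_lit 162) (nat_lit 120) (nat_lit 168)) (PT.nd (nat_lit 78) (PT.lf (nat_lit 9272) (nat_lit 6) (nat_lit 122) (nat_lit 3) (nat_lit 163) (nat_lit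 120) (nat_lit 167)) (PT.lf (nat_lit 9348) (nat_lit 6) (nat_lit 123) (nat_lit 3) (nat_lit 164) (nat_lit 120) (nat_lit 166)))) (PT.nd (nat_lit 156) (PT.nd (nat_lit 78) (PT.lf (nat_lit 9424) (nat_lit 3) (nat_lit 124) (nat_lit 1) (nat_lit 165) (nat_lit 120) (nat_lit 165)) (PT.lf (nat_lit 9348) (nat_lit 6) (nat_lit 123) (nat_lit 1) (nat_lit 166) (nat_lit 120) (nat_lit 164))) (PT.nd (nat_lit 78) (PT.lf (nat_lit 9272) (nat_lit 6) (nat_lit 122) (nat_lit 1) (nat_lit 167) (nat_lit 120) (nat_lit 163)) (PT.lf (nat_lit 9196) (nat_lit 6) (nat_lit 121) (nat_lit 1) (nat_lit 168) (nat_lit 120) (nat_lit 162))))))))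
noncomputable def pc3 : PT := (PT.nd (nat_lit 140322) (PT.nd (nat_lit 93210) (PT.nd (nat_lit 46644) (PT.nd (nat_lit 46332) (PT.nd (nat_lit 46176) (PT.lf (nat_lit 9120) (nat_lit 6) (nat_lit 120) (nat_lit 1) (nat_lit 169) (nat_lit 120) (nat_lit 161)) (PT.nd (nat_lit 78) (PT.lf (nat_lit 9500) (nat_lit 6) (nat_lit 125) (nat_lit 3) (nat_lit 160) (nat_lit 121) (nat_lit 169)) (PT.lf (nat_lit 9576) (nat_lit 6) (nat_lit 126) (nat_lit 3) (nat_lit 161) (nat_lit 121) (nat_lit 168)))) (PT.nd (nat_lit 156) (PT.nd (nat_lit 78) (PT.lf (nat_lit 9652) (nat_lit 6) (nat_lit 127) (nat_lit 3) (nat_lit 162) (nat_lit 121) (nat_lit 167)) (PT.lf (nat_lit 9728) (nat_lit 6) (nat_lit 128) (nat_lit 3) (nat_lit 163) (nat_lit 121) (nat_lit 166))) (PT.nd (nat_lit 78) (PT.lf (nat_lit 9804) (nat_lit 6) (nat_lit 129) (nat_lit 3) (nat_lit 164) (nat_lit 121) (nat_lit 165)) (PT.lf (nat_lit 9804) (nat_lit 6) (nat_lit 129) (nat_lit 1) (nat_lit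 165) (nat_lit 121) (nat_lit 164))))) (PT.nd (nat_lit 234) (PT.nd (nat_lit 78) (PT.lf (nat_lit 9728) (nat_lit 6) (nat_lit 128) (nat_lit 1) (nat_lit 166) (nat_lit 121) (nat_lit 163)) (PT.nd (nat_lit 78) (PT.lf (nat_lit 9652) (nat_lit 6) (nat_lit 127) (nat_lit 1) (nat_lit 167) (nat_lit 121) (nat_lit 162)) (PT.lf (nat_lit 9576) (nat_lit 6) (nat_lit 126) (nat_lit 1) (nat_lit 168) (nat_lit 121) (nat_lit 161)))) (PT.nd (nat_lit 46176) (PT.nd (nat_lit 46098) (PT.lf (nat_lit 9500) (nat_lit 6) (nat_lit 125) (nat_lit 1) (nat_lit 169) (nat_lit 121) (nat_lit 160)) (PT.lf (nat_lit 9880) (nat_lit 6) (nat_lit 130) (nat_lit 3) (nat_lit 159) (nat_lit 122) (nat_lit 169))) (PT.nd (nat_lit 78) (PT.lf (nat_lit 9956) (nat_lit 6) (nat_lit 131) (nat_lit 3) (nat_lit 160) (nat_lit 122) (nat_lit 168)) (PT.lf (nat_lit 10032) (nat_lit 6) (nat_lit 132) (nat_lit 3) (nat_lit 161) (nat_lit 122) (nat_lit 167)))))) (PT.nd (nat_lit 546)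 (PT.nd (nat_lit 234) (PT.nd (nat_lit 78) (PT.lf (nat_lit 10108) (nat_lit 6) (nat_lit 133) (nat_lit 3) (nat_lit 162) (nat_lit 122) (nat_lit 166)) (PT.nd (nat_lit 78) (PT.lf (nat_lit 10184) (nat_lit 6) (nat_lit 134) (nat_lit 3) (nat_lit 163) (nat_lit 122) (nat_lit 165)) (PT.lf (nat_lit 10260) (nat_lit 3) (nat_lit 135) (nat_lit 1) (nat_lit 164) (nat_lit 122) (nat_lit 164)))) (PT.nd (nat_lit 156) (PT.nd (nat_lit 78) (PT.lf (nat_lit 10184) (nat_lit 6) (nat_lit 134) (nat_lit 1) (nat_lit 165) (nat_lit 122) (nat_lit 163)) (PT.lf (nat_lit 10108) (nat_lit 6) (nat_lit 133) (nat_lit 1) (nat_lit 166) (nat_lit 122) (nat_lit 162))) (PT.nd (nat_lit 78) (PT.lf (nat_lit 10032) (nat_lit 6) (nat_lit 132) (nat_lit 1) (nat_lit 167) (nat_lit 122) (nat_lit 161)) (PT.lf (nat_lit 9956) (nat_lit 6) (nat_lit 131) (nat_lit 1) (nat_lit 168) (nat_lit 122) (nat_lit 160))))) (PT.nd (nat_lit 46254) (PT.nd (nat_lit 46098) (PT.lf (nat_lit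 9880) (nat_lit 6) (nat_lit 130) (nat_lit 1) (nat_lit 169) (nat_lit 122) (nat_lit 159)) (PT.nd (nat_lit 78) (PT.lf (nat_lit 10336) (nat_lit 6) (nat_lit 136) (nat_lit 3) (nat_lit 159) (nat_lit 123) (nat_lit 168)) (PT.lf (nat_lit 10412) (nat_lit 6) (nat_lit 137) (nat_lit 3) (nat_lit 160) (nat_lit 123) (nat_lit 167)))) (PT.nd (nat_lit 156) (PT.nd (nat_lit 78) (PT.lf (nat_lit 10488) (nat_lit 6) (nat_lit 138) (nat_lit 3) (nat_lit 161) (nat_lit 123) (nat_lit 166)) (PT.lf (nat_lit 10564) (nat_lit 6) (nat_lit 139) (nat_lit 3) (nat_lit 162) (nat_lit 123) (nat_lit 165))) (PT.nd (nat_lit 78) (PT.lf (nat_lit 10640) (nat_lit 6) (nat_lit 140) (nat_lit 3) (nat_lit 163) (nat_lit 123) (nat_lit 164)) (PT.lf (nat_lit 10640) (nat_lit 6) (nat_lit 140) (nat_lit 1) (nat_lit 164) (nat_lit 123) (nat_lit 163))))))) (PT.nd (nat_lit 47112) (PT.nd (nat_lit 46566) (PT.nd (nat_lit 234) (PT.nd (nat_lit 78) (PT.lf (nat_lit 10564)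 (nat_lit 6) (nat_lit 139) (nat_lit 1) (nat_lit 165) (nat_lit 123) (nat_lit 162)) (PT.nd (nat_lit 78) (PT.lf (nat_lit 10488) (nat_lit 6) (nat_lit 138) (nat_lit 1) (nat_lit 166) (nat_lit 123) (nat_lit 161)) (PT.lf (nat_lit 10412) (nat_lit 6) (nat_lit 137) (nat_lit 1) (nat_lit 167) (nat_lit 123) (nat_lit 160)))) (PT.nd (nat_lit 46176) (PT.nd (nat_lit 46098) (PT.lf (nat_lit 10336) (nat_lit 6) (nat_lit 136) (nat_lit 1) (nat_lit 168) (nat_lit 123) (nat_lit 159)) (PT.lf (nat_lit 10716) (nat_lit 6) (nat_lit 141) (nat_lit 3) (nat_lit 158) (nat_lit 124) (nat_lit 168))) (PT.nd (nat_lit 78) (PT.lf (nat_lit 10792) (nat_lit 6) (nat_lit 142) (nat_lit 3) (nat_lit 159) (nat_lit 124) (nat_lit 167)) (PT.lf (nat_lit 10868) (nat_lit 6) (nat_lit 143) (nat_lit 3) (nat_lit 160) (nat_lit 124) (nat_lit 166))))) (PT.nd (nat_lit 234) (PT.nd (nat_lit 78) (PT.lf (nat_lit 10944) (nat_lit 6) (nat_lit 144) (nat_lit 3) (nat_lit 161)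 (nat_lit 124) (nat_lit 165)) (PT.nd (nat_lit 78) (PT.lf (nat_lit 11020) (nat_lit 6) (nat_lit 145) (nat_lit 3) (nat_lit 162) (nat_lit 124) (nat_lit 164)) (PT.lf (nat_lit 11096) (nat_lit 3) (nat_lit 146) (nat_lit 1) (nat_lit 163) (nat_lit 124) (nat_lit 163)))) (PT.nd (nat_lit 156) (PT.nd (nat_lit 78) (PT.lf (nat_lit 11020) (nat_lit 6) (nat_lit 145) (nat_lit 1) (nat_lit 164) (nat_lit 124) (nat_lit 162)) (PT.lf (nat_lit 10944) (nat_lit 6) (nat_lit 144) (nat_lit 1) (nat_lit 165) (nat_lit 124) (nat_lit 161))) (PT.nd (nat_lit 78) (PT.lf (nat_lit 10868) (nat_lit 6) (nat_lit 143) (nat_lit 1) (nat_lit 166) (nat_lit 124) (nat_lit 160)) (PT.lf (nat_lit 10792) (nat_lit 6) (nat_lit 142) (nat_lit 1) (nat_lit 167) (nat_lit 124) (nat_lit 159)))))) (PT.nd (nat_lit 46488) (PT.nd (nat_lit 46176) (PT.nd (nat_lit 46020) (PT.lf (nat_lit 10716) (nat_lit 6) (nat_lit 141) (nat_lit 1) (nat_lit 168) (nat_lit 124) (nat_lit 158))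 (PT.nd (nat_lit 78) (PT.lf (nat_lit 11172) (nat_lit 6) (nat_lit 147) (nat_lit 3) (nat_lit 157) (nat_lit 125) (nat_lit 168)) (PT.lf (nat_lit 11248) (nat_lit 6) (nat_lit 148) (nat_lit 3) (nat_lit 158) (nat_lit 125) (nat_lit 167)))) (PT.nd (nat_lit 156) (PT.nd (nat_lit 78) (PT.lf (nat_lit 11324) (nat_lit 6) (nat_lit 149) (nat_lit 3) (nat_lit 159) (nat_lit 125) (nat_lit 166)) (PT.lf (nat_lit 11400) (nat_lit 6) (nat_lit 150) (nat_lit 3) (nat_lit 160) (nat_lit 125) (nat_lit 165))) (PT.nd (nat_lit 78) (PT.lf (nat_lit 11476) (nat_lit 6) (nat_lit 151) (nat_lit 3) (nat_lit 161) (nat_lit 125) (nat_lit 164)) (PT.lf (nat_lit 11552) (nat_lit 6) (nat_lit 152) (nat_lit 3) (nat_lit 162) (nat_lit 125) (nat_lit 163))))) (PT.nd (nat_lit 312) (PT.nd (nat_lit 156) (PT.nd (nat_lit 78) (PT.lf (nat_lit 11552) (nat_lit 6) (nat_lit 152) (nat_lit 1) (nat_lit 163) (nat_lit 125) (nat_lit 162)) (PT.lf (nat_lit 11476) (nat_lit 6)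 (nat_lit 151) (nat_lit 1) (nat_lit 164) (nat_lit 125) (nat_lit 161))) (PT.nd (nat_lit 78) (PT.lf (nat_lit 11400) (nat_lit 6) (nat_lit 150) (nat_lit 1) (nat_lit 165) (nat_lit 125) (nat_lit 160)) (PT.lf (nat_lit 11324) (nat_lit 6) (nat_lit 149) (nat_lit 1) (nat_lit 166) (nat_lit 125) (nat_lit 159)))) (PT.nd (nat_lit 46020) (PT.nd (nat_lit 78) (PT.lf (nat_lit 11248) (nat_lit 6) (nat_lit 148) (nat_lit 1) (nat_lit 167) (nat_lit 125) (nat_lit 158)) (PT.lf (nat_lit 11172) (nat_lit 6) (nat_lit 147) (nat_lit 1) (nat_lit 168) (nat_lit 125) (nat_lit 157))) (PT.nd (nat_lit 78) (PT.lf (nat_lit 11628) (nat_lit 6) (nat_lit 153) (nat_lit 3) (nat_lit 156) (nat_lit 126) (nat_lit 168)) (PT.lf (nat_lit 11704) (nat_lit 6) (nat_lit 154) (nat_lit 3) (nat_lit 157) (nat_lit 126) (nat_lit 167))))))))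
noncomputable def pc4 : PT := (PT.nd (nat_lit 93912) (PT.nd (nat_lit 46956) (PT.nd (nat_lit 546) (PT.nd (nat_lit 234) (PT.nd (nat_lit 78) (PT.lf (nat_lit 11780) (nat_lit 6) (nat_lit 155) (nat_lit 3) (nat_lit 158) (nat_lit 126) (nat_lit 166)) (PT.nd (nat_lit 78) (PT.lf (nat_lit 11856) (nat_lit 6) (nat_lit 156) (nat_lit 3) (nat_lit 159) (nat_lit 126) (nat_lit 165)) (PT.lf (nat_lit 11932) (nat_lit 6) (nat_lit 157) (nat_lit 3) (nat_lit 160) (nat_lit 126) (nat_lit 164)))) (PT.nd (nat_lit 156) (PT.nd (nat_lit 78) (PT.lf (nat_lit 12008) (nat_lit 6) (nat_lit 158) (nat_lit 3) (nat_lit 161) (nat_lit 126) (nat_lit 163)) (PT.lf (nat_lit 12084) (nat_lit 3) (nat_lit 159) (nat_lit 1) (nat_lit 162) (nat_lit 126) (nat_lit 162))) (PT.nd (nat_lit 78) (PT.lf (nat_lit 12008) (nat_lit 6) (nat_lit 158) (nat_lit 1) (nat_lit 163) (nat_lit 126) (nat_lit 161)) (PT.lf (nat_lit 11932) (nat_lit 6) (nat_lit 157) (nat_lit 1) (nat_lit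 164) (nat_lit 126) (nat_lit 160))))) (PT.nd (nat_lit 234) (PT.nd (nat_lit 78) (PT.lf (nat_lit 11856) (nat_lit 6) (nat_lit 156) (nat_lit 1) (nat_lit 165) (nat_lit 126) (nat_lit 159)) (PT.nd (nat_lit 78) (PT.lf (nat_lit 11780) (nat_lit 6) (nat_lit 155) (nat_lit 1) (nat_lit 166) (nat_lit 126) (nat_lit 158)) (PT.lf (nat_lit 11704) (nat_lit 6) (nat_lit 154) (nat_lit 1) (nat_lit 167) (nat_lit 126) (nat_lit 157)))) (PT.nd (nat_lit 46020) (PT.nd (nat_lit 45942) (PT.lf (nat_lit 11628) (nat_lit 6) (nat_lit 153) (nat_lit 1) (nat_lit 168) (nat_lit 126) (nat_lit 156)) (PT.lf (nat_lit 12160) (nat_lit 6) (nat_lit 160) (nat_lit 3) (nat_lit 156) (nat_lit 127) (nat_lit 167))) (PT.nd (nat_lit 78) (PT.lf (nat_lit 12236) (nat_lit 6) (nat_lit 161) (nat_lit 3) (nat_lit 157) (nat_lit 127) (nat_lit 166)) (PT.lf (nat_lit 12312) (nat_lit 6) (nat_lit 162) (nat_lit 3) (nat_lit 158) (nat_lit 127) (nat_lit 165)))))) (PT.nd (nat_lit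 546) (PT.nd (nat_lit 234) (PT.nd (nat_lit 78) (PT.lf (nat_lit 12388) (nat_lit 6) (nat_lit 163) (nat_lit 3) (nat_lit 159) (nat_lit 127) (nat_lit 164)) (PT.nd (nat_lit 78) (PT.lf (nat_lit 12464) (nat_lit 6) (nat_lit 164) (nat_lit 3) (nat_lit 160) (nat_lit 127) (nat_lit 163)) (PT.lf (nat_lit 12540) (nat_lit 6) (nat_lit 165) (nat_lit 3) (nat_lit 161) (nat_lit 127) (nat_lit 162)))) (PT.nd (nat_lit 156) (PT.nd (nat_lit 78) (PT.lf (nat_lit 12540) (nat_lit 6) (nat_lit 165) (nat_lit 1) (nat_lit 162) (nat_lit 127) (nat_lit 161)) (PT.lf (nat_lit 12464) (nat_lit 6) (nat_lit 164) (nat_lit 1) (nat_lit 163) (nat_lit 127) (nat_lit 160))) (PT.nd (nat_lit 78) (PT.lf (nat_lit 12388) (nat_lit 6) (nat_lit 163) (nat_lit 1) (nat_lit 164) (nat_lit 127) (nat_lit 159)) (PT.lf (nat_lit 12312) (nat_lit 6) (nat_lit 162) (nat_lit 1) (nat_lit 165) (nat_lit 127) (nat_lit 158))))) (PT.nd (nat_lit 46098) (PT.nd (nat_lit 78) (PT.lf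 (nat_lit 12236) (nat_lit 6) (nat_lit 161) (nat_lit 1) (nat_lit 166) (nat_lit 127) (nat_lit 157)) (PT.nd (nat_lit 45942) (PT.lf (nat_lit 12160) (nat_lit 6) (nat_lit 160) (nat_lit 1) (nat_lit 167) (nat_lit 127) (nat_lit 156)) (PT.lf (nat_lit 12616) (nat_lit 6) (nat_lit 166) (nat_lit 3) (nat_lit 155) (nat_lit 128) (nat_lit 167)))) (PT.nd (nat_lit 156) (PT.nd (nat_lit 78) (PT.lf (nat_lit 12692) (nat_lit 6) (nat_lit 167) (nat_lit 3) (nat_lit 156) (nat_lit 128) (nat_lit 166)) (PT.lf (nat_lit 12768) (nat_lit 6) (nat_lit 168) (nat_lit 3) (nat_lit 157) (nat_lit 128) (nat_lit 165))) (PT.nd (nat_lit 78) (PT.lf (nat_lit 12844) (nat_lit 6) (nat_lit 169) (nat_lit 3) (nat_lit 158) (nat_lit 128) (nat_lit 164)) (PT.lf (nat_lit 12920) (nat_lit 6) (nat_lit 170) (nat_lit 3) (nat_lit 159) (nat_lit 128) (nat_lit 163))))))) (PT.nd (nat_lit 46878) (PT.nd (nat_lit 546) (PT.nd (nat_lit 234) (PT.nd (nat_lit 78) (PT.lf (nat_lit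 12996) (nat_lit 6) (nat_lit 171) (nat_lit 3) (nat_lit 160) (nat_lit 128) (nat_lit 162)) (PT.nd (nat_lit 78) (PT.lf (nat_lit 13072) (nat_lit 3) (nat_lit 172) (nat_lit 1) (nat_lit 161) (nat_lit 128) (nat_lit 161)) (PT.lf (nat_lit 12996) (nat_lit 6) (nat_lit 171) (nat_lit 1) (nat_lit 162) (nat_lit 128) (nat_lit 160)))) (PT.nd (nat_lit 156) (PT.nd (nat_lit 78) (PT.lf (nat_lit 12920) (nat_lit 6) (nat_lit 170) (nat_lit 1) (nat_lit 163) (nat_lit 128) (nat_lit 159)) (PT.lf (nat_lit 12844) (nat_lit 6) (nat_lit 169) (nat_lit 1) (nat_lit 164) (nat_lit 128) (nat_lit 158))) (PT.nd (nat_lit 78) (PT.lf (nat_lit 12768) (nat_lit 6) (nat_lit 168) (nat_lit 1) (nat_lit 165) (nat_lit 128) (nat_lit 157)) (PT.lf (nat_lit 12692) (nat_lit 6) (nat_lit 167) (nat_lit 1) (nat_lit 166) (nat_lit 128) (nat_lit 156))))) (PT.nd (nat_lit 46020) (PT.nd (nat_lit 45864) (PT.lf (nat_lit 12616) (nat_lit 6) (nat_lit 166) (nat_lit 1) (nat_lit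 167) (nat_lit 128) (nat_lit 155)) (PT.nd (nat_lit 78) (PT.lf (nat_lit 13148) (nat_lit 6) (nat_lit 173) (nat_lit 3) (nat_lit 154) (nat_lit 129) (nat_lit 167)) (PT.lf (nat_lit 13224) (nat_lit 6) (nat_lit 174) (nat_lit 3) (nat_lit 155) (nat_lit 129) (nat_lit 166)))) (PT.nd (nat_lit 156) (PT.nd (nat_lit 78) (PT.lf (nat_lit 13300) (nat_lit 6) (nat_lit 175) (nat_lit 3) (nat_lit 156) (nat_lit 129) (nat_lit 165)) (PT.lf (nat_lit 13376) (nat_lit 6) (nat_lit 176) (nat_lit 3) (nat_lit 157) (nat_lit 129) (nat_lit 164))) (PT.nd (nat_lit 78) (PT.lf (nat_lit 13452) (nat_lit 6) (nat_lit 177) (nat_lit 3) (nat_lit 158) (nat_lit 129) (nat_lit 163)) (PT.lf (nat_lit 13528) (nat_lit 6) (nat_lit 178) (nat_lit 3) (nat_lit 159) (nat_lit 129) (nat_lit 162)))))) (PT.nd (nat_lit 546) (PT.nd (nat_lit 234) (PT.nd (nat_lit 78) (PT.lf (nat_lit 13604) (nat_lit 6) (nat_lit 179) (nat_lit 3) (nat_lit 160) (nat_lit 129) (nat_lit 161))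 (PT.nd (nat_lit 78) (PT.lf (nat_lit 13604) (nat_lit 6) (nat_lit 179) (nat_lit 1) (nat_lit 161) (nat_lit 129) (nat_lit 160)) (PT.lf (nat_lit 13528) (nat_lit 6) (nat_lit 178) (nat_lit 1) (nat_lit 162) (nat_lit 129) (nat_lit 159)))) (PT.nd (nat_lit 156) (PT.nd (nat_lit 78) (PT.lf (nat_lit 13452) (nat_lit 6) (nat_lit 177) (nat_lit 1) (nat_lit 163) (nat_lit 129) (nat_lit 158)) (PT.lf (nat_lit 13376) (nat_lit 6) (nat_lit 176) (nat_lit 1) (nat_lit 164) (nat_lit 129) (nat_lit 157))) (PT.nd (nat_lit 78) (PT.lf (nat_lit 13300) (nat_lit 6) (nat_lit 175) (nat_lit 1) (nat_lit 165) (nat_lit 129) (nat_lit 156)) (PT.lf (nat_lit 13224) (nat_lit 6) (nat_lit 174) (nat_lit 1) (nat_lit 166) (nat_lit 129) (nat_lit 155))))) (PT.nd (nat_lit 45942) (PT.nd (nat_lit 45786) (PT.lf (nat_lit 13148) (nat_lit 6) (nat_lit 173) (nat_lit 1) (nat_lit 167) (nat_lit 129) (nat_lit 154)) (PT.nd (nat_lit 78) (PT.lf (nat_lit 13680) (nat_lit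 6) (nat_lit 180) (nat_lit 3) (nat_lit 153) (nat_lit 130) (nat_lit 167)) (PT.lf (nat_lit 13756) (nat_lit 6) (nat_lit 181) (nat_lit 3) (nat_lit 154) (nat_lit 130) (nat_lit 166)))) (PT.nd (nat_lit 156) (PT.nd (nat_lit 78) (PT.lf (nat_lit 13832) (nat_lit 6) (nat_lit 182) (nat_lit 3) (nat_lit 155) (nat_lit 130) (nat_lit 165)) (PT.lf (nat_lit 13908) (nat_lit 6) (nat_lit 183) (nat_lit 3) (nat_lit 156) (nat_lit 130) (nat_lit 164))) (PT.nd (nat_lit 78) (PT.lf (nat_lit 13984) (nat_lit 6) (nat_lit 184) (nat_lit 3) (nat_lit 157) (nat_lit 130) (nat_lit 163)) (PT.lf (nat_lit 14060) (nat_lit 6) (nat_lit 185) (nat_lit 3) (nat_lit 158) (nat_lit 130) (nat_lit 162))))))))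
noncomputable def pc5 : PT := (PT.nd (nat_lit 93600) (PT.nd (nat_lit 46800) (PT.nd (nat_lit 546) (PT.nd (nat_lit 234) (PT.nd (nat_lit 78) (PT.lf (nat_lit 14136) (nat_lit 6) (nat_lit 186) (nat_lit 3) (nat_lit 159) (nat_lit 130) (nat_lit 161)) (PT.nd (nat_lit 78) (PT.lf (nat_lit 14212) (nat_lit 3) (nat_lit 187) (nat_lit 1) (nat_lit 160) (nat_lit 130) (nat_lit 160)) (PT.lf (nat_lit 14136) (nat_lit 6) (nat_lit 186) (nat_lit 1) (nat_lit 161) (nat_lit 130) (nat_lit 159)))) (PT.nd (nat_lit 156) (PT.nd (nat_lit 78) (PT.lf (nat_lit 14060) (nat_lit 6) (nat_lit 185) (nat_lit 1) (nat_lit 162) (nat_lit 130) (nat_lit 158)) (PT.lf (nat_lit 13984) (nat_lit 6) (nat_lit 184) (nat_lit 1) (nat_lit 163) (nat_lit 130) (nat_lit 157))) (PT.nd (nat_lit 78) (PT.lf (nat_lit 13908) (nat_lit 6) (nat_lit 183) (nat_lit 1) (nat_lit 164) (nat_lit 130) (nat_lit 156)) (PT.lf (nat_lit 13832) (nat_lit 6) (nat_lit 182) (nat_lit 1) (nat_lit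 165) (nat_lit 130) (nat_lit 155))))) (PT.nd (nat_lit 45942) (PT.nd (nat_lit 78) (PT.lf (nat_lit 13756) (nat_lit 6) (nat_lit 181) (nat_lit 1) (nat_lit 166) (nat_lit 130) (nat_lit 154)) (PT.nd (nat_lit 45786) (PT.lf (nat_lit 13680) (nat_lit 6) (nat_lit 180) (nat_lit 1) (nat_lit 167) (nat_lit 130) (nat_lit 153)) (PT.lf (nat_lit 14364) (nat_lit 6) (nat_lit 189) (nat_lit 3) (nat_lit 153) (nat_lit 131) (nat_lit 166)))) (PT.nd (nat_lit 156) (PT.nd (nat_lit 78) (PT.lf (nat_lit 14440) (nat_lit 6) (nat_lit 190) (nat_lit 3) (nat_lit 154) (nat_lit 131) (nat_lit 165)) (PT.lf (nat_lit 14516) (nat_lit 6) (nat_lit 191) (nat_lit 3) (nat_lit 155) (nat_lit 131) (nat_lit 164))) (PT.nd (nat_lit 78) (PT.lf (nat_lit 14592) (nat_lit 6) (nat_lit 192) (nat_lit 3) (nat_lit 156) (nat_lit 131) (nat_lit 163)) (PT.lf (nat_lit 14668) (nat_lit 6) (nat_lit 193) (nat_lit 3) (nat_lit 157) (nat_lit 131) (nat_lit 162)))))) (PT.nd (nat_lit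 546) (PT.nd (nat_lit 234) (PT.nd (nat_lit 78) (PT.lf (nat_lit 14744) (nat_lit 6) (nat_lit 194) (nat_lit 3) (nat_lit 158) (nat_lit 131) (nat_lit 161)) (PT.nd (nat_lit 78) (PT.lf (nat_lit 14820) (nat_lit 6) (nat_lit 195) (nat_lit 3) (nat_lit 159) (nat_lit 131) (nat_lit 160)) (PT.lf (nat_lit 14820) (nat_lit 6) (nat_lit 195) (nat_lit 1) (nat_lit 160) (nat_lit 131) (nat_lit 159)))) (PT.nd (nat_lit 156) (PT.nd (nat_lit 78) (PT.lf (nat_lit 14744) (nat_lit 6) (nat_lit 194) (nat_lit 1) (nat_lit 161) (nat_lit 131) (nat_lit 158)) (PT.lf (nat_lit 14668) (nat_lit 6) (nat_lit 193) (nat_lit 1) (nat_lit 162) (nat_lit 131) (nat_lit 157))) (PT.nd (nat_lit 78) (PT.lf (nat_lit 14592) (nat_lit 6) (nat_lit 192) (nat_lit 1) (nat_lit 163) (nat_lit 131) (nat_lit 156)) (PT.lf (nat_lit 14516) (nat_lit 6) (nat_lit 191) (nat_lit 1) (nat_lit 164) (nat_lit 131) (nat_lit 155))))) (PT.nd (nat_lit 45942) (PT.nd (nat_lit 78) (PT.lf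 (nat_lit 14440) (nat_lit 6) (nat_lit 190) (nat_lit 1) (nat_lit 165) (nat_lit 131) (nat_lit 154)) (PT.nd (nat_lit 45786) (PT.lf (nat_lit 14364) (nat_lit 6) (nat_lit 189) (nat_lit 1) (nat_lit 166) (nat_lit 131) (nat_lit 153)) (PT.lf (nat_lit 14896) (nat_lit 6) (nat_lit 196) (nat_lit 3) (nat_lit 152) (nat_lit 132) (nat_lit 166)))) (PT.nd (nat_lit 156) (PT.nd (nat_lit 78) (PT.lf (nat_lit 14972) (nat_lit 6) (nat_lit 197) (nat_lit 3) (nat_lit 153) (nat_lit 132) (nat_lit 165)) (PT.lf (nat_lit 15048) (nat_lit 6) (nat_lit 198) (nat_lit 3) (nat_lit 154) (nat_lit 132) (nat_lit 164))) (PT.nd (nat_lit 78) (PT.lf (nat_lit 15124) (nat_lit 6) (nat_lit 199) (nat_lit 3) (nat_lit 155) (nat_lit 132) (nat_lit 163)) (PT.lf (nat_lit 15200) (nat_lit 6) (nat_lit 200) (nat_lit 3) (nat_lit 156) (nat_lit 132) (nat_lit 162))))))) (PT.nd (nat_lit 46722) (PT.nd (nat_lit 546) (PT.nd (nat_lit 234) (PT.nd (nat_lit 78) (PT.lf (nat_lit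 15276) (nat_lit 6) (nat_lit 201) (nat_lit 3) (nat_lit 157) (nat_lit 132) (nat_lit 161)) (PT.nd (nat_lit 78) (PT.lf (nat_lit 15352) (nat_lit 6) (nat_lit 202) (nat_lit 3) (nat_lit 158) (nat_lit 132) (nat_lit 160)) (PT.lf (nat_lit 15428) (nat_lit 3) (nat_lit 203) (nat_lit 1) (nat_lit 159) (nat_lit 132) (nat_lit 159)))) (PT.nd (nat_lit 156) (PT.nd (nat_lit 78) (PT.lf (nat_lit 15352) (nat_lit 6) (nat_lit 202) (nat_lit 1) (nat_lit 160) (nat_lit 132) (nat_lit 158)) (PT.lf (nat_lit 15276) (nat_lit 6) (nat_lit 201) (nat_lit 1) (nat_lit 161) (nat_lit 132) (nat_lit 157))) (PT.nd (nat_lit 78) (PT.lf (nat_lit 15200) (nat_lit 6) (nat_lit 200) (nat_lit 1) (nat_lit 162) (nat_lit 132) (nat_lit 156)) (PT.lf (nat_lit 15124) (nat_lit 6) (nat_lit 199) (nat_lit 1) (nat_lit 163) (nat_lit 132) (nat_lit 155))))) (PT.nd (nat_lit 45864) (PT.nd (nat_lit 78) (PT.lf (nat_lit 15048) (nat_lit 6) (nat_lit 198) (nat_lit 1) (nat_lit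 164) (nat_lit 132) (nat_lit 154)) (PT.nd (nat_lit 78) (PT.lf (nat_lit 14972) (nat_lit 6) (nat_lit 197) (nat_lit 1) (nat_lit 165) (nat_lit 132) (nat_lit 153)) (PT.lf (nat_lit 14896) (nat_lit 6) (nat_lit 196) (nat_lit 1) (nat_lit 166) (nat_lit 132) (nat_lit 152)))) (PT.nd (nat_lit 156) (PT.nd (nat_lit 78) (PT.lf (nat_lit 15504) (nat_lit 6) (nat_lit 204) (nat_lit 3) (nat_lit 151) (nat_lit 133) (nat_lit 166)) (PT.lf (nat_lit 15580) (nat_lit 6) (nat_lit 205) (nat_lit 3) (nat_lit 152) (nat_lit 133) (nat_lit 165))) (PT.nd (nat_lit 78) (PT.lf (nat_lit 15656) (nat_lit 6) (nat_lit 206) (nat_lit 3) (nat_lit 153) (nat_lit 133) (nat_lit 164)) (PT.lf (nat_lit 15732) (nat_lit 6) (nat_lit 207) (nat_lit 3) (nat_lit 154) (nat_lit 133) (nat_lit 163)))))) (PT.nd (nat_lit 546) (PT.nd (nat_lit 234) (PT.nd (nat_lit 78) (PT.lf (nat_lit 15808) (nat_lit 6) (nat_lit 208) (nat_lit 3) (nat_lit 155) (nat_lit 133) (nat_lit 162))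 (PT.nd (nat_lit 78) (PT.lf (nat_lit 15884) (nat_lit 6) (nat_lit 209) (nat_lit 3) (nat_lit 156) (nat_lit 133) (nat_lit 161)) (PT.lf (nat_lit 15960) (nat_lit 6) (nat_lit 210) (nat_lit 3) (nat_lit 157) (nat_lit 133) (nat_lit 160)))) (PT.nd (nat_lit 156) (PT.nd (nat_lit 78) (PT.lf (nat_lit 16036) (nat_lit 6) (nat_lit 211) (nat_lit 3) (nat_lit 158) (nat_lit 133) (nat_lit 159)) (PT.lf (nat_lit 16036) (nat_lit 6) (nat_lit 211) (nat_lit 1) (nat_lit 159) (nat_lit 133) (nat_lit 158))) (PT.nd (nat_lit 78) (PT.lf (nat_lit 15960) (nat_lit 6) (nat_lit 210) (nat_lit 1) (nat_lit 160) (nat_lit 133) (nat_lit 157)) (PT.lf (nat_lit 15884) (nat_lit 6) (nat_lit 209) (nat_lit 1) (nat_lit 161) (nat_lit 133) (nat_lit 156))))) (PT.nd (nat_lit 234) (PT.nd (nat_lit 78) (PT.lf (nat_lit 15808) (nat_lit 6) (nat_lit 208) (nat_lit 1) (nat_lit 162) (nat_lit 133) (nat_lit 155)) (PT.nd (nat_lit 78) (PT.lf (nat_lit 15732) (nat_lit 6)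 (nat_lit 207) (nat_lit 1) (nat_lit 163) (nat_lit 133) (nat_lit 154)) (PT.lf (nat_lit 15656) (nat_lit 6) (nat_lit 206) (nat_lit 1) (nat_lit 164) (nat_lit 133) (nat_lit 153)))) (PT.nd (nat_lit 45708) (PT.nd (nat_lit 78) (PT.lf (nat_lit 15580) (nat_lit 6) (nat_lit 205) (nat_lit 1) (nat_lit 165) (nat_lit 133) (nat_lit 152)) (PT.lf (nat_lit 15504) (nat_lit 6) (nat_lit 204) (nat_lit 1) (nat_lit 166) (nat_lit 133) (nat_lit 151))) (PT.nd (nat_lit 78) (PT.lf (nat_lit 16492) (nat_lit 6) (nat_lit 217) (nat_lit 3) (nat_lit 150) (nat_lit 134) (nat_lit 166)) (PT.lf (nat_lit 16568) (nat_lit 6) (nat_lit 218) (nat_lit 3) (nat_lit 151) (nat_lit 134) (nat_lit 165))))))))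
noncomputable def pc6 : PT := (PT.nd (nat_lit 47658) (PT.nd (nat_lit 1092) (PT.nd (nat_lit 546) (PT.nd (nat_lit 234) (PT.nd (nat_lit 78) (PT.lf (nat_lit 16644) (nat_lit 6) (nat_lit 219) (nat_lit 3) (nat_lit 152) (nat_lit 134) (nat_lit 164)) (PT.nd (nat_lit 78) (PT.lf (nat_lit 16720) (nat_lit 6) (nat_lit 220) (nat_lit 3) (nat_lit 153) (nat_lit 134) (nat_lit 163)) (PT.lf (nat_lit 16796) (nat_lit 6) (nat_lit 221) (nat_lit 3) (nat_lit 154) (nat_lit 134) (nat_lit 162)))) (PT.nd (nat_lit 156) (PT.nd (nat_lit 78) (PT.lf (nat_lit 16872) (nat_lit 6) (nat_lit 222) (nat_lit 3) (nat_lit 155) (nat_lit 134) (nat_lit 161)) (PT.lf (nat_lit 16948) (nat_lit 6) (nat_lit 223) (nat_lit 3) (nat_lit 156) (nat_lit 134) (nat_lit 160))) (PT.nd (nat_lit 78) (PT.lf (nat_lit 17024) (nat_lit 6) (nat_lit 224) (nat_lit 3) (nat_lit 157) (nat_lit 134) (nat_lit 159)) (PT.lf (nat_lit 17100) (nat_lit 3) (nat_lit 225) (nat_lit 1) (nat_lit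 158) (nat_lit 134) (nat_lit 158))))) (PT.nd (nat_lit 234) (PT.nd (nat_lit 78) (PT.lf (nat_lit 17024) (nat_lit 6) (nat_lit 224) (nat_lit 1) (nat_lit 159) (nat_lit 134) (nat_lit 157)) (PT.nd (nat_lit 78) (PT.lf (nat_lit 16948) (nat_lit 6) (nat_lit 223) (nat_lit 1) (nat_lit 160) (nat_lit 134) (nat_lit 156)) (PT.lf (nat_lit 16872) (nat_lit 6) (nat_lit 222) (nat_lit 1) (nat_lit 161) (nat_lit 134) (nat_lit 155)))) (PT.nd (nat_lit 156) (PT.nd (nat_lit 78) (PT.lf (nat_lit 16796) (nat_lit 6) (nat_lit 221) (nat_lit 1) (nat_lit 162) (nat_lit 134) (nat_lit 154)) (PT.lf (nat_lit 16720) (nat_lit 6) (nat_lit 220) (nat_lit 1) (nat_lit 163) (nat_lit 134) (nat_lit 153))) (PT.nd (nat_lit 78) (PT.lf (nat_lit 16644) (nat_lit 6) (nat_lit 219) (nat_lit 1) (nat_lit 164) (nat_lit 134) (nat_lit 152)) (PT.lf (nat_lit 16568) (nat_lit 6) (nat_lit 218) (nat_lit 1) (nat_lit 165) (nat_lit 134) (nat_lit 151)))))) (PT.nd (nat_lit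 46020) (PT.nd (nat_lit 45708) (PT.nd (nat_lit 45552) (PT.lf (nat_lit 16492) (nat_lit 6) (nat_lit 217) (nat_lit 1) (nat_lit 166) (nat_lit 134) (nat_lit 150)) (PT.nd (nat_lit 78) (PT.lf (nat_lit 16416) (nat_lit 6) (nat_lit 216) (nat_lit 3) (nat_lit 149) (nat_lit 135) (nat_lit 166)) (PT.lf (nat_lit 17708) (nat_lit 6) (nat_lit 233) (nat_lit 3) (nat_lit 150) (nat_lit 135) (nat_lit 165)))) (PT.nd (nat_lit 156) (PT.nd (nat_lit 78) (PT.lf (nat_lit 17784) (nat_lit 6) (nat_lit 234) (nat_lit 3) (nat_lit 151) (nat_lit 135) (nat_lit 164)) (PT.lf (nat_lit 17860) (nat_lit 6) (nat_lit 235) (nat_lit 3) (nat_lit 152) (nat_lit 135) (nat_lit 163))) (PT.nd (nat_lit 78) (PT.lf (nat_lit 17936) (nat_lit 6) (nat_lit 236) (nat_lit 3) (nat_lit 153) (nat_lit 135) (nat_lit 162)) (PT.lf (nat_lit 18012) (nat_lit 6) (nat_lit 237) (nat_lit 3) (nat_lit 154) (nat_lit 135) (nat_lit 161))))) (PT.nd (nat_lit 234) (PT.nd (nat_lit 78) (PT.lf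 (nat_lit 18088) (nat_lit 6) (nat_lit 238) (nat_lit 3) (nat_lit 155) (nat_lit 135) (nat_lit 160)) (PT.nd (nat_lit 78) (PT.lf (nat_lit 18164) (nat_lit 6) (nat_lit 239) (nat_lit 3) (nat_lit 156) (nat_lit 135) (nat_lit 159)) (PT.lf (nat_lit 18240) (nat_lit 6) (nat_lit 240) (nat_lit 3) (nat_lit 157) (nat_lit 135) (nat_lit 158)))) (PT.nd (nat_lit 156) (PT.nd (nat_lit 78) (PT.lf (nat_lit 18240) (nat_lit 6) (nat_lit 240) (nat_lit 1) (nat_lit 158) (nat_lit 135) (nat_lit 157)) (PT.lf (nat_lit 18164) (nat_lit 6) (nat_lit 239) (nat_lit 1) (nat_lit 159) (nat_lit 135) (nat_lit 156))) (PT.nd (nat_lit 78) (PT.lf (nat_lit 18088) (nat_lit 6) (nat_lit 238) (nat_lit 1) (nat_lit 160) (nat_lit 135) (nat_lit 155)) (PT.lf (nat_lit 18012) (nat_lit 6) (nat_lit 237) (nat_lit 1) (nat_lit 161) (nat_lit 135) (nat_lit 154))))))) (PT.nd (nat_lit 46488) (PT.nd (nat_lit 45942) (PT.nd (nat_lit 234) (PT.nd (nat_lit 78) (PT.lf (nat_lit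 17936) (nat_lit 6) (nat_lit 236) (nat_lit 1) (nat_lit 162) (nat_lit 135) (nat_lit 153)) (PT.nd (nat_lit 78) (PT.lf (nat_lit 17860) (nat_lit 6) (nat_lit 235) (nat_lit 1) (nat_lit 163) (nat_lit 135) (nat_lit 152)) (PT.lf (nat_lit 17784) (nat_lit 6) (nat_lit 234) (nat_lit 1) (nat_lit 164) (nat_lit 135) (nat_lit 151)))) (PT.nd (nat_lit 45552) (PT.nd (nat_lit 78) (PT.lf (nat_lit 17708) (nat_lit 6) (nat_lit 233) (nat_lit 1) (nat_lit 165) (nat_lit 135) (nat_lit 150)) (PT.lf (nat_lit 16416) (nat_lit 6) (nat_lit 216) (nat_lit 1) (nat_lit 166) (nat_lit 135) (nat_lit 149))) (PT.nd (nat_lit 78) (PT.lf (nat_lit 16340) (nat_lit 6) (nat_lit 215) (nat_lit 3) (nat_lit 148) (nat_lit 136) (nat_lit 166)) (PT.lf (nat_lit 17632) (nat_lit 6) (nat_lit 232) (nat_lit 3) (nat_lit 149) (nat_lit 136) (nat_lit 165))))) (PT.nd (nat_lit 234) (PT.nd (nat_lit 78) (PT.lf (nat_lit 18848) (nat_lit 6) (nat_lit 248) (nat_lit 3) (nat_lit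 150) (nat_lit 136) (nat_lit 164)) (PT.nd (nat_lit 78) (PT.lf (nat_lit 18924) (nat_lit 6) (nat_lit 249) (nat_lit 3) (nat_lit 151) (nat_lit 136) (nat_lit 163)) (PT.lf (nat_lit 19000) (nat_lit 6) (nat_lit 250) (nat_lit 3) (nat_lit 152) (nat_lit 136) (nat_lit 162)))) (PT.nd (nat_lit 156) (PT.nd (nat_lit 78) (PT.lf (nat_lit 19076) (nat_lit 6) (nat_lit 251) (nat_lit 3) (nat_lit 153) (nat_lit 136) (nat_lit 161)) (PT.lf (nat_lit 19152) (nat_lit 6) (nat_lit 252) (nat_lit 3) (nat_lit 154) (nat_lit 136) (nat_lit 160))) (PT.nd (nat_lit 78) (PT.lf (nat_lit 19228) (nat_lit 6) (nat_lit 253) (nat_lit 3) (nat_lit 155) (nat_lit 136) (nat_lit 159)) (PT.lf (nat_lit 19304) (nat_lit 6) (nat_lit 254) (nat_lit 3) (nat_lit 156) (nat_lit 136) (nat_lit 158)))))) (PT.nd (nat_lit 546) (PT.nd (nat_lit 234) (PT.nd (nat_lit 78) (PT.lf (nat_lit 19380) (nat_lit 3) (nat_lit 255) (nat_lit 1) (nat_lit 157) (nat_lit 136) (nat_lit 157))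 (PT.nd (nat_lit 78) (PT.lf (nat_lit 19304) (nat_lit 6) (nat_lit 254) (nat_lit 1) (nat_lit 158) (nat_lit 136) (nat_lit 156)) (PT.lf (nat_lit 19228) (nat_lit 6) (nat_lit 253) (nat_lit 1) (nat_lit 159) (nat_lit 136) (nat_lit 155)))) (PT.nd (nat_lit 156) (PT.nd (nat_lit 78) (PT.lf (nat_lit 19152) (nat_lit 6) (nat_lit 252) (nat_lit 1) (nat_lit 160) (nat_lit 136) (nat_lit 154)) (PT.lf (nat_lit 19076) (nat_lit 6) (nat_lit 251) (nat_lit 1) (nat_lit 161) (nat_lit 136) (nat_lit 153))) (PT.nd (nat_lit 78) (PT.lf (nat_lit 19000) (nat_lit 6) (nat_lit 250) (nat_lit 1) (nat_lit 162) (nat_lit 136) (nat_lit 152)) (PT.lf (nat_lit 18924) (nat_lit 6) (nat_lit 249) (nat_lit 1) (nat_lit 163) (nat_lit 136) (nat_lit 151))))) (PT.nd (nat_lit 45552) (PT.nd (nat_lit 78) (PT.lf (nat_lit 18848) (nat_lit 6) (nat_lit 248) (nat_lit 1) (nat_lit 164) (nat_lit 136) (nat_lit 150)) (PT.nd (nat_lit 78) (PT.lf (nat_lit 17632) (nat_lit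 6) (nat_lit 232) (nat_lit 1) (nat_lit 165) (nat_lit 136) (nat_lit 149)) (PT.lf (nat_lit 16340) (nat_lit 6) (nat_lit 215) (nat_lit 1) (nat_lit 166) (nat_lit 136) (nat_lit 148)))) (PT.nd (nat_lit 156) (PT.nd (nat_lit 78) (PT.lf (nat_lit 16264) (nat_lit 6) (nat_lit 214) (nat_lit 3) (nat_lit 147) (nat_lit 137) (nat_lit 166)) (PT.lf (nat_lit 17556) (nat_lit 6) (nat_lit 231) (nat_lit 3) (nat_lit 148) (nat_lit 137) (nat_lit 165))) (PT.nd (nat_lit 78) (PT.lf (nat_lit 18772) (nat_lit 6) (nat_lit 247) (nat_lit 3) (nat_lit 149) (nat_lit 137) (nat_lit 164)) (PT.lf (nat_lit 19912) (nat_lit 6) (nat_lit 262) (nat_lit 3) (nat_lit 150) (nat_lit 137) (nat_lit 163))))))))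
noncomputable def pc7 : PT := (PT.nd (nat_lit 47424) (PT.nd (nat_lit 1092) (PT.nd (nat_lit 546) (PT.nd (nat_lit 234) (PT.nd (nat_lit 78) (PT.lf (nat_lit 19988) (nat_lit 6) (nat_lit 263) (nat_lit 3) (nat_lit 151) (nat_lit 137) (nat_lit 162)) (PT.nd (nat_lit 78) (PT.lf (nat_lit 20064) (nat_lit 6) (nat_lit 264) (nat_lit 3) (nat_lit 152) (nat_lit 137) (nat_lit 161)) (PT.lf (nat_lit 20140) (nat_lit 6) (nat_lit 265) (nat_lit 3) (nat_lit 153) (nat_lit 137) (nat_lit 160)))) (PT.nd (nat_lit 156) (PT.nd (nat_lit 78) (PT.lf (nat_lit 20216) (nat_lit 6) (nat_lit 266) (nat_lit 3) (nat_lit 154) (nat_lit 137) (nat_lit 159)) (PT.lf (nat_lit 20292) (nat_lit 6) (nat_lit 267) (nat_lit 3) (nat_lit 155) (nat_lit 137) (nat_lit 158))) (PT.nd (nat_lit 78) (PT.lf (nat_lit 20368) (nat_lit 6) (nat_lit 268) (nat_lit 3) (nat_lit 156) (nat_lit 137) (nat_lit 157)) (PT.lf (nat_lit 20368) (nat_lit 6) (nat_lit 268) (nat_lit 1) (nat_lit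 157) (nat_lit 137) (nat_lit 156))))) (PT.nd (nat_lit 234) (PT.nd (nat_lit 78) (PT.lf (nat_lit 20292) (nat_lit 6) (nat_lit 267) (nat_lit 1) (nat_lit 158) (nat_lit 137) (nat_lit 155)) (PT.nd (nat_lit 78) (PT.lf (nat_lit 20216) (nat_lit 6) (nat_lit 266) (nat_lit 1) (nat_lit 159) (nat_lit 137) (nat_lit 154)) (PT.lf (nat_lit 20140) (nat_lit 6) (nat_lit 265) (nat_lit 1) (nat_lit 160) (nat_lit 137) (nat_lit 153)))) (PT.nd (nat_lit 156) (PT.nd (nat_lit 78) (PT.lf (nat_lit 20064) (nat_lit 6) (nat_lit 264) (nat_lit 1) (nat_lit 161) (nat_lit 137) (nat_lit 152)) (PT.lf (nat_lit 19988) (nat_lit 6) (nat_lit 263) (nat_lit 1) (nat_lit 162) (nat_lit 137) (nat_lit 151))) (PT.nd (nat_lit 78) (PT.lf (nat_lit 19912) (nat_lit 6) (nat_lit 262) (nat_lit 1) (nat_lit 163) (nat_lit 137) (nat_lit 150)) (PT.lf (nat_lit 18772) (nat_lit 6) (nat_lit 247) (nat_lit 1) (nat_lit 164) (nat_lit 137) (nat_lit 149)))))) (PT.nd (nat_lit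 45786) (PT.nd (nat_lit 45474) (PT.nd (nat_lit 78) (PT.lf (nat_lit 17556) (nat_lit 6) (nat_lit 231) (nat_lit 1) (nat_lit 165) (nat_lit 137) (nat_lit 148)) (PT.nd (nat_lit 45318) (PT.lf (nat_lit 16264) (nat_lit 6) (nat_lit 214) (nat_lit 1) (nat_lit 166) (nat_lit 137) (nat_lit 147)) (PT.lf (nat_lit 16188) (nat_lit 6) (nat_lit 213) (nat_lit 3) (nat_lit 146) (nat_lit 138) (nat_lit 166)))) (PT.nd (nat_lit 156) (PT.nd (nat_lit 78) (PT.lf (nat_lit 17480) (nat_lit 6) (nat_lit 230) (nat_lit 3) (nat_lit 147) (nat_lit 138) (nat_lit 165)) (PT.lf (nat_lit 18696) (nat_lit 6) (nat_lit 246) (nat_lit 3) (nat_lit 148) (nat_lit 138) (nat_lit 164))) (PT.nd (nat_lit 78) (PT.lf (nat_lit 19836) (nat_lit 6) (nat_lit 261) (nat_lit 3) (nat_lit 149) (nat_lit 138) (nat_lit 163)) (PT.lf (nat_lit 20900) (nat_lit 6) (nat_lit 275) (nat_lit 3) (nat_lit 150) (nat_lit 138) (nat_lit 162))))) (PT.nd (nat_lit 234) (PT.nd (nat_lit 78) (PT.lf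 (nat_lit 20976) (nat_lit 6) (nat_lit 276) (nat_lit 3) (nat_lit 151) (nat_lit 138) (nat_lit 161)) (PT.nd (nat_lit 78) (PT.lf (nat_lit 21052) (nat_lit 6) (nat_lit 277) (nat_lit 3) (nat_lit 152) (nat_lit 138) (nat_lit 160)) (PT.lf (nat_lit 21128) (nat_lit 6) (nat_lit 278) (nat_lit 3) (nat_lit 153) (nat_lit 138) (nat_lit 159)))) (PT.nd (nat_lit 156) (PT.nd (nat_lit 78) (PT.lf (nat_lit 21204) (nat_lit 6) (nat_lit 279) (nat_lit 3) (nat_lit 154) (nat_lit 138) (nat_lit 158)) (PT.lf (nat_lit 21280) (nat_lit 6) (nat_lit 280) (nat_lit 3) (nat_lit 155) (nat_lit 138) (nat_lit 157))) (PT.nd (nat_lit 78) (PT.lf (nat_lit 21356) (nat_lit 3) (nat_lit 281) (nat_lit 1) (nat_lit 156) (nat_lit 138) (nat_lit 156)) (PT.lf (nat_lit 21280) (nat_lit 6) (nat_lit 280) (nat_lit 1) (nat_lit 157) (nat_lit 138) (nat_lit 155))))))) (PT.nd (nat_lit 46332) (PT.nd (nat_lit 546) (PT.nd (nat_lit 234) (PT.nd (nat_lit 78) (PT.lf (nat_lit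 21204) (nat_lit 6) (nat_lit 279) (nat_lit 1) (nat_lit 158) (nat_lit 138) (nat_lit 154)) (PT.nd (nat_lit 78) (PT.lf (nat_lit 21128) (nat_lit 6) (nat_lit 278) (nat_lit 1) (nat_lit 159) (nat_lit 138) (nat_lit 153)) (PT.lf (nat_lit 21052) (nat_lit 6) (nat_lit 277) (nat_lit 1) (nat_lit 160) (nat_lit 138) (nat_lit 152)))) (PT.nd (nat_lit 156) (PT.nd (nat_lit 78) (PT.lf (nat_lit 20976) (nat_lit 6) (nat_lit 276) (nat_lit 1) (nat_lit 161) (nat_lit 138) (nat_lit 151)) (PT.lf (nat_lit 20900) (nat_lit 6) (nat_lit 275) (nat_lit 1) (nat_lit 162) (nat_lit 138) (nat_lit 150))) (PT.nd (nat_lit 78) (PT.lf (nat_lit 19836) (nat_lit 6) (nat_lit 261) (nat_lit 1) (nat_lit 163) (nat_lit 138) (nat_lit 149)) (PT.lf (nat_lit 18696) (nat_lit 6) (nat_lit 246) (nat_lit 1) (nat_lit 164) (nat_lit 138) (nat_lit 148))))) (PT.nd (nat_lit 45474) (PT.nd (nat_lit 78) (PT.lf (nat_lit 17480) (nat_lit 6) (nat_lit 230) (nat_lit 1) (nat_lit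 165) (nat_lit 138) (nat_lit 147)) (PT.nd (nat_lit 45318) (PT.lf (nat_lit 16188) (nat_lit 6) (nat_lit 213) (nat_lit 1) (nat_lit 166) (nat_lit 138) (nat_lit 146)) (PT.lf (nat_lit 17404) (nat_lit 6) (nat_lit 229) (nat_lit 3) (nat_lit 146) (nat_lit 139) (nat_lit 165)))) (PT.nd (nat_lit 156) (PT.nd (nat_lit 78) (PT.lf (nat_lit 18620) (nat_lit 6) (nat_lit 245) (nat_lit 3) (nat_lit 147) (nat_lit 139) (nat_lit 164)) (PT.lf (nat_lit 19760) (nat_lit 6) (nat_lit 260) (nat_lit 3) (nat_lit 148) (nat_lit 139) (nat_lit 163))) (PT.nd (nat_lit 78) (PT.lf (nat_lit 20824) (nat_lit 6) (nat_lit 274) (nat_lit 3) (nat_lit 149) (nat_lit 139) (nat_lit 162)) (PT.lf (nat_lit 21812) (nat_lit 6) (nat_lit 287) (nat_lit 3) (nat_lit 150) (nat_lit 139) (nat_lit 161)))))) (PT.nd (nat_lit 546) (PT.nd (nat_lit 234) (PT.nd (nat_lit 78) (PT.lf (nat_lit 21888) (nat_lit 6) (nat_lit 288) (nat_lit 3) (nat_lit 151) (nat_lit 139) (nat_lit 160))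 (PT.nd (nat_lit 78) (PT.lf (nat_lit 21964) (nat_lit 6) (nat_lit 289) (nat_lit 3) (nat_lit 152) (nat_lit 139) (nat_lit 159)) (PT.lf (nat_lit 22040) (nat_lit 6) (nat_lit 290) (nat_lit 3) (nat_lit 153) (nat_lit 139) (nat_lit 158)))) (PT.nd (nat_lit 156) (PT.nd (nat_lit 78) (PT.lf (nat_lit 22116) (nat_lit 6) (nat_lit 291) (nat_lit 3) (nat_lit 154) (nat_lit 139) (nat_lit 157)) (PT.lf (nat_lit 22192) (nat_lit 6) (nat_lit 292) (nat_lit 3) (nat_lit 155) (nat_lit 139) (nat_lit 156))) (PT.nd (nat_lit 78) (PT.lf (nat_lit 22192) (nat_lit 6) (nat_lit 292) (nat_lit 1) (nat_lit 156) (nat_lit 139) (nat_lit 155)) (PT.lf (nat_lit 22116) (nat_lit 6) (nat_lit 291) (nat_lit 1) (nat_lit 157) (nat_lit 139) (nat_lit 154))))) (PT.nd (nat_lit 312) (PT.nd (nat_lit 156) (PT.nd (nat_lit 78) (PT.lf (nat_lit 22040) (nat_lit 6) (nat_lit 290) (nat_lit 1) (nat_lit 158) (nat_lit 139) (nat_lit 153)) (PT.lf (nat_lit 21964) (nat_lit 6)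 (nat_lit 289) (nat_lit 1) (nat_lit 159) (nat_lit 139) (nat_lit 152))) (PT.nd (nat_lit 78) (PT.lf (nat_lit 21888) (nat_lit 6) (nat_lit 288) (nat_lit 1) (nat_lit 160) (nat_lit 139) (nat_lit 151)) (PT.lf (nat_lit 21812) (nat_lit 6) (nat_lit 287) (nat_lit 1) (nat_lit 161) (nat_lit 139) (nat_lit 150)))) (PT.nd (nat_lit 156) (PT.nd (nat_lit 78) (PT.lf (nat_lit 20824) (nat_lit 6) (nat_lit 274) (nat_lit 1) (nat_lit 162) (nat_lit 139) (nat_lit 149)) (PT.lf (nat_lit 19760) (nat_lit 6) (nat_lit 260) (nat_lit 1) (nat_lit 163) (nat_lit 139) (nat_lit 148))) (PT.nd (nat_lit 78) (PT.lf (nat_lit 18620) (nat_lit 6) (nat_lit 245) (nat_lit 1) (nat_lit 164) (nat_lit 139) (nat_lit 147)) (PT.lf (nat_lit 17404) (nat_lit 6) (nat_lit 229) (nat_lit 1) (nat_lit 165) (nat_lit 139) (nat_lit 146))))))))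
noncomputable def pc8 : PT := (PT.nd (nat_lit 47346) (PT.nd (nat_lit 1092) (PT.nd (nat_lit 546) (PT.nd (nat_lit 234) (PT.nd (nat_lit 78) (PT.lf (nat_lit 17328) (nat_lit 6) (nat_lit 228) (nat_lit 3) (nat_lit 145) (nat_lit 140) (nat_lit 165)) (PT.nd (nat_lit 78) (PT.lf (nat_lit 18544) (nat_lit 6) (nat_lit 244) (nat_lit 3) (nat_lit 146) (nat_lit 140) (nat_lit 164)) (PT.lf (nat_lit 19684) (nat_lit 6) (nat_lit 259) (nat_lit 3) (nat_lit 147) (nat_lit 140) (nat_lit 163)))) (PT.nd (nat_lit 156) (PT.nd (nat_lit 78) (PT.lf (nat_lit 20748) (nat_lit 6) (nat_lit 273) (nat_lit 3) (nat_lit 148) (nat_lit 140) (nat_lit 162)) (PT.lf (nat_lit 21736) (nat_lit 6) (nat_lit 286) (nat_lit 3) (nat_lit 149) (nat_lit 140) (nat_lit 161))) (PT.nd (nat_lit 78) (PT.lf (nat_lit 22648) (nat_lit 6) (nat_lit 298) (nat_lit 3) (nat_lit 150) (nat_lit 140) (nat_lit 160)) (PT.lf (nat_lit 22724) (nat_lit 6) (nat_lit 299) (nat_lit 3) (nat_lit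 151) (nat_lit 140) (nat_lit 159))))) (PT.nd (nat_lit 234) (PT.nd (nat_lit 78) (PT.lf (nat_lit 22800) (nat_lit 6) (nat_lit 300) (nat_lit 3) (nat_lit 152) (nat_lit 140) (nat_lit 158)) (PT.nd (nat_lit 78) (PT.lf (nat_lit 22876) (nat_lit 6) (nat_lit 301) (nat_lit 3) (nat_lit 153) (nat_lit 140) (nat_lit 157)) (PT.lf (nat_lit 22952) (nat_lit 6) (nat_lit 302) (nat_lit 3) (nat_lit 154) (nat_lit 140) (nat_lit 156)))) (PT.nd (nat_lit 156) (PT.nd (nat_lit 78) (PT.lf (nat_lit 23028) (nat_lit 3) (nat_lit 303) (nat_lit 1) (nat_lit 155) (nat_lit 140) (nat_lit 155)) (PT.lf (nat_lit 22952) (nat_lit 6) (nat_lit 302) (nat_lit 1) (nat_lit 156) (nat_lit 140) (nat_lit 154))) (PT.nd (nat_lit 78) (PT.lf (nat_lit 22876) (nat_lit 6) (nat_lit 301) (nat_lit 1) (nat_lit 157) (nat_lit 140) (nat_lit 153)) (PT.lf (nat_lit 22800) (nat_lit 6) (nat_lit 300) (nat_lit 1) (nat_lit 158) (nat_lit 140) (nat_lit 152)))))) (PT.nd (nat_lit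 45708) (PT.nd (nat_lit 234) (PT.nd (nat_lit 78) (PT.lf (nat_lit 22724) (nat_lit 6) (nat_lit 299) (nat_lit 1) (nat_lit 159) (nat_lit 140) (nat_lit 151)) (PT.nd (nat_lit 78) (PT.lf (nat_lit 22648) (nat_lit 6) (nat_lit 298) (nat_lit 1) (nat_lit 160) (nat_lit 140) (nat_lit 150)) (PT.lf (nat_lit 21736) (nat_lit 6) (nat_lit 286) (nat_lit 1) (nat_lit 161) (nat_lit 140) (nat_lit 149)))) (PT.nd (nat_lit 156) (PT.nd (nat_lit 78) (PT.lf (nat_lit 20748) (nat_lit 6) (nat_lit 273) (nat_lit 1) (nat_lit 162) (nat_lit 140) (nat_lit 148)) (PT.lf (nat_lit 19684) (nat_lit 6) (nat_lit 259) (nat_lit 1) (nat_lit 163) (nat_lit 140) (nat_lit 147))) (PT.nd (nat_lit 78) (PT.lf (nat_lit 18544) (nat_lit 6) (nat_lit 244) (nat_lit 1) (nat_lit 164) (nat_lit 140) (nat_lit 146)) (PT.lf (nat_lit 17328) (nat_lit 6) (nat_lit 228) (nat_lit 1) (nat_lit 165) (nat_lit 140) (nat_lit 145))))) (PT.nd (nat_lit 234) (PT.nd (nat_lit 78) (PT.lf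 (nat_lit 17252) (nat_lit 6) (nat_lit 227) (nat_lit 3) (nat_lit 144) (nat_lit 141) (nat_lit 165)) (PT.nd (nat_lit 78) (PT.lf (nat_lit 18468) (nat_lit 6) (nat_lit 243) (nat_lit 3) (nat_lit 145) (nat_lit 141) (nat_lit 164)) (PT.lf (nat_lit 19608) (nat_lit 6) (nat_lit 258) (nat_lit 3) (nat_lit 146) (nat_lit 141) (nat_lit 163)))) (PT.nd (nat_lit 156) (PT.nd (nat_lit 78) (PT.lf (nat_lit 20672) (nat_lit 6) (nat_lit 272) (nat_lit 3) (nat_lit 147) (nat_lit 141) (nat_lit 162)) (PT.lf (nat_lit 21660) (nat_lit 6) (nat_lit 285) (nat_lit 3) (nat_lit 148) (nat_lit 141) (nat_lit 161))) (PT.nd (nat_lit 78) (PT.lf (nat_lit 22572) (nat_lit 6) (nat_lit 297) (nat_lit 3) (nat_lit 149) (nat_lit 141) (nat_lit 160)) (PT.lf (nat_lit 23408) (nat_lit 6) (nat_lit 308) (nat_lit 3) (nat_lit 150) (nat_lit 141) (nat_lit 159))))))) (PT.nd (nat_lit 1092) (PT.nd (nat_lit 546) (PT.nd (nat_lit 234) (PT.nd (nat_lit 78) (PT.lf (nat_lit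 23484) (nat_lit 6) (nat_lit 309) (nat_lit 3) (nat_lit 151) (nat_lit 141) (nat_lit 158)) (PT.nd (nat_lit 78) (PT.lf (nat_lit 23560) (nat_lit 6) (nat_lit 310) (nat_lit 3) (nat_lit 152) (nat_lit 141) (nat_lit 157)) (PT.lf (nat_lit 23636) (nat_lit 6) (nat_lit 311) (nat_lit 3) (nat_lit 153) (nat_lit 141) (nat_lit 156)))) (PT.nd (nat_lit 156) (PT.nd (nat_lit 78) (PT.lf (nat_lit 23712) (nat_lit 6) (nat_lit 312) (nat_lit 3) (nat_lit 154) (nat_lit 141) (nat_lit 155)) (PT.lf (nat_lit 23712) (nat_lit 6) (nat_lit 312) (nat_lit 1) (nat_lit 155) (nat_lit 141) (nat_lit 154))) (PT.nd (nat_lit 78) (PT.lf (nat_lit 23636) (nat_lit 6) (nat_lit 311) (nat_lit 1) (nat_lit 156) (nat_lit 141) (nat_lit 153)) (PT.lf (nat_lit 23560) (nat_lit 6) (nat_lit 310) (nat_lit 1) (nat_lit 157) (nat_lit 141) (nat_lit 152))))) (PT.nd (nat_lit 234) (PT.nd (nat_lit 78) (PT.lf (nat_lit 23484) (nat_lit 6) (nat_lit 309) (nat_lit 1) (nat_lit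 158) (nat_lit 141) (nat_lit 151)) (PT.nd (nat_lit 78) (PT.lf (nat_lit 23408) (nat_lit 6) (nat_lit 308) (nat_lit 1) (nat_lit 159) (nat_lit 141) (nat_lit 150)) (PT.lf (nat_lit 22572) (nat_lit 6) (nat_lit 297) (nat_lit 1) (nat_lit 160) (nat_lit 141) (nat_lit 149)))) (PT.nd (nat_lit 156) (PT.nd (nat_lit 78) (PT.lf (nat_lit 21660) (nat_lit 6) (nat_lit 285) (nat_lit 1) (nat_lit 161) (nat_lit 141) (nat_lit 148)) (PT.lf (nat_lit 20672) (nat_lit 6) (nat_lit 272) (nat_lit 1) (nat_lit 162) (nat_lit 141) (nat_lit 147))) (PT.nd (nat_lit 78) (PT.lf (nat_lit 19608) (nat_lit 6) (nat_lit 258) (nat_lit 1) (nat_lit 163) (nat_lit 141) (nat_lit 146)) (PT.lf (nat_lit 18468) (nat_lit 6) (nat_lit 243) (nat_lit 1) (nat_lit 164) (nat_lit 141) (nat_lit 145)))))) (PT.nd (nat_lit 45630) (PT.nd (nat_lit 45318) (PT.nd (nat_lit 45162) (PT.lf (nat_lit 17252) (nat_lit 6) (nat_lit 227) (nat_lit 1) (nat_lit 165) (nat_lit 141) (nat_lit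 144)) (PT.nd (nat_lit 78) (PT.lf (nat_lit 17176) (nat_lit 6) (nat_lit 226) (nat_lit 3) (nat_lit 143) (nat_lit 142) (nat_lit 165)) (PT.lf (nat_lit 18392) (nat_lit 6) (nat_lit 242) (nat_lit 3) (nat_lit 144) (nat_lit 142) (nat_lit 164)))) (PT.nd (nat_lit 156) (PT.nd (nat_lit 78) (PT.lf (nat_lit 19532) (nat_lit 6) (nat_lit 257) (nat_lit 3) (nat_lit 145) (nat_lit 142) (nat_lit 163)) (PT.lf (nat_lit 20596) (nat_lit 6) (nat_lit 271) (nat_lit 3) (nat_lit 146) (nat_lit 142) (nat_lit 162))) (PT.nd (nat_lit 78) (PT.lf (nat_lit 21584) (nat_lit 6) (nat_lit 284) (nat_lit 3) (nat_lit 147) (nat_lit 142) (nat_lit 161)) (PT.lf (nat_lit 22496) (nat_lit 6) (nat_lit 296) (nat_lit 3) (nat_lit 148) (nat_lit 142) (nat_lit 160))))) (PT.nd (nat_lit 234) (PT.nd (nat_lit 78) (PT.lf (nat_lit 23332) (nat_lit 6) (nat_lit 307) (nat_lit 3) (nat_lit 149) (nat_lit 142) (nat_lit 159)) (PT.nd (nat_lit 78) (PT.lf (nat_lit 24092) (nat_lit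 6) (nat_lit 317) (nat_lit 3) (nat_lit 150) (nat_lit 142) (nat_lit 158)) (PT.lf (nat_lit 24168) (nat_lit 6) (nat_lit 318) (nat_lit 3) (nat_lit 151) (nat_lit 142) (nat_lit 157)))) (PT.nd (nat_lit 156) (PT.nd (nat_lit 78) (PT.lf (nat_lit 24244) (nat_lit 6) (nat_lit 319) (nat_lit 3) (nat_lit 152) (nat_lit 142) (nat_lit 156)) (PT.lf (nat_lit 24320) (nat_lit 6) (nat_lit 320) (nat_lit 3) (nat_lit 153) (nat_lit 142) (nat_lit 155))) (PT.nd (nat_lit 78) (PT.lf (nat_lit 24396) (nat_lit 3) (nat_lit 321) (nat_lit 1) (nat_lit 154) (nat_lit 142) (nat_lit 154)) (PT.lf (nat_lit 24320) (nat_lit 6) (nat_lit 320) (nat_lit 1) (nat_lit 155) (nat_lit 142) (nat_lit 153))))))))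
noncomputable def pc9 : PT := (PT.nd (nat_lit 47190) (PT.nd (nat_lit 46098) (PT.nd (nat_lit 546) (PT.nd (nat_lit 234) (PT.nd (nat_lit 78) (PT.lf (nat_lit 24244) (nat_lit 6) (nat_lit 319) (nat_lit 1) (nat_lit 156) (nat_lit 142) (nat_lit 152)) (PT.nd (nat_lit 78) (PT.lf (nat_lit 24168) (nat_lit 6) (nat_lit 318) (nat_lit 1) (nat_lit 157) (nat_lit 142) (nat_lit 151)) (PT.lf (nat_lit 24092) (nat_lit 6) (nat_lit 317) (nat_lit 1) (nat_lit 158) (nat_lit 142) (nat_lit 150)))) (PT.nd (nat_lit 156) (PT.nd (nat_lit 78) (PT.lf (nat_lit 23332) (nat_lit 6) (nat_lit 307) (nat_lit 1) (nat_lit 159) (nat_lit 142) (nat_lit 149)) (PT.lf (nat_lit 22496) (nat_lit 6) (nat_lit 296) (nat_lit 1) (nat_lit 160) (nat_lit 142) (nat_lit 148))) (PT.nd (nat_lit 78) (PT.lf (nat_lit 21584) (nat_lit 6) (nat_lit 284) (nat_lit 1) (nat_lit 161) (nat_lit 142) (nat_lit 147)) (PT.lf (nat_lit 20596) (nat_lit 6) (nat_lit 271) (nat_lit 1) (nat_lit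 162) (nat_lit 142) (nat_lit 146))))) (PT.nd (nat_lit 45240) (PT.nd (nat_lit 78) (PT.lf (nat_lit 19532) (nat_lit 6) (nat_lit 257) (nat_lit 1) (nat_lit 163) (nat_lit 142) (nat_lit 145)) (PT.nd (nat_lit 78) (PT.lf (nat_lit 18392) (nat_lit 6) (nat_lit 242) (nat_lit 1) (nat_lit 164) (nat_lit 142) (nat_lit 144)) (PT.lf (nat_lit 17176) (nat_lit 6) (nat_lit 226) (nat_lit 1) (nat_lit 165) (nat_lit 142) (nat_lit 143)))) (PT.nd (nat_lit 156) (PT.nd (nat_lit 78) (PT.lf (nat_lit 17176) (nat_lit 6) (nat_lit 226) (nat_lit 5) (nat_lit 142) (nat_lit 143) (nat_lit 165)) (PT.lf (nat_lit 18316) (nat_lit 3) (nat_lit 241) (nat_lit 3) (nat_lit 143) (nat_lit 143) (nat_lit 164))) (PT.nd (nat_lit 78) (PT.lf (nat_lit 19456) (nat_lit 6) (nat_lit 256) (nat_lit 3) (nat_lit 144) (nat_lit 143) (nat_lit 163)) (PT.lf (nat_lit 20520) (nat_lit 6) (nat_lit 270) (nat_lit 3) (nat_lit 145) (nat_lit 143) (nat_lit 162)))))) (PT.nd (nat_lit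 546) (PT.nd (nat_lit 234) (PT.nd (nat_lit 78) (PT.lf (nat_lit 21508) (nat_lit 6) (nat_lit 283) (nat_lit 3) (nat_lit 146) (nat_lit 143) (nat_lit 161)) (PT.nd (nat_lit 78) (PT.lf (nat_lit 22420) (nat_lit 6) (nat_lit 295) (nat_lit 3) (nat_lit 147) (nat_lit 143) (nat_lit 160)) (PT.lf (nat_lit 23256) (nat_lit 6) (nat_lit 306) (nat_lit 3) (nat_lit 148) (nat_lit 143) (nat_lit 159)))) (PT.nd (nat_lit 156) (PT.nd (nat_lit 78) (PT.lf (nat_lit 24016) (nat_lit 6) (nat_lit 316) (nat_lit 3) (nat_lit 149) (nat_lit 143) (nat_lit 158)) (PT.lf (nat_lit 24700) (nat_lit 6) (nat_lit 325) (nat_lit 3) (nat_lit 150) (nat_lit 143) (nat_lit 157))) (PT.nd (nat_lit 78) (PT.lf (nat_lit 24776) (nat_lit 6) (nat_lit 326) (nat_lit 3) (nat_lit 151) (nat_lit 143) (nat_lit 156)) (PT.lf (nat_lit 24852) (nat_lit 6) (nat_lit 327) (nat_lit 3) (nat_lit 152) (nat_lit 143) (nat_lit 155))))) (PT.nd (nat_lit 234) (PT.nd (nat_lit 78) (PT.lf (nat_lit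 24928) (nat_lit 6) (nat_lit 328) (nat_lit 3) (nat_lit 153) (nat_lit 143) (nat_lit 154)) (PT.nd (nat_lit 78) (PT.lf (nat_lit 24928) (nat_lit 6) (nat_lit 328) (nat_lit 1) (nat_lit 154) (nat_lit 143) (nat_lit 153)) (PT.lf (nat_lit 24852) (nat_lit 6) (nat_lit 327) (nat_lit 1) (nat_lit 155) (nat_lit 143) (nat_lit 152)))) (PT.nd (nat_lit 156) (PT.nd (nat_lit 78) (PT.lf (nat_lit 24776) (nat_lit 6) (nat_lit 326) (nat_lit 1) (nat_lit 156) (nat_lit 143) (nat_lit 151)) (PT.lf (nat_lit 24700) (nat_lit 6) (nat_lit 325) (nat_lit 1) (nat_lit 157) (nat_lit 143) (nat_lit 150))) (PT.nd (nat_lit 78) (PT.lf (nat_lit 24016) (nat_lit 6) (nat_lit 316) (nat_lit 1) (nat_lit 158) (nat_lit 143) (nat_lit 149)) (PT.lf (nat_lit 23256) (nat_lit 6) (nat_lit 306) (nat_lit 1) (nat_lit 159) (nat_lit 143) (nat_lit 148))))))) (PT.nd (nat_lit 46020) (PT.nd (nat_lit 45474) (PT.nd (nat_lit 234) (PT.nd (nat_lit 78) (PT.lf (nat_lit 22420)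 (nat_lit 6) (nat_lit 295) (nat_lit 1) (nat_lit 160) (nat_lit 143) (nat_lit 147)) (PT.nd (nat_lit 78) (PT.lf (nat_lit 21508) (nat_lit 6) (nat_lit 283) (nat_lit 1) (nat_lit 161) (nat_lit 143) (nat_lit 146)) (PT.lf (nat_lit 20520) (nat_lit 6) (nat_lit 270) (nat_lit 1) (nat_lit 162) (nat_lit 143) (nat_lit 145)))) (PT.nd (nat_lit 156) (PT.nd (nat_lit 78) (PT.lf (nat_lit 19456) (nat_lit 6) (nat_lit 256) (nat_lit 1) (nat_lit 163) (nat_lit 143) (nat_lit 144)) (PT.lf (nat_lit 18316) (nat_lit 3) (nat_lit 241) (nat_lit 0) (nat_lit 164) (nat_lit 143) (nat_lit 143))) (PT.nd (nat_lit 45006) (PT.lf (nat_lit 17176) (nat_lit 6) (nat_lit 226) (nat_lit 0) (nat_lit 165) (nat_lit 143) (nat_lit 142)) (PT.lf (nat_lit 17252) (nat_lit 6) (nat_lit 227) (nat_lit 5) (nat_lit 141) (nat_lit 144) (nat_lit 165))))) (PT.nd (nat_lit 234) (PT.nd (nat_lit 78) (PT.lf (nat_lit 18392) (nat_lit 6) (nat_lit 242) (nat_lit 5) (nat_lit 142)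 (nat_lit 144) (nat_lit 164)) (PT.nd (nat_lit 78) (PT.lf (nat_lit 19456) (nat_lit 6) (nat_lit 256) (nat_lit 5) (nat_lit 143) (nat_lit 144) (nat_lit 163)) (PT.lf (nat_lit 20444) (nat_lit 3) (nat_lit 269) (nat_lit 3) (nat_lit 144) (nat_lit 144) (nat_lit 162)))) (PT.nd (nat_lit 156) (PT.nd (nat_lit 78) (PT.lf (nat_lit 21432) (nat_lit 6) (nat_lit 282) (nat_lit 3) (nat_lit 145) (nat_lit 144) (nat_lit 161)) (PT.lf (nat_lit 22344) (nat_lit 6) (nat_lit 294) (nat_lit 3) (nat_lit 146) (nat_lit 144) (nat_lit 160))) (PT.nd (nat_lit 78) (PT.lf (nat_lit 23180) (nat_lit 6) (nat_lit 305) (nat_lit 3) (nat_lit 147) (nat_lit 144) (nat_lit 159)) (PT.lf (nat_lit 23940) (nat_lit 6) (nat_lit 315) (nat_lit 3) (nat_lit 148) (nat_lit 144) (nat_lit 158)))))) (PT.nd (nat_lit 546) (PT.nd (nat_lit 234) (PT.nd (nat_lit 78) (PT.lf (nat_lit 24624) (nat_lit 6) (nat_lit 324) (nat_lit 3) (nat_lit 149) (nat_lit 144) (nat_lit 157)) (PT.nd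 (nat_lit 78) (PT.lf (nat_lit 25232) (nat_lit 6) (nat_lit 332) (nat_lit 3) (nat_lit 150) (nat_lit 144) (nat_lit 156)) (PT.lf (nat_lit 25308) (nat_lit 6) (nat_lit 333) (nat_lit 3) (nat_lit 151) (nat_lit 144) (nat_lit 155)))) (PT.nd (nat_lit 156) (PT.nd (nat_lit 78) (PT.lf (nat_lit 25384) (nat_lit 6) (nat_lit 334) (nat_lit 3) (nat_lit 152) (nat_lit 144) (nat_lit 154)) (PT.lf (nat_lit 25460) (nat_lit 3) (nat_lit 335) (nat_lit 1) (nat_lit 153) (nat_lit 144) (nat_lit 153))) (PT.nd (nat_lit 78) (PT.lf (nat_lit 25384) (nat_lit 6) (nat_lit 334) (nat_lit 1) (nat_lit 154) (nat_lit 144) (nat_lit 152)) (PT.lf (nat_lit 25308) (nat_lit 6) (nat_lit 333) (nat_lit 1) (nat_lit 155) (nat_lit 144) (nat_lit 151))))) (PT.nd (nat_lit 234) (PT.nd (nat_lit 78) (PT.lf (nat_lit 25232) (nat_lit 6) (nat_lit 332) (nat_lit 1) (nat_lit 156) (nat_lit 144) (nat_lit 150)) (PT.nd (nat_lit 78) (PT.lf (nat_lit 24624) (nat_lit 6) (nat_lit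 324) (nat_lit 1) (nat_lit 157) (nat_lit 144) (nat_lit 149)) (PT.lf (nat_lit 23940) (nat_lit 6) (nat_lit 315) (nat_lit 1) (nat_lit 158) (nat_lit 144) (nat_lit 148)))) (PT.nd (nat_lit 156) (PT.nd (nat_lit 78) (PT.lf (nat_lit 23180) (nat_lit 6) (nat_lit 305) (nat_lit 1) (nat_lit 159) (nat_lit 144) (nat_lit 147)) (PT.lf (nat_lit 22344) (nat_lit 6) (nat_lit 294) (nat_lit 1) (nat_lit 160) (nat_lit 144) (nat_lit 146))) (PT.nd (nat_lit 78) (PT.lf (nat_lit 21432) (nat_lit 6) (nat_lit 282) (nat_lit 1) (nat_lit 161) (nat_lit 144) (nat_lit 145)) (PT.lf (nat_lit 20444) (nat_lit 3) (nat_lit 269) (nat_lit 0) (nat_lit 162) (nat_lit 144) (nat_lit 144))))))))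
noncomputable def pc10 : PT := (PT.nd (nat_lit 47034) (PT.nd (nat_lit 45942) (PT.nd (nat_lit 45396) (PT.nd (nat_lit 45084) (PT.nd (nat_lit 78) (PT.lf (nat_lit 19456) (nat_lit 6) (nat_lit 256) (nat_lit 0) (nat_lit 163) (nat_lit 144) (nat_lit 143)) (PT.nd (nat_lit 78) (PT.lf (nat_lit 18392) (nat_lit 6) (nat_lit 242) (nat_lit 0) (nat_lit 164) (nat_lit 144) (nat_lit 142)) (PT.lf (nat_lit 17252) (nat_lit 6) (nat_lit 227) (nat_lit 0) (nat_lit 165) (nat_lit 144) (nat_lit 141)))) (PT.nd (nat_lit 156) (PT.nd (nat_lit 78) (PT.lf (nat_lit 17328) (nat_lit 6) (nat_lit 228) (nat_lit 5) (nat_lit 140) (nat_lit 145) (nat_lit 165)) (PT.lf (nat_lit 18468) (nat_lit 6) (nat_lit 243) (nat_lit 5) (nat_lit 141) (nat_lit 145) (nat_lit 164))) (PT.nd (nat_lit 78) (PT.lf (nat_lit 19532) (nat_lit 6) (nat_lit 257) (nat_lit 5) (nat_lit 142) (nat_lit 145) (nat_lit 163)) (PT.lf (nat_lit 20520) (nat_lit 6) (nat_lit 270) (nat_lit 5)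 (nat_lit 143) (nat_lit 145) (nat_lit 162))))) (PT.nd (nat_lit 234) (PT.nd (nat_lit 78) (PT.lf (nat_lit 21432) (nat_lit 6) (nat_lit 282) (nat_lit 5) (nat_lit 144) (nat_lit 145) (nat_lit 161)) (PT.nd (nat_lit 78) (PT.lf (nat_lit 22268) (nat_lit 3) (nat_lit 293) (nat_lit 3) (nat_lit 145) (nat_lit 145) (nat_lit 160)) (PT.lf (nat_lit 23104) (nat_lit 6) (nat_lit 304) (nat_lit 3) (nat_lit 146) (nat_lit 145) (nat_lit 159)))) (PT.nd (nat_lit 156) (PT.nd (nat_lit 78) (PT.lf (nat_lit 23864) (nat_lit 6) (nat_lit 314) (nat_lit 3) (nat_lit 147) (nat_lit 145) (nat_lit 158)) (PT.lf (nat_lit 24548) (nat_lit 6) (nat_lit 323) (nat_lit 3) (nat_lit 148) (nat_lit 145) (nat_lit 157))) (PT.nd (nat_lit 78) (PT.lf (nat_lit 25156) (nat_lit 6) (nat_lit 331) (nat_lit 3) (nat_lit 149) (nat_lit 145) (nat_lit 156)) (PT.lf (nat_lit 25688) (nat_lit 6) (nat_lit 338) (nat_lit 3) (nat_lit 150) (nat_lit 145) (nat_lit 155)))))) (PT.nd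 (nat_lit 546) (PT.nd (nat_lit 234) (PT.nd (nat_lit 78) (PT.lf (nat_lit 25764) (nat_lit 6) (nat_lit 339) (nat_lit 3) (nat_lit 151) (nat_lit 145) (nat_lit 154)) (PT.nd (nat_lit 78) (PT.lf (nat_lit 25840) (nat_lit 6) (nat_lit 340) (nat_lit 3) (nat_lit 152) (nat_lit 145) (nat_lit 153)) (PT.lf (nat_lit 25840) (nat_lit 6) (nat_lit 340) (nat_lit 1) (nat_lit 153) (nat_lit 145) (nat_lit 152)))) (PT.nd (nat_lit 156) (PT.nd (nat_lit 78) (PT.lf (nat_lit 25764) (nat_lit 6) (nat_lit 339) (nat_lit 1) (nat_lit 154) (nat_lit 145) (nat_lit 151)) (PT.lf (nat_lit 25688) (nat_lit 6) (nat_lit 338) (nat_lit 1) (nat_lit 155) (nat_lit 145) (nat_lit 150))) (PT.nd (nat_lit 78) (PT.lf (nat_lit 25156) (nat_lit 6) (nat_lit 331) (nat_lit 1) (nat_lit 156) (nat_lit 145) (nat_lit 149)) (PT.lf (nat_lit 24548) (nat_lit 6) (nat_lit 323) (nat_lit 1) (nat_lit 157) (nat_lit 145) (nat_lit 148))))) (PT.nd (nat_lit 234) (PT.nd (nat_lit 78)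 (PT.lf (nat_lit 23864) (nat_lit 6) (nat_lit 314) (nat_lit 1) (nat_lit 158) (nat_lit 145) (nat_lit 147)) (PT.nd (nat_lit 78) (PT.lf (nat_lit 23104) (nat_lit 6) (nat_lit 304) (nat_lit 1) (nat_lit 159) (nat_lit 145) (nat_lit 146)) (PT.lf (nat_lit 22268) (nat_lit 3) (nat_lit 293) (nat_lit 0) (nat_lit 160) (nat_lit 145) (nat_lit 145)))) (PT.nd (nat_lit 156) (PT.nd (nat_lit 78) (PT.lf (nat_lit 21432) (nat_lit 6) (nat_lit 282) (nat_lit 0) (nat_lit 161) (nat_lit 145) (nat_lit 144)) (PT.lf (nat_lit 20520) (nat_lit 6) (nat_lit 270) (nat_lit 0) (nat_lit 162) (nat_lit 145) (nat_lit 143))) (PT.nd (nat_lit 78) (PT.lf (nat_lit 19532) (nat_lit 6) (nat_lit 257) (nat_lit 0) (nat_lit 163) (nat_lit 145) (nat_lit 142)) (PT.lf (nat_lit 18468) (nat_lit 6) (nat_lit 243) (nat_lit 0) (nat_lit 164) (nat_lit 145) (nat_lit 141))))))) (PT.nd (nat_lit 45786) (PT.nd (nat_lit 45240) (PT.nd (nat_lit 44928) (PT.nd (nat_lit 44772) (PT.lf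 (nat_lit 17328) (nat_lit 6) (nat_lit 228) (nat_lit 0) (nat_lit 165) (nat_lit 145) (nat_lit 140)) (PT.nd (nat_lit 78) (PT.lf (nat_lit 16188) (nat_lit 6) (nat_lit 213) (nat_lit 5) (nat_lit 138) (nat_lit 146) (nat_lit 166)) (PT.lf (nat_lit 17404) (nat_lit 6) (nat_lit 229) (nat_lit 5) (nat_lit 139) (nat_lit 146) (nat_lit 165)))) (PT.nd (nat_lit 156) (PT.nd (nat_lit 78) (PT.lf (nat_lit 18544) (nat_lit 6) (nat_lit 244) (nat_lit 5) (nat_lit 140) (nat_lit 146) (nat_lit 164)) (PT.lf (nat_lit 19608) (nat_lit 6) (nat_lit 258) (nat_lit 5) (nat_lit 141) (nat_lit 146) (nat_lit 163))) (PT.nd (nat_lit 78) (PT.lf (nat_lit 20596) (nat_lit 6) (nat_lit 271) (nat_lit 5) (nat_lit 142) (nat_lit 146) (nat_lit 162)) (PT.lf (nat_lit 21508) (nat_lit 6) (nat_lit 283) (nat_lit 5) (nat_lit 143) (nat_lit 146) (nat_lit 161))))) (PT.nd (nat_lit 234) (PT.nd (nat_lit 78) (PT.lf (nat_lit 22344) (nat_lit 6) (nat_lit 294) (nat_lit 5)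 (nat_lit 144) (nat_lit 146) (nat_lit 160)) (PT.nd (nat_lit 78) (PT.lf (nat_lit 23104) (nat_lit 6) (nat_lit 304) (nat_lit 5) (nat_lit 145) (nat_lit 146) (nat_lit 159)) (PT.lf (nat_lit 23788) (nat_lit 3) (nat_lit 313) (nat_lit 3) (nat_lit 146) (nat_lit 146) (nat_lit 158)))) (PT.nd (nat_lit 156) (PT.nd (nat_lit 78) (PT.lf (nat_lit 24472) (nat_lit 6) (nat_lit 322) (nat_lit 3) (nat_lit 147) (nat_lit 146) (nat_lit 157)) (PT.lf (nat_lit 25080) (nat_lit 6) (nat_lit 330) (nat_lit 3) (nat_lit 148) (nat_lit 146) (nat_lit 156))) (PT.nd (nat_lit 78) (PT.lf (nat_lit 25612) (nat_lit 6) (nat_lit 337) (nat_lit 3) (nat_lit 149) (nat_lit 146) (nat_lit 155)) (PT.lf (nat_lit 26068) (nat_lit 6) (nat_lit 343) (nat_lit 3) (nat_lit 150) (nat_lit 146) (nat_lit 154)))))) (PT.nd (nat_lit 546) (PT.nd (nat_lit 234) (PT.nd (nat_lit 78) (PT.lf (nat_lit 26144) (nat_lit 6) (nat_lit 344) (nat_lit 3) (nat_lit 151) (nat_lit 146) (nat_lit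 153)) (PT.nd (nat_lit 78) (PT.lf (nat_lit 26220) (nat_lit 3) (nat_lit 345) (nat_lit 1) (nat_lit 152) (nat_lit 146) (nat_lit 152)) (PT.lf (nat_lit 26144) (nat_lit 6) (nat_lit 344) (nat_lit 1) (nat_lit 153) (nat_lit 146) (nat_lit 151)))) (PT.nd (nat_lit 156) (PT.nd (nat_lit 78) (PT.lf (nat_lit 26068) (nat_lit 6) (nat_lit 343) (nat_lit 1) (nat_lit 154) (nat_lit 146) (nat_lit 150)) (PT.lf (nat_lit 25612) (nat_lit 6) (nat_lit 337) (nat_lit 1) (nat_lit 155) (nat_lit 146) (nat_lit 149))) (PT.nd (nat_lit 78) (PT.lf (nat_lit 25080) (nat_lit 6) (nat_lit 330) (nat_lit 1) (nat_lit 156) (nat_lit 146) (nat_lit 148)) (PT.lf (nat_lit 24472) (nat_lit 6) (nat_lit 322) (nat_lit 1) (nat_lit 157) (nat_lit 146) (nat_lit 147))))) (PT.nd (nat_lit 234) (PT.nd (nat_lit 78) (PT.lf (nat_lit 23788) (nat_lit 3) (nat_lit 313) (nat_lit 0) (nat_lit 158) (nat_lit 146) (nat_lit 146)) (PT.nd (nat_lit 78) (PT.lf (nat_lit 23104) (nat_lit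 6) (nat_lit 304) (nat_lit 0) (nat_lit 159) (nat_lit 146) (nat_lit 145)) (PT.lf (nat_lit 22344) (nat_lit 6) (nat_lit 294) (nat_lit 0) (nat_lit 160) (nat_lit 146) (nat_lit 144)))) (PT.nd (nat_lit 156) (PT.nd (nat_lit 78) (PT.lf (nat_lit 21508) (nat_lit 6) (nat_lit 283) (nat_lit 0) (nat_lit 161) (nat_lit 146) (nat_lit 143)) (PT.lf (nat_lit 20596) (nat_lit 6) (nat_lit 271) (nat_lit 0) (nat_lit 162) (nat_lit 146) (nat_lit 142))) (PT.nd (nat_lit 78) (PT.lf (nat_lit 19608) (nat_lit 6) (nat_lit 258) (nat_lit 0) (nat_lit 163) (nat_lit 146) (nat_lit 141)) (PT.lf (nat_lit 18544) (nat_lit 6) (nat_lit 244) (nat_lit 0) (nat_lit 164) (nat_lit 146) (nat_lit 140))))))))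
noncomputable def pc11 : PT := (PT.nd (nat_lit 46722) (PT.nd (nat_lit 45630) (PT.nd (nat_lit 45084) (PT.nd (nat_lit 44772) (PT.nd (nat_lit 78) (PT.lf (nat_lit 17404) (nat_lit 6) (nat_lit 229) (nat_lit 0) (nat_lit 165) (nat_lit 146) (nat_lit 139)) (PT.nd (nat_lit 44616) (PT.lf (nat_lit 16188) (nat_lit 6) (nat_lit 213) (nat_lit 0) (nat_lit 166) (nat_lit 146) (nat_lit 138)) (PT.lf (nat_lit 16264) (nat_lit 6) (nat_lit 214) (nat_lit 5) (nat_lit 137) (nat_lit 147) (nat_lit 166)))) (PT.nd (nat_lit 156) (PT.nd (nat_lit 78) (PT.lf (nat_lit 17480) (nat_lit 6) (nat_lit 230) (nat_lit 5) (nat_lit 138) (nat_lit 147) (nat_lit 165)) (PT.lf (nat_lit 18620) (nat_lit 6) (nat_lit 245) (nat_lit 5) (nat_lit 139) (nat_lit 147) (nat_lit 164))) (PT.nd (nat_lit 78) (PT.lf (nat_lit 19684) (nat_lit 6) (nat_lit 259) (nat_lit 5) (nat_lit 140) (nat_lit 147) (nat_lit 163)) (PT.lf (nat_lit 20672) (nat_lit 6) (nat_lit 272) (nat_lit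 5) (nat_lit 141) (nat_lit 147) (nat_lit 162))))) (PT.nd (nat_lit 234) (PT.nd (nat_lit 78) (PT.lf (nat_lit 21584) (nat_lit 6) (nat_lit 284) (nat_lit 5) (nat_lit 142) (nat_lit 147) (nat_lit 161)) (PT.nd (nat_lit 78) (PT.lf (nat_lit 22420) (nat_lit 6) (nat_lit 295) (nat_lit 5) (nat_lit 143) (nat_lit 147) (nat_lit 160)) (PT.lf (nat_lit 23180) (nat_lit 6) (nat_lit 305) (nat_lit 5) (nat_lit 144) (nat_lit 147) (nat_lit 159)))) (PT.nd (nat_lit 156) (PT.nd (nat_lit 78) (PT.lf (nat_lit 23864) (nat_lit 6) (nat_lit 314) (nat_lit 5) (nat_lit 145) (nat_lit 147) (nat_lit 158)) (PT.lf (nat_lit 24472) (nat_lit 6) (nat_lit 322) (nat_lit 5) (nat_lit 146) (nat_lit 147) (nat_lit 157))) (PT.nd (nat_lit 78) (PT.lf (nat_lit 25004) (nat_lit 3) (nat_lit 329) (nat_lit 3) (nat_lit 147) (nat_lit 147) (nat_lit 156)) (PT.lf (nat_lit 25536) (nat_lit 6) (nat_lit 336) (nat_lit 3) (nat_lit 148) (nat_lit 147) (nat_lit 155)))))) (PT.nd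 (nat_lit 546) (PT.nd (nat_lit 234) (PT.nd (nat_lit 78) (PT.lf (nat_lit 25992) (nat_lit 6) (nat_lit 342) (nat_lit 3) (nat_lit 149) (nat_lit 147) (nat_lit 154)) (PT.nd (nat_lit 78) (PT.lf (nat_lit 26372) (nat_lit 6) (nat_lit 347) (nat_lit 3) (nat_lit 150) (nat_lit 147) (nat_lit 153)) (PT.lf (nat_lit 26448) (nat_lit 6) (nat_lit 348) (nat_lit 3) (nat_lit 151) (nat_lit 147) (nat_lit 152)))) (PT.nd (nat_lit 156) (PT.nd (nat_lit 78) (PT.lf (nat_lit 26448) (nat_lit 6) (nat_lit 348) (nat_lit 1) (nat_lit 152) (nat_lit 147) (nat_lit 151)) (PT.lf (nat_lit 26372) (nat_lit 6) (nat_lit 347) (nat_lit 1) (nat_lit 153) (nat_lit 147) (nat_lit 150))) (PT.nd (nat_lit 78) (PT.lf (nat_lit 25992) (nat_lit 6) (nat_lit 342) (nat_lit 1) (nat_lit 154) (nat_lit 147) (nat_lit 149)) (PT.lf (nat_lit 25536) (nat_lit 6) (nat_lit 336) (nat_lit 1) (nat_lit 155) (nat_lit 147) (nat_lit 148))))) (PT.nd (nat_lit 234) (PT.nd (nat_lit 78)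 (PT.lf (nat_lit 25004) (nat_lit 3) (nat_lit 329) (nat_lit 0) (nat_lit 156) (nat_lit 147) (nat_lit 147)) (PT.nd (nat_lit 78) (PT.lf (nat_lit 24472) (nat_lit 6) (nat_lit 322) (nat_lit 0) (nat_lit 157) (nat_lit 147) (nat_lit 146)) (PT.lf (nat_lit 23864) (nat_lit 6) (nat_lit 314) (nat_lit 0) (nat_lit 158) (nat_lit 147) (nat_lit 145)))) (PT.nd (nat_lit 156) (PT.nd (nat_lit 78) (PT.lf (nat_lit 23180) (nat_lit 6) (nat_lit 305) (nat_lit 0) (nat_lit 159) (nat_lit 147) (nat_lit 144)) (PT.lf (nat_lit 22420) (nat_lit 6) (nat_lit 295) (nat_lit 0) (nat_lit 160) (nat_lit 147) (nat_lit 143))) (PT.nd (nat_lit 78) (PT.lf (nat_lit 21584) (nat_lit 6) (nat_lit 284) (nat_lit 0) (nat_lit 161) (nat_lit 147) (nat_lit 142)) (PT.lf (nat_lit 20672) (nat_lit 6) (nat_lit 272) (nat_lit 0) (nat_lit 162) (nat_lit 147) (nat_lit 141))))))) (PT.nd (nat_lit 45552) (PT.nd (nat_lit 45006) (PT.nd (nat_lit 234) (PT.nd (nat_lit 78) (PT.lf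 (nat_lit 19684) (nat_lit 6) (nat_lit 259) (nat_lit 0) (nat_lit 163) (nat_lit 147) (nat_lit 140)) (PT.nd (nat_lit 78) (PT.lf (nat_lit 18620) (nat_lit 6) (nat_lit 245) (nat_lit 0) (nat_lit 164) (nat_lit 147) (nat_lit 139)) (PT.lf (nat_lit 17480) (nat_lit 6) (nat_lit 230) (nat_lit 0) (nat_lit 165) (nat_lit 147) (nat_lit 138)))) (PT.nd (nat_lit 44616) (PT.nd (nat_lit 44538) (PT.lf (nat_lit 16264) (nat_lit 6) (nat_lit 214) (nat_lit 0) (nat_lit 166) (nat_lit 147) (nat_lit 137)) (PT.lf (nat_lit 16340) (nat_lit 6) (nat_lit 215) (nat_lit 5) (nat_lit 136) (nat_lit 148) (nat_lit 166))) (PT.nd (nat_lit 78) (PT.lf (nat_lit 17556) (nat_lit 6) (nat_lit 231) (nat_lit 5) (nat_lit 137) (nat_lit 148) (nat_lit 165)) (PT.lf (nat_lit 18696) (nat_lit 6) (nat_lit 246) (nat_lit 5) (nat_lit 138) (nat_lit 148) (nat_lit 164))))) (PT.nd (nat_lit 234) (PT.nd (nat_lit 78) (PT.lf (nat_lit 19760) (nat_lit 6) (nat_lit 260) (nat_lit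 5) (nat_lit 139) (nat_lit 148) (nat_lit 163)) (PT.nd (nat_lit 78) (PT.lf (nat_lit 20748) (nat_lit 6) (nat_lit 273) (nat_lit 5) (nat_lit 140) (nat_lit 148) (nat_lit 162)) (PT.lf (nat_lit 21660) (nat_lit 6) (nat_lit 285) (nat_lit 5) (nat_lit 141) (nat_lit 148) (nat_lit 161)))) (PT.nd (nat_lit 156) (PT.nd (nat_lit 78) (PT.lf (nat_lit 22496) (nat_lit 6) (nat_lit 296) (nat_lit 5) (nat_lit 142) (nat_lit 148) (nat_lit 160)) (PT.lf (nat_lit 23256) (nat_lit 6) (nat_lit 306) (nat_lit 5) (nat_lit 143) (nat_lit 148) (nat_lit 159))) (PT.nd (nat_lit 78) (PT.lf (nat_lit 23940) (nat_lit 6) (nat_lit 315) (nat_lit 5) (nat_lit 144) (nat_lit 148) (nat_lit 158)) (PT.lf (nat_lit 24548) (nat_lit 6) (nat_lit 323) (nat_lit 5) (nat_lit 145) (nat_lit 148) (nat_lit 157)))))) (PT.nd (nat_lit 546) (PT.nd (nat_lit 234) (PT.nd (nat_lit 78) (PT.lf (nat_lit 25080) (nat_lit 6) (nat_lit 330) (nat_lit 5) (nat_lit 146) (nat_lit 148) (nat_lit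 156)) (PT.nd (nat_lit 78) (PT.lf (nat_lit 25536) (nat_lit 6) (nat_lit 336) (nat_lit 5) (nat_lit 147) (nat_lit 148) (nat_lit 155)) (PT.lf (nat_lit 25916) (nat_lit 3) (nat_lit 341) (nat_lit 3) (nat_lit 148) (nat_lit 148) (nat_lit 154)))) (PT.nd (nat_lit 156) (PT.nd (nat_lit 78) (PT.lf (nat_lit 26296) (nat_lit 6) (nat_lit 346) (nat_lit 3) (nat_lit 149) (nat_lit 148) (nat_lit 153)) (PT.lf (nat_lit 26600) (nat_lit 6) (nat_lit 350) (nat_lit 3) (nat_lit 150) (nat_lit 148) (nat_lit 152))) (PT.nd (nat_lit 78) (PT.lf (nat_lit 26676) (nat_lit 3) (nat_lit 351) (nat_lit 1) (nat_lit 151) (nat_lit 148) (nat_lit 151)) (PT.lf (nat_lit 26600) (nat_lit 6) (nat_lit 350) (nat_lit 1) (nat_lit 152) (nat_lit 148) (nat_lit 150))))) (PT.nd (nat_lit 312) (PT.nd (nat_lit 156) (PT.nd (nat_lit 78) (PT.lf (nat_lit 26296) (nat_lit 6) (nat_lit 346) (nat_lit 1) (nat_lit 153) (nat_lit 148) (nat_lit 149)) (PT.lf (nat_lit 25916) (nat_lit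 3) (nat_lit 341) (nat_lit 0) (nat_lit 154) (nat_lit 148) (nat_lit 148))) (PT.nd (nat_lit 78) (PT.lf (nat_lit 25536) (nat_lit 6) (nat_lit 336) (nat_lit 0) (nat_lit 155) (nat_lit 148) (nat_lit 147)) (PT.lf (nat_lit 25080) (nat_lit 6) (nat_lit 330) (nat_lit 0) (nat_lit 156) (nat_lit 148) (nat_lit 146)))) (PT.nd (nat_lit 156) (PT.nd (nat_lit 78) (PT.lf (nat_lit 24548) (nat_lit 6) (nat_lit 323) (nat_lit 0) (nat_lit 157) (nat_lit 148) (nat_lit 145)) (PT.lf (nat_lit 23940) (nat_lit 6) (nat_lit 315) (nat_lit 0) (nat_lit 158) (nat_lit 148) (nat_lit 144))) (PT.nd (nat_lit 78) (PT.lf (nat_lit 23256) (nat_lit 6) (nat_lit 306) (nat_lit 0) (nat_lit 159) (nat_lit 148) (nat_lit 143)) (PT.lf (nat_lit 22496) (nat_lit 6) (nat_lit 296) (nat_lit 0) (nat_lit 160) (nat_lit 148) (nat_lit 142))))))))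
noncomputable def pc12 : PT := (PT.nd (nat_lit 46566) (PT.nd (nat_lit 45474) (PT.nd (nat_lit 44928) (PT.nd (nat_lit 234) (PT.nd (nat_lit 78) (PT.lf (nat_lit 21660) (nat_lit 6) (nat_lit 285) (nat_lit 0) (nat_lit 161) (nat_lit 148) (nat_lit 141)) (PT.nd (nat_lit 78) (PT.lf (nat_lit 20748) (nat_lit 6) (nat_lit 273) (nat_lit 0) (nat_lit 162) (nat_lit 148) (nat_lit 140)) (PT.lf (nat_lit 19760) (nat_lit 6) (nat_lit 260) (nat_lit 0) (nat_lit 163) (nat_lit 148) (nat_lit 139)))) (PT.nd (nat_lit 156) (PT.nd (nat_lit 78) (PT.lf (nat_lit 18696) (nat_lit 6) (nat_lit 246) (nat_lit 0) (nat_lit 164) (nat_lit 148) (nat_lit 138)) (PT.lf (nat_lit 17556) (nat_lit 6) (nat_lit 231) (nat_lit 0) (nat_lit 165) (nat_lit 148) (nat_lit 137))) (PT.nd (nat_lit 44460) (PT.lf (nat_lit 16340) (nat_lit 6) (nat_lit 215) (nat_lit 0) (nat_lit 166) (nat_lit 148) (nat_lit 136)) (PT.lf (nat_lit 16416) (nat_lit 6) (nat_lit 216) (nat_lit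 5) (nat_lit 135) (nat_lit 149) (nat_lit 166))))) (PT.nd (nat_lit 234) (PT.nd (nat_lit 78) (PT.lf (nat_lit 17632) (nat_lit 6) (nat_lit 232) (nat_lit 5) (nat_lit 136) (nat_lit 149) (nat_lit 165)) (PT.nd (nat_lit 78) (PT.lf (nat_lit 18772) (nat_lit 6) (nat_lit 247) (nat_lit 5) (nat_lit 137) (nat_lit 149) (nat_lit 164)) (PT.lf (nat_lit 19836) (nat_lit 6) (nat_lit 261) (nat_lit 5) (nat_lit 138) (nat_lit 149) (nat_lit 163)))) (PT.nd (nat_lit 156) (PT.nd (nat_lit 78) (PT.lf (nat_lit 20824) (nat_lit 6) (nat_lit 274) (nat_lit 5) (nat_lit 139) (nat_lit 149) (nat_lit 162)) (PT.lf (nat_lit 21736) (nat_lit 6) (nat_lit 286) (nat_lit 5) (nat_lit 140) (nat_lit 149) (nat_lit 161))) (PT.nd (nat_lit 78) (PT.lf (nat_lit 22572) (nat_lit 6) (nat_lit 297) (nat_lit 5) (nat_lit 141) (nat_lit 149) (nat_lit 160)) (PT.lf (nat_lit 23332) (nat_lit 6) (nat_lit 307) (nat_lit 5) (nat_lit 142) (nat_lit 149) (nat_lit 159)))))) (PT.nd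 (nat_lit 546) (PT.nd (nat_lit 234) (PT.nd (nat_lit 78) (PT.lf (nat_lit 24016) (nat_lit 6) (nat_lit 316) (nat_lit 5) (nat_lit 143) (nat_lit 149) (nat_lit 158)) (PT.nd (nat_lit 78) (PT.lf (nat_lit 24624) (nat_lit 6) (nat_lit 324) (nat_lit 5) (nat_lit 144) (nat_lit 149) (nat_lit 157)) (PT.lf (nat_lit 25156) (nat_lit 6) (nat_lit 331) (nat_lit 5) (nat_lit 145) (nat_lit 149) (nat_lit 156)))) (PT.nd (nat_lit 156) (PT.nd (nat_lit 78) (PT.lf (nat_lit 25612) (nat_lit 6) (nat_lit 337) (nat_lit 5) (nat_lit 146) (nat_lit 149) (nat_lit 155)) (PT.lf (nat_lit 25992) (nat_lit 6) (nat_lit 342) (nat_lit 5) (nat_lit 147) (nat_lit 149) (nat_lit 154))) (PT.nd (nat_lit 78) (PT.lf (nat_lit 26296) (nat_lit 6) (nat_lit 346) (nat_lit 5) (nat_lit 148) (nat_lit 149) (nat_lit 153)) (PT.lf (nat_lit 26524) (nat_lit 3) (nat_lit 349) (nat_lit 3) (nat_lit 149) (nat_lit 149) (nat_lit 152))))) (PT.nd (nat_lit 234) (PT.nd (nat_lit 78)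 (PT.lf (nat_lit 26752) (nat_lit 6) (nat_lit 352) (nat_lit 3) (nat_lit 150) (nat_lit 149) (nat_lit 151)) (PT.nd (nat_lit 78) (PT.lf (nat_lit 26752) (nat_lit 6) (nat_lit 352) (nat_lit 1) (nat_lit 151) (nat_lit 149) (nat_lit 150)) (PT.lf (nat_lit 26524) (nat_lit 3) (nat_lit 349) (nat_lit 0) (nat_lit 152) (nat_lit 149) (nat_lit 149)))) (PT.nd (nat_lit 156) (PT.nd (nat_lit 78) (PT.lf (nat_lit 26296) (nat_lit 6) (nat_lit 346) (nat_lit 0) (nat_lit 153) (nat_lit 149) (nat_lit 148)) (PT.lf (nat_lit 25992) (nat_lit 6) (nat_lit 342) (nat_lit 0) (nat_lit 154) (nat_lit 149) (nat_lit 147))) (PT.nd (nat_lit 78) (PT.lf (nat_lit 25612) (nat_lit 6) (nat_lit 337) (nat_lit 0) (nat_lit 155) (nat_lit 149) (nat_lit 146)) (PT.lf (nat_lit 25156) (nat_lit 6) (nat_lit 331) (nat_lit 0) (nat_lit 156) (nat_lit 149) (nat_lit 145))))))) (PT.nd (nat_lit 45396) (PT.nd (nat_lit 546) (PT.nd (nat_lit 234) (PT.nd (nat_lit 78) (PT.lf (nat_lit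 24624) (nat_lit 6) (nat_lit 324) (nat_lit 0) (nat_lit 157) (nat_lit 149) (nat_lit 144)) (PT.nd (nat_lit 78) (PT.lf (nat_lit 24016) (nat_lit 6) (nat_lit 316) (nat_lit 0) (nat_lit 158) (nat_lit 149) (nat_lit 143)) (PT.lf (nat_lit 23332) (nat_lit 6) (nat_lit 307) (nat_lit 0) (nat_lit 159) (nat_lit 149) (nat_lit 142)))) (PT.nd (nat_lit 156) (PT.nd (nat_lit 78) (PT.lf (nat_lit 22572) (nat_lit 6) (nat_lit 297) (nat_lit 0) (nat_lit 160) (nat_lit 149) (nat_lit 141)) (PT.lf (nat_lit 21736) (nat_lit 6) (nat_lit 286) (nat_lit 0) (nat_lit 161) (nat_lit 149) (nat_lit 140))) (PT.nd (nat_lit 78) (PT.lf (nat_lit 20824) (nat_lit 6) (nat_lit 274) (nat_lit 0) (nat_lit 162) (nat_lit 149) (nat_lit 139)) (PT.lf (nat_lit 19836) (nat_lit 6) (nat_lit 261) (nat_lit 0) (nat_lit 163) (nat_lit 149) (nat_lit 138))))) (PT.nd (nat_lit 44538) (PT.nd (nat_lit 78) (PT.lf (nat_lit 18772) (nat_lit 6) (nat_lit 247) (nat_lit 0) (nat_lit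 164) (nat_lit 149) (nat_lit 137)) (PT.nd (nat_lit 78) (PT.lf (nat_lit 17632) (nat_lit 6) (nat_lit 232) (nat_lit 0) (nat_lit 165) (nat_lit 149) (nat_lit 136)) (PT.lf (nat_lit 16416) (nat_lit 6) (nat_lit 216) (nat_lit 0) (nat_lit 166) (nat_lit 149) (nat_lit 135)))) (PT.nd (nat_lit 156) (PT.nd (nat_lit 78) (PT.lf (nat_lit 16492) (nat_lit 6) (nat_lit 217) (nat_lit 5) (nat_lit 134) (nat_lit 150) (nat_lit 166)) (PT.lf (nat_lit 17708) (nat_lit 6) (nat_lit 233) (nat_lit 5) (nat_lit 135) (nat_lit 150) (nat_lit 165))) (PT.nd (nat_lit 78) (PT.lf (nat_lit 18848) (nat_lit 6) (nat_lit 248) (nat_lit 5) (nat_lit 136) (nat_lit 150) (nat_lit 164)) (PT.lf (nat_lit 19912) (nat_lit 6) (nat_lit 262) (nat_lit 5) (nat_lit 137) (nat_lit 150) (nat_lit 163)))))) (PT.nd (nat_lit 546) (PT.nd (nat_lit 234) (PT.nd (nat_lit 78) (PT.lf (nat_lit 20900) (nat_lit 6) (nat_lit 275) (nat_lit 5) (nat_lit 138) (nat_lit 150) (nat_lit 162))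 (PT.nd (nat_lit 78) (PT.lf (nat_lit 21812) (nat_lit 6) (nat_lit 287) (nat_lit 5) (nat_lit 139) (nat_lit 150) (nat_lit 161)) (PT.lf (nat_lit 22648) (nat_lit 6) (nat_lit 298) (nat_lit 5) (nat_lit 140) (nat_lit 150) (nat_lit 160)))) (PT.nd (nat_lit 156) (PT.nd (nat_lit 78) (PT.lf (nat_lit 23408) (nat_lit 6) (nat_lit 308) (nat_lit 5) (nat_lit 141) (nat_lit 150) (nat_lit 159)) (PT.lf (nat_lit 24092) (nat_lit 6) (nat_lit 317) (nat_lit 5) (nat_lit 142) (nat_lit 150) (nat_lit 158))) (PT.nd (nat_lit 78) (PT.lf (nat_lit 24700) (nat_lit 6) (nat_lit 325) (nat_lit 5) (nat_lit 143) (nat_lit 150) (nat_lit 157)) (PT.lf (nat_lit 25232) (nat_lit 6) (nat_lit 332) (nat_lit 5) (nat_lit 144) (nat_lit 150) (nat_lit 156))))) (PT.nd (nat_lit 234) (PT.nd (nat_lit 78) (PT.lf (nat_lit 25688) (nat_lit 6) (nat_lit 338) (nat_lit 5) (nat_lit 145) (nat_lit 150) (nat_lit 155)) (PT.nd (nat_lit 78) (PT.lf (nat_lit 26068) (nat_lit 6)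 (nat_lit 343) (nat_lit 5) (nat_lit 146) (nat_lit 150) (nat_lit 154)) (PT.lf (nat_lit 26372) (nat_lit 6) (nat_lit 347) (nat_lit 5) (nat_lit 147) (nat_lit 150) (nat_lit 153)))) (PT.nd (nat_lit 156) (PT.nd (nat_lit 78) (PT.lf (nat_lit 26600) (nat_lit 6) (nat_lit 350) (nat_lit 5) (nat_lit 148) (nat_lit 150) (nat_lit 152)) (PT.lf (nat_lit 26752) (nat_lit 6) (nat_lit 352) (nat_lit 5) (nat_lit 149) (nat_lit 150) (nat_lit 151))) (PT.nd (nat_lit 78) (PT.lf (nat_lit 26828) (nat_lit 1) (nat_lit 353) (nat_lit 0) (nat_lit 150) (nat_lit 150) (nat_lit 150)) (PT.lf (nat_lit 26752) (nat_lit 6) (nat_lit 352) (nat_lit 0) (nat_lit 151) (nat_lit 150) (nat_lit 149))))))))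
noncomputable def pc13 : PT := (PT.nd (nat_lit 46410) (PT.nd (nat_lit 1092) (PT.nd (nat_lit 546) (PT.nd (nat_lit 234) (PT.nd (nat_lit 78) (PT.lf (nat_lit 26600) (nat_lit 6) (nat_lit 350) (nat_lit 0) (nat_lit 152) (nat_lit 150) (nat_lit 148)) (PT.nd (nat_lit 78) (PT.lf (nat_lit 26372) (nat_lit 6) (nat_lit 347) (nat_lit 0) (nat_lit 153) (nat_lit 150) (nat_lit 147)) (PT.lf (nat_lit 26068) (nat_lit 6) (nat_lit 343) (nat_lit 0) (nat_lit 154) (nat_lit 150) (nat_lit 146)))) (PT.nd (nat_lit 156) (PT.nd (nat_lit 78) (PT.lf (nat_lit 25688) (nat_lit 6) (nat_lit 338) (nat_lit 0) (nat_lit 155) (nat_lit 150) (nat_lit 145)) (PT.lf (nat_lit 25232) (nat_lit 6) (nat_lit 332) (nat_lit 0) (nat_lit 156) (nat_lit 150) (nat_lit 144))) (PT.nd (nat_lit 78) (PT.lf (nat_lit 24700) (nat_lit 6) (nat_lit 325) (nat_lit 0) (nat_lit 157) (nat_lit 150) (nat_lit 143)) (PT.lf (nat_lit 24092) (nat_lit 6) (nat_lit 317) (nat_lit 0) (nat_lit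 158) (nat_lit 150) (nat_lit 142))))) (PT.nd (nat_lit 234) (PT.nd (nat_lit 78) (PT.lf (nat_lit 23408) (nat_lit 6) (nat_lit 308) (nat_lit 0) (nat_lit 159) (nat_lit 150) (nat_lit 141)) (PT.nd (nat_lit 78) (PT.lf (nat_lit 22648) (nat_lit 6) (nat_lit 298) (nat_lit 0) (nat_lit 160) (nat_lit 150) (nat_lit 140)) (PT.lf (nat_lit 21812) (nat_lit 6) (nat_lit 287) (nat_lit 0) (nat_lit 161) (nat_lit 150) (nat_lit 139)))) (PT.nd (nat_lit 156) (PT.nd (nat_lit 78) (PT.lf (nat_lit 20900) (nat_lit 6) (nat_lit 275) (nat_lit 0) (nat_lit 162) (nat_lit 150) (nat_lit 138)) (PT.lf (nat_lit 19912) (nat_lit 6) (nat_lit 262) (nat_lit 0) (nat_lit 163) (nat_lit 150) (nat_lit 137))) (PT.nd (nat_lit 78) (PT.lf (nat_lit 18848) (nat_lit 6) (nat_lit 248) (nat_lit 0) (nat_lit 164) (nat_lit 150) (nat_lit 136)) (PT.lf (nat_lit 17708) (nat_lit 6) (nat_lit 233) (nat_lit 0) (nat_lit 165) (nat_lit 150) (nat_lit 135)))))) (PT.nd (nat_lit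 44772) (PT.nd (nat_lit 44460) (PT.nd (nat_lit 44304) (PT.lf (nat_lit 16492) (nat_lit 6) (nat_lit 217) (nat_lit 0) (nat_lit 166) (nat_lit 150) (nat_lit 134)) (PT.nd (nat_lit 78) (PT.lf (nat_lit 15504) (nat_lit 6) (nat_lit 204) (nat_lit 5) (nat_lit 133) (nat_lit 151) (nat_lit 166)) (PT.lf (nat_lit 16568) (nat_lit 6) (nat_lit 218) (nat_lit 5) (nat_lit 134) (nat_lit 151) (nat_lit 165)))) (PT.nd (nat_lit 156) (PT.nd (nat_lit 78) (PT.lf (nat_lit 17784) (nat_lit 6) (nat_lit 234) (nat_lit 5) (nat_lit 135) (nat_lit 151) (nat_lit 164)) (PT.lf (nat_lit 18924) (nat_lit 6) (nat_lit 249) (nat_lit 5) (nat_lit 136) (nat_lit 151) (nat_lit 163))) (PT.nd (nat_lit 78) (PT.lf (nat_lit 19988) (nat_lit 6) (nat_lit 263) (nat_lit 5) (nat_lit 137) (nat_lit 151) (nat_lit 162)) (PT.lf (nat_lit 20976) (nat_lit 6) (nat_lit 276) (nat_lit 5) (nat_lit 138) (nat_lit 151) (nat_lit 161))))) (PT.nd (nat_lit 234) (PT.nd (nat_lit 78) (PT.lf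 (nat_lit 21888) (nat_lit 6) (nat_lit 288) (nat_lit 5) (nat_lit 139) (nat_lit 151) (nat_lit 160)) (PT.nd (nat_lit 78) (PT.lf (nat_lit 22724) (nat_lit 6) (nat_lit 299) (nat_lit 5) (nat_lit 140) (nat_lit 151) (nat_lit 159)) (PT.lf (nat_lit 23484) (nat_lit 6) (nat_lit 309) (nat_lit 5) (nat_lit 141) (nat_lit 151) (nat_lit 158)))) (PT.nd (nat_lit 156) (PT.nd (nat_lit 78) (PT.lf (nat_lit 24168) (nat_lit 6) (nat_lit 318) (nat_lit 5) (nat_lit 142) (nat_lit 151) (nat_lit 157)) (PT.lf (nat_lit 24776) (nat_lit 6) (nat_lit 326) (nat_lit 5) (nat_lit 143) (nat_lit 151) (nat_lit 156))) (PT.nd (nat_lit 78) (PT.lf (nat_lit 25308) (nat_lit 6) (nat_lit 333) (nat_lit 5) (nat_lit 144) (nat_lit 151) (nat_lit 155)) (PT.lf (nat_lit 25764) (nat_lit 6) (nat_lit 339) (nat_lit 5) (nat_lit 145) (nat_lit 151) (nat_lit 154))))))) (PT.nd (nat_lit 1092) (PT.nd (nat_lit 546) (PT.nd (nat_lit 234) (PT.nd (nat_lit 78) (PT.lf (nat_lit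 26144) (nat_lit 6) (nat_lit 344) (nat_lit 5) (nat_lit 146) (nat_lit 151) (nat_lit 153)) (PT.nd (nat_lit 78) (PT.lf (nat_lit 26448) (nat_lit 6) (nat_lit 348) (nat_lit 5) (nat_lit 147) (nat_lit 151) (nat_lit 152)) (PT.lf (nat_lit 26676) (nat_lit 3) (nat_lit 351) (nat_lit 4) (nat_lit 148) (nat_lit 151) (nat_lit 151)))) (PT.nd (nat_lit 156) (PT.nd (nat_lit 78) (PT.lf (nat_lit 26752) (nat_lit 6) (nat_lit 352) (nat_lit 4) (nat_lit 149) (nat_lit 151) (nat_lit 150)) (PT.lf (nat_lit 26752) (nat_lit 6) (nat_lit 352) (nat_lit 2) (nat_lit 150) (nat_lit 151) (nat_lit 149))) (PT.nd (nat_lit 78) (PT.lf (nat_lit 26676) (nat_lit 3) (nat_lit 351) (nat_lit 0) (nat_lit 151) (nat_lit 151) (nat_lit 148)) (PT.lf (nat_lit 26448) (nat_lit 6) (nat_lit 348) (nat_lit 0) (nat_lit 152) (nat_lit 151) (nat_lit 147))))) (PT.nd (nat_lit 234) (PT.nd (nat_lit 78) (PT.lf (nat_lit 26144) (nat_lit 6) (nat_lit 344) (nat_lit 0) (nat_lit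 153) (nat_lit 151) (nat_lit 146)) (PT.nd (nat_lit 78) (PT.lf (nat_lit 25764) (nat_lit 6) (nat_lit 339) (nat_lit 0) (nat_lit 154) (nat_lit 151) (nat_lit 145)) (PT.lf (nat_lit 25308) (nat_lit 6) (nat_lit 333) (nat_lit 0) (nat_lit 155) (nat_lit 151) (nat_lit 144)))) (PT.nd (nat_lit 156) (PT.nd (nat_lit 78) (PT.lf (nat_lit 24776) (nat_lit 6) (nat_lit 326) (nat_lit 0) (nat_lit 156) (nat_lit 151) (nat_lit 143)) (PT.lf (nat_lit 24168) (nat_lit 6) (nat_lit 318) (nat_lit 0) (nat_lit 157) (nat_lit 151) (nat_lit 142))) (PT.nd (nat_lit 78) (PT.lf (nat_lit 23484) (nat_lit 6) (nat_lit 309) (nat_lit 0) (nat_lit 158) (nat_lit 151) (nat_lit 141)) (PT.lf (nat_lit 22724) (nat_lit 6) (nat_lit 299) (nat_lit 0) (nat_lit 159) (nat_lit 151) (nat_lit 140)))))) (PT.nd (nat_lit 44694) (PT.nd (nat_lit 234) (PT.nd (nat_lit 78) (PT.lf (nat_lit 21888) (nat_lit 6) (nat_lit 288) (nat_lit 0) (nat_lit 160) (nat_lit 151) (nat_lit 139))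 (PT.nd (nat_lit 78) (PT.lf (nat_lit 20976) (nat_lit 6) (nat_lit 276) (nat_lit 0) (nat_lit 161) (nat_lit 151) (nat_lit 138)) (PT.lf (nat_lit 19988) (nat_lit 6) (nat_lit 263) (nat_lit 0) (nat_lit 162) (nat_lit 151) (nat_lit 137)))) (PT.nd (nat_lit 156) (PT.nd (nat_lit 78) (PT.lf (nat_lit 18924) (nat_lit 6) (nat_lit 249) (nat_lit 0) (nat_lit 163) (nat_lit 151) (nat_lit 136)) (PT.lf (nat_lit 17784) (nat_lit 6) (nat_lit 234) (nat_lit 0) (nat_lit 164) (nat_lit 151) (nat_lit 135))) (PT.nd (nat_lit 78) (PT.lf (nat_lit 16568) (nat_lit 6) (nat_lit 218) (nat_lit 0) (nat_lit 165) (nat_lit 151) (nat_lit 134)) (PT.lf (nat_lit 15504) (nat_lit 6) (nat_lit 204) (nat_lit 0) (nat_lit 166) (nat_lit 151) (nat_lit 133))))) (PT.nd (nat_lit 234) (PT.nd (nat_lit 78) (PT.lf (nat_lit 14896) (nat_lit 6) (nat_lit 196) (nat_lit 5) (nat_lit 132) (nat_lit 152) (nat_lit 166)) (PT.nd (nat_lit 78) (PT.lf (nat_lit 15580) (nat_lit 6)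 (nat_lit 205) (nat_lit 5) (nat_lit 133) (nat_lit 152) (nat_lit 165)) (PT.lf (nat_lit 16644) (nat_lit 6) (nat_lit 219) (nat_lit 5) (nat_lit 134) (nat_lit 152) (nat_lit 164)))) (PT.nd (nat_lit 156) (PT.nd (nat_lit 78) (PT.lf (nat_lit 17860) (nat_lit 6) (nat_lit 235) (nat_lit 5) (nat_lit 135) (nat_lit 152) (nat_lit 163)) (PT.lf (nat_lit 19000) (nat_lit 6) (nat_lit 250) (nat_lit 5) (nat_lit 136) (nat_lit 152) (nat_lit 162))) (PT.nd (nat_lit 78) (PT.lf (nat_lit 20064) (nat_lit 6) (nat_lit 264) (nat_lit 5) (nat_lit 137) (nat_lit 152) (nat_lit 161)) (PT.lf (nat_lit 21052) (nat_lit 6) (nat_lit 277) (nat_lit 5) (nat_lit 138) (nat_lit 152) (nat_lit 160))))))))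
noncomputable def pc14 : PT := (PT.nd (nat_lit 46176) (PT.nd (nat_lit 1092) (PT.nd (nat_lit 546) (PT.nd (nat_lit 234) (PT.nd (nat_lit 78) (PT.lf (nat_lit 21964) (nat_lit 6) (nat_lit 289) (nat_lit 5) (nat_lit 139) (nat_lit 152) (nat_lit 159)) (PT.nd (nat_lit 78) (PT.lf (nat_lit 22800) (nat_lit 6) (nat_lit 300) (nat_lit 5) (nat_lit 140) (nat_lit 152) (nat_lit 158)) (PT.lf (nat_lit 23560) (nat_lit 6) (nat_lit 310) (nat_lit 5) (nat_lit 141) (nat_lit 152) (nat_lit 157)))) (PT.nd (nat_lit 156) (PT.nd (nat_lit 78) (PT.lf (nat_lit 24244) (nat_lit 6) (nat_lit 319) (nat_lit 5) (nat_lit 142) (nat_lit 152) (nat_lit 156)) (PT.lf (nat_lit 24852) (nat_lit 6) (nat_lit 327) (nat_lit 5) (nat_lit 143) (nat_lit 152) (nat_lit 155))) (PT.nd (nat_lit 78) (PT.lf (nat_lit 25384) (nat_lit 6) (nat_lit 334) (nat_lit 5) (nat_lit 144) (nat_lit 152) (nat_lit 154)) (PT.lf (nat_lit 25840) (nat_lit 6) (nat_lit 340) (nat_lit 5) (nat_lit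 145) (nat_lit 152) (nat_lit 153))))) (PT.nd (nat_lit 234) (PT.nd (nat_lit 78) (PT.lf (nat_lit 26220) (nat_lit 3) (nat_lit 345) (nat_lit 4) (nat_lit 146) (nat_lit 152) (nat_lit 152)) (PT.nd (nat_lit 78) (PT.lf (nat_lit 26448) (nat_lit 6) (nat_lit 348) (nat_lit 4) (nat_lit 147) (nat_lit 152) (nat_lit 151)) (PT.lf (nat_lit 26600) (nat_lit 6) (nat_lit 350) (nat_lit 4) (nat_lit 148) (nat_lit 152) (nat_lit 150)))) (PT.nd (nat_lit 156) (PT.nd (nat_lit 78) (PT.lf (nat_lit 26524) (nat_lit 3) (nat_lit 349) (nat_lit 2) (nat_lit 149) (nat_lit 152) (nat_lit 149)) (PT.lf (nat_lit 26600) (nat_lit 6) (nat_lit 350) (nat_lit 2) (nat_lit 150) (nat_lit 152) (nat_lit 148))) (PT.nd (nat_lit 78) (PT.lf (nat_lit 26448) (nat_lit 6) (nat_lit 348) (nat_lit 2) (nat_lit 151) (nat_lit 152) (nat_lit 147)) (PT.lf (nat_lit 26220) (nat_lit 3) (nat_lit 345) (nat_lit 0) (nat_lit 152) (nat_lit 152) (nat_lit 146)))))) (PT.nd (nat_lit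 546) (PT.nd (nat_lit 234) (PT.nd (nat_lit 78) (PT.lf (nat_lit 25840) (nat_lit 6) (nat_lit 340) (nat_lit 0) (nat_lit 153) (nat_lit 152) (nat_lit 145)) (PT.nd (nat_lit 78) (PT.lf (nat_lit 25384) (nat_lit 6) (nat_lit 334) (nat_lit 0) (nat_lit 154) (nat_lit 152) (nat_lit 144)) (PT.lf (nat_lit 24852) (nat_lit 6) (nat_lit 327) (nat_lit 0) (nat_lit 155) (nat_lit 152) (nat_lit 143)))) (PT.nd (nat_lit 156) (PT.nd (nat_lit 78) (PT.lf (nat_lit 24244) (nat_lit 6) (nat_lit 319) (nat_lit 0) (nat_lit 156) (nat_lit 152) (nat_lit 142)) (PT.lf (nat_lit 23560) (nat_lit 6) (nat_lit 310) (nat_lit 0) (nat_lit 157) (nat_lit 152) (nat_lit 141))) (PT.nd (nat_lit 78) (PT.lf (nat_lit 22800) (nat_lit 6) (nat_lit 300) (nat_lit 0) (nat_lit 158) (nat_lit 152) (nat_lit 140)) (PT.lf (nat_lit 21964) (nat_lit 6) (nat_lit 289) (nat_lit 0) (nat_lit 159) (nat_lit 152) (nat_lit 139))))) (PT.nd (nat_lit 234) (PT.nd (nat_lit 78) (PT.lf (nat_lit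 21052) (nat_lit 6) (nat_lit 277) (nat_lit 0) (nat_lit 160) (nat_lit 152) (nat_lit 138)) (PT.nd (nat_lit 78) (PT.lf (nat_lit 20064) (nat_lit 6) (nat_lit 264) (nat_lit 0) (nat_lit 161) (nat_lit 152) (nat_lit 137)) (PT.lf (nat_lit 19000) (nat_lit 6) (nat_lit 250) (nat_lit 0) (nat_lit 162) (nat_lit 152) (nat_lit 136)))) (PT.nd (nat_lit 156) (PT.nd (nat_lit 78) (PT.lf (nat_lit 17860) (nat_lit 6) (nat_lit 235) (nat_lit 0) (nat_lit 163) (nat_lit 152) (nat_lit 135)) (PT.lf (nat_lit 16644) (nat_lit 6) (nat_lit 219) (nat_lit 0) (nat_lit 164) (nat_lit 152) (nat_lit 134))) (PT.nd (nat_lit 78) (PT.lf (nat_lit 15580) (nat_lit 6) (nat_lit 205) (nat_lit 0) (nat_lit 165) (nat_lit 152) (nat_lit 133)) (PT.lf (nat_lit 14896) (nat_lit 6) (nat_lit 196) (nat_lit 0) (nat_lit 166) (nat_lit 152) (nat_lit 132))))))) (PT.nd (nat_lit 1092) (PT.nd (nat_lit 546) (PT.nd (nat_lit 234) (PT.nd (nat_lit 78) (PT.lf (nat_lit 13680) (nat_lit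 6) (nat_lit 180) (nat_lit 5) (nat_lit 130) (nat_lit 153) (nat_lit 167)) (PT.nd (nat_lit 78) (PT.lf (nat_lit 14364) (nat_lit 6) (nat_lit 189) (nat_lit 5) (nat_lit 131) (nat_lit 153) (nat_lit 166)) (PT.lf (nat_lit 14972) (nat_lit 6) (nat_lit 197) (nat_lit 5) (nat_lit 132) (nat_lit 153) (nat_lit 165)))) (PT.nd (nat_lit 156) (PT.nd (nat_lit 78) (PT.lf (nat_lit 15656) (nat_lit 6) (nat_lit 206) (nat_lit 5) (nat_lit 133) (nat_lit 153) (nat_lit 164)) (PT.lf (nat_lit 16720) (nat_lit 6) (nat_lit 220) (nat_lit 5) (nat_lit 134) (nat_lit 153) (nat_lit 163))) (PT.nd (nat_lit 78) (PT.lf (nat_lit 17936) (nat_lit 6) (nat_lit 236) (nat_lit 5) (nat_lit 135) (nat_lit 153) (nat_lit 162)) (PT.lf (nat_lit 19076) (nat_lit 6) (nat_lit 251) (nat_lit 5) (nat_lit 136) (nat_lit 153) (nat_lit 161))))) (PT.nd (nat_lit 234) (PT.nd (nat_lit 78) (PT.lf (nat_lit 20140) (nat_lit 6) (nat_lit 265) (nat_lit 5) (nat_lit 137) (nat_lit 153)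 (nat_lit 160)) (PT.nd (nat_lit 78) (PT.lf (nat_lit 21128) (nat_lit 6) (nat_lit 278) (nat_lit 5) (nat_lit 138) (nat_lit 153) (nat_lit 159)) (PT.lf (nat_lit 22040) (nat_lit 6) (nat_lit 290) (nat_lit 5) (nat_lit 139) (nat_lit 153) (nat_lit 158)))) (PT.nd (nat_lit 156) (PT.nd (nat_lit 78) (PT.lf (nat_lit 22876) (nat_lit 6) (nat_lit 301) (nat_lit 5) (nat_lit 140) (nat_lit 153) (nat_lit 157)) (PT.lf (nat_lit 23636) (nat_lit 6) (nat_lit 311) (nat_lit 5) (nat_lit 141) (nat_lit 153) (nat_lit 156))) (PT.nd (nat_lit 78) (PT.lf (nat_lit 24320) (nat_lit 6) (nat_lit 320) (nat_lit 5) (nat_lit 142) (nat_lit 153) (nat_lit 155)) (PT.lf (nat_lit 24928) (nat_lit 6) (nat_lit 328) (nat_lit 5) (nat_lit 143) (nat_lit 153) (nat_lit 154)))))) (PT.nd (nat_lit 546) (PT.nd (nat_lit 234) (PT.nd (nat_lit 78) (PT.lf (nat_lit 25460) (nat_lit 3) (nat_lit 335) (nat_lit 4) (nat_lit 144) (nat_lit 153) (nat_lit 153)) (PT.nd (nat_lit 78)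 (PT.lf (nat_lit 25840) (nat_lit 6) (nat_lit 340) (nat_lit 4) (nat_lit 145) (nat_lit 153) (nat_lit 152)) (PT.lf (nat_lit 26144) (nat_lit 6) (nat_lit 344) (nat_lit 4) (nat_lit 146) (nat_lit 153) (nat_lit 151)))) (PT.nd (nat_lit 156) (PT.nd (nat_lit 78) (PT.lf (nat_lit 26372) (nat_lit 6) (nat_lit 347) (nat_lit 4) (nat_lit 147) (nat_lit 153) (nat_lit 150)) (PT.lf (nat_lit 26296) (nat_lit 6) (nat_lit 346) (nat_lit 4) (nat_lit 148) (nat_lit 153) (nat_lit 149))) (PT.nd (nat_lit 78) (PT.lf (nat_lit 26296) (nat_lit 6) (nat_lit 346) (nat_lit 2) (nat_lit 149) (nat_lit 153) (nat_lit 148)) (PT.lf (nat_lit 26372) (nat_lit 6) (nat_lit 347) (nat_lit 2) (nat_lit 150) (nat_lit 153) (nat_lit 147))))) (PT.nd (nat_lit 234) (PT.nd (nat_lit 78) (PT.lf (nat_lit 26144) (nat_lit 6) (nat_lit 344) (nat_lit 2) (nat_lit 151) (nat_lit 153) (nat_lit 146)) (PT.nd (nat_lit 78) (PT.lf (nat_lit 25840) (nat_lit 6) (nat_lit 340) (nat_lit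 2) (nat_lit 152) (nat_lit 153) (nat_lit 145)) (PT.lf (nat_lit 25460) (nat_lit 3) (nat_lit 335) (nat_lit 0) (nat_lit 153) (nat_lit 153) (nat_lit 144)))) (PT.nd (nat_lit 156) (PT.nd (nat_lit 78) (PT.lf (nat_lit 24928) (nat_lit 6) (nat_lit 328) (nat_lit 0) (nat_lit 154) (nat_lit 153) (nat_lit 143)) (PT.lf (nat_lit 24320) (nat_lit 6) (nat_lit 320) (nat_lit 0) (nat_lit 155) (nat_lit 153) (nat_lit 142))) (PT.nd (nat_lit 78) (PT.lf (nat_lit 23636) (nat_lit 6) (nat_lit 311) (nat_lit 0) (nat_lit 156) (nat_lit 153) (nat_lit 141)) (PT.lf (nat_lit 22876) (nat_lit 6) (nat_lit 301) (nat_lit 0) (nat_lit 157) (nat_lit 153) (nat_lit 140))))))))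
noncomputable def pc15 : PT := (PT.nd (nat_lit 46020) (PT.nd (nat_lit 44928) (PT.nd (nat_lit 546) (PT.nd (nat_lit 234) (PT.nd (nat_lit 78) (PT.lf (nat_lit 22040) (nat_lit 6) (nat_lit 290) (nat_lit 0) (nat_lit 158) (nat_lit 153) (nat_lit 139)) (PT.nd (nat_lit 78) (PT.lf (nat_lit 21128) (nat_lit 6) (nat_lit 278) (nat_lit 0) (nat_lit 159) (nat_lit 153) (nat_lit 138)) (PT.lf (nat_lit 20140) (nat_lit 6) (nat_lit 265) (nat_lit 0) (nat_lit 160) (nat_lit 153) (nat_lit 137)))) (PT.nd (nat_lit 156) (PT.nd (nat_lit 78) (PT.lf (nat_lit 19076) (nat_lit 6) (nat_lit 251) (nat_lit 0) (nat_lit 161) (nat_lit 153) (nat_lit 136)) (PT.lf (nat_lit 17936) (nat_lit 6) (nat_lit 236) (nat_lit 0) (nat_lit 162) (nat_lit 153) (nat_lit 135))) (PT.nd (nat_lit 78) (PT.lf (nat_lit 16720) (nat_lit 6) (nat_lit 220) (nat_lit 0) (nat_lit 163) (nat_lit 153) (nat_lit 134)) (PT.lf (nat_lit 15656) (nat_lit 6) (nat_lit 206) (nat_lit 0) (nat_lit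 164) (nat_lit 153) (nat_lit 133))))) (PT.nd (nat_lit 44070) (PT.nd (nat_lit 78) (PT.lf (nat_lit 14972) (nat_lit 6) (nat_lit 197) (nat_lit 0) (nat_lit 165) (nat_lit 153) (nat_lit 132)) (PT.nd (nat_lit 78) (PT.lf (nat_lit 14364) (nat_lit 6) (nat_lit 189) (nat_lit 0) (nat_lit 166) (nat_lit 153) (nat_lit 131)) (PT.lf (nat_lit 13680) (nat_lit 6) (nat_lit 180) (nat_lit 0) (nat_lit 167) (nat_lit 153) (nat_lit 130)))) (PT.nd (nat_lit 156) (PT.nd (nat_lit 78) (PT.lf (nat_lit 13148) (nat_lit 6) (nat_lit 173) (nat_lit 5) (nat_lit 129) (nat_lit 154) (nat_lit 167)) (PT.lf (nat_lit 13756) (nat_lit 6) (nat_lit 181) (nat_lit 5) (nat_lit 130) (nat_lit 154) (nat_lit 166))) (PT.nd (nat_lit 78) (PT.lf (nat_lit 14440) (nat_lit 6) (nat_lit 190) (nat_lit 5) (nat_lit 131) (nat_lit 154) (nat_lit 165)) (PT.lf (nat_lit 15048) (nat_lit 6) (nat_lit 198) (nat_lit 5) (nat_lit 132) (nat_lit 154) (nat_lit 164)))))) (PT.nd (nat_lit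 546) (PT.nd (nat_lit 234) (PT.nd (nat_lit 78) (PT.lf (nat_lit 15732) (nat_lit 6) (nat_lit 207) (nat_lit 5) (nat_lit 133) (nat_lit 154) (nat_lit 163)) (PT.nd (nat_lit 78) (PT.lf (nat_lit 16796) (nat_lit 6) (nat_lit 221) (nat_lit 5) (nat_lit 134) (nat_lit 154) (nat_lit 162)) (PT.lf (nat_lit 18012) (nat_lit 6) (nat_lit 237) (nat_lit 5) (nat_lit 135) (nat_lit 154) (nat_lit 161)))) (PT.nd (nat_lit 156) (PT.nd (nat_lit 78) (PT.lf (nat_lit 19152) (nat_lit 6) (nat_lit 252) (nat_lit 5) (nat_lit 136) (nat_lit 154) (nat_lit 160)) (PT.lf (nat_lit 20216) (nat_lit 6) (nat_lit 266) (nat_lit 5) (nat_lit 137) (nat_lit 154) (nat_lit 159))) (PT.nd (nat_lit 78) (PT.lf (nat_lit 21204) (nat_lit 6) (nat_lit 279) (nat_lit 5) (nat_lit 138) (nat_lit 154) (nat_lit 158)) (PT.lf (nat_lit 22116) (nat_lit 6) (nat_lit 291) (nat_lit 5) (nat_lit 139) (nat_lit 154) (nat_lit 157))))) (PT.nd (nat_lit 234) (PT.nd (nat_lit 78) (PT.lf (nat_lit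 22952) (nat_lit 6) (nat_lit 302) (nat_lit 5) (nat_lit 140) (nat_lit 154) (nat_lit 156)) (PT.nd (nat_lit 78) (PT.lf (nat_lit 23712) (nat_lit 6) (nat_lit 312) (nat_lit 5) (nat_lit 141) (nat_lit 154) (nat_lit 155)) (PT.lf (nat_lit 24396) (nat_lit 3) (nat_lit 321) (nat_lit 4) (nat_lit 142) (nat_lit 154) (nat_lit 154)))) (PT.nd (nat_lit 156) (PT.nd (nat_lit 78) (PT.lf (nat_lit 24928) (nat_lit 6) (nat_lit 328) (nat_lit 4) (nat_lit 143) (nat_lit 154) (nat_lit 153)) (PT.lf (nat_lit 25384) (nat_lit 6) (nat_lit 334) (nat_lit 4) (nat_lit 144) (nat_lit 154) (nat_lit 152))) (PT.nd (nat_lit 78) (PT.lf (nat_lit 25764) (nat_lit 6) (nat_lit 339) (nat_lit 4) (nat_lit 145) (nat_lit 154) (nat_lit 151)) (PT.lf (nat_lit 26068) (nat_lit 6) (nat_lit 343) (nat_lit 4) (nat_lit 146) (nat_lit 154) (nat_lit 150))))))) (PT.nd (nat_lit 1092) (PT.nd (nat_lit 546) (PT.nd (nat_lit 234) (PT.nd (nat_lit 78) (PT.lf (nat_lit 25992) (nat_lit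 6) (nat_lit 342) (nat_lit 4) (nat_lit 147) (nat_lit 154) (nat_lit 149)) (PT.nd (nat_lit 78) (PT.lf (nat_lit 25916) (nat_lit 3) (nat_lit 341) (nat_lit 2) (nat_lit 148) (nat_lit 154) (nat_lit 148)) (PT.lf (nat_lit 25992) (nat_lit 6) (nat_lit 342) (nat_lit 2) (nat_lit 149) (nat_lit 154) (nat_lit 147)))) (PT.nd (nat_lit 156) (PT.nd (nat_lit 78) (PT.lf (nat_lit 26068) (nat_lit 6) (nat_lit 343) (nat_lit 2) (nat_lit 150) (nat_lit 154) (nat_lit 146)) (PT.lf (nat_lit 25764) (nat_lit 6) (nat_lit 339) (nat_lit 2) (nat_lit 151) (nat_lit 154) (nat_lit 145))) (PT.nd (nat_lit 78) (PT.lf (nat_lit 25384) (nat_lit 6) (nat_lit 334) (nat_lit 2) (nat_lit 152) (nat_lit 154) (nat_lit 144)) (PT.lf (nat_lit 24928) (nat_lit 6) (nat_lit 328) (nat_lit 2) (nat_lit 153) (nat_lit 154) (nat_lit 143))))) (PT.nd (nat_lit 234) (PT.nd (nat_lit 78) (PT.lf (nat_lit 24396) (nat_lit 3) (nat_lit 321) (nat_lit 0) (nat_lit 154) (nat_lit 154)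 (nat_lit 142)) (PT.nd (nat_lit 78) (PT.lf (nat_lit 23712) (nat_lit 6) (nat_lit 312) (nat_lit 0) (nat_lit 155) (nat_lit 154) (nat_lit 141)) (PT.lf (nat_lit 22952) (nat_lit 6) (nat_lit 302) (nat_lit 0) (nat_lit 156) (nat_lit 154) (nat_lit 140)))) (PT.nd (nat_lit 156) (PT.nd (nat_lit 78) (PT.lf (nat_lit 22116) (nat_lit 6) (nat_lit 291) (nat_lit 0) (nat_lit 157) (nat_lit 154) (nat_lit 139)) (PT.lf (nat_lit 21204) (nat_lit 6) (nat_lit 279) (nat_lit 0) (nat_lit 158) (nat_lit 154) (nat_lit 138))) (PT.nd (nat_lit 78) (PT.lf (nat_lit 20216) (nat_lit 6) (nat_lit 266) (nat_lit 0) (nat_lit 159) (nat_lit 154) (nat_lit 137)) (PT.lf (nat_lit 19152) (nat_lit 6) (nat_lit 252) (nat_lit 0) (nat_lit 160) (nat_lit 154) (nat_lit 136)))))) (PT.nd (nat_lit 44304) (PT.nd (nat_lit 234) (PT.nd (nat_lit 78) (PT.lf (nat_lit 18012) (nat_lit 6) (nat_lit 237) (nat_lit 0) (nat_lit 161) (nat_lit 154) (nat_lit 135)) (PT.nd (nat_lit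 78) (PT.lf (nat_lit 16796) (nat_lit 6) (nat_lit 221) (nat_lit 0) (nat_lit 162) (nat_lit 154) (nat_lit 134)) (PT.lf (nat_lit 15732) (nat_lit 6) (nat_lit 207) (nat_lit 0) (nat_lit 163) (nat_lit 154) (nat_lit 133)))) (PT.nd (nat_lit 156) (PT.nd (nat_lit 78) (PT.lf (nat_lit 15048) (nat_lit 6) (nat_lit 198) (nat_lit 0) (nat_lit 164) (nat_lit 154) (nat_lit 132)) (PT.lf (nat_lit 14440) (nat_lit 6) (nat_lit 190) (nat_lit 0) (nat_lit 165) (nat_lit 154) (nat_lit 131))) (PT.nd (nat_lit 78) (PT.lf (nat_lit 13756) (nat_lit 6) (nat_lit 181) (nat_lit 0) (nat_lit 166) (nat_lit 154) (nat_lit 130)) (PT.lf (nat_lit 13148) (nat_lit 6) (nat_lit 173) (nat_lit 0) (nat_lit 167) (nat_lit 154) (nat_lit 129))))) (PT.nd (nat_lit 312) (PT.nd (nat_lit 156) (PT.nd (nat_lit 78) (PT.lf (nat_lit 12616) (nat_lit 6) (nat_lit 166) (nat_lit 5) (nat_lit 128) (nat_lit 155) (nat_lit 167)) (PT.lf (nat_lit 13224) (nat_lit 6) (nat_lit 174)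 (nat_lit 5) (nat_lit 129) (nat_lit 155) (nat_lit 166))) (PT.nd (nat_lit 78) (PT.lf (nat_lit 13832) (nat_lit 6) (nat_lit 182) (nat_lit 5) (nat_lit 130) (nat_lit 155) (nat_lit 165)) (PT.lf (nat_lit 14516) (nat_lit 6) (nat_lit 191) (nat_lit 5) (nat_lit 131) (nat_lit 155) (nat_lit 164)))) (PT.nd (nat_lit 156) (PT.nd (nat_lit 78) (PT.lf (nat_lit 15124) (nat_lit 6) (nat_lit 199) (nat_lit 5) (nat_lit 132) (nat_lit 155) (nat_lit 163)) (PT.lf (nat_lit 15808) (nat_lit 6) (nat_lit 208) (nat_lit 5) (nat_lit 133) (nat_lit 155) (nat_lit 162))) (PT.nd (nat_lit 78) (PT.lf (nat_lit 16872) (nat_lit 6) (nat_lit 222) (nat_lit 5) (nat_lit 134) (nat_lit 155) (nat_lit 161)) (PT.lf (nat_lit 18088) (nat_lit 6) (nat_lit 238) (nat_lit 5) (nat_lit 135) (nat_lit 155) (nat_lit 160))))))))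
noncomputable def pc16 : PT := (PT.nd (nat_lit 2184) (PT.nd (nat_lit 1092) (PT.nd (nat_lit 546) (PT.nd (nat_lit 234) (PT.nd (nat_lit 78) (PT.lf (nat_lit 19228) (nat_lit 6) (nat_lit 253) (nat_lit 5) (nat_lit 136) (nat_lit 155) (nat_lit 159)) (PT.nd (nat_lit 78) (PT.lf (nat_lit 20292) (nat_lit 6) (nat_lit 267) (nat_lit 5) (nat_lit 137) (nat_lit 155) (nat_lit 158)) (PT.lf (nat_lit 21280) (nat_lit 6) (nat_lit 280) (nat_lit 5) (nat_lit 138) (nat_lit 155) (nat_lit 157)))) (PT.nd (nat_lit 156) (PT.nd (nat_lit 78) (PT.lf (nat_lit 22192) (nat_lit 6) (nat_lit 292) (nat_lit 5) (nat_lit 139) (nat_lit 155) (nat_lit 156)) (PT.lf (nat_lit 23028) (nat_lit 3) (nat_lit 303) (nat_lit 4) (nat_lit 140) (nat_lit 155) (nat_lit 155))) (PT.nd (nat_lit 78) (PT.lf (nat_lit 23712) (nat_lit 6) (nat_lit 312) (nat_lit 4) (nat_lit 141) (nat_lit 155) (nat_lit 154)) (PT.lf (nat_lit 24320) (nat_lit 6) (nat_lit 320) (nat_lit 4) (nat_lit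 142) (nat_lit 155) (nat_lit 153))))) (PT.nd (nat_lit 234) (PT.nd (nat_lit 78) (PT.lf (nat_lit 24852) (nat_lit 6) (nat_lit 327) (nat_lit 4) (nat_lit 143) (nat_lit 155) (nat_lit 152)) (PT.nd (nat_lit 78) (PT.lf (nat_lit 25308) (nat_lit 6) (nat_lit 333) (nat_lit 4) (nat_lit 144) (nat_lit 155) (nat_lit 151)) (PT.lf (nat_lit 25688) (nat_lit 6) (nat_lit 338) (nat_lit 4) (nat_lit 145) (nat_lit 155) (nat_lit 150)))) (PT.nd (nat_lit 156) (PT.nd (nat_lit 78) (PT.lf (nat_lit 25612) (nat_lit 6) (nat_lit 337) (nat_lit 4) (nat_lit 146) (nat_lit 155) (nat_lit 149)) (PT.lf (nat_lit 25536) (nat_lit 6) (nat_lit 336) (nat_lit 4) (nat_lit 147) (nat_lit 155) (nat_lit 148))) (PT.nd (nat_lit 78) (PT.lf (nat_lit 25536) (nat_lit 6) (nat_lit 336) (nat_lit 2) (nat_lit 148) (nat_lit 155) (nat_lit 147)) (PT.lf (nat_lit 25612) (nat_lit 6) (nat_lit 337) (nat_lit 2) (nat_lit 149) (nat_lit 155) (nat_lit 146)))))) (PT.nd (nat_lit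 546) (PT.nd (nat_lit 234) (PT.nd (nat_lit 78) (PT.lf (nat_lit 25688) (nat_lit 6) (nat_lit 338) (nat_lit 2) (nat_lit 150) (nat_lit 155) (nat_lit 145)) (PT.nd (nat_lit 78) (PT.lf (nat_lit 25308) (nat_lit 6) (nat_lit 333) (nat_lit 2) (nat_lit 151) (nat_lit 155) (nat_lit 144)) (PT.lf (nat_lit 24852) (nat_lit 6) (nat_lit 327) (nat_lit 2) (nat_lit 152) (nat_lit 155) (nat_lit 143)))) (PT.nd (nat_lit 156) (PT.nd (nat_lit 78) (PT.lf (nat_lit 24320) (nat_lit 6) (nat_lit 320) (nat_lit 2) (nat_lit 153) (nat_lit 155) (nat_lit 142)) (PT.lf (nat_lit 23712) (nat_lit 6) (nat_lit 312) (nat_lit 2) (nat_lit 154) (nat_lit 155) (nat_lit 141))) (PT.nd (nat_lit 78) (PT.lf (nat_lit 23028) (nat_lit 3) (nat_lit 303) (nat_lit 0) (nat_lit 155) (nat_lit 155) (nat_lit 140)) (PT.lf (nat_lit 22192) (nat_lit 6) (nat_lit 292) (nat_lit 0) (nat_lit 156) (nat_lit 155) (nat_lit 139))))) (PT.nd (nat_lit 234) (PT.nd (nat_lit 78) (PT.lf (nat_lit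 21280) (nat_lit 6) (nat_lit 280) (nat_lit 0) (nat_lit 157) (nat_lit 155) (nat_lit 138)) (PT.nd (nat_lit 78) (PT.lf (nat_lit 20292) (nat_lit 6) (nat_lit 267) (nat_lit 0) (nat_lit 158) (nat_lit 155) (nat_lit 137)) (PT.lf (nat_lit 19228) (nat_lit 6) (nat_lit 253) (nat_lit 0) (nat_lit 159) (nat_lit 155) (nat_lit 136)))) (PT.nd (nat_lit 156) (PT.nd (nat_lit 78) (PT.lf (nat_lit 18088) (nat_lit 6) (nat_lit 238) (nat_lit 0) (nat_lit 160) (nat_lit 155) (nat_lit 135)) (PT.lf (nat_lit 16872) (nat_lit 6) (nat_lit 222) (nat_lit 0) (nat_lit 161) (nat_lit 155) (nat_lit 134))) (PT.nd (nat_lit 78) (PT.lf (nat_lit 15808) (nat_lit 6) (nat_lit 208) (nat_lit 0) (nat_lit 162) (nat_lit 155) (nat_lit 133)) (PT.lf (nat_lit 15124) (nat_lit 6) (nat_lit 199) (nat_lit 0) (nat_lit 163) (nat_lit 155) (nat_lit 132))))))) (PT.nd (nat_lit 44694) (PT.nd (nat_lit 44148) (PT.nd (nat_lit 234) (PT.nd (nat_lit 78) (PT.lf (nat_lit 14516)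 (nat_lit 6) (nat_lit 191) (nat_lit 0) (nat_lit 164) (nat_lit 155) (nat_lit 131)) (PT.nd (nat_lit 78) (PT.lf (nat_lit 13832) (nat_lit 6) (nat_lit 182) (nat_lit 0) (nat_lit 165) (nat_lit 155) (nat_lit 130)) (PT.lf (nat_lit 13224) (nat_lit 6) (nat_lit 174) (nat_lit 0) (nat_lit 166) (nat_lit 155) (nat_lit 129)))) (PT.nd (nat_lit 43758) (PT.nd (nat_lit 43680) (PT.lf (nat_lit 12616) (nat_lit 6) (nat_lit 166) (nat_lit 0) (nat_lit 167) (nat_lit 155) (nat_lit 128)) (PT.lf (nat_lit 11628) (nat_lit 6) (nat_lit 153) (nat_lit 5) (nat_lit 126) (nat_lit 156) (nat_lit 168))) (PT.nd (nat_lit 78) (PT.lf (nat_lit 12160) (nat_lit 6) (nat_lit 160) (nat_lit 5) (nat_lit 127) (nat_lit 156) (nat_lit 167)) (PT.lf (nat_lit 12692) (nat_lit 6) (nat_lit 167) (nat_lit 5) (nat_lit 128) (nat_lit 156) (nat_lit 166))))) (PT.nd (nat_lit 234) (PT.nd (nat_lit 78) (PT.lf (nat_lit 13300) (nat_lit 6) (nat_lit 175) (nat_lit 5) (nat_lit 129)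 (nat_lit 156) (nat_lit 165)) (PT.nd (nat_lit 78) (PT.lf (nat_lit 13908) (nat_lit 6) (nat_lit 183) (nat_lit 5) (nat_lit 130) (nat_lit 156) (nat_lit 164)) (PT.lf (nat_lit 14592) (nat_lit 6) (nat_lit 192) (nat_lit 5) (nat_lit 131) (nat_lit 156) (nat_lit 163)))) (PT.nd (nat_lit 156) (PT.nd (nat_lit 78) (PT.lf (nat_lit 15200) (nat_lit 6) (nat_lit 200) (nat_lit 5) (nat_lit 132) (nat_lit 156) (nat_lit 162)) (PT.lf (nat_lit 15884) (nat_lit 6) (nat_lit 209) (nat_lit 5) (nat_lit 133) (nat_lit 156) (nat_lit 161))) (PT.nd (nat_lit 78) (PT.lf (nat_lit 16948) (nat_lit 6) (nat_lit 223) (nat_lit 5) (nat_lit 134) (nat_lit 156) (nat_lit 160)) (PT.lf (nat_lit 18164) (nat_lit 6) (nat_lit 239) (nat_lit 5) (nat_lit 135) (nat_lit 156) (nat_lit 159)))))) (PT.nd (nat_lit 546) (PT.nd (nat_lit 234) (PT.nd (nat_lit 78) (PT.lf (nat_lit 19304) (nat_lit 6) (nat_lit 254) (nat_lit 5) (nat_lit 136) (nat_lit 156) (nat_lit 158)) (PT.nd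 (nat_lit 78) (PT.lf (nat_lit 20368) (nat_lit 6) (nat_lit 268) (nat_lit 5) (nat_lit 137) (nat_lit 156) (nat_lit 157)) (PT.lf (nat_lit 21356) (nat_lit 3) (nat_lit 281) (nat_lit 4) (nat_lit 138) (nat_lit 156) (nat_lit 156)))) (PT.nd (nat_lit 156) (PT.nd (nat_lit 78) (PT.lf (nat_lit 22192) (nat_lit 6) (nat_lit 292) (nat_lit 4) (nat_lit 139) (nat_lit 156) (nat_lit 155)) (PT.lf (nat_lit 22952) (nat_lit 6) (nat_lit 302) (nat_lit 4) (nat_lit 140) (nat_lit 156) (nat_lit 154))) (PT.nd (nat_lit 78) (PT.lf (nat_lit 23636) (nat_lit 6) (nat_lit 311) (nat_lit 4) (nat_lit 141) (nat_lit 156) (nat_lit 153)) (PT.lf (nat_lit 24244) (nat_lit 6) (nat_lit 319) (nat_lit 4) (nat_lit 142) (nat_lit 156) (nat_lit 152))))) (PT.nd (nat_lit 234) (PT.nd (nat_lit 78) (PT.lf (nat_lit 24776) (nat_lit 6) (nat_lit 326) (nat_lit 4) (nat_lit 143) (nat_lit 156) (nat_lit 151)) (PT.nd (nat_lit 78) (PT.lf (nat_lit 25232) (nat_lit 6) (nat_lit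 332) (nat_lit 4) (nat_lit 144) (nat_lit 156) (nat_lit 150)) (PT.lf (nat_lit 25156) (nat_lit 6) (nat_lit 331) (nat_lit 4) (nat_lit 145) (nat_lit 156) (nat_lit 149)))) (PT.nd (nat_lit 156) (PT.nd (nat_lit 78) (PT.lf (nat_lit 25080) (nat_lit 6) (nat_lit 330) (nat_lit 4) (nat_lit 146) (nat_lit 156) (nat_lit 148)) (PT.lf (nat_lit 25004) (nat_lit 3) (nat_lit 329) (nat_lit 2) (nat_lit 147) (nat_lit 156) (nat_lit 147))) (PT.nd (nat_lit 78) (PT.lf (nat_lit 25080) (nat_lit 6) (nat_lit 330) (nat_lit 2) (nat_lit 148) (nat_lit 156) (nat_lit 146)) (PT.lf (nat_lit 25156) (nat_lit 6) (nat_lit 331) (nat_lit 2) (nat_lit 149) (nat_lit 156) (nat_lit 145))))))))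
noncomputable def pc17 : PT := (PT.nd (nat_lit 45630) (PT.nd (nat_lit 1092) (PT.nd (nat_lit 546) (PT.nd (nat_lit 234) (PT.nd (nat_lit 78) (PT.lf (nat_lit 25232) (nat_lit 6) (nat_lit 332) (nat_lit 2) (nat_lit 150) (nat_lit 156) (nat_lit 144)) (PT.nd (nat_lit 78) (PT.lf (nat_lit 24776) (nat_lit 6) (nat_lit 326) (nat_lit 2) (nat_lit 151) (nat_lit 156) (nat_lit 143)) (PT.lf (nat_lit 24244) (nat_lit 6) (nat_lit 319) (nat_lit 2) (nat_lit 152) (nat_lit 156) (nat_lit 142)))) (PT.nd (nat_lit 156) (PT.nd (nat_lit 78) (PT.lf (nat_lit 23636) (nat_lit 6) (nat_lit 311) (nat_lit 2) (nat_lit 153) (nat_lit 156) (nat_lit 141)) (PT.lf (nat_lit 22952) (nat_lit 6) (nat_lit 302) (nat_lit 2) (nat_lit 154) (nat_lit 156) (nat_lit 140))) (PT.nd (nat_lit 78) (PT.lf (nat_lit 22192) (nat_lit 6) (nat_lit 292) (nat_lit 2) (nat_lit 155) (nat_lit 156) (nat_lit 139)) (PT.lf (nat_lit 21356) (nat_lit 3) (nat_lit 281) (nat_lit 0) (nat_lit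 156) (nat_lit 156) (nat_lit 138))))) (PT.nd (nat_lit 234) (PT.nd (nat_lit 78) (PT.lf (nat_lit 20368) (nat_lit 6) (nat_lit 268) (nat_lit 0) (nat_lit 157) (nat_lit 156) (nat_lit 137)) (PT.nd (nat_lit 78) (PT.lf (nat_lit 19304) (nat_lit 6) (nat_lit 254) (nat_lit 0) (nat_lit 158) (nat_lit 156) (nat_lit 136)) (PT.lf (nat_lit 18164) (nat_lit 6) (nat_lit 239) (nat_lit 0) (nat_lit 159) (nat_lit 156) (nat_lit 135)))) (PT.nd (nat_lit 156) (PT.nd (nat_lit 78) (PT.lf (nat_lit 16948) (nat_lit 6) (nat_lit 223) (nat_lit 0) (nat_lit 160) (nat_lit 156) (nat_lit 134)) (PT.lf (nat_lit 15884) (nat_lit 6) (nat_lit 209) (nat_lit 0) (nat_lit 161) (nat_lit 156) (nat_lit 133))) (PT.nd (nat_lit 78) (PT.lf (nat_lit 15200) (nat_lit 6) (nat_lit 200) (nat_lit 0) (nat_lit 162) (nat_lit 156) (nat_lit 132)) (PT.lf (nat_lit 14592) (nat_lit 6) (nat_lit 192) (nat_lit 0) (nat_lit 163) (nat_lit 156) (nat_lit 131)))))) (PT.nd (nat_lit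 43992) (PT.nd (nat_lit 234) (PT.nd (nat_lit 78) (PT.lf (nat_lit 13908) (nat_lit 6) (nat_lit 183) (nat_lit 0) (nat_lit 164) (nat_lit 156) (nat_lit 130)) (PT.nd (nat_lit 78) (PT.lf (nat_lit 13300) (nat_lit 6) (nat_lit 175) (nat_lit 0) (nat_lit 165) (nat_lit 156) (nat_lit 129)) (PT.lf (nat_lit 12692) (nat_lit 6) (nat_lit 167) (nat_lit 0) (nat_lit 166) (nat_lit 156) (nat_lit 128)))) (PT.nd (nat_lit 43602) (PT.nd (nat_lit 78) (PT.lf (nat_lit 12160) (nat_lit 6) (nat_lit 160) (nat_lit 0) (nat_lit 167) (nat_lit 156) (nat_lit 127)) (PT.lf (nat_lit 11628) (nat_lit 6) (nat_lit 153) (nat_lit 0) (nat_lit 168) (nat_lit 156) (nat_lit 126))) (PT.nd (nat_lit 78) (PT.lf (nat_lit 11172) (nat_lit 6) (nat_lit 147) (nat_lit 5) (nat_lit 125) (nat_lit 157) (nat_lit 168)) (PT.lf (nat_lit 11704) (nat_lit 6) (nat_lit 154) (nat_lit 5) (nat_lit 126) (nat_lit 157) (nat_lit 167))))) (PT.nd (nat_lit 234) (PT.nd (nat_lit 78) (PT.lf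 (nat_lit 12236) (nat_lit 6) (nat_lit 161) (nat_lit 5) (nat_lit 127) (nat_lit 157) (nat_lit 166)) (PT.nd (nat_lit 78) (PT.lf (nat_lit 12768) (nat_lit 6) (nat_lit 168) (nat_lit 5) (nat_lit 128) (nat_lit 157) (nat_lit 165)) (PT.lf (nat_lit 13376) (nat_lit 6) (nat_lit 176) (nat_lit 5) (nat_lit 129) (nat_lit 157) (nat_lit 164)))) (PT.nd (nat_lit 156) (PT.nd (nat_lit 78) (PT.lf (nat_lit 13984) (nat_lit 6) (nat_lit 184) (nat_lit 5) (nat_lit 130) (nat_lit 157) (nat_lit 163)) (PT.lf (nat_lit 14668) (nat_lit 6) (nat_lit 193) (nat_lit 5) (nat_lit 131) (nat_lit 157) (nat_lit 162))) (PT.nd (nat_lit 78) (PT.lf (nat_lit 15276) (nat_lit 6) (nat_lit 201) (nat_lit 5) (nat_lit 132) (nat_lit 157) (nat_lit 161)) (PT.lf (nat_lit 15960) (nat_lit 6) (nat_lit 210) (nat_lit 5) (nat_lit 133) (nat_lit 157) (nat_lit 160))))))) (PT.nd (nat_lit 1092) (PT.nd (nat_lit 546) (PT.nd (nat_lit 234) (PT.nd (nat_lit 78) (PT.lf (nat_lit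 17024) (nat_lit 6) (nat_lit 224) (nat_lit 5) (nat_lit 134) (nat_lit 157) (nat_lit 159)) (PT.nd (nat_lit 78) (PT.lf (nat_lit 18240) (nat_lit 6) (nat_lit 240) (nat_lit 5) (nat_lit 135) (nat_lit 157) (nat_lit 158)) (PT.lf (nat_lit 19380) (nat_lit 3) (nat_lit 255) (nat_lit 4) (nat_lit 136) (nat_lit 157) (nat_lit 157)))) (PT.nd (nat_lit 156) (PT.nd (nat_lit 78) (PT.lf (nat_lit 20368) (nat_lit 6) (nat_lit 268) (nat_lit 4) (nat_lit 137) (nat_lit 157) (nat_lit 156)) (PT.lf (nat_lit 21280) (nat_lit 6) (nat_lit 280) (nat_lit 4) (nat_lit 138) (nat_lit 157) (nat_lit 155))) (PT.nd (nat_lit 78) (PT.lf (nat_lit 22116) (nat_lit 6) (nat_lit 291) (nat_lit 4) (nat_lit 139) (nat_lit 157) (nat_lit 154)) (PT.lf (nat_lit 22876) (nat_lit 6) (nat_lit 301) (nat_lit 4) (nat_lit 140) (nat_lit 157) (nat_lit 153))))) (PT.nd (nat_lit 234) (PT.nd (nat_lit 78) (PT.lf (nat_lit 23560) (nat_lit 6) (nat_lit 310) (nat_lit 4) (nat_lit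 141) (nat_lit 157) (nat_lit 152)) (PT.nd (nat_lit 78) (PT.lf (nat_lit 24168) (nat_lit 6) (nat_lit 318) (nat_lit 4) (nat_lit 142) (nat_lit 157) (nat_lit 151)) (PT.lf (nat_lit 24700) (nat_lit 6) (nat_lit 325) (nat_lit 4) (nat_lit 143) (nat_lit 157) (nat_lit 150)))) (PT.nd (nat_lit 156) (PT.nd (nat_lit 78) (PT.lf (nat_lit 24624) (nat_lit 6) (nat_lit 324) (nat_lit 4) (nat_lit 144) (nat_lit 157) (nat_lit 149)) (PT.lf (nat_lit 24548) (nat_lit 6) (nat_lit 323) (nat_lit 4) (nat_lit 145) (nat_lit 157) (nat_lit 148))) (PT.nd (nat_lit 78) (PT.lf (nat_lit 24472) (nat_lit 6) (nat_lit 322) (nat_lit 4) (nat_lit 146) (nat_lit 157) (nat_lit 147)) (PT.lf (nat_lit 24472) (nat_lit 6) (nat_lit 322) (nat_lit 2) (nat_lit 147) (nat_lit 157) (nat_lit 146)))))) (PT.nd (nat_lit 546) (PT.nd (nat_lit 234) (PT.nd (nat_lit 78) (PT.lf (nat_lit 24548) (nat_lit 6) (nat_lit 323) (nat_lit 2) (nat_lit 148) (nat_lit 157) (nat_lit 145))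 (PT.nd (nat_lit 78) (PT.lf (nat_lit 24624) (nat_lit 6) (nat_lit 324) (nat_lit 2) (nat_lit 149) (nat_lit 157) (nat_lit 144)) (PT.lf (nat_lit 24700) (nat_lit 6) (nat_lit 325) (nat_lit 2) (nat_lit 150) (nat_lit 157) (nat_lit 143)))) (PT.nd (nat_lit 156) (PT.nd (nat_lit 78) (PT.lf (nat_lit 24168) (nat_lit 6) (nat_lit 318) (nat_lit 2) (nat_lit 151) (nat_lit 157) (nat_lit 142)) (PT.lf (nat_lit 23560) (nat_lit 6) (nat_lit 310) (nat_lit 2) (nat_lit 152) (nat_lit 157) (nat_lit 141))) (PT.nd (nat_lit 78) (PT.lf (nat_lit 22876) (nat_lit 6) (nat_lit 301) (nat_lit 2) (nat_lit 153) (nat_lit 157) (nat_lit 140)) (PT.lf (nat_lit 22116) (nat_lit 6) (nat_lit 291) (nat_lit 2) (nat_lit 154) (nat_lit 157) (nat_lit 139))))) (PT.nd (nat_lit 234) (PT.nd (nat_lit 78) (PT.lf (nat_lit 21280) (nat_lit 6) (nat_lit 280) (nat_lit 2) (nat_lit 155) (nat_lit 157) (nat_lit 138)) (PT.nd (nat_lit 78) (PT.lf (nat_lit 20368) (nat_lit 6)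 (nat_lit 268) (nat_lit 2) (nat_lit 156) (nat_lit 157) (nat_lit 137)) (PT.lf (nat_lit 19380) (nat_lit 3) (nat_lit 255) (nat_lit 0) (nat_lit 157) (nat_lit 157) (nat_lit 136)))) (PT.nd (nat_lit 156) (PT.nd (nat_lit 78) (PT.lf (nat_lit 18240) (nat_lit 6) (nat_lit 240) (nat_lit 0) (nat_lit 158) (nat_lit 157) (nat_lit 135)) (PT.lf (nat_lit 17024) (nat_lit 6) (nat_lit 224) (nat_lit 0) (nat_lit 159) (nat_lit 157) (nat_lit 134))) (PT.nd (nat_lit 78) (PT.lf (nat_lit 15960) (nat_lit 6) (nat_lit 210) (nat_lit 0) (nat_lit 160) (nat_lit 157) (nat_lit 133)) (PT.lf (nat_lit 15276) (nat_lit 6) (nat_lit 201) (nat_lit 0) (nat_lit 161) (nat_lit 157) (nat_lit 132))))))))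
noncomputable def pc18 : PT := (PT.nd (nat_lit 45552) (PT.nd (nat_lit 44460) (PT.nd (nat_lit 43914) (PT.nd (nat_lit 234) (PT.nd (nat_lit 78) (PT.lf (nat_lit 14668) (nat_lit 6) (nat_lit 193) (nat_lit 0) (nat_lit 162) (nat_lit 157) (nat_lit 131)) (PT.nd (nat_lit 78) (PT.lf (nat_lit 13984) (nat_lit 6) (nat_lit 184) (nat_lit 0) (nat_lit 163) (nat_lit 157) (nat_lit 130)) (PT.lf (nat_lit 13376) (nat_lit 6) (nat_lit 176) (nat_lit 0) (nat_lit 164) (nat_lit 157) (nat_lit 129)))) (PT.nd (nat_lit 156) (PT.nd (nat_lit 78) (PT.lf (nat_lit 12768) (nat_lit 6) (nat_lit 168) (nat_lit 0) (nat_lit 165) (nat_lit 157) (nat_lit 128)) (PT.lf (nat_lit 12236) (nat_lit 6) (nat_lit 161) (nat_lit 0) (nat_lit 166) (nat_lit 157) (nat_lit 127))) (PT.nd (nat_lit 78) (PT.lf (nat_lit 11704) (nat_lit 6) (nat_lit 154) (nat_lit 0) (nat_lit 167) (nat_lit 157) (nat_lit 126)) (PT.lf (nat_lit 11172) (nat_lit 6) (nat_lit 147) (nat_lit 0)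 (nat_lit 168) (nat_lit 157) (nat_lit 125))))) (PT.nd (nat_lit 234) (PT.nd (nat_lit 78) (PT.lf (nat_lit 10716) (nat_lit 6) (nat_lit 141) (nat_lit 5) (nat_lit 124) (nat_lit 158) (nat_lit 168)) (PT.nd (nat_lit 78) (PT.lf (nat_lit 11248) (nat_lit 6) (nat_lit 148) (nat_lit 5) (nat_lit 125) (nat_lit 158) (nat_lit 167)) (PT.lf (nat_lit 11780) (nat_lit 6) (nat_lit 155) (nat_lit 5) (nat_lit 126) (nat_lit 158) (nat_lit 166)))) (PT.nd (nat_lit 156) (PT.nd (nat_lit 78) (PT.lf (nat_lit 12312) (nat_lit 6) (nat_lit 162) (nat_lit 5) (nat_lit 127) (nat_lit 158) (nat_lit 165)) (PT.lf (nat_lit 12844) (nat_lit 6) (nat_lit 169) (nat_lit 5) (nat_lit 128) (nat_lit 158) (nat_lit 164))) (PT.nd (nat_lit 78) (PT.lf (nat_lit 13452) (nat_lit 6) (nat_lit 177) (nat_lit 5) (nat_lit 129) (nat_lit 158) (nat_lit 163)) (PT.lf (nat_lit 14060) (nat_lit 6) (nat_lit 185) (nat_lit 5) (nat_lit 130) (nat_lit 158) (nat_lit 162)))))) (PT.nd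 (nat_lit 546) (PT.nd (nat_lit 234) (PT.nd (nat_lit 78) (PT.lf (nat_lit 14744) (nat_lit 6) (nat_lit 194) (nat_lit 5) (nat_lit 131) (nat_lit 158) (nat_lit 161)) (PT.nd (nat_lit 78) (PT.lf (nat_lit 15352) (nat_lit 6) (nat_lit 202) (nat_lit 5) (nat_lit 132) (nat_lit 158) (nat_lit 160)) (PT.lf (nat_lit 16036) (nat_lit 6) (nat_lit 211) (nat_lit 5) (nat_lit 133) (nat_lit 158) (nat_lit 159)))) (PT.nd (nat_lit 156) (PT.nd (nat_lit 78) (PT.lf (nat_lit 17100) (nat_lit 3) (nat_lit 225) (nat_lit 4) (nat_lit 134) (nat_lit 158) (nat_lit 158)) (PT.lf (nat_lit 18240) (nat_lit 6) (nat_lit 240) (nat_lit 4) (nat_lit 135) (nat_lit 158) (nat_lit 157))) (PT.nd (nat_lit 78) (PT.lf (nat_lit 19304) (nat_lit 6) (nat_lit 254) (nat_lit 4) (nat_lit 136) (nat_lit 158) (nat_lit 156)) (PT.lf (nat_lit 20292) (nat_lit 6) (nat_lit 267) (nat_lit 4) (nat_lit 137) (nat_lit 158) (nat_lit 155))))) (PT.nd (nat_lit 234) (PT.nd (nat_lit 78)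 (PT.lf (nat_lit 21204) (nat_lit 6) (nat_lit 279) (nat_lit 4) (nat_lit 138) (nat_lit 158) (nat_lit 154)) (PT.nd (nat_lit 78) (PT.lf (nat_lit 22040) (nat_lit 6) (nat_lit 290) (nat_lit 4) (nat_lit 139) (nat_lit 158) (nat_lit 153)) (PT.lf (nat_lit 22800) (nat_lit 6) (nat_lit 300) (nat_lit 4) (nat_lit 140) (nat_lit 158) (nat_lit 152)))) (PT.nd (nat_lit 156) (PT.nd (nat_lit 78) (PT.lf (nat_lit 23484) (nat_lit 6) (nat_lit 309) (nat_lit 4) (nat_lit 141) (nat_lit 158) (nat_lit 151)) (PT.lf (nat_lit 24092) (nat_lit 6) (nat_lit 317) (nat_lit 4) (nat_lit 142) (nat_lit 158) (nat_lit 150))) (PT.nd (nat_lit 78) (PT.lf (nat_lit 24016) (nat_lit 6) (nat_lit 316) (nat_lit 4) (nat_lit 143) (nat_lit 158) (nat_lit 149)) (PT.lf (nat_lit 23940) (nat_lit 6) (nat_lit 315) (nat_lit 4) (nat_lit 144) (nat_lit 158) (nat_lit 148))))))) (PT.nd (nat_lit 1092) (PT.nd (nat_lit 546) (PT.nd (nat_lit 234) (PT.nd (nat_lit 78) (PT.lf (nat_lit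 23864) (nat_lit 6) (nat_lit 314) (nat_lit 4) (nat_lit 145) (nat_lit 158) (nat_lit 147)) (PT.nd (nat_lit 78) (PT.lf (nat_lit 23788) (nat_lit 3) (nat_lit 313) (nat_lit 2) (nat_lit 146) (nat_lit 158) (nat_lit 146)) (PT.lf (nat_lit 23864) (nat_lit 6) (nat_lit 314) (nat_lit 2) (nat_lit 147) (nat_lit 158) (nat_lit 145)))) (PT.nd (nat_lit 156) (PT.nd (nat_lit 78) (PT.lf (nat_lit 23940) (nat_lit 6) (nat_lit 315) (nat_lit 2) (nat_lit 148) (nat_lit 158) (nat_lit 144)) (PT.lf (nat_lit 24016) (nat_lit 6) (nat_lit 316) (nat_lit 2) (nat_lit 149) (nat_lit 158) (nat_lit 143))) (PT.nd (nat_lit 78) (PT.lf (nat_lit 24092) (nat_lit 6) (nat_lit 317) (nat_lit 2) (nat_lit 150) (nat_lit 158) (nat_lit 142)) (PT.lf (nat_lit 23484) (nat_lit 6) (nat_lit 309) (nat_lit 2) (nat_lit 151) (nat_lit 158) (nat_lit 141))))) (PT.nd (nat_lit 234) (PT.nd (nat_lit 78) (PT.lf (nat_lit 22800) (nat_lit 6) (nat_lit 300) (nat_lit 2) (nat_lit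 152) (nat_lit 158) (nat_lit 140)) (PT.nd (nat_lit 78) (PT.lf (nat_lit 22040) (nat_lit 6) (nat_lit 290) (nat_lit 2) (nat_lit 153) (nat_lit 158) (nat_lit 139)) (PT.lf (nat_lit 21204) (nat_lit 6) (nat_lit 279) (nat_lit 2) (nat_lit 154) (nat_lit 158) (nat_lit 138)))) (PT.nd (nat_lit 156) (PT.nd (nat_lit 78) (PT.lf (nat_lit 20292) (nat_lit 6) (nat_lit 267) (nat_lit 2) (nat_lit 155) (nat_lit 158) (nat_lit 137)) (PT.lf (nat_lit 19304) (nat_lit 6) (nat_lit 254) (nat_lit 2) (nat_lit 156) (nat_lit 158) (nat_lit 136))) (PT.nd (nat_lit 78) (PT.lf (nat_lit 18240) (nat_lit 6) (nat_lit 240) (nat_lit 2) (nat_lit 157) (nat_lit 158) (nat_lit 135)) (PT.lf (nat_lit 17100) (nat_lit 3) (nat_lit 225) (nat_lit 0) (nat_lit 158) (nat_lit 158) (nat_lit 134)))))) (PT.nd (nat_lit 546) (PT.nd (nat_lit 234) (PT.nd (nat_lit 78) (PT.lf (nat_lit 16036) (nat_lit 6) (nat_lit 211) (nat_lit 0) (nat_lit 159) (nat_lit 158) (nat_lit 133))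 (PT.nd (nat_lit 78) (PT.lf (nat_lit 15352) (nat_lit 6) (nat_lit 202) (nat_lit 0) (nat_lit 160) (nat_lit 158) (nat_lit 132)) (PT.lf (nat_lit 14744) (nat_lit 6) (nat_lit 194) (nat_lit 0) (nat_lit 161) (nat_lit 158) (nat_lit 131)))) (PT.nd (nat_lit 156) (PT.nd (nat_lit 78) (PT.lf (nat_lit 14060) (nat_lit 6) (nat_lit 185) (nat_lit 0) (nat_lit 162) (nat_lit 158) (nat_lit 130)) (PT.lf (nat_lit 13452) (nat_lit 6) (nat_lit 177) (nat_lit 0) (nat_lit 163) (nat_lit 158) (nat_lit 129))) (PT.nd (nat_lit 78) (PT.lf (nat_lit 12844) (nat_lit 6) (nat_lit 169) (nat_lit 0) (nat_lit 164) (nat_lit 158) (nat_lit 128)) (PT.lf (nat_lit 12312) (nat_lit 6) (nat_lit 162) (nat_lit 0) (nat_lit 165) (nat_lit 158) (nat_lit 127))))) (PT.nd (nat_lit 43446) (PT.nd (nat_lit 78) (PT.lf (nat_lit 11780) (nat_lit 6) (nat_lit 155) (nat_lit 0) (nat_lit 166) (nat_lit 158) (nat_lit 126)) (PT.nd (nat_lit 78) (PT.lf (nat_lit 11248) (nat_lit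 6) (nat_lit 148) (nat_lit 0) (nat_lit 167) (nat_lit 158) (nat_lit 125)) (PT.lf (nat_lit 10716) (nat_lit 6) (nat_lit 141) (nat_lit 0) (nat_lit 168) (nat_lit 158) (nat_lit 124)))) (PT.nd (nat_lit 156) (PT.nd (nat_lit 78) (PT.lf (nat_lit 9880) (nat_lit 6) (nat_lit 130) (nat_lit 5) (nat_lit 122) (nat_lit 159) (nat_lit 169)) (PT.lf (nat_lit 10336) (nat_lit 6) (nat_lit 136) (nat_lit 5) (nat_lit 123) (nat_lit 159) (nat_lit 168))) (PT.nd (nat_lit 78) (PT.lf (nat_lit 10792) (nat_lit 6) (nat_lit 142) (nat_lit 5) (nat_lit 124) (nat_lit 159) (nat_lit 167)) (PT.lf (nat_lit 11324) (nat_lit 6) (nat_lit 149) (nat_lit 5) (nat_lit 125) (nat_lit 159) (nat_lit 166))))))))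
noncomputable def pc19 : PT := (PT.nd (nat_lit 2184) (PT.nd (nat_lit 1092) (PT.nd (nat_lit 546) (PT.nd (nat_lit 234) (PT.nd (nat_lit 78) (PT.lf (nat_lit 11856) (nat_lit 6) (nat_lit 156) (nat_lit 5) (nat_lit 126) (nat_lit 159) (nat_lit 165)) (PT.nd (nat_lit 78) (PT.lf (nat_lit 12388) (nat_lit 6) (nat_lit 163) (nat_lit 5) (nat_lit 127) (nat_lit 159) (nat_lit 164)) (PT.lf (nat_lit 12920) (nat_lit 6) (nat_lit 170) (nat_lit 5) (nat_lit 128) (nat_lit 159) (nat_lit 163)))) (PT.nd (nat_lit 156) (PT.nd (nat_lit 78) (PT.lf (nat_lit 13528) (nat_lit 6) (nat_lit 178) (nat_lit 5) (nat_lit 129) (nat_lit 159) (nat_lit 162)) (PT.lf (nat_lit 14136) (nat_lit 6) (nat_lit 186) (nat_lit 5) (nat_lit 130) (nat_lit 159) (nat_lit 161))) (PT.nd (nat_lit 78) (PT.lf (nat_lit 14820) (nat_lit 6) (nat_lit 195) (nat_lit 5) (nat_lit 131) (nat_lit 159) (nat_lit 160)) (PT.lf (nat_lit 15428) (nat_lit 3) (nat_lit 203) (nat_lit 4) (nat_lit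 132) (nat_lit 159) (nat_lit 159))))) (PT.nd (nat_lit 234) (PT.nd (nat_lit 78) (PT.lf (nat_lit 16036) (nat_lit 6) (nat_lit 211) (nat_lit 4) (nat_lit 133) (nat_lit 159) (nat_lit 158)) (PT.nd (nat_lit 78) (PT.lf (nat_lit 17024) (nat_lit 6) (nat_lit 224) (nat_lit 4) (nat_lit 134) (nat_lit 159) (nat_lit 157)) (PT.lf (nat_lit 18164) (nat_lit 6) (nat_lit 239) (nat_lit 4) (nat_lit 135) (nat_lit 159) (nat_lit 156)))) (PT.nd (nat_lit 156) (PT.nd (nat_lit 78) (PT.lf (nat_lit 19228) (nat_lit 6) (nat_lit 253) (nat_lit 4) (nat_lit 136) (nat_lit 159) (nat_lit 155)) (PT.lf (nat_lit 20216) (nat_lit 6) (nat_lit 266) (nat_lit 4) (nat_lit 137) (nat_lit 159) (nat_lit 154))) (PT.nd (nat_lit 78) (PT.lf (nat_lit 21128) (nat_lit 6) (nat_lit 278) (nat_lit 4) (nat_lit 138) (nat_lit 159) (nat_lit 153)) (PT.lf (nat_lit 21964) (nat_lit 6) (nat_lit 289) (nat_lit 4) (nat_lit 139) (nat_lit 159) (nat_lit 152)))))) (PT.nd (nat_lit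 546) (PT.nd (nat_lit 234) (PT.nd (nat_lit 78) (PT.lf (nat_lit 22724) (nat_lit 6) (nat_lit 299) (nat_lit 4) (nat_lit 140) (nat_lit 159) (nat_lit 151)) (PT.nd (nat_lit 78) (PT.lf (nat_lit 23408) (nat_lit 6) (nat_lit 308) (nat_lit 4) (nat_lit 141) (nat_lit 159) (nat_lit 150)) (PT.lf (nat_lit 23332) (nat_lit 6) (nat_lit 307) (nat_lit 4) (nat_lit 142) (nat_lit 159) (nat_lit 149)))) (PT.nd (nat_lit 156) (PT.nd (nat_lit 78) (PT.lf (nat_lit 23256) (nat_lit 6) (nat_lit 306) (nat_lit 4) (nat_lit 143) (nat_lit 159) (nat_lit 148)) (PT.lf (nat_lit 23180) (nat_lit 6) (nat_lit 305) (nat_lit 4) (nat_lit 144) (nat_lit 159) (nat_lit 147))) (PT.nd (nat_lit 78) (PT.lf (nat_lit 23104) (nat_lit 6) (nat_lit 304) (nat_lit 4) (nat_lit 145) (nat_lit 159) (nat_lit 146)) (PT.lf (nat_lit 23104) (nat_lit 6) (nat_lit 304) (nat_lit 2) (nat_lit 146) (nat_lit 159) (nat_lit 145))))) (PT.nd (nat_lit 234) (PT.nd (nat_lit 78) (PT.lf (nat_lit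 23180) (nat_lit 6) (nat_lit 305) (nat_lit 2) (nat_lit 147) (nat_lit 159) (nat_lit 144)) (PT.nd (nat_lit 78) (PT.lf (nat_lit 23256) (nat_lit 6) (nat_lit 306) (nat_lit 2) (nat_lit 148) (nat_lit 159) (nat_lit 143)) (PT.lf (nat_lit 23332) (nat_lit 6) (nat_lit 307) (nat_lit 2) (nat_lit 149) (nat_lit 159) (nat_lit 142)))) (PT.nd (nat_lit 156) (PT.nd (nat_lit 78) (PT.lf (nat_lit 23408) (nat_lit 6) (nat_lit 308) (nat_lit 2) (nat_lit 150) (nat_lit 159) (nat_lit 141)) (PT.lf (nat_lit 22724) (nat_lit 6) (nat_lit 299) (nat_lit 2) (nat_lit 151) (nat_lit 159) (nat_lit 140))) (PT.nd (nat_lit 78) (PT.lf (nat_lit 21964) (nat_lit 6) (nat_lit 289) (nat_lit 2) (nat_lit 152) (nat_lit 159) (nat_lit 139)) (PT.lf (nat_lit 21128) (nat_lit 6) (nat_lit 278) (nat_lit 2) (nat_lit 153) (nat_lit 159) (nat_lit 138))))))) (PT.nd (nat_lit 1092) (PT.nd (nat_lit 546) (PT.nd (nat_lit 234) (PT.nd (nat_lit 78) (PT.lf (nat_lit 20216) (nat_lit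 6) (nat_lit 266) (nat_lit 2) (nat_lit 154) (nat_lit 159) (nat_lit 137)) (PT.nd (nat_lit 78) (PT.lf (nat_lit 19228) (nat_lit 6) (nat_lit 253) (nat_lit 2) (nat_lit 155) (nat_lit 159) (nat_lit 136)) (PT.lf (nat_lit 18164) (nat_lit 6) (nat_lit 239) (nat_lit 2) (nat_lit 156) (nat_lit 159) (nat_lit 135)))) (PT.nd (nat_lit 156) (PT.nd (nat_lit 78) (PT.lf (nat_lit 17024) (nat_lit 6) (nat_lit 224) (nat_lit 2) (nat_lit 157) (nat_lit 159) (nat_lit 134)) (PT.lf (nat_lit 16036) (nat_lit 6) (nat_lit 211) (nat_lit 2) (nat_lit 158) (nat_lit 159) (nat_lit 133))) (PT.nd (nat_lit 78) (PT.lf (nat_lit 15428) (nat_lit 3) (nat_lit 203) (nat_lit 0) (nat_lit 159) (nat_lit 159) (nat_lit 132)) (PT.lf (nat_lit 14820) (nat_lit 6) (nat_lit 195) (nat_lit 0) (nat_lit 160) (nat_lit 159) (nat_lit 131))))) (PT.nd (nat_lit 234) (PT.nd (nat_lit 78) (PT.lf (nat_lit 14136) (nat_lit 6) (nat_lit 186) (nat_lit 0) (nat_lit 161) (nat_lit 159)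 (nat_lit 130)) (PT.nd (nat_lit 78) (PT.lf (nat_lit 13528) (nat_lit 6) (nat_lit 178) (nat_lit 0) (nat_lit 162) (nat_lit 159) (nat_lit 129)) (PT.lf (nat_lit 12920) (nat_lit 6) (nat_lit 170) (nat_lit 0) (nat_lit 163) (nat_lit 159) (nat_lit 128)))) (PT.nd (nat_lit 156) (PT.nd (nat_lit 78) (PT.lf (nat_lit 12388) (nat_lit 6) (nat_lit 163) (nat_lit 0) (nat_lit 164) (nat_lit 159) (nat_lit 127)) (PT.lf (nat_lit 11856) (nat_lit 6) (nat_lit 156) (nat_lit 0) (nat_lit 165) (nat_lit 159) (nat_lit 126))) (PT.nd (nat_lit 78) (PT.lf (nat_lit 11324) (nat_lit 6) (nat_lit 149) (nat_lit 0) (nat_lit 166) (nat_lit 159) (nat_lit 125)) (PT.lf (nat_lit 10792) (nat_lit 6) (nat_lit 142) (nat_lit 0) (nat_lit 167) (nat_lit 159) (nat_lit 124)))))) (PT.nd (nat_lit 43602) (PT.nd (nat_lit 43290) (PT.nd (nat_lit 78) (PT.lf (nat_lit 10336) (nat_lit 6) (nat_lit 136) (nat_lit 0) (nat_lit 168) (nat_lit 159) (nat_lit 123)) (PT.nd (nat_lit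 43134) (PT.lf (nat_lit 9880) (nat_lit 6) (nat_lit 130) (nat_lit 0) (nat_lit 169) (nat_lit 159) (nat_lit 122)) (PT.lf (nat_lit 9500) (nat_lit 6) (nat_lit 125) (nat_lit 5) (nat_lit 121) (nat_lit 160) (nat_lit 169)))) (PT.nd (nat_lit 156) (PT.nd (nat_lit 78) (PT.lf (nat_lit 9956) (nat_lit 6) (nat_lit 131) (nat_lit 5) (nat_lit 122) (nat_lit 160) (nat_lit 168)) (PT.lf (nat_lit 10412) (nat_lit 6) (nat_lit 137) (nat_lit 5) (nat_lit 123) (nat_lit 160) (nat_lit 167))) (PT.nd (nat_lit 78) (PT.lf (nat_lit 10868) (nat_lit 6) (nat_lit 143) (nat_lit 5) (nat_lit 124) (nat_lit 160) (nat_lit 166)) (PT.lf (nat_lit 11400) (nat_lit 6) (nat_lit 150) (nat_lit 5) (nat_lit 125) (nat_lit 160) (nat_lit 165))))) (PT.nd (nat_lit 312) (PT.nd (nat_lit 156) (PT.nd (nat_lit 78) (PT.lf (nat_lit 11932) (nat_lit 6) (nat_lit 157) (nat_lit 5) (nat_lit 126) (nat_lit 160) (nat_lit 164)) (PT.lf (nat_lit 12464) (nat_lit 6) (nat_lit 164)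 (nat_lit 5) (nat_lit 127) (nat_lit 160) (nat_lit 163))) (PT.nd (nat_lit 78) (PT.lf (nat_lit 12996) (nat_lit 6) (nat_lit 171) (nat_lit 5) (nat_lit 128) (nat_lit 160) (nat_lit 162)) (PT.lf (nat_lit 13604) (nat_lit 6) (nat_lit 179) (nat_lit 5) (nat_lit 129) (nat_lit 160) (nat_lit 161)))) (PT.nd (nat_lit 156) (PT.nd (nat_lit 78) (PT.lf (nat_lit 14212) (nat_lit 3) (nat_lit 187) (nat_lit 4) (nat_lit 130) (nat_lit 160) (nat_lit 160)) (PT.lf (nat_lit 14820) (nat_lit 6) (nat_lit 195) (nat_lit 4) (nat_lit 131) (nat_lit 160) (nat_lit 159))) (PT.nd (nat_lit 78) (PT.lf (nat_lit 15352) (nat_lit 6) (nat_lit 202) (nat_lit 4) (nat_lit 132) (nat_lit 160) (nat_lit 158)) (PT.lf (nat_lit 15960) (nat_lit 6) (nat_lit 210) (nat_lit 4) (nat_lit 133) (nat_lit 160) (nat_lit 157))))))))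
noncomputable def pc20 : PT := (PT.nd (nat_lit 2184) (PT.nd (nat_lit 1092) (PT.nd (nat_lit 546) (PT.nd (nat_lit 234) (PT.nd (nat_lit 78) (PT.lf (nat_lit 16948) (nat_lit 6) (nat_lit 223) (nat_lit 4) (nat_lit 134) (nat_lit 160) (nat_lit 156)) (PT.nd (nat_lit 78) (PT.lf (nat_lit 18088) (nat_lit 6) (nat_lit 238) (nat_lit 4) (nat_lit 135) (nat_lit 160) (nat_lit 155)) (PT.lf (nat_lit 19152) (nat_lit 6) (nat_lit 252) (nat_lit 4) (nat_lit 136) (nat_lit 160) (nat_lit 154)))) (PT.nd (nat_lit 156) (PT.nd (nat_lit 78) (PT.lf (nat_lit 20140) (nat_lit 6) (nat_lit 265) (nat_lit 4) (nat_lit 137) (nat_lit 160) (nat_lit 153)) (PT.lf (nat_lit 21052) (nat_lit 6) (nat_lit 277) (nat_lit 4) (nat_lit 138) (nat_lit 160) (nat_lit 152))) (PT.nd (nat_lit 78) (PT.lf (nat_lit 21888) (nat_lit 6) (nat_lit 288) (nat_lit 4) (nat_lit 139) (nat_lit 160) (nat_lit 151)) (PT.lf (nat_lit 22648) (nat_lit 6) (nat_lit 298) (nat_lit 4) (nat_lit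 140) (nat_lit 160) (nat_lit 150))))) (PT.nd (nat_lit 234) (PT.nd (nat_lit 78) (PT.lf (nat_lit 22572) (nat_lit 6) (nat_lit 297) (nat_lit 4) (nat_lit 141) (nat_lit 160) (nat_lit 149)) (PT.nd (nat_lit 78) (PT.lf (nat_lit 22496) (nat_lit 6) (nat_lit 296) (nat_lit 4) (nat_lit 142) (nat_lit 160) (nat_lit 148)) (PT.lf (nat_lit 22420) (nat_lit 6) (nat_lit 295) (nat_lit 4) (nat_lit 143) (nat_lit 160) (nat_lit 147)))) (PT.nd (nat_lit 156) (PT.nd (nat_lit 78) (PT.lf (nat_lit 22344) (nat_lit 6) (nat_lit 294) (nat_lit 4) (nat_lit 144) (nat_lit 160) (nat_lit 146)) (PT.lf (nat_lit 22268) (nat_lit 3) (nat_lit 293) (nat_lit 2) (nat_lit 145) (nat_lit 160) (nat_lit 145))) (PT.nd (nat_lit 78) (PT.lf (nat_lit 22344) (nat_lit 6) (nat_lit 294) (nat_lit 2) (nat_lit 146) (nat_lit 160) (nat_lit 144)) (PT.lf (nat_lit 22420) (nat_lit 6) (nat_lit 295) (nat_lit 2) (nat_lit 147) (nat_lit 160) (nat_lit 143)))))) (PT.nd (nat_lit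 546) (PT.nd (nat_lit 234) (PT.nd (nat_lit 78) (PT.lf (nat_lit 22496) (nat_lit 6) (nat_lit 296) (nat_lit 2) (nat_lit 148) (nat_lit 160) (nat_lit 142)) (PT.nd (nat_lit 78) (PT.lf (nat_lit 22572) (nat_lit 6) (nat_lit 297) (nat_lit 2) (nat_lit 149) (nat_lit 160) (nat_lit 141)) (PT.lf (nat_lit 22648) (nat_lit 6) (nat_lit 298) (nat_lit 2) (nat_lit 150) (nat_lit 160) (nat_lit 140)))) (PT.nd (nat_lit 156) (PT.nd (nat_lit 78) (PT.lf (nat_lit 21888) (nat_lit 6) (nat_lit 288) (nat_lit 2) (nat_lit 151) (nat_lit 160) (nat_lit 139)) (PT.lf (nat_lit 21052) (nat_lit 6) (nat_lit 277) (nat_lit 2) (nat_lit 152) (nat_lit 160) (nat_lit 138))) (PT.nd (nat_lit 78) (PT.lf (nat_lit 20140) (nat_lit 6) (nat_lit 265) (nat_lit 2) (nat_lit 153) (nat_lit 160) (nat_lit 137)) (PT.lf (nat_lit 19152) (nat_lit 6) (nat_lit 252) (nat_lit 2) (nat_lit 154) (nat_lit 160) (nat_lit 136))))) (PT.nd (nat_lit 234) (PT.nd (nat_lit 78) (PT.lf (nat_lit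 18088) (nat_lit 6) (nat_lit 238) (nat_lit 2) (nat_lit 155) (nat_lit 160) (nat_lit 135)) (PT.nd (nat_lit 78) (PT.lf (nat_lit 16948) (nat_lit 6) (nat_lit 223) (nat_lit 2) (nat_lit 156) (nat_lit 160) (nat_lit 134)) (PT.lf (nat_lit 15960) (nat_lit 6) (nat_lit 210) (nat_lit 2) (nat_lit 157) (nat_lit 160) (nat_lit 133)))) (PT.nd (nat_lit 156) (PT.nd (nat_lit 78) (PT.lf (nat_lit 15352) (nat_lit 6) (nat_lit 202) (nat_lit 2) (nat_lit 158) (nat_lit 160) (nat_lit 132)) (PT.lf (nat_lit 14820) (nat_lit 6) (nat_lit 195) (nat_lit 2) (nat_lit 159) (nat_lit 160) (nat_lit 131))) (PT.nd (nat_lit 78) (PT.lf (nat_lit 14212) (nat_lit 3) (nat_lit 187) (nat_lit 0) (nat_lit 160) (nat_lit 160) (nat_lit 130)) (PT.lf (nat_lit 13604) (nat_lit 6) (nat_lit 179) (nat_lit 0) (nat_lit 161) (nat_lit 160) (nat_lit 129))))))) (PT.nd (nat_lit 43992) (PT.nd (nat_lit 546) (PT.nd (nat_lit 234) (PT.nd (nat_lit 78) (PT.lf (nat_lit 12996) (nat_lit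 6) (nat_lit 171) (nat_lit 0) (nat_lit 162) (nat_lit 160) (nat_lit 128)) (PT.nd (nat_lit 78) (PT.lf (nat_lit 12464) (nat_lit 6) (nat_lit 164) (nat_lit 0) (nat_lit 163) (nat_lit 160) (nat_lit 127)) (PT.lf (nat_lit 11932) (nat_lit 6) (nat_lit 157) (nat_lit 0) (nat_lit 164) (nat_lit 160) (nat_lit 126)))) (PT.nd (nat_lit 156) (PT.nd (nat_lit 78) (PT.lf (nat_lit 11400) (nat_lit 6) (nat_lit 150) (nat_lit 0) (nat_lit 165) (nat_lit 160) (nat_lit 125)) (PT.lf (nat_lit 10868) (nat_lit 6) (nat_lit 143) (nat_lit 0) (nat_lit 166) (nat_lit 160) (nat_lit 124))) (PT.nd (nat_lit 78) (PT.lf (nat_lit 10412) (nat_lit 6) (nat_lit 137) (nat_lit 0) (nat_lit 167) (nat_lit 160) (nat_lit 123)) (PT.lf (nat_lit 9956) (nat_lit 6) (nat_lit 131) (nat_lit 0) (nat_lit 168) (nat_lit 160) (nat_lit 122))))) (PT.nd (nat_lit 43134) (PT.nd (nat_lit 42978) (PT.lf (nat_lit 9500) (nat_lit 6) (nat_lit 125) (nat_lit 0) (nat_lit 169) (nat_lit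 160) (nat_lit 121)) (PT.nd (nat_lit 78) (PT.lf (nat_lit 8740) (nat_lit 6) (nat_lit 115) (nat_lit 5) (nat_lit 119) (nat_lit 161) (nat_lit 170)) (PT.lf (nat_lit 9120) (nat_lit 6) (nat_lit 120) (nat_lit 5) (nat_lit 120) (nat_lit 161) (nat_lit 169)))) (PT.nd (nat_lit 156) (PT.nd (nat_lit 78) (PT.lf (nat_lit 9576) (nat_lit 6) (nat_lit 126) (nat_lit 5) (nat_lit 121) (nat_lit 161) (nat_lit 168)) (PT.lf (nat_lit 10032) (nat_lit 6) (nat_lit 132) (nat_lit 5) (nat_lit 122) (nat_lit 161) (nat_lit 167))) (PT.nd (nat_lit 78) (PT.lf (nat_lit 10488) (nat_lit 6) (nat_lit 138) (nat_lit 5) (nat_lit 123) (nat_lit 161) (nat_lit 166)) (PT.lf (nat_lit 10944) (nat_lit 6) (nat_lit 144) (nat_lit 5) (nat_lit 124) (nat_lit 161) (nat_lit 165)))))) (PT.nd (nat_lit 546) (PT.nd (nat_lit 234) (PT.nd (nat_lit 78) (PT.lf (nat_lit 11476) (nat_lit 6) (nat_lit 151) (nat_lit 5) (nat_lit 125) (nat_lit 161) (nat_lit 164)) (PT.nd (nat_lit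 78) (PT.lf (nat_lit 12008) (nat_lit 6) (nat_lit 158) (nat_lit 5) (nat_lit 126) (nat_lit 161) (nat_lit 163)) (PT.lf (nat_lit 12540) (nat_lit 6) (nat_lit 165) (nat_lit 5) (nat_lit 127) (nat_lit 161) (nat_lit 162)))) (PT.nd (nat_lit 156) (PT.nd (nat_lit 78) (PT.lf (nat_lit 13072) (nat_lit 3) (nat_lit 172) (nat_lit 4) (nat_lit 128) (nat_lit 161) (nat_lit 161)) (PT.lf (nat_lit 13604) (nat_lit 6) (nat_lit 179) (nat_lit 4) (nat_lit 129) (nat_lit 161) (nat_lit 160))) (PT.nd (nat_lit 78) (PT.lf (nat_lit 14136) (nat_lit 6) (nat_lit 186) (nat_lit 4) (nat_lit 130) (nat_lit 161) (nat_lit 159)) (PT.lf (nat_lit 14744) (nat_lit 6) (nat_lit 194) (nat_lit 4) (nat_lit 131) (nat_lit 161) (nat_lit 158))))) (PT.nd (nat_lit 234) (PT.nd (nat_lit 78) (PT.lf (nat_lit 15276) (nat_lit 6) (nat_lit 201) (nat_lit 4) (nat_lit 132) (nat_lit 161) (nat_lit 157)) (PT.nd (nat_lit 78) (PT.lf (nat_lit 15884) (nat_lit 6) (nat_lit 209) (nat_lit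 4) (nat_lit 133) (nat_lit 161) (nat_lit 156)) (PT.lf (nat_lit 16872) (nat_lit 6) (nat_lit 222) (nat_lit 4) (nat_lit 134) (nat_lit 161) (nat_lit 155)))) (PT.nd (nat_lit 156) (PT.nd (nat_lit 78) (PT.lf (nat_lit 18012) (nat_lit 6) (nat_lit 237) (nat_lit 4) (nat_lit 135) (nat_lit 161) (nat_lit 154)) (PT.lf (nat_lit 19076) (nat_lit 6) (nat_lit 251) (nat_lit 4) (nat_lit 136) (nat_lit 161) (nat_lit 153))) (PT.nd (nat_lit 78) (PT.lf (nat_lit 20064) (nat_lit 6) (nat_lit 264) (nat_lit 4) (nat_lit 137) (nat_lit 161) (nat_lit 152)) (PT.lf (nat_lit 20976) (nat_lit 6) (nat_lit 276) (nat_lit 4) (nat_lit 138) (nat_lit 161) (nat_lit 151))))))))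
noncomputable def pc21 : PT := (PT.nd (nat_lit 2184) (PT.nd (nat_lit 1092) (PT.nd (nat_lit 546) (PT.nd (nat_lit 234) (PT.nd (nat_lit 78) (PT.lf (nat_lit 21812) (nat_lit 6) (nat_lit 287) (nat_lit 4) (nat_lit 139) (nat_lit 161) (nat_lit 150)) (PT.nd (nat_lit 78) (PT.lf (nat_lit 21736) (nat_lit 6) (nat_lit 286) (nat_lit 4) (nat_lit 140) (nat_lit 161) (nat_lit 149)) (PT.lf (nat_lit 21660) (nat_lit 6) (nat_lit 285) (nat_lit 4) (nat_lit 141) (nat_lit 161) (nat_lit 148)))) (PT.nd (nat_lit 156) (PT.nd (nat_lit 78) (PT.lf (nat_lit 21584) (nat_lit 6) (nat_lit 284) (nat_lit 4) (nat_lit 142) (nat_lit 161) (nat_lit 147)) (PT.lf (nat_lit 21508) (nat_lit 6) (nat_lit 283) (nat_lit 4) (nat_lit 143) (nat_lit 161) (nat_lit 146))) (PT.nd (nat_lit 78) (PT.lf (nat_lit 21432) (nat_lit 6) (nat_lit 282) (nat_lit 4) (nat_lit 144) (nat_lit 161) (nat_lit 145)) (PT.lf (nat_lit 21432) (nat_lit 6) (nat_lit 282) (nat_lit 2) (nat_lit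 145) (nat_lit 161) (nat_lit 144))))) (PT.nd (nat_lit 234) (PT.nd (nat_lit 78) (PT.lf (nat_lit 21508) (nat_lit 6) (nat_lit 283) (nat_lit 2) (nat_lit 146) (nat_lit 161) (nat_lit 143)) (PT.nd (nat_lit 78) (PT.lf (nat_lit 21584) (nat_lit 6) (nat_lit 284) (nat_lit 2) (nat_lit 147) (nat_lit 161) (nat_lit 142)) (PT.lf (nat_lit 21660) (nat_lit 6) (nat_lit 285) (nat_lit 2) (nat_lit 148) (nat_lit 161) (nat_lit 141)))) (PT.nd (nat_lit 156) (PT.nd (nat_lit 78) (PT.lf (nat_lit 21736) (nat_lit 6) (nat_lit 286) (nat_lit 2) (nat_lit 149) (nat_lit 161) (nat_lit 140)) (PT.lf (nat_lit 21812) (nat_lit 6) (nat_lit 287) (nat_lit 2) (nat_lit 150) (nat_lit 161) (nat_lit 139))) (PT.nd (nat_lit 78) (PT.lf (nat_lit 20976) (nat_lit 6) (nat_lit 276) (nat_lit 2) (nat_lit 151) (nat_lit 161) (nat_lit 138)) (PT.lf (nat_lit 20064) (nat_lit 6) (nat_lit 264) (nat_lit 2) (nat_lit 152) (nat_lit 161) (nat_lit 137)))))) (PT.nd (nat_lit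 546) (PT.nd (nat_lit 234) (PT.nd (nat_lit 78) (PT.lf (nat_lit 19076) (nat_lit 6) (nat_lit 251) (nat_lit 2) (nat_lit 153) (nat_lit 161) (nat_lit 136)) (PT.nd (nat_lit 78) (PT.lf (nat_lit 18012) (nat_lit 6) (nat_lit 237) (nat_lit 2) (nat_lit 154) (nat_lit 161) (nat_lit 135)) (PT.lf (nat_lit 16872) (nat_lit 6) (nat_lit 222) (nat_lit 2) (nat_lit 155) (nat_lit 161) (nat_lit 134)))) (PT.nd (nat_lit 156) (PT.nd (nat_lit 78) (PT.lf (nat_lit 15884) (nat_lit 6) (nat_lit 209) (nat_lit 2) (nat_lit 156) (nat_lit 161) (nat_lit 133)) (PT.lf (nat_lit 15276) (nat_lit 6) (nat_lit 201) (nat_lit 2) (nat_lit 157) (nat_lit 161) (nat_lit 132))) (PT.nd (nat_lit 78) (PT.lf (nat_lit 14744) (nat_lit 6) (nat_lit 194) (nat_lit 2) (nat_lit 158) (nat_lit 161) (nat_lit 131)) (PT.lf (nat_lit 14136) (nat_lit 6) (nat_lit 186) (nat_lit 2) (nat_lit 159) (nat_lit 161) (nat_lit 130))))) (PT.nd (nat_lit 234) (PT.nd (nat_lit 78) (PT.lf (nat_lit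 13604) (nat_lit 6) (nat_lit 179) (nat_lit 2) (nat_lit 160) (nat_lit 161) (nat_lit 129)) (PT.nd (nat_lit 78) (PT.lf (nat_lit 13072) (nat_lit 3) (nat_lit 172) (nat_lit 0) (nat_lit 161) (nat_lit 161) (nat_lit 128)) (PT.lf (nat_lit 12540) (nat_lit 6) (nat_lit 165) (nat_lit 0) (nat_lit 162) (nat_lit 161) (nat_lit 127)))) (PT.nd (nat_lit 156) (PT.nd (nat_lit 78) (PT.lf (nat_lit 12008) (nat_lit 6) (nat_lit 158) (nat_lit 0) (nat_lit 163) (nat_lit 161) (nat_lit 126)) (PT.lf (nat_lit 11476) (nat_lit 6) (nat_lit 151) (nat_lit 0) (nat_lit 164) (nat_lit 161) (nat_lit 125))) (PT.nd (nat_lit 78) (PT.lf (nat_lit 10944) (nat_lit 6) (nat_lit 144) (nat_lit 0) (nat_lit 165) (nat_lit 161) (nat_lit 124)) (PT.lf (nat_lit 10488) (nat_lit 6) (nat_lit 138) (nat_lit 0) (nat_lit 166) (nat_lit 161) (nat_lit 123))))))) (PT.nd (nat_lit 43836) (PT.nd (nat_lit 43290) (PT.nd (nat_lit 234) (PT.nd (nat_lit 78) (PT.lf (nat_lit 10032)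 (nat_lit 6) (nat_lit 132) (nat_lit 0) (nat_lit 167) (nat_lit 161) (nat_lit 122)) (PT.nd (nat_lit 78) (PT.lf (nat_lit 9576) (nat_lit 6) (nat_lit 126) (nat_lit 0) (nat_lit 168) (nat_lit 161) (nat_lit 121)) (PT.lf (nat_lit 9120) (nat_lit 6) (nat_lit 120) (nat_lit 0) (nat_lit 169) (nat_lit 161) (nat_lit 120)))) (PT.nd (nat_lit 42900) (PT.nd (nat_lit 42822) (PT.lf (nat_lit 8740) (nat_lit 6) (nat_lit 115) (nat_lit 0) (nat_lit 170) (nat_lit 161) (nat_lit 119)) (PT.lf (nat_lit 8360) (nat_lit 6) (nat_lit 110) (nat_lit 5) (nat_lit 118) (nat_lit 162) (nat_lit 170))) (PT.nd (nat_lit 78) (PT.lf (nat_lit 8816) (nat_lit 6) (nat_lit 116) (nat_lit 5) (nat_lit 119) (nat_lit 162) (nat_lit 169)) (PT.lf (nat_lit 9196) (nat_lit 6) (nat_lit 121) (nat_lit 5) (nat_lit 120) (nat_lit 162) (nat_lit 168))))) (PT.nd (nat_lit 234) (PT.nd (nat_lit 78) (PT.lf (nat_lit 9652) (nat_lit 6) (nat_lit 127) (nat_lit 5) (nat_lit 121) (nat_lit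 162) (nat_lit 167)) (PT.nd (nat_lit 78) (PT.lf (nat_lit 10108) (nat_lit 6) (nat_lit 133) (nat_lit 5) (nat_lit 122) (nat_lit 162) (nat_lit 166)) (PT.lf (nat_lit 10564) (nat_lit 6) (nat_lit 139) (nat_lit 5) (nat_lit 123) (nat_lit 162) (nat_lit 165)))) (PT.nd (nat_lit 156) (PT.nd (nat_lit 78) (PT.lf (nat_lit 11020) (nat_lit 6) (nat_lit 145) (nat_lit 5) (nat_lit 124) (nat_lit 162) (nat_lit 164)) (PT.lf (nat_lit 11552) (nat_lit 6) (nat_lit 152) (nat_lit 5) (nat_lit 125) (nat_lit 162) (nat_lit 163))) (PT.nd (nat_lit 78) (PT.lf (nat_lit 12084) (nat_lit 3) (nat_lit 159) (nat_lit 4) (nat_lit 126) (nat_lit 162) (nat_lit 162)) (PT.lf (nat_lit 12540) (nat_lit 6) (nat_lit 165) (nat_lit 4) (nat_lit 127) (nat_lit 162) (nat_lit 161)))))) (PT.nd (nat_lit 546) (PT.nd (nat_lit 234) (PT.nd (nat_lit 78) (PT.lf (nat_lit 12996) (nat_lit 6) (nat_lit 171) (nat_lit 4) (nat_lit 128) (nat_lit 162) (nat_lit 160)) (PT.nd (nat_lit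 78) (PT.lf (nat_lit 13528) (nat_lit 6) (nat_lit 178) (nat_lit 4) (nat_lit 129) (nat_lit 162) (nat_lit 159)) (PT.lf (nat_lit 14060) (nat_lit 6) (nat_lit 185) (nat_lit 4) (nat_lit 130) (nat_lit 162) (nat_lit 158)))) (PT.nd (nat_lit 156) (PT.nd (nat_lit 78) (PT.lf (nat_lit 14668) (nat_lit 6) (nat_lit 193) (nat_lit 4) (nat_lit 131) (nat_lit 162) (nat_lit 157)) (PT.lf (nat_lit 15200) (nat_lit 6) (nat_lit 200) (nat_lit 4) (nat_lit 132) (nat_lit 162) (nat_lit 156))) (PT.nd (nat_lit 78) (PT.lf (nat_lit 15808) (nat_lit 6) (nat_lit 208) (nat_lit 4) (nat_lit 133) (nat_lit 162) (nat_lit 155)) (PT.lf (nat_lit 16796) (nat_lit 6) (nat_lit 221) (nat_lit 4) (nat_lit 134) (nat_lit 162) (nat_lit 154))))) (PT.nd (nat_lit 234) (PT.nd (nat_lit 78) (PT.lf (nat_lit 17936) (nat_lit 6) (nat_lit 236) (nat_lit 4) (nat_lit 135) (nat_lit 162) (nat_lit 153)) (PT.nd (nat_lit 78) (PT.lf (nat_lit 19000) (nat_lit 6) (nat_lit 250) (nat_lit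 4) (nat_lit 136) (nat_lit 162) (nat_lit 152)) (PT.lf (nat_lit 19988) (nat_lit 6) (nat_lit 263) (nat_lit 4) (nat_lit 137) (nat_lit 162) (nat_lit 151)))) (PT.nd (nat_lit 156) (PT.nd (nat_lit 78) (PT.lf (nat_lit 20900) (nat_lit 6) (nat_lit 275) (nat_lit 4) (nat_lit 138) (nat_lit 162) (nat_lit 150)) (PT.lf (nat_lit 20824) (nat_lit 6) (nat_lit 274) (nat_lit 4) (nat_lit 139) (nat_lit 162) (nat_lit 149))) (PT.nd (nat_lit 78) (PT.lf (nat_lit 20748) (nat_lit 6) (nat_lit 273) (nat_lit 4) (nat_lit 140) (nat_lit 162) (nat_lit 148)) (PT.lf (nat_lit 20672) (nat_lit 6) (nat_lit 272) (nat_lit 4) (nat_lit 141) (nat_lit 162) (nat_lit 147))))))))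
noncomputable def pc22 : PT := (PT.nd (nat_lit 2184) (PT.nd (nat_lit 1092) (PT.nd (nat_lit 546) (PT.nd (nat_lit 234) (PT.nd (nat_lit 78) (PT.lf (nat_lit 20596) (nat_lit 6) (nat_lit 271) (nat_lit 4) (nat_lit 142) (nat_lit 162) (nat_lit 146)) (PT.nd (nat_lit 78) (PT.lf (nat_lit 20520) (nat_lit 6) (nat_lit 270) (nat_lit 4) (nat_lit 143) (nat_lit 162) (nat_lit 145)) (PT.lf (nat_lit 20444) (nat_lit 3) (nat_lit 269) (nat_lit 2) (nat_lit 144) (nat_lit 162) (nat_lit 144)))) (PT.nd (nat_lit 156) (PT.nd (nat_lit 78) (PT.lf (nat_lit 20520) (nat_lit 6) (nat_lit 270) (nat_lit 2) (nat_lit 145) (nat_lit 162) (nat_lit 143)) (PT.lf (nat_lit 20596) (nat_lit 6) (nat_lit 271) (nat_lit 2) (nat_lit 146) (nat_lit 162) (nat_lit 142))) (PT.nd (nat_lit 78) (PT.lf (nat_lit 20672) (nat_lit 6) (nat_lit 272) (nat_lit 2) (nat_lit 147) (nat_lit 162) (nat_lit 141)) (PT.lf (nat_lit 20748) (nat_lit 6) (nat_lit 273) (nat_lit 2) (nat_lit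 148) (nat_lit 162) (nat_lit 140))))) (PT.nd (nat_lit 234) (PT.nd (nat_lit 78) (PT.lf (nat_lit 20824) (nat_lit 6) (nat_lit 274) (nat_lit 2) (nat_lit 149) (nat_lit 162) (nat_lit 139)) (PT.nd (nat_lit 78) (PT.lf (nat_lit 20900) (nat_lit 6) (nat_lit 275) (nat_lit 2) (nat_lit 150) (nat_lit 162) (nat_lit 138)) (PT.lf (nat_lit 19988) (nat_lit 6) (nat_lit 263) (nat_lit 2) (nat_lit 151) (nat_lit 162) (nat_lit 137)))) (PT.nd (nat_lit 156) (PT.nd (nat_lit 78) (PT.lf (nat_lit 19000) (nat_lit 6) (nat_lit 250) (nat_lit 2) (nat_lit 152) (nat_lit 162) (nat_lit 136)) (PT.lf (nat_lit 17936) (nat_lit 6) (nat_lit 236) (nat_lit 2) (nat_lit 153) (nat_lit 162) (nat_lit 135))) (PT.nd (nat_lit 78) (PT.lf (nat_lit 16796) (nat_lit 6) (nat_lit 221) (nat_lit 2) (nat_lit 154) (nat_lit 162) (nat_lit 134)) (PT.lf (nat_lit 15808) (nat_lit 6) (nat_lit 208) (nat_lit 2) (nat_lit 155) (nat_lit 162) (nat_lit 133)))))) (PT.nd (nat_lit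 546) (PT.nd (nat_lit 234) (PT.nd (nat_lit 78) (PT.lf (nat_lit 15200) (nat_lit 6) (nat_lit 200) (nat_lit 2) (nat_lit 156) (nat_lit 162) (nat_lit 132)) (PT.nd (nat_lit 78) (PT.lf (nat_lit 14668) (nat_lit 6) (nat_lit 193) (nat_lit 2) (nat_lit 157) (nat_lit 162) (nat_lit 131)) (PT.lf (nat_lit 14060) (nat_lit 6) (nat_lit 185) (nat_lit 2) (nat_lit 158) (nat_lit 162) (nat_lit 130)))) (PT.nd (nat_lit 156) (PT.nd (nat_lit 78) (PT.lf (nat_lit 13528) (nat_lit 6) (nat_lit 178) (nat_lit 2) (nat_lit 159) (nat_lit 162) (nat_lit 129)) (PT.lf (nat_lit 12996) (nat_lit 6) (nat_lit 171) (nat_lit 2) (nat_lit 160) (nat_lit 162) (nat_lit 128))) (PT.nd (nat_lit 78) (PT.lf (nat_lit 12540) (nat_lit 6) (nat_lit 165) (nat_lit 2) (nat_lit 161) (nat_lit 162) (nat_lit 127)) (PT.lf (nat_lit 12084) (nat_lit 3) (nat_lit 159) (nat_lit 0) (nat_lit 162) (nat_lit 162) (nat_lit 126))))) (PT.nd (nat_lit 234) (PT.nd (nat_lit 78) (PT.lf (nat_lit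 11552) (nat_lit 6) (nat_lit 152) (nat_lit 0) (nat_lit 163) (nat_lit 162) (nat_lit 125)) (PT.nd (nat_lit 78) (PT.lf (nat_lit 11020) (nat_lit 6) (nat_lit 145) (nat_lit 0) (nat_lit 164) (nat_lit 162) (nat_lit 124)) (PT.lf (nat_lit 10564) (nat_lit 6) (nat_lit 139) (nat_lit 0) (nat_lit 165) (nat_lit 162) (nat_lit 123)))) (PT.nd (nat_lit 156) (PT.nd (nat_lit 78) (PT.lf (nat_lit 10108) (nat_lit 6) (nat_lit 133) (nat_lit 0) (nat_lit 166) (nat_lit 162) (nat_lit 122)) (PT.lf (nat_lit 9652) (nat_lit 6) (nat_lit 127) (nat_lit 0) (nat_lit 167) (nat_lit 162) (nat_lit 121))) (PT.nd (nat_lit 78) (PT.lf (nat_lit 9196) (nat_lit 6) (nat_lit 121) (nat_lit 0) (nat_lit 168) (nat_lit 162) (nat_lit 120)) (PT.lf (nat_lit 8816) (nat_lit 6) (nat_lit 116) (nat_lit 0) (nat_lit 169) (nat_lit 162) (nat_lit 119))))))) (PT.nd (nat_lit 43680) (PT.nd (nat_lit 43134) (PT.nd (nat_lit 42822) (PT.nd (nat_lit 42666) (PT.lf (nat_lit 8360)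 (nat_lit 6) (nat_lit 110) (nat_lit 0) (nat_lit 170) (nat_lit 162) (nat_lit 118)) (PT.nd (nat_lit 78) (PT.lf (nat_lit 7676) (nat_lit 6) (nat_lit 101) (nat_lit 5) (nat_lit 116) (nat_lit 163) (nat_lit 171)) (PT.lf (nat_lit 8056) (nat_lit 6) (nat_lit 106) (nat_lit 5) (nat_lit 117) (nat_lit 163) (nat_lit 170)))) (PT.nd (nat_lit 156) (PT.nd (nat_lit 78) (PT.lf (nat_lit 8436) (nat_lit 6) (nat_lit 111) (nat_lit 5) (nat_lit 118) (nat_lit 163) (nat_lit 169)) (PT.lf (nat_lit 8892) (nat_lit 6) (nat_lit 117) (nat_lit 5) (nat_lit 119) (nat_lit 163) (nat_lit 168))) (PT.nd (nat_lit 78) (PT.lf (nat_lit 9272) (nat_lit 6) (nat_lit 122) (nat_lit 5) (nat_lit 120) (nat_lit 163) (nat_lit 167)) (PT.lf (nat_lit 9728) (nat_lit 6) (nat_lit 128) (nat_lit 5) (nat_lit 121) (nat_lit 163) (nat_lit 166))))) (PT.nd (nat_lit 234) (PT.nd (nat_lit 78) (PT.lf (nat_lit 10184) (nat_lit 6) (nat_lit 134) (nat_lit 5) (nat_lit 122) (nat_lit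 163) (nat_lit 165)) (PT.nd (nat_lit 78) (PT.lf (nat_lit 10640) (nat_lit 6) (nat_lit 140) (nat_lit 5) (nat_lit 123) (nat_lit 163) (nat_lit 164)) (PT.lf (nat_lit 11096) (nat_lit 3) (nat_lit 146) (nat_lit 4) (nat_lit 124) (nat_lit 163) (nat_lit 163)))) (PT.nd (nat_lit 156) (PT.nd (nat_lit 78) (PT.lf (nat_lit 11552) (nat_lit 6) (nat_lit 152) (nat_lit 4) (nat_lit 125) (nat_lit 163) (nat_lit 162)) (PT.lf (nat_lit 12008) (nat_lit 6) (nat_lit 158) (nat_lit 4) (nat_lit 126) (nat_lit 163) (nat_lit 161))) (PT.nd (nat_lit 78) (PT.lf (nat_lit 12464) (nat_lit 6) (nat_lit 164) (nat_lit 4) (nat_lit 127) (nat_lit 163) (nat_lit 160)) (PT.lf (nat_lit 12920) (nat_lit 6) (nat_lit 170) (nat_lit 4) (nat_lit 128) (nat_lit 163) (nat_lit 159)))))) (PT.nd (nat_lit 546) (PT.nd (nat_lit 234) (PT.nd (nat_lit 78) (PT.lf (nat_lit 13452) (nat_lit 6) (nat_lit 177) (nat_lit 4) (nat_lit 129) (nat_lit 163) (nat_lit 158)) (PT.nd (nat_lit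 78) (PT.lf (nat_lit 13984) (nat_lit 6) (nat_lit 184) (nat_lit 4) (nat_lit 130) (nat_lit 163) (nat_lit 157)) (PT.lf (nat_lit 14592) (nat_lit 6) (nat_lit 192) (nat_lit 4) (nat_lit 131) (nat_lit 163) (nat_lit 156)))) (PT.nd (nat_lit 156) (PT.nd (nat_lit 78) (PT.lf (nat_lit 15124) (nat_lit 6) (nat_lit 199) (nat_lit 4) (nat_lit 132) (nat_lit 163) (nat_lit 155)) (PT.lf (nat_lit 15732) (nat_lit 6) (nat_lit 207) (nat_lit 4) (nat_lit 133) (nat_lit 163) (nat_lit 154))) (PT.nd (nat_lit 78) (PT.lf (nat_lit 16720) (nat_lit 6) (nat_lit 220) (nat_lit 4) (nat_lit 134) (nat_lit 163) (nat_lit 153)) (PT.lf (nat_lit 17860) (nat_lit 6) (nat_lit 235) (nat_lit 4) (nat_lit 135) (nat_lit 163) (nat_lit 152))))) (PT.nd (nat_lit 234) (PT.nd (nat_lit 78) (PT.lf (nat_lit 18924) (nat_lit 6) (nat_lit 249) (nat_lit 4) (nat_lit 136) (nat_lit 163) (nat_lit 151)) (PT.nd (nat_lit 78) (PT.lf (nat_lit 19912) (nat_lit 6) (nat_lit 262) (nat_lit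 4) (nat_lit 137) (nat_lit 163) (nat_lit 150)) (PT.lf (nat_lit 19836) (nat_lit 6) (nat_lit 261) (nat_lit 4) (nat_lit 138) (nat_lit 163) (nat_lit 149)))) (PT.nd (nat_lit 156) (PT.nd (nat_lit 78) (PT.lf (nat_lit 19760) (nat_lit 6) (nat_lit 260) (nat_lit 4) (nat_lit 139) (nat_lit 163) (nat_lit 148)) (PT.lf (nat_lit 19684) (nat_lit 6) (nat_lit 259) (nat_lit 4) (nat_lit 140) (nat_lit 163) (nat_lit 147))) (PT.nd (nat_lit 78) (PT.lf (nat_lit 19608) (nat_lit 6) (nat_lit 258) (nat_lit 4) (nat_lit 141) (nat_lit 163) (nat_lit 146)) (PT.lf (nat_lit 19532) (nat_lit 6) (nat_lit 257) (nat_lit 4) (nat_lit 142) (nat_lit 163) (nat_lit 145))))))))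
noncomputable def pc23 : PT := (PT.nd (nat_lit 2184) (PT.nd (nat_lit 1092) (PT.nd (nat_lit 546) (PT.nd (nat_lit 234) (PT.nd (nat_lit 78) (PT.lf (nat_lit 19456) (nat_lit 6) (nat_lit 256) (nat_lit 4) (nat_lit 143) (nat_lit 163) (nat_lit 144)) (PT.nd (nat_lit 78) (PT.lf (nat_lit 19456) (nat_lit 6) (nat_lit 256) (nat_lit 2) (nat_lit 144) (nat_lit 163) (nat_lit 143)) (PT.lf (nat_lit 19532) (nat_lit 6) (nat_lit 257) (nat_lit 2) (nat_lit 145) (nat_lit 163) (nat_lit 142)))) (PT.nd (nat_lit 156) (PT.nd (nat_lit 78) (PT.lf (nat_lit 19608) (nat_lit 6) (nat_lit 258) (nat_lit 2) (nat_lit 146) (nat_lit 163) (nat_lit 141)) (PT.lf (nat_lit 19684) (nat_lit 6) (nat_lit 259) (nat_lit 2) (nat_lit 147) (nat_lit 163) (nat_lit 140))) (PT.nd (nat_lit 78) (PT.lf (nat_lit 19760) (nat_lit 6) (nat_lit 260) (nat_lit 2) (nat_lit 148) (nat_lit 163) (nat_lit 139)) (PT.lf (nat_lit 19836) (nat_lit 6) (nat_lit 261) (nat_lit 2) (nat_lit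 149) (nat_lit 163) (nat_lit 138))))) (PT.nd (nat_lit 234) (PT.nd (nat_lit 78) (PT.lf (nat_lit 19912) (nat_lit 6) (nat_lit 262) (nat_lit 2) (nat_lit 150) (nat_lit 163) (nat_lit 137)) (PT.nd (nat_lit 78) (PT.lf (nat_lit 18924) (nat_lit 6) (nat_lit 249) (nat_lit 2) (nat_lit 151) (nat_lit 163) (nat_lit 136)) (PT.lf (nat_lit 17860) (nat_lit 6) (nat_lit 235) (nat_lit 2) (nat_lit 152) (nat_lit 163) (nat_lit 135)))) (PT.nd (nat_lit 156) (PT.nd (nat_lit 78) (PT.lf (nat_lit 16720) (nat_lit 6) (nat_lit 220) (nat_lit 2) (nat_lit 153) (nat_lit 163) (nat_lit 134)) (PT.lf (nat_lit 15732) (nat_lit 6) (nat_lit 207) (nat_lit 2) (nat_lit 154) (nat_lit 163) (nat_lit 133))) (PT.nd (nat_lit 78) (PT.lf (nat_lit 15124) (nat_lit 6) (nat_lit 199) (nat_lit 2) (nat_lit 155) (nat_lit 163) (nat_lit 132)) (PT.lf (nat_lit 14592) (nat_lit 6) (nat_lit 192) (nat_lit 2) (nat_lit 156) (nat_lit 163) (nat_lit 131)))))) (PT.nd (nat_lit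 546) (PT.nd (nat_lit 234) (PT.nd (nat_lit 78) (PT.lf (nat_lit 13984) (nat_lit 6) (nat_lit 184) (nat_lit 2) (nat_lit 157) (nat_lit 163) (nat_lit 130)) (PT.nd (nat_lit 78) (PT.lf (nat_lit 13452) (nat_lit 6) (nat_lit 177) (nat_lit 2) (nat_lit 158) (nat_lit 163) (nat_lit 129)) (PT.lf (nat_lit 12920) (nat_lit 6) (nat_lit 170) (nat_lit 2) (nat_lit 159) (nat_lit 163) (nat_lit 128)))) (PT.nd (nat_lit 156) (PT.nd (nat_lit 78) (PT.lf (nat_lit 12464) (nat_lit 6) (nat_lit 164) (nat_lit 2) (nat_lit 160) (nat_lit 163) (nat_lit 127)) (PT.lf (nat_lit 12008) (nat_lit 6) (nat_lit 158) (nat_lit 2) (nat_lit 161) (nat_lit 163) (nat_lit 126))) (PT.nd (nat_lit 78) (PT.lf (nat_lit 11552) (nat_lit 6) (nat_lit 152) (nat_lit 2) (nat_lit 162) (nat_lit 163) (nat_lit 125)) (PT.lf (nat_lit 11096) (nat_lit 3) (nat_lit 146) (nat_lit 0) (nat_lit 163) (nat_lit 163) (nat_lit 124))))) (PT.nd (nat_lit 234) (PT.nd (nat_lit 78) (PT.lf (nat_lit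 10640) (nat_lit 6) (nat_lit 140) (nat_lit 0) (nat_lit 164) (nat_lit 163) (nat_lit 123)) (PT.nd (nat_lit 78) (PT.lf (nat_lit 10184) (nat_lit 6) (nat_lit 134) (nat_lit 0) (nat_lit 165) (nat_lit 163) (nat_lit 122)) (PT.lf (nat_lit 9728) (nat_lit 6) (nat_lit 128) (nat_lit 0) (nat_lit 166) (nat_lit 163) (nat_lit 121)))) (PT.nd (nat_lit 156) (PT.nd (nat_lit 78) (PT.lf (nat_lit 9272) (nat_lit 6) (nat_lit 122) (nat_lit 0) (nat_lit 167) (nat_lit 163) (nat_lit 120)) (PT.lf (nat_lit 8892) (nat_lit 6) (nat_lit 117) (nat_lit 0) (nat_lit 168) (nat_lit 163) (nat_lit 119))) (PT.nd (nat_lit 78) (PT.lf (nat_lit 8436) (nat_lit 6) (nat_lit 111) (nat_lit 0) (nat_lit 169) (nat_lit 163) (nat_lit 118)) (PT.lf (nat_lit 8056) (nat_lit 6) (nat_lit 106) (nat_lit 0) (nat_lit 170) (nat_lit 163) (nat_lit 117))))))) (PT.nd (nat_lit 43524) (PT.nd (nat_lit 42978) (PT.nd (nat_lit 42666) (PT.nd (nat_lit 42510) (PT.lf (nat_lit 7676)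 (nat_lit 6) (nat_lit 101) (nat_lit 0) (nat_lit 171) (nat_lit 163) (nat_lit 116)) (PT.nd (nat_lit 78) (PT.lf (nat_lit 7372) (nat_lit 6) (nat_lit 97) (nat_lit 5) (nat_lit 115) (nat_lit 164) (nat_lit 171)) (PT.lf (nat_lit 7752) (nat_lit 6) (nat_lit 102) (nat_lit 5) (nat_lit 116) (nat_lit 164) (nat_lit 170)))) (PT.nd (nat_lit 156) (PT.nd (nat_lit 78) (PT.lf (nat_lit 8132) (nat_lit 6) (nat_lit 107) (nat_lit 5) (nat_lit 117) (nat_lit 164) (nat_lit 169)) (PT.lf (nat_lit 8512) (nat_lit 6) (nat_lit 112) (nat_lit 5) (nat_lit 118) (nat_lit 164) (nat_lit 168))) (PT.nd (nat_lit 78) (PT.lf (nat_lit 8968) (nat_lit 6) (nat_lit 118) (nat_lit 5) (nat_lit 119) (nat_lit 164) (nat_lit 167)) (PT.lf (nat_lit 9348) (nat_lit 6) (nat_lit 123) (nat_lit 5) (nat_lit 120) (nat_lit 164) (nat_lit 166))))) (PT.nd (nat_lit 234) (PT.nd (nat_lit 78) (PT.lf (nat_lit 9804) (nat_lit 6) (nat_lit 129) (nat_lit 5) (nat_lit 121) (nat_lit 164)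 (nat_lit 165)) (PT.nd (nat_lit 78) (PT.lf (nat_lit 10260) (nat_lit 3) (nat_lit 135) (nat_lit 4) (nat_lit 122) (nat_lit 164) (nat_lit 164)) (PT.lf (nat_lit 10640) (nat_lit 6) (nat_lit 140) (nat_lit 4) (nat_lit 123) (nat_lit 164) (nat_lit 163)))) (PT.nd (nat_lit 156) (PT.nd (nat_lit 78) (PT.lf (nat_lit 11020) (nat_lit 6) (nat_lit 145) (nat_lit 4) (nat_lit 124) (nat_lit 164) (nat_lit 162)) (PT.lf (nat_lit 11476) (nat_lit 6) (nat_lit 151) (nat_lit 4) (nat_lit 125) (nat_lit 164) (nat_lit 161))) (PT.nd (nat_lit 78) (PT.lf (nat_lit 11932) (nat_lit 6) (nat_lit 157) (nat_lit 4) (nat_lit 126) (nat_lit 164) (nat_lit 160)) (PT.lf (nat_lit 12388) (nat_lit 6) (nat_lit 163) (nat_lit 4) (nat_lit 127) (nat_lit 164) (nat_lit 159)))))) (PT.nd (nat_lit 546) (PT.nd (nat_lit 234) (PT.nd (nat_lit 78) (PT.lf (nat_lit 12844) (nat_lit 6) (nat_lit 169) (nat_lit 4) (nat_lit 128) (nat_lit 164) (nat_lit 158)) (PT.nd (nat_lit 78)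 (PT.lf (nat_lit 13376) (nat_lit 6) (nat_lit 176) (nat_lit 4) (nat_lit 129) (nat_lit 164) (nat_lit 157)) (PT.lf (nat_lit 13908) (nat_lit 6) (nat_lit 183) (nat_lit 4) (nat_lit 130) (nat_lit 164) (nat_lit 156)))) (PT.nd (nat_lit 156) (PT.nd (nat_lit 78) (PT.lf (nat_lit 14516) (nat_lit 6) (nat_lit 191) (nat_lit 4) (nat_lit 131) (nat_lit 164) (nat_lit 155)) (PT.lf (nat_lit 15048) (nat_lit 6) (nat_lit 198) (nat_lit 4) (nat_lit 132) (nat_lit 164) (nat_lit 154))) (PT.nd (nat_lit 78) (PT.lf (nat_lit 15656) (nat_lit 6) (nat_lit 206) (nat_lit 4) (nat_lit 133) (nat_lit 164) (nat_lit 153)) (PT.lf (nat_lit 16644) (nat_lit 6) (nat_lit 219) (nat_lit 4) (nat_lit 134) (nat_lit 164) (nat_lit 152))))) (PT.nd (nat_lit 312) (PT.nd (nat_lit 156) (PT.nd (nat_lit 78) (PT.lf (nat_lit 17784) (nat_lit 6) (nat_lit 234) (nat_lit 4) (nat_lit 135) (nat_lit 164) (nat_lit 151)) (PT.lf (nat_lit 18848) (nat_lit 6) (nat_lit 248) (nat_lit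 4) (nat_lit 136) (nat_lit 164) (nat_lit 150))) (PT.nd (nat_lit 78) (PT.lf (nat_lit 18772) (nat_lit 6) (nat_lit 247) (nat_lit 4) (nat_lit 137) (nat_lit 164) (nat_lit 149)) (PT.lf (nat_lit 18696) (nat_lit 6) (nat_lit 246) (nat_lit 4) (nat_lit 138) (nat_lit 164) (nat_lit 148)))) (PT.nd (nat_lit 156) (PT.nd (nat_lit 78) (PT.lf (nat_lit 18620) (nat_lit 6) (nat_lit 245) (nat_lit 4) (nat_lit 139) (nat_lit 164) (nat_lit 147)) (PT.lf (nat_lit 18544) (nat_lit 6) (nat_lit 244) (nat_lit 4) (nat_lit 140) (nat_lit 164) (nat_lit 146))) (PT.nd (nat_lit 78) (PT.lf (nat_lit 18468) (nat_lit 6) (nat_lit 243) (nat_lit 4) (nat_lit 141) (nat_lit 164) (nat_lit 145)) (PT.lf (nat_lit 18392) (nat_lit 6) (nat_lit 242) (nat_lit 4) (nat_lit 142) (nat_lit 164) (nat_lit 144))))))))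
noncomputable def pc24 : PT := (PT.nd (nat_lit 2184) (PT.nd (nat_lit 1092) (PT.nd (nat_lit 546) (PT.nd (nat_lit 234) (PT.nd (nat_lit 78) (PT.lf (nat_lit 18316) (nat_lit 3) (nat_lit 241) (nat_lit 2) (nat_lit 143) (nat_lit 164) (nat_lit 143)) (PT.nd (nat_lit 78) (PT.lf (nat_lit 18392) (nat_lit 6) (nat_lit 242) (nat_lit 2) (nat_lit 144) (nat_lit 164) (nat_lit 142)) (PT.lf (nat_lit 18468) (nat_lit 6) (nat_lit 243) (nat_lit 2) (nat_lit 145) (nat_lit 164) (nat_lit 141)))) (PT.nd (nat_lit 156) (PT.nd (nat_lit 78) (PT.lf (nat_lit 18544) (nat_lit 6) (nat_lit 244) (nat_lit 2) (nat_lit 146) (nat_lit 164) (nat_lit 140)) (PT.lf (nat_lit 18620) (nat_lit 6) (nat_lit 245) (nat_lit 2) (nat_lit 147) (nat_lit 164) (nat_lit 139))) (PT.nd (nat_lit 78) (PT.lf (nat_lit 18696) (nat_lit 6) (nat_lit 246) (nat_lit 2) (nat_lit 148) (nat_lit 164) (nat_lit 138)) (PT.lf (nat_lit 18772) (nat_lit 6) (nat_lit 247) (nat_lit 2) (nat_lit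 149) (nat_lit 164) (nat_lit 137))))) (PT.nd (nat_lit 234) (PT.nd (nat_lit 78) (PT.lf (nat_lit 18848) (nat_lit 6) (nat_lit 248) (nat_lit 2) (nat_lit 150) (nat_lit 164) (nat_lit 136)) (PT.nd (nat_lit 78) (PT.lf (nat_lit 17784) (nat_lit 6) (nat_lit 234) (nat_lit 2) (nat_lit 151) (nat_lit 164) (nat_lit 135)) (PT.lf (nat_lit 16644) (nat_lit 6) (nat_lit 219) (nat_lit 2) (nat_lit 152) (nat_lit 164) (nat_lit 134)))) (PT.nd (nat_lit 156) (PT.nd (nat_lit 78) (PT.lf (nat_lit 15656) (nat_lit 6) (nat_lit 206) (nat_lit 2) (nat_lit 153) (nat_lit 164) (nat_lit 133)) (PT.lf (nat_lit 15048) (nat_lit 6) (nat_lit 198) (nat_lit 2) (nat_lit 154) (nat_lit 164) (nat_lit 132))) (PT.nd (nat_lit 78) (PT.lf (nat_lit 14516) (nat_lit 6) (nat_lit 191) (nat_lit 2) (nat_lit 155) (nat_lit 164) (nat_lit 131)) (PT.lf (nat_lit 13908) (nat_lit 6) (nat_lit 183) (nat_lit 2) (nat_lit 156) (nat_lit 164) (nat_lit 130)))))) (PT.nd (nat_lit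 546) (PT.nd (nat_lit 234) (PT.nd (nat_lit 78) (PT.lf (nat_lit 13376) (nat_lit 6) (nat_lit 176) (nat_lit 2) (nat_lit 157) (nat_lit 164) (nat_lit 129)) (PT.nd (nat_lit 78) (PT.lf (nat_lit 12844) (nat_lit 6) (nat_lit 169) (nat_lit 2) (nat_lit 158) (nat_lit 164) (nat_lit 128)) (PT.lf (nat_lit 12388) (nat_lit 6) (nat_lit 163) (nat_lit 2) (nat_lit 159) (nat_lit 164) (nat_lit 127)))) (PT.nd (nat_lit 156) (PT.nd (nat_lit 78) (PT.lf (nat_lit 11932) (nat_lit 6) (nat_lit 157) (nat_lit 2) (nat_lit 160) (nat_lit 164) (nat_lit 126)) (PT.lf (nat_lit 11476) (nat_lit 6) (nat_lit 151) (nat_lit 2) (nat_lit 161) (nat_lit 164) (nat_lit 125))) (PT.nd (nat_lit 78) (PT.lf (nat_lit 11020) (nat_lit 6) (nat_lit 145) (nat_lit 2) (nat_lit 162) (nat_lit 164) (nat_lit 124)) (PT.lf (nat_lit 10640) (nat_lit 6) (nat_lit 140) (nat_lit 2) (nat_lit 163) (nat_lit 164) (nat_lit 123))))) (PT.nd (nat_lit 234) (PT.nd (nat_lit 78) (PT.lf (nat_lit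 10260) (nat_lit 3) (nat_lit 135) (nat_lit 0) (nat_lit 164) (nat_lit 164) (nat_lit 122)) (PT.nd (nat_lit 78) (PT.lf (nat_lit 9804) (nat_lit 6) (nat_lit 129) (nat_lit 0) (nat_lit 165) (nat_lit 164) (nat_lit 121)) (PT.lf (nat_lit 9348) (nat_lit 6) (nat_lit 123) (nat_lit 0) (nat_lit 166) (nat_lit 164) (nat_lit 120)))) (PT.nd (nat_lit 156) (PT.nd (nat_lit 78) (PT.lf (nat_lit 8968) (nat_lit 6) (nat_lit 118) (nat_lit 0) (nat_lit 167) (nat_lit 164) (nat_lit 119)) (PT.lf (nat_lit 8512) (nat_lit 6) (nat_lit 112) (nat_lit 0) (nat_lit 168) (nat_lit 164) (nat_lit 118))) (PT.nd (nat_lit 78) (PT.lf (nat_lit 8132) (nat_lit 6) (nat_lit 107) (nat_lit 0) (nat_lit 169) (nat_lit 164) (nat_lit 117)) (PT.lf (nat_lit 7752) (nat_lit 6) (nat_lit 102) (nat_lit 0) (nat_lit 170) (nat_lit 164) (nat_lit 116))))))) (PT.nd (nat_lit 43368) (PT.nd (nat_lit 42822) (PT.nd (nat_lit 42510) (PT.nd (nat_lit 42354) (PT.lf (nat_lit 7372) (nat_lit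 6) (nat_lit 97) (nat_lit 0) (nat_lit 171) (nat_lit 164) (nat_lit 115)) (PT.nd (nat_lit 78) (PT.lf (nat_lit 6764) (nat_lit 6) (nat_lit 89) (nat_lit 5) (nat_lit 113) (nat_lit 165) (nat_lit 172)) (PT.lf (nat_lit 7068) (nat_lit 6) (nat_lit 93) (nat_lit 5) (nat_lit 114) (nat_lit 165) (nat_lit 171)))) (PT.nd (nat_lit 156) (PT.nd (nat_lit 78) (PT.lf (nat_lit 7448) (nat_lit 6) (nat_lit 98) (nat_lit 5) (nat_lit 115) (nat_lit 165) (nat_lit 170)) (PT.lf (nat_lit 7828) (nat_lit 6) (nat_lit 103) (nat_lit 5) (nat_lit 116) (nat_lit 165) (nat_lit 169))) (PT.nd (nat_lit 78) (PT.lf (nat_lit 8208) (nat_lit 6) (nat_lit 108) (nat_lit 5) (nat_lit 117) (nat_lit 165) (nat_lit 168)) (PT.lf (nat_lit 8588) (nat_lit 6) (nat_lit 113) (nat_lit 5) (nat_lit 118) (nat_lit 165) (nat_lit 167))))) (PT.nd (nat_lit 234) (PT.nd (nat_lit 78) (PT.lf (nat_lit 9044) (nat_lit 6) (nat_lit 119) (nat_lit 5) (nat_lit 119) (nat_lit 165) (nat_lit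 166)) (PT.nd (nat_lit 78) (PT.lf (nat_lit 9424) (nat_lit 3) (nat_lit 124) (nat_lit 4) (nat_lit 120) (nat_lit 165) (nat_lit 165)) (PT.lf (nat_lit 9804) (nat_lit 6) (nat_lit 129) (nat_lit 4) (nat_lit 121) (nat_lit 165) (nat_lit 164)))) (PT.nd (nat_lit 156) (PT.nd (nat_lit 78) (PT.lf (nat_lit 10184) (nat_lit 6) (nat_lit 134) (nat_lit 4) (nat_lit 122) (nat_lit 165) (nat_lit 163)) (PT.lf (nat_lit 10564) (nat_lit 6) (nat_lit 139) (nat_lit 4) (nat_lit 123) (nat_lit 165) (nat_lit 162))) (PT.nd (nat_lit 78) (PT.lf (nat_lit 10944) (nat_lit 6) (nat_lit 144) (nat_lit 4) (nat_lit 124) (nat_lit 165) (nat_lit 161)) (PT.lf (nat_lit 11400) (nat_lit 6) (nat_lit 150) (nat_lit 4) (nat_lit 125) (nat_lit 165) (nat_lit 160)))))) (PT.nd (nat_lit 546) (PT.nd (nat_lit 234) (PT.nd (nat_lit 78) (PT.lf (nat_lit 11856) (nat_lit 6) (nat_lit 156) (nat_lit 4) (nat_lit 126) (nat_lit 165) (nat_lit 159)) (PT.nd (nat_lit 78) (PT.lf (nat_lit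 12312) (nat_lit 6) (nat_lit 162) (nat_lit 4) (nat_lit 127) (nat_lit 165) (nat_lit 158)) (PT.lf (nat_lit 12768) (nat_lit 6) (nat_lit 168) (nat_lit 4) (nat_lit 128) (nat_lit 165) (nat_lit 157)))) (PT.nd (nat_lit 156) (PT.nd (nat_lit 78) (PT.lf (nat_lit 13300) (nat_lit 6) (nat_lit 175) (nat_lit 4) (nat_lit 129) (nat_lit 165) (nat_lit 156)) (PT.lf (nat_lit 13832) (nat_lit 6) (nat_lit 182) (nat_lit 4) (nat_lit 130) (nat_lit 165) (nat_lit 155))) (PT.nd (nat_lit 78) (PT.lf (nat_lit 14440) (nat_lit 6) (nat_lit 190) (nat_lit 4) (nat_lit 131) (nat_lit 165) (nat_lit 154)) (PT.lf (nat_lit 14972) (nat_lit 6) (nat_lit 197) (nat_lit 4) (nat_lit 132) (nat_lit 165) (nat_lit 153))))) (PT.nd (nat_lit 234) (PT.nd (nat_lit 78) (PT.lf (nat_lit 15580) (nat_lit 6) (nat_lit 205) (nat_lit 4) (nat_lit 133) (nat_lit 165) (nat_lit 152)) (PT.nd (nat_lit 78) (PT.lf (nat_lit 16568) (nat_lit 6) (nat_lit 218) (nat_lit 4) (nat_lit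 134) (nat_lit 165) (nat_lit 151)) (PT.lf (nat_lit 17708) (nat_lit 6) (nat_lit 233) (nat_lit 4) (nat_lit 135) (nat_lit 165) (nat_lit 150)))) (PT.nd (nat_lit 156) (PT.nd (nat_lit 78) (PT.lf (nat_lit 17632) (nat_lit 6) (nat_lit 232) (nat_lit 4) (nat_lit 136) (nat_lit 165) (nat_lit 149)) (PT.lf (nat_lit 17556) (nat_lit 6) (nat_lit 231) (nat_lit 4) (nat_lit 137) (nat_lit 165) (nat_lit 148))) (PT.nd (nat_lit 78) (PT.lf (nat_lit 17480) (nat_lit 6) (nat_lit 230) (nat_lit 4) (nat_lit 138) (nat_lit 165) (nat_lit 147)) (PT.lf (nat_lit 17404) (nat_lit 6) (nat_lit 229) (nat_lit 4) (nat_lit 139) (nat_lit 165) (nat_lit 146))))))))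
noncomputable def pc25 : PT := (PT.nd (nat_lit 2184) (PT.nd (nat_lit 1092) (PT.nd (nat_lit 546) (PT.nd (nat_lit 234) (PT.nd (nat_lit 78) (PT.lf (nat_lit 17328) (nat_lit 6) (nat_lit 228) (nat_lit 4) (nat_lit 140) (nat_lit 165) (nat_lit 145)) (PT.nd (nat_lit 78) (PT.lf (nat_lit 17252) (nat_lit 6) (nat_lit 227) (nat_lit 4) (nat_lit 141) (nat_lit 165) (nat_lit 144)) (PT.lf (nat_lit 17176) (nat_lit 6) (nat_lit 226) (nat_lit 4) (nat_lit 142) (nat_lit 165) (nat_lit 143)))) (PT.nd (nat_lit 156) (PT.nd (nat_lit 78) (PT.lf (nat_lit 17176) (nat_lit 6) (nat_lit 226) (nat_lit 2) (nat_lit 143) (nat_lit 165) (nat_lit 142)) (PT.lf (nat_lit 17252) (nat_lit 6) (nat_lit 227) (nat_lit 2) (nat_lit 144) (nat_lit 165) (nat_lit 141))) (PT.nd (nat_lit 78) (PT.lf (nat_lit 17328) (nat_lit 6) (nat_lit 228) (nat_lit 2) (nat_lit 145) (nat_lit 165) (nat_lit 140)) (PT.lf (nat_lit 17404) (nat_lit 6) (nat_lit 229) (nat_lit 2) (nat_lit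 146) (nat_lit 165) (nat_lit 139))))) (PT.nd (nat_lit 234) (PT.nd (nat_lit 78) (PT.lf (nat_lit 17480) (nat_lit 6) (nat_lit 230) (nat_lit 2) (nat_lit 147) (nat_lit 165) (nat_lit 138)) (PT.nd (nat_lit 78) (PT.lf (nat_lit 17556) (nat_lit 6) (nat_lit 231) (nat_lit 2) (nat_lit 148) (nat_lit 165) (nat_lit 137)) (PT.lf (nat_lit 17632) (nat_lit 6) (nat_lit 232) (nat_lit 2) (nat_lit 149) (nat_lit 165) (nat_lit 136)))) (PT.nd (nat_lit 156) (PT.nd (nat_lit 78) (PT.lf (nat_lit 17708) (nat_lit 6) (nat_lit 233) (nat_lit 2) (nat_lit 150) (nat_lit 165) (nat_lit 135)) (PT.lf (nat_lit 16568) (nat_lit 6) (nat_lit 218) (nat_lit 2) (nat_lit 151) (nat_lit 165) (nat_lit 134))) (PT.nd (nat_lit 78) (PT.lf (nat_lit 15580) (nat_lit 6) (nat_lit 205) (nat_lit 2) (nat_lit 152) (nat_lit 165) (nat_lit 133)) (PT.lf (nat_lit 14972) (nat_lit 6) (nat_lit 197) (nat_lit 2) (nat_lit 153) (nat_lit 165) (nat_lit 132)))))) (PT.nd (nat_lit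 546) (PT.nd (nat_lit 234) (PT.nd (nat_lit 78) (PT.lf (nat_lit 14440) (nat_lit 6) (nat_lit 190) (nat_lit 2) (nat_lit 154) (nat_lit 165) (nat_lit 131)) (PT.nd (nat_lit 78) (PT.lf (nat_lit 13832) (nat_lit 6) (nat_lit 182) (nat_lit 2) (nat_lit 155) (nat_lit 165) (nat_lit 130)) (PT.lf (nat_lit 13300) (nat_lit 6) (nat_lit 175) (nat_lit 2) (nat_lit 156) (nat_lit 165) (nat_lit 129)))) (PT.nd (nat_lit 156) (PT.nd (nat_lit 78) (PT.lf (nat_lit 12768) (nat_lit 6) (nat_lit 168) (nat_lit 2) (nat_lit 157) (nat_lit 165) (nat_lit 128)) (PT.lf (nat_lit 12312) (nat_lit 6) (nat_lit 162) (nat_lit 2) (nat_lit 158) (nat_lit 165) (nat_lit 127))) (PT.nd (nat_lit 78) (PT.lf (nat_lit 11856) (nat_lit 6) (nat_lit 156) (nat_lit 2) (nat_lit 159) (nat_lit 165) (nat_lit 126)) (PT.lf (nat_lit 11400) (nat_lit 6) (nat_lit 150) (nat_lit 2) (nat_lit 160) (nat_lit 165) (nat_lit 125))))) (PT.nd (nat_lit 234) (PT.nd (nat_lit 78) (PT.lf (nat_lit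 10944) (nat_lit 6) (nat_lit 144) (nat_lit 2) (nat_lit 161) (nat_lit 165) (nat_lit 124)) (PT.nd (nat_lit 78) (PT.lf (nat_lit 10564) (nat_lit 6) (nat_lit 139) (nat_lit 2) (nat_lit 162) (nat_lit 165) (nat_lit 123)) (PT.lf (nat_lit 10184) (nat_lit 6) (nat_lit 134) (nat_lit 2) (nat_lit 163) (nat_lit 165) (nat_lit 122)))) (PT.nd (nat_lit 156) (PT.nd (nat_lit 78) (PT.lf (nat_lit 9804) (nat_lit 6) (nat_lit 129) (nat_lit 2) (nat_lit 164) (nat_lit 165) (nat_lit 121)) (PT.lf (nat_lit 9424) (nat_lit 3) (nat_lit 124) (nat_lit 0) (nat_lit 165) (nat_lit 165) (nat_lit 120))) (PT.nd (nat_lit 78) (PT.lf (nat_lit 9044) (nat_lit 6) (nat_lit 119) (nat_lit 0) (nat_lit 166) (nat_lit 165) (nat_lit 119)) (PT.lf (nat_lit 8588) (nat_lit 6) (nat_lit 113) (nat_lit 0) (nat_lit 167) (nat_lit 165) (nat_lit 118))))))) (PT.nd (nat_lit 43212) (PT.nd (nat_lit 42666) (PT.nd (nat_lit 234) (PT.nd (nat_lit 78) (PT.lf (nat_lit 8208) (nat_lit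 6) (nat_lit 108) (nat_lit 0) (nat_lit 168) (nat_lit 165) (nat_lit 117)) (PT.nd (nat_lit 78) (PT.lf (nat_lit 7828) (nat_lit 6) (nat_lit 103) (nat_lit 0) (nat_lit 169) (nat_lit 165) (nat_lit 116)) (PT.lf (nat_lit 7448) (nat_lit 6) (nat_lit 98) (nat_lit 0) (nat_lit 170) (nat_lit 165) (nat_lit 115)))) (PT.nd (nat_lit 42276) (PT.nd (nat_lit 78) (PT.lf (nat_lit 7068) (nat_lit 6) (nat_lit 93) (nat_lit 0) (nat_lit 171) (nat_lit 165) (nat_lit 114)) (PT.lf (nat_lit 6764) (nat_lit 6) (nat_lit 89) (nat_lit 0) (nat_lit 172) (nat_lit 165) (nat_lit 113))) (PT.nd (nat_lit 78) (PT.lf (nat_lit 6460) (nat_lit 6) (nat_lit 85) (nat_lit 5) (nat_lit 112) (nat_lit 166) (nat_lit 172)) (PT.lf (nat_lit 6840) (nat_lit 6) (nat_lit 90) (nat_lit 5) (nat_lit 113) (nat_lit 166) (nat_lit 171))))) (PT.nd (nat_lit 234) (PT.nd (nat_lit 78) (PT.lf (nat_lit 7144) (nat_lit 6) (nat_lit 94) (nat_lit 5) (nat_lit 114) (nat_lit 166) (nat_lit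 170)) (PT.nd (nat_lit 78) (PT.lf (nat_lit 7524) (nat_lit 6) (nat_lit 99) (nat_lit 5) (nat_lit 115) (nat_lit 166) (nat_lit 169)) (PT.lf (nat_lit 7904) (nat_lit 6) (nat_lit 104) (nat_lit 5) (nat_lit 116) (nat_lit 166) (nat_lit 168)))) (PT.nd (nat_lit 156) (PT.nd (nat_lit 78) (PT.lf (nat_lit 8284) (nat_lit 6) (nat_lit 109) (nat_lit 5) (nat_lit 117) (nat_lit 166) (nat_lit 167)) (PT.lf (nat_lit 8664) (nat_lit 3) (nat_lit 114) (nat_lit 4) (nat_lit 118) (nat_lit 166) (nat_lit 166))) (PT.nd (nat_lit 78) (PT.lf (nat_lit 9044) (nat_lit 6) (nat_lit 119) (nat_lit 4) (nat_lit 119) (nat_lit 166) (nat_lit 165)) (PT.lf (nat_lit 9348) (nat_lit 6) (nat_lit 123) (nat_lit 4) (nat_lit 120) (nat_lit 166) (nat_lit 164)))))) (PT.nd (nat_lit 546) (PT.nd (nat_lit 234) (PT.nd (nat_lit 78) (PT.lf (nat_lit 9728) (nat_lit 6) (nat_lit 128) (nat_lit 4) (nat_lit 121) (nat_lit 166) (nat_lit 163)) (PT.nd (nat_lit 78) (PT.lf (nat_lit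 10108) (nat_lit 6) (nat_lit 133) (nat_lit 4) (nat_lit 122) (nat_lit 166) (nat_lit 162)) (PT.lf (nat_lit 10488) (nat_lit 6) (nat_lit 138) (nat_lit 4) (nat_lit 123) (nat_lit 166) (nat_lit 161)))) (PT.nd (nat_lit 156) (PT.nd (nat_lit 78) (PT.lf (nat_lit 10868) (nat_lit 6) (nat_lit 143) (nat_lit 4) (nat_lit 124) (nat_lit 166) (nat_lit 160)) (PT.lf (nat_lit 11324) (nat_lit 6) (nat_lit 149) (nat_lit 4) (nat_lit 125) (nat_lit 166) (nat_lit 159))) (PT.nd (nat_lit 78) (PT.lf (nat_lit 11780) (nat_lit 6) (nat_lit 155) (nat_lit 4) (nat_lit 126) (nat_lit 166) (nat_lit 158)) (PT.lf (nat_lit 12236) (nat_lit 6) (nat_lit 161) (nat_lit 4) (nat_lit 127) (nat_lit 166) (nat_lit 157))))) (PT.nd (nat_lit 234) (PT.nd (nat_lit 78) (PT.lf (nat_lit 12692) (nat_lit 6) (nat_lit 167) (nat_lit 4) (nat_lit 128) (nat_lit 166) (nat_lit 156)) (PT.nd (nat_lit 78) (PT.lf (nat_lit 13224) (nat_lit 6) (nat_lit 174) (nat_lit 4) (nat_lit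 129) (nat_lit 166) (nat_lit 155)) (PT.lf (nat_lit 13756) (nat_lit 6) (nat_lit 181) (nat_lit 4) (nat_lit 130) (nat_lit 166) (nat_lit 154)))) (PT.nd (nat_lit 156) (PT.nd (nat_lit 78) (PT.lf (nat_lit 14364) (nat_lit 6) (nat_lit 189) (nat_lit 4) (nat_lit 131) (nat_lit 166) (nat_lit 153)) (PT.lf (nat_lit 14896) (nat_lit 6) (nat_lit 196) (nat_lit 4) (nat_lit 132) (nat_lit 166) (nat_lit 152))) (PT.nd (nat_lit 78) (PT.lf (nat_lit 15504) (nat_lit 6) (nat_lit 204) (nat_lit 4) (nat_lit 133) (nat_lit 166) (nat_lit 151)) (PT.lf (nat_lit 16492) (nat_lit 6) (nat_lit 217) (nat_lit 4) (nat_lit 134) (nat_lit 166) (nat_lit 150))))))))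
noncomputable def pc26 : PT := (PT.nd (nat_lit 2730) (PT.nd (nat_lit 1638) (PT.nd (nat_lit 1092) (PT.nd (nat_lit 234) (PT.nd (nat_lit 78) (PT.lf (nat_lit 16416) (nat_lit 6) (nat_lit 216) (nat_lit 4) (nat_lit 135) (nat_lit 166) (nat_lit 149)) (PT.nd (nat_lit 78) (PT.lf (nat_lit 16340) (nat_lit 6) (nat_lit 215) (nat_lit 4) (nat_lit 136) (nat_lit 166) (nat_lit 148)) (PT.lf (nat_lit 16264) (nat_lit 6) (nat_lit 214) (nat_lit 4) (nat_lit 137) (nat_lit 166) (nat_lit 147)))) (PT.nd (nat_lit 702) (PT.nd (nat_lit 624) (PT.lf (nat_lit 16188) (nat_lit 6) (nat_lit 213) (nat_lit 4) (nat_lit 138) (nat_lit 166) (nat_lit 146)) (PT.lf (nat_lit 16188) (nat_lit 6) (nat_lit 213) (nat_lit 2) (nat_lit 146) (nat_lit 166) (nat_lit 138))) (PT.nd (nat_lit 78) (PT.lf (nat_lit 16264) (nat_lit 6) (nat_lit 214) (nat_lit 2) (nat_lit 147) (nat_lit 166) (nat_lit 137)) (PT.lf (nat_lit 16340) (nat_lit 6) (nat_lit 215) (nat_lit 2) (nat_lit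 148) (nat_lit 166) (nat_lit 136))))) (PT.nd (nat_lit 234) (PT.nd (nat_lit 78) (PT.lf (nat_lit 16416) (nat_lit 6) (nat_lit 216) (nat_lit 2) (nat_lit 149) (nat_lit 166) (nat_lit 135)) (PT.nd (nat_lit 78) (PT.lf (nat_lit 16492) (nat_lit 6) (nat_lit 217) (nat_lit 2) (nat_lit 150) (nat_lit 166) (nat_lit 134)) (PT.lf (nat_lit 15504) (nat_lit 6) (nat_lit 204) (nat_lit 2) (nat_lit 151) (nat_lit 166) (nat_lit 133)))) (PT.nd (nat_lit 156) (PT.nd (nat_lit 78) (PT.lf (nat_lit 14896) (nat_lit 6) (nat_lit 196) (nat_lit 2) (nat_lit 152) (nat_lit 166) (nat_lit 132)) (PT.lf (nat_lit 14364) (nat_lit 6) (nat_lit 189) (nat_lit 2) (nat_lit 153) (nat_lit 166) (nat_lit 131))) (PT.nd (nat_lit 78) (PT.lf (nat_lit 13756) (nat_lit 6) (nat_lit 181) (nat_lit 2) (nat_lit 154) (nat_lit 166) (nat_lit 130)) (PT.lf (nat_lit 13224) (nat_lit 6) (nat_lit 174) (nat_lit 2) (nat_lit 155) (nat_lit 166) (nat_lit 129)))))) (PT.nd (nat_lit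 546) (PT.nd (nat_lit 234) (PT.nd (nat_lit 78) (PT.lf (nat_lit 12692) (nat_lit 6) (nat_lit 167) (nat_lit 2) (nat_lit 156) (nat_lit 166) (nat_lit 128)) (PT.nd (nat_lit 78) (PT.lf (nat_lit 12236) (nat_lit 6) (nat_lit 161) (nat_lit 2) (nat_lit 157) (nat_lit 166) (nat_lit 127)) (PT.lf (nat_lit 11780) (nat_lit 6) (nat_lit 155) (nat_lit 2) (nat_lit 158) (nat_lit 166) (nat_lit 126)))) (PT.nd (nat_lit 156) (PT.nd (nat_lit 78) (PT.lf (nat_lit 11324) (nat_lit 6) (nat_lit 149) (nat_lit 2) (nat_lit 159) (nat_lit 166) (nat_lit 125)) (PT.lf (nat_lit 10868) (nat_lit 6) (nat_lit 143) (nat_lit 2) (nat_lit 160) (nat_lit 166) (nat_lit 124))) (PT.nd (nat_lit 78) (PT.lf (nat_lit 10488) (nat_lit 6) (nat_lit 138) (nat_lit 2) (nat_lit 161) (nat_lit 166) (nat_lit 123)) (PT.lf (nat_lit 10108) (nat_lit 6) (nat_lit 133) (nat_lit 2) (nat_lit 162) (nat_lit 166) (nat_lit 122))))) (PT.nd (nat_lit 234) (PT.nd (nat_lit 78) (PT.lf (nat_lit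 9728) (nat_lit 6) (nat_lit 128) (nat_lit 2) (nat_lit 163) (nat_lit 166) (nat_lit 121)) (PT.nd (nat_lit 78) (PT.lf (nat_lit 9348) (nat_lit 6) (nat_lit 123) (nat_lit 2) (nat_lit 164) (nat_lit 166) (nat_lit 120)) (PT.lf (nat_lit 9044) (nat_lit 6) (nat_lit 119) (nat_lit 2) (nat_lit 165) (nat_lit 166) (nat_lit 119)))) (PT.nd (nat_lit 156) (PT.nd (nat_lit 78) (PT.lf (nat_lit 8664) (nat_lit 3) (nat_lit 114) (nat_lit 0) (nat_lit 166) (nat_lit 166) (nat_lit 118)) (PT.lf (nat_lit 8284) (nat_lit 6) (nat_lit 109) (nat_lit 0) (nat_lit 167) (nat_lit 166) (nat_lit 117))) (PT.nd (nat_lit 78) (PT.lf (nat_lit 7904) (nat_lit 6) (nat_lit 104) (nat_lit 0) (nat_lit 168) (nat_lit 166) (nat_lit 116)) (PT.lf (nat_lit 7524) (nat_lit 6) (nat_lit 99) (nat_lit 0) (nat_lit 169) (nat_lit 166) (nat_lit 115))))))) (PT.nd (nat_lit 43056) (PT.nd (nat_lit 42510) (PT.nd (nat_lit 42198) (PT.nd (nat_lit 78) (PT.lf (nat_lit 7144) (nat_lit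 6) (nat_lit 94) (nat_lit 0) (nat_lit 170) (nat_lit 166) (nat_lit 114)) (PT.nd (nat_lit 78) (PT.lf (nat_lit 6840) (nat_lit 6) (nat_lit 90) (nat_lit 0) (nat_lit 171) (nat_lit 166) (nat_lit 113)) (PT.lf (nat_lit 6460) (nat_lit 6) (nat_lit 85) (nat_lit 0) (nat_lit 172) (nat_lit 166) (nat_lit 112)))) (PT.nd (nat_lit 156) (PT.nd (nat_lit 78) (PT.lf (nat_lit 5928) (nat_lit 6) (nat_lit 78) (nat_lit 5) (nat_lit 110) (nat_lit 167) (nat_lit 173)) (PT.lf (nat_lit 6232) (nat_lit 6) (nat_lit 82) (nat_lit 5) (nat_lit 111) (nat_lit 167) (nat_lit 172))) (PT.nd (nat_lit 78) (PT.lf (nat_lit 6536) (nat_lit 6) (nat_lit 86) (nat_lit 5) (nat_lit 112) (nat_lit 167) (nat_lit 171)) (PT.lf (nat_lit 6916) (nat_lit 6) (nat_lit 91) (nat_lit 5) (nat_lit 113) (nat_lit 167) (nat_lit 170))))) (PT.nd (nat_lit 234) (PT.nd (nat_lit 78) (PT.lf (nat_lit 7220) (nat_lit 6) (nat_lit 95) (nat_lit 5) (nat_lit 114) (nat_lit 167) (nat_lit 169))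 (PT.nd (nat_lit 78) (PT.lf (nat_lit 7600) (nat_lit 6) (nat_lit 100) (nat_lit 5) (nat_lit 115) (nat_lit 167) (nat_lit 168)) (PT.lf (nat_lit 7980) (nat_lit 3) (nat_lit 105) (nat_lit 4) (nat_lit 116) (nat_lit 167) (nat_lit 167)))) (PT.nd (nat_lit 156) (PT.nd (nat_lit 78) (PT.lf (nat_lit 8284) (nat_lit 6) (nat_lit 109) (nat_lit 4) (nat_lit 117) (nat_lit 167) (nat_lit 166)) (PT.lf (nat_lit 8588) (nat_lit 6) (nat_lit 113) (nat_lit 4) (nat_lit 118) (nat_lit 167) (nat_lit 165))) (PT.nd (nat_lit 78) (PT.lf (nat_lit 8968) (nat_lit 6) (nat_lit 118) (nat_lit 4) (nat_lit 119) (nat_lit 167) (nat_lit 164)) (PT.lf (nat_lit 9272) (nat_lit 6) (nat_lit 122) (nat_lit 4) (nat_lit 120) (nat_lit 167) (nat_lit 163)))))) (PT.nd (nat_lit 546) (PT.nd (nat_lit 234) (PT.nd (nat_lit 78) (PT.lf (nat_lit 9652) (nat_lit 6) (nat_lit 127) (nat_lit 4) (nat_lit 121) (nat_lit 167) (nat_lit 162)) (PT.nd (nat_lit 78) (PT.lf (nat_lit 10032)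 (nat_lit 6) (nat_lit 132) (nat_lit 4) (nat_lit 122) (nat_lit 167) (nat_lit 161)) (PT.lf (nat_lit 10412) (nat_lit 6) (nat_lit 137) (nat_lit 4) (nat_lit 123) (nat_lit 167) (nat_lit 160)))) (PT.nd (nat_lit 156) (PT.nd (nat_lit 78) (PT.lf (nat_lit 10792) (nat_lit 6) (nat_lit 142) (nat_lit 4) (nat_lit 124) (nat_lit 167) (nat_lit 159)) (PT.lf (nat_lit 11248) (nat_lit 6) (nat_lit 148) (nat_lit 4) (nat_lit 125) (nat_lit 167) (nat_lit 158))) (PT.nd (nat_lit 78) (PT.lf (nat_lit 11704) (nat_lit 6) (nat_lit 154) (nat_lit 4) (nat_lit 126) (nat_lit 167) (nat_lit 157)) (PT.lf (nat_lit 12160) (nat_lit 6) (nat_lit 160) (nat_lit 4) (nat_lit 127) (nat_lit 167) (nat_lit 156))))) (PT.nd (nat_lit 1950) (PT.nd (nat_lit 78) (PT.lf (nat_lit 12616) (nat_lit 6) (nat_lit 166) (nat_lit 4) (nat_lit 128) (nat_lit 167) (nat_lit 155)) (PT.nd (nat_lit 78) (PT.lf (nat_lit 13148) (nat_lit 6) (nat_lit 173) (nat_lit 4) (nat_lit 129) (nat_lit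 167) (nat_lit 154)) (PT.lf (nat_lit 13680) (nat_lit 6) (nat_lit 180) (nat_lit 4) (nat_lit 130) (nat_lit 167) (nat_lit 153)))) (PT.nd (nat_lit 156) (PT.nd (nat_lit 78) (PT.lf (nat_lit 13680) (nat_lit 6) (nat_lit 180) (nat_lit 2) (nat_lit 153) (nat_lit 167) (nat_lit 130)) (PT.lf (nat_lit 13148) (nat_lit 6) (nat_lit 173) (nat_lit 2) (nat_lit 154) (nat_lit 167) (nat_lit 129))) (PT.nd (nat_lit 78) (PT.lf (nat_lit 12616) (nat_lit 6) (nat_lit 166) (nat_lit 2) (nat_lit 155) (nat_lit 167) (nat_lit 128)) (PT.lf (nat_lit 12160) (nat_lit 6) (nat_lit 160) (nat_lit 2) (nat_lit 156) (nat_lit 167) (nat_lit 127))))))))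
noncomputable def pc27 : PT := (PT.nd (nat_lit 43992) (PT.nd (nat_lit 1092) (PT.nd (nat_lit 546) (PT.nd (nat_lit 234) (PT.nd (nat_lit 78) (PT.lf (nat_lit 11704) (nat_lit 6) (nat_lit 154) (nat_lit 2) (nat_lit 157) (nat_lit 167) (nat_lit 126)) (PT.nd (nat_lit 78) (PT.lf (nat_lit 11248) (nat_lit 6) (nat_lit 148) (nat_lit 2) (nat_lit 158) (nat_lit 167) (nat_lit 125)) (PT.lf (nat_lit 10792) (nat_lit 6) (nat_lit 142) (nat_lit 2) (nat_lit 159) (nat_lit 167) (nat_lit 124)))) (PT.nd (nat_lit 156) (PT.nd (nat_lit 78) (PT.lf (nat_lit 10412) (nat_lit 6) (nat_lit 137) (nat_lit 2) (nat_lit 160) (nat_lit 167) (nat_lit 123)) (PT.lf (nat_lit 10032) (nat_lit 6) (nat_lit 132) (nat_lit 2) (nat_lit 161) (nat_lit 167) (nat_lit 122))) (PT.nd (nat_lit 78) (PT.lf (nat_lit 9652) (nat_lit 6) (nat_lit 127) (nat_lit 2) (nat_lit 162) (nat_lit 167) (nat_lit 121)) (PT.lf (nat_lit 9272) (nat_lit 6) (nat_lit 122) (nat_lit 2) (nat_lit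 163) (nat_lit 167) (nat_lit 120))))) (PT.nd (nat_lit 234) (PT.nd (nat_lit 78) (PT.lf (nat_lit 8968) (nat_lit 6) (nat_lit 118) (nat_lit 2) (nat_lit 164) (nat_lit 167) (nat_lit 119)) (PT.nd (nat_lit 78) (PT.lf (nat_lit 8588) (nat_lit 6) (nat_lit 113) (nat_lit 2) (nat_lit 165) (nat_lit 167) (nat_lit 118)) (PT.lf (nat_lit 8284) (nat_lit 6) (nat_lit 109) (nat_lit 2) (nat_lit 166) (nat_lit 167) (nat_lit 117)))) (PT.nd (nat_lit 156) (PT.nd (nat_lit 78) (PT.lf (nat_lit 7980) (nat_lit 3) (nat_lit 105) (nat_lit 0) (nat_lit 167) (nat_lit 167) (nat_lit 116)) (PT.lf (nat_lit 7600) (nat_lit 6) (nat_lit 100) (nat_lit 0) (nat_lit 168) (nat_lit 167) (nat_lit 115))) (PT.nd (nat_lit 78) (PT.lf (nat_lit 7220) (nat_lit 6) (nat_lit 95) (nat_lit 0) (nat_lit 169) (nat_lit 167) (nat_lit 114)) (PT.lf (nat_lit 6916) (nat_lit 6) (nat_lit 91) (nat_lit 0) (nat_lit 170) (nat_lit 167) (nat_lit 113)))))) (PT.nd (nat_lit 42354) (PT.nd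 (nat_lit 42042) (PT.nd (nat_lit 78) (PT.lf (nat_lit 6536) (nat_lit 6) (nat_lit 86) (nat_lit 0) (nat_lit 171) (nat_lit 167) (nat_lit 112)) (PT.nd (nat_lit 78) (PT.lf (nat_lit 6232) (nat_lit 6) (nat_lit 82) (nat_lit 0) (nat_lit 172) (nat_lit 167) (nat_lit 111)) (PT.lf (nat_lit 5928) (nat_lit 6) (nat_lit 78) (nat_lit 0) (nat_lit 173) (nat_lit 167) (nat_lit 110)))) (PT.nd (nat_lit 156) (PT.nd (nat_lit 78) (PT.lf (nat_lit 5700) (nat_lit 6) (nat_lit 75) (nat_lit 5) (nat_lit 109) (nat_lit 168) (nat_lit 173)) (PT.lf (nat_lit 6004) (nat_lit 6) (nat_lit 79) (nat_lit 5) (nat_lit 110) (nat_lit 168) (nat_lit 172))) (PT.nd (nat_lit 78) (PT.lf (nat_lit 6308) (nat_lit 6) (nat_lit 83) (nat_lit 5) (nat_lit 111) (nat_lit 168) (nat_lit 171)) (PT.lf (nat_lit 6612) (nat_lit 6) (nat_lit 87) (nat_lit 5) (nat_lit 112) (nat_lit 168) (nat_lit 170))))) (PT.nd (nat_lit 234) (PT.nd (nat_lit 78) (PT.lf (nat_lit 6992) (nat_lit 6)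 (nat_lit 92) (nat_lit 5) (nat_lit 113) (nat_lit 168) (nat_lit 169)) (PT.nd (nat_lit 78) (PT.lf (nat_lit 7296) (nat_lit 3) (nat_lit 96) (nat_lit 4) (nat_lit 114) (nat_lit 168) (nat_lit 168)) (PT.lf (nat_lit 7600) (nat_lit 6) (nat_lit 100) (nat_lit 4) (nat_lit 115) (nat_lit 168) (nat_lit 167)))) (PT.nd (nat_lit 156) (PT.nd (nat_lit 78) (PT.lf (nat_lit 7904) (nat_lit 6) (nat_lit 104) (nat_lit 4) (nat_lit 116) (nat_lit 168) (nat_lit 166)) (PT.lf (nat_lit 8208) (nat_lit 6) (nat_lit 108) (nat_lit 4) (nat_lit 117) (nat_lit 168) (nat_lit 165))) (PT.nd (nat_lit 78) (PT.lf (nat_lit 8512) (nat_lit 6) (nat_lit 112) (nat_lit 4) (nat_lit 118) (nat_lit 168) (nat_lit 164)) (PT.lf (nat_lit 8892) (nat_lit 6) (nat_lit 117) (nat_lit 4) (nat_lit 119) (nat_lit 168) (nat_lit 163))))))) (PT.nd (nat_lit 3354) (PT.nd (nat_lit 2808) (PT.nd (nat_lit 234) (PT.nd (nat_lit 78) (PT.lf (nat_lit 9196) (nat_lit 6) (nat_lit 121) (nat_lit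 4) (nat_lit 120) (nat_lit 168) (nat_lit 162)) (PT.nd (nat_lit 78) (PT.lf (nat_lit 9576) (nat_lit 6) (nat_lit 126) (nat_lit 4) (nat_lit 121) (nat_lit 168) (nat_lit 161)) (PT.lf (nat_lit 9956) (nat_lit 6) (nat_lit 131) (nat_lit 4) (nat_lit 122) (nat_lit 168) (nat_lit 160)))) (PT.nd (nat_lit 156) (PT.nd (nat_lit 78) (PT.lf (nat_lit 10336) (nat_lit 6) (nat_lit 136) (nat_lit 4) (nat_lit 123) (nat_lit 168) (nat_lit 159)) (PT.lf (nat_lit 10716) (nat_lit 6) (nat_lit 141) (nat_lit 4) (nat_lit 124) (nat_lit 168) (nat_lit 158))) (PT.nd (nat_lit 78) (PT.lf (nat_lit 11172) (nat_lit 6) (nat_lit 147) (nat_lit 4) (nat_lit 125) (nat_lit 168) (nat_lit 157)) (PT.lf (nat_lit 11628) (nat_lit 6) (nat_lit 153) (nat_lit 4) (nat_lit 126) (nat_lit 168) (nat_lit 156))))) (PT.nd (nat_lit 234) (PT.nd (nat_lit 78) (PT.lf (nat_lit 11628) (nat_lit 6) (nat_lit 153) (nat_lit 2) (nat_lit 156) (nat_lit 168) (nat_lit 126)) (PT.nd (nat_lit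 78) (PT.lf (nat_lit 11172) (nat_lit 6) (nat_lit 147) (nat_lit 2) (nat_lit 157) (nat_lit 168) (nat_lit 125)) (PT.lf (nat_lit 10716) (nat_lit 6) (nat_lit 141) (nat_lit 2) (nat_lit 158) (nat_lit 168) (nat_lit 124)))) (PT.nd (nat_lit 156) (PT.nd (nat_lit 78) (PT.lf (nat_lit 10336) (nat_lit 6) (nat_lit 136) (nat_lit 2) (nat_lit 159) (nat_lit 168) (nat_lit 123)) (PT.lf (nat_lit 9956) (nat_lit 6) (nat_lit 131) (nat_lit 2) (nat_lit 160) (nat_lit 168) (nat_lit 122))) (PT.nd (nat_lit 78) (PT.lf (nat_lit 9576) (nat_lit 6) (nat_lit 126) (nat_lit 2) (nat_lit 161) (nat_lit 168) (nat_lit 121)) (PT.lf (nat_lit 9196) (nat_lit 6) (nat_lit 121) (nat_lit 2) (nat_lit 162) (nat_lit 168) (nat_lit 120)))))) (PT.nd (nat_lit 546) (PT.nd (nat_lit 234) (PT.nd (nat_lit 78) (PT.lf (nat_lit 8892) (nat_lit 6) (nat_lit 117) (nat_lit 2) (nat_lit 163) (nat_lit 168) (nat_lit 119)) (PT.nd (nat_lit 78) (PT.lf (nat_lit 8512) (nat_lit 6)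 (nat_lit 112) (nat_lit 2) (nat_lit 164) (nat_lit 168) (nat_lit 118)) (PT.lf (nat_lit 8208) (nat_lit 6) (nat_lit 108) (nat_lit 2) (nat_lit 165) (nat_lit 168) (nat_lit 117)))) (PT.nd (nat_lit 156) (PT.nd (nat_lit 78) (PT.lf (nat_lit 7904) (nat_lit 6) (nat_lit 104) (nat_lit 2) (nat_lit 166) (nat_lit 168) (nat_lit 116)) (PT.lf (nat_lit 7600) (nat_lit 6) (nat_lit 100) (nat_lit 2) (nat_lit 167) (nat_lit 168) (nat_lit 115))) (PT.nd (nat_lit 78) (PT.lf (nat_lit 7296) (nat_lit 3) (nat_lit 96) (nat_lit 0) (nat_lit 168) (nat_lit 168) (nat_lit 114)) (PT.lf (nat_lit 6992) (nat_lit 6) (nat_lit 92) (nat_lit 0) (nat_lit 169) (nat_lit 168) (nat_lit 113))))) (PT.nd (nat_lit 41964) (PT.nd (nat_lit 156) (PT.nd (nat_lit 78) (PT.lf (nat_lit 6612) (nat_lit 6) (nat_lit 87) (nat_lit 0) (nat_lit 170) (nat_lit 168) (nat_lit 112)) (PT.lf (nat_lit 6308) (nat_lit 6) (nat_lit 83) (nat_lit 0) (nat_lit 171) (nat_lit 168) (nat_lit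 111))) (PT.nd (nat_lit 78) (PT.lf (nat_lit 6004) (nat_lit 6) (nat_lit 79) (nat_lit 0) (nat_lit 172) (nat_lit 168) (nat_lit 110)) (PT.lf (nat_lit 5700) (nat_lit 6) (nat_lit 75) (nat_lit 0) (nat_lit 173) (nat_lit 168) (nat_lit 109)))) (PT.nd (nat_lit 156) (PT.nd (nat_lit 78) (PT.lf (nat_lit 5168) (nat_lit 6) (nat_lit 68) (nat_lit 5) (nat_lit 107) (nat_lit 169) (nat_lit 174)) (PT.lf (nat_lit 5472) (nat_lit 6) (nat_lit 72) (nat_lit 5) (nat_lit 108) (nat_lit 169) (nat_lit 173))) (PT.nd (nat_lit 78) (PT.lf (nat_lit 5776) (nat_lit 6) (nat_lit 76) (nat_lit 5) (nat_lit 109) (nat_lit 169) (nat_lit 172)) (PT.lf (nat_lit 6080) (nat_lit 6) (nat_lit 80) (nat_lit 5) (nat_lit 110) (nat_lit 169) (nat_lit 171))))))))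
noncomputable def pc28 : PT := (PT.nd (nat_lit 46410) (PT.nd (nat_lit 3900) (PT.nd (nat_lit 546) (PT.nd (nat_lit 234) (PT.nd (nat_lit 78) (PT.lf (nat_lit 6384) (nat_lit 6) (nat_lit 84) (nat_lit 5) (nat_lit 111) (nat_lit 169) (nat_lit 170)) (PT.nd (nat_lit 78) (PT.lf (nat_lit 6688) (nat_lit 3) (nat_lit 88) (nat_lit 4) (nat_lit 112) (nat_lit 169) (nat_lit 169)) (PT.lf (nat_lit 6992) (nat_lit 6) (nat_lit 92) (nat_lit 4) (nat_lit 113) (nat_lit 169) (nat_lit 168)))) (PT.nd (nat_lit 156) (PT.nd (nat_lit 78) (PT.lf (nat_lit 7220) (nat_lit 6) (nat_lit 95) (nat_lit 4) (nat_lit 114) (nat_lit 169) (nat_lit 167)) (PT.lf (nat_lit 7524) (nat_lit 6) (nat_lit 99) (nat_lit 4) (nat_lit 115) (nat_lit 169) (nat_lit 166))) (PT.nd (nat_lit 78) (PT.lf (nat_lit 7828) (nat_lit 6) (nat_lit 103) (nat_lit 4) (nat_lit 116) (nat_lit 169) (nat_lit 165)) (PT.lf (nat_lit 8132) (nat_lit 6) (nat_lit 107) (nat_lit 4) (nat_lit 117) (nat_lit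 169) (nat_lit 164))))) (PT.nd (nat_lit 234) (PT.nd (nat_lit 78) (PT.lf (nat_lit 8436) (nat_lit 6) (nat_lit 111) (nat_lit 4) (nat_lit 118) (nat_lit 169) (nat_lit 163)) (PT.nd (nat_lit 78) (PT.lf (nat_lit 8816) (nat_lit 6) (nat_lit 116) (nat_lit 4) (nat_lit 119) (nat_lit 169) (nat_lit 162)) (PT.lf (nat_lit 9120) (nat_lit 6) (nat_lit 120) (nat_lit 4) (nat_lit 120) (nat_lit 169) (nat_lit 161)))) (PT.nd (nat_lit 2964) (PT.nd (nat_lit 78) (PT.lf (nat_lit 9500) (nat_lit 6) (nat_lit 125) (nat_lit 4) (nat_lit 121) (nat_lit 169) (nat_lit 160)) (PT.lf (nat_lit 9880) (nat_lit 6) (nat_lit 130) (nat_lit 4) (nat_lit 122) (nat_lit 169) (nat_lit 159))) (PT.nd (nat_lit 78) (PT.lf (nat_lit 9880) (nat_lit 6) (nat_lit 130) (nat_lit 2) (nat_lit 159) (nat_lit 169) (nat_lit 122)) (PT.lf (nat_lit 9500) (nat_lit 6) (nat_lit 125) (nat_lit 2) (nat_lit 160) (nat_lit 169) (nat_lit 121)))))) (PT.nd (nat_lit 546) (PT.nd (nat_lit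 234) (PT.nd (nat_lit 78) (PT.lf (nat_lit 9120) (nat_lit 6) (nat_lit 120) (nat_lit 2) (nat_lit 161) (nat_lit 169) (nat_lit 120)) (PT.nd (nat_lit 78) (PT.lf (nat_lit 8816) (nat_lit 6) (nat_lit 116) (nat_lit 2) (nat_lit 162) (nat_lit 169) (nat_lit 119)) (PT.lf (nat_lit 8436) (nat_lit 6) (nat_lit 111) (nat_lit 2) (nat_lit 163) (nat_lit 169) (nat_lit 118)))) (PT.nd (nat_lit 156) (PT.nd (nat_lit 78) (PT.lf (nat_lit 8132) (nat_lit 6) (nat_lit 107) (nat_lit 2) (nat_lit 164) (nat_lit 169) (nat_lit 117)) (PT.lf (nat_lit 7828) (nat_lit 6) (nat_lit 103) (nat_lit 2) (nat_lit 165) (nat_lit 169) (nat_lit 116))) (PT.nd (nat_lit 78) (PT.lf (nat_lit 7524) (nat_lit 6) (nat_lit 99) (nat_lit 2) (nat_lit 166) (nat_lit 169) (nat_lit 115)) (PT.lf (nat_lit 7220) (nat_lit 6) (nat_lit 95) (nat_lit 2) (nat_lit 167) (nat_lit 169) (nat_lit 114))))) (PT.nd (nat_lit 234) (PT.nd (nat_lit 78) (PT.lf (nat_lit 6992) (nat_lit 6) (nat_lit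 92) (nat_lit 2) (nat_lit 168) (nat_lit 169) (nat_lit 113)) (PT.nd (nat_lit 78) (PT.lf (nat_lit 6688) (nat_lit 3) (nat_lit 88) (nat_lit 0) (nat_lit 169) (nat_lit 169) (nat_lit 112)) (PT.lf (nat_lit 6384) (nat_lit 6) (nat_lit 84) (nat_lit 0) (nat_lit 170) (nat_lit 169) (nat_lit 111)))) (PT.nd (nat_lit 156) (PT.nd (nat_lit 78) (PT.lf (nat_lit 6080) (nat_lit 6) (nat_lit 80) (nat_lit 0) (nat_lit 171) (nat_lit 169) (nat_lit 110)) (PT.lf (nat_lit 5776) (nat_lit 6) (nat_lit 76) (nat_lit 0) (nat_lit 172) (nat_lit 169) (nat_lit 109))) (PT.nd (nat_lit 78) (PT.lf (nat_lit 5472) (nat_lit 6) (nat_lit 72) (nat_lit 0) (nat_lit 173) (nat_lit 169) (nat_lit 108)) (PT.lf (nat_lit 5168) (nat_lit 6) (nat_lit 68) (nat_lit 0) (nat_lit 174) (nat_lit 169) (nat_lit 107))))))) (PT.nd (nat_lit 1092) (PT.nd (nat_lit 546) (PT.nd (nat_lit 234) (PT.nd (nat_lit 78) (PT.lf (nat_lit 4712) (nat_lit 6) (nat_lit 62) (nat_lit 5) (nat_lit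 105) (nat_lit 170) (nat_lit 175)) (PT.nd (nat_lit 78) (PT.lf (nat_lit 4940) (nat_lit 6) (nat_lit 65) (nat_lit 5) (nat_lit 106) (nat_lit 170) (nat_lit 174)) (PT.lf (nat_lit 5244) (nat_lit 6) (nat_lit 69) (nat_lit 5) (nat_lit 107) (nat_lit 170) (nat_lit 173)))) (PT.nd (nat_lit 156) (PT.nd (nat_lit 78) (PT.lf (nat_lit 5548) (nat_lit 6) (nat_lit 73) (nat_lit 5) (nat_lit 108) (nat_lit 170) (nat_lit 172)) (PT.lf (nat_lit 5852) (nat_lit 6) (nat_lit 77) (nat_lit 5) (nat_lit 109) (nat_lit 170) (nat_lit 171))) (PT.nd (nat_lit 78) (PT.lf (nat_lit 6156) (nat_lit 3) (nat_lit 81) (nat_lit 4) (nat_lit 110) (nat_lit 170) (nat_lit 170)) (PT.lf (nat_lit 6384) (nat_lit 6) (nat_lit 84) (nat_lit 4) (nat_lit 111) (nat_lit 170) (nat_lit 169))))) (PT.nd (nat_lit 234) (PT.nd (nat_lit 78) (PT.lf (nat_lit 6612) (nat_lit 6) (nat_lit 87) (nat_lit 4) (nat_lit 112) (nat_lit 170) (nat_lit 168)) (PT.nd (nat_lit 78) (PT.lf (nat_lit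 6916) (nat_lit 6) (nat_lit 91) (nat_lit 4) (nat_lit 113) (nat_lit 170) (nat_lit 167)) (PT.lf (nat_lit 7144) (nat_lit 6) (nat_lit 94) (nat_lit 4) (nat_lit 114) (nat_lit 170) (nat_lit 166)))) (PT.nd (nat_lit 156) (PT.nd (nat_lit 78) (PT.lf (nat_lit 7448) (nat_lit 6) (nat_lit 98) (nat_lit 4) (nat_lit 115) (nat_lit 170) (nat_lit 165)) (PT.lf (nat_lit 7752) (nat_lit 6) (nat_lit 102) (nat_lit 4) (nat_lit 116) (nat_lit 170) (nat_lit 164))) (PT.nd (nat_lit 78) (PT.lf (nat_lit 8056) (nat_lit 6) (nat_lit 106) (nat_lit 4) (nat_lit 117) (nat_lit 170) (nat_lit 163)) (PT.lf (nat_lit 8360) (nat_lit 6) (nat_lit 110) (nat_lit 4) (nat_lit 118) (nat_lit 170) (nat_lit 162)))))) (PT.nd (nat_lit 3744) (PT.nd (nat_lit 3432) (PT.nd (nat_lit 3276) (PT.lf (nat_lit 8740) (nat_lit 6) (nat_lit 115) (nat_lit 4) (nat_lit 119) (nat_lit 170) (nat_lit 161)) (PT.nd (nat_lit 78) (PT.lf (nat_lit 8740) (nat_lit 6) (nat_lit 115) (nat_lit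 2) (nat_lit 161) (nat_lit 170) (nat_lit 119)) (PT.lf (nat_lit 8360) (nat_lit 6) (nat_lit 110) (nat_lit 2) (nat_lit 162) (nat_lit 170) (nat_lit 118)))) (PT.nd (nat_lit 156) (PT.nd (nat_lit 78) (PT.lf (nat_lit 8056) (nat_lit 6) (nat_lit 106) (nat_lit 2) (nat_lit 163) (nat_lit 170) (nat_lit 117)) (PT.lf (nat_lit 7752) (nat_lit 6) (nat_lit 102) (nat_lit 2) (nat_lit 164) (nat_lit 170) (nat_lit 116))) (PT.nd (nat_lit 78) (PT.lf (nat_lit 7448) (nat_lit 6) (nat_lit 98) (nat_lit 2) (nat_lit 165) (nat_lit 170) (nat_lit 115)) (PT.lf (nat_lit 7144) (nat_lit 6) (nat_lit 94) (nat_lit 2) (nat_lit 166) (nat_lit 170) (nat_lit 114))))) (PT.nd (nat_lit 234) (PT.nd (nat_lit 78) (PT.lf (nat_lit 6916) (nat_lit 6) (nat_lit 91) (nat_lit 2) (nat_lit 167) (nat_lit 170) (nat_lit 113)) (PT.nd (nat_lit 78) (PT.lf (nat_lit 6612) (nat_lit 6) (nat_lit 87) (nat_lit 2) (nat_lit 168) (nat_lit 170) (nat_lit 112)) (PT.lf (nat_lit 6384)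 (nat_lit 6) (nat_lit 84) (nat_lit 2) (nat_lit 169) (nat_lit 170) (nat_lit 111)))) (PT.nd (nat_lit 156) (PT.nd (nat_lit 78) (PT.lf (nat_lit 6156) (nat_lit 3) (nat_lit 81) (nat_lit 0) (nat_lit 170) (nat_lit 170) (nat_lit 110)) (PT.lf (nat_lit 5852) (nat_lit 6) (nat_lit 77) (nat_lit 0) (nat_lit 171) (nat_lit 170) (nat_lit 109))) (PT.nd (nat_lit 78) (PT.lf (nat_lit 5548) (nat_lit 6) (nat_lit 73) (nat_lit 0) (nat_lit 172) (nat_lit 170) (nat_lit 108)) (PT.lf (nat_lit 5244) (nat_lit 6) (nat_lit 69) (nat_lit 0) (nat_lit 173) (nat_lit 170) (nat_lit 107))))))))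
noncomputable def pc29 : PT := (PT.nd (nat_lit 88140) (PT.nd (nat_lit 42354) (PT.nd (nat_lit 41808) (PT.nd (nat_lit 41496) (PT.nd (nat_lit 78) (PT.lf (nat_lit 4940) (nat_lit 6) (nat_lit 65) (nat_lit 0) (nat_lit 174) (nat_lit 170) (nat_lit 106)) (PT.nd (nat_lit 41340) (PT.lf (nat_lit 4712) (nat_lit 6) (nat_lit 62) (nat_lit 0) (nat_lit 175) (nat_lit 170) (nat_lit 105)) (PT.lf (nat_lit 4484) (nat_lit 6) (nat_lit 59) (nat_lit 5) (nat_lit 104) (nat_lit 171) (nat_lit 175)))) (PT.nd (nat_lit 156) (PT.nd (nat_lit 78) (PT.lf (nat_lit 4788) (nat_lit 6) (nat_lit 63) (nat_lit 5) (nat_lit 105) (nat_lit 171) (nat_lit 174)) (PT.lf (nat_lit 5016) (nat_lit 6) (nat_lit 66) (nat_lit 5) (nat_lit 106) (nat_lit 171) (nat_lit 173))) (PT.nd (nat_lit 78) (PT.lf (nat_lit 5320) (nat_lit 6) (nat_lit 70) (nat_lit 5) (nat_lit 107) (nat_lit 171) (nat_lit 172)) (PT.lf (nat_lit 5624) (nat_lit 3) (nat_lit 74) (nat_lit 4) (nat_lit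 108) (nat_lit 171) (nat_lit 171))))) (PT.nd (nat_lit 234) (PT.nd (nat_lit 78) (PT.lf (nat_lit 5852) (nat_lit 6) (nat_lit 77) (nat_lit 4) (nat_lit 109) (nat_lit 171) (nat_lit 170)) (PT.nd (nat_lit 78) (PT.lf (nat_lit 6080) (nat_lit 6) (nat_lit 80) (nat_lit 4) (nat_lit 110) (nat_lit 171) (nat_lit 169)) (PT.lf (nat_lit 6308) (nat_lit 6) (nat_lit 83) (nat_lit 4) (nat_lit 111) (nat_lit 171) (nat_lit 168)))) (PT.nd (nat_lit 156) (PT.nd (nat_lit 78) (PT.lf (nat_lit 6536) (nat_lit 6) (nat_lit 86) (nat_lit 4) (nat_lit 112) (nat_lit 171) (nat_lit 167)) (PT.lf (nat_lit 6840) (nat_lit 6) (nat_lit 90) (nat_lit 4) (nat_lit 113) (nat_lit 171) (nat_lit 166))) (PT.nd (nat_lit 78) (PT.lf (nat_lit 7068) (nat_lit 6) (nat_lit 93) (nat_lit 4) (nat_lit 114) (nat_lit 171) (nat_lit 165)) (PT.lf (nat_lit 7372) (nat_lit 6) (nat_lit 97) (nat_lit 4) (nat_lit 115) (nat_lit 171) (nat_lit 164)))))) (PT.nd (nat_lit 4134) (PT.nd (nat_lit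 3822) (PT.nd (nat_lit 3666) (PT.lf (nat_lit 7676) (nat_lit 6) (nat_lit 101) (nat_lit 4) (nat_lit 116) (nat_lit 171) (nat_lit 163)) (PT.nd (nat_lit 78) (PT.lf (nat_lit 7676) (nat_lit 6) (nat_lit 101) (nat_lit 2) (nat_lit 163) (nat_lit 171) (nat_lit 116)) (PT.lf (nat_lit 7372) (nat_lit 6) (nat_lit 97) (nat_lit 2) (nat_lit 164) (nat_lit 171) (nat_lit 115)))) (PT.nd (nat_lit 156) (PT.nd (nat_lit 78) (PT.lf (nat_lit 7068) (nat_lit 6) (nat_lit 93) (nat_lit 2) (nat_lit 165) (nat_lit 171) (nat_lit 114)) (PT.lf (nat_lit 6840) (nat_lit 6) (nat_lit 90) (nat_lit 2) (nat_lit 166) (nat_lit 171) (nat_lit 113))) (PT.nd (nat_lit 78) (PT.lf (nat_lit 6536) (nat_lit 6) (nat_lit 86) (nat_lit 2) (nat_lit 167) (nat_lit 171) (nat_lit 112)) (PT.lf (nat_lit 6308) (nat_lit 6) (nat_lit 83) (nat_lit 2) (nat_lit 168) (nat_lit 171) (nat_lit 111))))) (PT.nd (nat_lit 234) (PT.nd (nat_lit 78) (PT.lf (nat_lit 6080) (nat_lit 6) (nat_lit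 80) (nat_lit 2) (nat_lit 169) (nat_lit 171) (nat_lit 110)) (PT.nd (nat_lit 78) (PT.lf (nat_lit 5852) (nat_lit 6) (nat_lit 77) (nat_lit 2) (nat_lit 170) (nat_lit 171) (nat_lit 109)) (PT.lf (nat_lit 5624) (nat_lit 3) (nat_lit 74) (nat_lit 0) (nat_lit 171) (nat_lit 171) (nat_lit 108)))) (PT.nd (nat_lit 156) (PT.nd (nat_lit 78) (PT.lf (nat_lit 5320) (nat_lit 6) (nat_lit 70) (nat_lit 0) (nat_lit 172) (nat_lit 171) (nat_lit 107)) (PT.lf (nat_lit 5016) (nat_lit 6) (nat_lit 66) (nat_lit 0) (nat_lit 173) (nat_lit 171) (nat_lit 106))) (PT.nd (nat_lit 78) (PT.lf (nat_lit 4788) (nat_lit 6) (nat_lit 63) (nat_lit 0) (nat_lit 174) (nat_lit 171) (nat_lit 105)) (PT.lf (nat_lit 4484) (nat_lit 6) (nat_lit 59) (nat_lit 0) (nat_lit 175) (nat_lit 171) (nat_lit 104))))))) (PT.nd (nat_lit 5070) (PT.nd (nat_lit 546) (PT.nd (nat_lit 234) (PT.nd (nat_lit 78) (PT.lf (nat_lit 4104) (nat_lit 6) (nat_lit 54) (nat_lit 5) (nat_lit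 102) (nat_lit 172) (nat_lit 176)) (PT.nd (nat_lit 78) (PT.lf (nat_lit 4332) (nat_lit 6) (nat_lit 57) (nat_lit 5) (nat_lit 103) (nat_lit 172) (nat_lit 175)) (PT.lf (nat_lit 4560) (nat_lit 6) (nat_lit 60) (nat_lit 5) (nat_lit 104) (nat_lit 172) (nat_lit 174)))) (PT.nd (nat_lit 156) (PT.nd (nat_lit 78) (PT.lf (nat_lit 4864) (nat_lit 6) (nat_lit 64) (nat_lit 5) (nat_lit 105) (nat_lit 172) (nat_lit 173)) (PT.lf (nat_lit 5092) (nat_lit 3) (nat_lit 67) (nat_lit 4) (nat_lit 106) (nat_lit 172) (nat_lit 172))) (PT.nd (nat_lit 78) (PT.lf (nat_lit 5320) (nat_lit 6) (nat_lit 70) (nat_lit 4) (nat_lit 107) (nat_lit 172) (nat_lit 171)) (PT.lf (nat_lit 5548) (nat_lit 6) (nat_lit 73) (nat_lit 4) (nat_lit 108) (nat_lit 172) (nat_lit 170))))) (PT.nd (nat_lit 234) (PT.nd (nat_lit 78) (PT.lf (nat_lit 5776) (nat_lit 6) (nat_lit 76) (nat_lit 4) (nat_lit 109) (nat_lit 172) (nat_lit 169)) (PT.nd (nat_lit 78) (PT.lf (nat_lit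 6004) (nat_lit 6) (nat_lit 79) (nat_lit 4) (nat_lit 110) (nat_lit 172) (nat_lit 168)) (PT.lf (nat_lit 6232) (nat_lit 6) (nat_lit 82) (nat_lit 4) (nat_lit 111) (nat_lit 172) (nat_lit 167)))) (PT.nd (nat_lit 4134) (PT.nd (nat_lit 78) (PT.lf (nat_lit 6460) (nat_lit 6) (nat_lit 85) (nat_lit 4) (nat_lit 112) (nat_lit 172) (nat_lit 166)) (PT.lf (nat_lit 6764) (nat_lit 6) (nat_lit 89) (nat_lit 4) (nat_lit 113) (nat_lit 172) (nat_lit 165))) (PT.nd (nat_lit 78) (PT.lf (nat_lit 6764) (nat_lit 6) (nat_lit 89) (nat_lit 2) (nat_lit 165) (nat_lit 172) (nat_lit 113)) (PT.lf (nat_lit 6460) (nat_lit 6) (nat_lit 85) (nat_lit 2) (nat_lit 166) (nat_lit 172) (nat_lit 112)))))) (PT.nd (nat_lit 546) (PT.nd (nat_lit 234) (PT.nd (nat_lit 78) (PT.lf (nat_lit 6232) (nat_lit 6) (nat_lit 82) (nat_lit 2) (nat_lit 167) (nat_lit 172) (nat_lit 111)) (PT.nd (nat_lit 78) (PT.lf (nat_lit 6004) (nat_lit 6) (nat_lit 79) (nat_lit 2) (nat_lit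 168) (nat_lit 172) (nat_lit 110)) (PT.lf (nat_lit 5776) (nat_lit 6) (nat_lit 76) (nat_lit 2) (nat_lit 169) (nat_lit 172) (nat_lit 109)))) (PT.nd (nat_lit 156) (PT.nd (nat_lit 78) (PT.lf (nat_lit 5548) (nat_lit 6) (nat_lit 73) (nat_lit 2) (nat_lit 170) (nat_lit 172) (nat_lit 108)) (PT.lf (nat_lit 5320) (nat_lit 6) (nat_lit 70) (nat_lit 2) (nat_lit 171) (nat_lit 172) (nat_lit 107))) (PT.nd (nat_lit 78) (PT.lf (nat_lit 5092) (nat_lit 3) (nat_lit 67) (nat_lit 0) (nat_lit 172) (nat_lit 172) (nat_lit 106)) (PT.lf (nat_lit 4864) (nat_lit 6) (nat_lit 64) (nat_lit 0) (nat_lit 173) (nat_lit 172) (nat_lit 105))))) (PT.nd (nat_lit 41262) (PT.nd (nat_lit 156) (PT.nd (nat_lit 78) (PT.lf (nat_lit 4560) (nat_lit 6) (nat_lit 60) (nat_lit 0) (nat_lit 174) (nat_lit 172) (nat_lit 104)) (PT.lf (nat_lit 4332) (nat_lit 6) (nat_lit 57) (nat_lit 0) (nat_lit 175) (nat_lit 172) (nat_lit 103))) (PT.nd (nat_lit 41028) (PT.lf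 (nat_lit 4104) (nat_lit 6) (nat_lit 54) (nat_lit 0) (nat_lit 176) (nat_lit 172) (nat_lit 102)) (PT.lf (nat_lit 3952) (nat_lit 6) (nat_lit 52) (nat_lit 5) (nat_lit 101) (nat_lit 173) (nat_lit 176)))) (PT.nd (nat_lit 156) (PT.nd (nat_lit 78) (PT.lf (nat_lit 4180) (nat_lit 6) (nat_lit 55) (nat_lit 5) (nat_lit 102) (nat_lit 173) (nat_lit 175)) (PT.lf (nat_lit 4408) (nat_lit 6) (nat_lit 58) (nat_lit 5) (nat_lit 103) (nat_lit 173) (nat_lit 174))) (PT.nd (nat_lit 78) (PT.lf (nat_lit 4636) (nat_lit 3) (nat_lit 61) (nat_lit 4) (nat_lit 104) (nat_lit 173) (nat_lit 173)) (PT.lf (nat_lit 4864) (nat_lit 6) (nat_lit 64) (nat_lit 4) (nat_lit 105) (nat_lit 173) (nat_lit 172))))))))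
noncomputable def pc30 : PT := (PT.nd (nat_lit 52104) (PT.nd (nat_lit 5460) (PT.nd (nat_lit 4914) (PT.nd (nat_lit 234) (PT.nd (nat_lit 78) (PT.lf (nat_lit 5016) (nat_lit 6) (nat_lit 66) (nat_lit 4) (nat_lit 106) (nat_lit 173) (nat_lit 171)) (PT.nd (nat_lit 78) (PT.lf (nat_lit 5244) (nat_lit 6) (nat_lit 69) (nat_lit 4) (nat_lit 107) (nat_lit 173) (nat_lit 170)) (PT.lf (nat_lit 5472) (nat_lit 6) (nat_lit 72) (nat_lit 4) (nat_lit 108) (nat_lit 173) (nat_lit 169)))) (PT.nd (nat_lit 4524) (PT.nd (nat_lit 78) (PT.lf (nat_lit 5700) (nat_lit 6) (nat_lit 75) (nat_lit 4) (nat_lit 109) (nat_lit 173) (nat_lit 168)) (PT.lf (nat_lit 5928) (nat_lit 6) (nat_lit 78) (nat_lit 4) (nat_lit 110) (nat_lit 173) (nat_lit 167))) (PT.nd (nat_lit 78) (PT.lf (nat_lit 5928) (nat_lit 6) (nat_lit 78) (nat_lit 2) (nat_lit 167) (nat_lit 173) (nat_lit 110)) (PT.lf (nat_lit 5700) (nat_lit 6) (nat_lit 75) (nat_lit 2) (nat_lit 168) (nat_lit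 173) (nat_lit 109))))) (PT.nd (nat_lit 234) (PT.nd (nat_lit 78) (PT.lf (nat_lit 5472) (nat_lit 6) (nat_lit 72) (nat_lit 2) (nat_lit 169) (nat_lit 173) (nat_lit 108)) (PT.nd (nat_lit 78) (PT.lf (nat_lit 5244) (nat_lit 6) (nat_lit 69) (nat_lit 2) (nat_lit 170) (nat_lit 173) (nat_lit 107)) (PT.lf (nat_lit 5016) (nat_lit 6) (nat_lit 66) (nat_lit 2) (nat_lit 171) (nat_lit 173) (nat_lit 106)))) (PT.nd (nat_lit 156) (PT.nd (nat_lit 78) (PT.lf (nat_lit 4864) (nat_lit 6) (nat_lit 64) (nat_lit 2) (nat_lit 172) (nat_lit 173) (nat_lit 105)) (PT.lf (nat_lit 4636) (nat_lit 3) (nat_lit 61) (nat_lit 0) (nat_lit 173) (nat_lit 173) (nat_lit 104))) (PT.nd (nat_lit 78) (PT.lf (nat_lit 4408) (nat_lit 6) (nat_lit 58) (nat_lit 0) (nat_lit 174) (nat_lit 173) (nat_lit 103)) (PT.lf (nat_lit 4180) (nat_lit 6) (nat_lit 55) (nat_lit 0) (nat_lit 175) (nat_lit 173) (nat_lit 102)))))) (PT.nd (nat_lit 41340) (PT.nd (nat_lit 41028)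 (PT.nd (nat_lit 40872) (PT.lf (nat_lit 3952) (nat_lit 6) (nat_lit 52) (nat_lit 0) (nat_lit 176) (nat_lit 173) (nat_lit 101)) (PT.nd (nat_lit 78) (PT.lf (nat_lit 3572) (nat_lit 6) (nat_lit 47) (nat_lit 5) (nat_lit 99) (nat_lit 174) (nat_lit 177)) (PT.lf (nat_lit 3800) (nat_lit 6) (nat_lit 50) (nat_lit 5) (nat_lit 100) (nat_lit 174) (nat_lit 176)))) (PT.nd (nat_lit 156) (PT.nd (nat_lit 78) (PT.lf (nat_lit 4028) (nat_lit 6) (nat_lit 53) (nat_lit 5) (nat_lit 101) (nat_lit 174) (nat_lit 175)) (PT.lf (nat_lit 4256) (nat_lit 3) (nat_lit 56) (nat_lit 4) (nat_lit 102) (nat_lit 174) (nat_lit 174))) (PT.nd (nat_lit 78) (PT.lf (nat_lit 4408) (nat_lit 6) (nat_lit 58) (nat_lit 4) (nat_lit 103) (nat_lit 174) (nat_lit 173)) (PT.lf (nat_lit 4560) (nat_lit 6) (nat_lit 60) (nat_lit 4) (nat_lit 104) (nat_lit 174) (nat_lit 172))))) (PT.nd (nat_lit 4992) (PT.nd (nat_lit 78) (PT.lf (nat_lit 4788) (nat_lit 6) (nat_lit 63)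 (nat_lit 4) (nat_lit 105) (nat_lit 174) (nat_lit 171)) (PT.nd (nat_lit 78) (PT.lf (nat_lit 4940) (nat_lit 6) (nat_lit 65) (nat_lit 4) (nat_lit 106) (nat_lit 174) (nat_lit 170)) (PT.lf (nat_lit 5168) (nat_lit 6) (nat_lit 68) (nat_lit 4) (nat_lit 107) (nat_lit 174) (nat_lit 169)))) (PT.nd (nat_lit 156) (PT.nd (nat_lit 78) (PT.lf (nat_lit 5168) (nat_lit 6) (nat_lit 68) (nat_lit 2) (nat_lit 169) (nat_lit 174) (nat_lit 107)) (PT.lf (nat_lit 4940) (nat_lit 6) (nat_lit 65) (nat_lit 2) (nat_lit 170) (nat_lit 174) (nat_lit 106))) (PT.nd (nat_lit 78) (PT.lf (nat_lit 4788) (nat_lit 6) (nat_lit 63) (nat_lit 2) (nat_lit 171) (nat_lit 174) (nat_lit 105)) (PT.lf (nat_lit 4560) (nat_lit 6) (nat_lit 60) (nat_lit 2) (nat_lit 172) (nat_lit 174) (nat_lit 104))))))) (PT.nd (nat_lit 46644) (PT.nd (nat_lit 41106) (PT.nd (nat_lit 234) (PT.nd (nat_lit 78) (PT.lf (nat_lit 4408) (nat_lit 6) (nat_lit 58) (nat_lit 2) (nat_lit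 173) (nat_lit 174) (nat_lit 103)) (PT.nd (nat_lit 78) (PT.lf (nat_lit 4256) (nat_lit 3) (nat_lit 56) (nat_lit 0) (nat_lit 174) (nat_lit 174) (nat_lit 102)) (PT.lf (nat_lit 4028) (nat_lit 6) (nat_lit 53) (nat_lit 0) (nat_lit 175) (nat_lit 174) (nat_lit 101)))) (PT.nd (nat_lit 40716) (PT.nd (nat_lit 78) (PT.lf (nat_lit 3800) (nat_lit 6) (nat_lit 50) (nat_lit 0) (nat_lit 176) (nat_lit 174) (nat_lit 100)) (PT.lf (nat_lit 3572) (nat_lit 6) (nat_lit 47) (nat_lit 0) (nat_lit 177) (nat_lit 174) (nat_lit 99))) (PT.nd (nat_lit 78) (PT.lf (nat_lit 3192) (nat_lit 6) (nat_lit 42) (nat_lit 5) (nat_lit 97) (nat_lit 175) (nat_lit 178)) (PT.lf (nat_lit 3420) (nat_lit 6) (nat_lit 45) (nat_lit 5) (nat_lit 98) (nat_lit 175) (nat_lit 177))))) (PT.nd (nat_lit 234) (PT.nd (nat_lit 78) (PT.lf (nat_lit 3648) (nat_lit 6) (nat_lit 48) (nat_lit 5) (nat_lit 99) (nat_lit 175) (nat_lit 176)) (PT.nd (nat_lit 78) (PT.lf (nat_lit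 3876) (nat_lit 3) (nat_lit 51) (nat_lit 4) (nat_lit 100) (nat_lit 175) (nat_lit 175)) (PT.lf (nat_lit 4028) (nat_lit 6) (nat_lit 53) (nat_lit 4) (nat_lit 101) (nat_lit 175) (nat_lit 174)))) (PT.nd (nat_lit 156) (PT.nd (nat_lit 78) (PT.lf (nat_lit 4180) (nat_lit 6) (nat_lit 55) (nat_lit 4) (nat_lit 102) (nat_lit 175) (nat_lit 173)) (PT.lf (nat_lit 4332) (nat_lit 6) (nat_lit 57) (nat_lit 4) (nat_lit 103) (nat_lit 175) (nat_lit 172))) (PT.nd (nat_lit 78) (PT.lf (nat_lit 4484) (nat_lit 6) (nat_lit 59) (nat_lit 4) (nat_lit 104) (nat_lit 175) (nat_lit 171)) (PT.lf (nat_lit 4712) (nat_lit 6) (nat_lit 62) (nat_lit 4) (nat_lit 105) (nat_lit 175) (nat_lit 170)))))) (PT.nd (nat_lit 546) (PT.nd (nat_lit 234) (PT.nd (nat_lit 78) (PT.lf (nat_lit 4712) (nat_lit 6) (nat_lit 62) (nat_lit 2) (nat_lit 170) (nat_lit 175) (nat_lit 105)) (PT.nd (nat_lit 78) (PT.lf (nat_lit 4484) (nat_lit 6) (nat_lit 59) (nat_lit 2) (nat_lit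 171) (nat_lit 175) (nat_lit 104)) (PT.lf (nat_lit 4332) (nat_lit 6) (nat_lit 57) (nat_lit 2) (nat_lit 172) (nat_lit 175) (nat_lit 103)))) (PT.nd (nat_lit 156) (PT.nd (nat_lit 78) (PT.lf (nat_lit 4180) (nat_lit 6) (nat_lit 55) (nat_lit 2) (nat_lit 173) (nat_lit 175) (nat_lit 102)) (PT.lf (nat_lit 4028) (nat_lit 6) (nat_lit 53) (nat_lit 2) (nat_lit 174) (nat_lit 175) (nat_lit 101))) (PT.nd (nat_lit 78) (PT.lf (nat_lit 3876) (nat_lit 3) (nat_lit 51) (nat_lit 0) (nat_lit 175) (nat_lit 175) (nat_lit 100)) (PT.lf (nat_lit 3648) (nat_lit 6) (nat_lit 48) (nat_lit 0) (nat_lit 176) (nat_lit 175) (nat_lit 99))))) (PT.nd (nat_lit 40560) (PT.nd (nat_lit 78) (PT.lf (nat_lit 3420) (nat_lit 6) (nat_lit 45) (nat_lit 0) (nat_lit 177) (nat_lit 175) (nat_lit 98)) (PT.nd (nat_lit 40404) (PT.lf (nat_lit 3192) (nat_lit 6) (nat_lit 42) (nat_lit 0) (nat_lit 178) (nat_lit 175) (nat_lit 97)) (PT.lf (nat_lit 2888) (nat_lit 6)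 (nat_lit 38) (nat_lit 5) (nat_lit 95) (nat_lit 176) (nat_lit 179)))) (PT.nd (nat_lit 156) (PT.nd (nat_lit 78) (PT.lf (nat_lit 3040) (nat_lit 6) (nat_lit 40) (nat_lit 5) (nat_lit 96) (nat_lit 176) (nat_lit 178)) (PT.lf (nat_lit 3268) (nat_lit 6) (nat_lit 43) (nat_lit 5) (nat_lit 97) (nat_lit 176) (nat_lit 177))) (PT.nd (nat_lit 78) (PT.lf (nat_lit 3496) (nat_lit 3) (nat_lit 46) (nat_lit 4) (nat_lit 98) (nat_lit 176) (nat_lit 176)) (PT.lf (nat_lit 3648) (nat_lit 6) (nat_lit 48) (nat_lit 4) (nat_lit 99) (nat_lit 176) (nat_lit 175))))))))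
noncomputable def pc31 : PT := (PT.nd (nat_lit 93522) (PT.nd (nat_lit 46644) (PT.nd (nat_lit 5928) (PT.nd (nat_lit 5616) (PT.nd (nat_lit 78) (PT.lf (nat_lit 3800) (nat_lit 6) (nat_lit 50) (nat_lit 4) (nat_lit 100) (nat_lit 176) (nat_lit 174)) (PT.nd (nat_lit 78) (PT.lf (nat_lit 3952) (nat_lit 6) (nat_lit 52) (nat_lit 4) (nat_lit 101) (nat_lit 176) (nat_lit 173)) (PT.lf (nat_lit 4104) (nat_lit 6) (nat_lit 54) (nat_lit 4) (nat_lit 102) (nat_lit 176) (nat_lit 172)))) (PT.nd (nat_lit 156) (PT.nd (nat_lit 78) (PT.lf (nat_lit 4104) (nat_lit 6) (nat_lit 54) (nat_lit 2) (nat_lit 172) (nat_lit 176) (nat_lit 102)) (PT.lf (nat_lit 3952) (nat_lit 6) (nat_lit 52) (nat_lit 2) (nat_lit 173) (nat_lit 176) (nat_lit 101))) (PT.nd (nat_lit 78) (PT.lf (nat_lit 3800) (nat_lit 6) (nat_lit 50) (nat_lit 2) (nat_lit 174) (nat_lit 176) (nat_lit 100)) (PT.lf (nat_lit 3648) (nat_lit 6) (nat_lit 48) (nat_lit 2) (nat_lit 175)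 (nat_lit 176) (nat_lit 99))))) (PT.nd (nat_lit 234) (PT.nd (nat_lit 78) (PT.lf (nat_lit 3496) (nat_lit 3) (nat_lit 46) (nat_lit 0) (nat_lit 176) (nat_lit 176) (nat_lit 98)) (PT.nd (nat_lit 78) (PT.lf (nat_lit 3268) (nat_lit 6) (nat_lit 43) (nat_lit 0) (nat_lit 177) (nat_lit 176) (nat_lit 97)) (PT.lf (nat_lit 3040) (nat_lit 6) (nat_lit 40) (nat_lit 0) (nat_lit 178) (nat_lit 176) (nat_lit 96)))) (PT.nd (nat_lit 40326) (PT.nd (nat_lit 40248) (PT.lf (nat_lit 2888) (nat_lit 6) (nat_lit 38) (nat_lit 0) (nat_lit 179) (nat_lit 176) (nat_lit 95)) (PT.lf (nat_lit 2736) (nat_lit 6) (nat_lit 36) (nat_lit 5) (nat_lit 94) (nat_lit 177) (nat_lit 179))) (PT.nd (nat_lit 78) (PT.lf (nat_lit 2964) (nat_lit 6) (nat_lit 39) (nat_lit 5) (nat_lit 95) (nat_lit 177) (nat_lit 178)) (PT.lf (nat_lit 3116) (nat_lit 3) (nat_lit 41) (nat_lit 4) (nat_lit 96) (nat_lit 177) (nat_lit 177)))))) (PT.nd (nat_lit 6318) (PT.nd (nat_lit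 6006) (PT.nd (nat_lit 78) (PT.lf (nat_lit 3268) (nat_lit 6) (nat_lit 43) (nat_lit 4) (nat_lit 97) (nat_lit 177) (nat_lit 176)) (PT.nd (nat_lit 78) (PT.lf (nat_lit 3420) (nat_lit 6) (nat_lit 45) (nat_lit 4) (nat_lit 98) (nat_lit 177) (nat_lit 175)) (PT.lf (nat_lit 3572) (nat_lit 6) (nat_lit 47) (nat_lit 4) (nat_lit 99) (nat_lit 177) (nat_lit 174)))) (PT.nd (nat_lit 156) (PT.nd (nat_lit 78) (PT.lf (nat_lit 3572) (nat_lit 6) (nat_lit 47) (nat_lit 2) (nat_lit 174) (nat_lit 177) (nat_lit 99)) (PT.lf (nat_lit 3420) (nat_lit 6) (nat_lit 45) (nat_lit 2) (nat_lit 175) (nat_lit 177) (nat_lit 98))) (PT.nd (nat_lit 78) (PT.lf (nat_lit 3268) (nat_lit 6) (nat_lit 43) (nat_lit 2) (nat_lit 176) (nat_lit 177) (nat_lit 97)) (PT.lf (nat_lit 3116) (nat_lit 3) (nat_lit 41) (nat_lit 0) (nat_lit 177) (nat_lit 177) (nat_lit 96))))) (PT.nd (nat_lit 40248) (PT.nd (nat_lit 78) (PT.lf (nat_lit 2964) (nat_lit 6) (nat_lit 39)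 (nat_lit 0) (nat_lit 178) (nat_lit 177) (nat_lit 95)) (PT.nd (nat_lit 40092) (PT.lf (nat_lit 2736) (nat_lit 6) (nat_lit 36) (nat_lit 0) (nat_lit 179) (nat_lit 177) (nat_lit 94)) (PT.lf (nat_lit 2432) (nat_lit 6) (nat_lit 32) (nat_lit 5) (nat_lit 92) (nat_lit 178) (nat_lit 180)))) (PT.nd (nat_lit 156) (PT.nd (nat_lit 78) (PT.lf (nat_lit 2660) (nat_lit 6) (nat_lit 35) (nat_lit 5) (nat_lit 93) (nat_lit 178) (nat_lit 179)) (PT.lf (nat_lit 2812) (nat_lit 3) (nat_lit 37) (nat_lit 4) (nat_lit 94) (nat_lit 178) (nat_lit 178))) (PT.nd (nat_lit 78) (PT.lf (nat_lit 2964) (nat_lit 6) (nat_lit 39) (nat_lit 4) (nat_lit 95) (nat_lit 178) (nat_lit 177)) (PT.lf (nat_lit 3040) (nat_lit 6) (nat_lit 40) (nat_lit 4) (nat_lit 96) (nat_lit 178) (nat_lit 176))))))) (PT.nd (nat_lit 53196) (PT.nd (nat_lit 46410) (PT.nd (nat_lit 6240) (PT.nd (nat_lit 6084) (PT.lf (nat_lit 3192) (nat_lit 6) (nat_lit 42) (nat_lit 4) (nat_lit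 97) (nat_lit 178) (nat_lit 175)) (PT.nd (nat_lit 78) (PT.lf (nat_lit 3192) (nat_lit 6) (nat_lit 42) (nat_lit 2) (nat_lit 175) (nat_lit 178) (nat_lit 97)) (PT.lf (nat_lit 3040) (nat_lit 6) (nat_lit 40) (nat_lit 2) (nat_lit 176) (nat_lit 178) (nat_lit 96)))) (PT.nd (nat_lit 156) (PT.nd (nat_lit 78) (PT.lf (nat_lit 2964) (nat_lit 6) (nat_lit 39) (nat_lit 2) (nat_lit 177) (nat_lit 178) (nat_lit 95)) (PT.lf (nat_lit 2812) (nat_lit 3) (nat_lit 37) (nat_lit 0) (nat_lit 178) (nat_lit 178) (nat_lit 94))) (PT.nd (nat_lit 78) (PT.lf (nat_lit 2660) (nat_lit 6) (nat_lit 35) (nat_lit 0) (nat_lit 179) (nat_lit 178) (nat_lit 93)) (PT.lf (nat_lit 2432) (nat_lit 6) (nat_lit 32) (nat_lit 0) (nat_lit 180) (nat_lit 178) (nat_lit 92))))) (PT.nd (nat_lit 234) (PT.nd (nat_lit 78) (PT.lf (nat_lit 2356) (nat_lit 6) (nat_lit 31) (nat_lit 5) (nat_lit 91) (nat_lit 179) (nat_lit 180)) (PT.nd (nat_lit 78) (PT.lf (nat_lit 2508)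 (nat_lit 3) (nat_lit 33) (nat_lit 4) (nat_lit 92) (nat_lit 179) (nat_lit 179)) (PT.lf (nat_lit 2660) (nat_lit 6) (nat_lit 35) (nat_lit 4) (nat_lit 93) (nat_lit 179) (nat_lit 178)))) (PT.nd (nat_lit 6396) (PT.nd (nat_lit 78) (PT.lf (nat_lit 2736) (nat_lit 6) (nat_lit 36) (nat_lit 4) (nat_lit 94) (nat_lit 179) (nat_lit 177)) (PT.lf (nat_lit 2888) (nat_lit 6) (nat_lit 38) (nat_lit 4) (nat_lit 95) (nat_lit 179) (nat_lit 176))) (PT.nd (nat_lit 78) (PT.lf (nat_lit 2888) (nat_lit 6) (nat_lit 38) (nat_lit 2) (nat_lit 176) (nat_lit 179) (nat_lit 95)) (PT.lf (nat_lit 2736) (nat_lit 6) (nat_lit 36) (nat_lit 2) (nat_lit 177) (nat_lit 179) (nat_lit 94)))))) (PT.nd (nat_lit 46956) (PT.nd (nat_lit 40014) (PT.nd (nat_lit 78) (PT.lf (nat_lit 2660) (nat_lit 6) (nat_lit 35) (nat_lit 2) (nat_lit 178) (nat_lit 179) (nat_lit 93)) (PT.nd (nat_lit 78) (PT.lf (nat_lit 2508) (nat_lit 3) (nat_lit 33) (nat_lit 0) (nat_lit 179)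 (nat_lit 179) (nat_lit 92)) (PT.lf (nat_lit 2356) (nat_lit 6) (nat_lit 31) (nat_lit 0) (nat_lit 180) (nat_lit 179) (nat_lit 91)))) (PT.nd (nat_lit 156) (PT.nd (nat_lit 78) (PT.lf (nat_lit 2204) (nat_lit 3) (nat_lit 29) (nat_lit 4) (nat_lit 90) (nat_lit 180) (nat_lit 180)) (PT.lf (nat_lit 2356) (nat_lit 6) (nat_lit 31) (nat_lit 4) (nat_lit 91) (nat_lit 180) (nat_lit 179))) (PT.nd (nat_lit 6708) (PT.lf (nat_lit 2432) (nat_lit 6) (nat_lit 32) (nat_lit 4) (nat_lit 92) (nat_lit 180) (nat_lit 178)) (PT.lf (nat_lit 2432) (nat_lit 6) (nat_lit 32) (nat_lit 2) (nat_lit 178) (nat_lit 180) (nat_lit 92))))) (PT.nd (nat_lit 413556) (PT.nd (nat_lit 366756) (PT.nd (nat_lit 78) (PT.lf (nat_lit 2356) (nat_lit 6) (nat_lit 31) (nat_lit 2) (nat_lit 179) (nat_lit 180) (nat_lit 91)) (PT.lf (nat_lit 2204) (nat_lit 3) (nat_lit 29) (nat_lit 0) (nat_lit 180) (nat_lit 180) (nat_lit 90))) (PT.nd (nat_lit 9048) (PT.lf (nat_lit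 152) (nat_lit 6) (nat_lit 2) (nat_lit 5) (nat_lit 73) (nat_lit 188) (nat_lit 189)) (PT.lf (nat_lit 152) (nat_lit 6) (nat_lit 2) (nat_lit 0) (nat_lit 189) (nat_lit 188) (nat_lit 73)))) (PT.nd (nat_lit 9048) (PT.nd (nat_lit 78) (PT.lf (nat_lit 76) (nat_lit 3) (nat_lit 1) (nat_lit 4) (nat_lit 72) (nat_lit 189) (nat_lit 189)) (PT.lf (nat_lit 152) (nat_lit 6) (nat_lit 2) (nat_lit 4) (nat_lit 73) (nat_lit 189) (nat_lit 188))) (PT.nd (nat_lit 78) (PT.lf (nat_lit 152) (nat_lit 6) (nat_lit 2) (nat_lit 2) (nat_lit 188) (nat_lit 189) (nat_lit 73)) (PT.lf (nat_lit 76) (nat_lit 3) (nat_lit 1) (nat_lit 0) (nat_lit 189) (nat_lit 189) (nat_lit 72))))))))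
noncomputable def xc0 : XT := (XT.nd (nat_lit 140478) (nat_lit 0) (nat_lit 0) (XT.nd (nat_lit 93522) (nat_lit 0) (nat_lit 0) (XT.nd (nat_lit 46800) (nat_lit 0) (nat_lit 0) (XT.nd (nat_lit 46644) (nat_lit 0) (nat_lit 380) (XT.nd (nat_lit 78) (nat_lit 76) (nat_lit 0) (XT.lf (nat_lit 0) (nat_lit 3304909273) (nat_lit 152) (nat_lit 11594308602) (nat_lit 0) (nat_lit 2780150341) (nat_lit 9) (nat_lit 5) (nat_lit 11) (nat_lit 4) (nat_lit 9) (nat_lit 4) (nat_lit 387) (nat_lit 257) (nat_lit 256)) (XT.lf (nat_lit 0) (nat_lit 2687790431) (nat_lit 76) (nat_lit 8197362496) (nat_lit 76) (nat_lit 7163128872) (nat_lit 8) (nat_lit 4) (nat_lit 9) (nat_lit 5) (nat_lit 9) (nat_lit 4) (nat_lit 388) (nat_lit 257) (nat_lit 255))) (XT.nd (nat_lit 78) (nat_lit 152) (nat_lit 0) (XT.lf (nat_lit 0) (nat_lit 6837660814) (nat_lit 152) (nat_lit 740863233) (nat_lit 152) (nat_lit 740863233) (nat_lit 15) (nat_lit 4) (nat_lit 17) (nat_lit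 5) (nat_lit 17) (nat_lit 4) (nat_lit 384) (nat_lit 258) (nat_lit 258)) (XT.lf (nat_lit 0) (nat_lit 6007268247) (nat_lit 152) (nat_lit 5512176254) (nat_lit 0) (nat_lit 5455956513) (nat_lit 13) (nat_lit 5) (nat_lit 15) (nat_lit 4) (nat_lit 13) (nat_lit 4) (nat_lit 385) (nat_lit 258) (nat_lit 257)))) (XT.nd (nat_lit 156) (nat_lit 76) (nat_lit 0) (XT.nd (nat_lit 78) (nat_lit 152) (nat_lit 0) (XT.lf (nat_lit 0) (nat_lit 8853688225) (nat_lit 152) (nat_lit 4778104805) (nat_lit 152) (nat_lit 3691538960) (nat_lit 11) (nat_lit 4) (nat_lit 13) (nat_lit 5) (nat_lit 13) (nat_lit 4) (nat_lit 386) (nat_lit 258) (nat_lit 256)) (XT.lf (nat_lit 0) (nat_lit 3687705269) (nat_lit 152) (nat_lit 11881867518) (nat_lit 0) (nat_lit 2112969945) (nat_lit 9) (nat_lit 5) (nat_lit 11) (nat_lit 4) (nat_lit 9) (nat_lit 4) (nat_lit 387) (nat_lit 258) (nat_lit 255))) (XT.nd (nat_lit 46410) (nat_lit 0) (nat_lit 684) (XT.lf (nat_lit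 0) (nat_lit 2257053547) (nat_lit 76) (nat_lit 8932673951) (nat_lit 76) (nat_lit 6863303003) (nat_lit 8) (nat_lit 4) (nat_lit 9) (nat_lit 5) (nat_lit 9) (nat_lit 4) (nat_lit 388) (nat_lit 258) (nat_lit 254)) (XT.nd (nat_lit 78) (nat_lit 0) (nat_lit 0) (XT.lf (nat_lit 0) (nat_lit 268459984) (nat_lit 152) (nat_lit 7460385674) (nat_lit 0) (nat_lit 268459984) (nat_lit 17) (nat_lit 5) (nat_lit 19) (nat_lit 4) (nat_lit 17) (nat_lit 4) (nat_lit 382) (nat_lit 259) (nat_lit 259)) (XT.lf (nat_lit 0) (nat_lit 8019479749) (nat_lit 152) (nat_lit 852272037) (nat_lit 0) (nat_lit 7440271641) (nat_lit 17) (nat_lit 5) (nat_lit 19) (nat_lit 4) (nat_lit 17) (nat_lit 4) (nat_lit 383) (nat_lit 259) (nat_lit 258)))))) (XT.nd (nat_lit 46566) (nat_lit 0) (nat_lit 532) (XT.nd (nat_lit 156) (nat_lit 380) (nat_lit 0) (XT.nd (nat_lit 78) (nat_lit 152) (nat_lit 0) (XT.lf (nat_lit 0) (nat_lit 13535315593) (nat_lit 152) (nat_lit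 2123284630) (nat_lit 152) (nat_lit 981738553) (nat_lit 15) (nat_lit 4) (nat_lit 17) (nat_lit 5) (nat_lit 17) (nat_lit 4) (nat_lit 384) (nat_lit 259) (nat_lit 257)) (XT.lf (nat_lit 0) (nat_lit 6418388402) (nat_lit 152) (nat_lit 5796197194) (nat_lit 0) (nat_lit 4763971471) (nat_lit 13) (nat_lit 5) (nat_lit 15) (nat_lit 4) (nat_lit 13) (nat_lit 4) (nat_lit 385) (nat_lit 259) (nat_lit 256))) (XT.nd (nat_lit 78) (nat_lit 228) (nat_lit 0) (XT.lf (nat_lit 0) (nat_lit 8428250905) (nat_lit 152) (nat_lit 5536941461) (nat_lit 152) (nat_lit 3362860344) (nat_lit 11) (nat_lit 4) (nat_lit 13) (nat_lit 5) (nat_lit 13) (nat_lit 4) (nat_lit 386) (nat_lit 259) (nat_lit 255)) (XT.nd (nat_lit 78) (nat_lit 76) (nat_lit 0) (XT.lf (nat_lit 0) (nat_lit 3928872811) (nat_lit 152) (nat_lit 12457236617) (nat_lit 0) (nat_lit 1302785112) (nat_lit 9) (nat_lit 5) (nat_lit 11) (nat_lit 4) (nat_lit 9) (nat_lit 4) (nat_lit 387) (nat_lit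 259) (nat_lit 254)) (XT.lf (nat_lit 0) (nat_lit 1538740561) (nat_lit 76) (nat_lit 9814262757) (nat_lit 76) (nat_lit 6707946298) (nat_lit 8) (nat_lit 4) (nat_lit 9) (nat_lit 5) (nat_lit 9) (nat_lit 4) (nat_lit 388) (nat_lit 259) (nat_lit 253))))) (XT.nd (nat_lit 156) (nat_lit 304) (nat_lit 0) (XT.nd (nat_lit 78) (nat_lit 152) (nat_lit 0) (XT.lf (nat_lit 0) (nat_lit 991065528) (nat_lit 228) (nat_lit 5711096710) (nat_lit 0) (nat_lit 991065528) (nat_lit 21) (nat_lit 5) (nat_lit 24) (nat_lit 4) (nat_lit 21) (nat_lit 4) (nat_lit 380) (nat_lit 260) (nat_lit 260)) (XT.lf (nat_lit 0) (nat_lit 2602387433) (nat_lit 152) (nat_lit 6846139646) (nat_lit 152) (nat_lit 6237623608) (nat_lit 19) (nat_lit 4) (nat_lit 21) (nat_lit 5) (nat_lit 21) (nat_lit 4) (nat_lit 381) (nat_lit 260) (nat_lit 259))) (XT.nd (nat_lit 78) (nat_lit 152) (nat_lit 0) (XT.lf (nat_lit 0) (nat_lit 932303188) (nat_lit 76) (nat_lit 122950027)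 (nat_lit 152) (nat_lit 14940934519) (nat_lit 17) (nat_lit 5) (nat_lit 18) (nat_lit 5) (nat_lit 19) (nat_lit 4) (nat_lit 382) (nat_lit 260) (nat_lit 258)) (XT.nd (nat_lit 78) (nat_lit 152) (nat_lit 0) (XT.lf (nat_lit 0) (nat_lit 8460267754) (nat_lit 152) (nat_lit 1132756794) (nat_lit 0) (nat_lit 6722137326) (nat_lit 17) (nat_lit 5) (nat_lit 19) (nat_lit 4) (nat_lit 17) (nat_lit 4) (nat_lit 383) (nat_lit 260) (nat_lit 257)) (XT.lf (nat_lit 0) (nat_lit 13115175151) (nat_lit 152) (nat_lit 2906973625) (nat_lit 152) (nat_lit 622884004) (nat_lit 15) (nat_lit 4) (nat_lit 17) (nat_lit 5) (nat_lit 17) (nat_lit 4) (nat_lit 384) (nat_lit 260) (nat_lit 256))))))) (XT.nd (nat_lit 46800) (nat_lit 0) (nat_lit 76) (XT.nd (nat_lit 46410) (nat_lit 0) (nat_lit 684) (XT.nd (nat_lit 156) (nat_lit 228) (nat_lit 0) (XT.nd (nat_lit 78) (nat_lit 152) (nat_lit 0) (XT.lf (nat_lit 0) (nat_lit 6689676210) (nat_lit 152) (nat_lit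 6364487248) (nat_lit 0) (nat_lit 3930708474) (nat_lit 13) (nat_lit 5) (nat_lit 15) (nat_lit 4) (nat_lit 13) (nat_lit 4) (nat_lit 385) (nat_lit 260) (nat_lit 255)) (XT.lf (nat_lit 0) (nat_lit 7718775672) (nat_lit 152) (nat_lit 6440322781) (nat_lit 152) (nat_lit 3176826710) (nat_lit 11) (nat_lit 4) (nat_lit 13) (nat_lit 5) (nat_lit 13) (nat_lit 4) (nat_lit 386) (nat_lit 260) (nat_lit 254))) (XT.nd (nat_lit 78) (nat_lit 76) (nat_lit 0) (XT.lf (nat_lit 0) (nat_lit 4028622626) (nat_lit 152) (nat_lit 13320918647) (nat_lit 0) (nat_lit 348887914) (nat_lit 9) (nat_lit 5) (nat_lit 11) (nat_lit 4) (nat_lit 9) (nat_lit 4) (nat_lit 387) (nat_lit 260) (nat_lit 253)) (XT.nd (nat_lit 46098) (nat_lit 0) (nat_lit 1368) (XT.lf (nat_lit 0) (nat_lit 532223822) (nat_lit 76) (nat_lit 10842899234) (nat_lit 76) (nat_lit 6696923007) (nat_lit 8) (nat_lit 4) (nat_lit 9) (nat_lit 5) (nat_lit 9) (nat_lit 4) (nat_lit 388) (nat_lit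 260) (nat_lit 252)) (XT.lf (nat_lit 0) (nat_lit 1461288060) (nat_lit 228) (nat_lit 4483743204) (nat_lit 0) (nat_lit 1461288060) (nat_lit 26) (nat_lit 5) (nat_lit 29) (nat_lit 4) (nat_lit 26) (nat_lit 4) (nat_lit 378) (nat_lit 261) (nat_lit 261))))) (XT.nd (nat_lit 156) (nat_lit 304) (nat_lit 0) (XT.nd (nat_lit 78) (nat_lit 228) (nat_lit 0) (XT.lf (nat_lit 0) (nat_lit 4978807826) (nat_lit 152) (nat_lit 5378064221) (nat_lit 152) (nat_lit 4738757271) (nat_lit 24) (nat_lit 4) (nat_lit 26) (nat_lit 5) (nat_lit 26) (nat_lit 4) (nat_lit 379) (nat_lit 261) (nat_lit 260)) (XT.lf (nat_lit 0) (nat_lit 2530306426) (nat_lit 228) (nat_lit 11562714164) (nat_lit 0) (nat_lit 1295018868) (nat_lit 21) (nat_lit 5) (nat_lit 24) (nat_lit 4) (nat_lit 21) (nat_lit 4) (nat_lit 380) (nat_lit 261) (nat_lit 259))) (XT.nd (nat_lit 78) (nat_lit 152) (nat_lit 0) (XT.lf (nat_lit 0) (nat_lit 2321758280) (nat_lit 152) (nat_lit 7596815198)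 (nat_lit 152) (nat_lit 5770735370) (nat_lit 19) (nat_lit 4) (nat_lit 21) (nat_lit 5) (nat_lit 21) (nat_lit 4) (nat_lit 381) (nat_lit 261) (nat_lit 258)) (XT.nd (nat_lit 78) (nat_lit 0) (nat_lit 0) (XT.lf (nat_lit 0) (nat_lit 504647254) (nat_lit 76) (nat_lit 933130869) (nat_lit 152) (nat_lit 14563083039) (nat_lit 17) (nat_lit 5) (nat_lit 18) (nat_lit 5) (nat_lit 19) (nat_lit 4) (nat_lit 382) (nat_lit 261) (nat_lit 257)) (XT.lf (nat_lit 0) (nat_lit 8763020810) (nat_lit 152) (nat_lit 1693971392) (nat_lit 0) (nat_lit 5864449307) (nat_lit 17) (nat_lit 5) (nat_lit 19) (nat_lit 4) (nat_lit 17) (nat_lit 4) (nat_lit 383) (nat_lit 261) (nat_lit 256)))))) (XT.nd (nat_lit 46254) (nat_lit 0) (nat_lit 912) (XT.nd (nat_lit 156) (nat_lit 304) (nat_lit 0) (XT.nd (nat_lit 78) (nat_lit 152) (nat_lit 0) (XT.lf (nat_lit 0) (nat_lit 12414533191) (nat_lit 152) (nat_lit 3833478231) (nat_lit 152) (nat_lit 404849259) (nat_lit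 15) (nat_lit 4) (nat_lit 17) (nat_lit 5) (nat_lit 17) (nat_lit 4) (nat_lit 384) (nat_lit 261) (nat_lit 255)) (XT.lf (nat_lit 0) (nat_lit 6821368717) (nat_lit 152) (nat_lit 7217542980) (nat_lit 0) (nat_lit 2955439428) (nat_lit 13) (nat_lit 5) (nat_lit 15) (nat_lit 4) (nat_lit 13) (nat_lit 4) (nat_lit 385) (nat_lit 261) (nat_lit 254))) (XT.nd (nat_lit 78) (nat_lit 152) (nat_lit 0) (XT.lf (nat_lit 0) (nat_lit 6724642595) (nat_lit 152) (nat_lit 7489038127) (nat_lit 152) (nat_lit 3133275502) (nat_lit 11) (nat_lit 4) (nat_lit 13) (nat_lit 5) (nat_lit 13) (nat_lit 4) (nat_lit 386) (nat_lit 261) (nat_lit 253)) (XT.nd (nat_lit 78) (nat_lit 0) (nat_lit 0) (XT.lf (nat_lit 0) (nat_lit 3232456815) (nat_lit 76) (nat_lit 759516345) (nat_lit 152) (nat_lit 13719083221) (nat_lit 9) (nat_lit 5) (nat_lit 10) (nat_lit 5) (nat_lit 11) (nat_lit 4) (nat_lit 387) (nat_lit 261) (nat_lit 252)) (XT.lf (nat_lit 0) (nat_lit 11261062384)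 (nat_lit 152) (nat_lit 753364336) (nat_lit 0) (nat_lit 6071803691) (nat_lit 9) (nat_lit 5) (nat_lit 11) (nat_lit 4) (nat_lit 9) (nat_lit 4) (nat_lit 388) (nat_lit 261) (nat_lit 251))))) (XT.nd (nat_lit 156) (nat_lit 608) (nat_lit 0) (XT.nd (nat_lit 78) (nat_lit 152) (nat_lit 0) (XT.lf (nat_lit 0) (nat_lit 1714315867) (nat_lit 228) (nat_lit 3706825876) (nat_lit 0) (nat_lit 1714315867) (nat_lit 31) (nat_lit 5) (nat_lit 34) (nat_lit 4) (nat_lit 31) (nat_lit 4) (nat_lit 376) (nat_lit 262) (nat_lit 262)) (XT.lf (nat_lit 0) (nat_lit 6414811364) (nat_lit 152) (nat_lit 4397541181) (nat_lit 152) (nat_lit 3725885300) (nat_lit 29) (nat_lit 4) (nat_lit 31) (nat_lit 5) (nat_lit 31) (nat_lit 4) (nat_lit 377) (nat_lit 262) (nat_lit 261))) (XT.nd (nat_lit 78) (nat_lit 380) (nat_lit 0) (XT.lf (nat_lit 0) (nat_lit 3502897778) (nat_lit 228) (nat_lit 9106212104) (nat_lit 0) (nat_lit 2205104670) (nat_lit 26) (nat_lit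 5) (nat_lit 29) (nat_lit 4) (nat_lit 26) (nat_lit 4) (nat_lit 378) (nat_lit 262) (nat_lit 260)) (XT.nd (nat_lit 78) (nat_lit 228) (nat_lit 0) (XT.lf (nat_lit 0) (nat_lit 4701763504) (nat_lit 152) (nat_lit 6157743580) (nat_lit 152) (nat_lit 4239264113) (nat_lit 24) (nat_lit 4) (nat_lit 26) (nat_lit 5) (nat_lit 26) (nat_lit 4) (nat_lit 379) (nat_lit 262) (nat_lit 259)) (XT.lf (nat_lit 0) (nat_lit 2940023968) (nat_lit 228) (nat_lit 11984399181) (nat_lit 0) (nat_lit 468369475) (nat_lit 21) (nat_lit 5) (nat_lit 24) (nat_lit 4) (nat_lit 21) (nat_lit 4) (nat_lit 380) (nat_lit 262) (nat_lit 258))))))))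
noncomputable def xc1 : XT := (XT.nd (nat_lit 47190) (nat_lit 0) (nat_lit 0) (XT.nd (nat_lit 46410) (nat_lit 0) (nat_lit 456) (XT.nd (nat_lit 312) (nat_lit 456) (nat_lit 0) (XT.nd (nat_lit 156) (nat_lit 228) (nat_lit 0) (XT.nd (nat_lit 78) (nat_lit 76) (nat_lit 0) (XT.lf (nat_lit 0) (nat_lit 1760254765) (nat_lit 152) (nat_lit 8490306193) (nat_lit 152) (nat_lit 5445066972) (nat_lit 19) (nat_lit 4) (nat_lit 21) (nat_lit 5) (nat_lit 21) (nat_lit 4) (nat_lit 381) (nat_lit 262) (nat_lit 257)) (XT.lf (nat_lit 0) (nat_lit 1682633399) (nat_lit 228) (nat_lit 203198131) (nat_lit 76) (nat_lit 14122848034) (nat_lit 18) (nat_lit 5) (nat_lit 21) (nat_lit 5) (nat_lit 19) (nat_lit 4) (nat_lit 382) (nat_lit 262) (nat_lit 256))) (XT.nd (nat_lit 78) (nat_lit 152) (nat_lit 0) (XT.lf (nat_lit 0) (nat_lit 8928003459) (nat_lit 152) (nat_lit 2536406212) (nat_lit 0) (nat_lit 4866458148) (nat_lit 17) (nat_lit 5) (nat_lit 19)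 (nat_lit 4) (nat_lit 17) (nat_lit 4) (nat_lit 383) (nat_lit 262) (nat_lit 255)) (XT.lf (nat_lit 0) (nat_lit 11432777499) (nat_lit 152) (nat_lit 4903608014) (nat_lit 152) (nat_lit 327443801) (nat_lit 15) (nat_lit 4) (nat_lit 17) (nat_lit 5) (nat_lit 17) (nat_lit 4) (nat_lit 384) (nat_lit 262) (nat_lit 254)))) (XT.nd (nat_lit 156) (nat_lit 152) (nat_lit 0) (XT.nd (nat_lit 78) (nat_lit 152) (nat_lit 0) (XT.lf (nat_lit 0) (nat_lit 6813580995) (nat_lit 152) (nat_lit 8356109779) (nat_lit 0) (nat_lit 1837312157) (nat_lit 13) (nat_lit 5) (nat_lit 15) (nat_lit 4) (nat_lit 13) (nat_lit 4) (nat_lit 385) (nat_lit 262) (nat_lit 253)) (XT.lf (nat_lit 0) (nat_lit 5444983015) (nat_lit 152) (nat_lit 8684003851) (nat_lit 152) (nat_lit 3232168668) (nat_lit 11) (nat_lit 4) (nat_lit 13) (nat_lit 5) (nat_lit 13) (nat_lit 4) (nat_lit 386) (nat_lit 262) (nat_lit 252))) (XT.nd (nat_lit 78) (nat_lit 0) (nat_lit 0) (XT.lf (nat_lit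 0) (nat_lit 1797212878) (nat_lit 76) (nat_lit 2019996507) (nat_lit 152) (nat_lit 13909611430) (nat_lit 9) (nat_lit 5) (nat_lit 10) (nat_lit 5) (nat_lit 11) (nat_lit 4) (nat_lit 387) (nat_lit 262) (nat_lit 251)) (XT.nd (nat_lit 45786) (nat_lit 0) (nat_lit 2052) (XT.lf (nat_lit 0) (nat_lit 11011100782) (nat_lit 152) (nat_lit 2318381369) (nat_lit 0) (nat_lit 4774025319) (nat_lit 9) (nat_lit 5) (nat_lit 11) (nat_lit 4) (nat_lit 9) (nat_lit 4) (nat_lit 388) (nat_lit 262) (nat_lit 250)) (XT.lf (nat_lit 0) (nat_lit 1781685382) (nat_lit 228) (nat_lit 3316240787) (nat_lit 0) (nat_lit 1781685382) (nat_lit 36) (nat_lit 5) (nat_lit 39) (nat_lit 4) (nat_lit 36) (nat_lit 4) (nat_lit 374) (nat_lit 263) (nat_lit 263)))))) (XT.nd (nat_lit 390) (nat_lit 684) (nat_lit 0) (XT.nd (nat_lit 156) (nat_lit 532) (nat_lit 0) (XT.nd (nat_lit 78) (nat_lit 228) (nat_lit 0) (XT.lf (nat_lit 0) (nat_lit 7044105653) (nat_lit 152)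 (nat_lit 3836684677) (nat_lit 152) (nat_lit 3131043008) (nat_lit 34) (nat_lit 4) (nat_lit 36) (nat_lit 5) (nat_lit 36) (nat_lit 4) (nat_lit 375) (nat_lit 263) (nat_lit 262)) (XT.lf (nat_lit 0) (nat_lit 4042682213) (nat_lit 228) (nat_lit 7550580588) (nat_lit 0) (nat_lit 2679220774) (nat_lit 31) (nat_lit 5) (nat_lit 34) (nat_lit 4) (nat_lit 31) (nat_lit 4) (nat_lit 376) (nat_lit 263) (nat_lit 261))) (XT.nd (nat_lit 78) (nat_lit 380) (nat_lit 0) (XT.lf (nat_lit 0) (nat_lit 6141355488) (nat_lit 152) (nat_lit 5207781709) (nat_lit 152) (nat_lit 3192227180) (nat_lit 29) (nat_lit 4) (nat_lit 31) (nat_lit 5) (nat_lit 31) (nat_lit 4) (nat_lit 377) (nat_lit 263) (nat_lit 260)) (XT.nd (nat_lit 78) (nat_lit 152) (nat_lit 0) (XT.lf (nat_lit 0) (nat_lit 3946576720) (nat_lit 228) (nat_lit 9522510405) (nat_lit 0) (nat_lit 1349856510) (nat_lit 26) (nat_lit 5) (nat_lit 29) (nat_lit 4) (nat_lit 26) (nat_lit 4) (nat_lit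 378) (nat_lit 263) (nat_lit 259)) (XT.lf (nat_lit 0) (nat_lit 4147432784) (nat_lit 152) (nat_lit 7078476621) (nat_lit 152) (nat_lit 3879148295) (nat_lit 24) (nat_lit 4) (nat_lit 26) (nat_lit 5) (nat_lit 26) (nat_lit 4) (nat_lit 379) (nat_lit 263) (nat_lit 258))))) (XT.nd (nat_lit 156) (nat_lit 304) (nat_lit 0) (XT.nd (nat_lit 78) (nat_lit 152) (nat_lit 0) (XT.lf (nat_lit 0) (nat_lit 2709756787) (nat_lit 152) (nat_lit 505164765) (nat_lit 228) (nat_lit 12185732033) (nat_lit 21) (nat_lit 5) (nat_lit 23) (nat_lit 5) (nat_lit 24) (nat_lit 4) (nat_lit 380) (nat_lit 263) (nat_lit 257)) (XT.lf (nat_lit 0) (nat_lit 917386254) (nat_lit 152) (nat_lit 9527393352) (nat_lit 152) (nat_lit 5260333849) (nat_lit 19) (nat_lit 4) (nat_lit 21) (nat_lit 5) (nat_lit 21) (nat_lit 4) (nat_lit 381) (nat_lit 263) (nat_lit 256))) (XT.nd (nat_lit 78) (nat_lit 228) (nat_lit 0) (XT.lf (nat_lit 0) (nat_lit 1793812239) (nat_lit 228)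 (nat_lit 1184217397) (nat_lit 76) (nat_lit 13041544550) (nat_lit 18) (nat_lit 5) (nat_lit 21) (nat_lit 5) (nat_lit 19) (nat_lit 4) (nat_lit 382) (nat_lit 263) (nat_lit 255)) (XT.nd (nat_lit 78) (nat_lit 152) (nat_lit 0) (XT.lf (nat_lit 0) (nat_lit 8955359861) (nat_lit 152) (nat_lit 3660797363) (nat_lit 0) (nat_lit 3727291819) (nat_lit 17) (nat_lit 5) (nat_lit 19) (nat_lit 4) (nat_lit 17) (nat_lit 4) (nat_lit 383) (nat_lit 263) (nat_lit 254)) (XT.lf (nat_lit 0) (nat_lit 10169050233) (nat_lit 152) (nat_lit 6118298039) (nat_lit 152) (nat_lit 390599996) (nat_lit 15) (nat_lit 4) (nat_lit 17) (nat_lit 5) (nat_lit 17) (nat_lit 4) (nat_lit 384) (nat_lit 263) (nat_lit 253))))))) (XT.nd (nat_lit 46332) (nat_lit 0) (nat_lit 76) (XT.nd (nat_lit 45942) (nat_lit 0) (nat_lit 1520) (XT.nd (nat_lit 156) (nat_lit 152) (nat_lit 0) (XT.nd (nat_lit 78) (nat_lit 152) (nat_lit 0) (XT.lf (nat_lit 0) (nat_lit 6666306240)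 (nat_lit 152) (nat_lit 9781182508) (nat_lit 0) (nat_lit 575349656) (nat_lit 13) (nat_lit 5) (nat_lit 15) (nat_lit 4) (nat_lit 13) (nat_lit 4) (nat_lit 385) (nat_lit 263) (nat_lit 252)) (XT.lf (nat_lit 0) (nat_lit 3878678782) (nat_lit 152) (nat_lit 10026264099) (nat_lit 152) (nat_lit 3473592618) (nat_lit 11) (nat_lit 4) (nat_lit 13) (nat_lit 5) (nat_lit 13) (nat_lit 4) (nat_lit 386) (nat_lit 263) (nat_lit 251))) (XT.nd (nat_lit 78) (nat_lit 0) (nat_lit 0) (XT.lf (nat_lit 0) (nat_lit 72865853) (nat_lit 76) (nat_lit 3429017426) (nat_lit 152) (nat_lit 14243898889) (nat_lit 9) (nat_lit 5) (nat_lit 10) (nat_lit 5) (nat_lit 11) (nat_lit 4) (nat_lit 387) (nat_lit 263) (nat_lit 250)) (XT.nd (nat_lit 45630) (nat_lit 0) (nat_lit 2508) (XT.lf (nat_lit 0) (nat_lit 10621564288) (nat_lit 152) (nat_lit 4171174979) (nat_lit 0) (nat_lit 3331222183) (nat_lit 9) (nat_lit 5) (nat_lit 11) (nat_lit 4) (nat_lit 9) (nat_lit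 4) (nat_lit 388) (nat_lit 263) (nat_lit 249)) (XT.lf (nat_lit 0) (nat_lit 1691643920) (nat_lit 228) (nat_lit 3254546022) (nat_lit 0) (nat_lit 1691643920) (nat_lit 42) (nat_lit 5) (nat_lit 45) (nat_lit 4) (nat_lit 42) (nat_lit 4) (nat_lit 372) (nat_lit 264) (nat_lit 264))))) (XT.nd (nat_lit 156) (nat_lit 532) (nat_lit 0) (XT.nd (nat_lit 78) (nat_lit 228) (nat_lit 0) (XT.lf (nat_lit 0) (nat_lit 6986487939) (nat_lit 228) (nat_lit 3634653197) (nat_lit 228) (nat_lit 2893306059) (nat_lit 39) (nat_lit 4) (nat_lit 42) (nat_lit 5) (nat_lit 42) (nat_lit 4) (nat_lit 373) (nat_lit 264) (nat_lit 263)) (XT.lf (nat_lit 0) (nat_lit 4212813112) (nat_lit 228) (nat_lit 6767610761) (nat_lit 0) (nat_lit 2780360524) (nat_lit 36) (nat_lit 5) (nat_lit 39) (nat_lit 4) (nat_lit 36) (nat_lit 4) (nat_lit 374) (nat_lit 264) (nat_lit 262))) (XT.nd (nat_lit 78) (nat_lit 380) (nat_lit 0) (XT.lf (nat_lit 0) (nat_lit 6774243796) (nat_lit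 152) (nat_lit 4679121640) (nat_lit 152) (nat_lit 2561580053) (nat_lit 34) (nat_lit 4) (nat_lit 36) (nat_lit 5) (nat_lit 36) (nat_lit 4) (nat_lit 375) (nat_lit 264) (nat_lit 261)) (XT.nd (nat_lit 78) (nat_lit 152) (nat_lit 0) (XT.lf (nat_lit 0) (nat_lit 4521908755) (nat_lit 228) (nat_lit 7961486743) (nat_lit 0) (nat_lit 1793794502) (nat_lit 31) (nat_lit 5) (nat_lit 34) (nat_lit 4) (nat_lit 31) (nat_lit 4) (nat_lit 376) (nat_lit 264) (nat_lit 260)) (XT.lf (nat_lit 0) (nat_lit 5594204793) (nat_lit 152) (nat_lit 6157314859) (nat_lit 152) (nat_lit 2796100520) (nat_lit 29) (nat_lit 4) (nat_lit 31) (nat_lit 5) (nat_lit 31) (nat_lit 4) (nat_lit 377) (nat_lit 264) (nat_lit 259)))))) (XT.nd (nat_lit 390) (nat_lit 608) (nat_lit 0) (XT.nd (nat_lit 156) (nat_lit 456) (nat_lit 0) (XT.nd (nat_lit 78) (nat_lit 152) (nat_lit 0) (XT.lf (nat_lit 0) (nat_lit 4254000626) (nat_lit 228) (nat_lit 10216745068) (nat_lit 0)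 (nat_lit 356084335) (nat_lit 26) (nat_lit 5) (nat_lit 29) (nat_lit 4) (nat_lit 26) (nat_lit 4) (nat_lit 378) (nat_lit 264) (nat_lit 258)) (XT.lf (nat_lit 0) (nat_lit 3315331298) (nat_lit 152) (nat_lit 8141067868) (nat_lit 152) (nat_lit 3658095153) (nat_lit 24) (nat_lit 4) (nat_lit 26) (nat_lit 5) (nat_lit 26) (nat_lit 4) (nat_lit 379) (nat_lit 264) (nat_lit 257))) (XT.nd (nat_lit 78) (nat_lit 228) (nat_lit 0) (XT.lf (nat_lit 0) (nat_lit 1728063361) (nat_lit 152) (nat_lit 1627902985) (nat_lit 228) (nat_lit 12055648324) (nat_lit 21) (nat_lit 5) (nat_lit 23) (nat_lit 5) (nat_lit 24) (nat_lit 4) (nat_lit 380) (nat_lit 264) (nat_lit 256)) (XT.nd (nat_lit 78) (nat_lit 228) (nat_lit 0) (XT.lf (nat_lit 0) (nat_lit 10502746899) (nat_lit 228) (nat_lit 204861241) (nat_lit 0) (nat_lit 5010138615) (nat_lit 21) (nat_lit 5) (nat_lit 24) (nat_lit 4) (nat_lit 21) (nat_lit 4) (nat_lit 381) (nat_lit 264) (nat_lit 255))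 (XT.lf (nat_lit 0) (nat_lit 1768135287) (nat_lit 228) (nat_lit 2445886283) (nat_lit 76) (nat_lit 11819598510) (nat_lit 18) (nat_lit 5) (nat_lit 21) (nat_lit 5) (nat_lit 19) (nat_lit 4) (nat_lit 382) (nat_lit 264) (nat_lit 254))))) (XT.nd (nat_lit 156) (nat_lit 380) (nat_lit 0) (XT.nd (nat_lit 78) (nat_lit 152) (nat_lit 0) (XT.lf (nat_lit 0) (nat_lit 8845113918) (nat_lit 152) (nat_lit 5068127323) (nat_lit 0) (nat_lit 2445954932) (nat_lit 17) (nat_lit 5) (nat_lit 19) (nat_lit 4) (nat_lit 17) (nat_lit 4) (nat_lit 383) (nat_lit 264) (nat_lit 253)) (XT.lf (nat_lit 0) (nat_lit 8622247163) (nat_lit 152) (nat_lit 7478609685) (nat_lit 152) (nat_lit 594373027) (nat_lit 15) (nat_lit 4) (nat_lit 17) (nat_lit 5) (nat_lit 17) (nat_lit 4) (nat_lit 384) (nat_lit 264) (nat_lit 252))) (XT.nd (nat_lit 78) (nat_lit 228) (nat_lit 0) (XT.lf (nat_lit 0) (nat_lit 5542284860) (nat_lit 76) (nat_lit 842601631) (nat_lit 152)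 (nat_lit 10656875474) (nat_lit 13) (nat_lit 5) (nat_lit 14) (nat_lit 5) (nat_lit 15) (nat_lit 4) (nat_lit 385) (nat_lit 264) (nat_lit 251)) (XT.nd (nat_lit 78) (nat_lit 76) (nat_lit 0) (XT.lf (nat_lit 0) (nat_lit 2024361281) (nat_lit 152) (nat_lit 11516991720) (nat_lit 152) (nat_lit 3857758305) (nat_lit 11) (nat_lit 4) (nat_lit 13) (nat_lit 5) (nat_lit 13) (nat_lit 4) (nat_lit 386) (nat_lit 264) (nat_lit 250)) (XT.lf (nat_lit 0) (nat_lit 3058328659) (nat_lit 228) (nat_lit 1916620096) (nat_lit 76) (nat_lit 12792756070) (nat_lit 10) (nat_lit 5) (nat_lit 13) (nat_lit 5) (nat_lit 11) (nat_lit 4) (nat_lit 387) (nat_lit 264) (nat_lit 249))))))))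
noncomputable def xc2 : XT := (XT.nd (nat_lit 46878) (nat_lit 0) (nat_lit 0) (XT.nd (nat_lit 46098) (nat_lit 0) (nat_lit 76) (XT.nd (nat_lit 45708) (nat_lit 0) (nat_lit 1520) (XT.nd (nat_lit 45552) (nat_lit 0) (nat_lit 2508) (XT.nd (nat_lit 45474) (nat_lit 0) (nat_lit 2964) (XT.lf (nat_lit 0) (nat_lit 10092112528) (nat_lit 152) (nat_lit 6313364111) (nat_lit 0) (nat_lit 1742133580) (nat_lit 9) (nat_lit 5) (nat_lit 11) (nat_lit 4) (nat_lit 9) (nat_lit 4) (nat_lit 388) (nat_lit 264) (nat_lit 248)) (XT.lf (nat_lit 0) (nat_lit 1469477866) (nat_lit 228) (nat_lit 3470298185) (nat_lit 0) (nat_lit 1469477866) (nat_lit 48) (nat_lit 5) (nat_lit 51) (nat_lit 4) (nat_lit 48) (nat_lit 4) (nat_lit 370) (nat_lit 265) (nat_lit 265))) (XT.nd (nat_lit 78) (nat_lit 228) (nat_lit 0) (XT.lf (nat_lit 0) (nat_lit 6349229861) (nat_lit 228) (nat_lit 3736949852) (nat_lit 228) (nat_lit 2958090550) (nat_lit 45) (nat_lit 4) (nat_lit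 48) (nat_lit 5) (nat_lit 48) (nat_lit 4) (nat_lit 371) (nat_lit 265) (nat_lit 264)) (XT.lf (nat_lit 0) (nat_lit 4069869693) (nat_lit 228) (nat_lit 6642417767) (nat_lit 0) (nat_lit 2564935004) (nat_lit 42) (nat_lit 5) (nat_lit 45) (nat_lit 4) (nat_lit 42) (nat_lit 4) (nat_lit 372) (nat_lit 265) (nat_lit 263)))) (XT.nd (nat_lit 156) (nat_lit 532) (nat_lit 0) (XT.nd (nat_lit 78) (nat_lit 228) (nat_lit 0) (XT.lf (nat_lit 0) (nat_lit 6720227716) (nat_lit 228) (nat_lit 4511003719) (nat_lit 228) (nat_lit 2286314527) (nat_lit 39) (nat_lit 4) (nat_lit 42) (nat_lit 5) (nat_lit 42) (nat_lit 4) (nat_lit 373) (nat_lit 265) (nat_lit 262)) (XT.lf (nat_lit 0) (nat_lit 4729255039) (nat_lit 228) (nat_lit 7173116392) (nat_lit 0) (nat_lit 1863098205) (nat_lit 36) (nat_lit 5) (nat_lit 39) (nat_lit 4) (nat_lit 36) (nat_lit 4) (nat_lit 374) (nat_lit 265) (nat_lit 261))) (XT.nd (nat_lit 78) (nat_lit 380) (nat_lit 0) (XT.lf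 (nat_lit 0) (nat_lit 6234284280) (nat_lit 152) (nat_lit 5659090008) (nat_lit 152) (nat_lit 2127798223) (nat_lit 34) (nat_lit 4) (nat_lit 36) (nat_lit 5) (nat_lit 36) (nat_lit 4) (nat_lit 375) (nat_lit 265) (nat_lit 260)) (XT.nd (nat_lit 78) (nat_lit 152) (nat_lit 0) (XT.lf (nat_lit 0) (nat_lit 4866730103) (nat_lit 228) (nat_lit 8646729260) (nat_lit 0) (nat_lit 771579247) (nat_lit 31) (nat_lit 5) (nat_lit 34) (nat_lit 4) (nat_lit 31) (nat_lit 4) (nat_lit 376) (nat_lit 265) (nat_lit 259)) (XT.lf (nat_lit 0) (nat_lit 4772881187) (nat_lit 152) (nat_lit 7246970323) (nat_lit 152) (nat_lit 2537159189) (nat_lit 29) (nat_lit 4) (nat_lit 31) (nat_lit 5) (nat_lit 31) (nat_lit 4) (nat_lit 377) (nat_lit 265) (nat_lit 258)))))) (XT.nd (nat_lit 390) (nat_lit 608) (nat_lit 0) (XT.nd (nat_lit 156) (nat_lit 456) (nat_lit 0) (XT.nd (nat_lit 78) (nat_lit 152) (nat_lit 0) (XT.lf (nat_lit 0) (nat_lit 3643143306) (nat_lit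 152) (nat_lit 787407184) (nat_lit 228) (nat_lit 10407227891) (nat_lit 26) (nat_lit 5) (nat_lit 28) (nat_lit 5) (nat_lit 29) (nat_lit 4) (nat_lit 378) (nat_lit 265) (nat_lit 257)) (XT.lf (nat_lit 0) (nat_lit 2204731967) (nat_lit 152) (nat_lit 9346445798) (nat_lit 152) (nat_lit 3575911535) (nat_lit 24) (nat_lit 4) (nat_lit 26) (nat_lit 5) (nat_lit 26) (nat_lit 4) (nat_lit 379) (nat_lit 265) (nat_lit 256))) (XT.nd (nat_lit 78) (nat_lit 228) (nat_lit 0) (XT.lf (nat_lit 0) (nat_lit 465598379) (nat_lit 152) (nat_lit 2894601835) (nat_lit 228) (nat_lit 12065546870) (nat_lit 21) (nat_lit 5) (nat_lit 23) (nat_lit 5) (nat_lit 24) (nat_lit 4) (nat_lit 380) (nat_lit 265) (nat_lit 255)) (XT.nd (nat_lit 78) (nat_lit 228) (nat_lit 0) (XT.lf (nat_lit 0) (nat_lit 10430958789) (nat_lit 228) (nat_lit 1594448816) (nat_lit 0) (nat_lit 3708002358) (nat_lit 21) (nat_lit 5) (nat_lit 24) (nat_lit 4) (nat_lit 21) (nat_lit 4)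 (nat_lit 381) (nat_lit 265) (nat_lit 254)) (XT.lf (nat_lit 0) (nat_lit 1605580106) (nat_lit 228) (nat_lit 3989307218) (nat_lit 76) (nat_lit 10455942192) (nat_lit 18) (nat_lit 5) (nat_lit 21) (nat_lit 5) (nat_lit 19) (nat_lit 4) (nat_lit 382) (nat_lit 265) (nat_lit 253))))) (XT.nd (nat_lit 156) (nat_lit 380) (nat_lit 0) (XT.nd (nat_lit 78) (nat_lit 152) (nat_lit 0) (XT.lf (nat_lit 0) (nat_lit 8597169300) (nat_lit 152) (nat_lit 6759625796) (nat_lit 0) (nat_lit 1021327870) (nat_lit 17) (nat_lit 5) (nat_lit 19) (nat_lit 4) (nat_lit 17) (nat_lit 4) (nat_lit 383) (nat_lit 265) (nat_lit 252)) (XT.lf (nat_lit 0) (nat_lit 6791016715) (nat_lit 152) (nat_lit 8985731575) (nat_lit 152) (nat_lit 938940949) (nat_lit 15) (nat_lit 4) (nat_lit 17) (nat_lit 5) (nat_lit 17) (nat_lit 4) (nat_lit 384) (nat_lit 265) (nat_lit 251))) (XT.nd (nat_lit 78) (nat_lit 228) (nat_lit 0) (XT.lf (nat_lit 0) (nat_lit 3552038418) (nat_lit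 76) (nat_lit 2416308746) (nat_lit 152) (nat_lit 11095457561) (nat_lit 13) (nat_lit 5) (nat_lit 14) (nat_lit 5) (nat_lit 15) (nat_lit 4) (nat_lit 385) (nat_lit 265) (nat_lit 250)) (XT.nd (nat_lit 78) (nat_lit 228) (nat_lit 0) (XT.lf (nat_lit 0) (nat_lit 13038675983) (nat_lit 152) (nat_lit 118021322) (nat_lit 0) (nat_lit 4266188100) (nat_lit 13) (nat_lit 5) (nat_lit 15) (nat_lit 4) (nat_lit 13) (nat_lit 4) (nat_lit 386) (nat_lit 265) (nat_lit 249)) (XT.lf (nat_lit 0) (nat_lit 2475908947) (nat_lit 228) (nat_lit 4193686346) (nat_lit 76) (nat_lit 11123217626) (nat_lit 10) (nat_lit 5) (nat_lit 13) (nat_lit 5) (nat_lit 11) (nat_lit 4) (nat_lit 387) (nat_lit 265) (nat_lit 248))))))) (XT.nd (nat_lit 46020) (nat_lit 0) (nat_lit 304) (XT.nd (nat_lit 45630) (nat_lit 0) (nat_lit 1672) (XT.nd (nat_lit 45396) (nat_lit 0) (nat_lit 2736) (XT.nd (nat_lit 45318) (nat_lit 0) (nat_lit 3420) (XT.lf (nat_lit 0) (nat_lit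 9422282877) (nat_lit 152) (nat_lit 8746820582) (nat_lit 0) (nat_lit 5370988) (nat_lit 9) (nat_lit 5) (nat_lit 11) (nat_lit 4) (nat_lit 9) (nat_lit 4) (nat_lit 388) (nat_lit 265) (nat_lit 247)) (XT.lf (nat_lit 0) (nat_lit 1137809595) (nat_lit 304) (nat_lit 3917452088) (nat_lit 0) (nat_lit 1137809595) (nat_lit 54) (nat_lit 5) (nat_lit 58) (nat_lit 4) (nat_lit 54) (nat_lit 4) (nat_lit 368) (nat_lit 266) (nat_lit 266))) (XT.nd (nat_lit 78) (nat_lit 456) (nat_lit 0) (XT.lf (nat_lit 0) (nat_lit 5228330302) (nat_lit 228) (nat_lit 4094789314) (nat_lit 228) (nat_lit 3276519730) (nat_lit 51) (nat_lit 4) (nat_lit 54) (nat_lit 5) (nat_lit 54) (nat_lit 4) (nat_lit 369) (nat_lit 266) (nat_lit 265)) (XT.nd (nat_lit 78) (nat_lit 228) (nat_lit 0) (XT.lf (nat_lit 0) (nat_lit 3664513589) (nat_lit 228) (nat_lit 7072113751) (nat_lit 0) (nat_lit 2083429204) (nat_lit 48) (nat_lit 5) (nat_lit 51) (nat_lit 4) (nat_lit 48)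 (nat_lit 4) (nat_lit 370) (nat_lit 266) (nat_lit 264)) (XT.lf (nat_lit 0) (nat_lit 6086581016) (nat_lit 228) (nat_lit 4649017064) (nat_lit 228) (nat_lit 2311758599) (nat_lit 45) (nat_lit 4) (nat_lit 48) (nat_lit 5) (nat_lit 48) (nat_lit 4) (nat_lit 371) (nat_lit 266) (nat_lit 263))))) (XT.nd (nat_lit 156) (nat_lit 608) (nat_lit 0) (XT.nd (nat_lit 78) (nat_lit 228) (nat_lit 0) (XT.lf (nat_lit 0) (nat_lit 4625280488) (nat_lit 228) (nat_lit 7042511433) (nat_lit 0) (nat_lit 1614096117) (nat_lit 42) (nat_lit 5) (nat_lit 45) (nat_lit 4) (nat_lit 42) (nat_lit 4) (nat_lit 372) (nat_lit 266) (nat_lit 262)) (XT.lf (nat_lit 0) (nat_lit 6187474617) (nat_lit 228) (nat_lit 5523123370) (nat_lit 228) (nat_lit 1813148220) (nat_lit 39) (nat_lit 4) (nat_lit 42) (nat_lit 5) (nat_lit 42) (nat_lit 4) (nat_lit 373) (nat_lit 266) (nat_lit 261))) (XT.nd (nat_lit 78) (nat_lit 380) (nat_lit 0) (XT.lf (nat_lit 0) (nat_lit 5113147805)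 (nat_lit 228) (nat_lit 7849352795) (nat_lit 0) (nat_lit 810782316) (nat_lit 36) (nat_lit 5) (nat_lit 39) (nat_lit 4) (nat_lit 36) (nat_lit 4) (nat_lit 374) (nat_lit 266) (nat_lit 260)) (XT.nd (nat_lit 78) (nat_lit 228) (nat_lit 0) (XT.lf (nat_lit 0) (nat_lit 5423755296) (nat_lit 152) (nat_lit 6777446063) (nat_lit 152) (nat_lit 1829318486) (nat_lit 34) (nat_lit 4) (nat_lit 36) (nat_lit 5) (nat_lit 36) (nat_lit 4) (nat_lit 375) (nat_lit 266) (nat_lit 259)) (XT.lf (nat_lit 0) (nat_lit 4686523551) (nat_lit 152) (nat_lit 393478731) (nat_lit 228) (nat_lit 9215982888) (nat_lit 31) (nat_lit 5) (nat_lit 33) (nat_lit 5) (nat_lit 34) (nat_lit 4) (nat_lit 376) (nat_lit 266) (nat_lit 258)))))) (XT.nd (nat_lit 390) (nat_lit 608) (nat_lit 0) (XT.nd (nat_lit 156) (nat_lit 380) (nat_lit 0) (XT.nd (nat_lit 78) (nat_lit 228) (nat_lit 0) (XT.lf (nat_lit 0) (nat_lit 3676667008) (nat_lit 152) (nat_lit 8477700224) (nat_lit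 152) (nat_lit 2415176927) (nat_lit 29) (nat_lit 4) (nat_lit 31) (nat_lit 5) (nat_lit 31) (nat_lit 4) (nat_lit 377) (nat_lit 266) (nat_lit 257)) (XT.lf (nat_lit 0) (nat_lit 2396650981) (nat_lit 152) (nat_lit 2077878990) (nat_lit 228) (nat_lit 10377305296) (nat_lit 26) (nat_lit 5) (nat_lit 28) (nat_lit 5) (nat_lit 29) (nat_lit 4) (nat_lit 378) (nat_lit 266) (nat_lit 256))) (XT.nd (nat_lit 78) (nat_lit 228) (nat_lit 0) (XT.lf (nat_lit 0) (nat_lit 814664365) (nat_lit 152) (nat_lit 10695663656) (nat_lit 152) (nat_lit 3632525629) (nat_lit 24) (nat_lit 4) (nat_lit 26) (nat_lit 5) (nat_lit 26) (nat_lit 4) (nat_lit 379) (nat_lit 266) (nat_lit 255)) (XT.nd (nat_lit 78) (nat_lit 152) (nat_lit 0) (XT.lf (nat_lit 0) (nat_lit 3234630760) (nat_lit 228) (nat_lit 1064593395) (nat_lit 76) (nat_lit 11143698941) (nat_lit 23) (nat_lit 5) (nat_lit 26) (nat_lit 5) (nat_lit 24) (nat_lit 4) (nat_lit 380) (nat_lit 266) (nat_lit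 254)) (XT.lf (nat_lit 0) (nat_lit 10223396271) (nat_lit 228) (nat_lit 3264622356) (nat_lit 0) (nat_lit 2264217265) (nat_lit 21) (nat_lit 5) (nat_lit 24) (nat_lit 4) (nat_lit 21) (nat_lit 4) (nat_lit 381) (nat_lit 266) (nat_lit 253))))) (XT.nd (nat_lit 156) (nat_lit 304) (nat_lit 0) (XT.nd (nat_lit 78) (nat_lit 76) (nat_lit 0) (XT.lf (nat_lit 0) (nat_lit 1306004657) (nat_lit 228) (nat_lit 5815828823) (nat_lit 76) (nat_lit 8949384053) (nat_lit 18) (nat_lit 5) (nat_lit 21) (nat_lit 5) (nat_lit 19) (nat_lit 4) (nat_lit 382) (nat_lit 266) (nat_lit 252)) (XT.lf (nat_lit 0) (nat_lit 7659798917) (nat_lit 76) (nat_lit 555114611) (nat_lit 152) (nat_lit 8185260353) (nat_lit 17) (nat_lit 5) (nat_lit 18) (nat_lit 5) (nat_lit 19) (nat_lit 4) (nat_lit 383) (nat_lit 266) (nat_lit 251))) (XT.nd (nat_lit 78) (nat_lit 152) (nat_lit 0) (XT.lf (nat_lit 0) (nat_lit 4673758784) (nat_lit 152) (nat_lit 10640980611) (nat_lit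 152) (nat_lit 1424604841) (nat_lit 15) (nat_lit 4) (nat_lit 17) (nat_lit 5) (nat_lit 17) (nat_lit 4) (nat_lit 384) (nat_lit 266) (nat_lit 250)) (XT.nd (nat_lit 78) (nat_lit 0) (nat_lit 0) (XT.lf (nat_lit 0) (nat_lit 1273038419) (nat_lit 76) (nat_lit 4139500676) (nat_lit 152) (nat_lit 11676522552) (nat_lit 13) (nat_lit 5) (nat_lit 14) (nat_lit 5) (nat_lit 15) (nat_lit 4) (nat_lit 385) (nat_lit 266) (nat_lit 249)) (XT.lf (nat_lit 0) (nat_lit 12410731610) (nat_lit 152) (nat_lit 2521537800) (nat_lit 0) (nat_lit 2517323979) (nat_lit 13) (nat_lit 5) (nat_lit 15) (nat_lit 4) (nat_lit 13) (nat_lit 4) (nat_lit 386) (nat_lit 266) (nat_lit 248))))))))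
noncomputable def xc3 : XT := (XT.nd (nat_lit 46566) (nat_lit 0) (nat_lit 0) (XT.nd (nat_lit 45786) (nat_lit 0) (nat_lit 684) (XT.nd (nat_lit 45396) (nat_lit 0) (nat_lit 2508) (XT.nd (nat_lit 45240) (nat_lit 0) (nat_lit 3724) (XT.nd (nat_lit 78) (nat_lit 76) (nat_lit 0) (XT.lf (nat_lit 0) (nat_lit 1753642140) (nat_lit 228) (nat_lit 6761278214) (nat_lit 76) (nat_lit 9306217498) (nat_lit 10) (nat_lit 5) (nat_lit 13) (nat_lit 5) (nat_lit 11) (nat_lit 4) (nat_lit 387) (nat_lit 266) (nat_lit 247)) (XT.lf (nat_lit 0) (nat_lit 6718287188) (nat_lit 76) (nat_lit 1905575114) (nat_lit 152) (nat_lit 9580467855) (nat_lit 9) (nat_lit 5) (nat_lit 10) (nat_lit 5) (nat_lit 11) (nat_lit 4) (nat_lit 388) (nat_lit 266) (nat_lit 246))) (XT.nd (nat_lit 78) (nat_lit 228) (nat_lit 0) (XT.lf (nat_lit 0) (nat_lit 716866097) (nat_lit 304) (nat_lit 4554817622) (nat_lit 0) (nat_lit 716866097) (nat_lit 61) (nat_lit 5) (nat_lit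 65) (nat_lit 4) (nat_lit 61) (nat_lit 4) (nat_lit 366) (nat_lit 267) (nat_lit 267)) (XT.lf (nat_lit 0) (nat_lit 3709648848) (nat_lit 228) (nat_lit 4664525053) (nat_lit 228) (nat_lit 3804851029) (nat_lit 58) (nat_lit 4) (nat_lit 61) (nat_lit 5) (nat_lit 61) (nat_lit 4) (nat_lit 367) (nat_lit 267) (nat_lit 266)))) (XT.nd (nat_lit 156) (nat_lit 684) (nat_lit 0) (XT.nd (nat_lit 78) (nat_lit 228) (nat_lit 0) (XT.lf (nat_lit 0) (nat_lit 3042082904) (nat_lit 304) (nat_lit 7964607226) (nat_lit 0) (nat_lit 1380995650) (nat_lit 54) (nat_lit 5) (nat_lit 58) (nat_lit 4) (nat_lit 54) (nat_lit 4) (nat_lit 368) (nat_lit 267) (nat_lit 265)) (XT.lf (nat_lit 0) (nat_lit 4969304794) (nat_lit 228) (nat_lit 5044466713) (nat_lit 228) (nat_lit 2588942969) (nat_lit 51) (nat_lit 4) (nat_lit 54) (nat_lit 5) (nat_lit 54) (nat_lit 4) (nat_lit 369) (nat_lit 267) (nat_lit 264))) (XT.nd (nat_lit 78) (nat_lit 456) (nat_lit 0) (XT.lf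 (nat_lit 0) (nat_lit 4260736756) (nat_lit 228) (nat_lit 7466780811) (nat_lit 0) (nat_lit 1097186457) (nat_lit 48) (nat_lit 5) (nat_lit 51) (nat_lit 4) (nat_lit 48) (nat_lit 4) (nat_lit 370) (nat_lit 267) (nat_lit 263)) (XT.nd (nat_lit 78) (nat_lit 228) (nat_lit 0) (XT.lf (nat_lit 0) (nat_lit 5561053827) (nat_lit 228) (nat_lit 5695089137) (nat_lit 228) (nat_lit 1797389245) (nat_lit 45) (nat_lit 4) (nat_lit 48) (nat_lit 5) (nat_lit 48) (nat_lit 4) (nat_lit 371) (nat_lit 267) (nat_lit 262)) (XT.lf (nat_lit 0) (nat_lit 5050005535) (nat_lit 228) (nat_lit 7709722638) (nat_lit 0) (nat_lit 529940352) (nat_lit 42) (nat_lit 5) (nat_lit 45) (nat_lit 4) (nat_lit 42) (nat_lit 4) (nat_lit 372) (nat_lit 267) (nat_lit 261)))))) (XT.nd (nat_lit 390) (nat_lit 836) (nat_lit 0) (XT.nd (nat_lit 156) (nat_lit 532) (nat_lit 0) (XT.nd (nat_lit 78) (nat_lit 228) (nat_lit 0) (XT.lf (nat_lit 0) (nat_lit 5387763129) (nat_lit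 228) (nat_lit 6671896525) (nat_lit 228) (nat_lit 1473393692) (nat_lit 39) (nat_lit 4) (nat_lit 42) (nat_lit 5) (nat_lit 42) (nat_lit 4) (nat_lit 373) (nat_lit 267) (nat_lit 260)) (XT.lf (nat_lit 0) (nat_lit 4984786944) (nat_lit 152) (nat_lit 382523504) (nat_lit 228) (nat_lit 8416870947) (nat_lit 36) (nat_lit 5) (nat_lit 38) (nat_lit 5) (nat_lit 39) (nat_lit 4) (nat_lit 374) (nat_lit 267) (nat_lit 259))) (XT.nd (nat_lit 78) (nat_lit 380) (nat_lit 0) (XT.lf (nat_lit 0) (nat_lit 4341948615) (nat_lit 152) (nat_lit 8035167010) (nat_lit 152) (nat_lit 1665880034) (nat_lit 34) (nat_lit 4) (nat_lit 36) (nat_lit 5) (nat_lit 36) (nat_lit 4) (nat_lit 375) (nat_lit 267) (nat_lit 258)) (XT.nd (nat_lit 78) (nat_lit 152) (nat_lit 0) (XT.lf (nat_lit 0) (nat_lit 3456013872) (nat_lit 152) (nat_lit 1709329469) (nat_lit 228) (nat_lit 9144627270) (nat_lit 31) (nat_lit 5) (nat_lit 33) (nat_lit 5) (nat_lit 34) (nat_lit 4)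 (nat_lit 376) (nat_lit 267) (nat_lit 257)) (XT.lf (nat_lit 0) (nat_lit 2304604400) (nat_lit 152) (nat_lit 9850579959) (nat_lit 152) (nat_lit 2430047149) (nat_lit 29) (nat_lit 4) (nat_lit 31) (nat_lit 5) (nat_lit 31) (nat_lit 4) (nat_lit 377) (nat_lit 267) (nat_lit 256))))) (XT.nd (nat_lit 156) (nat_lit 608) (nat_lit 0) (XT.nd (nat_lit 78) (nat_lit 0) (nat_lit 0) (XT.lf (nat_lit 0) (nat_lit 871908332) (nat_lit 152) (nat_lit 3511726504) (nat_lit 228) (nat_lit 10485424988) (nat_lit 26) (nat_lit 5) (nat_lit 28) (nat_lit 5) (nat_lit 29) (nat_lit 4) (nat_lit 378) (nat_lit 267) (nat_lit 255)) (XT.lf (nat_lit 0) (nat_lit 11339372517) (nat_lit 228) (nat_lit 844858406) (nat_lit 0) (nat_lit 2977459053) (nat_lit 26) (nat_lit 5) (nat_lit 29) (nat_lit 4) (nat_lit 26) (nat_lit 4) (nat_lit 379) (nat_lit 267) (nat_lit 254))) (XT.nd (nat_lit 78) (nat_lit 380) (nat_lit 0) (XT.lf (nat_lit 0) (nat_lit 2977000091) (nat_lit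 228) (nat_lit 2868188332) (nat_lit 76) (nat_lit 9618012258) (nat_lit 23) (nat_lit 5) (nat_lit 26) (nat_lit 5) (nat_lit 24) (nat_lit 4) (nat_lit 380) (nat_lit 267) (nat_lit 253)) (XT.nd (nat_lit 78) (nat_lit 228) (nat_lit 0) (XT.lf (nat_lit 0) (nat_lit 9879877978) (nat_lit 228) (nat_lit 5216841237) (nat_lit 0) (nat_lit 677521774) (nat_lit 21) (nat_lit 5) (nat_lit 24) (nat_lit 4) (nat_lit 21) (nat_lit 4) (nat_lit 381) (nat_lit 267) (nat_lit 252)) (XT.lf (nat_lit 0) (nat_lit 869147176) (nat_lit 228) (nat_lit 7927047087) (nat_lit 76) (nat_lit 7298607683) (nat_lit 18) (nat_lit 5) (nat_lit 21) (nat_lit 5) (nat_lit 19) (nat_lit 4) (nat_lit 382) (nat_lit 267) (nat_lit 251))))))) (XT.nd (nat_lit 45708) (nat_lit 0) (nat_lit 1520) (XT.nd (nat_lit 390) (nat_lit 76) (nat_lit 0) (XT.nd (nat_lit 156) (nat_lit 380) (nat_lit 0) (XT.nd (nat_lit 78) (nat_lit 152) (nat_lit 0) (XT.lf (nat_lit 0) (nat_lit 5409109318) (nat_lit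 76) (nat_lit 2292975124) (nat_lit 152) (nat_lit 8723202303) (nat_lit 17) (nat_lit 5) (nat_lit 18) (nat_lit 5) (nat_lit 19) (nat_lit 4) (nat_lit 383) (nat_lit 267) (nat_lit 250)) (XT.lf (nat_lit 0) (nat_lit 2268623338) (nat_lit 152) (nat_lit 12445803127) (nat_lit 152) (nat_lit 2051789069) (nat_lit 15) (nat_lit 4) (nat_lit 17) (nat_lit 5) (nat_lit 17) (nat_lit 4) (nat_lit 384) (nat_lit 267) (nat_lit 249))) (XT.nd (nat_lit 78) (nat_lit 304) (nat_lit 0) (XT.lf (nat_lit 0) (nat_lit 4725395707) (nat_lit 228) (nat_lit 1279699956) (nat_lit 76) (nat_lit 11112290756) (nat_lit 14) (nat_lit 5) (nat_lit 17) (nat_lit 5) (nat_lit 15) (nat_lit 4) (nat_lit 385) (nat_lit 267) (nat_lit 248)) (XT.nd (nat_lit 78) (nat_lit 228) (nat_lit 0) (XT.lf (nat_lit 0) (nat_lit 11643827698) (nat_lit 152) (nat_lit 5214838173) (nat_lit 0) (nat_lit 620855593) (nat_lit 13) (nat_lit 5) (nat_lit 15) (nat_lit 4) (nat_lit 13) (nat_lit 4)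 (nat_lit 386) (nat_lit 267) (nat_lit 247)) (XT.lf (nat_lit 0) (nat_lit 890897130) (nat_lit 228) (nat_lit 9621639228) (nat_lit 76) (nat_lit 7340168016) (nat_lit 10) (nat_lit 5) (nat_lit 13) (nat_lit 5) (nat_lit 11) (nat_lit 4) (nat_lit 387) (nat_lit 267) (nat_lit 246))))) (XT.nd (nat_lit 45084) (nat_lit 0) (nat_lit 3724) (XT.nd (nat_lit 45006) (nat_lit 0) (nat_lit 4484) (XT.lf (nat_lit 0) (nat_lit 3715361146) (nat_lit 76) (nat_lit 3969436643) (nat_lit 152) (nat_lit 10552632759) (nat_lit 9) (nat_lit 5) (nat_lit 10) (nat_lit 5) (nat_lit 11) (nat_lit 4) (nat_lit 388) (nat_lit 267) (nat_lit 245)) (XT.lf (nat_lit 0) (nat_lit 224721988) (nat_lit 304) (nat_lit 5345568383) (nat_lit 0) (nat_lit 224721988) (nat_lit 68) (nat_lit 5) (nat_lit 72) (nat_lit 4) (nat_lit 68) (nat_lit 4) (nat_lit 364) (nat_lit 268) (nat_lit 268))) (XT.nd (nat_lit 78) (nat_lit 532) (nat_lit 0) (XT.lf (nat_lit 0) (nat_lit 1869931224)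 (nat_lit 228) (nat_lit 5407131175) (nat_lit 228) (nat_lit 4503957645) (nat_lit 65) (nat_lit 4) (nat_lit 68) (nat_lit 5) (nat_lit 68) (nat_lit 4) (nat_lit 365) (nat_lit 268) (nat_lit 267)) (XT.nd (nat_lit 78) (nat_lit 228) (nat_lit 0) (XT.lf (nat_lit 0) (nat_lit 2243129689) (nat_lit 304) (nat_lit 9237516818) (nat_lit 0) (nat_lit 497991419) (nat_lit 61) (nat_lit 5) (nat_lit 65) (nat_lit 4) (nat_lit 61) (nat_lit 4) (nat_lit 366) (nat_lit 268) (nat_lit 266)) (XT.lf (nat_lit 0) (nat_lit 3454260950) (nat_lit 228) (nat_lit 5653801086) (nat_lit 228) (nat_lit 3074027841) (nat_lit 58) (nat_lit 4) (nat_lit 61) (nat_lit 5) (nat_lit 61) (nat_lit 4) (nat_lit 367) (nat_lit 268) (nat_lit 265)))))) (XT.nd (nat_lit 390) (nat_lit 988) (nat_lit 0) (XT.nd (nat_lit 156) (nat_lit 684) (nat_lit 0) (XT.nd (nat_lit 78) (nat_lit 228) (nat_lit 0) (XT.lf (nat_lit 0) (nat_lit 3681056514) (nat_lit 304) (nat_lit 8353829709) (nat_lit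 0) (nat_lit 357430569) (nat_lit 54) (nat_lit 5) (nat_lit 58) (nat_lit 4) (nat_lit 54) (nat_lit 4) (nat_lit 368) (nat_lit 268) (nat_lit 264)) (XT.lf (nat_lit 0) (nat_lit 4451027446) (nat_lit 228) (nat_lit 6126381741) (nat_lit 228) (nat_lit 2031458235) (nat_lit 51) (nat_lit 4) (nat_lit 54) (nat_lit 5) (nat_lit 54) (nat_lit 4) (nat_lit 369) (nat_lit 268) (nat_lit 263))) (XT.nd (nat_lit 78) (nat_lit 456) (nat_lit 0) (XT.lf (nat_lit 0) (nat_lit 4707373466) (nat_lit 152) (nat_lit 20908492) (nat_lit 228) (nat_lit 8104169665) (nat_lit 48) (nat_lit 5) (nat_lit 50) (nat_lit 5) (nat_lit 51) (nat_lit 4) (nat_lit 370) (nat_lit 268) (nat_lit 262)) (XT.nd (nat_lit 78) (nat_lit 228) (nat_lit 0) (XT.lf (nat_lit 0) (nat_lit 4772189096) (nat_lit 228) (nat_lit 6876080113) (nat_lit 228) (nat_lit 1414533038) (nat_lit 45) (nat_lit 4) (nat_lit 48) (nat_lit 5) (nat_lit 48) (nat_lit 4) (nat_lit 371) (nat_lit 268) (nat_lit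 261)) (XT.lf (nat_lit 0) (nat_lit 4651316279) (nat_lit 152) (nat_lit 697629145) (nat_lit 228) (nat_lit 7951534710) (nat_lit 42) (nat_lit 5) (nat_lit 44) (nat_lit 5) (nat_lit 45) (nat_lit 4) (nat_lit 372) (nat_lit 268) (nat_lit 260))))) (XT.nd (nat_lit 156) (nat_lit 532) (nat_lit 0) (XT.nd (nat_lit 78) (nat_lit 228) (nat_lit 0) (XT.lf (nat_lit 0) (nat_lit 4320394474) (nat_lit 228) (nat_lit 7958326967) (nat_lit 228) (nat_lit 1266754070) (nat_lit 39) (nat_lit 4) (nat_lit 42) (nat_lit 5) (nat_lit 42) (nat_lit 4) (nat_lit 373) (nat_lit 268) (nat_lit 259)) (XT.lf (nat_lit 0) (nat_lit 3770278385) (nat_lit 152) (nat_lit 1725436384) (nat_lit 228) (nat_lit 8302384830) (nat_lit 36) (nat_lit 5) (nat_lit 38) (nat_lit 5) (nat_lit 39) (nat_lit 4) (nat_lit 374) (nat_lit 268) (nat_lit 258))) (XT.nd (nat_lit 78) (nat_lit 380) (nat_lit 0) (XT.lf (nat_lit 0) (nat_lit 2987918969) (nat_lit 152) (nat_lit 9433351828) (nat_lit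 152) (nat_lit 1637340057) (nat_lit 34) (nat_lit 4) (nat_lit 36) (nat_lit 5) (nat_lit 36) (nat_lit 4) (nat_lit 375) (nat_lit 268) (nat_lit 257)) (XT.nd (nat_lit 78) (nat_lit 152) (nat_lit 0) (XT.lf (nat_lit 0) (nat_lit 1950882814) (nat_lit 152) (nat_lit 3166868855) (nat_lit 228) (nat_lit 9209357006) (nat_lit 31) (nat_lit 5) (nat_lit 33) (nat_lit 5) (nat_lit 34) (nat_lit 4) (nat_lit 376) (nat_lit 268) (nat_lit 256)) (XT.lf (nat_lit 0) (nat_lit 655494473) (nat_lit 152) (nat_lit 11366809132) (nat_lit 152) (nat_lit 2581782846) (nat_lit 29) (nat_lit 4) (nat_lit 31) (nat_lit 5) (nat_lit 31) (nat_lit 4) (nat_lit 377) (nat_lit 268) (nat_lit 255))))))))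
noncomputable def xc4 : XT := (XT.nd (nat_lit 46254) (nat_lit 0) (nat_lit 76) (XT.nd (nat_lit 702) (nat_lit 304) (nat_lit 0) (XT.nd (nat_lit 312) (nat_lit 608) (nat_lit 0) (XT.nd (nat_lit 156) (nat_lit 380) (nat_lit 0) (XT.nd (nat_lit 78) (nat_lit 152) (nat_lit 0) (XT.lf (nat_lit 0) (nat_lit 4163839533) (nat_lit 228) (nat_lit 920188123) (nat_lit 76) (nat_lit 9805318369) (nat_lit 28) (nat_lit 5) (nat_lit 31) (nat_lit 5) (nat_lit 29) (nat_lit 4) (nat_lit 378) (nat_lit 268) (nat_lit 254)) (XT.lf (nat_lit 0) (nat_lit 11039719939) (nat_lit 228) (nat_lit 2772139127) (nat_lit 0) (nat_lit 1371724511) (nat_lit 26) (nat_lit 5) (nat_lit 29) (nat_lit 4) (nat_lit 26) (nat_lit 4) (nat_lit 379) (nat_lit 268) (nat_lit 253))) (XT.nd (nat_lit 78) (nat_lit 152) (nat_lit 0) (XT.lf (nat_lit 0) (nat_lit 2584060121) (nat_lit 228) (nat_lit 4952868792) (nat_lit 76) (nat_lit 7949729103) (nat_lit 23) (nat_lit 5) (nat_lit 26)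 (nat_lit 5) (nat_lit 24) (nat_lit 4) (nat_lit 380) (nat_lit 268) (nat_lit 252)) (XT.lf (nat_lit 0) (nat_lit 8339563862) (nat_lit 152) (nat_lit 1067470614) (nat_lit 228) (nat_lit 6392271395) (nat_lit 21) (nat_lit 5) (nat_lit 23) (nat_lit 5) (nat_lit 24) (nat_lit 4) (nat_lit 381) (nat_lit 268) (nat_lit 251)))) (XT.nd (nat_lit 156) (nat_lit 304) (nat_lit 0) (XT.nd (nat_lit 78) (nat_lit 76) (nat_lit 0) (XT.lf (nat_lit 0) (nat_lit 294625942) (nat_lit 228) (nat_lit 10324806765) (nat_lit 76) (nat_lit 5502170655) (nat_lit 18) (nat_lit 5) (nat_lit 21) (nat_lit 5) (nat_lit 19) (nat_lit 4) (nat_lit 382) (nat_lit 268) (nat_lit 250)) (XT.lf (nat_lit 0) (nat_lit 2871315400) (nat_lit 76) (nat_lit 4180199278) (nat_lit 152) (nat_lit 9402103213) (nat_lit 17) (nat_lit 5) (nat_lit 18) (nat_lit 5) (nat_lit 19) (nat_lit 4) (nat_lit 383) (nat_lit 268) (nat_lit 249))) (XT.nd (nat_lit 78) (nat_lit 304) (nat_lit 0) (XT.lf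 (nat_lit 0) (nat_lit 13978054021) (nat_lit 152) (nat_lit 420897686) (nat_lit 0) (nat_lit 2397319527) (nat_lit 17) (nat_lit 5) (nat_lit 19) (nat_lit 4) (nat_lit 17) (nat_lit 4) (nat_lit 384) (nat_lit 268) (nat_lit 248)) (XT.nd (nat_lit 78) (nat_lit 76) (nat_lit 0) (XT.lf (nat_lit 0) (nat_lit 3908057844) (nat_lit 228) (nat_lit 4104889909) (nat_lit 76) (nat_lit 9135821214) (nat_lit 14) (nat_lit 5) (nat_lit 17) (nat_lit 5) (nat_lit 15) (nat_lit 4) (nat_lit 385) (nat_lit 268) (nat_lit 247)) (XT.lf (nat_lit 0) (nat_lit 9302858316) (nat_lit 76) (nat_lit 1443809992) (nat_lit 152) (nat_lit 6765839990) (nat_lit 13) (nat_lit 5) (nat_lit 14) (nat_lit 5) (nat_lit 15) (nat_lit 4) (nat_lit 386) (nat_lit 268) (nat_lit 246)))))) (XT.nd (nat_lit 45162) (nat_lit 0) (nat_lit 3192) (XT.nd (nat_lit 44928) (nat_lit 0) (nat_lit 4484) (XT.nd (nat_lit 78) (nat_lit 152) (nat_lit 0) (XT.lf (nat_lit 0) (nat_lit 5109512509) (nat_lit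 152) (nat_lit 12663429969) (nat_lit 152) (nat_lit 114582709) (nat_lit 11) (nat_lit 4) (nat_lit 13) (nat_lit 5) (nat_lit 13) (nat_lit 4) (nat_lit 387) (nat_lit 268) (nat_lit 245)) (XT.lf (nat_lit 0) (nat_lit 416287865) (nat_lit 76) (nat_lit 6187945594) (nat_lit 152) (nat_lit 11669571788) (nat_lit 9) (nat_lit 5) (nat_lit 10) (nat_lit 5) (nat_lit 11) (nat_lit 4) (nat_lit 388) (nat_lit 268) (nat_lit 244))) (XT.nd (nat_lit 78) (nat_lit 912) (nat_lit 0) (XT.lf (nat_lit 0) (nat_lit 4970949700) (nat_lit 304) (nat_lit 320359045) (nat_lit 304) (nat_lit 320359045) (nat_lit 80) (nat_lit 4) (nat_lit 84) (nat_lit 5) (nat_lit 84) (nat_lit 4) (nat_lit 362) (nat_lit 269) (nat_lit 269)) (XT.nd (nat_lit 78) (nat_lit 608) (nat_lit 0) (XT.lf (nat_lit 0) (nat_lit 6066913696) (nat_lit 304) (nat_lit 219347998) (nat_lit 0) (nat_lit 5118039585) (nat_lit 76) (nat_lit 5) (nat_lit 80) (nat_lit 4) (nat_lit 76) (nat_lit 4) (nat_lit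 363) (nat_lit 269) (nat_lit 268)) (XT.lf (nat_lit 0) (nat_lit 770816693) (nat_lit 228) (nat_lit 536573308) (nat_lit 304) (nat_lit 10284098990) (nat_lit 68) (nat_lit 5) (nat_lit 71) (nat_lit 5) (nat_lit 72) (nat_lit 4) (nat_lit 364) (nat_lit 269) (nat_lit 267))))) (XT.nd (nat_lit 156) (nat_lit 760) (nat_lit 0) (XT.nd (nat_lit 78) (nat_lit 304) (nat_lit 0) (XT.lf (nat_lit 0) (nat_lit 1618197620) (nat_lit 228) (nat_lit 6438094050) (nat_lit 228) (nat_lit 3727784279) (nat_lit 65) (nat_lit 4) (nat_lit 68) (nat_lit 5) (nat_lit 68) (nat_lit 4) (nat_lit 365) (nat_lit 269) (nat_lit 266)) (XT.lf (nat_lit 0) (nat_lit 2358190030) (nat_lit 228) (nat_lit 572417631) (nat_lit 304) (nat_lit 9052572162) (nat_lit 61) (nat_lit 5) (nat_lit 64) (nat_lit 5) (nat_lit 65) (nat_lit 4) (nat_lit 366) (nat_lit 269) (nat_lit 265))) (XT.nd (nat_lit 78) (nat_lit 532) (nat_lit 0) (XT.lf (nat_lit 0) (nat_lit 2943261999) (nat_lit 228)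 (nat_lit 6773543542) (nat_lit 228) (nat_lit 2471416906) (nat_lit 58) (nat_lit 4) (nat_lit 61) (nat_lit 5) (nat_lit 61) (nat_lit 4) (nat_lit 367) (nat_lit 269) (nat_lit 264)) (XT.nd (nat_lit 78) (nat_lit 228) (nat_lit 0) (XT.lf (nat_lit 0) (nat_lit 3391786540) (nat_lit 228) (nat_lit 806548454) (nat_lit 304) (nat_lit 8201599916) (nat_lit 54) (nat_lit 5) (nat_lit 57) (nat_lit 5) (nat_lit 58) (nat_lit 4) (nat_lit 368) (nat_lit 269) (nat_lit 263)) (XT.lf (nat_lit 0) (nat_lit 3673045393) (nat_lit 228) (nat_lit 7341479763) (nat_lit 228) (nat_lit 1603578405) (nat_lit 51) (nat_lit 4) (nat_lit 54) (nat_lit 5) (nat_lit 54) (nat_lit 4) (nat_lit 369) (nat_lit 269) (nat_lit 262))))))) (XT.nd (nat_lit 780) (nat_lit 1216) (nat_lit 0) (XT.nd (nat_lit 390) (nat_lit 760) (nat_lit 0) (XT.nd (nat_lit 156) (nat_lit 684) (nat_lit 0) (XT.nd (nat_lit 78) (nat_lit 228) (nat_lit 0) (XT.lf (nat_lit 0) (nat_lit 3787611485) (nat_lit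 152) (nat_lit 1287900776) (nat_lit 228) (nat_lit 7767634757) (nat_lit 48) (nat_lit 5) (nat_lit 50) (nat_lit 5) (nat_lit 51) (nat_lit 4) (nat_lit 370) (nat_lit 269) (nat_lit 261)) (XT.lf (nat_lit 0) (nat_lit 3719297523) (nat_lit 228) (nat_lit 8193021928) (nat_lit 228) (nat_lit 1162855443) (nat_lit 45) (nat_lit 4) (nat_lit 48) (nat_lit 5) (nat_lit 48) (nat_lit 4) (nat_lit 371) (nat_lit 269) (nat_lit 260))) (XT.nd (nat_lit 78) (nat_lit 456) (nat_lit 0) (XT.lf (nat_lit 0) (nat_lit 3452836149) (nat_lit 152) (nat_lit 2069368558) (nat_lit 228) (nat_lit 7792130736) (nat_lit 42) (nat_lit 5) (nat_lit 44) (nat_lit 5) (nat_lit 45) (nat_lit 4) (nat_lit 372) (nat_lit 269) (nat_lit 259)) (XT.nd (nat_lit 78) (nat_lit 228) (nat_lit 0) (XT.lf (nat_lit 0) (nat_lit 2984436000) (nat_lit 228) (nat_lit 9383538761) (nat_lit 228) (nat_lit 1193048794) (nat_lit 39) (nat_lit 4) (nat_lit 42) (nat_lit 5) (nat_lit 42) (nat_lit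 4) (nat_lit 373) (nat_lit 269) (nat_lit 258)) (XT.lf (nat_lit 0) (nat_lit 2284784001) (nat_lit 152) (nat_lit 3208354872) (nat_lit 228) (nat_lit 8322017498) (nat_lit 36) (nat_lit 5) (nat_lit 38) (nat_lit 5) (nat_lit 39) (nat_lit 4) (nat_lit 374) (nat_lit 269) (nat_lit 257))))) (XT.nd (nat_lit 156) (nat_lit 380) (nat_lit 0) (XT.nd (nat_lit 78) (nat_lit 228) (nat_lit 0) (XT.lf (nat_lit 0) (nat_lit 1360483225) (nat_lit 152) (nat_lit 10973222232) (nat_lit 152) (nat_lit 1743673616) (nat_lit 34) (nat_lit 4) (nat_lit 36) (nat_lit 5) (nat_lit 36) (nat_lit 4) (nat_lit 375) (nat_lit 269) (nat_lit 256)) (XT.lf (nat_lit 0) (nat_lit 169815215) (nat_lit 152) (nat_lit 4767370468) (nat_lit 228) (nat_lit 9410228656) (nat_lit 31) (nat_lit 5) (nat_lit 33) (nat_lit 5) (nat_lit 34) (nat_lit 4) (nat_lit 376) (nat_lit 269) (nat_lit 255))) (XT.nd (nat_lit 78) (nat_lit 380) (nat_lit 0) (XT.lf (nat_lit 0) (nat_lit 11763868200)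 (nat_lit 228) (nat_lit 1255419874) (nat_lit 0) (nat_lit 1606672203) (nat_lit 31) (nat_lit 5) (nat_lit 34) (nat_lit 4) (nat_lit 31) (nat_lit 4) (nat_lit 377) (nat_lit 269) (nat_lit 254)) (XT.nd (nat_lit 78) (nat_lit 152) (nat_lit 0) (XT.lf (nat_lit 0) (nat_lit 3816379327) (nat_lit 228) (nat_lit 2978321109) (nat_lit 76) (nat_lit 8117982613) (nat_lit 28) (nat_lit 5) (nat_lit 31) (nat_lit 5) (nat_lit 29) (nat_lit 4) (nat_lit 378) (nat_lit 269) (nat_lit 253)) (XT.lf (nat_lit 0) (nat_lit 10226585176) (nat_lit 152) (nat_lit 381712266) (nat_lit 228) (nat_lit 4600312363) (nat_lit 26) (nat_lit 5) (nat_lit 28) (nat_lit 5) (nat_lit 29) (nat_lit 4) (nat_lit 379) (nat_lit 269) (nat_lit 252)))))) (XT.nd (nat_lit 390) (nat_lit 532) (nat_lit 0) (XT.nd (nat_lit 156) (nat_lit 304) (nat_lit 0) (XT.nd (nat_lit 78) (nat_lit 152) (nat_lit 0) (XT.lf (nat_lit 0) (nat_lit 2055467502) (nat_lit 228) (nat_lit 7320456343) (nat_lit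 76) (nat_lit 6137391751) (nat_lit 23) (nat_lit 5) (nat_lit 26) (nat_lit 5) (nat_lit 24) (nat_lit 4) (nat_lit 380) (nat_lit 269) (nat_lit 251)) (XT.lf (nat_lit 0) (nat_lit 5833718482) (nat_lit 152) (nat_lit 2969213988) (nat_lit 228) (nat_lit 7024550368) (nat_lit 21) (nat_lit 5) (nat_lit 23) (nat_lit 5) (nat_lit 24) (nat_lit 4) (nat_lit 381) (nat_lit 269) (nat_lit 250))) (XT.nd (nat_lit 78) (nat_lit 152) (nat_lit 0) (XT.lf (nat_lit 0) (nat_lit 3137636805) (nat_lit 152) (nat_lit 12590336523) (nat_lit 152) (nat_lit 423616864) (nat_lit 19) (nat_lit 4) (nat_lit 21) (nat_lit 5) (nat_lit 21) (nat_lit 4) (nat_lit 382) (nat_lit 269) (nat_lit 249)) (XT.nd (nat_lit 78) (nat_lit 0) (nat_lit 0) (XT.lf (nat_lit 0) (nat_lit 44199672) (nat_lit 76) (nat_lit 6218436102) (nat_lit 152) (nat_lit 10222556295) (nat_lit 17) (nat_lit 5) (nat_lit 18) (nat_lit 5) (nat_lit 19) (nat_lit 4) (nat_lit 383) (nat_lit 269) (nat_lit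 248)) (XT.lf (nat_lit 0) (nat_lit 13118834579) (nat_lit 152) (nat_lit 3369165337) (nat_lit 0) (nat_lit 341260561) (nat_lit 17) (nat_lit 5) (nat_lit 19) (nat_lit 4) (nat_lit 17) (nat_lit 4) (nat_lit 384) (nat_lit 269) (nat_lit 247))))) (XT.nd (nat_lit 156) (nat_lit 228) (nat_lit 0) (XT.nd (nat_lit 78) (nat_lit 76) (nat_lit 0) (XT.lf (nat_lit 0) (nat_lit 2951545917) (nat_lit 228) (nat_lit 7221696177) (nat_lit 76) (nat_lit 7010159923) (nat_lit 14) (nat_lit 5) (nat_lit 17) (nat_lit 5) (nat_lit 15) (nat_lit 4) (nat_lit 385) (nat_lit 269) (nat_lit 246)) (XT.lf (nat_lit 0) (nat_lit 6044382786) (nat_lit 76) (nat_lit 3669782686) (nat_lit 152) (nat_lit 7834503324) (nat_lit 13) (nat_lit 5) (nat_lit 14) (nat_lit 5) (nat_lit 15) (nat_lit 4) (nat_lit 386) (nat_lit 269) (nat_lit 245))) (XT.nd (nat_lit 78) (nat_lit 76) (nat_lit 0) (XT.lf (nat_lit 0) (nat_lit 1686301629) (nat_lit 152) (nat_lit 14963308080) (nat_lit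 152) (nat_lit 1275899980) (nat_lit 11) (nat_lit 4) (nat_lit 13) (nat_lit 5) (nat_lit 13) (nat_lit 4) (nat_lit 387) (nat_lit 269) (nat_lit 244)) (XT.nd (nat_lit 44694) (nat_lit 0) (nat_lit 5928) (XT.lf (nat_lit 0) (nat_lit 5401883586) (nat_lit 228) (nat_lit 3140085259) (nat_lit 76) (nat_lit 9771104024) (nat_lit 10) (nat_lit 5) (nat_lit 13) (nat_lit 5) (nat_lit 11) (nat_lit 4) (nat_lit 388) (nat_lit 269) (nat_lit 243)) (XT.lf (nat_lit 0) (nat_lit 3629284040) (nat_lit 304) (nat_lit 904344241) (nat_lit 304) (nat_lit 904344241) (nat_lit 88) (nat_lit 4) (nat_lit 92) (nat_lit 5) (nat_lit 92) (nat_lit 4) (nat_lit 360) (nat_lit 270) (nat_lit 270))))))))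
noncomputable def xc5 : XT := (XT.nd (nat_lit 1482) (nat_lit 1216) (nat_lit 0) (XT.nd (nat_lit 702) (nat_lit 1900) (nat_lit 0) (XT.nd (nat_lit 312) (nat_lit 1292) (nat_lit 0) (XT.nd (nat_lit 156) (nat_lit 836) (nat_lit 0) (XT.nd (nat_lit 78) (nat_lit 380) (nat_lit 0) (XT.lf (nat_lit 0) (nat_lit 4785733697) (nat_lit 304) (nat_lit 2472858271) (nat_lit 0) (nat_lit 3788846556) (nat_lit 84) (nat_lit 5) (nat_lit 88) (nat_lit 4) (nat_lit 84) (nat_lit 4) (nat_lit 361) (nat_lit 270) (nat_lit 269)) (XT.lf (nat_lit 0) (nat_lit 277032176) (nat_lit 380) (nat_lit 1405133737) (nat_lit 76) (nat_lit 9542631452) (nat_lit 79) (nat_lit 5) (nat_lit 84) (nat_lit 5) (nat_lit 80) (nat_lit 4) (nat_lit 362) (nat_lit 270) (nat_lit 268))) (XT.nd (nat_lit 78) (nat_lit 608) (nat_lit 0) (XT.lf (nat_lit 0) (nat_lit 6895306903) (nat_lit 304) (nat_lit 464154754) (nat_lit 0) (nat_lit 4047855457) (nat_lit 76) (nat_lit 5) (nat_lit 80)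 (nat_lit 4) (nat_lit 76) (nat_lit 4) (nat_lit 363) (nat_lit 270) (nat_lit 267)) (XT.lf (nat_lit 0) (nat_lit 389743717) (nat_lit 228) (nat_lit 1655602826) (nat_lit 304) (nat_lit 9550600321) (nat_lit 68) (nat_lit 5) (nat_lit 71) (nat_lit 5) (nat_lit 72) (nat_lit 4) (nat_lit 364) (nat_lit 270) (nat_lit 266)))) (XT.nd (nat_lit 156) (nat_lit 760) (nat_lit 0) (XT.nd (nat_lit 78) (nat_lit 304) (nat_lit 0) (XT.lf (nat_lit 0) (nat_lit 1114510451) (nat_lit 228) (nat_lit 7597747110) (nat_lit 228) (nat_lit 3077932867) (nat_lit 65) (nat_lit 4) (nat_lit 68) (nat_lit 5) (nat_lit 68) (nat_lit 4) (nat_lit 365) (nat_lit 270) (nat_lit 265)) (XT.lf (nat_lit 0) (nat_lit 1717929374) (nat_lit 228) (nat_lit 1779236635) (nat_lit 304) (nat_lit 8493555295) (nat_lit 61) (nat_lit 5) (nat_lit 64) (nat_lit 5) (nat_lit 65) (nat_lit 4) (nat_lit 366) (nat_lit 270) (nat_lit 264))) (XT.nd (nat_lit 78) (nat_lit 532) (nat_lit 0) (XT.lf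 (nat_lit 0) (nat_lit 2176205492) (nat_lit 228) (nat_lit 8024730837) (nat_lit 228) (nat_lit 1996491671) (nat_lit 58) (nat_lit 4) (nat_lit 61) (nat_lit 5) (nat_lit 61) (nat_lit 4) (nat_lit 367) (nat_lit 270) (nat_lit 263)) (XT.nd (nat_lit 78) (nat_lit 228) (nat_lit 0) (XT.lf (nat_lit 0) (nat_lit 2484481315) (nat_lit 228) (nat_lit 2107860129) (nat_lit 304) (nat_lit 7818245922) (nat_lit 54) (nat_lit 5) (nat_lit 57) (nat_lit 5) (nat_lit 58) (nat_lit 4) (nat_lit 368) (nat_lit 270) (nat_lit 262)) (XT.lf (nat_lit 0) (nat_lit 2634678847) (nat_lit 228) (nat_lit 8690822514) (nat_lit 228) (nat_lit 1304929604) (nat_lit 51) (nat_lit 4) (nat_lit 54) (nat_lit 5) (nat_lit 54) (nat_lit 4) (nat_lit 369) (nat_lit 270) (nat_lit 261)))))) (XT.nd (nat_lit 390) (nat_lit 760) (nat_lit 0) (XT.nd (nat_lit 156) (nat_lit 684) (nat_lit 0) (XT.nd (nat_lit 78) (nat_lit 228) (nat_lit 0) (XT.lf (nat_lit 0) (nat_lit 2605196295) (nat_lit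 152) (nat_lit 2690316445) (nat_lit 228) (nat_lit 7561431182) (nat_lit 48) (nat_lit 5) (nat_lit 50) (nat_lit 5) (nat_lit 51) (nat_lit 4) (nat_lit 370) (nat_lit 270) (nat_lit 260)) (XT.lf (nat_lit 0) (nat_lit 2401459106) (nat_lit 228) (nat_lit 9647065308) (nat_lit 228) (nat_lit 1042136549) (nat_lit 45) (nat_lit 4) (nat_lit 48) (nat_lit 5) (nat_lit 48) (nat_lit 4) (nat_lit 371) (nat_lit 270) (nat_lit 259))) (XT.nd (nat_lit 78) (nat_lit 456) (nat_lit 0) (XT.lf (nat_lit 0) (nat_lit 1987014460) (nat_lit 152) (nat_lit 3579433867) (nat_lit 228) (nat_lit 7764867964) (nat_lit 42) (nat_lit 5) (nat_lit 44) (nat_lit 5) (nat_lit 45) (nat_lit 4) (nat_lit 372) (nat_lit 270) (nat_lit 258)) (XT.nd (nat_lit 78) (nat_lit 228) (nat_lit 0) (XT.lf (nat_lit 0) (nat_lit 1378720366) (nat_lit 228) (nat_lit 10948777238) (nat_lit 228) (nat_lit 1252213463) (nat_lit 39) (nat_lit 4) (nat_lit 42) (nat_lit 5) (nat_lit 42) (nat_lit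 4) (nat_lit 373) (nat_lit 270) (nat_lit 257)) (XT.lf (nat_lit 0) (nat_lit 527005787) (nat_lit 152) (nat_lit 4832574720) (nat_lit 228) (nat_lit 8475786108) (nat_lit 36) (nat_lit 5) (nat_lit 38) (nat_lit 5) (nat_lit 39) (nat_lit 4) (nat_lit 374) (nat_lit 270) (nat_lit 256))))) (XT.nd (nat_lit 156) (nat_lit 532) (nat_lit 0) (XT.nd (nat_lit 78) (nat_lit 228) (nat_lit 0) (XT.lf (nat_lit 0) (nat_lit 12117860691) (nat_lit 228) (nat_lit 534675096) (nat_lit 0) (nat_lit 1446710577) (nat_lit 36) (nat_lit 5) (nat_lit 39) (nat_lit 4) (nat_lit 36) (nat_lit 4) (nat_lit 375) (nat_lit 270) (nat_lit 255)) (XT.lf (nat_lit 0) (nat_lit 4635750592) (nat_lit 228) (nat_lit 1863973965) (nat_lit 76) (nat_lit 7870935527) (nat_lit 33) (nat_lit 5) (nat_lit 36) (nat_lit 5) (nat_lit 34) (nat_lit 4) (nat_lit 376) (nat_lit 270) (nat_lit 254))) (XT.nd (nat_lit 78) (nat_lit 380) (nat_lit 0) (XT.lf (nat_lit 0) (nat_lit 11215601633)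 (nat_lit 152) (nat_lit 162916871) (nat_lit 228) (nat_lit 3272376271) (nat_lit 31) (nat_lit 5) (nat_lit 33) (nat_lit 5) (nat_lit 34) (nat_lit 4) (nat_lit 377) (nat_lit 270) (nat_lit 253)) (XT.nd (nat_lit 78) (nat_lit 152) (nat_lit 0) (XT.lf (nat_lit 0) (nat_lit 3335289606) (nat_lit 228) (nat_lit 5315724227) (nat_lit 76) (nat_lit 6288190676) (nat_lit 28) (nat_lit 5) (nat_lit 31) (nat_lit 5) (nat_lit 29) (nat_lit 4) (nat_lit 378) (nat_lit 270) (nat_lit 252)) (XT.lf (nat_lit 0) (nat_lit 7752701939) (nat_lit 152) (nat_lit 2299518965) (nat_lit 228) (nat_lit 5184419763) (nat_lit 26) (nat_lit 5) (nat_lit 28) (nat_lit 5) (nat_lit 29) (nat_lit 4) (nat_lit 379) (nat_lit 270) (nat_lit 251))))))) (XT.nd (nat_lit 45240) (nat_lit 0) (nat_lit 3344) (XT.nd (nat_lit 390) (nat_lit 532) (nat_lit 0) (XT.nd (nat_lit 156) (nat_lit 304) (nat_lit 0) (XT.nd (nat_lit 78) (nat_lit 152) (nat_lit 0) (XT.lf (nat_lit 0) (nat_lit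 1390760358) (nat_lit 228) (nat_lit 9973019749) (nat_lit 76) (nat_lit 4179416608) (nat_lit 23) (nat_lit 5) (nat_lit 26) (nat_lit 5) (nat_lit 24) (nat_lit 4) (nat_lit 380) (nat_lit 270) (nat_lit 250)) (XT.lf (nat_lit 0) (nat_lit 3042220568) (nat_lit 152) (nat_lit 5020366156) (nat_lit 228) (nat_lit 7796298938) (nat_lit 21) (nat_lit 5) (nat_lit 23) (nat_lit 5) (nat_lit 24) (nat_lit 4) (nat_lit 381) (nat_lit 270) (nat_lit 249))) (XT.nd (nat_lit 78) (nat_lit 152) (nat_lit 0) (XT.lf (nat_lit 0) (nat_lit 187851366) (nat_lit 152) (nat_lit 14710527282) (nat_lit 152) (nat_lit 1286408019) (nat_lit 19) (nat_lit 4) (nat_lit 21) (nat_lit 5) (nat_lit 21) (nat_lit 4) (nat_lit 382) (nat_lit 270) (nat_lit 248)) (XT.nd (nat_lit 78) (nat_lit 76) (nat_lit 0) (XT.lf (nat_lit 0) (nat_lit 5354721464) (nat_lit 228) (nat_lit 3034382809) (nat_lit 76) (nat_lit 8130533336) (nat_lit 18) (nat_lit 5) (nat_lit 21) (nat_lit 5) (nat_lit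 19) (nat_lit 4) (nat_lit 383) (nat_lit 270) (nat_lit 247)) (XT.lf (nat_lit 0) (nat_lit 10244487135) (nat_lit 76) (nat_lit 1889065892) (nat_lit 152) (nat_lit 4731708351) (nat_lit 17) (nat_lit 5) (nat_lit 18) (nat_lit 5) (nat_lit 19) (nat_lit 4) (nat_lit 384) (nat_lit 270) (nat_lit 246))))) (XT.nd (nat_lit 156) (nat_lit 228) (nat_lit 0) (XT.nd (nat_lit 78) (nat_lit 76) (nat_lit 0) (XT.lf (nat_lit 0) (nat_lit 1855024140) (nat_lit 228) (nat_lit 10632842185) (nat_lit 76) (nat_lit 4733449510) (nat_lit 14) (nat_lit 5) (nat_lit 17) (nat_lit 5) (nat_lit 15) (nat_lit 4) (nat_lit 385) (nat_lit 270) (nat_lit 245)) (XT.lf (nat_lit 0) (nat_lit 2490575757) (nat_lit 76) (nat_lit 6050756668) (nat_lit 152) (nat_lit 9046783820) (nat_lit 13) (nat_lit 5) (nat_lit 14) (nat_lit 5) (nat_lit 15) (nat_lit 4) (nat_lit 386) (nat_lit 270) (nat_lit 244))) (XT.nd (nat_lit 78) (nat_lit 228) (nat_lit 0) (XT.lf (nat_lit 0) (nat_lit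 15397794760) (nat_lit 152) (nat_lit 2008883258) (nat_lit 0) (nat_lit 559865949) (nat_lit 13) (nat_lit 5) (nat_lit 15) (nat_lit 4) (nat_lit 13) (nat_lit 4) (nat_lit 387) (nat_lit 270) (nat_lit 243)) (XT.nd (nat_lit 44538) (nat_lit 0) (nat_lit 6612) (XT.lf (nat_lit 0) (nat_lit 4060685795) (nat_lit 228) (nat_lit 6989209527) (nat_lit 76) (nat_lit 7305692639) (nat_lit 10) (nat_lit 5) (nat_lit 13) (nat_lit 5) (nat_lit 11) (nat_lit 4) (nat_lit 388) (nat_lit 270) (nat_lit 242)) (XT.lf (nat_lit 0) (nat_lit 2241639098) (nat_lit 304) (nat_lit 1515941808) (nat_lit 304) (nat_lit 1515941808) (nat_lit 97) (nat_lit 4) (nat_lit 101) (nat_lit 5) (nat_lit 101) (nat_lit 4) (nat_lit 358) (nat_lit 271) (nat_lit 271)))))) (XT.nd (nat_lit 390) (nat_lit 1672) (nat_lit 0) (XT.nd (nat_lit 156) (nat_lit 912) (nat_lit 0) (XT.nd (nat_lit 78) (nat_lit 304) (nat_lit 0) (XT.lf (nat_lit 0) (nat_lit 3447849668) (nat_lit 380) (nat_lit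 4861215539) (nat_lit 0) (nat_lit 2400520038) (nat_lit 92) (nat_lit 5) (nat_lit 97) (nat_lit 4) (nat_lit 92) (nat_lit 4) (nat_lit 359) (nat_lit 271) (nat_lit 270)) (XT.lf (nat_lit 0) (nat_lit 7140023803) (nat_lit 304) (nat_lit 2900785674) (nat_lit 304) (nat_lit 836631160) (nat_lit 88) (nat_lit 4) (nat_lit 92) (nat_lit 5) (nat_lit 92) (nat_lit 4) (nat_lit 360) (nat_lit 271) (nat_lit 269))) (XT.nd (nat_lit 78) (nat_lit 608) (nat_lit 0) (XT.lf (nat_lit 0) (nat_lit 5663981265) (nat_lit 304) (nat_lit 2714018165) (nat_lit 0) (nat_lit 2672448776) (nat_lit 84) (nat_lit 5) (nat_lit 88) (nat_lit 4) (nat_lit 84) (nat_lit 4) (nat_lit 361) (nat_lit 271) (nat_lit 268)) (XT.nd (nat_lit 78) (nat_lit 228) (nat_lit 0) (XT.lf (nat_lit 0) (nat_lit 1066897324) (nat_lit 380) (nat_lit 1776061632) (nat_lit 76) (nat_lit 8386230488) (nat_lit 79) (nat_lit 5) (nat_lit 84) (nat_lit 5) (nat_lit 80) (nat_lit 4) (nat_lit 362) (nat_lit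 271) (nat_lit 267)) (XT.lf (nat_lit 0) (nat_lit 7603943044) (nat_lit 304) (nat_lit 953982173) (nat_lit 0) (nat_lit 2855426200) (nat_lit 76) (nat_lit 5) (nat_lit 80) (nat_lit 4) (nat_lit 76) (nat_lit 4) (nat_lit 363) (nat_lit 271) (nat_lit 266))))) (XT.nd (nat_lit 156) (nat_lit 836) (nat_lit 0) (XT.nd (nat_lit 78) (nat_lit 456) (nat_lit 0) (XT.lf (nat_lit 0) (nat_lit 2662570486) (nat_lit 380) (nat_lit 238478689) (nat_lit 76) (nat_lit 8702380814) (nat_lit 71) (nat_lit 5) (nat_lit 76) (nat_lit 5) (nat_lit 72) (nat_lit 4) (nat_lit 364) (nat_lit 271) (nat_lit 265)) (XT.lf (nat_lit 0) (nat_lit 358429600) (nat_lit 228) (nat_lit 8887103646) (nat_lit 228) (nat_lit 2553835578) (nat_lit 65) (nat_lit 4) (nat_lit 68) (nat_lit 5) (nat_lit 68) (nat_lit 4) (nat_lit 365) (nat_lit 271) (nat_lit 264))) (XT.nd (nat_lit 78) (nat_lit 532) (nat_lit 0) (XT.lf (nat_lit 0) (nat_lit 823121476) (nat_lit 228) (nat_lit 3116902052)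 (nat_lit 304) (nat_lit 8061310960) (nat_lit 61) (nat_lit 5) (nat_lit 64) (nat_lit 5) (nat_lit 65) (nat_lit 4) (nat_lit 366) (nat_lit 271) (nat_lit 263)) (XT.nd (nat_lit 78) (nat_lit 304) (nat_lit 0) (XT.lf (nat_lit 0) (nat_lit 1152421185) (nat_lit 228) (nat_lit 9408456243) (nat_lit 228) (nat_lit 1648837152) (nat_lit 58) (nat_lit 4) (nat_lit 61) (nat_lit 5) (nat_lit 61) (nat_lit 4) (nat_lit 367) (nat_lit 271) (nat_lit 262)) (XT.lf (nat_lit 0) (nat_lit 1318177164) (nat_lit 228) (nat_lit 3542891459) (nat_lit 304) (nat_lit 7563261876) (nat_lit 54) (nat_lit 5) (nat_lit 57) (nat_lit 5) (nat_lit 58) (nat_lit 4) (nat_lit 368) (nat_lit 271) (nat_lit 261))))))))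
noncomputable def xc6 : XT := (XT.nd (nat_lit 1482) (nat_lit 228) (nat_lit 0) (XT.nd (nat_lit 702) (nat_lit 1368) (nat_lit 0) (XT.nd (nat_lit 312) (nat_lit 836) (nat_lit 0) (XT.nd (nat_lit 156) (nat_lit 456) (nat_lit 0) (XT.nd (nat_lit 78) (nat_lit 228) (nat_lit 0) (XT.lf (nat_lit 0) (nat_lit 1335020495) (nat_lit 228) (nat_lit 10175589031) (nat_lit 228) (nat_lit 1135250877) (nat_lit 51) (nat_lit 4) (nat_lit 54) (nat_lit 5) (nat_lit 54) (nat_lit 4) (nat_lit 369) (nat_lit 271) (nat_lit 260)) (XT.lf (nat_lit 0) (nat_lit 1159094717) (nat_lit 152) (nat_lit 4229380909) (nat_lit 228) (nat_lit 7485378765) (nat_lit 48) (nat_lit 5) (nat_lit 50) (nat_lit 5) (nat_lit 51) (nat_lit 4) (nat_lit 370) (nat_lit 271) (nat_lit 259))) (XT.nd (nat_lit 78) (nat_lit 228) (nat_lit 0) (XT.lf (nat_lit 0) (nat_lit 817522335) (nat_lit 228) (nat_lit 11239480774) (nat_lit 228) (nat_lit 1052270872) (nat_lit 45) (nat_lit 4) (nat_lit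 48) (nat_lit 5) (nat_lit 48) (nat_lit 4) (nat_lit 371) (nat_lit 271) (nat_lit 258)) (XT.lf (nat_lit 0) (nat_lit 252570397) (nat_lit 152) (nat_lit 5229144546) (nat_lit 228) (nat_lit 7869722572) (nat_lit 42) (nat_lit 5) (nat_lit 44) (nat_lit 5) (nat_lit 45) (nat_lit 4) (nat_lit 372) (nat_lit 271) (nat_lit 257)))) (XT.nd (nat_lit 156) (nat_lit 532) (nat_lit 0) (XT.nd (nat_lit 78) (nat_lit 304) (nat_lit 0) (XT.lf (nat_lit 0) (nat_lit 12160488957) (nat_lit 228) (nat_lit 491622082) (nat_lit 0) (nat_lit 949378647) (nat_lit 42) (nat_lit 5) (nat_lit 45) (nat_lit 4) (nat_lit 42) (nat_lit 4) (nat_lit 373) (nat_lit 271) (nat_lit 256)) (XT.lf (nat_lit 0) (nat_lit 5104691784) (nat_lit 304) (nat_lit 1484859181) (nat_lit 76) (nat_lit 7269001652) (nat_lit 38) (nat_lit 5) (nat_lit 42) (nat_lit 5) (nat_lit 39) (nat_lit 4) (nat_lit 374) (nat_lit 271) (nat_lit 255))) (XT.nd (nat_lit 78) (nat_lit 380) (nat_lit 0) (XT.lf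 (nat_lit 0) (nat_lit 11436944055) (nat_lit 152) (nat_lit 345957673) (nat_lit 228) (nat_lit 2341143032) (nat_lit 36) (nat_lit 5) (nat_lit 38) (nat_lit 5) (nat_lit 39) (nat_lit 4) (nat_lit 375) (nat_lit 271) (nat_lit 254)) (XT.nd (nat_lit 78) (nat_lit 152) (nat_lit 0) (XT.lf (nat_lit 0) (nat_lit 4203825204) (nat_lit 228) (nat_lit 4171164587) (nat_lit 76) (nat_lit 6022063591) (nat_lit 33) (nat_lit 5) (nat_lit 36) (nat_lit 5) (nat_lit 34) (nat_lit 4) (nat_lit 376) (nat_lit 271) (nat_lit 253)) (XT.lf (nat_lit 0) (nat_lit 8773710855) (nat_lit 152) (nat_lit 2098401039) (nat_lit 228) (nat_lit 3806675956) (nat_lit 31) (nat_lit 5) (nat_lit 33) (nat_lit 5) (nat_lit 34) (nat_lit 4) (nat_lit 377) (nat_lit 271) (nat_lit 252)))))) (XT.nd (nat_lit 390) (nat_lit 608) (nat_lit 0) (XT.nd (nat_lit 156) (nat_lit 380) (nat_lit 0) (XT.nd (nat_lit 78) (nat_lit 152) (nat_lit 0) (XT.lf (nat_lit 0) (nat_lit 2720150000) (nat_lit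 228) (nat_lit 7934439870) (nat_lit 76) (nat_lit 4314343709) (nat_lit 28) (nat_lit 5) (nat_lit 31) (nat_lit 5) (nat_lit 29) (nat_lit 4) (nat_lit 378) (nat_lit 271) (nat_lit 251)) (XT.lf (nat_lit 0) (nat_lit 4996838088) (nat_lit 152) (nat_lit 4365141841) (nat_lit 228) (nat_lit 5905901218) (nat_lit 26) (nat_lit 5) (nat_lit 28) (nat_lit 5) (nat_lit 29) (nat_lit 4) (nat_lit 379) (nat_lit 271) (nat_lit 250))) (XT.nd (nat_lit 78) (nat_lit 152) (nat_lit 0) (XT.lf (nat_lit 0) (nat_lit 589357877) (nat_lit 228) (nat_lit 12912876784) (nat_lit 76) (nat_lit 2074092821) (nat_lit 23) (nat_lit 5) (nat_lit 26) (nat_lit 5) (nat_lit 24) (nat_lit 4) (nat_lit 380) (nat_lit 271) (nat_lit 249)) (XT.nd (nat_lit 78) (nat_lit 152) (nat_lit 0) (XT.lf (nat_lit 0) (nat_lit 7185592959) (nat_lit 228) (nat_lit 36878950) (nat_lit 76) (nat_lit 8671065018) (nat_lit 23) (nat_lit 5) (nat_lit 26) (nat_lit 5) (nat_lit 24) (nat_lit 4) (nat_lit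 381) (nat_lit 271) (nat_lit 248)) (XT.lf (nat_lit 0) (nat_lit 13202762485) (nat_lit 152) (nat_lit 752621742) (nat_lit 228) (nat_lit 2265382139) (nat_lit 21) (nat_lit 5) (nat_lit 23) (nat_lit 5) (nat_lit 24) (nat_lit 4) (nat_lit 382) (nat_lit 271) (nat_lit 247))))) (XT.nd (nat_lit 156) (nat_lit 304) (nat_lit 0) (XT.nd (nat_lit 78) (nat_lit 76) (nat_lit 0) (XT.lf (nat_lit 0) (nat_lit 4309197114) (nat_lit 228) (nat_lit 6403040321) (nat_lit 76) (nat_lit 5845102804) (nat_lit 18) (nat_lit 5) (nat_lit 21) (nat_lit 5) (nat_lit 19) (nat_lit 4) (nat_lit 383) (nat_lit 271) (nat_lit 246)) (XT.lf (nat_lit 0) (nat_lit 6734954937) (nat_lit 76) (nat_lit 4277359031) (nat_lit 152) (nat_lit 5892172113) (nat_lit 17) (nat_lit 5) (nat_lit 18) (nat_lit 5) (nat_lit 19) (nat_lit 4) (nat_lit 384) (nat_lit 271) (nat_lit 245))) (XT.nd (nat_lit 78) (nat_lit 76) (nat_lit 0) (XT.lf (nat_lit 0) (nat_lit 617534387) (nat_lit 228)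 (nat_lit 14341308545) (nat_lit 76) (nat_lit 2303700615) (nat_lit 14) (nat_lit 5) (nat_lit 17) (nat_lit 5) (nat_lit 15) (nat_lit 4) (nat_lit 385) (nat_lit 271) (nat_lit 244)) (XT.nd (nat_lit 78) (nat_lit 76) (nat_lit 0) (XT.lf (nat_lit 0) (nat_lit 7235985215) (nat_lit 228) (nat_lit 1343809517) (nat_lit 76) (nat_lit 9050913564) (nat_lit 14) (nat_lit 5) (nat_lit 17) (nat_lit 5) (nat_lit 15) (nat_lit 4) (nat_lit 386) (nat_lit 271) (nat_lit 243)) (XT.lf (nat_lit 0) (nat_lit 12017432287) (nat_lit 76) (nat_lit 2011713893) (nat_lit 152) (nat_lit 3981262848) (nat_lit 13) (nat_lit 5) (nat_lit 14) (nat_lit 5) (nat_lit 15) (nat_lit 4) (nat_lit 387) (nat_lit 271) (nat_lit 242))))))) (XT.nd (nat_lit 45084) (nat_lit 0) (nat_lit 2128) (XT.nd (nat_lit 44694) (nat_lit 0) (nat_lit 4636) (XT.nd (nat_lit 44460) (nat_lit 0) (nat_lit 6232) (XT.nd (nat_lit 44382) (nat_lit 0) (nat_lit 7296) (XT.lf (nat_lit 0) (nat_lit 2576765350)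 (nat_lit 228) (nat_lit 11139907941) (nat_lit 76) (nat_lit 4684768438) (nat_lit 10) (nat_lit 5) (nat_lit 13) (nat_lit 5) (nat_lit 11) (nat_lit 4) (nat_lit 388) (nat_lit 271) (nat_lit 241)) (XT.lf (nat_lit 0) (nat_lit 830312230) (nat_lit 380) (nat_lit 2143763266) (nat_lit 380) (nat_lit 2143763266) (nat_lit 106) (nat_lit 4) (nat_lit 111) (nat_lit 5) (nat_lit 111) (nat_lit 4) (nat_lit 356) (nat_lit 272) (nat_lit 272))) (XT.nd (nat_lit 78) (nat_lit 684) (nat_lit 0) (XT.lf (nat_lit 0) (nat_lit 2076864241) (nat_lit 380) (nat_lit 7336334645) (nat_lit 0) (nat_lit 976539731) (nat_lit 101) (nat_lit 5) (nat_lit 106) (nat_lit 4) (nat_lit 101) (nat_lit 4) (nat_lit 357) (nat_lit 272) (nat_lit 271)) (XT.nd (nat_lit 78) (nat_lit 380) (nat_lit 0) (XT.lf (nat_lit 0) (nat_lit 4366579901) (nat_lit 304) (nat_lit 4175279933) (nat_lit 304) (nat_lit 2006679202) (nat_lit 97) (nat_lit 4) (nat_lit 101) (nat_lit 5) (nat_lit 101)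 (nat_lit 4) (nat_lit 358) (nat_lit 272) (nat_lit 270)) (XT.lf (nat_lit 0) (nat_lit 4378394881) (nat_lit 380) (nat_lit 5098704321) (nat_lit 0) (nat_lit 1235490849) (nat_lit 92) (nat_lit 5) (nat_lit 97) (nat_lit 4) (nat_lit 92) (nat_lit 4) (nat_lit 359) (nat_lit 272) (nat_lit 269))))) (XT.nd (nat_lit 156) (nat_lit 988) (nat_lit 0) (XT.nd (nat_lit 78) (nat_lit 228) (nat_lit 0) (XT.lf (nat_lit 0) (nat_lit 16022726) (nat_lit 380) (nat_lit 4097746749) (nat_lit 76) (nat_lit 6768157141) (nat_lit 87) (nat_lit 5) (nat_lit 92) (nat_lit 5) (nat_lit 88) (nat_lit 4) (nat_lit 360) (nat_lit 272) (nat_lit 268)) (XT.lf (nat_lit 0) (nat_lit 6424356660) (nat_lit 304) (nat_lit 3196548677) (nat_lit 0) (nat_lit 1435564864) (nat_lit 84) (nat_lit 5) (nat_lit 88) (nat_lit 4) (nat_lit 84) (nat_lit 4) (nat_lit 361) (nat_lit 272) (nat_lit 267))) (XT.nd (nat_lit 78) (nat_lit 608) (nat_lit 0) (XT.lf (nat_lit 0) (nat_lit 1737970660)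 (nat_lit 380) (nat_lit 2390384014) (nat_lit 76) (nat_lit 7108244186) (nat_lit 79) (nat_lit 5) (nat_lit 84) (nat_lit 5) (nat_lit 80) (nat_lit 4) (nat_lit 362) (nat_lit 272) (nat_lit 266)) (XT.nd (nat_lit 78) (nat_lit 380) (nat_lit 0) (XT.lf (nat_lit 0) (nat_lit 8193441318) (nat_lit 304) (nat_lit 1689258262) (nat_lit 0) (nat_lit 1539709885) (nat_lit 76) (nat_lit 5) (nat_lit 80) (nat_lit 4) (nat_lit 76) (nat_lit 4) (nat_lit 363) (nat_lit 272) (nat_lit 265)) (XT.lf (nat_lit 0) (nat_lit 3162190135) (nat_lit 380) (nat_lit 1109169715) (nat_lit 76) (nat_lit 7342533279) (nat_lit 71) (nat_lit 5) (nat_lit 76) (nat_lit 5) (nat_lit 72) (nat_lit 4) (nat_lit 364) (nat_lit 272) (nat_lit 264)))))) (XT.nd (nat_lit 390) (nat_lit 1216) (nat_lit 0) (XT.nd (nat_lit 156) (nat_lit 760) (nat_lit 0) (XT.nd (nat_lit 78) (nat_lit 304) (nat_lit 0) (XT.lf (nat_lit 0) (nat_lit 9660809509) (nat_lit 304) (nat_lit 642171462) (nat_lit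 0) (nat_lit 1508553692) (nat_lit 68) (nat_lit 5) (nat_lit 72) (nat_lit 4) (nat_lit 68) (nat_lit 4) (nat_lit 365) (nat_lit 272) (nat_lit 263)) (XT.lf (nat_lit 0) (nat_lit 4261690381) (nat_lit 304) (nat_lit 322726668) (nat_lit 76) (nat_lit 7430569134) (nat_lit 64) (nat_lit 5) (nat_lit 68) (nat_lit 5) (nat_lit 65) (nat_lit 4) (nat_lit 366) (nat_lit 272) (nat_lit 262))) (XT.nd (nat_lit 78) (nat_lit 532) (nat_lit 0) (XT.lf (nat_lit 0) (nat_lit 10797780807) (nat_lit 304) (nat_lit 127293822) (nat_lit 0) (nat_lit 1300001542) (nat_lit 61) (nat_lit 5) (nat_lit 65) (nat_lit 4) (nat_lit 61) (nat_lit 4) (nat_lit 367) (nat_lit 272) (nat_lit 261)) (XT.nd (nat_lit 78) (nat_lit 228) (nat_lit 0) (XT.lf (nat_lit 0) (nat_lit 5005453493) (nat_lit 304) (nat_lit 106726669) (nat_lit 76) (nat_lit 7328982114) (nat_lit 57) (nat_lit 5) (nat_lit 61) (nat_lit 5) (nat_lit 58) (nat_lit 4) (nat_lit 368) (nat_lit 272) (nat_lit 260))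 (XT.lf (nat_lit 0) (nat_lit 11571485657) (nat_lit 304) (nat_lit 224087283) (nat_lit 0) (nat_lit 868802933) (nat_lit 54) (nat_lit 5) (nat_lit 58) (nat_lit 4) (nat_lit 54) (nat_lit 4) (nat_lit 369) (nat_lit 272) (nat_lit 259))))) (XT.nd (nat_lit 156) (nat_lit 760) (nat_lit 0) (XT.nd (nat_lit 78) (nat_lit 152) (nat_lit 0) (XT.lf (nat_lit 0) (nat_lit 5358065819) (nat_lit 304) (nat_lit 544717819) (nat_lit 76) (nat_lit 6991037886) (nat_lit 50) (nat_lit 5) (nat_lit 54) (nat_lit 5) (nat_lit 51) (nat_lit 4) (nat_lit 370) (nat_lit 272) (nat_lit 258)) (XT.lf (nat_lit 0) (nat_lit 11944475693) (nat_lit 228) (nat_lit 1020337067) (nat_lit 0) (nat_lit 166083202) (nat_lit 48) (nat_lit 5) (nat_lit 51) (nat_lit 4) (nat_lit 48) (nat_lit 4) (nat_lit 371) (nat_lit 272) (nat_lit 257))) (XT.nd (nat_lit 78) (nat_lit 456) (nat_lit 0) (XT.lf (nat_lit 0) (nat_lit 5279305737) (nat_lit 304) (nat_lit 1729033626) (nat_lit 76) (nat_lit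 6366149827) (nat_lit 44) (nat_lit 5) (nat_lit 48) (nat_lit 5) (nat_lit 45) (nat_lit 4) (nat_lit 372) (nat_lit 272) (nat_lit 256)) (XT.nd (nat_lit 78) (nat_lit 304) (nat_lit 0) (XT.lf (nat_lit 0) (nat_lit 11007345122) (nat_lit 152) (nat_lit 872608908) (nat_lit 228) (nat_lit 1746161391) (nat_lit 42) (nat_lit 5) (nat_lit 44) (nat_lit 5) (nat_lit 45) (nat_lit 4) (nat_lit 373) (nat_lit 272) (nat_lit 255)) (XT.lf (nat_lit 0) (nat_lit 4723683651) (nat_lit 304) (nat_lit 3761792833) (nat_lit 76) (nat_lit 5399349476) (nat_lit 38) (nat_lit 5) (nat_lit 42) (nat_lit 5) (nat_lit 39) (nat_lit 4) (nat_lit 374) (nat_lit 272) (nat_lit 254))))))))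
noncomputable def xc7 : XT := (XT.nd (nat_lit 45786) (nat_lit 0) (nat_lit 988) (XT.nd (nat_lit 780) (nat_lit 304) (nat_lit 0) (XT.nd (nat_lit 390) (nat_lit 684) (nat_lit 0) (XT.nd (nat_lit 156) (nat_lit 532) (nat_lit 0) (XT.nd (nat_lit 78) (nat_lit 228) (nat_lit 0) (XT.lf (nat_lit 0) (nat_lit 9027093448) (nat_lit 152) (nat_lit 2300807122) (nat_lit 228) (nat_lit 2823908063) (nat_lit 36) (nat_lit 5) (nat_lit 38) (nat_lit 5) (nat_lit 39) (nat_lit 4) (nat_lit 375) (nat_lit 272) (nat_lit 253)) (XT.lf (nat_lit 0) (nat_lit 3639929555) (nat_lit 228) (nat_lit 6755999797) (nat_lit 76) (nat_lit 4030709989) (nat_lit 33) (nat_lit 5) (nat_lit 36) (nat_lit 5) (nat_lit 34) (nat_lit 4) (nat_lit 376) (nat_lit 272) (nat_lit 252))) (XT.nd (nat_lit 78) (nat_lit 380) (nat_lit 0) (XT.lf (nat_lit 0) (nat_lit 6053515993) (nat_lit 152) (nat_lit 4180119674) (nat_lit 228) (nat_lit 4476239614) (nat_lit 31) (nat_lit 5) (nat_lit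 33) (nat_lit 5) (nat_lit 34) (nat_lit 4) (nat_lit 377) (nat_lit 272) (nat_lit 251)) (XT.nd (nat_lit 78) (nat_lit 152) (nat_lit 0) (XT.lf (nat_lit 0) (nat_lit 1970423007) (nat_lit 228) (nat_lit 10836756234) (nat_lit 76) (nat_lit 2194716993) (nat_lit 28) (nat_lit 5) (nat_lit 31) (nat_lit 5) (nat_lit 29) (nat_lit 4) (nat_lit 378) (nat_lit 272) (nat_lit 250)) (XT.lf (nat_lit 0) (nat_lit 1956585588) (nat_lit 152) (nat_lit 6580385807) (nat_lit 228) (nat_lit 6765387149) (nat_lit 26) (nat_lit 5) (nat_lit 28) (nat_lit 5) (nat_lit 29) (nat_lit 4) (nat_lit 379) (nat_lit 272) (nat_lit 249))))) (XT.nd (nat_lit 156) (nat_lit 456) (nat_lit 0) (XT.nd (nat_lit 78) (nat_lit 228) (nat_lit 0) (XT.lf (nat_lit 0) (nat_lit 15086225290) (nat_lit 152) (nat_lit 176986043) (nat_lit 228) (nat_lit 349387445) (nat_lit 26) (nat_lit 5) (nat_lit 28) (nat_lit 5) (nat_lit 29) (nat_lit 4) (nat_lit 380) (nat_lit 272) (nat_lit 248)) (XT.lf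 (nat_lit 0) (nat_lit 6192582100) (nat_lit 228) (nat_lit 3363048145) (nat_lit 76) (nat_lit 6375408724) (nat_lit 23) (nat_lit 5) (nat_lit 26) (nat_lit 5) (nat_lit 24) (nat_lit 4) (nat_lit 381) (nat_lit 272) (nat_lit 247))) (XT.nd (nat_lit 78) (nat_lit 304) (nat_lit 0) (XT.lf (nat_lit 0) (nat_lit 9737505311) (nat_lit 152) (nat_lit 3149735533) (nat_lit 228) (nat_lit 3372538386) (nat_lit 21) (nat_lit 5) (nat_lit 23) (nat_lit 5) (nat_lit 24) (nat_lit 4) (nat_lit 382) (nat_lit 272) (nat_lit 246)) (XT.nd (nat_lit 78) (nat_lit 76) (nat_lit 0) (XT.lf (nat_lit 0) (nat_lit 3124862183) (nat_lit 228) (nat_lit 10065296035) (nat_lit 76) (nat_lit 3408180419) (nat_lit 18) (nat_lit 5) (nat_lit 21) (nat_lit 5) (nat_lit 19) (nat_lit 4) (nat_lit 383) (nat_lit 272) (nat_lit 245)) (XT.lf (nat_lit 0) (nat_lit 2930722003) (nat_lit 76) (nat_lit 6821170540) (nat_lit 152) (nat_lit 7195121220) (nat_lit 17) (nat_lit 5) (nat_lit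 18) (nat_lit 5) (nat_lit 19) (nat_lit 4) (nat_lit 384) (nat_lit 272) (nat_lit 244)))))) (XT.nd (nat_lit 44616) (nat_lit 0) (nat_lit 5624) (XT.nd (nat_lit 156) (nat_lit 76) (nat_lit 0) (XT.nd (nat_lit 78) (nat_lit 228) (nat_lit 0) (XT.lf (nat_lit 0) (nat_lit 16270498110) (nat_lit 76) (nat_lit 272970267) (nat_lit 152) (nat_lit 763380964) (nat_lit 17) (nat_lit 5) (nat_lit 18) (nat_lit 5) (nat_lit 19) (nat_lit 4) (nat_lit 385) (nat_lit 272) (nat_lit 243)) (XT.lf (nat_lit 0) (nat_lit 5806264643) (nat_lit 228) (nat_lit 5443375051) (nat_lit 76) (nat_lit 6426656846) (nat_lit 14) (nat_lit 5) (nat_lit 17) (nat_lit 5) (nat_lit 15) (nat_lit 4) (nat_lit 386) (nat_lit 272) (nat_lit 242))) (XT.nd (nat_lit 44304) (nat_lit 0) (nat_lit 7448) (XT.lf (nat_lit 0) (nat_lit 7774316149) (nat_lit 76) (nat_lit 4748840390) (nat_lit 152) (nat_lit 5534372890) (nat_lit 13) (nat_lit 5) (nat_lit 14) (nat_lit 5) (nat_lit 15) (nat_lit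 4) (nat_lit 387) (nat_lit 272) (nat_lit 241)) (XT.nd (nat_lit 78) (nat_lit 760) (nat_lit 0) (XT.lf (nat_lit 0) (nat_lit 2196620736) (nat_lit 456) (nat_lit 577161752) (nat_lit 0) (nat_lit 2196620736) (nat_lit 121) (nat_lit 5) (nat_lit 127) (nat_lit 4) (nat_lit 121) (nat_lit 4) (nat_lit 354) (nat_lit 273) (nat_lit 273)) (XT.lf (nat_lit 0) (nat_lit 228533552) (nat_lit 304) (nat_lit 468325111) (nat_lit 380) (nat_lit 9390056059) (nat_lit 111) (nat_lit 5) (nat_lit 115) (nat_lit 5) (nat_lit 116) (nat_lit 4) (nat_lit 355) (nat_lit 273) (nat_lit 272))))) (XT.nd (nat_lit 156) (nat_lit 1064) (nat_lit 0) (XT.nd (nat_lit 78) (nat_lit 380) (nat_lit 0) (XT.lf (nat_lit 0) (nat_lit 1545787139) (nat_lit 380) (nat_lit 5484857303) (nat_lit 380) (nat_lit 3206525374) (nat_lit 106) (nat_lit 4) (nat_lit 111) (nat_lit 5) (nat_lit 111) (nat_lit 4) (nat_lit 356) (nat_lit 273) (nat_lit 271)) (XT.lf (nat_lit 0) (nat_lit 2821006392)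 (nat_lit 304) (nat_lit 242845126) (nat_lit 380) (nat_lit 7328856819) (nat_lit 101) (nat_lit 5) (nat_lit 105) (nat_lit 5) (nat_lit 106) (nat_lit 4) (nat_lit 357) (nat_lit 273) (nat_lit 270))) (XT.nd (nat_lit 78) (nat_lit 760) (nat_lit 0) (XT.lf (nat_lit 0) (nat_lit 4016383042) (nat_lit 304) (nat_lit 5437867234) (nat_lit 304) (nat_lit 1098770877) (nat_lit 97) (nat_lit 4) (nat_lit 101) (nat_lit 5) (nat_lit 101) (nat_lit 4) (nat_lit 358) (nat_lit 273) (nat_lit 269)) (XT.nd (nat_lit 78) (nat_lit 380) (nat_lit 0) (XT.lf (nat_lit 0) (nat_lit 5144389067) (nat_lit 304) (nat_lit 48897181) (nat_lit 380) (nat_lit 5525309691) (nat_lit 92) (nat_lit 5) (nat_lit 96) (nat_lit 5) (nat_lit 97) (nat_lit 4) (nat_lit 359) (nat_lit 273) (nat_lit 268)) (XT.lf (nat_lit 0) (nat_lit 740812200) (nat_lit 380) (nat_lit 4703238992) (nat_lit 76) (nat_lit 5445264560) (nat_lit 87) (nat_lit 5) (nat_lit 92) (nat_lit 5) (nat_lit 88)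 (nat_lit 4) (nat_lit 360) (nat_lit 273) (nat_lit 267))))))) (XT.nd (nat_lit 780) (nat_lit 1824) (nat_lit 0) (XT.nd (nat_lit 390) (nat_lit 1368) (nat_lit 0) (XT.nd (nat_lit 156) (nat_lit 836) (nat_lit 0) (XT.nd (nat_lit 78) (nat_lit 380) (nat_lit 0) (XT.lf (nat_lit 0) (nat_lit 7067524289) (nat_lit 304) (nat_lit 3920871434) (nat_lit 0) (nat_lit 77114046) (nat_lit 84) (nat_lit 5) (nat_lit 88) (nat_lit 4) (nat_lit 84) (nat_lit 4) (nat_lit 361) (nat_lit 273) (nat_lit 266)) (XT.lf (nat_lit 0) (nat_lit 2290838557) (nat_lit 380) (nat_lit 3248637669) (nat_lit 76) (nat_lit 5707555859) (nat_lit 79) (nat_lit 5) (nat_lit 84) (nat_lit 5) (nat_lit 80) (nat_lit 4) (nat_lit 362) (nat_lit 273) (nat_lit 265))) (XT.nd (nat_lit 78) (nat_lit 608) (nat_lit 0) (XT.lf (nat_lit 0) (nat_lit 8664316818) (nat_lit 304) (nat_lit 2670625493) (nat_lit 0) (nat_lit 99556857) (nat_lit 76) (nat_lit 5) (nat_lit 80) (nat_lit 4) (nat_lit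 76) (nat_lit 4) (nat_lit 363) (nat_lit 273) (nat_lit 264)) (XT.nd (nat_lit 78) (nat_lit 228) (nat_lit 0) (XT.lf (nat_lit 0) (nat_lit 3542111577) (nat_lit 380) (nat_lit 2228201718) (nat_lit 76) (nat_lit 5857082740) (nat_lit 71) (nat_lit 5) (nat_lit 76) (nat_lit 5) (nat_lit 72) (nat_lit 4) (nat_lit 364) (nat_lit 273) (nat_lit 263)) (XT.lf (nat_lit 0) (nat_lit 9937890930) (nat_lit 228) (nat_lit 20438358) (nat_lit 304) (nat_lit 1868371682) (nat_lit 68) (nat_lit 5) (nat_lit 71) (nat_lit 5) (nat_lit 72) (nat_lit 4) (nat_lit 365) (nat_lit 273) (nat_lit 262))))) (XT.nd (nat_lit 156) (nat_lit 836) (nat_lit 0) (XT.nd (nat_lit 78) (nat_lit 228) (nat_lit 0) (XT.lf (nat_lit 0) (nat_lit 4467331119) (nat_lit 304) (nat_lit 1710751646) (nat_lit 76) (nat_lit 5853507882) (nat_lit 64) (nat_lit 5) (nat_lit 68) (nat_lit 5) (nat_lit 65) (nat_lit 4) (nat_lit 366) (nat_lit 273) (nat_lit 261)) (XT.lf (nat_lit 0) (nat_lit 10593941886)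 (nat_lit 228) (nat_lit 328367581) (nat_lit 304) (nat_lit 1321007614) (nat_lit 61) (nat_lit 5) (nat_lit 64) (nat_lit 5) (nat_lit 65) (nat_lit 4) (nat_lit 367) (nat_lit 273) (nat_lit 260))) (XT.nd (nat_lit 78) (nat_lit 532) (nat_lit 0) (XT.lf (nat_lit 0) (nat_lit 5035174232) (nat_lit 304) (nat_lit 1772180171) (nat_lit 76) (nat_lit 5653551959) (nat_lit 57) (nat_lit 5) (nat_lit 61) (nat_lit 5) (nat_lit 58) (nat_lit 4) (nat_lit 368) (nat_lit 273) (nat_lit 259)) (XT.nd (nat_lit 78) (nat_lit 304) (nat_lit 0) (XT.lf (nat_lit 0) (nat_lit 10654043877) (nat_lit 228) (nat_lit 868684147) (nat_lit 304) (nat_lit 1162974627) (nat_lit 54) (nat_lit 5) (nat_lit 57) (nat_lit 5) (nat_lit 58) (nat_lit 4) (nat_lit 369) (nat_lit 273) (nat_lit 258)) (XT.lf (nat_lit 0) (nat_lit 5209925497) (nat_lit 304) (nat_lit 2496279211) (nat_lit 76) (nat_lit 5210544691) (nat_lit 50) (nat_lit 5) (nat_lit 54) (nat_lit 5) (nat_lit 51) (nat_lit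 4) (nat_lit 370) (nat_lit 273) (nat_lit 257)))))) (XT.nd (nat_lit 390) (nat_lit 760) (nat_lit 0) (XT.nd (nat_lit 156) (nat_lit 608) (nat_lit 0) (XT.nd (nat_lit 78) (nat_lit 304) (nat_lit 0) (XT.lf (nat_lit 0) (nat_lit 10031295959) (nat_lit 152) (nat_lit 1690862543) (nat_lit 228) (nat_lit 1433161000) (nat_lit 48) (nat_lit 5) (nat_lit 50) (nat_lit 5) (nat_lit 51) (nat_lit 4) (nat_lit 371) (nat_lit 273) (nat_lit 256)) (XT.lf (nat_lit 0) (nat_lit 4951063827) (nat_lit 304) (nat_lit 3975648749) (nat_lit 76) (nat_lit 4473938484) (nat_lit 44) (nat_lit 5) (nat_lit 48) (nat_lit 5) (nat_lit 45) (nat_lit 4) (nat_lit 372) (nat_lit 273) (nat_lit 255))) (XT.nd (nat_lit 78) (nat_lit 456) (nat_lit 0) (XT.lf (nat_lit 0) (nat_lit 8629600518) (nat_lit 152) (nat_lit 2848588920) (nat_lit 228) (nat_lit 2175569514) (nat_lit 42) (nat_lit 5) (nat_lit 44) (nat_lit 5) (nat_lit 45) (nat_lit 4) (nat_lit 373) (nat_lit 273) (nat_lit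 254)) (XT.nd (nat_lit 78) (nat_lit 152) (nat_lit 0) (XT.lf (nat_lit 0) (nat_lit 4212801520) (nat_lit 304) (nat_lit 6312696497) (nat_lit 76) (nat_lit 3388780020) (nat_lit 38) (nat_lit 5) (nat_lit 42) (nat_lit 5) (nat_lit 39) (nat_lit 4) (nat_lit 374) (nat_lit 273) (nat_lit 253)) (XT.lf (nat_lit 0) (nat_lit 6342621942) (nat_lit 152) (nat_lit 4400319868) (nat_lit 228) (nat_lit 3439810790) (nat_lit 36) (nat_lit 5) (nat_lit 38) (nat_lit 5) (nat_lit 39) (nat_lit 4) (nat_lit 375) (nat_lit 273) (nat_lit 252))))) (XT.nd (nat_lit 156) (nat_lit 380) (nat_lit 0) (XT.nd (nat_lit 78) (nat_lit 152) (nat_lit 0) (XT.lf (nat_lit 0) (nat_lit 2943570921) (nat_lit 228) (nat_lit 9620738191) (nat_lit 76) (nat_lit 1895134704) (nat_lit 33) (nat_lit 5) (nat_lit 36) (nat_lit 5) (nat_lit 34) (nat_lit 4) (nat_lit 376) (nat_lit 273) (nat_lit 251)) (XT.lf (nat_lit 0) (nat_lit 3052640178) (nat_lit 152) (nat_lit 6409891752) (nat_lit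 228) (nat_lit 5281652299) (nat_lit 31) (nat_lit 5) (nat_lit 33) (nat_lit 5) (nat_lit 34) (nat_lit 4) (nat_lit 377) (nat_lit 273) (nat_lit 250))) (XT.nd (nat_lit 78) (nat_lit 152) (nat_lit 0) (XT.lf (nat_lit 0) (nat_lit 1012425161) (nat_lit 152) (nat_lit 73505613) (nat_lit 228) (nat_lit 13952180959) (nat_lit 28) (nat_lit 5) (nat_lit 30) (nat_lit 5) (nat_lit 31) (nat_lit 5) (nat_lit 378) (nat_lit 273) (nat_lit 249)) (XT.nd (nat_lit 78) (nat_lit 152) (nat_lit 0) (XT.lf (nat_lit 0) (nat_lit 7585373993) (nat_lit 228) (nat_lit 1352734957) (nat_lit 76) (nat_lit 6401816042) (nat_lit 28) (nat_lit 5) (nat_lit 31) (nat_lit 5) (nat_lit 29) (nat_lit 4) (nat_lit 379) (nat_lit 273) (nat_lit 248)) (XT.lf (nat_lit 0) (nat_lit 11665265737) (nat_lit 152) (nat_lit 2584486651) (nat_lit 228) (nat_lit 1401658657) (nat_lit 26) (nat_lit 5) (nat_lit 28) (nat_lit 5) (nat_lit 29) (nat_lit 4) (nat_lit 380) (nat_lit 273) (nat_lit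 247))))))))
noncomputable def xc8 : XT := (XT.nd (nat_lit 45552) (nat_lit 0) (nat_lit 532) (XT.nd (nat_lit 44772) (nat_lit 0) (nat_lit 4788) (XT.nd (nat_lit 312) (nat_lit 380) (nat_lit 0) (XT.nd (nat_lit 156) (nat_lit 228) (nat_lit 0) (XT.nd (nat_lit 78) (nat_lit 152) (nat_lit 0) (XT.lf (nat_lit 0) (nat_lit 5062934352) (nat_lit 228) (nat_lit 6979092646) (nat_lit 76) (nat_lit 3929792597) (nat_lit 23) (nat_lit 5) (nat_lit 26) (nat_lit 5) (nat_lit 24) (nat_lit 4) (nat_lit 381) (nat_lit 273) (nat_lit 246)) (XT.lf (nat_lit 0) (nat_lit 5981284181) (nat_lit 152) (nat_lit 5700820286) (nat_lit 228) (nat_lit 4619973100) (nat_lit 21) (nat_lit 5) (nat_lit 23) (nat_lit 5) (nat_lit 24) (nat_lit 4) (nat_lit 382) (nat_lit 273) (nat_lit 245))) (XT.nd (nat_lit 78) (nat_lit 0) (nat_lit 0) (XT.lf (nat_lit 0) (nat_lit 1800681817) (nat_lit 228) (nat_lit 14024349981) (nat_lit 76) (nat_lit 817636832) (nat_lit 18) (nat_lit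 5) (nat_lit 21) (nat_lit 5) (nat_lit 19) (nat_lit 4) (nat_lit 383) (nat_lit 273) (nat_lit 244)) (XT.lf (nat_lit 0) (nat_lit 8358793802) (nat_lit 228) (nat_lit 1156170850) (nat_lit 76) (nat_lit 7477764807) (nat_lit 18) (nat_lit 5) (nat_lit 21) (nat_lit 5) (nat_lit 19) (nat_lit 4) (nat_lit 384) (nat_lit 273) (nat_lit 243)))) (XT.nd (nat_lit 156) (nat_lit 76) (nat_lit 0) (XT.nd (nat_lit 78) (nat_lit 228) (nat_lit 0) (XT.lf (nat_lit 0) (nat_lit 12080288834) (nat_lit 76) (nat_lit 3013466301) (nat_lit 152) (nat_lit 2259949311) (nat_lit 17) (nat_lit 5) (nat_lit 18) (nat_lit 5) (nat_lit 19) (nat_lit 4) (nat_lit 385) (nat_lit 273) (nat_lit 242)) (XT.lf (nat_lit 0) (nat_lit 4234750969) (nat_lit 228) (nat_lit 9844367337) (nat_lit 76) (nat_lit 3646125914) (nat_lit 14) (nat_lit 5) (nat_lit 17) (nat_lit 5) (nat_lit 15) (nat_lit 4) (nat_lit 386) (nat_lit 273) (nat_lit 241))) (XT.nd (nat_lit 44148) (nat_lit 0) (nat_lit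 8664) (XT.lf (nat_lit 0) (nat_lit 3228361716) (nat_lit 76) (nat_lit 7646464882) (nat_lit 152) (nat_lit 7233193415) (nat_lit 13) (nat_lit 5) (nat_lit 14) (nat_lit 5) (nat_lit 15) (nat_lit 4) (nat_lit 387) (nat_lit 273) (nat_lit 240)) (XT.nd (nat_lit 78) (nat_lit 380) (nat_lit 0) (XT.lf (nat_lit 0) (nat_lit 1435364092) (nat_lit 456) (nat_lit 1960051535) (nat_lit 0) (nat_lit 1435364092) (nat_lit 132) (nat_lit 5) (nat_lit 138) (nat_lit 4) (nat_lit 132) (nat_lit 4) (nat_lit 352) (nat_lit 274) (nat_lit 274)) (XT.lf (nat_lit 0) (nat_lit 7237178400) (nat_lit 380) (nat_lit 1900690157) (nat_lit 380) (nat_lit 661905689) (nat_lit 127) (nat_lit 4) (nat_lit 132) (nat_lit 5) (nat_lit 132) (nat_lit 4) (nat_lit 353) (nat_lit 274) (nat_lit 273)))))) (XT.nd (nat_lit 390) (nat_lit 1596) (nat_lit 0) (XT.nd (nat_lit 156) (nat_lit 1368) (nat_lit 0) (XT.nd (nat_lit 78) (nat_lit 456) (nat_lit 0) (XT.lf (nat_lit 0) (nat_lit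 5535048578) (nat_lit 456) (nat_lit 1265801828) (nat_lit 0) (nat_lit 3141433054) (nat_lit 121) (nat_lit 5) (nat_lit 127) (nat_lit 4) (nat_lit 121) (nat_lit 4) (nat_lit 354) (nat_lit 274) (nat_lit 272)) (XT.lf (nat_lit 0) (nat_lit 1748234301) (nat_lit 456) (nat_lit 6959854) (nat_lit 76) (nat_lit 8334551617) (nat_lit 115) (nat_lit 5) (nat_lit 121) (nat_lit 5) (nat_lit 116) (nat_lit 4) (nat_lit 355) (nat_lit 274) (nat_lit 271))) (XT.nd (nat_lit 78) (nat_lit 684) (nat_lit 0) (XT.lf (nat_lit 0) (nat_lit 1201174829) (nat_lit 380) (nat_lit 6799563897) (nat_lit 380) (nat_lit 2240909264) (nat_lit 106) (nat_lit 4) (nat_lit 111) (nat_lit 5) (nat_lit 111) (nat_lit 4) (nat_lit 356) (nat_lit 274) (nat_lit 270)) (XT.nd (nat_lit 78) (nat_lit 304) (nat_lit 0) (XT.lf (nat_lit 0) (nat_lit 2350280006) (nat_lit 304) (nat_lit 1593699819) (nat_lit 380) (nat_lit 6454558230) (nat_lit 101) (nat_lit 5) (nat_lit 105) (nat_lit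 5) (nat_lit 106) (nat_lit 4) (nat_lit 357) (nat_lit 274) (nat_lit 269)) (XT.lf (nat_lit 0) (nat_lit 3432381623) (nat_lit 304) (nat_lit 6820748751) (nat_lit 304) (nat_lit 307365324) (nat_lit 97) (nat_lit 4) (nat_lit 101) (nat_lit 5) (nat_lit 101) (nat_lit 4) (nat_lit 358) (nat_lit 274) (nat_lit 268))))) (XT.nd (nat_lit 156) (nat_lit 836) (nat_lit 0) (XT.nd (nat_lit 78) (nat_lit 380) (nat_lit 0) (XT.lf (nat_lit 0) (nat_lit 4430698603) (nat_lit 304) (nat_lit 1471136101) (nat_lit 380) (nat_lit 4825601474) (nat_lit 92) (nat_lit 5) (nat_lit 96) (nat_lit 5) (nat_lit 97) (nat_lit 4) (nat_lit 359) (nat_lit 274) (nat_lit 267)) (XT.lf (nat_lit 0) (nat_lit 1349343139) (nat_lit 380) (nat_lit 5548990671) (nat_lit 76) (nat_lit 4001389329) (nat_lit 87) (nat_lit 5) (nat_lit 92) (nat_lit 5) (nat_lit 88) (nat_lit 4) (nat_lit 360) (nat_lit 274) (nat_lit 266))) (XT.nd (nat_lit 78) (nat_lit 608) (nat_lit 0) (XT.lf (nat_lit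 0) (nat_lit 6180533284) (nat_lit 228) (nat_lit 1422750297) (nat_lit 304) (nat_lit 3474106482) (nat_lit 84) (nat_lit 5) (nat_lit 87) (nat_lit 5) (nat_lit 88) (nat_lit 4) (nat_lit 361) (nat_lit 274) (nat_lit 265)) (XT.nd (nat_lit 78) (nat_lit 228) (nat_lit 0) (XT.lf (nat_lit 0) (nat_lit 2725984105) (nat_lit 380) (nat_lit 4351572527) (nat_lit 76) (nat_lit 4182941604) (nat_lit 79) (nat_lit 5) (nat_lit 84) (nat_lit 5) (nat_lit 80) (nat_lit 4) (nat_lit 362) (nat_lit 274) (nat_lit 264)) (XT.lf (nat_lit 0) (nat_lit 7540850135) (nat_lit 228) (nat_lit 1485777508) (nat_lit 304) (nat_lit 2422810518) (nat_lit 76) (nat_lit 5) (nat_lit 79) (nat_lit 5) (nat_lit 80) (nat_lit 4) (nat_lit 363) (nat_lit 274) (nat_lit 263))))))) (XT.nd (nat_lit 780) (nat_lit 1672) (nat_lit 0) (XT.nd (nat_lit 390) (nat_lit 1140) (nat_lit 0) (XT.nd (nat_lit 156) (nat_lit 836) (nat_lit 0) (XT.nd (nat_lit 78) (nat_lit 228) (nat_lit 0) (XT.lf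 (nat_lit 0) (nat_lit 3802666781) (nat_lit 380) (nat_lit 3596552491) (nat_lit 76) (nat_lit 4244731232) (nat_lit 71) (nat_lit 5) (nat_lit 76) (nat_lit 5) (nat_lit 72) (nat_lit 4) (nat_lit 364) (nat_lit 274) (nat_lit 262)) (XT.lf (nat_lit 0) (nat_lit 8446800047) (nat_lit 228) (nat_lit 1699863775) (nat_lit 304) (nat_lit 1698050952) (nat_lit 68) (nat_lit 5) (nat_lit 71) (nat_lit 5) (nat_lit 72) (nat_lit 4) (nat_lit 365) (nat_lit 274) (nat_lit 261))) (XT.nd (nat_lit 78) (nat_lit 532) (nat_lit 0) (XT.lf (nat_lit 0) (nat_lit 4551781180) (nat_lit 304) (nat_lit 3352961682) (nat_lit 76) (nat_lit 4146526414) (nat_lit 64) (nat_lit 5) (nat_lit 68) (nat_lit 5) (nat_lit 65) (nat_lit 4) (nat_lit 366) (nat_lit 274) (nat_lit 260)) (XT.nd (nat_lit 78) (nat_lit 304) (nat_lit 0) (XT.lf (nat_lit 0) (nat_lit 8826904773) (nat_lit 228) (nat_lit 2107470456) (nat_lit 304) (nat_lit 1330081955) (nat_lit 61) (nat_lit 5) (nat_lit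 64) (nat_lit 5) (nat_lit 65) (nat_lit 4) (nat_lit 367) (nat_lit 274) (nat_lit 259)) (XT.lf (nat_lit 0) (nat_lit 4941698330) (nat_lit 304) (nat_lit 3696926722) (nat_lit 76) (nat_lit 3845126129) (nat_lit 57) (nat_lit 5) (nat_lit 61) (nat_lit 5) (nat_lit 58) (nat_lit 4) (nat_lit 368) (nat_lit 274) (nat_lit 258))))) (XT.nd (nat_lit 156) (nat_lit 608) (nat_lit 0) (XT.nd (nat_lit 78) (nat_lit 304) (nat_lit 0) (XT.lf (nat_lit 0) (nat_lit 8602273472) (nat_lit 228) (nat_lit 2754310378) (nat_lit 304) (nat_lit 1353429729) (nat_lit 54) (nat_lit 5) (nat_lit 57) (nat_lit 5) (nat_lit 58) (nat_lit 4) (nat_lit 369) (nat_lit 274) (nat_lit 257)) (XT.lf (nat_lit 0) (nat_lit 4936399604) (nat_lit 304) (nat_lit 4712496442) (nat_lit 76) (nat_lit 3293912513) (nat_lit 50) (nat_lit 5) (nat_lit 54) (nat_lit 5) (nat_lit 51) (nat_lit 4) (nat_lit 370) (nat_lit 274) (nat_lit 256))) (XT.nd (nat_lit 78) (nat_lit 456) (nat_lit 0) (XT.lf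 (nat_lit 0) (nat_lit 7685742071) (nat_lit 152) (nat_lit 3689819875) (nat_lit 228) (nat_lit 1807289905) (nat_lit 48) (nat_lit 5) (nat_lit 50) (nat_lit 5) (nat_lit 51) (nat_lit 4) (nat_lit 371) (nat_lit 274) (nat_lit 255)) (XT.nd (nat_lit 78) (nat_lit 152) (nat_lit 0) (XT.lf (nat_lit 0) (nat_lit 4495062545) (nat_lit 304) (nat_lit 6492550538) (nat_lit 76) (nat_lit 2442365699) (nat_lit 44) (nat_lit 5) (nat_lit 48) (nat_lit 5) (nat_lit 45) (nat_lit 4) (nat_lit 372) (nat_lit 274) (nat_lit 254)) (XT.lf (nat_lit 0) (nat_lit 5980926984) (nat_lit 152) (nat_lit 4967671231) (nat_lit 228) (nat_lit 2735971140) (nat_lit 42) (nat_lit 5) (nat_lit 44) (nat_lit 5) (nat_lit 45) (nat_lit 4) (nat_lit 373) (nat_lit 274) (nat_lit 253)))))) (XT.nd (nat_lit 390) (nat_lit 760) (nat_lit 0) (XT.nd (nat_lit 156) (nat_lit 456) (nat_lit 0) (XT.nd (nat_lit 78) (nat_lit 152) (nat_lit 0) (XT.lf (nat_lit 0) (nat_lit 3571598989) (nat_lit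 304) (nat_lit 9139799117) (nat_lit 76) (nat_lit 1235536476) (nat_lit 38) (nat_lit 5) (nat_lit 42) (nat_lit 5) (nat_lit 39) (nat_lit 4) (nat_lit 374) (nat_lit 274) (nat_lit 252)) (XT.lf (nat_lit 0) (nat_lit 3381183882) (nat_lit 152) (nat_lit 6646330436) (nat_lit 228) (nat_lit 4189389381) (nat_lit 36) (nat_lit 5) (nat_lit 38) (nat_lit 5) (nat_lit 39) (nat_lit 4) (nat_lit 375) (nat_lit 274) (nat_lit 251))) (XT.nd (nat_lit 78) (nat_lit 228) (nat_lit 0) (XT.lf (nat_lit 0) (nat_lit 1725018725) (nat_lit 152) (nat_lit 391665057) (nat_lit 228) (nat_lit 12378760830) (nat_lit 33) (nat_lit 5) (nat_lit 35) (nat_lit 5) (nat_lit 36) (nat_lit 5) (nat_lit 376) (nat_lit 274) (nat_lit 250)) (XT.nd (nat_lit 78) (nat_lit 228) (nat_lit 0) (XT.lf (nat_lit 0) (nat_lit 8559630208) (nat_lit 228) (nat_lit 228502040) (nat_lit 76) (nat_lit 5993582362) (nat_lit 33) (nat_lit 5) (nat_lit 36) (nat_lit 5) (nat_lit 34) (nat_lit 4)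 (nat_lit 377) (nat_lit 274) (nat_lit 249)) (XT.lf (nat_lit 0) (nat_lit 96698816) (nat_lit 228) (nat_lit 2409627397) (nat_lit 76) (nat_lit 12570669539) (nat_lit 30) (nat_lit 5) (nat_lit 33) (nat_lit 5) (nat_lit 31) (nat_lit 5) (nat_lit 378) (nat_lit 274) (nat_lit 248))))) (XT.nd (nat_lit 156) (nat_lit 456) (nat_lit 0) (XT.nd (nat_lit 78) (nat_lit 152) (nat_lit 0) (XT.lf (nat_lit 0) (nat_lit 6512034896) (nat_lit 228) (nat_lit 4922544281) (nat_lit 76) (nat_lit 3945920565) (nat_lit 28) (nat_lit 5) (nat_lit 31) (nat_lit 5) (nat_lit 29) (nat_lit 4) (nat_lit 379) (nat_lit 274) (nat_lit 247)) (XT.lf (nat_lit 0) (nat_lit 7957081671) (nat_lit 152) (nat_lit 5144426643) (nat_lit 228) (nat_lit 2591983919) (nat_lit 26) (nat_lit 5) (nat_lit 28) (nat_lit 5) (nat_lit 29) (nat_lit 4) (nat_lit 380) (nat_lit 274) (nat_lit 246))) (XT.nd (nat_lit 78) (nat_lit 228) (nat_lit 0) (XT.lf (nat_lit 0) (nat_lit 3795662647) (nat_lit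 228) (nat_lit 10888172104) (nat_lit 76) (nat_lit 1332079692) (nat_lit 23) (nat_lit 5) (nat_lit 26) (nat_lit 5) (nat_lit 24) (nat_lit 4) (nat_lit 381) (nat_lit 274) (nat_lit 245)) (XT.nd (nat_lit 78) (nat_lit 76) (nat_lit 0) (XT.lf (nat_lit 0) (nat_lit 1930816957) (nat_lit 152) (nat_lit 8408105104) (nat_lit 228) (nat_lit 6008776272) (nat_lit 21) (nat_lit 5) (nat_lit 23) (nat_lit 5) (nat_lit 24) (nat_lit 4) (nat_lit 382) (nat_lit 274) (nat_lit 244)) (XT.lf (nat_lit 0) (nat_lit 358617131) (nat_lit 228) (nat_lit 1585169709) (nat_lit 76) (nat_lit 14746119750) (nat_lit 20) (nat_lit 5) (nat_lit 23) (nat_lit 5) (nat_lit 21) (nat_lit 5) (nat_lit 383) (nat_lit 274) (nat_lit 243))))))))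
noncomputable def xc9 : XT := (XT.nd (nat_lit 45396) (nat_lit 0) (nat_lit 304) (XT.nd (nat_lit 44616) (nat_lit 0) (nat_lit 4332) (XT.nd (nat_lit 44226) (nat_lit 0) (nat_lit 8132) (XT.nd (nat_lit 156) (nat_lit 228) (nat_lit 0) (XT.nd (nat_lit 78) (nat_lit 76) (nat_lit 0) (XT.lf (nat_lit 0) (nat_lit 6845173876) (nat_lit 228) (nat_lit 5502280416) (nat_lit 76) (nat_lit 4693951350) (nat_lit 18) (nat_lit 5) (nat_lit 21) (nat_lit 5) (nat_lit 19) (nat_lit 4) (nat_lit 384) (nat_lit 274) (nat_lit 242)) (XT.lf (nat_lit 0) (nat_lit 7591031933) (nat_lit 76) (nat_lit 5912929760) (nat_lit 152) (nat_lit 3899949322) (nat_lit 17) (nat_lit 5) (nat_lit 18) (nat_lit 5) (nat_lit 19) (nat_lit 4) (nat_lit 385) (nat_lit 274) (nat_lit 241))) (XT.nd (nat_lit 78) (nat_lit 0) (nat_lit 0) (XT.lf (nat_lit 0) (nat_lit 2520071025) (nat_lit 228) (nat_lit 14550631901) (nat_lit 76) (nat_lit 706891176) (nat_lit 14) (nat_lit 5) (nat_lit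 17) (nat_lit 5) (nat_lit 15) (nat_lit 4) (nat_lit 386) (nat_lit 274) (nat_lit 240)) (XT.lf (nat_lit 0) (nat_lit 9093262770) (nat_lit 228) (nat_lit 1603098867) (nat_lit 76) (nat_lit 7465352326) (nat_lit 14) (nat_lit 5) (nat_lit 17) (nat_lit 5) (nat_lit 15) (nat_lit 4) (nat_lit 387) (nat_lit 274) (nat_lit 239)))) (XT.nd (nat_lit 156) (nat_lit 1292) (nat_lit 0) (XT.nd (nat_lit 78) (nat_lit 456) (nat_lit 0) (XT.lf (nat_lit 0) (nat_lit 692505373) (nat_lit 456) (nat_lit 3313693584) (nat_lit 0) (nat_lit 692505373) (nat_lit 144) (nat_lit 5) (nat_lit 150) (nat_lit 4) (nat_lit 144) (nat_lit 4) (nat_lit 350) (nat_lit 275) (nat_lit 275)) (XT.lf (nat_lit 0) (nat_lit 4216237596) (nat_lit 456) (nat_lit 3306602853) (nat_lit 456) (nat_lit 2005135891) (nat_lit 138) (nat_lit 4) (nat_lit 144) (nat_lit 5) (nat_lit 144) (nat_lit 4) (nat_lit 351) (nat_lit 275) (nat_lit 274))) (XT.nd (nat_lit 78) (nat_lit 836) (nat_lit 0)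 (XT.lf (nat_lit 0) (nat_lit 4074029344) (nat_lit 456) (nat_lit 4029710597) (nat_lit 0) (nat_lit 1559296874) (nat_lit 132) (nat_lit 5) (nat_lit 138) (nat_lit 4) (nat_lit 132) (nat_lit 4) (nat_lit 352) (nat_lit 275) (nat_lit 273)) (XT.nd (nat_lit 78) (nat_lit 380) (nat_lit 0) (XT.lf (nat_lit 0) (nat_lit 460384937) (nat_lit 456) (nat_lit 2787458264) (nat_lit 76) (nat_lit 6554810611) (nat_lit 126) (nat_lit 5) (nat_lit 132) (nat_lit 5) (nat_lit 127) (nat_lit 4) (nat_lit 353) (nat_lit 275) (nat_lit 272)) (XT.lf (nat_lit 0) (nat_lit 6567852066) (nat_lit 456) (nat_lit 1600334207) (nat_lit 0) (nat_lit 1778529508) (nat_lit 121) (nat_lit 5) (nat_lit 127) (nat_lit 4) (nat_lit 121) (nat_lit 4) (nat_lit 354) (nat_lit 275) (nat_lit 271)))))) (XT.nd (nat_lit 390) (nat_lit 1596) (nat_lit 0) (XT.nd (nat_lit 156) (nat_lit 1064) (nat_lit 0) (XT.nd (nat_lit 78) (nat_lit 684) (nat_lit 0) (XT.lf (nat_lit 0) (nat_lit 2691216569)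 (nat_lit 456) (nat_lit 464499668) (nat_lit 76) (nat_lit 6939787847) (nat_lit 115) (nat_lit 5) (nat_lit 121) (nat_lit 5) (nat_lit 116) (nat_lit 4) (nat_lit 355) (nat_lit 275) (nat_lit 270)) (XT.lf (nat_lit 0) (nat_lit 626486414) (nat_lit 380) (nat_lit 8232795088) (nat_lit 380) (nat_lit 1389834460) (nat_lit 106) (nat_lit 4) (nat_lit 111) (nat_lit 5) (nat_lit 111) (nat_lit 4) (nat_lit 356) (nat_lit 275) (nat_lit 269))) (XT.nd (nat_lit 78) (nat_lit 684) (nat_lit 0) (XT.lf (nat_lit 0) (nat_lit 1647366594) (nat_lit 304) (nat_lit 3064227007) (nat_lit 380) (nat_lit 5695767755) (nat_lit 101) (nat_lit 5) (nat_lit 105) (nat_lit 5) (nat_lit 106) (nat_lit 4) (nat_lit 357) (nat_lit 275) (nat_lit 268)) (XT.nd (nat_lit 78) (nat_lit 304) (nat_lit 0) (XT.lf (nat_lit 0) (nat_lit 363399584) (nat_lit 380) (nat_lit 7959294640) (nat_lit 76) (nat_lit 2248227165) (nat_lit 96) (nat_lit 5) (nat_lit 101) (nat_lit 5) (nat_lit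 97) (nat_lit 4) (nat_lit 358) (nat_lit 275) (nat_lit 267)) (XT.lf (nat_lit 0) (nat_lit 3480481520) (nat_lit 304) (nat_lit 3016049622) (nat_lit 380) (nat_lit 4242749918) (nat_lit 92) (nat_lit 5) (nat_lit 96) (nat_lit 5) (nat_lit 97) (nat_lit 4) (nat_lit 359) (nat_lit 275) (nat_lit 266))))) (XT.nd (nat_lit 156) (nat_lit 988) (nat_lit 0) (XT.nd (nat_lit 78) (nat_lit 228) (nat_lit 0) (XT.lf (nat_lit 0) (nat_lit 1842147269) (nat_lit 380) (nat_lit 6635740791) (nat_lit 76) (nat_lit 2435269812) (nat_lit 87) (nat_lit 5) (nat_lit 92) (nat_lit 5) (nat_lit 88) (nat_lit 4) (nat_lit 360) (nat_lit 275) (nat_lit 265)) (XT.lf (nat_lit 0) (nat_lit 4974844463) (nat_lit 228) (nat_lit 3049336139) (nat_lit 304) (nat_lit 3068099301) (nat_lit 84) (nat_lit 5) (nat_lit 87) (nat_lit 5) (nat_lit 88) (nat_lit 4) (nat_lit 361) (nat_lit 275) (nat_lit 264))) (XT.nd (nat_lit 78) (nat_lit 608) (nat_lit 0) (XT.lf (nat_lit 0) (nat_lit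 3043787526) (nat_lit 380) (nat_lit 5700152318) (nat_lit 76) (nat_lit 2533069234) (nat_lit 79) (nat_lit 5) (nat_lit 84) (nat_lit 5) (nat_lit 80) (nat_lit 4) (nat_lit 362) (nat_lit 275) (nat_lit 263)) (XT.nd (nat_lit 78) (nat_lit 380) (nat_lit 0) (XT.lf (nat_lit 0) (nat_lit 6071339362) (nat_lit 228) (nat_lit 3201186854) (nat_lit 304) (nat_lit 2194876562) (nat_lit 76) (nat_lit 5) (nat_lit 79) (nat_lit 5) (nat_lit 80) (nat_lit 4) (nat_lit 363) (nat_lit 275) (nat_lit 262)) (XT.lf (nat_lit 0) (nat_lit 3944083417) (nat_lit 380) (nat_lit 5215417682) (nat_lit 76) (nat_lit 2504069904) (nat_lit 71) (nat_lit 5) (nat_lit 76) (nat_lit 5) (nat_lit 72) (nat_lit 4) (nat_lit 364) (nat_lit 275) (nat_lit 261))))))) (XT.nd (nat_lit 780) (nat_lit 1520) (nat_lit 0) (XT.nd (nat_lit 390) (nat_lit 1216) (nat_lit 0) (XT.nd (nat_lit 156) (nat_lit 760) (nat_lit 0) (XT.nd (nat_lit 78) (nat_lit 304) (nat_lit 0) (XT.lf (nat_lit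 0) (nat_lit 6704910846) (nat_lit 228) (nat_lit 3511142132) (nat_lit 304) (nat_lit 1649737332) (nat_lit 68) (nat_lit 5) (nat_lit 71) (nat_lit 5) (nat_lit 72) (nat_lit 4) (nat_lit 365) (nat_lit 275) (nat_lit 260)) (XT.lf (nat_lit 0) (nat_lit 4515114354) (nat_lit 304) (nat_lit 5250791716) (nat_lit 76) (nat_lit 2308133192) (nat_lit 64) (nat_lit 5) (nat_lit 68) (nat_lit 5) (nat_lit 65) (nat_lit 4) (nat_lit 366) (nat_lit 275) (nat_lit 259))) (XT.nd (nat_lit 78) (nat_lit 532) (nat_lit 0) (XT.lf (nat_lit 0) (nat_lit 6803850693) (nat_lit 228) (nat_lit 4021585301) (nat_lit 304) (nat_lit 1463250013) (nat_lit 61) (nat_lit 5) (nat_lit 64) (nat_lit 5) (nat_lit 65) (nat_lit 4) (nat_lit 367) (nat_lit 275) (nat_lit 258)) (XT.nd (nat_lit 78) (nat_lit 228) (nat_lit 0) (XT.lf (nat_lit 0) (nat_lit 4724944109) (nat_lit 304) (nat_lit 5882648139) (nat_lit 76) (nat_lit 1902124444) (nat_lit 57) (nat_lit 5) (nat_lit 61) (nat_lit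 5) (nat_lit 58) (nat_lit 4) (nat_lit 368) (nat_lit 275) (nat_lit 257)) (XT.lf (nat_lit 0) (nat_lit 6289014690) (nat_lit 228) (nat_lit 4778177458) (nat_lit 304) (nat_lit 1670252063) (nat_lit 54) (nat_lit 5) (nat_lit 57) (nat_lit 5) (nat_lit 58) (nat_lit 4) (nat_lit 369) (nat_lit 275) (nat_lit 256))))) (XT.nd (nat_lit 156) (nat_lit 760) (nat_lit 0) (XT.nd (nat_lit 78) (nat_lit 152) (nat_lit 0) (XT.lf (nat_lit 0) (nat_lit 4537249138) (nat_lit 304) (nat_lit 7195306011) (nat_lit 76) (nat_lit 1239466625) (nat_lit 50) (nat_lit 5) (nat_lit 54) (nat_lit 5) (nat_lit 51) (nat_lit 4) (nat_lit 370) (nat_lit 275) (nat_lit 255)) (XT.lf (nat_lit 0) (nat_lit 5072962224) (nat_lit 152) (nat_lit 5830328296) (nat_lit 228) (nat_lit 2310248398) (nat_lit 48) (nat_lit 5) (nat_lit 50) (nat_lit 5) (nat_lit 51) (nat_lit 4) (nat_lit 371) (nat_lit 275) (nat_lit 254))) (XT.nd (nat_lit 78) (nat_lit 456) (nat_lit 0) (XT.lf (nat_lit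 0) (nat_lit 3910903444) (nat_lit 304) (nat_lit 9281938229) (nat_lit 76) (nat_lit 269656309) (nat_lit 44) (nat_lit 5) (nat_lit 48) (nat_lit 5) (nat_lit 45) (nat_lit 4) (nat_lit 372) (nat_lit 275) (nat_lit 253)) (XT.nd (nat_lit 78) (nat_lit 304) (nat_lit 0) (XT.lf (nat_lit 0) (nat_lit 3059010144) (nat_lit 152) (nat_lit 7231707467) (nat_lit 228) (nat_lit 3427855940) (nat_lit 42) (nat_lit 5) (nat_lit 44) (nat_lit 5) (nat_lit 45) (nat_lit 4) (nat_lit 373) (nat_lit 275) (nat_lit 252)) (XT.lf (nat_lit 0) (nat_lit 1730124809) (nat_lit 228) (nat_lit 1076379542) (nat_lit 304) (nat_lit 11176180006) (nat_lit 38) (nat_lit 5) (nat_lit 41) (nat_lit 5) (nat_lit 42) (nat_lit 5) (nat_lit 374) (nat_lit 275) (nat_lit 251)))))) (XT.nd (nat_lit 390) (nat_lit 760) (nat_lit 0) (XT.nd (nat_lit 156) (nat_lit 532) (nat_lit 0) (XT.nd (nat_lit 78) (nat_lit 76) (nat_lit 0) (XT.lf (nat_lit 0) (nat_lit 140191605) (nat_lit 152) (nat_lit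 9040801361) (nat_lit 228) (nat_lit 5073298807) (nat_lit 36) (nat_lit 5) (nat_lit 38) (nat_lit 5) (nat_lit 39) (nat_lit 4) (nat_lit 375) (nat_lit 275) (nat_lit 250)) (XT.lf (nat_lit 0) (nat_lit 1180377968) (nat_lit 228) (nat_lit 1662167503) (nat_lit 76) (nat_lit 11691691065) (nat_lit 35) (nat_lit 5) (nat_lit 38) (nat_lit 5) (nat_lit 36) (nat_lit 5) (nat_lit 376) (nat_lit 275) (nat_lit 249))) (XT.nd (nat_lit 78) (nat_lit 380) (nat_lit 0) (XT.lf (nat_lit 0) (nat_lit 7544314727) (nat_lit 228) (nat_lit 3752027876) (nat_lit 76) (nat_lit 3525753149) (nat_lit 33) (nat_lit 5) (nat_lit 36) (nat_lit 5) (nat_lit 34) (nat_lit 4) (nat_lit 377) (nat_lit 275) (nat_lit 248)) (XT.nd (nat_lit 78) (nat_lit 228) (nat_lit 0) (XT.lf (nat_lit 0) (nat_lit 9007920827) (nat_lit 152) (nat_lit 5077420255) (nat_lit 228) (nat_lit 1033544011) (nat_lit 31) (nat_lit 5) (nat_lit 33) (nat_lit 5) (nat_lit 34) (nat_lit 4) (nat_lit 378)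 (nat_lit 275) (nat_lit 247)) (XT.lf (nat_lit 0) (nat_lit 5303312785) (nat_lit 228) (nat_lit 8781622605) (nat_lit 76) (nat_lit 1339436929) (nat_lit 28) (nat_lit 5) (nat_lit 31) (nat_lit 5) (nat_lit 29) (nat_lit 4) (nat_lit 379) (nat_lit 275) (nat_lit 246))))) (XT.nd (nat_lit 156) (nat_lit 380) (nat_lit 0) (XT.nd (nat_lit 78) (nat_lit 228) (nat_lit 0) (XT.lf (nat_lit 0) (nat_lit 3958432931) (nat_lit 152) (nat_lit 7859042862) (nat_lit 228) (nat_lit 3921403320) (nat_lit 26) (nat_lit 5) (nat_lit 28) (nat_lit 5) (nat_lit 29) (nat_lit 4) (nat_lit 380) (nat_lit 275) (nat_lit 245)) (XT.lf (nat_lit 0) (nat_lit 960130875) (nat_lit 152) (nat_lit 1438870887) (nat_lit 228) (nat_lit 13664173435) (nat_lit 23) (nat_lit 5) (nat_lit 25) (nat_lit 5) (nat_lit 26) (nat_lit 5) (nat_lit 381) (nat_lit 275) (nat_lit 244))) (XT.nd (nat_lit 78) (nat_lit 380) (nat_lit 0) (XT.lf (nat_lit 0) (nat_lit 8872215569) (nat_lit 228) (nat_lit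 2385730498) (nat_lit 76) (nat_lit 5138421413) (nat_lit 23) (nat_lit 5) (nat_lit 26) (nat_lit 5) (nat_lit 24) (nat_lit 4) (nat_lit 382) (nat_lit 275) (nat_lit 243)) (XT.nd (nat_lit 78) (nat_lit 228) (nat_lit 0) (XT.lf (nat_lit 0) (nat_lit 10674586791) (nat_lit 152) (nat_lit 4849036077) (nat_lit 228) (nat_lit 1216267465) (nat_lit 21) (nat_lit 5) (nat_lit 23) (nat_lit 5) (nat_lit 24) (nat_lit 4) (nat_lit 383) (nat_lit 275) (nat_lit 242)) (XT.lf (nat_lit 0) (nat_lit 5190681996) (nat_lit 228) (nat_lit 10149841214) (nat_lit 76) (nat_lit 1752942203) (nat_lit 18) (nat_lit 5) (nat_lit 21) (nat_lit 5) (nat_lit 19) (nat_lit 4) (nat_lit 384) (nat_lit 275) (nat_lit 241))))))))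
noncomputable def xc10 : XT := (XT.nd (nat_lit 45240) (nat_lit 0) (nat_lit 532) (XT.nd (nat_lit 44460) (nat_lit 0) (nat_lit 4712) (XT.nd (nat_lit 44070) (nat_lit 0) (nat_lit 8512) (XT.nd (nat_lit 156) (nat_lit 152) (nat_lit 0) (XT.nd (nat_lit 78) (nat_lit 76) (nat_lit 0) (XT.lf (nat_lit 0) (nat_lit 2798804755) (nat_lit 76) (nat_lit 8973894153) (nat_lit 152) (nat_lit 5684814006) (nat_lit 17) (nat_lit 5) (nat_lit 18) (nat_lit 5) (nat_lit 19) (nat_lit 4) (nat_lit 385) (nat_lit 275) (nat_lit 240)) (XT.lf (nat_lit 0) (nat_lit 687829373) (nat_lit 152) (nat_lit 1726013687) (nat_lit 76) (nat_lit 15419006818) (nat_lit 16) (nat_lit 5) (nat_lit 18) (nat_lit 5) (nat_lit 17) (nat_lit 5) (nat_lit 386) (nat_lit 275) (nat_lit 239))) (XT.nd (nat_lit 43836) (nat_lit 0) (nat_lit 11324) (XT.lf (nat_lit 0) (nat_lit 7189332644) (nat_lit 228) (nat_lit 6699190188) (nat_lit 76) (nat_lit 4329886877) (nat_lit 14) (nat_lit 5)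 (nat_lit 17) (nat_lit 5) (nat_lit 15) (nat_lit 4) (nat_lit 387) (nat_lit 275) (nat_lit 238)) (XT.lf (nat_lit 0) (nat_lit 4523757347) (nat_lit 456) (nat_lit 25032368) (nat_lit 456) (nat_lit 25032368) (nat_lit 163) (nat_lit 4) (nat_lit 169) (nat_lit 5) (nat_lit 169) (nat_lit 4) (nat_lit 348) (nat_lit 276) (nat_lit 276)))) (XT.nd (nat_lit 156) (nat_lit 1368) (nat_lit 0) (XT.nd (nat_lit 78) (nat_lit 456) (nat_lit 0) (XT.lf (nat_lit 0) (nat_lit 1283068164) (nat_lit 456) (nat_lit 4677592050) (nat_lit 456) (nat_lit 3310270860) (nat_lit 150) (nat_lit 4) (nat_lit 156) (nat_lit 5) (nat_lit 156) (nat_lit 4) (nat_lit 349) (nat_lit 276) (nat_lit 275)) (XT.lf (nat_lit 0) (nat_lit 2652880387) (nat_lit 456) (nat_lit 6735104322) (nat_lit 0) (nat_lit 10902454) (nat_lit 144) (nat_lit 5) (nat_lit 150) (nat_lit 4) (nat_lit 144) (nat_lit 4) (nat_lit 350) (nat_lit 276) (nat_lit 274))) (XT.nd (nat_lit 78) (nat_lit 912) (nat_lit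 0) (XT.lf (nat_lit 0) (nat_lit 4001119367) (nat_lit 456) (nat_lit 4717668468) (nat_lit 456) (nat_lit 812130377) (nat_lit 138) (nat_lit 4) (nat_lit 144) (nat_lit 5) (nat_lit 144) (nat_lit 4) (nat_lit 351) (nat_lit 276) (nat_lit 273)) (XT.nd (nat_lit 78) (nat_lit 456) (nat_lit 0) (XT.lf (nat_lit 0) (nat_lit 5170251780) (nat_lit 456) (nat_lit 4358628949) (nat_lit 0) (nat_lit 138589501) (nat_lit 132) (nat_lit 5) (nat_lit 138) (nat_lit 4) (nat_lit 132) (nat_lit 4) (nat_lit 352) (nat_lit 276) (nat_lit 272)) (XT.lf (nat_lit 0) (nat_lit 1466039635) (nat_lit 456) (nat_lit 3237935387) (nat_lit 76) (nat_lit 5104429321) (nat_lit 126) (nat_lit 5) (nat_lit 132) (nat_lit 5) (nat_lit 127) (nat_lit 4) (nat_lit 353) (nat_lit 276) (nat_lit 271)))))) (XT.nd (nat_lit 390) (nat_lit 1520) (nat_lit 0) (XT.nd (nat_lit 156) (nat_lit 1444) (nat_lit 0) (XT.nd (nat_lit 78) (nat_lit 456) (nat_lit 0) (XT.lf (nat_lit 0) (nat_lit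 7492554386) (nat_lit 456) (nat_lit 2158212951) (nat_lit 0) (nat_lit 303339950) (nat_lit 121) (nat_lit 5) (nat_lit 127) (nat_lit 4) (nat_lit 121) (nat_lit 4) (nat_lit 354) (nat_lit 276) (nat_lit 270)) (XT.lf (nat_lit 0) (nat_lit 3525145642) (nat_lit 456) (nat_lit 1147482938) (nat_lit 76) (nat_lit 5431595784) (nat_lit 115) (nat_lit 5) (nat_lit 121) (nat_lit 5) (nat_lit 116) (nat_lit 4) (nat_lit 355) (nat_lit 276) (nat_lit 269))) (XT.nd (nat_lit 78) (nat_lit 1140) (nat_lit 0) (XT.lf (nat_lit 0) (nat_lit 9608183711) (nat_lit 380) (nat_lit 176435525) (nat_lit 0) (nat_lit 474937803) (nat_lit 111) (nat_lit 5) (nat_lit 116) (nat_lit 4) (nat_lit 111) (nat_lit 4) (nat_lit 356) (nat_lit 276) (nat_lit 268)) (XT.nd (nat_lit 78) (nat_lit 380) (nat_lit 0) (XT.lf (nat_lit 0) (nat_lit 711651961) (nat_lit 304) (nat_lit 4655711616) (nat_lit 380) (nat_lit 5051822374) (nat_lit 101) (nat_lit 5) (nat_lit 105) (nat_lit 5)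 (nat_lit 106) (nat_lit 4) (nat_lit 357) (nat_lit 276) (nat_lit 267)) (XT.lf (nat_lit 0) (nat_lit 916423557) (nat_lit 380) (nat_lit 9029760731) (nat_lit 76) (nat_lit 638145953) (nat_lit 96) (nat_lit 5) (nat_lit 101) (nat_lit 5) (nat_lit 97) (nat_lit 4) (nat_lit 358) (nat_lit 276) (nat_lit 266))))) (XT.nd (nat_lit 156) (nat_lit 836) (nat_lit 0) (XT.nd (nat_lit 78) (nat_lit 380) (nat_lit 0) (XT.lf (nat_lit 0) (nat_lit 2292907531) (nat_lit 304) (nat_lit 4684987668) (nat_lit 380) (nat_lit 3776245735) (nat_lit 92) (nat_lit 5) (nat_lit 96) (nat_lit 5) (nat_lit 97) (nat_lit 4) (nat_lit 359) (nat_lit 276) (nat_lit 265)) (XT.lf (nat_lit 0) (nat_lit 2219655197) (nat_lit 380) (nat_lit 7964438941) (nat_lit 76) (nat_lit 745537553) (nat_lit 87) (nat_lit 5) (nat_lit 92) (nat_lit 5) (nat_lit 88) (nat_lit 4) (nat_lit 360) (nat_lit 276) (nat_lit 264))) (XT.nd (nat_lit 78) (nat_lit 608) (nat_lit 0) (XT.lf (nat_lit 0)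 (nat_lit 3527035834) (nat_lit 228) (nat_lit 4803039961) (nat_lit 304) (nat_lit 2780126651) (nat_lit 84) (nat_lit 5) (nat_lit 87) (nat_lit 5) (nat_lit 88) (nat_lit 4) (nat_lit 361) (nat_lit 276) (nat_lit 263)) (XT.nd (nat_lit 78) (nat_lit 228) (nat_lit 0) (XT.lf (nat_lit 0) (nat_lit 3244526515) (nat_lit 380) (nat_lit 7295555413) (nat_lit 76) (nat_lit 756497114) (nat_lit 79) (nat_lit 5) (nat_lit 84) (nat_lit 5) (nat_lit 80) (nat_lit 4) (nat_lit 362) (nat_lit 276) (nat_lit 262)) (XT.lf (nat_lit 0) (nat_lit 4354725398) (nat_lit 228) (nat_lit 5046847021) (nat_lit 304) (nat_lit 2086849397) (nat_lit 76) (nat_lit 5) (nat_lit 79) (nat_lit 5) (nat_lit 80) (nat_lit 4) (nat_lit 363) (nat_lit 276) (nat_lit 261))))))) (XT.nd (nat_lit 780) (nat_lit 1748) (nat_lit 0) (XT.nd (nat_lit 390) (nat_lit 988) (nat_lit 0) (XT.nd (nat_lit 156) (nat_lit 836) (nat_lit 0) (XT.nd (nat_lit 78) (nat_lit 228) (nat_lit 0) (XT.lf (nat_lit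 0) (nat_lit 3966485053) (nat_lit 380) (nat_lit 7086211833) (nat_lit 76) (nat_lit 633577789) (nat_lit 71) (nat_lit 5) (nat_lit 76) (nat_lit 5) (nat_lit 72) (nat_lit 4) (nat_lit 364) (nat_lit 276) (nat_lit 260)) (XT.lf (nat_lit 0) (nat_lit 4710701288) (nat_lit 228) (nat_lit 5455856099) (nat_lit 304) (nat_lit 1723388604) (nat_lit 68) (nat_lit 5) (nat_lit 71) (nat_lit 5) (nat_lit 72) (nat_lit 4) (nat_lit 365) (nat_lit 276) (nat_lit 259))) (XT.nd (nat_lit 78) (nat_lit 532) (nat_lit 0) (XT.lf (nat_lit 0) (nat_lit 4357298602) (nat_lit 304) (nat_lit 7405900046) (nat_lit 76) (nat_lit 336721855) (nat_lit 64) (nat_lit 5) (nat_lit 68) (nat_lit 5) (nat_lit 65) (nat_lit 4) (nat_lit 366) (nat_lit 276) (nat_lit 258)) (XT.nd (nat_lit 78) (nat_lit 304) (nat_lit 0) (XT.lf (nat_lit 0) (nat_lit 4523011929) (nat_lit 228) (nat_lit 6072384645) (nat_lit 304) (nat_lit 1720628146) (nat_lit 61) (nat_lit 5) (nat_lit 64) (nat_lit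 5) (nat_lit 65) (nat_lit 4) (nat_lit 367) (nat_lit 276) (nat_lit 257)) (XT.lf (nat_lit 0) (nat_lit 4206382535) (nat_lit 228) (nat_lit 179505103) (nat_lit 304) (nat_lit 8152914637) (nat_lit 57) (nat_lit 5) (nat_lit 60) (nat_lit 5) (nat_lit 61) (nat_lit 5) (nat_lit 368) (nat_lit 276) (nat_lit 256))))) (XT.nd (nat_lit 156) (nat_lit 456) (nat_lit 0) (XT.nd (nat_lit 78) (nat_lit 304) (nat_lit 0) (XT.lf (nat_lit 0) (nat_lit 3712246238) (nat_lit 228) (nat_lit 6942053815) (nat_lit 304) (nat_lit 2113718465) (nat_lit 54) (nat_lit 5) (nat_lit 57) (nat_lit 5) (nat_lit 58) (nat_lit 4) (nat_lit 369) (nat_lit 276) (nat_lit 255)) (XT.lf (nat_lit 0) (nat_lit 3051131418) (nat_lit 228) (nat_lit 967274093) (nat_lit 304) (nat_lit 8985883456) (nat_lit 50) (nat_lit 5) (nat_lit 53) (nat_lit 5) (nat_lit 54) (nat_lit 5) (nat_lit 370) (nat_lit 276) (nat_lit 254))) (XT.nd (nat_lit 78) (nat_lit 304) (nat_lit 0) (XT.lf (nat_lit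 0) (nat_lit 2190673406) (nat_lit 152) (nat_lit 8114258154) (nat_lit 228) (nat_lit 2942475957) (nat_lit 48) (nat_lit 5) (nat_lit 50) (nat_lit 5) (nat_lit 51) (nat_lit 4) (nat_lit 371) (nat_lit 276) (nat_lit 253)) (XT.nd (nat_lit 78) (nat_lit 0) (nat_lit 0) (XT.lf (nat_lit 0) (nat_lit 1138257597) (nat_lit 228) (nat_lit 2073279602) (nat_lit 304) (nat_lit 10286430654) (nat_lit 44) (nat_lit 5) (nat_lit 47) (nat_lit 5) (nat_lit 48) (nat_lit 5) (nat_lit 372) (nat_lit 276) (nat_lit 252)) (XT.lf (nat_lit 0) (nat_lit 9504873331) (nat_lit 304) (nat_lit 136884015) (nat_lit 76) (nat_lit 4114025894) (nat_lit 44) (nat_lit 5) (nat_lit 48) (nat_lit 5) (nat_lit 45) (nat_lit 4) (nat_lit 373) (nat_lit 276) (nat_lit 251)))))) (XT.nd (nat_lit 390) (nat_lit 760) (nat_lit 0) (XT.nd (nat_lit 156) (nat_lit 532) (nat_lit 0) (XT.nd (nat_lit 78) (nat_lit 228) (nat_lit 0) (XT.lf (nat_lit 0) (nat_lit 1929557991) (nat_lit 228) (nat_lit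 1612845257) (nat_lit 76) (nat_lit 10478901175) (nat_lit 41) (nat_lit 5) (nat_lit 44) (nat_lit 5) (nat_lit 42) (nat_lit 5) (nat_lit 374) (nat_lit 276) (nat_lit 250)) (XT.lf (nat_lit 0) (nat_lit 8224603965) (nat_lit 304) (nat_lit 3338815721) (nat_lit 76) (nat_lit 2731090485) (nat_lit 38) (nat_lit 5) (nat_lit 42) (nat_lit 5) (nat_lit 39) (nat_lit 4) (nat_lit 375) (nat_lit 276) (nat_lit 249))) (XT.nd (nat_lit 78) (nat_lit 304) (nat_lit 0) (XT.lf (nat_lit 0) (nat_lit 123478385) (nat_lit 228) (nat_lit 5308831111) (nat_lit 76) (nat_lit 9143751132) (nat_lit 35) (nat_lit 5) (nat_lit 38) (nat_lit 5) (nat_lit 36) (nat_lit 5) (nat_lit 376) (nat_lit 276) (nat_lit 248)) (XT.nd (nat_lit 78) (nat_lit 152) (nat_lit 0) (XT.lf (nat_lit 0) (nat_lit 6395878554) (nat_lit 228) (nat_lit 7561052061) (nat_lit 76) (nat_lit 908828718) (nat_lit 33) (nat_lit 5) (nat_lit 36) (nat_lit 5) (nat_lit 34) (nat_lit 4) (nat_lit 377) (nat_lit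 276) (nat_lit 247)) (XT.lf (nat_lit 0) (nat_lit 5061145851) (nat_lit 152) (nat_lit 7801034916) (nat_lit 228) (nat_lit 2301870896) (nat_lit 31) (nat_lit 5) (nat_lit 33) (nat_lit 5) (nat_lit 34) (nat_lit 4) (nat_lit 378) (nat_lit 276) (nat_lit 246))))) (XT.nd (nat_lit 156) (nat_lit 532) (nat_lit 0) (XT.nd (nat_lit 78) (nat_lit 0) (nat_lit 0) (XT.lf (nat_lit 0) (nat_lit 2528710757) (nat_lit 152) (nat_lit 1438782265) (nat_lit 228) (nat_lit 11503901202) (nat_lit 28) (nat_lit 5) (nat_lit 30) (nat_lit 5) (nat_lit 31) (nat_lit 5) (nat_lit 379) (nat_lit 276) (nat_lit 245)) (XT.lf (nat_lit 0) (nat_lit 10398702534) (nat_lit 228) (nat_lit 329791689) (nat_lit 76) (nat_lit 5059073723) (nat_lit 28) (nat_lit 5) (nat_lit 31) (nat_lit 5) (nat_lit 29) (nat_lit 4) (nat_lit 380) (nat_lit 276) (nat_lit 244))) (XT.nd (nat_lit 78) (nat_lit 304) (nat_lit 0) (XT.lf (nat_lit 0) (nat_lit 894992657) (nat_lit 228) (nat_lit 3468113346)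 (nat_lit 76) (nat_lit 11750071925) (nat_lit 25) (nat_lit 5) (nat_lit 28) (nat_lit 5) (nat_lit 26) (nat_lit 5) (nat_lit 381) (nat_lit 276) (nat_lit 243)) (XT.nd (nat_lit 78) (nat_lit 152) (nat_lit 0) (XT.lf (nat_lit 0) (nat_lit 7279488325) (nat_lit 228) (nat_lit 6974584383) (nat_lit 76) (nat_lit 2194079128) (nat_lit 23) (nat_lit 5) (nat_lit 26) (nat_lit 5) (nat_lit 24) (nat_lit 4) (nat_lit 382) (nat_lit 276) (nat_lit 242)) (XT.lf (nat_lit 0) (nat_lit 5942900870) (nat_lit 152) (nat_lit 7911871155) (nat_lit 228) (nat_lit 2938432189) (nat_lit 21) (nat_lit 5) (nat_lit 23) (nat_lit 5) (nat_lit 24) (nat_lit 4) (nat_lit 383) (nat_lit 276) (nat_lit 241))))))))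
noncomputable def xc11 : XT := (XT.nd (nat_lit 45084) (nat_lit 0) (nat_lit 1064) (XT.nd (nat_lit 44304) (nat_lit 0) (nat_lit 5548) (XT.nd (nat_lit 43914) (nat_lit 0) (nat_lit 9880) (XT.nd (nat_lit 156) (nat_lit 304) (nat_lit 0) (XT.nd (nat_lit 78) (nat_lit 0) (nat_lit 0) (XT.lf (nat_lit 0) (nat_lit 2036995378) (nat_lit 152) (nat_lit 1365744430) (nat_lit 228) (nat_lit 13746037105) (nat_lit 18) (nat_lit 5) (nat_lit 20) (nat_lit 5) (nat_lit 21) (nat_lit 5) (nat_lit 384) (nat_lit 276) (nat_lit 240)) (XT.lf (nat_lit 0) (nat_lit 9913390922) (nat_lit 228) (nat_lit 2270407560) (nat_lit 76) (nat_lit 5330459764) (nat_lit 18) (nat_lit 5) (nat_lit 21) (nat_lit 5) (nat_lit 19) (nat_lit 4) (nat_lit 385) (nat_lit 276) (nat_lit 239))) (XT.nd (nat_lit 78) (nat_lit 228) (nat_lit 0) (XT.lf (nat_lit 0) (nat_lit 10933923264) (nat_lit 76) (nat_lit 5678199429) (nat_lit 152) (nat_lit 1278738945) (nat_lit 17) (nat_lit 5)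 (nat_lit 18) (nat_lit 5) (nat_lit 19) (nat_lit 4) (nat_lit 386) (nat_lit 276) (nat_lit 238)) (XT.lf (nat_lit 0) (nat_lit 5140411926) (nat_lit 228) (nat_lit 12106705689) (nat_lit 76) (nat_lit 1031458393) (nat_lit 14) (nat_lit 5) (nat_lit 17) (nat_lit 5) (nat_lit 15) (nat_lit 4) (nat_lit 387) (nat_lit 276) (nat_lit 237)))) (XT.nd (nat_lit 156) (nat_lit 1900) (nat_lit 0) (XT.nd (nat_lit 78) (nat_lit 532) (nat_lit 0) (XT.lf (nat_lit 0) (nat_lit 3041396303) (nat_lit 532) (nat_lit 707045516) (nat_lit 532) (nat_lit 707045516) (nat_lit 176) (nat_lit 4) (nat_lit 183) (nat_lit 5) (nat_lit 183) (nat_lit 4) (nat_lit 346) (nat_lit 277) (nat_lit 277)) (XT.lf (nat_lit 0) (nat_lit 4473855373) (nat_lit 532) (nat_lit 1516582050) (nat_lit 0) (nat_lit 3037347730) (nat_lit 169) (nat_lit 5) (nat_lit 176) (nat_lit 4) (nat_lit 169) (nat_lit 4) (nat_lit 347) (nat_lit 277) (nat_lit 276))) (XT.nd (nat_lit 78) (nat_lit 1368)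 (nat_lit 0) (XT.lf (nat_lit 0) (nat_lit 1296474085) (nat_lit 532) (nat_lit 212297604) (nat_lit 76) (nat_lit 7640155126) (nat_lit 162) (nat_lit 5) (nat_lit 169) (nat_lit 5) (nat_lit 163) (nat_lit 4) (nat_lit 348) (nat_lit 277) (nat_lit 275)) (XT.nd (nat_lit 78) (nat_lit 456) (nat_lit 0) (XT.lf (nat_lit 0) (nat_lit 1071767704) (nat_lit 456) (nat_lit 6152633424) (nat_lit 456) (nat_lit 2049475106) (nat_lit 150) (nat_lit 4) (nat_lit 156) (nat_lit 5) (nat_lit 156) (nat_lit 4) (nat_lit 349) (nat_lit 277) (nat_lit 274)) (XT.lf (nat_lit 0) (nat_lit 2335105251) (nat_lit 380) (nat_lit 1490189268) (nat_lit 456) (nat_lit 5577835934) (nat_lit 144) (nat_lit 5) (nat_lit 149) (nat_lit 5) (nat_lit 150) (nat_lit 4) (nat_lit 350) (nat_lit 277) (nat_lit 273)))))) (XT.nd (nat_lit 390) (nat_lit 2128) (nat_lit 0) (XT.nd (nat_lit 156) (nat_lit 1292) (nat_lit 0) (XT.nd (nat_lit 78) (nat_lit 380) (nat_lit 0) (XT.lf (nat_lit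 0) (nat_lit 269869693) (nat_lit 532) (nat_lit 5967885044) (nat_lit 76) (nat_lit 3299014282) (nat_lit 137) (nat_lit 5) (nat_lit 144) (nat_lit 5) (nat_lit 138) (nat_lit 4) (nat_lit 351) (nat_lit 277) (nat_lit 272)) (XT.lf (nat_lit 0) (nat_lit 4758372711) (nat_lit 380) (nat_lit 1411142719) (nat_lit 456) (nat_lit 3505164886) (nat_lit 132) (nat_lit 5) (nat_lit 137) (nat_lit 5) (nat_lit 138) (nat_lit 4) (nat_lit 352) (nat_lit 277) (nat_lit 271))) (XT.nd (nat_lit 78) (nat_lit 836) (nat_lit 0) (XT.lf (nat_lit 0) (nat_lit 2364618144) (nat_lit 456) (nat_lit 3910123307) (nat_lit 76) (nat_lit 3542375365) (nat_lit 126) (nat_lit 5) (nat_lit 132) (nat_lit 5) (nat_lit 127) (nat_lit 4) (nat_lit 353) (nat_lit 277) (nat_lit 270)) (XT.nd (nat_lit 78) (nat_lit 456) (nat_lit 0) (XT.lf (nat_lit 0) (nat_lit 7015913032) (nat_lit 380) (nat_lit 1302507238) (nat_lit 456) (nat_lit 1645875029) (nat_lit 121) (nat_lit 5) (nat_lit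 126) (nat_lit 5) (nat_lit 127) (nat_lit 4) (nat_lit 354) (nat_lit 277) (nat_lit 269)) (XT.lf (nat_lit 0) (nat_lit 4250750194) (nat_lit 456) (nat_lit 2056506448) (nat_lit 76) (nat_lit 3808657589) (nat_lit 115) (nat_lit 5) (nat_lit 121) (nat_lit 5) (nat_lit 116) (nat_lit 4) (nat_lit 355) (nat_lit 277) (nat_lit 268))))) (XT.nd (nat_lit 156) (nat_lit 1368) (nat_lit 0) (XT.nd (nat_lit 78) (nat_lit 456) (nat_lit 0) (XT.lf (nat_lit 0) (nat_lit 9065590888) (nat_lit 304) (nat_lit 1194672882) (nat_lit 380) (nat_lit 12473297) (nat_lit 111) (nat_lit 5) (nat_lit 115) (nat_lit 5) (nat_lit 116) (nat_lit 4) (nat_lit 356) (nat_lit 277) (nat_lit 267)) (XT.lf (nat_lit 0) (nat_lit 5914834327) (nat_lit 456) (nat_lit 451678932) (nat_lit 76) (nat_lit 4067449480) (nat_lit 105) (nat_lit 5) (nat_lit 111) (nat_lit 5) (nat_lit 106) (nat_lit 4) (nat_lit 357) (nat_lit 277) (nat_lit 266))) (XT.nd (nat_lit 78) (nat_lit 684) (nat_lit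 0) (XT.lf (nat_lit 0) (nat_lit 254981157) (nat_lit 304) (nat_lit 1108436517) (nat_lit 380) (nat_lit 9237212275) (nat_lit 96) (nat_lit 5) (nat_lit 100) (nat_lit 5) (nat_lit 101) (nat_lit 5) (nat_lit 358) (nat_lit 277) (nat_lit 265)) (XT.nd (nat_lit 78) (nat_lit 380) (nat_lit 0) (XT.lf (nat_lit 0) (nat_lit 866938950) (nat_lit 304) (nat_lit 6479408533) (nat_lit 380) (nat_lit 3425681299) (nat_lit 92) (nat_lit 5) (nat_lit 96) (nat_lit 5) (nat_lit 97) (nat_lit 4) (nat_lit 359) (nat_lit 277) (nat_lit 264)) (XT.lf (nat_lit 0) (nat_lit 1405737414) (nat_lit 304) (nat_lit 1083494132) (nat_lit 380) (nat_lit 8459786749) (nat_lit 87) (nat_lit 5) (nat_lit 91) (nat_lit 5) (nat_lit 92) (nat_lit 5) (nat_lit 360) (nat_lit 277) (nat_lit 263))))))) (XT.nd (nat_lit 780) (nat_lit 1672) (nat_lit 0) (XT.nd (nat_lit 390) (nat_lit 1368) (nat_lit 0) (XT.nd (nat_lit 156) (nat_lit 836) (nat_lit 0) (XT.nd (nat_lit 78) (nat_lit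 380) (nat_lit 0) (XT.lf (nat_lit 0) (nat_lit 1835842322) (nat_lit 228) (nat_lit 6685394126) (nat_lit 304) (nat_lit 2609936906) (nat_lit 84) (nat_lit 5) (nat_lit 87) (nat_lit 5) (nat_lit 88) (nat_lit 4) (nat_lit 361) (nat_lit 277) (nat_lit 262)) (XT.lf (nat_lit 0) (nat_lit 2172343492) (nat_lit 304) (nat_lit 1163587764) (nat_lit 380) (nat_lit 7983142871) (nat_lit 79) (nat_lit 5) (nat_lit 83) (nat_lit 5) (nat_lit 84) (nat_lit 5) (nat_lit 362) (nat_lit 277) (nat_lit 261))) (XT.nd (nat_lit 78) (nat_lit 608) (nat_lit 0) (XT.lf (nat_lit 0) (nat_lit 2389508288) (nat_lit 228) (nat_lit 7024370722) (nat_lit 304) (nat_lit 2098634631) (nat_lit 76) (nat_lit 5) (nat_lit 79) (nat_lit 5) (nat_lit 80) (nat_lit 4) (nat_lit 363) (nat_lit 277) (nat_lit 260)) (XT.nd (nat_lit 78) (nat_lit 228) (nat_lit 0) (XT.lf (nat_lit 0) (nat_lit 2492329194) (nat_lit 304) (nat_lit 1386564565) (nat_lit 380) (nat_lit 7833007549) (nat_lit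 71) (nat_lit 5) (nat_lit 75) (nat_lit 5) (nat_lit 76) (nat_lit 5) (nat_lit 364) (nat_lit 277) (nat_lit 259)) (XT.lf (nat_lit 0) (nat_lit 2462428860) (nat_lit 228) (nat_lit 7535704942) (nat_lit 304) (nat_lit 1919069124) (nat_lit 68) (nat_lit 5) (nat_lit 71) (nat_lit 5) (nat_lit 72) (nat_lit 4) (nat_lit 365) (nat_lit 277) (nat_lit 258))))) (XT.nd (nat_lit 156) (nat_lit 836) (nat_lit 0) (XT.nd (nat_lit 78) (nat_lit 228) (nat_lit 0) (XT.lf (nat_lit 0) (nat_lit 2296892029) (nat_lit 228) (nat_lit 1792944985) (nat_lit 304) (nat_lit 8038865780) (nat_lit 64) (nat_lit 5) (nat_lit 67) (nat_lit 5) (nat_lit 68) (nat_lit 5) (nat_lit 366) (nat_lit 277) (nat_lit 257)) (XT.lf (nat_lit 0) (nat_lit 1982395514) (nat_lit 228) (nat_lit 8261660447) (nat_lit 304) (nat_lit 2102441250) (nat_lit 61) (nat_lit 5) (nat_lit 64) (nat_lit 5) (nat_lit 65) (nat_lit 4) (nat_lit 367) (nat_lit 277) (nat_lit 256))) (XT.nd (nat_lit 78)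 (nat_lit 532) (nat_lit 0) (XT.lf (nat_lit 0) (nat_lit 1510150138) (nat_lit 228) (nat_lit 2426338499) (nat_lit 304) (nat_lit 8634299589) (nat_lit 57) (nat_lit 5) (nat_lit 60) (nat_lit 5) (nat_lit 61) (nat_lit 5) (nat_lit 368) (nat_lit 277) (nat_lit 255)) (XT.nd (nat_lit 78) (nat_lit 304) (nat_lit 0) (XT.lf (nat_lit 0) (nat_lit 869716570) (nat_lit 228) (nat_lit 9247830215) (nat_lit 304) (nat_lit 2684216431) (nat_lit 54) (nat_lit 5) (nat_lit 57) (nat_lit 5) (nat_lit 58) (nat_lit 4) (nat_lit 369) (nat_lit 277) (nat_lit 254)) (XT.lf (nat_lit 0) (nat_lit 48321702) (nat_lit 228) (nat_lit 3333893468) (nat_lit 304) (nat_lit 9657367166) (nat_lit 50) (nat_lit 5) (nat_lit 53) (nat_lit 5) (nat_lit 54) (nat_lit 5) (nat_lit 370) (nat_lit 277) (nat_lit 253)))))) (XT.nd (nat_lit 390) (nat_lit 760) (nat_lit 0) (XT.nd (nat_lit 156) (nat_lit 684) (nat_lit 0) (XT.nd (nat_lit 78) (nat_lit 228) (nat_lit 0) (XT.lf (nat_lit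 0) (nat_lit 9586218837) (nat_lit 304) (nat_lit 951004537) (nat_lit 76) (nat_lit 2747138737) (nat_lit 50) (nat_lit 5) (nat_lit 54) (nat_lit 5) (nat_lit 51) (nat_lit 4) (nat_lit 371) (nat_lit 277) (nat_lit 252)) (XT.lf (nat_lit 0) (nat_lit 2399769883) (nat_lit 228) (nat_lit 2152570644) (nat_lit 76) (nat_lit 8984010517) (nat_lit 47) (nat_lit 5) (nat_lit 50) (nat_lit 5) (nat_lit 48) (nat_lit 5) (nat_lit 372) (nat_lit 277) (nat_lit 251))) (XT.nd (nat_lit 78) (nat_lit 456) (nat_lit 0) (XT.lf (nat_lit 0) (nat_lit 8611147292) (nat_lit 304) (nat_lit 3567595497) (nat_lit 76) (nat_lit 1617072775) (nat_lit 44) (nat_lit 5) (nat_lit 48) (nat_lit 5) (nat_lit 45) (nat_lit 4) (nat_lit 373) (nat_lit 277) (nat_lit 250)) (XT.nd (nat_lit 78) (nat_lit 228) (nat_lit 0) (XT.lf (nat_lit 0) (nat_lit 934309338) (nat_lit 228) (nat_lit 5211467343) (nat_lit 76) (nat_lit 7917165531) (nat_lit 41) (nat_lit 5) (nat_lit 44) (nat_lit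 5) (nat_lit 42) (nat_lit 5) (nat_lit 374) (nat_lit 277) (nat_lit 249)) (XT.lf (nat_lit 0) (nat_lit 7138290195) (nat_lit 304) (nat_lit 7097705320) (nat_lit 76) (nat_lit 101982951) (nat_lit 38) (nat_lit 5) (nat_lit 42) (nat_lit 5) (nat_lit 39) (nat_lit 4) (nat_lit 375) (nat_lit 277) (nat_lit 248))))) (XT.nd (nat_lit 156) (nat_lit 380) (nat_lit 0) (XT.nd (nat_lit 78) (nat_lit 228) (nat_lit 0) (XT.lf (nat_lit 0) (nat_lit 5373240647) (nat_lit 152) (nat_lit 8167489644) (nat_lit 228) (nat_lit 1080306857) (nat_lit 36) (nat_lit 5) (nat_lit 38) (nat_lit 5) (nat_lit 39) (nat_lit 4) (nat_lit 376) (nat_lit 277) (nat_lit 247)) (XT.lf (nat_lit 0) (nat_lit 3241362567) (nat_lit 152) (nat_lit 1884189039) (nat_lit 228) (nat_lit 9786947235) (nat_lit 33) (nat_lit 5) (nat_lit 35) (nat_lit 5) (nat_lit 36) (nat_lit 5) (nat_lit 377) (nat_lit 277) (nat_lit 246))) (XT.nd (nat_lit 78) (nat_lit 228) (nat_lit 0) (XT.lf (nat_lit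 0) (nat_lit 824243690) (nat_lit 152) (nat_lit 10680198955) (nat_lit 228) (nat_lit 3708105007) (nat_lit 31) (nat_lit 5) (nat_lit 33) (nat_lit 5) (nat_lit 34) (nat_lit 4) (nat_lit 378) (nat_lit 277) (nat_lit 245)) (XT.nd (nat_lit 78) (nat_lit 152) (nat_lit 0) (XT.lf (nat_lit 0) (nat_lit 2516152108) (nat_lit 228) (nat_lit 1863485094) (nat_lit 76) (nat_lit 11141714469) (nat_lit 30) (nat_lit 5) (nat_lit 33) (nat_lit 5) (nat_lit 31) (nat_lit 5) (nat_lit 379) (nat_lit 277) (nat_lit 244)) (XT.lf (nat_lit 0) (nat_lit 8869410956) (nat_lit 228) (nat_lit 4859905698) (nat_lit 76) (nat_lit 2109775383) (nat_lit 28) (nat_lit 5) (nat_lit 31) (nat_lit 5) (nat_lit 29) (nat_lit 4) (nat_lit 380) (nat_lit 277) (nat_lit 243))))))))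
noncomputable def xc12 : XT := (XT.nd (nat_lit 44928) (nat_lit 0) (nat_lit 1824) (XT.nd (nat_lit 44148) (nat_lit 0) (nat_lit 7676) (XT.nd (nat_lit 312) (nat_lit 456) (nat_lit 0) (XT.nd (nat_lit 156) (nat_lit 228) (nat_lit 0) (XT.nd (nat_lit 78) (nat_lit 228) (nat_lit 0) (XT.lf (nat_lit 0) (nat_lit 7979960062) (nat_lit 152) (nat_lit 7435441847) (nat_lit 228) (nat_lit 750935058) (nat_lit 26) (nat_lit 5) (nat_lit 28) (nat_lit 5) (nat_lit 29) (nat_lit 4) (nat_lit 381) (nat_lit 277) (nat_lit 242)) (XT.lf (nat_lit 0) (nat_lit 4632173188) (nat_lit 152) (nat_lit 920616546) (nat_lit 228) (nat_lit 10950438095) (nat_lit 23) (nat_lit 5) (nat_lit 25) (nat_lit 5) (nat_lit 26) (nat_lit 5) (nat_lit 382) (nat_lit 277) (nat_lit 241))) (XT.nd (nat_lit 78) (nat_lit 76) (nat_lit 0) (XT.lf (nat_lit 0) (nat_lit 907951143) (nat_lit 152) (nat_lit 11137374847) (nat_lit 228) (nat_lit 4804616010) (nat_lit 21) (nat_lit 5) (nat_lit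 23) (nat_lit 5) (nat_lit 24) (nat_lit 4) (nat_lit 383) (nat_lit 277) (nat_lit 240)) (XT.lf (nat_lit 0) (nat_lit 1504215519) (nat_lit 228) (nat_lit 3147027140) (nat_lit 76) (nat_lit 12555657203) (nat_lit 20) (nat_lit 5) (nat_lit 23) (nat_lit 5) (nat_lit 21) (nat_lit 5) (nat_lit 384) (nat_lit 277) (nat_lit 239)))) (XT.nd (nat_lit 156) (nat_lit 228) (nat_lit 0) (XT.nd (nat_lit 78) (nat_lit 76) (nat_lit 0) (XT.lf (nat_lit 0) (nat_lit 7929658048) (nat_lit 228) (nat_lit 7610439614) (nat_lit 76) (nat_lit 2033994031) (nat_lit 18) (nat_lit 5) (nat_lit 21) (nat_lit 5) (nat_lit 19) (nat_lit 4) (nat_lit 385) (nat_lit 277) (nat_lit 238)) (XT.lf (nat_lit 0) (nat_lit 5447057240) (nat_lit 76) (nat_lit 9103925962) (nat_lit 152) (nat_lit 3401266158) (nat_lit 17) (nat_lit 5) (nat_lit 18) (nat_lit 5) (nat_lit 19) (nat_lit 4) (nat_lit 386) (nat_lit 277) (nat_lit 237))) (XT.nd (nat_lit 43524) (nat_lit 0) (nat_lit 12844)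 (XT.lf (nat_lit 0) (nat_lit 495569576) (nat_lit 152) (nat_lit 2465146084) (nat_lit 228) (nat_lit 15381229660) (nat_lit 14) (nat_lit 5) (nat_lit 16) (nat_lit 5) (nat_lit 17) (nat_lit 5) (nat_lit 387) (nat_lit 277) (nat_lit 236)) (XT.nd (nat_lit 78) (nat_lit 532) (nat_lit 0) (XT.lf (nat_lit 0) (nat_lit 1638255899) (nat_lit 532) (nat_lit 1352759768) (nat_lit 532) (nat_lit 1352759768) (nat_lit 190) (nat_lit 4) (nat_lit 197) (nat_lit 5) (nat_lit 197) (nat_lit 4) (nat_lit 344) (nat_lit 278) (nat_lit 278)) (XT.lf (nat_lit 0) (nat_lit 3071081269) (nat_lit 532) (nat_lit 4165021103) (nat_lit 0) (nat_lit 1561886340) (nat_lit 183) (nat_lit 5) (nat_lit 190) (nat_lit 4) (nat_lit 183) (nat_lit 4) (nat_lit 345) (nat_lit 278) (nat_lit 277)))))) (XT.nd (nat_lit 390) (nat_lit 2204) (nat_lit 0) (XT.nd (nat_lit 156) (nat_lit 1900) (nat_lit 0) (XT.nd (nat_lit 78) (nat_lit 456) (nat_lit 0) (XT.lf (nat_lit 0) (nat_lit 21976339)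 (nat_lit 608) (nat_lit 2930040518) (nat_lit 76) (nat_lit 5960411409) (nat_lit 175) (nat_lit 5) (nat_lit 183) (nat_lit 5) (nat_lit 176) (nat_lit 4) (nat_lit 346) (nat_lit 278) (nat_lit 276)) (XT.lf (nat_lit 0) (nat_lit 5810094223) (nat_lit 532) (nat_lit 1721297967) (nat_lit 0) (nat_lit 1499316095) (nat_lit 169) (nat_lit 5) (nat_lit 176) (nat_lit 4) (nat_lit 169) (nat_lit 4) (nat_lit 347) (nat_lit 278) (nat_lit 275))) (XT.nd (nat_lit 78) (nat_lit 1368) (nat_lit 0) (XT.lf (nat_lit 0) (nat_lit 2541252857) (nat_lit 532) (nat_lit 531493583) (nat_lit 76) (nat_lit 6080377564) (nat_lit 162) (nat_lit 5) (nat_lit 169) (nat_lit 5) (nat_lit 163) (nat_lit 4) (nat_lit 348) (nat_lit 278) (nat_lit 274)) (XT.nd (nat_lit 78) (nat_lit 456) (nat_lit 0) (XT.lf (nat_lit 0) (nat_lit 648982152) (nat_lit 456) (nat_lit 7736683852) (nat_lit 456) (nat_lit 894103123) (nat_lit 150) (nat_lit 4) (nat_lit 156) (nat_lit 5) (nat_lit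 156) (nat_lit 4) (nat_lit 349) (nat_lit 278) (nat_lit 273)) (XT.lf (nat_lit 0) (nat_lit 1792776131) (nat_lit 380) (nat_lit 3101604781) (nat_lit 456) (nat_lit 4515939258) (nat_lit 144) (nat_lit 5) (nat_lit 149) (nat_lit 5) (nat_lit 150) (nat_lit 4) (nat_lit 350) (nat_lit 278) (nat_lit 272))))) (XT.nd (nat_lit 156) (nat_lit 1292) (nat_lit 0) (XT.nd (nat_lit 78) (nat_lit 380) (nat_lit 0) (XT.lf (nat_lit 0) (nat_lit 1236144461) (nat_lit 532) (nat_lit 6629184736) (nat_lit 76) (nat_lit 1680148582) (nat_lit 137) (nat_lit 5) (nat_lit 144) (nat_lit 5) (nat_lit 138) (nat_lit 4) (nat_lit 351) (nat_lit 278) (nat_lit 271)) (XT.lf (nat_lit 0) (nat_lit 3989112382) (nat_lit 380) (nat_lit 3076058642) (nat_lit 456) (nat_lit 2619652800) (nat_lit 132) (nat_lit 5) (nat_lit 137) (nat_lit 5) (nat_lit 138) (nat_lit 4) (nat_lit 352) (nat_lit 278) (nat_lit 270))) (XT.nd (nat_lit 78) (nat_lit 836) (nat_lit 0) (XT.lf (nat_lit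 0) (nat_lit 3156905631) (nat_lit 456) (nat_lit 4804609371) (nat_lit 76) (nat_lit 1867283841) (nat_lit 126) (nat_lit 5) (nat_lit 132) (nat_lit 5) (nat_lit 127) (nat_lit 4) (nat_lit 353) (nat_lit 278) (nat_lit 269)) (XT.nd (nat_lit 78) (nat_lit 456) (nat_lit 0) (XT.lf (nat_lit 0) (nat_lit 6011582503) (nat_lit 380) (nat_lit 3028876711) (nat_lit 456) (nat_lit 936943749) (nat_lit 121) (nat_lit 5) (nat_lit 126) (nat_lit 5) (nat_lit 127) (nat_lit 4) (nat_lit 354) (nat_lit 278) (nat_lit 268)) (XT.lf (nat_lit 0) (nat_lit 4868664250) (nat_lit 456) (nat_lit 3192364488) (nat_lit 76) (nat_lit 2069555161) (nat_lit 115) (nat_lit 5) (nat_lit 121) (nat_lit 5) (nat_lit 116) (nat_lit 4) (nat_lit 355) (nat_lit 278) (nat_lit 267))))))) (XT.nd (nat_lit 780) (nat_lit 2508) (nat_lit 0) (XT.nd (nat_lit 390) (nat_lit 1520) (nat_lit 0) (XT.nd (nat_lit 156) (nat_lit 1064) (nat_lit 0) (XT.nd (nat_lit 78) (nat_lit 380) (nat_lit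 0) (XT.lf (nat_lit 0) (nat_lit 512524552) (nat_lit 380) (nat_lit 2474272517) (nat_lit 76) (nat_lit 7301961647) (nat_lit 110) (nat_lit 5) (nat_lit 115) (nat_lit 5) (nat_lit 111) (nat_lit 5) (nat_lit 356) (nat_lit 278) (nat_lit 266)) (XT.lf (nat_lit 0) (nat_lit 6357654015) (nat_lit 456) (nat_lit 1837239613) (nat_lit 76) (nat_lit 2256747610) (nat_lit 105) (nat_lit 5) (nat_lit 111) (nat_lit 5) (nat_lit 106) (nat_lit 4) (nat_lit 357) (nat_lit 278) (nat_lit 265))) (XT.nd (nat_lit 78) (nat_lit 684) (nat_lit 0) (XT.lf (nat_lit 0) (nat_lit 1710930011) (nat_lit 380) (nat_lit 1269171097) (nat_lit 76) (nat_lit 7639610498) (nat_lit 100) (nat_lit 5) (nat_lit 105) (nat_lit 5) (nat_lit 101) (nat_lit 5) (nat_lit 358) (nat_lit 278) (nat_lit 264)) (XT.nd (nat_lit 78) (nat_lit 380) (nat_lit 0) (XT.lf (nat_lit 0) (nat_lit 7607395440) (nat_lit 380) (nat_lit 788195511) (nat_lit 76) (nat_lit 2397265573) (nat_lit 96) (nat_lit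 5) (nat_lit 101) (nat_lit 5) (nat_lit 97) (nat_lit 4) (nat_lit 359) (nat_lit 278) (nat_lit 263)) (XT.lf (nat_lit 0) (nat_lit 2652412645) (nat_lit 380) (nat_lit 395723874) (nat_lit 76) (nat_lit 7923172087) (nat_lit 91) (nat_lit 5) (nat_lit 96) (nat_lit 5) (nat_lit 92) (nat_lit 5) (nat_lit 360) (nat_lit 278) (nat_lit 262))))) (XT.nd (nat_lit 156) (nat_lit 608) (nat_lit 0) (XT.nd (nat_lit 78) (nat_lit 608) (nat_lit 0) (XT.lf (nat_lit 0) (nat_lit 8598480249) (nat_lit 380) (nat_lit 98899493) (nat_lit 76) (nat_lit 2457818194) (nat_lit 87) (nat_lit 5) (nat_lit 92) (nat_lit 5) (nat_lit 88) (nat_lit 4) (nat_lit 361) (nat_lit 278) (nat_lit 261)) (XT.lf (nat_lit 0) (nat_lit 90982785) (nat_lit 304) (nat_lit 3225369118) (nat_lit 380) (nat_lit 8028196684) (nat_lit 79) (nat_lit 5) (nat_lit 83) (nat_lit 5) (nat_lit 84) (nat_lit 5) (nat_lit 362) (nat_lit 278) (nat_lit 260))) (XT.nd (nat_lit 78) (nat_lit 380) (nat_lit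 0) (XT.lf (nat_lit 0) (nat_lit 173970854) (nat_lit 228) (nat_lit 9135485892) (nat_lit 304) (nat_lit 2230242560) (nat_lit 76) (nat_lit 5) (nat_lit 79) (nat_lit 5) (nat_lit 80) (nat_lit 4) (nat_lit 363) (nat_lit 278) (nat_lit 259)) (XT.nd (nat_lit 78) (nat_lit 0) (nat_lit 0) (XT.lf (nat_lit 0) (nat_lit 127155657) (nat_lit 304) (nat_lit 3550111667) (nat_lit 380) (nat_lit 8063285286) (nat_lit 71) (nat_lit 5) (nat_lit 75) (nat_lit 5) (nat_lit 76) (nat_lit 5) (nat_lit 364) (nat_lit 278) (nat_lit 258)) (XT.lf (nat_lit 0) (nat_lit 9710906910) (nat_lit 380) (nat_lit 41321803) (nat_lit 76) (nat_lit 2195350781) (nat_lit 71) (nat_lit 5) (nat_lit 76) (nat_lit 5) (nat_lit 72) (nat_lit 4) (nat_lit 365) (nat_lit 278) (nat_lit 257)))))) (XT.nd (nat_lit 390) (nat_lit 1140) (nat_lit 0) (XT.nd (nat_lit 156) (nat_lit 836) (nat_lit 0) (XT.nd (nat_lit 78) (nat_lit 228) (nat_lit 0) (XT.lf (nat_lit 0) (nat_lit 3706305819)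 (nat_lit 304) (nat_lit 356782788) (nat_lit 76) (nat_lit 8097446479) (nat_lit 67) (nat_lit 5) (nat_lit 71) (nat_lit 5) (nat_lit 68) (nat_lit 5) (nat_lit 366) (nat_lit 278) (nat_lit 256)) (XT.lf (nat_lit 0) (nat_lit 9776432563) (nat_lit 304) (nat_lit 809461192) (nat_lit 76) (nat_lit 1794129843) (nat_lit 64) (nat_lit 5) (nat_lit 68) (nat_lit 5) (nat_lit 65) (nat_lit 4) (nat_lit 367) (nat_lit 278) (nat_lit 255))) (XT.nd (nat_lit 78) (nat_lit 532) (nat_lit 0) (XT.lf (nat_lit 0) (nat_lit 3373262735) (nat_lit 304) (nat_lit 1432187296) (nat_lit 76) (nat_lit 7800314295) (nat_lit 60) (nat_lit 5) (nat_lit 64) (nat_lit 5) (nat_lit 61) (nat_lit 5) (nat_lit 368) (nat_lit 278) (nat_lit 254)) (XT.nd (nat_lit 78) (nat_lit 304) (nat_lit 0) (XT.lf (nat_lit 0) (nat_lit 9471013772) (nat_lit 304) (nat_lit 2211666197) (nat_lit 76) (nat_lit 1155736811) (nat_lit 57) (nat_lit 5) (nat_lit 61) (nat_lit 5) (nat_lit 58) (nat_lit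 4) (nat_lit 369) (nat_lit 278) (nat_lit 253)) (XT.lf (nat_lit 0) (nat_lit 2640913295) (nat_lit 304) (nat_lit 3183709897) (nat_lit 76) (nat_lit 7253053708) (nat_lit 53) (nat_lit 5) (nat_lit 57) (nat_lit 5) (nat_lit 54) (nat_lit 5) (nat_lit 370) (nat_lit 278) (nat_lit 252))))) (XT.nd (nat_lit 156) (nat_lit 684) (nat_lit 0) (XT.nd (nat_lit 78) (nat_lit 228) (nat_lit 0) (XT.lf (nat_lit 0) (nat_lit 8756269655) (nat_lit 304) (nat_lit 4335131242) (nat_lit 76) (nat_lit 232839185) (nat_lit 50) (nat_lit 5) (nat_lit 54) (nat_lit 5) (nat_lit 51) (nat_lit 4) (nat_lit 371) (nat_lit 278) (nat_lit 251)) (XT.lf (nat_lit 0) (nat_lit 1468140840) (nat_lit 228) (nat_lit 5703045040) (nat_lit 76) (nat_lit 6406630241) (nat_lit 47) (nat_lit 5) (nat_lit 50) (nat_lit 5) (nat_lit 48) (nat_lit 5) (nat_lit 372) (nat_lit 278) (nat_lit 250))) (XT.nd (nat_lit 78) (nat_lit 456) (nat_lit 0) (XT.lf (nat_lit 0) (nat_lit 6555976005) (nat_lit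 228) (nat_lit 1039671679) (nat_lit 304) (nat_lit 6243320037) (nat_lit 44) (nat_lit 5) (nat_lit 47) (nat_lit 5) (nat_lit 48) (nat_lit 5) (nat_lit 373) (nat_lit 278) (nat_lit 249)) (XT.nd (nat_lit 78) (nat_lit 304) (nat_lit 0) (XT.lf (nat_lit 0) (nat_lit 5014997976) (nat_lit 152) (nat_lit 8898948392) (nat_lit 228) (nat_lit 193887224) (nat_lit 42) (nat_lit 5) (nat_lit 44) (nat_lit 5) (nat_lit 45) (nat_lit 4) (nat_lit 374) (nat_lit 278) (nat_lit 248)) (XT.lf (nat_lit 0) (nat_lit 3225188201) (nat_lit 228) (nat_lit 2712616133) (nat_lit 304) (nat_lit 8446596266) (nat_lit 38) (nat_lit 5) (nat_lit 41) (nat_lit 5) (nat_lit 42) (nat_lit 5) (nat_lit 375) (nat_lit 278) (nat_lit 247))))))))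
noncomputable def xc13 : XT := (XT.nd (nat_lit 44772) (nat_lit 0) (nat_lit 3344) (XT.nd (nat_lit 702) (nat_lit 380) (nat_lit 0) (XT.nd (nat_lit 312) (nat_lit 684) (nat_lit 0) (XT.nd (nat_lit 156) (nat_lit 380) (nat_lit 0) (XT.nd (nat_lit 78) (nat_lit 76) (nat_lit 0) (XT.lf (nat_lit 0) (nat_lit 1192134326) (nat_lit 152) (nat_lit 11055910297) (nat_lit 228) (nat_lit 2421267329) (nat_lit 36) (nat_lit 5) (nat_lit 38) (nat_lit 5) (nat_lit 39) (nat_lit 4) (nat_lit 376) (nat_lit 278) (nat_lit 246)) (XT.lf (nat_lit 0) (nat_lit 3734230607) (nat_lit 228) (nat_lit 1103493712) (nat_lit 76) (nat_lit 10124590662) (nat_lit 35) (nat_lit 5) (nat_lit 38) (nat_lit 5) (nat_lit 36) (nat_lit 5) (nat_lit 377) (nat_lit 278) (nat_lit 245))) (XT.nd (nat_lit 78) (nat_lit 228) (nat_lit 0) (XT.lf (nat_lit 0) (nat_lit 10035005318) (nat_lit 228) (nat_lit 3657876548) (nat_lit 76) (nat_lit 1571052267) (nat_lit 33) (nat_lit 5) (nat_lit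 36) (nat_lit 5) (nat_lit 34) (nat_lit 4) (nat_lit 378) (nat_lit 278) (nat_lit 244)) (XT.lf (nat_lit 0) (nat_lit 945290851) (nat_lit 228) (nat_lit 6516403629) (nat_lit 76) (nat_lit 8112648456) (nat_lit 30) (nat_lit 5) (nat_lit 33) (nat_lit 5) (nat_lit 31) (nat_lit 5) (nat_lit 379) (nat_lit 278) (nat_lit 243)))) (XT.nd (nat_lit 156) (nat_lit 380) (nat_lit 0) (XT.nd (nat_lit 78) (nat_lit 152) (nat_lit 0) (XT.lf (nat_lit 0) (nat_lit 6199541473) (nat_lit 152) (nat_lit 1009577385) (nat_lit 228) (nat_lit 8684760468) (nat_lit 28) (nat_lit 5) (nat_lit 30) (nat_lit 5) (nat_lit 31) (nat_lit 5) (nat_lit 380) (nat_lit 278) (nat_lit 242)) (XT.lf (nat_lit 0) (nat_lit 3009482462) (nat_lit 152) (nat_lit 10662955336) (nat_lit 228) (nat_lit 2550347090) (nat_lit 26) (nat_lit 5) (nat_lit 28) (nat_lit 5) (nat_lit 29) (nat_lit 4) (nat_lit 381) (nat_lit 278) (nat_lit 241))) (XT.nd (nat_lit 78) (nat_lit 304) (nat_lit 0) (XT.lf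 (nat_lit 0) (nat_lit 3703547169) (nat_lit 228) (nat_lit 520559823) (nat_lit 76) (nat_lit 12337277866) (nat_lit 25) (nat_lit 5) (nat_lit 28) (nat_lit 5) (nat_lit 26) (nat_lit 5) (nat_lit 382) (nat_lit 278) (nat_lit 240)) (XT.nd (nat_lit 78) (nat_lit 152) (nat_lit 0) (XT.lf (nat_lit 0) (nat_lit 10122496462) (nat_lit 228) (nat_lit 4376500471) (nat_lit 76) (nat_lit 2410580482) (nat_lit 23) (nat_lit 5) (nat_lit 26) (nat_lit 5) (nat_lit 24) (nat_lit 4) (nat_lit 383) (nat_lit 278) (nat_lit 239)) (XT.lf (nat_lit 0) (nat_lit 8652450749) (nat_lit 152) (nat_lit 8085194585) (nat_lit 228) (nat_lit 530510891) (nat_lit 21) (nat_lit 5) (nat_lit 23) (nat_lit 5) (nat_lit 24) (nat_lit 4) (nat_lit 384) (nat_lit 278) (nat_lit 238)))))) (XT.nd (nat_lit 43680) (nat_lit 0) (nat_lit 11096) (XT.nd (nat_lit 156) (nat_lit 152) (nat_lit 0) (XT.nd (nat_lit 78) (nat_lit 0) (nat_lit 0) (XT.lf (nat_lit 0) (nat_lit 4365189905) (nat_lit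 152) (nat_lit 1445792369) (nat_lit 228) (nat_lit 11826258956) (nat_lit 18) (nat_lit 5) (nat_lit 20) (nat_lit 5) (nat_lit 21) (nat_lit 5) (nat_lit 385) (nat_lit 278) (nat_lit 237)) (XT.lf (nat_lit 0) (nat_lit 12346989192) (nat_lit 228) (nat_lit 349298538) (nat_lit 76) (nat_lit 5320823496) (nat_lit 18) (nat_lit 5) (nat_lit 21) (nat_lit 5) (nat_lit 19) (nat_lit 4) (nat_lit 386) (nat_lit 278) (nat_lit 236))) (XT.nd (nat_lit 43368) (nat_lit 0) (nat_lit 13756) (XT.lf (nat_lit 0) (nat_lit 675967747) (nat_lit 152) (nat_lit 5434140824) (nat_lit 76) (nat_lit 12297911878) (nat_lit 16) (nat_lit 5) (nat_lit 18) (nat_lit 5) (nat_lit 17) (nat_lit 5) (nat_lit 387) (nat_lit 278) (nat_lit 235)) (XT.nd (nat_lit 78) (nat_lit 608) (nat_lit 0) (XT.lf (nat_lit 0) (nat_lit 323591805) (nat_lit 532) (nat_lit 1957416353) (nat_lit 532) (nat_lit 1957416353) (nat_lit 205) (nat_lit 4) (nat_lit 212) (nat_lit 5) (nat_lit 212) (nat_lit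 4) (nat_lit 342) (nat_lit 279) (nat_lit 279)) (XT.lf (nat_lit 0) (nat_lit 1753860306) (nat_lit 608) (nat_lit 6658999640) (nat_lit 0) (nat_lit 168300113) (nat_lit 197) (nat_lit 5) (nat_lit 205) (nat_lit 4) (nat_lit 197) (nat_lit 4) (nat_lit 343) (nat_lit 279) (nat_lit 278))))) (XT.nd (nat_lit 156) (nat_lit 1596) (nat_lit 0) (XT.nd (nat_lit 78) (nat_lit 532) (nat_lit 0) (XT.lf (nat_lit 0) (nat_lit 3178209090) (nat_lit 532) (nat_lit 4317870702) (nat_lit 532) (nat_lit 1192931681) (nat_lit 190) (nat_lit 4) (nat_lit 197) (nat_lit 5) (nat_lit 197) (nat_lit 4) (nat_lit 344) (nat_lit 279) (nat_lit 277)) (XT.lf (nat_lit 0) (nat_lit 4434729666) (nat_lit 456) (nat_lit 47553124) (nat_lit 532) (nat_lit 4318629983) (nat_lit 183) (nat_lit 5) (nat_lit 189) (nat_lit 5) (nat_lit 190) (nat_lit 4) (nat_lit 345) (nat_lit 279) (nat_lit 276))) (XT.nd (nat_lit 78) (nat_lit 988) (nat_lit 0) (XT.lf (nat_lit 0) (nat_lit 1340356390)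 (nat_lit 608) (nat_lit 3243944560) (nat_lit 76) (nat_lit 4332324574) (nat_lit 175) (nat_lit 5) (nat_lit 183) (nat_lit 5) (nat_lit 176) (nat_lit 4) (nat_lit 346) (nat_lit 279) (nat_lit 275)) (XT.nd (nat_lit 78) (nat_lit 532) (nat_lit 0) (XT.lf (nat_lit 0) (nat_lit 6904698323) (nat_lit 456) (nat_lit 143465014) (nat_lit 532) (nat_lit 1988375135) (nat_lit 169) (nat_lit 5) (nat_lit 175) (nat_lit 5) (nat_lit 176) (nat_lit 4) (nat_lit 347) (nat_lit 279) (nat_lit 274)) (XT.lf (nat_lit 0) (nat_lit 3686015859) (nat_lit 532) (nat_lit 1057671265) (nat_lit 76) (nat_lit 4416558780) (nat_lit 162) (nat_lit 5) (nat_lit 169) (nat_lit 5) (nat_lit 163) (nat_lit 4) (nat_lit 348) (nat_lit 279) (nat_lit 273))))))) (XT.nd (nat_lit 780) (nat_lit 3040) (nat_lit 0) (XT.nd (nat_lit 390) (nat_lit 1976) (nat_lit 0) (XT.nd (nat_lit 156) (nat_lit 1368) (nat_lit 0) (XT.nd (nat_lit 78) (nat_lit 380) (nat_lit 0) (XT.lf (nat_lit 0)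 (nat_lit 12353811) (nat_lit 456) (nat_lit 143374532) (nat_lit 532) (nat_lit 9132847572) (nat_lit 149) (nat_lit 5) (nat_lit 155) (nat_lit 5) (nat_lit 156) (nat_lit 5) (nat_lit 349) (nat_lit 279) (nat_lit 272)) (XT.lf (nat_lit 0) (nat_lit 1036394763) (nat_lit 380) (nat_lit 4824607229) (nat_lit 456) (nat_lit 3559462041) (nat_lit 144) (nat_lit 5) (nat_lit 149) (nat_lit 5) (nat_lit 150) (nat_lit 4) (nat_lit 350) (nat_lit 279) (nat_lit 271))) (XT.nd (nat_lit 78) (nat_lit 836) (nat_lit 0) (XT.lf (nat_lit 0) (nat_lit 2047818934) (nat_lit 456) (nat_lit 50699722) (nat_lit 532) (nat_lit 7458632322) (nat_lit 137) (nat_lit 5) (nat_lit 143) (nat_lit 5) (nat_lit 144) (nat_lit 5) (nat_lit 351) (nat_lit 279) (nat_lit 270)) (XT.nd (nat_lit 78) (nat_lit 456) (nat_lit 0) (XT.lf (nat_lit 0) (nat_lit 3001318132) (nat_lit 380) (nat_lit 4855771266) (nat_lit 456) (nat_lit 1840838453) (nat_lit 132) (nat_lit 5) (nat_lit 137)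 (nat_lit 5) (nat_lit 138) (nat_lit 4) (nat_lit 352) (nat_lit 279) (nat_lit 269)) (XT.lf (nat_lit 0) (nat_lit 3843594385) (nat_lit 456) (nat_lit 5922175169) (nat_lit 76) (nat_lit 77691077) (nat_lit 126) (nat_lit 5) (nat_lit 132) (nat_lit 5) (nat_lit 127) (nat_lit 4) (nat_lit 353) (nat_lit 279) (nat_lit 268))))) (XT.nd (nat_lit 156) (nat_lit 1140) (nat_lit 0) (XT.nd (nat_lit 78) (nat_lit 456) (nat_lit 0) (XT.lf (nat_lit 0) (nat_lit 4784060751) (nat_lit 380) (nat_lit 4873245718) (nat_lit 456) (nat_lit 336175178) (nat_lit 121) (nat_lit 5) (nat_lit 126) (nat_lit 5) (nat_lit 127) (nat_lit 4) (nat_lit 354) (nat_lit 279) (nat_lit 267)) (XT.lf (nat_lit 0) (nat_lit 5379427734) (nat_lit 456) (nat_lit 4556049556) (nat_lit 76) (nat_lit 212768897) (nat_lit 115) (nat_lit 5) (nat_lit 121) (nat_lit 5) (nat_lit 116) (nat_lit 4) (nat_lit 355) (nat_lit 279) (nat_lit 266))) (XT.nd (nat_lit 78) (nat_lit 760) (nat_lit 0)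 (XT.lf (nat_lit 0) (nat_lit 928985639) (nat_lit 380) (nat_lit 3971790330) (nat_lit 76) (nat_lit 5407002642) (nat_lit 110) (nat_lit 5) (nat_lit 115) (nat_lit 5) (nat_lit 111) (nat_lit 5) (nat_lit 356) (nat_lit 279) (nat_lit 265)) (XT.nd (nat_lit 78) (nat_lit 380) (nat_lit 0) (XT.lf (nat_lit 0) (nat_lit 6691589053) (nat_lit 456) (nat_lit 3455574209) (nat_lit 76) (nat_lit 325166042) (nat_lit 105) (nat_lit 5) (nat_lit 111) (nat_lit 5) (nat_lit 106) (nat_lit 4) (nat_lit 357) (nat_lit 279) (nat_lit 264)) (XT.lf (nat_lit 0) (nat_lit 1949912756) (nat_lit 380) (nat_lit 3025346070) (nat_lit 76) (nat_lit 5666520088) (nat_lit 100) (nat_lit 5) (nat_lit 105) (nat_lit 5) (nat_lit 101) (nat_lit 5) (nat_lit 358) (nat_lit 279) (nat_lit 263)))))) (XT.nd (nat_lit 390) (nat_lit 1444) (nat_lit 0) (XT.nd (nat_lit 156) (nat_lit 912) (nat_lit 0) (XT.nd (nat_lit 78) (nat_lit 380) (nat_lit 0) (XT.lf (nat_lit 0) (nat_lit 7763271241)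 (nat_lit 380) (nat_lit 2669893867) (nat_lit 76) (nat_lit 383437174) (nat_lit 96) (nat_lit 5) (nat_lit 101) (nat_lit 5) (nat_lit 97) (nat_lit 4) (nat_lit 359) (nat_lit 279) (nat_lit 262)) (XT.lf (nat_lit 0) (nat_lit 2712540661) (nat_lit 380) (nat_lit 2419391303) (nat_lit 76) (nat_lit 5864526149) (nat_lit 91) (nat_lit 5) (nat_lit 96) (nat_lit 5) (nat_lit 92) (nat_lit 5) (nat_lit 360) (nat_lit 279) (nat_lit 261))) (XT.nd (nat_lit 78) (nat_lit 608) (nat_lit 0) (XT.lf (nat_lit 0) (nat_lit 8574743769) (nat_lit 380) (nat_lit 2252884627) (nat_lit 76) (nat_lit 354411408) (nat_lit 87) (nat_lit 5) (nat_lit 92) (nat_lit 5) (nat_lit 88) (nat_lit 4) (nat_lit 361) (nat_lit 279) (nat_lit 260)) (XT.nd (nat_lit 78) (nat_lit 304) (nat_lit 0) (XT.lf (nat_lit 0) (nat_lit 3195336665) (nat_lit 304) (nat_lit 2210425274) (nat_lit 76) (nat_lit 5967071436) (nat_lit 83) (nat_lit 5) (nat_lit 87) (nat_lit 5) (nat_lit 84) (nat_lit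 5) (nat_lit 362) (nat_lit 279) (nat_lit 259)) (XT.lf (nat_lit 0) (nat_lit 9103107401) (nat_lit 380) (nat_lit 2263738912) (nat_lit 76) (nat_lit 202858390) (nat_lit 79) (nat_lit 5) (nat_lit 84) (nat_lit 5) (nat_lit 80) (nat_lit 4) (nat_lit 363) (nat_lit 279) (nat_lit 258))))) (XT.nd (nat_lit 156) (nat_lit 836) (nat_lit 0) (XT.nd (nat_lit 78) (nat_lit 304) (nat_lit 0) (XT.lf (nat_lit 0) (nat_lit 3373449274) (nat_lit 304) (nat_lit 2460573062) (nat_lit 76) (nat_lit 5937990883) (nat_lit 75) (nat_lit 5) (nat_lit 79) (nat_lit 5) (nat_lit 76) (nat_lit 5) (nat_lit 364) (nat_lit 279) (nat_lit 257)) (XT.lf (nat_lit 0) (nat_lit 9212417493) (nat_lit 304) (nat_lit 110316628) (nat_lit 380) (nat_lit 2658005948) (nat_lit 71) (nat_lit 5) (nat_lit 75) (nat_lit 5) (nat_lit 76) (nat_lit 5) (nat_lit 365) (nat_lit 279) (nat_lit 256))) (XT.nd (nat_lit 78) (nat_lit 532) (nat_lit 0) (XT.lf (nat_lit 0) (nat_lit 3218415120) (nat_lit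 304) (nat_lit 3238256941) (nat_lit 76) (nat_lit 5738532228) (nat_lit 67) (nat_lit 5) (nat_lit 71) (nat_lit 5) (nat_lit 68) (nat_lit 5) (nat_lit 366) (nat_lit 279) (nat_lit 255)) (XT.nd (nat_lit 78) (nat_lit 304) (nat_lit 0) (XT.lf (nat_lit 0) (nat_lit 8575982621) (nat_lit 228) (nat_lit 629480089) (nat_lit 304) (nat_lit 3210903568) (nat_lit 64) (nat_lit 5) (nat_lit 67) (nat_lit 5) (nat_lit 68) (nat_lit 5) (nat_lit 367) (nat_lit 279) (nat_lit 254)) (XT.lf (nat_lit 0) (nat_lit 2697830424) (nat_lit 304) (nat_lit 4618933227) (nat_lit 76) (nat_lit 5326955235) (nat_lit 60) (nat_lit 5) (nat_lit 64) (nat_lit 5) (nat_lit 61) (nat_lit 5) (nat_lit 368) (nat_lit 279) (nat_lit 253))))))))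
noncomputable def xc14 : XT := (XT.nd (nat_lit 44616) (nat_lit 0) (nat_lit 6004) (XT.nd (nat_lit 702) (nat_lit 1368) (nat_lit 0) (XT.nd (nat_lit 312) (nat_lit 912) (nat_lit 0) (XT.nd (nat_lit 156) (nat_lit 456) (nat_lit 0) (XT.nd (nat_lit 78) (nat_lit 304) (nat_lit 0) (XT.lf (nat_lit 0) (nat_lit 7319856229) (nat_lit 228) (nat_lit 1396187730) (nat_lit 304) (nat_lit 4161929123) (nat_lit 57) (nat_lit 5) (nat_lit 60) (nat_lit 5) (nat_lit 61) (nat_lit 5) (nat_lit 369) (nat_lit 279) (nat_lit 252)) (XT.lf (nat_lit 0) (nat_lit 1774983660) (nat_lit 304) (nat_lit 6685901824) (nat_lit 76) (nat_lit 4658097828) (nat_lit 53) (nat_lit 5) (nat_lit 57) (nat_lit 5) (nat_lit 54) (nat_lit 5) (nat_lit 370) (nat_lit 279) (nat_lit 251))) (XT.nd (nat_lit 78) (nat_lit 228) (nat_lit 0) (XT.lf (nat_lit 0) (nat_lit 5357685081) (nat_lit 228) (nat_lit 2458412073) (nat_lit 304) (nat_lit 5550944357) (nat_lit 50) (nat_lit 5) (nat_lit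 53) (nat_lit 5) (nat_lit 54) (nat_lit 5) (nat_lit 371) (nat_lit 279) (nat_lit 250)) (XT.lf (nat_lit 0) (nat_lit 408445702) (nat_lit 228) (nat_lit 9531196399) (nat_lit 76) (nat_lit 3682905021) (nat_lit 47) (nat_lit 5) (nat_lit 50) (nat_lit 5) (nat_lit 48) (nat_lit 5) (nat_lit 372) (nat_lit 279) (nat_lit 249)))) (XT.nd (nat_lit 156) (nat_lit 532) (nat_lit 0) (XT.nd (nat_lit 78) (nat_lit 152) (nat_lit 0) (XT.lf (nat_lit 0) (nat_lit 2594001850) (nat_lit 228) (nat_lit 3868344574) (nat_lit 304) (nat_lit 7422833808) (nat_lit 44) (nat_lit 5) (nat_lit 47) (nat_lit 5) (nat_lit 48) (nat_lit 5) (nat_lit 373) (nat_lit 279) (nat_lit 248)) (XT.lf (nat_lit 0) (nat_lit 889809972) (nat_lit 152) (nat_lit 11798457812) (nat_lit 228) (nat_lit 1467634978) (nat_lit 42) (nat_lit 5) (nat_lit 44) (nat_lit 5) (nat_lit 45) (nat_lit 4) (nat_lit 374) (nat_lit 279) (nat_lit 247))) (XT.nd (nat_lit 78) (nat_lit 456) (nat_lit 0) (XT.lf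 (nat_lit 0) (nat_lit 4613134392) (nat_lit 228) (nat_lit 1062672967) (nat_lit 76) (nat_lit 8758189039) (nat_lit 41) (nat_lit 5) (nat_lit 44) (nat_lit 5) (nat_lit 42) (nat_lit 5) (nat_lit 375) (nat_lit 279) (nat_lit 246)) (XT.nd (nat_lit 78) (nat_lit 228) (nat_lit 0) (XT.lf (nat_lit 0) (nat_lit 10843298577) (nat_lit 304) (nat_lit 3235910683) (nat_lit 76) (nat_lit 641308434) (nat_lit 38) (nat_lit 5) (nat_lit 42) (nat_lit 5) (nat_lit 39) (nat_lit 4) (nat_lit 376) (nat_lit 279) (nat_lit 245)) (XT.lf (nat_lit 0) (nat_lit 2230407715) (nat_lit 228) (nat_lit 5695871554) (nat_lit 76) (nat_lit 7088777854) (nat_lit 35) (nat_lit 5) (nat_lit 38) (nat_lit 5) (nat_lit 36) (nat_lit 5) (nat_lit 377) (nat_lit 279) (nat_lit 244)))))) (XT.nd (nat_lit 390) (nat_lit 608) (nat_lit 0) (XT.nd (nat_lit 156) (nat_lit 456) (nat_lit 0) (XT.nd (nat_lit 78) (nat_lit 152) (nat_lit 0) (XT.lf (nat_lit 0) (nat_lit 6885186708) (nat_lit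 152) (nat_lit 1560730372) (nat_lit 228) (nat_lit 6872472286) (nat_lit 33) (nat_lit 5) (nat_lit 35) (nat_lit 5) (nat_lit 36) (nat_lit 5) (nat_lit 378) (nat_lit 279) (nat_lit 243)) (XT.lf (nat_lit 0) (nat_lit 4158348344) (nat_lit 152) (nat_lit 10699274246) (nat_lit 228) (nat_lit 773019708) (nat_lit 31) (nat_lit 5) (nat_lit 33) (nat_lit 5) (nat_lit 34) (nat_lit 4) (nat_lit 379) (nat_lit 279) (nat_lit 242))) (XT.nd (nat_lit 78) (nat_lit 228) (nat_lit 0) (XT.lf (nat_lit 0) (nat_lit 1106128835) (nat_lit 152) (nat_lit 4318615716) (nat_lit 228) (nat_lit 10527065751) (nat_lit 28) (nat_lit 5) (nat_lit 30) (nat_lit 5) (nat_lit 31) (nat_lit 5) (nat_lit 380) (nat_lit 279) (nat_lit 241)) (XT.nd (nat_lit 78) (nat_lit 228) (nat_lit 0) (XT.lf (nat_lit 0) (nat_lit 11804470988) (nat_lit 228) (nat_lit 2235003460) (nat_lit 76) (nat_lit 2242920249) (nat_lit 28) (nat_lit 5) (nat_lit 31) (nat_lit 5) (nat_lit 29) (nat_lit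 4) (nat_lit 381) (nat_lit 279) (nat_lit 240)) (XT.lf (nat_lit 0) (nat_lit 1744357478) (nat_lit 228) (nat_lit 5916542747) (nat_lit 76) (nat_lit 8961489261) (nat_lit 25) (nat_lit 5) (nat_lit 28) (nat_lit 5) (nat_lit 26) (nat_lit 5) (nat_lit 382) (nat_lit 279) (nat_lit 239))))) (XT.nd (nat_lit 156) (nat_lit 304) (nat_lit 0) (XT.nd (nat_lit 78) (nat_lit 152) (nat_lit 0) (XT.lf (nat_lit 0) (nat_lit 7008265667) (nat_lit 152) (nat_lit 1062340005) (nat_lit 228) (nat_lit 8901836847) (nat_lit 23) (nat_lit 5) (nat_lit 25) (nat_lit 5) (nat_lit 26) (nat_lit 5) (nat_lit 383) (nat_lit 279) (nat_lit 238)) (XT.lf (nat_lit 0) (nat_lit 2924784762) (nat_lit 152) (nat_lit 11676545155) (nat_lit 228) (nat_lit 2731386170) (nat_lit 21) (nat_lit 5) (nat_lit 23) (nat_lit 5) (nat_lit 24) (nat_lit 4) (nat_lit 384) (nat_lit 279) (nat_lit 237))) (XT.nd (nat_lit 78) (nat_lit 228) (nat_lit 0) (XT.lf (nat_lit 0) (nat_lit 3570738882)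 (nat_lit 228) (nat_lit 1541136055) (nat_lit 76) (nat_lit 12591582568) (nat_lit 20) (nat_lit 5) (nat_lit 23) (nat_lit 5) (nat_lit 21) (nat_lit 5) (nat_lit 385) (nat_lit 279) (nat_lit 236)) (XT.nd (nat_lit 78) (nat_lit 76) (nat_lit 0) (XT.lf (nat_lit 0) (nat_lit 10033353188) (nat_lit 228) (nat_lit 6389229391) (nat_lit 76) (nat_lit 1662218564) (nat_lit 18) (nat_lit 5) (nat_lit 21) (nat_lit 5) (nat_lit 19) (nat_lit 4) (nat_lit 386) (nat_lit 279) (nat_lit 235)) (XT.lf (nat_lit 0) (nat_lit 6788787627) (nat_lit 76) (nat_lit 9912212920) (nat_lit 152) (nat_lit 1776372859) (nat_lit 17) (nat_lit 5) (nat_lit 18) (nat_lit 5) (nat_lit 19) (nat_lit 4) (nat_lit 387) (nat_lit 279) (nat_lit 234))))))) (XT.nd (nat_lit 780) (nat_lit 4484) (nat_lit 0) (XT.nd (nat_lit 390) (nat_lit 2584) (nat_lit 0) (XT.nd (nat_lit 156) (nat_lit 2280) (nat_lit 0) (XT.nd (nat_lit 78) (nat_lit 684) (nat_lit 0) (XT.lf (nat_lit 0) (nat_lit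 1628243286) (nat_lit 684) (nat_lit 882592102) (nat_lit 0) (nat_lit 1628243286) (nat_lit 228) (nat_lit 5) (nat_lit 237) (nat_lit 4) (nat_lit 228) (nat_lit 4) (nat_lit 340) (nat_lit 280) (nat_lit 280)) (XT.lf (nat_lit 0) (nat_lit 542440267) (nat_lit 684) (nat_lit 603375988) (nat_lit 76) (nat_lit 7230751830) (nat_lit 219) (nat_lit 5) (nat_lit 228) (nat_lit 5) (nat_lit 220) (nat_lit 4) (nat_lit 341) (nat_lit 280) (nat_lit 279))) (XT.nd (nat_lit 78) (nat_lit 1216) (nat_lit 0) (XT.lf (nat_lit 0) (nat_lit 550864233) (nat_lit 532) (nat_lit 5605255674) (nat_lit 532) (nat_lit 2322194739) (nat_lit 205) (nat_lit 4) (nat_lit 212) (nat_lit 5) (nat_lit 212) (nat_lit 4) (nat_lit 342) (nat_lit 280) (nat_lit 278)) (XT.nd (nat_lit 78) (nat_lit 608) (nat_lit 0) (XT.lf (nat_lit 0) (nat_lit 1717996097) (nat_lit 532) (nat_lit 1535084811) (nat_lit 608) (nat_lit 5330818924) (nat_lit 197) (nat_lit 5) (nat_lit 204) (nat_lit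 5) (nat_lit 205) (nat_lit 4) (nat_lit 343) (nat_lit 280) (nat_lit 277)) (XT.lf (nat_lit 0) (nat_lit 218313270) (nat_lit 608) (nat_lit 5811615763) (nat_lit 76) (nat_lit 2663436798) (nat_lit 189) (nat_lit 5) (nat_lit 197) (nat_lit 5) (nat_lit 190) (nat_lit 4) (nat_lit 344) (nat_lit 280) (nat_lit 276))))) (XT.nd (nat_lit 156) (nat_lit 1520) (nat_lit 0) (XT.nd (nat_lit 78) (nat_lit 608) (nat_lit 0) (XT.lf (nat_lit 0) (nat_lit 4027236739) (nat_lit 456) (nat_lit 1780118456) (nat_lit 532) (nat_lit 2999195634) (nat_lit 183) (nat_lit 5) (nat_lit 189) (nat_lit 5) (nat_lit 190) (nat_lit 4) (nat_lit 345) (nat_lit 280) (nat_lit 275)) (XT.lf (nat_lit 0) (nat_lit 2560747158) (nat_lit 608) (nat_lit 3760987259) (nat_lit 76) (nat_lit 2602019320) (nat_lit 175) (nat_lit 5) (nat_lit 183) (nat_lit 5) (nat_lit 176) (nat_lit 4) (nat_lit 346) (nat_lit 280) (nat_lit 274))) (XT.nd (nat_lit 78) (nat_lit 1064) (nat_lit 0) (XT.lf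 (nat_lit 0) (nat_lit 6286903298) (nat_lit 456) (nat_lit 1911859061) (nat_lit 532) (nat_lit 846326096) (nat_lit 169) (nat_lit 5) (nat_lit 175) (nat_lit 5) (nat_lit 176) (nat_lit 4) (nat_lit 347) (nat_lit 280) (nat_lit 273)) (XT.nd (nat_lit 78) (nat_lit 532) (nat_lit 0) (XT.lf (nat_lit 0) (nat_lit 4731763367) (nat_lit 532) (nat_lit 1791290419) (nat_lit 76) (nat_lit 2647244952) (nat_lit 162) (nat_lit 5) (nat_lit 169) (nat_lit 5) (nat_lit 163) (nat_lit 4) (nat_lit 348) (nat_lit 280) (nat_lit 272)) (XT.lf (nat_lit 0) (nat_lit 1108067637) (nat_lit 532) (nat_lit 841783863) (nat_lit 76) (nat_lit 7350061698) (nat_lit 155) (nat_lit 5) (nat_lit 162) (nat_lit 5) (nat_lit 156) (nat_lit 5) (nat_lit 349) (nat_lit 280) (nat_lit 271)))))) (XT.nd (nat_lit 390) (nat_lit 1824) (nat_lit 0) (XT.nd (nat_lit 156) (nat_lit 1292) (nat_lit 0) (XT.nd (nat_lit 78) (nat_lit 532) (nat_lit 0) (XT.lf (nat_lit 0) (nat_lit 65300233)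 (nat_lit 380) (nat_lit 6660702148) (nat_lit 456) (nat_lit 2707568524) (nat_lit 144) (nat_lit 5) (nat_lit 149) (nat_lit 5) (nat_lit 150) (nat_lit 4) (nat_lit 350) (nat_lit 280) (nat_lit 270)) (XT.lf (nat_lit 0) (nat_lit 951007013) (nat_lit 456) (nat_lit 1918205242) (nat_lit 532) (nat_lit 6702357231) (nat_lit 137) (nat_lit 5) (nat_lit 143) (nat_lit 5) (nat_lit 144) (nat_lit 5) (nat_lit 351) (nat_lit 280) (nat_lit 269))) (XT.nd (nat_lit 78) (nat_lit 912) (nat_lit 0) (XT.lf (nat_lit 0) (nat_lit 1794126841) (nat_lit 380) (nat_lit 6751835680) (nat_lit 456) (nat_lit 1168041328) (nat_lit 132) (nat_lit 5) (nat_lit 137) (nat_lit 5) (nat_lit 138) (nat_lit 4) (nat_lit 352) (nat_lit 280) (nat_lit 268)) (XT.nd (nat_lit 78) (nat_lit 456) (nat_lit 0) (XT.lf (nat_lit 0) (nat_lit 2585051160) (nat_lit 380) (nat_lit 1852259361) (nat_lit 456) (nat_lit 5423563950) (nat_lit 126) (nat_lit 5) (nat_lit 131) (nat_lit 5) (nat_lit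 132) (nat_lit 5) (nat_lit 353) (nat_lit 280) (nat_lit 267)) (XT.lf (nat_lit 0) (nat_lit 154897125) (nat_lit 456) (nat_lit 6681289276) (nat_lit 76) (nat_lit 3176338617) (nat_lit 120) (nat_lit 5) (nat_lit 126) (nat_lit 5) (nat_lit 121) (nat_lit 5) (nat_lit 354) (nat_lit 280) (nat_lit 266))))) (XT.nd (nat_lit 156) (nat_lit 1064) (nat_lit 0) (XT.nd (nat_lit 78) (nat_lit 380) (nat_lit 0) (XT.lf (nat_lit 0) (nat_lit 4008330477) (nat_lit 380) (nat_lit 1786757281) (nat_lit 456) (nat_lit 4373596755) (nat_lit 115) (nat_lit 5) (nat_lit 120) (nat_lit 5) (nat_lit 121) (nat_lit 5) (nat_lit 355) (nat_lit 280) (nat_lit 265)) (XT.lf (nat_lit 0) (nat_lit 1237437451) (nat_lit 380) (nat_lit 5700927145) (nat_lit 76) (nat_lit 3391450399) (nat_lit 110) (nat_lit 5) (nat_lit 115) (nat_lit 5) (nat_lit 111) (nat_lit 5) (nat_lit 356) (nat_lit 280) (nat_lit 264))) (XT.nd (nat_lit 78) (nat_lit 684) (nat_lit 0) (XT.lf (nat_lit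 0) (nat_lit 5176345832) (nat_lit 380) (nat_lit 1751960286) (nat_lit 456) (nat_lit 3567511399) (nat_lit 105) (nat_lit 5) (nat_lit 110) (nat_lit 5) (nat_lit 111) (nat_lit 5) (nat_lit 357) (nat_lit 280) (nat_lit 263)) (XT.nd (nat_lit 78) (nat_lit 304) (nat_lit 0) (XT.lf (nat_lit 0) (nat_lit 2078919221) (nat_lit 380) (nat_lit 5018422408) (nat_lit 76) (nat_lit 3569542637) (nat_lit 100) (nat_lit 5) (nat_lit 105) (nat_lit 5) (nat_lit 101) (nat_lit 5) (nat_lit 358) (nat_lit 280) (nat_lit 262)) (XT.lf (nat_lit 0) (nat_lit 6040443614) (nat_lit 304) (nat_lit 1779593028) (nat_lit 380) (nat_lit 3023131648) (nat_lit 96) (nat_lit 5) (nat_lit 100) (nat_lit 5) (nat_lit 101) (nat_lit 5) (nat_lit 359) (nat_lit 280) (nat_lit 261))))))))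
noncomputable def xc15 : XT := (XT.nd (nat_lit 1560) (nat_lit 1216) (nat_lit 0) (XT.nd (nat_lit 780) (nat_lit 1824) (nat_lit 0) (XT.nd (nat_lit 390) (nat_lit 1368) (nat_lit 0) (XT.nd (nat_lit 156) (nat_lit 912) (nat_lit 0) (XT.nd (nat_lit 78) (nat_lit 304) (nat_lit 0) (XT.lf (nat_lit 0) (nat_lit 2660541154) (nat_lit 380) (nat_lit 4685469623) (nat_lit 76) (nat_lit 3678660551) (nat_lit 91) (nat_lit 5) (nat_lit 96) (nat_lit 5) (nat_lit 92) (nat_lit 5) (nat_lit 360) (nat_lit 280) (nat_lit 260)) (XT.lf (nat_lit 0) (nat_lit 6547284498) (nat_lit 304) (nat_lit 1903158834) (nat_lit 380) (nat_lit 2761270339) (nat_lit 87) (nat_lit 5) (nat_lit 91) (nat_lit 5) (nat_lit 92) (nat_lit 5) (nat_lit 361) (nat_lit 280) (nat_lit 259))) (XT.nd (nat_lit 78) (nat_lit 608) (nat_lit 0) (XT.lf (nat_lit 0) (nat_lit 2960448182) (nat_lit 304) (nat_lit 4758801491) (nat_lit 76) (nat_lit 3684950163) (nat_lit 83) (nat_lit 5) (nat_lit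 87) (nat_lit 5) (nat_lit 84) (nat_lit 5) (nat_lit 362) (nat_lit 280) (nat_lit 258)) (XT.nd (nat_lit 78) (nat_lit 304) (nat_lit 0) (XT.lf (nat_lit 0) (nat_lit 6638262413) (nat_lit 304) (nat_lit 2158276535) (nat_lit 380) (nat_lit 2805979339) (nat_lit 79) (nat_lit 5) (nat_lit 83) (nat_lit 5) (nat_lit 84) (nat_lit 5) (nat_lit 363) (nat_lit 280) (nat_lit 257)) (XT.lf (nat_lit 0) (nat_lit 2953469741) (nat_lit 304) (nat_lit 5300800967) (nat_lit 76) (nat_lit 3552314006) (nat_lit 75) (nat_lit 5) (nat_lit 79) (nat_lit 5) (nat_lit 76) (nat_lit 5) (nat_lit 364) (nat_lit 280) (nat_lit 256))))) (XT.nd (nat_lit 156) (nat_lit 760) (nat_lit 0) (XT.nd (nat_lit 78) (nat_lit 304) (nat_lit 0) (XT.lf (nat_lit 0) (nat_lit 6248868030) (nat_lit 304) (nat_lit 2583041954) (nat_lit 380) (nat_lit 3184830969) (nat_lit 71) (nat_lit 5) (nat_lit 75) (nat_lit 5) (nat_lit 76) (nat_lit 5) (nat_lit 365) (nat_lit 280) (nat_lit 255)) (XT.lf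 (nat_lit 0) (nat_lit 2610825659) (nat_lit 304) (nat_lit 6380172372) (nat_lit 76) (nat_lit 3242040924) (nat_lit 67) (nat_lit 5) (nat_lit 71) (nat_lit 5) (nat_lit 68) (nat_lit 5) (nat_lit 366) (nat_lit 280) (nat_lit 254))) (XT.nd (nat_lit 78) (nat_lit 532) (nat_lit 0) (XT.lf (nat_lit 0) (nat_lit 5307990542) (nat_lit 228) (nat_lit 3218417453) (nat_lit 304) (nat_lit 3929233801) (nat_lit 64) (nat_lit 5) (nat_lit 67) (nat_lit 5) (nat_lit 68) (nat_lit 5) (nat_lit 367) (nat_lit 280) (nat_lit 253)) (XT.nd (nat_lit 78) (nat_lit 228) (nat_lit 0) (XT.lf (nat_lit 0) (nat_lit 1899796623) (nat_lit 304) (nat_lit 8072678082) (nat_lit 76) (nat_lit 2712406461) (nat_lit 60) (nat_lit 5) (nat_lit 64) (nat_lit 5) (nat_lit 61) (nat_lit 5) (nat_lit 368) (nat_lit 280) (nat_lit 252)) (XT.lf (nat_lit 0) (nat_lit 3737150932) (nat_lit 228) (nat_lit 4108653204) (nat_lit 304) (nat_lit 5074786018) (nat_lit 57) (nat_lit 5) (nat_lit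 60) (nat_lit 5) (nat_lit 61) (nat_lit 5) (nat_lit 369) (nat_lit 280) (nat_lit 251)))))) (XT.nd (nat_lit 390) (nat_lit 836) (nat_lit 0) (XT.nd (nat_lit 156) (nat_lit 456) (nat_lit 0) (XT.nd (nat_lit 78) (nat_lit 228) (nat_lit 0) (XT.lf (nat_lit 0) (nat_lit 783355892) (nat_lit 304) (nat_lit 10461947996) (nat_lit 76) (nat_lit 1918240055) (nat_lit 53) (nat_lit 5) (nat_lit 57) (nat_lit 5) (nat_lit 54) (nat_lit 5) (nat_lit 370) (nat_lit 280) (nat_lit 250)) (XT.lf (nat_lit 0) (nat_lit 1449659168) (nat_lit 228) (nat_lit 5301744224) (nat_lit 304) (nat_lit 6661669932) (nat_lit 50) (nat_lit 5) (nat_lit 53) (nat_lit 5) (nat_lit 54) (nat_lit 5) (nat_lit 371) (nat_lit 280) (nat_lit 249))) (XT.nd (nat_lit 78) (nat_lit 304) (nat_lit 0) (XT.lf (nat_lit 0) (nat_lit 24977595) (nat_lit 152) (nat_lit 12854892400) (nat_lit 228) (nat_lit 790610474) (nat_lit 48) (nat_lit 5) (nat_lit 50) (nat_lit 5) (nat_lit 51) (nat_lit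 4) (nat_lit 372) (nat_lit 280) (nat_lit 248)) (XT.nd (nat_lit 78) (nat_lit 228) (nat_lit 0) (XT.lf (nat_lit 0) (nat_lit 5210329538) (nat_lit 228) (nat_lit 1628668755) (nat_lit 76) (nat_lit 7095493656) (nat_lit 47) (nat_lit 5) (nat_lit 50) (nat_lit 5) (nat_lit 48) (nat_lit 5) (nat_lit 373) (nat_lit 280) (nat_lit 247)) (XT.lf (nat_lit 0) (nat_lit 10727437349) (nat_lit 228) (nat_lit 631208532) (nat_lit 304) (nat_lit 2848129549) (nat_lit 44) (nat_lit 5) (nat_lit 47) (nat_lit 5) (nat_lit 48) (nat_lit 5) (nat_lit 374) (nat_lit 280) (nat_lit 246))))) (XT.nd (nat_lit 156) (nat_lit 380) (nat_lit 0) (XT.nd (nat_lit 78) (nat_lit 228) (nat_lit 0) (XT.lf (nat_lit 0) (nat_lit 3178277331) (nat_lit 228) (nat_lit 5594405404) (nat_lit 76) (nat_lit 5713823372) (nat_lit 41) (nat_lit 5) (nat_lit 44) (nat_lit 5) (nat_lit 42) (nat_lit 5) (nat_lit 375) (nat_lit 280) (nat_lit 245)) (XT.lf (nat_lit 0) (nat_lit 6819994674)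 (nat_lit 228) (nat_lit 2509906507) (nat_lit 304) (nat_lit 5444705206) (nat_lit 38) (nat_lit 5) (nat_lit 41) (nat_lit 5) (nat_lit 42) (nat_lit 5) (nat_lit 376) (nat_lit 280) (nat_lit 244))) (XT.nd (nat_lit 78) (nat_lit 152) (nat_lit 0) (XT.lf (nat_lit 0) (nat_lit 591723835) (nat_lit 228) (nat_lit 10582294769) (nat_lit 76) (nat_lit 3897173650) (nat_lit 35) (nat_lit 5) (nat_lit 38) (nat_lit 5) (nat_lit 36) (nat_lit 5) (nat_lit 377) (nat_lit 280) (nat_lit 243)) (XT.nd (nat_lit 78) (nat_lit 0) (nat_lit 0) (XT.lf (nat_lit 0) (nat_lit 1858092162) (nat_lit 152) (nat_lit 4873579475) (nat_lit 228) (nat_lit 8644371648) (nat_lit 33) (nat_lit 5) (nat_lit 35) (nat_lit 5) (nat_lit 36) (nat_lit 5) (nat_lit 378) (nat_lit 280) (nat_lit 242)) (XT.lf (nat_lit 0) (nat_lit 13052515897) (nat_lit 228) (nat_lit 1033602507) (nat_lit 76) (nat_lit 1604002375) (nat_lit 33) (nat_lit 5) (nat_lit 36) (nat_lit 5) (nat_lit 34) (nat_lit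 4) (nat_lit 379) (nat_lit 280) (nat_lit 241))))))) (XT.nd (nat_lit 43758) (nat_lit 0) (nat_lit 10488) (XT.nd (nat_lit 390) (nat_lit 456) (nat_lit 0) (XT.nd (nat_lit 156) (nat_lit 380) (nat_lit 0) (XT.nd (nat_lit 78) (nat_lit 152) (nat_lit 0) (XT.lf (nat_lit 0) (nat_lit 3528711028) (nat_lit 228) (nat_lit 4235062670) (nat_lit 76) (nat_lit 8248882244) (nat_lit 30) (nat_lit 5) (nat_lit 33) (nat_lit 5) (nat_lit 31) (nat_lit 5) (nat_lit 380) (nat_lit 280) (nat_lit 240)) (XT.lf (nat_lit 0) (nat_lit 8592627938) (nat_lit 152) (nat_lit 1232065270) (nat_lit 228) (nat_lit 6520228793) (nat_lit 28) (nat_lit 5) (nat_lit 30) (nat_lit 5) (nat_lit 31) (nat_lit 5) (nat_lit 381) (nat_lit 280) (nat_lit 239))) (XT.nd (nat_lit 78) (nat_lit 228) (nat_lit 0) (XT.lf (nat_lit 0) (nat_lit 5063261472) (nat_lit 152) (nat_lit 11262283165) (nat_lit 228) (nat_lit 361304970) (nat_lit 26) (nat_lit 5) (nat_lit 28) (nat_lit 5) (nat_lit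 29) (nat_lit 4) (nat_lit 382) (nat_lit 280) (nat_lit 238)) (XT.nd (nat_lit 78) (nat_lit 0) (nat_lit 0) (XT.lf (nat_lit 0) (nat_lit 1156593613) (nat_lit 152) (nat_lit 4735419282) (nat_lit 228) (nat_lit 11146496304) (nat_lit 23) (nat_lit 5) (nat_lit 25) (nat_lit 5) (nat_lit 26) (nat_lit 5) (nat_lit 383) (nat_lit 280) (nat_lit 237)) (XT.lf (nat_lit 0) (nat_lit 12340734960) (nat_lit 228) (nat_lit 3077142314) (nat_lit 76) (nat_lit 1982551620) (nat_lit 23) (nat_lit 5) (nat_lit 26) (nat_lit 5) (nat_lit 24) (nat_lit 4) (nat_lit 384) (nat_lit 280) (nat_lit 236))))) (XT.nd (nat_lit 156) (nat_lit 76) (nat_lit 0) (XT.nd (nat_lit 78) (nat_lit 152) (nat_lit 0) (XT.lf (nat_lit 0) (nat_lit 1213859468) (nat_lit 228) (nat_lit 7705890824) (nat_lit 76) (nat_lit 8852910303) (nat_lit 20) (nat_lit 5) (nat_lit 23) (nat_lit 5) (nat_lit 21) (nat_lit 5) (nat_lit 385) (nat_lit 280) (nat_lit 235)) (XT.lf (nat_lit 0) (nat_lit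 5392098152) (nat_lit 152) (nat_lit 2194839862) (nat_lit 228) (nat_lit 10568862555) (nat_lit 18) (nat_lit 5) (nat_lit 20) (nat_lit 5) (nat_lit 21) (nat_lit 5) (nat_lit 386) (nat_lit 280) (nat_lit 234))) (XT.nd (nat_lit 43056) (nat_lit 0) (nat_lit 16720) (XT.lf (nat_lit 0) (nat_lit 276633427) (nat_lit 76) (nat_lit 13884297383) (nat_lit 152) (nat_lit 4389320571) (nat_lit 17) (nat_lit 5) (nat_lit 18) (nat_lit 5) (nat_lit 19) (nat_lit 4) (nat_lit 387) (nat_lit 280) (nat_lit 233)) (XT.nd (nat_lit 78) (nat_lit 608) (nat_lit 0) (XT.lf (nat_lit 0) (nat_lit 1031939183) (nat_lit 684) (nat_lit 1981728122) (nat_lit 0) (nat_lit 1031939183) (nat_lit 245) (nat_lit 5) (nat_lit 254) (nat_lit 4) (nat_lit 245) (nat_lit 4) (nat_lit 338) (nat_lit 281) (nat_lit 281)) (XT.lf (nat_lit 0) (nat_lit 5273706801) (nat_lit 608) (nat_lit 2347524676) (nat_lit 608) (nat_lit 562444617) (nat_lit 237) (nat_lit 4) (nat_lit 245) (nat_lit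 5) (nat_lit 245) (nat_lit 4) (nat_lit 339) (nat_lit 281) (nat_lit 280)))))) (XT.nd (nat_lit 390) (nat_lit 2584) (nat_lit 0) (XT.nd (nat_lit 156) (nat_lit 2280) (nat_lit 0) (XT.nd (nat_lit 78) (nat_lit 684) (nat_lit 0) (XT.lf (nat_lit 0) (nat_lit 4935273949) (nat_lit 684) (nat_lit 1858252609) (nat_lit 0) (nat_lit 1486090130) (nat_lit 228) (nat_lit 5) (nat_lit 237) (nat_lit 4) (nat_lit 228) (nat_lit 4) (nat_lit 340) (nat_lit 281) (nat_lit 279)) (XT.lf (nat_lit 0) (nat_lit 2126849939) (nat_lit 684) (nat_lit 802563764) (nat_lit 76) (nat_lit 5449846219) (nat_lit 219) (nat_lit 5) (nat_lit 228) (nat_lit 5) (nat_lit 220) (nat_lit 4) (nat_lit 341) (nat_lit 281) (nat_lit 278))) (XT.nd (nat_lit 78) (nat_lit 1216) (nat_lit 0) (XT.lf (nat_lit 0) (nat_lit 261821940) (nat_lit 532) (nat_lit 7394940710) (nat_lit 532) (nat_lit 825950146) (nat_lit 205) (nat_lit 4) (nat_lit 212) (nat_lit 5) (nat_lit 212) (nat_lit 4)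 (nat_lit 342) (nat_lit 281) (nat_lit 277)) (XT.nd (nat_lit 78) (nat_lit 608) (nat_lit 0) (XT.lf (nat_lit 0) (nat_lit 1317869250) (nat_lit 532) (nat_lit 3341186797) (nat_lit 608) (nat_lit 3930490046) (nat_lit 197) (nat_lit 5) (nat_lit 204) (nat_lit 5) (nat_lit 205) (nat_lit 4) (nat_lit 343) (nat_lit 281) (nat_lit 276)) (XT.lf (nat_lit 0) (nat_lit 1517981612) (nat_lit 608) (nat_lit 6319418707) (nat_lit 76) (nat_lit 863103897) (nat_lit 189) (nat_lit 5) (nat_lit 197) (nat_lit 5) (nat_lit 190) (nat_lit 4) (nat_lit 344) (nat_lit 281) (nat_lit 275))))) (XT.nd (nat_lit 156) (nat_lit 1520) (nat_lit 0) (XT.nd (nat_lit 78) (nat_lit 608) (nat_lit 0) (XT.lf (nat_lit 0) (nat_lit 3420613844) (nat_lit 456) (nat_lit 3616566900) (nat_lit 532) (nat_lit 1777932572) (nat_lit 183) (nat_lit 5) (nat_lit 189) (nat_lit 5) (nat_lit 190) (nat_lit 4) (nat_lit 345) (nat_lit 281) (nat_lit 274)) (XT.lf (nat_lit 0) (nat_lit 3684215006)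 (nat_lit 608) (nat_lit 4481620401) (nat_lit 76) (nat_lit 767983727) (nat_lit 175) (nat_lit 5) (nat_lit 183) (nat_lit 5) (nat_lit 176) (nat_lit 4) (nat_lit 346) (nat_lit 281) (nat_lit 273))) (XT.nd (nat_lit 78) (nat_lit 988) (nat_lit 0) (XT.lf (nat_lit 0) (nat_lit 193893024) (nat_lit 532) (nat_lit 3592291972) (nat_lit 76) (nat_lit 5270352472) (nat_lit 168) (nat_lit 5) (nat_lit 175) (nat_lit 5) (nat_lit 169) (nat_lit 5) (nat_lit 347) (nat_lit 281) (nat_lit 272)) (XT.nd (nat_lit 78) (nat_lit 532) (nat_lit 0) (XT.lf (nat_lit 0) (nat_lit 5679409143) (nat_lit 532) (nat_lit 2732992071) (nat_lit 76) (nat_lit 770890077) (nat_lit 162) (nat_lit 5) (nat_lit 169) (nat_lit 5) (nat_lit 163) (nat_lit 4) (nat_lit 348) (nat_lit 281) (nat_lit 271)) (XT.lf (nat_lit 0) (nat_lit 1961281188) (nat_lit 532) (nat_lit 1906178296) (nat_lit 76) (nat_lit 5446731341) (nat_lit 155) (nat_lit 5) (nat_lit 162) (nat_lit 5) (nat_lit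 156) (nat_lit 5) (nat_lit 349) (nat_lit 281) (nat_lit 270))))))))
noncomputable def xc16 : XT := (XT.nd (nat_lit 1482) (nat_lit 3192) (nat_lit 0) (XT.nd (nat_lit 702) (nat_lit 3040) (nat_lit 0) (XT.nd (nat_lit 312) (nat_lit 1976) (nat_lit 0) (XT.nd (nat_lit 156) (nat_lit 1292) (nat_lit 0) (XT.nd (nat_lit 78) (nat_lit 456) (nat_lit 0) (XT.lf (nat_lit 0) (nat_lit 7497418490) (nat_lit 532) (nat_lit 1106649204) (nat_lit 76) (nat_lit 845438933) (nat_lit 149) (nat_lit 5) (nat_lit 156) (nat_lit 5) (nat_lit 150) (nat_lit 4) (nat_lit 350) (nat_lit 281) (nat_lit 269)) (XT.lf (nat_lit 0) (nat_lit 3540207270) (nat_lit 456) (nat_lit 359054769) (nat_lit 76) (nat_lit 5689657689) (nat_lit 143) (nat_lit 5) (nat_lit 149) (nat_lit 5) (nat_lit 144) (nat_lit 5) (nat_lit 351) (nat_lit 281) (nat_lit 268))) (XT.nd (nat_lit 78) (nat_lit 456) (nat_lit 0) (XT.lf (nat_lit 0) (nat_lit 366483680) (nat_lit 380) (nat_lit 8765908639)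 (nat_lit 456) (nat_lit 600673543) (nat_lit 132) (nat_lit 5) (nat_lit 137) (nat_lit 5) (nat_lit 138) (nat_lit 4) (nat_lit 352) (nat_lit 281) (nat_lit 267)) (XT.lf (nat_lit 0) (nat_lit 1025284938) (nat_lit 380) (nat_lit 3902536945) (nat_lit 456) (nat_lit 4953448713) (nat_lit 126) (nat_lit 5) (nat_lit 131) (nat_lit 5) (nat_lit 132) (nat_lit 5) (nat_lit 353) (nat_lit 281) (nat_lit 266)))) (XT.nd (nat_lit 156) (nat_lit 1140) (nat_lit 0) (XT.nd (nat_lit 78) (nat_lit 380) (nat_lit 0) (XT.lf (nat_lit 0) (nat_lit 535759595) (nat_lit 456) (nat_lit 8383178361) (nat_lit 76) (nat_lit 1115602426) (nat_lit 120) (nat_lit 5) (nat_lit 126) (nat_lit 5) (nat_lit 121) (nat_lit 5) (nat_lit 354) (nat_lit 281) (nat_lit 265)) (XT.lf (nat_lit 0) (nat_lit 2194840170) (nat_lit 380) (nat_lit 3911752465) (nat_lit 456) (nat_lit 4085512396) (nat_lit 115) (nat_lit 5) (nat_lit 120) (nat_lit 5) (nat_lit 121) (nat_lit 5) (nat_lit 355)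 (nat_lit 281) (nat_lit 264))) (XT.nd (nat_lit 78) (nat_lit 760) (nat_lit 0) (XT.lf (nat_lit 0) (nat_lit 1438149509) (nat_lit 380) (nat_lit 7663193857) (nat_lit 76) (nat_lit 1253543754) (nat_lit 110) (nat_lit 5) (nat_lit 115) (nat_lit 5) (nat_lit 111) (nat_lit 5) (nat_lit 356) (nat_lit 281) (nat_lit 263)) (XT.nd (nat_lit 78) (nat_lit 380) (nat_lit 0) (XT.lf (nat_lit 0) (nat_lit 3100161661) (nat_lit 380) (nat_lit 3959422986) (nat_lit 456) (nat_lit 3462710302) (nat_lit 105) (nat_lit 5) (nat_lit 110) (nat_lit 5) (nat_lit 111) (nat_lit 5) (nat_lit 357) (nat_lit 281) (nat_lit 262)) (XT.lf (nat_lit 0) (nat_lit 2098062133) (nat_lit 380) (nat_lit 7250141632) (nat_lit 76) (nat_lit 1346845834) (nat_lit 100) (nat_lit 5) (nat_lit 105) (nat_lit 5) (nat_lit 101) (nat_lit 5) (nat_lit 358) (nat_lit 281) (nat_lit 261)))))) (XT.nd (nat_lit 390) (nat_lit 1444) (nat_lit 0) (XT.nd (nat_lit 156) (nat_lit 912) (nat_lit 0)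 (XT.nd (nat_lit 78) (nat_lit 380) (nat_lit 0) (XT.lf (nat_lit 0) (nat_lit 3692391652) (nat_lit 304) (nat_lit 4077148152) (nat_lit 380) (nat_lit 3103201986) (nat_lit 96) (nat_lit 5) (nat_lit 100) (nat_lit 5) (nat_lit 101) (nat_lit 5) (nat_lit 359) (nat_lit 281) (nat_lit 260)) (XT.lf (nat_lit 0) (nat_lit 2496368687) (nat_lit 380) (nat_lit 7195938902) (nat_lit 76) (nat_lit 1363665315) (nat_lit 91) (nat_lit 5) (nat_lit 96) (nat_lit 5) (nat_lit 92) (nat_lit 5) (nat_lit 360) (nat_lit 281) (nat_lit 259))) (XT.nd (nat_lit 78) (nat_lit 608) (nat_lit 0) (XT.lf (nat_lit 0) (nat_lit 3917961471) (nat_lit 304) (nat_lit 4298335996) (nat_lit 380) (nat_lit 3028131454) (nat_lit 87) (nat_lit 5) (nat_lit 91) (nat_lit 5) (nat_lit 92) (nat_lit 5) (nat_lit 361) (nat_lit 281) (nat_lit 258)) (XT.nd (nat_lit 78) (nat_lit 304) (nat_lit 0) (XT.lf (nat_lit 0) (nat_lit 2610890491) (nat_lit 304) (nat_lit 7557565859) (nat_lit 76)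 (nat_lit 1270230843) (nat_lit 83) (nat_lit 5) (nat_lit 87) (nat_lit 5) (nat_lit 84) (nat_lit 5) (nat_lit 362) (nat_lit 281) (nat_lit 257)) (XT.lf (nat_lit 0) (nat_lit 3718010864) (nat_lit 304) (nat_lit 4658538303) (nat_lit 380) (nat_lit 3261878247) (nat_lit 79) (nat_lit 5) (nat_lit 83) (nat_lit 5) (nat_lit 84) (nat_lit 5) (nat_lit 363) (nat_lit 281) (nat_lit 256))))) (XT.nd (nat_lit 156) (nat_lit 836) (nat_lit 0) (XT.nd (nat_lit 78) (nat_lit 304) (nat_lit 0) (XT.lf (nat_lit 0) (nat_lit 2416136173) (nat_lit 304) (nat_lit 8397677480) (nat_lit 76) (nat_lit 1030500163) (nat_lit 75) (nat_lit 5) (nat_lit 79) (nat_lit 5) (nat_lit 76) (nat_lit 5) (nat_lit 364) (nat_lit 281) (nat_lit 255)) (XT.lf (nat_lit 0) (nat_lit 3027751751) (nat_lit 304) (nat_lit 5195810775) (nat_lit 380) (nat_lit 3832339939) (nat_lit 71) (nat_lit 5) (nat_lit 75) (nat_lit 5) (nat_lit 76) (nat_lit 5) (nat_lit 365) (nat_lit 281) (nat_lit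 254))) (XT.nd (nat_lit 78) (nat_lit 532) (nat_lit 0) (XT.lf (nat_lit 0) (nat_lit 1883006532) (nat_lit 304) (nat_lit 9785274444) (nat_lit 76) (nat_lit 605791166) (nat_lit 67) (nat_lit 5) (nat_lit 71) (nat_lit 5) (nat_lit 68) (nat_lit 5) (nat_lit 366) (nat_lit 281) (nat_lit 253)) (XT.nd (nat_lit 78) (nat_lit 304) (nat_lit 0) (XT.lf (nat_lit 0) (nat_lit 1775770198) (nat_lit 228) (nat_lit 5951101385) (nat_lit 304) (nat_lit 4771248960) (nat_lit 64) (nat_lit 5) (nat_lit 67) (nat_lit 5) (nat_lit 68) (nat_lit 5) (nat_lit 367) (nat_lit 281) (nat_lit 252)) (XT.lf (nat_lit 0) (nat_lit 932541327) (nat_lit 228) (nat_lit 46222803) (nat_lit 304) (nat_lit 11750517002) (nat_lit 60) (nat_lit 5) (nat_lit 63) (nat_lit 5) (nat_lit 64) (nat_lit 5) (nat_lit 368) (nat_lit 281) (nat_lit 251))))))) (XT.nd (nat_lit 780) (nat_lit 1292) (nat_lit 0) (XT.nd (nat_lit 390) (nat_lit 912) (nat_lit 0) (XT.nd (nat_lit 156) (nat_lit 760)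 (nat_lit 0) (XT.nd (nat_lit 78) (nat_lit 228) (nat_lit 0) (XT.lf (nat_lit 0) (nat_lit 6852688326) (nat_lit 304) (nat_lit 115209152) (nat_lit 76) (nat_lit 5998544670) (nat_lit 60) (nat_lit 5) (nat_lit 64) (nat_lit 5) (nat_lit 61) (nat_lit 5) (nat_lit 369) (nat_lit 281) (nat_lit 250)) (XT.lf (nat_lit 0) (nat_lit 11915885165) (nat_lit 228) (nat_lit 970965780) (nat_lit 304) (nat_lit 324207055) (nat_lit 57) (nat_lit 5) (nat_lit 60) (nat_lit 5) (nat_lit 61) (nat_lit 5) (nat_lit 370) (nat_lit 281) (nat_lit 249))) (XT.nd (nat_lit 78) (nat_lit 456) (nat_lit 0) (XT.lf (nat_lit 0) (nat_lit 5577495475) (nat_lit 304) (nat_lit 2700927303) (nat_lit 76) (nat_lit 5183628217) (nat_lit 53) (nat_lit 5) (nat_lit 57) (nat_lit 5) (nat_lit 54) (nat_lit 5) (nat_lit 371) (nat_lit 281) (nat_lit 248)) (XT.nd (nat_lit 78) (nat_lit 228) (nat_lit 0) (XT.lf (nat_lit 0) (nat_lit 9437022755) (nat_lit 228) (nat_lit 2200187895) (nat_lit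 304) (nat_lit 2083631815) (nat_lit 50) (nat_lit 5) (nat_lit 53) (nat_lit 5) (nat_lit 54) (nat_lit 5) (nat_lit 372) (nat_lit 281) (nat_lit 247)) (XT.lf (nat_lit 0) (nat_lit 3846477944) (nat_lit 228) (nat_lit 6099616201) (nat_lit 76) (nat_lit 4040692321) (nat_lit 47) (nat_lit 5) (nat_lit 50) (nat_lit 5) (nat_lit 48) (nat_lit 5) (nat_lit 373) (nat_lit 281) (nat_lit 246))))) (XT.nd (nat_lit 156) (nat_lit 456) (nat_lit 0) (XT.nd (nat_lit 78) (nat_lit 228) (nat_lit 0) (XT.lf (nat_lit 0) (nat_lit 6121163573) (nat_lit 228) (nat_lit 3799904588) (nat_lit 304) (nat_lit 4339484898) (nat_lit 44) (nat_lit 5) (nat_lit 47) (nat_lit 5) (nat_lit 48) (nat_lit 5) (nat_lit 374) (nat_lit 281) (nat_lit 245)) (XT.lf (nat_lit 0) (nat_lit 1611039331) (nat_lit 228) (nat_lit 10416267800) (nat_lit 76) (nat_lit 2515087281) (nat_lit 41) (nat_lit 5) (nat_lit 44) (nat_lit 5) (nat_lit 42) (nat_lit 5) (nat_lit 375) (nat_lit 281) (nat_lit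 244))) (XT.nd (nat_lit 78) (nat_lit 228) (nat_lit 0) (XT.lf (nat_lit 0) (nat_lit 1859334713) (nat_lit 228) (nat_lit 5828394844) (nat_lit 304) (nat_lit 7144271745) (nat_lit 38) (nat_lit 5) (nat_lit 41) (nat_lit 5) (nat_lit 42) (nat_lit 5) (nat_lit 376) (nat_lit 281) (nat_lit 243)) (XT.nd (nat_lit 78) (nat_lit 228) (nat_lit 0) (XT.lf (nat_lit 0) (nat_lit 13935818634) (nat_lit 304) (nat_lit 635755020) (nat_lit 76) (nat_lit 558956429) (nat_lit 38) (nat_lit 5) (nat_lit 42) (nat_lit 5) (nat_lit 39) (nat_lit 4) (nat_lit 377) (nat_lit 281) (nat_lit 242)) (XT.lf (nat_lit 0) (nat_lit 4902958778) (nat_lit 228) (nat_lit 3423578514) (nat_lit 76) (nat_lit 7110165223) (nat_lit 35) (nat_lit 5) (nat_lit 38) (nat_lit 5) (nat_lit 36) (nat_lit 5) (nat_lit 378) (nat_lit 281) (nat_lit 241)))))) (XT.nd (nat_lit 390) (nat_lit 532) (nat_lit 0) (XT.nd (nat_lit 156) (nat_lit 380) (nat_lit 0) (XT.nd (nat_lit 78) (nat_lit 228)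 (nat_lit 0) (XT.lf (nat_lit 0) (nat_lit 9268727804) (nat_lit 152) (nat_lit 1881077144) (nat_lit 228) (nat_lit 4602462145) (nat_lit 33) (nat_lit 5) (nat_lit 35) (nat_lit 5) (nat_lit 36) (nat_lit 5) (nat_lit 379) (nat_lit 281) (nat_lit 240)) (XT.lf (nat_lit 0) (nat_lit 1500661465) (nat_lit 228) (nat_lit 9866474296) (nat_lit 76) (nat_lit 4709707654) (nat_lit 30) (nat_lit 5) (nat_lit 33) (nat_lit 5) (nat_lit 31) (nat_lit 5) (nat_lit 380) (nat_lit 281) (nat_lit 239))) (XT.nd (nat_lit 78) (nat_lit 228) (nat_lit 0) (XT.lf (nat_lit 0) (nat_lit 2816143628) (nat_lit 152) (nat_lit 4903523152) (nat_lit 228) (nat_lit 8690988812) (nat_lit 28) (nat_lit 5) (nat_lit 30) (nat_lit 5) (nat_lit 31) (nat_lit 5) (nat_lit 381) (nat_lit 281) (nat_lit 238)) (XT.nd (nat_lit 78) (nat_lit 228) (nat_lit 0) (XT.lf (nat_lit 0) (nat_lit 14124850432) (nat_lit 228) (nat_lit 890303662) (nat_lit 76) (nat_lit 1739348850) (nat_lit 28)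 (nat_lit 5) (nat_lit 31) (nat_lit 5) (nat_lit 29) (nat_lit 4) (nat_lit 382) (nat_lit 281) (nat_lit 237)) (XT.lf (nat_lit 0) (nat_lit 3601489355) (nat_lit 228) (nat_lit 4945157524) (nat_lit 76) (nat_lit 8560854808) (nat_lit 25) (nat_lit 5) (nat_lit 28) (nat_lit 5) (nat_lit 26) (nat_lit 5) (nat_lit 383) (nat_lit 281) (nat_lit 236))))) (XT.nd (nat_lit 156) (nat_lit 228) (nat_lit 0) (XT.nd (nat_lit 78) (nat_lit 152) (nat_lit 0) (XT.lf (nat_lit 0) (nat_lit 8102045700) (nat_lit 152) (nat_lit 1864754780) (nat_lit 228) (nat_lit 7504295026) (nat_lit 23) (nat_lit 5) (nat_lit 25) (nat_lit 5) (nat_lit 26) (nat_lit 5) (nat_lit 384) (nat_lit 281) (nat_lit 235)) (XT.lf (nat_lit 0) (nat_lit 3645109513) (nat_lit 152) (nat_lit 12892997285) (nat_lit 228) (nat_lit 1307201263) (nat_lit 21) (nat_lit 5) (nat_lit 23) (nat_lit 5) (nat_lit 24) (nat_lit 4) (nat_lit 385) (nat_lit 281) (nat_lit 234))) (XT.nd (nat_lit 78) (nat_lit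 152) (nat_lit 0) (XT.lf (nat_lit 0) (nat_lit 5011506212) (nat_lit 228) (nat_lit 1229543323) (nat_lit 76) (nat_lit 11989004005) (nat_lit 20) (nat_lit 5) (nat_lit 23) (nat_lit 5) (nat_lit 21) (nat_lit 5) (nat_lit 386) (nat_lit 281) (nat_lit 233)) (XT.nd (nat_lit 42900) (nat_lit 0) (nat_lit 18620) (XT.lf (nat_lit 0) (nat_lit 11513247842) (nat_lit 228) (nat_lit 6477652513) (nat_lit 76) (nat_lit 635054319) (nat_lit 18) (nat_lit 5) (nat_lit 21) (nat_lit 5) (nat_lit 19) (nat_lit 4) (nat_lit 387) (nat_lit 281) (nat_lit 232)) (XT.lf (nat_lit 0) (nat_lit 493190363) (nat_lit 760) (nat_lit 2971470441) (nat_lit 0) (nat_lit 493190363) (nat_lit 263) (nat_lit 5) (nat_lit 273) (nat_lit 4) (nat_lit 263) (nat_lit 4) (nat_lit 336) (nat_lit 282) (nat_lit 282))))))))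
noncomputable def xc17 : XT := (XT.nd (nat_lit 1482) (nat_lit 5396) (nat_lit 0) (XT.nd (nat_lit 702) (nat_lit 5168) (nat_lit 0) (XT.nd (nat_lit 312) (nat_lit 3420) (nat_lit 0) (XT.nd (nat_lit 156) (nat_lit 1292) (nat_lit 0) (XT.nd (nat_lit 78) (nat_lit 684) (nat_lit 0) (XT.lf (nat_lit 0) (nat_lit 2995313989) (nat_lit 684) (nat_lit 3441223123) (nat_lit 684) (nat_lit 1565818013) (nat_lit 254) (nat_lit 4) (nat_lit 263) (nat_lit 5) (nat_lit 263) (nat_lit 4) (nat_lit 337) (nat_lit 282) (nat_lit 281)) (XT.lf (nat_lit 0) (nat_lit 3830943877) (nat_lit 684) (nat_lit 4054504294) (nat_lit 0) (nat_lit 207231358) (nat_lit 245) (nat_lit 5) (nat_lit 254) (nat_lit 4) (nat_lit 245) (nat_lit 4) (nat_lit 338) (nat_lit 282) (nat_lit 280))) (XT.nd (nat_lit 78) (nat_lit 608) (nat_lit 0) (XT.lf (nat_lit 0) (nat_lit 1116210018) (nat_lit 684) (nat_lit 3102055717) (nat_lit 76) (nat_lit 3968177491) (nat_lit 236) (nat_lit 5)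 (nat_lit 245) (nat_lit 5) (nat_lit 237) (nat_lit 4) (nat_lit 339) (nat_lit 282) (nat_lit 279)) (XT.lf (nat_lit 0) (nat_lit 6143923869) (nat_lit 608) (nat_lit 382478598) (nat_lit 684) (nat_lit 1757543852) (nat_lit 228) (nat_lit 5) (nat_lit 236) (nat_lit 5) (nat_lit 237) (nat_lit 4) (nat_lit 340) (nat_lit 282) (nat_lit 278)))) (XT.nd (nat_lit 156) (nat_lit 2128) (nat_lit 0) (XT.nd (nat_lit 78) (nat_lit 608) (nat_lit 0) (XT.lf (nat_lit 0) (nat_lit 3620232462) (nat_lit 684) (nat_lit 1190081644) (nat_lit 76) (nat_lit 3574552476) (nat_lit 219) (nat_lit 5) (nat_lit 228) (nat_lit 5) (nat_lit 220) (nat_lit 4) (nat_lit 341) (nat_lit 282) (nat_lit 277)) (XT.lf (nat_lit 0) (nat_lit 574361743) (nat_lit 608) (nat_lit 226310135) (nat_lit 76) (nat_lit 7689166801) (nat_lit 211) (nat_lit 5) (nat_lit 219) (nat_lit 5) (nat_lit 212) (nat_lit 5) (nat_lit 342) (nat_lit 282) (nat_lit 276))) (XT.nd (nat_lit 78) (nat_lit 1064)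 (nat_lit 0) (XT.lf (nat_lit 0) (nat_lit 722559633) (nat_lit 532) (nat_lit 5249347371) (nat_lit 608) (nat_lit 2626218912) (nat_lit 197) (nat_lit 5) (nat_lit 204) (nat_lit 5) (nat_lit 205) (nat_lit 4) (nat_lit 343) (nat_lit 282) (nat_lit 275)) (XT.nd (nat_lit 78) (nat_lit 456) (nat_lit 0) (XT.lf (nat_lit 0) (nat_lit 1676704729) (nat_lit 532) (nat_lit 1052986446) (nat_lit 608) (nat_lit 5980759863) (nat_lit 189) (nat_lit 5) (nat_lit 196) (nat_lit 5) (nat_lit 197) (nat_lit 5) (nat_lit 344) (nat_lit 282) (nat_lit 274)) (XT.lf (nat_lit 0) (nat_lit 2614330923) (nat_lit 456) (nat_lit 5558503119) (nat_lit 532) (nat_lit 653773674) (nat_lit 183) (nat_lit 5) (nat_lit 189) (nat_lit 5) (nat_lit 190) (nat_lit 4) (nat_lit 345) (nat_lit 282) (nat_lit 273)))))) (XT.nd (nat_lit 390) (nat_lit 2584) (nat_lit 0) (XT.nd (nat_lit 156) (nat_lit 1444) (nat_lit 0) (XT.nd (nat_lit 78) (nat_lit 532) (nat_lit 0) (XT.lf (nat_lit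 0) (nat_lit 3532496239) (nat_lit 532) (nat_lit 1186951844) (nat_lit 608) (nat_lit 4227228299) (nat_lit 175) (nat_lit 5) (nat_lit 182) (nat_lit 5) (nat_lit 183) (nat_lit 5) (nat_lit 346) (nat_lit 282) (nat_lit 272)) (XT.lf (nat_lit 0) (nat_lit 1125960200) (nat_lit 532) (nat_lit 4638469106) (nat_lit 76) (nat_lit 3306394616) (nat_lit 168) (nat_lit 5) (nat_lit 175) (nat_lit 5) (nat_lit 169) (nat_lit 5) (nat_lit 347) (nat_lit 282) (nat_lit 271))) (XT.nd (nat_lit 78) (nat_lit 988) (nat_lit 0) (XT.lf (nat_lit 0) (nat_lit 5307488295) (nat_lit 456) (nat_lit 1230280729) (nat_lit 532) (nat_lit 2661306134) (nat_lit 162) (nat_lit 5) (nat_lit 168) (nat_lit 5) (nat_lit 169) (nat_lit 5) (nat_lit 348) (nat_lit 282) (nat_lit 270)) (XT.nd (nat_lit 78) (nat_lit 456) (nat_lit 0) (XT.lf (nat_lit 0) (nat_lit 2716034315) (nat_lit 532) (nat_lit 3181921563) (nat_lit 76) (nat_lit 3433466997) (nat_lit 155) (nat_lit 5) (nat_lit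 162) (nat_lit 5) (nat_lit 156) (nat_lit 5) (nat_lit 349) (nat_lit 282) (nat_lit 269)) (XT.lf (nat_lit 0) (nat_lit 6968884687) (nat_lit 456) (nat_lit 1209435468) (nat_lit 532) (nat_lit 1289917054) (nat_lit 149) (nat_lit 5) (nat_lit 155) (nat_lit 5) (nat_lit 156) (nat_lit 5) (nat_lit 350) (nat_lit 282) (nat_lit 268))))) (XT.nd (nat_lit 156) (nat_lit 1672) (nat_lit 0) (XT.nd (nat_lit 78) (nat_lit 456) (nat_lit 0) (XT.lf (nat_lit 0) (nat_lit 4117323311) (nat_lit 456) (nat_lit 1872939857) (nat_lit 76) (nat_lit 3618849033) (nat_lit 143) (nat_lit 5) (nat_lit 149) (nat_lit 5) (nat_lit 144) (nat_lit 5) (nat_lit 351) (nat_lit 282) (nat_lit 267)) (XT.lf (nat_lit 0) (nat_lit 8481304981) (nat_lit 456) (nat_lit 1151390993) (nat_lit 532) (nat_lit 122118481) (nat_lit 137) (nat_lit 5) (nat_lit 143) (nat_lit 5) (nat_lit 144) (nat_lit 5) (nat_lit 352) (nat_lit 282) (nat_lit 266))) (XT.nd (nat_lit 78) (nat_lit 1216)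 (nat_lit 0) (XT.lf (nat_lit 0) (nat_lit 5319972936) (nat_lit 456) (nat_lit 748902240) (nat_lit 76) (nat_lit 3835703337) (nat_lit 131) (nat_lit 5) (nat_lit 137) (nat_lit 5) (nat_lit 132) (nat_lit 5) (nat_lit 353) (nat_lit 282) (nat_lit 265)) (XT.nd (nat_lit 78) (nat_lit 760) (nat_lit 0) (XT.lf (nat_lit 0) (nat_lit 819867675) (nat_lit 456) (nat_lit 258519474) (nat_lit 76) (nat_lit 8981029208) (nat_lit 125) (nat_lit 5) (nat_lit 131) (nat_lit 5) (nat_lit 126) (nat_lit 5) (nat_lit 354) (nat_lit 282) (nat_lit 264)) (XT.lf (nat_lit 0) (nat_lit 151568899) (nat_lit 380) (nat_lit 6161245858) (nat_lit 456) (nat_lit 3905741445) (nat_lit 115) (nat_lit 5) (nat_lit 120) (nat_lit 5) (nat_lit 121) (nat_lit 5) (nat_lit 355) (nat_lit 282) (nat_lit 263))))))) (XT.nd (nat_lit 780) (nat_lit 2356) (nat_lit 0) (XT.nd (nat_lit 390) (nat_lit 1216) (nat_lit 0) (XT.nd (nat_lit 156) (nat_lit 1064) (nat_lit 0) (XT.nd (nat_lit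 78) (nat_lit 380) (nat_lit 0) (XT.lf (nat_lit 0) (nat_lit 515943688) (nat_lit 304) (nat_lit 1021988934) (nat_lit 380) (nat_lit 8844951564) (nat_lit 110) (nat_lit 5) (nat_lit 114) (nat_lit 5) (nat_lit 115) (nat_lit 5) (nat_lit 356) (nat_lit 282) (nat_lit 262)) (XT.lf (nat_lit 0) (nat_lit 788570476) (nat_lit 380) (nat_lit 6294829622) (nat_lit 456) (nat_lit 3468427422) (nat_lit 105) (nat_lit 5) (nat_lit 110) (nat_lit 5) (nat_lit 111) (nat_lit 5) (nat_lit 357) (nat_lit 282) (nat_lit 261))) (XT.nd (nat_lit 78) (nat_lit 684) (nat_lit 0) (XT.lf (nat_lit 0) (nat_lit 997111636) (nat_lit 304) (nat_lit 1016848636) (nat_lit 380) (nat_lit 8712207208) (nat_lit 100) (nat_lit 5) (nat_lit 104) (nat_lit 5) (nat_lit 105) (nat_lit 5) (nat_lit 358) (nat_lit 282) (nat_lit 260)) (XT.nd (nat_lit 78) (nat_lit 380) (nat_lit 0) (XT.lf (nat_lit 0) (nat_lit 1103073900) (nat_lit 304) (nat_lit 6506140091) (nat_lit 380) (nat_lit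 3296185085) (nat_lit 96) (nat_lit 5) (nat_lit 100) (nat_lit 5) (nat_lit 101) (nat_lit 5) (nat_lit 359) (nat_lit 282) (nat_lit 259)) (XT.lf (nat_lit 0) (nat_lit 1130133411) (nat_lit 304) (nat_lit 1096867991) (nat_lit 380) (nat_lit 8863246359) (nat_lit 91) (nat_lit 5) (nat_lit 95) (nat_lit 5) (nat_lit 96) (nat_lit 5) (nat_lit 360) (nat_lit 282) (nat_lit 258))))) (XT.nd (nat_lit 156) (nat_lit 608) (nat_lit 0) (XT.nd (nat_lit 78) (nat_lit 304) (nat_lit 0) (XT.lf (nat_lit 0) (nat_lit 1041266919) (nat_lit 304) (nat_lit 6828503011) (nat_lit 380) (nat_lit 3410490847) (nat_lit 87) (nat_lit 5) (nat_lit 91) (nat_lit 5) (nat_lit 92) (nat_lit 5) (nat_lit 361) (nat_lit 282) (nat_lit 257)) (XT.lf (nat_lit 0) (nat_lit 858577601) (nat_lit 228) (nat_lit 1296196319) (nat_lit 304) (nat_lit 9321383346) (nat_lit 83) (nat_lit 5) (nat_lit 86) (nat_lit 5) (nat_lit 87) (nat_lit 5) (nat_lit 362) (nat_lit 282) (nat_lit 256)))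 (XT.nd (nat_lit 78) (nat_lit 304) (nat_lit 0) (XT.lf (nat_lit 0) (nat_lit 544020755) (nat_lit 304) (nat_lit 7297415728) (nat_lit 380) (nat_lit 3836053672) (nat_lit 79) (nat_lit 5) (nat_lit 83) (nat_lit 5) (nat_lit 84) (nat_lit 5) (nat_lit 363) (nat_lit 282) (nat_lit 255)) (XT.nd (nat_lit 78) (nat_lit 0) (nat_lit 0) (XT.lf (nat_lit 0) (nat_lit 120389044) (nat_lit 228) (nat_lit 1651311421) (nat_lit 304) (nat_lit 10113318597) (nat_lit 75) (nat_lit 5) (nat_lit 78) (nat_lit 5) (nat_lit 79) (nat_lit 5) (nat_lit 364) (nat_lit 282) (nat_lit 254)) (XT.lf (nat_lit 0) (nat_lit 7500106200) (nat_lit 304) (nat_lit 447794951) (nat_lit 76) (nat_lit 4150298751) (nat_lit 75) (nat_lit 5) (nat_lit 79) (nat_lit 5) (nat_lit 76) (nat_lit 5) (nat_lit 365) (nat_lit 282) (nat_lit 253)))))) (XT.nd (nat_lit 390) (nat_lit 988) (nat_lit 0) (XT.nd (nat_lit 156) (nat_lit 760) (nat_lit 0) (XT.nd (nat_lit 78) (nat_lit 228) (nat_lit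 0) (XT.lf (nat_lit 0) (nat_lit 1056099276) (nat_lit 380) (nat_lit 1137658653) (nat_lit 76) (nat_lit 10124146228) (nat_lit 70) (nat_lit 5) (nat_lit 75) (nat_lit 5) (nat_lit 71) (nat_lit 5) (nat_lit 366) (nat_lit 282) (nat_lit 252)) (XT.lf (nat_lit 0) (nat_lit 6819294472) (nat_lit 304) (nat_lit 1997222779) (nat_lit 76) (nat_lit 3727059589) (nat_lit 67) (nat_lit 5) (nat_lit 71) (nat_lit 5) (nat_lit 68) (nat_lit 5) (nat_lit 367) (nat_lit 282) (nat_lit 251))) (XT.nd (nat_lit 78) (nat_lit 532) (nat_lit 0) (XT.lf (nat_lit 0) (nat_lit 9779538683) (nat_lit 228) (nat_lit 2968426649) (nat_lit 304) (nat_lit 28224227) (nat_lit 64) (nat_lit 5) (nat_lit 67) (nat_lit 5) (nat_lit 68) (nat_lit 5) (nat_lit 368) (nat_lit 282) (nat_lit 250)) (XT.nd (nat_lit 78) (nat_lit 228) (nat_lit 0) (XT.lf (nat_lit 0) (nat_lit 5761116781) (nat_lit 304) (nat_lit 4189508350) (nat_lit 76) (nat_lit 3064438235) (nat_lit 60) (nat_lit 5)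 (nat_lit 64) (nat_lit 5) (nat_lit 61) (nat_lit 5) (nat_lit 369) (nat_lit 282) (nat_lit 249)) (XT.lf (nat_lit 0) (nat_lit 7711427187) (nat_lit 228) (nat_lit 4011762729) (nat_lit 304) (nat_lit 1537940859) (nat_lit 57) (nat_lit 5) (nat_lit 60) (nat_lit 5) (nat_lit 61) (nat_lit 5) (nat_lit 370) (nat_lit 282) (nat_lit 248))))) (XT.nd (nat_lit 156) (nat_lit 456) (nat_lit 0) (XT.nd (nat_lit 78) (nat_lit 228) (nat_lit 0) (XT.lf (nat_lit 0) (nat_lit 4286806685) (nat_lit 304) (nat_lit 7110913827) (nat_lit 76) (nat_lit 2116427628) (nat_lit 53) (nat_lit 5) (nat_lit 57) (nat_lit 5) (nat_lit 54) (nat_lit 5) (nat_lit 371) (nat_lit 282) (nat_lit 247)) (XT.lf (nat_lit 0) (nat_lit 4893573005) (nat_lit 228) (nat_lit 5379804373) (nat_lit 304) (nat_lit 3501034146) (nat_lit 50) (nat_lit 5) (nat_lit 53) (nat_lit 5) (nat_lit 54) (nat_lit 5) (nat_lit 372) (nat_lit 282) (nat_lit 246))) (XT.nd (nat_lit 78) (nat_lit 228) (nat_lit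 0) (XT.lf (nat_lit 0) (nat_lit 2352757946) (nat_lit 228) (nat_lit 10856767939) (nat_lit 76) (nat_lit 832920428) (nat_lit 47) (nat_lit 5) (nat_lit 50) (nat_lit 5) (nat_lit 48) (nat_lit 5) (nat_lit 373) (nat_lit 282) (nat_lit 245)) (XT.nd (nat_lit 78) (nat_lit 0) (nat_lit 0) (XT.lf (nat_lit 0) (nat_lit 1227092965) (nat_lit 228) (nat_lit 7125936790) (nat_lit 304) (nat_lit 5964677859) (nat_lit 44) (nat_lit 5) (nat_lit 47) (nat_lit 5) (nat_lit 48) (nat_lit 5) (nat_lit 374) (nat_lit 282) (nat_lit 244)) (XT.lf (nat_lit 0) (nat_lit 13676827764) (nat_lit 228) (nat_lit 845261178) (nat_lit 304) (nat_lit 79378665) (nat_lit 44) (nat_lit 5) (nat_lit 47) (nat_lit 5) (nat_lit 48) (nat_lit 5) (nat_lit 375) (nat_lit 282) (nat_lit 243))))))))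
noncomputable def xc18 : XT := (XT.nd (nat_lit 44148) (nat_lit 0) (nat_lit 5852) (XT.nd (nat_lit 702) (nat_lit 380) (nat_lit 0) (XT.nd (nat_lit 312) (nat_lit 760) (nat_lit 0) (XT.nd (nat_lit 156) (nat_lit 380) (nat_lit 0) (XT.nd (nat_lit 78) (nat_lit 228) (nat_lit 0) (XT.lf (nat_lit 0) (nat_lit 5933187863) (nat_lit 228) (nat_lit 3352846347) (nat_lit 76) (nat_lit 5606361599) (nat_lit 41) (nat_lit 5) (nat_lit 44) (nat_lit 5) (nat_lit 42) (nat_lit 5) (nat_lit 376) (nat_lit 282) (nat_lit 242)) (XT.lf (nat_lit 0) (nat_lit 9171358872) (nat_lit 228) (nat_lit 2943452157) (nat_lit 304) (nat_lit 3077450362) (nat_lit 38) (nat_lit 5) (nat_lit 41) (nat_lit 5) (nat_lit 42) (nat_lit 5) (nat_lit 377) (nat_lit 282) (nat_lit 241))) (XT.nd (nat_lit 78) (nat_lit 152) (nat_lit 0) (XT.lf (nat_lit 0) (nat_lit 2949679839) (nat_lit 228) (nat_lit 8981611905) (nat_lit 76) (nat_lit 3569298332) (nat_lit 35) (nat_lit 5) (nat_lit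 38) (nat_lit 5) (nat_lit 36) (nat_lit 5) (nat_lit 378) (nat_lit 282) (nat_lit 240)) (XT.lf (nat_lit 0) (nat_lit 3567524342) (nat_lit 152) (nat_lit 5552705660) (nat_lit 228) (nat_lit 6697457486) (nat_lit 33) (nat_lit 5) (nat_lit 35) (nat_lit 5) (nat_lit 36) (nat_lit 5) (nat_lit 379) (nat_lit 282) (nat_lit 239)))) (XT.nd (nat_lit 156) (nat_lit 532) (nat_lit 0) (XT.nd (nat_lit 78) (nat_lit 76) (nat_lit 0) (XT.lf (nat_lit 0) (nat_lit 332553637) (nat_lit 152) (nat_lit 15134690794) (nat_lit 228) (nat_lit 677240067) (nat_lit 31) (nat_lit 5) (nat_lit 33) (nat_lit 5) (nat_lit 34) (nat_lit 4) (nat_lit 380) (nat_lit 282) (nat_lit 238)) (XT.lf (nat_lit 0) (nat_lit 5494040677) (nat_lit 228) (nat_lit 3229144302) (nat_lit 76) (nat_lit 7756338163) (nat_lit 30) (nat_lit 5) (nat_lit 33) (nat_lit 5) (nat_lit 31) (nat_lit 5) (nat_lit 381) (nat_lit 282) (nat_lit 237))) (XT.nd (nat_lit 78) (nat_lit 380) (nat_lit 0) (XT.lf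 (nat_lit 0) (nat_lit 9721467211) (nat_lit 152) (nat_lit 2107433595) (nat_lit 228) (nat_lit 4995882362) (nat_lit 28) (nat_lit 5) (nat_lit 30) (nat_lit 5) (nat_lit 31) (nat_lit 5) (nat_lit 382) (nat_lit 282) (nat_lit 236)) (XT.nd (nat_lit 78) (nat_lit 152) (nat_lit 0) (XT.lf (nat_lit 0) (nat_lit 1174065993) (nat_lit 228) (nat_lit 11348713984) (nat_lit 76) (nat_lit 4657159642) (nat_lit 25) (nat_lit 5) (nat_lit 28) (nat_lit 5) (nat_lit 26) (nat_lit 5) (nat_lit 383) (nat_lit 282) (nat_lit 235)) (XT.lf (nat_lit 0) (nat_lit 1548267826) (nat_lit 152) (nat_lit 5912248686) (nat_lit 228) (nat_lit 10084599872) (nat_lit 23) (nat_lit 5) (nat_lit 25) (nat_lit 5) (nat_lit 26) (nat_lit 5) (nat_lit 384) (nat_lit 282) (nat_lit 234)))))) (XT.nd (nat_lit 43056) (nat_lit 0) (nat_lit 15960) (XT.nd (nat_lit 156) (nat_lit 152) (nat_lit 0) (XT.nd (nat_lit 78) (nat_lit 228) (nat_lit 0) (XT.lf (nat_lit 0) (nat_lit 13946036307)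 (nat_lit 228) (nat_lit 3067981119) (nat_lit 76) (nat_lit 907032809) (nat_lit 23) (nat_lit 5) (nat_lit 26) (nat_lit 5) (nat_lit 24) (nat_lit 4) (nat_lit 385) (nat_lit 282) (nat_lit 233)) (XT.lf (nat_lit 0) (nat_lit 2322921747) (nat_lit 228) (nat_lit 8105303228) (nat_lit 76) (nat_lit 7879037676) (nat_lit 20) (nat_lit 5) (nat_lit 23) (nat_lit 5) (nat_lit 21) (nat_lit 5) (nat_lit 386) (nat_lit 282) (nat_lit 232))) (XT.nd (nat_lit 42744) (nat_lit 0) (nat_lit 19380) (XT.lf (nat_lit 0) (nat_lit 5123247586) (nat_lit 152) (nat_lit 3617188250) (nat_lit 228) (nat_lit 9964417644) (nat_lit 18) (nat_lit 5) (nat_lit 20) (nat_lit 5) (nat_lit 21) (nat_lit 5) (nat_lit 387) (nat_lit 282) (nat_lit 231)) (XT.nd (nat_lit 78) (nat_lit 684) (nat_lit 0) (XT.lf (nat_lit 0) (nat_lit 14886351) (nat_lit 760) (nat_lit 3845859362) (nat_lit 0) (nat_lit 14886351) (nat_lit 282) (nat_lit 5) (nat_lit 292) (nat_lit 4) (nat_lit 282) (nat_lit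 4) (nat_lit 334) (nat_lit 283) (nat_lit 283)) (XT.lf (nat_lit 0) (nat_lit 953841521) (nat_lit 684) (nat_lit 4424378639) (nat_lit 684) (nat_lit 2454078030) (nat_lit 273) (nat_lit 4) (nat_lit 282) (nat_lit 5) (nat_lit 282) (nat_lit 4) (nat_lit 335) (nat_lit 283) (nat_lit 282))))) (XT.nd (nat_lit 156) (nat_lit 1900) (nat_lit 0) (XT.nd (nat_lit 78) (nat_lit 760) (nat_lit 0) (XT.lf (nat_lit 0) (nat_lit 1878795276) (nat_lit 684) (nat_lit 973684474) (nat_lit 760) (nat_lit 5064570949) (nat_lit 263) (nat_lit 5) (nat_lit 272) (nat_lit 5) (nat_lit 273) (nat_lit 4) (nat_lit 336) (nat_lit 283) (nat_lit 281)) (XT.lf (nat_lit 0) (nat_lit 217193039) (nat_lit 760) (nat_lit 5189124092) (nat_lit 76) (nat_lit 2598939133) (nat_lit 253) (nat_lit 5) (nat_lit 263) (nat_lit 5) (nat_lit 254) (nat_lit 4) (nat_lit 337) (nat_lit 283) (nat_lit 280))) (XT.nd (nat_lit 78) (nat_lit 1292) (nat_lit 0) (XT.lf (nat_lit 0) (nat_lit 3757671998)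 (nat_lit 608) (nat_lit 1763751375) (nat_lit 684) (nat_lit 2575428070) (nat_lit 245) (nat_lit 5) (nat_lit 253) (nat_lit 5) (nat_lit 254) (nat_lit 4) (nat_lit 338) (nat_lit 283) (nat_lit 279)) (XT.nd (nat_lit 78) (nat_lit 608) (nat_lit 0) (XT.lf (nat_lit 0) (nat_lit 2698558092) (nat_lit 684) (nat_lit 3482113203) (nat_lit 76) (nat_lit 2011394280) (nat_lit 236) (nat_lit 5) (nat_lit 245) (nat_lit 5) (nat_lit 237) (nat_lit 4) (nat_lit 339) (nat_lit 283) (nat_lit 278)) (XT.lf (nat_lit 0) (nat_lit 5672336772) (nat_lit 608) (nat_lit 2366840678) (nat_lit 684) (nat_lit 251814275) (nat_lit 228) (nat_lit 5) (nat_lit 236) (nat_lit 5) (nat_lit 237) (nat_lit 4) (nat_lit 340) (nat_lit 283) (nat_lit 277))))))) (XT.nd (nat_lit 780) (nat_lit 4104) (nat_lit 0) (XT.nd (nat_lit 390) (nat_lit 2508) (nat_lit 0) (XT.nd (nat_lit 156) (nat_lit 2204) (nat_lit 0) (XT.nd (nat_lit 78) (nat_lit 608) (nat_lit 0) (XT.lf (nat_lit 0)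 (nat_lit 5023892733) (nat_lit 684) (nat_lit 1766268236) (nat_lit 76) (nat_lit 1603231994) (nat_lit 219) (nat_lit 5) (nat_lit 228) (nat_lit 5) (nat_lit 220) (nat_lit 4) (nat_lit 341) (nat_lit 283) (nat_lit 276)) (XT.lf (nat_lit 0) (nat_lit 1882029039) (nat_lit 608) (nat_lit 914484760) (nat_lit 76) (nat_lit 5703082106) (nat_lit 211) (nat_lit 5) (nat_lit 219) (nat_lit 5) (nat_lit 212) (nat_lit 5) (nat_lit 342) (nat_lit 283) (nat_lit 275))) (XT.nd (nat_lit 78) (nat_lit 1672) (nat_lit 0) (XT.lf (nat_lit 0) (nat_lit 7193225375) (nat_lit 608) (nat_lit 67555152) (nat_lit 76) (nat_lit 1348857385) (nat_lit 204) (nat_lit 5) (nat_lit 212) (nat_lit 5) (nat_lit 205) (nat_lit 4) (nat_lit 343) (nat_lit 283) (nat_lit 274)) (XT.nd (nat_lit 78) (nat_lit 532) (nat_lit 0) (XT.lf (nat_lit 0) (nat_lit 768484604) (nat_lit 532) (nat_lit 3085533427) (nat_lit 608) (nat_lit 4869206611) (nat_lit 189) (nat_lit 5) (nat_lit 196)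 (nat_lit 5) (nat_lit 197) (nat_lit 5) (nat_lit 344) (nat_lit 283) (nat_lit 273)) (XT.lf (nat_lit 0) (nat_lit 369354804) (nat_lit 532) (nat_lit 7235790580) (nat_lit 76) (nat_lit 1235850087) (nat_lit 182) (nat_lit 5) (nat_lit 189) (nat_lit 5) (nat_lit 183) (nat_lit 5) (nat_lit 345) (nat_lit 283) (nat_lit 272))))) (XT.nd (nat_lit 156) (nat_lit 1444) (nat_lit 0) (XT.nd (nat_lit 78) (nat_lit 532) (nat_lit 0) (XT.lf (nat_lit 0) (nat_lit 2404851060) (nat_lit 532) (nat_lit 3260543341) (nat_lit 608) (nat_lit 3296981444) (nat_lit 175) (nat_lit 5) (nat_lit 182) (nat_lit 5) (nat_lit 183) (nat_lit 5) (nat_lit 346) (nat_lit 283) (nat_lit 271)) (XT.lf (nat_lit 0) (nat_lit 1961789576) (nat_lit 532) (nat_lit 5892135786) (nat_lit 76) (nat_lit 1234144838) (nat_lit 168) (nat_lit 5) (nat_lit 175) (nat_lit 5) (nat_lit 169) (nat_lit 5) (nat_lit 347) (nat_lit 283) (nat_lit 270))) (XT.nd (nat_lit 78) (nat_lit 988) (nat_lit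 0) (XT.lf (nat_lit 0) (nat_lit 3951817622) (nat_lit 456) (nat_lit 3353578695) (nat_lit 532) (nat_lit 1912311750) (nat_lit 162) (nat_lit 5) (nat_lit 168) (nat_lit 5) (nat_lit 169) (nat_lit 5) (nat_lit 348) (nat_lit 283) (nat_lit 269)) (XT.nd (nat_lit 78) (nat_lit 456) (nat_lit 0) (XT.lf (nat_lit 0) (nat_lit 3372986510) (nat_lit 532) (nat_lit 4670128390) (nat_lit 76) (nat_lit 1308509506) (nat_lit 155) (nat_lit 5) (nat_lit 162) (nat_lit 5) (nat_lit 156) (nat_lit 5) (nat_lit 349) (nat_lit 283) (nat_lit 268)) (XT.lf (nat_lit 0) (nat_lit 5376484011) (nat_lit 456) (nat_lit 3390845741) (nat_lit 532) (nat_lit 722488715) (nat_lit 149) (nat_lit 5) (nat_lit 155) (nat_lit 5) (nat_lit 156) (nat_lit 5) (nat_lit 350) (nat_lit 283) (nat_lit 267)))))) (XT.nd (nat_lit 390) (nat_lit 1900) (nat_lit 0) (XT.nd (nat_lit 156) (nat_lit 1216) (nat_lit 0) (XT.nd (nat_lit 78) (nat_lit 532) (nat_lit 0) (XT.lf (nat_lit 0) (nat_lit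 4594890085) (nat_lit 456) (nat_lit 3604443692) (nat_lit 76) (nat_lit 1432954263) (nat_lit 143) (nat_lit 5) (nat_lit 149) (nat_lit 5) (nat_lit 144) (nat_lit 5) (nat_lit 351) (nat_lit 283) (nat_lit 266)) (XT.lf (nat_lit 0) (nat_lit 259622010) (nat_lit 532) (nat_lit 3137736164) (nat_lit 76) (nat_lit 6381973737) (nat_lit 136) (nat_lit 5) (nat_lit 143) (nat_lit 5) (nat_lit 137) (nat_lit 5) (nat_lit 352) (nat_lit 283) (nat_lit 265))) (XT.nd (nat_lit 78) (nat_lit 836) (nat_lit 0) (XT.lf (nat_lit 0) (nat_lit 5617298774) (nat_lit 456) (nat_lit 2732611908) (nat_lit 76) (nat_lit 1580844055) (nat_lit 131) (nat_lit 5) (nat_lit 137) (nat_lit 5) (nat_lit 132) (nat_lit 5) (nat_lit 353) (nat_lit 283) (nat_lit 264)) (XT.nd (nat_lit 78) (nat_lit 380) (nat_lit 0) (XT.lf (nat_lit 0) (nat_lit 1019150990) (nat_lit 456) (nat_lit 2379910064) (nat_lit 76) (nat_lit 6687879997) (nat_lit 125) (nat_lit 5) (nat_lit 131) (nat_lit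 5) (nat_lit 126) (nat_lit 5) (nat_lit 354) (nat_lit 283) (nat_lit 263)) (XT.lf (nat_lit 0) (nat_lit 6427719990) (nat_lit 456) (nat_lit 2095421667) (nat_lit 76) (nat_lit 1724643771) (nat_lit 120) (nat_lit 5) (nat_lit 126) (nat_lit 5) (nat_lit 121) (nat_lit 5) (nat_lit 355) (nat_lit 283) (nat_lit 262))))) (XT.nd (nat_lit 156) (nat_lit 1140) (nat_lit 0) (XT.nd (nat_lit 78) (nat_lit 304) (nat_lit 0) (XT.lf (nat_lit 0) (nat_lit 1551663903) (nat_lit 456) (nat_lit 1877791898) (nat_lit 76) (nat_lit 6984079059) (nat_lit 114) (nat_lit 5) (nat_lit 120) (nat_lit 5) (nat_lit 115) (nat_lit 5) (nat_lit 356) (nat_lit 283) (nat_lit 261)) (XT.lf (nat_lit 0) (nat_lit 7011203275) (nat_lit 380) (nat_lit 1737358972) (nat_lit 76) (nat_lit 1835650189) (nat_lit 110) (nat_lit 5) (nat_lit 115) (nat_lit 5) (nat_lit 111) (nat_lit 5) (nat_lit 357) (nat_lit 283) (nat_lit 260))) (XT.nd (nat_lit 78) (nat_lit 684) (nat_lit 0) (XT.lf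 (nat_lit 0) (nat_lit 1840685595) (nat_lit 456) (nat_lit 1677935624) (nat_lit 76) (nat_lit 7241360973) (nat_lit 104) (nat_lit 5) (nat_lit 110) (nat_lit 5) (nat_lit 105) (nat_lit 5) (nat_lit 358) (nat_lit 283) (nat_lit 259)) (XT.nd (nat_lit 78) (nat_lit 380) (nat_lit 0) (XT.lf (nat_lit 0) (nat_lit 7350149941) (nat_lit 380) (nat_lit 1707085879) (nat_lit 76) (nat_lit 1883708248) (nat_lit 100) (nat_lit 5) (nat_lit 105) (nat_lit 5) (nat_lit 101) (nat_lit 5) (nat_lit 359) (nat_lit 283) (nat_lit 258)) (XT.lf (nat_lit 0) (nat_lit 1866972682) (nat_lit 380) (nat_lit 1831323081) (nat_lit 76) (nat_lit 7428934709) (nat_lit 95) (nat_lit 5) (nat_lit 100) (nat_lit 5) (nat_lit 96) (nat_lit 5) (nat_lit 360) (nat_lit 283) (nat_lit 257))))))))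
noncomputable def xc19 : XT := (XT.nd (nat_lit 1482) (nat_lit 1140) (nat_lit 0) (XT.nd (nat_lit 702) (nat_lit 1900) (nat_lit 0) (XT.nd (nat_lit 312) (nat_lit 1368) (nat_lit 0) (XT.nd (nat_lit 156) (nat_lit 608) (nat_lit 0) (XT.nd (nat_lit 78) (nat_lit 380) (nat_lit 0) (XT.lf (nat_lit 0) (nat_lit 7424097161) (nat_lit 380) (nat_lit 2057963522) (nat_lit 76) (nat_lit 1836909077) (nat_lit 91) (nat_lit 5) (nat_lit 96) (nat_lit 5) (nat_lit 92) (nat_lit 5) (nat_lit 361) (nat_lit 283) (nat_lit 256)) (XT.lf (nat_lit 0) (nat_lit 1608283892) (nat_lit 380) (nat_lit 2393911337) (nat_lit 76) (nat_lit 7514115885) (nat_lit 86) (nat_lit 5) (nat_lit 91) (nat_lit 5) (nat_lit 87) (nat_lit 5) (nat_lit 362) (nat_lit 283) (nat_lit 255))) (XT.nd (nat_lit 78) (nat_lit 380) (nat_lit 0) (XT.lf (nat_lit 0) (nat_lit 7209474271) (nat_lit 304) (nat_lit 2848624582) (nat_lit 76) (nat_lit 1661266969) (nat_lit 83) (nat_lit 5) (nat_lit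 87) (nat_lit 5) (nat_lit 84) (nat_lit 5) (nat_lit 363) (nat_lit 283) (nat_lit 254)) (XT.lf (nat_lit 0) (nat_lit 1039121354) (nat_lit 380) (nat_lit 3427232187) (nat_lit 76) (nat_lit 7461992043) (nat_lit 78) (nat_lit 5) (nat_lit 83) (nat_lit 5) (nat_lit 79) (nat_lit 5) (nat_lit 364) (nat_lit 283) (nat_lit 253)))) (XT.nd (nat_lit 156) (nat_lit 760) (nat_lit 0) (XT.nd (nat_lit 78) (nat_lit 380) (nat_lit 0) (XT.lf (nat_lit 0) (nat_lit 6679328760) (nat_lit 304) (nat_lit 4143600767) (nat_lit 76) (nat_lit 1320372300) (nat_lit 75) (nat_lit 5) (nat_lit 79) (nat_lit 5) (nat_lit 76) (nat_lit 5) (nat_lit 365) (nat_lit 283) (nat_lit 252)) (XT.lf (nat_lit 0) (nat_lit 130440176) (nat_lit 380) (nat_lit 4999049633) (nat_lit 76) (nat_lit 7235062313) (nat_lit 70) (nat_lit 5) (nat_lit 75) (nat_lit 5) (nat_lit 71) (nat_lit 5) (nat_lit 366) (nat_lit 283) (nat_lit 251))) (XT.nd (nat_lit 78) (nat_lit 532) (nat_lit 0) (XT.lf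 (nat_lit 0) (nat_lit 5803019147) (nat_lit 304) (nat_lit 6014011442) (nat_lit 76) (nat_lit 775017108) (nat_lit 67) (nat_lit 5) (nat_lit 71) (nat_lit 5) (nat_lit 68) (nat_lit 5) (nat_lit 367) (nat_lit 283) (nat_lit 250)) (XT.nd (nat_lit 78) (nat_lit 304) (nat_lit 0) (XT.lf (nat_lit 0) (nat_lit 5634449789) (nat_lit 228) (nat_lit 6025683493) (nat_lit 304) (nat_lit 1165968530) (nat_lit 64) (nat_lit 5) (nat_lit 67) (nat_lit 5) (nat_lit 68) (nat_lit 5) (nat_lit 368) (nat_lit 283) (nat_lit 249)) (XT.lf (nat_lit 0) (nat_lit 4528545953) (nat_lit 228) (nat_lit 17438913) (nat_lit 304) (nat_lit 8520994446) (nat_lit 60) (nat_lit 5) (nat_lit 63) (nat_lit 5) (nat_lit 64) (nat_lit 5) (nat_lit 369) (nat_lit 283) (nat_lit 248)))))) (XT.nd (nat_lit 390) (nat_lit 912) (nat_lit 0) (XT.nd (nat_lit 156) (nat_lit 456) (nat_lit 0) (XT.nd (nat_lit 78) (nat_lit 304) (nat_lit 0) (XT.lf (nat_lit 0) (nat_lit 3231022481) (nat_lit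 228) (nat_lit 7204345785) (nat_lit 304) (nat_lit 2879141731) (nat_lit 57) (nat_lit 5) (nat_lit 60) (nat_lit 5) (nat_lit 61) (nat_lit 5) (nat_lit 370) (nat_lit 283) (nat_lit 247)) (XT.lf (nat_lit 0) (nat_lit 1759034744) (nat_lit 228) (nat_lit 1117014741) (nat_lit 304) (nat_lit 10693403990) (nat_lit 53) (nat_lit 5) (nat_lit 56) (nat_lit 5) (nat_lit 57) (nat_lit 5) (nat_lit 371) (nat_lit 283) (nat_lit 246))) (XT.nd (nat_lit 78) (nat_lit 228) (nat_lit 0) (XT.lf (nat_lit 0) (nat_lit 66286404) (nat_lit 228) (nat_lit 8715365261) (nat_lit 304) (nat_lit 5049693326) (nat_lit 50) (nat_lit 5) (nat_lit 53) (nat_lit 5) (nat_lit 54) (nat_lit 5) (nat_lit 372) (nat_lit 283) (nat_lit 245)) (XT.nd (nat_lit 78) (nat_lit 152) (nat_lit 0) (XT.lf (nat_lit 0) (nat_lit 756328175) (nat_lit 304) (nat_lit 1795876153) (nat_lit 76) (nat_lit 11548746522) (nat_lit 49) (nat_lit 5) (nat_lit 53) (nat_lit 5) (nat_lit 50) (nat_lit 5)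 (nat_lit 373) (nat_lit 283) (nat_lit 244)) (XT.lf (nat_lit 0) (nat_lit 6678865317) (nat_lit 228) (nat_lit 3907127183) (nat_lit 76) (nat_lit 3791782441) (nat_lit 47) (nat_lit 5) (nat_lit 50) (nat_lit 5) (nat_lit 48) (nat_lit 5) (nat_lit 374) (nat_lit 283) (nat_lit 243))))) (XT.nd (nat_lit 156) (nat_lit 456) (nat_lit 0) (XT.nd (nat_lit 78) (nat_lit 228) (nat_lit 0) (XT.lf (nat_lit 0) (nat_lit 8421215738) (nat_lit 228) (nat_lit 4360452226) (nat_lit 304) (nat_lit 1881199962) (nat_lit 44) (nat_lit 5) (nat_lit 47) (nat_lit 5) (nat_lit 48) (nat_lit 5) (nat_lit 375) (nat_lit 283) (nat_lit 242)) (XT.lf (nat_lit 0) (nat_lit 4056689724) (nat_lit 228) (nat_lit 8837370463) (nat_lit 76) (nat_lit 2061943557) (nat_lit 41) (nat_lit 5) (nat_lit 44) (nat_lit 5) (nat_lit 42) (nat_lit 5) (nat_lit 376) (nat_lit 283) (nat_lit 241))) (XT.nd (nat_lit 78) (nat_lit 228) (nat_lit 0) (XT.lf (nat_lit 0) (nat_lit 3545571173) (nat_lit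 228) (nat_lit 6617115278) (nat_lit 304) (nat_lit 5094702670) (nat_lit 38) (nat_lit 5) (nat_lit 41) (nat_lit 5) (nat_lit 42) (nat_lit 5) (nat_lit 377) (nat_lit 283) (nat_lit 240)) (XT.nd (nat_lit 78) (nat_lit 0) (nat_lit 0) (XT.lf (nat_lit 0) (nat_lit 721861414) (nat_lit 152) (nat_lit 137092789) (nat_lit 228) (nat_lit 14709031063) (nat_lit 35) (nat_lit 5) (nat_lit 37) (nat_lit 5) (nat_lit 38) (nat_lit 5) (nat_lit 378) (nat_lit 283) (nat_lit 239)) (XT.lf (nat_lit 0) (nat_lit 6967315600) (nat_lit 228) (nat_lit 2409291826) (nat_lit 76) (nat_lit 6509725742) (nat_lit 35) (nat_lit 5) (nat_lit 38) (nat_lit 5) (nat_lit 36) (nat_lit 5) (nat_lit 379) (nat_lit 283) (nat_lit 238))))))) (XT.nd (nat_lit 43290) (nat_lit 0) (nat_lit 13984) (XT.nd (nat_lit 390) (nat_lit 380) (nat_lit 0) (XT.nd (nat_lit 156) (nat_lit 380) (nat_lit 0) (XT.nd (nat_lit 78) (nat_lit 228) (nat_lit 0) (XT.lf (nat_lit 0) (nat_lit 10405318944)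 (nat_lit 152) (nat_lit 2846922813) (nat_lit 228) (nat_lit 2962136703) (nat_lit 33) (nat_lit 5) (nat_lit 35) (nat_lit 5) (nat_lit 36) (nat_lit 5) (nat_lit 380) (nat_lit 283) (nat_lit 237)) (XT.lf (nat_lit 0) (nat_lit 3144949929) (nat_lit 228) (nat_lit 9550377042) (nat_lit 76) (nat_lit 3856276257) (nat_lit 30) (nat_lit 5) (nat_lit 33) (nat_lit 5) (nat_lit 31) (nat_lit 5) (nat_lit 381) (nat_lit 283) (nat_lit 236))) (XT.nd (nat_lit 78) (nat_lit 228) (nat_lit 0) (XT.lf (nat_lit 0) (nat_lit 3251954384) (nat_lit 152) (nat_lit 6149728746) (nat_lit 228) (nat_lit 7496748688) (nat_lit 28) (nat_lit 5) (nat_lit 30) (nat_lit 5) (nat_lit 31) (nat_lit 5) (nat_lit 382) (nat_lit 283) (nat_lit 235)) (XT.nd (nat_lit 78) (nat_lit 228) (nat_lit 0) (XT.lf (nat_lit 0) (nat_lit 15842738112) (nat_lit 228) (nat_lit 817335582) (nat_lit 76) (nat_lit 595671046) (nat_lit 28) (nat_lit 5) (nat_lit 31) (nat_lit 5) (nat_lit 29) (nat_lit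 4) (nat_lit 383) (nat_lit 283) (nat_lit 234)) (XT.lf (nat_lit 0) (nat_lit 4841258939) (nat_lit 228) (nat_lit 5260559611) (nat_lit 76) (nat_lit 7520306339) (nat_lit 25) (nat_lit 5) (nat_lit 28) (nat_lit 5) (nat_lit 26) (nat_lit 5) (nat_lit 384) (nat_lit 283) (nat_lit 233))))) (XT.nd (nat_lit 156) (nat_lit 76) (nat_lit 0) (XT.nd (nat_lit 78) (nat_lit 152) (nat_lit 0) (XT.lf (nat_lit 0) (nat_lit 7919034999) (nat_lit 152) (nat_lit 3332544086) (nat_lit 228) (nat_lit 6747989053) (nat_lit 23) (nat_lit 5) (nat_lit 25) (nat_lit 5) (nat_lit 26) (nat_lit 5) (nat_lit 385) (nat_lit 283) (nat_lit 232)) (XT.lf (nat_lit 0) (nat_lit 3072823904) (nat_lit 152) (nat_lit 14792270340) (nat_lit 228) (nat_lit 523033383) (nat_lit 21) (nat_lit 5) (nat_lit 23) (nat_lit 5) (nat_lit 24) (nat_lit 4) (nat_lit 386) (nat_lit 283) (nat_lit 231))) (XT.nd (nat_lit 42588) (nat_lit 0) (nat_lit 21432) (XT.lf (nat_lit 0) (nat_lit 5834668541)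 (nat_lit 228) (nat_lit 2210127474) (nat_lit 76) (nat_lit 10742328789) (nat_lit 20) (nat_lit 5) (nat_lit 23) (nat_lit 5) (nat_lit 21) (nat_lit 5) (nat_lit 387) (nat_lit 283) (nat_lit 230)) (XT.nd (nat_lit 78) (nat_lit 836) (nat_lit 0) (XT.lf (nat_lit 0) (nat_lit 3003157731) (nat_lit 760) (nat_lit 397709635) (nat_lit 760) (nat_lit 397709635) (nat_lit 313) (nat_lit 4) (nat_lit 323) (nat_lit 5) (nat_lit 323) (nat_lit 4) (nat_lit 332) (nat_lit 284) (nat_lit 284)) (XT.lf (nat_lit 0) (nat_lit 4457203242) (nat_lit 836) (nat_lit 828644398) (nat_lit 0) (nat_lit 2387205423) (nat_lit 302) (nat_lit 5) (nat_lit 313) (nat_lit 4) (nat_lit 302) (nat_lit 4) (nat_lit 333) (nat_lit 284) (nat_lit 283)))))) (XT.nd (nat_lit 390) (nat_lit 3116) (nat_lit 0) (XT.nd (nat_lit 156) (nat_lit 2128) (nat_lit 0) (XT.nd (nat_lit 78) (nat_lit 1368) (nat_lit 0) (XT.lf (nat_lit 0) (nat_lit 2000417575) (nat_lit 836) (nat_lit 38860938)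 (nat_lit 76) (nat_lit 5713199779) (nat_lit 291) (nat_lit 5) (nat_lit 302) (nat_lit 5) (nat_lit 292) (nat_lit 4) (nat_lit 334) (nat_lit 284) (nat_lit 282)) (XT.lf (nat_lit 0) (nat_lit 780296475) (nat_lit 684) (nat_lit 6483786353) (nat_lit 684) (nat_lit 571162906) (nat_lit 273) (nat_lit 4) (nat_lit 282) (nat_lit 5) (nat_lit 282) (nat_lit 4) (nat_lit 335) (nat_lit 284) (nat_lit 281))) (XT.nd (nat_lit 78) (nat_lit 1368) (nat_lit 0) (XT.lf (nat_lit 0) (nat_lit 1602498905) (nat_lit 684) (nat_lit 3037263295) (nat_lit 760) (nat_lit 3281446217) (nat_lit 263) (nat_lit 5) (nat_lit 272) (nat_lit 5) (nat_lit 273) (nat_lit 4) (nat_lit 336) (nat_lit 284) (nat_lit 280)) (XT.nd (nat_lit 78) (nat_lit 608) (nat_lit 0) (XT.lf (nat_lit 0) (nat_lit 1892874369) (nat_lit 760) (nat_lit 5561614272) (nat_lit 76) (nat_lit 556409135) (nat_lit 253) (nat_lit 5) (nat_lit 263) (nat_lit 5) (nat_lit 254) (nat_lit 4) (nat_lit 337) (nat_lit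 284) (nat_lit 279)) (XT.lf (nat_lit 0) (nat_lit 3295678520) (nat_lit 608) (nat_lit 3831628589) (nat_lit 684) (nat_lit 976614989) (nat_lit 245) (nat_lit 5) (nat_lit 253) (nat_lit 5) (nat_lit 254) (nat_lit 4) (nat_lit 338) (nat_lit 284) (nat_lit 278))))) (XT.nd (nat_lit 156) (nat_lit 1748) (nat_lit 0) (XT.nd (nat_lit 78) (nat_lit 684) (nat_lit 0) (XT.lf (nat_lit 0) (nat_lit 4153533544) (nat_lit 608) (nat_lit 40085518) (nat_lit 684) (nat_lit 4006996820) (nat_lit 236) (nat_lit 5) (nat_lit 244) (nat_lit 5) (nat_lit 245) (nat_lit 5) (nat_lit 339) (nat_lit 284) (nat_lit 277)) (XT.lf (nat_lit 0) (nat_lit 1148920680) (nat_lit 684) (nat_lit 3292350116) (nat_lit 76) (nat_lit 3859532627) (nat_lit 227) (nat_lit 5) (nat_lit 236) (nat_lit 5) (nat_lit 228) (nat_lit 5) (nat_lit 340) (nat_lit 284) (nat_lit 276))) (XT.nd (nat_lit 78) (nat_lit 1140) (nat_lit 0) (XT.lf (nat_lit 0) (nat_lit 5870093496) (nat_lit 608) (nat_lit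 472028476) (nat_lit 684) (nat_lit 2062663251) (nat_lit 219) (nat_lit 5) (nat_lit 227) (nat_lit 5) (nat_lit 228) (nat_lit 5) (nat_lit 341) (nat_lit 284) (nat_lit 275)) (XT.nd (nat_lit 78) (nat_lit 532) (nat_lit 0) (XT.lf (nat_lit 0) (nat_lit 3100123138) (nat_lit 608) (nat_lit 1794170689) (nat_lit 76) (nat_lit 3617984501) (nat_lit 211) (nat_lit 5) (nat_lit 219) (nat_lit 5) (nat_lit 212) (nat_lit 5) (nat_lit 342) (nat_lit 284) (nat_lit 274)) (XT.lf (nat_lit 0) (nat_lit 7576952902) (nat_lit 532) (nat_lit 757565672) (nat_lit 608) (nat_lit 289364760) (nat_lit 204) (nat_lit 5) (nat_lit 211) (nat_lit 5) (nat_lit 212) (nat_lit 5) (nat_lit 343) (nat_lit 284) (nat_lit 273))))))))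
noncomputable def xc20 : XT := (XT.nd (nat_lit 1482) (nat_lit 4256) (nat_lit 0) (XT.nd (nat_lit 702) (nat_lit 3800) (nat_lit 0) (XT.nd (nat_lit 312) (nat_lit 2432) (nat_lit 0) (XT.nd (nat_lit 156) (nat_lit 1064) (nat_lit 0) (XT.nd (nat_lit 78) (nat_lit 1064) (nat_lit 0) (XT.lf (nat_lit 0) (nat_lit 4888464551) (nat_lit 608) (nat_lit 334136078) (nat_lit 76) (nat_lit 3516305162) (nat_lit 196) (nat_lit 5) (nat_lit 204) (nat_lit 5) (nat_lit 197) (nat_lit 5) (nat_lit 344) (nat_lit 284) (nat_lit 272)) (XT.lf (nat_lit 0) (nat_lit 385104303) (nat_lit 456) (nat_lit 910743039) (nat_lit 532) (nat_lit 7562299665) (nat_lit 182) (nat_lit 5) (nat_lit 188) (nat_lit 5) (nat_lit 189) (nat_lit 5) (nat_lit 345) (nat_lit 284) (nat_lit 271))) (XT.nd (nat_lit 78) (nat_lit 532) (nat_lit 0) (XT.lf (nat_lit 0) (nat_lit 1073431451) (nat_lit 532) (nat_lit 5444396540) (nat_lit 608) (nat_lit 2463204300) (nat_lit 175) (nat_lit 5)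 (nat_lit 182) (nat_lit 5) (nat_lit 183) (nat_lit 5) (nat_lit 346) (nat_lit 284) (nat_lit 270)) (XT.lf (nat_lit 0) (nat_lit 1747540950) (nat_lit 456) (nat_lit 960808745) (nat_lit 532) (nat_lit 6399816910) (nat_lit 168) (nat_lit 5) (nat_lit 174) (nat_lit 5) (nat_lit 175) (nat_lit 5) (nat_lit 347) (nat_lit 284) (nat_lit 269)))) (XT.nd (nat_lit 156) (nat_lit 1444) (nat_lit 0) (XT.nd (nat_lit 78) (nat_lit 532) (nat_lit 0) (XT.lf (nat_lit 0) (nat_lit 2387275713) (nat_lit 456) (nat_lit 5590614405) (nat_lit 532) (nat_lit 1261417613) (nat_lit 162) (nat_lit 5) (nat_lit 168) (nat_lit 5) (nat_lit 169) (nat_lit 5) (nat_lit 348) (nat_lit 284) (nat_lit 268)) (XT.lf (nat_lit 0) (nat_lit 2996473141) (nat_lit 456) (nat_lit 942357075) (nat_lit 532) (nat_lit 5435860485) (nat_lit 155) (nat_lit 5) (nat_lit 161) (nat_lit 5) (nat_lit 162) (nat_lit 5) (nat_lit 349) (nat_lit 284) (nat_lit 267))) (XT.nd (nat_lit 78) (nat_lit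 988) (nat_lit 0) (XT.lf (nat_lit 0) (nat_lit 3569937318) (nat_lit 456) (nat_lit 5689462535) (nat_lit 532) (nat_lit 254980649) (nat_lit 149) (nat_lit 5) (nat_lit 155) (nat_lit 5) (nat_lit 156) (nat_lit 5) (nat_lit 350) (nat_lit 284) (nat_lit 266)) (XT.nd (nat_lit 78) (nat_lit 532) (nat_lit 0) (XT.lf (nat_lit 0) (nat_lit 4097550526) (nat_lit 380) (nat_lit 881497625) (nat_lit 456) (nat_lit 4679304880) (nat_lit 143) (nat_lit 5) (nat_lit 148) (nat_lit 5) (nat_lit 149) (nat_lit 5) (nat_lit 351) (nat_lit 284) (nat_lit 265)) (XT.lf (nat_lit 0) (nat_lit 539168746) (nat_lit 532) (nat_lit 5224706155) (nat_lit 76) (nat_lit 4042970861) (nat_lit 136) (nat_lit 5) (nat_lit 143) (nat_lit 5) (nat_lit 137) (nat_lit 5) (nat_lit 352) (nat_lit 284) (nat_lit 264)))))) (XT.nd (nat_lit 390) (nat_lit 1824) (nat_lit 0) (XT.nd (nat_lit 156) (nat_lit 1140) (nat_lit 0) (XT.nd (nat_lit 78) (nat_lit 456) (nat_lit 0) (XT.lf (nat_lit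 0) (nat_lit 5013599756) (nat_lit 380) (nat_lit 805029396) (nat_lit 456) (nat_lit 4141221590) (nat_lit 131) (nat_lit 5) (nat_lit 136) (nat_lit 5) (nat_lit 137) (nat_lit 5) (nat_lit 353) (nat_lit 284) (nat_lit 263)) (XT.lf (nat_lit 0) (nat_lit 1115673839) (nat_lit 456) (nat_lit 4728933202) (nat_lit 76) (nat_lit 4272893670) (nat_lit 125) (nat_lit 5) (nat_lit 131) (nat_lit 5) (nat_lit 126) (nat_lit 5) (nat_lit 354) (nat_lit 284) (nat_lit 262))) (XT.nd (nat_lit 78) (nat_lit 760) (nat_lit 0) (XT.lf (nat_lit 0) (nat_lit 5704223567) (nat_lit 380) (nat_lit 740697022) (nat_lit 456) (nat_lit 3835027420) (nat_lit 120) (nat_lit 5) (nat_lit 125) (nat_lit 5) (nat_lit 126) (nat_lit 5) (nat_lit 355) (nat_lit 284) (nat_lit 261)) (XT.nd (nat_lit 78) (nat_lit 304) (nat_lit 0) (XT.lf (nat_lit 0) (nat_lit 1463629948) (nat_lit 456) (nat_lit 4498299540) (nat_lit 76) (nat_lit 4485250939) (nat_lit 114) (nat_lit 5) (nat_lit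 120) (nat_lit 5) (nat_lit 115) (nat_lit 5) (nat_lit 356) (nat_lit 284) (nat_lit 260)) (XT.lf (nat_lit 0) (nat_lit 6125364662) (nat_lit 304) (nat_lit 717460595) (nat_lit 380) (nat_lit 3776654853) (nat_lit 110) (nat_lit 5) (nat_lit 114) (nat_lit 5) (nat_lit 115) (nat_lit 5) (nat_lit 357) (nat_lit 284) (nat_lit 259))))) (XT.nd (nat_lit 156) (nat_lit 1064) (nat_lit 0) (XT.nd (nat_lit 78) (nat_lit 304) (nat_lit 0) (XT.lf (nat_lit 0) (nat_lit 1566227948) (nat_lit 456) (nat_lit 4579588991) (nat_lit 76) (nat_lit 4650943518) (nat_lit 104) (nat_lit 5) (nat_lit 110) (nat_lit 5) (nat_lit 105) (nat_lit 5) (nat_lit 358) (nat_lit 284) (nat_lit 258)) (XT.lf (nat_lit 0) (nat_lit 6228830185) (nat_lit 304) (nat_lit 765781526) (nat_lit 380) (nat_lit 3984746303) (nat_lit 100) (nat_lit 5) (nat_lit 104) (nat_lit 5) (nat_lit 105) (nat_lit 5) (nat_lit 359) (nat_lit 284) (nat_lit 257))) (XT.nd (nat_lit 78) (nat_lit 684) (nat_lit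 0) (XT.lf (nat_lit 0) (nat_lit 1403894278) (nat_lit 380) (nat_lit 5024038640) (nat_lit 76) (nat_lit 4739261907) (nat_lit 95) (nat_lit 5) (nat_lit 100) (nat_lit 5) (nat_lit 96) (nat_lit 5) (nat_lit 360) (nat_lit 284) (nat_lit 256)) (XT.nd (nat_lit 78) (nat_lit 380) (nat_lit 0) (XT.lf (nat_lit 0) (nat_lit 5961772167) (nat_lit 304) (nat_lit 917927051) (nat_lit 380) (nat_lit 4480874288) (nat_lit 91) (nat_lit 5) (nat_lit 95) (nat_lit 5) (nat_lit 96) (nat_lit 5) (nat_lit 361) (nat_lit 284) (nat_lit 255)) (XT.lf (nat_lit 0) (nat_lit 954060189) (nat_lit 380) (nat_lit 5887885902) (nat_lit 76) (nat_lit 4717575389) (nat_lit 86) (nat_lit 5) (nat_lit 91) (nat_lit 5) (nat_lit 87) (nat_lit 5) (nat_lit 362) (nat_lit 284) (nat_lit 254))))))) (XT.nd (nat_lit 780) (nat_lit 1748) (nat_lit 0) (XT.nd (nat_lit 390) (nat_lit 1064) (nat_lit 0) (XT.nd (nat_lit 156) (nat_lit 836) (nat_lit 0) (XT.nd (nat_lit 78) (nat_lit 380)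 (nat_lit 0) (XT.lf (nat_lit 0) (nat_lit 5266118900) (nat_lit 228) (nat_lit 1208296217) (nat_lit 304) (nat_lit 5289789795) (nat_lit 83) (nat_lit 5) (nat_lit 86) (nat_lit 5) (nat_lit 87) (nat_lit 5) (nat_lit 363) (nat_lit 284) (nat_lit 253)) (XT.lf (nat_lit 0) (nat_lit 190901988) (nat_lit 380) (nat_lit 7232967820) (nat_lit 76) (nat_lit 4550998565) (nat_lit 78) (nat_lit 5) (nat_lit 83) (nat_lit 5) (nat_lit 79) (nat_lit 5) (nat_lit 364) (nat_lit 284) (nat_lit 252))) (XT.nd (nat_lit 78) (nat_lit 608) (nat_lit 0) (XT.lf (nat_lit 0) (nat_lit 4077951689) (nat_lit 228) (nat_lit 1673770385) (nat_lit 304) (nat_lit 6439701392) (nat_lit 75) (nat_lit 5) (nat_lit 78) (nat_lit 5) (nat_lit 79) (nat_lit 5) (nat_lit 365) (nat_lit 284) (nat_lit 251)) (XT.nd (nat_lit 78) (nat_lit 304) (nat_lit 0) (XT.lf (nat_lit 0) (nat_lit 3280941977) (nat_lit 304) (nat_lit 8206288257) (nat_lit 380) (nat_lit 927109591) (nat_lit 71) (nat_lit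 5) (nat_lit 75) (nat_lit 5) (nat_lit 76) (nat_lit 5) (nat_lit 366) (nat_lit 284) (nat_lit 250)) (XT.lf (nat_lit 0) (nat_lit 2326820896) (nat_lit 228) (nat_lit 2354091551) (nat_lit 304) (nat_lit 7962587925) (nat_lit 67) (nat_lit 5) (nat_lit 70) (nat_lit 5) (nat_lit 71) (nat_lit 5) (nat_lit 367) (nat_lit 284) (nat_lit 249))))) (XT.nd (nat_lit 156) (nat_lit 760) (nat_lit 0) (XT.nd (nat_lit 78) (nat_lit 76) (nat_lit 0) (XT.lf (nat_lit 0) (nat_lit 1217351896) (nat_lit 228) (nat_lit 9233367886) (nat_lit 304) (nat_lit 2428590802) (nat_lit 64) (nat_lit 5) (nat_lit 67) (nat_lit 5) (nat_lit 68) (nat_lit 5) (nat_lit 368) (nat_lit 284) (nat_lit 248)) (XT.lf (nat_lit 0) (nat_lit 3227688714) (nat_lit 304) (nat_lit 64152863) (nat_lit 76) (nat_lit 9829964613) (nat_lit 63) (nat_lit 5) (nat_lit 67) (nat_lit 5) (nat_lit 64) (nat_lit 5) (nat_lit 369) (nat_lit 284) (nat_lit 247))) (XT.nd (nat_lit 78) (nat_lit 532) (nat_lit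 0) (XT.lf (nat_lit 0) (nat_lit 9032189577) (nat_lit 304) (nat_lit 1509187563) (nat_lit 76) (nat_lit 2829666591) (nat_lit 60) (nat_lit 5) (nat_lit 64) (nat_lit 5) (nat_lit 61) (nat_lit 5) (nat_lit 370) (nat_lit 284) (nat_lit 246)) (XT.nd (nat_lit 78) (nat_lit 228) (nat_lit 0) (XT.lf (nat_lit 0) (nat_lit 1372340658) (nat_lit 304) (nat_lit 3141617180) (nat_lit 76) (nat_lit 9113490496) (nat_lit 56) (nat_lit 5) (nat_lit 60) (nat_lit 5) (nat_lit 57) (nat_lit 5) (nat_lit 371) (nat_lit 284) (nat_lit 245)) (XT.lf (nat_lit 0) (nat_lit 7193511876) (nat_lit 304) (nat_lit 4982835797) (nat_lit 76) (nat_lit 1714689305) (nat_lit 53) (nat_lit 5) (nat_lit 57) (nat_lit 5) (nat_lit 54) (nat_lit 5) (nat_lit 372) (nat_lit 284) (nat_lit 244)))))) (XT.nd (nat_lit 390) (nat_lit 836) (nat_lit 0) (XT.nd (nat_lit 156) (nat_lit 456) (nat_lit 0) (XT.nd (nat_lit 78) (nat_lit 228) (nat_lit 0) (XT.lf (nat_lit 0) (nat_lit 7126303989)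 (nat_lit 228) (nat_lit 6079817659) (nat_lit 304) (nat_lit 956092330) (nat_lit 50) (nat_lit 5) (nat_lit 53) (nat_lit 5) (nat_lit 54) (nat_lit 5) (nat_lit 373) (nat_lit 284) (nat_lit 243)) (XT.lf (nat_lit 0) (nat_lit 4881277596) (nat_lit 228) (nat_lit 9317968549) (nat_lit 76) (nat_lit 241878070) (nat_lit 47) (nat_lit 5) (nat_lit 50) (nat_lit 5) (nat_lit 48) (nat_lit 5) (nat_lit 374) (nat_lit 284) (nat_lit 242))) (XT.nd (nat_lit 78) (nat_lit 228) (nat_lit 0) (XT.lf (nat_lit 0) (nat_lit 2871022272) (nat_lit 228) (nat_lit 8038089695) (nat_lit 304) (nat_lit 3818612231) (nat_lit 44) (nat_lit 5) (nat_lit 47) (nat_lit 5) (nat_lit 48) (nat_lit 5) (nat_lit 375) (nat_lit 284) (nat_lit 241)) (XT.nd (nat_lit 78) (nat_lit 0) (nat_lit 0) (XT.lf (nat_lit 0) (nat_lit 388669099) (nat_lit 152) (nat_lit 1666675513) (nat_lit 228) (nat_lit 12967561095) (nat_lit 41) (nat_lit 5) (nat_lit 43) (nat_lit 5) (nat_lit 44) (nat_lit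 5) (nat_lit 376) (nat_lit 284) (nat_lit 240)) (XT.lf (nat_lit 0) (nat_lit 8089538719) (nat_lit 228) (nat_lit 2352489531) (nat_lit 76) (nat_lit 4883705938) (nat_lit 41) (nat_lit 5) (nat_lit 44) (nat_lit 5) (nat_lit 42) (nat_lit 5) (nat_lit 377) (nat_lit 284) (nat_lit 239))))) (XT.nd (nat_lit 156) (nat_lit 380) (nat_lit 0) (XT.nd (nat_lit 78) (nat_lit 228) (nat_lit 0) (XT.lf (nat_lit 0) (nat_lit 10292429590) (nat_lit 228) (nat_lit 4015483290) (nat_lit 304) (nat_lit 1329685461) (nat_lit 38) (nat_lit 5) (nat_lit 41) (nat_lit 5) (nat_lit 42) (nat_lit 5) (nat_lit 378) (nat_lit 284) (nat_lit 238)) (XT.lf (nat_lit 0) (nat_lit 4698510268) (nat_lit 228) (nat_lit 8648097140) (nat_lit 76) (nat_lit 2611470111) (nat_lit 35) (nat_lit 5) (nat_lit 38) (nat_lit 5) (nat_lit 36) (nat_lit 5) (nat_lit 379) (nat_lit 284) (nat_lit 237))) (XT.nd (nat_lit 78) (nat_lit 228) (nat_lit 0) (XT.lf (nat_lit 0) (nat_lit 4020177712)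 (nat_lit 152) (nat_lit 6885855365) (nat_lit 228) (nat_lit 5381644131) (nat_lit 33) (nat_lit 5) (nat_lit 35) (nat_lit 5) (nat_lit 36) (nat_lit 5) (nat_lit 380) (nat_lit 284) (nat_lit 236)) (XT.nd (nat_lit 78) (nat_lit 0) (nat_lit 0) (XT.lf (nat_lit 0) (nat_lit 435871239) (nat_lit 152) (nat_lit 217599220) (nat_lit 228) (nat_lit 15973825806) (nat_lit 30) (nat_lit 5) (nat_lit 32) (nat_lit 5) (nat_lit 33) (nat_lit 5) (nat_lit 381) (nat_lit 284) (nat_lit 235)) (XT.lf (nat_lit 0) (nat_lit 6852606571) (nat_lit 228) (nat_lit 3491914519) (nat_lit 76) (nat_lit 6630761554) (nat_lit 30) (nat_lit 5) (nat_lit 33) (nat_lit 5) (nat_lit 31) (nat_lit 5) (nat_lit 382) (nat_lit 284) (nat_lit 234))))))))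
noncomputable def xc21 : XT := (XT.nd (nat_lit 43836) (nat_lit 0) (nat_lit 4788) (XT.nd (nat_lit 43056) (nat_lit 0) (nat_lit 13908) (XT.nd (nat_lit 312) (nat_lit 228) (nat_lit 0) (XT.nd (nat_lit 156) (nat_lit 152) (nat_lit 0) (XT.nd (nat_lit 78) (nat_lit 228) (nat_lit 0) (XT.lf (nat_lit 0) (nat_lit 9591547187) (nat_lit 152) (nat_lit 3640780022) (nat_lit 228) (nat_lit 4101500722) (nat_lit 28) (nat_lit 5) (nat_lit 30) (nat_lit 5) (nat_lit 31) (nat_lit 5) (nat_lit 383) (nat_lit 284) (nat_lit 233)) (XT.lf (nat_lit 0) (nat_lit 2084301164) (nat_lit 228) (nat_lit 12375710685) (nat_lit 76) (nat_lit 3242625221) (nat_lit 25) (nat_lit 5) (nat_lit 28) (nat_lit 5) (nat_lit 26) (nat_lit 5) (nat_lit 384) (nat_lit 284) (nat_lit 232))) (XT.nd (nat_lit 78) (nat_lit 0) (nat_lit 0) (XT.lf (nat_lit 0) (nat_lit 649731897) (nat_lit 152) (nat_lit 7764464275) (nat_lit 228) (nat_lit 9667497897) (nat_lit 23) (nat_lit 5) (nat_lit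 25) (nat_lit 5) (nat_lit 26) (nat_lit 5) (nat_lit 385) (nat_lit 284) (nat_lit 231)) (XT.lf (nat_lit 0) (nat_lit 14117883397) (nat_lit 152) (nat_lit 833715564) (nat_lit 228) (nat_lit 3520181938) (nat_lit 23) (nat_lit 5) (nat_lit 25) (nat_lit 5) (nat_lit 26) (nat_lit 5) (nat_lit 386) (nat_lit 284) (nat_lit 230)))) (XT.nd (nat_lit 42510) (nat_lit 0) (nat_lit 21432) (XT.nd (nat_lit 42432) (nat_lit 0) (nat_lit 23864) (XT.lf (nat_lit 0) (nat_lit 2810146074) (nat_lit 228) (nat_lit 9811716681) (nat_lit 76) (nat_lit 6250643001) (nat_lit 20) (nat_lit 5) (nat_lit 23) (nat_lit 5) (nat_lit 21) (nat_lit 5) (nat_lit 387) (nat_lit 284) (nat_lit 229)) (XT.lf (nat_lit 0) (nat_lit 2236466884) (nat_lit 836) (nat_lit 745153385) (nat_lit 836) (nat_lit 745153385) (nat_lit 334) (nat_lit 4) (nat_lit 345) (nat_lit 5) (nat_lit 345) (nat_lit 4) (nat_lit 330) (nat_lit 285) (nat_lit 285))) (XT.nd (nat_lit 78) (nat_lit 1596) (nat_lit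 0) (XT.lf (nat_lit 0) (nat_lit 3677566421) (nat_lit 836) (nat_lit 2343935324) (nat_lit 0) (nat_lit 1502826713) (nat_lit 323) (nat_lit 5) (nat_lit 334) (nat_lit 4) (nat_lit 323) (nat_lit 4) (nat_lit 331) (nat_lit 285) (nat_lit 284)) (XT.nd (nat_lit 78) (nat_lit 760) (nat_lit 0) (XT.lf (nat_lit 0) (nat_lit 1289154814) (nat_lit 836) (nat_lit 1682044758) (nat_lit 76) (nat_lit 4627257670) (nat_lit 312) (nat_lit 5) (nat_lit 323) (nat_lit 5) (nat_lit 313) (nat_lit 4) (nat_lit 332) (nat_lit 285) (nat_lit 283)) (XT.lf (nat_lit 0) (nat_lit 6446045357) (nat_lit 836) (nat_lit 995710135) (nat_lit 0) (nat_lit 234243164) (nat_lit 302) (nat_lit 5) (nat_lit 313) (nat_lit 4) (nat_lit 302) (nat_lit 4) (nat_lit 333) (nat_lit 285) (nat_lit 282)))))) (XT.nd (nat_lit 390) (nat_lit 3116) (nat_lit 0) (XT.nd (nat_lit 156) (nat_lit 2128) (nat_lit 0) (XT.nd (nat_lit 78) (nat_lit 1444) (nat_lit 0) (XT.lf (nat_lit 0) (nat_lit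 3889627578) (nat_lit 836) (nat_lit 305925961) (nat_lit 76) (nat_lit 3561063030) (nat_lit 291) (nat_lit 5) (nat_lit 302) (nat_lit 5) (nat_lit 292) (nat_lit 4) (nat_lit 334) (nat_lit 285) (nat_lit 281)) (XT.lf (nat_lit 0) (nat_lit 419667715) (nat_lit 684) (nat_lit 795429372) (nat_lit 760) (nat_lit 6625783820) (nat_lit 272) (nat_lit 5) (nat_lit 281) (nat_lit 5) (nat_lit 282) (nat_lit 5) (nat_lit 335) (nat_lit 285) (nat_lit 280))) (XT.nd (nat_lit 78) (nat_lit 1444) (nat_lit 0) (XT.lf (nat_lit 0) (nat_lit 1150250052) (nat_lit 684) (nat_lit 5193050381) (nat_lit 760) (nat_lit 1585008479) (nat_lit 263) (nat_lit 5) (nat_lit 272) (nat_lit 5) (nat_lit 273) (nat_lit 4) (nat_lit 336) (nat_lit 285) (nat_lit 279)) (XT.nd (nat_lit 78) (nat_lit 684) (nat_lit 0) (XT.lf (nat_lit 0) (nat_lit 1894225135) (nat_lit 684) (nat_lit 1599385282) (nat_lit 760) (nat_lit 4525669811) (nat_lit 253) (nat_lit 5) (nat_lit 262) (nat_lit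 5) (nat_lit 263) (nat_lit 5) (nat_lit 337) (nat_lit 285) (nat_lit 278)) (XT.lf (nat_lit 0) (nat_lit 527697160) (nat_lit 684) (nat_lit 5464214885) (nat_lit 76) (nat_lit 2121943464) (nat_lit 244) (nat_lit 5) (nat_lit 253) (nat_lit 5) (nat_lit 245) (nat_lit 5) (nat_lit 338) (nat_lit 285) (nat_lit 277))))) (XT.nd (nat_lit 156) (nat_lit 1824) (nat_lit 0) (XT.nd (nat_lit 78) (nat_lit 684) (nat_lit 0) (XT.lf (nat_lit 0) (nat_lit 3400769058) (nat_lit 608) (nat_lit 2215533939) (nat_lit 684) (nat_lit 2595526547) (nat_lit 236) (nat_lit 5) (nat_lit 244) (nat_lit 5) (nat_lit 245) (nat_lit 5) (nat_lit 339) (nat_lit 285) (nat_lit 276)) (XT.lf (nat_lit 0) (nat_lit 2459024807) (nat_lit 684) (nat_lit 4155191731) (nat_lit 76) (nat_lit 1699303549) (nat_lit 227) (nat_lit 5) (nat_lit 236) (nat_lit 5) (nat_lit 228) (nat_lit 5) (nat_lit 340) (nat_lit 285) (nat_lit 275))) (XT.nd (nat_lit 78) (nat_lit 1216) (nat_lit 0) (XT.lf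 (nat_lit 0) (nat_lit 4914731897) (nat_lit 608) (nat_lit 2669475295) (nat_lit 684) (nat_lit 834683419) (nat_lit 219) (nat_lit 5) (nat_lit 227) (nat_lit 5) (nat_lit 228) (nat_lit 5) (nat_lit 341) (nat_lit 285) (nat_lit 274)) (XT.nd (nat_lit 78) (nat_lit 608) (nat_lit 0) (XT.lf (nat_lit 0) (nat_lit 4229708394) (nat_lit 608) (nat_lit 2866136579) (nat_lit 76) (nat_lit 1432052055) (nat_lit 211) (nat_lit 5) (nat_lit 219) (nat_lit 5) (nat_lit 212) (nat_lit 5) (nat_lit 342) (nat_lit 285) (nat_lit 273)) (XT.lf (nat_lit 0) (nat_lit 745932953) (nat_lit 608) (nat_lit 2235435290) (nat_lit 76) (nat_lit 5659409477) (nat_lit 203) (nat_lit 5) (nat_lit 211) (nat_lit 5) (nat_lit 204) (nat_lit 5) (nat_lit 343) (nat_lit 285) (nat_lit 272))))))) (XT.nd (nat_lit 780) (nat_lit 3648) (nat_lit 0) (XT.nd (nat_lit 390) (nat_lit 2356) (nat_lit 0) (XT.nd (nat_lit 156) (nat_lit 1976) (nat_lit 0) (XT.nd (nat_lit 78) (nat_lit 608)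 (nat_lit 0) (XT.lf (nat_lit 0) (nat_lit 5838021235) (nat_lit 608) (nat_lit 1623865812) (nat_lit 76) (nat_lit 1295539408) (nat_lit 196) (nat_lit 5) (nat_lit 204) (nat_lit 5) (nat_lit 197) (nat_lit 5) (nat_lit 344) (nat_lit 285) (nat_lit 271)) (XT.lf (nat_lit 0) (nat_lit 2144803302) (nat_lit 608) (nat_lit 1031977528) (nat_lit 76) (nat_lit 5701187062) (nat_lit 188) (nat_lit 5) (nat_lit 196) (nat_lit 5) (nat_lit 189) (nat_lit 5) (nat_lit 345) (nat_lit 285) (nat_lit 270))) (XT.nd (nat_lit 78) (nat_lit 1520) (nat_lit 0) (XT.lf (nat_lit 0) (nat_lit 7280499322) (nat_lit 532) (nat_lit 456854605) (nat_lit 76) (nat_lit 1265247984) (nat_lit 182) (nat_lit 5) (nat_lit 189) (nat_lit 5) (nat_lit 183) (nat_lit 5) (nat_lit 346) (nat_lit 285) (nat_lit 269)) (XT.nd (nat_lit 78) (nat_lit 456) (nat_lit 0) (XT.lf (nat_lit 0) (nat_lit 83243966) (nat_lit 456) (nat_lit 3285661548) (nat_lit 532) (nat_lit 5762172932) (nat_lit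 168) (nat_lit 5) (nat_lit 174) (nat_lit 5) (nat_lit 175) (nat_lit 5) (nat_lit 347) (nat_lit 285) (nat_lit 268)) (XT.lf (nat_lit 0) (nat_lit 612495492) (nat_lit 456) (nat_lit 7943342550) (nat_lit 532) (nat_lit 708054981) (nat_lit 162) (nat_lit 5) (nat_lit 168) (nat_lit 5) (nat_lit 169) (nat_lit 5) (nat_lit 348) (nat_lit 285) (nat_lit 267))))) (XT.nd (nat_lit 156) (nat_lit 1292) (nat_lit 0) (XT.nd (nat_lit 78) (nat_lit 532) (nat_lit 0) (XT.lf (nat_lit 0) (nat_lit 1089650673) (nat_lit 456) (nat_lit 3327653956) (nat_lit 532) (nat_lit 4983272392) (nat_lit 155) (nat_lit 5) (nat_lit 161) (nat_lit 5) (nat_lit 162) (nat_lit 5) (nat_lit 349) (nat_lit 285) (nat_lit 266)) (XT.lf (nat_lit 0) (nat_lit 111533425) (nat_lit 532) (nat_lit 7995012476) (nat_lit 76) (nat_lit 1435384199) (nat_lit 148) (nat_lit 5) (nat_lit 155) (nat_lit 5) (nat_lit 149) (nat_lit 5) (nat_lit 350) (nat_lit 285) (nat_lit 265))) (XT.nd (nat_lit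 78) (nat_lit 912) (nat_lit 0) (XT.lf (nat_lit 0) (nat_lit 1939032558) (nat_lit 380) (nat_lit 3335582634) (nat_lit 456) (nat_lit 4412625114) (nat_lit 143) (nat_lit 5) (nat_lit 148) (nat_lit 5) (nat_lit 149) (nat_lit 5) (nat_lit 351) (nat_lit 285) (nat_lit 264)) (XT.nd (nat_lit 78) (nat_lit 380) (nat_lit 0) (XT.lf (nat_lit 0) (nat_lit 718367595) (nat_lit 532) (nat_lit 7535450139) (nat_lit 76) (nat_lit 1583578170) (nat_lit 136) (nat_lit 5) (nat_lit 143) (nat_lit 5) (nat_lit 137) (nat_lit 5) (nat_lit 352) (nat_lit 285) (nat_lit 263)) (XT.lf (nat_lit 0) (nat_lit 2594043662) (nat_lit 380) (nat_lit 3336071394) (nat_lit 456) (nat_lit 4061657394) (nat_lit 131) (nat_lit 5) (nat_lit 136) (nat_lit 5) (nat_lit 137) (nat_lit 5) (nat_lit 353) (nat_lit 285) (nat_lit 262)))))) (XT.nd (nat_lit 390) (nat_lit 1596) (nat_lit 0) (XT.nd (nat_lit 156) (nat_lit 1216) (nat_lit 0) (XT.nd (nat_lit 78) (nat_lit 380) (nat_lit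 0) (XT.lf (nat_lit 0) (nat_lit 1109520563) (nat_lit 456) (nat_lit 7307641435) (nat_lit 76) (nat_lit 1733960045) (nat_lit 125) (nat_lit 5) (nat_lit 131) (nat_lit 5) (nat_lit 126) (nat_lit 5) (nat_lit 354) (nat_lit 285) (nat_lit 261)) (XT.lf (nat_lit 0) (nat_lit 3014087366) (nat_lit 380) (nat_lit 3356722712) (nat_lit 456) (nat_lit 3944134401) (nat_lit 120) (nat_lit 5) (nat_lit 125) (nat_lit 5) (nat_lit 126) (nat_lit 5) (nat_lit 355) (nat_lit 285) (nat_lit 260))) (XT.nd (nat_lit 78) (nat_lit 760) (nat_lit 0) (XT.lf (nat_lit 0) (nat_lit 1270403987) (nat_lit 456) (nat_lit 7354635698) (nat_lit 76) (nat_lit 1858877604) (nat_lit 114) (nat_lit 5) (nat_lit 120) (nat_lit 5) (nat_lit 115) (nat_lit 5) (nat_lit 356) (nat_lit 285) (nat_lit 259)) (XT.nd (nat_lit 78) (nat_lit 456) (nat_lit 0) (XT.lf (nat_lit 0) (nat_lit 3154880785) (nat_lit 304) (nat_lit 3426385822) (nat_lit 380) (nat_lit 4076331799) (nat_lit 110)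 (nat_lit 5) (nat_lit 114) (nat_lit 5) (nat_lit 115) (nat_lit 5) (nat_lit 357) (nat_lit 285) (nat_lit 258)) (XT.lf (nat_lit 0) (nat_lit 1183873604) (nat_lit 456) (nat_lit 7723461188) (nat_lit 76) (nat_lit 1929329099) (nat_lit 104) (nat_lit 5) (nat_lit 110) (nat_lit 5) (nat_lit 105) (nat_lit 5) (nat_lit 358) (nat_lit 285) (nat_lit 257))))) (XT.nd (nat_lit 156) (nat_lit 912) (nat_lit 0) (XT.nd (nat_lit 78) (nat_lit 380) (nat_lit 0) (XT.lf (nat_lit 0) (nat_lit 2967979654) (nat_lit 304) (nat_lit 3575441003) (nat_lit 380) (nat_lit 4477231184) (nat_lit 100) (nat_lit 5) (nat_lit 104) (nat_lit 5) (nat_lit 105) (nat_lit 5) (nat_lit 359) (nat_lit 285) (nat_lit 256)) (XT.lf (nat_lit 0) (nat_lit 830023984) (nat_lit 380) (nat_lit 8465624919) (nat_lit 76) (nat_lit 1914673589) (nat_lit 95) (nat_lit 5) (nat_lit 100) (nat_lit 5) (nat_lit 96) (nat_lit 5) (nat_lit 360) (nat_lit 285) (nat_lit 255))) (XT.nd (nat_lit 78)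 (nat_lit 608) (nat_lit 0) (XT.lf (nat_lit 0) (nat_lit 2400259085) (nat_lit 304) (nat_lit 3836102674) (nat_lit 380) (nat_lit 5168741380) (nat_lit 91) (nat_lit 5) (nat_lit 95) (nat_lit 5) (nat_lit 96) (nat_lit 5) (nat_lit 361) (nat_lit 285) (nat_lit 254)) (XT.nd (nat_lit 78) (nat_lit 228) (nat_lit 0) (XT.lf (nat_lit 0) (nat_lit 185956704) (nat_lit 380) (nat_lit 9637659480) (nat_lit 76) (nat_lit 1782321423) (nat_lit 86) (nat_lit 5) (nat_lit 91) (nat_lit 5) (nat_lit 87) (nat_lit 5) (nat_lit 362) (nat_lit 285) (nat_lit 253)) (XT.lf (nat_lit 0) (nat_lit 1393345164) (nat_lit 228) (nat_lit 4242744101) (nat_lit 304) (nat_lit 6175947888) (nat_lit 83) (nat_lit 5) (nat_lit 86) (nat_lit 5) (nat_lit 87) (nat_lit 5) (nat_lit 363) (nat_lit 285) (nat_lit 252))))))))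
noncomputable def xc22 : XT := (XT.nd (nat_lit 1482) (nat_lit 684) (nat_lit 0) (XT.nd (nat_lit 702) (nat_lit 1748) (nat_lit 0) (XT.nd (nat_lit 312) (nat_lit 1292) (nat_lit 0) (XT.nd (nat_lit 156) (nat_lit 608) (nat_lit 0) (XT.nd (nat_lit 78) (nat_lit 76) (nat_lit 0) (XT.lf (nat_lit 0) (nat_lit 717724365) (nat_lit 304) (nat_lit 10522044568) (nat_lit 380) (nat_lit 784772878) (nat_lit 79) (nat_lit 5) (nat_lit 83) (nat_lit 5) (nat_lit 84) (nat_lit 5) (nat_lit 364) (nat_lit 285) (nat_lit 251)) (XT.lf (nat_lit 0) (nat_lit 4715998284) (nat_lit 380) (nat_lit 115473580) (nat_lit 76) (nat_lit 7411144552) (nat_lit 78) (nat_lit 5) (nat_lit 83) (nat_lit 5) (nat_lit 79) (nat_lit 5) (nat_lit 365) (nat_lit 285) (nat_lit 250))) (XT.nd (nat_lit 78) (nat_lit 380) (nat_lit 0) (XT.lf (nat_lit 0) (nat_lit 10365720843) (nat_lit 304) (nat_lit 1058478197) (nat_lit 76) (nat_lit 1043059912) (nat_lit 75) (nat_lit 5) (nat_lit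 79) (nat_lit 5) (nat_lit 76) (nat_lit 5) (nat_lit 366) (nat_lit 285) (nat_lit 249)) (XT.lf (nat_lit 0) (nat_lit 3457068873) (nat_lit 380) (nat_lit 2172728584) (nat_lit 76) (nat_lit 7068080865) (nat_lit 70) (nat_lit 5) (nat_lit 75) (nat_lit 5) (nat_lit 71) (nat_lit 5) (nat_lit 367) (nat_lit 285) (nat_lit 248)))) (XT.nd (nat_lit 156) (nat_lit 760) (nat_lit 0) (XT.nd (nat_lit 78) (nat_lit 304) (nat_lit 0) (XT.lf (nat_lit 0) (nat_lit 9141234059) (nat_lit 304) (nat_lit 3430031286) (nat_lit 76) (nat_lit 364145704) (nat_lit 67) (nat_lit 5) (nat_lit 71) (nat_lit 5) (nat_lit 68) (nat_lit 5) (nat_lit 368) (nat_lit 285) (nat_lit 247)) (XT.lf (nat_lit 0) (nat_lit 1815713427) (nat_lit 304) (nat_lit 4873778937) (nat_lit 76) (nat_lit 6489886802) (nat_lit 63) (nat_lit 5) (nat_lit 67) (nat_lit 5) (nat_lit 64) (nat_lit 5) (nat_lit 369) (nat_lit 285) (nat_lit 246))) (XT.nd (nat_lit 78) (nat_lit 532) (nat_lit 0) (XT.lf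 (nat_lit 0) (nat_lit 6939299163) (nat_lit 228) (nat_lit 589842712) (nat_lit 304) (nat_lit 5901305218) (nat_lit 60) (nat_lit 5) (nat_lit 63) (nat_lit 5) (nat_lit 64) (nat_lit 5) (nat_lit 370) (nat_lit 285) (nat_lit 245)) (XT.nd (nat_lit 78) (nat_lit 304) (nat_lit 0) (XT.lf (nat_lit 0) (nat_lit 5383215829) (nat_lit 228) (nat_lit 8055128176) (nat_lit 304) (nat_lit 250233251) (nat_lit 57) (nat_lit 5) (nat_lit 60) (nat_lit 5) (nat_lit 61) (nat_lit 5) (nat_lit 371) (nat_lit 285) (nat_lit 244)) (XT.lf (nat_lit 0) (nat_lit 3622006947) (nat_lit 228) (nat_lit 1867205686) (nat_lit 304) (nat_lit 8464694163) (nat_lit 53) (nat_lit 5) (nat_lit 56) (nat_lit 5) (nat_lit 57) (nat_lit 5) (nat_lit 372) (nat_lit 285) (nat_lit 243)))))) (XT.nd (nat_lit 390) (nat_lit 836) (nat_lit 0) (XT.nd (nat_lit 156) (nat_lit 608) (nat_lit 0) (XT.nd (nat_lit 78) (nat_lit 76) (nat_lit 0) (XT.lf (nat_lit 0) (nat_lit 1651928618) (nat_lit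 228) (nat_lit 9763449009) (nat_lit 304) (nat_lit 2811443084) (nat_lit 50) (nat_lit 5) (nat_lit 53) (nat_lit 5) (nat_lit 54) (nat_lit 5) (nat_lit 373) (nat_lit 285) (nat_lit 242)) (XT.lf (nat_lit 0) (nat_lit 2977067401) (nat_lit 304) (nat_lit 534458682) (nat_lit 76) (nat_lit 10995917274) (nat_lit 49) (nat_lit 5) (nat_lit 53) (nat_lit 5) (nat_lit 50) (nat_lit 5) (nat_lit 374) (nat_lit 285) (nat_lit 241))) (XT.nd (nat_lit 78) (nat_lit 456) (nat_lit 0) (XT.lf (nat_lit 0) (nat_lit 8922123798) (nat_lit 228) (nat_lit 2939537413) (nat_lit 76) (nat_lit 2934045099) (nat_lit 47) (nat_lit 5) (nat_lit 50) (nat_lit 5) (nat_lit 48) (nat_lit 5) (nat_lit 375) (nat_lit 285) (nat_lit 240)) (XT.nd (nat_lit 78) (nat_lit 228) (nat_lit 0) (XT.lf (nat_lit 0) (nat_lit 9507105475) (nat_lit 228) (nat_lit 5552785005) (nat_lit 304) (nat_lit 32454104) (nat_lit 44) (nat_lit 5) (nat_lit 47) (nat_lit 5) (nat_lit 48) (nat_lit 5) (nat_lit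 376) (nat_lit 285) (nat_lit 239)) (XT.lf (nat_lit 0) (nat_lit 5903090515) (nat_lit 228) (nat_lit 8508717864) (nat_lit 76) (nat_lit 985357251) (nat_lit 41) (nat_lit 5) (nat_lit 44) (nat_lit 5) (nat_lit 42) (nat_lit 5) (nat_lit 377) (nat_lit 285) (nat_lit 238))))) (XT.nd (nat_lit 156) (nat_lit 380) (nat_lit 0) (XT.nd (nat_lit 78) (nat_lit 228) (nat_lit 0) (XT.lf (nat_lit 0) (nat_lit 3991813449) (nat_lit 228) (nat_lit 8052961322) (nat_lit 304) (nat_lit 3665795458) (nat_lit 38) (nat_lit 5) (nat_lit 41) (nat_lit 5) (nat_lit 42) (nat_lit 5) (nat_lit 378) (nat_lit 285) (nat_lit 237)) (XT.lf (nat_lit 0) (nat_lit 822541877) (nat_lit 152) (nat_lit 1475708218) (nat_lit 228) (nat_lit 13735004766) (nat_lit 35) (nat_lit 5) (nat_lit 37) (nat_lit 5) (nat_lit 38) (nat_lit 5) (nat_lit 379) (nat_lit 285) (nat_lit 236))) (XT.nd (nat_lit 78) (nat_lit 380) (nat_lit 0) (XT.lf (nat_lit 0) (nat_lit 8435190186) (nat_lit 228)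 (nat_lit 2646352735) (nat_lit 76) (nat_lit 5282729427) (nat_lit 35) (nat_lit 5) (nat_lit 38) (nat_lit 5) (nat_lit 36) (nat_lit 5) (nat_lit 380) (nat_lit 285) (nat_lit 235)) (XT.nd (nat_lit 78) (nat_lit 228) (nat_lit 0) (XT.lf (nat_lit 0) (nat_lit 10300390037) (nat_lit 152) (nat_lit 4463811053) (nat_lit 228) (nat_lit 1940872124) (nat_lit 33) (nat_lit 5) (nat_lit 35) (nat_lit 5) (nat_lit 36) (nat_lit 5) (nat_lit 381) (nat_lit 285) (nat_lit 234)) (XT.lf (nat_lit 0) (nat_lit 4179685551) (nat_lit 228) (nat_lit 10515543825) (nat_lit 76) (nat_lit 2360168590) (nat_lit 30) (nat_lit 5) (nat_lit 33) (nat_lit 5) (nat_lit 31) (nat_lit 5) (nat_lit 382) (nat_lit 285) (nat_lit 233))))))) (XT.nd (nat_lit 42978) (nat_lit 0) (nat_lit 14440) (XT.nd (nat_lit 42588) (nat_lit 0) (nat_lit 22116) (XT.nd (nat_lit 156) (nat_lit 532) (nat_lit 0) (XT.nd (nat_lit 78) (nat_lit 0) (nat_lit 0) (XT.lf (nat_lit 0) (nat_lit 2415757518)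 (nat_lit 152) (nat_lit 8064001425) (nat_lit 228) (nat_lit 6935782767) (nat_lit 28) (nat_lit 5) (nat_lit 30) (nat_lit 5) (nat_lit 31) (nat_lit 5) (nat_lit 383) (nat_lit 285) (nat_lit 232)) (XT.lf (nat_lit 0) (nat_lit 15763009477) (nat_lit 152) (nat_lit 1211177344) (nat_lit 228) (nat_lit 812206762) (nat_lit 28) (nat_lit 5) (nat_lit 30) (nat_lit 5) (nat_lit 31) (nat_lit 5) (nat_lit 384) (nat_lit 285) (nat_lit 231))) (XT.nd (nat_lit 78) (nat_lit 304) (nat_lit 0) (XT.lf (nat_lit 0) (nat_lit 5470598136) (nat_lit 228) (nat_lit 6863887882) (nat_lit 76) (nat_lit 5832229973) (nat_lit 25) (nat_lit 5) (nat_lit 28) (nat_lit 5) (nat_lit 26) (nat_lit 5) (nat_lit 385) (nat_lit 285) (nat_lit 230)) (XT.nd (nat_lit 78) (nat_lit 152) (nat_lit 0) (XT.lf (nat_lit 0) (nat_lit 6456871764) (nat_lit 152) (nat_lit 5474286703) (nat_lit 228) (nat_lit 6627186148) (nat_lit 23) (nat_lit 5) (nat_lit 25) (nat_lit 5) (nat_lit 26) (nat_lit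 5) (nat_lit 386) (nat_lit 285) (nat_lit 229)) (XT.lf (nat_lit 0) (nat_lit 1203905258) (nat_lit 152) (nat_lit 17383840201) (nat_lit 228) (nat_lit 373942192) (nat_lit 21) (nat_lit 5) (nat_lit 23) (nat_lit 5) (nat_lit 24) (nat_lit 4) (nat_lit 387) (nat_lit 285) (nat_lit 228))))) (XT.nd (nat_lit 156) (nat_lit 2508) (nat_lit 0) (XT.nd (nat_lit 78) (nat_lit 912) (nat_lit 0) (XT.lf (nat_lit 0) (nat_lit 1609444924) (nat_lit 912) (nat_lit 1025327016) (nat_lit 912) (nat_lit 1025327016) (nat_lit 357) (nat_lit 4) (nat_lit 369) (nat_lit 5) (nat_lit 369) (nat_lit 4) (nat_lit 328) (nat_lit 286) (nat_lit 286)) (XT.lf (nat_lit 0) (nat_lit 3037693155) (nat_lit 912) (nat_lit 3595366172) (nat_lit 0) (nat_lit 752911617) (nat_lit 345) (nat_lit 5) (nat_lit 357) (nat_lit 4) (nat_lit 345) (nat_lit 4) (nat_lit 329) (nat_lit 286) (nat_lit 285))) (XT.nd (nat_lit 78) (nat_lit 1596) (nat_lit 0) (XT.lf (nat_lit 0) (nat_lit 711469994)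 (nat_lit 912) (nat_lit 3065846652) (nat_lit 76) (nat_lit 3677622101) (nat_lit 333) (nat_lit 5) (nat_lit 345) (nat_lit 5) (nat_lit 334) (nat_lit 4) (nat_lit 330) (nat_lit 286) (nat_lit 284)) (XT.nd (nat_lit 78) (nat_lit 836) (nat_lit 0) (XT.lf (nat_lit 0) (nat_lit 5015531694) (nat_lit 760) (nat_lit 762772002) (nat_lit 836) (nat_lit 1748894209) (nat_lit 323) (nat_lit 5) (nat_lit 333) (nat_lit 5) (nat_lit 334) (nat_lit 4) (nat_lit 331) (nat_lit 286) (nat_lit 283)) (XT.lf (nat_lit 0) (nat_lit 3283469208) (nat_lit 836) (nat_lit 1943412336) (nat_lit 76) (nat_lit 2375733165) (nat_lit 312) (nat_lit 5) (nat_lit 323) (nat_lit 5) (nat_lit 313) (nat_lit 4) (nat_lit 332) (nat_lit 286) (nat_lit 282)))))) (XT.nd (nat_lit 390) (nat_lit 3192) (nat_lit 0) (XT.nd (nat_lit 156) (nat_lit 2888) (nat_lit 0) (XT.nd (nat_lit 78) (nat_lit 760) (nat_lit 0) (XT.lf (nat_lit 0) (nat_lit 678011728) (nat_lit 836) (nat_lit 1347629540)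 (nat_lit 76) (nat_lit 5655898311) (nat_lit 301) (nat_lit 5) (nat_lit 312) (nat_lit 5) (nat_lit 302) (nat_lit 5) (nat_lit 333) (nat_lit 286) (nat_lit 281)) (XT.lf (nat_lit 0) (nat_lit 5698469700) (nat_lit 836) (nat_lit 742466800) (nat_lit 76) (nat_lit 1322757752) (nat_lit 291) (nat_lit 5) (nat_lit 302) (nat_lit 5) (nat_lit 292) (nat_lit 4) (nat_lit 334) (nat_lit 286) (nat_lit 280))) (XT.nd (nat_lit 78) (nat_lit 2128) (nat_lit 0) (XT.lf (nat_lit 0) (nat_lit 2921091577) (nat_lit 760) (nat_lit 126160257) (nat_lit 76) (nat_lit 4801950453) (nat_lit 281) (nat_lit 5) (nat_lit 291) (nat_lit 5) (nat_lit 282) (nat_lit 5) (nat_lit 335) (nat_lit 286) (nat_lit 279)) (XT.nd (nat_lit 78) (nat_lit 684) (nat_lit 0) (XT.lf (nat_lit 0) (nat_lit 25880648) (nat_lit 760) (nat_lit 7416875108) (nat_lit 76) (nat_lit 495599227) (nat_lit 262) (nat_lit 5) (nat_lit 272) (nat_lit 5) (nat_lit 263) (nat_lit 5) (nat_lit 336) (nat_lit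 286) (nat_lit 278)) (XT.lf (nat_lit 0) (nat_lit 1156707655) (nat_lit 684) (nat_lit 3857978904) (nat_lit 760) (nat_lit 3015846654) (nat_lit 253) (nat_lit 5) (nat_lit 262) (nat_lit 5) (nat_lit 263) (nat_lit 5) (nat_lit 337) (nat_lit 286) (nat_lit 277))))) (XT.nd (nat_lit 156) (nat_lit 1900) (nat_lit 0) (XT.nd (nat_lit 78) (nat_lit 608) (nat_lit 0) (XT.lf (nat_lit 0) (nat_lit 1815852390) (nat_lit 608) (nat_lit 119084177) (nat_lit 684) (nat_lit 6191662189) (nat_lit 244) (nat_lit 5) (nat_lit 252) (nat_lit 5) (nat_lit 253) (nat_lit 5) (nat_lit 338) (nat_lit 286) (nat_lit 276)) (XT.lf (nat_lit 0) (nat_lit 2464498671) (nat_lit 608) (nat_lit 4490121488) (nat_lit 684) (nat_lit 1271360857) (nat_lit 236) (nat_lit 5) (nat_lit 244) (nat_lit 5) (nat_lit 245) (nat_lit 5) (nat_lit 339) (nat_lit 286) (nat_lit 275))) (XT.nd (nat_lit 78) (nat_lit 1216) (nat_lit 0) (XT.lf (nat_lit 0) (nat_lit 3119128447) (nat_lit 608)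 (nat_lit 567501595) (nat_lit 684) (nat_lit 4642481793) (nat_lit 227) (nat_lit 5) (nat_lit 235) (nat_lit 5) (nat_lit 236) (nat_lit 5) (nat_lit 340) (nat_lit 286) (nat_lit 274)) (XT.nd (nat_lit 78) (nat_lit 532) (nat_lit 0) (XT.lf (nat_lit 0) (nat_lit 300756825) (nat_lit 684) (nat_lit 4666947391) (nat_lit 76) (nat_lit 3468188617) (nat_lit 218) (nat_lit 5) (nat_lit 227) (nat_lit 5) (nat_lit 219) (nat_lit 5) (nat_lit 341) (nat_lit 286) (nat_lit 273)) (XT.lf (nat_lit 0) (nat_lit 4409398149) (nat_lit 532) (nat_lit 868009367) (nat_lit 608) (nat_lit 3268945425) (nat_lit 211) (nat_lit 5) (nat_lit 218) (nat_lit 5) (nat_lit 219) (nat_lit 5) (nat_lit 342) (nat_lit 286) (nat_lit 272))))))))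
noncomputable def xc23 : XT := (XT.nd (nat_lit 1560) (nat_lit 4484) (nat_lit 0) (XT.nd (nat_lit 780) (nat_lit 3876) (nat_lit 0) (XT.nd (nat_lit 390) (nat_lit 2432) (nat_lit 0) (XT.nd (nat_lit 156) (nat_lit 1672) (nat_lit 0) (XT.nd (nat_lit 78) (nat_lit 532) (nat_lit 0) (XT.lf (nat_lit 0) (nat_lit 1688640377) (nat_lit 608) (nat_lit 3621616989) (nat_lit 76) (nat_lit 3350328290) (nat_lit 203) (nat_lit 5) (nat_lit 211) (nat_lit 5) (nat_lit 204) (nat_lit 5) (nat_lit 343) (nat_lit 286) (nat_lit 271)) (XT.lf (nat_lit 0) (nat_lit 5660070100) (nat_lit 532) (nat_lit 1045244603) (nat_lit 608) (nat_lit 2073452176) (nat_lit 196) (nat_lit 5) (nat_lit 203) (nat_lit 5) (nat_lit 204) (nat_lit 5) (nat_lit 344) (nat_lit 286) (nat_lit 270))) (XT.nd (nat_lit 78) (nat_lit 1064) (nat_lit 0) (XT.lf (nat_lit 0) (nat_lit 2905861239) (nat_lit 608) (nat_lit 2644990393) (nat_lit 76) (nat_lit 3349845881) (nat_lit 188) (nat_lit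 5) (nat_lit 196) (nat_lit 5) (nat_lit 189) (nat_lit 5) (nat_lit 345) (nat_lit 286) (nat_lit 269)) (XT.nd (nat_lit 78) (nat_lit 608) (nat_lit 0) (XT.lf (nat_lit 0) (nat_lit 6842918201) (nat_lit 456) (nat_lit 1123753242) (nat_lit 532) (nat_lit 1060180176) (nat_lit 182) (nat_lit 5) (nat_lit 188) (nat_lit 5) (nat_lit 189) (nat_lit 5) (nat_lit 346) (nat_lit 286) (nat_lit 268)) (XT.lf (nat_lit 0) (nat_lit 3947537547) (nat_lit 608) (nat_lit 1766651153) (nat_lit 76) (nat_lit 3442566976) (nat_lit 174) (nat_lit 5) (nat_lit 182) (nat_lit 5) (nat_lit 175) (nat_lit 5) (nat_lit 347) (nat_lit 286) (nat_lit 267))))) (XT.nd (nat_lit 156) (nat_lit 1444) (nat_lit 0) (XT.nd (nat_lit 78) (nat_lit 532) (nat_lit 0) (XT.lf (nat_lit 0) (nat_lit 7927782826) (nat_lit 456) (nat_lit 1128208747) (nat_lit 532) (nat_lit 235168925) (nat_lit 168) (nat_lit 5) (nat_lit 174) (nat_lit 5) (nat_lit 175) (nat_lit 5) (nat_lit 348) (nat_lit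 286) (nat_lit 266)) (XT.lf (nat_lit 0) (nat_lit 4806918717) (nat_lit 532) (nat_lit 1018323768) (nat_lit 76) (nat_lit 3604101680) (nat_lit 161) (nat_lit 5) (nat_lit 168) (nat_lit 5) (nat_lit 162) (nat_lit 5) (nat_lit 349) (nat_lit 286) (nat_lit 265))) (XT.nd (nat_lit 78) (nat_lit 912) (nat_lit 0) (XT.lf (nat_lit 0) (nat_lit 388419653) (nat_lit 532) (nat_lit 692610867) (nat_lit 76) (nat_lit 8491223159) (nat_lit 154) (nat_lit 5) (nat_lit 161) (nat_lit 5) (nat_lit 155) (nat_lit 5) (nat_lit 350) (nat_lit 286) (nat_lit 264)) (XT.nd (nat_lit 78) (nat_lit 456) (nat_lit 0) (XT.lf (nat_lit 0) (nat_lit 5475278783) (nat_lit 532) (nat_lit 434209346) (nat_lit 76) (nat_lit 3809618394) (nat_lit 148) (nat_lit 5) (nat_lit 155) (nat_lit 5) (nat_lit 149) (nat_lit 5) (nat_lit 351) (nat_lit 286) (nat_lit 263)) (XT.lf (nat_lit 0) (nat_lit 805291634) (nat_lit 456) (nat_lit 204953927) (nat_lit 76) (nat_lit 8860605138) (nat_lit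 142) (nat_lit 5) (nat_lit 148) (nat_lit 5) (nat_lit 143) (nat_lit 5) (nat_lit 352) (nat_lit 286) (nat_lit 262)))))) (XT.nd (nat_lit 390) (nat_lit 1748) (nat_lit 0) (XT.nd (nat_lit 156) (nat_lit 836) (nat_lit 0) (XT.nd (nat_lit 78) (nat_lit 836) (nat_lit 0) (XT.lf (nat_lit 0) (nat_lit 5941791434) (nat_lit 532) (nat_lit 51348931) (nat_lit 76) (nat_lit 4033608638) (nat_lit 136) (nat_lit 5) (nat_lit 143) (nat_lit 5) (nat_lit 137) (nat_lit 5) (nat_lit 353) (nat_lit 286) (nat_lit 261)) (XT.lf (nat_lit 0) (nat_lit 63297984) (nat_lit 380) (nat_lit 943513716) (nat_lit 456) (nat_lit 9180900202) (nat_lit 125) (nat_lit 5) (nat_lit 130) (nat_lit 5) (nat_lit 131) (nat_lit 5) (nat_lit 354) (nat_lit 286) (nat_lit 260))) (XT.nd (nat_lit 78) (nat_lit 456) (nat_lit 0) (XT.lf (nat_lit 0) (nat_lit 91177821) (nat_lit 380) (nat_lit 6102799538) (nat_lit 456) (nat_lit 4159054984) (nat_lit 120) (nat_lit 5) (nat_lit 125) (nat_lit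 5) (nat_lit 126) (nat_lit 5) (nat_lit 355) (nat_lit 286) (nat_lit 259)) (XT.nd (nat_lit 78) (nat_lit 0) (nat_lit 0) (XT.lf (nat_lit 0) (nat_lit 68459750) (nat_lit 380) (nat_lit 909260956) (nat_lit 456) (nat_lit 9545938766) (nat_lit 114) (nat_lit 5) (nat_lit 119) (nat_lit 5) (nat_lit 120) (nat_lit 5) (nat_lit 356) (nat_lit 286) (nat_lit 258)) (XT.lf (nat_lit 0) (nat_lit 6214578419) (nat_lit 456) (nat_lit 54155852) (nat_lit 76) (nat_lit 4430100766) (nat_lit 114) (nat_lit 5) (nat_lit 120) (nat_lit 5) (nat_lit 115) (nat_lit 5) (nat_lit 357) (nat_lit 286) (nat_lit 257))))) (XT.nd (nat_lit 156) (nat_lit 988) (nat_lit 0) (XT.nd (nat_lit 78) (nat_lit 380) (nat_lit 0) (XT.lf (nat_lit 0) (nat_lit 700930002) (nat_lit 380) (nat_lit 235653231) (nat_lit 76) (nat_lit 9942991294) (nat_lit 109) (nat_lit 5) (nat_lit 114) (nat_lit 5) (nat_lit 110) (nat_lit 5) (nat_lit 358) (nat_lit 286) (nat_lit 256)) (XT.lf (nat_lit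 0) (nat_lit 5987288625) (nat_lit 456) (nat_lit 531834219) (nat_lit 76) (nat_lit 4545916663) (nat_lit 104) (nat_lit 5) (nat_lit 110) (nat_lit 5) (nat_lit 105) (nat_lit 5) (nat_lit 359) (nat_lit 286) (nat_lit 255))) (XT.nd (nat_lit 78) (nat_lit 608) (nat_lit 0) (XT.lf (nat_lit 0) (nat_lit 157655336) (nat_lit 380) (nat_lit 897538084) (nat_lit 76) (nat_lit 10201201839) (nat_lit 99) (nat_lit 5) (nat_lit 104) (nat_lit 5) (nat_lit 100) (nat_lit 5) (nat_lit 360) (nat_lit 286) (nat_lit 254)) (XT.nd (nat_lit 78) (nat_lit 304) (nat_lit 0) (XT.lf (nat_lit 0) (nat_lit 5490620411) (nat_lit 380) (nat_lit 1395769341) (nat_lit 76) (nat_lit 4566265862) (nat_lit 95) (nat_lit 5) (nat_lit 100) (nat_lit 5) (nat_lit 96) (nat_lit 5) (nat_lit 361) (nat_lit 286) (nat_lit 253)) (XT.lf (nat_lit 0) (nat_lit 9677270834) (nat_lit 304) (nat_lit 1293636886) (nat_lit 380) (nat_lit 684173548) (nat_lit 91) (nat_lit 5) (nat_lit 95) (nat_lit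 5) (nat_lit 96) (nat_lit 5) (nat_lit 362) (nat_lit 286) (nat_lit 252))))))) (XT.nd (nat_lit 780) (nat_lit 1824) (nat_lit 0) (XT.nd (nat_lit 390) (nat_lit 1064) (nat_lit 0) (XT.nd (nat_lit 156) (nat_lit 988) (nat_lit 0) (XT.nd (nat_lit 78) (nat_lit 228) (nat_lit 0) (XT.lf (nat_lit 0) (nat_lit 4700623511) (nat_lit 380) (nat_lit 2703882788) (nat_lit 76) (nat_lit 4458260852) (nat_lit 86) (nat_lit 5) (nat_lit 91) (nat_lit 5) (nat_lit 87) (nat_lit 5) (nat_lit 363) (nat_lit 286) (nat_lit 251)) (XT.lf (nat_lit 0) (nat_lit 8540868919) (nat_lit 228) (nat_lit 1688193536) (nat_lit 304) (nat_lit 1847725166) (nat_lit 83) (nat_lit 5) (nat_lit 86) (nat_lit 5) (nat_lit 87) (nat_lit 5) (nat_lit 364) (nat_lit 286) (nat_lit 250))) (XT.nd (nat_lit 78) (nat_lit 608) (nat_lit 0) (XT.lf (nat_lit 0) (nat_lit 3590022268) (nat_lit 380) (nat_lit 4519916297) (nat_lit 76) (nat_lit 4186611444) (nat_lit 78) (nat_lit 5) (nat_lit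 83) (nat_lit 5) (nat_lit 79) (nat_lit 5) (nat_lit 365) (nat_lit 286) (nat_lit 249)) (XT.nd (nat_lit 78) (nat_lit 380) (nat_lit 0) (XT.lf (nat_lit 0) (nat_lit 6884811685) (nat_lit 228) (nat_lit 2277306265) (nat_lit 304) (nat_lit 3360637295) (nat_lit 75) (nat_lit 5) (nat_lit 78) (nat_lit 5) (nat_lit 79) (nat_lit 5) (nat_lit 366) (nat_lit 286) (nat_lit 248)) (XT.lf (nat_lit 0) (nat_lit 2127912504) (nat_lit 380) (nat_lit 6914106705) (nat_lit 76) (nat_lit 3713259984) (nat_lit 70) (nat_lit 5) (nat_lit 75) (nat_lit 5) (nat_lit 71) (nat_lit 5) (nat_lit 367) (nat_lit 286) (nat_lit 247))))) (XT.nd (nat_lit 156) (nat_lit 532) (nat_lit 0) (XT.nd (nat_lit 78) (nat_lit 304) (nat_lit 0) (XT.lf (nat_lit 0) (nat_lit 4636424489) (nat_lit 228) (nat_lit 3101379514) (nat_lit 304) (nat_lit 5256502781) (nat_lit 67) (nat_lit 5) (nat_lit 70) (nat_lit 5) (nat_lit 71) (nat_lit 5) (nat_lit 368) (nat_lit 286) (nat_lit 246)) (XT.lf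 (nat_lit 0) (nat_lit 279422918) (nat_lit 304) (nat_lit 9963927550) (nat_lit 76) (nat_lit 2996986126) (nat_lit 63) (nat_lit 5) (nat_lit 67) (nat_lit 5) (nat_lit 64) (nat_lit 5) (nat_lit 369) (nat_lit 286) (nat_lit 245))) (XT.nd (nat_lit 78) (nat_lit 304) (nat_lit 0) (XT.lf (nat_lit 0) (nat_lit 1715483713) (nat_lit 228) (nat_lit 4204254677) (nat_lit 304) (nat_lit 7573137067) (nat_lit 60) (nat_lit 5) (nat_lit 63) (nat_lit 5) (nat_lit 64) (nat_lit 5) (nat_lit 370) (nat_lit 286) (nat_lit 244)) (XT.nd (nat_lit 78) (nat_lit 304) (nat_lit 0) (XT.lf (nat_lit 0) (nat_lit 11731884537) (nat_lit 304) (nat_lit 14872609) (nat_lit 76) (nat_lit 2006198019) (nat_lit 60) (nat_lit 5) (nat_lit 64) (nat_lit 5) (nat_lit 61) (nat_lit 5) (nat_lit 371) (nat_lit 286) (nat_lit 243)) (XT.lf (nat_lit 0) (nat_lit 3679800530) (nat_lit 304) (nat_lit 1940839751) (nat_lit 76) (nat_lit 8399118383) (nat_lit 56) (nat_lit 5) (nat_lit 60)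 (nat_lit 5) (nat_lit 57) (nat_lit 5) (nat_lit 372) (nat_lit 286) (nat_lit 242)))))) (XT.nd (nat_lit 390) (nat_lit 684) (nat_lit 0) (XT.nd (nat_lit 156) (nat_lit 608) (nat_lit 0) (XT.nd (nat_lit 78) (nat_lit 304) (nat_lit 0) (XT.lf (nat_lit 0) (nat_lit 9520368179) (nat_lit 304) (nat_lit 4063754335) (nat_lit 76) (nat_lit 710269798) (nat_lit 53) (nat_lit 5) (nat_lit 57) (nat_lit 5) (nat_lit 54) (nat_lit 5) (nat_lit 373) (nat_lit 286) (nat_lit 241)) (XT.lf (nat_lit 0) (nat_lit 976102089) (nat_lit 304) (nat_lit 6422527011) (nat_lit 76) (nat_lit 7177930592) (nat_lit 49) (nat_lit 5) (nat_lit 53) (nat_lit 5) (nat_lit 50) (nat_lit 5) (nat_lit 374) (nat_lit 286) (nat_lit 240))) (XT.nd (nat_lit 78) (nat_lit 456) (nat_lit 0) (XT.lf (nat_lit 0) (nat_lit 5847372117) (nat_lit 152) (nat_lit 979214759) (nat_lit 228) (nat_lit 8040134396) (nat_lit 47) (nat_lit 5) (nat_lit 49) (nat_lit 5) (nat_lit 50) (nat_lit 5) (nat_lit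 375) (nat_lit 286) (nat_lit 239)) (XT.nd (nat_lit 78) (nat_lit 228) (nat_lit 0) (XT.lf (nat_lit 0) (nat_lit 3291216830) (nat_lit 228) (nat_lit 9590792374) (nat_lit 304) (nat_lit 2283004214) (nat_lit 44) (nat_lit 5) (nat_lit 47) (nat_lit 5) (nat_lit 48) (nat_lit 5) (nat_lit 376) (nat_lit 286) (nat_lit 238)) (XT.lf (nat_lit 0) (nat_lit 476535943) (nat_lit 152) (nat_lit 3122146251) (nat_lit 228) (nat_lit 11873118651) (nat_lit 41) (nat_lit 5) (nat_lit 43) (nat_lit 5) (nat_lit 44) (nat_lit 5) (nat_lit 377) (nat_lit 286) (nat_lit 237))))) (XT.nd (nat_lit 156) (nat_lit 456) (nat_lit 0) (XT.nd (nat_lit 78) (nat_lit 228) (nat_lit 0) (XT.lf (nat_lit 0) (nat_lit 9659437979) (nat_lit 228) (nat_lit 2586771327) (nat_lit 76) (nat_lit 3540621163) (nat_lit 41) (nat_lit 5) (nat_lit 44) (nat_lit 5) (nat_lit 42) (nat_lit 5) (nat_lit 378) (nat_lit 286) (nat_lit 236)) (XT.lf (nat_lit 0) (nat_lit 10188558064) (nat_lit 228)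 (nat_lit 5732020412) (nat_lit 304) (nat_lit 190373985) (nat_lit 38) (nat_lit 5) (nat_lit 41) (nat_lit 5) (nat_lit 42) (nat_lit 5) (nat_lit 379) (nat_lit 286) (nat_lit 235))) (XT.nd (nat_lit 78) (nat_lit 228) (nat_lit 0) (XT.lf (nat_lit 0) (nat_lit 5848323651) (nat_lit 228) (nat_lit 9578343019) (nat_lit 76) (nat_lit 1017348748) (nat_lit 35) (nat_lit 5) (nat_lit 38) (nat_lit 5) (nat_lit 36) (nat_lit 5) (nat_lit 380) (nat_lit 286) (nat_lit 234)) (XT.nd (nat_lit 78) (nat_lit 76) (nat_lit 0) (XT.lf (nat_lit 0) (nat_lit 3218233953) (nat_lit 152) (nat_lit 8880222155) (nat_lit 228) (nat_lit 4687943537) (nat_lit 33) (nat_lit 5) (nat_lit 35) (nat_lit 5) (nat_lit 36) (nat_lit 5) (nat_lit 381) (nat_lit 286) (nat_lit 233)) (XT.lf (nat_lit 0) (nat_lit 1378027540) (nat_lit 228) (nat_lit 732724121) (nat_lit 76) (nat_lit 15028147262) (nat_lit 32) (nat_lit 5) (nat_lit 35) (nat_lit 5) (nat_lit 33) (nat_lit 5) (nat_lit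 382) (nat_lit 286) (nat_lit 232))))))))
noncomputable def xc24 : XT := (XT.nd (nat_lit 43524) (nat_lit 0) (nat_lit 6156) (XT.nd (nat_lit 42744) (nat_lit 0) (nat_lit 16188) (XT.nd (nat_lit 312) (nat_lit 152) (nat_lit 0) (XT.nd (nat_lit 156) (nat_lit 228) (nat_lit 0) (XT.nd (nat_lit 78) (nat_lit 152) (nat_lit 0) (XT.lf (nat_lit 0) (nat_lit 7611764928) (nat_lit 228) (nat_lit 5024460257) (nat_lit 76) (nat_lit 4864149554) (nat_lit 30) (nat_lit 5) (nat_lit 33) (nat_lit 5) (nat_lit 31) (nat_lit 5) (nat_lit 383) (nat_lit 286) (nat_lit 231)) (XT.lf (nat_lit 0) (nat_lit 8200575753) (nat_lit 152) (nat_lit 5841041780) (nat_lit 228) (nat_lit 3830905782) (nat_lit 28) (nat_lit 5) (nat_lit 30) (nat_lit 5) (nat_lit 31) (nat_lit 5) (nat_lit 384) (nat_lit 286) (nat_lit 230))) (XT.nd (nat_lit 78) (nat_lit 0) (nat_lit 0) (XT.lf (nat_lit 0) (nat_lit 2379456430) (nat_lit 228) (nat_lit 14706677710) (nat_lit 76) (nat_lit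 1169349185) (nat_lit 25) (nat_lit 5) (nat_lit 28) (nat_lit 5) (nat_lit 26) (nat_lit 5) (nat_lit 385) (nat_lit 286) (nat_lit 229)) (XT.lf (nat_lit 0) (nat_lit 8767686140) (nat_lit 228) (nat_lit 1524424065) (nat_lit 76) (nat_lit 8356453159) (nat_lit 25) (nat_lit 5) (nat_lit 28) (nat_lit 5) (nat_lit 26) (nat_lit 5) (nat_lit 386) (nat_lit 286) (nat_lit 228)))) (XT.nd (nat_lit 42198) (nat_lit 0) (nat_lit 24472) (XT.nd (nat_lit 42120) (nat_lit 0) (nat_lit 27360) (XT.lf (nat_lit 0) (nat_lit 12105991161) (nat_lit 152) (nat_lit 3260240727) (nat_lit 228) (nat_lit 3686839997) (nat_lit 23) (nat_lit 5) (nat_lit 25) (nat_lit 5) (nat_lit 26) (nat_lit 5) (nat_lit 387) (nat_lit 286) (nat_lit 227)) (XT.lf (nat_lit 0) (nat_lit 1126117600) (nat_lit 1748) (nat_lit 1236159510) (nat_lit 1748) (nat_lit 1236159510) (nat_lit 383) (nat_lit 4) (nat_lit 406) (nat_lit 5) (nat_lit 406) (nat_lit 4) (nat_lit 326) (nat_lit 287) (nat_lit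 287))) (XT.nd (nat_lit 78) (nat_lit 1824) (nat_lit 0) (XT.lf (nat_lit 0) (nat_lit 2541859007) (nat_lit 1064) (nat_lit 4574406515) (nat_lit 0) (nat_lit 141467523) (nat_lit 369) (nat_lit 5) (nat_lit 383) (nat_lit 4) (nat_lit 369) (nat_lit 4) (nat_lit 327) (nat_lit 287) (nat_lit 286)) (XT.nd (nat_lit 78) (nat_lit 836) (nat_lit 0) (XT.lf (nat_lit 0) (nat_lit 271998837) (nat_lit 988) (nat_lit 4181431001) (nat_lit 76) (nat_lit 2868230767) (nat_lit 356) (nat_lit 5) (nat_lit 369) (nat_lit 5) (nat_lit 357) (nat_lit 4) (nat_lit 328) (nat_lit 287) (nat_lit 285)) (XT.lf (nat_lit 0) (nat_lit 3624389185) (nat_lit 836) (nat_lit 1631975681) (nat_lit 912) (nat_lit 2132387975) (nat_lit 345) (nat_lit 5) (nat_lit 356) (nat_lit 5) (nat_lit 357) (nat_lit 4) (nat_lit 329) (nat_lit 287) (nat_lit 284)))))) (XT.nd (nat_lit 390) (nat_lit 4180) (nat_lit 0) (XT.nd (nat_lit 156) (nat_lit 2356) (nat_lit 0) (XT.nd (nat_lit 78) (nat_lit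 836) (nat_lit 0) (XT.lf (nat_lit 0) (nat_lit 2816111993) (nat_lit 912) (nat_lit 3321420530) (nat_lit 76) (nat_lit 1321585753) (nat_lit 333) (nat_lit 5) (nat_lit 345) (nat_lit 5) (nat_lit 334) (nat_lit 4) (nat_lit 330) (nat_lit 287) (nat_lit 283)) (XT.lf (nat_lit 0) (nat_lit 275853558) (nat_lit 836) (nat_lit 2854564549) (nat_lit 76) (nat_lit 4402375397) (nat_lit 322) (nat_lit 5) (nat_lit 333) (nat_lit 5) (nat_lit 323) (nat_lit 5) (nat_lit 331) (nat_lit 287) (nat_lit 282))) (XT.nd (nat_lit 78) (nat_lit 1596) (nat_lit 0) (XT.lf (nat_lit 0) (nat_lit 5199698581) (nat_lit 836) (nat_lit 2370005266) (nat_lit 76) (nat_lit 40029480) (nat_lit 312) (nat_lit 5) (nat_lit 323) (nat_lit 5) (nat_lit 313) (nat_lit 4) (nat_lit 332) (nat_lit 287) (nat_lit 281)) (XT.nd (nat_lit 78) (nat_lit 760) (nat_lit 0) (XT.lf (nat_lit 0) (nat_lit 2492327480) (nat_lit 836) (nat_lit 1876640567) (nat_lit 76) (nat_lit 3320874016) (nat_lit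 301) (nat_lit 5) (nat_lit 312) (nat_lit 5) (nat_lit 302) (nat_lit 5) (nat_lit 333) (nat_lit 287) (nat_lit 280)) (XT.lf (nat_lit 0) (nat_lit 6418117461) (nat_lit 760) (nat_lit 1017010125) (nat_lit 836) (nat_lit 338457878) (nat_lit 291) (nat_lit 5) (nat_lit 301) (nat_lit 5) (nat_lit 302) (nat_lit 5) (nat_lit 334) (nat_lit 287) (nat_lit 279))))) (XT.nd (nat_lit 156) (nat_lit 2660) (nat_lit 0) (XT.nd (nat_lit 78) (nat_lit 760) (nat_lit 0) (XT.lf (nat_lit 0) (nat_lit 4549962542) (nat_lit 760) (nat_lit 838722814) (nat_lit 76) (nat_lit 2471722750) (nat_lit 281) (nat_lit 5) (nat_lit 291) (nat_lit 5) (nat_lit 282) (nat_lit 5) (nat_lit 335) (nat_lit 287) (nat_lit 278)) (XT.lf (nat_lit 0) (nat_lit 1547296074) (nat_lit 760) (nat_lit 302373529) (nat_lit 76) (nat_lit 6101214041) (nat_lit 271) (nat_lit 5) (nat_lit 281) (nat_lit 5) (nat_lit 272) (nat_lit 5) (nat_lit 336) (nat_lit 287) (nat_lit 277))) (XT.nd (nat_lit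 78) (nat_lit 1292) (nat_lit 0) (XT.lf (nat_lit 0) (nat_lit 239820430) (nat_lit 684) (nat_lit 6213950875) (nat_lit 760) (nat_lit 1590968471) (nat_lit 253) (nat_lit 5) (nat_lit 262) (nat_lit 5) (nat_lit 263) (nat_lit 5) (nat_lit 337) (nat_lit 287) (nat_lit 276)) (XT.nd (nat_lit 78) (nat_lit 608) (nat_lit 0) (XT.lf (nat_lit 0) (nat_lit 785949188) (nat_lit 608) (nat_lit 2487019334) (nat_lit 684) (nat_lit 4869044725) (nat_lit 244) (nat_lit 5) (nat_lit 252) (nat_lit 5) (nat_lit 253) (nat_lit 5) (nat_lit 338) (nat_lit 287) (nat_lit 275)) (XT.lf (nat_lit 0) (nat_lit 1343904284) (nat_lit 608) (nat_lit 6865835670) (nat_lit 684) (nat_lit 33342711) (nat_lit 236) (nat_lit 5) (nat_lit 244) (nat_lit 5) (nat_lit 245) (nat_lit 5) (nat_lit 339) (nat_lit 287) (nat_lit 274))))))) (XT.nd (nat_lit 780) (nat_lit 4332) (nat_lit 0) (XT.nd (nat_lit 390) (nat_lit 2660) (nat_lit 0) (XT.nd (nat_lit 156) (nat_lit 1672) (nat_lit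 0) (XT.nd (nat_lit 78) (nat_lit 684) (nat_lit 0) (XT.lf (nat_lit 0) (nat_lit 1881625407) (nat_lit 608) (nat_lit 2959340635) (nat_lit 684) (nat_lit 3506463108) (nat_lit 227) (nat_lit 5) (nat_lit 235) (nat_lit 5) (nat_lit 236) (nat_lit 5) (nat_lit 340) (nat_lit 287) (nat_lit 273)) (XT.lf (nat_lit 0) (nat_lit 1338851180) (nat_lit 684) (nat_lit 6026944296) (nat_lit 76) (nat_lit 1089953856) (nat_lit 218) (nat_lit 5) (nat_lit 227) (nat_lit 5) (nat_lit 219) (nat_lit 5) (nat_lit 341) (nat_lit 287) (nat_lit 272))) (XT.nd (nat_lit 78) (nat_lit 1140) (nat_lit 0) (XT.lf (nat_lit 0) (nat_lit 2955367153) (nat_lit 532) (nat_lit 3293238704) (nat_lit 608) (nat_lit 2318966936) (nat_lit 211) (nat_lit 5) (nat_lit 218) (nat_lit 5) (nat_lit 219) (nat_lit 5) (nat_lit 342) (nat_lit 287) (nat_lit 271)) (XT.nd (nat_lit 78) (nat_lit 532) (nat_lit 0) (XT.lf (nat_lit 0) (nat_lit 2543376309) (nat_lit 608) (nat_lit 5204808009)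 (nat_lit 76) (nat_lit 935177709) (nat_lit 203) (nat_lit 5) (nat_lit 211) (nat_lit 5) (nat_lit 204) (nat_lit 5) (nat_lit 343) (nat_lit 287) (nat_lit 270)) (XT.lf (nat_lit 0) (nat_lit 3980517974) (nat_lit 532) (nat_lit 3513028527) (nat_lit 608) (nat_lit 1309350333) (nat_lit 196) (nat_lit 5) (nat_lit 203) (nat_lit 5) (nat_lit 204) (nat_lit 5) (nat_lit 344) (nat_lit 287) (nat_lit 269))))) (XT.nd (nat_lit 156) (nat_lit 1596) (nat_lit 0) (XT.nd (nat_lit 78) (nat_lit 456) (nat_lit 0) (XT.lf (nat_lit 0) (nat_lit 3577185802) (nat_lit 608) (nat_lit 4460394432) (nat_lit 76) (nat_lit 888825503) (nat_lit 188) (nat_lit 5) (nat_lit 196) (nat_lit 5) (nat_lit 189) (nat_lit 5) (nat_lit 345) (nat_lit 287) (nat_lit 268)) (XT.lf (nat_lit 0) (nat_lit 4928756719) (nat_lit 456) (nat_lit 3642975559) (nat_lit 532) (nat_lit 482174558) (nat_lit 182) (nat_lit 5) (nat_lit 188) (nat_lit 5) (nat_lit 189) (nat_lit 5) (nat_lit 346)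 (nat_lit 287) (nat_lit 267))) (XT.nd (nat_lit 78) (nat_lit 988) (nat_lit 0) (XT.lf (nat_lit 0) (nat_lit 4435027098) (nat_lit 608) (nat_lit 3823403903) (nat_lit 76) (nat_lit 926984219) (nat_lit 174) (nat_lit 5) (nat_lit 182) (nat_lit 5) (nat_lit 175) (nat_lit 5) (nat_lit 347) (nat_lit 287) (nat_lit 266)) (XT.nd (nat_lit 78) (nat_lit 456) (nat_lit 0) (XT.lf (nat_lit 0) (nat_lit 154100189) (nat_lit 532) (nat_lit 3552377643) (nat_lit 76) (nat_lit 5614665393) (nat_lit 167) (nat_lit 5) (nat_lit 174) (nat_lit 5) (nat_lit 168) (nat_lit 5) (nat_lit 348) (nat_lit 287) (nat_lit 265)) (XT.lf (nat_lit 0) (nat_lit 5109788215) (nat_lit 532) (nat_lit 3325706008) (nat_lit 76) (nat_lit 1025487544) (nat_lit 161) (nat_lit 5) (nat_lit 168) (nat_lit 5) (nat_lit 162) (nat_lit 5) (nat_lit 349) (nat_lit 287) (nat_lit 264)))))) (XT.nd (nat_lit 390) (nat_lit 1976) (nat_lit 0) (XT.nd (nat_lit 156) (nat_lit 1368) (nat_lit 0)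 (XT.nd (nat_lit 78) (nat_lit 456) (nat_lit 0) (XT.lf (nat_lit 0) (nat_lit 589420603) (nat_lit 532) (nat_lit 3138083150) (nat_lit 76) (nat_lit 5877703965) (nat_lit 154) (nat_lit 5) (nat_lit 161) (nat_lit 5) (nat_lit 155) (nat_lit 5) (nat_lit 350) (nat_lit 287) (nat_lit 263)) (XT.lf (nat_lit 0) (nat_lit 5592389699) (nat_lit 532) (nat_lit 3001674503) (nat_lit 76) (nat_lit 1159691813) (nat_lit 148) (nat_lit 5) (nat_lit 155) (nat_lit 5) (nat_lit 149) (nat_lit 5) (nat_lit 351) (nat_lit 287) (nat_lit 262))) (XT.nd (nat_lit 78) (nat_lit 912) (nat_lit 0) (XT.lf (nat_lit 0) (nat_lit 819813202) (nat_lit 456) (nat_lit 2914944212) (nat_lit 76) (nat_lit 6172086041) (nat_lit 142) (nat_lit 5) (nat_lit 148) (nat_lit 5) (nat_lit 143) (nat_lit 5) (nat_lit 352) (nat_lit 287) (nat_lit 261)) (XT.nd (nat_lit 78) (nat_lit 456) (nat_lit 0) (XT.lf (nat_lit 0) (nat_lit 5871658346) (nat_lit 532) (nat_lit 2888550020) (nat_lit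 76) (nat_lit 1304242801) (nat_lit 136) (nat_lit 5) (nat_lit 143) (nat_lit 5) (nat_lit 137) (nat_lit 5) (nat_lit 353) (nat_lit 287) (nat_lit 260)) (XT.lf (nat_lit 0) (nat_lit 832801757) (nat_lit 456) (nat_lit 2921824295) (nat_lit 76) (nat_lit 6472169326) (nat_lit 130) (nat_lit 5) (nat_lit 136) (nat_lit 5) (nat_lit 131) (nat_lit 5) (nat_lit 354) (nat_lit 287) (nat_lit 259))))) (XT.nd (nat_lit 156) (nat_lit 1140) (nat_lit 0) (XT.nd (nat_lit 78) (nat_lit 456) (nat_lit 0) (XT.lf (nat_lit 0) (nat_lit 5934181302) (nat_lit 456) (nat_lit 3026834033) (nat_lit 76) (nat_lit 1432831282) (nat_lit 125) (nat_lit 5) (nat_lit 131) (nat_lit 5) (nat_lit 126) (nat_lit 5) (nat_lit 355) (nat_lit 287) (nat_lit 258)) (XT.lf (nat_lit 0) (nat_lit 613574756) (nat_lit 456) (nat_lit 3201053472) (nat_lit 76) (nat_lit 6751248467) (nat_lit 119) (nat_lit 5) (nat_lit 125) (nat_lit 5) (nat_lit 120) (nat_lit 5) (nat_lit 356) (nat_lit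 287) (nat_lit 257))) (XT.nd (nat_lit 78) (nat_lit 760) (nat_lit 0) (XT.lf (nat_lit 0) (nat_lit 5764138990) (nat_lit 456) (nat_lit 3460717882) (nat_lit 76) (nat_lit 1517935189) (nat_lit 114) (nat_lit 5) (nat_lit 120) (nat_lit 5) (nat_lit 115) (nat_lit 5) (nat_lit 357) (nat_lit 287) (nat_lit 256)) (XT.nd (nat_lit 78) (nat_lit 380) (nat_lit 0) (XT.lf (nat_lit 0) (nat_lit 144807002) (nat_lit 380) (nat_lit 3798876782) (nat_lit 76) (nat_lit 6981289441) (nat_lit 109) (nat_lit 5) (nat_lit 114) (nat_lit 5) (nat_lit 110) (nat_lit 5) (nat_lit 358) (nat_lit 287) (nat_lit 255)) (XT.lf (nat_lit 0) (nat_lit 5343115094) (nat_lit 456) (nat_lit 4238550980) (nat_lit 76) (nat_lit 1530546018) (nat_lit 104) (nat_lit 5) (nat_lit 110) (nat_lit 5) (nat_lit 105) (nat_lit 5) (nat_lit 359) (nat_lit 287) (nat_lit 254))))))))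
noncomputable def xc25 : XT := (XT.nd (nat_lit 1482) (nat_lit 1368) (nat_lit 0) (XT.nd (nat_lit 702) (nat_lit 2204) (nat_lit 0) (XT.nd (nat_lit 312) (nat_lit 1216) (nat_lit 0) (XT.nd (nat_lit 156) (nat_lit 684) (nat_lit 0) (XT.nd (nat_lit 78) (nat_lit 380) (nat_lit 0) (XT.lf (nat_lit 0) (nat_lit 6535121293) (nat_lit 304) (nat_lit 4168418249) (nat_lit 380) (nat_lit 601430613) (nat_lit 100) (nat_lit 5) (nat_lit 104) (nat_lit 5) (nat_lit 105) (nat_lit 5) (nat_lit 360) (nat_lit 287) (nat_lit 253)) (XT.lf (nat_lit 0) (nat_lit 4649881614) (nat_lit 380) (nat_lit 5413352751) (nat_lit 76) (nat_lit 1439876957) (nat_lit 95) (nat_lit 5) (nat_lit 100) (nat_lit 5) (nat_lit 96) (nat_lit 5) (nat_lit 361) (nat_lit 287) (nat_lit 252))) (XT.nd (nat_lit 78) (nat_lit 380) (nat_lit 0) (XT.lf (nat_lit 0) (nat_lit 5538401558) (nat_lit 304) (nat_lit 4522484251) (nat_lit 380) (nat_lit 1646048380) (nat_lit 91) (nat_lit 5) (nat_lit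 95) (nat_lit 5) (nat_lit 96) (nat_lit 5) (nat_lit 362) (nat_lit 287) (nat_lit 251)) (XT.lf (nat_lit 0) (nat_lit 3660156790) (nat_lit 380) (nat_lit 7043373271) (nat_lit 76) (nat_lit 1213050050) (nat_lit 86) (nat_lit 5) (nat_lit 91) (nat_lit 5) (nat_lit 87) (nat_lit 5) (nat_lit 363) (nat_lit 287) (nat_lit 250)))) (XT.nd (nat_lit 156) (nat_lit 608) (nat_lit 0) (XT.nd (nat_lit 78) (nat_lit 380) (nat_lit 0) (XT.lf (nat_lit 0) (nat_lit 4076750135) (nat_lit 228) (nat_lit 5041609049) (nat_lit 304) (nat_lit 3013656801) (nat_lit 83) (nat_lit 5) (nat_lit 86) (nat_lit 5) (nat_lit 87) (nat_lit 5) (nat_lit 364) (nat_lit 287) (nat_lit 249)) (XT.lf (nat_lit 0) (nat_lit 2346333399) (nat_lit 380) (nat_lit 9192708072) (nat_lit 76) (nat_lit 814759438) (nat_lit 78) (nat_lit 5) (nat_lit 83) (nat_lit 5) (nat_lit 79) (nat_lit 5) (nat_lit 365) (nat_lit 287) (nat_lit 248))) (XT.nd (nat_lit 78) (nat_lit 380) (nat_lit 0) (XT.lf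 (nat_lit 0) (nat_lit 2083908238) (nat_lit 228) (nat_lit 5763207874) (nat_lit 304) (nat_lit 4734326156) (nat_lit 75) (nat_lit 5) (nat_lit 78) (nat_lit 5) (nat_lit 79) (nat_lit 5) (nat_lit 366) (nat_lit 287) (nat_lit 247)) (XT.nd (nat_lit 78) (nat_lit 0) (nat_lit 0) (XT.lf (nat_lit 0) (nat_lit 677174677) (nat_lit 380) (nat_lit 11931973095) (nat_lit 76) (nat_lit 206907515) (nat_lit 70) (nat_lit 5) (nat_lit 75) (nat_lit 5) (nat_lit 71) (nat_lit 5) (nat_lit 367) (nat_lit 287) (nat_lit 246)) (XT.lf (nat_lit 0) (nat_lit 6217886113) (nat_lit 380) (nat_lit 506454771) (nat_lit 76) (nat_lit 6332134712) (nat_lit 70) (nat_lit 5) (nat_lit 75) (nat_lit 5) (nat_lit 71) (nat_lit 5) (nat_lit 368) (nat_lit 287) (nat_lit 245)))))) (XT.nd (nat_lit 390) (nat_lit 912) (nat_lit 0) (XT.nd (nat_lit 156) (nat_lit 760) (nat_lit 0) (XT.nd (nat_lit 78) (nat_lit 304) (nat_lit 0) (XT.lf (nat_lit 0) (nat_lit 11283270624) (nat_lit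 228) (nat_lit 637790280) (nat_lit 304) (nat_lit 1383140736) (nat_lit 67) (nat_lit 5) (nat_lit 70) (nat_lit 5) (nat_lit 71) (nat_lit 5) (nat_lit 369) (nat_lit 287) (nat_lit 244)) (XT.lf (nat_lit 0) (nat_lit 4208597355) (nat_lit 304) (nat_lit 3745391841) (nat_lit 76) (nat_lit 5604273688) (nat_lit 63) (nat_lit 5) (nat_lit 67) (nat_lit 5) (nat_lit 64) (nat_lit 5) (nat_lit 370) (nat_lit 287) (nat_lit 243))) (XT.nd (nat_lit 78) (nat_lit 532) (nat_lit 0) (XT.lf (nat_lit 0) (nat_lit 8178663820) (nat_lit 228) (nat_lit 1766889765) (nat_lit 304) (nat_lit 3874300984) (nat_lit 60) (nat_lit 5) (nat_lit 63) (nat_lit 5) (nat_lit 64) (nat_lit 5) (nat_lit 371) (nat_lit 287) (nat_lit 242)) (XT.nd (nat_lit 78) (nat_lit 228) (nat_lit 0) (XT.lf (nat_lit 0) (nat_lit 1765070980) (nat_lit 304) (nat_lit 7748125432) (nat_lit 76) (nat_lit 4575426182) (nat_lit 56) (nat_lit 5) (nat_lit 60) (nat_lit 5) (nat_lit 57) (nat_lit 5)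 (nat_lit 372) (nat_lit 287) (nat_lit 241)) (XT.lf (nat_lit 0) (nat_lit 4289647277) (nat_lit 228) (nat_lit 3236722067) (nat_lit 304) (nat_lit 6838479840) (nat_lit 53) (nat_lit 5) (nat_lit 56) (nat_lit 5) (nat_lit 57) (nat_lit 5) (nat_lit 373) (nat_lit 287) (nat_lit 240))))) (XT.nd (nat_lit 156) (nat_lit 608) (nat_lit 0) (XT.nd (nat_lit 78) (nat_lit 76) (nat_lit 0) (XT.lf (nat_lit 0) (nat_lit 2029675067) (nat_lit 228) (nat_lit 11445779635) (nat_lit 304) (nat_lit 1173623807) (nat_lit 50) (nat_lit 5) (nat_lit 53) (nat_lit 5) (nat_lit 54) (nat_lit 5) (nat_lit 374) (nat_lit 287) (nat_lit 239)) (XT.lf (nat_lit 0) (nat_lit 4619212759) (nat_lit 304) (nat_lit 478139497) (nat_lit 76) (nat_lit 9843508027) (nat_lit 49) (nat_lit 5) (nat_lit 53) (nat_lit 5) (nat_lit 50) (nat_lit 5) (nat_lit 375) (nat_lit 287) (nat_lit 238))) (XT.nd (nat_lit 78) (nat_lit 456) (nat_lit 0) (XT.lf (nat_lit 0) (nat_lit 10588770923) (nat_lit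 228) (nat_lit 3190395297) (nat_lit 76) (nat_lit 1461710274) (nat_lit 47) (nat_lit 5) (nat_lit 50) (nat_lit 5) (nat_lit 48) (nat_lit 5) (nat_lit 376) (nat_lit 287) (nat_lit 237)) (XT.nd (nat_lit 78) (nat_lit 152) (nat_lit 0) (XT.lf (nat_lit 0) (nat_lit 1202236730) (nat_lit 304) (nat_lit 6173126193) (nat_lit 76) (nat_lit 8173783395) (nat_lit 43) (nat_lit 5) (nat_lit 47) (nat_lit 5) (nat_lit 44) (nat_lit 5) (nat_lit 377) (nat_lit 287) (nat_lit 236)) (XT.lf (nat_lit 0) (nat_lit 6434430799) (nat_lit 152) (nat_lit 731083978) (nat_lit 228) (nat_lit 8700616986) (nat_lit 41) (nat_lit 5) (nat_lit 43) (nat_lit 5) (nat_lit 44) (nat_lit 5) (nat_lit 378) (nat_lit 287) (nat_lit 235))))))) (XT.nd (nat_lit 42666) (nat_lit 0) (nat_lit 20292) (XT.nd (nat_lit 390) (nat_lit 532) (nat_lit 0) (XT.nd (nat_lit 156) (nat_lit 532) (nat_lit 0) (XT.nd (nat_lit 78) (nat_lit 76) (nat_lit 0) (XT.lf (nat_lit 0) (nat_lit 3200207895)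 (nat_lit 228) (nat_lit 10143581979) (nat_lit 304) (nat_lit 2848127274) (nat_lit 38) (nat_lit 5) (nat_lit 41) (nat_lit 5) (nat_lit 42) (nat_lit 5) (nat_lit 379) (nat_lit 287) (nat_lit 234)) (XT.lf (nat_lit 0) (nat_lit 3141741677) (nat_lit 304) (nat_lit 325726547) (nat_lit 76) (nat_lit 13059536501) (nat_lit 37) (nat_lit 5) (nat_lit 41) (nat_lit 5) (nat_lit 38) (nat_lit 5) (nat_lit 380) (nat_lit 287) (nat_lit 233))) (XT.nd (nat_lit 78) (nat_lit 380) (nat_lit 0) (XT.lf (nat_lit 0) (nat_lit 9314370747) (nat_lit 228) (nat_lit 4135819956) (nat_lit 76) (nat_lit 3420753940) (nat_lit 35) (nat_lit 5) (nat_lit 38) (nat_lit 5) (nat_lit 36) (nat_lit 5) (nat_lit 381) (nat_lit 287) (nat_lit 232)) (XT.nd (nat_lit 78) (nat_lit 228) (nat_lit 0) (XT.lf (nat_lit 0) (nat_lit 8951693937) (nat_lit 152) (nat_lit 6741069176) (nat_lit 228) (nat_lit 1532039037) (nat_lit 33) (nat_lit 5) (nat_lit 35) (nat_lit 5) (nat_lit 36) (nat_lit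 5) (nat_lit 382) (nat_lit 287) (nat_lit 231)) (XT.lf (nat_lit 0) (nat_lit 4610632268) (nat_lit 228) (nat_lit 12766325199) (nat_lit 76) (nat_lit 211747816) (nat_lit 30) (nat_lit 5) (nat_lit 33) (nat_lit 5) (nat_lit 31) (nat_lit 5) (nat_lit 383) (nat_lit 287) (nat_lit 230))))) (XT.nd (nat_lit 156) (nat_lit 380) (nat_lit 0) (XT.nd (nat_lit 78) (nat_lit 0) (nat_lit 0) (XT.lf (nat_lit 0) (nat_lit 301996844) (nat_lit 152) (nat_lit 10656953141) (nat_lit 228) (nat_lit 7003539617) (nat_lit 28) (nat_lit 5) (nat_lit 30) (nat_lit 5) (nat_lit 31) (nat_lit 5) (nat_lit 384) (nat_lit 287) (nat_lit 229)) (XT.lf (nat_lit 0) (nat_lit 13831026535) (nat_lit 152) (nat_lit 3692887523) (nat_lit 228) (nat_lit 823059397) (nat_lit 28) (nat_lit 5) (nat_lit 30) (nat_lit 5) (nat_lit 31) (nat_lit 5) (nat_lit 385) (nat_lit 287) (nat_lit 228))) (XT.nd (nat_lit 78) (nat_lit 152) (nat_lit 0) (XT.lf (nat_lit 0) (nat_lit 5492558627)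 (nat_lit 228) (nat_lit 9764013523) (nat_lit 76) (nat_lit 3485261007) (nat_lit 25) (nat_lit 5) (nat_lit 28) (nat_lit 5) (nat_lit 26) (nat_lit 5) (nat_lit 386) (nat_lit 287) (nat_lit 227)) (XT.nd (nat_lit 41964) (nat_lit 0) (nat_lit 30856) (XT.lf (nat_lit 0) (nat_lit 3705494367) (nat_lit 152) (nat_lit 8302405645) (nat_lit 228) (nat_lit 7140110279) (nat_lit 23) (nat_lit 5) (nat_lit 25) (nat_lit 5) (nat_lit 26) (nat_lit 5) (nat_lit 387) (nat_lit 287) (nat_lit 226)) (XT.lf (nat_lit 0) (nat_lit 790297969) (nat_lit 1596) (nat_lit 1375693140) (nat_lit 1596) (nat_lit 1375693140) (nat_lit 429) (nat_lit 4) (nat_lit 450) (nat_lit 5) (nat_lit 450) (nat_lit 4) (nat_lit 324) (nat_lit 288) (nat_lit 288)))))) (XT.nd (nat_lit 390) (nat_lit 4104) (nat_lit 0) (XT.nd (nat_lit 156) (nat_lit 2964) (nat_lit 0) (XT.nd (nat_lit 78) (nat_lit 1748) (nat_lit 0) (XT.lf (nat_lit 0) (nat_lit 1864157318) (nat_lit 1672) (nat_lit 332102897)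 (nat_lit 1748) (nat_lit 4943092385) (nat_lit 406) (nat_lit 5) (nat_lit 428) (nat_lit 5) (nat_lit 429) (nat_lit 4) (nat_lit 325) (nat_lit 288) (nat_lit 287)) (XT.lf (nat_lit 0) (nat_lit 2177683209) (nat_lit 1748) (nat_lit 4995476924) (nat_lit 1748) (nat_lit 25226317) (nat_lit 383) (nat_lit 4) (nat_lit 406) (nat_lit 5) (nat_lit 406) (nat_lit 4) (nat_lit 326) (nat_lit 288) (nat_lit 286))) (XT.nd (nat_lit 78) (nat_lit 1900) (nat_lit 0) (XT.lf (nat_lit 0) (nat_lit 2516746869) (nat_lit 988) (nat_lit 2366463124) (nat_lit 1064) (nat_lit 2377237423) (nat_lit 369) (nat_lit 5) (nat_lit 382) (nat_lit 5) (nat_lit 383) (nat_lit 4) (nat_lit 327) (nat_lit 288) (nat_lit 285)) (XT.nd (nat_lit 78) (nat_lit 912) (nat_lit 0) (XT.lf (nat_lit 0) (nat_lit 2492456901) (nat_lit 988) (nat_lit 4431108133) (nat_lit 76) (nat_lit 402300161) (nat_lit 356) (nat_lit 5) (nat_lit 369) (nat_lit 5) (nat_lit 357) (nat_lit 4) (nat_lit 328)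 (nat_lit 288) (nat_lit 284)) (XT.lf (nat_lit 0) (nat_lit 11175013) (nat_lit 912) (nat_lit 4097459416) (nat_lit 76) (nat_lit 3285785575) (nat_lit 344) (nat_lit 5) (nat_lit 356) (nat_lit 5) (nat_lit 345) (nat_lit 5) (nat_lit 329) (nat_lit 288) (nat_lit 283))))) (XT.nd (nat_lit 156) (nat_lit 2432) (nat_lit 0) (XT.nd (nat_lit 78) (nat_lit 836) (nat_lit 0) (XT.lf (nat_lit 0) (nat_lit 3720907643) (nat_lit 836) (nat_lit 1131442304) (nat_lit 912) (nat_lit 2613786200) (nat_lit 333) (nat_lit 5) (nat_lit 344) (nat_lit 5) (nat_lit 345) (nat_lit 5) (nat_lit 330) (nat_lit 288) (nat_lit 282)) (XT.lf (nat_lit 0) (nat_lit 2200917715) (nat_lit 836) (nat_lit 3372076597) (nat_lit 76) (nat_lit 1968142900) (nat_lit 322) (nat_lit 5) (nat_lit 333) (nat_lit 5) (nat_lit 323) (nat_lit 5) (nat_lit 331) (nat_lit 288) (nat_lit 281))) (XT.nd (nat_lit 78) (nat_lit 1672) (nat_lit 0) (XT.lf (nat_lit 0) (nat_lit 4641639252) (nat_lit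 760) (nat_lit 2413548413) (nat_lit 836) (nat_lit 564318242) (nat_lit 312) (nat_lit 5) (nat_lit 322) (nat_lit 5) (nat_lit 323) (nat_lit 5) (nat_lit 332) (nat_lit 288) (nat_lit 280)) (XT.nd (nat_lit 78) (nat_lit 836) (nat_lit 0) (XT.lf (nat_lit 0) (nat_lit 4229159060) (nat_lit 836) (nat_lit 2573668505) (nat_lit 76) (nat_lit 898276536) (nat_lit 301) (nat_lit 5) (nat_lit 312) (nat_lit 5) (nat_lit 302) (nat_lit 5) (nat_lit 333) (nat_lit 288) (nat_lit 279)) (XT.lf (nat_lit 0) (nat_lit 1300280170) (nat_lit 836) (nat_lit 2156706296) (nat_lit 76) (nat_lit 4329087557) (nat_lit 290) (nat_lit 5) (nat_lit 301) (nat_lit 5) (nat_lit 291) (nat_lit 5) (nat_lit 334) (nat_lit 288) (nat_lit 278))))))))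
noncomputable def xc26 : XT := (XT.nd (nat_lit 1482) (nat_lit 6080) (nat_lit 0) (XT.nd (nat_lit 702) (nat_lit 5092) (nat_lit 0) (XT.nd (nat_lit 312) (nat_lit 3724) (nat_lit 0) (XT.nd (nat_lit 156) (nat_lit 1444) (nat_lit 0) (XT.nd (nat_lit 78) (nat_lit 760) (nat_lit 0) (XT.lf (nat_lit 0) (nat_lit 6100408506) (nat_lit 760) (nat_lit 1724146601) (nat_lit 76) (nat_lit 50007543) (nat_lit 281) (nat_lit 5) (nat_lit 291) (nat_lit 5) (nat_lit 282) (nat_lit 5) (nat_lit 335) (nat_lit 288) (nat_lit 277)) (XT.lf (nat_lit 0) (nat_lit 2995781930) (nat_lit 760) (nat_lit 1298035877) (nat_lit 76) (nat_lit 3672405313) (nat_lit 271) (nat_lit 5) (nat_lit 281) (nat_lit 5) (nat_lit 272) (nat_lit 5) (nat_lit 336) (nat_lit 288) (nat_lit 276))) (XT.nd (nat_lit 78) (nat_lit 760) (nat_lit 0) (XT.lf (nat_lit 0) (nat_lit 7211767194) (nat_lit 684) (nat_lit 609880416) (nat_lit 760) (nat_lit 240074208) (nat_lit 262) (nat_lit 5) (nat_lit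 271) (nat_lit 5) (nat_lit 272) (nat_lit 5) (nat_lit 337) (nat_lit 288) (nat_lit 275)) (XT.lf (nat_lit 0) (nat_lit 4531772638) (nat_lit 760) (nat_lit 421132904) (nat_lit 76) (nat_lit 3207430703) (nat_lit 252) (nat_lit 5) (nat_lit 262) (nat_lit 5) (nat_lit 253) (nat_lit 5) (nat_lit 338) (nat_lit 288) (nat_lit 274)))) (XT.nd (nat_lit 156) (nat_lit 1824) (nat_lit 0) (XT.nd (nat_lit 78) (nat_lit 608) (nat_lit 0) (XT.lf (nat_lit 0) (nat_lit 23382758) (nat_lit 608) (nat_lit 1088610997) (nat_lit 684) (nat_lit 7150868933) (nat_lit 235) (nat_lit 5) (nat_lit 243) (nat_lit 5) (nat_lit 244) (nat_lit 5) (nat_lit 339) (nat_lit 288) (nat_lit 273)) (XT.lf (nat_lit 0) (nat_lit 456141146) (nat_lit 608) (nat_lit 5455720676) (nat_lit 684) (nat_lit 2456849808) (nat_lit 227) (nat_lit 5) (nat_lit 235) (nat_lit 5) (nat_lit 236) (nat_lit 5) (nat_lit 340) (nat_lit 288) (nat_lit 272))) (XT.nd (nat_lit 78) (nat_lit 1140) (nat_lit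 0) (XT.lf (nat_lit 0) (nat_lit 889321058) (nat_lit 608) (nat_lit 1411295750) (nat_lit 684) (nat_lit 6177785777) (nat_lit 218) (nat_lit 5) (nat_lit 226) (nat_lit 5) (nat_lit 227) (nat_lit 5) (nat_lit 341) (nat_lit 288) (nat_lit 271)) (XT.nd (nat_lit 78) (nat_lit 608) (nat_lit 0) (XT.lf (nat_lit 0) (nat_lit 1308006773) (nat_lit 532) (nat_lit 5826723869) (nat_lit 608) (nat_lit 1457032913) (nat_lit 211) (nat_lit 5) (nat_lit 218) (nat_lit 5) (nat_lit 219) (nat_lit 5) (nat_lit 342) (nat_lit 288) (nat_lit 270)) (XT.lf (nat_lit 0) (nat_lit 1712077673) (nat_lit 532) (nat_lit 1609258303) (nat_lit 608) (nat_lit 5387581789) (nat_lit 203) (nat_lit 5) (nat_lit 210) (nat_lit 5) (nat_lit 211) (nat_lit 5) (nat_lit 343) (nat_lit 288) (nat_lit 269)))))) (XT.nd (nat_lit 390) (nat_lit 2356) (nat_lit 0) (XT.nd (nat_lit 156) (nat_lit 1596) (nat_lit 0) (XT.nd (nat_lit 78) (nat_lit 608) (nat_lit 0) (XT.lf (nat_lit 0) (nat_lit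 2102130447) (nat_lit 532) (nat_lit 6092751644) (nat_lit 608) (nat_lit 635125780) (nat_lit 196) (nat_lit 5) (nat_lit 203) (nat_lit 5) (nat_lit 204) (nat_lit 5) (nat_lit 344) (nat_lit 288) (nat_lit 268)) (XT.lf (nat_lit 0) (nat_lit 2464038417) (nat_lit 532) (nat_lit 1706404278) (nat_lit 608) (nat_lit 4784450750) (nat_lit 188) (nat_lit 5) (nat_lit 195) (nat_lit 5) (nat_lit 196) (nat_lit 5) (nat_lit 345) (nat_lit 288) (nat_lit 267))) (XT.nd (nat_lit 78) (nat_lit 1064) (nat_lit 0) (XT.lf (nat_lit 0) (nat_lit 3877310) (nat_lit 532) (nat_lit 6273902419) (nat_lit 76) (nat_lit 2806177444) (nat_lit 181) (nat_lit 5) (nat_lit 188) (nat_lit 5) (nat_lit 182) (nat_lit 5) (nat_lit 346) (nat_lit 288) (nat_lit 266)) (XT.nd (nat_lit 78) (nat_lit 532) (nat_lit 0) (XT.lf (nat_lit 0) (nat_lit 3115754516) (nat_lit 532) (nat_lit 1726716123) (nat_lit 608) (nat_lit 4374398067) (nat_lit 174) (nat_lit 5) (nat_lit 181) (nat_lit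 5) (nat_lit 182) (nat_lit 5) (nat_lit 347) (nat_lit 288) (nat_lit 265)) (XT.lf (nat_lit 0) (nat_lit 447401130) (nat_lit 532) (nat_lit 5955689548) (nat_lit 76) (nat_lit 2951031471) (nat_lit 167) (nat_lit 5) (nat_lit 174) (nat_lit 5) (nat_lit 168) (nat_lit 5) (nat_lit 348) (nat_lit 288) (nat_lit 264))))) (XT.nd (nat_lit 156) (nat_lit 1368) (nat_lit 0) (XT.nd (nat_lit 78) (nat_lit 532) (nat_lit 0) (XT.lf (nat_lit 0) (nat_lit 3635634135) (nat_lit 456) (nat_lit 1694470521) (nat_lit 532) (nat_lit 4165334273) (nat_lit 161) (nat_lit 5) (nat_lit 167) (nat_lit 5) (nat_lit 168) (nat_lit 5) (nat_lit 349) (nat_lit 288) (nat_lit 263)) (XT.lf (nat_lit 0) (nat_lit 695162434) (nat_lit 532) (nat_lit 5802418291) (nat_lit 76) (nat_lit 3143631273) (nat_lit 154) (nat_lit 5) (nat_lit 161) (nat_lit 5) (nat_lit 155) (nat_lit 5) (nat_lit 350) (nat_lit 288) (nat_lit 262))) (XT.nd (nat_lit 78) (nat_lit 912) (nat_lit 0) (XT.lf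 (nat_lit 0) (nat_lit 3989609502) (nat_lit 456) (nat_lit 1634463304) (nat_lit 532) (nat_lit 4167185805) (nat_lit 148) (nat_lit 5) (nat_lit 154) (nat_lit 5) (nat_lit 155) (nat_lit 5) (nat_lit 351) (nat_lit 288) (nat_lit 261)) (XT.nd (nat_lit 78) (nat_lit 456) (nat_lit 0) (XT.lf (nat_lit 0) (nat_lit 736511958) (nat_lit 456) (nat_lit 5850096202) (nat_lit 76) (nat_lit 3359306122) (nat_lit 142) (nat_lit 5) (nat_lit 148) (nat_lit 5) (nat_lit 143) (nat_lit 5) (nat_lit 352) (nat_lit 288) (nat_lit 260)) (XT.lf (nat_lit 0) (nat_lit 4140776459) (nat_lit 456) (nat_lit 1572243850) (nat_lit 532) (nat_lit 4392024261) (nat_lit 136) (nat_lit 5) (nat_lit 142) (nat_lit 5) (nat_lit 143) (nat_lit 5) (nat_lit 353) (nat_lit 288) (nat_lit 259))))))) (XT.nd (nat_lit 780) (nat_lit 2280) (nat_lit 0) (XT.nd (nat_lit 390) (nat_lit 1824) (nat_lit 0) (XT.nd (nat_lit 156) (nat_lit 1140) (nat_lit 0) (XT.nd (nat_lit 78) (nat_lit 380)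 (nat_lit 0) (XT.lf (nat_lit 0) (nat_lit 558627018) (nat_lit 456) (nat_lit 6137812952) (nat_lit 76) (nat_lit 3572540882) (nat_lit 130) (nat_lit 5) (nat_lit 136) (nat_lit 5) (nat_lit 131) (nat_lit 5) (nat_lit 354) (nat_lit 288) (nat_lit 258)) (XT.lf (nat_lit 0) (nat_lit 4049003003) (nat_lit 380) (nat_lit 1534361008) (nat_lit 456) (nat_lit 4854215569) (nat_lit 125) (nat_lit 5) (nat_lit 130) (nat_lit 5) (nat_lit 131) (nat_lit 5) (nat_lit 355) (nat_lit 288) (nat_lit 257))) (XT.nd (nat_lit 78) (nat_lit 684) (nat_lit 0) (XT.lf (nat_lit 0) (nat_lit 146353977) (nat_lit 456) (nat_lit 6708151204) (nat_lit 76) (nat_lit 3756726546) (nat_lit 119) (nat_lit 5) (nat_lit 125) (nat_lit 5) (nat_lit 120) (nat_lit 5) (nat_lit 356) (nat_lit 288) (nat_lit 256)) (XT.nd (nat_lit 78) (nat_lit 304) (nat_lit 0) (XT.lf (nat_lit 0) (nat_lit 3670503041) (nat_lit 380) (nat_lit 1548622800) (nat_lit 456) (nat_lit 5570590628) (nat_lit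 114) (nat_lit 5) (nat_lit 119) (nat_lit 5) (nat_lit 120) (nat_lit 5) (nat_lit 357) (nat_lit 288) (nat_lit 255)) (XT.lf (nat_lit 0) (nat_lit 3362448948) (nat_lit 304) (nat_lit 7086187466) (nat_lit 380) (nat_lit 524854886) (nat_lit 110) (nat_lit 5) (nat_lit 114) (nat_lit 5) (nat_lit 115) (nat_lit 5) (nat_lit 358) (nat_lit 288) (nat_lit 254))))) (XT.nd (nat_lit 156) (nat_lit 1064) (nat_lit 0) (XT.nd (nat_lit 78) (nat_lit 304) (nat_lit 0) (XT.lf (nat_lit 0) (nat_lit 2957371238) (nat_lit 380) (nat_lit 1644372216) (nat_lit 456) (nat_lit 6560639232) (nat_lit 104) (nat_lit 5) (nat_lit 109) (nat_lit 5) (nat_lit 110) (nat_lit 5) (nat_lit 359) (nat_lit 288) (nat_lit 253)) (XT.lf (nat_lit 0) (nat_lit 2459954506) (nat_lit 304) (nat_lit 7422728528) (nat_lit 380) (nat_lit 1474059550) (nat_lit 100) (nat_lit 5) (nat_lit 104) (nat_lit 5) (nat_lit 105) (nat_lit 5) (nat_lit 360) (nat_lit 288) (nat_lit 252))) (XT.nd (nat_lit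 78) (nat_lit 684) (nat_lit 0) (XT.lf (nat_lit 0) (nat_lit 1857074472) (nat_lit 304) (nat_lit 1852781684) (nat_lit 380) (nat_lit 7846729284) (nat_lit 95) (nat_lit 5) (nat_lit 99) (nat_lit 5) (nat_lit 100) (nat_lit 5) (nat_lit 361) (nat_lit 288) (nat_lit 251)) (XT.nd (nat_lit 78) (nat_lit 380) (nat_lit 0) (XT.lf (nat_lit 0) (nat_lit 1141555112) (nat_lit 304) (nat_lit 7897552945) (nat_lit 380) (nat_lit 2722946512) (nat_lit 91) (nat_lit 5) (nat_lit 95) (nat_lit 5) (nat_lit 96) (nat_lit 5) (nat_lit 362) (nat_lit 288) (nat_lit 250)) (XT.lf (nat_lit 0) (nat_lit 311894925) (nat_lit 304) (nat_lit 2207168913) (nat_lit 380) (nat_lit 9454353536) (nat_lit 86) (nat_lit 5) (nat_lit 90) (nat_lit 5) (nat_lit 91) (nat_lit 5) (nat_lit 363) (nat_lit 288) (nat_lit 249)))))) (XT.nd (nat_lit 390) (nat_lit 1064) (nat_lit 0) (XT.nd (nat_lit 156) (nat_lit 912) (nat_lit 0) (XT.nd (nat_lit 78) (nat_lit 304) (nat_lit 0) (XT.lf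 (nat_lit 0) (nat_lit 7896415865) (nat_lit 380) (nat_lit 644691851) (nat_lit 76) (nat_lit 3649372904) (nat_lit 86) (nat_lit 5) (nat_lit 91) (nat_lit 5) (nat_lit 87) (nat_lit 5) (nat_lit 364) (nat_lit 288) (nat_lit 248)) (XT.lf (nat_lit 0) (nat_lit 1012964667) (nat_lit 304) (nat_lit 1718838129) (nat_lit 76) (nat_lit 9682033950) (nat_lit 82) (nat_lit 5) (nat_lit 86) (nat_lit 5) (nat_lit 83) (nat_lit 5) (nat_lit 365) (nat_lit 288) (nat_lit 247))) (XT.nd (nat_lit 78) (nat_lit 608) (nat_lit 0) (XT.lf (nat_lit 0) (nat_lit 6432124432) (nat_lit 380) (nat_lit 2951895922) (nat_lit 76) (nat_lit 3259099787) (nat_lit 78) (nat_lit 5) (nat_lit 83) (nat_lit 5) (nat_lit 79) (nat_lit 5) (nat_lit 366) (nat_lit 288) (nat_lit 246)) (XT.nd (nat_lit 78) (nat_lit 380) (nat_lit 0) (XT.lf (nat_lit 0) (nat_lit 8557294892) (nat_lit 228) (nat_lit 3465305923) (nat_lit 304) (nat_lit 856525263) (nat_lit 75) (nat_lit 5) (nat_lit 78)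 (nat_lit 5) (nat_lit 79) (nat_lit 5) (nat_lit 367) (nat_lit 288) (nat_lit 245)) (XT.lf (nat_lit 0) (nat_lit 4606360047) (nat_lit 380) (nat_lit 5867529244) (nat_lit 76) (nat_lit 2647558361) (nat_lit 70) (nat_lit 5) (nat_lit 75) (nat_lit 5) (nat_lit 71) (nat_lit 5) (nat_lit 368) (nat_lit 288) (nat_lit 244))))) (XT.nd (nat_lit 156) (nat_lit 532) (nat_lit 0) (XT.nd (nat_lit 78) (nat_lit 304) (nat_lit 0) (XT.lf (nat_lit 0) (nat_lit 5789626337) (nat_lit 228) (nat_lit 4447405996) (nat_lit 304) (nat_lit 3133600005) (nat_lit 67) (nat_lit 5) (nat_lit 70) (nat_lit 5) (nat_lit 71) (nat_lit 5) (nat_lit 369) (nat_lit 288) (nat_lit 243)) (XT.lf (nat_lit 0) (nat_lit 2382592972) (nat_lit 304) (nat_lit 9471593004) (nat_lit 76) (nat_lit 1772713143) (nat_lit 63) (nat_lit 5) (nat_lit 67) (nat_lit 5) (nat_lit 64) (nat_lit 5) (nat_lit 370) (nat_lit 288) (nat_lit 242))) (XT.nd (nat_lit 78) (nat_lit 304) (nat_lit 0) (XT.lf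 (nat_lit 0) (nat_lit 2315945485) (nat_lit 228) (nat_lit 5729668709) (nat_lit 304) (nat_lit 5844363250) (nat_lit 60) (nat_lit 5) (nat_lit 63) (nat_lit 5) (nat_lit 64) (nat_lit 5) (nat_lit 371) (nat_lit 288) (nat_lit 241)) (XT.nd (nat_lit 78) (nat_lit 76) (nat_lit 0) (XT.lf (nat_lit 0) (nat_lit 306721336) (nat_lit 228) (nat_lit 13570382084) (nat_lit 304) (nat_lit 283888804) (nat_lit 57) (nat_lit 5) (nat_lit 60) (nat_lit 5) (nat_lit 61) (nat_lit 5) (nat_lit 372) (nat_lit 288) (nat_lit 240)) (XT.lf (nat_lit 0) (nat_lit 5418337250) (nat_lit 304) (nat_lit 1929644217) (nat_lit 76) (nat_lit 7090537461) (nat_lit 56) (nat_lit 5) (nat_lit 60) (nat_lit 5) (nat_lit 57) (nat_lit 5) (nat_lit 373) (nat_lit 288) (nat_lit 239))))))))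
noncomputable def xc27 : XT := (XT.nd (nat_lit 43290) (nat_lit 0) (nat_lit 11324) (XT.nd (nat_lit 702) (nat_lit 608) (nat_lit 0) (XT.nd (nat_lit 312) (nat_lit 836) (nat_lit 0) (XT.nd (nat_lit 156) (nat_lit 380) (nat_lit 0) (XT.nd (nat_lit 78) (nat_lit 304) (nat_lit 0) (XT.lf (nat_lit 0) (nat_lit 10371092604) (nat_lit 228) (nat_lit 915167682) (nat_lit 304) (nat_lit 3438118337) (nat_lit 53) (nat_lit 5) (nat_lit 56) (nat_lit 5) (nat_lit 57) (nat_lit 5) (nat_lit 374) (nat_lit 288) (nat_lit 238)) (XT.lf (nat_lit 0) (nat_lit 2315592025) (nat_lit 304) (nat_lit 7031823097) (nat_lit 76) (nat_lit 5670422616) (nat_lit 49) (nat_lit 5) (nat_lit 53) (nat_lit 5) (nat_lit 50) (nat_lit 5) (nat_lit 375) (nat_lit 288) (nat_lit 237))) (XT.nd (nat_lit 78) (nat_lit 228) (nat_lit 0) (XT.lf (nat_lit 0) (nat_lit 5362618810) (nat_lit 152) (nat_lit 2836367128) (nat_lit 228) (nat_lit 7120597881) (nat_lit 47) (nat_lit 5) (nat_lit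 49) (nat_lit 5) (nat_lit 50) (nat_lit 5) (nat_lit 376) (nat_lit 288) (nat_lit 236)) (XT.lf (nat_lit 0) (nat_lit 2489770200) (nat_lit 228) (nat_lit 11792179531) (nat_lit 304) (nat_lit 1347984165) (nat_lit 44) (nat_lit 5) (nat_lit 47) (nat_lit 5) (nat_lit 48) (nat_lit 5) (nat_lit 377) (nat_lit 288) (nat_lit 235)))) (XT.nd (nat_lit 156) (nat_lit 608) (nat_lit 0) (XT.nd (nat_lit 78) (nat_lit 152) (nat_lit 0) (XT.lf (nat_lit 0) (nat_lit 4558966289) (nat_lit 304) (nat_lit 663516668) (nat_lit 76) (nat_lit 10726097642) (nat_lit 43) (nat_lit 5) (nat_lit 47) (nat_lit 5) (nat_lit 44) (nat_lit 5) (nat_lit 378) (nat_lit 288) (nat_lit 234)) (XT.lf (nat_lit 0) (nat_lit 10651116267) (nat_lit 228) (nat_lit 4056742464) (nat_lit 76) (nat_lit 1568235661) (nat_lit 41) (nat_lit 5) (nat_lit 44) (nat_lit 5) (nat_lit 42) (nat_lit 5) (nat_lit 379) (nat_lit 288) (nat_lit 233))) (XT.nd (nat_lit 78) (nat_lit 304) (nat_lit 0)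 (XT.lf (nat_lit 0) (nat_lit 343015055) (nat_lit 304) (nat_lit 7757494844) (nat_lit 76) (nat_lit 8512204170) (nat_lit 37) (nat_lit 5) (nat_lit 41) (nat_lit 5) (nat_lit 38) (nat_lit 5) (nat_lit 380) (nat_lit 288) (nat_lit 232)) (XT.nd (nat_lit 78) (nat_lit 152) (nat_lit 0) (XT.lf (nat_lit 0) (nat_lit 5174028905) (nat_lit 152) (nat_lit 1239356148) (nat_lit 228) (nat_lit 10545319574) (nat_lit 35) (nat_lit 5) (nat_lit 37) (nat_lit 5) (nat_lit 38) (nat_lit 5) (nat_lit 381) (nat_lit 288) (nat_lit 231)) (XT.lf (nat_lit 0) (nat_lit 1156224722) (nat_lit 152) (nat_lit 11546787759) (nat_lit 228) (nat_lit 4611330252) (nat_lit 33) (nat_lit 5) (nat_lit 35) (nat_lit 5) (nat_lit 36) (nat_lit 5) (nat_lit 382) (nat_lit 288) (nat_lit 230)))))) (XT.nd (nat_lit 42198) (nat_lit 0) (nat_lit 26144) (XT.nd (nat_lit 156) (nat_lit 380) (nat_lit 0) (XT.nd (nat_lit 78) (nat_lit 152) (nat_lit 0) (XT.lf (nat_lit 0) (nat_lit 1509250410)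 (nat_lit 228) (nat_lit 3156452297) (nat_lit 76) (nat_lit 13014197582) (nat_lit 32) (nat_lit 5) (nat_lit 35) (nat_lit 5) (nat_lit 33) (nat_lit 5) (nat_lit 383) (nat_lit 288) (nat_lit 229)) (XT.lf (nat_lit 0) (nat_lit 7775039921) (nat_lit 228) (nat_lit 7835499260) (nat_lit 76) (nat_lit 2444800887) (nat_lit 30) (nat_lit 5) (nat_lit 33) (nat_lit 5) (nat_lit 31) (nat_lit 5) (nat_lit 384) (nat_lit 288) (nat_lit 228))) (XT.nd (nat_lit 78) (nat_lit 228) (nat_lit 0) (XT.lf (nat_lit 0) (nat_lit 5538662097) (nat_lit 152) (nat_lit 8720947647) (nat_lit 228) (nat_lit 4181826816) (nat_lit 28) (nat_lit 5) (nat_lit 30) (nat_lit 5) (nat_lit 31) (nat_lit 5) (nat_lit 385) (nat_lit 288) (nat_lit 227)) (XT.nd (nat_lit 41886) (nat_lit 0) (nat_lit 33896) (XT.lf (nat_lit 0) (nat_lit 474720900) (nat_lit 152) (nat_lit 1596637403) (nat_lit 228) (nat_lit 16767508309) (nat_lit 25) (nat_lit 5) (nat_lit 27) (nat_lit 5) (nat_lit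 28) (nat_lit 5) (nat_lit 386) (nat_lit 288) (nat_lit 226)) (XT.lf (nat_lit 0) (nat_lit 605643581) (nat_lit 1444) (nat_lit 1442054586) (nat_lit 1444) (nat_lit 1442054586) (nat_lit 471) (nat_lit 4) (nat_lit 490) (nat_lit 5) (nat_lit 490) (nat_lit 4) (nat_lit 322) (nat_lit 289) (nat_lit 289))))) (XT.nd (nat_lit 156) (nat_lit 4560) (nat_lit 0) (XT.nd (nat_lit 78) (nat_lit 1596) (nat_lit 0) (XT.lf (nat_lit 0) (nat_lit 1342758145) (nat_lit 1520) (nat_lit 659818217) (nat_lit 1596) (nat_lit 5028105113) (nat_lit 450) (nat_lit 5) (nat_lit 470) (nat_lit 5) (nat_lit 471) (nat_lit 4) (nat_lit 323) (nat_lit 289) (nat_lit 288)) (XT.lf (nat_lit 0) (nat_lit 1508380780) (nat_lit 1596) (nat_lit 5399131148) (nat_lit 1596) (nat_lit 177385860) (nat_lit 429) (nat_lit 4) (nat_lit 450) (nat_lit 5) (nat_lit 450) (nat_lit 4) (nat_lit 324) (nat_lit 289) (nat_lit 287))) (XT.nd (nat_lit 78) (nat_lit 2812) (nat_lit 0) (XT.lf (nat_lit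 0) (nat_lit 1700432565) (nat_lit 1672) (nat_lit 2962708599) (nat_lit 1748) (nat_lit 2478922004) (nat_lit 406) (nat_lit 5) (nat_lit 428) (nat_lit 5) (nat_lit 429) (nat_lit 4) (nat_lit 325) (nat_lit 289) (nat_lit 286)) (XT.nd (nat_lit 78) (nat_lit 988) (nat_lit 0) (XT.lf (nat_lit 0) (nat_lit 1935871329) (nat_lit 1748) (nat_lit 383766111) (nat_lit 1824) (nat_lit 4882935234) (nat_lit 382) (nat_lit 5) (nat_lit 405) (nat_lit 5) (nat_lit 406) (nat_lit 5) (nat_lit 326) (nat_lit 289) (nat_lit 285)) (XT.lf (nat_lit 0) (nat_lit 2197650410) (nat_lit 988) (nat_lit 4955986093) (nat_lit 1064) (nat_lit 112520625) (nat_lit 369) (nat_lit 5) (nat_lit 382) (nat_lit 5) (nat_lit 383) (nat_lit 4) (nat_lit 327) (nat_lit 289) (nat_lit 284))))))) (XT.nd (nat_lit 780) (nat_lit 6612) (nat_lit 0) (XT.nd (nat_lit 390) (nat_lit 3800) (nat_lit 0) (XT.nd (nat_lit 156) (nat_lit 2508) (nat_lit 0) (XT.nd (nat_lit 78) (nat_lit 912) (nat_lit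 0) (XT.lf (nat_lit 0) (nat_lit 2481452752) (nat_lit 912) (nat_lit 2172205709) (nat_lit 988) (nat_lit 2679141110) (nat_lit 356) (nat_lit 5) (nat_lit 368) (nat_lit 5) (nat_lit 369) (nat_lit 5) (nat_lit 328) (nat_lit 289) (nat_lit 283)) (XT.lf (nat_lit 0) (nat_lit 2052402077) (nat_lit 912) (nat_lit 4603273160) (nat_lit 76) (nat_lit 747135574) (nat_lit 344) (nat_lit 5) (nat_lit 356) (nat_lit 5) (nat_lit 345) (nat_lit 5) (nat_lit 329) (nat_lit 289) (nat_lit 282))) (XT.nd (nat_lit 78) (nat_lit 1672) (nat_lit 0) (XT.lf (nat_lit 0) (nat_lit 3136423022) (nat_lit 836) (nat_lit 3687436719) (nat_lit 912) (nat_lit 652100820) (nat_lit 333) (nat_lit 5) (nat_lit 344) (nat_lit 5) (nat_lit 345) (nat_lit 5) (nat_lit 330) (nat_lit 289) (nat_lit 281)) (XT.nd (nat_lit 78) (nat_lit 836) (nat_lit 0) (XT.lf (nat_lit 0) (nat_lit 3495461295) (nat_lit 760) (nat_lit 559086081) (nat_lit 836) (nat_lit 3497843446) (nat_lit 322)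 (nat_lit 5) (nat_lit 332) (nat_lit 5) (nat_lit 333) (nat_lit 5) (nat_lit 331) (nat_lit 289) (nat_lit 280)) (XT.lf (nat_lit 0) (nat_lit 1188683466) (nat_lit 836) (nat_lit 3760508393) (nat_lit 76) (nat_lit 2682889515) (nat_lit 311) (nat_lit 5) (nat_lit 322) (nat_lit 5) (nat_lit 312) (nat_lit 5) (nat_lit 332) (nat_lit 289) (nat_lit 279))))) (XT.nd (nat_lit 156) (nat_lit 2204) (nat_lit 0) (XT.nd (nat_lit 78) (nat_lit 836) (nat_lit 0) (XT.lf (nat_lit 0) (nat_lit 4265182263) (nat_lit 760) (nat_lit 1635460318) (nat_lit 836) (nat_lit 1814480584) (nat_lit 301) (nat_lit 5) (nat_lit 311) (nat_lit 5) (nat_lit 312) (nat_lit 5) (nat_lit 333) (nat_lit 289) (nat_lit 278)) (XT.lf (nat_lit 0) (nat_lit 2857426620) (nat_lit 836) (nat_lit 3131307396) (nat_lit 76) (nat_lit 1812748317) (nat_lit 290) (nat_lit 5) (nat_lit 301) (nat_lit 5) (nat_lit 291) (nat_lit 5) (nat_lit 334) (nat_lit 289) (nat_lit 277))) (XT.nd (nat_lit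 78) (nat_lit 1520) (nat_lit 0) (XT.lf (nat_lit 0) (nat_lit 5091929463) (nat_lit 684) (nat_lit 2498073918) (nat_lit 760) (nat_lit 301350523) (nat_lit 281) (nat_lit 5) (nat_lit 290) (nat_lit 5) (nat_lit 291) (nat_lit 5) (nat_lit 335) (nat_lit 289) (nat_lit 276)) (XT.nd (nat_lit 78) (nat_lit 760) (nat_lit 0) (XT.lf (nat_lit 0) (nat_lit 4365935974) (nat_lit 760) (nat_lit 2469934353) (nat_lit 76) (nat_lit 1148649844) (nat_lit 271) (nat_lit 5) (nat_lit 281) (nat_lit 5) (nat_lit 272) (nat_lit 5) (nat_lit 336) (nat_lit 289) (nat_lit 275)) (XT.lf (nat_lit 0) (nat_lit 1030316293) (nat_lit 760) (nat_lit 2134792122) (nat_lit 76) (nat_lit 4916132705) (nat_lit 261) (nat_lit 5) (nat_lit 271) (nat_lit 5) (nat_lit 262) (nat_lit 5) (nat_lit 337) (nat_lit 289) (nat_lit 274)))))) (XT.nd (nat_lit 390) (nat_lit 3344) (nat_lit 0) (XT.nd (nat_lit 156) (nat_lit 1900) (nat_lit 0) (XT.nd (nat_lit 78) (nat_lit 684) (nat_lit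 0) (XT.lf (nat_lit 0) (nat_lit 5715972289) (nat_lit 760) (nat_lit 1799331249) (nat_lit 76) (nat_lit 666209749) (nat_lit 252) (nat_lit 5) (nat_lit 262) (nat_lit 5) (nat_lit 253) (nat_lit 5) (nat_lit 338) (nat_lit 289) (nat_lit 273)) (XT.lf (nat_lit 0) (nat_lit 2193368320) (nat_lit 684) (nat_lit 1473595158) (nat_lit 76) (nat_lit 4618279846) (nat_lit 243) (nat_lit 5) (nat_lit 252) (nat_lit 5) (nat_lit 244) (nat_lit 5) (nat_lit 339) (nat_lit 289) (nat_lit 272))) (XT.nd (nat_lit 78) (nat_lit 1292) (nat_lit 0) (XT.lf (nat_lit 0) (nat_lit 6907775322) (nat_lit 684) (nat_lit 1143375052) (nat_lit 76) (nat_lit 341677055) (nat_lit 235) (nat_lit 5) (nat_lit 244) (nat_lit 5) (nat_lit 236) (nat_lit 5) (nat_lit 340) (nat_lit 289) (nat_lit 271)) (XT.nd (nat_lit 78) (nat_lit 608) (nat_lit 0) (XT.lf (nat_lit 0) (nat_lit 3191111266) (nat_lit 684) (nat_lit 838385482) (nat_lit 76) (nat_lit 4474291296) (nat_lit 226) (nat_lit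 5) (nat_lit 235) (nat_lit 5) (nat_lit 227) (nat_lit 5) (nat_lit 341) (nat_lit 289) (nat_lit 270)) (XT.lf (nat_lit 0) (nat_lit 7940024031) (nat_lit 684) (nat_lit 527117320) (nat_lit 76) (nat_lit 151735655) (nat_lit 218) (nat_lit 5) (nat_lit 227) (nat_lit 5) (nat_lit 219) (nat_lit 5) (nat_lit 342) (nat_lit 289) (nat_lit 269))))) (XT.nd (nat_lit 156) (nat_lit 1672) (nat_lit 0) (XT.nd (nat_lit 78) (nat_lit 1064) (nat_lit 0) (XT.lf (nat_lit 0) (nat_lit 4021297750) (nat_lit 608) (nat_lit 254965159) (nat_lit 76) (nat_lit 4461050320) (nat_lit 210) (nat_lit 5) (nat_lit 218) (nat_lit 5) (nat_lit 211) (nat_lit 5) (nat_lit 343) (nat_lit 289) (nat_lit 268)) (XT.lf (nat_lit 0) (nat_lit 23266210) (nat_lit 532) (nat_lit 8786668080) (nat_lit 608) (nat_lit 50189391) (nat_lit 196) (nat_lit 5) (nat_lit 203) (nat_lit 5) (nat_lit 204) (nat_lit 5) (nat_lit 344) (nat_lit 289) (nat_lit 267))) (XT.nd (nat_lit 78) (nat_lit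 1064) (nat_lit 0) (XT.lf (nat_lit 0) (nat_lit 252619715) (nat_lit 532) (nat_lit 4429039840) (nat_lit 608) (nat_lit 4304615789) (nat_lit 188) (nat_lit 5) (nat_lit 195) (nat_lit 5) (nat_lit 196) (nat_lit 5) (nat_lit 345) (nat_lit 289) (nat_lit 266)) (XT.nd (nat_lit 78) (nat_lit 532) (nat_lit 0) (XT.lf (nat_lit 0) (nat_lit 393327646) (nat_lit 532) (nat_lit 8634579007) (nat_lit 76) (nat_lit 89072012) (nat_lit 181) (nat_lit 5) (nat_lit 188) (nat_lit 5) (nat_lit 182) (nat_lit 5) (nat_lit 346) (nat_lit 289) (nat_lit 265)) (XT.lf (nat_lit 0) (nat_lit 653805716) (nat_lit 532) (nat_lit 4512071076) (nat_lit 608) (nat_lit 4085353775) (nat_lit 174) (nat_lit 5) (nat_lit 181) (nat_lit 5) (nat_lit 182) (nat_lit 5) (nat_lit 347) (nat_lit 289) (nat_lit 264))))))))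
noncomputable def xc28 : XT := (XT.nd (nat_lit 1482) (nat_lit 3800) (nat_lit 0) (XT.nd (nat_lit 702) (nat_lit 3192) (nat_lit 0) (XT.nd (nat_lit 312) (nat_lit 2128) (nat_lit 0) (XT.nd (nat_lit 156) (nat_lit 988) (nat_lit 0) (XT.nd (nat_lit 78) (nat_lit 456) (nat_lit 0) (XT.lf (nat_lit 0) (nat_lit 648074464) (nat_lit 532) (nat_lit 8573886498) (nat_lit 76) (nat_lit 168195666) (nat_lit 167) (nat_lit 5) (nat_lit 174) (nat_lit 5) (nat_lit 168) (nat_lit 5) (nat_lit 348) (nat_lit 289) (nat_lit 263)) (XT.lf (nat_lit 0) (nat_lit 913446097) (nat_lit 456) (nat_lit 4551149040) (nat_lit 532) (nat_lit 4068219934) (nat_lit 161) (nat_lit 5) (nat_lit 167) (nat_lit 5) (nat_lit 168) (nat_lit 5) (nat_lit 349) (nat_lit 289) (nat_lit 262))) (XT.nd (nat_lit 78) (nat_lit 456) (nat_lit 0) (XT.lf (nat_lit 0) (nat_lit 705737544) (nat_lit 532) (nat_lit 8687944348) (nat_lit 76) (nat_lit 286616088) (nat_lit 154) (nat_lit 5) (nat_lit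 161) (nat_lit 5) (nat_lit 155) (nat_lit 5) (nat_lit 350) (nat_lit 289) (nat_lit 261)) (XT.lf (nat_lit 0) (nat_lit 997278650) (nat_lit 456) (nat_lit 4570909181) (nat_lit 532) (nat_lit 4263502606) (nat_lit 148) (nat_lit 5) (nat_lit 154) (nat_lit 5) (nat_lit 155) (nat_lit 5) (nat_lit 351) (nat_lit 289) (nat_lit 260)))) (XT.nd (nat_lit 156) (nat_lit 1216) (nat_lit 0) (XT.nd (nat_lit 78) (nat_lit 456) (nat_lit 0) (XT.lf (nat_lit 0) (nat_lit 555315113) (nat_lit 456) (nat_lit 9012974593) (nat_lit 76) (nat_lit 419807614) (nat_lit 142) (nat_lit 5) (nat_lit 148) (nat_lit 5) (nat_lit 143) (nat_lit 5) (nat_lit 352) (nat_lit 289) (nat_lit 259)) (XT.lf (nat_lit 0) (nat_lit 868177477) (nat_lit 456) (nat_lit 4596773461) (nat_lit 532) (nat_lit 4683629497) (nat_lit 136) (nat_lit 5) (nat_lit 142) (nat_lit 5) (nat_lit 143) (nat_lit 5) (nat_lit 353) (nat_lit 289) (nat_lit 258))) (XT.nd (nat_lit 78) (nat_lit 760) (nat_lit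 0) (XT.lf (nat_lit 0) (nat_lit 183636943) (nat_lit 456) (nat_lit 9588308238) (nat_lit 76) (nat_lit 542368226) (nat_lit 130) (nat_lit 5) (nat_lit 136) (nat_lit 5) (nat_lit 131) (nat_lit 5) (nat_lit 354) (nat_lit 289) (nat_lit 257)) (XT.nd (nat_lit 78) (nat_lit 380) (nat_lit 0) (XT.lf (nat_lit 0) (nat_lit 485761986) (nat_lit 380) (nat_lit 4655194615) (nat_lit 456) (nat_lit 5343318093) (nat_lit 125) (nat_lit 5) (nat_lit 130) (nat_lit 5) (nat_lit 131) (nat_lit 5) (nat_lit 355) (nat_lit 289) (nat_lit 256)) (XT.lf (nat_lit 0) (nat_lit 200126732) (nat_lit 380) (nat_lit 10029150801) (nat_lit 456) (nat_lit 430439660) (nat_lit 120) (nat_lit 5) (nat_lit 125) (nat_lit 5) (nat_lit 126) (nat_lit 5) (nat_lit 356) (nat_lit 289) (nat_lit 255)))))) (XT.nd (nat_lit 390) (nat_lit 1596) (nat_lit 0) (XT.nd (nat_lit 156) (nat_lit 1140) (nat_lit 0) (XT.nd (nat_lit 78) (nat_lit 380) (nat_lit 0) (XT.lf (nat_lit 0) (nat_lit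 4581145084) (nat_lit 456) (nat_lit 191484273) (nat_lit 76) (nat_lit 6066978252) (nat_lit 119) (nat_lit 5) (nat_lit 125) (nat_lit 5) (nat_lit 120) (nat_lit 5) (nat_lit 357) (nat_lit 289) (nat_lit 254)) (XT.lf (nat_lit 0) (nat_lit 9724316111) (nat_lit 456) (nat_lit 640016760) (nat_lit 76) (nat_lit 660789112) (nat_lit 114) (nat_lit 5) (nat_lit 120) (nat_lit 5) (nat_lit 115) (nat_lit 5) (nat_lit 358) (nat_lit 289) (nat_lit 253))) (XT.nd (nat_lit 78) (nat_lit 760) (nat_lit 0) (XT.lf (nat_lit 0) (nat_lit 3770752673) (nat_lit 380) (nat_lit 1203409444) (nat_lit 76) (nat_lit 6241268479) (nat_lit 109) (nat_lit 5) (nat_lit 114) (nat_lit 5) (nat_lit 110) (nat_lit 5) (nat_lit 359) (nat_lit 289) (nat_lit 252)) (XT.nd (nat_lit 78) (nat_lit 380) (nat_lit 0) (XT.lf (nat_lit 0) (nat_lit 8965015455) (nat_lit 456) (nat_lit 1844631874) (nat_lit 76) (nat_lit 601888483) (nat_lit 104) (nat_lit 5) (nat_lit 110) (nat_lit 5)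 (nat_lit 105) (nat_lit 5) (nat_lit 360) (nat_lit 289) (nat_lit 251)) (XT.lf (nat_lit 0) (nat_lit 2685269858) (nat_lit 380) (nat_lit 2608551602) (nat_lit 76) (nat_lit 6318992290) (nat_lit 99) (nat_lit 5) (nat_lit 104) (nat_lit 5) (nat_lit 100) (nat_lit 5) (nat_lit 361) (nat_lit 289) (nat_lit 250))))) (XT.nd (nat_lit 156) (nat_lit 912) (nat_lit 0) (XT.nd (nat_lit 78) (nat_lit 380) (nat_lit 0) (XT.lf (nat_lit 0) (nat_lit 7927517063) (nat_lit 380) (nat_lit 3470982871) (nat_lit 76) (nat_lit 421533927) (nat_lit 95) (nat_lit 5) (nat_lit 100) (nat_lit 5) (nat_lit 96) (nat_lit 5) (nat_lit 362) (nat_lit 289) (nat_lit 249)) (XT.lf (nat_lit 0) (nat_lit 1300335545) (nat_lit 380) (nat_lit 4464220304) (nat_lit 76) (nat_lit 6268292998) (nat_lit 90) (nat_lit 5) (nat_lit 95) (nat_lit 5) (nat_lit 91) (nat_lit 5) (nat_lit 363) (nat_lit 289) (nat_lit 248))) (XT.nd (nat_lit 78) (nat_lit 608) (nat_lit 0) (XT.lf (nat_lit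 0) (nat_lit 6586141818) (nat_lit 380) (nat_lit 5579148954) (nat_lit 76) (nat_lit 86462297) (nat_lit 86) (nat_lit 5) (nat_lit 91) (nat_lit 5) (nat_lit 87) (nat_lit 5) (nat_lit 364) (nat_lit 289) (nat_lit 247)) (XT.nd (nat_lit 78) (nat_lit 380) (nat_lit 0) (XT.lf (nat_lit 0) (nat_lit 5640485956) (nat_lit 228) (nat_lit 6419023171) (nat_lit 304) (nat_lit 417155386) (nat_lit 83) (nat_lit 5) (nat_lit 86) (nat_lit 5) (nat_lit 87) (nat_lit 5) (nat_lit 365) (nat_lit 289) (nat_lit 246)) (XT.lf (nat_lit 0) (nat_lit 4469697526) (nat_lit 304) (nat_lit 444999615) (nat_lit 380) (nat_lit 7793169802) (nat_lit 78) (nat_lit 5) (nat_lit 82) (nat_lit 5) (nat_lit 83) (nat_lit 5) (nat_lit 366) (nat_lit 289) (nat_lit 245))))))) (XT.nd (nat_lit 780) (nat_lit 1596) (nat_lit 0) (XT.nd (nat_lit 390) (nat_lit 1064) (nat_lit 0) (XT.nd (nat_lit 156) (nat_lit 532) (nat_lit 0) (XT.nd (nat_lit 78) (nat_lit 380) (nat_lit 0) (XT.lf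 (nat_lit 0) (nat_lit 3143286237) (nat_lit 228) (nat_lit 7287110812) (nat_lit 304) (nat_lit 2514980388) (nat_lit 75) (nat_lit 5) (nat_lit 78) (nat_lit 5) (nat_lit 79) (nat_lit 5) (nat_lit 367) (nat_lit 289) (nat_lit 244)) (XT.lf (nat_lit 0) (nat_lit 1669577674) (nat_lit 304) (nat_lit 1209993337) (nat_lit 380) (nat_lit 10310153646) (nat_lit 70) (nat_lit 5) (nat_lit 74) (nat_lit 5) (nat_lit 75) (nat_lit 5) (nat_lit 368) (nat_lit 289) (nat_lit 243))) (XT.nd (nat_lit 78) (nat_lit 304) (nat_lit 0) (XT.lf (nat_lit 0) (nat_lit 10310945) (nat_lit 228) (nat_lit 8418791842) (nat_lit 304) (nat_lit 5011437710) (nat_lit 67) (nat_lit 5) (nat_lit 70) (nat_lit 5) (nat_lit 71) (nat_lit 5) (nat_lit 369) (nat_lit 289) (nat_lit 242)) (XT.nd (nat_lit 78) (nat_lit 228) (nat_lit 0) (XT.lf (nat_lit 0) (nat_lit 455329218) (nat_lit 304) (nat_lit 1782764271) (nat_lit 76) (nat_lit 11460446656) (nat_lit 66) (nat_lit 5) (nat_lit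 70) (nat_lit 5) (nat_lit 67) (nat_lit 5) (nat_lit 370) (nat_lit 289) (nat_lit 241)) (XT.lf (nat_lit 0) (nat_lit 6042150629) (nat_lit 304) (nat_lit 3791347551) (nat_lit 76) (nat_lit 4129651997) (nat_lit 63) (nat_lit 5) (nat_lit 67) (nat_lit 5) (nat_lit 64) (nat_lit 5) (nat_lit 371) (nat_lit 289) (nat_lit 240))))) (XT.nd (nat_lit 156) (nat_lit 532) (nat_lit 0) (XT.nd (nat_lit 78) (nat_lit 304) (nat_lit 0) (XT.lf (nat_lit 0) (nat_lit 8253051899) (nat_lit 228) (nat_lit 3555599942) (nat_lit 304) (nat_lit 2426820360) (nat_lit 60) (nat_lit 5) (nat_lit 63) (nat_lit 5) (nat_lit 64) (nat_lit 5) (nat_lit 372) (nat_lit 289) (nat_lit 239)) (XT.lf (nat_lit 0) (nat_lit 3206880103) (nat_lit 304) (nat_lit 8393316080) (nat_lit 76) (nat_lit 2915020724) (nat_lit 56) (nat_lit 5) (nat_lit 60) (nat_lit 5) (nat_lit 57) (nat_lit 5) (nat_lit 373) (nat_lit 289) (nat_lit 238))) (XT.nd (nat_lit 78) (nat_lit 304) (nat_lit 0) (XT.lf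 (nat_lit 0) (nat_lit 3765427849) (nat_lit 228) (nat_lit 5233548553) (nat_lit 304) (nat_lit 5803623653) (nat_lit 53) (nat_lit 5) (nat_lit 56) (nat_lit 5) (nat_lit 57) (nat_lit 5) (nat_lit 374) (nat_lit 289) (nat_lit 237)) (XT.nd (nat_lit 78) (nat_lit 76) (nat_lit 0) (XT.lf (nat_lit 0) (nat_lit 1201551859) (nat_lit 228) (nat_lit 13771007521) (nat_lit 304) (nat_lit 125904474) (nat_lit 50) (nat_lit 5) (nat_lit 53) (nat_lit 5) (nat_lit 54) (nat_lit 5) (nat_lit 375) (nat_lit 289) (nat_lit 236)) (XT.lf (nat_lit 0) (nat_lit 5692223979) (nat_lit 304) (nat_lit 1626495477) (nat_lit 76) (nat_lit 8082851553) (nat_lit 49) (nat_lit 5) (nat_lit 53) (nat_lit 5) (nat_lit 50) (nat_lit 5) (nat_lit 376) (nat_lit 289) (nat_lit 235)))))) (XT.nd (nat_lit 390) (nat_lit 684) (nat_lit 0) (XT.nd (nat_lit 156) (nat_lit 456) (nat_lit 0) (XT.nd (nat_lit 78) (nat_lit 304) (nat_lit 0) (XT.lf (nat_lit 0) (nat_lit 11048662180) (nat_lit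 152) (nat_lit 643005393) (nat_lit 228) (nat_lit 4021930123) (nat_lit 47) (nat_lit 5) (nat_lit 49) (nat_lit 5) (nat_lit 50) (nat_lit 5) (nat_lit 377) (nat_lit 289) (nat_lit 234)) (XT.lf (nat_lit 0) (nat_lit 1853729869) (nat_lit 304) (nat_lit 7996418787) (nat_lit 76) (nat_lit 6183776065) (nat_lit 43) (nat_lit 5) (nat_lit 47) (nat_lit 5) (nat_lit 44) (nat_lit 5) (nat_lit 378) (nat_lit 289) (nat_lit 233))) (XT.nd (nat_lit 78) (nat_lit 304) (nat_lit 0) (XT.lf (nat_lit 0) (nat_lit 4746730358) (nat_lit 152) (nat_lit 3109866689) (nat_lit 228) (nat_lit 8506632858) (nat_lit 41) (nat_lit 5) (nat_lit 43) (nat_lit 5) (nat_lit 44) (nat_lit 5) (nat_lit 379) (nat_lit 289) (nat_lit 232)) (XT.nd (nat_lit 78) (nat_lit 76) (nat_lit 0) (XT.lf (nat_lit 0) (nat_lit 1165353022) (nat_lit 228) (nat_lit 12900359565) (nat_lit 304) (nat_lit 2636189715) (nat_lit 38) (nat_lit 5) (nat_lit 41) (nat_lit 5) (nat_lit 42) (nat_lit 5)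 (nat_lit 380) (nat_lit 289) (nat_lit 231)) (XT.lf (nat_lit 0) (nat_lit 3405536476) (nat_lit 304) (nat_lit 2707045971) (nat_lit 76) (nat_lit 10936922389) (nat_lit 37) (nat_lit 5) (nat_lit 41) (nat_lit 5) (nat_lit 38) (nat_lit 5) (nat_lit 381) (nat_lit 289) (nat_lit 230))))) (XT.nd (nat_lit 156) (nat_lit 380) (nat_lit 0) (XT.nd (nat_lit 78) (nat_lit 152) (nat_lit 0) (XT.lf (nat_lit 0) (nat_lit 9608861234) (nat_lit 228) (nat_lit 6886282062) (nat_lit 76) (nat_lit 911730845) (nat_lit 35) (nat_lit 5) (nat_lit 38) (nat_lit 5) (nat_lit 36) (nat_lit 5) (nat_lit 382) (nat_lit 289) (nat_lit 229)) (XT.lf (nat_lit 0) (nat_lit 6349485349) (nat_lit 152) (nat_lit 9691763548) (nat_lit 228) (nat_lit 1732866506) (nat_lit 33) (nat_lit 5) (nat_lit 35) (nat_lit 5) (nat_lit 36) (nat_lit 5) (nat_lit 383) (nat_lit 289) (nat_lit 228))) (XT.nd (nat_lit 78) (nat_lit 152) (nat_lit 0) (XT.lf (nat_lit 0) (nat_lit 1819950694) (nat_lit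 152) (nat_lit 2636915624) (nat_lit 228) (nat_lit 13694894309) (nat_lit 30) (nat_lit 5) (nat_lit 32) (nat_lit 5) (nat_lit 33) (nat_lit 5) (nat_lit 384) (nat_lit 289) (nat_lit 227)) (XT.nd (nat_lit 78) (nat_lit 152) (nat_lit 0) (XT.lf (nat_lit 0) (nat_lit 10860669934) (nat_lit 228) (nat_lit 3061783301) (nat_lit 76) (nat_lit 4617023825) (nat_lit 30) (nat_lit 5) (nat_lit 33) (nat_lit 5) (nat_lit 31) (nat_lit 5) (nat_lit 385) (nat_lit 289) (nat_lit 226)) (XT.lf (nat_lit 0) (nat_lit 10632341376) (nat_lit 152) (nat_lit 6856349206) (nat_lit 228) (nat_lit 1449501445) (nat_lit 28) (nat_lit 5) (nat_lit 30) (nat_lit 5) (nat_lit 31) (nat_lit 5) (nat_lit 386) (nat_lit 289) (nat_lit 225))))))))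
noncomputable def xc29 : XT := (XT.nd (nat_lit 1482) (nat_lit 10488) (nat_lit 0) (XT.nd (nat_lit 702) (nat_lit 7904) (nat_lit 0) (XT.nd (nat_lit 312) (nat_lit 7144) (nat_lit 0) (XT.nd (nat_lit 156) (nat_lit 3040) (nat_lit 0) (XT.nd (nat_lit 78) (nat_lit 1444) (nat_lit 0) (XT.lf (nat_lit 0) (nat_lit 575709040) (nat_lit 1292) (nat_lit 1433428410) (nat_lit 1292) (nat_lit 1433428410) (nat_lit 509) (nat_lit 4) (nat_lit 526) (nat_lit 5) (nat_lit 526) (nat_lit 4) (nat_lit 320) (nat_lit 290) (nat_lit 290)) (XT.lf (nat_lit 0) (nat_lit 1127277537) (nat_lit 1368) (nat_lit 836320194) (nat_lit 1444) (nat_lit 4967975301) (nat_lit 490) (nat_lit 5) (nat_lit 508) (nat_lit 5) (nat_lit 509) (nat_lit 4) (nat_lit 321) (nat_lit 290) (nat_lit 289))) (XT.nd (nat_lit 78) (nat_lit 1596) (nat_lit 0) (XT.lf (nat_lit 0) (nat_lit 1141466011) (nat_lit 1444) (nat_lit 5662775943) (nat_lit 1444) (nat_lit 176810344) (nat_lit 471) (nat_lit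 4) (nat_lit 490) (nat_lit 5) (nat_lit 490) (nat_lit 4) (nat_lit 322) (nat_lit 290) (nat_lit 288)) (XT.lf (nat_lit 0) (nat_lit 1182907350) (nat_lit 1520) (nat_lit 3417393161) (nat_lit 1596) (nat_lit 2433108305) (nat_lit 450) (nat_lit 5) (nat_lit 470) (nat_lit 5) (nat_lit 471) (nat_lit 4) (nat_lit 323) (nat_lit 290) (nat_lit 287)))) (XT.nd (nat_lit 156) (nat_lit 3800) (nat_lit 0) (XT.nd (nat_lit 78) (nat_lit 1672) (nat_lit 0) (XT.lf (nat_lit 0) (nat_lit 1269440390) (nat_lit 1596) (nat_lit 1031884165) (nat_lit 1672) (nat_lit 4787726518) (nat_lit 428) (nat_lit 5) (nat_lit 449) (nat_lit 5) (nat_lit 450) (nat_lit 5) (nat_lit 324) (nat_lit 290) (nat_lit 286)) (XT.lf (nat_lit 0) (nat_lit 1389762947) (nat_lit 1672) (nat_lit 5670853220) (nat_lit 1748) (nat_lit 87202325) (nat_lit 406) (nat_lit 5) (nat_lit 428) (nat_lit 5) (nat_lit 429) (nat_lit 4) (nat_lit 325) (nat_lit 290) (nat_lit 285))) (XT.nd (nat_lit 78)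 (nat_lit 1976) (nat_lit 0) (XT.lf (nat_lit 0) (nat_lit 1529698772) (nat_lit 1748) (nat_lit 3078565385) (nat_lit 1824) (nat_lit 2601232406) (nat_lit 382) (nat_lit 5) (nat_lit 405) (nat_lit 5) (nat_lit 406) (nat_lit 5) (nat_lit 326) (nat_lit 290) (nat_lit 284)) (XT.nd (nat_lit 78) (nat_lit 912) (nat_lit 0) (XT.lf (nat_lit 0) (nat_lit 1710661887) (nat_lit 988) (nat_lit 343604462) (nat_lit 1064) (nat_lit 5220304810) (nat_lit 368) (nat_lit 5) (nat_lit 381) (nat_lit 5) (nat_lit 382) (nat_lit 5) (nat_lit 327) (nat_lit 290) (nat_lit 283)) (XT.lf (nat_lit 0) (nat_lit 1911101576) (nat_lit 912) (nat_lit 4835462880) (nat_lit 988) (nat_lit 596123889) (nat_lit 356) (nat_lit 5) (nat_lit 368) (nat_lit 5) (nat_lit 369) (nat_lit 5) (nat_lit 328) (nat_lit 290) (nat_lit 282)))))) (XT.nd (nat_lit 390) (nat_lit 3724) (nat_lit 0) (XT.nd (nat_lit 156) (nat_lit 2356) (nat_lit 0) (XT.nd (nat_lit 78) (nat_lit 912) (nat_lit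 0) (XT.lf (nat_lit 0) (nat_lit 2133223687) (nat_lit 836) (nat_lit 1900156855) (nat_lit 912) (nat_lit 3380582208) (nat_lit 344) (nat_lit 5) (nat_lit 355) (nat_lit 5) (nat_lit 356) (nat_lit 5) (nat_lit 329) (nat_lit 290) (nat_lit 281)) (XT.lf (nat_lit 0) (nat_lit 1218699538) (nat_lit 912) (nat_lit 5104190049) (nat_lit 76) (nat_lit 1165724052) (nat_lit 332) (nat_lit 5) (nat_lit 344) (nat_lit 5) (nat_lit 333) (nat_lit 5) (nat_lit 330) (nat_lit 290) (nat_lit 280))) (XT.nd (nat_lit 78) (nat_lit 1596) (nat_lit 0) (XT.lf (nat_lit 0) (nat_lit 2646751302) (nat_lit 760) (nat_lit 3201504159) (nat_lit 836) (nat_lit 1718110839) (nat_lit 322) (nat_lit 5) (nat_lit 332) (nat_lit 5) (nat_lit 333) (nat_lit 5) (nat_lit 331) (nat_lit 290) (nat_lit 279)) (XT.nd (nat_lit 78) (nat_lit 760) (nat_lit 0) (XT.lf (nat_lit 0) (nat_lit 2859635199) (nat_lit 836) (nat_lit 4713696688) (nat_lit 76) (nat_lit 74237183) (nat_lit 311)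 (nat_lit 5) (nat_lit 322) (nat_lit 5) (nat_lit 312) (nat_lit 5) (nat_lit 332) (nat_lit 290) (nat_lit 278)) (XT.lf (nat_lit 0) (nat_lit 3229883892) (nat_lit 760) (nat_lit 4274241122) (nat_lit 836) (nat_lit 227868762) (nat_lit 301) (nat_lit 5) (nat_lit 311) (nat_lit 5) (nat_lit 312) (nat_lit 5) (nat_lit 333) (nat_lit 290) (nat_lit 277))))) (XT.nd (nat_lit 156) (nat_lit 2128) (nat_lit 0) (XT.nd (nat_lit 78) (nat_lit 760) (nat_lit 0) (XT.lf (nat_lit 0) (nat_lit 3536595195) (nat_lit 760) (nat_lit 807428183) (nat_lit 836) (nat_lit 3475739579) (nat_lit 290) (nat_lit 5) (nat_lit 300) (nat_lit 5) (nat_lit 301) (nat_lit 5) (nat_lit 334) (nat_lit 290) (nat_lit 276)) (XT.lf (nat_lit 0) (nat_lit 1079328963) (nat_lit 760) (nat_lit 4057322692) (nat_lit 76) (nat_lit 2774308349) (nat_lit 280) (nat_lit 5) (nat_lit 290) (nat_lit 5) (nat_lit 281) (nat_lit 5) (nat_lit 335) (nat_lit 290) (nat_lit 275))) (XT.nd (nat_lit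 78) (nat_lit 1444) (nat_lit 0) (XT.lf (nat_lit 0) (nat_lit 4176818219) (nat_lit 684) (nat_lit 1491823115) (nat_lit 760) (nat_lit 2336955735) (nat_lit 271) (nat_lit 5) (nat_lit 280) (nat_lit 5) (nat_lit 281) (nat_lit 5) (nat_lit 336) (nat_lit 290) (nat_lit 274)) (XT.nd (nat_lit 78) (nat_lit 684) (nat_lit 0) (XT.lf (nat_lit 0) (nat_lit 2219048818) (nat_lit 760) (nat_lit 3601183497) (nat_lit 76) (nat_lit 2283469093) (nat_lit 261) (nat_lit 5) (nat_lit 271) (nat_lit 5) (nat_lit 262) (nat_lit 5) (nat_lit 337) (nat_lit 290) (nat_lit 273)) (XT.lf (nat_lit 0) (nat_lit 4832247028) (nat_lit 684) (nat_lit 2002252231) (nat_lit 760) (nat_lit 1370905681) (nat_lit 252) (nat_lit 5) (nat_lit 261) (nat_lit 5) (nat_lit 262) (nat_lit 5) (nat_lit 338) (nat_lit 290) (nat_lit 272))))))) (XT.nd (nat_lit 780) (nat_lit 4484) (nat_lit 0) (XT.nd (nat_lit 390) (nat_lit 2812) (nat_lit 0) (XT.nd (nat_lit 156) (nat_lit 1900) (nat_lit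 0) (XT.nd (nat_lit 78) (nat_lit 608) (nat_lit 0) (XT.lf (nat_lit 0) (nat_lit 3194772389) (nat_lit 684) (nat_lit 3155705454) (nat_lit 76) (nat_lit 1960118432) (nat_lit 243) (nat_lit 5) (nat_lit 252) (nat_lit 5) (nat_lit 244) (nat_lit 5) (nat_lit 339) (nat_lit 290) (nat_lit 271)) (XT.lf (nat_lit 0) (nat_lit 5479172755) (nat_lit 608) (nat_lit 2362412891) (nat_lit 684) (nat_lit 577971793) (nat_lit 235) (nat_lit 5) (nat_lit 243) (nat_lit 5) (nat_lit 244) (nat_lit 5) (nat_lit 340) (nat_lit 290) (nat_lit 270))) (XT.nd (nat_lit 78) (nat_lit 1216) (nat_lit 0) (XT.lf (nat_lit 0) (nat_lit 4005452234) (nat_lit 684) (nat_lit 2745459202) (nat_lit 76) (nat_lit 1781129660) (nat_lit 226) (nat_lit 5) (nat_lit 235) (nat_lit 5) (nat_lit 227) (nat_lit 5) (nat_lit 341) (nat_lit 290) (nat_lit 269)) (XT.nd (nat_lit 78) (nat_lit 532) (nat_lit 0) (XT.lf (nat_lit 0) (nat_lit 39341946) (nat_lit 684) (nat_lit 2556000813) (nat_lit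 76) (nat_lit 6053125925) (nat_lit 217) (nat_lit 5) (nat_lit 226) (nat_lit 5) (nat_lit 218) (nat_lit 5) (nat_lit 342) (nat_lit 290) (nat_lit 268)) (XT.lf (nat_lit 0) (nat_lit 4648452482) (nat_lit 608) (nat_lit 2396339646) (nat_lit 76) (nat_lit 1723689519) (nat_lit 210) (nat_lit 5) (nat_lit 218) (nat_lit 5) (nat_lit 211) (nat_lit 5) (nat_lit 343) (nat_lit 290) (nat_lit 267))))) (XT.nd (nat_lit 156) (nat_lit 1672) (nat_lit 0) (XT.nd (nat_lit 78) (nat_lit 532) (nat_lit 0) (XT.lf (nat_lit 0) (nat_lit 472687061) (nat_lit 608) (nat_lit 2249080468) (nat_lit 76) (nat_lit 6170793814) (nat_lit 202) (nat_lit 5) (nat_lit 210) (nat_lit 5) (nat_lit 203) (nat_lit 5) (nat_lit 344) (nat_lit 290) (nat_lit 266)) (XT.lf (nat_lit 0) (nat_lit 5119487046) (nat_lit 608) (nat_lit 2135828583) (nat_lit 76) (nat_lit 1765099147) (nat_lit 195) (nat_lit 5) (nat_lit 203) (nat_lit 5) (nat_lit 196) (nat_lit 5) (nat_lit 345) (nat_lit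 290) (nat_lit 265))) (XT.nd (nat_lit 78) (nat_lit 1064) (nat_lit 0) (XT.lf (nat_lit 0) (nat_lit 724355008) (nat_lit 608) (nat_lit 2044307825) (nat_lit 76) (nat_lit 6383769656) (nat_lit 187) (nat_lit 5) (nat_lit 195) (nat_lit 5) (nat_lit 188) (nat_lit 5) (nat_lit 346) (nat_lit 290) (nat_lit 264)) (XT.nd (nat_lit 78) (nat_lit 608) (nat_lit 0) (XT.lf (nat_lit 0) (nat_lit 5412543225) (nat_lit 532) (nat_lit 1993276155) (nat_lit 76) (nat_lit 1882571147) (nat_lit 181) (nat_lit 5) (nat_lit 188) (nat_lit 5) (nat_lit 182) (nat_lit 5) (nat_lit 347) (nat_lit 290) (nat_lit 263)) (XT.lf (nat_lit 0) (nat_lit 787271884) (nat_lit 608) (nat_lit 1972131338) (nat_lit 76) (nat_lit 6669255395) (nat_lit 173) (nat_lit 5) (nat_lit 181) (nat_lit 5) (nat_lit 174) (nat_lit 5) (nat_lit 348) (nat_lit 290) (nat_lit 262)))))) (XT.nd (nat_lit 390) (nat_lit 2128) (nat_lit 0) (XT.nd (nat_lit 156) (nat_lit 1368) (nat_lit 0) (XT.nd (nat_lit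 78) (nat_lit 532) (nat_lit 0) (XT.lf (nat_lit 0) (nat_lit 5519789780) (nat_lit 532) (nat_lit 2000203750) (nat_lit 76) (nat_lit 2053021069) (nat_lit 167) (nat_lit 5) (nat_lit 174) (nat_lit 5) (nat_lit 168) (nat_lit 5) (nat_lit 349) (nat_lit 290) (nat_lit 261)) (XT.lf (nat_lit 0) (nat_lit 652478622) (nat_lit 532) (nat_lit 2065326230) (nat_lit 76) (nat_lit 7004068499) (nat_lit 160) (nat_lit 5) (nat_lit 167) (nat_lit 5) (nat_lit 161) (nat_lit 5) (nat_lit 350) (nat_lit 290) (nat_lit 260))) (XT.nd (nat_lit 78) (nat_lit 912) (nat_lit 0) (XT.lf (nat_lit 0) (nat_lit 5431468437) (nat_lit 532) (nat_lit 2190631221) (nat_lit 76) (nat_lit 2252851513) (nat_lit 154) (nat_lit 5) (nat_lit 161) (nat_lit 5) (nat_lit 155) (nat_lit 5) (nat_lit 351) (nat_lit 290) (nat_lit 259)) (XT.nd (nat_lit 78) (nat_lit 380) (nat_lit 0) (XT.lf (nat_lit 0) (nat_lit 309013769) (nat_lit 532) (nat_lit 2359335350) (nat_lit 76) (nat_lit 7364421319)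 (nat_lit 147) (nat_lit 5) (nat_lit 154) (nat_lit 5) (nat_lit 148) (nat_lit 5) (nat_lit 352) (nat_lit 290) (nat_lit 258)) (XT.lf (nat_lit 0) (nat_lit 5135767612) (nat_lit 456) (nat_lit 2601431538) (nat_lit 76) (nat_lit 2457726973) (nat_lit 142) (nat_lit 5) (nat_lit 148) (nat_lit 5) (nat_lit 143) (nat_lit 5) (nat_lit 353) (nat_lit 290) (nat_lit 257))))) (XT.nd (nat_lit 156) (nat_lit 1216) (nat_lit 0) (XT.nd (nat_lit 78) (nat_lit 456) (nat_lit 0) (XT.lf (nat_lit 0) (nat_lit 7467748681) (nat_lit 456) (nat_lit 2634697510) (nat_lit 532) (nat_lit 259627270) (nat_lit 136) (nat_lit 5) (nat_lit 142) (nat_lit 5) (nat_lit 143) (nat_lit 5) (nat_lit 354) (nat_lit 290) (nat_lit 256)) (XT.lf (nat_lit 0) (nat_lit 4618677006) (nat_lit 456) (nat_lit 3272716251) (nat_lit 76) (nat_lit 2642337410) (nat_lit 130) (nat_lit 5) (nat_lit 136) (nat_lit 5) (nat_lit 131) (nat_lit 5) (nat_lit 355) (nat_lit 290) (nat_lit 255))) (XT.nd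 (nat_lit 78) (nat_lit 836) (nat_lit 0) (XT.lf (nat_lit 0) (nat_lit 6996446335) (nat_lit 380) (nat_lit 2641431517) (nat_lit 456) (nat_lit 1072691111) (nat_lit 125) (nat_lit 5) (nat_lit 130) (nat_lit 5) (nat_lit 131) (nat_lit 5) (nat_lit 356) (nat_lit 290) (nat_lit 254)) (XT.nd (nat_lit 78) (nat_lit 380) (nat_lit 0) (XT.lf (nat_lit 0) (nat_lit 3863821498) (nat_lit 456) (nat_lit 4248255492) (nat_lit 76) (nat_lit 2780148446) (nat_lit 119) (nat_lit 5) (nat_lit 125) (nat_lit 5) (nat_lit 120) (nat_lit 5) (nat_lit 357) (nat_lit 290) (nat_lit 253)) (XT.lf (nat_lit 0) (nat_lit 6216578610) (nat_lit 380) (nat_lit 2718440353) (nat_lit 456) (nat_lit 2144172697) (nat_lit 114) (nat_lit 5) (nat_lit 119) (nat_lit 5) (nat_lit 120) (nat_lit 5) (nat_lit 358) (nat_lit 290) (nat_lit 252))))))))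
noncomputable def xc30 : XT := (XT.nd (nat_lit 1482) (nat_lit 1444) (nat_lit 0) (XT.nd (nat_lit 702) (nat_lit 2356) (nat_lit 0) (XT.nd (nat_lit 312) (nat_lit 1292) (nat_lit 0) (XT.nd (nat_lit 156) (nat_lit 684) (nat_lit 0) (XT.nd (nat_lit 78) (nat_lit 380) (nat_lit 0) (XT.lf (nat_lit 0) (nat_lit 2852272630) (nat_lit 380) (nat_lit 5575936547) (nat_lit 76) (nat_lit 2843135875) (nat_lit 109) (nat_lit 5) (nat_lit 114) (nat_lit 5) (nat_lit 110) (nat_lit 5) (nat_lit 359) (nat_lit 290) (nat_lit 251)) (XT.lf (nat_lit 0) (nat_lit 5078822174) (nat_lit 380) (nat_lit 2895208982) (nat_lit 456) (nat_lit 3494880637) (nat_lit 104) (nat_lit 5) (nat_lit 109) (nat_lit 5) (nat_lit 110) (nat_lit 5) (nat_lit 360) (nat_lit 290) (nat_lit 250))) (XT.nd (nat_lit 78) (nat_lit 304) (nat_lit 0) (XT.lf (nat_lit 0) (nat_lit 1562335702) (nat_lit 380) (nat_lit 7308265445) (nat_lit 76) (nat_lit 2801502070) (nat_lit 99) (nat_lit 5)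 (nat_lit 104) (nat_lit 5) (nat_lit 100) (nat_lit 5) (nat_lit 361) (nat_lit 290) (nat_lit 249)) (XT.lf (nat_lit 0) (nat_lit 3529032183) (nat_lit 304) (nat_lit 3203189277) (nat_lit 380) (nat_lit 5148559669) (nat_lit 95) (nat_lit 5) (nat_lit 99) (nat_lit 5) (nat_lit 100) (nat_lit 5) (nat_lit 362) (nat_lit 290) (nat_lit 248)))) (XT.nd (nat_lit 156) (nat_lit 608) (nat_lit 0) (XT.nd (nat_lit 78) (nat_lit 380) (nat_lit 0) (XT.lf (nat_lit 0) (nat_lit 2592476002) (nat_lit 304) (nat_lit 9472020820) (nat_lit 380) (nat_lit 31097530) (nat_lit 91) (nat_lit 5) (nat_lit 95) (nat_lit 5) (nat_lit 96) (nat_lit 5) (nat_lit 363) (nat_lit 290) (nat_lit 247)) (XT.lf (nat_lit 0) (nat_lit 1507670940) (nat_lit 304) (nat_lit 3676120046) (nat_lit 380) (nat_lit 7132147908) (nat_lit 86) (nat_lit 5) (nat_lit 90) (nat_lit 5) (nat_lit 91) (nat_lit 5) (nat_lit 364) (nat_lit 290) (nat_lit 246))) (XT.nd (nat_lit 78) (nat_lit 380) (nat_lit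 0) (XT.lf (nat_lit 0) (nat_lit 306567729) (nat_lit 228) (nat_lit 10255439085) (nat_lit 304) (nat_lit 1980756038) (nat_lit 83) (nat_lit 5) (nat_lit 86) (nat_lit 5) (nat_lit 87) (nat_lit 5) (nat_lit 365) (nat_lit 290) (nat_lit 245)) (XT.nd (nat_lit 78) (nat_lit 304) (nat_lit 0) (XT.lf (nat_lit 0) (nat_lit 3306376116) (nat_lit 304) (nat_lit 1037037403) (nat_lit 76) (nat_lit 8432068374) (nat_lit 82) (nat_lit 5) (nat_lit 86) (nat_lit 5) (nat_lit 83) (nat_lit 5) (nat_lit 366) (nat_lit 290) (nat_lit 244)) (XT.lf (nat_lit 0) (nat_lit 8733822909) (nat_lit 380) (nat_lit 2518732499) (nat_lit 76) (nat_lit 1762210807) (nat_lit 78) (nat_lit 5) (nat_lit 83) (nat_lit 5) (nat_lit 79) (nat_lit 5) (nat_lit 367) (nat_lit 290) (nat_lit 243)))))) (XT.nd (nat_lit 390) (nat_lit 988) (nat_lit 0) (XT.nd (nat_lit 156) (nat_lit 760) (nat_lit 0) (XT.nd (nat_lit 78) (nat_lit 304) (nat_lit 0) (XT.lf (nat_lit 0) (nat_lit 1074011666)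 (nat_lit 304) (nat_lit 4163374933) (nat_lit 76) (nat_lit 8023219640) (nat_lit 74) (nat_lit 5) (nat_lit 78) (nat_lit 5) (nat_lit 75) (nat_lit 5) (nat_lit 368) (nat_lit 290) (nat_lit 242)) (XT.lf (nat_lit 0) (nat_lit 6535036276) (nat_lit 380) (nat_lit 5980251051) (nat_lit 76) (nat_lit 997912995) (nat_lit 70) (nat_lit 5) (nat_lit 75) (nat_lit 5) (nat_lit 71) (nat_lit 5) (nat_lit 369) (nat_lit 290) (nat_lit 241))) (XT.nd (nat_lit 78) (nat_lit 532) (nat_lit 0) (XT.lf (nat_lit 0) (nat_lit 5792674881) (nat_lit 228) (nat_lit 6399822405) (nat_lit 304) (nat_lit 1580238793) (nat_lit 67) (nat_lit 5) (nat_lit 70) (nat_lit 5) (nat_lit 71) (nat_lit 5) (nat_lit 370) (nat_lit 290) (nat_lit 240)) (XT.nd (nat_lit 78) (nat_lit 228) (nat_lit 0) (XT.lf (nat_lit 0) (nat_lit 3874589607) (nat_lit 228) (nat_lit 51176748) (nat_lit 304) (nat_lit 10113823267) (nat_lit 63) (nat_lit 5) (nat_lit 66) (nat_lit 5) (nat_lit 67) (nat_lit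 5) (nat_lit 371) (nat_lit 290) (nat_lit 239)) (XT.lf (nat_lit 0) (nat_lit 1739741719) (nat_lit 228) (nat_lit 7877078391) (nat_lit 304) (nat_lit 4696607751) (nat_lit 60) (nat_lit 5) (nat_lit 63) (nat_lit 5) (nat_lit 64) (nat_lit 5) (nat_lit 372) (nat_lit 290) (nat_lit 238))))) (XT.nd (nat_lit 156) (nat_lit 684) (nat_lit 0) (XT.nd (nat_lit 78) (nat_lit 228) (nat_lit 0) (XT.lf (nat_lit 0) (nat_lit 875369957) (nat_lit 304) (nat_lit 569732595) (nat_lit 76) (nat_lit 13150201501) (nat_lit 59) (nat_lit 5) (nat_lit 63) (nat_lit 5) (nat_lit 60) (nat_lit 5) (nat_lit 373) (nat_lit 290) (nat_lit 237)) (XT.lf (nat_lit 0) (nat_lit 6597883962) (nat_lit 304) (nat_lit 3107662038) (nat_lit 76) (nat_lit 5178539562) (nat_lit 56) (nat_lit 5) (nat_lit 60) (nat_lit 5) (nat_lit 57) (nat_lit 5) (nat_lit 374) (nat_lit 290) (nat_lit 236))) (XT.nd (nat_lit 78) (nat_lit 456) (nat_lit 0) (XT.lf (nat_lit 0) (nat_lit 9326005604)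 (nat_lit 228) (nat_lit 3177142101) (nat_lit 304) (nat_lit 2678174560) (nat_lit 53) (nat_lit 5) (nat_lit 56) (nat_lit 5) (nat_lit 57) (nat_lit 5) (nat_lit 375) (nat_lit 290) (nat_lit 235)) (XT.nd (nat_lit 78) (nat_lit 152) (nat_lit 0) (XT.lf (nat_lit 0) (nat_lit 3082858211) (nat_lit 304) (nat_lit 8860276100) (nat_lit 76) (nat_lit 3543444119) (nat_lit 49) (nat_lit 5) (nat_lit 53) (nat_lit 5) (nat_lit 50) (nat_lit 5) (nat_lit 376) (nat_lit 290) (nat_lit 234)) (XT.lf (nat_lit 0) (nat_lit 3666683606) (nat_lit 152) (nat_lit 5337433073) (nat_lit 228) (nat_lit 6796058166) (nat_lit 47) (nat_lit 5) (nat_lit 49) (nat_lit 5) (nat_lit 50) (nat_lit 5) (nat_lit 377) (nat_lit 290) (nat_lit 233))))))) (XT.nd (nat_lit 42276) (nat_lit 0) (nat_lit 24852) (XT.nd (nat_lit 390) (nat_lit 532) (nat_lit 0) (XT.nd (nat_lit 156) (nat_lit 608) (nat_lit 0) (XT.nd (nat_lit 78) (nat_lit 76) (nat_lit 0) (XT.lf (nat_lit 0) (nat_lit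 461330057) (nat_lit 228) (nat_lit 14654064279) (nat_lit 304) (nat_lit 1007549062) (nat_lit 44) (nat_lit 5) (nat_lit 47) (nat_lit 5) (nat_lit 48) (nat_lit 5) (nat_lit 378) (nat_lit 290) (nat_lit 232)) (XT.lf (nat_lit 0) (nat_lit 4948218316) (nat_lit 304) (nat_lit 3024759599) (nat_lit 76) (nat_lit 8480613350) (nat_lit 43) (nat_lit 5) (nat_lit 47) (nat_lit 5) (nat_lit 44) (nat_lit 5) (nat_lit 379) (nat_lit 290) (nat_lit 231))) (XT.nd (nat_lit 78) (nat_lit 456) (nat_lit 0) (XT.lf (nat_lit 0) (nat_lit 10016132785) (nat_lit 152) (nat_lit 1059815646) (nat_lit 228) (nat_lit 5717948346) (nat_lit 41) (nat_lit 5) (nat_lit 43) (nat_lit 5) (nat_lit 44) (nat_lit 5) (nat_lit 380) (nat_lit 290) (nat_lit 230)) (XT.nd (nat_lit 78) (nat_lit 152) (nat_lit 0) (XT.lf (nat_lit 0) (nat_lit 283666956) (nat_lit 304) (nat_lit 10855721518) (nat_lit 76) (nat_lit 6004126732) (nat_lit 37) (nat_lit 5) (nat_lit 41) (nat_lit 5) (nat_lit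 38) (nat_lit 5) (nat_lit 381) (nat_lit 290) (nat_lit 229)) (XT.lf (nat_lit 0) (nat_lit 2220766332) (nat_lit 152) (nat_lit 4178375350) (nat_lit 228) (nat_lit 11103504824) (nat_lit 35) (nat_lit 5) (nat_lit 37) (nat_lit 5) (nat_lit 38) (nat_lit 5) (nat_lit 382) (nat_lit 290) (nat_lit 228))))) (XT.nd (nat_lit 156) (nat_lit 304) (nat_lit 0) (XT.nd (nat_lit 78) (nat_lit 228) (nat_lit 0) (XT.lf (nat_lit 0) (nat_lit 12735625282) (nat_lit 228) (nat_lit 2150231436) (nat_lit 76) (nat_lit 2985953983) (nat_lit 35) (nat_lit 5) (nat_lit 38) (nat_lit 5) (nat_lit 36) (nat_lit 5) (nat_lit 383) (nat_lit 290) (nat_lit 227)) (XT.lf (nat_lit 0) (nat_lit 1044888265) (nat_lit 228) (nat_lit 6855559559) (nat_lit 76) (nat_lit 10350520535) (nat_lit 32) (nat_lit 5) (nat_lit 35) (nat_lit 5) (nat_lit 33) (nat_lit 5) (nat_lit 384) (nat_lit 290) (nat_lit 226))) (XT.nd (nat_lit 78) (nat_lit 152) (nat_lit 0) (XT.lf (nat_lit 0) (nat_lit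 6695269902) (nat_lit 152) (nat_lit 651195998) (nat_lit 228) (nat_lit 11294267893) (nat_lit 30) (nat_lit 5) (nat_lit 32) (nat_lit 5) (nat_lit 33) (nat_lit 5) (nat_lit 385) (nat_lit 290) (nat_lit 225)) (XT.nd (nat_lit 41574) (nat_lit 0) (nat_lit 39140) (XT.lf (nat_lit 0) (nat_lit 1588452458) (nat_lit 152) (nat_lit 12296991463) (nat_lit 228) (nat_lit 5155790043) (nat_lit 28) (nat_lit 5) (nat_lit 30) (nat_lit 5) (nat_lit 31) (nat_lit 5) (nat_lit 386) (nat_lit 290) (nat_lit 224)) (XT.lf (nat_lit 0) (nat_lit 703994465) (nat_lit 1140) (nat_lit 1348032598) (nat_lit 1140) (nat_lit 1348032598) (nat_lit 543) (nat_lit 4) (nat_lit 558) (nat_lit 5) (nat_lit 558) (nat_lit 4) (nat_lit 318) (nat_lit 291) (nat_lit 291)))))) (XT.nd (nat_lit 390) (nat_lit 7144) (nat_lit 0) (XT.nd (nat_lit 156) (nat_lit 4560) (nat_lit 0) (XT.nd (nat_lit 78) (nat_lit 1292) (nat_lit 0) (XT.lf (nat_lit 0) (nat_lit 1224758262) (nat_lit 1216)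 (nat_lit 858217554) (nat_lit 1292) (nat_lit 4758911366) (nat_lit 526) (nat_lit 5) (nat_lit 542) (nat_lit 5) (nat_lit 543) (nat_lit 4) (nat_lit 319) (nat_lit 291) (nat_lit 290)) (XT.lf (nat_lit 0) (nat_lit 1084051615) (nat_lit 1292) (nat_lit 5783100669) (nat_lit 1292) (nat_lit 19545211) (nat_lit 509) (nat_lit 4) (nat_lit 526) (nat_lit 5) (nat_lit 526) (nat_lit 4) (nat_lit 320) (nat_lit 291) (nat_lit 289))) (XT.nd (nat_lit 78) (nat_lit 3116) (nat_lit 0) (XT.lf (nat_lit 0) (nat_lit 971375185) (nat_lit 1368) (nat_lit 3727350395) (nat_lit 1444) (nat_lit 2235593619) (nat_lit 490) (nat_lit 5) (nat_lit 508) (nat_lit 5) (nat_lit 509) (nat_lit 4) (nat_lit 321) (nat_lit 291) (nat_lit 288)) (XT.nd (nat_lit 78) (nat_lit 1596) (nat_lit 0) (XT.lf (nat_lit 0) (nat_lit 905483508) (nat_lit 1444) (nat_lit 1533677452) (nat_lit 1520) (nat_lit 4546014272) (nat_lit 470) (nat_lit 5) (nat_lit 489) (nat_lit 5) (nat_lit 490)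 (nat_lit 5) (nat_lit 322) (nat_lit 291) (nat_lit 287)) (XT.lf (nat_lit 0) (nat_lit 90711062) (nat_lit 1596) (nat_lit 6158965943) (nat_lit 76) (nat_lit 789525553) (nat_lit 449) (nat_lit 5) (nat_lit 470) (nat_lit 5) (nat_lit 450) (nat_lit 5) (nat_lit 323) (nat_lit 291) (nat_lit 286))))) (XT.nd (nat_lit 156) (nat_lit 3800) (nat_lit 0) (XT.nd (nat_lit 78) (nat_lit 1748) (nat_lit 0) (XT.lf (nat_lit 0) (nat_lit 873288009) (nat_lit 1596) (nat_lit 3847602680) (nat_lit 1672) (nat_lit 2375131924) (nat_lit 428) (nat_lit 5) (nat_lit 449) (nat_lit 5) (nat_lit 450) (nat_lit 5) (nat_lit 324) (nat_lit 291) (nat_lit 285)) (XT.lf (nat_lit 0) (nat_lit 908439626) (nat_lit 1672) (nat_lit 1304887707) (nat_lit 1748) (nat_lit 4942836712) (nat_lit 405) (nat_lit 5) (nat_lit 427) (nat_lit 5) (nat_lit 428) (nat_lit 5) (nat_lit 325) (nat_lit 291) (nat_lit 284))) (XT.nd (nat_lit 78) (nat_lit 2052) (nat_lit 0) (XT.lf (nat_lit 0)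 (nat_lit 973759277) (nat_lit 1748) (nat_lit 5854733428) (nat_lit 1824) (nat_lit 390964573) (nat_lit 382) (nat_lit 5) (nat_lit 405) (nat_lit 5) (nat_lit 406) (nat_lit 5) (nat_lit 326) (nat_lit 291) (nat_lit 283)) (XT.nd (nat_lit 78) (nat_lit 988) (nat_lit 0) (XT.lf (nat_lit 0) (nat_lit 1055094323) (nat_lit 988) (nat_lit 3110170526) (nat_lit 1064) (nat_lit 3120426887) (nat_lit 368) (nat_lit 5) (nat_lit 381) (nat_lit 5) (nat_lit 382) (nat_lit 5) (nat_lit 327) (nat_lit 291) (nat_lit 282)) (XT.lf (nat_lit 0) (nat_lit 1175061392) (nat_lit 912) (nat_lit 222592780) (nat_lit 988) (nat_lit 5957726299) (nat_lit 355) (nat_lit 5) (nat_lit 367) (nat_lit 5) (nat_lit 368) (nat_lit 5) (nat_lit 328) (nat_lit 291) (nat_lit 281))))))))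
noncomputable def xc31 : XT := (XT.nd (nat_lit 1560) (nat_lit 7448) (nat_lit 0) (XT.nd (nat_lit 780) (nat_lit 6004) (nat_lit 0) (XT.nd (nat_lit 390) (nat_lit 3648) (nat_lit 0) (XT.nd (nat_lit 156) (nat_lit 2432) (nat_lit 0) (XT.nd (nat_lit 78) (nat_lit 912) (nat_lit 0) (XT.lf (nat_lit 0) (nat_lit 1304440430) (nat_lit 836) (nat_lit 4644534312) (nat_lit 912) (nat_lit 1479048156) (nat_lit 344) (nat_lit 5) (nat_lit 355) (nat_lit 5) (nat_lit 356) (nat_lit 5) (nat_lit 329) (nat_lit 291) (nat_lit 280)) (XT.lf (nat_lit 0) (nat_lit 1458266712) (nat_lit 836) (nat_lit 1560731693) (nat_lit 912) (nat_lit 4484990667) (nat_lit 332) (nat_lit 5) (nat_lit 343) (nat_lit 5) (nat_lit 344) (nat_lit 5) (nat_lit 330) (nat_lit 291) (nat_lit 279))) (XT.nd (nat_lit 78) (nat_lit 1672) (nat_lit 0) (XT.lf (nat_lit 0) (nat_lit 1635396321) (nat_lit 760) (nat_lit 5935264659) (nat_lit 836) (nat_lit 12673846) (nat_lit 322) (nat_lit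 5) (nat_lit 332) (nat_lit 5) (nat_lit 333) (nat_lit 5) (nat_lit 331) (nat_lit 291) (nat_lit 278)) (XT.nd (nat_lit 78) (nat_lit 836) (nat_lit 0) (XT.lf (nat_lit 0) (nat_lit 1813833853) (nat_lit 760) (nat_lit 2660840233) (nat_lit 836) (nat_lit 3191036201) (nat_lit 311) (nat_lit 5) (nat_lit 321) (nat_lit 5) (nat_lit 322) (nat_lit 5) (nat_lit 332) (nat_lit 291) (nat_lit 277)) (XT.lf (nat_lit 0) (nat_lit 1266418836) (nat_lit 836) (nat_lit 5733516811) (nat_lit 76) (nat_lit 751746587) (nat_lit 300) (nat_lit 5) (nat_lit 311) (nat_lit 5) (nat_lit 301) (nat_lit 5) (nat_lit 333) (nat_lit 291) (nat_lit 276))))) (XT.nd (nat_lit 156) (nat_lit 2128) (nat_lit 0) (XT.nd (nat_lit 78) (nat_lit 760) (nat_lit 0) (XT.lf (nat_lit 0) (nat_lit 2220184336) (nat_lit 760) (nat_lit 3548492587) (nat_lit 836) (nat_lit 2072108797) (nat_lit 290) (nat_lit 5) (nat_lit 300) (nat_lit 5) (nat_lit 301) (nat_lit 5) (nat_lit 334) (nat_lit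 291) (nat_lit 275)) (XT.lf (nat_lit 0) (nat_lit 2380167657) (nat_lit 760) (nat_lit 5492961739) (nat_lit 76) (nat_lit 60388261) (nat_lit 280) (nat_lit 5) (nat_lit 290) (nat_lit 5) (nat_lit 281) (nat_lit 5) (nat_lit 335) (nat_lit 291) (nat_lit 274))) (XT.nd (nat_lit 78) (nat_lit 1444) (nat_lit 0) (XT.lf (nat_lit 0) (nat_lit 2655228422) (nat_lit 684) (nat_lit 4248324637) (nat_lit 760) (nat_lit 1125948834) (nat_lit 271) (nat_lit 5) (nat_lit 280) (nat_lit 5) (nat_lit 281) (nat_lit 5) (nat_lit 336) (nat_lit 291) (nat_lit 273)) (XT.nd (nat_lit 78) (nat_lit 684) (nat_lit 0) (XT.lf (nat_lit 0) (nat_lit 2877282349) (nat_lit 684) (nat_lit 455988915) (nat_lit 760) (nat_lit 4795823007) (nat_lit 261) (nat_lit 5) (nat_lit 270) (nat_lit 5) (nat_lit 271) (nat_lit 5) (nat_lit 337) (nat_lit 291) (nat_lit 272)) (XT.lf (nat_lit 0) (nat_lit 3096151785) (nat_lit 684) (nat_lit 4784230308) (nat_lit 760) (nat_lit 351808963)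 (nat_lit 252) (nat_lit 5) (nat_lit 261) (nat_lit 5) (nat_lit 262) (nat_lit 5) (nat_lit 338) (nat_lit 291) (nat_lit 271)))))) (XT.nd (nat_lit 390) (nat_lit 2812) (nat_lit 0) (XT.nd (nat_lit 156) (nat_lit 1824) (nat_lit 0) (XT.nd (nat_lit 78) (nat_lit 684) (nat_lit 0) (XT.lf (nat_lit 0) (nat_lit 3308835541) (nat_lit 608) (nat_lit 813374586) (nat_lit 684) (nat_lit 4216630982) (nat_lit 243) (nat_lit 5) (nat_lit 251) (nat_lit 5) (nat_lit 252) (nat_lit 5) (nat_lit 339) (nat_lit 291) (nat_lit 270)) (XT.lf (nat_lit 0) (nat_lit 246243157) (nat_lit 684) (nat_lit 4931661008) (nat_lit 76) (nat_lit 3271295671) (nat_lit 234) (nat_lit 5) (nat_lit 243) (nat_lit 5) (nat_lit 235) (nat_lit 5) (nat_lit 340) (nat_lit 291) (nat_lit 269))) (XT.nd (nat_lit 78) (nat_lit 1216) (nat_lit 0) (XT.lf (nat_lit 0) (nat_lit 3711223702) (nat_lit 608) (nat_lit 1034067360) (nat_lit 684) (nat_lit 3817876571) (nat_lit 226) (nat_lit 5)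 (nat_lit 234) (nat_lit 5) (nat_lit 235) (nat_lit 5) (nat_lit 341) (nat_lit 291) (nat_lit 268)) (XT.nd (nat_lit 78) (nat_lit 532) (nat_lit 0) (XT.lf (nat_lit 0) (nat_lit 666782557) (nat_lit 684) (nat_lit 4786041751) (nat_lit 76) (nat_lit 3228140573) (nat_lit 217) (nat_lit 5) (nat_lit 226) (nat_lit 5) (nat_lit 218) (nat_lit 5) (nat_lit 342) (nat_lit 291) (nat_lit 267)) (XT.lf (nat_lit 0) (nat_lit 4058745885) (nat_lit 532) (nat_lit 1140893781) (nat_lit 608) (nat_lit 3602884756) (nat_lit 210) (nat_lit 5) (nat_lit 217) (nat_lit 5) (nat_lit 218) (nat_lit 5) (nat_lit 343) (nat_lit 291) (nat_lit 266))))) (XT.nd (nat_lit 156) (nat_lit 1672) (nat_lit 0) (XT.nd (nat_lit 78) (nat_lit 532) (nat_lit 0) (XT.lf (nat_lit 0) (nat_lit 910452114) (nat_lit 608) (nat_lit 4723735764) (nat_lit 76) (nat_lit 3293821497) (nat_lit 202) (nat_lit 5) (nat_lit 210) (nat_lit 5) (nat_lit 203) (nat_lit 5) (nat_lit 344) (nat_lit 291)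 (nat_lit 265)) (XT.lf (nat_lit 0) (nat_lit 4324136036) (nat_lit 532) (nat_lit 1156604929) (nat_lit 608) (nat_lit 3576671941) (nat_lit 195) (nat_lit 5) (nat_lit 202) (nat_lit 5) (nat_lit 203) (nat_lit 5) (nat_lit 345) (nat_lit 291) (nat_lit 264))) (XT.nd (nat_lit 78) (nat_lit 1064) (nat_lit 0) (XT.lf (nat_lit 0) (nat_lit 971589018) (nat_lit 608) (nat_lit 4773330270) (nat_lit 76) (nat_lit 3445943526) (nat_lit 187) (nat_lit 5) (nat_lit 195) (nat_lit 5) (nat_lit 188) (nat_lit 5) (nat_lit 346) (nat_lit 291) (nat_lit 263)) (XT.nd (nat_lit 78) (nat_lit 608) (nat_lit 0) (XT.lf (nat_lit 0) (nat_lit 4478283157) (nat_lit 456) (nat_lit 1104079716) (nat_lit 532) (nat_lit 3746024635) (nat_lit 181) (nat_lit 5) (nat_lit 187) (nat_lit 5) (nat_lit 188) (nat_lit 5) (nat_lit 347) (nat_lit 291) (nat_lit 262)) (XT.lf (nat_lit 0) (nat_lit 842753426) (nat_lit 608) (nat_lit 4965452740) (nat_lit 76) (nat_lit 3661902826) (nat_lit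 173) (nat_lit 5) (nat_lit 181) (nat_lit 5) (nat_lit 174) (nat_lit 5) (nat_lit 348) (nat_lit 291) (nat_lit 261))))))) (XT.nd (nat_lit 780) (nat_lit 2964) (nat_lit 0) (XT.nd (nat_lit 390) (nat_lit 2128) (nat_lit 0) (XT.nd (nat_lit 156) (nat_lit 1368) (nat_lit 0) (XT.nd (nat_lit 78) (nat_lit 532) (nat_lit 0) (XT.lf (nat_lit 0) (nat_lit 4489930191) (nat_lit 456) (nat_lit 1006534037) (nat_lit 532) (nat_lit 4119593862) (nat_lit 167) (nat_lit 5) (nat_lit 173) (nat_lit 5) (nat_lit 174) (nat_lit 5) (nat_lit 349) (nat_lit 291) (nat_lit 260)) (XT.lf (nat_lit 0) (nat_lit 514627086) (nat_lit 532) (nat_lit 5333085318) (nat_lit 76) (nat_lit 3918676270) (nat_lit 160) (nat_lit 5) (nat_lit 167) (nat_lit 5) (nat_lit 161) (nat_lit 5) (nat_lit 350) (nat_lit 291) (nat_lit 259))) (XT.nd (nat_lit 78) (nat_lit 912) (nat_lit 0) (XT.lf (nat_lit 0) (nat_lit 4325348793) (nat_lit 456) (nat_lit 887737598) (nat_lit 532) (nat_lit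 4708006399) (nat_lit 154) (nat_lit 5) (nat_lit 160) (nat_lit 5) (nat_lit 161) (nat_lit 5) (nat_lit 351) (nat_lit 291) (nat_lit 258)) (XT.nd (nat_lit 78) (nat_lit 456) (nat_lit 0) (XT.lf (nat_lit 0) (nat_lit 4168335711) (nat_lit 456) (nat_lit 5887638225) (nat_lit 532) (nat_lit 24425519) (nat_lit 148) (nat_lit 5) (nat_lit 154) (nat_lit 5) (nat_lit 155) (nat_lit 5) (nat_lit 352) (nat_lit 291) (nat_lit 257)) (XT.lf (nat_lit 0) (nat_lit 3947986891) (nat_lit 380) (nat_lit 772240310) (nat_lit 456) (nat_lit 5523994037) (nat_lit 142) (nat_lit 5) (nat_lit 147) (nat_lit 5) (nat_lit 148) (nat_lit 5) (nat_lit 353) (nat_lit 291) (nat_lit 256))))) (XT.nd (nat_lit 156) (nat_lit 1216) (nat_lit 0) (XT.nd (nat_lit 78) (nat_lit 456) (nat_lit 0) (XT.lf (nat_lit 0) (nat_lit 3666980671) (nat_lit 456) (nat_lit 5948481095) (nat_lit 532) (nat_lit 797349763) (nat_lit 136) (nat_lit 5) (nat_lit 142) (nat_lit 5) (nat_lit 143)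 (nat_lit 5) (nat_lit 354) (nat_lit 291) (nat_lit 255)) (XT.lf (nat_lit 0) (nat_lit 3318085655) (nat_lit 380) (nat_lit 685610256) (nat_lit 456) (nat_lit 6582542263) (nat_lit 130) (nat_lit 5) (nat_lit 135) (nat_lit 5) (nat_lit 136) (nat_lit 5) (nat_lit 355) (nat_lit 291) (nat_lit 254))) (XT.nd (nat_lit 78) (nat_lit 836) (nat_lit 0) (XT.lf (nat_lit 0) (nat_lit 2891209163) (nat_lit 380) (nat_lit 6060057556) (nat_lit 456) (nat_lit 1813255357) (nat_lit 125) (nat_lit 5) (nat_lit 130) (nat_lit 5) (nat_lit 131) (nat_lit 5) (nat_lit 356) (nat_lit 291) (nat_lit 253)) (XT.nd (nat_lit 78) (nat_lit 380) (nat_lit 0) (XT.lf (nat_lit 0) (nat_lit 2392262214) (nat_lit 380) (nat_lit 654685393) (nat_lit 456) (nat_lit 7901059931) (nat_lit 119) (nat_lit 5) (nat_lit 124) (nat_lit 5) (nat_lit 125) (nat_lit 5) (nat_lit 357) (nat_lit 291) (nat_lit 252)) (XT.lf (nat_lit 0) (nat_lit 1795688263) (nat_lit 380) (nat_lit 6250150733)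 (nat_lit 456) (nat_lit 3090592906) (nat_lit 114) (nat_lit 5) (nat_lit 119) (nat_lit 5) (nat_lit 120) (nat_lit 5) (nat_lit 358) (nat_lit 291) (nat_lit 251)))))) (XT.nd (nat_lit 390) (nat_lit 1520) (nat_lit 0) (XT.nd (nat_lit 156) (nat_lit 684) (nat_lit 0) (XT.nd (nat_lit 78) (nat_lit 380) (nat_lit 0) (XT.lf (nat_lit 0) (nat_lit 1123054066) (nat_lit 304) (nat_lit 707841265) (nat_lit 380) (nat_lit 9499571689) (nat_lit 109) (nat_lit 5) (nat_lit 113) (nat_lit 5) (nat_lit 114) (nat_lit 5) (nat_lit 359) (nat_lit 291) (nat_lit 250)) (XT.lf (nat_lit 0) (nat_lit 330758494) (nat_lit 380) (nat_lit 6548240324) (nat_lit 456) (nat_lit 4650519150) (nat_lit 104) (nat_lit 5) (nat_lit 109) (nat_lit 5) (nat_lit 110) (nat_lit 5) (nat_lit 360) (nat_lit 291) (nat_lit 249))) (XT.nd (nat_lit 78) (nat_lit 608) (nat_lit 0) (XT.lf (nat_lit 0) (nat_lit 337214297) (nat_lit 456) (nat_lit 534476299) (nat_lit 76) (nat_lit 10862872217)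 (nat_lit 103) (nat_lit 5) (nat_lit 109) (nat_lit 5) (nat_lit 104) (nat_lit 5) (nat_lit 361) (nat_lit 291) (nat_lit 248)) (XT.nd (nat_lit 78) (nat_lit 304) (nat_lit 0) (XT.lf (nat_lit 0) (nat_lit 5437827802) (nat_lit 380) (nat_lit 1537652785) (nat_lit 76) (nat_lit 4969155847) (nat_lit 99) (nat_lit 5) (nat_lit 104) (nat_lit 5) (nat_lit 100) (nat_lit 5) (nat_lit 362) (nat_lit 291) (nat_lit 247)) (XT.lf (nat_lit 0) (nat_lit 9527585400) (nat_lit 304) (nat_lit 1161970670) (nat_lit 380) (nat_lit 1471514492) (nat_lit 95) (nat_lit 5) (nat_lit 99) (nat_lit 5) (nat_lit 100) (nat_lit 5) (nat_lit 363) (nat_lit 291) (nat_lit 246))))) (XT.nd (nat_lit 156) (nat_lit 836) (nat_lit 0) (XT.nd (nat_lit 78) (nat_lit 304) (nat_lit 0) (XT.lf (nat_lit 0) (nat_lit 3691357178) (nat_lit 380) (nat_lit 3879222891) (nat_lit 76) (nat_lit 4812449727) (nat_lit 90) (nat_lit 5) (nat_lit 95) (nat_lit 5) (nat_lit 91) (nat_lit 5) (nat_lit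 364) (nat_lit 291) (nat_lit 245)) (XT.lf (nat_lit 0) (nat_lit 7365819162) (nat_lit 304) (nat_lit 1625758475) (nat_lit 380) (nat_lit 3619845233) (nat_lit 86) (nat_lit 5) (nat_lit 90) (nat_lit 5) (nat_lit 91) (nat_lit 5) (nat_lit 365) (nat_lit 291) (nat_lit 244))) (XT.nd (nat_lit 78) (nat_lit 532) (nat_lit 0) (XT.lf (nat_lit 0) (nat_lit 1608336809) (nat_lit 304) (nat_lit 6763397106) (nat_lit 76) (nat_lit 4474238544) (nat_lit 82) (nat_lit 5) (nat_lit 86) (nat_lit 5) (nat_lit 83) (nat_lit 5) (nat_lit 366) (nat_lit 291) (nat_lit 243)) (XT.nd (nat_lit 78) (nat_lit 228) (nat_lit 0) (XT.lf (nat_lit 0) (nat_lit 4649763746) (nat_lit 304) (nat_lit 2302263118) (nat_lit 380) (nat_lit 6134913560) (nat_lit 78) (nat_lit 5) (nat_lit 82) (nat_lit 5) (nat_lit 83) (nat_lit 5) (nat_lit 367) (nat_lit 291) (nat_lit 242)) (XT.lf (nat_lit 0) (nat_lit 3067203150) (nat_lit 228) (nat_lit 9412268965) (nat_lit 304) (nat_lit 855213195)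 (nat_lit 75) (nat_lit 5) (nat_lit 78) (nat_lit 5) (nat_lit 79) (nat_lit 5) (nat_lit 368) (nat_lit 291) (nat_lit 241))))))))
noncomputable def xc32 : XT := (XT.nd (nat_lit 42900) (nat_lit 0) (nat_lit 17404) (XT.nd (nat_lit 702) (nat_lit 1292) (nat_lit 0) (XT.nd (nat_lit 312) (nat_lit 1064) (nat_lit 0) (XT.nd (nat_lit 156) (nat_lit 532) (nat_lit 0) (XT.nd (nat_lit 78) (nat_lit 0) (nat_lit 0) (XT.lf (nat_lit 0) (nat_lit 1305201670) (nat_lit 304) (nat_lit 3231568408) (nat_lit 380) (nat_lit 9052233384) (nat_lit 70) (nat_lit 5) (nat_lit 74) (nat_lit 5) (nat_lit 75) (nat_lit 5) (nat_lit 369) (nat_lit 291) (nat_lit 240)) (XT.lf (nat_lit 0) (nat_lit 10102913076) (nat_lit 380) (nat_lit 619637300) (nat_lit 76) (nat_lit 3127822837) (nat_lit 70) (nat_lit 5) (nat_lit 75) (nat_lit 5) (nat_lit 71) (nat_lit 5) (nat_lit 370) (nat_lit 291) (nat_lit 239))) (XT.nd (nat_lit 78) (nat_lit 228) (nat_lit 0) (XT.lf (nat_lit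 0) (nat_lit 1725371645) (nat_lit 304) (nat_lit 2713729386) (nat_lit 76) (nat_lit 9679646349) (nat_lit 66) (nat_lit 5) (nat_lit 70) (nat_lit 5) (nat_lit 67) (nat_lit 5) (nat_lit 371) (nat_lit 291) (nat_lit 238)) (XT.lf (nat_lit 0) (nat_lit 7326798469) (nat_lit 304) (nat_lit 5011343045) (nat_lit 76) (nat_lit 2056243701) (nat_lit 63) (nat_lit 5) (nat_lit 67) (nat_lit 5) (nat_lit 64) (nat_lit 5) (nat_lit 372) (nat_lit 291) (nat_lit 237)))) (XT.nd (nat_lit 156) (nat_lit 532) (nat_lit 0) (XT.nd (nat_lit 78) (nat_lit 304) (nat_lit 0) (XT.lf (nat_lit 0) (nat_lit 7161644840) (nat_lit 228) (nat_lit 5966506088) (nat_lit 304) (nat_lit 1549517504) (nat_lit 60) (nat_lit 5) (nat_lit 63) (nat_lit 5) (nat_lit 64) (nat_lit 5) (nat_lit 373) (nat_lit 291) (nat_lit 236)) (XT.lf (nat_lit 0) (nat_lit 4086913241) (nat_lit 304) (nat_lit 10242005474) (nat_lit 76) (nat_lit 639867066) (nat_lit 56) (nat_lit 5) (nat_lit 60) (nat_lit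 5) (nat_lit 57) (nat_lit 5) (nat_lit 374) (nat_lit 291) (nat_lit 235))) (XT.nd (nat_lit 78) (nat_lit 304) (nat_lit 0) (XT.lf (nat_lit 0) (nat_lit 2045516455) (nat_lit 228) (nat_lit 7869247479) (nat_lit 304) (nat_lit 5352813140) (nat_lit 53) (nat_lit 5) (nat_lit 56) (nat_lit 5) (nat_lit 57) (nat_lit 5) (nat_lit 375) (nat_lit 291) (nat_lit 234)) (XT.nd (nat_lit 78) (nat_lit 228) (nat_lit 0) (XT.lf (nat_lit 0) (nat_lit 347018199) (nat_lit 304) (nat_lit 836755536) (nat_lit 76) (nat_lit 14391338436) (nat_lit 52) (nat_lit 5) (nat_lit 56) (nat_lit 5) (nat_lit 53) (nat_lit 5) (nat_lit 376) (nat_lit 291) (nat_lit 233)) (XT.lf (nat_lit 0) (nat_lit 6201867684) (nat_lit 304) (nat_lit 3986390467) (nat_lit 76) (nat_lit 5701784464) (nat_lit 49) (nat_lit 5) (nat_lit 53) (nat_lit 5) (nat_lit 50) (nat_lit 5) (nat_lit 377) (nat_lit 291) (nat_lit 232)))))) (XT.nd (nat_lit 390) (nat_lit 380) (nat_lit 0) (XT.nd (nat_lit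 156) (nat_lit 456) (nat_lit 0) (XT.nd (nat_lit 78) (nat_lit 304) (nat_lit 0) (XT.lf (nat_lit 0) (nat_lit 8832992603) (nat_lit 152) (nat_lit 3412449036) (nat_lit 228) (nat_lit 3968729284) (nat_lit 47) (nat_lit 5) (nat_lit 49) (nat_lit 5) (nat_lit 50) (nat_lit 5) (nat_lit 378) (nat_lit 291) (nat_lit 231)) (XT.lf (nat_lit 0) (nat_lit 1926200661) (nat_lit 304) (nat_lit 11064964833) (nat_lit 76) (nat_lit 3556036696) (nat_lit 43) (nat_lit 5) (nat_lit 47) (nat_lit 5) (nat_lit 44) (nat_lit 5) (nat_lit 379) (nat_lit 291) (nat_lit 230))) (XT.nd (nat_lit 78) (nat_lit 304) (nat_lit 0) (XT.lf (nat_lit 0) (nat_lit 1820764629) (nat_lit 152) (nat_lit 6152154453) (nat_lit 228) (nat_lit 8916214102) (nat_lit 41) (nat_lit 5) (nat_lit 43) (nat_lit 5) (nat_lit 44) (nat_lit 5) (nat_lit 380) (nat_lit 291) (nat_lit 229)) (XT.nd (nat_lit 78) (nat_lit 304) (nat_lit 0) (XT.lf (nat_lit 0) (nat_lit 14226636177) (nat_lit 228) (nat_lit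 2097664360) (nat_lit 76) (nat_lit 916519972) (nat_lit 41) (nat_lit 5) (nat_lit 44) (nat_lit 5) (nat_lit 42) (nat_lit 5) (nat_lit 381) (nat_lit 291) (nat_lit 228)) (XT.lf (nat_lit 0) (nat_lit 3085400679) (nat_lit 304) (nat_lit 6346540800) (nat_lit 76) (nat_lit 8169515008) (nat_lit 37) (nat_lit 5) (nat_lit 41) (nat_lit 5) (nat_lit 38) (nat_lit 5) (nat_lit 382) (nat_lit 291) (nat_lit 227))))) (XT.nd (nat_lit 156) (nat_lit 76) (nat_lit 0) (XT.nd (nat_lit 78) (nat_lit 152) (nat_lit 0) (XT.lf (nat_lit 0) (nat_lit 7043801950) (nat_lit 152) (nat_lit 2290063453) (nat_lit 228) (nat_lit 8638520364) (nat_lit 35) (nat_lit 5) (nat_lit 37) (nat_lit 5) (nat_lit 38) (nat_lit 5) (nat_lit 383) (nat_lit 291) (nat_lit 226)) (XT.lf (nat_lit 0) (nat_lit 2476654778) (nat_lit 152) (nat_lit 13332676150) (nat_lit 228) (nat_lit 2544330341) (nat_lit 33) (nat_lit 5) (nat_lit 35) (nat_lit 5) (nat_lit 36) (nat_lit 5) (nat_lit 384)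 (nat_lit 291) (nat_lit 225))) (XT.nd (nat_lit 41496) (nat_lit 0) (nat_lit 39976) (XT.lf (nat_lit 0) (nat_lit 3721472075) (nat_lit 228) (nat_lit 2442298123) (nat_lit 76) (nat_lit 12581374137) (nat_lit 32) (nat_lit 5) (nat_lit 35) (nat_lit 5) (nat_lit 33) (nat_lit 5) (nat_lit 385) (nat_lit 291) (nat_lit 224)) (XT.nd (nat_lit 78) (nat_lit 1140) (nat_lit 0) (XT.lf (nat_lit 0) (nat_lit 993990307) (nat_lit 988) (nat_lit 1184095962) (nat_lit 988) (nat_lit 1184095962) (nat_lit 573) (nat_lit 4) (nat_lit 586) (nat_lit 5) (nat_lit 586) (nat_lit 4) (nat_lit 316) (nat_lit 292) (nat_lit 292)) (XT.lf (nat_lit 0) (nat_lit 1642179817) (nat_lit 1064) (nat_lit 722159322) (nat_lit 1140) (nat_lit 4397169040) (nat_lit 558) (nat_lit 5) (nat_lit 572) (nat_lit 5) (nat_lit 573) (nat_lit 4) (nat_lit 317) (nat_lit 292) (nat_lit 291))))))) (XT.nd (nat_lit 780) (nat_lit 8132) (nat_lit 0) (XT.nd (nat_lit 390) (nat_lit 7752) (nat_lit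 0) (XT.nd (nat_lit 156) (nat_lit 4256) (nat_lit 0) (XT.nd (nat_lit 78) (nat_lit 1216) (nat_lit 0) (XT.lf (nat_lit 0) (nat_lit 294401181) (nat_lit 1216) (nat_lit 5460500978) (nat_lit 76) (nat_lit 1046764736) (nat_lit 542) (nat_lit 5) (nat_lit 558) (nat_lit 5) (nat_lit 543) (nat_lit 4) (nat_lit 318) (nat_lit 292) (nat_lit 290)) (XT.lf (nat_lit 0) (nat_lit 1072883821) (nat_lit 1216) (nat_lit 3889516606) (nat_lit 1292) (nat_lit 1882253893) (nat_lit 526) (nat_lit 5) (nat_lit 542) (nat_lit 5) (nat_lit 543) (nat_lit 4) (nat_lit 319) (nat_lit 292) (nat_lit 289))) (XT.nd (nat_lit 78) (nat_lit 2888) (nat_lit 0) (XT.lf (nat_lit 0) (nat_lit 851114804) (nat_lit 1292) (nat_lit 1886238773) (nat_lit 1368) (nat_lit 4153439104) (nat_lit 508) (nat_lit 5) (nat_lit 525) (nat_lit 5) (nat_lit 526) (nat_lit 5) (nat_lit 320) (nat_lit 292) (nat_lit 288)) (XT.nd (nat_lit 78) (nat_lit 1444) (nat_lit 0) (XT.lf (nat_lit 0) (nat_lit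 423727771) (nat_lit 1444) (nat_lit 6264854733) (nat_lit 76) (nat_lit 251541929) (nat_lit 489) (nat_lit 5) (nat_lit 508) (nat_lit 5) (nat_lit 490) (nat_lit 5) (nat_lit 321) (nat_lit 292) (nat_lit 287)) (XT.lf (nat_lit 0) (nat_lit 519552716) (nat_lit 1444) (nat_lit 4476588038) (nat_lit 1520) (nat_lit 1996059105) (nat_lit 470) (nat_lit 5) (nat_lit 489) (nat_lit 5) (nat_lit 490) (nat_lit 5) (nat_lit 322) (nat_lit 292) (nat_lit 286))))) (XT.nd (nat_lit 156) (nat_lit 4560) (nat_lit 0) (XT.nd (nat_lit 78) (nat_lit 1596) (nat_lit 0) (XT.lf (nat_lit 0) (nat_lit 405358814) (nat_lit 1520) (nat_lit 2124175672) (nat_lit 1596) (nat_lit 4517962245) (nat_lit 449) (nat_lit 5) (nat_lit 469) (nat_lit 5) (nat_lit 470) (nat_lit 5) (nat_lit 323) (nat_lit 292) (nat_lit 285)) (XT.lf (nat_lit 0) (nat_lit 332056877) (nat_lit 1596) (nat_lit 6742613301) (nat_lit 1672) (nat_lit 31393014) (nat_lit 428) (nat_lit 5) (nat_lit 449)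 (nat_lit 5) (nat_lit 450) (nat_lit 5) (nat_lit 324) (nat_lit 292) (nat_lit 284))) (XT.nd (nat_lit 78) (nat_lit 2812) (nat_lit 0) (XT.lf (nat_lit 0) (nat_lit 268932493) (nat_lit 1672) (nat_lit 4186582216) (nat_lit 1748) (nat_lit 2711845168) (nat_lit 405) (nat_lit 5) (nat_lit 427) (nat_lit 5) (nat_lit 428) (nat_lit 5) (nat_lit 325) (nat_lit 292) (nat_lit 283)) (XT.nd (nat_lit 78) (nat_lit 988) (nat_lit 0) (XT.lf (nat_lit 0) (nat_lit 246108670) (nat_lit 1748) (nat_lit 1490418746) (nat_lit 1824) (nat_lit 5495515352) (nat_lit 381) (nat_lit 5) (nat_lit 404) (nat_lit 5) (nat_lit 405) (nat_lit 5) (nat_lit 326) (nat_lit 292) (nat_lit 282)) (XT.lf (nat_lit 0) (nat_lit 246617621) (nat_lit 988) (nat_lit 5961983855) (nat_lit 1064) (nat_lit 1091245584) (nat_lit 368) (nat_lit 5) (nat_lit 381) (nat_lit 5) (nat_lit 382) (nat_lit 5) (nat_lit 327) (nat_lit 292) (nat_lit 281)))))) (XT.nd (nat_lit 390) (nat_lit 3800)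 (nat_lit 0) (XT.nd (nat_lit 156) (nat_lit 2432) (nat_lit 0) (XT.nd (nat_lit 78) (nat_lit 912) (nat_lit 0) (XT.lf (nat_lit 0) (nat_lit 262687152) (nat_lit 912) (nat_lit 3068509709) (nat_lit 988) (nat_lit 4039494068) (nat_lit 355) (nat_lit 5) (nat_lit 367) (nat_lit 5) (nat_lit 368) (nat_lit 5) (nat_lit 328) (nat_lit 292) (nat_lit 280)) (XT.lf (nat_lit 0) (nat_lit 314945318) (nat_lit 836) (nat_lit 31499131) (nat_lit 912) (nat_lit 7098607751) (nat_lit 343) (nat_lit 5) (nat_lit 354) (nat_lit 5) (nat_lit 355) (nat_lit 5) (nat_lit 329) (nat_lit 292) (nat_lit 279))) (XT.nd (nat_lit 78) (nat_lit 1596) (nat_lit 0) (XT.lf (nat_lit 0) (nat_lit 363381549) (nat_lit 836) (nat_lit 4393657497) (nat_lit 912) (nat_lit 2765183573) (nat_lit 332) (nat_lit 5) (nat_lit 343) (nat_lit 5) (nat_lit 344) (nat_lit 5) (nat_lit 330) (nat_lit 292) (nat_lit 278)) (XT.nd (nat_lit 78) (nat_lit 760) (nat_lit 0) (XT.lf (nat_lit 0) (nat_lit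 442074540) (nat_lit 760) (nat_lit 1164195875) (nat_lit 836) (nat_lit 5996679279) (nat_lit 321) (nat_lit 5) (nat_lit 331) (nat_lit 5) (nat_lit 332) (nat_lit 5) (nat_lit 331) (nat_lit 292) (nat_lit 277)) (XT.lf (nat_lit 0) (nat_lit 526987373) (nat_lit 760) (nat_lit 5492038999) (nat_lit 836) (nat_lit 1667818205) (nat_lit 311) (nat_lit 5) (nat_lit 321) (nat_lit 5) (nat_lit 322) (nat_lit 5) (nat_lit 332) (nat_lit 292) (nat_lit 276))))) (XT.nd (nat_lit 156) (nat_lit 2204) (nat_lit 0) (XT.nd (nat_lit 78) (nat_lit 760) (nat_lit 0) (XT.lf (nat_lit 0) (nat_lit 622712424) (nat_lit 760) (nat_lit 2075278568) (nat_lit 836) (nat_lit 5076092090) (nat_lit 300) (nat_lit 5) (nat_lit 310) (nat_lit 5) (nat_lit 311) (nat_lit 5) (nat_lit 333) (nat_lit 292) (nat_lit 275)) (XT.lf (nat_lit 0) (nat_lit 731956593) (nat_lit 760) (nat_lit 6388749527) (nat_lit 836) (nat_lit 744101389) (nat_lit 290) (nat_lit 5) (nat_lit 300) (nat_lit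 5) (nat_lit 301) (nat_lit 5) (nat_lit 334) (nat_lit 292) (nat_lit 274))) (XT.nd (nat_lit 78) (nat_lit 1444) (nat_lit 0) (XT.lf (nat_lit 0) (nat_lit 834973458) (nat_lit 684) (nat_lit 2789391602) (nat_lit 760) (nat_lit 4334358432) (nat_lit 280) (nat_lit 5) (nat_lit 289) (nat_lit 5) (nat_lit 290) (nat_lit 5) (nat_lit 335) (nat_lit 292) (nat_lit 273)) (XT.nd (nat_lit 78) (nat_lit 684) (nat_lit 0) (XT.lf (nat_lit 0) (nat_lit 7684496) (nat_lit 760) (nat_lit 7100262299) (nat_lit 76) (nat_lit 948458866) (nat_lit 270) (nat_lit 5) (nat_lit 280) (nat_lit 5) (nat_lit 271) (nat_lit 5) (nat_lit 336) (nat_lit 292) (nat_lit 272)) (XT.lf (nat_lit 0) (nat_lit 1056328811) (nat_lit 684) (nat_lit 3330367030) (nat_lit 760) (nat_lit 3770491283) (nat_lit 261) (nat_lit 5) (nat_lit 270) (nat_lit 5) (nat_lit 271) (nat_lit 5) (nat_lit 337) (nat_lit 292) (nat_lit 271))))))))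
noncomputable def xc33 : XT := (XT.nd (nat_lit 1482) (nat_lit 5852) (nat_lit 0) (XT.nd (nat_lit 702) (nat_lit 4332) (nat_lit 0) (XT.nd (nat_lit 312) (nat_lit 2964) (nat_lit 0) (XT.nd (nat_lit 156) (nat_lit 1292) (nat_lit 0) (XT.nd (nat_lit 78) (nat_lit 608) (nat_lit 0) (XT.lf (nat_lit 0) (nat_lit 580455068) (nat_lit 760) (nat_lit 7088951530) (nat_lit 76) (nat_lit 592499724) (nat_lit 251) (nat_lit 5) (nat_lit 261) (nat_lit 5) (nat_lit 252) (nat_lit 5) (nat_lit 338) (nat_lit 292) (nat_lit 270)) (XT.lf (nat_lit 0) (nat_lit 1263388583) (nat_lit 608) (nat_lit 3721417729) (nat_lit 684) (nat_lit 3385029907) (nat_lit 243) (nat_lit 5) (nat_lit 251) (nat_lit 5) (nat_lit 252) (nat_lit 5) (nat_lit 339) (nat_lit 292) (nat_lit 269))) (XT.nd (nat_lit 78) (nat_lit 608) (nat_lit 0) (XT.lf (nat_lit 0) (nat_lit 982779662) (nat_lit 684) (nat_lit 7118300275) (nat_lit 76) (nat_lit 380713458) (nat_lit 234) (nat_lit 5) (nat_lit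 243) (nat_lit 5) (nat_lit 235) (nat_lit 5) (nat_lit 340) (nat_lit 292) (nat_lit 268)) (XT.lf (nat_lit 0) (nat_lit 1431672018) (nat_lit 608) (nat_lit 3985330181) (nat_lit 684) (nat_lit 3180078096) (nat_lit 226) (nat_lit 5) (nat_lit 234) (nat_lit 5) (nat_lit 235) (nat_lit 5) (nat_lit 341) (nat_lit 292) (nat_lit 267)))) (XT.nd (nat_lit 156) (nat_lit 1748) (nat_lit 0) (XT.nd (nat_lit 78) (nat_lit 532) (nat_lit 0) (XT.lf (nat_lit 0) (nat_lit 1211915516) (nat_lit 684) (nat_lit 7213776278) (nat_lit 76) (nat_lit 290810451) (nat_lit 217) (nat_lit 5) (nat_lit 226) (nat_lit 5) (nat_lit 218) (nat_lit 5) (nat_lit 342) (nat_lit 292) (nat_lit 266)) (XT.lf (nat_lit 0) (nat_lit 1535363605) (nat_lit 532) (nat_lit 4144658398) (nat_lit 608) (nat_lit 3159355675) (nat_lit 210) (nat_lit 5) (nat_lit 217) (nat_lit 5) (nat_lit 218) (nat_lit 5) (nat_lit 343) (nat_lit 292) (nat_lit 265))) (XT.nd (nat_lit 78) (nat_lit 1140) (nat_lit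 0) (XT.lf (nat_lit 0) (nat_lit 1263509003) (nat_lit 608) (nat_lit 7402354815) (nat_lit 76) (nat_lit 300654202) (nat_lit 202) (nat_lit 5) (nat_lit 210) (nat_lit 5) (nat_lit 203) (nat_lit 5) (nat_lit 344) (nat_lit 292) (nat_lit 264)) (XT.nd (nat_lit 78) (nat_lit 608) (nat_lit 0) (XT.lf (nat_lit 0) (nat_lit 1547052812) (nat_lit 532) (nat_lit 4221920595) (nat_lit 608) (nat_lit 3328263930) (nat_lit 195) (nat_lit 5) (nat_lit 202) (nat_lit 5) (nat_lit 203) (nat_lit 5) (nat_lit 345) (nat_lit 292) (nat_lit 263)) (XT.lf (nat_lit 0) (nat_lit 1131523767) (nat_lit 608) (nat_lit 7712789137) (nat_lit 76) (nat_lit 388064758) (nat_lit 187) (nat_lit 5) (nat_lit 195) (nat_lit 5) (nat_lit 188) (nat_lit 5) (nat_lit 346) (nat_lit 292) (nat_lit 262)))))) (XT.nd (nat_lit 390) (nat_lit 1824) (nat_lit 0) (XT.nd (nat_lit 156) (nat_lit 1444) (nat_lit 0) (XT.nd (nat_lit 78) (nat_lit 608) (nat_lit 0) (XT.lf (nat_lit 0) (nat_lit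 1437455049) (nat_lit 456) (nat_lit 4239800212) (nat_lit 532) (nat_lit 3693965775) (nat_lit 181) (nat_lit 5) (nat_lit 187) (nat_lit 5) (nat_lit 188) (nat_lit 5) (nat_lit 347) (nat_lit 292) (nat_lit 261)) (XT.lf (nat_lit 0) (nat_lit 808153925) (nat_lit 608) (nat_lit 8175901248) (nat_lit 76) (nat_lit 530617073) (nat_lit 173) (nat_lit 5) (nat_lit 181) (nat_lit 5) (nat_lit 174) (nat_lit 5) (nat_lit 348) (nat_lit 292) (nat_lit 260))) (XT.nd (nat_lit 78) (nat_lit 988) (nat_lit 0) (XT.lf (nat_lit 0) (nat_lit 1175111228) (nat_lit 456) (nat_lit 4221353027) (nat_lit 532) (nat_lit 4265481577) (nat_lit 167) (nat_lit 5) (nat_lit 173) (nat_lit 5) (nat_lit 174) (nat_lit 5) (nat_lit 349) (nat_lit 292) (nat_lit 259)) (XT.nd (nat_lit 78) (nat_lit 456) (nat_lit 0) (XT.lf (nat_lit 0) (nat_lit 283721348) (nat_lit 532) (nat_lit 8824895730) (nat_lit 76) (nat_lit 705432595) (nat_lit 160) (nat_lit 5) (nat_lit 167) (nat_lit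 5) (nat_lit 161) (nat_lit 5) (nat_lit 350) (nat_lit 292) (nat_lit 258)) (XT.lf (nat_lit 0) (nat_lit 726063097) (nat_lit 456) (nat_lit 4190222106) (nat_lit 532) (nat_lit 5053801724) (nat_lit 154) (nat_lit 5) (nat_lit 160) (nat_lit 5) (nat_lit 161) (nat_lit 5) (nat_lit 351) (nat_lit 292) (nat_lit 257))))) (XT.nd (nat_lit 156) (nat_lit 912) (nat_lit 0) (XT.nd (nat_lit 78) (nat_lit 456) (nat_lit 0) (XT.lf (nat_lit 0) (nat_lit 432475278) (nat_lit 456) (nat_lit 9239212643) (nat_lit 532) (nat_lit 459470154) (nat_lit 148) (nat_lit 5) (nat_lit 154) (nat_lit 5) (nat_lit 155) (nat_lit 5) (nat_lit 352) (nat_lit 292) (nat_lit 256)) (XT.lf (nat_lit 0) (nat_lit 53501252) (nat_lit 380) (nat_lit 4170862510) (nat_lit 456) (nat_lit 6072017149) (nat_lit 142) (nat_lit 5) (nat_lit 147) (nat_lit 5) (nat_lit 148) (nat_lit 5) (nat_lit 353) (nat_lit 292) (nat_lit 255))) (XT.nd (nat_lit 78) (nat_lit 912) (nat_lit 0) (XT.lf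 (nat_lit 0) (nat_lit 9033186845) (nat_lit 456) (nat_lit 365042458) (nat_lit 76) (nat_lit 1068483793) (nat_lit 142) (nat_lit 5) (nat_lit 148) (nat_lit 5) (nat_lit 143) (nat_lit 5) (nat_lit 354) (nat_lit 292) (nat_lit 254)) (XT.nd (nat_lit 78) (nat_lit 380) (nat_lit 0) (XT.lf (nat_lit 0) (nat_lit 3311890731) (nat_lit 532) (nat_lit 871041857) (nat_lit 76) (nat_lit 6458582212) (nat_lit 135) (nat_lit 5) (nat_lit 142) (nat_lit 5) (nat_lit 136) (nat_lit 5) (nat_lit 355) (nat_lit 292) (nat_lit 253)) (XT.lf (nat_lit 0) (nat_lit 8172870117) (nat_lit 456) (nat_lit 1438710975) (nat_lit 76) (nat_lit 1209962065) (nat_lit 130) (nat_lit 5) (nat_lit 136) (nat_lit 5) (nat_lit 131) (nat_lit 5) (nat_lit 356) (nat_lit 292) (nat_lit 252))))))) (XT.nd (nat_lit 780) (nat_lit 2280) (nat_lit 0) (XT.nd (nat_lit 390) (nat_lit 1596) (nat_lit 0) (XT.nd (nat_lit 156) (nat_lit 1140) (nat_lit 0) (XT.nd (nat_lit 78) (nat_lit 380)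 (nat_lit 0) (XT.lf (nat_lit 0) (nat_lit 2158585963) (nat_lit 456) (nat_lit 2098104693) (nat_lit 76) (nat_lit 6749736476) (nat_lit 124) (nat_lit 5) (nat_lit 130) (nat_lit 5) (nat_lit 125) (nat_lit 5) (nat_lit 357) (nat_lit 292) (nat_lit 251)) (XT.lf (nat_lit 0) (nat_lit 7070331315) (nat_lit 456) (nat_lit 2839262186) (nat_lit 76) (nat_lit 1287012582) (nat_lit 119) (nat_lit 5) (nat_lit 125) (nat_lit 5) (nat_lit 120) (nat_lit 5) (nat_lit 358) (nat_lit 292) (nat_lit 250))) (XT.nd (nat_lit 78) (nat_lit 684) (nat_lit 0) (XT.lf (nat_lit 0) (nat_lit 744979533) (nat_lit 456) (nat_lit 3675562425) (nat_lit 76) (nat_lit 6971521179) (nat_lit 113) (nat_lit 5) (nat_lit 119) (nat_lit 5) (nat_lit 114) (nat_lit 5) (nat_lit 359) (nat_lit 292) (nat_lit 249)) (XT.nd (nat_lit 78) (nat_lit 380) (nat_lit 0) (XT.lf (nat_lit 0) (nat_lit 5705370588) (nat_lit 380) (nat_lit 4616052005) (nat_lit 76) (nat_lit 1271456524) (nat_lit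 109) (nat_lit 5) (nat_lit 114) (nat_lit 5) (nat_lit 110) (nat_lit 5) (nat_lit 360) (nat_lit 292) (nat_lit 248)) (XT.lf (nat_lit 0) (nat_lit 6137926453) (nat_lit 380) (nat_lit 4697977079) (nat_lit 456) (nat_lit 963410691) (nat_lit 104) (nat_lit 5) (nat_lit 109) (nat_lit 5) (nat_lit 110) (nat_lit 5) (nat_lit 361) (nat_lit 292) (nat_lit 247))))) (XT.nd (nat_lit 156) (nat_lit 912) (nat_lit 0) (XT.nd (nat_lit 78) (nat_lit 304) (nat_lit 0) (XT.lf (nat_lit 0) (nat_lit 4054964345) (nat_lit 380) (nat_lit 6823246689) (nat_lit 76) (nat_lit 1133209352) (nat_lit 99) (nat_lit 5) (nat_lit 104) (nat_lit 5) (nat_lit 100) (nat_lit 5) (nat_lit 362) (nat_lit 292) (nat_lit 246)) (XT.lf (nat_lit 0) (nat_lit 4116220726) (nat_lit 304) (nat_lit 5120310605) (nat_lit 380) (nat_lit 2992736083) (nat_lit 95) (nat_lit 5) (nat_lit 99) (nat_lit 5) (nat_lit 100) (nat_lit 5) (nat_lit 363) (nat_lit 292) (nat_lit 245))) (XT.nd (nat_lit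 78) (nat_lit 532) (nat_lit 0) (XT.lf (nat_lit 0) (nat_lit 2093015705) (nat_lit 380) (nat_lit 9520386775) (nat_lit 76) (nat_lit 839972331) (nat_lit 90) (nat_lit 5) (nat_lit 95) (nat_lit 5) (nat_lit 91) (nat_lit 5) (nat_lit 364) (nat_lit 292) (nat_lit 244)) (XT.nd (nat_lit 78) (nat_lit 228) (nat_lit 0) (XT.lf (nat_lit 0) (nat_lit 1594910805) (nat_lit 304) (nat_lit 5726796288) (nat_lit 380) (nat_lit 5361500313) (nat_lit 86) (nat_lit 5) (nat_lit 90) (nat_lit 5) (nat_lit 91) (nat_lit 5) (nat_lit 365) (nat_lit 292) (nat_lit 243)) (XT.lf (nat_lit 0) (nat_lit 145565849) (nat_lit 228) (nat_lit 12561672632) (nat_lit 304) (nat_lit 212714533) (nat_lit 83) (nat_lit 5) (nat_lit 86) (nat_lit 5) (nat_lit 87) (nat_lit 5) (nat_lit 366) (nat_lit 292) (nat_lit 242)))))) (XT.nd (nat_lit 390) (nat_lit 1064) (nat_lit 0) (XT.nd (nat_lit 156) (nat_lit 836) (nat_lit 0) (XT.nd (nat_lit 78) (nat_lit 304) (nat_lit 0) (XT.lf (nat_lit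 0) (nat_lit 5070441393) (nat_lit 304) (nat_lit 1474134179) (nat_lit 76) (nat_lit 6617647769) (nat_lit 82) (nat_lit 5) (nat_lit 86) (nat_lit 5) (nat_lit 83) (nat_lit 5) (nat_lit 367) (nat_lit 292) (nat_lit 241)) (XT.lf (nat_lit 0) (nat_lit 10192317648) (nat_lit 304) (nat_lit 317772103) (nat_lit 380) (nat_lit 2901642436) (nat_lit 78) (nat_lit 5) (nat_lit 82) (nat_lit 5) (nat_lit 83) (nat_lit 5) (nat_lit 368) (nat_lit 292) (nat_lit 240))) (XT.nd (nat_lit 78) (nat_lit 532) (nat_lit 0) (XT.lf (nat_lit 0) (nat_lit 2453075236) (nat_lit 304) (nat_lit 5155845788) (nat_lit 76) (nat_lit 6058684782) (nat_lit 74) (nat_lit 5) (nat_lit 78) (nat_lit 5) (nat_lit 75) (nat_lit 5) (nat_lit 369) (nat_lit 292) (nat_lit 239)) (XT.nd (nat_lit 78) (nat_lit 228) (nat_lit 0) (XT.lf (nat_lit 0) (nat_lit 6670464596) (nat_lit 304) (nat_lit 1262612567) (nat_lit 380) (nat_lit 5997628627) (nat_lit 70) (nat_lit 5) (nat_lit 74) (nat_lit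 5) (nat_lit 75) (nat_lit 5) (nat_lit 370) (nat_lit 292) (nat_lit 238)) (XT.lf (nat_lit 0) (nat_lit 4644690935) (nat_lit 228) (nat_lit 8969735068) (nat_lit 304) (nat_lit 586548443) (nat_lit 67) (nat_lit 5) (nat_lit 70) (nat_lit 5) (nat_lit 71) (nat_lit 5) (nat_lit 371) (nat_lit 292) (nat_lit 237))))) (XT.nd (nat_lit 156) (nat_lit 760) (nat_lit 0) (XT.nd (nat_lit 78) (nat_lit 0) (nat_lit 0) (XT.lf (nat_lit 0) (nat_lit 2416269428) (nat_lit 228) (nat_lit 2516970593) (nat_lit 304) (nat_lit 9545241895) (nat_lit 63) (nat_lit 5) (nat_lit 66) (nat_lit 5) (nat_lit 67) (nat_lit 5) (nat_lit 372) (nat_lit 292) (nat_lit 236)) (XT.lf (nat_lit 0) (nat_lit 10641711636) (nat_lit 304) (nat_lit 16745331) (nat_lit 76) (nat_lit 4105172434) (nat_lit 63) (nat_lit 5) (nat_lit 67) (nat_lit 5) (nat_lit 64) (nat_lit 5) (nat_lit 373) (nat_lit 292) (nat_lit 235))) (XT.nd (nat_lit 78) (nat_lit 456) (nat_lit 0) (XT.lf (nat_lit 0)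 (nat_lit 1483526178) (nat_lit 304) (nat_lit 2628375158) (nat_lit 76) (nat_lit 10944480263) (nat_lit 59) (nat_lit 5) (nat_lit 63) (nat_lit 5) (nat_lit 60) (nat_lit 5) (nat_lit 374) (nat_lit 292) (nat_lit 234)) (XT.nd (nat_lit 78) (nat_lit 228) (nat_lit 0) (XT.lf (nat_lit 0) (nat_lit 7224727049) (nat_lit 304) (nat_lit 5481711231) (nat_lit 76) (nat_lit 2650473756) (nat_lit 56) (nat_lit 5) (nat_lit 60) (nat_lit 5) (nat_lit 57) (nat_lit 5) (nat_lit 375) (nat_lit 292) (nat_lit 233)) (XT.lf (nat_lit 0) (nat_lit 7092221306) (nat_lit 228) (nat_lit 6079738541) (nat_lit 304) (nat_lit 2493834732) (nat_lit 53) (nat_lit 5) (nat_lit 56) (nat_lit 5) (nat_lit 57) (nat_lit 5) (nat_lit 376) (nat_lit 292) (nat_lit 232))))))))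
noncomputable def xc34 : XT := (XT.nd (nat_lit 42744) (nat_lit 0) (nat_lit 13984) (XT.nd (nat_lit 41964) (nat_lit 0) (nat_lit 33136) (XT.nd (nat_lit 312) (nat_lit 760) (nat_lit 0) (XT.nd (nat_lit 156) (nat_lit 304) (nat_lit 0) (XT.nd (nat_lit 78) (nat_lit 152) (nat_lit 0) (XT.lf (nat_lit 0) (nat_lit 3282177206) (nat_lit 304) (nat_lit 11917842722) (nat_lit 76) (nat_lit 783265500) (nat_lit 49) (nat_lit 5) (nat_lit 53) (nat_lit 5) (nat_lit 50) (nat_lit 5) (nat_lit 377) (nat_lit 292) (nat_lit 231)) (XT.lf (nat_lit 0) (nat_lit 748488843) (nat_lit 152) (nat_lit 8497083442) (nat_lit 228) (nat_lit 7063450542) (nat_lit 47) (nat_lit 5) (nat_lit 49) (nat_lit 5) (nat_lit 50) (nat_lit 5) (nat_lit 378) (nat_lit 292) (nat_lit 230))) (XT.nd (nat_lit 78) (nat_lit 304) (nat_lit 0) (XT.lf (nat_lit 0) (nat_lit 13864038077) (nat_lit 152) (nat_lit 1549409151) (nat_lit 228) (nat_lit 1230584425) (nat_lit 47) (nat_lit 5)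 (nat_lit 49) (nat_lit 5) (nat_lit 50) (nat_lit 5) (nat_lit 379) (nat_lit 292) (nat_lit 229)) (XT.lf (nat_lit 0) (nat_lit 4764989211) (nat_lit 304) (nat_lit 6627605660) (nat_lit 76) (nat_lit 5594878349) (nat_lit 43) (nat_lit 5) (nat_lit 47) (nat_lit 5) (nat_lit 44) (nat_lit 5) (nat_lit 380) (nat_lit 292) (nat_lit 228)))) (XT.nd (nat_lit 156) (nat_lit 380) (nat_lit 0) (XT.nd (nat_lit 78) (nat_lit 228) (nat_lit 0) (XT.lf (nat_lit 0) (nat_lit 6567319328) (nat_lit 152) (nat_lit 4375252916) (nat_lit 228) (nat_lit 6398115930) (nat_lit 41) (nat_lit 5) (nat_lit 43) (nat_lit 5) (nat_lit 44) (nat_lit 5) (nat_lit 381) (nat_lit 292) (nat_lit 227)) (XT.lf (nat_lit 0) (nat_lit 2468199528) (nat_lit 228) (nat_lit 14864562600) (nat_lit 304) (nat_lit 371201609) (nat_lit 38) (nat_lit 5) (nat_lit 41) (nat_lit 5) (nat_lit 42) (nat_lit 5) (nat_lit 382) (nat_lit 292) (nat_lit 226))) (XT.nd (nat_lit 78) (nat_lit 304) (nat_lit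 0) (XT.lf (nat_lit 0) (nat_lit 5810843945) (nat_lit 304) (nat_lit 1979624966) (nat_lit 76) (nat_lit 10285902630) (nat_lit 37) (nat_lit 5) (nat_lit 41) (nat_lit 5) (nat_lit 38) (nat_lit 5) (nat_lit 383) (nat_lit 292) (nat_lit 225)) (XT.nd (nat_lit 78) (nat_lit 152) (nat_lit 0) (XT.lf (nat_lit 0) (nat_lit 11738491093) (nat_lit 152) (nat_lit 460694701) (nat_lit 228) (nat_lit 6260208160) (nat_lit 35) (nat_lit 5) (nat_lit 37) (nat_lit 5) (nat_lit 38) (nat_lit 5) (nat_lit 384) (nat_lit 292) (nat_lit 224)) (XT.lf (nat_lit 0) (nat_lit 7000785569) (nat_lit 152) (nat_lit 11833685438) (nat_lit 228) (nat_lit 18338919) (nat_lit 33) (nat_lit 5) (nat_lit 35) (nat_lit 5) (nat_lit 36) (nat_lit 5) (nat_lit 385) (nat_lit 292) (nat_lit 223)))))) (XT.nd (nat_lit 390) (nat_lit 5548) (nat_lit 0) (XT.nd (nat_lit 156) (nat_lit 3344) (nat_lit 0) (XT.nd (nat_lit 78) (nat_lit 988) (nat_lit 0) (XT.lf (nat_lit 0) (nat_lit 1449218972)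 (nat_lit 836) (nat_lit 939837171) (nat_lit 836) (nat_lit 939837171) (nat_lit 599) (nat_lit 4) (nat_lit 610) (nat_lit 5) (nat_lit 610) (nat_lit 4) (nat_lit 314) (nat_lit 293) (nat_lit 293)) (XT.lf (nat_lit 0) (nat_lit 2386544764) (nat_lit 912) (nat_lit 424791642) (nat_lit 988) (nat_lit 3879007504) (nat_lit 586) (nat_lit 5) (nat_lit 598) (nat_lit 5) (nat_lit 599) (nat_lit 4) (nat_lit 315) (nat_lit 293) (nat_lit 292))) (XT.nd (nat_lit 78) (nat_lit 2280) (nat_lit 0) (XT.lf (nat_lit 0) (nat_lit 770427200) (nat_lit 1064) (nat_lit 4805321102) (nat_lit 76) (nat_lit 1150123264) (nat_lit 572) (nat_lit 5) (nat_lit 586) (nat_lit 5) (nat_lit 573) (nat_lit 4) (nat_lit 316) (nat_lit 293) (nat_lit 291)) (XT.nd (nat_lit 78) (nat_lit 1216) (nat_lit 0) (XT.lf (nat_lit 0) (nat_lit 1494417980) (nat_lit 1064) (nat_lit 3900884976) (nat_lit 1140) (nat_lit 1368995570) (nat_lit 558) (nat_lit 5) (nat_lit 572) (nat_lit 5) (nat_lit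 573) (nat_lit 4) (nat_lit 317) (nat_lit 293) (nat_lit 290)) (XT.lf (nat_lit 0) (nat_lit 1113339836) (nat_lit 1140) (nat_lit 2086736505) (nat_lit 1216) (nat_lit 3605699358) (nat_lit 542) (nat_lit 5) (nat_lit 557) (nat_lit 5) (nat_lit 558) (nat_lit 5) (nat_lit 318) (nat_lit 293) (nat_lit 289))))) (XT.nd (nat_lit 156) (nat_lit 2964) (nat_lit 0) (XT.nd (nat_lit 78) (nat_lit 1292) (nat_lit 0) (XT.lf (nat_lit 0) (nat_lit 781564668) (nat_lit 1216) (nat_lit 136716337) (nat_lit 1292) (nat_lit 5932156329) (nat_lit 525) (nat_lit 5) (nat_lit 541) (nat_lit 5) (nat_lit 542) (nat_lit 5) (nat_lit 319) (nat_lit 293) (nat_lit 288)) (XT.lf (nat_lit 0) (nat_lit 475620260) (nat_lit 1292) (nat_lit 4962930123) (nat_lit 1368) (nat_lit 1459325695) (nat_lit 508) (nat_lit 5) (nat_lit 525) (nat_lit 5) (nat_lit 526) (nat_lit 5) (nat_lit 320) (nat_lit 293) (nat_lit 287))) (XT.nd (nat_lit 78) (nat_lit 1520) (nat_lit 0) (XT.lf (nat_lit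 0) (nat_lit 208637603) (nat_lit 1368) (nat_lit 2799017658) (nat_lit 1444) (nat_lit 3940749037) (nat_lit 489) (nat_lit 5) (nat_lit 507) (nat_lit 5) (nat_lit 508) (nat_lit 5) (nat_lit 321) (nat_lit 293) (nat_lit 286)) (XT.nd (nat_lit 78) (nat_lit 1444) (nat_lit 0) (XT.lf (nat_lit 0) (nat_lit 484609159) (nat_lit 1444) (nat_lit 13006950) (nat_lit 76) (nat_lit 6504582808) (nat_lit 488) (nat_lit 5) (nat_lit 507) (nat_lit 5) (nat_lit 489) (nat_lit 5) (nat_lit 322) (nat_lit 293) (nat_lit 285)) (XT.lf (nat_lit 0) (nat_lit 4910719155) (nat_lit 1520) (nat_lit 214911303) (nat_lit 76) (nat_lit 1933117760) (nat_lit 469) (nat_lit 5) (nat_lit 489) (nat_lit 5) (nat_lit 470) (nat_lit 5) (nat_lit 323) (nat_lit 293) (nat_lit 284))))))) (XT.nd (nat_lit 780) (nat_lit 7068) (nat_lit 0) (XT.nd (nat_lit 390) (nat_lit 4332) (nat_lit 0) (XT.nd (nat_lit 156) (nat_lit 4560) (nat_lit 0) (XT.nd (nat_lit 78) (nat_lit 1596) (nat_lit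 0) (XT.lf (nat_lit 0) (nat_lit 2235610910) (nat_lit 1596) (nat_lit 381873445) (nat_lit 76) (nat_lit 4501015170) (nat_lit 448) (nat_lit 5) (nat_lit 469) (nat_lit 5) (nat_lit 449) (nat_lit 5) (nat_lit 324) (nat_lit 293) (nat_lit 283)) (XT.lf (nat_lit 0) (nat_lit 6636118120) (nat_lit 1672) (nat_lit 512027751) (nat_lit 76) (nat_lit 33408111) (nat_lit 427) (nat_lit 5) (nat_lit 449) (nat_lit 5) (nat_lit 428) (nat_lit 5) (nat_lit 325) (nat_lit 293) (nat_lit 282))) (XT.nd (nat_lit 78) (nat_lit 2812) (nat_lit 0) (XT.lf (nat_lit 0) (nat_lit 3805840913) (nat_lit 1748) (nat_lit 635805939) (nat_lit 76) (nat_lit 2805722411) (nat_lit 404) (nat_lit 5) (nat_lit 427) (nat_lit 5) (nat_lit 405) (nat_lit 5) (nat_lit 326) (nat_lit 293) (nat_lit 281)) (XT.nd (nat_lit 78) (nat_lit 988) (nat_lit 0) (XT.lf (nat_lit 0) (nat_lit 872753544) (nat_lit 1824) (nat_lit 722226567) (nat_lit 76) (nat_lit 5721653774) (nat_lit 380) (nat_lit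 5) (nat_lit 404) (nat_lit 5) (nat_lit 381) (nat_lit 5) (nat_lit 327) (nat_lit 293) (nat_lit 280)) (XT.lf (nat_lit 0) (nat_lit 5202776060) (nat_lit 1064) (nat_lit 795499921) (nat_lit 76) (nat_lit 1390659238) (nat_lit 367) (nat_lit 5) (nat_lit 381) (nat_lit 5) (nat_lit 368) (nat_lit 5) (nat_lit 328) (nat_lit 293) (nat_lit 279))))) (XT.nd (nat_lit 156) (nat_lit 2508) (nat_lit 0) (XT.nd (nat_lit 78) (nat_lit 836) (nat_lit 0) (XT.lf (nat_lit 0) (nat_lit 2107847368) (nat_lit 988) (nat_lit 850830537) (nat_lit 76) (nat_lit 4505765652) (nat_lit 354) (nat_lit 5) (nat_lit 367) (nat_lit 5) (nat_lit 355) (nat_lit 5) (nat_lit 329) (nat_lit 293) (nat_lit 278)) (XT.lf (nat_lit 0) (nat_lit 6432471224) (nat_lit 912) (nat_lit 881649316) (nat_lit 76) (nat_lit 229247050) (nat_lit 343) (nat_lit 5) (nat_lit 355) (nat_lit 5) (nat_lit 344) (nat_lit 5) (nat_lit 330) (nat_lit 293) (nat_lit 277))) (XT.nd (nat_lit 78) (nat_lit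 1596) (nat_lit 0) (XT.lf (nat_lit 0) (nat_lit 3172083182) (nat_lit 912) (nat_lit 914941902) (nat_lit 76) (nat_lit 3538222882) (nat_lit 331) (nat_lit 5) (nat_lit 343) (nat_lit 5) (nat_lit 332) (nat_lit 5) (nat_lit 331) (nat_lit 293) (nat_lit 276)) (XT.nd (nat_lit 78) (nat_lit 836) (nat_lit 0) (XT.lf (nat_lit 0) (nat_lit 6791025023) (nat_lit 760) (nat_lit 713179099) (nat_lit 836) (nat_lit 206583029) (nat_lit 321) (nat_lit 5) (nat_lit 331) (nat_lit 5) (nat_lit 332) (nat_lit 5) (nat_lit 332) (nat_lit 293) (nat_lit 275)) (XT.lf (nat_lit 0) (nat_lit 4069345813) (nat_lit 836) (nat_lit 935695311) (nat_lit 76) (nat_lit 2794239190) (nat_lit 310) (nat_lit 5) (nat_lit 321) (nat_lit 5) (nat_lit 311) (nat_lit 5) (nat_lit 333) (nat_lit 293) (nat_lit 274)))))) (XT.nd (nat_lit 390) (nat_lit 3268) (nat_lit 0) (XT.nd (nat_lit 156) (nat_lit 2204) (nat_lit 0) (XT.nd (nat_lit 78) (nat_lit 760) (nat_lit 0) (XT.lf (nat_lit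 0) (nat_lit 518324493) (nat_lit 836) (nat_lit 930035656) (nat_lit 76) (nat_lit 6443111757) (nat_lit 299) (nat_lit 5) (nat_lit 310) (nat_lit 5) (nat_lit 300) (nat_lit 5) (nat_lit 334) (nat_lit 293) (nat_lit 273)) (XT.lf (nat_lit 0) (nat_lit 4802097809) (nat_lit 836) (nat_lit 934690456) (nat_lit 76) (nat_lit 2250029481) (nat_lit 289) (nat_lit 5) (nat_lit 300) (nat_lit 5) (nat_lit 290) (nat_lit 5) (nat_lit 335) (nat_lit 293) (nat_lit 272))) (XT.nd (nat_lit 78) (nat_lit 1444) (nat_lit 0) (XT.lf (nat_lit 0) (nat_lit 1070414155) (nat_lit 760) (nat_lit 929752960) (nat_lit 76) (nat_lit 6085646597) (nat_lit 279) (nat_lit 5) (nat_lit 289) (nat_lit 5) (nat_lit 280) (nat_lit 5) (nat_lit 336) (nat_lit 293) (nat_lit 271)) (XT.nd (nat_lit 78) (nat_lit 760) (nat_lit 0) (XT.lf (nat_lit 0) (nat_lit 5371366218) (nat_lit 760) (nat_lit 934195578) (nat_lit 76) (nat_lit 1882620254) (nat_lit 270) (nat_lit 5) (nat_lit 280)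 (nat_lit 5) (nat_lit 271) (nat_lit 5) (nat_lit 337) (nat_lit 293) (nat_lit 270)) (XT.lf (nat_lit 0) (nat_lit 1452598365) (nat_lit 760) (nat_lit 940329694) (nat_lit 76) (nat_lit 5901254293) (nat_lit 260) (nat_lit 5) (nat_lit 270) (nat_lit 5) (nat_lit 261) (nat_lit 5) (nat_lit 338) (nat_lit 293) (nat_lit 269))))) (XT.nd (nat_lit 156) (nat_lit 1900) (nat_lit 0) (XT.nd (nat_lit 78) (nat_lit 684) (nat_lit 0) (XT.lf (nat_lit 0) (nat_lit 5776717583) (nat_lit 760) (nat_lit 957361084) (nat_lit 76) (nat_lit 1669661963) (nat_lit 251) (nat_lit 5) (nat_lit 261) (nat_lit 5) (nat_lit 252) (nat_lit 5) (nat_lit 339) (nat_lit 293) (nat_lit 268)) (XT.lf (nat_lit 0) (nat_lit 1663587748) (nat_lit 684) (nat_lit 985509502) (nat_lit 76) (nat_lit 5867869870) (nat_lit 242) (nat_lit 5) (nat_lit 251) (nat_lit 5) (nat_lit 243) (nat_lit 5) (nat_lit 340) (nat_lit 293) (nat_lit 267))) (XT.nd (nat_lit 78) (nat_lit 1292) (nat_lit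 0) (XT.lf (nat_lit 0) (nat_lit 6016220705) (nat_lit 684) (nat_lit 1028445184) (nat_lit 76) (nat_lit 1589241861) (nat_lit 234) (nat_lit 5) (nat_lit 243) (nat_lit 5) (nat_lit 235) (nat_lit 5) (nat_lit 341) (nat_lit 293) (nat_lit 266)) (XT.nd (nat_lit 78) (nat_lit 608) (nat_lit 0) (XT.lf (nat_lit 0) (nat_lit 1700557194) (nat_lit 684) (nat_lit 1090255623) (nat_lit 76) (nat_lit 5963792207) (nat_lit 225) (nat_lit 5) (nat_lit 234) (nat_lit 5) (nat_lit 226) (nat_lit 5) (nat_lit 342) (nat_lit 293) (nat_lit 265)) (XT.lf (nat_lit 0) (nat_lit 6086396642) (nat_lit 684) (nat_lit 1173053606) (nat_lit 76) (nat_lit 1619695823) (nat_lit 217) (nat_lit 5) (nat_lit 226) (nat_lit 5) (nat_lit 218) (nat_lit 5) (nat_lit 343) (nat_lit 293) (nat_lit 264))))))))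
noncomputable def xc35 : XT := (XT.nd (nat_lit 1482) (nat_lit 4712) (nat_lit 0) (XT.nd (nat_lit 702) (nat_lit 3876) (nat_lit 0) (XT.nd (nat_lit 312) (nat_lit 2508) (nat_lit 0) (XT.nd (nat_lit 156) (nat_lit 1140) (nat_lit 0) (XT.nd (nat_lit 78) (nat_lit 532) (nat_lit 0) (XT.lf (nat_lit 0) (nat_lit 1559089396) (nat_lit 608) (nat_lit 1280998894) (nat_lit 76) (nat_lit 6167494169) (nat_lit 209) (nat_lit 5) (nat_lit 217) (nat_lit 5) (nat_lit 210) (nat_lit 5) (nat_lit 344) (nat_lit 293) (nat_lit 263)) (XT.lf (nat_lit 0) (nat_lit 5982155279) (nat_lit 608) (nat_lit 1418395581) (nat_lit 76) (nat_lit 1739417622) (nat_lit 202) (nat_lit 5) (nat_lit 210) (nat_lit 5) (nat_lit 203) (nat_lit 5) (nat_lit 345) (nat_lit 293) (nat_lit 262))) (XT.nd (nat_lit 78) (nat_lit 532) (nat_lit 0) (XT.lf (nat_lit 0) (nat_lit 1233104541) (nat_lit 608) (nat_lit 1585903163) (nat_lit 76) (nat_lit 6457429491) (nat_lit 194) (nat_lit 5)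 (nat_lit 202) (nat_lit 5) (nat_lit 195) (nat_lit 5) (nat_lit 346) (nat_lit 293) (nat_lit 261)) (XT.lf (nat_lit 0) (nat_lit 5696717695) (nat_lit 608) (nat_lit 1793558495) (nat_lit 76) (nat_lit 1926664060) (nat_lit 187) (nat_lit 5) (nat_lit 195) (nat_lit 5) (nat_lit 188) (nat_lit 5) (nat_lit 347) (nat_lit 293) (nat_lit 260)))) (XT.nd (nat_lit 156) (nat_lit 1444) (nat_lit 0) (XT.nd (nat_lit 78) (nat_lit 532) (nat_lit 0) (XT.lf (nat_lit 0) (nat_lit 714775309) (nat_lit 532) (nat_lit 2035150584) (nat_lit 76) (nat_lit 6811834779) (nat_lit 180) (nat_lit 5) (nat_lit 187) (nat_lit 5) (nat_lit 181) (nat_lit 5) (nat_lit 348) (nat_lit 293) (nat_lit 259)) (XT.lf (nat_lit 0) (nat_lit 5221523421) (nat_lit 608) (nat_lit 2329803765) (nat_lit 76) (nat_lit 2159354316) (nat_lit 173) (nat_lit 5) (nat_lit 181) (nat_lit 5) (nat_lit 174) (nat_lit 5) (nat_lit 349) (nat_lit 293) (nat_lit 258))) (XT.nd (nat_lit 78) (nat_lit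 988) (nat_lit 0) (XT.lf (nat_lit 0) (nat_lit 7202913770) (nat_lit 456) (nat_lit 2655638306) (nat_lit 532) (nat_lit 5647851) (nat_lit 167) (nat_lit 5) (nat_lit 173) (nat_lit 5) (nat_lit 174) (nat_lit 5) (nat_lit 350) (nat_lit 293) (nat_lit 257)) (XT.nd (nat_lit 78) (nat_lit 456) (nat_lit 0) (XT.lf (nat_lit 0) (nat_lit 4546121553) (nat_lit 532) (nat_lit 3060886750) (nat_lit 76) (nat_lit 2414861768) (nat_lit 160) (nat_lit 5) (nat_lit 167) (nat_lit 5) (nat_lit 161) (nat_lit 5) (nat_lit 351) (nat_lit 293) (nat_lit 256)) (XT.lf (nat_lit 0) (nat_lit 6678791441) (nat_lit 456) (nat_lit 2553478854) (nat_lit 532) (nat_lit 952070356) (nat_lit 154) (nat_lit 5) (nat_lit 160) (nat_lit 5) (nat_lit 161) (nat_lit 5) (nat_lit 352) (nat_lit 293) (nat_lit 255)))))) (XT.nd (nat_lit 390) (nat_lit 1596) (nat_lit 0) (XT.nd (nat_lit 156) (nat_lit 1368) (nat_lit 0) (XT.nd (nat_lit 78) (nat_lit 380) (nat_lit 0) (XT.lf (nat_lit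 0) (nat_lit 3658044523) (nat_lit 532) (nat_lit 4023403720) (nat_lit 76) (nat_lit 2669796465) (nat_lit 147) (nat_lit 5) (nat_lit 154) (nat_lit 5) (nat_lit 148) (nat_lit 5) (nat_lit 353) (nat_lit 293) (nat_lit 254)) (XT.lf (nat_lit 0) (nat_lit 5921527872) (nat_lit 380) (nat_lit 2472599162) (nat_lit 456) (nat_lit 2128917937) (nat_lit 142) (nat_lit 5) (nat_lit 147) (nat_lit 5) (nat_lit 148) (nat_lit 5) (nat_lit 354) (nat_lit 293) (nat_lit 253))) (XT.nd (nat_lit 78) (nat_lit 836) (nat_lit 0) (XT.lf (nat_lit 0) (nat_lit 2542663192) (nat_lit 532) (nat_lit 5257169217) (nat_lit 76) (nat_lit 2899776312) (nat_lit 135) (nat_lit 5) (nat_lit 142) (nat_lit 5) (nat_lit 136) (nat_lit 5) (nat_lit 355) (nat_lit 293) (nat_lit 252)) (XT.nd (nat_lit 78) (nat_lit 456) (nat_lit 0) (XT.lf (nat_lit 0) (nat_lit 4890247073) (nat_lit 380) (nat_lit 2438498945) (nat_lit 456) (nat_lit 3552401249) (nat_lit 130) (nat_lit 5) (nat_lit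 135) (nat_lit 5) (nat_lit 136) (nat_lit 5) (nat_lit 356) (nat_lit 293) (nat_lit 251)) (XT.lf (nat_lit 0) (nat_lit 1183021716) (nat_lit 456) (nat_lit 6805627421) (nat_lit 76) (nat_lit 3079184898) (nat_lit 124) (nat_lit 5) (nat_lit 130) (nat_lit 5) (nat_lit 125) (nat_lit 5) (nat_lit 357) (nat_lit 293) (nat_lit 250))))) (XT.nd (nat_lit 156) (nat_lit 836) (nat_lit 0) (XT.nd (nat_lit 78) (nat_lit 380) (nat_lit 0) (XT.lf (nat_lit 0) (nat_lit 3540281859) (nat_lit 380) (nat_lit 2478075418) (nat_lit 456) (nat_lit 5241195234) (nat_lit 119) (nat_lit 5) (nat_lit 124) (nat_lit 5) (nat_lit 125) (nat_lit 5) (nat_lit 358) (nat_lit 293) (nat_lit 249)) (XT.lf (nat_lit 0) (nat_lit 2737609276) (nat_lit 380) (nat_lit 8272997013) (nat_lit 456) (nat_lit 446201512) (nat_lit 114) (nat_lit 5) (nat_lit 119) (nat_lit 5) (nat_lit 120) (nat_lit 5) (nat_lit 359) (nat_lit 293) (nat_lit 248))) (XT.nd (nat_lit 78) (nat_lit 456) (nat_lit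 0) (XT.lf (nat_lit 0) (nat_lit 1822707145) (nat_lit 304) (nat_lit 2619893206) (nat_lit 380) (nat_lit 7216640662) (nat_lit 109) (nat_lit 5) (nat_lit 113) (nat_lit 5) (nat_lit 114) (nat_lit 5) (nat_lit 360) (nat_lit 293) (nat_lit 247)) (XT.nd (nat_lit 78) (nat_lit 76) (nat_lit 0) (XT.lf (nat_lit 0) (nat_lit 810674588) (nat_lit 380) (nat_lit 8675873165) (nat_lit 456) (nat_lit 2380870243) (nat_lit 104) (nat_lit 5) (nat_lit 109) (nat_lit 5) (nat_lit 110) (nat_lit 5) (nat_lit 361) (nat_lit 293) (nat_lit 246)) (XT.lf (nat_lit 0) (nat_lit 2580355580) (nat_lit 456) (nat_lit 312024365) (nat_lit 76) (nat_lit 9188852737) (nat_lit 103) (nat_lit 5) (nat_lit 109) (nat_lit 5) (nat_lit 104) (nat_lit 5) (nat_lit 362) (nat_lit 293) (nat_lit 245))))))) (XT.nd (nat_lit 780) (nat_lit 1900) (nat_lit 0) (XT.nd (nat_lit 390) (nat_lit 1216) (nat_lit 0) (XT.nd (nat_lit 156) (nat_lit 912) (nat_lit 0) (XT.nd (nat_lit 78) (nat_lit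 380) (nat_lit 0) (XT.lf (nat_lit 0) (nat_lit 7680344791) (nat_lit 380) (nat_lit 1546373099) (nat_lit 76) (nat_lit 3074002769) (nat_lit 99) (nat_lit 5) (nat_lit 104) (nat_lit 5) (nat_lit 100) (nat_lit 5) (nat_lit 363) (nat_lit 293) (nat_lit 244)) (XT.lf (nat_lit 0) (nat_lit 418290047) (nat_lit 380) (nat_lit 2896877589) (nat_lit 76) (nat_lit 9211249368) (nat_lit 94) (nat_lit 5) (nat_lit 99) (nat_lit 5) (nat_lit 95) (nat_lit 5) (nat_lit 364) (nat_lit 293) (nat_lit 243))) (XT.nd (nat_lit 78) (nat_lit 608) (nat_lit 0) (XT.lf (nat_lit 0) (nat_lit 5562848877) (nat_lit 380) (nat_lit 4398626687) (nat_lit 76) (nat_lit 2796465366) (nat_lit 90) (nat_lit 5) (nat_lit 95) (nat_lit 5) (nat_lit 91) (nat_lit 5) (nat_lit 365) (nat_lit 293) (nat_lit 242)) (XT.nd (nat_lit 78) (nat_lit 304) (nat_lit 0) (XT.lf (nat_lit 0) (nat_lit 6962401640) (nat_lit 304) (nat_lit 3921303768) (nat_lit 380) (nat_lit 2112283054) (nat_lit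 86) (nat_lit 5) (nat_lit 90) (nat_lit 5) (nat_lit 91) (nat_lit 5) (nat_lit 366) (nat_lit 293) (nat_lit 241)) (XT.lf (nat_lit 0) (nat_lit 3098199339) (nat_lit 304) (nat_lit 7823997391) (nat_lit 76) (nat_lit 2318268480) (nat_lit 82) (nat_lit 5) (nat_lit 86) (nat_lit 5) (nat_lit 83) (nat_lit 5) (nat_lit 367) (nat_lit 293) (nat_lit 240))))) (XT.nd (nat_lit 156) (nat_lit 608) (nat_lit 0) (XT.nd (nat_lit 78) (nat_lit 304) (nat_lit 0) (XT.lf (nat_lit 0) (nat_lit 3707153894) (nat_lit 304) (nat_lit 4757355310) (nat_lit 380) (nat_lit 5026939408) (nat_lit 78) (nat_lit 5) (nat_lit 82) (nat_lit 5) (nat_lit 83) (nat_lit 5) (nat_lit 368) (nat_lit 293) (nat_lit 239)) (XT.lf (nat_lit 0) (nat_lit 252043556) (nat_lit 304) (nat_lit 11896657145) (nat_lit 76) (nat_lit 1600977086) (nat_lit 74) (nat_lit 5) (nat_lit 78) (nat_lit 5) (nat_lit 75) (nat_lit 5) (nat_lit 369) (nat_lit 293) (nat_lit 238))) (XT.nd (nat_lit 78) (nat_lit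 608) (nat_lit 0) (XT.lf (nat_lit 0) (nat_lit 5658340663) (nat_lit 304) (nat_lit 207361912) (nat_lit 76) (nat_lit 8148556491) (nat_lit 74) (nat_lit 5) (nat_lit 78) (nat_lit 5) (nat_lit 75) (nat_lit 5) (nat_lit 370) (nat_lit 293) (nat_lit 237)) (XT.nd (nat_lit 78) (nat_lit 304) (nat_lit 0) (XT.lf (nat_lit 0) (nat_lit 11248324005) (nat_lit 380) (nat_lit 2399700511) (nat_lit 76) (nat_lit 638337502) (nat_lit 70) (nat_lit 5) (nat_lit 75) (nat_lit 5) (nat_lit 71) (nat_lit 5) (nat_lit 371) (nat_lit 293) (nat_lit 236)) (XT.lf (nat_lit 0) (nat_lit 2452729254) (nat_lit 304) (nat_lit 4810194276) (nat_lit 76) (nat_lit 7302494400) (nat_lit 66) (nat_lit 5) (nat_lit 70) (nat_lit 5) (nat_lit 67) (nat_lit 5) (nat_lit 372) (nat_lit 293) (nat_lit 235)))))) (XT.nd (nat_lit 390) (nat_lit 836) (nat_lit 0) (XT.nd (nat_lit 156) (nat_lit 608) (nat_lit 0) (XT.nd (nat_lit 78) (nat_lit 228) (nat_lit 0) (XT.lf (nat_lit 0) (nat_lit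 7436025541) (nat_lit 228) (nat_lit 637478920) (nat_lit 304) (nat_lit 6778821339) (nat_lit 63) (nat_lit 5) (nat_lit 66) (nat_lit 5) (nat_lit 67) (nat_lit 5) (nat_lit 373) (nat_lit 293) (nat_lit 234)) (XT.lf (nat_lit 0) (nat_lit 4896569211) (nat_lit 228) (nat_lit 9013622832) (nat_lit 304) (nat_lit 1236715806) (nat_lit 60) (nat_lit 5) (nat_lit 63) (nat_lit 5) (nat_lit 64) (nat_lit 5) (nat_lit 374) (nat_lit 293) (nat_lit 233))) (XT.nd (nat_lit 78) (nat_lit 304) (nat_lit 0) (XT.lf (nat_lit 0) (nat_lit 2130563451) (nat_lit 228) (nat_lit 2294322885) (nat_lit 304) (nat_lit 11024634877) (nat_lit 56) (nat_lit 5) (nat_lit 59) (nat_lit 5) (nat_lit 60) (nat_lit 5) (nat_lit 375) (nat_lit 293) (nat_lit 232)) (XT.nd (nat_lit 78) (nat_lit 304) (nat_lit 0) (XT.lf (nat_lit 0) (nat_lit 10283590089) (nat_lit 304) (nat_lit 869506514) (nat_lit 76) (nat_lit 4607083527) (nat_lit 56) (nat_lit 5) (nat_lit 60) (nat_lit 5) (nat_lit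 57) (nat_lit 5) (nat_lit 376) (nat_lit 293) (nat_lit 231)) (XT.lf (nat_lit 0) (nat_lit 273937287) (nat_lit 304) (nat_lit 4077045728) (nat_lit 76) (nat_lit 11728372878) (nat_lit 52) (nat_lit 5) (nat_lit 56) (nat_lit 5) (nat_lit 53) (nat_lit 5) (nat_lit 377) (nat_lit 293) (nat_lit 230))))) (XT.nd (nat_lit 156) (nat_lit 456) (nat_lit 0) (XT.nd (nat_lit 78) (nat_lit 152) (nat_lit 0) (XT.lf (nat_lit 0) (nat_lit 6150340468) (nat_lit 304) (nat_lit 7571829985) (nat_lit 76) (nat_lit 2684668030) (nat_lit 49) (nat_lit 5) (nat_lit 53) (nat_lit 5) (nat_lit 50) (nat_lit 5) (nat_lit 378) (nat_lit 293) (nat_lit 229)) (XT.lf (nat_lit 0) (nat_lit 5398182048) (nat_lit 152) (nat_lit 6843827639) (nat_lit 228) (nat_lit 4501366935) (nat_lit 47) (nat_lit 5) (nat_lit 49) (nat_lit 5) (nat_lit 50) (nat_lit 5) (nat_lit 379) (nat_lit 293) (nat_lit 228))) (XT.nd (nat_lit 78) (nat_lit 152) (nat_lit 0) (XT.lf (nat_lit 0) (nat_lit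 1419799557) (nat_lit 304) (nat_lit 15396063707) (nat_lit 76) (nat_lit 273730674) (nat_lit 43) (nat_lit 5) (nat_lit 47) (nat_lit 5) (nat_lit 44) (nat_lit 5) (nat_lit 380) (nat_lit 293) (nat_lit 227)) (XT.nd (nat_lit 78) (nat_lit 152) (nat_lit 0) (XT.lf (nat_lit 0) (nat_lit 7529300495) (nat_lit 304) (nat_lit 2330903509) (nat_lit 76) (nat_lit 7583971332) (nat_lit 43) (nat_lit 5) (nat_lit 47) (nat_lit 5) (nat_lit 44) (nat_lit 5) (nat_lit 381) (nat_lit 293) (nat_lit 226)) (XT.lf (nat_lit 0) (nat_lit 11186934590) (nat_lit 152) (nat_lit 2657640515) (nat_lit 228) (nat_lit 3964378763) (nat_lit 41) (nat_lit 5) (nat_lit 43) (nat_lit 5) (nat_lit 44) (nat_lit 5) (nat_lit 382) (nat_lit 293) (nat_lit 225))))))))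
noncomputable def xc36 : XT := (XT.nd (nat_lit 42588) (nat_lit 0) (nat_lit 11552) (XT.nd (nat_lit 41808) (nat_lit 0) (nat_lit 26220) (XT.nd (nat_lit 41418) (nat_lit 0) (nat_lit 39672) (XT.nd (nat_lit 156) (nat_lit 0) (nat_lit 0) (XT.nd (nat_lit 78) (nat_lit 152) (nat_lit 0) (XT.lf (nat_lit 0) (nat_lit 2178872153) (nat_lit 304) (nat_lit 11265779932) (nat_lit 76) (nat_lit 4738899007) (nat_lit 37) (nat_lit 5) (nat_lit 41) (nat_lit 5) (nat_lit 38) (nat_lit 5) (nat_lit 383) (nat_lit 293) (nat_lit 224)) (XT.lf (nat_lit 0) (nat_lit 2286680210) (nat_lit 152) (nat_lit 6195078790) (nat_lit 228) (nat_lit 10086527916) (nat_lit 35) (nat_lit 5) (nat_lit 37) (nat_lit 5) (nat_lit 38) (nat_lit 5) (nat_lit 384) (nat_lit 293) (nat_lit 223))) (XT.nd (nat_lit 41184) (nat_lit 0) (nat_lit 44536) (XT.lf (nat_lit 0) (nat_lit 15010593990) (nat_lit 228) (nat_lit 2655885182) (nat_lit 76) (nat_lit 1297356902) (nat_lit 35) (nat_lit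 5) (nat_lit 38) (nat_lit 5) (nat_lit 36) (nat_lit 5) (nat_lit 385) (nat_lit 293) (nat_lit 222)) (XT.lf (nat_lit 0) (nat_lit 2073273618) (nat_lit 684) (nat_lit 613445211) (nat_lit 684) (nat_lit 613445211) (nat_lit 621) (nat_lit 4) (nat_lit 630) (nat_lit 5) (nat_lit 630) (nat_lit 4) (nat_lit 312) (nat_lit 294) (nat_lit 294)))) (XT.nd (nat_lit 156) (nat_lit 3116) (nat_lit 0) (XT.nd (nat_lit 78) (nat_lit 912) (nat_lit 0) (XT.lf (nat_lit 0) (nat_lit 3427918787) (nat_lit 836) (nat_lit 3163608307) (nat_lit 0) (nat_lit 36793366) (nat_lit 610) (nat_lit 5) (nat_lit 621) (nat_lit 4) (nat_lit 610) (nat_lit 4) (nat_lit 313) (nat_lit 294) (nat_lit 293)) (XT.lf (nat_lit 0) (nat_lit 1412675533) (nat_lit 912) (nat_lit 3829875622) (nat_lit 76) (nat_lit 1416681937) (nat_lit 598) (nat_lit 5) (nat_lit 610) (nat_lit 5) (nat_lit 599) (nat_lit 4) (nat_lit 314) (nat_lit 294) (nat_lit 292))) (XT.nd (nat_lit 78) (nat_lit 2204)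 (nat_lit 0) (XT.lf (nat_lit 0) (nat_lit 2242985701) (nat_lit 912) (nat_lit 3758463235) (nat_lit 988) (nat_lit 691710876) (nat_lit 586) (nat_lit 5) (nat_lit 598) (nat_lit 5) (nat_lit 599) (nat_lit 4) (nat_lit 315) (nat_lit 294) (nat_lit 291)) (XT.nd (nat_lit 78) (nat_lit 1140) (nat_lit 0) (XT.lf (nat_lit 0) (nat_lit 1699145255) (nat_lit 988) (nat_lit 2132370916) (nat_lit 1064) (nat_lit 2898504372) (nat_lit 572) (nat_lit 5) (nat_lit 585) (nat_lit 5) (nat_lit 586) (nat_lit 5) (nat_lit 316) (nat_lit 294) (nat_lit 290)) (XT.lf (nat_lit 0) (nat_lit 1206341054) (nat_lit 1064) (nat_lit 372171702) (nat_lit 1140) (nat_lit 5191517452) (nat_lit 557) (nat_lit 5) (nat_lit 571) (nat_lit 5) (nat_lit 572) (nat_lit 5) (nat_lit 317) (nat_lit 294) (nat_lit 289)))))) (XT.nd (nat_lit 390) (nat_lit 8208) (nat_lit 0) (XT.nd (nat_lit 156) (nat_lit 2812) (nat_lit 0) (XT.nd (nat_lit 78) (nat_lit 1292) (nat_lit 0) (XT.lf (nat_lit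 0) (nat_lit 748510087) (nat_lit 1140) (nat_lit 5304129173) (nat_lit 1216) (nat_lit 760284545) (nat_lit 542) (nat_lit 5) (nat_lit 557) (nat_lit 5) (nat_lit 558) (nat_lit 5) (nat_lit 318) (nat_lit 294) (nat_lit 288)) (XT.lf (nat_lit 0) (nat_lit 325338968) (nat_lit 1216) (nat_lit 3327073378) (nat_lit 1292) (nat_lit 3206334674) (nat_lit 525) (nat_lit 5) (nat_lit 541) (nat_lit 5) (nat_lit 542) (nat_lit 5) (nat_lit 319) (nat_lit 294) (nat_lit 287))) (XT.nd (nat_lit 78) (nat_lit 2736) (nat_lit 0) (XT.lf (nat_lit 0) (nat_lit 1164157669) (nat_lit 1292) (nat_lit 50358923) (nat_lit 76) (nat_lit 5693268538) (nat_lit 524) (nat_lit 5) (nat_lit 541) (nat_lit 5) (nat_lit 525) (nat_lit 5) (nat_lit 320) (nat_lit 294) (nat_lit 286)) (XT.nd (nat_lit 78) (nat_lit 1444) (nat_lit 0) (XT.lf (nat_lit 0) (nat_lit 5534312529) (nat_lit 1368) (nat_lit 392549180) (nat_lit 76) (nat_lit 1032863709) (nat_lit 507) (nat_lit 5) (nat_lit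 525) (nat_lit 5) (nat_lit 508) (nat_lit 5) (nat_lit 321) (nat_lit 294) (nat_lit 285)) (XT.lf (nat_lit 0) (nat_lit 2897355750) (nat_lit 1444) (nat_lit 707354145) (nat_lit 76) (nat_lit 3409921053) (nat_lit 488) (nat_lit 5) (nat_lit 507) (nat_lit 5) (nat_lit 489) (nat_lit 5) (nat_lit 322) (nat_lit 294) (nat_lit 284))))) (XT.nd (nat_lit 156) (nat_lit 5168) (nat_lit 0) (XT.nd (nat_lit 78) (nat_lit 1520) (nat_lit 0) (XT.lf (nat_lit 0) (nat_lit 165665127) (nat_lit 1520) (nat_lit 980013456) (nat_lit 76) (nat_lit 5927178475) (nat_lit 468) (nat_lit 5) (nat_lit 488) (nat_lit 5) (nat_lit 469) (nat_lit 5) (nat_lit 323) (nat_lit 294) (nat_lit 283)) (XT.lf (nat_lit 0) (nat_lit 4444285440) (nat_lit 1596) (nat_lit 1238412316) (nat_lit 76) (nat_lit 1451210709) (nat_lit 448) (nat_lit 5) (nat_lit 469) (nat_lit 5) (nat_lit 449) (nat_lit 5) (nat_lit 324) (nat_lit 294) (nat_lit 282))) (XT.nd (nat_lit 78) (nat_lit 3496)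 (nat_lit 0) (XT.lf (nat_lit 0) (nat_lit 1557012493) (nat_lit 1672) (nat_lit 1466394781) (nat_lit 76) (nat_lit 4174765831) (nat_lit 426) (nat_lit 5) (nat_lit 448) (nat_lit 5) (nat_lit 427) (nat_lit 5) (nat_lit 325) (nat_lit 294) (nat_lit 281)) (XT.nd (nat_lit 78) (nat_lit 1824) (nat_lit 0) (XT.lf (nat_lit 0) (nat_lit 5600026497) (nat_lit 1672) (nat_lit 214714093) (nat_lit 1748) (nat_lit 1450943754) (nat_lit 404) (nat_lit 5) (nat_lit 426) (nat_lit 5) (nat_lit 427) (nat_lit 5) (nat_lit 326) (nat_lit 294) (nat_lit 280)) (XT.lf (nat_lit 0) (nat_lit 2768153413) (nat_lit 1824) (nat_lit 1856353357) (nat_lit 76) (nat_lit 2711602275) (nat_lit 380) (nat_lit 5) (nat_lit 404) (nat_lit 5) (nat_lit 381) (nat_lit 5) (nat_lit 327) (nat_lit 294) (nat_lit 279))))))) (XT.nd (nat_lit 780) (nat_lit 6308) (nat_lit 0) (XT.nd (nat_lit 390) (nat_lit 3800) (nat_lit 0) (XT.nd (nat_lit 156) (nat_lit 2584) (nat_lit 0) (XT.nd (nat_lit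 78) (nat_lit 988) (nat_lit 0) (XT.lf (nat_lit 0) (nat_lit 5393899791) (nat_lit 988) (nat_lit 1628187444) (nat_lit 1064) (nat_lit 387880848) (nat_lit 367) (nat_lit 5) (nat_lit 380) (nat_lit 5) (nat_lit 381) (nat_lit 5) (nat_lit 328) (nat_lit 294) (nat_lit 278)) (XT.lf (nat_lit 0) (nat_lit 3805330967) (nat_lit 988) (nat_lit 2170581784) (nat_lit 76) (nat_lit 1510908556) (nat_lit 354) (nat_lit 5) (nat_lit 367) (nat_lit 5) (nat_lit 355) (nat_lit 5) (nat_lit 329) (nat_lit 294) (nat_lit 277))) (XT.nd (nat_lit 78) (nat_lit 1672) (nat_lit 0) (XT.lf (nat_lit 0) (nat_lit 488901896) (nat_lit 912) (nat_lit 2304109443) (nat_lit 76) (nat_lit 4774051446) (nat_lit 342) (nat_lit 5) (nat_lit 354) (nat_lit 5) (nat_lit 343) (nat_lit 5) (nat_lit 330) (nat_lit 294) (nat_lit 276)) (XT.nd (nat_lit 78) (nat_lit 836) (nat_lit 0) (XT.lf (nat_lit 0) (nat_lit 4673379640) (nat_lit 912) (nat_lit 2429891879) (nat_lit 76) (nat_lit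 547237635) (nat_lit 331) (nat_lit 5) (nat_lit 343) (nat_lit 5) (nat_lit 332) (nat_lit 5) (nat_lit 331) (nat_lit 294) (nat_lit 275)) (XT.lf (nat_lit 0) (nat_lit 1187251620) (nat_lit 836) (nat_lit 2548952084) (nat_lit 76) (nat_lit 4001020906) (nat_lit 320) (nat_lit 5) (nat_lit 331) (nat_lit 5) (nat_lit 321) (nat_lit 5) (nat_lit 332) (nat_lit 294) (nat_lit 274))))) (XT.nd (nat_lit 156) (nat_lit 2204) (nat_lit 0) (XT.nd (nat_lit 78) (nat_lit 836) (nat_lit 0) (XT.lf (nat_lit 0) (nat_lit 5170646302) (nat_lit 760) (nat_lit 206426517) (nat_lit 836) (nat_lit 2450315297) (nat_lit 310) (nat_lit 5) (nat_lit 320) (nat_lit 5) (nat_lit 321) (nat_lit 5) (nat_lit 333) (nat_lit 294) (nat_lit 273)) (XT.lf (nat_lit 0) (nat_lit 1714917123) (nat_lit 836) (nat_lit 2769507873) (nat_lit 76) (nat_lit 3436341232) (nat_lit 299) (nat_lit 5) (nat_lit 310) (nat_lit 5) (nat_lit 300) (nat_lit 5) (nat_lit 334) (nat_lit 294) (nat_lit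 272))) (XT.nd (nat_lit 78) (nat_lit 1444) (nat_lit 0) (XT.lf (nat_lit 0) (nat_lit 5143960308) (nat_lit 760) (nat_lit 775492400) (nat_lit 836) (nat_lit 2098271103) (nat_lit 289) (nat_lit 5) (nat_lit 299) (nat_lit 5) (nat_lit 300) (nat_lit 5) (nat_lit 335) (nat_lit 294) (nat_lit 271)) (XT.nd (nat_lit 78) (nat_lit 684) (nat_lit 0) (XT.lf (nat_lit 0) (nat_lit 2073133566) (nat_lit 760) (nat_lit 2987799009) (nat_lit 76) (nat_lit 3057061423) (nat_lit 279) (nat_lit 5) (nat_lit 289) (nat_lit 5) (nat_lit 280) (nat_lit 5) (nat_lit 336) (nat_lit 294) (nat_lit 270)) (XT.lf (nat_lit 0) (nat_lit 5122090548) (nat_lit 684) (nat_lit 1175584843) (nat_lit 760) (nat_lit 1924240091) (nat_lit 270) (nat_lit 5) (nat_lit 279) (nat_lit 5) (nat_lit 280) (nat_lit 5) (nat_lit 337) (nat_lit 294) (nat_lit 269)))))) (XT.nd (nat_lit 390) (nat_lit 2888) (nat_lit 0) (XT.nd (nat_lit 156) (nat_lit 1976) (nat_lit 0) (XT.nd (nat_lit 78)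 (nat_lit 684) (nat_lit 0) (XT.lf (nat_lit 0) (nat_lit 2261688989) (nat_lit 760) (nat_lit 3226647432) (nat_lit 76) (nat_lit 2840922775) (nat_lit 260) (nat_lit 5) (nat_lit 270) (nat_lit 5) (nat_lit 261) (nat_lit 5) (nat_lit 338) (nat_lit 294) (nat_lit 268)) (XT.lf (nat_lit 0) (nat_lit 5082030934) (nat_lit 684) (nat_lit 1429015364) (nat_lit 760) (nat_lit 1929289463) (nat_lit 251) (nat_lit 5) (nat_lit 260) (nat_lit 5) (nat_lit 261) (nat_lit 5) (nat_lit 339) (nat_lit 294) (nat_lit 267))) (XT.nd (nat_lit 78) (nat_lit 1292) (nat_lit 0) (XT.lf (nat_lit 0) (nat_lit 2278891780) (nat_lit 684) (nat_lit 3509893558) (nat_lit 76) (nat_lit 2766173819) (nat_lit 242) (nat_lit 5) (nat_lit 251) (nat_lit 5) (nat_lit 243) (nat_lit 5) (nat_lit 340) (nat_lit 294) (nat_lit 266)) (XT.nd (nat_lit 78) (nat_lit 684) (nat_lit 0) (XT.lf (nat_lit 0) (nat_lit 4999685763) (nat_lit 608) (nat_lit 1557696493) (nat_lit 684) (nat_lit 2116021681)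 (nat_lit 234) (nat_lit 5) (nat_lit 242) (nat_lit 5) (nat_lit 243) (nat_lit 5) (nat_lit 341) (nat_lit 294) (nat_lit 265)) (XT.lf (nat_lit 0) (nat_lit 2121525702) (nat_lit 684) (nat_lit 3862628143) (nat_lit 76) (nat_lit 2811384844) (nat_lit 225) (nat_lit 5) (nat_lit 234) (nat_lit 5) (nat_lit 226) (nat_lit 5) (nat_lit 342) (nat_lit 294) (nat_lit 264))))) (XT.nd (nat_lit 156) (nat_lit 1672) (nat_lit 0) (XT.nd (nat_lit 78) (nat_lit 608) (nat_lit 0) (XT.lf (nat_lit 0) (nat_lit 4849631268) (nat_lit 608) (nat_lit 1583329862) (nat_lit 684) (nat_lit 2488626371) (nat_lit 217) (nat_lit 5) (nat_lit 225) (nat_lit 5) (nat_lit 226) (nat_lit 5) (nat_lit 343) (nat_lit 294) (nat_lit 263)) (XT.lf (nat_lit 0) (nat_lit 1784791879) (nat_lit 608) (nat_lit 4311439402) (nat_lit 76) (nat_lit 2955260490) (nat_lit 209) (nat_lit 5) (nat_lit 217) (nat_lit 5) (nat_lit 210) (nat_lit 5) (nat_lit 344) (nat_lit 294) (nat_lit 262)))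 (XT.nd (nat_lit 78) (nat_lit 1140) (nat_lit 0) (XT.lf (nat_lit 0) (nat_lit 4604861024) (nat_lit 532) (nat_lit 1527597102) (nat_lit 608) (nat_lit 3052945849) (nat_lit 202) (nat_lit 5) (nat_lit 209) (nat_lit 5) (nat_lit 210) (nat_lit 5) (nat_lit 345) (nat_lit 294) (nat_lit 261)) (XT.nd (nat_lit 78) (nat_lit 532) (nat_lit 0) (XT.lf (nat_lit 0) (nat_lit 1262237023) (nat_lit 608) (nat_lit 4884677671) (nat_lit 76) (nat_lit 3176448880) (nat_lit 194) (nat_lit 5) (nat_lit 202) (nat_lit 5) (nat_lit 195) (nat_lit 5) (nat_lit 346) (nat_lit 294) (nat_lit 260)) (XT.lf (nat_lit 0) (nat_lit 4236512873) (nat_lit 532) (nat_lit 1412355158) (nat_lit 608) (nat_lit 3816555049) (nat_lit 187) (nat_lit 5) (nat_lit 194) (nat_lit 5) (nat_lit 195) (nat_lit 5) (nat_lit 347) (nat_lit 294) (nat_lit 259))))))))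
noncomputable def xc37 : XT := (XT.nd (nat_lit 1482) (nat_lit 3876) (nat_lit 0) (XT.nd (nat_lit 702) (nat_lit 3344) (nat_lit 0) (XT.nd (nat_lit 312) (nat_lit 2280) (nat_lit 0) (XT.nd (nat_lit 156) (nat_lit 988) (nat_lit 0) (XT.nd (nat_lit 78) (nat_lit 532) (nat_lit 0) (XT.lf (nat_lit 0) (nat_lit 545667051) (nat_lit 532) (nat_lit 5612740071) (nat_lit 76) (nat_lit 3453345674) (nat_lit 180) (nat_lit 5) (nat_lit 187) (nat_lit 5) (nat_lit 181) (nat_lit 5) (nat_lit 348) (nat_lit 294) (nat_lit 258)) (XT.lf (nat_lit 0) (nat_lit 3713574785) (nat_lit 532) (nat_lit 1259837647) (nat_lit 608) (nat_lit 4788856781) (nat_lit 173) (nat_lit 5) (nat_lit 180) (nat_lit 5) (nat_lit 181) (nat_lit 5) (nat_lit 349) (nat_lit 294) (nat_lit 257))) (XT.nd (nat_lit 78) (nat_lit 532) (nat_lit 0) (XT.lf (nat_lit 0) (nat_lit 3386420336) (nat_lit 456) (nat_lit 6150906828) (nat_lit 532) (nat_lit 379937833) (nat_lit 167) (nat_lit 5)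 (nat_lit 173) (nat_lit 5) (nat_lit 174) (nat_lit 5) (nat_lit 350) (nat_lit 294) (nat_lit 256)) (XT.lf (nat_lit 0) (nat_lit 3002566893) (nat_lit 456) (nat_lit 1092864035) (nat_lit 532) (nat_lit 5981193361) (nat_lit 160) (nat_lit 5) (nat_lit 166) (nat_lit 5) (nat_lit 167) (nat_lit 5) (nat_lit 351) (nat_lit 294) (nat_lit 255)))) (XT.nd (nat_lit 156) (nat_lit 1292) (nat_lit 0) (XT.nd (nat_lit 78) (nat_lit 532) (nat_lit 0) (XT.lf (nat_lit 0) (nat_lit 2563589183) (nat_lit 456) (nat_lit 6145258496) (nat_lit 532) (nat_lit 1531715768) (nat_lit 154) (nat_lit 5) (nat_lit 160) (nat_lit 5) (nat_lit 161) (nat_lit 5) (nat_lit 352) (nat_lit 294) (nat_lit 254)) (XT.lf (nat_lit 0) (nat_lit 2067196662) (nat_lit 456) (nat_lit 935058450) (nat_lit 532) (nat_lit 7406975849) (nat_lit 147) (nat_lit 5) (nat_lit 153) (nat_lit 5) (nat_lit 154) (nat_lit 5) (nat_lit 353) (nat_lit 294) (nat_lit 253))) (XT.nd (nat_lit 78) (nat_lit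 912) (nat_lit 0) (XT.lf (nat_lit 0) (nat_lit 1496376116) (nat_lit 380) (nat_lit 6169420023) (nat_lit 456) (nat_lit 2916698792) (nat_lit 142) (nat_lit 5) (nat_lit 147) (nat_lit 5) (nat_lit 148) (nat_lit 5) (nat_lit 354) (nat_lit 294) (nat_lit 252)) (XT.nd (nat_lit 78) (nat_lit 380) (nat_lit 0) (XT.lf (nat_lit 0) (nat_lit 867983919) (nat_lit 456) (nat_lit 811080090) (nat_lit 532) (nat_lit 9081832231) (nat_lit 135) (nat_lit 5) (nat_lit 141) (nat_lit 5) (nat_lit 142) (nat_lit 5) (nat_lit 355) (nat_lit 294) (nat_lit 251)) (XT.lf (nat_lit 0) (nat_lit 143584982) (nat_lit 380) (nat_lit 6248861071) (nat_lit 456) (nat_lit 4551454652) (nat_lit 130) (nat_lit 5) (nat_lit 135) (nat_lit 5) (nat_lit 136) (nat_lit 5) (nat_lit 356) (nat_lit 294) (nat_lit 250)))))) (XT.nd (nat_lit 390) (nat_lit 1748) (nat_lit 0) (XT.nd (nat_lit 156) (nat_lit 1140) (nat_lit 0) (XT.nd (nat_lit 78) (nat_lit 380) (nat_lit 0) (XT.lf (nat_lit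 0) (nat_lit 112862717) (nat_lit 456) (nat_lit 629778455) (nat_lit 76) (nat_lit 10389771525) (nat_lit 129) (nat_lit 5) (nat_lit 135) (nat_lit 5) (nat_lit 130) (nat_lit 5) (nat_lit 357) (nat_lit 294) (nat_lit 249)) (XT.lf (nat_lit 0) (nat_lit 4880675356) (nat_lit 456) (nat_lit 1519603757) (nat_lit 76) (nat_lit 4925213518) (nat_lit 124) (nat_lit 5) (nat_lit 130) (nat_lit 5) (nat_lit 125) (nat_lit 5) (nat_lit 358) (nat_lit 294) (nat_lit 248))) (XT.nd (nat_lit 78) (nat_lit 760) (nat_lit 0) (XT.lf (nat_lit 0) (nat_lit 9047610951) (nat_lit 380) (nat_lit 741862749) (nat_lit 456) (nat_lit 1734953911) (nat_lit 119) (nat_lit 5) (nat_lit 124) (nat_lit 5) (nat_lit 125) (nat_lit 5) (nat_lit 359) (nat_lit 294) (nat_lit 247)) (XT.nd (nat_lit 78) (nat_lit 304) (nat_lit 0) (XT.lf (nat_lit 0) (nat_lit 3103175170) (nat_lit 456) (nat_lit 3555818386) (nat_lit 76) (nat_lit 5069396281) (nat_lit 113) (nat_lit 5) (nat_lit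 119) (nat_lit 5) (nat_lit 114) (nat_lit 5) (nat_lit 360) (nat_lit 294) (nat_lit 246)) (XT.lf (nat_lit 0) (nat_lit 7211395451) (nat_lit 304) (nat_lit 852255750) (nat_lit 380) (nat_lit 3874594913) (nat_lit 109) (nat_lit 5) (nat_lit 113) (nat_lit 5) (nat_lit 114) (nat_lit 5) (nat_lit 361) (nat_lit 294) (nat_lit 245))))) (XT.nd (nat_lit 156) (nat_lit 988) (nat_lit 0) (XT.nd (nat_lit 78) (nat_lit 304) (nat_lit 0) (XT.lf (nat_lit 0) (nat_lit 1035840936) (nat_lit 456) (nat_lit 6020327384) (nat_lit 76) (nat_lit 5097503448) (nat_lit 103) (nat_lit 5) (nat_lit 109) (nat_lit 5) (nat_lit 104) (nat_lit 5) (nat_lit 362) (nat_lit 294) (nat_lit 244)) (XT.lf (nat_lit 0) (nat_lit 4939707228) (nat_lit 304) (nat_lit 1105446388) (nat_lit 380) (nat_lit 6329828777) (nat_lit 99) (nat_lit 5) (nat_lit 103) (nat_lit 5) (nat_lit 104) (nat_lit 5) (nat_lit 363) (nat_lit 294) (nat_lit 243))) (XT.nd (nat_lit 78) (nat_lit 684) (nat_lit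 0) (XT.lf (nat_lit 0) (nat_lit 3621640566) (nat_lit 304) (nat_lit 7615231655) (nat_lit 380) (nat_lit 1365435560) (nat_lit 95) (nat_lit 5) (nat_lit 99) (nat_lit 5) (nat_lit 100) (nat_lit 5) (nat_lit 364) (nat_lit 294) (nat_lit 242)) (XT.nd (nat_lit 78) (nat_lit 304) (nat_lit 0) (XT.lf (nat_lit 0) (nat_lit 2171996722) (nat_lit 304) (nat_lit 1534684509) (nat_lit 380) (nat_lit 9129143208) (nat_lit 90) (nat_lit 5) (nat_lit 94) (nat_lit 5) (nat_lit 95) (nat_lit 5) (nat_lit 365) (nat_lit 294) (nat_lit 241)) (XT.lf (nat_lit 0) (nat_lit 573907852) (nat_lit 304) (nat_lit 8371017193) (nat_lit 380) (nat_lit 4130607361) (nat_lit 86) (nat_lit 5) (nat_lit 90) (nat_lit 5) (nat_lit 91) (nat_lit 5) (nat_lit 366) (nat_lit 294) (nat_lit 240))))))) (XT.nd (nat_lit 780) (nat_lit 1596) (nat_lit 0) (XT.nd (nat_lit 390) (nat_lit 1064) (nat_lit 0) (XT.nd (nat_lit 156) (nat_lit 912) (nat_lit 0) (XT.nd (nat_lit 78) (nat_lit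 228) (nat_lit 0) (XT.lf (nat_lit 0) (nat_lit 1025036995) (nat_lit 380) (nat_lit 1143235842) (nat_lit 76) (nat_lit 11153632366) (nat_lit 85) (nat_lit 5) (nat_lit 90) (nat_lit 5) (nat_lit 86) (nat_lit 5) (nat_lit 367) (nat_lit 294) (nat_lit 239)) (XT.lf (nat_lit 0) (nat_lit 6315305773) (nat_lit 304) (nat_lit 3032608468) (nat_lit 76) (nat_lit 4226502747) (nat_lit 82) (nat_lit 5) (nat_lit 86) (nat_lit 5) (nat_lit 83) (nat_lit 5) (nat_lit 368) (nat_lit 294) (nat_lit 238))) (XT.nd (nat_lit 78) (nat_lit 608) (nat_lit 0) (XT.lf (nat_lit 0) (nat_lit 8762934711) (nat_lit 304) (nat_lit 3020778662) (nat_lit 380) (nat_lit 2050417039) (nat_lit 78) (nat_lit 5) (nat_lit 82) (nat_lit 5) (nat_lit 83) (nat_lit 5) (nat_lit 369) (nat_lit 294) (nat_lit 237)) (XT.nd (nat_lit 78) (nat_lit 304) (nat_lit 0) (XT.lf (nat_lit 0) (nat_lit 3300064251) (nat_lit 304) (nat_lit 7299033316) (nat_lit 76) (nat_lit 3501541511) (nat_lit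 74) (nat_lit 5) (nat_lit 78) (nat_lit 5) (nat_lit 75) (nat_lit 5) (nat_lit 370) (nat_lit 294) (nat_lit 236)) (XT.lf (nat_lit 0) (nat_lit 4657721112) (nat_lit 304) (nat_lit 4152513103) (nat_lit 380) (nat_lit 5564110866) (nat_lit 70) (nat_lit 5) (nat_lit 74) (nat_lit 5) (nat_lit 75) (nat_lit 5) (nat_lit 371) (nat_lit 294) (nat_lit 235))))) (XT.nd (nat_lit 156) (nat_lit 760) (nat_lit 0) (XT.nd (nat_lit 78) (nat_lit 76) (nat_lit 0) (XT.lf (nat_lit 0) (nat_lit 2337840698) (nat_lit 228) (nat_lit 12171678316) (nat_lit 304) (nat_lit 146280424) (nat_lit 67) (nat_lit 5) (nat_lit 70) (nat_lit 5) (nat_lit 71) (nat_lit 5) (nat_lit 372) (nat_lit 294) (nat_lit 234)) (XT.lf (nat_lit 0) (nat_lit 5400239573) (nat_lit 304) (nat_lit 214321735) (nat_lit 76) (nat_lit 9329694739) (nat_lit 66) (nat_lit 5) (nat_lit 70) (nat_lit 5) (nat_lit 67) (nat_lit 5) (nat_lit 373) (nat_lit 294) (nat_lit 233))) (XT.nd (nat_lit 78) (nat_lit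 532) (nat_lit 0) (XT.lf (nat_lit 0) (nat_lit 11143909873) (nat_lit 304) (nat_lit 2926179060) (nat_lit 76) (nat_lit 1170615594) (nat_lit 63) (nat_lit 5) (nat_lit 67) (nat_lit 5) (nat_lit 64) (nat_lit 5) (nat_lit 374) (nat_lit 294) (nat_lit 232)) (XT.nd (nat_lit 78) (nat_lit 228) (nat_lit 0) (XT.lf (nat_lit 0) (nat_lit 1541938908) (nat_lit 304) (nat_lit 5879823824) (nat_lit 76) (nat_lit 8123139922) (nat_lit 59) (nat_lit 5) (nat_lit 63) (nat_lit 5) (nat_lit 60) (nat_lit 5) (nat_lit 375) (nat_lit 294) (nat_lit 231)) (XT.lf (nat_lit 0) (nat_lit 6788473642) (nat_lit 228) (nat_lit 516510659) (nat_lit 304) (nat_lit 8552496063) (nat_lit 56) (nat_lit 5) (nat_lit 59) (nat_lit 5) (nat_lit 60) (nat_lit 5) (nat_lit 376) (nat_lit 294) (nat_lit 230)))))) (XT.nd (nat_lit 390) (nat_lit 608) (nat_lit 0) (XT.nd (nat_lit 156) (nat_lit 456) (nat_lit 0) (XT.nd (nat_lit 78) (nat_lit 304) (nat_lit 0) (XT.lf (nat_lit 0) (nat_lit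 3654798079) (nat_lit 228) (nat_lit 9640000929) (nat_lit 304) (nat_lit 2883569921) (nat_lit 53) (nat_lit 5) (nat_lit 56) (nat_lit 5) (nat_lit 57) (nat_lit 5) (nat_lit 377) (nat_lit 294) (nat_lit 229)) (XT.lf (nat_lit 0) (nat_lit 269305788) (nat_lit 228) (nat_lit 2662254608) (nat_lit 304) (nat_lit 13576652589) (nat_lit 49) (nat_lit 5) (nat_lit 52) (nat_lit 5) (nat_lit 53) (nat_lit 5) (nat_lit 378) (nat_lit 294) (nat_lit 228))) (XT.nd (nat_lit 78) (nat_lit 456) (nat_lit 0) (XT.lf (nat_lit 0) (nat_lit 8945556635) (nat_lit 304) (nat_lit 3365439764) (nat_lit 76) (nat_lit 4535313231) (nat_lit 49) (nat_lit 5) (nat_lit 53) (nat_lit 5) (nat_lit 50) (nat_lit 5) (nat_lit 379) (nat_lit 294) (nat_lit 227)) (XT.nd (nat_lit 78) (nat_lit 304) (nat_lit 0) (XT.lf (nat_lit 0) (nat_lit 9921743628) (nat_lit 152) (nat_lit 5250510828) (nat_lit 228) (nat_lit 2021659029) (nat_lit 47) (nat_lit 5) (nat_lit 49) (nat_lit 5) (nat_lit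 50) (nat_lit 5) (nat_lit 380) (nat_lit 294) (nat_lit 226)) (XT.lf (nat_lit 0) (nat_lit 4007404813) (nat_lit 304) (nat_lit 11493353073) (nat_lit 76) (nat_lit 2050143208) (nat_lit 43) (nat_lit 5) (nat_lit 47) (nat_lit 5) (nat_lit 44) (nat_lit 5) (nat_lit 381) (nat_lit 294) (nat_lit 225))))) (XT.nd (nat_lit 156) (nat_lit 456) (nat_lit 0) (XT.nd (nat_lit 78) (nat_lit 0) (nat_lit 0) (XT.lf (nat_lit 0) (nat_lit 1861045826) (nat_lit 152) (nat_lit 8377101555) (nat_lit 228) (nat_lit 7679227415) (nat_lit 41) (nat_lit 5) (nat_lit 43) (nat_lit 5) (nat_lit 44) (nat_lit 5) (nat_lit 382) (nat_lit 294) (nat_lit 224)) (XT.lf (nat_lit 0) (nat_lit 15691263226) (nat_lit 152) (nat_lit 994632443) (nat_lit 228) (nat_lit 1608354293) (nat_lit 41) (nat_lit 5) (nat_lit 43) (nat_lit 5) (nat_lit 44) (nat_lit 5) (nat_lit 383) (nat_lit 294) (nat_lit 223))) (XT.nd (nat_lit 78) (nat_lit 152) (nat_lit 0) (XT.lf (nat_lit 0) (nat_lit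 4653697630) (nat_lit 304) (nat_lit 7433167210) (nat_lit 76) (nat_lit 6593572552) (nat_lit 37) (nat_lit 5) (nat_lit 41) (nat_lit 5) (nat_lit 38) (nat_lit 5) (nat_lit 384) (nat_lit 294) (nat_lit 222)) (XT.nd (nat_lit 41028) (nat_lit 0) (nat_lit 45904) (XT.lf (nat_lit 0) (nat_lit 6458203931) (nat_lit 152) (nat_lit 4643927624) (nat_lit 228) (nat_lit 7975467081) (nat_lit 35) (nat_lit 5) (nat_lit 37) (nat_lit 5) (nat_lit 38) (nat_lit 5) (nat_lit 385) (nat_lit 294) (nat_lit 221)) (XT.lf (nat_lit 0) (nat_lit 2869854497) (nat_lit 532) (nat_lit 203061098) (nat_lit 532) (nat_lit 203061098) (nat_lit 639) (nat_lit 4) (nat_lit 646) (nat_lit 5) (nat_lit 646) (nat_lit 4) (nat_lit 310) (nat_lit 295) (nat_lit 295))))))))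
noncomputable def xc38 : XT := (XT.nd (nat_lit 1482) (nat_lit 13224) (nat_lit 0) (XT.nd (nat_lit 702) (nat_lit 14212) (nat_lit 0) (XT.nd (nat_lit 312) (nat_lit 4332) (nat_lit 0) (XT.nd (nat_lit 156) (nat_lit 1672) (nat_lit 0) (XT.nd (nat_lit 78) (nat_lit 760) (nat_lit 0) (XT.lf (nat_lit 0) (nat_lit 4221501332) (nat_lit 684) (nat_lit 1695032835) (nat_lit 0) (nat_lit 658784964) (nat_lit 630) (nat_lit 5) (nat_lit 639) (nat_lit 4) (nat_lit 630) (nat_lit 4) (nat_lit 311) (nat_lit 295) (nat_lit 294)) (XT.lf (nat_lit 0) (nat_lit 2225109853) (nat_lit 760) (nat_lit 2526942394) (nat_lit 76) (nat_lit 1849641042) (nat_lit 620) (nat_lit 5) (nat_lit 630) (nat_lit 5) (nat_lit 621) (nat_lit 4) (nat_lit 312) (nat_lit 295) (nat_lit 293))) (XT.nd (nat_lit 78) (nat_lit 836) (nat_lit 0) (XT.lf (nat_lit 0) (nat_lit 151747247) (nat_lit 836) (nat_lit 3306468866) (nat_lit 76) (nat_lit 3172933124) (nat_lit 609) (nat_lit 5)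 (nat_lit 620) (nat_lit 5) (nat_lit 610) (nat_lit 5) (nat_lit 313) (nat_lit 295) (nat_lit 292)) (XT.lf (nat_lit 0) (nat_lit 2615582052) (nat_lit 836) (nat_lit 2020333774) (nat_lit 912) (nat_lit 2027530977) (nat_lit 598) (nat_lit 5) (nat_lit 609) (nat_lit 5) (nat_lit 610) (nat_lit 5) (nat_lit 314) (nat_lit 295) (nat_lit 291)))) (XT.nd (nat_lit 156) (nat_lit 2280) (nat_lit 0) (XT.nd (nat_lit 78) (nat_lit 1064) (nat_lit 0) (XT.lf (nat_lit 0) (nat_lit 1958295845) (nat_lit 912) (nat_lit 448875605) (nat_lit 988) (nat_lit 4291672695) (nat_lit 585) (nat_lit 5) (nat_lit 597) (nat_lit 5) (nat_lit 598) (nat_lit 5) (nat_lit 315) (nat_lit 295) (nat_lit 290)) (XT.lf (nat_lit 0) (nat_lit 104331449) (nat_lit 1064) (nat_lit 5392702555) (nat_lit 76) (nat_lit 1240191836) (nat_lit 571) (nat_lit 5) (nat_lit 585) (nat_lit 5) (nat_lit 572) (nat_lit 5) (nat_lit 316) (nat_lit 295) (nat_lit 289))) (XT.nd (nat_lit 78) (nat_lit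 1216) (nat_lit 0) (XT.lf (nat_lit 0) (nat_lit 762463928) (nat_lit 1064) (nat_lit 3706068598) (nat_lit 1140) (nat_lit 2309877009) (nat_lit 557) (nat_lit 5) (nat_lit 571) (nat_lit 5) (nat_lit 572) (nat_lit 5) (nat_lit 317) (nat_lit 295) (nat_lit 288)) (XT.nd (nat_lit 78) (nat_lit 0) (nat_lit 0) (XT.lf (nat_lit 0) (nat_lit 228178804) (nat_lit 1140) (nat_lit 1781276184) (nat_lit 1216) (nat_lit 4813306017) (nat_lit 541) (nat_lit 5) (nat_lit 556) (nat_lit 5) (nat_lit 557) (nat_lit 5) (nat_lit 318) (nat_lit 295) (nat_lit 287)) (XT.lf (nat_lit 0) (nat_lit 6329567899) (nat_lit 1216) (nat_lit 260516024) (nat_lit 76) (nat_lit 280104078) (nat_lit 541) (nat_lit 5) (nat_lit 557) (nat_lit 5) (nat_lit 542) (nat_lit 5) (nat_lit 319) (nat_lit 295) (nat_lit 286)))))) (XT.nd (nat_lit 390) (nat_lit 7144) (nat_lit 0) (XT.nd (nat_lit 156) (nat_lit 4408) (nat_lit 0) (XT.nd (nat_lit 78) (nat_lit 1368) (nat_lit 0) (XT.lf (nat_lit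 0) (nat_lit 3725393688) (nat_lit 1292) (nat_lit 726503098) (nat_lit 76) (nat_lit 2468421348) (nat_lit 524) (nat_lit 5) (nat_lit 541) (nat_lit 5) (nat_lit 525) (nat_lit 5) (nat_lit 320) (nat_lit 295) (nat_lit 285)) (XT.lf (nat_lit 0) (nat_lit 1030567624) (nat_lit 1368) (nat_lit 1148769707) (nat_lit 76) (nat_lit 4794380563) (nat_lit 506) (nat_lit 5) (nat_lit 524) (nat_lit 5) (nat_lit 507) (nat_lit 5) (nat_lit 321) (nat_lit 295) (nat_lit 284))) (XT.nd (nat_lit 78) (nat_lit 3040) (nat_lit 0) (XT.lf (nat_lit 0) (nat_lit 5250434605) (nat_lit 1444) (nat_lit 1541290188) (nat_lit 76) (nat_lit 238441880) (nat_lit 488) (nat_lit 5) (nat_lit 507) (nat_lit 5) (nat_lit 489) (nat_lit 5) (nat_lit 322) (nat_lit 295) (nat_lit 283)) (XT.nd (nat_lit 78) (nat_lit 1520) (nat_lit 0) (XT.lf (nat_lit 0) (nat_lit 2403036780) (nat_lit 1520) (nat_lit 1914263124) (nat_lit 76) (nat_lit 2772221698) (nat_lit 468) (nat_lit 5) (nat_lit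 488) (nat_lit 5) (nat_lit 469) (nat_lit 5) (nat_lit 323) (nat_lit 295) (nat_lit 282)) (XT.lf (nat_lit 0) (nat_lit 4901072330) (nat_lit 1520) (nat_lit 1702390040) (nat_lit 1596) (nat_lit 548715380) (nat_lit 448) (nat_lit 5) (nat_lit 468) (nat_lit 5) (nat_lit 469) (nat_lit 5) (nat_lit 324) (nat_lit 295) (nat_lit 281))))) (XT.nd (nat_lit 156) (nat_lit 3724) (nat_lit 0) (XT.nd (nat_lit 78) (nat_lit 1748) (nat_lit 0) (XT.lf (nat_lit 0) (nat_lit 3590614203) (nat_lit 1672) (nat_lit 2572473279) (nat_lit 76) (nat_lit 1054700335) (nat_lit 426) (nat_lit 5) (nat_lit 448) (nat_lit 5) (nat_lit 427) (nat_lit 5) (nat_lit 325) (nat_lit 295) (nat_lit 280)) (XT.lf (nat_lit 0) (nat_lit 487846184) (nat_lit 1748) (nat_lit 2868413095) (nat_lit 76) (nat_lit 3930359922) (nat_lit 403) (nat_lit 5) (nat_lit 426) (nat_lit 5) (nat_lit 404) (nat_lit 5) (nat_lit 326) (nat_lit 295) (nat_lit 279))) (XT.nd (nat_lit 78) (nat_lit 1976)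 (nat_lit 0) (XT.lf (nat_lit 0) (nat_lit 4212008085) (nat_lit 1748) (nat_lit 390991341) (nat_lit 1824) (nat_lit 2755590288) (nat_lit 380) (nat_lit 5) (nat_lit 403) (nat_lit 5) (nat_lit 404) (nat_lit 5) (nat_lit 327) (nat_lit 295) (nat_lit 278)) (XT.nd (nat_lit 78) (nat_lit 912) (nat_lit 0) (XT.lf (nat_lit 0) (nat_lit 1336556260) (nat_lit 1064) (nat_lit 3411485415) (nat_lit 76) (nat_lit 2685641219) (nat_lit 366) (nat_lit 5) (nat_lit 380) (nat_lit 5) (nat_lit 367) (nat_lit 5) (nat_lit 328) (nat_lit 295) (nat_lit 277)) (XT.lf (nat_lit 0) (nat_lit 3852080092) (nat_lit 912) (nat_lit 1596619874) (nat_lit 988) (nat_lit 2063338606) (nat_lit 354) (nat_lit 5) (nat_lit 366) (nat_lit 5) (nat_lit 367) (nat_lit 5) (nat_lit 329) (nat_lit 295) (nat_lit 276))))))) (XT.nd (nat_lit 780) (nat_lit 5396) (nat_lit 0) (XT.nd (nat_lit 390) (nat_lit 3648) (nat_lit 0) (XT.nd (nat_lit 156) (nat_lit 2432) (nat_lit 0) (XT.nd (nat_lit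 78) (nat_lit 836) (nat_lit 0) (XT.lf (nat_lit 0) (nat_lit 2009631046) (nat_lit 912) (nat_lit 3897535424) (nat_lit 76) (nat_lit 1686459066) (nat_lit 342) (nat_lit 5) (nat_lit 354) (nat_lit 5) (nat_lit 343) (nat_lit 5) (nat_lit 330) (nat_lit 295) (nat_lit 275)) (XT.lf (nat_lit 0) (nat_lit 3551873090) (nat_lit 836) (nat_lit 2573436729) (nat_lit 912) (nat_lit 1553168750) (nat_lit 331) (nat_lit 5) (nat_lit 342) (nat_lit 5) (nat_lit 343) (nat_lit 5) (nat_lit 331) (nat_lit 295) (nat_lit 274))) (XT.nd (nat_lit 78) (nat_lit 1596) (nat_lit 0) (XT.lf (nat_lit 0) (nat_lit 2510690218) (nat_lit 836) (nat_lit 4347578867) (nat_lit 76) (nat_lit 908406172) (nat_lit 320) (nat_lit 5) (nat_lit 331) (nat_lit 5) (nat_lit 321) (nat_lit 5) (nat_lit 332) (nat_lit 295) (nat_lit 273)) (XT.nd (nat_lit 78) (nat_lit 836) (nat_lit 0) (XT.lf (nat_lit 0) (nat_lit 3290360033) (nat_lit 760) (nat_lit 3345611578) (nat_lit 836) (nat_lit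 1222186304) (nat_lit 310) (nat_lit 5) (nat_lit 320) (nat_lit 5) (nat_lit 321) (nat_lit 5) (nat_lit 333) (nat_lit 295) (nat_lit 272)) (XT.lf (nat_lit 0) (nat_lit 2841953526) (nat_lit 836) (nat_lit 4783060685) (nat_lit 76) (nat_lit 328089037) (nat_lit 299) (nat_lit 5) (nat_lit 310) (nat_lit 5) (nat_lit 300) (nat_lit 5) (nat_lit 334) (nat_lit 295) (nat_lit 271))))) (XT.nd (nat_lit 156) (nat_lit 2128) (nat_lit 0) (XT.nd (nat_lit 78) (nat_lit 760) (nat_lit 0) (XT.lf (nat_lit 0) (nat_lit 3046028992) (nat_lit 760) (nat_lit 3936404212) (nat_lit 836) (nat_lit 1068934948) (nat_lit 289) (nat_lit 5) (nat_lit 299) (nat_lit 5) (nat_lit 300) (nat_lit 5) (nat_lit 335) (nat_lit 295) (nat_lit 270)) (XT.lf (nat_lit 0) (nat_lit 2926655440) (nat_lit 684) (nat_lit 78081305) (nat_lit 760) (nat_lit 5148477532) (nat_lit 279) (nat_lit 5) (nat_lit 288) (nat_lit 5) (nat_lit 289) (nat_lit 5) (nat_lit 336) (nat_lit 295) (nat_lit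 269))) (XT.nd (nat_lit 78) (nat_lit 1444) (nat_lit 0) (XT.lf (nat_lit 0) (nat_lit 2796681889) (nat_lit 684) (nat_lit 4368350007) (nat_lit 760) (nat_lit 1093413013) (nat_lit 270) (nat_lit 5) (nat_lit 279) (nat_lit 5) (nat_lit 280) (nat_lit 5) (nat_lit 337) (nat_lit 295) (nat_lit 268)) (XT.nd (nat_lit 78) (nat_lit 684) (nat_lit 0) (XT.lf (nat_lit 0) (nat_lit 2665735000) (nat_lit 684) (nat_lit 333323629) (nat_lit 760) (nat_lit 5368296378) (nat_lit 260) (nat_lit 5) (nat_lit 269) (nat_lit 5) (nat_lit 270) (nat_lit 5) (nat_lit 338) (nat_lit 295) (nat_lit 267)) (XT.lf (nat_lit 0) (nat_lit 2519223081) (nat_lit 684) (nat_lit 4663443982) (nat_lit 760) (nat_lit 1297101862) (nat_lit 251) (nat_lit 5) (nat_lit 260) (nat_lit 5) (nat_lit 261) (nat_lit 5) (nat_lit 339) (nat_lit 295) (nat_lit 266)))))) (XT.nd (nat_lit 390) (nat_lit 2204) (nat_lit 0) (XT.nd (nat_lit 156) (nat_lit 1900) (nat_lit 0) (XT.nd (nat_lit 78)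 (nat_lit 608) (nat_lit 0) (XT.lf (nat_lit 0) (nat_lit 2365790817) (nat_lit 608) (nat_lit 455018886) (nat_lit 684) (nat_lit 5775161396) (nat_lit 242) (nat_lit 5) (nat_lit 250) (nat_lit 5) (nat_lit 251) (nat_lit 5) (nat_lit 340) (nat_lit 295) (nat_lit 265)) (XT.lf (nat_lit 0) (nat_lit 2189435909) (nat_lit 608) (nat_lit 4843324884) (nat_lit 684) (nat_lit 1683006551) (nat_lit 234) (nat_lit 5) (nat_lit 242) (nat_lit 5) (nat_lit 243) (nat_lit 5) (nat_lit 341) (nat_lit 295) (nat_lit 264))) (XT.nd (nat_lit 78) (nat_lit 1216) (nat_lit 0) (XT.lf (nat_lit 0) (nat_lit 2001899003) (nat_lit 608) (nat_lit 464623930) (nat_lit 684) (nat_lit 6372989395) (nat_lit 225) (nat_lit 5) (nat_lit 233) (nat_lit 5) (nat_lit 234) (nat_lit 5) (nat_lit 342) (nat_lit 295) (nat_lit 263)) (XT.nd (nat_lit 78) (nat_lit 608) (nat_lit 0) (XT.lf (nat_lit 0) (nat_lit 1781745166) (nat_lit 608) (nat_lit 4929460788) (nat_lit 684) (nat_lit 2255709341)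 (nat_lit 217) (nat_lit 5) (nat_lit 225) (nat_lit 5) (nat_lit 226) (nat_lit 5) (nat_lit 343) (nat_lit 295) (nat_lit 262)) (XT.lf (nat_lit 0) (nat_lit 1547658059) (nat_lit 532) (nat_lit 383498865) (nat_lit 608) (nat_lit 7167320532) (nat_lit 209) (nat_lit 5) (nat_lit 216) (nat_lit 5) (nat_lit 217) (nat_lit 5) (nat_lit 344) (nat_lit 295) (nat_lit 261))))) (XT.nd (nat_lit 156) (nat_lit 1064) (nat_lit 0) (XT.nd (nat_lit 78) (nat_lit 608) (nat_lit 0) (XT.lf (nat_lit 0) (nat_lit 1268963306) (nat_lit 532) (nat_lit 4943337723) (nat_lit 608) (nat_lit 3021436733) (nat_lit 202) (nat_lit 5) (nat_lit 209) (nat_lit 5) (nat_lit 210) (nat_lit 5) (nat_lit 345) (nat_lit 295) (nat_lit 260)) (XT.lf (nat_lit 0) (nat_lit 974925697) (nat_lit 532) (nat_lit 233098258) (nat_lit 608) (nat_lit 8165392303) (nat_lit 194) (nat_lit 5) (nat_lit 201) (nat_lit 5) (nat_lit 202) (nat_lit 5) (nat_lit 346) (nat_lit 295) (nat_lit 259))) (XT.nd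 (nat_lit 78) (nat_lit 532) (nat_lit 0) (XT.lf (nat_lit 0) (nat_lit 622018035) (nat_lit 532) (nat_lit 4906652907) (nat_lit 608) (nat_lit 3988140822) (nat_lit 187) (nat_lit 5) (nat_lit 194) (nat_lit 5) (nat_lit 195) (nat_lit 5) (nat_lit 347) (nat_lit 295) (nat_lit 258)) (XT.nd (nat_lit 78) (nat_lit 0) (nat_lit 0) (XT.lf (nat_lit 0) (nat_lit 253535814) (nat_lit 456) (nat_lit 35167695) (nat_lit 532) (nat_lit 9376228348) (nat_lit 180) (nat_lit 5) (nat_lit 186) (nat_lit 5) (nat_lit 187) (nat_lit 5) (nat_lit 348) (nat_lit 295) (nat_lit 257)) (XT.lf (nat_lit 0) (nat_lit 4652408785) (nat_lit 532) (nat_lit 187844907) (nat_lit 76) (nat_lit 4976490465) (nat_lit 180) (nat_lit 5) (nat_lit 187) (nat_lit 5) (nat_lit 181) (nat_lit 5) (nat_lit 349) (nat_lit 295) (nat_lit 256))))))))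
noncomputable def xc39 : XT := (XT.nd (nat_lit 1560) (nat_lit 3268) (nat_lit 0) (XT.nd (nat_lit 780) (nat_lit 3116) (nat_lit 0) (XT.nd (nat_lit 390) (nat_lit 2128) (nat_lit 0) (XT.nd (nat_lit 156) (nat_lit 1444) (nat_lit 0) (XT.nd (nat_lit 78) (nat_lit 532) (nat_lit 0) (XT.lf (nat_lit 0) (nat_lit 9130860737) (nat_lit 608) (nat_lit 647259582) (nat_lit 76) (nat_lit 195343519) (nat_lit 173) (nat_lit 5) (nat_lit 181) (nat_lit 5) (nat_lit 174) (nat_lit 5) (nat_lit 350) (nat_lit 295) (nat_lit 255)) (XT.lf (nat_lit 0) (nat_lit 3576589934) (nat_lit 532) (nat_lit 1186098450) (nat_lit 76) (nat_lit 5371453635) (nat_lit 166) (nat_lit 5) (nat_lit 173) (nat_lit 5) (nat_lit 167) (nat_lit 5) (nat_lit 351) (nat_lit 295) (nat_lit 254))) (XT.nd (nat_lit 78) (nat_lit 988) (nat_lit 0) (XT.lf (nat_lit 0) (nat_lit 8103896029) (nat_lit 532) (nat_lit 1761805019) (nat_lit 76) (nat_lit 434115871) (nat_lit 160) (nat_lit 5) (nat_lit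 167) (nat_lit 5) (nat_lit 161) (nat_lit 5) (nat_lit 352) (nat_lit 295) (nat_lit 253)) (XT.nd (nat_lit 78) (nat_lit 456) (nat_lit 0) (XT.lf (nat_lit 0) (nat_lit 2284388029) (nat_lit 532) (nat_lit 2417007436) (nat_lit 76) (nat_lit 5768435560) (nat_lit 153) (nat_lit 5) (nat_lit 160) (nat_lit 5) (nat_lit 154) (nat_lit 5) (nat_lit 353) (nat_lit 295) (nat_lit 252)) (XT.lf (nat_lit 0) (nat_lit 6861113124) (nat_lit 532) (nat_lit 3128899744) (nat_lit 76) (nat_lit 654830949) (nat_lit 147) (nat_lit 5) (nat_lit 154) (nat_lit 5) (nat_lit 148) (nat_lit 5) (nat_lit 354) (nat_lit 295) (nat_lit 251))))) (XT.nd (nat_lit 156) (nat_lit 1216) (nat_lit 0) (XT.nd (nat_lit 78) (nat_lit 456) (nat_lit 0) (XT.lf (nat_lit 0) (nat_lit 760885507) (nat_lit 456) (nat_lit 3919851734) (nat_lit 76) (nat_lit 6143882732) (nat_lit 141) (nat_lit 5) (nat_lit 147) (nat_lit 5) (nat_lit 142) (nat_lit 5) (nat_lit 355) (nat_lit 295) (nat_lit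 250)) (XT.lf (nat_lit 0) (nat_lit 5386701894) (nat_lit 532) (nat_lit 4789531820) (nat_lit 76) (nat_lit 833153590) (nat_lit 135) (nat_lit 5) (nat_lit 142) (nat_lit 5) (nat_lit 136) (nat_lit 5) (nat_lit 356) (nat_lit 295) (nat_lit 249))) (XT.nd (nat_lit 78) (nat_lit 836) (nat_lit 0) (XT.lf (nat_lit 0) (nat_lit 5455113041) (nat_lit 380) (nat_lit 4719574114) (nat_lit 456) (nat_lit 1024565388) (nat_lit 130) (nat_lit 5) (nat_lit 135) (nat_lit 5) (nat_lit 136) (nat_lit 5) (nat_lit 357) (nat_lit 295) (nat_lit 248)) (XT.nd (nat_lit 78) (nat_lit 380) (nat_lit 0) (XT.lf (nat_lit 0) (nat_lit 3662484435) (nat_lit 456) (nat_lit 6788484147) (nat_lit 76) (nat_lit 943391620) (nat_lit 124) (nat_lit 5) (nat_lit 130) (nat_lit 5) (nat_lit 125) (nat_lit 5) (nat_lit 358) (nat_lit 295) (nat_lit 247)) (XT.lf (nat_lit 0) (nat_lit 3657813996) (nat_lit 380) (nat_lit 4844970426) (nat_lit 456) (nat_lit 3091891094) (nat_lit 119)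 (nat_lit 5) (nat_lit 124) (nat_lit 5) (nat_lit 125) (nat_lit 5) (nat_lit 359) (nat_lit 295) (nat_lit 246)))))) (XT.nd (nat_lit 390) (nat_lit 1596) (nat_lit 0) (XT.nd (nat_lit 156) (nat_lit 760) (nat_lit 0) (XT.nd (nat_lit 78) (nat_lit 304) (nat_lit 0) (XT.lf (nat_lit 0) (nat_lit 1667719250) (nat_lit 456) (nat_lit 9174794984) (nat_lit 76) (nat_lit 958235883) (nat_lit 113) (nat_lit 5) (nat_lit 119) (nat_lit 5) (nat_lit 114) (nat_lit 5) (nat_lit 360) (nat_lit 295) (nat_lit 245)) (XT.lf (nat_lit 0) (nat_lit 1467482119) (nat_lit 304) (nat_lit 5090880180) (nat_lit 380) (nat_lit 5453650335) (nat_lit 109) (nat_lit 5) (nat_lit 113) (nat_lit 5) (nat_lit 114) (nat_lit 5) (nat_lit 361) (nat_lit 295) (nat_lit 244))) (XT.nd (nat_lit 78) (nat_lit 380) (nat_lit 0) (XT.lf (nat_lit 0) (nat_lit 223194369) (nat_lit 380) (nat_lit 11376975368) (nat_lit 456) (nat_lit 629373269) (nat_lit 104) (nat_lit 5) (nat_lit 109) (nat_lit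 5) (nat_lit 110) (nat_lit 5) (nat_lit 362) (nat_lit 295) (nat_lit 243)) (XT.nd (nat_lit 78) (nat_lit 304) (nat_lit 0) (XT.lf (nat_lit 0) (nat_lit 4324504042) (nat_lit 456) (nat_lit 1155978781) (nat_lit 76) (nat_lit 6971735183) (nat_lit 103) (nat_lit 5) (nat_lit 109) (nat_lit 5) (nat_lit 104) (nat_lit 5) (nat_lit 363) (nat_lit 295) (nat_lit 242)) (XT.lf (nat_lit 0) (nat_lit 9425526289) (nat_lit 380) (nat_lit 2634526839) (nat_lit 76) (nat_lit 621312787) (nat_lit 99) (nat_lit 5) (nat_lit 104) (nat_lit 5) (nat_lit 100) (nat_lit 5) (nat_lit 364) (nat_lit 295) (nat_lit 241))))) (XT.nd (nat_lit 156) (nat_lit 912) (nat_lit 0) (XT.nd (nat_lit 78) (nat_lit 304) (nat_lit 0) (XT.lf (nat_lit 0) (nat_lit 1778784834) (nat_lit 380) (nat_lit 4263000122) (nat_lit 76) (nat_lit 6874596980) (nat_lit 94) (nat_lit 5) (nat_lit 99) (nat_lit 5) (nat_lit 95) (nat_lit 5) (nat_lit 365) (nat_lit 295) (nat_lit 240)) (XT.lf (nat_lit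 0) (nat_lit 6925545264) (nat_lit 380) (nat_lit 6024968331) (nat_lit 76) (nat_lit 207413920) (nat_lit 90) (nat_lit 5) (nat_lit 95) (nat_lit 5) (nat_lit 91) (nat_lit 5) (nat_lit 366) (nat_lit 295) (nat_lit 239))) (XT.nd (nat_lit 78) (nat_lit 608) (nat_lit 0) (XT.lf (nat_lit 0) (nat_lit 5459352477) (nat_lit 304) (nat_lit 6812641393) (nat_lit 380) (nat_lit 1133835539) (nat_lit 86) (nat_lit 5) (nat_lit 90) (nat_lit 5) (nat_lit 91) (nat_lit 5) (nat_lit 367) (nat_lit 295) (nat_lit 238)) (XT.nd (nat_lit 78) (nat_lit 304) (nat_lit 0) (XT.lf (nat_lit 0) (nat_lit 3637095201) (nat_lit 228) (nat_lit 432367175) (nat_lit 304) (nat_lit 9591070217) (nat_lit 82) (nat_lit 5) (nat_lit 85) (nat_lit 5) (nat_lit 86) (nat_lit 5) (nat_lit 368) (nat_lit 295) (nat_lit 237)) (XT.lf (nat_lit 0) (nat_lit 1635452162) (nat_lit 304) (nat_lit 7824752087) (nat_lit 380) (nat_lit 4461602209) (nat_lit 78) (nat_lit 5) (nat_lit 82) (nat_lit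 5) (nat_lit 83) (nat_lit 5) (nat_lit 369) (nat_lit 295) (nat_lit 236))))))) (XT.nd (nat_lit 780) (nat_lit 1064) (nat_lit 0) (XT.nd (nat_lit 390) (nat_lit 1064) (nat_lit 0) (XT.nd (nat_lit 156) (nat_lit 836) (nat_lit 0) (XT.nd (nat_lit 78) (nat_lit 228) (nat_lit 0) (XT.lf (nat_lit 0) (nat_lit 824916724) (nat_lit 380) (nat_lit 509531718) (nat_lit 76) (nat_lit 12856098275) (nat_lit 77) (nat_lit 5) (nat_lit 82) (nat_lit 5) (nat_lit 78) (nat_lit 5) (nat_lit 370) (nat_lit 295) (nat_lit 235)) (XT.lf (nat_lit 0) (nat_lit 6264990759) (nat_lit 304) (nat_lit 2847890692) (nat_lit 76) (nat_lit 5352779774) (nat_lit 74) (nat_lit 5) (nat_lit 78) (nat_lit 5) (nat_lit 75) (nat_lit 5) (nat_lit 371) (nat_lit 295) (nat_lit 234))) (XT.nd (nat_lit 78) (nat_lit 532) (nat_lit 0) (XT.lf (nat_lit 0) (nat_lit 9391799324) (nat_lit 304) (nat_lit 2495022512) (nat_lit 380) (nat_lit 2861849215) (nat_lit 70) (nat_lit 5) (nat_lit 74)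 (nat_lit 5) (nat_lit 75) (nat_lit 5) (nat_lit 372) (nat_lit 295) (nat_lit 233)) (XT.nd (nat_lit 78) (nat_lit 228) (nat_lit 0) (XT.lf (nat_lit 0) (nat_lit 2641528998) (nat_lit 304) (nat_lit 8084404339) (nat_lit 76) (nat_lit 4313128172) (nat_lit 66) (nat_lit 5) (nat_lit 70) (nat_lit 5) (nat_lit 67) (nat_lit 5) (nat_lit 373) (nat_lit 295) (nat_lit 232)) (XT.lf (nat_lit 0) (nat_lit 4303766017) (nat_lit 228) (nat_lit 3995376837) (nat_lit 304) (nat_lit 7038094173) (nat_lit 63) (nat_lit 5) (nat_lit 66) (nat_lit 5) (nat_lit 67) (nat_lit 5) (nat_lit 374) (nat_lit 295) (nat_lit 231))))) (XT.nd (nat_lit 156) (nat_lit 760) (nat_lit 0) (XT.nd (nat_lit 78) (nat_lit 76) (nat_lit 0) (XT.lf (nat_lit 0) (nat_lit 1443029882) (nat_lit 228) (nat_lit 12714434789) (nat_lit 304) (nat_lit 1486285193) (nat_lit 60) (nat_lit 5) (nat_lit 63) (nat_lit 5) (nat_lit 64) (nat_lit 5) (nat_lit 375) (nat_lit 295) (nat_lit 230)) (XT.lf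 (nat_lit 0) (nat_lit 4226570010) (nat_lit 304) (nat_lit 1654527045) (nat_lit 76) (nat_lit 10076822640) (nat_lit 59) (nat_lit 5) (nat_lit 63) (nat_lit 5) (nat_lit 60) (nat_lit 5) (nat_lit 376) (nat_lit 295) (nat_lit 229))) (XT.nd (nat_lit 78) (nat_lit 532) (nat_lit 0) (XT.lf (nat_lit 0) (nat_lit 10121623232) (nat_lit 304) (nat_lit 4966305841) (nat_lit 76) (nat_lit 1192779719) (nat_lit 56) (nat_lit 5) (nat_lit 60) (nat_lit 5) (nat_lit 57) (nat_lit 5) (nat_lit 377) (nat_lit 295) (nat_lit 228)) (XT.nd (nat_lit 78) (nat_lit 304) (nat_lit 0) (XT.lf (nat_lit 0) (nat_lit 8064839544) (nat_lit 228) (nat_lit 8181912368) (nat_lit 304) (nat_lit 365375621) (nat_lit 53) (nat_lit 5) (nat_lit 56) (nat_lit 5) (nat_lit 57) (nat_lit 5) (nat_lit 378) (nat_lit 295) (nat_lit 227)) (XT.lf (nat_lit 0) (nat_lit 4542132001) (nat_lit 228) (nat_lit 1000734940) (nat_lit 304) (nat_lit 11409620494) (nat_lit 49) (nat_lit 5) (nat_lit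 52) (nat_lit 5) (nat_lit 53) (nat_lit 5) (nat_lit 379) (nat_lit 295) (nat_lit 226)))))) (XT.nd (nat_lit 390) (nat_lit 152) (nat_lit 0) (XT.nd (nat_lit 156) (nat_lit 684) (nat_lit 0) (XT.nd (nat_lit 78) (nat_lit 76) (nat_lit 0) (XT.lf (nat_lit 0) (nat_lit 722109127) (nat_lit 152) (nat_lit 10957343369) (nat_lit 228) (nat_lit 5622445794) (nat_lit 47) (nat_lit 5) (nat_lit 49) (nat_lit 5) (nat_lit 50) (nat_lit 5) (nat_lit 380) (nat_lit 295) (nat_lit 225)) (XT.lf (nat_lit 0) (nat_lit 377328335) (nat_lit 228) (nat_lit 3332782920) (nat_lit 76) (nat_lit 13950777040) (nat_lit 46) (nat_lit 5) (nat_lit 49) (nat_lit 5) (nat_lit 47) (nat_lit 5) (nat_lit 381) (nat_lit 295) (nat_lit 224))) (XT.nd (nat_lit 78) (nat_lit 456) (nat_lit 0) (XT.lf (nat_lit 0) (nat_lit 6526544169) (nat_lit 304) (nat_lit 7724106588) (nat_lit 76) (nat_lit 3778346170) (nat_lit 43) (nat_lit 5) (nat_lit 47) (nat_lit 5) (nat_lit 44) (nat_lit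 5) (nat_lit 382) (nat_lit 295) (nat_lit 223)) (XT.nd (nat_lit 78) (nat_lit 304) (nat_lit 0) (XT.lf (nat_lit 0) (nat_lit 5964178752) (nat_lit 152) (nat_lit 6936436652) (nat_lit 228) (nat_lit 5506734496) (nat_lit 41) (nat_lit 5) (nat_lit 43) (nat_lit 5) (nat_lit 44) (nat_lit 5) (nat_lit 383) (nat_lit 295) (nat_lit 222)) (XT.lf (nat_lit 0) (nat_lit 679995615) (nat_lit 304) (nat_lit 17493499790) (nat_lit 76) (nat_lit 623081202) (nat_lit 37) (nat_lit 5) (nat_lit 41) (nat_lit 5) (nat_lit 38) (nat_lit 5) (nat_lit 384) (nat_lit 295) (nat_lit 221))))) (XT.nd (nat_lit 40872) (nat_lit 0) (nat_lit 45828) (XT.nd (nat_lit 78) (nat_lit 152) (nat_lit 0) (XT.lf (nat_lit 0) (nat_lit 7064455051) (nat_lit 304) (nat_lit 3724984812) (nat_lit 76) (nat_lit 8405581421) (nat_lit 37) (nat_lit 5) (nat_lit 41) (nat_lit 5) (nat_lit 38) (nat_lit 5) (nat_lit 385) (nat_lit 295) (nat_lit 220)) (XT.lf (nat_lit 0) (nat_lit 10519348781)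 (nat_lit 152) (nat_lit 3145953032) (nat_lit 228) (nat_lit 5939628187) (nat_lit 35) (nat_lit 5) (nat_lit 37) (nat_lit 5) (nat_lit 38) (nat_lit 5) (nat_lit 386) (nat_lit 295) (nat_lit 219))) (XT.nd (nat_lit 78) (nat_lit 608) (nat_lit 0) (XT.lf (nat_lit 0) (nat_lit 295181289) (nat_lit 532) (nat_lit 2665808140) (nat_lit 0) (nat_lit 295181289) (nat_lit 646) (nat_lit 5) (nat_lit 653) (nat_lit 4) (nat_lit 646) (nat_lit 4) (nat_lit 308) (nat_lit 296) (nat_lit 296)) (XT.nd (nat_lit 78) (nat_lit 76) (nat_lit 0) (XT.lf (nat_lit 0) (nat_lit 113711031) (nat_lit 532) (nat_lit 5080317121) (nat_lit 532) (nat_lit 1337327304) (nat_lit 639) (nat_lit 4) (nat_lit 646) (nat_lit 5) (nat_lit 646) (nat_lit 4) (nat_lit 309) (nat_lit 296) (nat_lit 295)) (XT.lf (nat_lit 0) (nat_lit 3211808195) (nat_lit 608) (nat_lit 889107956) (nat_lit 76) (nat_lit 2452300132) (nat_lit 638) (nat_lit 5) (nat_lit 646) (nat_lit 5) (nat_lit 639)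 (nat_lit 4) (nat_lit 310) (nat_lit 296) (nat_lit 294))))))))
noncomputable def xc40 : XT := (XT.nd (nat_lit 1482) (nat_lit 13224) (nat_lit 0) (XT.nd (nat_lit 702) (nat_lit 14136) (nat_lit 0) (XT.nd (nat_lit 312) (nat_lit 4332) (nat_lit 0) (XT.nd (nat_lit 156) (nat_lit 1748) (nat_lit 0) (XT.nd (nat_lit 78) (nat_lit 684) (nat_lit 0) (XT.lf (nat_lit 0) (nat_lit 1156320512) (nat_lit 684) (nat_lit 1836040330) (nat_lit 76) (nat_lit 3585767291) (nat_lit 629) (nat_lit 5) (nat_lit 638) (nat_lit 5) (nat_lit 630) (nat_lit 5) (nat_lit 311) (nat_lit 296) (nat_lit 293)) (XT.lf (nat_lit 0) (nat_lit 3869843179) (nat_lit 684) (nat_lit 1747770866) (nat_lit 760) (nat_lit 988382810) (nat_lit 620) (nat_lit 5) (nat_lit 629) (nat_lit 5) (nat_lit 630) (nat_lit 5) (nat_lit 312) (nat_lit 296) (nat_lit 292))) (XT.nd (nat_lit 78) (nat_lit 912) (nat_lit 0) (XT.lf (nat_lit 0) (nat_lit 3044542068) (nat_lit 760) (nat_lit 364191849)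 (nat_lit 836) (nat_lit 3228076279) (nat_lit 609) (nat_lit 5) (nat_lit 619) (nat_lit 5) (nat_lit 620) (nat_lit 5) (nat_lit 313) (nat_lit 296) (nat_lit 291)) (XT.lf (nat_lit 0) (nat_lit 1128390578) (nat_lit 912) (nat_lit 4405340395) (nat_lit 76) (nat_lit 1136863797) (nat_lit 597) (nat_lit 5) (nat_lit 609) (nat_lit 5) (nat_lit 598) (nat_lit 5) (nat_lit 314) (nat_lit 296) (nat_lit 290)))) (XT.nd (nat_lit 156) (nat_lit 2356) (nat_lit 0) (XT.nd (nat_lit 78) (nat_lit 1064) (nat_lit 0) (XT.lf (nat_lit 0) (nat_lit 1527037932) (nat_lit 912) (nat_lit 3933754326) (nat_lit 988) (nat_lit 1246507888) (nat_lit 585) (nat_lit 5) (nat_lit 597) (nat_lit 5) (nat_lit 598) (nat_lit 5) (nat_lit 315) (nat_lit 296) (nat_lit 289)) (XT.lf (nat_lit 0) (nat_lit 831445009) (nat_lit 988) (nat_lit 2194906292) (nat_lit 1064) (nat_lit 3720653634) (nat_lit 571) (nat_lit 5) (nat_lit 584) (nat_lit 5) (nat_lit 585) (nat_lit 5) (nat_lit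 316) (nat_lit 296) (nat_lit 288))) (XT.nd (nat_lit 78) (nat_lit 1216) (nat_lit 0) (XT.lf (nat_lit 0) (nat_lit 185085074) (nat_lit 1064) (nat_lit 323054034) (nat_lit 1140) (nat_lit 6281749552) (nat_lit 556) (nat_lit 5) (nat_lit 570) (nat_lit 5) (nat_lit 571) (nat_lit 5) (nat_lit 317) (nat_lit 296) (nat_lit 287)) (XT.nd (nat_lit 78) (nat_lit 1216) (nat_lit 0) (XT.lf (nat_lit 0) (nat_lit 4724948568) (nat_lit 1140) (nat_lit 432367048) (nat_lit 76) (nat_lit 1678119383) (nat_lit 556) (nat_lit 5) (nat_lit 571) (nat_lit 5) (nat_lit 557) (nat_lit 5) (nat_lit 318) (nat_lit 296) (nat_lit 286)) (XT.lf (nat_lit 0) (nat_lit 2061625588) (nat_lit 1216) (nat_lit 1007538413) (nat_lit 76) (nat_lit 3814909380) (nat_lit 540) (nat_lit 5) (nat_lit 556) (nat_lit 5) (nat_lit 541) (nat_lit 5) (nat_lit 319) (nat_lit 296) (nat_lit 285)))))) (XT.nd (nat_lit 390) (nat_lit 7068) (nat_lit 0) (XT.nd (nat_lit 156) (nat_lit 4484) (nat_lit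 0) (XT.nd (nat_lit 78) (nat_lit 1368) (nat_lit 0) (XT.lf (nat_lit 0) (nat_lit 5393063899) (nat_lit 1216) (nat_lit 842262023) (nat_lit 1292) (nat_lit 700558293) (nat_lit 524) (nat_lit 5) (nat_lit 540) (nat_lit 5) (nat_lit 541) (nat_lit 5) (nat_lit 320) (nat_lit 296) (nat_lit 284)) (XT.lf (nat_lit 0) (nat_lit 3416614620) (nat_lit 1368) (nat_lit 2058654446) (nat_lit 76) (nat_lit 1515247310) (nat_lit 506) (nat_lit 5) (nat_lit 524) (nat_lit 5) (nat_lit 507) (nat_lit 5) (nat_lit 321) (nat_lit 296) (nat_lit 283))) (XT.nd (nat_lit 78) (nat_lit 3040) (nat_lit 0) (XT.lf (nat_lit 0) (nat_lit 510513990) (nat_lit 1444) (nat_lit 2538722312) (nat_lit 76) (nat_lit 3999119793) (nat_lit 487) (nat_lit 5) (nat_lit 506) (nat_lit 5) (nat_lit 488) (nat_lit 5) (nat_lit 322) (nat_lit 296) (nat_lit 282)) (XT.nd (nat_lit 78) (nat_lit 1596) (nat_lit 0) (XT.lf (nat_lit 0) (nat_lit 4114450614) (nat_lit 1444) (nat_lit 470011573)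 (nat_lit 1520) (nat_lit 2524768161) (nat_lit 468) (nat_lit 5) (nat_lit 487) (nat_lit 5) (nat_lit 488) (nat_lit 5) (nat_lit 323) (nat_lit 296) (nat_lit 281)) (XT.lf (nat_lit 0) (nat_lit 1520517627) (nat_lit 1596) (nat_lit 3429879759) (nat_lit 76) (nat_lit 2222745114) (nat_lit 447) (nat_lit 5) (nat_lit 468) (nat_lit 5) (nat_lit 448) (nat_lit 5) (nat_lit 324) (nat_lit 296) (nat_lit 280))))) (XT.nd (nat_lit 156) (nat_lit 3724) (nat_lit 0) (XT.nd (nat_lit 78) (nat_lit 1748) (nat_lit 0) (XT.lf (nat_lit 0) (nat_lit 3398588653) (nat_lit 1596) (nat_lit 2179641468) (nat_lit 1672) (nat_lit 1661977352) (nat_lit 426) (nat_lit 5) (nat_lit 447) (nat_lit 5) (nat_lit 448) (nat_lit 5) (nat_lit 325) (nat_lit 296) (nat_lit 279)) (XT.lf (nat_lit 0) (nat_lit 2345986081) (nat_lit 1748) (nat_lit 4232466707) (nat_lit 76) (nat_lit 731992462) (nat_lit 403) (nat_lit 5) (nat_lit 426) (nat_lit 5) (nat_lit 404) (nat_lit 5) (nat_lit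 326) (nat_lit 296) (nat_lit 278))) (XT.nd (nat_lit 78) (nat_lit 1976) (nat_lit 0) (XT.lf (nat_lit 0) (nat_lit 2773847339) (nat_lit 1748) (nat_lit 3620939105) (nat_lit 1824) (nat_lit 988991259) (nat_lit 380) (nat_lit 5) (nat_lit 403) (nat_lit 5) (nat_lit 404) (nat_lit 5) (nat_lit 327) (nat_lit 296) (nat_lit 277)) (XT.nd (nat_lit 78) (nat_lit 912) (nat_lit 0) (XT.lf (nat_lit 0) (nat_lit 2489940711) (nat_lit 988) (nat_lit 506201221) (nat_lit 1064) (nat_lit 4464209636) (nat_lit 366) (nat_lit 5) (nat_lit 379) (nat_lit 5) (nat_lit 380) (nat_lit 5) (nat_lit 328) (nat_lit 296) (nat_lit 276)) (XT.lf (nat_lit 0) (nat_lit 2219665588) (nat_lit 912) (nat_lit 4819910786) (nat_lit 988) (nat_lit 500537294) (nat_lit 354) (nat_lit 5) (nat_lit 366) (nat_lit 5) (nat_lit 367) (nat_lit 5) (nat_lit 329) (nat_lit 296) (nat_lit 275))))))) (XT.nd (nat_lit 780) (nat_lit 6080) (nat_lit 0) (XT.nd (nat_lit 390) (nat_lit 2964)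 (nat_lit 0) (XT.nd (nat_lit 156) (nat_lit 2432) (nat_lit 0) (XT.nd (nat_lit 78) (nat_lit 836) (nat_lit 0) (XT.lf (nat_lit 0) (nat_lit 1958619268) (nat_lit 836) (nat_lit 1516900746) (nat_lit 912) (nat_lit 4147536685) (nat_lit 342) (nat_lit 5) (nat_lit 353) (nat_lit 5) (nat_lit 354) (nat_lit 5) (nat_lit 330) (nat_lit 296) (nat_lit 274)) (XT.lf (nat_lit 0) (nat_lit 1715338753) (nat_lit 836) (nat_lit 5801329749) (nat_lit 912) (nat_lit 192761624) (nat_lit 331) (nat_lit 5) (nat_lit 342) (nat_lit 5) (nat_lit 343) (nat_lit 5) (nat_lit 331) (nat_lit 296) (nat_lit 273))) (XT.nd (nat_lit 78) (nat_lit 1596) (nat_lit 0) (XT.lf (nat_lit 0) (nat_lit 1467990116) (nat_lit 760) (nat_lit 2314636580) (nat_lit 836) (nat_lit 4016264393) (nat_lit 320) (nat_lit 5) (nat_lit 330) (nat_lit 5) (nat_lit 331) (nat_lit 5) (nat_lit 332) (nat_lit 296) (nat_lit 272)) (XT.nd (nat_lit 78) (nat_lit 836) (nat_lit 0) (XT.lf (nat_lit 0)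 (nat_lit 1239834041) (nat_lit 760) (nat_lit 6588925002) (nat_lit 836) (nat_lit 63225213) (nat_lit 310) (nat_lit 5) (nat_lit 320) (nat_lit 5) (nat_lit 321) (nat_lit 5) (nat_lit 333) (nat_lit 296) (nat_lit 271)) (XT.lf (nat_lit 0) (nat_lit 996702133) (nat_lit 760) (nat_lit 2922692413) (nat_lit 836) (nat_lit 4068737154) (nat_lit 299) (nat_lit 5) (nat_lit 309) (nat_lit 5) (nat_lit 310) (nat_lit 5) (nat_lit 334) (nat_lit 296) (nat_lit 270))))) (XT.nd (nat_lit 156) (nat_lit 1444) (nat_lit 0) (XT.nd (nat_lit 78) (nat_lit 760) (nat_lit 0) (XT.lf (nat_lit 0) (nat_lit 771599080) (nat_lit 760) (nat_lit 7205566208) (nat_lit 836) (nat_lit 110910934) (nat_lit 289) (nat_lit 5) (nat_lit 299) (nat_lit 5) (nat_lit 300) (nat_lit 5) (nat_lit 335) (nat_lit 296) (nat_lit 269)) (XT.lf (nat_lit 0) (nat_lit 522793174) (nat_lit 684) (nat_lit 3363561705) (nat_lit 760) (nat_lit 4304744105) (nat_lit 279) (nat_lit 5) (nat_lit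 288) (nat_lit 5) (nat_lit 289) (nat_lit 5) (nat_lit 336) (nat_lit 296) (nat_lit 268))) (XT.nd (nat_lit 78) (nat_lit 760) (nat_lit 0) (XT.lf (nat_lit 0) (nat_lit 288361957) (nat_lit 684) (nat_lit 7673446002) (nat_lit 760) (nat_lit 336242008) (nat_lit 270) (nat_lit 5) (nat_lit 279) (nat_lit 5) (nat_lit 280) (nat_lit 5) (nat_lit 337) (nat_lit 296) (nat_lit 267)) (XT.nd (nat_lit 78) (nat_lit 0) (nat_lit 0) (XT.lf (nat_lit 0) (nat_lit 23484660) (nat_lit 684) (nat_lit 3659130063) (nat_lit 760) (nat_lit 4725543086) (nat_lit 260) (nat_lit 5) (nat_lit 269) (nat_lit 5) (nat_lit 270) (nat_lit 5) (nat_lit 338) (nat_lit 296) (nat_lit 266)) (XT.lf (nat_lit 0) (nat_lit 7782695419) (nat_lit 760) (nat_lit 230022171) (nat_lit 76) (nat_lit 509546417) (nat_lit 260) (nat_lit 5) (nat_lit 270) (nat_lit 5) (nat_lit 261) (nat_lit 5) (nat_lit 339) (nat_lit 296) (nat_lit 265)))))) (XT.nd (nat_lit 390) (nat_lit 2736) (nat_lit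 0) (XT.nd (nat_lit 156) (nat_lit 1976) (nat_lit 0) (XT.nd (nat_lit 78) (nat_lit 608) (nat_lit 0) (XT.lf (nat_lit 0) (nat_lit 3309230943) (nat_lit 760) (nat_lit 518149086) (nat_lit 76) (nat_lit 4812270431) (nat_lit 250) (nat_lit 5) (nat_lit 260) (nat_lit 5) (nat_lit 251) (nat_lit 5) (nat_lit 340) (nat_lit 296) (nat_lit 264)) (XT.lf (nat_lit 0) (nat_lit 7437621169) (nat_lit 684) (nat_lit 806361778) (nat_lit 76) (nat_lit 517155053) (nat_lit 242) (nat_lit 5) (nat_lit 251) (nat_lit 5) (nat_lit 243) (nat_lit 5) (nat_lit 341) (nat_lit 296) (nat_lit 263))) (XT.nd (nat_lit 78) (nat_lit 1292) (nat_lit 0) (XT.lf (nat_lit 0) (nat_lit 2759571425) (nat_lit 684) (nat_lit 1132786093) (nat_lit 76) (nat_lit 4993732422) (nat_lit 233) (nat_lit 5) (nat_lit 242) (nat_lit 5) (nat_lit 234) (nat_lit 5) (nat_lit 342) (nat_lit 296) (nat_lit 262)) (XT.nd (nat_lit 78) (nat_lit 684) (nat_lit 0) (XT.lf (nat_lit 0) (nat_lit 6920388378)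 (nat_lit 684) (nat_lit 1469844049) (nat_lit 76) (nat_lit 624956357) (nat_lit 225) (nat_lit 5) (nat_lit 234) (nat_lit 5) (nat_lit 226) (nat_lit 5) (nat_lit 343) (nat_lit 296) (nat_lit 261)) (XT.lf (nat_lit 0) (nat_lit 2028232407) (nat_lit 684) (nat_lit 1846967861) (nat_lit 76) (nat_lit 5272781904) (nat_lit 216) (nat_lit 5) (nat_lit 225) (nat_lit 5) (nat_lit 217) (nat_lit 5) (nat_lit 344) (nat_lit 296) (nat_lit 260))))) (XT.nd (nat_lit 156) (nat_lit 1596) (nat_lit 0) (XT.nd (nat_lit 78) (nat_lit 608) (nat_lit 0) (XT.lf (nat_lit 0) (nat_lit 6225096368) (nat_lit 608) (nat_lit 2247494683) (nat_lit 76) (nat_lit 812354174) (nat_lit 209) (nat_lit 5) (nat_lit 217) (nat_lit 5) (nat_lit 210) (nat_lit 5) (nat_lit 345) (nat_lit 296) (nat_lit 259)) (XT.lf (nat_lit 0) (nat_lit 1108334860) (nat_lit 608) (nat_lit 2688674906) (nat_lit 76) (nat_lit 5628870877) (nat_lit 201) (nat_lit 5) (nat_lit 209) (nat_lit 5) (nat_lit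 202) (nat_lit 5) (nat_lit 346) (nat_lit 296) (nat_lit 258))) (XT.nd (nat_lit 78) (nat_lit 1064) (nat_lit 0) (XT.lf (nat_lit 0) (nat_lit 5344189586) (nat_lit 608) (nat_lit 3168228040) (nat_lit 76) (nat_lit 1058570212) (nat_lit 194) (nat_lit 5) (nat_lit 202) (nat_lit 5) (nat_lit 195) (nat_lit 5) (nat_lit 347) (nat_lit 296) (nat_lit 257)) (XT.nd (nat_lit 78) (nat_lit 532) (nat_lit 0) (XT.lf (nat_lit 0) (nat_lit 6032419812) (nat_lit 532) (nat_lit 3679141070) (nat_lit 608) (nat_lit 8829775) (nat_lit 187) (nat_lit 5) (nat_lit 194) (nat_lit 5) (nat_lit 195) (nat_lit 5) (nat_lit 348) (nat_lit 296) (nat_lit 256)) (XT.lf (nat_lit 0) (nat_lit 4268364114) (nat_lit 532) (nat_lit 4263136367) (nat_lit 76) (nat_lit 1342450808) (nat_lit 180) (nat_lit 5) (nat_lit 187) (nat_lit 5) (nat_lit 181) (nat_lit 5) (nat_lit 349) (nat_lit 296) (nat_lit 255))))))))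
noncomputable def xc41 : XT := (XT.nd (nat_lit 1482) (nat_lit 3648) (nat_lit 0) (XT.nd (nat_lit 702) (nat_lit 3344) (nat_lit 0) (XT.nd (nat_lit 312) (nat_lit 1824) (nat_lit 0) (XT.nd (nat_lit 156) (nat_lit 988) (nat_lit 0) (XT.nd (nat_lit 78) (nat_lit 532) (nat_lit 0) (XT.lf (nat_lit 0) (nat_lit 5146213626) (nat_lit 532) (nat_lit 3534747706) (nat_lit 608) (nat_lit 1351040949) (nat_lit 173) (nat_lit 5) (nat_lit 180) (nat_lit 5) (nat_lit 181) (nat_lit 5) (nat_lit 350) (nat_lit 296) (nat_lit 254)) (XT.lf (nat_lit 0) (nat_lit 2986458433) (nat_lit 532) (nat_lit 5565802770) (nat_lit 76) (nat_lit 1642266050) (nat_lit 166) (nat_lit 5) (nat_lit 173) (nat_lit 5) (nat_lit 167) (nat_lit 5) (nat_lit 351) (nat_lit 296) (nat_lit 253))) (XT.nd (nat_lit 78) (nat_lit 532) (nat_lit 0) (XT.lf (nat_lit 0) (nat_lit 4051676440) (nat_lit 456) (nat_lit 3393830268) (nat_lit 532) (nat_lit 2916073738) (nat_lit 160) (nat_lit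 5) (nat_lit 166) (nat_lit 5) (nat_lit 167) (nat_lit 5) (nat_lit 352) (nat_lit 296) (nat_lit 252)) (XT.lf (nat_lit 0) (nat_lit 1485327262) (nat_lit 532) (nat_lit 7112640886) (nat_lit 76) (nat_lit 1935499478) (nat_lit 153) (nat_lit 5) (nat_lit 160) (nat_lit 5) (nat_lit 154) (nat_lit 5) (nat_lit 353) (nat_lit 296) (nat_lit 251)))) (XT.nd (nat_lit 156) (nat_lit 988) (nat_lit 0) (XT.nd (nat_lit 78) (nat_lit 380) (nat_lit 0) (XT.lf (nat_lit 0) (nat_lit 2711500652) (nat_lit 456) (nat_lit 3279877757) (nat_lit 532) (nat_lit 4718527628) (nat_lit 147) (nat_lit 5) (nat_lit 153) (nat_lit 5) (nat_lit 154) (nat_lit 5) (nat_lit 354) (nat_lit 296) (nat_lit 250)) (XT.lf (nat_lit 0) (nat_lit 1946643982) (nat_lit 380) (nat_lit 8691282007) (nat_lit 456) (nat_lit 253629239) (nat_lit 142) (nat_lit 5) (nat_lit 147) (nat_lit 5) (nat_lit 148) (nat_lit 5) (nat_lit 355) (nat_lit 296) (nat_lit 249))) (XT.nd (nat_lit 78) (nat_lit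 456) (nat_lit 0) (XT.lf (nat_lit 0) (nat_lit 1085035947) (nat_lit 456) (nat_lit 3217536001) (nat_lit 532) (nat_lit 6775253598) (nat_lit 135) (nat_lit 5) (nat_lit 141) (nat_lit 5) (nat_lit 142) (nat_lit 5) (nat_lit 356) (nat_lit 296) (nat_lit 248)) (XT.nd (nat_lit 78) (nat_lit 76) (nat_lit 0) (XT.lf (nat_lit 0) (nat_lit 153863628) (nat_lit 380) (nat_lit 8847874933) (nat_lit 456) (nat_lit 2267739487) (nat_lit 130) (nat_lit 5) (nat_lit 135) (nat_lit 5) (nat_lit 136) (nat_lit 5) (nat_lit 357) (nat_lit 296) (nat_lit 247)) (XT.lf (nat_lit 0) (nat_lit 2366386486) (nat_lit 456) (nat_lit 860690995) (nat_lit 76) (nat_lit 8239064588) (nat_lit 129) (nat_lit 5) (nat_lit 135) (nat_lit 5) (nat_lit 130) (nat_lit 5) (nat_lit 358) (nat_lit 296) (nat_lit 246)))))) (XT.nd (nat_lit 390) (nat_lit 1368) (nat_lit 0) (XT.nd (nat_lit 156) (nat_lit 1140) (nat_lit 0) (XT.nd (nat_lit 78) (nat_lit 456) (nat_lit 0) (XT.lf (nat_lit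 0) (nat_lit 7123756882) (nat_lit 456) (nat_lit 1967834808) (nat_lit 76) (nat_lit 2576534351) (nat_lit 124) (nat_lit 5) (nat_lit 130) (nat_lit 5) (nat_lit 125) (nat_lit 5) (nat_lit 359) (nat_lit 296) (nat_lit 245)) (XT.lf (nat_lit 0) (nat_lit 165750026) (nat_lit 456) (nat_lit 3166542998) (nat_lit 76) (nat_lit 8543476621) (nat_lit 118) (nat_lit 5) (nat_lit 124) (nat_lit 5) (nat_lit 119) (nat_lit 5) (nat_lit 360) (nat_lit 296) (nat_lit 244))) (XT.nd (nat_lit 78) (nat_lit 760) (nat_lit 0) (XT.lf (nat_lit 0) (nat_lit 4972667338) (nat_lit 456) (nat_lit 4488166246) (nat_lit 76) (nat_lit 2627882394) (nat_lit 113) (nat_lit 5) (nat_lit 119) (nat_lit 5) (nat_lit 114) (nat_lit 5) (nat_lit 361) (nat_lit 296) (nat_lit 243)) (XT.nd (nat_lit 78) (nat_lit 456) (nat_lit 0) (XT.lf (nat_lit 0) (nat_lit 6392878682) (nat_lit 304) (nat_lit 3554040708) (nat_lit 380) (nat_lit 2360687098) (nat_lit 109) (nat_lit 5) (nat_lit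 113) (nat_lit 5) (nat_lit 114) (nat_lit 5) (nat_lit 362) (nat_lit 296) (nat_lit 242)) (XT.lf (nat_lit 0) (nat_lit 2522954183) (nat_lit 456) (nat_lit 7464312311) (nat_lit 76) (nat_lit 2545107257) (nat_lit 103) (nat_lit 5) (nat_lit 109) (nat_lit 5) (nat_lit 104) (nat_lit 5) (nat_lit 363) (nat_lit 296) (nat_lit 241))))) (XT.nd (nat_lit 156) (nat_lit 760) (nat_lit 0) (XT.nd (nat_lit 78) (nat_lit 304) (nat_lit 0) (XT.lf (nat_lit 0) (nat_lit 3612072001) (nat_lit 304) (nat_lit 3936208136) (nat_lit 380) (nat_lit 5214763794) (nat_lit 99) (nat_lit 5) (nat_lit 103) (nat_lit 5) (nat_lit 104) (nat_lit 5) (nat_lit 364) (nat_lit 296) (nat_lit 240)) (XT.lf (nat_lit 0) (nat_lit 2041665453) (nat_lit 304) (nat_lit 10702232054) (nat_lit 380) (nat_lit 256362524) (nat_lit 95) (nat_lit 5) (nat_lit 99) (nat_lit 5) (nat_lit 100) (nat_lit 5) (nat_lit 365) (nat_lit 296) (nat_lit 239))) (XT.nd (nat_lit 78) (nat_lit 380) (nat_lit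 0) (XT.lf (nat_lit 0) (nat_lit 305314942) (nat_lit 304) (nat_lit 4513770303) (nat_lit 380) (nat_lit 8424254864) (nat_lit 90) (nat_lit 5) (nat_lit 94) (nat_lit 5) (nat_lit 95) (nat_lit 5) (nat_lit 366) (nat_lit 296) (nat_lit 238)) (XT.nd (nat_lit 78) (nat_lit 380) (nat_lit 0) (XT.lf (nat_lit 0) (nat_lit 10072256585) (nat_lit 380) (nat_lit 1541271059) (nat_lit 76) (nat_lit 1879587391) (nat_lit 90) (nat_lit 5) (nat_lit 95) (nat_lit 5) (nat_lit 91) (nat_lit 5) (nat_lit 367) (nat_lit 296) (nat_lit 237)) (XT.lf (nat_lit 0) (nat_lit 1750436679) (nat_lit 380) (nat_lit 3549204352) (nat_lit 76) (nat_lit 8449721241) (nat_lit 85) (nat_lit 5) (nat_lit 90) (nat_lit 5) (nat_lit 86) (nat_lit 5) (nat_lit 368) (nat_lit 296) (nat_lit 236))))))) (XT.nd (nat_lit 780) (nat_lit 1444) (nat_lit 0) (XT.nd (nat_lit 390) (nat_lit 1064) (nat_lit 0) (XT.nd (nat_lit 156) (nat_lit 608) (nat_lit 0) (XT.nd (nat_lit 78) (nat_lit 304)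 (nat_lit 0) (XT.lf (nat_lit 0) (nat_lit 7047704199) (nat_lit 304) (nat_lit 5721647495) (nat_lit 76) (nat_lit 1243160850) (nat_lit 82) (nat_lit 5) (nat_lit 86) (nat_lit 5) (nat_lit 83) (nat_lit 5) (nat_lit 369) (nat_lit 296) (nat_lit 235)) (XT.lf (nat_lit 0) (nat_lit 6209494244) (nat_lit 304) (nat_lit 6339671393) (nat_lit 380) (nat_lit 1733499805) (nat_lit 78) (nat_lit 5) (nat_lit 82) (nat_lit 5) (nat_lit 83) (nat_lit 5) (nat_lit 370) (nat_lit 296) (nat_lit 234))) (XT.nd (nat_lit 78) (nat_lit 304) (nat_lit 0) (XT.lf (nat_lit 0) (nat_lit 3619715613) (nat_lit 304) (nat_lit 10605086585) (nat_lit 76) (nat_lit 335401122) (nat_lit 74) (nat_lit 5) (nat_lit 78) (nat_lit 5) (nat_lit 75) (nat_lit 5) (nat_lit 371) (nat_lit 296) (nat_lit 233)) (XT.nd (nat_lit 78) (nat_lit 0) (nat_lit 0) (XT.lf (nat_lit 0) (nat_lit 1488220867) (nat_lit 304) (nat_lit 7675790916) (nat_lit 380) (nat_lit 5680758269) (nat_lit 70) (nat_lit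 5) (nat_lit 74) (nat_lit 5) (nat_lit 75) (nat_lit 5) (nat_lit 372) (nat_lit 296) (nat_lit 232)) (XT.lf (nat_lit 0) (nat_lit 14004165594) (nat_lit 304) (nat_lit 890105081) (nat_lit 380) (nat_lit 243222670) (nat_lit 70) (nat_lit 5) (nat_lit 74) (nat_lit 5) (nat_lit 75) (nat_lit 5) (nat_lit 373) (nat_lit 296) (nat_lit 231))))) (XT.nd (nat_lit 156) (nat_lit 532) (nat_lit 0) (XT.nd (nat_lit 78) (nat_lit 228) (nat_lit 0) (XT.lf (nat_lit 0) (nat_lit 5350826510) (nat_lit 304) (nat_lit 3989001771) (nat_lit 76) (nat_lit 6097212993) (nat_lit 66) (nat_lit 5) (nat_lit 70) (nat_lit 5) (nat_lit 67) (nat_lit 5) (nat_lit 374) (nat_lit 296) (nat_lit 230)) (XT.lf (nat_lit 0) (nat_lit 8700435859) (nat_lit 228) (nat_lit 2428837287) (nat_lit 304) (nat_lit 4615884039) (nat_lit 63) (nat_lit 5) (nat_lit 66) (nat_lit 5) (nat_lit 67) (nat_lit 5) (nat_lit 375) (nat_lit 296) (nat_lit 229))) (XT.nd (nat_lit 78) (nat_lit 228) (nat_lit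 0) (XT.lf (nat_lit 0) (nat_lit 1050731056) (nat_lit 304) (nat_lit 10343315247) (nat_lit 76) (nat_lit 4667438110) (nat_lit 59) (nat_lit 5) (nat_lit 63) (nat_lit 5) (nat_lit 60) (nat_lit 5) (nat_lit 376) (nat_lit 296) (nat_lit 228)) (XT.nd (nat_lit 78) (nat_lit 0) (nat_lit 0) (XT.lf (nat_lit 0) (nat_lit 2477344356) (nat_lit 228) (nat_lit 4379026852) (nat_lit 304) (nat_lit 9529695710) (nat_lit 56) (nat_lit 5) (nat_lit 59) (nat_lit 5) (nat_lit 60) (nat_lit 5) (nat_lit 377) (nat_lit 296) (nat_lit 227)) (XT.lf (nat_lit 0) (nat_lit 12876910667) (nat_lit 304) (nat_lit 994909545) (nat_lit 76) (nat_lit 2847762228) (nat_lit 56) (nat_lit 5) (nat_lit 60) (nat_lit 5) (nat_lit 57) (nat_lit 5) (nat_lit 378) (nat_lit 296) (nat_lit 226)))))) (XT.nd (nat_lit 390) (nat_lit 456) (nat_lit 0) (XT.nd (nat_lit 156) (nat_lit 456) (nat_lit 0) (XT.nd (nat_lit 78) (nat_lit 228) (nat_lit 0) (XT.lf (nat_lit 0) (nat_lit 2051579579)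 (nat_lit 304) (nat_lit 4715035904) (nat_lit 76) (nat_lit 10294975084) (nat_lit 52) (nat_lit 5) (nat_lit 56) (nat_lit 5) (nat_lit 53) (nat_lit 5) (nat_lit 379) (nat_lit 296) (nat_lit 225)) (XT.lf (nat_lit 0) (nat_lit 8091626369) (nat_lit 304) (nat_lit 8718651900) (nat_lit 76) (nat_lit 602658548) (nat_lit 49) (nat_lit 5) (nat_lit 53) (nat_lit 5) (nat_lit 50) (nat_lit 5) (nat_lit 380) (nat_lit 296) (nat_lit 224))) (XT.nd (nat_lit 78) (nat_lit 304) (nat_lit 0) (XT.lf (nat_lit 0) (nat_lit 4735269013) (nat_lit 152) (nat_lit 9640060927) (nat_lit 228) (nat_lit 3398253508) (nat_lit 47) (nat_lit 5) (nat_lit 49) (nat_lit 5) (nat_lit 50) (nat_lit 5) (nat_lit 381) (nat_lit 296) (nat_lit 223)) (XT.nd (nat_lit 78) (nat_lit 0) (nat_lit 0) (XT.lf (nat_lit 0) (nat_lit 479672478) (nat_lit 228) (nat_lit 2204791803) (nat_lit 304) (nat_lit 15459894675) (nat_lit 43) (nat_lit 5) (nat_lit 46) (nat_lit 5) (nat_lit 47) (nat_lit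 5) (nat_lit 382) (nat_lit 296) (nat_lit 222)) (XT.lf (nat_lit 0) (nat_lit 8983550044) (nat_lit 304) (nat_lit 4077945840) (nat_lit 76) (nat_lit 5462719898) (nat_lit 43) (nat_lit 5) (nat_lit 47) (nat_lit 5) (nat_lit 44) (nat_lit 5) (nat_lit 383) (nat_lit 296) (nat_lit 221))))) (XT.nd (nat_lit 156) (nat_lit 0) (nat_lit 0) (XT.nd (nat_lit 78) (nat_lit 304) (nat_lit 0) (XT.lf (nat_lit 0) (nat_lit 9958074000) (nat_lit 152) (nat_lit 5549678259) (nat_lit 228) (nat_lit 3407001342) (nat_lit 41) (nat_lit 5) (nat_lit 43) (nat_lit 5) (nat_lit 44) (nat_lit 5) (nat_lit 384) (nat_lit 296) (nat_lit 220)) (XT.lf (nat_lit 0) (nat_lit 2905392076) (nat_lit 304) (nat_lit 14201627682) (nat_lit 76) (nat_lit 2208959747) (nat_lit 37) (nat_lit 5) (nat_lit 41) (nat_lit 5) (nat_lit 38) (nat_lit 5) (nat_lit 385) (nat_lit 296) (nat_lit 219))) (XT.nd (nat_lit 40638) (nat_lit 0) (nat_lit 46816) (XT.lf (nat_lit 0) (nat_lit 9417162094)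 (nat_lit 304) (nat_lit 131222606) (nat_lit 76) (nat_lit 10179288774) (nat_lit 37) (nat_lit 5) (nat_lit 41) (nat_lit 5) (nat_lit 38) (nat_lit 5) (nat_lit 386) (nat_lit 296) (nat_lit 218)) (XT.nd (nat_lit 78) (nat_lit 380) (nat_lit 0) (XT.lf (nat_lit 0) (nat_lit 883272572) (nat_lit 380) (nat_lit 1474206275) (nat_lit 0) (nat_lit 883272572) (nat_lit 658) (nat_lit 5) (nat_lit 663) (nat_lit 4) (nat_lit 658) (nat_lit 4) (nat_lit 306) (nat_lit 297) (nat_lit 297)) (XT.lf (nat_lit 0) (nat_lit 2296089957) (nat_lit 380) (nat_lit 4066233828) (nat_lit 380) (nat_lit 133848727) (nat_lit 653) (nat_lit 4) (nat_lit 658) (nat_lit 5) (nat_lit 658) (nat_lit 4) (nat_lit 307) (nat_lit 297) (nat_lit 296))))))))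
noncomputable def xc42 : XT := (XT.nd (nat_lit 1482) (nat_lit 15352) (nat_lit 0) (XT.nd (nat_lit 702) (nat_lit 12768) (nat_lit 0) (XT.nd (nat_lit 312) (nat_lit 4408) (nat_lit 0) (XT.nd (nat_lit 156) (nat_lit 1216) (nat_lit 0) (XT.nd (nat_lit 78) (nat_lit 76) (nat_lit 0) (XT.lf (nat_lit 0) (nat_lit 1105803848) (nat_lit 456) (nat_lit 3278373657) (nat_lit 532) (nat_lit 2129467062) (nat_lit 646) (nat_lit 5) (nat_lit 652) (nat_lit 5) (nat_lit 653) (nat_lit 4) (nat_lit 308) (nat_lit 297) (nat_lit 295)) (XT.lf (nat_lit 0) (nat_lit 2335413683) (nat_lit 532) (nat_lit 26862045) (nat_lit 76) (nat_lit 4171885740) (nat_lit 645) (nat_lit 5) (nat_lit 652) (nat_lit 5) (nat_lit 646) (nat_lit 5) (nat_lit 309) (nat_lit 297) (nat_lit 294))) (XT.nd (nat_lit 78) (nat_lit 608) (nat_lit 0) (XT.lf (nat_lit 0) (nat_lit 220517340) (nat_lit 608) (nat_lit 1089749933) (nat_lit 76) (nat_lit 5247339117) (nat_lit 637) (nat_lit 5)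 (nat_lit 645) (nat_lit 5) (nat_lit 638) (nat_lit 5) (nat_lit 310) (nat_lit 297) (nat_lit 293)) (XT.lf (nat_lit 0) (nat_lit 4472371837) (nat_lit 608) (nat_lit 115417911) (nat_lit 684) (nat_lit 1996092208) (nat_lit 629) (nat_lit 5) (nat_lit 637) (nat_lit 5) (nat_lit 638) (nat_lit 5) (nat_lit 311) (nat_lit 297) (nat_lit 292)))) (XT.nd (nat_lit 156) (nat_lit 2888) (nat_lit 0) (XT.nd (nat_lit 78) (nat_lit 760) (nat_lit 0) (XT.lf (nat_lit 0) (nat_lit 2326598146) (nat_lit 760) (nat_lit 3090155827) (nat_lit 76) (nat_lit 1196317398) (nat_lit 619) (nat_lit 5) (nat_lit 629) (nat_lit 5) (nat_lit 620) (nat_lit 5) (nat_lit 312) (nat_lit 297) (nat_lit 291)) (XT.lf (nat_lit 0) (nat_lit 2626191240) (nat_lit 760) (nat_lit 4007869141) (nat_lit 836) (nat_lit 11289840) (nat_lit 609) (nat_lit 5) (nat_lit 619) (nat_lit 5) (nat_lit 620) (nat_lit 5) (nat_lit 313) (nat_lit 297) (nat_lit 290))) (XT.nd (nat_lit 78) (nat_lit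 1976) (nat_lit 0) (XT.lf (nat_lit 0) (nat_lit 1765840003) (nat_lit 836) (nat_lit 2453685671) (nat_lit 912) (nat_lit 2460917792) (nat_lit 597) (nat_lit 5) (nat_lit 608) (nat_lit 5) (nat_lit 609) (nat_lit 5) (nat_lit 314) (nat_lit 297) (nat_lit 289)) (XT.nd (nat_lit 78) (nat_lit 988) (nat_lit 0) (XT.lf (nat_lit 0) (nat_lit 956450813) (nat_lit 912) (nat_lit 768286279) (nat_lit 988) (nat_lit 4993947437) (nat_lit 584) (nat_lit 5) (nat_lit 596) (nat_lit 5) (nat_lit 597) (nat_lit 5) (nat_lit 315) (nat_lit 297) (nat_lit 288)) (XT.lf (nat_lit 0) (nat_lit 184409571) (nat_lit 988) (nat_lit 5718073956) (nat_lit 1064) (nat_lit 857372012) (nat_lit 571) (nat_lit 5) (nat_lit 584) (nat_lit 5) (nat_lit 585) (nat_lit 5) (nat_lit 316) (nat_lit 297) (nat_lit 287)))))) (XT.nd (nat_lit 390) (nat_lit 7828) (nat_lit 0) (XT.nd (nat_lit 156) (nat_lit 3724) (nat_lit 0) (XT.nd (nat_lit 78) (nat_lit 1140) (nat_lit 0) (XT.lf (nat_lit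 0) (nat_lit 3264275936) (nat_lit 1064) (nat_lit 549383325) (nat_lit 76) (nat_lit 2990150296) (nat_lit 570) (nat_lit 5) (nat_lit 584) (nat_lit 5) (nat_lit 571) (nat_lit 5) (nat_lit 317) (nat_lit 297) (nat_lit 286)) (XT.lf (nat_lit 0) (nat_lit 541461620) (nat_lit 1140) (nat_lit 1234730826) (nat_lit 76) (nat_lit 5074768900) (nat_lit 555) (nat_lit 5) (nat_lit 570) (nat_lit 5) (nat_lit 556) (nat_lit 5) (nat_lit 318) (nat_lit 297) (nat_lit 285))) (XT.nd (nat_lit 78) (nat_lit 2584) (nat_lit 0) (XT.lf (nat_lit 0) (nat_lit 4603516392) (nat_lit 1216) (nat_lit 1892541462) (nat_lit 76) (nat_lit 404961816) (nat_lit 540) (nat_lit 5) (nat_lit 556) (nat_lit 5) (nat_lit 541) (nat_lit 5) (nat_lit 319) (nat_lit 297) (nat_lit 284)) (XT.nd (nat_lit 78) (nat_lit 1292) (nat_lit 0) (XT.lf (nat_lit 0) (nat_lit 1730160485) (nat_lit 1292) (nat_lit 2522683817) (nat_lit 76) (nat_lit 2701199471) (nat_lit 523) (nat_lit 5) (nat_lit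 540) (nat_lit 5) (nat_lit 524) (nat_lit 5) (nat_lit 320) (nat_lit 297) (nat_lit 283)) (XT.lf (nat_lit 0) (nat_lit 3891185622) (nat_lit 1292) (nat_lit 1867607507) (nat_lit 1368) (nat_lit 1251421798) (nat_lit 506) (nat_lit 5) (nat_lit 523) (nat_lit 5) (nat_lit 524) (nat_lit 5) (nat_lit 321) (nat_lit 297) (nat_lit 282))))) (XT.nd (nat_lit 156) (nat_lit 4940) (nat_lit 0) (XT.nd (nat_lit 78) (nat_lit 1444) (nat_lit 0) (XT.lf (nat_lit 0) (nat_lit 2721574431) (nat_lit 1444) (nat_lit 3690622054) (nat_lit 76) (nat_lit 657216620) (nat_lit 487) (nat_lit 5) (nat_lit 506) (nat_lit 5) (nat_lit 488) (nat_lit 5) (nat_lit 322) (nat_lit 297) (nat_lit 281)) (XT.lf (nat_lit 0) (nat_lit 2893442123) (nat_lit 1444) (nat_lit 3834141571) (nat_lit 1520) (nat_lit 404102102) (nat_lit 468) (nat_lit 5) (nat_lit 487) (nat_lit 5) (nat_lit 488) (nat_lit 5) (nat_lit 323) (nat_lit 297) (nat_lit 280))) (XT.nd (nat_lit 78) (nat_lit 3344)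 (nat_lit 0) (XT.lf (nat_lit 0) (nat_lit 2430476972) (nat_lit 1520) (nat_lit 1100621491) (nat_lit 1596) (nat_lit 3665907302) (nat_lit 447) (nat_lit 5) (nat_lit 467) (nat_lit 5) (nat_lit 468) (nat_lit 5) (nat_lit 324) (nat_lit 297) (nat_lit 279)) (XT.nd (nat_lit 78) (nat_lit 1672) (nat_lit 0) (XT.lf (nat_lit 0) (nat_lit 246098901) (nat_lit 1672) (nat_lit 5269916395) (nat_lit 76) (nat_lit 1749536850) (nat_lit 425) (nat_lit 5) (nat_lit 447) (nat_lit 5) (nat_lit 426) (nat_lit 5) (nat_lit 325) (nat_lit 297) (nat_lit 278)) (XT.lf (nat_lit 0) (nat_lit 1570627197) (nat_lit 1672) (nat_lit 2590319818) (nat_lit 1748) (nat_lit 3176088340) (nat_lit 403) (nat_lit 5) (nat_lit 425) (nat_lit 5) (nat_lit 426) (nat_lit 5) (nat_lit 326) (nat_lit 297) (nat_lit 277))))))) (XT.nd (nat_lit 780) (nat_lit 6612) (nat_lit 0) (XT.nd (nat_lit 390) (nat_lit 4028) (nat_lit 0) (XT.nd (nat_lit 156) (nat_lit 1900) (nat_lit 0) (XT.nd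 (nat_lit 78) (nat_lit 988) (nat_lit 0) (XT.lf (nat_lit 0) (nat_lit 705808974) (nat_lit 1824) (nat_lit 6234482207) (nat_lit 76) (nat_lit 471667759) (nat_lit 379) (nat_lit 5) (nat_lit 403) (nat_lit 5) (nat_lit 380) (nat_lit 5) (nat_lit 327) (nat_lit 297) (nat_lit 276)) (XT.lf (nat_lit 0) (nat_lit 783059313) (nat_lit 988) (nat_lit 3829354158) (nat_lit 1064) (nat_lit 2877334305) (nat_lit 366) (nat_lit 5) (nat_lit 379) (nat_lit 5) (nat_lit 380) (nat_lit 5) (nat_lit 328) (nat_lit 297) (nat_lit 275))) (XT.nd (nat_lit 78) (nat_lit 912) (nat_lit 0) (XT.lf (nat_lit 0) (nat_lit 417314014) (nat_lit 912) (nat_lit 571445559) (nat_lit 988) (nat_lit 6582306540) (nat_lit 353) (nat_lit 5) (nat_lit 365) (nat_lit 5) (nat_lit 366) (nat_lit 5) (nat_lit 329) (nat_lit 297) (nat_lit 274)) (XT.nd (nat_lit 78) (nat_lit 76) (nat_lit 0) (XT.lf (nat_lit 0) (nat_lit 47098054) (nat_lit 836) (nat_lit 4842638458) (nat_lit 912) (nat_lit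 2765607739) (nat_lit 342) (nat_lit 5) (nat_lit 353) (nat_lit 5) (nat_lit 354) (nat_lit 5) (nat_lit 330) (nat_lit 297) (nat_lit 273)) (XT.lf (nat_lit 0) (nat_lit 1098218928) (nat_lit 912) (nat_lit 299503148) (nat_lit 76) (nat_lit 6345376585) (nat_lit 341) (nat_lit 5) (nat_lit 353) (nat_lit 5) (nat_lit 342) (nat_lit 5) (nat_lit 331) (nat_lit 297) (nat_lit 272))))) (XT.nd (nat_lit 156) (nat_lit 2356) (nat_lit 0) (XT.nd (nat_lit 78) (nat_lit 836) (nat_lit 0) (XT.lf (nat_lit 0) (nat_lit 5000057680) (nat_lit 912) (nat_lit 649562820) (nat_lit 76) (nat_lit 2184362051) (nat_lit 330) (nat_lit 5) (nat_lit 342) (nat_lit 5) (nat_lit 331) (nat_lit 5) (nat_lit 332) (nat_lit 297) (nat_lit 271)) (XT.lf (nat_lit 0) (nat_lit 1033797516) (nat_lit 836) (nat_lit 989819807) (nat_lit 76) (nat_lit 5904752066) (nat_lit 319) (nat_lit 5) (nat_lit 330) (nat_lit 5) (nat_lit 320) (nat_lit 5) (nat_lit 333) (nat_lit 297) (nat_lit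 270))) (XT.nd (nat_lit 78) (nat_lit 1596) (nat_lit 0) (XT.lf (nat_lit 0) (nat_lit 4940843883) (nat_lit 836) (nat_lit 1336448486) (nat_lit 76) (nat_lit 1748736577) (nat_lit 309) (nat_lit 5) (nat_lit 320) (nat_lit 5) (nat_lit 310) (nat_lit 5) (nat_lit 334) (nat_lit 297) (nat_lit 269)) (XT.nd (nat_lit 78) (nat_lit 760) (nat_lit 0) (XT.lf (nat_lit 0) (nat_lit 793646368) (nat_lit 836) (nat_lit 1680586316) (nat_lit 76) (nat_lit 5653002682) (nat_lit 298) (nat_lit 5) (nat_lit 309) (nat_lit 5) (nat_lit 299) (nat_lit 5) (nat_lit 335) (nat_lit 297) (nat_lit 268)) (XT.lf (nat_lit 0) (nat_lit 4712040288) (nat_lit 836) (nat_lit 2035921453) (nat_lit 76) (nat_lit 1483853840) (nat_lit 288) (nat_lit 5) (nat_lit 299) (nat_lit 5) (nat_lit 289) (nat_lit 5) (nat_lit 336) (nat_lit 297) (nat_lit 267)))))) (XT.nd (nat_lit 390) (nat_lit 3116) (nat_lit 0) (XT.nd (nat_lit 156) (nat_lit 2052) (nat_lit 0) (XT.nd (nat_lit 78) (nat_lit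 684) (nat_lit 0) (XT.lf (nat_lit 0) (nat_lit 377218316) (nat_lit 760) (nat_lit 2394008954) (nat_lit 76) (nat_lit 5568815869) (nat_lit 278) (nat_lit 5) (nat_lit 288) (nat_lit 5) (nat_lit 279) (nat_lit 5) (nat_lit 337) (nat_lit 297) (nat_lit 266)) (XT.lf (nat_lit 0) (nat_lit 4312491671) (nat_lit 760) (nat_lit 2770564585) (nat_lit 76) (nat_lit 1368656258) (nat_lit 269) (nat_lit 5) (nat_lit 279) (nat_lit 5) (nat_lit 270) (nat_lit 5) (nat_lit 338) (nat_lit 297) (nat_lit 265))) (XT.nd (nat_lit 78) (nat_lit 1368) (nat_lit 0) (XT.lf (nat_lit 0) (nat_lit 5412494162) (nat_lit 684) (nat_lit 2934300703) (nat_lit 760) (nat_lit 220360490) (nat_lit 260) (nat_lit 5) (nat_lit 269) (nat_lit 5) (nat_lit 270) (nat_lit 5) (nat_lit 339) (nat_lit 297) (nat_lit 264)) (XT.nd (nat_lit 78) (nat_lit 608) (nat_lit 0) (XT.lf (nat_lit 0) (nat_lit 3739601604) (nat_lit 760) (nat_lit 3564011540) (nat_lit 76) (nat_lit 1382521878) (nat_lit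 250) (nat_lit 5) (nat_lit 260) (nat_lit 5) (nat_lit 251) (nat_lit 5) (nat_lit 340) (nat_lit 297) (nat_lit 263)) (XT.lf (nat_lit 0) (nat_lit 4819876132) (nat_lit 608) (nat_lit 2981999082) (nat_lit 684) (nat_lit 1007089173) (nat_lit 242) (nat_lit 5) (nat_lit 250) (nat_lit 5) (nat_lit 251) (nat_lit 5) (nat_lit 341) (nat_lit 297) (nat_lit 262))))) (XT.nd (nat_lit 156) (nat_lit 1824) (nat_lit 0) (XT.nd (nat_lit 78) (nat_lit 608) (nat_lit 0) (XT.lf (nat_lit 0) (nat_lit 2989285396) (nat_lit 684) (nat_lit 4441172616) (nat_lit 76) (nat_lit 1505087052) (nat_lit 233) (nat_lit 5) (nat_lit 242) (nat_lit 5) (nat_lit 234) (nat_lit 5) (nat_lit 342) (nat_lit 297) (nat_lit 261)) (XT.lf (nat_lit 0) (nat_lit 4145474616) (nat_lit 608) (nat_lit 2937516769) (nat_lit 684) (nat_lit 1983012754) (nat_lit 225) (nat_lit 5) (nat_lit 233) (nat_lit 5) (nat_lit 234) (nat_lit 5) (nat_lit 343) (nat_lit 297) (nat_lit 260))) (XT.nd (nat_lit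 78) (nat_lit 1140) (nat_lit 0) (XT.lf (nat_lit 0) (nat_lit 2055910371) (nat_lit 684) (nat_lit 5428475770) (nat_lit 76) (nat_lit 1716066885) (nat_lit 216) (nat_lit 5) (nat_lit 225) (nat_lit 5) (nat_lit 217) (nat_lit 5) (nat_lit 344) (nat_lit 297) (nat_lit 259)) (XT.nd (nat_lit 78) (nat_lit 608) (nat_lit 0) (XT.lf (nat_lit 0) (nat_lit 3362452258) (nat_lit 532) (nat_lit 2821548667) (nat_lit 608) (nat_lit 3154807270) (nat_lit 209) (nat_lit 5) (nat_lit 216) (nat_lit 5) (nat_lit 217) (nat_lit 5) (nat_lit 345) (nat_lit 297) (nat_lit 258)) (XT.lf (nat_lit 0) (nat_lit 932222774) (nat_lit 608) (nat_lit 6554125041) (nat_lit 76) (nat_lit 1995071955) (nat_lit 201) (nat_lit 5) (nat_lit 209) (nat_lit 5) (nat_lit 202) (nat_lit 5) (nat_lit 346) (nat_lit 297) (nat_lit 257))))))))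
noncomputable def xc43 : XT := (XT.nd (nat_lit 1482) (nat_lit 4408) (nat_lit 0) (XT.nd (nat_lit 702) (nat_lit 3648) (nat_lit 0) (XT.nd (nat_lit 312) (nat_lit 1976) (nat_lit 0) (XT.nd (nat_lit 156) (nat_lit 1064) (nat_lit 0) (XT.nd (nat_lit 78) (nat_lit 532) (nat_lit 0) (XT.lf (nat_lit 0) (nat_lit 2442104454) (nat_lit 532) (nat_lit 2655009329) (nat_lit 608) (nat_lit 4530847838) (nat_lit 194) (nat_lit 5) (nat_lit 201) (nat_lit 5) (nat_lit 202) (nat_lit 5) (nat_lit 347) (nat_lit 297) (nat_lit 256)) (XT.lf (nat_lit 0) (nat_lit 1928058141) (nat_lit 532) (nat_lit 7455017161) (nat_lit 608) (nat_lit 395932268) (nat_lit 187) (nat_lit 5) (nat_lit 194) (nat_lit 5) (nat_lit 195) (nat_lit 5) (nat_lit 348) (nat_lit 297) (nat_lit 255))) (XT.nd (nat_lit 78) (nat_lit 532) (nat_lit 0) (XT.lf (nat_lit 0) (nat_lit 1353571817) (nat_lit 456) (nat_lit 2459226973) (nat_lit 532) (nat_lit 6121304690) (nat_lit 180) (nat_lit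 5) (nat_lit 186) (nat_lit 5) (nat_lit 187) (nat_lit 5) (nat_lit 349) (nat_lit 297) (nat_lit 254)) (XT.lf (nat_lit 0) (nat_lit 737280234) (nat_lit 532) (nat_lit 7407191281) (nat_lit 608) (nat_lit 1949315248) (nat_lit 173) (nat_lit 5) (nat_lit 180) (nat_lit 5) (nat_lit 181) (nat_lit 5) (nat_lit 350) (nat_lit 297) (nat_lit 253)))) (XT.nd (nat_lit 156) (nat_lit 1444) (nat_lit 0) (XT.nd (nat_lit 78) (nat_lit 0) (nat_lit 0) (XT.lf (nat_lit 0) (nat_lit 63529090) (nat_lit 456) (nat_lit 2256145421) (nat_lit 532) (nat_lit 7938255168) (nat_lit 166) (nat_lit 5) (nat_lit 172) (nat_lit 5) (nat_lit 173) (nat_lit 5) (nat_lit 351) (nat_lit 297) (nat_lit 252)) (XT.lf (nat_lit 0) (nat_lit 6702569570) (nat_lit 532) (nat_lit 664602698) (nat_lit 76) (nat_lit 3059346424) (nat_lit 166) (nat_lit 5) (nat_lit 173) (nat_lit 5) (nat_lit 167) (nat_lit 5) (nat_lit 352) (nat_lit 297) (nat_lit 251))) (XT.nd (nat_lit 78) (nat_lit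 912) (nat_lit 0) (XT.lf (nat_lit 0) (nat_lit 613889546) (nat_lit 532) (nat_lit 1444949810) (nat_lit 76) (nat_lit 8541166716) (nat_lit 159) (nat_lit 5) (nat_lit 166) (nat_lit 5) (nat_lit 160) (nat_lit 5) (nat_lit 353) (nat_lit 297) (nat_lit 250)) (XT.nd (nat_lit 78) (nat_lit 456) (nat_lit 0) (XT.lf (nat_lit 0) (nat_lit 5045279196) (nat_lit 532) (nat_lit 2311013809) (nat_lit 76) (nat_lit 3421656495) (nat_lit 153) (nat_lit 5) (nat_lit 160) (nat_lit 5) (nat_lit 154) (nat_lit 5) (nat_lit 354) (nat_lit 297) (nat_lit 249)) (XT.lf (nat_lit 0) (nat_lit 7726489457) (nat_lit 456) (nat_lit 1889664847) (nat_lit 532) (nat_lit 1344969279) (nat_lit 147) (nat_lit 5) (nat_lit 153) (nat_lit 5) (nat_lit 154) (nat_lit 5) (nat_lit 355) (nat_lit 297) (nat_lit 248)))))) (XT.nd (nat_lit 390) (nat_lit 1520) (nat_lit 0) (XT.nd (nat_lit 156) (nat_lit 1216) (nat_lit 0) (XT.nd (nat_lit 78) (nat_lit 456) (nat_lit 0) (XT.lf (nat_lit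 0) (nat_lit 3151717294) (nat_lit 456) (nat_lit 4252093722) (nat_lit 76) (nat_lit 3745212044) (nat_lit 141) (nat_lit 5) (nat_lit 147) (nat_lit 5) (nat_lit 142) (nat_lit 5) (nat_lit 356) (nat_lit 297) (nat_lit 247)) (XT.lf (nat_lit 0) (nat_lit 5996594269) (nat_lit 456) (nat_lit 1776955139) (nat_lit 532) (nat_lit 3568683419) (nat_lit 135) (nat_lit 5) (nat_lit 141) (nat_lit 5) (nat_lit 142) (nat_lit 5) (nat_lit 357) (nat_lit 297) (nat_lit 246))) (XT.nd (nat_lit 78) (nat_lit 760) (nat_lit 0) (XT.lf (nat_lit 0) (nat_lit 1003453031) (nat_lit 456) (nat_lit 6532052456) (nat_lit 76) (nat_lit 4005151392) (nat_lit 129) (nat_lit 5) (nat_lit 135) (nat_lit 5) (nat_lit 130) (nat_lit 5) (nat_lit 358) (nat_lit 297) (nat_lit 245)) (XT.nd (nat_lit 78) (nat_lit 380) (nat_lit 0) (XT.lf (nat_lit 0) (nat_lit 3924045082) (nat_lit 380) (nat_lit 1751034422) (nat_lit 456) (nat_lit 6069285997) (nat_lit 124) (nat_lit 5) (nat_lit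 129) (nat_lit 5) (nat_lit 130) (nat_lit 5) (nat_lit 359) (nat_lit 297) (nat_lit 244)) (XT.lf (nat_lit 0) (nat_lit 2745019842) (nat_lit 380) (nat_lit 7769286199) (nat_lit 456) (nat_lit 1439349575) (nat_lit 119) (nat_lit 5) (nat_lit 124) (nat_lit 5) (nat_lit 125) (nat_lit 5) (nat_lit 360) (nat_lit 297) (nat_lit 243))))) (XT.nd (nat_lit 156) (nat_lit 760) (nat_lit 0) (XT.nd (nat_lit 78) (nat_lit 304) (nat_lit 0) (XT.lf (nat_lit 0) (nat_lit 1459026517) (nat_lit 380) (nat_lit 1839870670) (nat_lit 456) (nat_lit 8869651654) (nat_lit 113) (nat_lit 5) (nat_lit 118) (nat_lit 5) (nat_lit 119) (nat_lit 5) (nat_lit 361) (nat_lit 297) (nat_lit 242)) (XT.lf (nat_lit 0) (nat_lit 54950252) (nat_lit 304) (nat_lit 8135324868) (nat_lit 380) (nat_lit 4198830481) (nat_lit 109) (nat_lit 5) (nat_lit 113) (nat_lit 5) (nat_lit 114) (nat_lit 5) (nat_lit 362) (nat_lit 297) (nat_lit 241))) (XT.nd (nat_lit 78) (nat_lit 684) (nat_lit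 0) (XT.lf (nat_lit 0) (nat_lit 629755321) (nat_lit 380) (nat_lit 1434102734) (nat_lit 76) (nat_lit 10551845104) (nat_lit 108) (nat_lit 5) (nat_lit 113) (nat_lit 5) (nat_lit 109) (nat_lit 5) (nat_lit 363) (nat_lit 297) (nat_lit 240)) (XT.nd (nat_lit 78) (nat_lit 304) (nat_lit 0) (XT.lf (nat_lit 0) (nat_lit 5579797185) (nat_lit 456) (nat_lit 3071390056) (nat_lit 76) (nat_lit 4196699882) (nat_lit 103) (nat_lit 5) (nat_lit 109) (nat_lit 5) (nat_lit 104) (nat_lit 5) (nat_lit 364) (nat_lit 297) (nat_lit 239)) (XT.lf (nat_lit 0) (nat_lit 8262382852) (nat_lit 304) (nat_lit 2436159669) (nat_lit 380) (nat_lit 2388106009) (nat_lit 99) (nat_lit 5) (nat_lit 103) (nat_lit 5) (nat_lit 104) (nat_lit 5) (nat_lit 365) (nat_lit 297) (nat_lit 238))))))) (XT.nd (nat_lit 780) (nat_lit 1900) (nat_lit 0) (XT.nd (nat_lit 390) (nat_lit 1216) (nat_lit 0) (XT.nd (nat_lit 156) (nat_lit 608) (nat_lit 0) (XT.nd (nat_lit 78) (nat_lit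 304) (nat_lit 0) (XT.lf (nat_lit 0) (nat_lit 2637423842) (nat_lit 380) (nat_lit 6730103241) (nat_lit 76) (nat_lit 3964043348) (nat_lit 94) (nat_lit 5) (nat_lit 99) (nat_lit 5) (nat_lit 95) (nat_lit 5) (nat_lit 366) (nat_lit 297) (nat_lit 237)) (XT.lf (nat_lit 0) (nat_lit 4796101015) (nat_lit 304) (nat_lit 3010260436) (nat_lit 380) (nat_lit 5776675850) (nat_lit 90) (nat_lit 5) (nat_lit 94) (nat_lit 5) (nat_lit 95) (nat_lit 5) (nat_lit 367) (nat_lit 297) (nat_lit 236))) (XT.nd (nat_lit 78) (nat_lit 304) (nat_lit 0) (XT.lf (nat_lit 0) (nat_lit 2846511338) (nat_lit 304) (nat_lit 10316631883) (nat_lit 380) (nat_lit 678263762) (nat_lit 86) (nat_lit 5) (nat_lit 90) (nat_lit 5) (nat_lit 91) (nat_lit 5) (nat_lit 368) (nat_lit 297) (nat_lit 235)) (XT.nd (nat_lit 78) (nat_lit 0) (nat_lit 0) (XT.lf (nat_lit 0) (nat_lit 716125074) (nat_lit 228) (nat_lit 3827802584) (nat_lit 304) (nat_lit 9562403821) (nat_lit 82)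 (nat_lit 5) (nat_lit 85) (nat_lit 5) (nat_lit 86) (nat_lit 5) (nat_lit 369) (nat_lit 297) (nat_lit 234)) (XT.lf (nat_lit 0) (nat_lit 9954063576) (nat_lit 304) (nat_lit 1557731280) (nat_lit 76) (nat_lit 2866522554) (nat_lit 82) (nat_lit 5) (nat_lit 86) (nat_lit 5) (nat_lit 83) (nat_lit 5) (nat_lit 370) (nat_lit 297) (nat_lit 233))))) (XT.nd (nat_lit 156) (nat_lit 608) (nat_lit 0) (XT.nd (nat_lit 78) (nat_lit 228) (nat_lit 0) (XT.lf (nat_lit 0) (nat_lit 900194889) (nat_lit 380) (nat_lit 4002527499) (nat_lit 76) (nat_lit 9754769639) (nat_lit 77) (nat_lit 5) (nat_lit 82) (nat_lit 5) (nat_lit 78) (nat_lit 5) (nat_lit 371) (nat_lit 297) (nat_lit 232)) (XT.lf (nat_lit 0) (nat_lit 6351034058) (nat_lit 304) (nat_lit 6649423651) (nat_lit 76) (nat_lit 1943476217) (nat_lit 74) (nat_lit 5) (nat_lit 78) (nat_lit 5) (nat_lit 75) (nat_lit 5) (nat_lit 372) (nat_lit 297) (nat_lit 231))) (XT.nd (nat_lit 78) (nat_lit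 304) (nat_lit 0) (XT.lf (nat_lit 0) (nat_lit 5737345445) (nat_lit 304) (nat_lit 6275221822) (nat_lit 380) (nat_lit 3225470316) (nat_lit 70) (nat_lit 5) (nat_lit 74) (nat_lit 5) (nat_lit 75) (nat_lit 5) (nat_lit 373) (nat_lit 297) (nat_lit 230)) (XT.nd (nat_lit 78) (nat_lit 0) (nat_lit 0) (XT.lf (nat_lit 0) (nat_lit 2292531278) (nat_lit 304) (nat_lit 12555395485) (nat_lit 76) (nat_lit 692354779) (nat_lit 66) (nat_lit 5) (nat_lit 70) (nat_lit 5) (nat_lit 67) (nat_lit 5) (nat_lit 374) (nat_lit 297) (nat_lit 229)) (XT.lf (nat_lit 0) (nat_lit 7990427224) (nat_lit 304) (nat_lit 19752324) (nat_lit 76) (nat_lit 7839834328) (nat_lit 66) (nat_lit 5) (nat_lit 70) (nat_lit 5) (nat_lit 67) (nat_lit 5) (nat_lit 375) (nat_lit 297) (nat_lit 228)))))) (XT.nd (nat_lit 390) (nat_lit 836) (nat_lit 0) (XT.nd (nat_lit 156) (nat_lit 532) (nat_lit 0) (XT.nd (nat_lit 78) (nat_lit 304) (nat_lit 0) (XT.lf (nat_lit 0) (nat_lit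 12984030575) (nat_lit 228) (nat_lit 912107858) (nat_lit 304) (nat_lit 2272172835) (nat_lit 63) (nat_lit 5) (nat_lit 66) (nat_lit 5) (nat_lit 67) (nat_lit 5) (nat_lit 376) (nat_lit 297) (nat_lit 227)) (XT.lf (nat_lit 0) (nat_lit 3496737973) (nat_lit 304) (nat_lit 6625443446) (nat_lit 76) (nat_lit 6372342985) (nat_lit 59) (nat_lit 5) (nat_lit 63) (nat_lit 5) (nat_lit 60) (nat_lit 5) (nat_lit 377) (nat_lit 297) (nat_lit 226))) (XT.nd (nat_lit 78) (nat_lit 304) (nat_lit 0) (XT.lf (nat_lit 0) (nat_lit 6514483652) (nat_lit 228) (nat_lit 2917468122) (nat_lit 304) (nat_lit 7397799518) (nat_lit 56) (nat_lit 5) (nat_lit 59) (nat_lit 5) (nat_lit 60) (nat_lit 5) (nat_lit 378) (nat_lit 297) (nat_lit 225)) (XT.nd (nat_lit 78) (nat_lit 76) (nat_lit 0) (XT.lf (nat_lit 0) (nat_lit 2897097614) (nat_lit 228) (nat_lit 12695834897) (nat_lit 304) (nat_lit 1581157825) (nat_lit 53) (nat_lit 5) (nat_lit 56) (nat_lit 5) (nat_lit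 57) (nat_lit 5) (nat_lit 379) (nat_lit 297) (nat_lit 224)) (XT.lf (nat_lit 0) (nat_lit 4397018703) (nat_lit 304) (nat_lit 1004825848) (nat_lit 76) (nat_lit 12125453984) (nat_lit 52) (nat_lit 5) (nat_lit 56) (nat_lit 5) (nat_lit 53) (nat_lit 5) (nat_lit 380) (nat_lit 297) (nat_lit 223))))) (XT.nd (nat_lit 156) (nat_lit 456) (nat_lit 0) (XT.nd (nat_lit 78) (nat_lit 152) (nat_lit 0) (XT.lf (nat_lit 0) (nat_lit 10586393049) (nat_lit 304) (nat_lit 5155796490) (nat_lit 76) (nat_lit 2147646565) (nat_lit 49) (nat_lit 5) (nat_lit 53) (nat_lit 5) (nat_lit 50) (nat_lit 5) (nat_lit 381) (nat_lit 297) (nat_lit 222)) (XT.lf (nat_lit 0) (nat_lit 8639695462) (nat_lit 152) (nat_lit 8377747303) (nat_lit 228) (nat_lit 1244695730) (nat_lit 47) (nat_lit 5) (nat_lit 49) (nat_lit 5) (nat_lit 50) (nat_lit 5) (nat_lit 382) (nat_lit 297) (nat_lit 221))) (XT.nd (nat_lit 78) (nat_lit 152) (nat_lit 0) (XT.lf (nat_lit 0) (nat_lit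 4224912445) (nat_lit 228) (nat_lit 725400201) (nat_lit 304) (nat_lit 13694256361) (nat_lit 43) (nat_lit 5) (nat_lit 46) (nat_lit 5) (nat_lit 47) (nat_lit 5) (nat_lit 383) (nat_lit 297) (nat_lit 220)) (XT.nd (nat_lit 78) (nat_lit 152) (nat_lit 0) (XT.lf (nat_lit 0) (nat_lit 11384463416) (nat_lit 304) (nat_lit 545006672) (nat_lit 76) (nat_lit 7107441672) (nat_lit 43) (nat_lit 5) (nat_lit 47) (nat_lit 5) (nat_lit 44) (nat_lit 5) (nat_lit 384) (nat_lit 297) (nat_lit 219)) (XT.lf (nat_lit 0) (nat_lit 13852791228) (nat_lit 152) (nat_lit 4212868113) (nat_lit 228) (nat_lit 1374292739) (nat_lit 41) (nat_lit 5) (nat_lit 43) (nat_lit 5) (nat_lit 44) (nat_lit 5) (nat_lit 385) (nat_lit 297) (nat_lit 218))))))))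
noncomputable def xc44 : XT := (XT.nd (nat_lit 41886) (nat_lit 0) (nat_lit 15580) (XT.nd (nat_lit 41106) (nat_lit 0) (nat_lit 35568) (XT.nd (nat_lit 40716) (nat_lit 0) (nat_lit 44916) (XT.nd (nat_lit 40560) (nat_lit 0) (nat_lit 47196) (XT.nd (nat_lit 40482) (nat_lit 0) (nat_lit 47804) (XT.lf (nat_lit 0) (nat_lit 5070974607) (nat_lit 304) (nat_lit 11030092289) (nat_lit 76) (nat_lit 3752451754) (nat_lit 37) (nat_lit 5) (nat_lit 41) (nat_lit 5) (nat_lit 38) (nat_lit 5) (nat_lit 386) (nat_lit 297) (nat_lit 217)) (XT.lf (nat_lit 0) (nat_lit 1561984339) (nat_lit 228) (nat_lit 105870428) (nat_lit 0) (nat_lit 1561984339) (nat_lit 666) (nat_lit 5) (nat_lit 669) (nat_lit 4) (nat_lit 666) (nat_lit 4) (nat_lit 304) (nat_lit 298) (nat_lit 298))) (XT.nd (nat_lit 78) (nat_lit 304) (nat_lit 0) (XT.lf (nat_lit 0) (nat_lit 1233222365) (nat_lit 304) (nat_lit 1640254608) (nat_lit 76) (nat_lit 3596371528) (nat_lit 662)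 (nat_lit 5) (nat_lit 666) (nat_lit 5) (nat_lit 663) (nat_lit 4) (nat_lit 305) (nat_lit 298) (nat_lit 297)) (XT.lf (nat_lit 0) (nat_lit 3467762949) (nat_lit 304) (nat_lit 2279840783) (nat_lit 380) (nat_lit 735362646) (nat_lit 658) (nat_lit 5) (nat_lit 662) (nat_lit 5) (nat_lit 663) (nat_lit 4) (nat_lit 306) (nat_lit 298) (nat_lit 296)))) (XT.nd (nat_lit 156) (nat_lit 1292) (nat_lit 0) (XT.nd (nat_lit 78) (nat_lit 532) (nat_lit 0) (XT.lf (nat_lit 0) (nat_lit 2157186124) (nat_lit 380) (nat_lit 1550343730) (nat_lit 456) (nat_lit 2791436227) (nat_lit 652) (nat_lit 5) (nat_lit 657) (nat_lit 5) (nat_lit 658) (nat_lit 5) (nat_lit 307) (nat_lit 298) (nat_lit 295)) (XT.lf (nat_lit 0) (nat_lit 904799251) (nat_lit 456) (nat_lit 692541974) (nat_lit 532) (nat_lit 4920681025) (nat_lit 645) (nat_lit 5) (nat_lit 651) (nat_lit 5) (nat_lit 652) (nat_lit 5) (nat_lit 308) (nat_lit 298) (nat_lit 294))) (XT.nd (nat_lit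 78) (nat_lit 1292) (nat_lit 0) (XT.lf (nat_lit 0) (nat_lit 5951027772) (nat_lit 532) (nat_lit 292657727) (nat_lit 76) (nat_lit 296310685) (nat_lit 645) (nat_lit 5) (nat_lit 652) (nat_lit 5) (nat_lit 646) (nat_lit 5) (nat_lit 309) (nat_lit 298) (nat_lit 293)) (XT.nd (nat_lit 78) (nat_lit 684) (nat_lit 0) (XT.lf (nat_lit 0) (nat_lit 3703818125) (nat_lit 608) (nat_lit 1439721474) (nat_lit 76) (nat_lit 1421080428) (nat_lit 637) (nat_lit 5) (nat_lit 645) (nat_lit 5) (nat_lit 638) (nat_lit 5) (nat_lit 310) (nat_lit 298) (nat_lit 292)) (XT.lf (nat_lit 0) (nat_lit 1382452554) (nat_lit 684) (nat_lit 2534374738) (nat_lit 76) (nat_lit 2675504501) (nat_lit 628) (nat_lit 5) (nat_lit 637) (nat_lit 5) (nat_lit 629) (nat_lit 5) (nat_lit 311) (nat_lit 298) (nat_lit 291)))))) (XT.nd (nat_lit 390) (nat_lit 5928) (nat_lit 0) (XT.nd (nat_lit 156) (nat_lit 1900) (nat_lit 0) (XT.nd (nat_lit 78) (nat_lit 836) (nat_lit 0)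 (XT.lf (nat_lit 0) (nat_lit 3038576661) (nat_lit 684) (nat_lit 2555522121) (nat_lit 760) (nat_lit 1028920547) (nat_lit 619) (nat_lit 5) (nat_lit 628) (nat_lit 5) (nat_lit 629) (nat_lit 5) (nat_lit 312) (nat_lit 298) (nat_lit 290)) (XT.lf (nat_lit 0) (nat_lit 2062688363) (nat_lit 760) (nat_lit 1055294073) (nat_lit 836) (nat_lit 3538665437) (nat_lit 608) (nat_lit 5) (nat_lit 618) (nat_lit 5) (nat_lit 619) (nat_lit 5) (nat_lit 313) (nat_lit 298) (nat_lit 289))) (XT.nd (nat_lit 78) (nat_lit 988) (nat_lit 0) (XT.lf (nat_lit 0) (nat_lit 566201571) (nat_lit 912) (nat_lit 5558644324) (nat_lit 76) (nat_lit 568504696) (nat_lit 596) (nat_lit 5) (nat_lit 608) (nat_lit 5) (nat_lit 597) (nat_lit 5) (nat_lit 314) (nat_lit 298) (nat_lit 288)) (XT.nd (nat_lit 78) (nat_lit 76) (nat_lit 0) (XT.lf (nat_lit 0) (nat_lit 235749769) (nat_lit 912) (nat_lit 4409798266) (nat_lit 988) (nat_lit 2087257515) (nat_lit 584) (nat_lit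 5) (nat_lit 596) (nat_lit 5) (nat_lit 597) (nat_lit 5) (nat_lit 315) (nat_lit 298) (nat_lit 287)) (XT.lf (nat_lit 0) (nat_lit 1946184558) (nat_lit 988) (nat_lit 610592431) (nat_lit 76) (nat_lit 4218508836) (nat_lit 583) (nat_lit 5) (nat_lit 596) (nat_lit 5) (nat_lit 584) (nat_lit 5) (nat_lit 316) (nat_lit 298) (nat_lit 286))))) (XT.nd (nat_lit 156) (nat_lit 3800) (nat_lit 0) (XT.nd (nat_lit 78) (nat_lit 1140) (nat_lit 0) (XT.lf (nat_lit 0) (nat_lit 5408221869) (nat_lit 988) (nat_lit 564991714) (nat_lit 1064) (nat_lit 847631201) (nat_lit 570) (nat_lit 5) (nat_lit 583) (nat_lit 5) (nat_lit 584) (nat_lit 5) (nat_lit 317) (nat_lit 298) (nat_lit 285)) (XT.lf (nat_lit 0) (nat_lit 3123401360) (nat_lit 1140) (nat_lit 2192437577) (nat_lit 76) (nat_lit 1553347681) (nat_lit 555) (nat_lit 5) (nat_lit 570) (nat_lit 5) (nat_lit 556) (nat_lit 5) (nat_lit 318) (nat_lit 298) (nat_lit 284))) (XT.nd (nat_lit 78) (nat_lit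 2584) (nat_lit 0) (XT.lf (nat_lit 0) (nat_lit 189524864) (nat_lit 1216) (nat_lit 2932458533) (nat_lit 76) (nat_lit 3798735076) (nat_lit 539) (nat_lit 5) (nat_lit 555) (nat_lit 5) (nat_lit 540) (nat_lit 5) (nat_lit 319) (nat_lit 298) (nat_lit 283)) (XT.nd (nat_lit 78) (nat_lit 1368) (nat_lit 0) (XT.lf (nat_lit 0) (nat_lit 3326635652) (nat_lit 1216) (nat_lit 775739758) (nat_lit 1292) (nat_lit 2872805363) (nat_lit 523) (nat_lit 5) (nat_lit 539) (nat_lit 5) (nat_lit 540) (nat_lit 5) (nat_lit 320) (nat_lit 298) (nat_lit 282)) (XT.lf (nat_lit 0) (nat_lit 1011220752) (nat_lit 1368) (nat_lit 4335846525) (nat_lit 76) (nat_lit 1685662966) (nat_lit 505) (nat_lit 5) (nat_lit 523) (nat_lit 5) (nat_lit 506) (nat_lit 5) (nat_lit 321) (nat_lit 298) (nat_lit 281))))))) (XT.nd (nat_lit 780) (nat_lit 7524) (nat_lit 0) (XT.nd (nat_lit 390) (nat_lit 6384) (nat_lit 0) (XT.nd (nat_lit 156) (nat_lit 3192) (nat_lit 0) (XT.nd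 (nat_lit 78) (nat_lit 1520) (nat_lit 0) (XT.lf (nat_lit 0) (nat_lit 2090179817) (nat_lit 1368) (nat_lit 2805176921) (nat_lit 1444) (nat_lit 2197897792) (nat_lit 487) (nat_lit 5) (nat_lit 505) (nat_lit 5) (nat_lit 506) (nat_lit 5) (nat_lit 322) (nat_lit 298) (nat_lit 280)) (XT.lf (nat_lit 0) (nat_lit 1517990636) (nat_lit 1444) (nat_lit 119795473) (nat_lit 1520) (nat_lit 5519255268) (nat_lit 467) (nat_lit 5) (nat_lit 486) (nat_lit 5) (nat_lit 487) (nat_lit 5) (nat_lit 323) (nat_lit 298) (nat_lit 279))) (XT.nd (nat_lit 78) (nat_lit 1672) (nat_lit 0) (XT.lf (nat_lit 0) (nat_lit 956988437) (nat_lit 1520) (nat_lit 4543044328) (nat_lit 1596) (nat_lit 1723665838) (nat_lit 447) (nat_lit 5) (nat_lit 467) (nat_lit 5) (nat_lit 468) (nat_lit 5) (nat_lit 324) (nat_lit 298) (nat_lit 278)) (XT.nd (nat_lit 78) (nat_lit 0) (nat_lit 0) (XT.lf (nat_lit 0) (nat_lit 422337434) (nat_lit 1596) (nat_lit 1662353890) (nat_lit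 1672) (nat_lit 5208899859) (nat_lit 425) (nat_lit 5) (nat_lit 446) (nat_lit 5) (nat_lit 447) (nat_lit 5) (nat_lit 325) (nat_lit 298) (nat_lit 277)) (XT.lf (nat_lit 0) (nat_lit 5923515936) (nat_lit 1672) (nat_lit 92304036) (nat_lit 76) (nat_lit 1350808758) (nat_lit 425) (nat_lit 5) (nat_lit 447) (nat_lit 5) (nat_lit 426) (nat_lit 5) (nat_lit 326) (nat_lit 298) (nat_lit 276))))) (XT.nd (nat_lit 156) (nat_lit 2888) (nat_lit 0) (XT.nd (nat_lit 78) (nat_lit 1748) (nat_lit 0) (XT.lf (nat_lit 0) (nat_lit 2350527147) (nat_lit 1748) (nat_lit 591553065) (nat_lit 76) (nat_lit 4500589888) (nat_lit 402) (nat_lit 5) (nat_lit 425) (nat_lit 5) (nat_lit 403) (nat_lit 5) (nat_lit 327) (nat_lit 298) (nat_lit 275)) (XT.lf (nat_lit 0) (nat_lit 6176138978) (nat_lit 1824) (nat_lit 1067726573) (nat_lit 76) (nat_lit 278244534) (nat_lit 379) (nat_lit 5) (nat_lit 403) (nat_lit 5) (nat_lit 380) (nat_lit 5) (nat_lit 328) (nat_lit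 298) (nat_lit 274))) (XT.nd (nat_lit 78) (nat_lit 1824) (nat_lit 0) (XT.lf (nat_lit 0) (nat_lit 2438205439) (nat_lit 1064) (nat_lit 1547375358) (nat_lit 76) (nat_lit 3618915228) (nat_lit 365) (nat_lit 5) (nat_lit 379) (nat_lit 5) (nat_lit 366) (nat_lit 5) (nat_lit 329) (nat_lit 298) (nat_lit 273)) (XT.nd (nat_lit 78) (nat_lit 912) (nat_lit 0) (XT.lf (nat_lit 0) (nat_lit 5684449396) (nat_lit 912) (nat_lit 574876712) (nat_lit 988) (nat_lit 1431074102) (nat_lit 353) (nat_lit 5) (nat_lit 365) (nat_lit 5) (nat_lit 366) (nat_lit 5) (nat_lit 330) (nat_lit 298) (nat_lit 272)) (XT.lf (nat_lit 0) (nat_lit 2348156579) (nat_lit 912) (nat_lit 2471269623) (nat_lit 76) (nat_lit 2959924520) (nat_lit 341) (nat_lit 5) (nat_lit 353) (nat_lit 5) (nat_lit 342) (nat_lit 5) (nat_lit 331) (nat_lit 298) (nat_lit 271)))))) (XT.nd (nat_lit 390) (nat_lit 3496) (nat_lit 0) (XT.nd (nat_lit 156) (nat_lit 2356) (nat_lit 0) (XT.nd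 (nat_lit 78) (nat_lit 836) (nat_lit 0) (XT.lf (nat_lit 0) (nat_lit 4947396899) (nat_lit 836) (nat_lit 1224990344) (nat_lit 912) (nat_lit 1699426257) (nat_lit 330) (nat_lit 5) (nat_lit 341) (nat_lit 5) (nat_lit 342) (nat_lit 5) (nat_lit 332) (nat_lit 298) (nat_lit 270)) (XT.lf (nat_lit 0) (nat_lit 2082186320) (nat_lit 836) (nat_lit 3384215607) (nat_lit 76) (nat_lit 2501101147) (nat_lit 319) (nat_lit 5) (nat_lit 330) (nat_lit 5) (nat_lit 320) (nat_lit 5) (nat_lit 333) (nat_lit 298) (nat_lit 269))) (XT.nd (nat_lit 78) (nat_lit 1596) (nat_lit 0) (XT.lf (nat_lit 0) (nat_lit 4224074037) (nat_lit 760) (nat_lit 1690762189) (nat_lit 836) (nat_lit 2151839031) (nat_lit 309) (nat_lit 5) (nat_lit 319) (nat_lit 5) (nat_lit 320) (nat_lit 5) (nat_lit 334) (nat_lit 298) (nat_lit 268)) (XT.nd (nat_lit 78) (nat_lit 760) (nat_lit 0) (XT.lf (nat_lit 0) (nat_lit 1640725241) (nat_lit 836) (nat_lit 4307758998) (nat_lit 76)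 (nat_lit 2220780274) (nat_lit 298) (nat_lit 5) (nat_lit 309) (nat_lit 5) (nat_lit 299) (nat_lit 5) (nat_lit 335) (nat_lit 298) (nat_lit 267)) (XT.lf (nat_lit 0) (nat_lit 3492839708) (nat_lit 760) (nat_lit 1993803970) (nat_lit 836) (nat_lit 2788673383) (nat_lit 288) (nat_lit 5) (nat_lit 298) (nat_lit 5) (nat_lit 299) (nat_lit 5) (nat_lit 336) (nat_lit 298) (nat_lit 266))))) (XT.nd (nat_lit 156) (nat_lit 2052) (nat_lit 0) (XT.nd (nat_lit 78) (nat_lit 684) (nat_lit 0) (XT.lf (nat_lit 0) (nat_lit 1022809383) (nat_lit 760) (nat_lit 5264207401) (nat_lit 76) (nat_lit 2097973070) (nat_lit 278) (nat_lit 5) (nat_lit 288) (nat_lit 5) (nat_lit 279) (nat_lit 5) (nat_lit 337) (nat_lit 298) (nat_lit 265)) (XT.lf (nat_lit 0) (nat_lit 2731230205) (nat_lit 684) (nat_lit 2155152169) (nat_lit 760) (nat_lit 3611731956) (nat_lit 269) (nat_lit 5) (nat_lit 278) (nat_lit 5) (nat_lit 279) (nat_lit 5) (nat_lit 338) (nat_lit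 298) (nat_lit 264))) (XT.nd (nat_lit 78) (nat_lit 1292) (nat_lit 0) (XT.lf (nat_lit 0) (nat_lit 226049607) (nat_lit 760) (nat_lit 6276836701) (nat_lit 76) (nat_lit 2112192072) (nat_lit 259) (nat_lit 5) (nat_lit 269) (nat_lit 5) (nat_lit 260) (nat_lit 5) (nat_lit 339) (nat_lit 298) (nat_lit 263)) (XT.nd (nat_lit 78) (nat_lit 608) (nat_lit 0) (XT.lf (nat_lit 0) (nat_lit 1915747492) (nat_lit 684) (nat_lit 2195444242) (nat_lit 760) (nat_lit 4624295789) (nat_lit 250) (nat_lit 5) (nat_lit 259) (nat_lit 5) (nat_lit 260) (nat_lit 5) (nat_lit 340) (nat_lit 298) (nat_lit 262)) (XT.lf (nat_lit 0) (nat_lit 1484809765) (nat_lit 608) (nat_lit 6611643081) (nat_lit 684) (nat_lit 763423214) (nat_lit 242) (nat_lit 5) (nat_lit 250) (nat_lit 5) (nat_lit 251) (nat_lit 5) (nat_lit 341) (nat_lit 298) (nat_lit 261))))))))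
noncomputable def xc45 : XT := (XT.nd (nat_lit 1482) (nat_lit 5472) (nat_lit 0) (XT.nd (nat_lit 702) (nat_lit 4256) (nat_lit 0) (XT.nd (nat_lit 312) (nat_lit 2736) (nat_lit 0) (XT.nd (nat_lit 156) (nat_lit 684) (nat_lit 0) (XT.nd (nat_lit 78) (nat_lit 608) (nat_lit 0) (XT.lf (nat_lit 0) (nat_lit 1021634504) (nat_lit 608) (nat_lit 2135095866) (nat_lit 684) (nat_lit 5831173246) (nat_lit 233) (nat_lit 5) (nat_lit 241) (nat_lit 5) (nat_lit 242) (nat_lit 5) (nat_lit 342) (nat_lit 298) (nat_lit 260)) (XT.lf (nat_lit 0) (nat_lit 537373594) (nat_lit 608) (nat_lit 6636067356) (nat_lit 684) (nat_lit 1946479137) (nat_lit 225) (nat_lit 5) (nat_lit 233) (nat_lit 5) (nat_lit 234) (nat_lit 5) (nat_lit 343) (nat_lit 298) (nat_lit 259))) (XT.nd (nat_lit 78) (nat_lit 0) (nat_lit 0) (XT.lf (nat_lit 0) (nat_lit 22635405) (nat_lit 608) (nat_lit 1994480667) (nat_lit 684) (nat_lit 7238761780) (nat_lit 216) (nat_lit 5) (nat_lit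 224) (nat_lit 5) (nat_lit 225) (nat_lit 5) (nat_lit 344) (nat_lit 298) (nat_lit 258)) (XT.lf (nat_lit 0) (nat_lit 6072044262) (nat_lit 684) (nat_lit 522660151) (nat_lit 76) (nat_lit 2801008015) (nat_lit 216) (nat_lit 5) (nat_lit 225) (nat_lit 5) (nat_lit 217) (nat_lit 5) (nat_lit 345) (nat_lit 298) (nat_lit 257)))) (XT.nd (nat_lit 156) (nat_lit 1596) (nat_lit 0) (XT.nd (nat_lit 78) (nat_lit 532) (nat_lit 0) (XT.lf (nat_lit 0) (nat_lit 692054588) (nat_lit 608) (nat_lit 1094713231) (nat_lit 76) (nat_lit 7753063932) (nat_lit 208) (nat_lit 5) (nat_lit 216) (nat_lit 5) (nat_lit 209) (nat_lit 5) (nat_lit 346) (nat_lit 298) (nat_lit 256)) (XT.lf (nat_lit 0) (nat_lit 4785114812) (nat_lit 608) (nat_lit 1722194453) (nat_lit 76) (nat_lit 3180515888) (nat_lit 201) (nat_lit 5) (nat_lit 209) (nat_lit 5) (nat_lit 202) (nat_lit 5) (nat_lit 347) (nat_lit 298) (nat_lit 255))) (XT.nd (nat_lit 78) (nat_lit 1064) (nat_lit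 0) (XT.lf (nat_lit 0) (nat_lit 7462339607) (nat_lit 532) (nat_lit 1533326375) (nat_lit 608) (nat_lit 844727826) (nat_lit 194) (nat_lit 5) (nat_lit 201) (nat_lit 5) (nat_lit 202) (nat_lit 5) (nat_lit 348) (nat_lit 298) (nat_lit 254)) (XT.nd (nat_lit 78) (nat_lit 456) (nat_lit 0) (XT.lf (nat_lit 0) (nat_lit 3299466321) (nat_lit 608) (nat_lit 3099004505) (nat_lit 76) (nat_lit 3598499429) (nat_lit 186) (nat_lit 5) (nat_lit 194) (nat_lit 5) (nat_lit 187) (nat_lit 5) (nat_lit 349) (nat_lit 298) (nat_lit 253)) (XT.lf (nat_lit 0) (nat_lit 6298131730) (nat_lit 456) (nat_lit 1254995643) (nat_lit 532) (nat_lit 2605099798) (nat_lit 180) (nat_lit 5) (nat_lit 186) (nat_lit 5) (nat_lit 187) (nat_lit 5) (nat_lit 350) (nat_lit 298) (nat_lit 252)))))) (XT.nd (nat_lit 390) (nat_lit 1748) (nat_lit 0) (XT.nd (nat_lit 156) (nat_lit 1444) (nat_lit 0) (XT.nd (nat_lit 78) (nat_lit 456) (nat_lit 0) (XT.lf (nat_lit 0) (nat_lit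 1603570405) (nat_lit 608) (nat_lit 4686279187) (nat_lit 76) (nat_lit 4033996812) (nat_lit 172) (nat_lit 5) (nat_lit 180) (nat_lit 5) (nat_lit 173) (nat_lit 5) (nat_lit 351) (nat_lit 298) (nat_lit 251)) (XT.lf (nat_lit 0) (nat_lit 4923210223) (nat_lit 456) (nat_lit 978208523) (nat_lit 532) (nat_lit 4592729987) (nat_lit 166) (nat_lit 5) (nat_lit 172) (nat_lit 5) (nat_lit 173) (nat_lit 5) (nat_lit 352) (nat_lit 298) (nat_lit 250))) (XT.nd (nat_lit 78) (nat_lit 988) (nat_lit 0) (XT.lf (nat_lit 0) (nat_lit 4147089267) (nat_lit 456) (nat_lit 6201823495) (nat_lit 532) (nat_lit 320257569) (nat_lit 160) (nat_lit 5) (nat_lit 166) (nat_lit 5) (nat_lit 167) (nat_lit 5) (nat_lit 353) (nat_lit 298) (nat_lit 249)) (XT.nd (nat_lit 78) (nat_lit 456) (nat_lit 0) (XT.lf (nat_lit 0) (nat_lit 3300726292) (nat_lit 456) (nat_lit 725668866) (nat_lit 532) (nat_lit 6822550372) (nat_lit 153) (nat_lit 5) (nat_lit 159) (nat_lit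 5) (nat_lit 160) (nat_lit 5) (nat_lit 354) (nat_lit 298) (nat_lit 248)) (XT.lf (nat_lit 0) (nat_lit 2377967677) (nat_lit 456) (nat_lit 6147703465) (nat_lit 532) (nat_lit 2507891564) (nat_lit 147) (nat_lit 5) (nat_lit 153) (nat_lit 5) (nat_lit 154) (nat_lit 5) (nat_lit 355) (nat_lit 298) (nat_lit 247))))) (XT.nd (nat_lit 156) (nat_lit 836) (nat_lit 0) (XT.nd (nat_lit 78) (nat_lit 456) (nat_lit 0) (XT.lf (nat_lit 0) (nat_lit 1390535251) (nat_lit 380) (nat_lit 521220664) (nat_lit 456) (nat_lit 9311713673) (nat_lit 141) (nat_lit 5) (nat_lit 146) (nat_lit 5) (nat_lit 147) (nat_lit 5) (nat_lit 356) (nat_lit 298) (nat_lit 246)) (XT.lf (nat_lit 0) (nat_lit 299040371) (nat_lit 456) (nat_lit 6162978311) (nat_lit 532) (nat_lit 4956102326) (nat_lit 135) (nat_lit 5) (nat_lit 141) (nat_lit 5) (nat_lit 142) (nat_lit 5) (nat_lit 357) (nat_lit 298) (nat_lit 245))) (XT.nd (nat_lit 78) (nat_lit 836) (nat_lit 0) (XT.lf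 (nat_lit 0) (nat_lit 10775424364) (nat_lit 456) (nat_lit 381393078) (nat_lit 532) (nat_lit 461654199) (nat_lit 135) (nat_lit 5) (nat_lit 141) (nat_lit 5) (nat_lit 142) (nat_lit 5) (nat_lit 358) (nat_lit 298) (nat_lit 244)) (XT.nd (nat_lit 78) (nat_lit 380) (nat_lit 0) (XT.lf (nat_lit 0) (nat_lit 4152220622) (nat_lit 456) (nat_lit 2107536115) (nat_lit 76) (nat_lit 5563769089) (nat_lit 129) (nat_lit 5) (nat_lit 135) (nat_lit 5) (nat_lit 130) (nat_lit 5) (nat_lit 359) (nat_lit 298) (nat_lit 243)) (XT.lf (nat_lit 0) (nat_lit 8587282584) (nat_lit 380) (nat_lit 315390937) (nat_lit 456) (nat_lit 3131927103) (nat_lit 124) (nat_lit 5) (nat_lit 129) (nat_lit 5) (nat_lit 130) (nat_lit 5) (nat_lit 360) (nat_lit 298) (nat_lit 242))))))) (XT.nd (nat_lit 780) (nat_lit 2280) (nat_lit 0) (XT.nd (nat_lit 390) (nat_lit 1292) (nat_lit 0) (XT.nd (nat_lit 156) (nat_lit 1064) (nat_lit 0) (XT.nd (nat_lit 78) (nat_lit 380)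 (nat_lit 0) (XT.lf (nat_lit 0) (nat_lit 1564779306) (nat_lit 456) (nat_lit 4910773735) (nat_lit 76) (nat_lit 5775444139) (nat_lit 118) (nat_lit 5) (nat_lit 124) (nat_lit 5) (nat_lit 119) (nat_lit 5) (nat_lit 361) (nat_lit 298) (nat_lit 241)) (XT.lf (nat_lit 0) (nat_lit 5993239339) (nat_lit 380) (nat_lit 373455148) (nat_lit 456) (nat_lit 6106657220) (nat_lit 113) (nat_lit 5) (nat_lit 118) (nat_lit 5) (nat_lit 119) (nat_lit 5) (nat_lit 362) (nat_lit 298) (nat_lit 240))) (XT.nd (nat_lit 78) (nat_lit 760) (nat_lit 0) (XT.lf (nat_lit 0) (nat_lit 4523745723) (nat_lit 304) (nat_lit 6833192494) (nat_lit 380) (nat_lit 1344570008) (nat_lit 109) (nat_lit 5) (nat_lit 113) (nat_lit 5) (nat_lit 114) (nat_lit 5) (nat_lit 363) (nat_lit 298) (nat_lit 239)) (XT.nd (nat_lit 78) (nat_lit 304) (nat_lit 0) (XT.lf (nat_lit 0) (nat_lit 2937190045) (nat_lit 380) (nat_lit 586003069) (nat_lit 456) (nat_lit 9412679797) (nat_lit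 103) (nat_lit 5) (nat_lit 108) (nat_lit 5) (nat_lit 109) (nat_lit 5) (nat_lit 364) (nat_lit 298) (nat_lit 238)) (XT.lf (nat_lit 0) (nat_lit 1204085492) (nat_lit 304) (nat_lit 7360947248) (nat_lit 380) (nat_lit 4611147329) (nat_lit 99) (nat_lit 5) (nat_lit 103) (nat_lit 5) (nat_lit 104) (nat_lit 5) (nat_lit 365) (nat_lit 298) (nat_lit 237))))) (XT.nd (nat_lit 156) (nat_lit 912) (nat_lit 0) (XT.nd (nat_lit 78) (nat_lit 304) (nat_lit 0) (XT.lf (nat_lit 0) (nat_lit 347491349) (nat_lit 380) (nat_lit 634174101) (nat_lit 76) (nat_lit 12441653394) (nat_lit 98) (nat_lit 5) (nat_lit 103) (nat_lit 5) (nat_lit 99) (nat_lit 5) (nat_lit 366) (nat_lit 298) (nat_lit 236)) (XT.lf (nat_lit 0) (nat_lit 5448202825) (nat_lit 380) (nat_lit 2637977905) (nat_lit 76) (nat_lit 5589976564) (nat_lit 94) (nat_lit 5) (nat_lit 99) (nat_lit 5) (nat_lit 95) (nat_lit 5) (nat_lit 367) (nat_lit 298) (nat_lit 235))) (XT.nd (nat_lit 78)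 (nat_lit 608) (nat_lit 0) (XT.lf (nat_lit 0) (nat_lit 9164346969) (nat_lit 304) (nat_lit 1555726156) (nat_lit 380) (nat_lit 3216158932) (nat_lit 90) (nat_lit 5) (nat_lit 94) (nat_lit 5) (nat_lit 95) (nat_lit 5) (nat_lit 368) (nat_lit 298) (nat_lit 234)) (XT.nd (nat_lit 78) (nat_lit 228) (nat_lit 0) (XT.lf (nat_lit 0) (nat_lit 1967180179) (nat_lit 380) (nat_lit 7084853802) (nat_lit 76) (nat_lit 5150901394) (nat_lit 85) (nat_lit 5) (nat_lit 90) (nat_lit 5) (nat_lit 86) (nat_lit 5) (nat_lit 369) (nat_lit 298) (nat_lit 233)) (XT.lf (nat_lit 0) (nat_lit 4904248121) (nat_lit 228) (nat_lit 2382301834) (nat_lit 304) (nat_lit 7190193005) (nat_lit 82) (nat_lit 5) (nat_lit 85) (nat_lit 5) (nat_lit 86) (nat_lit 5) (nat_lit 370) (nat_lit 298) (nat_lit 232)))))) (XT.nd (nat_lit 390) (nat_lit 1064) (nat_lit 0) (XT.nd (nat_lit 156) (nat_lit 836) (nat_lit 0) (XT.nd (nat_lit 78) (nat_lit 76) (nat_lit 0) (XT.lf (nat_lit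 0) (nat_lit 2515210658) (nat_lit 304) (nat_lit 10294033586) (nat_lit 380) (nat_lit 1948658140) (nat_lit 78) (nat_lit 5) (nat_lit 82) (nat_lit 5) (nat_lit 83) (nat_lit 5) (nat_lit 371) (nat_lit 298) (nat_lit 231)) (XT.lf (nat_lit 0) (nat_lit 3436657303) (nat_lit 380) (nat_lit 68266294) (nat_lit 76) (nat_lit 11541501191) (nat_lit 77) (nat_lit 5) (nat_lit 82) (nat_lit 5) (nat_lit 78) (nat_lit 5) (nat_lit 372) (nat_lit 298) (nat_lit 230))) (XT.nd (nat_lit 78) (nat_lit 608) (nat_lit 0) (XT.lf (nat_lit 0) (nat_lit 9013736799) (nat_lit 304) (nat_lit 2820425325) (nat_lit 76) (nat_lit 3508061077) (nat_lit 74) (nat_lit 5) (nat_lit 78) (nat_lit 5) (nat_lit 75) (nat_lit 5) (nat_lit 373) (nat_lit 298) (nat_lit 229)) (XT.nd (nat_lit 78) (nat_lit 304) (nat_lit 0) (XT.lf (nat_lit 0) (nat_lit 9872589525) (nat_lit 304) (nat_lit 4926252705) (nat_lit 380) (nat_lit 847250261) (nat_lit 70) (nat_lit 5) (nat_lit 74) (nat_lit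 5) (nat_lit 75) (nat_lit 5) (nat_lit 374) (nat_lit 298) (nat_lit 228)) (XT.lf (nat_lit 0) (nat_lit 4768177041) (nat_lit 304) (nat_lit 8962232592) (nat_lit 76) (nat_lit 2227402069) (nat_lit 66) (nat_lit 5) (nat_lit 70) (nat_lit 5) (nat_lit 67) (nat_lit 5) (nat_lit 375) (nat_lit 298) (nat_lit 227))))) (XT.nd (nat_lit 156) (nat_lit 532) (nat_lit 0) (XT.nd (nat_lit 78) (nat_lit 304) (nat_lit 0) (XT.lf (nat_lit 0) (nat_lit 3884803800) (nat_lit 228) (nat_lit 6707325782) (nat_lit 304) (nat_lit 5685619780) (nat_lit 63) (nat_lit 5) (nat_lit 66) (nat_lit 5) (nat_lit 67) (nat_lit 5) (nat_lit 376) (nat_lit 298) (nat_lit 226)) (XT.lf (nat_lit 0) (nat_lit 6695854) (nat_lit 304) (nat_lit 16044904735) (nat_lit 76) (nat_lit 555237273) (nat_lit 59) (nat_lit 5) (nat_lit 63) (nat_lit 5) (nat_lit 60) (nat_lit 5) (nat_lit 377) (nat_lit 298) (nat_lit 225))) (XT.nd (nat_lit 78) (nat_lit 532) (nat_lit 0) (XT.lf (nat_lit 0)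 (nat_lit 5877523782) (nat_lit 304) (nat_lit 3027269000) (nat_lit 76) (nat_lit 8038564394) (nat_lit 59) (nat_lit 5) (nat_lit 63) (nat_lit 5) (nat_lit 60) (nat_lit 5) (nat_lit 378) (nat_lit 298) (nat_lit 224)) (XT.nd (nat_lit 78) (nat_lit 304) (nat_lit 0) (XT.lf (nat_lit 0) (nat_lit 10445255107) (nat_lit 228) (nat_lit 1503503302) (nat_lit 304) (nat_lit 5340737308) (nat_lit 56) (nat_lit 5) (nat_lit 59) (nat_lit 5) (nat_lit 60) (nat_lit 5) (nat_lit 379) (nat_lit 298) (nat_lit 223)) (XT.lf (nat_lit 0) (nat_lit 610137342) (nat_lit 304) (nat_lit 10955251773) (nat_lit 76) (nat_lit 6079339536) (nat_lit 52) (nat_lit 5) (nat_lit 56) (nat_lit 5) (nat_lit 53) (nat_lit 5) (nat_lit 380) (nat_lit 298) (nat_lit 222))))))))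
noncomputable def xc46 : XT := (XT.nd (nat_lit 41730) (nat_lit 0) (nat_lit 20444) (XT.nd (nat_lit 40950) (nat_lit 0) (nat_lit 42256) (XT.nd (nat_lit 312) (nat_lit 228) (nat_lit 0) (XT.nd (nat_lit 156) (nat_lit 456) (nat_lit 0) (XT.nd (nat_lit 78) (nat_lit 0) (nat_lit 0) (XT.lf (nat_lit 0) (nat_lit 2630083420) (nat_lit 228) (nat_lit 4068709098) (nat_lit 304) (nat_lit 11310492310) (nat_lit 49) (nat_lit 5) (nat_lit 52) (nat_lit 5) (nat_lit 53) (nat_lit 5) (nat_lit 381) (nat_lit 298) (nat_lit 221)) (XT.lf (nat_lit 0) (nat_lit 13026727690) (nat_lit 304) (nat_lit 1705592482) (nat_lit 76) (nat_lit 3651333441) (nat_lit 49) (nat_lit 5) (nat_lit 53) (nat_lit 5) (nat_lit 50) (nat_lit 5) (nat_lit 382) (nat_lit 298) (nat_lit 220))) (XT.nd (nat_lit 78) (nat_lit 228) (nat_lit 0) (XT.lf (nat_lit 0) (nat_lit 832924416) (nat_lit 228) (nat_lit 6328113825) (nat_lit 76) (nat_lit 11606765589) (nat_lit 46) (nat_lit 5) (nat_lit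 49) (nat_lit 5) (nat_lit 47) (nat_lit 5) (nat_lit 383) (nat_lit 298) (nat_lit 219)) (XT.lf (nat_lit 0) (nat_lit 7163298013) (nat_lit 304) (nat_lit 11298582038) (nat_lit 76) (nat_lit 700345868) (nat_lit 43) (nat_lit 5) (nat_lit 47) (nat_lit 5) (nat_lit 44) (nat_lit 5) (nat_lit 384) (nat_lit 298) (nat_lit 218)))) (XT.nd (nat_lit 40404) (nat_lit 0) (nat_lit 47500) (XT.nd (nat_lit 78) (nat_lit 76) (nat_lit 0) (XT.lf (nat_lit 0) (nat_lit 2922420861) (nat_lit 152) (nat_lit 10831606150) (nat_lit 228) (nat_lit 5813052248) (nat_lit 41) (nat_lit 5) (nat_lit 43) (nat_lit 5) (nat_lit 44) (nat_lit 5) (nat_lit 385) (nat_lit 298) (nat_lit 217)) (XT.lf (nat_lit 0) (nat_lit 589016340) (nat_lit 228) (nat_lit 2329280312) (nat_lit 76) (nat_lit 17064957346) (nat_lit 40) (nat_lit 5) (nat_lit 43) (nat_lit 5) (nat_lit 41) (nat_lit 5) (nat_lit 386) (nat_lit 298) (nat_lit 216))) (XT.nd (nat_lit 78) (nat_lit 304) (nat_lit 0)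 (XT.lf (nat_lit 0) (nat_lit 1462817632) (nat_lit 76) (nat_lit 880225309) (nat_lit 76) (nat_lit 880225309) (nat_lit 669) (nat_lit 4) (nat_lit 670) (nat_lit 5) (nat_lit 670) (nat_lit 4) (nat_lit 302) (nat_lit 299) (nat_lit 299)) (XT.nd (nat_lit 78) (nat_lit 76) (nat_lit 0) (XT.lf (nat_lit 0) (nat_lit 1293524601) (nat_lit 152) (nat_lit 1495552327) (nat_lit 228) (nat_lit 3663298252) (nat_lit 666) (nat_lit 5) (nat_lit 668) (nat_lit 5) (nat_lit 669) (nat_lit 4) (nat_lit 303) (nat_lit 299) (nat_lit 298)) (XT.lf (nat_lit 0) (nat_lit 828578230) (nat_lit 228) (nat_lit 273328646) (nat_lit 76) (nat_lit 5359310954) (nat_lit 665) (nat_lit 5) (nat_lit 668) (nat_lit 5) (nat_lit 666) (nat_lit 5) (nat_lit 304) (nat_lit 299) (nat_lit 297)))))) (XT.nd (nat_lit 390) (nat_lit 3648) (nat_lit 0) (XT.nd (nat_lit 156) (nat_lit 988) (nat_lit 0) (XT.nd (nat_lit 78) (nat_lit 380) (nat_lit 0) (XT.lf (nat_lit 0) (nat_lit 4701068142)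 (nat_lit 228) (nat_lit 564799941) (nat_lit 304) (nat_lit 1206922328) (nat_lit 662) (nat_lit 5) (nat_lit 665) (nat_lit 5) (nat_lit 666) (nat_lit 5) (nat_lit 305) (nat_lit 299) (nat_lit 296)) (XT.lf (nat_lit 0) (nat_lit 3164113959) (nat_lit 380) (nat_lit 3218809105) (nat_lit 76) (nat_lit 104371708) (nat_lit 657) (nat_lit 5) (nat_lit 662) (nat_lit 5) (nat_lit 658) (nat_lit 5) (nat_lit 306) (nat_lit 299) (nat_lit 295))) (XT.nd (nat_lit 78) (nat_lit 532) (nat_lit 0) (XT.lf (nat_lit 0) (nat_lit 997430988) (nat_lit 456) (nat_lit 4614340221) (nat_lit 76) (nat_lit 893003617) (nat_lit 651) (nat_lit 5) (nat_lit 657) (nat_lit 5) (nat_lit 652) (nat_lit 5) (nat_lit 307) (nat_lit 299) (nat_lit 294)) (XT.nd (nat_lit 78) (nat_lit 76) (nat_lit 0) (XT.lf (nat_lit 0) (nat_lit 561008598) (nat_lit 456) (nat_lit 4707714890) (nat_lit 532) (nat_lit 1256430759) (nat_lit 645) (nat_lit 5) (nat_lit 651) (nat_lit 5) (nat_lit 652)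 (nat_lit 5) (nat_lit 308) (nat_lit 299) (nat_lit 293)) (XT.lf (nat_lit 0) (nat_lit 2955751085) (nat_lit 532) (nat_lit 710485412) (nat_lit 76) (nat_lit 2882141257) (nat_lit 644) (nat_lit 5) (nat_lit 651) (nat_lit 5) (nat_lit 645) (nat_lit 5) (nat_lit 309) (nat_lit 299) (nat_lit 292))))) (XT.nd (nat_lit 156) (nat_lit 2432) (nat_lit 0) (XT.nd (nat_lit 78) (nat_lit 608) (nat_lit 0) (XT.lf (nat_lit 0) (nat_lit 573028174) (nat_lit 608) (nat_lit 1921383611) (nat_lit 76) (nat_lit 4080210435) (nat_lit 636) (nat_lit 5) (nat_lit 644) (nat_lit 5) (nat_lit 637) (nat_lit 5) (nat_lit 310) (nat_lit 299) (nat_lit 291)) (XT.lf (nat_lit 0) (nat_lit 3511111322) (nat_lit 608) (nat_lit 1182143711) (nat_lit 684) (nat_lit 1910477641) (nat_lit 628) (nat_lit 5) (nat_lit 636) (nat_lit 5) (nat_lit 637) (nat_lit 5) (nat_lit 311) (nat_lit 299) (nat_lit 290))) (XT.nd (nat_lit 78) (nat_lit 1672) (nat_lit 0) (XT.lf (nat_lit 0) (nat_lit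 2156828710) (nat_lit 760) (nat_lit 4218917139) (nat_lit 76) (nat_lit 260114152) (nat_lit 618) (nat_lit 5) (nat_lit 628) (nat_lit 5) (nat_lit 619) (nat_lit 5) (nat_lit 312) (nat_lit 299) (nat_lit 289)) (XT.nd (nat_lit 78) (nat_lit 912) (nat_lit 0) (XT.lf (nat_lit 0) (nat_lit 1363535956) (nat_lit 760) (nat_lit 4851771303) (nat_lit 836) (nat_lit 455601742) (nat_lit 608) (nat_lit 5) (nat_lit 618) (nat_lit 5) (nat_lit 619) (nat_lit 5) (nat_lit 313) (nat_lit 299) (nat_lit 288)) (XT.lf (nat_lit 0) (nat_lit 345684496) (nat_lit 836) (nat_lit 3185097990) (nat_lit 912) (nat_lit 3178042639) (nat_lit 596) (nat_lit 5) (nat_lit 607) (nat_lit 5) (nat_lit 608) (nat_lit 5) (nat_lit 314) (nat_lit 299) (nat_lit 287))))))) (XT.nd (nat_lit 780) (nat_lit 11932) (nat_lit 0) (XT.nd (nat_lit 390) (nat_lit 5548) (nat_lit 0) (XT.nd (nat_lit 156) (nat_lit 3344) (nat_lit 0) (XT.nd (nat_lit 78) (nat_lit 912) (nat_lit 0) (XT.lf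 (nat_lit 0) (nat_lit 769439649) (nat_lit 912) (nat_lit 614980878) (nat_lit 76) (nat_lit 5365420012) (nat_lit 595) (nat_lit 5) (nat_lit 607) (nat_lit 5) (nat_lit 596) (nat_lit 5) (nat_lit 315) (nat_lit 299) (nat_lit 286)) (XT.lf (nat_lit 0) (nat_lit 4696271248) (nat_lit 988) (nat_lit 1541007528) (nat_lit 76) (nat_lit 556404503) (nat_lit 583) (nat_lit 5) (nat_lit 596) (nat_lit 5) (nat_lit 584) (nat_lit 5) (nat_lit 316) (nat_lit 299) (nat_lit 285))) (XT.nd (nat_lit 78) (nat_lit 2280) (nat_lit 0) (XT.lf (nat_lit 0) (nat_lit 1788146776) (nat_lit 1064) (nat_lit 2436075788) (nat_lit 76) (nat_lit 2616245491) (nat_lit 569) (nat_lit 5) (nat_lit 583) (nat_lit 5) (nat_lit 570) (nat_lit 5) (nat_lit 317) (nat_lit 299) (nat_lit 284)) (XT.nd (nat_lit 78) (nat_lit 1216) (nat_lit 0) (XT.lf (nat_lit 0) (nat_lit 3595391685) (nat_lit 1064) (nat_lit 2072217412) (nat_lit 1140) (nat_lit 1222744877) (nat_lit 555) (nat_lit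 5) (nat_lit 569) (nat_lit 5) (nat_lit 570) (nat_lit 5) (nat_lit 318) (nat_lit 299) (nat_lit 283)) (XT.lf (nat_lit 0) (nat_lit 2596417844) (nat_lit 1216) (nat_lit 4124435183) (nat_lit 76) (nat_lit 222409237) (nat_lit 539) (nat_lit 5) (nat_lit 555) (nat_lit 5) (nat_lit 540) (nat_lit 5) (nat_lit 319) (nat_lit 299) (nat_lit 282))))) (XT.nd (nat_lit 156) (nat_lit 2964) (nat_lit 0) (XT.nd (nat_lit 78) (nat_lit 1368) (nat_lit 0) (XT.lf (nat_lit 0) (nat_lit 2069030789) (nat_lit 1216) (nat_lit 4371585430) (nat_lit 1292) (nat_lit 558523052) (nat_lit 523) (nat_lit 5) (nat_lit 539) (nat_lit 5) (nat_lit 540) (nat_lit 5) (nat_lit 320) (nat_lit 299) (nat_lit 281)) (XT.lf (nat_lit 0) (nat_lit 1344554459) (nat_lit 1292) (nat_lit 1871182870) (nat_lit 1368) (nat_lit 3842278822) (nat_lit 505) (nat_lit 5) (nat_lit 522) (nat_lit 5) (nat_lit 523) (nat_lit 5) (nat_lit 321) (nat_lit 299) (nat_lit 280))) (XT.nd (nat_lit 78)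 (nat_lit 1596) (nat_lit 0) (XT.lf (nat_lit 0) (nat_lit 656275646) (nat_lit 1368) (nat_lit 6364149848) (nat_lit 1444) (nat_lit 99742403) (nat_lit 487) (nat_lit 5) (nat_lit 505) (nat_lit 5) (nat_lit 506) (nat_lit 5) (nat_lit 322) (nat_lit 299) (nat_lit 279)) (XT.nd (nat_lit 78) (nat_lit 1520) (nat_lit 0) (XT.lf (nat_lit 0) (nat_lit 3641539153) (nat_lit 1444) (nat_lit 25979601) (nat_lit 76) (nat_lit 3517537880) (nat_lit 486) (nat_lit 5) (nat_lit 505) (nat_lit 5) (nat_lit 487) (nat_lit 5) (nat_lit 323) (nat_lit 299) (nat_lit 278)) (XT.lf (nat_lit 0) (nat_lit 168539189) (nat_lit 1520) (nat_lit 661376201) (nat_lit 76) (nat_lit 6423405155) (nat_lit 466) (nat_lit 5) (nat_lit 486) (nat_lit 5) (nat_lit 467) (nat_lit 5) (nat_lit 324) (nat_lit 299) (nat_lit 277)))))) (XT.nd (nat_lit 390) (nat_lit 4256) (nat_lit 0) (XT.nd (nat_lit 156) (nat_lit 4484) (nat_lit 0) (XT.nd (nat_lit 78) (nat_lit 1672) (nat_lit 0) (XT.lf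 (nat_lit 0) (nat_lit 3887046761) (nat_lit 1596) (nat_lit 1295798618) (nat_lit 76) (nat_lit 2141522658) (nat_lit 446) (nat_lit 5) (nat_lit 467) (nat_lit 5) (nat_lit 447) (nat_lit 5) (nat_lit 325) (nat_lit 299) (nat_lit 276)) (XT.lf (nat_lit 0) (nat_lit 252786303) (nat_lit 1672) (nat_lit 1901635657) (nat_lit 76) (nat_lit 5244400639) (nat_lit 424) (nat_lit 5) (nat_lit 446) (nat_lit 5) (nat_lit 425) (nat_lit 5) (nat_lit 326) (nat_lit 299) (nat_lit 275))) (XT.nd (nat_lit 78) (nat_lit 2812) (nat_lit 0) (XT.lf (nat_lit 0) (nat_lit 3948957244) (nat_lit 1748) (nat_lit 2502858332) (nat_lit 76) (nat_lit 1024463143) (nat_lit 402) (nat_lit 5) (nat_lit 425) (nat_lit 5) (nat_lit 403) (nat_lit 5) (nat_lit 327) (nat_lit 299) (nat_lit 274)) (XT.nd (nat_lit 78) (nat_lit 988) (nat_lit 0) (XT.lf (nat_lit 0) (nat_lit 149748217) (nat_lit 1824) (nat_lit 3087883861) (nat_lit 76) (nat_lit 4319412635) (nat_lit 378) (nat_lit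 5) (nat_lit 402) (nat_lit 5) (nat_lit 379) (nat_lit 5) (nat_lit 328) (nat_lit 299) (nat_lit 273)) (XT.lf (nat_lit 0) (nat_lit 3831336118) (nat_lit 1064) (nat_lit 3667541926) (nat_lit 76) (nat_lit 142105471) (nat_lit 365) (nat_lit 5) (nat_lit 379) (nat_lit 5) (nat_lit 366) (nat_lit 5) (nat_lit 329) (nat_lit 299) (nat_lit 272))))) (XT.nd (nat_lit 156) (nat_lit 2432) (nat_lit 0) (XT.nd (nat_lit 78) (nat_lit 912) (nat_lit 0) (XT.lf (nat_lit 0) (nat_lit 3486591556) (nat_lit 912) (nat_lit 4102530606) (nat_lit 988) (nat_lit 139060310) (nat_lit 353) (nat_lit 5) (nat_lit 365) (nat_lit 5) (nat_lit 366) (nat_lit 5) (nat_lit 330) (nat_lit 299) (nat_lit 271)) (XT.lf (nat_lit 0) (nat_lit 3004703643) (nat_lit 836) (nat_lit 535672363) (nat_lit 912) (nat_lit 4278272919) (nat_lit 341) (nat_lit 5) (nat_lit 352) (nat_lit 5) (nat_lit 353) (nat_lit 5) (nat_lit 331) (nat_lit 299) (nat_lit 270))) (XT.nd (nat_lit 78) (nat_lit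 1596) (nat_lit 0) (XT.lf (nat_lit 0) (nat_lit 2527546508) (nat_lit 836) (nat_lit 4770669127) (nat_lit 912) (nat_lit 614249841) (nat_lit 330) (nat_lit 5) (nat_lit 341) (nat_lit 5) (nat_lit 342) (nat_lit 5) (nat_lit 332) (nat_lit 299) (nat_lit 269)) (XT.nd (nat_lit 78) (nat_lit 760) (nat_lit 0) (XT.lf (nat_lit 0) (nat_lit 2050318096) (nat_lit 760) (nat_lit 1023333179) (nat_lit 836) (nat_lit 4935977141) (nat_lit 319) (nat_lit 5) (nat_lit 329) (nat_lit 5) (nat_lit 330) (nat_lit 5) (nat_lit 333) (nat_lit 299) (nat_lit 268)) (XT.lf (nat_lit 0) (nat_lit 1571950993) (nat_lit 760) (nat_lit 5265042302) (nat_lit 836) (nat_lit 1273217443) (nat_lit 309) (nat_lit 5) (nat_lit 319) (nat_lit 5) (nat_lit 320) (nat_lit 5) (nat_lit 334) (nat_lit 299) (nat_lit 267))))))))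
noncomputable def xc47 : XT := (XT.nd (nat_lit 1560) (nat_lit 6764) (nat_lit 0) (XT.nd (nat_lit 780) (nat_lit 4940) (nat_lit 0) (XT.nd (nat_lit 390) (nat_lit 3344) (nat_lit 0) (XT.nd (nat_lit 156) (nat_lit 1520) (nat_lit 0) (XT.nd (nat_lit 78) (nat_lit 760) (nat_lit 0) (XT.lf (nat_lit 0) (nat_lit 1089784151) (nat_lit 760) (nat_lit 1340586119) (nat_lit 836) (nat_lit 5783887522) (nat_lit 298) (nat_lit 5) (nat_lit 308) (nat_lit 5) (nat_lit 309) (nat_lit 5) (nat_lit 335) (nat_lit 299) (nat_lit 266)) (XT.lf (nat_lit 0) (nat_lit 598069884) (nat_lit 760) (nat_lit 5606935023) (nat_lit 836) (nat_lit 2116753269) (nat_lit 288) (nat_lit 5) (nat_lit 298) (nat_lit 5) (nat_lit 299) (nat_lit 5) (nat_lit 336) (nat_lit 299) (nat_lit 265))) (XT.nd (nat_lit 78) (nat_lit 760) (nat_lit 0) (XT.lf (nat_lit 0) (nat_lit 100900201) (nat_lit 684) (nat_lit 1508389755) (nat_lit 760) (nat_lit 6823607398) (nat_lit 278) (nat_lit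 5) (nat_lit 287) (nat_lit 5) (nat_lit 288) (nat_lit 5) (nat_lit 337) (nat_lit 299) (nat_lit 264)) (XT.nd (nat_lit 78) (nat_lit 760) (nat_lit 0) (XT.lf (nat_lit 0) (nat_lit 5403119443) (nat_lit 760) (nat_lit 411222116) (nat_lit 76) (nat_lit 2733095619) (nat_lit 278) (nat_lit 5) (nat_lit 288) (nat_lit 5) (nat_lit 279) (nat_lit 5) (nat_lit 338) (nat_lit 299) (nat_lit 263)) (XT.lf (nat_lit 0) (nat_lit 613849613) (nat_lit 760) (nat_lit 927166426) (nat_lit 76) (nat_lit 7124813665) (nat_lit 268) (nat_lit 5) (nat_lit 278) (nat_lit 5) (nat_lit 269) (nat_lit 5) (nat_lit 339) (nat_lit 299) (nat_lit 262))))) (XT.nd (nat_lit 156) (nat_lit 1976) (nat_lit 0) (XT.nd (nat_lit 78) (nat_lit 684) (nat_lit 0) (XT.lf (nat_lit 0) (nat_lit 4429673782) (nat_lit 760) (nat_lit 1476355878) (nat_lit 76) (nat_lit 2881614469) (nat_lit 259) (nat_lit 5) (nat_lit 269) (nat_lit 5) (nat_lit 260) (nat_lit 5) (nat_lit 340) (nat_lit 299)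 (nat_lit 261)) (XT.lf (nat_lit 0) (nat_lit 6881068716) (nat_lit 684) (nat_lit 1459928330) (nat_lit 760) (nat_lit 572532752) (nat_lit 250) (nat_lit 5) (nat_lit 259) (nat_lit 5) (nat_lit 260) (nat_lit 5) (nat_lit 341) (nat_lit 299) (nat_lit 260))) (XT.nd (nat_lit 78) (nat_lit 1292) (nat_lit 0) (XT.lf (nat_lit 0) (nat_lit 3276214749) (nat_lit 684) (nat_lit 2629793872) (nat_lit 76) (nat_lit 3136919483) (nat_lit 241) (nat_lit 5) (nat_lit 250) (nat_lit 5) (nat_lit 242) (nat_lit 5) (nat_lit 342) (nat_lit 299) (nat_lit 259)) (XT.nd (nat_lit 78) (nat_lit 684) (nat_lit 0) (XT.lf (nat_lit 0) (nat_lit 5933209472) (nat_lit 608) (nat_lit 1284114818) (nat_lit 684) (nat_lit 1959149284) (nat_lit 233) (nat_lit 5) (nat_lit 241) (nat_lit 5) (nat_lit 242) (nat_lit 5) (nat_lit 343) (nat_lit 299) (nat_lit 258)) (XT.lf (nat_lit 0) (nat_lit 1936648387) (nat_lit 684) (nat_lit 3897663528) (nat_lit 76) (nat_lit 3479496504) (nat_lit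 224) (nat_lit 5) (nat_lit 233) (nat_lit 5) (nat_lit 225) (nat_lit 5) (nat_lit 344) (nat_lit 299) (nat_lit 257)))))) (XT.nd (nat_lit 390) (nat_lit 2052) (nat_lit 0) (XT.nd (nat_lit 156) (nat_lit 1672) (nat_lit 0) (XT.nd (nat_lit 78) (nat_lit 608) (nat_lit 0) (XT.lf (nat_lit 0) (nat_lit 4872684135) (nat_lit 608) (nat_lit 1037622610) (nat_lit 684) (nat_lit 3544977338) (nat_lit 216) (nat_lit 5) (nat_lit 224) (nat_lit 5) (nat_lit 225) (nat_lit 5) (nat_lit 345) (nat_lit 299) (nat_lit 256)) (XT.lf (nat_lit 0) (nat_lit 403283907) (nat_lit 608) (nat_lit 5307854093) (nat_lit 76) (nat_lit 3889716358) (nat_lit 208) (nat_lit 5) (nat_lit 216) (nat_lit 5) (nat_lit 209) (nat_lit 5) (nat_lit 346) (nat_lit 299) (nat_lit 255))) (XT.nd (nat_lit 78) (nat_lit 1140) (nat_lit 0) (XT.lf (nat_lit 0) (nat_lit 3671121388) (nat_lit 532) (nat_lit 740606953) (nat_lit 608) (nat_lit 5338826234) (nat_lit 201) (nat_lit 5) (nat_lit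 208) (nat_lit 5) (nat_lit 209) (nat_lit 5) (nat_lit 347) (nat_lit 299) (nat_lit 254)) (XT.nd (nat_lit 78) (nat_lit 608) (nat_lit 0) (XT.lf (nat_lit 0) (nat_lit 3005451499) (nat_lit 532) (nat_lit 5548089134) (nat_lit 608) (nat_lit 1350971452) (nat_lit 194) (nat_lit 5) (nat_lit 201) (nat_lit 5) (nat_lit 202) (nat_lit 5) (nat_lit 348) (nat_lit 299) (nat_lit 253)) (XT.lf (nat_lit 0) (nat_lit 2298017592) (nat_lit 532) (nat_lit 413639194) (nat_lit 608) (nat_lit 7351274990) (nat_lit 186) (nat_lit 5) (nat_lit 193) (nat_lit 5) (nat_lit 194) (nat_lit 5) (nat_lit 349) (nat_lit 299) (nat_lit 252))))) (XT.nd (nat_lit 156) (nat_lit 988) (nat_lit 0) (XT.nd (nat_lit 78) (nat_lit 608) (nat_lit 0) (XT.lf (nat_lit 0) (nat_lit 1526724879) (nat_lit 456) (nat_lit 5371060181) (nat_lit 532) (nat_lit 3327767297) (nat_lit 180) (nat_lit 5) (nat_lit 186) (nat_lit 5) (nat_lit 187) (nat_lit 5) (nat_lit 350) (nat_lit 299) (nat_lit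 251)) (XT.lf (nat_lit 0) (nat_lit 720431949) (nat_lit 532) (nat_lit 77903335) (nat_lit 608) (nat_lit 9594783438) (nat_lit 172) (nat_lit 5) (nat_lit 179) (nat_lit 5) (nat_lit 180) (nat_lit 5) (nat_lit 351) (nat_lit 299) (nat_lit 250))) (XT.nd (nat_lit 78) (nat_lit 988) (nat_lit 0) (XT.lf (nat_lit 0) (nat_lit 5030914507) (nat_lit 608) (nat_lit 172435850) (nat_lit 76) (nat_lit 5361388099) (nat_lit 172) (nat_lit 5) (nat_lit 180) (nat_lit 5) (nat_lit 173) (nat_lit 5) (nat_lit 352) (nat_lit 299) (nat_lit 249)) (XT.nd (nat_lit 78) (nat_lit 532) (nat_lit 0) (XT.lf (nat_lit 0) (nat_lit 9390696731) (nat_lit 532) (nat_lit 1093427645) (nat_lit 76) (nat_lit 257401585) (nat_lit 166) (nat_lit 5) (nat_lit 173) (nat_lit 5) (nat_lit 167) (nat_lit 5) (nat_lit 353) (nat_lit 299) (nat_lit 248)) (XT.lf (nat_lit 0) (nat_lit 2948886598) (nat_lit 532) (nat_lit 2108092104) (nat_lit 76) (nat_lit 5865676452) (nat_lit 159) (nat_lit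 5) (nat_lit 166) (nat_lit 5) (nat_lit 160) (nat_lit 5) (nat_lit 354) (nat_lit 299) (nat_lit 247))))))) (XT.nd (nat_lit 780) (nat_lit 2888) (nat_lit 0) (XT.nd (nat_lit 390) (nat_lit 1596) (nat_lit 0) (XT.nd (nat_lit 156) (nat_lit 1292) (nat_lit 0) (XT.nd (nat_lit 78) (nat_lit 532) (nat_lit 0) (XT.lf (nat_lit 0) (nat_lit 7359415918) (nat_lit 532) (nat_lit 3180371756) (nat_lit 76) (nat_lit 569270375) (nat_lit 153) (nat_lit 5) (nat_lit 160) (nat_lit 5) (nat_lit 154) (nat_lit 5) (nat_lit 355) (nat_lit 299) (nat_lit 246)) (XT.lf (nat_lit 0) (nat_lit 625388032) (nat_lit 532) (nat_lit 4340261521) (nat_lit 76) (nat_lit 6334704951) (nat_lit 146) (nat_lit 5) (nat_lit 153) (nat_lit 5) (nat_lit 147) (nat_lit 5) (nat_lit 356) (nat_lit 299) (nat_lit 245))) (XT.nd (nat_lit 78) (nat_lit 912) (nat_lit 0) (XT.lf (nat_lit 0) (nat_lit 5085825193) (nat_lit 456) (nat_lit 5585820290) (nat_lit 76) (nat_lit 825166922) (nat_lit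 141) (nat_lit 5) (nat_lit 147) (nat_lit 5) (nat_lit 142) (nat_lit 5) (nat_lit 357) (nat_lit 299) (nat_lit 244)) (XT.nd (nat_lit 78) (nat_lit 456) (nat_lit 0) (XT.lf (nat_lit 0) (nat_lit 4772994366) (nat_lit 456) (nat_lit 4941197064) (nat_lit 532) (nat_lit 1984309936) (nat_lit 135) (nat_lit 5) (nat_lit 141) (nat_lit 5) (nat_lit 142) (nat_lit 5) (nat_lit 358) (nat_lit 299) (nat_lit 243)) (XT.lf (nat_lit 0) (nat_lit 2550260486) (nat_lit 456) (nat_lit 8355441958) (nat_lit 76) (nat_lit 1000045525) (nat_lit 129) (nat_lit 5) (nat_lit 135) (nat_lit 5) (nat_lit 130) (nat_lit 5) (nat_lit 359) (nat_lit 299) (nat_lit 242))))) (XT.nd (nat_lit 156) (nat_lit 836) (nat_lit 0) (XT.nd (nat_lit 78) (nat_lit 380) (nat_lit 0) (XT.lf (nat_lit 0) (nat_lit 2213511988) (nat_lit 380) (nat_lit 5017286769) (nat_lit 456) (nat_lit 4887431247) (nat_lit 124) (nat_lit 5) (nat_lit 129) (nat_lit 5) (nat_lit 130) (nat_lit 5) (nat_lit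 360) (nat_lit 299) (nat_lit 241)) (XT.lf (nat_lit 0) (nat_lit 795817512) (nat_lit 380) (nat_lit 11267939312) (nat_lit 456) (nat_lit 273107227) (nat_lit 119) (nat_lit 5) (nat_lit 124) (nat_lit 5) (nat_lit 125) (nat_lit 5) (nat_lit 361) (nat_lit 299) (nat_lit 240))) (XT.nd (nat_lit 78) (nat_lit 760) (nat_lit 0) (XT.lf (nat_lit 0) (nat_lit 4465776527) (nat_lit 456) (nat_lit 755622120) (nat_lit 76) (nat_lit 7339195924) (nat_lit 118) (nat_lit 5) (nat_lit 124) (nat_lit 5) (nat_lit 119) (nat_lit 5) (nat_lit 362) (nat_lit 299) (nat_lit 239)) (XT.nd (nat_lit 78) (nat_lit 380) (nat_lit 0) (XT.lf (nat_lit 0) (nat_lit 9362917437) (nat_lit 456) (nat_lit 2391863398) (nat_lit 76) (nat_lit 1035840332) (nat_lit 113) (nat_lit 5) (nat_lit 119) (nat_lit 5) (nat_lit 114) (nat_lit 5) (nat_lit 363) (nat_lit 299) (nat_lit 238)) (XT.lf (nat_lit 0) (nat_lit 1405561971) (nat_lit 380) (nat_lit 4165759869) (nat_lit 76) (nat_lit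 7455178516) (nat_lit 108) (nat_lit 5) (nat_lit 113) (nat_lit 5) (nat_lit 109) (nat_lit 5) (nat_lit 364) (nat_lit 299) (nat_lit 237)))))) (XT.nd (nat_lit 390) (nat_lit 1520) (nat_lit 0) (XT.nd (nat_lit 156) (nat_lit 684) (nat_lit 0) (XT.nd (nat_lit 78) (nat_lit 304) (nat_lit 0) (XT.lf (nat_lit 0) (nat_lit 6353148608) (nat_lit 456) (nat_lit 6069651235) (nat_lit 76) (nat_lit 845900145) (nat_lit 103) (nat_lit 5) (nat_lit 109) (nat_lit 5) (nat_lit 104) (nat_lit 5) (nat_lit 365) (nat_lit 299) (nat_lit 236)) (XT.lf (nat_lit 0) (nat_lit 5396734519) (nat_lit 304) (nat_lit 6100953181) (nat_lit 380) (nat_lit 2019522025) (nat_lit 99) (nat_lit 5) (nat_lit 103) (nat_lit 5) (nat_lit 104) (nat_lit 5) (nat_lit 366) (nat_lit 299) (nat_lit 235))) (XT.nd (nat_lit 78) (nat_lit 304) (nat_lit 0) (XT.lf (nat_lit 0) (nat_lit 2999118898) (nat_lit 380) (nat_lit 10312431422) (nat_lit 76) (nat_lit 460938087) (nat_lit 94) (nat_lit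 5) (nat_lit 99) (nat_lit 5) (nat_lit 95) (nat_lit 5) (nat_lit 367) (nat_lit 299) (nat_lit 234)) (XT.nd (nat_lit 78) (nat_lit 0) (nat_lit 0) (XT.lf (nat_lit 0) (nat_lit 1348096926) (nat_lit 304) (nat_lit 6847152747) (nat_lit 380) (nat_lit 5838834940) (nat_lit 90) (nat_lit 5) (nat_lit 94) (nat_lit 5) (nat_lit 95) (nat_lit 5) (nat_lit 368) (nat_lit 299) (nat_lit 233)) (XT.lf (nat_lit 0) (nat_lit 13421144589) (nat_lit 304) (nat_lit 146236103) (nat_lit 380) (nat_lit 735758798) (nat_lit 90) (nat_lit 5) (nat_lit 94) (nat_lit 5) (nat_lit 95) (nat_lit 5) (nat_lit 369) (nat_lit 299) (nat_lit 232))))) (XT.nd (nat_lit 156) (nat_lit 912) (nat_lit 0) (XT.nd (nat_lit 78) (nat_lit 228) (nat_lit 0) (XT.lf (nat_lit 0) (nat_lit 4530323624) (nat_lit 380) (nat_lit 3305173133) (nat_lit 76) (nat_lit 6742810745) (nat_lit 85) (nat_lit 5) (nat_lit 90) (nat_lit 5) (nat_lit 86) (nat_lit 5) (nat_lit 370) (nat_lit 299) (nat_lit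 231)) (XT.lf (nat_lit 0) (nat_lit 8978832718) (nat_lit 228) (nat_lit 983005664) (nat_lit 304) (nat_lit 4899458102) (nat_lit 82) (nat_lit 5) (nat_lit 85) (nat_lit 5) (nat_lit 86) (nat_lit 5) (nat_lit 371) (nat_lit 299) (nat_lit 230))) (XT.nd (nat_lit 78) (nat_lit 532) (nat_lit 0) (XT.lf (nat_lit 0) (nat_lit 455571426) (nat_lit 380) (nat_lit 8660691395) (nat_lit 76) (nat_lit 6035324644) (nat_lit 77) (nat_lit 5) (nat_lit 82) (nat_lit 5) (nat_lit 78) (nat_lit 5) (nat_lit 372) (nat_lit 299) (nat_lit 229)) (XT.nd (nat_lit 78) (nat_lit 304) (nat_lit 0) (XT.lf (nat_lit 0) (nat_lit 3801139847) (nat_lit 228) (nat_lit 2128700191) (nat_lit 304) (nat_lit 9519607573) (nat_lit 74) (nat_lit 5) (nat_lit 77) (nat_lit 5) (nat_lit 78) (nat_lit 5) (nat_lit 373) (nat_lit 299) (nat_lit 228)) (XT.lf (nat_lit 0) (nat_lit 904048416) (nat_lit 304) (nat_lit 10716229117) (nat_lit 380) (nat_lit 4134938082) (nat_lit 70) (nat_lit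 5) (nat_lit 74) (nat_lit 5) (nat_lit 75) (nat_lit 5) (nat_lit 374) (nat_lit 299) (nat_lit 227))))))))
noncomputable def xc48 : XT := (XT.nd (nat_lit 41652) (nat_lit 0) (nat_lit 27284) (XT.nd (nat_lit 702) (nat_lit 304) (nat_lit 0) (XT.nd (nat_lit 312) (nat_lit 912) (nat_lit 0) (XT.nd (nat_lit 156) (nat_lit 532) (nat_lit 0) (XT.nd (nat_lit 78) (nat_lit 228) (nat_lit 0) (XT.lf (nat_lit 0) (nat_lit 1441090841) (nat_lit 380) (nat_lit 2174296243) (nat_lit 76) (nat_lit 12453630095) (nat_lit 69) (nat_lit 5) (nat_lit 74) (nat_lit 5) (nat_lit 70) (nat_lit 5) (nat_lit 375) (nat_lit 299) (nat_lit 226)) (XT.lf (nat_lit 0) (nat_lit 7179928002) (nat_lit 304) (nat_lit 5489158993) (nat_lit 76) (nat_lit 3721575102) (nat_lit 66) (nat_lit 5) (nat_lit 70) (nat_lit 5) (nat_lit 67) (nat_lit 5) (nat_lit 376) (nat_lit 299) (nat_lit 225))) (XT.nd (nat_lit 78) (nat_lit 304) (nat_lit 0) (XT.lf (nat_lit 0) (nat_lit 7682579951)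 (nat_lit 228) (nat_lit 5453841364) (nat_lit 304) (nat_lit 3584634979) (nat_lit 63) (nat_lit 5) (nat_lit 66) (nat_lit 5) (nat_lit 67) (nat_lit 5) (nat_lit 377) (nat_lit 299) (nat_lit 224)) (XT.lf (nat_lit 0) (nat_lit 2216492526) (nat_lit 304) (nat_lit 12839904548) (nat_lit 76) (nat_lit 2003982856) (nat_lit 59) (nat_lit 5) (nat_lit 63) (nat_lit 5) (nat_lit 60) (nat_lit 5) (nat_lit 378) (nat_lit 299) (nat_lit 223)))) (XT.nd (nat_lit 156) (nat_lit 684) (nat_lit 0) (XT.nd (nat_lit 78) (nat_lit 0) (nat_lit 0) (XT.lf (nat_lit 0) (nat_lit 467015916) (nat_lit 228) (nat_lit 7735104393) (nat_lit 304) (nat_lit 9206114736) (nat_lit 56) (nat_lit 5) (nat_lit 59) (nat_lit 5) (nat_lit 60) (nat_lit 5) (nat_lit 379) (nat_lit 299) (nat_lit 222)) (XT.lf (nat_lit 0) (nat_lit 14279526084) (nat_lit 228) (nat_lit 133311140) (nat_lit 304) (nat_lit 3352786936) (nat_lit 56) (nat_lit 5) (nat_lit 59) (nat_lit 5) (nat_lit 60) (nat_lit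 5) (nat_lit 380) (nat_lit 299) (nat_lit 221))) (XT.nd (nat_lit 78) (nat_lit 380) (nat_lit 0) (XT.lf (nat_lit 0) (nat_lit 2718525936) (nat_lit 304) (nat_lit 7759093766) (nat_lit 76) (nat_lit 7654226402) (nat_lit 52) (nat_lit 5) (nat_lit 56) (nat_lit 5) (nat_lit 53) (nat_lit 5) (nat_lit 381) (nat_lit 299) (nat_lit 220)) (XT.nd (nat_lit 78) (nat_lit 152) (nat_lit 0) (XT.lf (nat_lit 0) (nat_lit 6176615538) (nat_lit 228) (nat_lit 2774863134) (nat_lit 304) (nat_lit 9556639849) (nat_lit 49) (nat_lit 5) (nat_lit 52) (nat_lit 5) (nat_lit 53) (nat_lit 5) (nat_lit 382) (nat_lit 299) (nat_lit 219)) (XT.lf (nat_lit 0) (nat_lit 1662993364) (nat_lit 152) (nat_lit 13766222138) (nat_lit 228) (nat_lit 3465315549) (nat_lit 47) (nat_lit 5) (nat_lit 49) (nat_lit 5) (nat_lit 50) (nat_lit 5) (nat_lit 383) (nat_lit 299) (nat_lit 218)))))) (XT.nd (nat_lit 40560) (nat_lit 0) (nat_lit 46208) (XT.nd (nat_lit 40326) (nat_lit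 0) (nat_lit 47500) (XT.nd (nat_lit 78) (nat_lit 228) (nat_lit 0) (XT.lf (nat_lit 0) (nat_lit 2835616814) (nat_lit 228) (nat_lit 3148479752) (nat_lit 76) (nat_lit 13306808026) (nat_lit 46) (nat_lit 5) (nat_lit 49) (nat_lit 5) (nat_lit 47) (nat_lit 5) (nat_lit 384) (nat_lit 299) (nat_lit 217)) (XT.lf (nat_lit 0) (nat_lit 9328736174) (nat_lit 304) (nat_lit 8292442743) (nat_lit 76) (nat_lit 2076534781) (nat_lit 43) (nat_lit 5) (nat_lit 47) (nat_lit 5) (nat_lit 44) (nat_lit 5) (nat_lit 385) (nat_lit 299) (nat_lit 216))) (XT.nd (nat_lit 78) (nat_lit 228) (nat_lit 0) (XT.lf (nat_lit 0) (nat_lit 1073741823) (nat_lit 0) (nat_lit 0) (nat_lit 0) (nat_lit 0) (nat_lit 671) (nat_lit 0) (nat_lit 1) (nat_lit 0) (nat_lit 1) (nat_lit 0) (nat_lit 300) (nat_lit 300) (nat_lit 300)) (XT.nd (nat_lit 78) (nat_lit 152) (nat_lit 0) (XT.lf (nat_lit 0) (nat_lit 4545528260) (nat_lit 76) (nat_lit 1823290004) (nat_lit 0) (nat_lit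 74905142) (nat_lit 670) (nat_lit 5) (nat_lit 671) (nat_lit 0) (nat_lit 670) (nat_lit 4) (nat_lit 301) (nat_lit 300) (nat_lit 299)) (XT.lf (nat_lit 0) (nat_lit 2586567790) (nat_lit 152) (nat_lit 3586166976) (nat_lit 76) (nat_lit 275294965) (nat_lit 668) (nat_lit 5) (nat_lit 670) (nat_lit 5) (nat_lit 669) (nat_lit 4) (nat_lit 302) (nat_lit 300) (nat_lit 298))))) (XT.nd (nat_lit 156) (nat_lit 1064) (nat_lit 0) (XT.nd (nat_lit 78) (nat_lit 0) (nat_lit 0) (XT.lf (nat_lit 0) (nat_lit 563762702) (nat_lit 228) (nat_lit 5290242875) (nat_lit 76) (nat_lit 601367640) (nat_lit 665) (nat_lit 5) (nat_lit 668) (nat_lit 5) (nat_lit 666) (nat_lit 5) (nat_lit 303) (nat_lit 300) (nat_lit 297)) (XT.lf (nat_lit 0) (nat_lit 4923663721) (nat_lit 228) (nat_lit 475228685) (nat_lit 76) (nat_lit 1066603959) (nat_lit 665) (nat_lit 5) (nat_lit 668) (nat_lit 5) (nat_lit 666) (nat_lit 5) (nat_lit 304) (nat_lit 300) (nat_lit 296)))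 (XT.nd (nat_lit 78) (nat_lit 760) (nat_lit 0) (XT.lf (nat_lit 0) (nat_lit 2762324426) (nat_lit 304) (nat_lit 2046459898) (nat_lit 76) (nat_lit 1669658729) (nat_lit 661) (nat_lit 5) (nat_lit 665) (nat_lit 5) (nat_lit 662) (nat_lit 5) (nat_lit 305) (nat_lit 300) (nat_lit 295)) (XT.nd (nat_lit 78) (nat_lit 380) (nat_lit 0) (XT.lf (nat_lit 0) (nat_lit 533080831) (nat_lit 380) (nat_lit 3561538758) (nat_lit 76) (nat_lit 2399829590) (nat_lit 656) (nat_lit 5) (nat_lit 661) (nat_lit 5) (nat_lit 657) (nat_lit 5) (nat_lit 306) (nat_lit 300) (nat_lit 294)) (XT.lf (nat_lit 0) (nat_lit 1479835420) (nat_lit 380) (nat_lit 3243836874) (nat_lit 456) (nat_lit 1789622374) (nat_lit 651) (nat_lit 5) (nat_lit 656) (nat_lit 5) (nat_lit 657) (nat_lit 5) (nat_lit 307) (nat_lit 300) (nat_lit 293))))))) (XT.nd (nat_lit 780) (nat_lit 12692) (nat_lit 0) (XT.nd (nat_lit 390) (nat_lit 3724) (nat_lit 0) (XT.nd (nat_lit 156) (nat_lit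 1976) (nat_lit 0) (XT.nd (nat_lit 78) (nat_lit 0) (nat_lit 0) (XT.lf (nat_lit 0) (nat_lit 79240465) (nat_lit 456) (nat_lit 2263393084) (nat_lit 532) (nat_lit 4192513421) (nat_lit 644) (nat_lit 5) (nat_lit 650) (nat_lit 5) (nat_lit 651) (nat_lit 5) (nat_lit 308) (nat_lit 300) (nat_lit 292)) (XT.lf (nat_lit 0) (nat_lit 5309284497) (nat_lit 456) (nat_lit 1146817038) (nat_lit 532) (nat_lit 103813557) (nat_lit 644) (nat_lit 5) (nat_lit 650) (nat_lit 5) (nat_lit 651) (nat_lit 5) (nat_lit 309) (nat_lit 300) (nat_lit 291))) (XT.nd (nat_lit 78) (nat_lit 1368) (nat_lit 0) (XT.lf (nat_lit 0) (nat_lit 3931412120) (nat_lit 608) (nat_lit 2543242545) (nat_lit 76) (nat_lit 112805334) (nat_lit 636) (nat_lit 5) (nat_lit 644) (nat_lit 5) (nat_lit 637) (nat_lit 5) (nat_lit 310) (nat_lit 300) (nat_lit 290)) (XT.nd (nat_lit 78) (nat_lit 684) (nat_lit 0) (XT.lf (nat_lit 0) (nat_lit 1339786443) (nat_lit 684) (nat_lit 3792943151)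 (nat_lit 76) (nat_lit 1485240859) (nat_lit 627) (nat_lit 5) (nat_lit 636) (nat_lit 5) (nat_lit 628) (nat_lit 5) (nat_lit 311) (nat_lit 300) (nat_lit 289)) (XT.lf (nat_lit 0) (nat_lit 1649280529) (nat_lit 684) (nat_lit 3655813662) (nat_lit 760) (nat_lit 1346349821) (nat_lit 618) (nat_lit 5) (nat_lit 627) (nat_lit 5) (nat_lit 628) (nat_lit 5) (nat_lit 312) (nat_lit 300) (nat_lit 288))))) (XT.nd (nat_lit 156) (nat_lit 2888) (nat_lit 0) (XT.nd (nat_lit 78) (nat_lit 0) (nat_lit 0) (XT.lf (nat_lit 0) (nat_lit 515303336) (nat_lit 760) (nat_lit 2041839900) (nat_lit 836) (nat_lit 4130751464) (nat_lit 607) (nat_lit 5) (nat_lit 617) (nat_lit 5) (nat_lit 618) (nat_lit 5) (nat_lit 313) (nat_lit 300) (nat_lit 287)) (XT.lf (nat_lit 0) (nat_lit 6164168944) (nat_lit 760) (nat_lit 292636129) (nat_lit 836) (nat_lit 270612786) (nat_lit 607) (nat_lit 5) (nat_lit 617) (nat_lit 5) (nat_lit 618) (nat_lit 5) (nat_lit 314)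 (nat_lit 300) (nat_lit 286))) (XT.nd (nat_lit 78) (nat_lit 1976) (nat_lit 0) (XT.lf (nat_lit 0) (nat_lit 3567131178) (nat_lit 912) (nat_lit 1614752805) (nat_lit 76) (nat_lit 1587652676) (nat_lit 595) (nat_lit 5) (nat_lit 607) (nat_lit 5) (nat_lit 596) (nat_lit 5) (nat_lit 315) (nat_lit 300) (nat_lit 285)) (XT.nd (nat_lit 78) (nat_lit 988) (nat_lit 0) (XT.lf (nat_lit 0) (nat_lit 596518643) (nat_lit 988) (nat_lit 2622451568) (nat_lit 76) (nat_lit 3595870026) (nat_lit 582) (nat_lit 5) (nat_lit 595) (nat_lit 5) (nat_lit 583) (nat_lit 5) (nat_lit 316) (nat_lit 300) (nat_lit 284)) (XT.lf (nat_lit 0) (nat_lit 3261509295) (nat_lit 988) (nat_lit 1109053917) (nat_lit 1064) (nat_lit 2492514656) (nat_lit 569) (nat_lit 5) (nat_lit 582) (nat_lit 5) (nat_lit 583) (nat_lit 5) (nat_lit 317) (nat_lit 300) (nat_lit 283)))))) (XT.nd (nat_lit 390) (nat_lit 7752) (nat_lit 0) (XT.nd (nat_lit 156) (nat_lit 2660) (nat_lit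 0) (XT.nd (nat_lit 78) (nat_lit 1140) (nat_lit 0) (XT.lf (nat_lit 0) (nat_lit 1242539398) (nat_lit 1140) (nat_lit 4548723407) (nat_lit 76) (nat_lit 1123110005) (nat_lit 554) (nat_lit 5) (nat_lit 569) (nat_lit 5) (nat_lit 555) (nat_lit 5) (nat_lit 318) (nat_lit 300) (nat_lit 282)) (XT.lf (nat_lit 0) (nat_lit 1494053731) (nat_lit 1140) (nat_lit 3481278108) (nat_lit 1216) (nat_lit 1993238823) (nat_lit 539) (nat_lit 5) (nat_lit 554) (nat_lit 5) (nat_lit 555) (nat_lit 5) (nat_lit 319) (nat_lit 300) (nat_lit 281))) (XT.nd (nat_lit 78) (nat_lit 1368) (nat_lit 0) (XT.lf (nat_lit 0) (nat_lit 657476306) (nat_lit 1216) (nat_lit 1029735472) (nat_lit 1292) (nat_lit 5338729010) (nat_lit 522) (nat_lit 5) (nat_lit 538) (nat_lit 5) (nat_lit 539) (nat_lit 5) (nat_lit 320) (nat_lit 300) (nat_lit 280)) (XT.nd (nat_lit 78) (nat_lit 1368) (nat_lit 0) (XT.lf (nat_lit 0) (nat_lit 5380993747) (nat_lit 1292) (nat_lit 156111462)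 (nat_lit 76) (nat_lit 1549141501) (nat_lit 522) (nat_lit 5) (nat_lit 539) (nat_lit 5) (nat_lit 523) (nat_lit 5) (nat_lit 321) (nat_lit 300) (nat_lit 279)) (XT.lf (nat_lit 0) (nat_lit 1943491366) (nat_lit 1368) (nat_lit 939288971) (nat_lit 76) (nat_lit 4266731674) (nat_lit 504) (nat_lit 5) (nat_lit 522) (nat_lit 5) (nat_lit 505) (nat_lit 5) (nat_lit 322) (nat_lit 300) (nat_lit 278))))) (XT.nd (nat_lit 156) (nat_lit 4864) (nat_lit 0) (XT.nd (nat_lit 78) (nat_lit 1520) (nat_lit 0) (XT.lf (nat_lit 0) (nat_lit 5521927596) (nat_lit 1368) (nat_lit 81762843) (nat_lit 1444) (nat_lit 1612328424) (nat_lit 486) (nat_lit 5) (nat_lit 504) (nat_lit 5) (nat_lit 505) (nat_lit 5) (nat_lit 323) (nat_lit 300) (nat_lit 277)) (XT.lf (nat_lit 0) (nat_lit 2008367390) (nat_lit 1520) (nat_lit 2442924961) (nat_lit 76) (nat_lit 2834094178) (nat_lit 466) (nat_lit 5) (nat_lit 486) (nat_lit 5) (nat_lit 467) (nat_lit 5) (nat_lit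 324) (nat_lit 300) (nat_lit 276))) (XT.nd (nat_lit 78) (nat_lit 3344) (nat_lit 0) (XT.lf (nat_lit 0) (nat_lit 4190344742) (nat_lit 1520) (nat_lit 1457544036) (nat_lit 1596) (nat_lit 1710157847) (nat_lit 446) (nat_lit 5) (nat_lit 466) (nat_lit 5) (nat_lit 467) (nat_lit 5) (nat_lit 325) (nat_lit 300) (nat_lit 275)) (XT.nd (nat_lit 78) (nat_lit 1672) (nat_lit 0) (XT.lf (nat_lit 0) (nat_lit 1883161509) (nat_lit 1672) (nat_lit 3882453419) (nat_lit 76) (nat_lit 1668176001) (nat_lit 424) (nat_lit 5) (nat_lit 446) (nat_lit 5) (nat_lit 425) (nat_lit 5) (nat_lit 326) (nat_lit 300) (nat_lit 274)) (XT.lf (nat_lit 0) (nat_lit 2925495228) (nat_lit 1672) (nat_lit 2583002702) (nat_lit 1748) (nat_lit 2004196195) (nat_lit 402) (nat_lit 5) (nat_lit 424) (nat_lit 5) (nat_lit 425) (nat_lit 5) (nat_lit 327) (nat_lit 300) (nat_lit 273))))))))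
noncomputable def xc49 : XT := (XT.nd (nat_lit 1482) (nat_lit 8512) (nat_lit 0) (XT.nd (nat_lit 702) (nat_lit 6308) (nat_lit 0) (XT.nd (nat_lit 312) (nat_lit 3268) (nat_lit 0) (XT.nd (nat_lit 156) (nat_lit 1824) (nat_lit 0) (XT.nd (nat_lit 78) (nat_lit 988) (nat_lit 0) (XT.lf (nat_lit 0) (nat_lit 1572098473) (nat_lit 1824) (nat_lit 5278279215) (nat_lit 76) (nat_lit 744529549) (nat_lit 378) (nat_lit 5) (nat_lit 402) (nat_lit 5) (nat_lit 379) (nat_lit 5) (nat_lit 328) (nat_lit 300) (nat_lit 272)) (XT.lf (nat_lit 0) (nat_lit 1707042147) (nat_lit 988) (nat_lit 3482226205) (nat_lit 1064) (nat_lit 2490894127) (nat_lit 365) (nat_lit 5) (nat_lit 378) (nat_lit 5) (nat_lit 379) (nat_lit 5) (nat_lit 329) (nat_lit 300) (nat_lit 271))) (XT.nd (nat_lit 78) (nat_lit 836) (nat_lit 0) (XT.lf (nat_lit 0) (nat_lit 1078051254) (nat_lit 988) (nat_lit 6650983234) (nat_lit 76) (nat_lit 39923885) (nat_lit 352) (nat_lit 5)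 (nat_lit 365) (nat_lit 5) (nat_lit 353) (nat_lit 5) (nat_lit 330) (nat_lit 300) (nat_lit 270)) (XT.lf (nat_lit 0) (nat_lit 514425993) (nat_lit 836) (nat_lit 4178183644) (nat_lit 912) (nat_lit 3168084163) (nat_lit 341) (nat_lit 5) (nat_lit 352) (nat_lit 5) (nat_lit 353) (nat_lit 5) (nat_lit 331) (nat_lit 300) (nat_lit 269)))) (XT.nd (nat_lit 156) (nat_lit 2356) (nat_lit 0) (XT.nd (nat_lit 78) (nat_lit 836) (nat_lit 0) (XT.lf (nat_lit 0) (nat_lit 406066899) (nat_lit 912) (nat_lit 67530903) (nat_lit 76) (nat_lit 7482540201) (nat_lit 340) (nat_lit 5) (nat_lit 352) (nat_lit 5) (nat_lit 341) (nat_lit 5) (nat_lit 332) (nat_lit 300) (nat_lit 268)) (XT.lf (nat_lit 0) (nat_lit 4023961473) (nat_lit 912) (nat_lit 664482961) (nat_lit 76) (nat_lit 3366039738) (nat_lit 329) (nat_lit 5) (nat_lit 341) (nat_lit 5) (nat_lit 330) (nat_lit 5) (nat_lit 333) (nat_lit 300) (nat_lit 267))) (XT.nd (nat_lit 78) (nat_lit 1596)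 (nat_lit 0) (XT.lf (nat_lit 0) (nat_lit 6910565714) (nat_lit 760) (nat_lit 799404246) (nat_lit 836) (nat_lit 446666485) (nat_lit 319) (nat_lit 5) (nat_lit 329) (nat_lit 5) (nat_lit 330) (nat_lit 5) (nat_lit 334) (nat_lit 300) (nat_lit 266)) (XT.nd (nat_lit 78) (nat_lit 760) (nat_lit 0) (XT.lf (nat_lit 0) (nat_lit 3182116009) (nat_lit 836) (nat_lit 1853096470) (nat_lit 76) (nat_lit 3226665145) (nat_lit 308) (nat_lit 5) (nat_lit 319) (nat_lit 5) (nat_lit 309) (nat_lit 5) (nat_lit 335) (nat_lit 300) (nat_lit 265)) (XT.lf (nat_lit 0) (nat_lit 5916218839) (nat_lit 760) (nat_lit 964138673) (nat_lit 836) (nat_lit 1490569874) (nat_lit 298) (nat_lit 5) (nat_lit 308) (nat_lit 5) (nat_lit 309) (nat_lit 5) (nat_lit 336) (nat_lit 300) (nat_lit 264)))))) (XT.nd (nat_lit 390) (nat_lit 2660) (nat_lit 0) (XT.nd (nat_lit 156) (nat_lit 2128) (nat_lit 0) (XT.nd (nat_lit 78) (nat_lit 684) (nat_lit 0) (XT.lf (nat_lit 0)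 (nat_lit 2162219414) (nat_lit 836) (nat_lit 3080195257) (nat_lit 76) (nat_lit 3240891888) (nat_lit 287) (nat_lit 5) (nat_lit 298) (nat_lit 5) (nat_lit 288) (nat_lit 5) (nat_lit 337) (nat_lit 300) (nat_lit 263)) (XT.lf (nat_lit 0) (nat_lit 4886110494) (nat_lit 684) (nat_lit 990741086) (nat_lit 760) (nat_lit 2722598630) (nat_lit 278) (nat_lit 5) (nat_lit 287) (nat_lit 5) (nat_lit 288) (nat_lit 5) (nat_lit 338) (nat_lit 300) (nat_lit 262))) (XT.nd (nat_lit 78) (nat_lit 1368) (nat_lit 0) (XT.lf (nat_lit 0) (nat_lit 961357089) (nat_lit 760) (nat_lit 4368784991) (nat_lit 76) (nat_lit 3389038435) (nat_lit 268) (nat_lit 5) (nat_lit 278) (nat_lit 5) (nat_lit 269) (nat_lit 5) (nat_lit 339) (nat_lit 300) (nat_lit 261)) (XT.nd (nat_lit 78) (nat_lit 684) (nat_lit 0) (XT.lf (nat_lit 0) (nat_lit 3797023819) (nat_lit 684) (nat_lit 899053244) (nat_lit 760) (nat_lit 4146558334) (nat_lit 259) (nat_lit 5) (nat_lit 268)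 (nat_lit 5) (nat_lit 269) (nat_lit 5) (nat_lit 340) (nat_lit 300) (nat_lit 260)) (XT.lf (nat_lit 0) (nat_lit 3224046598) (nat_lit 684) (nat_lit 5315376794) (nat_lit 760) (nat_lit 430475049) (nat_lit 250) (nat_lit 5) (nat_lit 259) (nat_lit 5) (nat_lit 260) (nat_lit 5) (nat_lit 341) (nat_lit 300) (nat_lit 259))))) (XT.nd (nat_lit 156) (nat_lit 1368) (nat_lit 0) (XT.nd (nat_lit 78) (nat_lit 608) (nat_lit 0) (XT.lf (nat_lit 0) (nat_lit 2624486163) (nat_lit 608) (nat_lit 708715494) (nat_lit 684) (nat_lit 5767757776) (nat_lit 241) (nat_lit 5) (nat_lit 249) (nat_lit 5) (nat_lit 250) (nat_lit 5) (nat_lit 342) (nat_lit 300) (nat_lit 258)) (XT.lf (nat_lit 0) (nat_lit 1994078319) (nat_lit 608) (nat_lit 5212983149) (nat_lit 684) (nat_lit 2028804914) (nat_lit 233) (nat_lit 5) (nat_lit 241) (nat_lit 5) (nat_lit 242) (nat_lit 5) (nat_lit 343) (nat_lit 300) (nat_lit 257))) (XT.nd (nat_lit 78) (nat_lit 684) (nat_lit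 0) (XT.lf (nat_lit 0) (nat_lit 1342534415) (nat_lit 608) (nat_lit 439341242) (nat_lit 684) (nat_lit 7593070918) (nat_lit 224) (nat_lit 5) (nat_lit 232) (nat_lit 5) (nat_lit 233) (nat_lit 5) (nat_lit 344) (nat_lit 300) (nat_lit 256)) (XT.nd (nat_lit 78) (nat_lit 76) (nat_lit 0) (XT.lf (nat_lit 0) (nat_lit 640180622) (nat_lit 608) (nat_lit 5049201233) (nat_lit 684) (nat_lit 3828378660) (nat_lit 216) (nat_lit 5) (nat_lit 224) (nat_lit 5) (nat_lit 225) (nat_lit 5) (nat_lit 345) (nat_lit 300) (nat_lit 255)) (XT.lf (nat_lit 0) (nat_lit 34655706) (nat_lit 684) (nat_lit 75532854) (nat_lit 76) (nat_lit 9554972405) (nat_lit 215) (nat_lit 5) (nat_lit 224) (nat_lit 5) (nat_lit 216) (nat_lit 5) (nat_lit 346) (nat_lit 300) (nat_lit 254))))))) (XT.nd (nat_lit 780) (nat_lit 3344) (nat_lit 0) (XT.nd (nat_lit 390) (nat_lit 2508) (nat_lit 0) (XT.nd (nat_lit 156) (nat_lit 1596) (nat_lit 0) (XT.nd (nat_lit 78) (nat_lit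 532) (nat_lit 0) (XT.lf (nat_lit 0) (nat_lit 3983418115) (nat_lit 608) (nat_lit 854926027) (nat_lit 76) (nat_lit 4977724758) (nat_lit 208) (nat_lit 5) (nat_lit 216) (nat_lit 5) (nat_lit 209) (nat_lit 5) (nat_lit 347) (nat_lit 300) (nat_lit 253)) (XT.lf (nat_lit 0) (nat_lit 8039475961) (nat_lit 608) (nat_lit 1655023854) (nat_lit 76) (nat_lit 277255351) (nat_lit 201) (nat_lit 5) (nat_lit 209) (nat_lit 5) (nat_lit 202) (nat_lit 5) (nat_lit 348) (nat_lit 300) (nat_lit 252))) (XT.nd (nat_lit 78) (nat_lit 988) (nat_lit 0) (XT.lf (nat_lit 0) (nat_lit 2078589062) (nat_lit 608) (nat_lit 2522604231) (nat_lit 76) (nat_lit 5530257737) (nat_lit 193) (nat_lit 5) (nat_lit 201) (nat_lit 5) (nat_lit 194) (nat_lit 5) (nat_lit 349) (nat_lit 300) (nat_lit 251)) (XT.nd (nat_lit 78) (nat_lit 456) (nat_lit 0) (XT.lf (nat_lit 0) (nat_lit 6178028883) (nat_lit 608) (nat_lit 3433273820) (nat_lit 76) (nat_lit 684515305) (nat_lit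 186) (nat_lit 5) (nat_lit 194) (nat_lit 5) (nat_lit 187) (nat_lit 5) (nat_lit 350) (nat_lit 300) (nat_lit 250)) (XT.lf (nat_lit 0) (nat_lit 6060338090) (nat_lit 456) (nat_lit 4362633498) (nat_lit 532) (nat_lit 41718908) (nat_lit 180) (nat_lit 5) (nat_lit 186) (nat_lit 5) (nat_lit 187) (nat_lit 5) (nat_lit 351) (nat_lit 300) (nat_lit 249))))) (XT.nd (nat_lit 156) (nat_lit 1444) (nat_lit 0) (XT.nd (nat_lit 78) (nat_lit 456) (nat_lit 0) (XT.lf (nat_lit 0) (nat_lit 4102576981) (nat_lit 608) (nat_lit 5443480663) (nat_lit 76) (nat_lit 1092046284) (nat_lit 172) (nat_lit 5) (nat_lit 180) (nat_lit 5) (nat_lit 173) (nat_lit 5) (nat_lit 352) (nat_lit 300) (nat_lit 248)) (XT.lf (nat_lit 0) (nat_lit 4265583256) (nat_lit 456) (nat_lit 4129208644) (nat_lit 532) (nat_lit 2421462211) (nat_lit 166) (nat_lit 5) (nat_lit 172) (nat_lit 5) (nat_lit 173) (nat_lit 5) (nat_lit 353) (nat_lit 300) (nat_lit 247))) (XT.nd (nat_lit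 78) (nat_lit 912) (nat_lit 0) (XT.lf (nat_lit 0) (nat_lit 1798489302) (nat_lit 532) (nat_lit 7722724376) (nat_lit 76) (nat_lit 1478195554) (nat_lit 159) (nat_lit 5) (nat_lit 166) (nat_lit 5) (nat_lit 160) (nat_lit 5) (nat_lit 354) (nat_lit 300) (nat_lit 246)) (XT.nd (nat_lit 78) (nat_lit 456) (nat_lit 0) (XT.lf (nat_lit 0) (nat_lit 2200545464) (nat_lit 456) (nat_lit 3937555357) (nat_lit 532) (nat_lit 5049140133) (nat_lit 153) (nat_lit 5) (nat_lit 159) (nat_lit 5) (nat_lit 160) (nat_lit 5) (nat_lit 355) (nat_lit 300) (nat_lit 245)) (XT.lf (nat_lit 0) (nat_lit 1064162262) (nat_lit 456) (nat_lit 9555353501) (nat_lit 532) (nat_lit 760980203) (nat_lit 147) (nat_lit 5) (nat_lit 153) (nat_lit 5) (nat_lit 154) (nat_lit 5) (nat_lit 356) (nat_lit 300) (nat_lit 244)))))) (XT.nd (nat_lit 390) (nat_lit 1596) (nat_lit 0) (XT.nd (nat_lit 156) (nat_lit 1292) (nat_lit 0) (XT.nd (nat_lit 78) (nat_lit 380) (nat_lit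 0) (XT.lf (nat_lit 0) (nat_lit 3636550608) (nat_lit 532) (nat_lit 173900437) (nat_lit 76) (nat_lit 7768069047) (nat_lit 146) (nat_lit 5) (nat_lit 153) (nat_lit 5) (nat_lit 147) (nat_lit 5) (nat_lit 357) (nat_lit 300) (nat_lit 243)) (XT.lf (nat_lit 0) (nat_lit 8179489810) (nat_lit 456) (nat_lit 1475313605) (nat_lit 76) (nat_lit 2127123576) (nat_lit 141) (nat_lit 5) (nat_lit 147) (nat_lit 5) (nat_lit 142) (nat_lit 5) (nat_lit 358) (nat_lit 300) (nat_lit 242))) (XT.nd (nat_lit 78) (nat_lit 760) (nat_lit 0) (XT.lf (nat_lit 0) (nat_lit 885737185) (nat_lit 532) (nat_lit 2871830077) (nat_lit 76) (nat_lit 8233177755) (nat_lit 134) (nat_lit 5) (nat_lit 141) (nat_lit 5) (nat_lit 135) (nat_lit 5) (nat_lit 359) (nat_lit 300) (nat_lit 241)) (XT.nd (nat_lit 78) (nat_lit 380) (nat_lit 0) (XT.lf (nat_lit 0) (nat_lit 5480787649) (nat_lit 456) (nat_lit 4377713391) (nat_lit 76) (nat_lit 2346444450) (nat_lit 129) (nat_lit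 5) (nat_lit 135) (nat_lit 5) (nat_lit 130) (nat_lit 5) (nat_lit 360) (nat_lit 300) (nat_lit 240)) (XT.lf (nat_lit 0) (nat_lit 6439708539) (nat_lit 380) (nat_lit 3805914875) (nat_lit 456) (nat_lit 2179326999) (nat_lit 124) (nat_lit 5) (nat_lit 129) (nat_lit 5) (nat_lit 130) (nat_lit 5) (nat_lit 361) (nat_lit 300) (nat_lit 239))))) (XT.nd (nat_lit 156) (nat_lit 760) (nat_lit 0) (XT.nd (nat_lit 78) (nat_lit 380) (nat_lit 0) (XT.lf (nat_lit 0) (nat_lit 2493314921) (nat_lit 456) (nat_lit 7708291520) (nat_lit 76) (nat_lit 2449154889) (nat_lit 118) (nat_lit 5) (nat_lit 124) (nat_lit 5) (nat_lit 119) (nat_lit 5) (nat_lit 362) (nat_lit 300) (nat_lit 238)) (XT.lf (nat_lit 0) (nat_lit 3320756708) (nat_lit 380) (nat_lit 3990773145) (nat_lit 456) (nat_lit 5570844383) (nat_lit 113) (nat_lit 5) (nat_lit 118) (nat_lit 5) (nat_lit 119) (nat_lit 5) (nat_lit 363) (nat_lit 300) (nat_lit 237))) (XT.nd (nat_lit 78) (nat_lit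 456) (nat_lit 0) (XT.lf (nat_lit 0) (nat_lit 1591712780) (nat_lit 304) (nat_lit 10708971621) (nat_lit 380) (nat_lit 819738618) (nat_lit 109) (nat_lit 5) (nat_lit 113) (nat_lit 5) (nat_lit 114) (nat_lit 5) (nat_lit 364) (nat_lit 300) (nat_lit 236)) (XT.nd (nat_lit 78) (nat_lit 380) (nat_lit 0) (XT.lf (nat_lit 0) (nat_lit 4060892912) (nat_lit 380) (nat_lit 286261204) (nat_lit 76) (nat_lit 9017136301) (nat_lit 108) (nat_lit 5) (nat_lit 113) (nat_lit 5) (nat_lit 109) (nat_lit 5) (nat_lit 365) (nat_lit 300) (nat_lit 235)) (XT.lf (nat_lit 0) (nat_lit 9115313019) (nat_lit 456) (nat_lit 2269204005) (nat_lit 76) (nat_lit 2230092499) (nat_lit 103) (nat_lit 5) (nat_lit 109) (nat_lit 5) (nat_lit 104) (nat_lit 5) (nat_lit 366) (nat_lit 300) (nat_lit 234))))))))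
noncomputable def xc50 : XT := (XT.nd (nat_lit 41730) (nat_lit 0) (nat_lit 37392) (XT.nd (nat_lit 702) (nat_lit 1824) (nat_lit 0) (XT.nd (nat_lit 312) (nat_lit 1140) (nat_lit 0) (XT.nd (nat_lit 156) (nat_lit 684) (nat_lit 0) (XT.nd (nat_lit 78) (nat_lit 304) (nat_lit 0) (XT.lf (nat_lit 0) (nat_lit 486673547) (nat_lit 380) (nat_lit 4398225178) (nat_lit 76) (nat_lit 8986622011) (nat_lit 98) (nat_lit 5) (nat_lit 103) (nat_lit 5) (nat_lit 99) (nat_lit 5) (nat_lit 367) (nat_lit 300) (nat_lit 233)) (XT.lf (nat_lit 0) (nat_lit 5588944915) (nat_lit 380) (nat_lit 6692160059) (nat_lit 76) (nat_lit 1853895614) (nat_lit 94) (nat_lit 5) (nat_lit 99) (nat_lit 5) (nat_lit 95) (nat_lit 5) (nat_lit 368) (nat_lit 300) (nat_lit 232))) (XT.nd (nat_lit 78) (nat_lit 380) (nat_lit 0) (XT.lf (nat_lit 0) (nat_lit 5254430329) (nat_lit 304) (nat_lit 5638817972) (nat_lit 380) (nat_lit 3512169986) (nat_lit 90) (nat_lit 5) (nat_lit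 94) (nat_lit 5) (nat_lit 95) (nat_lit 5) (nat_lit 369) (nat_lit 300) (nat_lit 231)) (XT.lf (nat_lit 0) (nat_lit 1676305604) (nat_lit 380) (nat_lit 11770995124) (nat_lit 76) (nat_lit 1235932466) (nat_lit 85) (nat_lit 5) (nat_lit 90) (nat_lit 5) (nat_lit 86) (nat_lit 5) (nat_lit 370) (nat_lit 300) (nat_lit 230)))) (XT.nd (nat_lit 156) (nat_lit 912) (nat_lit 0) (XT.nd (nat_lit 78) (nat_lit 0) (nat_lit 0) (XT.lf (nat_lit 0) (nat_lit 363495138) (nat_lit 228) (nat_lit 6665479092) (nat_lit 304) (nat_lit 7938830664) (nat_lit 82) (nat_lit 5) (nat_lit 85) (nat_lit 5) (nat_lit 86) (nat_lit 5) (nat_lit 371) (nat_lit 300) (nat_lit 229)) (XT.lf (nat_lit 0) (nat_lit 12578788523) (nat_lit 304) (nat_lit 2312466878) (nat_lit 76) (nat_lit 368938452) (nat_lit 82) (nat_lit 5) (nat_lit 86) (nat_lit 5) (nat_lit 83) (nat_lit 5) (nat_lit 372) (nat_lit 300) (nat_lit 228))) (XT.nd (nat_lit 78) (nat_lit 532) (nat_lit 0) (XT.lf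 (nat_lit 0) (nat_lit 2765746817) (nat_lit 380) (nat_lit 5210219420) (nat_lit 76) (nat_lit 7583686978) (nat_lit 77) (nat_lit 5) (nat_lit 82) (nat_lit 5) (nat_lit 78) (nat_lit 5) (nat_lit 373) (nat_lit 300) (nat_lit 227)) (XT.nd (nat_lit 78) (nat_lit 304) (nat_lit 0) (XT.lf (nat_lit 0) (nat_lit 7565271668) (nat_lit 228) (nat_lit 795782083) (nat_lit 304) (nat_lit 7506275277) (nat_lit 74) (nat_lit 5) (nat_lit 77) (nat_lit 5) (nat_lit 78) (nat_lit 5) (nat_lit 374) (nat_lit 300) (nat_lit 226)) (XT.lf (nat_lit 0) (nat_lit 4557989483) (nat_lit 304) (nat_lit 9630936646) (nat_lit 380) (nat_lit 1994025109) (nat_lit 70) (nat_lit 5) (nat_lit 74) (nat_lit 5) (nat_lit 75) (nat_lit 5) (nat_lit 375) (nat_lit 300) (nat_lit 225)))))) (XT.nd (nat_lit 390) (nat_lit 760) (nat_lit 0) (XT.nd (nat_lit 156) (nat_lit 760) (nat_lit 0) (XT.nd (nat_lit 78) (nat_lit 0) (nat_lit 0) (XT.lf (nat_lit 0) (nat_lit 1328416543) (nat_lit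 228) (nat_lit 2334683191) (nat_lit 304) (nat_lit 12843917444) (nat_lit 66) (nat_lit 5) (nat_lit 69) (nat_lit 5) (nat_lit 70) (nat_lit 5) (nat_lit 376) (nat_lit 300) (nat_lit 224)) (XT.lf (nat_lit 0) (nat_lit 9533798506) (nat_lit 304) (nat_lit 2126695882) (nat_lit 76) (nat_lit 5178637542) (nat_lit 66) (nat_lit 5) (nat_lit 70) (nat_lit 5) (nat_lit 67) (nat_lit 5) (nat_lit 377) (nat_lit 300) (nat_lit 223))) (XT.nd (nat_lit 78) (nat_lit 532) (nat_lit 0) (XT.lf (nat_lit 0) (nat_lit 11382971608) (nat_lit 228) (nat_lit 4246258384) (nat_lit 304) (nat_lit 1551017092) (nat_lit 63) (nat_lit 5) (nat_lit 66) (nat_lit 5) (nat_lit 67) (nat_lit 5) (nat_lit 378) (nat_lit 300) (nat_lit 222)) (XT.nd (nat_lit 78) (nat_lit 228) (nat_lit 0) (XT.lf (nat_lit 0) (nat_lit 4365743260) (nat_lit 304) (nat_lit 9750365772) (nat_lit 76) (nat_lit 3413983070) (nat_lit 59) (nat_lit 5) (nat_lit 63) (nat_lit 5) (nat_lit 60) (nat_lit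 5) (nat_lit 379) (nat_lit 300) (nat_lit 221)) (XT.lf (nat_lit 0) (nat_lit 3899388844) (nat_lit 228) (nat_lit 6593082515) (nat_lit 304) (nat_lit 7396693819) (nat_lit 56) (nat_lit 5) (nat_lit 59) (nat_lit 5) (nat_lit 60) (nat_lit 5) (nat_lit 380) (nat_lit 300) (nat_lit 220))))) (XT.nd (nat_lit 156) (nat_lit 456) (nat_lit 0) (XT.nd (nat_lit 78) (nat_lit 304) (nat_lit 0) (XT.lf (nat_lit 0) (nat_lit 16837737477) (nat_lit 304) (nat_lit 239539058) (nat_lit 76) (nat_lit 1181047434) (nat_lit 56) (nat_lit 5) (nat_lit 60) (nat_lit 5) (nat_lit 57) (nat_lit 5) (nat_lit 381) (nat_lit 300) (nat_lit 219)) (XT.lf (nat_lit 0) (nat_lit 4770186789) (nat_lit 304) (nat_lit 4669389851) (nat_lit 76) (nat_lit 9196424295) (nat_lit 52) (nat_lit 5) (nat_lit 56) (nat_lit 5) (nat_lit 53) (nat_lit 5) (nat_lit 382) (nat_lit 300) (nat_lit 218))) (XT.nd (nat_lit 78) (nat_lit 228) (nat_lit 0) (XT.lf (nat_lit 0) (nat_lit 9630487494)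 (nat_lit 228) (nat_lit 1523480659) (nat_lit 304) (nat_lit 7870328175) (nat_lit 49) (nat_lit 5) (nat_lit 52) (nat_lit 5) (nat_lit 53) (nat_lit 5) (nat_lit 383) (nat_lit 300) (nat_lit 217)) (XT.nd (nat_lit 78) (nat_lit 76) (nat_lit 0) (XT.lf (nat_lit 0) (nat_lit 4958335178) (nat_lit 152) (nat_lit 12840857944) (nat_lit 228) (nat_lit 1623656259) (nat_lit 47) (nat_lit 5) (nat_lit 49) (nat_lit 5) (nat_lit 50) (nat_lit 5) (nat_lit 384) (nat_lit 300) (nat_lit 216)) (XT.lf (nat_lit 0) (nat_lit 4784861645) (nat_lit 228) (nat_lit 66878449) (nat_lit 76) (nat_lit 14980250620) (nat_lit 46) (nat_lit 5) (nat_lit 49) (nat_lit 5) (nat_lit 47) (nat_lit 5) (nat_lit 385) (nat_lit 300) (nat_lit 215))))))) (XT.nd (nat_lit 780) (nat_lit 7372) (nat_lit 0) (XT.nd (nat_lit 390) (nat_lit 1520) (nat_lit 0) (XT.nd (nat_lit 156) (nat_lit 684) (nat_lit 0) (XT.nd (nat_lit 78) (nat_lit 228) (nat_lit 0) (XT.lf (nat_lit 0) (nat_lit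 1261161236) (nat_lit 228) (nat_lit 981048609) (nat_lit 228) (nat_lit 981048609) (nat_lit 667) (nat_lit 3) (nat_lit 670) (nat_lit 3) (nat_lit 670) (nat_lit 5) (nat_lit 301) (nat_lit 301) (nat_lit 298)) (XT.lf (nat_lit 0) (nat_lit 435899697) (nat_lit 228) (nat_lit 3789434590) (nat_lit 304) (nat_lit 2227028161) (nat_lit 664) (nat_lit 5) (nat_lit 667) (nat_lit 3) (nat_lit 668) (nat_lit 5) (nat_lit 302) (nat_lit 301) (nat_lit 297))) (XT.nd (nat_lit 78) (nat_lit 684) (nat_lit 0) (XT.lf (nat_lit 76) (nat_lit 891239647) (nat_lit 0) (nat_lit 3831406493) (nat_lit 304) (nat_lit 1738392634) (nat_lit 665) (nat_lit 5) (nat_lit 664) (nat_lit 5) (nat_lit 668) (nat_lit 5) (nat_lit 303) (nat_lit 301) (nat_lit 296)) (XT.nd (nat_lit 78) (nat_lit 380) (nat_lit 0) (XT.lf (nat_lit 0) (nat_lit 2491704855) (nat_lit 304) (nat_lit 813230405) (nat_lit 380) (nat_lit 3167670035) (nat_lit 660) (nat_lit 5) (nat_lit 664) (nat_lit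 5) (nat_lit 665) (nat_lit 5) (nat_lit 304) (nat_lit 301) (nat_lit 295)) (XT.lf (nat_lit 0) (nat_lit 199344285) (nat_lit 380) (nat_lit 2448920596) (nat_lit 456) (nat_lit 3838862223) (nat_lit 655) (nat_lit 5) (nat_lit 660) (nat_lit 5) (nat_lit 661) (nat_lit 5) (nat_lit 305) (nat_lit 301) (nat_lit 294))))) (XT.nd (nat_lit 156) (nat_lit 1064) (nat_lit 0) (XT.nd (nat_lit 78) (nat_lit 456) (nat_lit 0) (XT.lf (nat_lit 76) (nat_lit 2461289752) (nat_lit 0) (nat_lit 1852134504) (nat_lit 456) (nat_lit 2191022299) (nat_lit 656) (nat_lit 5) (nat_lit 655) (nat_lit 5) (nat_lit 661) (nat_lit 5) (nat_lit 306) (nat_lit 301) (nat_lit 293)) (XT.lf (nat_lit 76) (nat_lit 939973102) (nat_lit 0) (nat_lit 928459556) (nat_lit 532) (nat_lit 4656393400) (nat_lit 650) (nat_lit 5) (nat_lit 649) (nat_lit 5) (nat_lit 656) (nat_lit 5) (nat_lit 307) (nat_lit 301) (nat_lit 292))) (XT.nd (nat_lit 78) (nat_lit 1140) (nat_lit 0) (XT.lf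 (nat_lit 0) (nat_lit 5895794283) (nat_lit 456) (nat_lit 523902559) (nat_lit 76) (nat_lit 128440647) (nat_lit 650) (nat_lit 5) (nat_lit 656) (nat_lit 5) (nat_lit 651) (nat_lit 5) (nat_lit 308) (nat_lit 301) (nat_lit 291)) (XT.nd (nat_lit 78) (nat_lit 608) (nat_lit 0) (XT.lf (nat_lit 0) (nat_lit 3314287259) (nat_lit 532) (nat_lit 1941507784) (nat_lit 76) (nat_lit 1318264386) (nat_lit 643) (nat_lit 5) (nat_lit 650) (nat_lit 5) (nat_lit 644) (nat_lit 5) (nat_lit 309) (nat_lit 301) (nat_lit 290)) (XT.lf (nat_lit 0) (nat_lit 659230342) (nat_lit 608) (nat_lit 3307979821) (nat_lit 76) (nat_lit 2635891658) (nat_lit 635) (nat_lit 5) (nat_lit 643) (nat_lit 5) (nat_lit 636) (nat_lit 5) (nat_lit 310) (nat_lit 301) (nat_lit 289)))))) (XT.nd (nat_lit 390) (nat_lit 4332) (nat_lit 0) (XT.nd (nat_lit 156) (nat_lit 1672) (nat_lit 0) (XT.nd (nat_lit 78) (nat_lit 760) (nat_lit 0) (XT.lf (nat_lit 0) (nat_lit 1996900449)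 (nat_lit 608) (nat_lit 2538755145) (nat_lit 684) (nat_lit 2099358740) (nat_lit 627) (nat_lit 5) (nat_lit 635) (nat_lit 5) (nat_lit 636) (nat_lit 5) (nat_lit 311) (nat_lit 301) (nat_lit 288)) (XT.lf (nat_lit 0) (nat_lit 745744028) (nat_lit 684) (nat_lit 977973225) (nat_lit 760) (nat_lit 4946279979) (nat_lit 617) (nat_lit 5) (nat_lit 626) (nat_lit 5) (nat_lit 627) (nat_lit 5) (nat_lit 312) (nat_lit 301) (nat_lit 287))) (XT.nd (nat_lit 78) (nat_lit 1672) (nat_lit 0) (XT.lf (nat_lit 0) (nat_lit 5532872727) (nat_lit 760) (nat_lit 461378013) (nat_lit 76) (nat_lit 713607208) (nat_lit 617) (nat_lit 5) (nat_lit 627) (nat_lit 5) (nat_lit 618) (nat_lit 5) (nat_lit 313) (nat_lit 301) (nat_lit 286)) (XT.nd (nat_lit 78) (nat_lit 836) (nat_lit 0) (XT.lf (nat_lit 0) (nat_lit 2581076117) (nat_lit 836) (nat_lit 1629127049) (nat_lit 76) (nat_lit 2538255275) (nat_lit 606) (nat_lit 5) (nat_lit 617) (nat_lit 5) (nat_lit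 607) (nat_lit 5) (nat_lit 314) (nat_lit 301) (nat_lit 285)) (XT.lf (nat_lit 0) (nat_lit 4038726993) (nat_lit 836) (nat_lit 2294894599) (nat_lit 912) (nat_lit 458600863) (nat_lit 595) (nat_lit 5) (nat_lit 606) (nat_lit 5) (nat_lit 607) (nat_lit 5) (nat_lit 315) (nat_lit 301) (nat_lit 284))))) (XT.nd (nat_lit 156) (nat_lit 2280) (nat_lit 0) (XT.nd (nat_lit 78) (nat_lit 1064) (nat_lit 0) (XT.lf (nat_lit 0) (nat_lit 2988887471) (nat_lit 912) (nat_lit 231567854) (nat_lit 988) (nat_lit 3618437149) (nat_lit 582) (nat_lit 5) (nat_lit 594) (nat_lit 5) (nat_lit 595) (nat_lit 5) (nat_lit 316) (nat_lit 301) (nat_lit 283)) (XT.lf (nat_lit 0) (nat_lit 34470635) (nat_lit 1064) (nat_lit 4915373805) (nat_lit 76) (nat_lit 1938744458) (nat_lit 568) (nat_lit 5) (nat_lit 582) (nat_lit 5) (nat_lit 569) (nat_lit 5) (nat_lit 317) (nat_lit 301) (nat_lit 282))) (XT.nd (nat_lit 78) (nat_lit 1216) (nat_lit 0) (XT.lf (nat_lit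 0) (nat_lit 979694347) (nat_lit 1064) (nat_lit 2680647906) (nat_lit 1140) (nat_lit 3280789442) (nat_lit 554) (nat_lit 5) (nat_lit 568) (nat_lit 5) (nat_lit 569) (nat_lit 5) (nat_lit 318) (nat_lit 301) (nat_lit 281)) (XT.nd (nat_lit 78) (nat_lit 0) (nat_lit 0) (XT.lf (nat_lit 0) (nat_lit 29893262) (nat_lit 1140) (nat_lit 278507511) (nat_lit 1216) (nat_lit 6688600517) (nat_lit 538) (nat_lit 5) (nat_lit 553) (nat_lit 5) (nat_lit 554) (nat_lit 5) (nat_lit 319) (nat_lit 301) (nat_lit 280)) (XT.lf (nat_lit 0) (nat_lit 3899122880) (nat_lit 1216) (nat_lit 900728346) (nat_lit 76) (nat_lit 2255571600) (nat_lit 538) (nat_lit 5) (nat_lit 554) (nat_lit 5) (nat_lit 539) (nat_lit 5) (nat_lit 320) (nat_lit 301) (nat_lit 279))))))))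
noncomputable def xc51 : XT := (XT.nd (nat_lit 1482) (nat_lit 10108) (nat_lit 0) (XT.nd (nat_lit 702) (nat_lit 8360) (nat_lit 0) (XT.nd (nat_lit 312) (nat_lit 6688) (nat_lit 0) (XT.nd (nat_lit 156) (nat_lit 2888) (nat_lit 0) (XT.nd (nat_lit 78) (nat_lit 1292) (nat_lit 0) (XT.lf (nat_lit 0) (nat_lit 398157300) (nat_lit 1292) (nat_lit 1794588026) (nat_lit 76) (nat_lit 4924413318) (nat_lit 521) (nat_lit 5) (nat_lit 538) (nat_lit 5) (nat_lit 522) (nat_lit 5) (nat_lit 321) (nat_lit 301) (nat_lit 278)) (XT.lf (nat_lit 0) (nat_lit 3944331686) (nat_lit 1368) (nat_lit 2673792137) (nat_lit 76) (nat_lit 563718374) (nat_lit 504) (nat_lit 5) (nat_lit 522) (nat_lit 5) (nat_lit 505) (nat_lit 5) (nat_lit 322) (nat_lit 301) (nat_lit 277))) (XT.nd (nat_lit 78) (nat_lit 1444) (nat_lit 0) (XT.lf (nat_lit 0) (nat_lit 285824703) (nat_lit 1444) (nat_lit 3532803561) (nat_lit 76) (nat_lit 3431022114) (nat_lit 485) (nat_lit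 5) (nat_lit 504) (nat_lit 5) (nat_lit 486) (nat_lit 5) (nat_lit 323) (nat_lit 301) (nat_lit 276)) (XT.lf (nat_lit 0) (nat_lit 2942113697) (nat_lit 1444) (nat_lit 859533453) (nat_lit 1520) (nat_lit 3518868956) (nat_lit 466) (nat_lit 5) (nat_lit 485) (nat_lit 5) (nat_lit 486) (nat_lit 5) (nat_lit 324) (nat_lit 301) (nat_lit 275)))) (XT.nd (nat_lit 156) (nat_lit 3496) (nat_lit 0) (XT.nd (nat_lit 78) (nat_lit 1672) (nat_lit 0) (XT.lf (nat_lit 0) (nat_lit 2188809557) (nat_lit 1520) (nat_lit 5182453957) (nat_lit 1596) (nat_lit 23342710) (nat_lit 446) (nat_lit 5) (nat_lit 466) (nat_lit 5) (nat_lit 467) (nat_lit 5) (nat_lit 325) (nat_lit 301) (nat_lit 274)) (XT.lf (nat_lit 0) (nat_lit 1440298812) (nat_lit 1596) (nat_lit 2032314675) (nat_lit 1672) (nat_lit 3999053194) (nat_lit 424) (nat_lit 5) (nat_lit 445) (nat_lit 5) (nat_lit 446) (nat_lit 5) (nat_lit 326) (nat_lit 301) (nat_lit 273))) (XT.nd (nat_lit 78)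 (nat_lit 1824) (nat_lit 0) (XT.lf (nat_lit 0) (nat_lit 715123366) (nat_lit 1672) (nat_lit 6306004959) (nat_lit 1748) (nat_lit 531007484) (nat_lit 402) (nat_lit 5) (nat_lit 424) (nat_lit 5) (nat_lit 425) (nat_lit 5) (nat_lit 327) (nat_lit 301) (nat_lit 272)) (XT.nd (nat_lit 78) (nat_lit 1748) (nat_lit 0) (XT.lf (nat_lit 0) (nat_lit 2957515573) (nat_lit 1748) (nat_lit 13797402) (nat_lit 76) (nat_lit 4664241738) (nat_lit 401) (nat_lit 5) (nat_lit 424) (nat_lit 5) (nat_lit 402) (nat_lit 5) (nat_lit 328) (nat_lit 301) (nat_lit 271)) (XT.lf (nat_lit 0) (nat_lit 6496877388) (nat_lit 1824) (nat_lit 713157339) (nat_lit 76) (nat_lit 512358650) (nat_lit 378) (nat_lit 5) (nat_lit 402) (nat_lit 5) (nat_lit 379) (nat_lit 5) (nat_lit 329) (nat_lit 301) (nat_lit 270)))))) (XT.nd (nat_lit 390) (nat_lit 3800) (nat_lit 0) (XT.nd (nat_lit 156) (nat_lit 2584) (nat_lit 0) (XT.nd (nat_lit 78) (nat_lit 912) (nat_lit 0) (XT.lf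 (nat_lit 0) (nat_lit 2267999700) (nat_lit 1064) (nat_lit 1422356088) (nat_lit 76) (nat_lit 4121871799) (nat_lit 364) (nat_lit 5) (nat_lit 378) (nat_lit 5) (nat_lit 365) (nat_lit 5) (nat_lit 330) (nat_lit 301) (nat_lit 269)) (XT.lf (nat_lit 0) (nat_lit 5788622789) (nat_lit 912) (nat_lit 11771917) (nat_lit 988) (nat_lit 2105236767) (nat_lit 352) (nat_lit 5) (nat_lit 364) (nat_lit 5) (nat_lit 365) (nat_lit 5) (nat_lit 331) (nat_lit 301) (nat_lit 268))) (XT.nd (nat_lit 78) (nat_lit 1672) (nat_lit 0) (XT.lf (nat_lit 0) (nat_lit 1396072114) (nat_lit 912) (nat_lit 2824865545) (nat_lit 76) (nat_lit 3781202037) (nat_lit 340) (nat_lit 5) (nat_lit 352) (nat_lit 5) (nat_lit 341) (nat_lit 5) (nat_lit 332) (nat_lit 301) (nat_lit 267)) (XT.nd (nat_lit 78) (nat_lit 836) (nat_lit 0) (XT.lf (nat_lit 0) (nat_lit 4573536519) (nat_lit 836) (nat_lit 356350808) (nat_lit 912) (nat_lit 3172303406) (nat_lit 329) (nat_lit 5)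 (nat_lit 340) (nat_lit 5) (nat_lit 341) (nat_lit 5) (nat_lit 333) (nat_lit 301) (nat_lit 266)) (XT.lf (nat_lit 0) (nat_lit 341747532) (nat_lit 836) (nat_lit 4242437178) (nat_lit 76) (nat_lit 3621415168) (nat_lit 318) (nat_lit 5) (nat_lit 329) (nat_lit 5) (nat_lit 319) (nat_lit 5) (nat_lit 334) (nat_lit 301) (nat_lit 265))))) (XT.nd (nat_lit 156) (nat_lit 2280) (nat_lit 0) (XT.nd (nat_lit 78) (nat_lit 760) (nat_lit 0) (XT.lf (nat_lit 0) (nat_lit 3346237073) (nat_lit 760) (nat_lit 535312231) (nat_lit 836) (nat_lit 4430917720) (nat_lit 308) (nat_lit 5) (nat_lit 318) (nat_lit 5) (nat_lit 319) (nat_lit 5) (nat_lit 335) (nat_lit 301) (nat_lit 264)) (XT.lf (nat_lit 0) (nat_lit 2720062792) (nat_lit 760) (nat_lit 4794548010) (nat_lit 836) (nat_lit 908230471) (nat_lit 298) (nat_lit 5) (nat_lit 308) (nat_lit 5) (nat_lit 309) (nat_lit 5) (nat_lit 336) (nat_lit 301) (nat_lit 263))) (XT.nd (nat_lit 78) (nat_lit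 1444) (nat_lit 0) (XT.lf (nat_lit 0) (nat_lit 2084790324) (nat_lit 760) (nat_lit 568793411) (nat_lit 836) (nat_lit 5883247725) (nat_lit 287) (nat_lit 5) (nat_lit 297) (nat_lit 5) (nat_lit 298) (nat_lit 5) (nat_lit 337) (nat_lit 301) (nat_lit 262)) (XT.nd (nat_lit 78) (nat_lit 760) (nat_lit 0) (XT.lf (nat_lit 0) (nat_lit 1428133080) (nat_lit 684) (nat_lit 4874471730) (nat_lit 760) (nat_lit 2351701826) (nat_lit 278) (nat_lit 5) (nat_lit 287) (nat_lit 5) (nat_lit 288) (nat_lit 5) (nat_lit 338) (nat_lit 301) (nat_lit 261)) (XT.lf (nat_lit 0) (nat_lit 766305541) (nat_lit 684) (nat_lit 476494415) (nat_lit 760) (nat_lit 7532898986) (nat_lit 268) (nat_lit 5) (nat_lit 277) (nat_lit 5) (nat_lit 278) (nat_lit 5) (nat_lit 339) (nat_lit 301) (nat_lit 260))))))) (XT.nd (nat_lit 780) (nat_lit 4408) (nat_lit 0) (XT.nd (nat_lit 390) (nat_lit 2964) (nat_lit 0) (XT.nd (nat_lit 156) (nat_lit 2052) (nat_lit 0) (XT.nd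 (nat_lit 78) (nat_lit 0) (nat_lit 0) (XT.lf (nat_lit 0) (nat_lit 66269714) (nat_lit 684) (nat_lit 4845872107) (nat_lit 760) (nat_lit 3988337404) (nat_lit 259) (nat_lit 5) (nat_lit 268) (nat_lit 5) (nat_lit 269) (nat_lit 5) (nat_lit 340) (nat_lit 301) (nat_lit 259)) (XT.lf (nat_lit 0) (nat_lit 8402117906) (nat_lit 684) (nat_lit 271296116) (nat_lit 760) (nat_lit 355987048) (nat_lit 259) (nat_lit 5) (nat_lit 268) (nat_lit 5) (nat_lit 269) (nat_lit 5) (nat_lit 341) (nat_lit 301) (nat_lit 258))) (XT.nd (nat_lit 78) (nat_lit 1292) (nat_lit 0) (XT.lf (nat_lit 0) (nat_lit 3347024228) (nat_lit 760) (nat_lit 1371978048) (nat_lit 76) (nat_lit 4442660367) (nat_lit 249) (nat_lit 5) (nat_lit 259) (nat_lit 5) (nat_lit 250) (nat_lit 5) (nat_lit 342) (nat_lit 301) (nat_lit 257)) (XT.nd (nat_lit 78) (nat_lit 684) (nat_lit 0) (XT.lf (nat_lit 0) (nat_lit 7136820736) (nat_lit 684) (nat_lit 2125626700) (nat_lit 76) (nat_lit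 35819428) (nat_lit 241) (nat_lit 5) (nat_lit 250) (nat_lit 5) (nat_lit 242) (nat_lit 5) (nat_lit 343) (nat_lit 301) (nat_lit 256)) (XT.lf (nat_lit 0) (nat_lit 1592705639) (nat_lit 684) (nat_lit 2928593448) (nat_lit 76) (nat_lit 4917245795) (nat_lit 232) (nat_lit 5) (nat_lit 241) (nat_lit 5) (nat_lit 233) (nat_lit 5) (nat_lit 344) (nat_lit 301) (nat_lit 255))))) (XT.nd (nat_lit 156) (nat_lit 1748) (nat_lit 0) (XT.nd (nat_lit 78) (nat_lit 608) (nat_lit 0) (XT.lf (nat_lit 0) (nat_lit 5415381761) (nat_lit 684) (nat_lit 3759399880) (nat_lit 76) (nat_lit 408288571) (nat_lit 224) (nat_lit 5) (nat_lit 233) (nat_lit 5) (nat_lit 225) (nat_lit 5) (nat_lit 345) (nat_lit 301) (nat_lit 254)) (XT.lf (nat_lit 0) (nat_lit 5097246245) (nat_lit 608) (nat_lit 4270259629) (nat_lit 684) (nat_lit 364159222) (nat_lit 216) (nat_lit 5) (nat_lit 224) (nat_lit 5) (nat_lit 225) (nat_lit 5) (nat_lit 346) (nat_lit 301) (nat_lit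 253))) (XT.nd (nat_lit 78) (nat_lit 1140) (nat_lit 0) (XT.lf (nat_lit 0) (nat_lit 3498555594) (nat_lit 608) (nat_lit 5555389683) (nat_lit 76) (nat_lit 830505180) (nat_lit 208) (nat_lit 5) (nat_lit 216) (nat_lit 5) (nat_lit 209) (nat_lit 5) (nat_lit 347) (nat_lit 301) (nat_lit 252)) (XT.nd (nat_lit 78) (nat_lit 608) (nat_lit 0) (XT.lf (nat_lit 0) (nat_lit 3512905200) (nat_lit 532) (nat_lit 3976039414) (nat_lit 608) (nat_lit 2552518757) (nat_lit 201) (nat_lit 5) (nat_lit 208) (nat_lit 5) (nat_lit 209) (nat_lit 5) (nat_lit 348) (nat_lit 301) (nat_lit 251)) (XT.lf (nat_lit 0) (nat_lit 1375866489) (nat_lit 608) (nat_lit 7544305777) (nat_lit 76) (nat_lit 1282892489) (nat_lit 193) (nat_lit 5) (nat_lit 201) (nat_lit 5) (nat_lit 194) (nat_lit 5) (nat_lit 349) (nat_lit 301) (nat_lit 250)))))) (XT.nd (nat_lit 390) (nat_lit 2280) (nat_lit 0) (XT.nd (nat_lit 156) (nat_lit 1140) (nat_lit 0) (XT.nd (nat_lit 78)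 (nat_lit 456) (nat_lit 0) (XT.lf (nat_lit 0) (nat_lit 1736294173) (nat_lit 532) (nat_lit 3669615882) (nat_lit 608) (nat_lit 4962921868) (nat_lit 186) (nat_lit 5) (nat_lit 193) (nat_lit 5) (nat_lit 194) (nat_lit 5) (nat_lit 350) (nat_lit 301) (nat_lit 249)) (XT.lf (nat_lit 0) (nat_lit 773831280) (nat_lit 456) (nat_lit 8787878354) (nat_lit 532) (nat_lit 977789544) (nat_lit 180) (nat_lit 5) (nat_lit 186) (nat_lit 5) (nat_lit 187) (nat_lit 5) (nat_lit 351) (nat_lit 301) (nat_lit 248))) (XT.nd (nat_lit 78) (nat_lit 1064) (nat_lit 0) (XT.lf (nat_lit 0) (nat_lit 3107253721) (nat_lit 532) (nat_lit 262986427) (nat_lit 76) (nat_lit 7344235932) (nat_lit 179) (nat_lit 5) (nat_lit 186) (nat_lit 5) (nat_lit 180) (nat_lit 5) (nat_lit 352) (nat_lit 301) (nat_lit 247)) (XT.nd (nat_lit 78) (nat_lit 532) (nat_lit 0) (XT.lf (nat_lit 0) (nat_lit 7318134837) (nat_lit 608) (nat_lit 1347320722) (nat_lit 76) (nat_lit 2228808381)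 (nat_lit 172) (nat_lit 5) (nat_lit 180) (nat_lit 5) (nat_lit 173) (nat_lit 5) (nat_lit 353) (nat_lit 301) (nat_lit 246)) (XT.lf (nat_lit 0) (nat_lit 589369184) (nat_lit 532) (nat_lit 2499016021) (nat_lit 76) (nat_lit 7990586204) (nat_lit 165) (nat_lit 5) (nat_lit 172) (nat_lit 5) (nat_lit 166) (nat_lit 5) (nat_lit 354) (nat_lit 301) (nat_lit 245))))) (XT.nd (nat_lit 156) (nat_lit 1368) (nat_lit 0) (XT.nd (nat_lit 78) (nat_lit 456) (nat_lit 0) (XT.lf (nat_lit 0) (nat_lit 4849007306) (nat_lit 532) (nat_lit 3737882046) (nat_lit 76) (nat_lit 2681523413) (nat_lit 159) (nat_lit 5) (nat_lit 166) (nat_lit 5) (nat_lit 160) (nat_lit 5) (nat_lit 355) (nat_lit 301) (nat_lit 244)) (XT.lf (nat_lit 0) (nat_lit 6414677796) (nat_lit 456) (nat_lit 2843783152) (nat_lit 532) (nat_lit 2204655925) (nat_lit 153) (nat_lit 5) (nat_lit 159) (nat_lit 5) (nat_lit 160) (nat_lit 5) (nat_lit 356) (nat_lit 301) (nat_lit 243))) (XT.nd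 (nat_lit 78) (nat_lit 836) (nat_lit 0) (XT.lf (nat_lit 0) (nat_lit 2131713820) (nat_lit 532) (nat_lit 6449308559) (nat_lit 76) (nat_lit 3081917386) (nat_lit 146) (nat_lit 5) (nat_lit 153) (nat_lit 5) (nat_lit 147) (nat_lit 5) (nat_lit 357) (nat_lit 301) (nat_lit 242)) (XT.nd (nat_lit 78) (nat_lit 456) (nat_lit 0) (XT.lf (nat_lit 0) (nat_lit 3922251884) (nat_lit 380) (nat_lit 2669485983) (nat_lit 456) (nat_lit 5276276220) (nat_lit 141) (nat_lit 5) (nat_lit 146) (nat_lit 5) (nat_lit 147) (nat_lit 5) (nat_lit 358) (nat_lit 301) (nat_lit 241)) (XT.lf (nat_lit 0) (nat_lit 2546324414) (nat_lit 456) (nat_lit 8667341788) (nat_lit 532) (nat_lit 865030342) (nat_lit 135) (nat_lit 5) (nat_lit 141) (nat_lit 5) (nat_lit 142) (nat_lit 5) (nat_lit 359) (nat_lit 301) (nat_lit 240))))))))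
noncomputable def xc52 : XT := (XT.nd (nat_lit 1482) (nat_lit 1292) (nat_lit 0) (XT.nd (nat_lit 702) (nat_lit 2660) (nat_lit 0) (XT.nd (nat_lit 312) (nat_lit 1520) (nat_lit 0) (XT.nd (nat_lit 156) (nat_lit 836) (nat_lit 0) (XT.nd (nat_lit 78) (nat_lit 0) (nat_lit 0) (XT.lf (nat_lit 0) (nat_lit 1060229838) (nat_lit 380) (nat_lit 2595103344) (nat_lit 456) (nat_lit 8639405232) (nat_lit 129) (nat_lit 5) (nat_lit 134) (nat_lit 5) (nat_lit 135) (nat_lit 5) (nat_lit 360) (nat_lit 301) (nat_lit 239)) (XT.lf (nat_lit 0) (nat_lit 8335398241) (nat_lit 456) (nat_lit 523379956) (nat_lit 76) (nat_lit 3657668737) (nat_lit 129) (nat_lit 5) (nat_lit 135) (nat_lit 5) (nat_lit 130) (nat_lit 5) (nat_lit 361) (nat_lit 301) (nat_lit 238))) (XT.nd (nat_lit 78) (nat_lit 380) (nat_lit 0) (XT.lf (nat_lit 0) (nat_lit 440296054) (nat_lit 456) (nat_lit 2193129238) (nat_lit 76) (nat_lit 10110651282) (nat_lit 123) (nat_lit 5) (nat_lit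 129) (nat_lit 5) (nat_lit 124) (nat_lit 5) (nat_lit 362) (nat_lit 301) (nat_lit 237)) (XT.lf (nat_lit 0) (nat_lit 5179977938) (nat_lit 456) (nat_lit 4002166312) (nat_lit 76) (nat_lit 3795123453) (nat_lit 118) (nat_lit 5) (nat_lit 124) (nat_lit 5) (nat_lit 119) (nat_lit 5) (nat_lit 363) (nat_lit 301) (nat_lit 236)))) (XT.nd (nat_lit 156) (nat_lit 760) (nat_lit 0) (XT.nd (nat_lit 78) (nat_lit 380) (nat_lit 0) (XT.lf (nat_lit 0) (nat_lit 7293874148) (nat_lit 380) (nat_lit 2797940771) (nat_lit 456) (nat_lit 3125055261) (nat_lit 113) (nat_lit 5) (nat_lit 118) (nat_lit 5) (nat_lit 119) (nat_lit 5) (nat_lit 364) (nat_lit 301) (nat_lit 235)) (XT.lf (nat_lit 0) (nat_lit 1703795279) (nat_lit 380) (nat_lit 7981253221) (nat_lit 76) (nat_lit 3777635733) (nat_lit 108) (nat_lit 5) (nat_lit 113) (nat_lit 5) (nat_lit 109) (nat_lit 5) (nat_lit 365) (nat_lit 301) (nat_lit 234))) (XT.nd (nat_lit 78) (nat_lit 380) (nat_lit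 0) (XT.lf (nat_lit 0) (nat_lit 3525993414) (nat_lit 380) (nat_lit 3142777147) (nat_lit 456) (nat_lit 7046028460) (nat_lit 103) (nat_lit 5) (nat_lit 108) (nat_lit 5) (nat_lit 109) (nat_lit 5) (nat_lit 366) (nat_lit 301) (nat_lit 233)) (XT.nd (nat_lit 78) (nat_lit 76) (nat_lit 0) (XT.lf (nat_lit 0) (nat_lit 1435469174) (nat_lit 304) (nat_lit 10386574569) (nat_lit 380) (nat_lit 2151659908) (nat_lit 99) (nat_lit 5) (nat_lit 103) (nat_lit 5) (nat_lit 104) (nat_lit 5) (nat_lit 367) (nat_lit 301) (nat_lit 232)) (XT.lf (nat_lit 0) (nat_lit 2894996296) (nat_lit 380) (nat_lit 804694654) (nat_lit 76) (nat_lit 10539454916) (nat_lit 98) (nat_lit 5) (nat_lit 103) (nat_lit 5) (nat_lit 99) (nat_lit 5) (nat_lit 368) (nat_lit 301) (nat_lit 231)))))) (XT.nd (nat_lit 390) (nat_lit 1140) (nat_lit 0) (XT.nd (nat_lit 156) (nat_lit 912) (nat_lit 0) (XT.nd (nat_lit 78) (nat_lit 304) (nat_lit 0) (XT.lf (nat_lit 0) (nat_lit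 8112963955) (nat_lit 380) (nat_lit 3188858214) (nat_lit 76) (nat_lit 3209474199) (nat_lit 94) (nat_lit 5) (nat_lit 99) (nat_lit 5) (nat_lit 95) (nat_lit 5) (nat_lit 369) (nat_lit 301) (nat_lit 230)) (XT.lf (nat_lit 0) (nat_lit 9056035805) (nat_lit 304) (nat_lit 4475388151) (nat_lit 380) (nat_lit 1259320360) (nat_lit 90) (nat_lit 5) (nat_lit 94) (nat_lit 5) (nat_lit 95) (nat_lit 5) (nat_lit 370) (nat_lit 301) (nat_lit 229))) (XT.nd (nat_lit 78) (nat_lit 532) (nat_lit 0) (XT.lf (nat_lit 0) (nat_lit 4018226661) (nat_lit 380) (nat_lit 8470672394) (nat_lit 76) (nat_lit 2588418871) (nat_lit 85) (nat_lit 5) (nat_lit 90) (nat_lit 5) (nat_lit 86) (nat_lit 5) (nat_lit 371) (nat_lit 301) (nat_lit 228)) (XT.nd (nat_lit 78) (nat_lit 304) (nat_lit 0) (XT.lf (nat_lit 0) (nat_lit 3968579649) (nat_lit 228) (nat_lit 5519484936) (nat_lit 304) (nat_lit 5883247290) (nat_lit 82) (nat_lit 5) (nat_lit 85) (nat_lit 5) (nat_lit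 86) (nat_lit 5) (nat_lit 372) (nat_lit 301) (nat_lit 227)) (XT.lf (nat_lit 0) (nat_lit 1158565529) (nat_lit 304) (nat_lit 13996332110) (nat_lit 380) (nat_lit 518580768) (nat_lit 78) (nat_lit 5) (nat_lit 82) (nat_lit 5) (nat_lit 83) (nat_lit 5) (nat_lit 373) (nat_lit 301) (nat_lit 226))))) (XT.nd (nat_lit 156) (nat_lit 836) (nat_lit 0) (XT.nd (nat_lit 78) (nat_lit 228) (nat_lit 0) (XT.lf (nat_lit 0) (nat_lit 5013398500) (nat_lit 380) (nat_lit 1869219266) (nat_lit 76) (nat_lit 9100011420) (nat_lit 77) (nat_lit 5) (nat_lit 82) (nat_lit 5) (nat_lit 78) (nat_lit 5) (nat_lit 374) (nat_lit 301) (nat_lit 225)) (XT.lf (nat_lit 0) (nat_lit 10739080657) (nat_lit 304) (nat_lit 5070794205) (nat_lit 76) (nat_lit 490425238) (nat_lit 74) (nat_lit 5) (nat_lit 78) (nat_lit 5) (nat_lit 75) (nat_lit 5) (nat_lit 375) (nat_lit 301) (nat_lit 224))) (XT.nd (nat_lit 78) (nat_lit 456) (nat_lit 0) (XT.lf (nat_lit 0) (nat_lit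 80033614) (nat_lit 380) (nat_lit 8513269609) (nat_lit 76) (nat_lit 8032783817) (nat_lit 69) (nat_lit 5) (nat_lit 74) (nat_lit 5) (nat_lit 70) (nat_lit 5) (nat_lit 376) (nat_lit 301) (nat_lit 223)) (XT.nd (nat_lit 78) (nat_lit 228) (nat_lit 0) (XT.lf (nat_lit 0) (nat_lit 4759449908) (nat_lit 228) (nat_lit 1081136263) (nat_lit 304) (nat_lit 11119823074) (nat_lit 66) (nat_lit 5) (nat_lit 69) (nat_lit 5) (nat_lit 70) (nat_lit 5) (nat_lit 377) (nat_lit 301) (nat_lit 222)) (XT.lf (nat_lit 0) (nat_lit 1149241485) (nat_lit 228) (nat_lit 10693748199) (nat_lit 304) (nat_lit 5460399671) (nat_lit 63) (nat_lit 5) (nat_lit 66) (nat_lit 5) (nat_lit 67) (nat_lit 5) (nat_lit 378) (nat_lit 301) (nat_lit 221))))))) (XT.nd (nat_lit 41106) (nat_lit 0) (nat_lit 42560) (XT.nd (nat_lit 390) (nat_lit 456) (nat_lit 0) (XT.nd (nat_lit 156) (nat_lit 532) (nat_lit 0) (XT.nd (nat_lit 78) (nat_lit 228) (nat_lit 0) (XT.lf (nat_lit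 0) (nat_lit 415180632) (nat_lit 304) (nat_lit 2663193590) (nat_lit 76) (nat_lit 14577221029) (nat_lit 62) (nat_lit 5) (nat_lit 66) (nat_lit 5) (nat_lit 63) (nat_lit 5) (nat_lit 379) (nat_lit 301) (nat_lit 220)) (XT.lf (nat_lit 0) (nat_lit 6459912804) (nat_lit 304) (nat_lit 6767604889) (nat_lit 76) (nat_lit 4788794615) (nat_lit 59) (nat_lit 5) (nat_lit 63) (nat_lit 5) (nat_lit 60) (nat_lit 5) (nat_lit 380) (nat_lit 301) (nat_lit 219))) (XT.nd (nat_lit 78) (nat_lit 304) (nat_lit 0) (XT.lf (nat_lit 0) (nat_lit 7238504971) (nat_lit 228) (nat_lit 5495677506) (nat_lit 304) (nat_lit 5652712496) (nat_lit 56) (nat_lit 5) (nat_lit 59) (nat_lit 5) (nat_lit 60) (nat_lit 5) (nat_lit 381) (nat_lit 301) (nat_lit 218)) (XT.nd (nat_lit 78) (nat_lit 0) (nat_lit 0) (XT.lf (nat_lit 0) (nat_lit 467075528) (nat_lit 304) (nat_lit 15820893830) (nat_lit 76) (nat_lit 2479685698) (nat_lit 52) (nat_lit 5) (nat_lit 56) (nat_lit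 5) (nat_lit 53) (nat_lit 5) (nat_lit 382) (nat_lit 301) (nat_lit 217)) (XT.lf (nat_lit 0) (nat_lit 6770305377) (nat_lit 304) (nat_lit 1677718574) (nat_lit 76) (nat_lit 10709541173) (nat_lit 52) (nat_lit 5) (nat_lit 56) (nat_lit 5) (nat_lit 53) (nat_lit 5) (nat_lit 383) (nat_lit 301) (nat_lit 216))))) (XT.nd (nat_lit 40482) (nat_lit 0) (nat_lit 46588) (XT.nd (nat_lit 78) (nat_lit 228) (nat_lit 0) (XT.lf (nat_lit 0) (nat_lit 13000346120) (nat_lit 228) (nat_lit 311169837) (nat_lit 304) (nat_lit 6246686047) (nat_lit 49) (nat_lit 5) (nat_lit 52) (nat_lit 5) (nat_lit 53) (nat_lit 5) (nat_lit 384) (nat_lit 301) (nat_lit 215)) (XT.lf (nat_lit 0) (nat_lit 159447361) (nat_lit 228) (nat_lit 11804042301) (nat_lit 76) (nat_lit 8005717687) (nat_lit 46) (nat_lit 5) (nat_lit 49) (nat_lit 5) (nat_lit 47) (nat_lit 5) (nat_lit 385) (nat_lit 301) (nat_lit 214))) (XT.nd (nat_lit 78) (nat_lit 380) (nat_lit 0) (XT.lf (nat_lit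 0) (nat_lit 1164175946) (nat_lit 0) (nat_lit 1164175946) (nat_lit 228) (nat_lit 901414339) (nat_lit 664) (nat_lit 5) (nat_lit 664) (nat_lit 3) (nat_lit 667) (nat_lit 3) (nat_lit 302) (nat_lit 302) (nat_lit 296)) (XT.nd (nat_lit 78) (nat_lit 0) (nat_lit 0) (XT.lf (nat_lit 76) (nat_lit 488783500) (nat_lit 0) (nat_lit 1866381505) (nat_lit 380) (nat_lit 4114548469) (nat_lit 660) (nat_lit 5) (nat_lit 659) (nat_lit 3) (nat_lit 664) (nat_lit 5) (nat_lit 303) (nat_lit 302) (nat_lit 295)) (XT.lf (nat_lit 76) (nat_lit 5207747084) (nat_lit 0) (nat_lit 1270897805) (nat_lit 380) (nat_lit 4157424) (nat_lit 660) (nat_lit 5) (nat_lit 659) (nat_lit 3) (nat_lit 664) (nat_lit 5) (nat_lit 304) (nat_lit 302) (nat_lit 294)))))) (XT.nd (nat_lit 390) (nat_lit 2128) (nat_lit 0) (XT.nd (nat_lit 156) (nat_lit 1140) (nat_lit 0) (XT.nd (nat_lit 78) (nat_lit 380) (nat_lit 0) (XT.lf (nat_lit 76) (nat_lit 3506785351) (nat_lit 0)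 (nat_lit 530798310) (nat_lit 456) (nat_lit 2461019262) (nat_lit 655) (nat_lit 5) (nat_lit 654) (nat_lit 5) (nat_lit 660) (nat_lit 5) (nat_lit 305) (nat_lit 302) (nat_lit 293)) (XT.lf (nat_lit 0) (nat_lit 1530197380) (nat_lit 456) (nat_lit 4656029052) (nat_lit 532) (nat_lit 331230300) (nat_lit 649) (nat_lit 5) (nat_lit 655) (nat_lit 5) (nat_lit 656) (nat_lit 5) (nat_lit 306) (nat_lit 302) (nat_lit 292))) (XT.nd (nat_lit 78) (nat_lit 1140) (nat_lit 0) (XT.lf (nat_lit 76) (nat_lit 261193512) (nat_lit 0) (nat_lit 5220511039) (nat_lit 532) (nat_lit 1057494472) (nat_lit 650) (nat_lit 5) (nat_lit 649) (nat_lit 5) (nat_lit 656) (nat_lit 5) (nat_lit 307) (nat_lit 302) (nat_lit 291)) (XT.nd (nat_lit 78) (nat_lit 608) (nat_lit 0) (XT.lf (nat_lit 0) (nat_lit 2833617810) (nat_lit 532) (nat_lit 1278456951) (nat_lit 608) (nat_lit 2451598961) (nat_lit 642) (nat_lit 5) (nat_lit 649) (nat_lit 5) (nat_lit 650) (nat_lit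 5) (nat_lit 308) (nat_lit 302) (nat_lit 290)) (XT.lf (nat_lit 0) (nat_lit 114514784) (nat_lit 608) (nat_lit 2762770203) (nat_lit 684) (nat_lit 3713957148) (nat_lit 634) (nat_lit 5) (nat_lit 642) (nat_lit 5) (nat_lit 643) (nat_lit 5) (nat_lit 309) (nat_lit 302) (nat_lit 289))))) (XT.nd (nat_lit 156) (nat_lit 1520) (nat_lit 0) (XT.nd (nat_lit 78) (nat_lit 608) (nat_lit 0) (XT.lf (nat_lit 76) (nat_lit 2407608969) (nat_lit 0) (nat_lit 1498657241) (nat_lit 684) (nat_lit 2715340461) (nat_lit 635) (nat_lit 5) (nat_lit 634) (nat_lit 5) (nat_lit 643) (nat_lit 5) (nat_lit 310) (nat_lit 302) (nat_lit 288)) (XT.lf (nat_lit 0) (nat_lit 1029776572) (nat_lit 684) (nat_lit 5616978570) (nat_lit 76) (nat_lit 8361936) (nat_lit 626) (nat_lit 5) (nat_lit 635) (nat_lit 5) (nat_lit 627) (nat_lit 5) (nat_lit 311) (nat_lit 302) (nat_lit 287))) (XT.nd (nat_lit 78) (nat_lit 1520) (nat_lit 0) (XT.lf (nat_lit 0) (nat_lit 4753626737)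 (nat_lit 684) (nat_lit 299852679) (nat_lit 76) (nat_lit 1637833057) (nat_lit 626) (nat_lit 5) (nat_lit 635) (nat_lit 5) (nat_lit 627) (nat_lit 5) (nat_lit 312) (nat_lit 302) (nat_lit 286)) (XT.nd (nat_lit 78) (nat_lit 760) (nat_lit 0) (XT.lf (nat_lit 0) (nat_lit 1737188385) (nat_lit 760) (nat_lit 1583019946) (nat_lit 76) (nat_lit 3410222996) (nat_lit 616) (nat_lit 5) (nat_lit 626) (nat_lit 5) (nat_lit 617) (nat_lit 5) (nat_lit 313) (nat_lit 302) (nat_lit 285)) (XT.lf (nat_lit 0) (nat_lit 3944464410) (nat_lit 760) (nat_lit 1449914978) (nat_lit 836) (nat_lit 1378216427) (nat_lit 606) (nat_lit 5) (nat_lit 616) (nat_lit 5) (nat_lit 617) (nat_lit 5) (nat_lit 314) (nat_lit 302) (nat_lit 284))))))))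
noncomputable def xc53 : XT := (XT.nd (nat_lit 1482) (nat_lit 11932) (nat_lit 0) (XT.nd (nat_lit 702) (nat_lit 11856) (nat_lit 0) (XT.nd (nat_lit 312) (nat_lit 6308) (nat_lit 0) (XT.nd (nat_lit 156) (nat_lit 1064) (nat_lit 0) (XT.nd (nat_lit 78) (nat_lit 912) (nat_lit 0) (XT.lf (nat_lit 0) (nat_lit 2219875954) (nat_lit 912) (nat_lit 4042853877) (nat_lit 76) (nat_lit 554974919) (nat_lit 594) (nat_lit 5) (nat_lit 606) (nat_lit 5) (nat_lit 595) (nat_lit 5) (nat_lit 315) (nat_lit 302) (nat_lit 283)) (XT.lf (nat_lit 0) (nat_lit 1635639091) (nat_lit 912) (nat_lit 4187551394) (nat_lit 988) (nat_lit 1042563045) (nat_lit 582) (nat_lit 5) (nat_lit 594) (nat_lit 5) (nat_lit 595) (nat_lit 5) (nat_lit 316) (nat_lit 302) (nat_lit 282))) (XT.nd (nat_lit 78) (nat_lit 0) (nat_lit 0) (XT.lf (nat_lit 0) (nat_lit 526951293) (nat_lit 988) (nat_lit 1967503762) (nat_lit 1064) (nat_lit 4422344209) (nat_lit 568) (nat_lit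 5) (nat_lit 581) (nat_lit 5) (nat_lit 582) (nat_lit 5) (nat_lit 317) (nat_lit 302) (nat_lit 281)) (XT.lf (nat_lit 0) (nat_lit 6042884418) (nat_lit 1064) (nat_lit 538764571) (nat_lit 76) (nat_lit 389282368) (nat_lit 568) (nat_lit 5) (nat_lit 582) (nat_lit 5) (nat_lit 569) (nat_lit 5) (nat_lit 318) (nat_lit 302) (nat_lit 280)))) (XT.nd (nat_lit 156) (nat_lit 4028) (nat_lit 0) (XT.nd (nat_lit 78) (nat_lit 1140) (nat_lit 0) (XT.lf (nat_lit 0) (nat_lit 2569219767) (nat_lit 1140) (nat_lit 1585238139) (nat_lit 76) (nat_lit 2873297374) (nat_lit 553) (nat_lit 5) (nat_lit 568) (nat_lit 5) (nat_lit 554) (nat_lit 5) (nat_lit 319) (nat_lit 302) (nat_lit 279)) (XT.lf (nat_lit 0) (nat_lit 4490348098) (nat_lit 1140) (nat_lit 1588408529) (nat_lit 1216) (nat_lit 1009081275) (nat_lit 538) (nat_lit 5) (nat_lit 553) (nat_lit 5) (nat_lit 554) (nat_lit 5) (nat_lit 320) (nat_lit 302) (nat_lit 278))) (XT.nd (nat_lit 78) (nat_lit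 2736) (nat_lit 0) (XT.lf (nat_lit 0) (nat_lit 2440775423) (nat_lit 1292) (nat_lit 3594655654) (nat_lit 76) (nat_lit 1115428187) (nat_lit 521) (nat_lit 5) (nat_lit 538) (nat_lit 5) (nat_lit 522) (nat_lit 5) (nat_lit 321) (nat_lit 302) (nat_lit 277)) (XT.nd (nat_lit 78) (nat_lit 1444) (nat_lit 0) (XT.lf (nat_lit 0) (nat_lit 2644001806) (nat_lit 1292) (nat_lit 3273821299) (nat_lit 1368) (nat_lit 1299136792) (nat_lit 504) (nat_lit 5) (nat_lit 521) (nat_lit 5) (nat_lit 522) (nat_lit 5) (nat_lit 322) (nat_lit 302) (nat_lit 276)) (XT.lf (nat_lit 0) (nat_lit 1755061518) (nat_lit 1368) (nat_lit 359596207) (nat_lit 1444) (nat_lit 5171573899) (nat_lit 485) (nat_lit 5) (nat_lit 503) (nat_lit 5) (nat_lit 504) (nat_lit 5) (nat_lit 323) (nat_lit 302) (nat_lit 275)))))) (XT.nd (nat_lit 390) (nat_lit 5472) (nat_lit 0) (XT.nd (nat_lit 156) (nat_lit 3344) (nat_lit 0) (XT.nd (nat_lit 78) (nat_lit 1596) (nat_lit 0) (XT.lf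 (nat_lit 0) (nat_lit 875273249) (nat_lit 1444) (nat_lit 4688365280) (nat_lit 1520) (nat_lit 1794827580) (nat_lit 466) (nat_lit 5) (nat_lit 485) (nat_lit 5) (nat_lit 486) (nat_lit 5) (nat_lit 324) (nat_lit 302) (nat_lit 274)) (XT.lf (nat_lit 0) (nat_lit 15432130) (nat_lit 1520) (nat_lit 1583960877) (nat_lit 1596) (nat_lit 5834552777) (nat_lit 445) (nat_lit 5) (nat_lit 465) (nat_lit 5) (nat_lit 466) (nat_lit 5) (nat_lit 325) (nat_lit 302) (nat_lit 273))) (XT.nd (nat_lit 78) (nat_lit 3344) (nat_lit 0) (XT.lf (nat_lit 0) (nat_lit 5026391556) (nat_lit 1596) (nat_lit 825207289) (nat_lit 76) (nat_lit 1660806895) (nat_lit 445) (nat_lit 5) (nat_lit 466) (nat_lit 5) (nat_lit 446) (nat_lit 5) (nat_lit 326) (nat_lit 302) (nat_lit 272)) (XT.nd (nat_lit 78) (nat_lit 1672) (nat_lit 0) (XT.lf (nat_lit 0) (nat_lit 902576592) (nat_lit 1672) (nat_lit 1653649810) (nat_lit 76) (nat_lit 5037880534) (nat_lit 423) (nat_lit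 5) (nat_lit 445) (nat_lit 5) (nat_lit 424) (nat_lit 5) (nat_lit 327) (nat_lit 302) (nat_lit 271)) (XT.lf (nat_lit 0) (nat_lit 4309520621) (nat_lit 1748) (nat_lit 2477780943) (nat_lit 76) (nat_lit 891674879) (nat_lit 401) (nat_lit 5) (nat_lit 424) (nat_lit 5) (nat_lit 402) (nat_lit 5) (nat_lit 328) (nat_lit 302) (nat_lit 270))))) (XT.nd (nat_lit 156) (nat_lit 2660) (nat_lit 0) (XT.nd (nat_lit 78) (nat_lit 988) (nat_lit 0) (XT.lf (nat_lit 0) (nat_lit 15957795) (nat_lit 1824) (nat_lit 3294860564) (nat_lit 76) (nat_lit 4456332313) (nat_lit 377) (nat_lit 5) (nat_lit 401) (nat_lit 5) (nat_lit 378) (nat_lit 5) (nat_lit 329) (nat_lit 302) (nat_lit 269)) (XT.lf (nat_lit 0) (nat_lit 3409576055) (nat_lit 1064) (nat_lit 4114228572) (nat_lit 76) (nat_lit 334722801) (nat_lit 364) (nat_lit 5) (nat_lit 378) (nat_lit 5) (nat_lit 365) (nat_lit 5) (nat_lit 330) (nat_lit 302) (nat_lit 268))) (XT.nd (nat_lit 78) (nat_lit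 1748) (nat_lit 0) (XT.lf (nat_lit 0) (nat_lit 3017282869) (nat_lit 912) (nat_lit 3862781062) (nat_lit 988) (nat_lit 1073129986) (nat_lit 352) (nat_lit 5) (nat_lit 364) (nat_lit 5) (nat_lit 365) (nat_lit 5) (nat_lit 331) (nat_lit 302) (nat_lit 267)) (XT.nd (nat_lit 78) (nat_lit 836) (nat_lit 0) (XT.lf (nat_lit 0) (nat_lit 2295903190) (nat_lit 836) (nat_lit 31772847) (nat_lit 912) (nat_lit 5723654693) (nat_lit 340) (nat_lit 5) (nat_lit 351) (nat_lit 5) (nat_lit 352) (nat_lit 5) (nat_lit 332) (nat_lit 302) (nat_lit 266)) (XT.lf (nat_lit 0) (nat_lit 1560476354) (nat_lit 836) (nat_lit 4239011502) (nat_lit 912) (nat_lit 2353156582) (nat_lit 329) (nat_lit 5) (nat_lit 340) (nat_lit 5) (nat_lit 341) (nat_lit 5) (nat_lit 333) (nat_lit 302) (nat_lit 265))))))) (XT.nd (nat_lit 780) (nat_lit 5244) (nat_lit 0) (XT.nd (nat_lit 390) (nat_lit 3496) (nat_lit 0) (XT.nd (nat_lit 156) (nat_lit 1596) (nat_lit 0) (XT.nd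 (nat_lit 78) (nat_lit 760) (nat_lit 0) (XT.lf (nat_lit 0) (nat_lit 834215573) (nat_lit 760) (nat_lit 230062361) (nat_lit 836) (nat_lit 7193408258) (nat_lit 318) (nat_lit 5) (nat_lit 328) (nat_lit 5) (nat_lit 329) (nat_lit 5) (nat_lit 334) (nat_lit 302) (nat_lit 264)) (XT.lf (nat_lit 0) (nat_lit 80684175) (nat_lit 760) (nat_lit 4460049289) (nat_lit 836) (nat_lit 3825107686) (nat_lit 308) (nat_lit 5) (nat_lit 318) (nat_lit 5) (nat_lit 319) (nat_lit 5) (nat_lit 335) (nat_lit 302) (nat_lit 263))) (XT.nd (nat_lit 78) (nat_lit 1596) (nat_lit 0) (XT.lf (nat_lit 0) (nat_lit 7823775272) (nat_lit 760) (nat_lit 268862841) (nat_lit 836) (nat_lit 385220702) (nat_lit 308) (nat_lit 5) (nat_lit 318) (nat_lit 5) (nat_lit 319) (nat_lit 5) (nat_lit 336) (nat_lit 302) (nat_lit 262)) (XT.nd (nat_lit 78) (nat_lit 760) (nat_lit 0) (XT.lf (nat_lit 0) (nat_lit 3110965647) (nat_lit 836) (nat_lit 1425235059) (nat_lit 76) (nat_lit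 4056775055) (nat_lit 297) (nat_lit 5) (nat_lit 308) (nat_lit 5) (nat_lit 298) (nat_lit 5) (nat_lit 337) (nat_lit 302) (nat_lit 261)) (XT.lf (nat_lit 0) (nat_lit 6517811926) (nat_lit 760) (nat_lit 160429227) (nat_lit 836) (nat_lit 2033863436) (nat_lit 287) (nat_lit 5) (nat_lit 297) (nat_lit 5) (nat_lit 298) (nat_lit 5) (nat_lit 338) (nat_lit 302) (nat_lit 260))))) (XT.nd (nat_lit 156) (nat_lit 2052) (nat_lit 0) (XT.nd (nat_lit 78) (nat_lit 684) (nat_lit 0) (XT.lf (nat_lit 0) (nat_lit 1498178110) (nat_lit 760) (nat_lit 2997340637) (nat_lit 76) (nat_lit 4339120548) (nat_lit 277) (nat_lit 5) (nat_lit 287) (nat_lit 5) (nat_lit 278) (nat_lit 5) (nat_lit 339) (nat_lit 302) (nat_lit 259)) (XT.lf (nat_lit 0) (nat_lit 5084192332) (nat_lit 760) (nat_lit 3814207980) (nat_lit 76) (nat_lit 62703136) (nat_lit 268) (nat_lit 5) (nat_lit 278) (nat_lit 5) (nat_lit 269) (nat_lit 5) (nat_lit 340) (nat_lit 302) (nat_lit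 258))) (XT.nd (nat_lit 78) (nat_lit 1368) (nat_lit 0) (XT.lf (nat_lit 0) (nat_lit 4428630011) (nat_lit 684) (nat_lit 4355589314) (nat_lit 760) (nat_lit 307047686) (nat_lit 259) (nat_lit 5) (nat_lit 268) (nat_lit 5) (nat_lit 269) (nat_lit 5) (nat_lit 341) (nat_lit 302) (nat_lit 257)) (XT.nd (nat_lit 78) (nat_lit 608) (nat_lit 0) (XT.lf (nat_lit 0) (nat_lit 3306416521) (nat_lit 760) (nat_lit 5539793665) (nat_lit 76) (nat_lit 379106151) (nat_lit 249) (nat_lit 5) (nat_lit 259) (nat_lit 5) (nat_lit 250) (nat_lit 5) (nat_lit 342) (nat_lit 302) (nat_lit 256)) (XT.lf (nat_lit 0) (nat_lit 2907558275) (nat_lit 608) (nat_lit 4126101445) (nat_lit 684) (nat_lit 2329527440) (nat_lit 241) (nat_lit 5) (nat_lit 249) (nat_lit 5) (nat_lit 250) (nat_lit 5) (nat_lit 343) (nat_lit 302) (nat_lit 255)))))) (XT.nd (nat_lit 390) (nat_lit 2736) (nat_lit 0) (XT.nd (nat_lit 156) (nat_lit 1216) (nat_lit 0) (XT.nd (nat_lit 78)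 (nat_lit 608) (nat_lit 0) (XT.lf (nat_lit 0) (nat_lit 1336922294) (nat_lit 684) (nat_lit 7396123318) (nat_lit 76) (nat_lit 772254312) (nat_lit 232) (nat_lit 5) (nat_lit 241) (nat_lit 5) (nat_lit 233) (nat_lit 5) (nat_lit 344) (nat_lit 302) (nat_lit 254)) (XT.lf (nat_lit 0) (nat_lit 1257636180) (nat_lit 608) (nat_lit 3836174217) (nat_lit 684) (nat_lit 4557344976) (nat_lit 224) (nat_lit 5) (nat_lit 232) (nat_lit 5) (nat_lit 233) (nat_lit 5) (nat_lit 345) (nat_lit 302) (nat_lit 253))) (XT.nd (nat_lit 78) (nat_lit 608) (nat_lit 0) (XT.lf (nat_lit 0) (nat_lit 384961004) (nat_lit 608) (nat_lit 8572691371) (nat_lit 684) (nat_lit 843877467) (nat_lit 216) (nat_lit 5) (nat_lit 224) (nat_lit 5) (nat_lit 225) (nat_lit 5) (nat_lit 346) (nat_lit 302) (nat_lit 252)) (XT.nd (nat_lit 78) (nat_lit 532) (nat_lit 0) (XT.lf (nat_lit 0) (nat_lit 2959207186) (nat_lit 684) (nat_lit 542294532) (nat_lit 76) (nat_lit 6454207482)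 (nat_lit 215) (nat_lit 5) (nat_lit 224) (nat_lit 5) (nat_lit 216) (nat_lit 5) (nat_lit 347) (nat_lit 302) (nat_lit 251)) (XT.lf (nat_lit 0) (nat_lit 6868770365) (nat_lit 608) (nat_lit 1501268243) (nat_lit 76) (nat_lit 1744312904) (nat_lit 208) (nat_lit 5) (nat_lit 216) (nat_lit 5) (nat_lit 209) (nat_lit 5) (nat_lit 348) (nat_lit 302) (nat_lit 250))))) (XT.nd (nat_lit 156) (nat_lit 1596) (nat_lit 0) (XT.nd (nat_lit 78) (nat_lit 532) (nat_lit 0) (XT.lf (nat_lit 0) (nat_lit 624944419) (nat_lit 608) (nat_lit 2510989554) (nat_lit 76) (nat_lit 7141460169) (nat_lit 200) (nat_lit 5) (nat_lit 208) (nat_lit 5) (nat_lit 201) (nat_lit 5) (nat_lit 349) (nat_lit 302) (nat_lit 249)) (XT.lf (nat_lit 0) (nat_lit 4576064958) (nat_lit 608) (nat_lit 3584416775) (nat_lit 76) (nat_lit 2284269942) (nat_lit 193) (nat_lit 5) (nat_lit 201) (nat_lit 5) (nat_lit 194) (nat_lit 5) (nat_lit 350) (nat_lit 302) (nat_lit 248))) (XT.nd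 (nat_lit 78) (nat_lit 1064) (nat_lit 0) (XT.lf (nat_lit 0) (nat_lit 5906684758) (nat_lit 532) (nat_lit 2755056368) (nat_lit 608) (nat_lit 1955091830) (nat_lit 186) (nat_lit 5) (nat_lit 193) (nat_lit 5) (nat_lit 194) (nat_lit 5) (nat_lit 351) (nat_lit 302) (nat_lit 247)) (XT.nd (nat_lit 78) (nat_lit 532) (nat_lit 0) (XT.lf (nat_lit 0) (nat_lit 2064008314) (nat_lit 532) (nat_lit 5903344111) (nat_lit 76) (nat_lit 2826170552) (nat_lit 179) (nat_lit 5) (nat_lit 186) (nat_lit 5) (nat_lit 180) (nat_lit 5) (nat_lit 352) (nat_lit 302) (nat_lit 246)) (XT.lf (nat_lit 0) (nat_lit 3806970472) (nat_lit 532) (nat_lit 2387075463) (nat_lit 608) (nat_lit 4780892454) (nat_lit 172) (nat_lit 5) (nat_lit 179) (nat_lit 5) (nat_lit 180) (nat_lit 5) (nat_lit 353) (nat_lit 302) (nat_lit 245))))))))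
noncomputable def xc54 : XT := (XT.nd (nat_lit 1482) (nat_lit 2736) (nat_lit 0) (XT.nd (nat_lit 702) (nat_lit 2964) (nat_lit 0) (XT.nd (nat_lit 312) (nat_lit 2128) (nat_lit 0) (XT.nd (nat_lit 156) (nat_lit 532) (nat_lit 0) (XT.nd (nat_lit 78) (nat_lit 532) (nat_lit 0) (XT.lf (nat_lit 0) (nat_lit 2662127619) (nat_lit 456) (nat_lit 7807795073) (nat_lit 532) (nat_lit 691455864) (nat_lit 166) (nat_lit 5) (nat_lit 172) (nat_lit 5) (nat_lit 173) (nat_lit 5) (nat_lit 354) (nat_lit 302) (nat_lit 244)) (XT.lf (nat_lit 0) (nat_lit 1433867442) (nat_lit 456) (nat_lit 2058130679) (nat_lit 532) (nat_lit 7860626504) (nat_lit 159) (nat_lit 5) (nat_lit 165) (nat_lit 5) (nat_lit 166) (nat_lit 5) (nat_lit 355) (nat_lit 302) (nat_lit 243))) (XT.nd (nat_lit 78) (nat_lit 76) (nat_lit 0) (XT.lf (nat_lit 0) (nat_lit 126113828) (nat_lit 456) (nat_lit 7693730843) (nat_lit 532) (nat_lit 3729125786) (nat_lit 153) (nat_lit 5)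 (nat_lit 159) (nat_lit 5) (nat_lit 160) (nat_lit 5) (nat_lit 356) (nat_lit 302) (nat_lit 242)) (XT.lf (nat_lit 0) (nat_lit 545927451) (nat_lit 532) (nat_lit 1237174821) (nat_lit 76) (nat_lit 9967524359) (nat_lit 152) (nat_lit 5) (nat_lit 159) (nat_lit 5) (nat_lit 153) (nat_lit 5) (nat_lit 357) (nat_lit 302) (nat_lit 241)))) (XT.nd (nat_lit 156) (nat_lit 1292) (nat_lit 0) (XT.nd (nat_lit 78) (nat_lit 380) (nat_lit 0) (XT.lf (nat_lit 0) (nat_lit 4934135991) (nat_lit 532) (nat_lit 2710818596) (nat_lit 76) (nat_lit 4312191533) (nat_lit 146) (nat_lit 5) (nat_lit 153) (nat_lit 5) (nat_lit 147) (nat_lit 5) (nat_lit 358) (nat_lit 302) (nat_lit 240)) (XT.lf (nat_lit 0) (nat_lit 7908097130) (nat_lit 380) (nat_lit 1565217120) (nat_lit 456) (nat_lit 2696177927) (nat_lit 141) (nat_lit 5) (nat_lit 146) (nat_lit 5) (nat_lit 147) (nat_lit 5) (nat_lit 359) (nat_lit 302) (nat_lit 239))) (XT.nd (nat_lit 78) (nat_lit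 760) (nat_lit 0) (XT.lf (nat_lit 0) (nat_lit 1777150889) (nat_lit 532) (nat_lit 5924879121) (nat_lit 76) (nat_lit 4685171011) (nat_lit 134) (nat_lit 5) (nat_lit 141) (nat_lit 5) (nat_lit 135) (nat_lit 5) (nat_lit 360) (nat_lit 302) (nat_lit 238)) (XT.nd (nat_lit 78) (nat_lit 380) (nat_lit 0) (XT.lf (nat_lit 0) (nat_lit 4916643087) (nat_lit 380) (nat_lit 1452256499) (nat_lit 456) (nat_lit 6241784229) (nat_lit 129) (nat_lit 5) (nat_lit 134) (nat_lit 5) (nat_lit 135) (nat_lit 5) (nat_lit 361) (nat_lit 302) (nat_lit 237)) (XT.lf (nat_lit 0) (nat_lit 3260552750) (nat_lit 380) (nat_lit 7881836334) (nat_lit 456) (nat_lit 1697617901) (nat_lit 124) (nat_lit 5) (nat_lit 129) (nat_lit 5) (nat_lit 130) (nat_lit 5) (nat_lit 362) (nat_lit 302) (nat_lit 236)))))) (XT.nd (nat_lit 390) (nat_lit 1368) (nat_lit 0) (XT.nd (nat_lit 156) (nat_lit 1140) (nat_lit 0) (XT.nd (nat_lit 78) (nat_lit 0) (nat_lit 0) (XT.lf (nat_lit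 0) (nat_lit 1490568237) (nat_lit 380) (nat_lit 1475737399) (nat_lit 456) (nat_lit 10109080721) (nat_lit 118) (nat_lit 5) (nat_lit 123) (nat_lit 5) (nat_lit 124) (nat_lit 5) (nat_lit 363) (nat_lit 302) (nat_lit 235)) (XT.lf (nat_lit 0) (nat_lit 7797309191) (nat_lit 456) (nat_lit 410878721) (nat_lit 76) (nat_lit 5108424718) (nat_lit 118) (nat_lit 5) (nat_lit 124) (nat_lit 5) (nat_lit 119) (nat_lit 5) (nat_lit 364) (nat_lit 302) (nat_lit 234))) (XT.nd (nat_lit 78) (nat_lit 760) (nat_lit 0) (XT.lf (nat_lit 0) (nat_lit 11163830666) (nat_lit 380) (nat_lit 1644669484) (nat_lit 456) (nat_lit 755884444) (nat_lit 113) (nat_lit 5) (nat_lit 118) (nat_lit 5) (nat_lit 119) (nat_lit 5) (nat_lit 365) (nat_lit 302) (nat_lit 233)) (XT.nd (nat_lit 78) (nat_lit 380) (nat_lit 0) (XT.lf (nat_lit 0) (nat_lit 4146324452) (nat_lit 380) (nat_lit 4556032160) (nat_lit 76) (nat_lit 5115701111) (nat_lit 108) (nat_lit 5) (nat_lit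 113) (nat_lit 5) (nat_lit 109) (nat_lit 5) (nat_lit 366) (nat_lit 302) (nat_lit 232)) (XT.lf (nat_lit 0) (nat_lit 7236977141) (nat_lit 380) (nat_lit 1977026353) (nat_lit 456) (nat_lit 4864677140) (nat_lit 103) (nat_lit 5) (nat_lit 108) (nat_lit 5) (nat_lit 109) (nat_lit 5) (nat_lit 367) (nat_lit 302) (nat_lit 231))))) (XT.nd (nat_lit 156) (nat_lit 684) (nat_lit 0) (XT.nd (nat_lit 78) (nat_lit 304) (nat_lit 0) (XT.lf (nat_lit 0) (nat_lit 136858752) (nat_lit 380) (nat_lit 9283024177) (nat_lit 76) (nat_lit 4926212342) (nat_lit 98) (nat_lit 5) (nat_lit 103) (nat_lit 5) (nat_lit 99) (nat_lit 5) (nat_lit 368) (nat_lit 302) (nat_lit 230)) (XT.lf (nat_lit 0) (nat_lit 2718436938) (nat_lit 304) (nat_lit 2537372220) (nat_lit 380) (nat_lit 9364422870) (nat_lit 94) (nat_lit 5) (nat_lit 98) (nat_lit 5) (nat_lit 99) (nat_lit 5) (nat_lit 369) (nat_lit 302) (nat_lit 229))) (XT.nd (nat_lit 78) (nat_lit 380) (nat_lit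 0) (XT.lf (nat_lit 0) (nat_lit 209663887) (nat_lit 304) (nat_lit 10369136787) (nat_lit 380) (nat_lit 4322794410) (nat_lit 90) (nat_lit 5) (nat_lit 94) (nat_lit 5) (nat_lit 95) (nat_lit 5) (nat_lit 370) (nat_lit 302) (nat_lit 228)) (XT.nd (nat_lit 78) (nat_lit 304) (nat_lit 0) (XT.lf (nat_lit 0) (nat_lit 913602288) (nat_lit 380) (nat_lit 2433818763) (nat_lit 76) (nat_lit 11842777473) (nat_lit 89) (nat_lit 5) (nat_lit 94) (nat_lit 5) (nat_lit 90) (nat_lit 5) (nat_lit 371) (nat_lit 302) (nat_lit 227)) (XT.lf (nat_lit 0) (nat_lit 6298856306) (nat_lit 380) (nat_lit 5281063105) (nat_lit 76) (nat_lit 3905970043) (nat_lit 85) (nat_lit 5) (nat_lit 90) (nat_lit 5) (nat_lit 86) (nat_lit 5) (nat_lit 372) (nat_lit 302) (nat_lit 226))))))) (XT.nd (nat_lit 780) (nat_lit 532) (nat_lit 0) (XT.nd (nat_lit 390) (nat_lit 988) (nat_lit 0) (XT.nd (nat_lit 156) (nat_lit 608) (nat_lit 0) (XT.nd (nat_lit 78) (nat_lit 380)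 (nat_lit 0) (XT.lf (nat_lit 0) (nat_lit 7475496079) (nat_lit 228) (nat_lit 4416374481) (nat_lit 304) (nat_lit 3897666950) (nat_lit 82) (nat_lit 5) (nat_lit 85) (nat_lit 5) (nat_lit 86) (nat_lit 5) (nat_lit 373) (nat_lit 302) (nat_lit 225)) (XT.lf (nat_lit 0) (nat_lit 1574497495) (nat_lit 380) (nat_lit 11551448852) (nat_lit 76) (nat_lit 2975268272) (nat_lit 77) (nat_lit 5) (nat_lit 82) (nat_lit 5) (nat_lit 78) (nat_lit 5) (nat_lit 374) (nat_lit 302) (nat_lit 224))) (XT.nd (nat_lit 78) (nat_lit 380) (nat_lit 0) (XT.lf (nat_lit 0) (nat_lit 1389474385) (nat_lit 228) (nat_lit 5823765293) (nat_lit 304) (nat_lit 9207389413) (nat_lit 74) (nat_lit 5) (nat_lit 77) (nat_lit 5) (nat_lit 78) (nat_lit 5) (nat_lit 375) (nat_lit 302) (nat_lit 223)) (XT.nd (nat_lit 78) (nat_lit 380) (nat_lit 0) (XT.lf (nat_lit 0) (nat_lit 13071354916) (nat_lit 304) (nat_lit 1947394298) (nat_lit 76) (nat_lit 1729881943) (nat_lit 74)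 (nat_lit 5) (nat_lit 78) (nat_lit 5) (nat_lit 75) (nat_lit 5) (nat_lit 376) (nat_lit 302) (nat_lit 222)) (XT.lf (nat_lit 0) (nat_lit 2068430400) (nat_lit 380) (nat_lit 5519439617) (nat_lit 76) (nat_lit 9496826731) (nat_lit 69) (nat_lit 5) (nat_lit 74) (nat_lit 5) (nat_lit 70) (nat_lit 5) (nat_lit 377) (nat_lit 302) (nat_lit 221))))) (XT.nd (nat_lit 156) (nat_lit 532) (nat_lit 0) (XT.nd (nat_lit 78) (nat_lit 228) (nat_lit 0) (XT.lf (nat_lit 0) (nat_lit 7965579143) (nat_lit 304) (nat_lit 9331927269) (nat_lit 76) (nat_lit 132279810) (nat_lit 66) (nat_lit 5) (nat_lit 70) (nat_lit 5) (nat_lit 67) (nat_lit 5) (nat_lit 378) (nat_lit 302) (nat_lit 220)) (XT.lf (nat_lit 0) (nat_lit 4359181822) (nat_lit 228) (nat_lit 9759720030) (nat_lit 304) (nat_lit 3664749749) (nat_lit 63) (nat_lit 5) (nat_lit 66) (nat_lit 5) (nat_lit 67) (nat_lit 5) (nat_lit 379) (nat_lit 302) (nat_lit 219))) (XT.nd (nat_lit 78) (nat_lit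 228) (nat_lit 0) (XT.lf (nat_lit 0) (nat_lit 370094949) (nat_lit 228) (nat_lit 1937384019) (nat_lit 304) (nat_lit 15839780861) (nat_lit 59) (nat_lit 5) (nat_lit 62) (nat_lit 5) (nat_lit 63) (nat_lit 5) (nat_lit 380) (nat_lit 302) (nat_lit 218)) (XT.nd (nat_lit 78) (nat_lit 228) (nat_lit 0) (XT.lf (nat_lit 0) (nat_lit 8504211881) (nat_lit 304) (nat_lit 3883375182) (nat_lit 76) (nat_lit 6131809997) (nat_lit 59) (nat_lit 5) (nat_lit 63) (nat_lit 5) (nat_lit 60) (nat_lit 5) (nat_lit 381) (nat_lit 302) (nat_lit 217)) (XT.lf (nat_lit 0) (nat_lit 10492830882) (nat_lit 228) (nat_lit 4439699982) (nat_lit 304) (nat_lit 3969261410) (nat_lit 56) (nat_lit 5) (nat_lit 59) (nat_lit 5) (nat_lit 60) (nat_lit 5) (nat_lit 382) (nat_lit 302) (nat_lit 216)))))) (XT.nd (nat_lit 40872) (nat_lit 0) (nat_lit 43776) (XT.nd (nat_lit 40638) (nat_lit 0) (nat_lit 45524) (XT.nd (nat_lit 78) (nat_lit 228) (nat_lit 0) (XT.lf (nat_lit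 0) (nat_lit 2284013021) (nat_lit 304) (nat_lit 13254983779) (nat_lit 76) (nat_lit 3755264764) (nat_lit 52) (nat_lit 5) (nat_lit 56) (nat_lit 5) (nat_lit 53) (nat_lit 5) (nat_lit 383) (nat_lit 302) (nat_lit 215)) (XT.lf (nat_lit 0) (nat_lit 1240192758) (nat_lit 228) (nat_lit 7491686776) (nat_lit 304) (nat_lit 10964889226) (nat_lit 49) (nat_lit 5) (nat_lit 52) (nat_lit 5) (nat_lit 53) (nat_lit 5) (nat_lit 384) (nat_lit 302) (nat_lit 214))) (XT.nd (nat_lit 78) (nat_lit 836) (nat_lit 0) (XT.lf (nat_lit 0) (nat_lit 3201615699) (nat_lit 380) (nat_lit 19556582) (nat_lit 380) (nat_lit 19556582) (nat_lit 659) (nat_lit 3) (nat_lit 664) (nat_lit 3) (nat_lit 664) (nat_lit 5) (nat_lit 303) (nat_lit 303) (nat_lit 294)) (XT.nd (nat_lit 78) (nat_lit 456) (nat_lit 0) (XT.lf (nat_lit 0) (nat_lit 3900570503) (nat_lit 380) (nat_lit 1882650847) (nat_lit 456) (nat_lit 712444094) (nat_lit 654) (nat_lit 5) (nat_lit 659)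 (nat_lit 3) (nat_lit 660) (nat_lit 5) (nat_lit 304) (nat_lit 303) (nat_lit 293)) (XT.lf (nat_lit 0) (nat_lit 1330999841) (nat_lit 456) (nat_lit 3671391870) (nat_lit 532) (nat_lit 1510573491) (nat_lit 648) (nat_lit 5) (nat_lit 654) (nat_lit 5) (nat_lit 655) (nat_lit 5) (nat_lit 305) (nat_lit 303) (nat_lit 292))))) (XT.nd (nat_lit 156) (nat_lit 1216) (nat_lit 0) (XT.nd (nat_lit 78) (nat_lit 532) (nat_lit 0) (XT.lf (nat_lit 76) (nat_lit 1117859087) (nat_lit 0) (nat_lit 4090299534) (nat_lit 532) (nat_lit 1325039500) (nat_lit 649) (nat_lit 5) (nat_lit 648) (nat_lit 5) (nat_lit 655) (nat_lit 5) (nat_lit 306) (nat_lit 303) (nat_lit 291)) (XT.lf (nat_lit 0) (nat_lit 2488945060) (nat_lit 532) (nat_lit 552750365) (nat_lit 608) (nat_lit 3514599153) (nat_lit 641) (nat_lit 5) (nat_lit 648) (nat_lit 5) (nat_lit 649) (nat_lit 5) (nat_lit 307) (nat_lit 303) (nat_lit 290))) (XT.nd (nat_lit 78) (nat_lit 1216) (nat_lit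 0) (XT.lf (nat_lit 76) (nat_lit 4424398732) (nat_lit 0) (nat_lit 1859147301) (nat_lit 608) (nat_lit 298797037) (nat_lit 642) (nat_lit 5) (nat_lit 641) (nat_lit 5) (nat_lit 649) (nat_lit 5) (nat_lit 308) (nat_lit 303) (nat_lit 289)) (XT.nd (nat_lit 78) (nat_lit 608) (nat_lit 0) (XT.lf (nat_lit 76) (nat_lit 2882673758) (nat_lit 0) (nat_lit 533657689) (nat_lit 684) (nat_lit 3194878754) (nat_lit 634) (nat_lit 5) (nat_lit 633) (nat_lit 5) (nat_lit 642) (nat_lit 5) (nat_lit 309) (nat_lit 303) (nat_lit 288)) (XT.lf (nat_lit 0) (nat_lit 480472057) (nat_lit 684) (nat_lit 5255319138) (nat_lit 760) (nat_lit 907334898) (nat_lit 625) (nat_lit 5) (nat_lit 634) (nat_lit 5) (nat_lit 635) (nat_lit 5) (nat_lit 310) (nat_lit 303) (nat_lit 287))))))))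
noncomputable def xc55 : XT := (XT.nd (nat_lit 1560) (nat_lit 12996) (nat_lit 0) (XT.nd (nat_lit 780) (nat_lit 13148) (nat_lit 0) (XT.nd (nat_lit 390) (nat_lit 4332) (nat_lit 0) (XT.nd (nat_lit 156) (nat_lit 1596) (nat_lit 0) (XT.nd (nat_lit 78) (nat_lit 760) (nat_lit 0) (XT.lf (nat_lit 0) (nat_lit 4116437992) (nat_lit 684) (nat_lit 75590498) (nat_lit 760) (nat_lit 2485777450) (nat_lit 625) (nat_lit 5) (nat_lit 634) (nat_lit 5) (nat_lit 635) (nat_lit 5) (nat_lit 311) (nat_lit 303) (nat_lit 286)) (XT.lf (nat_lit 0) (nat_lit 1034681026) (nat_lit 760) (nat_lit 1475272050) (nat_lit 836) (nat_lit 4205487480) (nat_lit 615) (nat_lit 5) (nat_lit 625) (nat_lit 5) (nat_lit 626) (nat_lit 5) (nat_lit 312) (nat_lit 303) (nat_lit 285))) (XT.nd (nat_lit 78) (nat_lit 1596) (nat_lit 0) (XT.lf (nat_lit 76) (nat_lit 3914720936) (nat_lit 0) (nat_lit 686046453) (nat_lit 836) (nat_lit 2155255267) (nat_lit 616) (nat_lit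 5) (nat_lit 615) (nat_lit 5) (nat_lit 626) (nat_lit 5) (nat_lit 313) (nat_lit 303) (nat_lit 284)) (XT.nd (nat_lit 78) (nat_lit 836) (nat_lit 0) (XT.lf (nat_lit 0) (nat_lit 1365220107) (nat_lit 836) (nat_lit 4176323574) (nat_lit 76) (nat_lit 1258007111) (nat_lit 605) (nat_lit 5) (nat_lit 616) (nat_lit 5) (nat_lit 606) (nat_lit 5) (nat_lit 314) (nat_lit 303) (nat_lit 283)) (XT.lf (nat_lit 0) (nat_lit 1361624922) (nat_lit 836) (nat_lit 3509966207) (nat_lit 912) (nat_lit 1974406320) (nat_lit 594) (nat_lit 5) (nat_lit 605) (nat_lit 5) (nat_lit 606) (nat_lit 5) (nat_lit 315) (nat_lit 303) (nat_lit 282))))) (XT.nd (nat_lit 156) (nat_lit 3344) (nat_lit 0) (XT.nd (nat_lit 78) (nat_lit 0) (nat_lit 0) (XT.lf (nat_lit 0) (nat_lit 136868313) (nat_lit 912) (nat_lit 1339743695) (nat_lit 988) (nat_lit 5418940889) (nat_lit 581) (nat_lit 5) (nat_lit 593) (nat_lit 5) (nat_lit 594) (nat_lit 5) (nat_lit 316) (nat_lit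 303) (nat_lit 281)) (XT.lf (nat_lit 0) (nat_lit 4929703721) (nat_lit 988) (nat_lit 1048640651) (nat_lit 76) (nat_lit 969564390) (nat_lit 581) (nat_lit 5) (nat_lit 594) (nat_lit 5) (nat_lit 582) (nat_lit 5) (nat_lit 317) (nat_lit 303) (nat_lit 280))) (XT.nd (nat_lit 78) (nat_lit 2280) (nat_lit 0) (XT.lf (nat_lit 0) (nat_lit 1390087542) (nat_lit 1064) (nat_lit 2208655741) (nat_lit 76) (nat_lit 3404477308) (nat_lit 567) (nat_lit 5) (nat_lit 581) (nat_lit 5) (nat_lit 568) (nat_lit 5) (nat_lit 318) (nat_lit 303) (nat_lit 279)) (XT.nd (nat_lit 78) (nat_lit 1216) (nat_lit 0) (XT.lf (nat_lit 0) (nat_lit 3719525587) (nat_lit 1064) (nat_lit 1072560894) (nat_lit 1140) (nat_lit 2269536829) (nat_lit 553) (nat_lit 5) (nat_lit 567) (nat_lit 5) (nat_lit 568) (nat_lit 5) (nat_lit 319) (nat_lit 303) (nat_lit 278)) (XT.lf (nat_lit 0) (nat_lit 1091160514) (nat_lit 1216) (nat_lit 4455202476) (nat_lit 76) (nat_lit 1576690948)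 (nat_lit 537) (nat_lit 5) (nat_lit 553) (nat_lit 5) (nat_lit 538) (nat_lit 5) (nat_lit 320) (nat_lit 303) (nat_lit 277)))))) (XT.nd (nat_lit 390) (nat_lit 7676) (nat_lit 0) (XT.nd (nat_lit 156) (nat_lit 2888) (nat_lit 0) (XT.nd (nat_lit 78) (nat_lit 1368) (nat_lit 0) (XT.lf (nat_lit 0) (nat_lit 1632557814) (nat_lit 1216) (nat_lit 2822257856) (nat_lit 1292) (nat_lit 2732622488) (nat_lit 521) (nat_lit 5) (nat_lit 537) (nat_lit 5) (nat_lit 538) (nat_lit 5) (nat_lit 321) (nat_lit 303) (nat_lit 276)) (XT.lf (nat_lit 0) (nat_lit 585730023) (nat_lit 1368) (nat_lit 6625358446) (nat_lit 76) (nat_lit 44069082) (nat_lit 503) (nat_lit 5) (nat_lit 521) (nat_lit 5) (nat_lit 504) (nat_lit 5) (nat_lit 322) (nat_lit 303) (nat_lit 275))) (XT.nd (nat_lit 78) (nat_lit 2888) (nat_lit 0) (XT.lf (nat_lit 0) (nat_lit 3920224506) (nat_lit 1368) (nat_lit 370824393) (nat_lit 76) (nat_lit 3034488838) (nat_lit 503) (nat_lit 5)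 (nat_lit 521) (nat_lit 5) (nat_lit 504) (nat_lit 5) (nat_lit 323) (nat_lit 303) (nat_lit 274)) (XT.nd (nat_lit 78) (nat_lit 1520) (nat_lit 0) (XT.lf (nat_lit 0) (nat_lit 6068088502) (nat_lit 1368) (nat_lit 1225811727) (nat_lit 1444) (nat_lit 105409086) (nat_lit 485) (nat_lit 5) (nat_lit 503) (nat_lit 5) (nat_lit 504) (nat_lit 5) (nat_lit 324) (nat_lit 303) (nat_lit 273)) (XT.lf (nat_lit 0) (nat_lit 3201003090) (nat_lit 1520) (nat_lit 2295344108) (nat_lit 76) (nat_lit 1979564945) (nat_lit 465) (nat_lit 5) (nat_lit 485) (nat_lit 5) (nat_lit 466) (nat_lit 5) (nat_lit 325) (nat_lit 303) (nat_lit 272))))) (XT.nd (nat_lit 156) (nat_lit 4484) (nat_lit 0) (XT.nd (nat_lit 78) (nat_lit 1672) (nat_lit 0) (XT.lf (nat_lit 0) (nat_lit 4315333222) (nat_lit 1520) (nat_lit 2239014464) (nat_lit 1596) (nat_lit 1001526133) (nat_lit 445) (nat_lit 5) (nat_lit 465) (nat_lit 5) (nat_lit 466) (nat_lit 5) (nat_lit 326) (nat_lit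 303) (nat_lit 271)) (XT.lf (nat_lit 0) (nat_lit 2290251997) (nat_lit 1672) (nat_lit 4182568605) (nat_lit 76) (nat_lit 1166135775) (nat_lit 423) (nat_lit 5) (nat_lit 445) (nat_lit 5) (nat_lit 424) (nat_lit 5) (nat_lit 327) (nat_lit 303) (nat_lit 270))) (XT.nd (nat_lit 78) (nat_lit 2812) (nat_lit 0) (XT.lf (nat_lit 0) (nat_lit 2602639942) (nat_lit 1672) (nat_lit 3026332252) (nat_lit 1748) (nat_lit 2096244635) (nat_lit 401) (nat_lit 5) (nat_lit 423) (nat_lit 5) (nat_lit 424) (nat_lit 5) (nat_lit 328) (nat_lit 303) (nat_lit 269)) (XT.nd (nat_lit 78) (nat_lit 988) (nat_lit 0) (XT.lf (nat_lit 0) (nat_lit 1190346026) (nat_lit 1824) (nat_lit 6052797928) (nat_lit 76) (nat_lit 571749456) (nat_lit 377) (nat_lit 5) (nat_lit 401) (nat_lit 5) (nat_lit 378) (nat_lit 5) (nat_lit 329) (nat_lit 303) (nat_lit 268)) (XT.lf (nat_lit 0) (nat_lit 909749422) (nat_lit 988) (nat_lit 3609943506) (nat_lit 1064) (nat_lit 3387887124)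 (nat_lit 364) (nat_lit 5) (nat_lit 377) (nat_lit 5) (nat_lit 378) (nat_lit 5) (nat_lit 330) (nat_lit 303) (nat_lit 267))))))) (XT.nd (nat_lit 780) (nat_lit 5700) (nat_lit 0) (XT.nd (nat_lit 390) (nat_lit 3800) (nat_lit 0) (XT.nd (nat_lit 156) (nat_lit 2508) (nat_lit 0) (XT.nd (nat_lit 78) (nat_lit 76) (nat_lit 0) (XT.lf (nat_lit 0) (nat_lit 76687656) (nat_lit 912) (nat_lit 7828327995) (nat_lit 988) (nat_lit 98957941) (nat_lit 352) (nat_lit 5) (nat_lit 364) (nat_lit 5) (nat_lit 365) (nat_lit 5) (nat_lit 331) (nat_lit 303) (nat_lit 266)) (XT.lf (nat_lit 0) (nat_lit 3232206137) (nat_lit 988) (nat_lit 773673726) (nat_lit 76) (nat_lit 4097263954) (nat_lit 351) (nat_lit 5) (nat_lit 364) (nat_lit 5) (nat_lit 352) (nat_lit 5) (nat_lit 332) (nat_lit 303) (nat_lit 265))) (XT.nd (nat_lit 78) (nat_lit 1672) (nat_lit 0) (XT.lf (nat_lit 0) (nat_lit 6598105139) (nat_lit 836) (nat_lit 24006637) (nat_lit 912) (nat_lit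 1584005818) (nat_lit 340) (nat_lit 5) (nat_lit 351) (nat_lit 5) (nat_lit 352) (nat_lit 5) (nat_lit 333) (nat_lit 303) (nat_lit 264)) (XT.nd (nat_lit 78) (nat_lit 760) (nat_lit 0) (XT.lf (nat_lit 0) (nat_lit 1766755754) (nat_lit 912) (nat_lit 2466843197) (nat_lit 76) (nat_lit 4078613116) (nat_lit 328) (nat_lit 5) (nat_lit 340) (nat_lit 5) (nat_lit 329) (nat_lit 5) (nat_lit 334) (nat_lit 303) (nat_lit 263)) (XT.lf (nat_lit 0) (nat_lit 5096713679) (nat_lit 760) (nat_lit 64596429) (nat_lit 836) (nat_lit 3260715220) (nat_lit 318) (nat_lit 5) (nat_lit 328) (nat_lit 5) (nat_lit 329) (nat_lit 5) (nat_lit 335) (nat_lit 303) (nat_lit 262))))) (XT.nd (nat_lit 156) (nat_lit 2204) (nat_lit 0) (XT.nd (nat_lit 78) (nat_lit 760) (nat_lit 0) (XT.lf (nat_lit 0) (nat_lit 115520909) (nat_lit 836) (nat_lit 4203274306) (nat_lit 76) (nat_lit 4216469833) (nat_lit 307) (nat_lit 5) (nat_lit 318) (nat_lit 5) (nat_lit 308) (nat_lit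 5) (nat_lit 336) (nat_lit 303) (nat_lit 261)) (XT.lf (nat_lit 0) (nat_lit 3518840711) (nat_lit 836) (nat_lit 5097380687) (nat_lit 76) (nat_lit 35885601) (nat_lit 297) (nat_lit 5) (nat_lit 308) (nat_lit 5) (nat_lit 298) (nat_lit 5) (nat_lit 337) (nat_lit 303) (nat_lit 260))) (XT.nd (nat_lit 78) (nat_lit 1444) (nat_lit 0) (XT.lf (nat_lit 0) (nat_lit 2755681465) (nat_lit 760) (nat_lit 4269100847) (nat_lit 836) (nat_lit 1747698387) (nat_lit 287) (nat_lit 5) (nat_lit 297) (nat_lit 5) (nat_lit 298) (nat_lit 5) (nat_lit 338) (nat_lit 303) (nat_lit 259)) (XT.nd (nat_lit 78) (nat_lit 684) (nat_lit 0) (XT.lf (nat_lit 0) (nat_lit 1691955516) (nat_lit 760) (nat_lit 6948284404) (nat_lit 76) (nat_lit 256528334) (nat_lit 277) (nat_lit 5) (nat_lit 287) (nat_lit 5) (nat_lit 278) (nat_lit 5) (nat_lit 339) (nat_lit 303) (nat_lit 258)) (XT.lf (nat_lit 0) (nat_lit 1102799937) (nat_lit 684) (nat_lit 4112921187) (nat_lit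 760) (nat_lit 3808773070) (nat_lit 268) (nat_lit 5) (nat_lit 277) (nat_lit 5) (nat_lit 278) (nat_lit 5) (nat_lit 340) (nat_lit 303) (nat_lit 257)))))) (XT.nd (nat_lit 390) (nat_lit 2964) (nat_lit 0) (XT.nd (nat_lit 156) (nat_lit 1976) (nat_lit 0) (XT.nd (nat_lit 78) (nat_lit 76) (nat_lit 0) (XT.lf (nat_lit 0) (nat_lit 252527373) (nat_lit 684) (nat_lit 8574570907) (nat_lit 760) (nat_lit 329348798) (nat_lit 259) (nat_lit 5) (nat_lit 268) (nat_lit 5) (nat_lit 269) (nat_lit 5) (nat_lit 341) (nat_lit 303) (nat_lit 256)) (XT.lf (nat_lit 0) (nat_lit 3223650608) (nat_lit 760) (nat_lit 641804461) (nat_lit 76) (nat_lit 5426274915) (nat_lit 258) (nat_lit 5) (nat_lit 268) (nat_lit 5) (nat_lit 259) (nat_lit 5) (nat_lit 342) (nat_lit 303) (nat_lit 255))) (XT.nd (nat_lit 78) (nat_lit 1292) (nat_lit 0) (XT.lf (nat_lit 0) (nat_lit 6869052676) (nat_lit 760) (nat_lit 1548159789) (nat_lit 76) (nat_lit 1014040250) (nat_lit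 249) (nat_lit 5) (nat_lit 259) (nat_lit 5) (nat_lit 250) (nat_lit 5) (nat_lit 343) (nat_lit 303) (nat_lit 254)) (XT.nd (nat_lit 78) (nat_lit 608) (nat_lit 0) (XT.lf (nat_lit 0) (nat_lit 1045113249) (nat_lit 684) (nat_lit 2496510175) (nat_lit 76) (nat_lit 6033030385) (nat_lit 240) (nat_lit 5) (nat_lit 249) (nat_lit 5) (nat_lit 241) (nat_lit 5) (nat_lit 344) (nat_lit 303) (nat_lit 253)) (XT.lf (nat_lit 0) (nat_lit 4721843732) (nat_lit 684) (nat_lit 3484421282) (nat_lit 76) (nat_lit 1515861339) (nat_lit 232) (nat_lit 5) (nat_lit 241) (nat_lit 5) (nat_lit 233) (nat_lit 5) (nat_lit 345) (nat_lit 303) (nat_lit 252))))) (XT.nd (nat_lit 156) (nat_lit 1672) (nat_lit 0) (XT.nd (nat_lit 78) (nat_lit 684) (nat_lit 0) (XT.lf (nat_lit 0) (nat_lit 5361888483) (nat_lit 608) (nat_lit 3158530801) (nat_lit 684) (nat_lit 1353400400) (nat_lit 224) (nat_lit 5) (nat_lit 232) (nat_lit 5) (nat_lit 233) (nat_lit 5) (nat_lit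 346) (nat_lit 303) (nat_lit 251)) (XT.lf (nat_lit 0) (nat_lit 2374605736) (nat_lit 684) (nat_lit 5587867577) (nat_lit 76) (nat_lit 2067239994) (nat_lit 215) (nat_lit 5) (nat_lit 224) (nat_lit 5) (nat_lit 216) (nat_lit 5) (nat_lit 347) (nat_lit 303) (nat_lit 250))) (XT.nd (nat_lit 78) (nat_lit 1140) (nat_lit 0) (XT.lf (nat_lit 0) (nat_lit 3472960810) (nat_lit 532) (nat_lit 2735823682) (nat_lit 608) (nat_lit 3981091324) (nat_lit 208) (nat_lit 5) (nat_lit 215) (nat_lit 5) (nat_lit 216) (nat_lit 5) (nat_lit 348) (nat_lit 303) (nat_lit 249)) (XT.nd (nat_lit 78) (nat_lit 608) (nat_lit 0) (XT.lf (nat_lit 0) (nat_lit 2464509102) (nat_lit 532) (nat_lit 7704144531) (nat_lit 608) (nat_lit 186000915) (nat_lit 201) (nat_lit 5) (nat_lit 208) (nat_lit 5) (nat_lit 209) (nat_lit 5) (nat_lit 349) (nat_lit 303) (nat_lit 248)) (XT.lf (nat_lit 0) (nat_lit 1387343583) (nat_lit 532) (nat_lit 2300098635) (nat_lit 608) (nat_lit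 6836207910) (nat_lit 193) (nat_lit 5) (nat_lit 200) (nat_lit 5) (nat_lit 201) (nat_lit 5) (nat_lit 350) (nat_lit 303) (nat_lit 247))))))))
noncomputable def xc56 : XT := (XT.nd (nat_lit 1482) (nat_lit 3496) (nat_lit 0) (XT.nd (nat_lit 702) (nat_lit 3268) (nat_lit 0) (XT.nd (nat_lit 312) (nat_lit 2356) (nat_lit 0) (XT.nd (nat_lit 156) (nat_lit 988) (nat_lit 0) (XT.nd (nat_lit 78) (nat_lit 76) (nat_lit 0) (XT.lf (nat_lit 0) (nat_lit 257337881) (nat_lit 532) (nat_lit 7435267234) (nat_lit 608) (nat_lit 3004747781) (nat_lit 186) (nat_lit 5) (nat_lit 193) (nat_lit 5) (nat_lit 194) (nat_lit 5) (nat_lit 351) (nat_lit 303) (nat_lit 246)) (XT.lf (nat_lit 0) (nat_lit 949150883) (nat_lit 608) (nat_lit 916358870) (nat_lit 76) (nat_lit 9010259506) (nat_lit 185) (nat_lit 5) (nat_lit 193) (nat_lit 5) (nat_lit 186) (nat_lit 5) (nat_lit 352) (nat_lit 303) (nat_lit 245))) (XT.nd (nat_lit 78) (nat_lit 532) (nat_lit 0)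 (XT.lf (nat_lit 0) (nat_lit 5008314221) (nat_lit 532) (nat_lit 2169845027) (nat_lit 76) (nat_lit 3880453279) (nat_lit 179) (nat_lit 5) (nat_lit 186) (nat_lit 5) (nat_lit 180) (nat_lit 5) (nat_lit 353) (nat_lit 303) (nat_lit 244)) (XT.lf (nat_lit 0) (nat_lit 7768334165) (nat_lit 532) (nat_lit 1434944105) (nat_lit 608) (nat_lit 2043402745) (nat_lit 172) (nat_lit 5) (nat_lit 179) (nat_lit 5) (nat_lit 180) (nat_lit 5) (nat_lit 354) (nat_lit 303) (nat_lit 243)))) (XT.nd (nat_lit 156) (nat_lit 1368) (nat_lit 0) (XT.nd (nat_lit 78) (nat_lit 456) (nat_lit 0) (XT.lf (nat_lit 0) (nat_lit 2089022874) (nat_lit 532) (nat_lit 4876741758) (nat_lit 76) (nat_lit 4473722778) (nat_lit 165) (nat_lit 5) (nat_lit 172) (nat_lit 5) (nat_lit 166) (nat_lit 5) (nat_lit 355) (nat_lit 303) (nat_lit 242)) (XT.lf (nat_lit 0) (nat_lit 5286913506) (nat_lit 456) (nat_lit 1045146646) (nat_lit 532) (nat_lit 5305478580) (nat_lit 159)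 (nat_lit 5) (nat_lit 165) (nat_lit 5) (nat_lit 166) (nat_lit 5) (nat_lit 356) (nat_lit 303) (nat_lit 241))) (XT.nd (nat_lit 78) (nat_lit 912) (nat_lit 0) (XT.lf (nat_lit 0) (nat_lit 3926010973) (nat_lit 456) (nat_lit 6815483630) (nat_lit 532) (nat_lit 1099273207) (nat_lit 153) (nat_lit 5) (nat_lit 159) (nat_lit 5) (nat_lit 160) (nat_lit 5) (nat_lit 357) (nat_lit 303) (nat_lit 240)) (XT.nd (nat_lit 78) (nat_lit 380) (nat_lit 0) (XT.lf (nat_lit 0) (nat_lit 2479574057) (nat_lit 456) (nat_lit 725789595) (nat_lit 532) (nat_lit 8844034764) (nat_lit 146) (nat_lit 5) (nat_lit 152) (nat_lit 5) (nat_lit 153) (nat_lit 5) (nat_lit 358) (nat_lit 303) (nat_lit 239)) (XT.lf (nat_lit 0) (nat_lit 926263053) (nat_lit 380) (nat_lit 6743182265) (nat_lit 456) (nat_lit 4593809437) (nat_lit 141) (nat_lit 5) (nat_lit 146) (nat_lit 5) (nat_lit 147) (nat_lit 5) (nat_lit 359) (nat_lit 303) (nat_lit 238)))))) (XT.nd (nat_lit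 390) (nat_lit 1520) (nat_lit 0) (XT.nd (nat_lit 156) (nat_lit 1216) (nat_lit 0) (XT.nd (nat_lit 78) (nat_lit 532) (nat_lit 0) (XT.lf (nat_lit 0) (nat_lit 11791468511) (nat_lit 380) (nat_lit 495806924) (nat_lit 456) (nat_lit 195871278) (nat_lit 141) (nat_lit 5) (nat_lit 146) (nat_lit 5) (nat_lit 147) (nat_lit 5) (nat_lit 360) (nat_lit 303) (nat_lit 237)) (XT.lf (nat_lit 0) (nat_lit 4334421267) (nat_lit 532) (nat_lit 2438114860) (nat_lit 76) (nat_lit 5935407029) (nat_lit 134) (nat_lit 5) (nat_lit 141) (nat_lit 5) (nat_lit 135) (nat_lit 5) (nat_lit 361) (nat_lit 303) (nat_lit 236))) (XT.nd (nat_lit 78) (nat_lit 836) (nat_lit 0) (XT.lf (nat_lit 0) (nat_lit 8669200683) (nat_lit 380) (nat_lit 345197418) (nat_lit 456) (nat_lit 3924745967) (nat_lit 129) (nat_lit 5) (nat_lit 134) (nat_lit 5) (nat_lit 135) (nat_lit 5) (nat_lit 362) (nat_lit 303) (nat_lit 235)) (XT.nd (nat_lit 78) (nat_lit 380) (nat_lit 0) (XT.lf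 (nat_lit 0) (nat_lit 704602512) (nat_lit 456) (nat_lit 6234181952) (nat_lit 76) (nat_lit 6237310989) (nat_lit 123) (nat_lit 5) (nat_lit 129) (nat_lit 5) (nat_lit 124) (nat_lit 5) (nat_lit 363) (nat_lit 303) (nat_lit 234)) (XT.lf (nat_lit 0) (nat_lit 5097837129) (nat_lit 380) (nat_lit 340021571) (nat_lit 456) (nat_lit 7981424895) (nat_lit 118) (nat_lit 5) (nat_lit 123) (nat_lit 5) (nat_lit 124) (nat_lit 5) (nat_lit 364) (nat_lit 303) (nat_lit 233))))) (XT.nd (nat_lit 156) (nat_lit 760) (nat_lit 0) (XT.nd (nat_lit 78) (nat_lit 380) (nat_lit 0) (XT.lf (nat_lit 0) (nat_lit 3115967145) (nat_lit 380) (nat_lit 7256099198) (nat_lit 456) (nat_lit 3296535603) (nat_lit 113) (nat_lit 5) (nat_lit 118) (nat_lit 5) (nat_lit 119) (nat_lit 5) (nat_lit 365) (nat_lit 303) (nat_lit 232)) (XT.lf (nat_lit 0) (nat_lit 1018498466) (nat_lit 304) (nat_lit 510857515) (nat_lit 380) (nat_lit 12395448169) (nat_lit 108) (nat_lit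 5) (nat_lit 112) (nat_lit 5) (nat_lit 113) (nat_lit 5) (nat_lit 366) (nat_lit 303) (nat_lit 231))) (XT.nd (nat_lit 78) (nat_lit 760) (nat_lit 0) (XT.lf (nat_lit 0) (nat_lit 6524852477) (nat_lit 380) (nat_lit 1238420866) (nat_lit 76) (nat_lit 6423603577) (nat_lit 108) (nat_lit 5) (nat_lit 113) (nat_lit 5) (nat_lit 109) (nat_lit 5) (nat_lit 367) (nat_lit 303) (nat_lit 230)) (XT.nd (nat_lit 78) (nat_lit 380) (nat_lit 0) (XT.lf (nat_lit 0) (nat_lit 10852336926) (nat_lit 380) (nat_lit 848634147) (nat_lit 456) (nat_lit 2755237895) (nat_lit 103) (nat_lit 5) (nat_lit 108) (nat_lit 5) (nat_lit 109) (nat_lit 5) (nat_lit 368) (nat_lit 303) (nat_lit 229)) (XT.lf (nat_lit 0) (nat_lit 2331559735) (nat_lit 380) (nat_lit 6152175443) (nat_lit 76) (nat_lit 6248339827) (nat_lit 98) (nat_lit 5) (nat_lit 103) (nat_lit 5) (nat_lit 99) (nat_lit 5) (nat_lit 369) (nat_lit 303) (nat_lit 228))))))) (XT.nd (nat_lit 780) (nat_lit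 1064) (nat_lit 0) (XT.nd (nat_lit 390) (nat_lit 1216) (nat_lit 0) (XT.nd (nat_lit 156) (nat_lit 608) (nat_lit 0) (XT.nd (nat_lit 78) (nat_lit 304) (nat_lit 0) (XT.lf (nat_lit 0) (nat_lit 6154017023) (nat_lit 304) (nat_lit 1408034454) (nat_lit 380) (nat_lit 7453242152) (nat_lit 94) (nat_lit 5) (nat_lit 98) (nat_lit 5) (nat_lit 99) (nat_lit 5) (nat_lit 370) (nat_lit 303) (nat_lit 227)) (XT.lf (nat_lit 0) (nat_lit 3550704904) (nat_lit 304) (nat_lit 9460698277) (nat_lit 380) (nat_lit 2294377706) (nat_lit 90) (nat_lit 5) (nat_lit 94) (nat_lit 5) (nat_lit 95) (nat_lit 5) (nat_lit 371) (nat_lit 303) (nat_lit 226))) (XT.nd (nat_lit 78) (nat_lit 228) (nat_lit 0) (XT.lf (nat_lit 0) (nat_lit 768883073) (nat_lit 304) (nat_lit 2244883130) (nat_lit 380) (nat_lit 12590152720) (nat_lit 85) (nat_lit 5) (nat_lit 89) (nat_lit 5) (nat_lit 90) (nat_lit 5) (nat_lit 372) (nat_lit 303) (nat_lit 225)) (XT.nd (nat_lit 78)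 (nat_lit 228) (nat_lit 0) (XT.lf (nat_lit 0) (nat_lit 8523907247) (nat_lit 380) (nat_lit 2193449697) (nat_lit 76) (nat_lit 5191872498) (nat_lit 85) (nat_lit 5) (nat_lit 90) (nat_lit 5) (nat_lit 86) (nat_lit 5) (nat_lit 373) (nat_lit 303) (nat_lit 224)) (XT.lf (nat_lit 0) (nat_lit 10893143035) (nat_lit 228) (nat_lit 3352998995) (nat_lit 304) (nat_lit 1976631307) (nat_lit 82) (nat_lit 5) (nat_lit 85) (nat_lit 5) (nat_lit 86) (nat_lit 5) (nat_lit 374) (nat_lit 303) (nat_lit 223))))) (XT.nd (nat_lit 156) (nat_lit 608) (nat_lit 0) (XT.nd (nat_lit 78) (nat_lit 228) (nat_lit 0) (XT.lf (nat_lit 0) (nat_lit 3602720607) (nat_lit 380) (nat_lit 8697461227) (nat_lit 76) (nat_lit 4243973549) (nat_lit 77) (nat_lit 5) (nat_lit 82) (nat_lit 5) (nat_lit 78) (nat_lit 5) (nat_lit 375) (nat_lit 303) (nat_lit 222)) (XT.lf (nat_lit 0) (nat_lit 4579764892) (nat_lit 228) (nat_lit 4793604319) (nat_lit 304) (nat_lit 7500542057)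 (nat_lit 74) (nat_lit 5) (nat_lit 77) (nat_lit 5) (nat_lit 78) (nat_lit 5) (nat_lit 376) (nat_lit 303) (nat_lit 221))) (XT.nd (nat_lit 78) (nat_lit 304) (nat_lit 0) (XT.lf (nat_lit 0) (nat_lit 1096054091) (nat_lit 304) (nat_lit 14269271553) (nat_lit 380) (nat_lit 1847279256) (nat_lit 70) (nat_lit 5) (nat_lit 74) (nat_lit 5) (nat_lit 75) (nat_lit 5) (nat_lit 377) (nat_lit 303) (nat_lit 220)) (XT.nd (nat_lit 78) (nat_lit 228) (nat_lit 0) (XT.lf (nat_lit 0) (nat_lit 4002474806) (nat_lit 380) (nat_lit 2622313710) (nat_lit 76) (nat_lit 10934582319) (nat_lit 69) (nat_lit 5) (nat_lit 74) (nat_lit 5) (nat_lit 70) (nat_lit 5) (nat_lit 378) (nat_lit 303) (nat_lit 219)) (XT.lf (nat_lit 0) (nat_lit 10049211823) (nat_lit 304) (nat_lit 6569344968) (nat_lit 76) (nat_lit 1296815162) (nat_lit 66) (nat_lit 5) (nat_lit 70) (nat_lit 5) (nat_lit 67) (nat_lit 5) (nat_lit 379) (nat_lit 303) (nat_lit 218)))))) (XT.nd (nat_lit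 40950) (nat_lit 0) (nat_lit 44156) (XT.nd (nat_lit 156) (nat_lit 532) (nat_lit 0) (XT.nd (nat_lit 78) (nat_lit 304) (nat_lit 0) (XT.lf (nat_lit 0) (nat_lit 7483135797) (nat_lit 228) (nat_lit 8869704001) (nat_lit 304) (nat_lit 1927711459) (nat_lit 63) (nat_lit 5) (nat_lit 66) (nat_lit 5) (nat_lit 67) (nat_lit 5) (nat_lit 380) (nat_lit 303) (nat_lit 217)) (XT.lf (nat_lit 0) (nat_lit 3350034221) (nat_lit 228) (nat_lit 815612050) (nat_lit 304) (nat_lit 14489869404) (nat_lit 59) (nat_lit 5) (nat_lit 62) (nat_lit 5) (nat_lit 63) (nat_lit 5) (nat_lit 381) (nat_lit 303) (nat_lit 216))) (XT.nd (nat_lit 78) (nat_lit 532) (nat_lit 0) (XT.lf (nat_lit 0) (nat_lit 10503613563) (nat_lit 304) (nat_lit 1089839815) (nat_lit 76) (nat_lit 7446268155) (nat_lit 59) (nat_lit 5) (nat_lit 63) (nat_lit 5) (nat_lit 60) (nat_lit 5) (nat_lit 382) (nat_lit 303) (nat_lit 215)) (XT.nd (nat_lit 78) (nat_lit 304) (nat_lit 0) (XT.lf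 (nat_lit 0) (nat_lit 13670440544) (nat_lit 228) (nat_lit 3422124792) (nat_lit 304) (nat_lit 2341678435) (nat_lit 56) (nat_lit 5) (nat_lit 59) (nat_lit 5) (nat_lit 60) (nat_lit 5) (nat_lit 383) (nat_lit 303) (nat_lit 214)) (XT.lf (nat_lit 0) (nat_lit 4051963355) (nat_lit 304) (nat_lit 10786635681) (nat_lit 76) (nat_lit 5000158068) (nat_lit 52) (nat_lit 5) (nat_lit 56) (nat_lit 5) (nat_lit 53) (nat_lit 5) (nat_lit 384) (nat_lit 303) (nat_lit 213))))) (XT.nd (nat_lit 156) (nat_lit 1064) (nat_lit 0) (XT.nd (nat_lit 78) (nat_lit 0) (nat_lit 0) (XT.lf (nat_lit 0) (nat_lit 632310889) (nat_lit 532) (nat_lit 1311711662) (nat_lit 532) (nat_lit 1311711662) (nat_lit 647) (nat_lit 3) (nat_lit 654) (nat_lit 3) (nat_lit 654) (nat_lit 5) (nat_lit 304) (nat_lit 304) (nat_lit 292)) (XT.lf (nat_lit 76) (nat_lit 2040580885) (nat_lit 0) (nat_lit 3030869575) (nat_lit 532) (nat_lit 1458748418) (nat_lit 648) (nat_lit 5)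 (nat_lit 647) (nat_lit 3) (nat_lit 654) (nat_lit 5) (nat_lit 305) (nat_lit 304) (nat_lit 291))) (XT.nd (nat_lit 78) (nat_lit 532) (nat_lit 0) (XT.lf (nat_lit 76) (nat_lit 240158286) (nat_lit 0) (nat_lit 2041339645) (nat_lit 608) (nat_lit 4270387016) (nat_lit 641) (nat_lit 5) (nat_lit 640) (nat_lit 5) (nat_lit 648) (nat_lit 5) (nat_lit 306) (nat_lit 304) (nat_lit 290)) (XT.nd (nat_lit 78) (nat_lit 532) (nat_lit 0) (XT.lf (nat_lit 76) (nat_lit 5086376176) (nat_lit 0) (nat_lit 913157078) (nat_lit 608) (nat_lit 576905783) (nat_lit 641) (nat_lit 5) (nat_lit 640) (nat_lit 5) (nat_lit 648) (nat_lit 5) (nat_lit 307) (nat_lit 304) (nat_lit 289)) (XT.lf (nat_lit 0) (nat_lit 3067711590) (nat_lit 608) (nat_lit 3182722095) (nat_lit 684) (nat_lit 353336385) (nat_lit 633) (nat_lit 5) (nat_lit 641) (nat_lit 5) (nat_lit 642) (nat_lit 5) (nat_lit 308) (nat_lit 304) (nat_lit 288))))))))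
noncomputable def xc57 : XT := (XT.nd (nat_lit 1482) (nat_lit 15200) (nat_lit 0) (XT.nd (nat_lit 702) (nat_lit 11932) (nat_lit 0) (XT.nd (nat_lit 312) (nat_lit 2584) (nat_lit 0) (XT.nd (nat_lit 156) (nat_lit 760) (nat_lit 0) (XT.nd (nat_lit 78) (nat_lit 0) (nat_lit 0) (XT.lf (nat_lit 0) (nat_lit 68941635) (nat_lit 684) (nat_lit 4831632287) (nat_lit 760) (nat_lit 1733567517) (nat_lit 624) (nat_lit 5) (nat_lit 633) (nat_lit 5) (nat_lit 634) (nat_lit 5) (nat_lit 309) (nat_lit 304) (nat_lit 287)) (XT.lf (nat_lit 76) (nat_lit 215470231) (nat_lit 0) (nat_lit 3406637508) (nat_lit 760) (nat_lit 3045191648) (nat_lit 625) (nat_lit 5) (nat_lit 624) (nat_lit 5) (nat_lit 634) (nat_lit 5) (nat_lit 310) (nat_lit 304) (nat_lit 286))) (XT.nd (nat_lit 78) (nat_lit 0) (nat_lit 0) (XT.lf (nat_lit 0) (nat_lit 472897339) (nat_lit 760) (nat_lit 1304672568) (nat_lit 836) (nat_lit 4925903981) (nat_lit 614) (nat_lit 5) (nat_lit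 624) (nat_lit 5) (nat_lit 625) (nat_lit 5) (nat_lit 311) (nat_lit 304) (nat_lit 285)) (XT.lf (nat_lit 76) (nat_lit 3950666317) (nat_lit 0) (nat_lit 1381852) (nat_lit 836) (nat_lit 2790441207) (nat_lit 615) (nat_lit 5) (nat_lit 614) (nat_lit 5) (nat_lit 625) (nat_lit 5) (nat_lit 312) (nat_lit 304) (nat_lit 284)))) (XT.nd (nat_lit 156) (nat_lit 1824) (nat_lit 0) (XT.nd (nat_lit 78) (nat_lit 0) (nat_lit 0) (XT.lf (nat_lit 0) (nat_lit 654201200) (nat_lit 836) (nat_lit 4247760695) (nat_lit 912) (nat_lit 1882483643) (nat_lit 604) (nat_lit 5) (nat_lit 615) (nat_lit 5) (nat_lit 616) (nat_lit 5) (nat_lit 313) (nat_lit 304) (nat_lit 283)) (XT.lf (nat_lit 76) (nat_lit 1152513058) (nat_lit 0) (nat_lit 2915343611) (nat_lit 912) (nat_lit 2761451977) (nat_lit 605) (nat_lit 5) (nat_lit 604) (nat_lit 5) (nat_lit 616) (nat_lit 5) (nat_lit 314) (nat_lit 304) (nat_lit 282))) (XT.nd (nat_lit 78) (nat_lit 912) (nat_lit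 0) (XT.lf (nat_lit 0) (nat_lit 607118580) (nat_lit 912) (nat_lit 186978505) (nat_lit 988) (nat_lit 6083253047) (nat_lit 592) (nat_lit 5) (nat_lit 604) (nat_lit 5) (nat_lit 605) (nat_lit 5) (nat_lit 315) (nat_lit 304) (nat_lit 281)) (XT.nd (nat_lit 78) (nat_lit 988) (nat_lit 0) (XT.lf (nat_lit 0) (nat_lit 3966976936) (nat_lit 912) (nat_lit 1495234492) (nat_lit 76) (nat_lit 1465783526) (nat_lit 593) (nat_lit 5) (nat_lit 605) (nat_lit 5) (nat_lit 594) (nat_lit 5) (nat_lit 316) (nat_lit 304) (nat_lit 280)) (XT.lf (nat_lit 0) (nat_lit 360663972) (nat_lit 988) (nat_lit 2769952495) (nat_lit 76) (nat_lit 3851181492) (nat_lit 580) (nat_lit 5) (nat_lit 593) (nat_lit 5) (nat_lit 581) (nat_lit 5) (nat_lit 317) (nat_lit 304) (nat_lit 279)))))) (XT.nd (nat_lit 390) (nat_lit 7372) (nat_lit 0) (XT.nd (nat_lit 156) (nat_lit 2508) (nat_lit 0) (XT.nd (nat_lit 78) (nat_lit 1064) (nat_lit 0) (XT.lf (nat_lit 0) (nat_lit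 3013763352) (nat_lit 988) (nat_lit 645732117) (nat_lit 1064) (nat_lit 3379049470) (nat_lit 567) (nat_lit 5) (nat_lit 580) (nat_lit 5) (nat_lit 581) (nat_lit 5) (nat_lit 318) (nat_lit 304) (nat_lit 278)) (XT.lf (nat_lit 0) (nat_lit 1843248655) (nat_lit 1064) (nat_lit 5148027479) (nat_lit 1140) (nat_lit 107112181) (nat_lit 553) (nat_lit 5) (nat_lit 567) (nat_lit 5) (nat_lit 568) (nat_lit 5) (nat_lit 319) (nat_lit 304) (nat_lit 277))) (XT.nd (nat_lit 78) (nat_lit 1292) (nat_lit 0) (XT.lf (nat_lit 0) (nat_lit 685381902) (nat_lit 1140) (nat_lit 2463617591) (nat_lit 1216) (nat_lit 4012097697) (nat_lit 537) (nat_lit 5) (nat_lit 552) (nat_lit 5) (nat_lit 553) (nat_lit 5) (nat_lit 320) (nat_lit 304) (nat_lit 276)) (XT.nd (nat_lit 78) (nat_lit 1292) (nat_lit 0) (XT.lf (nat_lit 0) (nat_lit 6434515159) (nat_lit 1216) (nat_lit 433700443) (nat_lit 76) (nat_lit 358862136) (nat_lit 537) (nat_lit 5) (nat_lit 553)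 (nat_lit 5) (nat_lit 538) (nat_lit 5) (nat_lit 321) (nat_lit 304) (nat_lit 275)) (XT.lf (nat_lit 0) (nat_lit 2442426628) (nat_lit 1292) (nat_lit 1542845329) (nat_lit 76) (nat_lit 3310463555) (nat_lit 520) (nat_lit 5) (nat_lit 537) (nat_lit 5) (nat_lit 521) (nat_lit 5) (nat_lit 322) (nat_lit 304) (nat_lit 274))))) (XT.nd (nat_lit 156) (nat_lit 4636) (nat_lit 0) (XT.nd (nat_lit 78) (nat_lit 1444) (nat_lit 0) (XT.lf (nat_lit 0) (nat_lit 4741907181) (nat_lit 1292) (nat_lit 955741641) (nat_lit 1368) (nat_lit 1670083315) (nat_lit 503) (nat_lit 5) (nat_lit 520) (nat_lit 5) (nat_lit 521) (nat_lit 5) (nat_lit 323) (nat_lit 304) (nat_lit 273)) (XT.lf (nat_lit 0) (nat_lit 1538750093) (nat_lit 1444) (nat_lit 3703779796) (nat_lit 76) (nat_lit 2200185597) (nat_lit 484) (nat_lit 5) (nat_lit 503) (nat_lit 5) (nat_lit 485) (nat_lit 5) (nat_lit 324) (nat_lit 304) (nat_lit 272))) (XT.nd (nat_lit 78) (nat_lit 3192) (nat_lit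 0) (XT.lf (nat_lit 0) (nat_lit 2748910495) (nat_lit 1444) (nat_lit 2018829684) (nat_lit 1520) (nat_lit 2753113880) (nat_lit 465) (nat_lit 5) (nat_lit 484) (nat_lit 5) (nat_lit 485) (nat_lit 5) (nat_lit 325) (nat_lit 304) (nat_lit 271)) (XT.nd (nat_lit 78) (nat_lit 1596) (nat_lit 0) (XT.lf (nat_lit 0) (nat_lit 437363594) (nat_lit 1596) (nat_lit 5826643709) (nat_lit 76) (nat_lit 1338289775) (nat_lit 444) (nat_lit 5) (nat_lit 465) (nat_lit 5) (nat_lit 445) (nat_lit 5) (nat_lit 326) (nat_lit 304) (nat_lit 270)) (XT.lf (nat_lit 0) (nat_lit 796660170) (nat_lit 1596) (nat_lit 2849138266) (nat_lit 1672) (nat_lit 4040881778) (nat_lit 423) (nat_lit 5) (nat_lit 444) (nat_lit 5) (nat_lit 445) (nat_lit 5) (nat_lit 327) (nat_lit 304) (nat_lit 269))))))) (XT.nd (nat_lit 780) (nat_lit 6384) (nat_lit 0) (XT.nd (nat_lit 390) (nat_lit 3344) (nat_lit 0) (XT.nd (nat_lit 156) (nat_lit 3724) (nat_lit 0) (XT.nd (nat_lit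 78) (nat_lit 1748) (nat_lit 0) (XT.lf (nat_lit 0) (nat_lit 6904998624) (nat_lit 1672) (nat_lit 160700851) (nat_lit 76) (nat_lit 708857287) (nat_lit 423) (nat_lit 5) (nat_lit 445) (nat_lit 5) (nat_lit 424) (nat_lit 5) (nat_lit 328) (nat_lit 304) (nat_lit 268)) (XT.lf (nat_lit 0) (nat_lit 2341247515) (nat_lit 1748) (nat_lit 1120225243) (nat_lit 76) (nat_lit 4403819692) (nat_lit 400) (nat_lit 5) (nat_lit 423) (nat_lit 5) (nat_lit 401) (nat_lit 5) (nat_lit 329) (nat_lit 304) (nat_lit 267))) (XT.nd (nat_lit 78) (nat_lit 1976) (nat_lit 0) (XT.lf (nat_lit 0) (nat_lit 5592415343) (nat_lit 1824) (nat_lit 2067853442) (nat_lit 76) (nat_lit 299297636) (nat_lit 377) (nat_lit 5) (nat_lit 401) (nat_lit 5) (nat_lit 378) (nat_lit 5) (nat_lit 330) (nat_lit 304) (nat_lit 266)) (XT.nd (nat_lit 78) (nat_lit 912) (nat_lit 0) (XT.lf (nat_lit 0) (nat_lit 852632914) (nat_lit 1064) (nat_lit 3026752245) (nat_lit 76) (nat_lit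 4177618825) (nat_lit 363) (nat_lit 5) (nat_lit 377) (nat_lit 5) (nat_lit 364) (nat_lit 5) (nat_lit 331) (nat_lit 304) (nat_lit 265)) (XT.lf (nat_lit 0) (nat_lit 4096530011) (nat_lit 988) (nat_lit 3986638702) (nat_lit 76) (nat_lit 74733974) (nat_lit 351) (nat_lit 5) (nat_lit 364) (nat_lit 5) (nat_lit 352) (nat_lit 5) (nat_lit 332) (nat_lit 304) (nat_lit 264))))) (XT.nd (nat_lit 156) (nat_lit 1596) (nat_lit 0) (XT.nd (nat_lit 78) (nat_lit 912) (nat_lit 0) (XT.lf (nat_lit 0) (nat_lit 3302550022) (nat_lit 836) (nat_lit 4122938337) (nat_lit 912) (nat_lit 836628356) (nat_lit 340) (nat_lit 5) (nat_lit 351) (nat_lit 5) (nat_lit 352) (nat_lit 5) (nat_lit 333) (nat_lit 304) (nat_lit 263)) (XT.lf (nat_lit 0) (nat_lit 2416334018) (nat_lit 912) (nat_lit 5938060519) (nat_lit 76) (nat_lit 15499825) (nat_lit 328) (nat_lit 5) (nat_lit 340) (nat_lit 5) (nat_lit 329) (nat_lit 5) (nat_lit 334) (nat_lit 304) (nat_lit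 262))) (XT.nd (nat_lit 78) (nat_lit 836) (nat_lit 0) (XT.lf (nat_lit 0) (nat_lit 1539435101) (nat_lit 760) (nat_lit 4210309969) (nat_lit 836) (nat_lit 2731205107) (nat_lit 318) (nat_lit 5) (nat_lit 328) (nat_lit 5) (nat_lit 329) (nat_lit 5) (nat_lit 335) (nat_lit 304) (nat_lit 261)) (XT.nd (nat_lit 78) (nat_lit 0) (nat_lit 0) (XT.lf (nat_lit 0) (nat_lit 549493496) (nat_lit 836) (nat_lit 7943865086) (nat_lit 76) (nat_lit 102553157) (nat_lit 307) (nat_lit 5) (nat_lit 318) (nat_lit 5) (nat_lit 308) (nat_lit 5) (nat_lit 336) (nat_lit 304) (nat_lit 260)) (XT.lf (nat_lit 0) (nat_lit 3892867055) (nat_lit 836) (nat_lit 271631759) (nat_lit 76) (nat_lit 4549471994) (nat_lit 307) (nat_lit 5) (nat_lit 318) (nat_lit 5) (nat_lit 308) (nat_lit 5) (nat_lit 337) (nat_lit 304) (nat_lit 259)))))) (XT.nd (nat_lit 390) (nat_lit 2660) (nat_lit 0) (XT.nd (nat_lit 156) (nat_lit 2128) (nat_lit 0) (XT.nd (nat_lit 78) (nat_lit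 836) (nat_lit 0) (XT.lf (nat_lit 0) (nat_lit 7316246693) (nat_lit 836) (nat_lit 1184736750) (nat_lit 76) (nat_lit 335029969) (nat_lit 297) (nat_lit 5) (nat_lit 308) (nat_lit 5) (nat_lit 298) (nat_lit 5) (nat_lit 338) (nat_lit 304) (nat_lit 258)) (XT.lf (nat_lit 0) (nat_lit 1859412130) (nat_lit 836) (nat_lit 2135957233) (nat_lit 76) (nat_lit 4966068533) (nat_lit 286) (nat_lit 5) (nat_lit 297) (nat_lit 5) (nat_lit 287) (nat_lit 5) (nat_lit 339) (nat_lit 304) (nat_lit 257))) (XT.nd (nat_lit 78) (nat_lit 1444) (nat_lit 0) (XT.lf (nat_lit 0) (nat_lit 5301391426) (nat_lit 760) (nat_lit 3102754903) (nat_lit 76) (nat_lit 686669558) (nat_lit 277) (nat_lit 5) (nat_lit 287) (nat_lit 5) (nat_lit 278) (nat_lit 5) (nat_lit 340) (nat_lit 304) (nat_lit 256)) (XT.nd (nat_lit 78) (nat_lit 760) (nat_lit 0) (XT.lf (nat_lit 0) (nat_lit 5124090991) (nat_lit 684) (nat_lit 3729022303) (nat_lit 760) (nat_lit 370864430) (nat_lit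 268) (nat_lit 5) (nat_lit 277) (nat_lit 5) (nat_lit 278) (nat_lit 5) (nat_lit 341) (nat_lit 304) (nat_lit 255)) (XT.lf (nat_lit 0) (nat_lit 3097998363) (nat_lit 760) (nat_lit 5131302479) (nat_lit 76) (nat_lit 1131673888) (nat_lit 258) (nat_lit 5) (nat_lit 268) (nat_lit 5) (nat_lit 259) (nat_lit 5) (nat_lit 342) (nat_lit 304) (nat_lit 254))))) (XT.nd (nat_lit 156) (nat_lit 1292) (nat_lit 0) (XT.nd (nat_lit 78) (nat_lit 684) (nat_lit 0) (XT.lf (nat_lit 0) (nat_lit 3302184435) (nat_lit 684) (nat_lit 3372410393) (nat_lit 760) (nat_lit 2827293391) (nat_lit 249) (nat_lit 5) (nat_lit 258) (nat_lit 5) (nat_lit 259) (nat_lit 5) (nat_lit 343) (nat_lit 304) (nat_lit 253)) (XT.lf (nat_lit 0) (nat_lit 698633816) (nat_lit 684) (nat_lit 7296284348) (nat_lit 76) (nat_lit 1652116770) (nat_lit 240) (nat_lit 5) (nat_lit 249) (nat_lit 5) (nat_lit 241) (nat_lit 5) (nat_lit 344) (nat_lit 304) (nat_lit 252))) (XT.nd (nat_lit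 78) (nat_lit 684) (nat_lit 0) (XT.lf (nat_lit 0) (nat_lit 1345963344) (nat_lit 608) (nat_lit 2956376487) (nat_lit 684) (nat_lit 5493641670) (nat_lit 232) (nat_lit 5) (nat_lit 240) (nat_lit 5) (nat_lit 241) (nat_lit 5) (nat_lit 345) (nat_lit 304) (nat_lit 251)) (XT.nd (nat_lit 78) (nat_lit 76) (nat_lit 0) (XT.lf (nat_lit 0) (nat_lit 311431564) (nat_lit 608) (nat_lit 7706897275) (nat_lit 684) (nat_lit 1931010864) (nat_lit 224) (nat_lit 5) (nat_lit 232) (nat_lit 5) (nat_lit 233) (nat_lit 5) (nat_lit 346) (nat_lit 304) (nat_lit 250)) (XT.lf (nat_lit 0) (nat_lit 1731878921) (nat_lit 684) (nat_lit 762563208) (nat_lit 76) (nat_lit 7612332547) (nat_lit 223) (nat_lit 5) (nat_lit 232) (nat_lit 5) (nat_lit 224) (nat_lit 5) (nat_lit 347) (nat_lit 304) (nat_lit 249))))))))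
noncomputable def xc58 : XT := (XT.nd (nat_lit 1482) (nat_lit 4332) (nat_lit 0) (XT.nd (nat_lit 702) (nat_lit 3952) (nat_lit 0) (XT.nd (nat_lit 312) (nat_lit 2128) (nat_lit 0) (XT.nd (nat_lit 156) (nat_lit 1140) (nat_lit 0) (XT.nd (nat_lit 78) (nat_lit 532) (nat_lit 0) (XT.lf (nat_lit 0) (nat_lit 5492690826) (nat_lit 684) (nat_lit 1885624310) (nat_lit 76) (nat_lit 2890101526) (nat_lit 215) (nat_lit 5) (nat_lit 224) (nat_lit 5) (nat_lit 216) (nat_lit 5) (nat_lit 348) (nat_lit 304) (nat_lit 248)) (XT.lf (nat_lit 0) (nat_lit 7384244734) (nat_lit 532) (nat_lit 1993625282) (nat_lit 608) (nat_lit 1056830967) (nat_lit 208) (nat_lit 5) (nat_lit 215) (nat_lit 5) (nat_lit 216) (nat_lit 5) (nat_lit 349) (nat_lit 304) (nat_lit 247))) (XT.nd (nat_lit 78) (nat_lit 532) (nat_lit 0) (XT.lf (nat_lit 0) (nat_lit 2757283046) (nat_lit 608) (nat_lit 4285346169) (nat_lit 76) (nat_lit 3562606656) (nat_lit 200) (nat_lit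 5) (nat_lit 208) (nat_lit 5) (nat_lit 201) (nat_lit 5) (nat_lit 350) (nat_lit 304) (nat_lit 246)) (XT.lf (nat_lit 0) (nat_lit 5206920009) (nat_lit 532) (nat_lit 1476209784) (nat_lit 608) (nat_lit 4097406064) (nat_lit 193) (nat_lit 5) (nat_lit 200) (nat_lit 5) (nat_lit 201) (nat_lit 5) (nat_lit 351) (nat_lit 304) (nat_lit 245)))) (XT.nd (nat_lit 156) (nat_lit 1064) (nat_lit 0) (XT.nd (nat_lit 78) (nat_lit 532) (nat_lit 0) (XT.lf (nat_lit 0) (nat_lit 4033887523) (nat_lit 532) (nat_lit 6720627189) (nat_lit 608) (nat_lit 206046346) (nat_lit 186) (nat_lit 5) (nat_lit 193) (nat_lit 5) (nat_lit 194) (nat_lit 5) (nat_lit 352) (nat_lit 304) (nat_lit 244)) (XT.lf (nat_lit 0) (nat_lit 2789615940) (nat_lit 456) (nat_lit 974040110) (nat_lit 532) (nat_lit 7381628366) (nat_lit 179) (nat_lit 5) (nat_lit 185) (nat_lit 5) (nat_lit 186) (nat_lit 5) (nat_lit 353) (nat_lit 304) (nat_lit 243))) (XT.nd (nat_lit 78) (nat_lit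 532) (nat_lit 0) (XT.lf (nat_lit 0) (nat_lit 1470459973) (nat_lit 532) (nat_lit 6414575804) (nat_lit 608) (nat_lit 3449798588) (nat_lit 172) (nat_lit 5) (nat_lit 179) (nat_lit 5) (nat_lit 180) (nat_lit 5) (nat_lit 354) (nat_lit 304) (nat_lit 242)) (XT.nd (nat_lit 78) (nat_lit 0) (nat_lit 0) (XT.lf (nat_lit 0) (nat_lit 95100700) (nat_lit 456) (nat_lit 508340805) (nat_lit 532) (nat_lit 10926343798) (nat_lit 165) (nat_lit 5) (nat_lit 171) (nat_lit 5) (nat_lit 172) (nat_lit 5) (nat_lit 355) (nat_lit 304) (nat_lit 241)) (XT.lf (nat_lit 0) (nat_lit 4783309915) (nat_lit 532) (nat_lit 1372499533) (nat_lit 76) (nat_lit 5573299587) (nat_lit 165) (nat_lit 5) (nat_lit 172) (nat_lit 5) (nat_lit 166) (nat_lit 5) (nat_lit 356) (nat_lit 304) (nat_lit 240)))))) (XT.nd (nat_lit 390) (nat_lit 1596) (nat_lit 0) (XT.nd (nat_lit 156) (nat_lit 1368) (nat_lit 0) (XT.nd (nat_lit 78) (nat_lit 532) (nat_lit 0) (XT.lf (nat_lit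 0) (nat_lit 9036839641) (nat_lit 456) (nat_lit 63466873) (nat_lit 532) (nat_lit 2833889125) (nat_lit 159) (nat_lit 5) (nat_lit 165) (nat_lit 5) (nat_lit 166) (nat_lit 5) (nat_lit 357) (nat_lit 304) (nat_lit 239)) (XT.lf (nat_lit 0) (nat_lit 1433044236) (nat_lit 532) (nat_lit 4531892813) (nat_lit 76) (nat_lit 6179331856) (nat_lit 152) (nat_lit 5) (nat_lit 159) (nat_lit 5) (nat_lit 153) (nat_lit 5) (nat_lit 358) (nat_lit 304) (nat_lit 238))) (XT.nd (nat_lit 78) (nat_lit 912) (nat_lit 0) (XT.lf (nat_lit 0) (nat_lit 5802759558) (nat_lit 532) (nat_lit 6253756578) (nat_lit 76) (nat_lit 303504537) (nat_lit 146) (nat_lit 5) (nat_lit 153) (nat_lit 5) (nat_lit 147) (nat_lit 5) (nat_lit 359) (nat_lit 304) (nat_lit 237)) (XT.nd (nat_lit 78) (nat_lit 532) (nat_lit 0) (XT.lf (nat_lit 0) (nat_lit 4493981495) (nat_lit 380) (nat_lit 5861626558) (nat_lit 456) (nat_lit 2225612081) (nat_lit 141) (nat_lit 5) (nat_lit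 146) (nat_lit 5) (nat_lit 147) (nat_lit 5) (nat_lit 360) (nat_lit 304) (nat_lit 236)) (XT.lf (nat_lit 0) (nat_lit 2223889885) (nat_lit 532) (nat_lit 10017197292) (nat_lit 76) (nat_lit 567348678) (nat_lit 134) (nat_lit 5) (nat_lit 141) (nat_lit 5) (nat_lit 135) (nat_lit 5) (nat_lit 361) (nat_lit 304) (nat_lit 235))))) (XT.nd (nat_lit 156) (nat_lit 1216) (nat_lit 0) (XT.nd (nat_lit 78) (nat_lit 0) (nat_lit 0) (XT.lf (nat_lit 0) (nat_lit 955424997) (nat_lit 380) (nat_lit 5875450702) (nat_lit 456) (nat_lit 6210228159) (nat_lit 129) (nat_lit 5) (nat_lit 134) (nat_lit 5) (nat_lit 135) (nat_lit 5) (nat_lit 362) (nat_lit 304) (nat_lit 234)) (XT.lf (nat_lit 0) (nat_lit 11603100462) (nat_lit 456) (nat_lit 957663700) (nat_lit 76) (nat_lit 719461485) (nat_lit 129) (nat_lit 5) (nat_lit 135) (nat_lit 5) (nat_lit 130) (nat_lit 5) (nat_lit 363) (nat_lit 304) (nat_lit 233))) (XT.nd (nat_lit 78) (nat_lit 760) (nat_lit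 0) (XT.lf (nat_lit 0) (nat_lit 3016452671) (nat_lit 456) (nat_lit 3007781841) (nat_lit 76) (nat_lit 7500637258) (nat_lit 123) (nat_lit 5) (nat_lit 129) (nat_lit 5) (nat_lit 124) (nat_lit 5) (nat_lit 364) (nat_lit 304) (nat_lit 232)) (XT.nd (nat_lit 78) (nat_lit 380) (nat_lit 0) (XT.lf (nat_lit 0) (nat_lit 7851737045) (nat_lit 456) (nat_lit 5172402627) (nat_lit 76) (nat_lit 752035439) (nat_lit 118) (nat_lit 5) (nat_lit 124) (nat_lit 5) (nat_lit 119) (nat_lit 5) (nat_lit 365) (nat_lit 304) (nat_lit 231)) (XT.lf (nat_lit 0) (nat_lit 6550756747) (nat_lit 380) (nat_lit 6341560210) (nat_lit 456) (nat_lit 1141508711) (nat_lit 113) (nat_lit 5) (nat_lit 118) (nat_lit 5) (nat_lit 119) (nat_lit 5) (nat_lit 366) (nat_lit 304) (nat_lit 230))))))) (XT.nd (nat_lit 780) (nat_lit 1596) (nat_lit 0) (XT.nd (nat_lit 390) (nat_lit 1292) (nat_lit 0) (XT.nd (nat_lit 156) (nat_lit 684) (nat_lit 0) (XT.nd (nat_lit 78) (nat_lit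 380) (nat_lit 0) (XT.lf (nat_lit 0) (nat_lit 3760304110) (nat_lit 380) (nat_lit 9936396720) (nat_lit 76) (nat_lit 601524962) (nat_lit 108) (nat_lit 5) (nat_lit 113) (nat_lit 5) (nat_lit 109) (nat_lit 5) (nat_lit 367) (nat_lit 304) (nat_lit 229)) (XT.lf (nat_lit 0) (nat_lit 2006747108) (nat_lit 380) (nat_lit 6851621609) (nat_lit 456) (nat_lit 5710756055) (nat_lit 103) (nat_lit 5) (nat_lit 108) (nat_lit 5) (nat_lit 109) (nat_lit 5) (nat_lit 368) (nat_lit 304) (nat_lit 228))) (XT.nd (nat_lit 78) (nat_lit 684) (nat_lit 0) (XT.lf (nat_lit 0) (nat_lit 14137246712) (nat_lit 456) (nat_lit 468146173) (nat_lit 76) (nat_lit 242211943) (nat_lit 103) (nat_lit 5) (nat_lit 109) (nat_lit 5) (nat_lit 104) (nat_lit 5) (nat_lit 369) (nat_lit 304) (nat_lit 227)) (XT.nd (nat_lit 78) (nat_lit 304) (nat_lit 0) (XT.lf (nat_lit 0) (nat_lit 4466352620) (nat_lit 380) (nat_lit 3123111279) (nat_lit 76) (nat_lit 7542719154) (nat_lit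 98) (nat_lit 5) (nat_lit 103) (nat_lit 5) (nat_lit 99) (nat_lit 5) (nat_lit 370) (nat_lit 304) (nat_lit 226)) (XT.lf (nat_lit 0) (nat_lit 9500129641) (nat_lit 304) (nat_lit 314014829) (nat_lit 380) (nat_lit 5610562290) (nat_lit 94) (nat_lit 5) (nat_lit 98) (nat_lit 5) (nat_lit 99) (nat_lit 5) (nat_lit 371) (nat_lit 304) (nat_lit 225))))) (XT.nd (nat_lit 156) (nat_lit 608) (nat_lit 0) (XT.nd (nat_lit 78) (nat_lit 380) (nat_lit 0) (XT.lf (nat_lit 0) (nat_lit 6800548797) (nat_lit 304) (nat_lit 8595011624) (nat_lit 380) (nat_lit 328992299) (nat_lit 90) (nat_lit 5) (nat_lit 94) (nat_lit 5) (nat_lit 95) (nat_lit 5) (nat_lit 372) (nat_lit 304) (nat_lit 224)) (XT.lf (nat_lit 0) (nat_lit 3911028550) (nat_lit 304) (nat_lit 1162467418) (nat_lit 380) (nat_lit 10958654196) (nat_lit 85) (nat_lit 5) (nat_lit 89) (nat_lit 5) (nat_lit 90) (nat_lit 5) (nat_lit 373) (nat_lit 304) (nat_lit 223))) (XT.nd (nat_lit 78)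 (nat_lit 380) (nat_lit 0) (XT.lf (nat_lit 0) (nat_lit 811093470) (nat_lit 228) (nat_lit 9893002780) (nat_lit 304) (nat_lit 5643435211) (nat_lit 82) (nat_lit 5) (nat_lit 85) (nat_lit 5) (nat_lit 86) (nat_lit 5) (nat_lit 374) (nat_lit 304) (nat_lit 222)) (XT.nd (nat_lit 78) (nat_lit 380) (nat_lit 0) (XT.lf (nat_lit 0) (nat_lit 14230006204) (nat_lit 228) (nat_lit 2326369887) (nat_lit 304) (nat_lit 114952161) (nat_lit 82) (nat_lit 5) (nat_lit 85) (nat_lit 5) (nat_lit 86) (nat_lit 5) (nat_lit 375) (nat_lit 304) (nat_lit 221)) (XT.lf (nat_lit 0) (nat_lit 5578073587) (nat_lit 380) (nat_lit 5941577551) (nat_lit 76) (nat_lit 5483034889) (nat_lit 77) (nat_lit 5) (nat_lit 82) (nat_lit 5) (nat_lit 78) (nat_lit 5) (nat_lit 376) (nat_lit 304) (nat_lit 220)))))) (XT.nd (nat_lit 390) (nat_lit 532) (nat_lit 0) (XT.nd (nat_lit 156) (nat_lit 532) (nat_lit 0) (XT.nd (nat_lit 78) (nat_lit 304) (nat_lit 0) (XT.lf (nat_lit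 0) (nat_lit 7685021233) (nat_lit 228) (nat_lit 3801703208) (nat_lit 304) (nat_lit 5856325556) (nat_lit 74) (nat_lit 5) (nat_lit 77) (nat_lit 5) (nat_lit 78) (nat_lit 5) (nat_lit 377) (nat_lit 304) (nat_lit 219)) (XT.lf (nat_lit 0) (nat_lit 4077871955) (nat_lit 304) (nat_lit 13553509357) (nat_lit 380) (nat_lit 61076977) (nat_lit 70) (nat_lit 5) (nat_lit 74) (nat_lit 5) (nat_lit 75) (nat_lit 5) (nat_lit 378) (nat_lit 304) (nat_lit 218))) (XT.nd (nat_lit 78) (nat_lit 228) (nat_lit 0) (XT.lf (nat_lit 0) (nat_lit 188384641) (nat_lit 228) (nat_lit 5699919052) (nat_lit 304) (nat_lit 12162130700) (nat_lit 66) (nat_lit 5) (nat_lit 69) (nat_lit 5) (nat_lit 70) (nat_lit 5) (nat_lit 379) (nat_lit 304) (nat_lit 217)) (XT.nd (nat_lit 78) (nat_lit 228) (nat_lit 0) (XT.lf (nat_lit 0) (nat_lit 12089462148) (nat_lit 304) (nat_lit 3898539447) (nat_lit 76) (nat_lit 2429665285) (nat_lit 66) (nat_lit 5) (nat_lit 70) (nat_lit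 5) (nat_lit 67) (nat_lit 5) (nat_lit 380) (nat_lit 304) (nat_lit 216)) (XT.lf (nat_lit 0) (nat_lit 10528987700) (nat_lit 228) (nat_lit 8020885488) (nat_lit 304) (nat_lit 244586273) (nat_lit 63) (nat_lit 5) (nat_lit 66) (nat_lit 5) (nat_lit 67) (nat_lit 5) (nat_lit 381) (nat_lit 304) (nat_lit 215))))) (XT.nd (nat_lit 156) (nat_lit 0) (nat_lit 0) (XT.nd (nat_lit 78) (nat_lit 228) (nat_lit 0) (XT.lf (nat_lit 0) (nat_lit 5978632491) (nat_lit 304) (nat_lit 12933913265) (nat_lit 76) (nat_lit 268513954) (nat_lit 59) (nat_lit 5) (nat_lit 63) (nat_lit 5) (nat_lit 60) (nat_lit 5) (nat_lit 382) (nat_lit 304) (nat_lit 214)) (XT.lf (nat_lit 0) (nat_lit 1641988581) (nat_lit 228) (nat_lit 10831541053) (nat_lit 304) (nat_lit 7103936810) (nat_lit 56) (nat_lit 5) (nat_lit 59) (nat_lit 5) (nat_lit 60) (nat_lit 5) (nat_lit 383) (nat_lit 304) (nat_lit 213))) (XT.nd (nat_lit 40716) (nat_lit 0) (nat_lit 44384) (XT.lf (nat_lit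 0) (nat_lit 16779040645) (nat_lit 228) (nat_lit 2440081034) (nat_lit 304) (nat_lit 765533447) (nat_lit 56) (nat_lit 5) (nat_lit 59) (nat_lit 5) (nat_lit 60) (nat_lit 5) (nat_lit 384) (nat_lit 304) (nat_lit 212)) (XT.nd (nat_lit 78) (nat_lit 0) (nat_lit 0) (XT.lf (nat_lit 0) (nat_lit 553395614) (nat_lit 0) (nat_lit 553395614) (nat_lit 532) (nat_lit 2168404386) (nat_lit 640) (nat_lit 5) (nat_lit 640) (nat_lit 3) (nat_lit 647) (nat_lit 3) (nat_lit 305) (nat_lit 305) (nat_lit 290)) (XT.lf (nat_lit 0) (nat_lit 5816588615) (nat_lit 0) (nat_lit 38394935) (nat_lit 532) (nat_lit 718556865) (nat_lit 640) (nat_lit 5) (nat_lit 640) (nat_lit 3) (nat_lit 647) (nat_lit 3) (nat_lit 306) (nat_lit 305) (nat_lit 289))))))))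
noncomputable def xc59 : XT := (XT.nd (nat_lit 1560) (nat_lit 17632) (nat_lit 0) (XT.nd (nat_lit 780) (nat_lit 9728) (nat_lit 0) (XT.nd (nat_lit 390) (nat_lit 1596) (nat_lit 0) (XT.nd (nat_lit 156) (nat_lit 1444) (nat_lit 0) (XT.nd (nat_lit 78) (nat_lit 0) (nat_lit 0) (XT.lf (nat_lit 0) (nat_lit 2860747795) (nat_lit 608) (nat_lit 2575841246) (nat_lit 684) (nat_lit 1162677824) (nat_lit 632) (nat_lit 5) (nat_lit 640) (nat_lit 5) (nat_lit 641) (nat_lit 5) (nat_lit 307) (nat_lit 305) (nat_lit 288)) (XT.lf (nat_lit 76) (nat_lit 2282208585) (nat_lit 0) (nat_lit 4137994445) (nat_lit 684) (nat_lit 207925724) (nat_lit 633) (nat_lit 5) (nat_lit 632) (nat_lit 5) (nat_lit 641) (nat_lit 5) (nat_lit 308) (nat_lit 305) (nat_lit 287))) (XT.nd (nat_lit 78) (nat_lit 760) (nat_lit 0) (XT.lf (nat_lit 76) (nat_lit 573666770) (nat_lit 0) (nat_lit 2696030205) (nat_lit 760) (nat_lit 3390096802) (nat_lit 624) (nat_lit 5)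 (nat_lit 623) (nat_lit 5) (nat_lit 633) (nat_lit 5) (nat_lit 309) (nat_lit 305) (nat_lit 286)) (XT.nd (nat_lit 78) (nat_lit 0) (nat_lit 76) (XT.lf (nat_lit 0) (nat_lit 51310478) (nat_lit 760) (nat_lit 1069957123) (nat_lit 836) (nat_lit 5573253985) (nat_lit 613) (nat_lit 5) (nat_lit 623) (nat_lit 5) (nat_lit 624) (nat_lit 5) (nat_lit 310) (nat_lit 305) (nat_lit 285)) (XT.lf (nat_lit 0) (nat_lit 3451551177) (nat_lit 760) (nat_lit 2682393621) (nat_lit 836) (nat_lit 597961428) (nat_lit 614) (nat_lit 5) (nat_lit 624) (nat_lit 5) (nat_lit 625) (nat_lit 5) (nat_lit 311) (nat_lit 305) (nat_lit 284))))) (XT.nd (nat_lit 156) (nat_lit 836) (nat_lit 0) (XT.nd (nat_lit 78) (nat_lit 0) (nat_lit 0) (XT.lf (nat_lit 0) (nat_lit 86167345) (nat_lit 836) (nat_lit 4255964494) (nat_lit 912) (nat_lit 2430244561) (nat_lit 603) (nat_lit 5) (nat_lit 614) (nat_lit 5) (nat_lit 615) (nat_lit 5) (nat_lit 312) (nat_lit 305) (nat_lit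 283)) (XT.lf (nat_lit 76) (nat_lit 1009464771) (nat_lit 0) (nat_lit 2401789202) (nat_lit 912) (nat_lit 3404419185) (nat_lit 604) (nat_lit 5) (nat_lit 603) (nat_lit 5) (nat_lit 615) (nat_lit 5) (nat_lit 313) (nat_lit 305) (nat_lit 282))) (XT.nd (nat_lit 78) (nat_lit 836) (nat_lit 0) (XT.lf (nat_lit 76) (nat_lit 6416426457) (nat_lit 0) (nat_lit 328633670) (nat_lit 912) (nat_lit 117115623) (nat_lit 604) (nat_lit 5) (nat_lit 603) (nat_lit 5) (nat_lit 615) (nat_lit 5) (nat_lit 314) (nat_lit 305) (nat_lit 281)) (XT.nd (nat_lit 78) (nat_lit 0) (nat_lit 0) (XT.lf (nat_lit 0) (nat_lit 3153833060) (nat_lit 912) (nat_lit 1877455811) (nat_lit 988) (nat_lit 1879884258) (nat_lit 592) (nat_lit 5) (nat_lit 604) (nat_lit 5) (nat_lit 605) (nat_lit 5) (nat_lit 315) (nat_lit 305) (nat_lit 280)) (XT.lf (nat_lit 76) (nat_lit 3691926193) (nat_lit 0) (nat_lit 2744585261) (nat_lit 988) (nat_lit 526889368) (nat_lit 593) (nat_lit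 5) (nat_lit 592) (nat_lit 5) (nat_lit 605) (nat_lit 5) (nat_lit 316) (nat_lit 305) (nat_lit 279)))))) (XT.nd (nat_lit 390) (nat_lit 5472) (nat_lit 0) (XT.nd (nat_lit 156) (nat_lit 2356) (nat_lit 0) (XT.nd (nat_lit 78) (nat_lit 912) (nat_lit 0) (XT.lf (nat_lit 76) (nat_lit 2374096967) (nat_lit 0) (nat_lit 305870116) (nat_lit 1064) (nat_lit 4338616077) (nat_lit 580) (nat_lit 5) (nat_lit 579) (nat_lit 5) (nat_lit 593) (nat_lit 5) (nat_lit 317) (nat_lit 305) (nat_lit 278)) (XT.lf (nat_lit 0) (nat_lit 1077809801) (nat_lit 988) (nat_lit 4832739617) (nat_lit 1064) (nat_lit 1166181996) (nat_lit 567) (nat_lit 5) (nat_lit 580) (nat_lit 5) (nat_lit 581) (nat_lit 5) (nat_lit 318) (nat_lit 305) (nat_lit 277))) (XT.nd (nat_lit 78) (nat_lit 2280) (nat_lit 0) (XT.lf (nat_lit 0) (nat_lit 2000499754) (nat_lit 1064) (nat_lit 193955824) (nat_lit 76) (nat_lit 4943433081) (nat_lit 566) (nat_lit 5) (nat_lit 580) (nat_lit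 5) (nat_lit 567) (nat_lit 5) (nat_lit 319) (nat_lit 305) (nat_lit 276)) (XT.nd (nat_lit 78) (nat_lit 1216) (nat_lit 0) (XT.lf (nat_lit 0) (nat_lit 5183853557) (nat_lit 1140) (nat_lit 1428022929) (nat_lit 76) (nat_lit 590167740) (nat_lit 552) (nat_lit 5) (nat_lit 567) (nat_lit 5) (nat_lit 553) (nat_lit 5) (nat_lit 320) (nat_lit 305) (nat_lit 275)) (XT.lf (nat_lit 0) (nat_lit 1123269318) (nat_lit 1216) (nat_lit 2651323390) (nat_lit 76) (nat_lit 3494554375) (nat_lit 536) (nat_lit 5) (nat_lit 552) (nat_lit 5) (nat_lit 537) (nat_lit 5) (nat_lit 321) (nat_lit 305) (nat_lit 274))))) (XT.nd (nat_lit 156) (nat_lit 2888) (nat_lit 0) (XT.nd (nat_lit 78) (nat_lit 1368) (nat_lit 0) (XT.lf (nat_lit 0) (nat_lit 3482272976) (nat_lit 1216) (nat_lit 782286415) (nat_lit 1292) (nat_lit 3074839633) (nat_lit 520) (nat_lit 5) (nat_lit 536) (nat_lit 5) (nat_lit 537) (nat_lit 5) (nat_lit 322) (nat_lit 305) (nat_lit 273))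 (XT.lf (nat_lit 0) (nat_lit 38203385) (nat_lit 1368) (nat_lit 5049593514) (nat_lit 76) (nat_lit 2324989396) (nat_lit 502) (nat_lit 5) (nat_lit 520) (nat_lit 5) (nat_lit 503) (nat_lit 5) (nat_lit 323) (nat_lit 305) (nat_lit 272))) (XT.nd (nat_lit 78) (nat_lit 1520) (nat_lit 0) (XT.lf (nat_lit 0) (nat_lit 1248129683) (nat_lit 1368) (nat_lit 1899313784) (nat_lit 1444) (nat_lit 4341691749) (nat_lit 484) (nat_lit 5) (nat_lit 502) (nat_lit 5) (nat_lit 503) (nat_lit 5) (nat_lit 324) (nat_lit 305) (nat_lit 271)) (XT.nd (nat_lit 78) (nat_lit 76) (nat_lit 0) (XT.lf (nat_lit 0) (nat_lit 151472585) (nat_lit 1444) (nat_lit 6149996146) (nat_lit 1520) (nat_lit 1267332162) (nat_lit 465) (nat_lit 5) (nat_lit 484) (nat_lit 5) (nat_lit 485) (nat_lit 5) (nat_lit 325) (nat_lit 305) (nat_lit 270)) (XT.lf (nat_lit 0) (nat_lit 1838263281) (nat_lit 1520) (nat_lit 932281423) (nat_lit 76) (nat_lit 4880840657) (nat_lit 464)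 (nat_lit 5) (nat_lit 484) (nat_lit 5) (nat_lit 465) (nat_lit 5) (nat_lit 326) (nat_lit 305) (nat_lit 269))))))) (XT.nd (nat_lit 780) (nat_lit 6460) (nat_lit 0) (XT.nd (nat_lit 390) (nat_lit 3496) (nat_lit 0) (XT.nd (nat_lit 156) (nat_lit 4484) (nat_lit 0) (XT.nd (nat_lit 78) (nat_lit 1672) (nat_lit 0) (XT.lf (nat_lit 0) (nat_lit 4973463780) (nat_lit 1596) (nat_lit 2004092539) (nat_lit 76) (nat_lit 759702561) (nat_lit 444) (nat_lit 5) (nat_lit 465) (nat_lit 5) (nat_lit 445) (nat_lit 5) (nat_lit 327) (nat_lit 305) (nat_lit 268)) (XT.lf (nat_lit 0) (nat_lit 341039833) (nat_lit 1672) (nat_lit 3075560210) (nat_lit 76) (nat_lit 4409729804) (nat_lit 422) (nat_lit 5) (nat_lit 444) (nat_lit 5) (nat_lit 423) (nat_lit 5) (nat_lit 328) (nat_lit 305) (nat_lit 267))) (XT.nd (nat_lit 78) (nat_lit 2812) (nat_lit 0) (XT.lf (nat_lit 0) (nat_lit 3456813338) (nat_lit 1748) (nat_lit 4148345136) (nat_lit 76) (nat_lit 313490446)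 (nat_lit 400) (nat_lit 5) (nat_lit 423) (nat_lit 5) (nat_lit 401) (nat_lit 5) (nat_lit 329) (nat_lit 305) (nat_lit 266)) (XT.nd (nat_lit 78) (nat_lit 1064) (nat_lit 0) (XT.lf (nat_lit 0) (nat_lit 2786961591) (nat_lit 1748) (nat_lit 3857965579) (nat_lit 1824) (nat_lit 1369279856) (nat_lit 377) (nat_lit 5) (nat_lit 400) (nat_lit 5) (nat_lit 401) (nat_lit 5) (nat_lit 330) (nat_lit 305) (nat_lit 265)) (XT.lf (nat_lit 0) (nat_lit 1750959465) (nat_lit 1064) (nat_lit 6303665019) (nat_lit 76) (nat_lit 58641621) (nat_lit 363) (nat_lit 5) (nat_lit 377) (nat_lit 5) (nat_lit 364) (nat_lit 5) (nat_lit 331) (nat_lit 305) (nat_lit 264))))) (XT.nd (nat_lit 156) (nat_lit 2584) (nat_lit 0) (XT.nd (nat_lit 78) (nat_lit 0) (nat_lit 0) (XT.lf (nat_lit 0) (nat_lit 812754912) (nat_lit 912) (nat_lit 4120494440) (nat_lit 988) (nat_lit 3282168907) (nat_lit 351) (nat_lit 5) (nat_lit 363) (nat_lit 5) (nat_lit 364) (nat_lit 5)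 (nat_lit 332) (nat_lit 305) (nat_lit 263)) (XT.lf (nat_lit 0) (nat_lit 8152977084) (nat_lit 912) (nat_lit 22784813) (nat_lit 988) (nat_lit 145619989) (nat_lit 351) (nat_lit 5) (nat_lit 363) (nat_lit 5) (nat_lit 364) (nat_lit 5) (nat_lit 333) (nat_lit 305) (nat_lit 262))) (XT.nd (nat_lit 78) (nat_lit 1672) (nat_lit 0) (XT.lf (nat_lit 0) (nat_lit 3043332294) (nat_lit 912) (nat_lit 1174892349) (nat_lit 76) (nat_lit 4211963797) (nat_lit 339) (nat_lit 5) (nat_lit 351) (nat_lit 5) (nat_lit 340) (nat_lit 5) (nat_lit 334) (nat_lit 305) (nat_lit 261)) (XT.nd (nat_lit 78) (nat_lit 836) (nat_lit 0) (XT.lf (nat_lit 0) (nat_lit 6294641136) (nat_lit 912) (nat_lit 2174363861) (nat_lit 76) (nat_lit 73900418) (nat_lit 328) (nat_lit 5) (nat_lit 340) (nat_lit 5) (nat_lit 329) (nat_lit 5) (nat_lit 335) (nat_lit 305) (nat_lit 260)) (XT.lf (nat_lit 0) (nat_lit 970423185) (nat_lit 836) (nat_lit 3201943074) (nat_lit 76)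 (nat_lit 4486569745) (nat_lit 317) (nat_lit 5) (nat_lit 328) (nat_lit 5) (nat_lit 318) (nat_lit 5) (nat_lit 336) (nat_lit 305) (nat_lit 259)))))) (XT.nd (nat_lit 390) (nat_lit 2736) (nat_lit 0) (XT.nd (nat_lit 156) (nat_lit 2204) (nat_lit 0) (XT.nd (nat_lit 78) (nat_lit 760) (nat_lit 0) (XT.lf (nat_lit 0) (nat_lit 4229939969) (nat_lit 836) (nat_lit 4242626887) (nat_lit 76) (nat_lit 306123019) (nat_lit 307) (nat_lit 5) (nat_lit 318) (nat_lit 5) (nat_lit 308) (nat_lit 5) (nat_lit 337) (nat_lit 305) (nat_lit 258)) (XT.lf (nat_lit 0) (nat_lit 3592140714) (nat_lit 760) (nat_lit 3998079251) (nat_lit 836) (nat_lit 1311791656) (nat_lit 297) (nat_lit 5) (nat_lit 307) (nat_lit 5) (nat_lit 308) (nat_lit 5) (nat_lit 338) (nat_lit 305) (nat_lit 257))) (XT.nd (nat_lit 78) (nat_lit 1368) (nat_lit 0) (XT.lf (nat_lit 0) (nat_lit 1977120440) (nat_lit 836) (nat_lit 6395826444) (nat_lit 76) (nat_lit 656229323) (nat_lit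 286) (nat_lit 5) (nat_lit 297) (nat_lit 5) (nat_lit 287) (nat_lit 5) (nat_lit 339) (nat_lit 305) (nat_lit 256)) (XT.nd (nat_lit 78) (nat_lit 684) (nat_lit 0) (XT.lf (nat_lit 0) (nat_lit 1638646583) (nat_lit 684) (nat_lit 3714402145) (nat_lit 760) (nat_lit 3806842338) (nat_lit 277) (nat_lit 5) (nat_lit 286) (nat_lit 5) (nat_lit 287) (nat_lit 5) (nat_lit 340) (nat_lit 305) (nat_lit 255)) (XT.lf (nat_lit 0) (nat_lit 633737135) (nat_lit 684) (nat_lit 8185205288) (nat_lit 760) (nat_lit 475842431) (nat_lit 268) (nat_lit 5) (nat_lit 277) (nat_lit 5) (nat_lit 278) (nat_lit 5) (nat_lit 341) (nat_lit 305) (nat_lit 254))))) (XT.nd (nat_lit 156) (nat_lit 1976) (nat_lit 0) (XT.nd (nat_lit 78) (nat_lit 684) (nat_lit 0) (XT.lf (nat_lit 0) (nat_lit 2927369078) (nat_lit 760) (nat_lit 415713509) (nat_lit 76) (nat_lit 6090068111) (nat_lit 267) (nat_lit 5) (nat_lit 277) (nat_lit 5) (nat_lit 268) (nat_lit 5) (nat_lit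 342) (nat_lit 305) (nat_lit 253)) (XT.lf (nat_lit 0) (nat_lit 6426661353) (nat_lit 760) (nat_lit 1479480110) (nat_lit 76) (nat_lit 1669483029) (nat_lit 258) (nat_lit 5) (nat_lit 268) (nat_lit 5) (nat_lit 259) (nat_lit 5) (nat_lit 343) (nat_lit 305) (nat_lit 252))) (XT.nd (nat_lit 78) (nat_lit 1216) (nat_lit 0) (XT.lf (nat_lit 0) (nat_lit 314237178) (nat_lit 760) (nat_lit 2579006667) (nat_lit 76) (nat_lit 6828921578) (nat_lit 248) (nat_lit 5) (nat_lit 258) (nat_lit 5) (nat_lit 249) (nat_lit 5) (nat_lit 344) (nat_lit 305) (nat_lit 251)) (XT.nd (nat_lit 78) (nat_lit 608) (nat_lit 0) (XT.lf (nat_lit 0) (nat_lit 3843024188) (nat_lit 684) (nat_lit 3729040574) (nat_lit 76) (nat_lit 2300558749) (nat_lit 240) (nat_lit 5) (nat_lit 249) (nat_lit 5) (nat_lit 241) (nat_lit 5) (nat_lit 345) (nat_lit 305) (nat_lit 250)) (XT.lf (nat_lit 0) (nat_lit 5111049050) (nat_lit 608) (nat_lit 2377001871) (nat_lit 684) (nat_lit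 2539362794) (nat_lit 232) (nat_lit 5) (nat_lit 240) (nat_lit 5) (nat_lit 241) (nat_lit 5) (nat_lit 346) (nat_lit 305) (nat_lit 249))))))))
noncomputable def xc60 : XT := (XT.nd (nat_lit 1482) (nat_lit 4712) (nat_lit 0) (XT.nd (nat_lit 702) (nat_lit 4104) (nat_lit 0) (XT.nd (nat_lit 312) (nat_lit 2128) (nat_lit 0) (XT.nd (nat_lit 156) (nat_lit 1140) (nat_lit 0) (XT.nd (nat_lit 78) (nat_lit 608) (nat_lit 0) (XT.lf (nat_lit 0) (nat_lit 1054230287) (nat_lit 684) (nat_lit 6151340460) (nat_lit 76) (nat_lit 2980914589) (nat_lit 223) (nat_lit 5) (nat_lit 232) (nat_lit 5) (nat_lit 224) (nat_lit 5) (nat_lit 347) (nat_lit 305) (nat_lit 248)) (XT.lf (nat_lit 0) (nat_lit 2905866387) (nat_lit 608) (nat_lit 1826045573) (nat_lit 684) (nat_lit 5617889756) (nat_lit 215) (nat_lit 5) (nat_lit 223) (nat_lit 5) (nat_lit 224) (nat_lit 5) (nat_lit 348) (nat_lit 305) (nat_lit 247))) (XT.nd (nat_lit 78) (nat_lit 608) (nat_lit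 0) (XT.lf (nat_lit 0) (nat_lit 1728205071) (nat_lit 532) (nat_lit 6812432574) (nat_lit 608) (nat_lit 1976988909) (nat_lit 208) (nat_lit 5) (nat_lit 215) (nat_lit 5) (nat_lit 216) (nat_lit 5) (nat_lit 349) (nat_lit 305) (nat_lit 246)) (XT.lf (nat_lit 0) (nat_lit 498943137) (nat_lit 532) (nat_lit 1261382348) (nat_lit 608) (nat_lit 8929743688) (nat_lit 200) (nat_lit 5) (nat_lit 207) (nat_lit 5) (nat_lit 208) (nat_lit 5) (nat_lit 350) (nat_lit 305) (nat_lit 245)))) (XT.nd (nat_lit 156) (nat_lit 1596) (nat_lit 0) (XT.nd (nat_lit 78) (nat_lit 532) (nat_lit 0) (XT.lf (nat_lit 0) (nat_lit 5617220286) (nat_lit 608) (nat_lit 794093404) (nat_lit 76) (nat_lit 4455445086) (nat_lit 200) (nat_lit 5) (nat_lit 208) (nat_lit 5) (nat_lit 201) (nat_lit 5) (nat_lit 351) (nat_lit 305) (nat_lit 244)) (XT.lf (nat_lit 0) (nat_lit 8924213591) (nat_lit 532) (nat_lit 678859910) (nat_lit 608) (nat_lit 1445431381) (nat_lit 193)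 (nat_lit 5) (nat_lit 200) (nat_lit 5) (nat_lit 201) (nat_lit 5) (nat_lit 352) (nat_lit 305) (nat_lit 243))) (XT.nd (nat_lit 78) (nat_lit 988) (nat_lit 0) (XT.lf (nat_lit 0) (nat_lit 2477855283) (nat_lit 608) (nat_lit 3543892652) (nat_lit 76) (nat_lit 5212904427) (nat_lit 185) (nat_lit 5) (nat_lit 193) (nat_lit 5) (nat_lit 186) (nat_lit 5) (nat_lit 353) (nat_lit 305) (nat_lit 242)) (XT.nd (nat_lit 78) (nat_lit 532) (nat_lit 0) (XT.lf (nat_lit 0) (nat_lit 6404277028) (nat_lit 456) (nat_lit 104242872) (nat_lit 532) (nat_lit 4917506203) (nat_lit 179) (nat_lit 5) (nat_lit 185) (nat_lit 5) (nat_lit 186) (nat_lit 5) (nat_lit 354) (nat_lit 305) (nat_lit 241)) (XT.lf (nat_lit 0) (nat_lit 5035265197) (nat_lit 532) (nat_lit 5670142641) (nat_lit 608) (nat_lit 916845855) (nat_lit 172) (nat_lit 5) (nat_lit 179) (nat_lit 5) (nat_lit 180) (nat_lit 5) (nat_lit 355) (nat_lit 305) (nat_lit 240)))))) (XT.nd (nat_lit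 390) (nat_lit 2128) (nat_lit 0) (XT.nd (nat_lit 156) (nat_lit 988) (nat_lit 0) (XT.nd (nat_lit 78) (nat_lit 456) (nat_lit 0) (XT.lf (nat_lit 0) (nat_lit 3173112584) (nat_lit 532) (nat_lit 8230107702) (nat_lit 76) (nat_lit 420523656) (nat_lit 165) (nat_lit 5) (nat_lit 172) (nat_lit 5) (nat_lit 166) (nat_lit 5) (nat_lit 356) (nat_lit 305) (nat_lit 239)) (XT.lf (nat_lit 0) (nat_lit 2054255703) (nat_lit 456) (nat_lit 5366441909) (nat_lit 532) (nat_lit 4609529680) (nat_lit 159) (nat_lit 5) (nat_lit 165) (nat_lit 5) (nat_lit 166) (nat_lit 5) (nat_lit 357) (nat_lit 305) (nat_lit 238))) (XT.nd (nat_lit 78) (nat_lit 532) (nat_lit 0) (XT.lf (nat_lit 0) (nat_lit 450475743) (nat_lit 456) (nat_lit 11361820525) (nat_lit 532) (nat_lit 430293934) (nat_lit 153) (nat_lit 5) (nat_lit 159) (nat_lit 5) (nat_lit 160) (nat_lit 5) (nat_lit 358) (nat_lit 305) (nat_lit 237)) (XT.nd (nat_lit 78) (nat_lit 456) (nat_lit 0) (XT.lf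 (nat_lit 0) (nat_lit 3880075492) (nat_lit 532) (nat_lit 1262292616) (nat_lit 76) (nat_lit 7317337392) (nat_lit 152) (nat_lit 5) (nat_lit 159) (nat_lit 5) (nat_lit 153) (nat_lit 5) (nat_lit 359) (nat_lit 305) (nat_lit 236)) (XT.lf (nat_lit 0) (nat_lit 8339071276) (nat_lit 532) (nat_lit 3049618087) (nat_lit 76) (nat_lit 1294100290) (nat_lit 146) (nat_lit 5) (nat_lit 153) (nat_lit 5) (nat_lit 147) (nat_lit 5) (nat_lit 360) (nat_lit 305) (nat_lit 235))))) (XT.nd (nat_lit 156) (nat_lit 1216) (nat_lit 0) (XT.nd (nat_lit 78) (nat_lit 456) (nat_lit 0) (XT.lf (nat_lit 0) (nat_lit 68860750) (nat_lit 456) (nat_lit 4946518829) (nat_lit 76) (nat_lit 7896202152) (nat_lit 140) (nat_lit 5) (nat_lit 146) (nat_lit 5) (nat_lit 141) (nat_lit 5) (nat_lit 361) (nat_lit 305) (nat_lit 234)) (XT.lf (nat_lit 0) (nat_lit 4582080894) (nat_lit 532) (nat_lit 6964166867) (nat_lit 76) (nat_lit 1599884347) (nat_lit 134) (nat_lit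 5) (nat_lit 141) (nat_lit 5) (nat_lit 135) (nat_lit 5) (nat_lit 362) (nat_lit 305) (nat_lit 233))) (XT.nd (nat_lit 78) (nat_lit 836) (nat_lit 0) (XT.lf (nat_lit 0) (nat_lit 4283226785) (nat_lit 380) (nat_lit 4998727727) (nat_lit 456) (nat_lit 4104753260) (nat_lit 129) (nat_lit 5) (nat_lit 134) (nat_lit 5) (nat_lit 135) (nat_lit 5) (nat_lit 363) (nat_lit 305) (nat_lit 232)) (XT.nd (nat_lit 78) (nat_lit 380) (nat_lit 0) (XT.lf (nat_lit 0) (nat_lit 512676637) (nat_lit 456) (nat_lit 11353000406) (nat_lit 76) (nat_lit 1768158348) (nat_lit 123) (nat_lit 5) (nat_lit 129) (nat_lit 5) (nat_lit 124) (nat_lit 5) (nat_lit 364) (nat_lit 305) (nat_lit 231)) (XT.lf (nat_lit 0) (nat_lit 121053316) (nat_lit 380) (nat_lit 5145894731) (nat_lit 456) (nat_lit 8619817276) (nat_lit 118) (nat_lit 5) (nat_lit 123) (nat_lit 5) (nat_lit 124) (nat_lit 5) (nat_lit 365) (nat_lit 305) (nat_lit 230))))))) (XT.nd (nat_lit 780) (nat_lit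 1976) (nat_lit 0) (XT.nd (nat_lit 390) (nat_lit 1216) (nat_lit 0) (XT.nd (nat_lit 156) (nat_lit 1064) (nat_lit 0) (XT.nd (nat_lit 78) (nat_lit 456) (nat_lit 0) (XT.lf (nat_lit 0) (nat_lit 10210973253) (nat_lit 456) (nat_lit 2126129368) (nat_lit 76) (nat_lit 1809250505) (nat_lit 118) (nat_lit 5) (nat_lit 124) (nat_lit 5) (nat_lit 119) (nat_lit 5) (nat_lit 366) (nat_lit 305) (nat_lit 229)) (XT.lf (nat_lit 0) (nat_lit 936341108) (nat_lit 456) (nat_lit 4521954776) (nat_lit 76) (nat_lit 8954160690) (nat_lit 112) (nat_lit 5) (nat_lit 118) (nat_lit 5) (nat_lit 113) (nat_lit 5) (nat_lit 367) (nat_lit 305) (nat_lit 228))) (XT.nd (nat_lit 78) (nat_lit 760) (nat_lit 0) (XT.lf (nat_lit 0) (nat_lit 5935969090) (nat_lit 380) (nat_lit 7073321872) (nat_lit 76) (nat_lit 1676039008) (nat_lit 108) (nat_lit 5) (nat_lit 113) (nat_lit 5) (nat_lit 109) (nat_lit 5) (nat_lit 368) (nat_lit 305) (nat_lit 227)) (XT.nd (nat_lit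 78) (nat_lit 380) (nat_lit 0) (XT.lf (nat_lit 0) (nat_lit 5176830096) (nat_lit 380) (nat_lit 5970253767) (nat_lit 456) (nat_lit 3818086944) (nat_lit 103) (nat_lit 5) (nat_lit 108) (nat_lit 5) (nat_lit 109) (nat_lit 5) (nat_lit 369) (nat_lit 305) (nat_lit 226)) (XT.lf (nat_lit 0) (nat_lit 1279438738) (nat_lit 380) (nat_lit 12656894980) (nat_lit 76) (nat_lit 1316222984) (nat_lit 98) (nat_lit 5) (nat_lit 103) (nat_lit 5) (nat_lit 99) (nat_lit 5) (nat_lit 370) (nat_lit 305) (nat_lit 225))))) (XT.nd (nat_lit 156) (nat_lit 912) (nat_lit 0) (XT.nd (nat_lit 78) (nat_lit 304) (nat_lit 0) (XT.lf (nat_lit 0) (nat_lit 6546658680) (nat_lit 380) (nat_lit 187650666) (nat_lit 76) (nat_lit 8812387599) (nat_lit 98) (nat_lit 5) (nat_lit 103) (nat_lit 5) (nat_lit 99) (nat_lit 5) (nat_lit 371) (nat_lit 305) (nat_lit 224)) (XT.lf (nat_lit 0) (nat_lit 12022397594) (nat_lit 380) (nat_lit 3088469328) (nat_lit 76) (nat_lit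 737794474) (nat_lit 94) (nat_lit 5) (nat_lit 99) (nat_lit 5) (nat_lit 95) (nat_lit 5) (nat_lit 372) (nat_lit 305) (nat_lit 223))) (XT.nd (nat_lit 78) (nat_lit 532) (nat_lit 0) (XT.lf (nat_lit 0) (nat_lit 1557878916) (nat_lit 380) (nat_lit 6201007707) (nat_lit 76) (nat_lit 8399115319) (nat_lit 89) (nat_lit 5) (nat_lit 94) (nat_lit 5) (nat_lit 90) (nat_lit 5) (nat_lit 373) (nat_lit 305) (nat_lit 222)) (XT.nd (nat_lit 78) (nat_lit 228) (nat_lit 0) (XT.lf (nat_lit 0) (nat_lit 6968390499) (nat_lit 304) (nat_lit 113580289) (nat_lit 380) (nat_lit 9393547194) (nat_lit 85) (nat_lit 5) (nat_lit 89) (nat_lit 5) (nat_lit 90) (nat_lit 5) (nat_lit 374) (nat_lit 305) (nat_lit 221)) (XT.lf (nat_lit 0) (nat_lit 3757823243) (nat_lit 228) (nat_lit 9095405409) (nat_lit 304) (nat_lit 3947711000) (nat_lit 82) (nat_lit 5) (nat_lit 85) (nat_lit 5) (nat_lit 86) (nat_lit 5) (nat_lit 375) (nat_lit 305) (nat_lit 220)))))) (XT.nd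 (nat_lit 390) (nat_lit 760) (nat_lit 0) (XT.nd (nat_lit 156) (nat_lit 836) (nat_lit 0) (XT.nd (nat_lit 78) (nat_lit 0) (nat_lit 0) (XT.lf (nat_lit 0) (nat_lit 352289233) (nat_lit 304) (nat_lit 1320108531) (nat_lit 380) (nat_lit 15462865273) (nat_lit 77) (nat_lit 5) (nat_lit 81) (nat_lit 5) (nat_lit 82) (nat_lit 5) (nat_lit 376) (nat_lit 305) (nat_lit 219)) (XT.lf (nat_lit 0) (nat_lit 7505498141) (nat_lit 380) (nat_lit 3276194458) (nat_lit 76) (nat_lit 6695449522) (nat_lit 77) (nat_lit 5) (nat_lit 82) (nat_lit 5) (nat_lit 78) (nat_lit 5) (nat_lit 377) (nat_lit 305) (nat_lit 218))) (XT.nd (nat_lit 78) (nat_lit 608) (nat_lit 0) (XT.lf (nat_lit 0) (nat_lit 10713067765) (nat_lit 228) (nat_lit 2845239421) (nat_lit 304) (nat_lit 4270084168) (nat_lit 74) (nat_lit 5) (nat_lit 77) (nat_lit 5) (nat_lit 78) (nat_lit 5) (nat_lit 378) (nat_lit 305) (nat_lit 217)) (XT.nd (nat_lit 78) (nat_lit 228) (nat_lit 0) (XT.lf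 (nat_lit 0) (nat_lit 1651053182) (nat_lit 380) (nat_lit 11219802792) (nat_lit 76) (nat_lit 5317730733) (nat_lit 69) (nat_lit 5) (nat_lit 74) (nat_lit 5) (nat_lit 70) (nat_lit 5) (nat_lit 379) (nat_lit 305) (nat_lit 216)) (XT.lf (nat_lit 0) (nat_lit 2951376558) (nat_lit 228) (nat_lit 4794718925) (nat_lit 304) (nat_lit 10811849717) (nat_lit 66) (nat_lit 5) (nat_lit 69) (nat_lit 5) (nat_lit 70) (nat_lit 5) (nat_lit 380) (nat_lit 305) (nat_lit 215))))) (XT.nd (nat_lit 156) (nat_lit 456) (nat_lit 0) (XT.nd (nat_lit 78) (nat_lit 304) (nat_lit 0) (XT.lf (nat_lit 0) (nat_lit 14091107244) (nat_lit 304) (nat_lit 1312238142) (nat_lit 76) (nat_lit 3533703954) (nat_lit 66) (nat_lit 5) (nat_lit 70) (nat_lit 5) (nat_lit 67) (nat_lit 5) (nat_lit 381) (nat_lit 305) (nat_lit 214)) (XT.lf (nat_lit 0) (nat_lit 1370876415) (nat_lit 304) (nat_lit 5830527076) (nat_lit 76) (nat_lit 12124181961) (nat_lit 62) (nat_lit 5) (nat_lit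 66) (nat_lit 5) (nat_lit 63) (nat_lit 5) (nat_lit 382) (nat_lit 305) (nat_lit 213))) (XT.nd (nat_lit 78) (nat_lit 228) (nat_lit 0) (XT.lf (nat_lit 0) (nat_lit 7754250482) (nat_lit 304) (nat_lit 10658834919) (nat_lit 76) (nat_lit 1311140550) (nat_lit 59) (nat_lit 5) (nat_lit 63) (nat_lit 5) (nat_lit 60) (nat_lit 5) (nat_lit 383) (nat_lit 305) (nat_lit 212)) (XT.nd (nat_lit 40794) (nat_lit 0) (nat_lit 43700) (XT.lf (nat_lit 0) (nat_lit 4311138418) (nat_lit 228) (nat_lit 10103373205) (nat_lit 304) (nat_lit 5718612836) (nat_lit 56) (nat_lit 5) (nat_lit 59) (nat_lit 5) (nat_lit 60) (nat_lit 5) (nat_lit 384) (nat_lit 305) (nat_lit 211)) (XT.lf (nat_lit 0) (nat_lit 1395890696) (nat_lit 684) (nat_lit 951496203) (nat_lit 684) (nat_lit 951496203) (nat_lit 631) (nat_lit 3) (nat_lit 640) (nat_lit 3) (nat_lit 640) (nat_lit 5) (nat_lit 306) (nat_lit 306) (nat_lit 288))))))))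
noncomputable def xc61 : XT := (XT.nd (nat_lit 1482) (nat_lit 18468) (nat_lit 0) (XT.nd (nat_lit 702) (nat_lit 8208) (nat_lit 0) (XT.nd (nat_lit 312) (nat_lit 1672) (nat_lit 0) (XT.nd (nat_lit 156) (nat_lit 684) (nat_lit 0) (XT.nd (nat_lit 78) (nat_lit 684) (nat_lit 0) (XT.lf (nat_lit 76) (nat_lit 2830139865) (nat_lit 0) (nat_lit 3448226548) (nat_lit 684) (nat_lit 346752697) (nat_lit 632) (nat_lit 5) (nat_lit 631) (nat_lit 3) (nat_lit 640) (nat_lit 5) (nat_lit 307) (nat_lit 306) (nat_lit 287)) (XT.lf (nat_lit 76) (nat_lit 999361535) (nat_lit 0) (nat_lit 2059019764) (nat_lit 760) (nat_lit 3596911580) (nat_lit 623) (nat_lit 5) (nat_lit 622) (nat_lit 5) (nat_lit 632) (nat_lit 5) (nat_lit 308) (nat_lit 306) (nat_lit 286))) (XT.nd (nat_lit 78) (nat_lit 684) (nat_lit 0) (XT.lf (nat_lit 76) (nat_lit 5917224266) (nat_lit 0) (nat_lit 537782025) (nat_lit 760) (nat_lit 233539788) (nat_lit 623) (nat_lit 5) (nat_lit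 622) (nat_lit 5) (nat_lit 632) (nat_lit 5) (nat_lit 309) (nat_lit 306) (nat_lit 285)) (XT.lf (nat_lit 0) (nat_lit 3094388481) (nat_lit 760) (nat_lit 2507306986) (nat_lit 836) (nat_lit 1122657502) (nat_lit 613) (nat_lit 5) (nat_lit 623) (nat_lit 5) (nat_lit 624) (nat_lit 5) (nat_lit 310) (nat_lit 306) (nat_lit 284)))) (XT.nd (nat_lit 156) (nat_lit 836) (nat_lit 0) (XT.nd (nat_lit 78) (nat_lit 836) (nat_lit 0) (XT.lf (nat_lit 76) (nat_lit 2561374675) (nat_lit 0) (nat_lit 3858000994) (nat_lit 836) (nat_lit 343912997) (nat_lit 614) (nat_lit 5) (nat_lit 613) (nat_lit 5) (nat_lit 624) (nat_lit 5) (nat_lit 311) (nat_lit 306) (nat_lit 283)) (XT.lf (nat_lit 76) (nat_lit 933695794) (nat_lit 0) (nat_lit 1967487988) (nat_lit 912) (nat_lit 3903895796) (nat_lit 603) (nat_lit 5) (nat_lit 602) (nat_lit 5) (nat_lit 614) (nat_lit 5) (nat_lit 312) (nat_lit 306) (nat_lit 282))) (XT.nd (nat_lit 78) (nat_lit 912) (nat_lit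 0) (XT.lf (nat_lit 0) (nat_lit 6148130278) (nat_lit 836) (nat_lit 642728580) (nat_lit 912) (nat_lit 59122779) (nat_lit 603) (nat_lit 5) (nat_lit 614) (nat_lit 5) (nat_lit 615) (nat_lit 5) (nat_lit 313) (nat_lit 306) (nat_lit 281)) (XT.nd (nat_lit 78) (nat_lit 0) (nat_lit 0) (XT.lf (nat_lit 0) (nat_lit 2489535922) (nat_lit 912) (nat_lit 2194163535) (nat_lit 988) (nat_lit 2213729645) (nat_lit 591) (nat_lit 5) (nat_lit 603) (nat_lit 5) (nat_lit 604) (nat_lit 5) (nat_lit 314) (nat_lit 306) (nat_lit 280)) (XT.lf (nat_lit 76) (nat_lit 3237976860) (nat_lit 0) (nat_lit 2440793995) (nat_lit 988) (nat_lit 1269283246) (nat_lit 592) (nat_lit 5) (nat_lit 591) (nat_lit 5) (nat_lit 604) (nat_lit 5) (nat_lit 315) (nat_lit 306) (nat_lit 279)))))) (XT.nd (nat_lit 390) (nat_lit 5244) (nat_lit 0) (XT.nd (nat_lit 156) (nat_lit 1976) (nat_lit 0) (XT.nd (nat_lit 78) (nat_lit 0) (nat_lit 76) (XT.lf (nat_lit 76) (nat_lit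 1801611660) (nat_lit 0) (nat_lit 51009815) (nat_lit 1064) (nat_lit 5149099534) (nat_lit 579) (nat_lit 5) (nat_lit 578) (nat_lit 5) (nat_lit 592) (nat_lit 5) (nat_lit 316) (nat_lit 306) (nat_lit 278)) (XT.lf (nat_lit 76) (nat_lit 379908361) (nat_lit 0) (nat_lit 4605815208) (nat_lit 1064) (nat_lit 2072484534) (nat_lit 580) (nat_lit 5) (nat_lit 579) (nat_lit 5) (nat_lit 593) (nat_lit 5) (nat_lit 317) (nat_lit 306) (nat_lit 277))) (XT.nd (nat_lit 78) (nat_lit 988) (nat_lit 0) (XT.lf (nat_lit 0) (nat_lit 1011046974) (nat_lit 1064) (nat_lit 998874884) (nat_lit 1140) (nat_lit 5107815743) (nat_lit 565) (nat_lit 5) (nat_lit 579) (nat_lit 5) (nat_lit 580) (nat_lit 5) (nat_lit 318) (nat_lit 306) (nat_lit 276)) (XT.nd (nat_lit 78) (nat_lit 1064) (nat_lit 0) (XT.lf (nat_lit 0) (nat_lit 4091551470) (nat_lit 1064) (nat_lit 2356554554) (nat_lit 76) (nat_lit 732088577) (nat_lit 566) (nat_lit 5) (nat_lit 580) (nat_lit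 5) (nat_lit 567) (nat_lit 5) (nat_lit 319) (nat_lit 306) (nat_lit 275)) (XT.lf (nat_lit 0) (nat_lit 3550220221) (nat_lit 1064) (nat_lit 3656612288) (nat_lit 1140) (nat_lit 38911676) (nat_lit 552) (nat_lit 5) (nat_lit 566) (nat_lit 5) (nat_lit 567) (nat_lit 5) (nat_lit 320) (nat_lit 306) (nat_lit 274))))) (XT.nd (nat_lit 156) (nat_lit 2812) (nat_lit 0) (XT.nd (nat_lit 78) (nat_lit 1216) (nat_lit 0) (XT.lf (nat_lit 0) (nat_lit 2290135835) (nat_lit 1140) (nat_lit 703246955) (nat_lit 1216) (nat_lit 4320902367) (nat_lit 536) (nat_lit 5) (nat_lit 551) (nat_lit 5) (nat_lit 552) (nat_lit 5) (nat_lit 321) (nat_lit 306) (nat_lit 273)) (XT.lf (nat_lit 0) (nat_lit 1045534437) (nat_lit 1216) (nat_lit 5021164032) (nat_lit 1292) (nat_lit 1319228208) (nat_lit 520) (nat_lit 5) (nat_lit 536) (nat_lit 5) (nat_lit 537) (nat_lit 5) (nat_lit 322) (nat_lit 306) (nat_lit 272))) (XT.nd (nat_lit 78) (nat_lit 2736) (nat_lit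 0) (XT.lf (nat_lit 0) (nat_lit 1693277860) (nat_lit 1292) (nat_lit 183646413) (nat_lit 76) (nat_lit 5583740579) (nat_lit 519) (nat_lit 5) (nat_lit 536) (nat_lit 5) (nat_lit 520) (nat_lit 5) (nat_lit 323) (nat_lit 306) (nat_lit 271)) (XT.nd (nat_lit 78) (nat_lit 1444) (nat_lit 0) (XT.lf (nat_lit 0) (nat_lit 4735432060) (nat_lit 1368) (nat_lit 1390215925) (nat_lit 76) (nat_lit 1412735314) (nat_lit 502) (nat_lit 5) (nat_lit 520) (nat_lit 5) (nat_lit 503) (nat_lit 5) (nat_lit 324) (nat_lit 306) (nat_lit 270)) (XT.lf (nat_lit 0) (nat_lit 203452815) (nat_lit 1444) (nat_lit 2586081191) (nat_lit 76) (nat_lit 4829794113) (nat_lit 483) (nat_lit 5) (nat_lit 502) (nat_lit 5) (nat_lit 484) (nat_lit 5) (nat_lit 325) (nat_lit 306) (nat_lit 269))))))) (XT.nd (nat_lit 780) (nat_lit 6688) (nat_lit 0) (XT.nd (nat_lit 390) (nat_lit 5472) (nat_lit 0) (XT.nd (nat_lit 156) (nat_lit 3344) (nat_lit 0) (XT.nd (nat_lit 78)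 (nat_lit 1520) (nat_lit 0) (XT.lf (nat_lit 0) (nat_lit 3213495729) (nat_lit 1520) (nat_lit 3782432017) (nat_lit 76) (nat_lit 707424594) (nat_lit 464) (nat_lit 5) (nat_lit 484) (nat_lit 5) (nat_lit 465) (nat_lit 5) (nat_lit 326) (nat_lit 306) (nat_lit 268)) (XT.lf (nat_lit 0) (nat_lit 2813485353) (nat_lit 1520) (nat_lit 3468802479) (nat_lit 1596) (nat_lit 1508291144) (nat_lit 444) (nat_lit 5) (nat_lit 464) (nat_lit 5) (nat_lit 465) (nat_lit 5) (nat_lit 327) (nat_lit 306) (nat_lit 267))) (XT.nd (nat_lit 78) (nat_lit 1672) (nat_lit 0) (XT.lf (nat_lit 0) (nat_lit 1495947367) (nat_lit 1672) (nat_lit 6164920074) (nat_lit 76) (nat_lit 220325823) (nat_lit 422) (nat_lit 5) (nat_lit 444) (nat_lit 5) (nat_lit 423) (nat_lit 5) (nat_lit 328) (nat_lit 306) (nat_lit 266)) (XT.nd (nat_lit 78) (nat_lit 0) (nat_lit 0) (XT.lf (nat_lit 0) (nat_lit 604964653) (nat_lit 1672) (nat_lit 3943429858) (nat_lit 1748) (nat_lit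 3426407408) (nat_lit 400) (nat_lit 5) (nat_lit 422) (nat_lit 5) (nat_lit 423) (nat_lit 5) (nat_lit 329) (nat_lit 306) (nat_lit 265)) (XT.lf (nat_lit 0) (nat_lit 7589356805) (nat_lit 1672) (nat_lit 64147739) (nat_lit 1748) (nat_lit 418537939) (nat_lit 400) (nat_lit 5) (nat_lit 422) (nat_lit 5) (nat_lit 423) (nat_lit 5) (nat_lit 330) (nat_lit 306) (nat_lit 264))))) (XT.nd (nat_lit 156) (nat_lit 2660) (nat_lit 0) (XT.nd (nat_lit 78) (nat_lit 988) (nat_lit 0) (XT.lf (nat_lit 0) (nat_lit 2634403099) (nat_lit 1824) (nat_lit 1590174274) (nat_lit 76) (nat_lit 3947518622) (nat_lit 376) (nat_lit 5) (nat_lit 400) (nat_lit 5) (nat_lit 377) (nat_lit 5) (nat_lit 331) (nat_lit 306) (nat_lit 263)) (XT.lf (nat_lit 0) (nat_lit 5587623213) (nat_lit 988) (nat_lit 148636400) (nat_lit 1064) (nat_lit 2539617888) (nat_lit 363) (nat_lit 5) (nat_lit 376) (nat_lit 5) (nat_lit 377) (nat_lit 5) (nat_lit 332) (nat_lit 306) (nat_lit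 262))) (XT.nd (nat_lit 78) (nat_lit 1672) (nat_lit 0) (XT.lf (nat_lit 0) (nat_lit 532781194) (nat_lit 988) (nat_lit 3805601164) (nat_lit 76) (nat_lit 4044527365) (nat_lit 350) (nat_lit 5) (nat_lit 363) (nat_lit 5) (nat_lit 351) (nat_lit 5) (nat_lit 333) (nat_lit 306) (nat_lit 261)) (XT.nd (nat_lit 78) (nat_lit 836) (nat_lit 0) (XT.lf (nat_lit 0) (nat_lit 3560812490) (nat_lit 836) (nat_lit 70671170) (nat_lit 912) (nat_lit 4861999622) (nat_lit 339) (nat_lit 5) (nat_lit 350) (nat_lit 5) (nat_lit 351) (nat_lit 5) (nat_lit 334) (nat_lit 306) (nat_lit 260)) (XT.lf (nat_lit 0) (nat_lit 2525372432) (nat_lit 836) (nat_lit 4295896392) (nat_lit 912) (nat_lit 1786180466) (nat_lit 328) (nat_lit 5) (nat_lit 339) (nat_lit 5) (nat_lit 340) (nat_lit 5) (nat_lit 335) (nat_lit 306) (nat_lit 259)))))) (XT.nd (nat_lit 390) (nat_lit 3496) (nat_lit 0) (XT.nd (nat_lit 156) (nat_lit 1596) (nat_lit 0) (XT.nd (nat_lit 78) (nat_lit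 760) (nat_lit 0) (XT.lf (nat_lit 0) (nat_lit 1337370313) (nat_lit 836) (nat_lit 7238612675) (nat_lit 76) (nat_lit 149236080) (nat_lit 317) (nat_lit 5) (nat_lit 328) (nat_lit 5) (nat_lit 318) (nat_lit 5) (nat_lit 336) (nat_lit 306) (nat_lit 258)) (XT.lf (nat_lit 0) (nat_lit 411374155) (nat_lit 760) (nat_lit 4122428071) (nat_lit 836) (nat_lit 4312449560) (nat_lit 307) (nat_lit 5) (nat_lit 317) (nat_lit 5) (nat_lit 318) (nat_lit 5) (nat_lit 337) (nat_lit 306) (nat_lit 257))) (XT.nd (nat_lit 78) (nat_lit 1596) (nat_lit 0) (XT.lf (nat_lit 0) (nat_lit 7810473449) (nat_lit 836) (nat_lit 656498067) (nat_lit 76) (nat_lit 504290843) (nat_lit 307) (nat_lit 5) (nat_lit 318) (nat_lit 5) (nat_lit 308) (nat_lit 5) (nat_lit 338) (nat_lit 306) (nat_lit 256)) (XT.nd (nat_lit 78) (nat_lit 760) (nat_lit 0) (XT.lf (nat_lit 0) (nat_lit 2067344185) (nat_lit 836) (nat_lit 1760405189) (nat_lit 76) (nat_lit 5271849783) (nat_lit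 296) (nat_lit 5) (nat_lit 307) (nat_lit 5) (nat_lit 297) (nat_lit 5) (nat_lit 339) (nat_lit 306) (nat_lit 255)) (XT.lf (nat_lit 0) (nat_lit 5363827309) (nat_lit 836) (nat_lit 2881690180) (nat_lit 76) (nat_lit 986400816) (nat_lit 286) (nat_lit 5) (nat_lit 297) (nat_lit 5) (nat_lit 287) (nat_lit 5) (nat_lit 340) (nat_lit 306) (nat_lit 254))))) (XT.nd (nat_lit 156) (nat_lit 2052) (nat_lit 0) (XT.nd (nat_lit 78) (nat_lit 760) (nat_lit 0) (XT.lf (nat_lit 0) (nat_lit 5333691411) (nat_lit 684) (nat_lit 3434099174) (nat_lit 760) (nat_lit 600275056) (nat_lit 277) (nat_lit 5) (nat_lit 286) (nat_lit 5) (nat_lit 287) (nat_lit 5) (nat_lit 341) (nat_lit 306) (nat_lit 253)) (XT.lf (nat_lit 0) (nat_lit 2724416655) (nat_lit 760) (nat_lit 5223823494) (nat_lit 76) (nat_lit 1559824747) (nat_lit 267) (nat_lit 5) (nat_lit 277) (nat_lit 5) (nat_lit 268) (nat_lit 5) (nat_lit 342) (nat_lit 306) (nat_lit 252))) (XT.nd (nat_lit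 78) (nat_lit 1368) (nat_lit 0) (XT.lf (nat_lit 0) (nat_lit 3200069511) (nat_lit 684) (nat_lit 2950564000) (nat_lit 760) (nat_lit 3501380492) (nat_lit 258) (nat_lit 5) (nat_lit 267) (nat_lit 5) (nat_lit 268) (nat_lit 5) (nat_lit 343) (nat_lit 306) (nat_lit 251)) (XT.nd (nat_lit 78) (nat_lit 684) (nat_lit 0) (XT.lf (nat_lit 0) (nat_lit 2090852562) (nat_lit 684) (nat_lit 7592163133) (nat_lit 760) (nat_lit 117225520) (nat_lit 249) (nat_lit 5) (nat_lit 258) (nat_lit 5) (nat_lit 259) (nat_lit 5) (nat_lit 344) (nat_lit 306) (nat_lit 250)) (XT.lf (nat_lit 0) (nat_lit 926116061) (nat_lit 608) (nat_lit 2408704464) (nat_lit 684) (nat_lit 6617472324) (nat_lit 240) (nat_lit 5) (nat_lit 248) (nat_lit 5) (nat_lit 249) (nat_lit 5) (nat_lit 345) (nat_lit 306) (nat_lit 249))))))))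
noncomputable def xc62 : XT := (XT.nd (nat_lit 1482) (nat_lit 5320) (nat_lit 0) (XT.nd (nat_lit 702) (nat_lit 4256) (nat_lit 0) (XT.nd (nat_lit 312) (nat_lit 2280) (nat_lit 0) (XT.nd (nat_lit 156) (nat_lit 1216) (nat_lit 0) (XT.nd (nat_lit 78) (nat_lit 684) (nat_lit 0) (XT.lf (nat_lit 0) (nat_lit 6902448533) (nat_lit 684) (nat_lit 272118969) (nat_lit 76) (nat_lit 2934075912) (nat_lit 240) (nat_lit 5) (nat_lit 249) (nat_lit 5) (nat_lit 241) (nat_lit 5) (nat_lit 346) (nat_lit 306) (nat_lit 248)) (XT.lf (nat_lit 0) (nat_lit 320240204) (nat_lit 684) (nat_lit 1496206548) (nat_lit 76) (nat_lit 8452884735) (nat_lit 231) (nat_lit 5) (nat_lit 240) (nat_lit 5) (nat_lit 232) (nat_lit 5) (nat_lit 347) (nat_lit 306) (nat_lit 247))) (XT.nd (nat_lit 78) (nat_lit 608) (nat_lit 0) (XT.lf (nat_lit 0) (nat_lit 3929750264) (nat_lit 684) (nat_lit 2789088894) (nat_lit 76) (nat_lit 3715183588) (nat_lit 223) (nat_lit 5)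 (nat_lit 232) (nat_lit 5) (nat_lit 224) (nat_lit 5) (nat_lit 348) (nat_lit 306) (nat_lit 246)) (XT.lf (nat_lit 0) (nat_lit 6482291675) (nat_lit 608) (nat_lit 1175293397) (nat_lit 684) (nat_lit 2945891442) (nat_lit 215) (nat_lit 5) (nat_lit 223) (nat_lit 5) (nat_lit 224) (nat_lit 5) (nat_lit 349) (nat_lit 306) (nat_lit 245)))) (XT.nd (nat_lit 156) (nat_lit 1140) (nat_lit 0) (XT.nd (nat_lit 78) (nat_lit 532) (nat_lit 0) (XT.lf (nat_lit 0) (nat_lit 739287038) (nat_lit 608) (nat_lit 5518230846) (nat_lit 76) (nat_lit 4519834507) (nat_lit 207) (nat_lit 5) (nat_lit 215) (nat_lit 5) (nat_lit 208) (nat_lit 5) (nat_lit 350) (nat_lit 306) (nat_lit 244)) (XT.lf (nat_lit 0) (nat_lit 3978429087) (nat_lit 532) (nat_lit 526014859) (nat_lit 608) (nat_lit 6451443074) (nat_lit 200) (nat_lit 5) (nat_lit 207) (nat_lit 5) (nat_lit 208) (nat_lit 5) (nat_lit 351) (nat_lit 306) (nat_lit 243))) (XT.nd (nat_lit 78) (nat_lit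 608) (nat_lit 0) (XT.lf (nat_lit 0) (nat_lit 2628579148) (nat_lit 532) (nat_lit 5792019257) (nat_lit 608) (nat_lit 2718438667) (nat_lit 193) (nat_lit 5) (nat_lit 200) (nat_lit 5) (nat_lit 201) (nat_lit 5) (nat_lit 352) (nat_lit 306) (nat_lit 242)) (XT.nd (nat_lit 78) (nat_lit 0) (nat_lit 0) (XT.lf (nat_lit 0) (nat_lit 1120730199) (nat_lit 608) (nat_lit 10098380915) (nat_lit 76) (nat_lit 108264502) (nat_lit 185) (nat_lit 5) (nat_lit 193) (nat_lit 5) (nat_lit 186) (nat_lit 5) (nat_lit 353) (nat_lit 306) (nat_lit 241)) (XT.lf (nat_lit 0) (nat_lit 5085228565) (nat_lit 608) (nat_lit 267041209) (nat_lit 76) (nat_lit 6167812122) (nat_lit 185) (nat_lit 5) (nat_lit 193) (nat_lit 5) (nat_lit 186) (nat_lit 5) (nat_lit 354) (nat_lit 306) (nat_lit 240)))))) (XT.nd (nat_lit 390) (nat_lit 1748) (nat_lit 0) (XT.nd (nat_lit 156) (nat_lit 1444) (nat_lit 0) (XT.nd (nat_lit 78) (nat_lit 608) (nat_lit 0) (XT.lf (nat_lit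 0) (nat_lit 9189449567) (nat_lit 532) (nat_lit 1798387028) (nat_lit 76) (nat_lit 730335175) (nat_lit 179) (nat_lit 5) (nat_lit 186) (nat_lit 5) (nat_lit 180) (nat_lit 5) (nat_lit 355) (nat_lit 306) (nat_lit 239)) (XT.lf (nat_lit 0) (nat_lit 1520545385) (nat_lit 608) (nat_lit 3426407632) (nat_lit 76) (nat_lit 6974163441) (nat_lit 171) (nat_lit 5) (nat_lit 179) (nat_lit 5) (nat_lit 172) (nat_lit 5) (nat_lit 356) (nat_lit 306) (nat_lit 238))) (XT.nd (nat_lit 78) (nat_lit 988) (nat_lit 0) (XT.lf (nat_lit 0) (nat_lit 5676607719) (nat_lit 532) (nat_lit 5136245602) (nat_lit 76) (nat_lit 1316585208) (nat_lit 165) (nat_lit 5) (nat_lit 172) (nat_lit 5) (nat_lit 166) (nat_lit 5) (nat_lit 357) (nat_lit 306) (nat_lit 237)) (XT.nd (nat_lit 78) (nat_lit 532) (nat_lit 0) (XT.lf (nat_lit 0) (nat_lit 5402448756) (nat_lit 456) (nat_lit 4600365393) (nat_lit 532) (nat_lit 2340303162) (nat_lit 159) (nat_lit 5) (nat_lit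 165) (nat_lit 5) (nat_lit 166) (nat_lit 5) (nat_lit 358) (nat_lit 306) (nat_lit 236)) (XT.lf (nat_lit 0) (nat_lit 1896629279) (nat_lit 532) (nat_lit 8836634325) (nat_lit 76) (nat_lit 1829194406) (nat_lit 152) (nat_lit 5) (nat_lit 159) (nat_lit 5) (nat_lit 153) (nat_lit 5) (nat_lit 359) (nat_lit 306) (nat_lit 235))))) (XT.nd (nat_lit 156) (nat_lit 912) (nat_lit 0) (XT.nd (nat_lit 78) (nat_lit 380) (nat_lit 0) (XT.lf (nat_lit 0) (nat_lit 1935284285) (nat_lit 456) (nat_lit 4339796821) (nat_lit 532) (nat_lit 6512079352) (nat_lit 146) (nat_lit 5) (nat_lit 152) (nat_lit 5) (nat_lit 153) (nat_lit 5) (nat_lit 360) (nat_lit 306) (nat_lit 234)) (XT.lf (nat_lit 0) (nat_lit 56687633) (nat_lit 380) (nat_lit 10759551161) (nat_lit 456) (nat_lit 2201752759) (nat_lit 141) (nat_lit 5) (nat_lit 146) (nat_lit 5) (nat_lit 147) (nat_lit 5) (nat_lit 361) (nat_lit 306) (nat_lit 233))) (XT.nd (nat_lit 78) (nat_lit 836) (nat_lit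 0) (XT.lf (nat_lit 0) (nat_lit 2268283735) (nat_lit 456) (nat_lit 1919824078) (nat_lit 76) (nat_lit 9066168075) (nat_lit 140) (nat_lit 5) (nat_lit 146) (nat_lit 5) (nat_lit 141) (nat_lit 5) (nat_lit 362) (nat_lit 306) (nat_lit 232)) (XT.nd (nat_lit 78) (nat_lit 380) (nat_lit 0) (XT.lf (nat_lit 0) (nat_lit 6879477634) (nat_lit 532) (nat_lit 4012052809) (nat_lit 76) (nat_lit 2605101358) (nat_lit 134) (nat_lit 5) (nat_lit 141) (nat_lit 5) (nat_lit 135) (nat_lit 5) (nat_lit 363) (nat_lit 306) (nat_lit 231)) (XT.lf (nat_lit 0) (nat_lit 7521478549) (nat_lit 380) (nat_lit 4156148795) (nat_lit 456) (nat_lit 2067671762) (nat_lit 129) (nat_lit 5) (nat_lit 134) (nat_lit 5) (nat_lit 135) (nat_lit 5) (nat_lit 364) (nat_lit 306) (nat_lit 230))))))) (XT.nd (nat_lit 780) (nat_lit 2280) (nat_lit 0) (XT.nd (nat_lit 390) (nat_lit 1444) (nat_lit 0) (XT.nd (nat_lit 156) (nat_lit 760) (nat_lit 0) (XT.nd (nat_lit 78) (nat_lit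 380) (nat_lit 0) (XT.lf (nat_lit 0) (nat_lit 2624382993) (nat_lit 456) (nat_lit 8569822478) (nat_lit 76) (nat_lit 2806084903) (nat_lit 123) (nat_lit 5) (nat_lit 129) (nat_lit 5) (nat_lit 124) (nat_lit 5) (nat_lit 365) (nat_lit 306) (nat_lit 229)) (XT.lf (nat_lit 0) (nat_lit 3197773432) (nat_lit 380) (nat_lit 4282403603) (nat_lit 456) (nat_lit 6781471733) (nat_lit 118) (nat_lit 5) (nat_lit 123) (nat_lit 5) (nat_lit 124) (nat_lit 5) (nat_lit 366) (nat_lit 306) (nat_lit 228))) (XT.nd (nat_lit 78) (nat_lit 380) (nat_lit 0) (XT.lf (nat_lit 0) (nat_lit 838756471) (nat_lit 380) (nat_lit 11685767684) (nat_lit 456) (nat_lit 2005477941) (nat_lit 113) (nat_lit 5) (nat_lit 118) (nat_lit 5) (nat_lit 119) (nat_lit 5) (nat_lit 367) (nat_lit 306) (nat_lit 227)) (XT.nd (nat_lit 78) (nat_lit 304) (nat_lit 0) (XT.lf (nat_lit 0) (nat_lit 2940748484) (nat_lit 456) (nat_lit 1662069598) (nat_lit 76) (nat_lit 10201917420)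 (nat_lit 112) (nat_lit 5) (nat_lit 118) (nat_lit 5) (nat_lit 113) (nat_lit 5) (nat_lit 368) (nat_lit 306) (nat_lit 226)) (XT.lf (nat_lit 0) (nat_lit 8058487655) (nat_lit 380) (nat_lit 4305818681) (nat_lit 76) (nat_lit 2722142872) (nat_lit 108) (nat_lit 5) (nat_lit 113) (nat_lit 5) (nat_lit 109) (nat_lit 5) (nat_lit 369) (nat_lit 306) (nat_lit 225))))) (XT.nd (nat_lit 156) (nat_lit 684) (nat_lit 0) (XT.nd (nat_lit 78) (nat_lit 380) (nat_lit 0) (XT.lf (nat_lit 0) (nat_lit 8263495707) (nat_lit 380) (nat_lit 5124838342) (nat_lit 456) (nat_lit 1987119333) (nat_lit 103) (nat_lit 5) (nat_lit 108) (nat_lit 5) (nat_lit 109) (nat_lit 5) (nat_lit 370) (nat_lit 306) (nat_lit 224)) (XT.lf (nat_lit 0) (nat_lit 3207448580) (nat_lit 380) (nat_lit 10095675662) (nat_lit 76) (nat_lit 2368706636) (nat_lit 98) (nat_lit 5) (nat_lit 103) (nat_lit 5) (nat_lit 99) (nat_lit 5) (nat_lit 371) (nat_lit 306) (nat_lit 223))) (XT.nd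 (nat_lit 78) (nat_lit 380) (nat_lit 0) (XT.lf (nat_lit 0) (nat_lit 2697364355) (nat_lit 304) (nat_lit 5897796173) (nat_lit 380) (nat_lit 7380400147) (nat_lit 94) (nat_lit 5) (nat_lit 98) (nat_lit 5) (nat_lit 99) (nat_lit 5) (nat_lit 372) (nat_lit 306) (nat_lit 222)) (XT.nd (nat_lit 78) (nat_lit 380) (nat_lit 0) (XT.lf (nat_lit 0) (nat_lit 14189016120) (nat_lit 380) (nat_lit 342264752) (nat_lit 76) (nat_lit 1756240719) (nat_lit 94) (nat_lit 5) (nat_lit 99) (nat_lit 5) (nat_lit 95) (nat_lit 5) (nat_lit 373) (nat_lit 306) (nat_lit 221)) (XT.lf (nat_lit 0) (nat_lit 3388286456) (nat_lit 380) (nat_lit 3570074778) (nat_lit 76) (nat_lit 9648249780) (nat_lit 89) (nat_lit 5) (nat_lit 94) (nat_lit 5) (nat_lit 90) (nat_lit 5) (nat_lit 374) (nat_lit 306) (nat_lit 220)))))) (XT.nd (nat_lit 390) (nat_lit 1140) (nat_lit 0) (XT.nd (nat_lit 156) (nat_lit 608) (nat_lit 0) (XT.nd (nat_lit 78) (nat_lit 228) (nat_lit 0)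 (XT.lf (nat_lit 0) (nat_lit 9050015374) (nat_lit 380) (nat_lit 6991514554) (nat_lit 76) (nat_lit 892697647) (nat_lit 85) (nat_lit 5) (nat_lit 90) (nat_lit 5) (nat_lit 86) (nat_lit 5) (nat_lit 375) (nat_lit 306) (nat_lit 219)) (XT.lf (nat_lit 0) (nat_lit 6625197369) (nat_lit 228) (nat_lit 8336702434) (nat_lit 304) (nat_lit 2308175257) (nat_lit 82) (nat_lit 5) (nat_lit 85) (nat_lit 5) (nat_lit 86) (nat_lit 5) (nat_lit 376) (nat_lit 306) (nat_lit 218))) (XT.nd (nat_lit 78) (nat_lit 228) (nat_lit 0) (XT.lf (nat_lit 0) (nat_lit 3095904563) (nat_lit 304) (nat_lit 328789515) (nat_lit 380) (nat_lit 14190173839) (nat_lit 77) (nat_lit 5) (nat_lit 81) (nat_lit 5) (nat_lit 82) (nat_lit 5) (nat_lit 377) (nat_lit 306) (nat_lit 217)) (XT.nd (nat_lit 78) (nat_lit 228) (nat_lit 0) (XT.lf (nat_lit 0) (nat_lit 9389709505) (nat_lit 380) (nat_lit 694085890) (nat_lit 76) (nat_lit 7884081494) (nat_lit 77) (nat_lit 5) (nat_lit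 82) (nat_lit 5) (nat_lit 78) (nat_lit 5) (nat_lit 378) (nat_lit 306) (nat_lit 216)) (XT.lf (nat_lit 0) (nat_lit 13671367984) (nat_lit 228) (nat_lit 1921533654) (nat_lit 304) (nat_lit 2737397594) (nat_lit 74) (nat_lit 5) (nat_lit 77) (nat_lit 5) (nat_lit 78) (nat_lit 5) (nat_lit 379) (nat_lit 306) (nat_lit 215))))) (XT.nd (nat_lit 156) (nat_lit 532) (nat_lit 0) (XT.nd (nat_lit 78) (nat_lit 228) (nat_lit 0) (XT.lf (nat_lit 0) (nat_lit 3315381085) (nat_lit 380) (nat_lit 8914477106) (nat_lit 76) (nat_lit 6471721871) (nat_lit 69) (nat_lit 5) (nat_lit 74) (nat_lit 5) (nat_lit 70) (nat_lit 5) (nat_lit 380) (nat_lit 306) (nat_lit 214)) (XT.lf (nat_lit 0) (nat_lit 5638975616) (nat_lit 228) (nat_lit 3924140944) (nat_lit 304) (nat_lit 9519516639) (nat_lit 66) (nat_lit 5) (nat_lit 69) (nat_lit 5) (nat_lit 70) (nat_lit 5) (nat_lit 381) (nat_lit 306) (nat_lit 213))) (XT.nd (nat_lit 78) (nat_lit 304) (nat_lit 0)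 (XT.lf (nat_lit 0) (nat_lit 1212374674) (nat_lit 228) (nat_lit 14854215480) (nat_lit 304) (nat_lit 3407168495) (nat_lit 63) (nat_lit 5) (nat_lit 66) (nat_lit 5) (nat_lit 67) (nat_lit 5) (nat_lit 382) (nat_lit 306) (nat_lit 212)) (XT.nd (nat_lit 78) (nat_lit 228) (nat_lit 0) (XT.lf (nat_lit 0) (nat_lit 2938533247) (nat_lit 304) (nat_lit 3478085756) (nat_lit 76) (nat_lit 13457872944) (nat_lit 62) (nat_lit 5) (nat_lit 66) (nat_lit 5) (nat_lit 63) (nat_lit 5) (nat_lit 383) (nat_lit 306) (nat_lit 211)) (XT.lf (nat_lit 0) (nat_lit 9491505214) (nat_lit 304) (nat_lit 8468376813) (nat_lit 76) (nat_lit 2325657326) (nat_lit 59) (nat_lit 5) (nat_lit 63) (nat_lit 5) (nat_lit 60) (nat_lit 5) (nat_lit 384) (nat_lit 306) (nat_lit 210))))))))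
noncomputable def xc63 : XT := (XT.nd (nat_lit 1560) (nat_lit 17024) (nat_lit 0) (XT.nd (nat_lit 780) (nat_lit 8664) (nat_lit 0) (XT.nd (nat_lit 390) (nat_lit 1748) (nat_lit 0) (XT.nd (nat_lit 156) (nat_lit 1596) (nat_lit 0) (XT.nd (nat_lit 78) (nat_lit 0) (nat_lit 0) (XT.lf (nat_lit 0) (nat_lit 746991133) (nat_lit 0) (nat_lit 746991133) (nat_lit 684) (nat_lit 1832914228) (nat_lit 622) (nat_lit 5) (nat_lit 622) (nat_lit 3) (nat_lit 631) (nat_lit 3) (nat_lit 307) (nat_lit 307) (nat_lit 286)) (XT.lf (nat_lit 0) (nat_lit 6280292886) (nat_lit 0) (nat_lit 27605498) (nat_lit 684) (nat_lit 377686159) (nat_lit 622) (nat_lit 5) (nat_lit 622) (nat_lit 3) (nat_lit 631) (nat_lit 3) (nat_lit 308) (nat_lit 307) (nat_lit 285))) (XT.nd (nat_lit 78) (nat_lit 836) (nat_lit 0) (XT.lf (nat_lit 0) (nat_lit 2880222324) (nat_lit 760) (nat_lit 2265217648) (nat_lit 836) (nat_lit 1574383547) (nat_lit 612) (nat_lit 5) (nat_lit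 622) (nat_lit 5) (nat_lit 623) (nat_lit 5) (nat_lit 309) (nat_lit 307) (nat_lit 284)) (XT.nd (nat_lit 78) (nat_lit 836) (nat_lit 0) (XT.lf (nat_lit 76) (nat_lit 2675527716) (nat_lit 0) (nat_lit 3450522197) (nat_lit 836) (nat_lit 631176913) (nat_lit 613) (nat_lit 5) (nat_lit 612) (nat_lit 5) (nat_lit 623) (nat_lit 5) (nat_lit 310) (nat_lit 307) (nat_lit 283)) (XT.lf (nat_lit 76) (nat_lit 926478673) (nat_lit 0) (nat_lit 1610701693) (nat_lit 912) (nat_lit 4260338687) (nat_lit 602) (nat_lit 5) (nat_lit 601) (nat_lit 5) (nat_lit 613) (nat_lit 5) (nat_lit 311) (nat_lit 307) (nat_lit 282))))) (XT.nd (nat_lit 156) (nat_lit 912) (nat_lit 0) (XT.nd (nat_lit 78) (nat_lit 912) (nat_lit 0) (XT.lf (nat_lit 0) (nat_lit 5702505701) (nat_lit 836) (nat_lit 773924291) (nat_lit 912) (nat_lit 364383031) (nat_lit 602) (nat_lit 5) (nat_lit 613) (nat_lit 5) (nat_lit 614) (nat_lit 5) (nat_lit 312) (nat_lit 307) (nat_lit 281))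 (XT.lf (nat_lit 0) (nat_lit 1973483767) (nat_lit 912) (nat_lit 2444163395) (nat_lit 988) (nat_lit 2469104128) (nat_lit 590) (nat_lit 5) (nat_lit 602) (nat_lit 5) (nat_lit 603) (nat_lit 5) (nat_lit 313) (nat_lit 307) (nat_lit 280))) (XT.nd (nat_lit 78) (nat_lit 912) (nat_lit 0) (XT.lf (nat_lit 76) (nat_lit 2853574518) (nat_lit 0) (nat_lit 2219822804) (nat_lit 988) (nat_lit 1862394945) (nat_lit 591) (nat_lit 5) (nat_lit 590) (nat_lit 5) (nat_lit 603) (nat_lit 5) (nat_lit 314) (nat_lit 307) (nat_lit 279)) (XT.nd (nat_lit 78) (nat_lit 0) (nat_lit 0) (XT.lf (nat_lit 0) (nat_lit 1177498840) (nat_lit 988) (nat_lit 5691283205) (nat_lit 1064) (nat_lit 119146449) (nat_lit 578) (nat_lit 5) (nat_lit 591) (nat_lit 5) (nat_lit 592) (nat_lit 5) (nat_lit 315) (nat_lit 307) (nat_lit 278)) (XT.lf (nat_lit 0) (nat_lit 4217601051) (nat_lit 988) (nat_lit 246082915) (nat_lit 1064) (nat_lit 2579086019) (nat_lit 578) (nat_lit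 5) (nat_lit 591) (nat_lit 5) (nat_lit 592) (nat_lit 5) (nat_lit 316) (nat_lit 307) (nat_lit 277)))))) (XT.nd (nat_lit 390) (nat_lit 6536) (nat_lit 0) (XT.nd (nat_lit 156) (nat_lit 1064) (nat_lit 0) (XT.nd (nat_lit 78) (nat_lit 0) (nat_lit 76) (XT.lf (nat_lit 0) (nat_lit 175308572) (nat_lit 1064) (nat_lit 1737291013) (nat_lit 1140) (nat_lit 5188116181) (nat_lit 564) (nat_lit 5) (nat_lit 578) (nat_lit 5) (nat_lit 579) (nat_lit 5) (nat_lit 317) (nat_lit 307) (nat_lit 276)) (XT.lf (nat_lit 0) (nat_lit 3156650718) (nat_lit 1064) (nat_lit 3218253532) (nat_lit 1140) (nat_lit 786605599) (nat_lit 565) (nat_lit 5) (nat_lit 579) (nat_lit 5) (nat_lit 580) (nat_lit 5) (nat_lit 318) (nat_lit 307) (nat_lit 275))) (XT.nd (nat_lit 78) (nat_lit 1140) (nat_lit 0) (XT.lf (nat_lit 76) (nat_lit 2544860984) (nat_lit 0) (nat_lit 3623053286) (nat_lit 1140) (nat_lit 1057469961) (nat_lit 566) (nat_lit 5) (nat_lit 565) (nat_lit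 5) (nat_lit 580) (nat_lit 5) (nat_lit 319) (nat_lit 307) (nat_lit 274)) (XT.nd (nat_lit 78) (nat_lit 0) (nat_lit 76) (XT.lf (nat_lit 76) (nat_lit 1166491116) (nat_lit 0) (nat_lit 716520169) (nat_lit 1216) (nat_lit 5409357248) (nat_lit 551) (nat_lit 5) (nat_lit 550) (nat_lit 5) (nat_lit 566) (nat_lit 5) (nat_lit 320) (nat_lit 307) (nat_lit 273)) (XT.lf (nat_lit 0) (nat_lit 4847837631) (nat_lit 1140) (nat_lit 200846235) (nat_lit 76) (nat_lit 2313589832) (nat_lit 551) (nat_lit 5) (nat_lit 566) (nat_lit 5) (nat_lit 552) (nat_lit 5) (nat_lit 321) (nat_lit 307) (nat_lit 272))))) (XT.nd (nat_lit 156) (nat_lit 4180) (nat_lit 0) (XT.nd (nat_lit 78) (nat_lit 1216) (nat_lit 0) (XT.lf (nat_lit 0) (nat_lit 410455033) (nat_lit 1216) (nat_lit 1532411114) (nat_lit 76) (nat_lit 5492422299) (nat_lit 535) (nat_lit 5) (nat_lit 551) (nat_lit 5) (nat_lit 536) (nat_lit 5) (nat_lit 322) (nat_lit 307) (nat_lit 271)) (XT.lf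 (nat_lit 0) (nat_lit 3337487564) (nat_lit 1292) (nat_lit 2862917082) (nat_lit 76) (nat_lit 1310841909) (nat_lit 519) (nat_lit 5) (nat_lit 536) (nat_lit 5) (nat_lit 520) (nat_lit 5) (nat_lit 323) (nat_lit 307) (nat_lit 270))) (XT.nd (nat_lit 78) (nat_lit 2888) (nat_lit 0) (XT.lf (nat_lit 0) (nat_lit 3407834341) (nat_lit 1292) (nat_lit 2900573258) (nat_lit 1368) (nat_lit 1282009082) (nat_lit 502) (nat_lit 5) (nat_lit 519) (nat_lit 5) (nat_lit 520) (nat_lit 5) (nat_lit 324) (nat_lit 307) (nat_lit 269)) (XT.nd (nat_lit 78) (nat_lit 1444) (nat_lit 0) (XT.lf (nat_lit 0) (nat_lit 1623618026) (nat_lit 1444) (nat_lit 5494810189) (nat_lit 76) (nat_lit 554378075) (nat_lit 483) (nat_lit 5) (nat_lit 502) (nat_lit 5) (nat_lit 484) (nat_lit 5) (nat_lit 325) (nat_lit 307) (nat_lit 268)) (XT.lf (nat_lit 0) (nat_lit 942934147) (nat_lit 1444) (nat_lit 3624469346) (nat_lit 1520) (nat_lit 3190777116) (nat_lit 464) (nat_lit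 5) (nat_lit 483) (nat_lit 5) (nat_lit 484) (nat_lit 5) (nat_lit 326) (nat_lit 307) (nat_lit 267))))))) (XT.nd (nat_lit 780) (nat_lit 6612) (nat_lit 0) (XT.nd (nat_lit 390) (nat_lit 3724) (nat_lit 0) (XT.nd (nat_lit 156) (nat_lit 5092) (nat_lit 0) (XT.nd (nat_lit 78) (nat_lit 1596) (nat_lit 0) (XT.lf (nat_lit 0) (nat_lit 7553210932) (nat_lit 1520) (nat_lit 267909004) (nat_lit 76) (nat_lit 25971223) (nat_lit 464) (nat_lit 5) (nat_lit 484) (nat_lit 5) (nat_lit 465) (nat_lit 5) (nat_lit 327) (nat_lit 307) (nat_lit 266)) (XT.lf (nat_lit 0) (nat_lit 2639554496) (nat_lit 1596) (nat_lit 1489355175) (nat_lit 76) (nat_lit 3809758667) (nat_lit 443) (nat_lit 5) (nat_lit 464) (nat_lit 5) (nat_lit 444) (nat_lit 5) (nat_lit 328) (nat_lit 307) (nat_lit 265))) (XT.nd (nat_lit 78) (nat_lit 3496) (nat_lit 0) (XT.lf (nat_lit 0) (nat_lit 5337405698) (nat_lit 1596) (nat_lit 276277606) (nat_lit 1672) (nat_lit 2420182439)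 (nat_lit 422) (nat_lit 5) (nat_lit 443) (nat_lit 5) (nat_lit 444) (nat_lit 5) (nat_lit 329) (nat_lit 307) (nat_lit 264)) (XT.nd (nat_lit 78) (nat_lit 1748) (nat_lit 0) (XT.lf (nat_lit 0) (nat_lit 521462165) (nat_lit 1748) (nat_lit 3916707231) (nat_lit 76) (nat_lit 3694052249) (nat_lit 399) (nat_lit 5) (nat_lit 422) (nat_lit 5) (nat_lit 400) (nat_lit 5) (nat_lit 330) (nat_lit 307) (nat_lit 263)) (XT.lf (nat_lit 0) (nat_lit 3091135879) (nat_lit 1748) (nat_lit 391237030) (nat_lit 1824) (nat_lit 4751599405) (nat_lit 376) (nat_lit 5) (nat_lit 399) (nat_lit 5) (nat_lit 400) (nat_lit 5) (nat_lit 331) (nat_lit 307) (nat_lit 262))))) (XT.nd (nat_lit 156) (nat_lit 1748) (nat_lit 0) (XT.nd (nat_lit 78) (nat_lit 988) (nat_lit 0) (XT.lf (nat_lit 0) (nat_lit 1955236242) (nat_lit 988) (nat_lit 4566033851) (nat_lit 1064) (nat_lit 1817762995) (nat_lit 363) (nat_lit 5) (nat_lit 376) (nat_lit 5) (nat_lit 377) (nat_lit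 5) (nat_lit 332) (nat_lit 307) (nat_lit 261)) (XT.lf (nat_lit 0) (nat_lit 820022151) (nat_lit 912) (nat_lit 337725805) (nat_lit 988) (nat_lit 7289991153) (nat_lit 350) (nat_lit 5) (nat_lit 362) (nat_lit 5) (nat_lit 363) (nat_lit 5) (nat_lit 333) (nat_lit 307) (nat_lit 260))) (XT.nd (nat_lit 78) (nat_lit 1748) (nat_lit 0) (XT.lf (nat_lit 0) (nat_lit 4195741297) (nat_lit 988) (nat_lit 340550833) (nat_lit 76) (nat_lit 4023253279) (nat_lit 350) (nat_lit 5) (nat_lit 363) (nat_lit 5) (nat_lit 351) (nat_lit 5) (nat_lit 334) (nat_lit 307) (nat_lit 259)) (XT.nd (nat_lit 78) (nat_lit 912) (nat_lit 0) (XT.lf (nat_lit 0) (nat_lit 7188786666) (nat_lit 836) (nat_lit 115257190) (nat_lit 912) (nat_lit 1371115230) (nat_lit 339) (nat_lit 5) (nat_lit 350) (nat_lit 5) (nat_lit 351) (nat_lit 5) (nat_lit 335) (nat_lit 307) (nat_lit 258)) (XT.lf (nat_lit 0) (nat_lit 1691717617) (nat_lit 912) (nat_lit 2667979473) (nat_lit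 76) (nat_lit 4434300512) (nat_lit 327) (nat_lit 5) (nat_lit 339) (nat_lit 5) (nat_lit 328) (nat_lit 5) (nat_lit 336) (nat_lit 307) (nat_lit 257)))))) (XT.nd (nat_lit 390) (nat_lit 2812) (nat_lit 0) (XT.nd (nat_lit 156) (nat_lit 2280) (nat_lit 0) (XT.nd (nat_lit 78) (nat_lit 760) (nat_lit 0) (XT.lf (nat_lit 0) (nat_lit 4806224851) (nat_lit 836) (nat_lit 3859673699) (nat_lit 76) (nat_lit 250786914) (nat_lit 317) (nat_lit 5) (nat_lit 328) (nat_lit 5) (nat_lit 318) (nat_lit 5) (nat_lit 337) (nat_lit 307) (nat_lit 256)) (XT.lf (nat_lit 0) (nat_lit 3961470327) (nat_lit 760) (nat_lit 4060182823) (nat_lit 836) (nat_lit 1021283911) (nat_lit 307) (nat_lit 5) (nat_lit 317) (nat_lit 5) (nat_lit 318) (nat_lit 5) (nat_lit 338) (nat_lit 307) (nat_lit 255))) (XT.nd (nat_lit 78) (nat_lit 1444) (nat_lit 0) (XT.lf (nat_lit 0) (nat_lit 2117307546) (nat_lit 836) (nat_lit 6325653655) (nat_lit 76) (nat_lit 730064169) (nat_lit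 296) (nat_lit 5) (nat_lit 307) (nat_lit 5) (nat_lit 297) (nat_lit 5) (nat_lit 339) (nat_lit 307) (nat_lit 254)) (XT.nd (nat_lit 78) (nat_lit 684) (nat_lit 0) (XT.lf (nat_lit 0) (nat_lit 1696629041) (nat_lit 760) (nat_lit 3649302129) (nat_lit 836) (nat_lit 3960785478) (nat_lit 286) (nat_lit 5) (nat_lit 296) (nat_lit 5) (nat_lit 297) (nat_lit 5) (nat_lit 340) (nat_lit 307) (nat_lit 253)) (XT.lf (nat_lit 0) (nat_lit 532108677) (nat_lit 684) (nat_lit 8132475525) (nat_lit 760) (nat_lit 780000491) (nat_lit 277) (nat_lit 5) (nat_lit 286) (nat_lit 5) (nat_lit 287) (nat_lit 5) (nat_lit 341) (nat_lit 307) (nat_lit 252))))) (XT.nd (nat_lit 156) (nat_lit 2052) (nat_lit 0) (XT.nd (nat_lit 78) (nat_lit 684) (nat_lit 0) (XT.lf (nat_lit 0) (nat_lit 2478919776) (nat_lit 760) (nat_lit 672319675) (nat_lit 76) (nat_lit 6434744213) (nat_lit 276) (nat_lit 5) (nat_lit 286) (nat_lit 5) (nat_lit 277) (nat_lit 5) (nat_lit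 342) (nat_lit 307) (nat_lit 251)) (XT.lf (nat_lit 0) (nat_lit 5830097104) (nat_lit 760) (nat_lit 1898708161) (nat_lit 76) (nat_lit 2002641699) (nat_lit 267) (nat_lit 5) (nat_lit 277) (nat_lit 5) (nat_lit 268) (nat_lit 5) (nat_lit 343) (nat_lit 307) (nat_lit 250))) (XT.nd (nat_lit 78) (nat_lit 1368) (nat_lit 0) (XT.lf (nat_lit 0) (nat_lit 6721413079) (nat_lit 684) (nat_lit 2571850821) (nat_lit 760) (nat_lit 587807595) (nat_lit 258) (nat_lit 5) (nat_lit 267) (nat_lit 5) (nat_lit 268) (nat_lit 5) (nat_lit 344) (nat_lit 307) (nat_lit 249)) (XT.nd (nat_lit 78) (nat_lit 608) (nat_lit 0) (XT.lf (nat_lit 0) (nat_lit 2798456098) (nat_lit 760) (nat_lit 4473530306) (nat_lit 76) (nat_lit 2762649302) (nat_lit 248) (nat_lit 5) (nat_lit 258) (nat_lit 5) (nat_lit 249) (nat_lit 5) (nat_lit 345) (nat_lit 307) (nat_lit 248)) (XT.lf (nat_lit 0) (nat_lit 4364018102) (nat_lit 608) (nat_lit 1925623545) (nat_lit 684) (nat_lit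 3902885498) (nat_lit 240) (nat_lit 5) (nat_lit 248) (nat_lit 5) (nat_lit 249) (nat_lit 5) (nat_lit 346) (nat_lit 307) (nat_lit 247))))))))
noncomputable def xc64 : XT := (XT.nd (nat_lit 1482) (nat_lit 5092) (nat_lit 0) (XT.nd (nat_lit 702) (nat_lit 3800) (nat_lit 0) (XT.nd (nat_lit 312) (nat_lit 2736) (nat_lit 0) (XT.nd (nat_lit 156) (nat_lit 608) (nat_lit 0) (XT.nd (nat_lit 78) (nat_lit 684) (nat_lit 0) (XT.lf (nat_lit 0) (nat_lit 3124627020) (nat_lit 608) (nat_lit 6780310426) (nat_lit 684) (nat_lit 449854089) (nat_lit 232) (nat_lit 5) (nat_lit 240) (nat_lit 5) (nat_lit 241) (nat_lit 5) (nat_lit 347) (nat_lit 307) (nat_lit 246)) (XT.lf (nat_lit 0) (nat_lit 1829749134) (nat_lit 608) (nat_lit 1246901925) (nat_lit 684) (nat_lit 7444679360) (nat_lit 223) (nat_lit 5) (nat_lit 231) (nat_lit 5) (nat_lit 232) (nat_lit 5) (nat_lit 348) (nat_lit 307) (nat_lit 245))) (XT.nd (nat_lit 78) (nat_lit 0) (nat_lit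 0) (XT.lf (nat_lit 0) (nat_lit 476681625) (nat_lit 608) (nat_lit 6254698053) (nat_lit 684) (nat_lit 3960877422) (nat_lit 215) (nat_lit 5) (nat_lit 223) (nat_lit 5) (nat_lit 224) (nat_lit 5) (nat_lit 349) (nat_lit 307) (nat_lit 244)) (XT.lf (nat_lit 0) (nat_lit 9965712538) (nat_lit 608) (nat_lit 545519166) (nat_lit 684) (nat_lit 356791508) (nat_lit 215) (nat_lit 5) (nat_lit 223) (nat_lit 5) (nat_lit 224) (nat_lit 5) (nat_lit 350) (nat_lit 307) (nat_lit 243)))) (XT.nd (nat_lit 156) (nat_lit 1596) (nat_lit 0) (XT.nd (nat_lit 78) (nat_lit 532) (nat_lit 0) (XT.lf (nat_lit 0) (nat_lit 3352547931) (nat_lit 608) (nat_lit 2364282738) (nat_lit 76) (nat_lit 5330993411) (nat_lit 207) (nat_lit 5) (nat_lit 215) (nat_lit 5) (nat_lit 208) (nat_lit 5) (nat_lit 351) (nat_lit 307) (nat_lit 242)) (XT.lf (nat_lit 0) (nat_lit 7177608145) (nat_lit 608) (nat_lit 3870622165) (nat_lit 76) (nat_lit 184575386) (nat_lit 200)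 (nat_lit 5) (nat_lit 208) (nat_lit 5) (nat_lit 201) (nat_lit 5) (nat_lit 352) (nat_lit 307) (nat_lit 241))) (XT.nd (nat_lit 78) (nat_lit 1064) (nat_lit 0) (XT.lf (nat_lit 0) (nat_lit 5966334657) (nat_lit 532) (nat_lit 5195563516) (nat_lit 608) (nat_lit 260568106) (nat_lit 193) (nat_lit 5) (nat_lit 200) (nat_lit 5) (nat_lit 201) (nat_lit 5) (nat_lit 353) (nat_lit 307) (nat_lit 240)) (XT.nd (nat_lit 78) (nat_lit 456) (nat_lit 0) (XT.lf (nat_lit 0) (nat_lit 3613611934) (nat_lit 608) (nat_lit 7116703001) (nat_lit 76) (nat_lit 886775119) (nat_lit 185) (nat_lit 5) (nat_lit 193) (nat_lit 5) (nat_lit 186) (nat_lit 5) (nat_lit 354) (nat_lit 307) (nat_lit 239)) (XT.lf (nat_lit 0) (nat_lit 2952632385) (nat_lit 456) (nat_lit 4691954387) (nat_lit 532) (nat_lit 4172066764) (nat_lit 179) (nat_lit 5) (nat_lit 185) (nat_lit 5) (nat_lit 186) (nat_lit 5) (nat_lit 355) (nat_lit 307) (nat_lit 238)))))) (XT.nd (nat_lit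 390) (nat_lit 1748) (nat_lit 0) (XT.nd (nat_lit 156) (nat_lit 1444) (nat_lit 0) (XT.nd (nat_lit 78) (nat_lit 76) (nat_lit 0) (XT.lf (nat_lit 0) (nat_lit 1344976147) (nat_lit 532) (nat_lit 10472532694) (nat_lit 608) (nat_lit 204291838) (nat_lit 172) (nat_lit 5) (nat_lit 179) (nat_lit 5) (nat_lit 180) (nat_lit 5) (nat_lit 356) (nat_lit 307) (nat_lit 237)) (XT.lf (nat_lit 0) (nat_lit 3877888848) (nat_lit 608) (nat_lit 369562606) (nat_lit 76) (nat_lit 7984237069) (nat_lit 171) (nat_lit 5) (nat_lit 179) (nat_lit 5) (nat_lit 172) (nat_lit 5) (nat_lit 357) (nat_lit 307) (nat_lit 236))) (XT.nd (nat_lit 78) (nat_lit 988) (nat_lit 0) (XT.lf (nat_lit 0) (nat_lit 8116961335) (nat_lit 532) (nat_lit 2141341236) (nat_lit 76) (nat_lit 2188815202) (nat_lit 165) (nat_lit 5) (nat_lit 172) (nat_lit 5) (nat_lit 166) (nat_lit 5) (nat_lit 358) (nat_lit 307) (nat_lit 235)) (XT.nd (nat_lit 78) (nat_lit 532) (nat_lit 0) (XT.lf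 (nat_lit 0) (nat_lit 8662425303) (nat_lit 456) (nat_lit 3864524178) (nat_lit 532) (nat_lit 141200909) (nat_lit 159) (nat_lit 5) (nat_lit 165) (nat_lit 5) (nat_lit 166) (nat_lit 5) (nat_lit 359) (nat_lit 307) (nat_lit 234)) (XT.lf (nat_lit 0) (nat_lit 4153565246) (nat_lit 532) (nat_lit 5985166288) (nat_lit 76) (nat_lit 2755857592) (nat_lit 152) (nat_lit 5) (nat_lit 159) (nat_lit 5) (nat_lit 153) (nat_lit 5) (nat_lit 360) (nat_lit 307) (nat_lit 233))))) (XT.nd (nat_lit 156) (nat_lit 912) (nat_lit 0) (XT.nd (nat_lit 78) (nat_lit 380) (nat_lit 0) (XT.lf (nat_lit 0) (nat_lit 5059347283) (nat_lit 456) (nat_lit 3559851130) (nat_lit 532) (nat_lit 4507739287) (nat_lit 146) (nat_lit 5) (nat_lit 152) (nat_lit 5) (nat_lit 153) (nat_lit 5) (nat_lit 361) (nat_lit 307) (nat_lit 232)) (XT.lf (nat_lit 0) (nat_lit 3111963451) (nat_lit 380) (nat_lit 10147398152) (nat_lit 456) (nat_lit 106097688) (nat_lit 141) (nat_lit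 5) (nat_lit 146) (nat_lit 5) (nat_lit 147) (nat_lit 5) (nat_lit 362) (nat_lit 307) (nat_lit 231))) (XT.nd (nat_lit 78) (nat_lit 380) (nat_lit 0) (XT.lf (nat_lit 0) (nat_lit 1028902584) (nat_lit 456) (nat_lit 3385329853) (nat_lit 532) (nat_lit 9195448110) (nat_lit 134) (nat_lit 5) (nat_lit 140) (nat_lit 5) (nat_lit 141) (nat_lit 5) (nat_lit 363) (nat_lit 307) (nat_lit 230)) (XT.nd (nat_lit 78) (nat_lit 380) (nat_lit 0) (XT.lf (nat_lit 0) (nat_lit 9121807211) (nat_lit 532) (nat_lit 1152831903) (nat_lit 76) (nat_lit 3585526509) (nat_lit 134) (nat_lit 5) (nat_lit 141) (nat_lit 5) (nat_lit 135) (nat_lit 5) (nat_lit 364) (nat_lit 307) (nat_lit 229)) (XT.lf (nat_lit 0) (nat_lit 10678365210) (nat_lit 380) (nat_lit 3345268396) (nat_lit 456) (nat_lit 93483519) (nat_lit 129) (nat_lit 5) (nat_lit 134) (nat_lit 5) (nat_lit 135) (nat_lit 5) (nat_lit 365) (nat_lit 307) (nat_lit 228))))))) (XT.nd (nat_lit 780) (nat_lit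 2052) (nat_lit 0) (XT.nd (nat_lit 390) (nat_lit 1444) (nat_lit 0) (XT.nd (nat_lit 156) (nat_lit 760) (nat_lit 0) (XT.nd (nat_lit 78) (nat_lit 380) (nat_lit 0) (XT.lf (nat_lit 0) (nat_lit 4679102849) (nat_lit 456) (nat_lit 5882466271) (nat_lit 76) (nat_lit 3818613009) (nat_lit 123) (nat_lit 5) (nat_lit 129) (nat_lit 5) (nat_lit 124) (nat_lit 5) (nat_lit 366) (nat_lit 307) (nat_lit 227)) (XT.lf (nat_lit 0) (nat_lit 6190387299) (nat_lit 380) (nat_lit 3451437526) (nat_lit 456) (nat_lit 5008348763) (nat_lit 118) (nat_lit 5) (nat_lit 123) (nat_lit 5) (nat_lit 124) (nat_lit 5) (nat_lit 367) (nat_lit 307) (nat_lit 226))) (XT.nd (nat_lit 78) (nat_lit 380) (nat_lit 0) (XT.lf (nat_lit 0) (nat_lit 3746163029) (nat_lit 380) (nat_lit 11059676103) (nat_lit 456) (nat_lit 121388535) (nat_lit 113) (nat_lit 5) (nat_lit 118) (nat_lit 5) (nat_lit 119) (nat_lit 5) (nat_lit 368) (nat_lit 307) (nat_lit 225)) (XT.nd (nat_lit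 78) (nat_lit 0) (nat_lit 0) (XT.lf (nat_lit 0) (nat_lit 1126428982) (nat_lit 304) (nat_lit 3772723933) (nat_lit 380) (nat_lit 10311785216) (nat_lit 108) (nat_lit 5) (nat_lit 112) (nat_lit 5) (nat_lit 113) (nat_lit 5) (nat_lit 369) (nat_lit 307) (nat_lit 224)) (XT.lf (nat_lit 0) (nat_lit 10133062995) (nat_lit 380) (nat_lit 1626337528) (nat_lit 76) (nat_lit 3742465557) (nat_lit 108) (nat_lit 5) (nat_lit 113) (nat_lit 5) (nat_lit 109) (nat_lit 5) (nat_lit 370) (nat_lit 307) (nat_lit 223))))) (XT.nd (nat_lit 156) (nat_lit 684) (nat_lit 0) (XT.nd (nat_lit 78) (nat_lit 380) (nat_lit 0) (XT.lf (nat_lit 0) (nat_lit 11274489189) (nat_lit 380) (nat_lit 4312872268) (nat_lit 456) (nat_lit 212902939) (nat_lit 103) (nat_lit 5) (nat_lit 108) (nat_lit 5) (nat_lit 109) (nat_lit 5) (nat_lit 371) (nat_lit 307) (nat_lit 222)) (XT.lf (nat_lit 0) (nat_lit 5084826416) (nat_lit 380) (nat_lit 7626440959) (nat_lit 76) (nat_lit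 3394614627) (nat_lit 98) (nat_lit 5) (nat_lit 103) (nat_lit 5) (nat_lit 99) (nat_lit 5) (nat_lit 372) (nat_lit 307) (nat_lit 221))) (XT.nd (nat_lit 78) (nat_lit 380) (nat_lit 0) (XT.lf (nat_lit 0) (nat_lit 5505416149) (nat_lit 304) (nat_lit 5094581633) (nat_lit 380) (nat_lit 5819423351) (nat_lit 94) (nat_lit 5) (nat_lit 98) (nat_lit 5) (nat_lit 99) (nat_lit 5) (nat_lit 373) (nat_lit 307) (nat_lit 220)) (XT.nd (nat_lit 78) (nat_lit 76) (nat_lit 0) (XT.lf (nat_lit 0) (nat_lit 2354240143) (nat_lit 304) (nat_lit 13978009624) (nat_lit 380) (nat_lit 409093088) (nat_lit 90) (nat_lit 5) (nat_lit 94) (nat_lit 5) (nat_lit 95) (nat_lit 5) (nat_lit 374) (nat_lit 307) (nat_lit 219)) (XT.lf (nat_lit 0) (nat_lit 5171216201) (nat_lit 380) (nat_lit 1021919070) (nat_lit 76) (nat_lit 10877617154) (nat_lit 89) (nat_lit 5) (nat_lit 94) (nat_lit 5) (nat_lit 90) (nat_lit 5) (nat_lit 375) (nat_lit 307) (nat_lit 218))))))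 (XT.nd (nat_lit 390) (nat_lit 912) (nat_lit 0) (XT.nd (nat_lit 156) (nat_lit 608) (nat_lit 0) (XT.nd (nat_lit 78) (nat_lit 228) (nat_lit 0) (XT.lf (nat_lit 0) (nat_lit 10977039471) (nat_lit 380) (nat_lit 4561928111) (nat_lit 76) (nat_lit 1869757615) (nat_lit 85) (nat_lit 5) (nat_lit 90) (nat_lit 5) (nat_lit 86) (nat_lit 5) (nat_lit 376) (nat_lit 307) (nat_lit 217)) (XT.lf (nat_lit 0) (nat_lit 9420465146) (nat_lit 228) (nat_lit 7614454428) (nat_lit 304) (nat_lit 720367944) (nat_lit 82) (nat_lit 5) (nat_lit 85) (nat_lit 5) (nat_lit 86) (nat_lit 5) (nat_lit 377) (nat_lit 307) (nat_lit 216))) (XT.nd (nat_lit 78) (nat_lit 228) (nat_lit 0) (XT.lf (nat_lit 0) (nat_lit 5135960819) (nat_lit 380) (nat_lit 12350008832) (nat_lit 76) (nat_lit 624786826) (nat_lit 77) (nat_lit 5) (nat_lit 82) (nat_lit 5) (nat_lit 78) (nat_lit 5) (nat_lit 378) (nat_lit 307) (nat_lit 215)) (XT.nd (nat_lit 78) (nat_lit 0) (nat_lit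 0) (XT.lf (nat_lit 0) (nat_lit 1835695810) (nat_lit 228) (nat_lit 9411433903) (nat_lit 304) (nat_lit 7227893218) (nat_lit 74) (nat_lit 5) (nat_lit 77) (nat_lit 5) (nat_lit 78) (nat_lit 5) (nat_lit 379) (nat_lit 307) (nat_lit 214)) (XT.lf (nat_lit 0) (nat_lit 16567047893) (nat_lit 228) (nat_lit 1028041054) (nat_lit 304) (nat_lit 1254066511) (nat_lit 74) (nat_lit 5) (nat_lit 77) (nat_lit 5) (nat_lit 78) (nat_lit 5) (nat_lit 380) (nat_lit 307) (nat_lit 213))))) (XT.nd (nat_lit 156) (nat_lit 304) (nat_lit 0) (XT.nd (nat_lit 78) (nat_lit 228) (nat_lit 0) (XT.lf (nat_lit 0) (nat_lit 4936942911) (nat_lit 380) (nat_lit 6691648651) (nat_lit 76) (nat_lit 7603246715) (nat_lit 69) (nat_lit 5) (nat_lit 74) (nat_lit 5) (nat_lit 70) (nat_lit 5) (nat_lit 381) (nat_lit 307) (nat_lit 212)) (XT.lf (nat_lit 0) (nat_lit 8258006097) (nat_lit 228) (nat_lit 3085677456) (nat_lit 304) (nat_lit 8281218105) (nat_lit 66) (nat_lit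 5) (nat_lit 69) (nat_lit 5) (nat_lit 70) (nat_lit 5) (nat_lit 382) (nat_lit 307) (nat_lit 211))) (XT.nd (nat_lit 78) (nat_lit 76) (nat_lit 0) (XT.lf (nat_lit 0) (nat_lit 3682473962) (nat_lit 228) (nat_lit 14338111101) (nat_lit 304) (nat_lit 2007619154) (nat_lit 63) (nat_lit 5) (nat_lit 66) (nat_lit 5) (nat_lit 67) (nat_lit 5) (nat_lit 383) (nat_lit 307) (nat_lit 210)) (XT.nd (nat_lit 40950) (nat_lit 0) (nat_lit 41724) (XT.lf (nat_lit 0) (nat_lit 4465590687) (nat_lit 304) (nat_lit 1200151834) (nat_lit 76) (nat_lit 14775894668) (nat_lit 62) (nat_lit 5) (nat_lit 66) (nat_lit 5) (nat_lit 63) (nat_lit 5) (nat_lit 384) (nat_lit 307) (nat_lit 209)) (XT.lf (nat_lit 0) (nat_lit 1404427755) (nat_lit 836) (nat_lit 977364652) (nat_lit 836) (nat_lit 977364652) (nat_lit 611) (nat_lit 3) (nat_lit 622) (nat_lit 3) (nat_lit 622) (nat_lit 5) (nat_lit 308) (nat_lit 308) (nat_lit 284))))))))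
noncomputable def xc65 : XT := (XT.nd (nat_lit 1482) (nat_lit 16948) (nat_lit 0) (XT.nd (nat_lit 702) (nat_lit 7676) (nat_lit 0) (XT.nd (nat_lit 312) (nat_lit 1900) (nat_lit 0) (XT.nd (nat_lit 156) (nat_lit 836) (nat_lit 0) (XT.nd (nat_lit 78) (nat_lit 836) (nat_lit 0) (XT.lf (nat_lit 76) (nat_lit 2860809674) (nat_lit 0) (nat_lit 3118644525) (nat_lit 836) (nat_lit 774742969) (nat_lit 612) (nat_lit 5) (nat_lit 611) (nat_lit 3) (nat_lit 622) (nat_lit 5) (nat_lit 309) (nat_lit 308) (nat_lit 283)) (XT.lf (nat_lit 76) (nat_lit 989145142) (nat_lit 0) (nat_lit 1329766108) (nat_lit 912) (nat_lit 4474074012) (nat_lit 601) (nat_lit 5) (nat_lit 600) (nat_lit 5) (nat_lit 612) (nat_lit 5) (nat_lit 310) (nat_lit 308) (nat_lit 282))) (XT.nd (nat_lit 78) (nat_lit 912) (nat_lit 0) (XT.lf (nat_lit 0) (nat_lit 5405647586) (nat_lit 836) (nat_lit 835928259) (nat_lit 912) (nat_lit 593129040) (nat_lit 601) (nat_lit 5) (nat_lit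 612) (nat_lit 5) (nat_lit 613) (nat_lit 5) (nat_lit 311) (nat_lit 308) (nat_lit 281)) (XT.lf (nat_lit 0) (nat_lit 1605208915) (nat_lit 912) (nat_lit 2626205513) (nat_lit 988) (nat_lit 2647716268) (nat_lit 589) (nat_lit 5) (nat_lit 601) (nat_lit 5) (nat_lit 602) (nat_lit 5) (nat_lit 312) (nat_lit 308) (nat_lit 280)))) (XT.nd (nat_lit 156) (nat_lit 988) (nat_lit 0) (XT.nd (nat_lit 78) (nat_lit 912) (nat_lit 0) (XT.lf (nat_lit 76) (nat_lit 2539932893) (nat_lit 0) (nat_lit 2079911782) (nat_lit 988) (nat_lit 2306760273) (nat_lit 590) (nat_lit 5) (nat_lit 589) (nat_lit 5) (nat_lit 602) (nat_lit 5) (nat_lit 313) (nat_lit 308) (nat_lit 279)) (XT.lf (nat_lit 0) (nat_lit 653010621) (nat_lit 988) (nat_lit 6115823354) (nat_lit 1064) (nat_lit 208379556) (nat_lit 577) (nat_lit 5) (nat_lit 590) (nat_lit 5) (nat_lit 591) (nat_lit 5) (nat_lit 314) (nat_lit 308) (nat_lit 278))) (XT.nd (nat_lit 78) (nat_lit 988) (nat_lit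 0) (XT.lf (nat_lit 0) (nat_lit 3605898164) (nat_lit 988) (nat_lit 798210948) (nat_lit 1064) (nat_lit 2626286712) (nat_lit 577) (nat_lit 5) (nat_lit 590) (nat_lit 5) (nat_lit 591) (nat_lit 5) (nat_lit 315) (nat_lit 308) (nat_lit 277)) (XT.nd (nat_lit 78) (nat_lit 988) (nat_lit 0) (XT.lf (nat_lit 76) (nat_lit 4675322922) (nat_lit 0) (nat_lit 1897213522) (nat_lit 1064) (nat_lit 514205385) (nat_lit 578) (nat_lit 5) (nat_lit 577) (nat_lit 5) (nat_lit 591) (nat_lit 5) (nat_lit 316) (nat_lit 308) (nat_lit 276)) (XT.lf (nat_lit 0) (nat_lit 2378332259) (nat_lit 1064) (nat_lit 4012028385) (nat_lit 1140) (nat_lit 755613040) (nat_lit 564) (nat_lit 5) (nat_lit 578) (nat_lit 5) (nat_lit 579) (nat_lit 5) (nat_lit 317) (nat_lit 308) (nat_lit 275)))))) (XT.nd (nat_lit 390) (nat_lit 5472) (nat_lit 0) (XT.nd (nat_lit 156) (nat_lit 1064) (nat_lit 0) (XT.nd (nat_lit 78) (nat_lit 1140) (nat_lit 0) (XT.lf (nat_lit 76) (nat_lit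 1610338953) (nat_lit 0) (nat_lit 3679490736) (nat_lit 1140) (nat_lit 1918367535) (nat_lit 565) (nat_lit 5) (nat_lit 564) (nat_lit 5) (nat_lit 579) (nat_lit 5) (nat_lit 318) (nat_lit 308) (nat_lit 274)) (XT.lf (nat_lit 76) (nat_lit 112382339) (nat_lit 0) (nat_lit 820095655) (nat_lit 1216) (nat_lit 6341151939) (nat_lit 550) (nat_lit 5) (nat_lit 549) (nat_lit 5) (nat_lit 565) (nat_lit 5) (nat_lit 319) (nat_lit 308) (nat_lit 273))) (XT.nd (nat_lit 78) (nat_lit 1140) (nat_lit 0) (XT.lf (nat_lit 0) (nat_lit 3798887460) (nat_lit 1140) (nat_lit 1364551909) (nat_lit 1216) (nat_lit 2178271698) (nat_lit 550) (nat_lit 5) (nat_lit 565) (nat_lit 5) (nat_lit 566) (nat_lit 5) (nat_lit 320) (nat_lit 308) (nat_lit 272)) (XT.nd (nat_lit 78) (nat_lit 1140) (nat_lit 0) (XT.lf (nat_lit 76) (nat_lit 4594840074) (nat_lit 0) (nat_lit 2098534761) (nat_lit 1216) (nat_lit 719677390) (nat_lit 551) (nat_lit 5) (nat_lit 550) (nat_lit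 5) (nat_lit 566) (nat_lit 5) (nat_lit 321) (nat_lit 308) (nat_lit 271)) (XT.lf (nat_lit 0) (nat_lit 2105460427) (nat_lit 1216) (nat_lit 4267648428) (nat_lit 76) (nat_lit 1114277164) (nat_lit 535) (nat_lit 5) (nat_lit 551) (nat_lit 5) (nat_lit 536) (nat_lit 5) (nat_lit 322) (nat_lit 308) (nat_lit 270))))) (XT.nd (nat_lit 156) (nat_lit 2888) (nat_lit 0) (XT.nd (nat_lit 78) (nat_lit 1368) (nat_lit 0) (XT.lf (nat_lit 0) (nat_lit 1852039763) (nat_lit 1216) (nat_lit 3109678823) (nat_lit 1292) (nat_lit 2603068027) (nat_lit 519) (nat_lit 5) (nat_lit 535) (nat_lit 5) (nat_lit 536) (nat_lit 5) (nat_lit 323) (nat_lit 308) (nat_lit 269)) (XT.lf (nat_lit 0) (nat_lit 202499441) (nat_lit 1368) (nat_lit 7140280401) (nat_lit 76) (nat_lit 302813033) (nat_lit 501) (nat_lit 5) (nat_lit 519) (nat_lit 5) (nat_lit 502) (nat_lit 5) (nat_lit 324) (nat_lit 308) (nat_lit 268))) (XT.nd (nat_lit 78) (nat_lit 2888) (nat_lit 0)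 (XT.lf (nat_lit 0) (nat_lit 3031429345) (nat_lit 1368) (nat_lit 846434064) (nat_lit 76) (nat_lit 3851175218) (nat_lit 501) (nat_lit 5) (nat_lit 519) (nat_lit 5) (nat_lit 502) (nat_lit 5) (nat_lit 325) (nat_lit 308) (nat_lit 267)) (XT.nd (nat_lit 78) (nat_lit 1520) (nat_lit 0) (XT.lf (nat_lit 0) (nat_lit 5644198469) (nat_lit 1368) (nat_lit 254757822) (nat_lit 1444) (nat_lit 1917006046) (nat_lit 483) (nat_lit 5) (nat_lit 501) (nat_lit 5) (nat_lit 502) (nat_lit 5) (nat_lit 326) (nat_lit 308) (nat_lit 266)) (XT.lf (nat_lit 0) (nat_lit 910513316) (nat_lit 1520) (nat_lit 3507856110) (nat_lit 76) (nat_lit 3487529797) (nat_lit 463) (nat_lit 5) (nat_lit 483) (nat_lit 5) (nat_lit 464) (nat_lit 5) (nat_lit 327) (nat_lit 308) (nat_lit 265))))))) (XT.nd (nat_lit 780) (nat_lit 5852) (nat_lit 0) (XT.nd (nat_lit 390) (nat_lit 4484) (nat_lit 0) (XT.nd (nat_lit 156) (nat_lit 3496) (nat_lit 0) (XT.nd (nat_lit 78) (nat_lit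 1596) (nat_lit 0) (XT.lf (nat_lit 0) (nat_lit 3156437712) (nat_lit 1520) (nat_lit 598075118) (nat_lit 1596) (nat_lit 4244659411) (nat_lit 443) (nat_lit 5) (nat_lit 463) (nat_lit 5) (nat_lit 464) (nat_lit 5) (nat_lit 328) (nat_lit 308) (nat_lit 264)) (XT.lf (nat_lit 0) (nat_lit 1909773227) (nat_lit 1596) (nat_lit 4754555673) (nat_lit 1672) (nat_lit 1431348733) (nat_lit 422) (nat_lit 5) (nat_lit 443) (nat_lit 5) (nat_lit 444) (nat_lit 5) (nat_lit 329) (nat_lit 308) (nat_lit 263))) (XT.nd (nat_lit 78) (nat_lit 1748) (nat_lit 0) (XT.lf (nat_lit 0) (nat_lit 664376531) (nat_lit 1672) (nat_lit 747887443) (nat_lit 1748) (nat_lit 6783363106) (nat_lit 399) (nat_lit 5) (nat_lit 421) (nat_lit 5) (nat_lit 422) (nat_lit 5) (nat_lit 330) (nat_lit 308) (nat_lit 262)) (XT.nd (nat_lit 78) (nat_lit 1748) (nat_lit 0) (XT.lf (nat_lit 0) (nat_lit 4311614193) (nat_lit 1748) (nat_lit 592497401) (nat_lit 76) (nat_lit 3394517448)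 (nat_lit 399) (nat_lit 5) (nat_lit 422) (nat_lit 5) (nat_lit 400) (nat_lit 5) (nat_lit 331) (nat_lit 308) (nat_lit 261)) (XT.lf (nat_lit 0) (nat_lit 6569743329) (nat_lit 1748) (nat_lit 703655134) (nat_lit 1824) (nat_lit 1131853109) (nat_lit 376) (nat_lit 5) (nat_lit 399) (nat_lit 5) (nat_lit 400) (nat_lit 5) (nat_lit 332) (nat_lit 308) (nat_lit 260))))) (XT.nd (nat_lit 156) (nat_lit 2508) (nat_lit 0) (XT.nd (nat_lit 78) (nat_lit 912) (nat_lit 0) (XT.lf (nat_lit 0) (nat_lit 1777428042) (nat_lit 1064) (nat_lit 3105692642) (nat_lit 76) (nat_lit 3631911080) (nat_lit 362) (nat_lit 5) (nat_lit 376) (nat_lit 5) (nat_lit 363) (nat_lit 5) (nat_lit 333) (nat_lit 308) (nat_lit 259)) (XT.lf (nat_lit 0) (nat_lit 4245991527) (nat_lit 912) (nat_lit 488153810) (nat_lit 988) (nat_lit 3894336265) (nat_lit 350) (nat_lit 5) (nat_lit 362) (nat_lit 5) (nat_lit 363) (nat_lit 5) (nat_lit 334) (nat_lit 308) (nat_lit 258)))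 (XT.nd (nat_lit 78) (nat_lit 1672) (nat_lit 0) (XT.lf (nat_lit 0) (nat_lit 3063163166) (nat_lit 836) (nat_lit 4715963743) (nat_lit 912) (nat_lit 966252283) (nat_lit 339) (nat_lit 5) (nat_lit 350) (nat_lit 5) (nat_lit 351) (nat_lit 5) (nat_lit 335) (nat_lit 308) (nat_lit 257)) (XT.nd (nat_lit 78) (nat_lit 760) (nat_lit 0) (XT.lf (nat_lit 0) (nat_lit 1868405620) (nat_lit 836) (nat_lit 133020312) (nat_lit 912) (nat_lit 6864552749) (nat_lit 327) (nat_lit 5) (nat_lit 338) (nat_lit 5) (nat_lit 339) (nat_lit 5) (nat_lit 336) (nat_lit 308) (nat_lit 256)) (XT.lf (nat_lit 0) (nat_lit 639207627) (nat_lit 760) (nat_lit 4413429811) (nat_lit 836) (nat_lit 3937311186) (nat_lit 317) (nat_lit 5) (nat_lit 327) (nat_lit 5) (nat_lit 328) (nat_lit 5) (nat_lit 337) (nat_lit 308) (nat_lit 255)))))) (XT.nd (nat_lit 390) (nat_lit 2736) (nat_lit 0) (XT.nd (nat_lit 156) (nat_lit 2280) (nat_lit 0) (XT.nd (nat_lit 78) (nat_lit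 836) (nat_lit 0) (XT.lf (nat_lit 0) (nat_lit 8182321700) (nat_lit 836) (nat_lit 585797254) (nat_lit 76) (nat_lit 349811842) (nat_lit 317) (nat_lit 5) (nat_lit 328) (nat_lit 5) (nat_lit 318) (nat_lit 5) (nat_lit 338) (nat_lit 308) (nat_lit 254)) (XT.lf (nat_lit 0) (nat_lit 2143774138) (nat_lit 836) (nat_lit 1848582685) (nat_lit 76) (nat_lit 5256827788) (nat_lit 306) (nat_lit 5) (nat_lit 317) (nat_lit 5) (nat_lit 307) (nat_lit 5) (nat_lit 339) (nat_lit 308) (nat_lit 253))) (XT.nd (nat_lit 78) (nat_lit 1520) (nat_lit 0) (XT.lf (nat_lit 0) (nat_lit 5293012228) (nat_lit 836) (nat_lit 3129408904) (nat_lit 76) (nat_lit 962056970) (nat_lit 296) (nat_lit 5) (nat_lit 307) (nat_lit 5) (nat_lit 297) (nat_lit 5) (nat_lit 340) (nat_lit 308) (nat_lit 252)) (XT.nd (nat_lit 78) (nat_lit 760) (nat_lit 0) (XT.lf (nat_lit 0) (nat_lit 5078608213) (nat_lit 760) (nat_lit 3470867752) (nat_lit 836) (nat_lit 974128049) (nat_lit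 286) (nat_lit 5) (nat_lit 296) (nat_lit 5) (nat_lit 297) (nat_lit 5) (nat_lit 341) (nat_lit 308) (nat_lit 251)) (XT.lf (nat_lit 0) (nat_lit 2206256805) (nat_lit 760) (nat_lit 5796894790) (nat_lit 76) (nat_lit 1663511630) (nat_lit 276) (nat_lit 5) (nat_lit 286) (nat_lit 5) (nat_lit 277) (nat_lit 5) (nat_lit 342) (nat_lit 308) (nat_lit 250))))) (XT.nd (nat_lit 156) (nat_lit 1368) (nat_lit 0) (XT.nd (nat_lit 78) (nat_lit 684) (nat_lit 0) (XT.lf (nat_lit 0) (nat_lit 2621247407) (nat_lit 684) (nat_lit 2860826383) (nat_lit 760) (nat_lit 4331572955) (nat_lit 267) (nat_lit 5) (nat_lit 276) (nat_lit 5) (nat_lit 277) (nat_lit 5) (nat_lit 343) (nat_lit 308) (nat_lit 249)) (XT.lf (nat_lit 0) (nat_lit 1343915031) (nat_lit 684) (nat_lit 7520171539) (nat_lit 760) (nat_lit 1100820420) (nat_lit 258) (nat_lit 5) (nat_lit 267) (nat_lit 5) (nat_lit 268) (nat_lit 5) (nat_lit 344) (nat_lit 308) (nat_lit 248))) (XT.nd (nat_lit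 78) (nat_lit 608) (nat_lit 0) (XT.lf (nat_lit 0) (nat_lit 16974269) (nat_lit 684) (nat_lit 2193651033) (nat_lit 760) (nat_lit 7909555464) (nat_lit 248) (nat_lit 5) (nat_lit 257) (nat_lit 5) (nat_lit 258) (nat_lit 5) (nat_lit 345) (nat_lit 308) (nat_lit 247)) (XT.nd (nat_lit 78) (nat_lit 608) (nat_lit 0) (XT.lf (nat_lit 0) (nat_lit 5632541581) (nat_lit 760) (nat_lit 1340363165) (nat_lit 76) (nat_lit 3306564521) (nat_lit 248) (nat_lit 5) (nat_lit 258) (nat_lit 5) (nat_lit 249) (nat_lit 5) (nat_lit 346) (nat_lit 308) (nat_lit 246)) (XT.lf (nat_lit 0) (nat_lit 7709302449) (nat_lit 608) (nat_lit 1459929104) (nat_lit 684) (nat_lit 1274085556) (nat_lit 240) (nat_lit 5) (nat_lit 248) (nat_lit 5) (nat_lit 249) (nat_lit 5) (nat_lit 347) (nat_lit 308) (nat_lit 245))))))))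
noncomputable def xc66 : XT := (XT.nd (nat_lit 1482) (nat_lit 4940) (nat_lit 0) (XT.nd (nat_lit 702) (nat_lit 3876) (nat_lit 0) (XT.nd (nat_lit 312) (nat_lit 2128) (nat_lit 0) (XT.nd (nat_lit 156) (nat_lit 1216) (nat_lit 0) (XT.nd (nat_lit 78) (nat_lit 608) (nat_lit 0) (XT.lf (nat_lit 0) (nat_lit 2197992934) (nat_lit 684) (nat_lit 4194697591) (nat_lit 76) (nat_lit 4218588017) (nat_lit 231) (nat_lit 5) (nat_lit 240) (nat_lit 5) (nat_lit 232) (nat_lit 5) (nat_lit 348) (nat_lit 308) (nat_lit 244)) (XT.lf (nat_lit 0) (nat_lit 5081288032) (nat_lit 608) (nat_lit 686345204) (nat_lit 684) (nat_lit 5016284228) (nat_lit 223) (nat_lit 5) (nat_lit 231) (nat_lit 5) (nat_lit 232) (nat_lit 5) (nat_lit 349) (nat_lit 308) (nat_lit 243))) (XT.nd (nat_lit 78) (nat_lit 608) (nat_lit 0) (XT.lf (nat_lit 0) (nat_lit 3684139464) (nat_lit 608) (nat_lit 5796675856) (nat_lit 684) (nat_lit 1480211825) (nat_lit 215) (nat_lit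 5) (nat_lit 223) (nat_lit 5) (nat_lit 224) (nat_lit 5) (nat_lit 350) (nat_lit 308) (nat_lit 242)) (XT.lf (nat_lit 0) (nat_lit 2143135415) (nat_lit 608) (nat_lit 8907031808) (nat_lit 76) (nat_lit 92830871) (nat_lit 207) (nat_lit 5) (nat_lit 215) (nat_lit 5) (nat_lit 208) (nat_lit 5) (nat_lit 351) (nat_lit 308) (nat_lit 241)))) (XT.nd (nat_lit 156) (nat_lit 1596) (nat_lit 0) (XT.nd (nat_lit 78) (nat_lit 0) (nat_lit 0) (XT.lf (nat_lit 0) (nat_lit 702950540) (nat_lit 532) (nat_lit 5197081408) (nat_lit 608) (nat_lit 5429320433) (nat_lit 200) (nat_lit 5) (nat_lit 207) (nat_lit 5) (nat_lit 208) (nat_lit 5) (nat_lit 352) (nat_lit 308) (nat_lit 240)) (XT.lf (nat_lit 0) (nat_lit 9788589678) (nat_lit 608) (nat_lit 864258209) (nat_lit 76) (nat_lit 868088846) (nat_lit 200) (nat_lit 5) (nat_lit 208) (nat_lit 5) (nat_lit 201) (nat_lit 5) (nat_lit 353) (nat_lit 308) (nat_lit 239))) (XT.nd (nat_lit 78) (nat_lit 988)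 (nat_lit 0) (XT.lf (nat_lit 0) (nat_lit 2097392025) (nat_lit 608) (nat_lit 2513961040) (nat_lit 76) (nat_lit 7105682116) (nat_lit 192) (nat_lit 5) (nat_lit 200) (nat_lit 5) (nat_lit 193) (nat_lit 5) (nat_lit 354) (nat_lit 308) (nat_lit 238)) (XT.nd (nat_lit 78) (nat_lit 456) (nat_lit 0) (XT.lf (nat_lit 0) (nat_lit 6040108546) (nat_lit 608) (nat_lit 4234125910) (nat_lit 76) (nat_lit 1644137805) (nat_lit 185) (nat_lit 5) (nat_lit 193) (nat_lit 5) (nat_lit 186) (nat_lit 5) (nat_lit 355) (nat_lit 308) (nat_lit 237)) (XT.lf (nat_lit 0) (nat_lit 6087059347) (nat_lit 456) (nat_lit 4057211814) (nat_lit 532) (nat_lit 1980631619) (nat_lit 179) (nat_lit 5) (nat_lit 185) (nat_lit 5) (nat_lit 186) (nat_lit 5) (nat_lit 356) (nat_lit 308) (nat_lit 236)))))) (XT.nd (nat_lit 390) (nat_lit 1824) (nat_lit 0) (XT.nd (nat_lit 156) (nat_lit 988) (nat_lit 0) (XT.nd (nat_lit 78) (nat_lit 456) (nat_lit 0) (XT.lf (nat_lit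 0) (nat_lit 2036734353) (nat_lit 608) (nat_lit 7928154092) (nat_lit 76) (nat_lit 2371902868) (nat_lit 171) (nat_lit 5) (nat_lit 179) (nat_lit 5) (nat_lit 172) (nat_lit 5) (nat_lit 357) (nat_lit 308) (nat_lit 235)) (XT.lf (nat_lit 0) (nat_lit 2632132558) (nat_lit 456) (nat_lit 3558207013) (nat_lit 532) (nat_lit 6363597904) (nat_lit 165) (nat_lit 5) (nat_lit 171) (nat_lit 5) (nat_lit 172) (nat_lit 5) (nat_lit 358) (nat_lit 308) (nat_lit 234))) (XT.nd (nat_lit 78) (nat_lit 532) (nat_lit 0) (XT.lf (nat_lit 0) (nat_lit 772780406) (nat_lit 456) (nat_lit 9732452090) (nat_lit 532) (nat_lit 2271646844) (nat_lit 159) (nat_lit 5) (nat_lit 165) (nat_lit 5) (nat_lit 166) (nat_lit 5) (nat_lit 359) (nat_lit 308) (nat_lit 233)) (XT.nd (nat_lit 78) (nat_lit 456) (nat_lit 0) (XT.lf (nat_lit 0) (nat_lit 1967460146) (nat_lit 532) (nat_lit 1176107577) (nat_lit 76) (nat_lit 9861705996) (nat_lit 158) (nat_lit 5) (nat_lit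 165) (nat_lit 5) (nat_lit 159) (nat_lit 5) (nat_lit 360) (nat_lit 308) (nat_lit 232)) (XT.lf (nat_lit 0) (nat_lit 6351918163) (nat_lit 532) (nat_lit 3227057908) (nat_lit 76) (nat_lit 3660276514) (nat_lit 152) (nat_lit 5) (nat_lit 159) (nat_lit 5) (nat_lit 153) (nat_lit 5) (nat_lit 361) (nat_lit 308) (nat_lit 231))))) (XT.nd (nat_lit 156) (nat_lit 912) (nat_lit 0) (XT.nd (nat_lit 78) (nat_lit 456) (nat_lit 0) (XT.lf (nat_lit 0) (nat_lit 8101130972) (nat_lit 456) (nat_lit 2808752804) (nat_lit 532) (nat_lit 2569540940) (nat_lit 146) (nat_lit 5) (nat_lit 152) (nat_lit 5) (nat_lit 153) (nat_lit 5) (nat_lit 362) (nat_lit 308) (nat_lit 230)) (XT.lf (nat_lit 0) (nat_lit 1903045695) (nat_lit 456) (nat_lit 7654733774) (nat_lit 76) (nat_lit 4167793702) (nat_lit 140) (nat_lit 5) (nat_lit 146) (nat_lit 5) (nat_lit 141) (nat_lit 5) (nat_lit 363) (nat_lit 308) (nat_lit 229))) (XT.nd (nat_lit 78) (nat_lit 456) (nat_lit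 0) (XT.lf (nat_lit 0) (nat_lit 3918286242) (nat_lit 456) (nat_lit 2599255933) (nat_lit 532) (nat_lit 7460383727) (nat_lit 134) (nat_lit 5) (nat_lit 140) (nat_lit 5) (nat_lit 141) (nat_lit 5) (nat_lit 364) (nat_lit 308) (nat_lit 228)) (XT.nd (nat_lit 78) (nat_lit 76) (nat_lit 0) (XT.lf (nat_lit 0) (nat_lit 1642669309) (nat_lit 380) (nat_lit 9682531078) (nat_lit 456) (nat_lit 2911566293) (nat_lit 129) (nat_lit 5) (nat_lit 134) (nat_lit 5) (nat_lit 135) (nat_lit 5) (nat_lit 365) (nat_lit 308) (nat_lit 227)) (XT.lf (nat_lit 0) (nat_lit 1799133566) (nat_lit 456) (nat_lit 752560135) (nat_lit 76) (nat_lit 11950486472) (nat_lit 128) (nat_lit 5) (nat_lit 134) (nat_lit 5) (nat_lit 129) (nat_lit 5) (nat_lit 366) (nat_lit 308) (nat_lit 226))))))) (XT.nd (nat_lit 780) (nat_lit 1672) (nat_lit 0) (XT.nd (nat_lit 390) (nat_lit 1368) (nat_lit 0) (XT.nd (nat_lit 156) (nat_lit 1140) (nat_lit 0) (XT.nd (nat_lit 78) (nat_lit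 380) (nat_lit 0) (XT.lf (nat_lit 0) (nat_lit 6682034485) (nat_lit 456) (nat_lit 3283512904) (nat_lit 76) (nat_lit 4808226126) (nat_lit 123) (nat_lit 5) (nat_lit 129) (nat_lit 5) (nat_lit 124) (nat_lit 5) (nat_lit 367) (nat_lit 308) (nat_lit 225)) (XT.lf (nat_lit 0) (nat_lit 9106498261) (nat_lit 380) (nat_lit 2650618144) (nat_lit 456) (nat_lit 3295495141) (nat_lit 118) (nat_lit 5) (nat_lit 123) (nat_lit 5) (nat_lit 124) (nat_lit 5) (nat_lit 368) (nat_lit 308) (nat_lit 224))) (XT.nd (nat_lit 78) (nat_lit 684) (nat_lit 0) (XT.lf (nat_lit 0) (nat_lit 1685219751) (nat_lit 456) (nat_lit 8774337855) (nat_lit 76) (nat_lit 4878810733) (nat_lit 112) (nat_lit 5) (nat_lit 118) (nat_lit 5) (nat_lit 113) (nat_lit 5) (nat_lit 369) (nat_lit 308) (nat_lit 223)) (XT.nd (nat_lit 78) (nat_lit 380) (nat_lit 0) (XT.lf (nat_lit 0) (nat_lit 3857093697) (nat_lit 304) (nat_lit 2962475870) (nat_lit 380) (nat_lit 8811722827)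 (nat_lit 108) (nat_lit 5) (nat_lit 112) (nat_lit 5) (nat_lit 113) (nat_lit 5) (nat_lit 370) (nat_lit 308) (nat_lit 222)) (XT.lf (nat_lit 0) (nat_lit 985221082) (nat_lit 380) (nat_lit 11185839815) (nat_lit 456) (nat_lit 3760690716) (nat_lit 103) (nat_lit 5) (nat_lit 108) (nat_lit 5) (nat_lit 109) (nat_lit 5) (nat_lit 371) (nat_lit 308) (nat_lit 221))))) (XT.nd (nat_lit 156) (nat_lit 988) (nat_lit 0) (XT.nd (nat_lit 78) (nat_lit 304) (nat_lit 0) (XT.lf (nat_lit 0) (nat_lit 1489476248) (nat_lit 456) (nat_lit 2032511569) (nat_lit 76) (nat_lit 12717728469) (nat_lit 102) (nat_lit 5) (nat_lit 108) (nat_lit 5) (nat_lit 103) (nat_lit 5) (nat_lit 372) (nat_lit 308) (nat_lit 220)) (XT.lf (nat_lit 0) (nat_lit 6916280039) (nat_lit 380) (nat_lit 5242259380) (nat_lit 76) (nat_lit 4396487747) (nat_lit 98) (nat_lit 5) (nat_lit 103) (nat_lit 5) (nat_lit 99) (nat_lit 5) (nat_lit 373) (nat_lit 308) (nat_lit 219))) (XT.nd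 (nat_lit 78) (nat_lit 684) (nat_lit 0) (XT.lf (nat_lit 0) (nat_lit 8241161029) (nat_lit 304) (nat_lit 4323535186) (nat_lit 380) (nat_lit 4313933659) (nat_lit 94) (nat_lit 5) (nat_lit 98) (nat_lit 5) (nat_lit 99) (nat_lit 5) (nat_lit 374) (nat_lit 308) (nat_lit 218)) (XT.nd (nat_lit 78) (nat_lit 304) (nat_lit 0) (XT.lf (nat_lit 0) (nat_lit 1216472205) (nat_lit 380) (nat_lit 12238059667) (nat_lit 76) (nat_lit 3756041015) (nat_lit 89) (nat_lit 5) (nat_lit 94) (nat_lit 5) (nat_lit 90) (nat_lit 5) (nat_lit 375) (nat_lit 308) (nat_lit 217)) (XT.lf (nat_lit 0) (nat_lit 1469531814) (nat_lit 304) (nat_lit 5451130783) (nat_lit 380) (nat_lit 10629919665) (nat_lit 85) (nat_lit 5) (nat_lit 89) (nat_lit 5) (nat_lit 90) (nat_lit 5) (nat_lit 376) (nat_lit 308) (nat_lit 216)))))) (XT.nd (nat_lit 390) (nat_lit 456) (nat_lit 0) (XT.nd (nat_lit 156) (nat_lit 912) (nat_lit 0) (XT.nd (nat_lit 78) (nat_lit 304) (nat_lit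 0) (XT.lf (nat_lit 0) (nat_lit 12866840461) (nat_lit 380) (nat_lit 2210962521) (nat_lit 76) (nat_lit 2821579477) (nat_lit 85) (nat_lit 5) (nat_lit 90) (nat_lit 5) (nat_lit 86) (nat_lit 5) (nat_lit 377) (nat_lit 308) (nat_lit 215)) (XT.lf (nat_lit 0) (nat_lit 809198173) (nat_lit 304) (nat_lit 6111727478) (nat_lit 76) (nat_lit 11335912234) (nat_lit 81) (nat_lit 5) (nat_lit 85) (nat_lit 5) (nat_lit 82) (nat_lit 5) (nat_lit 378) (nat_lit 308) (nat_lit 214))) (XT.nd (nat_lit 78) (nat_lit 608) (nat_lit 0) (XT.lf (nat_lit 0) (nat_lit 6808302137) (nat_lit 380) (nat_lit 10267568518) (nat_lit 76) (nat_lit 1547478523) (nat_lit 77) (nat_lit 5) (nat_lit 82) (nat_lit 5) (nat_lit 78) (nat_lit 5) (nat_lit 379) (nat_lit 308) (nat_lit 213)) (XT.nd (nat_lit 78) (nat_lit 380) (nat_lit 0) (XT.lf (nat_lit 0) (nat_lit 4303911217) (nat_lit 228) (nat_lit 8770341378) (nat_lit 304) (nat_lit 5924872722) (nat_lit 74) (nat_lit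 5) (nat_lit 77) (nat_lit 5) (nat_lit 78) (nat_lit 5) (nat_lit 380) (nat_lit 308) (nat_lit 212)) (XT.lf (nat_lit 0) (nat_lit 20634793) (nat_lit 304) (nat_lit 160988382) (nat_lit 380) (nat_lit 19203710192) (nat_lit 69) (nat_lit 5) (nat_lit 73) (nat_lit 5) (nat_lit 74) (nat_lit 5) (nat_lit 381) (nat_lit 308) (nat_lit 211))))) (XT.nd (nat_lit 156) (nat_lit 228) (nat_lit 0) (XT.nd (nat_lit 78) (nat_lit 228) (nat_lit 0) (XT.lf (nat_lit 0) (nat_lit 6519776803) (nat_lit 380) (nat_lit 4545086613) (nat_lit 76) (nat_lit 8714908249) (nat_lit 69) (nat_lit 5) (nat_lit 74) (nat_lit 5) (nat_lit 70) (nat_lit 5) (nat_lit 382) (nat_lit 308) (nat_lit 210)) (XT.lf (nat_lit 0) (nat_lit 10814975437) (nat_lit 228) (nat_lit 2276949150) (nat_lit 304) (nat_lit 7093247794) (nat_lit 66) (nat_lit 5) (nat_lit 69) (nat_lit 5) (nat_lit 70) (nat_lit 5) (nat_lit 383) (nat_lit 308) (nat_lit 209))) (XT.nd (nat_lit 41028) (nat_lit 0)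 (nat_lit 40812) (XT.lf (nat_lit 0) (nat_lit 6086970281) (nat_lit 228) (nat_lit 13861730875) (nat_lit 304) (nat_lit 652290753) (nat_lit 63) (nat_lit 5) (nat_lit 66) (nat_lit 5) (nat_lit 67) (nat_lit 5) (nat_lit 384) (nat_lit 308) (nat_lit 208)) (XT.nd (nat_lit 78) (nat_lit 0) (nat_lit 0) (XT.lf (nat_lit 0) (nat_lit 561544257) (nat_lit 0) (nat_lit 561544257) (nat_lit 836) (nat_lit 2272648694) (nat_lit 600) (nat_lit 5) (nat_lit 600) (nat_lit 3) (nat_lit 611) (nat_lit 3) (nat_lit 309) (nat_lit 309) (nat_lit 282)) (XT.lf (nat_lit 0) (nat_lit 5257285993) (nat_lit 836) (nat_lit 827405917) (nat_lit 912) (nat_lit 746960187) (nat_lit 600) (nat_lit 5) (nat_lit 611) (nat_lit 3) (nat_lit 612) (nat_lit 5) (nat_lit 310) (nat_lit 309) (nat_lit 281))))))))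
noncomputable def xc67 : XT := (XT.nd (nat_lit 1482) (nat_lit 16112) (nat_lit 0) (XT.nd (nat_lit 702) (nat_lit 7980) (nat_lit 0) (XT.nd (nat_lit 312) (nat_lit 2128) (nat_lit 0) (XT.nd (nat_lit 156) (nat_lit 912) (nat_lit 0) (XT.nd (nat_lit 78) (nat_lit 0) (nat_lit 0) (XT.lf (nat_lit 0) (nat_lit 1384377498) (nat_lit 912) (nat_lit 2738981979) (nat_lit 988) (nat_lit 2751201428) (nat_lit 588) (nat_lit 5) (nat_lit 600) (nat_lit 5) (nat_lit 601) (nat_lit 5) (nat_lit 311) (nat_lit 309) (nat_lit 280)) (XT.lf (nat_lit 76) (nat_lit 2298325085) (nat_lit 0) (nat_lit 2019378463) (nat_lit 988) (nat_lit 2602780831) (nat_lit 589) (nat_lit 5) (nat_lit 588) (nat_lit 5) (nat_lit 601) (nat_lit 5) (nat_lit 312) (nat_lit 309) (nat_lit 279))) (XT.nd (nat_lit 78) (nat_lit 0) (nat_lit 0) (XT.lf (nat_lit 0) (nat_lit 278364349) (nat_lit 988) (nat_lit 6472151473) (nat_lit 1064) (nat_lit 219057621) (nat_lit 576) (nat_lit 5) (nat_lit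 589) (nat_lit 5) (nat_lit 590) (nat_lit 5) (nat_lit 313) (nat_lit 309) (nat_lit 278)) (XT.lf (nat_lit 0) (nat_lit 3147600190) (nat_lit 988) (nat_lit 1280261662) (nat_lit 1064) (nat_lit 2593262555) (nat_lit 576) (nat_lit 5) (nat_lit 589) (nat_lit 5) (nat_lit 590) (nat_lit 5) (nat_lit 314) (nat_lit 309) (nat_lit 277)))) (XT.nd (nat_lit 156) (nat_lit 1140) (nat_lit 0) (XT.nd (nat_lit 78) (nat_lit 988) (nat_lit 0) (XT.lf (nat_lit 76) (nat_lit 4058973796) (nat_lit 0) (nat_lit 1965228012) (nat_lit 1064) (nat_lit 1051665845) (nat_lit 577) (nat_lit 5) (nat_lit 576) (nat_lit 5) (nat_lit 590) (nat_lit 5) (nat_lit 315) (nat_lit 309) (nat_lit 276)) (XT.lf (nat_lit 0) (nat_lit 1755915765) (nat_lit 1064) (nat_lit 4736735328) (nat_lit 1140) (nat_lit 640921444) (nat_lit 563) (nat_lit 5) (nat_lit 577) (nat_lit 5) (nat_lit 578) (nat_lit 5) (nat_lit 316) (nat_lit 309) (nat_lit 275))) (XT.nd (nat_lit 78) (nat_lit 1140)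 (nat_lit 0) (XT.lf (nat_lit 76) (nat_lit 747762840) (nat_lit 0) (nat_lit 3824050308) (nat_lit 1140) (nat_lit 2622354962) (nat_lit 564) (nat_lit 5) (nat_lit 563) (nat_lit 5) (nat_lit 578) (nat_lit 5) (nat_lit 317) (nat_lit 309) (nat_lit 274)) (XT.nd (nat_lit 78) (nat_lit 0) (nat_lit 76) (XT.lf (nat_lit 0) (nat_lit 146612140) (nat_lit 1140) (nat_lit 859671491) (nat_lit 1216) (nat_lit 6251656158) (nat_lit 548) (nat_lit 5) (nat_lit 563) (nat_lit 5) (nat_lit 564) (nat_lit 5) (nat_lit 318) (nat_lit 309) (nat_lit 273)) (XT.lf (nat_lit 0) (nat_lit 2912149992) (nat_lit 1140) (nat_lit 2458244940) (nat_lit 1216) (nat_lit 1953961510) (nat_lit 549) (nat_lit 5) (nat_lit 564) (nat_lit 5) (nat_lit 565) (nat_lit 5) (nat_lit 319) (nat_lit 309) (nat_lit 272)))))) (XT.nd (nat_lit 390) (nat_lit 5700) (nat_lit 0) (XT.nd (nat_lit 156) (nat_lit 1216) (nat_lit 0) (XT.nd (nat_lit 78) (nat_lit 1140) (nat_lit 0) (XT.lf (nat_lit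 76) (nat_lit 3357020995) (nat_lit 0) (nat_lit 2345013686) (nat_lit 1216) (nat_lit 1691962604) (nat_lit 550) (nat_lit 5) (nat_lit 549) (nat_lit 5) (nat_lit 565) (nat_lit 5) (nat_lit 320) (nat_lit 309) (nat_lit 271)) (XT.lf (nat_lit 0) (nat_lit 1038302952) (nat_lit 1216) (nat_lit 5603395826) (nat_lit 1292) (nat_lit 825081484) (nat_lit 534) (nat_lit 5) (nat_lit 550) (nat_lit 5) (nat_lit 551) (nat_lit 5) (nat_lit 321) (nat_lit 309) (nat_lit 270))) (XT.nd (nat_lit 78) (nat_lit 1216) (nat_lit 0) (XT.lf (nat_lit 76) (nat_lit 368208164) (nat_lit 0) (nat_lit 3416093359) (nat_lit 1292) (nat_lit 3758140088) (nat_lit 535) (nat_lit 5) (nat_lit 534) (nat_lit 5) (nat_lit 551) (nat_lit 5) (nat_lit 322) (nat_lit 309) (nat_lit 269)) (XT.nd (nat_lit 78) (nat_lit 1216) (nat_lit 0) (XT.lf (nat_lit 76) (nat_lit 6532445071) (nat_lit 0) (nat_lit 31456445) (nat_lit 1292) (nat_lit 1057500062) (nat_lit 535) (nat_lit 5) (nat_lit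 534) (nat_lit 5) (nat_lit 551) (nat_lit 5) (nat_lit 323) (nat_lit 309) (nat_lit 268)) (XT.lf (nat_lit 0) (nat_lit 1673173451) (nat_lit 1292) (nat_lit 2553476813) (nat_lit 76) (nat_lit 3476474299) (nat_lit 518) (nat_lit 5) (nat_lit 535) (nat_lit 5) (nat_lit 519) (nat_lit 5) (nat_lit 324) (nat_lit 309) (nat_lit 267))))) (XT.nd (nat_lit 156) (nat_lit 3040) (nat_lit 0) (XT.nd (nat_lit 78) (nat_lit 1368) (nat_lit 0) (XT.lf (nat_lit 0) (nat_lit 3782055960) (nat_lit 1292) (nat_lit 638997851) (nat_lit 1368) (nat_lit 3367161716) (nat_lit 501) (nat_lit 5) (nat_lit 518) (nat_lit 5) (nat_lit 519) (nat_lit 5) (nat_lit 325) (nat_lit 309) (nat_lit 266)) (XT.lf (nat_lit 0) (nat_lit 2414674860) (nat_lit 1368) (nat_lit 4809132890) (nat_lit 1444) (nat_lit 652650465) (nat_lit 483) (nat_lit 5) (nat_lit 501) (nat_lit 5) (nat_lit 502) (nat_lit 5) (nat_lit 326) (nat_lit 309) (nat_lit 265))) (XT.nd (nat_lit 78) (nat_lit 1520)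 (nat_lit 0) (XT.lf (nat_lit 0) (nat_lit 1047346811) (nat_lit 1444) (nat_lit 1027107071) (nat_lit 1520) (nat_lit 5893476076) (nat_lit 463) (nat_lit 5) (nat_lit 482) (nat_lit 5) (nat_lit 483) (nat_lit 5) (nat_lit 327) (nat_lit 309) (nat_lit 264)) (XT.nd (nat_lit 78) (nat_lit 1520) (nat_lit 0) (XT.lf (nat_lit 0) (nat_lit 4853287951) (nat_lit 1520) (nat_lit 322951718) (nat_lit 76) (nat_lit 2886288348) (nat_lit 463) (nat_lit 5) (nat_lit 483) (nat_lit 5) (nat_lit 464) (nat_lit 5) (nat_lit 328) (nat_lit 309) (nat_lit 263)) (XT.lf (nat_lit 0) (nat_lit 6487892305) (nat_lit 1520) (nat_lit 1201687845) (nat_lit 1596) (nat_lit 470944835) (nat_lit 443) (nat_lit 5) (nat_lit 463) (nat_lit 5) (nat_lit 464) (nat_lit 5) (nat_lit 329) (nat_lit 309) (nat_lit 262))))))) (XT.nd (nat_lit 780) (nat_lit 5700) (nat_lit 0) (XT.nd (nat_lit 390) (nat_lit 3344) (nat_lit 0) (XT.nd (nat_lit 156) (nat_lit 3724) (nat_lit 0) (XT.nd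 (nat_lit 78) (nat_lit 1672) (nat_lit 0) (XT.lf (nat_lit 0) (nat_lit 2300429821) (nat_lit 1672) (nat_lit 3044596729) (nat_lit 76) (nat_lit 2916536097) (nat_lit 421) (nat_lit 5) (nat_lit 443) (nat_lit 5) (nat_lit 422) (nat_lit 5) (nat_lit 330) (nat_lit 309) (nat_lit 261)) (XT.lf (nat_lit 0) (nat_lit 3947801116) (nat_lit 1672) (nat_lit 1174022889) (nat_lit 1748) (nat_lit 3244319221) (nat_lit 399) (nat_lit 5) (nat_lit 421) (nat_lit 5) (nat_lit 422) (nat_lit 5) (nat_lit 331) (nat_lit 309) (nat_lit 260))) (XT.nd (nat_lit 78) (nat_lit 1976) (nat_lit 0) (XT.lf (nat_lit 0) (nat_lit 2668873180) (nat_lit 1748) (nat_lit 5347253486) (nat_lit 1824) (nat_lit 458007653) (nat_lit 376) (nat_lit 5) (nat_lit 399) (nat_lit 5) (nat_lit 400) (nat_lit 5) (nat_lit 332) (nat_lit 309) (nat_lit 259)) (XT.nd (nat_lit 78) (nat_lit 912) (nat_lit 0) (XT.lf (nat_lit 0) (nat_lit 1374905279) (nat_lit 988) (nat_lit 983315133) (nat_lit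 1064) (nat_lit 6227308923) (nat_lit 362) (nat_lit 5) (nat_lit 375) (nat_lit 5) (nat_lit 376) (nat_lit 5) (nat_lit 333) (nat_lit 309) (nat_lit 258)) (XT.lf (nat_lit 0) (nat_lit 60925086) (nat_lit 912) (nat_lit 5187290295) (nat_lit 988) (nat_lit 3452115734) (nat_lit 350) (nat_lit 5) (nat_lit 362) (nat_lit 5) (nat_lit 363) (nat_lit 5) (nat_lit 334) (nat_lit 309) (nat_lit 257))))) (XT.nd (nat_lit 156) (nat_lit 2432) (nat_lit 0) (XT.nd (nat_lit 78) (nat_lit 912) (nat_lit 0) (XT.lf (nat_lit 0) (nat_lit 7579487505) (nat_lit 912) (nat_lit 635041078) (nat_lit 988) (nat_lit 604290472) (nat_lit 350) (nat_lit 5) (nat_lit 362) (nat_lit 5) (nat_lit 363) (nat_lit 5) (nat_lit 335) (nat_lit 309) (nat_lit 256)) (XT.lf (nat_lit 0) (nat_lit 2302300079) (nat_lit 912) (nat_lit 2578555231) (nat_lit 76) (nat_lit 4059659208) (nat_lit 338) (nat_lit 5) (nat_lit 350) (nat_lit 5) (nat_lit 339) (nat_lit 5) (nat_lit 336) (nat_lit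 309) (nat_lit 255))) (XT.nd (nat_lit 78) (nat_lit 1596) (nat_lit 0) (XT.lf (nat_lit 0) (nat_lit 5139109316) (nat_lit 836) (nat_lit 132053550) (nat_lit 912) (nat_lit 3794984262) (nat_lit 327) (nat_lit 5) (nat_lit 338) (nat_lit 5) (nat_lit 339) (nat_lit 5) (nat_lit 337) (nat_lit 309) (nat_lit 254)) (XT.nd (nat_lit 78) (nat_lit 836) (nat_lit 0) (XT.lf (nat_lit 0) (nat_lit 3885593026) (nat_lit 760) (nat_lit 4455815885) (nat_lit 836) (nat_lit 853924392) (nat_lit 317) (nat_lit 5) (nat_lit 327) (nat_lit 5) (nat_lit 328) (nat_lit 5) (nat_lit 338) (nat_lit 309) (nat_lit 253)) (XT.lf (nat_lit 0) (nat_lit 2134189300) (nat_lit 836) (nat_lit 6716559237) (nat_lit 76) (nat_lit 477646442) (nat_lit 306) (nat_lit 5) (nat_lit 317) (nat_lit 5) (nat_lit 307) (nat_lit 5) (nat_lit 339) (nat_lit 309) (nat_lit 252)))))) (XT.nd (nat_lit 390) (nat_lit 2736) (nat_lit 0) (XT.nd (nat_lit 156) (nat_lit 2204) (nat_lit 0) (XT.nd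 (nat_lit 78) (nat_lit 0) (nat_lit 0) (XT.lf (nat_lit 0) (nat_lit 1297535902) (nat_lit 760) (nat_lit 3918222238) (nat_lit 836) (nat_lit 4249297798) (nat_lit 296) (nat_lit 5) (nat_lit 306) (nat_lit 5) (nat_lit 307) (nat_lit 5) (nat_lit 340) (nat_lit 309) (nat_lit 251)) (XT.lf (nat_lit 0) (nat_lit 8385335874) (nat_lit 836) (nat_lit 31647886) (nat_lit 76) (nat_lit 1188949480) (nat_lit 296) (nat_lit 5) (nat_lit 307) (nat_lit 5) (nat_lit 297) (nat_lit 5) (nat_lit 341) (nat_lit 309) (nat_lit 250))) (XT.nd (nat_lit 78) (nat_lit 1368) (nat_lit 0) (XT.lf (nat_lit 0) (nat_lit 1898629996) (nat_lit 836) (nat_lit 1392236951) (nat_lit 76) (nat_lit 6459458321) (nat_lit 285) (nat_lit 5) (nat_lit 296) (nat_lit 5) (nat_lit 286) (nat_lit 5) (nat_lit 342) (nat_lit 309) (nat_lit 249)) (XT.nd (nat_lit 78) (nat_lit 684) (nat_lit 0) (XT.lf (nat_lit 0) (nat_lit 5099403290) (nat_lit 760) (nat_lit 2786958389) (nat_lit 76) (nat_lit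 2012460616) (nat_lit 276) (nat_lit 5) (nat_lit 286) (nat_lit 5) (nat_lit 277) (nat_lit 5) (nat_lit 343) (nat_lit 309) (nat_lit 248)) (XT.lf (nat_lit 0) (nat_lit 5832074000) (nat_lit 684) (nat_lit 2579418429) (nat_lit 760) (nat_lit 1640000851) (nat_lit 267) (nat_lit 5) (nat_lit 276) (nat_lit 5) (nat_lit 277) (nat_lit 5) (nat_lit 344) (nat_lit 309) (nat_lit 247))))) (XT.nd (nat_lit 156) (nat_lit 1292) (nat_lit 0) (XT.nd (nat_lit 78) (nat_lit 684) (nat_lit 0) (XT.lf (nat_lit 0) (nat_lit 1607255102) (nat_lit 760) (nat_lit 5700154327) (nat_lit 76) (nat_lit 2900864541) (nat_lit 257) (nat_lit 5) (nat_lit 267) (nat_lit 5) (nat_lit 258) (nat_lit 5) (nat_lit 345) (nat_lit 309) (nat_lit 246)) (XT.lf (nat_lit 0) (nat_lit 3138125568) (nat_lit 684) (nat_lit 1805904582) (nat_lit 760) (nat_lit 5425246479) (nat_lit 248) (nat_lit 5) (nat_lit 257) (nat_lit 5) (nat_lit 258) (nat_lit 5) (nat_lit 346) (nat_lit 309) (nat_lit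 245))) (XT.nd (nat_lit 78) (nat_lit 684) (nat_lit 0) (XT.lf (nat_lit 0) (nat_lit 1721820393) (nat_lit 608) (nat_lit 6683139620) (nat_lit 684) (nat_lit 2129690665) (nat_lit 240) (nat_lit 5) (nat_lit 248) (nat_lit 5) (nat_lit 249) (nat_lit 5) (nat_lit 347) (nat_lit 309) (nat_lit 244)) (XT.nd (nat_lit 78) (nat_lit 0) (nat_lit 0) (XT.lf (nat_lit 0) (nat_lit 260776302) (nat_lit 608) (nat_lit 1000135739) (nat_lit 684) (nat_lit 9443675593) (nat_lit 231) (nat_lit 5) (nat_lit 239) (nat_lit 5) (nat_lit 240) (nat_lit 5) (nat_lit 348) (nat_lit 309) (nat_lit 243)) (XT.lf (nat_lit 0) (nat_lit 4766775339) (nat_lit 684) (nat_lit 1257701790) (nat_lit 76) (nat_lit 4854035136) (nat_lit 231) (nat_lit 5) (nat_lit 240) (nat_lit 5) (nat_lit 232) (nat_lit 5) (nat_lit 349) (nat_lit 309) (nat_lit 242))))))))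
noncomputable def xc68 : XT := (XT.nd (nat_lit 1482) (nat_lit 4332) (nat_lit 0) (XT.nd (nat_lit 702) (nat_lit 3648) (nat_lit 0) (XT.nd (nat_lit 312) (nat_lit 2204) (nat_lit 0) (XT.nd (nat_lit 156) (nat_lit 1064) (nat_lit 0) (XT.nd (nat_lit 78) (nat_lit 684) (nat_lit 0) (XT.lf (nat_lit 0) (nat_lit 8246872515) (nat_lit 608) (nat_lit 143297348) (nat_lit 684) (nat_lit 2667257709) (nat_lit 223) (nat_lit 5) (nat_lit 231) (nat_lit 5) (nat_lit 232) (nat_lit 5) (nat_lit 350) (nat_lit 309) (nat_lit 241)) (XT.lf (nat_lit 0) (nat_lit 913512172) (nat_lit 684) (nat_lit 4442334379) (nat_lit 76) (nat_lit 5884878422) (nat_lit 214) (nat_lit 5) (nat_lit 223) (nat_lit 5) (nat_lit 215) (nat_lit 5) (nat_lit 351) (nat_lit 309) (nat_lit 240))) (XT.nd (nat_lit 78) (nat_lit 532) (nat_lit 0) (XT.lf (nat_lit 0) (nat_lit 4578636817) (nat_lit 608) (nat_lit 6136434569) (nat_lit 76) (nat_lit 713852437) (nat_lit 207) (nat_lit 5)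 (nat_lit 215) (nat_lit 5) (nat_lit 208) (nat_lit 5) (nat_lit 352) (nat_lit 309) (nat_lit 239)) (XT.lf (nat_lit 0) (nat_lit 3712562421) (nat_lit 532) (nat_lit 4686017010) (nat_lit 608) (nat_lit 3223309905) (nat_lit 200) (nat_lit 5) (nat_lit 207) (nat_lit 5) (nat_lit 208) (nat_lit 5) (nat_lit 353) (nat_lit 309) (nat_lit 238)))) (XT.nd (nat_lit 156) (nat_lit 1064) (nat_lit 0) (XT.nd (nat_lit 78) (nat_lit 532) (nat_lit 0) (XT.lf (nat_lit 0) (nat_lit 526642551) (nat_lit 608) (nat_lit 9743373301) (nat_lit 76) (nat_lit 1550160787) (nat_lit 192) (nat_lit 5) (nat_lit 200) (nat_lit 5) (nat_lit 193) (nat_lit 5) (nat_lit 354) (nat_lit 309) (nat_lit 237)) (XT.lf (nat_lit 0) (nat_lit 341015882) (nat_lit 532) (nat_lit 4048166031) (nat_lit 608) (nat_lit 7633943536) (nat_lit 185) (nat_lit 5) (nat_lit 192) (nat_lit 5) (nat_lit 193) (nat_lit 5) (nat_lit 355) (nat_lit 309) (nat_lit 236))) (XT.nd (nat_lit 78) (nat_lit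 1064) (nat_lit 0) (XT.lf (nat_lit 0) (nat_lit 8406332308) (nat_lit 608) (nat_lit 1442799060) (nat_lit 76) (nat_lit 2382272791) (nat_lit 185) (nat_lit 5) (nat_lit 193) (nat_lit 5) (nat_lit 186) (nat_lit 5) (nat_lit 356) (nat_lit 309) (nat_lit 235)) (XT.nd (nat_lit 78) (nat_lit 532) (nat_lit 0) (XT.lf (nat_lit 0) (nat_lit 141681553) (nat_lit 532) (nat_lit 3305311594) (nat_lit 76) (nat_lit 8998042672) (nat_lit 178) (nat_lit 5) (nat_lit 185) (nat_lit 5) (nat_lit 179) (nat_lit 5) (nat_lit 357) (nat_lit 309) (nat_lit 234)) (XT.lf (nat_lit 0) (nat_lit 4213394159) (nat_lit 608) (nat_lit 5274483034) (nat_lit 76) (nat_lit 3175949985) (nat_lit 171) (nat_lit 5) (nat_lit 179) (nat_lit 5) (nat_lit 172) (nat_lit 5) (nat_lit 358) (nat_lit 309) (nat_lit 233)))))) (XT.nd (nat_lit 390) (nat_lit 1748) (nat_lit 0) (XT.nd (nat_lit 156) (nat_lit 988) (nat_lit 0) (XT.nd (nat_lit 78) (nat_lit 456) (nat_lit 0) (XT.lf (nat_lit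 0) (nat_lit 5555700809) (nat_lit 456) (nat_lit 2892757594) (nat_lit 532) (nat_lit 4439914344) (nat_lit 165) (nat_lit 5) (nat_lit 171) (nat_lit 5) (nat_lit 172) (nat_lit 5) (nat_lit 359) (nat_lit 309) (nat_lit 232)) (XT.lf (nat_lit 0) (nat_lit 3630983987) (nat_lit 456) (nat_lit 9224727123) (nat_lit 532) (nat_lit 263054897) (nat_lit 159) (nat_lit 5) (nat_lit 165) (nat_lit 5) (nat_lit 166) (nat_lit 5) (nat_lit 360) (nat_lit 309) (nat_lit 231))) (XT.nd (nat_lit 78) (nat_lit 456) (nat_lit 0) (XT.lf (nat_lit 0) (nat_lit 1589018684) (nat_lit 456) (nat_lit 2437592439) (nat_lit 532) (nat_lit 9328139337) (nat_lit 152) (nat_lit 5) (nat_lit 158) (nat_lit 5) (nat_lit 159) (nat_lit 5) (nat_lit 361) (nat_lit 309) (nat_lit 230)) (XT.nd (nat_lit 78) (nat_lit 456) (nat_lit 0) (XT.lf (nat_lit 0) (nat_lit 8497180167) (nat_lit 532) (nat_lit 554840172) (nat_lit 76) (nat_lit 4544656582) (nat_lit 152) (nat_lit 5) (nat_lit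 159) (nat_lit 5) (nat_lit 153) (nat_lit 5) (nat_lit 362) (nat_lit 309) (nat_lit 229)) (XT.lf (nat_lit 0) (nat_lit 11068270161) (nat_lit 456) (nat_lit 2084368146) (nat_lit 532) (nat_lit 692220036) (nat_lit 146) (nat_lit 5) (nat_lit 152) (nat_lit 5) (nat_lit 153) (nat_lit 5) (nat_lit 363) (nat_lit 309) (nat_lit 228))))) (XT.nd (nat_lit 156) (nat_lit 836) (nat_lit 0) (XT.nd (nat_lit 78) (nat_lit 456) (nat_lit 0) (XT.lf (nat_lit 0) (nat_lit 3855596656) (nat_lit 456) (nat_lit 5145514989) (nat_lit 76) (nat_lit 5097710396) (nat_lit 140) (nat_lit 5) (nat_lit 146) (nat_lit 5) (nat_lit 141) (nat_lit 5) (nat_lit 364) (nat_lit 309) (nat_lit 227)) (XT.lf (nat_lit 0) (nat_lit 6730260864) (nat_lit 456) (nat_lit 1840553606) (nat_lit 532) (nat_lit 5788702898) (nat_lit 134) (nat_lit 5) (nat_lit 140) (nat_lit 5) (nat_lit 141) (nat_lit 5) (nat_lit 365) (nat_lit 309) (nat_lit 226))) (XT.nd (nat_lit 78) (nat_lit 456) (nat_lit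 0) (XT.lf (nat_lit 0) (nat_lit 4374451334) (nat_lit 380) (nat_lit 9116832629) (nat_lit 456) (nat_lit 1135485000) (nat_lit 129) (nat_lit 5) (nat_lit 134) (nat_lit 5) (nat_lit 135) (nat_lit 5) (nat_lit 366) (nat_lit 309) (nat_lit 225)) (XT.nd (nat_lit 78) (nat_lit 0) (nat_lit 0) (XT.lf (nat_lit 0) (nat_lit 1878139912) (nat_lit 380) (nat_lit 1772588086) (nat_lit 456) (nat_lit 11250018659) (nat_lit 123) (nat_lit 5) (nat_lit 128) (nat_lit 5) (nat_lit 129) (nat_lit 5) (nat_lit 367) (nat_lit 309) (nat_lit 224)) (XT.lf (nat_lit 0) (nat_lit 8638135589) (nat_lit 456) (nat_lit 765911820) (nat_lit 76) (nat_lit 5777295916) (nat_lit 123) (nat_lit 5) (nat_lit 129) (nat_lit 5) (nat_lit 124) (nat_lit 5) (nat_lit 368) (nat_lit 309) (nat_lit 223))))))) (XT.nd (nat_lit 780) (nat_lit 1216) (nat_lit 0) (XT.nd (nat_lit 390) (nat_lit 1216) (nat_lit 0) (XT.nd (nat_lit 156) (nat_lit 1064) (nat_lit 0) (XT.nd (nat_lit 78) (nat_lit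 456) (nat_lit 0) (XT.lf (nat_lit 0) (nat_lit 11953356461) (nat_lit 380) (nat_lit 1877688287) (nat_lit 456) (nat_lit 1638205707) (nat_lit 118) (nat_lit 5) (nat_lit 123) (nat_lit 5) (nat_lit 124) (nat_lit 5) (nat_lit 369) (nat_lit 309) (nat_lit 222)) (XT.lf (nat_lit 0) (nat_lit 3440564871) (nat_lit 456) (nat_lit 6453585577) (nat_lit 76) (nat_lit 5869782841) (nat_lit 112) (nat_lit 5) (nat_lit 118) (nat_lit 5) (nat_lit 113) (nat_lit 5) (nat_lit 370) (nat_lit 309) (nat_lit 221))) (XT.nd (nat_lit 78) (nat_lit 760) (nat_lit 0) (XT.lf (nat_lit 0) (nat_lit 6514866877) (nat_lit 304) (nat_lit 2180929013) (nat_lit 380) (nat_lit 7370526444) (nat_lit 108) (nat_lit 5) (nat_lit 112) (nat_lit 5) (nat_lit 113) (nat_lit 5) (nat_lit 371) (nat_lit 309) (nat_lit 220)) (XT.nd (nat_lit 78) (nat_lit 380) (nat_lit 0) (XT.lf (nat_lit 0) (nat_lit 3543395211) (nat_lit 380) (nat_lit 10637652437) (nat_lit 456) (nat_lit 2195297232)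 (nat_lit 103) (nat_lit 5) (nat_lit 108) (nat_lit 5) (nat_lit 109) (nat_lit 5) (nat_lit 372) (nat_lit 309) (nat_lit 219)) (XT.lf (nat_lit 0) (nat_lit 388384188) (nat_lit 304) (nat_lit 2756263164) (nat_lit 380) (nat_lit 13549610764) (nat_lit 98) (nat_lit 5) (nat_lit 102) (nat_lit 5) (nat_lit 103) (nat_lit 5) (nat_lit 373) (nat_lit 309) (nat_lit 218))))) (XT.nd (nat_lit 156) (nat_lit 912) (nat_lit 0) (XT.nd (nat_lit 78) (nat_lit 304) (nat_lit 0) (XT.lf (nat_lit 0) (nat_lit 8706301036) (nat_lit 380) (nat_lit 2936547797) (nat_lit 76) (nat_lit 5376751387) (nat_lit 98) (nat_lit 5) (nat_lit 103) (nat_lit 5) (nat_lit 99) (nat_lit 5) (nat_lit 374) (nat_lit 309) (nat_lit 217)) (XT.lf (nat_lit 0) (nat_lit 10911416311) (nat_lit 304) (nat_lit 3582392060) (nat_lit 380) (nat_lit 2859722305) (nat_lit 94) (nat_lit 5) (nat_lit 98) (nat_lit 5) (nat_lit 99) (nat_lit 5) (nat_lit 375) (nat_lit 309) (nat_lit 216))) (XT.nd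 (nat_lit 78) (nat_lit 532) (nat_lit 0) (XT.lf (nat_lit 0) (nat_lit 2791576793) (nat_lit 380) (nat_lit 10175264289) (nat_lit 76) (nat_lit 4728882085) (nat_lit 89) (nat_lit 5) (nat_lit 94) (nat_lit 5) (nat_lit 90) (nat_lit 5) (nat_lit 376) (nat_lit 309) (nat_lit 215)) (XT.nd (nat_lit 78) (nat_lit 228) (nat_lit 0) (XT.lf (nat_lit 0) (nat_lit 3904132092) (nat_lit 304) (nat_lit 4733467714) (nat_lit 380) (nat_lit 9408930376) (nat_lit 85) (nat_lit 5) (nat_lit 89) (nat_lit 5) (nat_lit 90) (nat_lit 5) (nat_lit 377) (nat_lit 309) (nat_lit 214)) (XT.lf (nat_lit 0) (nat_lit 68620767) (nat_lit 228) (nat_lit 14655581746) (nat_lit 304) (nat_lit 3682362243) (nat_lit 82) (nat_lit 5) (nat_lit 85) (nat_lit 5) (nat_lit 86) (nat_lit 5) (nat_lit 378) (nat_lit 309) (nat_lit 213)))))) (XT.nd (nat_lit 390) (nat_lit 228) (nat_lit 0) (XT.nd (nat_lit 156) (nat_lit 608) (nat_lit 0) (XT.nd (nat_lit 78) (nat_lit 304) (nat_lit 0)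 (XT.lf (nat_lit 0) (nat_lit 2286434783) (nat_lit 304) (nat_lit 3968448944) (nat_lit 76) (nat_lit 12520245960) (nat_lit 81) (nat_lit 5) (nat_lit 85) (nat_lit 5) (nat_lit 82) (nat_lit 5) (nat_lit 379) (nat_lit 309) (nat_lit 212)) (XT.lf (nat_lit 0) (nat_lit 8443659216) (nat_lit 380) (nat_lit 8263463817) (nat_lit 76) (nat_lit 2445960651) (nat_lit 77) (nat_lit 5) (nat_lit 82) (nat_lit 5) (nat_lit 78) (nat_lit 5) (nat_lit 380) (nat_lit 309) (nat_lit 211))) (XT.nd (nat_lit 78) (nat_lit 380) (nat_lit 0) (XT.lf (nat_lit 0) (nat_lit 6707648719) (nat_lit 228) (nat_lit 8163025055) (nat_lit 304) (nat_lit 4670007638) (nat_lit 74) (nat_lit 5) (nat_lit 77) (nat_lit 5) (nat_lit 78) (nat_lit 5) (nat_lit 381) (nat_lit 309) (nat_lit 210)) (XT.nd (nat_lit 78) (nat_lit 0) (nat_lit 0) (XT.lf (nat_lit 0) (nat_lit 1578932750) (nat_lit 380) (nat_lit 17665619730) (nat_lit 76) (nat_lit 694185953) (nat_lit 69) (nat_lit 5) (nat_lit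 74) (nat_lit 5) (nat_lit 70) (nat_lit 5) (nat_lit 382) (nat_lit 309) (nat_lit 209)) (XT.lf (nat_lit 0) (nat_lit 8067736592) (nat_lit 380) (nat_lit 2468872997) (nat_lit 76) (nat_lit 9809199433) (nat_lit 69) (nat_lit 5) (nat_lit 74) (nat_lit 5) (nat_lit 70) (nat_lit 5) (nat_lit 383) (nat_lit 309) (nat_lit 208))))) (XT.nd (nat_lit 41184) (nat_lit 0) (nat_lit 38684) (XT.nd (nat_lit 41106) (nat_lit 0) (nat_lit 39596) (XT.lf (nat_lit 0) (nat_lit 13316094657) (nat_lit 228) (nat_lit 1495697223) (nat_lit 304) (nat_lit 5952094002) (nat_lit 66) (nat_lit 5) (nat_lit 69) (nat_lit 5) (nat_lit 70) (nat_lit 5) (nat_lit 384) (nat_lit 309) (nat_lit 207)) (XT.lf (nat_lit 0) (nat_lit 655394635) (nat_lit 988) (nat_lit 1390562199) (nat_lit 988) (nat_lit 1390562199) (nat_lit 587) (nat_lit 3) (nat_lit 600) (nat_lit 3) (nat_lit 600) (nat_lit 5) (nat_lit 310) (nat_lit 310) (nat_lit 280))) (XT.nd (nat_lit 78) (nat_lit 912)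 (nat_lit 0) (XT.lf (nat_lit 76) (nat_lit 2130086052) (nat_lit 0) (nat_lit 2036615109) (nat_lit 988) (nat_lit 2750724226) (nat_lit 588) (nat_lit 5) (nat_lit 587) (nat_lit 3) (nat_lit 600) (nat_lit 5) (nat_lit 311) (nat_lit 310) (nat_lit 279)) (XT.nd (nat_lit 78) (nat_lit 0) (nat_lit 0) (XT.lf (nat_lit 0) (nat_lit 53233427) (nat_lit 988) (nat_lit 6758962839) (nat_lit 1064) (nat_lit 152805274) (nat_lit 575) (nat_lit 5) (nat_lit 588) (nat_lit 5) (nat_lit 589) (nat_lit 5) (nat_lit 312) (nat_lit 310) (nat_lit 278)) (XT.lf (nat_lit 0) (nat_lit 2842296319) (nat_lit 988) (nat_lit 1690980308) (nat_lit 1064) (nat_lit 2481671218) (nat_lit 575) (nat_lit 5) (nat_lit 588) (nat_lit 5) (nat_lit 589) (nat_lit 5) (nat_lit 313) (nat_lit 310) (nat_lit 277))))))))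
noncomputable def xc69 : XT := (XT.nd (nat_lit 1482) (nat_lit 13984) (nat_lit 0) (XT.nd (nat_lit 702) (nat_lit 10260) (nat_lit 0) (XT.nd (nat_lit 312) (nat_lit 2204) (nat_lit 0) (XT.nd (nat_lit 156) (nat_lit 0) (nat_lit 0) (XT.nd (nat_lit 78) (nat_lit 988) (nat_lit 0) (XT.lf (nat_lit 76) (nat_lit 3516774361) (nat_lit 0) (nat_lit 2116109317) (nat_lit 1064) (nat_lit 1435223335) (nat_lit 576) (nat_lit 5) (nat_lit 575) (nat_lit 5) (nat_lit 589) (nat_lit 5) (nat_lit 314) (nat_lit 310) (nat_lit 276)) (XT.lf (nat_lit 0) (nat_lit 1288859272) (nat_lit 1064) (nat_lit 5391175650) (nat_lit 1140) (nat_lit 444260611) (nat_lit 562) (nat_lit 5) (nat_lit 576) (nat_lit 5) (nat_lit 577) (nat_lit 5) (nat_lit 315) (nat_lit 310) (nat_lit 275))) (XT.nd (nat_lit 78) (nat_lit 0) (nat_lit 0) (XT.lf (nat_lit 0) (nat_lit 4013511237) (nat_lit 1064) (nat_lit 41155573) (nat_lit 1140) (nat_lit 3128612344) (nat_lit 562) (nat_lit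 5) (nat_lit 576) (nat_lit 5) (nat_lit 577) (nat_lit 5) (nat_lit 316) (nat_lit 310) (nat_lit 274)) (XT.lf (nat_lit 76) (nat_lit 5482752336) (nat_lit 0) (nat_lit 1275523916) (nat_lit 1140) (nat_lit 487052734) (nat_lit 563) (nat_lit 5) (nat_lit 562) (nat_lit 5) (nat_lit 577) (nat_lit 5) (nat_lit 317) (nat_lit 310) (nat_lit 273)))) (XT.nd (nat_lit 156) (nat_lit 1140) (nat_lit 0) (XT.nd (nat_lit 78) (nat_lit 0) (nat_lit 0) (XT.lf (nat_lit 0) (nat_lit 2186857721) (nat_lit 1140) (nat_lit 3480823460) (nat_lit 1216) (nat_lit 1642513336) (nat_lit 548) (nat_lit 5) (nat_lit 563) (nat_lit 5) (nat_lit 564) (nat_lit 5) (nat_lit 318) (nat_lit 310) (nat_lit 272)) (XT.lf (nat_lit 76) (nat_lit 2193242078) (nat_lit 0) (nat_lit 2683133550) (nat_lit 1216) (nat_lit 2501785154) (nat_lit 549) (nat_lit 5) (nat_lit 548) (nat_lit 5) (nat_lit 564) (nat_lit 5) (nat_lit 319) (nat_lit 310) (nat_lit 271))) (XT.nd (nat_lit 78) (nat_lit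 0) (nat_lit 0) (XT.lf (nat_lit 0) (nat_lit 135110604) (nat_lit 1216) (nat_lit 6869097175) (nat_lit 1292) (nat_lit 445202943) (nat_lit 533) (nat_lit 5) (nat_lit 549) (nat_lit 5) (nat_lit 550) (nat_lit 5) (nat_lit 320) (nat_lit 310) (nat_lit 270)) (XT.nd (nat_lit 78) (nat_lit 0) (nat_lit 0) (XT.lf (nat_lit 0) (nat_lit 2781929305) (nat_lit 1216) (nat_lit 1028957514) (nat_lit 1292) (nat_lit 3712339299) (nat_lit 533) (nat_lit 5) (nat_lit 549) (nat_lit 5) (nat_lit 550) (nat_lit 5) (nat_lit 321) (nat_lit 310) (nat_lit 269)) (XT.lf (nat_lit 76) (nat_lit 4992219149) (nat_lit 0) (nat_lit 462230822) (nat_lit 1292) (nat_lit 2145933266) (nat_lit 534) (nat_lit 5) (nat_lit 533) (nat_lit 5) (nat_lit 550) (nat_lit 5) (nat_lit 322) (nat_lit 310) (nat_lit 268)))))) (XT.nd (nat_lit 390) (nat_lit 6384) (nat_lit 0) (XT.nd (nat_lit 156) (nat_lit 2660) (nat_lit 0) (XT.nd (nat_lit 78) (nat_lit 0) (nat_lit 0) (XT.lf (nat_lit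 0) (nat_lit 485369295) (nat_lit 1292) (nat_lit 4189575341) (nat_lit 1368) (nat_lit 3005592734) (nat_lit 517) (nat_lit 5) (nat_lit 534) (nat_lit 5) (nat_lit 535) (nat_lit 5) (nat_lit 323) (nat_lit 310) (nat_lit 267)) (XT.lf (nat_lit 76) (nat_lit 1993881111) (nat_lit 0) (nat_lit 1124208535) (nat_lit 1368) (nat_lit 4645739287) (nat_lit 518) (nat_lit 5) (nat_lit 517) (nat_lit 5) (nat_lit 535) (nat_lit 5) (nat_lit 324) (nat_lit 310) (nat_lit 266))) (XT.nd (nat_lit 78) (nat_lit 1444) (nat_lit 0) (XT.lf (nat_lit 0) (nat_lit 499520969) (nat_lit 1292) (nat_lit 5298322525) (nat_lit 1368) (nat_lit 2052462450) (nat_lit 501) (nat_lit 5) (nat_lit 518) (nat_lit 5) (nat_lit 519) (nat_lit 5) (nat_lit 325) (nat_lit 310) (nat_lit 265)) (XT.nd (nat_lit 78) (nat_lit 1368) (nat_lit 0) (XT.lf (nat_lit 0) (nat_lit 578539245) (nat_lit 1368) (nat_lit 975963252) (nat_lit 76) (nat_lit 6385479082) (nat_lit 500) (nat_lit 5) (nat_lit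 518) (nat_lit 5) (nat_lit 501) (nat_lit 5) (nat_lit 326) (nat_lit 310) (nat_lit 264)) (XT.lf (nat_lit 0) (nat_lit 3235881491) (nat_lit 1444) (nat_lit 2458449394) (nat_lit 76) (nat_lit 2338283469) (nat_lit 482) (nat_lit 5) (nat_lit 501) (nat_lit 5) (nat_lit 483) (nat_lit 5) (nat_lit 327) (nat_lit 310) (nat_lit 263))))) (XT.nd (nat_lit 156) (nat_lit 3344) (nat_lit 0) (XT.nd (nat_lit 78) (nat_lit 1596) (nat_lit 0) (XT.lf (nat_lit 0) (nat_lit 4190277071) (nat_lit 1444) (nat_lit 1752335767) (nat_lit 1520) (nat_lit 2186062728) (nat_lit 463) (nat_lit 5) (nat_lit 482) (nat_lit 5) (nat_lit 483) (nat_lit 5) (nat_lit 328) (nat_lit 310) (nat_lit 262)) (XT.lf (nat_lit 0) (nat_lit 473390840) (nat_lit 1596) (nat_lit 5425803619) (nat_lit 76) (nat_lit 2328858428) (nat_lit 442) (nat_lit 5) (nat_lit 463) (nat_lit 5) (nat_lit 443) (nat_lit 5) (nat_lit 329) (nat_lit 310) (nat_lit 261))) (XT.nd (nat_lit 78) (nat_lit 1748)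 (nat_lit 0) (XT.lf (nat_lit 0) (nat_lit 1399890569) (nat_lit 1596) (nat_lit 1759378907) (nat_lit 1672) (nat_lit 5171365806) (nat_lit 421) (nat_lit 5) (nat_lit 442) (nat_lit 5) (nat_lit 443) (nat_lit 5) (nat_lit 330) (nat_lit 310) (nat_lit 260)) (XT.nd (nat_lit 78) (nat_lit 1748) (nat_lit 0) (XT.lf (nat_lit 0) (nat_lit 5909251792) (nat_lit 1672) (nat_lit 9049206) (nat_lit 76) (nat_lit 2518362032) (nat_lit 421) (nat_lit 5) (nat_lit 443) (nat_lit 5) (nat_lit 422) (nat_lit 5) (nat_lit 331) (nat_lit 310) (nat_lit 259)) (XT.lf (nat_lit 0) (nat_lit 183618406) (nat_lit 1748) (nat_lit 1404917852) (nat_lit 76) (nat_lit 6957539990) (nat_lit 398) (nat_lit 5) (nat_lit 421) (nat_lit 5) (nat_lit 399) (nat_lit 5) (nat_lit 332) (nat_lit 310) (nat_lit 258))))))) (XT.nd (nat_lit 780) (nat_lit 5396) (nat_lit 0) (XT.nd (nat_lit 390) (nat_lit 3192) (nat_lit 0) (XT.nd (nat_lit 156) (nat_lit 2660) (nat_lit 0) (XT.nd (nat_lit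 78) (nat_lit 988) (nat_lit 0) (XT.lf (nat_lit 0) (nat_lit 2932315417) (nat_lit 1824) (nat_lit 2830843996) (nat_lit 76) (nat_lit 2895500356) (nat_lit 375) (nat_lit 5) (nat_lit 399) (nat_lit 5) (nat_lit 376) (nat_lit 5) (nat_lit 333) (nat_lit 310) (nat_lit 257)) (XT.lf (nat_lit 0) (nat_lit 4510632318) (nat_lit 988) (nat_lit 1237335096) (nat_lit 1064) (nat_lit 3026997977) (nat_lit 362) (nat_lit 5) (nat_lit 375) (nat_lit 5) (nat_lit 376) (nat_lit 5) (nat_lit 334) (nat_lit 310) (nat_lit 256))) (XT.nd (nat_lit 78) (nat_lit 1748) (nat_lit 0) (XT.lf (nat_lit 0) (nat_lit 3175487045) (nat_lit 912) (nat_lit 5471299929) (nat_lit 988) (nat_lit 248032719) (nat_lit 350) (nat_lit 5) (nat_lit 362) (nat_lit 5) (nat_lit 363) (nat_lit 5) (nat_lit 335) (nat_lit 310) (nat_lit 255)) (XT.nd (nat_lit 78) (nat_lit 836) (nat_lit 0) (XT.lf (nat_lit 0) (nat_lit 1817168094) (nat_lit 836) (nat_lit 749564514) (nat_lit 912) (nat_lit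 6451495038) (nat_lit 338) (nat_lit 5) (nat_lit 349) (nat_lit 5) (nat_lit 350) (nat_lit 5) (nat_lit 336) (nat_lit 310) (nat_lit 254)) (XT.lf (nat_lit 0) (nat_lit 429813340) (nat_lit 836) (nat_lit 5040290555) (nat_lit 912) (nat_lit 3675081430) (nat_lit 327) (nat_lit 5) (nat_lit 338) (nat_lit 5) (nat_lit 339) (nat_lit 5) (nat_lit 337) (nat_lit 310) (nat_lit 253))))) (XT.nd (nat_lit 156) (nat_lit 2356) (nat_lit 0) (XT.nd (nat_lit 78) (nat_lit 836) (nat_lit 0) (XT.lf (nat_lit 0) (nat_lit 8323399975) (nat_lit 836) (nat_lit 131342359) (nat_lit 912) (nat_lit 821356111) (nat_lit 327) (nat_lit 5) (nat_lit 338) (nat_lit 5) (nat_lit 339) (nat_lit 5) (nat_lit 338) (nat_lit 310) (nat_lit 252)) (XT.lf (nat_lit 0) (nat_lit 2110141783) (nat_lit 836) (nat_lit 2380338930) (nat_lit 76) (nat_lit 4919813034) (nat_lit 316) (nat_lit 5) (nat_lit 327) (nat_lit 5) (nat_lit 317) (nat_lit 5) (nat_lit 339) (nat_lit 310) (nat_lit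 251))) (XT.nd (nat_lit 78) (nat_lit 1596) (nat_lit 0) (XT.lf (nat_lit 0) (nat_lit 5110104605) (nat_lit 836) (nat_lit 3826251499) (nat_lit 76) (nat_lit 612244393) (nat_lit 306) (nat_lit 5) (nat_lit 317) (nat_lit 5) (nat_lit 307) (nat_lit 5) (nat_lit 340) (nat_lit 310) (nat_lit 250)) (XT.nd (nat_lit 78) (nat_lit 836) (nat_lit 0) (XT.lf (nat_lit 0) (nat_lit 4378105639) (nat_lit 760) (nat_lit 3840950920) (nat_lit 836) (nat_lit 1471647029) (nat_lit 296) (nat_lit 5) (nat_lit 306) (nat_lit 5) (nat_lit 307) (nat_lit 5) (nat_lit 341) (nat_lit 310) (nat_lit 249)) (XT.lf (nat_lit 0) (nat_lit 1563739718) (nat_lit 836) (nat_lit 6831997201) (nat_lit 76) (nat_lit 1441146594) (nat_lit 285) (nat_lit 5) (nat_lit 296) (nat_lit 5) (nat_lit 286) (nat_lit 5) (nat_lit 342) (nat_lit 310) (nat_lit 248)))))) (XT.nd (nat_lit 390) (nat_lit 2584) (nat_lit 0) (XT.nd (nat_lit 156) (nat_lit 1444) (nat_lit 0) (XT.nd (nat_lit 78)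 (nat_lit 684) (nat_lit 0) (XT.lf (nat_lit 0) (nat_lit 1583840875) (nat_lit 684) (nat_lit 3105023868) (nat_lit 760) (nat_lit 5298041027) (nat_lit 276) (nat_lit 5) (nat_lit 285) (nat_lit 5) (nat_lit 286) (nat_lit 5) (nat_lit 343) (nat_lit 310) (nat_lit 247)) (XT.lf (nat_lit 0) (nat_lit 132244892) (nat_lit 684) (nat_lit 7785678900) (nat_lit 760) (nat_lit 2223325474) (nat_lit 267) (nat_lit 5) (nat_lit 276) (nat_lit 5) (nat_lit 277) (nat_lit 5) (nat_lit 344) (nat_lit 310) (nat_lit 246))) (XT.nd (nat_lit 78) (nat_lit 1368) (nat_lit 0) (XT.lf (nat_lit 0) (nat_lit 957625328) (nat_lit 760) (nat_lit 1346597400) (nat_lit 76) (nat_lit 7995373420) (nat_lit 266) (nat_lit 5) (nat_lit 276) (nat_lit 5) (nat_lit 267) (nat_lit 5) (nat_lit 345) (nat_lit 310) (nat_lit 245)) (XT.nd (nat_lit 78) (nat_lit 684) (nat_lit 0) (XT.lf (nat_lit 0) (nat_lit 4225205580) (nat_lit 760) (nat_lit 2881145084) (nat_lit 76) (nat_lit 3355643044)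 (nat_lit 257) (nat_lit 5) (nat_lit 267) (nat_lit 5) (nat_lit 258) (nat_lit 5) (nat_lit 346) (nat_lit 310) (nat_lit 244)) (XT.lf (nat_lit 0) (nat_lit 6173773785) (nat_lit 684) (nat_lit 1432561706) (nat_lit 760) (nat_lit 3022638950) (nat_lit 248) (nat_lit 5) (nat_lit 257) (nat_lit 5) (nat_lit 258) (nat_lit 5) (nat_lit 347) (nat_lit 310) (nat_lit 243))))) (XT.nd (nat_lit 156) (nat_lit 1292) (nat_lit 0) (XT.nd (nat_lit 78) (nat_lit 608) (nat_lit 0) (XT.lf (nat_lit 0) (nat_lit 315106154) (nat_lit 684) (nat_lit 6087370193) (nat_lit 76) (nat_lit 4397852547) (nat_lit 239) (nat_lit 5) (nat_lit 248) (nat_lit 5) (nat_lit 240) (nat_lit 5) (nat_lit 348) (nat_lit 310) (nat_lit 242)) (XT.lf (nat_lit 0) (nat_lit 3195926787) (nat_lit 608) (nat_lit 529506460) (nat_lit 684) (nat_lit 7250740875) (nat_lit 231) (nat_lit 5) (nat_lit 239) (nat_lit 5) (nat_lit 240) (nat_lit 5) (nat_lit 349) (nat_lit 310) (nat_lit 241))) (XT.nd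 (nat_lit 78) (nat_lit 684) (nat_lit 0) (XT.lf (nat_lit 0) (nat_lit 1612735847) (nat_lit 608) (nat_lit 5666682915) (nat_lit 684) (nat_lit 3877068433) (nat_lit 223) (nat_lit 5) (nat_lit 231) (nat_lit 5) (nat_lit 232) (nat_lit 5) (nat_lit 350) (nat_lit 310) (nat_lit 240)) (XT.nd (nat_lit 78) (nat_lit 684) (nat_lit 0) (XT.lf (nat_lit 0) (nat_lit 10953261979) (nat_lit 684) (nat_lit 10047128) (nat_lit 76) (nat_lit 378654683) (nat_lit 223) (nat_lit 5) (nat_lit 232) (nat_lit 5) (nat_lit 224) (nat_lit 5) (nat_lit 351) (nat_lit 310) (nat_lit 239)) (XT.lf (nat_lit 0) (nat_lit 3220241424) (nat_lit 684) (nat_lit 1707321725) (nat_lit 76) (nat_lit 6603884408) (nat_lit 214) (nat_lit 5) (nat_lit 223) (nat_lit 5) (nat_lit 215) (nat_lit 5) (nat_lit 352) (nat_lit 310) (nat_lit 238))))))))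
noncomputable def xc70 : XT := (XT.nd (nat_lit 1482) (nat_lit 3268) (nat_lit 0) (XT.nd (nat_lit 702) (nat_lit 3496) (nat_lit 0) (XT.nd (nat_lit 312) (nat_lit 2052) (nat_lit 0) (XT.nd (nat_lit 156) (nat_lit 1140) (nat_lit 0) (XT.nd (nat_lit 78) (nat_lit 532) (nat_lit 0) (XT.lf (nat_lit 0) (nat_lit 6951086259) (nat_lit 608) (nat_lit 3457102031) (nat_lit 76) (nat_lit 1318015337) (nat_lit 207) (nat_lit 5) (nat_lit 215) (nat_lit 5) (nat_lit 208) (nat_lit 5) (nat_lit 353) (nat_lit 310) (nat_lit 237)) (XT.lf (nat_lit 0) (nat_lit 6640909190) (nat_lit 532) (nat_lit 4197907879) (nat_lit 608) (nat_lit 1087103047) (nat_lit 200) (nat_lit 5) (nat_lit 207) (nat_lit 5) (nat_lit 208) (nat_lit 5) (nat_lit 354) (nat_lit 310) (nat_lit 236))) (XT.nd (nat_lit 78) (nat_lit 532) (nat_lit 0) (XT.lf (nat_lit 0) (nat_lit 2704241852) (nat_lit 608) (nat_lit 7194972297) (nat_lit 76) (nat_lit 2231512928) (nat_lit 192) (nat_lit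 5) (nat_lit 200) (nat_lit 5) (nat_lit 193) (nat_lit 5) (nat_lit 355) (nat_lit 310) (nat_lit 235)) (XT.lf (nat_lit 0) (nat_lit 3145861543) (nat_lit 532) (nat_lit 3491975298) (nat_lit 608) (nat_lit 5702847771) (nat_lit 185) (nat_lit 5) (nat_lit 192) (nat_lit 5) (nat_lit 193) (nat_lit 5) (nat_lit 356) (nat_lit 310) (nat_lit 234)))) (XT.nd (nat_lit 156) (nat_lit 1520) (nat_lit 0) (XT.nd (nat_lit 78) (nat_lit 76) (nat_lit 0) (XT.lf (nat_lit 0) (nat_lit 1281550090) (nat_lit 456) (nat_lit 9444884250) (nat_lit 532) (nat_lit 1829781848) (nat_lit 179) (nat_lit 5) (nat_lit 185) (nat_lit 5) (nat_lit 186) (nat_lit 5) (nat_lit 357) (nat_lit 310) (nat_lit 233)) (XT.lf (nat_lit 0) (nat_lit 2177204025) (nat_lit 532) (nat_lit 670545237) (nat_lit 76) (nat_lit 9929277512) (nat_lit 178) (nat_lit 5) (nat_lit 185) (nat_lit 5) (nat_lit 179) (nat_lit 5) (nat_lit 358) (nat_lit 310) (nat_lit 232))) (XT.nd (nat_lit 78) (nat_lit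 988) (nat_lit 0) (XT.lf (nat_lit 0) (nat_lit 6333912088) (nat_lit 608) (nat_lit 2707186673) (nat_lit 76) (nat_lit 3962047629) (nat_lit 171) (nat_lit 5) (nat_lit 179) (nat_lit 5) (nat_lit 172) (nat_lit 5) (nat_lit 359) (nat_lit 310) (nat_lit 231)) (XT.nd (nat_lit 78) (nat_lit 532) (nat_lit 0) (XT.lf (nat_lit 0) (nat_lit 8403684185) (nat_lit 456) (nat_lit 2251671881) (nat_lit 532) (nat_lit 2579906479) (nat_lit 165) (nat_lit 5) (nat_lit 171) (nat_lit 5) (nat_lit 172) (nat_lit 5) (nat_lit 360) (nat_lit 310) (nat_lit 230)) (XT.lf (nat_lit 0) (nat_lit 1664461540) (nat_lit 532) (nat_lit 7072045419) (nat_lit 76) (nat_lit 4736560966) (nat_lit 158) (nat_lit 5) (nat_lit 165) (nat_lit 5) (nat_lit 159) (nat_lit 5) (nat_lit 361) (nat_lit 310) (nat_lit 229)))))) (XT.nd (nat_lit 390) (nat_lit 1672) (nat_lit 0) (XT.nd (nat_lit 156) (nat_lit 912) (nat_lit 0) (XT.nd (nat_lit 78) (nat_lit 456) (nat_lit 0) (XT.lf (nat_lit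 0) (nat_lit 4291518386) (nat_lit 456) (nat_lit 1748714946) (nat_lit 532) (nat_lit 7676663211) (nat_lit 152) (nat_lit 5) (nat_lit 158) (nat_lit 5) (nat_lit 159) (nat_lit 5) (nat_lit 362) (nat_lit 310) (nat_lit 228)) (XT.lf (nat_lit 0) (nat_lit 2065682270) (nat_lit 456) (nat_lit 8542321507) (nat_lit 532) (nat_lit 3358833972) (nat_lit 146) (nat_lit 5) (nat_lit 152) (nat_lit 5) (nat_lit 153) (nat_lit 5) (nat_lit 363) (nat_lit 310) (nat_lit 227))) (XT.nd (nat_lit 78) (nat_lit 836) (nat_lit 0) (XT.lf (nat_lit 0) (nat_lit 1114419480) (nat_lit 532) (nat_lit 262773785) (nat_lit 76) (nat_lit 12846150917) (nat_lit 145) (nat_lit 5) (nat_lit 152) (nat_lit 5) (nat_lit 146) (nat_lit 5) (nat_lit 364) (nat_lit 310) (nat_lit 226)) (XT.nd (nat_lit 78) (nat_lit 456) (nat_lit 0) (XT.lf (nat_lit 0) (nat_lit 5757917012) (nat_lit 456) (nat_lit 2718241456) (nat_lit 76) (nat_lit 6009321021) (nat_lit 140) (nat_lit 5) (nat_lit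 146) (nat_lit 5) (nat_lit 141) (nat_lit 5) (nat_lit 365) (nat_lit 310) (nat_lit 225)) (XT.lf (nat_lit 0) (nat_lit 9471923648) (nat_lit 456) (nat_lit 1107119065) (nat_lit 532) (nat_lit 4175680657) (nat_lit 134) (nat_lit 5) (nat_lit 140) (nat_lit 5) (nat_lit 141) (nat_lit 5) (nat_lit 366) (nat_lit 310) (nat_lit 224))))) (XT.nd (nat_lit 156) (nat_lit 836) (nat_lit 0) (XT.nd (nat_lit 78) (nat_lit 380) (nat_lit 0) (XT.lf (nat_lit 0) (nat_lit 579212889) (nat_lit 456) (nat_lit 8000211425) (nat_lit 76) (nat_lit 6451100522) (nat_lit 128) (nat_lit 5) (nat_lit 134) (nat_lit 5) (nat_lit 129) (nat_lit 5) (nat_lit 367) (nat_lit 310) (nat_lit 223)) (XT.lf (nat_lit 0) (nat_lit 4445161850) (nat_lit 380) (nat_lit 1014324496) (nat_lit 456) (nat_lit 9853782841) (nat_lit 123) (nat_lit 5) (nat_lit 128) (nat_lit 5) (nat_lit 129) (nat_lit 5) (nat_lit 368) (nat_lit 310) (nat_lit 222))) (XT.nd (nat_lit 78) (nat_lit 456) (nat_lit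 0) (XT.lf (nat_lit 0) (nat_lit 1699329089) (nat_lit 380) (nat_lit 8863842887) (nat_lit 456) (nat_lit 5039793667) (nat_lit 118) (nat_lit 5) (nat_lit 123) (nat_lit 5) (nat_lit 124) (nat_lit 5) (nat_lit 369) (nat_lit 310) (nat_lit 221)) (XT.nd (nat_lit 78) (nat_lit 456) (nat_lit 0) (XT.lf (nat_lit 0) (nat_lit 14737881607) (nat_lit 380) (nat_lit 1130504561) (nat_lit 456) (nat_lit 32008031) (nat_lit 118) (nat_lit 5) (nat_lit 123) (nat_lit 5) (nat_lit 124) (nat_lit 5) (nat_lit 370) (nat_lit 310) (nat_lit 220)) (XT.lf (nat_lit 0) (nat_lit 5150708510) (nat_lit 456) (nat_lit 4211541892) (nat_lit 76) (nat_lit 6842000170) (nat_lit 112) (nat_lit 5) (nat_lit 118) (nat_lit 5) (nat_lit 113) (nat_lit 5) (nat_lit 371) (nat_lit 310) (nat_lit 219))))))) (XT.nd (nat_lit 780) (nat_lit 608) (nat_lit 0) (XT.nd (nat_lit 390) (nat_lit 1292) (nat_lit 0) (XT.nd (nat_lit 156) (nat_lit 684) (nat_lit 0) (XT.nd (nat_lit 78) (nat_lit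 380) (nat_lit 0) (XT.lf (nat_lit 0) (nat_lit 9106448588) (nat_lit 304) (nat_lit 1425901483) (nat_lit 380) (nat_lit 5983999606) (nat_lit 108) (nat_lit 5) (nat_lit 112) (nat_lit 5) (nat_lit 113) (nat_lit 5) (nat_lit 372) (nat_lit 310) (nat_lit 218)) (XT.lf (nat_lit 0) (nat_lit 6033161576) (nat_lit 380) (nat_lit 10123751026) (nat_lit 456) (nat_lit 679278304) (nat_lit 103) (nat_lit 5) (nat_lit 108) (nat_lit 5) (nat_lit 109) (nat_lit 5) (nat_lit 373) (nat_lit 310) (nat_lit 217))) (XT.nd (nat_lit 78) (nat_lit 304) (nat_lit 0) (XT.lf (nat_lit 0) (nat_lit 2765661545) (nat_lit 304) (nat_lit 2004345830) (nat_lit 380) (nat_lit 12394043403) (nat_lit 98) (nat_lit 5) (nat_lit 102) (nat_lit 5) (nat_lit 103) (nat_lit 5) (nat_lit 374) (nat_lit 310) (nat_lit 216)) (XT.nd (nat_lit 78) (nat_lit 304) (nat_lit 0) (XT.lf (nat_lit 0) (nat_lit 10459178818) (nat_lit 380) (nat_lit 703049957) (nat_lit 76) (nat_lit 6337723085)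 (nat_lit 98) (nat_lit 5) (nat_lit 103) (nat_lit 5) (nat_lit 99) (nat_lit 5) (nat_lit 375) (nat_lit 310) (nat_lit 215)) (XT.lf (nat_lit 0) (nat_lit 13522687964) (nat_lit 304) (nat_lit 2869004946) (nat_lit 380) (nat_lit 1452791415) (nat_lit 94) (nat_lit 5) (nat_lit 98) (nat_lit 5) (nat_lit 99) (nat_lit 5) (nat_lit 376) (nat_lit 310) (nat_lit 214))))) (XT.nd (nat_lit 156) (nat_lit 608) (nat_lit 0) (XT.nd (nat_lit 78) (nat_lit 304) (nat_lit 0) (XT.lf (nat_lit 0) (nat_lit 4325611987) (nat_lit 380) (nat_lit 8190073384) (nat_lit 76) (nat_lit 5681531694) (nat_lit 89) (nat_lit 5) (nat_lit 94) (nat_lit 5) (nat_lit 90) (nat_lit 5) (nat_lit 377) (nat_lit 310) (nat_lit 213)) (XT.lf (nat_lit 0) (nat_lit 6274545077) (nat_lit 304) (nat_lit 4044859065) (nat_lit 380) (nat_lit 8239707214) (nat_lit 85) (nat_lit 5) (nat_lit 89) (nat_lit 5) (nat_lit 90) (nat_lit 5) (nat_lit 378) (nat_lit 310) (nat_lit 212))) (XT.nd (nat_lit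 78) (nat_lit 380) (nat_lit 0) (XT.lf (nat_lit 0) (nat_lit 2310453325) (nat_lit 228) (nat_lit 14256492342) (nat_lit 304) (nat_lit 2363445006) (nat_lit 82) (nat_lit 5) (nat_lit 85) (nat_lit 5) (nat_lit 86) (nat_lit 5) (nat_lit 379) (nat_lit 310) (nat_lit 211)) (XT.nd (nat_lit 78) (nat_lit 304) (nat_lit 0) (XT.lf (nat_lit 0) (nat_lit 3724582605) (nat_lit 304) (nat_lit 1894430155) (nat_lit 76) (nat_lit 13691645928) (nat_lit 81) (nat_lit 5) (nat_lit 85) (nat_lit 5) (nat_lit 82) (nat_lit 5) (nat_lit 380) (nat_lit 310) (nat_lit 210)) (XT.lf (nat_lit 0) (nat_lit 10045925553) (nat_lit 380) (nat_lit 6331961797) (nat_lit 76) (nat_lit 3322485642) (nat_lit 77) (nat_lit 5) (nat_lit 82) (nat_lit 5) (nat_lit 78) (nat_lit 5) (nat_lit 381) (nat_lit 310) (nat_lit 209)))))) (XT.nd (nat_lit 41496) (nat_lit 0) (nat_lit 36328) (XT.nd (nat_lit 156) (nat_lit 0) (nat_lit 0) (XT.nd (nat_lit 78) (nat_lit 380) (nat_lit 0) (XT.lf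 (nat_lit 0) (nat_lit 9052925843) (nat_lit 228) (nat_lit 7587455287) (nat_lit 304) (nat_lit 3459734348) (nat_lit 74) (nat_lit 5) (nat_lit 77) (nat_lit 5) (nat_lit 78) (nat_lit 5) (nat_lit 382) (nat_lit 310) (nat_lit 208)) (XT.lf (nat_lit 0) (nat_lit 2939277903) (nat_lit 380) (nat_lit 16047465783) (nat_lit 76) (nat_lit 1523597878) (nat_lit 69) (nat_lit 5) (nat_lit 74) (nat_lit 5) (nat_lit 70) (nat_lit 5) (nat_lit 383) (nat_lit 310) (nat_lit 207))) (XT.nd (nat_lit 41184) (nat_lit 0) (nat_lit 38380) (XT.lf (nat_lit 0) (nat_lit 9584503807) (nat_lit 380) (nat_lit 457383324) (nat_lit 76) (nat_lit 10888510704) (nat_lit 69) (nat_lit 5) (nat_lit 74) (nat_lit 5) (nat_lit 70) (nat_lit 5) (nat_lit 384) (nat_lit 310) (nat_lit 206)) (XT.nd (nat_lit 78) (nat_lit 988) (nat_lit 0) (XT.lf (nat_lit 0) (nat_lit 3470345766) (nat_lit 988) (nat_lit 5699433) (nat_lit 988) (nat_lit 5699433) (nat_lit 587) (nat_lit 3) (nat_lit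 600) (nat_lit 3) (nat_lit 600) (nat_lit 5) (nat_lit 311) (nat_lit 311) (nat_lit 278)) (XT.lf (nat_lit 0) (nat_lit 2689712801) (nat_lit 988) (nat_lit 2029051486) (nat_lit 1064) (nat_lit 2293096589) (nat_lit 574) (nat_lit 5) (nat_lit 587) (nat_lit 3) (nat_lit 588) (nat_lit 5) (nat_lit 312) (nat_lit 311) (nat_lit 277))))) (XT.nd (nat_lit 156) (nat_lit 1064) (nat_lit 0) (XT.nd (nat_lit 78) (nat_lit 988) (nat_lit 0) (XT.lf (nat_lit 76) (nat_lit 3050007179) (nat_lit 0) (nat_lit 2348225369) (nat_lit 1064) (nat_lit 1665220730) (nat_lit 575) (nat_lit 5) (nat_lit 574) (nat_lit 5) (nat_lit 588) (nat_lit 5) (nat_lit 313) (nat_lit 311) (nat_lit 276)) (XT.lf (nat_lit 0) (nat_lit 976758900) (nat_lit 1064) (nat_lit 5974093095) (nat_lit 1140) (nat_lit 167282487) (nat_lit 561) (nat_lit 5) (nat_lit 575) (nat_lit 5) (nat_lit 576) (nat_lit 5) (nat_lit 314) (nat_lit 311) (nat_lit 275))) (XT.nd (nat_lit 78) (nat_lit 1064)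 (nat_lit 0) (XT.lf (nat_lit 0) (nat_lit 3618542481) (nat_lit 1064) (nat_lit 746907448) (nat_lit 1140) (nat_lit 2809988783) (nat_lit 561) (nat_lit 5) (nat_lit 575) (nat_lit 5) (nat_lit 576) (nat_lit 5) (nat_lit 315) (nat_lit 311) (nat_lit 274)) (XT.nd (nat_lit 78) (nat_lit 1064) (nat_lit 0) (XT.lf (nat_lit 76) (nat_lit 4642480113) (nat_lit 0) (nat_lit 1630114633) (nat_lit 1140) (nat_lit 963271193) (nat_lit 562) (nat_lit 5) (nat_lit 561) (nat_lit 5) (nat_lit 576) (nat_lit 5) (nat_lit 316) (nat_lit 311) (nat_lit 273)) (XT.lf (nat_lit 0) (nat_lit 1622384902) (nat_lit 1140) (nat_lit 4431131004) (nat_lit 1216) (nat_lit 1245696847) (nat_lit 547) (nat_lit 5) (nat_lit 562) (nat_lit 5) (nat_lit 563) (nat_lit 5) (nat_lit 317) (nat_lit 311) (nat_lit 272))))))))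
noncomputable def xc71 : XT := (XT.nd (nat_lit 1560) (nat_lit 11628) (nat_lit 0) (XT.nd (nat_lit 780) (nat_lit 10944) (nat_lit 0) (XT.nd (nat_lit 390) (nat_lit 3800) (nat_lit 0) (XT.nd (nat_lit 156) (nat_lit 1140) (nat_lit 0) (XT.nd (nat_lit 78) (nat_lit 0) (nat_lit 0) (XT.lf (nat_lit 76) (nat_lit 1104626678) (nat_lit 0) (nat_lit 3111059759) (nat_lit 1216) (nat_lit 3149842235) (nat_lit 548) (nat_lit 5) (nat_lit 547) (nat_lit 5) (nat_lit 563) (nat_lit 5) (nat_lit 318) (nat_lit 311) (nat_lit 271)) (XT.lf (nat_lit 76) (nat_lit 6810854141) (nat_lit 0) (nat_lit 15618622) (nat_lit 1216) (nat_lit 608625170) (nat_lit 548) (nat_lit 5) (nat_lit 547) (nat_lit 5) (nat_lit 563) (nat_lit 5) (nat_lit 319) (nat_lit 311) (nat_lit 270))) (XT.nd (nat_lit 78) (nat_lit 0) (nat_lit 0) (XT.lf (nat_lit 0) (nat_lit 1948891522) (nat_lit 1216) (nat_lit 2348193430) (nat_lit 1292) (nat_lit 3210135084) (nat_lit 532) (nat_lit 5)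 (nat_lit 548) (nat_lit 5) (nat_lit 549) (nat_lit 5) (nat_lit 320) (nat_lit 311) (nat_lit 269)) (XT.nd (nat_lit 78) (nat_lit 0) (nat_lit 76) (XT.lf (nat_lit 76) (nat_lit 3528067777) (nat_lit 0) (nat_lit 988186556) (nat_lit 1292) (nat_lit 3066396427) (nat_lit 533) (nat_lit 5) (nat_lit 532) (nat_lit 5) (nat_lit 549) (nat_lit 5) (nat_lit 321) (nat_lit 311) (nat_lit 268)) (XT.lf (nat_lit 76) (nat_lit 1903982767) (nat_lit 0) (nat_lit 5217139588) (nat_lit 1292) (nat_lit 540064024) (nat_lit 534) (nat_lit 5) (nat_lit 533) (nat_lit 5) (nat_lit 550) (nat_lit 5) (nat_lit 322) (nat_lit 311) (nat_lit 267))))) (XT.nd (nat_lit 156) (nat_lit 2584) (nat_lit 0) (XT.nd (nat_lit 78) (nat_lit 0) (nat_lit 76) (XT.lf (nat_lit 76) (nat_lit 280673992) (nat_lit 0) (nat_lit 1708296567) (nat_lit 1368) (nat_lit 5753809781) (nat_lit 517) (nat_lit 5) (nat_lit 516) (nat_lit 5) (nat_lit 534) (nat_lit 5) (nat_lit 323) (nat_lit 311)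 (nat_lit 266)) (XT.lf (nat_lit 0) (nat_lit 4558264092) (nat_lit 1292) (nat_lit 1322753636) (nat_lit 1368) (nat_lit 1946346228) (nat_lit 517) (nat_lit 5) (nat_lit 534) (nat_lit 5) (nat_lit 535) (nat_lit 5) (nat_lit 324) (nat_lit 311) (nat_lit 265))) (XT.nd (nat_lit 78) (nat_lit 2660) (nat_lit 0) (XT.lf (nat_lit 76) (nat_lit 4997656607) (nat_lit 0) (nat_lit 2173219687) (nat_lit 1368) (nat_lit 744330336) (nat_lit 518) (nat_lit 5) (nat_lit 517) (nat_lit 5) (nat_lit 535) (nat_lit 5) (nat_lit 325) (nat_lit 311) (nat_lit 264)) (XT.nd (nat_lit 78) (nat_lit 1368) (nat_lit 0) (XT.lf (nat_lit 0) (nat_lit 1798379015) (nat_lit 1368) (nat_lit 4520822215) (nat_lit 76) (nat_lit 1686955621) (nat_lit 500) (nat_lit 5) (nat_lit 518) (nat_lit 5) (nat_lit 501) (nat_lit 5) (nat_lit 326) (nat_lit 311) (nat_lit 263)) (XT.lf (nat_lit 0) (nat_lit 1968891461) (nat_lit 1368) (nat_lit 2411330390) (nat_lit 1444) (nat_lit 3720098862)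 (nat_lit 482) (nat_lit 5) (nat_lit 500) (nat_lit 5) (nat_lit 501) (nat_lit 5) (nat_lit 327) (nat_lit 311) (nat_lit 262)))))) (XT.nd (nat_lit 390) (nat_lit 4560) (nat_lit 0) (XT.nd (nat_lit 156) (nat_lit 4864) (nat_lit 0) (XT.nd (nat_lit 78) (nat_lit 76) (nat_lit 0) (XT.lf (nat_lit 0) (nat_lit 455028835) (nat_lit 1444) (nat_lit 6556343016) (nat_lit 1520) (nat_lit 1186542185) (nat_lit 463) (nat_lit 5) (nat_lit 482) (nat_lit 5) (nat_lit 483) (nat_lit 5) (nat_lit 328) (nat_lit 311) (nat_lit 261)) (XT.lf (nat_lit 0) (nat_lit 1391115841) (nat_lit 1520) (nat_lit 1059008074) (nat_lit 76) (nat_lit 5848430883) (nat_lit 462) (nat_lit 5) (nat_lit 482) (nat_lit 5) (nat_lit 463) (nat_lit 5) (nat_lit 329) (nat_lit 311) (nat_lit 260))) (XT.nd (nat_lit 78) (nat_lit 3344) (nat_lit 0) (XT.lf (nat_lit 0) (nat_lit 4010788505) (nat_lit 1596) (nat_lit 2577710739) (nat_lit 76) (nat_lit 1813980997) (nat_lit 442) (nat_lit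 5) (nat_lit 463) (nat_lit 5) (nat_lit 443) (nat_lit 5) (nat_lit 330) (nat_lit 311) (nat_lit 259)) (XT.nd (nat_lit 78) (nat_lit 1748) (nat_lit 0) (XT.lf (nat_lit 0) (nat_lit 4403906535) (nat_lit 1596) (nat_lit 2289951001) (nat_lit 1672) (nat_lit 1816007097) (nat_lit 421) (nat_lit 5) (nat_lit 442) (nat_lit 5) (nat_lit 443) (nat_lit 5) (nat_lit 331) (nat_lit 311) (nat_lit 258)) (XT.lf (nat_lit 0) (nat_lit 810886263) (nat_lit 1748) (nat_lit 5649026449) (nat_lit 76) (nat_lit 2160786376) (nat_lit 398) (nat_lit 5) (nat_lit 421) (nat_lit 5) (nat_lit 399) (nat_lit 5) (nat_lit 332) (nat_lit 311) (nat_lit 257))))) (XT.nd (nat_lit 156) (nat_lit 1824) (nat_lit 0) (XT.nd (nat_lit 78) (nat_lit 988) (nat_lit 0) (XT.lf (nat_lit 0) (nat_lit 1517772435) (nat_lit 1748) (nat_lit 1962800840) (nat_lit 1824) (nat_lit 5254306517) (nat_lit 375) (nat_lit 5) (nat_lit 398) (nat_lit 5) (nat_lit 399) (nat_lit 5) (nat_lit 333) (nat_lit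 311) (nat_lit 256)) (XT.lf (nat_lit 0) (nat_lit 49831041) (nat_lit 988) (nat_lit 6173601619) (nat_lit 1064) (nat_lit 2629225094) (nat_lit 362) (nat_lit 5) (nat_lit 375) (nat_lit 5) (nat_lit 376) (nat_lit 5) (nat_lit 334) (nat_lit 311) (nat_lit 255))) (XT.nd (nat_lit 78) (nat_lit 1748) (nat_lit 0) (XT.lf (nat_lit 0) (nat_lit 73905008) (nat_lit 1064) (nat_lit 1411686312) (nat_lit 76) (nat_lit 7488394413) (nat_lit 361) (nat_lit 5) (nat_lit 375) (nat_lit 5) (nat_lit 362) (nat_lit 5) (nat_lit 335) (nat_lit 311) (nat_lit 254)) (XT.nd (nat_lit 78) (nat_lit 836) (nat_lit 0) (XT.lf (nat_lit 0) (nat_lit 2824760761) (nat_lit 988) (nat_lit 2912743295) (nat_lit 76) (nat_lit 3361085792) (nat_lit 349) (nat_lit 5) (nat_lit 362) (nat_lit 5) (nat_lit 350) (nat_lit 5) (nat_lit 336) (nat_lit 311) (nat_lit 253)) (XT.lf (nat_lit 0) (nat_lit 4799903417) (nat_lit 836) (nat_lit 850109020) (nat_lit 912) (nat_lit 3577112275)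 (nat_lit 338) (nat_lit 5) (nat_lit 349) (nat_lit 5) (nat_lit 350) (nat_lit 5) (nat_lit 337) (nat_lit 311) (nat_lit 252))))))) (XT.nd (nat_lit 780) (nat_lit 5472) (nat_lit 0) (XT.nd (nat_lit 390) (nat_lit 2888) (nat_lit 0) (XT.nd (nat_lit 156) (nat_lit 1596) (nat_lit 0) (XT.nd (nat_lit 78) (nat_lit 836) (nat_lit 0) (XT.lf (nat_lit 0) (nat_lit 3384569273) (nat_lit 836) (nat_lit 5186962574) (nat_lit 912) (nat_lit 787782728) (nat_lit 327) (nat_lit 5) (nat_lit 338) (nat_lit 5) (nat_lit 339) (nat_lit 5) (nat_lit 338) (nat_lit 311) (nat_lit 251)) (XT.lf (nat_lit 0) (nat_lit 1945481848) (nat_lit 760) (nat_lit 104323574) (nat_lit 836) (nat_lit 7445583156) (nat_lit 316) (nat_lit 5) (nat_lit 326) (nat_lit 5) (nat_lit 327) (nat_lit 5) (nat_lit 339) (nat_lit 311) (nat_lit 250))) (XT.nd (nat_lit 78) (nat_lit 836) (nat_lit 0) (XT.lf (nat_lit 0) (nat_lit 460294901) (nat_lit 760) (nat_lit 4523330318) (nat_lit 836)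 (nat_lit 4651406242) (nat_lit 306) (nat_lit 5) (nat_lit 316) (nat_lit 5) (nat_lit 317) (nat_lit 5) (nat_lit 340) (nat_lit 311) (nat_lit 249)) (XT.nd (nat_lit 78) (nat_lit 836) (nat_lit 0) (XT.lf (nat_lit 0) (nat_lit 8008142992) (nat_lit 836) (nat_lit 1026716756) (nat_lit 76) (nat_lit 743976375) (nat_lit 306) (nat_lit 5) (nat_lit 317) (nat_lit 5) (nat_lit 307) (nat_lit 5) (nat_lit 341) (nat_lit 311) (nat_lit 248)) (XT.lf (nat_lit 0) (nat_lit 1206532747) (nat_lit 836) (nat_lit 2557915594) (nat_lit 76) (nat_lit 6161860463) (nat_lit 295) (nat_lit 5) (nat_lit 306) (nat_lit 5) (nat_lit 296) (nat_lit 5) (nat_lit 342) (nat_lit 311) (nat_lit 247))))) (XT.nd (nat_lit 156) (nat_lit 1444) (nat_lit 0) (XT.nd (nat_lit 78) (nat_lit 684) (nat_lit 0) (XT.lf (nat_lit 0) (nat_lit 4254333951) (nat_lit 836) (nat_lit 4127177915) (nat_lit 76) (nat_lit 1696377581) (nat_lit 285) (nat_lit 5) (nat_lit 296) (nat_lit 5) (nat_lit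 286) (nat_lit 5) (nat_lit 343) (nat_lit 311) (nat_lit 246)) (XT.lf (nat_lit 0) (nat_lit 4493927593) (nat_lit 684) (nat_lit 2920870399) (nat_lit 760) (nat_lit 2818818411) (nat_lit 276) (nat_lit 5) (nat_lit 285) (nat_lit 5) (nat_lit 286) (nat_lit 5) (nat_lit 344) (nat_lit 311) (nat_lit 245))) (XT.nd (nat_lit 78) (nat_lit 684) (nat_lit 0) (XT.lf (nat_lit 0) (nat_lit 288234128) (nat_lit 760) (nat_lit 7393010952) (nat_lit 76) (nat_lit 2712440702) (nat_lit 266) (nat_lit 5) (nat_lit 276) (nat_lit 5) (nat_lit 267) (nat_lit 5) (nat_lit 345) (nat_lit 311) (nat_lit 244)) (XT.nd (nat_lit 78) (nat_lit 0) (nat_lit 0) (XT.lf (nat_lit 0) (nat_lit 1448895740) (nat_lit 684) (nat_lit 2020870659) (nat_lit 760) (nat_lit 7088048587) (nat_lit 257) (nat_lit 5) (nat_lit 266) (nat_lit 5) (nat_lit 267) (nat_lit 5) (nat_lit 346) (nat_lit 311) (nat_lit 243)) (XT.lf (nat_lit 0) (nat_lit 6774181396) (nat_lit 760) (nat_lit 149204592)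 (nat_lit 76) (nat_lit 3802954401) (nat_lit 257) (nat_lit 5) (nat_lit 267) (nat_lit 5) (nat_lit 258) (nat_lit 5) (nat_lit 347) (nat_lit 311) (nat_lit 242)))))) (XT.nd (nat_lit 390) (nat_lit 2204) (nat_lit 0) (XT.nd (nat_lit 156) (nat_lit 1900) (nat_lit 0) (XT.nd (nat_lit 78) (nat_lit 684) (nat_lit 0) (XT.lf (nat_lit 0) (nat_lit 9131637060) (nat_lit 684) (nat_lit 1072559941) (nat_lit 760) (nat_lit 695215635) (nat_lit 248) (nat_lit 5) (nat_lit 257) (nat_lit 5) (nat_lit 258) (nat_lit 5) (nat_lit 348) (nat_lit 311) (nat_lit 241)) (XT.lf (nat_lit 0) (nat_lit 2662120207) (nat_lit 684) (nat_lit 3465200257) (nat_lit 76) (nat_lit 4949279445) (nat_lit 239) (nat_lit 5) (nat_lit 248) (nat_lit 5) (nat_lit 240) (nat_lit 5) (nat_lit 349) (nat_lit 311) (nat_lit 240))) (XT.nd (nat_lit 78) (nat_lit 1292) (nat_lit 0) (XT.lf (nat_lit 0) (nat_lit 6051091230) (nat_lit 608) (nat_lit 73496705) (nat_lit 684) (nat_lit 5134164709)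 (nat_lit 231) (nat_lit 5) (nat_lit 239) (nat_lit 5) (nat_lit 240) (nat_lit 5) (nat_lit 350) (nat_lit 311) (nat_lit 239)) (XT.nd (nat_lit 78) (nat_lit 684) (nat_lit 0) (XT.lf (nat_lit 0) (nat_lit 4418573208) (nat_lit 608) (nat_lit 5320874593) (nat_lit 684) (nat_lit 1705970140) (nat_lit 223) (nat_lit 5) (nat_lit 231) (nat_lit 5) (nat_lit 232) (nat_lit 5) (nat_lit 351) (nat_lit 311) (nat_lit 238)) (XT.lf (nat_lit 0) (nat_lit 1817755244) (nat_lit 684) (nat_lit 8905369792) (nat_lit 76) (nat_lit 914006207) (nat_lit 214) (nat_lit 5) (nat_lit 223) (nat_lit 5) (nat_lit 215) (nat_lit 5) (nat_lit 352) (nat_lit 311) (nat_lit 237))))) (XT.nd (nat_lit 156) (nat_lit 1672) (nat_lit 0) (XT.nd (nat_lit 78) (nat_lit 0) (nat_lit 0) (XT.lf (nat_lit 0) (nat_lit 957649898) (nat_lit 532) (nat_lit 4513897838) (nat_lit 608) (nat_lit 6361888972) (nat_lit 207) (nat_lit 5) (nat_lit 214) (nat_lit 5) (nat_lit 215) (nat_lit 5) (nat_lit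 353) (nat_lit 311) (nat_lit 236)) (XT.lf (nat_lit 0) (nat_lit 9266405855) (nat_lit 608) (nat_lit 861761859) (nat_lit 76) (nat_lit 1906851045) (nat_lit 207) (nat_lit 5) (nat_lit 215) (nat_lit 5) (nat_lit 208) (nat_lit 5) (nat_lit 354) (nat_lit 311) (nat_lit 235))) (XT.nd (nat_lit 78) (nat_lit 1064) (nat_lit 0) (XT.lf (nat_lit 0) (nat_lit 972093458) (nat_lit 608) (nat_lit 2752628114) (nat_lit 76) (nat_lit 8516784050) (nat_lit 199) (nat_lit 5) (nat_lit 207) (nat_lit 5) (nat_lit 200) (nat_lit 5) (nat_lit 355) (nat_lit 311) (nat_lit 234)) (XT.nd (nat_lit 78) (nat_lit 532) (nat_lit 0) (XT.lf (nat_lit 0) (nat_lit 4823072968) (nat_lit 608) (nat_lit 4733187190) (nat_lit 76) (nat_lit 2896862800) (nat_lit 192) (nat_lit 5) (nat_lit 200) (nat_lit 5) (nat_lit 193) (nat_lit 5) (nat_lit 356) (nat_lit 311) (nat_lit 233)) (XT.lf (nat_lit 0) (nat_lit 5874430230) (nat_lit 532) (nat_lit 2957997905) (nat_lit 608) (nat_lit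 3837818518) (nat_lit 185) (nat_lit 5) (nat_lit 192) (nat_lit 5) (nat_lit 193) (nat_lit 5) (nat_lit 357) (nat_lit 311) (nat_lit 232))))))))
noncomputable def xc72 : XT := (XT.nd (nat_lit 1482) (nat_lit 1520) (nat_lit 0) (XT.nd (nat_lit 702) (nat_lit 3496) (nat_lit 0) (XT.nd (nat_lit 312) (nat_lit 1900) (nat_lit 0) (XT.nd (nat_lit 156) (nat_lit 456) (nat_lit 0) (XT.nd (nat_lit 78) (nat_lit 532) (nat_lit 0) (XT.lf (nat_lit 0) (nat_lit 112151313) (nat_lit 532) (nat_lit 8946372718) (nat_lit 76) (nat_lit 3834467917) (nat_lit 178) (nat_lit 5) (nat_lit 185) (nat_lit 5) (nat_lit 179) (nat_lit 5) (nat_lit 358) (nat_lit 311) (nat_lit 231)) (XT.lf (nat_lit 0) (nat_lit 1911393865) (nat_lit 532) (nat_lit 2258205018) (nat_lit 608) (nat_lit 8951504613) (nat_lit 171) (nat_lit 5) (nat_lit 178) (nat_lit 5) (nat_lit 179) (nat_lit 5) (nat_lit 359) (nat_lit 311) (nat_lit 230))) (XT.nd (nat_lit 78) (nat_lit 456) (nat_lit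 0) (XT.lf (nat_lit 0) (nat_lit 8403575132) (nat_lit 608) (nat_lit 219328042) (nat_lit 76) (nat_lit 4732072357) (nat_lit 171) (nat_lit 5) (nat_lit 179) (nat_lit 5) (nat_lit 172) (nat_lit 5) (nat_lit 360) (nat_lit 311) (nat_lit 229)) (XT.lf (nat_lit 0) (nat_lit 11183188765) (nat_lit 456) (nat_lit 1633136222) (nat_lit 532) (nat_lit 778516516) (nat_lit 165) (nat_lit 5) (nat_lit 171) (nat_lit 5) (nat_lit 172) (nat_lit 5) (nat_lit 361) (nat_lit 311) (nat_lit 228)))) (XT.nd (nat_lit 156) (nat_lit 912) (nat_lit 0) (XT.nd (nat_lit 78) (nat_lit 456) (nat_lit 0) (XT.lf (nat_lit 0) (nat_lit 3535353603) (nat_lit 532) (nat_lit 4740507190) (nat_lit 76) (nat_lit 5564358691) (nat_lit 158) (nat_lit 5) (nat_lit 165) (nat_lit 5) (nat_lit 159) (nat_lit 5) (nat_lit 362) (nat_lit 311) (nat_lit 227)) (XT.lf (nat_lit 0) (nat_lit 6922695025) (nat_lit 456) (nat_lit 1082913348) (nat_lit 532) (nat_lit 6086508486) (nat_lit 152)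 (nat_lit 5) (nat_lit 158) (nat_lit 5) (nat_lit 159) (nat_lit 5) (nat_lit 363) (nat_lit 311) (nat_lit 226))) (XT.nd (nat_lit 78) (nat_lit 456) (nat_lit 0) (XT.lf (nat_lit 0) (nat_lit 4620594946) (nat_lit 456) (nat_lit 8058564373) (nat_lit 532) (nat_lit 1671039606) (nat_lit 146) (nat_lit 5) (nat_lit 152) (nat_lit 5) (nat_lit 153) (nat_lit 5) (nat_lit 364) (nat_lit 311) (nat_lit 225)) (XT.nd (nat_lit 78) (nat_lit 0) (nat_lit 0) (XT.lf (nat_lit 0) (nat_lit 2201884855) (nat_lit 380) (nat_lit 673954673) (nat_lit 456) (nat_lit 11739087789) (nat_lit 140) (nat_lit 5) (nat_lit 145) (nat_lit 5) (nat_lit 146) (nat_lit 5) (nat_lit 365) (nat_lit 311) (nat_lit 224)) (XT.lf (nat_lit 0) (nat_lit 7614745818) (nat_lit 456) (nat_lit 366346355) (nat_lit 76) (nat_lit 6904728668) (nat_lit 140) (nat_lit 5) (nat_lit 146) (nat_lit 5) (nat_lit 141) (nat_lit 5) (nat_lit 366) (nat_lit 311) (nat_lit 223)))))) (XT.nd (nat_lit 390)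 (nat_lit 1368) (nat_lit 0) (XT.nd (nat_lit 156) (nat_lit 1216) (nat_lit 0) (XT.nd (nat_lit 78) (nat_lit 456) (nat_lit 0) (XT.lf (nat_lit 0) (nat_lit 12150043991) (nat_lit 456) (nat_lit 396953290) (nat_lit 532) (nat_lit 2616830682) (nat_lit 134) (nat_lit 5) (nat_lit 140) (nat_lit 5) (nat_lit 141) (nat_lit 5) (nat_lit 367) (nat_lit 311) (nat_lit 222)) (XT.lf (nat_lit 0) (nat_lit 2230507259) (nat_lit 456) (nat_lit 5834635486) (nat_lit 76) (nat_lit 7383119341) (nat_lit 128) (nat_lit 5) (nat_lit 134) (nat_lit 5) (nat_lit 129) (nat_lit 5) (nat_lit 368) (nat_lit 311) (nat_lit 221))) (XT.nd (nat_lit 78) (nat_lit 836) (nat_lit 0) (XT.lf (nat_lit 0) (nat_lit 6945071272) (nat_lit 380) (nat_lit 279893045) (nat_lit 456) (nat_lit 8515183509) (nat_lit 123) (nat_lit 5) (nat_lit 128) (nat_lit 5) (nat_lit 129) (nat_lit 5) (nat_lit 369) (nat_lit 311) (nat_lit 220)) (XT.nd (nat_lit 78) (nat_lit 456) (nat_lit 0) (XT.lf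 (nat_lit 0) (nat_lit 4105575420) (nat_lit 380) (nat_lit 8349647130) (nat_lit 456) (nat_lit 3583857528) (nat_lit 118) (nat_lit 5) (nat_lit 123) (nat_lit 5) (nat_lit 124) (nat_lit 5) (nat_lit 370) (nat_lit 311) (nat_lit 219)) (XT.lf (nat_lit 0) (nat_lit 1125161848) (nat_lit 380) (nat_lit 389464018) (nat_lit 456) (nat_lit 14831392484) (nat_lit 112) (nat_lit 5) (nat_lit 117) (nat_lit 5) (nat_lit 118) (nat_lit 5) (nat_lit 371) (nat_lit 311) (nat_lit 218))))) (XT.nd (nat_lit 156) (nat_lit 1064) (nat_lit 0) (XT.nd (nat_lit 78) (nat_lit 304) (nat_lit 0) (XT.lf (nat_lit 0) (nat_lit 6819912291) (nat_lit 456) (nat_lit 2042053243) (nat_lit 76) (nat_lit 7797683253) (nat_lit 112) (nat_lit 5) (nat_lit 118) (nat_lit 5) (nat_lit 113) (nat_lit 5) (nat_lit 372) (nat_lit 311) (nat_lit 217)) (XT.lf (nat_lit 0) (nat_lit 11638229758) (nat_lit 304) (nat_lit 695320624) (nat_lit 380) (nat_lit 4648162227) (nat_lit 108) (nat_lit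 5) (nat_lit 112) (nat_lit 5) (nat_lit 113) (nat_lit 5) (nat_lit 373) (nat_lit 311) (nat_lit 216))) (XT.nd (nat_lit 78) (nat_lit 608) (nat_lit 0) (XT.lf (nat_lit 0) (nat_lit 781035382) (nat_lit 456) (nat_lit 8855975417) (nat_lit 76) (nat_lit 7674523777) (nat_lit 102) (nat_lit 5) (nat_lit 108) (nat_lit 5) (nat_lit 103) (nat_lit 5) (nat_lit 374) (nat_lit 311) (nat_lit 215)) (XT.nd (nat_lit 78) (nat_lit 304) (nat_lit 0) (XT.lf (nat_lit 0) (nat_lit 5078460622) (nat_lit 304) (nat_lit 1277780731) (nat_lit 380) (nat_lit 11293477408) (nat_lit 98) (nat_lit 5) (nat_lit 102) (nat_lit 5) (nat_lit 103) (nat_lit 5) (nat_lit 375) (nat_lit 311) (nat_lit 214)) (XT.lf (nat_lit 0) (nat_lit 1483642040) (nat_lit 304) (nat_lit 10705004645) (nat_lit 380) (nat_lit 5807610400) (nat_lit 94) (nat_lit 5) (nat_lit 98) (nat_lit 5) (nat_lit 99) (nat_lit 5) (nat_lit 376) (nat_lit 311) (nat_lit 213))))))) (XT.nd (nat_lit 42042) (nat_lit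 0) (nat_lit 33516) (XT.nd (nat_lit 390) (nat_lit 228) (nat_lit 0) (XT.nd (nat_lit 156) (nat_lit 912) (nat_lit 0) (XT.nd (nat_lit 78) (nat_lit 380) (nat_lit 0) (XT.lf (nat_lit 0) (nat_lit 16081190890) (nat_lit 304) (nat_lit 2181336877) (nat_lit 380) (nat_lit 89340979) (nat_lit 94) (nat_lit 5) (nat_lit 98) (nat_lit 5) (nat_lit 99) (nat_lit 5) (nat_lit 377) (nat_lit 311) (nat_lit 212)) (XT.lf (nat_lit 0) (nat_lit 5822415778) (nat_lit 380) (nat_lit 6276807885) (nat_lit 76) (nat_lit 6616218521) (nat_lit 89) (nat_lit 5) (nat_lit 94) (nat_lit 5) (nat_lit 90) (nat_lit 5) (nat_lit 378) (nat_lit 311) (nat_lit 211))) (XT.nd (nat_lit 78) (nat_lit 608) (nat_lit 0) (XT.lf (nat_lit 0) (nat_lit 8586722444) (nat_lit 304) (nat_lit 3383272722) (nat_lit 380) (nat_lit 7118728883) (nat_lit 85) (nat_lit 5) (nat_lit 89) (nat_lit 5) (nat_lit 90) (nat_lit 5) (nat_lit 379) (nat_lit 311) (nat_lit 210)) (XT.nd (nat_lit 78) (nat_lit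 380) (nat_lit 0) (XT.lf (nat_lit 0) (nat_lit 4490968674) (nat_lit 228) (nat_lit 13893578330) (nat_lit 304) (nat_lit 1087012977) (nat_lit 82) (nat_lit 5) (nat_lit 85) (nat_lit 5) (nat_lit 86) (nat_lit 5) (nat_lit 380) (nat_lit 311) (nat_lit 209)) (XT.lf (nat_lit 0) (nat_lit 117458365) (nat_lit 304) (nat_lit 5010561067) (nat_lit 380) (nat_lit 14735810398) (nat_lit 77) (nat_lit 5) (nat_lit 81) (nat_lit 5) (nat_lit 82) (nat_lit 5) (nat_lit 381) (nat_lit 311) (nat_lit 208))))) (XT.nd (nat_lit 41418) (nat_lit 0) (nat_lit 36860) (XT.nd (nat_lit 78) (nat_lit 228) (nat_lit 0) (XT.lf (nat_lit 0) (nat_lit 11618824256) (nat_lit 380) (nat_lit 4467621533) (nat_lit 76) (nat_lit 4179202507) (nat_lit 77) (nat_lit 5) (nat_lit 82) (nat_lit 5) (nat_lit 78) (nat_lit 5) (nat_lit 382) (nat_lit 311) (nat_lit 207)) (XT.lf (nat_lit 0) (nat_lit 11345484174) (nat_lit 228) (nat_lit 7041716217) (nat_lit 304) (nat_lit 2290669824)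 (nat_lit 74) (nat_lit 5) (nat_lit 77) (nat_lit 5) (nat_lit 78) (nat_lit 5) (nat_lit 383) (nat_lit 311) (nat_lit 206))) (XT.nd (nat_lit 78) (nat_lit 1140) (nat_lit 0) (XT.lf (nat_lit 0) (nat_lit 1330009698) (nat_lit 0) (nat_lit 1330009698) (nat_lit 988) (nat_lit 870931841) (nat_lit 574) (nat_lit 5) (nat_lit 574) (nat_lit 3) (nat_lit 587) (nat_lit 3) (nat_lit 312) (nat_lit 312) (nat_lit 276)) (XT.nd (nat_lit 78) (nat_lit 0) (nat_lit 76) (XT.lf (nat_lit 76) (nat_lit 629648139) (nat_lit 0) (nat_lit 190940219) (nat_lit 1140) (nat_lit 6294470714) (nat_lit 560) (nat_lit 5) (nat_lit 559) (nat_lit 3) (nat_lit 574) (nat_lit 5) (nat_lit 313) (nat_lit 312) (nat_lit 275)) (XT.lf (nat_lit 0) (nat_lit 3381701385) (nat_lit 1064) (nat_lit 1378031567) (nat_lit 1140) (nat_lit 2411004189) (nat_lit 560) (nat_lit 5) (nat_lit 574) (nat_lit 5) (nat_lit 575) (nat_lit 5) (nat_lit 314) (nat_lit 312) (nat_lit 274)))))) (XT.nd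 (nat_lit 390) (nat_lit 1216) (nat_lit 0) (XT.nd (nat_lit 156) (nat_lit 1140) (nat_lit 0) (XT.nd (nat_lit 78) (nat_lit 1064) (nat_lit 0) (XT.lf (nat_lit 76) (nat_lit 3879671504) (nat_lit 0) (nat_lit 2069374075) (nat_lit 1140) (nat_lit 1280516193) (nat_lit 561) (nat_lit 5) (nat_lit 560) (nat_lit 5) (nat_lit 575) (nat_lit 5) (nat_lit 315) (nat_lit 312) (nat_lit 273)) (XT.lf (nat_lit 0) (nat_lit 1218247243) (nat_lit 1140) (nat_lit 5307953777) (nat_lit 1216) (nat_lit 765200356) (nat_lit 546) (nat_lit 5) (nat_lit 561) (nat_lit 5) (nat_lit 562) (nat_lit 5) (nat_lit 316) (nat_lit 312) (nat_lit 272))) (XT.nd (nat_lit 78) (nat_lit 1140) (nat_lit 0) (XT.lf (nat_lit 76) (nat_lit 92356685) (nat_lit 0) (nat_lit 3627043724) (nat_lit 1216) (nat_lit 3636689299) (nat_lit 547) (nat_lit 5) (nat_lit 546) (nat_lit 5) (nat_lit 562) (nat_lit 5) (nat_lit 317) (nat_lit 312) (nat_lit 271)) (XT.nd (nat_lit 78) (nat_lit 1140)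 (nat_lit 0) (XT.lf (nat_lit 76) (nat_lit 5673914196) (nat_lit 0) (nat_lit 567427698) (nat_lit 1216) (nat_lit 1182519299) (nat_lit 547) (nat_lit 5) (nat_lit 546) (nat_lit 5) (nat_lit 562) (nat_lit 5) (nat_lit 318) (nat_lit 312) (nat_lit 270)) (XT.lf (nat_lit 0) (nat_lit 1282084964) (nat_lit 1216) (nat_lit 3593208308) (nat_lit 1292) (nat_lit 2619163612) (nat_lit 531) (nat_lit 5) (nat_lit 547) (nat_lit 5) (nat_lit 548) (nat_lit 5) (nat_lit 319) (nat_lit 312) (nat_lit 269))))) (XT.nd (nat_lit 156) (nat_lit 1216) (nat_lit 0) (XT.nd (nat_lit 78) (nat_lit 0) (nat_lit 76) (XT.lf (nat_lit 76) (nat_lit 2141079051) (nat_lit 0) (nat_lit 1607434196) (nat_lit 1292) (nat_lit 3819675042) (nat_lit 532) (nat_lit 5) (nat_lit 531) (nat_lit 5) (nat_lit 548) (nat_lit 5) (nat_lit 320) (nat_lit 312) (nat_lit 268)) (XT.lf (nat_lit 76) (nat_lit 391225751) (nat_lit 0) (nat_lit 5852751724) (nat_lit 1292) (nat_lit 1401104957)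 (nat_lit 533) (nat_lit 5) (nat_lit 532) (nat_lit 5) (nat_lit 549) (nat_lit 5) (nat_lit 321) (nat_lit 312) (nat_lit 267))) (XT.nd (nat_lit 78) (nat_lit 0) (nat_lit 76) (XT.lf (nat_lit 0) (nat_lit 1041559948) (nat_lit 1292) (nat_lit 1338723449) (nat_lit 1368) (nat_lit 5344590959) (nat_lit 515) (nat_lit 5) (nat_lit 532) (nat_lit 5) (nat_lit 533) (nat_lit 5) (nat_lit 322) (nat_lit 312) (nat_lit 266)) (XT.nd (nat_lit 78) (nat_lit 0) (nat_lit 0) (XT.lf (nat_lit 0) (nat_lit 3498088682) (nat_lit 1292) (nat_lit 3063151659) (nat_lit 1368) (nat_lit 1246489820) (nat_lit 516) (nat_lit 5) (nat_lit 533) (nat_lit 5) (nat_lit 534) (nat_lit 5) (nat_lit 323) (nat_lit 312) (nat_lit 265)) (XT.lf (nat_lit 76) (nat_lit 3105799314) (nat_lit 0) (nat_lit 2890311870) (nat_lit 1368) (nat_lit 1897650844) (nat_lit 517) (nat_lit 5) (nat_lit 516) (nat_lit 5) (nat_lit 534) (nat_lit 5) (nat_lit 324) (nat_lit 312) (nat_lit 264))))))))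
noncomputable def xc73 : XT := (XT.nd (nat_lit 1482) (nat_lit 9652) (nat_lit 0) (XT.nd (nat_lit 702) (nat_lit 8588) (nat_lit 0) (XT.nd (nat_lit 312) (nat_lit 6384) (nat_lit 0) (XT.nd (nat_lit 156) (nat_lit 1292) (nat_lit 0) (XT.nd (nat_lit 78) (nat_lit 0) (nat_lit 0) (XT.lf (nat_lit 0) (nat_lit 539601924) (nat_lit 1368) (nat_lit 6509081479) (nat_lit 1444) (nat_lit 934447438) (nat_lit 499) (nat_lit 5) (nat_lit 517) (nat_lit 5) (nat_lit 518) (nat_lit 5) (nat_lit 325) (nat_lit 312) (nat_lit 263)) (XT.lf (nat_lit 0) (nat_lit 3002264993) (nat_lit 1368) (nat_lit 173007896) (nat_lit 1444) (nat_lit 4900138302) (nat_lit 499) (nat_lit 5) (nat_lit 517) (nat_lit 5) (nat_lit 518) (nat_lit 5) (nat_lit 326) (nat_lit 312) (nat_lit 262))) (XT.nd (nat_lit 78) (nat_lit 1368) (nat_lit 0) (XT.lf (nat_lit 0) (nat_lit 5514022696) (nat_lit 1368) (nat_lit 1794008779) (nat_lit 76) (nat_lit 862965765) (nat_lit 500) (nat_lit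 5) (nat_lit 518) (nat_lit 5) (nat_lit 501) (nat_lit 5) (nat_lit 327) (nat_lit 312) (nat_lit 261)) (XT.lf (nat_lit 0) (nat_lit 4843956651) (nat_lit 1368) (nat_lit 3240996265) (nat_lit 1444) (nat_lit 184861930) (nat_lit 482) (nat_lit 5) (nat_lit 500) (nat_lit 5) (nat_lit 501) (nat_lit 5) (nat_lit 328) (nat_lit 312) (nat_lit 260)))) (XT.nd (nat_lit 156) (nat_lit 3344) (nat_lit 0) (XT.nd (nat_lit 78) (nat_lit 1520) (nat_lit 0) (XT.lf (nat_lit 0) (nat_lit 2301880140) (nat_lit 1520) (nat_lit 5071194877) (nat_lit 76) (nat_lit 998825024) (nat_lit 462) (nat_lit 5) (nat_lit 482) (nat_lit 5) (nat_lit 463) (nat_lit 5) (nat_lit 329) (nat_lit 312) (nat_lit 259)) (XT.lf (nat_lit 0) (nat_lit 1743782921) (nat_lit 1520) (nat_lit 3106203749) (nat_lit 1596) (nat_lit 3627288515) (nat_lit 442) (nat_lit 5) (nat_lit 462) (nat_lit 5) (nat_lit 463) (nat_lit 5) (nat_lit 330) (nat_lit 312) (nat_lit 258))) (XT.nd (nat_lit 78)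 (nat_lit 1748) (nat_lit 0) (XT.lf (nat_lit 0) (nat_lit 185420669) (nat_lit 1596) (nat_lit 7267845444) (nat_lit 1672) (nat_lit 1133007098) (nat_lit 421) (nat_lit 5) (nat_lit 442) (nat_lit 5) (nat_lit 443) (nat_lit 5) (nat_lit 331) (nat_lit 312) (nat_lit 257)) (XT.nd (nat_lit 78) (nat_lit 1672) (nat_lit 0) (XT.lf (nat_lit 0) (nat_lit 1419629206) (nat_lit 1672) (nat_lit 1379857450) (nat_lit 76) (nat_lit 5898855292) (nat_lit 420) (nat_lit 5) (nat_lit 442) (nat_lit 5) (nat_lit 421) (nat_lit 5) (nat_lit 332) (nat_lit 312) (nat_lit 256)) (XT.lf (nat_lit 0) (nat_lit 4021224435) (nat_lit 1748) (nat_lit 2959339994) (nat_lit 76) (nat_lit 1833336547) (nat_lit 398) (nat_lit 5) (nat_lit 421) (nat_lit 5) (nat_lit 399) (nat_lit 5) (nat_lit 333) (nat_lit 312) (nat_lit 255)))))) (XT.nd (nat_lit 390) (nat_lit 4028) (nat_lit 0) (XT.nd (nat_lit 156) (nat_lit 1748) (nat_lit 0) (XT.nd (nat_lit 78) (nat_lit 1064) (nat_lit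 0) (XT.lf (nat_lit 0) (nat_lit 4376076426) (nat_lit 1748) (nat_lit 2320391552) (nat_lit 1824) (nat_lit 2236579287) (nat_lit 375) (nat_lit 5) (nat_lit 398) (nat_lit 5) (nat_lit 399) (nat_lit 5) (nat_lit 334) (nat_lit 312) (nat_lit 254)) (XT.lf (nat_lit 0) (nat_lit 386466184) (nat_lit 1064) (nat_lit 6175218162) (nat_lit 76) (nat_lit 2494153848) (nat_lit 361) (nat_lit 5) (nat_lit 375) (nat_lit 5) (nat_lit 362) (nat_lit 5) (nat_lit 335) (nat_lit 312) (nat_lit 253))) (XT.nd (nat_lit 78) (nat_lit 836) (nat_lit 0) (XT.lf (nat_lit 0) (nat_lit 1354121243) (nat_lit 912) (nat_lit 1700744991) (nat_lit 988) (nat_lit 6127239984) (nat_lit 349) (nat_lit 5) (nat_lit 361) (nat_lit 5) (nat_lit 362) (nat_lit 5) (nat_lit 336) (nat_lit 312) (nat_lit 252)) (XT.nd (nat_lit 78) (nat_lit 836) (nat_lit 0) (XT.lf (nat_lit 0) (nat_lit 5809761742) (nat_lit 988) (nat_lit 194478852) (nat_lit 76) (nat_lit 3307821975) (nat_lit 349)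 (nat_lit 5) (nat_lit 362) (nat_lit 5) (nat_lit 350) (nat_lit 5) (nat_lit 337) (nat_lit 312) (nat_lit 251)) (XT.lf (nat_lit 0) (nat_lit 7704028976) (nat_lit 836) (nat_lit 949189038) (nat_lit 912) (nat_lit 792609625) (nat_lit 338) (nat_lit 5) (nat_lit 349) (nat_lit 5) (nat_lit 350) (nat_lit 5) (nat_lit 338) (nat_lit 312) (nat_lit 250))))) (XT.nd (nat_lit 156) (nat_lit 2356) (nat_lit 0) (XT.nd (nat_lit 78) (nat_lit 760) (nat_lit 0) (XT.lf (nat_lit 0) (nat_lit 1987648434) (nat_lit 912) (nat_lit 3337308578) (nat_lit 76) (nat_lit 4258106397) (nat_lit 326) (nat_lit 5) (nat_lit 338) (nat_lit 5) (nat_lit 327) (nat_lit 5) (nat_lit 339) (nat_lit 312) (nat_lit 249)) (XT.lf (nat_lit 0) (nat_lit 4769645334) (nat_lit 760) (nat_lit 66818230) (nat_lit 836) (nat_lit 4887955708) (nat_lit 316) (nat_lit 5) (nat_lit 326) (nat_lit 5) (nat_lit 327) (nat_lit 5) (nat_lit 340) (nat_lit 312) (nat_lit 248))) (XT.nd (nat_lit 78)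 (nat_lit 1596) (nat_lit 0) (XT.lf (nat_lit 0) (nat_lit 3249696599) (nat_lit 760) (nat_lit 4547504784) (nat_lit 836) (nat_lit 2072310661) (nat_lit 306) (nat_lit 5) (nat_lit 316) (nat_lit 5) (nat_lit 317) (nat_lit 5) (nat_lit 341) (nat_lit 312) (nat_lit 247)) (XT.nd (nat_lit 78) (nat_lit 760) (nat_lit 0) (XT.lf (nat_lit 0) (nat_lit 816839420) (nat_lit 836) (nat_lit 8312395146) (nat_lit 76) (nat_lit 889641863) (nat_lit 295) (nat_lit 5) (nat_lit 306) (nat_lit 5) (nat_lit 296) (nat_lit 5) (nat_lit 342) (nat_lit 312) (nat_lit 246)) (XT.lf (nat_lit 0) (nat_lit 104218484) (nat_lit 760) (nat_lit 3686504503) (nat_lit 836) (nat_lit 6381224000) (nat_lit 285) (nat_lit 5) (nat_lit 295) (nat_lit 5) (nat_lit 296) (nat_lit 5) (nat_lit 343) (nat_lit 312) (nat_lit 245))))))) (XT.nd (nat_lit 780) (nat_lit 4256) (nat_lit 0) (XT.nd (nat_lit 390) (nat_lit 2584) (nat_lit 0) (XT.nd (nat_lit 156) (nat_lit 2128) (nat_lit 0)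 (XT.nd (nat_lit 78) (nat_lit 684) (nat_lit 0) (XT.lf (nat_lit 0) (nat_lit 6873887847) (nat_lit 836) (nat_lit 1508247279) (nat_lit 76) (nat_lit 1947096026) (nat_lit 285) (nat_lit 5) (nat_lit 296) (nat_lit 5) (nat_lit 286) (nat_lit 5) (nat_lit 344) (nat_lit 312) (nat_lit 244)) (XT.lf (nat_lit 0) (nat_lit 7326993599) (nat_lit 684) (nat_lit 2747110721) (nat_lit 760) (nat_lit 416660512) (nat_lit 276) (nat_lit 5) (nat_lit 285) (nat_lit 5) (nat_lit 286) (nat_lit 5) (nat_lit 345) (nat_lit 312) (nat_lit 243))) (XT.nd (nat_lit 78) (nat_lit 1368) (nat_lit 0) (XT.lf (nat_lit 0) (nat_lit 2698827871) (nat_lit 760) (nat_lit 4879958043) (nat_lit 76) (nat_lit 3077602770) (nat_lit 266) (nat_lit 5) (nat_lit 276) (nat_lit 5) (nat_lit 267) (nat_lit 5) (nat_lit 346) (nat_lit 312) (nat_lit 242)) (XT.nd (nat_lit 78) (nat_lit 684) (nat_lit 0) (XT.lf (nat_lit 0) (nat_lit 4182836268) (nat_lit 684) (nat_lit 1740478569) (nat_lit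 760) (nat_lit 4903207881) (nat_lit 257) (nat_lit 5) (nat_lit 266) (nat_lit 5) (nat_lit 267) (nat_lit 5) (nat_lit 347) (nat_lit 312) (nat_lit 241)) (XT.lf (nat_lit 0) (nat_lit 2536170196) (nat_lit 684) (nat_lit 6740877472) (nat_lit 760) (nat_lit 1724082729) (nat_lit 248) (nat_lit 5) (nat_lit 257) (nat_lit 5) (nat_lit 258) (nat_lit 5) (nat_lit 348) (nat_lit 312) (nat_lit 240))))) (XT.nd (nat_lit 156) (nat_lit 1900) (nat_lit 0) (XT.nd (nat_lit 78) (nat_lit 0) (nat_lit 0) (XT.lf (nat_lit 0) (nat_lit 839187280) (nat_lit 608) (nat_lit 708980753) (nat_lit 684) (nat_lit 9632264123) (nat_lit 239) (nat_lit 5) (nat_lit 247) (nat_lit 5) (nat_lit 248) (nat_lit 5) (nat_lit 349) (nat_lit 312) (nat_lit 239)) (XT.lf (nat_lit 0) (nat_lit 4945359126) (nat_lit 684) (nat_lit 925371703) (nat_lit 76) (nat_lit 5493168631) (nat_lit 239) (nat_lit 5) (nat_lit 248) (nat_lit 5) (nat_lit 240) (nat_lit 5) (nat_lit 350) (nat_lit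 312) (nat_lit 238))) (XT.nd (nat_lit 78) (nat_lit 1292) (nat_lit 0) (XT.lf (nat_lit 0) (nat_lit 8466808096) (nat_lit 684) (nat_lit 2721369884) (nat_lit 76) (nat_lit 364263767) (nat_lit 231) (nat_lit 5) (nat_lit 240) (nat_lit 5) (nat_lit 232) (nat_lit 5) (nat_lit 351) (nat_lit 312) (nat_lit 237)) (XT.nd (nat_lit 78) (nat_lit 608) (nat_lit 0) (XT.lf (nat_lit 0) (nat_lit 393722032) (nat_lit 684) (nat_lit 4597937444) (nat_lit 76) (nat_lit 6753932362) (nat_lit 222) (nat_lit 5) (nat_lit 231) (nat_lit 5) (nat_lit 223) (nat_lit 5) (nat_lit 352) (nat_lit 312) (nat_lit 236)) (XT.lf (nat_lit 0) (nat_lit 3958192145) (nat_lit 684) (nat_lit 6547645910) (nat_lit 76) (nat_lit 1437853803) (nat_lit 214) (nat_lit 5) (nat_lit 223) (nat_lit 5) (nat_lit 215) (nat_lit 5) (nat_lit 353) (nat_lit 312) (nat_lit 235)))))) (XT.nd (nat_lit 390) (nat_lit 2052) (nat_lit 0) (XT.nd (nat_lit 156) (nat_lit 1140) (nat_lit 0) (XT.nd (nat_lit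 78) (nat_lit 532) (nat_lit 0) (XT.lf (nat_lit 0) (nat_lit 3568678731) (nat_lit 532) (nat_lit 4108931189) (nat_lit 608) (nat_lit 4469180665) (nat_lit 207) (nat_lit 5) (nat_lit 214) (nat_lit 5) (nat_lit 215) (nat_lit 5) (nat_lit 354) (nat_lit 312) (nat_lit 234)) (XT.lf (nat_lit 0) (nat_lit 1678515858) (nat_lit 532) (nat_lit 9862629026) (nat_lit 608) (nat_lit 814202208) (nat_lit 200) (nat_lit 5) (nat_lit 207) (nat_lit 5) (nat_lit 208) (nat_lit 5) (nat_lit 355) (nat_lit 312) (nat_lit 233))) (XT.nd (nat_lit 78) (nat_lit 1064) (nat_lit 0) (XT.lf (nat_lit 0) (nat_lit 2959145148) (nat_lit 608) (nat_lit 305597003) (nat_lit 76) (nat_lit 9304101489) (nat_lit 199) (nat_lit 5) (nat_lit 207) (nat_lit 5) (nat_lit 200) (nat_lit 5) (nat_lit 356) (nat_lit 312) (nat_lit 232)) (XT.nd (nat_lit 78) (nat_lit 532) (nat_lit 0) (XT.lf (nat_lit 0) (nat_lit 6888496479) (nat_lit 608) (nat_lit 2351255691) (nat_lit 76) (nat_lit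 3547822303) (nat_lit 192) (nat_lit 5) (nat_lit 200) (nat_lit 5) (nat_lit 193) (nat_lit 5) (nat_lit 357) (nat_lit 312) (nat_lit 231)) (XT.lf (nat_lit 0) (nat_lit 8533642533) (nat_lit 532) (nat_lit 2444667288) (nat_lit 608) (nat_lit 2033719700) (nat_lit 185) (nat_lit 5) (nat_lit 192) (nat_lit 5) (nat_lit 193) (nat_lit 5) (nat_lit 358) (nat_lit 312) (nat_lit 230))))) (XT.nd (nat_lit 156) (nat_lit 988) (nat_lit 0) (XT.nd (nat_lit 78) (nat_lit 532) (nat_lit 0) (XT.lf (nat_lit 0) (nat_lit 1974417505) (nat_lit 532) (nat_lit 6712834593) (nat_lit 76) (nat_lit 4554679241) (nat_lit 178) (nat_lit 5) (nat_lit 185) (nat_lit 5) (nat_lit 179) (nat_lit 5) (nat_lit 359) (nat_lit 312) (nat_lit 229)) (XT.lf (nat_lit 0) (nat_lit 4430074157) (nat_lit 532) (nat_lit 1685352220) (nat_lit 608) (nat_lit 7362242680) (nat_lit 171) (nat_lit 5) (nat_lit 178) (nat_lit 5) (nat_lit 179) (nat_lit 5) (nat_lit 360) (nat_lit 312) (nat_lit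 228))) (XT.nd (nat_lit 78) (nat_lit 532) (nat_lit 0) (XT.lf (nat_lit 0) (nat_lit 2224870554) (nat_lit 456) (nat_lit 8217003498) (nat_lit 532) (nat_lit 3277393172) (nat_lit 165) (nat_lit 5) (nat_lit 171) (nat_lit 5) (nat_lit 172) (nat_lit 5) (nat_lit 361) (nat_lit 312) (nat_lit 227)) (XT.nd (nat_lit 78) (nat_lit 456) (nat_lit 0) (XT.lf (nat_lit 0) (nat_lit 956355613) (nat_lit 532) (nat_lit 72655363) (nat_lit 76) (nat_lit 12938222461) (nat_lit 164) (nat_lit 5) (nat_lit 171) (nat_lit 5) (nat_lit 165) (nat_lit 5) (nat_lit 362) (nat_lit 312) (nat_lit 226)) (XT.lf (nat_lit 0) (nat_lit 5357841977) (nat_lit 532) (nat_lit 2485041577) (nat_lit 76) (nat_lit 6377628311) (nat_lit 158) (nat_lit 5) (nat_lit 165) (nat_lit 5) (nat_lit 159) (nat_lit 5) (nat_lit 363) (nat_lit 312) (nat_lit 225))))))))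
noncomputable def xc74 : XT := (XT.nd (nat_lit 1482) (nat_lit 0) (nat_lit 0) (XT.nd (nat_lit 702) (nat_lit 2660) (nat_lit 0) (XT.nd (nat_lit 312) (nat_lit 1672) (nat_lit 0) (XT.nd (nat_lit 156) (nat_lit 912) (nat_lit 0) (XT.nd (nat_lit 78) (nat_lit 456) (nat_lit 0) (XT.lf (nat_lit 0) (nat_lit 9489157182) (nat_lit 456) (nat_lit 438368940) (nat_lit 532) (nat_lit 4553150663) (nat_lit 152) (nat_lit 5) (nat_lit 158) (nat_lit 5) (nat_lit 159) (nat_lit 5) (nat_lit 364) (nat_lit 312) (nat_lit 224)) (XT.lf (nat_lit 0) (nat_lit 7109049921) (nat_lit 456) (nat_lit 7602775089) (nat_lit 532) (nat_lit 35282034) (nat_lit 146) (nat_lit 5) (nat_lit 152) (nat_lit 5) (nat_lit 153) (nat_lit 5) (nat_lit 365) (nat_lit 312) (nat_lit 223))) (XT.nd (nat_lit 78) (nat_lit 456) (nat_lit 0) (XT.lf (nat_lit 0) (nat_lit 4592647774) (nat_lit 456) (nat_lit 10418361320) (nat_lit 76) (nat_lit 9229939) (nat_lit 140) (nat_lit 5) (nat_lit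 146) (nat_lit 5) (nat_lit 141) (nat_lit 5) (nat_lit 366) (nat_lit 312) (nat_lit 222)) (XT.lf (nat_lit 0) (nat_lit 1941884214) (nat_lit 456) (nat_lit 7501329545) (nat_lit 532) (nat_lit 5856671057) (nat_lit 134) (nat_lit 5) (nat_lit 140) (nat_lit 5) (nat_lit 141) (nat_lit 5) (nat_lit 367) (nat_lit 312) (nat_lit 221)))) (XT.nd (nat_lit 156) (nat_lit 1216) (nat_lit 0) (XT.nd (nat_lit 78) (nat_lit 456) (nat_lit 0) (XT.lf (nat_lit 0) (nat_lit 14481135101) (nat_lit 532) (nat_lit 817941013) (nat_lit 76) (nat_lit 288016849) (nat_lit 134) (nat_lit 5) (nat_lit 141) (nat_lit 5) (nat_lit 135) (nat_lit 5) (nat_lit 368) (nat_lit 312) (nat_lit 220)) (XT.lf (nat_lit 0) (nat_lit 3837546883) (nat_lit 456) (nat_lit 3742182534) (nat_lit 76) (nat_lit 8300706618) (nat_lit 128) (nat_lit 5) (nat_lit 134) (nat_lit 5) (nat_lit 129) (nat_lit 5) (nat_lit 369) (nat_lit 312) (nat_lit 219))) (XT.nd (nat_lit 78) (nat_lit 836) (nat_lit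 0) (XT.lf (nat_lit 0) (nat_lit 8954272024) (nat_lit 456) (nat_lit 6800380659) (nat_lit 76) (nat_lit 426990706) (nat_lit 123) (nat_lit 5) (nat_lit 129) (nat_lit 5) (nat_lit 124) (nat_lit 5) (nat_lit 370) (nat_lit 312) (nat_lit 218)) (XT.nd (nat_lit 78) (nat_lit 456) (nat_lit 0) (XT.lf (nat_lit 0) (nat_lit 6448807212) (nat_lit 380) (nat_lit 7864807065) (nat_lit 456) (nat_lit 2176499138) (nat_lit 118) (nat_lit 5) (nat_lit 123) (nat_lit 5) (nat_lit 124) (nat_lit 5) (nat_lit 371) (nat_lit 312) (nat_lit 217)) (XT.lf (nat_lit 0) (nat_lit 3028025684) (nat_lit 456) (nat_lit 13445911750) (nat_lit 76) (nat_lit 332679284) (nat_lit 112) (nat_lit 5) (nat_lit 118) (nat_lit 5) (nat_lit 113) (nat_lit 5) (nat_lit 372) (nat_lit 312) (nat_lit 216)))))) (XT.nd (nat_lit 390) (nat_lit 1292) (nat_lit 0) (XT.nd (nat_lit 156) (nat_lit 1064) (nat_lit 0) (XT.nd (nat_lit 78) (nat_lit 0) (nat_lit 0) (XT.lf (nat_lit 0) (nat_lit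 61536817) (nat_lit 304) (nat_lit 8391105934) (nat_lit 380) (nat_lit 8677822195) (nat_lit 108) (nat_lit 5) (nat_lit 112) (nat_lit 5) (nat_lit 113) (nat_lit 5) (nat_lit 373) (nat_lit 312) (nat_lit 215)) (XT.lf (nat_lit 0) (nat_lit 14103611437) (nat_lit 380) (nat_lit 3346536686) (nat_lit 76) (nat_lit 12616091) (nat_lit 108) (nat_lit 5) (nat_lit 113) (nat_lit 5) (nat_lit 109) (nat_lit 5) (nat_lit 374) (nat_lit 312) (nat_lit 214))) (XT.nd (nat_lit 78) (nat_lit 608) (nat_lit 0) (XT.lf (nat_lit 0) (nat_lit 2191511323) (nat_lit 456) (nat_lit 6985164758) (nat_lit 76) (nat_lit 8626084154) (nat_lit 102) (nat_lit 5) (nat_lit 108) (nat_lit 5) (nat_lit 103) (nat_lit 5) (nat_lit 375) (nat_lit 312) (nat_lit 213)) (XT.nd (nat_lit 78) (nat_lit 304) (nat_lit 0) (XT.lf (nat_lit 0) (nat_lit 7332642352) (nat_lit 304) (nat_lit 574578217) (nat_lit 380) (nat_lit 10244415487) (nat_lit 98) (nat_lit 5) (nat_lit 102) (nat_lit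 5) (nat_lit 103) (nat_lit 5) (nat_lit 376) (nat_lit 312) (nat_lit 212)) (XT.lf (nat_lit 0) (nat_lit 3618270026) (nat_lit 304) (nat_lit 10274952631) (nat_lit 380) (nat_lit 4615786112) (nat_lit 94) (nat_lit 5) (nat_lit 98) (nat_lit 5) (nat_lit 99) (nat_lit 5) (nat_lit 377) (nat_lit 312) (nat_lit 211))))) (XT.nd (nat_lit 156) (nat_lit 912) (nat_lit 0) (XT.nd (nat_lit 78) (nat_lit 304) (nat_lit 0) (XT.lf (nat_lit 0) (nat_lit 1218056126) (nat_lit 380) (nat_lit 291224579) (nat_lit 76) (nat_lit 17366638173) (nat_lit 93) (nat_lit 5) (nat_lit 98) (nat_lit 5) (nat_lit 94) (nat_lit 5) (nat_lit 378) (nat_lit 312) (nat_lit 210)) (XT.lf (nat_lit 0) (nat_lit 7285650258) (nat_lit 380) (nat_lit 4430077999) (nat_lit 76) (nat_lit 7535075400) (nat_lit 89) (nat_lit 5) (nat_lit 94) (nat_lit 5) (nat_lit 90) (nat_lit 5) (nat_lit 379) (nat_lit 312) (nat_lit 209))) (XT.nd (nat_lit 78) (nat_lit 608) (nat_lit 0) (XT.lf (nat_lit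 0) (nat_lit 10846342229) (nat_lit 304) (nat_lit 2746782295) (nat_lit 380) (nat_lit 6042659732) (nat_lit 85) (nat_lit 5) (nat_lit 89) (nat_lit 5) (nat_lit 90) (nat_lit 5) (nat_lit 380) (nat_lit 312) (nat_lit 208)) (XT.nd (nat_lit 78) (nat_lit 304) (nat_lit 0) (XT.lf (nat_lit 0) (nat_lit 148397327) (nat_lit 304) (nat_lit 13415767925) (nat_lit 76) (nat_lit 6466314715) (nat_lit 81) (nat_lit 5) (nat_lit 85) (nat_lit 5) (nat_lit 82) (nat_lit 5) (nat_lit 381) (nat_lit 312) (nat_lit 207)) (XT.lf (nat_lit 0) (nat_lit 2095393168) (nat_lit 304) (nat_lit 4416117716) (nat_lit 380) (nat_lit 13923344253) (nat_lit 77) (nat_lit 5) (nat_lit 81) (nat_lit 5) (nat_lit 82) (nat_lit 5) (nat_lit 382) (nat_lit 312) (nat_lit 206))))))) (XT.nd (nat_lit 42120) (nat_lit 0) (nat_lit 27740) (XT.nd (nat_lit 41730) (nat_lit 0) (nat_lit 33212) (XT.nd (nat_lit 41496) (nat_lit 0) (nat_lit 35568) (XT.nd (nat_lit 41418) (nat_lit 0) (nat_lit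 36632) (XT.lf (nat_lit 0) (nat_lit 13165919416) (nat_lit 380) (nat_lit 2665276234) (nat_lit 76) (nat_lit 5018163553) (nat_lit 77) (nat_lit 5) (nat_lit 82) (nat_lit 5) (nat_lit 78) (nat_lit 5) (nat_lit 383) (nat_lit 312) (nat_lit 205)) (XT.lf (nat_lit 0) (nat_lit 1651388854) (nat_lit 1140) (nat_lit 966598173) (nat_lit 1140) (nat_lit 966598173) (nat_lit 559) (nat_lit 3) (nat_lit 574) (nat_lit 3) (nat_lit 574) (nat_lit 5) (nat_lit 313) (nat_lit 313) (nat_lit 274))) (XT.nd (nat_lit 78) (nat_lit 1064) (nat_lit 0) (XT.lf (nat_lit 76) (nat_lit 3195627209) (nat_lit 0) (nat_lit 2591715322) (nat_lit 1140) (nat_lit 1439068516) (nat_lit 560) (nat_lit 5) (nat_lit 559) (nat_lit 3) (nat_lit 574) (nat_lit 5) (nat_lit 314) (nat_lit 313) (nat_lit 273)) (XT.nd (nat_lit 78) (nat_lit 0) (nat_lit 0) (XT.lf (nat_lit 0) (nat_lit 974101666) (nat_lit 1140) (nat_lit 6110017905) (nat_lit 1216) (nat_lit 202633792) (nat_lit 545)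 (nat_lit 5) (nat_lit 560) (nat_lit 5) (nat_lit 561) (nat_lit 5) (nat_lit 315) (nat_lit 313) (nat_lit 272)) (XT.lf (nat_lit 0) (nat_lit 3392564029) (nat_lit 1140) (nat_lit 831277445) (nat_lit 1216) (nat_lit 3125884566) (nat_lit 545) (nat_lit 5) (nat_lit 560) (nat_lit 5) (nat_lit 561) (nat_lit 5) (nat_lit 316) (nat_lit 313) (nat_lit 271))))) (XT.nd (nat_lit 156) (nat_lit 1216) (nat_lit 0) (XT.nd (nat_lit 78) (nat_lit 1140) (nat_lit 0) (XT.lf (nat_lit 76) (nat_lit 4616433115) (nat_lit 0) (nat_lit 1207324197) (nat_lit 1216) (nat_lit 1592084620) (nat_lit 546) (nat_lit 5) (nat_lit 545) (nat_lit 5) (nat_lit 561) (nat_lit 5) (nat_lit 317) (nat_lit 313) (nat_lit 270)) (XT.lf (nat_lit 0) (nat_lit 780941857) (nat_lit 1216) (nat_lit 4762824828) (nat_lit 1292) (nat_lit 1941158526) (nat_lit 530) (nat_lit 5) (nat_lit 546) (nat_lit 5) (nat_lit 547) (nat_lit 5) (nat_lit 318) (nat_lit 313) (nat_lit 269))) (XT.nd (nat_lit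 78) (nat_lit 1216) (nat_lit 0) (XT.lf (nat_lit 76) (nat_lit 832399136) (nat_lit 0) (nat_lit 2318174137) (nat_lit 1292) (nat_lit 4406409563) (nat_lit 531) (nat_lit 5) (nat_lit 530) (nat_lit 5) (nat_lit 547) (nat_lit 5) (nat_lit 319) (nat_lit 313) (nat_lit 268)) (XT.nd (nat_lit 78) (nat_lit 1292) (nat_lit 0) (XT.lf (nat_lit 0) (nat_lit 5547027292) (nat_lit 1216) (nat_lit 1029257591) (nat_lit 1292) (nat_lit 1055854291) (nat_lit 531) (nat_lit 5) (nat_lit 547) (nat_lit 5) (nat_lit 548) (nat_lit 5) (nat_lit 320) (nat_lit 313) (nat_lit 267)) (XT.lf (nat_lit 0) (nat_lit 267576831) (nat_lit 1292) (nat_lit 2878327513) (nat_lit 1368) (nat_lit 4564340055) (nat_lit 514) (nat_lit 5) (nat_lit 531) (nat_lit 5) (nat_lit 532) (nat_lit 5) (nat_lit 321) (nat_lit 313) (nat_lit 266)))))) (XT.nd (nat_lit 390) (nat_lit 4256) (nat_lit 0) (XT.nd (nat_lit 156) (nat_lit 1292) (nat_lit 0) (XT.nd (nat_lit 78) (nat_lit 0) (nat_lit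 0) (XT.lf (nat_lit 0) (nat_lit 2613192247) (nat_lit 1292) (nat_lit 4727160172) (nat_lit 1368) (nat_lit 451098956) (nat_lit 515) (nat_lit 5) (nat_lit 532) (nat_lit 5) (nat_lit 533) (nat_lit 5) (nat_lit 322) (nat_lit 313) (nat_lit 265)) (XT.lf (nat_lit 76) (nat_lit 1293361397) (nat_lit 0) (nat_lit 3707651775) (nat_lit 1368) (nat_lit 2874690994) (nat_lit 516) (nat_lit 5) (nat_lit 515) (nat_lit 5) (nat_lit 533) (nat_lit 5) (nat_lit 323) (nat_lit 313) (nat_lit 264))) (XT.nd (nat_lit 78) (nat_lit 1368) (nat_lit 0) (XT.lf (nat_lit 0) (nat_lit 7417772693) (nat_lit 1292) (nat_lit 456246685) (nat_lit 1368) (nat_lit 89364082) (nat_lit 516) (nat_lit 5) (nat_lit 533) (nat_lit 5) (nat_lit 534) (nat_lit 5) (nat_lit 324) (nat_lit 313) (nat_lit 263)) (XT.nd (nat_lit 78) (nat_lit 0) (nat_lit 0) (XT.lf (nat_lit 0) (nat_lit 1818754506) (nat_lit 1368) (nat_lit 2211917709) (nat_lit 1444) (nat_lit 4023028695) (nat_lit 498)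 (nat_lit 5) (nat_lit 516) (nat_lit 5) (nat_lit 517) (nat_lit 5) (nat_lit 325) (nat_lit 313) (nat_lit 262)) (XT.lf (nat_lit 76) (nat_lit 4187805299) (nat_lit 0) (nat_lit 17486912) (nat_lit 1444) (nat_lit 3942232041) (nat_lit 499) (nat_lit 5) (nat_lit 498) (nat_lit 5) (nat_lit 517) (nat_lit 5) (nat_lit 326) (nat_lit 313) (nat_lit 261))))) (XT.nd (nat_lit 156) (nat_lit 2964) (nat_lit 0) (XT.nd (nat_lit 78) (nat_lit 1368) (nat_lit 0) (XT.lf (nat_lit 76) (nat_lit 2519651930) (nat_lit 0) (nat_lit 4132136082) (nat_lit 1444) (nat_lit 1592647413) (nat_lit 500) (nat_lit 5) (nat_lit 499) (nat_lit 5) (nat_lit 518) (nat_lit 5) (nat_lit 327) (nat_lit 313) (nat_lit 260)) (XT.lf (nat_lit 0) (nat_lit 781156415) (nat_lit 1444) (nat_lit 7488541865) (nat_lit 76) (nat_lit 75194969) (nat_lit 481) (nat_lit 5) (nat_lit 500) (nat_lit 5) (nat_lit 482) (nat_lit 5) (nat_lit 328) (nat_lit 313) (nat_lit 259))) (XT.nd (nat_lit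 78) (nat_lit 2964) (nat_lit 0) (XT.lf (nat_lit 0) (nat_lit 3204502428) (nat_lit 1444) (nat_lit 826072181) (nat_lit 76) (nat_lit 4417617638) (nat_lit 481) (nat_lit 5) (nat_lit 500) (nat_lit 5) (nat_lit 482) (nat_lit 5) (nat_lit 329) (nat_lit 313) (nat_lit 258)) (XT.nd (nat_lit 78) (nat_lit 1520) (nat_lit 0) (XT.lf (nat_lit 0) (nat_lit 5677553593) (nat_lit 1520) (nat_lit 2493533430) (nat_lit 76) (nat_lit 383999320) (nat_lit 462) (nat_lit 5) (nat_lit 482) (nat_lit 5) (nat_lit 463) (nat_lit 5) (nat_lit 330) (nat_lit 313) (nat_lit 257)) (XT.lf (nat_lit 0) (nat_lit 4481605983) (nat_lit 1520) (nat_lit 3741624210) (nat_lit 1596) (nat_lit 442023555) (nat_lit 442) (nat_lit 5) (nat_lit 462) (nat_lit 5) (nat_lit 463) (nat_lit 5) (nat_lit 331) (nat_lit 313) (nat_lit 256))))))))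
noncomputable def xc75 : XT := (XT.nd (nat_lit 1482) (nat_lit 8436) (nat_lit 0) (XT.nd (nat_lit 702) (nat_lit 6612) (nat_lit 0) (XT.nd (nat_lit 312) (nat_lit 3648) (nat_lit 0) (XT.nd (nat_lit 156) (nat_lit 1824) (nat_lit 0) (XT.nd (nat_lit 78) (nat_lit 1672) (nat_lit 0) (XT.lf (nat_lit 0) (nat_lit 2018778688) (nat_lit 1672) (nat_lit 5890801250) (nat_lit 76) (nat_lit 869324744) (nat_lit 420) (nat_lit 5) (nat_lit 442) (nat_lit 5) (nat_lit 421) (nat_lit 5) (nat_lit 332) (nat_lit 313) (nat_lit 255)) (XT.lf (nat_lit 0) (nat_lit 1269670578) (nat_lit 1672) (nat_lit 3278917863) (nat_lit 1748) (nat_lit 4347326987) (nat_lit 398) (nat_lit 5) (nat_lit 420) (nat_lit 5) (nat_lit 421) (nat_lit 5) (nat_lit 333) (nat_lit 313) (nat_lit 254))) (XT.nd (nat_lit 78) (nat_lit 1824) (nat_lit 0) (XT.lf (nat_lit 0) (nat_lit 7144982654) (nat_lit 1748) (nat_lit 353090269) (nat_lit 76) (nat_lit 1518581322) (nat_lit 398) (nat_lit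 5) (nat_lit 421) (nat_lit 5) (nat_lit 399) (nat_lit 5) (nat_lit 334) (nat_lit 313) (nat_lit 253)) (XT.lf (nat_lit 0) (nat_lit 680359687) (nat_lit 1824) (nat_lit 1986637739) (nat_lit 76) (nat_lit 6473739726) (nat_lit 374) (nat_lit 5) (nat_lit 398) (nat_lit 5) (nat_lit 375) (nat_lit 5) (nat_lit 335) (nat_lit 313) (nat_lit 252)))) (XT.nd (nat_lit 156) (nat_lit 1748) (nat_lit 0) (XT.nd (nat_lit 78) (nat_lit 912) (nat_lit 0) (XT.lf (nat_lit 0) (nat_lit 3281508930) (nat_lit 1064) (nat_lit 3651349852) (nat_lit 76) (nat_lit 2335505772) (nat_lit 361) (nat_lit 5) (nat_lit 375) (nat_lit 5) (nat_lit 362) (nat_lit 5) (nat_lit 336) (nat_lit 313) (nat_lit 251)) (XT.lf (nat_lit 0) (nat_lit 4059917404) (nat_lit 912) (nat_lit 1903363701) (nat_lit 988) (nat_lit 3436516212) (nat_lit 349) (nat_lit 5) (nat_lit 361) (nat_lit 5) (nat_lit 362) (nat_lit 5) (nat_lit 337) (nat_lit 313) (nat_lit 250))) (XT.nd (nat_lit 78) (nat_lit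 912) (nat_lit 0) (XT.lf (nat_lit 0) (nat_lit 2476761090) (nat_lit 836) (nat_lit 6257145754) (nat_lit 912) (nat_lit 801125691) (nat_lit 338) (nat_lit 5) (nat_lit 349) (nat_lit 5) (nat_lit 350) (nat_lit 5) (nat_lit 338) (nat_lit 313) (nat_lit 249)) (XT.nd (nat_lit 78) (nat_lit 0) (nat_lit 0) (XT.lf (nat_lit 0) (nat_lit 861307121) (nat_lit 836) (nat_lit 1028668624) (nat_lit 912) (nat_lit 7784091919) (nat_lit 326) (nat_lit 5) (nat_lit 337) (nat_lit 5) (nat_lit 338) (nat_lit 5) (nat_lit 339) (nat_lit 313) (nat_lit 248)) (XT.lf (nat_lit 0) (nat_lit 4675633788) (nat_lit 912) (nat_lit 787403487) (nat_lit 76) (nat_lit 4353661905) (nat_lit 326) (nat_lit 5) (nat_lit 338) (nat_lit 5) (nat_lit 327) (nat_lit 5) (nat_lit 340) (nat_lit 313) (nat_lit 247)))))) (XT.nd (nat_lit 390) (nat_lit 2812) (nat_lit 0) (XT.nd (nat_lit 156) (nat_lit 2204) (nat_lit 0) (XT.nd (nat_lit 78) (nat_lit 836) (nat_lit 0) (XT.lf (nat_lit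 0) (nat_lit 7519765546) (nat_lit 760) (nat_lit 30520344) (nat_lit 836) (nat_lit 2413239922) (nat_lit 316) (nat_lit 5) (nat_lit 326) (nat_lit 5) (nat_lit 327) (nat_lit 5) (nat_lit 341) (nat_lit 313) (nat_lit 246)) (XT.lf (nat_lit 0) (nat_lit 422482290) (nat_lit 836) (nat_lit 4153489131) (nat_lit 76) (nat_lit 5538132594) (nat_lit 305) (nat_lit 5) (nat_lit 316) (nat_lit 5) (nat_lit 306) (nat_lit 5) (nat_lit 342) (nat_lit 313) (nat_lit 245))) (XT.nd (nat_lit 78) (nat_lit 1444) (nat_lit 0) (XT.lf (nat_lit 0) (nat_lit 3314468489) (nat_lit 836) (nat_lit 5903995446) (nat_lit 76) (nat_lit 1050359810) (nat_lit 295) (nat_lit 5) (nat_lit 306) (nat_lit 5) (nat_lit 296) (nat_lit 5) (nat_lit 343) (nat_lit 313) (nat_lit 244)) (XT.nd (nat_lit 78) (nat_lit 684) (nat_lit 0) (XT.lf (nat_lit 0) (nat_lit 2721997407) (nat_lit 760) (nat_lit 3600514479) (nat_lit 836) (nat_lit 4105109352) (nat_lit 285) (nat_lit 5) (nat_lit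 295) (nat_lit 5) (nat_lit 296) (nat_lit 5) (nat_lit 344) (nat_lit 313) (nat_lit 243)) (XT.lf (nat_lit 0) (nat_lit 1045518599) (nat_lit 684) (nat_lit 8390251336) (nat_lit 760) (nat_lit 1155134731) (nat_lit 276) (nat_lit 5) (nat_lit 285) (nat_lit 5) (nat_lit 286) (nat_lit 5) (nat_lit 345) (nat_lit 313) (nat_lit 242))))) (XT.nd (nat_lit 156) (nat_lit 2052) (nat_lit 0) (XT.nd (nat_lit 78) (nat_lit 684) (nat_lit 0) (XT.lf (nat_lit 0) (nat_lit 1889700949) (nat_lit 760) (nat_lit 680761028) (nat_lit 76) (nat_lit 8187779264) (nat_lit 275) (nat_lit 5) (nat_lit 285) (nat_lit 5) (nat_lit 276) (nat_lit 5) (nat_lit 346) (nat_lit 313) (nat_lit 241)) (XT.lf (nat_lit 0) (nat_lit 5043857858) (nat_lit 760) (nat_lit 2448504736) (nat_lit 76) (nat_lit 3437429060) (nat_lit 266) (nat_lit 5) (nat_lit 276) (nat_lit 5) (nat_lit 267) (nat_lit 5) (nat_lit 347) (nat_lit 313) (nat_lit 240))) (XT.nd (nat_lit 78) (nat_lit 1368) (nat_lit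 0) (XT.lf (nat_lit 0) (nat_lit 6844350817) (nat_lit 684) (nat_lit 1471250556) (nat_lit 760) (nat_lit 2790447239) (nat_lit 257) (nat_lit 5) (nat_lit 266) (nat_lit 5) (nat_lit 267) (nat_lit 5) (nat_lit 348) (nat_lit 313) (nat_lit 239)) (XT.nd (nat_lit 78) (nat_lit 608) (nat_lit 0) (XT.lf (nat_lit 0) (nat_lit 431368447) (nat_lit 760) (nat_lit 6140058120) (nat_lit 76) (nat_lit 4715359723) (nat_lit 247) (nat_lit 5) (nat_lit 257) (nat_lit 5) (nat_lit 248) (nat_lit 5) (nat_lit 349) (nat_lit 313) (nat_lit 238)) (XT.lf (nat_lit 0) (nat_lit 3390032345) (nat_lit 608) (nat_lit 341254443) (nat_lit 684) (nat_lit 7740921033) (nat_lit 239) (nat_lit 5) (nat_lit 247) (nat_lit 5) (nat_lit 248) (nat_lit 5) (nat_lit 350) (nat_lit 313) (nat_lit 237))))))) (XT.nd (nat_lit 780) (nat_lit 3800) (nat_lit 0) (XT.nd (nat_lit 390) (nat_lit 2204) (nat_lit 0) (XT.nd (nat_lit 156) (nat_lit 1824) (nat_lit 0) (XT.nd (nat_lit 78) (nat_lit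 0) (nat_lit 0) (XT.lf (nat_lit 0) (nat_lit 1559338665) (nat_lit 608) (nat_lit 5621398051) (nat_lit 684) (nat_lit 4481461891) (nat_lit 231) (nat_lit 5) (nat_lit 239) (nat_lit 5) (nat_lit 240) (nat_lit 5) (nat_lit 351) (nat_lit 313) (nat_lit 236)) (XT.lf (nat_lit 0) (nat_lit 10755852425) (nat_lit 684) (nat_lit 312644436) (nat_lit 76) (nat_lit 788965395) (nat_lit 231) (nat_lit 5) (nat_lit 240) (nat_lit 5) (nat_lit 232) (nat_lit 5) (nat_lit 352) (nat_lit 313) (nat_lit 235))) (XT.nd (nat_lit 78) (nat_lit 1140) (nat_lit 0) (XT.lf (nat_lit 0) (nat_lit 2411213727) (nat_lit 684) (nat_lit 2258446918) (nat_lit 76) (nat_lit 7387374436) (nat_lit 222) (nat_lit 5) (nat_lit 231) (nat_lit 5) (nat_lit 223) (nat_lit 5) (nat_lit 353) (nat_lit 313) (nat_lit 234)) (XT.nd (nat_lit 78) (nat_lit 532) (nat_lit 0) (XT.lf (nat_lit 0) (nat_lit 6043102717) (nat_lit 684) (nat_lit 4269869447) (nat_lit 76) (nat_lit 1948919863) (nat_lit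 214) (nat_lit 5) (nat_lit 223) (nat_lit 5) (nat_lit 215) (nat_lit 5) (nat_lit 354) (nat_lit 313) (nat_lit 233)) (XT.lf (nat_lit 0) (nat_lit 6109803883) (nat_lit 532) (nat_lit 3722835769) (nat_lit 608) (nat_lit 2639296261) (nat_lit 207) (nat_lit 5) (nat_lit 214) (nat_lit 5) (nat_lit 215) (nat_lit 5) (nat_lit 355) (nat_lit 313) (nat_lit 232))))) (XT.nd (nat_lit 156) (nat_lit 1064) (nat_lit 0) (XT.nd (nat_lit 78) (nat_lit 532) (nat_lit 0) (XT.lf (nat_lit 0) (nat_lit 1073233481) (nat_lit 608) (nat_lit 8535759247) (nat_lit 76) (nat_lit 3078378870) (nat_lit 199) (nat_lit 5) (nat_lit 207) (nat_lit 5) (nat_lit 200) (nat_lit 5) (nat_lit 356) (nat_lit 313) (nat_lit 231)) (XT.lf (nat_lit 0) (nat_lit 2097139441) (nat_lit 532) (nat_lit 2809894136) (nat_lit 608) (nat_lit 8000986735) (nat_lit 192) (nat_lit 5) (nat_lit 199) (nat_lit 5) (nat_lit 200) (nat_lit 5) (nat_lit 357) (nat_lit 313) (nat_lit 230))) (XT.nd (nat_lit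 78) (nat_lit 1064) (nat_lit 0) (XT.lf (nat_lit 0) (nat_lit 8905624860) (nat_lit 608) (nat_lit 42749989) (nat_lit 76) (nat_lit 4185931606) (nat_lit 192) (nat_lit 5) (nat_lit 200) (nat_lit 5) (nat_lit 193) (nat_lit 5) (nat_lit 358) (nat_lit 313) (nat_lit 229)) (XT.nd (nat_lit 78) (nat_lit 532) (nat_lit 0) (XT.lf (nat_lit 0) (nat_lit 11130098030) (nat_lit 532) (nat_lit 1950498064) (nat_lit 608) (nat_lit 285669764) (nat_lit 185) (nat_lit 5) (nat_lit 192) (nat_lit 5) (nat_lit 193) (nat_lit 5) (nat_lit 359) (nat_lit 313) (nat_lit 228)) (XT.lf (nat_lit 0) (nat_lit 3785843122) (nat_lit 532) (nat_lit 4555911301) (nat_lit 76) (nat_lit 5261757252) (nat_lit 178) (nat_lit 5) (nat_lit 185) (nat_lit 5) (nat_lit 179) (nat_lit 5) (nat_lit 360) (nat_lit 313) (nat_lit 227)))))) (XT.nd (nat_lit 390) (nat_lit 1824) (nat_lit 0) (XT.nd (nat_lit 156) (nat_lit 988) (nat_lit 0) (XT.nd (nat_lit 78) (nat_lit 456) (nat_lit 0)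 (XT.lf (nat_lit 0) (nat_lit 6883023960) (nat_lit 532) (nat_lit 1132086838) (nat_lit 608) (nat_lit 5831948615) (nat_lit 171) (nat_lit 5) (nat_lit 178) (nat_lit 5) (nat_lit 179) (nat_lit 5) (nat_lit 361) (nat_lit 313) (nat_lit 226)) (XT.lf (nat_lit 0) (nat_lit 4604540259) (nat_lit 456) (nat_lit 7835647891) (nat_lit 532) (nat_lit 1656358570) (nat_lit 165) (nat_lit 5) (nat_lit 171) (nat_lit 5) (nat_lit 172) (nat_lit 5) (nat_lit 362) (nat_lit 313) (nat_lit 225))) (XT.nd (nat_lit 78) (nat_lit 456) (nat_lit 0) (XT.lf (nat_lit 0) (nat_lit 2222329582) (nat_lit 456) (nat_lit 424530709) (nat_lit 532) (nat_lit 11705585278) (nat_lit 158) (nat_lit 5) (nat_lit 164) (nat_lit 5) (nat_lit 165) (nat_lit 5) (nat_lit 363) (nat_lit 313) (nat_lit 224)) (XT.nd (nat_lit 78) (nat_lit 456) (nat_lit 0) (XT.lf (nat_lit 0) (nat_lit 7136475027) (nat_lit 532) (nat_lit 299548683) (nat_lit 76) (nat_lit 7178193525) (nat_lit 158) (nat_lit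 5) (nat_lit 165) (nat_lit 5) (nat_lit 159) (nat_lit 5) (nat_lit 364) (nat_lit 313) (nat_lit 223)) (XT.lf (nat_lit 0) (nat_lit 11811773941) (nat_lit 532) (nat_lit 2886859264) (nat_lit 76) (nat_lit 184199491) (nat_lit 152) (nat_lit 5) (nat_lit 159) (nat_lit 5) (nat_lit 153) (nat_lit 5) (nat_lit 365) (nat_lit 313) (nat_lit 222))))) (XT.nd (nat_lit 156) (nat_lit 912) (nat_lit 0) (XT.nd (nat_lit 78) (nat_lit 380) (nat_lit 0) (XT.lf (nat_lit 0) (nat_lit 1532406477) (nat_lit 532) (nat_lit 5630664402) (nat_lit 76) (nat_lit 7994578550) (nat_lit 145) (nat_lit 5) (nat_lit 152) (nat_lit 5) (nat_lit 146) (nat_lit 5) (nat_lit 366) (nat_lit 313) (nat_lit 221)) (XT.lf (nat_lit 0) (nat_lit 6271609310) (nat_lit 456) (nat_lit 8503967695) (nat_lit 76) (nat_lit 663950277) (nat_lit 140) (nat_lit 5) (nat_lit 146) (nat_lit 5) (nat_lit 141) (nat_lit 5) (nat_lit 367) (nat_lit 313) (nat_lit 220))) (XT.nd (nat_lit 78) (nat_lit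 456) (nat_lit 0) (XT.lf (nat_lit 0) (nat_lit 4190955677) (nat_lit 456) (nat_lit 7046072023) (nat_lit 532) (nat_lit 4491162456) (nat_lit 134) (nat_lit 5) (nat_lit 140) (nat_lit 5) (nat_lit 141) (nat_lit 5) (nat_lit 368) (nat_lit 313) (nat_lit 219)) (XT.nd (nat_lit 78) (nat_lit 0) (nat_lit 0) (XT.lf (nat_lit 0) (nat_lit 365490463) (nat_lit 456) (nat_lit 14699610659) (nat_lit 76) (nat_lit 959501115) (nat_lit 128) (nat_lit 5) (nat_lit 134) (nat_lit 5) (nat_lit 129) (nat_lit 5) (nat_lit 369) (nat_lit 313) (nat_lit 218)) (XT.lf (nat_lit 0) (nat_lit 5404388255) (nat_lit 456) (nat_lit 1717119310) (nat_lit 76) (nat_lit 9205862887) (nat_lit 128) (nat_lit 5) (nat_lit 134) (nat_lit 5) (nat_lit 129) (nat_lit 5) (nat_lit 370) (nat_lit 313) (nat_lit 217))))))))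
noncomputable def xc76 : XT := (XT.nd (nat_lit 42900) (nat_lit 0) (nat_lit 19760) (XT.nd (nat_lit 702) (nat_lit 912) (nat_lit 0) (XT.nd (nat_lit 312) (nat_lit 1444) (nat_lit 0) (XT.nd (nat_lit 156) (nat_lit 760) (nat_lit 0) (XT.nd (nat_lit 78) (nat_lit 380) (nat_lit 0) (XT.lf (nat_lit 0) (nat_lit 10650396223) (nat_lit 456) (nat_lit 4877258115) (nat_lit 76) (nat_lit 1110457012) (nat_lit 123) (nat_lit 5) (nat_lit 129) (nat_lit 5) (nat_lit 124) (nat_lit 5) (nat_lit 371) (nat_lit 313) (nat_lit 216)) (XT.lf (nat_lit 0) (nat_lit 8734895171) (nat_lit 380) (nat_lit 7407632719) (nat_lit 456) (nat_lit 813879968) (nat_lit 118) (nat_lit 5) (nat_lit 123) (nat_lit 5) (nat_lit 124) (nat_lit 5) (nat_lit 372) (nat_lit 313) (nat_lit 215))) (XT.nd (nat_lit 78) (nat_lit 304) (nat_lit 0) (XT.lf (nat_lit 0) (nat_lit 4505015535) (nat_lit 456) (nat_lit 11748274937) (nat_lit 76) (nat_lit 1029403083) (nat_lit 112) (nat_lit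 5) (nat_lit 118) (nat_lit 5) (nat_lit 113) (nat_lit 5) (nat_lit 373) (nat_lit 313) (nat_lit 214)) (XT.lf (nat_lit 0) (nat_lit 2130310628) (nat_lit 304) (nat_lit 7935107077) (nat_lit 380) (nat_lit 7551390205) (nat_lit 108) (nat_lit 5) (nat_lit 112) (nat_lit 5) (nat_lit 113) (nat_lit 5) (nat_lit 374) (nat_lit 313) (nat_lit 213)))) (XT.nd (nat_lit 156) (nat_lit 988) (nat_lit 0) (XT.nd (nat_lit 78) (nat_lit 456) (nat_lit 0) (XT.lf (nat_lit 0) (nat_lit 15850788458) (nat_lit 380) (nat_lit 1417900140) (nat_lit 76) (nat_lit 691101372) (nat_lit 108) (nat_lit 5) (nat_lit 113) (nat_lit 5) (nat_lit 109) (nat_lit 5) (nat_lit 375) (nat_lit 313) (nat_lit 212)) (XT.lf (nat_lit 0) (nat_lit 3564679493) (nat_lit 456) (nat_lit 5180873040) (nat_lit 76) (nat_lit 9564784355) (nat_lit 102) (nat_lit 5) (nat_lit 108) (nat_lit 5) (nat_lit 103) (nat_lit 5) (nat_lit 376) (nat_lit 313) (nat_lit 211))) (XT.nd (nat_lit 78) (nat_lit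 684) (nat_lit 0) (XT.lf (nat_lit 0) (nat_lit 9427338548) (nat_lit 380) (nat_lit 9137093443) (nat_lit 76) (nat_lit 105747841) (nat_lit 98) (nat_lit 5) (nat_lit 103) (nat_lit 5) (nat_lit 99) (nat_lit 5) (nat_lit 377) (nat_lit 313) (nat_lit 210)) (XT.nd (nat_lit 78) (nat_lit 380) (nat_lit 0) (XT.lf (nat_lit 0) (nat_lit 5696955487) (nat_lit 304) (nat_lit 9875121133) (nat_lit 380) (nat_lit 3466624103) (nat_lit 94) (nat_lit 5) (nat_lit 98) (nat_lit 5) (nat_lit 99) (nat_lit 5) (nat_lit 378) (nat_lit 313) (nat_lit 209)) (XT.lf (nat_lit 0) (nat_lit 1651165358) (nat_lit 304) (nat_lit 847888855) (nat_lit 380) (nat_lit 16917932180) (nat_lit 89) (nat_lit 5) (nat_lit 93) (nat_lit 5) (nat_lit 94) (nat_lit 5) (nat_lit 379) (nat_lit 313) (nat_lit 208)))))) (XT.nd (nat_lit 41808) (nat_lit 0) (nat_lit 34352) (XT.nd (nat_lit 156) (nat_lit 608) (nat_lit 0) (XT.nd (nat_lit 78) (nat_lit 304) (nat_lit 0) (XT.lf (nat_lit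 0) (nat_lit 8718813041) (nat_lit 380) (nat_lit 2644765501) (nat_lit 76) (nat_lit 8440145782) (nat_lit 89) (nat_lit 5) (nat_lit 94) (nat_lit 5) (nat_lit 90) (nat_lit 5) (nat_lit 380) (nat_lit 313) (nat_lit 207)) (XT.lf (nat_lit 0) (nat_lit 13058826578) (nat_lit 304) (nat_lit 2133560721) (nat_lit 380) (nat_lit 5008338601) (nat_lit 85) (nat_lit 5) (nat_lit 89) (nat_lit 5) (nat_lit 90) (nat_lit 5) (nat_lit 381) (nat_lit 313) (nat_lit 206))) (XT.nd (nat_lit 78) (nat_lit 304) (nat_lit 0) (XT.lf (nat_lit 0) (nat_lit 1334239230) (nat_lit 304) (nat_lit 11926477569) (nat_lit 76) (nat_lit 7346761835) (nat_lit 81) (nat_lit 5) (nat_lit 85) (nat_lit 5) (nat_lit 82) (nat_lit 5) (nat_lit 382) (nat_lit 313) (nat_lit 205)) (XT.nd (nat_lit 41496) (nat_lit 0) (nat_lit 35492) (XT.lf (nat_lit 0) (nat_lit 4019326743) (nat_lit 304) (nat_lit 3846593345) (nat_lit 380) (nat_lit 13158519878) (nat_lit 77) (nat_lit 5) (nat_lit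 81) (nat_lit 5) (nat_lit 82) (nat_lit 5) (nat_lit 383) (nat_lit 313) (nat_lit 204)) (XT.lf (nat_lit 0) (nat_lit 223160988) (nat_lit 0) (nat_lit 223160988) (nat_lit 1140) (nat_lit 3196281257) (nat_lit 544) (nat_lit 5) (nat_lit 544) (nat_lit 3) (nat_lit 559) (nat_lit 3) (nat_lit 314) (nat_lit 314) (nat_lit 272))))) (XT.nd (nat_lit 156) (nat_lit 1140) (nat_lit 0) (XT.nd (nat_lit 78) (nat_lit 0) (nat_lit 0) (XT.lf (nat_lit 0) (nat_lit 3229517361) (nat_lit 1140) (nat_lit 1675839065) (nat_lit 1216) (nat_lit 2441183165) (nat_lit 544) (nat_lit 5) (nat_lit 559) (nat_lit 3) (nat_lit 560) (nat_lit 5) (nat_lit 315) (nat_lit 314) (nat_lit 271)) (XT.lf (nat_lit 76) (nat_lit 3639670805) (nat_lit 0) (nat_lit 1933682134) (nat_lit 1216) (nat_lit 1837680227) (nat_lit 545) (nat_lit 5) (nat_lit 544) (nat_lit 5) (nat_lit 560) (nat_lit 5) (nat_lit 316) (nat_lit 314) (nat_lit 270))) (XT.nd (nat_lit 78) (nat_lit 0) (nat_lit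 0) (XT.lf (nat_lit 0) (nat_lit 445038943) (nat_lit 1216) (nat_lit 5855805869) (nat_lit 1292) (nat_lit 1177771586) (nat_lit 529) (nat_lit 5) (nat_lit 545) (nat_lit 5) (nat_lit 546) (nat_lit 5) (nat_lit 317) (nat_lit 314) (nat_lit 269)) (XT.nd (nat_lit 78) (nat_lit 0) (nat_lit 76) (XT.lf (nat_lit 0) (nat_lit 2724504644) (nat_lit 1216) (nat_lit 391561158) (nat_lit 1292) (nat_lit 4432906955) (nat_lit 529) (nat_lit 5) (nat_lit 545) (nat_lit 5) (nat_lit 546) (nat_lit 5) (nat_lit 318) (nat_lit 314) (nat_lit 268)) (XT.lf (nat_lit 0) (nat_lit 5024942388) (nat_lit 1216) (nat_lit 2365884864) (nat_lit 1292) (nat_lit 231612449) (nat_lit 530) (nat_lit 5) (nat_lit 546) (nat_lit 5) (nat_lit 547) (nat_lit 5) (nat_lit 319) (nat_lit 314) (nat_lit 267))))))) (XT.nd (nat_lit 780) (nat_lit 10868) (nat_lit 0) (XT.nd (nat_lit 390) (nat_lit 1292) (nat_lit 0) (XT.nd (nat_lit 156) (nat_lit 1216) (nat_lit 0) (XT.nd (nat_lit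 78) (nat_lit 1292) (nat_lit 0) (XT.lf (nat_lit 76) (nat_lit 3355990181) (nat_lit 0) (nat_lit 4002965969) (nat_lit 1292) (nat_lit 339913401) (nat_lit 531) (nat_lit 5) (nat_lit 530) (nat_lit 5) (nat_lit 547) (nat_lit 5) (nat_lit 320) (nat_lit 314) (nat_lit 266)) (XT.lf (nat_lit 76) (nat_lit 1461913482) (nat_lit 0) (nat_lit 443811698) (nat_lit 1368) (nat_lit 5872729722) (nat_lit 514) (nat_lit 5) (nat_lit 513) (nat_lit 5) (nat_lit 531) (nat_lit 5) (nat_lit 321) (nat_lit 314) (nat_lit 265))) (XT.nd (nat_lit 78) (nat_lit 1292) (nat_lit 0) (XT.lf (nat_lit 0) (nat_lit 4187606708) (nat_lit 1292) (nat_lit 432816519) (nat_lit 1368) (nat_lit 3240536161) (nat_lit 514) (nat_lit 5) (nat_lit 531) (nat_lit 5) (nat_lit 532) (nat_lit 5) (nat_lit 322) (nat_lit 314) (nat_lit 264)) (XT.nd (nat_lit 78) (nat_lit 1292) (nat_lit 0) (XT.lf (nat_lit 76) (nat_lit 5650122250) (nat_lit 0) (nat_lit 852641549) (nat_lit 1368) (nat_lit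 1443923824) (nat_lit 515) (nat_lit 5) (nat_lit 514) (nat_lit 5) (nat_lit 532) (nat_lit 5) (nat_lit 323) (nat_lit 314) (nat_lit 263)) (XT.lf (nat_lit 0) (nat_lit 815929675) (nat_lit 1368) (nat_lit 4172617093) (nat_lit 1444) (nat_lit 3046878661) (nat_lit 497) (nat_lit 5) (nat_lit 515) (nat_lit 5) (nat_lit 516) (nat_lit 5) (nat_lit 324) (nat_lit 314) (nat_lit 262))))) (XT.nd (nat_lit 156) (nat_lit 1292) (nat_lit 0) (XT.nd (nat_lit 78) (nat_lit 0) (nat_lit 76) (XT.lf (nat_lit 76) (nat_lit 2074120500) (nat_lit 0) (nat_lit 1013281500) (nat_lit 1444) (nat_lit 5040005256) (nat_lit 498) (nat_lit 5) (nat_lit 497) (nat_lit 5) (nat_lit 516) (nat_lit 5) (nat_lit 325) (nat_lit 314) (nat_lit 261)) (XT.lf (nat_lit 76) (nat_lit 276958070) (nat_lit 0) (nat_lit 5130724146) (nat_lit 1444) (nat_lit 2814893419) (nat_lit 499) (nat_lit 5) (nat_lit 498) (nat_lit 5) (nat_lit 517) (nat_lit 5) (nat_lit 326) (nat_lit 314) (nat_lit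 260))) (XT.nd (nat_lit 78) (nat_lit 1368) (nat_lit 0) (XT.lf (nat_lit 76) (nat_lit 6823643720) (nat_lit 0) (nat_lit 953781750) (nat_lit 1444) (nat_lit 543615698) (nat_lit 499) (nat_lit 5) (nat_lit 498) (nat_lit 5) (nat_lit 517) (nat_lit 5) (nat_lit 327) (nat_lit 314) (nat_lit 259)) (XT.nd (nat_lit 78) (nat_lit 0) (nat_lit 0) (XT.lf (nat_lit 0) (nat_lit 1761453259) (nat_lit 1444) (nat_lit 3293844822) (nat_lit 1520) (nat_lit 3367182601) (nat_lit 480) (nat_lit 5) (nat_lit 499) (nat_lit 5) (nat_lit 500) (nat_lit 5) (nat_lit 328) (nat_lit 314) (nat_lit 258)) (XT.lf (nat_lit 76) (nat_lit 3432540470) (nat_lit 0) (nat_lit 670005597) (nat_lit 1520) (nat_lit 4424896521) (nat_lit 481) (nat_lit 5) (nat_lit 480) (nat_lit 5) (nat_lit 500) (nat_lit 5) (nat_lit 329) (nat_lit 314) (nat_lit 257)))))) (XT.nd (nat_lit 390) (nat_lit 4636) (nat_lit 0) (XT.nd (nat_lit 156) (nat_lit 3268) (nat_lit 0) (XT.nd (nat_lit 78)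 (nat_lit 1596) (nat_lit 0) (XT.lf (nat_lit 0) (nat_lit 1717935052) (nat_lit 1444) (nat_lit 4791531024) (nat_lit 1520) (nat_lit 2126210553) (nat_lit 462) (nat_lit 5) (nat_lit 481) (nat_lit 5) (nat_lit 482) (nat_lit 5) (nat_lit 330) (nat_lit 314) (nat_lit 256)) (XT.lf (nat_lit 0) (nat_lit 1967453) (nat_lit 1520) (nat_lit 213618696) (nat_lit 1596) (nat_lit 8532027332) (nat_lit 441) (nat_lit 5) (nat_lit 461) (nat_lit 5) (nat_lit 462) (nat_lit 5) (nat_lit 331) (nat_lit 314) (nat_lit 255))) (XT.nd (nat_lit 78) (nat_lit 3268) (nat_lit 0) (XT.lf (nat_lit 0) (nat_lit 2614954114) (nat_lit 1596) (nat_lit 1732478982) (nat_lit 76) (nat_lit 4514902669) (nat_lit 441) (nat_lit 5) (nat_lit 462) (nat_lit 5) (nat_lit 442) (nat_lit 5) (nat_lit 332) (nat_lit 314) (nat_lit 254)) (XT.nd (nat_lit 78) (nat_lit 1672) (nat_lit 0) (XT.lf (nat_lit 0) (nat_lit 5067814685) (nat_lit 1672) (nat_lit 3471144904) (nat_lit 76) (nat_lit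 441941449) (nat_lit 420) (nat_lit 5) (nat_lit 442) (nat_lit 5) (nat_lit 421) (nat_lit 5) (nat_lit 333) (nat_lit 314) (nat_lit 253)) (XT.lf (nat_lit 0) (nat_lit 3862017892) (nat_lit 1672) (nat_lit 3741041879) (nat_lit 1748) (nat_lit 1499818157) (nat_lit 398) (nat_lit 5) (nat_lit 420) (nat_lit 5) (nat_lit 421) (nat_lit 5) (nat_lit 334) (nat_lit 314) (nat_lit 252))))) (XT.nd (nat_lit 156) (nat_lit 1824) (nat_lit 0) (XT.nd (nat_lit 78) (nat_lit 988) (nat_lit 0) (XT.lf (nat_lit 0) (nat_lit 962843026) (nat_lit 1824) (nat_lit 7029510338) (nat_lit 76) (nat_lit 1236263410) (nat_lit 374) (nat_lit 5) (nat_lit 398) (nat_lit 5) (nat_lit 375) (nat_lit 5) (nat_lit 335) (nat_lit 314) (nat_lit 251)) (XT.lf (nat_lit 0) (nat_lit 497840925) (nat_lit 988) (nat_lit 2990423550) (nat_lit 1064) (nat_lit 5869508201) (nat_lit 361) (nat_lit 5) (nat_lit 374) (nat_lit 5) (nat_lit 375) (nat_lit 5) (nat_lit 336) (nat_lit 314) (nat_lit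 250))) (XT.nd (nat_lit 78) (nat_lit 1824) (nat_lit 0) (XT.lf (nat_lit 0) (nat_lit 6097881203) (nat_lit 1064) (nat_lit 1207280341) (nat_lit 76) (nat_lit 2185500542) (nat_lit 361) (nat_lit 5) (nat_lit 375) (nat_lit 5) (nat_lit 362) (nat_lit 5) (nat_lit 337) (nat_lit 314) (nat_lit 249)) (XT.nd (nat_lit 78) (nat_lit 912) (nat_lit 0) (XT.lf (nat_lit 0) (nat_lit 6693895643) (nat_lit 912) (nat_lit 2103358720) (nat_lit 988) (nat_lit 830081138) (nat_lit 349) (nat_lit 5) (nat_lit 361) (nat_lit 5) (nat_lit 362) (nat_lit 5) (nat_lit 338) (nat_lit 314) (nat_lit 248)) (XT.lf (nat_lit 0) (nat_lit 1797375670) (nat_lit 912) (nat_lit 4702756266) (nat_lit 76) (nat_lit 3267535452) (nat_lit 337) (nat_lit 5) (nat_lit 349) (nat_lit 5) (nat_lit 338) (nat_lit 5) (nat_lit 339) (nat_lit 314) (nat_lit 247))))))))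
noncomputable def xc77 : XT := (XT.nd (nat_lit 1482) (nat_lit 7144) (nat_lit 0) (XT.nd (nat_lit 702) (nat_lit 5624) (nat_lit 0) (XT.nd (nat_lit 312) (nat_lit 2964) (nat_lit 0) (XT.nd (nat_lit 156) (nat_lit 836) (nat_lit 0) (XT.nd (nat_lit 78) (nat_lit 760) (nat_lit 0) (XT.lf (nat_lit 0) (nat_lit 3407488297) (nat_lit 836) (nat_lit 1091194159) (nat_lit 912) (nat_lit 5413315619) (nat_lit 326) (nat_lit 5) (nat_lit 337) (nat_lit 5) (nat_lit 338) (nat_lit 5) (nat_lit 340) (nat_lit 314) (nat_lit 246)) (XT.lf (nat_lit 0) (nat_lit 1709294219) (nat_lit 760) (nat_lit 5595183974) (nat_lit 836) (nat_lit 2755735436) (nat_lit 316) (nat_lit 5) (nat_lit 326) (nat_lit 5) (nat_lit 327) (nat_lit 5) (nat_lit 341) (nat_lit 314) (nat_lit 245))) (XT.nd (nat_lit 78) (nat_lit 836) (nat_lit 0) (XT.lf (nat_lit 0) (nat_lit 10198097673) (nat_lit 836) (nat_lit 10121677) (nat_lit 76) (nat_lit 4606543) (nat_lit 316) (nat_lit 5) (nat_lit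 327) (nat_lit 5) (nat_lit 317) (nat_lit 5) (nat_lit 342) (nat_lit 314) (nat_lit 244)) (XT.lf (nat_lit 0) (nat_lit 2818951822) (nat_lit 836) (nat_lit 1779213310) (nat_lit 76) (nat_lit 5770563287) (nat_lit 305) (nat_lit 5) (nat_lit 316) (nat_lit 5) (nat_lit 306) (nat_lit 5) (nat_lit 343) (nat_lit 314) (nat_lit 243)))) (XT.nd (nat_lit 156) (nat_lit 1444) (nat_lit 0) (XT.nd (nat_lit 78) (nat_lit 760) (nat_lit 0) (XT.lf (nat_lit 0) (nat_lit 5745059002) (nat_lit 836) (nat_lit 3575910714) (nat_lit 76) (nat_lit 1208205501) (nat_lit 295) (nat_lit 5) (nat_lit 306) (nat_lit 5) (nat_lit 296) (nat_lit 5) (nat_lit 344) (nat_lit 314) (nat_lit 242)) (XT.lf (nat_lit 0) (nat_lit 5268217957) (nat_lit 760) (nat_lit 3523229545) (nat_lit 836) (nat_lit 1902358807) (nat_lit 285) (nat_lit 5) (nat_lit 295) (nat_lit 5) (nat_lit 296) (nat_lit 5) (nat_lit 345) (nat_lit 314) (nat_lit 241))) (XT.nd (nat_lit 78) (nat_lit 684) (nat_lit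 0) (XT.lf (nat_lit 0) (nat_lit 1071672571) (nat_lit 760) (nat_lit 7323889791) (nat_lit 76) (nat_lit 2467299413) (nat_lit 275) (nat_lit 5) (nat_lit 285) (nat_lit 5) (nat_lit 276) (nat_lit 5) (nat_lit 346) (nat_lit 314) (nat_lit 240)) (XT.nd (nat_lit 78) (nat_lit 0) (nat_lit 0) (XT.lf (nat_lit 0) (nat_lit 1749069049) (nat_lit 684) (nat_lit 2389122784) (nat_lit 760) (nat_lit 6897982602) (nat_lit 266) (nat_lit 5) (nat_lit 275) (nat_lit 5) (nat_lit 276) (nat_lit 5) (nat_lit 347) (nat_lit 314) (nat_lit 239)) (XT.lf (nat_lit 0) (nat_lit 7329272144) (nat_lit 760) (nat_lit 92087083) (nat_lit 76) (nat_lit 3792694647) (nat_lit 266) (nat_lit 5) (nat_lit 276) (nat_lit 5) (nat_lit 267) (nat_lit 5) (nat_lit 348) (nat_lit 314) (nat_lit 238)))))) (XT.nd (nat_lit 390) (nat_lit 2280) (nat_lit 0) (XT.nd (nat_lit 156) (nat_lit 1900) (nat_lit 0) (XT.nd (nat_lit 78) (nat_lit 760) (nat_lit 0) (XT.lf (nat_lit 0) (nat_lit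 9440132337) (nat_lit 684) (nat_lit 1212397810) (nat_lit 760) (nat_lit 744028806) (nat_lit 257) (nat_lit 5) (nat_lit 266) (nat_lit 5) (nat_lit 267) (nat_lit 5) (nat_lit 349) (nat_lit 314) (nat_lit 237)) (XT.lf (nat_lit 0) (nat_lit 2502829299) (nat_lit 760) (nat_lit 3904313420) (nat_lit 76) (nat_lit 5176199263) (nat_lit 247) (nat_lit 5) (nat_lit 257) (nat_lit 5) (nat_lit 248) (nat_lit 5) (nat_lit 350) (nat_lit 314) (nat_lit 236))) (XT.nd (nat_lit 78) (nat_lit 1292) (nat_lit 0) (XT.lf (nat_lit 0) (nat_lit 5857343811) (nat_lit 684) (nat_lit 5902921230) (nat_lit 76) (nat_lit 14974703) (nat_lit 239) (nat_lit 5) (nat_lit 248) (nat_lit 5) (nat_lit 240) (nat_lit 5) (nat_lit 351) (nat_lit 314) (nat_lit 235)) (XT.nd (nat_lit 78) (nat_lit 684) (nat_lit 0) (XT.lf (nat_lit 0) (nat_lit 3986303718) (nat_lit 608) (nat_lit 5382979264) (nat_lit 684) (nat_lit 2602491970) (nat_lit 231) (nat_lit 5) (nat_lit 239) (nat_lit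 5) (nat_lit 240) (nat_lit 5) (nat_lit 352) (nat_lit 314) (nat_lit 234)) (XT.lf (nat_lit 0) (nat_lit 825352680) (nat_lit 684) (nat_lit 10126880275) (nat_lit 76) (nat_lit 1221410624) (nat_lit 222) (nat_lit 5) (nat_lit 231) (nat_lit 5) (nat_lit 223) (nat_lit 5) (nat_lit 353) (nat_lit 314) (nat_lit 233))))) (XT.nd (nat_lit 156) (nat_lit 1672) (nat_lit 0) (XT.nd (nat_lit 78) (nat_lit 0) (nat_lit 0) (XT.lf (nat_lit 0) (nat_lit 9133571) (nat_lit 608) (nat_lit 4365021664) (nat_lit 684) (nat_lit 8006014436) (nat_lit 214) (nat_lit 5) (nat_lit 222) (nat_lit 5) (nat_lit 223) (nat_lit 5) (nat_lit 354) (nat_lit 314) (nat_lit 232)) (XT.lf (nat_lit 0) (nat_lit 8077694702) (nat_lit 684) (nat_lit 2065789227) (nat_lit 76) (nat_lit 2448456782) (nat_lit 214) (nat_lit 5) (nat_lit 223) (nat_lit 5) (nat_lit 215) (nat_lit 5) (nat_lit 355) (nat_lit 314) (nat_lit 231))) (XT.nd (nat_lit 78) (nat_lit 1140) (nat_lit 0) (XT.lf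 (nat_lit 0) (nat_lit 8587437513) (nat_lit 532) (nat_lit 3354397027) (nat_lit 608) (nat_lit 867254653) (nat_lit 207) (nat_lit 5) (nat_lit 214) (nat_lit 5) (nat_lit 215) (nat_lit 5) (nat_lit 356) (nat_lit 314) (nat_lit 230)) (XT.nd (nat_lit 78) (nat_lit 532) (nat_lit 0) (XT.lf (nat_lit 0) (nat_lit 2897176169) (nat_lit 608) (nat_lit 6476880573) (nat_lit 76) (nat_lit 3657415307) (nat_lit 199) (nat_lit 5) (nat_lit 207) (nat_lit 5) (nat_lit 200) (nat_lit 5) (nat_lit 357) (nat_lit 314) (nat_lit 229)) (XT.lf (nat_lit 0) (nat_lit 4437447738) (nat_lit 532) (nat_lit 2371142115) (nat_lit 608) (nat_lit 6450918354) (nat_lit 192) (nat_lit 5) (nat_lit 199) (nat_lit 5) (nat_lit 200) (nat_lit 5) (nat_lit 358) (nat_lit 314) (nat_lit 228))))))) (XT.nd (nat_lit 780) (nat_lit 3192) (nat_lit 0) (XT.nd (nat_lit 390) (nat_lit 1900) (nat_lit 0) (XT.nd (nat_lit 156) (nat_lit 1444) (nat_lit 0) (XT.nd (nat_lit 78) (nat_lit 76)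 (nat_lit 0) (XT.lf (nat_lit 0) (nat_lit 2227660226) (nat_lit 532) (nat_lit 8666141730) (nat_lit 608) (nat_lit 2599467110) (nat_lit 185) (nat_lit 5) (nat_lit 192) (nat_lit 5) (nat_lit 193) (nat_lit 5) (nat_lit 359) (nat_lit 314) (nat_lit 227)) (XT.lf (nat_lit 0) (nat_lit 1392468957) (nat_lit 608) (nat_lit 72267959) (nat_lit 76) (nat_lit 12268282847) (nat_lit 184) (nat_lit 5) (nat_lit 192) (nat_lit 5) (nat_lit 185) (nat_lit 5) (nat_lit 360) (nat_lit 314) (nat_lit 226))) (XT.nd (nat_lit 78) (nat_lit 988) (nat_lit 0) (XT.lf (nat_lit 0) (nat_lit 5551028457) (nat_lit 532) (nat_lit 2469656857) (nat_lit 76) (nat_lit 5957302150) (nat_lit 178) (nat_lit 5) (nat_lit 185) (nat_lit 5) (nat_lit 179) (nat_lit 5) (nat_lit 361) (nat_lit 314) (nat_lit 225)) (XT.nd (nat_lit 78) (nat_lit 456) (nat_lit 0) (XT.lf (nat_lit 0) (nat_lit 9276382035) (nat_lit 532) (nat_lit 596885574) (nat_lit 608) (nat_lit 4356269554) (nat_lit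 171) (nat_lit 5) (nat_lit 178) (nat_lit 5) (nat_lit 179) (nat_lit 5) (nat_lit 362) (nat_lit 314) (nat_lit 224)) (XT.lf (nat_lit 0) (nat_lit 6922828780) (nat_lit 456) (nat_lit 7478893677) (nat_lit 532) (nat_lit 85391022) (nat_lit 165) (nat_lit 5) (nat_lit 171) (nat_lit 5) (nat_lit 172) (nat_lit 5) (nat_lit 363) (nat_lit 314) (nat_lit 223))))) (XT.nd (nat_lit 156) (nat_lit 912) (nat_lit 0) (XT.nd (nat_lit 78) (nat_lit 456) (nat_lit 0) (XT.lf (nat_lit 0) (nat_lit 4294201630) (nat_lit 532) (nat_lit 10296962830) (nat_lit 76) (nat_lit 159959815) (nat_lit 158) (nat_lit 5) (nat_lit 165) (nat_lit 5) (nat_lit 159) (nat_lit 5) (nat_lit 364) (nat_lit 314) (nat_lit 222)) (XT.lf (nat_lit 0) (nat_lit 1845983625) (nat_lit 456) (nat_lit 7041594842) (nat_lit 532) (nat_lit 6133804760) (nat_lit 152) (nat_lit 5) (nat_lit 158) (nat_lit 5) (nat_lit 159) (nat_lit 5) (nat_lit 365) (nat_lit 314) (nat_lit 221))) (XT.nd (nat_lit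 78) (nat_lit 912) (nat_lit 0) (XT.lf (nat_lit 0) (nat_lit 13664245363) (nat_lit 532) (nat_lit 851234521) (nat_lit 76) (nat_lit 783370242) (nat_lit 152) (nat_lit 5) (nat_lit 159) (nat_lit 5) (nat_lit 153) (nat_lit 5) (nat_lit 366) (nat_lit 314) (nat_lit 220)) (XT.nd (nat_lit 78) (nat_lit 380) (nat_lit 0) (XT.lf (nat_lit 0) (nat_lit 3056623898) (nat_lit 532) (nat_lit 3691658526) (nat_lit 76) (nat_lit 8834050728) (nat_lit 145) (nat_lit 5) (nat_lit 152) (nat_lit 5) (nat_lit 146) (nat_lit 5) (nat_lit 367) (nat_lit 314) (nat_lit 219)) (XT.lf (nat_lit 0) (nat_lit 7912469535) (nat_lit 456) (nat_lit 6659977983) (nat_lit 76) (nat_lit 1300744494) (nat_lit 140) (nat_lit 5) (nat_lit 146) (nat_lit 5) (nat_lit 141) (nat_lit 5) (nat_lit 368) (nat_lit 314) (nat_lit 218)))))) (XT.nd (nat_lit 390) (nat_lit 1444) (nat_lit 0) (XT.nd (nat_lit 156) (nat_lit 836) (nat_lit 0) (XT.nd (nat_lit 78) (nat_lit 456) (nat_lit 0)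 (XT.lf (nat_lit 0) (nat_lit 6381737544) (nat_lit 456) (nat_lit 6616208629) (nat_lit 532) (nat_lit 3173160283) (nat_lit 134) (nat_lit 5) (nat_lit 140) (nat_lit 5) (nat_lit 141) (nat_lit 5) (nat_lit 369) (nat_lit 314) (nat_lit 217)) (XT.lf (nat_lit 0) (nat_lit 1785887182) (nat_lit 456) (nat_lit 13065522571) (nat_lit 76) (nat_lit 1625310489) (nat_lit 128) (nat_lit 5) (nat_lit 134) (nat_lit 5) (nat_lit 129) (nat_lit 5) (nat_lit 370) (nat_lit 314) (nat_lit 216))) (XT.nd (nat_lit 78) (nat_lit 456) (nat_lit 0) (XT.lf (nat_lit 0) (nat_lit 249273668) (nat_lit 380) (nat_lit 6687245272) (nat_lit 456) (nat_lit 9852853790) (nat_lit 123) (nat_lit 5) (nat_lit 128) (nat_lit 5) (nat_lit 129) (nat_lit 5) (nat_lit 371) (nat_lit 314) (nat_lit 215)) (XT.nd (nat_lit 78) (nat_lit 456) (nat_lit 0) (XT.lf (nat_lit 0) (nat_lit 12315460035) (nat_lit 456) (nat_lit 3018548085) (nat_lit 76) (nat_lit 1775928875) (nat_lit 123) (nat_lit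 5) (nat_lit 129) (nat_lit 5) (nat_lit 124) (nat_lit 5) (nat_lit 372) (nat_lit 314) (nat_lit 214)) (XT.lf (nat_lit 0) (nat_lit 500991747) (nat_lit 456) (nat_lit 6472177317) (nat_lit 76) (nat_lit 10465086940) (nat_lit 117) (nat_lit 5) (nat_lit 123) (nat_lit 5) (nat_lit 118) (nat_lit 5) (nat_lit 373) (nat_lit 314) (nat_lit 213))))) (XT.nd (nat_lit 156) (nat_lit 760) (nat_lit 0) (XT.nd (nat_lit 78) (nat_lit 304) (nat_lit 0) (XT.lf (nat_lit 0) (nat_lit 5946744454) (nat_lit 456) (nat_lit 10120315827) (nat_lit 76) (nat_lit 1707606715) (nat_lit 112) (nat_lit 5) (nat_lit 118) (nat_lit 5) (nat_lit 113) (nat_lit 5) (nat_lit 374) (nat_lit 314) (nat_lit 212)) (XT.lf (nat_lit 0) (nat_lit 4142497549) (nat_lit 304) (nat_lit 7506054968) (nat_lit 380) (nat_lit 6470771334) (nat_lit 108) (nat_lit 5) (nat_lit 112) (nat_lit 5) (nat_lit 113) (nat_lit 5) (nat_lit 375) (nat_lit 314) (nat_lit 211))) (XT.nd (nat_lit 78) (nat_lit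 380) (nat_lit 0) (XT.lf (nat_lit 0) (nat_lit 458129173) (nat_lit 380) (nat_lit 17119219136) (nat_lit 456) (nat_lit 895860412) (nat_lit 103) (nat_lit 5) (nat_lit 108) (nat_lit 5) (nat_lit 109) (nat_lit 5) (nat_lit 376) (nat_lit 314) (nat_lit 210)) (XT.nd (nat_lit 78) (nat_lit 304) (nat_lit 0) (XT.lf (nat_lit 0) (nat_lit 4903991288) (nat_lit 456) (nat_lit 3438055608) (nat_lit 76) (nat_lit 10492615507) (nat_lit 102) (nat_lit 5) (nat_lit 108) (nat_lit 5) (nat_lit 103) (nat_lit 5) (nat_lit 377) (nat_lit 314) (nat_lit 209)) (XT.lf (nat_lit 0) (nat_lit 10923038165) (nat_lit 380) (nat_lit 7523537650) (nat_lit 76) (nat_lit 759124479) (nat_lit 98) (nat_lit 5) (nat_lit 103) (nat_lit 5) (nat_lit 99) (nat_lit 5) (nat_lit 378) (nat_lit 314) (nat_lit 208))))))))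
noncomputable def xc78 : XT := (XT.nd (nat_lit 42978) (nat_lit 0) (nat_lit 14060) (XT.nd (nat_lit 42198) (nat_lit 0) (nat_lit 30248) (XT.nd (nat_lit 312) (nat_lit 304) (nat_lit 0) (XT.nd (nat_lit 156) (nat_lit 304) (nat_lit 0) (XT.nd (nat_lit 78) (nat_lit 380) (nat_lit 0) (XT.lf (nat_lit 0) (nat_lit 7724907568) (nat_lit 304) (nat_lit 9503941383) (nat_lit 380) (nat_lit 2356902784) (nat_lit 94) (nat_lit 5) (nat_lit 98) (nat_lit 5) (nat_lit 99) (nat_lit 5) (nat_lit 379) (nat_lit 314) (nat_lit 207)) (XT.lf (nat_lit 0) (nat_lit 3543581837) (nat_lit 304) (nat_lit 205323662) (nat_lit 380) (nat_lit 16226790389) (nat_lit 89) (nat_lit 5) (nat_lit 93) (nat_lit 5) (nat_lit 94) (nat_lit 5) (nat_lit 380) (nat_lit 314) (nat_lit 206))) (XT.nd (nat_lit 78) (nat_lit 304) (nat_lit 0) (XT.lf (nat_lit 0) (nat_lit 10125248085) (nat_lit 380) (nat_lit 916007006) (nat_lit 76) (nat_lit 9333389858) (nat_lit 89) (nat_lit 5)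 (nat_lit 94) (nat_lit 5) (nat_lit 90) (nat_lit 5) (nat_lit 381) (nat_lit 314) (nat_lit 205)) (XT.lf (nat_lit 0) (nat_lit 15229358537) (nat_lit 304) (nat_lit 1541874223) (nat_lit 380) (nat_lit 4012768303) (nat_lit 85) (nat_lit 5) (nat_lit 89) (nat_lit 5) (nat_lit 90) (nat_lit 5) (nat_lit 382) (nat_lit 314) (nat_lit 204)))) (XT.nd (nat_lit 41652) (nat_lit 0) (nat_lit 33972) (XT.nd (nat_lit 41574) (nat_lit 0) (nat_lit 35188) (XT.lf (nat_lit 0) (nat_lit 2487839771) (nat_lit 304) (nat_lit 10501103459) (nat_lit 76) (nat_lit 8214216889) (nat_lit 81) (nat_lit 5) (nat_lit 85) (nat_lit 5) (nat_lit 82) (nat_lit 5) (nat_lit 383) (nat_lit 314) (nat_lit 203)) (XT.lf (nat_lit 0) (nat_lit 1372477302) (nat_lit 0) (nat_lit 1372477302) (nat_lit 1140) (nat_lit 959760750) (nat_lit 544) (nat_lit 5) (nat_lit 544) (nat_lit 3) (nat_lit 559) (nat_lit 3) (nat_lit 315) (nat_lit 315) (nat_lit 270))) (XT.nd (nat_lit 78) (nat_lit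 0) (nat_lit 0) (XT.lf (nat_lit 0) (nat_lit 274097276) (nat_lit 1216) (nat_lit 6870851626) (nat_lit 1292) (nat_lit 330575739) (nat_lit 528) (nat_lit 5) (nat_lit 544) (nat_lit 5) (nat_lit 545) (nat_lit 5) (nat_lit 316) (nat_lit 315) (nat_lit 269)) (XT.nd (nat_lit 78) (nat_lit 0) (nat_lit 0) (XT.lf (nat_lit 0) (nat_lit 2472252793) (nat_lit 1216) (nat_lit 1524876857) (nat_lit 1292) (nat_lit 3546975046) (nat_lit 528) (nat_lit 5) (nat_lit 544) (nat_lit 5) (nat_lit 545) (nat_lit 5) (nat_lit 317) (nat_lit 315) (nat_lit 268)) (XT.lf (nat_lit 76) (nat_lit 3988889656) (nat_lit 0) (nat_lit 690336864) (nat_lit 1292) (nat_lit 2936709821) (nat_lit 529) (nat_lit 5) (nat_lit 528) (nat_lit 5) (nat_lit 545) (nat_lit 5) (nat_lit 318) (nat_lit 315) (nat_lit 267)))))) (XT.nd (nat_lit 390) (nat_lit 2508) (nat_lit 0) (XT.nd (nat_lit 156) (nat_lit 0) (nat_lit 76) (XT.nd (nat_lit 78) (nat_lit 1292) (nat_lit 0) (XT.lf (nat_lit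 76) (nat_lit 1961165947) (nat_lit 0) (nat_lit 4951354874) (nat_lit 1292) (nat_lit 778250040) (nat_lit 530) (nat_lit 5) (nat_lit 529) (nat_lit 5) (nat_lit 546) (nat_lit 5) (nat_lit 319) (nat_lit 315) (nat_lit 266)) (XT.lf (nat_lit 0) (nat_lit 1376201041) (nat_lit 1292) (nat_lit 61280024) (nat_lit 1368) (nat_lit 6331225687) (nat_lit 512) (nat_lit 5) (nat_lit 529) (nat_lit 5) (nat_lit 530) (nat_lit 5) (nat_lit 320) (nat_lit 315) (nat_lit 265))) (XT.nd (nat_lit 78) (nat_lit 0) (nat_lit 0) (XT.lf (nat_lit 0) (nat_lit 3560242009) (nat_lit 1292) (nat_lit 2061446686) (nat_lit 1368) (nat_lit 2227724893) (nat_lit 513) (nat_lit 5) (nat_lit 530) (nat_lit 5) (nat_lit 531) (nat_lit 5) (nat_lit 321) (nat_lit 315) (nat_lit 264)) (XT.nd (nat_lit 78) (nat_lit 0) (nat_lit 76) (XT.lf (nat_lit 76) (nat_lit 3876126403) (nat_lit 0) (nat_lit 1894161469) (nat_lit 1368) (nat_lit 2163089081) (nat_lit 514) (nat_lit 5) (nat_lit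 513) (nat_lit 5) (nat_lit 531) (nat_lit 5) (nat_lit 322) (nat_lit 315) (nat_lit 263)) (XT.lf (nat_lit 76) (nat_lit 1966511791) (nat_lit 0) (nat_lit 6046928637) (nat_lit 1368) (nat_lit 7126371) (nat_lit 515) (nat_lit 5) (nat_lit 514) (nat_lit 5) (nat_lit 532) (nat_lit 5) (nat_lit 323) (nat_lit 315) (nat_lit 262))))) (XT.nd (nat_lit 156) (nat_lit 1292) (nat_lit 0) (XT.nd (nat_lit 78) (nat_lit 0) (nat_lit 76) (XT.lf (nat_lit 76) (nat_lit 42792732) (nat_lit 0) (nat_lit 2110963276) (nat_lit 1444) (nat_lit 5956985054) (nat_lit 497) (nat_lit 5) (nat_lit 496) (nat_lit 5) (nat_lit 515) (nat_lit 5) (nat_lit 324) (nat_lit 315) (nat_lit 261)) (XT.lf (nat_lit 0) (nat_lit 4363857701) (nat_lit 1368) (nat_lit 1858384137) (nat_lit 1444) (nat_lit 1981728352) (nat_lit 497) (nat_lit 5) (nat_lit 515) (nat_lit 5) (nat_lit 516) (nat_lit 5) (nat_lit 325) (nat_lit 315) (nat_lit 260))) (XT.nd (nat_lit 78) (nat_lit 1368) (nat_lit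 0) (XT.lf (nat_lit 76) (nat_lit 4536179031) (nat_lit 0) (nat_lit 2080251723) (nat_lit 1444) (nat_lit 1684081265) (nat_lit 498) (nat_lit 5) (nat_lit 497) (nat_lit 5) (nat_lit 516) (nat_lit 5) (nat_lit 326) (nat_lit 315) (nat_lit 259)) (XT.nd (nat_lit 78) (nat_lit 0) (nat_lit 0) (XT.lf (nat_lit 0) (nat_lit 508353832) (nat_lit 1444) (nat_lit 5681395503) (nat_lit 1520) (nat_lit 2210593175) (nat_lit 479) (nat_lit 5) (nat_lit 498) (nat_lit 5) (nat_lit 499) (nat_lit 5) (nat_lit 327) (nat_lit 315) (nat_lit 258)) (XT.lf (nat_lit 76) (nat_lit 884337720) (nat_lit 0) (nat_lit 1840346319) (nat_lit 1520) (nat_lit 5778677419) (nat_lit 480) (nat_lit 5) (nat_lit 479) (nat_lit 5) (nat_lit 499) (nat_lit 5) (nat_lit 328) (nat_lit 315) (nat_lit 257))))))) (XT.nd (nat_lit 780) (nat_lit 6308) (nat_lit 0) (XT.nd (nat_lit 390) (nat_lit 5396) (nat_lit 0) (XT.nd (nat_lit 156) (nat_lit 4560) (nat_lit 0) (XT.nd (nat_lit 78) (nat_lit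 0) (nat_lit 0) (XT.lf (nat_lit 0) (nat_lit 5000615644) (nat_lit 1444) (nat_lit 949421935) (nat_lit 1520) (nat_lit 2659606333) (nat_lit 480) (nat_lit 5) (nat_lit 499) (nat_lit 5) (nat_lit 500) (nat_lit 5) (nat_lit 329) (nat_lit 315) (nat_lit 256)) (XT.lf (nat_lit 76) (nat_lit 5939116278) (nat_lit 0) (nat_lit 1395625320) (nat_lit 1520) (nat_lit 1384609055) (nat_lit 481) (nat_lit 5) (nat_lit 480) (nat_lit 5) (nat_lit 500) (nat_lit 5) (nat_lit 330) (nat_lit 315) (nat_lit 255))) (XT.nd (nat_lit 78) (nat_lit 3116) (nat_lit 0) (XT.lf (nat_lit 0) (nat_lit 890356304) (nat_lit 1520) (nat_lit 4636862279) (nat_lit 76) (nat_lit 3305130733) (nat_lit 461) (nat_lit 5) (nat_lit 481) (nat_lit 5) (nat_lit 462) (nat_lit 5) (nat_lit 331) (nat_lit 315) (nat_lit 254)) (XT.nd (nat_lit 78) (nat_lit 1596) (nat_lit 0) (XT.lf (nat_lit 0) (nat_lit 2436078275) (nat_lit 1520) (nat_lit 764527454) (nat_lit 1596) (nat_lit 5748263785)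 (nat_lit 441) (nat_lit 5) (nat_lit 461) (nat_lit 5) (nat_lit 462) (nat_lit 5) (nat_lit 332) (nat_lit 315) (nat_lit 253)) (XT.lf (nat_lit 0) (nat_lit 650052224) (nat_lit 1596) (nat_lit 4935936850) (nat_lit 1672) (nat_lit 3482810347) (nat_lit 420) (nat_lit 5) (nat_lit 441) (nat_lit 5) (nat_lit 442) (nat_lit 5) (nat_lit 333) (nat_lit 315) (nat_lit 252))))) (XT.nd (nat_lit 156) (nat_lit 3648) (nat_lit 0) (XT.nd (nat_lit 78) (nat_lit 1748) (nat_lit 0) (XT.lf (nat_lit 0) (nat_lit 8036771208) (nat_lit 1672) (nat_lit 1127941724) (nat_lit 76) (nat_lit 27767288) (nat_lit 420) (nat_lit 5) (nat_lit 442) (nat_lit 5) (nat_lit 421) (nat_lit 5) (nat_lit 334) (nat_lit 315) (nat_lit 251)) (XT.lf (nat_lit 0) (nat_lit 1245617056) (nat_lit 1748) (nat_lit 2942172703) (nat_lit 76) (nat_lit 5131535009) (nat_lit 397) (nat_lit 5) (nat_lit 420) (nat_lit 5) (nat_lit 398) (nat_lit 5) (nat_lit 335) (nat_lit 315) (nat_lit 250)))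 (XT.nd (nat_lit 78) (nat_lit 1900) (nat_lit 0) (XT.lf (nat_lit 0) (nat_lit 3694895000) (nat_lit 1824) (nat_lit 4776756305) (nat_lit 76) (nat_lit 978365774) (nat_lit 374) (nat_lit 5) (nat_lit 398) (nat_lit 5) (nat_lit 375) (nat_lit 5) (nat_lit 336) (nat_lit 315) (nat_lit 249)) (XT.nd (nat_lit 78) (nat_lit 912) (nat_lit 0) (XT.lf (nat_lit 0) (nat_lit 2936445874) (nat_lit 988) (nat_lit 3296636279) (nat_lit 1064) (nat_lit 3351266070) (nat_lit 361) (nat_lit 5) (nat_lit 374) (nat_lit 5) (nat_lit 375) (nat_lit 5) (nat_lit 337) (nat_lit 315) (nat_lit 248)) (XT.lf (nat_lit 0) (nat_lit 1178986210) (nat_lit 912) (nat_lit 7671393066) (nat_lit 988) (nat_lit 872296646) (nat_lit 349) (nat_lit 5) (nat_lit 361) (nat_lit 5) (nat_lit 362) (nat_lit 5) (nat_lit 338) (nat_lit 315) (nat_lit 247)))))) (XT.nd (nat_lit 390) (nat_lit 2964) (nat_lit 0) (XT.nd (nat_lit 156) (nat_lit 2432) (nat_lit 0) (XT.nd (nat_lit 78) (nat_lit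 836) (nat_lit 0) (XT.lf (nat_lit 0) (nat_lit 1676726042) (nat_lit 988) (nat_lit 613173127) (nat_lit 76) (nat_lit 7574706023) (nat_lit 348) (nat_lit 5) (nat_lit 361) (nat_lit 5) (nat_lit 349) (nat_lit 5) (nat_lit 339) (nat_lit 315) (nat_lit 246)) (XT.lf (nat_lit 0) (nat_lit 4313086947) (nat_lit 912) (nat_lit 2428996989) (nat_lit 76) (nat_lit 3268162655) (nat_lit 337) (nat_lit 5) (nat_lit 349) (nat_lit 5) (nat_lit 338) (nat_lit 5) (nat_lit 340) (nat_lit 315) (nat_lit 245))) (XT.nd (nat_lit 78) (nat_lit 1596) (nat_lit 0) (XT.lf (nat_lit 0) (nat_lit 5885376970) (nat_lit 836) (nat_lit 1153777732) (nat_lit 912) (nat_lit 3120913451) (nat_lit 326) (nat_lit 5) (nat_lit 337) (nat_lit 5) (nat_lit 338) (nat_lit 5) (nat_lit 341) (nat_lit 315) (nat_lit 244)) (XT.nd (nat_lit 78) (nat_lit 836) (nat_lit 0) (XT.lf (nat_lit 0) (nat_lit 4146375585) (nat_lit 760) (nat_lit 5727987341) (nat_lit 836) (nat_lit 439496832)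 (nat_lit 316) (nat_lit 5) (nat_lit 326) (nat_lit 5) (nat_lit 327) (nat_lit 5) (nat_lit 342) (nat_lit 315) (nat_lit 243)) (XT.lf (nat_lit 0) (nat_lit 2299323987) (nat_lit 836) (nat_lit 8103579401) (nat_lit 76) (nat_lit 68933238) (nat_lit 305) (nat_lit 5) (nat_lit 316) (nat_lit 5) (nat_lit 306) (nat_lit 5) (nat_lit 343) (nat_lit 315) (nat_lit 242))))) (XT.nd (nat_lit 156) (nat_lit 2204) (nat_lit 0) (XT.nd (nat_lit 78) (nat_lit 0) (nat_lit 0) (XT.lf (nat_lit 0) (nat_lit 529793154) (nat_lit 760) (nat_lit 4624122465) (nat_lit 836) (nat_lit 5479808386) (nat_lit 295) (nat_lit 5) (nat_lit 305) (nat_lit 5) (nat_lit 306) (nat_lit 5) (nat_lit 344) (nat_lit 315) (nat_lit 241)) (XT.lf (nat_lit 0) (nat_lit 8114749313) (nat_lit 836) (nat_lit 1321792432) (nat_lit 76) (nat_lit 1363534422) (nat_lit 295) (nat_lit 5) (nat_lit 306) (nat_lit 5) (nat_lit 296) (nat_lit 5) (nat_lit 345) (nat_lit 315) (nat_lit 240))) (XT.nd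 (nat_lit 78) (nat_lit 1368) (nat_lit 0) (XT.lf (nat_lit 0) (nat_lit 229902575) (nat_lit 836) (nat_lit 3222817720) (nat_lit 76) (nat_lit 7517903917) (nat_lit 284) (nat_lit 5) (nat_lit 295) (nat_lit 5) (nat_lit 285) (nat_lit 5) (nat_lit 346) (nat_lit 315) (nat_lit 239)) (XT.nd (nat_lit 78) (nat_lit 684) (nat_lit 0) (XT.lf (nat_lit 0) (nat_lit 3220758418) (nat_lit 760) (nat_lit 5186991384) (nat_lit 76) (nat_lit 2737709554) (nat_lit 275) (nat_lit 5) (nat_lit 285) (nat_lit 5) (nat_lit 276) (nat_lit 5) (nat_lit 347) (nat_lit 315) (nat_lit 238)) (XT.lf (nat_lit 0) (nat_lit 4119922941) (nat_lit 684) (nat_lit 2212744468) (nat_lit 760) (nat_lit 4992263760) (nat_lit 266) (nat_lit 5) (nat_lit 275) (nat_lit 5) (nat_lit 276) (nat_lit 5) (nat_lit 348) (nat_lit 315) (nat_lit 237))))))))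
noncomputable def xc79 : XT := (XT.nd (nat_lit 1560) (nat_lit 4560) (nat_lit 0) (XT.nd (nat_lit 780) (nat_lit 4104) (nat_lit 0) (XT.nd (nat_lit 390) (nat_lit 2432) (nat_lit 0) (XT.nd (nat_lit 156) (nat_lit 1216) (nat_lit 0) (XT.nd (nat_lit 78) (nat_lit 760) (nat_lit 0) (XT.lf (nat_lit 0) (nat_lit 2224716010) (nat_lit 684) (nat_lit 7350471192) (nat_lit 760) (nat_lit 1933872499) (nat_lit 257) (nat_lit 5) (nat_lit 266) (nat_lit 5) (nat_lit 267) (nat_lit 5) (nat_lit 349) (nat_lit 315) (nat_lit 236)) (XT.lf (nat_lit 0) (nat_lit 273862624) (nat_lit 684) (nat_lit 953136823) (nat_lit 760) (nat_lit 10471037881) (nat_lit 247) (nat_lit 5) (nat_lit 256) (nat_lit 5) (nat_lit 257) (nat_lit 5) (nat_lit 350) (nat_lit 315) (nat_lit 235))) (XT.nd (nat_lit 78) (nat_lit 1216) (nat_lit 0) (XT.lf (nat_lit 0) (nat_lit 4518266519) (nat_lit 760) (nat_lit 1740411204) (nat_lit 76) (nat_lit 5632530343) (nat_lit 247) (nat_lit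 5) (nat_lit 257) (nat_lit 5) (nat_lit 248) (nat_lit 5) (nat_lit 351) (nat_lit 315) (nat_lit 234)) (XT.nd (nat_lit 78) (nat_lit 608) (nat_lit 0) (XT.lf (nat_lit 0) (nat_lit 7933715025) (nat_lit 684) (nat_lit 3799457080) (nat_lit 76) (nat_lit 356508776) (nat_lit 239) (nat_lit 5) (nat_lit 248) (nat_lit 5) (nat_lit 240) (nat_lit 5) (nat_lit 352) (nat_lit 315) (nat_lit 233)) (XT.lf (nat_lit 0) (nat_lit 6349445373) (nat_lit 608) (nat_lit 5160774865) (nat_lit 684) (nat_lit 782731139) (nat_lit 231) (nat_lit 5) (nat_lit 239) (nat_lit 5) (nat_lit 240) (nat_lit 5) (nat_lit 353) (nat_lit 315) (nat_lit 232))))) (XT.nd (nat_lit 156) (nat_lit 1140) (nat_lit 0) (XT.nd (nat_lit 78) (nat_lit 608) (nat_lit 0) (XT.lf (nat_lit 0) (nat_lit 2685594615) (nat_lit 684) (nat_lit 8163488519) (nat_lit 76) (nat_lit 1652318028) (nat_lit 222) (nat_lit 5) (nat_lit 231) (nat_lit 5) (nat_lit 223) (nat_lit 5) (nat_lit 354) (nat_lit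 315) (nat_lit 231)) (XT.lf (nat_lit 0) (nat_lit 2239823146) (nat_lit 608) (nat_lit 4062058816) (nat_lit 684) (nat_lit 6413042274) (nat_lit 214) (nat_lit 5) (nat_lit 222) (nat_lit 5) (nat_lit 223) (nat_lit 5) (nat_lit 355) (nat_lit 315) (nat_lit 230))) (XT.nd (nat_lit 78) (nat_lit 608) (nat_lit 0) (XT.lf (nat_lit 0) (nat_lit 71474338) (nat_lit 532) (nat_lit 9995927229) (nat_lit 608) (nat_lit 2866650346) (nat_lit 207) (nat_lit 5) (nat_lit 214) (nat_lit 5) (nat_lit 215) (nat_lit 5) (nat_lit 356) (nat_lit 315) (nat_lit 229)) (XT.nd (nat_lit 78) (nat_lit 532) (nat_lit 0) (XT.lf (nat_lit 0) (nat_lit 840510628) (nat_lit 608) (nat_lit 2156315296) (nat_lit 76) (nat_lit 10161544781) (nat_lit 206) (nat_lit 5) (nat_lit 214) (nat_lit 5) (nat_lit 207) (nat_lit 5) (nat_lit 357) (nat_lit 315) (nat_lit 228)) (XT.lf (nat_lit 0) (nat_lit 4672983606) (nat_lit 608) (nat_lit 4489123223) (nat_lit 76) (nat_lit 4225885123)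 (nat_lit 199) (nat_lit 5) (nat_lit 207) (nat_lit 5) (nat_lit 200) (nat_lit 5) (nat_lit 358) (nat_lit 315) (nat_lit 227)))))) (XT.nd (nat_lit 390) (nat_lit 1976) (nat_lit 0) (XT.nd (nat_lit 156) (nat_lit 1064) (nat_lit 0) (XT.nd (nat_lit 78) (nat_lit 532) (nat_lit 0) (XT.lf (nat_lit 0) (nat_lit 6717233546) (nat_lit 532) (nat_lit 1949252678) (nat_lit 608) (nat_lit 4957106869) (nat_lit 192) (nat_lit 5) (nat_lit 199) (nat_lit 5) (nat_lit 200) (nat_lit 5) (nat_lit 359) (nat_lit 315) (nat_lit 226)) (XT.lf (nat_lit 0) (nat_lit 4436329871) (nat_lit 532) (nat_lit 8406774632) (nat_lit 608) (nat_lit 1021903556) (nat_lit 185) (nat_lit 5) (nat_lit 192) (nat_lit 5) (nat_lit 193) (nat_lit 5) (nat_lit 360) (nat_lit 315) (nat_lit 225))) (XT.nd (nat_lit 78) (nat_lit 532) (nat_lit 0) (XT.lf (nat_lit 0) (nat_lit 2053614027) (nat_lit 456) (nat_lit 980209766) (nat_lit 532) (nat_lit 11078614985) (nat_lit 178) (nat_lit 5)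 (nat_lit 184) (nat_lit 5) (nat_lit 185) (nat_lit 5) (nat_lit 361) (nat_lit 315) (nat_lit 224)) (XT.nd (nat_lit 78) (nat_lit 532) (nat_lit 0) (XT.lf (nat_lit 0) (nat_lit 7274360178) (nat_lit 532) (nat_lit 448420157) (nat_lit 76) (nat_lit 6642847663) (nat_lit 178) (nat_lit 5) (nat_lit 185) (nat_lit 5) (nat_lit 179) (nat_lit 5) (nat_lit 362) (nat_lit 315) (nat_lit 223)) (XT.lf (nat_lit 0) (nat_lit 11616005720) (nat_lit 532) (nat_lit 78300607) (nat_lit 608) (nat_lit 2931073467) (nat_lit 171) (nat_lit 5) (nat_lit 178) (nat_lit 5) (nat_lit 179) (nat_lit 5) (nat_lit 363) (nat_lit 315) (nat_lit 222))))) (XT.nd (nat_lit 156) (nat_lit 988) (nat_lit 0) (XT.nd (nat_lit 78) (nat_lit 456) (nat_lit 0) (XT.lf (nat_lit 0) (nat_lit 1420791564) (nat_lit 532) (nat_lit 5715084112) (nat_lit 76) (nat_lit 7755190471) (nat_lit 164) (nat_lit 5) (nat_lit 171) (nat_lit 5) (nat_lit 165) (nat_lit 5) (nat_lit 364) (nat_lit 315)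 (nat_lit 221)) (XT.lf (nat_lit 0) (nat_lit 5903633347) (nat_lit 532) (nat_lit 8537611169) (nat_lit 76) (nat_lit 722296187) (nat_lit 158) (nat_lit 5) (nat_lit 165) (nat_lit 5) (nat_lit 159) (nat_lit 5) (nat_lit 365) (nat_lit 315) (nat_lit 220))) (XT.nd (nat_lit 78) (nat_lit 532) (nat_lit 0) (XT.lf (nat_lit 0) (nat_lit 3936068609) (nat_lit 456) (nat_lit 6668829102) (nat_lit 532) (nat_lit 4837622704) (nat_lit 152) (nat_lit 5) (nat_lit 158) (nat_lit 5) (nat_lit 159) (nat_lit 5) (nat_lit 366) (nat_lit 315) (nat_lit 219)) (XT.nd (nat_lit 78) (nat_lit 76) (nat_lit 0) (XT.lf (nat_lit 0) (nat_lit 1138566757) (nat_lit 456) (nat_lit 14355118388) (nat_lit 532) (nat_lit 235264052) (nat_lit 146) (nat_lit 5) (nat_lit 152) (nat_lit 5) (nat_lit 153) (nat_lit 5) (nat_lit 367) (nat_lit 315) (nat_lit 218)) (XT.lf (nat_lit 0) (nat_lit 4541710518) (nat_lit 532) (nat_lit 1815486039) (nat_lit 76) (nat_lit 9664285580) (nat_lit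 145) (nat_lit 5) (nat_lit 152) (nat_lit 5) (nat_lit 146) (nat_lit 5) (nat_lit 368) (nat_lit 315) (nat_lit 217))))))) (XT.nd (nat_lit 780) (nat_lit 1292) (nat_lit 0) (XT.nd (nat_lit 390) (nat_lit 1596) (nat_lit 0) (XT.nd (nat_lit 156) (nat_lit 836) (nat_lit 0) (XT.nd (nat_lit 78) (nat_lit 456) (nat_lit 0) (XT.lf (nat_lit 0) (nat_lit 9519163959) (nat_lit 456) (nat_lit 4881166008) (nat_lit 76) (nat_lit 1921231349) (nat_lit 140) (nat_lit 5) (nat_lit 146) (nat_lit 5) (nat_lit 141) (nat_lit 5) (nat_lit 369) (nat_lit 315) (nat_lit 216)) (XT.lf (nat_lit 0) (nat_lit 8519700367) (nat_lit 456) (nat_lit 6210259451) (nat_lit 532) (nat_lit 1899011094) (nat_lit 134) (nat_lit 5) (nat_lit 140) (nat_lit 5) (nat_lit 141) (nat_lit 5) (nat_lit 370) (nat_lit 315) (nat_lit 215))) (XT.nd (nat_lit 78) (nat_lit 380) (nat_lit 0) (XT.lf (nat_lit 0) (nat_lit 3167988639) (nat_lit 456) (nat_lit 11501529715) (nat_lit 76) (nat_lit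 2274526341) (nat_lit 128) (nat_lit 5) (nat_lit 134) (nat_lit 5) (nat_lit 129) (nat_lit 5) (nat_lit 371) (nat_lit 315) (nat_lit 214)) (XT.nd (nat_lit 78) (nat_lit 0) (nat_lit 0) (XT.lf (nat_lit 0) (nat_lit 2180977307) (nat_lit 380) (nat_lit 6265960492) (nat_lit 456) (nat_lit 8819674834) (nat_lit 123) (nat_lit 5) (nat_lit 128) (nat_lit 5) (nat_lit 129) (nat_lit 5) (nat_lit 372) (nat_lit 315) (nat_lit 213)) (XT.lf (nat_lit 0) (nat_lit 13953235577) (nat_lit 456) (nat_lit 1219173551) (nat_lit 76) (nat_lit 2425076430) (nat_lit 123) (nat_lit 5) (nat_lit 129) (nat_lit 5) (nat_lit 124) (nat_lit 5) (nat_lit 373) (nat_lit 315) (nat_lit 212))))) (XT.nd (nat_lit 156) (nat_lit 760) (nat_lit 0) (XT.nd (nat_lit 78) (nat_lit 380) (nat_lit 0) (XT.lf (nat_lit 0) (nat_lit 1768065713) (nat_lit 456) (nat_lit 4790069685) (nat_lit 76) (nat_lit 11377862551) (nat_lit 117) (nat_lit 5) (nat_lit 123) (nat_lit 5) (nat_lit 118)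 (nat_lit 5) (nat_lit 374) (nat_lit 315) (nat_lit 211)) (XT.lf (nat_lit 0) (nat_lit 7356722292) (nat_lit 456) (nat_lit 8557201428) (nat_lit 76) (nat_lit 2368997552) (nat_lit 112) (nat_lit 5) (nat_lit 118) (nat_lit 5) (nat_lit 113) (nat_lit 5) (nat_lit 375) (nat_lit 315) (nat_lit 210))) (XT.nd (nat_lit 78) (nat_lit 456) (nat_lit 0) (XT.lf (nat_lit 0) (nat_lit 6103210972) (nat_lit 304) (nat_lit 7102425871) (nat_lit 380) (nat_lit 5432770262) (nat_lit 108) (nat_lit 5) (nat_lit 112) (nat_lit 5) (nat_lit 113) (nat_lit 5) (nat_lit 376) (nat_lit 315) (nat_lit 209)) (XT.nd (nat_lit 78) (nat_lit 0) (nat_lit 0) (XT.lf (nat_lit 0) (nat_lit 285842723) (nat_lit 456) (nat_lit 16706585945) (nat_lit 76) (nat_lit 2010839249) (nat_lit 102) (nat_lit 5) (nat_lit 108) (nat_lit 5) (nat_lit 103) (nat_lit 5) (nat_lit 377) (nat_lit 315) (nat_lit 208)) (XT.lf (nat_lit 0) (nat_lit 6212739277) (nat_lit 456) (nat_lit 1751920602)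 (nat_lit 76) (nat_lit 11411492022) (nat_lit 102) (nat_lit 5) (nat_lit 108) (nat_lit 5) (nat_lit 103) (nat_lit 5) (nat_lit 378) (nat_lit 315) (nat_lit 207)))))) (XT.nd (nat_lit 41964) (nat_lit 0) (nat_lit 32376) (XT.nd (nat_lit 156) (nat_lit 684) (nat_lit 0) (XT.nd (nat_lit 78) (nat_lit 304) (nat_lit 0) (XT.lf (nat_lit 0) (nat_lit 12393984528) (nat_lit 380) (nat_lit 5969935083) (nat_lit 76) (nat_lit 1394778035) (nat_lit 98) (nat_lit 5) (nat_lit 103) (nat_lit 5) (nat_lit 99) (nat_lit 5) (nat_lit 379) (nat_lit 315) (nat_lit 206)) (XT.lf (nat_lit 0) (nat_lit 9707096322) (nat_lit 304) (nat_lit 9159939647) (nat_lit 380) (nat_lit 1283562321) (nat_lit 94) (nat_lit 5) (nat_lit 98) (nat_lit 5) (nat_lit 99) (nat_lit 5) (nat_lit 380) (nat_lit 315) (nat_lit 205))) (XT.nd (nat_lit 78) (nat_lit 304) (nat_lit 0) (XT.lf (nat_lit 0) (nat_lit 4971524480) (nat_lit 380) (nat_lit 15168266072) (nat_lit 76) (nat_lit 412688039)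 (nat_lit 89) (nat_lit 5) (nat_lit 94) (nat_lit 5) (nat_lit 90) (nat_lit 5) (nat_lit 381) (nat_lit 315) (nat_lit 204)) (XT.nd (nat_lit 78) (nat_lit 0) (nat_lit 0) (XT.lf (nat_lit 0) (nat_lit 770932744) (nat_lit 304) (nat_lit 10742228583) (nat_lit 380) (nat_lit 9450763021) (nat_lit 85) (nat_lit 5) (nat_lit 89) (nat_lit 5) (nat_lit 90) (nat_lit 5) (nat_lit 382) (nat_lit 315) (nat_lit 203)) (XT.lf (nat_lit 0) (nat_lit 17362897943) (nat_lit 304) (nat_lit 970076608) (nat_lit 380) (nat_lit 3053105678) (nat_lit 85) (nat_lit 5) (nat_lit 89) (nat_lit 5) (nat_lit 90) (nat_lit 5) (nat_lit 383) (nat_lit 315) (nat_lit 202))))) (XT.nd (nat_lit 156) (nat_lit 1216) (nat_lit 0) (XT.nd (nat_lit 78) (nat_lit 0) (nat_lit 0) (XT.lf (nat_lit 0) (nat_lit 1194096639) (nat_lit 1292) (nat_lit 1288572301) (nat_lit 1292) (nat_lit 1288572301) (nat_lit 527) (nat_lit 3) (nat_lit 544) (nat_lit 3) (nat_lit 544) (nat_lit 5) (nat_lit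 316) (nat_lit 316) (nat_lit 268)) (XT.lf (nat_lit 76) (nat_lit 2803600707) (nat_lit 0) (nat_lit 1703604569) (nat_lit 1292) (nat_lit 3105465582) (nat_lit 528) (nat_lit 5) (nat_lit 527) (nat_lit 3) (nat_lit 544) (nat_lit 5) (nat_lit 317) (nat_lit 316) (nat_lit 267))) (XT.nd (nat_lit 78) (nat_lit 1292) (nat_lit 0) (XT.lf (nat_lit 76) (nat_lit 650498488) (nat_lit 0) (nat_lit 5991236765) (nat_lit 1292) (nat_lit 1044240830) (nat_lit 529) (nat_lit 5) (nat_lit 528) (nat_lit 5) (nat_lit 545) (nat_lit 5) (nat_lit 318) (nat_lit 316) (nat_lit 266)) (XT.nd (nat_lit 78) (nat_lit 0) (nat_lit 76) (XT.lf (nat_lit 0) (nat_lit 1029762463) (nat_lit 1292) (nat_lit 1483746604) (nat_lit 1368) (nat_lit 5248577233) (nat_lit 511) (nat_lit 5) (nat_lit 528) (nat_lit 5) (nat_lit 529) (nat_lit 5) (nat_lit 319) (nat_lit 316) (nat_lit 265)) (XT.lf (nat_lit 0) (nat_lit 3109997597) (nat_lit 1292) (nat_lit 3608297397) (nat_lit 1368)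 (nat_lit 1122929151) (nat_lit 512) (nat_lit 5) (nat_lit 529) (nat_lit 5) (nat_lit 530) (nat_lit 5) (nat_lit 320) (nat_lit 316) (nat_lit 264))))))))
noncomputable def xc80 : XT := (XT.nd (nat_lit 1482) (nat_lit 11324) (nat_lit 0) (XT.nd (nat_lit 702) (nat_lit 9880) (nat_lit 0) (XT.nd (nat_lit 312) (nat_lit 1292) (nat_lit 0) (XT.nd (nat_lit 156) (nat_lit 1292) (nat_lit 0) (XT.nd (nat_lit 78) (nat_lit 0) (nat_lit 76) (XT.lf (nat_lit 76) (nat_lit 2186913987) (nat_lit 0) (nat_lit 3032230276) (nat_lit 1368) (nat_lit 2704306771) (nat_lit 513) (nat_lit 5) (nat_lit 512) (nat_lit 5) (nat_lit 530) (nat_lit 5) (nat_lit 321) (nat_lit 316) (nat_lit 263)) (XT.lf (nat_lit 76) (nat_lit 149808540) (nat_lit 0) (nat_lit 7199767770) (nat_lit 1368) (nat_lit 659451885) (nat_lit 514) (nat_lit 5) (nat_lit 513) (nat_lit 5) (nat_lit 531) (nat_lit 5) (nat_lit 322) (nat_lit 316) (nat_lit 262))) (XT.nd (nat_lit 78) (nat_lit 0)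 (nat_lit 76) (XT.lf (nat_lit 0) (nat_lit 1415961289) (nat_lit 1368) (nat_lit 1880066887) (nat_lit 1444) (nat_lit 4801234473) (nat_lit 495) (nat_lit 5) (nat_lit 513) (nat_lit 5) (nat_lit 514) (nat_lit 5) (nat_lit 323) (nat_lit 316) (nat_lit 261)) (XT.lf (nat_lit 0) (nat_lit 3508498113) (nat_lit 1368) (nat_lit 3907437085) (nat_lit 1444) (nat_lit 772885718) (nat_lit 496) (nat_lit 5) (nat_lit 514) (nat_lit 5) (nat_lit 515) (nat_lit 5) (nat_lit 324) (nat_lit 316) (nat_lit 260)))) (XT.nd (nat_lit 156) (nat_lit 1368) (nat_lit 0) (XT.nd (nat_lit 78) (nat_lit 0) (nat_lit 76) (XT.lf (nat_lit 76) (nat_lit 2334496283) (nat_lit 0) (nat_lit 3312085086) (nat_lit 1444) (nat_lit 2636928351) (nat_lit 497) (nat_lit 5) (nat_lit 496) (nat_lit 5) (nat_lit 515) (nat_lit 5) (nat_lit 325) (nat_lit 316) (nat_lit 259)) (XT.lf (nat_lit 76) (nat_lit 390363295) (nat_lit 0) (nat_lit 7428134318) (nat_lit 1444) (nat_lit 563185820)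 (nat_lit 498) (nat_lit 5) (nat_lit 497) (nat_lit 5) (nat_lit 516) (nat_lit 5) (nat_lit 326) (nat_lit 316) (nat_lit 258))) (XT.nd (nat_lit 78) (nat_lit 0) (nat_lit 76) (XT.lf (nat_lit 0) (nat_lit 1550590638) (nat_lit 1444) (nat_lit 1558731675) (nat_lit 1520) (nat_lit 5373343059) (nat_lit 478) (nat_lit 5) (nat_lit 497) (nat_lit 5) (nat_lit 498) (nat_lit 5) (nat_lit 327) (nat_lit 316) (nat_lit 257)) (XT.nd (nat_lit 78) (nat_lit 0) (nat_lit 0) (XT.lf (nat_lit 0) (nat_lit 3699840367) (nat_lit 1444) (nat_lit 3510649556) (nat_lit 1520) (nat_lit 1376553330) (nat_lit 479) (nat_lit 5) (nat_lit 498) (nat_lit 5) (nat_lit 499) (nat_lit 5) (nat_lit 328) (nat_lit 316) (nat_lit 256)) (XT.lf (nat_lit 76) (nat_lit 3214072673) (nat_lit 0) (nat_lit 2691030015) (nat_lit 1520) (nat_lit 2789653224) (nat_lit 480) (nat_lit 5) (nat_lit 479) (nat_lit 5) (nat_lit 499) (nat_lit 5) (nat_lit 329) (nat_lit 316) (nat_lit 255))))))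 (XT.nd (nat_lit 390) (nat_lit 5472) (nat_lit 0) (XT.nd (nat_lit 156) (nat_lit 3040) (nat_lit 0) (XT.nd (nat_lit 78) (nat_lit 1520) (nat_lit 0) (XT.lf (nat_lit 76) (nat_lit 1342691407) (nat_lit 0) (nat_lit 6820071404) (nat_lit 1520) (nat_lit 643245487) (nat_lit 481) (nat_lit 5) (nat_lit 480) (nat_lit 5) (nat_lit 500) (nat_lit 5) (nat_lit 330) (nat_lit 316) (nat_lit 254)) (XT.lf (nat_lit 0) (nat_lit 1544220009) (nat_lit 1520) (nat_lit 547931387) (nat_lit 1596) (nat_lit 6828330372) (nat_lit 460) (nat_lit 5) (nat_lit 480) (nat_lit 5) (nat_lit 481) (nat_lit 5) (nat_lit 331) (nat_lit 316) (nat_lit 253))) (XT.nd (nat_lit 78) (nat_lit 3116) (nat_lit 0) (XT.lf (nat_lit 0) (nat_lit 3793521864) (nat_lit 1520) (nat_lit 2443804291) (nat_lit 76) (nat_lit 2800909853) (nat_lit 461) (nat_lit 5) (nat_lit 481) (nat_lit 5) (nat_lit 462) (nat_lit 5) (nat_lit 332) (nat_lit 316) (nat_lit 252)) (XT.nd (nat_lit 78) (nat_lit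 1596) (nat_lit 0) (XT.lf (nat_lit 0) (nat_lit 4803487891) (nat_lit 1520) (nat_lit 1300706936) (nat_lit 1596) (nat_lit 3055479946) (nat_lit 441) (nat_lit 5) (nat_lit 461) (nat_lit 5) (nat_lit 462) (nat_lit 5) (nat_lit 333) (nat_lit 316) (nat_lit 251)) (XT.lf (nat_lit 0) (nat_lit 2986661928) (nat_lit 1596) (nat_lit 5504512776) (nat_lit 1672) (nat_lit 793471136) (nat_lit 420) (nat_lit 5) (nat_lit 441) (nat_lit 5) (nat_lit 442) (nat_lit 5) (nat_lit 334) (nat_lit 316) (nat_lit 250))))) (XT.nd (nat_lit 156) (nat_lit 3724) (nat_lit 0) (XT.nd (nat_lit 78) (nat_lit 0) (nat_lit 0) (XT.lf (nat_lit 0) (nat_lit 1147780197) (nat_lit 1672) (nat_lit 361590066) (nat_lit 1748) (nat_lit 7903961304) (nat_lit 397) (nat_lit 5) (nat_lit 419) (nat_lit 5) (nat_lit 420) (nat_lit 5) (nat_lit 335) (nat_lit 316) (nat_lit 249)) (XT.lf (nat_lit 0) (nat_lit 3894135782) (nat_lit 1748) (nat_lit 724958399) (nat_lit 76) (nat_lit 4926233089)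 (nat_lit 397) (nat_lit 5) (nat_lit 420) (nat_lit 5) (nat_lit 398) (nat_lit 5) (nat_lit 336) (nat_lit 316) (nat_lit 248))) (XT.nd (nat_lit 78) (nat_lit 1976) (nat_lit 0) (XT.lf (nat_lit 0) (nat_lit 6353735708) (nat_lit 1824) (nat_lit 2597842627) (nat_lit 76) (nat_lit 729664586) (nat_lit 374) (nat_lit 5) (nat_lit 398) (nat_lit 5) (nat_lit 375) (nat_lit 5) (nat_lit 337) (nat_lit 316) (nat_lit 247)) (XT.nd (nat_lit 78) (nat_lit 988) (nat_lit 0) (XT.lf (nat_lit 0) (nat_lit 5309080416) (nat_lit 988) (nat_lit 3599607404) (nat_lit 1064) (nat_lit 912142089) (nat_lit 361) (nat_lit 5) (nat_lit 374) (nat_lit 5) (nat_lit 375) (nat_lit 5) (nat_lit 338) (nat_lit 316) (nat_lit 246)) (XT.lf (nat_lit 0) (nat_lit 1560401827) (nat_lit 988) (nat_lit 6461430264) (nat_lit 76) (nat_lit 1942484081) (nat_lit 348) (nat_lit 5) (nat_lit 361) (nat_lit 5) (nat_lit 349) (nat_lit 5) (nat_lit 339) (nat_lit 316) (nat_lit 245)))))))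 (XT.nd (nat_lit 780) (nat_lit 5092) (nat_lit 0) (XT.nd (nat_lit 390) (nat_lit 2964) (nat_lit 0) (XT.nd (nat_lit 156) (nat_lit 2432) (nat_lit 0) (XT.nd (nat_lit 78) (nat_lit 0) (nat_lit 0) (XT.lf (nat_lit 0) (nat_lit 1654929292) (nat_lit 836) (nat_lit 2458652980) (nat_lit 912) (nat_lit 5998050358) (nat_lit 337) (nat_lit 5) (nat_lit 348) (nat_lit 5) (nat_lit 349) (nat_lit 5) (nat_lit 340) (nat_lit 316) (nat_lit 244)) (XT.lf (nat_lit 0) (nat_lit 6762952745) (nat_lit 912) (nat_lit 225646741) (nat_lit 76) (nat_lit 3274399767) (nat_lit 337) (nat_lit 5) (nat_lit 349) (nat_lit 5) (nat_lit 338) (nat_lit 5) (nat_lit 341) (nat_lit 316) (nat_lit 243))) (XT.nd (nat_lit 78) (nat_lit 1596) (nat_lit 0) (XT.lf (nat_lit 0) (nat_lit 8301229469) (nat_lit 836) (nat_lit 1216525430) (nat_lit 912) (nat_lit 900654873) (nat_lit 326) (nat_lit 5) (nat_lit 337) (nat_lit 5) (nat_lit 338) (nat_lit 5) (nat_lit 342) (nat_lit 316)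 (nat_lit 242)) (XT.nd (nat_lit 78) (nat_lit 760) (nat_lit 0) (XT.lf (nat_lit 0) (nat_lit 1784802557) (nat_lit 836) (nat_lit 4070007424) (nat_lit 76) (nat_lit 4722835045) (nat_lit 315) (nat_lit 5) (nat_lit 326) (nat_lit 5) (nat_lit 316) (nat_lit 5) (nat_lit 343) (nat_lit 316) (nat_lit 241)) (XT.lf (nat_lit 0) (nat_lit 4549813877) (nat_lit 836) (nat_lit 6059857140) (nat_lit 76) (nat_lit 131662969) (nat_lit 305) (nat_lit 5) (nat_lit 316) (nat_lit 5) (nat_lit 306) (nat_lit 5) (nat_lit 344) (nat_lit 316) (nat_lit 240))))) (XT.nd (nat_lit 156) (nat_lit 1444) (nat_lit 0) (XT.nd (nat_lit 78) (nat_lit 760) (nat_lit 0) (XT.lf (nat_lit 0) (nat_lit 2795415497) (nat_lit 760) (nat_lit 4645695359) (nat_lit 836) (nat_lit 3467975707) (nat_lit 295) (nat_lit 5) (nat_lit 305) (nat_lit 5) (nat_lit 306) (nat_lit 5) (nat_lit 345) (nat_lit 316) (nat_lit 239)) (XT.lf (nat_lit 0) (nat_lit 875882992) (nat_lit 760) (nat_lit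 9559197932) (nat_lit 836) (nat_lit 646491194) (nat_lit 285) (nat_lit 5) (nat_lit 295) (nat_lit 5) (nat_lit 296) (nat_lit 5) (nat_lit 346) (nat_lit 316) (nat_lit 238))) (XT.nd (nat_lit 78) (nat_lit 1368) (nat_lit 0) (XT.lf (nat_lit 0) (nat_lit 2276232093) (nat_lit 836) (nat_lit 1101747170) (nat_lit 76) (nat_lit 7880053126) (nat_lit 284) (nat_lit 5) (nat_lit 295) (nat_lit 5) (nat_lit 285) (nat_lit 5) (nat_lit 347) (nat_lit 316) (nat_lit 237)) (XT.nd (nat_lit 78) (nat_lit 684) (nat_lit 0) (XT.lf (nat_lit 0) (nat_lit 5312796072) (nat_lit 760) (nat_lit 3121265373) (nat_lit 76) (nat_lit 3004958344) (nat_lit 275) (nat_lit 5) (nat_lit 285) (nat_lit 5) (nat_lit 276) (nat_lit 5) (nat_lit 348) (nat_lit 316) (nat_lit 236)) (XT.lf (nat_lit 0) (nat_lit 6428817849) (nat_lit 684) (nat_lit 2045314003) (nat_lit 760) (nat_lit 3150648583) (nat_lit 266) (nat_lit 5) (nat_lit 275) (nat_lit 5) (nat_lit 276) (nat_lit 5) (nat_lit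 349) (nat_lit 316) (nat_lit 235)))))) (XT.nd (nat_lit 390) (nat_lit 2356) (nat_lit 0) (XT.nd (nat_lit 156) (nat_lit 1292) (nat_lit 0) (XT.nd (nat_lit 78) (nat_lit 760) (nat_lit 0) (XT.lf (nat_lit 0) (nat_lit 4479058781) (nat_lit 684) (nat_lit 7293706316) (nat_lit 760) (nat_lit 42516279) (nat_lit 257) (nat_lit 5) (nat_lit 266) (nat_lit 5) (nat_lit 267) (nat_lit 5) (nat_lit 350) (nat_lit 316) (nat_lit 234)) (XT.lf (nat_lit 0) (nat_lit 2460153856) (nat_lit 684) (nat_lit 685569924) (nat_lit 760) (nat_lit 8864813342) (nat_lit 247) (nat_lit 5) (nat_lit 256) (nat_lit 5) (nat_lit 257) (nat_lit 5) (nat_lit 351) (nat_lit 316) (nat_lit 233))) (XT.nd (nat_lit 78) (nat_lit 684) (nat_lit 0) (XT.lf (nat_lit 0) (nat_lit 362218086) (nat_lit 608) (nat_lit 6122916367) (nat_lit 684) (nat_lit 5725403809) (nat_lit 239) (nat_lit 5) (nat_lit 247) (nat_lit 5) (nat_lit 248) (nat_lit 5) (nat_lit 352) (nat_lit 316) (nat_lit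 232)) (XT.nd (nat_lit 78) (nat_lit 684) (nat_lit 0) (XT.lf (nat_lit 0) (nat_lit 9963272239) (nat_lit 684) (nat_lit 1763802008) (nat_lit 76) (nat_lit 688709207) (nat_lit 239) (nat_lit 5) (nat_lit 248) (nat_lit 5) (nat_lit 240) (nat_lit 5) (nat_lit 353) (nat_lit 316) (nat_lit 231)) (XT.lf (nat_lit 0) (nat_lit 969790977) (nat_lit 684) (nat_lit 3977631141) (nat_lit 76) (nat_lit 7678393399) (nat_lit 230) (nat_lit 5) (nat_lit 239) (nat_lit 5) (nat_lit 231) (nat_lit 5) (nat_lit 354) (nat_lit 316) (nat_lit 230))))) (XT.nd (nat_lit 156) (nat_lit 1140) (nat_lit 0) (XT.nd (nat_lit 78) (nat_lit 608) (nat_lit 0) (XT.lf (nat_lit 0) (nat_lit 4496279670) (nat_lit 684) (nat_lit 6271341460) (nat_lit 76) (nat_lit 2073520225) (nat_lit 222) (nat_lit 5) (nat_lit 231) (nat_lit 5) (nat_lit 223) (nat_lit 5) (nat_lit 355) (nat_lit 316) (nat_lit 229)) (XT.lf (nat_lit 0) (nat_lit 4409398431) (nat_lit 608) (nat_lit 3774915492)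 (nat_lit 684) (nat_lit 4877511406) (nat_lit 214) (nat_lit 5) (nat_lit 222) (nat_lit 5) (nat_lit 223) (nat_lit 5) (nat_lit 356) (nat_lit 316) (nat_lit 228))) (XT.nd (nat_lit 78) (nat_lit 608) (nat_lit 0) (XT.lf (nat_lit 0) (nat_lit 2173264237) (nat_lit 532) (nat_lit 9856423741) (nat_lit 608) (nat_lit 1258520861) (nat_lit 207) (nat_lit 5) (nat_lit 214) (nat_lit 5) (nat_lit 215) (nat_lit 5) (nat_lit 357) (nat_lit 316) (nat_lit 227)) (XT.nd (nat_lit 78) (nat_lit 532) (nat_lit 0) (XT.lf (nat_lit 0) (nat_lit 2488939723) (nat_lit 608) (nat_lit 160314569) (nat_lit 76) (nat_lit 10870775671) (nat_lit 206) (nat_lit 5) (nat_lit 214) (nat_lit 5) (nat_lit 207) (nat_lit 5) (nat_lit 358) (nat_lit 316) (nat_lit 226)) (XT.lf (nat_lit 0) (nat_lit 6405115948) (nat_lit 608) (nat_lit 2566992539) (nat_lit 76) (nat_lit 4785075058) (nat_lit 199) (nat_lit 5) (nat_lit 207) (nat_lit 5) (nat_lit 200) (nat_lit 5) (nat_lit 359)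 (nat_lit 316) (nat_lit 225))))))))
noncomputable def xc81 : XT := (XT.nd (nat_lit 1482) (nat_lit 1292) (nat_lit 0) (XT.nd (nat_lit 702) (nat_lit 3268) (nat_lit 0) (XT.nd (nat_lit 312) (nat_lit 1976) (nat_lit 0) (XT.nd (nat_lit 156) (nat_lit 988) (nat_lit 0) (XT.nd (nat_lit 78) (nat_lit 608) (nat_lit 0) (XT.lf (nat_lit 0) (nat_lit 8942185725) (nat_lit 532) (nat_lit 1543008134) (nat_lit 608) (nat_lit 3515341202) (nat_lit 192) (nat_lit 5) (nat_lit 199) (nat_lit 5) (nat_lit 200) (nat_lit 5) (nat_lit 360) (nat_lit 316) (nat_lit 224)) (XT.lf (nat_lit 0) (nat_lit 501289823) (nat_lit 608) (nat_lit 7664785672) (nat_lit 76) (nat_lit 6083655495) (nat_lit 184) (nat_lit 5) (nat_lit 192) (nat_lit 5) (nat_lit 185) (nat_lit 5) (nat_lit 361) (nat_lit 316) (nat_lit 223))) (XT.nd (nat_lit 78) (nat_lit 532) (nat_lit 0) (XT.lf (nat_lit 0) (nat_lit 4122046127) (nat_lit 456) (nat_lit 511012266) (nat_lit 532) (nat_lit 9872042480)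 (nat_lit 178) (nat_lit 5) (nat_lit 184) (nat_lit 5) (nat_lit 185) (nat_lit 5) (nat_lit 362) (nat_lit 316) (nat_lit 222)) (XT.lf (nat_lit 0) (nat_lit 1533282613) (nat_lit 532) (nat_lit 7436697588) (nat_lit 608) (nat_lit 5796538105) (nat_lit 171) (nat_lit 5) (nat_lit 178) (nat_lit 5) (nat_lit 179) (nat_lit 5) (nat_lit 363) (nat_lit 316) (nat_lit 221)))) (XT.nd (nat_lit 156) (nat_lit 1444) (nat_lit 0) (XT.nd (nat_lit 78) (nat_lit 532) (nat_lit 0) (XT.lf (nat_lit 0) (nat_lit 13485203788) (nat_lit 608) (nat_lit 1130150188) (nat_lit 76) (nat_lit 419470557) (nat_lit 171) (nat_lit 5) (nat_lit 179) (nat_lit 5) (nat_lit 172) (nat_lit 5) (nat_lit 364) (nat_lit 316) (nat_lit 220)) (XT.lf (nat_lit 0) (nat_lit 2884464232) (nat_lit 532) (nat_lit 3930124079) (nat_lit 76) (nat_lit 8494298370) (nat_lit 164) (nat_lit 5) (nat_lit 171) (nat_lit 5) (nat_lit 165) (nat_lit 5) (nat_lit 365) (nat_lit 316) (nat_lit 219))) (XT.nd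 (nat_lit 78) (nat_lit 988) (nat_lit 0) (XT.lf (nat_lit 0) (nat_lit 7476355194) (nat_lit 532) (nat_lit 6844205575) (nat_lit 76) (nat_lit 1269497712) (nat_lit 158) (nat_lit 5) (nat_lit 165) (nat_lit 5) (nat_lit 159) (nat_lit 5) (nat_lit 366) (nat_lit 316) (nat_lit 218)) (XT.nd (nat_lit 78) (nat_lit 532) (nat_lit 0) (XT.lf (nat_lit 0) (nat_lit 5972055724) (nat_lit 456) (nat_lit 6318405158) (nat_lit 532) (nat_lit 3587524503) (nat_lit 152) (nat_lit 5) (nat_lit 158) (nat_lit 5) (nat_lit 159) (nat_lit 5) (nat_lit 367) (nat_lit 316) (nat_lit 217)) (XT.lf (nat_lit 0) (nat_lit 1113659912) (nat_lit 532) (nat_lit 13097469877) (nat_lit 76) (nat_lit 1962223224) (nat_lit 145) (nat_lit 5) (nat_lit 152) (nat_lit 5) (nat_lit 146) (nat_lit 5) (nat_lit 368) (nat_lit 316) (nat_lit 216)))))) (XT.nd (nat_lit 390) (nat_lit 1596) (nat_lit 0) (XT.nd (nat_lit 156) (nat_lit 1292) (nat_lit 0) (XT.nd (nat_lit 78) (nat_lit 0) (nat_lit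 0) (XT.lf (nat_lit 0) (nat_lit 2952884) (nat_lit 380) (nat_lit 5988429859) (nat_lit 456) (nat_lit 10484048207) (nat_lit 140) (nat_lit 5) (nat_lit 145) (nat_lit 5) (nat_lit 146) (nat_lit 5) (nat_lit 369) (nat_lit 316) (nat_lit 215)) (XT.lf (nat_lit 0) (nat_lit 11095454626) (nat_lit 456) (nat_lit 3162570059) (nat_lit 76) (nat_lit 2526954367) (nat_lit 140) (nat_lit 5) (nat_lit 146) (nat_lit 5) (nat_lit 141) (nat_lit 5) (nat_lit 370) (nat_lit 316) (nat_lit 214))) (XT.nd (nat_lit 78) (nat_lit 836) (nat_lit 0) (XT.lf (nat_lit 0) (nat_lit 10610064397) (nat_lit 456) (nat_lit 5826828864) (nat_lit 532) (nat_lit 665243376) (nat_lit 134) (nat_lit 5) (nat_lit 140) (nat_lit 5) (nat_lit 141) (nat_lit 5) (nat_lit 371) (nat_lit 316) (nat_lit 213)) (XT.nd (nat_lit 78) (nat_lit 380) (nat_lit 0) (XT.lf (nat_lit 0) (nat_lit 4515290380) (nat_lit 456) (nat_lit 10002897095) (nat_lit 76) (nat_lit 2908750007) (nat_lit 128)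 (nat_lit 5) (nat_lit 134) (nat_lit 5) (nat_lit 129) (nat_lit 5) (nat_lit 372) (nat_lit 316) (nat_lit 212)) (XT.lf (nat_lit 0) (nat_lit 4060173644) (nat_lit 380) (nat_lit 5867736896) (nat_lit 456) (nat_lit 7831777032) (nat_lit 123) (nat_lit 5) (nat_lit 128) (nat_lit 5) (nat_lit 129) (nat_lit 5) (nat_lit 373) (nat_lit 316) (nat_lit 211))))) (XT.nd (nat_lit 156) (nat_lit 1140) (nat_lit 0) (XT.nd (nat_lit 78) (nat_lit 76) (nat_lit 0) (XT.lf (nat_lit 0) (nat_lit 532678624) (nat_lit 380) (nat_lit 15038117980) (nat_lit 456) (nat_lit 2530272932) (nat_lit 118) (nat_lit 5) (nat_lit 123) (nat_lit 5) (nat_lit 124) (nat_lit 5) (nat_lit 374) (nat_lit 316) (nat_lit 210)) (XT.lf (nat_lit 0) (nat_lit 3001279439) (nat_lit 456) (nat_lit 3165204567) (nat_lit 76) (nat_lit 12283646539) (nat_lit 117) (nat_lit 5) (nat_lit 123) (nat_lit 5) (nat_lit 118) (nat_lit 5) (nat_lit 375) (nat_lit 316) (nat_lit 209))) (XT.nd (nat_lit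 78) (nat_lit 760) (nat_lit 0) (XT.lf (nat_lit 0) (nat_lit 8738301993) (nat_lit 456) (nat_lit 7054351184) (nat_lit 76) (nat_lit 3015204282) (nat_lit 112) (nat_lit 5) (nat_lit 118) (nat_lit 5) (nat_lit 113) (nat_lit 5) (nat_lit 376) (nat_lit 316) (nat_lit 208)) (XT.nd (nat_lit 78) (nat_lit 456) (nat_lit 0) (XT.lf (nat_lit 0) (nat_lit 8017326716) (nat_lit 304) (nat_lit 6722784209) (nat_lit 380) (nat_lit 4434358128) (nat_lit 108) (nat_lit 5) (nat_lit 112) (nat_lit 5) (nat_lit 113) (nat_lit 5) (nat_lit 377) (nat_lit 316) (nat_lit 207)) (XT.lf (nat_lit 0) (nat_lit 1422212423) (nat_lit 456) (nat_lit 15470621704) (nat_lit 76) (nat_lit 2657667387) (nat_lit 102) (nat_lit 5) (nat_lit 108) (nat_lit 5) (nat_lit 103) (nat_lit 5) (nat_lit 378) (nat_lit 316) (nat_lit 206))))))) (XT.nd (nat_lit 42432) (nat_lit 0) (nat_lit 28424) (XT.nd (nat_lit 42042) (nat_lit 0) (nat_lit 32300) (XT.nd (nat_lit 156) (nat_lit 988)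 (nat_lit 0) (XT.nd (nat_lit 78) (nat_lit 304) (nat_lit 0) (XT.lf (nat_lit 0) (nat_lit 7494067492) (nat_lit 456) (nat_lit 117913346) (nat_lit 76) (nat_lit 12323257133) (nat_lit 102) (nat_lit 5) (nat_lit 108) (nat_lit 5) (nat_lit 103) (nat_lit 5) (nat_lit 379) (nat_lit 316) (nat_lit 205)) (XT.lf (nat_lit 0) (nat_lit 13843431755) (nat_lit 380) (nat_lit 4471864037) (nat_lit 76) (nat_lit 2014319389) (nat_lit 98) (nat_lit 5) (nat_lit 103) (nat_lit 5) (nat_lit 99) (nat_lit 5) (nat_lit 380) (nat_lit 316) (nat_lit 204))) (XT.nd (nat_lit 78) (nat_lit 684) (nat_lit 0) (XT.lf (nat_lit 0) (nat_lit 11648268234) (nat_lit 304) (nat_lit 8841731920) (nat_lit 380) (nat_lit 243694653) (nat_lit 94) (nat_lit 5) (nat_lit 98) (nat_lit 5) (nat_lit 99) (nat_lit 5) (nat_lit 381) (nat_lit 316) (nat_lit 203)) (XT.nd (nat_lit 78) (nat_lit 304) (nat_lit 0) (XT.lf (nat_lit 0) (nat_lit 6168389044) (nat_lit 380) (nat_lit 13968645084)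 (nat_lit 76) (nat_lit 1010795675) (nat_lit 89) (nat_lit 5) (nat_lit 94) (nat_lit 5) (nat_lit 90) (nat_lit 5) (nat_lit 382) (nat_lit 316) (nat_lit 202)) (XT.lf (nat_lit 0) (nat_lit 2421884659) (nat_lit 304) (nat_lit 10464443168) (nat_lit 380) (nat_lit 8685697878) (nat_lit 85) (nat_lit 5) (nat_lit 89) (nat_lit 5) (nat_lit 90) (nat_lit 5) (nat_lit 383) (nat_lit 316) (nat_lit 201))))) (XT.nd (nat_lit 156) (nat_lit 0) (nat_lit 0) (XT.nd (nat_lit 78) (nat_lit 1292) (nat_lit 0) (XT.lf (nat_lit 0) (nat_lit 3275055890) (nat_lit 1292) (nat_lit 283573567) (nat_lit 1292) (nat_lit 283573567) (nat_lit 527) (nat_lit 3) (nat_lit 544) (nat_lit 3) (nat_lit 544) (nat_lit 5) (nat_lit 317) (nat_lit 317) (nat_lit 266)) (XT.lf (nat_lit 0) (nat_lit 856618072) (nat_lit 1292) (nat_lit 2823369513) (nat_lit 1368) (nat_lit 4078789950) (nat_lit 510) (nat_lit 5) (nat_lit 527) (nat_lit 3) (nat_lit 528) (nat_lit 5) (nat_lit 318)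 (nat_lit 317) (nat_lit 265))) (XT.nd (nat_lit 78) (nat_lit 0) (nat_lit 76) (XT.lf (nat_lit 76) (nat_lit 2763789090) (nat_lit 0) (nat_lit 73188035) (nat_lit 1368) (nat_lit 4999396838) (nat_lit 511) (nat_lit 5) (nat_lit 510) (nat_lit 5) (nat_lit 528) (nat_lit 5) (nat_lit 319) (nat_lit 317) (nat_lit 264)) (XT.nd (nat_lit 78) (nat_lit 0) (nat_lit 0) (XT.lf (nat_lit 76) (nat_lit 583715889) (nat_lit 0) (nat_lit 4265160121) (nat_lit 1368) (nat_lit 3068024688) (nat_lit 512) (nat_lit 5) (nat_lit 511) (nat_lit 5) (nat_lit 529) (nat_lit 5) (nat_lit 320) (nat_lit 317) (nat_lit 263)) (XT.lf (nat_lit 76) (nat_lit 6437855332) (nat_lit 0) (nat_lit 445478510) (nat_lit 1368) (nat_lit 1117309042) (nat_lit 512) (nat_lit 5) (nat_lit 511) (nat_lit 5) (nat_lit 529) (nat_lit 5) (nat_lit 321) (nat_lit 317) (nat_lit 262)))))) (XT.nd (nat_lit 390) (nat_lit 1368) (nat_lit 0) (XT.nd (nat_lit 156) (nat_lit 1292) (nat_lit 0) (XT.nd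 (nat_lit 78) (nat_lit 0) (nat_lit 0) (XT.lf (nat_lit 0) (nat_lit 860771791) (nat_lit 1368) (nat_lit 3718805085) (nat_lit 1444) (nat_lit 3507635391) (nat_lit 494) (nat_lit 5) (nat_lit 512) (nat_lit 5) (nat_lit 513) (nat_lit 5) (nat_lit 322) (nat_lit 317) (nat_lit 261)) (XT.lf (nat_lit 76) (nat_lit 2300874154) (nat_lit 0) (nat_lit 541755613) (nat_lit 1444) (nat_lit 5334449337) (nat_lit 495) (nat_lit 5) (nat_lit 494) (nat_lit 5) (nat_lit 513) (nat_lit 5) (nat_lit 323) (nat_lit 317) (nat_lit 260))) (XT.nd (nat_lit 78) (nat_lit 1368) (nat_lit 0) (XT.lf (nat_lit 76) (nat_lit 219712367) (nat_lit 0) (nat_lit 4647377072) (nat_lit 1444) (nat_lit 3402928782) (nat_lit 496) (nat_lit 5) (nat_lit 495) (nat_lit 5) (nat_lit 514) (nat_lit 5) (nat_lit 324) (nat_lit 317) (nat_lit 259)) (XT.nd (nat_lit 78) (nat_lit 1368) (nat_lit 0) (XT.lf (nat_lit 76) (nat_lit 6533532375) (nat_lit 0) (nat_lit 396720489) (nat_lit 1444)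 (nat_lit 1435971304) (nat_lit 496) (nat_lit 5) (nat_lit 495) (nat_lit 5) (nat_lit 514) (nat_lit 5) (nat_lit 325) (nat_lit 317) (nat_lit 258)) (XT.lf (nat_lit 0) (nat_lit 574255009) (nat_lit 1444) (nat_lit 3905818019) (nat_lit 1520) (nat_lit 3985362913) (nat_lit 477) (nat_lit 5) (nat_lit 496) (nat_lit 5) (nat_lit 497) (nat_lit 5) (nat_lit 326) (nat_lit 317) (nat_lit 257))))) (XT.nd (nat_lit 156) (nat_lit 1368) (nat_lit 0) (XT.nd (nat_lit 78) (nat_lit 0) (nat_lit 76) (XT.lf (nat_lit 76) (nat_lit 2580755019) (nat_lit 0) (nat_lit 14286254) (nat_lit 1520) (nat_lit 5973032877) (nat_lit 478) (nat_lit 5) (nat_lit 477) (nat_lit 5) (nat_lit 497) (nat_lit 5) (nat_lit 327) (nat_lit 317) (nat_lit 256)) (XT.lf (nat_lit 76) (nat_lit 576894875) (nat_lit 0) (nat_lit 4099126096) (nat_lit 1520) (nat_lit 3997813281) (nat_lit 479) (nat_lit 5) (nat_lit 478) (nat_lit 5) (nat_lit 498) (nat_lit 5) (nat_lit 328) (nat_lit 317)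 (nat_lit 255))) (XT.nd (nat_lit 78) (nat_lit 1520) (nat_lit 0) (XT.lf (nat_lit 0) (nat_lit 6804742561) (nat_lit 1444) (nat_lit 1409174989) (nat_lit 1520) (nat_lit 569176502) (nat_lit 479) (nat_lit 5) (nat_lit 498) (nat_lit 5) (nat_lit 499) (nat_lit 5) (nat_lit 329) (nat_lit 317) (nat_lit 254)) (XT.nd (nat_lit 78) (nat_lit 0) (nat_lit 76) (XT.lf (nat_lit 0) (nat_lit 106097904) (nat_lit 1520) (nat_lit 3414760922) (nat_lit 1596) (nat_lit 5374676419) (nat_lit 459) (nat_lit 5) (nat_lit 479) (nat_lit 5) (nat_lit 480) (nat_lit 5) (nat_lit 330) (nat_lit 317) (nat_lit 253)) (XT.lf (nat_lit 0) (nat_lit 2211838904) (nat_lit 1520) (nat_lit 5443642375) (nat_lit 1596) (nat_lit 1355924763) (nat_lit 460) (nat_lit 5) (nat_lit 480) (nat_lit 5) (nat_lit 481) (nat_lit 5) (nat_lit 331) (nat_lit 317) (nat_lit 252))))))))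
noncomputable def xc82 : XT := (XT.nd (nat_lit 1482) (nat_lit 9576) (nat_lit 0) (XT.nd (nat_lit 702) (nat_lit 6232) (nat_lit 0) (XT.nd (nat_lit 312) (nat_lit 5396) (nat_lit 0) (XT.nd (nat_lit 156) (nat_lit 3116) (nat_lit 0) (XT.nd (nat_lit 78) (nat_lit 0) (nat_lit 76) (XT.lf (nat_lit 76) (nat_lit 1631073320) (nat_lit 0) (nat_lit 2752288918) (nat_lit 1596) (nat_lit 4747368264) (nat_lit 461) (nat_lit 5) (nat_lit 460) (nat_lit 5) (nat_lit 481) (nat_lit 5) (nat_lit 332) (nat_lit 317) (nat_lit 251)) (XT.lf (nat_lit 0) (nat_lit 6618662115) (nat_lit 1520) (nat_lit 318830310) (nat_lit 76) (nat_lit 2316198527) (nat_lit 461) (nat_lit 5) (nat_lit 481) (nat_lit 5) (nat_lit 462) (nat_lit 5) (nat_lit 333) (nat_lit 317) (nat_lit 250))) (XT.nd (nat_lit 78) (nat_lit 1672) (nat_lit 0) (XT.lf (nat_lit 0) (nat_lit 7110216025) (nat_lit 1520) (nat_lit 1823509517) (nat_lit 1596) (nat_lit 446388615) (nat_lit 441) (nat_lit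 5) (nat_lit 461) (nat_lit 5) (nat_lit 462) (nat_lit 5) (nat_lit 334) (nat_lit 317) (nat_lit 249)) (XT.lf (nat_lit 0) (nat_lit 1792351938) (nat_lit 1672) (nat_lit 4261628122) (nat_lit 76) (nat_lit 3455978874) (nat_lit 419) (nat_lit 5) (nat_lit 441) (nat_lit 5) (nat_lit 420) (nat_lit 5) (nat_lit 335) (nat_lit 317) (nat_lit 248)))) (XT.nd (nat_lit 156) (nat_lit 1976) (nat_lit 0) (XT.nd (nat_lit 78) (nat_lit 1748) (nat_lit 0) (XT.lf (nat_lit 0) (nat_lit 3366185933) (nat_lit 1672) (nat_lit 725857368) (nat_lit 1748) (nat_lit 5551625581) (nat_lit 397) (nat_lit 5) (nat_lit 419) (nat_lit 5) (nat_lit 420) (nat_lit 5) (nat_lit 336) (nat_lit 317) (nat_lit 247)) (XT.lf (nat_lit 0) (nat_lit 1445384861) (nat_lit 1748) (nat_lit 5036218901) (nat_lit 1824) (nat_lit 3299393949) (nat_lit 374) (nat_lit 5) (nat_lit 397) (nat_lit 5) (nat_lit 398) (nat_lit 5) (nat_lit 337) (nat_lit 317) (nat_lit 246))) (XT.nd (nat_lit 78)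 (nat_lit 1976) (nat_lit 0) (XT.lf (nat_lit 0) (nat_lit 8946076366) (nat_lit 1824) (nat_lit 486866259) (nat_lit 76) (nat_lit 489463693) (nat_lit 374) (nat_lit 5) (nat_lit 398) (nat_lit 5) (nat_lit 375) (nat_lit 5) (nat_lit 338) (nat_lit 317) (nat_lit 245)) (XT.nd (nat_lit 78) (nat_lit 912) (nat_lit 0) (XT.lf (nat_lit 0) (nat_lit 1435294318) (nat_lit 1064) (nat_lit 2455027193) (nat_lit 76) (nat_lit 6176826085) (nat_lit 360) (nat_lit 5) (nat_lit 374) (nat_lit 5) (nat_lit 361) (nat_lit 5) (nat_lit 339) (nat_lit 317) (nat_lit 244)) (XT.lf (nat_lit 0) (nat_lit 3913825096) (nat_lit 988) (nat_lit 4456445096) (nat_lit 76) (nat_lit 1845697970) (nat_lit 348) (nat_lit 5) (nat_lit 361) (nat_lit 5) (nat_lit 349) (nat_lit 5) (nat_lit 340) (nat_lit 317) (nat_lit 243)))))) (XT.nd (nat_lit 390) (nat_lit 2964) (nat_lit 0) (XT.nd (nat_lit 156) (nat_lit 1596) (nat_lit 0) (XT.nd (nat_lit 78) (nat_lit 836) (nat_lit 0) (XT.lf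 (nat_lit 0) (nat_lit 3867731873) (nat_lit 836) (nat_lit 2622730865) (nat_lit 912) (nat_lit 3878337496) (nat_lit 337) (nat_lit 5) (nat_lit 348) (nat_lit 5) (nat_lit 349) (nat_lit 5) (nat_lit 341) (nat_lit 317) (nat_lit 242)) (XT.lf (nat_lit 0) (nat_lit 1938564284) (nat_lit 836) (nat_lit 7227132024) (nat_lit 912) (nat_lit 1360116295) (nat_lit 326) (nat_lit 5) (nat_lit 337) (nat_lit 5) (nat_lit 338) (nat_lit 5) (nat_lit 342) (nat_lit 317) (nat_lit 241))) (XT.nd (nat_lit 78) (nat_lit 1520) (nat_lit 0) (XT.lf (nat_lit 0) (nat_lit 1236946570) (nat_lit 912) (nat_lit 34293398) (nat_lit 76) (nat_lit 9415765934) (nat_lit 325) (nat_lit 5) (nat_lit 337) (nat_lit 5) (nat_lit 326) (nat_lit 5) (nat_lit 343) (nat_lit 317) (nat_lit 240)) (XT.nd (nat_lit 78) (nat_lit 760) (nat_lit 0) (XT.lf (nat_lit 0) (nat_lit 3941793983) (nat_lit 836) (nat_lit 2043401676) (nat_lit 76) (nat_lit 4866712165) (nat_lit 315) (nat_lit 5)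 (nat_lit 326) (nat_lit 5) (nat_lit 316) (nat_lit 5) (nat_lit 344) (nat_lit 317) (nat_lit 239)) (XT.lf (nat_lit 0) (nat_lit 6742590855) (nat_lit 836) (nat_lit 4086096588) (nat_lit 76) (nat_lit 192792361) (nat_lit 305) (nat_lit 5) (nat_lit 316) (nat_lit 5) (nat_lit 306) (nat_lit 5) (nat_lit 345) (nat_lit 317) (nat_lit 238))))) (XT.nd (nat_lit 156) (nat_lit 1368) (nat_lit 0) (XT.nd (nat_lit 78) (nat_lit 836) (nat_lit 0) (XT.lf (nat_lit 0) (nat_lit 4999862889) (nat_lit 760) (nat_lit 4674640374) (nat_lit 836) (nat_lit 1520712376) (nat_lit 295) (nat_lit 5) (nat_lit 305) (nat_lit 5) (nat_lit 306) (nat_lit 5) (nat_lit 346) (nat_lit 317) (nat_lit 237)) (XT.lf (nat_lit 0) (nat_lit 1322878778) (nat_lit 836) (nat_lit 8354376154) (nat_lit 76) (nat_lit 1696355138) (nat_lit 284) (nat_lit 5) (nat_lit 295) (nat_lit 5) (nat_lit 285) (nat_lit 5) (nat_lit 347) (nat_lit 317) (nat_lit 236))) (XT.nd (nat_lit 78) (nat_lit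 684) (nat_lit 0) (XT.lf (nat_lit 0) (nat_lit 968347331) (nat_lit 684) (nat_lit 3304819552) (nat_lit 760) (nat_lit 7283164539) (nat_lit 275) (nat_lit 5) (nat_lit 284) (nat_lit 5) (nat_lit 285) (nat_lit 5) (nat_lit 348) (nat_lit 317) (nat_lit 235)) (XT.nd (nat_lit 78) (nat_lit 684) (nat_lit 0) (XT.lf (nat_lit 0) (nat_lit 7353049877) (nat_lit 760) (nat_lit 1121081340) (nat_lit 76) (nat_lit 3269598095) (nat_lit 275) (nat_lit 5) (nat_lit 285) (nat_lit 5) (nat_lit 276) (nat_lit 5) (nat_lit 349) (nat_lit 317) (nat_lit 234)) (XT.lf (nat_lit 0) (nat_lit 8681534604) (nat_lit 684) (nat_lit 1886282434) (nat_lit 760) (nat_lit 1368098487) (nat_lit 266) (nat_lit 5) (nat_lit 275) (nat_lit 5) (nat_lit 276) (nat_lit 5) (nat_lit 350) (nat_lit 317) (nat_lit 233))))))) (XT.nd (nat_lit 780) (nat_lit 4484) (nat_lit 0) (XT.nd (nat_lit 390) (nat_lit 2356) (nat_lit 0) (XT.nd (nat_lit 156) (nat_lit 1292) (nat_lit 0) (XT.nd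 (nat_lit 78) (nat_lit 684) (nat_lit 0) (XT.lf (nat_lit 0) (nat_lit 1770154259) (nat_lit 760) (nat_lit 5469122517) (nat_lit 76) (nat_lit 4893421646) (nat_lit 256) (nat_lit 5) (nat_lit 266) (nat_lit 5) (nat_lit 257) (nat_lit 5) (nat_lit 351) (nat_lit 317) (nat_lit 232)) (XT.lf (nat_lit 0) (nat_lit 4587003390) (nat_lit 684) (nat_lit 426976872) (nat_lit 760) (nat_lit 7320638339) (nat_lit 247) (nat_lit 5) (nat_lit 256) (nat_lit 5) (nat_lit 257) (nat_lit 5) (nat_lit 352) (nat_lit 317) (nat_lit 231))) (XT.nd (nat_lit 78) (nat_lit 684) (nat_lit 0) (XT.lf (nat_lit 0) (nat_lit 2426685016) (nat_lit 608) (nat_lit 5990314730) (nat_lit 684) (nat_lit 4124373546) (nat_lit 239) (nat_lit 5) (nat_lit 247) (nat_lit 5) (nat_lit 248) (nat_lit 5) (nat_lit 353) (nat_lit 317) (nat_lit 230)) (XT.nd (nat_lit 78) (nat_lit 76) (nat_lit 0) (XT.lf (nat_lit 0) (nat_lit 212309128) (nat_lit 608) (nat_lit 11739943436) (nat_lit 684)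 (nat_lit 801489262) (nat_lit 231) (nat_lit 5) (nat_lit 239) (nat_lit 5) (nat_lit 240) (nat_lit 5) (nat_lit 354) (nat_lit 317) (nat_lit 229)) (XT.lf (nat_lit 0) (nat_lit 2662972200) (nat_lit 684) (nat_lit 2080798728) (nat_lit 76) (nat_lit 8226858180) (nat_lit 230) (nat_lit 5) (nat_lit 239) (nat_lit 5) (nat_lit 231) (nat_lit 5) (nat_lit 355) (nat_lit 317) (nat_lit 228))))) (XT.nd (nat_lit 156) (nat_lit 1140) (nat_lit 0) (XT.nd (nat_lit 78) (nat_lit 608) (nat_lit 0) (XT.lf (nat_lit 0) (nat_lit 6261969470) (nat_lit 684) (nat_lit 4445105499) (nat_lit 76) (nat_lit 2486025253) (nat_lit 222) (nat_lit 5) (nat_lit 231) (nat_lit 5) (nat_lit 223) (nat_lit 5) (nat_lit 356) (nat_lit 317) (nat_lit 227)) (XT.lf (nat_lit 0) (nat_lit 6523375727) (nat_lit 608) (nat_lit 3502636434) (nat_lit 684) (nat_lit 3395104411) (nat_lit 214) (nat_lit 5) (nat_lit 222) (nat_lit 5) (nat_lit 223) (nat_lit 5) (nat_lit 357) (nat_lit 317)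 (nat_lit 226))) (XT.nd (nat_lit 78) (nat_lit 532) (nat_lit 0) (XT.lf (nat_lit 0) (nat_lit 296660117) (nat_lit 608) (nat_lit 9439306570) (nat_lit 76) (nat_lit 3918928720) (nat_lit 206) (nat_lit 5) (nat_lit 214) (nat_lit 5) (nat_lit 207) (nat_lit 5) (nat_lit 358) (nat_lit 317) (nat_lit 225)) (XT.nd (nat_lit 78) (nat_lit 0) (nat_lit 0) (XT.lf (nat_lit 0) (nat_lit 1800893171) (nat_lit 532) (nat_lit 2304442002) (nat_lit 608) (nat_lit 9788869581) (nat_lit 199) (nat_lit 5) (nat_lit 206) (nat_lit 5) (nat_lit 207) (nat_lit 5) (nat_lit 359) (nat_lit 317) (nat_lit 224)) (XT.lf (nat_lit 0) (nat_lit 8097828228) (nat_lit 608) (nat_lit 705266920) (nat_lit 76) (nat_lit 5336218395) (nat_lit 199) (nat_lit 5) (nat_lit 207) (nat_lit 5) (nat_lit 200) (nat_lit 5) (nat_lit 360) (nat_lit 317) (nat_lit 223)))))) (XT.nd (nat_lit 390) (nat_lit 1900) (nat_lit 0) (XT.nd (nat_lit 156) (nat_lit 1444) (nat_lit 0) (XT.nd (nat_lit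 78) (nat_lit 608) (nat_lit 0) (XT.lf (nat_lit 0) (nat_lit 11117733014) (nat_lit 532) (nat_lit 1151253205) (nat_lit 608) (nat_lit 2121622559) (nat_lit 192) (nat_lit 5) (nat_lit 199) (nat_lit 5) (nat_lit 200) (nat_lit 5) (nat_lit 361) (nat_lit 317) (nat_lit 222)) (XT.lf (nat_lit 0) (nat_lit 1967969543) (nat_lit 608) (nat_lit 5971909994) (nat_lit 76) (nat_lit 6707779814) (nat_lit 184) (nat_lit 5) (nat_lit 192) (nat_lit 5) (nat_lit 185) (nat_lit 5) (nat_lit 362) (nat_lit 317) (nat_lit 221))) (XT.nd (nat_lit 78) (nat_lit 988) (nat_lit 0) (XT.lf (nat_lit 0) (nat_lit 6137331301) (nat_lit 456) (nat_lit 56360739) (nat_lit 532) (nat_lit 8717613731) (nat_lit 178) (nat_lit 5) (nat_lit 184) (nat_lit 5) (nat_lit 185) (nat_lit 5) (nat_lit 363) (nat_lit 317) (nat_lit 220)) (XT.nd (nat_lit 78) (nat_lit 456) (nat_lit 0) (XT.lf (nat_lit 0) (nat_lit 3465692083) (nat_lit 532) (nat_lit 7168832762) (nat_lit 608) (nat_lit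 4546579824) (nat_lit 171) (nat_lit 5) (nat_lit 178) (nat_lit 5) (nat_lit 179) (nat_lit 5) (nat_lit 364) (nat_lit 317) (nat_lit 219)) (XT.lf (nat_lit 0) (nat_lit 701094168) (nat_lit 456) (nat_lit 14551113735) (nat_lit 532) (nat_lit 205926696) (nat_lit 165) (nat_lit 5) (nat_lit 171) (nat_lit 5) (nat_lit 172) (nat_lit 5) (nat_lit 365) (nat_lit 317) (nat_lit 218))))) (XT.nd (nat_lit 156) (nat_lit 1368) (nat_lit 0) (XT.nd (nat_lit 78) (nat_lit 456) (nat_lit 0) (XT.lf (nat_lit 0) (nat_lit 4310473059) (nat_lit 532) (nat_lit 2203921329) (nat_lit 76) (nat_lit 9226507078) (nat_lit 164) (nat_lit 5) (nat_lit 171) (nat_lit 5) (nat_lit 165) (nat_lit 5) (nat_lit 366) (nat_lit 317) (nat_lit 217)) (XT.lf (nat_lit 0) (nat_lit 9016144810) (nat_lit 532) (nat_lit 5211909036) (nat_lit 76) (nat_lit 1802947560) (nat_lit 158) (nat_lit 5) (nat_lit 165) (nat_lit 5) (nat_lit 159) (nat_lit 5) (nat_lit 367) (nat_lit 317) (nat_lit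 216))) (XT.nd (nat_lit 78) (nat_lit 912) (nat_lit 0) (XT.lf (nat_lit 0) (nat_lit 7959026857) (nat_lit 456) (nat_lit 5989068806) (nat_lit 532) (nat_lit 2380015087) (nat_lit 152) (nat_lit 5) (nat_lit 158) (nat_lit 5) (nat_lit 159) (nat_lit 5) (nat_lit 368) (nat_lit 317) (nat_lit 215)) (XT.nd (nat_lit 78) (nat_lit 380) (nat_lit 0) (XT.lf (nat_lit 0) (nat_lit 2422217027) (nat_lit 532) (nat_lit 11672078655) (nat_lit 76) (nat_lit 2538340185) (nat_lit 145) (nat_lit 5) (nat_lit 152) (nat_lit 5) (nat_lit 146) (nat_lit 5) (nat_lit 369) (nat_lit 317) (nat_lit 214)) (XT.lf (nat_lit 0) (nat_lit 1791856783) (nat_lit 380) (nat_lit 5628888722) (nat_lit 456) (nat_lit 9523553240) (nat_lit 140) (nat_lit 5) (nat_lit 145) (nat_lit 5) (nat_lit 146) (nat_lit 5) (nat_lit 370) (nat_lit 317) (nat_lit 213))))))))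
noncomputable def xc83 : XT := (XT.nd (nat_lit 43212) (nat_lit 0) (nat_lit 17936) (XT.nd (nat_lit 702) (nat_lit 988) (nat_lit 0) (XT.nd (nat_lit 312) (nat_lit 1596) (nat_lit 0) (XT.nd (nat_lit 156) (nat_lit 760) (nat_lit 0) (XT.nd (nat_lit 78) (nat_lit 532) (nat_lit 0) (XT.lf (nat_lit 0) (nat_lit 12644941648) (nat_lit 456) (nat_lit 1499476635) (nat_lit 76) (nat_lit 3119386692) (nat_lit 140) (nat_lit 5) (nat_lit 146) (nat_lit 5) (nat_lit 141) (nat_lit 5) (nat_lit 371) (nat_lit 317) (nat_lit 212)) (XT.lf (nat_lit 0) (nat_lit 524473747) (nat_lit 532) (nat_lit 4936607431) (nat_lit 76) (nat_lit 12129822628) (nat_lit 133) (nat_lit 5) (nat_lit 140) (nat_lit 5) (nat_lit 134) (nat_lit 5) (nat_lit 372) (nat_lit 317) (nat_lit 211))) (XT.nd (nat_lit 78) (nat_lit 380) (nat_lit 0) (XT.lf (nat_lit 0) (nat_lit 5831126206) (nat_lit 456) (nat_lit 8565140186) (nat_lit 76) (nat_lit 3529510364) (nat_lit 128) (nat_lit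 5) (nat_lit 134) (nat_lit 5) (nat_lit 129) (nat_lit 5) (nat_lit 373) (nat_lit 317) (nat_lit 210)) (XT.lf (nat_lit 0) (nat_lit 5891628225) (nat_lit 380) (nat_lit 5491217008) (nat_lit 456) (nat_lit 6886140233) (nat_lit 123) (nat_lit 5) (nat_lit 128) (nat_lit 5) (nat_lit 129) (nat_lit 5) (nat_lit 374) (nat_lit 317) (nat_lit 209)))) (XT.nd (nat_lit 156) (nat_lit 1140) (nat_lit 0) (XT.nd (nat_lit 78) (nat_lit 76) (nat_lit 0) (XT.lf (nat_lit 0) (nat_lit 2250153585) (nat_lit 380) (nat_lit 14925692703) (nat_lit 456) (nat_lit 1445156250) (nat_lit 118) (nat_lit 5) (nat_lit 123) (nat_lit 5) (nat_lit 124) (nat_lit 5) (nat_lit 375) (nat_lit 317) (nat_lit 208)) (XT.lf (nat_lit 0) (nat_lit 4203742890) (nat_lit 456) (nat_lit 1593116488) (nat_lit 76) (nat_lit 13184202417) (nat_lit 117) (nat_lit 5) (nat_lit 123) (nat_lit 5) (nat_lit 118) (nat_lit 5) (nat_lit 376) (nat_lit 317) (nat_lit 207))) (XT.nd (nat_lit 78) (nat_lit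 760) (nat_lit 0) (XT.lf (nat_lit 0) (nat_lit 10094689937) (nat_lit 456) (nat_lit 5607421735) (nat_lit 76) (nat_lit 3647782009) (nat_lit 112) (nat_lit 5) (nat_lit 118) (nat_lit 5) (nat_lit 113) (nat_lit 5) (nat_lit 377) (nat_lit 317) (nat_lit 206)) (XT.nd (nat_lit 78) (nat_lit 456) (nat_lit 0) (XT.lf (nat_lit 0) (nat_lit 9889498336) (nat_lit 304) (nat_lit 6365777532) (nat_lit 380) (nat_lit 3472662467) (nat_lit 108) (nat_lit 5) (nat_lit 112) (nat_lit 5) (nat_lit 113) (nat_lit 5) (nat_lit 378) (nat_lit 317) (nat_lit 205)) (XT.lf (nat_lit 0) (nat_lit 2527933200) (nat_lit 456) (nat_lit 14297298731) (nat_lit 76) (nat_lit 3290232700) (nat_lit 102) (nat_lit 5) (nat_lit 108) (nat_lit 5) (nat_lit 103) (nat_lit 5) (nat_lit 379) (nat_lit 317) (nat_lit 204)))))) (XT.nd (nat_lit 42120) (nat_lit 0) (nat_lit 30704) (XT.nd (nat_lit 156) (nat_lit 684) (nat_lit 0) (XT.nd (nat_lit 78) (nat_lit 0) (nat_lit 0) (XT.lf (nat_lit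 0) (nat_lit 1487811315) (nat_lit 304) (nat_lit 7272829714) (nat_lit 380) (nat_lit 11751536681) (nat_lit 98) (nat_lit 5) (nat_lit 102) (nat_lit 5) (nat_lit 103) (nat_lit 5) (nat_lit 380) (nat_lit 317) (nat_lit 203)) (XT.lf (nat_lit 0) (nat_lit 15274502162) (nat_lit 380) (nat_lit 3025127226) (nat_lit 76) (nat_lit 2619284754) (nat_lit 98) (nat_lit 5) (nat_lit 103) (nat_lit 5) (nat_lit 99) (nat_lit 5) (nat_lit 381) (nat_lit 317) (nat_lit 202))) (XT.nd (nat_lit 78) (nat_lit 304) (nat_lit 0) (XT.lf (nat_lit 0) (nat_lit 755426710) (nat_lit 380) (nat_lit 7787522905) (nat_lit 76) (nat_lit 12792464885) (nat_lit 93) (nat_lit 5) (nat_lit 98) (nat_lit 5) (nat_lit 94) (nat_lit 5) (nat_lit 382) (nat_lit 317) (nat_lit 201)) (XT.nd (nat_lit 41808) (nat_lit 0) (nat_lit 31996) (XT.lf (nat_lit 0) (nat_lit 7341016197) (nat_lit 380) (nat_lit 12828020234) (nat_lit 76) (nat_lit 1593223415) (nat_lit 89) (nat_lit 5) (nat_lit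 94) (nat_lit 5) (nat_lit 90) (nat_lit 5) (nat_lit 383) (nat_lit 317) (nat_lit 200)) (XT.lf (nat_lit 0) (nat_lit 687114583) (nat_lit 0) (nat_lit 687114583) (nat_lit 1292) (nat_lit 2543125071) (nat_lit 510) (nat_lit 5) (nat_lit 510) (nat_lit 3) (nat_lit 527) (nat_lit 3) (nat_lit 318) (nat_lit 318) (nat_lit 264))))) (XT.nd (nat_lit 156) (nat_lit 1292) (nat_lit 0) (XT.nd (nat_lit 78) (nat_lit 0) (nat_lit 0) (XT.lf (nat_lit 0) (nat_lit 4665233968) (nat_lit 1292) (nat_lit 919942483) (nat_lit 1368) (nat_lit 2328422286) (nat_lit 510) (nat_lit 5) (nat_lit 527) (nat_lit 3) (nat_lit 528) (nat_lit 5) (nat_lit 319) (nat_lit 318) (nat_lit 263)) (XT.lf (nat_lit 76) (nat_lit 4802575861) (nat_lit 0) (nat_lit 1804944697) (nat_lit 1368) (nat_lit 1388018680) (nat_lit 511) (nat_lit 5) (nat_lit 510) (nat_lit 5) (nat_lit 528) (nat_lit 5) (nat_lit 320) (nat_lit 318) (nat_lit 262))) (XT.nd (nat_lit 78) (nat_lit 0) (nat_lit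 0) (XT.lf (nat_lit 0) (nat_lit 487452518) (nat_lit 1368) (nat_lit 5472747041) (nat_lit 1444) (nat_lit 2120386573) (nat_lit 493) (nat_lit 5) (nat_lit 511) (nat_lit 5) (nat_lit 512) (nat_lit 5) (nat_lit 321) (nat_lit 318) (nat_lit 261)) (XT.nd (nat_lit 78) (nat_lit 0) (nat_lit 76) (XT.lf (nat_lit 76) (nat_lit 403004758) (nat_lit 0) (nat_lit 1964918687) (nat_lit 1444) (nat_lit 5800765995) (nat_lit 494) (nat_lit 5) (nat_lit 493) (nat_lit 5) (nat_lit 512) (nat_lit 5) (nat_lit 322) (nat_lit 318) (nat_lit 260)) (XT.lf (nat_lit 0) (nat_lit 4289061032) (nat_lit 1368) (nat_lit 1783293005) (nat_lit 1444) (nat_lit 2187435956) (nat_lit 494) (nat_lit 5) (nat_lit 512) (nat_lit 5) (nat_lit 513) (nat_lit 5) (nat_lit 323) (nat_lit 318) (nat_lit 259))))))) (XT.nd (nat_lit 780) (nat_lit 10108) (nat_lit 0) (XT.nd (nat_lit 390) (nat_lit 1368) (nat_lit 0) (XT.nd (nat_lit 156) (nat_lit 1368) (nat_lit 0) (XT.nd (nat_lit 78)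 (nat_lit 0) (nat_lit 76) (XT.lf (nat_lit 76) (nat_lit 4383765231) (nat_lit 0) (nat_lit 1860583908) (nat_lit 1444) (nat_lit 2109782149) (nat_lit 495) (nat_lit 5) (nat_lit 494) (nat_lit 5) (nat_lit 513) (nat_lit 5) (nat_lit 324) (nat_lit 318) (nat_lit 258)) (XT.lf (nat_lit 76) (nat_lit 2282968752) (nat_lit 0) (nat_lit 5955120871) (nat_lit 1444) (nat_lit 213654270) (nat_lit 496) (nat_lit 5) (nat_lit 495) (nat_lit 5) (nat_lit 514) (nat_lit 5) (nat_lit 325) (nat_lit 318) (nat_lit 257))) (XT.nd (nat_lit 78) (nat_lit 0) (nat_lit 76) (XT.lf (nat_lit 76) (nat_lit 164544952) (nat_lit 0) (nat_lit 1530458879) (nat_lit 1520) (nat_lit 6857521182) (nat_lit 477) (nat_lit 5) (nat_lit 476) (nat_lit 5) (nat_lit 496) (nat_lit 5) (nat_lit 326) (nat_lit 318) (nat_lit 256)) (XT.nd (nat_lit 78) (nat_lit 0) (nat_lit 0) (XT.lf (nat_lit 0) (nat_lit 3659321201) (nat_lit 1444) (nat_lit 1945481472) (nat_lit 1520) (nat_lit 3051506747)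 (nat_lit 477) (nat_lit 5) (nat_lit 496) (nat_lit 5) (nat_lit 497) (nat_lit 5) (nat_lit 327) (nat_lit 318) (nat_lit 255)) (XT.lf (nat_lit 76) (nat_lit 4701983609) (nat_lit 0) (nat_lit 962662667) (nat_lit 1520) (nat_lit 3098952666) (nat_lit 478) (nat_lit 5) (nat_lit 477) (nat_lit 5) (nat_lit 497) (nat_lit 5) (nat_lit 328) (nat_lit 318) (nat_lit 254))))) (XT.nd (nat_lit 156) (nat_lit 0) (nat_lit 76) (XT.nd (nat_lit 78) (nat_lit 1520) (nat_lit 0) (XT.lf (nat_lit 76) (nat_lit 2671423576) (nat_lit 0) (nat_lit 5057004589) (nat_lit 1520) (nat_lit 1145745225) (nat_lit 479) (nat_lit 5) (nat_lit 478) (nat_lit 5) (nat_lit 498) (nat_lit 5) (nat_lit 329) (nat_lit 318) (nat_lit 253)) (XT.lf (nat_lit 76) (nat_lit 630043462) (nat_lit 0) (nat_lit 206783747) (nat_lit 1596) (nat_lit 8151513490) (nat_lit 459) (nat_lit 5) (nat_lit 458) (nat_lit 5) (nat_lit 479) (nat_lit 5) (nat_lit 330) (nat_lit 318) (nat_lit 252))) (XT.nd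 (nat_lit 78) (nat_lit 0) (nat_lit 76) (XT.lf (nat_lit 0) (nat_lit 2882168311) (nat_lit 1520) (nat_lit 1432476475) (nat_lit 1596) (nat_lit 4790789359) (nat_lit 459) (nat_lit 5) (nat_lit 479) (nat_lit 5) (nat_lit 480) (nat_lit 5) (nat_lit 331) (nat_lit 318) (nat_lit 251)) (XT.nd (nat_lit 78) (nat_lit 0) (nat_lit 0) (XT.lf (nat_lit 0) (nat_lit 4979383992) (nat_lit 1520) (nat_lit 3496222686) (nat_lit 1596) (nat_lit 750652303) (nat_lit 460) (nat_lit 5) (nat_lit 480) (nat_lit 5) (nat_lit 481) (nat_lit 5) (nat_lit 332) (nat_lit 318) (nat_lit 250)) (XT.lf (nat_lit 76) (nat_lit 3756490410) (nat_lit 0) (nat_lit 3394369098) (nat_lit 1596) (nat_lit 2199650219) (nat_lit 461) (nat_lit 5) (nat_lit 460) (nat_lit 5) (nat_lit 481) (nat_lit 5) (nat_lit 333) (nat_lit 318) (nat_lit 249)))))) (XT.nd (nat_lit 390) (nat_lit 3724) (nat_lit 0) (XT.nd (nat_lit 156) (nat_lit 5016) (nat_lit 0) (XT.nd (nat_lit 78) (nat_lit 76)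 (nat_lit 0) (XT.lf (nat_lit 0) (nat_lit 1766875043) (nat_lit 1520) (nat_lit 7617511556) (nat_lit 1596) (nat_lit 94190467) (nat_lit 441) (nat_lit 5) (nat_lit 461) (nat_lit 5) (nat_lit 462) (nat_lit 5) (nat_lit 334) (nat_lit 318) (nat_lit 248)) (XT.lf (nat_lit 0) (nat_lit 2058583535) (nat_lit 1596) (nat_lit 261827430) (nat_lit 76) (nat_lit 7289604852) (nat_lit 440) (nat_lit 5) (nat_lit 461) (nat_lit 5) (nat_lit 441) (nat_lit 5) (nat_lit 335) (nat_lit 318) (nat_lit 247))) (XT.nd (nat_lit 78) (nat_lit 3420) (nat_lit 0) (XT.lf (nat_lit 0) (nat_lit 4295843014) (nat_lit 1672) (nat_lit 2296924402) (nat_lit 76) (nat_lit 3152219377) (nat_lit 419) (nat_lit 5) (nat_lit 441) (nat_lit 5) (nat_lit 420) (nat_lit 5) (nat_lit 336) (nat_lit 318) (nat_lit 246)) (XT.nd (nat_lit 78) (nat_lit 1748) (nat_lit 0) (XT.lf (nat_lit 0) (nat_lit 5525774895) (nat_lit 1672) (nat_lit 1080764957) (nat_lit 1748) (nat_lit 3277365071)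 (nat_lit 397) (nat_lit 5) (nat_lit 419) (nat_lit 5) (nat_lit 420) (nat_lit 5) (nat_lit 337) (nat_lit 318) (nat_lit 245)) (XT.lf (nat_lit 0) (nat_lit 3564357076) (nat_lit 1748) (nat_lit 5445144186) (nat_lit 1824) (nat_lit 1017054171) (nat_lit 374) (nat_lit 5) (nat_lit 397) (nat_lit 5) (nat_lit 398) (nat_lit 5) (nat_lit 338) (nat_lit 318) (nat_lit 244))))) (XT.nd (nat_lit 156) (nat_lit 2660) (nat_lit 0) (XT.nd (nat_lit 78) (nat_lit 0) (nat_lit 0) (XT.lf (nat_lit 0) (nat_lit 1297916837) (nat_lit 1064) (nat_lit 8599424325) (nat_lit 76) (nat_lit 275915700) (nat_lit 360) (nat_lit 5) (nat_lit 374) (nat_lit 5) (nat_lit 361) (nat_lit 5) (nat_lit 339) (nat_lit 318) (nat_lit 243)) (XT.lf (nat_lit 0) (nat_lit 3705216072) (nat_lit 1064) (nat_lit 468187023) (nat_lit 76) (nat_lit 6150109757) (nat_lit 360) (nat_lit 5) (nat_lit 374) (nat_lit 5) (nat_lit 361) (nat_lit 5) (nat_lit 340) (nat_lit 318) (nat_lit 242)))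 (XT.nd (nat_lit 78) (nat_lit 1748) (nat_lit 0) (XT.lf (nat_lit 0) (nat_lit 6205442143) (nat_lit 988) (nat_lit 2517532100) (nat_lit 76) (nat_lit 1754909390) (nat_lit 348) (nat_lit 5) (nat_lit 361) (nat_lit 5) (nat_lit 349) (nat_lit 5) (nat_lit 341) (nat_lit 318) (nat_lit 241)) (XT.nd (nat_lit 78) (nat_lit 912) (nat_lit 0) (XT.lf (nat_lit 0) (nat_lit 6022744603) (nat_lit 836) (nat_lit 2786546447) (nat_lit 912) (nat_lit 1827042817) (nat_lit 337) (nat_lit 5) (nat_lit 348) (nat_lit 5) (nat_lit 349) (nat_lit 5) (nat_lit 342) (nat_lit 318) (nat_lit 240)) (XT.lf (nat_lit 0) (nat_lit 707215154) (nat_lit 912) (nat_lit 6757731974) (nat_lit 76) (nat_lit 3334028927) (nat_lit 325) (nat_lit 5) (nat_lit 337) (nat_lit 5) (nat_lit 326) (nat_lit 5) (nat_lit 343) (nat_lit 318) (nat_lit 239))))))))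
noncomputable def xc84 : XT := (XT.nd (nat_lit 1482) (nat_lit 7144) (nat_lit 0) (XT.nd (nat_lit 702) (nat_lit 4864) (nat_lit 0) (XT.nd (nat_lit 312) (nat_lit 2888) (nat_lit 0) (XT.nd (nat_lit 156) (nat_lit 1596) (nat_lit 0) (XT.nd (nat_lit 78) (nat_lit 0) (nat_lit 0) (XT.lf (nat_lit 0) (nat_lit 2008532781) (nat_lit 760) (nat_lit 1307457694) (nat_lit 836) (nat_lit 7649818344) (nat_lit 315) (nat_lit 5) (nat_lit 325) (nat_lit 5) (nat_lit 326) (nat_lit 5) (nat_lit 344) (nat_lit 318) (nat_lit 238)) (XT.lf (nat_lit 0) (nat_lit 6042748668) (nat_lit 836) (nat_lit 79342268) (nat_lit 76) (nat_lit 5014779764) (nat_lit 315) (nat_lit 5) (nat_lit 326) (nat_lit 5) (nat_lit 316) (nat_lit 5) (nat_lit 345) (nat_lit 318) (nat_lit 237))) (XT.nd (nat_lit 78) (nat_lit 836) (nat_lit 0) (XT.lf (nat_lit 0) (nat_lit 8883112111) (nat_lit 836) (nat_lit 2176860967) (nat_lit 76) (nat_lit 252473297) (nat_lit 305) (nat_lit 5) (nat_lit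 316) (nat_lit 5) (nat_lit 306) (nat_lit 5) (nat_lit 346) (nat_lit 318) (nat_lit 236)) (XT.lf (nat_lit 0) (nat_lit 362399593) (nat_lit 836) (nat_lit 4345961149) (nat_lit 76) (nat_lit 6783881967) (nat_lit 294) (nat_lit 5) (nat_lit 305) (nat_lit 5) (nat_lit 295) (nat_lit 5) (nat_lit 347) (nat_lit 318) (nat_lit 235)))) (XT.nd (nat_lit 156) (nat_lit 1444) (nat_lit 0) (XT.nd (nat_lit 78) (nat_lit 684) (nat_lit 0) (XT.lf (nat_lit 0) (nat_lit 3228934728) (nat_lit 836) (nat_lit 6575447373) (nat_lit 76) (nat_lit 1872265207) (nat_lit 284) (nat_lit 5) (nat_lit 295) (nat_lit 5) (nat_lit 285) (nat_lit 5) (nat_lit 348) (nat_lit 318) (nat_lit 234)) (XT.lf (nat_lit 0) (nat_lit 2994030616) (nat_lit 684) (nat_lit 3232304047) (nat_lit 760) (nat_lit 5639368148) (nat_lit 275) (nat_lit 5) (nat_lit 284) (nat_lit 5) (nat_lit 285) (nat_lit 5) (nat_lit 349) (nat_lit 318) (nat_lit 233))) (XT.nd (nat_lit 78) (nat_lit 760) (nat_lit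 0) (XT.lf (nat_lit 0) (nat_lit 829797204) (nat_lit 684) (nat_lit 8522132058) (nat_lit 760) (nat_lit 2707750931) (nat_lit 266) (nat_lit 5) (nat_lit 275) (nat_lit 5) (nat_lit 276) (nat_lit 5) (nat_lit 350) (nat_lit 318) (nat_lit 232)) (XT.nd (nat_lit 78) (nat_lit 684) (nat_lit 0) (XT.lf (nat_lit 0) (nat_lit 355452858) (nat_lit 760) (nat_lit 1377293129) (nat_lit 76) (nat_lit 10525750783) (nat_lit 265) (nat_lit 5) (nat_lit 275) (nat_lit 5) (nat_lit 266) (nat_lit 5) (nat_lit 351) (nat_lit 318) (nat_lit 231)) (XT.lf (nat_lit 0) (nat_lit 3532535623) (nat_lit 760) (nat_lit 3666090499) (nat_lit 76) (nat_lit 5263132825) (nat_lit 256) (nat_lit 5) (nat_lit 266) (nat_lit 5) (nat_lit 257) (nat_lit 5) (nat_lit 352) (nat_lit 318) (nat_lit 230)))))) (XT.nd (nat_lit 390) (nat_lit 2280) (nat_lit 0) (XT.nd (nat_lit 156) (nat_lit 1292) (nat_lit 0) (XT.nd (nat_lit 78) (nat_lit 608) (nat_lit 0) (XT.lf (nat_lit 0) (nat_lit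 6659805232) (nat_lit 684) (nat_lit 176650963) (nat_lit 760) (nat_lit 5834046345) (nat_lit 247) (nat_lit 5) (nat_lit 256) (nat_lit 5) (nat_lit 257) (nat_lit 5) (nat_lit 353) (nat_lit 318) (nat_lit 229)) (XT.lf (nat_lit 0) (nat_lit 4435200890) (nat_lit 608) (nat_lit 5871891334) (nat_lit 684) (nat_lit 2577077910) (nat_lit 239) (nat_lit 5) (nat_lit 247) (nat_lit 5) (nat_lit 248) (nat_lit 5) (nat_lit 354) (nat_lit 318) (nat_lit 228))) (XT.nd (nat_lit 78) (nat_lit 608) (nat_lit 0) (XT.lf (nat_lit 0) (nat_lit 800912011) (nat_lit 684) (nat_lit 10954877563) (nat_lit 76) (nat_lit 1347699981) (nat_lit 230) (nat_lit 5) (nat_lit 239) (nat_lit 5) (nat_lit 231) (nat_lit 5) (nat_lit 355) (nat_lit 318) (nat_lit 227)) (XT.nd (nat_lit 78) (nat_lit 608) (nat_lit 0) (XT.lf (nat_lit 0) (nat_lit 4311423430) (nat_lit 684) (nat_lit 242797251) (nat_lit 76) (nat_lit 8773515919) (nat_lit 230) (nat_lit 5) (nat_lit 239) (nat_lit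 5) (nat_lit 231) (nat_lit 5) (nat_lit 356) (nat_lit 318) (nat_lit 226)) (XT.lf (nat_lit 0) (nat_lit 7987015292) (nat_lit 684) (nat_lit 2679715894) (nat_lit 76) (nat_lit 2890796813) (nat_lit 222) (nat_lit 5) (nat_lit 231) (nat_lit 5) (nat_lit 223) (nat_lit 5) (nat_lit 357) (nat_lit 318) (nat_lit 225))))) (XT.nd (nat_lit 156) (nat_lit 1064) (nat_lit 0) (XT.nd (nat_lit 78) (nat_lit 608) (nat_lit 0) (XT.lf (nat_lit 0) (nat_lit 8587014923) (nat_lit 608) (nat_lit 3244319804) (nat_lit 684) (nat_lit 1961721105) (nat_lit 214) (nat_lit 5) (nat_lit 222) (nat_lit 5) (nat_lit 223) (nat_lit 5) (nat_lit 358) (nat_lit 318) (nat_lit 224)) (XT.lf (nat_lit 0) (nat_lit 1791030469) (nat_lit 608) (nat_lit 7836662330) (nat_lit 76) (nat_lit 4406565727) (nat_lit 206) (nat_lit 5) (nat_lit 214) (nat_lit 5) (nat_lit 207) (nat_lit 5) (nat_lit 359) (nat_lit 318) (nat_lit 223))) (XT.nd (nat_lit 78) (nat_lit 532) (nat_lit 0) (XT.lf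 (nat_lit 0) (nat_lit 3710148158) (nat_lit 532) (nat_lit 1972596858) (nat_lit 608) (nat_lit 8598643281) (nat_lit 199) (nat_lit 5) (nat_lit 206) (nat_lit 5) (nat_lit 207) (nat_lit 5) (nat_lit 360) (nat_lit 318) (nat_lit 222)) (XT.nd (nat_lit 78) (nat_lit 0) (nat_lit 0) (XT.lf (nat_lit 0) (nat_lit 1115651089) (nat_lit 532) (nat_lit 8646776121) (nat_lit 608) (nat_lit 4772091093) (nat_lit 192) (nat_lit 5) (nat_lit 199) (nat_lit 5) (nat_lit 200) (nat_lit 5) (nat_lit 361) (nat_lit 318) (nat_lit 221)) (XT.lf (nat_lit 0) (nat_lit 13249060948) (nat_lit 532) (nat_lit 772891214) (nat_lit 608) (nat_lit 772151358) (nat_lit 192) (nat_lit 5) (nat_lit 199) (nat_lit 5) (nat_lit 200) (nat_lit 5) (nat_lit 362) (nat_lit 318) (nat_lit 220))))))) (XT.nd (nat_lit 780) (nat_lit 2736) (nat_lit 0) (XT.nd (nat_lit 390) (nat_lit 2280) (nat_lit 0) (XT.nd (nat_lit 156) (nat_lit 1064) (nat_lit 0) (XT.nd (nat_lit 78) (nat_lit 456)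 (nat_lit 0) (XT.lf (nat_lit 0) (nat_lit 3395319522) (nat_lit 608) (nat_lit 4338625736) (nat_lit 76) (nat_lit 7325277374) (nat_lit 184) (nat_lit 5) (nat_lit 192) (nat_lit 5) (nat_lit 185) (nat_lit 5) (nat_lit 363) (nat_lit 318) (nat_lit 219)) (XT.lf (nat_lit 0) (nat_lit 7722035997) (nat_lit 532) (nat_lit 7229369832) (nat_lit 76) (nat_lit 379902742) (nat_lit 178) (nat_lit 5) (nat_lit 185) (nat_lit 5) (nat_lit 179) (nat_lit 5) (nat_lit 364) (nat_lit 318) (nat_lit 218))) (XT.nd (nat_lit 78) (nat_lit 532) (nat_lit 0) (XT.lf (nat_lit 0) (nat_lit 5347786130) (nat_lit 532) (nat_lit 6921115435) (nat_lit 608) (nat_lit 3340857863) (nat_lit 171) (nat_lit 5) (nat_lit 178) (nat_lit 5) (nat_lit 179) (nat_lit 5) (nat_lit 365) (nat_lit 318) (nat_lit 217)) (XT.nd (nat_lit 78) (nat_lit 0) (nat_lit 0) (XT.lf (nat_lit 0) (nat_lit 1091138359) (nat_lit 532) (nat_lit 13407979888) (nat_lit 76) (nat_lit 1396329859) (nat_lit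 164) (nat_lit 5) (nat_lit 171) (nat_lit 5) (nat_lit 165) (nat_lit 5) (nat_lit 366) (nat_lit 318) (nat_lit 216)) (XT.lf (nat_lit 0) (nat_lit 5702370812) (nat_lit 532) (nat_lit 531791753) (nat_lit 76) (nat_lit 9953278497) (nat_lit 164) (nat_lit 5) (nat_lit 171) (nat_lit 5) (nat_lit 165) (nat_lit 5) (nat_lit 367) (nat_lit 318) (nat_lit 215))))) (XT.nd (nat_lit 156) (nat_lit 1368) (nat_lit 0) (XT.nd (nat_lit 78) (nat_lit 456) (nat_lit 0) (XT.lf (nat_lit 0) (nat_lit 10526613092) (nat_lit 532) (nat_lit 3636130661) (nat_lit 76) (nat_lit 2323964930) (nat_lit 158) (nat_lit 5) (nat_lit 165) (nat_lit 5) (nat_lit 159) (nat_lit 5) (nat_lit 368) (nat_lit 318) (nat_lit 214)) (XT.lf (nat_lit 0) (nat_lit 9901831465) (nat_lit 456) (nat_lit 5679638686) (nat_lit 532) (nat_lit 1211774527) (nat_lit 152) (nat_lit 5) (nat_lit 158) (nat_lit 5) (nat_lit 159) (nat_lit 5) (nat_lit 369) (nat_lit 318) (nat_lit 213))) (XT.nd (nat_lit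 78) (nat_lit 836) (nat_lit 0) (XT.lf (nat_lit 0) (nat_lit 3696832183) (nat_lit 532) (nat_lit 10308304434) (nat_lit 76) (nat_lit 3102048374) (nat_lit 145) (nat_lit 5) (nat_lit 152) (nat_lit 5) (nat_lit 146) (nat_lit 5) (nat_lit 370) (nat_lit 318) (nat_lit 212)) (XT.nd (nat_lit 78) (nat_lit 456) (nat_lit 0) (XT.lf (nat_lit 0) (nat_lit 3531742482) (nat_lit 380) (nat_lit 5289513295) (nat_lit 456) (nat_lit 8607434581) (nat_lit 140) (nat_lit 5) (nat_lit 145) (nat_lit 5) (nat_lit 146) (nat_lit 5) (nat_lit 371) (nat_lit 318) (nat_lit 211)) (XT.lf (nat_lit 0) (nat_lit 114091217) (nat_lit 456) (nat_lit 14057723661) (nat_lit 532) (nat_lit 3586585213) (nat_lit 134) (nat_lit 5) (nat_lit 140) (nat_lit 5) (nat_lit 141) (nat_lit 5) (nat_lit 372) (nat_lit 318) (nat_lit 210)))))) (XT.nd (nat_lit 390) (nat_lit 1444) (nat_lit 0) (XT.nd (nat_lit 156) (nat_lit 836) (nat_lit 0) (XT.nd (nat_lit 78) (nat_lit 380) (nat_lit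 0) (XT.lf (nat_lit 0) (nat_lit 1671971458) (nat_lit 532) (nat_lit 3439142264) (nat_lit 76) (nat_lit 12984531143) (nat_lit 133) (nat_lit 5) (nat_lit 140) (nat_lit 5) (nat_lit 134) (nat_lit 5) (nat_lit 373) (nat_lit 318) (nat_lit 209)) (XT.lf (nat_lit 0) (nat_lit 7118678632) (nat_lit 456) (nat_lit 7184009913) (nat_lit 76) (nat_lit 4138268572) (nat_lit 128) (nat_lit 5) (nat_lit 134) (nat_lit 5) (nat_lit 129) (nat_lit 5) (nat_lit 374) (nat_lit 318) (nat_lit 208))) (XT.nd (nat_lit 78) (nat_lit 456) (nat_lit 0) (XT.lf (nat_lit 0) (nat_lit 7679885575) (nat_lit 380) (nat_lit 5135120269) (nat_lit 456) (nat_lit 5979905033) (nat_lit 123) (nat_lit 5) (nat_lit 128) (nat_lit 5) (nat_lit 129) (nat_lit 5) (nat_lit 375) (nat_lit 318) (nat_lit 207)) (XT.nd (nat_lit 78) (nat_lit 76) (nat_lit 0) (XT.lf (nat_lit 0) (nat_lit 3921480044) (nat_lit 380) (nat_lit 14842245824) (nat_lit 456) (nat_lit 394133645) (nat_lit 118)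 (nat_lit 5) (nat_lit 123) (nat_lit 5) (nat_lit 124) (nat_lit 5) (nat_lit 376) (nat_lit 318) (nat_lit 206)) (XT.lf (nat_lit 0) (nat_lit 5378422494) (nat_lit 456) (nat_lit 69560925) (nat_lit 76) (nat_lit 14081233326) (nat_lit 117) (nat_lit 5) (nat_lit 123) (nat_lit 5) (nat_lit 118) (nat_lit 5) (nat_lit 377) (nat_lit 318) (nat_lit 205))))) (XT.nd (nat_lit 156) (nat_lit 760) (nat_lit 0) (XT.nd (nat_lit 78) (nat_lit 304) (nat_lit 0) (XT.lf (nat_lit 0) (nat_lit 11428955732) (nat_lit 456) (nat_lit 4212292531) (nat_lit 76) (nat_lit 4268217070) (nat_lit 112) (nat_lit 5) (nat_lit 118) (nat_lit 5) (nat_lit 113) (nat_lit 5) (nat_lit 378) (nat_lit 318) (nat_lit 204)) (XT.lf (nat_lit 0) (nat_lit 11724171615) (nat_lit 304) (nat_lit 6030131757) (nat_lit 380) (nat_lit 2544957711) (nat_lit 108) (nat_lit 5) (nat_lit 112) (nat_lit 5) (nat_lit 113) (nat_lit 5) (nat_lit 379) (nat_lit 318) (nat_lit 203))) (XT.nd (nat_lit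 78) (nat_lit 304) (nat_lit 0) (XT.lf (nat_lit 0) (nat_lit 3605801929) (nat_lit 456) (nat_lit 13182771916) (nat_lit 76) (nat_lit 3910039965) (nat_lit 102) (nat_lit 5) (nat_lit 108) (nat_lit 5) (nat_lit 103) (nat_lit 5) (nat_lit 380) (nat_lit 318) (nat_lit 202)) (XT.nd (nat_lit 78) (nat_lit 0) (nat_lit 0) (XT.lf (nat_lit 0) (nat_lit 3050850858) (nat_lit 304) (nat_lit 6955313268) (nat_lit 380) (nat_lit 11101458679) (nat_lit 98) (nat_lit 5) (nat_lit 102) (nat_lit 5) (nat_lit 103) (nat_lit 5) (nat_lit 381) (nat_lit 318) (nat_lit 201)) (XT.lf (nat_lit 0) (nat_lit 16690195473) (nat_lit 380) (nat_lit 1625738022) (nat_lit 76) (nat_lit 3211140499) (nat_lit 98) (nat_lit 5) (nat_lit 103) (nat_lit 5) (nat_lit 99) (nat_lit 5) (nat_lit 382) (nat_lit 318) (nat_lit 200))))))))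
noncomputable def xc85 : XT := (XT.nd (nat_lit 1482) (nat_lit 14972) (nat_lit 0) (XT.nd (nat_lit 702) (nat_lit 4256) (nat_lit 0) (XT.nd (nat_lit 312) (nat_lit 1292) (nat_lit 0) (XT.nd (nat_lit 156) (nat_lit 0) (nat_lit 0) (XT.nd (nat_lit 78) (nat_lit 1368) (nat_lit 0) (XT.lf (nat_lit 0) (nat_lit 1628902281) (nat_lit 0) (nat_lit 1628902281) (nat_lit 1292) (nat_lit 739114701) (nat_lit 510) (nat_lit 5) (nat_lit 510) (nat_lit 3) (nat_lit 527) (nat_lit 3) (nat_lit 319) (nat_lit 319) (nat_lit 262)) (XT.lf (nat_lit 0) (nat_lit 295701952) (nat_lit 1368) (nat_lit 7140589431) (nat_lit 1444) (nat_lit 641086576) (nat_lit 492) (nat_lit 5) (nat_lit 510) (nat_lit 5) (nat_lit 511) (nat_lit 5) (nat_lit 320) (nat_lit 319) (nat_lit 261))) (XT.nd (nat_lit 78) (nat_lit 0) (nat_lit 76) (XT.lf (nat_lit 0) (nat_lit 2088034487) (nat_lit 1368) (nat_lit 1387323884) (nat_lit 1444) (nat_lit 4688204821) (nat_lit 492) (nat_lit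 5) (nat_lit 510) (nat_lit 5) (nat_lit 511) (nat_lit 5) (nat_lit 321) (nat_lit 319) (nat_lit 260)) (XT.lf (nat_lit 0) (nat_lit 3901145865) (nat_lit 1368) (nat_lit 3695260989) (nat_lit 1444) (nat_lit 656626146) (nat_lit 493) (nat_lit 5) (nat_lit 511) (nat_lit 5) (nat_lit 512) (nat_lit 5) (nat_lit 322) (nat_lit 319) (nat_lit 259)))) (XT.nd (nat_lit 156) (nat_lit 1368) (nat_lit 0) (XT.nd (nat_lit 78) (nat_lit 0) (nat_lit 76) (XT.lf (nat_lit 76) (nat_lit 2325262100) (nat_lit 0) (nat_lit 3426168860) (nat_lit 1444) (nat_lit 2594138387) (nat_lit 494) (nat_lit 5) (nat_lit 493) (nat_lit 5) (nat_lit 512) (nat_lit 5) (nat_lit 323) (nat_lit 319) (nat_lit 258)) (XT.lf (nat_lit 76) (nat_lit 94006803) (nat_lit 0) (nat_lit 7531487029) (nat_lit 1444) (nat_lit 816059515) (nat_lit 495) (nat_lit 5) (nat_lit 494) (nat_lit 5) (nat_lit 513) (nat_lit 5) (nat_lit 324) (nat_lit 319) (nat_lit 257))) (XT.nd (nat_lit 78) (nat_lit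 0) (nat_lit 76) (XT.lf (nat_lit 0) (nat_lit 1003986932) (nat_lit 1444) (nat_lit 2133479669) (nat_lit 1520) (nat_lit 5402814747) (nat_lit 475) (nat_lit 5) (nat_lit 494) (nat_lit 5) (nat_lit 495) (nat_lit 5) (nat_lit 325) (nat_lit 319) (nat_lit 256)) (XT.nd (nat_lit 78) (nat_lit 0) (nat_lit 0) (XT.lf (nat_lit 0) (nat_lit 2844558131) (nat_lit 1444) (nat_lit 4371383879) (nat_lit 1520) (nat_lit 1426415229) (nat_lit 476) (nat_lit 5) (nat_lit 495) (nat_lit 5) (nat_lit 496) (nat_lit 5) (nat_lit 326) (nat_lit 319) (nat_lit 255)) (XT.lf (nat_lit 76) (nat_lit 2118367228) (nat_lit 0) (nat_lit 2612699258) (nat_lit 1520) (nat_lit 4016647668) (nat_lit 477) (nat_lit 5) (nat_lit 476) (nat_lit 5) (nat_lit 496) (nat_lit 5) (nat_lit 327) (nat_lit 319) (nat_lit 254)))))) (XT.nd (nat_lit 390) (nat_lit 2964) (nat_lit 0) (XT.nd (nat_lit 156) (nat_lit 1444) (nat_lit 0) (XT.nd (nat_lit 78) (nat_lit 0) (nat_lit 0) (XT.lf (nat_lit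 0) (nat_lit 6660832896) (nat_lit 1444) (nat_lit 45592463) (nat_lit 1520) (nat_lit 2150105344) (nat_lit 477) (nat_lit 5) (nat_lit 496) (nat_lit 5) (nat_lit 497) (nat_lit 5) (nat_lit 328) (nat_lit 319) (nat_lit 253)) (XT.lf (nat_lit 76) (nat_lit 6769526234) (nat_lit 0) (nat_lit 1885074290) (nat_lit 1520) (nat_lit 313920305) (nat_lit 478) (nat_lit 5) (nat_lit 477) (nat_lit 5) (nat_lit 497) (nat_lit 5) (nat_lit 329) (nat_lit 319) (nat_lit 252))) (XT.nd (nat_lit 78) (nat_lit 0) (nat_lit 0) (XT.lf (nat_lit 0) (nat_lit 1600016396) (nat_lit 1520) (nat_lit 4384939142) (nat_lit 1596) (nat_lit 3098793758) (nat_lit 458) (nat_lit 5) (nat_lit 478) (nat_lit 5) (nat_lit 479) (nat_lit 5) (nat_lit 330) (nat_lit 319) (nat_lit 251)) (XT.nd (nat_lit 78) (nat_lit 0) (nat_lit 76) (XT.lf (nat_lit 76) (nat_lit 2612789349) (nat_lit 0) (nat_lit 946025805) (nat_lit 1596) (nat_lit 5643772657) (nat_lit 459) (nat_lit 5) (nat_lit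 458) (nat_lit 5) (nat_lit 479) (nat_lit 5) (nat_lit 331) (nat_lit 319) (nat_lit 250)) (XT.lf (nat_lit 76) (nat_lit 496111219) (nat_lit 0) (nat_lit 5089455609) (nat_lit 1596) (nat_lit 3739268909) (nat_lit 460) (nat_lit 5) (nat_lit 459) (nat_lit 5) (nat_lit 480) (nat_lit 5) (nat_lit 332) (nat_lit 319) (nat_lit 249))))) (XT.nd (nat_lit 156) (nat_lit 1520) (nat_lit 0) (XT.nd (nat_lit 78) (nat_lit 1596) (nat_lit 0) (XT.lf (nat_lit 0) (nat_lit 7674896081) (nat_lit 1520) (nat_lit 1611544883) (nat_lit 1596) (nat_lit 164301853) (nat_lit 460) (nat_lit 5) (nat_lit 480) (nat_lit 5) (nat_lit 481) (nat_lit 5) (nat_lit 333) (nat_lit 319) (nat_lit 248)) (XT.lf (nat_lit 0) (nat_lit 266532304) (nat_lit 1596) (nat_lit 3755272557) (nat_lit 1672) (nat_lit 5558150410) (nat_lit 439) (nat_lit 5) (nat_lit 460) (nat_lit 5) (nat_lit 461) (nat_lit 5) (nat_lit 334) (nat_lit 319) (nat_lit 247))) (XT.nd (nat_lit 78) (nat_lit 1596)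 (nat_lit 0) (XT.lf (nat_lit 0) (nat_lit 2343415144) (nat_lit 1596) (nat_lit 5929624697) (nat_lit 76) (nat_lit 1439847457) (nat_lit 440) (nat_lit 5) (nat_lit 461) (nat_lit 5) (nat_lit 441) (nat_lit 5) (nat_lit 335) (nat_lit 319) (nat_lit 246)) (XT.nd (nat_lit 78) (nat_lit 0) (nat_lit 0) (XT.lf (nat_lit 0) (nat_lit 1706877039) (nat_lit 1596) (nat_lit 2792661656) (nat_lit 1672) (nat_lit 5349954325) (nat_lit 419) (nat_lit 5) (nat_lit 440) (nat_lit 5) (nat_lit 441) (nat_lit 5) (nat_lit 336) (nat_lit 319) (nat_lit 245)) (XT.lf (nat_lit 0) (nat_lit 6733814843) (nat_lit 1672) (nat_lit 393400647) (nat_lit 76) (nat_lit 2862735753) (nat_lit 419) (nat_lit 5) (nat_lit 441) (nat_lit 5) (nat_lit 420) (nat_lit 5) (nat_lit 337) (nat_lit 319) (nat_lit 244))))))) (XT.nd (nat_lit 780) (nat_lit 6308) (nat_lit 0) (XT.nd (nat_lit 390) (nat_lit 3268) (nat_lit 0) (XT.nd (nat_lit 156) (nat_lit 1900) (nat_lit 0) (XT.nd (nat_lit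 78) (nat_lit 1824) (nat_lit 0) (XT.lf (nat_lit 0) (nat_lit 7631979271) (nat_lit 1672) (nat_lit 1427196643) (nat_lit 1748) (nat_lit 1074989183) (nat_lit 397) (nat_lit 5) (nat_lit 419) (nat_lit 5) (nat_lit 420) (nat_lit 5) (nat_lit 338) (nat_lit 319) (nat_lit 243)) (XT.lf (nat_lit 0) (nat_lit 1181358565) (nat_lit 1824) (nat_lit 4662250128) (nat_lit 76) (nat_lit 4438463811) (nat_lit 373) (nat_lit 5) (nat_lit 397) (nat_lit 5) (nat_lit 374) (nat_lit 5) (nat_lit 339) (nat_lit 319) (nat_lit 242))) (XT.nd (nat_lit 78) (nat_lit 912) (nat_lit 0) (XT.lf (nat_lit 0) (nat_lit 3498857181) (nat_lit 1064) (nat_lit 6856930370) (nat_lit 76) (nat_lit 78347432) (nat_lit 360) (nat_lit 5) (nat_lit 374) (nat_lit 5) (nat_lit 361) (nat_lit 5) (nat_lit 340) (nat_lit 319) (nat_lit 241)) (XT.nd (nat_lit 78) (nat_lit 0) (nat_lit 0) (XT.lf (nat_lit 0) (nat_lit 1479380075) (nat_lit 912) (nat_lit 4445629478) (nat_lit 988) (nat_lit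 4664987858) (nat_lit 348) (nat_lit 5) (nat_lit 360) (nat_lit 5) (nat_lit 361) (nat_lit 5) (nat_lit 341) (nat_lit 319) (nat_lit 240)) (XT.lf (nat_lit 0) (nat_lit 8440999596) (nat_lit 988) (nat_lit 639427797) (nat_lit 76) (nat_lit 1669787306) (nat_lit 348) (nat_lit 5) (nat_lit 361) (nat_lit 5) (nat_lit 349) (nat_lit 5) (nat_lit 342) (nat_lit 319) (nat_lit 239))))) (XT.nd (nat_lit 156) (nat_lit 1520) (nat_lit 0) (XT.nd (nat_lit 78) (nat_lit 836) (nat_lit 0) (XT.lf (nat_lit 0) (nat_lit 159242769) (nat_lit 912) (nat_lit 2790078104) (nat_lit 76) (nat_lit 7965050504) (nat_lit 336) (nat_lit 5) (nat_lit 348) (nat_lit 5) (nat_lit 337) (nat_lit 5) (nat_lit 343) (nat_lit 319) (nat_lit 238)) (XT.lf (nat_lit 0) (nat_lit 2698232367) (nat_lit 912) (nat_lit 5001713727) (nat_lit 76) (nat_lit 3382662888) (nat_lit 325) (nat_lit 5) (nat_lit 337) (nat_lit 5) (nat_lit 326) (nat_lit 5) (nat_lit 344) (nat_lit 319) (nat_lit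 237))) (XT.nd (nat_lit 78) (nat_lit 760) (nat_lit 0) (XT.lf (nat_lit 0) (nat_lit 3995760576) (nat_lit 760) (nat_lit 1344648712) (nat_lit 836) (nat_lit 5914962061) (nat_lit 315) (nat_lit 5) (nat_lit 325) (nat_lit 5) (nat_lit 326) (nat_lit 5) (nat_lit 345) (nat_lit 319) (nat_lit 236)) (XT.nd (nat_lit 78) (nat_lit 0) (nat_lit 0) (XT.lf (nat_lit 0) (nat_lit 1851659738) (nat_lit 760) (nat_lit 6253279318) (nat_lit 836) (nat_lit 3327533245) (nat_lit 305) (nat_lit 5) (nat_lit 315) (nat_lit 5) (nat_lit 316) (nat_lit 5) (nat_lit 346) (nat_lit 319) (nat_lit 235)) (XT.lf (nat_lit 0) (nat_lit 10976585897) (nat_lit 836) (nat_lit 326982973) (nat_lit 76) (nat_lit 310850744) (nat_lit 305) (nat_lit 5) (nat_lit 316) (nat_lit 5) (nat_lit 306) (nat_lit 5) (nat_lit 347) (nat_lit 319) (nat_lit 234)))))) (XT.nd (nat_lit 390) (nat_lit 2584) (nat_lit 0) (XT.nd (nat_lit 156) (nat_lit 2128) (nat_lit 0) (XT.nd (nat_lit 78) (nat_lit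 760) (nat_lit 0) (XT.lf (nat_lit 0) (nat_lit 2171924228) (nat_lit 836) (nat_lit 2567505497) (nat_lit 76) (nat_lit 7060788115) (nat_lit 294) (nat_lit 5) (nat_lit 305) (nat_lit 5) (nat_lit 295) (nat_lit 5) (nat_lit 348) (nat_lit 319) (nat_lit 233)) (XT.lf (nat_lit 0) (nat_lit 5085035108) (nat_lit 836) (nat_lit 4859655779) (nat_lit 76) (nat_lit 2046275953) (nat_lit 284) (nat_lit 5) (nat_lit 295) (nat_lit 5) (nat_lit 285) (nat_lit 5) (nat_lit 349) (nat_lit 319) (nat_lit 232))) (XT.nd (nat_lit 78) (nat_lit 1444) (nat_lit 0) (XT.lf (nat_lit 0) (nat_lit 4965869505) (nat_lit 684) (nat_lit 3167467068) (nat_lit 760) (nat_lit 4053161007) (nat_lit 275) (nat_lit 5) (nat_lit 284) (nat_lit 5) (nat_lit 285) (nat_lit 5) (nat_lit 350) (nat_lit 319) (nat_lit 231)) (XT.nd (nat_lit 78) (nat_lit 760) (nat_lit 0) (XT.lf (nat_lit 0) (nat_lit 2739747698) (nat_lit 684) (nat_lit 8576107045) (nat_lit 760) (nat_lit 1071198913)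 (nat_lit 266) (nat_lit 5) (nat_lit 275) (nat_lit 5) (nat_lit 276) (nat_lit 5) (nat_lit 351) (nat_lit 319) (nat_lit 230)) (XT.lf (nat_lit 0) (nat_lit 439895762) (nat_lit 684) (nat_lit 1574955897) (nat_lit 760) (nat_lit 10577711822) (nat_lit 256) (nat_lit 5) (nat_lit 265) (nat_lit 5) (nat_lit 266) (nat_lit 5) (nat_lit 352) (nat_lit 319) (nat_lit 229))))) (XT.nd (nat_lit 156) (nat_lit 1900) (nat_lit 0) (XT.nd (nat_lit 78) (nat_lit 684) (nat_lit 0) (XT.lf (nat_lit 0) (nat_lit 5249668952) (nat_lit 760) (nat_lit 1921887434) (nat_lit 76) (nat_lit 5631139477) (nat_lit 256) (nat_lit 5) (nat_lit 266) (nat_lit 5) (nat_lit 257) (nat_lit 5) (nat_lit 353) (nat_lit 319) (nat_lit 228)) (XT.lf (nat_lit 0) (nat_lit 8618052556) (nat_lit 760) (nat_lit 4335149438) (nat_lit 76) (nat_lit 65213037) (nat_lit 247) (nat_lit 5) (nat_lit 257) (nat_lit 5) (nat_lit 248) (nat_lit 5) (nat_lit 354) (nat_lit 319) (nat_lit 227))) (XT.nd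 (nat_lit 78) (nat_lit 1292) (nat_lit 0) (XT.lf (nat_lit 0) (nat_lit 6392854263) (nat_lit 608) (nat_lit 5767029280) (nat_lit 684) (nat_lit 1079287181) (nat_lit 239) (nat_lit 5) (nat_lit 247) (nat_lit 5) (nat_lit 248) (nat_lit 5) (nat_lit 355) (nat_lit 319) (nat_lit 226)) (XT.nd (nat_lit 78) (nat_lit 608) (nat_lit 0) (XT.lf (nat_lit 0) (nat_lit 2347815162) (nat_lit 684) (nat_lit 9438450649) (nat_lit 76) (nat_lit 1679249421) (nat_lit 230) (nat_lit 5) (nat_lit 239) (nat_lit 5) (nat_lit 231) (nat_lit 5) (nat_lit 356) (nat_lit 319) (nat_lit 225)) (XT.lf (nat_lit 0) (nat_lit 1561734503) (nat_lit 608) (nat_lit 4367691630) (nat_lit 684) (nat_lit 7767765971) (nat_lit 222) (nat_lit 5) (nat_lit 230) (nat_lit 5) (nat_lit 231) (nat_lit 5) (nat_lit 357) (nat_lit 319) (nat_lit 224))))))))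
noncomputable def xc86 : XT := (XT.nd (nat_lit 1482) (nat_lit 1900) (nat_lit 0) (XT.nd (nat_lit 702) (nat_lit 3648) (nat_lit 0) (XT.nd (nat_lit 312) (nat_lit 2128) (nat_lit 0) (XT.nd (nat_lit 156) (nat_lit 1140) (nat_lit 0) (XT.nd (nat_lit 78) (nat_lit 608) (nat_lit 0) (XT.lf (nat_lit 0) (nat_lit 9675571682) (nat_lit 684) (nat_lit 970360204) (nat_lit 76) (nat_lit 3288757216) (nat_lit 222) (nat_lit 5) (nat_lit 231) (nat_lit 5) (nat_lit 223) (nat_lit 5) (nat_lit 358) (nat_lit 319) (nat_lit 223)) (XT.lf (nat_lit 0) (nat_lit 10605336016) (nat_lit 608) (nat_lit 2999114076) (nat_lit 684) (nat_lit 573465152) (nat_lit 214) (nat_lit 5) (nat_lit 222) (nat_lit 5) (nat_lit 223) (nat_lit 5) (nat_lit 359) (nat_lit 319) (nat_lit 222))) (XT.nd (nat_lit 78) (nat_lit 532) (nat_lit 0) (XT.lf (nat_lit 0) (nat_lit 3244959846) (nat_lit 608) (nat_lit 6294192743) (nat_lit 76) (nat_lit 4887588361) (nat_lit 206) (nat_lit 5)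 (nat_lit 214) (nat_lit 5) (nat_lit 207) (nat_lit 5) (nat_lit 360) (nat_lit 319) (nat_lit 221)) (XT.lf (nat_lit 0) (nat_lit 5570183107) (nat_lit 532) (nat_lit 1653814161) (nat_lit 608) (nat_lit 7457891685) (nat_lit 199) (nat_lit 5) (nat_lit 206) (nat_lit 5) (nat_lit 207) (nat_lit 5) (nat_lit 361) (nat_lit 319) (nat_lit 220)))) (XT.nd (nat_lit 156) (nat_lit 988) (nat_lit 0) (XT.nd (nat_lit 78) (nat_lit 608) (nat_lit 0) (XT.lf (nat_lit 0) (nat_lit 2894553577) (nat_lit 532) (nat_lit 8505306018) (nat_lit 608) (nat_lit 3543292779) (nat_lit 192) (nat_lit 5) (nat_lit 199) (nat_lit 5) (nat_lit 200) (nat_lit 5) (nat_lit 362) (nat_lit 319) (nat_lit 219)) (XT.lf (nat_lit 0) (nat_lit 127998841) (nat_lit 532) (nat_lit 402478607) (nat_lit 608) (nat_lit 14680759488) (nat_lit 184) (nat_lit 5) (nat_lit 191) (nat_lit 5) (nat_lit 192) (nat_lit 5) (nat_lit 363) (nat_lit 319) (nat_lit 218))) (XT.nd (nat_lit 78) (nat_lit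 988) (nat_lit 0) (XT.lf (nat_lit 0) (nat_lit 4786943357) (nat_lit 608) (nat_lit 2760384511) (nat_lit 76) (nat_lit 7937404596) (nat_lit 184) (nat_lit 5) (nat_lit 192) (nat_lit 5) (nat_lit 185) (nat_lit 5) (nat_lit 364) (nat_lit 319) (nat_lit 217)) (XT.nd (nat_lit 78) (nat_lit 532) (nat_lit 0) (XT.lf (nat_lit 0) (nat_lit 9219518648) (nat_lit 532) (nat_lit 5742558813) (nat_lit 76) (nat_lit 803396108) (nat_lit 178) (nat_lit 5) (nat_lit 185) (nat_lit 5) (nat_lit 179) (nat_lit 5) (nat_lit 365) (nat_lit 319) (nat_lit 216)) (XT.lf (nat_lit 0) (nat_lit 7184271447) (nat_lit 532) (nat_lit 6692532185) (nat_lit 608) (nat_lit 2176007384) (nat_lit 171) (nat_lit 5) (nat_lit 178) (nat_lit 5) (nat_lit 179) (nat_lit 5) (nat_lit 366) (nat_lit 319) (nat_lit 215)))))) (XT.nd (nat_lit 390) (nat_lit 1672) (nat_lit 0) (XT.nd (nat_lit 156) (nat_lit 988) (nat_lit 0) (XT.nd (nat_lit 78) (nat_lit 456) (nat_lit 0) (XT.lf (nat_lit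 0) (nat_lit 2349681792) (nat_lit 532) (nat_lit 12122600628) (nat_lit 76) (nat_lit 1875089859) (nat_lit 164) (nat_lit 5) (nat_lit 171) (nat_lit 5) (nat_lit 165) (nat_lit 5) (nat_lit 367) (nat_lit 319) (nat_lit 214)) (XT.lf (nat_lit 0) (nat_lit 1105214293) (nat_lit 456) (nat_lit 5965509527) (nat_lit 532) (nat_lit 9577984073) (nat_lit 158) (nat_lit 5) (nat_lit 164) (nat_lit 5) (nat_lit 165) (nat_lit 5) (nat_lit 368) (nat_lit 319) (nat_lit 213))) (XT.nd (nat_lit 78) (nat_lit 988) (nat_lit 0) (XT.lf (nat_lit 0) (nat_lit 12011215272) (nat_lit 532) (nat_lit 2112510608) (nat_lit 76) (nat_lit 2833809190) (nat_lit 158) (nat_lit 5) (nat_lit 165) (nat_lit 5) (nat_lit 159) (nat_lit 5) (nat_lit 369) (nat_lit 319) (nat_lit 212)) (XT.nd (nat_lit 78) (nat_lit 532) (nat_lit 0) (XT.lf (nat_lit 0) (nat_lit 11805101701) (nat_lit 456) (nat_lit 5389002129) (nat_lit 532) (nat_lit 79647215) (nat_lit 152) (nat_lit 5) (nat_lit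 158) (nat_lit 5) (nat_lit 159) (nat_lit 5) (nat_lit 370) (nat_lit 319) (nat_lit 211)) (XT.lf (nat_lit 0) (nat_lit 4940689025) (nat_lit 532) (nat_lit 9002003958) (nat_lit 76) (nat_lit 3654679986) (nat_lit 145) (nat_lit 5) (nat_lit 152) (nat_lit 5) (nat_lit 146) (nat_lit 5) (nat_lit 371) (nat_lit 319) (nat_lit 210))))) (XT.nd (nat_lit 156) (nat_lit 836) (nat_lit 0) (XT.nd (nat_lit 78) (nat_lit 456) (nat_lit 0) (XT.lf (nat_lit 0) (nat_lit 5227033993) (nat_lit 380) (nat_lit 4969131780) (nat_lit 456) (nat_lit 7732822049) (nat_lit 140) (nat_lit 5) (nat_lit 145) (nat_lit 5) (nat_lit 146) (nat_lit 5) (nat_lit 372) (nat_lit 319) (nat_lit 209)) (XT.lf (nat_lit 0) (nat_lit 1700205277) (nat_lit 456) (nat_lit 13987994048) (nat_lit 532) (nat_lit 2580780789) (nat_lit 134) (nat_lit 5) (nat_lit 140) (nat_lit 5) (nat_lit 141) (nat_lit 5) (nat_lit 373) (nat_lit 319) (nat_lit 208))) (XT.nd (nat_lit 78) (nat_lit 760)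 (nat_lit 0) (XT.lf (nat_lit 0) (nat_lit 2788926245) (nat_lit 532) (nat_lit 1991215213) (nat_lit 76) (nat_lit 13836706191) (nat_lit 133) (nat_lit 5) (nat_lit 140) (nat_lit 5) (nat_lit 134) (nat_lit 5) (nat_lit 374) (nat_lit 319) (nat_lit 207)) (XT.nd (nat_lit 78) (nat_lit 380) (nat_lit 0) (XT.lf (nat_lit 0) (nat_lit 8380988770) (nat_lit 456) (nat_lit 5855478483) (nat_lit 76) (nat_lit 4736422565) (nat_lit 128) (nat_lit 5) (nat_lit 134) (nat_lit 5) (nat_lit 129) (nat_lit 5) (nat_lit 375) (nat_lit 319) (nat_lit 206)) (XT.lf (nat_lit 0) (nat_lit 9429283465) (nat_lit 380) (nat_lit 4798238587) (nat_lit 456) (nat_lit 5110363162) (nat_lit 123) (nat_lit 5) (nat_lit 128) (nat_lit 5) (nat_lit 129) (nat_lit 5) (nat_lit 376) (nat_lit 319) (nat_lit 205))))))) (XT.nd (nat_lit 42744) (nat_lit 0) (nat_lit 27284) (XT.nd (nat_lit 390) (nat_lit 304) (nat_lit 0) (XT.nd (nat_lit 156) (nat_lit 760) (nat_lit 0) (XT.nd (nat_lit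 78) (nat_lit 380) (nat_lit 0) (XT.lf (nat_lit 0) (nat_lit 617393074) (nat_lit 456) (nat_lit 14165253497) (nat_lit 76) (nat_lit 4929344254) (nat_lit 117) (nat_lit 5) (nat_lit 123) (nat_lit 5) (nat_lit 118) (nat_lit 5) (nat_lit 377) (nat_lit 319) (nat_lit 204)) (XT.lf (nat_lit 0) (nat_lit 1428230946) (nat_lit 380) (nat_lit 5109192510) (nat_lit 456) (nat_lit 13557428810) (nat_lit 112) (nat_lit 5) (nat_lit 117) (nat_lit 5) (nat_lit 118) (nat_lit 5) (nat_lit 378) (nat_lit 319) (nat_lit 203))) (XT.nd (nat_lit 78) (nat_lit 760) (nat_lit 0) (XT.lf (nat_lit 0) (nat_lit 12744041480) (nat_lit 456) (nat_lit 2865052243) (nat_lit 76) (nat_lit 4877931600) (nat_lit 112) (nat_lit 5) (nat_lit 118) (nat_lit 5) (nat_lit 113) (nat_lit 5) (nat_lit 379) (nat_lit 319) (nat_lit 202)) (XT.nd (nat_lit 78) (nat_lit 456) (nat_lit 0) (XT.lf (nat_lit 0) (nat_lit 13525598272) (nat_lit 304) (nat_lit 5714646700) (nat_lit 380) (nat_lit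 1648656212) (nat_lit 108) (nat_lit 5) (nat_lit 112) (nat_lit 5) (nat_lit 113) (nat_lit 5) (nat_lit 380) (nat_lit 319) (nat_lit 201)) (XT.lf (nat_lit 0) (nat_lit 4658486057) (nat_lit 456) (nat_lit 12123409398) (nat_lit 76) (nat_lit 4518528160) (nat_lit 102) (nat_lit 5) (nat_lit 108) (nat_lit 5) (nat_lit 103) (nat_lit 5) (nat_lit 381) (nat_lit 319) (nat_lit 200))))) (XT.nd (nat_lit 42120) (nat_lit 0) (nat_lit 29868) (XT.nd (nat_lit 42042) (nat_lit 0) (nat_lit 29868) (XT.lf (nat_lit 0) (nat_lit 4573618916) (nat_lit 304) (nat_lit 6659022777) (nat_lit 380) (nat_lit 10489433061) (nat_lit 98) (nat_lit 5) (nat_lit 102) (nat_lit 5) (nat_lit 103) (nat_lit 5) (nat_lit 382) (nat_lit 319) (nat_lit 199)) (XT.lf (nat_lit 0) (nat_lit 997818350) (nat_lit 1444) (nat_lit 1541550203) (nat_lit 1444) (nat_lit 1541550203) (nat_lit 491) (nat_lit 3) (nat_lit 510) (nat_lit 3) (nat_lit 510) (nat_lit 5) (nat_lit 320) (nat_lit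 320) (nat_lit 260))) (XT.nd (nat_lit 78) (nat_lit 0) (nat_lit 76) (XT.lf (nat_lit 76) (nat_lit 2725490680) (nat_lit 0) (nat_lit 982493847) (nat_lit 1444) (nat_lit 4541657220) (nat_lit 492) (nat_lit 5) (nat_lit 491) (nat_lit 3) (nat_lit 510) (nat_lit 5) (nat_lit 321) (nat_lit 320) (nat_lit 259)) (XT.nd (nat_lit 78) (nat_lit 0) (nat_lit 0) (XT.lf (nat_lit 76) (nat_lit 359297827) (nat_lit 0) (nat_lit 5091800314) (nat_lit 1444) (nat_lit 2889432115) (nat_lit 493) (nat_lit 5) (nat_lit 492) (nat_lit 5) (nat_lit 511) (nat_lit 5) (nat_lit 322) (nat_lit 320) (nat_lit 258)) (XT.lf (nat_lit 76) (nat_lit 6453637199) (nat_lit 0) (nat_lit 773514473) (nat_lit 1444) (nat_lit 1207417764) (nat_lit 493) (nat_lit 5) (nat_lit 492) (nat_lit 5) (nat_lit 511) (nat_lit 5) (nat_lit 323) (nat_lit 320) (nat_lit 257)))))) (XT.nd (nat_lit 390) (nat_lit 1292) (nat_lit 0) (XT.nd (nat_lit 156) (nat_lit 0) (nat_lit 76) (XT.nd (nat_lit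 78) (nat_lit 0) (nat_lit 0) (XT.lf (nat_lit 0) (nat_lit 507875477) (nat_lit 1444) (nat_lit 4339475043) (nat_lit 1520) (nat_lit 3684252162) (nat_lit 474) (nat_lit 5) (nat_lit 493) (nat_lit 5) (nat_lit 494) (nat_lit 5) (nat_lit 324) (nat_lit 320) (nat_lit 256)) (XT.lf (nat_lit 76) (nat_lit 1922822165) (nat_lit 0) (nat_lit 306507001) (nat_lit 1520) (nat_lit 6402670167) (nat_lit 475) (nat_lit 5) (nat_lit 474) (nat_lit 5) (nat_lit 494) (nat_lit 5) (nat_lit 325) (nat_lit 320) (nat_lit 255))) (XT.nd (nat_lit 78) (nat_lit 0) (nat_lit 76) (XT.lf (nat_lit 0) (nat_lit 4001928454) (nat_lit 1444) (nat_lit 367068071) (nat_lit 1520) (nat_lit 4366454467) (nat_lit 475) (nat_lit 5) (nat_lit 494) (nat_lit 5) (nat_lit 495) (nat_lit 5) (nat_lit 326) (nat_lit 320) (nat_lit 254)) (XT.nd (nat_lit 78) (nat_lit 0) (nat_lit 0) (XT.lf (nat_lit 0) (nat_lit 5815874565) (nat_lit 1444) (nat_lit 2635218660) (nat_lit 1520) (nat_lit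 391181780) (nat_lit 476) (nat_lit 5) (nat_lit 495) (nat_lit 5) (nat_lit 496) (nat_lit 5) (nat_lit 327) (nat_lit 320) (nat_lit 253)) (XT.lf (nat_lit 76) (nat_lit 4018930147) (nat_lit 0) (nat_lit 3667917462) (nat_lit 1520) (nat_lit 1265435203) (nat_lit 477) (nat_lit 5) (nat_lit 476) (nat_lit 5) (nat_lit 496) (nat_lit 5) (nat_lit 328) (nat_lit 320) (nat_lit 252))))) (XT.nd (nat_lit 156) (nat_lit 0) (nat_lit 76) (XT.nd (nat_lit 78) (nat_lit 0) (nat_lit 0) (XT.lf (nat_lit 0) (nat_lit 525310697) (nat_lit 1520) (nat_lit 7246603986) (nat_lit 1596) (nat_lit 1293951834) (nat_lit 457) (nat_lit 5) (nat_lit 477) (nat_lit 5) (nat_lit 478) (nat_lit 5) (nat_lit 329) (nat_lit 320) (nat_lit 251)) (XT.lf (nat_lit 0) (nat_lit 2358115880) (nat_lit 1520) (nat_lit 409925806) (nat_lit 1596) (nat_lit 6414567047) (nat_lit 457) (nat_lit 5) (nat_lit 477) (nat_lit 5) (nat_lit 478) (nat_lit 5) (nat_lit 330) (nat_lit 320) (nat_lit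 250))) (XT.nd (nat_lit 78) (nat_lit 0) (nat_lit 0) (XT.lf (nat_lit 0) (nat_lit 4253970818) (nat_lit 1520) (nat_lit 2634848085) (nat_lit 1596) (nat_lit 2413901031) (nat_lit 458) (nat_lit 5) (nat_lit 478) (nat_lit 5) (nat_lit 479) (nat_lit 5) (nat_lit 331) (nat_lit 320) (nat_lit 249)) (XT.nd (nat_lit 78) (nat_lit 0) (nat_lit 76) (XT.lf (nat_lit 76) (nat_lit 4542284900) (nat_lit 0) (nat_lit 1665365714) (nat_lit 1596) (nat_lit 3218792089) (nat_lit 459) (nat_lit 5) (nat_lit 458) (nat_lit 5) (nat_lit 479) (nat_lit 5) (nat_lit 332) (nat_lit 320) (nat_lit 248)) (XT.lf (nat_lit 76) (nat_lit 2387863208) (nat_lit 0) (nat_lit 5841131103) (nat_lit 1596) (nat_lit 1324728198) (nat_lit 460) (nat_lit 5) (nat_lit 459) (nat_lit 5) (nat_lit 480) (nat_lit 5) (nat_lit 333) (nat_lit 320) (nat_lit 247))))))))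
noncomputable def xc87 : XT := (XT.nd (nat_lit 1560) (nat_lit 8816) (nat_lit 0) (XT.nd (nat_lit 780) (nat_lit 6156) (nat_lit 0) (XT.nd (nat_lit 390) (nat_lit 4560) (nat_lit 0) (XT.nd (nat_lit 156) (nat_lit 3116) (nat_lit 0) (XT.nd (nat_lit 78) (nat_lit 0) (nat_lit 76) (XT.lf (nat_lit 76) (nat_lit 211531907) (nat_lit 0) (nat_lit 404539741) (nat_lit 1672) (nat_lit 9068730381) (nat_lit 439) (nat_lit 5) (nat_lit 438) (nat_lit 5) (nat_lit 460) (nat_lit 5) (nat_lit 334) (nat_lit 320) (nat_lit 246)) (XT.lf (nat_lit 0) (nat_lit 2633334719) (nat_lit 1596) (nat_lit 1990414187) (nat_lit 1672) (nat_lit 5195189575) (nat_lit 439) (nat_lit 5) (nat_lit 460) (nat_lit 5) (nat_lit 461) (nat_lit 5) (nat_lit 335) (nat_lit 320) (nat_lit 245))) (XT.nd (nat_lit 78) (nat_lit 3268) (nat_lit 0) (XT.lf (nat_lit 0) (nat_lit 4712858837) (nat_lit 1596) (nat_lit 4210257813) (nat_lit 76) (nat_lit 1033971220) (nat_lit 440) (nat_lit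 5) (nat_lit 461) (nat_lit 5) (nat_lit 441) (nat_lit 5) (nat_lit 336) (nat_lit 320) (nat_lit 244)) (XT.nd (nat_lit 78) (nat_lit 1672) (nat_lit 0) (XT.lf (nat_lit 0) (nat_lit 3624558257) (nat_lit 1596) (nat_lit 3254260953) (nat_lit 1672) (nat_lit 3220104537) (nat_lit 419) (nat_lit 5) (nat_lit 440) (nat_lit 5) (nat_lit 441) (nat_lit 5) (nat_lit 337) (nat_lit 320) (nat_lit 243)) (XT.lf (nat_lit 0) (nat_lit 1473326119) (nat_lit 1672) (nat_lit 7648613929) (nat_lit 1748) (nat_lit 1122853365) (nat_lit 397) (nat_lit 5) (nat_lit 419) (nat_lit 5) (nat_lit 420) (nat_lit 5) (nat_lit 338) (nat_lit 320) (nat_lit 242))))) (XT.nd (nat_lit 156) (nat_lit 2736) (nat_lit 0) (XT.nd (nat_lit 78) (nat_lit 1748) (nat_lit 0) (XT.lf (nat_lit 0) (nat_lit 1047468267) (nat_lit 1748) (nat_lit 711498561) (nat_lit 76) (nat_lit 8635483762) (nat_lit 396) (nat_lit 5) (nat_lit 419) (nat_lit 5) (nat_lit 397) (nat_lit 5) (nat_lit 339)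 (nat_lit 320) (nat_lit 241)) (XT.lf (nat_lit 0) (nat_lit 3304823969) (nat_lit 1824) (nat_lit 2929167602) (nat_lit 76) (nat_lit 4313734529) (nat_lit 373) (nat_lit 5) (nat_lit 397) (nat_lit 5) (nat_lit 374) (nat_lit 5) (nat_lit 340) (nat_lit 320) (nat_lit 240))) (XT.nd (nat_lit 78) (nat_lit 1748) (nat_lit 0) (XT.lf (nat_lit 0) (nat_lit 5527625919) (nat_lit 988) (nat_lit 114837611) (nat_lit 1064) (nat_lit 5062905131) (nat_lit 360) (nat_lit 5) (nat_lit 373) (nat_lit 5) (nat_lit 374) (nat_lit 5) (nat_lit 341) (nat_lit 320) (nat_lit 239)) (XT.nd (nat_lit 78) (nat_lit 836) (nat_lit 0) (XT.lf (nat_lit 0) (nat_lit 3378810330) (nat_lit 912) (nat_lit 4714532583) (nat_lit 988) (nat_lit 2773554837) (nat_lit 348) (nat_lit 5) (nat_lit 360) (nat_lit 5) (nat_lit 361) (nat_lit 5) (nat_lit 342) (nat_lit 320) (nat_lit 238)) (XT.lf (nat_lit 0) (nat_lit 1198593028) (nat_lit 836) (nat_lit 9435169194) (nat_lit 912) (nat_lit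 399209118) (nat_lit 337) (nat_lit 5) (nat_lit 348) (nat_lit 5) (nat_lit 349) (nat_lit 5) (nat_lit 343) (nat_lit 320) (nat_lit 237)))))) (XT.nd (nat_lit 390) (nat_lit 2888) (nat_lit 0) (XT.nd (nat_lit 156) (nat_lit 2356) (nat_lit 0) (XT.nd (nat_lit 78) (nat_lit 836) (nat_lit 0) (XT.lf (nat_lit 0) (nat_lit 2064685541) (nat_lit 912) (nat_lit 1036000643) (nat_lit 76) (nat_lit 8102190073) (nat_lit 336) (nat_lit 5) (nat_lit 348) (nat_lit 5) (nat_lit 337) (nat_lit 5) (nat_lit 344) (nat_lit 320) (nat_lit 236)) (XT.lf (nat_lit 0) (nat_lit 4635905474) (nat_lit 912) (nat_lit 3305455207) (nat_lit 76) (nat_lit 3435705687) (nat_lit 325) (nat_lit 5) (nat_lit 337) (nat_lit 5) (nat_lit 326) (nat_lit 5) (nat_lit 345) (nat_lit 320) (nat_lit 235))) (XT.nd (nat_lit 78) (nat_lit 1596) (nat_lit 0) (XT.lf (nat_lit 0) (nat_lit 5931989140) (nat_lit 760) (nat_lit 1383072148) (nat_lit 836) (nat_lit 4240821864) (nat_lit 315)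 (nat_lit 5) (nat_lit 325) (nat_lit 5) (nat_lit 326) (nat_lit 5) (nat_lit 346) (nat_lit 320) (nat_lit 234)) (XT.nd (nat_lit 78) (nat_lit 836) (nat_lit 0) (XT.lf (nat_lit 0) (nat_lit 3730631460) (nat_lit 760) (nat_lit 6390898672) (nat_lit 836) (nat_lit 1617612001) (nat_lit 305) (nat_lit 5) (nat_lit 315) (nat_lit 5) (nat_lit 316) (nat_lit 5) (nat_lit 347) (nat_lit 320) (nat_lit 233)) (XT.lf (nat_lit 0) (nat_lit 1095681825) (nat_lit 836) (nat_lit 10446647259) (nat_lit 76) (nat_lit 384932501) (nat_lit 294) (nat_lit 5) (nat_lit 305) (nat_lit 5) (nat_lit 295) (nat_lit 5) (nat_lit 348) (nat_lit 320) (nat_lit 232))))) (XT.nd (nat_lit 156) (nat_lit 2128) (nat_lit 0) (XT.nd (nat_lit 78) (nat_lit 760) (nat_lit 0) (XT.lf (nat_lit 0) (nat_lit 3932484581) (nat_lit 836) (nat_lit 845271083) (nat_lit 76) (nat_lit 7341788579) (nat_lit 294) (nat_lit 5) (nat_lit 305) (nat_lit 5) (nat_lit 295) (nat_lit 5) (nat_lit 349)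 (nat_lit 320) (nat_lit 231)) (XT.lf (nat_lit 0) (nat_lit 6895831367) (nat_lit 836) (nat_lit 3202207621) (nat_lit 76) (nat_lit 2218742363) (nat_lit 284) (nat_lit 5) (nat_lit 295) (nat_lit 5) (nat_lit 285) (nat_lit 5) (nat_lit 350) (nat_lit 320) (nat_lit 230))) (XT.nd (nat_lit 78) (nat_lit 1444) (nat_lit 0) (XT.lf (nat_lit 0) (nat_lit 6888828030) (nat_lit 684) (nat_lit 3109973312) (nat_lit 760) (nat_lit 2520134114) (nat_lit 275) (nat_lit 5) (nat_lit 284) (nat_lit 5) (nat_lit 285) (nat_lit 5) (nat_lit 351) (nat_lit 320) (nat_lit 229)) (XT.nd (nat_lit 78) (nat_lit 684) (nat_lit 0) (XT.lf (nat_lit 0) (nat_lit 509076447) (nat_lit 760) (nat_lit 8130786436) (nat_lit 76) (nat_lit 4086294130) (nat_lit 265) (nat_lit 5) (nat_lit 275) (nat_lit 5) (nat_lit 266) (nat_lit 5) (nat_lit 352) (nat_lit 320) (nat_lit 228)) (XT.lf (nat_lit 0) (nat_lit 2222684765) (nat_lit 684) (nat_lit 1415500734) (nat_lit 760) (nat_lit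 9300224589) (nat_lit 256) (nat_lit 5) (nat_lit 265) (nat_lit 5) (nat_lit 266) (nat_lit 5) (nat_lit 353) (nat_lit 320) (nat_lit 227))))))) (XT.nd (nat_lit 780) (nat_lit 3952) (nat_lit 0) (XT.nd (nat_lit 390) (nat_lit 2280) (nat_lit 0) (XT.nd (nat_lit 156) (nat_lit 1900) (nat_lit 0) (XT.nd (nat_lit 78) (nat_lit 684) (nat_lit 0) (XT.lf (nat_lit 0) (nat_lit 6925829262) (nat_lit 760) (nat_lit 231796126) (nat_lit 76) (nat_lit 5998125003) (nat_lit 256) (nat_lit 5) (nat_lit 266) (nat_lit 5) (nat_lit 257) (nat_lit 5) (nat_lit 354) (nat_lit 320) (nat_lit 226)) (XT.lf (nat_lit 0) (nat_lit 10363712634) (nat_lit 760) (nat_lit 2716983122) (nat_lit 76) (nat_lit 297895432) (nat_lit 247) (nat_lit 5) (nat_lit 257) (nat_lit 5) (nat_lit 248) (nat_lit 5) (nat_lit 355) (nat_lit 320) (nat_lit 225))) (XT.nd (nat_lit 78) (nat_lit 1216) (nat_lit 0) (XT.lf (nat_lit 0) (nat_lit 368127686) (nat_lit 684) (nat_lit 5304554976) (nat_lit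 76) (nat_lit 7933899868) (nat_lit 238) (nat_lit 5) (nat_lit 247) (nat_lit 5) (nat_lit 239) (nat_lit 5) (nat_lit 356) (nat_lit 320) (nat_lit 224)) (XT.nd (nat_lit 78) (nat_lit 608) (nat_lit 0) (XT.lf (nat_lit 0) (nat_lit 3853706107) (nat_lit 684) (nat_lit 7982445679) (nat_lit 76) (nat_lit 2004033954) (nat_lit 230) (nat_lit 5) (nat_lit 239) (nat_lit 5) (nat_lit 231) (nat_lit 5) (nat_lit 357) (nat_lit 320) (nat_lit 223)) (XT.lf (nat_lit 0) (nat_lit 3319529248) (nat_lit 608) (nat_lit 4192535323) (nat_lit 684) (nat_lit 6567379428) (nat_lit 222) (nat_lit 5) (nat_lit 230) (nat_lit 5) (nat_lit 231) (nat_lit 5) (nat_lit 358) (nat_lit 320) (nat_lit 222))))) (XT.nd (nat_lit 156) (nat_lit 1596) (nat_lit 0) (XT.nd (nat_lit 78) (nat_lit 76) (nat_lit 0) (XT.lf (nat_lit 0) (nat_lit 696674356) (nat_lit 608) (nat_lit 10639458255) (nat_lit 684) (nat_lit 2988639098) (nat_lit 214) (nat_lit 5) (nat_lit 222) (nat_lit 5)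 (nat_lit 223) (nat_lit 5) (nat_lit 359) (nat_lit 320) (nat_lit 221)) (XT.lf (nat_lit 0) (nat_lit 763225715) (nat_lit 684) (nat_lit 1997867744) (nat_lit 76) (nat_lit 11814787387) (nat_lit 213) (nat_lit 5) (nat_lit 222) (nat_lit 5) (nat_lit 214) (nat_lit 5) (nat_lit 360) (nat_lit 320) (nat_lit 220))) (XT.nd (nat_lit 78) (nat_lit 1064) (nat_lit 0) (XT.lf (nat_lit 0) (nat_lit 4662129983) (nat_lit 608) (nat_lit 4807488827) (nat_lit 76) (nat_lit 5363017654) (nat_lit 206) (nat_lit 5) (nat_lit 214) (nat_lit 5) (nat_lit 207) (nat_lit 5) (nat_lit 361) (nat_lit 320) (nat_lit 219)) (XT.nd (nat_lit 78) (nat_lit 532) (nat_lit 0) (XT.lf (nat_lit 0) (nat_lit 7385634820) (nat_lit 532) (nat_lit 1347164467) (nat_lit 608) (nat_lit 6363209268) (nat_lit 199) (nat_lit 5) (nat_lit 206) (nat_lit 5) (nat_lit 207) (nat_lit 5) (nat_lit 362) (nat_lit 320) (nat_lit 218)) (XT.lf (nat_lit 0) (nat_lit 4626628147) (nat_lit 532) (nat_lit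 8382603585) (nat_lit 608) (nat_lit 2356386692) (nat_lit 192) (nat_lit 5) (nat_lit 199) (nat_lit 5) (nat_lit 200) (nat_lit 5) (nat_lit 363) (nat_lit 320) (nat_lit 217)))))) (XT.nd (nat_lit 390) (nat_lit 1824) (nat_lit 0) (XT.nd (nat_lit 156) (nat_lit 1520) (nat_lit 0) (XT.nd (nat_lit 78) (nat_lit 0) (nat_lit 0) (XT.lf (nat_lit 0) (nat_lit 1767534099) (nat_lit 532) (nat_lit 28549785) (nat_lit 608) (nat_lit 13846038491) (nat_lit 184) (nat_lit 5) (nat_lit 191) (nat_lit 5) (nat_lit 192) (nat_lit 5) (nat_lit 364) (nat_lit 320) (nat_lit 216)) (XT.lf (nat_lit 0) (nat_lit 6146278163) (nat_lit 608) (nat_lit 1232865197) (nat_lit 76) (nat_lit 8545372054) (nat_lit 184) (nat_lit 5) (nat_lit 192) (nat_lit 5) (nat_lit 185) (nat_lit 5) (nat_lit 365) (nat_lit 320) (nat_lit 215))) (XT.nd (nat_lit 78) (nat_lit 1064) (nat_lit 0) (XT.lf (nat_lit 0) (nat_lit 10689262441) (nat_lit 532) (nat_lit 4308942361) (nat_lit 76) (nat_lit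 1215938262) (nat_lit 178) (nat_lit 5) (nat_lit 185) (nat_lit 5) (nat_lit 179) (nat_lit 5) (nat_lit 366) (nat_lit 320) (nat_lit 214)) (XT.nd (nat_lit 78) (nat_lit 532) (nat_lit 0) (XT.lf (nat_lit 0) (nat_lit 8979639098) (nat_lit 532) (nat_lit 6482132062) (nat_lit 608) (nat_lit 1048831941) (nat_lit 171) (nat_lit 5) (nat_lit 178) (nat_lit 5) (nat_lit 179) (nat_lit 5) (nat_lit 367) (nat_lit 320) (nat_lit 213)) (XT.lf (nat_lit 0) (nat_lit 3575615062) (nat_lit 532) (nat_lit 10895536205) (nat_lit 76) (nat_lit 2343134527) (nat_lit 164) (nat_lit 5) (nat_lit 171) (nat_lit 5) (nat_lit 165) (nat_lit 5) (nat_lit 368) (nat_lit 320) (nat_lit 212))))) (XT.nd (nat_lit 156) (nat_lit 1368) (nat_lit 0) (XT.nd (nat_lit 78) (nat_lit 0) (nat_lit 0) (XT.lf (nat_lit 0) (nat_lit 2703305258) (nat_lit 456) (nat_lit 5711490011) (nat_lit 532) (nat_lit 8710347684) (nat_lit 158) (nat_lit 5) (nat_lit 164) (nat_lit 5) (nat_lit 165)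 (nat_lit 5) (nat_lit 369) (nat_lit 320) (nat_lit 211)) (XT.lf (nat_lit 0) (nat_lit 13473261399) (nat_lit 532) (nat_lit 636905840) (nat_lit 76) (nat_lit 3333683785) (nat_lit 158) (nat_lit 5) (nat_lit 165) (nat_lit 5) (nat_lit 159) (nat_lit 5) (nat_lit 370) (nat_lit 320) (nat_lit 210))) (XT.nd (nat_lit 78) (nat_lit 836) (nat_lit 0) (XT.lf (nat_lit 0) (nat_lit 1005999153) (nat_lit 532) (nat_lit 4103361300) (nat_lit 76) (nat_lit 12660516777) (nat_lit 151) (nat_lit 5) (nat_lit 158) (nat_lit 5) (nat_lit 152) (nat_lit 5) (nat_lit 371) (nat_lit 320) (nat_lit 209)) (XT.nd (nat_lit 78) (nat_lit 380) (nat_lit 0) (XT.lf (nat_lit 0) (nat_lit 6156825499) (nat_lit 532) (nat_lit 7749253624) (nat_lit 76) (nat_lit 4197509339) (nat_lit 145) (nat_lit 5) (nat_lit 152) (nat_lit 5) (nat_lit 146) (nat_lit 5) (nat_lit 372) (nat_lit 320) (nat_lit 208)) (XT.lf (nat_lit 0) (nat_lit 6881949675) (nat_lit 380) (nat_lit 4666639220)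 (nat_lit 456) (nat_lit 6897000536) (nat_lit 140) (nat_lit 5) (nat_lit 145) (nat_lit 5) (nat_lit 146) (nat_lit 5) (nat_lit 373) (nat_lit 320) (nat_lit 207))))))))
noncomputable def xc88 : XT := (XT.nd (nat_lit 43524) (nat_lit 0) (nat_lit 13832) (XT.nd (nat_lit 42744) (nat_lit 0) (nat_lit 26904) (XT.nd (nat_lit 312) (nat_lit 1596) (nat_lit 0) (XT.nd (nat_lit 156) (nat_lit 760) (nat_lit 0) (XT.nd (nat_lit 78) (nat_lit 76) (nat_lit 0) (XT.lf (nat_lit 0) (nat_lit 3243049802) (nat_lit 456) (nat_lit 13944384437) (nat_lit 532) (nat_lit 1608716060) (nat_lit 134) (nat_lit 5) (nat_lit 140) (nat_lit 5) (nat_lit 141) (nat_lit 5) (nat_lit 374) (nat_lit 320) (nat_lit 206)) (XT.lf (nat_lit 0) (nat_lit 3878151243) (nat_lit 532) (nat_lit 588889911) (nat_lit 76) (nat_lit 14687889113) (nat_lit 133) (nat_lit 5) (nat_lit 140) (nat_lit 5) (nat_lit 134) (nat_lit 5) (nat_lit 375) (nat_lit 320) (nat_lit 205))) (XT.nd (nat_lit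 78) (nat_lit 380) (nat_lit 0) (XT.lf (nat_lit 0) (nat_lit 9620965684) (nat_lit 456) (nat_lit 4575725995) (nat_lit 76) (nat_lit 5325311298) (nat_lit 128) (nat_lit 5) (nat_lit 134) (nat_lit 5) (nat_lit 129) (nat_lit 5) (nat_lit 376) (nat_lit 320) (nat_lit 204)) (XT.lf (nat_lit 0) (nat_lit 11143966402) (nat_lit 380) (nat_lit 4479432148) (nat_lit 456) (nat_lit 4274948427) (nat_lit 123) (nat_lit 5) (nat_lit 128) (nat_lit 5) (nat_lit 129) (nat_lit 5) (nat_lit 377) (nat_lit 320) (nat_lit 203)))) (XT.nd (nat_lit 156) (nat_lit 760) (nat_lit 0) (XT.nd (nat_lit 78) (nat_lit 380) (nat_lit 0) (XT.lf (nat_lit 0) (nat_lit 1595502502) (nat_lit 456) (nat_lit 13152204118) (nat_lit 76) (nat_lit 5536172550) (nat_lit 117) (nat_lit 5) (nat_lit 123) (nat_lit 5) (nat_lit 118) (nat_lit 5) (nat_lit 378) (nat_lit 320) (nat_lit 202)) (XT.lf (nat_lit 0) (nat_lit 2885754904) (nat_lit 380) (nat_lit 4788614758) (nat_lit 456) (nat_lit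 13004240218) (nat_lit 112) (nat_lit 5) (nat_lit 117) (nat_lit 5) (nat_lit 118) (nat_lit 5) (nat_lit 379) (nat_lit 320) (nat_lit 201))) (XT.nd (nat_lit 78) (nat_lit 760) (nat_lit 0) (XT.lf (nat_lit 0) (nat_lit 14042770563) (nat_lit 456) (nat_lit 1561985935) (nat_lit 76) (nat_lit 5478287852) (nat_lit 112) (nat_lit 5) (nat_lit 118) (nat_lit 5) (nat_lit 113) (nat_lit 5) (nat_lit 380) (nat_lit 320) (nat_lit 200)) (XT.nd (nat_lit 78) (nat_lit 456) (nat_lit 0) (XT.lf (nat_lit 0) (nat_lit 15297848930) (nat_lit 304) (nat_lit 5418191850) (nat_lit 380) (nat_lit 781299769) (nat_lit 108) (nat_lit 5) (nat_lit 112) (nat_lit 5) (nat_lit 113) (nat_lit 5) (nat_lit 381) (nat_lit 320) (nat_lit 199)) (XT.lf (nat_lit 0) (nat_lit 5688531966) (nat_lit 456) (nat_lit 11115780098) (nat_lit 76) (nat_lit 5117074858) (nat_lit 102) (nat_lit 5) (nat_lit 108) (nat_lit 5) (nat_lit 103) (nat_lit 5) (nat_lit 382) (nat_lit 320) (nat_lit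 198)))))) (XT.nd (nat_lit 390) (nat_lit 1292) (nat_lit 0) (XT.nd (nat_lit 156) (nat_lit 1368) (nat_lit 0) (XT.nd (nat_lit 78) (nat_lit 0) (nat_lit 0) (XT.lf (nat_lit 0) (nat_lit 2676468200) (nat_lit 1444) (nat_lit 746469061) (nat_lit 1444) (nat_lit 746469061) (nat_lit 491) (nat_lit 3) (nat_lit 510) (nat_lit 3) (nat_lit 510) (nat_lit 5) (nat_lit 321) (nat_lit 321) (nat_lit 258)) (XT.lf (nat_lit 76) (nat_lit 4462611613) (nat_lit 0) (nat_lit 2568749053) (nat_lit 1444) (nat_lit 1399652476) (nat_lit 492) (nat_lit 5) (nat_lit 491) (nat_lit 3) (nat_lit 510) (nat_lit 5) (nat_lit 322) (nat_lit 321) (nat_lit 257))) (XT.nd (nat_lit 78) (nat_lit 0) (nat_lit 0) (XT.lf (nat_lit 0) (nat_lit 205201092) (nat_lit 1444) (nat_lit 6454313511) (nat_lit 1520) (nat_lit 1866987527) (nat_lit 473) (nat_lit 5) (nat_lit 492) (nat_lit 5) (nat_lit 493) (nat_lit 5) (nat_lit 323) (nat_lit 321) (nat_lit 256)) (XT.nd (nat_lit 78) (nat_lit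 0) (nat_lit 76) (XT.lf (nat_lit 0) (nat_lit 1823431323) (nat_lit 1444) (nat_lit 336137144) (nat_lit 1520) (nat_lit 6465451491) (nat_lit 473) (nat_lit 5) (nat_lit 492) (nat_lit 5) (nat_lit 493) (nat_lit 5) (nat_lit 324) (nat_lit 321) (nat_lit 255)) (XT.lf (nat_lit 0) (nat_lit 3487382405) (nat_lit 1444) (nat_lit 2731424523) (nat_lit 1520) (nat_lit 2507776063) (nat_lit 474) (nat_lit 5) (nat_lit 493) (nat_lit 5) (nat_lit 494) (nat_lit 5) (nat_lit 325) (nat_lit 321) (nat_lit 254))))) (XT.nd (nat_lit 156) (nat_lit 1368) (nat_lit 0) (XT.nd (nat_lit 78) (nat_lit 0) (nat_lit 76) (XT.lf (nat_lit 76) (nat_lit 3690540807) (nat_lit 0) (nat_lit 1494703592) (nat_lit 1520) (nat_lit 3646300849) (nat_lit 475) (nat_lit 5) (nat_lit 474) (nat_lit 5) (nat_lit 494) (nat_lit 5) (nat_lit 326) (nat_lit 321) (nat_lit 253)) (XT.lf (nat_lit 76) (nat_lit 1365166918) (nat_lit 0) (nat_lit 5563139753) (nat_lit 1520) (nat_lit 2011495659)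 (nat_lit 476) (nat_lit 5) (nat_lit 475) (nat_lit 5) (nat_lit 495) (nat_lit 5) (nat_lit 327) (nat_lit 321) (nat_lit 252))) (XT.nd (nat_lit 78) (nat_lit 1444) (nat_lit 0) (XT.lf (nat_lit 76) (nat_lit 8093322811) (nat_lit 0) (nat_lit 621375019) (nat_lit 1520) (nat_lit 336818889) (nat_lit 476) (nat_lit 5) (nat_lit 475) (nat_lit 5) (nat_lit 495) (nat_lit 5) (nat_lit 328) (nat_lit 321) (nat_lit 251)) (XT.nd (nat_lit 78) (nat_lit 0) (nat_lit 76) (XT.lf (nat_lit 0) (nat_lit 1385058921) (nat_lit 1520) (nat_lit 3304364364) (nat_lit 1596) (nat_lit 4476704560) (nat_lit 456) (nat_lit 5) (nat_lit 476) (nat_lit 5) (nat_lit 477) (nat_lit 5) (nat_lit 329) (nat_lit 321) (nat_lit 250)) (XT.lf (nat_lit 0) (nat_lit 3140306095) (nat_lit 1520) (nat_lit 5665031908) (nat_lit 1596) (nat_lit 479097026) (nat_lit 457) (nat_lit 5) (nat_lit 477) (nat_lit 5) (nat_lit 478) (nat_lit 5) (nat_lit 330) (nat_lit 321) (nat_lit 249)))))))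 (XT.nd (nat_lit 780) (nat_lit 6764) (nat_lit 0) (XT.nd (nat_lit 390) (nat_lit 4940) (nat_lit 0) (XT.nd (nat_lit 156) (nat_lit 1444) (nat_lit 0) (XT.nd (nat_lit 78) (nat_lit 0) (nat_lit 76) (XT.lf (nat_lit 76) (nat_lit 1341949333) (nat_lit 0) (nat_lit 3619153020) (nat_lit 1596) (nat_lit 4444958459) (nat_lit 458) (nat_lit 5) (nat_lit 457) (nat_lit 5) (nat_lit 478) (nat_lit 5) (nat_lit 331) (nat_lit 321) (nat_lit 248)) (XT.lf (nat_lit 0) (nat_lit 6837951456) (nat_lit 1520) (nat_lit 940268085) (nat_lit 1596) (nat_lit 1753113671) (nat_lit 458) (nat_lit 5) (nat_lit 478) (nat_lit 5) (nat_lit 479) (nat_lit 5) (nat_lit 332) (nat_lit 321) (nat_lit 247))) (XT.nd (nat_lit 78) (nat_lit 1520) (nat_lit 0) (XT.lf (nat_lit 76) (nat_lit 6423403924) (nat_lit 0) (nat_lit 2366621940) (nat_lit 1596) (nat_lit 869985178) (nat_lit 459) (nat_lit 5) (nat_lit 458) (nat_lit 5) (nat_lit 479) (nat_lit 5) (nat_lit 333) (nat_lit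 321) (nat_lit 246)) (XT.nd (nat_lit 78) (nat_lit 0) (nat_lit 0) (XT.lf (nat_lit 0) (nat_lit 1003863915) (nat_lit 1596) (nat_lit 5570371911) (nat_lit 1672) (nat_lit 3218027448) (nat_lit 438) (nat_lit 5) (nat_lit 459) (nat_lit 5) (nat_lit 460) (nat_lit 5) (nat_lit 334) (nat_lit 321) (nat_lit 245)) (XT.lf (nat_lit 76) (nat_lit 1990253104) (nat_lit 0) (nat_lit 937787440) (nat_lit 1672) (nat_lit 7000232589) (nat_lit 439) (nat_lit 5) (nat_lit 438) (nat_lit 5) (nat_lit 460) (nat_lit 5) (nat_lit 335) (nat_lit 321) (nat_lit 244))))) (XT.nd (nat_lit 156) (nat_lit 5016) (nat_lit 0) (XT.nd (nat_lit 78) (nat_lit 0) (nat_lit 76) (XT.lf (nat_lit 0) (nat_lit 4935736066) (nat_lit 1596) (nat_lit 280387197) (nat_lit 1672) (nat_lit 4851747169) (nat_lit 439) (nat_lit 5) (nat_lit 460) (nat_lit 5) (nat_lit 461) (nat_lit 5) (nat_lit 336) (nat_lit 321) (nat_lit 243)) (XT.lf (nat_lit 0) (nat_lit 7021405729) (nat_lit 1596)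 (nat_lit 2548220157) (nat_lit 76) (nat_lit 641697245) (nat_lit 440) (nat_lit 5) (nat_lit 461) (nat_lit 5) (nat_lit 441) (nat_lit 5) (nat_lit 337) (nat_lit 321) (nat_lit 242))) (XT.nd (nat_lit 78) (nat_lit 3496) (nat_lit 0) (XT.lf (nat_lit 0) (nat_lit 5492626617) (nat_lit 1596) (nat_lit 3708019846) (nat_lit 1672) (nat_lit 1157834624) (nat_lit 419) (nat_lit 5) (nat_lit 440) (nat_lit 5) (nat_lit 441) (nat_lit 5) (nat_lit 338) (nat_lit 321) (nat_lit 241)) (XT.nd (nat_lit 78) (nat_lit 1748) (nat_lit 0) (XT.lf (nat_lit 0) (nat_lit 936479241) (nat_lit 1748) (nat_lit 7222671314) (nat_lit 76) (nat_lit 2350531756) (nat_lit 396) (nat_lit 5) (nat_lit 419) (nat_lit 5) (nat_lit 397) (nat_lit 5) (nat_lit 339) (nat_lit 321) (nat_lit 240)) (XT.lf (nat_lit 0) (nat_lit 1032573609) (nat_lit 1748) (nat_lit 2070352947) (nat_lit 1824) (nat_lit 7561859309) (nat_lit 373) (nat_lit 5) (nat_lit 396) (nat_lit 5) (nat_lit 397)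 (nat_lit 5) (nat_lit 340) (nat_lit 321) (nat_lit 239)))))) (XT.nd (nat_lit 390) (nat_lit 3116) (nat_lit 0) (XT.nd (nat_lit 156) (nat_lit 2660) (nat_lit 0) (XT.nd (nat_lit 78) (nat_lit 988) (nat_lit 0) (XT.lf (nat_lit 0) (nat_lit 5372132179) (nat_lit 1824) (nat_lit 1251607593) (nat_lit 76) (nat_lit 4200066920) (nat_lit 373) (nat_lit 5) (nat_lit 397) (nat_lit 5) (nat_lit 374) (nat_lit 5) (nat_lit 341) (nat_lit 321) (nat_lit 238)) (XT.lf (nat_lit 0) (nat_lit 7430247647) (nat_lit 988) (nat_lit 303604541) (nat_lit 1064) (nat_lit 3253276091) (nat_lit 360) (nat_lit 5) (nat_lit 373) (nat_lit 5) (nat_lit 374) (nat_lit 5) (nat_lit 342) (nat_lit 321) (nat_lit 237))) (XT.nd (nat_lit 78) (nat_lit 1748) (nat_lit 0) (XT.lf (nat_lit 0) (nat_lit 5228736100) (nat_lit 912) (nat_lit 4983722562) (nat_lit 988) (nat_lit 941988501) (nat_lit 348) (nat_lit 5) (nat_lit 360) (nat_lit 5) (nat_lit 361) (nat_lit 5) (nat_lit 343)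 (nat_lit 321) (nat_lit 236)) (XT.nd (nat_lit 78) (nat_lit 836) (nat_lit 0) (XT.lf (nat_lit 0) (nat_lit 1439513677) (nat_lit 912) (nat_lit 8342487737) (nat_lit 76) (nat_lit 1544219973) (nat_lit 336) (nat_lit 5) (nat_lit 348) (nat_lit 5) (nat_lit 337) (nat_lit 5) (nat_lit 344) (nat_lit 321) (nat_lit 235)) (XT.lf (nat_lit 0) (nat_lit 674043260) (nat_lit 836) (nat_lit 3248518697) (nat_lit 912) (nat_lit 7579621327) (nat_lit 325) (nat_lit 5) (nat_lit 336) (nat_lit 5) (nat_lit 337) (nat_lit 5) (nat_lit 345) (nat_lit 321) (nat_lit 234))))) (XT.nd (nat_lit 156) (nat_lit 2356) (nat_lit 0) (XT.nd (nat_lit 78) (nat_lit 760) (nat_lit 0) (XT.lf (nat_lit 0) (nat_lit 6525125099) (nat_lit 912) (nat_lit 1664294674) (nat_lit 76) (nat_lit 3493120257) (nat_lit 325) (nat_lit 5) (nat_lit 337) (nat_lit 5) (nat_lit 326) (nat_lit 5) (nat_lit 346) (nat_lit 321) (nat_lit 233)) (XT.lf (nat_lit 0) (nat_lit 7822038310) (nat_lit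 760) (nat_lit 1422758274) (nat_lit 836) (nat_lit 2622746247) (nat_lit 315) (nat_lit 5) (nat_lit 325) (nat_lit 5) (nat_lit 326) (nat_lit 5) (nat_lit 347) (nat_lit 321) (nat_lit 232))) (XT.nd (nat_lit 78) (nat_lit 1520) (nat_lit 0) (XT.lf (nat_lit 0) (nat_lit 39199051) (nat_lit 836) (nat_lit 6496053510) (nat_lit 76) (nat_lit 5521838357) (nat_lit 304) (nat_lit 5) (nat_lit 315) (nat_lit 5) (nat_lit 305) (nat_lit 5) (nat_lit 348) (nat_lit 321) (nat_lit 231)) (XT.nd (nat_lit 78) (nat_lit 760) (nat_lit 0) (XT.lf (nat_lit 0) (nat_lit 2774574248) (nat_lit 836) (nat_lit 9013192717) (nat_lit 76) (nat_lit 463642438) (nat_lit 294) (nat_lit 5) (nat_lit 305) (nat_lit 5) (nat_lit 295) (nat_lit 5) (nat_lit 349) (nat_lit 321) (nat_lit 230)) (XT.lf (nat_lit 0) (nat_lit 836313908) (nat_lit 760) (nat_lit 4817654695) (nat_lit 836) (nat_lit 6796364020) (nat_lit 284) (nat_lit 5) (nat_lit 294) (nat_lit 5) (nat_lit 295) (nat_lit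 5) (nat_lit 350) (nat_lit 321) (nat_lit 229))))))))
noncomputable def xc89 : XT := (XT.nd (nat_lit 1482) (nat_lit 4332) (nat_lit 0) (XT.nd (nat_lit 702) (nat_lit 4408) (nat_lit 0) (XT.nd (nat_lit 312) (nat_lit 2584) (nat_lit 0) (XT.nd (nat_lit 156) (nat_lit 1444) (nat_lit 0) (XT.nd (nat_lit 78) (nat_lit 684) (nat_lit 0) (XT.lf (nat_lit 0) (nat_lit 8665761454) (nat_lit 836) (nat_lit 1598549247) (nat_lit 76) (nat_lit 2390006426) (nat_lit 284) (nat_lit 5) (nat_lit 295) (nat_lit 5) (nat_lit 285) (nat_lit 5) (nat_lit 351) (nat_lit 321) (nat_lit 228)) (XT.lf (nat_lit 0) (nat_lit 8767641461) (nat_lit 684) (nat_lit 3059509887) (nat_lit 760) (nat_lit 1036098470) (nat_lit 275) (nat_lit 5) (nat_lit 284) (nat_lit 5) (nat_lit 285) (nat_lit 5) (nat_lit 352) (nat_lit 321) (nat_lit 227))) (XT.nd (nat_lit 78) (nat_lit 684) (nat_lit 0) (XT.lf (nat_lit 0) (nat_lit 2030561289) (nat_lit 760) (nat_lit 6679191960) (nat_lit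 76) (nat_lit 4367411281) (nat_lit 265) (nat_lit 5) (nat_lit 275) (nat_lit 5) (nat_lit 266) (nat_lit 5) (nat_lit 353) (nat_lit 321) (nat_lit 226)) (XT.lf (nat_lit 0) (nat_lit 3957375611) (nat_lit 684) (nat_lit 1263127562) (nat_lit 760) (nat_lit 8075961850) (nat_lit 256) (nat_lit 5) (nat_lit 265) (nat_lit 5) (nat_lit 266) (nat_lit 5) (nat_lit 354) (nat_lit 321) (nat_lit 225)))) (XT.nd (nat_lit 156) (nat_lit 1900) (nat_lit 0) (XT.nd (nat_lit 78) (nat_lit 0) (nat_lit 0) (XT.lf (nat_lit 0) (nat_lit 1427390523) (nat_lit 684) (nat_lit 7146973540) (nat_lit 760) (nat_lit 4946628180) (nat_lit 247) (nat_lit 5) (nat_lit 256) (nat_lit 5) (nat_lit 257) (nat_lit 5) (nat_lit 355) (nat_lit 321) (nat_lit 224)) (XT.lf (nat_lit 0) (nat_lit 12076375828) (nat_lit 760) (nat_lit 1150626842) (nat_lit 76) (nat_lit 524313682) (nat_lit 247) (nat_lit 5) (nat_lit 257) (nat_lit 5) (nat_lit 248) (nat_lit 5) (nat_lit 356) (nat_lit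 321) (nat_lit 223))) (XT.nd (nat_lit 78) (nat_lit 1216) (nat_lit 0) (XT.lf (nat_lit 0) (nat_lit 1760276037) (nat_lit 684) (nat_lit 3823637608) (nat_lit 76) (nat_lit 8402675514) (nat_lit 238) (nat_lit 5) (nat_lit 247) (nat_lit 5) (nat_lit 239) (nat_lit 5) (nat_lit 357) (nat_lit 321) (nat_lit 222)) (XT.nd (nat_lit 78) (nat_lit 608) (nat_lit 0) (XT.lf (nat_lit 0) (nat_lit 5322372706) (nat_lit 684) (nat_lit 6582595372) (nat_lit 76) (nat_lit 2322809936) (nat_lit 230) (nat_lit 5) (nat_lit 239) (nat_lit 5) (nat_lit 231) (nat_lit 5) (nat_lit 358) (nat_lit 321) (nat_lit 221)) (XT.lf (nat_lit 0) (nat_lit 5031842724) (nat_lit 608) (nat_lit 4029700716) (nat_lit 684) (nat_lit 5413265434) (nat_lit 222) (nat_lit 5) (nat_lit 230) (nat_lit 5) (nat_lit 231) (nat_lit 5) (nat_lit 359) (nat_lit 321) (nat_lit 220)))))) (XT.nd (nat_lit 390) (nat_lit 2128) (nat_lit 0) (XT.nd (nat_lit 156) (nat_lit 1596) (nat_lit 0) (XT.nd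 (nat_lit 78) (nat_lit 76) (nat_lit 0) (XT.lf (nat_lit 0) (nat_lit 2328874249) (nat_lit 608) (nat_lit 10645173659) (nat_lit 684) (nat_lit 1753989833) (nat_lit 214) (nat_lit 5) (nat_lit 222) (nat_lit 5) (nat_lit 223) (nat_lit 5) (nat_lit 360) (nat_lit 321) (nat_lit 219)) (XT.lf (nat_lit 0) (nat_lit 2054996170) (nat_lit 684) (nat_lit 476077085) (nat_lit 76) (nat_lit 12456211118) (nat_lit 213) (nat_lit 5) (nat_lit 222) (nat_lit 5) (nat_lit 214) (nat_lit 5) (nat_lit 361) (nat_lit 321) (nat_lit 218))) (XT.nd (nat_lit 78) (nat_lit 1064) (nat_lit 0) (XT.lf (nat_lit 0) (nat_lit 6046052081) (nat_lit 608) (nat_lit 3372366053) (nat_lit 76) (nat_lit 5833835266) (nat_lit 206) (nat_lit 5) (nat_lit 214) (nat_lit 5) (nat_lit 207) (nat_lit 5) (nat_lit 362) (nat_lit 321) (nat_lit 217)) (XT.nd (nat_lit 78) (nat_lit 532) (nat_lit 0) (XT.lf (nat_lit 0) (nat_lit 9160928267) (nat_lit 532) (nat_lit 1051766301) (nat_lit 608)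 (nat_lit 5311369032) (nat_lit 199) (nat_lit 5) (nat_lit 206) (nat_lit 5) (nat_lit 207) (nat_lit 5) (nat_lit 363) (nat_lit 321) (nat_lit 216)) (XT.lf (nat_lit 0) (nat_lit 6316221565) (nat_lit 532) (nat_lit 8277910881) (nat_lit 608) (nat_lit 1208108672) (nat_lit 192) (nat_lit 5) (nat_lit 199) (nat_lit 5) (nat_lit 200) (nat_lit 5) (nat_lit 364) (nat_lit 321) (nat_lit 215))))) (XT.nd (nat_lit 156) (nat_lit 1064) (nat_lit 0) (XT.nd (nat_lit 78) (nat_lit 456) (nat_lit 0) (XT.lf (nat_lit 0) (nat_lit 3030092471) (nat_lit 608) (nat_lit 12727206991) (nat_lit 76) (nat_lit 330052516) (nat_lit 184) (nat_lit 5) (nat_lit 192) (nat_lit 5) (nat_lit 185) (nat_lit 5) (nat_lit 365) (nat_lit 321) (nat_lit 214)) (XT.lf (nat_lit 0) (nat_lit 251336439) (nat_lit 456) (nat_lit 7226900742) (nat_lit 532) (nat_lit 8900643305) (nat_lit 178) (nat_lit 5) (nat_lit 184) (nat_lit 5) (nat_lit 185) (nat_lit 5) (nat_lit 366) (nat_lit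 321) (nat_lit 213))) (XT.nd (nat_lit 78) (nat_lit 1064) (nat_lit 0) (XT.lf (nat_lit 0) (nat_lit 12134606385) (nat_lit 532) (nat_lit 2924502255) (nat_lit 76) (nat_lit 1618558621) (nat_lit 178) (nat_lit 5) (nat_lit 185) (nat_lit 5) (nat_lit 179) (nat_lit 5) (nat_lit 367) (nat_lit 321) (nat_lit 212)) (XT.nd (nat_lit 78) (nat_lit 456) (nat_lit 0) (XT.lf (nat_lit 0) (nat_lit 43133706) (nat_lit 608) (nat_lit 6245599968) (nat_lit 76) (nat_lit 10694755371) (nat_lit 170) (nat_lit 5) (nat_lit 178) (nat_lit 5) (nat_lit 171) (nat_lit 5) (nat_lit 368) (nat_lit 321) (nat_lit 211)) (XT.lf (nat_lit 0) (nat_lit 4771999184) (nat_lit 532) (nat_lit 9722974973) (nat_lit 76) (nat_lit 2801581991) (nat_lit 164) (nat_lit 5) (nat_lit 171) (nat_lit 5) (nat_lit 165) (nat_lit 5) (nat_lit 369) (nat_lit 321) (nat_lit 210))))))) (XT.nd (nat_lit 780) (nat_lit 760) (nat_lit 0) (XT.nd (nat_lit 390) (nat_lit 1748) (nat_lit 0) (XT.nd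 (nat_lit 156) (nat_lit 912) (nat_lit 0) (XT.nd (nat_lit 78) (nat_lit 456) (nat_lit 0) (XT.lf (nat_lit 0) (nat_lit 4259505307) (nat_lit 456) (nat_lit 5474705008) (nat_lit 532) (nat_lit 7882982545) (nat_lit 158) (nat_lit 5) (nat_lit 164) (nat_lit 5) (nat_lit 165) (nat_lit 5) (nat_lit 370) (nat_lit 321) (nat_lit 209)) (XT.lf (nat_lit 0) (nat_lit 805183443) (nat_lit 456) (nat_lit 14115970609) (nat_lit 532) (nat_lit 3024784279) (nat_lit 152) (nat_lit 5) (nat_lit 158) (nat_lit 5) (nat_lit 159) (nat_lit 5) (nat_lit 371) (nat_lit 321) (nat_lit 208))) (XT.nd (nat_lit 78) (nat_lit 836) (nat_lit 0) (XT.lf (nat_lit 0) (nat_lit 2060743045) (nat_lit 532) (nat_lit 2785407479) (nat_lit 76) (nat_lit 13435994482) (nat_lit 151) (nat_lit 5) (nat_lit 158) (nat_lit 5) (nat_lit 152) (nat_lit 5) (nat_lit 372) (nat_lit 321) (nat_lit 207)) (XT.nd (nat_lit 78) (nat_lit 380) (nat_lit 0) (XT.lf (nat_lit 0) (nat_lit 7348143332)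 (nat_lit 532) (nat_lit 6546336330) (nat_lit 76) (nat_lit 4731756755) (nat_lit 145) (nat_lit 5) (nat_lit 152) (nat_lit 5) (nat_lit 146) (nat_lit 5) (nat_lit 373) (nat_lit 321) (nat_lit 206)) (XT.lf (nat_lit 0) (nat_lit 8500515491) (nat_lit 380) (nat_lit 4380993649) (nat_lit 456) (nat_lit 6097400821) (nat_lit 140) (nat_lit 5) (nat_lit 145) (nat_lit 5) (nat_lit 146) (nat_lit 5) (nat_lit 374) (nat_lit 321) (nat_lit 205))))) (XT.nd (nat_lit 156) (nat_lit 836) (nat_lit 0) (XT.nd (nat_lit 78) (nat_lit 456) (nat_lit 0) (XT.lf (nat_lit 0) (nat_lit 4746542038) (nat_lit 456) (nat_lit 13926058951) (nat_lit 532) (nat_lit 667734304) (nat_lit 134) (nat_lit 5) (nat_lit 140) (nat_lit 5) (nat_lit 141) (nat_lit 5) (nat_lit 375) (nat_lit 321) (nat_lit 204)) (XT.lf (nat_lit 0) (nat_lit 781830673) (nat_lit 380) (nat_lit 4165575382) (nat_lit 456) (nat_lit 14762820137) (nat_lit 128) (nat_lit 5) (nat_lit 133) (nat_lit 5)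 (nat_lit 134) (nat_lit 5) (nat_lit 376) (nat_lit 321) (nat_lit 203))) (XT.nd (nat_lit 78) (nat_lit 836) (nat_lit 0) (XT.lf (nat_lit 0) (nat_lit 10841395249) (nat_lit 456) (nat_lit 3341127814) (nat_lit 76) (nat_lit 5906218771) (nat_lit 128) (nat_lit 5) (nat_lit 134) (nat_lit 5) (nat_lit 129) (nat_lit 5) (nat_lit 377) (nat_lit 321) (nat_lit 202)) (XT.nd (nat_lit 78) (nat_lit 456) (nat_lit 0) (XT.lf (nat_lit 0) (nat_lit 12827898395) (nat_lit 380) (nat_lit 4177625465) (nat_lit 456) (nat_lit 3471228145) (nat_lit 123) (nat_lit 5) (nat_lit 128) (nat_lit 5) (nat_lit 129) (nat_lit 5) (nat_lit 378) (nat_lit 321) (nat_lit 201)) (XT.lf (nat_lit 0) (nat_lit 2547870956) (nat_lit 456) (nat_lit 12191310741) (nat_lit 76) (nat_lit 6134860204) (nat_lit 117) (nat_lit 5) (nat_lit 123) (nat_lit 5) (nat_lit 118) (nat_lit 5) (nat_lit 379) (nat_lit 321) (nat_lit 200)))))) (XT.nd (nat_lit 42510) (nat_lit 0) (nat_lit 26448)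 (XT.nd (nat_lit 156) (nat_lit 380) (nat_lit 0) (XT.nd (nat_lit 78) (nat_lit 0) (nat_lit 0) (XT.lf (nat_lit 0) (nat_lit 4305796332) (nat_lit 380) (nat_lit 4485620804) (nat_lit 456) (nat_lit 12489558813) (nat_lit 112) (nat_lit 5) (nat_lit 117) (nat_lit 5) (nat_lit 118) (nat_lit 5) (nat_lit 380) (nat_lit 321) (nat_lit 199)) (XT.lf (nat_lit 0) (nat_lit 15327855960) (nat_lit 456) (nat_lit 299562946) (nat_lit 76) (nat_lit 6070592283) (nat_lit 112) (nat_lit 5) (nat_lit 118) (nat_lit 5) (nat_lit 113) (nat_lit 5) (nat_lit 381) (nat_lit 321) (nat_lit 198))) (XT.nd (nat_lit 42198) (nat_lit 0) (nat_lit 27740) (XT.lf (nat_lit 0) (nat_lit 58668693) (nat_lit 380) (nat_lit 5080640008) (nat_lit 76) (nat_lit 16985763020) (nat_lit 107) (nat_lit 5) (nat_lit 112) (nat_lit 5) (nat_lit 108) (nat_lit 5) (nat_lit 382) (nat_lit 321) (nat_lit 197)) (XT.nd (nat_lit 78) (nat_lit 0) (nat_lit 0) (XT.lf (nat_lit 0) (nat_lit 24009859)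 (nat_lit 0) (nat_lit 24009859) (nat_lit 1444) (nat_lit 4214464497) (nat_lit 472) (nat_lit 5) (nat_lit 472) (nat_lit 3) (nat_lit 491) (nat_lit 3) (nat_lit 322) (nat_lit 322) (nat_lit 256)) (XT.lf (nat_lit 0) (nat_lit 1626807773) (nat_lit 1444) (nat_lit 2475501842) (nat_lit 1520) (nat_lit 4519097446) (nat_lit 472) (nat_lit 5) (nat_lit 491) (nat_lit 3) (nat_lit 492) (nat_lit 5) (nat_lit 323) (nat_lit 322) (nat_lit 255))))) (XT.nd (nat_lit 156) (nat_lit 1368) (nat_lit 0) (XT.nd (nat_lit 78) (nat_lit 0) (nat_lit 0) (XT.lf (nat_lit 0) (nat_lit 3173261061) (nat_lit 1444) (nat_lit 5001196778) (nat_lit 1520) (nat_lit 546918917) (nat_lit 473) (nat_lit 5) (nat_lit 492) (nat_lit 5) (nat_lit 493) (nat_lit 5) (nat_lit 324) (nat_lit 322) (nat_lit 254)) (XT.lf (nat_lit 76) (nat_lit 1269207280) (nat_lit 0) (nat_lit 3492802408) (nat_lit 1520) (nat_lit 4062450003) (nat_lit 474) (nat_lit 5) (nat_lit 473) (nat_lit 5)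 (nat_lit 493) (nat_lit 5) (nat_lit 325) (nat_lit 322) (nat_lit 253))) (XT.nd (nat_lit 78) (nat_lit 1444) (nat_lit 0) (XT.lf (nat_lit 0) (nat_lit 6386113278) (nat_lit 1444) (nat_lit 1174914275) (nat_lit 1520) (nat_lit 1369884956) (nat_lit 474) (nat_lit 5) (nat_lit 493) (nat_lit 5) (nat_lit 494) (nat_lit 5) (nat_lit 326) (nat_lit 322) (nat_lit 252)) (XT.nd (nat_lit 78) (nat_lit 1444) (nat_lit 0) (XT.lf (nat_lit 76) (nat_lit 5413128063) (nat_lit 0) (nat_lit 2650866578) (nat_lit 1520) (nat_lit 976493511) (nat_lit 475) (nat_lit 5) (nat_lit 474) (nat_lit 5) (nat_lit 494) (nat_lit 5) (nat_lit 327) (nat_lit 322) (nat_lit 251)) (XT.lf (nat_lit 0) (nat_lit 621911441) (nat_lit 1520) (nat_lit 6103606250) (nat_lit 1596) (nat_lit 2427950711) (nat_lit 455) (nat_lit 5) (nat_lit 475) (nat_lit 5) (nat_lit 476) (nat_lit 5) (nat_lit 328) (nat_lit 322) (nat_lit 250))))))))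
noncomputable def xc90 : XT := (XT.nd (nat_lit 1482) (nat_lit 11172) (nat_lit 0) (XT.nd (nat_lit 702) (nat_lit 8512) (nat_lit 0) (XT.nd (nat_lit 312) (nat_lit 1368) (nat_lit 0) (XT.nd (nat_lit 156) (nat_lit 0) (nat_lit 76) (XT.nd (nat_lit 78) (nat_lit 0) (nat_lit 76) (XT.lf (nat_lit 76) (nat_lit 659709072) (nat_lit 0) (nat_lit 1591112751) (nat_lit 1596) (nat_lit 7018998778) (nat_lit 456) (nat_lit 5) (nat_lit 455) (nat_lit 5) (nat_lit 476) (nat_lit 5) (nat_lit 329) (nat_lit 322) (nat_lit 249)) (XT.lf (nat_lit 0) (nat_lit 3944626409) (nat_lit 1520) (nat_lit 1736489587) (nat_lit 1596) (nat_lit 3708254048) (nat_lit 456) (nat_lit 5) (nat_lit 476) (nat_lit 5) (nat_lit 477) (nat_lit 5) (nat_lit 330) (nat_lit 322) (nat_lit 248))) (XT.nd (nat_lit 78) (nat_lit 0) (nat_lit 76) (XT.lf (nat_lit 76) (nat_lit 5371257179) (nat_lit 0) (nat_lit 315334754) (nat_lit 1596) (nat_lit 3825993525) (nat_lit 457) (nat_lit 5)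 (nat_lit 456) (nat_lit 5) (nat_lit 477) (nat_lit 5) (nat_lit 331) (nat_lit 322) (nat_lit 247)) (XT.lf (nat_lit 76) (nat_lit 3050399012) (nat_lit 0) (nat_lit 4449036632) (nat_lit 1596) (nat_lit 2139714959) (nat_lit 458) (nat_lit 5) (nat_lit 457) (nat_lit 5) (nat_lit 478) (nat_lit 5) (nat_lit 332) (nat_lit 322) (nat_lit 246)))) (XT.nd (nat_lit 156) (nat_lit 0) (nat_lit 76) (XT.nd (nat_lit 78) (nat_lit 1596) (nat_lit 0) (XT.lf (nat_lit 76) (nat_lit 712682922) (nat_lit 0) (nat_lit 8650390602) (nat_lit 1596) (nat_lit 406535908) (nat_lit 459) (nat_lit 5) (nat_lit 458) (nat_lit 5) (nat_lit 479) (nat_lit 5) (nat_lit 333) (nat_lit 322) (nat_lit 245)) (XT.lf (nat_lit 0) (nat_lit 1390433529) (nat_lit 1596) (nat_lit 1651764769) (nat_lit 1672) (nat_lit 6861030893) (nat_lit 437) (nat_lit 5) (nat_lit 458) (nat_lit 5) (nat_lit 459) (nat_lit 5) (nat_lit 334) (nat_lit 322) (nat_lit 244))) (XT.nd (nat_lit 78) (nat_lit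 0) (nat_lit 0) (XT.lf (nat_lit 0) (nat_lit 3249493726) (nat_lit 1596) (nat_lit 4039298389) (nat_lit 1672) (nat_lit 2751760601) (nat_lit 438) (nat_lit 5) (nat_lit 459) (nat_lit 5) (nat_lit 460) (nat_lit 5) (nat_lit 335) (nat_lit 322) (nat_lit 243)) (XT.nd (nat_lit 78) (nat_lit 0) (nat_lit 76) (XT.lf (nat_lit 76) (nat_lit 3720594347) (nat_lit 0) (nat_lit 1457118638) (nat_lit 1672) (nat_lit 5004037564) (nat_lit 439) (nat_lit 5) (nat_lit 438) (nat_lit 5) (nat_lit 460) (nat_lit 5) (nat_lit 336) (nat_lit 322) (nat_lit 242)) (XT.lf (nat_lit 76) (nat_lit 1397681160) (nat_lit 0) (nat_lit 5790970636) (nat_lit 1672) (nat_lit 3138056757) (nat_lit 440) (nat_lit 5) (nat_lit 439) (nat_lit 5) (nat_lit 461) (nat_lit 5) (nat_lit 337) (nat_lit 322) (nat_lit 241)))))) (XT.nd (nat_lit 390) (nat_lit 2660) (nat_lit 0) (XT.nd (nat_lit 156) (nat_lit 4408) (nat_lit 0) (XT.nd (nat_lit 78) (nat_lit 1672) (nat_lit 0) (XT.lf (nat_lit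 0) (nat_lit 9274805114) (nat_lit 1596) (nat_lit 938979712) (nat_lit 76) (nat_lit 261953808) (nat_lit 440) (nat_lit 5) (nat_lit 461) (nat_lit 5) (nat_lit 441) (nat_lit 5) (nat_lit 338) (nat_lit 322) (nat_lit 240)) (XT.lf (nat_lit 0) (nat_lit 831327338) (nat_lit 1672) (nat_lit 3318042144) (nat_lit 76) (nat_lit 6478838212) (nat_lit 418) (nat_lit 5) (nat_lit 440) (nat_lit 5) (nat_lit 419) (nat_lit 5) (nat_lit 339) (nat_lit 322) (nat_lit 239))) (XT.nd (nat_lit 78) (nat_lit 2736) (nat_lit 0) (XT.lf (nat_lit 0) (nat_lit 2923146519) (nat_lit 1748) (nat_lit 5738502192) (nat_lit 76) (nat_lit 2123164690) (nat_lit 396) (nat_lit 5) (nat_lit 419) (nat_lit 5) (nat_lit 397) (nat_lit 5) (nat_lit 340) (nat_lit 322) (nat_lit 238)) (XT.nd (nat_lit 78) (nat_lit 988) (nat_lit 0) (XT.lf (nat_lit 0) (nat_lit 2736805820) (nat_lit 1748) (nat_lit 2371599502) (nat_lit 1824) (nat_lit 5837117152) (nat_lit 373) (nat_lit 5) (nat_lit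 396) (nat_lit 5) (nat_lit 397) (nat_lit 5) (nat_lit 341) (nat_lit 322) (nat_lit 237)) (XT.lf (nat_lit 0) (nat_lit 379918723) (nat_lit 988) (nat_lit 7011026960) (nat_lit 1064) (nat_lit 3719491009) (nat_lit 360) (nat_lit 5) (nat_lit 373) (nat_lit 5) (nat_lit 374) (nat_lit 5) (nat_lit 342) (nat_lit 322) (nat_lit 236))))) (XT.nd (nat_lit 156) (nat_lit 1672) (nat_lit 0) (XT.nd (nat_lit 78) (nat_lit 988) (nat_lit 0) (XT.lf (nat_lit 0) (nat_lit 9290249006) (nat_lit 988) (nat_lit 487396250) (nat_lit 1064) (nat_lit 1501957233) (nat_lit 360) (nat_lit 5) (nat_lit 373) (nat_lit 5) (nat_lit 374) (nat_lit 5) (nat_lit 343) (nat_lit 322) (nat_lit 235)) (XT.lf (nat_lit 0) (nat_lit 823662975) (nat_lit 988) (nat_lit 4424464451) (nat_lit 76) (nat_lit 6204594874) (nat_lit 347) (nat_lit 5) (nat_lit 360) (nat_lit 5) (nat_lit 348) (nat_lit 5) (nat_lit 344) (nat_lit 322) (nat_lit 234))) (XT.nd (nat_lit 78) (nat_lit 836) (nat_lit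 0) (XT.lf (nat_lit 0) (nat_lit 3222077257) (nat_lit 912) (nat_lit 6910933510) (nat_lit 76) (nat_lit 1497374219) (nat_lit 336) (nat_lit 5) (nat_lit 348) (nat_lit 5) (nat_lit 337) (nat_lit 5) (nat_lit 345) (nat_lit 322) (nat_lit 233)) (XT.nd (nat_lit 78) (nat_lit 0) (nat_lit 0) (XT.lf (nat_lit 0) (nat_lit 2348807742) (nat_lit 836) (nat_lit 3390890135) (nat_lit 912) (nat_lit 6072750578) (nat_lit 325) (nat_lit 5) (nat_lit 336) (nat_lit 5) (nat_lit 337) (nat_lit 5) (nat_lit 346) (nat_lit 322) (nat_lit 232)) (XT.lf (nat_lit 0) (nat_lit 8370555975) (nat_lit 912) (nat_lit 73801054) (nat_lit 76) (nat_lit 3554878139) (nat_lit 325) (nat_lit 5) (nat_lit 337) (nat_lit 5) (nat_lit 326) (nat_lit 5) (nat_lit 347) (nat_lit 322) (nat_lit 231))))))) (XT.nd (nat_lit 780) (nat_lit 4636) (nat_lit 0) (XT.nd (nat_lit 390) (nat_lit 3420) (nat_lit 0) (XT.nd (nat_lit 156) (nat_lit 1520) (nat_lit 0) (XT.nd (nat_lit 78) (nat_lit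 836) (nat_lit 0) (XT.lf (nat_lit 0) (nat_lit 9670508015) (nat_lit 760) (nat_lit 1463738657) (nat_lit 836) (nat_lit 1056315737) (nat_lit 315) (nat_lit 5) (nat_lit 325) (nat_lit 5) (nat_lit 326) (nat_lit 5) (nat_lit 348) (nat_lit 322) (nat_lit 230)) (XT.lf (nat_lit 0) (nat_lit 1627223624) (nat_lit 836) (nat_lit 5049032208) (nat_lit 76) (nat_lit 5710083084) (nat_lit 304) (nat_lit 5) (nat_lit 315) (nat_lit 5) (nat_lit 305) (nat_lit 5) (nat_lit 349) (nat_lit 322) (nat_lit 229))) (XT.nd (nat_lit 78) (nat_lit 760) (nat_lit 0) (XT.lf (nat_lit 0) (nat_lit 4409345048) (nat_lit 836) (nat_lit 7637011103) (nat_lit 76) (nat_lit 540858301) (nat_lit 294) (nat_lit 5) (nat_lit 305) (nat_lit 5) (nat_lit 295) (nat_lit 5) (nat_lit 350) (nat_lit 322) (nat_lit 228)) (XT.nd (nat_lit 78) (nat_lit 0) (nat_lit 0) (XT.lf (nat_lit 0) (nat_lit 2481266959) (nat_lit 760) (nat_lit 4859181205) (nat_lit 836) (nat_lit 5452371245) (nat_lit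 284) (nat_lit 5) (nat_lit 294) (nat_lit 5) (nat_lit 295) (nat_lit 5) (nat_lit 351) (nat_lit 322) (nat_lit 227)) (XT.lf (nat_lit 0) (nat_lit 10399063685) (nat_lit 836) (nat_lit 44352267) (nat_lit 76) (nat_lit 2560398100) (nat_lit 284) (nat_lit 5) (nat_lit 295) (nat_lit 5) (nat_lit 285) (nat_lit 5) (nat_lit 352) (nat_lit 322) (nat_lit 226))))) (XT.nd (nat_lit 156) (nat_lit 1976) (nat_lit 0) (XT.nd (nat_lit 78) (nat_lit 684) (nat_lit 0) (XT.lf (nat_lit 0) (nat_lit 397644065) (nat_lit 760) (nat_lit 2615472655) (nat_lit 76) (nat_lit 10206518660) (nat_lit 274) (nat_lit 5) (nat_lit 284) (nat_lit 5) (nat_lit 275) (nat_lit 5) (nat_lit 353) (nat_lit 322) (nat_lit 225)) (XT.lf (nat_lit 0) (nat_lit 3511227914) (nat_lit 760) (nat_lit 5281379323) (nat_lit 76) (nat_lit 4647861772) (nat_lit 265) (nat_lit 5) (nat_lit 275) (nat_lit 5) (nat_lit 266) (nat_lit 5) (nat_lit 354) (nat_lit 322) (nat_lit 224))) (XT.nd (nat_lit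 78) (nat_lit 1292) (nat_lit 0) (XT.lf (nat_lit 0) (nat_lit 5648356567) (nat_lit 684) (nat_lit 1117367705) (nat_lit 760) (nat_lit 6901265047) (nat_lit 256) (nat_lit 5) (nat_lit 265) (nat_lit 5) (nat_lit 266) (nat_lit 5) (nat_lit 355) (nat_lit 322) (nat_lit 223)) (XT.nd (nat_lit 78) (nat_lit 608) (nat_lit 0) (XT.lf (nat_lit 0) (nat_lit 3043700216) (nat_lit 684) (nat_lit 7147429737) (nat_lit 760) (nat_lit 3707721227) (nat_lit 247) (nat_lit 5) (nat_lit 256) (nat_lit 5) (nat_lit 257) (nat_lit 5) (nat_lit 356) (nat_lit 322) (nat_lit 222)) (XT.lf (nat_lit 0) (nat_lit 373018088) (nat_lit 608) (nat_lit 13389356422) (nat_lit 684) (nat_lit 374443950) (nat_lit 239) (nat_lit 5) (nat_lit 247) (nat_lit 5) (nat_lit 248) (nat_lit 5) (nat_lit 357) (nat_lit 322) (nat_lit 221)))))) (XT.nd (nat_lit 390) (nat_lit 2128) (nat_lit 0) (XT.nd (nat_lit 156) (nat_lit 1824) (nat_lit 0) (XT.nd (nat_lit 78) (nat_lit 608) (nat_lit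 0) (XT.lf (nat_lit 0) (nat_lit 3114907790) (nat_lit 684) (nat_lit 2392438528) (nat_lit 76) (nat_lit 8872267939) (nat_lit 238) (nat_lit 5) (nat_lit 247) (nat_lit 5) (nat_lit 239) (nat_lit 5) (nat_lit 358) (nat_lit 322) (nat_lit 220)) (XT.lf (nat_lit 0) (nat_lit 6757428386) (nat_lit 684) (nat_lit 5234853441) (nat_lit 76) (nat_lit 2636301345) (nat_lit 230) (nat_lit 5) (nat_lit 239) (nat_lit 5) (nat_lit 231) (nat_lit 5) (nat_lit 359) (nat_lit 322) (nat_lit 219))) (XT.nd (nat_lit 78) (nat_lit 1216) (nat_lit 0) (XT.lf (nat_lit 0) (nat_lit 6702948442) (nat_lit 608) (nat_lit 3878548503) (nat_lit 684) (nat_lit 4302088717) (nat_lit 222) (nat_lit 5) (nat_lit 230) (nat_lit 5) (nat_lit 231) (nat_lit 5) (nat_lit 360) (nat_lit 322) (nat_lit 218)) (XT.nd (nat_lit 78) (nat_lit 608) (nat_lit 0) (XT.lf (nat_lit 0) (nat_lit 3917544946) (nat_lit 608) (nat_lit 10669054891) (nat_lit 684) (nat_lit 558321812) (nat_lit 214)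 (nat_lit 5) (nat_lit 222) (nat_lit 5) (nat_lit 223) (nat_lit 5) (nat_lit 361) (nat_lit 322) (nat_lit 217)) (XT.lf (nat_lit 0) (nat_lit 1013866755) (nat_lit 532) (nat_lit 2305397139) (nat_lit 608) (nat_lit 12093119669) (nat_lit 206) (nat_lit 5) (nat_lit 213) (nat_lit 5) (nat_lit 214) (nat_lit 5) (nat_lit 362) (nat_lit 322) (nat_lit 216))))) (XT.nd (nat_lit 156) (nat_lit 1596) (nat_lit 0) (XT.nd (nat_lit 78) (nat_lit 532) (nat_lit 0) (XT.lf (nat_lit 0) (nat_lit 7400077812) (nat_lit 608) (nat_lit 1984850599) (nat_lit 76) (nat_lit 6300986324) (nat_lit 206) (nat_lit 5) (nat_lit 214) (nat_lit 5) (nat_lit 207) (nat_lit 5) (nat_lit 363) (nat_lit 322) (nat_lit 215)) (XT.lf (nat_lit 0) (nat_lit 10900290382) (nat_lit 532) (nat_lit 766783236) (nat_lit 608) (nat_lit 4299311749) (nat_lit 199) (nat_lit 5) (nat_lit 206) (nat_lit 5) (nat_lit 207) (nat_lit 5) (nat_lit 364) (nat_lit 322) (nat_lit 214))) (XT.nd (nat_lit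 78) (nat_lit 1064) (nat_lit 0) (XT.lf (nat_lit 0) (nat_lit 7967480833) (nat_lit 532) (nat_lit 8190523058) (nat_lit 608) (nat_lit 95356155) (nat_lit 192) (nat_lit 5) (nat_lit 199) (nat_lit 5) (nat_lit 200) (nat_lit 5) (nat_lit 365) (nat_lit 322) (nat_lit 213)) (XT.nd (nat_lit 78) (nat_lit 456) (nat_lit 0) (XT.lf (nat_lit 0) (nat_lit 4233557217) (nat_lit 608) (nat_lit 11635342355) (nat_lit 76) (nat_lit 678414951) (nat_lit 184) (nat_lit 5) (nat_lit 192) (nat_lit 5) (nat_lit 185) (nat_lit 5) (nat_lit 366) (nat_lit 322) (nat_lit 212)) (XT.lf (nat_lit 0) (nat_lit 1708648656) (nat_lit 456) (nat_lit 7083505776) (nat_lit 532) (nat_lit 8055906139) (nat_lit 178) (nat_lit 5) (nat_lit 184) (nat_lit 5) (nat_lit 185) (nat_lit 5) (nat_lit 367) (nat_lit 322) (nat_lit 211))))))))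
noncomputable def xc91 : XT := (XT.nd (nat_lit 43758) (nat_lit 0) (nat_lit 16492) (XT.nd (nat_lit 780) (nat_lit 1520) (nat_lit 0) (XT.nd (nat_lit 390) (nat_lit 1824) (nat_lit 0) (XT.nd (nat_lit 156) (nat_lit 1368) (nat_lit 0) (XT.nd (nat_lit 78) (nat_lit 608) (nat_lit 0) (XT.lf (nat_lit 0) (nat_lit 13558750214) (nat_lit 532) (nat_lit 1585421999) (nat_lit 76) (nat_lit 2012239529) (nat_lit 178) (nat_lit 5) (nat_lit 185) (nat_lit 5) (nat_lit 179) (nat_lit 5) (nat_lit 368) (nat_lit 322) (nat_lit 210)) (XT.lf (nat_lit 0) (nat_lit 1090013842) (nat_lit 608) (nat_lit 5015040781) (nat_lit 76) (nat_lit 11366662415) (nat_lit 170) (nat_lit 5) (nat_lit 178) (nat_lit 5) (nat_lit 171) (nat_lit 5) (nat_lit 369) (nat_lit 322) (nat_lit 209))) (XT.nd (nat_lit 78) (nat_lit 912) (nat_lit 0) (XT.lf (nat_lit 0) (nat_lit 5941755136) (nat_lit 532) (nat_lit 8601310165) (nat_lit 76) (nat_lit 3251501284) (nat_lit 164) (nat_lit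 5) (nat_lit 171) (nat_lit 5) (nat_lit 165) (nat_lit 5) (nat_lit 370) (nat_lit 322) (nat_lit 208)) (XT.nd (nat_lit 78) (nat_lit 456) (nat_lit 0) (XT.lf (nat_lit 0) (nat_lit 5777714533) (nat_lit 456) (nat_lit 5254244770) (nat_lit 532) (nat_lit 7093290883) (nat_lit 158) (nat_lit 5) (nat_lit 164) (nat_lit 5) (nat_lit 165) (nat_lit 5) (nat_lit 371) (nat_lit 322) (nat_lit 207)) (XT.lf (nat_lit 0) (nat_lit 2214874367) (nat_lit 456) (nat_lit 14141764893) (nat_lit 532) (nat_lit 2107586222) (nat_lit 152) (nat_lit 5) (nat_lit 158) (nat_lit 5) (nat_lit 159) (nat_lit 5) (nat_lit 372) (nat_lit 322) (nat_lit 206))))) (XT.nd (nat_lit 156) (nat_lit 1292) (nat_lit 0) (XT.nd (nat_lit 78) (nat_lit 456) (nat_lit 0) (XT.lf (nat_lit 0) (nat_lit 3088315094) (nat_lit 532) (nat_lit 1510637477) (nat_lit 76) (nat_lit 14212023890) (nat_lit 151) (nat_lit 5) (nat_lit 158) (nat_lit 5) (nat_lit 152) (nat_lit 5) (nat_lit 373) (nat_lit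 322) (nat_lit 205)) (XT.lf (nat_lit 0) (nat_lit 8517416992) (nat_lit 532) (nat_lit 5389729056) (nat_lit 76) (nat_lit 5258592232) (nat_lit 145) (nat_lit 5) (nat_lit 152) (nat_lit 5) (nat_lit 146) (nat_lit 5) (nat_lit 374) (nat_lit 322) (nat_lit 204))) (XT.nd (nat_lit 78) (nat_lit 912) (nat_lit 0) (XT.lf (nat_lit 0) (nat_lit 10086577545) (nat_lit 380) (nat_lit 4111212460) (nat_lit 456) (nat_lit 5331590891) (nat_lit 140) (nat_lit 5) (nat_lit 145) (nat_lit 5) (nat_lit 146) (nat_lit 5) (nat_lit 375) (nat_lit 322) (nat_lit 203)) (XT.nd (nat_lit 78) (nat_lit 380) (nat_lit 0) (XT.lf (nat_lit 0) (nat_lit 241481139) (nat_lit 532) (nat_lit 13689147994) (nat_lit 76) (nat_lit 5971315761) (nat_lit 133) (nat_lit 5) (nat_lit 140) (nat_lit 5) (nat_lit 134) (nat_lit 5) (nat_lit 376) (nat_lit 322) (nat_lit 202)) (XT.lf (nat_lit 0) (nat_lit 2121571860) (nat_lit 380) (nat_lit 3876227137) (nat_lit 456) (nat_lit 14285417652)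 (nat_lit 128) (nat_lit 5) (nat_lit 133) (nat_lit 5) (nat_lit 134) (nat_lit 5) (nat_lit 377) (nat_lit 322) (nat_lit 201)))))) (XT.nd (nat_lit 42588) (nat_lit 0) (nat_lit 26296) (XT.nd (nat_lit 156) (nat_lit 1140) (nat_lit 0) (XT.nd (nat_lit 78) (nat_lit 380) (nat_lit 0) (XT.lf (nat_lit 0) (nat_lit 12044948535) (nat_lit 456) (nat_lit 2148242635) (nat_lit 76) (nat_lit 6480377843) (nat_lit 128) (nat_lit 5) (nat_lit 134) (nat_lit 5) (nat_lit 129) (nat_lit 5) (nat_lit 378) (nat_lit 322) (nat_lit 200)) (XT.lf (nat_lit 0) (nat_lit 14484875041) (nat_lit 380) (nat_lit 3891803652) (nat_lit 456) (nat_lit 2696895073) (nat_lit 123) (nat_lit 5) (nat_lit 128) (nat_lit 5) (nat_lit 129) (nat_lit 5) (nat_lit 379) (nat_lit 322) (nat_lit 199))) (XT.nd (nat_lit 78) (nat_lit 684) (nat_lit 0) (XT.lf (nat_lit 0) (nat_lit 3476888270) (nat_lit 456) (nat_lit 11279399482) (nat_lit 76) (nat_lit 6726675336) (nat_lit 117) (nat_lit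 5) (nat_lit 123) (nat_lit 5) (nat_lit 118) (nat_lit 5) (nat_lit 380) (nat_lit 322) (nat_lit 198)) (XT.nd (nat_lit 78) (nat_lit 304) (nat_lit 0) (XT.lf (nat_lit 0) (nat_lit 5691892440) (nat_lit 380) (nat_lit 4199176707) (nat_lit 456) (nat_lit 12011376681) (nat_lit 112) (nat_lit 5) (nat_lit 117) (nat_lit 5) (nat_lit 118) (nat_lit 5) (nat_lit 381) (nat_lit 322) (nat_lit 197)) (XT.lf (nat_lit 0) (nat_lit 937874955) (nat_lit 304) (nat_lit 15670122484) (nat_lit 380) (nat_lit 5724313785) (nat_lit 108) (nat_lit 5) (nat_lit 112) (nat_lit 5) (nat_lit 113) (nat_lit 5) (nat_lit 382) (nat_lit 322) (nat_lit 196))))) (XT.nd (nat_lit 156) (nat_lit 1368) (nat_lit 0) (XT.nd (nat_lit 78) (nat_lit 0) (nat_lit 0) (XT.lf (nat_lit 0) (nat_lit 767321053) (nat_lit 0) (nat_lit 767321053) (nat_lit 1444) (nat_lit 2825171821) (nat_lit 472) (nat_lit 5) (nat_lit 472) (nat_lit 3) (nat_lit 491) (nat_lit 3) (nat_lit 323) (nat_lit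 323) (nat_lit 254)) (XT.lf (nat_lit 0) (nat_lit 4550098225) (nat_lit 1444) (nat_lit 1039170576) (nat_lit 1520) (nat_lit 3231657390) (nat_lit 472) (nat_lit 5) (nat_lit 491) (nat_lit 3) (nat_lit 492) (nat_lit 5) (nat_lit 324) (nat_lit 323) (nat_lit 253))) (XT.nd (nat_lit 78) (nat_lit 1368) (nat_lit 0) (XT.lf (nat_lit 76) (nat_lit 5321654286) (nat_lit 0) (nat_lit 743510504) (nat_lit 1520) (nat_lit 2860333368) (nat_lit 473) (nat_lit 5) (nat_lit 472) (nat_lit 5) (nat_lit 492) (nat_lit 5) (nat_lit 325) (nat_lit 323) (nat_lit 252)) (XT.nd (nat_lit 78) (nat_lit 1444) (nat_lit 0) (XT.lf (nat_lit 76) (nat_lit 2834316809) (nat_lit 0) (nat_lit 4791029367) (nat_lit 1520) (nat_lit 1407898187) (nat_lit 474) (nat_lit 5) (nat_lit 473) (nat_lit 5) (nat_lit 493) (nat_lit 5) (nat_lit 326) (nat_lit 323) (nat_lit 251)) (XT.lf (nat_lit 0) (nat_lit 68080117) (nat_lit 1520) (nat_lit 8806395511) (nat_lit 1596) (nat_lit 270142244)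 (nat_lit 454) (nat_lit 5) (nat_lit 474) (nat_lit 5) (nat_lit 475) (nat_lit 5) (nat_lit 327) (nat_lit 323) (nat_lit 250))))))) (XT.nd (nat_lit 780) (nat_lit 8436) (nat_lit 0) (XT.nd (nat_lit 390) (nat_lit 1368) (nat_lit 0) (XT.nd (nat_lit 156) (nat_lit 0) (nat_lit 76) (XT.nd (nat_lit 78) (nat_lit 0) (nat_lit 76) (XT.lf (nat_lit 0) (nat_lit 1592704601) (nat_lit 1520) (nat_lit 2174527545) (nat_lit 1596) (nat_lit 5491472458) (nat_lit 454) (nat_lit 5) (nat_lit 474) (nat_lit 5) (nat_lit 475) (nat_lit 5) (nat_lit 328) (nat_lit 323) (nat_lit 249)) (XT.lf (nat_lit 0) (nat_lit 3154075627) (nat_lit 1520) (nat_lit 4698613333) (nat_lit 1596) (nat_lit 1523732036) (nat_lit 455) (nat_lit 5) (nat_lit 475) (nat_lit 5) (nat_lit 476) (nat_lit 5) (nat_lit 329) (nat_lit 323) (nat_lit 248))) (XT.nd (nat_lit 78) (nat_lit 0) (nat_lit 76) (XT.lf (nat_lit 76) (nat_lit 2241836395) (nat_lit 0) (nat_lit 2526951710) (nat_lit 1596)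 (nat_lit 4728777192) (nat_lit 456) (nat_lit 5) (nat_lit 455) (nat_lit 5) (nat_lit 476) (nat_lit 5) (nat_lit 330) (nat_lit 323) (nat_lit 247)) (XT.nd (nat_lit 78) (nat_lit 0) (nat_lit 0) (XT.lf (nat_lit 0) (nat_lit 6436436518) (nat_lit 1520) (nat_lit 217271514) (nat_lit 1596) (nat_lit 2968571658) (nat_lit 456) (nat_lit 5) (nat_lit 476) (nat_lit 5) (nat_lit 477) (nat_lit 5) (nat_lit 331) (nat_lit 323) (nat_lit 246)) (XT.lf (nat_lit 76) (nat_lit 7078214972) (nat_lit 0) (nat_lit 1093352293) (nat_lit 1596) (nat_lit 1578844099) (nat_lit 457) (nat_lit 5) (nat_lit 456) (nat_lit 5) (nat_lit 477) (nat_lit 5) (nat_lit 332) (nat_lit 323) (nat_lit 245))))) (XT.nd (nat_lit 156) (nat_lit 0) (nat_lit 76) (XT.nd (nat_lit 78) (nat_lit 0) (nat_lit 76) (XT.lf (nat_lit 0) (nat_lit 93458657) (nat_lit 1596) (nat_lit 5168324849) (nat_lit 1672) (nat_lit 4620255369) (nat_lit 436) (nat_lit 5) (nat_lit 457) (nat_lit 5) (nat_lit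 458) (nat_lit 5) (nat_lit 333) (nat_lit 323) (nat_lit 244)) (XT.lf (nat_lit 0) (nat_lit 1795270391) (nat_lit 1596) (nat_lit 7698612139) (nat_lit 1672) (nat_lit 523531170) (nat_lit 437) (nat_lit 5) (nat_lit 458) (nat_lit 5) (nat_lit 459) (nat_lit 5) (nat_lit 334) (nat_lit 323) (nat_lit 243))) (XT.nd (nat_lit 78) (nat_lit 0) (nat_lit 76) (XT.lf (nat_lit 0) (nat_lit 3576331615) (nat_lit 1596) (nat_lit 121411420) (nat_lit 1672) (nat_lit 6458565178) (nat_lit 437) (nat_lit 5) (nat_lit 458) (nat_lit 5) (nat_lit 459) (nat_lit 5) (nat_lit 335) (nat_lit 323) (nat_lit 242)) (XT.nd (nat_lit 78) (nat_lit 0) (nat_lit 0) (XT.lf (nat_lit 0) (nat_lit 5435312871) (nat_lit 1596) (nat_lit 2559775410) (nat_lit 1672) (nat_lit 2303813212) (nat_lit 438) (nat_lit 5) (nat_lit 459) (nat_lit 5) (nat_lit 460) (nat_lit 5) (nat_lit 336) (nat_lit 323) (nat_lit 241)) (XT.lf (nat_lit 76) (nat_lit 5406944622) (nat_lit 0) (nat_lit 1963833022)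 (nat_lit 1672) (nat_lit 3074601709) (nat_lit 439) (nat_lit 5) (nat_lit 438) (nat_lit 5) (nat_lit 460) (nat_lit 5) (nat_lit 337) (nat_lit 323) (nat_lit 240)))))) (XT.nd (nat_lit 390) (nat_lit 3648) (nat_lit 0) (XT.nd (nat_lit 156) (nat_lit 3344) (nat_lit 0) (XT.nd (nat_lit 78) (nat_lit 1672) (nat_lit 0) (XT.lf (nat_lit 76) (nat_lit 3032898386) (nat_lit 0) (nat_lit 6357220901) (nat_lit 1672) (nat_lit 1205636453) (nat_lit 440) (nat_lit 5) (nat_lit 439) (nat_lit 5) (nat_lit 461) (nat_lit 5) (nat_lit 338) (nat_lit 323) (nat_lit 239)) (XT.lf (nat_lit 76) (nat_lit 624532656) (nat_lit 0) (nat_lit 98728174) (nat_lit 1748) (nat_lit 10027042677) (nat_lit 418) (nat_lit 5) (nat_lit 417) (nat_lit 5) (nat_lit 440) (nat_lit 5) (nat_lit 339) (nat_lit 323) (nat_lit 238))) (XT.nd (nat_lit 78) (nat_lit 3420) (nat_lit 0) (XT.lf (nat_lit 0) (nat_lit 2749241271) (nat_lit 1672) (nat_lit 1828324282) (nat_lit 76) (nat_lit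 6330669743) (nat_lit 418) (nat_lit 5) (nat_lit 440) (nat_lit 5) (nat_lit 419) (nat_lit 5) (nat_lit 340) (nat_lit 323) (nat_lit 237)) (XT.nd (nat_lit 78) (nat_lit 1748) (nat_lit 0) (XT.lf (nat_lit 0) (nat_lit 4856983719) (nat_lit 1748) (nat_lit 4307443702) (nat_lit 76) (nat_lit 1906076315) (nat_lit 396) (nat_lit 5) (nat_lit 419) (nat_lit 5) (nat_lit 397) (nat_lit 5) (nat_lit 341) (nat_lit 323) (nat_lit 236)) (XT.lf (nat_lit 0) (nat_lit 4396113315) (nat_lit 1748) (nat_lit 2668156071) (nat_lit 1824) (nat_lit 4172662436) (nat_lit 373) (nat_lit 5) (nat_lit 396) (nat_lit 5) (nat_lit 397) (nat_lit 5) (nat_lit 342) (nat_lit 323) (nat_lit 235))))) (XT.nd (nat_lit 156) (nat_lit 2584) (nat_lit 0) (XT.nd (nat_lit 78) (nat_lit 76) (nat_lit 0) (XT.lf (nat_lit 0) (nat_lit 1980727868) (nat_lit 988) (nat_lit 7390953470) (nat_lit 1064) (nat_lit 2036010554) (nat_lit 360) (nat_lit 5) (nat_lit 373) (nat_lit 5) (nat_lit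 374) (nat_lit 5) (nat_lit 343) (nat_lit 323) (nat_lit 234)) (XT.lf (nat_lit 0) (nat_lit 193198278) (nat_lit 1064) (nat_lit 472179417) (nat_lit 76) (nat_lit 10917579777) (nat_lit 359) (nat_lit 5) (nat_lit 373) (nat_lit 5) (nat_lit 360) (nat_lit 5) (nat_lit 344) (nat_lit 323) (nat_lit 233))) (XT.nd (nat_lit 78) (nat_lit 1672) (nat_lit 0) (XT.lf (nat_lit 0) (nat_lit 2527311645) (nat_lit 988) (nat_lit 2980500817) (nat_lit 76) (nat_lit 6254101586) (nat_lit 347) (nat_lit 5) (nat_lit 360) (nat_lit 5) (nat_lit 348) (nat_lit 5) (nat_lit 345) (nat_lit 323) (nat_lit 232)) (XT.nd (nat_lit 78) (nat_lit 836) (nat_lit 0) (XT.lf (nat_lit 0) (nat_lit 4958270321) (nat_lit 912) (nat_lit 5532976513) (nat_lit 76) (nat_lit 1454471566) (nat_lit 336) (nat_lit 5) (nat_lit 348) (nat_lit 5) (nat_lit 337) (nat_lit 5) (nat_lit 346) (nat_lit 323) (nat_lit 231)) (XT.lf (nat_lit 0) (nat_lit 3978837611) (nat_lit 836) (nat_lit 3534954360)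 (nat_lit 912) (nat_lit 4620227292) (nat_lit 325) (nat_lit 5) (nat_lit 336) (nat_lit 5) (nat_lit 337) (nat_lit 5) (nat_lit 347) (nat_lit 323) (nat_lit 230))))))))
noncomputable def xc92 : XT := (XT.nd (nat_lit 1482) (nat_lit 6004) (nat_lit 0) (XT.nd (nat_lit 702) (nat_lit 4940) (nat_lit 0) (XT.nd (nat_lit 312) (nat_lit 2888) (nat_lit 0) (XT.nd (nat_lit 156) (nat_lit 1520) (nat_lit 0) (XT.nd (nat_lit 78) (nat_lit 76) (nat_lit 0) (XT.lf (nat_lit 0) (nat_lit 1489779136) (nat_lit 760) (nat_lit 8696545060) (nat_lit 836) (nat_lit 2140852683) (nat_lit 315) (nat_lit 5) (nat_lit 325) (nat_lit 5) (nat_lit 326) (nat_lit 5) (nat_lit 348) (nat_lit 323) (nat_lit 229)) (XT.lf (nat_lit 0) (nat_lit 456603457) (nat_lit 836) (nat_lit 1046378668) (nat_lit 76) (nat_lit 11022125091) (nat_lit 314) (nat_lit 5) (nat_lit 325) (nat_lit 5) (nat_lit 315) (nat_lit 5) (nat_lit 349) (nat_lit 323) (nat_lit 228))) (XT.nd (nat_lit 78)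 (nat_lit 760) (nat_lit 0) (XT.lf (nat_lit 0) (nat_lit 3171797333) (nat_lit 836) (nat_lit 3652852210) (nat_lit 76) (nat_lit 5902678418) (nat_lit 304) (nat_lit 5) (nat_lit 315) (nat_lit 5) (nat_lit 305) (nat_lit 5) (nat_lit 350) (nat_lit 323) (nat_lit 227)) (XT.lf (nat_lit 0) (nat_lit 6004094598) (nat_lit 836) (nat_lit 6314064319) (nat_lit 76) (nat_lit 616756583) (nat_lit 294) (nat_lit 5) (nat_lit 305) (nat_lit 5) (nat_lit 295) (nat_lit 5) (nat_lit 351) (nat_lit 323) (nat_lit 226)))) (XT.nd (nat_lit 156) (nat_lit 1444) (nat_lit 0) (XT.nd (nat_lit 78) (nat_lit 684) (nat_lit 0) (XT.lf (nat_lit 0) (nat_lit 4082581803) (nat_lit 760) (nat_lit 4907866313) (nat_lit 836) (nat_lit 4156913543) (nat_lit 284) (nat_lit 5) (nat_lit 294) (nat_lit 5) (nat_lit 295) (nat_lit 5) (nat_lit 352) (nat_lit 323) (nat_lit 225)) (XT.lf (nat_lit 0) (nat_lit 1483962899) (nat_lit 684) (nat_lit 10625461820) (nat_lit 760) (nat_lit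 1255908201) (nat_lit 275) (nat_lit 5) (nat_lit 284) (nat_lit 5) (nat_lit 285) (nat_lit 5) (nat_lit 353) (nat_lit 323) (nat_lit 224))) (XT.nd (nat_lit 78) (nat_lit 1368) (nat_lit 0) (XT.lf (nat_lit 0) (nat_lit 1777119069) (nat_lit 760) (nat_lit 1189482973) (nat_lit 76) (nat_lit 10621673952) (nat_lit 274) (nat_lit 5) (nat_lit 284) (nat_lit 5) (nat_lit 275) (nat_lit 5) (nat_lit 354) (nat_lit 323) (nat_lit 223)) (XT.nd (nat_lit 78) (nat_lit 684) (nat_lit 0) (XT.lf (nat_lit 0) (nat_lit 4954815092) (nat_lit 760) (nat_lit 3933374858) (nat_lit 76) (nat_lit 4928147990) (nat_lit 265) (nat_lit 5) (nat_lit 275) (nat_lit 5) (nat_lit 266) (nat_lit 5) (nat_lit 355) (nat_lit 323) (nat_lit 222)) (XT.lf (nat_lit 0) (nat_lit 7299812814) (nat_lit 684) (nat_lit 977777525) (nat_lit 760) (nat_lit 5772667539) (nat_lit 256) (nat_lit 5) (nat_lit 265) (nat_lit 5) (nat_lit 266) (nat_lit 5) (nat_lit 356) (nat_lit 323) (nat_lit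 221)))))) (XT.nd (nat_lit 390) (nat_lit 2356) (nat_lit 0) (XT.nd (nat_lit 156) (nat_lit 1216) (nat_lit 0) (XT.nd (nat_lit 78) (nat_lit 684) (nat_lit 0) (XT.lf (nat_lit 0) (nat_lit 4618174553) (nat_lit 684) (nat_lit 7160181397) (nat_lit 760) (nat_lit 2511284094) (nat_lit 247) (nat_lit 5) (nat_lit 256) (nat_lit 5) (nat_lit 257) (nat_lit 5) (nat_lit 357) (nat_lit 323) (nat_lit 220)) (XT.lf (nat_lit 0) (nat_lit 883287240) (nat_lit 684) (nat_lit 12673328556) (nat_lit 76) (nat_lit 978558681) (nat_lit 238) (nat_lit 5) (nat_lit 247) (nat_lit 5) (nat_lit 239) (nat_lit 5) (nat_lit 358) (nat_lit 323) (nat_lit 219))) (XT.nd (nat_lit 78) (nat_lit 1216) (nat_lit 0) (XT.lf (nat_lit 0) (nat_lit 4435448503) (nat_lit 684) (nat_lit 1007044932) (nat_lit 76) (nat_lit 9343462049) (nat_lit 238) (nat_lit 5) (nat_lit 247) (nat_lit 5) (nat_lit 239) (nat_lit 5) (nat_lit 359) (nat_lit 323) (nat_lit 218)) (XT.nd (nat_lit 78)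 (nat_lit 608) (nat_lit 0) (XT.lf (nat_lit 0) (nat_lit 8162323450) (nat_lit 684) (nat_lit 3935381189) (nat_lit 76) (nat_lit 2945201970) (nat_lit 230) (nat_lit 5) (nat_lit 239) (nat_lit 5) (nat_lit 231) (nat_lit 5) (nat_lit 360) (nat_lit 323) (nat_lit 217)) (XT.lf (nat_lit 0) (nat_lit 8336924478) (nat_lit 608) (nat_lit 3738478119) (nat_lit 684) (nat_lit 3230685096) (nat_lit 222) (nat_lit 5) (nat_lit 230) (nat_lit 5) (nat_lit 231) (nat_lit 5) (nat_lit 361) (nat_lit 323) (nat_lit 216))))) (XT.nd (nat_lit 156) (nat_lit 1140) (nat_lit 0) (XT.nd (nat_lit 78) (nat_lit 532) (nat_lit 0) (XT.lf (nat_lit 0) (nat_lit 593669866) (nat_lit 684) (nat_lit 10112960271) (nat_lit 76) (nat_lit 4869036470) (nat_lit 213) (nat_lit 5) (nat_lit 222) (nat_lit 5) (nat_lit 214) (nat_lit 5) (nat_lit 362) (nat_lit 323) (nat_lit 215)) (XT.lf (nat_lit 0) (nat_lit 2468302714) (nat_lit 532) (nat_lit 2087162612) (nat_lit 608) (nat_lit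 11296117095) (nat_lit 206) (nat_lit 5) (nat_lit 213) (nat_lit 5) (nat_lit 214) (nat_lit 5) (nat_lit 363) (nat_lit 323) (nat_lit 214))) (XT.nd (nat_lit 78) (nat_lit 1140) (nat_lit 0) (XT.lf (nat_lit 0) (nat_lit 8727409743) (nat_lit 608) (nat_lit 641166374) (nat_lit 76) (nat_lit 6765382112) (nat_lit 206) (nat_lit 5) (nat_lit 214) (nat_lit 5) (nat_lit 207) (nat_lit 5) (nat_lit 364) (nat_lit 323) (nat_lit 213)) (XT.nd (nat_lit 78) (nat_lit 608) (nat_lit 0) (XT.lf (nat_lit 0) (nat_lit 12607763102) (nat_lit 532) (nat_lit 491421143) (nat_lit 608) (nat_lit 3324135806) (nat_lit 199) (nat_lit 5) (nat_lit 206) (nat_lit 5) (nat_lit 207) (nat_lit 5) (nat_lit 365) (nat_lit 323) (nat_lit 212)) (XT.lf (nat_lit 0) (nat_lit 971905763) (nat_lit 608) (nat_lit 7141357834) (nat_lit 76) (nat_lit 8605938388) (nat_lit 191) (nat_lit 5) (nat_lit 199) (nat_lit 5) (nat_lit 192) (nat_lit 5) (nat_lit 366) (nat_lit 323) (nat_lit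 211))))))) (XT.nd (nat_lit 780) (nat_lit 2128) (nat_lit 0) (XT.nd (nat_lit 390) (nat_lit 1824) (nat_lit 0) (XT.nd (nat_lit 156) (nat_lit 1064) (nat_lit 0) (XT.nd (nat_lit 78) (nat_lit 456) (nat_lit 0) (XT.lf (nat_lit 0) (nat_lit 5409260296) (nat_lit 608) (nat_lit 10595317090) (nat_lit 76) (nat_lit 1017799222) (nat_lit 184) (nat_lit 5) (nat_lit 192) (nat_lit 5) (nat_lit 185) (nat_lit 5) (nat_lit 367) (nat_lit 323) (nat_lit 210)) (XT.lf (nat_lit 0) (nat_lit 3126457390) (nat_lit 456) (nat_lit 6956486029) (nat_lit 532) (nat_lit 7249646227) (nat_lit 178) (nat_lit 5) (nat_lit 184) (nat_lit 5) (nat_lit 185) (nat_lit 5) (nat_lit 368) (nat_lit 323) (nat_lit 209))) (XT.nd (nat_lit 78) (nat_lit 1064) (nat_lit 0) (XT.lf (nat_lit 0) (nat_lit 14964763957) (nat_lit 532) (nat_lit 288074372) (nat_lit 76) (nat_lit 2397919327) (nat_lit 178) (nat_lit 5) (nat_lit 185) (nat_lit 5) (nat_lit 179) (nat_lit 5) (nat_lit 369)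 (nat_lit 323) (nat_lit 208)) (XT.nd (nat_lit 78) (nat_lit 456) (nat_lit 0) (XT.lf (nat_lit 0) (nat_lit 2108279460) (nat_lit 608) (nat_lit 3828959639) (nat_lit 76) (nat_lit 12038574138) (nat_lit 170) (nat_lit 5) (nat_lit 178) (nat_lit 5) (nat_lit 171) (nat_lit 5) (nat_lit 370) (nat_lit 323) (nat_lit 207)) (XT.lf (nat_lit 0) (nat_lit 7087672957) (nat_lit 532) (nat_lit 7527127719) (nat_lit 76) (nat_lit 3693915617) (nat_lit 164) (nat_lit 5) (nat_lit 171) (nat_lit 5) (nat_lit 165) (nat_lit 5) (nat_lit 371) (nat_lit 323) (nat_lit 206))))) (XT.nd (nat_lit 156) (nat_lit 912) (nat_lit 0) (XT.nd (nat_lit 78) (nat_lit 456) (nat_lit 0) (XT.lf (nat_lit 0) (nat_lit 7261654005) (nat_lit 456) (nat_lit 5049254158) (nat_lit 532) (nat_lit 6338815467) (nat_lit 158) (nat_lit 5) (nat_lit 164) (nat_lit 5) (nat_lit 165) (nat_lit 5) (nat_lit 372) (nat_lit 323) (nat_lit 205)) (XT.lf (nat_lit 0) (nat_lit 3587320616) (nat_lit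 456) (nat_lit 14191161742) (nat_lit 532) (nat_lit 1220732194) (nat_lit 152) (nat_lit 5) (nat_lit 158) (nat_lit 5) (nat_lit 159) (nat_lit 5) (nat_lit 373) (nat_lit 323) (nat_lit 204))) (XT.nd (nat_lit 78) (nat_lit 836) (nat_lit 0) (XT.lf (nat_lit 0) (nat_lit 4091276317) (nat_lit 532) (nat_lit 275598201) (nat_lit 76) (nat_lit 14989925348) (nat_lit 151) (nat_lit 5) (nat_lit 158) (nat_lit 5) (nat_lit 152) (nat_lit 5) (nat_lit 374) (nat_lit 323) (nat_lit 203)) (XT.nd (nat_lit 78) (nat_lit 380) (nat_lit 0) (XT.lf (nat_lit 0) (nat_lit 9667302175) (nat_lit 532) (nat_lit 4276091147) (nat_lit 76) (nat_lit 5779138927) (nat_lit 145) (nat_lit 5) (nat_lit 152) (nat_lit 5) (nat_lit 146) (nat_lit 5) (nat_lit 375) (nat_lit 323) (nat_lit 202)) (XT.lf (nat_lit 0) (nat_lit 11643813941) (nat_lit 380) (nat_lit 3856368988) (nat_lit 456) (nat_lit 4597267758) (nat_lit 140) (nat_lit 5) (nat_lit 145) (nat_lit 5) (nat_lit 146)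 (nat_lit 5) (nat_lit 376) (nat_lit 323) (nat_lit 201)))))) (XT.nd (nat_lit 390) (nat_lit 380) (nat_lit 0) (XT.nd (nat_lit 156) (nat_lit 836) (nat_lit 0) (XT.nd (nat_lit 78) (nat_lit 380) (nat_lit 0) (XT.lf (nat_lit 0) (nat_lit 1116128055) (nat_lit 532) (nat_lit 12838635117) (nat_lit 76) (nat_lit 6526623170) (nat_lit 133) (nat_lit 5) (nat_lit 140) (nat_lit 5) (nat_lit 134) (nat_lit 5) (nat_lit 377) (nat_lit 323) (nat_lit 200)) (XT.lf (nat_lit 0) (nat_lit 3425945066) (nat_lit 380) (nat_lit 3601981850) (nat_lit 456) (nat_lit 13846521337) (nat_lit 128) (nat_lit 5) (nat_lit 133) (nat_lit 5) (nat_lit 134) (nat_lit 5) (nat_lit 378) (nat_lit 323) (nat_lit 199))) (XT.nd (nat_lit 78) (nat_lit 836) (nat_lit 0) (XT.lf (nat_lit 0) (nat_lit 13234189750) (nat_lit 456) (nat_lit 993801222) (nat_lit 76) (nat_lit 7048973841) (nat_lit 128) (nat_lit 5) (nat_lit 134) (nat_lit 5) (nat_lit 129) (nat_lit 5) (nat_lit 379)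 (nat_lit 323) (nat_lit 198)) (XT.nd (nat_lit 78) (nat_lit 456) (nat_lit 0) (XT.lf (nat_lit 0) (nat_lit 16118534963) (nat_lit 380) (nat_lit 3621008910) (nat_lit 456) (nat_lit 1949759776) (nat_lit 123) (nat_lit 5) (nat_lit 128) (nat_lit 5) (nat_lit 129) (nat_lit 5) (nat_lit 380) (nat_lit 323) (nat_lit 197)) (XT.lf (nat_lit 0) (nat_lit 4384834456) (nat_lit 456) (nat_lit 10413473256) (nat_lit 76) (nat_lit 7312837294) (nat_lit 117) (nat_lit 5) (nat_lit 123) (nat_lit 5) (nat_lit 118) (nat_lit 5) (nat_lit 381) (nat_lit 323) (nat_lit 196))))) (XT.nd (nat_lit 42432) (nat_lit 0) (nat_lit 25916) (XT.nd (nat_lit 42354) (nat_lit 0) (nat_lit 27360) (XT.lf (nat_lit 0) (nat_lit 7047418954) (nat_lit 380) (nat_lit 3928307139) (nat_lit 456) (nat_lit 11567807250) (nat_lit 112) (nat_lit 5) (nat_lit 117) (nat_lit 5) (nat_lit 118) (nat_lit 5) (nat_lit 382) (nat_lit 323) (nat_lit 195)) (XT.lf (nat_lit 0) (nat_lit 1490303827)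 (nat_lit 0) (nat_lit 1490303827) (nat_lit 1444) (nat_lit 1481209273) (nat_lit 472) (nat_lit 5) (nat_lit 472) (nat_lit 3) (nat_lit 491) (nat_lit 3) (nat_lit 324) (nat_lit 324) (nat_lit 252))) (XT.nd (nat_lit 78) (nat_lit 1444) (nat_lit 0) (XT.lf (nat_lit 76) (nat_lit 358234529) (nat_lit 0) (nat_lit 7040171489) (nat_lit 1520) (nat_lit 1631372265) (nat_lit 473) (nat_lit 5) (nat_lit 472) (nat_lit 5) (nat_lit 492) (nat_lit 5) (nat_lit 325) (nat_lit 324) (nat_lit 251)) (XT.nd (nat_lit 78) (nat_lit 1444) (nat_lit 0) (XT.lf (nat_lit 76) (nat_lit 6882085035) (nat_lit 0) (nat_lit 2004691587) (nat_lit 1520) (nat_lit 252198589) (nat_lit 473) (nat_lit 5) (nat_lit 472) (nat_lit 5) (nat_lit 492) (nat_lit 5) (nat_lit 326) (nat_lit 324) (nat_lit 250)) (XT.lf (nat_lit 0) (nat_lit 1151607751) (nat_lit 1520) (nat_lit 4900358985) (nat_lit 1596) (nat_lit 3199386018) (nat_lit 453) (nat_lit 5) (nat_lit 473) (nat_lit 5) (nat_lit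 474) (nat_lit 5) (nat_lit 327) (nat_lit 324) (nat_lit 249))))))))
noncomputable def xc93 : XT := (XT.nd (nat_lit 1482) (nat_lit 11248) (nat_lit 0) (XT.nd (nat_lit 702) (nat_lit 6688) (nat_lit 0) (XT.nd (nat_lit 312) (nat_lit 1368) (nat_lit 0) (XT.nd (nat_lit 156) (nat_lit 0) (nat_lit 152) (XT.nd (nat_lit 78) (nat_lit 0) (nat_lit 76) (XT.lf (nat_lit 76) (nat_lit 1801425282) (nat_lit 0) (nat_lit 783787879) (nat_lit 1596) (nat_lit 6782060112) (nat_lit 454) (nat_lit 5) (nat_lit 453) (nat_lit 5) (nat_lit 474) (nat_lit 5) (nat_lit 328) (nat_lit 324) (nat_lit 248)) (XT.lf (nat_lit 0) (nat_lit 4077380661) (nat_lit 1520) (nat_lit 773910696) (nat_lit 1596) (nat_lit 4635095396) (nat_lit 454) (nat_lit 5) (nat_lit 474) (nat_lit 5) (nat_lit 475) (nat_lit 5) (nat_lit 329) (nat_lit 324) (nat_lit 247))) (XT.nd (nat_lit 78) (nat_lit 0) (nat_lit 0) (XT.lf (nat_lit 0) (nat_lit 5617919163) (nat_lit 1520) (nat_lit 3342634129)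 (nat_lit 1596) (nat_lit 648473880) (nat_lit 455) (nat_lit 5) (nat_lit 475) (nat_lit 5) (nat_lit 476) (nat_lit 5) (nat_lit 330) (nat_lit 324) (nat_lit 246)) (XT.lf (nat_lit 76) (nat_lit 3781743057) (nat_lit 0) (nat_lit 3439884945) (nat_lit 1596) (nat_lit 2513404624) (nat_lit 456) (nat_lit 5) (nat_lit 455) (nat_lit 5) (nat_lit 476) (nat_lit 5) (nat_lit 331) (nat_lit 324) (nat_lit 245)))) (XT.nd (nat_lit 156) (nat_lit 0) (nat_lit 76) (XT.nd (nat_lit 78) (nat_lit 1596) (nat_lit 0) (XT.lf (nat_lit 76) (nat_lit 1274032485) (nat_lit 0) (nat_lit 7600993347) (nat_lit 1596) (nat_lit 989785038) (nat_lit 457) (nat_lit 5) (nat_lit 456) (nat_lit 5) (nat_lit 477) (nat_lit 5) (nat_lit 332) (nat_lit 324) (nat_lit 244)) (XT.lf (nat_lit 0) (nat_lit 592264524) (nat_lit 1596) (nat_lit 1254353082) (nat_lit 1672) (nat_lit 8151406172) (nat_lit 435) (nat_lit 5) (nat_lit 456) (nat_lit 5) (nat_lit 457) (nat_lit 5) (nat_lit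 333) (nat_lit 324) (nat_lit 243))) (XT.nd (nat_lit 78) (nat_lit 0) (nat_lit 0) (XT.lf (nat_lit 0) (nat_lit 2234503944) (nat_lit 1596) (nat_lit 3811658064) (nat_lit 1672) (nat_lit 4088439050) (nat_lit 436) (nat_lit 5) (nat_lit 457) (nat_lit 5) (nat_lit 458) (nat_lit 5) (nat_lit 334) (nat_lit 324) (nat_lit 242)) (XT.nd (nat_lit 78) (nat_lit 0) (nat_lit 76) (XT.lf (nat_lit 76) (nat_lit 3879174899) (nat_lit 0) (nat_lit 52024467) (nat_lit 1672) (nat_lit 6343994208) (nat_lit 437) (nat_lit 5) (nat_lit 436) (nat_lit 5) (nat_lit 458) (nat_lit 5) (nat_lit 335) (nat_lit 324) (nat_lit 241)) (XT.lf (nat_lit 76) (nat_lit 1382288406) (nat_lit 0) (nat_lit 4331407975) (nat_lit 1672) (nat_lit 4705630535) (nat_lit 438) (nat_lit 5) (nat_lit 437) (nat_lit 5) (nat_lit 459) (nat_lit 5) (nat_lit 336) (nat_lit 324) (nat_lit 240)))))) (XT.nd (nat_lit 390) (nat_lit 5320) (nat_lit 0) (XT.nd (nat_lit 156) (nat_lit 1596) (nat_lit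 0) (XT.nd (nat_lit 78) (nat_lit 0) (nat_lit 0) (XT.lf (nat_lit 0) (nat_lit 7566827657) (nat_lit 1596) (nat_lit 1127753580) (nat_lit 1672) (nat_lit 1872880283) (nat_lit 438) (nat_lit 5) (nat_lit 459) (nat_lit 5) (nat_lit 460) (nat_lit 5) (nat_lit 337) (nat_lit 324) (nat_lit 239)) (XT.lf (nat_lit 76) (nat_lit 7053489321) (nat_lit 0) (nat_lit 2459170696) (nat_lit 1672) (nat_lit 1206657857) (nat_lit 439) (nat_lit 5) (nat_lit 438) (nat_lit 5) (nat_lit 460) (nat_lit 5) (nat_lit 338) (nat_lit 324) (nat_lit 238))) (XT.nd (nat_lit 78) (nat_lit 0) (nat_lit 0) (XT.lf (nat_lit 0) (nat_lit 659657014) (nat_lit 1672) (nat_lit 6253842693) (nat_lit 1748) (nat_lit 3961627290) (nat_lit 417) (nat_lit 5) (nat_lit 439) (nat_lit 5) (nat_lit 440) (nat_lit 5) (nat_lit 339) (nat_lit 324) (nat_lit 237)) (XT.nd (nat_lit 78) (nat_lit 0) (nat_lit 76) (XT.lf (nat_lit 76) (nat_lit 2146319040) (nat_lit 0) (nat_lit 438666434) (nat_lit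 1748) (nat_lit 8450095392) (nat_lit 418) (nat_lit 5) (nat_lit 417) (nat_lit 5) (nat_lit 440) (nat_lit 5) (nat_lit 340) (nat_lit 324) (nat_lit 236)) (XT.lf (nat_lit 0) (nat_lit 4616028164) (nat_lit 1672) (nat_lit 385144859) (nat_lit 76) (nat_lit 6197719051) (nat_lit 418) (nat_lit 5) (nat_lit 440) (nat_lit 5) (nat_lit 419) (nat_lit 5) (nat_lit 341) (nat_lit 324) (nat_lit 235))))) (XT.nd (nat_lit 156) (nat_lit 1976) (nat_lit 0) (XT.nd (nat_lit 78) (nat_lit 1748) (nat_lit 0) (XT.lf (nat_lit 0) (nat_lit 6742859885) (nat_lit 1748) (nat_lit 2925484473) (nat_lit 76) (nat_lit 1698593401) (nat_lit 396) (nat_lit 5) (nat_lit 419) (nat_lit 5) (nat_lit 397) (nat_lit 5) (nat_lit 342) (nat_lit 324) (nat_lit 234)) (XT.lf (nat_lit 0) (nat_lit 6014662112) (nat_lit 1748) (nat_lit 2960669963) (nat_lit 1824) (nat_lit 2563872820) (nat_lit 373) (nat_lit 5) (nat_lit 396) (nat_lit 5) (nat_lit 397) (nat_lit 5) (nat_lit 343)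 (nat_lit 324) (nat_lit 233))) (XT.nd (nat_lit 78) (nat_lit 988) (nat_lit 0) (XT.lf (nat_lit 0) (nat_lit 3538322560) (nat_lit 988) (nat_lit 7772542288) (nat_lit 1064) (nat_lit 405069771) (nat_lit 360) (nat_lit 5) (nat_lit 373) (nat_lit 5) (nat_lit 374) (nat_lit 5) (nat_lit 344) (nat_lit 324) (nat_lit 232)) (XT.nd (nat_lit 78) (nat_lit 0) (nat_lit 0) (XT.lf (nat_lit 0) (nat_lit 1003687836) (nat_lit 912) (nat_lit 823017113) (nat_lit 988) (nat_lit 10070399513) (nat_lit 347) (nat_lit 5) (nat_lit 359) (nat_lit 5) (nat_lit 360) (nat_lit 5) (nat_lit 345) (nat_lit 324) (nat_lit 231)) (XT.lf (nat_lit 0) (nat_lit 4185691821) (nat_lit 988) (nat_lit 1583727164) (nat_lit 76) (nat_lit 6312936685) (nat_lit 347) (nat_lit 5) (nat_lit 360) (nat_lit 5) (nat_lit 348) (nat_lit 5) (nat_lit 346) (nat_lit 324) (nat_lit 230))))))) (XT.nd (nat_lit 780) (nat_lit 5016) (nat_lit 0) (XT.nd (nat_lit 390) (nat_lit 2964) (nat_lit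 0) (XT.nd (nat_lit 156) (nat_lit 1596) (nat_lit 0) (XT.nd (nat_lit 78) (nat_lit 836) (nat_lit 0) (XT.lf (nat_lit 0) (nat_lit 6652433405) (nat_lit 912) (nat_lit 4204682650) (nat_lit 76) (nat_lit 1415323284) (nat_lit 336) (nat_lit 5) (nat_lit 348) (nat_lit 5) (nat_lit 337) (nat_lit 5) (nat_lit 347) (nat_lit 324) (nat_lit 229)) (XT.lf (nat_lit 0) (nat_lit 5568242929) (nat_lit 836) (nat_lit 3680910166) (nat_lit 912) (nat_lit 3217967106) (nat_lit 325) (nat_lit 5) (nat_lit 336) (nat_lit 5) (nat_lit 337) (nat_lit 5) (nat_lit 348) (nat_lit 324) (nat_lit 228))) (XT.nd (nat_lit 78) (nat_lit 836) (nat_lit 0) (XT.lf (nat_lit 0) (nat_lit 3011335949) (nat_lit 760) (nat_lit 8955883507) (nat_lit 836) (nat_lit 699566917) (nat_lit 315) (nat_lit 5) (nat_lit 325) (nat_lit 5) (nat_lit 326) (nat_lit 5) (nat_lit 349) (nat_lit 324) (nat_lit 227)) (XT.nd (nat_lit 78) (nat_lit 0) (nat_lit 0) (XT.lf (nat_lit 0) (nat_lit 380909623)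 (nat_lit 760) (nat_lit 1534356603) (nat_lit 836) (nat_lit 10956028911) (nat_lit 304) (nat_lit 5) (nat_lit 314) (nat_lit 5) (nat_lit 315) (nat_lit 5) (nat_lit 350) (nat_lit 324) (nat_lit 226)) (XT.lf (nat_lit 0) (nat_lit 4676845683) (nat_lit 836) (nat_lit 2303628309) (nat_lit 76) (nat_lit 6099829316) (nat_lit 304) (nat_lit 5) (nat_lit 315) (nat_lit 5) (nat_lit 305) (nat_lit 5) (nat_lit 351) (nat_lit 324) (nat_lit 225))))) (XT.nd (nat_lit 156) (nat_lit 1444) (nat_lit 0) (XT.nd (nat_lit 78) (nat_lit 760) (nat_lit 0) (XT.lf (nat_lit 0) (nat_lit 7562734920) (nat_lit 836) (nat_lit 5040523558) (nat_lit 76) (nat_lit 691506366) (nat_lit 294) (nat_lit 5) (nat_lit 305) (nat_lit 5) (nat_lit 295) (nat_lit 5) (nat_lit 352) (nat_lit 324) (nat_lit 224)) (XT.lf (nat_lit 0) (nat_lit 5644287115) (nat_lit 760) (nat_lit 4963585355) (nat_lit 836) (nat_lit 2906346334) (nat_lit 284) (nat_lit 5) (nat_lit 294) (nat_lit 5)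 (nat_lit 295) (nat_lit 5) (nat_lit 353) (nat_lit 324) (nat_lit 223))) (XT.nd (nat_lit 78) (nat_lit 684) (nat_lit 0) (XT.lf (nat_lit 0) (nat_lit 51094411) (nat_lit 760) (nat_lit 10768777490) (nat_lit 76) (nat_lit 2919454567) (nat_lit 274) (nat_lit 5) (nat_lit 284) (nat_lit 5) (nat_lit 275) (nat_lit 5) (nat_lit 354) (nat_lit 324) (nat_lit 222)) (XT.nd (nat_lit 78) (nat_lit 0) (nat_lit 0) (XT.lf (nat_lit 0) (nat_lit 195488460) (nat_lit 684) (nat_lit 2925256386) (nat_lit 760) (nat_lit 10848809948) (nat_lit 265) (nat_lit 5) (nat_lit 274) (nat_lit 5) (nat_lit 275) (nat_lit 5) (nat_lit 355) (nat_lit 324) (nat_lit 221)) (XT.lf (nat_lit 0) (nat_lit 6364888841) (nat_lit 760) (nat_lit 2631406414) (nat_lit 76) (nat_lit 5208757408) (nat_lit 265) (nat_lit 5) (nat_lit 275) (nat_lit 5) (nat_lit 266) (nat_lit 5) (nat_lit 356) (nat_lit 324) (nat_lit 220)))))) (XT.nd (nat_lit 390) (nat_lit 2356) (nat_lit 0) (XT.nd (nat_lit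 156) (nat_lit 1292) (nat_lit 0) (XT.nd (nat_lit 78) (nat_lit 684) (nat_lit 0) (XT.lf (nat_lit 0) (nat_lit 8915739567) (nat_lit 684) (nat_lit 843936931) (nat_lit 760) (nat_lit 4686883045) (nat_lit 256) (nat_lit 5) (nat_lit 265) (nat_lit 5) (nat_lit 266) (nat_lit 5) (nat_lit 357) (nat_lit 324) (nat_lit 219)) (XT.lf (nat_lit 0) (nat_lit 6154743477) (nat_lit 684) (nat_lit 7184892361) (nat_lit 760) (nat_lit 1354019384) (nat_lit 247) (nat_lit 5) (nat_lit 256) (nat_lit 5) (nat_lit 257) (nat_lit 5) (nat_lit 358) (nat_lit 324) (nat_lit 218))) (XT.nd (nat_lit 78) (nat_lit 608) (nat_lit 0) (XT.lf (nat_lit 0) (nat_lit 2101138749) (nat_lit 684) (nat_lit 11638803411) (nat_lit 76) (nat_lit 1206969880) (nat_lit 238) (nat_lit 5) (nat_lit 247) (nat_lit 5) (nat_lit 239) (nat_lit 5) (nat_lit 359) (nat_lit 324) (nat_lit 217)) (XT.nd (nat_lit 78) (nat_lit 0) (nat_lit 0) (XT.lf (nat_lit 0) (nat_lit 340731899) (nat_lit 608)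 (nat_lit 5386645609) (nat_lit 684) (nat_lit 9478503004) (nat_lit 230) (nat_lit 5) (nat_lit 238) (nat_lit 5) (nat_lit 239) (nat_lit 5) (nat_lit 360) (nat_lit 324) (nat_lit 216)) (XT.lf (nat_lit 0) (nat_lit 9540355762) (nat_lit 684) (nat_lit 2680534853) (nat_lit 76) (nat_lit 3250177489) (nat_lit 230) (nat_lit 5) (nat_lit 239) (nat_lit 5) (nat_lit 231) (nat_lit 5) (nat_lit 361) (nat_lit 324) (nat_lit 215))))) (XT.nd (nat_lit 156) (nat_lit 1064) (nat_lit 0) (XT.nd (nat_lit 78) (nat_lit 684) (nat_lit 0) (XT.lf (nat_lit 0) (nat_lit 9937666187) (nat_lit 608) (nat_lit 3608925573) (nat_lit 684) (nat_lit 2196051042) (nat_lit 222) (nat_lit 5) (nat_lit 230) (nat_lit 5) (nat_lit 231) (nat_lit 5) (nat_lit 362) (nat_lit 324) (nat_lit 214)) (XT.lf (nat_lit 0) (nat_lit 1706021548) (nat_lit 684) (nat_lit 9051937741) (nat_lit 76) (nat_lit 5262659128) (nat_lit 213) (nat_lit 5) (nat_lit 222) (nat_lit 5) (nat_lit 214)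 (nat_lit 5) (nat_lit 363) (nat_lit 324) (nat_lit 213))) (XT.nd (nat_lit 78) (nat_lit 532) (nat_lit 0) (XT.lf (nat_lit 0) (nat_lit 3884627181) (nat_lit 532) (nat_lit 1878878781) (nat_lit 608) (nat_lit 10541781489) (nat_lit 206) (nat_lit 5) (nat_lit 213) (nat_lit 5) (nat_lit 214) (nat_lit 5) (nat_lit 364) (nat_lit 324) (nat_lit 212)) (XT.nd (nat_lit 78) (nat_lit 0) (nat_lit 0) (XT.lf (nat_lit 0) (nat_lit 671078566) (nat_lit 532) (nat_lit 9364389711) (nat_lit 608) (nat_lit 6561181149) (nat_lit 199) (nat_lit 5) (nat_lit 206) (nat_lit 5) (nat_lit 207) (nat_lit 5) (nat_lit 365) (nat_lit 324) (nat_lit 211)) (XT.lf (nat_lit 0) (nat_lit 14287215722) (nat_lit 532) (nat_lit 224925592) (nat_lit 608) (nat_lit 2383087614) (nat_lit 199) (nat_lit 5) (nat_lit 206) (nat_lit 5) (nat_lit 207) (nat_lit 5) (nat_lit 366) (nat_lit 324) (nat_lit 210))))))))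
noncomputable def xc94 : XT := (XT.nd (nat_lit 43836) (nat_lit 0) (nat_lit 17480) (XT.nd (nat_lit 702) (nat_lit 2128) (nat_lit 0) (XT.nd (nat_lit 312) (nat_lit 1976) (nat_lit 0) (XT.nd (nat_lit 156) (nat_lit 988) (nat_lit 0) (XT.nd (nat_lit 78) (nat_lit 532) (nat_lit 0) (XT.lf (nat_lit 0) (nat_lit 2008541937) (nat_lit 608) (nat_lit 6043071406) (nat_lit 76) (nat_lit 9148642865) (nat_lit 191) (nat_lit 5) (nat_lit 199) (nat_lit 5) (nat_lit 192) (nat_lit 5) (nat_lit 367) (nat_lit 324) (nat_lit 209)) (XT.lf (nat_lit 0) (nat_lit 6560035007) (nat_lit 608) (nat_lit 9603830259) (nat_lit 76) (nat_lit 1349051289) (nat_lit 184) (nat_lit 5) (nat_lit 192) (nat_lit 5) (nat_lit 185) (nat_lit 5) (nat_lit 368) (nat_lit 324) (nat_lit 208))) (XT.nd (nat_lit 78) (nat_lit 532) (nat_lit 0) (XT.lf (nat_lit 0) (nat_lit 4508354866) (nat_lit 456) (nat_lit 6845145809) (nat_lit 532) (nat_lit 6479354394) (nat_lit 178) (nat_lit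 5) (nat_lit 184) (nat_lit 5) (nat_lit 185) (nat_lit 5) (nat_lit 369) (nat_lit 324) (nat_lit 207)) (XT.lf (nat_lit 0) (nat_lit 983894281) (nat_lit 532) (nat_lit 15378090817) (nat_lit 608) (nat_lit 1798989056) (nat_lit 171) (nat_lit 5) (nat_lit 178) (nat_lit 5) (nat_lit 179) (nat_lit 5) (nat_lit 370) (nat_lit 324) (nat_lit 206)))) (XT.nd (nat_lit 156) (nat_lit 1444) (nat_lit 0) (XT.nd (nat_lit 78) (nat_lit 456) (nat_lit 0) (XT.lf (nat_lit 0) (nat_lit 3100517572) (nat_lit 608) (nat_lit 2684018488) (nat_lit 76) (nat_lit 12711647520) (nat_lit 170) (nat_lit 5) (nat_lit 178) (nat_lit 5) (nat_lit 171) (nat_lit 5) (nat_lit 371) (nat_lit 324) (nat_lit 205)) (XT.lf (nat_lit 0) (nat_lit 8212420374) (nat_lit 532) (nat_lit 6497194777) (nat_lit 76) (nat_lit 4129805471) (nat_lit 164) (nat_lit 5) (nat_lit 171) (nat_lit 5) (nat_lit 165) (nat_lit 5) (nat_lit 372) (nat_lit 324) (nat_lit 204))) (XT.nd (nat_lit 78) (nat_lit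 988) (nat_lit 0) (XT.lf (nat_lit 0) (nat_lit 8714877399) (nat_lit 456) (nat_lit 4858929582) (nat_lit 532) (nat_lit 5617231281) (nat_lit 158) (nat_lit 5) (nat_lit 164) (nat_lit 5) (nat_lit 165) (nat_lit 5) (nat_lit 373) (nat_lit 324) (nat_lit 203)) (XT.nd (nat_lit 78) (nat_lit 532) (nat_lit 0) (XT.lf (nat_lit 0) (nat_lit 4925970510) (nat_lit 456) (nat_lit 14263558771) (nat_lit 532) (nat_lit 361811116) (nat_lit 152) (nat_lit 5) (nat_lit 158) (nat_lit 5) (nat_lit 159) (nat_lit 5) (nat_lit 374) (nat_lit 324) (nat_lit 202)) (XT.lf (nat_lit 0) (nat_lit 935260553) (nat_lit 456) (nat_lit 4142882536) (nat_lit 532) (nat_lit 14841795753) (nat_lit 145) (nat_lit 5) (nat_lit 151) (nat_lit 5) (nat_lit 152) (nat_lit 5) (nat_lit 375) (nat_lit 324) (nat_lit 201)))))) (XT.nd (nat_lit 390) (nat_lit 456) (nat_lit 0) (XT.nd (nat_lit 156) (nat_lit 1292) (nat_lit 0) (XT.nd (nat_lit 78) (nat_lit 380) (nat_lit 0) (XT.lf (nat_lit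 0) (nat_lit 10800343837) (nat_lit 532) (nat_lit 3202253248) (nat_lit 76) (nat_lit 6294476455) (nat_lit 145) (nat_lit 5) (nat_lit 152) (nat_lit 5) (nat_lit 146) (nat_lit 5) (nat_lit 376) (nat_lit 324) (nat_lit 200)) (XT.lf (nat_lit 0) (nat_lit 13175746013) (nat_lit 380) (nat_lit 3615589282) (nat_lit 456) (nat_lit 3892249737) (nat_lit 140) (nat_lit 5) (nat_lit 145) (nat_lit 5) (nat_lit 146) (nat_lit 5) (nat_lit 377) (nat_lit 324) (nat_lit 199))) (XT.nd (nat_lit 78) (nat_lit 760) (nat_lit 0) (XT.lf (nat_lit 0) (nat_lit 1967221929) (nat_lit 532) (nat_lit 12035004166) (nat_lit 76) (nat_lit 7076996223) (nat_lit 133) (nat_lit 5) (nat_lit 140) (nat_lit 5) (nat_lit 134) (nat_lit 5) (nat_lit 378) (nat_lit 324) (nat_lit 198)) (XT.nd (nat_lit 78) (nat_lit 380) (nat_lit 0) (XT.lf (nat_lit 0) (nat_lit 4698226717) (nat_lit 380) (nat_lit 3341927344) (nat_lit 456) (nat_lit 13444253819) (nat_lit 128) (nat_lit 5) (nat_lit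 133) (nat_lit 5) (nat_lit 134) (nat_lit 5) (nat_lit 379) (nat_lit 324) (nat_lit 197)) (XT.lf (nat_lit 0) (nat_lit 126969463) (nat_lit 380) (nat_lit 14285438678) (nat_lit 456) (nat_lit 7487002895) (nat_lit 123) (nat_lit 5) (nat_lit 128) (nat_lit 5) (nat_lit 129) (nat_lit 5) (nat_lit 380) (nat_lit 324) (nat_lit 196))))) (XT.nd (nat_lit 42510) (nat_lit 0) (nat_lit 25460) (XT.nd (nat_lit 78) (nat_lit 456) (nat_lit 0) (XT.lf (nat_lit 0) (nat_lit 17732370653) (nat_lit 380) (nat_lit 3364337215) (nat_lit 456) (nat_lit 1227743426) (nat_lit 123) (nat_lit 5) (nat_lit 128) (nat_lit 5) (nat_lit 129) (nat_lit 5) (nat_lit 381) (nat_lit 324) (nat_lit 195)) (XT.lf (nat_lit 0) (nat_lit 5273886830) (nat_lit 456) (nat_lit 9590701461) (nat_lit 76) (nat_lit 7894520178) (nat_lit 117) (nat_lit 5) (nat_lit 123) (nat_lit 5) (nat_lit 118) (nat_lit 5) (nat_lit 382) (nat_lit 324) (nat_lit 194))) (XT.nd (nat_lit 78) (nat_lit 1520)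 (nat_lit 0) (XT.lf (nat_lit 0) (nat_lit 2194795336) (nat_lit 0) (nat_lit 2194795336) (nat_lit 1444) (nat_lit 178942090) (nat_lit 472) (nat_lit 5) (nat_lit 472) (nat_lit 3) (nat_lit 491) (nat_lit 3) (nat_lit 325) (nat_lit 325) (nat_lit 250)) (XT.nd (nat_lit 78) (nat_lit 0) (nat_lit 0) (XT.lf (nat_lit 0) (nat_lit 922902052) (nat_lit 1520) (nat_lit 7525073431) (nat_lit 1596) (nat_lit 799868024) (nat_lit 452) (nat_lit 5) (nat_lit 472) (nat_lit 5) (nat_lit 473) (nat_lit 5) (nat_lit 326) (nat_lit 325) (nat_lit 249)) (XT.lf (nat_lit 0) (nat_lit 2249640246) (nat_lit 1520) (nat_lit 967855049) (nat_lit 1596) (nat_lit 6144181623) (nat_lit 452) (nat_lit 5) (nat_lit 472) (nat_lit 5) (nat_lit 473) (nat_lit 5) (nat_lit 327) (nat_lit 325) (nat_lit 248))))))) (XT.nd (nat_lit 780) (nat_lit 6688) (nat_lit 0) (XT.nd (nat_lit 390) (nat_lit 1368) (nat_lit 0) (XT.nd (nat_lit 156) (nat_lit 0) (nat_lit 76) (XT.nd (nat_lit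 78) (nat_lit 0) (nat_lit 0) (XT.lf (nat_lit 0) (nat_lit 3620621157) (nat_lit 1520) (nat_lit 3656926586) (nat_lit 1596) (nat_lit 2201315201) (nat_lit 453) (nat_lit 5) (nat_lit 473) (nat_lit 5) (nat_lit 474) (nat_lit 5) (nat_lit 328) (nat_lit 325) (nat_lit 247)) (XT.lf (nat_lit 76) (nat_lit 3223352919) (nat_lit 0) (nat_lit 1811856272) (nat_lit 1596) (nat_lit 4564331458) (nat_lit 454) (nat_lit 5) (nat_lit 453) (nat_lit 5) (nat_lit 474) (nat_lit 5) (nat_lit 329) (nat_lit 325) (nat_lit 246))) (XT.nd (nat_lit 78) (nat_lit 0) (nat_lit 0) (XT.lf (nat_lit 76) (nat_lit 592347460) (nat_lit 0) (nat_lit 5908207718) (nat_lit 1596) (nat_lit 3223142011) (nat_lit 455) (nat_lit 5) (nat_lit 454) (nat_lit 5) (nat_lit 475) (nat_lit 5) (nat_lit 330) (nat_lit 325) (nat_lit 245)) (XT.nd (nat_lit 78) (nat_lit 0) (nat_lit 76) (XT.lf (nat_lit 76) (nat_lit 7818157168) (nat_lit 0) (nat_lit 202834782) (nat_lit 1596) (nat_lit 1830388046)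 (nat_lit 455) (nat_lit 5) (nat_lit 454) (nat_lit 5) (nat_lit 475) (nat_lit 5) (nat_lit 331) (nat_lit 325) (nat_lit 244)) (XT.lf (nat_lit 76) (nat_lit 5283310695) (nat_lit 0) (nat_lit 4332151795) (nat_lit 1596) (nat_lit 366885861) (nat_lit 456) (nat_lit 5) (nat_lit 455) (nat_lit 5) (nat_lit 476) (nat_lit 5) (nat_lit 332) (nat_lit 325) (nat_lit 243))))) (XT.nd (nat_lit 156) (nat_lit 0) (nat_lit 76) (XT.nd (nat_lit 78) (nat_lit 0) (nat_lit 0) (XT.lf (nat_lit 0) (nat_lit 1127043431) (nat_lit 1596) (nat_lit 7397755643) (nat_lit 1672) (nat_lit 1592291324) (nat_lit 435) (nat_lit 5) (nat_lit 456) (nat_lit 5) (nat_lit 457) (nat_lit 5) (nat_lit 333) (nat_lit 325) (nat_lit 242)) (XT.lf (nat_lit 76) (nat_lit 111544260) (nat_lit 0) (nat_lit 2570233173) (nat_lit 1672) (nat_lit 7573651041) (nat_lit 436) (nat_lit 5) (nat_lit 435) (nat_lit 5) (nat_lit 457) (nat_lit 5) (nat_lit 334) (nat_lit 325) (nat_lit 241))) (XT.nd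 (nat_lit 78) (nat_lit 0) (nat_lit 0) (XT.lf (nat_lit 0) (nat_lit 4317036780) (nat_lit 1596) (nat_lit 2501069988) (nat_lit 1672) (nat_lit 3579153320) (nat_lit 436) (nat_lit 5) (nat_lit 457) (nat_lit 5) (nat_lit 458) (nat_lit 5) (nat_lit 335) (nat_lit 325) (nat_lit 240)) (XT.nd (nat_lit 78) (nat_lit 0) (nat_lit 76) (XT.lf (nat_lit 76) (nat_lit 5397370041) (nat_lit 0) (nat_lit 617660751) (nat_lit 1672) (nat_lit 4528062771) (nat_lit 437) (nat_lit 5) (nat_lit 436) (nat_lit 5) (nat_lit 458) (nat_lit 5) (nat_lit 336) (nat_lit 325) (nat_lit 239)) (XT.lf (nat_lit 76) (nat_lit 2846138120) (nat_lit 0) (nat_lit 4953284865) (nat_lit 1672) (nat_lit 2893189744) (nat_lit 438) (nat_lit 5) (nat_lit 437) (nat_lit 5) (nat_lit 459) (nat_lit 5) (nat_lit 337) (nat_lit 325) (nat_lit 238)))))) (XT.nd (nat_lit 390) (nat_lit 3724) (nat_lit 0) (XT.nd (nat_lit 156) (nat_lit 1520) (nat_lit 0) (XT.nd (nat_lit 78) (nat_lit 1672)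 (nat_lit 0) (XT.lf (nat_lit 76) (nat_lit 264080205) (nat_lit 0) (nat_lit 9386924872) (nat_lit 1672) (nat_lit 1195358507) (nat_lit 439) (nat_lit 5) (nat_lit 438) (nat_lit 5) (nat_lit 460) (nat_lit 5) (nat_lit 338) (nat_lit 325) (nat_lit 237)) (XT.lf (nat_lit 0) (nat_lit 596869765) (nat_lit 1672) (nat_lit 2343440977) (nat_lit 1748) (nat_lit 8063348305) (nat_lit 416) (nat_lit 5) (nat_lit 438) (nat_lit 5) (nat_lit 439) (nat_lit 5) (nat_lit 339) (nat_lit 325) (nat_lit 236))) (XT.nd (nat_lit 78) (nat_lit 1596) (nat_lit 0) (XT.lf (nat_lit 0) (nat_lit 2456405966) (nat_lit 1672) (nat_lit 5001324355) (nat_lit 1748) (nat_lit 3707207214) (nat_lit 417) (nat_lit 5) (nat_lit 439) (nat_lit 5) (nat_lit 440) (nat_lit 5) (nat_lit 340) (nat_lit 325) (nat_lit 235)) (XT.nd (nat_lit 78) (nat_lit 1596) (nat_lit 0) (XT.lf (nat_lit 76) (nat_lit 3627477773) (nat_lit 0) (nat_lit 769459016) (nat_lit 1748) (nat_lit 6933630711)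 (nat_lit 418) (nat_lit 5) (nat_lit 417) (nat_lit 5) (nat_lit 440) (nat_lit 5) (nat_lit 341) (nat_lit 325) (nat_lit 234)) (XT.lf (nat_lit 0) (nat_lit 1028830237) (nat_lit 1672) (nat_lit 5414241600) (nat_lit 1748) (nat_lit 5057163553) (nat_lit 396) (nat_lit 5) (nat_lit 418) (nat_lit 5) (nat_lit 419) (nat_lit 5) (nat_lit 342) (nat_lit 325) (nat_lit 233))))) (XT.nd (nat_lit 156) (nat_lit 1976) (nat_lit 0) (XT.nd (nat_lit 78) (nat_lit 1748) (nat_lit 0) (XT.lf (nat_lit 0) (nat_lit 8585419652) (nat_lit 1748) (nat_lit 1588814528) (nat_lit 76) (nat_lit 1500078864) (nat_lit 396) (nat_lit 5) (nat_lit 419) (nat_lit 5) (nat_lit 397) (nat_lit 5) (nat_lit 343) (nat_lit 325) (nat_lit 232)) (XT.lf (nat_lit 0) (nat_lit 7596426698) (nat_lit 1748) (nat_lit 3249762669) (nat_lit 1824) (nat_lit 1006356458) (nat_lit 373) (nat_lit 5) (nat_lit 396) (nat_lit 5) (nat_lit 397) (nat_lit 5) (nat_lit 344) (nat_lit 325) (nat_lit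 231))) (XT.nd (nat_lit 78) (nat_lit 912) (nat_lit 0) (XT.lf (nat_lit 0) (nat_lit 1162224944) (nat_lit 1064) (nat_lit 6986378055) (nat_lit 76) (nat_lit 3886619756) (nat_lit 359) (nat_lit 5) (nat_lit 373) (nat_lit 5) (nat_lit 360) (nat_lit 5) (nat_lit 345) (nat_lit 325) (nat_lit 230)) (XT.nd (nat_lit 78) (nat_lit 0) (nat_lit 0) (XT.lf (nat_lit 0) (nat_lit 2444389387) (nat_lit 912) (nat_lit 974406143) (nat_lit 988) (nat_lit 8803733964) (nat_lit 347) (nat_lit 5) (nat_lit 359) (nat_lit 5) (nat_lit 360) (nat_lit 5) (nat_lit 346) (nat_lit 325) (nat_lit 229)) (XT.lf (nat_lit 0) (nat_lit 5802977937) (nat_lit 988) (nat_lit 230363611) (nat_lit 76) (nat_lit 6380929793) (nat_lit 347) (nat_lit 5) (nat_lit 360) (nat_lit 5) (nat_lit 348) (nat_lit 5) (nat_lit 347) (nat_lit 325) (nat_lit 228))))))))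
noncomputable def xc95 : XT := (XT.nd (nat_lit 1560) (nat_lit 5776) (nat_lit 0) (XT.nd (nat_lit 780) (nat_lit 5016) (nat_lit 0) (XT.nd (nat_lit 390) (nat_lit 2964) (nat_lit 0) (XT.nd (nat_lit 156) (nat_lit 1596) (nat_lit 0) (XT.nd (nat_lit 78) (nat_lit 836) (nat_lit 0) (XT.lf (nat_lit 0) (nat_lit 8308708241) (nat_lit 912) (nat_lit 2922317938) (nat_lit 76) (nat_lit 1379752603) (nat_lit 336) (nat_lit 5) (nat_lit 348) (nat_lit 5) (nat_lit 337) (nat_lit 5) (nat_lit 348) (nat_lit 325) (nat_lit 227)) (XT.lf (nat_lit 0) (nat_lit 7120944085) (nat_lit 836) (nat_lit 3828953811) (nat_lit 912) (nat_lit 1862091185) (nat_lit 325) (nat_lit 5) (nat_lit 336) (nat_lit 5) (nat_lit 337) (nat_lit 5) (nat_lit 349) (nat_lit 325) (nat_lit 226))) (XT.nd (nat_lit 78) (nat_lit 760) (nat_lit 0) (XT.lf (nat_lit 0) (nat_lit 689373500) (nat_lit 836) (nat_lit 8529091978) (nat_lit 76) (nat_lit 3799761904) (nat_lit 314) (nat_lit 5)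 (nat_lit 325) (nat_lit 5) (nat_lit 315) (nat_lit 5) (nat_lit 350) (nat_lit 325) (nat_lit 225)) (XT.nd (nat_lit 78) (nat_lit 0) (nat_lit 0) (XT.lf (nat_lit 0) (nat_lit 1780783183) (nat_lit 760) (nat_lit 1560642376) (nat_lit 836) (nat_lit 9888006635) (nat_lit 304) (nat_lit 5) (nat_lit 314) (nat_lit 5) (nat_lit 315) (nat_lit 5) (nat_lit 351) (nat_lit 325) (nat_lit 224)) (XT.lf (nat_lit 0) (nat_lit 6146111775) (nat_lit 836) (nat_lit 997669322) (nat_lit 76) (nat_lit 6301742610) (nat_lit 304) (nat_lit 5) (nat_lit 315) (nat_lit 5) (nat_lit 305) (nat_lit 5) (nat_lit 352) (nat_lit 325) (nat_lit 223))))) (XT.nd (nat_lit 156) (nat_lit 1444) (nat_lit 0) (XT.nd (nat_lit 78) (nat_lit 760) (nat_lit 0) (XT.lf (nat_lit 0) (nat_lit 9089001909) (nat_lit 836) (nat_lit 3812756619) (nat_lit 76) (nat_lit 765269830) (nat_lit 294) (nat_lit 5) (nat_lit 305) (nat_lit 5) (nat_lit 295) (nat_lit 5) (nat_lit 353) (nat_lit 325)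 (nat_lit 222)) (XT.lf (nat_lit 0) (nat_lit 7170226020) (nat_lit 760) (nat_lit 5026229416) (nat_lit 836) (nat_lit 1697208497) (nat_lit 284) (nat_lit 5) (nat_lit 294) (nat_lit 5) (nat_lit 295) (nat_lit 5) (nat_lit 354) (nat_lit 325) (nat_lit 221))) (XT.nd (nat_lit 78) (nat_lit 684) (nat_lit 0) (XT.lf (nat_lit 0) (nat_lit 1304125268) (nat_lit 760) (nat_lit 9715052410) (nat_lit 76) (nat_lit 3106751794) (nat_lit 274) (nat_lit 5) (nat_lit 284) (nat_lit 5) (nat_lit 275) (nat_lit 5) (nat_lit 355) (nat_lit 325) (nat_lit 220)) (XT.nd (nat_lit 78) (nat_lit 0) (nat_lit 0) (XT.lf (nat_lit 0) (nat_lit 1555804762) (nat_lit 684) (nat_lit 2882403054) (nat_lit 760) (nat_lit 9925425908) (nat_lit 265) (nat_lit 5) (nat_lit 274) (nat_lit 5) (nat_lit 275) (nat_lit 5) (nat_lit 356) (nat_lit 325) (nat_lit 219)) (XT.lf (nat_lit 0) (nat_lit 7744853601) (nat_lit 760) (nat_lit 1371890986) (nat_lit 76) (nat_lit 5490163855) (nat_lit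 265) (nat_lit 5) (nat_lit 275) (nat_lit 5) (nat_lit 266) (nat_lit 5) (nat_lit 357) (nat_lit 325) (nat_lit 218)))))) (XT.nd (nat_lit 390) (nat_lit 2356) (nat_lit 0) (XT.nd (nat_lit 156) (nat_lit 1292) (nat_lit 0) (XT.nd (nat_lit 78) (nat_lit 684) (nat_lit 0) (XT.lf (nat_lit 0) (nat_lit 10499954490) (nat_lit 684) (nat_lit 715447969) (nat_lit 760) (nat_lit 3640794730) (nat_lit 256) (nat_lit 5) (nat_lit 265) (nat_lit 5) (nat_lit 266) (nat_lit 5) (nat_lit 358) (nat_lit 325) (nat_lit 217)) (XT.lf (nat_lit 0) (nat_lit 7657157191) (nat_lit 684) (nat_lit 7221256854) (nat_lit 760) (nat_lit 232793200) (nat_lit 247) (nat_lit 5) (nat_lit 256) (nat_lit 5) (nat_lit 257) (nat_lit 5) (nat_lit 359) (nat_lit 325) (nat_lit 216))) (XT.nd (nat_lit 78) (nat_lit 608) (nat_lit 0) (XT.lf (nat_lit 0) (nat_lit 3287137274) (nat_lit 684) (nat_lit 10654453513) (nat_lit 76) (nat_lit 1430806876) (nat_lit 238) (nat_lit 5) (nat_lit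 247) (nat_lit 5) (nat_lit 239) (nat_lit 5) (nat_lit 360) (nat_lit 325) (nat_lit 215)) (XT.nd (nat_lit 78) (nat_lit 0) (nat_lit 0) (XT.lf (nat_lit 0) (nat_lit 1662833176) (nat_lit 608) (nat_lit 5335139911) (nat_lit 684) (nat_lit 8641659375) (nat_lit 230) (nat_lit 5) (nat_lit 238) (nat_lit 5) (nat_lit 239) (nat_lit 5) (nat_lit 361) (nat_lit 325) (nat_lit 214)) (XT.lf (nat_lit 0) (nat_lit 10894680874) (nat_lit 684) (nat_lit 1466853650) (nat_lit 76) (nat_lit 3551867430) (nat_lit 230) (nat_lit 5) (nat_lit 239) (nat_lit 5) (nat_lit 231) (nat_lit 5) (nat_lit 362) (nat_lit 325) (nat_lit 213))))) (XT.nd (nat_lit 156) (nat_lit 1064) (nat_lit 0) (XT.nd (nat_lit 78) (nat_lit 684) (nat_lit 0) (XT.lf (nat_lit 0) (nat_lit 11508898231) (nat_lit 608) (nat_lit 3489361415) (nat_lit 684) (nat_lit 1195333829) (nat_lit 222) (nat_lit 5) (nat_lit 230) (nat_lit 5) (nat_lit 231) (nat_lit 5) (nat_lit 363) (nat_lit 325) (nat_lit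 212)) (XT.lf (nat_lit 0) (nat_lit 2788912616) (nat_lit 684) (nat_lit 8037407327) (nat_lit 76) (nat_lit 5653879993) (nat_lit 213) (nat_lit 5) (nat_lit 222) (nat_lit 5) (nat_lit 214) (nat_lit 5) (nat_lit 364) (nat_lit 325) (nat_lit 211))) (XT.nd (nat_lit 78) (nat_lit 532) (nat_lit 0) (XT.lf (nat_lit 0) (nat_lit 5266389283) (nat_lit 532) (nat_lit 1679897130) (nat_lit 608) (nat_lit 9827571064) (nat_lit 206) (nat_lit 5) (nat_lit 213) (nat_lit 5) (nat_lit 214) (nat_lit 5) (nat_lit 365) (nat_lit 325) (nat_lit 210)) (XT.nd (nat_lit 78) (nat_lit 0) (nat_lit 0) (XT.lf (nat_lit 0) (nat_lit 1954531047) (nat_lit 532) (nat_lit 9372274621) (nat_lit 608) (nat_lit 5747558073) (nat_lit 199) (nat_lit 5) (nat_lit 206) (nat_lit 5) (nat_lit 207) (nat_lit 5) (nat_lit 366) (nat_lit 325) (nat_lit 209)) (XT.lf (nat_lit 0) (nat_lit 15909152971) (nat_lit 608) (nat_lit 1440348950) (nat_lit 76) (nat_lit 32982284) (nat_lit 199)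 (nat_lit 5) (nat_lit 207) (nat_lit 5) (nat_lit 200) (nat_lit 5) (nat_lit 367) (nat_lit 325) (nat_lit 208))))))) (XT.nd (nat_lit 780) (nat_lit 1672) (nat_lit 0) (XT.nd (nat_lit 390) (nat_lit 1900) (nat_lit 0) (XT.nd (nat_lit 156) (nat_lit 1064) (nat_lit 0) (XT.nd (nat_lit 78) (nat_lit 532) (nat_lit 0) (XT.lf (nat_lit 0) (nat_lit 3018443779) (nat_lit 608) (nat_lit 4987180815) (nat_lit 76) (nat_lit 9691295502) (nat_lit 191) (nat_lit 5) (nat_lit 199) (nat_lit 5) (nat_lit 192) (nat_lit 5) (nat_lit 368) (nat_lit 325) (nat_lit 207)) (XT.lf (nat_lit 0) (nat_lit 7688589192) (nat_lit 608) (nat_lit 8657760659) (nat_lit 76) (nat_lit 1672978469) (nat_lit 184) (nat_lit 5) (nat_lit 192) (nat_lit 5) (nat_lit 185) (nat_lit 5) (nat_lit 369) (nat_lit 325) (nat_lit 206))) (XT.nd (nat_lit 78) (nat_lit 608) (nat_lit 0) (XT.lf (nat_lit 0) (nat_lit 5857766842) (nat_lit 456) (nat_lit 6748836688) (nat_lit 532) (nat_lit 5742656488)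 (nat_lit 178) (nat_lit 5) (nat_lit 184) (nat_lit 5) (nat_lit 185) (nat_lit 5) (nat_lit 370) (nat_lit 325) (nat_lit 205)) (XT.nd (nat_lit 78) (nat_lit 76) (nat_lit 0) (XT.lf (nat_lit 0) (nat_lit 2224226543) (nat_lit 532) (nat_lit 15524301307) (nat_lit 608) (nat_lit 939040754) (nat_lit 171) (nat_lit 5) (nat_lit 178) (nat_lit 5) (nat_lit 179) (nat_lit 5) (nat_lit 371) (nat_lit 325) (nat_lit 204)) (XT.lf (nat_lit 0) (nat_lit 4069195017) (nat_lit 608) (nat_lit 1577047347) (nat_lit 76) (nat_lit 13387007839) (nat_lit 170) (nat_lit 5) (nat_lit 178) (nat_lit 5) (nat_lit 171) (nat_lit 5) (nat_lit 372) (nat_lit 325) (nat_lit 203))))) (XT.nd (nat_lit 156) (nat_lit 988) (nat_lit 0) (XT.nd (nat_lit 78) (nat_lit 456) (nat_lit 0) (XT.lf (nat_lit 0) (nat_lit 9318550953) (nat_lit 532) (nat_lit 5508448849) (nat_lit 76) (nat_lit 4560111535) (nat_lit 164) (nat_lit 5) (nat_lit 171) (nat_lit 5) (nat_lit 165) (nat_lit 5)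 (nat_lit 373) (nat_lit 325) (nat_lit 202)) (XT.lf (nat_lit 0) (nat_lit 10140781986) (nat_lit 456) (nat_lit 4682516113) (nat_lit 532) (nat_lit 4926337672) (nat_lit 158) (nat_lit 5) (nat_lit 164) (nat_lit 5) (nat_lit 165) (nat_lit 5) (nat_lit 374) (nat_lit 325) (nat_lit 201))) (XT.nd (nat_lit 78) (nat_lit 456) (nat_lit 0) (XT.lf (nat_lit 0) (nat_lit 465286348) (nat_lit 532) (nat_lit 13890002082) (nat_lit 76) (nat_lit 5765705062) (nat_lit 151) (nat_lit 5) (nat_lit 158) (nat_lit 5) (nat_lit 152) (nat_lit 5) (nat_lit 375) (nat_lit 325) (nat_lit 200)) (XT.nd (nat_lit 78) (nat_lit 0) (nat_lit 0) (XT.lf (nat_lit 0) (nat_lit 2116018089) (nat_lit 456) (nat_lit 3930753601) (nat_lit 532) (nat_lit 14454173393) (nat_lit 145) (nat_lit 5) (nat_lit 151) (nat_lit 5) (nat_lit 152) (nat_lit 5) (nat_lit 376) (nat_lit 325) (nat_lit 199)) (XT.lf (nat_lit 0) (nat_lit 11918983803) (nat_lit 532) (nat_lit 2165206854) (nat_lit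 76) (nat_lit 6805644013) (nat_lit 145) (nat_lit 5) (nat_lit 152) (nat_lit 5) (nat_lit 146) (nat_lit 5) (nat_lit 377) (nat_lit 325) (nat_lit 198)))))) (XT.nd (nat_lit 42900) (nat_lit 0) (nat_lit 24928) (XT.nd (nat_lit 156) (nat_lit 760) (nat_lit 0) (XT.nd (nat_lit 78) (nat_lit 532) (nat_lit 0) (XT.lf (nat_lit 0) (nat_lit 14685748957) (nat_lit 380) (nat_lit 3388049066) (nat_lit 456) (nat_lit 3214469153) (nat_lit 140) (nat_lit 5) (nat_lit 145) (nat_lit 5) (nat_lit 146) (nat_lit 5) (nat_lit 378) (nat_lit 325) (nat_lit 197)) (XT.lf (nat_lit 0) (nat_lit 2796914457) (nat_lit 532) (nat_lit 11275505696) (nat_lit 76) (nat_lit 7623526449) (nat_lit 133) (nat_lit 5) (nat_lit 140) (nat_lit 5) (nat_lit 134) (nat_lit 5) (nat_lit 379) (nat_lit 325) (nat_lit 196))) (XT.nd (nat_lit 78) (nat_lit 380) (nat_lit 0) (XT.lf (nat_lit 0) (nat_lit 5941542544) (nat_lit 380) (nat_lit 3095202451) (nat_lit 456) (nat_lit 13076855485)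 (nat_lit 128) (nat_lit 5) (nat_lit 133) (nat_lit 5) (nat_lit 134) (nat_lit 5) (nat_lit 380) (nat_lit 325) (nat_lit 195)) (XT.nd (nat_lit 42588) (nat_lit 0) (nat_lit 24928) (XT.lf (nat_lit 0) (nat_lit 1228137421) (nat_lit 380) (nat_lit 14359339739) (nat_lit 456) (nat_lit 6953837115) (nat_lit 123) (nat_lit 5) (nat_lit 128) (nat_lit 5) (nat_lit 129) (nat_lit 5) (nat_lit 381) (nat_lit 325) (nat_lit 194)) (XT.lf (nat_lit 0) (nat_lit 1070855711) (nat_lit 1596) (nat_lit 1804505665) (nat_lit 1596) (nat_lit 1804505665) (nat_lit 451) (nat_lit 3) (nat_lit 472) (nat_lit 3) (nat_lit 472) (nat_lit 5) (nat_lit 326) (nat_lit 326) (nat_lit 248))))) (XT.nd (nat_lit 156) (nat_lit 0) (nat_lit 152) (XT.nd (nat_lit 78) (nat_lit 0) (nat_lit 76) (XT.lf (nat_lit 76) (nat_lit 3037734125) (nat_lit 0) (nat_lit 348122937) (nat_lit 1596) (nat_lit 6089375301) (nat_lit 452) (nat_lit 5) (nat_lit 451) (nat_lit 3) (nat_lit 472) (nat_lit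 5) (nat_lit 327) (nat_lit 326) (nat_lit 247)) (XT.lf (nat_lit 76) (nat_lit 284104940) (nat_lit 0) (nat_lit 4397012513) (nat_lit 1596) (nat_lit 4912827984) (nat_lit 453) (nat_lit 5) (nat_lit 452) (nat_lit 5) (nat_lit 473) (nat_lit 5) (nat_lit 328) (nat_lit 326) (nat_lit 246))) (XT.nd (nat_lit 78) (nat_lit 0) (nat_lit 0) (XT.lf (nat_lit 0) (nat_lit 6023956704) (nat_lit 1520) (nat_lit 2456008342) (nat_lit 1596) (nat_lit 1236105342) (nat_lit 453) (nat_lit 5) (nat_lit 473) (nat_lit 5) (nat_lit 474) (nat_lit 5) (nat_lit 329) (nat_lit 326) (nat_lit 245)) (XT.nd (nat_lit 78) (nat_lit 0) (nat_lit 76) (XT.lf (nat_lit 76) (nat_lit 4609416198) (nat_lit 0) (nat_lit 2813101165) (nat_lit 1596) (nat_lit 2419057182) (nat_lit 454) (nat_lit 5) (nat_lit 453) (nat_lit 5) (nat_lit 474) (nat_lit 5) (nat_lit 330) (nat_lit 326) (nat_lit 244)) (XT.lf (nat_lit 76) (nat_lit 1929817091) (nat_lit 0) (nat_lit 6939472679) (nat_lit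 1596) (nat_lit 1101452434) (nat_lit 455) (nat_lit 5) (nat_lit 454) (nat_lit 5) (nat_lit 475) (nat_lit 5) (nat_lit 331) (nat_lit 326) (nat_lit 243))))))))
noncomputable def xc96 : XT := (XT.nd (nat_lit 1482) (nat_lit 10716) (nat_lit 0) (XT.nd (nat_lit 702) (nat_lit 6916) (nat_lit 0) (XT.nd (nat_lit 312) (nat_lit 1292) (nat_lit 0) (XT.nd (nat_lit 156) (nat_lit 0) (nat_lit 152) (XT.nd (nat_lit 78) (nat_lit 0) (nat_lit 76) (XT.lf (nat_lit 0) (nat_lit 264949982) (nat_lit 1596) (nat_lit 771336287) (nat_lit 1672) (nat_lit 9067235314) (nat_lit 433) (nat_lit 5) (nat_lit 454) (nat_lit 5) (nat_lit 455) (nat_lit 5) (nat_lit 332) (nat_lit 326) (nat_lit 242)) (XT.lf (nat_lit 0) (nat_lit 1693969155) (nat_lit 1596) (nat_lit 3500554207) (nat_lit 1672) (nat_lit 5044905282) (nat_lit 434) (nat_lit 5) (nat_lit 455) (nat_lit 5) (nat_lit 456) (nat_lit 5) (nat_lit 333) (nat_lit 326) (nat_lit 241))) (XT.nd (nat_lit 78) (nat_lit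 0) (nat_lit 0) (XT.lf (nat_lit 0) (nat_lit 3171554496) (nat_lit 1596) (nat_lit 6258460145) (nat_lit 1672) (nat_lit 949305427) (nat_lit 435) (nat_lit 5) (nat_lit 456) (nat_lit 5) (nat_lit 457) (nat_lit 5) (nat_lit 334) (nat_lit 326) (nat_lit 240)) (XT.lf (nat_lit 76) (nat_lit 1454034445) (nat_lit 0) (nat_lit 3269026611) (nat_lit 1672) (nat_lit 5799775755) (nat_lit 436) (nat_lit 5) (nat_lit 435) (nat_lit 5) (nat_lit 457) (nat_lit 5) (nat_lit 335) (nat_lit 326) (nat_lit 239)))) (XT.nd (nat_lit 156) (nat_lit 1520) (nat_lit 0) (XT.nd (nat_lit 78) (nat_lit 0) (nat_lit 0) (XT.lf (nat_lit 0) (nat_lit 6346347786) (nat_lit 1596) (nat_lit 1232961530) (nat_lit 1672) (nat_lit 3090864897) (nat_lit 436) (nat_lit 5) (nat_lit 457) (nat_lit 5) (nat_lit 458) (nat_lit 5) (nat_lit 336) (nat_lit 326) (nat_lit 238)) (XT.lf (nat_lit 76) (nat_lit 6880640840) (nat_lit 0) (nat_lit 1167885880) (nat_lit 1672) (nat_lit 2772820420)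 (nat_lit 437) (nat_lit 5) (nat_lit 436) (nat_lit 5) (nat_lit 458) (nat_lit 5) (nat_lit 337) (nat_lit 326) (nat_lit 237))) (XT.nd (nat_lit 78) (nat_lit 1596) (nat_lit 0) (XT.lf (nat_lit 76) (nat_lit 4272252833) (nat_lit 0) (nat_lit 5565579002) (nat_lit 1672) (nat_lit 1138520918) (nat_lit 438) (nat_lit 5) (nat_lit 437) (nat_lit 5) (nat_lit 459) (nat_lit 5) (nat_lit 338) (nat_lit 326) (nat_lit 236)) (XT.nd (nat_lit 78) (nat_lit 0) (nat_lit 0) (XT.lf (nat_lit 0) (nat_lit 555245931) (nat_lit 1672) (nat_lit 9508949273) (nat_lit 1748) (nat_lit 1071408726) (nat_lit 416) (nat_lit 5) (nat_lit 438) (nat_lit 5) (nat_lit 439) (nat_lit 5) (nat_lit 339) (nat_lit 326) (nat_lit 235)) (XT.lf (nat_lit 0) (nat_lit 2333530744) (nat_lit 1672) (nat_lit 1071211472) (nat_lit 1748) (nat_lit 7893773749) (nat_lit 416) (nat_lit 5) (nat_lit 438) (nat_lit 5) (nat_lit 439) (nat_lit 5) (nat_lit 340) (nat_lit 326) (nat_lit 234))))))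 (XT.nd (nat_lit 390) (nat_lit 3572) (nat_lit 0) (XT.nd (nat_lit 156) (nat_lit 3420) (nat_lit 0) (XT.nd (nat_lit 78) (nat_lit 0) (nat_lit 0) (XT.lf (nat_lit 0) (nat_lit 4205052656) (nat_lit 1672) (nat_lit 3793900027) (nat_lit 1748) (nat_lit 3466581697) (nat_lit 417) (nat_lit 5) (nat_lit 439) (nat_lit 5) (nat_lit 440) (nat_lit 5) (nat_lit 341) (nat_lit 326) (nat_lit 233)) (XT.lf (nat_lit 76) (nat_lit 5071742923) (nat_lit 0) (nat_lit 1091941966) (nat_lit 1748) (nat_lit 5473275468) (nat_lit 418) (nat_lit 5) (nat_lit 417) (nat_lit 5) (nat_lit 440) (nat_lit 5) (nat_lit 342) (nat_lit 326) (nat_lit 232))) (XT.nd (nat_lit 78) (nat_lit 1824) (nat_lit 0) (XT.lf (nat_lit 0) (nat_lit 2408362660) (nat_lit 1672) (nat_lit 5822093795) (nat_lit 1748) (nat_lit 3582100878) (nat_lit 396) (nat_lit 5) (nat_lit 418) (nat_lit 5) (nat_lit 419) (nat_lit 5) (nat_lit 343) (nat_lit 326) (nat_lit 231)) (XT.nd (nat_lit 78) (nat_lit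 1824) (nat_lit 0) (XT.lf (nat_lit 0) (nat_lit 10389097776) (nat_lit 1748) (nat_lit 293812851) (nat_lit 76) (nat_lit 1309929624) (nat_lit 396) (nat_lit 5) (nat_lit 419) (nat_lit 5) (nat_lit 397) (nat_lit 5) (nat_lit 344) (nat_lit 326) (nat_lit 230)) (XT.lf (nat_lit 0) (nat_lit 497451412) (nat_lit 1824) (nat_lit 3035242116) (nat_lit 76) (nat_lit 8644412876) (nat_lit 372) (nat_lit 5) (nat_lit 396) (nat_lit 5) (nat_lit 373) (nat_lit 5) (nat_lit 345) (nat_lit 326) (nat_lit 229))))) (XT.nd (nat_lit 156) (nat_lit 1672) (nat_lit 0) (XT.nd (nat_lit 78) (nat_lit 912) (nat_lit 0) (XT.lf (nat_lit 0) (nat_lit 2680713965) (nat_lit 1064) (nat_lit 5844424967) (nat_lit 76) (nat_lit 3840747367) (nat_lit 359) (nat_lit 5) (nat_lit 373) (nat_lit 5) (nat_lit 360) (nat_lit 5) (nat_lit 346) (nat_lit 326) (nat_lit 228)) (XT.lf (nat_lit 0) (nat_lit 3847338295) (nat_lit 912) (nat_lit 1123063831) (nat_lit 988) (nat_lit 7589122696)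 (nat_lit 347) (nat_lit 5) (nat_lit 359) (nat_lit 5) (nat_lit 360) (nat_lit 5) (nat_lit 347) (nat_lit 326) (nat_lit 227))) (XT.nd (nat_lit 78) (nat_lit 836) (nat_lit 0) (XT.lf (nat_lit 0) (nat_lit 1097579827) (nat_lit 836) (nat_lit 6292698462) (nat_lit 912) (nat_lit 5367477651) (nat_lit 336) (nat_lit 5) (nat_lit 347) (nat_lit 5) (nat_lit 348) (nat_lit 5) (nat_lit 348) (nat_lit 326) (nat_lit 226)) (XT.nd (nat_lit 78) (nat_lit 836) (nat_lit 0) (XT.lf (nat_lit 0) (nat_lit 9931050677) (nat_lit 912) (nat_lit 1682336244) (nat_lit 76) (nat_lit 1347594065) (nat_lit 336) (nat_lit 5) (nat_lit 348) (nat_lit 5) (nat_lit 337) (nat_lit 5) (nat_lit 349) (nat_lit 326) (nat_lit 225)) (XT.lf (nat_lit 0) (nat_lit 8640684076) (nat_lit 836) (nat_lit 3979279433) (nat_lit 912) (nat_lit 548913546) (nat_lit 325) (nat_lit 5) (nat_lit 336) (nat_lit 5) (nat_lit 337) (nat_lit 5) (nat_lit 350) (nat_lit 326) (nat_lit 224)))))))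 (XT.nd (nat_lit 780) (nat_lit 4712) (nat_lit 0) (XT.nd (nat_lit 390) (nat_lit 2888) (nat_lit 0) (XT.nd (nat_lit 156) (nat_lit 1520) (nat_lit 0) (XT.nd (nat_lit 78) (nat_lit 760) (nat_lit 0) (XT.lf (nat_lit 0) (nat_lit 2030138814) (nat_lit 836) (nat_lit 7454637991) (nat_lit 76) (nat_lit 3896986230) (nat_lit 314) (nat_lit 5) (nat_lit 325) (nat_lit 5) (nat_lit 315) (nat_lit 5) (nat_lit 351) (nat_lit 326) (nat_lit 223)) (XT.lf (nat_lit 0) (nat_lit 3142950454) (nat_lit 760) (nat_lit 1588850162) (nat_lit 836) (nat_lit 8868120164) (nat_lit 304) (nat_lit 5) (nat_lit 314) (nat_lit 5) (nat_lit 315) (nat_lit 5) (nat_lit 352) (nat_lit 326) (nat_lit 222))) (XT.nd (nat_lit 78) (nat_lit 760) (nat_lit 0) (XT.lf (nat_lit 0) (nat_lit 272102589) (nat_lit 760) (nat_lit 7312832149) (nat_lit 836) (nat_lit 6238291389) (nat_lit 294) (nat_lit 5) (nat_lit 304) (nat_lit 5) (nat_lit 305) (nat_lit 5) (nat_lit 353) (nat_lit 326)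 (nat_lit 221)) (XT.nd (nat_lit 78) (nat_lit 760) (nat_lit 0) (XT.lf (nat_lit 0) (nat_lit 10586466896) (nat_lit 836) (nat_lit 2627315916) (nat_lit 76) (nat_lit 838202732) (nat_lit 294) (nat_lit 5) (nat_lit 305) (nat_lit 5) (nat_lit 295) (nat_lit 5) (nat_lit 354) (nat_lit 326) (nat_lit 220)) (XT.lf (nat_lit 0) (nat_lit 8664068112) (nat_lit 760) (nat_lit 5095704677) (nat_lit 836) (nat_lit 526211069) (nat_lit 284) (nat_lit 5) (nat_lit 294) (nat_lit 5) (nat_lit 295) (nat_lit 5) (nat_lit 355) (nat_lit 326) (nat_lit 219))))) (XT.nd (nat_lit 156) (nat_lit 1444) (nat_lit 0) (XT.nd (nat_lit 78) (nat_lit 684) (nat_lit 0) (XT.lf (nat_lit 0) (nat_lit 2522905944) (nat_lit 760) (nat_lit 8708748865) (nat_lit 76) (nat_lit 3293943970) (nat_lit 274) (nat_lit 5) (nat_lit 284) (nat_lit 5) (nat_lit 275) (nat_lit 5) (nat_lit 356) (nat_lit 326) (nat_lit 218)) (XT.lf (nat_lit 0) (nat_lit 2879179487) (nat_lit 684) (nat_lit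 2845761728) (nat_lit 760) (nat_lit 9046029350) (nat_lit 265) (nat_lit 5) (nat_lit 274) (nat_lit 5) (nat_lit 275) (nat_lit 5) (nat_lit 357) (nat_lit 326) (nat_lit 217))) (XT.nd (nat_lit 78) (nat_lit 1444) (nat_lit 0) (XT.lf (nat_lit 0) (nat_lit 9097962801) (nat_lit 760) (nat_lit 151423038) (nat_lit 76) (nat_lit 5772828734) (nat_lit 265) (nat_lit 5) (nat_lit 275) (nat_lit 5) (nat_lit 266) (nat_lit 5) (nat_lit 358) (nat_lit 326) (nat_lit 216)) (XT.nd (nat_lit 78) (nat_lit 760) (nat_lit 0) (XT.lf (nat_lit 0) (nat_lit 12056109441) (nat_lit 684) (nat_lit 591933494) (nat_lit 760) (nat_lit 2631444901) (nat_lit 256) (nat_lit 5) (nat_lit 265) (nat_lit 5) (nat_lit 266) (nat_lit 5) (nat_lit 359) (nat_lit 326) (nat_lit 215)) (XT.lf (nat_lit 0) (nat_lit 844156614) (nat_lit 760) (nat_lit 6419176729) (nat_lit 76) (nat_lit 8279176497) (nat_lit 246) (nat_lit 5) (nat_lit 256) (nat_lit 5) (nat_lit 247) (nat_lit 5) (nat_lit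 360) (nat_lit 326) (nat_lit 214)))))) (XT.nd (nat_lit 390) (nat_lit 2204) (nat_lit 0) (XT.nd (nat_lit 156) (nat_lit 1292) (nat_lit 0) (XT.nd (nat_lit 78) (nat_lit 608) (nat_lit 0) (XT.lf (nat_lit 0) (nat_lit 4444253006) (nat_lit 684) (nat_lit 9717122277) (nat_lit 76) (nat_lit 1650588373) (nat_lit 238) (nat_lit 5) (nat_lit 247) (nat_lit 5) (nat_lit 239) (nat_lit 5) (nat_lit 361) (nat_lit 326) (nat_lit 213)) (XT.lf (nat_lit 0) (nat_lit 2949290251) (nat_lit 608) (nat_lit 5294322144) (nat_lit 684) (nat_lit 7844071830) (nat_lit 230) (nat_lit 5) (nat_lit 238) (nat_lit 5) (nat_lit 239) (nat_lit 5) (nat_lit 362) (nat_lit 326) (nat_lit 212))) (XT.nd (nat_lit 78) (nat_lit 1292) (nat_lit 0) (XT.lf (nat_lit 0) (nat_lit 12228321601) (nat_lit 684) (nat_lit 291048486) (nat_lit 76) (nat_lit 3850887037) (nat_lit 230) (nat_lit 5) (nat_lit 239) (nat_lit 5) (nat_lit 231) (nat_lit 5) (nat_lit 363) (nat_lit 326) (nat_lit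 211)) (XT.nd (nat_lit 78) (nat_lit 684) (nat_lit 0) (XT.lf (nat_lit 0) (nat_lit 13054185970) (nat_lit 608) (nat_lit 3379288816) (nat_lit 684) (nat_lit 225822231) (nat_lit 222) (nat_lit 5) (nat_lit 230) (nat_lit 5) (nat_lit 231) (nat_lit 5) (nat_lit 364) (nat_lit 326) (nat_lit 210)) (XT.lf (nat_lit 0) (nat_lit 3845066017) (nat_lit 684) (nat_lit 7066267745) (nat_lit 76) (nat_lit 6043442751) (nat_lit 213) (nat_lit 5) (nat_lit 222) (nat_lit 5) (nat_lit 214) (nat_lit 5) (nat_lit 365) (nat_lit 326) (nat_lit 209))))) (XT.nd (nat_lit 156) (nat_lit 1140) (nat_lit 0) (XT.nd (nat_lit 78) (nat_lit 532) (nat_lit 0) (XT.lf (nat_lit 0) (nat_lit 6616975257) (nat_lit 532) (nat_lit 1489604049) (nat_lit 608) (nat_lit 9151087168) (nat_lit 206) (nat_lit 5) (nat_lit 213) (nat_lit 5) (nat_lit 214) (nat_lit 5) (nat_lit 366) (nat_lit 326) (nat_lit 208)) (XT.lf (nat_lit 0) (nat_lit 3203967358) (nat_lit 532) (nat_lit 9396070080)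 (nat_lit 608) (nat_lit 4967530757) (nat_lit 199) (nat_lit 5) (nat_lit 206) (nat_lit 5) (nat_lit 207) (nat_lit 5) (nat_lit 367) (nat_lit 326) (nat_lit 207))) (XT.nd (nat_lit 78) (nat_lit 1140) (nat_lit 0) (XT.lf (nat_lit 0) (nat_lit 17294290314) (nat_lit 608) (nat_lit 310592620) (nat_lit 76) (nat_lit 280571062) (nat_lit 199) (nat_lit 5) (nat_lit 207) (nat_lit 5) (nat_lit 200) (nat_lit 5) (nat_lit 368) (nat_lit 326) (nat_lit 206)) (XT.nd (nat_lit 78) (nat_lit 532) (nat_lit 0) (XT.lf (nat_lit 0) (nat_lit 4004129136) (nat_lit 608) (nat_lit 3970632855) (nat_lit 76) (nat_lit 10234832322) (nat_lit 191) (nat_lit 5) (nat_lit 199) (nat_lit 5) (nat_lit 192) (nat_lit 5) (nat_lit 369) (nat_lit 326) (nat_lit 205)) (XT.lf (nat_lit 0) (nat_lit 8797513562) (nat_lit 608) (nat_lit 7754156212) (nat_lit 76) (nat_lit 1990351952) (nat_lit 184) (nat_lit 5) (nat_lit 192) (nat_lit 5) (nat_lit 185) (nat_lit 5) (nat_lit 370)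 (nat_lit 326) (nat_lit 204))))))))
noncomputable def xc97 : XT := (XT.nd (nat_lit 44070) (nat_lit 0) (nat_lit 12616) (XT.nd (nat_lit 702) (nat_lit 912) (nat_lit 0) (XT.nd (nat_lit 312) (nat_lit 1824) (nat_lit 0) (XT.nd (nat_lit 156) (nat_lit 532) (nat_lit 0) (XT.nd (nat_lit 78) (nat_lit 532) (nat_lit 0) (XT.lf (nat_lit 0) (nat_lit 7177963350) (nat_lit 456) (nat_lit 6666955013) (nat_lit 532) (nat_lit 5037305363) (nat_lit 178) (nat_lit 5) (nat_lit 184) (nat_lit 5) (nat_lit 185) (nat_lit 5) (nat_lit 371) (nat_lit 326) (nat_lit 203)) (XT.lf (nat_lit 0) (nat_lit 3432263013) (nat_lit 532) (nat_lit 15692987991) (nat_lit 608) (nat_lit 105756633) (nat_lit 171) (nat_lit 5) (nat_lit 178) (nat_lit 5) (nat_lit 179) (nat_lit 5) (nat_lit 372) (nat_lit 326) (nat_lit 202))) (XT.nd (nat_lit 78) (nat_lit 456) (nat_lit 0) (XT.lf (nat_lit 0) (nat_lit 5016666209) (nat_lit 608) (nat_lit 505033953) (nat_lit 76) (nat_lit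 14065751540) (nat_lit 170) (nat_lit 5) (nat_lit 178) (nat_lit 5) (nat_lit 171) (nat_lit 5) (nat_lit 373) (nat_lit 326) (nat_lit 201)) (XT.lf (nat_lit 0) (nat_lit 10408511825) (nat_lit 532) (nat_lit 4557987571) (nat_lit 76) (nat_lit 4985737486) (nat_lit 164) (nat_lit 5) (nat_lit 171) (nat_lit 5) (nat_lit 165) (nat_lit 5) (nat_lit 374) (nat_lit 326) (nat_lit 200)))) (XT.nd (nat_lit 156) (nat_lit 836) (nat_lit 0) (XT.nd (nat_lit 78) (nat_lit 532) (nat_lit 0) (XT.lf (nat_lit 0) (nat_lit 11542619043) (nat_lit 456) (nat_lit 4519304768) (nat_lit 532) (nat_lit 4264050936) (nat_lit 158) (nat_lit 5) (nat_lit 164) (nat_lit 5) (nat_lit 165) (nat_lit 5) (nat_lit 375) (nat_lit 326) (nat_lit 199)) (XT.lf (nat_lit 0) (nat_lit 1264487868) (nat_lit 532) (nat_lit 13202253741) (nat_lit 76) (nat_lit 6241918346) (nat_lit 151) (nat_lit 5) (nat_lit 158) (nat_lit 5) (nat_lit 152) (nat_lit 5) (nat_lit 376) (nat_lit 326) (nat_lit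 198))) (XT.nd (nat_lit 78) (nat_lit 380) (nat_lit 0) (XT.lf (nat_lit 0) (nat_lit 3266028671) (nat_lit 456) (nat_lit 3731572419) (nat_lit 532) (nat_lit 14102732865) (nat_lit 145) (nat_lit 5) (nat_lit 151) (nat_lit 5) (nat_lit 152) (nat_lit 5) (nat_lit 377) (nat_lit 326) (nat_lit 197)) (XT.nd (nat_lit 78) (nat_lit 380) (nat_lit 0) (XT.lf (nat_lit 0) (nat_lit 13025567976) (nat_lit 532) (nat_lit 1162094447) (nat_lit 76) (nat_lit 7313643350) (nat_lit 145) (nat_lit 5) (nat_lit 152) (nat_lit 5) (nat_lit 146) (nat_lit 5) (nat_lit 378) (nat_lit 326) (nat_lit 196)) (XT.lf (nat_lit 0) (nat_lit 16177061894) (nat_lit 380) (nat_lit 3172970871) (nat_lit 456) (nat_lit 2561965461) (nat_lit 140) (nat_lit 5) (nat_lit 145) (nat_lit 5) (nat_lit 146) (nat_lit 5) (nat_lit 379) (nat_lit 326) (nat_lit 195)))))) (XT.nd (nat_lit 42978) (nat_lit 0) (nat_lit 23180) (XT.nd (nat_lit 42744) (nat_lit 0) (nat_lit 24548) (XT.nd (nat_lit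 78) (nat_lit 380) (nat_lit 0) (XT.lf (nat_lit 0) (nat_lit 3607257814) (nat_lit 532) (nat_lit 10557546345) (nat_lit 76) (nat_lit 8167266967) (nat_lit 133) (nat_lit 5) (nat_lit 140) (nat_lit 5) (nat_lit 134) (nat_lit 5) (nat_lit 380) (nat_lit 326) (nat_lit 194)) (XT.lf (nat_lit 0) (nat_lit 7158877354) (nat_lit 380) (nat_lit 2860994038) (nat_lit 456) (nat_lit 12742678023) (nat_lit 128) (nat_lit 5) (nat_lit 133) (nat_lit 5) (nat_lit 134) (nat_lit 5) (nat_lit 381) (nat_lit 326) (nat_lit 193))) (XT.nd (nat_lit 78) (nat_lit 0) (nat_lit 0) (XT.lf (nat_lit 0) (nat_lit 2283817278) (nat_lit 1596) (nat_lit 1256089021) (nat_lit 1596) (nat_lit 1256089021) (nat_lit 451) (nat_lit 3) (nat_lit 472) (nat_lit 3) (nat_lit 472) (nat_lit 5) (nat_lit 327) (nat_lit 327) (nat_lit 246)) (XT.nd (nat_lit 78) (nat_lit 0) (nat_lit 76) (XT.lf (nat_lit 76) (nat_lit 4314418402) (nat_lit 0) (nat_lit 1473596997) (nat_lit 1596) (nat_lit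 3924198177) (nat_lit 452) (nat_lit 5) (nat_lit 451) (nat_lit 3) (nat_lit 472) (nat_lit 5) (nat_lit 328) (nat_lit 327) (nat_lit 245)) (XT.lf (nat_lit 76) (nat_lit 1512576993) (nat_lit 0) (nat_lit 5543441408) (nat_lit 1596) (nat_lit 2779828763) (nat_lit 453) (nat_lit 5) (nat_lit 452) (nat_lit 5) (nat_lit 473) (nat_lit 5) (nat_lit 329) (nat_lit 327) (nat_lit 244))))) (XT.nd (nat_lit 156) (nat_lit 1520) (nat_lit 0) (XT.nd (nat_lit 78) (nat_lit 0) (nat_lit 0) (XT.lf (nat_lit 0) (nat_lit 8367666180) (nat_lit 1520) (nat_lit 1294297847) (nat_lit 1596) (nat_lit 301137117) (nat_lit 453) (nat_lit 5) (nat_lit 473) (nat_lit 5) (nat_lit 474) (nat_lit 5) (nat_lit 330) (nat_lit 327) (nat_lit 243)) (XT.lf (nat_lit 76) (nat_lit 5963046683) (nat_lit 0) (nat_lit 3790028090) (nat_lit 1596) (nat_lit 340432535) (nat_lit 454) (nat_lit 5) (nat_lit 453) (nat_lit 5) (nat_lit 474) (nat_lit 5) (nat_lit 331) (nat_lit 327) (nat_lit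 242))) (XT.nd (nat_lit 78) (nat_lit 0) (nat_lit 0) (XT.lf (nat_lit 0) (nat_lit 943998282) (nat_lit 1596) (nat_lit 7002318413) (nat_lit 1672) (nat_lit 2281321671) (nat_lit 433) (nat_lit 5) (nat_lit 454) (nat_lit 5) (nat_lit 455) (nat_lit 5) (nat_lit 332) (nat_lit 327) (nat_lit 241)) (XT.nd (nat_lit 78) (nat_lit 0) (nat_lit 76) (XT.lf (nat_lit 76) (nat_lit 446789713) (nat_lit 0) (nat_lit 1832519497) (nat_lit 1672) (nat_lit 8086120758) (nat_lit 434) (nat_lit 5) (nat_lit 433) (nat_lit 5) (nat_lit 455) (nat_lit 5) (nat_lit 333) (nat_lit 327) (nat_lit 240)) (XT.lf (nat_lit 0) (nat_lit 3693044867) (nat_lit 1596) (nat_lit 2345319111) (nat_lit 1672) (nat_lit 4468244482) (nat_lit 434) (nat_lit 5) (nat_lit 455) (nat_lit 5) (nat_lit 456) (nat_lit 5) (nat_lit 334) (nat_lit 327) (nat_lit 239))))))) (XT.nd (nat_lit 780) (nat_lit 7752) (nat_lit 0) (XT.nd (nat_lit 390) (nat_lit 1444) (nat_lit 0) (XT.nd (nat_lit 156)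 (nat_lit 1520) (nat_lit 0) (XT.nd (nat_lit 78) (nat_lit 0) (nat_lit 0) (XT.lf (nat_lit 0) (nat_lit 5161978500) (nat_lit 1596) (nat_lit 5163125847) (nat_lit 1672) (nat_lit 326682095) (nat_lit 435) (nat_lit 5) (nat_lit 456) (nat_lit 5) (nat_lit 457) (nat_lit 5) (nat_lit 335) (nat_lit 327) (nat_lit 238)) (XT.lf (nat_lit 76) (nat_lit 2759927000) (nat_lit 0) (nat_lit 3953096508) (nat_lit 1672) (nat_lit 4087554666) (nat_lit 436) (nat_lit 5) (nat_lit 435) (nat_lit 5) (nat_lit 457) (nat_lit 5) (nat_lit 336) (nat_lit 327) (nat_lit 237))) (XT.nd (nat_lit 78) (nat_lit 1596) (nat_lit 0) (XT.lf (nat_lit 0) (nat_lit 8327481836) (nat_lit 1596) (nat_lit 3911580) (nat_lit 1672) (nat_lit 2622121315) (nat_lit 436) (nat_lit 5) (nat_lit 457) (nat_lit 5) (nat_lit 458) (nat_lit 5) (nat_lit 337) (nat_lit 327) (nat_lit 236)) (XT.nd (nat_lit 78) (nat_lit 1596) (nat_lit 0) (XT.lf (nat_lit 76) (nat_lit 8332558885) (nat_lit 0)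 (nat_lit 1704096276) (nat_lit 1672) (nat_lit 1073476770) (nat_lit 437) (nat_lit 5) (nat_lit 436) (nat_lit 5) (nat_lit 458) (nat_lit 5) (nat_lit 338) (nat_lit 327) (nat_lit 235)) (XT.lf (nat_lit 0) (nat_lit 555695475) (nat_lit 1672) (nat_lit 5610199454) (nat_lit 1748) (nat_lit 5104763084) (nat_lit 415) (nat_lit 5) (nat_lit 437) (nat_lit 5) (nat_lit 438) (nat_lit 5) (nat_lit 339) (nat_lit 327) (nat_lit 234))))) (XT.nd (nat_lit 156) (nat_lit 1520) (nat_lit 0) (XT.nd (nat_lit 78) (nat_lit 0) (nat_lit 0) (XT.lf (nat_lit 0) (nat_lit 2240597373) (nat_lit 1672) (nat_lit 8490787912) (nat_lit 1748) (nat_lit 704060692) (nat_lit 416) (nat_lit 5) (nat_lit 438) (nat_lit 5) (nat_lit 439) (nat_lit 5) (nat_lit 340) (nat_lit 327) (nat_lit 233)) (XT.lf (nat_lit 76) (nat_lit 164272509) (nat_lit 0) (nat_lit 3860422046) (nat_lit 1748) (nat_lit 7579526362) (nat_lit 417) (nat_lit 5) (nat_lit 416) (nat_lit 5) (nat_lit 439)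 (nat_lit 5) (nat_lit 341) (nat_lit 327) (nat_lit 232))) (XT.nd (nat_lit 78) (nat_lit 1596) (nat_lit 0) (XT.lf (nat_lit 0) (nat_lit 5910009506) (nat_lit 1672) (nat_lit 2628176960) (nat_lit 1748) (nat_lit 3238934570) (nat_lit 417) (nat_lit 5) (nat_lit 439) (nat_lit 5) (nat_lit 440) (nat_lit 5) (nat_lit 342) (nat_lit 327) (nat_lit 231)) (XT.nd (nat_lit 78) (nat_lit 1596) (nat_lit 0) (XT.lf (nat_lit 76) (nat_lit 6482676261) (nat_lit 0) (nat_lit 1406912667) (nat_lit 1748) (nat_lit 4064880495) (nat_lit 418) (nat_lit 5) (nat_lit 417) (nat_lit 5) (nat_lit 440) (nat_lit 5) (nat_lit 343) (nat_lit 327) (nat_lit 230)) (XT.lf (nat_lit 0) (nat_lit 3751862022) (nat_lit 1672) (nat_lit 6228093159) (nat_lit 1748) (nat_lit 2156170011) (nat_lit 396) (nat_lit 5) (nat_lit 418) (nat_lit 5) (nat_lit 419) (nat_lit 5) (nat_lit 344) (nat_lit 327) (nat_lit 229)))))) (XT.nd (nat_lit 390) (nat_lit 3192) (nat_lit 0) (XT.nd (nat_lit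 156) (nat_lit 2736) (nat_lit 0) (XT.nd (nat_lit 78) (nat_lit 76) (nat_lit 0) (XT.lf (nat_lit 0) (nat_lit 975761638) (nat_lit 1748) (nat_lit 11188706540) (nat_lit 1824) (nat_lit 158148225) (nat_lit 373) (nat_lit 5) (nat_lit 396) (nat_lit 5) (nat_lit 397) (nat_lit 5) (nat_lit 345) (nat_lit 327) (nat_lit 228)) (XT.lf (nat_lit 0) (nat_lit 1945501604) (nat_lit 1824) (nat_lit 1861495313) (nat_lit 76) (nat_lit 8706060444) (nat_lit 372) (nat_lit 5) (nat_lit 396) (nat_lit 5) (nat_lit 373) (nat_lit 5) (nat_lit 346) (nat_lit 327) (nat_lit 227))) (XT.nd (nat_lit 78) (nat_lit 1748) (nat_lit 0) (XT.lf (nat_lit 0) (nat_lit 4159591669) (nat_lit 1064) (nat_lit 4745797466) (nat_lit 76) (nat_lit 3802825306) (nat_lit 359) (nat_lit 5) (nat_lit 373) (nat_lit 5) (nat_lit 360) (nat_lit 5) (nat_lit 347) (nat_lit 327) (nat_lit 226)) (XT.nd (nat_lit 78) (nat_lit 836) (nat_lit 0) (XT.lf (nat_lit 0) (nat_lit 5216050203) (nat_lit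 912) (nat_lit 1269325738) (nat_lit 988) (nat_lit 6422957856) (nat_lit 347) (nat_lit 5) (nat_lit 359) (nat_lit 5) (nat_lit 360) (nat_lit 5) (nat_lit 348) (nat_lit 327) (nat_lit 225)) (XT.lf (nat_lit 0) (nat_lit 2391707713) (nat_lit 836) (nat_lit 6553837252) (nat_lit 912) (nat_lit 4167632160) (nat_lit 336) (nat_lit 5) (nat_lit 347) (nat_lit 5) (nat_lit 348) (nat_lit 5) (nat_lit 349) (nat_lit 327) (nat_lit 224))))) (XT.nd (nat_lit 156) (nat_lit 2280) (nat_lit 0) (XT.nd (nat_lit 78) (nat_lit 912) (nat_lit 0) (XT.lf (nat_lit 0) (nat_lit 11523242908) (nat_lit 912) (nat_lit 481367711) (nat_lit 76) (nat_lit 1318692906) (nat_lit 336) (nat_lit 5) (nat_lit 348) (nat_lit 5) (nat_lit 337) (nat_lit 5) (nat_lit 350) (nat_lit 327) (nat_lit 223)) (XT.lf (nat_lit 0) (nat_lit 715561469) (nat_lit 912) (nat_lit 3411716183) (nat_lit 76) (nat_lit 9410676850) (nat_lit 324) (nat_lit 5) (nat_lit 336) (nat_lit 5) (nat_lit 325)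 (nat_lit 5) (nat_lit 351) (nat_lit 327) (nat_lit 222))) (XT.nd (nat_lit 78) (nat_lit 1520) (nat_lit 0) (XT.lf (nat_lit 0) (nat_lit 3335348859) (nat_lit 836) (nat_lit 6424316582) (nat_lit 76) (nat_lit 3998089869) (nat_lit 314) (nat_lit 5) (nat_lit 325) (nat_lit 5) (nat_lit 315) (nat_lit 5) (nat_lit 352) (nat_lit 327) (nat_lit 221)) (XT.nd (nat_lit 78) (nat_lit 760) (nat_lit 0) (XT.lf (nat_lit 0) (nat_lit 4470855496) (nat_lit 760) (nat_lit 1618972557) (nat_lit 836) (nat_lit 7893211116) (nat_lit 304) (nat_lit 5) (nat_lit 314) (nat_lit 5) (nat_lit 315) (nat_lit 5) (nat_lit 353) (nat_lit 327) (nat_lit 220)) (XT.lf (nat_lit 0) (nat_lit 1518231778) (nat_lit 760) (nat_lit 7483053089) (nat_lit 836) (nat_lit 5212320483) (nat_lit 294) (nat_lit 5) (nat_lit 304) (nat_lit 5) (nat_lit 305) (nat_lit 5) (nat_lit 354) (nat_lit 327) (nat_lit 219))))))))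
noncomputable def xc98 : XT := (XT.nd (nat_lit 1482) (nat_lit 2812) (nat_lit 0) (XT.nd (nat_lit 702) (nat_lit 4560) (nat_lit 0) (XT.nd (nat_lit 312) (nat_lit 2660) (nat_lit 0) (XT.nd (nat_lit 156) (nat_lit 1368) (nat_lit 0) (XT.nd (nat_lit 78) (nat_lit 836) (nat_lit 0) (XT.lf (nat_lit 0) (nat_lit 12058547593) (nat_lit 836) (nat_lit 1480927173) (nat_lit 76) (nat_lit 910454862) (nat_lit 294) (nat_lit 5) (nat_lit 305) (nat_lit 5) (nat_lit 295) (nat_lit 5) (nat_lit 355) (nat_lit 327) (nat_lit 218)) (XT.lf (nat_lit 0) (nat_lit 601776148) (nat_lit 836) (nat_lit 4566117431) (nat_lit 76) (nat_lit 9523506444) (nat_lit 283) (nat_lit 5) (nat_lit 294) (nat_lit 5) (nat_lit 284) (nat_lit 5) (nat_lit 356) (nat_lit 327) (nat_lit 217))) (XT.nd (nat_lit 78) (nat_lit 684) (nat_lit 0) (XT.lf (nat_lit 0) (nat_lit 3710532908) (nat_lit 760) (nat_lit 7746752666) (nat_lit 76) (nat_lit 3481356522) (nat_lit 274) (nat_lit 5)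 (nat_lit 284) (nat_lit 5) (nat_lit 275) (nat_lit 5) (nat_lit 357) (nat_lit 327) (nat_lit 216)) (XT.lf (nat_lit 0) (nat_lit 4168967618) (nat_lit 684) (nat_lit 2815088377) (nat_lit 760) (nat_lit 8207824657) (nat_lit 265) (nat_lit 5) (nat_lit 274) (nat_lit 5) (nat_lit 275) (nat_lit 5) (nat_lit 358) (nat_lit 327) (nat_lit 215)))) (XT.nd (nat_lit 156) (nat_lit 1976) (nat_lit 0) (XT.nd (nat_lit 78) (nat_lit 0) (nat_lit 0) (XT.lf (nat_lit 0) (nat_lit 1046967700) (nat_lit 684) (nat_lit 9387158770) (nat_lit 760) (nat_lit 5017032083) (nat_lit 256) (nat_lit 5) (nat_lit 265) (nat_lit 5) (nat_lit 266) (nat_lit 5) (nat_lit 359) (nat_lit 327) (nat_lit 214)) (XT.lf (nat_lit 0) (nat_lit 13587701591) (nat_lit 684) (nat_lit 473035910) (nat_lit 760) (nat_lit 1656025283) (nat_lit 256) (nat_lit 5) (nat_lit 265) (nat_lit 5) (nat_lit 266) (nat_lit 5) (nat_lit 360) (nat_lit 327) (nat_lit 213))) (XT.nd (nat_lit 78) (nat_lit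 1216) (nat_lit 0) (XT.lf (nat_lit 0) (nat_lit 1888228501) (nat_lit 760) (nat_lit 5426967380) (nat_lit 76) (nat_lit 8672791102) (nat_lit 246) (nat_lit 5) (nat_lit 256) (nat_lit 5) (nat_lit 247) (nat_lit 5) (nat_lit 361) (nat_lit 327) (nat_lit 212)) (XT.nd (nat_lit 78) (nat_lit 608) (nat_lit 0) (XT.lf (nat_lit 0) (nat_lit 5575319888) (nat_lit 684) (nat_lit 8823826029) (nat_lit 76) (nat_lit 1866810983) (nat_lit 238) (nat_lit 5) (nat_lit 247) (nat_lit 5) (nat_lit 239) (nat_lit 5) (nat_lit 362) (nat_lit 327) (nat_lit 211)) (XT.lf (nat_lit 0) (nat_lit 4203356742) (nat_lit 608) (nat_lit 5263810717) (nat_lit 684) (nat_lit 7083223444) (nat_lit 230) (nat_lit 5) (nat_lit 238) (nat_lit 5) (nat_lit 239) (nat_lit 5) (nat_lit 363) (nat_lit 327) (nat_lit 210)))))) (XT.nd (nat_lit 390) (nat_lit 2204) (nat_lit 0) (XT.nd (nat_lit 156) (nat_lit 1672) (nat_lit 0) (XT.nd (nat_lit 78) (nat_lit 76) (nat_lit 0) (XT.lf (nat_lit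 0) (nat_lit 861304871) (nat_lit 608) (nat_lit 12688464386) (nat_lit 684) (nat_lit 3292116327) (nat_lit 222) (nat_lit 5) (nat_lit 230) (nat_lit 5) (nat_lit 231) (nat_lit 5) (nat_lit 364) (nat_lit 327) (nat_lit 209)) (XT.lf (nat_lit 0) (nat_lit 705684099) (nat_lit 684) (nat_lit 2567822154) (nat_lit 76) (nat_lit 13866526627) (nat_lit 221) (nat_lit 5) (nat_lit 230) (nat_lit 5) (nat_lit 222) (nat_lit 5) (nat_lit 365) (nat_lit 327) (nat_lit 208))) (XT.nd (nat_lit 78) (nat_lit 1064) (nat_lit 0) (XT.lf (nat_lit 0) (nat_lit 4877079344) (nat_lit 684) (nat_lit 6135582762) (nat_lit 76) (nat_lit 6432066570) (nat_lit 213) (nat_lit 5) (nat_lit 222) (nat_lit 5) (nat_lit 214) (nat_lit 5) (nat_lit 366) (nat_lit 327) (nat_lit 207)) (XT.nd (nat_lit 78) (nat_lit 532) (nat_lit 0) (XT.lf (nat_lit 0) (nat_lit 7939619018) (nat_lit 532) (nat_lit 1307418766) (nat_lit 608) (nat_lit 8510065981) (nat_lit 206) (nat_lit 5) (nat_lit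 213) (nat_lit 5) (nat_lit 214) (nat_lit 5) (nat_lit 367) (nat_lit 327) (nat_lit 206)) (XT.lf (nat_lit 0) (nat_lit 4422529946) (nat_lit 532) (nat_lit 9435353654) (nat_lit 608) (nat_lit 4218777381) (nat_lit 199) (nat_lit 5) (nat_lit 206) (nat_lit 5) (nat_lit 207) (nat_lit 5) (nat_lit 368) (nat_lit 327) (nat_lit 205))))) (XT.nd (nat_lit 156) (nat_lit 1596) (nat_lit 0) (XT.nd (nat_lit 78) (nat_lit 0) (nat_lit 0) (XT.lf (nat_lit 0) (nat_lit 266028844) (nat_lit 608) (nat_lit 17610056779) (nat_lit 76) (nat_lit 528351117) (nat_lit 191) (nat_lit 5) (nat_lit 199) (nat_lit 5) (nat_lit 192) (nat_lit 5) (nat_lit 369) (nat_lit 327) (nat_lit 204)) (XT.lf (nat_lit 0) (nat_lit 4968000812) (nat_lit 608) (nat_lit 2990531006) (nat_lit 76) (nat_lit 10780163610) (nat_lit 191) (nat_lit 5) (nat_lit 199) (nat_lit 5) (nat_lit 192) (nat_lit 5) (nat_lit 370) (nat_lit 327) (nat_lit 203))) (XT.nd (nat_lit 78) (nat_lit 1064) (nat_lit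 0) (XT.lf (nat_lit 0) (nat_lit 9889289562) (nat_lit 608) (nat_lit 6890223949) (nat_lit 76) (nat_lit 2301909177) (nat_lit 184) (nat_lit 5) (nat_lit 192) (nat_lit 5) (nat_lit 185) (nat_lit 5) (nat_lit 371) (nat_lit 327) (nat_lit 202)) (XT.nd (nat_lit 78) (nat_lit 608) (nat_lit 0) (XT.lf (nat_lit 0) (nat_lit 8472068866) (nat_lit 456) (nat_lit 6598939556) (nat_lit 532) (nat_lit 4361173303) (nat_lit 178) (nat_lit 5) (nat_lit 184) (nat_lit 5) (nat_lit 185) (nat_lit 5) (nat_lit 372) (nat_lit 327) (nat_lit 201)) (XT.lf (nat_lit 0) (nat_lit 693853995) (nat_lit 608) (nat_lit 15185276601) (nat_lit 76) (nat_lit 3912514611) (nat_lit 170) (nat_lit 5) (nat_lit 178) (nat_lit 5) (nat_lit 171) (nat_lit 5) (nat_lit 373) (nat_lit 327) (nat_lit 200))))))) (XT.nd (nat_lit 43446) (nat_lit 0) (nat_lit 21356) (XT.nd (nat_lit 390) (nat_lit 912) (nat_lit 0) (XT.nd (nat_lit 156) (nat_lit 1444) (nat_lit 0) (XT.nd (nat_lit 78)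 (nat_lit 0) (nat_lit 0) (XT.lf (nat_lit 0) (nat_lit 541994372) (nat_lit 456) (nat_lit 5406705082) (nat_lit 532) (nat_lit 14210473572) (nat_lit 164) (nat_lit 5) (nat_lit 170) (nat_lit 5) (nat_lit 171) (nat_lit 5) (nat_lit 374) (nat_lit 327) (nat_lit 199)) (XT.lf (nat_lit 0) (nat_lit 11484650999) (nat_lit 532) (nat_lit 3643059045) (nat_lit 76) (nat_lit 5407552615) (nat_lit 164) (nat_lit 5) (nat_lit 171) (nat_lit 5) (nat_lit 165) (nat_lit 5) (nat_lit 375) (nat_lit 327) (nat_lit 198))) (XT.nd (nat_lit 78) (nat_lit 988) (nat_lit 0) (XT.lf (nat_lit 0) (nat_lit 12923503701) (nat_lit 456) (nat_lit 4368629949) (nat_lit 532) (nat_lit 3628397323) (nat_lit 158) (nat_lit 5) (nat_lit 164) (nat_lit 5) (nat_lit 165) (nat_lit 5) (nat_lit 376) (nat_lit 327) (nat_lit 197)) (XT.nd (nat_lit 78) (nat_lit 456) (nat_lit 0) (XT.lf (nat_lit 0) (nat_lit 2042589277) (nat_lit 532) (nat_lit 12557272807) (nat_lit 76) (nat_lit 6715010689)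 (nat_lit 151) (nat_lit 5) (nat_lit 158) (nat_lit 5) (nat_lit 152) (nat_lit 5) (nat_lit 377) (nat_lit 327) (nat_lit 196)) (XT.lf (nat_lit 0) (nat_lit 4388168302) (nat_lit 456) (nat_lit 3544618857) (nat_lit 532) (nat_lit 13785815106) (nat_lit 145) (nat_lit 5) (nat_lit 151) (nat_lit 5) (nat_lit 152) (nat_lit 5) (nat_lit 378) (nat_lit 327) (nat_lit 195))))) (XT.nd (nat_lit 156) (nat_lit 532) (nat_lit 0) (XT.nd (nat_lit 78) (nat_lit 380) (nat_lit 0) (XT.lf (nat_lit 0) (nat_lit 14122353168) (nat_lit 532) (nat_lit 190200175) (nat_lit 76) (nat_lit 7819441580) (nat_lit 145) (nat_lit 5) (nat_lit 152) (nat_lit 5) (nat_lit 146) (nat_lit 5) (nat_lit 379) (nat_lit 327) (nat_lit 194)) (XT.lf (nat_lit 0) (nat_lit 17652797418) (nat_lit 380) (nat_lit 2969621335) (nat_lit 456) (nat_lit 1932878750) (nat_lit 140) (nat_lit 5) (nat_lit 145) (nat_lit 5) (nat_lit 146) (nat_lit 5) (nat_lit 380) (nat_lit 327) (nat_lit 193)))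 (XT.nd (nat_lit 42744) (nat_lit 0) (nat_lit 24168) (XT.lf (nat_lit 0) (nat_lit 4400211078) (nat_lit 532) (nat_lit 9878679822) (nat_lit 76) (nat_lit 8709235419) (nat_lit 133) (nat_lit 5) (nat_lit 140) (nat_lit 5) (nat_lit 134) (nat_lit 5) (nat_lit 381) (nat_lit 327) (nat_lit 192)) (XT.nd (nat_lit 78) (nat_lit 0) (nat_lit 0) (XT.lf (nat_lit 0) (nat_lit 3465382881) (nat_lit 1596) (nat_lit 725808817) (nat_lit 1596) (nat_lit 725808817) (nat_lit 451) (nat_lit 3) (nat_lit 472) (nat_lit 3) (nat_lit 472) (nat_lit 5) (nat_lit 328) (nat_lit 328) (nat_lit 244)) (XT.lf (nat_lit 76) (nat_lit 5561347658) (nat_lit 0) (nat_lit 2568827975) (nat_lit 1596) (nat_lit 1828842415) (nat_lit 452) (nat_lit 5) (nat_lit 451) (nat_lit 3) (nat_lit 472) (nat_lit 5) (nat_lit 329) (nat_lit 328) (nat_lit 243)))))) (XT.nd (nat_lit 390) (nat_lit 1292) (nat_lit 0) (XT.nd (nat_lit 156) (nat_lit 0) (nat_lit 76) (XT.nd (nat_lit 78) (nat_lit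 1596) (nat_lit 0) (XT.lf (nat_lit 76) (nat_lit 2707873151) (nat_lit 0) (nat_lit 6666025656) (nat_lit 1596) (nat_lit 713742940) (nat_lit 453) (nat_lit 5) (nat_lit 452) (nat_lit 5) (nat_lit 473) (nat_lit 5) (nat_lit 330) (nat_lit 328) (nat_lit 242)) (XT.lf (nat_lit 0) (nat_lit 435704739) (nat_lit 1596) (nat_lit 175506369) (nat_lit 1672) (nat_lit 9608746326) (nat_lit 431) (nat_lit 5) (nat_lit 452) (nat_lit 5) (nat_lit 453) (nat_lit 5) (nat_lit 331) (nat_lit 328) (nat_lit 241))) (XT.nd (nat_lit 78) (nat_lit 0) (nat_lit 76) (XT.lf (nat_lit 0) (nat_lit 1655068390) (nat_lit 1596) (nat_lit 3078852955) (nat_lit 1672) (nat_lit 5621345364) (nat_lit 432) (nat_lit 5) (nat_lit 453) (nat_lit 5) (nat_lit 454) (nat_lit 5) (nat_lit 332) (nat_lit 328) (nat_lit 240)) (XT.nd (nat_lit 78) (nat_lit 0) (nat_lit 0) (XT.lf (nat_lit 0) (nat_lit 2917473449) (nat_lit 1596) (nat_lit 6012964313) (nat_lit 1672) (nat_lit 1564088741)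 (nat_lit 433) (nat_lit 5) (nat_lit 454) (nat_lit 5) (nat_lit 455) (nat_lit 5) (nat_lit 333) (nat_lit 328) (nat_lit 239)) (XT.lf (nat_lit 76) (nat_lit 1640157834) (nat_lit 0) (nat_lit 2603691977) (nat_lit 1672) (nat_lit 6393612151) (nat_lit 434) (nat_lit 5) (nat_lit 433) (nat_lit 5) (nat_lit 455) (nat_lit 5) (nat_lit 334) (nat_lit 328) (nat_lit 238))))) (XT.nd (nat_lit 156) (nat_lit 1520) (nat_lit 0) (XT.nd (nat_lit 78) (nat_lit 0) (nat_lit 0) (XT.lf (nat_lit 0) (nat_lit 5640254949) (nat_lit 1596) (nat_lit 1227770568) (nat_lit 1672) (nat_lit 3916074492) (nat_lit 434) (nat_lit 5) (nat_lit 455) (nat_lit 5) (nat_lit 456) (nat_lit 5) (nat_lit 335) (nat_lit 328) (nat_lit 237)) (XT.lf (nat_lit 76) (nat_lit 6824214108) (nat_lit 0) (nat_lit 280928415) (nat_lit 1672) (nat_lit 3829481585) (nat_lit 435) (nat_lit 5) (nat_lit 434) (nat_lit 5) (nat_lit 456) (nat_lit 5) (nat_lit 336) (nat_lit 328) (nat_lit 236)))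 (XT.nd (nat_lit 78) (nat_lit 1596) (nat_lit 0) (XT.lf (nat_lit 76) (nat_lit 4032536783) (nat_lit 0) (nat_lit 4624049755) (nat_lit 1672) (nat_lit 2432243364) (nat_lit 436) (nat_lit 5) (nat_lit 435) (nat_lit 5) (nat_lit 457) (nat_lit 5) (nat_lit 337) (nat_lit 328) (nat_lit 235)) (XT.nd (nat_lit 78) (nat_lit 1672) (nat_lit 0) (XT.lf (nat_lit 76) (nat_lit 1205139684) (nat_lit 0) (nat_lit 9067938780) (nat_lit 1672) (nat_lit 974230956) (nat_lit 437) (nat_lit 5) (nat_lit 436) (nat_lit 5) (nat_lit 458) (nat_lit 5) (nat_lit 338) (nat_lit 328) (nat_lit 234)) (XT.lf (nat_lit 0) (nat_lit 566987805) (nat_lit 1672) (nat_lit 1656830965) (nat_lit 1748) (nat_lit 9185745152) (nat_lit 414) (nat_lit 5) (nat_lit 436) (nat_lit 5) (nat_lit 437) (nat_lit 5) (nat_lit 339) (nat_lit 328) (nat_lit 233))))))))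
noncomputable def xc99 : XT := (XT.nd (nat_lit 1482) (nat_lit 9348) (nat_lit 0) (XT.nd (nat_lit 702) (nat_lit 6460) (nat_lit 0) (XT.nd (nat_lit 312) (nat_lit 4256) (nat_lit 0) (XT.nd (nat_lit 156) (nat_lit 0) (nat_lit 76) (XT.nd (nat_lit 78) (nat_lit 0) (nat_lit 76) (XT.lf (nat_lit 0) (nat_lit 2187025739) (nat_lit 1672) (nat_lit 4564998349) (nat_lit 1748) (nat_lit 4823633109) (nat_lit 415) (nat_lit 5) (nat_lit 437) (nat_lit 5) (nat_lit 438) (nat_lit 5) (nat_lit 340) (nat_lit 328) (nat_lit 232)) (XT.lf (nat_lit 0) (nat_lit 3880719492) (nat_lit 1672) (nat_lit 7516903916) (nat_lit 1748) (nat_lit 348624595) (nat_lit 416) (nat_lit 5) (nat_lit 438) (nat_lit 5) (nat_lit 439) (nat_lit 5) (nat_lit 341) (nat_lit 328) (nat_lit 231))) (XT.nd (nat_lit 78) (nat_lit 0) (nat_lit 76) (XT.lf (nat_lit 76) (nat_lit 1377875619) (nat_lit 0) (nat_lit 4302498747) (nat_lit 1748) (nat_lit 6240494526) (nat_lit 417) (nat_lit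 5) (nat_lit 416) (nat_lit 5) (nat_lit 439) (nat_lit 5) (nat_lit 342) (nat_lit 328) (nat_lit 230)) (XT.lf (nat_lit 0) (nat_lit 7575485181) (nat_lit 1672) (nat_lit 1500933035) (nat_lit 1748) (nat_lit 3023495784) (nat_lit 417) (nat_lit 5) (nat_lit 439) (nat_lit 5) (nat_lit 440) (nat_lit 5) (nat_lit 343) (nat_lit 328) (nat_lit 229)))) (XT.nd (nat_lit 156) (nat_lit 2812) (nat_lit 0) (XT.nd (nat_lit 78) (nat_lit 1596) (nat_lit 0) (XT.lf (nat_lit 76) (nat_lit 7863678418) (nat_lit 0) (nat_lit 1715132340) (nat_lit 1748) (nat_lit 2704506958) (nat_lit 418) (nat_lit 5) (nat_lit 417) (nat_lit 5) (nat_lit 440) (nat_lit 5) (nat_lit 344) (nat_lit 328) (nat_lit 228)) (XT.lf (nat_lit 0) (nat_lit 5062691502) (nat_lit 1672) (nat_lit 6632992840) (nat_lit 1748) (nat_lit 775484300) (nat_lit 396) (nat_lit 5) (nat_lit 418) (nat_lit 5) (nat_lit 419) (nat_lit 5) (nat_lit 345) (nat_lit 328) (nat_lit 227))) (XT.nd (nat_lit 78)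 (nat_lit 988) (nat_lit 0) (XT.lf (nat_lit 0) (nat_lit 1230628791) (nat_lit 1824) (nat_lit 10458237688) (nat_lit 76) (nat_lit 974942543) (nat_lit 372) (nat_lit 5) (nat_lit 396) (nat_lit 5) (nat_lit 373) (nat_lit 5) (nat_lit 346) (nat_lit 328) (nat_lit 226)) (XT.nd (nat_lit 78) (nat_lit 988) (nat_lit 0) (XT.lf (nat_lit 0) (nat_lit 3354725970) (nat_lit 1824) (nat_lit 725141034) (nat_lit 76) (nat_lit 8780905357) (nat_lit 372) (nat_lit 5) (nat_lit 396) (nat_lit 5) (nat_lit 373) (nat_lit 5) (nat_lit 347) (nat_lit 328) (nat_lit 225)) (XT.lf (nat_lit 0) (nat_lit 5602558593) (nat_lit 1064) (nat_lit 3687341669) (nat_lit 76) (nat_lit 3772556703) (nat_lit 359) (nat_lit 5) (nat_lit 373) (nat_lit 5) (nat_lit 360) (nat_lit 5) (nat_lit 348) (nat_lit 328) (nat_lit 224)))))) (XT.nd (nat_lit 390) (nat_lit 3040) (nat_lit 0) (XT.nd (nat_lit 156) (nat_lit 1672) (nat_lit 0) (XT.nd (nat_lit 78) (nat_lit 836) (nat_lit 0)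 (XT.lf (nat_lit 0) (nat_lit 6553879393) (nat_lit 912) (nat_lit 1413513523) (nat_lit 988) (nat_lit 5301820105) (nat_lit 347) (nat_lit 5) (nat_lit 359) (nat_lit 5) (nat_lit 360) (nat_lit 5) (nat_lit 349) (nat_lit 328) (nat_lit 223)) (XT.lf (nat_lit 0) (nat_lit 3652261368) (nat_lit 836) (nat_lit 6818656571) (nat_lit 912) (nat_lit 3009910800) (nat_lit 336) (nat_lit 5) (nat_lit 347) (nat_lit 5) (nat_lit 348) (nat_lit 5) (nat_lit 350) (nat_lit 328) (nat_lit 222))) (XT.nd (nat_lit 78) (nat_lit 836) (nat_lit 0) (XT.lf (nat_lit 0) (nat_lit 692879418) (nat_lit 836) (nat_lit 12400524261) (nat_lit 912) (nat_lit 604523693) (nat_lit 325) (nat_lit 5) (nat_lit 336) (nat_lit 5) (nat_lit 337) (nat_lit 5) (nat_lit 351) (nat_lit 328) (nat_lit 221)) (XT.nd (nat_lit 78) (nat_lit 760) (nat_lit 0) (XT.lf (nat_lit 0) (nat_lit 1937449983) (nat_lit 912) (nat_lit 2337093630) (nat_lit 76) (nat_lit 9644983325) (nat_lit 324) (nat_lit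 5) (nat_lit 336) (nat_lit 5) (nat_lit 325) (nat_lit 5) (nat_lit 352) (nat_lit 328) (nat_lit 220)) (XT.lf (nat_lit 0) (nat_lit 4608286958) (nat_lit 836) (nat_lit 5435067996) (nat_lit 76) (nat_lit 4103133942) (nat_lit 314) (nat_lit 5) (nat_lit 325) (nat_lit 5) (nat_lit 315) (nat_lit 5) (nat_lit 353) (nat_lit 328) (nat_lit 219))))) (XT.nd (nat_lit 156) (nat_lit 1520) (nat_lit 0) (XT.nd (nat_lit 78) (nat_lit 760) (nat_lit 0) (XT.lf (nat_lit 0) (nat_lit 5767783054) (nat_lit 760) (nat_lit 1651005670) (nat_lit 836) (nat_lit 6960290555) (nat_lit 304) (nat_lit 5) (nat_lit 314) (nat_lit 5) (nat_lit 315) (nat_lit 5) (nat_lit 354) (nat_lit 328) (nat_lit 218)) (XT.lf (nat_lit 0) (nat_lit 2730680523) (nat_lit 760) (nat_lit 7661202872) (nat_lit 836) (nat_lit 4225208480) (nat_lit 294) (nat_lit 5) (nat_lit 304) (nat_lit 5) (nat_lit 305) (nat_lit 5) (nat_lit 355) (nat_lit 328) (nat_lit 217))) (XT.nd (nat_lit 78) (nat_lit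 1520) (nat_lit 0) (XT.lf (nat_lit 0) (nat_lit 13508518453) (nat_lit 836) (nat_lit 370478731) (nat_lit 76) (nat_lit 982170477) (nat_lit 294) (nat_lit 5) (nat_lit 305) (nat_lit 5) (nat_lit 295) (nat_lit 5) (nat_lit 356) (nat_lit 328) (nat_lit 216)) (XT.nd (nat_lit 78) (nat_lit 684) (nat_lit 0) (XT.lf (nat_lit 0) (nat_lit 1691245360) (nat_lit 836) (nat_lit 3552250939) (nat_lit 76) (nat_lit 9866745707) (nat_lit 283) (nat_lit 5) (nat_lit 294) (nat_lit 5) (nat_lit 284) (nat_lit 5) (nat_lit 357) (nat_lit 328) (nat_lit 215)) (XT.lf (nat_lit 0) (nat_lit 4869958787) (nat_lit 760) (nat_lit 6826116633) (nat_lit 76) (nat_lit 3669305779) (nat_lit 274) (nat_lit 5) (nat_lit 284) (nat_lit 5) (nat_lit 275) (nat_lit 5) (nat_lit 358) (nat_lit 328) (nat_lit 214))))))) (XT.nd (nat_lit 780) (nat_lit 4180) (nat_lit 0) (XT.nd (nat_lit 390) (nat_lit 2432) (nat_lit 0) (XT.nd (nat_lit 156) (nat_lit 1368) (nat_lit 0) (XT.nd (nat_lit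 78) (nat_lit 684) (nat_lit 0) (XT.lf (nat_lit 0) (nat_lit 5428368578) (nat_lit 684) (nat_lit 2790156352) (nat_lit 760) (nat_lit 7408168574) (nat_lit 265) (nat_lit 5) (nat_lit 274) (nat_lit 5) (nat_lit 275) (nat_lit 5) (nat_lit 359) (nat_lit 328) (nat_lit 213)) (XT.lf (nat_lit 0) (nat_lit 2214210582) (nat_lit 684) (nat_lit 9536098204) (nat_lit 760) (nat_lit 4143889681) (nat_lit 256) (nat_lit 5) (nat_lit 265) (nat_lit 5) (nat_lit 266) (nat_lit 5) (nat_lit 360) (nat_lit 328) (nat_lit 212))) (XT.nd (nat_lit 78) (nat_lit 1368) (nat_lit 0) (XT.lf (nat_lit 0) (nat_lit 15098083950) (nat_lit 684) (nat_lit 358415989) (nat_lit 760) (nat_lit 711867824) (nat_lit 256) (nat_lit 5) (nat_lit 265) (nat_lit 5) (nat_lit 266) (nat_lit 5) (nat_lit 361) (nat_lit 328) (nat_lit 211)) (XT.nd (nat_lit 78) (nat_lit 608) (nat_lit 0) (XT.lf (nat_lit 0) (nat_lit 2905142288) (nat_lit 760) (nat_lit 4473003236) (nat_lit 76) (nat_lit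 9069876816) (nat_lit 246) (nat_lit 5) (nat_lit 256) (nat_lit 5) (nat_lit 247) (nat_lit 5) (nat_lit 362) (nat_lit 328) (nat_lit 210)) (XT.lf (nat_lit 0) (nat_lit 6683044459) (nat_lit 684) (nat_lit 7971743828) (nat_lit 76) (nat_lit 2079950724) (nat_lit 238) (nat_lit 5) (nat_lit 247) (nat_lit 5) (nat_lit 239) (nat_lit 5) (nat_lit 363) (nat_lit 328) (nat_lit 209))))) (XT.nd (nat_lit 156) (nat_lit 1216) (nat_lit 0) (XT.nd (nat_lit 78) (nat_lit 608) (nat_lit 0) (XT.lf (nat_lit 0) (nat_lit 5428135721) (nat_lit 608) (nat_lit 5243252901) (nat_lit 684) (nat_lit 6356733871) (nat_lit 230) (nat_lit 5) (nat_lit 238) (nat_lit 5) (nat_lit 239) (nat_lit 5) (nat_lit 364) (nat_lit 328) (nat_lit 208)) (XT.lf (nat_lit 0) (nat_lit 1985333036) (nat_lit 608) (nat_lit 12872588497) (nat_lit 684) (nat_lit 2470822371) (nat_lit 222) (nat_lit 5) (nat_lit 230) (nat_lit 5) (nat_lit 231) (nat_lit 5) (nat_lit 365) (nat_lit 328) (nat_lit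 207))) (XT.nd (nat_lit 78) (nat_lit 1140) (nat_lit 0) (XT.lf (nat_lit 0) (nat_lit 1608399018) (nat_lit 684) (nat_lit 1566591146) (nat_lit 76) (nat_lit 14461265335) (nat_lit 221) (nat_lit 5) (nat_lit 230) (nat_lit 5) (nat_lit 222) (nat_lit 5) (nat_lit 366) (nat_lit 328) (nat_lit 206)) (XT.nd (nat_lit 78) (nat_lit 532) (nat_lit 0) (XT.lf (nat_lit 0) (nat_lit 5887432960) (nat_lit 684) (nat_lit 5242571335) (nat_lit 76) (nat_lit 6820448058) (nat_lit 213) (nat_lit 5) (nat_lit 222) (nat_lit 5) (nat_lit 214) (nat_lit 5) (nat_lit 367) (nat_lit 328) (nat_lit 205)) (XT.lf (nat_lit 0) (nat_lit 9237412172) (nat_lit 532) (nat_lit 1132791387) (nat_lit 608) (nat_lit 7902370693) (nat_lit 206) (nat_lit 5) (nat_lit 213) (nat_lit 5) (nat_lit 214) (nat_lit 5) (nat_lit 368) (nat_lit 328) (nat_lit 204)))))) (XT.nd (nat_lit 390) (nat_lit 2052) (nat_lit 0) (XT.nd (nat_lit 156) (nat_lit 988) (nat_lit 0) (XT.nd (nat_lit 78)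 (nat_lit 608) (nat_lit 0) (XT.lf (nat_lit 0) (nat_lit 5613216559) (nat_lit 532) (nat_lit 9489741883) (nat_lit 608) (nat_lit 3499097609) (nat_lit 199) (nat_lit 5) (nat_lit 206) (nat_lit 5) (nat_lit 207) (nat_lit 5) (nat_lit 369) (nat_lit 328) (nat_lit 203)) (XT.lf (nat_lit 0) (nat_lit 1093182333) (nat_lit 608) (nat_lit 17071153788) (nat_lit 76) (nat_lit 775547590) (nat_lit 191) (nat_lit 5) (nat_lit 199) (nat_lit 5) (nat_lit 192) (nat_lit 5) (nat_lit 370) (nat_lit 328) (nat_lit 202))) (XT.nd (nat_lit 78) (nat_lit 988) (nat_lit 0) (XT.lf (nat_lit 0) (nat_lit 5912354063) (nat_lit 608) (nat_lit 2044125874) (nat_lit 76) (nat_lit 11328176227) (nat_lit 191) (nat_lit 5) (nat_lit 199) (nat_lit 5) (nat_lit 192) (nat_lit 5) (nat_lit 371) (nat_lit 328) (nat_lit 201)) (XT.nd (nat_lit 78) (nat_lit 456) (nat_lit 0) (XT.lf (nat_lit 0) (nat_lit 10966296831) (nat_lit 608) (nat_lit 6063320572) (nat_lit 76) (nat_lit 2608356089)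 (nat_lit 184) (nat_lit 5) (nat_lit 192) (nat_lit 5) (nat_lit 185) (nat_lit 5) (nat_lit 372) (nat_lit 328) (nat_lit 200)) (XT.lf (nat_lit 0) (nat_lit 9743071931) (nat_lit 456) (nat_lit 6544269316) (nat_lit 532) (nat_lit 3712244886) (nat_lit 178) (nat_lit 5) (nat_lit 184) (nat_lit 5) (nat_lit 185) (nat_lit 5) (nat_lit 373) (nat_lit 328) (nat_lit 199))))) (XT.nd (nat_lit 156) (nat_lit 988) (nat_lit 0) (XT.nd (nat_lit 78) (nat_lit 456) (nat_lit 0) (XT.lf (nat_lit 0) (nat_lit 1470023277) (nat_lit 608) (nat_lit 14616494131) (nat_lit 76) (nat_lit 4283506430) (nat_lit 170) (nat_lit 5) (nat_lit 178) (nat_lit 5) (nat_lit 171) (nat_lit 5) (nat_lit 374) (nat_lit 328) (nat_lit 198)) (XT.lf (nat_lit 0) (nat_lit 1565976260) (nat_lit 456) (nat_lit 5301080048) (nat_lit 532) (nat_lit 13881838018) (nat_lit 164) (nat_lit 5) (nat_lit 170) (nat_lit 5) (nat_lit 171) (nat_lit 5) (nat_lit 375) (nat_lit 328) (nat_lit 197)))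 (XT.nd (nat_lit 78) (nat_lit 988) (nat_lit 0) (XT.lf (nat_lit 0) (nat_lit 12549224291) (nat_lit 532) (nat_lit 2761052718) (nat_lit 76) (nat_lit 5826394337) (nat_lit 164) (nat_lit 5) (nat_lit 171) (nat_lit 5) (nat_lit 165) (nat_lit 5) (nat_lit 376) (nat_lit 328) (nat_lit 196)) (XT.nd (nat_lit 78) (nat_lit 532) (nat_lit 0) (XT.lf (nat_lit 0) (nat_lit 14286424277) (nat_lit 456) (nat_lit 4229867034) (nat_lit 532) (nat_lit 3017506439) (nat_lit 158) (nat_lit 5) (nat_lit 164) (nat_lit 5) (nat_lit 165) (nat_lit 5) (nat_lit 377) (nat_lit 328) (nat_lit 195)) (XT.lf (nat_lit 0) (nat_lit 2801545128) (nat_lit 532) (nat_lit 11952702890) (nat_lit 76) (nat_lit 7185887717) (nat_lit 151) (nat_lit 5) (nat_lit 158) (nat_lit 5) (nat_lit 152) (nat_lit 5) (nat_lit 378) (nat_lit 328) (nat_lit 194))))))))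
noncomputable def xc100 : XT := (XT.nd (nat_lit 44226) (nat_lit 0) (nat_lit 7448) (XT.nd (nat_lit 43446) (nat_lit 0) (nat_lit 20824) (XT.nd (nat_lit 43056) (nat_lit 0) (nat_lit 22040) (XT.nd (nat_lit 156) (nat_lit 0) (nat_lit 0) (XT.nd (nat_lit 78) (nat_lit 380) (nat_lit 0) (XT.lf (nat_lit 0) (nat_lit 5485181219) (nat_lit 456) (nat_lit 3369214812) (nat_lit 532) (nat_lit 13501868827) (nat_lit 145) (nat_lit 5) (nat_lit 151) (nat_lit 5) (nat_lit 152) (nat_lit 5) (nat_lit 379) (nat_lit 328) (nat_lit 193)) (XT.lf (nat_lit 0) (nat_lit 763066704) (nat_lit 380) (nat_lit 14453401216) (nat_lit 456) (nat_lit 7565861493) (nat_lit 140) (nat_lit 5) (nat_lit 145) (nat_lit 5) (nat_lit 146) (nat_lit 5) (nat_lit 380) (nat_lit 328) (nat_lit 192))) (XT.nd (nat_lit 42822) (nat_lit 0) (nat_lit 23636) (XT.lf (nat_lit 0) (nat_lit 19115950638) (nat_lit 380) (nat_lit 2777308653) (nat_lit 456) (nat_lit 1325443608) (nat_lit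 140) (nat_lit 5) (nat_lit 145) (nat_lit 5) (nat_lit 146) (nat_lit 5) (nat_lit 381) (nat_lit 328) (nat_lit 191)) (XT.lf (nat_lit 0) (nat_lit 4618501766) (nat_lit 1596) (nat_lit 212223599) (nat_lit 1596) (nat_lit 212223599) (nat_lit 451) (nat_lit 3) (nat_lit 472) (nat_lit 3) (nat_lit 472) (nat_lit 5) (nat_lit 329) (nat_lit 329) (nat_lit 242)))) (XT.nd (nat_lit 156) (nat_lit 0) (nat_lit 76) (XT.nd (nat_lit 78) (nat_lit 0) (nat_lit 76) (XT.lf (nat_lit 0) (nat_lit 199680428) (nat_lit 1596) (nat_lit 3435562469) (nat_lit 1672) (nat_lit 6580515520) (nat_lit 430) (nat_lit 5) (nat_lit 451) (nat_lit 3) (nat_lit 452) (nat_lit 5) (nat_lit 330) (nat_lit 329) (nat_lit 241)) (XT.lf (nat_lit 0) (nat_lit 1274005609) (nat_lit 1596) (nat_lit 6484838133) (nat_lit 1672) (nat_lit 2590463289) (nat_lit 431) (nat_lit 5) (nat_lit 452) (nat_lit 5) (nat_lit 453) (nat_lit 5) (nat_lit 331) (nat_lit 329) (nat_lit 240))) (XT.nd (nat_lit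 78) (nat_lit 0) (nat_lit 76) (XT.lf (nat_lit 76) (nat_lit 910342901) (nat_lit 0) (nat_lit 1485624253) (nat_lit 1672) (nat_lit 8090607268) (nat_lit 432) (nat_lit 5) (nat_lit 431) (nat_lit 5) (nat_lit 453) (nat_lit 5) (nat_lit 332) (nat_lit 329) (nat_lit 239)) (XT.nd (nat_lit 78) (nat_lit 0) (nat_lit 76) (XT.lf (nat_lit 0) (nat_lit 3590963371) (nat_lit 1596) (nat_lit 2065322733) (nat_lit 1672) (nat_lit 4970906068) (nat_lit 432) (nat_lit 5) (nat_lit 453) (nat_lit 5) (nat_lit 454) (nat_lit 5) (nat_lit 333) (nat_lit 329) (nat_lit 238)) (XT.lf (nat_lit 0) (nat_lit 4838493003) (nat_lit 1596) (nat_lit 5062781414) (nat_lit 1672) (nat_lit 870439644) (nat_lit 433) (nat_lit 5) (nat_lit 454) (nat_lit 5) (nat_lit 455) (nat_lit 5) (nat_lit 334) (nat_lit 329) (nat_lit 237)))))) (XT.nd (nat_lit 390) (nat_lit 0) (nat_lit 0) (XT.nd (nat_lit 156) (nat_lit 1444) (nat_lit 0) (XT.nd (nat_lit 78) (nat_lit 0) (nat_lit 76)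 (XT.lf (nat_lit 76) (nat_lit 2801592212) (nat_lit 0) (nat_lit 3356886999) (nat_lit 1672) (nat_lit 4761410496) (nat_lit 434) (nat_lit 5) (nat_lit 433) (nat_lit 5) (nat_lit 455) (nat_lit 5) (nat_lit 335) (nat_lit 329) (nat_lit 236)) (XT.lf (nat_lit 0) (nat_lit 7540463385) (nat_lit 1596) (nat_lit 144886353) (nat_lit 1672) (nat_lit 3386731085) (nat_lit 434) (nat_lit 5) (nat_lit 455) (nat_lit 5) (nat_lit 456) (nat_lit 5) (nat_lit 336) (nat_lit 329) (nat_lit 235))) (XT.nd (nat_lit 78) (nat_lit 1520) (nat_lit 0) (XT.lf (nat_lit 76) (nat_lit 8130491779) (nat_lit 0) (nat_lit 875540310) (nat_lit 1672) (nat_lit 2221980725) (nat_lit 435) (nat_lit 5) (nat_lit 434) (nat_lit 5) (nat_lit 456) (nat_lit 5) (nat_lit 337) (nat_lit 329) (nat_lit 234)) (XT.nd (nat_lit 78) (nat_lit 1596) (nat_lit 0) (XT.lf (nat_lit 76) (nat_lit 5275024785) (nat_lit 0) (nat_lit 5283423857) (nat_lit 1672) (nat_lit 829333635) (nat_lit 436)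 (nat_lit 5) (nat_lit 435) (nat_lit 5) (nat_lit 457) (nat_lit 5) (nat_lit 338) (nat_lit 329) (nat_lit 233)) (XT.lf (nat_lit 0) (nat_lit 619574172) (nat_lit 1672) (nat_lit 9174890143) (nat_lit 1748) (nat_lit 1757369890) (nat_lit 414) (nat_lit 5) (nat_lit 436) (nat_lit 5) (nat_lit 437) (nat_lit 5) (nat_lit 339) (nat_lit 329) (nat_lit 232))))) (XT.nd (nat_lit 156) (nat_lit 0) (nat_lit 152) (XT.nd (nat_lit 78) (nat_lit 0) (nat_lit 76) (XT.lf (nat_lit 0) (nat_lit 2146979504) (nat_lit 1672) (nat_lit 578351845) (nat_lit 1748) (nat_lit 8994456580) (nat_lit 414) (nat_lit 5) (nat_lit 436) (nat_lit 5) (nat_lit 437) (nat_lit 5) (nat_lit 340) (nat_lit 329) (nat_lit 231)) (XT.lf (nat_lit 0) (nat_lit 3774607856) (nat_lit 1672) (nat_lit 3558101483) (nat_lit 1748) (nat_lit 4558998273) (nat_lit 415) (nat_lit 5) (nat_lit 437) (nat_lit 5) (nat_lit 438) (nat_lit 5) (nat_lit 341) (nat_lit 329) (nat_lit 230))) (XT.nd (nat_lit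 78) (nat_lit 0) (nat_lit 0) (XT.lf (nat_lit 0) (nat_lit 5479754139) (nat_lit 1672) (nat_lit 6584330504) (nat_lit 1748) (nat_lit 4141379) (nat_lit 416) (nat_lit 5) (nat_lit 438) (nat_lit 5) (nat_lit 439) (nat_lit 5) (nat_lit 342) (nat_lit 329) (nat_lit 229)) (XT.nd (nat_lit 78) (nat_lit 0) (nat_lit 76) (XT.lf (nat_lit 76) (nat_lit 2558503936) (nat_lit 0) (nat_lit 4739108858) (nat_lit 1748) (nat_lit 4951210514) (nat_lit 417) (nat_lit 5) (nat_lit 416) (nat_lit 5) (nat_lit 439) (nat_lit 5) (nat_lit 343) (nat_lit 329) (nat_lit 228)) (XT.lf (nat_lit 0) (nat_lit 9205497770) (nat_lit 1672) (nat_lit 409106248) (nat_lit 1748) (nat_lit 2819538745) (nat_lit 417) (nat_lit 5) (nat_lit 439) (nat_lit 5) (nat_lit 440) (nat_lit 5) (nat_lit 344) (nat_lit 329) (nat_lit 227))))))) (XT.nd (nat_lit 780) (nat_lit 5776) (nat_lit 0) (XT.nd (nat_lit 390) (nat_lit 3420) (nat_lit 0) (XT.nd (nat_lit 156) (nat_lit 2736) (nat_lit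 0) (XT.nd (nat_lit 78) (nat_lit 1672) (nat_lit 0) (XT.lf (nat_lit 76) (nat_lit 9217999430) (nat_lit 0) (nat_lit 2017328410) (nat_lit 1748) (nat_lit 1388413445) (nat_lit 418) (nat_lit 5) (nat_lit 417) (nat_lit 5) (nat_lit 440) (nat_lit 5) (nat_lit 345) (nat_lit 329) (nat_lit 226)) (XT.lf (nat_lit 0) (nat_lit 556259389) (nat_lit 1748) (nat_lit 6477529971) (nat_lit 76) (nat_lit 5784067876) (nat_lit 395) (nat_lit 5) (nat_lit 418) (nat_lit 5) (nat_lit 396) (nat_lit 5) (nat_lit 346) (nat_lit 329) (nat_lit 225))) (XT.nd (nat_lit 78) (nat_lit 988) (nat_lit 0) (XT.lf (nat_lit 0) (nat_lit 2579061555) (nat_lit 1824) (nat_lit 9614509927) (nat_lit 76) (nat_lit 823281207) (nat_lit 372) (nat_lit 5) (nat_lit 396) (nat_lit 5) (nat_lit 373) (nat_lit 5) (nat_lit 347) (nat_lit 329) (nat_lit 224)) (XT.nd (nat_lit 78) (nat_lit 0) (nat_lit 0) (XT.lf (nat_lit 0) (nat_lit 381875126) (nat_lit 988) (nat_lit 4349286476) (nat_lit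 1064) (nat_lit 8489296378) (nat_lit 359) (nat_lit 5) (nat_lit 372) (nat_lit 5) (nat_lit 373) (nat_lit 5) (nat_lit 348) (nat_lit 329) (nat_lit 223)) (XT.lf (nat_lit 0) (nat_lit 7013145647) (nat_lit 1064) (nat_lit 2666064738) (nat_lit 76) (nat_lit 3749666515) (nat_lit 359) (nat_lit 5) (nat_lit 373) (nat_lit 5) (nat_lit 360) (nat_lit 5) (nat_lit 349) (nat_lit 329) (nat_lit 222))))) (XT.nd (nat_lit 156) (nat_lit 1672) (nat_lit 0) (XT.nd (nat_lit 78) (nat_lit 836) (nat_lit 0) (XT.lf (nat_lit 0) (nat_lit 7864029270) (nat_lit 912) (nat_lit 1555935908) (nat_lit 988) (nat_lit 4222467235) (nat_lit 347) (nat_lit 5) (nat_lit 359) (nat_lit 5) (nat_lit 360) (nat_lit 5) (nat_lit 350) (nat_lit 329) (nat_lit 221)) (XT.lf (nat_lit 0) (nat_lit 4882389510) (nat_lit 836) (nat_lit 7087505268) (nat_lit 912) (nat_lit 1891092915) (nat_lit 336) (nat_lit 5) (nat_lit 347) (nat_lit 5) (nat_lit 348) (nat_lit 5) (nat_lit 351) (nat_lit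 329) (nat_lit 220))) (XT.nd (nat_lit 78) (nat_lit 760) (nat_lit 0) (XT.lf (nat_lit 0) (nat_lit 550964817) (nat_lit 912) (nat_lit 12248463435) (nat_lit 76) (nat_lit 1285667118) (nat_lit 324) (nat_lit 5) (nat_lit 336) (nat_lit 5) (nat_lit 325) (nat_lit 5) (nat_lit 352) (nat_lit 329) (nat_lit 219)) (XT.nd (nat_lit 78) (nat_lit 760) (nat_lit 0) (XT.lf (nat_lit 0) (nat_lit 3127086037) (nat_lit 912) (nat_lit 1297795525) (nat_lit 76) (nat_lit 9889075184) (nat_lit 324) (nat_lit 5) (nat_lit 336) (nat_lit 5) (nat_lit 325) (nat_lit 5) (nat_lit 353) (nat_lit 329) (nat_lit 218)) (XT.lf (nat_lit 0) (nat_lit 5852085226) (nat_lit 836) (nat_lit 4483992330) (nat_lit 76) (nat_lit 4212184580) (nat_lit 314) (nat_lit 5) (nat_lit 325) (nat_lit 5) (nat_lit 315) (nat_lit 5) (nat_lit 354) (nat_lit 329) (nat_lit 217)))))) (XT.nd (nat_lit 390) (nat_lit 2736) (nat_lit 0) (XT.nd (nat_lit 156) (nat_lit 1520) (nat_lit 0) (XT.nd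 (nat_lit 78) (nat_lit 760) (nat_lit 0) (XT.lf (nat_lit 0) (nat_lit 7036868854) (nat_lit 760) (nat_lit 1684949015) (nat_lit 836) (nat_lit 6066528913) (nat_lit 304) (nat_lit 5) (nat_lit 314) (nat_lit 5) (nat_lit 315) (nat_lit 5) (nat_lit 355) (nat_lit 329) (nat_lit 216)) (XT.lf (nat_lit 0) (nat_lit 3912517794) (nat_lit 760) (nat_lit 7847357359) (nat_lit 836) (nat_lit 3274123640) (nat_lit 294) (nat_lit 5) (nat_lit 304) (nat_lit 5) (nat_lit 305) (nat_lit 5) (nat_lit 356) (nat_lit 329) (nat_lit 215))) (XT.nd (nat_lit 78) (nat_lit 760) (nat_lit 0) (XT.lf (nat_lit 0) (nat_lit 716384047) (nat_lit 760) (nat_lit 14227787671) (nat_lit 836) (nat_lit 341755899) (nat_lit 284) (nat_lit 5) (nat_lit 294) (nat_lit 5) (nat_lit 295) (nat_lit 5) (nat_lit 357) (nat_lit 329) (nat_lit 214)) (XT.nd (nat_lit 78) (nat_lit 684) (nat_lit 0) (XT.lf (nat_lit 0) (nat_lit 2751894991) (nat_lit 836) (nat_lit 2574031951) (nat_lit 76)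 (nat_lit 10216979457) (nat_lit 283) (nat_lit 5) (nat_lit 294) (nat_lit 5) (nat_lit 284) (nat_lit 5) (nat_lit 358) (nat_lit 329) (nat_lit 213)) (XT.lf (nat_lit 0) (nat_lit 6004001648) (nat_lit 760) (nat_lit 5944050652) (nat_lit 76) (nat_lit 3858099782) (nat_lit 274) (nat_lit 5) (nat_lit 284) (nat_lit 5) (nat_lit 275) (nat_lit 5) (nat_lit 359) (nat_lit 329) (nat_lit 212))))) (XT.nd (nat_lit 156) (nat_lit 1368) (nat_lit 0) (XT.nd (nat_lit 78) (nat_lit 684) (nat_lit 0) (XT.lf (nat_lit 0) (nat_lit 6660436274) (nat_lit 684) (nat_lit 2770755494) (nat_lit 760) (nat_lit 6644561220) (nat_lit 265) (nat_lit 5) (nat_lit 274) (nat_lit 5) (nat_lit 275) (nat_lit 5) (nat_lit 360) (nat_lit 329) (nat_lit 211)) (XT.lf (nat_lit 0) (nat_lit 3351269241) (nat_lit 684) (nat_lit 9697121928) (nat_lit 760) (nat_lit 3303314898) (nat_lit 256) (nat_lit 5) (nat_lit 265) (nat_lit 5) (nat_lit 266) (nat_lit 5) (nat_lit 361) (nat_lit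 329) (nat_lit 210))) (XT.nd (nat_lit 78) (nat_lit 1292) (nat_lit 0) (XT.lf (nat_lit 0) (nat_lit 200894201) (nat_lit 760) (nat_lit 45509440) (nat_lit 76) (nat_lit 16388233036) (nat_lit 255) (nat_lit 5) (nat_lit 265) (nat_lit 5) (nat_lit 256) (nat_lit 5) (nat_lit 362) (nat_lit 329) (nat_lit 209)) (XT.nd (nat_lit 78) (nat_lit 608) (nat_lit 0) (XT.lf (nat_lit 0) (nat_lit 3897440239) (nat_lit 760) (nat_lit 3554527516) (nat_lit 76) (nat_lit 9471016367) (nat_lit 246) (nat_lit 5) (nat_lit 256) (nat_lit 5) (nat_lit 247) (nat_lit 5) (nat_lit 363) (nat_lit 329) (nat_lit 208)) (XT.lf (nat_lit 0) (nat_lit 7770014230) (nat_lit 684) (nat_lit 7158207878) (nat_lit 76) (nat_lit 2290464442) (nat_lit 238) (nat_lit 5) (nat_lit 247) (nat_lit 5) (nat_lit 239) (nat_lit 5) (nat_lit 364) (nat_lit 329) (nat_lit 207))))))))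
noncomputable def xc101 : XT := (XT.nd (nat_lit 44304) (nat_lit 0) (nat_lit 15732) (XT.nd (nat_lit 702) (nat_lit 3344) (nat_lit 0) (XT.nd (nat_lit 312) (nat_lit 2204) (nat_lit 0) (XT.nd (nat_lit 156) (nat_lit 684) (nat_lit 0) (XT.nd (nat_lit 78) (nat_lit 608) (nat_lit 0) (XT.lf (nat_lit 0) (nat_lit 6626589442) (nat_lit 608) (nat_lit 5232323380) (nat_lit 684) (nat_lit 5662351265) (nat_lit 230) (nat_lit 5) (nat_lit 238) (nat_lit 5) (nat_lit 239) (nat_lit 5) (nat_lit 365) (nat_lit 329) (nat_lit 206)) (XT.lf (nat_lit 0) (nat_lit 3080041504) (nat_lit 608) (nat_lit 13073517947) (nat_lit 684) (nat_lit 1677704657) (nat_lit 222) (nat_lit 5) (nat_lit 230) (nat_lit 5) (nat_lit 231) (nat_lit 5) (nat_lit 366) (nat_lit 329) (nat_lit 205))) (XT.nd (nat_lit 78) (nat_lit 608) (nat_lit 0) (XT.lf (nat_lit 0) (nat_lit 2487591129) (nat_lit 684) (nat_lit 597220068) (nat_lit 76) (nat_lit 15063585631) (nat_lit 221) (nat_lit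 5) (nat_lit 230) (nat_lit 5) (nat_lit 222) (nat_lit 5) (nat_lit 367) (nat_lit 329) (nat_lit 204)) (XT.lf (nat_lit 0) (nat_lit 6878497682) (nat_lit 684) (nat_lit 4384598300) (nat_lit 76) (nat_lit 7209263112) (nat_lit 213) (nat_lit 5) (nat_lit 222) (nat_lit 5) (nat_lit 214) (nat_lit 5) (nat_lit 368) (nat_lit 329) (nat_lit 203)))) (XT.nd (nat_lit 156) (nat_lit 1140) (nat_lit 0) (XT.nd (nat_lit 78) (nat_lit 532) (nat_lit 0) (XT.lf (nat_lit 0) (nat_lit 10513313484) (nat_lit 532) (nat_lit 965201047) (nat_lit 608) (nat_lit 7325984119) (nat_lit 206) (nat_lit 5) (nat_lit 213) (nat_lit 5) (nat_lit 214) (nat_lit 5) (nat_lit 369) (nat_lit 329) (nat_lit 202)) (XT.lf (nat_lit 0) (nat_lit 6778889627) (nat_lit 532) (nat_lit 9558888489) (nat_lit 608) (nat_lit 2806405258) (nat_lit 199) (nat_lit 5) (nat_lit 206) (nat_lit 5) (nat_lit 207) (nat_lit 5) (nat_lit 370) (nat_lit 329) (nat_lit 201))) (XT.nd (nat_lit 78) (nat_lit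 532) (nat_lit 0) (XT.lf (nat_lit 0) (nat_lit 1898126567) (nat_lit 608) (nat_lit 16577345623) (nat_lit 76) (nat_lit 1016879755) (nat_lit 191) (nat_lit 5) (nat_lit 199) (nat_lit 5) (nat_lit 192) (nat_lit 5) (nat_lit 371) (nat_lit 329) (nat_lit 200)) (XT.nd (nat_lit 78) (nat_lit 532) (nat_lit 0) (XT.lf (nat_lit 0) (nat_lit 6839383679) (nat_lit 608) (nat_lit 1128806175) (nat_lit 76) (nat_lit 11879735821) (nat_lit 191) (nat_lit 5) (nat_lit 199) (nat_lit 5) (nat_lit 192) (nat_lit 5) (nat_lit 372) (nat_lit 329) (nat_lit 199)) (XT.lf (nat_lit 0) (nat_lit 12030820265) (nat_lit 608) (nat_lit 5270943543) (nat_lit 76) (nat_lit 2910369273) (nat_lit 184) (nat_lit 5) (nat_lit 192) (nat_lit 5) (nat_lit 185) (nat_lit 5) (nat_lit 373) (nat_lit 329) (nat_lit 198)))))) (XT.nd (nat_lit 390) (nat_lit 1368) (nat_lit 0) (XT.nd (nat_lit 156) (nat_lit 912) (nat_lit 0) (XT.nd (nat_lit 78) (nat_lit 608) (nat_lit 0) (XT.lf (nat_lit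 0) (nat_lit 10993834254) (nat_lit 456) (nat_lit 6502461447) (nat_lit 532) (nat_lit 3088610238) (nat_lit 178) (nat_lit 5) (nat_lit 184) (nat_lit 5) (nat_lit 185) (nat_lit 5) (nat_lit 374) (nat_lit 329) (nat_lit 197)) (XT.lf (nat_lit 0) (nat_lit 2226117248) (nat_lit 608) (nat_lit 14089449538) (nat_lit 76) (nat_lit 4651069384) (nat_lit 170) (nat_lit 5) (nat_lit 178) (nat_lit 5) (nat_lit 171) (nat_lit 5) (nat_lit 375) (nat_lit 329) (nat_lit 196))) (XT.nd (nat_lit 78) (nat_lit 456) (nat_lit 0) (XT.lf (nat_lit 0) (nat_lit 2562830235) (nat_lit 456) (nat_lit 5207660583) (nat_lit 532) (nat_lit 13586680602) (nat_lit 164) (nat_lit 5) (nat_lit 170) (nat_lit 5) (nat_lit 171) (nat_lit 5) (nat_lit 376) (nat_lit 329) (nat_lit 195)) (XT.nd (nat_lit 78) (nat_lit 456) (nat_lit 0) (XT.lf (nat_lit 0) (nat_lit 13604401899) (nat_lit 532) (nat_lit 1909490767) (nat_lit 76) (nat_lit 6243070551) (nat_lit 164) (nat_lit 5) (nat_lit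 171) (nat_lit 5) (nat_lit 165) (nat_lit 5) (nat_lit 377) (nat_lit 329) (nat_lit 194)) (XT.lf (nat_lit 0) (nat_lit 15634251113) (nat_lit 456) (nat_lit 4102430107) (nat_lit 532) (nat_lit 2429605010) (nat_lit 158) (nat_lit 5) (nat_lit 164) (nat_lit 5) (nat_lit 165) (nat_lit 5) (nat_lit 378) (nat_lit 329) (nat_lit 193))))) (XT.nd (nat_lit 156) (nat_lit 380) (nat_lit 0) (XT.nd (nat_lit 78) (nat_lit 456) (nat_lit 0) (XT.lf (nat_lit 0) (nat_lit 3543220073) (nat_lit 532) (nat_lit 11386325826) (nat_lit 76) (nat_lit 7655424860) (nat_lit 151) (nat_lit 5) (nat_lit 158) (nat_lit 5) (nat_lit 152) (nat_lit 5) (nat_lit 379) (nat_lit 329) (nat_lit 192)) (XT.lf (nat_lit 0) (nat_lit 6559688459) (nat_lit 456) (nat_lit 3204721825) (nat_lit 532) (nat_lit 13249444703) (nat_lit 145) (nat_lit 5) (nat_lit 151) (nat_lit 5) (nat_lit 152) (nat_lit 5) (nat_lit 380) (nat_lit 329) (nat_lit 191))) (XT.nd (nat_lit 42900) (nat_lit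 0) (nat_lit 22040) (XT.lf (nat_lit 0) (nat_lit 1692336664) (nat_lit 380) (nat_lit 14613798086) (nat_lit 456) (nat_lit 7146797041) (nat_lit 140) (nat_lit 5) (nat_lit 145) (nat_lit 5) (nat_lit 146) (nat_lit 5) (nat_lit 381) (nat_lit 329) (nat_lit 190)) (XT.nd (nat_lit 78) (nat_lit 0) (nat_lit 0) (XT.lf (nat_lit 0) (nat_lit 284155525) (nat_lit 0) (nat_lit 284155525) (nat_lit 1596) (nat_lit 4605453471) (nat_lit 430) (nat_lit 5) (nat_lit 430) (nat_lit 3) (nat_lit 451) (nat_lit 3) (nat_lit 330) (nat_lit 330) (nat_lit 240)) (XT.lf (nat_lit 0) (nat_lit 2146176968) (nat_lit 1596) (nat_lit 2518921781) (nat_lit 1672) (nat_lit 5817284388) (nat_lit 430) (nat_lit 5) (nat_lit 451) (nat_lit 3) (nat_lit 452) (nat_lit 5) (nat_lit 331) (nat_lit 330) (nat_lit 239))))))) (XT.nd (nat_lit 780) (nat_lit 5016) (nat_lit 0) (XT.nd (nat_lit 390) (nat_lit 1368) (nat_lit 0) (XT.nd (nat_lit 156) (nat_lit 0) (nat_lit 76) (XT.nd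 (nat_lit 78) (nat_lit 0) (nat_lit 0) (XT.lf (nat_lit 0) (nat_lit 3196964343) (nat_lit 1596) (nat_lit 5631640412) (nat_lit 1672) (nat_lit 1792479036) (nat_lit 431) (nat_lit 5) (nat_lit 452) (nat_lit 5) (nat_lit 453) (nat_lit 5) (nat_lit 332) (nat_lit 330) (nat_lit 238)) (XT.lf (nat_lit 76) (nat_lit 1968397671) (nat_lit 0) (nat_lit 2335984043) (nat_lit 1672) (nat_lit 6459080900) (nat_lit 432) (nat_lit 5) (nat_lit 431) (nat_lit 5) (nat_lit 453) (nat_lit 5) (nat_lit 333) (nat_lit 330) (nat_lit 237))) (XT.nd (nat_lit 78) (nat_lit 0) (nat_lit 76) (XT.lf (nat_lit 0) (nat_lit 5476657141) (nat_lit 1596) (nat_lit 1084869548) (nat_lit 1672) (nat_lit 4347972116) (nat_lit 432) (nat_lit 5) (nat_lit 453) (nat_lit 5) (nat_lit 454) (nat_lit 5) (nat_lit 334) (nat_lit 330) (nat_lit 236)) (XT.nd (nat_lit 78) (nat_lit 0) (nat_lit 0) (XT.lf (nat_lit 0) (nat_lit 6711893010) (nat_lit 1596) (nat_lit 4148992476) (nat_lit 1672)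 (nat_lit 198492922) (nat_lit 433) (nat_lit 5) (nat_lit 454) (nat_lit 5) (nat_lit 455) (nat_lit 5) (nat_lit 335) (nat_lit 330) (nat_lit 235)) (XT.lf (nat_lit 76) (nat_lit 3934023091) (nat_lit 0) (nat_lit 4093925273) (nat_lit 1672) (nat_lit 3184948428) (nat_lit 434) (nat_lit 5) (nat_lit 433) (nat_lit 5) (nat_lit 455) (nat_lit 5) (nat_lit 336) (nat_lit 330) (nat_lit 234))))) (XT.nd (nat_lit 156) (nat_lit 1596) (nat_lit 0) (XT.nd (nat_lit 78) (nat_lit 0) (nat_lit 0) (XT.lf (nat_lit 76) (nat_lit 918251059) (nat_lit 0) (nat_lit 8486022384) (nat_lit 1672) (nat_lit 1966348649) (nat_lit 435) (nat_lit 5) (nat_lit 434) (nat_lit 5) (nat_lit 456) (nat_lit 5) (nat_lit 337) (nat_lit 330) (nat_lit 233)) (XT.lf (nat_lit 76) (nat_lit 9412724233) (nat_lit 0) (nat_lit 1454341200) (nat_lit 1672) (nat_lit 665126803) (nat_lit 435) (nat_lit 5) (nat_lit 434) (nat_lit 5) (nat_lit 456) (nat_lit 5) (nat_lit 338) (nat_lit 330)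 (nat_lit 232))) (XT.nd (nat_lit 78) (nat_lit 0) (nat_lit 76) (XT.lf (nat_lit 0) (nat_lit 715946634) (nat_lit 1672) (nat_lit 5211940578) (nat_lit 1748) (nat_lit 5769657042) (nat_lit 413) (nat_lit 5) (nat_lit 435) (nat_lit 5) (nat_lit 436) (nat_lit 5) (nat_lit 339) (nat_lit 330) (nat_lit 231)) (XT.nd (nat_lit 78) (nat_lit 0) (nat_lit 0) (XT.lf (nat_lit 0) (nat_lit 2155619713) (nat_lit 1672) (nat_lit 8354812528) (nat_lit 1748) (nat_lit 1356827951) (nat_lit 414) (nat_lit 5) (nat_lit 436) (nat_lit 5) (nat_lit 437) (nat_lit 5) (nat_lit 340) (nat_lit 330) (nat_lit 230)) (XT.lf (nat_lit 76) (nat_lit 473935011) (nat_lit 0) (nat_lit 3213791478) (nat_lit 1748) (nat_lit 8353371165) (nat_lit 415) (nat_lit 5) (nat_lit 414) (nat_lit 5) (nat_lit 437) (nat_lit 5) (nat_lit 341) (nat_lit 330) (nat_lit 229)))))) (XT.nd (nat_lit 390) (nat_lit 5168) (nat_lit 0) (XT.nd (nat_lit 156) (nat_lit 0) (nat_lit 76) (XT.nd (nat_lit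 78) (nat_lit 0) (nat_lit 0) (XT.lf (nat_lit 0) (nat_lit 5322450055) (nat_lit 1672) (nat_lit 2586659197) (nat_lit 1748) (nat_lit 4309922402) (nat_lit 415) (nat_lit 5) (nat_lit 437) (nat_lit 5) (nat_lit 438) (nat_lit 5) (nat_lit 342) (nat_lit 330) (nat_lit 228)) (XT.lf (nat_lit 76) (nat_lit 6709134063) (nat_lit 0) (nat_lit 334690741) (nat_lit 1748) (nat_lit 5357740742) (nat_lit 416) (nat_lit 5) (nat_lit 415) (nat_lit 5) (nat_lit 438) (nat_lit 5) (nat_lit 343) (nat_lit 330) (nat_lit 227))) (XT.nd (nat_lit 78) (nat_lit 0) (nat_lit 76) (XT.lf (nat_lit 76) (nat_lit 3709151078) (nat_lit 0) (nat_lit 5171163497) (nat_lit 1748) (nat_lit 3708005056) (nat_lit 417) (nat_lit 5) (nat_lit 416) (nat_lit 5) (nat_lit 439) (nat_lit 5) (nat_lit 344) (nat_lit 330) (nat_lit 226)) (XT.nd (nat_lit 78) (nat_lit 0) (nat_lit 0) (XT.lf (nat_lit 76) (nat_lit 658856244) (nat_lit 0) (nat_lit 10149308749) (nat_lit 1748) (nat_lit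 1971799281) (nat_lit 418) (nat_lit 5) (nat_lit 417) (nat_lit 5) (nat_lit 440) (nat_lit 5) (nat_lit 345) (nat_lit 330) (nat_lit 225)) (XT.lf (nat_lit 76) (nat_lit 10548748726) (nat_lit 0) (nat_lit 2314196739) (nat_lit 1748) (nat_lit 113043770) (nat_lit 418) (nat_lit 5) (nat_lit 417) (nat_lit 5) (nat_lit 440) (nat_lit 5) (nat_lit 346) (nat_lit 330) (nat_lit 224))))) (XT.nd (nat_lit 156) (nat_lit 1900) (nat_lit 0) (XT.nd (nat_lit 78) (nat_lit 1748) (nat_lit 0) (XT.lf (nat_lit 0) (nat_lit 1840297990) (nat_lit 1748) (nat_lit 5589741179) (nat_lit 76) (nat_lit 5746385093) (nat_lit 395) (nat_lit 5) (nat_lit 418) (nat_lit 5) (nat_lit 396) (nat_lit 5) (nat_lit 347) (nat_lit 330) (nat_lit 223)) (XT.lf (nat_lit 0) (nat_lit 3892661039) (nat_lit 1824) (nat_lit 8811914127) (nat_lit 76) (nat_lit 677454983) (nat_lit 372) (nat_lit 5) (nat_lit 396) (nat_lit 5) (nat_lit 373) (nat_lit 5) (nat_lit 348) (nat_lit 330) (nat_lit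 222))) (XT.nd (nat_lit 78) (nat_lit 912) (nat_lit 0) (XT.lf (nat_lit 0) (nat_lit 1466661794) (nat_lit 988) (nat_lit 4613624435) (nat_lit 1064) (nat_lit 7512055705) (nat_lit 359) (nat_lit 5) (nat_lit 372) (nat_lit 5) (nat_lit 373) (nat_lit 5) (nat_lit 349) (nat_lit 330) (nat_lit 221)) (XT.nd (nat_lit 78) (nat_lit 912) (nat_lit 0) (XT.lf (nat_lit 0) (nat_lit 8394725139) (nat_lit 1064) (nat_lit 1679125026) (nat_lit 76) (nat_lit 3733900417) (nat_lit 359) (nat_lit 5) (nat_lit 373) (nat_lit 5) (nat_lit 360) (nat_lit 5) (nat_lit 350) (nat_lit 330) (nat_lit 220)) (XT.lf (nat_lit 0) (nat_lit 9149562265) (nat_lit 912) (nat_lit 1696889581) (nat_lit 988) (nat_lit 3181823435) (nat_lit 347) (nat_lit 5) (nat_lit 359) (nat_lit 5) (nat_lit 360) (nat_lit 5) (nat_lit 351) (nat_lit 330) (nat_lit 219))))))))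
noncomputable def xc102 : XT := (XT.nd (nat_lit 1482) (nat_lit 4180) (nat_lit 0) (XT.nd (nat_lit 702) (nat_lit 5168) (nat_lit 0) (XT.nd (nat_lit 312) (nat_lit 3040) (nat_lit 0) (XT.nd (nat_lit 156) (nat_lit 760) (nat_lit 0) (XT.nd (nat_lit 78) (nat_lit 912) (nat_lit 0) (XT.lf (nat_lit 0) (nat_lit 6085096751) (nat_lit 836) (nat_lit 7360728976) (nat_lit 912) (nat_lit 808118652) (nat_lit 336) (nat_lit 5) (nat_lit 347) (nat_lit 5) (nat_lit 348) (nat_lit 5) (nat_lit 352) (nat_lit 330) (nat_lit 218)) (XT.lf (nat_lit 0) (nat_lit 1666049640) (nat_lit 912) (nat_lit 11538819363) (nat_lit 76) (nat_lit 1280297675) (nat_lit 324) (nat_lit 5) (nat_lit 336) (nat_lit 5) (nat_lit 325) (nat_lit 5) (nat_lit 353) (nat_lit 330) (nat_lit 217))) (XT.nd (nat_lit 78) (nat_lit 760) (nat_lit 0) (XT.lf (nat_lit 0) (nat_lit 4287457723) (nat_lit 912) (nat_lit 291003202) (nat_lit 76) (nat_lit 10143087773) (nat_lit 324) (nat_lit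 5) (nat_lit 336) (nat_lit 5) (nat_lit 325) (nat_lit 5) (nat_lit 354) (nat_lit 330) (nat_lit 216)) (XT.lf (nat_lit 0) (nat_lit 7069734368) (nat_lit 836) (nat_lit 3568339882) (nat_lit 76) (nat_lit 4325312884) (nat_lit 314) (nat_lit 5) (nat_lit 325) (nat_lit 5) (nat_lit 315) (nat_lit 5) (nat_lit 355) (nat_lit 330) (nat_lit 215)))) (XT.nd (nat_lit 156) (nat_lit 1520) (nat_lit 0) (XT.nd (nat_lit 78) (nat_lit 760) (nat_lit 0) (XT.lf (nat_lit 0) (nat_lit 8281109341) (nat_lit 760) (nat_lit 1720805407) (nat_lit 836) (nat_lit 5209246470) (nat_lit 304) (nat_lit 5) (nat_lit 314) (nat_lit 5) (nat_lit 315) (nat_lit 5) (nat_lit 356) (nat_lit 330) (nat_lit 214)) (XT.lf (nat_lit 0) (nat_lit 5066670455) (nat_lit 760) (nat_lit 8041603983) (nat_lit 836) (nat_lit 2356378742) (nat_lit 294) (nat_lit 5) (nat_lit 304) (nat_lit 5) (nat_lit 305) (nat_lit 5) (nat_lit 357) (nat_lit 330) (nat_lit 213))) (XT.nd (nat_lit 78) (nat_lit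 684) (nat_lit 0) (XT.lf (nat_lit 0) (nat_lit 633105429) (nat_lit 836) (nat_lit 13951153612) (nat_lit 76) (nat_lit 1140250495) (nat_lit 283) (nat_lit 5) (nat_lit 294) (nat_lit 5) (nat_lit 284) (nat_lit 5) (nat_lit 358) (nat_lit 330) (nat_lit 212)) (XT.nd (nat_lit 78) (nat_lit 684) (nat_lit 0) (XT.lf (nat_lit 0) (nat_lit 3786391015) (nat_lit 836) (nat_lit 1628737577) (nat_lit 76) (nat_lit 10574607116) (nat_lit 283) (nat_lit 5) (nat_lit 294) (nat_lit 5) (nat_lit 284) (nat_lit 5) (nat_lit 359) (nat_lit 330) (nat_lit 211)) (XT.lf (nat_lit 0) (nat_lit 7115353762) (nat_lit 760) (nat_lit 5097912298) (nat_lit 76) (nat_lit 4048039051) (nat_lit 274) (nat_lit 5) (nat_lit 284) (nat_lit 5) (nat_lit 275) (nat_lit 5) (nat_lit 360) (nat_lit 330) (nat_lit 210)))))) (XT.nd (nat_lit 390) (nat_lit 2432) (nat_lit 0) (XT.nd (nat_lit 156) (nat_lit 1368) (nat_lit 0) (XT.nd (nat_lit 78) (nat_lit 684) (nat_lit 0) (XT.lf (nat_lit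 0) (nat_lit 7868088591) (nat_lit 684) (nat_lit 2756691291) (nat_lit 760) (nat_lit 5914637607) (nat_lit 265) (nat_lit 5) (nat_lit 274) (nat_lit 5) (nat_lit 275) (nat_lit 5) (nat_lit 361) (nat_lit 330) (nat_lit 209)) (XT.lf (nat_lit 0) (nat_lit 4460980983) (nat_lit 684) (nat_lit 9870155274) (nat_lit 760) (nat_lit 2492911589) (nat_lit 256) (nat_lit 5) (nat_lit 265) (nat_lit 5) (nat_lit 266) (nat_lit 5) (nat_lit 362) (nat_lit 330) (nat_lit 208))) (XT.nd (nat_lit 78) (nat_lit 608) (nat_lit 0) (XT.lf (nat_lit 0) (nat_lit 957408041) (nat_lit 684) (nat_lit 127160632) (nat_lit 760) (nat_lit 16031189089) (nat_lit 246) (nat_lit 5) (nat_lit 255) (nat_lit 5) (nat_lit 256) (nat_lit 5) (nat_lit 363) (nat_lit 330) (nat_lit 207)) (XT.nd (nat_lit 78) (nat_lit 608) (nat_lit 0) (XT.lf (nat_lit 0) (nat_lit 4867548178) (nat_lit 760) (nat_lit 2668924848) (nat_lit 76) (nat_lit 9876782494) (nat_lit 246) (nat_lit 5) (nat_lit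 256) (nat_lit 5) (nat_lit 247) (nat_lit 5) (nat_lit 364) (nat_lit 330) (nat_lit 206)) (XT.lf (nat_lit 0) (nat_lit 8838705605) (nat_lit 684) (nat_lit 6380694461) (nat_lit 76) (nat_lit 2498791154) (nat_lit 238) (nat_lit 5) (nat_lit 247) (nat_lit 5) (nat_lit 239) (nat_lit 5) (nat_lit 365) (nat_lit 330) (nat_lit 205))))) (XT.nd (nat_lit 156) (nat_lit 1216) (nat_lit 0) (XT.nd (nat_lit 78) (nat_lit 608) (nat_lit 0) (XT.lf (nat_lit 0) (nat_lit 7801548544) (nat_lit 608) (nat_lit 5230722899) (nat_lit 684) (nat_lit 4997944658) (nat_lit 230) (nat_lit 5) (nat_lit 238) (nat_lit 5) (nat_lit 239) (nat_lit 5) (nat_lit 366) (nat_lit 330) (nat_lit 204)) (XT.lf (nat_lit 0) (nat_lit 4148169469) (nat_lit 608) (nat_lit 13291109286) (nat_lit 684) (nat_lit 910576673) (nat_lit 222) (nat_lit 5) (nat_lit 230) (nat_lit 5) (nat_lit 231) (nat_lit 5) (nat_lit 367) (nat_lit 330) (nat_lit 203))) (XT.nd (nat_lit 78) (nat_lit 532)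 (nat_lit 0) (XT.lf (nat_lit 0) (nat_lit 347445219) (nat_lit 608) (nat_lit 3000270265) (nat_lit 684) (nat_lit 15329114584) (nat_lit 213) (nat_lit 5) (nat_lit 221) (nat_lit 5) (nat_lit 222) (nat_lit 5) (nat_lit 368) (nat_lit 330) (nat_lit 202)) (XT.nd (nat_lit 78) (nat_lit 532) (nat_lit 0) (XT.lf (nat_lit 0) (nat_lit 7852542059) (nat_lit 684) (nat_lit 3559165588) (nat_lit 76) (nat_lit 7599168691) (nat_lit 213) (nat_lit 5) (nat_lit 222) (nat_lit 5) (nat_lit 214) (nat_lit 5) (nat_lit 369) (nat_lit 330) (nat_lit 201)) (XT.lf (nat_lit 0) (nat_lit 11770157838) (nat_lit 532) (nat_lit 804154174) (nat_lit 608) (nat_lit 6779001748) (nat_lit 206) (nat_lit 5) (nat_lit 213) (nat_lit 5) (nat_lit 214) (nat_lit 5) (nat_lit 370) (nat_lit 330) (nat_lit 200))))))) (XT.nd (nat_lit 43758) (nat_lit 0) (nat_lit 19836) (XT.nd (nat_lit 390) (nat_lit 2052) (nat_lit 0) (XT.nd (nat_lit 156) (nat_lit 988) (nat_lit 0) (XT.nd (nat_lit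 78) (nat_lit 608) (nat_lit 0) (XT.lf (nat_lit 0) (nat_lit 7922285132) (nat_lit 532) (nat_lit 9642482695) (nat_lit 608) (nat_lit 2138721387) (nat_lit 199) (nat_lit 5) (nat_lit 206) (nat_lit 5) (nat_lit 207) (nat_lit 5) (nat_lit 371) (nat_lit 330) (nat_lit 199)) (XT.lf (nat_lit 0) (nat_lit 2682894630) (nat_lit 608) (nat_lit 16126468443) (nat_lit 76) (nat_lit 1252934019) (nat_lit 191) (nat_lit 5) (nat_lit 199) (nat_lit 5) (nat_lit 192) (nat_lit 5) (nat_lit 372) (nat_lit 330) (nat_lit 198))) (XT.nd (nat_lit 78) (nat_lit 988) (nat_lit 0) (XT.lf (nat_lit 0) (nat_lit 7751190690) (nat_lit 608) (nat_lit 242090216) (nat_lit 76) (nat_lit 12435688936) (nat_lit 191) (nat_lit 5) (nat_lit 199) (nat_lit 5) (nat_lit 192) (nat_lit 5) (nat_lit 373) (nat_lit 330) (nat_lit 197)) (XT.nd (nat_lit 78) (nat_lit 456) (nat_lit 0) (XT.lf (nat_lit 0) (nat_lit 13085056712) (nat_lit 608) (nat_lit 4510722667) (nat_lit 76) (nat_lit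 3208597970) (nat_lit 184) (nat_lit 5) (nat_lit 192) (nat_lit 5) (nat_lit 185) (nat_lit 5) (nat_lit 374) (nat_lit 330) (nat_lit 196)) (XT.lf (nat_lit 0) (nat_lit 12227099339) (nat_lit 456) (nat_lit 6473069320) (nat_lit 532) (nat_lit 2488458671) (nat_lit 178) (nat_lit 5) (nat_lit 184) (nat_lit 5) (nat_lit 185) (nat_lit 5) (nat_lit 375) (nat_lit 330) (nat_lit 195))))) (XT.nd (nat_lit 156) (nat_lit 988) (nat_lit 0) (XT.nd (nat_lit 78) (nat_lit 456) (nat_lit 0) (XT.lf (nat_lit 0) (nat_lit 2964022711) (nat_lit 608) (nat_lit 13602019519) (nat_lit 76) (nat_lit 5015936335) (nat_lit 170) (nat_lit 5) (nat_lit 178) (nat_lit 5) (nat_lit 171) (nat_lit 5) (nat_lit 376) (nat_lit 330) (nat_lit 194)) (XT.lf (nat_lit 0) (nat_lit 3535063137) (nat_lit 456) (nat_lit 5125930303) (nat_lit 532) (nat_lit 13323517936) (nat_lit 164) (nat_lit 5) (nat_lit 170) (nat_lit 5) (nat_lit 171) (nat_lit 5) (nat_lit 377) (nat_lit 330) (nat_lit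 193))) (XT.nd (nat_lit 78) (nat_lit 988) (nat_lit 0) (XT.lf (nat_lit 0) (nat_lit 14652274628) (nat_lit 532) (nat_lit 1086019968) (nat_lit 76) (nat_lit 6658361898) (nat_lit 164) (nat_lit 5) (nat_lit 171) (nat_lit 5) (nat_lit 165) (nat_lit 5) (nat_lit 378) (nat_lit 330) (nat_lit 192)) (XT.nd (nat_lit 78) (nat_lit 532) (nat_lit 0) (XT.lf (nat_lit 0) (nat_lit 16969744956) (nat_lit 456) (nat_lit 3985769824) (nat_lit 532) (nat_lit 1863011001) (nat_lit 158) (nat_lit 5) (nat_lit 164) (nat_lit 5) (nat_lit 165) (nat_lit 5) (nat_lit 379) (nat_lit 330) (nat_lit 191)) (XT.lf (nat_lit 0) (nat_lit 4269394695) (nat_lit 532) (nat_lit 10856053833) (nat_lit 76) (nat_lit 8124469745) (nat_lit 151) (nat_lit 5) (nat_lit 158) (nat_lit 5) (nat_lit 152) (nat_lit 5) (nat_lit 380) (nat_lit 330) (nat_lit 190)))))) (XT.nd (nat_lit 390) (nat_lit 1368) (nat_lit 0) (XT.nd (nat_lit 156) (nat_lit 0) (nat_lit 76) (XT.nd (nat_lit 78)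 (nat_lit 0) (nat_lit 0) (XT.lf (nat_lit 0) (nat_lit 765210815) (nat_lit 0) (nat_lit 765210815) (nat_lit 1596) (nat_lit 3779150762) (nat_lit 430) (nat_lit 5) (nat_lit 430) (nat_lit 3) (nat_lit 451) (nat_lit 3) (nat_lit 331) (nat_lit 331) (nat_lit 238)) (XT.lf (nat_lit 0) (nat_lit 4039675415) (nat_lit 1596) (nat_lit 1633317257) (nat_lit 1672) (nat_lit 5086301366) (nat_lit 430) (nat_lit 5) (nat_lit 451) (nat_lit 3) (nat_lit 452) (nat_lit 5) (nat_lit 332) (nat_lit 331) (nat_lit 237))) (XT.nd (nat_lit 78) (nat_lit 0) (nat_lit 0) (XT.lf (nat_lit 0) (nat_lit 5069420135) (nat_lit 1596) (nat_lit 4812991485) (nat_lit 1672) (nat_lit 1020823912) (nat_lit 431) (nat_lit 5) (nat_lit 452) (nat_lit 5) (nat_lit 453) (nat_lit 5) (nat_lit 333) (nat_lit 331) (nat_lit 236)) (XT.nd (nat_lit 78) (nat_lit 0) (nat_lit 76) (XT.lf (nat_lit 76) (nat_lit 2999025133) (nat_lit 0) (nat_lit 3165598923) (nat_lit 1672) (nat_lit 4886198048)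 (nat_lit 432) (nat_lit 5) (nat_lit 431) (nat_lit 5) (nat_lit 453) (nat_lit 5) (nat_lit 334) (nat_lit 331) (nat_lit 235)) (XT.lf (nat_lit 0) (nat_lit 7316859267) (nat_lit 1596) (nat_lit 134841530) (nat_lit 1672) (nat_lit 3750669614) (nat_lit 432) (nat_lit 5) (nat_lit 453) (nat_lit 5) (nat_lit 454) (nat_lit 5) (nat_lit 335) (nat_lit 331) (nat_lit 234))))) (XT.nd (nat_lit 156) (nat_lit 1520) (nat_lit 0) (XT.nd (nat_lit 78) (nat_lit 0) (nat_lit 76) (XT.lf (nat_lit 76) (nat_lit 8085702470) (nat_lit 0) (nat_lit 459568022) (nat_lit 1672) (nat_lit 2812379621) (nat_lit 433) (nat_lit 5) (nat_lit 432) (nat_lit 5) (nat_lit 454) (nat_lit 5) (nat_lit 336) (nat_lit 331) (nat_lit 233)) (XT.lf (nat_lit 76) (nat_lit 5040245416) (nat_lit 0) (nat_lit 4816546655) (nat_lit 1672) (nat_lit 1659887604) (nat_lit 434) (nat_lit 5) (nat_lit 433) (nat_lit 5) (nat_lit 455) (nat_lit 5) (nat_lit 337) (nat_lit 331) (nat_lit 232)))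 (XT.nd (nat_lit 78) (nat_lit 1672) (nat_lit 0) (XT.lf (nat_lit 76) (nat_lit 1953874028) (nat_lit 0) (nat_lit 9277044493) (nat_lit 1672) (nat_lit 449112561) (nat_lit 435) (nat_lit 5) (nat_lit 434) (nat_lit 5) (nat_lit 456) (nat_lit 5) (nat_lit 338) (nat_lit 331) (nat_lit 231)) (XT.nd (nat_lit 78) (nat_lit 0) (nat_lit 76) (XT.lf (nat_lit 0) (nat_lit 834151001) (nat_lit 1672) (nat_lit 1179039772) (nat_lit 1748) (nat_lit 9834071383) (nat_lit 412) (nat_lit 5) (nat_lit 434) (nat_lit 5) (nat_lit 435) (nat_lit 5) (nat_lit 339) (nat_lit 331) (nat_lit 230)) (XT.lf (nat_lit 0) (nat_lit 2206891631) (nat_lit 1672) (nat_lit 4351564402) (nat_lit 1748) (nat_lit 5459868057) (nat_lit 413) (nat_lit 5) (nat_lit 435) (nat_lit 5) (nat_lit 436) (nat_lit 5) (nat_lit 340) (nat_lit 331) (nat_lit 229))))))))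
noncomputable def xc103 : XT := (XT.nd (nat_lit 1560) (nat_lit 9500) (nat_lit 0) (XT.nd (nat_lit 780) (nat_lit 5776) (nat_lit 0) (XT.nd (nat_lit 390) (nat_lit 4180) (nat_lit 0) (XT.nd (nat_lit 156) (nat_lit 0) (nat_lit 76) (XT.nd (nat_lit 78) (nat_lit 0) (nat_lit 0) (XT.lf (nat_lit 0) (nat_lit 3650638304) (nat_lit 1672) (nat_lit 7573008681) (nat_lit 1748) (nat_lit 970288905) (nat_lit 414) (nat_lit 5) (nat_lit 436) (nat_lit 5) (nat_lit 437) (nat_lit 5) (nat_lit 341) (nat_lit 331) (nat_lit 228)) (XT.lf (nat_lit 76) (nat_lit 1503851039) (nat_lit 0) (nat_lit 3689791151) (nat_lit 1748) (nat_lit 7180069021) (nat_lit 415) (nat_lit 5) (nat_lit 414) (nat_lit 5) (nat_lit 437) (nat_lit 5) (nat_lit 342) (nat_lit 331) (nat_lit 227))) (XT.nd (nat_lit 78) (nat_lit 0) (nat_lit 0) (XT.lf (nat_lit 0) (nat_lit 6834375384) (nat_lit 1672) (nat_lit 1647965891) (nat_lit 1748) (nat_lit 4075523384) (nat_lit 415) (nat_lit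 5) (nat_lit 437) (nat_lit 5) (nat_lit 438) (nat_lit 5) (nat_lit 343) (nat_lit 331) (nat_lit 226)) (XT.nd (nat_lit 78) (nat_lit 0) (nat_lit 76) (XT.lf (nat_lit 76) (nat_lit 7910213018) (nat_lit 0) (nat_lit 664283778) (nat_lit 1748) (nat_lit 4172055844) (nat_lit 416) (nat_lit 5) (nat_lit 415) (nat_lit 5) (nat_lit 438) (nat_lit 5) (nat_lit 344) (nat_lit 331) (nat_lit 225)) (XT.lf (nat_lit 76) (nat_lit 4832671840) (nat_lit 0) (nat_lit 5599539398) (nat_lit 1748) (nat_lit 2507395106) (nat_lit 417) (nat_lit 5) (nat_lit 416) (nat_lit 5) (nat_lit 439) (nat_lit 5) (nat_lit 345) (nat_lit 331) (nat_lit 224))))) (XT.nd (nat_lit 156) (nat_lit 2660) (nat_lit 0) (XT.nd (nat_lit 78) (nat_lit 1748) (nat_lit 0) (XT.lf (nat_lit 76) (nat_lit 1702126118) (nat_lit 0) (nat_lit 10683252552) (nat_lit 1748) (nat_lit 752291048) (nat_lit 418) (nat_lit 5) (nat_lit 417) (nat_lit 5) (nat_lit 440) (nat_lit 5) (nat_lit 346) (nat_lit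 331) (nat_lit 223)) (XT.lf (nat_lit 0) (nat_lit 1110230164) (nat_lit 1748) (nat_lit 1488723356) (nat_lit 1824) (nat_lit 10741224180) (nat_lit 394) (nat_lit 5) (nat_lit 417) (nat_lit 5) (nat_lit 418) (nat_lit 5) (nat_lit 347) (nat_lit 331) (nat_lit 222))) (XT.nd (nat_lit 78) (nat_lit 2736) (nat_lit 0) (XT.lf (nat_lit 0) (nat_lit 3090106628) (nat_lit 1748) (nat_lit 4737436533) (nat_lit 76) (nat_lit 5719695846) (nat_lit 395) (nat_lit 5) (nat_lit 418) (nat_lit 5) (nat_lit 396) (nat_lit 5) (nat_lit 348) (nat_lit 331) (nat_lit 221)) (XT.nd (nat_lit 78) (nat_lit 988) (nat_lit 0) (XT.lf (nat_lit 0) (nat_lit 5174703984) (nat_lit 1824) (nat_lit 8047870101) (nat_lit 76) (nat_lit 537042785) (nat_lit 372) (nat_lit 5) (nat_lit 396) (nat_lit 5) (nat_lit 373) (nat_lit 5) (nat_lit 349) (nat_lit 331) (nat_lit 220)) (XT.lf (nat_lit 0) (nat_lit 2522378506) (nat_lit 988) (nat_lit 4878208459) (nat_lit 1064) (nat_lit 6576215034)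 (nat_lit 359) (nat_lit 5) (nat_lit 372) (nat_lit 5) (nat_lit 373) (nat_lit 5) (nat_lit 350) (nat_lit 331) (nat_lit 219)))))) (XT.nd (nat_lit 390) (nat_lit 2356) (nat_lit 0) (XT.nd (nat_lit 156) (nat_lit 2508) (nat_lit 0) (XT.nd (nat_lit 78) (nat_lit 912) (nat_lit 0) (XT.lf (nat_lit 0) (nat_lit 9750521198) (nat_lit 1064) (nat_lit 723822792) (nat_lit 76) (nat_lit 3725023761) (nat_lit 359) (nat_lit 5) (nat_lit 373) (nat_lit 5) (nat_lit 360) (nat_lit 5) (nat_lit 351) (nat_lit 331) (nat_lit 218)) (XT.lf (nat_lit 0) (nat_lit 10413409221) (nat_lit 912) (nat_lit 1836660059) (nat_lit 988) (nat_lit 2176969138) (nat_lit 347) (nat_lit 5) (nat_lit 359) (nat_lit 5) (nat_lit 360) (nat_lit 5) (nat_lit 352) (nat_lit 331) (nat_lit 217))) (XT.nd (nat_lit 78) (nat_lit 1596) (nat_lit 0) (XT.lf (nat_lit 0) (nat_lit 238748153) (nat_lit 912) (nat_lit 7398320510) (nat_lit 76) (nat_lit 7022902689) (nat_lit 335) (nat_lit 5)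 (nat_lit 347) (nat_lit 5) (nat_lit 336) (nat_lit 5) (nat_lit 353) (nat_lit 331) (nat_lit 216)) (XT.nd (nat_lit 78) (nat_lit 760) (nat_lit 0) (XT.lf (nat_lit 0) (nat_lit 2751525406) (nat_lit 912) (nat_lit 10869715800) (nat_lit 76) (nat_lit 1277289454) (nat_lit 324) (nat_lit 5) (nat_lit 336) (nat_lit 5) (nat_lit 325) (nat_lit 5) (nat_lit 354) (nat_lit 331) (nat_lit 215)) (XT.lf (nat_lit 0) (nat_lit 695080028) (nat_lit 760) (nat_lit 4730848597) (nat_lit 836) (nat_lit 9716602472) (nat_lit 314) (nat_lit 5) (nat_lit 324) (nat_lit 5) (nat_lit 325) (nat_lit 5) (nat_lit 355) (nat_lit 331) (nat_lit 214))))) (XT.nd (nat_lit 156) (nat_lit 1596) (nat_lit 0) (XT.nd (nat_lit 78) (nat_lit 760) (nat_lit 0) (XT.lf (nat_lit 0) (nat_lit 8264092952) (nat_lit 836) (nat_lit 2685502042) (nat_lit 76) (nat_lit 4442594909) (nat_lit 314) (nat_lit 5) (nat_lit 325) (nat_lit 5) (nat_lit 315) (nat_lit 5) (nat_lit 356) (nat_lit 331)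 (nat_lit 213)) (XT.lf (nat_lit 0) (nat_lit 9503370900) (nat_lit 760) (nat_lit 1758580876) (nat_lit 836) (nat_lit 4385904380) (nat_lit 304) (nat_lit 5) (nat_lit 314) (nat_lit 5) (nat_lit 315) (nat_lit 5) (nat_lit 357) (nat_lit 331) (nat_lit 212))) (XT.nd (nat_lit 78) (nat_lit 836) (nat_lit 0) (XT.lf (nat_lit 0) (nat_lit 6195932449) (nat_lit 760) (nat_lit 8244041567) (nat_lit 836) (nat_lit 1469422252) (nat_lit 294) (nat_lit 5) (nat_lit 304) (nat_lit 5) (nat_lit 305) (nat_lit 5) (nat_lit 358) (nat_lit 331) (nat_lit 211)) (XT.nd (nat_lit 78) (nat_lit 0) (nat_lit 0) (XT.lf (nat_lit 0) (nat_lit 1576311382) (nat_lit 836) (nat_lit 13376954887) (nat_lit 76) (nat_lit 1224087403) (nat_lit 283) (nat_lit 5) (nat_lit 294) (nat_lit 5) (nat_lit 284) (nat_lit 5) (nat_lit 359) (nat_lit 331) (nat_lit 210)) (XT.lf (nat_lit 0) (nat_lit 4797276717) (nat_lit 836) (nat_lit 713780935) (nat_lit 76) (nat_lit 10940029207) (nat_lit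 283) (nat_lit 5) (nat_lit 294) (nat_lit 5) (nat_lit 284) (nat_lit 5) (nat_lit 360) (nat_lit 331) (nat_lit 209))))))) (XT.nd (nat_lit 780) (nat_lit 4180) (nat_lit 0) (XT.nd (nat_lit 390) (nat_lit 2508) (nat_lit 0) (XT.nd (nat_lit 156) (nat_lit 1444) (nat_lit 0) (XT.nd (nat_lit 78) (nat_lit 684) (nat_lit 0) (XT.lf (nat_lit 0) (nat_lit 8206589909) (nat_lit 760) (nat_lit 4285197981) (nat_lit 76) (nat_lit 4239417328) (nat_lit 274) (nat_lit 5) (nat_lit 284) (nat_lit 5) (nat_lit 275) (nat_lit 5) (nat_lit 361) (nat_lit 331) (nat_lit 208)) (XT.lf (nat_lit 0) (nat_lit 9054116384) (nat_lit 684) (nat_lit 2747784085) (nat_lit 760) (nat_lit 5216159637) (nat_lit 265) (nat_lit 5) (nat_lit 274) (nat_lit 5) (nat_lit 275) (nat_lit 5) (nat_lit 362) (nat_lit 331) (nat_lit 207))) (XT.nd (nat_lit 78) (nat_lit 760) (nat_lit 0) (XT.lf (nat_lit 0) (nat_lit 5546053381) (nat_lit 684) (nat_lit 10055146433) (nat_lit 760) (nat_lit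 1710405360) (nat_lit 256) (nat_lit 5) (nat_lit 265) (nat_lit 5) (nat_lit 266) (nat_lit 5) (nat_lit 363) (nat_lit 331) (nat_lit 206)) (XT.nd (nat_lit 78) (nat_lit 0) (nat_lit 0) (XT.lf (nat_lit 0) (nat_lit 1933350289) (nat_lit 684) (nat_lit 11313208) (nat_lit 760) (nat_lit 15667671735) (nat_lit 246) (nat_lit 5) (nat_lit 255) (nat_lit 5) (nat_lit 256) (nat_lit 5) (nat_lit 364) (nat_lit 331) (nat_lit 205)) (XT.lf (nat_lit 0) (nat_lit 5817783062) (nat_lit 760) (nat_lit 1813712649) (nat_lit 76) (nat_lit 10287739222) (nat_lit 246) (nat_lit 5) (nat_lit 256) (nat_lit 5) (nat_lit 247) (nat_lit 5) (nat_lit 365) (nat_lit 331) (nat_lit 204))))) (XT.nd (nat_lit 156) (nat_lit 1292) (nat_lit 0) (XT.nd (nat_lit 78) (nat_lit 608) (nat_lit 0) (XT.lf (nat_lit 0) (nat_lit 9891491384) (nat_lit 684) (nat_lit 5636815406) (nat_lit 76) (nat_lit 2705353322) (nat_lit 238) (nat_lit 5) (nat_lit 247) (nat_lit 5) (nat_lit 239)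 (nat_lit 5) (nat_lit 366) (nat_lit 331) (nat_lit 203)) (XT.lf (nat_lit 0) (nat_lit 8955720760) (nat_lit 608) (nat_lit 5238176980) (nat_lit 684) (nat_lit 4361496774) (nat_lit 230) (nat_lit 5) (nat_lit 238) (nat_lit 5) (nat_lit 239) (nat_lit 5) (nat_lit 367) (nat_lit 331) (nat_lit 202))) (XT.nd (nat_lit 78) (nat_lit 684) (nat_lit 0) (XT.lf (nat_lit 0) (nat_lit 5192330567) (nat_lit 608) (nat_lit 13525251934) (nat_lit 684) (nat_lit 167360347) (nat_lit 222) (nat_lit 5) (nat_lit 230) (nat_lit 5) (nat_lit 231) (nat_lit 5) (nat_lit 368) (nat_lit 331) (nat_lit 201)) (XT.nd (nat_lit 78) (nat_lit 0) (nat_lit 0) (XT.lf (nat_lit 0) (nat_lit 1272899902) (nat_lit 608) (nat_lit 2919467589) (nat_lit 684) (nat_lit 15029592059) (nat_lit 213) (nat_lit 5) (nat_lit 221) (nat_lit 5) (nat_lit 222) (nat_lit 5) (nat_lit 369) (nat_lit 331) (nat_lit 200)) (XT.lf (nat_lit 0) (nat_lit 8811739253) (nat_lit 684) (nat_lit 2763903926)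 (nat_lit 76) (nat_lit 7990804498) (nat_lit 213) (nat_lit 5) (nat_lit 222) (nat_lit 5) (nat_lit 214) (nat_lit 5) (nat_lit 370) (nat_lit 331) (nat_lit 199)))))) (XT.nd (nat_lit 390) (nat_lit 1976) (nat_lit 0) (XT.nd (nat_lit 156) (nat_lit 1140) (nat_lit 0) (XT.nd (nat_lit 78) (nat_lit 532) (nat_lit 0) (XT.lf (nat_lit 0) (nat_lit 13010664730) (nat_lit 532) (nat_lit 649182839) (nat_lit 608) (nat_lit 6259625175) (nat_lit 206) (nat_lit 5) (nat_lit 213) (nat_lit 5) (nat_lit 214) (nat_lit 5) (nat_lit 371) (nat_lit 331) (nat_lit 198)) (XT.lf (nat_lit 0) (nat_lit 9046021002) (nat_lit 532) (nat_lit 9740247658) (nat_lit 608) (nat_lit 1494167760) (nat_lit 199) (nat_lit 5) (nat_lit 206) (nat_lit 5) (nat_lit 207) (nat_lit 5) (nat_lit 372) (nat_lit 331) (nat_lit 197))) (XT.nd (nat_lit 78) (nat_lit 532) (nat_lit 0) (XT.lf (nat_lit 0) (nat_lit 3449425644) (nat_lit 608) (nat_lit 15716495367) (nat_lit 76) (nat_lit 1484270622)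 (nat_lit 191) (nat_lit 5) (nat_lit 199) (nat_lit 5) (nat_lit 192) (nat_lit 5) (nat_lit 373) (nat_lit 331) (nat_lit 196)) (XT.nd (nat_lit 78) (nat_lit 0) (nat_lit 0) (XT.lf (nat_lit 0) (nat_lit 626600127) (nat_lit 532) (nat_lit 8027256893) (nat_lit 608) (nat_lit 12374333200) (nat_lit 184) (nat_lit 5) (nat_lit 191) (nat_lit 5) (nat_lit 192) (nat_lit 5) (nat_lit 374) (nat_lit 331) (nat_lit 195)) (XT.lf (nat_lit 0) (nat_lit 14131121316) (nat_lit 608) (nat_lit 3780412166) (nat_lit 76) (nat_lit 3503665993) (nat_lit 184) (nat_lit 5) (nat_lit 192) (nat_lit 5) (nat_lit 185) (nat_lit 5) (nat_lit 375) (nat_lit 331) (nat_lit 194))))) (XT.nd (nat_lit 156) (nat_lit 912) (nat_lit 0) (XT.nd (nat_lit 78) (nat_lit 608) (nat_lit 0) (XT.lf (nat_lit 0) (nat_lit 13445500648) (nat_lit 456) (nat_lit 6455680694) (nat_lit 532) (nat_lit 1910072678) (nat_lit 178) (nat_lit 5) (nat_lit 184) (nat_lit 5) (nat_lit 185) (nat_lit 5)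 (nat_lit 376) (nat_lit 331) (nat_lit 193)) (XT.lf (nat_lit 0) (nat_lit 3685540193) (nat_lit 608) (nat_lit 13152210837) (nat_lit 76) (nat_lit 5378814150) (nat_lit 170) (nat_lit 5) (nat_lit 178) (nat_lit 5) (nat_lit 171) (nat_lit 5) (nat_lit 377) (nat_lit 331) (nat_lit 192))) (XT.nd (nat_lit 78) (nat_lit 456) (nat_lit 0) (XT.lf (nat_lit 0) (nat_lit 4485066388) (nat_lit 456) (nat_lit 5055407998) (nat_lit 532) (nat_lit 13090964934) (nat_lit 164) (nat_lit 5) (nat_lit 170) (nat_lit 5) (nat_lit 171) (nat_lit 5) (nat_lit 378) (nat_lit 331) (nat_lit 191)) (XT.nd (nat_lit 78) (nat_lit 456) (nat_lit 0) (XT.lf (nat_lit 0) (nat_lit 15694859808) (nat_lit 532) (nat_lit 288404016) (nat_lit 76) (nat_lit 7073023897) (nat_lit 164) (nat_lit 5) (nat_lit 171) (nat_lit 5) (nat_lit 165) (nat_lit 5) (nat_lit 379) (nat_lit 331) (nat_lit 190)) (XT.lf (nat_lit 0) (nat_lit 18295564903) (nat_lit 456) (nat_lit 3879371397) (nat_lit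 532) (nat_lit 1316128064) (nat_lit 158) (nat_lit 5) (nat_lit 164) (nat_lit 5) (nat_lit 165) (nat_lit 5) (nat_lit 380) (nat_lit 331) (nat_lit 189))))))))
noncomputable def xc104 : XT := (XT.nd (nat_lit 1482) (nat_lit 12084) (nat_lit 0) (XT.nd (nat_lit 702) (nat_lit 3040) (nat_lit 0) (XT.nd (nat_lit 312) (nat_lit 1368) (nat_lit 0) (XT.nd (nat_lit 156) (nat_lit 0) (nat_lit 76) (XT.nd (nat_lit 78) (nat_lit 0) (nat_lit 0) (XT.lf (nat_lit 0) (nat_lit 1233572572) (nat_lit 0) (nat_lit 1233572572) (nat_lit 1596) (nat_lit 2983423283) (nat_lit 430) (nat_lit 5) (nat_lit 430) (nat_lit 3) (nat_lit 451) (nat_lit 3) (nat_lit 332) (nat_lit 332) (nat_lit 236)) (XT.lf (nat_lit 0) (nat_lit 5884980239) (nat_lit 1596) (nat_lit 776319812) (nat_lit 1672) (nat_lit 4385368347) (nat_lit 430) (nat_lit 5) (nat_lit 451) (nat_lit 3) (nat_lit 452) (nat_lit 5) (nat_lit 333) (nat_lit 332) (nat_lit 235))) (XT.nd (nat_lit 78) (nat_lit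 0) (nat_lit 0) (XT.lf (nat_lit 0) (nat_lit 6896068544) (nat_lit 1596) (nat_lit 4026475264) (nat_lit 1672) (nat_lit 273402164) (nat_lit 431) (nat_lit 5) (nat_lit 452) (nat_lit 5) (nat_lit 453) (nat_lit 5) (nat_lit 334) (nat_lit 332) (nat_lit 234)) (XT.lf (nat_lit 76) (nat_lit 4004799010) (nat_lit 0) (nat_lit 3976501813) (nat_lit 1672) (nat_lit 3367541951) (nat_lit 432) (nat_lit 5) (nat_lit 431) (nat_lit 5) (nat_lit 453) (nat_lit 5) (nat_lit 335) (nat_lit 332) (nat_lit 233)))) (XT.nd (nat_lit 156) (nat_lit 1520) (nat_lit 0) (XT.nd (nat_lit 78) (nat_lit 0) (nat_lit 0) (XT.lf (nat_lit 76) (nat_lit 797746138) (nat_lit 0) (nat_lit 8323497161) (nat_lit 1672) (nat_lit 2384656743) (nat_lit 433) (nat_lit 5) (nat_lit 432) (nat_lit 5) (nat_lit 454) (nat_lit 5) (nat_lit 336) (nat_lit 332) (nat_lit 232)) (XT.lf (nat_lit 76) (nat_lit 9239417862) (nat_lit 0) (nat_lit 1101814613) (nat_lit 1672) (nat_lit 1325535729)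 (nat_lit 433) (nat_lit 5) (nat_lit 432) (nat_lit 5) (nat_lit 454) (nat_lit 5) (nat_lit 337) (nat_lit 332) (nat_lit 231))) (XT.nd (nat_lit 78) (nat_lit 1596) (nat_lit 0) (XT.lf (nat_lit 76) (nat_lit 6122927595) (nat_lit 0) (nat_lit 5526415496) (nat_lit 1672) (nat_lit 182104557) (nat_lit 434) (nat_lit 5) (nat_lit 433) (nat_lit 5) (nat_lit 455) (nat_lit 5) (nat_lit 338) (nat_lit 332) (nat_lit 230)) (XT.nd (nat_lit 78) (nat_lit 0) (nat_lit 0) (XT.lf (nat_lit 0) (nat_lit 1009739846) (nat_lit 1672) (nat_lit 9044487600) (nat_lit 1748) (nat_lit 1946182300) (nat_lit 412) (nat_lit 5) (nat_lit 434) (nat_lit 5) (nat_lit 435) (nat_lit 5) (nat_lit 339) (nat_lit 332) (nat_lit 229)) (XT.lf (nat_lit 0) (nat_lit 2282727848) (nat_lit 1672) (nat_lit 272225769) (nat_lit 1748) (nat_lit 9618520250) (nat_lit 412) (nat_lit 5) (nat_lit 434) (nat_lit 5) (nat_lit 435) (nat_lit 5) (nat_lit 340) (nat_lit 332) (nat_lit 228))))))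 (XT.nd (nat_lit 390) (nat_lit 3116) (nat_lit 0) (XT.nd (nat_lit 156) (nat_lit 0) (nat_lit 76) (XT.nd (nat_lit 78) (nat_lit 0) (nat_lit 76) (XT.lf (nat_lit 0) (nat_lit 3658211584) (nat_lit 1672) (nat_lit 3523741655) (nat_lit 1748) (nat_lit 5168504615) (nat_lit 413) (nat_lit 5) (nat_lit 435) (nat_lit 5) (nat_lit 436) (nat_lit 5) (nat_lit 341) (nat_lit 332) (nat_lit 227)) (XT.lf (nat_lit 0) (nat_lit 5108399512) (nat_lit 1672) (nat_lit 6827017470) (nat_lit 1748) (nat_lit 596679235) (nat_lit 414) (nat_lit 5) (nat_lit 436) (nat_lit 5) (nat_lit 437) (nat_lit 5) (nat_lit 342) (nat_lit 332) (nat_lit 226))) (XT.nd (nat_lit 78) (nat_lit 0) (nat_lit 76) (XT.lf (nat_lit 76) (nat_lit 2506359328) (nat_lit 0) (nat_lit 4158281029) (nat_lit 1748) (nat_lit 6053305686) (nat_lit 415) (nat_lit 5) (nat_lit 414) (nat_lit 5) (nat_lit 437) (nat_lit 5) (nat_lit 343) (nat_lit 332) (nat_lit 225)) (XT.nd (nat_lit 78) (nat_lit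 0) (nat_lit 0) (XT.lf (nat_lit 0) (nat_lit 8314033686) (nat_lit 1672) (nat_lit 739451166) (nat_lit 1748) (nat_lit 3854970073) (nat_lit 415) (nat_lit 5) (nat_lit 437) (nat_lit 5) (nat_lit 438) (nat_lit 5) (nat_lit 344) (nat_lit 332) (nat_lit 224)) (XT.lf (nat_lit 76) (nat_lit 9089931450) (nat_lit 0) (nat_lit 985420996) (nat_lit 1748) (nat_lit 3028090250) (nat_lit 416) (nat_lit 5) (nat_lit 415) (nat_lit 5) (nat_lit 438) (nat_lit 5) (nat_lit 345) (nat_lit 332) (nat_lit 223))))) (XT.nd (nat_lit 156) (nat_lit 1672) (nat_lit 0) (XT.nd (nat_lit 78) (nat_lit 1672) (nat_lit 0) (XT.lf (nat_lit 76) (nat_lit 5931791150) (nat_lit 0) (nat_lit 6025081425) (nat_lit 1748) (nat_lit 1346072419) (nat_lit 417) (nat_lit 5) (nat_lit 416) (nat_lit 5) (nat_lit 439) (nat_lit 5) (nat_lit 346) (nat_lit 332) (nat_lit 222)) (XT.lf (nat_lit 0) (nat_lit 424757189) (nat_lit 1748) (nat_lit 10792434932) (nat_lit 1824) (nat_lit 2290333227)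 (nat_lit 394) (nat_lit 5) (nat_lit 417) (nat_lit 5) (nat_lit 418) (nat_lit 5) (nat_lit 347) (nat_lit 332) (nat_lit 221))) (XT.nd (nat_lit 78) (nat_lit 1672) (nat_lit 0) (XT.lf (nat_lit 0) (nat_lit 2298347307) (nat_lit 1748) (nat_lit 580817995) (nat_lit 1824) (nat_lit 10837552603) (nat_lit 394) (nat_lit 5) (nat_lit 417) (nat_lit 5) (nat_lit 418) (nat_lit 5) (nat_lit 348) (nat_lit 332) (nat_lit 220)) (XT.nd (nat_lit 78) (nat_lit 1748) (nat_lit 0) (XT.lf (nat_lit 0) (nat_lit 4308834615) (nat_lit 1748) (nat_lit 3918114741) (nat_lit 76) (nat_lit 5703633974) (nat_lit 395) (nat_lit 5) (nat_lit 418) (nat_lit 5) (nat_lit 396) (nat_lit 5) (nat_lit 349) (nat_lit 332) (nat_lit 219)) (XT.lf (nat_lit 0) (nat_lit 6428317347) (nat_lit 1824) (nat_lit 7319939205) (nat_lit 76) (nat_lit 401645116) (nat_lit 372) (nat_lit 5) (nat_lit 396) (nat_lit 5) (nat_lit 373) (nat_lit 5) (nat_lit 350) (nat_lit 332) (nat_lit 218)))))))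 (XT.nd (nat_lit 780) (nat_lit 5320) (nat_lit 0) (XT.nd (nat_lit 390) (nat_lit 3116) (nat_lit 0) (XT.nd (nat_lit 156) (nat_lit 1748) (nat_lit 0) (XT.nd (nat_lit 78) (nat_lit 912) (nat_lit 0) (XT.lf (nat_lit 0) (nat_lit 3551690032) (nat_lit 988) (nat_lit 5143487025) (nat_lit 1064) (nat_lit 5678956908) (nat_lit 359) (nat_lit 5) (nat_lit 372) (nat_lit 5) (nat_lit 373) (nat_lit 5) (nat_lit 351) (nat_lit 332) (nat_lit 217)) (XT.lf (nat_lit 0) (nat_lit 205098497) (nat_lit 912) (nat_lit 10879852784) (nat_lit 988) (nat_lit 3519053734) (nat_lit 347) (nat_lit 5) (nat_lit 359) (nat_lit 5) (nat_lit 360) (nat_lit 5) (nat_lit 352) (nat_lit 332) (nat_lit 216))) (XT.nd (nat_lit 78) (nat_lit 1748) (nat_lit 0) (XT.lf (nat_lit 0) (nat_lit 11658378269) (nat_lit 912) (nat_lit 1975522506) (nat_lit 988) (nat_lit 1205131451) (nat_lit 347) (nat_lit 5) (nat_lit 359) (nat_lit 5) (nat_lit 360) (nat_lit 5) (nat_lit 353) (nat_lit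 332) (nat_lit 215)) (XT.nd (nat_lit 78) (nat_lit 836) (nat_lit 0) (XT.lf (nat_lit 0) (nat_lit 1245244922) (nat_lit 912) (nat_lit 6668070767) (nat_lit 76) (nat_lit 7166000996) (nat_lit 335) (nat_lit 5) (nat_lit 347) (nat_lit 5) (nat_lit 336) (nat_lit 5) (nat_lit 354) (nat_lit 332) (nat_lit 214)) (XT.lf (nat_lit 0) (nat_lit 3810123838) (nat_lit 912) (nat_lit 10238819674) (nat_lit 76) (nat_lit 1276568499) (nat_lit 324) (nat_lit 5) (nat_lit 336) (nat_lit 5) (nat_lit 325) (nat_lit 5) (nat_lit 355) (nat_lit 332) (nat_lit 213))))) (XT.nd (nat_lit 156) (nat_lit 2356) (nat_lit 0) (XT.nd (nat_lit 78) (nat_lit 0) (nat_lit 0) (XT.lf (nat_lit 0) (nat_lit 1657394041) (nat_lit 760) (nat_lit 4885048986) (nat_lit 836) (nat_lit 9034848965) (nat_lit 314) (nat_lit 5) (nat_lit 324) (nat_lit 5) (nat_lit 325) (nat_lit 5) (nat_lit 356) (nat_lit 332) (nat_lit 212)) (XT.lf (nat_lit 0) (nat_lit 9437896175) (nat_lit 836) (nat_lit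 1833002689) (nat_lit 76) (nat_lit 4564111646) (nat_lit 314) (nat_lit 5) (nat_lit 325) (nat_lit 5) (nat_lit 315) (nat_lit 5) (nat_lit 357) (nat_lit 332) (nat_lit 211))) (XT.nd (nat_lit 78) (nat_lit 1596) (nat_lit 0) (XT.lf (nat_lit 0) (nat_lit 10706398580) (nat_lit 760) (nat_lit 1798284581) (nat_lit 836) (nat_lit 3594096194) (nat_lit 304) (nat_lit 5) (nat_lit 314) (nat_lit 5) (nat_lit 315) (nat_lit 5) (nat_lit 358) (nat_lit 332) (nat_lit 210)) (XT.nd (nat_lit 78) (nat_lit 836) (nat_lit 0) (XT.lf (nat_lit 0) (nat_lit 7302973472) (nat_lit 760) (nat_lit 8454780162) (nat_lit 836) (nat_lit 610829972) (nat_lit 294) (nat_lit 5) (nat_lit 304) (nat_lit 5) (nat_lit 305) (nat_lit 5) (nat_lit 359) (nat_lit 332) (nat_lit 209)) (XT.lf (nat_lit 0) (nat_lit 2494759919) (nat_lit 836) (nat_lit 12842517156) (nat_lit 76) (nat_lit 1307590489) (nat_lit 283) (nat_lit 5) (nat_lit 294) (nat_lit 5) (nat_lit 284) (nat_lit 5)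 (nat_lit 360) (nat_lit 332) (nat_lit 208)))))) (XT.nd (nat_lit 390) (nat_lit 2508) (nat_lit 0) (XT.nd (nat_lit 156) (nat_lit 2128) (nat_lit 0) (XT.nd (nat_lit 78) (nat_lit 0) (nat_lit 0) (XT.lf (nat_lit 0) (nat_lit 175600295) (nat_lit 684) (nat_lit 5612520464) (nat_lit 760) (nat_lit 11139187827) (nat_lit 274) (nat_lit 5) (nat_lit 283) (nat_lit 5) (nat_lit 284) (nat_lit 5) (nat_lit 361) (nat_lit 332) (nat_lit 207)) (XT.lf (nat_lit 0) (nat_lit 9280175234) (nat_lit 760) (nat_lit 3503534592) (nat_lit 76) (nat_lit 4432522278) (nat_lit 274) (nat_lit 5) (nat_lit 284) (nat_lit 5) (nat_lit 275) (nat_lit 5) (nat_lit 362) (nat_lit 332) (nat_lit 206))) (XT.nd (nat_lit 78) (nat_lit 1444) (nat_lit 0) (XT.lf (nat_lit 0) (nat_lit 10221191977) (nat_lit 684) (nat_lit 2743868334) (nat_lit 760) (nat_lit 4547008553) (nat_lit 265) (nat_lit 5) (nat_lit 274) (nat_lit 5) (nat_lit 275) (nat_lit 5) (nat_lit 363) (nat_lit 332)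 (nat_lit 205)) (XT.nd (nat_lit 78) (nat_lit 760) (nat_lit 0) (XT.lf (nat_lit 0) (nat_lit 6609072713) (nat_lit 684) (nat_lit 10252065696) (nat_lit 760) (nat_lit 953636102) (nat_lit 256) (nat_lit 5) (nat_lit 265) (nat_lit 5) (nat_lit 266) (nat_lit 5) (nat_lit 364) (nat_lit 332) (nat_lit 204)) (XT.lf (nat_lit 0) (nat_lit 2783712638) (nat_lit 760) (nat_lit 15241240055) (nat_lit 76) (nat_lit 99814058) (nat_lit 246) (nat_lit 5) (nat_lit 256) (nat_lit 5) (nat_lit 247) (nat_lit 5) (nat_lit 365) (nat_lit 332) (nat_lit 203))))) (XT.nd (nat_lit 156) (nat_lit 1900) (nat_lit 0) (XT.nd (nat_lit 78) (nat_lit 608) (nat_lit 0) (XT.lf (nat_lit 0) (nat_lit 6750360138) (nat_lit 760) (nat_lit 986532979) (nat_lit 76) (nat_lit 10704443086) (nat_lit 246) (nat_lit 5) (nat_lit 256) (nat_lit 5) (nat_lit 247) (nat_lit 5) (nat_lit 366) (nat_lit 332) (nat_lit 202)) (XT.lf (nat_lit 0) (nat_lit 10930647860) (nat_lit 684) (nat_lit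 4924310018) (nat_lit 76) (nat_lit 2910558067) (nat_lit 238) (nat_lit 5) (nat_lit 247) (nat_lit 5) (nat_lit 239) (nat_lit 5) (nat_lit 367) (nat_lit 332) (nat_lit 201))) (XT.nd (nat_lit 78) (nat_lit 1292) (nat_lit 0) (XT.lf (nat_lit 0) (nat_lit 10091699160) (nat_lit 608) (nat_lit 5254434735) (nat_lit 684) (nat_lit 3751097240) (nat_lit 230) (nat_lit 5) (nat_lit 238) (nat_lit 5) (nat_lit 239) (nat_lit 5) (nat_lit 368) (nat_lit 332) (nat_lit 200)) (XT.nd (nat_lit 78) (nat_lit 608) (nat_lit 0) (XT.lf (nat_lit 0) (nat_lit 546655916) (nat_lit 684) (nat_lit 13225542772) (nat_lit 76) (nat_lit 5664696772) (nat_lit 221) (nat_lit 5) (nat_lit 230) (nat_lit 5) (nat_lit 222) (nat_lit 5) (nat_lit 369) (nat_lit 332) (nat_lit 199)) (XT.lf (nat_lit 0) (nat_lit 2173591683) (nat_lit 608) (nat_lit 2846046072) (nat_lit 684) (nat_lit 14764676292) (nat_lit 213) (nat_lit 5) (nat_lit 221) (nat_lit 5) (nat_lit 222) (nat_lit 5)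 (nat_lit 370) (nat_lit 332) (nat_lit 198))))))))
noncomputable def xc105 : XT := (XT.nd (nat_lit 44616) (nat_lit 0) (nat_lit 9500) (XT.nd (nat_lit 702) (nat_lit 456) (nat_lit 0) (XT.nd (nat_lit 312) (nat_lit 2052) (nat_lit 0) (XT.nd (nat_lit 156) (nat_lit 1140) (nat_lit 0) (XT.nd (nat_lit 78) (nat_lit 532) (nat_lit 0) (XT.lf (nat_lit 0) (nat_lit 9758173560) (nat_lit 684) (nat_lit 1996565006) (nat_lit 76) (nat_lit 8384794584) (nat_lit 213) (nat_lit 5) (nat_lit 222) (nat_lit 5) (nat_lit 214) (nat_lit 5) (nat_lit 371) (nat_lit 332) (nat_lit 197)) (XT.lf (nat_lit 0) (nat_lit 14237446316) (nat_lit 532) (nat_lit 499843205) (nat_lit 608) (nat_lit 5766155917) (nat_lit 206) (nat_lit 5) (nat_lit 213) (nat_lit 5) (nat_lit 214) (nat_lit 5) (nat_lit 372) (nat_lit 332) (nat_lit 196))) (XT.nd (nat_lit 78) (nat_lit 608) (nat_lit 0) (XT.lf (nat_lit 0) (nat_lit 10152605060) (nat_lit 532) (nat_lit 9851938998) (nat_lit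 608) (nat_lit 870960680) (nat_lit 199) (nat_lit 5) (nat_lit 206) (nat_lit 5) (nat_lit 207) (nat_lit 5) (nat_lit 373) (nat_lit 332) (nat_lit 195)) (XT.lf (nat_lit 0) (nat_lit 4199570847) (nat_lit 608) (nat_lit 15345528987) (nat_lit 76) (nat_lit 1711425362) (nat_lit 191) (nat_lit 5) (nat_lit 199) (nat_lit 5) (nat_lit 192) (nat_lit 5) (nat_lit 374) (nat_lit 332) (nat_lit 194)))) (XT.nd (nat_lit 156) (nat_lit 1520) (nat_lit 0) (XT.nd (nat_lit 78) (nat_lit 0) (nat_lit 0) (XT.lf (nat_lit 0) (nat_lit 1474191439) (nat_lit 532) (nat_lit 8072489973) (nat_lit 608) (nat_lit 12099458363) (nat_lit 184) (nat_lit 5) (nat_lit 191) (nat_lit 5) (nat_lit 192) (nat_lit 5) (nat_lit 375) (nat_lit 332) (nat_lit 193)) (XT.lf (nat_lit 0) (nat_lit 15171053544) (nat_lit 608) (nat_lit 3077883177) (nat_lit 76) (nat_lit 3796173544) (nat_lit 184) (nat_lit 5) (nat_lit 192) (nat_lit 5) (nat_lit 185) (nat_lit 5) (nat_lit 376) (nat_lit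 332) (nat_lit 192))) (XT.nd (nat_lit 78) (nat_lit 1064) (nat_lit 0) (XT.lf (nat_lit 0) (nat_lit 14651569341) (nat_lit 456) (nat_lit 6449916008) (nat_lit 532) (nat_lit 1351822259) (nat_lit 178) (nat_lit 5) (nat_lit 184) (nat_lit 5) (nat_lit 185) (nat_lit 5) (nat_lit 377) (nat_lit 332) (nat_lit 191)) (XT.nd (nat_lit 78) (nat_lit 456) (nat_lit 0) (XT.lf (nat_lit 0) (nat_lit 4392389555) (nat_lit 608) (nat_lit 12738153101) (nat_lit 76) (nat_lit 5740385687) (nat_lit 170) (nat_lit 5) (nat_lit 178) (nat_lit 5) (nat_lit 171) (nat_lit 5) (nat_lit 378) (nat_lit 332) (nat_lit 190)) (XT.lf (nat_lit 0) (nat_lit 5415123476) (nat_lit 456) (nat_lit 4995645774) (nat_lit 532) (nat_lit 12887729569) (nat_lit 164) (nat_lit 5) (nat_lit 170) (nat_lit 5) (nat_lit 171) (nat_lit 5) (nat_lit 379) (nat_lit 332) (nat_lit 189)))))) (XT.nd (nat_lit 43524) (nat_lit 0) (nat_lit 19152) (XT.nd (nat_lit 43290) (nat_lit 0) (nat_lit 20672)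 (XT.nd (nat_lit 43212) (nat_lit 0) (nat_lit 20672) (XT.lf (nat_lit 0) (nat_lit 491935559) (nat_lit 456) (nat_lit 16245365316) (nat_lit 532) (nat_lit 6999047390) (nat_lit 158) (nat_lit 5) (nat_lit 164) (nat_lit 5) (nat_lit 165) (nat_lit 5) (nat_lit 380) (nat_lit 332) (nat_lit 188)) (XT.lf (nat_lit 0) (nat_lit 1690417089) (nat_lit 0) (nat_lit 1690417089) (nat_lit 1596) (nat_lit 2216010154) (nat_lit 430) (nat_lit 5) (nat_lit 430) (nat_lit 3) (nat_lit 451) (nat_lit 3) (nat_lit 333) (nat_lit 333) (nat_lit 234))) (XT.nd (nat_lit 78) (nat_lit 0) (nat_lit 0) (XT.lf (nat_lit 76) (nat_lit 55102299) (nat_lit 0) (nat_lit 7631928439) (nat_lit 1672) (nat_lit 3657658457) (nat_lit 431) (nat_lit 5) (nat_lit 430) (nat_lit 5) (nat_lit 452) (nat_lit 5) (nat_lit 334) (nat_lit 333) (nat_lit 233)) (XT.nd (nat_lit 78) (nat_lit 0) (nat_lit 76) (XT.lf (nat_lit 76) (nat_lit 8226578615) (nat_lit 0) (nat_lit 457783093) (nat_lit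 1672) (nat_lit 2814990505) (nat_lit 431) (nat_lit 5) (nat_lit 430) (nat_lit 5) (nat_lit 452) (nat_lit 5) (nat_lit 335) (nat_lit 333) (nat_lit 232)) (XT.lf (nat_lit 76) (nat_lit 4988175256) (nat_lit 0) (nat_lit 4770634197) (nat_lit 1672) (nat_lit 1898917876) (nat_lit 432) (nat_lit 5) (nat_lit 431) (nat_lit 5) (nat_lit 453) (nat_lit 5) (nat_lit 336) (nat_lit 333) (nat_lit 231))))) (XT.nd (nat_lit 156) (nat_lit 0) (nat_lit 76) (XT.nd (nat_lit 78) (nat_lit 1672) (nat_lit 0) (XT.lf (nat_lit 76) (nat_lit 1706284656) (nat_lit 0) (nat_lit 9183356979) (nat_lit 1672) (nat_lit 930744716) (nat_lit 433) (nat_lit 5) (nat_lit 432) (nat_lit 5) (nat_lit 454) (nat_lit 5) (nat_lit 337) (nat_lit 333) (nat_lit 230)) (XT.lf (nat_lit 0) (nat_lit 114201614) (nat_lit 1672) (nat_lit 1612284484) (nat_lit 1748) (nat_lit 10260473336) (nat_lit 410) (nat_lit 5) (nat_lit 432) (nat_lit 5) (nat_lit 433) (nat_lit 5) (nat_lit 338) (nat_lit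 333) (nat_lit 229))) (XT.nd (nat_lit 78) (nat_lit 0) (nat_lit 76) (XT.lf (nat_lit 0) (nat_lit 1235898221) (nat_lit 1672) (nat_lit 4980933963) (nat_lit 1748) (nat_lit 5940428025) (nat_lit 411) (nat_lit 5) (nat_lit 433) (nat_lit 5) (nat_lit 434) (nat_lit 5) (nat_lit 339) (nat_lit 333) (nat_lit 228)) (XT.nd (nat_lit 78) (nat_lit 0) (nat_lit 0) (XT.lf (nat_lit 0) (nat_lit 2422121670) (nat_lit 1672) (nat_lit 8401079319) (nat_lit 1748) (nat_lit 1508865560) (nat_lit 412) (nat_lit 5) (nat_lit 434) (nat_lit 5) (nat_lit 435) (nat_lit 5) (nat_lit 340) (nat_lit 333) (nat_lit 227)) (XT.lf (nat_lit 76) (nat_lit 615783479) (nat_lit 0) (nat_lit 3081258870) (nat_lit 1748) (nat_lit 8814026173) (nat_lit 413) (nat_lit 5) (nat_lit 412) (nat_lit 5) (nat_lit 435) (nat_lit 5) (nat_lit 341) (nat_lit 333) (nat_lit 226))))))) (XT.nd (nat_lit 780) (nat_lit 6764) (nat_lit 0) (XT.nd (nat_lit 390) (nat_lit 3116) (nat_lit 0) (XT.nd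 (nat_lit 156) (nat_lit 0) (nat_lit 76) (XT.nd (nat_lit 78) (nat_lit 0) (nat_lit 76) (XT.lf (nat_lit 0) (nat_lit 5073559971) (nat_lit 1672) (nat_lit 2726098565) (nat_lit 1748) (nat_lit 4894528286) (nat_lit 413) (nat_lit 5) (nat_lit 435) (nat_lit 5) (nat_lit 436) (nat_lit 5) (nat_lit 342) (nat_lit 333) (nat_lit 225)) (XT.lf (nat_lit 0) (nat_lit 6532498947) (nat_lit 1672) (nat_lit 6114511121) (nat_lit 1748) (nat_lit 234978955) (nat_lit 414) (nat_lit 5) (nat_lit 436) (nat_lit 5) (nat_lit 437) (nat_lit 5) (nat_lit 343) (nat_lit 333) (nat_lit 224))) (XT.nd (nat_lit 78) (nat_lit 0) (nat_lit 76) (XT.lf (nat_lit 76) (nat_lit 3483984605) (nat_lit 0) (nat_lit 4620286641) (nat_lit 1748) (nat_lit 4969785235) (nat_lit 415) (nat_lit 5) (nat_lit 414) (nat_lit 5) (nat_lit 437) (nat_lit 5) (nat_lit 344) (nat_lit 333) (nat_lit 223)) (XT.nd (nat_lit 78) (nat_lit 0) (nat_lit 0) (XT.lf (nat_lit 76) (nat_lit 143206720)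 (nat_lit 0) (nat_lit 9622636003) (nat_lit 1748) (nat_lit 3505202450) (nat_lit 416) (nat_lit 5) (nat_lit 415) (nat_lit 5) (nat_lit 438) (nat_lit 5) (nat_lit 345) (nat_lit 333) (nat_lit 222)) (XT.lf (nat_lit 76) (nat_lit 10250943127) (nat_lit 0) (nat_lit 1298901719) (nat_lit 1748) (nat_lit 1922658786) (nat_lit 416) (nat_lit 5) (nat_lit 415) (nat_lit 5) (nat_lit 438) (nat_lit 5) (nat_lit 346) (nat_lit 333) (nat_lit 221))))) (XT.nd (nat_lit 156) (nat_lit 1672) (nat_lit 0) (XT.nd (nat_lit 78) (nat_lit 1672) (nat_lit 0) (XT.lf (nat_lit 76) (nat_lit 7009112548) (nat_lit 0) (nat_lit 6448604954) (nat_lit 1748) (nat_lit 220892767) (nat_lit 417) (nat_lit 5) (nat_lit 416) (nat_lit 5) (nat_lit 439) (nat_lit 5) (nat_lit 347) (nat_lit 333) (nat_lit 220)) (XT.lf (nat_lit 0) (nat_lit 1558674893) (nat_lit 1748) (nat_lit 10191385591) (nat_lit 1824) (nat_lit 2139714775) (nat_lit 394) (nat_lit 5) (nat_lit 417) (nat_lit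 5) (nat_lit 418) (nat_lit 5) (nat_lit 348) (nat_lit 333) (nat_lit 219))) (XT.nd (nat_lit 78) (nat_lit 1672) (nat_lit 0) (XT.lf (nat_lit 76) (nat_lit 303625381) (nat_lit 0) (nat_lit 3154163088) (nat_lit 1824) (nat_lit 10648084896) (nat_lit 395) (nat_lit 5) (nat_lit 394) (nat_lit 5) (nat_lit 418) (nat_lit 5) (nat_lit 349) (nat_lit 333) (nat_lit 218)) (XT.nd (nat_lit 78) (nat_lit 1748) (nat_lit 0) (XT.lf (nat_lit 0) (nat_lit 5499486013) (nat_lit 1748) (nat_lit 3129404165) (nat_lit 76) (nat_lit 5697862282) (nat_lit 395) (nat_lit 5) (nat_lit 418) (nat_lit 5) (nat_lit 396) (nat_lit 5) (nat_lit 350) (nat_lit 333) (nat_lit 217)) (XT.lf (nat_lit 0) (nat_lit 7656488051) (nat_lit 1824) (nat_lit 6625816013) (nat_lit 76) (nat_lit 270882751) (nat_lit 372) (nat_lit 5) (nat_lit 396) (nat_lit 5) (nat_lit 373) (nat_lit 5) (nat_lit 351) (nat_lit 333) (nat_lit 216)))))) (XT.nd (nat_lit 390) (nat_lit 3116) (nat_lit 0)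 (XT.nd (nat_lit 156) (nat_lit 1748) (nat_lit 0) (XT.nd (nat_lit 78) (nat_lit 912) (nat_lit 0) (XT.lf (nat_lit 0) (nat_lit 4557138058) (nat_lit 988) (nat_lit 5409896747) (nat_lit 1064) (nat_lit 4817612374) (nat_lit 359) (nat_lit 5) (nat_lit 372) (nat_lit 5) (nat_lit 373) (nat_lit 5) (nat_lit 352) (nat_lit 333) (nat_lit 215)) (XT.lf (nat_lit 0) (nat_lit 1116656085) (nat_lit 912) (nat_lit 11287571324) (nat_lit 988) (nat_lit 2617686743) (nat_lit 347) (nat_lit 5) (nat_lit 359) (nat_lit 5) (nat_lit 360) (nat_lit 5) (nat_lit 353) (nat_lit 333) (nat_lit 214))) (XT.nd (nat_lit 78) (nat_lit 1748) (nat_lit 0) (XT.lf (nat_lit 0) (nat_lit 12887163240) (nat_lit 912) (nat_lit 2113742509) (nat_lit 988) (nat_lit 263675100) (nat_lit 347) (nat_lit 5) (nat_lit 359) (nat_lit 5) (nat_lit 360) (nat_lit 5) (nat_lit 354) (nat_lit 333) (nat_lit 213)) (XT.nd (nat_lit 78) (nat_lit 836) (nat_lit 0) (XT.lf (nat_lit 0) (nat_lit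 2224570717) (nat_lit 912) (nat_lit 5970573671) (nat_lit 76) (nat_lit 7317272124) (nat_lit 335) (nat_lit 5) (nat_lit 347) (nat_lit 5) (nat_lit 336) (nat_lit 5) (nat_lit 355) (nat_lit 333) (nat_lit 212)) (XT.lf (nat_lit 0) (nat_lit 4844450806) (nat_lit 912) (nat_lit 9643931668) (nat_lit 76) (nat_lit 1278066951) (nat_lit 324) (nat_lit 5) (nat_lit 336) (nat_lit 5) (nat_lit 325) (nat_lit 5) (nat_lit 356) (nat_lit 333) (nat_lit 211))))) (XT.nd (nat_lit 156) (nat_lit 2356) (nat_lit 0) (XT.nd (nat_lit 78) (nat_lit 0) (nat_lit 0) (XT.lf (nat_lit 0) (nat_lit 2594533728) (nat_lit 760) (nat_lit 5043170756) (nat_lit 836) (nat_lit 8388511476) (nat_lit 314) (nat_lit 5) (nat_lit 324) (nat_lit 5) (nat_lit 325) (nat_lit 5) (nat_lit 357) (nat_lit 333) (nat_lit 210)) (XT.lf (nat_lit 0) (nat_lit 10593764169) (nat_lit 836) (nat_lit 1008490070) (nat_lit 76) (nat_lit 4689949021) (nat_lit 314) (nat_lit 5) (nat_lit 325) (nat_lit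 5) (nat_lit 315) (nat_lit 5) (nat_lit 358) (nat_lit 333) (nat_lit 209))) (XT.nd (nat_lit 78) (nat_lit 1596) (nat_lit 0) (XT.lf (nat_lit 0) (nat_lit 11892824350) (nat_lit 760) (nat_lit 1839928734) (nat_lit 836) (nat_lit 2831539857) (nat_lit 304) (nat_lit 5) (nat_lit 314) (nat_lit 5) (nat_lit 315) (nat_lit 5) (nat_lit 359) (nat_lit 333) (nat_lit 208)) (XT.nd (nat_lit 78) (nat_lit 760) (nat_lit 0) (XT.lf (nat_lit 0) (nat_lit 218795168) (nat_lit 836) (nat_lit 8453677509) (nat_lit 76) (nat_lit 8170083799) (nat_lit 293) (nat_lit 5) (nat_lit 304) (nat_lit 5) (nat_lit 294) (nat_lit 5) (nat_lit 360) (nat_lit 333) (nat_lit 207)) (XT.lf (nat_lit 0) (nat_lit 3390753811) (nat_lit 836) (nat_lit 12345761963) (nat_lit 76) (nat_lit 1390913277) (nat_lit 283) (nat_lit 5) (nat_lit 294) (nat_lit 5) (nat_lit 284) (nat_lit 5) (nat_lit 361) (nat_lit 333) (nat_lit 206))))))))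
noncomputable def xc106 : XT := (XT.nd (nat_lit 44694) (nat_lit 0) (nat_lit 14820) (XT.nd (nat_lit 702) (nat_lit 4332) (nat_lit 0) (XT.nd (nat_lit 312) (nat_lit 2660) (nat_lit 0) (XT.nd (nat_lit 156) (nat_lit 1368) (nat_lit 0) (XT.nd (nat_lit 78) (nat_lit 0) (nat_lit 0) (XT.lf (nat_lit 0) (nat_lit 1048589111) (nat_lit 684) (nat_lit 5716043161) (nat_lit 760) (nat_lit 10654087224) (nat_lit 274) (nat_lit 5) (nat_lit 283) (nat_lit 5) (nat_lit 284) (nat_lit 5) (nat_lit 362) (nat_lit 333) (nat_lit 205)) (XT.lf (nat_lit 0) (nat_lit 10338472684) (nat_lit 760) (nat_lit 2750671614) (nat_lit 76) (nat_lit 4627636159) (nat_lit 274) (nat_lit 5) (nat_lit 284) (nat_lit 5) (nat_lit 275) (nat_lit 5) (nat_lit 363) (nat_lit 333) (nat_lit 204))) (XT.nd (nat_lit 78) (nat_lit 684) (nat_lit 0) (XT.lf (nat_lit 0) (nat_lit 11371877224) (nat_lit 684) (nat_lit 2744791912) (nat_lit 760) (nat_lit 3905177813) (nat_lit 265) (nat_lit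 5) (nat_lit 274) (nat_lit 5) (nat_lit 275) (nat_lit 5) (nat_lit 364) (nat_lit 333) (nat_lit 203)) (XT.lf (nat_lit 0) (nat_lit 7652511951) (nat_lit 684) (nat_lit 10460904762) (nat_lit 760) (nat_lit 220550946) (nat_lit 256) (nat_lit 5) (nat_lit 265) (nat_lit 5) (nat_lit 266) (nat_lit 5) (nat_lit 365) (nat_lit 333) (nat_lit 202)))) (XT.nd (nat_lit 156) (nat_lit 1900) (nat_lit 0) (XT.nd (nat_lit 78) (nat_lit 0) (nat_lit 0) (XT.lf (nat_lit 0) (nat_lit 3603188661) (nat_lit 760) (nat_lit 14842563617) (nat_lit 76) (nat_lit 207732448) (nat_lit 246) (nat_lit 5) (nat_lit 256) (nat_lit 5) (nat_lit 247) (nat_lit 5) (nat_lit 366) (nat_lit 333) (nat_lit 201)) (XT.lf (nat_lit 0) (nat_lit 7667399723) (nat_lit 760) (nat_lit 185144852) (nat_lit 76) (nat_lit 11127444309) (nat_lit 246) (nat_lit 5) (nat_lit 256) (nat_lit 5) (nat_lit 247) (nat_lit 5) (nat_lit 367) (nat_lit 333) (nat_lit 200))) (XT.nd (nat_lit 78) (nat_lit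 1292) (nat_lit 0) (XT.lf (nat_lit 0) (nat_lit 11958361561) (nat_lit 684) (nat_lit 4241037481) (nat_lit 76) (nat_lit 3114798313) (nat_lit 238) (nat_lit 5) (nat_lit 247) (nat_lit 5) (nat_lit 239) (nat_lit 5) (nat_lit 368) (nat_lit 333) (nat_lit 199)) (XT.nd (nat_lit 78) (nat_lit 684) (nat_lit 0) (XT.lf (nat_lit 0) (nat_lit 11211969955) (nat_lit 608) (nat_lit 5279267745) (nat_lit 684) (nat_lit 3164936183) (nat_lit 230) (nat_lit 5) (nat_lit 238) (nat_lit 5) (nat_lit 239) (nat_lit 5) (nat_lit 369) (nat_lit 333) (nat_lit 198)) (XT.lf (nat_lit 0) (nat_lit 1238685968) (nat_lit 684) (nat_lit 12795908202) (nat_lit 76) (nat_lit 5971629232) (nat_lit 221) (nat_lit 5) (nat_lit 230) (nat_lit 5) (nat_lit 222) (nat_lit 5) (nat_lit 370) (nat_lit 333) (nat_lit 197)))))) (XT.nd (nat_lit 390) (nat_lit 2052) (nat_lit 0) (XT.nd (nat_lit 156) (nat_lit 1672) (nat_lit 0) (XT.nd (nat_lit 78) (nat_lit 0) (nat_lit 0) (XT.lf (nat_lit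 0) (nat_lit 3051792915) (nat_lit 608) (nat_lit 2779664285) (nat_lit 684) (nat_lit 14532903104) (nat_lit 213) (nat_lit 5) (nat_lit 221) (nat_lit 5) (nat_lit 222) (nat_lit 5) (nat_lit 371) (nat_lit 333) (nat_lit 196)) (XT.lf (nat_lit 0) (nat_lit 10693846593) (nat_lit 684) (nat_lit 1255014094) (nat_lit 76) (nat_lit 8781748875) (nat_lit 213) (nat_lit 5) (nat_lit 222) (nat_lit 5) (nat_lit 214) (nat_lit 5) (nat_lit 372) (nat_lit 333) (nat_lit 195))) (XT.nd (nat_lit 78) (nat_lit 1140) (nat_lit 0) (XT.lf (nat_lit 0) (nat_lit 15453015028) (nat_lit 532) (nat_lit 355714060) (nat_lit 608) (nat_lit 5296989579) (nat_lit 206) (nat_lit 5) (nat_lit 213) (nat_lit 5) (nat_lit 214) (nat_lit 5) (nat_lit 373) (nat_lit 333) (nat_lit 194)) (XT.nd (nat_lit 78) (nat_lit 608) (nat_lit 0) (XT.lf (nat_lit 0) (nat_lit 11244442547) (nat_lit 532) (nat_lit 9977343441) (nat_lit 608) (nat_lit 267405164) (nat_lit 199) (nat_lit 5) (nat_lit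 206) (nat_lit 5) (nat_lit 207) (nat_lit 5) (nat_lit 374) (nat_lit 333) (nat_lit 193)) (XT.lf (nat_lit 0) (nat_lit 4935099337) (nat_lit 608) (nat_lit 15011794338) (nat_lit 76) (nat_lit 1934911229) (nat_lit 191) (nat_lit 5) (nat_lit 199) (nat_lit 5) (nat_lit 192) (nat_lit 5) (nat_lit 375) (nat_lit 333) (nat_lit 192))))) (XT.nd (nat_lit 156) (nat_lit 1520) (nat_lit 0) (XT.nd (nat_lit 78) (nat_lit 0) (nat_lit 0) (XT.lf (nat_lit 0) (nat_lit 2299634364) (nat_lit 532) (nat_lit 8130307404) (nat_lit 608) (nat_lit 11853426342) (nat_lit 184) (nat_lit 5) (nat_lit 191) (nat_lit 5) (nat_lit 192) (nat_lit 5) (nat_lit 376) (nat_lit 333) (nat_lit 191)) (XT.lf (nat_lit 0) (nat_lit 16206822900) (nat_lit 608) (nat_lit 2401116691) (nat_lit 76) (nat_lit 4086698936) (nat_lit 184) (nat_lit 5) (nat_lit 192) (nat_lit 5) (nat_lit 185) (nat_lit 5) (nat_lit 377) (nat_lit 333) (nat_lit 190))) (XT.nd (nat_lit 78) (nat_lit 1064)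 (nat_lit 0) (XT.lf (nat_lit 0) (nat_lit 15847741621) (nat_lit 456) (nat_lit 6455426771) (nat_lit 532) (nat_lit 812159565) (nat_lit 178) (nat_lit 5) (nat_lit 184) (nat_lit 5) (nat_lit 185) (nat_lit 5) (nat_lit 378) (nat_lit 333) (nat_lit 189)) (XT.nd (nat_lit 78) (nat_lit 456) (nat_lit 0) (XT.lf (nat_lit 0) (nat_lit 5086215305) (nat_lit 608) (nat_lit 12358091962) (nat_lit 76) (nat_lit 6101311662) (nat_lit 170) (nat_lit 5) (nat_lit 178) (nat_lit 5) (nat_lit 171) (nat_lit 5) (nat_lit 379) (nat_lit 333) (nat_lit 188)) (XT.lf (nat_lit 0) (nat_lit 6327417030) (nat_lit 456) (nat_lit 4946227312) (nat_lit 532) (nat_lit 12712607933) (nat_lit 164) (nat_lit 5) (nat_lit 170) (nat_lit 5) (nat_lit 171) (nat_lit 5) (nat_lit 380) (nat_lit 333) (nat_lit 187))))))) (XT.nd (nat_lit 780) (nat_lit 3876) (nat_lit 0) (XT.nd (nat_lit 390) (nat_lit 0) (nat_lit 0) (XT.nd (nat_lit 156) (nat_lit 1520) (nat_lit 0) (XT.nd (nat_lit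 78) (nat_lit 0) (nat_lit 0) (XT.lf (nat_lit 0) (nat_lit 2136866560) (nat_lit 0) (nat_lit 2136866560) (nat_lit 1596) (nat_lit 1474765106) (nat_lit 430) (nat_lit 5) (nat_lit 430) (nat_lit 3) (nat_lit 451) (nat_lit 3) (nat_lit 334) (nat_lit 334) (nat_lit 232)) (XT.lf (nat_lit 76) (nat_lit 872419516) (nat_lit 0) (nat_lit 8582371433) (nat_lit 1672) (nat_lit 2198676599) (nat_lit 431) (nat_lit 5) (nat_lit 430) (nat_lit 5) (nat_lit 452) (nat_lit 5) (nat_lit 335) (nat_lit 334) (nat_lit 231))) (XT.nd (nat_lit 78) (nat_lit 1520) (nat_lit 0) (XT.lf (nat_lit 76) (nat_lit 9265282914) (nat_lit 0) (nat_lit 1171987597) (nat_lit 1672) (nat_lit 1376419238) (nat_lit 431) (nat_lit 5) (nat_lit 430) (nat_lit 5) (nat_lit 452) (nat_lit 5) (nat_lit 336) (nat_lit 334) (nat_lit 230)) (XT.nd (nat_lit 78) (nat_lit 1596) (nat_lit 0) (XT.lf (nat_lit 76) (nat_lit 5951499727) (nat_lit 0) (nat_lit 5549852128) (nat_lit 1672) (nat_lit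 476339428) (nat_lit 432) (nat_lit 5) (nat_lit 431) (nat_lit 5) (nat_lit 453) (nat_lit 5) (nat_lit 337) (nat_lit 334) (nat_lit 229)) (XT.lf (nat_lit 0) (nat_lit 472932476) (nat_lit 1672) (nat_lit 9557881100) (nat_lit 1748) (nat_lit 2115193216) (nat_lit 410) (nat_lit 5) (nat_lit 432) (nat_lit 5) (nat_lit 433) (nat_lit 5) (nat_lit 338) (nat_lit 334) (nat_lit 228))))) (XT.nd (nat_lit 156) (nat_lit 0) (nat_lit 152) (XT.nd (nat_lit 78) (nat_lit 0) (nat_lit 76) (XT.lf (nat_lit 0) (nat_lit 1495323240) (nat_lit 1672) (nat_lit 832090549) (nat_lit 1748) (nat_lit 9990886822) (nat_lit 410) (nat_lit 5) (nat_lit 432) (nat_lit 5) (nat_lit 433) (nat_lit 5) (nat_lit 339) (nat_lit 334) (nat_lit 227)) (XT.lf (nat_lit 0) (nat_lit 2612409546) (nat_lit 1672) (nat_lit 4284265386) (nat_lit 1748) (nat_lit 5597821487) (nat_lit 411) (nat_lit 5) (nat_lit 433) (nat_lit 5) (nat_lit 434) (nat_lit 5) (nat_lit 340) (nat_lit 334) (nat_lit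 226))) (XT.nd (nat_lit 78) (nat_lit 0) (nat_lit 0) (XT.lf (nat_lit 0) (nat_lit 3797537350) (nat_lit 1672) (nat_lit 7790878776) (nat_lit 1748) (nat_lit 1086884654) (nat_lit 412) (nat_lit 5) (nat_lit 434) (nat_lit 5) (nat_lit 435) (nat_lit 5) (nat_lit 341) (nat_lit 334) (nat_lit 225)) (XT.nd (nat_lit 78) (nat_lit 0) (nat_lit 76) (XT.lf (nat_lit 76) (nat_lit 1482501201) (nat_lit 0) (nat_lit 3595767578) (nat_lit 1748) (nat_lit 7782072363) (nat_lit 413) (nat_lit 5) (nat_lit 412) (nat_lit 5) (nat_lit 435) (nat_lit 5) (nat_lit 342) (nat_lit 334) (nat_lit 224)) (XT.lf (nat_lit 0) (nat_lit 6456421911) (nat_lit 1672) (nat_lit 1956382475) (nat_lit 1748) (nat_lit 4636960828) (nat_lit 413) (nat_lit 5) (nat_lit 435) (nat_lit 5) (nat_lit 436) (nat_lit 5) (nat_lit 343) (nat_lit 334) (nat_lit 223)))))) (XT.nd (nat_lit 390) (nat_lit 2584) (nat_lit 0) (XT.nd (nat_lit 156) (nat_lit 1520) (nat_lit 0) (XT.nd (nat_lit 78)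 (nat_lit 0) (nat_lit 76) (XT.lf (nat_lit 76) (nat_lit 7809810864) (nat_lit 0) (nat_lit 117320379) (nat_lit 1748) (nat_lit 5316728664) (nat_lit 414) (nat_lit 5) (nat_lit 413) (nat_lit 5) (nat_lit 436) (nat_lit 5) (nat_lit 344) (nat_lit 334) (nat_lit 222)) (XT.lf (nat_lit 76) (nat_lit 4439135208) (nat_lit 0) (nat_lit 5076792480) (nat_lit 1748) (nat_lit 3926382213) (nat_lit 415) (nat_lit 5) (nat_lit 414) (nat_lit 5) (nat_lit 437) (nat_lit 5) (nat_lit 345) (nat_lit 334) (nat_lit 221))) (XT.nd (nat_lit 78) (nat_lit 1672) (nat_lit 0) (XT.lf (nat_lit 76) (nat_lit 1009943440) (nat_lit 0) (nat_lit 10186963717) (nat_lit 1748) (nat_lit 2448927288) (nat_lit 416) (nat_lit 5) (nat_lit 415) (nat_lit 5) (nat_lit 438) (nat_lit 5) (nat_lit 346) (nat_lit 334) (nat_lit 220)) (XT.nd (nat_lit 78) (nat_lit 1672) (nat_lit 0) (XT.lf (nat_lit 76) (nat_lit 11395792313) (nat_lit 0) (nat_lit 1605488803) (nat_lit 1748) (nat_lit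 852735409) (nat_lit 416) (nat_lit 5) (nat_lit 415) (nat_lit 5) (nat_lit 438) (nat_lit 5) (nat_lit 347) (nat_lit 334) (nat_lit 219)) (XT.lf (nat_lit 0) (nat_lit 859709174) (nat_lit 1748) (nat_lit 6005419859) (nat_lit 1824) (nat_lit 7201647929) (nat_lit 393) (nat_lit 5) (nat_lit 416) (nat_lit 5) (nat_lit 417) (nat_lit 5) (nat_lit 348) (nat_lit 334) (nat_lit 218))))) (XT.nd (nat_lit 156) (nat_lit 2660) (nat_lit 0) (XT.nd (nat_lit 78) (nat_lit 0) (nat_lit 0) (XT.lf (nat_lit 0) (nat_lit 2662250097) (nat_lit 1748) (nat_lit 9625393357) (nat_lit 1824) (nat_lit 1997168120) (nat_lit 394) (nat_lit 5) (nat_lit 417) (nat_lit 5) (nat_lit 418) (nat_lit 5) (nat_lit 349) (nat_lit 334) (nat_lit 217)) (XT.lf (nat_lit 76) (nat_lit 1170325098) (nat_lit 0) (nat_lit 3422799013) (nat_lit 1824) (nat_lit 9914787935) (nat_lit 395) (nat_lit 5) (nat_lit 394) (nat_lit 5) (nat_lit 418) (nat_lit 5) (nat_lit 350) (nat_lit 334) (nat_lit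 216))) (XT.nd (nat_lit 78) (nat_lit 2736) (nat_lit 0) (XT.lf (nat_lit 0) (nat_lit 6664929033) (nat_lit 1748) (nat_lit 2369054960) (nat_lit 76) (nat_lit 5702071115) (nat_lit 395) (nat_lit 5) (nat_lit 418) (nat_lit 5) (nat_lit 396) (nat_lit 5) (nat_lit 351) (nat_lit 334) (nat_lit 215)) (XT.nd (nat_lit 78) (nat_lit 988) (nat_lit 0) (XT.lf (nat_lit 0) (nat_lit 8862072205) (nat_lit 1824) (nat_lit 5963320470) (nat_lit 76) (nat_lit 144395492) (nat_lit 372) (nat_lit 5) (nat_lit 396) (nat_lit 5) (nat_lit 373) (nat_lit 5) (nat_lit 352) (nat_lit 334) (nat_lit 214)) (XT.lf (nat_lit 0) (nat_lit 5541149140) (nat_lit 988) (nat_lit 5677863468) (nat_lit 1064) (nat_lit 3989652066) (nat_lit 359) (nat_lit 5) (nat_lit 372) (nat_lit 5) (nat_lit 373) (nat_lit 5) (nat_lit 353) (nat_lit 334) (nat_lit 213))))))))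
noncomputable def xc107 : XT := (XT.nd (nat_lit 1482) (nat_lit 3268) (nat_lit 0) (XT.nd (nat_lit 702) (nat_lit 5320) (nat_lit 0) (XT.nd (nat_lit 312) (nat_lit 3116) (nat_lit 0) (XT.nd (nat_lit 156) (nat_lit 1672) (nat_lit 0) (XT.nd (nat_lit 78) (nat_lit 76) (nat_lit 0) (XT.lf (nat_lit 0) (nat_lit 2003586470) (nat_lit 912) (nat_lit 11702853151) (nat_lit 988) (nat_lit 1747081137) (nat_lit 347) (nat_lit 5) (nat_lit 359) (nat_lit 5) (nat_lit 360) (nat_lit 5) (nat_lit 354) (nat_lit 334) (nat_lit 212)) (XT.lf (nat_lit 0) (nat_lit 641382475) (nat_lit 988) (nat_lit 1605890320) (nat_lit 76) (nat_lit 13456665145) (nat_lit 346) (nat_lit 5) (nat_lit 359) (nat_lit 5) (nat_lit 347) (nat_lit 5) (nat_lit 355) (nat_lit 334) (nat_lit 211))) (XT.nd (nat_lit 78) (nat_lit 836) (nat_lit 0) (XT.lf (nat_lit 0) (nat_lit 3179203442) (nat_lit 912) (nat_lit 5303674084) (nat_lit 76) (nat_lit 7476738538) (nat_lit 335) (nat_lit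 5) (nat_lit 347) (nat_lit 5) (nat_lit 336) (nat_lit 5) (nat_lit 356) (nat_lit 334) (nat_lit 210)) (XT.lf (nat_lit 0) (nat_lit 5856994485) (nat_lit 912) (nat_lit 9082978530) (nat_lit 76) (nat_lit 1281722747) (nat_lit 324) (nat_lit 5) (nat_lit 336) (nat_lit 5) (nat_lit 325) (nat_lit 5) (nat_lit 357) (nat_lit 334) (nat_lit 209)))) (XT.nd (nat_lit 156) (nat_lit 2356) (nat_lit 0) (XT.nd (nat_lit 78) (nat_lit 0) (nat_lit 0) (XT.lf (nat_lit 0) (nat_lit 3508846188) (nat_lit 760) (nat_lit 5205371996) (nat_lit 836) (nat_lit 7775445396) (nat_lit 314) (nat_lit 5) (nat_lit 324) (nat_lit 5) (nat_lit 325) (nat_lit 5) (nat_lit 358) (nat_lit 334) (nat_lit 208)) (XT.lf (nat_lit 0) (nat_lit 11734209868) (nat_lit 836) (nat_lit 209729126) (nat_lit 76) (nat_lit 4820197898) (nat_lit 314) (nat_lit 5) (nat_lit 325) (nat_lit 5) (nat_lit 315) (nat_lit 5) (nat_lit 359) (nat_lit 334) (nat_lit 207))) (XT.nd (nat_lit 78) (nat_lit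 1596) (nat_lit 0) (XT.lf (nat_lit 0) (nat_lit 13065174933) (nat_lit 760) (nat_lit 1883528534) (nat_lit 836) (nat_lit 2096070157) (nat_lit 304) (nat_lit 5) (nat_lit 314) (nat_lit 5) (nat_lit 315) (nat_lit 5) (nat_lit 360) (nat_lit 334) (nat_lit 206)) (XT.nd (nat_lit 78) (nat_lit 760) (nat_lit 0) (XT.lf (nat_lit 0) (nat_lit 1016855452) (nat_lit 836) (nat_lit 7877976836) (nat_lit 76) (nat_lit 8436819966) (nat_lit 293) (nat_lit 5) (nat_lit 304) (nat_lit 5) (nat_lit 294) (nat_lit 5) (nat_lit 361) (nat_lit 334) (nat_lit 205)) (XT.lf (nat_lit 0) (nat_lit 4266490087) (nat_lit 836) (nat_lit 11884736285) (nat_lit 76) (nat_lit 1474204511) (nat_lit 283) (nat_lit 5) (nat_lit 294) (nat_lit 5) (nat_lit 284) (nat_lit 5) (nat_lit 362) (nat_lit 334) (nat_lit 204)))))) (XT.nd (nat_lit 390) (nat_lit 2508) (nat_lit 0) (XT.nd (nat_lit 156) (nat_lit 2128) (nat_lit 0) (XT.nd (nat_lit 78) (nat_lit 0) (nat_lit 0) (XT.lf (nat_lit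 0) (nat_lit 1897956868) (nat_lit 684) (nat_lit 5826394362) (nat_lit 760) (nat_lit 10201463410) (nat_lit 274) (nat_lit 5) (nat_lit 283) (nat_lit 5) (nat_lit 284) (nat_lit 5) (nat_lit 363) (nat_lit 334) (nat_lit 203)) (XT.lf (nat_lit 0) (nat_lit 11383750056) (nat_lit 760) (nat_lit 2024473678) (nat_lit 76) (nat_lit 4825036469) (nat_lit 274) (nat_lit 5) (nat_lit 284) (nat_lit 5) (nat_lit 275) (nat_lit 5) (nat_lit 364) (nat_lit 334) (nat_lit 202))) (XT.nd (nat_lit 78) (nat_lit 1444) (nat_lit 0) (XT.lf (nat_lit 0) (nat_lit 12508631135) (nat_lit 684) (nat_lit 2750415458) (nat_lit 760) (nat_lit 3288766367) (nat_lit 265) (nat_lit 5) (nat_lit 274) (nat_lit 5) (nat_lit 275) (nat_lit 5) (nat_lit 365) (nat_lit 334) (nat_lit 201)) (XT.nd (nat_lit 78) (nat_lit 684) (nat_lit 0) (XT.lf (nat_lit 0) (nat_lit 484365437) (nat_lit 760) (nat_lit 10194060314) (nat_lit 76) (nat_lit 8191122535) (nat_lit 255) (nat_lit 5) (nat_lit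 265) (nat_lit 5) (nat_lit 256) (nat_lit 5) (nat_lit 366) (nat_lit 334) (nat_lit 200)) (XT.lf (nat_lit 0) (nat_lit 4405001585) (nat_lit 760) (nat_lit 14481059829) (nat_lit 76) (nat_lit 312865325) (nat_lit 246) (nat_lit 5) (nat_lit 256) (nat_lit 5) (nat_lit 247) (nat_lit 5) (nat_lit 367) (nat_lit 334) (nat_lit 199))))) (XT.nd (nat_lit 156) (nat_lit 1900) (nat_lit 0) (XT.nd (nat_lit 78) (nat_lit 0) (nat_lit 0) (XT.lf (nat_lit 0) (nat_lit 600458147) (nat_lit 608) (nat_lit 7974374046) (nat_lit 684) (nat_lit 10960728358) (nat_lit 238) (nat_lit 5) (nat_lit 246) (nat_lit 5) (nat_lit 247) (nat_lit 5) (nat_lit 368) (nat_lit 334) (nat_lit 198)) (XT.lf (nat_lit 0) (nat_lit 12976735618) (nat_lit 684) (nat_lit 3584969673) (nat_lit 76) (nat_lit 3318453879) (nat_lit 238) (nat_lit 5) (nat_lit 247) (nat_lit 5) (nat_lit 239) (nat_lit 5) (nat_lit 369) (nat_lit 334) (nat_lit 197))) (XT.nd (nat_lit 78) (nat_lit 1292) (nat_lit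 0) (XT.lf (nat_lit 0) (nat_lit 12318919892) (nat_lit 608) (nat_lit 5312469011) (nat_lit 684) (nat_lit 2601298186) (nat_lit 230) (nat_lit 5) (nat_lit 238) (nat_lit 5) (nat_lit 239) (nat_lit 5) (nat_lit 370) (nat_lit 334) (nat_lit 196)) (XT.nd (nat_lit 78) (nat_lit 608) (nat_lit 0) (XT.lf (nat_lit 0) (nat_lit 1912692974) (nat_lit 684) (nat_lit 12400823384) (nat_lit 76) (nat_lit 6279905789) (nat_lit 221) (nat_lit 5) (nat_lit 230) (nat_lit 5) (nat_lit 222) (nat_lit 5) (nat_lit 371) (nat_lit 334) (nat_lit 195)) (XT.lf (nat_lit 0) (nat_lit 3909671032) (nat_lit 608) (nat_lit 2720002872) (nat_lit 684) (nat_lit 14332908033) (nat_lit 213) (nat_lit 5) (nat_lit 221) (nat_lit 5) (nat_lit 222) (nat_lit 5) (nat_lit 372) (nat_lit 334) (nat_lit 194))))))) (XT.nd (nat_lit 44070) (nat_lit 0) (nat_lit 18088) (XT.nd (nat_lit 390) (nat_lit 1064) (nat_lit 0) (XT.nd (nat_lit 156) (nat_lit 1672) (nat_lit 0) (XT.nd (nat_lit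 78) (nat_lit 532) (nat_lit 0) (XT.lf (nat_lit 0) (nat_lit 11620683128) (nat_lit 684) (nat_lit 537223040) (nat_lit 76) (nat_lit 9182264639) (nat_lit 213) (nat_lit 5) (nat_lit 222) (nat_lit 5) (nat_lit 214) (nat_lit 5) (nat_lit 373) (nat_lit 334) (nat_lit 193)) (XT.lf (nat_lit 0) (nat_lit 16659790816) (nat_lit 532) (nat_lit 216395435) (nat_lit 608) (nat_lit 4850610346) (nat_lit 206) (nat_lit 5) (nat_lit 213) (nat_lit 5) (nat_lit 214) (nat_lit 5) (nat_lit 374) (nat_lit 334) (nat_lit 192))) (XT.nd (nat_lit 78) (nat_lit 1064) (nat_lit 0) (XT.lf (nat_lit 0) (nat_lit 313938483) (nat_lit 608) (nat_lit 9800232361) (nat_lit 76) (nat_lit 12007798075) (nat_lit 198) (nat_lit 5) (nat_lit 206) (nat_lit 5) (nat_lit 199) (nat_lit 5) (nat_lit 375) (nat_lit 334) (nat_lit 191)) (XT.nd (nat_lit 78) (nat_lit 532) (nat_lit 0) (XT.lf (nat_lit 0) (nat_lit 5657703513) (nat_lit 608) (nat_lit 14713632267) (nat_lit 76) (nat_lit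 2155219954) (nat_lit 191) (nat_lit 5) (nat_lit 199) (nat_lit 5) (nat_lit 192) (nat_lit 5) (nat_lit 376) (nat_lit 334) (nat_lit 190)) (XT.lf (nat_lit 0) (nat_lit 3104995514) (nat_lit 532) (nat_lit 8200442218) (nat_lit 608) (nat_lit 11634973357) (nat_lit 184) (nat_lit 5) (nat_lit 191) (nat_lit 5) (nat_lit 192) (nat_lit 5) (nat_lit 377) (nat_lit 334) (nat_lit 189))))) (XT.nd (nat_lit 156) (nat_lit 608) (nat_lit 0) (XT.nd (nat_lit 78) (nat_lit 456) (nat_lit 0) (XT.lf (nat_lit 0) (nat_lit 17240334355) (nat_lit 608) (nat_lit 1748196867) (nat_lit 76) (nat_lit 4375800219) (nat_lit 184) (nat_lit 5) (nat_lit 192) (nat_lit 5) (nat_lit 185) (nat_lit 5) (nat_lit 378) (nat_lit 334) (nat_lit 188)) (XT.lf (nat_lit 0) (nat_lit 17036365688) (nat_lit 456) (nat_lit 6471894065) (nat_lit 532) (nat_lit 289613840) (nat_lit 178) (nat_lit 5) (nat_lit 184) (nat_lit 5) (nat_lit 185) (nat_lit 5) (nat_lit 379) (nat_lit 334) (nat_lit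 187))) (XT.nd (nat_lit 43368) (nat_lit 0) (nat_lit 19760) (XT.lf (nat_lit 0) (nat_lit 5768591625) (nat_lit 608) (nat_lit 12010382716) (nat_lit 76) (nat_lit 6462232438) (nat_lit 170) (nat_lit 5) (nat_lit 178) (nat_lit 5) (nat_lit 171) (nat_lit 5) (nat_lit 380) (nat_lit 334) (nat_lit 186)) (XT.nd (nat_lit 78) (nat_lit 0) (nat_lit 0) (XT.lf (nat_lit 0) (nat_lit 2573992595) (nat_lit 0) (nat_lit 2573992595) (nat_lit 1596) (nat_lit 757649445) (nat_lit 430) (nat_lit 5) (nat_lit 430) (nat_lit 3) (nat_lit 451) (nat_lit 3) (nat_lit 335) (nat_lit 335) (nat_lit 230)) (XT.lf (nat_lit 76) (nat_lit 1667433791) (nat_lit 0) (nat_lit 9519911519) (nat_lit 1672) (nat_lit 785975750) (nat_lit 431) (nat_lit 5) (nat_lit 430) (nat_lit 5) (nat_lit 452) (nat_lit 5) (nat_lit 336) (nat_lit 335) (nat_lit 229)))))) (XT.nd (nat_lit 390) (nat_lit 0) (nat_lit 304) (XT.nd (nat_lit 156) (nat_lit 0) (nat_lit 152) (XT.nd (nat_lit 78)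 (nat_lit 0) (nat_lit 76) (XT.lf (nat_lit 0) (nat_lit 17647011) (nat_lit 1672) (nat_lit 1849642902) (nat_lit 1748) (nat_lit 10271924211) (nat_lit 408) (nat_lit 5) (nat_lit 430) (nat_lit 5) (nat_lit 431) (nat_lit 5) (nat_lit 337) (nat_lit 335) (nat_lit 228)) (XT.lf (nat_lit 0) (nat_lit 892128461) (nat_lit 1672) (nat_lit 5417816805) (nat_lit 1748) (nat_lit 5998900303) (nat_lit 409) (nat_lit 5) (nat_lit 431) (nat_lit 5) (nat_lit 432) (nat_lit 5) (nat_lit 338) (nat_lit 335) (nat_lit 227))) (XT.nd (nat_lit 78) (nat_lit 0) (nat_lit 0) (XT.lf (nat_lit 0) (nat_lit 1824688972) (nat_lit 1672) (nat_lit 9040187951) (nat_lit 1748) (nat_lit 1618065794) (nat_lit 410) (nat_lit 5) (nat_lit 432) (nat_lit 5) (nat_lit 433) (nat_lit 5) (nat_lit 339) (nat_lit 335) (nat_lit 226)) (XT.nd (nat_lit 78) (nat_lit 0) (nat_lit 76) (XT.lf (nat_lit 0) (nat_lit 2838793152) (nat_lit 1672) (nat_lit 76053671) (nat_lit 1748) (nat_lit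 9746357875) (nat_lit 410) (nat_lit 5) (nat_lit 432) (nat_lit 5) (nat_lit 433) (nat_lit 5) (nat_lit 340) (nat_lit 335) (nat_lit 225)) (XT.lf (nat_lit 0) (nat_lit 3953327198) (nat_lit 1672) (nat_lit 3615266157) (nat_lit 1748) (nat_lit 5274833917) (nat_lit 411) (nat_lit 5) (nat_lit 433) (nat_lit 5) (nat_lit 434) (nat_lit 5) (nat_lit 341) (nat_lit 335) (nat_lit 224))))) (XT.nd (nat_lit 156) (nat_lit 0) (nat_lit 76) (XT.nd (nat_lit 78) (nat_lit 0) (nat_lit 0) (XT.lf (nat_lit 0) (nat_lit 5139432204) (nat_lit 1672) (nat_lit 7211867913) (nat_lit 1748) (nat_lit 679066202) (nat_lit 412) (nat_lit 5) (nat_lit 434) (nat_lit 5) (nat_lit 435) (nat_lit 5) (nat_lit 342) (nat_lit 335) (nat_lit 223)) (XT.lf (nat_lit 76) (nat_lit 2326527768) (nat_lit 0) (nat_lit 4101482948) (nat_lit 1748) (nat_lit 6793577143) (nat_lit 413) (nat_lit 5) (nat_lit 412) (nat_lit 5) (nat_lit 435) (nat_lit 5) (nat_lit 343) (nat_lit 335) (nat_lit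 222))) (XT.nd (nat_lit 78) (nat_lit 0) (nat_lit 0) (XT.lf (nat_lit 0) (nat_lit 7810125071) (nat_lit 1672) (nat_lit 1212454431) (nat_lit 1748) (nat_lit 4394880751) (nat_lit 413) (nat_lit 5) (nat_lit 435) (nat_lit 5) (nat_lit 436) (nat_lit 5) (nat_lit 344) (nat_lit 335) (nat_lit 221)) (XT.nd (nat_lit 78) (nat_lit 0) (nat_lit 76) (XT.lf (nat_lit 76) (nat_lit 8833703161) (nat_lit 0) (nat_lit 462592402) (nat_lit 1748) (nat_lit 4321672835) (nat_lit 414) (nat_lit 5) (nat_lit 413) (nat_lit 5) (nat_lit 436) (nat_lit 5) (nat_lit 345) (nat_lit 335) (nat_lit 220)) (XT.lf (nat_lit 76) (nat_lit 5374110627) (nat_lit 0) (nat_lit 5528744892) (nat_lit 1748) (nat_lit 2920131282) (nat_lit 415) (nat_lit 5) (nat_lit 414) (nat_lit 5) (nat_lit 437) (nat_lit 5) (nat_lit 346) (nat_lit 335) (nat_lit 219))))))))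
noncomputable def xc108 : XT := (XT.nd (nat_lit 1482) (nat_lit 6840) (nat_lit 0) (XT.nd (nat_lit 702) (nat_lit 5548) (nat_lit 0) (XT.nd (nat_lit 312) (nat_lit 3420) (nat_lit 0) (XT.nd (nat_lit 156) (nat_lit 0) (nat_lit 76) (XT.nd (nat_lit 78) (nat_lit 1748) (nat_lit 0) (XT.lf (nat_lit 76) (nat_lit 1853174648) (nat_lit 0) (nat_lit 10752397903) (nat_lit 1748) (nat_lit 1427634776) (nat_lit 416) (nat_lit 5) (nat_lit 415) (nat_lit 5) (nat_lit 438) (nat_lit 5) (nat_lit 347) (nat_lit 335) (nat_lit 218)) (XT.lf (nat_lit 0) (nat_lit 182136142) (nat_lit 1748) (nat_lit 1722552643) (nat_lit 1824) (nat_lit 12343562957) (nat_lit 392) (nat_lit 5) (nat_lit 415) (nat_lit 5) (nat_lit 416) (nat_lit 5) (nat_lit 348) (nat_lit 335) (nat_lit 217))) (XT.nd (nat_lit 78) (nat_lit 0) (nat_lit 76) (XT.lf (nat_lit 0) (nat_lit 1907505130) (nat_lit 1748) (nat_lit 5372418551) (nat_lit 1824) (nat_lit 7187911018) (nat_lit 393) (nat_lit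 5) (nat_lit 416) (nat_lit 5) (nat_lit 417) (nat_lit 5) (nat_lit 349) (nat_lit 335) (nat_lit 216)) (XT.lf (nat_lit 0) (nat_lit 3738267056) (nat_lit 1748) (nat_lit 9092462443) (nat_lit 1824) (nat_lit 1862212678) (nat_lit 394) (nat_lit 5) (nat_lit 417) (nat_lit 5) (nat_lit 418) (nat_lit 5) (nat_lit 350) (nat_lit 335) (nat_lit 215)))) (XT.nd (nat_lit 156) (nat_lit 3572) (nat_lit 0) (XT.nd (nat_lit 78) (nat_lit 0) (nat_lit 76) (XT.lf (nat_lit 76) (nat_lit 2013796578) (nat_lit 0) (nat_lit 3689505070) (nat_lit 1824) (nat_lit 9219923620) (nat_lit 395) (nat_lit 5) (nat_lit 394) (nat_lit 5) (nat_lit 418) (nat_lit 5) (nat_lit 351) (nat_lit 335) (nat_lit 214)) (XT.lf (nat_lit 0) (nat_lit 7807904937) (nat_lit 1748) (nat_lit 1634931651) (nat_lit 76) (nat_lit 5715977027) (nat_lit 395) (nat_lit 5) (nat_lit 418) (nat_lit 5) (nat_lit 396) (nat_lit 5) (nat_lit 352) (nat_lit 335) (nat_lit 213))) (XT.nd (nat_lit 78) (nat_lit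 1900) (nat_lit 0) (XT.lf (nat_lit 0) (nat_lit 10047803834) (nat_lit 1824) (nat_lit 5330390483) (nat_lit 76) (nat_lit 21840995) (nat_lit 372) (nat_lit 5) (nat_lit 396) (nat_lit 5) (nat_lit 373) (nat_lit 5) (nat_lit 353) (nat_lit 335) (nat_lit 212)) (XT.nd (nat_lit 78) (nat_lit 912) (nat_lit 0) (XT.lf (nat_lit 0) (nat_lit 6506042244) (nat_lit 988) (nat_lit 5947803312) (nat_lit 1064) (nat_lit 3192677776) (nat_lit 359) (nat_lit 5) (nat_lit 372) (nat_lit 5) (nat_lit 373) (nat_lit 5) (nat_lit 354) (nat_lit 335) (nat_lit 211)) (XT.lf (nat_lit 0) (nat_lit 2868134353) (nat_lit 912) (nat_lit 12126193139) (nat_lit 988) (nat_lit 904841663) (nat_lit 347) (nat_lit 5) (nat_lit 359) (nat_lit 5) (nat_lit 360) (nat_lit 5) (nat_lit 355) (nat_lit 335) (nat_lit 210)))))) (XT.nd (nat_lit 390) (nat_lit 2280) (nat_lit 0) (XT.nd (nat_lit 156) (nat_lit 2356) (nat_lit 0) (XT.nd (nat_lit 78) (nat_lit 836) (nat_lit 0) (XT.lf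 (nat_lit 0) (nat_lit 1517826267) (nat_lit 988) (nat_lit 861262331) (nat_lit 76) (nat_lit 13778420493) (nat_lit 346) (nat_lit 5) (nat_lit 359) (nat_lit 5) (nat_lit 347) (nat_lit 5) (nat_lit 356) (nat_lit 335) (nat_lit 209)) (XT.lf (nat_lit 0) (nat_lit 4111506310) (nat_lit 912) (nat_lit 4665332335) (nat_lit 76) (nat_lit 7644436161) (nat_lit 335) (nat_lit 5) (nat_lit 347) (nat_lit 5) (nat_lit 336) (nat_lit 5) (nat_lit 357) (nat_lit 335) (nat_lit 208))) (XT.nd (nat_lit 78) (nat_lit 1520) (nat_lit 0) (XT.lf (nat_lit 0) (nat_lit 6850133064) (nat_lit 912) (nat_lit 8554005838) (nat_lit 76) (nat_lit 1287479347) (nat_lit 324) (nat_lit 5) (nat_lit 336) (nat_lit 5) (nat_lit 325) (nat_lit 5) (nat_lit 358) (nat_lit 335) (nat_lit 207)) (XT.nd (nat_lit 78) (nat_lit 760) (nat_lit 0) (XT.lf (nat_lit 0) (nat_lit 4402570853) (nat_lit 760) (nat_lit 5371813218) (nat_lit 836) (nat_lit 7193625882) (nat_lit 314) (nat_lit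 5) (nat_lit 324) (nat_lit 5) (nat_lit 325) (nat_lit 5) (nat_lit 359) (nat_lit 335) (nat_lit 206)) (XT.lf (nat_lit 0) (nat_lit 572919701) (nat_lit 760) (nat_lit 12292446525) (nat_lit 836) (nat_lit 4385754163) (nat_lit 304) (nat_lit 5) (nat_lit 314) (nat_lit 5) (nat_lit 315) (nat_lit 5) (nat_lit 360) (nat_lit 335) (nat_lit 205))))) (XT.nd (nat_lit 156) (nat_lit 1444) (nat_lit 0) (XT.nd (nat_lit 78) (nat_lit 836) (nat_lit 0) (XT.lf (nat_lit 0) (nat_lit 14225879218) (nat_lit 760) (nat_lit 1929102103) (nat_lit 836) (nat_lit 1385631596) (nat_lit 304) (nat_lit 5) (nat_lit 314) (nat_lit 5) (nat_lit 315) (nat_lit 5) (nat_lit 361) (nat_lit 335) (nat_lit 204)) (XT.lf (nat_lit 0) (nat_lit 1793422411) (nat_lit 836) (nat_lit 7332610986) (nat_lit 76) (nat_lit 8710316357) (nat_lit 293) (nat_lit 5) (nat_lit 304) (nat_lit 5) (nat_lit 294) (nat_lit 5) (nat_lit 362) (nat_lit 335) (nat_lit 203))) (XT.nd (nat_lit 78) (nat_lit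 684) (nat_lit 0) (XT.lf (nat_lit 0) (nat_lit 5124066901) (nat_lit 836) (nat_lit 11457605513) (nat_lit 76) (nat_lit 1557608548) (nat_lit 283) (nat_lit 5) (nat_lit 294) (nat_lit 5) (nat_lit 284) (nat_lit 5) (nat_lit 363) (nat_lit 335) (nat_lit 202)) (XT.nd (nat_lit 78) (nat_lit 0) (nat_lit 0) (XT.lf (nat_lit 0) (nat_lit 2725854273) (nat_lit 684) (nat_lit 5943565216) (nat_lit 760) (nat_lit 9779590987) (nat_lit 274) (nat_lit 5) (nat_lit 283) (nat_lit 5) (nat_lit 284) (nat_lit 5) (nat_lit 364) (nat_lit 335) (nat_lit 201)) (XT.lf (nat_lit 0) (nat_lit 12418186670) (nat_lit 760) (nat_lit 1322913530) (nat_lit 76) (nat_lit 5024996560) (nat_lit 274) (nat_lit 5) (nat_lit 284) (nat_lit 5) (nat_lit 275) (nat_lit 5) (nat_lit 365) (nat_lit 335) (nat_lit 200))))))) (XT.nd (nat_lit 780) (nat_lit 1672) (nat_lit 0) (XT.nd (nat_lit 390) (nat_lit 2432) (nat_lit 0) (XT.nd (nat_lit 156) (nat_lit 1292) (nat_lit 0) (XT.nd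 (nat_lit 78) (nat_lit 760) (nat_lit 0) (XT.lf (nat_lit 0) (nat_lit 13633817107) (nat_lit 684) (nat_lit 2760611765) (nat_lit 760) (nat_lit 2695972312) (nat_lit 265) (nat_lit 5) (nat_lit 274) (nat_lit 5) (nat_lit 275) (nat_lit 5) (nat_lit 366) (nat_lit 335) (nat_lit 199)) (XT.lf (nat_lit 0) (nat_lit 1166776097) (nat_lit 760) (nat_lit 9739806580) (nat_lit 76) (nat_lit 8515414674) (nat_lit 255) (nat_lit 5) (nat_lit 265) (nat_lit 5) (nat_lit 256) (nat_lit 5) (nat_lit 367) (nat_lit 335) (nat_lit 198))) (XT.nd (nat_lit 78) (nat_lit 608) (nat_lit 0) (XT.lf (nat_lit 0) (nat_lit 5191046686) (nat_lit 760) (nat_lit 14155023441) (nat_lit 76) (nat_lit 415474872) (nat_lit 246) (nat_lit 5) (nat_lit 256) (nat_lit 5) (nat_lit 247) (nat_lit 5) (nat_lit 368) (nat_lit 335) (nat_lit 197)) (XT.nd (nat_lit 78) (nat_lit 0) (nat_lit 0) (XT.lf (nat_lit 0) (nat_lit 1366602382) (nat_lit 608) (nat_lit 8105181703) (nat_lit 684)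 (nat_lit 10636785414) (nat_lit 238) (nat_lit 5) (nat_lit 246) (nat_lit 5) (nat_lit 247) (nat_lit 5) (nat_lit 369) (nat_lit 335) (nat_lit 196)) (XT.lf (nat_lit 0) (nat_lit 13987795827) (nat_lit 684) (nat_lit 2954184393) (nat_lit 76) (nat_lit 3521892514) (nat_lit 238) (nat_lit 5) (nat_lit 247) (nat_lit 5) (nat_lit 239) (nat_lit 5) (nat_lit 370) (nat_lit 335) (nat_lit 195))))) (XT.nd (nat_lit 156) (nat_lit 1140) (nat_lit 0) (XT.nd (nat_lit 78) (nat_lit 684) (nat_lit 0) (XT.lf (nat_lit 0) (nat_lit 13414843261) (nat_lit 608) (nat_lit 5353851973) (nat_lit 684) (nat_lit 2058556585) (nat_lit 230) (nat_lit 5) (nat_lit 238) (nat_lit 5) (nat_lit 239) (nat_lit 5) (nat_lit 371) (nat_lit 335) (nat_lit 194)) (XT.lf (nat_lit 0) (nat_lit 2570362601) (nat_lit 684) (nat_lit 12038601631) (nat_lit 76) (nat_lit 6590018187) (nat_lit 221) (nat_lit 5) (nat_lit 230) (nat_lit 5) (nat_lit 222) (nat_lit 5) (nat_lit 372) (nat_lit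 335) (nat_lit 193))) (XT.nd (nat_lit 78) (nat_lit 532) (nat_lit 0) (XT.lf (nat_lit 0) (nat_lit 4749295342) (nat_lit 608) (nat_lit 2666763349) (nat_lit 684) (nat_lit 14163421089) (nat_lit 213) (nat_lit 5) (nat_lit 221) (nat_lit 5) (nat_lit 222) (nat_lit 5) (nat_lit 373) (nat_lit 335) (nat_lit 192)) (XT.nd (nat_lit 78) (nat_lit 0) (nat_lit 0) (XT.lf (nat_lit 0) (nat_lit 160845836) (nat_lit 532) (nat_lit 12380735149) (nat_lit 608) (nat_lit 9427126365) (nat_lit 206) (nat_lit 5) (nat_lit 213) (nat_lit 5) (nat_lit 214) (nat_lit 5) (nat_lit 374) (nat_lit 335) (nat_lit 191)) (XT.lf (nat_lit 0) (nat_lit 17860107998) (nat_lit 532) (nat_lit 81507293) (nat_lit 608) (nat_lit 4425585796) (nat_lit 206) (nat_lit 5) (nat_lit 213) (nat_lit 5) (nat_lit 214) (nat_lit 5) (nat_lit 375) (nat_lit 335) (nat_lit 190)))))) (XT.nd (nat_lit 43836) (nat_lit 0) (nat_lit 17024) (XT.nd (nat_lit 156) (nat_lit 532) (nat_lit 0) (XT.nd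 (nat_lit 78) (nat_lit 532) (nat_lit 0) (XT.lf (nat_lit 0) (nat_lit 875485513) (nat_lit 608) (nat_lit 9387225999) (nat_lit 76) (nat_lit 12511667788) (nat_lit 198) (nat_lit 5) (nat_lit 206) (nat_lit 5) (nat_lit 199) (nat_lit 5) (nat_lit 376) (nat_lit 335) (nat_lit 189)) (XT.lf (nat_lit 0) (nat_lit 6369004226) (nat_lit 608) (nat_lit 14449493210) (nat_lit 76) (nat_lit 2372823472) (nat_lit 191) (nat_lit 5) (nat_lit 199) (nat_lit 5) (nat_lit 192) (nat_lit 5) (nat_lit 377) (nat_lit 335) (nat_lit 188))) (XT.nd (nat_lit 78) (nat_lit 0) (nat_lit 0) (XT.lf (nat_lit 0) (nat_lit 3892246727) (nat_lit 532) (nat_lit 8282656439) (nat_lit 608) (nat_lit 11442919933) (nat_lit 184) (nat_lit 5) (nat_lit 191) (nat_lit 5) (nat_lit 192) (nat_lit 5) (nat_lit 378) (nat_lit 335) (nat_lit 187)) (XT.nd (nat_lit 43524) (nat_lit 0) (nat_lit 18696) (XT.lf (nat_lit 0) (nat_lit 18273433505) (nat_lit 608) (nat_lit 1117304735) (nat_lit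 76) (nat_lit 4664016742) (nat_lit 184) (nat_lit 5) (nat_lit 192) (nat_lit 5) (nat_lit 185) (nat_lit 5) (nat_lit 379) (nat_lit 335) (nat_lit 186)) (XT.lf (nat_lit 0) (nat_lit 3002819535) (nat_lit 0) (nat_lit 3002819535) (nat_lit 1596) (nat_lit 62725414) (nat_lit 430) (nat_lit 5) (nat_lit 430) (nat_lit 3) (nat_lit 451) (nat_lit 3) (nat_lit 336) (nat_lit 336) (nat_lit 228))))) (XT.nd (nat_lit 156) (nat_lit 0) (nat_lit 76) (XT.nd (nat_lit 78) (nat_lit 0) (nat_lit 0) (XT.lf (nat_lit 0) (nat_lit 576562710) (nat_lit 1672) (nat_lit 9866107318) (nat_lit 1748) (nat_lit 1861732087) (nat_lit 408) (nat_lit 5) (nat_lit 430) (nat_lit 5) (nat_lit 431) (nat_lit 5) (nat_lit 337) (nat_lit 336) (nat_lit 227)) (XT.lf (nat_lit 0) (nat_lit 1353613580) (nat_lit 1672) (nat_lit 1183092964) (nat_lit 1748) (nat_lit 9939282352) (nat_lit 408) (nat_lit 5) (nat_lit 430) (nat_lit 5) (nat_lit 431) (nat_lit 5) (nat_lit 338) (nat_lit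 336) (nat_lit 226))) (XT.nd (nat_lit 78) (nat_lit 0) (nat_lit 76) (XT.lf (nat_lit 0) (nat_lit 2216209101) (nat_lit 1672) (nat_lit 4839494484) (nat_lit 1748) (nat_lit 5595788289) (nat_lit 409) (nat_lit 5) (nat_lit 431) (nat_lit 5) (nat_lit 432) (nat_lit 5) (nat_lit 339) (nat_lit 336) (nat_lit 225)) (XT.nd (nat_lit 78) (nat_lit 0) (nat_lit 0) (XT.lf (nat_lit 0) (nat_lit 3140216258) (nat_lit 1672) (nat_lit 8553141556) (nat_lit 1748) (nat_lit 1138204320) (nat_lit 410) (nat_lit 5) (nat_lit 432) (nat_lit 5) (nat_lit 433) (nat_lit 5) (nat_lit 340) (nat_lit 336) (nat_lit 224)) (XT.lf (nat_lit 76) (nat_lit 666573979) (nat_lit 0) (nat_lit 3485775485) (nat_lit 1748) (nat_lit 8863489417) (nat_lit 411) (nat_lit 5) (nat_lit 410) (nat_lit 5) (nat_lit 433) (nat_lit 5) (nat_lit 341) (nat_lit 336) (nat_lit 223))))))))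
noncomputable def xc109 : XT := (XT.nd (nat_lit 1482) (nat_lit 9880) (nat_lit 0) (XT.nd (nat_lit 702) (nat_lit 5928) (nat_lit 0) (XT.nd (nat_lit 312) (nat_lit 1444) (nat_lit 0) (XT.nd (nat_lit 156) (nat_lit 0) (nat_lit 76) (XT.nd (nat_lit 78) (nat_lit 0) (nat_lit 76) (XT.lf (nat_lit 0) (nat_lit 5261997111) (nat_lit 1672) (nat_lit 2971978275) (nat_lit 1748) (nat_lit 4970337663) (nat_lit 411) (nat_lit 5) (nat_lit 433) (nat_lit 5) (nat_lit 434) (nat_lit 5) (nat_lit 342) (nat_lit 336) (nat_lit 222)) (XT.lf (nat_lit 0) (nat_lit 6451093475) (nat_lit 1672) (nat_lit 6662141166) (nat_lit 1748) (nat_lit 284295392) (nat_lit 412) (nat_lit 5) (nat_lit 434) (nat_lit 5) (nat_lit 435) (nat_lit 5) (nat_lit 343) (nat_lit 336) (nat_lit 221))) (XT.nd (nat_lit 78) (nat_lit 0) (nat_lit 76) (XT.lf (nat_lit 76) (nat_lit 3149977602) (nat_lit 0) (nat_lit 4599532002) (nat_lit 1748) (nat_lit 5845572420) (nat_lit 413) (nat_lit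 5) (nat_lit 412) (nat_lit 5) (nat_lit 435) (nat_lit 5) (nat_lit 344) (nat_lit 336) (nat_lit 220)) (XT.lf (nat_lit 0) (nat_lit 9137849976) (nat_lit 1672) (nat_lit 492282189) (nat_lit 1748) (nat_lit 4167420074) (nat_lit 413) (nat_lit 5) (nat_lit 435) (nat_lit 5) (nat_lit 436) (nat_lit 5) (nat_lit 345) (nat_lit 336) (nat_lit 219)))) (XT.nd (nat_lit 156) (nat_lit 1596) (nat_lit 0) (XT.nd (nat_lit 78) (nat_lit 0) (nat_lit 76) (XT.lf (nat_lit 76) (nat_lit 9842986072) (nat_lit 0) (nat_lit 798604599) (nat_lit 1748) (nat_lit 3363041665) (nat_lit 414) (nat_lit 5) (nat_lit 413) (nat_lit 5) (nat_lit 436) (nat_lit 5) (nat_lit 346) (nat_lit 336) (nat_lit 218)) (XT.lf (nat_lit 76) (nat_lit 6291108630) (nat_lit 0) (nat_lit 5977054818) (nat_lit 1748) (nat_lit 1948217455) (nat_lit 415) (nat_lit 5) (nat_lit 414) (nat_lit 5) (nat_lit 437) (nat_lit 5) (nat_lit 347) (nat_lit 336) (nat_lit 217))) (XT.nd (nat_lit 78) (nat_lit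 1748) (nat_lit 0) (XT.lf (nat_lit 76) (nat_lit 2675037118) (nat_lit 0) (nat_lit 11319880081) (nat_lit 1748) (nat_lit 438547210) (nat_lit 416) (nat_lit 5) (nat_lit 415) (nat_lit 5) (nat_lit 438) (nat_lit 5) (nat_lit 348) (nat_lit 336) (nat_lit 216)) (XT.nd (nat_lit 78) (nat_lit 0) (nat_lit 76) (XT.lf (nat_lit 0) (nat_lit 1176321428) (nat_lit 1748) (nat_lit 1016650114) (nat_lit 1824) (nat_lit 12462462573) (nat_lit 392) (nat_lit 5) (nat_lit 415) (nat_lit 5) (nat_lit 416) (nat_lit 5) (nat_lit 349) (nat_lit 336) (nat_lit 215)) (XT.lf (nat_lit 0) (nat_lit 2928067715) (nat_lit 1748) (nat_lit 4767106138) (nat_lit 1824) (nat_lit 7186952676) (nat_lit 393) (nat_lit 5) (nat_lit 416) (nat_lit 5) (nat_lit 417) (nat_lit 5) (nat_lit 350) (nat_lit 336) (nat_lit 214)))))) (XT.nd (nat_lit 390) (nat_lit 3420) (nat_lit 0) (XT.nd (nat_lit 156) (nat_lit 2660) (nat_lit 0) (XT.nd (nat_lit 78) (nat_lit 0) (nat_lit 0) (XT.lf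 (nat_lit 0) (nat_lit 4789381469) (nat_lit 1748) (nat_lit 8590712124) (nat_lit 1824) (nat_lit 1734394935) (nat_lit 394) (nat_lit 5) (nat_lit 417) (nat_lit 5) (nat_lit 418) (nat_lit 5) (nat_lit 351) (nat_lit 336) (nat_lit 213)) (XT.lf (nat_lit 76) (nat_lit 2836168932) (nat_lit 0) (nat_lit 3954796771) (nat_lit 1824) (nat_lit 8561175912) (nat_lit 395) (nat_lit 5) (nat_lit 394) (nat_lit 5) (nat_lit 418) (nat_lit 5) (nat_lit 352) (nat_lit 336) (nat_lit 212))) (XT.nd (nat_lit 78) (nat_lit 2736) (nat_lit 0) (XT.lf (nat_lit 0) (nat_lit 8931036451) (nat_lit 1748) (nat_lit 925006128) (nat_lit 76) (nat_lit 5739321527) (nat_lit 395) (nat_lit 5) (nat_lit 418) (nat_lit 5) (nat_lit 396) (nat_lit 5) (nat_lit 353) (nat_lit 336) (nat_lit 211)) (XT.nd (nat_lit 78) (nat_lit 988) (nat_lit 0) (XT.lf (nat_lit 0) (nat_lit 11118545165) (nat_lit 1748) (nat_lit 98396833) (nat_lit 1824) (nat_lit 4627316961) (nat_lit 372) (nat_lit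 5) (nat_lit 395) (nat_lit 5) (nat_lit 396) (nat_lit 5) (nat_lit 354) (nat_lit 336) (nat_lit 210)) (XT.lf (nat_lit 0) (nat_lit 7454035869) (nat_lit 988) (nat_lit 6220123677) (nat_lit 1064) (nat_lit 2424414513) (nat_lit 359) (nat_lit 5) (nat_lit 372) (nat_lit 5) (nat_lit 373) (nat_lit 5) (nat_lit 355) (nat_lit 336) (nat_lit 209))))) (XT.nd (nat_lit 156) (nat_lit 2432) (nat_lit 0) (XT.nd (nat_lit 78) (nat_lit 76) (nat_lit 0) (XT.lf (nat_lit 0) (nat_lit 3712440509) (nat_lit 912) (nat_lit 12558085629) (nat_lit 988) (nat_lit 88691685) (nat_lit 347) (nat_lit 5) (nat_lit 359) (nat_lit 5) (nat_lit 360) (nat_lit 5) (nat_lit 356) (nat_lit 336) (nat_lit 208)) (XT.lf (nat_lit 0) (nat_lit 2371356452) (nat_lit 988) (nat_lit 139805735) (nat_lit 76) (nat_lit 14114532457) (nat_lit 346) (nat_lit 5) (nat_lit 359) (nat_lit 5) (nat_lit 347) (nat_lit 5) (nat_lit 357) (nat_lit 336) (nat_lit 207))) (XT.nd (nat_lit 78) (nat_lit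 1596) (nat_lit 0) (XT.lf (nat_lit 0) (nat_lit 5023735244) (nat_lit 912) (nat_lit 4053617338) (nat_lit 76) (nat_lit 7820414044) (nat_lit 335) (nat_lit 5) (nat_lit 347) (nat_lit 5) (nat_lit 336) (nat_lit 5) (nat_lit 358) (nat_lit 336) (nat_lit 206)) (XT.nd (nat_lit 78) (nat_lit 760) (nat_lit 0) (XT.lf (nat_lit 0) (nat_lit 7826142046) (nat_lit 912) (nat_lit 8055171165) (nat_lit 76) (nat_lit 1295285477) (nat_lit 324) (nat_lit 5) (nat_lit 336) (nat_lit 5) (nat_lit 325) (nat_lit 5) (nat_lit 359) (nat_lit 336) (nat_lit 205)) (XT.lf (nat_lit 0) (nat_lit 5277846470) (nat_lit 760) (nat_lit 5542657559) (nat_lit 836) (nat_lit 6641140873) (nat_lit 314) (nat_lit 5) (nat_lit 324) (nat_lit 5) (nat_lit 325) (nat_lit 5) (nat_lit 360) (nat_lit 336) (nat_lit 204))))))) (XT.nd (nat_lit 780) (nat_lit 4104) (nat_lit 0) (XT.nd (nat_lit 390) (nat_lit 2736) (nat_lit 0) (XT.nd (nat_lit 156) (nat_lit 2280) (nat_lit 0) (XT.nd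 (nat_lit 78) (nat_lit 0) (nat_lit 0) (XT.lf (nat_lit 0) (nat_lit 1336465580) (nat_lit 760) (nat_lit 12650606050) (nat_lit 836) (nat_lit 3766530024) (nat_lit 304) (nat_lit 5) (nat_lit 314) (nat_lit 5) (nat_lit 315) (nat_lit 5) (nat_lit 361) (nat_lit 336) (nat_lit 203)) (XT.lf (nat_lit 0) (nat_lit 15377275291) (nat_lit 760) (nat_lit 1976670438) (nat_lit 836) (nat_lit 698271647) (nat_lit 304) (nat_lit 5) (nat_lit 314) (nat_lit 5) (nat_lit 315) (nat_lit 5) (nat_lit 362) (nat_lit 336) (nat_lit 202))) (XT.nd (nat_lit 78) (nat_lit 1444) (nat_lit 0) (XT.lf (nat_lit 0) (nat_lit 2550459409) (nat_lit 836) (nat_lit 6815757235) (nat_lit 76) (nat_lit 8990847068) (nat_lit 293) (nat_lit 5) (nat_lit 304) (nat_lit 5) (nat_lit 294) (nat_lit 5) (nat_lit 363) (nat_lit 336) (nat_lit 201)) (XT.nd (nat_lit 78) (nat_lit 684) (nat_lit 0) (XT.lf (nat_lit 0) (nat_lit 5965490022) (nat_lit 836) (nat_lit 11062646847) (nat_lit 76)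 (nat_lit 1641265735) (nat_lit 283) (nat_lit 5) (nat_lit 294) (nat_lit 5) (nat_lit 284) (nat_lit 5) (nat_lit 364) (nat_lit 336) (nat_lit 200)) (XT.lf (nat_lit 0) (nat_lit 3534332417) (nat_lit 684) (nat_lit 6067558876) (nat_lit 760) (nat_lit 9386847766) (nat_lit 274) (nat_lit 5) (nat_lit 283) (nat_lit 5) (nat_lit 284) (nat_lit 5) (nat_lit 365) (nat_lit 336) (nat_lit 199))))) (XT.nd (nat_lit 156) (nat_lit 2052) (nat_lit 0) (XT.nd (nat_lit 78) (nat_lit 684) (nat_lit 0) (XT.lf (nat_lit 0) (nat_lit 13443879704) (nat_lit 760) (nat_lit 644065392) (nat_lit 76) (nat_lit 5227786232) (nat_lit 274) (nat_lit 5) (nat_lit 284) (nat_lit 5) (nat_lit 275) (nat_lit 5) (nat_lit 366) (nat_lit 336) (nat_lit 198)) (XT.lf (nat_lit 0) (nat_lit 14749709778) (nat_lit 684) (nat_lit 2775265204) (nat_lit 760) (nat_lit 2125086899) (nat_lit 265) (nat_lit 5) (nat_lit 274) (nat_lit 5) (nat_lit 275) (nat_lit 5) (nat_lit 367) (nat_lit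 336) (nat_lit 197))) (XT.nd (nat_lit 78) (nat_lit 1292) (nat_lit 0) (XT.lf (nat_lit 0) (nat_lit 1831320050) (nat_lit 760) (nat_lit 9315556680) (nat_lit 76) (nat_lit 8844925999) (nat_lit 255) (nat_lit 5) (nat_lit 265) (nat_lit 5) (nat_lit 256) (nat_lit 5) (nat_lit 368) (nat_lit 336) (nat_lit 196)) (XT.nd (nat_lit 78) (nat_lit 608) (nat_lit 0) (XT.lf (nat_lit 0) (nat_lit 5963136890) (nat_lit 760) (nat_lit 13862859945) (nat_lit 76) (nat_lit 515811289) (nat_lit 246) (nat_lit 5) (nat_lit 256) (nat_lit 5) (nat_lit 247) (nat_lit 5) (nat_lit 369) (nat_lit 336) (nat_lit 195)) (XT.lf (nat_lit 0) (nat_lit 2112785193) (nat_lit 608) (nat_lit 8246137547) (nat_lit 684) (nat_lit 10340595551) (nat_lit 238) (nat_lit 5) (nat_lit 246) (nat_lit 5) (nat_lit 247) (nat_lit 5) (nat_lit 370) (nat_lit 336) (nat_lit 194)))))) (XT.nd (nat_lit 390) (nat_lit 1672) (nat_lit 0) (XT.nd (nat_lit 156) (nat_lit 1824) (nat_lit 0) (XT.nd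 (nat_lit 78) (nat_lit 608) (nat_lit 0) (XT.lf (nat_lit 0) (nat_lit 14993496382) (nat_lit 684) (nat_lit 2346858969) (nat_lit 76) (nat_lit 3725470883) (nat_lit 238) (nat_lit 5) (nat_lit 247) (nat_lit 5) (nat_lit 239) (nat_lit 5) (nat_lit 371) (nat_lit 336) (nat_lit 193)) (XT.lf (nat_lit 0) (nat_lit 14501948537) (nat_lit 608) (nat_lit 5403249596) (nat_lit 684) (nat_lit 1535168079) (nat_lit 230) (nat_lit 5) (nat_lit 238) (nat_lit 5) (nat_lit 239) (nat_lit 5) (nat_lit 372) (nat_lit 336) (nat_lit 192))) (XT.nd (nat_lit 78) (nat_lit 1140) (nat_lit 0) (XT.lf (nat_lit 0) (nat_lit 3213303281) (nat_lit 684) (nat_lit 11707661975) (nat_lit 76) (nat_lit 6902447004) (nat_lit 221) (nat_lit 5) (nat_lit 230) (nat_lit 5) (nat_lit 222) (nat_lit 5) (nat_lit 373) (nat_lit 336) (nat_lit 191)) (XT.nd (nat_lit 78) (nat_lit 532) (nat_lit 0) (XT.lf (nat_lit 0) (nat_lit 5572643443) (nat_lit 608) (nat_lit 2619666985) (nat_lit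 684) (nat_lit 14023261806) (nat_lit 213) (nat_lit 5) (nat_lit 221) (nat_lit 5) (nat_lit 222) (nat_lit 5) (nat_lit 374) (nat_lit 336) (nat_lit 190)) (XT.lf (nat_lit 0) (nat_lit 845791073) (nat_lit 532) (nat_lit 12614895063) (nat_lit 608) (nat_lit 9156015049) (nat_lit 206) (nat_lit 5) (nat_lit 213) (nat_lit 5) (nat_lit 214) (nat_lit 5) (nat_lit 375) (nat_lit 336) (nat_lit 189))))) (XT.nd (nat_lit 156) (nat_lit 1064) (nat_lit 0) (XT.nd (nat_lit 78) (nat_lit 608) (nat_lit 0) (XT.lf (nat_lit 0) (nat_lit 19007230245) (nat_lit 608) (nat_lit 3971570466) (nat_lit 76) (nat_lit 48664970) (nat_lit 206) (nat_lit 5) (nat_lit 214) (nat_lit 5) (nat_lit 207) (nat_lit 5) (nat_lit 376) (nat_lit 336) (nat_lit 188)) (XT.lf (nat_lit 0) (nat_lit 1422184498) (nat_lit 608) (nat_lit 9002414903) (nat_lit 76) (nat_lit 13022408312) (nat_lit 198) (nat_lit 5) (nat_lit 206) (nat_lit 5) (nat_lit 199) (nat_lit 5) (nat_lit 377) (nat_lit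 336) (nat_lit 187))) (XT.nd (nat_lit 78) (nat_lit 532) (nat_lit 0) (XT.lf (nat_lit 0) (nat_lit 7070555649) (nat_lit 608) (nat_lit 14217931323) (nat_lit 76) (nat_lit 2588175318) (nat_lit 191) (nat_lit 5) (nat_lit 199) (nat_lit 5) (nat_lit 192) (nat_lit 5) (nat_lit 378) (nat_lit 336) (nat_lit 186)) (XT.nd (nat_lit 43602) (nat_lit 0) (nat_lit 16948) (XT.lf (nat_lit 0) (nat_lit 4663271219) (nat_lit 532) (nat_lit 8376739822) (nat_lit 608) (nat_lit 11276166410) (nat_lit 184) (nat_lit 5) (nat_lit 191) (nat_lit 5) (nat_lit 192) (nat_lit 5) (nat_lit 379) (nat_lit 336) (nat_lit 185)) (XT.lf (nat_lit 0) (nat_lit 603825566) (nat_lit 1748) (nat_lit 2816450040) (nat_lit 1748) (nat_lit 2816450040) (nat_lit 407) (nat_lit 3) (nat_lit 430) (nat_lit 3) (nat_lit 430) (nat_lit 5) (nat_lit 337) (nat_lit 337) (nat_lit 226))))))))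
noncomputable def xc110 : XT := (XT.nd (nat_lit 1482) (nat_lit 11628) (nat_lit 0) (XT.nd (nat_lit 702) (nat_lit 3724) (nat_lit 0) (XT.nd (nat_lit 312) (nat_lit 0) (nat_lit 152) (XT.nd (nat_lit 156) (nat_lit 0) (nat_lit 76) (XT.nd (nat_lit 78) (nat_lit 0) (nat_lit 0) (XT.lf (nat_lit 0) (nat_lit 1890400522) (nat_lit 1672) (nat_lit 9461081582) (nat_lit 1748) (nat_lit 1295448529) (nat_lit 408) (nat_lit 5) (nat_lit 430) (nat_lit 5) (nat_lit 431) (nat_lit 5) (nat_lit 338) (nat_lit 337) (nat_lit 225)) (XT.lf (nat_lit 0) (nat_lit 2652999590) (nat_lit 1672) (nat_lit 537994534) (nat_lit 1748) (nat_lit 9633445755) (nat_lit 408) (nat_lit 5) (nat_lit 430) (nat_lit 5) (nat_lit 431) (nat_lit 5) (nat_lit 339) (nat_lit 337) (nat_lit 224))) (XT.nd (nat_lit 78) (nat_lit 0) (nat_lit 76) (XT.lf (nat_lit 0) (nat_lit 3505540869) (nat_lit 1672) (nat_lit 4286350706) (nat_lit 1748) (nat_lit 5214054036) (nat_lit 409) (nat_lit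 5) (nat_lit 431) (nat_lit 5) (nat_lit 432) (nat_lit 5) (nat_lit 340) (nat_lit 337) (nat_lit 223)) (XT.lf (nat_lit 0) (nat_lit 4422835053) (nat_lit 1672) (nat_lit 8095010538) (nat_lit 1748) (nat_lit 674279521) (nat_lit 410) (nat_lit 5) (nat_lit 432) (nat_lit 5) (nat_lit 433) (nat_lit 5) (nat_lit 341) (nat_lit 337) (nat_lit 222)))) (XT.nd (nat_lit 156) (nat_lit 0) (nat_lit 76) (XT.nd (nat_lit 78) (nat_lit 0) (nat_lit 76) (XT.lf (nat_lit 76) (nat_lit 1389700894) (nat_lit 0) (nat_lit 4045582594) (nat_lit 1748) (nat_lit 7947265579) (nat_lit 411) (nat_lit 5) (nat_lit 410) (nat_lit 5) (nat_lit 433) (nat_lit 5) (nat_lit 342) (nat_lit 337) (nat_lit 221)) (XT.lf (nat_lit 0) (nat_lit 6541612229) (nat_lit 1672) (nat_lit 2352545045) (nat_lit 1748) (nat_lit 4683269763) (nat_lit 411) (nat_lit 5) (nat_lit 433) (nat_lit 5) (nat_lit 434) (nat_lit 5) (nat_lit 343) (nat_lit 337) (nat_lit 220))) (XT.nd (nat_lit 78) (nat_lit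 0) (nat_lit 76) (XT.lf (nat_lit 76) (nat_lit 7636512045) (nat_lit 0) (nat_lit 99796494) (nat_lit 1748) (nat_lit 6040750352) (nat_lit 412) (nat_lit 5) (nat_lit 411) (nat_lit 5) (nat_lit 434) (nat_lit 5) (nat_lit 344) (nat_lit 337) (nat_lit 219)) (XT.nd (nat_lit 78) (nat_lit 0) (nat_lit 76) (XT.lf (nat_lit 76) (nat_lit 3954868109) (nat_lit 0) (nat_lit 5090995731) (nat_lit 1748) (nat_lit 4935246277) (nat_lit 413) (nat_lit 5) (nat_lit 412) (nat_lit 5) (nat_lit 435) (nat_lit 5) (nat_lit 345) (nat_lit 337) (nat_lit 218)) (XT.lf (nat_lit 76) (nat_lit 208804905) (nat_lit 0) (nat_lit 10235190577) (nat_lit 1748) (nat_lit 3746312069) (nat_lit 414) (nat_lit 5) (nat_lit 413) (nat_lit 5) (nat_lit 436) (nat_lit 5) (nat_lit 346) (nat_lit 337) (nat_lit 217)))))) (XT.nd (nat_lit 390) (nat_lit 2508) (nat_lit 0) (XT.nd (nat_lit 156) (nat_lit 1596) (nat_lit 0) (XT.nd (nat_lit 78) (nat_lit 0) (nat_lit 76) (XT.lf (nat_lit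 76) (nat_lit 10839823224) (nat_lit 0) (nat_lit 1126205329) (nat_lit 1748) (nat_lit 2438123362) (nat_lit 414) (nat_lit 5) (nat_lit 413) (nat_lit 5) (nat_lit 436) (nat_lit 5) (nat_lit 347) (nat_lit 337) (nat_lit 216)) (XT.lf (nat_lit 76) (nat_lit 7192232014) (nat_lit 0) (nat_lit 6422600396) (nat_lit 1748) (nat_lit 1007966867) (nat_lit 415) (nat_lit 5) (nat_lit 414) (nat_lit 5) (nat_lit 437) (nat_lit 5) (nat_lit 348) (nat_lit 337) (nat_lit 215))) (XT.nd (nat_lit 78) (nat_lit 0) (nat_lit 0) (XT.lf (nat_lit 0) (nat_lit 514144044) (nat_lit 1748) (nat_lit 11372733653) (nat_lit 1824) (nat_lit 2959974367) (nat_lit 392) (nat_lit 5) (nat_lit 415) (nat_lit 5) (nat_lit 416) (nat_lit 5) (nat_lit 349) (nat_lit 337) (nat_lit 214)) (XT.nd (nat_lit 78) (nat_lit 0) (nat_lit 76) (XT.lf (nat_lit 0) (nat_lit 2143575631) (nat_lit 1748) (nat_lit 333058649) (nat_lit 1824) (nat_lit 12599360982) (nat_lit 392) (nat_lit 5) (nat_lit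 415) (nat_lit 5) (nat_lit 416) (nat_lit 5) (nat_lit 350) (nat_lit 337) (nat_lit 213)) (XT.lf (nat_lit 0) (nat_lit 3923947668) (nat_lit 1748) (nat_lit 4187633725) (nat_lit 1824) (nat_lit 7198399061) (nat_lit 393) (nat_lit 5) (nat_lit 416) (nat_lit 5) (nat_lit 417) (nat_lit 5) (nat_lit 351) (nat_lit 337) (nat_lit 212))))) (XT.nd (nat_lit 156) (nat_lit 2660) (nat_lit 0) (XT.nd (nat_lit 78) (nat_lit 0) (nat_lit 0) (XT.lf (nat_lit 0) (nat_lit 5818128802) (nat_lit 1748) (nat_lit 8118370153) (nat_lit 1824) (nat_lit 1613286880) (nat_lit 394) (nat_lit 5) (nat_lit 417) (nat_lit 5) (nat_lit 418) (nat_lit 5) (nat_lit 352) (nat_lit 337) (nat_lit 211)) (XT.lf (nat_lit 76) (nat_lit 3639472924) (nat_lit 0) (nat_lit 4219172174) (nat_lit 1824) (nat_lit 7936358426) (nat_lit 395) (nat_lit 5) (nat_lit 394) (nat_lit 5) (nat_lit 418) (nat_lit 5) (nat_lit 353) (nat_lit 337) (nat_lit 210))) (XT.nd (nat_lit 78) (nat_lit 2736)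 (nat_lit 0) (XT.lf (nat_lit 0) (nat_lit 10036835738) (nat_lit 1748) (nat_lit 237351021) (nat_lit 76) (nat_lit 5771869905) (nat_lit 395) (nat_lit 5) (nat_lit 418) (nat_lit 5) (nat_lit 396) (nat_lit 5) (nat_lit 354) (nat_lit 337) (nat_lit 209)) (XT.nd (nat_lit 78) (nat_lit 988) (nat_lit 0) (XT.lf (nat_lit 0) (nat_lit 12155900209) (nat_lit 1748) (nat_lit 215583841) (nat_lit 1824) (nat_lit 3931342971) (nat_lit 372) (nat_lit 5) (nat_lit 395) (nat_lit 5) (nat_lit 396) (nat_lit 5) (nat_lit 355) (nat_lit 337) (nat_lit 208)) (XT.lf (nat_lit 0) (nat_lit 8387254794) (nat_lit 988) (nat_lit 6495224197) (nat_lit 1064) (nat_lit 1682702989) (nat_lit 359) (nat_lit 5) (nat_lit 372) (nat_lit 5) (nat_lit 373) (nat_lit 5) (nat_lit 356) (nat_lit 337) (nat_lit 207))))))) (XT.nd (nat_lit 780) (nat_lit 5168) (nat_lit 0) (XT.nd (nat_lit 390) (nat_lit 3040) (nat_lit 0) (XT.nd (nat_lit 156) (nat_lit 1596) (nat_lit 0) (XT.nd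 (nat_lit 78) (nat_lit 836) (nat_lit 0) (XT.lf (nat_lit 0) (nat_lit 694307218) (nat_lit 988) (nat_lit 12300058906) (nat_lit 76) (nat_lit 3839582117) (nat_lit 346) (nat_lit 5) (nat_lit 359) (nat_lit 5) (nat_lit 347) (nat_lit 5) (nat_lit 357) (nat_lit 337) (nat_lit 206)) (XT.lf (nat_lit 0) (nat_lit 567844177) (nat_lit 836) (nat_lit 2639952945) (nat_lit 912) (nat_lit 13901004353) (nat_lit 335) (nat_lit 5) (nat_lit 346) (nat_lit 5) (nat_lit 347) (nat_lit 5) (nat_lit 358) (nat_lit 337) (nat_lit 205))) (XT.nd (nat_lit 78) (nat_lit 1596) (nat_lit 0) (XT.lf (nat_lit 0) (nat_lit 5918045891) (nat_lit 912) (nat_lit 3466700110) (nat_lit 76) (nat_lit 8004734070) (nat_lit 335) (nat_lit 5) (nat_lit 347) (nat_lit 5) (nat_lit 336) (nat_lit 5) (nat_lit 359) (nat_lit 337) (nat_lit 204)) (XT.nd (nat_lit 78) (nat_lit 760) (nat_lit 0) (XT.lf (nat_lit 0) (nat_lit 8787201160) (nat_lit 912) (nat_lit 7584737650) (nat_lit 76)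 (nat_lit 1305094884) (nat_lit 324) (nat_lit 5) (nat_lit 336) (nat_lit 5) (nat_lit 325) (nat_lit 5) (nat_lit 360) (nat_lit 337) (nat_lit 203)) (XT.lf (nat_lit 0) (nat_lit 6136717721) (nat_lit 760) (nat_lit 5718070987) (nat_lit 836) (nat_lit 6116184520) (nat_lit 314) (nat_lit 5) (nat_lit 324) (nat_lit 5) (nat_lit 325) (nat_lit 5) (nat_lit 361) (nat_lit 337) (nat_lit 202))))) (XT.nd (nat_lit 156) (nat_lit 2280) (nat_lit 0) (XT.nd (nat_lit 78) (nat_lit 0) (nat_lit 0) (XT.lf (nat_lit 0) (nat_lit 2080073816) (nat_lit 760) (nat_lit 13020119641) (nat_lit 836) (nat_lit 3171827967) (nat_lit 304) (nat_lit 5) (nat_lit 314) (nat_lit 5) (nat_lit 315) (nat_lit 5) (nat_lit 362) (nat_lit 337) (nat_lit 201)) (XT.lf (nat_lit 0) (nat_lit 16521617112) (nat_lit 760) (nat_lit 2026257357) (nat_lit 836) (nat_lit 32134400) (nat_lit 304) (nat_lit 5) (nat_lit 314) (nat_lit 5) (nat_lit 315) (nat_lit 5) (nat_lit 363) (nat_lit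 337) (nat_lit 200))) (XT.nd (nat_lit 78) (nat_lit 1444) (nat_lit 0) (XT.lf (nat_lit 0) (nat_lit 3289838990) (nat_lit 836) (nat_lit 6325695047) (nat_lit 76) (nat_lit 9278690323) (nat_lit 293) (nat_lit 5) (nat_lit 304) (nat_lit 5) (nat_lit 294) (nat_lit 5) (nat_lit 364) (nat_lit 337) (nat_lit 199)) (XT.nd (nat_lit 78) (nat_lit 684) (nat_lit 0) (XT.lf (nat_lit 0) (nat_lit 6792678979) (nat_lit 836) (nat_lit 10698243066) (nat_lit 76) (nat_lit 1725312765) (nat_lit 283) (nat_lit 5) (nat_lit 294) (nat_lit 5) (nat_lit 284) (nat_lit 5) (nat_lit 365) (nat_lit 337) (nat_lit 198)) (XT.lf (nat_lit 0) (nat_lit 4325349208) (nat_lit 684) (nat_lit 6198390150) (nat_lit 760) (nat_lit 9021708971) (nat_lit 274) (nat_lit 5) (nat_lit 283) (nat_lit 5) (nat_lit 284) (nat_lit 5) (nat_lit 366) (nat_lit 337) (nat_lit 197)))))) (XT.nd (nat_lit 390) (nat_lit 2432) (nat_lit 0) (XT.nd (nat_lit 156) (nat_lit 2052) (nat_lit 0) (XT.nd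 (nat_lit 78) (nat_lit 0) (nat_lit 0) (XT.lf (nat_lit 0) (nat_lit 14086050) (nat_lit 684) (nat_lit 14448855600) (nat_lit 760) (nat_lit 5419677703) (nat_lit 265) (nat_lit 5) (nat_lit 274) (nat_lit 5) (nat_lit 275) (nat_lit 5) (nat_lit 367) (nat_lit 337) (nat_lit 196)) (XT.lf (nat_lit 0) (nat_lit 15858501531) (nat_lit 684) (nat_lit 2794271191) (nat_lit 760) (nat_lit 1574488876) (nat_lit 265) (nat_lit 5) (nat_lit 274) (nat_lit 5) (nat_lit 275) (nat_lit 5) (nat_lit 368) (nat_lit 337) (nat_lit 195))) (XT.nd (nat_lit 78) (nat_lit 1292) (nat_lit 0) (XT.lf (nat_lit 0) (nat_lit 2479662111) (nat_lit 760) (nat_lit 8919706105) (nat_lit 76) (nat_lit 9180071955) (nat_lit 255) (nat_lit 5) (nat_lit 265) (nat_lit 5) (nat_lit 256) (nat_lit 5) (nat_lit 369) (nat_lit 337) (nat_lit 194)) (XT.nd (nat_lit 78) (nat_lit 608) (nat_lit 0) (XT.lf (nat_lit 0) (nat_lit 6723008284) (nat_lit 760) (nat_lit 13603079612) (nat_lit 76)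 (nat_lit 614113578) (nat_lit 246) (nat_lit 5) (nat_lit 256) (nat_lit 5) (nat_lit 247) (nat_lit 5) (nat_lit 370) (nat_lit 337) (nat_lit 193)) (XT.lf (nat_lit 0) (nat_lit 2840873000) (nat_lit 608) (nat_lit 8397188741) (nat_lit 684) (nat_lit 10070840353) (nat_lit 238) (nat_lit 5) (nat_lit 246) (nat_lit 5) (nat_lit 247) (nat_lit 5) (nat_lit 371) (nat_lit 337) (nat_lit 192))))) (XT.nd (nat_lit 156) (nat_lit 1824) (nat_lit 0) (XT.nd (nat_lit 78) (nat_lit 608) (nat_lit 0) (XT.lf (nat_lit 0) (nat_lit 15995725327) (nat_lit 684) (nat_lit 1761264214) (nat_lit 76) (nat_lit 3929535503) (nat_lit 238) (nat_lit 5) (nat_lit 247) (nat_lit 5) (nat_lit 239) (nat_lit 5) (nat_lit 372) (nat_lit 337) (nat_lit 191)) (XT.lf (nat_lit 0) (nat_lit 15582364689) (nat_lit 608) (nat_lit 5460513513) (nat_lit 684) (nat_lit 1029667646) (nat_lit 230) (nat_lit 5) (nat_lit 238) (nat_lit 5) (nat_lit 239) (nat_lit 5) (nat_lit 373) (nat_lit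 337) (nat_lit 190))) (XT.nd (nat_lit 78) (nat_lit 1140) (nat_lit 0) (XT.lf (nat_lit 0) (nat_lit 3843051236) (nat_lit 684) (nat_lit 11406523370) (nat_lit 76) (nat_lit 7217662814) (nat_lit 221) (nat_lit 5) (nat_lit 230) (nat_lit 5) (nat_lit 222) (nat_lit 5) (nat_lit 374) (nat_lit 337) (nat_lit 189)) (XT.nd (nat_lit 78) (nat_lit 532) (nat_lit 0) (XT.lf (nat_lit 0) (nat_lit 6381607308) (nat_lit 608) (nat_lit 2578453748) (nat_lit 684) (nat_lit 13911334611) (nat_lit 213) (nat_lit 5) (nat_lit 221) (nat_lit 5) (nat_lit 222) (nat_lit 5) (nat_lit 375) (nat_lit 337) (nat_lit 188)) (XT.lf (nat_lit 0) (nat_lit 1512243005) (nat_lit 532) (nat_lit 12863959183) (nat_lit 608) (nat_lit 8908567960) (nat_lit 206) (nat_lit 5) (nat_lit 213) (nat_lit 5) (nat_lit 214) (nat_lit 5) (nat_lit 376) (nat_lit 337) (nat_lit 187))))))))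
noncomputable def xc111 : XT := (XT.nd (nat_lit 45084) (nat_lit 0) (nat_lit 4104) (XT.nd (nat_lit 44304) (nat_lit 0) (nat_lit 15808) (XT.nd (nat_lit 43914) (nat_lit 0) (nat_lit 17024) (XT.nd (nat_lit 156) (nat_lit 1064) (nat_lit 0) (XT.nd (nat_lit 78) (nat_lit 608) (nat_lit 0) (XT.lf (nat_lit 0) (nat_lit 20075054440) (nat_lit 608) (nat_lit 3458998907) (nat_lit 76) (nat_lit 174091768) (nat_lit 206) (nat_lit 5) (nat_lit 214) (nat_lit 5) (nat_lit 207) (nat_lit 5) (nat_lit 377) (nat_lit 337) (nat_lit 186)) (XT.lf (nat_lit 0) (nat_lit 1955409388) (nat_lit 608) (nat_lit 8644315161) (nat_lit 76) (nat_lit 13540699084) (nat_lit 198) (nat_lit 5) (nat_lit 206) (nat_lit 5) (nat_lit 199) (nat_lit 5) (nat_lit 378) (nat_lit 337) (nat_lit 185))) (XT.nd (nat_lit 78) (nat_lit 532) (nat_lit 0) (XT.lf (nat_lit 0) (nat_lit 7763849901) (nat_lit 608) (nat_lit 14017598980) (nat_lit 76) (nat_lit 2801711935) (nat_lit 191)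 (nat_lit 5) (nat_lit 199) (nat_lit 5) (nat_lit 192) (nat_lit 5) (nat_lit 379) (nat_lit 337) (nat_lit 184)) (XT.nd (nat_lit 43602) (nat_lit 0) (nat_lit 16948) (XT.lf (nat_lit 0) (nat_lit 5419869413) (nat_lit 532) (nat_lit 8482508686) (nat_lit 608) (nat_lit 11133688728) (nat_lit 184) (nat_lit 5) (nat_lit 191) (nat_lit 5) (nat_lit 192) (nat_lit 5) (nat_lit 380) (nat_lit 337) (nat_lit 183)) (XT.lf (nat_lit 0) (nat_lit 1251203608) (nat_lit 1748) (nat_lit 2579855988) (nat_lit 1748) (nat_lit 2579855988) (nat_lit 407) (nat_lit 3) (nat_lit 430) (nat_lit 3) (nat_lit 430) (nat_lit 5) (nat_lit 338) (nat_lit 338) (nat_lit 224))))) (XT.nd (nat_lit 156) (nat_lit 0) (nat_lit 76) (XT.nd (nat_lit 78) (nat_lit 0) (nat_lit 0) (XT.lf (nat_lit 0) (nat_lit 3169226715) (nat_lit 1672) (nat_lit 9084145855) (nat_lit 1748) (nat_lit 747889589) (nat_lit 408) (nat_lit 5) (nat_lit 430) (nat_lit 5) (nat_lit 431) (nat_lit 5) (nat_lit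 339) (nat_lit 338) (nat_lit 223)) (XT.lf (nat_lit 76) (nat_lit 88549470) (nat_lit 0) (nat_lit 3831133648) (nat_lit 1748) (nat_lit 9265132446) (nat_lit 409) (nat_lit 5) (nat_lit 408) (nat_lit 5) (nat_lit 431) (nat_lit 5) (nat_lit 340) (nat_lit 338) (nat_lit 222))) (XT.nd (nat_lit 78) (nat_lit 0) (nat_lit 76) (XT.lf (nat_lit 0) (nat_lit 4763356256) (nat_lit 1672) (nat_lit 3756699534) (nat_lit 1748) (nat_lit 4852417498) (nat_lit 409) (nat_lit 5) (nat_lit 431) (nat_lit 5) (nat_lit 432) (nat_lit 5) (nat_lit 341) (nat_lit 338) (nat_lit 221)) (XT.nd (nat_lit 78) (nat_lit 0) (nat_lit 0) (XT.lf (nat_lit 0) (nat_lit 5675712684) (nat_lit 1672) (nat_lit 7664163743) (nat_lit 1748) (nat_lit 225028287) (nat_lit 410) (nat_lit 5) (nat_lit 432) (nat_lit 5) (nat_lit 433) (nat_lit 5) (nat_lit 342) (nat_lit 338) (nat_lit 220)) (XT.lf (nat_lit 76) (nat_lit 2094159097) (nat_lit 0) (nat_lit 4596051631) (nat_lit 1748) (nat_lit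 7071414039) (nat_lit 411) (nat_lit 5) (nat_lit 410) (nat_lit 5) (nat_lit 433) (nat_lit 5) (nat_lit 343) (nat_lit 338) (nat_lit 219)))))) (XT.nd (nat_lit 390) (nat_lit 1444) (nat_lit 0) (XT.nd (nat_lit 156) (nat_lit 0) (nat_lit 76) (XT.nd (nat_lit 78) (nat_lit 0) (nat_lit 0) (XT.lf (nat_lit 0) (nat_lit 7795222462) (nat_lit 1672) (nat_lit 1755204930) (nat_lit 1748) (nat_lit 4412628230) (nat_lit 411) (nat_lit 5) (nat_lit 433) (nat_lit 5) (nat_lit 434) (nat_lit 5) (nat_lit 344) (nat_lit 338) (nat_lit 218)) (XT.lf (nat_lit 76) (nat_lit 8522687721) (nat_lit 0) (nat_lit 476541195) (nat_lit 1748) (nat_lit 5169994063) (nat_lit 412) (nat_lit 5) (nat_lit 411) (nat_lit 5) (nat_lit 434) (nat_lit 5) (nat_lit 345) (nat_lit 338) (nat_lit 217))) (XT.nd (nat_lit 78) (nat_lit 0) (nat_lit 76) (XT.lf (nat_lit 76) (nat_lit 4743125972) (nat_lit 0) (nat_lit 5576912301) (nat_lit 1748) (nat_lit 4059933589) (nat_lit 413) (nat_lit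 5) (nat_lit 412) (nat_lit 5) (nat_lit 435) (nat_lit 5) (nat_lit 346) (nat_lit 338) (nat_lit 216)) (XT.nd (nat_lit 78) (nat_lit 0) (nat_lit 0) (XT.lf (nat_lit 76) (nat_lit 896183197) (nat_lit 0) (nat_lit 10837044926) (nat_lit 1748) (nat_lit 2862769826) (nat_lit 414) (nat_lit 5) (nat_lit 413) (nat_lit 5) (nat_lit 436) (nat_lit 5) (nat_lit 347) (nat_lit 338) (nat_lit 215)) (XT.lf (nat_lit 76) (nat_lit 11826293790) (nat_lit 0) (nat_lit 1446203753) (nat_lit 1748) (nat_lit 1544343175) (nat_lit 414) (nat_lit 5) (nat_lit 413) (nat_lit 5) (nat_lit 436) (nat_lit 5) (nat_lit 348) (nat_lit 338) (nat_lit 214))))) (XT.nd (nat_lit 156) (nat_lit 0) (nat_lit 0) (XT.nd (nat_lit 78) (nat_lit 1672) (nat_lit 0) (XT.lf (nat_lit 76) (nat_lit 8079494993) (nat_lit 0) (nat_lit 6866229424) (nat_lit 1748) (nat_lit 96838061) (nat_lit 415) (nat_lit 5) (nat_lit 414) (nat_lit 5) (nat_lit 437) (nat_lit 5) (nat_lit 349) (nat_lit 338)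 (nat_lit 213)) (XT.lf (nat_lit 0) (nat_lit 1434388326) (nat_lit 1748) (nat_lit 11020623461) (nat_lit 1824) (nat_lit 2818700328) (nat_lit 392) (nat_lit 5) (nat_lit 415) (nat_lit 5) (nat_lit 416) (nat_lit 5) (nat_lit 350) (nat_lit 338) (nat_lit 212))) (XT.nd (nat_lit 78) (nat_lit 0) (nat_lit 76) (XT.lf (nat_lit 76) (nat_lit 334434991) (nat_lit 0) (nat_lit 2754085263) (nat_lit 1824) (nat_lit 12421706087) (nat_lit 393) (nat_lit 5) (nat_lit 392) (nat_lit 5) (nat_lit 416) (nat_lit 5) (nat_lit 351) (nat_lit 338) (nat_lit 211)) (XT.nd (nat_lit 78) (nat_lit 0) (nat_lit 76) (XT.lf (nat_lit 0) (nat_lit 4897578928) (nat_lit 1748) (nat_lit 3632250769) (nat_lit 1824) (nat_lit 7221908583) (nat_lit 393) (nat_lit 5) (nat_lit 416) (nat_lit 5) (nat_lit 417) (nat_lit 5) (nat_lit 352) (nat_lit 338) (nat_lit 210)) (XT.lf (nat_lit 0) (nat_lit 6826932152) (nat_lit 1748) (nat_lit 7673766545) (nat_lit 1824) (nat_lit 1498484523)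 (nat_lit 394) (nat_lit 5) (nat_lit 417) (nat_lit 5) (nat_lit 418) (nat_lit 5) (nat_lit 353) (nat_lit 338) (nat_lit 209))))))) (XT.nd (nat_lit 780) (nat_lit 5016) (nat_lit 0) (XT.nd (nat_lit 390) (nat_lit 3192) (nat_lit 0) (XT.nd (nat_lit 156) (nat_lit 1976) (nat_lit 0) (XT.nd (nat_lit 78) (nat_lit 1672) (nat_lit 0) (XT.lf (nat_lit 76) (nat_lit 4425647332) (nat_lit 0) (nat_lit 4483113255) (nat_lit 1824) (nat_lit 7343406890) (nat_lit 395) (nat_lit 5) (nat_lit 394) (nat_lit 5) (nat_lit 418) (nat_lit 5) (nat_lit 354) (nat_lit 338) (nat_lit 208)) (XT.lf (nat_lit 0) (nat_lit 435579247) (nat_lit 1748) (nat_lit 10694960763) (nat_lit 1824) (nat_lit 5380658963) (nat_lit 372) (nat_lit 5) (nat_lit 395) (nat_lit 5) (nat_lit 396) (nat_lit 5) (nat_lit 355) (nat_lit 338) (nat_lit 207))) (XT.nd (nat_lit 78) (nat_lit 1976) (nat_lit 0) (XT.lf (nat_lit 0) (nat_lit 13183974981) (nat_lit 1748) (nat_lit 329728897) (nat_lit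 1824) (nat_lit 3262410324) (nat_lit 372) (nat_lit 5) (nat_lit 395) (nat_lit 5) (nat_lit 396) (nat_lit 5) (nat_lit 356) (nat_lit 338) (nat_lit 206)) (XT.nd (nat_lit 78) (nat_lit 988) (nat_lit 0) (XT.lf (nat_lit 0) (nat_lit 9307736467) (nat_lit 988) (nat_lit 6773497654) (nat_lit 1064) (nat_lit 965492534) (nat_lit 359) (nat_lit 5) (nat_lit 372) (nat_lit 5) (nat_lit 373) (nat_lit 5) (nat_lit 357) (nat_lit 338) (nat_lit 205)) (XT.lf (nat_lit 0) (nat_lit 1454566683) (nat_lit 988) (nat_lit 11985180376) (nat_lit 76) (nat_lit 3884083443) (nat_lit 346) (nat_lit 5) (nat_lit 359) (nat_lit 5) (nat_lit 347) (nat_lit 5) (nat_lit 358) (nat_lit 338) (nat_lit 204))))) (XT.nd (nat_lit 156) (nat_lit 2356) (nat_lit 0) (XT.nd (nat_lit 78) (nat_lit 0) (nat_lit 0) (XT.lf (nat_lit 0) (nat_lit 1257664655) (nat_lit 836) (nat_lit 2768627994) (nat_lit 912) (nat_lit 13580990181) (nat_lit 335) (nat_lit 5) (nat_lit 346) (nat_lit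 5) (nat_lit 347) (nat_lit 5) (nat_lit 359) (nat_lit 338) (nat_lit 203)) (XT.lf (nat_lit 0) (nat_lit 6796500257) (nat_lit 912) (nat_lit 2902847642) (nat_lit 76) (nat_lit 8197470687) (nat_lit 335) (nat_lit 5) (nat_lit 347) (nat_lit 5) (nat_lit 336) (nat_lit 5) (nat_lit 360) (nat_lit 338) (nat_lit 202))) (XT.nd (nat_lit 78) (nat_lit 1520) (nat_lit 0) (XT.lf (nat_lit 0) (nat_lit 9735400899) (nat_lit 912) (nat_lit 7141067932) (nat_lit 76) (nat_lit 1316866114) (nat_lit 324) (nat_lit 5) (nat_lit 336) (nat_lit 5) (nat_lit 325) (nat_lit 5) (nat_lit 361) (nat_lit 338) (nat_lit 201)) (XT.nd (nat_lit 78) (nat_lit 760) (nat_lit 0) (XT.lf (nat_lit 0) (nat_lit 6981141486) (nat_lit 760) (nat_lit 5898222507) (nat_lit 836) (nat_lit 5617050979) (nat_lit 314) (nat_lit 5) (nat_lit 324) (nat_lit 5) (nat_lit 325) (nat_lit 5) (nat_lit 362) (nat_lit 338) (nat_lit 200)) (XT.lf (nat_lit 0) (nat_lit 2805605702) (nat_lit 760)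 (nat_lit 13401292945) (nat_lit 836) (nat_lit 2599909606) (nat_lit 304) (nat_lit 5) (nat_lit 314) (nat_lit 5) (nat_lit 315) (nat_lit 5) (nat_lit 363) (nat_lit 338) (nat_lit 199)))))) (XT.nd (nat_lit 390) (nat_lit 2052) (nat_lit 0) (XT.nd (nat_lit 156) (nat_lit 2128) (nat_lit 0) (XT.nd (nat_lit 78) (nat_lit 760) (nat_lit 0) (XT.lf (nat_lit 0) (nat_lit 606485576) (nat_lit 836) (nat_lit 1467334046) (nat_lit 76) (nat_lit 17050525426) (nat_lit 303) (nat_lit 5) (nat_lit 314) (nat_lit 5) (nat_lit 304) (nat_lit 5) (nat_lit 364) (nat_lit 338) (nat_lit 198)) (XT.lf (nat_lit 0) (nat_lit 4013348749) (nat_lit 836) (nat_lit 5860800137) (nat_lit 76) (nat_lit 9574128838) (nat_lit 293) (nat_lit 5) (nat_lit 304) (nat_lit 5) (nat_lit 294) (nat_lit 5) (nat_lit 365) (nat_lit 338) (nat_lit 197))) (XT.nd (nat_lit 78) (nat_lit 1368) (nat_lit 0) (XT.lf (nat_lit 0) (nat_lit 7607472880) (nat_lit 836) (nat_lit 10362876676) (nat_lit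 76) (nat_lit 1809883024) (nat_lit 283) (nat_lit 5) (nat_lit 294) (nat_lit 5) (nat_lit 284) (nat_lit 5) (nat_lit 366) (nat_lit 338) (nat_lit 196)) (XT.nd (nat_lit 78) (nat_lit 684) (nat_lit 0) (XT.lf (nat_lit 0) (nat_lit 5100775457) (nat_lit 684) (nat_lit 6336085194) (nat_lit 760) (nat_lit 8682741777) (nat_lit 274) (nat_lit 5) (nat_lit 283) (nat_lit 5) (nat_lit 284) (nat_lit 5) (nat_lit 367) (nat_lit 338) (nat_lit 195)) (XT.lf (nat_lit 0) (nat_lit 661402282) (nat_lit 684) (nat_lit 14819940715) (nat_lit 760) (nat_lit 4985811113) (nat_lit 265) (nat_lit 5) (nat_lit 274) (nat_lit 5) (nat_lit 275) (nat_lit 5) (nat_lit 368) (nat_lit 338) (nat_lit 194))))) (XT.nd (nat_lit 156) (nat_lit 1292) (nat_lit 0) (XT.nd (nat_lit 78) (nat_lit 760) (nat_lit 0) (XT.lf (nat_lit 0) (nat_lit 16962308665) (nat_lit 684) (nat_lit 2817535683) (nat_lit 760) (nat_lit 1042639153) (nat_lit 265) (nat_lit 5) (nat_lit 274) (nat_lit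 5) (nat_lit 275) (nat_lit 5) (nat_lit 369) (nat_lit 338) (nat_lit 193)) (XT.lf (nat_lit 0) (nat_lit 3113390706) (nat_lit 760) (nat_lit 8550745987) (nat_lit 76) (nat_lit 9521265590) (nat_lit 255) (nat_lit 5) (nat_lit 265) (nat_lit 5) (nat_lit 256) (nat_lit 5) (nat_lit 370) (nat_lit 338) (nat_lit 192))) (XT.nd (nat_lit 78) (nat_lit 608) (nat_lit 0) (XT.lf (nat_lit 0) (nat_lit 7472325346) (nat_lit 760) (nat_lit 13374291869) (nat_lit 76) (nat_lit 710610271) (nat_lit 246) (nat_lit 5) (nat_lit 256) (nat_lit 5) (nat_lit 247) (nat_lit 5) (nat_lit 371) (nat_lit 338) (nat_lit 191)) (XT.nd (nat_lit 78) (nat_lit 0) (nat_lit 0) (XT.lf (nat_lit 0) (nat_lit 3552646698) (nat_lit 608) (nat_lit 8558301375) (nat_lit 684) (nat_lit 9826285324) (nat_lit 238) (nat_lit 5) (nat_lit 246) (nat_lit 5) (nat_lit 247) (nat_lit 5) (nat_lit 372) (nat_lit 338) (nat_lit 190)) (XT.lf (nat_lit 0) (nat_lit 16996309741) (nat_lit 684) (nat_lit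 1195758729) (nat_lit 76) (nat_lit 4134423636) (nat_lit 238) (nat_lit 5) (nat_lit 247) (nat_lit 5) (nat_lit 239) (nat_lit 5) (nat_lit 373) (nat_lit 338) (nat_lit 189))))))))
noncomputable def xc112 : XT := (XT.nd (nat_lit 45162) (nat_lit 0) (nat_lit 4332) (XT.nd (nat_lit 44382) (nat_lit 0) (nat_lit 14668) (XT.nd (nat_lit 312) (nat_lit 608) (nat_lit 0) (XT.nd (nat_lit 156) (nat_lit 1140) (nat_lit 0) (XT.nd (nat_lit 78) (nat_lit 684) (nat_lit 0) (XT.lf (nat_lit 0) (nat_lit 16658147153) (nat_lit 608) (nat_lit 5525513222) (nat_lit 684) (nat_lit 540663741) (nat_lit 230) (nat_lit 5) (nat_lit 238) (nat_lit 5) (nat_lit 239) (nat_lit 5) (nat_lit 374) (nat_lit 338) (nat_lit 188)) (XT.lf (nat_lit 0) (nat_lit 4461075224) (nat_lit 684) (nat_lit 11133799224) (nat_lit 76) (nat_lit 7536127282) (nat_lit 221) (nat_lit 5) (nat_lit 230) (nat_lit 5) (nat_lit 222) (nat_lit 5) (nat_lit 375) (nat_lit 338) (nat_lit 187)))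 (XT.nd (nat_lit 78) (nat_lit 532) (nat_lit 0) (XT.lf (nat_lit 0) (nat_lit 7177999030) (nat_lit 608) (nat_lit 2542881311) (nat_lit 684) (nat_lit 13826624457) (nat_lit 213) (nat_lit 5) (nat_lit 221) (nat_lit 5) (nat_lit 222) (nat_lit 5) (nat_lit 376) (nat_lit 338) (nat_lit 186)) (XT.lf (nat_lit 0) (nat_lit 2161887983) (nat_lit 532) (nat_lit 13127922324) (nat_lit 608) (nat_lit 8683669716) (nat_lit 206) (nat_lit 5) (nat_lit 213) (nat_lit 5) (nat_lit 214) (nat_lit 5) (nat_lit 377) (nat_lit 338) (nat_lit 185)))) (XT.nd (nat_lit 43836) (nat_lit 0) (nat_lit 15884) (XT.nd (nat_lit 78) (nat_lit 608) (nat_lit 0) (XT.lf (nat_lit 0) (nat_lit 21146348666) (nat_lit 608) (nat_lit 2967313437) (nat_lit 76) (nat_lit 296165166) (nat_lit 206) (nat_lit 5) (nat_lit 214) (nat_lit 5) (nat_lit 207) (nat_lit 5) (nat_lit 378) (nat_lit 338) (nat_lit 184)) (XT.lf (nat_lit 0) (nat_lit 2476470910) (nat_lit 608) (nat_lit 8311532080)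 (nat_lit 76) (nat_lit 14067212754) (nat_lit 198) (nat_lit 5) (nat_lit 206) (nat_lit 5) (nat_lit 199) (nat_lit 5) (nat_lit 379) (nat_lit 338) (nat_lit 183))) (XT.nd (nat_lit 78) (nat_lit 0) (nat_lit 76) (XT.lf (nat_lit 0) (nat_lit 1881880705) (nat_lit 1748) (nat_lit 2354595853) (nat_lit 1748) (nat_lit 2354595853) (nat_lit 407) (nat_lit 3) (nat_lit 430) (nat_lit 3) (nat_lit 430) (nat_lit 5) (nat_lit 339) (nat_lit 339) (nat_lit 222)) (XT.nd (nat_lit 78) (nat_lit 0) (nat_lit 0) (XT.lf (nat_lit 0) (nat_lit 4416263341) (nat_lit 1672) (nat_lit 8733832853) (nat_lit 1748) (nat_lit 217566925) (nat_lit 408) (nat_lit 5) (nat_lit 430) (nat_lit 5) (nat_lit 431) (nat_lit 5) (nat_lit 340) (nat_lit 339) (nat_lit 221)) (XT.lf (nat_lit 76) (nat_lit 703938536) (nat_lit 0) (nat_lit 4455720938) (nat_lit 1748) (nat_lit 8397672540) (nat_lit 409) (nat_lit 5) (nat_lit 408) (nat_lit 5) (nat_lit 431) (nat_lit 5) (nat_lit 341)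 (nat_lit 339) (nat_lit 220)))))) (XT.nd (nat_lit 390) (nat_lit 1368) (nat_lit 0) (XT.nd (nat_lit 156) (nat_lit 0) (nat_lit 76) (XT.nd (nat_lit 78) (nat_lit 0) (nat_lit 0) (XT.lf (nat_lit 0) (nat_lit 5992739328) (nat_lit 1672) (nat_lit 3248944592) (nat_lit 1748) (nat_lit 4509670521) (nat_lit 409) (nat_lit 5) (nat_lit 431) (nat_lit 5) (nat_lit 432) (nat_lit 5) (nat_lit 342) (nat_lit 339) (nat_lit 219)) (XT.lf (nat_lit 76) (nat_lit 6689708328) (nat_lit 0) (nat_lit 213551194) (nat_lit 1748) (nat_lit 7046899837) (nat_lit 410) (nat_lit 5) (nat_lit 409) (nat_lit 5) (nat_lit 432) (nat_lit 5) (nat_lit 343) (nat_lit 339) (nat_lit 218))) (XT.nd (nat_lit 78) (nat_lit 0) (nat_lit 76) (XT.lf (nat_lit 76) (nat_lit 2781705498) (nat_lit 0) (nat_lit 5138402554) (nat_lit 1748) (nat_lit 6233250581) (nat_lit 411) (nat_lit 5) (nat_lit 410) (nat_lit 5) (nat_lit 433) (nat_lit 5) (nat_lit 344) (nat_lit 339) (nat_lit 217))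 (XT.nd (nat_lit 78) (nat_lit 0) (nat_lit 0) (XT.lf (nat_lit 0) (nat_lit 9025744107) (nat_lit 1672) (nat_lit 1178285750) (nat_lit 1748) (nat_lit 4157468546) (nat_lit 411) (nat_lit 5) (nat_lit 433) (nat_lit 5) (nat_lit 434) (nat_lit 5) (nat_lit 345) (nat_lit 339) (nat_lit 216)) (XT.lf (nat_lit 76) (nat_lit 9397729570) (nat_lit 0) (nat_lit 843133411) (nat_lit 1748) (nat_lit 4333502972) (nat_lit 412) (nat_lit 5) (nat_lit 411) (nat_lit 5) (nat_lit 434) (nat_lit 5) (nat_lit 346) (nat_lit 339) (nat_lit 215))))) (XT.nd (nat_lit 156) (nat_lit 1596) (nat_lit 0) (XT.nd (nat_lit 78) (nat_lit 0) (nat_lit 76) (XT.lf (nat_lit 76) (nat_lit 5516593112) (nat_lit 0) (nat_lit 6058280090) (nat_lit 1748) (nat_lit 3217107148) (nat_lit 413) (nat_lit 5) (nat_lit 412) (nat_lit 5) (nat_lit 435) (nat_lit 5) (nat_lit 347) (nat_lit 339) (nat_lit 214)) (XT.lf (nat_lit 76) (nat_lit 1565084100) (nat_lit 0) (nat_lit 11440032259) (nat_lit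 1748) (nat_lit 2009891864) (nat_lit 414) (nat_lit 5) (nat_lit 413) (nat_lit 5) (nat_lit 436) (nat_lit 5) (nat_lit 348) (nat_lit 339) (nat_lit 213))) (XT.nd (nat_lit 78) (nat_lit 1672) (nat_lit 0) (XT.lf (nat_lit 76) (nat_lit 12804398533) (nat_lit 0) (nat_lit 1759372375) (nat_lit 1748) (nat_lit 679254968) (nat_lit 414) (nat_lit 5) (nat_lit 413) (nat_lit 5) (nat_lit 436) (nat_lit 5) (nat_lit 349) (nat_lit 339) (nat_lit 212)) (XT.nd (nat_lit 78) (nat_lit 0) (nat_lit 76) (XT.lf (nat_lit 0) (nat_lit 777256909) (nat_lit 1748) (nat_lit 6526288996) (nat_lit 1824) (nat_lit 8172356530) (nat_lit 391) (nat_lit 5) (nat_lit 414) (nat_lit 5) (nat_lit 415) (nat_lit 5) (nat_lit 350) (nat_lit 339) (nat_lit 211)) (XT.lf (nat_lit 0) (nat_lit 2330299569) (nat_lit 1748) (nat_lit 10697747771) (nat_lit 1824) (nat_lit 2686395215) (nat_lit 392) (nat_lit 5) (nat_lit 415) (nat_lit 5) (nat_lit 416) (nat_lit 5) (nat_lit 351) (nat_lit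 339) (nat_lit 210))))))) (XT.nd (nat_lit 780) (nat_lit 6080) (nat_lit 0) (XT.nd (nat_lit 390) (nat_lit 2812) (nat_lit 0) (XT.nd (nat_lit 156) (nat_lit 1520) (nat_lit 0) (XT.nd (nat_lit 78) (nat_lit 0) (nat_lit 76) (XT.lf (nat_lit 76) (nat_lit 987360264) (nat_lit 0) (nat_lit 3026028121) (nat_lit 1824) (nat_lit 11945089495) (nat_lit 393) (nat_lit 5) (nat_lit 392) (nat_lit 5) (nat_lit 416) (nat_lit 5) (nat_lit 352) (nat_lit 339) (nat_lit 209)) (XT.lf (nat_lit 0) (nat_lit 5851286228) (nat_lit 1748) (nat_lit 3099299198) (nat_lit 1824) (nat_lit 7257170375) (nat_lit 393) (nat_lit 5) (nat_lit 416) (nat_lit 5) (nat_lit 417) (nat_lit 5) (nat_lit 353) (nat_lit 339) (nat_lit 208))) (XT.nd (nat_lit 78) (nat_lit 1672) (nat_lit 0) (XT.lf (nat_lit 0) (nat_lit 7818109695) (nat_lit 1748) (nat_lit 7255327725) (nat_lit 1824) (nat_lit 1389606497) (nat_lit 394) (nat_lit 5) (nat_lit 417) (nat_lit 5) (nat_lit 418) (nat_lit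 5) (nat_lit 354) (nat_lit 339) (nat_lit 207)) (XT.nd (nat_lit 78) (nat_lit 1672) (nat_lit 0) (XT.lf (nat_lit 76) (nat_lit 5196544964) (nat_lit 0) (nat_lit 4747087203) (nat_lit 1824) (nat_lit 6780372035) (nat_lit 395) (nat_lit 5) (nat_lit 394) (nat_lit 5) (nat_lit 418) (nat_lit 5) (nat_lit 355) (nat_lit 339) (nat_lit 206)) (XT.lf (nat_lit 0) (nat_lit 1092722125) (nat_lit 1748) (nat_lit 11120350888) (nat_lit 1824) (nat_lit 4778124424) (nat_lit 372) (nat_lit 5) (nat_lit 395) (nat_lit 5) (nat_lit 396) (nat_lit 5) (nat_lit 356) (nat_lit 339) (nat_lit 205))))) (XT.nd (nat_lit 156) (nat_lit 1824) (nat_lit 0) (XT.nd (nat_lit 78) (nat_lit 988) (nat_lit 0) (XT.lf (nat_lit 0) (nat_lit 14204810251) (nat_lit 1748) (nat_lit 441117174) (nat_lit 1824) (nat_lit 2618579422) (nat_lit 372) (nat_lit 5) (nat_lit 395) (nat_lit 5) (nat_lit 396) (nat_lit 5) (nat_lit 357) (nat_lit 339) (nat_lit 204)) (XT.lf (nat_lit 0) (nat_lit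 10217437059) (nat_lit 988) (nat_lit 7055330853) (nat_lit 1064) (nat_lit 270834401) (nat_lit 359) (nat_lit 5) (nat_lit 372) (nat_lit 5) (nat_lit 373) (nat_lit 5) (nat_lit 358) (nat_lit 339) (nat_lit 203))) (XT.nd (nat_lit 78) (nat_lit 836) (nat_lit 0) (XT.lf (nat_lit 0) (nat_lit 2195187611) (nat_lit 988) (nat_lit 11700113016) (nat_lit 76) (nat_lit 3933977482) (nat_lit 346) (nat_lit 5) (nat_lit 359) (nat_lit 5) (nat_lit 347) (nat_lit 5) (nat_lit 359) (nat_lit 339) (nat_lit 202)) (XT.nd (nat_lit 78) (nat_lit 0) (nat_lit 0) (XT.lf (nat_lit 0) (nat_lit 1929559126) (nat_lit 836) (nat_lit 2898323143) (nat_lit 912) (nat_lit 13293684941) (nat_lit 335) (nat_lit 5) (nat_lit 346) (nat_lit 5) (nat_lit 347) (nat_lit 5) (nat_lit 360) (nat_lit 339) (nat_lit 201)) (XT.lf (nat_lit 0) (nat_lit 7661072981) (nat_lit 912) (nat_lit 2360417120) (nat_lit 76) (nat_lit 8398710666) (nat_lit 335) (nat_lit 5) (nat_lit 347) (nat_lit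 5) (nat_lit 336) (nat_lit 5) (nat_lit 361) (nat_lit 339) (nat_lit 200)))))) (XT.nd (nat_lit 390) (nat_lit 2888) (nat_lit 0) (XT.nd (nat_lit 156) (nat_lit 1596) (nat_lit 0) (XT.nd (nat_lit 78) (nat_lit 760) (nat_lit 0) (XT.lf (nat_lit 0) (nat_lit 10672748725) (nat_lit 912) (nat_lit 6722618427) (nat_lit 76) (nat_lit 1330562298) (nat_lit 324) (nat_lit 5) (nat_lit 336) (nat_lit 5) (nat_lit 325) (nat_lit 5) (nat_lit 362) (nat_lit 339) (nat_lit 199)) (XT.lf (nat_lit 0) (nat_lit 7812992766) (nat_lit 760) (nat_lit 6083284358) (nat_lit 836) (nat_lit 5142128559) (nat_lit 314) (nat_lit 5) (nat_lit 324) (nat_lit 5) (nat_lit 325) (nat_lit 5) (nat_lit 363) (nat_lit 339) (nat_lit 198))) (XT.nd (nat_lit 78) (nat_lit 836) (nat_lit 0) (XT.lf (nat_lit 0) (nat_lit 3514837189) (nat_lit 760) (nat_lit 13794442784) (nat_lit 836) (nat_lit 2049126425) (nat_lit 304) (nat_lit 5) (nat_lit 314) (nat_lit 5) (nat_lit 315) (nat_lit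 5) (nat_lit 364) (nat_lit 339) (nat_lit 197)) (XT.nd (nat_lit 78) (nat_lit 760) (nat_lit 0) (XT.lf (nat_lit 0) (nat_lit 1227140241) (nat_lit 836) (nat_lit 896221098) (nat_lit 76) (nat_lit 17562395855) (nat_lit 303) (nat_lit 5) (nat_lit 314) (nat_lit 5) (nat_lit 304) (nat_lit 5) (nat_lit 365) (nat_lit 339) (nat_lit 196)) (XT.lf (nat_lit 0) (nat_lit 4722696888) (nat_lit 836) (nat_lit 5419538874) (nat_lit 76) (nat_lit 9877450172) (nat_lit 293) (nat_lit 5) (nat_lit 304) (nat_lit 5) (nat_lit 294) (nat_lit 5) (nat_lit 366) (nat_lit 339) (nat_lit 195))))) (XT.nd (nat_lit 156) (nat_lit 1444) (nat_lit 0) (XT.nd (nat_lit 78) (nat_lit 684) (nat_lit 0) (XT.lf (nat_lit 0) (nat_lit 8411635923) (nat_lit 836) (nat_lit 10055124384) (nat_lit 76) (nat_lit 1895106912) (nat_lit 283) (nat_lit 5) (nat_lit 294) (nat_lit 5) (nat_lit 284) (nat_lit 5) (nat_lit 367) (nat_lit 339) (nat_lit 194)) (XT.lf (nat_lit 0) (nat_lit 5862400637)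 (nat_lit 684) (nat_lit 6480681219) (nat_lit 760) (nat_lit 8368600161) (nat_lit 274) (nat_lit 5) (nat_lit 283) (nat_lit 5) (nat_lit 284) (nat_lit 5) (nat_lit 368) (nat_lit 339) (nat_lit 193))) (XT.nd (nat_lit 78) (nat_lit 760) (nat_lit 0) (XT.lf (nat_lit 0) (nat_lit 1291003659) (nat_lit 684) (nat_lit 15205739283) (nat_lit 760) (nat_lit 4573167592) (nat_lit 265) (nat_lit 5) (nat_lit 274) (nat_lit 5) (nat_lit 275) (nat_lit 5) (nat_lit 369) (nat_lit 339) (nat_lit 192)) (XT.nd (nat_lit 78) (nat_lit 760) (nat_lit 0) (XT.lf (nat_lit 0) (nat_lit 18063177254) (nat_lit 684) (nat_lit 2844974712) (nat_lit 760) (nat_lit 528075750) (nat_lit 265) (nat_lit 5) (nat_lit 274) (nat_lit 5) (nat_lit 275) (nat_lit 5) (nat_lit 370) (nat_lit 339) (nat_lit 191)) (XT.lf (nat_lit 0) (nat_lit 3734022827) (nat_lit 760) (nat_lit 8207257714) (nat_lit 76) (nat_lit 9868918333) (nat_lit 255) (nat_lit 5) (nat_lit 265) (nat_lit 5) (nat_lit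 256) (nat_lit 5) (nat_lit 371) (nat_lit 339) (nat_lit 190))))))))
noncomputable def xc113 : XT := (XT.nd (nat_lit 45318) (nat_lit 0) (nat_lit 4484) (XT.nd (nat_lit 44538) (nat_lit 0) (nat_lit 13984) (XT.nd (nat_lit 312) (nat_lit 1824) (nat_lit 0) (XT.nd (nat_lit 156) (nat_lit 608) (nat_lit 0) (XT.nd (nat_lit 78) (nat_lit 608) (nat_lit 0) (XT.lf (nat_lit 0) (nat_lit 8212685900) (nat_lit 760) (nat_lit 13175200019) (nat_lit 76) (nat_lit 805520140) (nat_lit 246) (nat_lit 5) (nat_lit 256) (nat_lit 5) (nat_lit 247) (nat_lit 5) (nat_lit 372) (nat_lit 339) (nat_lit 189)) (XT.lf (nat_lit 0) (nat_lit 4249807217) (nat_lit 608) (nat_lit 8729459854) (nat_lit 684) (nat_lit 9605775328) (nat_lit 238) (nat_lit 5) (nat_lit 246) (nat_lit 5) (nat_lit 247) (nat_lit 5) (nat_lit 373) (nat_lit 339) (nat_lit 188))) (XT.nd (nat_lit 78) (nat_lit 608) (nat_lit 0) (XT.lf (nat_lit 0) (nat_lit 17997020651) (nat_lit 684) (nat_lit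 648783522) (nat_lit 76) (nat_lit 4340464138) (nat_lit 238) (nat_lit 5) (nat_lit 247) (nat_lit 5) (nat_lit 239) (nat_lit 5) (nat_lit 374) (nat_lit 339) (nat_lit 187)) (XT.lf (nat_lit 0) (nat_lit 17731283521) (nat_lit 608) (nat_lit 5598135348) (nat_lit 684) (nat_lit 66833757) (nat_lit 230) (nat_lit 5) (nat_lit 238) (nat_lit 5) (nat_lit 239) (nat_lit 5) (nat_lit 375) (nat_lit 339) (nat_lit 186)))) (XT.nd (nat_lit 156) (nat_lit 532) (nat_lit 0) (XT.nd (nat_lit 78) (nat_lit 608) (nat_lit 0) (XT.lf (nat_lit 0) (nat_lit 5068781031) (nat_lit 684) (nat_lit 10888192270) (nat_lit 76) (nat_lit 7858294222) (nat_lit 221) (nat_lit 5) (nat_lit 230) (nat_lit 5) (nat_lit 222) (nat_lit 5) (nat_lit 376) (nat_lit 339) (nat_lit 185)) (XT.lf (nat_lit 0) (nat_lit 7963556272) (nat_lit 608) (nat_lit 2512724117) (nat_lit 684) (nat_lit 13768192732) (nat_lit 213) (nat_lit 5) (nat_lit 221) (nat_lit 5) (nat_lit 222) (nat_lit 5)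 (nat_lit 377) (nat_lit 339) (nat_lit 184))) (XT.nd (nat_lit 43914) (nat_lit 0) (nat_lit 15276) (XT.lf (nat_lit 0) (nat_lit 2796334300) (nat_lit 532) (nat_lit 13406805112) (nat_lit 608) (nat_lit 8480276251) (nat_lit 206) (nat_lit 5) (nat_lit 213) (nat_lit 5) (nat_lit 214) (nat_lit 5) (nat_lit 378) (nat_lit 339) (nat_lit 183)) (XT.nd (nat_lit 78) (nat_lit 0) (nat_lit 0) (XT.lf (nat_lit 0) (nat_lit 2497429395) (nat_lit 1748) (nat_lit 2139951596) (nat_lit 1748) (nat_lit 2139951596) (nat_lit 407) (nat_lit 3) (nat_lit 430) (nat_lit 3) (nat_lit 430) (nat_lit 5) (nat_lit 340) (nat_lit 340) (nat_lit 220)) (XT.lf (nat_lit 76) (nat_lit 5335656500) (nat_lit 0) (nat_lit 300880876) (nat_lit 1748) (nat_lit 8109836516) (nat_lit 408) (nat_lit 5) (nat_lit 407) (nat_lit 3) (nat_lit 430) (nat_lit 5) (nat_lit 341) (nat_lit 340) (nat_lit 219)))))) (XT.nd (nat_lit 390) (nat_lit 1368) (nat_lit 0) (XT.nd (nat_lit 156) (nat_lit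 0) (nat_lit 76) (XT.nd (nat_lit 78) (nat_lit 0) (nat_lit 76) (XT.lf (nat_lit 76) (nat_lit 1302615917) (nat_lit 0) (nat_lit 5069789665) (nat_lit 1748) (nat_lit 7569940279) (nat_lit 409) (nat_lit 5) (nat_lit 408) (nat_lit 5) (nat_lit 431) (nat_lit 5) (nat_lit 342) (nat_lit 340) (nat_lit 218)) (XT.lf (nat_lit 0) (nat_lit 7196635358) (nat_lit 1672) (nat_lit 2761573711) (nat_lit 1748) (nat_lit 4184672672) (nat_lit 409) (nat_lit 5) (nat_lit 431) (nat_lit 5) (nat_lit 432) (nat_lit 5) (nat_lit 343) (nat_lit 340) (nat_lit 217))) (XT.nd (nat_lit 78) (nat_lit 0) (nat_lit 76) (XT.lf (nat_lit 76) (nat_lit 7465750476) (nat_lit 0) (nat_lit 642627684) (nat_lit 1748) (nat_lit 6239809974) (nat_lit 410) (nat_lit 5) (nat_lit 409) (nat_lit 5) (nat_lit 432) (nat_lit 5) (nat_lit 344) (nat_lit 340) (nat_lit 216)) (XT.nd (nat_lit 78) (nat_lit 0) (nat_lit 76) (XT.lf (nat_lit 76) (nat_lit 3454016714) (nat_lit 0) (nat_lit 5673805808)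 (nat_lit 1748) (nat_lit 5430234073) (nat_lit 411) (nat_lit 5) (nat_lit 410) (nat_lit 5) (nat_lit 433) (nat_lit 5) (nat_lit 345) (nat_lit 340) (nat_lit 215)) (XT.lf (nat_lit 0) (nat_lit 10235968753) (nat_lit 1672) (nat_lit 620199193) (nat_lit 1748) (nat_lit 3916900370) (nat_lit 411) (nat_lit 5) (nat_lit 433) (nat_lit 5) (nat_lit 434) (nat_lit 5) (nat_lit 346) (nat_lit 340) (nat_lit 214))))) (XT.nd (nat_lit 156) (nat_lit 1596) (nat_lit 0) (XT.nd (nat_lit 78) (nat_lit 0) (nat_lit 76) (XT.lf (nat_lit 76) (nat_lit 10263468806) (nat_lit 0) (nat_lit 1200500164) (nat_lit 1748) (nat_lit 3528838523) (nat_lit 412) (nat_lit 5) (nat_lit 411) (nat_lit 5) (nat_lit 434) (nat_lit 5) (nat_lit 347) (nat_lit 340) (nat_lit 213)) (XT.lf (nat_lit 76) (nat_lit 6277032334) (nat_lit 0) (nat_lit 6536060559) (nat_lit 1748) (nat_lit 2404369304) (nat_lit 413) (nat_lit 5) (nat_lit 412) (nat_lit 5) (nat_lit 435) (nat_lit 5) (nat_lit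 348) (nat_lit 340) (nat_lit 212))) (XT.nd (nat_lit 78) (nat_lit 1748) (nat_lit 0) (XT.lf (nat_lit 76) (nat_lit 2217197720) (nat_lit 0) (nat_lit 12045157993) (nat_lit 1748) (nat_lit 1185316289) (nat_lit 414) (nat_lit 5) (nat_lit 413) (nat_lit 5) (nat_lit 436) (nat_lit 5) (nat_lit 349) (nat_lit 340) (nat_lit 211)) (XT.nd (nat_lit 78) (nat_lit 0) (nat_lit 76) (XT.lf (nat_lit 0) (nat_lit 157375298) (nat_lit 1748) (nat_lit 1908018067) (nat_lit 1824) (nat_lit 13617634165) (nat_lit 390) (nat_lit 5) (nat_lit 413) (nat_lit 5) (nat_lit 414) (nat_lit 5) (nat_lit 350) (nat_lit 340) (nat_lit 210)) (XT.lf (nat_lit 0) (nat_lit 1625998278) (nat_lit 1748) (nat_lit 6114081704) (nat_lit 1824) (nat_lit 8183180051) (nat_lit 391) (nat_lit 5) (nat_lit 414) (nat_lit 5) (nat_lit 415) (nat_lit 5) (nat_lit 351) (nat_lit 340) (nat_lit 209))))))) (XT.nd (nat_lit 780) (nat_lit 5320) (nat_lit 0) (XT.nd (nat_lit 390) (nat_lit 4332)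 (nat_lit 0) (XT.nd (nat_lit 156) (nat_lit 0) (nat_lit 76) (XT.nd (nat_lit 78) (nat_lit 0) (nat_lit 0) (XT.lf (nat_lit 0) (nat_lit 3204129372) (nat_lit 1748) (nat_lit 10402699062) (nat_lit 1824) (nat_lit 2562569952) (nat_lit 392) (nat_lit 5) (nat_lit 415) (nat_lit 5) (nat_lit 416) (nat_lit 5) (nat_lit 352) (nat_lit 340) (nat_lit 208)) (XT.lf (nat_lit 76) (nat_lit 1622968652) (nat_lit 0) (nat_lit 3295261505) (nat_lit 1824) (nat_lit 11502925850) (nat_lit 393) (nat_lit 5) (nat_lit 392) (nat_lit 5) (nat_lit 416) (nat_lit 5) (nat_lit 353) (nat_lit 340) (nat_lit 207))) (XT.nd (nat_lit 78) (nat_lit 0) (nat_lit 76) (XT.lf (nat_lit 0) (nat_lit 6787292279) (nat_lit 1748) (nat_lit 2587207861) (nat_lit 1824) (nat_lit 7303902862) (nat_lit 393) (nat_lit 5) (nat_lit 416) (nat_lit 5) (nat_lit 417) (nat_lit 5) (nat_lit 354) (nat_lit 340) (nat_lit 206)) (XT.nd (nat_lit 78) (nat_lit 0) (nat_lit 0) (XT.lf (nat_lit 0)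 (nat_lit 8793881734) (nat_lit 1748) (nat_lit 6861571007) (nat_lit 1824) (nat_lit 1286292749) (nat_lit 394) (nat_lit 5) (nat_lit 417) (nat_lit 5) (nat_lit 418) (nat_lit 5) (nat_lit 355) (nat_lit 340) (nat_lit 205)) (XT.lf (nat_lit 76) (nat_lit 5953938355) (nat_lit 0) (nat_lit 5011547656) (nat_lit 1824) (nat_lit 6245412887) (nat_lit 395) (nat_lit 5) (nat_lit 394) (nat_lit 5) (nat_lit 418) (nat_lit 5) (nat_lit 356) (nat_lit 340) (nat_lit 204))))) (XT.nd (nat_lit 156) (nat_lit 2812) (nat_lit 0) (XT.nd (nat_lit 78) (nat_lit 0) (nat_lit 0) (XT.lf (nat_lit 0) (nat_lit 1732606721) (nat_lit 1748) (nat_lit 11552501618) (nat_lit 1824) (nat_lit 4201367951) (nat_lit 372) (nat_lit 5) (nat_lit 395) (nat_lit 5) (nat_lit 396) (nat_lit 5) (nat_lit 357) (nat_lit 340) (nat_lit 203)) (XT.lf (nat_lit 0) (nat_lit 15220374881) (nat_lit 1748) (nat_lit 550020790) (nat_lit 1824) (nat_lit 1998010392) (nat_lit 372) (nat_lit 5)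 (nat_lit 395) (nat_lit 5) (nat_lit 396) (nat_lit 5) (nat_lit 358) (nat_lit 340) (nat_lit 202))) (XT.nd (nat_lit 78) (nat_lit 1748) (nat_lit 0) (XT.lf (nat_lit 0) (nat_lit 397837509) (nat_lit 1064) (nat_lit 6940598255) (nat_lit 76) (nat_lit 10717729989) (nat_lit 358) (nat_lit 5) (nat_lit 372) (nat_lit 5) (nat_lit 359) (nat_lit 5) (nat_lit 359) (nat_lit 340) (nat_lit 201)) (XT.nd (nat_lit 78) (nat_lit 836) (nat_lit 0) (XT.lf (nat_lit 0) (nat_lit 2918017438) (nat_lit 988) (nat_lit 11443497620) (nat_lit 76) (nat_lit 3989193089) (nat_lit 346) (nat_lit 5) (nat_lit 359) (nat_lit 5) (nat_lit 347) (nat_lit 5) (nat_lit 360) (nat_lit 340) (nat_lit 200)) (XT.lf (nat_lit 0) (nat_lit 2585206794) (nat_lit 836) (nat_lit 3029232032) (nat_lit 912) (nat_lit 13037641173) (nat_lit 335) (nat_lit 5) (nat_lit 346) (nat_lit 5) (nat_lit 347) (nat_lit 5) (nat_lit 361) (nat_lit 340) (nat_lit 199)))))) (XT.nd (nat_lit 390) (nat_lit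 2888) (nat_lit 0) (XT.nd (nat_lit 156) (nat_lit 1596) (nat_lit 0) (XT.nd (nat_lit 78) (nat_lit 836) (nat_lit 0) (XT.lf (nat_lit 0) (nat_lit 8513657283) (nat_lit 912) (nat_lit 1837850474) (nat_lit 76) (nat_lit 8608552897) (nat_lit 335) (nat_lit 5) (nat_lit 347) (nat_lit 5) (nat_lit 336) (nat_lit 5) (nat_lit 362) (nat_lit 340) (nat_lit 198)) (XT.lf (nat_lit 0) (nat_lit 11601174942) (nat_lit 912) (nat_lit 6327933947) (nat_lit 76) (nat_lit 1346150955) (nat_lit 324) (nat_lit 5) (nat_lit 336) (nat_lit 5) (nat_lit 325) (nat_lit 5) (nat_lit 363) (nat_lit 340) (nat_lit 197))) (XT.nd (nat_lit 78) (nat_lit 836) (nat_lit 0) (XT.lf (nat_lit 0) (nat_lit 8634070301) (nat_lit 760) (nat_lit 6273432220) (nat_lit 836) (nat_lit 4689894207) (nat_lit 314) (nat_lit 5) (nat_lit 324) (nat_lit 5) (nat_lit 325) (nat_lit 5) (nat_lit 364) (nat_lit 340) (nat_lit 196)) (XT.nd (nat_lit 78) (nat_lit 76) (nat_lit 0) (XT.lf (nat_lit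 0) (nat_lit 4209464429) (nat_lit 760) (nat_lit 14199897380) (nat_lit 836) (nat_lit 1517914319) (nat_lit 304) (nat_lit 5) (nat_lit 314) (nat_lit 5) (nat_lit 315) (nat_lit 5) (nat_lit 365) (nat_lit 340) (nat_lit 195)) (XT.lf (nat_lit 0) (nat_lit 1831830872) (nat_lit 836) (nat_lit 343285910) (nat_lit 76) (nat_lit 18089602038) (nat_lit 303) (nat_lit 5) (nat_lit 314) (nat_lit 5) (nat_lit 304) (nat_lit 5) (nat_lit 366) (nat_lit 340) (nat_lit 194))))) (XT.nd (nat_lit 156) (nat_lit 1368) (nat_lit 0) (XT.nd (nat_lit 78) (nat_lit 760) (nat_lit 0) (XT.lf (nat_lit 0) (nat_lit 5419517465) (nat_lit 836) (nat_lit 5000462991) (nat_lit 76) (nat_lit 10188947086) (nat_lit 293) (nat_lit 5) (nat_lit 304) (nat_lit 5) (nat_lit 294) (nat_lit 5) (nat_lit 367) (nat_lit 340) (nat_lit 193)) (XT.lf (nat_lit 0) (nat_lit 9206862610) (nat_lit 836) (nat_lit 9773651909) (nat_lit 76) (nat_lit 1981112157) (nat_lit 283) (nat_lit 5) (nat_lit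 294) (nat_lit 5) (nat_lit 284) (nat_lit 5) (nat_lit 368) (nat_lit 340) (nat_lit 192))) (XT.nd (nat_lit 78) (nat_lit 684) (nat_lit 0) (XT.lf (nat_lit 0) (nat_lit 6611938332) (nat_lit 684) (nat_lit 6632226238) (nat_lit 760) (nat_lit 8078020058) (nat_lit 274) (nat_lit 5) (nat_lit 283) (nat_lit 5) (nat_lit 284) (nat_lit 5) (nat_lit 369) (nat_lit 340) (nat_lit 191)) (XT.nd (nat_lit 78) (nat_lit 0) (nat_lit 0) (XT.lf (nat_lit 0) (nat_lit 1904490398) (nat_lit 684) (nat_lit 15606487149) (nat_lit 760) (nat_lit 4180418370) (nat_lit 265) (nat_lit 5) (nat_lit 274) (nat_lit 5) (nat_lit 275) (nat_lit 5) (nat_lit 370) (nat_lit 340) (nat_lit 190)) (XT.lf (nat_lit 0) (nat_lit 19163088717) (nat_lit 684) (nat_lit 2876513940) (nat_lit 760) (nat_lit 29409042) (nat_lit 265) (nat_lit 5) (nat_lit 274) (nat_lit 5) (nat_lit 275) (nat_lit 5) (nat_lit 371) (nat_lit 340) (nat_lit 189))))))))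
noncomputable def xc114 : XT := (XT.nd (nat_lit 45396) (nat_lit 0) (nat_lit 3876) (XT.nd (nat_lit 44616) (nat_lit 0) (nat_lit 13452) (XT.nd (nat_lit 312) (nat_lit 1900) (nat_lit 0) (XT.nd (nat_lit 156) (nat_lit 608) (nat_lit 0) (XT.nd (nat_lit 78) (nat_lit 684) (nat_lit 0) (XT.lf (nat_lit 0) (nat_lit 4343008730) (nat_lit 760) (nat_lit 7887907858) (nat_lit 76) (nat_lit 10223440757) (nat_lit 255) (nat_lit 5) (nat_lit 265) (nat_lit 5) (nat_lit 256) (nat_lit 5) (nat_lit 372) (nat_lit 340) (nat_lit 188)) (XT.lf (nat_lit 0) (nat_lit 8945625808) (nat_lit 760) (nat_lit 13004596272) (nat_lit 76) (nat_lit 899052848) (nat_lit 246) (nat_lit 5) (nat_lit 256) (nat_lit 5) (nat_lit 247) (nat_lit 5) (nat_lit 373) (nat_lit 340) (nat_lit 187))) (XT.nd (nat_lit 78) (nat_lit 0) (nat_lit 0) (XT.lf (nat_lit 0) (nat_lit 4933980779) (nat_lit 608) (nat_lit 8910666336) (nat_lit 684) (nat_lit 9408230276) (nat_lit 238) (nat_lit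 5) (nat_lit 246) (nat_lit 5) (nat_lit 247) (nat_lit 5) (nat_lit 374) (nat_lit 340) (nat_lit 186)) (XT.lf (nat_lit 0) (nat_lit 18999577719) (nat_lit 684) (nat_lit 118856916) (nat_lit 76) (nat_lit 4547978273) (nat_lit 238) (nat_lit 5) (nat_lit 247) (nat_lit 5) (nat_lit 239) (nat_lit 5) (nat_lit 375) (nat_lit 340) (nat_lit 185)))) (XT.nd (nat_lit 156) (nat_lit 608) (nat_lit 0) (XT.nd (nat_lit 78) (nat_lit 608) (nat_lit 0) (XT.lf (nat_lit 0) (nat_lit 387924938) (nat_lit 684) (nat_lit 5287754824) (nat_lit 76) (nat_lit 18413170817) (nat_lit 229) (nat_lit 5) (nat_lit 238) (nat_lit 5) (nat_lit 230) (nat_lit 5) (nat_lit 376) (nat_lit 340) (nat_lit 184)) (XT.lf (nat_lit 0) (nat_lit 5667515733) (nat_lit 684) (nat_lit 10668489719) (nat_lit 76) (nat_lit 8184610606) (nat_lit 221) (nat_lit 5) (nat_lit 230) (nat_lit 5) (nat_lit 222) (nat_lit 5) (nat_lit 377) (nat_lit 340) (nat_lit 183))) (XT.nd (nat_lit 43992) (nat_lit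 0) (nat_lit 14744) (XT.lf (nat_lit 0) (nat_lit 8739947426) (nat_lit 608) (nat_lit 2487772508) (nat_lit 684) (nat_lit 13735173421) (nat_lit 213) (nat_lit 5) (nat_lit 221) (nat_lit 5) (nat_lit 222) (nat_lit 5) (nat_lit 378) (nat_lit 340) (nat_lit 182)) (XT.nd (nat_lit 78) (nat_lit 0) (nat_lit 0) (XT.lf (nat_lit 0) (nat_lit 3099350363) (nat_lit 1748) (nat_lit 1935244373) (nat_lit 1748) (nat_lit 1935244373) (nat_lit 407) (nat_lit 3) (nat_lit 430) (nat_lit 3) (nat_lit 430) (nat_lit 5) (nat_lit 341) (nat_lit 341) (nat_lit 218)) (XT.lf (nat_lit 76) (nat_lit 6024812384) (nat_lit 0) (nat_lit 807553547) (nat_lit 1748) (nat_lit 7305333473) (nat_lit 408) (nat_lit 5) (nat_lit 407) (nat_lit 3) (nat_lit 430) (nat_lit 5) (nat_lit 342) (nat_lit 341) (nat_lit 217)))))) (XT.nd (nat_lit 390) (nat_lit 1368) (nat_lit 0) (XT.nd (nat_lit 156) (nat_lit 0) (nat_lit 76) (XT.nd (nat_lit 78) (nat_lit 0) (nat_lit 76) (XT.lf (nat_lit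 76) (nat_lit 1886099356) (nat_lit 0) (nat_lit 5674703694) (nat_lit 1748) (nat_lit 6779353091) (nat_lit 409) (nat_lit 5) (nat_lit 408) (nat_lit 5) (nat_lit 431) (nat_lit 5) (nat_lit 343) (nat_lit 341) (nat_lit 216)) (XT.lf (nat_lit 0) (nat_lit 8377859945) (nat_lit 1672) (nat_lit 2293153867) (nat_lit 1748) (nat_lit 3876347300) (nat_lit 409) (nat_lit 5) (nat_lit 431) (nat_lit 5) (nat_lit 432) (nat_lit 5) (nat_lit 344) (nat_lit 341) (nat_lit 215))) (XT.nd (nat_lit 78) (nat_lit 0) (nat_lit 76) (XT.lf (nat_lit 76) (nat_lit 8232046392) (nat_lit 0) (nat_lit 1060313483) (nat_lit 1748) (nat_lit 5466973303) (nat_lit 410) (nat_lit 5) (nat_lit 409) (nat_lit 5) (nat_lit 432) (nat_lit 5) (nat_lit 345) (nat_lit 341) (nat_lit 214)) (XT.nd (nat_lit 78) (nat_lit 0) (nat_lit 76) (XT.lf (nat_lit 76) (nat_lit 4112694291) (nat_lit 0) (nat_lit 6203385783) (nat_lit 1748) (nat_lit 4659957925) (nat_lit 411) (nat_lit 5) (nat_lit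 410) (nat_lit 5) (nat_lit 433) (nat_lit 5) (nat_lit 346) (nat_lit 341) (nat_lit 213)) (XT.lf (nat_lit 0) (nat_lit 11428571733) (nat_lit 1672) (nat_lit 79435644) (nat_lit 1748) (nat_lit 3690084417) (nat_lit 411) (nat_lit 5) (nat_lit 433) (nat_lit 5) (nat_lit 434) (nat_lit 5) (nat_lit 347) (nat_lit 341) (nat_lit 212))))) (XT.nd (nat_lit 156) (nat_lit 1596) (nat_lit 0) (XT.nd (nat_lit 78) (nat_lit 0) (nat_lit 76) (XT.lf (nat_lit 76) (nat_lit 11121667289) (nat_lit 0) (nat_lit 1549525585) (nat_lit 1748) (nat_lit 2753687996) (nat_lit 412) (nat_lit 5) (nat_lit 411) (nat_lit 5) (nat_lit 434) (nat_lit 5) (nat_lit 348) (nat_lit 341) (nat_lit 211)) (XT.lf (nat_lit 76) (nat_lit 7026132660) (nat_lit 0) (nat_lit 7011180991) (nat_lit 1748) (nat_lit 1619444055) (nat_lit 413) (nat_lit 5) (nat_lit 412) (nat_lit 5) (nat_lit 435) (nat_lit 5) (nat_lit 349) (nat_lit 341) (nat_lit 210))) (XT.nd (nat_lit 78) (nat_lit 1748)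 (nat_lit 0) (XT.lf (nat_lit 76) (nat_lit 2854136025) (nat_lit 0) (nat_lit 12653401946) (nat_lit 1748) (nat_lit 386798737) (nat_lit 414) (nat_lit 5) (nat_lit 413) (nat_lit 5) (nat_lit 436) (nat_lit 5) (nat_lit 350) (nat_lit 341) (nat_lit 209)) (XT.nd (nat_lit 78) (nat_lit 0) (nat_lit 76) (XT.lf (nat_lit 0) (nat_lit 961259634) (nat_lit 1748) (nat_lit 1400430992) (nat_lit 1824) (nat_lit 13775445438) (nat_lit 390) (nat_lit 5) (nat_lit 413) (nat_lit 5) (nat_lit 414) (nat_lit 5) (nat_lit 351) (nat_lit 341) (nat_lit 208)) (XT.lf (nat_lit 0) (nat_lit 2452819193) (nat_lit 1748) (nat_lit 5724409649) (nat_lit 1824) (nat_lit 8207780765) (nat_lit 391) (nat_lit 5) (nat_lit 414) (nat_lit 5) (nat_lit 415) (nat_lit 5) (nat_lit 352) (nat_lit 341) (nat_lit 207))))))) (XT.nd (nat_lit 780) (nat_lit 5396) (nat_lit 0) (XT.nd (nat_lit 390) (nat_lit 4332) (nat_lit 0) (XT.nd (nat_lit 156) (nat_lit 0) (nat_lit 76) (XT.nd (nat_lit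 78) (nat_lit 0) (nat_lit 0) (XT.lf (nat_lit 0) (nat_lit 4058025726) (nat_lit 1748) (nat_lit 10134158729) (nat_lit 1824) (nat_lit 2446764309) (nat_lit 392) (nat_lit 5) (nat_lit 415) (nat_lit 5) (nat_lit 416) (nat_lit 5) (nat_lit 353) (nat_lit 341) (nat_lit 206)) (XT.lf (nat_lit 76) (nat_lit 2242859126) (nat_lit 0) (nat_lit 3562327984) (nat_lit 1824) (nat_lit 11093450208) (nat_lit 393) (nat_lit 5) (nat_lit 392) (nat_lit 5) (nat_lit 416) (nat_lit 5) (nat_lit 354) (nat_lit 341) (nat_lit 205))) (XT.nd (nat_lit 78) (nat_lit 0) (nat_lit 76) (XT.lf (nat_lit 0) (nat_lit 7707724567) (nat_lit 1748) (nat_lit 2094487295) (nat_lit 1824) (nat_lit 7361852426) (nat_lit 393) (nat_lit 5) (nat_lit 416) (nat_lit 5) (nat_lit 417) (nat_lit 5) (nat_lit 355) (nat_lit 341) (nat_lit 204)) (XT.nd (nat_lit 78) (nat_lit 0) (nat_lit 0) (XT.lf (nat_lit 0) (nat_lit 9756377372) (nat_lit 1748) (nat_lit 6491099400) (nat_lit 1824) (nat_lit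 1188203294) (nat_lit 394) (nat_lit 5) (nat_lit 417) (nat_lit 5) (nat_lit 418) (nat_lit 5) (nat_lit 356) (nat_lit 341) (nat_lit 203)) (XT.lf (nat_lit 76) (nat_lit 6699525157) (nat_lit 0) (nat_lit 5276935878) (nat_lit 1824) (nat_lit 5736790440) (nat_lit 395) (nat_lit 5) (nat_lit 394) (nat_lit 5) (nat_lit 418) (nat_lit 5) (nat_lit 357) (nat_lit 341) (nat_lit 202))))) (XT.nd (nat_lit 156) (nat_lit 2812) (nat_lit 0) (XT.nd (nat_lit 78) (nat_lit 0) (nat_lit 0) (XT.lf (nat_lit 0) (nat_lit 2356837663) (nat_lit 1748) (nat_lit 11991960259) (nat_lit 1824) (nat_lit 3648645482) (nat_lit 372) (nat_lit 5) (nat_lit 395) (nat_lit 5) (nat_lit 396) (nat_lit 5) (nat_lit 358) (nat_lit 341) (nat_lit 201)) (XT.lf (nat_lit 0) (nat_lit 16232571312) (nat_lit 1748) (nat_lit 656699659) (nat_lit 1824) (nat_lit 1398957007) (nat_lit 372) (nat_lit 5) (nat_lit 395) (nat_lit 5) (nat_lit 396) (nat_lit 5) (nat_lit 359) (nat_lit 341)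 (nat_lit 200))) (XT.nd (nat_lit 78) (nat_lit 1748) (nat_lit 0) (XT.lf (nat_lit 0) (nat_lit 1044270079) (nat_lit 1064) (nat_lit 6579921145) (nat_lit 76) (nat_lit 10960669726) (nat_lit 358) (nat_lit 5) (nat_lit 372) (nat_lit 5) (nat_lit 359) (nat_lit 5) (nat_lit 360) (nat_lit 341) (nat_lit 199)) (XT.nd (nat_lit 78) (nat_lit 836) (nat_lit 0) (XT.lf (nat_lit 0) (nat_lit 3624819153) (nat_lit 988) (nat_lit 11214063566) (nat_lit 76) (nat_lit 4049670354) (nat_lit 346) (nat_lit 5) (nat_lit 359) (nat_lit 5) (nat_lit 347) (nat_lit 5) (nat_lit 361) (nat_lit 341) (nat_lit 198)) (XT.lf (nat_lit 0) (nat_lit 3226209971) (nat_lit 836) (nat_lit 3161544750) (nat_lit 912) (nat_lit 12811507408) (nat_lit 335) (nat_lit 5) (nat_lit 346) (nat_lit 5) (nat_lit 347) (nat_lit 5) (nat_lit 362) (nat_lit 341) (nat_lit 197)))))) (XT.nd (nat_lit 390) (nat_lit 2204) (nat_lit 0) (XT.nd (nat_lit 156) (nat_lit 2356) (nat_lit 0) (XT.nd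 (nat_lit 78) (nat_lit 836) (nat_lit 0) (XT.lf (nat_lit 0) (nat_lit 9356070595) (nat_lit 912) (nat_lit 1333669220) (nat_lit 76) (nat_lit 8827108202) (nat_lit 335) (nat_lit 5) (nat_lit 347) (nat_lit 5) (nat_lit 336) (nat_lit 5) (nat_lit 363) (nat_lit 341) (nat_lit 196)) (XT.lf (nat_lit 0) (nat_lit 12522538265) (nat_lit 912) (nat_lit 5955642610) (nat_lit 76) (nat_lit 1363603811) (nat_lit 324) (nat_lit 5) (nat_lit 336) (nat_lit 5) (nat_lit 325) (nat_lit 5) (nat_lit 364) (nat_lit 341) (nat_lit 195))) (XT.nd (nat_lit 78) (nat_lit 1596) (nat_lit 0) (XT.lf (nat_lit 0) (nat_lit 9446101884) (nat_lit 760) (nat_lit 6468845415) (nat_lit 836) (nat_lit 4258908303) (nat_lit 314) (nat_lit 5) (nat_lit 324) (nat_lit 5) (nat_lit 325) (nat_lit 5) (nat_lit 365) (nat_lit 341) (nat_lit 194)) (XT.nd (nat_lit 78) (nat_lit 836) (nat_lit 0) (XT.lf (nat_lit 0) (nat_lit 4891109022) (nat_lit 760) (nat_lit 14617996586) (nat_lit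 836) (nat_lit 1004788446) (nat_lit 304) (nat_lit 5) (nat_lit 314) (nat_lit 5) (nat_lit 315) (nat_lit 5) (nat_lit 366) (nat_lit 341) (nat_lit 193)) (XT.lf (nat_lit 0) (nat_lit 195517434) (nat_lit 760) (nat_lit 2227815786) (nat_lit 836) (nat_lit 18438357209) (nat_lit 293) (nat_lit 5) (nat_lit 303) (nat_lit 5) (nat_lit 304) (nat_lit 5) (nat_lit 367) (nat_lit 341) (nat_lit 192))))) (XT.nd (nat_lit 156) (nat_lit 1444) (nat_lit 0) (XT.nd (nat_lit 78) (nat_lit 760) (nat_lit 0) (XT.lf (nat_lit 0) (nat_lit 6105375371) (nat_lit 836) (nat_lit 4602204613) (nat_lit 76) (nat_lit 10508917891) (nat_lit 293) (nat_lit 5) (nat_lit 304) (nat_lit 5) (nat_lit 294) (nat_lit 5) (nat_lit 368) (nat_lit 341) (nat_lit 191)) (XT.lf (nat_lit 0) (nat_lit 9994782702) (nat_lit 836) (nat_lit 9517209090) (nat_lit 76) (nat_lit 2068024114) (nat_lit 283) (nat_lit 5) (nat_lit 294) (nat_lit 5) (nat_lit 284) (nat_lit 5) (nat_lit 369) (nat_lit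 341) (nat_lit 190))) (XT.nd (nat_lit 78) (nat_lit 760) (nat_lit 0) (XT.lf (nat_lit 0) (nat_lit 7351031402) (nat_lit 684) (nat_lit 6790778831) (nat_lit 760) (nat_lit 7809814794) (nat_lit 274) (nat_lit 5) (nat_lit 283) (nat_lit 5) (nat_lit 284) (nat_lit 5) (nat_lit 370) (nat_lit 341) (nat_lit 189)) (XT.nd (nat_lit 78) (nat_lit 76) (nat_lit 0) (XT.lf (nat_lit 0) (nat_lit 2503388358) (nat_lit 684) (nat_lit 16022439033) (nat_lit 760) (nat_lit 3806307639) (nat_lit 265) (nat_lit 5) (nat_lit 274) (nat_lit 5) (nat_lit 275) (nat_lit 5) (nat_lit 371) (nat_lit 341) (nat_lit 188)) (XT.lf (nat_lit 0) (nat_lit 448719499) (nat_lit 760) (nat_lit 2460357617) (nat_lit 76) (nat_lit 19812234470) (nat_lit 264) (nat_lit 5) (nat_lit 274) (nat_lit 5) (nat_lit 265) (nat_lit 5) (nat_lit 372) (nat_lit 341) (nat_lit 187))))))))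
noncomputable def xc115 : XT := (XT.nd (nat_lit 45396) (nat_lit 0) (nat_lit 3876) (XT.nd (nat_lit 44616) (nat_lit 0) (nat_lit 13452) (XT.nd (nat_lit 312) (nat_lit 1292) (nat_lit 0) (XT.nd (nat_lit 156) (nat_lit 1216) (nat_lit 0) (XT.nd (nat_lit 78) (nat_lit 684) (nat_lit 0) (XT.lf (nat_lit 0) (nat_lit 4941736373) (nat_lit 760) (nat_lit 7591443401) (nat_lit 76) (nat_lit 10585243304) (nat_lit 255) (nat_lit 5) (nat_lit 265) (nat_lit 5) (nat_lit 256) (nat_lit 5) (nat_lit 373) (nat_lit 341) (nat_lit 186)) (XT.lf (nat_lit 0) (nat_lit 9672623417) (nat_lit 760) (nat_lit 12861357077) (nat_lit 76) (nat_lit 991409581) (nat_lit 246) (nat_lit 5) (nat_lit 256) (nat_lit 5) (nat_lit 247) (nat_lit 5) (nat_lit 374) (nat_lit 341) (nat_lit 185))) (XT.nd (nat_lit 78) (nat_lit 608) (nat_lit 0) (XT.lf (nat_lit 0) (nat_lit 5606723876) (nat_lit 608) (nat_lit 9101940220) (nat_lit 684) (nat_lit 9232641091) (nat_lit 238) (nat_lit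 5) (nat_lit 246) (nat_lit 5) (nat_lit 247) (nat_lit 5) (nat_lit 375) (nat_lit 341) (nat_lit 184)) (XT.lf (nat_lit 0) (nat_lit 400685307) (nat_lit 608) (nat_lit 19607569908) (nat_lit 684) (nat_lit 4359196690) (nat_lit 230) (nat_lit 5) (nat_lit 238) (nat_lit 5) (nat_lit 239) (nat_lit 5) (nat_lit 376) (nat_lit 341) (nat_lit 183)))) (XT.nd (nat_lit 156) (nat_lit 608) (nat_lit 0) (XT.nd (nat_lit 78) (nat_lit 608) (nat_lit 0) (XT.lf (nat_lit 0) (nat_lit 829255283) (nat_lit 684) (nat_lit 4931054819) (nat_lit 76) (nat_lit 19042441206) (nat_lit 229) (nat_lit 5) (nat_lit 238) (nat_lit 5) (nat_lit 230) (nat_lit 5) (nat_lit 377) (nat_lit 341) (nat_lit 182)) (XT.lf (nat_lit 0) (nat_lit 6258571718) (nat_lit 684) (nat_lit 10473558720) (nat_lit 76) (nat_lit 8515517533) (nat_lit 221) (nat_lit 5) (nat_lit 230) (nat_lit 5) (nat_lit 222) (nat_lit 5) (nat_lit 378) (nat_lit 341) (nat_lit 181))) (XT.nd (nat_lit 43992) (nat_lit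 0) (nat_lit 14744) (XT.lf (nat_lit 0) (nat_lit 9508776509) (nat_lit 608) (nat_lit 2467831894) (nat_lit 684) (nat_lit 13726769491) (nat_lit 213) (nat_lit 5) (nat_lit 221) (nat_lit 5) (nat_lit 222) (nat_lit 5) (nat_lit 379) (nat_lit 341) (nat_lit 180)) (XT.nd (nat_lit 78) (nat_lit 0) (nat_lit 0) (XT.lf (nat_lit 0) (nat_lit 3689077114) (nat_lit 1748) (nat_lit 1739832225) (nat_lit 1748) (nat_lit 1739832225) (nat_lit 407) (nat_lit 3) (nat_lit 430) (nat_lit 3) (nat_lit 430) (nat_lit 5) (nat_lit 342) (nat_lit 342) (nat_lit 216)) (XT.lf (nat_lit 76) (nat_lit 6704271232) (nat_lit 0) (nat_lit 1300859468) (nat_lit 1748) (nat_lit 6536843239) (nat_lit 408) (nat_lit 5) (nat_lit 407) (nat_lit 3) (nat_lit 430) (nat_lit 5) (nat_lit 343) (nat_lit 342) (nat_lit 215)))))) (XT.nd (nat_lit 390) (nat_lit 1368) (nat_lit 0) (XT.nd (nat_lit 156) (nat_lit 0) (nat_lit 76) (XT.nd (nat_lit 78) (nat_lit 0) (nat_lit 76) (XT.lf (nat_lit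 76) (nat_lit 2455836227) (nat_lit 0) (nat_lit 6271771404) (nat_lit 1748) (nat_lit 6023467592) (nat_lit 409) (nat_lit 5) (nat_lit 408) (nat_lit 5) (nat_lit 431) (nat_lit 5) (nat_lit 344) (nat_lit 342) (nat_lit 214)) (XT.lf (nat_lit 0) (nat_lit 9539107635) (nat_lit 1672) (nat_lit 1842326411) (nat_lit 1748) (nat_lit 3583677824) (nat_lit 409) (nat_lit 5) (nat_lit 431) (nat_lit 5) (nat_lit 432) (nat_lit 5) (nat_lit 345) (nat_lit 342) (nat_lit 213))) (XT.nd (nat_lit 78) (nat_lit 0) (nat_lit 76) (XT.lf (nat_lit 76) (nat_lit 8990199605) (nat_lit 0) (nat_lit 1467659667) (nat_lit 1748) (nat_lit 4726061236) (nat_lit 410) (nat_lit 5) (nat_lit 409) (nat_lit 5) (nat_lit 432) (nat_lit 5) (nat_lit 346) (nat_lit 342) (nat_lit 212)) (XT.nd (nat_lit 78) (nat_lit 0) (nat_lit 76) (XT.lf (nat_lit 76) (nat_lit 4759269648) (nat_lit 0) (nat_lit 6728224090) (nat_lit 1748) (nat_lit 3920142024) (nat_lit 411) (nat_lit 5) (nat_lit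 410) (nat_lit 5) (nat_lit 433) (nat_lit 5) (nat_lit 347) (nat_lit 342) (nat_lit 211)) (XT.lf (nat_lit 76) (nat_lit 451360385) (nat_lit 0) (nat_lit 12157690253) (nat_lit 1748) (nat_lit 3027799677) (nat_lit 412) (nat_lit 5) (nat_lit 411) (nat_lit 5) (nat_lit 434) (nat_lit 5) (nat_lit 348) (nat_lit 342) (nat_lit 210))))) (XT.nd (nat_lit 156) (nat_lit 1596) (nat_lit 0) (XT.nd (nat_lit 78) (nat_lit 0) (nat_lit 76) (XT.lf (nat_lit 76) (nat_lit 11974022576) (nat_lit 0) (nat_lit 1891053690) (nat_lit 1748) (nat_lit 2005856857) (nat_lit 412) (nat_lit 5) (nat_lit 411) (nat_lit 5) (nat_lit 434) (nat_lit 5) (nat_lit 349) (nat_lit 342) (nat_lit 209)) (XT.lf (nat_lit 76) (nat_lit 7765514394) (nat_lit 0) (nat_lit 7484537077) (nat_lit 1748) (nat_lit 860169588) (nat_lit 413) (nat_lit 5) (nat_lit 412) (nat_lit 5) (nat_lit 435) (nat_lit 5) (nat_lit 350) (nat_lit 342) (nat_lit 208))) (XT.nd (nat_lit 78) (nat_lit 0) (nat_lit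 0) (XT.lf (nat_lit 0) (nat_lit 382708905) (nat_lit 1748) (nat_lit 12880443684) (nat_lit 1824) (nat_lit 3092160818) (nat_lit 390) (nat_lit 5) (nat_lit 413) (nat_lit 5) (nat_lit 414) (nat_lit 5) (nat_lit 351) (nat_lit 342) (nat_lit 207)) (XT.nd (nat_lit 78) (nat_lit 0) (nat_lit 76) (XT.lf (nat_lit 0) (nat_lit 1743385270) (nat_lit 1748) (nat_lit 910039721) (nat_lit 1824) (nat_lit 13952383273) (nat_lit 390) (nat_lit 5) (nat_lit 413) (nat_lit 5) (nat_lit 414) (nat_lit 5) (nat_lit 352) (nat_lit 342) (nat_lit 206)) (XT.lf (nat_lit 0) (nat_lit 3259782002) (nat_lit 1748) (nat_lit 5355945402) (nat_lit 1824) (nat_lit 8245799758) (nat_lit 391) (nat_lit 5) (nat_lit 414) (nat_lit 5) (nat_lit 415) (nat_lit 5) (nat_lit 353) (nat_lit 342) (nat_lit 205))))))) (XT.nd (nat_lit 780) (nat_lit 5396) (nat_lit 0) (XT.nd (nat_lit 390) (nat_lit 4332) (nat_lit 0) (XT.nd (nat_lit 156) (nat_lit 0) (nat_lit 76) (XT.nd (nat_lit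 78) (nat_lit 0) (nat_lit 0) (XT.lf (nat_lit 0) (nat_lit 4894039730) (nat_lit 1748) (nat_lit 9890892224) (nat_lit 1824) (nat_lit 2338545275) (nat_lit 392) (nat_lit 5) (nat_lit 415) (nat_lit 5) (nat_lit 416) (nat_lit 5) (nat_lit 354) (nat_lit 342) (nat_lit 204)) (XT.lf (nat_lit 76) (nat_lit 2848557015) (nat_lit 0) (nat_lit 3827750594) (nat_lit 1824) (nat_lit 10715005323) (nat_lit 393) (nat_lit 5) (nat_lit 392) (nat_lit 5) (nat_lit 416) (nat_lit 5) (nat_lit 355) (nat_lit 342) (nat_lit 203))) (XT.nd (nat_lit 78) (nat_lit 0) (nat_lit 76) (XT.lf (nat_lit 0) (nat_lit 8614621796) (nat_lit 1748) (nat_lit 1619724778) (nat_lit 1824) (nat_lit 7430792152) (nat_lit 393) (nat_lit 5) (nat_lit 416) (nat_lit 5) (nat_lit 417) (nat_lit 5) (nat_lit 356) (nat_lit 342) (nat_lit 202)) (XT.nd (nat_lit 78) (nat_lit 0) (nat_lit 0) (XT.lf (nat_lit 0) (nat_lit 10707640835) (nat_lit 1748) (nat_lit 6142596697) (nat_lit 1824) (nat_lit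 1095017044) (nat_lit 394) (nat_lit 5) (nat_lit 417) (nat_lit 5) (nat_lit 418) (nat_lit 5) (nat_lit 357) (nat_lit 342) (nat_lit 201)) (XT.lf (nat_lit 76) (nat_lit 7434933243) (nat_lit 0) (nat_lit 5543681876) (nat_lit 1824) (nat_lit 5252861697) (nat_lit 395) (nat_lit 5) (nat_lit 394) (nat_lit 5) (nat_lit 418) (nat_lit 5) (nat_lit 358) (nat_lit 342) (nat_lit 200))))) (XT.nd (nat_lit 156) (nat_lit 2812) (nat_lit 0) (XT.nd (nat_lit 78) (nat_lit 0) (nat_lit 0) (XT.lf (nat_lit 0) (nat_lit 2966945885) (nat_lit 1748) (nat_lit 12439270762) (nat_lit 1824) (nat_lit 3118305141) (nat_lit 372) (nat_lit 5) (nat_lit 395) (nat_lit 5) (nat_lit 396) (nat_lit 5) (nat_lit 359) (nat_lit 342) (nat_lit 199)) (XT.lf (nat_lit 0) (nat_lit 17243240774) (nat_lit 1748) (nat_lit 761402294) (nat_lit 1824) (nat_lit 819760954) (nat_lit 372) (nat_lit 5) (nat_lit 395) (nat_lit 5) (nat_lit 396) (nat_lit 5) (nat_lit 360) (nat_lit 342)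 (nat_lit 198))) (XT.nd (nat_lit 78) (nat_lit 1748) (nat_lit 0) (XT.lf (nat_lit 0) (nat_lit 1673672878) (nat_lit 1064) (nat_lit 6241080625) (nat_lit 76) (nat_lit 11215409167) (nat_lit 358) (nat_lit 5) (nat_lit 372) (nat_lit 5) (nat_lit 359) (nat_lit 5) (nat_lit 361) (nat_lit 342) (nat_lit 197)) (XT.nd (nat_lit 78) (nat_lit 836) (nat_lit 0) (XT.lf (nat_lit 0) (nat_lit 4317276794) (nat_lit 988) (nat_lit 11010624051) (nat_lit 76) (nat_lit 4115360175) (nat_lit 346) (nat_lit 5) (nat_lit 359) (nat_lit 5) (nat_lit 347) (nat_lit 5) (nat_lit 362) (nat_lit 342) (nat_lit 196)) (XT.lf (nat_lit 0) (nat_lit 3854099082) (nat_lit 836) (nat_lit 3295448268) (nat_lit 912) (nat_lit 12614023052) (nat_lit 335) (nat_lit 5) (nat_lit 346) (nat_lit 5) (nat_lit 347) (nat_lit 5) (nat_lit 363) (nat_lit 342) (nat_lit 195)))))) (XT.nd (nat_lit 390) (nat_lit 2204) (nat_lit 0) (XT.nd (nat_lit 156) (nat_lit 2356) (nat_lit 0) (XT.nd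 (nat_lit 78) (nat_lit 836) (nat_lit 0) (XT.lf (nat_lit 0) (nat_lit 10190059899) (nat_lit 912) (nat_lit 846469599) (nat_lit 76) (nat_lit 9054499183) (nat_lit 335) (nat_lit 5) (nat_lit 347) (nat_lit 5) (nat_lit 336) (nat_lit 5) (nat_lit 364) (nat_lit 342) (nat_lit 194)) (XT.lf (nat_lit 0) (nat_lit 13438631110) (nat_lit 912) (nat_lit 5604451057) (nat_lit 76) (nat_lit 1382896624) (nat_lit 324) (nat_lit 5) (nat_lit 336) (nat_lit 5) (nat_lit 325) (nat_lit 5) (nat_lit 365) (nat_lit 342) (nat_lit 193))) (XT.nd (nat_lit 78) (nat_lit 1596) (nat_lit 0) (XT.lf (nat_lit 0) (nat_lit 10250749409) (nat_lit 760) (nat_lit 6669707110) (nat_lit 836) (nat_lit 3847809749) (nat_lit 314) (nat_lit 5) (nat_lit 324) (nat_lit 5) (nat_lit 325) (nat_lit 5) (nat_lit 366) (nat_lit 342) (nat_lit 192)) (XT.nd (nat_lit 78) (nat_lit 836) (nat_lit 0) (XT.lf (nat_lit 0) (nat_lit 5561322979) (nat_lit 760) (nat_lit 15049092128) (nat_lit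 836) (nat_lit 508338355) (nat_lit 304) (nat_lit 5) (nat_lit 314) (nat_lit 5) (nat_lit 315) (nat_lit 5) (nat_lit 367) (nat_lit 342) (nat_lit 191)) (XT.lf (nat_lit 0) (nat_lit 723393396) (nat_lit 760) (nat_lit 2280579906) (nat_lit 836) (nat_lit 18473183753) (nat_lit 293) (nat_lit 5) (nat_lit 303) (nat_lit 5) (nat_lit 304) (nat_lit 5) (nat_lit 368) (nat_lit 342) (nat_lit 190))))) (XT.nd (nat_lit 156) (nat_lit 1444) (nat_lit 0) (XT.nd (nat_lit 78) (nat_lit 760) (nat_lit 0) (XT.lf (nat_lit 0) (nat_lit 6781771039) (nat_lit 836) (nat_lit 4223471555) (nat_lit 76) (nat_lit 10837666805) (nat_lit 293) (nat_lit 5) (nat_lit 304) (nat_lit 5) (nat_lit 294) (nat_lit 5) (nat_lit 369) (nat_lit 342) (nat_lit 189)) (XT.lf (nat_lit 0) (nat_lit 10776965908) (nat_lit 836) (nat_lit 9284625281) (nat_lit 76) (nat_lit 2155966046) (nat_lit 283) (nat_lit 5) (nat_lit 294) (nat_lit 5) (nat_lit 284) (nat_lit 5) (nat_lit 370) (nat_lit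 342) (nat_lit 188))) (XT.nd (nat_lit 78) (nat_lit 760) (nat_lit 0) (XT.lf (nat_lit 0) (nat_lit 8081256867) (nat_lit 684) (nat_lit 6956407943) (nat_lit 760) (nat_lit 7562870794) (nat_lit 274) (nat_lit 5) (nat_lit 283) (nat_lit 5) (nat_lit 284) (nat_lit 5) (nat_lit 371) (nat_lit 342) (nat_lit 187)) (XT.nd (nat_lit 78) (nat_lit 76) (nat_lit 0) (XT.lf (nat_lit 0) (nat_lit 3089153830) (nat_lit 684) (nat_lit 16453868420) (nat_lit 760) (nat_lit 3449648266) (nat_lit 265) (nat_lit 5) (nat_lit 274) (nat_lit 5) (nat_lit 275) (nat_lit 5) (nat_lit 372) (nat_lit 342) (nat_lit 186)) (XT.lf (nat_lit 0) (nat_lit 913320247) (nat_lit 760) (nat_lit 2032192302) (nat_lit 76) (nat_lit 20448225078) (nat_lit 264) (nat_lit 5) (nat_lit 274) (nat_lit 5) (nat_lit 265) (nat_lit 5) (nat_lit 373) (nat_lit 342) (nat_lit 185))))))))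
noncomputable def xc116 : XT := (XT.nd (nat_lit 45552) (nat_lit 0) (nat_lit 1292) (XT.nd (nat_lit 44772) (nat_lit 0) (nat_lit 12236) (XT.nd (nat_lit 312) (nat_lit 76) (nat_lit 0) (XT.nd (nat_lit 156) (nat_lit 1216) (nat_lit 0) (XT.nd (nat_lit 78) (nat_lit 684) (nat_lit 0) (XT.lf (nat_lit 0) (nat_lit 5531535624) (nat_lit 760) (nat_lit 7316687227) (nat_lit 76) (nat_lit 10954737002) (nat_lit 255) (nat_lit 5) (nat_lit 265) (nat_lit 5) (nat_lit 256) (nat_lit 5) (nat_lit 374) (nat_lit 342) (nat_lit 184)) (XT.lf (nat_lit 0) (nat_lit 10395103784) (nat_lit 760) (nat_lit 12744438732) (nat_lit 76) (nat_lit 1082783642) (nat_lit 246) (nat_lit 5) (nat_lit 256) (nat_lit 5) (nat_lit 247) (nat_lit 5) (nat_lit 375) (nat_lit 342) (nat_lit 183))) (XT.nd (nat_lit 78) (nat_lit 608) (nat_lit 0) (XT.lf (nat_lit 0) (nat_lit 6269527981) (nat_lit 608) (nat_lit 9303317678) (nat_lit 684) (nat_lit 9078065895) (nat_lit 238) (nat_lit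 5) (nat_lit 246) (nat_lit 5) (nat_lit 247) (nat_lit 5) (nat_lit 376) (nat_lit 342) (nat_lit 182)) (XT.lf (nat_lit 0) (nat_lit 907318802) (nat_lit 608) (nat_lit 20115450802) (nat_lit 684) (nat_lit 4067251246) (nat_lit 230) (nat_lit 5) (nat_lit 238) (nat_lit 5) (nat_lit 239) (nat_lit 5) (nat_lit 377) (nat_lit 342) (nat_lit 181)))) (XT.nd (nat_lit 44226) (nat_lit 0) (nat_lit 13528) (XT.nd (nat_lit 44148) (nat_lit 0) (nat_lit 13528) (XT.lf (nat_lit 0) (nat_lit 1259159426) (nat_lit 684) (nat_lit 4593236016) (nat_lit 76) (nat_lit 19686176751) (nat_lit 229) (nat_lit 5) (nat_lit 238) (nat_lit 5) (nat_lit 230) (nat_lit 5) (nat_lit 378) (nat_lit 342) (nat_lit 180)) (XT.lf (nat_lit 0) (nat_lit 4267980402) (nat_lit 1748) (nat_lit 1553107897) (nat_lit 1748) (nat_lit 1553107897) (nat_lit 407) (nat_lit 3) (nat_lit 430) (nat_lit 3) (nat_lit 430) (nat_lit 5) (nat_lit 343) (nat_lit 343) (nat_lit 214))) (XT.nd (nat_lit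 78) (nat_lit 0) (nat_lit 76) (XT.lf (nat_lit 76) (nat_lit 7375485595) (nat_lit 0) (nat_lit 1782037494) (nat_lit 1748) (nat_lit 5801993461) (nat_lit 408) (nat_lit 5) (nat_lit 407) (nat_lit 3) (nat_lit 430) (nat_lit 5) (nat_lit 344) (nat_lit 343) (nat_lit 213)) (XT.nd (nat_lit 78) (nat_lit 0) (nat_lit 76) (XT.lf (nat_lit 76) (nat_lit 3013208072) (nat_lit 0) (nat_lit 6862249553) (nat_lit 1748) (nat_lit 5299971326) (nat_lit 409) (nat_lit 5) (nat_lit 408) (nat_lit 5) (nat_lit 431) (nat_lit 5) (nat_lit 345) (nat_lit 343) (nat_lit 212)) (XT.lf (nat_lit 0) (nat_lit 10682960091) (nat_lit 1672) (nat_lit 1407802565) (nat_lit 1748) (nat_lit 3305704234) (nat_lit 409) (nat_lit 5) (nat_lit 431) (nat_lit 5) (nat_lit 432) (nat_lit 5) (nat_lit 346) (nat_lit 343) (nat_lit 211)))))) (XT.nd (nat_lit 390) (nat_lit 1444) (nat_lit 0) (XT.nd (nat_lit 156) (nat_lit 0) (nat_lit 152) (XT.nd (nat_lit 78) (nat_lit 0) (nat_lit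 76) (XT.lf (nat_lit 76) (nat_lit 9741752912) (nat_lit 0) (nat_lit 1865668890) (nat_lit 1748) (nat_lit 4014867990) (nat_lit 410) (nat_lit 5) (nat_lit 409) (nat_lit 5) (nat_lit 432) (nat_lit 5) (nat_lit 347) (nat_lit 343) (nat_lit 210)) (XT.lf (nat_lit 76) (nat_lit 5395208760) (nat_lit 0) (nat_lit 7249362672) (nat_lit 1748) (nat_lit 3208625125) (nat_lit 411) (nat_lit 5) (nat_lit 410) (nat_lit 5) (nat_lit 433) (nat_lit 5) (nat_lit 348) (nat_lit 343) (nat_lit 209))) (XT.nd (nat_lit 78) (nat_lit 0) (nat_lit 0) (XT.lf (nat_lit 76) (nat_lit 968498544) (nat_lit 0) (nat_lit 12808869832) (nat_lit 1748) (nat_lit 2312379514) (nat_lit 412) (nat_lit 5) (nat_lit 411) (nat_lit 5) (nat_lit 434) (nat_lit 5) (nat_lit 349) (nat_lit 343) (nat_lit 208)) (XT.nd (nat_lit 78) (nat_lit 0) (nat_lit 76) (XT.lf (nat_lit 76) (nat_lit 12822172717) (nat_lit 0) (nat_lit 2225891001) (nat_lit 1748) (nat_lit 1283261540) (nat_lit 412)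 (nat_lit 5) (nat_lit 411) (nat_lit 5) (nat_lit 434) (nat_lit 5) (nat_lit 350) (nat_lit 343) (nat_lit 207)) (XT.lf (nat_lit 76) (nat_lit 8496733905) (nat_lit 0) (nat_lit 7956995385) (nat_lit 1748) (nat_lit 124491228) (nat_lit 413) (nat_lit 5) (nat_lit 412) (nat_lit 5) (nat_lit 435) (nat_lit 5) (nat_lit 351) (nat_lit 343) (nat_lit 206))))) (XT.nd (nat_lit 156) (nat_lit 0) (nat_lit 76) (XT.nd (nat_lit 78) (nat_lit 0) (nat_lit 0) (XT.lf (nat_lit 0) (nat_lit 1125537597) (nat_lit 1748) (nat_lit 12749959712) (nat_lit 1824) (nat_lit 2955483383) (nat_lit 390) (nat_lit 5) (nat_lit 413) (nat_lit 5) (nat_lit 414) (nat_lit 5) (nat_lit 352) (nat_lit 343) (nat_lit 205)) (XT.lf (nat_lit 0) (nat_lit 2505732871) (nat_lit 1748) (nat_lit 435498891) (nat_lit 1824) (nat_lit 14148195296) (nat_lit 390) (nat_lit 5) (nat_lit 413) (nat_lit 5) (nat_lit 414) (nat_lit 5) (nat_lit 353) (nat_lit 343) (nat_lit 204))) (XT.nd (nat_lit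 78) (nat_lit 0) (nat_lit 76) (XT.lf (nat_lit 0) (nat_lit 4048854784) (nat_lit 1748) (nat_lit 5007436718) (nat_lit 1824) (nat_lit 8296911682) (nat_lit 391) (nat_lit 5) (nat_lit 414) (nat_lit 5) (nat_lit 415) (nat_lit 5) (nat_lit 354) (nat_lit 343) (nat_lit 203)) (XT.nd (nat_lit 78) (nat_lit 0) (nat_lit 0) (XT.lf (nat_lit 0) (nat_lit 5714131949) (nat_lit 1748) (nat_lit 9671744482) (nat_lit 1824) (nat_lit 2237505513) (nat_lit 392) (nat_lit 5) (nat_lit 415) (nat_lit 5) (nat_lit 416) (nat_lit 5) (nat_lit 355) (nat_lit 343) (nat_lit 202)) (XT.lf (nat_lit 76) (nat_lit 3441518784) (nat_lit 0) (nat_lit 4092034304) (nat_lit 1824) (nat_lit 10366035660) (nat_lit 393) (nat_lit 5) (nat_lit 392) (nat_lit 5) (nat_lit 416) (nat_lit 5) (nat_lit 356) (nat_lit 343) (nat_lit 201))))))) (XT.nd (nat_lit 780) (nat_lit 5928) (nat_lit 0) (XT.nd (nat_lit 390) (nat_lit 3648) (nat_lit 0) (XT.nd (nat_lit 156) (nat_lit 1596) (nat_lit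 0) (XT.nd (nat_lit 78) (nat_lit 0) (nat_lit 76) (XT.lf (nat_lit 0) (nat_lit 9509939979) (nat_lit 1748) (nat_lit 1161579660) (nat_lit 1824) (nat_lit 7510520661) (nat_lit 393) (nat_lit 5) (nat_lit 416) (nat_lit 5) (nat_lit 417) (nat_lit 5) (nat_lit 357) (nat_lit 343) (nat_lit 200)) (XT.lf (nat_lit 0) (nat_lit 11649637467) (nat_lit 1748) (nat_lit 5814822864) (nat_lit 1824) (nat_lit 1006430712) (nat_lit 394) (nat_lit 5) (nat_lit 417) (nat_lit 5) (nat_lit 418) (nat_lit 5) (nat_lit 358) (nat_lit 343) (nat_lit 199))) (XT.nd (nat_lit 78) (nat_lit 1672) (nat_lit 0) (XT.lf (nat_lit 76) (nat_lit 8161725543) (nat_lit 0) (nat_lit 5812205475) (nat_lit 1824) (nat_lit 4792074038) (nat_lit 395) (nat_lit 5) (nat_lit 394) (nat_lit 5) (nat_lit 418) (nat_lit 5) (nat_lit 359) (nat_lit 343) (nat_lit 198)) (XT.nd (nat_lit 78) (nat_lit 0) (nat_lit 0) (XT.lf (nat_lit 0) (nat_lit 3564393410) (nat_lit 1748) (nat_lit 12894974754)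 (nat_lit 1824) (nat_lit 2608781711) (nat_lit 372) (nat_lit 5) (nat_lit 395) (nat_lit 5) (nat_lit 396) (nat_lit 5) (nat_lit 360) (nat_lit 343) (nat_lit 197)) (XT.lf (nat_lit 0) (nat_lit 18254168238) (nat_lit 1748) (nat_lit 864366566) (nat_lit 1824) (nat_lit 258846419) (nat_lit 372) (nat_lit 5) (nat_lit 395) (nat_lit 5) (nat_lit 396) (nat_lit 5) (nat_lit 361) (nat_lit 343) (nat_lit 196))))) (XT.nd (nat_lit 156) (nat_lit 1672) (nat_lit 0) (XT.nd (nat_lit 78) (nat_lit 912) (nat_lit 0) (XT.lf (nat_lit 0) (nat_lit 2287625826) (nat_lit 1064) (nat_lit 5922857153) (nat_lit 76) (nat_lit 11482043323) (nat_lit 358) (nat_lit 5) (nat_lit 372) (nat_lit 5) (nat_lit 359) (nat_lit 5) (nat_lit 362) (nat_lit 343) (nat_lit 195)) (XT.lf (nat_lit 0) (nat_lit 4997000647) (nat_lit 988) (nat_lit 10832071605) (nat_lit 76) (nat_lit 4186223856) (nat_lit 346) (nat_lit 5) (nat_lit 359) (nat_lit 5) (nat_lit 347) (nat_lit 5) (nat_lit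 363) (nat_lit 343) (nat_lit 194))) (XT.nd (nat_lit 78) (nat_lit 836) (nat_lit 0) (XT.lf (nat_lit 0) (nat_lit 4470337392) (nat_lit 836) (nat_lit 3431126849) (nat_lit 912) (nat_lit 12444013563) (nat_lit 335) (nat_lit 5) (nat_lit 346) (nat_lit 5) (nat_lit 347) (nat_lit 5) (nat_lit 364) (nat_lit 343) (nat_lit 193)) (XT.nd (nat_lit 78) (nat_lit 836) (nat_lit 0) (XT.lf (nat_lit 0) (nat_lit 11017306786) (nat_lit 912) (nat_lit 374917982) (nat_lit 76) (nat_lit 9290860085) (nat_lit 335) (nat_lit 5) (nat_lit 347) (nat_lit 5) (nat_lit 336) (nat_lit 5) (nat_lit 365) (nat_lit 343) (nat_lit 192)) (XT.lf (nat_lit 0) (nat_lit 14351184612) (nat_lit 912) (nat_lit 5273139937) (nat_lit 76) (nat_lit 1404009029) (nat_lit 324) (nat_lit 5) (nat_lit 336) (nat_lit 5) (nat_lit 325) (nat_lit 5) (nat_lit 366) (nat_lit 343) (nat_lit 191)))))) (XT.nd (nat_lit 390) (nat_lit 2812) (nat_lit 0) (XT.nd (nat_lit 156) (nat_lit 1596) (nat_lit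 0) (XT.nd (nat_lit 78) (nat_lit 760) (nat_lit 0) (XT.lf (nat_lit 0) (nat_lit 11049613647) (nat_lit 760) (nat_lit 6876204517) (nat_lit 836) (nat_lit 3455311340) (nat_lit 314) (nat_lit 5) (nat_lit 324) (nat_lit 5) (nat_lit 325) (nat_lit 5) (nat_lit 367) (nat_lit 343) (nat_lit 190)) (XT.lf (nat_lit 0) (nat_lit 6221593422) (nat_lit 760) (nat_lit 15493547874) (nat_lit 836) (nat_lit 27223397) (nat_lit 304) (nat_lit 5) (nat_lit 314) (nat_lit 5) (nat_lit 315) (nat_lit 5) (nat_lit 368) (nat_lit 343) (nat_lit 189))) (XT.nd (nat_lit 78) (nat_lit 760) (nat_lit 0) (XT.lf (nat_lit 0) (nat_lit 1237140102) (nat_lit 760) (nat_lit 2335734645) (nat_lit 836) (nat_lit 18538809020) (nat_lit 293) (nat_lit 5) (nat_lit 303) (nat_lit 5) (nat_lit 304) (nat_lit 5) (nat_lit 369) (nat_lit 343) (nat_lit 188)) (XT.nd (nat_lit 78) (nat_lit 760) (nat_lit 0) (XT.lf (nat_lit 0) (nat_lit 7450144905) (nat_lit 836) (nat_lit 3863042893)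 (nat_lit 76) (nat_lit 11175504300) (nat_lit 293) (nat_lit 5) (nat_lit 304) (nat_lit 5) (nat_lit 294) (nat_lit 5) (nat_lit 370) (nat_lit 343) (nat_lit 187)) (XT.lf (nat_lit 0) (nat_lit 11554926336) (nat_lit 836) (nat_lit 9074805022) (nat_lit 76) (nat_lit 2245059400) (nat_lit 283) (nat_lit 5) (nat_lit 294) (nat_lit 5) (nat_lit 284) (nat_lit 5) (nat_lit 371) (nat_lit 343) (nat_lit 186))))) (XT.nd (nat_lit 156) (nat_lit 1444) (nat_lit 0) (XT.nd (nat_lit 78) (nat_lit 684) (nat_lit 0) (XT.lf (nat_lit 0) (nat_lit 8804130546) (nat_lit 684) (nat_lit 7129192693) (nat_lit 760) (nat_lit 7336143529) (nat_lit 274) (nat_lit 5) (nat_lit 283) (nat_lit 5) (nat_lit 284) (nat_lit 5) (nat_lit 372) (nat_lit 343) (nat_lit 185)) (XT.lf (nat_lit 0) (nat_lit 3663178074) (nat_lit 684) (nat_lit 16901067483) (nat_lit 760) (nat_lit 3109317748) (nat_lit 265) (nat_lit 5) (nat_lit 274) (nat_lit 5) (nat_lit 275) (nat_lit 5) (nat_lit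 373) (nat_lit 343) (nat_lit 184))) (XT.nd (nat_lit 78) (nat_lit 1368) (nat_lit 0) (XT.lf (nat_lit 0) (nat_lit 1365961784) (nat_lit 760) (nat_lit 1619997506) (nat_lit 76) (nat_lit 21100906040) (nat_lit 264) (nat_lit 5) (nat_lit 274) (nat_lit 5) (nat_lit 265) (nat_lit 5) (nat_lit 374) (nat_lit 343) (nat_lit 183)) (XT.nd (nat_lit 78) (nat_lit 684) (nat_lit 0) (XT.lf (nat_lit 0) (nat_lit 6113682239) (nat_lit 760) (nat_lit 7062533894) (nat_lit 76) (nat_lit 11332334149) (nat_lit 255) (nat_lit 5) (nat_lit 265) (nat_lit 5) (nat_lit 256) (nat_lit 5) (nat_lit 375) (nat_lit 343) (nat_lit 182)) (XT.lf (nat_lit 0) (nat_lit 11114442677) (nat_lit 760) (nat_lit 12652873264) (nat_lit 76) (nat_lit 1173361008) (nat_lit 246) (nat_lit 5) (nat_lit 256) (nat_lit 5) (nat_lit 247) (nat_lit 5) (nat_lit 376) (nat_lit 343) (nat_lit 181))))))))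
noncomputable def xc117 : XT := (XT.nd (nat_lit 45708) (nat_lit 0) (nat_lit 0) (XT.nd (nat_lit 44928) (nat_lit 0) (nat_lit 10184) (XT.nd (nat_lit 44538) (nat_lit 0) (nat_lit 12996) (XT.nd (nat_lit 44382) (nat_lit 0) (nat_lit 12844) (XT.nd (nat_lit 44304) (nat_lit 0) (nat_lit 12844) (XT.lf (nat_lit 0) (nat_lit 6923824008) (nat_lit 608) (nat_lit 9514851227) (nat_lit 684) (nat_lit 8943626433) (nat_lit 238) (nat_lit 5) (nat_lit 246) (nat_lit 5) (nat_lit 247) (nat_lit 5) (nat_lit 377) (nat_lit 343) (nat_lit 180)) (XT.lf (nat_lit 0) (nat_lit 4837372414) (nat_lit 1748) (nat_lit 1374496784) (nat_lit 1748) (nat_lit 1374496784) (nat_lit 407) (nat_lit 3) (nat_lit 430) (nat_lit 3) (nat_lit 430) (nat_lit 5) (nat_lit 344) (nat_lit 344) (nat_lit 212))) (XT.nd (nat_lit 78) (nat_lit 0) (nat_lit 76) (XT.lf (nat_lit 76) (nat_lit 8039851516) (nat_lit 0) (nat_lit 2252269514) (nat_lit 1748) (nat_lit 5098538820) (nat_lit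 408) (nat_lit 5) (nat_lit 407) (nat_lit 3) (nat_lit 430) (nat_lit 5) (nat_lit 345) (nat_lit 344) (nat_lit 211)) (XT.lf (nat_lit 76) (nat_lit 3559534900) (nat_lit 0) (nat_lit 7447346945) (nat_lit 1748) (nat_lit 4606674968) (nat_lit 409) (nat_lit 5) (nat_lit 408) (nat_lit 5) (nat_lit 431) (nat_lit 5) (nat_lit 346) (nat_lit 344) (nat_lit 210)))) (XT.nd (nat_lit 156) (nat_lit 0) (nat_lit 76) (XT.nd (nat_lit 78) (nat_lit 0) (nat_lit 0) (XT.lf (nat_lit 0) (nat_lit 11811893824) (nat_lit 1672) (nat_lit 988359162) (nat_lit 1748) (nat_lit 3041519791) (nat_lit 409) (nat_lit 5) (nat_lit 431) (nat_lit 5) (nat_lit 432) (nat_lit 5) (nat_lit 347) (nat_lit 344) (nat_lit 209)) (XT.lf (nat_lit 76) (nat_lit 10488192811) (nat_lit 0) (nat_lit 2255298521) (nat_lit 1748) (nat_lit 3331303205) (nat_lit 410) (nat_lit 5) (nat_lit 409) (nat_lit 5) (nat_lit 432) (nat_lit 5) (nat_lit 348) (nat_lit 344) (nat_lit 208))) (XT.nd (nat_lit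 78) (nat_lit 0) (nat_lit 76) (XT.lf (nat_lit 76) (nat_lit 6021916585) (nat_lit 0) (nat_lit 7767806752) (nat_lit 1748) (nat_lit 2523357665) (nat_lit 411) (nat_lit 5) (nat_lit 410) (nat_lit 5) (nat_lit 433) (nat_lit 5) (nat_lit 349) (nat_lit 344) (nat_lit 207)) (XT.nd (nat_lit 78) (nat_lit 0) (nat_lit 0) (XT.lf (nat_lit 76) (nat_lit 1472242300) (nat_lit 0) (nat_lit 13463141461) (nat_lit 1748) (nat_lit 1621779032) (nat_lit 412) (nat_lit 5) (nat_lit 411) (nat_lit 5) (nat_lit 434) (nat_lit 5) (nat_lit 350) (nat_lit 344) (nat_lit 206)) (XT.lf (nat_lit 76) (nat_lit 13667700811) (nat_lit 0) (nat_lit 2554809026) (nat_lit 1748) (nat_lit 583922622) (nat_lit 412) (nat_lit 5) (nat_lit 411) (nat_lit 5) (nat_lit 434) (nat_lit 5) (nat_lit 351) (nat_lit 344) (nat_lit 205)))))) (XT.nd (nat_lit 390) (nat_lit 1292) (nat_lit 0) (XT.nd (nat_lit 156) (nat_lit 0) (nat_lit 76) (XT.nd (nat_lit 78) (nat_lit 0) (nat_lit 76)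 (XT.lf (nat_lit 0) (nat_lit 581813224) (nat_lit 1748) (nat_lit 7843678196) (nat_lit 1824) (nat_lit 8635570682) (nat_lit 389) (nat_lit 5) (nat_lit 412) (nat_lit 5) (nat_lit 413) (nat_lit 5) (nat_lit 352) (nat_lit 344) (nat_lit 204)) (XT.lf (nat_lit 0) (nat_lit 1848668815) (nat_lit 1748) (nat_lit 12645233240) (nat_lit 1824) (nat_lit 2827876549) (nat_lit 390) (nat_lit 5) (nat_lit 413) (nat_lit 5) (nat_lit 414) (nat_lit 5) (nat_lit 353) (nat_lit 344) (nat_lit 203))) (XT.nd (nat_lit 78) (nat_lit 0) (nat_lit 76) (XT.lf (nat_lit 76) (nat_lit 24795576) (nat_lit 0) (nat_lit 3225556766) (nat_lit 1824) (nat_lit 14338034398) (nat_lit 391) (nat_lit 5) (nat_lit 390) (nat_lit 5) (nat_lit 414) (nat_lit 5) (nat_lit 354) (nat_lit 344) (nat_lit 202)) (XT.nd (nat_lit 78) (nat_lit 0) (nat_lit 76) (XT.lf (nat_lit 0) (nat_lit 4821917489) (nat_lit 1748) (nat_lit 4677702193) (nat_lit 1824) (nat_lit 8360823209) (nat_lit 391)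 (nat_lit 5) (nat_lit 414) (nat_lit 5) (nat_lit 415) (nat_lit 5) (nat_lit 355) (nat_lit 344) (nat_lit 201)) (XT.lf (nat_lit 0) (nat_lit 6520178423) (nat_lit 1748) (nat_lit 9475635615) (nat_lit 1824) (nat_lit 2143261916) (nat_lit 392) (nat_lit 5) (nat_lit 415) (nat_lit 5) (nat_lit 416) (nat_lit 5) (nat_lit 356) (nat_lit 344) (nat_lit 200))))) (XT.nd (nat_lit 156) (nat_lit 1520) (nat_lit 0) (XT.nd (nat_lit 78) (nat_lit 0) (nat_lit 76) (XT.lf (nat_lit 76) (nat_lit 4023136539) (nat_lit 0) (nat_lit 4355667417) (nat_lit 1824) (nat_lit 10045081746) (nat_lit 393) (nat_lit 5) (nat_lit 392) (nat_lit 5) (nat_lit 416) (nat_lit 5) (nat_lit 357) (nat_lit 344) (nat_lit 199)) (XT.lf (nat_lit 0) (nat_lit 10395558216) (nat_lit 1748) (nat_lit 718778957) (nat_lit 1824) (nat_lit 7600861018) (nat_lit 393) (nat_lit 5) (nat_lit 416) (nat_lit 5) (nat_lit 417) (nat_lit 5) (nat_lit 358) (nat_lit 344) (nat_lit 198))) (XT.nd (nat_lit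 78) (nat_lit 1672) (nat_lit 0) (XT.lf (nat_lit 0) (nat_lit 12584259410) (nat_lit 1748) (nat_lit 5506609680) (nat_lit 1824) (nat_lit 922157760) (nat_lit 394) (nat_lit 5) (nat_lit 417) (nat_lit 5) (nat_lit 418) (nat_lit 5) (nat_lit 359) (nat_lit 344) (nat_lit 197)) (XT.nd (nat_lit 78) (nat_lit 1672) (nat_lit 0) (XT.lf (nat_lit 76) (nat_lit 8881404629) (nat_lit 0) (nat_lit 6082917329) (nat_lit 1824) (nat_lit 4352959919) (nat_lit 395) (nat_lit 5) (nat_lit 394) (nat_lit 5) (nat_lit 418) (nat_lit 5) (nat_lit 360) (nat_lit 344) (nat_lit 196)) (XT.lf (nat_lit 0) (nat_lit 4150577873) (nat_lit 1748) (nat_lit 13359612543) (nat_lit 1824) (nat_lit 2118591410) (nat_lit 372) (nat_lit 5) (nat_lit 395) (nat_lit 5) (nat_lit 396) (nat_lit 5) (nat_lit 361) (nat_lit 344) (nat_lit 195))))))) (XT.nd (nat_lit 780) (nat_lit 4180) (nat_lit 0) (XT.nd (nat_lit 390) (nat_lit 2356) (nat_lit 0) (XT.nd (nat_lit 156) (nat_lit 2584)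 (nat_lit 0) (XT.nd (nat_lit 78) (nat_lit 988) (nat_lit 0) (XT.lf (nat_lit 0) (nat_lit 281543469) (nat_lit 1824) (nat_lit 682387649) (nat_lit 76) (nat_lit 18983654356) (nat_lit 371) (nat_lit 5) (nat_lit 395) (nat_lit 5) (nat_lit 372) (nat_lit 5) (nat_lit 362) (nat_lit 344) (nat_lit 194)) (XT.lf (nat_lit 0) (nat_lit 2887636222) (nat_lit 1064) (nat_lit 5624102213) (nat_lit 76) (nat_lit 11760684924) (nat_lit 358) (nat_lit 5) (nat_lit 372) (nat_lit 5) (nat_lit 359) (nat_lit 5) (nat_lit 363) (nat_lit 344) (nat_lit 193))) (XT.nd (nat_lit 78) (nat_lit 1672) (nat_lit 0) (XT.lf (nat_lit 0) (nat_lit 5665532166) (nat_lit 988) (nat_lit 10677373872) (nat_lit 76) (nat_lit 4262232737) (nat_lit 346) (nat_lit 5) (nat_lit 359) (nat_lit 5) (nat_lit 347) (nat_lit 5) (nat_lit 364) (nat_lit 344) (nat_lit 192)) (XT.nd (nat_lit 78) (nat_lit 836) (nat_lit 0) (XT.lf (nat_lit 0) (nat_lit 5076325483) (nat_lit 836) (nat_lit 3568762448)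 (nat_lit 912) (nat_lit 12300385925) (nat_lit 335) (nat_lit 5) (nat_lit 346) (nat_lit 5) (nat_lit 347) (nat_lit 5) (nat_lit 365) (nat_lit 344) (nat_lit 191)) (XT.lf (nat_lit 0) (nat_lit 83346570) (nat_lit 836) (nat_lit 11756626829) (nat_lit 912) (nat_lit 9453531260) (nat_lit 324) (nat_lit 5) (nat_lit 335) (nat_lit 5) (nat_lit 336) (nat_lit 5) (nat_lit 366) (nat_lit 344) (nat_lit 190))))) (XT.nd (nat_lit 156) (nat_lit 1596) (nat_lit 0) (XT.nd (nat_lit 78) (nat_lit 760) (nat_lit 0) (XT.lf (nat_lit 0) (nat_lit 15261873387) (nat_lit 912) (nat_lit 4960559650) (nat_lit 76) (nat_lit 1426924385) (nat_lit 324) (nat_lit 5) (nat_lit 336) (nat_lit 5) (nat_lit 325) (nat_lit 5) (nat_lit 367) (nat_lit 344) (nat_lit 189)) (XT.lf (nat_lit 0) (nat_lit 11844238786) (nat_lit 760) (nat_lit 7088529106) (nat_lit 836) (nat_lit 3080195394) (nat_lit 314) (nat_lit 5) (nat_lit 324) (nat_lit 5) (nat_lit 325) (nat_lit 5) (nat_lit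 368) (nat_lit 344) (nat_lit 188))) (XT.nd (nat_lit 78) (nat_lit 760) (nat_lit 0) (XT.lf (nat_lit 0) (nat_lit 434063151) (nat_lit 836) (nat_lit 15514764154) (nat_lit 76) (nat_lit 6436371091) (nat_lit 303) (nat_lit 5) (nat_lit 314) (nat_lit 5) (nat_lit 304) (nat_lit 5) (nat_lit 369) (nat_lit 344) (nat_lit 187)) (XT.nd (nat_lit 78) (nat_lit 0) (nat_lit 0) (XT.lf (nat_lit 0) (nat_lit 1738053818) (nat_lit 760) (nat_lit 2393305358) (nat_lit 836) (nat_lit 18634448976) (nat_lit 293) (nat_lit 5) (nat_lit 303) (nat_lit 5) (nat_lit 304) (nat_lit 5) (nat_lit 370) (nat_lit 344) (nat_lit 186)) (XT.lf (nat_lit 0) (nat_lit 8111881634) (nat_lit 836) (nat_lit 3519764787) (nat_lit 76) (nat_lit 11522747458) (nat_lit 293) (nat_lit 5) (nat_lit 304) (nat_lit 5) (nat_lit 294) (nat_lit 5) (nat_lit 371) (nat_lit 344) (nat_lit 185)))))) (XT.nd (nat_lit 390) (nat_lit 1292) (nat_lit 0) (XT.nd (nat_lit 156) (nat_lit 1444) (nat_lit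 0) (XT.nd (nat_lit 78) (nat_lit 684) (nat_lit 0) (XT.lf (nat_lit 0) (nat_lit 12330126725) (nat_lit 836) (nat_lit 8886723960) (nat_lit 76) (nat_lit 2335424071) (nat_lit 283) (nat_lit 5) (nat_lit 294) (nat_lit 5) (nat_lit 284) (nat_lit 5) (nat_lit 372) (nat_lit 344) (nat_lit 184)) (XT.lf (nat_lit 0) (nat_lit 9521111445) (nat_lit 684) (nat_lit 7309222223) (nat_lit 760) (nat_lit 7128653710) (nat_lit 274) (nat_lit 5) (nat_lit 283) (nat_lit 5) (nat_lit 284) (nat_lit 5) (nat_lit 373) (nat_lit 344) (nat_lit 183))) (XT.nd (nat_lit 78) (nat_lit 760) (nat_lit 0) (XT.lf (nat_lit 0) (nat_lit 4226791607) (nat_lit 684) (nat_lit 17364347043) (nat_lit 760) (nat_lit 2784254397) (nat_lit 265) (nat_lit 5) (nat_lit 274) (nat_lit 5) (nat_lit 275) (nat_lit 5) (nat_lit 374) (nat_lit 344) (nat_lit 182)) (XT.nd (nat_lit 78) (nat_lit 684) (nat_lit 0) (XT.lf (nat_lit 0) (nat_lit 1807771941) (nat_lit 760) (nat_lit 1222598219)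 (nat_lit 76) (nat_lit 21770915227) (nat_lit 264) (nat_lit 5) (nat_lit 274) (nat_lit 5) (nat_lit 265) (nat_lit 5) (nat_lit 375) (nat_lit 344) (nat_lit 181)) (XT.lf (nat_lit 0) (nat_lit 6689401638) (nat_lit 760) (nat_lit 6827945636) (nat_lit 76) (nat_lit 11718448990) (nat_lit 255) (nat_lit 5) (nat_lit 265) (nat_lit 5) (nat_lit 256) (nat_lit 5) (nat_lit 376) (nat_lit 344) (nat_lit 180))))) (XT.nd (nat_lit 44382) (nat_lit 0) (nat_lit 12844) (XT.nd (nat_lit 78) (nat_lit 608) (nat_lit 0) (XT.lf (nat_lit 0) (nat_lit 11831970386) (nat_lit 760) (nat_lit 12585764552) (nat_lit 76) (nat_lit 1263320871) (nat_lit 246) (nat_lit 5) (nat_lit 256) (nat_lit 5) (nat_lit 247) (nat_lit 5) (nat_lit 377) (nat_lit 344) (nat_lit 179)) (XT.lf (nat_lit 0) (nat_lit 7570986544) (nat_lit 608) (nat_lit 9736609347) (nat_lit 684) (nat_lit 8828504706) (nat_lit 238) (nat_lit 5) (nat_lit 246) (nat_lit 5) (nat_lit 247) (nat_lit 5) (nat_lit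 378) (nat_lit 344) (nat_lit 178))) (XT.nd (nat_lit 78) (nat_lit 0) (nat_lit 0) (XT.lf (nat_lit 0) (nat_lit 5398510742) (nat_lit 1748) (nat_lit 1203454989) (nat_lit 1748) (nat_lit 1203454989) (nat_lit 407) (nat_lit 3) (nat_lit 430) (nat_lit 3) (nat_lit 430) (nat_lit 5) (nat_lit 345) (nat_lit 345) (nat_lit 210)) (XT.nd (nat_lit 78) (nat_lit 0) (nat_lit 76) (XT.lf (nat_lit 76) (nat_lit 8698712585) (nat_lit 0) (nat_lit 2712684140) (nat_lit 1748) (nat_lit 4424353459) (nat_lit 408) (nat_lit 5) (nat_lit 407) (nat_lit 3) (nat_lit 430) (nat_lit 5) (nat_lit 346) (nat_lit 345) (nat_lit 209)) (XT.lf (nat_lit 76) (nat_lit 4096079251) (nat_lit 0) (nat_lit 8028227911) (nat_lit 1748) (nat_lit 3941504968) (nat_lit 409) (nat_lit 5) (nat_lit 408) (nat_lit 5) (nat_lit 431) (nat_lit 5) (nat_lit 347) (nat_lit 345) (nat_lit 208))))))))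
noncomputable def xc118 : XT := (XT.nd (nat_lit 1482) (nat_lit 6080) (nat_lit 0) (XT.nd (nat_lit 702) (nat_lit 4028) (nat_lit 0) (XT.nd (nat_lit 312) (nat_lit 1596) (nat_lit 0) (XT.nd (nat_lit 156) (nat_lit 0) (nat_lit 76) (XT.nd (nat_lit 78) (nat_lit 0) (nat_lit 0) (XT.lf (nat_lit 0) (nat_lit 12928287523) (nat_lit 1672) (nat_lit 582834633) (nat_lit 1748) (nat_lit 2790267912) (nat_lit 409) (nat_lit 5) (nat_lit 431) (nat_lit 5) (nat_lit 432) (nat_lit 5) (nat_lit 348) (nat_lit 345) (nat_lit 207)) (XT.lf (nat_lit 76) (nat_lit 11230953697) (nat_lit 0) (nat_lit 2637463617) (nat_lit 1748) (nat_lit 2673384988) (nat_lit 410) (nat_lit 5) (nat_lit 409) (nat_lit 5) (nat_lit 432) (nat_lit 5) (nat_lit 349) (nat_lit 345) (nat_lit 206))) (XT.nd (nat_lit 78) (nat_lit 0) (nat_lit 76) (XT.lf (nat_lit 76) (nat_lit 6640741263) (nat_lit 0) (nat_lit 8284527636) (nat_lit 1748) (nat_lit 1862394984) (nat_lit 411) (nat_lit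 5) (nat_lit 410) (nat_lit 5) (nat_lit 433) (nat_lit 5) (nat_lit 350) (nat_lit 345) (nat_lit 205)) (XT.lf (nat_lit 76) (nat_lit 1963849290) (nat_lit 0) (nat_lit 14121541817) (nat_lit 1748) (nat_lit 954086030) (nat_lit 412) (nat_lit 5) (nat_lit 411) (nat_lit 5) (nat_lit 434) (nat_lit 5) (nat_lit 351) (nat_lit 345) (nat_lit 204)))) (XT.nd (nat_lit 156) (nat_lit 0) (nat_lit 152) (XT.nd (nat_lit 78) (nat_lit 0) (nat_lit 76) (XT.lf (nat_lit 0) (nat_lit 92808242) (nat_lit 1748) (nat_lit 2785115575) (nat_lit 1824) (nat_lit 14418708297) (nat_lit 388) (nat_lit 5) (nat_lit 411) (nat_lit 5) (nat_lit 412) (nat_lit 5) (nat_lit 352) (nat_lit 345) (nat_lit 203)) (XT.lf (nat_lit 0) (nat_lit 1266962487) (nat_lit 1748) (nat_lit 7627088750) (nat_lit 1824) (nat_lit 8665154649) (nat_lit 389) (nat_lit 5) (nat_lit 412) (nat_lit 5) (nat_lit 413) (nat_lit 5) (nat_lit 353) (nat_lit 345) (nat_lit 202))) (XT.nd (nat_lit 78) (nat_lit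 0) (nat_lit 0) (XT.lf (nat_lit 0) (nat_lit 2553921594) (nat_lit 1748) (nat_lit 12565333697) (nat_lit 1824) (nat_lit 2708856370) (nat_lit 390) (nat_lit 5) (nat_lit 413) (nat_lit 5) (nat_lit 414) (nat_lit 5) (nat_lit 354) (nat_lit 345) (nat_lit 201)) (XT.nd (nat_lit 78) (nat_lit 0) (nat_lit 76) (XT.lf (nat_lit 76) (nat_lit 477345092) (nat_lit 0) (nat_lit 3504317955) (nat_lit 1824) (nat_lit 14121384295) (nat_lit 391) (nat_lit 5) (nat_lit 390) (nat_lit 5) (nat_lit 414) (nat_lit 5) (nat_lit 355) (nat_lit 345) (nat_lit 200)) (XT.lf (nat_lit 0) (nat_lit 5580767737) (nat_lit 1748) (nat_lit 4365627163) (nat_lit 1824) (nat_lit 8437271598) (nat_lit 391) (nat_lit 5) (nat_lit 414) (nat_lit 5) (nat_lit 415) (nat_lit 5) (nat_lit 356) (nat_lit 345) (nat_lit 199)))))) (XT.nd (nat_lit 390) (nat_lit 4332) (nat_lit 0) (XT.nd (nat_lit 156) (nat_lit 0) (nat_lit 76) (XT.nd (nat_lit 78) (nat_lit 0) (nat_lit 0) (XT.lf (nat_lit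 0) (nat_lit 7313976363) (nat_lit 1748) (nat_lit 9301556864) (nat_lit 1824) (nat_lit 2055454239) (nat_lit 392) (nat_lit 5) (nat_lit 415) (nat_lit 5) (nat_lit 416) (nat_lit 5) (nat_lit 357) (nat_lit 345) (nat_lit 198)) (XT.lf (nat_lit 76) (nat_lit 4594742306) (nat_lit 0) (nat_lit 4619122888) (nat_lit 1824) (nat_lit 9750774869) (nat_lit 393) (nat_lit 5) (nat_lit 392) (nat_lit 5) (nat_lit 416) (nat_lit 5) (nat_lit 358) (nat_lit 345) (nat_lit 197))) (XT.nd (nat_lit 78) (nat_lit 0) (nat_lit 76) (XT.lf (nat_lit 0) (nat_lit 11273284175) (nat_lit 1748) (nat_lit 290113188) (nat_lit 1824) (nat_lit 7701659718) (nat_lit 393) (nat_lit 5) (nat_lit 416) (nat_lit 5) (nat_lit 417) (nat_lit 5) (nat_lit 359) (nat_lit 345) (nat_lit 196)) (XT.nd (nat_lit 78) (nat_lit 0) (nat_lit 0) (XT.lf (nat_lit 0) (nat_lit 13513330993) (nat_lit 1748) (nat_lit 5216856636) (nat_lit 1824) (nat_lit 841927430) (nat_lit 394) (nat_lit 5) (nat_lit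 417) (nat_lit 5) (nat_lit 418) (nat_lit 5) (nat_lit 360) (nat_lit 345) (nat_lit 195)) (XT.lf (nat_lit 76) (nat_lit 9595417056) (nat_lit 0) (nat_lit 6356219901) (nat_lit 1824) (nat_lit 3934131862) (nat_lit 395) (nat_lit 5) (nat_lit 394) (nat_lit 5) (nat_lit 418) (nat_lit 5) (nat_lit 361) (nat_lit 345) (nat_lit 194))))) (XT.nd (nat_lit 156) (nat_lit 2736) (nat_lit 0) (XT.nd (nat_lit 78) (nat_lit 76) (nat_lit 0) (XT.lf (nat_lit 0) (nat_lit 4726836806) (nat_lit 1748) (nat_lit 13833724085) (nat_lit 1824) (nat_lit 1646326972) (nat_lit 372) (nat_lit 5) (nat_lit 395) (nat_lit 5) (nat_lit 396) (nat_lit 5) (nat_lit 362) (nat_lit 345) (nat_lit 193)) (XT.lf (nat_lit 0) (nat_lit 803382760) (nat_lit 1824) (nat_lit 257208695) (nat_lit 76) (nat_lit 19474909937) (nat_lit 371) (nat_lit 5) (nat_lit 395) (nat_lit 5) (nat_lit 372) (nat_lit 5) (nat_lit 363) (nat_lit 345) (nat_lit 192))) (XT.nd (nat_lit 78) (nat_lit 1748)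 (nat_lit 0) (XT.lf (nat_lit 0) (nat_lit 3475143451) (nat_lit 1064) (nat_lit 5343734267) (nat_lit 76) (nat_lit 12051464092) (nat_lit 358) (nat_lit 5) (nat_lit 372) (nat_lit 5) (nat_lit 359) (nat_lit 5) (nat_lit 364) (nat_lit 345) (nat_lit 191)) (XT.nd (nat_lit 78) (nat_lit 836) (nat_lit 0) (XT.lf (nat_lit 0) (nat_lit 6324348634) (nat_lit 988) (nat_lit 10545569646) (nat_lit 76) (nat_lit 4343367855) (nat_lit 346) (nat_lit 5) (nat_lit 359) (nat_lit 5) (nat_lit 347) (nat_lit 5) (nat_lit 365) (nat_lit 345) (nat_lit 190)) (XT.lf (nat_lit 0) (nat_lit 5673405491) (nat_lit 836) (nat_lit 3708535091) (nat_lit 912) (nat_lit 12182124391) (nat_lit 335) (nat_lit 5) (nat_lit 346) (nat_lit 5) (nat_lit 347) (nat_lit 5) (nat_lit 366) (nat_lit 345) (nat_lit 189))))))) (XT.nd (nat_lit 780) (nat_lit 684) (nat_lit 0) (XT.nd (nat_lit 390) (nat_lit 2204) (nat_lit 0) (XT.nd (nat_lit 156) (nat_lit 2356) (nat_lit 0) (XT.nd (nat_lit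 78) (nat_lit 0) (nat_lit 0) (XT.lf (nat_lit 0) (nat_lit 533244488) (nat_lit 836) (nat_lit 12128218971) (nat_lit 912) (nat_lit 9261303921) (nat_lit 324) (nat_lit 5) (nat_lit 335) (nat_lit 5) (nat_lit 336) (nat_lit 5) (nat_lit 367) (nat_lit 345) (nat_lit 188)) (XT.lf (nat_lit 0) (nat_lit 16172320066) (nat_lit 912) (nat_lit 4665626335) (nat_lit 76) (nat_lit 1451629642) (nat_lit 324) (nat_lit 5) (nat_lit 336) (nat_lit 5) (nat_lit 325) (nat_lit 5) (nat_lit 368) (nat_lit 345) (nat_lit 187))) (XT.nd (nat_lit 78) (nat_lit 1596) (nat_lit 0) (XT.lf (nat_lit 0) (nat_lit 12636116735) (nat_lit 760) (nat_lit 7306876800) (nat_lit 836) (nat_lit 2721309629) (nat_lit 314) (nat_lit 5) (nat_lit 324) (nat_lit 5) (nat_lit 325) (nat_lit 5) (nat_lit 369) (nat_lit 345) (nat_lit 186)) (XT.nd (nat_lit 78) (nat_lit 760) (nat_lit 0) (XT.lf (nat_lit 0) (nat_lit 882315038) (nat_lit 836) (nat_lit 15535821933) (nat_lit 76) (nat_lit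 6629718443) (nat_lit 303) (nat_lit 5) (nat_lit 314) (nat_lit 5) (nat_lit 304) (nat_lit 5) (nat_lit 370) (nat_lit 345) (nat_lit 185)) (XT.lf (nat_lit 0) (nat_lit 2227370957) (nat_lit 760) (nat_lit 2453320819) (nat_lit 836) (nat_lit 18759394110) (nat_lit 293) (nat_lit 5) (nat_lit 303) (nat_lit 5) (nat_lit 304) (nat_lit 5) (nat_lit 371) (nat_lit 345) (nat_lit 184))))) (XT.nd (nat_lit 156) (nat_lit 1444) (nat_lit 0) (XT.nd (nat_lit 78) (nat_lit 760) (nat_lit 0) (XT.lf (nat_lit 0) (nat_lit 8768314134) (nat_lit 836) (nat_lit 3192546539) (nat_lit 76) (nat_lit 11879720323) (nat_lit 293) (nat_lit 5) (nat_lit 304) (nat_lit 5) (nat_lit 294) (nat_lit 5) (nat_lit 372) (nat_lit 345) (nat_lit 183)) (XT.lf (nat_lit 0) (nat_lit 13103982452) (nat_lit 836) (nat_lit 8719425018) (nat_lit 76) (nat_lit 2427178647) (nat_lit 283) (nat_lit 5) (nat_lit 294) (nat_lit 5) (nat_lit 284) (nat_lit 5) (nat_lit 373) (nat_lit 345) (nat_lit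 182))) (XT.nd (nat_lit 78) (nat_lit 760) (nat_lit 0) (XT.lf (nat_lit 0) (nat_lit 10233605927) (nat_lit 684) (nat_lit 7496595552) (nat_lit 760) (nat_lit 6939483701) (nat_lit 274) (nat_lit 5) (nat_lit 283) (nat_lit 5) (nat_lit 284) (nat_lit 5) (nat_lit 374) (nat_lit 345) (nat_lit 181)) (XT.nd (nat_lit 78) (nat_lit 76) (nat_lit 0) (XT.lf (nat_lit 0) (nat_lit 4781268266) (nat_lit 684) (nat_lit 17844036560) (nat_lit 760) (nat_lit 2473453737) (nat_lit 265) (nat_lit 5) (nat_lit 274) (nat_lit 5) (nat_lit 275) (nat_lit 5) (nat_lit 375) (nat_lit 345) (nat_lit 180)) (XT.lf (nat_lit 0) (nat_lit 2239827045) (nat_lit 760) (nat_lit 838879132) (nat_lit 76) (nat_lit 22458901772) (nat_lit 264) (nat_lit 5) (nat_lit 274) (nat_lit 5) (nat_lit 265) (nat_lit 5) (nat_lit 376) (nat_lit 345) (nat_lit 179)))))) (XT.nd (nat_lit 44772) (nat_lit 0) (nat_lit 10108) (XT.nd (nat_lit 44538) (nat_lit 0) (nat_lit 11552) (XT.nd (nat_lit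 44460) (nat_lit 0) (nat_lit 11552) (XT.lf (nat_lit 0) (nat_lit 7259872482) (nat_lit 760) (nat_lit 6611948605) (nat_lit 76) (nat_lit 12113498376) (nat_lit 255) (nat_lit 5) (nat_lit 265) (nat_lit 5) (nat_lit 256) (nat_lit 5) (nat_lit 377) (nat_lit 345) (nat_lit 178)) (XT.lf (nat_lit 0) (nat_lit 5952602133) (nat_lit 1748) (nat_lit 1039467491) (nat_lit 1748) (nat_lit 1039467491) (nat_lit 407) (nat_lit 3) (nat_lit 430) (nat_lit 3) (nat_lit 430) (nat_lit 5) (nat_lit 346) (nat_lit 346) (nat_lit 208))) (XT.nd (nat_lit 78) (nat_lit 0) (nat_lit 76) (XT.lf (nat_lit 76) (nat_lit 9353363775) (nat_lit 0) (nat_lit 3164360207) (nat_lit 1748) (nat_lit 3777423844) (nat_lit 408) (nat_lit 5) (nat_lit 407) (nat_lit 3) (nat_lit 430) (nat_lit 5) (nat_lit 347) (nat_lit 346) (nat_lit 207)) (XT.nd (nat_lit 78) (nat_lit 0) (nat_lit 76) (XT.lf (nat_lit 76) (nat_lit 4624050048) (nat_lit 0) (nat_lit 8606015607) (nat_lit 1748)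 (nat_lit 3302496606) (nat_lit 409) (nat_lit 5) (nat_lit 408) (nat_lit 5) (nat_lit 431) (nat_lit 5) (nat_lit 348) (nat_lit 346) (nat_lit 206)) (XT.lf (nat_lit 0) (nat_lit 14034428998) (nat_lit 1672) (nat_lit 190125210) (nat_lit 1748) (nat_lit 2551139231) (nat_lit 409) (nat_lit 5) (nat_lit 431) (nat_lit 5) (nat_lit 432) (nat_lit 5) (nat_lit 349) (nat_lit 346) (nat_lit 205))))) (XT.nd (nat_lit 156) (nat_lit 1596) (nat_lit 0) (XT.nd (nat_lit 78) (nat_lit 0) (nat_lit 76) (XT.lf (nat_lit 76) (nat_lit 11971421851) (nat_lit 0) (nat_lit 3013039727) (nat_lit 1748) (nat_lit 2039233334) (nat_lit 410) (nat_lit 5) (nat_lit 409) (nat_lit 5) (nat_lit 432) (nat_lit 5) (nat_lit 350) (nat_lit 346) (nat_lit 204)) (XT.lf (nat_lit 76) (nat_lit 7252978094) (nat_lit 0) (nat_lit 8800465371) (nat_lit 1748) (nat_lit 1223890915) (nat_lit 411) (nat_lit 5) (nat_lit 410) (nat_lit 5) (nat_lit 433) (nat_lit 5) (nat_lit 351) (nat_lit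 346) (nat_lit 203))) (XT.nd (nat_lit 78) (nat_lit 1748) (nat_lit 0) (XT.lf (nat_lit 76) (nat_lit 2444519619) (nat_lit 0) (nat_lit 14785084491) (nat_lit 1748) (nat_lit 307483450) (nat_lit 412) (nat_lit 5) (nat_lit 411) (nat_lit 5) (nat_lit 434) (nat_lit 5) (nat_lit 352) (nat_lit 346) (nat_lit 202)) (XT.nd (nat_lit 78) (nat_lit 0) (nat_lit 76) (XT.lf (nat_lit 0) (nat_lit 742553131) (nat_lit 1748) (nat_lit 2450276100) (nat_lit 1824) (nat_lit 14609438186) (nat_lit 388) (nat_lit 5) (nat_lit 411) (nat_lit 5) (nat_lit 412) (nat_lit 5) (nat_lit 353) (nat_lit 346) (nat_lit 201)) (XT.lf (nat_lit 0) (nat_lit 1934337812) (nat_lit 1748) (nat_lit 7429942518) (nat_lit 1824) (nat_lit 8708799406) (nat_lit 389) (nat_lit 5) (nat_lit 412) (nat_lit 5) (nat_lit 413) (nat_lit 5) (nat_lit 354) (nat_lit 346) (nat_lit 200))))))))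
noncomputable def xc119 : XT := (XT.nd (nat_lit 1560) (nat_lit 1444) (nat_lit 0) (XT.nd (nat_lit 780) (nat_lit 5700) (nat_lit 0) (XT.nd (nat_lit 390) (nat_lit 2432) (nat_lit 0) (XT.nd (nat_lit 156) (nat_lit 0) (nat_lit 76) (XT.nd (nat_lit 78) (nat_lit 0) (nat_lit 0) (XT.lf (nat_lit 0) (nat_lit 3243031196) (nat_lit 1748) (nat_lit 12509400371) (nat_lit 1824) (nat_lit 2597967780) (nat_lit 390) (nat_lit 5) (nat_lit 413) (nat_lit 5) (nat_lit 414) (nat_lit 5) (nat_lit 355) (nat_lit 346) (nat_lit 199)) (XT.lf (nat_lit 76) (nat_lit 917535600) (nat_lit 0) (nat_lit 3780994752) (nat_lit 1824) (nat_lit 13935363145) (nat_lit 391) (nat_lit 5) (nat_lit 390) (nat_lit 5) (nat_lit 414) (nat_lit 5) (nat_lit 356) (nat_lit 346) (nat_lit 198))) (XT.nd (nat_lit 78) (nat_lit 0) (nat_lit 76) (XT.lf (nat_lit 0) (nat_lit 6327126319) (nat_lit 1748) (nat_lit 4070159844) (nat_lit 1824) (nat_lit 8526023353) (nat_lit 391) (nat_lit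 5) (nat_lit 414) (nat_lit 5) (nat_lit 415) (nat_lit 5) (nat_lit 357) (nat_lit 346) (nat_lit 197)) (XT.nd (nat_lit 78) (nat_lit 0) (nat_lit 0) (XT.lf (nat_lit 0) (nat_lit 8097249540) (nat_lit 1748) (nat_lit 9148566790) (nat_lit 1824) (nat_lit 1973743811) (nat_lit 392) (nat_lit 5) (nat_lit 415) (nat_lit 5) (nat_lit 416) (nat_lit 5) (nat_lit 358) (nat_lit 346) (nat_lit 196)) (XT.lf (nat_lit 76) (nat_lit 5157612071) (nat_lit 0) (nat_lit 4882859596) (nat_lit 1824) (nat_lit 9481832067) (nat_lit 393) (nat_lit 5) (nat_lit 392) (nat_lit 5) (nat_lit 416) (nat_lit 5) (nat_lit 359) (nat_lit 346) (nat_lit 195))))) (XT.nd (nat_lit 156) (nat_lit 2660) (nat_lit 0) (XT.nd (nat_lit 78) (nat_lit 0) (nat_lit 76) (XT.lf (nat_lit 76) (nat_lit 127236286) (nat_lit 0) (nat_lit 12018449095) (nat_lit 1824) (nat_lit 7686375554) (nat_lit 394) (nat_lit 5) (nat_lit 393) (nat_lit 5) (nat_lit 417) (nat_lit 5) (nat_lit 360) (nat_lit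 346) (nat_lit 194)) (XT.lf (nat_lit 0) (nat_lit 14438613854) (nat_lit 1748) (nat_lit 4944527070) (nat_lit 1824) (nat_lit 765483807) (nat_lit 394) (nat_lit 5) (nat_lit 417) (nat_lit 5) (nat_lit 418) (nat_lit 5) (nat_lit 361) (nat_lit 346) (nat_lit 193))) (XT.nd (nat_lit 78) (nat_lit 2736) (nat_lit 0) (XT.lf (nat_lit 76) (nat_lit 10305157491) (nat_lit 0) (nat_lit 6632508396) (nat_lit 1824) (nat_lit 3534277739) (nat_lit 395) (nat_lit 5) (nat_lit 394) (nat_lit 5) (nat_lit 418) (nat_lit 5) (nat_lit 362) (nat_lit 346) (nat_lit 192)) (XT.nd (nat_lit 78) (nat_lit 1064) (nat_lit 0) (XT.lf (nat_lit 0) (nat_lit 5294451692) (nat_lit 1748) (nat_lit 14317849924) (nat_lit 1824) (nat_lit 1190652985) (nat_lit 372) (nat_lit 5) (nat_lit 395) (nat_lit 5) (nat_lit 396) (nat_lit 5) (nat_lit 363) (nat_lit 346) (nat_lit 191)) (XT.lf (nat_lit 0) (nat_lit 157205236) (nat_lit 988) (nat_lit 1155221816) (nat_lit 1064) (nat_lit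 19829210733) (nat_lit 358) (nat_lit 5) (nat_lit 371) (nat_lit 5) (nat_lit 372) (nat_lit 5) (nat_lit 364) (nat_lit 346) (nat_lit 190)))))) (XT.nd (nat_lit 390) (nat_lit 3116) (nat_lit 0) (XT.nd (nat_lit 156) (nat_lit 1672) (nat_lit 0) (XT.nd (nat_lit 78) (nat_lit 912) (nat_lit 0) (XT.lf (nat_lit 0) (nat_lit 4051523443) (nat_lit 1064) (nat_lit 5080734944) (nat_lit 76) (nat_lit 12354528065) (nat_lit 358) (nat_lit 5) (nat_lit 372) (nat_lit 5) (nat_lit 359) (nat_lit 5) (nat_lit 365) (nat_lit 346) (nat_lit 189)) (XT.lf (nat_lit 0) (nat_lit 6974867578) (nat_lit 988) (nat_lit 10435765144) (nat_lit 76) (nat_lit 4429619626) (nat_lit 346) (nat_lit 5) (nat_lit 359) (nat_lit 5) (nat_lit 347) (nat_lit 5) (nat_lit 366) (nat_lit 346) (nat_lit 188))) (XT.nd (nat_lit 78) (nat_lit 836) (nat_lit 0) (XT.lf (nat_lit 0) (nat_lit 6262865120) (nat_lit 836) (nat_lit 3850623238) (nat_lit 912) (nat_lit 12088286480) (nat_lit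 335) (nat_lit 5) (nat_lit 346) (nat_lit 5) (nat_lit 347) (nat_lit 5) (nat_lit 367) (nat_lit 346) (nat_lit 187)) (XT.nd (nat_lit 78) (nat_lit 0) (nat_lit 0) (XT.lf (nat_lit 0) (nat_lit 970956896) (nat_lit 836) (nat_lit 12509874324) (nat_lit 912) (nat_lit 9090624538) (nat_lit 324) (nat_lit 5) (nat_lit 335) (nat_lit 5) (nat_lit 336) (nat_lit 5) (nat_lit 368) (nat_lit 346) (nat_lit 186)) (XT.lf (nat_lit 0) (nat_lit 17084099599) (nat_lit 912) (nat_lit 4387318092) (nat_lit 76) (nat_lit 1478115213) (nat_lit 324) (nat_lit 5) (nat_lit 336) (nat_lit 5) (nat_lit 325) (nat_lit 5) (nat_lit 369) (nat_lit 346) (nat_lit 185))))) (XT.nd (nat_lit 156) (nat_lit 1520) (nat_lit 0) (XT.nd (nat_lit 78) (nat_lit 836) (nat_lit 0) (XT.lf (nat_lit 0) (nat_lit 13426691222) (nat_lit 760) (nat_lit 7531448191) (nat_lit 836) (nat_lit 2377563277) (nat_lit 314) (nat_lit 5) (nat_lit 324) (nat_lit 5) (nat_lit 325) (nat_lit 5) (nat_lit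 370) (nat_lit 346) (nat_lit 184)) (XT.lf (nat_lit 0) (nat_lit 1319030500) (nat_lit 836) (nat_lit 15583020971) (nat_lit 76) (nat_lit 6828851506) (nat_lit 303) (nat_lit 5) (nat_lit 314) (nat_lit 5) (nat_lit 304) (nat_lit 5) (nat_lit 371) (nat_lit 346) (nat_lit 183))) (XT.nd (nat_lit 78) (nat_lit 760) (nat_lit 0) (XT.lf (nat_lit 0) (nat_lit 2706271946) (nat_lit 760) (nat_lit 2515813177) (nat_lit 836) (nat_lit 18913006045) (nat_lit 293) (nat_lit 5) (nat_lit 303) (nat_lit 5) (nat_lit 304) (nat_lit 5) (nat_lit 372) (nat_lit 346) (nat_lit 182)) (XT.nd (nat_lit 78) (nat_lit 760) (nat_lit 0) (XT.lf (nat_lit 0) (nat_lit 9420727353) (nat_lit 836) (nat_lit 2880356877) (nat_lit 76) (nat_lit 12246754256) (nat_lit 293) (nat_lit 5) (nat_lit 304) (nat_lit 5) (nat_lit 294) (nat_lit 5) (nat_lit 373) (nat_lit 346) (nat_lit 181)) (XT.lf (nat_lit 0) (nat_lit 13877865358) (nat_lit 836) (nat_lit 8572014779) (nat_lit 76)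 (nat_lit 2520440659) (nat_lit 283) (nat_lit 5) (nat_lit 294) (nat_lit 5) (nat_lit 284) (nat_lit 5) (nat_lit 374) (nat_lit 346) (nat_lit 180))))))) (XT.nd (nat_lit 45240) (nat_lit 0) (nat_lit 9424) (XT.nd (nat_lit 44850) (nat_lit 0) (nat_lit 9424) (XT.nd (nat_lit 156) (nat_lit 76) (nat_lit 0) (XT.nd (nat_lit 78) (nat_lit 684) (nat_lit 0) (XT.lf (nat_lit 0) (nat_lit 10942971668) (nat_lit 684) (nat_lit 7691421463) (nat_lit 760) (nat_lit 6767774140) (nat_lit 274) (nat_lit 5) (nat_lit 283) (nat_lit 5) (nat_lit 284) (nat_lit 5) (nat_lit 375) (nat_lit 346) (nat_lit 179)) (XT.lf (nat_lit 0) (nat_lit 5327829050) (nat_lit 684) (nat_lit 18340484159) (nat_lit 760) (nat_lit 2175965115) (nat_lit 265) (nat_lit 5) (nat_lit 274) (nat_lit 5) (nat_lit 275) (nat_lit 5) (nat_lit 376) (nat_lit 346) (nat_lit 178))) (XT.nd (nat_lit 44538) (nat_lit 0) (nat_lit 10868) (XT.lf (nat_lit 0) (nat_lit 2663155278) (nat_lit 760) (nat_lit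 467780982) (nat_lit 76) (nat_lit 23165526858) (nat_lit 264) (nat_lit 5) (nat_lit 274) (nat_lit 5) (nat_lit 265) (nat_lit 5) (nat_lit 377) (nat_lit 346) (nat_lit 177)) (XT.nd (nat_lit 78) (nat_lit 0) (nat_lit 0) (XT.lf (nat_lit 0) (nat_lit 6500806052) (nat_lit 1748) (nat_lit 882046418) (nat_lit 1748) (nat_lit 882046418) (nat_lit 407) (nat_lit 3) (nat_lit 430) (nat_lit 3) (nat_lit 430) (nat_lit 5) (nat_lit 347) (nat_lit 347) (nat_lit 206)) (XT.lf (nat_lit 76) (nat_lit 10005055096) (nat_lit 0) (nat_lit 3608330077) (nat_lit 1748) (nat_lit 3155842027) (nat_lit 408) (nat_lit 5) (nat_lit 407) (nat_lit 3) (nat_lit 430) (nat_lit 5) (nat_lit 348) (nat_lit 347) (nat_lit 205))))) (XT.nd (nat_lit 156) (nat_lit 1520) (nat_lit 0) (XT.nd (nat_lit 78) (nat_lit 0) (nat_lit 76) (XT.lf (nat_lit 76) (nat_lit 5144606237) (nat_lit 0) (nat_lit 9181795151) (nat_lit 1748) (nat_lit 2687787443) (nat_lit 409) (nat_lit 5) (nat_lit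 408) (nat_lit 5) (nat_lit 431) (nat_lit 5) (nat_lit 349) (nat_lit 347) (nat_lit 204)) (XT.lf (nat_lit 76) (nat_lit 193354533) (nat_lit 0) (nat_lit 14940422622) (nat_lit 1748) (nat_lit 2131269691) (nat_lit 410) (nat_lit 5) (nat_lit 409) (nat_lit 5) (nat_lit 432) (nat_lit 5) (nat_lit 350) (nat_lit 347) (nat_lit 203))) (XT.nd (nat_lit 78) (nat_lit 1596) (nat_lit 0) (XT.lf (nat_lit 76) (nat_lit 12710939230) (nat_lit 0) (nat_lit 3382865551) (nat_lit 1748) (nat_lit 1427063926) (nat_lit 410) (nat_lit 5) (nat_lit 409) (nat_lit 5) (nat_lit 432) (nat_lit 5) (nat_lit 351) (nat_lit 347) (nat_lit 202)) (XT.nd (nat_lit 78) (nat_lit 1672) (nat_lit 0) (XT.lf (nat_lit 76) (nat_lit 7859873301) (nat_lit 0) (nat_lit 9316531274) (nat_lit 1748) (nat_lit 606091742) (nat_lit 411) (nat_lit 5) (nat_lit 410) (nat_lit 5) (nat_lit 433) (nat_lit 5) (nat_lit 352) (nat_lit 347) (nat_lit 201)) (XT.lf (nat_lit 0) (nat_lit 315562856)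 (nat_lit 1748) (nat_lit 15137081961) (nat_lit 1824) (nat_lit 2597719155) (nat_lit 388) (nat_lit 5) (nat_lit 411) (nat_lit 5) (nat_lit 412) (nat_lit 5) (nat_lit 353) (nat_lit 347) (nat_lit 200)))))) (XT.nd (nat_lit 390) (nat_lit 0) (nat_lit 304) (XT.nd (nat_lit 156) (nat_lit 0) (nat_lit 152) (XT.nd (nat_lit 78) (nat_lit 0) (nat_lit 76) (XT.lf (nat_lit 0) (nat_lit 1374652179) (nat_lit 1748) (nat_lit 2129408906) (nat_lit 1824) (nat_lit 14819772081) (nat_lit 388) (nat_lit 5) (nat_lit 411) (nat_lit 5) (nat_lit 412) (nat_lit 5) (nat_lit 354) (nat_lit 347) (nat_lit 199)) (XT.lf (nat_lit 0) (nat_lit 2585606187) (nat_lit 1748) (nat_lit 7251333682) (nat_lit 1824) (nat_lit 8766170578) (nat_lit 389) (nat_lit 5) (nat_lit 412) (nat_lit 5) (nat_lit 413) (nat_lit 5) (nat_lit 355) (nat_lit 347) (nat_lit 198))) (XT.nd (nat_lit 78) (nat_lit 0) (nat_lit 0) (XT.lf (nat_lit 0) (nat_lit 3917654542) (nat_lit 1748) (nat_lit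 12476638895) (nat_lit 1824) (nat_lit 2494782975) (nat_lit 390) (nat_lit 5) (nat_lit 413) (nat_lit 5) (nat_lit 414) (nat_lit 5) (nat_lit 356) (nat_lit 347) (nat_lit 197)) (XT.nd (nat_lit 78) (nat_lit 0) (nat_lit 76) (XT.lf (nat_lit 76) (nat_lit 1346485135) (nat_lit 0) (nat_lit 4056124338) (nat_lit 1824) (nat_lit 13778758493) (nat_lit 391) (nat_lit 5) (nat_lit 390) (nat_lit 5) (nat_lit 414) (nat_lit 5) (nat_lit 357) (nat_lit 347) (nat_lit 196)) (XT.lf (nat_lit 0) (nat_lit 7062642388) (nat_lit 1748) (nat_lit 3790307683) (nat_lit 1824) (nat_lit 8626872964) (nat_lit 391) (nat_lit 5) (nat_lit 414) (nat_lit 5) (nat_lit 415) (nat_lit 5) (nat_lit 358) (nat_lit 347) (nat_lit 195))))) (XT.nd (nat_lit 156) (nat_lit 0) (nat_lit 76) (XT.nd (nat_lit 78) (nat_lit 0) (nat_lit 0) (XT.lf (nat_lit 0) (nat_lit 8871653392) (nat_lit 1748) (nat_lit 9015787693) (nat_lit 1824) (nat_lit 1897812327) (nat_lit 392) (nat_lit 5)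 (nat_lit 415) (nat_lit 5) (nat_lit 416) (nat_lit 5) (nat_lit 359) (nat_lit 347) (nat_lit 194)) (XT.lf (nat_lit 76) (nat_lit 5712969612) (nat_lit 0) (nat_lit 5147323536) (nat_lit 1824) (nat_lit 9237051430) (nat_lit 393) (nat_lit 5) (nat_lit 392) (nat_lit 5) (nat_lit 416) (nat_lit 5) (nat_lit 360) (nat_lit 347) (nat_lit 193))) (XT.nd (nat_lit 78) (nat_lit 0) (nat_lit 76) (XT.lf (nat_lit 76) (nat_lit 536392224) (nat_lit 0) (nat_lit 12479054028) (nat_lit 1824) (nat_lit 7401220042) (nat_lit 394) (nat_lit 5) (nat_lit 393) (nat_lit 5) (nat_lit 417) (nat_lit 5) (nat_lit 361) (nat_lit 347) (nat_lit 192)) (XT.nd (nat_lit 78) (nat_lit 0) (nat_lit 0) (XT.lf (nat_lit 0) (nat_lit 15361811793) (nat_lit 1748) (nat_lit 4688644514) (nat_lit 1824) (nat_lit 692584955) (nat_lit 394) (nat_lit 5) (nat_lit 417) (nat_lit 5) (nat_lit 418) (nat_lit 5) (nat_lit 362) (nat_lit 347) (nat_lit 191)) (XT.lf (nat_lit 76) (nat_lit 11011972621)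 (nat_lit 0) (nat_lit 6912171646) (nat_lit 1824) (nat_lit 3152156312) (nat_lit 395) (nat_lit 5) (nat_lit 394) (nat_lit 5) (nat_lit 418) (nat_lit 5) (nat_lit 363) (nat_lit 347) (nat_lit 190))))))))
noncomputable def xc120 : XT := (XT.nd (nat_lit 46020) (nat_lit 0) (nat_lit 3724) (XT.nd (nat_lit 702) (nat_lit 2888) (nat_lit 0) (XT.nd (nat_lit 312) (nat_lit 3268) (nat_lit 0) (XT.nd (nat_lit 156) (nat_lit 912) (nat_lit 0) (XT.nd (nat_lit 78) (nat_lit 1064) (nat_lit 0) (XT.lf (nat_lit 0) (nat_lit 5854651802) (nat_lit 1748) (nat_lit 14812532105) (nat_lit 1824) (nat_lit 750301507) (nat_lit 372) (nat_lit 5) (nat_lit 395) (nat_lit 5) (nat_lit 396) (nat_lit 5) (nat_lit 364) (nat_lit 347) (nat_lit 189)) (XT.lf (nat_lit 0) (nat_lit 563138196) (nat_lit 988) (nat_lit 1247409653) (nat_lit 1064) (nat_lit 19955947509) (nat_lit 358) (nat_lit 5) (nat_lit 371) (nat_lit 5) (nat_lit 372) (nat_lit 5) (nat_lit 365) (nat_lit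 347) (nat_lit 188))) (XT.nd (nat_lit 78) (nat_lit 912) (nat_lit 0) (XT.lf (nat_lit 0) (nat_lit 4618092888) (nat_lit 1064) (nat_lit 4834145444) (nat_lit 76) (nat_lit 12670040945) (nat_lit 358) (nat_lit 5) (nat_lit 372) (nat_lit 5) (nat_lit 359) (nat_lit 5) (nat_lit 366) (nat_lit 347) (nat_lit 187)) (XT.lf (nat_lit 0) (nat_lit 7618450946) (nat_lit 988) (nat_lit 10347130499) (nat_lit 76) (nat_lit 4520987559) (nat_lit 346) (nat_lit 5) (nat_lit 359) (nat_lit 5) (nat_lit 347) (nat_lit 5) (nat_lit 367) (nat_lit 347) (nat_lit 186)))) (XT.nd (nat_lit 156) (nat_lit 1596) (nat_lit 0) (XT.nd (nat_lit 78) (nat_lit 836) (nat_lit 0) (XT.lf (nat_lit 0) (nat_lit 6845941444) (nat_lit 836) (nat_lit 3995204142) (nat_lit 912) (nat_lit 12017999226) (nat_lit 335) (nat_lit 5) (nat_lit 346) (nat_lit 5) (nat_lit 347) (nat_lit 5) (nat_lit 368) (nat_lit 347) (nat_lit 185)) (XT.lf (nat_lit 0) (nat_lit 1397592505) (nat_lit 836)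 (nat_lit 12901957040) (nat_lit 912) (nat_lit 8940571570) (nat_lit 324) (nat_lit 5) (nat_lit 335) (nat_lit 5) (nat_lit 336) (nat_lit 5) (nat_lit 369) (nat_lit 347) (nat_lit 184))) (XT.nd (nat_lit 78) (nat_lit 1596) (nat_lit 0) (XT.lf (nat_lit 0) (nat_lit 17998743364) (nat_lit 912) (nat_lit 4124671415) (nat_lit 76) (nat_lit 1506374856) (nat_lit 324) (nat_lit 5) (nat_lit 336) (nat_lit 5) (nat_lit 325) (nat_lit 5) (nat_lit 370) (nat_lit 347) (nat_lit 183)) (XT.nd (nat_lit 78) (nat_lit 836) (nat_lit 0) (XT.lf (nat_lit 0) (nat_lit 14217361678) (nat_lit 760) (nat_lit 7762448746) (nat_lit 836) (nat_lit 2047923410) (nat_lit 314) (nat_lit 5) (nat_lit 324) (nat_lit 5) (nat_lit 325) (nat_lit 5) (nat_lit 371) (nat_lit 347) (nat_lit 182)) (XT.lf (nat_lit 0) (nat_lit 1745297626) (nat_lit 836) (nat_lit 15655681155) (nat_lit 76) (nat_lit 7033944698) (nat_lit 303) (nat_lit 5) (nat_lit 314) (nat_lit 5) (nat_lit 304)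 (nat_lit 5) (nat_lit 372) (nat_lit 347) (nat_lit 181)))))) (XT.nd (nat_lit 44928) (nat_lit 0) (nat_lit 10792) (XT.nd (nat_lit 156) (nat_lit 2128) (nat_lit 0) (XT.nd (nat_lit 78) (nat_lit 0) (nat_lit 0) (XT.lf (nat_lit 0) (nat_lit 3175884895) (nat_lit 760) (nat_lit 2580817908) (nat_lit 836) (nat_lit 19094714363) (nat_lit 293) (nat_lit 5) (nat_lit 303) (nat_lit 5) (nat_lit 304) (nat_lit 5) (nat_lit 373) (nat_lit 347) (nat_lit 180)) (XT.lf (nat_lit 0) (nat_lit 10070361895) (nat_lit 836) (nat_lit 2582220446) (nat_lit 76) (nat_lit 12624188294) (nat_lit 293) (nat_lit 5) (nat_lit 304) (nat_lit 5) (nat_lit 294) (nat_lit 5) (nat_lit 374) (nat_lit 347) (nat_lit 179))) (XT.nd (nat_lit 78) (nat_lit 1368) (nat_lit 0) (XT.lf (nat_lit 0) (nat_lit 14653107373) (nat_lit 836) (nat_lit 8443660105) (nat_lit 76) (nat_lit 2615326811) (nat_lit 283) (nat_lit 5) (nat_lit 294) (nat_lit 5) (nat_lit 284) (nat_lit 5) (nat_lit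 375) (nat_lit 347) (nat_lit 178)) (XT.nd (nat_lit 78) (nat_lit 684) (nat_lit 0) (XT.lf (nat_lit 0) (nat_lit 11650521412) (nat_lit 684) (nat_lit 7893818405) (nat_lit 760) (nat_lit 6612720766) (nat_lit 274) (nat_lit 5) (nat_lit 283) (nat_lit 5) (nat_lit 284) (nat_lit 5) (nat_lit 376) (nat_lit 347) (nat_lit 177)) (XT.lf (nat_lit 0) (nat_lit 5867645763) (nat_lit 684) (nat_lit 18854056684) (nat_lit 760) (nat_lit 1890888489) (nat_lit 265) (nat_lit 5) (nat_lit 274) (nat_lit 5) (nat_lit 275) (nat_lit 5) (nat_lit 377) (nat_lit 347) (nat_lit 176))))) (XT.nd (nat_lit 156) (nat_lit 0) (nat_lit 76) (XT.nd (nat_lit 78) (nat_lit 0) (nat_lit 0) (XT.lf (nat_lit 0) (nat_lit 7044238052) (nat_lit 1748) (nat_lit 730729417) (nat_lit 1748) (nat_lit 730729417) (nat_lit 407) (nat_lit 3) (nat_lit 430) (nat_lit 3) (nat_lit 430) (nat_lit 5) (nat_lit 348) (nat_lit 348) (nat_lit 204)) (XT.lf (nat_lit 76) (nat_lit 10654995049)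 (nat_lit 0) (nat_lit 4045582772) (nat_lit 1748) (nat_lit 2557799282) (nat_lit 408) (nat_lit 5) (nat_lit 407) (nat_lit 3) (nat_lit 430) (nat_lit 5) (nat_lit 349) (nat_lit 348) (nat_lit 203))) (XT.nd (nat_lit 78) (nat_lit 0) (nat_lit 76) (XT.lf (nat_lit 76) (nat_lit 5658860238) (nat_lit 0) (nat_lit 9756616594) (nat_lit 1748) (nat_lit 2095611130) (nat_lit 409) (nat_lit 5) (nat_lit 408) (nat_lit 5) (nat_lit 431) (nat_lit 5) (nat_lit 350) (nat_lit 348) (nat_lit 202)) (XT.nd (nat_lit 78) (nat_lit 0) (nat_lit 0) (XT.lf (nat_lit 76) (nat_lit 568451017) (nat_lit 0) (nat_lit 15659931060) (nat_lit 1748) (nat_lit 1541473406) (nat_lit 410) (nat_lit 5) (nat_lit 409) (nat_lit 5) (nat_lit 432) (nat_lit 5) (nat_lit 351) (nat_lit 348) (nat_lit 201)) (XT.lf (nat_lit 76) (nat_lit 13450807065) (nat_lit 0) (nat_lit 3747745459) (nat_lit 1748) (nat_lit 835182275) (nat_lit 410) (nat_lit 5) (nat_lit 409) (nat_lit 5) (nat_lit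 432) (nat_lit 5) (nat_lit 352) (nat_lit 348) (nat_lit 200))))))) (XT.nd (nat_lit 780) (nat_lit 5624) (nat_lit 0) (XT.nd (nat_lit 390) (nat_lit 0) (nat_lit 152) (XT.nd (nat_lit 156) (nat_lit 0) (nat_lit 0) (XT.nd (nat_lit 78) (nat_lit 1672) (nat_lit 0) (XT.lf (nat_lit 76) (nat_lit 8462627616) (nat_lit 0) (nat_lit 9833610342) (nat_lit 1748) (nat_lit 7330485) (nat_lit 411) (nat_lit 5) (nat_lit 410) (nat_lit 5) (nat_lit 433) (nat_lit 5) (nat_lit 353) (nat_lit 348) (nat_lit 199)) (XT.lf (nat_lit 0) (nat_lit 917090377) (nat_lit 1748) (nat_lit 15208305608) (nat_lit 1824) (nat_lit 2454340778) (nat_lit 388) (nat_lit 5) (nat_lit 411) (nat_lit 5) (nat_lit 412) (nat_lit 5) (nat_lit 354) (nat_lit 348) (nat_lit 198))) (XT.nd (nat_lit 78) (nat_lit 0) (nat_lit 76) (XT.lf (nat_lit 0) (nat_lit 1990707896) (nat_lit 1748) (nat_lit 1821554463) (nat_lit 1824) (nat_lit 15049501213) (nat_lit 388) (nat_lit 5) (nat_lit 411)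 (nat_lit 5) (nat_lit 412) (nat_lit 5) (nat_lit 355) (nat_lit 348) (nat_lit 197)) (XT.nd (nat_lit 78) (nat_lit 0) (nat_lit 76) (XT.lf (nat_lit 0) (nat_lit 3222358312) (nat_lit 1748) (nat_lit 7090414732) (nat_lit 1824) (nat_lit 8836967167) (nat_lit 389) (nat_lit 5) (nat_lit 412) (nat_lit 5) (nat_lit 413) (nat_lit 5) (nat_lit 356) (nat_lit 348) (nat_lit 196)) (XT.lf (nat_lit 0) (nat_lit 4579375346) (nat_lit 1748) (nat_lit 12466317939) (nat_lit 1824) (nat_lit 2398899875) (nat_lit 390) (nat_lit 5) (nat_lit 413) (nat_lit 5) (nat_lit 414) (nat_lit 5) (nat_lit 357) (nat_lit 348) (nat_lit 195))))) (XT.nd (nat_lit 156) (nat_lit 0) (nat_lit 152) (XT.nd (nat_lit 78) (nat_lit 0) (nat_lit 76) (XT.lf (nat_lit 76) (nat_lit 1765259807) (nat_lit 0) (nat_lit 4330225585) (nat_lit 1824) (nat_lit 13650443855) (nat_lit 391) (nat_lit 5) (nat_lit 390) (nat_lit 5) (nat_lit 414) (nat_lit 5) (nat_lit 358) (nat_lit 348) (nat_lit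 194)) (XT.lf (nat_lit 0) (nat_lit 7788898397) (nat_lit 1748) (nat_lit 3525133931) (nat_lit 1824) (nat_lit 8739641742) (nat_lit 391) (nat_lit 5) (nat_lit 414) (nat_lit 5) (nat_lit 415) (nat_lit 5) (nat_lit 359) (nat_lit 348) (nat_lit 193))) (XT.nd (nat_lit 78) (nat_lit 0) (nat_lit 0) (XT.lf (nat_lit 0) (nat_lit 9638779868) (nat_lit 1748) (nat_lit 8902402241) (nat_lit 1824) (nat_lit 1827360706) (nat_lit 392) (nat_lit 5) (nat_lit 415) (nat_lit 5) (nat_lit 416) (nat_lit 5) (nat_lit 360) (nat_lit 348) (nat_lit 192)) (XT.nd (nat_lit 78) (nat_lit 0) (nat_lit 76) (XT.lf (nat_lit 76) (nat_lit 6261990126) (nat_lit 0) (nat_lit 5412948965) (nat_lit 1824) (nat_lit 9015307661) (nat_lit 393) (nat_lit 5) (nat_lit 392) (nat_lit 5) (nat_lit 416) (nat_lit 5) (nat_lit 361) (nat_lit 348) (nat_lit 191)) (XT.lf (nat_lit 76) (nat_lit 934554732) (nat_lit 0) (nat_lit 12947733746) (nat_lit 1824) (nat_lit 7137115840) (nat_lit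 394) (nat_lit 5) (nat_lit 393) (nat_lit 5) (nat_lit 417) (nat_lit 5) (nat_lit 362) (nat_lit 348) (nat_lit 190)))))) (XT.nd (nat_lit 390) (nat_lit 3344) (nat_lit 0) (XT.nd (nat_lit 156) (nat_lit 2736) (nat_lit 0) (XT.nd (nat_lit 78) (nat_lit 0) (nat_lit 0) (XT.lf (nat_lit 0) (nat_lit 16284575397) (nat_lit 1748) (nat_lit 4448289270) (nat_lit 1824) (nat_lit 623002087) (nat_lit 394) (nat_lit 5) (nat_lit 417) (nat_lit 5) (nat_lit 418) (nat_lit 5) (nat_lit 363) (nat_lit 348) (nat_lit 189)) (XT.lf (nat_lit 76) (nat_lit 11717164870) (nat_lit 0) (nat_lit 7195592972) (nat_lit 1824) (nat_lit 2786593035) (nat_lit 395) (nat_lit 5) (nat_lit 394) (nat_lit 5) (nat_lit 418) (nat_lit 5) (nat_lit 364) (nat_lit 348) (nat_lit 188))) (XT.nd (nat_lit 78) (nat_lit 1064) (nat_lit 0) (XT.lf (nat_lit 0) (nat_lit 6408617832) (nat_lit 1748) (nat_lit 15318315065) (nat_lit 1824) (nat_lit 324067912) (nat_lit 372) (nat_lit 5) (nat_lit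 395) (nat_lit 5) (nat_lit 396) (nat_lit 5) (nat_lit 365) (nat_lit 348) (nat_lit 187)) (XT.nd (nat_lit 78) (nat_lit 0) (nat_lit 0) (XT.lf (nat_lit 0) (nat_lit 958217659) (nat_lit 988) (nat_lit 1339060600) (nat_lit 1064) (nat_lit 20113359514) (nat_lit 358) (nat_lit 5) (nat_lit 371) (nat_lit 5) (nat_lit 372) (nat_lit 5) (nat_lit 366) (nat_lit 348) (nat_lit 186)) (XT.lf (nat_lit 0) (nat_lit 5176113234) (nat_lit 1064) (nat_lit 4603063155) (nat_lit 76) (nat_lit 12998183495) (nat_lit 358) (nat_lit 5) (nat_lit 372) (nat_lit 5) (nat_lit 359) (nat_lit 5) (nat_lit 367) (nat_lit 348) (nat_lit 185))))) (XT.nd (nat_lit 156) (nat_lit 1596) (nat_lit 0) (XT.nd (nat_lit 78) (nat_lit 836) (nat_lit 0) (XT.lf (nat_lit 0) (nat_lit 8256409075) (nat_lit 988) (nat_lit 10278896475) (nat_lit 76) (nat_lit 4617479985) (nat_lit 346) (nat_lit 5) (nat_lit 359) (nat_lit 5) (nat_lit 347) (nat_lit 5) (nat_lit 368) (nat_lit 348) (nat_lit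 184)) (XT.lf (nat_lit 0) (nat_lit 7423824514) (nat_lit 836) (nat_lit 4142454182) (nat_lit 912) (nat_lit 11970455642) (nat_lit 335) (nat_lit 5) (nat_lit 346) (nat_lit 5) (nat_lit 347) (nat_lit 5) (nat_lit 369) (nat_lit 348) (nat_lit 183))) (XT.nd (nat_lit 78) (nat_lit 760) (nat_lit 0) (XT.lf (nat_lit 0) (nat_lit 1814208661) (nat_lit 836) (nat_lit 13304838624) (nat_lit 912) (nat_lit 8810285839) (nat_lit 324) (nat_lit 5) (nat_lit 335) (nat_lit 5) (nat_lit 336) (nat_lit 5) (nat_lit 370) (nat_lit 348) (nat_lit 182)) (XT.nd (nat_lit 78) (nat_lit 760) (nat_lit 0) (XT.lf (nat_lit 0) (nat_lit 18917743063) (nat_lit 912) (nat_lit 3876777831) (nat_lit 76) (nat_lit 1536405564) (nat_lit 324) (nat_lit 5) (nat_lit 336) (nat_lit 5) (nat_lit 325) (nat_lit 5) (nat_lit 371) (nat_lit 348) (nat_lit 181)) (XT.lf (nat_lit 0) (nat_lit 15009486939) (nat_lit 760) (nat_lit 8000089019) (nat_lit 836) (nat_lit 1731411480) (nat_lit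 314) (nat_lit 5) (nat_lit 324) (nat_lit 5) (nat_lit 325) (nat_lit 5) (nat_lit 372) (nat_lit 348) (nat_lit 180))))))))
noncomputable def xc121 : XT := (XT.nd (nat_lit 46176) (nat_lit 0) (nat_lit 760) (XT.nd (nat_lit 45396) (nat_lit 0) (nat_lit 7904) (XT.nd (nat_lit 45006) (nat_lit 0) (nat_lit 9424) (XT.nd (nat_lit 156) (nat_lit 760) (nat_lit 0) (XT.nd (nat_lit 78) (nat_lit 760) (nat_lit 0) (XT.lf (nat_lit 0) (nat_lit 2162154822) (nat_lit 836) (nat_lit 15753186027) (nat_lit 76) (nat_lit 7245177618) (nat_lit 303) (nat_lit 5) (nat_lit 314) (nat_lit 5) (nat_lit 304) (nat_lit 5) (nat_lit 373) (nat_lit 348) (nat_lit 179)) (XT.lf (nat_lit 0) (nat_lit 3637289061) (nat_lit 760) (nat_lit 2648373782) (nat_lit 836) (nat_lit 19304013648) (nat_lit 293) (nat_lit 5) (nat_lit 303) (nat_lit 5) (nat_lit 304) (nat_lit 5) (nat_lit 374) (nat_lit 348) (nat_lit 178))) (XT.nd (nat_lit 78) (nat_lit 760) (nat_lit 0) (XT.lf (nat_lit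 0) (nat_lit 10718417441) (nat_lit 836) (nat_lit 2297214501) (nat_lit 76) (nat_lit 13012369510) (nat_lit 293) (nat_lit 5) (nat_lit 304) (nat_lit 5) (nat_lit 294) (nat_lit 5) (nat_lit 375) (nat_lit 348) (nat_lit 177)) (XT.lf (nat_lit 0) (nat_lit 15431003973) (nat_lit 836) (nat_lit 8333584935) (nat_lit 76) (nat_lit 2711953202) (nat_lit 283) (nat_lit 5) (nat_lit 294) (nat_lit 5) (nat_lit 284) (nat_lit 5) (nat_lit 376) (nat_lit 348) (nat_lit 176)))) (XT.nd (nat_lit 156) (nat_lit 0) (nat_lit 76) (XT.nd (nat_lit 78) (nat_lit 0) (nat_lit 0) (XT.lf (nat_lit 0) (nat_lit 7583972978) (nat_lit 1748) (nat_lit 585078114) (nat_lit 1748) (nat_lit 585078114) (nat_lit 407) (nat_lit 3) (nat_lit 430) (nat_lit 3) (nat_lit 430) (nat_lit 5) (nat_lit 349) (nat_lit 349) (nat_lit 202)) (XT.lf (nat_lit 76) (nat_lit 11304353921) (nat_lit 0) (nat_lit 4477066942) (nat_lit 1748) (nat_lit 1981580102) (nat_lit 408) (nat_lit 5) (nat_lit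 407) (nat_lit 3) (nat_lit 430) (nat_lit 5) (nat_lit 350) (nat_lit 349) (nat_lit 201))) (XT.nd (nat_lit 78) (nat_lit 0) (nat_lit 76) (XT.lf (nat_lit 76) (nat_lit 6167881220) (nat_lit 0) (nat_lit 10331497757) (nat_lit 1748) (nat_lit 1524291570) (nat_lit 409) (nat_lit 5) (nat_lit 408) (nat_lit 5) (nat_lit 431) (nat_lit 5) (nat_lit 351) (nat_lit 349) (nat_lit 200)) (XT.nd (nat_lit 78) (nat_lit 0) (nat_lit 0) (XT.lf (nat_lit 76) (nat_lit 933601303) (nat_lit 0) (nat_lit 16385451265) (nat_lit 1748) (nat_lit 971510259) (nat_lit 410) (nat_lit 5) (nat_lit 409) (nat_lit 5) (nat_lit 432) (nat_lit 5) (nat_lit 352) (nat_lit 349) (nat_lit 199)) (XT.lf (nat_lit 76) (nat_lit 14192289292) (nat_lit 0) (nat_lit 4108451875) (nat_lit 1748) (nat_lit 261978181) (nat_lit 410) (nat_lit 5) (nat_lit 409) (nat_lit 5) (nat_lit 432) (nat_lit 5) (nat_lit 353) (nat_lit 349) (nat_lit 198)))))) (XT.nd (nat_lit 390) (nat_lit 0) (nat_lit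 228) (XT.nd (nat_lit 156) (nat_lit 0) (nat_lit 76) (XT.nd (nat_lit 78) (nat_lit 0) (nat_lit 76) (XT.lf (nat_lit 0) (nat_lit 566450668) (nat_lit 1748) (nat_lit 9782311687) (nat_lit 1824) (nat_lit 8492147812) (nat_lit 387) (nat_lit 5) (nat_lit 410) (nat_lit 5) (nat_lit 411) (nat_lit 5) (nat_lit 354) (nat_lit 349) (nat_lit 197)) (XT.lf (nat_lit 0) (nat_lit 1502677021) (nat_lit 1748) (nat_lit 15303645349) (nat_lit 1824) (nat_lit 2319365146) (nat_lit 388) (nat_lit 5) (nat_lit 411) (nat_lit 5) (nat_lit 412) (nat_lit 5) (nat_lit 355) (nat_lit 349) (nat_lit 196))) (XT.nd (nat_lit 78) (nat_lit 0) (nat_lit 76) (XT.lf (nat_lit 0) (nat_lit 2592248485) (nat_lit 1748) (nat_lit 1525803594) (nat_lit 1824) (nat_lit 15298456292) (nat_lit 388) (nat_lit 5) (nat_lit 411) (nat_lit 5) (nat_lit 412) (nat_lit 5) (nat_lit 356) (nat_lit 349) (nat_lit 195)) (XT.nd (nat_lit 78) (nat_lit 0) (nat_lit 76) (XT.lf (nat_lit 0) (nat_lit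 3846113554) (nat_lit 1748) (nat_lit 6946393306) (nat_lit 1824) (nat_lit 8920920061) (nat_lit 389) (nat_lit 5) (nat_lit 412) (nat_lit 5) (nat_lit 413) (nat_lit 5) (nat_lit 357) (nat_lit 349) (nat_lit 194)) (XT.lf (nat_lit 0) (nat_lit 5229708976) (nat_lit 1748) (nat_lit 12477766124) (nat_lit 1824) (nat_lit 2309940687) (nat_lit 390) (nat_lit 5) (nat_lit 413) (nat_lit 5) (nat_lit 414) (nat_lit 5) (nat_lit 358) (nat_lit 349) (nat_lit 193))))) (XT.nd (nat_lit 156) (nat_lit 0) (nat_lit 152) (XT.nd (nat_lit 78) (nat_lit 0) (nat_lit 76) (XT.lf (nat_lit 76) (nat_lit 2174877153) (nat_lit 0) (nat_lit 4603800481) (nat_lit 1824) (nat_lit 13549374275) (nat_lit 391) (nat_lit 5) (nat_lit 390) (nat_lit 5) (nat_lit 414) (nat_lit 5) (nat_lit 359) (nat_lit 349) (nat_lit 192)) (XT.lf (nat_lit 0) (nat_lit 8507414757) (nat_lit 1748) (nat_lit 3273754400) (nat_lit 1824) (nat_lit 8864176727) (nat_lit 391) (nat_lit 5) (nat_lit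 414) (nat_lit 5) (nat_lit 415) (nat_lit 5) (nat_lit 360) (nat_lit 349) (nat_lit 191))) (XT.nd (nat_lit 78) (nat_lit 0) (nat_lit 0) (XT.lf (nat_lit 0) (nat_lit 10400162016) (nat_lit 1748) (nat_lit 8807650307) (nat_lit 1824) (nat_lit 1762108013) (nat_lit 392) (nat_lit 5) (nat_lit 415) (nat_lit 5) (nat_lit 416) (nat_lit 5) (nat_lit 361) (nat_lit 349) (nat_lit 190)) (XT.nd (nat_lit 78) (nat_lit 0) (nat_lit 76) (XT.lf (nat_lit 76) (nat_lit 6805803666) (nat_lit 0) (nat_lit 5680159493) (nat_lit 1824) (nat_lit 8815547916) (nat_lit 393) (nat_lit 5) (nat_lit 392) (nat_lit 5) (nat_lit 416) (nat_lit 5) (nat_lit 362) (nat_lit 349) (nat_lit 189)) (XT.lf (nat_lit 76) (nat_lit 1322729692) (nat_lit 0) (nat_lit 13425060185) (nat_lit 1824) (nat_lit 6892994983) (nat_lit 394) (nat_lit 5) (nat_lit 393) (nat_lit 5) (nat_lit 417) (nat_lit 5) (nat_lit 363) (nat_lit 349) (nat_lit 188))))))) (XT.nd (nat_lit 780) (nat_lit 1596)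 (nat_lit 0) (XT.nd (nat_lit 390) (nat_lit 3344) (nat_lit 0) (XT.nd (nat_lit 156) (nat_lit 2736) (nat_lit 0) (XT.nd (nat_lit 78) (nat_lit 0) (nat_lit 0) (XT.lf (nat_lit 0) (nat_lit 17208506428) (nat_lit 1748) (nat_lit 4222595164) (nat_lit 1824) (nat_lit 556518790) (nat_lit 394) (nat_lit 5) (nat_lit 417) (nat_lit 5) (nat_lit 418) (nat_lit 5) (nat_lit 364) (nat_lit 349) (nat_lit 187)) (XT.lf (nat_lit 76) (nat_lit 12421995935) (nat_lit 0) (nat_lit 7483151003) (nat_lit 1824) (nat_lit 2436476088) (nat_lit 395) (nat_lit 5) (nat_lit 394) (nat_lit 5) (nat_lit 418) (nat_lit 5) (nat_lit 365) (nat_lit 349) (nat_lit 186))) (XT.nd (nat_lit 78) (nat_lit 988) (nat_lit 0) (XT.lf (nat_lit 0) (nat_lit 88023245) (nat_lit 1824) (nat_lit 15747132574) (nat_lit 76) (nat_lit 6868871427) (nat_lit 371) (nat_lit 5) (nat_lit 395) (nat_lit 5) (nat_lit 372) (nat_lit 5) (nat_lit 366) (nat_lit 349) (nat_lit 185)) (XT.nd (nat_lit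 78) (nat_lit 0) (nat_lit 0) (XT.lf (nat_lit 0) (nat_lit 1343440121) (nat_lit 988) (nat_lit 1430348128) (nat_lit 1064) (nat_lit 20300824376) (nat_lit 358) (nat_lit 5) (nat_lit 371) (nat_lit 5) (nat_lit 372) (nat_lit 5) (nat_lit 367) (nat_lit 349) (nat_lit 184)) (XT.lf (nat_lit 0) (nat_lit 5726794462) (nat_lit 1064) (nat_lit 4386638458) (nat_lit 76) (nat_lit 13339152963) (nat_lit 358) (nat_lit 5) (nat_lit 372) (nat_lit 5) (nat_lit 359) (nat_lit 5) (nat_lit 368) (nat_lit 349) (nat_lit 183))))) (XT.nd (nat_lit 156) (nat_lit 1596) (nat_lit 0) (XT.nd (nat_lit 78) (nat_lit 836) (nat_lit 0) (XT.lf (nat_lit 0) (nat_lit 8890004449) (nat_lit 988) (nat_lit 10230351370) (nat_lit 76) (nat_lit 4719113820) (nat_lit 346) (nat_lit 5) (nat_lit 359) (nat_lit 5) (nat_lit 347) (nat_lit 5) (nat_lit 369) (nat_lit 349) (nat_lit 182)) (XT.lf (nat_lit 0) (nat_lit 7997660775) (nat_lit 836) (nat_lit 4292549202) (nat_lit 912)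 (nat_lit 11944911417) (nat_lit 335) (nat_lit 5) (nat_lit 346) (nat_lit 5) (nat_lit 347) (nat_lit 5) (nat_lit 370) (nat_lit 349) (nat_lit 181))) (XT.nd (nat_lit 78) (nat_lit 760) (nat_lit 0) (XT.lf (nat_lit 0) (nat_lit 2221814655) (nat_lit 836) (nat_lit 13718898358) (nat_lit 912) (nat_lit 8698967231) (nat_lit 324) (nat_lit 5) (nat_lit 335) (nat_lit 5) (nat_lit 336) (nat_lit 5) (nat_lit 371) (nat_lit 349) (nat_lit 180)) (XT.nd (nat_lit 78) (nat_lit 760) (nat_lit 0) (XT.lf (nat_lit 0) (nat_lit 19842554457) (nat_lit 912) (nat_lit 3642780736) (nat_lit 76) (nat_lit 1568207471) (nat_lit 324) (nat_lit 5) (nat_lit 336) (nat_lit 5) (nat_lit 325) (nat_lit 5) (nat_lit 372) (nat_lit 349) (nat_lit 179)) (XT.lf (nat_lit 0) (nat_lit 15804388768) (nat_lit 760) (nat_lit 8244584866) (nat_lit 836) (nat_lit 1427100048) (nat_lit 314) (nat_lit 5) (nat_lit 324) (nat_lit 5) (nat_lit 325) (nat_lit 5) (nat_lit 373) (nat_lit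 349) (nat_lit 178)))))) (XT.nd (nat_lit 45162) (nat_lit 0) (nat_lit 7068) (XT.nd (nat_lit 156) (nat_lit 0) (nat_lit 0) (XT.nd (nat_lit 78) (nat_lit 760) (nat_lit 0) (XT.lf (nat_lit 0) (nat_lit 2570594042) (nat_lit 836) (nat_lit 15874979870) (nat_lit 76) (nat_lit 7462735208) (nat_lit 303) (nat_lit 5) (nat_lit 314) (nat_lit 5) (nat_lit 304) (nat_lit 5) (nat_lit 374) (nat_lit 349) (nat_lit 177)) (XT.lf (nat_lit 0) (nat_lit 4091518129) (nat_lit 760) (nat_lit 2718522834) (nat_lit 836) (nat_lit 19540460717) (nat_lit 293) (nat_lit 5) (nat_lit 303) (nat_lit 5) (nat_lit 304) (nat_lit 5) (nat_lit 375) (nat_lit 349) (nat_lit 176))) (XT.nd (nat_lit 44850) (nat_lit 0) (nat_lit 8664) (XT.lf (nat_lit 0) (nat_lit 11366056013) (nat_lit 836) (nat_lit 2024465785) (nat_lit 76) (nat_lit 13411653373) (nat_lit 293) (nat_lit 5) (nat_lit 304) (nat_lit 5) (nat_lit 294) (nat_lit 5) (nat_lit 376) (nat_lit 349) (nat_lit 175))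 (XT.nd (nat_lit 78) (nat_lit 0) (nat_lit 0) (XT.lf (nat_lit 0) (nat_lit 8121048001) (nat_lit 1748) (nat_lit 444676657) (nat_lit 1748) (nat_lit 444676657) (nat_lit 407) (nat_lit 3) (nat_lit 430) (nat_lit 3) (nat_lit 430) (nat_lit 5) (nat_lit 350) (nat_lit 350) (nat_lit 200)) (XT.lf (nat_lit 76) (nat_lit 11954266913) (nat_lit 0) (nat_lit 4903693671) (nat_lit 1748) (nat_lit 1425556528) (nat_lit 408) (nat_lit 5) (nat_lit 407) (nat_lit 3) (nat_lit 430) (nat_lit 5) (nat_lit 351) (nat_lit 350) (nat_lit 199))))) (XT.nd (nat_lit 156) (nat_lit 1672) (nat_lit 0) (XT.nd (nat_lit 78) (nat_lit 0) (nat_lit 76) (XT.lf (nat_lit 76) (nat_lit 6672698195) (nat_lit 0) (nat_lit 10907426915) (nat_lit 1748) (nat_lit 972237403) (nat_lit 409) (nat_lit 5) (nat_lit 408) (nat_lit 5) (nat_lit 431) (nat_lit 5) (nat_lit 352) (nat_lit 350) (nat_lit 198)) (XT.lf (nat_lit 76) (nat_lit 1289723919) (nat_lit 0) (nat_lit 17118057572) (nat_lit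 1748) (nat_lit 419821041) (nat_lit 410) (nat_lit 5) (nat_lit 409) (nat_lit 5) (nat_lit 432) (nat_lit 5) (nat_lit 353) (nat_lit 350) (nat_lit 197))) (XT.nd (nat_lit 78) (nat_lit 0) (nat_lit 76) (XT.lf (nat_lit 0) (nat_lit 290222582) (nat_lit 1748) (nat_lit 4173557407) (nat_lit 1824) (nat_lit 14644445683) (nat_lit 386) (nat_lit 5) (nat_lit 409) (nat_lit 5) (nat_lit 410) (nat_lit 5) (nat_lit 354) (nat_lit 350) (nat_lit 196)) (XT.nd (nat_lit 78) (nat_lit 0) (nat_lit 76) (XT.lf (nat_lit 0) (nat_lit 1124401907) (nat_lit 1748) (nat_lit 9742282741) (nat_lit 1824) (nat_lit 8528361950) (nat_lit 387) (nat_lit 5) (nat_lit 410) (nat_lit 5) (nat_lit 411) (nat_lit 5) (nat_lit 355) (nat_lit 350) (nat_lit 195)) (XT.lf (nat_lit 0) (nat_lit 2073795538) (nat_lit 1748) (nat_lit 15422562959) (nat_lit 1824) (nat_lit 2192315074) (nat_lit 388) (nat_lit 5) (nat_lit 411) (nat_lit 5) (nat_lit 412) (nat_lit 5) (nat_lit 356) (nat_lit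 350) (nat_lit 194))))))))
noncomputable def xc122 : XT := (XT.nd (nat_lit 1482) (nat_lit 760) (nat_lit 0) (XT.nd (nat_lit 702) (nat_lit 6460) (nat_lit 0) (XT.nd (nat_lit 312) (nat_lit 0) (nat_lit 228) (XT.nd (nat_lit 156) (nat_lit 0) (nat_lit 152) (XT.nd (nat_lit 78) (nat_lit 0) (nat_lit 76) (XT.lf (nat_lit 0) (nat_lit 3180732645) (nat_lit 1748) (nat_lit 1241294449) (nat_lit 1824) (nat_lit 15566506073) (nat_lit 388) (nat_lit 5) (nat_lit 411) (nat_lit 5) (nat_lit 412) (nat_lit 5) (nat_lit 357) (nat_lit 350) (nat_lit 193)) (XT.lf (nat_lit 0) (nat_lit 4458324648) (nat_lit 1748) (nat_lit 6818529220) (nat_lit 1824) (nat_lit 9017790645) (nat_lit 389) (nat_lit 5) (nat_lit 412) (nat_lit 5) (nat_lit 413) (nat_lit 5) (nat_lit 358) (nat_lit 350) (nat_lit 192))) (XT.nd (nat_lit 78) (nat_lit 0) (nat_lit 0) (XT.lf (nat_lit 0) (nat_lit 5870107050) (nat_lit 1748) (nat_lit 12510369110) (nat_lit 1824) (nat_lit 2227550544)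 (nat_lit 390) (nat_lit 5) (nat_lit 413) (nat_lit 5) (nat_lit 414) (nat_lit 5) (nat_lit 359) (nat_lit 350) (nat_lit 191)) (XT.lf (nat_lit 76) (nat_lit 2576309301) (nat_lit 0) (nat_lit 4877335485) (nat_lit 1824) (nat_lit 13474582156) (nat_lit 391) (nat_lit 5) (nat_lit 390) (nat_lit 5) (nat_lit 414) (nat_lit 5) (nat_lit 360) (nat_lit 350) (nat_lit 190)))) (XT.nd (nat_lit 156) (nat_lit 0) (nat_lit 76) (XT.nd (nat_lit 78) (nat_lit 0) (nat_lit 76) (XT.lf (nat_lit 0) (nat_lit 9219654268) (nat_lit 1748) (nat_lit 3035334409) (nat_lit 1824) (nat_lit 9000349680) (nat_lit 391) (nat_lit 5) (nat_lit 414) (nat_lit 5) (nat_lit 415) (nat_lit 5) (nat_lit 361) (nat_lit 350) (nat_lit 189)) (XT.lf (nat_lit 0) (nat_lit 11157278341) (nat_lit 1748) (nat_lit 8730825992) (nat_lit 1824) (nat_lit 1701790450) (nat_lit 392) (nat_lit 5) (nat_lit 415) (nat_lit 5) (nat_lit 416) (nat_lit 5) (nat_lit 362) (nat_lit 350) (nat_lit 188)))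 (XT.nd (nat_lit 78) (nat_lit 0) (nat_lit 76) (XT.lf (nat_lit 76) (nat_lit 7345498407) (nat_lit 0) (nat_lit 5949369123) (nat_lit 1824) (nat_lit 8636787870) (nat_lit 393) (nat_lit 5) (nat_lit 392) (nat_lit 5) (nat_lit 416) (nat_lit 5) (nat_lit 363) (nat_lit 350) (nat_lit 187)) (XT.nd (nat_lit 78) (nat_lit 0) (nat_lit 76) (XT.lf (nat_lit 76) (nat_lit 1701876487) (nat_lit 0) (nat_lit 13911603513) (nat_lit 1824) (nat_lit 6667855026) (nat_lit 394) (nat_lit 5) (nat_lit 393) (nat_lit 5) (nat_lit 417) (nat_lit 5) (nat_lit 364) (nat_lit 350) (nat_lit 186)) (XT.lf (nat_lit 0) (nat_lit 18135162007) (nat_lit 1748) (nat_lit 4010746500) (nat_lit 1824) (nat_lit 492930294) (nat_lit 394) (nat_lit 5) (nat_lit 417) (nat_lit 5) (nat_lit 418) (nat_lit 5) (nat_lit 365) (nat_lit 350) (nat_lit 185)))))) (XT.nd (nat_lit 390) (nat_lit 3268) (nat_lit 0) (XT.nd (nat_lit 156) (nat_lit 1900) (nat_lit 0) (XT.nd (nat_lit 78) (nat_lit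 1748) (nat_lit 0) (XT.lf (nat_lit 76) (nat_lit 13127690142) (nat_lit 0) (nat_lit 7775220461) (nat_lit 1824) (nat_lit 2100752633) (nat_lit 395) (nat_lit 5) (nat_lit 394) (nat_lit 5) (nat_lit 418) (nat_lit 5) (nat_lit 366) (nat_lit 350) (nat_lit 184)) (XT.lf (nat_lit 0) (nat_lit 484136918) (nat_lit 1824) (nat_lit 15877992486) (nat_lit 76) (nat_lit 7014962358) (nat_lit 371) (nat_lit 5) (nat_lit 395) (nat_lit 5) (nat_lit 372) (nat_lit 5) (nat_lit 367) (nat_lit 350) (nat_lit 183))) (XT.nd (nat_lit 78) (nat_lit 912) (nat_lit 0) (XT.lf (nat_lit 0) (nat_lit 1719756081) (nat_lit 988) (nat_lit 1521440032) (nat_lit 1064) (nat_lit 20517789608) (nat_lit 358) (nat_lit 5) (nat_lit 371) (nat_lit 5) (nat_lit 372) (nat_lit 5) (nat_lit 368) (nat_lit 350) (nat_lit 182)) (XT.nd (nat_lit 78) (nat_lit 912) (nat_lit 0) (XT.lf (nat_lit 0) (nat_lit 6271298674) (nat_lit 1064) (nat_lit 4184071722) (nat_lit 76) (nat_lit 13693162939)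 (nat_lit 358) (nat_lit 5) (nat_lit 372) (nat_lit 5) (nat_lit 359) (nat_lit 5) (nat_lit 369) (nat_lit 350) (nat_lit 181)) (XT.lf (nat_lit 0) (nat_lit 9520455268) (nat_lit 988) (nat_lit 10200838121) (nat_lit 76) (nat_lit 4825914339) (nat_lit 346) (nat_lit 5) (nat_lit 359) (nat_lit 5) (nat_lit 347) (nat_lit 5) (nat_lit 370) (nat_lit 350) (nat_lit 180))))) (XT.nd (nat_lit 156) (nat_lit 1596) (nat_lit 0) (XT.nd (nat_lit 78) (nat_lit 836) (nat_lit 0) (XT.lf (nat_lit 0) (nat_lit 8568556312) (nat_lit 836) (nat_lit 4445664818) (nat_lit 912) (nat_lit 11940681802) (nat_lit 335) (nat_lit 5) (nat_lit 346) (nat_lit 5) (nat_lit 347) (nat_lit 5) (nat_lit 371) (nat_lit 350) (nat_lit 179)) (XT.lf (nat_lit 0) (nat_lit 2621374868) (nat_lit 836) (nat_lit 14144523727) (nat_lit 912) (nat_lit 8605871601) (nat_lit 324) (nat_lit 5) (nat_lit 335) (nat_lit 5) (nat_lit 336) (nat_lit 5) (nat_lit 372) (nat_lit 350) (nat_lit 178)))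 (XT.nd (nat_lit 78) (nat_lit 1596) (nat_lit 0) (XT.lf (nat_lit 0) (nat_lit 20774600910) (nat_lit 912) (nat_lit 3421872406) (nat_lit 76) (nat_lit 1601783754) (nat_lit 324) (nat_lit 5) (nat_lit 336) (nat_lit 5) (nat_lit 325) (nat_lit 5) (nat_lit 373) (nat_lit 350) (nat_lit 177)) (XT.nd (nat_lit 78) (nat_lit 836) (nat_lit 0) (XT.lf (nat_lit 0) (nat_lit 16603355215) (nat_lit 760) (nat_lit 8496157661) (nat_lit 836) (nat_lit 1134109696) (nat_lit 314) (nat_lit 5) (nat_lit 324) (nat_lit 5) (nat_lit 325) (nat_lit 5) (nat_lit 374) (nat_lit 350) (nat_lit 176)) (XT.lf (nat_lit 0) (nat_lit 2971563853) (nat_lit 836) (nat_lit 16020564984) (nat_lit 76) (nat_lit 7686807915) (nat_lit 303) (nat_lit 5) (nat_lit 314) (nat_lit 5) (nat_lit 304) (nat_lit 5) (nat_lit 375) (nat_lit 350) (nat_lit 175))))))) (XT.nd (nat_lit 45630) (nat_lit 0) (nat_lit 4940) (XT.nd (nat_lit 45240) (nat_lit 0) (nat_lit 7068) (XT.nd (nat_lit 45006)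 (nat_lit 0) (nat_lit 7068) (XT.nd (nat_lit 44928) (nat_lit 0) (nat_lit 8664) (XT.lf (nat_lit 0) (nat_lit 4539563320) (nat_lit 760) (nat_lit 2791310340) (nat_lit 836) (nat_lit 19803672050) (nat_lit 293) (nat_lit 5) (nat_lit 303) (nat_lit 5) (nat_lit 304) (nat_lit 5) (nat_lit 376) (nat_lit 350) (nat_lit 174)) (XT.lf (nat_lit 0) (nat_lit 8656465504) (nat_lit 1748) (nat_lit 309130352) (nat_lit 1748) (nat_lit 309130352) (nat_lit 407) (nat_lit 3) (nat_lit 430) (nat_lit 3) (nat_lit 430) (nat_lit 5) (nat_lit 351) (nat_lit 351) (nat_lit 198))) (XT.nd (nat_lit 78) (nat_lit 1596) (nat_lit 0) (XT.lf (nat_lit 76) (nat_lit 12605837115) (nat_lit 0) (nat_lit 5326339141) (nat_lit 1748) (nat_lit 888182800) (nat_lit 408) (nat_lit 5) (nat_lit 407) (nat_lit 3) (nat_lit 430) (nat_lit 5) (nat_lit 352) (nat_lit 351) (nat_lit 197)) (XT.nd (nat_lit 78) (nat_lit 1672) (nat_lit 0) (XT.lf (nat_lit 76) (nat_lit 7174302969) (nat_lit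 0) (nat_lit 11485365366) (nat_lit 1748) (nat_lit 437936796) (nat_lit 409) (nat_lit 5) (nat_lit 408) (nat_lit 5) (nat_lit 431) (nat_lit 5) (nat_lit 353) (nat_lit 351) (nat_lit 196)) (XT.lf (nat_lit 0) (nat_lit 113567325) (nat_lit 1748) (nat_lit 17744475805) (nat_lit 1824) (nat_lit 1523365673) (nat_lit 386) (nat_lit 5) (nat_lit 409) (nat_lit 5) (nat_lit 410) (nat_lit 5) (nat_lit 354) (nat_lit 351) (nat_lit 195))))) (XT.nd (nat_lit 156) (nat_lit 0) (nat_lit 152) (XT.nd (nat_lit 78) (nat_lit 0) (nat_lit 76) (XT.lf (nat_lit 0) (nat_lit 823503812) (nat_lit 1748) (nat_lit 3991257685) (nat_lit 1824) (nat_lit 14855955649) (nat_lit 386) (nat_lit 5) (nat_lit 409) (nat_lit 5) (nat_lit 410) (nat_lit 5) (nat_lit 355) (nat_lit 351) (nat_lit 194)) (XT.lf (nat_lit 0) (nat_lit 1668038497) (nat_lit 1748) (nat_lit 9720197094) (nat_lit 1824) (nat_lit 8578208193) (nat_lit 387) (nat_lit 5) (nat_lit 410) (nat_lit 5) (nat_lit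 411) (nat_lit 5) (nat_lit 356) (nat_lit 351) (nat_lit 193))) (XT.nd (nat_lit 78) (nat_lit 0) (nat_lit 0) (XT.lf (nat_lit 0) (nat_lit 2631850866) (nat_lit 1748) (nat_lit 15564576496) (nat_lit 1824) (nat_lit 2072740926) (nat_lit 388) (nat_lit 5) (nat_lit 411) (nat_lit 5) (nat_lit 412) (nat_lit 5) (nat_lit 357) (nat_lit 351) (nat_lit 192)) (XT.nd (nat_lit 78) (nat_lit 0) (nat_lit 76) (XT.lf (nat_lit 0) (nat_lit 3757554101) (nat_lit 1748) (nat_lit 967209640) (nat_lit 1824) (nat_lit 15853556011) (nat_lit 388) (nat_lit 5) (nat_lit 411) (nat_lit 5) (nat_lit 412) (nat_lit 5) (nat_lit 358) (nat_lit 351) (nat_lit 191)) (XT.lf (nat_lit 0) (nat_lit 5060382133) (nat_lit 1748) (nat_lit 6706131676) (nat_lit 1824) (nat_lit 9127369497) (nat_lit 389) (nat_lit 5) (nat_lit 412) (nat_lit 5) (nat_lit 413) (nat_lit 5) (nat_lit 359) (nat_lit 351) (nat_lit 190)))))) (XT.nd (nat_lit 390) (nat_lit 2432) (nat_lit 0) (XT.nd (nat_lit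 156) (nat_lit 0) (nat_lit 76) (XT.nd (nat_lit 78) (nat_lit 0) (nat_lit 0) (XT.lf (nat_lit 0) (nat_lit 6501961797) (nat_lit 1748) (nat_lit 12563566886) (nat_lit 1824) (nat_lit 2151396230) (nat_lit 390) (nat_lit 5) (nat_lit 413) (nat_lit 5) (nat_lit 414) (nat_lit 5) (nat_lit 360) (nat_lit 351) (nat_lit 189)) (XT.lf (nat_lit 76) (nat_lit 2970485972) (nat_lit 0) (nat_lit 5151302821) (nat_lit 1824) (nat_lit 13425173331) (nat_lit 391) (nat_lit 5) (nat_lit 390) (nat_lit 5) (nat_lit 414) (nat_lit 5) (nat_lit 361) (nat_lit 351) (nat_lit 188))) (XT.nd (nat_lit 78) (nat_lit 0) (nat_lit 76) (XT.lf (nat_lit 0) (nat_lit 9927026316) (nat_lit 1748) (nat_lit 2809085909) (nat_lit 1824) (nat_lit 9148056138) (nat_lit 391) (nat_lit 5) (nat_lit 414) (nat_lit 5) (nat_lit 415) (nat_lit 5) (nat_lit 362) (nat_lit 351) (nat_lit 187)) (XT.nd (nat_lit 78) (nat_lit 0) (nat_lit 0) (XT.lf (nat_lit 0) (nat_lit 11911556936) (nat_lit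 1748) (nat_lit 8671274833) (nat_lit 1824) (nat_lit 1646160402) (nat_lit 392) (nat_lit 5) (nat_lit 415) (nat_lit 5) (nat_lit 416) (nat_lit 5) (nat_lit 363) (nat_lit 351) (nat_lit 186)) (XT.lf (nat_lit 76) (nat_lit 7882123733) (nat_lit 0) (nat_lit 6220983239) (nat_lit 1824) (nat_lit 8478108037) (nat_lit 393) (nat_lit 5) (nat_lit 392) (nat_lit 5) (nat_lit 416) (nat_lit 5) (nat_lit 364) (nat_lit 351) (nat_lit 185))))) (XT.nd (nat_lit 156) (nat_lit 2660) (nat_lit 0) (XT.nd (nat_lit 78) (nat_lit 0) (nat_lit 76) (XT.lf (nat_lit 76) (nat_lit 2072911013) (nat_lit 0) (nat_lit 14407933165) (nat_lit 1824) (nat_lit 6460755407) (nat_lit 394) (nat_lit 5) (nat_lit 393) (nat_lit 5) (nat_lit 417) (nat_lit 5) (nat_lit 365) (nat_lit 351) (nat_lit 184)) (XT.lf (nat_lit 0) (nat_lit 19066058593) (nat_lit 1748) (nat_lit 3811975183) (nat_lit 1824) (nat_lit 432042776) (nat_lit 394) (nat_lit 5) (nat_lit 417) (nat_lit 5) (nat_lit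 418) (nat_lit 5) (nat_lit 366) (nat_lit 351) (nat_lit 183))) (XT.nd (nat_lit 78) (nat_lit 2736) (nat_lit 0) (XT.lf (nat_lit 76) (nat_lit 13835437641) (nat_lit 0) (nat_lit 8072172926) (nat_lit 1824) (nat_lit 1778425285) (nat_lit 395) (nat_lit 5) (nat_lit 394) (nat_lit 5) (nat_lit 418) (nat_lit 5) (nat_lit 367) (nat_lit 351) (nat_lit 182)) (XT.nd (nat_lit 78) (nat_lit 988) (nat_lit 0) (XT.lf (nat_lit 0) (nat_lit 869547042) (nat_lit 1824) (nat_lit 16032384797) (nat_lit 76) (nat_lit 7168878839) (nat_lit 371) (nat_lit 5) (nat_lit 395) (nat_lit 5) (nat_lit 372) (nat_lit 5) (nat_lit 368) (nat_lit 351) (nat_lit 181)) (XT.lf (nat_lit 0) (nat_lit 2088073012) (nat_lit 988) (nat_lit 1612498879) (nat_lit 1064) (nat_lit 20763769616) (nat_lit 358) (nat_lit 5) (nat_lit 371) (nat_lit 5) (nat_lit 372) (nat_lit 5) (nat_lit 369) (nat_lit 351) (nat_lit 180))))))))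
noncomputable def xc123 : XT := (XT.nd (nat_lit 46566) (nat_lit 0) (nat_lit 760) (XT.nd (nat_lit 45786) (nat_lit 0) (nat_lit 5472) (XT.nd (nat_lit 390) (nat_lit 760) (nat_lit 0) (XT.nd (nat_lit 156) (nat_lit 1672) (nat_lit 0) (XT.nd (nat_lit 78) (nat_lit 912) (nat_lit 0) (XT.lf (nat_lit 0) (nat_lit 6810743485) (nat_lit 1064) (nat_lit 3994610473) (nat_lit 76) (nat_lit 14060443252) (nat_lit 358) (nat_lit 5) (nat_lit 372) (nat_lit 5) (nat_lit 359) (nat_lit 5) (nat_lit 370) (nat_lit 351) (nat_lit 179)) (XT.lf (nat_lit 0) (nat_lit 10148938833) (nat_lit 988) (nat_lit 10189751577) (nat_lit 76) (nat_lit 4937914980) (nat_lit 346) (nat_lit 5) (nat_lit 359) (nat_lit 5) (nat_lit 347) (nat_lit 5) (nat_lit 371) (nat_lit 351) (nat_lit 178))) (XT.nd (nat_lit 78) (nat_lit 836) (nat_lit 0) (XT.lf (nat_lit 0) (nat_lit 9137579929) (nat_lit 836) (nat_lit 4601976736) (nat_lit 912) (nat_lit 11957138699) (nat_lit 335) (nat_lit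 5) (nat_lit 346) (nat_lit 5) (nat_lit 347) (nat_lit 5) (nat_lit 372) (nat_lit 351) (nat_lit 177)) (XT.nd (nat_lit 78) (nat_lit 0) (nat_lit 0) (XT.lf (nat_lit 0) (nat_lit 3013811733) (nat_lit 836) (nat_lit 14582110846) (nat_lit 912) (nat_lit 8530307862) (nat_lit 324) (nat_lit 5) (nat_lit 335) (nat_lit 5) (nat_lit 336) (nat_lit 5) (nat_lit 373) (nat_lit 351) (nat_lit 176)) (XT.lf (nat_lit 0) (nat_lit 21715276792) (nat_lit 912) (nat_lit 3213291183) (nat_lit 76) (nat_lit 1637140555) (nat_lit 324) (nat_lit 5) (nat_lit 336) (nat_lit 5) (nat_lit 325) (nat_lit 5) (nat_lit 374) (nat_lit 351) (nat_lit 175))))) (XT.nd (nat_lit 45162) (nat_lit 0) (nat_lit 5396) (XT.nd (nat_lit 45084) (nat_lit 0) (nat_lit 7068) (XT.lf (nat_lit 0) (nat_lit 17407643809) (nat_lit 760) (nat_lit 8755034520) (nat_lit 836) (nat_lit 851606120) (nat_lit 314) (nat_lit 5) (nat_lit 324) (nat_lit 5) (nat_lit 325) (nat_lit 5) (nat_lit 375)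 (nat_lit 351) (nat_lit 174)) (XT.lf (nat_lit 0) (nat_lit 9191195818) (nat_lit 1748) (nat_lit 178064357) (nat_lit 1748) (nat_lit 178064357) (nat_lit 407) (nat_lit 3) (nat_lit 430) (nat_lit 3) (nat_lit 430) (nat_lit 5) (nat_lit 352) (nat_lit 352) (nat_lit 196))) (XT.nd (nat_lit 78) (nat_lit 1672) (nat_lit 0) (XT.lf (nat_lit 76) (nat_lit 13260138343) (nat_lit 0) (nat_lit 5745847158) (nat_lit 1748) (nat_lit 367990293) (nat_lit 408) (nat_lit 5) (nat_lit 407) (nat_lit 3) (nat_lit 430) (nat_lit 5) (nat_lit 353) (nat_lit 352) (nat_lit 195)) (XT.nd (nat_lit 78) (nat_lit 0) (nat_lit 76) (XT.lf (nat_lit 0) (nat_lit 78997639) (nat_lit 1748) (nat_lit 11986722111) (nat_lit 1824) (nat_lit 7594125170) (nat_lit 385) (nat_lit 5) (nat_lit 408) (nat_lit 5) (nat_lit 409) (nat_lit 5) (nat_lit 354) (nat_lit 352) (nat_lit 194)) (XT.lf (nat_lit 0) (nat_lit 626270026) (nat_lit 1748) (nat_lit 17978260133) (nat_lit 1824) (nat_lit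 1347878872) (nat_lit 386) (nat_lit 5) (nat_lit 409) (nat_lit 5) (nat_lit 410) (nat_lit 5) (nat_lit 355) (nat_lit 352) (nat_lit 193)))))) (XT.nd (nat_lit 390) (nat_lit 0) (nat_lit 304) (XT.nd (nat_lit 156) (nat_lit 0) (nat_lit 152) (XT.nd (nat_lit 78) (nat_lit 0) (nat_lit 76) (XT.lf (nat_lit 0) (nat_lit 1342670753) (nat_lit 1748) (nat_lit 3821141099) (nat_lit 1824) (nat_lit 15086888909) (nat_lit 386) (nat_lit 5) (nat_lit 409) (nat_lit 5) (nat_lit 410) (nat_lit 5) (nat_lit 356) (nat_lit 352) (nat_lit 192)) (XT.lf (nat_lit 0) (nat_lit 2198713578) (nat_lit 1748) (nat_lit 9715494090) (nat_lit 1824) (nat_lit 8641375331) (nat_lit 387) (nat_lit 5) (nat_lit 410) (nat_lit 5) (nat_lit 411) (nat_lit 5) (nat_lit 357) (nat_lit 352) (nat_lit 191))) (XT.nd (nat_lit 78) (nat_lit 0) (nat_lit 0) (XT.lf (nat_lit 0) (nat_lit 3178184525) (nat_lit 1748) (nat_lit 15729257827) (nat_lit 1824) (nat_lit 1960219034) (nat_lit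 388) (nat_lit 5) (nat_lit 411) (nat_lit 5) (nat_lit 412) (nat_lit 5) (nat_lit 358) (nat_lit 352) (nat_lit 190)) (XT.nd (nat_lit 78) (nat_lit 0) (nat_lit 76) (XT.lf (nat_lit 0) (nat_lit 4324045902) (nat_lit 1748) (nat_lit 702773537) (nat_lit 1824) (nat_lit 16159547041) (nat_lit 388) (nat_lit 5) (nat_lit 411) (nat_lit 5) (nat_lit 412) (nat_lit 5) (nat_lit 359) (nat_lit 352) (nat_lit 189)) (XT.lf (nat_lit 0) (nat_lit 5653618562) (nat_lit 1748) (nat_lit 6608556627) (nat_lit 1824) (nat_lit 9249475183) (nat_lit 389) (nat_lit 5) (nat_lit 412) (nat_lit 5) (nat_lit 413) (nat_lit 5) (nat_lit 360) (nat_lit 352) (nat_lit 188))))) (XT.nd (nat_lit 156) (nat_lit 0) (nat_lit 76) (XT.nd (nat_lit 78) (nat_lit 0) (nat_lit 0) (XT.lf (nat_lit 0) (nat_lit 7126610185) (nat_lit 1748) (nat_lit 12636851217) (nat_lit 1824) (nat_lit 2081164971) (nat_lit 390) (nat_lit 5) (nat_lit 413) (nat_lit 5) (nat_lit 414) (nat_lit 5) (nat_lit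 361) (nat_lit 352) (nat_lit 187)) (XT.lf (nat_lit 76) (nat_lit 3358297310) (nat_lit 0) (nat_lit 5426161700) (nat_lit 1824) (nat_lit 13400323395) (nat_lit 391) (nat_lit 5) (nat_lit 390) (nat_lit 5) (nat_lit 414) (nat_lit 5) (nat_lit 362) (nat_lit 352) (nat_lit 186))) (XT.nd (nat_lit 78) (nat_lit 0) (nat_lit 76) (XT.lf (nat_lit 0) (nat_lit 10630890851) (nat_lit 1748) (nat_lit 2594264761) (nat_lit 1824) (nat_lit 9307214541) (nat_lit 391) (nat_lit 5) (nat_lit 414) (nat_lit 5) (nat_lit 415) (nat_lit 5) (nat_lit 363) (nat_lit 352) (nat_lit 185)) (XT.nd (nat_lit 78) (nat_lit 0) (nat_lit 0) (XT.lf (nat_lit 0) (nat_lit 12664379415) (nat_lit 1748) (nat_lit 8628391174) (nat_lit 1824) (nat_lit 1594985536) (nat_lit 392) (nat_lit 5) (nat_lit 415) (nat_lit 5) (nat_lit 416) (nat_lit 5) (nat_lit 364) (nat_lit 352) (nat_lit 184)) (XT.lf (nat_lit 76) (nat_lit 8416693179) (nat_lit 0) (nat_lit 6495399561) (nat_lit 1824)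 (nat_lit 8338650289) (nat_lit 393) (nat_lit 5) (nat_lit 392) (nat_lit 5) (nat_lit 416) (nat_lit 5) (nat_lit 365) (nat_lit 352) (nat_lit 183))))))) (XT.nd (nat_lit 45864) (nat_lit 0) (nat_lit 4560) (XT.nd (nat_lit 390) (nat_lit 2584) (nat_lit 0) (XT.nd (nat_lit 156) (nat_lit 2660) (nat_lit 0) (XT.nd (nat_lit 78) (nat_lit 0) (nat_lit 76) (XT.lf (nat_lit 76) (nat_lit 2436708515) (nat_lit 0) (nat_lit 14914618843) (nat_lit 1824) (nat_lit 6270814030) (nat_lit 394) (nat_lit 5) (nat_lit 393) (nat_lit 5) (nat_lit 417) (nat_lit 5) (nat_lit 366) (nat_lit 352) (nat_lit 182)) (XT.lf (nat_lit 0) (nat_lit 20002675778) (nat_lit 1748) (nat_lit 3625558012) (nat_lit 1824) (nat_lit 373672712) (nat_lit 394) (nat_lit 5) (nat_lit 417) (nat_lit 5) (nat_lit 418) (nat_lit 5) (nat_lit 367) (nat_lit 352) (nat_lit 181))) (XT.nd (nat_lit 78) (nat_lit 2736) (nat_lit 0) (XT.lf (nat_lit 76) (nat_lit 14546397458) (nat_lit 0) (nat_lit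 8374377562) (nat_lit 1824) (nat_lit 1468548778) (nat_lit 395) (nat_lit 5) (nat_lit 394) (nat_lit 5) (nat_lit 418) (nat_lit 5) (nat_lit 368) (nat_lit 352) (nat_lit 180)) (XT.nd (nat_lit 78) (nat_lit 988) (nat_lit 0) (XT.lf (nat_lit 0) (nat_lit 1245229096) (nat_lit 1824) (nat_lit 16209889978) (nat_lit 76) (nat_lit 7330658005) (nat_lit 371) (nat_lit 5) (nat_lit 395) (nat_lit 5) (nat_lit 372) (nat_lit 5) (nat_lit 369) (nat_lit 352) (nat_lit 179)) (XT.lf (nat_lit 0) (nat_lit 2449258184) (nat_lit 988) (nat_lit 1703682448) (nat_lit 1064) (nat_lit 21038342917) (nat_lit 358) (nat_lit 5) (nat_lit 371) (nat_lit 5) (nat_lit 372) (nat_lit 5) (nat_lit 370) (nat_lit 352) (nat_lit 178))))) (XT.nd (nat_lit 156) (nat_lit 1672) (nat_lit 0) (XT.nd (nat_lit 78) (nat_lit 912) (nat_lit 0) (XT.lf (nat_lit 0) (nat_lit 7346205248) (nat_lit 1064) (nat_lit 3817546723) (nat_lit 76) (nat_lit 14441239890) (nat_lit 358) (nat_lit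 5) (nat_lit 372) (nat_lit 5) (nat_lit 359) (nat_lit 5) (nat_lit 371) (nat_lit 352) (nat_lit 177)) (XT.lf (nat_lit 0) (nat_lit 10776594771) (nat_lit 988) (nat_lit 10196535944) (nat_lit 76) (nat_lit 5055157162) (nat_lit 346) (nat_lit 5) (nat_lit 359) (nat_lit 5) (nat_lit 347) (nat_lit 5) (nat_lit 372) (nat_lit 352) (nat_lit 176))) (XT.nd (nat_lit 78) (nat_lit 836) (nat_lit 0) (XT.lf (nat_lit 0) (nat_lit 9705766077) (nat_lit 836) (nat_lit 4761661049) (nat_lit 912) (nat_lit 11993707930) (nat_lit 335) (nat_lit 5) (nat_lit 346) (nat_lit 5) (nat_lit 347) (nat_lit 5) (nat_lit 373) (nat_lit 352) (nat_lit 175)) (XT.nd (nat_lit 78) (nat_lit 0) (nat_lit 0) (XT.lf (nat_lit 0) (nat_lit 3400008553) (nat_lit 836) (nat_lit 15032064894) (nat_lit 912) (nat_lit 8471635246) (nat_lit 324) (nat_lit 5) (nat_lit 335) (nat_lit 5) (nat_lit 336) (nat_lit 5) (nat_lit 374) (nat_lit 352) (nat_lit 174)) (XT.lf (nat_lit 0) (nat_lit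 22665950718) (nat_lit 912) (nat_lit 3016318824) (nat_lit 76) (nat_lit 1674286904) (nat_lit 324) (nat_lit 5) (nat_lit 336) (nat_lit 5) (nat_lit 325) (nat_lit 5) (nat_lit 375) (nat_lit 352) (nat_lit 173)))))) (XT.nd (nat_lit 390) (nat_lit 0) (nat_lit 228) (XT.nd (nat_lit 156) (nat_lit 0) (nat_lit 76) (XT.nd (nat_lit 78) (nat_lit 1748) (nat_lit 0) (XT.lf (nat_lit 0) (nat_lit 9726179830) (nat_lit 1748) (nat_lit 51122467) (nat_lit 1748) (nat_lit 51122467) (nat_lit 407) (nat_lit 3) (nat_lit 430) (nat_lit 3) (nat_lit 430) (nat_lit 5) (nat_lit 353) (nat_lit 353) (nat_lit 194)) (XT.lf (nat_lit 0) (nat_lit 134628113) (nat_lit 1748) (nat_lit 6027500010) (nat_lit 1824) (nat_lit 13782686299) (nat_lit 384) (nat_lit 5) (nat_lit 407) (nat_lit 3) (nat_lit 408) (nat_lit 5) (nat_lit 354) (nat_lit 353) (nat_lit 193))) (XT.nd (nat_lit 78) (nat_lit 0) (nat_lit 76) (XT.lf (nat_lit 0) (nat_lit 575435446) (nat_lit 1748) (nat_lit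 12071698043) (nat_lit 1824) (nat_lit 7592376760) (nat_lit 385) (nat_lit 5) (nat_lit 408) (nat_lit 5) (nat_lit 409) (nat_lit 5) (nat_lit 355) (nat_lit 353) (nat_lit 192)) (XT.nd (nat_lit 78) (nat_lit 0) (nat_lit 0) (XT.lf (nat_lit 0) (nat_lit 1125118153) (nat_lit 1748) (nat_lit 18236195979) (nat_lit 1824) (nat_lit 1179824550) (nat_lit 386) (nat_lit 5) (nat_lit 409) (nat_lit 5) (nat_lit 410) (nat_lit 5) (nat_lit 356) (nat_lit 353) (nat_lit 191)) (XT.lf (nat_lit 0) (nat_lit 1849028571) (nat_lit 1748) (nat_lit 3662559839) (nat_lit 1824) (nat_lit 15337077432) (nat_lit 386) (nat_lit 5) (nat_lit 409) (nat_lit 5) (nat_lit 410) (nat_lit 5) (nat_lit 357) (nat_lit 353) (nat_lit 190))))) (XT.nd (nat_lit 156) (nat_lit 0) (nat_lit 76) (XT.nd (nat_lit 78) (nat_lit 0) (nat_lit 76) (XT.lf (nat_lit 0) (nat_lit 2717718559) (nat_lit 1748) (nat_lit 9727659340) (nat_lit 1824) (nat_lit 8717584158) (nat_lit 387) (nat_lit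 5) (nat_lit 410) (nat_lit 5) (nat_lit 411) (nat_lit 5) (nat_lit 358) (nat_lit 353) (nat_lit 189)) (XT.lf (nat_lit 0) (nat_lit 3714078776) (nat_lit 1748) (nat_lit 15916230326) (nat_lit 1824) (nat_lit 1854350216) (nat_lit 388) (nat_lit 5) (nat_lit 411) (nat_lit 5) (nat_lit 412) (nat_lit 5) (nat_lit 359) (nat_lit 353) (nat_lit 188))) (XT.nd (nat_lit 78) (nat_lit 0) (nat_lit 76) (XT.lf (nat_lit 0) (nat_lit 4881484479) (nat_lit 1748) (nat_lit 447249718) (nat_lit 1824) (nat_lit 16484454435) (nat_lit 388) (nat_lit 5) (nat_lit 411) (nat_lit 5) (nat_lit 412) (nat_lit 5) (nat_lit 360) (nat_lit 353) (nat_lit 187)) (XT.nd (nat_lit 78) (nat_lit 0) (nat_lit 76) (XT.lf (nat_lit 0) (nat_lit 6239312485) (nat_lit 1748) (nat_lit 6525204317) (nat_lit 1824) (nat_lit 9383953124) (nat_lit 389) (nat_lit 5) (nat_lit 412) (nat_lit 5) (nat_lit 413) (nat_lit 5) (nat_lit 361) (nat_lit 353) (nat_lit 186)) (XT.lf (nat_lit 0) (nat_lit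 7745337827) (nat_lit 1748) (nat_lit 12729763261) (nat_lit 1824) (nat_lit 2016563304) (nat_lit 390) (nat_lit 5) (nat_lit 413) (nat_lit 5) (nat_lit 414) (nat_lit 5) (nat_lit 362) (nat_lit 353) (nat_lit 185))))))))
noncomputable def xc124 : XT := (XT.nd (nat_lit 46722) (nat_lit 0) (nat_lit 836) (XT.nd (nat_lit 702) (nat_lit 1748) (nat_lit 0) (XT.nd (nat_lit 312) (nat_lit 2432) (nat_lit 0) (XT.nd (nat_lit 156) (nat_lit 0) (nat_lit 152) (XT.nd (nat_lit 78) (nat_lit 0) (nat_lit 76) (XT.lf (nat_lit 76) (nat_lit 3740596573) (nat_lit 0) (nat_lit 5702359498) (nat_lit 1824) (nat_lit 13399274245) (nat_lit 391) (nat_lit 5) (nat_lit 390) (nat_lit 5) (nat_lit 414) (nat_lit 5) (nat_lit 363) (nat_lit 353) (nat_lit 184)) (XT.lf (nat_lit 0) (nat_lit 11332562177) (nat_lit 1748) (nat_lit 2390168182) (nat_lit 1824) (nat_lit 9477765428) (nat_lit 391) (nat_lit 5) (nat_lit 414) (nat_lit 5) (nat_lit 415) (nat_lit 5) (nat_lit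 364) (nat_lit 353) (nat_lit 183))) (XT.nd (nat_lit 78) (nat_lit 0) (nat_lit 0) (XT.lf (nat_lit 0) (nat_lit 13417084641) (nat_lit 1748) (nat_lit 8601615701) (nat_lit 1824) (nat_lit 1548047961) (nat_lit 392) (nat_lit 5) (nat_lit 415) (nat_lit 5) (nat_lit 416) (nat_lit 5) (nat_lit 365) (nat_lit 353) (nat_lit 182)) (XT.lf (nat_lit 76) (nat_lit 8950187220) (nat_lit 0) (nat_lit 6773009050) (nat_lit 1824) (nat_lit 8217614596) (nat_lit 393) (nat_lit 5) (nat_lit 392) (nat_lit 5) (nat_lit 416) (nat_lit 5) (nat_lit 366) (nat_lit 353) (nat_lit 181)))) (XT.nd (nat_lit 156) (nat_lit 2660) (nat_lit 0) (XT.nd (nat_lit 78) (nat_lit 0) (nat_lit 76) (XT.lf (nat_lit 76) (nat_lit 2794106284) (nat_lit 0) (nat_lit 15432231489) (nat_lit 1824) (nat_lit 6097204038) (nat_lit 394) (nat_lit 5) (nat_lit 393) (nat_lit 5) (nat_lit 417) (nat_lit 5) (nat_lit 367) (nat_lit 353) (nat_lit 180)) (XT.lf (nat_lit 0) (nat_lit 20946459914)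 (nat_lit 1748) (nat_lit 3450814122) (nat_lit 1824) (nat_lit 317646257) (nat_lit 394) (nat_lit 5) (nat_lit 417) (nat_lit 5) (nat_lit 418) (nat_lit 5) (nat_lit 368) (nat_lit 353) (nat_lit 179))) (XT.nd (nat_lit 78) (nat_lit 2736) (nat_lit 0) (XT.lf (nat_lit 76) (nat_lit 15261700389) (nat_lit 0) (nat_lit 8682201827) (nat_lit 1824) (nat_lit 1170226822) (nat_lit 395) (nat_lit 5) (nat_lit 394) (nat_lit 5) (nat_lit 418) (nat_lit 5) (nat_lit 369) (nat_lit 353) (nat_lit 178)) (XT.nd (nat_lit 78) (nat_lit 988) (nat_lit 0) (XT.lf (nat_lit 0) (nat_lit 1612113391) (nat_lit 1824) (nat_lit 16410140526) (nat_lit 76) (nat_lit 7500349449) (nat_lit 371) (nat_lit 5) (nat_lit 395) (nat_lit 5) (nat_lit 372) (nat_lit 5) (nat_lit 370) (nat_lit 353) (nat_lit 177)) (XT.lf (nat_lit 0) (nat_lit 2804141322) (nat_lit 988) (nat_lit 1795144136) (nat_lit 1064) (nat_lit 21341149546) (nat_lit 358) (nat_lit 5) (nat_lit 371) (nat_lit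 5) (nat_lit 372) (nat_lit 5) (nat_lit 371) (nat_lit 353) (nat_lit 176)))))) (XT.nd (nat_lit 45630) (nat_lit 0) (nat_lit 3800) (XT.nd (nat_lit 156) (nat_lit 836) (nat_lit 0) (XT.nd (nat_lit 78) (nat_lit 912) (nat_lit 0) (XT.lf (nat_lit 0) (nat_lit 7878722105) (nat_lit 1064) (nat_lit 3652214453) (nat_lit 76) (nat_lit 14835814950) (nat_lit 358) (nat_lit 5) (nat_lit 372) (nat_lit 5) (nat_lit 359) (nat_lit 5) (nat_lit 372) (nat_lit 353) (nat_lit 175)) (XT.lf (nat_lit 0) (nat_lit 11404528086) (nat_lit 988) (nat_lit 10220682395) (nat_lit 76) (nat_lit 5177690124) (nat_lit 346) (nat_lit 5) (nat_lit 359) (nat_lit 5) (nat_lit 347) (nat_lit 5) (nat_lit 373) (nat_lit 353) (nat_lit 174))) (XT.nd (nat_lit 45318) (nat_lit 0) (nat_lit 3724) (XT.lf (nat_lit 0) (nat_lit 10274117634) (nat_lit 836) (nat_lit 4924894528) (nat_lit 912) (nat_lit 12049866674) (nat_lit 335) (nat_lit 5) (nat_lit 346) (nat_lit 5) (nat_lit 347)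 (nat_lit 5) (nat_lit 374) (nat_lit 353) (nat_lit 173)) (XT.nd (nat_lit 78) (nat_lit 0) (nat_lit 0) (XT.lf (nat_lit 0) (nat_lit 71560138) (nat_lit 0) (nat_lit 71560138) (nat_lit 1748) (nat_lit 9975105547) (nat_lit 384) (nat_lit 5) (nat_lit 384) (nat_lit 3) (nat_lit 407) (nat_lit 3) (nat_lit 354) (nat_lit 354) (nat_lit 192)) (XT.lf (nat_lit 0) (nat_lit 618153307) (nat_lit 1748) (nat_lit 5956376994) (nat_lit 1824) (nat_lit 13958797408) (nat_lit 384) (nat_lit 5) (nat_lit 407) (nat_lit 3) (nat_lit 408) (nat_lit 5) (nat_lit 355) (nat_lit 354) (nat_lit 191))))) (XT.nd (nat_lit 156) (nat_lit 0) (nat_lit 76) (XT.nd (nat_lit 78) (nat_lit 0) (nat_lit 76) (XT.lf (nat_lit 0) (nat_lit 1058404869) (nat_lit 1748) (nat_lit 12174987893) (nat_lit 1824) (nat_lit 7603754278) (nat_lit 385) (nat_lit 5) (nat_lit 408) (nat_lit 5) (nat_lit 409) (nat_lit 5) (nat_lit 356) (nat_lit 354) (nat_lit 190)) (XT.lf (nat_lit 0) (nat_lit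 1611374315) (nat_lit 1748) (nat_lit 18518024098) (nat_lit 1824) (nat_lit 1018696816) (nat_lit 386) (nat_lit 5) (nat_lit 409) (nat_lit 5) (nat_lit 410) (nat_lit 5) (nat_lit 357) (nat_lit 354) (nat_lit 189))) (XT.nd (nat_lit 78) (nat_lit 0) (nat_lit 76) (XT.lf (nat_lit 0) (nat_lit 2343822357) (nat_lit 1748) (nat_lit 3514904828) (nat_lit 1824) (nat_lit 15606391241) (nat_lit 386) (nat_lit 5) (nat_lit 409) (nat_lit 5) (nat_lit 410) (nat_lit 5) (nat_lit 358) (nat_lit 354) (nat_lit 188)) (XT.nd (nat_lit 78) (nat_lit 0) (nat_lit 76) (XT.lf (nat_lit 0) (nat_lit 3226287134) (nat_lit 1748) (nat_lit 9756222485) (nat_lit 1824) (nat_lit 8806586060) (nat_lit 387) (nat_lit 5) (nat_lit 410) (nat_lit 5) (nat_lit 411) (nat_lit 5) (nat_lit 359) (nat_lit 354) (nat_lit 187)) (XT.lf (nat_lit 0) (nat_lit 4240760557) (nat_lit 1748) (nat_lit 16125166727) (nat_lit 1824) (nat_lit 1754758375) (nat_lit 388) (nat_lit 5) (nat_lit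 411) (nat_lit 5) (nat_lit 412) (nat_lit 5) (nat_lit 360) (nat_lit 354) (nat_lit 186))))))) (XT.nd (nat_lit 780) (nat_lit 3192) (nat_lit 0) (XT.nd (nat_lit 390) (nat_lit 0) (nat_lit 304) (XT.nd (nat_lit 156) (nat_lit 0) (nat_lit 152) (XT.nd (nat_lit 78) (nat_lit 0) (nat_lit 76) (XT.lf (nat_lit 0) (nat_lit 5431093497) (nat_lit 1748) (nat_lit 199938560) (nat_lit 1824) (nat_lit 16828286759) (nat_lit 388) (nat_lit 5) (nat_lit 411) (nat_lit 5) (nat_lit 412) (nat_lit 5) (nat_lit 361) (nat_lit 354) (nat_lit 185)) (XT.lf (nat_lit 0) (nat_lit 6818692224) (nat_lit 1748) (nat_lit 6455516946) (nat_lit 1824) (nat_lit 9530674550) (nat_lit 389) (nat_lit 5) (nat_lit 412) (nat_lit 5) (nat_lit 413) (nat_lit 5) (nat_lit 362) (nat_lit 354) (nat_lit 184))) (XT.nd (nat_lit 78) (nat_lit 0) (nat_lit 0) (XT.lf (nat_lit 0) (nat_lit 8359382698) (nat_lit 1748) (nat_lit 12841891343) (nat_lit 1824) (nat_lit 1957316008) (nat_lit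 390) (nat_lit 5) (nat_lit 413) (nat_lit 5) (nat_lit 414) (nat_lit 5) (nat_lit 363) (nat_lit 354) (nat_lit 183)) (XT.nd (nat_lit 78) (nat_lit 0) (nat_lit 76) (XT.lf (nat_lit 76) (nat_lit 4118202671) (nat_lit 0) (nat_lit 5980332863) (nat_lit 1824) (nat_lit 13421330847) (nat_lit 391) (nat_lit 5) (nat_lit 390) (nat_lit 5) (nat_lit 414) (nat_lit 5) (nat_lit 364) (nat_lit 354) (nat_lit 182)) (XT.lf (nat_lit 0) (nat_lit 12033312536) (nat_lit 1748) (nat_lit 2196132327) (nat_lit 1824) (nat_lit 9659670689) (nat_lit 391) (nat_lit 5) (nat_lit 414) (nat_lit 5) (nat_lit 415) (nat_lit 5) (nat_lit 365) (nat_lit 354) (nat_lit 181))))) (XT.nd (nat_lit 156) (nat_lit 0) (nat_lit 76) (XT.nd (nat_lit 78) (nat_lit 0) (nat_lit 0) (XT.lf (nat_lit 0) (nat_lit 14170972281) (nat_lit 1748) (nat_lit 8590433135) (nat_lit 1824) (nat_lit 1505143429) (nat_lit 392) (nat_lit 5) (nat_lit 415) (nat_lit 5) (nat_lit 416) (nat_lit 5) (nat_lit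 366) (nat_lit 354) (nat_lit 180)) (XT.lf (nat_lit 76) (nat_lit 9483555920) (nat_lit 0) (nat_lit 7054196778) (nat_lit 1824) (nat_lit 8114255956) (nat_lit 393) (nat_lit 5) (nat_lit 392) (nat_lit 5) (nat_lit 416) (nat_lit 5) (nat_lit 367) (nat_lit 354) (nat_lit 179))) (XT.nd (nat_lit 78) (nat_lit 0) (nat_lit 76) (XT.lf (nat_lit 76) (nat_lit 3145906203) (nat_lit 0) (nat_lit 15961344236) (nat_lit 1824) (nat_lit 5939150780) (nat_lit 394) (nat_lit 5) (nat_lit 393) (nat_lit 5) (nat_lit 417) (nat_lit 5) (nat_lit 368) (nat_lit 354) (nat_lit 178)) (XT.nd (nat_lit 78) (nat_lit 0) (nat_lit 0) (XT.lf (nat_lit 0) (nat_lit 21898827566) (nat_lit 1748) (nat_lit 3287102585) (nat_lit 1824) (nat_lit 263798667) (nat_lit 394) (nat_lit 5) (nat_lit 417) (nat_lit 5) (nat_lit 418) (nat_lit 5) (nat_lit 369) (nat_lit 354) (nat_lit 177)) (XT.lf (nat_lit 76) (nat_lit 15982451774) (nat_lit 0) (nat_lit 8996012154) (nat_lit 1824)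 (nat_lit 882609129) (nat_lit 395) (nat_lit 5) (nat_lit 394) (nat_lit 5) (nat_lit 418) (nat_lit 5) (nat_lit 370) (nat_lit 354) (nat_lit 176)))))) (XT.nd (nat_lit 45708) (nat_lit 0) (nat_lit 2888) (XT.nd (nat_lit 156) (nat_lit 912) (nat_lit 0) (XT.nd (nat_lit 78) (nat_lit 988) (nat_lit 0) (XT.lf (nat_lit 0) (nat_lit 1971087993) (nat_lit 1824) (nat_lit 16632818809) (nat_lit 76) (nat_lit 7678014945) (nat_lit 371) (nat_lit 5) (nat_lit 395) (nat_lit 5) (nat_lit 372) (nat_lit 5) (nat_lit 371) (nat_lit 354) (nat_lit 175)) (XT.lf (nat_lit 0) (nat_lit 3153517134) (nat_lit 988) (nat_lit 1887033349) (nat_lit 1064) (nat_lit 21671888643) (nat_lit 358) (nat_lit 5) (nat_lit 371) (nat_lit 5) (nat_lit 372) (nat_lit 5) (nat_lit 372) (nat_lit 354) (nat_lit 174))) (XT.nd (nat_lit 78) (nat_lit 912) (nat_lit 0) (XT.lf (nat_lit 0) (nat_lit 8409296888) (nat_lit 1064) (nat_lit 3497987248) (nat_lit 76) (nat_lit 15244446627)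 (nat_lit 358) (nat_lit 5) (nat_lit 372) (nat_lit 5) (nat_lit 359) (nat_lit 5) (nat_lit 373) (nat_lit 354) (nat_lit 173)) (XT.nd (nat_lit 45396) (nat_lit 0) (nat_lit 2888) (XT.lf (nat_lit 0) (nat_lit 12033812078) (nat_lit 988) (nat_lit 10261726820) (nat_lit 76) (nat_lit 5305570783) (nat_lit 346) (nat_lit 5) (nat_lit 359) (nat_lit 5) (nat_lit 347) (nat_lit 5) (nat_lit 374) (nat_lit 354) (nat_lit 172)) (XT.lf (nat_lit 0) (nat_lit 190466164) (nat_lit 0) (nat_lit 190466164) (nat_lit 1748) (nat_lit 10036052708) (nat_lit 384) (nat_lit 5) (nat_lit 384) (nat_lit 3) (nat_lit 407) (nat_lit 3) (nat_lit 355) (nat_lit 355) (nat_lit 190))))) (XT.nd (nat_lit 156) (nat_lit 0) (nat_lit 152) (XT.nd (nat_lit 78) (nat_lit 0) (nat_lit 76) (XT.lf (nat_lit 0) (nat_lit 1088659779) (nat_lit 1748) (nat_lit 5897583133) (nat_lit 1824) (nat_lit 14153817829) (nat_lit 384) (nat_lit 5) (nat_lit 407) (nat_lit 3) (nat_lit 408) (nat_lit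 5) (nat_lit 356) (nat_lit 355) (nat_lit 189)) (XT.lf (nat_lit 0) (nat_lit 1529129925) (nat_lit 1748) (nat_lit 12296236124) (nat_lit 1824) (nat_lit 7627895011) (nat_lit 385) (nat_lit 5) (nat_lit 408) (nat_lit 5) (nat_lit 409) (nat_lit 5) (nat_lit 357) (nat_lit 355) (nat_lit 188))) (XT.nd (nat_lit 78) (nat_lit 0) (nat_lit 0) (XT.lf (nat_lit 0) (nat_lit 2086242660) (nat_lit 1748) (nat_lit 18823533942) (nat_lit 1824) (nat_lit 864016444) (nat_lit 386) (nat_lit 5) (nat_lit 409) (nat_lit 5) (nat_lit 410) (nat_lit 5) (nat_lit 358) (nat_lit 355) (nat_lit 187)) (XT.nd (nat_lit 78) (nat_lit 0) (nat_lit 76) (XT.lf (nat_lit 0) (nat_lit 2828241024) (nat_lit 1748) (nat_lit 3377603546) (nat_lit 1824) (nat_lit 15894737078) (nat_lit 386) (nat_lit 5) (nat_lit 409) (nat_lit 5) (nat_lit 410) (nat_lit 5) (nat_lit 359) (nat_lit 355) (nat_lit 186)) (XT.lf (nat_lit 0) (nat_lit 3725599095) (nat_lit 1748) (nat_lit 9800755107)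 (nat_lit 1824) (nat_lit 8908161696) (nat_lit 387) (nat_lit 5) (nat_lit 410) (nat_lit 5) (nat_lit 411) (nat_lit 5) (nat_lit 360) (nat_lit 355) (nat_lit 185))))))))
noncomputable def xc125 : XT := (XT.nd (nat_lit 46956) (nat_lit 0) (nat_lit 988) (XT.nd (nat_lit 702) (nat_lit 2280) (nat_lit 0) (XT.nd (nat_lit 312) (nat_lit 0) (nat_lit 152) (XT.nd (nat_lit 156) (nat_lit 0) (nat_lit 76) (XT.nd (nat_lit 78) (nat_lit 0) (nat_lit 0) (XT.lf (nat_lit 0) (nat_lit 4759405202) (nat_lit 1748) (nat_lit 16355787118) (nat_lit 1824) (nat_lit 1661089177) (nat_lit 388) (nat_lit 5) (nat_lit 411) (nat_lit 5) (nat_lit 412) (nat_lit 5) (nat_lit 361) (nat_lit 355) (nat_lit 184)) (XT.lf (nat_lit 76) (nat_lit 40354294) (nat_lit 0) (nat_lit 5933955207) (nat_lit 1824) (nat_lit 17150992638) (nat_lit 389) (nat_lit 5) (nat_lit 388) (nat_lit 5) (nat_lit 412) (nat_lit 5) (nat_lit 362) (nat_lit 355) (nat_lit 183))) (XT.nd (nat_lit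 78) (nat_lit 0) (nat_lit 76) (XT.lf (nat_lit 0) (nat_lit 7392939450) (nat_lit 1748) (nat_lit 6398976496) (nat_lit 1824) (nat_lit 9689535528) (nat_lit 389) (nat_lit 5) (nat_lit 412) (nat_lit 5) (nat_lit 413) (nat_lit 5) (nat_lit 363) (nat_lit 355) (nat_lit 182)) (XT.lf (nat_lit 0) (nat_lit 8969938650) (nat_lit 1748) (nat_lit 12972868872) (nat_lit 1824) (nat_lit 1903165100) (nat_lit 390) (nat_lit 5) (nat_lit 413) (nat_lit 5) (nat_lit 414) (nat_lit 5) (nat_lit 364) (nat_lit 355) (nat_lit 181)))) (XT.nd (nat_lit 156) (nat_lit 0) (nat_lit 152) (XT.nd (nat_lit 78) (nat_lit 0) (nat_lit 76) (XT.lf (nat_lit 76) (nat_lit 4491902585) (nat_lit 0) (nat_lit 6260508783) (nat_lit 1824) (nat_lit 13465858203) (nat_lit 391) (nat_lit 5) (nat_lit 390) (nat_lit 5) (nat_lit 414) (nat_lit 5) (nat_lit 365) (nat_lit 355) (nat_lit 180)) (XT.lf (nat_lit 0) (nat_lit 12734375532) (nat_lit 1748) (nat_lit 2011530011) (nat_lit 1824)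 (nat_lit 9852912876) (nat_lit 391) (nat_lit 5) (nat_lit 414) (nat_lit 5) (nat_lit 415) (nat_lit 5) (nat_lit 366) (nat_lit 355) (nat_lit 179))) (XT.nd (nat_lit 78) (nat_lit 0) (nat_lit 0) (XT.lf (nat_lit 0) (nat_lit 14927306181) (nat_lit 1748) (nat_lit 8594370054) (nat_lit 1824) (nat_lit 1466080585) (nat_lit 392) (nat_lit 5) (nat_lit 415) (nat_lit 5) (nat_lit 416) (nat_lit 5) (nat_lit 367) (nat_lit 355) (nat_lit 178)) (XT.nd (nat_lit 78) (nat_lit 0) (nat_lit 76) (XT.lf (nat_lit 76) (nat_lit 10017721457) (nat_lit 0) (nat_lit 7339342765) (nat_lit 1824) (nat_lit 8027881506) (nat_lit 393) (nat_lit 5) (nat_lit 392) (nat_lit 5) (nat_lit 416) (nat_lit 5) (nat_lit 368) (nat_lit 355) (nat_lit 177)) (XT.lf (nat_lit 76) (nat_lit 3492877160) (nat_lit 0) (nat_lit 16502533325) (nat_lit 1824) (nat_lit 5795928963) (nat_lit 394) (nat_lit 5) (nat_lit 393) (nat_lit 5) (nat_lit 417) (nat_lit 5) (nat_lit 369) (nat_lit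 355) (nat_lit 176)))))) (XT.nd (nat_lit 45864) (nat_lit 0) (nat_lit 1976) (XT.nd (nat_lit 156) (nat_lit 2736) (nat_lit 0) (XT.nd (nat_lit 78) (nat_lit 0) (nat_lit 0) (XT.lf (nat_lit 0) (nat_lit 22861168822) (nat_lit 1748) (nat_lit 3133820140) (nat_lit 1824) (nat_lit 211973746) (nat_lit 394) (nat_lit 5) (nat_lit 417) (nat_lit 5) (nat_lit 418) (nat_lit 5) (nat_lit 370) (nat_lit 355) (nat_lit 175)) (XT.lf (nat_lit 76) (nat_lit 16709734145) (nat_lit 0) (nat_lit 9316174612) (nat_lit 1824) (nat_lit 604888612) (nat_lit 395) (nat_lit 5) (nat_lit 394) (nat_lit 5) (nat_lit 418) (nat_lit 5) (nat_lit 371) (nat_lit 355) (nat_lit 174))) (XT.nd (nat_lit 78) (nat_lit 988) (nat_lit 0) (XT.lf (nat_lit 0) (nat_lit 2323001480) (nat_lit 1824) (nat_lit 16877655072) (nat_lit 76) (nat_lit 7863728203) (nat_lit 371) (nat_lit 5) (nat_lit 395) (nat_lit 5) (nat_lit 372) (nat_lit 5) (nat_lit 372) (nat_lit 355) (nat_lit 173)) (XT.nd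 (nat_lit 45552) (nat_lit 0) (nat_lit 1976) (XT.lf (nat_lit 0) (nat_lit 3498147695) (nat_lit 988) (nat_lit 1979495880) (nat_lit 1064) (nat_lit 22030316214) (nat_lit 358) (nat_lit 5) (nat_lit 371) (nat_lit 5) (nat_lit 372) (nat_lit 5) (nat_lit 373) (nat_lit 355) (nat_lit 172)) (XT.lf (nat_lit 0) (nat_lit 306236913) (nat_lit 0) (nat_lit 306236913) (nat_lit 1748) (nat_lit 10112508023) (nat_lit 384) (nat_lit 5) (nat_lit 384) (nat_lit 3) (nat_lit 407) (nat_lit 3) (nat_lit 356) (nat_lit 356) (nat_lit 188))))) (XT.nd (nat_lit 156) (nat_lit 0) (nat_lit 152) (XT.nd (nat_lit 78) (nat_lit 0) (nat_lit 76) (XT.lf (nat_lit 0) (nat_lit 1547336985) (nat_lit 1748) (nat_lit 5850658078) (nat_lit 1824) (nat_lit 14367532654) (nat_lit 384) (nat_lit 5) (nat_lit 407) (nat_lit 3) (nat_lit 408) (nat_lit 5) (nat_lit 357) (nat_lit 356) (nat_lit 187)) (XT.lf (nat_lit 0) (nat_lit 1988777892) (nat_lit 1748) (nat_lit 12435128481)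 (nat_lit 1824) (nat_lit 7664468787) (nat_lit 385) (nat_lit 5) (nat_lit 408) (nat_lit 5) (nat_lit 409) (nat_lit 5) (nat_lit 358) (nat_lit 356) (nat_lit 186))) (XT.nd (nat_lit 78) (nat_lit 0) (nat_lit 0) (XT.lf (nat_lit 0) (nat_lit 2550872654) (nat_lit 1748) (nat_lit 19152561876) (nat_lit 1824) (nat_lit 715329268) (nat_lit 386) (nat_lit 5) (nat_lit 409) (nat_lit 5) (nat_lit 410) (nat_lit 5) (nat_lit 359) (nat_lit 356) (nat_lit 185)) (XT.nd (nat_lit 78) (nat_lit 0) (nat_lit 76) (XT.lf (nat_lit 0) (nat_lit 3303420987) (nat_lit 1748) (nat_lit 3250117979) (nat_lit 1824) (nat_lit 16202057182) (nat_lit 386) (nat_lit 5) (nat_lit 409) (nat_lit 5) (nat_lit 410) (nat_lit 5) (nat_lit 360) (nat_lit 356) (nat_lit 184)) (XT.lf (nat_lit 0) (nat_lit 4216783927) (nat_lit 1748) (nat_lit 9860868765) (nat_lit 1824) (nat_lit 9022119766) (nat_lit 387) (nat_lit 5) (nat_lit 410) (nat_lit 5) (nat_lit 411) (nat_lit 5) (nat_lit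 361) (nat_lit 356) (nat_lit 183))))))) (XT.nd (nat_lit 780) (nat_lit 1292) (nat_lit 0) (XT.nd (nat_lit 390) (nat_lit 0) (nat_lit 228) (XT.nd (nat_lit 156) (nat_lit 0) (nat_lit 76) (XT.nd (nat_lit 78) (nat_lit 0) (nat_lit 0) (XT.lf (nat_lit 0) (nat_lit 5271139973) (nat_lit 1748) (nat_lit 16607857082) (nat_lit 1824) (nat_lit 1573008807) (nat_lit 388) (nat_lit 5) (nat_lit 411) (nat_lit 5) (nat_lit 412) (nat_lit 5) (nat_lit 362) (nat_lit 356) (nat_lit 182)) (XT.lf (nat_lit 76) (nat_lit 276297511) (nat_lit 0) (nat_lit 6236971736) (nat_lit 1824) (nat_lit 17298417708) (nat_lit 389) (nat_lit 5) (nat_lit 388) (nat_lit 5) (nat_lit 412) (nat_lit 5) (nat_lit 363) (nat_lit 356) (nat_lit 181))) (XT.nd (nat_lit 78) (nat_lit 0) (nat_lit 76) (XT.lf (nat_lit 0) (nat_lit 7963192577) (nat_lit 1748) (nat_lit 6355102679) (nat_lit 1824) (nat_lit 9860456057) (nat_lit 389) (nat_lit 5) (nat_lit 412) (nat_lit 5) (nat_lit 413)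 (nat_lit 5) (nat_lit 364) (nat_lit 356) (nat_lit 180)) (XT.nd (nat_lit 78) (nat_lit 0) (nat_lit 0) (XT.lf (nat_lit 0) (nat_lit 9578158754) (nat_lit 1748) (nat_lit 13122372394) (nat_lit 1824) (nat_lit 1853868887) (nat_lit 390) (nat_lit 5) (nat_lit 413) (nat_lit 5) (nat_lit 414) (nat_lit 5) (nat_lit 365) (nat_lit 356) (nat_lit 179)) (XT.lf (nat_lit 76) (nat_lit 4862453642) (nat_lit 0) (nat_lit 6543305604) (nat_lit 1824) (nat_lit 13532278506) (nat_lit 391) (nat_lit 5) (nat_lit 390) (nat_lit 5) (nat_lit 414) (nat_lit 5) (nat_lit 366) (nat_lit 356) (nat_lit 178))))) (XT.nd (nat_lit 156) (nat_lit 0) (nat_lit 76) (XT.nd (nat_lit 78) (nat_lit 0) (nat_lit 76) (XT.lf (nat_lit 0) (nat_lit 13436949375) (nat_lit 1748) (nat_lit 1835768562) (nat_lit 1824) (nat_lit 10057494576) (nat_lit 391) (nat_lit 5) (nat_lit 414) (nat_lit 5) (nat_lit 415) (nat_lit 5) (nat_lit 367) (nat_lit 356) (nat_lit 177)) (XT.lf (nat_lit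 0) (nat_lit 15687317592) (nat_lit 1748) (nat_lit 8612992866) (nat_lit 1824) (nat_lit 1430680264) (nat_lit 392) (nat_lit 5) (nat_lit 415) (nat_lit 5) (nat_lit 416) (nat_lit 5) (nat_lit 368) (nat_lit 356) (nat_lit 176))) (XT.nd (nat_lit 78) (nat_lit 0) (nat_lit 76) (XT.lf (nat_lit 76) (nat_lit 10553580521) (nat_lit 0) (nat_lit 7628822778) (nat_lit 1824) (nat_lit 7957847814) (nat_lit 393) (nat_lit 5) (nat_lit 392) (nat_lit 5) (nat_lit 416) (nat_lit 5) (nat_lit 369) (nat_lit 356) (nat_lit 175)) (XT.nd (nat_lit 78) (nat_lit 0) (nat_lit 76) (XT.lf (nat_lit 76) (nat_lit 3835757329) (nat_lit 0) (nat_lit 17056379013) (nat_lit 1824) (nat_lit 5666859955) (nat_lit 394) (nat_lit 5) (nat_lit 393) (nat_lit 5) (nat_lit 417) (nat_lit 5) (nat_lit 370) (nat_lit 356) (nat_lit 174)) (XT.lf (nat_lit 0) (nat_lit 23834850461) (nat_lit 1748) (nat_lit 2990399055) (nat_lit 1824) (nat_lit 162023334) (nat_lit 394) (nat_lit 5)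 (nat_lit 417) (nat_lit 5) (nat_lit 418) (nat_lit 5) (nat_lit 371) (nat_lit 356) (nat_lit 173)))))) (XT.nd (nat_lit 45942) (nat_lit 0) (nat_lit 1140) (XT.nd (nat_lit 45708) (nat_lit 0) (nat_lit 988) (XT.nd (nat_lit 78) (nat_lit 1748) (nat_lit 0) (XT.lf (nat_lit 76) (nat_lit 17444609747) (nat_lit 0) (nat_lit 9643055545) (nat_lit 1824) (nat_lit 336298734) (nat_lit 395) (nat_lit 5) (nat_lit 394) (nat_lit 5) (nat_lit 418) (nat_lit 5) (nat_lit 372) (nat_lit 356) (nat_lit 172)) (XT.lf (nat_lit 0) (nat_lit 2668665553) (nat_lit 1824) (nat_lit 17144425575) (nat_lit 76) (nat_lit 8057574642) (nat_lit 371) (nat_lit 5) (nat_lit 395) (nat_lit 5) (nat_lit 372) (nat_lit 5) (nat_lit 373) (nat_lit 356) (nat_lit 171))) (XT.nd (nat_lit 78) (nat_lit 0) (nat_lit 0) (XT.lf (nat_lit 0) (nat_lit 419163076) (nat_lit 0) (nat_lit 419163076) (nat_lit 1748) (nat_lit 10204151465) (nat_lit 384) (nat_lit 5) (nat_lit 384) (nat_lit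 3) (nat_lit 407) (nat_lit 3) (nat_lit 357) (nat_lit 357) (nat_lit 186)) (XT.nd (nat_lit 78) (nat_lit 0) (nat_lit 76) (XT.lf (nat_lit 0) (nat_lit 1995319365) (nat_lit 1748) (nat_lit 5815175322) (nat_lit 1824) (nat_lit 14599765431) (nat_lit 384) (nat_lit 5) (nat_lit 407) (nat_lit 3) (nat_lit 408) (nat_lit 5) (nat_lit 358) (nat_lit 357) (nat_lit 185)) (XT.lf (nat_lit 0) (nat_lit 2438462974) (nat_lit 1748) (nat_lit 12591390247) (nat_lit 1824) (nat_lit 7713176463) (nat_lit 385) (nat_lit 5) (nat_lit 408) (nat_lit 5) (nat_lit 409) (nat_lit 5) (nat_lit 359) (nat_lit 357) (nat_lit 184))))) (XT.nd (nat_lit 156) (nat_lit 0) (nat_lit 76) (XT.nd (nat_lit 78) (nat_lit 0) (nat_lit 0) (XT.lf (nat_lit 0) (nat_lit 3006362651) (nat_lit 1748) (nat_lit 19504989534) (nat_lit 1824) (nat_lit 572204671) (nat_lit 386) (nat_lit 5) (nat_lit 409) (nat_lit 5) (nat_lit 410) (nat_lit 5) (nat_lit 360) (nat_lit 357) (nat_lit 183))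 (XT.lf (nat_lit 0) (nat_lit 3770449653) (nat_lit 1748) (nat_lit 3131942685) (nat_lit 1824) (nat_lit 16528328145) (nat_lit 386) (nat_lit 5) (nat_lit 409) (nat_lit 5) (nat_lit 410) (nat_lit 5) (nat_lit 361) (nat_lit 357) (nat_lit 182))) (XT.nd (nat_lit 78) (nat_lit 0) (nat_lit 76) (XT.lf (nat_lit 0) (nat_lit 4700924225) (nat_lit 1748) (nat_lit 9936213166) (nat_lit 1824) (nat_lit 9148295867) (nat_lit 387) (nat_lit 5) (nat_lit 410) (nat_lit 5) (nat_lit 411) (nat_lit 5) (nat_lit 362) (nat_lit 357) (nat_lit 181)) (XT.nd (nat_lit 78) (nat_lit 0) (nat_lit 0) (XT.lf (nat_lit 0) (nat_lit 5777047397) (nat_lit 1748) (nat_lit 16881185971) (nat_lit 1824) (nat_lit 1490202798) (nat_lit 388) (nat_lit 5) (nat_lit 411) (nat_lit 5) (nat_lit 412) (nat_lit 5) (nat_lit 363) (nat_lit 357) (nat_lit 180)) (XT.lf (nat_lit 76) (nat_lit 505844414) (nat_lit 0) (nat_lit 6541903371) (nat_lit 1824) (nat_lit 17471338842) (nat_lit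 389) (nat_lit 5) (nat_lit 388) (nat_lit 5) (nat_lit 412) (nat_lit 5) (nat_lit 364) (nat_lit 357) (nat_lit 179))))))))
noncomputable def xc126 : XT := (XT.nd (nat_lit 47190) (nat_lit 0) (nat_lit 0) (XT.nd (nat_lit 46410) (nat_lit 0) (nat_lit 0) (XT.nd (nat_lit 312) (nat_lit 380) (nat_lit 0) (XT.nd (nat_lit 156) (nat_lit 0) (nat_lit 76) (XT.nd (nat_lit 78) (nat_lit 0) (nat_lit 76) (XT.lf (nat_lit 0) (nat_lit 8530549984) (nat_lit 1748) (nat_lit 6323451007) (nat_lit 1824) (nat_lit 10043379234) (nat_lit 389) (nat_lit 5) (nat_lit 412) (nat_lit 5) (nat_lit 413) (nat_lit 5) (nat_lit 365) (nat_lit 357) (nat_lit 178)) (XT.lf (nat_lit 0) (nat_lit 10185158475) (nat_lit 1748) (nat_lit 13290119780) (nat_lit 1824) (nat_lit 1809201076) (nat_lit 390) (nat_lit 5) (nat_lit 413) (nat_lit 5) (nat_lit 414) (nat_lit 5) (nat_lit 366) (nat_lit 357) (nat_lit 177))) (XT.nd (nat_lit 78) (nat_lit 0) (nat_lit 76) (XT.lf (nat_lit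 76) (nat_lit 5230585692) (nat_lit 0) (nat_lit 6829134000) (nat_lit 1824) (nat_lit 13620068481) (nat_lit 391) (nat_lit 5) (nat_lit 390) (nat_lit 5) (nat_lit 414) (nat_lit 5) (nat_lit 367) (nat_lit 357) (nat_lit 176)) (XT.lf (nat_lit 0) (nat_lit 14142199978) (nat_lit 1748) (nat_lit 1668287798) (nat_lit 1824) (nat_lit 10273437825) (nat_lit 391) (nat_lit 5) (nat_lit 414) (nat_lit 5) (nat_lit 415) (nat_lit 5) (nat_lit 368) (nat_lit 357) (nat_lit 175)))) (XT.nd (nat_lit 156) (nat_lit 608) (nat_lit 0) (XT.nd (nat_lit 78) (nat_lit 0) (nat_lit 0) (XT.lf (nat_lit 0) (nat_lit 16452208234) (nat_lit 1748) (nat_lit 8645905896) (nat_lit 1824) (nat_lit 1398774828) (nat_lit 392) (nat_lit 5) (nat_lit 415) (nat_lit 5) (nat_lit 416) (nat_lit 5) (nat_lit 369) (nat_lit 357) (nat_lit 174)) (XT.lf (nat_lit 76) (nat_lit 11092006599) (nat_lit 0) (nat_lit 7923009104) (nat_lit 1824) (nat_lit 7903558328) (nat_lit 393) (nat_lit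 5) (nat_lit 392) (nat_lit 5) (nat_lit 416) (nat_lit 5) (nat_lit 370) (nat_lit 357) (nat_lit 173))) (XT.nd (nat_lit 78) (nat_lit 684) (nat_lit 0) (XT.lf (nat_lit 76) (nat_lit 4175256342) (nat_lit 0) (nat_lit 17623466451) (nat_lit 1824) (nat_lit 5551309267) (nat_lit 394) (nat_lit 5) (nat_lit 393) (nat_lit 5) (nat_lit 417) (nat_lit 5) (nat_lit 371) (nat_lit 357) (nat_lit 172)) (XT.nd (nat_lit 45786) (nat_lit 760) (nat_lit 0) (XT.lf (nat_lit 0) (nat_lit 24821218977) (nat_lit 1748) (nat_lit 2856305117) (nat_lit 1824) (nat_lit 113806812) (nat_lit 394) (nat_lit 5) (nat_lit 417) (nat_lit 5) (nat_lit 418) (nat_lit 5) (nat_lit 372) (nat_lit 357) (nat_lit 171)) (XT.lf (nat_lit 0) (nat_lit 529521978) (nat_lit 0) (nat_lit 529521978) (nat_lit 1748) (nat_lit 10310698481) (nat_lit 384) (nat_lit 5) (nat_lit 384) (nat_lit 3) (nat_lit 407) (nat_lit 3) (nat_lit 358) (nat_lit 358) (nat_lit 184)))))) (XT.nd (nat_lit 390)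 (nat_lit 0) (nat_lit 304) (XT.nd (nat_lit 156) (nat_lit 0) (nat_lit 152) (XT.nd (nat_lit 78) (nat_lit 0) (nat_lit 76) (XT.lf (nat_lit 0) (nat_lit 2433689899) (nat_lit 1748) (nat_lit 5790740491) (nat_lit 1824) (nat_lit 14850376734) (nat_lit 384) (nat_lit 5) (nat_lit 407) (nat_lit 3) (nat_lit 408) (nat_lit 5) (nat_lit 359) (nat_lit 358) (nat_lit 183)) (XT.lf (nat_lit 0) (nat_lit 2879249764) (nat_lit 1748) (nat_lit 12764784619) (nat_lit 1824) (nat_lit 7773748505) (nat_lit 385) (nat_lit 5) (nat_lit 408) (nat_lit 5) (nat_lit 409) (nat_lit 5) (nat_lit 360) (nat_lit 358) (nat_lit 182))) (XT.nd (nat_lit 78) (nat_lit 0) (nat_lit 0) (XT.lf (nat_lit 0) (nat_lit 3453763275) (nat_lit 1748) (nat_lit 19880742295) (nat_lit 1824) (nat_lit 434234158) (nat_lit 386) (nat_lit 5) (nat_lit 409) (nat_lit 5) (nat_lit 410) (nat_lit 5) (nat_lit 361) (nat_lit 358) (nat_lit 181)) (XT.nd (nat_lit 78) (nat_lit 0) (nat_lit 76) (XT.lf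 (nat_lit 0) (nat_lit 4230368719) (nat_lit 1748) (nat_lit 3022602980) (nat_lit 1824) (nat_lit 16873559880) (nat_lit 386) (nat_lit 5) (nat_lit 409) (nat_lit 5) (nat_lit 410) (nat_lit 5) (nat_lit 362) (nat_lit 358) (nat_lit 180)) (XT.lf (nat_lit 0) (nat_lit 5179058918) (nat_lit 1748) (nat_lit 10026474449) (nat_lit 1824) (nat_lit 9286551423) (nat_lit 387) (nat_lit 5) (nat_lit 410) (nat_lit 5) (nat_lit 411) (nat_lit 5) (nat_lit 363) (nat_lit 358) (nat_lit 179))))) (XT.nd (nat_lit 156) (nat_lit 0) (nat_lit 76) (XT.nd (nat_lit 78) (nat_lit 0) (nat_lit 0) (XT.lf (nat_lit 0) (nat_lit 6278168437) (nat_lit 1748) (nat_lit 17175625298) (nat_lit 1824) (nat_lit 1412374928) (nat_lit 388) (nat_lit 5) (nat_lit 411) (nat_lit 5) (nat_lit 412) (nat_lit 5) (nat_lit 364) (nat_lit 358) (nat_lit 178)) (XT.lf (nat_lit 76) (nat_lit 729576611) (nat_lit 0) (nat_lit 6849219463) (nat_lit 1824) (nat_lit 17669311227) (nat_lit 389)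 (nat_lit 5) (nat_lit 388) (nat_lit 5) (nat_lit 412) (nat_lit 5) (nat_lit 365) (nat_lit 358) (nat_lit 177))) (XT.nd (nat_lit 78) (nat_lit 0) (nat_lit 76) (XT.lf (nat_lit 0) (nat_lit 9096073073) (nat_lit 1748) (nat_lit 6303610986) (nat_lit 1824) (nat_lit 10238270482) (nat_lit 389) (nat_lit 5) (nat_lit 412) (nat_lit 5) (nat_lit 413) (nat_lit 5) (nat_lit 366) (nat_lit 358) (nat_lit 176)) (XT.nd (nat_lit 78) (nat_lit 0) (nat_lit 0) (XT.lf (nat_lit 0) (nat_lit 10792018684) (nat_lit 1748) (nat_lit 13475868537) (nat_lit 1824) (nat_lit 1768949935) (nat_lit 390) (nat_lit 5) (nat_lit 413) (nat_lit 5) (nat_lit 414) (nat_lit 5) (nat_lit 367) (nat_lit 358) (nat_lit 175)) (XT.lf (nat_lit 76) (nat_lit 5597003160) (nat_lit 0) (nat_lit 7118397904) (nat_lit 1824) (nat_lit 13728756896) (nat_lit 391) (nat_lit 5) (nat_lit 390) (nat_lit 5) (nat_lit 414) (nat_lit 5) (nat_lit 368) (nat_lit 358) (nat_lit 174))))))) (XT.nd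 (nat_lit 46566) (nat_lit 0) (nat_lit 0) (XT.nd (nat_lit 46176) (nat_lit 0) (nat_lit 0) (XT.nd (nat_lit 156) (nat_lit 532) (nat_lit 0) (XT.nd (nat_lit 78) (nat_lit 0) (nat_lit 76) (XT.lf (nat_lit 0) (nat_lit 14851263905) (nat_lit 1748) (nat_lit 1508558111) (nat_lit 1824) (nat_lit 10500783586) (nat_lit 391) (nat_lit 5) (nat_lit 414) (nat_lit 5) (nat_lit 415) (nat_lit 5) (nat_lit 369) (nat_lit 358) (nat_lit 173)) (XT.lf (nat_lit 0) (nat_lit 17223153230) (nat_lit 1748) (nat_lit 8692749606) (nat_lit 1824) (nat_lit 1370207538) (nat_lit 392) (nat_lit 5) (nat_lit 415) (nat_lit 5) (nat_lit 416) (nat_lit 5) (nat_lit 370) (nat_lit 358) (nat_lit 172))) (XT.nd (nat_lit 78) (nat_lit 608) (nat_lit 0) (XT.lf (nat_lit 76) (nat_lit 11633852162) (nat_lit 0) (nat_lit 8222271289) (nat_lit 1824) (nat_lit 7864460987) (nat_lit 393) (nat_lit 5) (nat_lit 392) (nat_lit 5) (nat_lit 416) (nat_lit 5) (nat_lit 371) (nat_lit 358)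 (nat_lit 171)) (XT.nd (nat_lit 45864) (nat_lit 684) (nat_lit 0) (XT.lf (nat_lit 76) (nat_lit 4512057338) (nat_lit 0) (nat_lit 18204386552) (nat_lit 1824) (nat_lit 5448684170) (nat_lit 394) (nat_lit 5) (nat_lit 393) (nat_lit 5) (nat_lit 417) (nat_lit 5) (nat_lit 372) (nat_lit 358) (nat_lit 170)) (XT.lf (nat_lit 0) (nat_lit 637578445) (nat_lit 0) (nat_lit 637578445) (nat_lit 1748) (nat_lit 10431898474) (nat_lit 384) (nat_lit 5) (nat_lit 384) (nat_lit 3) (nat_lit 407) (nat_lit 3) (nat_lit 359) (nat_lit 359) (nat_lit 182))))) (XT.nd (nat_lit 156) (nat_lit 0) (nat_lit 152) (XT.nd (nat_lit 78) (nat_lit 0) (nat_lit 76) (XT.lf (nat_lit 0) (nat_lit 2863483472) (nat_lit 1748) (nat_lit 5776989719) (nat_lit 1824) (nat_lit 15119262850) (nat_lit 384) (nat_lit 5) (nat_lit 407) (nat_lit 3) (nat_lit 408) (nat_lit 5) (nat_lit 360) (nat_lit 359) (nat_lit 181)) (XT.lf (nat_lit 0) (nat_lit 3312156526) (nat_lit 1748) (nat_lit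 12955111195) (nat_lit 1824) (nat_lit 7845943662) (nat_lit 385) (nat_lit 5) (nat_lit 408) (nat_lit 5) (nat_lit 409) (nat_lit 5) (nat_lit 361) (nat_lit 359) (nat_lit 180))) (XT.nd (nat_lit 78) (nat_lit 0) (nat_lit 0) (XT.lf (nat_lit 0) (nat_lit 3894080617) (nat_lit 1748) (nat_lit 20279787878) (nat_lit 1824) (nat_lit 301030009) (nat_lit 386) (nat_lit 5) (nat_lit 409) (nat_lit 5) (nat_lit 410) (nat_lit 5) (nat_lit 362) (nat_lit 359) (nat_lit 179)) (XT.nd (nat_lit 78) (nat_lit 0) (nat_lit 76) (XT.lf (nat_lit 0) (nat_lit 4684177299) (nat_lit 1748) (nat_lit 2921653219) (nat_lit 1824) (nat_lit 17237794662) (nat_lit 386) (nat_lit 5) (nat_lit 409) (nat_lit 5) (nat_lit 410) (nat_lit 5) (nat_lit 363) (nat_lit 359) (nat_lit 178)) (XT.lf (nat_lit 0) (nat_lit 5652186332) (nat_lit 1748) (nat_lit 10131373581) (nat_lit 1824) (nat_lit 9436772700) (nat_lit 387) (nat_lit 5) (nat_lit 410) (nat_lit 5) (nat_lit 411) (nat_lit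 5) (nat_lit 364) (nat_lit 359) (nat_lit 177)))))) (XT.nd (nat_lit 390) (nat_lit 304) (nat_lit 0) (XT.nd (nat_lit 156) (nat_lit 0) (nat_lit 76) (XT.nd (nat_lit 78) (nat_lit 0) (nat_lit 0) (XT.lf (nat_lit 0) (nat_lit 6775505496) (nat_lit 1748) (nat_lit 17491067258) (nat_lit 1824) (nat_lit 1339246171) (nat_lit 388) (nat_lit 5) (nat_lit 411) (nat_lit 5) (nat_lit 412) (nat_lit 5) (nat_lit 365) (nat_lit 359) (nat_lit 176)) (XT.lf (nat_lit 76) (nat_lit 948048757) (nat_lit 0) (nat_lit 7159379798) (nat_lit 1824) (nat_lit 17891946150) (nat_lit 389) (nat_lit 5) (nat_lit 388) (nat_lit 5) (nat_lit 412) (nat_lit 5) (nat_lit 366) (nat_lit 359) (nat_lit 175))) (XT.nd (nat_lit 78) (nat_lit 0) (nat_lit 76) (XT.lf (nat_lit 0) (nat_lit 9660789170) (nat_lit 1748) (nat_lit 6295204422) (nat_lit 1824) (nat_lit 10445116845) (nat_lit 389) (nat_lit 5) (nat_lit 412) (nat_lit 5) (nat_lit 413) (nat_lit 5) (nat_lit 367) (nat_lit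 359) (nat_lit 174)) (XT.nd (nat_lit 78) (nat_lit 0) (nat_lit 0) (XT.lf (nat_lit 0) (nat_lit 11399788535) (nat_lit 1748) (nat_lit 13679414236) (nat_lit 1824) (nat_lit 1732917507) (nat_lit 390) (nat_lit 5) (nat_lit 413) (nat_lit 5) (nat_lit 414) (nat_lit 5) (nat_lit 368) (nat_lit 359) (nat_lit 173)) (XT.lf (nat_lit 76) (nat_lit 5962387001) (nat_lit 0) (nat_lit 7411495400) (nat_lit 1824) (nat_lit 13857922234) (nat_lit 391) (nat_lit 5) (nat_lit 390) (nat_lit 5) (nat_lit 414) (nat_lit 5) (nat_lit 369) (nat_lit 359) (nat_lit 172))))) (XT.nd (nat_lit 46098) (nat_lit 532) (nat_lit 0) (XT.nd (nat_lit 78) (nat_lit 0) (nat_lit 76) (XT.lf (nat_lit 0) (nat_lit 15565251184) (nat_lit 1748) (nat_lit 1356078668) (nat_lit 1824) (nat_lit 10739591264) (nat_lit 391) (nat_lit 5) (nat_lit 414) (nat_lit 5) (nat_lit 415) (nat_lit 5) (nat_lit 370) (nat_lit 359) (nat_lit 171)) (XT.lf (nat_lit 0) (nat_lit 18001303900) (nat_lit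 1748) (nat_lit 8753198917) (nat_lit 1824) (nat_lit 1344831971) (nat_lit 392) (nat_lit 5) (nat_lit 415) (nat_lit 5) (nat_lit 416) (nat_lit 5) (nat_lit 371) (nat_lit 359) (nat_lit 170))) (XT.nd (nat_lit 78) (nat_lit 0) (nat_lit 0) (XT.lf (nat_lit 0) (nat_lit 743585625) (nat_lit 0) (nat_lit 743585625) (nat_lit 1748) (nat_lit 10567533379) (nat_lit 384) (nat_lit 5) (nat_lit 384) (nat_lit 3) (nat_lit 407) (nat_lit 3) (nat_lit 360) (nat_lit 360) (nat_lit 180)) (XT.nd (nat_lit 78) (nat_lit 0) (nat_lit 76) (XT.lf (nat_lit 0) (nat_lit 3285690055) (nat_lit 1748) (nat_lit 5773588141) (nat_lit 1824) (nat_lit 15406354558) (nat_lit 384) (nat_lit 5) (nat_lit 407) (nat_lit 3) (nat_lit 408) (nat_lit 5) (nat_lit 361) (nat_lit 360) (nat_lit 179)) (XT.lf (nat_lit 0) (nat_lit 3738158293) (nat_lit 1748) (nat_lit 13162204570) (nat_lit 1824) (nat_lit 7929547725) (nat_lit 385) (nat_lit 5) (nat_lit 408) (nat_lit 5) (nat_lit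 409) (nat_lit 5) (nat_lit 362) (nat_lit 360) (nat_lit 178))))))))
noncomputable def xc127 : XT := (XT.nd (nat_lit 93756) (nat_lit 0) (nat_lit 0) (XT.nd (nat_lit 46800) (nat_lit 0) (nat_lit 0) (XT.nd (nat_lit 390) (nat_lit 152) (nat_lit 0) (XT.nd (nat_lit 156) (nat_lit 0) (nat_lit 76) (XT.nd (nat_lit 78) (nat_lit 0) (nat_lit 0) (XT.lf (nat_lit 0) (nat_lit 4328279266) (nat_lit 1748) (nat_lit 20702135059) (nat_lit 1824) (nat_lit 172224003) (nat_lit 386) (nat_lit 5) (nat_lit 409) (nat_lit 5) (nat_lit 410) (nat_lit 5) (nat_lit 363) (nat_lit 360) (nat_lit 177)) (XT.lf (nat_lit 0) (nat_lit 5132834881) (nat_lit 1748) (nat_lit 2828675189) (nat_lit 1824) (nat_lit 17621106263) (nat_lit 386) (nat_lit 5) (nat_lit 409) (nat_lit 5) (nat_lit 410) (nat_lit 5) (nat_lit 364) (nat_lit 360) (nat_lit 176))) (XT.nd (nat_lit 78) (nat_lit 0) (nat_lit 76) (XT.lf (nat_lit 0) (nat_lit 6121267095) (nat_lit 1748) (nat_lit 10250664868)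 (nat_lit 1824) (nat_lit 9598869881) (nat_lit 387) (nat_lit 5) (nat_lit 410) (nat_lit 5) (nat_lit 411) (nat_lit 5) (nat_lit 365) (nat_lit 360) (nat_lit 175)) (XT.nd (nat_lit 78) (nat_lit 0) (nat_lit 0) (XT.lf (nat_lit 0) (nat_lit 7270025262) (nat_lit 1748) (nat_lit 17827443352) (nat_lit 1824) (nat_lit 1270553725) (nat_lit 388) (nat_lit 5) (nat_lit 411) (nat_lit 5) (nat_lit 412) (nat_lit 5) (nat_lit 366) (nat_lit 360) (nat_lit 174)) (XT.lf (nat_lit 76) (nat_lit 1161790292) (nat_lit 0) (nat_lit 7472835667) (nat_lit 1824) (nat_lit 18138908687) (nat_lit 389) (nat_lit 5) (nat_lit 388) (nat_lit 5) (nat_lit 412) (nat_lit 5) (nat_lit 367) (nat_lit 360) (nat_lit 173))))) (XT.nd (nat_lit 156) (nat_lit 380) (nat_lit 0) (XT.nd (nat_lit 78) (nat_lit 0) (nat_lit 76) (XT.lf (nat_lit 0) (nat_lit 10225694289) (nat_lit 1748) (nat_lit 6297883825) (nat_lit 1824) (nat_lit 10663926329) (nat_lit 389) (nat_lit 5) (nat_lit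 412) (nat_lit 5) (nat_lit 413) (nat_lit 5) (nat_lit 368) (nat_lit 360) (nat_lit 172)) (XT.lf (nat_lit 0) (nat_lit 12009488185) (nat_lit 1748) (nat_lit 13900589049) (nat_lit 1824) (nat_lit 1700918863) (nat_lit 390) (nat_lit 5) (nat_lit 413) (nat_lit 5) (nat_lit 414) (nat_lit 5) (nat_lit 369) (nat_lit 360) (nat_lit 171))) (XT.nd (nat_lit 78) (nat_lit 456) (nat_lit 0) (XT.lf (nat_lit 76) (nat_lit 6327396556) (nat_lit 0) (nat_lit 7708819581) (nat_lit 1824) (nat_lit 14007190517) (nat_lit 391) (nat_lit 5) (nat_lit 390) (nat_lit 5) (nat_lit 414) (nat_lit 5) (nat_lit 370) (nat_lit 360) (nat_lit 170)) (XT.nd (nat_lit 46098) (nat_lit 532) (nat_lit 0) (XT.lf (nat_lit 0) (nat_lit 16285247989) (nat_lit 1748) (nat_lit 1210375706) (nat_lit 1824) (nat_lit 10989938272) (nat_lit 391) (nat_lit 5) (nat_lit 414) (nat_lit 5) (nat_lit 415) (nat_lit 5) (nat_lit 371) (nat_lit 360) (nat_lit 169)) (XT.lf (nat_lit 0) (nat_lit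 847785762) (nat_lit 0) (nat_lit 847785762) (nat_lit 1748) (nat_lit 10717416343) (nat_lit 384) (nat_lit 5) (nat_lit 384) (nat_lit 3) (nat_lit 407) (nat_lit 3) (nat_lit 361) (nat_lit 361) (nat_lit 178)))))) (XT.nd (nat_lit 390) (nat_lit 0) (nat_lit 0) (XT.nd (nat_lit 156) (nat_lit 0) (nat_lit 152) (XT.nd (nat_lit 78) (nat_lit 0) (nat_lit 76) (XT.lf (nat_lit 0) (nat_lit 3701257721) (nat_lit 1748) (nat_lit 5780228465) (nat_lit 1824) (nat_lit 15711616004) (nat_lit 384) (nat_lit 5) (nat_lit 407) (nat_lit 3) (nat_lit 408) (nat_lit 5) (nat_lit 362) (nat_lit 361) (nat_lit 177)) (XT.lf (nat_lit 0) (nat_lit 4158189809) (nat_lit 1748) (nat_lit 13385933030) (nat_lit 1824) (nat_lit 8024372373) (nat_lit 385) (nat_lit 5) (nat_lit 408) (nat_lit 5) (nat_lit 409) (nat_lit 5) (nat_lit 363) (nat_lit 361) (nat_lit 176))) (XT.nd (nat_lit 78) (nat_lit 0) (nat_lit 0) (XT.lf (nat_lit 0) (nat_lit 4757285182) (nat_lit 1748)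 (nat_lit 21147832482) (nat_lit 1824) (nat_lit 47466218) (nat_lit 386) (nat_lit 5) (nat_lit 409) (nat_lit 5) (nat_lit 410) (nat_lit 5) (nat_lit 364) (nat_lit 361) (nat_lit 175)) (XT.nd (nat_lit 78) (nat_lit 0) (nat_lit 76) (XT.lf (nat_lit 0) (nat_lit 5577264139) (nat_lit 1748) (nat_lit 2743276582) (nat_lit 1824) (nat_lit 18023599155) (nat_lit 386) (nat_lit 5) (nat_lit 409) (nat_lit 5) (nat_lit 410) (nat_lit 5) (nat_lit 365) (nat_lit 361) (nat_lit 174)) (XT.lf (nat_lit 0) (nat_lit 6587226885) (nat_lit 1748) (nat_lit 10384134554) (nat_lit 1824) (nat_lit 9772776216) (nat_lit 387) (nat_lit 5) (nat_lit 410) (nat_lit 5) (nat_lit 411) (nat_lit 5) (nat_lit 366) (nat_lit 361) (nat_lit 173))))) (XT.nd (nat_lit 156) (nat_lit 304) (nat_lit 0) (XT.nd (nat_lit 78) (nat_lit 0) (nat_lit 0) (XT.lf (nat_lit 0) (nat_lit 7762661415) (nat_lit 1748) (nat_lit 18184723129) (nat_lit 1824) (nat_lit 1206050079) (nat_lit 388)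 (nat_lit 5) (nat_lit 411) (nat_lit 5) (nat_lit 412) (nat_lit 5) (nat_lit 367) (nat_lit 361) (nat_lit 172)) (XT.lf (nat_lit 76) (nat_lit 1371307091) (nat_lit 0) (nat_lit 7790030893) (nat_lit 1824) (nat_lit 18409915567) (nat_lit 389) (nat_lit 5) (nat_lit 388) (nat_lit 5) (nat_lit 412) (nat_lit 5) (nat_lit 368) (nat_lit 361) (nat_lit 171))) (XT.nd (nat_lit 78) (nat_lit 380) (nat_lit 0) (XT.lf (nat_lit 0) (nat_lit 10791755762) (nat_lit 1748) (nat_lit 6311330915) (nat_lit 1824) (nat_lit 10894727312) (nat_lit 389) (nat_lit 5) (nat_lit 412) (nat_lit 5) (nat_lit 413) (nat_lit 5) (nat_lit 369) (nat_lit 361) (nat_lit 170)) (XT.nd (nat_lit 46254) (nat_lit 456) (nat_lit 0) (XT.lf (nat_lit 0) (nat_lit 12622111406) (nat_lit 1748) (nat_lit 14139260398) (nat_lit 1824) (nat_lit 1672781410) (nat_lit 390) (nat_lit 5) (nat_lit 413) (nat_lit 5) (nat_lit 414) (nat_lit 5) (nat_lit 370) (nat_lit 361) (nat_lit 169)) (XT.lf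 (nat_lit 0) (nat_lit 950410935) (nat_lit 0) (nat_lit 950410935) (nat_lit 1748) (nat_lit 10881390489) (nat_lit 384) (nat_lit 5) (nat_lit 384) (nat_lit 3) (nat_lit 407) (nat_lit 3) (nat_lit 362) (nat_lit 362) (nat_lit 176))))))) (XT.nd (nat_lit 47112) (nat_lit 0) (nat_lit 0) (XT.nd (nat_lit 390) (nat_lit 0) (nat_lit 0) (XT.nd (nat_lit 156) (nat_lit 0) (nat_lit 76) (XT.nd (nat_lit 78) (nat_lit 0) (nat_lit 76) (XT.lf (nat_lit 0) (nat_lit 4111095494) (nat_lit 1748) (nat_lit 5796629645) (nat_lit 1824) (nat_lit 16035043672) (nat_lit 384) (nat_lit 5) (nat_lit 407) (nat_lit 3) (nat_lit 408) (nat_lit 5) (nat_lit 363) (nat_lit 362) (nat_lit 175)) (XT.lf (nat_lit 0) (nat_lit 4573148310) (nat_lit 1748) (nat_lit 13626197347) (nat_lit 1824) (nat_lit 8130254092) (nat_lit 385) (nat_lit 5) (nat_lit 408) (nat_lit 5) (nat_lit 409) (nat_lit 5) (nat_lit 364) (nat_lit 362) (nat_lit 174))) (XT.nd (nat_lit 78) (nat_lit 0)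 (nat_lit 76) (XT.lf (nat_lit 76) (nat_lit 5107918573) (nat_lit 0) (nat_lit 74553888) (nat_lit 1824) (nat_lit 21542897755) (nat_lit 386) (nat_lit 5) (nat_lit 385) (nat_lit 5) (nat_lit 409) (nat_lit 5) (nat_lit 365) (nat_lit 362) (nat_lit 173)) (XT.nd (nat_lit 78) (nat_lit 0) (nat_lit 76) (XT.lf (nat_lit 0) (nat_lit 6018353588) (nat_lit 1748) (nat_lit 2665089572) (nat_lit 1824) (nat_lit 18445407803) (nat_lit 386) (nat_lit 5) (nat_lit 409) (nat_lit 5) (nat_lit 410) (nat_lit 5) (nat_lit 366) (nat_lit 362) (nat_lit 172)) (XT.lf (nat_lit 0) (nat_lit 7050959043) (nat_lit 1748) (nat_lit 10531599528) (nat_lit 1824) (nat_lit 9958447239) (nat_lit 387) (nat_lit 5) (nat_lit 410) (nat_lit 5) (nat_lit 411) (nat_lit 5) (nat_lit 367) (nat_lit 362) (nat_lit 171))))) (XT.nd (nat_lit 46488) (nat_lit 304) (nat_lit 0) (XT.nd (nat_lit 78) (nat_lit 0) (nat_lit 0) (XT.lf (nat_lit 0) (nat_lit 8254317197) (nat_lit 1748) (nat_lit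 18562913024) (nat_lit 1824) (nat_lit 1145502146) (nat_lit 388) (nat_lit 5) (nat_lit 411) (nat_lit 5) (nat_lit 412) (nat_lit 5) (nat_lit 368) (nat_lit 362) (nat_lit 170)) (XT.lf (nat_lit 76) (nat_lit 1577083019) (nat_lit 0) (nat_lit 8111402813) (nat_lit 1824) (nat_lit 18704733177) (nat_lit 389) (nat_lit 5) (nat_lit 388) (nat_lit 5) (nat_lit 412) (nat_lit 5) (nat_lit 369) (nat_lit 362) (nat_lit 169))) (XT.nd (nat_lit 78) (nat_lit 0) (nat_lit 0) (XT.lf (nat_lit 0) (nat_lit 1051683750) (nat_lit 0) (nat_lit 1051683750) (nat_lit 1748) (nat_lit 11059327780) (nat_lit 384) (nat_lit 5) (nat_lit 384) (nat_lit 3) (nat_lit 407) (nat_lit 3) (nat_lit 363) (nat_lit 363) (nat_lit 174)) (XT.nd (nat_lit 78) (nat_lit 0) (nat_lit 76) (XT.lf (nat_lit 0) (nat_lit 4516076056) (nat_lit 1748) (nat_lit 5822535627) (nat_lit 1824) (nat_lit 16376665429) (nat_lit 384) (nat_lit 5) (nat_lit 407) (nat_lit 3) (nat_lit 408) (nat_lit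 5) (nat_lit 364) (nat_lit 363) (nat_lit 173)) (XT.lf (nat_lit 0) (nat_lit 4983896164) (nat_lit 1748) (nat_lit 13882929659) (nat_lit 1824) (nat_lit 8247053173) (nat_lit 385) (nat_lit 5) (nat_lit 408) (nat_lit 5) (nat_lit 409) (nat_lit 5) (nat_lit 365) (nat_lit 363) (nat_lit 172)))))) (XT.nd (nat_lit 46878) (nat_lit 0) (nat_lit 0) (XT.nd (nat_lit 156) (nat_lit 76) (nat_lit 0) (XT.nd (nat_lit 78) (nat_lit 0) (nat_lit 76) (XT.lf (nat_lit 76) (nat_lit 5410742850) (nat_lit 0) (nat_lit 193760831) (nat_lit 1824) (nat_lit 21917162833) (nat_lit 386) (nat_lit 5) (nat_lit 385) (nat_lit 5) (nat_lit 409) (nat_lit 5) (nat_lit 366) (nat_lit 363) (nat_lit 171)) (XT.lf (nat_lit 0) (nat_lit 6456960115) (nat_lit 1748) (nat_lit 2593769465) (nat_lit 1824) (nat_lit 18886696019) (nat_lit 386) (nat_lit 5) (nat_lit 409) (nat_lit 5) (nat_lit 410) (nat_lit 5) (nat_lit 367) (nat_lit 363) (nat_lit 170))) (XT.nd (nat_lit 46566)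 (nat_lit 228) (nat_lit 0) (XT.lf (nat_lit 0) (nat_lit 7513327056) (nat_lit 1748) (nat_lit 10692906112) (nat_lit 1824) (nat_lit 10155860036) (nat_lit 387) (nat_lit 5) (nat_lit 410) (nat_lit 5) (nat_lit 411) (nat_lit 5) (nat_lit 368) (nat_lit 363) (nat_lit 169)) (XT.nd (nat_lit 78) (nat_lit 0) (nat_lit 0) (XT.lf (nat_lit 0) (nat_lit 1151818000) (nat_lit 0) (nat_lit 1151818000) (nat_lit 1748) (nat_lit 11251127951) (nat_lit 384) (nat_lit 5) (nat_lit 384) (nat_lit 3) (nat_lit 407) (nat_lit 3) (nat_lit 364) (nat_lit 364) (nat_lit 172)) (XT.lf (nat_lit 0) (nat_lit 4917038305) (nat_lit 1748) (nat_lit 5857714188) (nat_lit 1824) (nat_lit 16736539666) (nat_lit 384) (nat_lit 5) (nat_lit 407) (nat_lit 3) (nat_lit 408) (nat_lit 5) (nat_lit 365) (nat_lit 364) (nat_lit 171))))) (XT.nd (nat_lit 156) (nat_lit 76) (nat_lit 0) (XT.nd (nat_lit 78) (nat_lit 0) (nat_lit 0) (XT.lf (nat_lit 0) (nat_lit 5391263369) (nat_lit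 1748) (nat_lit 14156092439) (nat_lit 1824) (nat_lit 8374652776) (nat_lit 385) (nat_lit 5) (nat_lit 408) (nat_lit 5) (nat_lit 409) (nat_lit 5) (nat_lit 366) (nat_lit 364) (nat_lit 170)) (XT.lf (nat_lit 76) (nat_lit 5714064966) (nat_lit 0) (nat_lit 309829406) (nat_lit 1824) (nat_lit 22318271030) (nat_lit 386) (nat_lit 5) (nat_lit 385) (nat_lit 5) (nat_lit 409) (nat_lit 5) (nat_lit 367) (nat_lit 364) (nat_lit 169))) (XT.nd (nat_lit 46722) (nat_lit 152) (nat_lit 0) (XT.lf (nat_lit 0) (nat_lit 6893911372) (nat_lit 1748) (nat_lit 2528993432) (nat_lit 1824) (nat_lit 19347656388) (nat_lit 386) (nat_lit 5) (nat_lit 409) (nat_lit 5) (nat_lit 410) (nat_lit 5) (nat_lit 368) (nat_lit 364) (nat_lit 168)) (XT.nd (nat_lit 78) (nat_lit 0) (nat_lit 76) (XT.lf (nat_lit 0) (nat_lit 5314789785) (nat_lit 1748) (nat_lit 5901955833) (nat_lit 1824) (nat_lit 17114754504) (nat_lit 384) (nat_lit 5) (nat_lit 407) (nat_lit 3)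 (nat_lit 408) (nat_lit 5) (nat_lit 366) (nat_lit 365) (nat_lit 169)) (XT.lf (nat_lit 0) (nat_lit 5796049927) (nat_lit 1748) (nat_lit 14445677550) (nat_lit 1824) (nat_lit 8512958067) (nat_lit 385) (nat_lit 5) (nat_lit 408) (nat_lit 5) (nat_lit 409) (nat_lit 5) (nat_lit 367) (nat_lit 365) (nat_lit 168))))))))

set_option maxRecDepth 10000000 in
noncomputable def Tp : PT := (PT.nd (nat_lit 7276698) (PT.nd (nat_lit 6574230) (PT.nd (nat_lit 5918952) (PT.nd (nat_lit 5357196) (PT.nd (nat_lit 4935684) pc0 pc1) (PT.nd (nat_lit 281346) pc2 pc3)) (PT.nd (nat_lit 374556) (PT.nd (nat_lit 187590) pc4 pc5) (PT.nd (nat_lit 140556) pc6 pc7))) (PT.nd (nat_lit 376272) (PT.nd (nat_lit 188916) (PT.nd (nat_lit 94614) pc8 pc9) (PT.nd (nat_lit 93912) pc10 pc11)) (PT.nd (nat_lit 185796) (PT.nd (nat_lit 93054) pc12 pc13) (PT.nd (nat_lit 48360) pc14 pc15)))) (PT.nd (nat_lit 422448) (PT.nd (nat_lit 234234) (PT.nd (nat_lit 95784)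 (PT.nd (nat_lit 47970) pc16 pc17) (PT.nd (nat_lit 90948) pc18 pc19)) (PT.nd (nat_lit 94380) (PT.nd (nat_lit 47268) pc20 pc21) (PT.nd (nat_lit 46956) pc22 pc23))) (PT.nd (nat_lit 231894) (PT.nd (nat_lit 93132) (PT.nd (nat_lit 46644) pc24 pc25) (PT.nd (nat_lit 48594) pc26 pc27)) (PT.nd (nat_lit 187122) (PT.nd (nat_lit 51792) pc28 pc29) (PT.nd (nat_lit 140166) pc30 pc31)))))

set_option maxRecDepth 10000000 in
noncomputable def Tx : XT := (XT.nd (nat_lit 12077832) (nat_lit 0) (nat_lit 608) XT.nil (XT.nd (nat_lit 5061342) (nat_lit 0) (nat_lit 0) (XT.nd (nat_lit 2340780) (nat_lit 0) (nat_lit 4104) (XT.nd (nat_lit 1592448) (nat_lit 0) (nat_lit 1824) (XT.nd (nat_lit 1122186) (nat_lit 0) (nat_lit 760) (XT.nd (nat_lit 749580) (nat_lit 0) (nat_lit 380) (XT.nd (nat_lit 514956) (nat_lit 0) (nat_lit 76) (XT.nd (nat_lit 328224) (nat_lit 0) (nat_lit 76) (XT.nd (nat_lit 233922) (nat_lit 0) (nat_lit 76) xc0 xc1) (XT.nd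 (nat_lit 93678) (nat_lit 0) (nat_lit 0) xc2 xc3)) (XT.nd (nat_lit 139932) (nat_lit 0) (nat_lit 76) (XT.nd (nat_lit 92430) (nat_lit 0) (nat_lit 76) xc4 xc5) (XT.nd (nat_lit 47346) (nat_lit 0) (nat_lit 228) xc6 xc7))) (XT.nd (nat_lit 187512) (nat_lit 0) (nat_lit 76) (XT.nd (nat_lit 94068) (nat_lit 0) (nat_lit 76) (XT.nd (nat_lit 47112) (nat_lit 0) (nat_lit 76) xc8 xc9) (XT.nd (nat_lit 46800) (nat_lit 0) (nat_lit 0) xc10 xc11)) (XT.nd (nat_lit 92820) (nat_lit 0) (nat_lit 228) (XT.nd (nat_lit 46488) (nat_lit 0) (nat_lit 152) xc12 xc13) (XT.nd (nat_lit 46176) (nat_lit 0) (nat_lit 0) xc14 xc15)))) (XT.nd (nat_lit 236964) (nat_lit 0) (nat_lit 380) (XT.nd (nat_lit 140166) (nat_lit 0) (nat_lit 152) (XT.nd (nat_lit 48906) (nat_lit 0) (nat_lit 0) (XT.nd (nat_lit 45864) (nat_lit 0) (nat_lit 1976) xc16 xc17) (XT.nd (nat_lit 45708) (nat_lit 0) (nat_lit 152) xc18 xc19)) (XT.nd (nat_lit 48438) (nat_lit 0) (nat_lit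 76) (XT.nd (nat_lit 3042) (nat_lit 760) (nat_lit 0) xc20 xc21) (XT.nd (nat_lit 45240) (nat_lit 0) (nat_lit 836) xc22 xc23))) (XT.nd (nat_lit 137904) (nat_lit 0) (nat_lit 380) (XT.nd (nat_lit 90012) (nat_lit 0) (nat_lit 152) (XT.nd (nat_lit 45084) (nat_lit 0) (nat_lit 0) xc24 xc25) (XT.nd (nat_lit 3042) (nat_lit 2356) (nat_lit 0) xc26 xc27)) (XT.nd (nat_lit 47736) (nat_lit 0) (nat_lit 0) (XT.nd (nat_lit 44694) (nat_lit 0) (nat_lit 6536) xc28 xc29) (XT.nd (nat_lit 44538) (nat_lit 0) (nat_lit 3572) xc30 xc31))))) (XT.nd (nat_lit 375492) (nat_lit 0) (nat_lit 836) (XT.nd (nat_lit 229866) (nat_lit 0) (nat_lit 380) (XT.nd (nat_lit 94848) (nat_lit 0) (nat_lit 228) (XT.nd (nat_lit 47502) (nat_lit 0) (nat_lit 76) (XT.nd (nat_lit 44460) (nat_lit 0) (nat_lit 1596) xc32 xc33) (XT.nd (nat_lit 44304) (nat_lit 0) (nat_lit 608) xc34 xc35)) (XT.nd (nat_lit 88140) (nat_lit 0) (nat_lit 0) (XT.nd (nat_lit 44148) (nat_lit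 0) (nat_lit 0) xc36 xc37) (XT.nd (nat_lit 3042) (nat_lit 11020) (nat_lit 0) xc38 xc39))) (XT.nd (nat_lit 52728) (nat_lit 0) (nat_lit 0) (XT.nd (nat_lit 46644) (nat_lit 0) (nat_lit 304) (XT.nd (nat_lit 3042) (nat_lit 10868) (nat_lit 0) xc40 xc41) (XT.nd (nat_lit 3042) (nat_lit 12160) (nat_lit 0) xc42 xc43)) (XT.nd (nat_lit 46488) (nat_lit 0) (nat_lit 228) (XT.nd (nat_lit 43446) (nat_lit 0) (nat_lit 1140) xc44 xc45) (XT.nd (nat_lit 43290) (nat_lit 0) (nat_lit 2280) xc46 xc47)))) (XT.nd (nat_lit 185640) (nat_lit 0) (nat_lit 684) (XT.nd (nat_lit 92586) (nat_lit 0) (nat_lit 228) (XT.nd (nat_lit 46254) (nat_lit 0) (nat_lit 228) (XT.nd (nat_lit 43212) (nat_lit 0) (nat_lit 4560) xc48 xc49) (XT.nd (nat_lit 43290) (nat_lit 0) (nat_lit 6764) xc50 xc51)) (XT.nd (nat_lit 46410) (nat_lit 0) (nat_lit 228) (XT.nd (nat_lit 43368) (nat_lit 0) (nat_lit 9576) xc52 xc53) (XT.nd (nat_lit 43524) (nat_lit 0) (nat_lit 10944)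 xc54 xc55))) (XT.nd (nat_lit 93444) (nat_lit 0) (nat_lit 304) (XT.nd (nat_lit 46644) (nat_lit 0) (nat_lit 304) (XT.nd (nat_lit 43602) (nat_lit 0) (nat_lit 12996) xc56 xc57) (XT.nd (nat_lit 43680) (nat_lit 0) (nat_lit 13376) xc58 xc59)) (XT.nd (nat_lit 46800) (nat_lit 0) (nat_lit 228) (XT.nd (nat_lit 43758) (nat_lit 0) (nat_lit 13984) xc60 xc61) (XT.nd (nat_lit 43836) (nat_lit 0) (nat_lit 13756) xc62 xc63)))))) (XT.nd (nat_lit 889512) (nat_lit 0) (nat_lit 5016) (XT.nd (nat_lit 419874) (nat_lit 0) (nat_lit 1748) (XT.nd (nat_lit 188370) (nat_lit 0) (nat_lit 912) (XT.nd (nat_lit 93990) (nat_lit 0) (nat_lit 304) (XT.nd (nat_lit 46956) (nat_lit 0) (nat_lit 76) (XT.nd (nat_lit 43914) (nat_lit 0) (nat_lit 13528) xc64 xc65) (XT.nd (nat_lit 43992) (nat_lit 0) (nat_lit 12768) xc66 xc67)) (XT.nd (nat_lit 47112) (nat_lit 0) (nat_lit 228) (XT.nd (nat_lit 44070) (nat_lit 0) (nat_lit 11248) xc68 xc69) (XT.nd (nat_lit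 44148) (nat_lit 0) (nat_lit 8816) xc70 xc71))) (XT.nd (nat_lit 94770) (nat_lit 0) (nat_lit 228) (XT.nd (nat_lit 47346) (nat_lit 0) (nat_lit 228) (XT.nd (nat_lit 44304) (nat_lit 0) (nat_lit 6384) xc72 xc73) (XT.nd (nat_lit 44382) (nat_lit 0) (nat_lit 3876) xc74 xc75)) (XT.nd (nat_lit 47502) (nat_lit 0) (nat_lit 304) (XT.nd (nat_lit 44460) (nat_lit 0) (nat_lit 1596) xc76 xc77) (XT.nd (nat_lit 44538) (nat_lit 0) (nat_lit 304) xc78 xc79)))) (XT.nd (nat_lit 191646) (nat_lit 0) (nat_lit 1292) (XT.nd (nat_lit 95550) (nat_lit 0) (nat_lit 988) (XT.nd (nat_lit 47736) (nat_lit 0) (nat_lit 304) (XT.nd (nat_lit 3042) (nat_lit 8664) (nat_lit 0) xc80 xc81) (XT.nd (nat_lit 3042) (nat_lit 3876) (nat_lit 0) xc82 xc83)) (XT.nd (nat_lit 47970) (nat_lit 0) (nat_lit 0) (XT.nd (nat_lit 44928) (nat_lit 0) (nat_lit 9424) xc84 xc85) (XT.nd (nat_lit 45006) (nat_lit 0) (nat_lit 3192) xc86 xc87))) (XT.nd (nat_lit 138606) (nat_lit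 0) (nat_lit 760) (XT.nd (nat_lit 90246) (nat_lit 0) (nat_lit 456) (XT.nd (nat_lit 45084) (nat_lit 0) (nat_lit 380) xc88 xc89) (XT.nd (nat_lit 3042) (nat_lit 5320) (nat_lit 0) xc90 xc91)) (XT.nd (nat_lit 48360) (nat_lit 0) (nat_lit 380) (XT.nd (nat_lit 45318) (nat_lit 0) (nat_lit 6612) xc92 xc93) (XT.nd (nat_lit 45396) (nat_lit 0) (nat_lit 456) xc94 xc95))))) (XT.nd (nat_lit 565812) (nat_lit 0) (nat_lit 5320) (XT.nd (nat_lit 281268) (nat_lit 0) (nat_lit 2280) (XT.nd (nat_lit 97422) (nat_lit 0) (nat_lit 912) (XT.nd (nat_lit 48672) (nat_lit 0) (nat_lit 380) (XT.nd (nat_lit 3042) (nat_lit 4256) (nat_lit 0) xc96 xc97) (XT.nd (nat_lit 45708) (nat_lit 0) (nat_lit 1368) xc98 xc99)) (XT.nd (nat_lit 91650) (nat_lit 0) (nat_lit 836) (XT.nd (nat_lit 45786) (nat_lit 0) (nat_lit 0) xc100 xc101) (XT.nd (nat_lit 46020) (nat_lit 0) (nat_lit 532) xc102 xc103))) (XT.nd (nat_lit 141804) (nat_lit 0) (nat_lit 1976) (XT.nd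 (nat_lit 49218) (nat_lit 0) (nat_lit 456) (XT.nd (nat_lit 3042) (nat_lit 4180) (nat_lit 0) xc104 xc105) (XT.nd (nat_lit 46254) (nat_lit 0) (nat_lit 456) xc106 xc107)) (XT.nd (nat_lit 93054) (nat_lit 0) (nat_lit 0) (XT.nd (nat_lit 46488) (nat_lit 0) (nat_lit 0) xc108 xc109) (XT.nd (nat_lit 3042) (nat_lit 1672) (nat_lit 0) xc110 xc111)))) (XT.nd (nat_lit 421122) (nat_lit 0) (nat_lit 5092) (XT.nd (nat_lit 187512) (nat_lit 0) (nat_lit 2356) (XT.nd (nat_lit 93600) (nat_lit 0) (nat_lit 1140) (XT.nd (nat_lit 46722) (nat_lit 0) (nat_lit 608) xc112 xc113) (XT.nd (nat_lit 46956) (nat_lit 0) (nat_lit 0) xc114 xc115)) (XT.nd (nat_lit 138606) (nat_lit 0) (nat_lit 1976) (XT.nd (nat_lit 47112) (nat_lit 0) (nat_lit 684) xc116 xc117) (XT.nd (nat_lit 47424) (nat_lit 0) (nat_lit 684) xc118 xc119))) (XT.nd (nat_lit 281190) (nat_lit 0) (nat_lit 5320) (XT.nd (nat_lit 140088) (nat_lit 0) (nat_lit 2128) (XT.nd (nat_lit 47580)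 (nat_lit 0) (nat_lit 1368) xc120 xc121) (XT.nd (nat_lit 47892) (nat_lit 0) (nat_lit 1596) xc122 xc123)) (XT.nd (nat_lit 187668) (nat_lit 0) (nat_lit 3724) (XT.nd (nat_lit 93600) (nat_lit 0) (nat_lit 1748) xc124 xc125) (XT.nd (nat_lit 140478) (nat_lit 0) (nat_lit 0) xc126 xc127))))))) XT.nil))

set_option maxRecDepth 10000000 in
noncomputable def Te : XT := XT.nil

set_option maxRecDepth 10000000 in
noncomputable def Tz : ZL := (ZL.cons (nat_lit 76) (nat_lit 3) (nat_lit 118681818393837558956) (ZL.cons (nat_lit 152) (nat_lit 6) (nat_lit 234070800910527178634) (ZL.cons (nat_lit 2204) (nat_lit 3) (nat_lit 92681202083883696299) (ZL.cons (nat_lit 2356) (nat_lit 6) (nat_lit 182942007893172546468) (ZL.cons (nat_lit 2432) (nat_lit 6) (nat_lit 180603216129076239606) (ZL.cons (nat_lit 2508) (nat_lit 3) (nat_lit 90263623729873985653) (ZL.cons (nat_lit 2660) (nat_lit 6) (nat_lit 178194260612057043540) (ZL.cons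 (nat_lit 2736) (nat_lit 6) (nat_lit 175941008817902751688) (ZL.cons (nat_lit 2812) (nat_lit 3) (nat_lit 87933626414131828123) (ZL.cons (nat_lit 2888) (nat_lit 6) (nat_lit 173765523216494087140) (ZL.cons (nat_lit 2964) (nat_lit 6) (nat_lit 173620159469923831076) (ZL.cons (nat_lit 3040) (nat_lit 6) (nat_lit 171451017057404067214) (ZL.cons (nat_lit 3116) (nat_lit 3) (nat_lit 85689704650236453296) (ZL.cons (nat_lit 3192) (nat_lit 6) (nat_lit 169357930223547793990) (ZL.cons (nat_lit 3268) (nat_lit 6) (nat_lit 169216800372508710436) (ZL.cons (nat_lit 3420) (nat_lit 6) (nat_lit 167130443027744671946) (ZL.cons (nat_lit 3496) (nat_lit 3) (nat_lit 83530460466818374507) (ZL.cons (nat_lit 3572) (nat_lit 6) (nat_lit 165118514235491191480) (ZL.cons (nat_lit 3648) (nat_lit 6) (nat_lit 164981494962637712304) (ZL.cons (nat_lit 3800) (nat_lit 6) (nat_lit 162976705485362183670) (ZL.cons (nat_lit 3876) (nat_lit 3) (nat_lit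 81454604153308313713) (ZL.cons (nat_lit 3952) (nat_lit 6) (nat_lit 161044800744014485468) (ZL.cons (nat_lit 4028) (nat_lit 6) (nat_lit 160911772323768389178) (ZL.cons (nat_lit 4104) (nat_lit 6) (nat_lit 159184092666490527478) (ZL.cons (nat_lit 4180) (nat_lit 6) (nat_lit 158987441681680800076) (ZL.cons (nat_lit 4256) (nat_lit 3) (nat_lit 79460955220090130015) (ZL.cons (nat_lit 4332) (nat_lit 6) (nat_lit 157134534926394754456) (ZL.cons (nat_lit 4408) (nat_lit 6) (nat_lit 157005381120330583298) (ZL.cons (nat_lit 4484) (nat_lit 6) (nat_lit 155351433013172623734) (ZL.cons (nat_lit 4560) (nat_lit 6) (nat_lit 155160509726949587420) (ZL.cons (nat_lit 4636) (nat_lit 3) (nat_lit 77548443581192978154) (ZL.cons (nat_lit 4712) (nat_lit 6) (nat_lit 153636577891798971098) (ZL.cons (nat_lit 4788) (nat_lit 6) (nat_lit 153385684236489657934) (ZL.cons (nat_lit 4864) (nat_lit 6) (nat_lit 153260292191767161666) (ZL.cons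 (nat_lit 4940) (nat_lit 6) (nat_lit 151679353830561072568) (ZL.cons (nat_lit 5016) (nat_lit 6) (nat_lit 151493991416752299450) (ZL.cons (nat_lit 5092) (nat_lit 3) (nat_lit 75716110968296717147) (ZL.cons (nat_lit 5168) (nat_lit 6) (nat_lit 150040027540847971398) (ZL.cons (nat_lit 5244) (nat_lit 6) (nat_lit 149796441467732133376) (ZL.cons (nat_lit 5320) (nat_lit 6) (nat_lit 149674701618486991370) (ZL.cons (nat_lit 5472) (nat_lit 6) (nat_lit 148166159048634704074) (ZL.cons (nat_lit 5548) (nat_lit 6) (nat_lit 147986195540082497164) (ZL.cons (nat_lit 5624) (nat_lit 3) (nat_lit 73963112585498110157) (ZL.cons (nat_lit 5700) (nat_lit 6) (nat_lit 146601719640841382722) (ZL.cons (nat_lit 5776) (nat_lit 6) (nat_lit 146365228307719209886) (ZL.cons (nat_lit 5852) (nat_lit 6) (nat_lit 146247034279325868132) (ZL.cons (nat_lit 5928) (nat_lit 6) (nat_lit 145101756258461864478) (ZL.cons (nat_lit 6004) (nat_lit 6) (nat_lit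 144810383542262054820) (ZL.cons (nat_lit 6080) (nat_lit 6) (nat_lit 144635661689298747140) (ZL.cons (nat_lit 6156) (nat_lit 3) (nat_lit 72288719014995841118) (ZL.cons (nat_lit 6232) (nat_lit 6) (nat_lit 143320302641488787850) (ZL.cons (nat_lit 6308) (nat_lit 6) (nat_lit 143090699405447843348) (ZL.cons (nat_lit 6384) (nat_lit 6) (nat_lit 142975947921570812518) (ZL.cons (nat_lit 6460) (nat_lit 6) (nat_lit 141893683592961840102) (ZL.cons (nat_lit 6536) (nat_lit 6) (nat_lit 141610797460729015190) (ZL.cons (nat_lit 6612) (nat_lit 6) (nat_lit 141441164593774347538) (ZL.cons (nat_lit 6688) (nat_lit 3) (nat_lit 70692318384602190806) (ZL.cons (nat_lit 6764) (nat_lit 6) (nat_lit 140529279836347547252) (ZL.cons (nat_lit 6840) (nat_lit 6) (nat_lit 140194662736938139420) (ZL.cons (nat_lit 6916) (nat_lit 6) (nat_lit 139971746973791591358) (ZL.cons (nat_lit 6992) (nat_lit 6) (nat_lit 139860337766143988610) (ZL.cons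 (nat_lit 7068) (nat_lit 6) (nat_lit 138841057834802000704) (ZL.cons (nat_lit 7144) (nat_lit 6) (nat_lit 138566411104478869722) (ZL.cons (nat_lit 7220) (nat_lit 6) (nat_lit 138401719000639386564) (ZL.cons (nat_lit 7296) (nat_lit 3) (nat_lit 69173418808780874871) (ZL.cons (nat_lit 7372) (nat_lit 6) (nat_lit 137548799992755625720) (ZL.cons (nat_lit 7448) (nat_lit 6) (nat_lit 137223929022455229766) (ZL.cons (nat_lit 7524) (nat_lit 6) (nat_lit 137007505951439163688) (ZL.cons (nat_lit 7600) (nat_lit 6) (nat_lit 136899341672169646456) (ZL.cons (nat_lit 7676) (nat_lit 6) (nat_lit 136316760053461304044) (ZL.cons (nat_lit 7752) (nat_lit 6) (nat_lit 135943127685124728506) (ZL.cons (nat_lit 7828) (nat_lit 6) (nat_lit 135676480374131397456) (ZL.cons (nat_lit 7904) (nat_lit 6) (nat_lit 135516585127685297304) (ZL.cons (nat_lit 7980) (nat_lit 3) (nat_lit 67731651115746708447) (ZL.cons (nat_lit 8056) (nat_lit 6) (nat_lit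 134722887945687756764) (ZL.cons (nat_lit 8132) (nat_lit 6) (nat_lit 134407479236658246130) (ZL.cons (nat_lit 8208) (nat_lit 6) (nat_lit 134197359750234881006) (ZL.cons (nat_lit 8284) (nat_lit 6) (nat_lit 134092345886866417676) (ZL.cons (nat_lit 8360) (nat_lit 6) (nat_lit 133562143575245777382) (ZL.cons (nat_lit 8436) (nat_lit 6) (nat_lit 133199393703074344820) (ZL.cons (nat_lit 8512) (nat_lit 6) (nat_lit 132940512818614800112) (ZL.cons (nat_lit 8588) (nat_lit 6) (nat_lit 132785274715269071810) (ZL.cons (nat_lit 8664) (nat_lit 3) (nat_lit 66366771874046244445) (ZL.cons (nat_lit 8740) (nat_lit 6) (nat_lit 132459880331145006108) (ZL.cons (nat_lit 8816) (nat_lit 6) (nat_lit 132051168164661027984) (ZL.cons (nat_lit 8892) (nat_lit 6) (nat_lit 131744946117059561348) (ZL.cons (nat_lit 8968) (nat_lit 6) (nat_lit 131540946615677653462) (ZL.cons (nat_lit 9044) (nat_lit 6) (nat_lit 131438991408523805570) (ZL.cons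 (nat_lit 9120) (nat_lit 6) (nat_lit 130961799317549779132) (ZL.cons (nat_lit 9196) (nat_lit 6) (nat_lit 130609614975635766934) (ZL.cons (nat_lit 9272) (nat_lit 6) (nat_lit 130358274311111937120) (ZL.cons (nat_lit 9348) (nat_lit 6) (nat_lit 130207557705921909644) (ZL.cons (nat_lit 9424) (nat_lit 3) (nat_lit 65078666732972322336) (ZL.cons (nat_lit 9500) (nat_lit 6) (nat_lit 129930335286048947652) (ZL.cons (nat_lit 9576) (nat_lit 6) (nat_lit 129533527357423726176) (ZL.cons (nat_lit 9652) (nat_lit 6) (nat_lit 129236224398587350800) (ZL.cons (nat_lit 9728) (nat_lit 6) (nat_lit 129038166630255401396) (ZL.cons (nat_lit 9804) (nat_lit 6) (nat_lit 128939180992241956840) (ZL.cons (nat_lit 9880) (nat_lit 6) (nat_lit 128955874790907707582) (ZL.cons (nat_lit 9956) (nat_lit 6) (nat_lit 128515742991689079034) (ZL.cons (nat_lit 10032) (nat_lit 6) (nat_lit 128173816446141494380) (ZL.cons (nat_lit 10108) (nat_lit 6)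 (nat_lit 127929796383496999414) (ZL.cons (nat_lit 10184) (nat_lit 6) (nat_lit 127783469582341632930) (ZL.cons (nat_lit 10260) (nat_lit 3) (nat_lit 63867354092152726673) (ZL.cons (nat_lit 10336) (nat_lit 6) (nat_lit 127555372552287008832) (ZL.cons (nat_lit 10412) (nat_lit 6) (nat_lit 127170122136146017106) (ZL.cons (nat_lit 10488) (nat_lit 6) (nat_lit 126881478486790312862) (ZL.cons (nat_lit 10564) (nat_lit 6) (nat_lit 126689189391322400816) (ZL.cons (nat_lit 10640) (nat_lit 6) (nat_lit 126593086830144299304) (ZL.cons (nat_lit 10716) (nat_lit 6) (nat_lit 126651576880581144824) (ZL.cons (nat_lit 10792) (nat_lit 6) (nat_lit 126224264454155291866) (ZL.cons (nat_lit 10868) (nat_lit 6) (nat_lit 125892296934206180550) (ZL.cons (nat_lit 10944) (nat_lit 6) (nat_lit 125655384252027059226) (ZL.cons (nat_lit 11020) (nat_lit 6) (nat_lit 125513319396536412152) (ZL.cons (nat_lit 11096) (nat_lit 3) (nat_lit 62732989116697245112)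 (ZL.cons (nat_lit 11172) (nat_lit 6) (nat_lit 125803566252198151792) (ZL.cons (nat_lit 11248) (nat_lit 6) (nat_lit 125335416922583113172) (ZL.cons (nat_lit 11324) (nat_lit 6) (nat_lit 124961387392349140624) (ZL.cons (nat_lit 11400) (nat_lit 6) (nat_lit 124681150839576612228) (ZL.cons (nat_lit 11476) (nat_lit 6) (nat_lit 124494462397374755876) (ZL.cons (nat_lit 11552) (nat_lit 6) (nat_lit 124401158939920288386) (ZL.cons (nat_lit 11628) (nat_lit 6) (nat_lit 125010599686977306732) (ZL.cons (nat_lit 11704) (nat_lit 6) (nat_lit 124502802878537816010) (ZL.cons (nat_lit 11780) (nat_lit 6) (nat_lit 124087936445114657800) (ZL.cons (nat_lit 11856) (nat_lit 6) (nat_lit 123765637882057268172) (ZL.cons (nat_lit 11932) (nat_lit 6) (nat_lit 123535625569262004748) (ZL.cons (nat_lit 12008) (nat_lit 6) (nat_lit 123397698525096327980) (ZL.cons (nat_lit 12084) (nat_lit 3) (nat_lit 61675868115391891209) (ZL.cons (nat_lit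 12160) (nat_lit 6) (nat_lit 123725694795184797698) (ZL.cons (nat_lit 12236) (nat_lit 6) (nat_lit 123271180882937187386) (ZL.cons (nat_lit 12312) (nat_lit 6) (nat_lit 122908045416690612096) (ZL.cons (nat_lit 12388) (nat_lit 6) (nat_lit 122635971093610487440) (ZL.cons (nat_lit 12464) (nat_lit 6) (nat_lit 122454720178851403600) (ZL.cons (nat_lit 12540) (nat_lit 6) (nat_lit 122364134297827648760) (ZL.cons (nat_lit 12616) (nat_lit 6) (nat_lit 123003413646043458508) (ZL.cons (nat_lit 12692) (nat_lit 6) (nat_lit 122510407035908030626) (ZL.cons (nat_lit 12768) (nat_lit 6) (nat_lit 122107624090837003234) (ZL.cons (nat_lit 12844) (nat_lit 6) (nat_lit 121794712864567692916) (ZL.cons (nat_lit 12920) (nat_lit 6) (nat_lit 121571399939523747844) (ZL.cons (nat_lit 12996) (nat_lit 6) (nat_lit 121437490187906585932) (ZL.cons (nat_lit 13072) (nat_lit 3) (nat_lit 60696433300597688327) (ZL.cons (nat_lit 13148) (nat_lit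 6) (nat_lit 122335328311663092414) (ZL.cons (nat_lit 13224) (nat_lit 6) (nat_lit 121804950150180268830) (ZL.cons (nat_lit 13300) (nat_lit 6) (nat_lit 121363674507221423868) (ZL.cons (nat_lit 13376) (nat_lit 6) (nat_lit 121011115802127661448) (ZL.cons (nat_lit 13452) (nat_lit 6) (nat_lit 120746965973894530714) (ZL.cons (nat_lit 13528) (nat_lit 6) (nat_lit 120570994211992507570) (ZL.cons (nat_lit 13604) (nat_lit 6) (nat_lit 120483046754687891220) (ZL.cons (nat_lit 13680) (nat_lit 6) (nat_lit 121720855028159289394) (ZL.cons (nat_lit 13756) (nat_lit 6) (nat_lit 121154193807115887458) (ZL.cons (nat_lit 13832) (nat_lit 6) (nat_lit 120675546612809646794) (ZL.cons (nat_lit 13908) (nat_lit 6) (nat_lit 120284495209828066804) (ZL.cons (nat_lit 13984) (nat_lit 6) (nat_lit 119980697902770483968) (ZL.cons (nat_lit 14060) (nat_lit 6) (nat_lit 119763889237679275162) (ZL.cons (nat_lit 14136) (nat_lit 6) (nat_lit 119633879770089797580)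 (ZL.cons (nat_lit 14212) (nat_lit 3) (nat_lit 59795277949748195254) (ZL.cons (nat_lit 14364) (nat_lit 6) (nat_lit 120557569384667548696) (ZL.cons (nat_lit 14440) (nat_lit 6) (nat_lit 120042639130800729680) (ZL.cons (nat_lit 14516) (nat_lit 6) (nat_lit 119614216176471753988) (ZL.cons (nat_lit 14592) (nat_lit 6) (nat_lit 119271926171526353582) (ZL.cons (nat_lit 14668) (nat_lit 6) (nat_lit 119015470027610692674) (ZL.cons (nat_lit 14744) (nat_lit 6) (nat_lit 118844623656832029430) (ZL.cons (nat_lit 14820) (nat_lit 6) (nat_lit 118759237775953761126) (ZL.cons (nat_lit 14896) (nat_lit 6) (nat_lit 120014555560524375358) (ZL.cons (nat_lit 14972) (nat_lit 6) (nat_lit 119464399035239519108) (ZL.cons (nat_lit 15048) (nat_lit 6) (nat_lit 118999693021349965064) (ZL.cons (nat_lit 15124) (nat_lit 6) (nat_lit 118620031465057168956) (ZL.cons (nat_lit 15200) (nat_lit 6) (nat_lit 118325082623253690478) (ZL.cons (nat_lit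 15276) (nat_lit 6) (nat_lit 118114588773650575132) (ZL.cons (nat_lit 15352) (nat_lit 6) (nat_lit 117988365989583121166) (ZL.cons (nat_lit 15428) (nat_lit 3) (nat_lit 58973151989649129967) (ZL.cons (nat_lit 15504) (nat_lit 6) (nat_lit 119524677856587601560) (ZL.cons (nat_lit 15580) (nat_lit 6) (nat_lit 118940321067790087802) (ZL.cons (nat_lit 15656) (nat_lit 6) (nat_lit 118440388782482496524) (ZL.cons (nat_lit 15732) (nat_lit 6) (nat_lit 118024444166629122064) (ZL.cons (nat_lit 15808) (nat_lit 6) (nat_lit 117692123773478247884) (ZL.cons (nat_lit 15884) (nat_lit 6) (nat_lit 117443137225987314968) (ZL.cons (nat_lit 15960) (nat_lit 6) (nat_lit 117277266963095408900) (ZL.cons (nat_lit 16036) (nat_lit 6) (nat_lit 117194368049621362006) (ZL.cons (nat_lit 16188) (nat_lit 6) (nat_lit 117858954659128771804) (ZL.cons (nat_lit 16264) (nat_lit 6) (nat_lit 118088656144540933782) (ZL.cons (nat_lit 16340) (nat_lit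 6) (nat_lit 118369810925427082586) (ZL.cons (nat_lit 16416) (nat_lit 6) (nat_lit 118702664671013235236) (ZL.cons (nat_lit 16492) (nat_lit 6) (nat_lit 119087508224378059252) (ZL.cons (nat_lit 16568) (nat_lit 6) (nat_lit 118469947296247868300) (ZL.cons (nat_lit 16644) (nat_lit 6) (nat_lit 117935814747427619514) (ZL.cons (nat_lit 16720) (nat_lit 6) (nat_lit 117484643860156207820) (ZL.cons (nat_lit 16796) (nat_lit 6) (nat_lit 117116040407444755288) (ZL.cons (nat_lit 16872) (nat_lit 6) (nat_lit 116829682308606426670) (ZL.cons (nat_lit 16948) (nat_lit 6) (nat_lit 116625319347826703032) (ZL.cons (nat_lit 17024) (nat_lit 6) (nat_lit 116502772955528204036) (ZL.cons (nat_lit 17100) (nat_lit 3) (nat_lit 58230968026169509187) (ZL.cons (nat_lit 17176) (nat_lit 6) (nat_lit 116600694684562950272) (ZL.cons (nat_lit 17252) (nat_lit 6) (nat_lit 116652354546737245160) (ZL.cons (nat_lit 17328) (nat_lit 6) (nat_lit 116755719410771229948)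 (ZL.cons (nat_lit 17404) (nat_lit 6) (nat_lit 116910879595478138218) (ZL.cons (nat_lit 17480) (nat_lit 6) (nat_lit 117117970677718393482) (ZL.cons (nat_lit 17556) (nat_lit 6) (nat_lit 117377173610864827030) (ZL.cons (nat_lit 17632) (nat_lit 6) (nat_lit 117688714882917275552) (ZL.cons (nat_lit 17708) (nat_lit 6) (nat_lit 118052866714404716914) (ZL.cons (nat_lit 17784) (nat_lit 6) (nat_lit 117485530026251790934) (ZL.cons (nat_lit 17860) (nat_lit 6) (nat_lit 117000158875467721732) (ZL.cons (nat_lit 17936) (nat_lit 6) (nat_lit 116596329151338231966) (ZL.cons (nat_lit 18012) (nat_lit 6) (nat_lit 116273687992939324996) (ZL.cons (nat_lit 18088) (nat_lit 6) (nat_lit 116031953480812205656) (ZL.cons (nat_lit 18164) (nat_lit 6) (nat_lit 115870914390625889090) (ZL.cons (nat_lit 18240) (nat_lit 6) (nat_lit 115790430008612251326) (ZL.cons (nat_lit 18316) (nat_lit 3) (nat_lit 57900137579438091228) (ZL.cons (nat_lit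 18392) (nat_lit 6) (nat_lit 115826486813082844396) (ZL.cons (nat_lit 18468) (nat_lit 6) (nat_lit 115905144679090001078) (ZL.cons (nat_lit 18544) (nat_lit 6) (nat_lit 116036317487071833516) (ZL.cons (nat_lit 18620) (nat_lit 6) (nat_lit 116220119854045024868) (ZL.cons (nat_lit 18696) (nat_lit 6) (nat_lit 116456712384019551702) (ZL.cons (nat_lit 18772) (nat_lit 6) (nat_lit 116746301808332284968) (ZL.cons (nat_lit 18848) (nat_lit 6) (nat_lit 117089141166286022202) (ZL.cons (nat_lit 18924) (nat_lit 6) (nat_lit 116570565876169275806) (ZL.cons (nat_lit 19000) (nat_lit 6) (nat_lit 116132535888527128532) (ZL.cons (nat_lit 19076) (nat_lit 6) (nat_lit 115774668458710184328) (ZL.cons (nat_lit 19152) (nat_lit 6) (nat_lit 115496650887022486636) (ZL.cons (nat_lit 19228) (nat_lit 6) (nat_lit 115298240245488774368) (ZL.cons (nat_lit 19304) (nat_lit 6) (nat_lit 115179263165587319034) (ZL.cons (nat_lit 19380) (nat_lit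 3) (nat_lit 57569807843381433466) (ZL.cons (nat_lit 19456) (nat_lit 6) (nat_lit 115074828685432256164) (ZL.cons (nat_lit 19532) (nat_lit 6) (nat_lit 115128038343471779898) (ZL.cons (nat_lit 19608) (nat_lit 6) (nat_lit 115234504153426784230) (ZL.cons (nat_lit 19684) (nat_lit 6) (nat_lit 115394319143674899750) (ZL.cons (nat_lit 19760) (nat_lit 6) (nat_lit 115607622958382362672) (ZL.cons (nat_lit 19836) (nat_lit 6) (nat_lit 115874601979523189224) (ZL.cons (nat_lit 19912) (nat_lit 6) (nat_lit 116195489489737211202) (ZL.cons (nat_lit 19988) (nat_lit 6) (nat_lit 115724255362762386734) (ZL.cons (nat_lit 20064) (nat_lit 6) (nat_lit 115332187669432785022) (ZL.cons (nat_lit 20140) (nat_lit 6) (nat_lit 115018943826327050096) (ZL.cons (nat_lit 20216) (nat_lit 6) (nat_lit 114784250125232759476) (ZL.cons (nat_lit 20292) (nat_lit 6) (nat_lit 114627901493983908440) (ZL.cons (nat_lit 20368) (nat_lit 6) (nat_lit 114549761317271638768)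 (ZL.cons (nat_lit 20444) (nat_lit 3) (nat_lit 57198361687565125900) (ZL.cons (nat_lit 20520) (nat_lit 6) (nat_lit 114423721378963113594) (ZL.cons (nat_lit 20596) (nat_lit 6) (nat_lit 114504738980950484978) (ZL.cons (nat_lit 20672) (nat_lit 6) (nat_lit 114639846973171772392) (ZL.cons (nat_lit 20748) (nat_lit 6) (nat_lit 114829163411154159482) (ZL.cons (nat_lit 20824) (nat_lit 6) (nat_lit 115072853717027922122) (ZL.cons (nat_lit 20900) (nat_lit 6) (nat_lit 115371130824070037386) (ZL.cons (nat_lit 20976) (nat_lit 6) (nat_lit 114945858991407758480) (ZL.cons (nat_lit 21052) (nat_lit 6) (nat_lit 114598414884789366046) (ZL.cons (nat_lit 21128) (nat_lit 6) (nat_lit 114328494912277038192) (ZL.cons (nat_lit 21204) (nat_lit 6) (nat_lit 114135863221467608804) (ZL.cons (nat_lit 21280) (nat_lit 6) (nat_lit 114020351493407943430) (ZL.cons (nat_lit 21356) (nat_lit 3) (nat_lit 56990929397760062930) (ZL.cons (nat_lit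 21432) (nat_lit 6) (nat_lit 113791578362973654792) (ZL.cons (nat_lit 21508) (nat_lit 6) (nat_lit 113846384310754364236) (ZL.cons (nat_lit 21584) (nat_lit 6) (nat_lit 113956044095008018702) (ZL.cons (nat_lit 21660) (nat_lit 6) (nat_lit 114120653534963577686) (ZL.cons (nat_lit 21736) (nat_lit 6) (nat_lit 114340356464112264494) (ZL.cons (nat_lit 21812) (nat_lit 6) (nat_lit 114615344855887315846) (ZL.cons (nat_lit 21888) (nat_lit 6) (nat_lit 114234696609936246218) (ZL.cons (nat_lit 21964) (nat_lit 6) (nat_lit 113930576373911260856) (ZL.cons (nat_lit 22040) (nat_lit 6) (nat_lit 113702718411683794234) (ZL.cons (nat_lit 22116) (nat_lit 6) (nat_lit 113550923624063550508) (ZL.cons (nat_lit 22192) (nat_lit 6) (nat_lit 113475059374828337236) (ZL.cons (nat_lit 22268) (nat_lit 3) (nat_lit 56615528468764133531) (ZL.cons (nat_lit 22344) (nat_lit 6) (nat_lit 113258864881476114712) (ZL.cons (nat_lit 22420) (nat_lit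 6) (nat_lit 113342313011523107238) (ZL.cons (nat_lit 22496) (nat_lit 6) (nat_lit 113481474243511033274) (ZL.cons (nat_lit 22572) (nat_lit 6) (nat_lit 113676470174632891976) (ZL.cons (nat_lit 22648) (nat_lit 6) (nat_lit 113927471189682867496) (ZL.cons (nat_lit 22724) (nat_lit 6) (nat_lit 113590146814325204940) (ZL.cons (nat_lit 22800) (nat_lit 6) (nat_lit 113328088588585080810) (ZL.cons (nat_lit 22876) (nat_lit 6) (nat_lit 113141067529546799850) (ZL.cons (nat_lit 22952) (nat_lit 6) (nat_lit 113028920220751008226) (ZL.cons (nat_lit 23028) (nat_lit 3) (nat_lit 56495774334701806262) (ZL.cons (nat_lit 23104) (nat_lit 6) (nat_lit 112741667326624134054) (ZL.cons (nat_lit 23180) (nat_lit 6) (nat_lit 112798117452838264786) (ZL.cons (nat_lit 23256) (nat_lit 6) (nat_lit 112911067030619528882) (ZL.cons (nat_lit 23332) (nat_lit 6) (nat_lit 113080614753773754636) (ZL.cons (nat_lit 23408) (nat_lit 6) (nat_lit 113306908770796902050)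 (ZL.cons (nat_lit 23484) (nat_lit 6) (nat_lit 113011646405724100726) (ZL.cons (nat_lit 23560) (nat_lit 6) (nat_lit 112790425083173162258) (ZL.cons (nat_lit 23636) (nat_lit 6) (nat_lit 112643051502959333400) (ZL.cons (nat_lit 23712) (nat_lit 6) (nat_lit 112569396892051359346) (ZL.cons (nat_lit 23788) (nat_lit 3) (nat_lit 56147169863002431139) (ZL.cons (nat_lit 23864) (nat_lit 6) (nat_lit 112322981908271145360) (ZL.cons (nat_lit 23940) (nat_lit 6) (nat_lit 112408933482219547662) (ZL.cons (nat_lit 24016) (nat_lit 6) (nat_lit 112552269551167111476) (ZL.cons (nat_lit 24092) (nat_lit 6) (nat_lit 112753115360222625942) (ZL.cons (nat_lit 24168) (nat_lit 6) (nat_lit 112498689898339010280) (ZL.cons (nat_lit 24244) (nat_lit 6) (nat_lit 112317116054612523914) (ZL.cons (nat_lit 24320) (nat_lit 6) (nat_lit 112208235172286512626) (ZL.cons (nat_lit 24396) (nat_lit 3) (nat_lit 56085976056362967137) (ZL.cons (nat_lit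 24472) (nat_lit 6) (nat_lit 111916491210841059246) (ZL.cons (nat_lit 24548) (nat_lit 6) (nat_lit 111974634840841613898) (ZL.cons (nat_lit 24624) (nat_lit 6) (nat_lit 112090972905956315918) (ZL.cons (nat_lit 24700) (nat_lit 6) (nat_lit 112265607060805168444) (ZL.cons (nat_lit 24776) (nat_lit 6) (nat_lit 112050829077746004884) (ZL.cons (nat_lit 24852) (nat_lit 6) (nat_lit 111907747931907336088) (ZL.cons (nat_lit 24928) (nat_lit 6) (nat_lit 111836238600928720502) (ZL.cons (nat_lit 25004) (nat_lit 3) (nat_lit 55789145087250854158) (ZL.cons (nat_lit 25080) (nat_lit 6) (nat_lit 111607791622235979886) (ZL.cons (nat_lit 25156) (nat_lit 6) (nat_lit 111696321743402834256) (ZL.cons (nat_lit 25232) (nat_lit 6) (nat_lit 111843957894418824988) (ZL.cons (nat_lit 25308) (nat_lit 6) (nat_lit 111667672609247478998) (ZL.cons (nat_lit 25384) (nat_lit 6) (nat_lit 111561963014756205904) (ZL.cons (nat_lit 25460) (nat_lit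 3) (nat_lit 55763368371669084335) (ZL.cons (nat_lit 25536) (nat_lit 6) (nat_lit 111308083283784446526) (ZL.cons (nat_lit 25612) (nat_lit 6) (nat_lit 111367971222685017814) (ZL.cons (nat_lit 25688) (nat_lit 6) (nat_lit 111487799429753160896) (ZL.cons (nat_lit 25764) (nat_lit 6) (nat_lit 111348885695929210608) (ZL.cons (nat_lit 25840) (nat_lit 6) (nat_lit 111279459160998515866) (ZL.cons (nat_lit 25916) (nat_lit 3) (nat_lit 55537623972207290219) (ZL.cons (nat_lit 25992) (nat_lit 6) (nat_lit 111105634435580880156) (ZL.cons (nat_lit 26068) (nat_lit 6) (nat_lit 111196820460382740156) (ZL.cons (nat_lit 26144) (nat_lit 6) (nat_lit 111094189786119368220) (ZL.cons (nat_lit 26220) (nat_lit 3) (nat_lit 55529994761303355356) (ZL.cons (nat_lit 26296) (nat_lit 6) (nat_lit 110909082155771592420) (ZL.cons (nat_lit 26372) (nat_lit 6) (nat_lit 110970766732839180850) (ZL.cons (nat_lit 26448) (nat_lit 6) (nat_lit 110903362329993846148)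 (ZL.cons (nat_lit 26524) (nat_lit 3) (nat_lit 55389071319273320818) (ZL.cons (nat_lit 26600) (nat_lit 6) (nat_lit 110809440724447930348) (ZL.cons (nat_lit 26676) (nat_lit 3) (nat_lit 55388118292557626577) (ZL.cons (nat_lit 26752) (nat_lit 6) (nat_lit 110712701470735637072) (ZL.cons (nat_lit 26828) (nat_lit 1) (nat_lit 18446744073709551617) ZL.nil))))))))))))))))))))))))))))))))))))))))))))))))))))))))))))))))))))))))))))))))))))))))))))))))))))))))))))))))))))))))))))))))))))))))))))))))))))))))))))))))))))))))))))))))))))))))))))))))))))))))))))))))))))))))))))))))))))))))))))))))))))))))))))))))))))))))))))))))))))))))))))))))))))))))))))))))))))))))))))))))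

noncomputable def vl : XL := ⟨(nat_lit 0), (nat_lit 76), (nat_lit 13783952), (nat_lit 152), (nat_lit 474873169), (nat_lit 76), (nat_lit 13783952), (nat_lit 1), (nat_lit 5), (nat_lit 2), (nat_lit 4), (nat_lit 1), (nat_lit 4), (nat_lit 0), (nat_lit 0), (nat_lit 0)⟩

noncomputable def cp0 : Nat := (nat_lit 638807070002251905025589657445789690249480240832291870724456881503137289407350777095981763674167152883741071962444576523997519097329974734652629157158990528871472899959457369350450130863597959630112387135101430988860960275338241797237668251761623880789457593678434317945328043171880805614775908769116320589589751242136396262969435021614884769604479162523112027909100110407146237691297094130354937279332338644643780012933857023969491682384408068001196873309705591110417332271193339295383901785370425905081610655662831870378575333092589591635550842158439290744104573364793095708822183593507089267790126666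9581324148827553824642890471073364101704750107133682961553345804296392828817556826981369935107004161038389812838226367835573949574106097056580699902599929410127481643414326711458707325084849635277471320731643550040418912163899258858476944359149849734818421854859400821237947537914061693397972510155061104000031060968497580202142140626622012254527805253263479928797630461622933583713544826516327972119611560751789361470297288647572008024925321563006473473676274790862464222227420860166857397533544391169085442251598523651757539985576398532962728076069271082344837766389718717639940928411674437834402823461701542974884891083237851678936925766880336251869219604189327152214643978340883339959795010930557378846050540348819703989552175911077330045254890217184553891089722947979528202066649072854230906324754812411053049836862836088696727187166376113034394290682735907690567193912385173733741610430136371339181617791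5767384660361080599566916641501170972010651296917568362814606442461470313637416694306240127642417173198098938586563355456738506221935042124546756283798519216668104725330368202031741537058308552673068073403440806019463681234612210054231815293812649902084444572183983841790618705506757983267104269032258911815541838917768534967348527479706284303341483899448010147682147421416297779725178421444371475823617153555872203734477769229545004076045829225184686149979130562512223743949577002018687230812800859571038878505304765831555676144389458460902147904096842920372560594202088395411617259850389889467107933789727738086394061726513004789564358005523527783767038883878476736771384126592195826142781733474253701112174720733118529044198591927654793751545296704778299082867116538062562431023832529054261183756834785274109252726477947401954083502737758251893245362753537749328317243035089977172771125185071932834345586290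8661167525716569983571163021332654813246173661240127881628588135002028873641754101808935189311991410046210695248856056843677952742562376741410365123509992309971396367694613485006859046955401981817302947651411511007023285686151064767537581122058529866289778669934519965163141637246899394919109437306056003194534466693479984624082584063430317661434643829630238648613601151804286560096985808346707333631726747775807100107634564290743889714833825502367594218846975484840747968611341330711586011613282100364893210088966753475376792324417042376001830012017119599591461858408564093294288668517469629457588800163992882961746705729499084344869751316592279049000256101633006639076779127779826126450514725988223576077461811610536969448691581511768212276406659046180257729073507679600483857868781183246774677230713348064387854501051551009244110457074150647967326400070957670005402100431460324098840742840927794326325541670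1759350831964103057723418532738526058903138283732363185801657887707323222633703239058580381700147428972936056574435108871855678815537319710228056267999603527918477070169516315812929036532441372584676587520100971693504981068345931341072566535952000346194483644688004943961615400524800678120344383750335529008150867202281904308029511577951783459249103007725150922236081471291169824571016218171102594179659029953413568168315011015563818394373609244056609947802767957705444982411653580557105318434169800621147926456984687857987407373002333507605828364182841836254827530394084852541640007635082323086962813250407244612162305973648864967986364753446275191526604515633870230536964755458708399012541426763760824876067499426309810817468720097578969098978192701778903794225138922967537670559932608862298994550282327684225533914814775362182386354673657663252986888872421209925846237855168198759352991017431062395362644559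5918628255703630467084431198532248156986445015057297087333023819441587220211479655437720574043605305330072944351854243551853749481554368410772617674515444437033799825662845298151244723502559444903144913022374589293667750918429979183780929736846018399302060689138946825357222328097149261681249387489740205079094964712740822587379246728474002523186090757082544781901499266332631599016057820094435271247501458241363866976320157070914939221661970261283280377033008394642641042251093961284741071262694975052180240427844171046360417466955309626920878702343486568157002087871970771770402909440913928047231060502956758517346821942460436456196906484936414860768834653239159393380361869274625697460293065453964634129627179856755268818554651810157267935836637422347947159460715401120776823734724678088971462280799472361136585525913036665056631757341853761475146176236868995058353665824012754099643513814581734938395406642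7141715254571917767689443907341862207741002170710939233853331950317040746179550464531416445997517807848358371789886177650700568964527466917858859561912833617896047213769483663846676784242353268228374406080678398759061377261256848755023449529693122963359321184957643059583294331017899736407808205551267354216292395117925151892940388965214980777245737320571889197512226339624754362740769768448521284129302441703775420447933145508187307919510451813604526178797991505235792069110131791670572701304607739114511007776790869669288047306344477231571833652544093456423450885069627238227272132618723538055154348926319516095440370419140854900035679304622852625934719012234487959021941037305389443054152834817195574274706739406627655774057242410773432530653920248800324690495050575134759832737912327182394132807426561986951858543900575177493431367372304883547929083713445411885998648515181318507560632239584713896027291286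7286319769182744009697197433541073684521910289050917084618262644937780024090934473618340675126241660286989005933127059949173686130500195008219797238577343407713780929496583747532221642156735055669930514187144406559970316003398954177743195078240219263526524569990289414736141806753923918855659960718363361320149182502035971589952050650600736369275482274189124885193902740912178316113463328886986167626518217711269955788102004638702829368876070702092002426767617095194187338489924085986859204158771550376095741045061697437212853843071577769048674766717381730197859061301091289118342619983865811814857557934916929491280128809009094186739588938893584893954979014180868624736064241789518805224556961298260109315016890161819784974349458544587054470653643813411807183446872291495630453401602915554587260733668408545609823981455939197908284720178798639700019564519964204507115100370530573119912060651634477053794840667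077342623496198755356991643630997417775948831478273082672806255181541289683998612218946903831224037797054501471043377516564001710464762644096965334037616459667184634456952631747629744688444053763120841410478408796519652536703789425876250081360886880493093627783528163775822571823566016706024209692712431104771042936662854279167492728566107153788506133210883857580119964116310657597131571444543841187765129431841246975517271541096815648392233548958239493016294040051366241391146309048776169118111357299783805880717212771238813672168420735388595425893606051275441719694985778651314949939717691889358093935138864676752757756706199474653579366239625137574765062392344639145665282126289706977236982223563584330362895203093169479469650184528115062603360592338680716954687111457656904815882113262613743052685108407571556312022967985127953119021917061756920211832188391348415525647971704572275788709671807934408934287933196219088596063104259086422183563203030856467165220975201082690359168780994707459094358396679012108328858534489771591586815633943550091414120084695100108444472726583055521220772138652546998777687210952067383296)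

noncomputable def cp1 : Nat := (nat_lit 1064796989320237640473705344940498659608730374495080634455962409533927260595313113670057457820875033092682489845363306802826249689385074179029357237215619069000083887070683161681632553729553779235053137096449138876098477309003917779333004984163306263124362246610761042790844327945016660212148759228202929863463299753560562164330843824127921767116169322781224870368840786702570870927053387369439794822201712061134188685588370017345993192492294749715300592031786611930308500984158671825074859259381990554131964277902806907842419877744256539085435418536295532256052204613374398919467265665085473380801137334313541346093703723765583935362477730476897603885607769901219958839693957315922441177216586044752226441492285025698737258716448848402454079359180891356486805917490674310242470259739513143027442658926440121674120227675359356040293105390067430543496371036572488192980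9410815497164002998241865199436740285337658940994350242522433869799407901573469757178597103685787448496768731051057617401380163416148536418270614796949859989768544800296005637603717518410269995383210642942130116910483932278007127670981241389611364483322769894604903929749432221525509826915195912254521389576004541897228867652471952047632510523305460494655083389594276829700590219084848295168387298966630730217070800742223264040891311008933302074828745641876767082336095215973393936091125411162879572738465532218135706250230345963467701298146379400131689252107689989915965032447235981328657012593303722142494897969044109866181265341184816029457970990583909907274999573028365813456166770181783554788545987487653096356108256228428955197272714476398497478563830208160037792459501583333796034370017725277732830203986500944630016644269092377534605782136231050231201606626755896477830932230886975269727856457847659163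4747510466012888395844313165481792988456251949803049529623383412467266296192798249600487192487886445351855042892635001796502378715076471843914983457059039134241222640457641083652594797945589228605210743143209235951469657908214575367113362458904545046598954344975798884463050325192589974533089737474924513153999993013038168573013638770950350502576206943478309305157565096962774655224433204655145017932467607693905929459894617592306064296589603381468293001606368345759064297111528117445382505095218687639472254764769369058257871434719051315392132173222516968779772975863908530640256509041883411161639101380552659256078289032603420253932874003873656118853530828263222929764245969224417836468108011337514841442535404032201867105885616029591510242067597862360566490397030527952596381486982634924437084354934012360820810805701635743138820213037300545423464441611256087376045660890288300557605459818853205024817944699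1216188560466964659013295665277890590161796672572427248886512811907364296126783694891155554606918234336645764270225061731770357663133462536163166478218562632711886098272991587081348406534731089903532853123292384185813595485312826369439739519225626315849663063626240018299667937073344857742450868761433213730935851413565938552664009713190619670436203224127032084039553759133532886007995607282577036494672580422863262097077790170219359051695164186594072632343916822075528311556071717554059332866736970009109166269203976790427451702778274586242749764884843997893987754374624300177943888690381322710331580728686356969648366494844861305745430813679237587460328547388523191387389415318719305170808321259655770304314679005351476317823166257410302064812628660362563153938133434621246787083265239546768329600689565981027424560363473369675906356537968542606635542407672929347901565361155588061972342010302197336291905777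9335702418158633980351845924356023301004113962561357788185501774294745937902600948851785552880308207947412001866331487858275265466588663563650654938356507214710459384575881992620545377503117548303539924115650747595156697522291383634267603669360698065660507382107400996043445846436847551683188288179044532576818550857998089210072168725944314298295593764224998599686252111864386935694917641111068447087375911817590700182544450515136345963798789084920122250066874228860946538949029166481287775870205495658991208681782080615926573940578357623987681019006551273060407894579582495406262546510726277750007647796208988832867846092303667844511469277204032807228100648119336882414268474515613071183200075006791745065478215346275215237896241941214985533219288855436464766454587628622953777036332993774770378770011730894793643555397393776487792567865402660790215412849772392251385918267644997056931246016342896527227763231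4849461919644225691977333493606996876162306506568327214714851713426575401051291382944875476350711583804147573895812173341243891647034723312404973773559903473332961580149234636966139321412035254927478703109120415411627638310109381079577129033669040454853314424975892652190673006189762060516665010037999422355274315174154526612744453012643427649007787178448159102103588751444468051155601845019587782364859091566297724862509282726085735612375507575380342160657589150035763287789013890886938759817006304893326592470194849876656055307503663106132327792666747784841560187436405273794480888775749059039623710782469379671423988360884658422869477801184803201087758561013884482973847448378970152872901756075200268943096052960348912709796614146267654110406030152340097659374856685935740338343764040646663080788323460938720656924628128836080750401986621224882297355328315648995345451999961396246449312480800923247734230248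3593687765614265584587925966425038048960945488913968797961793162377652117202547770848677543573845496624044353251946187312200679466283360830955500984215679015540750710323564946256565359850418963847061529281799507244219114206250278768539928788284068075641944751719822052109441554217427064205403369212915189088844764405538771387539576224862878793595430153876762143663790451850543287949830207688055297457396199476836031223916038907613252754602001405293250792225786247092115739859956213785371999693571743264502124981686228641851464924690462942303859834638200183318208104622228813977164176124729340032552635528060637293836715438242579202125235862921919392637472441458544493693044705996891698815978635953643374184771574754560609666638919880227551289297873136875968596512479234308048406847816983448377054734727137177435621768933308344059773158331097620267921774190986149817168574172747878069718843341777988189577198840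3811566159295602669058399731778503686570545610380527843440024895156943687833806443403437260996464421503789920754731896174558474332988282873453027550709952314563518353660329589228075430839328189551452947738494946592916990018309563005342190637481890162105730547131717576035204131248478183265655913966008332016806220477753660377912321316208307635290916533121165171763903583092465053532600665639663106620333046445250308466584431294297834526318118442922269368535789937454560119645121954224193708550767372614786065563118835446945408867537285399136101356664878635110508944494612870881158905846631486023361858770809745841934838338526435019451303419315579760460237564796509892279689165164069755699540013830371837805829245906856005323312748571368276117780153975145694487933271355453042002489476427651675849243127251038263008787598570962989261065611403155465422201110345801921542687235795665255552193212025702849879247819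6040788218442409965552229444832264299840778834900095189009139642898731962950829728020110789594708756849661028930919935582175068994697576043630537387072030542048044972721926317204963166411113942527332106564371171670650589982681026119982863838770954484531166288910707907547975629285826977042822604263910347072959403461333277497826864750062928981735953024220624158144620505397599609881853699425295617717069002537614162435967203539933098023006587867234605809872096872570530950982975973110388156515097820305926252774359681752533575711618447948605052405519102898577879975790351853478691763186496959616287416900096024942753041370235957821955493185494073658484251555048453863545918788548658540777559192845938494422769918106968781735348926190432457986534649662639730225856911489122130813272967496581316612406041021443235077721000103023631481650346297616082040060681114196790256123578961211114242178920077357180231004297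3504720252610365895802260076279157869842043260176487858632132196670875549608325455684835285590298804161086150850657426238972608637119609871028568356795410652004951657007982654481834175057228467770181978583651059886636526501946101543313171043814526111711524631701678725655117097643930280010980231868309964269606666828878174082813288239211025354440591298120102575325306053910243667216466020138451203521327112976448993634563278398031106485379998575277445409631792209476924386635054291621597861180832104194488175388545081370789826829459624231815557007108233593539663667128906306813776767045995348756235036125334417898565563196860653270193899486461570978113775927792123015494294380958121025312403407564323624035793269307625471063817684191663534161281448991686364285516229596208735186411656364479892318559396325173047577777829160610948652269087093403628108742422906725069940507540437252729735473790946778108197867804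7574696687155221723354529513625830833212378919300043842739941297056067703478493683870250339173010177078672986502721138527258370666480616946203423921668534557847338197876177310289031439134383438652275573388412661959717554673109512762966208894037070888779703723187855903927542423409252689040340318975268591462065917205520157464407018673326397675127553425475520559092937989200103187726609580828924434850862705462282057052704036222716860339892909420733990745090215504659246790416798008109195533521475473867223683561081772060276416156835762844426969746531723256964837907009785993438381226860799644242210234998810952794557758156051001056318906037806207505872566850208418147487380061364764891321200425778852435709422989005526615724098667268985015063097583704123083069478481208908145569717915862497815957370499849130595668468193572354458261579130427496761808699094110549841156917342519087024538742625223471300112026052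8246625550565469219737440360340116427700721297171216173489489469053604135025363674088906066648624174715524342667348725527617280660132078269443967989104687745072502942178643519239757382798286869399815579363311684157000834774986771348060040152861843867929441067446251354464187717136805755372254992600265178736304428794673893167921555250892812823971366305740367295961778809463641937043481046706497588580197834168061967400499072261978731076405477156330336224975231913190546563595846884899685820882225951377291892009664631657369139548049998300777426502481503956284354413755772916111577521765544807510698155308128433233955732340652871033116017430663419881977998093460315846162506797594780842605504979656961726751822536962563873727067080756844264511757310007627377026890595153919237160407930547667218879735349344753587071033807724883477259323604333441741777960894778240721484890184569510922542985385777589023359701967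2480280550101710022697625434611211128788699362768140864153774532176257164810557028879828630924160872216076681318079629167486863331163820463482952321791023244221575082152189004387136858602269399816955952072136178074204163245458145677019085853857848768233895397815658393576103872834431693492364470662212250684647258029526864462830623505500439275923329122959785636694692900260231943469001702790451264048341768447191857087203350802856515935184578477605993158293639318504432797316794674432783489731957134640220961178780762626191692805510603321778754203083366096010387157367106284735798958909547854120845205736996581431433107522413235968268031269801567537606720109512069691538072033679525342625454678203638425902724914173233795336932479150616147578550986319499403731536618702628158451374186831099826686446817623728036814242949257569908004793314572239709396415623842644727989009614771037562053050931372176186131845680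3274263972633313418003783385922595916186061294294443866908584079829672656428769368009041725437794251847125151354870767062541150681744234073366768485657471103603940494259546668238350424092086758379987325451565979193258225939281116009082776789666799885522030301787373825784634132170316039473657824398365907635419349224799739994603544460352543882634426459356757749293267417167539665669889114721843759536443679714328253148461415733272860169647551635343386887597371576617878897214089307353779979070984987154380759828787338365173694366672027707409305845396658573047349745040389401334829301300166524036611214814771843453359299343462897788239609930720420280321815057876775678502542529915122630029309820358097873927968983968161734596103149154843693737848523867120262048720886536780464203325430102291441276690695539057553063770994294990383764083220406540916952425161298013501195619571595734041234595579969094612000207058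9241530619950934849907010889755553306308517360808473072499421766187097913036995724768526725322329244941774533038208022364264189654314310098055242193357018177479823340784189460975140477784736683699860393039047804917751747199865609848534204603612712125740165271012418839876549572607479714154143909861039241791728447380936464561798180728082990366204995045466197027157202363761251815705577348440171741208760765435508678991113441699742364756874024631015819081306905736785869404433356639827161567934588038550006944295659719622828368415250151345437008918068295526910372919255006530513693071182228605050064791437770413135040247732619631399615918026427513575532900658043425832048023591008228689881791563608121988369487475653187301263519294691439523311253775047861200254514417321613968755416177733982077240156122736440347446074982554958665241884348373493950410105726835942120397048631222422493500683552767176546273965290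7338740530204696257813693954486608771280189659899530917289355734187586305031478026644860545508500350265823583176817337529064112913167150269760749004946637698428954518621777709349763174507251635926111228585355705074159816800671769068013163188125510452048919070489372033630313515586048672879074513055688109078429588483980666744065980377042667505743658174345553356974102576463003006500223785611531011458296236994660411541248551475494482924461191025821336374505930354859513600108927390213235761924362746588970743158882893004155953741155673355810782477177284443689397620553232268502267753602638090530238403399686608651638832882951403463560924369216778750379310824979933579236691973661361405310291821594470646457757715552440431050225741146406492247779770879284091426828820678621180644787777301988826694116107702411498165226376509491879071156308763955399948275866101249495677264494393805596786608058485979971583416633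3383929206942049635824354731654381902839590669780421739892574940546048760981946919923807078714041331858051526677041628221487230379856472539486697425023778507326778728226836835566093144252162111405668644091678937601307657995771736487626171597830195539459615063792674797139013877309094393282334452832327139788050780654169033893375920087745450570670705609881256379912577720309162453091964105546044925601085501849549832133094248187114061116258643329378562329430694493461017868897022520738795819683117879553063494141361727392948792247557580257928893840421626002800144352669225238598170491152101682149190901131077220564484363219002143144590238567804807958992241922757406288876586436427928772685847512578001380162436188341585175472726300604080906163481815003120898787889662364541881708231010818805272629851051285069032912976638272050820349879288917050079051776)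

noncomputable def rc0 : Nat := (nat_lit 1064796989320237640473705344940498659608730374495080634455962409533927260595313113670057457820875033092682489845363306802826249689385074179029357237215619069000083887070683161681632553729553779235053137096449138876098477309003917779333004984163306263124362246610761042790844327945016660212148759228202929863463299753560562164330843824127921767116169322781224870368840786702570870927053387369439794822201712061134188685588370017345993192492294749715300592031786611930308500984158671825074859259381990554131964277902806907842419877744256539085435418536295532256052204613374398919467265665085473380801137334313541346093703723765583935362477730476897603885607769901219958839693957315922441177216586044752226441492285025698737258716448848402454079359180891356486805917490674310242470259739513143027442658926440121674120227675359356040293105390067430543496371036572488192980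9410815497164002998241865199436740285337658940994350242522433869799407901573469757178597103685787448496768731051057617401380163416148536418270614796949859989768544800296005637603717518410269995383210642942130116910483932278007127670981241389611364483322769894604903929749432221525509826915195912254521389576004541897228867652471952047632510523305460494655083389594276829700590219084848295168387298966630730217070800742223264040891311008933302074828745641876767082336095215973393936091125411162879572738465532218135706250230345963467701298146379400131689252107689989915965032447235981328657012593303722142494897969044109866181265341184816029457970990583909907274999573028365813456166770181783554788545987487653096356108256228428955197272714476398497478563830208160037792459501583333796034370017725277732830203986500944630016644269092377534605782136231050231201606626755896477830932230886975269727856457847659163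4747510466012888395844313165481792988456251949803049529623383412467266296192798249600487192487886445351855042892635001796502378715076471843914983457059039134241222640457641083652594797945589228605210743143209235951469657908214575367113362458904545046598954344975798884463050325192589974533089737474924513153999993013038168573013638770950350502576206943478309305157565096962774655224433204655145017932467607693905929459894617592306064296589603381468293001606368345759064297111528117445382505095218687639472254764769369058257871434719051315392132173222516968779772975863908530640256509041883411161639101380552659256078289032603420253932874003873656118853530828263222929764245969224417836468108011337514841442535404032201867105885616029591510242067597862360566490397030527952596381486982634924437084354934012360820810805701635743138820213037300545423464441611256087376045660890288300557605459818853205024817944699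1216188560466964659013295665277890590161796672572427248886512811907364296126783694891155554606918234336645764270225061731770357663133462536163166478218562632711886098272991587081348406534731089903532853123292384185813595485312826369439739519225626315849663063626240018299667937073344857742450868761433213730935851413565938552664009713190619670436203224127032084039553759133532886007995607282577036494672580422863262097077790170219359051695164186594072632343916822075528311556071717554059332866736970009109166269203976790427451702778274586242749764884843997893987754374624300177943888690381322710331580728686356969648366494844861305745430813679237587460328547388523191387389415318719305170808321259655770304314679005351476317823166257410302064812628660362563153938133434621246787083265239546768329600689565981027424560363473369675906356537968542606635542407672929347901565361155588061972342010302197336291905777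9335702418158633980351845924356023301004113962561357788185501774294745937902600948851785552880308207947412001866331487858275265466588663563650654938356507214710459384575881992620545377503117548303539924115650747595156697522291383634267603669360698065660507382107400996043445846436847551683188288179044532576818550857998089210072168725944314298295593764224998599686252111864386935694917641111068447087375911817590700182544450515136345963798789084920122250066874228860946538949029166481287775870205495658991208681782080615926573940578357623987681019006551273060407894579582495406262546510726277750007647796208988832867846092303667844511469277204032807228100648119336882414268474515613071183200075006791745065478215346275215237896241941214985533219288855436464766454587628622953777036332993774770378770011730894793643555397393776487792567865402660790215412849772392251385918267644997056931246016342896527227763231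4849461919644225691977333493606996876162306506568327214714851713426575401051291382944875476350711583804147573895812173341243891647034723312404973773559903473332961580149234636966139321412035254927478703109120415411627638310109381079577129033669040454853314424975892652190673006189762060516665010037999422355274315174154526612744453012643427649007787178448159102103588751444468051155601845019587782364859091566297724862509282726085735612375507575380342160657589150035763287789013890886938759817006304893326592470194849876656055307503663106132327792666747784841560187436405273794480888775749059039623710782469379671423988360884658422869477801184803201087758561013884482973847448378970152872901756075200268943096052960348912709796614146267654110406030152340097659374856685935740338343764040646663080788323460938720656924628128836080750401986621224882297355328315648995345451999961396246449312480800923247734230248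3593687765614265584587925966425038048960945488913968797961793162377652117202547770848677543573845496624044353251946187312200679466283360830955500984215679015540750710323564946256565359850418963847061529281799507244219114206250278768539928788284068075641944751719822052109441554217427064205403369212915189088844764405538771387539576224862878793595430153876762143663790451850543287949830207688055297457396199476836031223916038907613252754602001405293250792225786247092115739859956213785371999693571743264502124981686228641851464924690462942303859834638200183318208104622228813977164176124729340032552635528060637293836715438242579202125235862921919392637472441458544493693044705996891698815978635953643374184771574754560609666638919880227551289297873136875968596512479234308048406847816983448377054734727137177435621768933308344059773158331097620267921774190986149817168574172747878069718843341777988189577198840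3811566159295602669058399731778503686570545610380527843440024895156943687833806443403437260996464421503789920754731896174558474332988282873453027550709952314563518353660329589228075430839328189551452947738494946592916990018309563005342190637481890162105730547131717576035204131248478183265655913966008332016806220477753660377912321316208307635290916533121165171763903583092465053532600665639663106620333046445250308466584431294297834526318118442922269368535789937454560119645121954224193708550767372614786065563118835446945408867537285399136101356664878635110508944494612870881158905846631486023361858770809745841934838338526435019451303419315579760460237564796509892279689165164069755699540013830371837805829245906856005323312748571368276117780153975145694487933271355453042002489476427651675849243127251038263008787598570962989261065611403155465422201110345801921542687235795665255552193212025702849879247819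6040788218442409965552229444832264299840778834900095189009139642898731962950829728020110789594708756849661028930919935582175068994697576043630537387072030542048044972721926317204963166411113942527332106564371171670650589982681026119982863838770954484531166288910707907547975629285826977042822604263910347072959403461333277497826864750062928981735953024220624158144620505397599609881853699425295617717069002537614162435967203539933098023006587867234605809872096872570530950982975973110388156515097820305926252774359681752533575711618447948605052405519102898577879975790351853478691763186496959616287416900096024942753041370235957821955493185494073658484251555048453863545918788548658540777559192845938494422769918106968781735348926190432457986534649662639730225856911489122130813272967496581316612406041021443235077721000103023631481650346297616082040060681114196790256123578961211114242178920077357180231004297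3504720252610365895802260076279157869842043260176487858632132196670875549608325455684835285590298804161086150850657426238972608637119609871028568356795410652004951657007982654481834175057228467770181978583651059886636526501946101543313171043814526111711524631701678725655117097643930280010980231868309964269606666828878174082813288239211025354440591298120102575325306053910243667216466020138451203521327112976448993634563278398031106485379998575277445409631792209476924386635054291621597861180832104194488175388545081370789826829459624231815557007108233593539663667128906306813776767045995348756235036125334417898565563196860653270193899486461570978113775927792123015494294380958121025312403407564323624035793269307625471063817684191663534161281448991686364285516229596208735186411656364479892318559396325173047577777829160610948652269087093403628108742422906725069940507540437252729735473790946778108197867804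7574696687155221723354529513625830833212378919300043842739941297056067703478493683870250339173010177078672986502721138527258370666480616946203423921668534557847338197876177310289031439134383438652275573388412661959717554673109512762966208894037070888779703723187855903927542423409252689040340318975268591462065917205520157464407018673326397675127553425475520559092937989200103187726609580828924434850862705462282057052704036222716860339892909420733990745090215504659246790416798008109195533521475473867223683561081772060276416156835762844426969746531723256964837907009785993438381226860799644242210234998810952794557758156051001056318906037806207505872566850208418147487380061364764891321200425778852435709422989005526615724098667268985015063097583704123083069478481208908145569717915862497815957370499849130595668468193572354458261579130427496761808699094110549841156917342519087024538742625223471300112026052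8246625550565469219737440360340116427700721297171216173489489469053604135025363674088906066648624174715524342667348725527617280660132078269443967989104687745072502942178643519239757382798286869399815579363311684157000834774986771348060040152861843867929441067446251354464187717136805755372254992600265178736304428794673893167921555250892812823971366305740367295961778809463641937043481046706497588580197834168061967400499072261978731076405477156330336224975231913190546563595846884899685820882225951377291892009664631657369139548049998300777426502481503956284354413755772916111577521765544807510698155308128433233955732340652871033116017430663419881977998093460315846162506797594780842605504979656961726751822536962563873727067080756844264511757310007627377026890595153919237160407930547667218879735349344753587071033807724883477259323604333441741777960894778240721484890184569510922542985385777589023359701967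2480280550101710022697625434611211128788699362768140864153774532176257164810557028879828630924160872216076681318079629167486863331163820463482952321791023244221575082152189004387136858602269399816955952072136178074204163245458145677019085853857848768233895397815658393576103872834431693492364470662212250684647258029526864462830623505500439275923329122959785636694692900260231943469001702790451264048341768447191857087203350802856515935184578477605993158293639318504432797316794674432783489731957134640220961178780762626191692805510603321778754203083366096010387157367106284735798958909547854120845205736996581431433107522413235968268031269801567537606720109512069691538072033679525342625454678203638425902724914173233795336932479150616147578550986319499403731536618702628158451374186831099826686446817623728036814242949257569908004793314572239709396415623842644727989009614771037562053050931372176186131845680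3274263972633313418003783385922595916186061294294443866908584079829672656428769368009041725437794251847125151354870767062541150681744234073366768485657471103603940494259546668238350424092086758379987325451565979193258225939281116009082776789666799885522030301787373825784634132170316039473657824398365907635419349224799739994603544460352543882634426459356757749293267417167539665669889114721843759536443679714328253148461415733272860169647551635343386887597371576617878897214089307353779979070984987154380759828787338365173694366672027707409305845396658573047349745040389401334829301300166524036611214814771843453359299343462897788239609930720420280321815057876775678502542529915122630029309820358097873927968983968161734596103149154843693737848523867120262048720886536780464203325430102291441276690695539057553063770994294990383764083220406540916952425161298013501195619571595734041234595579969094612000207058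9241530619950934849907010889755553306308517360808473072499421766187097913036995724768526725322329244941774533038208022364264189654314310098055242193357018177479823340784189460975140477784736683699860393039047804917751747199865609848534204603612712125740165271012418839876549572607479714154143909861039241791728447380936464561798180728082990366204995045466197027157202363761251815705577348440171741208760765435508678991113441699742364756874024631015819081306905736785869404433356639827161567934588038550006944295659719622828368415250151345437008918068295526910372919255006530513693071182228605050064791437770413135040247732619631399615918026427513575532900658043425832048023591008228689881791563608121988369487475653187301263519294691439523311253775047861200254514417321613968755416177733982077240156122736440347446074982554958665241884348373493950410105726835942120397048631222422493500683552767176546273965290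7338740530204696257813693954486608771280189659899530917289355734187586305031478026644860545508500350265823583176817337529064112913167150269760749004946637698428954518621777709349763174507251635926111228585355705074159816800671769068013163188125510452048919070489372033630313515586048672879074513055688109078429588483980666744065980377042667505743658174345553356974102576463003006500223785611531011458296236994660411541248551475494482924461191025821336374505930354859513600108927390213235761924362746588970743158882893004155953741155673355810782477177284443689397620553232268502267753602638090530238403399686608651638832882951403463560924369216778750379310824979933579236691973661361405310291821594470646457757715552440431050225741146406492247779770879284091426828820678621180644787777301988826694116107702411498165226376509491879071156308763955399948275866101249495677264494393805596786608058485979971583416633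3383929206942049635824354731654381902839590669780421739892574940546048760981946919923807078714041331858051526677041628221487230379856472539486697425023778507326778728226836835566093144252162111405668644091678937601307657995771736487626171597830195539459615063792674797139013877309094393282334452832327139788050780654169033893375920087745450570670705609881256379912577720309162453091964105546044925601085501849549832133094248187114061116258643329378562329430694493461017868897022520738795819683117879553063494141361727392948792247557580257928893840421626002800144352669225238598170491152101682149190901131077220564484363219002143144590238567804807958992241922757406288876586436427928772685847512578001380162436188341585175472726300604080906163481815003120898787889662364541881708231010818805272629851051285069032912976638272050820349879288917050079051776)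

end Vale.Agent.Lib.P154.PChain.BJ.S7
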